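import Vale.Agent.Lib.P062.Data.Lines

namespace Vale.Agent.Lib.P062.Data

theorem c11_s108 : Sem (nat_lit 1386334847383188664550070665778531748218595021979121511688892729411143073470393764272092352380775458208712834410189682411080515584) (nat_lit 1179363258141160341632306725041411996683121851573712146622654387803635372366236488486197976036245525980629507179713024691665822271075987756169643167872986979250017927168) (nat_lit 1179363258141160341632306725041411996683121851573712146622654387803635372366236488486197976036245525980629507179713024691665822271075987756169643167872986979250017927168) :=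
  sem_of_chk (M (nat_lit 461) (B (M (nat_lit 493) (B (M (nat_lit 364) (B (L (nat_lit 396) ln13_15_7 ln13_15_7_ok) (M (nat_lit 365) (B (L (nat_lit 332) ln13_14_7 ln13_14_7_ok) (M (nat_lit 366) (B (L (nat_lit 334) ln13_14_6 ln13_14_6_ok) (L (nat_lit 398) ln13_15_6 ln13_15_6_ok))))))) (M (nat_lit 524) (B (L (nat_lit 492) ln13_12_5 ln13_12_5_ok) (M (nat_lit 525) (B (L (nat_lit 556) ln13_13_5 ln13_13_5_ok) (M (nat_lit 526) (B (L (nat_lit 494) ln13_12_4 ln13_12_4_ok) (L (nat_lit 558) ln13_13_4 ln13_13_4_ok))))))))) (B (M (nat_lit 493) (B (M (nat_lit 365) (B (M (nat_lit 366) (B (L (nat_lit 334) ln13_14_6 ln13_14_6_ok) (L (nat_lit 398) ln13_15_6 ln13_15_6_ok))) (M (nat_lit 492) (B (L (nat_lit 460) ln13_11_5 ln13_11_5_ok) (L (nat_lit 524) ln13_12_5 ln13_12_5_ok))))) (M (nat_lit 525) (B (M (nat_lit 396) (B (L (nat_lit 364) ln13_15_7 ln13_15_7_ok) (L (nat_lit 428) ln13_16_7 ln13_16_7_ok))) (M (nat_lit 526)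 (B (L (nat_lit 494) ln13_12_4 ln13_12_4_ok) (L (nat_lit 558) ln13_13_4 ln13_13_4_ok))))))) (B (M (nat_lit 493) (B (M (nat_lit 525) (B (M (nat_lit 398) (B (L (nat_lit 366) ln13_15_6 ln13_15_6_ok) (L (nat_lit 430) ln13_16_6 ln13_16_6_ok))) (M (nat_lit 526) (B (L (nat_lit 494) ln13_12_4 ln13_12_4_ok) (L (nat_lit 558) ln13_13_4 ln13_13_4_ok))))) (B (M (nat_lit 525) (B (M (nat_lit 396) (B (L (nat_lit 364) ln13_15_7 ln13_15_7_ok) (L (nat_lit 428) ln13_16_7 ln13_16_7_ok))) (M (nat_lit 526) (B (L (nat_lit 494) ln13_12_4 ln13_12_4_ok) (L (nat_lit 558) ln13_13_4 ln13_13_4_ok))))) (B (M (nat_lit 525) (B (M (nat_lit 396) (B (L (nat_lit 364) ln13_15_7 ln13_15_7_ok) (L (nat_lit 428) ln13_16_7 ln13_16_7_ok))) (M (nat_lit 398) (B (L (nat_lit 366) ln13_15_6 ln13_15_6_ok) (L (nat_lit 430) ln13_16_6 ln13_16_6_ok))))) (M (nat_lit 365) (B (M (nat_lit 364) (B (L (nat_lit 332) ln13_14_7 ln13_14_7_ok) (L (nat_lit 396) ln13_15_7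 ln13_15_7_ok))) (M (nat_lit 492) (B (L (nat_lit 460) ln13_11_5 ln13_11_5_ok) (L (nat_lit 524) ln13_12_5 ln13_12_5_ok))))))))) (B (M (nat_lit 493) (B (M (nat_lit 524) (B (L (nat_lit 492) ln13_12_5 ln13_12_5_ok) (M (nat_lit 525) (B (L (nat_lit 556) ln13_13_5 ln13_13_5_ok) (M (nat_lit 526) (B (L (nat_lit 494) ln13_12_4 ln13_12_4_ok) (L (nat_lit 558) ln13_13_4 ln13_13_4_ok))))))) (B (M (nat_lit 525) (B (M (nat_lit 398) (B (L (nat_lit 366) ln13_15_6 ln13_15_6_ok) (L (nat_lit 430) ln13_16_6 ln13_16_6_ok))) (M (nat_lit 526) (B (L (nat_lit 494) ln13_12_4 ln13_12_4_ok) (L (nat_lit 558) ln13_13_4 ln13_13_4_ok))))) (B (M (nat_lit 525) (B (M (nat_lit 398) (B (L (nat_lit 366) ln13_15_6 ln13_15_6_ok) (L (nat_lit 430) ln13_16_6 ln13_16_6_ok))) (M (nat_lit 524) (B (L (nat_lit 492) ln13_12_5 ln13_12_5_ok) (L (nat_lit 556) ln13_13_5 ln13_13_5_ok))))) (M (nat_lit 365) (B (M (nat_lit 366) (B (L (nat_lit 334) ln13_14_6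 ln13_14_6_ok) (L (nat_lit 398) ln13_15_6 ln13_15_6_ok))) (M (nat_lit 492) (B (L (nat_lit 460) ln13_11_5 ln13_11_5_ok) (L (nat_lit 524) ln13_12_5 ln13_12_5_ok))))))))) (B (M (nat_lit 493) (B (M (nat_lit 524) (B (L (nat_lit 492) ln13_12_5 ln13_12_5_ok) (M (nat_lit 525) (B (L (nat_lit 556) ln13_13_5 ln13_13_5_ok) (M (nat_lit 526) (B (L (nat_lit 494) ln13_12_4 ln13_12_4_ok) (L (nat_lit 558) ln13_13_4 ln13_13_4_ok))))))) (B (M (nat_lit 525) (B (M (nat_lit 396) (B (L (nat_lit 364) ln13_15_7 ln13_15_7_ok) (L (nat_lit 428) ln13_16_7 ln13_16_7_ok))) (M (nat_lit 526) (B (L (nat_lit 494) ln13_12_4 ln13_12_4_ok) (L (nat_lit 558) ln13_13_4 ln13_13_4_ok))))) (B (M (nat_lit 525) (B (M (nat_lit 396) (B (L (nat_lit 364) ln13_15_7 ln13_15_7_ok) (L (nat_lit 428) ln13_16_7 ln13_16_7_ok))) (M (nat_lit 524) (B (L (nat_lit 492) ln13_12_5 ln13_12_5_ok) (L (nat_lit 556) ln13_13_5 ln13_13_5_ok))))) (M (nat_lit 396) (B (L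 (nat_lit 364) ln13_15_7 ln13_15_7_ok) (M (nat_lit 398) (B (L (nat_lit 366) ln13_15_6 ln13_15_6_ok) (M (nat_lit 395) (B (M (nat_lit 430) (B (L (nat_lit 394) ln10_12_0 ln10_12_0_ok) (L (nat_lit 431) ln11_12_0 ln11_12_0_ok))) (B (M (nat_lit 399) (B (M (nat_lit 427) (B (L (nat_lit 426) ln14_12_1 ln14_12_1_ok) (L (nat_lit 428) ln15_12_1 ln15_12_1_ok))) (M (nat_lit 431) (B (L (nat_lit 430) ln11_12_0 ln11_12_0_ok) (L (nat_lit 432) ln12_12_0 ln12_12_0_ok))))) (M (nat_lit 394) (B (M (nat_lit 362) (B (L (nat_lit 361) ln13_12_3 ln13_12_3_ok) (L (nat_lit 363) ln14_12_3 ln14_12_3_ok))) (M (nat_lit 426) (B (L (nat_lit 425) ln13_12_1 ln13_12_1_ok) (L (nat_lit 427) ln14_12_1 ln14_12_1_ok)))))))))))))))) (B (M (nat_lit 493) (B (M (nat_lit 525) (B (M (nat_lit 396) (B (L (nat_lit 364) ln13_15_7 ln13_15_7_ok) (L (nat_lit 428) ln13_16_7 ln13_16_7_ok))) (M (nat_lit 526) (B (L (nat_lit 494) ln13_12_4 ln13_12_4_ok) (L (nat_lit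 558) ln13_13_4 ln13_13_4_ok))))) (B (M (nat_lit 524) (B (L (nat_lit 492) ln13_12_5 ln13_12_5_ok) (M (nat_lit 525) (B (L (nat_lit 556) ln13_13_5 ln13_13_5_ok) (M (nat_lit 526) (B (L (nat_lit 494) ln13_12_4 ln13_12_4_ok) (L (nat_lit 558) ln13_13_4 ln13_13_4_ok))))))) (B (M (nat_lit 525) (B (M (nat_lit 396) (B (L (nat_lit 364) ln13_15_7 ln13_15_7_ok) (L (nat_lit 428) ln13_16_7 ln13_16_7_ok))) (M (nat_lit 524) (B (L (nat_lit 492) ln13_12_5 ln13_12_5_ok) (L (nat_lit 556) ln13_13_5 ln13_13_5_ok))))) (M (nat_lit 365) (B (M (nat_lit 364) (B (L (nat_lit 332) ln13_14_7 ln13_14_7_ok) (L (nat_lit 396) ln13_15_7 ln13_15_7_ok))) (M (nat_lit 492) (B (L (nat_lit 460) ln13_11_5 ln13_11_5_ok) (L (nat_lit 524) ln13_12_5 ln13_12_5_ok))))))))) (B (M (nat_lit 493) (B (M (nat_lit 525) (B (M (nat_lit 398) (B (L (nat_lit 366) ln13_15_6 ln13_15_6_ok) (L (nat_lit 430) ln13_16_6 ln13_16_6_ok))) (M (nat_lit 526) (B (L (nat_lit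 494) ln13_12_4 ln13_12_4_ok) (L (nat_lit 558) ln13_13_4 ln13_13_4_ok))))) (B (M (nat_lit 525) (B (M (nat_lit 396) (B (L (nat_lit 364) ln13_15_7 ln13_15_7_ok) (L (nat_lit 428) ln13_16_7 ln13_16_7_ok))) (M (nat_lit 526) (B (L (nat_lit 494) ln13_12_4 ln13_12_4_ok) (L (nat_lit 558) ln13_13_4 ln13_13_4_ok))))) (B (M (nat_lit 525) (B (M (nat_lit 396) (B (L (nat_lit 364) ln13_15_7 ln13_15_7_ok) (L (nat_lit 428) ln13_16_7 ln13_16_7_ok))) (M (nat_lit 398) (B (L (nat_lit 366) ln13_15_6 ln13_15_6_ok) (L (nat_lit 430) ln13_16_6 ln13_16_6_ok))))) (M (nat_lit 364) (B (L (nat_lit 396) ln13_15_7 ln13_15_7_ok) (M (nat_lit 365) (B (L (nat_lit 332) ln13_14_7 ln13_14_7_ok) (M (nat_lit 366) (B (L (nat_lit 334) ln13_14_6 ln13_14_6_ok) (L (nat_lit 398) ln13_15_6 ln13_15_6_ok))))))))))) (M (nat_lit 365) (B (M (nat_lit 460) (B (L (nat_lit 492) ln13_11_5 ln13_11_5_ok) (M (nat_lit 332) (B (L (nat_lit 364) ln13_14_7 ln13_14_7_ok)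 (M (nat_lit 333) (B (L (nat_lit 300) ln13_13_7 ln13_13_7_ok) (L (nat_lit 428) ln13_10_5 ln13_10_5_ok))))))) (B (M (nat_lit 333) (B (M (nat_lit 334) (B (L (nat_lit 302) ln13_13_6 ln13_13_6_ok) (L (nat_lit 366) ln13_14_6 ln13_14_6_ok))) (M (nat_lit 460) (B (L (nat_lit 428) ln13_10_5 ln13_10_5_ok) (L (nat_lit 492) ln13_11_5 ln13_11_5_ok))))) (M (nat_lit 364) (B (L (nat_lit 332) ln13_14_7 ln13_14_7_ok) (M (nat_lit 366) (B (L (nat_lit 334) ln13_14_6 ln13_14_6_ok) (M (nat_lit 363) (B (M (nat_lit 398) (B (L (nat_lit 362) ln10_11_0 ln10_11_0_ok) (L (nat_lit 399) ln11_11_0 ln11_11_0_ok))) (B (M (nat_lit 367) (B (M (nat_lit 395) (B (L (nat_lit 394) ln14_11_1 ln14_11_1_ok) (L (nat_lit 396) ln15_11_1 ln15_11_1_ok))) (M (nat_lit 399) (B (L (nat_lit 398) ln11_11_0 ln11_11_0_ok) (L (nat_lit 400) ln12_11_0 ln12_11_0_ok))))) (M (nat_lit 362) (B (M (nat_lit 330) (B (L (nat_lit 329) ln13_11_3 ln13_11_3_ok) (L (nat_lit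 331) ln14_11_3 ln14_11_3_ok))) (M (nat_lit 394) (B (L (nat_lit 393) ln13_11_1 ln13_11_1_ok) (L (nat_lit 395) ln14_11_1 ln14_11_1_ok))))))))))))))))))))))) (nat_lit 1386334847383188664550070665778531748218595021979121511688892729411143073470393764272092352380775458208712834410189682411080515584) (nat_lit 1179363258141160341632306725041411996683121851573712146622654387803635372366236488486197976036245525980629507179713024691665822271075987756169643167872986979250017927168) (nat_lit 1179363258141160341632306725041411996683121851573712146622654387803635372366236488486197976036245525980629507179713024691665822271075987756169643167872986979250017927168) (by decide +kernel)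
theorem c11_s312 : Sem (nat_lit 1386334847383188664625224028427294411511058401076380296564914570976209309333027075361123041184442928399551202358502280908102434816) (nat_lit 54918381319404923915069513179998342658892913269124608645794323360741847746424668176681130109690185322271328015985451654843155341103417266141886451673183813632) (nat_lit 54918381319404923915069513179998342658892913269124608645794323360741847746424668176681130109690185322271328015985451654843155341103417266141886451673183813632) :=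
  sem_of_chk (M (nat_lit 364) (B (M (nat_lit 461) (B (L (nat_lit 332) ln13_14_7 ln13_14_7_ok) (M (nat_lit 460) (B (L (nat_lit 492) ln13_11_5 ln13_11_5_ok) (M (nat_lit 333) (B (L (nat_lit 428) ln13_10_5 ln13_10_5_ok) (M (nat_lit 334) (B (L (nat_lit 302) ln13_13_6 ln13_13_6_ok) (L (nat_lit 366) ln13_14_6 ln13_14_6_ok))))))))) (B (M (nat_lit 461) (B (L (nat_lit 332) ln13_14_7 ln13_14_7_ok) (M (nat_lit 493) (B (M (nat_lit 366) (B (L (nat_lit 334) ln13_14_6 ln13_14_6_ok) (L (nat_lit 398) ln13_15_6 ln13_15_6_ok))) (M (nat_lit 492) (B (L (nat_lit 460) ln13_11_5 ln13_11_5_ok) (L (nat_lit 524) ln13_12_5 ln13_12_5_ok))))))) (B (M (nat_lit 366) (B (M (nat_lit 334) (B (L (nat_lit 461) ln13_14_6 ln13_14_6_ok) (M (nat_lit 302) (B (L (nat_lit 270) ln14_8_5 ln14_8_5_ok) (L (nat_lit 333) ln13_13_6 ln13_13_6_ok))))) (B (M (nat_lit 334) (B (L (nat_lit 461) ln13_14_6 ln13_14_6_ok) (M (nat_lit 302) (B (L (nat_lit 333)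 ln13_13_6 ln13_13_6_ok) (L (nat_lit 398) ln14_9_5 ln14_9_5_ok))))) (B (M (nat_lit 363) (B (M (nat_lit 334) (B (L (nat_lit 335) ln11_11_2 ln11_11_2_ok) (L (nat_lit 461) ln13_14_6 ln13_14_6_ok))) (M (nat_lit 398) (B (L (nat_lit 362) ln10_11_0 ln10_11_0_ok) (L (nat_lit 399) ln11_11_0 ln11_11_0_ok))))) (B (M (nat_lit 398) (B (M (nat_lit 399) (B (L (nat_lit 363) ln11_11_0 ln11_11_0_ok) (L (nat_lit 400) ln16_12_3 ln16_12_3_ok))) (M (nat_lit 333) (B (M (nat_lit 301) (B (L (nat_lit 269) ln13_8_4 ln13_8_4_ok) (L (nat_lit 430) ln13_9_4 ln13_9_4_ok))) (M (nat_lit 460) (B (L (nat_lit 428) ln13_10_5 ln13_10_5_ok) (M (nat_lit 461) (B (L (nat_lit 492) ln13_11_5 ln13_11_5_ok) (L (nat_lit 493) ln13_15_6 ln13_15_6_ok))))))))) (M (nat_lit 363) (B (M (nat_lit 398) (B (L (nat_lit 362) ln10_11_0 ln10_11_0_ok) (L (nat_lit 399) ln11_11_0 ln11_11_0_ok))) (B (M (nat_lit 334) (B (L (nat_lit 335) ln11_11_2 ln11_11_2_ok) (M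 (nat_lit 398) (B (L (nat_lit 302) ln14_9_5 ln14_9_5_ok) (L (nat_lit 399) ln11_11_0 ln11_11_0_ok))))) (M (nat_lit 334) (B (L (nat_lit 335) ln11_11_2 ln11_11_2_ok) (M (nat_lit 302) (B (L (nat_lit 270) ln14_8_5 ln14_8_5_ok) (L (nat_lit 333) ln13_13_6 ln13_13_6_ok))))))))))))) (B (M (nat_lit 398) (B (M (nat_lit 399) (B (L (nat_lit 400) ln16_12_3 ln16_12_3_ok) (M (nat_lit 363) (B (L (nat_lit 362) ln10_11_0 ln10_11_0_ok) (L (nat_lit 366) ln11_11_0 ln11_11_0_ok))))) (B (M (nat_lit 366) (B (M (nat_lit 399) (B (L (nat_lit 363) ln11_11_0 ln11_11_0_ok) (L (nat_lit 400) ln16_12_3 ln16_12_3_ok))) (M (nat_lit 461) (B (L (nat_lit 332) ln13_14_7 ln13_14_7_ok) (L (nat_lit 493) ln13_15_6 ln13_15_6_ok))))) (B (M (nat_lit 461) (B (L (nat_lit 332) ln13_14_7 ln13_14_7_ok) (M (nat_lit 493) (B (L (nat_lit 366) ln13_15_6 ln13_15_6_ok) (M (nat_lit 492) (B (L (nat_lit 460) ln13_11_5 ln13_11_5_ok) (L (nat_lit 524) ln13_12_5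 ln13_12_5_ok))))))) (M (nat_lit 428) (B (M (nat_lit 461) (B (L (nat_lit 332) ln13_14_7 ln13_14_7_ok) (M (nat_lit 460) (B (L (nat_lit 333) ln13_10_5 ln13_10_5_ok) (L (nat_lit 492) ln13_11_5 ln13_11_5_ok))))) (M (nat_lit 399) (B (L (nat_lit 400) ln16_12_3 ln16_12_3_ok) (M (nat_lit 427) (B (L (nat_lit 426) ln10_13_2 ln10_13_2_ok) (L (nat_lit 430) ln11_13_2 ln11_13_2_ok))))))))))) (B (M (nat_lit 363) (B (M (nat_lit 362) (B (L (nat_lit 398) ln10_11_0 ln10_11_0_ok) (M (nat_lit 333) (B (L (nat_lit 334) ln10_11_2 ln10_11_2_ok) (M (nat_lit 332) (B (L (nat_lit 361) ln9_11_2 ln9_11_2_ok) (L (nat_lit 461) ln13_14_7 ln13_14_7_ok))))))) (B (M (nat_lit 362) (B (L (nat_lit 398) ln10_11_0 ln10_11_0_ok) (M (nat_lit 329) (B (L (nat_lit 330) ln13_11_3 ln13_11_3_ok) (M (nat_lit 393) (B (L (nat_lit 394) ln13_11_1 ln13_11_1_ok) (M (nat_lit 361) (B (L (nat_lit 328) ln12_11_3 ln12_11_3_ok) (L (nat_lit 392) ln12_11_1 ln12_11_1_ok)))))))))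 (B (M (nat_lit 333) (B (M (nat_lit 334) (B (L (nat_lit 302) ln13_13_6 ln13_13_6_ok) (L (nat_lit 362) ln10_11_2 ln10_11_2_ok))) (M (nat_lit 460) (B (L (nat_lit 428) ln13_10_5 ln13_10_5_ok) (M (nat_lit 461) (B (L (nat_lit 332) ln13_14_7 ln13_14_7_ok) (L (nat_lit 492) ln13_11_5 ln13_11_5_ok))))))) (M (nat_lit 460) (B (M (nat_lit 461) (B (L (nat_lit 332) ln13_14_7 ln13_14_7_ok) (L (nat_lit 492) ln13_11_5 ln13_11_5_ok))) (B (M (nat_lit 428) (B (L (nat_lit 333) ln13_10_5 ln13_10_5_ok) (M (nat_lit 492) (B (L (nat_lit 461) ln13_11_5 ln13_11_5_ok) (L (nat_lit 524) ln12_16_6 ln12_16_6_ok))))) (M (nat_lit 333) (B (L (nat_lit 428) ln13_10_5 ln13_10_5_ok) (M (nat_lit 334) (B (L (nat_lit 302) ln13_13_6 ln13_13_6_ok) (M (nat_lit 335) (B (L (nat_lit 332) ln15_10_1 ln15_10_1_ok) (L (nat_lit 336) ln16_10_1 ln16_10_1_ok)))))))))))))) (B (M (nat_lit 461) (B (L (nat_lit 332) ln13_14_7 ln13_14_7_ok) (M (nat_lit 366) (B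 (L (nat_lit 334) ln13_14_6 ln13_14_6_ok) (M (nat_lit 398) (B (L (nat_lit 493) ln13_15_6 ln13_15_6_ok) (M (nat_lit 363) (B (L (nat_lit 362) ln10_11_0 ln10_11_0_ok) (L (nat_lit 399) ln11_11_0 ln11_11_0_ok))))))))) (M (nat_lit 363) (B (M (nat_lit 398) (B (L (nat_lit 362) ln10_11_0 ln10_11_0_ok) (M (nat_lit 399) (B (L (nat_lit 366) ln11_11_0 ln11_11_0_ok) (L (nat_lit 400) ln16_12_3 ln16_12_3_ok))))) (B (M (nat_lit 366) (B (M (nat_lit 334) (B (L (nat_lit 335) ln11_11_2 ln11_11_2_ok) (M (nat_lit 398) (B (L (nat_lit 302) ln14_9_5 ln14_9_5_ok) (L (nat_lit 399) ln11_11_0 ln11_11_0_ok))))) (B (M (nat_lit 367) (B (M (nat_lit 331) (B (L (nat_lit 330) ln14_11_3 ln14_11_3_ok) (L (nat_lit 332) ln15_11_3 ln15_11_3_ok))) (M (nat_lit 399) (B (L (nat_lit 398) ln11_11_0 ln11_11_0_ok) (L (nat_lit 400) ln12_11_0 ln12_11_0_ok))))) (M (nat_lit 367) (B (M (nat_lit 331) (B (L (nat_lit 330) ln14_11_3 ln14_11_3_ok) (L (nat_lit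 332) ln15_11_3 ln15_11_3_ok))) (M (nat_lit 335) (B (L (nat_lit 334) ln11_11_2 ln11_11_2_ok) (L (nat_lit 336) ln12_11_2 ln12_11_2_ok)))))))) (B (M (nat_lit 362) (B (L (nat_lit 398) ln10_11_0 ln10_11_0_ok) (M (nat_lit 361) (B (M (nat_lit 329) (B (L (nat_lit 328) ln12_11_3 ln12_11_3_ok) (L (nat_lit 330) ln13_11_3 ln13_11_3_ok))) (M (nat_lit 333) (B (L (nat_lit 332) ln9_11_2 ln9_11_2_ok) (L (nat_lit 334) ln10_11_2 ln10_11_2_ok))))))) (M (nat_lit 366) (B (M (nat_lit 334) (B (L (nat_lit 335) ln11_11_2 ln11_11_2_ok) (M (nat_lit 302) (B (L (nat_lit 270) ln14_8_5 ln14_8_5_ok) (L (nat_lit 333) ln13_13_6 ln13_13_6_ok))))) (B (M (nat_lit 334) (B (L (nat_lit 335) ln11_11_2 ln11_11_2_ok) (M (nat_lit 333) (B (L (nat_lit 302) ln13_13_6 ln13_13_6_ok) (L (nat_lit 362) ln10_11_2 ln10_11_2_ok))))) (B (M (nat_lit 362) (B (M (nat_lit 330) (B (L (nat_lit 329) ln13_11_3 ln13_11_3_ok) (L (nat_lit 331) ln14_11_3 ln14_11_3_ok)))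 (M (nat_lit 334) (B (L (nat_lit 333) ln10_11_2 ln10_11_2_ok) (L (nat_lit 335) ln11_11_2 ln11_11_2_ok))))) (M (nat_lit 362) (B (M (nat_lit 330) (B (L (nat_lit 329) ln13_11_3 ln13_11_3_ok) (L (nat_lit 331) ln14_11_3 ln14_11_3_ok))) (M (nat_lit 394) (B (L (nat_lit 393) ln13_11_1 ln13_11_1_ok) (L (nat_lit 395) ln14_11_1 ln14_11_1_ok)))))))))))))))))))) (nat_lit 1386334847383188664625224028427294411511058401076380296564914570976209309333027075361123041184442928399551202358502280908102434816) (nat_lit 54918381319404923915069513179998342658892913269124608645794323360741847746424668176681130109690185322271328015985451654843155341103417266141886451673183813632) (nat_lit 54918381319404923915069513179998342658892913269124608645794323360741847746424668176681130109690185322271328015985451654843155341103417266141886451673183813632) (by decide +kernel)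
theorem c11_s508 : Sem (nat_lit 1386334847383188664625224028427294411511058401076380296564914570976209309333027075361123041184442928399551202358502280908102434816) (nat_lit 1179363258141160341836893638084787814777600562730214729464919259896100656329632650284429369094364071403446327534382549404991578257347651414536932061947908970868379746304) (nat_lit 1179363258141160341836893638084787814777600562730214729464919259896100656329632650284429369094364071403446327534382549404991578257347651414536932061947908970868379746304) :=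
  sem_of_chk (M (nat_lit 461) (B (M (nat_lit 333) (B (M (nat_lit 334) (B (L (nat_lit 302) ln13_13_6 ln13_13_6_ok) (L (nat_lit 366) ln13_14_6 ln13_14_6_ok))) (M (nat_lit 460) (B (L (nat_lit 428) ln13_10_5 ln13_10_5_ok) (L (nat_lit 492) ln13_11_5 ln13_11_5_ok))))) (B (M (nat_lit 493) (B (M (nat_lit 366) (B (L (nat_lit 334) ln13_14_6 ln13_14_6_ok) (L (nat_lit 398) ln13_15_6 ln13_15_6_ok))) (M (nat_lit 492) (B (L (nat_lit 460) ln13_11_5 ln13_11_5_ok) (L (nat_lit 524) ln13_12_5 ln13_12_5_ok))))) (B (M (nat_lit 493) (B (M (nat_lit 492) (B (L (nat_lit 460) ln13_11_5 ln13_11_5_ok) (L (nat_lit 524) ln13_12_5 ln13_12_5_ok))) (M (nat_lit 525) (B (M (nat_lit 398) (B (L (nat_lit 366) ln13_15_6 ln13_15_6_ok) (L (nat_lit 430) ln13_16_6 ln13_16_6_ok))) (M (nat_lit 526) (B (L (nat_lit 494) ln13_12_4 ln13_12_4_ok) (L (nat_lit 558) ln13_13_4 ln13_13_4_ok))))))) (B (M (nat_lit 460) (B (L (nat_lit 492) ln13_11_5 ln13_11_5_ok)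 (M (nat_lit 428) (B (L (nat_lit 333) ln13_10_5 ln13_10_5_ok) (M (nat_lit 430) (B (M (nat_lit 431) (B (L (nat_lit 459) ln15_13_1 ln15_13_1_ok) (L (nat_lit 432) ln16_13_1 ln16_13_1_ok))) (B (M (nat_lit 427) (B (M (nat_lit 398) (B (L (nat_lit 426) ln10_13_2 ln10_13_2_ok) (L (nat_lit 399) ln11_13_2 ln11_13_2_ok))) (B (M (nat_lit 426) (B (L (nat_lit 425) ln9_13_0 ln9_13_0_ok) (M (nat_lit 394) (B (L (nat_lit 393) ln13_13_3 ln13_13_3_ok) (L (nat_lit 395) ln14_13_3 ln14_13_3_ok))))) (M (nat_lit 395) (B (L (nat_lit 394) ln14_13_3 ln14_13_3_ok) (M (nat_lit 363) (B (L (nat_lit 331) ln11_10_4 ln11_10_4_ok) (M (nat_lit 362) (B (M (nat_lit 459) (B (L (nat_lit 330) ln11_14_7 ln11_14_7_ok) (L (nat_lit 458) ln14_13_1 ln14_13_1_ok))) (M (nat_lit 398) (B (L (nat_lit 364) ln10_11_0 ln10_11_0_ok) (L (nat_lit 399) ln11_13_2 ln11_13_2_ok)))))))))))) (M (nat_lit 427) (B (M (nat_lit 398) (B (L (nat_lit 426) ln10_13_2 ln10_13_2_ok)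 (L (nat_lit 399) ln11_13_2 ln11_13_2_ok))) (B (M (nat_lit 426) (B (L (nat_lit 425) ln9_13_0 ln9_13_0_ok) (M (nat_lit 394) (B (L (nat_lit 393) ln13_13_3 ln13_13_3_ok) (L (nat_lit 395) ln14_13_3 ln14_13_3_ok))))) (M (nat_lit 399) (B (L (nat_lit 398) ln11_13_2 ln11_13_2_ok) (M (nat_lit 431) (B (L (nat_lit 400) ln12_13_2 ln12_13_2_ok) (L (nat_lit 432) ln16_13_1 ln16_13_1_ok))))))))))))))) (B (M (nat_lit 366) (B (L (nat_lit 334) ln13_14_6 ln13_14_6_ok) (M (nat_lit 493) (B (L (nat_lit 398) ln13_15_6 ln13_15_6_ok) (M (nat_lit 525) (B (M (nat_lit 524) (B (L (nat_lit 492) ln13_12_5 ln13_12_5_ok) (L (nat_lit 556) ln13_13_5 ln13_13_5_ok))) (M (nat_lit 526) (B (L (nat_lit 494) ln13_12_4 ln13_12_4_ok) (L (nat_lit 558) ln13_13_4 ln13_13_4_ok))))))))) (M (nat_lit 366) (B (L (nat_lit 334) ln13_14_6 ln13_14_6_ok) (M (nat_lit 398) (B (L (nat_lit 493) ln13_15_6 ln13_15_6_ok) (M (nat_lit 367) (B (M (nat_lit 368) (B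 (L (nat_lit 369) ln17_11_1 ln17_11_1_ok) (M (nat_lit 400) (B (L (nat_lit 401) ln13_11_0 ln13_11_0_ok) (M (nat_lit 364) (B (L (nat_lit 399) ln12_11_0 ln12_11_0_ok) (M (nat_lit 336) (B (L (nat_lit 335) ln12_11_2 ln12_11_2_ok) (L (nat_lit 337) ln13_11_2 ln13_11_2_ok))))))))) (B (M (nat_lit 368) (B (L (nat_lit 369) ln17_11_1 ln17_11_1_ok) (M (nat_lit 400) (B (L (nat_lit 401) ln13_11_0 ln13_11_0_ok) (M (nat_lit 399) (B (L (nat_lit 364) ln12_11_0 ln12_11_0_ok) (M (nat_lit 336) (B (L (nat_lit 337) ln13_11_2 ln13_11_2_ok) (M (nat_lit 304) (B (L (nat_lit 272) ln16_8_5 ln16_8_5_ok) (L (nat_lit 431) ln16_9_5 ln16_9_5_ok))))))))))) (B (M (nat_lit 368) (B (L (nat_lit 369) ln17_11_1 ln17_11_1_ok) (M (nat_lit 400) (B (L (nat_lit 401) ln13_11_0 ln13_11_0_ok) (M (nat_lit 399) (B (L (nat_lit 364) ln12_11_0 ln12_11_0_ok) (M (nat_lit 432) (B (L (nat_lit 433) ln13_12_0 ln13_12_0_ok) (M (nat_lit 335) (B (L (nat_lit 303)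 ln15_9_4 ln15_9_4_ok) (L (nat_lit 464) ln16_14_7 ln16_14_7_ok))))))))))) (B (M (nat_lit 368) (B (L (nat_lit 369) ln17_11_1 ln17_11_1_ok) (M (nat_lit 400) (B (L (nat_lit 401) ln13_11_0 ln13_11_0_ok) (M (nat_lit 399) (B (M (nat_lit 336) (B (L (nat_lit 337) ln13_11_2 ln13_11_2_ok) (M (nat_lit 304) (B (L (nat_lit 272) ln16_8_5 ln16_8_5_ok) (L (nat_lit 431) ln16_9_5 ln16_9_5_ok))))) (M (nat_lit 432) (B (L (nat_lit 433) ln13_12_0 ln13_12_0_ok) (M (nat_lit 335) (B (L (nat_lit 303) ln15_9_4 ln15_9_4_ok) (L (nat_lit 464) ln16_14_7 ln16_14_7_ok))))))))))) (B (M (nat_lit 399) (B (M (nat_lit 364) (B (L (nat_lit 363) ln11_11_0 ln11_11_0_ok) (L (nat_lit 400) ln12_11_0 ln12_11_0_ok))) (B (M (nat_lit 400) (B (L (nat_lit 364) ln12_11_0 ln12_11_0_ok) (L (nat_lit 401) ln17_12_3 ln17_12_3_ok))) (B (M (nat_lit 400) (B (L (nat_lit 401) ln17_12_3 ln17_12_3_ok) (M (nat_lit 432) (B (L (nat_lit 433) ln13_12_0 ln13_12_0_ok)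 (M (nat_lit 335) (B (L (nat_lit 303) ln15_9_4 ln15_9_4_ok) (M (nat_lit 464) (B (L (nat_lit 431) ln15_10_4 ln15_10_4_ok) (L (nat_lit 496) ln16_15_7 ln16_15_7_ok))))))))) (M (nat_lit 335) (B (M (nat_lit 303) (B (L (nat_lit 271) ln15_8_5 ln15_8_5_ok) (L (nat_lit 430) ln15_9_5 ln15_9_5_ok))) (M (nat_lit 364) (B (L (nat_lit 336) ln12_11_2 ln12_11_2_ok) (L (nat_lit 363) ln11_11_0 ln11_11_0_ok))))))))) (B (M (nat_lit 368) (B (L (nat_lit 369) ln17_11_1 ln17_11_1_ok) (M (nat_lit 400) (B (L (nat_lit 401) ln13_11_0 ln13_11_0_ok) (M (nat_lit 336) (B (L (nat_lit 337) ln13_11_2 ln13_11_2_ok) (M (nat_lit 335) (B (L (nat_lit 364) ln12_11_2 ln12_11_2_ok) (M (nat_lit 303) (B (L (nat_lit 271) ln15_8_5 ln15_8_5_ok) (L (nat_lit 432) ln16_13_7 ln16_13_7_ok))))))))))) (M (nat_lit 368) (B (L (nat_lit 369) ln17_11_1 ln17_11_1_ok) (M (nat_lit 336) (B (L (nat_lit 337) ln13_11_2 ln13_11_2_ok) (M (nat_lit 335) (B (L (nat_lit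 364) ln12_11_2 ln12_11_2_ok) (M (nat_lit 399) (B (M (nat_lit 303) (B (L (nat_lit 271) ln15_8_5 ln15_8_5_ok) (L (nat_lit 430) ln15_9_5 ln15_9_5_ok))) (M (nat_lit 304) (B (L (nat_lit 272) ln16_8_5 ln16_8_5_ok) (L (nat_lit 431) ln15_13_6 ln15_13_6_ok)))))))))))))))))))))))))))) (nat_lit 1386334847383188664625224028427294411511058401076380296564914570976209309333027075361123041184442928399551202358502280908102434816) (nat_lit 1179363258141160341836893638084787814777600562730214729464919259896100656329632650284429369094364071403446327534382549404991578257347651414536932061947908970868379746304) (nat_lit 1179363258141160341836893638084787814777600562730214729464919259896100656329632650284429369094364071403446327534382549404991578257347651414536932061947908970868379746304) (by decide +kernel)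
noncomputable def c11_n784 : Cert := (M (nat_lit 427) (B (M (nat_lit 398) (B (L (nat_lit 426) ln10_13_2 ln10_13_2_ok) (M (nat_lit 399) (B (L (nat_lit 400) ln16_12_3 ln16_12_3_ok) (L (nat_lit 430) ln11_13_2 ln11_13_2_ok))))) (B (M (nat_lit 395) (B (M (nat_lit 394) (B (L (nat_lit 430) ln14_13_3 ln14_13_3_ok) (M (nat_lit 393) (B (L (nat_lit 392) ln8_12_0 ln8_12_0_ok) (L (nat_lit 426) ln13_13_3 ln13_13_3_ok))))) (B (M (nat_lit 363) (B (M (nat_lit 394) (B (L (nat_lit 430) ln14_13_3 ln14_13_3_ok) (M (nat_lit 393) (B (L (nat_lit 362) ln13_11_1 ln13_11_1_ok) (L (nat_lit 426) ln13_13_3 ln13_13_3_ok))))) (M (nat_lit 331) (B (L (nat_lit 460) ln11_10_4 ln11_10_4_ok) (M (nat_lit 332) (B (L (nat_lit 300) ln11_13_6 ln11_13_6_ok) (L (nat_lit 459) ln11_14_6 ln11_14_6_ok))))))) (B (M (nat_lit 363) (B (M (nat_lit 459) (B (L (nat_lit 332) ln11_14_6 ln11_14_6_ok) (M (nat_lit 458) (B (L (nat_lit 490) ln11_11_5 ln11_11_5_ok)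 (L (nat_lit 430) ln14_13_1 ln14_13_1_ok))))) (B (M (nat_lit 330) (B (M (nat_lit 331) (B (L (nat_lit 298) ln11_13_7 ln11_13_7_ok) (L (nat_lit 460) ln11_10_4 ln11_10_4_ok))) (M (nat_lit 362) (B (L (nat_lit 329) ln13_11_3 ln13_11_3_ok) (L (nat_lit 459) ln11_14_7 ln11_14_7_ok))))) (M (nat_lit 331) (B (L (nat_lit 460) ln11_10_4 ln11_10_4_ok) (M (nat_lit 330) (B (L (nat_lit 298) ln11_13_7 ln11_13_7_ok) (M (nat_lit 329) (B (L (nat_lit 328) ln8_10_0 ln8_10_0_ok) (L (nat_lit 332) ln9_10_0 ln9_10_0_ok)))))))))) (M (nat_lit 363) (B (M (nat_lit 331) (B (L (nat_lit 460) ln11_10_4 ln11_10_4_ok) (M (nat_lit 332) (B (L (nat_lit 300) ln11_13_6 ln11_13_6_ok) (L (nat_lit 459) ln11_14_6 ln11_14_6_ok))))) (B (M (nat_lit 330) (B (M (nat_lit 331) (B (L (nat_lit 298) ln11_13_7 ln11_13_7_ok) (L (nat_lit 460) ln11_10_4 ln11_10_4_ok))) (M (nat_lit 362) (B (L (nat_lit 329) ln13_11_3 ln13_11_3_ok) (L (nat_lit 459) ln11_14_7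 ln11_14_7_ok))))) (B (M (nat_lit 459) (B (L (nat_lit 332) ln11_14_6 ln11_14_6_ok) (M (nat_lit 458) (B (L (nat_lit 490) ln11_11_5 ln11_11_5_ok) (M (nat_lit 457) (B (L (nat_lit 426) ln13_13_1 ln13_13_1_ok) (L (nat_lit 456) ln8_14_2 ln8_14_2_ok))))))) (M (nat_lit 331) (B (L (nat_lit 460) ln11_10_4 ln11_10_4_ok) (M (nat_lit 330) (B (L (nat_lit 298) ln11_13_7 ln11_13_7_ok) (M (nat_lit 329) (B (L (nat_lit 328) ln8_10_0 ln8_10_0_ok) (L (nat_lit 332) ln9_10_0 ln9_10_0_ok))))))))))))))) (B (M (nat_lit 363) (B (M (nat_lit 398) (B (L (nat_lit 362) ln10_11_0 ln10_11_0_ok) (M (nat_lit 399) (B (L (nat_lit 400) ln16_12_3 ln16_12_3_ok) (L (nat_lit 430) ln11_13_2 ln11_13_2_ok))))) (B (M (nat_lit 459) (B (M (nat_lit 395) (B (L (nat_lit 332) ln11_14_6 ln11_14_6_ok) (M (nat_lit 460) (B (L (nat_lit 331) ln11_10_4 ln11_10_4_ok) (L (nat_lit 492) ln11_11_4 ln11_11_4_ok))))) (B (M (nat_lit 395) (B (L (nat_lit 332) ln11_14_6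 ln11_14_6_ok) (M (nat_lit 458) (B (L (nat_lit 490) ln11_11_5 ln11_11_5_ok) (L (nat_lit 430) ln14_13_1 ln14_13_1_ok))))) (M (nat_lit 458) (B (L (nat_lit 430) ln14_13_1 ln14_13_1_ok) (M (nat_lit 457) (B (L (nat_lit 456) ln8_14_2 ln8_14_2_ok) (L (nat_lit 460) ln9_14_2 ln9_14_2_ok)))))))) (M (nat_lit 395) (B (M (nat_lit 362) (B (L (nat_lit 398) ln10_11_0 ln10_11_0_ok) (M (nat_lit 459) (B (L (nat_lit 330) ln11_14_7 ln11_14_7_ok) (L (nat_lit 332) ln11_14_6 ln11_14_6_ok))))) (B (M (nat_lit 459) (B (L (nat_lit 332) ln11_14_6 ln11_14_6_ok) (M (nat_lit 460) (B (L (nat_lit 331) ln11_10_4 ln11_10_4_ok) (L (nat_lit 492) ln11_11_4 ln11_11_4_ok))))) (B (M (nat_lit 362) (B (L (nat_lit 398) ln10_11_0 ln10_11_0_ok) (M (nat_lit 330) (B (L (nat_lit 329) ln13_11_3 ln13_11_3_ok) (L (nat_lit 459) ln11_14_7 ln11_14_7_ok))))) (M (nat_lit 330) (B (M (nat_lit 331) (B (L (nat_lit 298) ln11_13_7 ln11_13_7_ok) (L (nat_lit 460)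 ln11_10_4 ln11_10_4_ok))) (M (nat_lit 362) (B (L (nat_lit 329) ln13_11_3 ln13_11_3_ok) (L (nat_lit 398) ln10_11_0 ln10_11_0_ok)))))))))))) (M (nat_lit 426) (B (L (nat_lit 398) ln10_13_2 ln10_13_2_ok) (M (nat_lit 425) (B (M (nat_lit 393) (B (L (nat_lit 392) ln12_13_3 ln12_13_3_ok) (L (nat_lit 394) ln13_13_3 ln13_13_3_ok))) (M (nat_lit 457) (B (L (nat_lit 456) ln12_13_1 ln12_13_1_ok) (L (nat_lit 458) ln13_13_1 ln13_13_1_ok)))))))))))
theorem c11_s785 : Sem (nat_lit 1386334847383188664662800709751675743157290090625009689002925491758742427264343730905638385586276663494970386332658580156613394432) (nat_lit 1013065326084944732755671336762172608567158250701439907660152520502887552438869132704789362320900212959824573999512364185712254202822079358838248566557881148146859094478902263808) (nat_lit 1013065326084944732755671336762172608567158250701439907660152520502887552438869132704789362320900212959824573999512364185712254202822079358838248566557881148146859094478902263808)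 :=
  sem_of_chk (M (nat_lit 428) (B (M (nat_lit 332) (B (L (nat_lit 461) ln13_14_7 ln13_14_7_ok) (M (nat_lit 427) (B (M (nat_lit 398) (B (L (nat_lit 426) ln10_13_2 ln10_13_2_ok) (M (nat_lit 399) (B (L (nat_lit 400) ln16_12_3 ln16_12_3_ok) (L (nat_lit 430) ln11_13_2 ln11_13_2_ok))))) (B (M (nat_lit 395) (B (M (nat_lit 300) (B (L (nat_lit 268) ln12_8_4 ln12_8_4_ok) (M (nat_lit 363) (B (L (nat_lit 331) ln11_13_6 ln11_13_6_ok) (L (nat_lit 459) ln11_14_6 ln11_14_6_ok))))) (M (nat_lit 394) (B (L (nat_lit 430) ln14_13_3 ln14_13_3_ok) (M (nat_lit 393) (B (L (nat_lit 392) ln8_12_0 ln8_12_0_ok) (L (nat_lit 426) ln13_13_3 ln13_13_3_ok))))))) (B (M (nat_lit 363) (B (M (nat_lit 398) (B (L (nat_lit 362) ln10_11_0 ln10_11_0_ok) (M (nat_lit 399) (B (L (nat_lit 400) ln16_12_3 ln16_12_3_ok) (L (nat_lit 430) ln11_13_2 ln11_13_2_ok))))) (M (nat_lit 300) (B (L (nat_lit 268) ln12_8_4 ln12_8_4_ok) (M (nat_lit 395) (B (L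 (nat_lit 331) ln11_13_6 ln11_13_6_ok) (L (nat_lit 459) ln11_14_6 ln11_14_6_ok))))))) (M (nat_lit 426) (B (L (nat_lit 398) ln10_13_2 ln10_13_2_ok) (M (nat_lit 425) (B (M (nat_lit 393) (B (L (nat_lit 392) ln12_13_3 ln12_13_3_ok) (L (nat_lit 394) ln13_13_3 ln13_13_3_ok))) (M (nat_lit 457) (B (L (nat_lit 456) ln12_13_1 ln12_13_1_ok) (L (nat_lit 458) ln13_13_1 ln13_13_1_ok))))))))))))) (B (M (nat_lit 332) (B (L (nat_lit 461) ln13_14_7 ln13_14_7_ok) (M (nat_lit 427) (B (M (nat_lit 398) (B (L (nat_lit 426) ln10_13_2 ln10_13_2_ok) (M (nat_lit 399) (B (L (nat_lit 400) ln16_12_3 ln16_12_3_ok) (L (nat_lit 430) ln11_13_2 ln11_13_2_ok))))) (B (M (nat_lit 395) (B (M (nat_lit 394) (B (L (nat_lit 430) ln14_13_3 ln14_13_3_ok) (M (nat_lit 393) (B (L (nat_lit 392) ln8_12_0 ln8_12_0_ok) (L (nat_lit 426) ln13_13_3 ln13_13_3_ok))))) (M (nat_lit 363) (B (L (nat_lit 459) ln11_14_6 ln11_14_6_ok) (M (nat_lit 331) (B (L (nat_lit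 300) ln11_13_6 ln11_13_6_ok) (L (nat_lit 460) ln11_10_4 ln11_10_4_ok))))))) (B (M (nat_lit 363) (B (M (nat_lit 395) (B (L (nat_lit 459) ln11_14_6 ln11_14_6_ok) (M (nat_lit 331) (B (L (nat_lit 300) ln11_13_6 ln11_13_6_ok) (L (nat_lit 460) ln11_10_4 ln11_10_4_ok))))) (M (nat_lit 398) (B (L (nat_lit 362) ln10_11_0 ln10_11_0_ok) (M (nat_lit 399) (B (L (nat_lit 400) ln16_12_3 ln16_12_3_ok) (L (nat_lit 430) ln11_13_2 ln11_13_2_ok))))))) (M (nat_lit 426) (B (L (nat_lit 398) ln10_13_2 ln10_13_2_ok) (M (nat_lit 425) (B (M (nat_lit 393) (B (L (nat_lit 392) ln12_13_3 ln12_13_3_ok) (L (nat_lit 394) ln13_13_3 ln13_13_3_ok))) (M (nat_lit 457) (B (L (nat_lit 456) ln12_13_1 ln12_13_1_ok) (L (nat_lit 458) ln13_13_1 ln13_13_1_ok))))))))))))) (B (M (nat_lit 461) (B (L (nat_lit 332) ln13_14_7 ln13_14_7_ok) (M (nat_lit 493) (B (M (nat_lit 492) (B (L (nat_lit 460) ln13_11_5 ln13_11_5_ok) (L (nat_lit 524) ln13_12_5 ln13_12_5_ok)))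 (B (M (nat_lit 525) (B (M (nat_lit 524) (B (L (nat_lit 492) ln13_12_5 ln13_12_5_ok) (L (nat_lit 556) ln13_13_5 ln13_13_5_ok))) (M (nat_lit 526) (B (L (nat_lit 494) ln13_12_4 ln13_12_4_ok) (L (nat_lit 558) ln13_13_4 ln13_13_4_ok))))) (B (M (nat_lit 525) (B (M (nat_lit 526) (B (L (nat_lit 494) ln13_12_4 ln13_12_4_ok) (L (nat_lit 558) ln13_13_4 ln13_13_4_ok))) (M (nat_lit 556) (B (L (nat_lit 524) ln13_13_5 ln13_13_5_ok) (M (nat_lit 557) (B (L (nat_lit 460) ln13_17_7 ln13_17_7_ok) (L (nat_lit 588) ln13_14_5 ln13_14_5_ok))))))) (M (nat_lit 525) (B (M (nat_lit 460) (B (L (nat_lit 492) ln13_11_5 ln13_11_5_ok) (L (nat_lit 557) ln13_17_7 ln13_17_7_ok))) (M (nat_lit 526) (B (L (nat_lit 494) ln13_12_4 ln13_12_4_ok) (L (nat_lit 558) ln13_13_4 ln13_13_4_ok))))))))))) (B (M (nat_lit 427) (B (M (nat_lit 398) (B (L (nat_lit 426) ln10_13_2 ln10_13_2_ok) (M (nat_lit 399) (B (L (nat_lit 400) ln16_12_3 ln16_12_3_ok)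 (L (nat_lit 430) ln11_13_2 ln11_13_2_ok))))) (B (M (nat_lit 460) (B (M (nat_lit 492) (B (L (nat_lit 461) ln13_11_5 ln13_11_5_ok) (L (nat_lit 524) ln12_16_6 ln12_16_6_ok))) (B (M (nat_lit 395) (B (M (nat_lit 394) (B (L (nat_lit 430) ln14_13_3 ln14_13_3_ok) (M (nat_lit 393) (B (L (nat_lit 392) ln8_12_0 ln8_12_0_ok) (L (nat_lit 426) ln13_13_3 ln13_13_3_ok))))) (M (nat_lit 492) (B (L (nat_lit 524) ln12_16_7 ln12_16_7_ok) (M (nat_lit 363) (B (L (nat_lit 331) ln11_10_4 ln11_10_4_ok) (L (nat_lit 459) ln11_11_4 ln11_11_4_ok))))))) (M (nat_lit 426) (B (M (nat_lit 425) (B (L (nat_lit 461) ln9_13_0 ln9_13_0_ok) (M (nat_lit 457) (B (L (nat_lit 456) ln12_13_1 ln12_13_1_ok) (L (nat_lit 458) ln13_13_1 ln13_13_1_ok))))) (B (M (nat_lit 430) (B (M (nat_lit 394) (B (L (nat_lit 393) ln13_13_3 ln13_13_3_ok) (L (nat_lit 395) ln14_13_3 ln14_13_3_ok))) (M (nat_lit 458) (B (L (nat_lit 457) ln13_13_1 ln13_13_1_ok) (L (nat_lit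 459) ln14_13_1 ln14_13_1_ok))))) (M (nat_lit 393) (B (L (nat_lit 394) ln13_13_3 ln13_13_3_ok) (M (nat_lit 425) (B (L (nat_lit 392) ln12_13_3 ln12_13_3_ok) (L (nat_lit 461) ln9_13_0 ln9_13_0_ok))))))))))) (B (M (nat_lit 460) (B (M (nat_lit 492) (B (L (nat_lit 461) ln13_11_5 ln13_11_5_ok) (L (nat_lit 524) ln12_16_6 ln12_16_6_ok))) (M (nat_lit 430) (B (M (nat_lit 459) (B (L (nat_lit 458) ln14_13_1 ln14_13_1_ok) (L (nat_lit 431) ln15_13_1 ln15_13_1_ok))) (M (nat_lit 363) (B (M (nat_lit 395) (B (L (nat_lit 331) ln11_10_4 ln11_10_4_ok) (L (nat_lit 394) ln14_13_3 ln14_13_3_ok))) (M (nat_lit 398) (B (L (nat_lit 362) ln10_11_0 ln10_11_0_ok) (L (nat_lit 399) ln11_13_2 ln11_13_2_ok))))))))) (M (nat_lit 426) (B (L (nat_lit 398) ln10_13_2 ln10_13_2_ok) (M (nat_lit 425) (B (M (nat_lit 393) (B (L (nat_lit 392) ln12_13_3 ln12_13_3_ok) (L (nat_lit 394) ln13_13_3 ln13_13_3_ok))) (M (nat_lit 457) (B (L (nat_lit 456)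 ln12_13_1 ln12_13_1_ok) (L (nat_lit 458) ln13_13_1 ln13_13_1_ok))))))))))) c11_n784))))) (nat_lit 1386334847383188664662800709751675743157290090625009689002925491758742427264343730905638385586276663494970386332658580156613394432) (nat_lit 1013065326084944732755671336762172608567158250701439907660152520502887552438869132704789362320900212959824573999512364185712254202822079358838248566557881148146859094478902263808) (nat_lit 1013065326084944732755671336762172608567158250701439907660152520502887552438869132704789362320900212959824573999512364185712254202822079358838248566557881148146859094478902263808) (by decide +kernel)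
noncomputable def c11_n936 : Cert := (M (nat_lit 362) (B (M (nat_lit 329) (B (L (nat_lit 330) ln13_11_3 ln13_11_3_ok) (M (nat_lit 393) (B (L (nat_lit 394) ln13_11_1 ln13_11_1_ok) (M (nat_lit 361) (B (L (nat_lit 328) ln12_11_3 ln12_11_3_ok) (L (nat_lit 392) ln12_11_1 ln12_11_1_ok))))))) (B (M (nat_lit 330) (B (L (nat_lit 329) ln13_11_3 ln13_11_3_ok) (M (nat_lit 427) (B (M (nat_lit 395) (B (L (nat_lit 459) ln11_14_7 ln11_14_7_ok) (M (nat_lit 394) (B (L (nat_lit 298) ln10_9_4 ln10_9_4_ok) (L (nat_lit 393) ln13_11_1 ln13_11_1_ok))))) (B (M (nat_lit 459) (B (L (nat_lit 395) ln11_14_7 ln11_14_7_ok) (M (nat_lit 394) (B (L (nat_lit 426) ln10_10_4 ln10_10_4_ok) (L (nat_lit 393) ln13_11_1 ln13_11_1_ok))))) (B (M (nat_lit 395) (B (L (nat_lit 459) ln11_14_7 ln11_14_7_ok) (M (nat_lit 298) (B (L (nat_lit 266) ln10_8_4 ln10_8_4_ok) (L (nat_lit 394) ln10_9_4 ln10_9_4_ok))))) (B (M (nat_lit 395) (B (L (nat_lit 459)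 ln11_14_7 ln11_14_7_ok) (M (nat_lit 298) (B (L (nat_lit 266) ln10_8_4 ln10_8_4_ok) (L (nat_lit 331) ln11_13_7 ln11_13_7_ok))))) (B (M (nat_lit 394) (B (L (nat_lit 393) ln13_11_1 ln13_11_1_ok) (M (nat_lit 426) (B (L (nat_lit 459) ln10_10_4 ln10_10_4_ok) (M (nat_lit 331) (B (L (nat_lit 299) ln10_13_6 ln10_13_6_ok) (L (nat_lit 458) ln10_14_6 ln10_14_6_ok))))))) (M (nat_lit 395) (B (M (nat_lit 298) (B (L (nat_lit 266) ln10_8_4 ln10_8_4_ok) (L (nat_lit 331) ln11_13_7 ln11_13_7_ok))) (B (M (nat_lit 394) (B (L (nat_lit 298) ln10_9_4 ln10_9_4_ok) (L (nat_lit 393) ln13_11_1 ln13_11_1_ok))) (M (nat_lit 332) (B (L (nat_lit 461) ln13_14_7 ln13_14_7_ok) (M (nat_lit 300) (B (L (nat_lit 268) ln12_8_5 ln12_8_5_ok) (L (nat_lit 331) ln11_13_6 ln11_13_6_ok)))))))))))))))) (B (M (nat_lit 361) (B (M (nat_lit 393) (B (L (nat_lit 392) ln12_11_1 ln12_11_1_ok) (L (nat_lit 394) ln13_11_1 ln13_11_1_ok))) (B (M (nat_lit 360)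 (B (M (nat_lit 332) (B (L (nat_lit 331) ln8_11_2 ln8_11_2_ok) (L (nat_lit 461) ln13_14_7 ln13_14_7_ok))) (M (nat_lit 359) (B (M (nat_lit 327) (B (L (nat_lit 326) ln10_11_3 ln10_11_3_ok) (L (nat_lit 328) ln11_11_3 ln11_11_3_ok))) (M (nat_lit 394) (B (L (nat_lit 395) ln7_11_0 ln7_11_0_ok) (L (nat_lit 393) ln13_11_1 ln13_11_1_ok))))))) (M (nat_lit 360) (B (M (nat_lit 332) (B (L (nat_lit 331) ln8_11_2 ln8_11_2_ok) (L (nat_lit 461) ln13_14_7 ln13_14_7_ok))) (M (nat_lit 359) (B (M (nat_lit 327) (B (L (nat_lit 326) ln10_11_3 ln10_11_3_ok) (L (nat_lit 328) ln11_11_3 ln11_11_3_ok))) (M (nat_lit 391) (B (L (nat_lit 390) ln10_11_1 ln10_11_1_ok) (L (nat_lit 392) ln11_11_1 ln11_11_1_ok)))))))))) (B (M (nat_lit 361) (B (M (nat_lit 329) (B (L (nat_lit 328) ln12_11_3 ln12_11_3_ok) (L (nat_lit 330) ln13_11_3 ln13_11_3_ok))) (B (M (nat_lit 395) (B (M (nat_lit 332) (B (L (nat_lit 461) ln13_14_7 ln13_14_7_ok) (M (nat_lit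 300) (B (L (nat_lit 268) ln12_8_5 ln12_8_5_ok) (M (nat_lit 331) (B (L (nat_lit 427) ln11_13_6 ln11_13_6_ok) (L (nat_lit 360) ln8_11_2 ln8_11_2_ok))))))) (B (M (nat_lit 332) (B (L (nat_lit 461) ln13_14_7 ln13_14_7_ok) (M (nat_lit 331) (B (L (nat_lit 360) ln8_11_2 ln8_11_2_ok) (M (nat_lit 427) (B (L (nat_lit 300) ln11_13_6 ln11_13_6_ok) (L (nat_lit 459) ln11_14_6 ln11_14_6_ok))))))) (B (M (nat_lit 330) (B (L (nat_lit 329) ln13_11_3 ln13_11_3_ok) (M (nat_lit 427) (B (L (nat_lit 459) ln11_14_7 ln11_14_7_ok) (M (nat_lit 298) (B (L (nat_lit 266) ln10_8_4 ln10_8_4_ok) (L (nat_lit 394) ln10_9_4 ln10_9_4_ok))))))) (M (nat_lit 360) (B (M (nat_lit 332) (B (L (nat_lit 331) ln8_11_2 ln8_11_2_ok) (L (nat_lit 461) ln13_14_7 ln13_14_7_ok))) (M (nat_lit 359) (B (L (nat_lit 394) ln7_11_0 ln7_11_0_ok) (M (nat_lit 391) (B (L (nat_lit 390) ln10_11_1 ln10_11_1_ok) (L (nat_lit 392) ln11_11_1 ln11_11_1_ok))))))))))) (M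 (nat_lit 360) (B (M (nat_lit 332) (B (L (nat_lit 331) ln8_11_2 ln8_11_2_ok) (L (nat_lit 461) ln13_14_7 ln13_14_7_ok))) (M (nat_lit 359) (B (M (nat_lit 327) (B (L (nat_lit 326) ln10_11_3 ln10_11_3_ok) (L (nat_lit 328) ln11_11_3 ln11_11_3_ok))) (M (nat_lit 391) (B (L (nat_lit 390) ln10_11_1 ln10_11_1_ok) (L (nat_lit 392) ln11_11_1 ln11_11_1_ok)))))))))) (M (nat_lit 361) (B (M (nat_lit 329) (B (L (nat_lit 328) ln12_11_3 ln12_11_3_ok) (L (nat_lit 330) ln13_11_3 ln13_11_3_ok))) (M (nat_lit 360) (B (M (nat_lit 332) (B (L (nat_lit 331) ln8_11_2 ln8_11_2_ok) (L (nat_lit 461) ln13_14_7 ln13_14_7_ok))) (M (nat_lit 392) (B (L (nat_lit 391) ln11_11_1 ln11_11_1_ok) (L (nat_lit 393) ln12_11_1 ln12_11_1_ok))))))))))))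
theorem c11_s994 : Sem (nat_lit 1386334847383188664662800709751675743157290090625009689002925491758742427264343730905638385586276663494970386332658580156613394432) (nat_lit 18380855475796946494510398633190484133704047514231548553654363295157453102266322740925017423665641462464428410846995761655510397656442343931265417216) (nat_lit 18380855475796946494510398633190484133704047514231548553654363295157453102266322740925017423665641462464428410846995761655510397656442343931265417216) :=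
  sem_of_chk (M (nat_lit 363) (B (M (nat_lit 461) (B (L (nat_lit 332) ln13_14_7 ln13_14_7_ok) (M (nat_lit 366) (B (L (nat_lit 334) ln13_14_6 ln13_14_6_ok) (M (nat_lit 362) (B (M (nat_lit 330) (B (L (nat_lit 329) ln13_11_3 ln13_11_3_ok) (L (nat_lit 331) ln14_11_3 ln14_11_3_ok))) (M (nat_lit 394) (B (L (nat_lit 393) ln13_11_1 ln13_11_1_ok) (L (nat_lit 395) ln14_11_1 ln14_11_1_ok))))))))) (B (M (nat_lit 395) (B (M (nat_lit 394) (B (L (nat_lit 366) ln14_11_1 ln14_11_1_ok) (M (nat_lit 393) (B (L (nat_lit 362) ln13_11_1 ln13_11_1_ok) (L (nat_lit 392) ln8_12_2 ln8_12_2_ok))))) (M (nat_lit 332) (B (L (nat_lit 461) ln13_14_7 ln13_14_7_ok) (M (nat_lit 300) (B (L (nat_lit 268) ln12_8_5 ln12_8_5_ok) (M (nat_lit 427) (B (L (nat_lit 331) ln11_13_6 ln11_13_6_ok) (L (nat_lit 459) ln11_14_6 ln11_14_6_ok))))))))) (B (M (nat_lit 461) (B (L (nat_lit 332) ln13_14_7 ln13_14_7_ok) (M (nat_lit 460) (B (L (nat_lit 492) ln13_11_5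 ln13_11_5_ok) (M (nat_lit 458) (B (M (nat_lit 459) (B (L (nat_lit 430) ln10_14_2 ln10_14_2_ok) (M (nat_lit 457) (B (L (nat_lit 428) ln9_14_2 ln9_14_2_ok) (M (nat_lit 425) (B (L (nat_lit 424) ln12_14_3 ln12_14_3_ok) (L (nat_lit 426) ln13_14_3 ln13_14_3_ok))))))) (B (M (nat_lit 459) (B (L (nat_lit 430) ln10_14_2 ln10_14_2_ok) (M (nat_lit 457) (B (L (nat_lit 428) ln9_14_2 ln9_14_2_ok) (M (nat_lit 489) (B (L (nat_lit 488) ln12_14_1 ln12_14_1_ok) (L (nat_lit 490) ln13_14_1 ln13_14_1_ok))))))) (B (M (nat_lit 459) (B (L (nat_lit 430) ln10_14_2 ln10_14_2_ok) (M (nat_lit 457) (B (M (nat_lit 425) (B (L (nat_lit 424) ln12_14_3 ln12_14_3_ok) (L (nat_lit 426) ln13_14_3 ln13_14_3_ok))) (M (nat_lit 489) (B (L (nat_lit 488) ln12_14_1 ln12_14_1_ok) (L (nat_lit 490) ln13_14_1 ln13_14_1_ok))))))) (M (nat_lit 394) (B (M (nat_lit 366) (B (L (nat_lit 334) ln13_14_6 ln13_14_6_ok) (L (nat_lit 395) ln14_11_1 ln14_11_1_ok)))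 (M (nat_lit 362) (B (L (nat_lit 393) ln13_11_1 ln13_11_1_ok) (M (nat_lit 329) (B (L (nat_lit 330) ln13_11_3 ln13_11_3_ok) (M (nat_lit 361) (B (L (nat_lit 328) ln12_11_3 ln12_11_3_ok) (L (nat_lit 426) ln10_14_7 ln10_14_7_ok))))))))))))))))) (B (M (nat_lit 366) (B (M (nat_lit 334) (B (L (nat_lit 335) ln11_11_2 ln11_11_2_ok) (L (nat_lit 461) ln13_14_6 ln13_14_6_ok))) (M (nat_lit 362) (B (M (nat_lit 330) (B (L (nat_lit 329) ln13_11_3 ln13_11_3_ok) (L (nat_lit 331) ln14_11_3 ln14_11_3_ok))) (M (nat_lit 394) (B (L (nat_lit 393) ln13_11_1 ln13_11_1_ok) (L (nat_lit 395) ln14_11_1 ln14_11_1_ok))))))) (B (M (nat_lit 366) (B (M (nat_lit 334) (B (L (nat_lit 335) ln11_11_2 ln11_11_2_ok) (L (nat_lit 461) ln13_14_6 ln13_14_6_ok))) (B (M (nat_lit 331) (B (L (nat_lit 330) ln14_11_3 ln14_11_3_ok) (M (nat_lit 332) (B (L (nat_lit 367) ln15_11_3 ln15_11_3_ok) (L (nat_lit 461) ln13_14_7 ln13_14_7_ok))))) (M (nat_lit 367)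 (B (M (nat_lit 331) (B (L (nat_lit 330) ln14_11_3 ln14_11_3_ok) (L (nat_lit 332) ln15_11_3 ln15_11_3_ok))) (M (nat_lit 335) (B (L (nat_lit 334) ln11_11_2 ln11_11_2_ok) (L (nat_lit 336) ln12_11_2 ln12_11_2_ok)))))))) (B c11_n936 (M (nat_lit 330) (B (M (nat_lit 329) (B (L (nat_lit 362) ln13_11_3 ln13_11_3_ok) (M (nat_lit 331) (B (L (nat_lit 332) ln9_10_0 ln9_10_0_ok) (L (nat_lit 366) ln14_11_3 ln14_11_3_ok))))) (B (M (nat_lit 395) (B (M (nat_lit 366) (B (L (nat_lit 331) ln14_11_3 ln14_11_3_ok) (L (nat_lit 394) ln14_11_1 ln14_11_1_ok))) (B (M (nat_lit 394) (B (L (nat_lit 366) ln14_11_1 ln14_11_1_ok) (M (nat_lit 393) (B (L (nat_lit 362) ln13_11_1 ln13_11_1_ok) (L (nat_lit 392) ln8_12_2 ln8_12_2_ok))))) (B (M (nat_lit 427) (B (M (nat_lit 459) (B (L (nat_lit 362) ln11_14_7 ln11_14_7_ok) (L (nat_lit 332) ln11_14_6 ln11_14_6_ok))) (B (M (nat_lit 298) (B (L (nat_lit 331) ln11_13_7 ln11_13_7_ok) (M (nat_lit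 362) (B (L (nat_lit 266) ln10_8_4 ln10_8_4_ok) (L (nat_lit 459) ln11_14_7 ln11_14_7_ok))))) (B (M (nat_lit 331) (B (L (nat_lit 298) ln11_13_7 ln11_13_7_ok) (M (nat_lit 332) (B (L (nat_lit 300) ln11_13_6 ln11_13_6_ok) (L (nat_lit 459) ln11_14_6 ln11_14_6_ok))))) (M (nat_lit 298) (B (L (nat_lit 331) ln11_13_7 ln11_13_7_ok) (M (nat_lit 362) (B (L (nat_lit 266) ln10_8_4 ln10_8_4_ok) (L (nat_lit 394) ln10_9_4 ln10_9_4_ok))))))))) (M (nat_lit 427) (B (M (nat_lit 331) (B (L (nat_lit 298) ln11_13_7 ln11_13_7_ok) (L (nat_lit 366) ln14_11_3 ln14_11_3_ok))) (M (nat_lit 459) (B (L (nat_lit 362) ln11_14_7 ln11_14_7_ok) (L (nat_lit 332) ln11_14_6 ln11_14_6_ok))))))))) (B (M (nat_lit 362) (B (L (nat_lit 329) ln13_11_3 ln13_11_3_ok) (M (nat_lit 394) (B (L (nat_lit 393) ln13_11_1 ln13_11_1_ok) (M (nat_lit 395) (B (L (nat_lit 366) ln14_11_1 ln14_11_1_ok) (M (nat_lit 427) (B (L (nat_lit 298) ln10_9_4 ln10_9_4_ok) (L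 (nat_lit 459) ln11_14_7 ln11_14_7_ok))))))))) (B (M (nat_lit 331) (B (L (nat_lit 366) ln14_11_3 ln14_11_3_ok) (M (nat_lit 329) (B (L (nat_lit 328) ln8_10_0 ln8_10_0_ok) (L (nat_lit 332) ln9_10_0 ln9_10_0_ok))))) (M (nat_lit 329) (B (L (nat_lit 362) ln13_11_3 ln13_11_3_ok) (M (nat_lit 331) (B (L (nat_lit 328) ln8_10_0 ln8_10_0_ok) (L (nat_lit 332) ln9_10_0 ln9_10_0_ok))))))))))))))))) (nat_lit 1386334847383188664662800709751675743157290090625009689002925491758742427264343730905638385586276663494970386332658580156613394432) (nat_lit 18380855475796946494510398633190484133704047514231548553654363295157453102266322740925017423665641462464428410846995761655510397656442343931265417216) (nat_lit 18380855475796946494510398633190484133704047514231548553654363295157453102266322740925017423665641462464428410846995761655510397656442343931265417216) (by decide +kernel)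
noncomputable def c11_n1049 : Cert := (M (nat_lit 363) (B (M (nat_lit 398) (B (L (nat_lit 362) ln10_11_0 ln10_11_0_ok) (M (nat_lit 399) (B (L (nat_lit 366) ln11_11_0 ln11_11_0_ok) (L (nat_lit 400) ln16_12_3 ln16_12_3_ok))))) (B (M (nat_lit 366) (B (M (nat_lit 334) (B (L (nat_lit 335) ln11_11_2 ln11_11_2_ok) (M (nat_lit 398) (B (L (nat_lit 302) ln14_9_5 ln14_9_5_ok) (L (nat_lit 399) ln11_11_0 ln11_11_0_ok))))) (B (M (nat_lit 367) (B (M (nat_lit 331) (B (L (nat_lit 330) ln14_11_3 ln14_11_3_ok) (L (nat_lit 332) ln15_11_3 ln15_11_3_ok))) (M (nat_lit 399) (B (L (nat_lit 398) ln11_11_0 ln11_11_0_ok) (L (nat_lit 400) ln12_11_0 ln12_11_0_ok))))) (M (nat_lit 367) (B (M (nat_lit 331) (B (L (nat_lit 330) ln14_11_3 ln14_11_3_ok) (L (nat_lit 332) ln15_11_3 ln15_11_3_ok))) (M (nat_lit 335) (B (L (nat_lit 334) ln11_11_2 ln11_11_2_ok) (L (nat_lit 336) ln12_11_2 ln12_11_2_ok)))))))) (B (M (nat_lit 362) (B (L (nat_lit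 398) ln10_11_0 ln10_11_0_ok) (M (nat_lit 329) (B (L (nat_lit 330) ln13_11_3 ln13_11_3_ok) (M (nat_lit 393) (B (L (nat_lit 394) ln13_11_1 ln13_11_1_ok) (M (nat_lit 361) (B (L (nat_lit 328) ln12_11_3 ln12_11_3_ok) (L (nat_lit 392) ln12_11_1 ln12_11_1_ok))))))))) (M (nat_lit 394) (B (M (nat_lit 395) (B (L (nat_lit 366) ln14_11_1 ln14_11_1_ok) (M (nat_lit 393) (B (L (nat_lit 362) ln13_11_1 ln13_11_1_ok) (L (nat_lit 392) ln8_12_2 ln8_12_2_ok))))) (B (M (nat_lit 395) (B (L (nat_lit 366) ln14_11_1 ln14_11_1_ok) (M (nat_lit 427) (B (M (nat_lit 428) (B (L (nat_lit 430) ln14_13_3 ln14_13_3_ok) (M (nat_lit 393) (B (L (nat_lit 392) ln8_12_2 ln8_12_2_ok) (L (nat_lit 426) ln13_13_3 ln13_13_3_ok))))) (M (nat_lit 332) (B (L (nat_lit 459) ln11_14_6 ln11_14_6_ok) (M (nat_lit 300) (B (L (nat_lit 268) ln12_8_5 ln12_8_5_ok) (L (nat_lit 331) ln11_13_6 ln11_13_6_ok))))))))) (B (M (nat_lit 395) (B (M (nat_lit 393) (B (L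 (nat_lit 362) ln13_11_1 ln13_11_1_ok) (L (nat_lit 392) ln8_12_2 ln8_12_2_ok))) (B (M (nat_lit 427) (B (M (nat_lit 428) (B (L (nat_lit 430) ln14_13_3 ln14_13_3_ok) (M (nat_lit 393) (B (L (nat_lit 392) ln8_12_2 ln8_12_2_ok) (L (nat_lit 426) ln13_13_3 ln13_13_3_ok))))) (M (nat_lit 332) (B (L (nat_lit 459) ln11_14_6 ln11_14_6_ok) (M (nat_lit 300) (B (L (nat_lit 268) ln12_8_5 ln12_8_5_ok) (L (nat_lit 331) ln11_13_6 ln11_13_6_ok))))))) (B (M (nat_lit 427) (B (M (nat_lit 332) (B (L (nat_lit 459) ln11_14_6 ln11_14_6_ok) (M (nat_lit 300) (B (L (nat_lit 268) ln12_8_5 ln12_8_5_ok) (L (nat_lit 331) ln11_13_6 ln11_13_6_ok))))) (M (nat_lit 393) (B (L (nat_lit 362) ln13_11_1 ln13_11_1_ok) (M (nat_lit 428) (B (L (nat_lit 426) ln13_13_3 ln13_13_3_ok) (L (nat_lit 430) ln14_13_3 ln14_13_3_ok))))))) (M (nat_lit 427) (B (M (nat_lit 459) (B (L (nat_lit 332) ln11_14_6 ln11_14_6_ok) (M (nat_lit 362) (B (L (nat_lit 330)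 ln11_14_7 ln11_14_7_ok) (L (nat_lit 491) ln11_15_7 ln11_15_7_ok))))) (B (M (nat_lit 332) (B (L (nat_lit 459) ln11_14_6 ln11_14_6_ok) (M (nat_lit 300) (B (L (nat_lit 268) ln12_8_5 ln12_8_5_ok) (L (nat_lit 331) ln11_13_6 ln11_13_6_ok))))) (M (nat_lit 331) (B (M (nat_lit 426) (B (L (nat_lit 299) ln11_9_5 ln11_9_5_ok) (L (nat_lit 458) ln11_10_5 ln11_10_5_ok))) (M (nat_lit 428) (B (L (nat_lit 460) ln11_10_4 ln11_10_4_ok) (L (nat_lit 430) ln14_13_3 ln14_13_3_ok)))))))))))) (B (M (nat_lit 330) (B (M (nat_lit 362) (B (L (nat_lit 329) ln13_11_3 ln13_11_3_ok) (L (nat_lit 393) ln13_11_1 ln13_11_1_ok))) (M (nat_lit 366) (B (L (nat_lit 331) ln14_11_3 ln14_11_3_ok) (L (nat_lit 395) ln14_11_1 ln14_11_1_ok))))) (B (M (nat_lit 395) (B (L (nat_lit 366) ln14_11_1 ln14_11_1_ok) (M (nat_lit 427) (B (M (nat_lit 459) (B (L (nat_lit 332) ln11_14_6 ln11_14_6_ok) (M (nat_lit 362) (B (L (nat_lit 330) ln11_14_7 ln11_14_7_ok)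 (L (nat_lit 491) ln11_15_7 ln11_15_7_ok))))) (B (M (nat_lit 332) (B (L (nat_lit 459) ln11_14_6 ln11_14_6_ok) (M (nat_lit 300) (B (L (nat_lit 268) ln12_8_5 ln12_8_5_ok) (L (nat_lit 331) ln11_13_6 ln11_13_6_ok))))) (M (nat_lit 331) (B (M (nat_lit 426) (B (L (nat_lit 299) ln11_9_5 ln11_9_5_ok) (L (nat_lit 458) ln11_10_5 ln11_10_5_ok))) (M (nat_lit 428) (B (L (nat_lit 460) ln11_10_4 ln11_10_4_ok) (L (nat_lit 430) ln14_13_3 ln14_13_3_ok)))))))))) (M (nat_lit 362) (B (L (nat_lit 393) ln13_11_1 ln13_11_1_ok) (M (nat_lit 330) (B (L (nat_lit 329) ln13_11_3 ln13_11_3_ok) (M (nat_lit 331) (B (L (nat_lit 366) ln14_11_3 ln14_11_3_ok) (M (nat_lit 299) (B (L (nat_lit 267) ln11_8_5 ln11_8_5_ok) (L (nat_lit 426) ln10_13_6 ln10_13_6_ok)))))))))))))))))))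
theorem c11_s1050 : Sem (nat_lit 1386334847383188664625224028427294411511058401076380296564914570976209309333027075361123041184442928399551202358502280908102434816) (nat_lit 1013065326084944732755671336770963452484848084825053808438721779008068074268537519686377974051372951012510047139804918736300527013045829680763137347544938953829982229975971921920) (nat_lit 1013065326084944732755671336770963452484848084825053808438721779008068074268537519686377974051372951012510047139804918736300527013045829680763137347544938953829982229975971921920) :=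
  sem_of_chk (M (nat_lit 364) (B (M (nat_lit 461) (B (L (nat_lit 332) ln13_14_7 ln13_14_7_ok) (M (nat_lit 493) (B (M (nat_lit 366) (B (L (nat_lit 334) ln13_14_6 ln13_14_6_ok) (L (nat_lit 398) ln13_15_6 ln13_15_6_ok))) (M (nat_lit 492) (B (L (nat_lit 460) ln13_11_5 ln13_11_5_ok) (L (nat_lit 524) ln13_12_5 ln13_12_5_ok))))))) (B (M (nat_lit 366) (B (M (nat_lit 334) (B (L (nat_lit 461) ln13_14_6 ln13_14_6_ok) (M (nat_lit 302) (B (L (nat_lit 270) ln14_8_5 ln14_8_5_ok) (L (nat_lit 398) ln14_9_5 ln14_9_5_ok))))) (B (M (nat_lit 363) (B (M (nat_lit 334) (B (L (nat_lit 335) ln11_11_2 ln11_11_2_ok) (L (nat_lit 461) ln13_14_6 ln13_14_6_ok))) (M (nat_lit 398) (B (L (nat_lit 362) ln10_11_0 ln10_11_0_ok) (L (nat_lit 399) ln11_11_0 ln11_11_0_ok))))) (B (M (nat_lit 367) (B (M (nat_lit 400) (B (L (nat_lit 399) ln12_11_0 ln12_11_0_ok) (M (nat_lit 368) (B (L (nat_lit 401) ln13_11_0 ln13_11_0_ok) (M (nat_lit 336) (B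 (L (nat_lit 335) ln12_11_2 ln12_11_2_ok) (L (nat_lit 337) ln13_11_2 ln13_11_2_ok))))))) (B (M (nat_lit 363) (B (M (nat_lit 398) (B (L (nat_lit 362) ln10_11_0 ln10_11_0_ok) (L (nat_lit 399) ln11_11_0 ln11_11_0_ok))) (B (M (nat_lit 399) (B (L (nat_lit 398) ln11_11_0 ln11_11_0_ok) (L (nat_lit 400) ln12_11_0 ln12_11_0_ok))) (M (nat_lit 362) (B (M (nat_lit 330) (B (L (nat_lit 329) ln13_11_3 ln13_11_3_ok) (L (nat_lit 331) ln14_11_3 ln14_11_3_ok))) (M (nat_lit 394) (B (L (nat_lit 393) ln13_11_1 ln13_11_1_ok) (L (nat_lit 395) ln14_11_1 ln14_11_1_ok)))))))) (B (M (nat_lit 368) (B (M (nat_lit 336) (B (L (nat_lit 335) ln12_11_2 ln12_11_2_ok) (L (nat_lit 337) ln13_11_2 ln13_11_2_ok))) (M (nat_lit 369) (B (L (nat_lit 398) ln17_11_1 ln17_11_1_ok) (M (nat_lit 401) (B (L (nat_lit 400) ln13_11_0 ln13_11_0_ok) (L (nat_lit 402) ln14_11_0 ln14_11_0_ok))))))) (M (nat_lit 336) (B (L (nat_lit 335) ln12_11_2 ln12_11_2_ok)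 (M (nat_lit 398) (B (M (nat_lit 363) (B (L (nat_lit 362) ln10_11_0 ln10_11_0_ok) (L (nat_lit 399) ln11_11_0 ln11_11_0_ok))) (M (nat_lit 368) (B (L (nat_lit 337) ln13_11_2 ln13_11_2_ok) (L (nat_lit 369) ln17_11_1 ln17_11_1_ok))))))))))) (M (nat_lit 334) (B (L (nat_lit 461) ln13_14_6 ln13_14_6_ok) (M (nat_lit 335) (B (L (nat_lit 363) ln11_11_2 ln11_11_2_ok) (M (nat_lit 336) (B (L (nat_lit 337) ln17_10_1 ln17_10_1_ok) (L (nat_lit 367) ln12_11_2 ln12_11_2_ok))))))))))) (B (M (nat_lit 461) (B (L (nat_lit 332) ln13_14_7 ln13_14_7_ok) (M (nat_lit 493) (B (M (nat_lit 492) (B (L (nat_lit 460) ln13_11_5 ln13_11_5_ok) (L (nat_lit 524) ln13_12_5 ln13_12_5_ok))) (M (nat_lit 525) (B (M (nat_lit 398) (B (L (nat_lit 366) ln13_15_6 ln13_15_6_ok) (L (nat_lit 430) ln13_16_6 ln13_16_6_ok))) (M (nat_lit 526) (B (L (nat_lit 494) ln13_12_4 ln13_12_4_ok) (L (nat_lit 558) ln13_13_4 ln13_13_4_ok))))))))) (B (K (nat_lit 1386334847383188664662800709751675743157290090625009689002925491758742427264343730905638385586276663494970386332658580156613394432)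 (nat_lit 1013065326084944732755671336762172608567158250701439907660152520502887552438869132704789362320900212959824573999512364185712254202822079358838248566557881148146859094478902263808) (nat_lit 1013065326084944732755671336762172608567158250701439907660152520502887552438869132704789362320900212959824573999512364185712254202822079358838248566557881148146859094478902263808) c11_s785) (B (K (nat_lit 1386334847383188664662800709751675743157290090625009689002925491758742427264343730905638385586276663494970386332658580156613394432) (nat_lit 18380855475796946494510398633190484133704047514231548553654363295157453102266322740925017423665641462464428410846995761655510397656442343931265417216) (nat_lit 18380855475796946494510398633190484133704047514231548553654363295157453102266322740925017423665641462464428410846995761655510397656442343931265417216) c11_s994) c11_n1049)))))) (nat_lit 1386334847383188664625224028427294411511058401076380296564914570976209309333027075361123041184442928399551202358502280908102434816)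 (nat_lit 1013065326084944732755671336770963452484848084825053808438721779008068074268537519686377974051372951012510047139804918736300527013045829680763137347544938953829982229975971921920) (nat_lit 1013065326084944732755671336770963452484848084825053808438721779008068074268537519686377974051372951012510047139804918736300527013045829680763137347544938953829982229975971921920) (by decide +kernel)
noncomputable def c11_n1253 : Cert := (M (nat_lit 427) (B (M (nat_lit 398) (B (L (nat_lit 426) ln10_13_2 ln10_13_2_ok) (M (nat_lit 399) (B (L (nat_lit 400) ln16_12_1 ln16_12_1_ok) (L (nat_lit 430) ln11_13_2 ln11_13_2_ok))))) (B (M (nat_lit 460) (B (M (nat_lit 492) (B (L (nat_lit 461) ln13_11_5 ln13_11_5_ok) (L (nat_lit 524) ln12_16_6 ln12_16_6_ok))) (B (M (nat_lit 395) (B (M (nat_lit 394) (B (L (nat_lit 430) ln14_13_3 ln14_13_3_ok) (M (nat_lit 393) (B (L (nat_lit 392) ln8_12_0 ln8_12_0_ok) (L (nat_lit 426)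 ln13_13_3 ln13_13_3_ok))))) (M (nat_lit 492) (B (L (nat_lit 524) ln12_16_7 ln12_16_7_ok) (M (nat_lit 363) (B (L (nat_lit 331) ln11_10_4 ln11_10_4_ok) (L (nat_lit 459) ln11_11_4 ln11_11_4_ok))))))) (M (nat_lit 426) (B (M (nat_lit 425) (B (L (nat_lit 461) ln9_13_0 ln9_13_0_ok) (M (nat_lit 457) (B (L (nat_lit 456) ln12_13_1 ln12_13_1_ok) (L (nat_lit 458) ln13_13_1 ln13_13_1_ok))))) (B (M (nat_lit 430) (B (M (nat_lit 394) (B (L (nat_lit 393) ln13_13_3 ln13_13_3_ok) (L (nat_lit 395) ln14_13_3 ln14_13_3_ok))) (M (nat_lit 458) (B (L (nat_lit 457) ln13_13_1 ln13_13_1_ok) (L (nat_lit 459) ln14_13_1 ln14_13_1_ok))))) (M (nat_lit 393) (B (L (nat_lit 394) ln13_13_3 ln13_13_3_ok) (M (nat_lit 425) (B (L (nat_lit 392) ln12_13_3 ln12_13_3_ok) (L (nat_lit 461) ln9_13_0 ln9_13_0_ok))))))))))) (B (M (nat_lit 430) (B (M (nat_lit 399) (B (L (nat_lit 398) ln11_13_2 ln11_13_2_ok) (M (nat_lit 431) (B (L (nat_lit 400) ln12_13_2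 ln12_13_2_ok) (M (nat_lit 459) (B (L (nat_lit 458) ln14_13_1 ln14_13_1_ok) (L (nat_lit 460) ln15_13_1 ln15_13_1_ok))))))) (B (M (nat_lit 460) (B (M (nat_lit 492) (B (L (nat_lit 461) ln13_11_5 ln13_11_5_ok) (L (nat_lit 524) ln12_16_6 ln12_16_6_ok))) (M (nat_lit 459) (B (L (nat_lit 458) ln14_13_1 ln14_13_1_ok) (L (nat_lit 431) ln15_13_1 ln15_13_1_ok))))) (B (M (nat_lit 395) (B (L (nat_lit 394) ln14_13_3 ln14_13_3_ok) (M (nat_lit 363) (B (M (nat_lit 460) (B (L (nat_lit 331) ln11_10_4 ln11_10_4_ok) (M (nat_lit 459) (B (L (nat_lit 492) ln11_11_4 ln11_11_4_ok) (L (nat_lit 458) ln14_13_1 ln14_13_1_ok))))) (B (M (nat_lit 364) (B (M (nat_lit 459) (B (L (nat_lit 332) ln11_14_6 ln11_14_6_ok) (L (nat_lit 458) ln14_13_1 ln14_13_1_ok))) (M (nat_lit 398) (B (L (nat_lit 362) ln10_11_0 ln10_11_0_ok) (L (nat_lit 399) ln11_13_2 ln11_13_2_ok))))) (B (M (nat_lit 460) (B (L (nat_lit 331) ln11_10_4 ln11_10_4_ok) (M (nat_lit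 492) (B (L (nat_lit 459) ln11_11_4 ln11_11_4_ok) (L (nat_lit 461) ln13_11_5 ln13_11_5_ok))))) (M (nat_lit 460) (B (L (nat_lit 331) ln11_10_4 ln11_10_4_ok) (M (nat_lit 492) (B (L (nat_lit 461) ln13_11_5 ln13_11_5_ok) (L (nat_lit 524) ln12_16_7 ln12_16_7_ok))))))))))) (B (M (nat_lit 399) (B (L (nat_lit 398) ln11_13_2 ln11_13_2_ok) (M (nat_lit 460) (B (M (nat_lit 492) (B (L (nat_lit 461) ln13_11_5 ln13_11_5_ok) (L (nat_lit 524) ln12_16_6 ln12_16_6_ok))) (M (nat_lit 431) (B (L (nat_lit 400) ln12_13_2 ln12_13_2_ok) (L (nat_lit 459) ln15_13_1 ln15_13_1_ok))))))) (M (nat_lit 431) (B (M (nat_lit 399) (B (L (nat_lit 398) ln11_13_2 ln11_13_2_ok) (L (nat_lit 400) ln12_13_2 ln12_13_2_ok))) (B (M (nat_lit 432) (B (M (nat_lit 400) (B (L (nat_lit 399) ln12_13_2 ln12_13_2_ok) (L (nat_lit 401) ln13_13_2 ln13_13_2_ok))) (M (nat_lit 464) (B (L (nat_lit 463) ln12_13_0 ln12_13_0_ok) (L (nat_lit 465) ln13_13_0 ln13_13_0_ok)))))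 (B (M (nat_lit 432) (B (M (nat_lit 464) (B (L (nat_lit 463) ln12_13_0 ln12_13_0_ok) (L (nat_lit 465) ln13_13_0 ln13_13_0_ok))) (M (nat_lit 401) (B (L (nat_lit 400) ln13_13_2 ln13_13_2_ok) (M (nat_lit 433) (B (L (nat_lit 398) ln17_13_3 ln17_13_3_ok) (L (nat_lit 402) ln14_13_2 ln14_13_2_ok))))))) (M (nat_lit 432) (B (M (nat_lit 398) (B (L (nat_lit 433) ln17_13_3 ln17_13_3_ok) (L (nat_lit 399) ln11_13_2 ln11_13_2_ok))) (M (nat_lit 464) (B (L (nat_lit 463) ln12_13_0 ln12_13_0_ok) (L (nat_lit 465) ln13_13_0 ln13_13_0_ok)))))))))))))) (M (nat_lit 426) (B (L (nat_lit 398) ln10_13_2 ln10_13_2_ok) (M (nat_lit 425) (B (M (nat_lit 393) (B (L (nat_lit 392) ln12_13_3 ln12_13_3_ok) (L (nat_lit 394) ln13_13_3 ln13_13_3_ok))) (M (nat_lit 457) (B (L (nat_lit 456) ln12_13_1 ln12_13_1_ok) (L (nat_lit 458) ln13_13_1 ln13_13_1_ok)))))))))))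
theorem c11_s1383 : Sem (nat_lit 2426085982678494236967129347480950800299722304342311512253844413706692299760136684001113443473495270186072906469028620343967744000) (nat_lit 27459190646915779899534008106446112288957652448597471093517939094267688377535157128095299330384836169181764824946277464270334147172482047774051177577347809280) (nat_lit 27459190646915779899534008106446112288957652448597471093517939094267688377535157128095299330384836169181764824946277464270334147172482047774051177577347809280) :=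
  sem_of_chk (M (nat_lit 394) (B (M (nat_lit 395) (B (L (nat_lit 430) ln14_13_3 ln14_13_3_ok) (M (nat_lit 393) (B (L (nat_lit 392) ln8_12_0 ln8_12_0_ok) (L (nat_lit 426) ln13_13_3 ln13_13_3_ok))))) (B (M (nat_lit 426) (B (L (nat_lit 393) ln13_13_3 ln13_13_3_ok) (M (nat_lit 458) (B (L (nat_lit 457) ln13_13_1 ln13_13_1_ok) (M (nat_lit 430) (B (L (nat_lit 395) ln14_13_3 ln14_13_3_ok) (L (nat_lit 459) ln14_13_1 ln14_13_1_ok))))))) (B (M (nat_lit 459) (B (M (nat_lit 430) (B (L (nat_lit 395) ln14_13_3 ln14_13_3_ok) (L (nat_lit 458) ln14_13_1 ln14_13_1_ok))) (B (M (nat_lit 458) (B (L (nat_lit 430) ln14_13_1 ln14_13_1_ok) (M (nat_lit 426) (B (L (nat_lit 457) ln13_13_1 ln13_13_1_ok) (M (nat_lit 362) (B (L (nat_lit 330) ln10_10_4 ln10_10_4_ok) (L (nat_lit 491) ln10_11_4 ln10_11_4_ok))))))) (B (M (nat_lit 362) (B (M (nat_lit 330) (B (L (nat_lit 426) ln10_10_4 ln10_10_4_ok) (M (nat_lit 395) (B (L (nat_lit 363)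 ln11_14_7 ln11_14_7_ok) (L (nat_lit 491) ln11_15_7 ln11_15_7_ok))))) (B (M (nat_lit 491) (B (L (nat_lit 395) ln11_15_7 ln11_15_7_ok) (M (nat_lit 426) (B (L (nat_lit 458) ln10_11_4 ln10_11_4_ok) (L (nat_lit 523) ln11_16_7 ln11_16_7_ok))))) (B (M (nat_lit 426) (B (L (nat_lit 330) ln10_10_4 ln10_10_4_ok) (M (nat_lit 491) (B (L (nat_lit 458) ln10_11_4 ln10_11_4_ok) (L (nat_lit 523) ln11_16_7 ln11_16_7_ok))))) (B (M (nat_lit 395) (B (L (nat_lit 491) ln11_15_7 ln11_15_7_ok) (M (nat_lit 330) (B (L (nat_lit 298) ln10_9_4 ln10_9_4_ok) (L (nat_lit 363) ln11_14_7 ln11_14_7_ok))))) (M (nat_lit 330) (B (L (nat_lit 426) ln10_10_4 ln10_10_4_ok) (M (nat_lit 395) (B (L (nat_lit 298) ln10_9_4 ln10_9_4_ok) (L (nat_lit 363) ln11_14_7 ln11_14_7_ok)))))))))) (M (nat_lit 395) (B (L (nat_lit 430) ln14_13_3 ln14_13_3_ok) (M (nat_lit 362) (B (L (nat_lit 491) ln11_15_7 ln11_15_7_ok) (M (nat_lit 330) (B (L (nat_lit 298) ln10_9_4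 ln10_9_4_ok) (L (nat_lit 363) ln11_14_7 ln11_14_7_ok))))))))))) (B (M (nat_lit 426) (B (L (nat_lit 393) ln13_13_3 ln13_13_3_ok) (M (nat_lit 458) (B (L (nat_lit 457) ln13_13_1 ln13_13_1_ok) (M (nat_lit 459) (B (L (nat_lit 430) ln14_13_1 ln14_13_1_ok) (M (nat_lit 362) (B (L (nat_lit 330) ln10_10_4 ln10_10_4_ok) (L (nat_lit 491) ln10_11_4 ln10_11_4_ok))))))))) (B (M (nat_lit 332) (B (M (nat_lit 300) (B (L (nat_lit 333) ln13_13_7 ln13_13_7_ok) (M (nat_lit 364) (B (L (nat_lit 268) ln12_8_4 ln12_8_4_ok) (L (nat_lit 461) ln13_14_7 ln13_14_7_ok))))) (B (M (nat_lit 395) (B (L (nat_lit 430) ln14_13_3 ln14_13_3_ok) (M (nat_lit 363) (B (M (nat_lit 300) (B (L (nat_lit 331) ln11_13_6 ln11_13_6_ok) (L (nat_lit 333) ln13_13_7 ln13_13_7_ok))) (M (nat_lit 364) (B (L (nat_lit 459) ln11_14_6 ln11_14_6_ok) (L (nat_lit 461) ln13_14_7 ln13_14_7_ok))))))) (B (M (nat_lit 395) (B (L (nat_lit 430) ln14_13_3 ln14_13_3_ok) (M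 (nat_lit 364) (B (L (nat_lit 461) ln13_14_7 ln13_14_7_ok) (M (nat_lit 393) (B (L (nat_lit 392) ln8_12_0 ln8_12_0_ok) (M (nat_lit 363) (B (L (nat_lit 459) ln11_14_6 ln11_14_6_ok) (L (nat_lit 362) ln13_11_1 ln13_11_1_ok))))))))) (M (nat_lit 330) (B (M (nat_lit 395) (B (L (nat_lit 430) ln14_13_3 ln14_13_3_ok) (M (nat_lit 362) (B (L (nat_lit 298) ln10_9_4 ln10_9_4_ok) (M (nat_lit 459) (B (L (nat_lit 363) ln11_14_7 ln11_14_7_ok) (L (nat_lit 491) ln11_15_7 ln11_15_7_ok))))))) (M (nat_lit 333) (B (L (nat_lit 300) ln13_13_7 ln13_13_7_ok) (M (nat_lit 302) (B (L (nat_lit 334) ln13_13_6 ln13_13_6_ok) (M (nat_lit 301) (B (L (nat_lit 270) ln13_12_6 ln13_12_6_ok) (L (nat_lit 331) ln10_10_2 ln10_10_2_ok))))))))))))) (M (nat_lit 362) (B (M (nat_lit 426) (B (L (nat_lit 393) ln13_13_3 ln13_13_3_ok) (M (nat_lit 458) (B (L (nat_lit 457) ln13_13_1 ln13_13_1_ok) (M (nat_lit 459) (B (L (nat_lit 330) ln10_10_4 ln10_10_4_ok)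 (L (nat_lit 491) ln10_11_4 ln10_11_4_ok))))))) (B (M (nat_lit 364) (B (M (nat_lit 393) (B (L (nat_lit 363) ln13_11_1 ln13_11_1_ok) (L (nat_lit 426) ln13_13_3 ln13_13_3_ok))) (M (nat_lit 332) (B (L (nat_lit 461) ln13_14_7 ln13_14_7_ok) (M (nat_lit 300) (B (L (nat_lit 268) ln12_8_4 ln12_8_4_ok) (L (nat_lit 333) ln13_13_7 ln13_13_7_ok))))))) (B (M (nat_lit 459) (B (M (nat_lit 426) (B (L (nat_lit 330) ln10_10_4 ln10_10_4_ok) (M (nat_lit 491) (B (L (nat_lit 395) ln11_15_7 ln11_15_7_ok) (L (nat_lit 458) ln10_11_4 ln10_11_4_ok))))) (B (M (nat_lit 491) (B (L (nat_lit 395) ln11_15_7 ln11_15_7_ok) (M (nat_lit 426) (B (L (nat_lit 458) ln10_11_4 ln10_11_4_ok) (L (nat_lit 523) ln11_16_7 ln11_16_7_ok))))) (B (M (nat_lit 426) (B (L (nat_lit 330) ln10_10_4 ln10_10_4_ok) (M (nat_lit 491) (B (L (nat_lit 458) ln10_11_4 ln10_11_4_ok) (L (nat_lit 523) ln11_16_7 ln11_16_7_ok))))) (B (M (nat_lit 395) (B (L (nat_lit 491)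 ln11_15_7 ln11_15_7_ok) (M (nat_lit 330) (B (L (nat_lit 298) ln10_9_4 ln10_9_4_ok) (L (nat_lit 363) ln11_14_7 ln11_14_7_ok))))) (M (nat_lit 330) (B (L (nat_lit 426) ln10_10_4 ln10_10_4_ok) (M (nat_lit 395) (B (L (nat_lit 298) ln10_9_4 ln10_9_4_ok) (L (nat_lit 363) ln11_14_7 ln11_14_7_ok)))))))))) (M (nat_lit 364) (B (M (nat_lit 332) (B (L (nat_lit 461) ln13_14_7 ln13_14_7_ok) (M (nat_lit 300) (B (L (nat_lit 268) ln12_8_4 ln12_8_4_ok) (L (nat_lit 333) ln13_13_7 ln13_13_7_ok))))) (M (nat_lit 363) (B (L (nat_lit 393) ln13_11_1 ln13_11_1_ok) (M (nat_lit 330) (B (L (nat_lit 329) ln13_11_3 ln13_11_3_ok) (M (nat_lit 395) (B (L (nat_lit 298) ln10_9_4 ln10_9_4_ok) (L (nat_lit 459) ln11_14_7 ln11_14_7_ok))))))))))))))))))) (nat_lit 2426085982678494236967129347480950800299722304342311512253844413706692299760136684001113443473495270186072906469028620343967744000) (nat_lit 27459190646915779899534008106446112288957652448597471093517939094267688377535157128095299330384836169181764824946277464270334147172482047774051177577347809280)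 (nat_lit 27459190646915779899534008106446112288957652448597471093517939094267688377535157128095299330384836169181764824946277464270334147172482047774051177577347809280) (by decide +kernel)
noncomputable def c11_n1470 : Cert := (M (nat_lit 430) (B (M (nat_lit 398) (B (L (nat_lit 399) ln11_13_2 ln11_13_2_ok) (M (nat_lit 333) (B (L (nat_lit 301) ln13_9_4 ln13_9_4_ok) (M (nat_lit 332) (B (L (nat_lit 300) ln13_13_7 ln13_13_7_ok) (M (nat_lit 364) (B (L (nat_lit 461) ln13_14_7 ln13_14_7_ok) (M (nat_lit 363) (B (L (nat_lit 362) ln10_11_0 ln10_11_0_ok) (M (nat_lit 395) (B (L (nat_lit 459) ln11_14_6 ln11_14_6_ok) (L (nat_lit 394) ln14_13_3 ln14_13_3_ok))))))))))))) (B (M (nat_lit 431) (B (M (nat_lit 399) (B (L (nat_lit 398) ln11_13_2 ln11_13_2_ok) (L (nat_lit 400) ln12_13_2 ln12_13_2_ok))) (B (M (nat_lit 432) (B (M (nat_lit 400) (B (L (nat_lit 399) ln12_13_2 ln12_13_2_ok) (L (nat_lit 401) ln13_13_2 ln13_13_2_ok)))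 (M (nat_lit 464) (B (L (nat_lit 463) ln12_13_0 ln12_13_0_ok) (L (nat_lit 465) ln13_13_0 ln13_13_0_ok))))) (B (M (nat_lit 432) (B (M (nat_lit 464) (B (L (nat_lit 463) ln12_13_0 ln12_13_0_ok) (L (nat_lit 465) ln13_13_0 ln13_13_0_ok))) (M (nat_lit 401) (B (L (nat_lit 400) ln13_13_2 ln13_13_2_ok) (M (nat_lit 433) (B (L (nat_lit 398) ln17_13_3 ln17_13_3_ok) (L (nat_lit 402) ln14_13_2 ln14_13_2_ok))))))) (M (nat_lit 432) (B (M (nat_lit 398) (B (L (nat_lit 433) ln17_13_3 ln17_13_3_ok) (L (nat_lit 399) ln11_13_2 ln11_13_2_ok))) (M (nat_lit 464) (B (L (nat_lit 463) ln12_13_0 ln12_13_0_ok) (L (nat_lit 465) ln13_13_0 ln13_13_0_ok))))))))) (M (nat_lit 332) (B (M (nat_lit 300) (B (L (nat_lit 333) ln13_13_7 ln13_13_7_ok) (M (nat_lit 364) (B (L (nat_lit 268) ln12_8_4 ln12_8_4_ok) (L (nat_lit 461) ln13_14_7 ln13_14_7_ok))))) (B (M (nat_lit 395) (B (L (nat_lit 394) ln14_13_3 ln14_13_3_ok) (M (nat_lit 364) (B (L (nat_lit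 461) ln13_14_7 ln13_14_7_ok) (M (nat_lit 459) (B (L (nat_lit 363) ln11_14_6 ln11_14_6_ok) (L (nat_lit 458) ln14_13_1 ln14_13_1_ok))))))) (M (nat_lit 331) (B (M (nat_lit 300) (B (L (nat_lit 333) ln13_13_7 ln13_13_7_ok) (M (nat_lit 395) (B (L (nat_lit 363) ln11_13_6 ln11_13_6_ok) (L (nat_lit 394) ln14_13_3 ln14_13_3_ok))))) (B (M (nat_lit 330) (B (M (nat_lit 395) (B (L (nat_lit 394) ln14_13_3 ln14_13_3_ok) (M (nat_lit 363) (B (L (nat_lit 298) ln11_13_7 ln11_13_7_ok) (M (nat_lit 459) (B (L (nat_lit 362) ln11_14_7 ln11_14_7_ok) (L (nat_lit 458) ln14_13_1 ln14_13_1_ok))))))) (B (M (nat_lit 362) (B (M (nat_lit 333) (B (L (nat_lit 361) ln13_10_1 ln13_10_1_ok) (M (nat_lit 302) (B (L (nat_lit 301) ln10_10_2 ln10_10_2_ok) (L (nat_lit 334) ln13_13_6 ln13_13_6_ok))))) (B (M (nat_lit 333) (B (L (nat_lit 361) ln13_10_1 ln13_10_1_ok) (M (nat_lit 334) (B (L (nat_lit 302) ln13_13_6 ln13_13_6_ok) (L (nat_lit 363)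 ln14_10_1 ln14_10_1_ok))))) (M (nat_lit 395) (B (L (nat_lit 394) ln14_13_3 ln14_13_3_ok) (M (nat_lit 459) (B (L (nat_lit 363) ln11_14_7 ln11_14_7_ok) (L (nat_lit 458) ln14_13_1 ln14_13_1_ok)))))))) (B (M (nat_lit 333) (B (M (nat_lit 302) (B (L (nat_lit 301) ln10_10_2 ln10_10_2_ok) (L (nat_lit 334) ln13_13_6 ln13_13_6_ok))) (M (nat_lit 298) (B (L (nat_lit 297) ln13_10_3 ln13_10_3_ok) (M (nat_lit 395) (B (L (nat_lit 363) ln11_13_7 ln11_13_7_ok) (L (nat_lit 394) ln14_13_3 ln14_13_3_ok))))))) (M (nat_lit 333) (B (M (nat_lit 302) (B (L (nat_lit 301) ln10_10_2 ln10_10_2_ok) (L (nat_lit 334) ln13_13_6 ln13_13_6_ok))) (M (nat_lit 329) (B (M (nat_lit 297) (B (L (nat_lit 296) ln12_10_3 ln12_10_3_ok) (L (nat_lit 298) ln13_10_3 ln13_10_3_ok))) (M (nat_lit 361) (B (L (nat_lit 360) ln12_10_1 ln12_10_1_ok) (L (nat_lit 362) ln13_10_1 ln13_10_1_ok))))))))))) (B (M (nat_lit 395) (B (L (nat_lit 394) ln14_13_3 ln14_13_3_ok)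 (M (nat_lit 363) (B (L (nat_lit 300) ln11_13_6 ln11_13_6_ok) (M (nat_lit 330) (B (L (nat_lit 298) ln11_13_7 ln11_13_7_ok) (M (nat_lit 459) (B (L (nat_lit 362) ln11_14_7 ln11_14_7_ok) (L (nat_lit 458) ln14_13_1 ln14_13_1_ok))))))))) (M (nat_lit 333) (B (L (nat_lit 300) ln13_13_7 ln13_13_7_ok) (M (nat_lit 302) (B (L (nat_lit 334) ln13_13_6 ln13_13_6_ok) (M (nat_lit 301) (B (L (nat_lit 270) ln13_12_6 ln13_12_6_ok) (L (nat_lit 330) ln10_10_2 ln10_10_2_ok)))))))))))))))))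
noncomputable def c11_n1471 : Cert := (M (nat_lit 427) (B (M (nat_lit 398) (B (L (nat_lit 426) ln10_13_2 ln10_13_2_ok) (M (nat_lit 399) (B (L (nat_lit 400) ln16_12_1 ln16_12_1_ok) (L (nat_lit 430) ln11_13_2 ln11_13_2_ok))))) (B (K (nat_lit 2426085982678494236967129347480950800299722304342311512253844413706692299760136684001113443473495270186072906469028620343967744000) (nat_lit 27459190646915779899534008106446112288957652448597471093517939094267688377535157128095299330384836169181764824946277464270334147172482047774051177577347809280) (nat_lit 27459190646915779899534008106446112288957652448597471093517939094267688377535157128095299330384836169181764824946277464270334147172482047774051177577347809280) c11_s1383) (B c11_n1470 (M (nat_lit 426) (B (L (nat_lit 398) ln10_13_2 ln10_13_2_ok) (M (nat_lit 425) (B (M (nat_lit 393) (B (L (nat_lit 392) ln12_13_3 ln12_13_3_ok) (L (nat_lit 394) ln13_13_3 ln13_13_3_ok)))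 (M (nat_lit 457) (B (L (nat_lit 456) ln12_13_1 ln12_13_1_ok) (L (nat_lit 458) ln13_13_1 ln13_13_1_ok)))))))))))
theorem c11_s1481 : Sem (nat_lit 1386334847383188664625224028427294411511058401076380296564914570976209309333027075361123041184442928399551202358502280908102434816) (nat_lit 82377571940747339851366080070943660395598724634119812704330251237735180374038077619073502031737816177114312556963865626266344615090606712736013311165136371712) (nat_lit 82377571940747339851366080070943660395598724634119812704330251237735180374038077619073502031737816177114312556963865626266344615090606712736013311165136371712) :=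
  sem_of_chk (M (nat_lit 428) (B (M (nat_lit 460) (B (L (nat_lit 333) ln13_10_5 ln13_10_5_ok) (M (nat_lit 492) (B (L (nat_lit 461) ln13_11_5 ln13_11_5_ok) (L (nat_lit 524) ln12_16_6 ln12_16_6_ok))))) (B c11_n1253 (B c11_n1471 (M (nat_lit 333) (B (L (nat_lit 460) ln13_10_5 ln13_10_5_ok) (M (nat_lit 301) (B (M (nat_lit 300) (B (L (nat_lit 268) ln13_12_7 ln13_12_7_ok) (L (nat_lit 332) ln13_13_7 ln13_13_7_ok))) (M (nat_lit 302) (B (L (nat_lit 270) ln13_12_6 ln13_12_6_ok) (L (nat_lit 334) ln13_13_6 ln13_13_6_ok))))))))))) (nat_lit 1386334847383188664625224028427294411511058401076380296564914570976209309333027075361123041184442928399551202358502280908102434816) (nat_lit 82377571940747339851366080070943660395598724634119812704330251237735180374038077619073502031737816177114312556963865626266344615090606712736013311165136371712) (nat_lit 82377571940747339851366080070943660395598724634119812704330251237735180374038077619073502031737816177114312556963865626266344615090606712736013311165136371712)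 (by decide +kernel)
theorem c11_s1651 : Sem (nat_lit 1386334847383188664625224028427294411511058401076380296564914570976209309333027075361123041184442928399551202358502280908102434816) (nat_lit 2977131418700518513507638966725687066374384459400986461378270700212013744336866997459185195046447572349232385069512897506589489687223599104) (nat_lit 2977131418700518513507638966725687066374384459400986461378270700212013744336866997459185195046447572349232385069512897506589489687223599104) :=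
  sem_of_chk (M (nat_lit 333) (B (M (nat_lit 301) (B (M (nat_lit 300) (B (L (nat_lit 268) ln13_12_7 ln13_12_7_ok) (L (nat_lit 332) ln13_13_7 ln13_13_7_ok))) (M (nat_lit 302) (B (L (nat_lit 270) ln13_12_6 ln13_12_6_ok) (L (nat_lit 334) ln13_13_6 ln13_13_6_ok))))) (B (M (nat_lit 366) (B (M (nat_lit 334) (B (L (nat_lit 302) ln13_13_6 ln13_13_6_ok) (M (nat_lit 332) (B (L (nat_lit 300) ln13_13_7 ln13_13_7_ok) (M (nat_lit 331) (B (L (nat_lit 330) ln10_10_0 ln10_10_0_ok) (L (nat_lit 367) ln11_10_0 ln11_10_0_ok))))))) (B (M (nat_lit 301) (B (M (nat_lit 302) (B (L (nat_lit 270) ln13_12_6 ln13_12_6_ok) (L (nat_lit 334) ln13_13_6 ln13_13_6_ok))) (M (nat_lit 398) (B (L (nat_lit 269) ln13_8_4 ln13_8_4_ok) (L (nat_lit 430) ln13_9_4 ln13_9_4_ok))))) (B (M (nat_lit 332) (B (L (nat_lit 300) ln13_13_7 ln13_13_7_ok) (M (nat_lit 331) (B (L (nat_lit 330) ln10_10_0 ln10_10_0_ok) (M (nat_lit 367) (B (L (nat_lit 334) ln11_10_0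 ln11_10_0_ok) (L (nat_lit 368) ln16_11_3 ln16_11_3_ok))))))) (M (nat_lit 332) (B (L (nat_lit 300) ln13_13_7 ln13_13_7_ok) (M (nat_lit 331) (B (L (nat_lit 330) ln10_10_0 ln10_10_0_ok) (M (nat_lit 367) (B (L (nat_lit 364) ln15_11_3 ln15_11_3_ok) (L (nat_lit 368) ln16_11_3 ln16_11_3_ok))))))))))) (B (M (nat_lit 334) (B (L (nat_lit 302) ln13_13_6 ln13_13_6_ok) (M (nat_lit 332) (B (L (nat_lit 300) ln13_13_7 ln13_13_7_ok) (M (nat_lit 335) (B (M (nat_lit 364) (B (L (nat_lit 363) ln15_10_1 ln15_10_1_ok) (L (nat_lit 336) ln16_10_1 ln16_10_1_ok))) (B (M (nat_lit 331) (B (M (nat_lit 363) (B (L (nat_lit 362) ln14_10_1 ln14_10_1_ok) (L (nat_lit 364) ln15_10_1 ln15_10_1_ok))) (M (nat_lit 367) (B (L (nat_lit 366) ln11_10_0 ln11_10_0_ok) (L (nat_lit 368) ln12_10_0 ln12_10_0_ok))))) (B (M (nat_lit 336) (B (L (nat_lit 364) ln16_10_1 ln16_10_1_ok) (M (nat_lit 304) (B (L (nat_lit 303) ln12_10_2 ln12_10_2_ok) (L (nat_lit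 305) ln13_10_2 ln13_10_2_ok))))) (M (nat_lit 336) (B (M (nat_lit 304) (B (L (nat_lit 303) ln12_10_2 ln12_10_2_ok) (L (nat_lit 305) ln13_10_2 ln13_10_2_ok))) (M (nat_lit 368) (B (L (nat_lit 367) ln12_10_0 ln12_10_0_ok) (L (nat_lit 369) ln13_10_0 ln13_10_0_ok))))))))))))) (B (M (nat_lit 364) (B (M (nat_lit 334) (B (L (nat_lit 302) ln13_13_6 ln13_13_6_ok) (M (nat_lit 363) (B (L (nat_lit 362) ln10_11_2 ln10_11_2_ok) (M (nat_lit 335) (B (L (nat_lit 332) ln15_10_1 ln15_10_1_ok) (L (nat_lit 336) ln16_10_1 ln16_10_1_ok))))))) (B (M (nat_lit 363) (B (M (nat_lit 362) (B (L (nat_lit 334) ln10_11_2 ln10_11_2_ok) (L (nat_lit 398) ln10_11_0 ln10_11_0_ok))) (B (M (nat_lit 398) (B (L (nat_lit 362) ln10_11_0 ln10_11_0_ok) (M (nat_lit 399) (B (L (nat_lit 366) ln11_11_0 ln11_11_0_ok) (L (nat_lit 400) ln16_12_3 ln16_12_3_ok))))) (B (M (nat_lit 366) (B (M (nat_lit 398) (B (L (nat_lit 399) ln11_11_0 ln11_11_0_ok) (M (nat_lit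 301) (B (L (nat_lit 269) ln13_8_4 ln13_8_4_ok) (L (nat_lit 430) ln13_9_4 ln13_9_4_ok))))) (M (nat_lit 367) (B (M (nat_lit 331) (B (L (nat_lit 330) ln14_11_3 ln14_11_3_ok) (L (nat_lit 332) ln15_11_3 ln15_11_3_ok))) (M (nat_lit 335) (B (L (nat_lit 334) ln11_11_2 ln11_11_2_ok) (L (nat_lit 336) ln12_11_2 ln12_11_2_ok))))))) (M (nat_lit 334) (B (L (nat_lit 362) ln10_11_2 ln10_11_2_ok) (M (nat_lit 335) (B (L (nat_lit 332) ln15_10_1 ln15_10_1_ok) (L (nat_lit 336) ln16_10_1 ln16_10_1_ok))))))))) (B (M (nat_lit 334) (B (L (nat_lit 302) ln13_13_6 ln13_13_6_ok) (M (nat_lit 335) (B (L (nat_lit 336) ln16_10_1 ln16_10_1_ok) (M (nat_lit 363) (B (L (nat_lit 362) ln10_11_2 ln10_11_2_ok) (L (nat_lit 366) ln11_11_2 ln11_11_2_ok))))))) (B (M (nat_lit 398) (B (M (nat_lit 399) (B (L (nat_lit 400) ln16_12_3 ln16_12_3_ok) (M (nat_lit 363) (B (L (nat_lit 362) ln10_11_0 ln10_11_0_ok) (L (nat_lit 366) ln11_11_0 ln11_11_0_ok)))))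 (B (M (nat_lit 366) (B (M (nat_lit 301) (B (L (nat_lit 269) ln13_8_4 ln13_8_4_ok) (L (nat_lit 430) ln13_9_4 ln13_9_4_ok))) (M (nat_lit 399) (B (L (nat_lit 363) ln11_11_0 ln11_11_0_ok) (L (nat_lit 400) ln16_12_3 ln16_12_3_ok))))) (B (M (nat_lit 301) (B (L (nat_lit 430) ln13_9_4 ln13_9_4_ok) (M (nat_lit 269) (B (L (nat_lit 366) ln13_8_4 ln13_8_4_ok) (M (nat_lit 270) (B (L (nat_lit 238) ln13_11_6 ln13_11_6_ok) (L (nat_lit 302) ln13_12_6 ln13_12_6_ok))))))) (M (nat_lit 428) (B (L (nat_lit 460) ln13_10_5 ln13_10_5_ok) (M (nat_lit 399) (B (L (nat_lit 400) ln16_12_3 ln16_12_3_ok) (M (nat_lit 427) (B (L (nat_lit 426) ln10_13_2 ln10_13_2_ok) (L (nat_lit 430) ln11_13_2 ln11_13_2_ok))))))))))) (B (M (nat_lit 334) (B (L (nat_lit 302) ln13_13_6 ln13_13_6_ok) (M (nat_lit 335) (B (L (nat_lit 336) ln16_10_1 ln16_10_1_ok) (M (nat_lit 363) (B (L (nat_lit 332) ln15_10_1 ln15_10_1_ok) (L (nat_lit 366) ln11_11_2 ln11_11_2_ok)))))))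 (M (nat_lit 301) (B (M (nat_lit 302) (B (L (nat_lit 270) ln13_12_6 ln13_12_6_ok) (L (nat_lit 334) ln13_13_6 ln13_13_6_ok))) (M (nat_lit 269) (B (M (nat_lit 398) (B (L (nat_lit 366) ln13_8_4 ln13_8_4_ok) (L (nat_lit 430) ln13_9_4 ln13_9_4_ok))) (M (nat_lit 237) (B (L (nat_lit 332) ln13_7_5 ln13_7_5_ok) (M (nat_lit 236) (B (L (nat_lit 204) ln13_10_7 ln13_10_7_ok) (L (nat_lit 268) ln13_11_7 ln13_11_7_ok))))))))))))))) (B (M (nat_lit 301) (B (M (nat_lit 300) (B (L (nat_lit 268) ln13_12_7 ln13_12_7_ok) (L (nat_lit 332) ln13_13_7 ln13_13_7_ok))) (B (M (nat_lit 269) (B (M (nat_lit 398) (B (L (nat_lit 366) ln13_8_4 ln13_8_4_ok) (L (nat_lit 430) ln13_9_4 ln13_9_4_ok))) (M (nat_lit 237) (B (M (nat_lit 238) (B (L (nat_lit 206) ln13_10_6 ln13_10_6_ok) (L (nat_lit 270) ln13_11_6 ln13_11_6_ok))) (M (nat_lit 332) (B (L (nat_lit 364) ln13_7_5 ln13_7_5_ok) (L (nat_lit 300) ln13_13_7 ln13_13_7_ok))))))) (M (nat_lit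 269) (B (M (nat_lit 398) (B (L (nat_lit 366) ln13_8_4 ln13_8_4_ok) (L (nat_lit 430) ln13_9_4 ln13_9_4_ok))) (M (nat_lit 237) (B (M (nat_lit 236) (B (L (nat_lit 204) ln13_10_7 ln13_10_7_ok) (L (nat_lit 268) ln13_11_7 ln13_11_7_ok))) (M (nat_lit 238) (B (L (nat_lit 206) ln13_10_6 ln13_10_6_ok) (L (nat_lit 270) ln13_11_6 ln13_11_6_ok)))))))))) (M (nat_lit 301) (B (M (nat_lit 302) (B (L (nat_lit 270) ln13_12_6 ln13_12_6_ok) (L (nat_lit 334) ln13_13_6 ln13_13_6_ok))) (M (nat_lit 269) (B (M (nat_lit 268) (B (L (nat_lit 236) ln13_11_7 ln13_11_7_ok) (L (nat_lit 300) ln13_12_7 ln13_12_7_ok))) (M (nat_lit 398) (B (L (nat_lit 366) ln13_8_4 ln13_8_4_ok) (L (nat_lit 430) ln13_9_4 ln13_9_4_ok))))))))))))) (nat_lit 1386334847383188664625224028427294411511058401076380296564914570976209309333027075361123041184442928399551202358502280908102434816) (nat_lit 2977131418700518513507638966725687066374384459400986461378270700212013744336866997459185195046447572349232385069512897506589489687223599104)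 (nat_lit 2977131418700518513507638966725687066374384459400986461378270700212013744336866997459185195046447572349232385069512897506589489687223599104) (by decide +kernel)
theorem c11_s1652 : Sem (nat_lit 1386334847383188664550070665778531748218595021979121511688892729411143073470393764272092352380775458208712834410189682411080515584) (nat_lit 1013065326084944732783130527616072804505003914154504899815615943295316475428091028725286627095986365431770415917450345477977807972592329101543120222049761796031658455384547393536) (nat_lit 1013065326084944732783130527616072804505003914154504899815615943295316475428091028725286627095986365431770415917450345477977807972592329101543120222049761796031658455384547393536) :=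
  sem_of_chk (M (nat_lit 365) (B (M (nat_lit 333) (B (M (nat_lit 334) (B (L (nat_lit 302) ln13_13_6 ln13_13_6_ok) (M (nat_lit 461) (B (L (nat_lit 366) ln13_14_6 ln13_14_6_ok) (M (nat_lit 332) (B (L (nat_lit 300) ln13_13_7 ln13_13_7_ok) (L (nat_lit 364) ln13_14_7 ln13_14_7_ok))))))) (B (M (nat_lit 461) (B (M (nat_lit 334) (B (L (nat_lit 302) ln13_13_6 ln13_13_6_ok) (L (nat_lit 366) ln13_14_6 ln13_14_6_ok))) (M (nat_lit 460) (B (L (nat_lit 428) ln13_10_5 ln13_10_5_ok) (L (nat_lit 492) ln13_11_5 ln13_11_5_ok))))) (B (M (nat_lit 461) (B (M (nat_lit 332) (B (L (nat_lit 300) ln13_13_7 ln13_13_7_ok) (L (nat_lit 364) ln13_14_7 ln13_14_7_ok))) (M (nat_lit 460) (B (L (nat_lit 428) ln13_10_5 ln13_10_5_ok) (L (nat_lit 492) ln13_11_5 ln13_11_5_ok))))) (M (nat_lit 301) (B (M (nat_lit 300) (B (L (nat_lit 268) ln13_12_7 ln13_12_7_ok) (L (nat_lit 332) ln13_13_7 ln13_13_7_ok))) (M (nat_lit 302) (B (L (nat_lit 270)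 ln13_12_6 ln13_12_6_ok) (L (nat_lit 334) ln13_13_6 ln13_13_6_ok))))))))) (B (M (nat_lit 461) (B (M (nat_lit 460) (B (L (nat_lit 492) ln13_11_5 ln13_11_5_ok) (M (nat_lit 332) (B (L (nat_lit 364) ln13_14_7 ln13_14_7_ok) (M (nat_lit 333) (B (L (nat_lit 300) ln13_13_7 ln13_13_7_ok) (L (nat_lit 428) ln13_10_5 ln13_10_5_ok))))))) (B (M (nat_lit 333) (B (M (nat_lit 334) (B (L (nat_lit 302) ln13_13_6 ln13_13_6_ok) (L (nat_lit 366) ln13_14_6 ln13_14_6_ok))) (M (nat_lit 460) (B (L (nat_lit 428) ln13_10_5 ln13_10_5_ok) (L (nat_lit 492) ln13_11_5 ln13_11_5_ok))))) (B (M (nat_lit 493) (B (M (nat_lit 366) (B (L (nat_lit 334) ln13_14_6 ln13_14_6_ok) (L (nat_lit 398) ln13_15_6 ln13_15_6_ok))) (M (nat_lit 492) (B (L (nat_lit 460) ln13_11_5 ln13_11_5_ok) (L (nat_lit 524) ln13_12_5 ln13_12_5_ok))))) (M (nat_lit 333) (B (M (nat_lit 332) (B (L (nat_lit 300) ln13_13_7 ln13_13_7_ok) (L (nat_lit 364) ln13_14_7 ln13_14_7_ok)))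 (M (nat_lit 334) (B (L (nat_lit 302) ln13_13_6 ln13_13_6_ok) (L (nat_lit 366) ln13_14_6 ln13_14_6_ok))))))))) (B (K (nat_lit 1386334847383188664625224028427294411511058401076380296564914570976209309333027075361123041184442928399551202358502280908102434816) (nat_lit 54918381319404923915069513179998342658892913269124608645794323360741847746424668176681130109690185322271328015985451654843155341103417266141886451673183813632) (nat_lit 54918381319404923915069513179998342658892913269124608645794323360741847746424668176681130109690185322271328015985451654843155341103417266141886451673183813632) c11_s312) (B (M (nat_lit 333) (B (M (nat_lit 461) (B (M (nat_lit 332) (B (L (nat_lit 300) ln13_13_7 ln13_13_7_ok) (L (nat_lit 364) ln13_14_7 ln13_14_7_ok))) (M (nat_lit 460) (B (L (nat_lit 428) ln13_10_5 ln13_10_5_ok) (L (nat_lit 492) ln13_11_5 ln13_11_5_ok))))) (B (M (nat_lit 461) (B (M (nat_lit 460) (B (L (nat_lit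 428) ln13_10_5 ln13_10_5_ok) (L (nat_lit 492) ln13_11_5 ln13_11_5_ok))) (B (M (nat_lit 493) (B (M (nat_lit 366) (B (L (nat_lit 334) ln13_14_6 ln13_14_6_ok) (L (nat_lit 398) ln13_15_6 ln13_15_6_ok))) (M (nat_lit 492) (B (L (nat_lit 460) ln13_11_5 ln13_11_5_ok) (L (nat_lit 524) ln13_12_5 ln13_12_5_ok))))) (M (nat_lit 366) (B (L (nat_lit 334) ln13_14_6 ln13_14_6_ok) (M (nat_lit 398) (B (L (nat_lit 493) ln13_15_6 ln13_15_6_ok) (M (nat_lit 301) (B (L (nat_lit 269) ln13_8_4 ln13_8_4_ok) (L (nat_lit 430) ln13_9_4 ln13_9_4_ok)))))))))) (B (M (nat_lit 461) (B (M (nat_lit 332) (B (L (nat_lit 300) ln13_13_7 ln13_13_7_ok) (L (nat_lit 364) ln13_14_7 ln13_14_7_ok))) (M (nat_lit 493) (B (M (nat_lit 366) (B (L (nat_lit 334) ln13_14_6 ln13_14_6_ok) (L (nat_lit 398) ln13_15_6 ln13_15_6_ok))) (M (nat_lit 492) (B (L (nat_lit 460) ln13_11_5 ln13_11_5_ok) (L (nat_lit 524) ln13_12_5 ln13_12_5_ok))))))) (B (M (nat_lit 366)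 (B (M (nat_lit 461) (B (L (nat_lit 334) ln13_14_6 ln13_14_6_ok) (M (nat_lit 332) (B (L (nat_lit 300) ln13_13_7 ln13_13_7_ok) (L (nat_lit 364) ln13_14_7 ln13_14_7_ok))))) (B (M (nat_lit 398) (B (M (nat_lit 301) (B (L (nat_lit 269) ln13_8_4 ln13_8_4_ok) (L (nat_lit 430) ln13_9_4 ln13_9_4_ok))) (M (nat_lit 461) (B (L (nat_lit 334) ln13_14_6 ln13_14_6_ok) (L (nat_lit 493) ln13_15_6 ln13_15_6_ok))))) (M (nat_lit 301) (B (M (nat_lit 300) (B (L (nat_lit 268) ln13_12_7 ln13_12_7_ok) (L (nat_lit 332) ln13_13_7 ln13_13_7_ok))) (M (nat_lit 398) (B (L (nat_lit 269) ln13_8_4 ln13_8_4_ok) (L (nat_lit 430) ln13_9_4 ln13_9_4_ok)))))))) (M (nat_lit 301) (B (M (nat_lit 300) (B (L (nat_lit 268) ln13_12_7 ln13_12_7_ok) (L (nat_lit 332) ln13_13_7 ln13_13_7_ok))) (B (M (nat_lit 269) (B (M (nat_lit 398) (B (L (nat_lit 366) ln13_8_4 ln13_8_4_ok) (L (nat_lit 430) ln13_9_4 ln13_9_4_ok))) (M (nat_lit 237) (B (M (nat_lit 238)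 (B (L (nat_lit 206) ln13_10_6 ln13_10_6_ok) (L (nat_lit 270) ln13_11_6 ln13_11_6_ok))) (M (nat_lit 332) (B (L (nat_lit 364) ln13_7_5 ln13_7_5_ok) (L (nat_lit 300) ln13_13_7 ln13_13_7_ok))))))) (M (nat_lit 269) (B (M (nat_lit 398) (B (L (nat_lit 366) ln13_8_4 ln13_8_4_ok) (L (nat_lit 430) ln13_9_4 ln13_9_4_ok))) (M (nat_lit 237) (B (M (nat_lit 236) (B (L (nat_lit 204) ln13_10_7 ln13_10_7_ok) (L (nat_lit 268) ln13_11_7 ln13_11_7_ok))) (M (nat_lit 238) (B (L (nat_lit 206) ln13_10_6 ln13_10_6_ok) (L (nat_lit 270) ln13_11_6 ln13_11_6_ok))))))))))))))) (B (K (nat_lit 1386334847383188664625224028427294411511058401076380296564914570976209309333027075361123041184442928399551202358502280908102434816) (nat_lit 1179363258141160341836893638084787814777600562730214729464919259896100656329632650284429369094364071403446327534382549404991578257347651414536932061947908970868379746304) (nat_lit 1179363258141160341836893638084787814777600562730214729464919259896100656329632650284429369094364071403446327534382549404991578257347651414536932061947908970868379746304)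 c11_s508) (B (K (nat_lit 1386334847383188664625224028427294411511058401076380296564914570976209309333027075361123041184442928399551202358502280908102434816) (nat_lit 1013065326084944732755671336770963452484848084825053808438721779008068074268537519686377974051372951012510047139804918736300527013045829680763137347544938953829982229975971921920) (nat_lit 1013065326084944732755671336770963452484848084825053808438721779008068074268537519686377974051372951012510047139804918736300527013045829680763137347544938953829982229975971921920) c11_s1050) (B (M (nat_lit 398) (B (M (nat_lit 364) (B (M (nat_lit 399) (B (L (nat_lit 400) ln16_12_3 ln16_12_3_ok) (M (nat_lit 363) (B (L (nat_lit 362) ln10_11_0 ln10_11_0_ok) (L (nat_lit 366) ln11_11_0 ln11_11_0_ok))))) (M (nat_lit 332) (B (L (nat_lit 461) ln13_14_7 ln13_14_7_ok) (M (nat_lit 300) (B (L (nat_lit 268) ln12_8_4 ln12_8_4_ok) (L (nat_lit 333) ln13_13_7 ln13_13_7_ok)))))))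 (B (M (nat_lit 428) (B (M (nat_lit 460) (B (L (nat_lit 333) ln13_10_5 ln13_10_5_ok) (M (nat_lit 492) (B (L (nat_lit 461) ln13_11_5 ln13_11_5_ok) (L (nat_lit 524) ln12_16_6 ln12_16_6_ok))))) (M (nat_lit 399) (B (L (nat_lit 400) ln16_12_1 ln16_12_1_ok) (M (nat_lit 427) (B (L (nat_lit 426) ln10_13_2 ln10_13_2_ok) (L (nat_lit 430) ln11_13_2 ln11_13_2_ok))))))) (B (M (nat_lit 461) (B (M (nat_lit 493) (B (L (nat_lit 366) ln13_15_6 ln13_15_6_ok) (M (nat_lit 492) (B (L (nat_lit 460) ln13_11_5 ln13_11_5_ok) (L (nat_lit 524) ln13_12_5 ln13_12_5_ok))))) (B (M (nat_lit 493) (B (M (nat_lit 492) (B (L (nat_lit 460) ln13_11_5 ln13_11_5_ok) (L (nat_lit 524) ln13_12_5 ln13_12_5_ok))) (M (nat_lit 525) (B (L (nat_lit 430) ln13_16_6 ln13_16_6_ok) (M (nat_lit 526) (B (L (nat_lit 494) ln13_12_4 ln13_12_4_ok) (L (nat_lit 558) ln13_13_4 ln13_13_4_ok))))))) (B (M (nat_lit 493) (B (L (nat_lit 366) ln13_15_6 ln13_15_6_ok)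 (M (nat_lit 525) (B (L (nat_lit 430) ln13_16_6 ln13_16_6_ok) (M (nat_lit 526) (B (L (nat_lit 494) ln13_12_4 ln13_12_4_ok) (L (nat_lit 558) ln13_13_4 ln13_13_4_ok))))))) (M (nat_lit 364) (B (L (nat_lit 332) ln13_14_7 ln13_14_7_ok) (M (nat_lit 363) (B (L (nat_lit 362) ln10_11_0 ln10_11_0_ok) (M (nat_lit 399) (B (L (nat_lit 366) ln11_11_0 ln11_11_0_ok) (L (nat_lit 400) ln16_12_3 ln16_12_3_ok))))))))))) (B (M (nat_lit 461) (B (M (nat_lit 493) (B (L (nat_lit 366) ln13_15_6 ln13_15_6_ok) (M (nat_lit 525) (B (L (nat_lit 430) ln13_16_6 ln13_16_6_ok) (M (nat_lit 526) (B (L (nat_lit 494) ln13_12_4 ln13_12_4_ok) (L (nat_lit 558) ln13_13_4 ln13_13_4_ok))))))) (M (nat_lit 333) (B (M (nat_lit 332) (B (L (nat_lit 300) ln13_13_7 ln13_13_7_ok) (L (nat_lit 364) ln13_14_7 ln13_14_7_ok))) (M (nat_lit 460) (B (L (nat_lit 428) ln13_10_5 ln13_10_5_ok) (L (nat_lit 492) ln13_11_5 ln13_11_5_ok))))))) (M (nat_lit 333) (B (M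 (nat_lit 301) (B (L (nat_lit 430) ln13_9_4 ln13_9_4_ok) (M (nat_lit 300) (B (L (nat_lit 268) ln13_12_7 ln13_12_7_ok) (L (nat_lit 332) ln13_13_7 ln13_13_7_ok))))) (B (M (nat_lit 301) (B (L (nat_lit 430) ln13_9_4 ln13_9_4_ok) (M (nat_lit 269) (B (L (nat_lit 366) ln13_8_4 ln13_8_4_ok) (M (nat_lit 270) (B (L (nat_lit 238) ln13_11_6 ln13_11_6_ok) (L (nat_lit 302) ln13_12_6 ln13_12_6_ok))))))) (B (M (nat_lit 428) (B (L (nat_lit 460) ln13_10_5 ln13_10_5_ok) (M (nat_lit 399) (B (L (nat_lit 400) ln16_12_1 ln16_12_1_ok) (M (nat_lit 427) (B (L (nat_lit 426) ln10_13_2 ln10_13_2_ok) (L (nat_lit 430) ln11_13_2 ln11_13_2_ok))))))) (M (nat_lit 301) (B (M (nat_lit 300) (B (L (nat_lit 268) ln13_12_7 ln13_12_7_ok) (L (nat_lit 332) ln13_13_7 ln13_13_7_ok))) (M (nat_lit 269) (B (L (nat_lit 366) ln13_8_4 ln13_8_4_ok) (M (nat_lit 270) (B (L (nat_lit 238) ln13_11_6 ln13_11_6_ok) (L (nat_lit 302) ln13_12_6 ln13_12_6_ok))))))))))))))))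 (B (M (nat_lit 333) (B (M (nat_lit 301) (B (M (nat_lit 300) (B (L (nat_lit 268) ln13_12_7 ln13_12_7_ok) (L (nat_lit 332) ln13_13_7 ln13_13_7_ok))) (M (nat_lit 302) (B (L (nat_lit 270) ln13_12_6 ln13_12_6_ok) (L (nat_lit 334) ln13_13_6 ln13_13_6_ok))))) (B (M (nat_lit 461) (B (M (nat_lit 334) (B (L (nat_lit 302) ln13_13_6 ln13_13_6_ok) (L (nat_lit 366) ln13_14_6 ln13_14_6_ok))) (M (nat_lit 460) (B (L (nat_lit 428) ln13_10_5 ln13_10_5_ok) (L (nat_lit 492) ln13_11_5 ln13_11_5_ok))))) (B (M (nat_lit 366) (B (M (nat_lit 460) (B (L (nat_lit 428) ln13_10_5 ln13_10_5_ok) (M (nat_lit 461) (B (L (nat_lit 334) ln13_14_6 ln13_14_6_ok) (L (nat_lit 492) ln13_11_5 ln13_11_5_ok))))) (M (nat_lit 301) (B (M (nat_lit 300) (B (L (nat_lit 268) ln13_12_7 ln13_12_7_ok) (L (nat_lit 332) ln13_13_7 ln13_13_7_ok))) (M (nat_lit 398) (B (L (nat_lit 269) ln13_8_4 ln13_8_4_ok) (L (nat_lit 430) ln13_9_4 ln13_9_4_ok))))))) (M (nat_lit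 301) (B (M (nat_lit 300) (B (L (nat_lit 268) ln13_12_7 ln13_12_7_ok) (L (nat_lit 332) ln13_13_7 ln13_13_7_ok))) (M (nat_lit 269) (B (M (nat_lit 270) (B (L (nat_lit 238) ln13_11_6 ln13_11_6_ok) (L (nat_lit 302) ln13_12_6 ln13_12_6_ok))) (M (nat_lit 398) (B (L (nat_lit 366) ln13_8_4 ln13_8_4_ok) (L (nat_lit 430) ln13_9_4 ln13_9_4_ok))))))))))) (B (K (nat_lit 1386334847383188664625224028427294411511058401076380296564914570976209309333027075361123041184442928399551202358502280908102434816) (nat_lit 82377571940747339851366080070943660395598724634119812704330251237735180374038077619073502031737816177114312556963865626266344615090606712736013311165136371712) (nat_lit 82377571940747339851366080070943660395598724634119812704330251237735180374038077619073502031737816177114312556963865626266344615090606712736013311165136371712) c11_s1481) (B (M (nat_lit 333) (B (M (nat_lit 301) (B (M (nat_lit 300) (B (L (nat_lit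 268) ln13_12_7 ln13_12_7_ok) (L (nat_lit 332) ln13_13_7 ln13_13_7_ok))) (M (nat_lit 302) (B (L (nat_lit 270) ln13_12_6 ln13_12_6_ok) (L (nat_lit 334) ln13_13_6 ln13_13_6_ok))))) (B (M (nat_lit 334) (B (L (nat_lit 302) ln13_13_6 ln13_13_6_ok) (M (nat_lit 461) (B (L (nat_lit 366) ln13_14_6 ln13_14_6_ok) (M (nat_lit 332) (B (L (nat_lit 300) ln13_13_7 ln13_13_7_ok) (L (nat_lit 364) ln13_14_7 ln13_14_7_ok))))))) (B (M (nat_lit 334) (B (L (nat_lit 302) ln13_13_6 ln13_13_6_ok) (M (nat_lit 364) (B (M (nat_lit 461) (B (L (nat_lit 332) ln13_14_7 ln13_14_7_ok) (L (nat_lit 366) ln13_14_6 ln13_14_6_ok))) (B (M (nat_lit 335) (B (L (nat_lit 336) ln16_10_1 ln16_10_1_ok) (M (nat_lit 363) (B (L (nat_lit 362) ln10_11_2 ln10_11_2_ok) (L (nat_lit 366) ln11_11_2 ln11_11_2_ok))))) (M (nat_lit 332) (B (L (nat_lit 461) ln13_14_7 ln13_14_7_ok) (M (nat_lit 335) (B (L (nat_lit 363) ln15_10_1 ln15_10_1_ok) (L (nat_lit 336) ln16_10_1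 ln16_10_1_ok)))))))))) (B (M (nat_lit 461) (B (M (nat_lit 332) (B (L (nat_lit 300) ln13_13_7 ln13_13_7_ok) (L (nat_lit 364) ln13_14_7 ln13_14_7_ok))) (M (nat_lit 493) (B (M (nat_lit 366) (B (L (nat_lit 334) ln13_14_6 ln13_14_6_ok) (L (nat_lit 398) ln13_15_6 ln13_15_6_ok))) (M (nat_lit 492) (B (L (nat_lit 460) ln13_11_5 ln13_11_5_ok) (L (nat_lit 524) ln13_12_5 ln13_12_5_ok))))))) (B (M (nat_lit 301) (B (M (nat_lit 302) (B (L (nat_lit 270) ln13_12_6 ln13_12_6_ok) (L (nat_lit 334) ln13_13_6 ln13_13_6_ok))) (M (nat_lit 269) (B (M (nat_lit 268) (B (L (nat_lit 236) ln13_11_7 ln13_11_7_ok) (L (nat_lit 300) ln13_12_7 ln13_12_7_ok))) (M (nat_lit 398) (B (L (nat_lit 366) ln13_8_4 ln13_8_4_ok) (L (nat_lit 430) ln13_9_4 ln13_9_4_ok))))))) (M (nat_lit 301) (B (M (nat_lit 300) (B (L (nat_lit 268) ln13_12_7 ln13_12_7_ok) (L (nat_lit 332) ln13_13_7 ln13_13_7_ok))) (M (nat_lit 269) (B (M (nat_lit 270) (B (L (nat_lit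 238) ln13_11_6 ln13_11_6_ok) (L (nat_lit 302) ln13_12_6 ln13_12_6_ok))) (M (nat_lit 398) (B (L (nat_lit 366) ln13_8_4 ln13_8_4_ok) (L (nat_lit 430) ln13_9_4 ln13_9_4_ok))))))))))))) (B (M (nat_lit 333) (B (M (nat_lit 301) (B (M (nat_lit 300) (B (L (nat_lit 268) ln13_12_7 ln13_12_7_ok) (L (nat_lit 332) ln13_13_7 ln13_13_7_ok))) (M (nat_lit 302) (B (L (nat_lit 270) ln13_12_6 ln13_12_6_ok) (L (nat_lit 334) ln13_13_6 ln13_13_6_ok))))) (B (M (nat_lit 334) (B (L (nat_lit 302) ln13_13_6 ln13_13_6_ok) (M (nat_lit 461) (B (L (nat_lit 366) ln13_14_6 ln13_14_6_ok) (M (nat_lit 332) (B (L (nat_lit 300) ln13_13_7 ln13_13_7_ok) (L (nat_lit 364) ln13_14_7 ln13_14_7_ok))))))) (B (M (nat_lit 334) (B (L (nat_lit 302) ln13_13_6 ln13_13_6_ok) (M (nat_lit 364) (B (M (nat_lit 461) (B (L (nat_lit 332) ln13_14_7 ln13_14_7_ok) (L (nat_lit 366) ln13_14_6 ln13_14_6_ok))) (B (M (nat_lit 335) (B (L (nat_lit 336) ln16_10_1 ln16_10_1_ok)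 (M (nat_lit 363) (B (L (nat_lit 362) ln10_11_2 ln10_11_2_ok) (L (nat_lit 366) ln11_11_2 ln11_11_2_ok))))) (M (nat_lit 332) (B (L (nat_lit 461) ln13_14_7 ln13_14_7_ok) (M (nat_lit 335) (B (L (nat_lit 363) ln15_10_1 ln15_10_1_ok) (L (nat_lit 336) ln16_10_1 ln16_10_1_ok)))))))))) (B (M (nat_lit 332) (B (L (nat_lit 300) ln13_13_7 ln13_13_7_ok) (M (nat_lit 366) (B (M (nat_lit 461) (B (L (nat_lit 364) ln13_14_7 ln13_14_7_ok) (L (nat_lit 334) ln13_14_6 ln13_14_6_ok))) (B (M (nat_lit 331) (B (L (nat_lit 330) ln10_10_0 ln10_10_0_ok) (M (nat_lit 364) (B (L (nat_lit 367) ln15_11_3 ln15_11_3_ok) (L (nat_lit 461) ln13_14_7 ln13_14_7_ok))))) (B (M (nat_lit 331) (B (L (nat_lit 330) ln10_10_0 ln10_10_0_ok) (M (nat_lit 334) (B (L (nat_lit 367) ln11_10_0 ln11_10_0_ok) (L (nat_lit 461) ln13_14_6 ln13_14_6_ok))))) (M (nat_lit 331) (B (L (nat_lit 330) ln10_10_0 ln10_10_0_ok) (M (nat_lit 367) (B (L (nat_lit 334) ln11_10_0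 ln11_10_0_ok) (L (nat_lit 368) ln16_11_3 ln16_11_3_ok))))))))))) (B (M (nat_lit 301) (B (M (nat_lit 302) (B (L (nat_lit 270) ln13_12_6 ln13_12_6_ok) (L (nat_lit 334) ln13_13_6 ln13_13_6_ok))) (M (nat_lit 269) (B (M (nat_lit 268) (B (L (nat_lit 236) ln13_11_7 ln13_11_7_ok) (L (nat_lit 300) ln13_12_7 ln13_12_7_ok))) (M (nat_lit 398) (B (L (nat_lit 366) ln13_8_4 ln13_8_4_ok) (L (nat_lit 430) ln13_9_4 ln13_9_4_ok))))))) (M (nat_lit 301) (B (M (nat_lit 300) (B (L (nat_lit 268) ln13_12_7 ln13_12_7_ok) (L (nat_lit 332) ln13_13_7 ln13_13_7_ok))) (M (nat_lit 269) (B (M (nat_lit 270) (B (L (nat_lit 238) ln13_11_6 ln13_11_6_ok) (L (nat_lit 302) ln13_12_6 ln13_12_6_ok))) (M (nat_lit 398) (B (L (nat_lit 366) ln13_8_4 ln13_8_4_ok) (L (nat_lit 430) ln13_9_4 ln13_9_4_ok))))))))))))) (K (nat_lit 1386334847383188664625224028427294411511058401076380296564914570976209309333027075361123041184442928399551202358502280908102434816)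 (nat_lit 2977131418700518513507638966725687066374384459400986461378270700212013744336866997459185195046447572349232385069512897506589489687223599104) (nat_lit 2977131418700518513507638966725687066374384459400986461378270700212013744336866997459185195046447572349232385069512897506589489687223599104) c11_s1651))))))))))))) (nat_lit 1386334847383188664550070665778531748218595021979121511688892729411143073470393764272092352380775458208712834410189682411080515584) (nat_lit 1013065326084944732783130527616072804505003914154504899815615943295316475428091028725286627095986365431770415917450345477977807972592329101543120222049761796031658455384547393536) (nat_lit 1013065326084944732783130527616072804505003914154504899815615943295316475428091028725286627095986365431770415917450345477977807972592329101543120222049761796031658455384547393536) (by decide +kernel)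
theorem c11_s1892 : Sem (nat_lit 1732918559228985830687588332223164685273243777473901889611115911763928841837992205340115440475969322760891043012737103013850644480) (nat_lit 1013065324846613311822781578762100152303669751483933814017431900421080547169413804164850384500986249870298531800608615294469285642171062926888191569327833127604292917955630465024) (nat_lit 1013065324846613311822781578762100152303669751483933814017431900421080547169413804164850384500986249870298531800608615294469285642171062926888191569327833127604292917955630465024) :=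
  sem_of_chk (M (nat_lit 428) (B (M (nat_lit 398) (B (L (nat_lit 426) ln10_13_2 ln10_13_2_ok) (M (nat_lit 399) (B (L (nat_lit 400) ln16_12_1 ln16_12_1_ok) (L (nat_lit 430) ln11_13_2 ln11_13_2_ok))))) (B (M (nat_lit 459) (B (M (nat_lit 458) (B (L (nat_lit 430) ln14_13_1 ln14_13_1_ok) (M (nat_lit 457) (B (L (nat_lit 426) ln13_13_1 ln13_13_1_ok) (L (nat_lit 456) ln8_14_2 ln8_14_2_ok))))) (B (M (nat_lit 458) (B (L (nat_lit 430) ln14_13_1 ln14_13_1_ok) (M (nat_lit 457) (B (L (nat_lit 456) ln8_14_2 ln8_14_2_ok) (L (nat_lit 460) ln9_14_2 ln9_14_2_ok))))) (B (M (nat_lit 363) (B (M (nat_lit 460) (B (L (nat_lit 331) ln11_10_4 ln11_10_4_ok) (L (nat_lit 492) ln11_11_4 ln11_11_4_ok))) (B (M (nat_lit 460) (B (L (nat_lit 492) ln11_11_4 ln11_11_4_ok) (M (nat_lit 458) (B (L (nat_lit 490) ln11_11_5 ln11_11_5_ok) (L (nat_lit 457) ln9_14_2 ln9_14_2_ok))))) (M (nat_lit 458) (B (L (nat_lit 490) ln11_11_5 ln11_11_5_ok)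 (M (nat_lit 426) (B (L (nat_lit 331) ln11_10_5 ln11_10_5_ok) (L (nat_lit 457) ln13_13_1 ln13_13_1_ok)))))))) (B (M (nat_lit 363) (B (M (nat_lit 458) (B (L (nat_lit 490) ln11_11_5 ln11_11_5_ok) (L (nat_lit 430) ln14_13_1 ln14_13_1_ok))) (M (nat_lit 460) (B (L (nat_lit 331) ln11_10_4 ln11_10_4_ok) (L (nat_lit 492) ln11_11_4 ln11_11_4_ok))))) (M (nat_lit 491) (B (M (nat_lit 524) (B (L (nat_lit 492) ln11_12_4 ln11_12_4_ok) (M (nat_lit 523) (B (L (nat_lit 556) ln11_13_4 ln11_13_4_ok) (M (nat_lit 522) (B (L (nat_lit 490) ln11_12_5 ln11_12_5_ok) (L (nat_lit 554) ln11_13_5 ln11_13_5_ok))))))) (B (M (nat_lit 363) (B (M (nat_lit 460) (B (L (nat_lit 331) ln11_10_4 ln11_10_4_ok) (L (nat_lit 492) ln11_11_4 ln11_11_4_ok))) (B (M (nat_lit 492) (B (L (nat_lit 460) ln11_11_4 ln11_11_4_ok) (L (nat_lit 524) ln11_12_4 ln11_12_4_ok))) (M (nat_lit 331) (B (M (nat_lit 330) (B (L (nat_lit 298) ln11_13_7 ln11_13_7_ok) (L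 (nat_lit 362) ln11_14_7 ln11_14_7_ok))) (M (nat_lit 332) (B (L (nat_lit 300) ln11_13_6 ln11_13_6_ok) (L (nat_lit 364) ln11_14_6 ln11_14_6_ok)))))))) (B (M (nat_lit 523) (B (M (nat_lit 522) (B (L (nat_lit 490) ln11_12_5 ln11_12_5_ok) (L (nat_lit 554) ln11_13_5 ln11_13_5_ok))) (M (nat_lit 555) (B (L (nat_lit 460) ln11_17_6 ln11_17_6_ok) (M (nat_lit 556) (B (L (nat_lit 524) ln11_13_4 ln11_13_4_ok) (L (nat_lit 588) ln11_14_4 ln11_14_4_ok))))))) (M (nat_lit 523) (B (M (nat_lit 522) (B (L (nat_lit 490) ln11_12_5 ln11_12_5_ok) (L (nat_lit 554) ln11_13_5 ln11_13_5_ok))) (M (nat_lit 460) (B (L (nat_lit 555) ln11_17_6 ln11_17_6_ok) (M (nat_lit 363) (B (L (nat_lit 331) ln11_10_4 ln11_10_4_ok) (L (nat_lit 492) ln11_11_4 ln11_11_4_ok)))))))))))))))) (B (M (nat_lit 459) (B (M (nat_lit 458) (B (L (nat_lit 430) ln14_13_1 ln14_13_1_ok) (M (nat_lit 457) (B (L (nat_lit 456) ln8_14_2 ln8_14_2_ok) (L (nat_lit 460) ln9_14_2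 ln9_14_2_ok))))) (B (M (nat_lit 363) (B (M (nat_lit 460) (B (L (nat_lit 331) ln11_10_4 ln11_10_4_ok) (L (nat_lit 492) ln11_11_4 ln11_11_4_ok))) (B (M (nat_lit 460) (B (L (nat_lit 492) ln11_11_4 ln11_11_4_ok) (M (nat_lit 458) (B (L (nat_lit 490) ln11_11_5 ln11_11_5_ok) (L (nat_lit 457) ln9_14_2 ln9_14_2_ok))))) (M (nat_lit 331) (B (M (nat_lit 330) (B (L (nat_lit 298) ln11_13_7 ln11_13_7_ok) (L (nat_lit 362) ln11_14_7 ln11_14_7_ok))) (M (nat_lit 332) (B (L (nat_lit 300) ln11_13_6 ln11_13_6_ok) (L (nat_lit 364) ln11_14_6 ln11_14_6_ok)))))))) (B (M (nat_lit 363) (B (M (nat_lit 458) (B (L (nat_lit 490) ln11_11_5 ln11_11_5_ok) (L (nat_lit 430) ln14_13_1 ln14_13_1_ok))) (M (nat_lit 460) (B (L (nat_lit 331) ln11_10_4 ln11_10_4_ok) (L (nat_lit 492) ln11_11_4 ln11_11_4_ok))))) (B (M (nat_lit 491) (B (M (nat_lit 524) (B (L (nat_lit 492) ln11_12_4 ln11_12_4_ok) (M (nat_lit 523) (B (L (nat_lit 556) ln11_13_4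 ln11_13_4_ok) (M (nat_lit 522) (B (L (nat_lit 490) ln11_12_5 ln11_12_5_ok) (L (nat_lit 554) ln11_13_5 ln11_13_5_ok))))))) (B (M (nat_lit 363) (B (M (nat_lit 460) (B (L (nat_lit 331) ln11_10_4 ln11_10_4_ok) (L (nat_lit 492) ln11_11_4 ln11_11_4_ok))) (B (M (nat_lit 492) (B (L (nat_lit 460) ln11_11_4 ln11_11_4_ok) (L (nat_lit 524) ln11_12_4 ln11_12_4_ok))) (M (nat_lit 331) (B (M (nat_lit 330) (B (L (nat_lit 298) ln11_13_7 ln11_13_7_ok) (L (nat_lit 362) ln11_14_7 ln11_14_7_ok))) (M (nat_lit 332) (B (L (nat_lit 300) ln11_13_6 ln11_13_6_ok) (L (nat_lit 364) ln11_14_6 ln11_14_6_ok)))))))) (B (M (nat_lit 523) (B (M (nat_lit 522) (B (L (nat_lit 490) ln11_12_5 ln11_12_5_ok) (L (nat_lit 554) ln11_13_5 ln11_13_5_ok))) (M (nat_lit 555) (B (L (nat_lit 460) ln11_17_6 ln11_17_6_ok) (M (nat_lit 556) (B (L (nat_lit 524) ln11_13_4 ln11_13_4_ok) (L (nat_lit 588) ln11_14_4 ln11_14_4_ok))))))) (M (nat_lit 523) (B (M (nat_lit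 522) (B (L (nat_lit 490) ln11_12_5 ln11_12_5_ok) (L (nat_lit 554) ln11_13_5 ln11_13_5_ok))) (M (nat_lit 460) (B (L (nat_lit 555) ln11_17_6 ln11_17_6_ok) (M (nat_lit 363) (B (L (nat_lit 331) ln11_10_4 ln11_10_4_ok) (L (nat_lit 492) ln11_11_4 ln11_11_4_ok))))))))))) (M (nat_lit 458) (B (L (nat_lit 430) ln14_13_1 ln14_13_1_ok) (M (nat_lit 490) (B (L (nat_lit 363) ln11_11_5 ln11_11_5_ok) (M (nat_lit 522) (B (L (nat_lit 491) ln11_12_5 ln11_12_5_ok) (L (nat_lit 554) ln10_17_6 ln10_17_6_ok)))))))))))) (M (nat_lit 426) (B (L (nat_lit 398) ln10_13_2 ln10_13_2_ok) (M (nat_lit 458) (B (L (nat_lit 457) ln13_13_1 ln13_13_1_ok) (M (nat_lit 363) (B (L (nat_lit 331) ln11_10_5 ln11_10_5_ok) (M (nat_lit 490) (B (L (nat_lit 459) ln11_11_5 ln11_11_5_ok) (L (nat_lit 522) ln10_16_6 ln10_16_6_ok))))))))))))) (nat_lit 1732918559228985830687588332223164685273243777473901889611115911763928841837992205340115440475969322760891043012737103013850644480)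 (nat_lit 1013065324846613311822781578762100152303669751483933814017431900421080547169413804164850384500986249870298531800608615294469285642171062926888191569327833127604292917955630465024) (nat_lit 1013065324846613311822781578762100152303669751483933814017431900421080547169413804164850384500986249870298531800608615294469285642171062926888191569327833127604292917955630465024) (by decide +kernel)
noncomputable def c11_n1967 : Cert := (M (nat_lit 459) (B (M (nat_lit 458) (B (M (nat_lit 428) (B (L (nat_lit 430) ln14_13_1 ln14_13_1_ok) (M (nat_lit 457) (B (L (nat_lit 426) ln13_13_1 ln13_13_1_ok) (L (nat_lit 460) ln9_14_2 ln9_14_2_ok))))) (M (nat_lit 490) (B (L (nat_lit 363) ln11_11_5 ln11_11_5_ok) (M (nat_lit 522) (B (L (nat_lit 491) ln11_12_5 ln11_12_5_ok) (L (nat_lit 554) ln10_17_6 ln10_17_6_ok))))))) (B (M (nat_lit 428) (B (M (nat_lit 430) (B (L (nat_lit 394) ln14_13_3 ln14_13_3_ok) (L (nat_lit 458)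 ln14_13_1 ln14_13_1_ok))) (B (M (nat_lit 458) (B (L (nat_lit 430) ln14_13_1 ln14_13_1_ok) (M (nat_lit 457) (B (L (nat_lit 426) ln13_13_1 ln13_13_1_ok) (L (nat_lit 456) ln8_14_2 ln8_14_2_ok))))) (B (M (nat_lit 426) (B (M (nat_lit 394) (B (L (nat_lit 393) ln13_13_3 ln13_13_3_ok) (M (nat_lit 362) (B (L (nat_lit 330) ln10_10_4 ln10_10_4_ok) (L (nat_lit 491) ln11_15_7 ln11_15_7_ok))))) (M (nat_lit 425) (B (M (nat_lit 457) (B (L (nat_lit 456) ln12_13_1 ln12_13_1_ok) (L (nat_lit 458) ln13_13_1 ln13_13_1_ok))) (M (nat_lit 460) (B (L (nat_lit 424) ln8_13_0 ln8_13_0_ok) (L (nat_lit 461) ln9_13_0 ln9_13_0_ok))))))) (M (nat_lit 394) (B (L (nat_lit 430) ln14_13_3 ln14_13_3_ok) (M (nat_lit 362) (B (L (nat_lit 491) ln11_15_7 ln11_15_7_ok) (M (nat_lit 426) (B (L (nat_lit 330) ln10_10_4 ln10_10_4_ok) (L (nat_lit 393) ln13_13_3 ln13_13_3_ok))))))))))) (B (M (nat_lit 458) (B (M (nat_lit 428) (B (L (nat_lit 430) ln14_13_1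 ln14_13_1_ok) (M (nat_lit 457) (B (L (nat_lit 456) ln8_14_2 ln8_14_2_ok) (L (nat_lit 460) ln9_14_2 ln9_14_2_ok))))) (M (nat_lit 490) (B (L (nat_lit 363) ln11_11_5 ln11_11_5_ok) (M (nat_lit 522) (B (L (nat_lit 491) ln11_12_5 ln11_12_5_ok) (L (nat_lit 554) ln10_17_6 ln10_17_6_ok))))))) (B (M (nat_lit 363) (B (M (nat_lit 331) (B (M (nat_lit 332) (B (L (nat_lit 300) ln11_13_6 ln11_13_6_ok) (L (nat_lit 364) ln11_14_6 ln11_14_6_ok))) (M (nat_lit 458) (B (L (nat_lit 426) ln11_10_5 ln11_10_5_ok) (L (nat_lit 490) ln11_11_5 ln11_11_5_ok))))) (B (M (nat_lit 331) (B (M (nat_lit 330) (B (L (nat_lit 298) ln11_13_7 ln11_13_7_ok) (L (nat_lit 362) ln11_14_7 ln11_14_7_ok))) (M (nat_lit 458) (B (L (nat_lit 426) ln11_10_5 ln11_10_5_ok) (L (nat_lit 490) ln11_11_5 ln11_11_5_ok))))) (M (nat_lit 491) (B (M (nat_lit 362) (B (L (nat_lit 330) ln11_14_7 ln11_14_7_ok) (L (nat_lit 394) ln11_15_7 ln11_15_7_ok))) (M (nat_lit 492)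 (B (L (nat_lit 460) ln11_11_4 ln11_11_4_ok) (L (nat_lit 524) ln11_12_4 ln11_12_4_ok)))))))) (B (M (nat_lit 394) (B (M (nat_lit 362) (B (L (nat_lit 491) ln11_15_7 ln11_15_7_ok) (M (nat_lit 330) (B (L (nat_lit 298) ln10_9_4 ln10_9_4_ok) (L (nat_lit 426) ln10_10_4 ln10_10_4_ok))))) (B (M (nat_lit 362) (B (L (nat_lit 491) ln11_15_7 ln11_15_7_ok) (M (nat_lit 330) (B (L (nat_lit 363) ln11_14_7 ln11_14_7_ok) (L (nat_lit 426) ln10_10_4 ln10_10_4_ok))))) (B (M (nat_lit 428) (B (L (nat_lit 430) ln14_13_3 ln14_13_3_ok) (M (nat_lit 393) (B (L (nat_lit 392) ln8_12_0 ln8_12_0_ok) (L (nat_lit 426) ln13_13_3 ln13_13_3_ok))))) (M (nat_lit 362) (B (L (nat_lit 491) ln11_15_7 ln11_15_7_ok) (M (nat_lit 330) (B (L (nat_lit 298) ln10_9_4 ln10_9_4_ok) (L (nat_lit 363) ln11_14_7 ln11_14_7_ok))))))))) (M (nat_lit 458) (B (M (nat_lit 490) (B (L (nat_lit 363) ln11_11_5 ln11_11_5_ok) (M (nat_lit 522) (B (L (nat_lit 426) ln10_16_6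 ln10_16_6_ok) (L (nat_lit 554) ln10_17_6 ln10_17_6_ok))))) (B (M (nat_lit 428) (B (L (nat_lit 430) ln14_13_1 ln14_13_1_ok) (M (nat_lit 457) (B (L (nat_lit 426) ln13_13_1 ln13_13_1_ok) (L (nat_lit 456) ln8_14_2 ln8_14_2_ok))))) (M (nat_lit 428) (B (L (nat_lit 430) ln14_13_1 ln14_13_1_ok) (M (nat_lit 457) (B (L (nat_lit 456) ln8_14_2 ln8_14_2_ok) (L (nat_lit 460) ln9_14_2 ln9_14_2_ok))))))))))))))
noncomputable def c11_n2035 : Cert := (M (nat_lit 459) (B (M (nat_lit 430) (B (L (nat_lit 458) ln14_13_1 ln14_13_1_ok) (M (nat_lit 431) (B (L (nat_lit 460) ln15_13_1 ln15_13_1_ok) (M (nat_lit 399) (B (L (nat_lit 398) ln11_13_2 ln11_13_2_ok) (L (nat_lit 400) ln12_13_2 ln12_13_2_ok))))))) (B (M (nat_lit 460) (B (M (nat_lit 363) (B (L (nat_lit 331) ln11_10_4 ln11_10_4_ok) (L (nat_lit 492) ln11_11_4 ln11_11_4_ok))) (M (nat_lit 458) (B (L (nat_lit 430) ln14_13_1 ln14_13_1_ok) (L (nat_lit 457) ln9_14_2 ln9_14_2_ok)))))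 (B (M (nat_lit 363) (B (M (nat_lit 460) (B (L (nat_lit 331) ln11_10_4 ln11_10_4_ok) (L (nat_lit 492) ln11_11_4 ln11_11_4_ok))) (B (M (nat_lit 460) (B (L (nat_lit 492) ln11_11_4 ln11_11_4_ok) (M (nat_lit 458) (B (L (nat_lit 490) ln11_11_5 ln11_11_5_ok) (L (nat_lit 457) ln9_14_2 ln9_14_2_ok))))) (M (nat_lit 331) (B (M (nat_lit 330) (B (L (nat_lit 298) ln11_13_7 ln11_13_7_ok) (L (nat_lit 362) ln11_14_7 ln11_14_7_ok))) (M (nat_lit 332) (B (L (nat_lit 300) ln11_13_6 ln11_13_6_ok) (L (nat_lit 364) ln11_14_6 ln11_14_6_ok)))))))) (B (M (nat_lit 430) (B (M (nat_lit 431) (B (L (nat_lit 460) ln15_13_1 ln15_13_1_ok) (M (nat_lit 399) (B (L (nat_lit 398) ln11_13_2 ln11_13_2_ok) (L (nat_lit 400) ln12_13_2 ln12_13_2_ok))))) (B (M (nat_lit 460) (B (L (nat_lit 431) ln15_13_1 ln15_13_1_ok) (M (nat_lit 363) (B (L (nat_lit 331) ln11_10_4 ln11_10_4_ok) (L (nat_lit 492) ln11_11_4 ln11_11_4_ok))))) (B (M (nat_lit 492) (B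 (M (nat_lit 460) (B (L (nat_lit 363) ln11_11_4 ln11_11_4_ok) (L (nat_lit 524) ln12_16_7 ln12_16_7_ok))) (B (M (nat_lit 524) (B (L (nat_lit 460) ln12_16_7 ln12_16_7_ok) (L (nat_lit 491) ln11_12_4 ln11_12_4_ok))) (B (M (nat_lit 491) (B (L (nat_lit 524) ln11_12_4 ln11_12_4_ok) (M (nat_lit 493) (B (M (nat_lit 398) (B (L (nat_lit 399) ln11_13_2 ln11_13_2_ok) (M (nat_lit 461) (B (L (nat_lit 366) ln13_15_6 ln13_15_6_ok) (L (nat_lit 525) ln13_16_6 ln13_16_6_ok))))) (M (nat_lit 522) (B (L (nat_lit 490) ln11_12_5 ln11_12_5_ok) (M (nat_lit 523) (B (L (nat_lit 554) ln11_13_5 ln11_13_5_ok) (L (nat_lit 494) ln14_15_1 ln14_15_1_ok))))))))) (M (nat_lit 363) (B (L (nat_lit 460) ln11_11_4 ln11_11_4_ok) (M (nat_lit 331) (B (M (nat_lit 330) (B (L (nat_lit 298) ln11_13_7 ln11_13_7_ok) (L (nat_lit 362) ln11_14_7 ln11_14_7_ok))) (M (nat_lit 332) (B (L (nat_lit 300) ln11_13_6 ln11_13_6_ok) (L (nat_lit 364) ln11_14_6 ln11_14_6_ok)))))))))))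 (M (nat_lit 431) (B (M (nat_lit 399) (B (L (nat_lit 398) ln11_13_2 ln11_13_2_ok) (L (nat_lit 400) ln12_13_2 ln12_13_2_ok))) (B (M (nat_lit 432) (B (M (nat_lit 400) (B (L (nat_lit 399) ln12_13_2 ln12_13_2_ok) (L (nat_lit 401) ln13_13_2 ln13_13_2_ok))) (M (nat_lit 464) (B (L (nat_lit 463) ln12_13_0 ln12_13_0_ok) (L (nat_lit 465) ln13_13_0 ln13_13_0_ok))))) (B (M (nat_lit 432) (B (M (nat_lit 464) (B (L (nat_lit 463) ln12_13_0 ln12_13_0_ok) (L (nat_lit 465) ln13_13_0 ln13_13_0_ok))) (M (nat_lit 401) (B (L (nat_lit 400) ln13_13_2 ln13_13_2_ok) (M (nat_lit 433) (B (L (nat_lit 398) ln17_13_3 ln17_13_3_ok) (L (nat_lit 402) ln14_13_2 ln14_13_2_ok))))))) (M (nat_lit 432) (B (M (nat_lit 398) (B (L (nat_lit 433) ln17_13_3 ln17_13_3_ok) (L (nat_lit 399) ln11_13_2 ln11_13_2_ok))) (M (nat_lit 464) (B (L (nat_lit 463) ln12_13_0 ln12_13_0_ok) (L (nat_lit 465) ln13_13_0 ln13_13_0_ok))))))))))))) (M (nat_lit 458) (B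 (L (nat_lit 430) ln14_13_1 ln14_13_1_ok) (M (nat_lit 490) (B (L (nat_lit 363) ln11_11_5 ln11_11_5_ok) (M (nat_lit 522) (B (L (nat_lit 491) ln11_12_5 ln11_12_5_ok) (L (nat_lit 554) ln10_17_6 ln10_17_6_ok))))))))))))
theorem c11_s2154 : Sem (nat_lit 1732918559228985830687588332223164685273243777473901889611115911763928841837992205340115440475969322760891043012737103013850644480) (nat_lit 58968163093780513531789367936885326284328324598479987962590798575250554678272972815420894744103065673083167549838237586841629947432743839274529287110416519751073267712) (nat_lit 58968163093780513531789367936885326284328324598479987962590798575250554678272972815420894744103065673083167549838237586841629947432743839274529287110416519751073267712) :=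
  sem_of_chk (M (nat_lit 428) (B (M (nat_lit 430) (B (L (nat_lit 394) ln14_13_3 ln14_13_3_ok) (M (nat_lit 431) (B (M (nat_lit 399) (B (L (nat_lit 398) ln11_13_2 ln11_13_2_ok) (L (nat_lit 400) ln12_13_2 ln12_13_2_ok))) (M (nat_lit 459) (B (L (nat_lit 458) ln14_13_1 ln14_13_1_ok) (L (nat_lit 460) ln15_13_1 ln15_13_1_ok))))))) (B c11_n2035 (B (M (nat_lit 430) (B (L (nat_lit 394) ln14_13_3 ln14_13_3_ok) (M (nat_lit 459) (B (L (nat_lit 458) ln14_13_1 ln14_13_1_ok) (M (nat_lit 460) (B (L (nat_lit 431) ln15_13_1 ln15_13_1_ok) (M (nat_lit 363) (B (L (nat_lit 331) ln11_10_4 ln11_10_4_ok) (L (nat_lit 492) ln11_11_4 ln11_11_4_ok))))))))) (B (M (nat_lit 363) (B (M (nat_lit 460) (B (L (nat_lit 331) ln11_10_4 ln11_10_4_ok) (M (nat_lit 492) (B (L (nat_lit 459) ln11_11_4 ln11_11_4_ok) (L (nat_lit 524) ln12_16_7 ln12_16_7_ok))))) (B (M (nat_lit 459) (B (M (nat_lit 460) (B (L (nat_lit 492) ln11_11_4 ln11_11_4_ok)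 (M (nat_lit 458) (B (L (nat_lit 490) ln11_11_5 ln11_11_5_ok) (L (nat_lit 457) ln9_14_2 ln9_14_2_ok))))) (B (M (nat_lit 491) (B (M (nat_lit 362) (B (L (nat_lit 330) ln11_14_7 ln11_14_7_ok) (L (nat_lit 394) ln11_15_7 ln11_15_7_ok))) (M (nat_lit 492) (B (L (nat_lit 460) ln11_11_4 ln11_11_4_ok) (L (nat_lit 524) ln11_12_4 ln11_12_4_ok))))) (M (nat_lit 491) (B (M (nat_lit 362) (B (L (nat_lit 330) ln11_14_7 ln11_14_7_ok) (L (nat_lit 394) ln11_15_7 ln11_15_7_ok))) (M (nat_lit 490) (B (L (nat_lit 458) ln11_11_5 ln11_11_5_ok) (L (nat_lit 522) ln11_12_5 ln11_12_5_ok)))))))) (B (M (nat_lit 331) (B (L (nat_lit 460) ln11_10_4 ln11_10_4_ok) (M (nat_lit 299) (B (M (nat_lit 298) (B (L (nat_lit 266) ln11_12_7 ln11_12_7_ok) (L (nat_lit 330) ln11_13_7 ln11_13_7_ok))) (M (nat_lit 300) (B (L (nat_lit 268) ln11_12_6 ln11_12_6_ok) (L (nat_lit 332) ln11_13_6 ln11_13_6_ok))))))) (M (nat_lit 332) (B (M (nat_lit 300) (B (L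 (nat_lit 331) ln11_13_6 ln11_13_6_ok) (M (nat_lit 364) (B (L (nat_lit 268) ln12_8_5 ln12_8_5_ok) (L (nat_lit 459) ln11_14_6 ln11_14_6_ok))))) (B (M (nat_lit 330) (B (M (nat_lit 331) (B (L (nat_lit 298) ln11_13_7 ln11_13_7_ok) (L (nat_lit 300) ln11_13_6 ln11_13_6_ok))) (M (nat_lit 459) (B (L (nat_lit 362) ln11_14_7 ln11_14_7_ok) (L (nat_lit 364) ln11_14_6 ln11_14_6_ok))))) (B (M (nat_lit 459) (B (L (nat_lit 364) ln11_14_6 ln11_14_6_ok) (M (nat_lit 491) (B (M (nat_lit 362) (B (L (nat_lit 330) ln11_14_7 ln11_14_7_ok) (L (nat_lit 394) ln11_15_7 ln11_15_7_ok))) (M (nat_lit 490) (B (L (nat_lit 458) ln11_11_5 ln11_11_5_ok) (L (nat_lit 522) ln11_12_5 ln11_12_5_ok))))))) (B (M (nat_lit 331) (B (L (nat_lit 300) ln11_13_6 ln11_13_6_ok) (M (nat_lit 330) (B (L (nat_lit 298) ln11_13_7 ln11_13_7_ok) (M (nat_lit 362) (B (L (nat_lit 459) ln11_14_7 ln11_14_7_ok) (M (nat_lit 361) (B (L (nat_lit 333) ln13_10_1 ln13_10_1_ok)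 (L (nat_lit 360) ln8_11_2 ln8_11_2_ok))))))))) (M (nat_lit 331) (B (L (nat_lit 300) ln11_13_6 ln11_13_6_ok) (M (nat_lit 362) (B (M (nat_lit 330) (B (L (nat_lit 298) ln11_13_7 ln11_13_7_ok) (M (nat_lit 333) (B (L (nat_lit 361) ln13_10_1 ln13_10_1_ok) (L (nat_lit 334) ln14_10_1 ln14_10_1_ok))))) (B (M (nat_lit 333) (B (L (nat_lit 334) ln14_10_1 ln14_10_1_ok) (M (nat_lit 361) (B (L (nat_lit 330) ln13_10_1 ln13_10_1_ok) (L (nat_lit 360) ln8_11_2 ln8_11_2_ok))))) (B (M (nat_lit 333) (B (L (nat_lit 334) ln14_10_1 ln14_10_1_ok) (M (nat_lit 361) (B (L (nat_lit 360) ln8_11_2 ln8_11_2_ok) (L (nat_lit 364) ln9_11_2 ln9_11_2_ok))))) (M (nat_lit 299) (B (M (nat_lit 298) (B (L (nat_lit 266) ln11_12_7 ln11_12_7_ok) (L (nat_lit 330) ln11_13_7 ln11_13_7_ok))) (B (M (nat_lit 267) (B (L (nat_lit 394) ln11_8_5 ln11_8_5_ok) (M (nat_lit 235) (B (L (nat_lit 330) ln11_7_5 ln11_7_5_ok) (L (nat_lit 364) ln11_7_4 ln11_7_4_ok)))))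 (M (nat_lit 267) (B (L (nat_lit 394) ln11_8_5 ln11_8_5_ok) (M (nat_lit 266) (B (L (nat_lit 234) ln11_11_7 ln11_11_7_ok) (L (nat_lit 298) ln11_12_7 ln11_12_7_ok))))))))))))))))))))))) (B (M (nat_lit 430) (B (L (nat_lit 394) ln14_13_3 ln14_13_3_ok) (M (nat_lit 431) (B (M (nat_lit 399) (B (L (nat_lit 398) ln11_13_2 ln11_13_2_ok) (L (nat_lit 400) ln12_13_2 ln12_13_2_ok))) (M (nat_lit 432) (B (M (nat_lit 460) (B (L (nat_lit 459) ln15_13_1 ln15_13_1_ok) (L (nat_lit 461) ln16_13_1 ln16_13_1_ok))) (M (nat_lit 464) (B (L (nat_lit 463) ln12_13_0 ln12_13_0_ok) (L (nat_lit 465) ln13_13_0 ln13_13_0_ok))))))))) (M (nat_lit 430) (B (L (nat_lit 394) ln14_13_3 ln14_13_3_ok) (M (nat_lit 431) (B (M (nat_lit 399) (B (L (nat_lit 398) ln11_13_2 ln11_13_2_ok) (L (nat_lit 400) ln12_13_2 ln12_13_2_ok))) (B (M (nat_lit 432) (B (M (nat_lit 400) (B (L (nat_lit 399) ln12_13_2 ln12_13_2_ok) (L (nat_lit 401) ln13_13_2 ln13_13_2_ok)))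 (M (nat_lit 464) (B (L (nat_lit 463) ln12_13_0 ln12_13_0_ok) (L (nat_lit 465) ln13_13_0 ln13_13_0_ok))))) (B (M (nat_lit 432) (B (M (nat_lit 464) (B (L (nat_lit 463) ln12_13_0 ln12_13_0_ok) (L (nat_lit 465) ln13_13_0 ln13_13_0_ok))) (M (nat_lit 401) (B (L (nat_lit 400) ln13_13_2 ln13_13_2_ok) (M (nat_lit 433) (B (L (nat_lit 398) ln17_13_3 ln17_13_3_ok) (L (nat_lit 402) ln14_13_2 ln14_13_2_ok))))))) (M (nat_lit 432) (B (M (nat_lit 398) (B (L (nat_lit 433) ln17_13_3 ln17_13_3_ok) (L (nat_lit 399) ln11_13_2 ln11_13_2_ok))) (M (nat_lit 464) (B (L (nat_lit 463) ln12_13_0 ln12_13_0_ok) (L (nat_lit 465) ln13_13_0 ln13_13_0_ok))))))))))))))))) (nat_lit 1732918559228985830687588332223164685273243777473901889611115911763928841837992205340115440475969322760891043012737103013850644480) (nat_lit 58968163093780513531789367936885326284328324598479987962590798575250554678272972815420894744103065673083167549838237586841629947432743839274529287110416519751073267712)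 (nat_lit 58968163093780513531789367936885326284328324598479987962590798575250554678272972815420894744103065673083167549838237586841629947432743839274529287110416519751073267712) (by decide +kernel)
noncomputable def c11_n2248 : Cert := (M (nat_lit 458) (B (M (nat_lit 490) (B (L (nat_lit 363) ln11_11_5 ln11_11_5_ok) (M (nat_lit 522) (B (L (nat_lit 426) ln10_16_6 ln10_16_6_ok) (L (nat_lit 491) ln11_12_5 ln11_12_5_ok))))) (B (M (nat_lit 491) (B (M (nat_lit 492) (B (L (nat_lit 524) ln11_12_4 ln11_12_4_ok) (M (nat_lit 457) (B (L (nat_lit 456) ln8_14_0 ln8_14_0_ok) (M (nat_lit 493) (B (L (nat_lit 460) ln9_14_0 ln9_14_0_ok) (L (nat_lit 494) ln14_15_3 ln14_15_3_ok))))))) (M (nat_lit 523) (B (M (nat_lit 426) (B (L (nat_lit 394) ln11_16_7 ln11_16_7_ok) (L (nat_lit 555) ln11_17_7 ln11_17_7_ok))) (M (nat_lit 522) (B (L (nat_lit 490) ln11_12_5 ln11_12_5_ok) (L (nat_lit 554) ln11_13_5 ln11_13_5_ok))))))) (B (M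 (nat_lit 490) (B (L (nat_lit 363) ln11_11_5 ln11_11_5_ok) (M (nat_lit 522) (B (L (nat_lit 491) ln11_12_5 ln11_12_5_ok) (L (nat_lit 554) ln10_17_6 ln10_17_6_ok))))) (B (M (nat_lit 461) (B (M (nat_lit 460) (B (L (nat_lit 430) ln10_14_2 ln10_14_2_ok) (M (nat_lit 426) (B (L (nat_lit 425) ln13_14_3 ln13_14_3_ok) (M (nat_lit 363) (B (L (nat_lit 331) ln11_10_5 ln11_10_5_ok) (L (nat_lit 492) ln11_11_4 ln11_11_4_ok))))))) (B (M (nat_lit 492) (B (M (nat_lit 460) (B (L (nat_lit 363) ln11_11_4 ln11_11_4_ok) (L (nat_lit 430) ln10_14_2 ln10_14_2_ok))) (M (nat_lit 524) (B (L (nat_lit 491) ln11_12_4 ln11_12_4_ok) (L (nat_lit 493) ln13_12_5 ln13_12_5_ok))))) (B (M (nat_lit 460) (B (L (nat_lit 430) ln10_14_2 ln10_14_2_ok) (M (nat_lit 493) (B (L (nat_lit 494) ln10_14_0 ln10_14_0_ok) (M (nat_lit 492) (B (L (nat_lit 524) ln13_12_5 ln13_12_5_ok) (L (nat_lit 457) ln9_14_0 ln9_14_0_ok))))))) (B (M (nat_lit 493) (B (M (nat_lit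 494) (B (L (nat_lit 526) ln13_12_4 ln13_12_4_ok) (L (nat_lit 460) ln10_14_0 ln10_14_0_ok))) (B (M (nat_lit 492) (B (L (nat_lit 524) ln13_12_5 ln13_12_5_ok) (M (nat_lit 494) (B (L (nat_lit 526) ln13_12_4 ln13_12_4_ok) (L (nat_lit 491) ln14_15_3 ln14_15_3_ok))))) (M (nat_lit 492) (B (L (nat_lit 524) ln13_12_5 ln13_12_5_ok) (M (nat_lit 460) (B (L (nat_lit 363) ln11_11_4 ln11_11_4_ok) (L (nat_lit 457) ln9_14_0 ln9_14_0_ok)))))))) (B (M (nat_lit 493) (B (M (nat_lit 492) (B (L (nat_lit 524) ln13_12_5 ln13_12_5_ok) (M (nat_lit 494) (B (L (nat_lit 526) ln13_12_4 ln13_12_4_ok) (L (nat_lit 491) ln14_15_3 ln14_15_3_ok))))) (B (M (nat_lit 525) (B (M (nat_lit 398) (B (L (nat_lit 366) ln13_15_6 ln13_15_6_ok) (L (nat_lit 430) ln13_16_6 ln13_16_6_ok))) (M (nat_lit 526) (B (L (nat_lit 494) ln13_12_4 ln13_12_4_ok) (L (nat_lit 558) ln13_13_4 ln13_13_4_ok))))) (M (nat_lit 525) (B (M (nat_lit 398) (B (L (nat_lit 366)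 ln13_15_6 ln13_15_6_ok) (L (nat_lit 430) ln13_16_6 ln13_16_6_ok))) (M (nat_lit 524) (B (L (nat_lit 492) ln13_12_5 ln13_12_5_ok) (L (nat_lit 556) ln13_13_5 ln13_13_5_ok)))))))) (M (nat_lit 493) (B (M (nat_lit 460) (B (L (nat_lit 430) ln10_14_2 ln10_14_2_ok) (L (nat_lit 494) ln10_14_0 ln10_14_0_ok))) (B (M (nat_lit 494) (B (L (nat_lit 526) ln13_12_4 ln13_12_4_ok) (L (nat_lit 460) ln10_14_0 ln10_14_0_ok))) (B (M (nat_lit 525) (B (M (nat_lit 398) (B (L (nat_lit 366) ln13_15_6 ln13_15_6_ok) (L (nat_lit 430) ln13_16_6 ln13_16_6_ok))) (M (nat_lit 526) (B (L (nat_lit 494) ln13_12_4 ln13_12_4_ok) (L (nat_lit 558) ln13_13_4 ln13_13_4_ok))))) (M (nat_lit 398) (B (L (nat_lit 366) ln13_15_6 ln13_15_6_ok) (M (nat_lit 430) (B (L (nat_lit 525) ln13_16_6 ln13_16_6_ok) (L (nat_lit 460) ln10_14_2 ln10_14_2_ok))))))))))))))) (M (nat_lit 490) (B (L (nat_lit 363) ln11_11_5 ln11_11_5_ok) (M (nat_lit 522) (B (L (nat_lit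 426) ln10_16_6 ln10_16_6_ok) (L (nat_lit 554) ln10_17_6 ln10_17_6_ok))))))))))
noncomputable def c11_n2400 : Cert := (M (nat_lit 460) (B (M (nat_lit 363) (B (L (nat_lit 492) ln11_11_4 ln11_11_4_ok) (M (nat_lit 330) (B (L (nat_lit 362) ln11_14_7 ln11_14_7_ok) (M (nat_lit 331) (B (L (nat_lit 298) ln11_13_7 ln11_13_7_ok) (M (nat_lit 332) (B (L (nat_lit 300) ln11_13_6 ln11_13_6_ok) (L (nat_lit 364) ln11_14_6 ln11_14_6_ok))))))))) (B (M (nat_lit 363) (B (L (nat_lit 492) ln11_11_4 ln11_11_4_ok) (M (nat_lit 331) (B (M (nat_lit 332) (B (L (nat_lit 300) ln11_13_6 ln11_13_6_ok) (L (nat_lit 364) ln11_14_6 ln11_14_6_ok))) (M (nat_lit 458) (B (L (nat_lit 426) ln11_10_5 ln11_10_5_ok) (L (nat_lit 490) ln11_11_5 ln11_11_5_ok))))))) (B (M (nat_lit 363) (B (L (nat_lit 492) ln11_11_4 ln11_11_4_ok) (M (nat_lit 331) (B (M (nat_lit 330) (B (L (nat_lit 298) ln11_13_7 ln11_13_7_ok) (L (nat_lit 362) ln11_14_7 ln11_14_7_ok)))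 (M (nat_lit 458) (B (L (nat_lit 426) ln11_10_5 ln11_10_5_ok) (L (nat_lit 490) ln11_11_5 ln11_11_5_ok))))))) (B (M (nat_lit 458) (B (M (nat_lit 363) (B (L (nat_lit 490) ln11_11_5 ln11_11_5_ok) (L (nat_lit 492) ln11_11_4 ln11_11_4_ok))) (B (M (nat_lit 461) (B (L (nat_lit 430) ln10_14_2 ln10_14_2_ok) (M (nat_lit 493) (B (L (nat_lit 494) ln10_14_0 ln10_14_0_ok) (M (nat_lit 492) (B (L (nat_lit 524) ln13_12_5 ln13_12_5_ok) (L (nat_lit 457) ln9_14_0 ln9_14_0_ok))))))) (M (nat_lit 461) (B (L (nat_lit 430) ln10_14_2 ln10_14_2_ok) (M (nat_lit 490) (B (L (nat_lit 363) ln11_11_5 ln11_11_5_ok) (L (nat_lit 489) ln13_14_1 ln13_14_1_ok)))))))) (B (M (nat_lit 461) (B (M (nat_lit 458) (B (L (nat_lit 430) ln10_14_2 ln10_14_2_ok) (M (nat_lit 493) (B (L (nat_lit 494) ln10_14_0 ln10_14_0_ok) (M (nat_lit 492) (B (L (nat_lit 524) ln13_12_5 ln13_12_5_ok) (L (nat_lit 457) ln9_14_0 ln9_14_0_ok))))))) (B (M (nat_lit 458) (B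 (M (nat_lit 426) (B (L (nat_lit 425) ln13_14_3 ln13_14_3_ok) (M (nat_lit 490) (B (L (nat_lit 522) ln10_16_6 ln10_16_6_ok) (L (nat_lit 489) ln13_14_1 ln13_14_1_ok))))) (M (nat_lit 493) (B (L (nat_lit 494) ln10_14_0 ln10_14_0_ok) (M (nat_lit 492) (B (L (nat_lit 524) ln13_12_5 ln13_12_5_ok) (L (nat_lit 457) ln9_14_0 ln9_14_0_ok))))))) (B (M (nat_lit 458) (B (L (nat_lit 430) ln10_14_2 ln10_14_2_ok) (M (nat_lit 426) (B (L (nat_lit 425) ln13_14_3 ln13_14_3_ok) (M (nat_lit 490) (B (L (nat_lit 522) ln10_16_6 ln10_16_6_ok) (L (nat_lit 489) ln13_14_1 ln13_14_1_ok))))))) (M (nat_lit 493) (B (M (nat_lit 492) (B (L (nat_lit 524) ln13_12_5 ln13_12_5_ok) (M (nat_lit 494) (B (L (nat_lit 526) ln13_12_4 ln13_12_4_ok) (L (nat_lit 495) ln15_15_3 ln15_15_3_ok))))) (B (M (nat_lit 525) (B (M (nat_lit 398) (B (L (nat_lit 366) ln13_15_6 ln13_15_6_ok) (L (nat_lit 430) ln13_16_6 ln13_16_6_ok))) (M (nat_lit 526) (B (L (nat_lit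 494) ln13_12_4 ln13_12_4_ok) (L (nat_lit 558) ln13_13_4 ln13_13_4_ok))))) (M (nat_lit 525) (B (M (nat_lit 398) (B (L (nat_lit 366) ln13_15_6 ln13_15_6_ok) (L (nat_lit 430) ln13_16_6 ln13_16_6_ok))) (M (nat_lit 524) (B (L (nat_lit 492) ln13_12_5 ln13_12_5_ok) (L (nat_lit 556) ln13_13_5 ln13_13_5_ok)))))))))))) (M (nat_lit 458) (B (M (nat_lit 461) (B (L (nat_lit 430) ln10_14_2 ln10_14_2_ok) (M (nat_lit 490) (B (L (nat_lit 363) ln11_11_5 ln11_11_5_ok) (L (nat_lit 489) ln13_14_1 ln13_14_1_ok))))) (B (M (nat_lit 461) (B (L (nat_lit 430) ln10_14_2 ln10_14_2_ok) (M (nat_lit 426) (B (L (nat_lit 425) ln13_14_3 ln13_14_3_ok) (M (nat_lit 490) (B (L (nat_lit 522) ln10_16_6 ln10_16_6_ok) (L (nat_lit 489) ln13_14_1 ln13_14_1_ok))))))) (B (M (nat_lit 426) (B (M (nat_lit 363) (B (L (nat_lit 331) ln11_10_5 ln11_10_5_ok) (L (nat_lit 490) ln11_11_5 ln11_11_5_ok))) (M (nat_lit 425) (B (L (nat_lit 424) ln8_13_0 ln8_13_0_ok)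 (L (nat_lit 461) ln13_14_3 ln13_14_3_ok))))) (B (M (nat_lit 363) (B (L (nat_lit 490) ln11_11_5 ln11_11_5_ok) (M (nat_lit 331) (B (L (nat_lit 426) ln11_10_5 ln11_10_5_ok) (M (nat_lit 332) (B (L (nat_lit 300) ln11_13_6 ln11_13_6_ok) (L (nat_lit 364) ln11_14_6 ln11_14_6_ok))))))) (M (nat_lit 457) (B (M (nat_lit 425) (B (L (nat_lit 424) ln12_14_3 ln12_14_3_ok) (M (nat_lit 461) (B (L (nat_lit 426) ln13_14_3 ln13_14_3_ok) (L (nat_lit 430) ln10_14_2 ln10_14_2_ok))))) (B (M (nat_lit 461) (B (L (nat_lit 430) ln10_14_2 ln10_14_2_ok) (M (nat_lit 456) (B (M (nat_lit 426) (B (L (nat_lit 425) ln13_14_3 ln13_14_3_ok) (L (nat_lit 455) ln7_14_2 ln7_14_2_ok))) (M (nat_lit 488) (B (L (nat_lit 487) ln11_14_1 ln11_14_1_ok) (L (nat_lit 489) ln12_14_1 ln12_14_1_ok))))))) (B (M (nat_lit 456) (B (M (nat_lit 488) (B (L (nat_lit 487) ln11_14_1 ln11_14_1_ok) (L (nat_lit 489) ln12_14_1 ln12_14_1_ok))) (M (nat_lit 423) (B (L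 (nat_lit 424) ln11_14_3 ln11_14_3_ok) (M (nat_lit 455) (B (L (nat_lit 422) ln10_14_3 ln10_14_3_ok) (L (nat_lit 426) ln7_14_2 ln7_14_2_ok))))))) (M (nat_lit 456) (B (M (nat_lit 424) (B (L (nat_lit 423) ln11_14_3 ln11_14_3_ok) (L (nat_lit 425) ln12_14_3 ln12_14_3_ok))) (M (nat_lit 488) (B (L (nat_lit 487) ln11_14_1 ln11_14_1_ok) (L (nat_lit 489) ln12_14_1 ln12_14_1_ok))))))))))))))))))))
theorem c11_s2402 : Sem (nat_lit 1732918559228985830687588332223164685273243777473901889611115911763928841837992205340115440475969322760891043012737103013850644480) (nat_lit 1356267747285205928842452830821262543532989428847767523721250718548868823399541336897593420636316984518895920458869522517759596158762151952545071632188851322569906716672) (nat_lit 1356267747285205928842452830821262543532989428847767523721250718548868823399541336897593420636316984518895920458869522517759596158762151952545071632188851322569906716672)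 :=
  sem_of_chk (M (nat_lit 459) (B (M (nat_lit 363) (B (M (nat_lit 331) (B (M (nat_lit 332) (B (L (nat_lit 300) ln11_13_6 ln11_13_6_ok) (L (nat_lit 364) ln11_14_6 ln11_14_6_ok))) (M (nat_lit 458) (B (L (nat_lit 426) ln11_10_5 ln11_10_5_ok) (L (nat_lit 490) ln11_11_5 ln11_11_5_ok))))) (M (nat_lit 491) (B (M (nat_lit 362) (B (L (nat_lit 330) ln11_14_7 ln11_14_7_ok) (L (nat_lit 394) ln11_15_7 ln11_15_7_ok))) (M (nat_lit 492) (B (L (nat_lit 460) ln11_11_4 ln11_11_4_ok) (L (nat_lit 524) ln11_12_4 ln11_12_4_ok))))))) (B (M (nat_lit 363) (B (M (nat_lit 491) (B (M (nat_lit 490) (B (L (nat_lit 458) ln11_11_5 ln11_11_5_ok) (L (nat_lit 522) ln11_12_5 ln11_12_5_ok))) (M (nat_lit 492) (B (L (nat_lit 460) ln11_11_4 ln11_11_4_ok) (L (nat_lit 524) ln11_12_4 ln11_12_4_ok))))) (B (M (nat_lit 491) (B (M (nat_lit 362) (B (L (nat_lit 330) ln11_14_7 ln11_14_7_ok) (L (nat_lit 394) ln11_15_7 ln11_15_7_ok))) (M (nat_lit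 492) (B (L (nat_lit 460) ln11_11_4 ln11_11_4_ok) (L (nat_lit 524) ln11_12_4 ln11_12_4_ok))))) (B (M (nat_lit 491) (B (M (nat_lit 362) (B (L (nat_lit 330) ln11_14_7 ln11_14_7_ok) (L (nat_lit 394) ln11_15_7 ln11_15_7_ok))) (M (nat_lit 490) (B (L (nat_lit 458) ln11_11_5 ln11_11_5_ok) (L (nat_lit 522) ln11_12_5 ln11_12_5_ok))))) (M (nat_lit 331) (B (M (nat_lit 330) (B (L (nat_lit 298) ln11_13_7 ln11_13_7_ok) (L (nat_lit 362) ln11_14_7 ln11_14_7_ok))) (M (nat_lit 458) (B (L (nat_lit 426) ln11_10_5 ln11_10_5_ok) (L (nat_lit 490) ln11_11_5 ln11_11_5_ok))))))))) (B (M (nat_lit 491) (B (M (nat_lit 523) (B (M (nat_lit 394) (B (L (nat_lit 362) ln11_15_7 ln11_15_7_ok) (L (nat_lit 426) ln11_16_7 ln11_16_7_ok))) (M (nat_lit 522) (B (L (nat_lit 490) ln11_12_5 ln11_12_5_ok) (L (nat_lit 554) ln11_13_5 ln11_13_5_ok))))) (B (M (nat_lit 523) (B (M (nat_lit 522) (B (L (nat_lit 490) ln11_12_5 ln11_12_5_ok) (L (nat_lit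 554) ln11_13_5 ln11_13_5_ok))) (M (nat_lit 524) (B (L (nat_lit 492) ln11_12_4 ln11_12_4_ok) (L (nat_lit 556) ln11_13_4 ln11_13_4_ok))))) (B (M (nat_lit 523) (B (M (nat_lit 394) (B (L (nat_lit 362) ln11_15_7 ln11_15_7_ok) (L (nat_lit 426) ln11_16_7 ln11_16_7_ok))) (M (nat_lit 524) (B (L (nat_lit 492) ln11_12_4 ln11_12_4_ok) (L (nat_lit 556) ln11_13_4 ln11_13_4_ok))))) (M (nat_lit 363) (B (M (nat_lit 490) (B (L (nat_lit 458) ln11_11_5 ln11_11_5_ok) (L (nat_lit 522) ln11_12_5 ln11_12_5_ok))) (M (nat_lit 492) (B (L (nat_lit 460) ln11_11_4 ln11_11_4_ok) (L (nat_lit 524) ln11_12_4 ln11_12_4_ok))))))))) (B c11_n2248 (B (M (nat_lit 491) (B (M (nat_lit 523) (B (M (nat_lit 394) (B (L (nat_lit 362) ln11_15_7 ln11_15_7_ok) (L (nat_lit 426) ln11_16_7 ln11_16_7_ok))) (M (nat_lit 522) (B (L (nat_lit 490) ln11_12_5 ln11_12_5_ok) (L (nat_lit 554) ln11_13_5 ln11_13_5_ok))))) (B (M (nat_lit 523) (B (M (nat_lit 522)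 (B (L (nat_lit 490) ln11_12_5 ln11_12_5_ok) (L (nat_lit 554) ln11_13_5 ln11_13_5_ok))) (M (nat_lit 524) (B (L (nat_lit 492) ln11_12_4 ln11_12_4_ok) (L (nat_lit 556) ln11_13_4 ln11_13_4_ok))))) (B (M (nat_lit 523) (B (M (nat_lit 394) (B (L (nat_lit 362) ln11_15_7 ln11_15_7_ok) (L (nat_lit 426) ln11_16_7 ln11_16_7_ok))) (M (nat_lit 524) (B (L (nat_lit 492) ln11_12_4 ln11_12_4_ok) (L (nat_lit 556) ln11_13_4 ln11_13_4_ok))))) (M (nat_lit 492) (B (L (nat_lit 524) ln11_12_4 ln11_12_4_ok) (M (nat_lit 490) (B (L (nat_lit 522) ln11_12_5 ln11_12_5_ok) (M (nat_lit 493) (B (M (nat_lit 458) (B (L (nat_lit 457) ln13_15_3 ln13_15_3_ok) (L (nat_lit 494) ln14_15_3 ln14_15_3_ok))) (B (M (nat_lit 494) (B (L (nat_lit 458) ln14_15_3 ln14_15_3_ok) (M (nat_lit 526) (B (L (nat_lit 461) ln13_12_4 ln13_12_4_ok) (L (nat_lit 525) ln10_15_0 ln10_15_0_ok))))) (B (M (nat_lit 526) (B (L (nat_lit 525) ln10_15_0 ln10_15_0_ok) (M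 (nat_lit 494) (B (L (nat_lit 461) ln13_12_4 ln13_12_4_ok) (L (nat_lit 527) ln11_15_0 ln11_15_0_ok))))) (M (nat_lit 489) (B (M (nat_lit 457) (B (L (nat_lit 456) ln12_15_3 ln12_15_3_ok) (L (nat_lit 458) ln13_15_3 ln13_15_3_ok))) (M (nat_lit 460) (B (L (nat_lit 488) ln8_15_2 ln8_15_2_ok) (L (nat_lit 461) ln9_15_2 ln9_15_2_ok))))))))))))))))) (B (M (nat_lit 363) (B (M (nat_lit 331) (B (M (nat_lit 330) (B (L (nat_lit 298) ln11_13_7 ln11_13_7_ok) (L (nat_lit 362) ln11_14_7 ln11_14_7_ok))) (M (nat_lit 332) (B (L (nat_lit 300) ln11_13_6 ln11_13_6_ok) (L (nat_lit 364) ln11_14_6 ln11_14_6_ok))))) (M (nat_lit 491) (B (M (nat_lit 490) (B (L (nat_lit 458) ln11_11_5 ln11_11_5_ok) (L (nat_lit 522) ln11_12_5 ln11_12_5_ok))) (M (nat_lit 492) (B (L (nat_lit 460) ln11_11_4 ln11_11_4_ok) (L (nat_lit 524) ln11_12_4 ln11_12_4_ok))))))) (B (M (nat_lit 491) (B (M (nat_lit 523) (B (M (nat_lit 522) (B (L (nat_lit 490) ln11_12_5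 ln11_12_5_ok) (L (nat_lit 554) ln11_13_5 ln11_13_5_ok))) (M (nat_lit 524) (B (L (nat_lit 492) ln11_12_4 ln11_12_4_ok) (L (nat_lit 556) ln11_13_4 ln11_13_4_ok))))) (B (M (nat_lit 523) (B (M (nat_lit 394) (B (L (nat_lit 362) ln11_15_7 ln11_15_7_ok) (L (nat_lit 426) ln11_16_7 ln11_16_7_ok))) (M (nat_lit 524) (B (L (nat_lit 492) ln11_12_4 ln11_12_4_ok) (L (nat_lit 556) ln11_13_4 ln11_13_4_ok))))) (B (M (nat_lit 523) (B (M (nat_lit 394) (B (L (nat_lit 362) ln11_15_7 ln11_15_7_ok) (L (nat_lit 426) ln11_16_7 ln11_16_7_ok))) (M (nat_lit 522) (B (L (nat_lit 490) ln11_12_5 ln11_12_5_ok) (L (nat_lit 554) ln11_13_5 ln11_13_5_ok))))) (M (nat_lit 363) (B (M (nat_lit 362) (B (L (nat_lit 330) ln11_14_7 ln11_14_7_ok) (L (nat_lit 394) ln11_15_7 ln11_15_7_ok))) (M (nat_lit 492) (B (L (nat_lit 460) ln11_11_4 ln11_11_4_ok) (L (nat_lit 524) ln11_12_4 ln11_12_4_ok))))))))) (B (M (nat_lit 491) (B (M (nat_lit 523) (B (M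 (nat_lit 522) (B (L (nat_lit 490) ln11_12_5 ln11_12_5_ok) (L (nat_lit 554) ln11_13_5 ln11_13_5_ok))) (M (nat_lit 524) (B (L (nat_lit 492) ln11_12_4 ln11_12_4_ok) (L (nat_lit 556) ln11_13_4 ln11_13_4_ok))))) (B (M (nat_lit 523) (B (M (nat_lit 394) (B (L (nat_lit 362) ln11_15_7 ln11_15_7_ok) (L (nat_lit 426) ln11_16_7 ln11_16_7_ok))) (M (nat_lit 524) (B (L (nat_lit 492) ln11_12_4 ln11_12_4_ok) (L (nat_lit 556) ln11_13_4 ln11_13_4_ok))))) (B (M (nat_lit 523) (B (M (nat_lit 394) (B (L (nat_lit 362) ln11_15_7 ln11_15_7_ok) (L (nat_lit 426) ln11_16_7 ln11_16_7_ok))) (M (nat_lit 522) (B (L (nat_lit 490) ln11_12_5 ln11_12_5_ok) (L (nat_lit 554) ln11_13_5 ln11_13_5_ok))))) (M (nat_lit 363) (B (M (nat_lit 362) (B (L (nat_lit 330) ln11_14_7 ln11_14_7_ok) (L (nat_lit 394) ln11_15_7 ln11_15_7_ok))) (M (nat_lit 490) (B (L (nat_lit 458) ln11_11_5 ln11_11_5_ok) (L (nat_lit 522) ln11_12_5 ln11_12_5_ok))))))))) (B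 (M (nat_lit 363) (B (M (nat_lit 491) (B (M (nat_lit 362) (B (L (nat_lit 330) ln11_14_7 ln11_14_7_ok) (L (nat_lit 394) ln11_15_7 ln11_15_7_ok))) (M (nat_lit 492) (B (L (nat_lit 460) ln11_11_4 ln11_11_4_ok) (L (nat_lit 524) ln11_12_4 ln11_12_4_ok))))) (B (M (nat_lit 331) (B (M (nat_lit 332) (B (L (nat_lit 300) ln11_13_6 ln11_13_6_ok) (L (nat_lit 364) ln11_14_6 ln11_14_6_ok))) (M (nat_lit 426) (B (L (nat_lit 458) ln11_10_5 ln11_10_5_ok) (M (nat_lit 491) (B (M (nat_lit 394) (B (L (nat_lit 299) ln11_9_5 ln11_9_5_ok) (L (nat_lit 523) ln11_16_7 ln11_16_7_ok))) (M (nat_lit 492) (B (L (nat_lit 460) ln11_11_4 ln11_11_4_ok) (L (nat_lit 524) ln11_12_4 ln11_12_4_ok))))))))) (M (nat_lit 331) (B (M (nat_lit 330) (B (L (nat_lit 298) ln11_13_7 ln11_13_7_ok) (L (nat_lit 362) ln11_14_7 ln11_14_7_ok))) (M (nat_lit 332) (B (L (nat_lit 300) ln11_13_6 ln11_13_6_ok) (L (nat_lit 364) ln11_14_6 ln11_14_6_ok)))))))) (B c11_n2400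 (M (nat_lit 363) (B (M (nat_lit 331) (B (M (nat_lit 332) (B (L (nat_lit 300) ln11_13_6 ln11_13_6_ok) (L (nat_lit 364) ln11_14_6 ln11_14_6_ok))) (M (nat_lit 458) (B (L (nat_lit 426) ln11_10_5 ln11_10_5_ok) (L (nat_lit 490) ln11_11_5 ln11_11_5_ok))))) (B (M (nat_lit 331) (B (M (nat_lit 330) (B (L (nat_lit 298) ln11_13_7 ln11_13_7_ok) (L (nat_lit 362) ln11_14_7 ln11_14_7_ok))) (M (nat_lit 458) (B (L (nat_lit 426) ln11_10_5 ln11_10_5_ok) (L (nat_lit 490) ln11_11_5 ln11_11_5_ok))))) (B (M (nat_lit 491) (B (M (nat_lit 362) (B (L (nat_lit 330) ln11_14_7 ln11_14_7_ok) (L (nat_lit 394) ln11_15_7 ln11_15_7_ok))) (M (nat_lit 490) (B (L (nat_lit 458) ln11_11_5 ln11_11_5_ok) (L (nat_lit 522) ln11_12_5 ln11_12_5_ok))))) (M (nat_lit 331) (B (M (nat_lit 330) (B (L (nat_lit 298) ln11_13_7 ln11_13_7_ok) (L (nat_lit 362) ln11_14_7 ln11_14_7_ok))) (M (nat_lit 332) (B (L (nat_lit 300) ln11_13_6 ln11_13_6_ok) (L (nat_lit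 364) ln11_14_6 ln11_14_6_ok)))))))))))))))))))) (nat_lit 1732918559228985830687588332223164685273243777473901889611115911763928841837992205340115440475969322760891043012737103013850644480) (nat_lit 1356267747285205928842452830821262543532989428847767523721250718548868823399541336897593420636316984518895920458869522517759596158762151952545071632188851322569906716672) (nat_lit 1356267747285205928842452830821262543532989428847767523721250718548868823399541336897593420636316984518895920458869522517759596158762151952545071632188851322569906716672) (by decide +kernel)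
noncomputable def c11_n2487 : Cert := (M (nat_lit 426) (B (M (nat_lit 428) (B (L (nat_lit 398) ln10_13_2 ln10_13_2_ok) (M (nat_lit 394) (B (L (nat_lit 393) ln13_13_3 ln13_13_3_ok) (M (nat_lit 458) (B (L (nat_lit 457) ln13_13_1 ln13_13_1_ok) (M (nat_lit 363) (B (L (nat_lit 331) ln11_10_5 ln11_10_5_ok) (L (nat_lit 490) ln10_15_6 ln10_15_6_ok))))))))) (B (M (nat_lit 428) (B (L (nat_lit 398) ln10_13_2 ln10_13_2_ok) (M (nat_lit 425) (B (M (nat_lit 393) (B (L (nat_lit 392) ln12_13_3 ln12_13_3_ok) (L (nat_lit 394) ln13_13_3 ln13_13_3_ok))) (M (nat_lit 457) (B (L (nat_lit 456) ln12_13_1 ln12_13_1_ok) (L (nat_lit 458) ln13_13_1 ln13_13_1_ok))))))) (B (M (nat_lit 458) (B (M (nat_lit 428) (B (L (nat_lit 398) ln10_13_2 ln10_13_2_ok) (L (nat_lit 457) ln13_13_1 ln13_13_1_ok))) (M (nat_lit 363) (B (L (nat_lit 331) ln11_10_5 ln11_10_5_ok) (M (nat_lit 490) (B (L (nat_lit 459) ln11_11_5 ln11_11_5_ok) (L (nat_lit 522)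 ln10_16_6 ln10_16_6_ok))))))) (B (M (nat_lit 428) (B (M (nat_lit 458) (B (L (nat_lit 457) ln13_13_1 ln13_13_1_ok) (M (nat_lit 363) (B (L (nat_lit 331) ln11_10_5 ln11_10_5_ok) (M (nat_lit 490) (B (L (nat_lit 459) ln11_11_5 ln11_11_5_ok) (L (nat_lit 522) ln10_16_6 ln10_16_6_ok))))))) (B (M (nat_lit 425) (B (M (nat_lit 393) (B (L (nat_lit 392) ln12_13_3 ln12_13_3_ok) (L (nat_lit 394) ln13_13_3 ln13_13_3_ok))) (M (nat_lit 457) (B (L (nat_lit 456) ln12_13_1 ln12_13_1_ok) (L (nat_lit 458) ln13_13_1 ln13_13_1_ok))))) (M (nat_lit 460) (B (M (nat_lit 425) (B (L (nat_lit 461) ln9_13_0 ln9_13_0_ok) (M (nat_lit 393) (B (L (nat_lit 392) ln12_13_3 ln12_13_3_ok) (L (nat_lit 394) ln13_13_3 ln13_13_3_ok))))) (M (nat_lit 492) (B (L (nat_lit 524) ln12_16_7 ln12_16_7_ok) (M (nat_lit 363) (B (L (nat_lit 331) ln11_10_4 ln11_10_4_ok) (L (nat_lit 459) ln11_11_4 ln11_11_4_ok)))))))))) (B (M (nat_lit 363) (B (M (nat_lit 458)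 (B (L (nat_lit 331) ln11_10_5 ln11_10_5_ok) (M (nat_lit 490) (B (L (nat_lit 394) ln10_15_6 ln10_15_6_ok) (L (nat_lit 459) ln11_11_5 ln11_11_5_ok))))) (B (M (nat_lit 459) (B (M (nat_lit 362) (B (L (nat_lit 330) ln11_14_7 ln11_14_7_ok) (M (nat_lit 491) (B (L (nat_lit 394) ln11_15_7 ln11_15_7_ok) (M (nat_lit 492) (B (L (nat_lit 460) ln11_11_4 ln11_11_4_ok) (L (nat_lit 524) ln11_12_4 ln11_12_4_ok))))))) (B (M (nat_lit 491) (B (M (nat_lit 490) (B (L (nat_lit 458) ln11_11_5 ln11_11_5_ok) (L (nat_lit 522) ln11_12_5 ln11_12_5_ok))) (M (nat_lit 492) (B (L (nat_lit 460) ln11_11_4 ln11_11_4_ok) (L (nat_lit 524) ln11_12_4 ln11_12_4_ok))))) (B (M (nat_lit 491) (B (M (nat_lit 362) (B (L (nat_lit 330) ln11_14_7 ln11_14_7_ok) (L (nat_lit 394) ln11_15_7 ln11_15_7_ok))) (M (nat_lit 490) (B (L (nat_lit 458) ln11_11_5 ln11_11_5_ok) (L (nat_lit 522) ln11_12_5 ln11_12_5_ok))))) (M (nat_lit 458) (B (L (nat_lit 490) ln11_11_5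 ln11_11_5_ok) (M (nat_lit 460) (B (L (nat_lit 492) ln11_11_4 ln11_11_4_ok) (M (nat_lit 425) (B (L (nat_lit 424) ln8_13_0 ln8_13_0_ok) (L (nat_lit 461) ln13_14_3 ln13_14_3_ok))))))))))) (B (M (nat_lit 458) (B (L (nat_lit 331) ln11_10_5 ln11_10_5_ok) (M (nat_lit 490) (B (L (nat_lit 459) ln11_11_5 ln11_11_5_ok) (L (nat_lit 522) ln10_16_6 ln10_16_6_ok))))) (B (M (nat_lit 459) (B (M (nat_lit 330) (B (L (nat_lit 362) ln11_14_7 ln11_14_7_ok) (M (nat_lit 331) (B (L (nat_lit 298) ln11_13_7 ln11_13_7_ok) (M (nat_lit 332) (B (L (nat_lit 300) ln11_13_6 ln11_13_6_ok) (L (nat_lit 364) ln11_14_6 ln11_14_6_ok))))))) (B (M (nat_lit 362) (B (L (nat_lit 330) ln11_14_7 ln11_14_7_ok) (M (nat_lit 491) (B (L (nat_lit 394) ln11_15_7 ln11_15_7_ok) (M (nat_lit 492) (B (L (nat_lit 460) ln11_11_4 ln11_11_4_ok) (L (nat_lit 524) ln11_12_4 ln11_12_4_ok))))))) (B (M (nat_lit 491) (B (M (nat_lit 394) (B (L (nat_lit 362) ln11_15_7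 ln11_15_7_ok) (L (nat_lit 523) ln11_16_7 ln11_16_7_ok))) (M (nat_lit 492) (B (L (nat_lit 460) ln11_11_4 ln11_11_4_ok) (L (nat_lit 524) ln11_12_4 ln11_12_4_ok))))) (M (nat_lit 491) (B (M (nat_lit 492) (B (L (nat_lit 460) ln11_11_4 ln11_11_4_ok) (L (nat_lit 524) ln11_12_4 ln11_12_4_ok))) (M (nat_lit 331) (B (M (nat_lit 394) (B (L (nat_lit 299) ln11_9_5 ln11_9_5_ok) (L (nat_lit 523) ln11_16_7 ln11_16_7_ok))) (M (nat_lit 332) (B (L (nat_lit 300) ln11_13_6 ln11_13_6_ok) (L (nat_lit 364) ln11_14_6 ln11_14_6_ok))))))))))) (M (nat_lit 458) (B (L (nat_lit 331) ln11_10_5 ln11_10_5_ok) (M (nat_lit 490) (B (L (nat_lit 394) ln10_15_6 ln10_15_6_ok) (L (nat_lit 522) ln10_16_6 ln10_16_6_ok)))))))))) (M (nat_lit 428) (B (L (nat_lit 398) ln10_13_2 ln10_13_2_ok) (M (nat_lit 460) (B (M (nat_lit 425) (B (L (nat_lit 461) ln9_13_0 ln9_13_0_ok) (M (nat_lit 393) (B (L (nat_lit 392) ln12_13_3 ln12_13_3_ok) (L (nat_lit 394)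 ln13_13_3 ln13_13_3_ok))))) (M (nat_lit 492) (B (L (nat_lit 524) ln12_16_7 ln12_16_7_ok) (M (nat_lit 363) (B (L (nat_lit 331) ln11_10_4 ln11_10_4_ok) (L (nat_lit 459) ln11_11_4 ln11_11_4_ok)))))))))))))))
theorem c11_s2498 : Sem (nat_lit 1386334847463883973240286559205279222343689143051924817714805964187101178362289002460118639712951875498717141642561656535228874752) (nat_lit 1013065325790103918797024254938927721371879908715439378134795347668734075564436259924968326078950624857250587674623058686355848820829386319258293323217997881962644363551352815616) (nat_lit 1013065325790103918797024254938927721371879908715439378134795347668734075564436259924968326078950624857250587674623058686355848820829386319258293323217997881962644363551352815616) :=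
  sem_of_chk (M (nat_lit 427) (B (M (nat_lit 428) (B (M (nat_lit 398) (B (L (nat_lit 426) ln10_13_2 ln10_13_2_ok) (M (nat_lit 399) (B (L (nat_lit 400) ln16_12_1 ln16_12_1_ok) (L (nat_lit 430) ln11_13_2 ln11_13_2_ok))))) (B (M (nat_lit 394) (B (L (nat_lit 430) ln14_13_3 ln14_13_3_ok) (M (nat_lit 393) (B (L (nat_lit 392) ln8_12_0 ln8_12_0_ok) (L (nat_lit 426) ln13_13_3 ln13_13_3_ok))))) (B (M (nat_lit 430) (B (L (nat_lit 394) ln14_13_3 ln14_13_3_ok) (M (nat_lit 431) (B (M (nat_lit 399) (B (L (nat_lit 398) ln11_13_2 ln11_13_2_ok) (L (nat_lit 400) ln12_13_2 ln12_13_2_ok))) (M (nat_lit 459) (B (L (nat_lit 458) ln14_13_1 ln14_13_1_ok) (L (nat_lit 460) ln15_13_1 ln15_13_1_ok))))))) (M (nat_lit 426) (B (L (nat_lit 398) ln10_13_2 ln10_13_2_ok) (M (nat_lit 425) (B (M (nat_lit 393) (B (L (nat_lit 392) ln12_13_3 ln12_13_3_ok) (L (nat_lit 394) ln13_13_3 ln13_13_3_ok))) (M (nat_lit 457) (B (L (nat_lit 456) ln12_13_1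 ln12_13_1_ok) (L (nat_lit 458) ln13_13_1 ln13_13_1_ok))))))))))) (B (M (nat_lit 458) (B (M (nat_lit 428) (B (M (nat_lit 426) (B (L (nat_lit 398) ln10_13_2 ln10_13_2_ok) (L (nat_lit 457) ln13_13_1 ln13_13_1_ok))) (M (nat_lit 430) (B (L (nat_lit 394) ln14_13_3 ln14_13_3_ok) (L (nat_lit 459) ln14_13_1 ln14_13_1_ok))))) (B (M (nat_lit 428) (B (M (nat_lit 426) (B (L (nat_lit 398) ln10_13_2 ln10_13_2_ok) (L (nat_lit 457) ln13_13_1 ln13_13_1_ok))) (B (M (nat_lit 459) (B (L (nat_lit 430) ln14_13_1 ln14_13_1_ok) (M (nat_lit 457) (B (L (nat_lit 426) ln13_13_1 ln13_13_1_ok) (L (nat_lit 456) ln8_14_2 ln8_14_2_ok))))) (B (M (nat_lit 459) (B (L (nat_lit 430) ln14_13_1 ln14_13_1_ok) (M (nat_lit 457) (B (L (nat_lit 456) ln8_14_2 ln8_14_2_ok) (L (nat_lit 460) ln9_14_2 ln9_14_2_ok))))) (M (nat_lit 363) (B (M (nat_lit 426) (B (L (nat_lit 331) ln11_10_5 ln11_10_5_ok) (L (nat_lit 398) ln10_13_2 ln10_13_2_ok))) (M (nat_lit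 459) (B (L (nat_lit 490) ln11_11_5 ln11_11_5_ok) (L (nat_lit 430) ln14_13_1 ln14_13_1_ok))))))))) (B (M (nat_lit 459) (B (M (nat_lit 490) (B (L (nat_lit 363) ln11_11_5 ln11_11_5_ok) (M (nat_lit 522) (B (L (nat_lit 426) ln10_16_6 ln10_16_6_ok) (L (nat_lit 491) ln11_12_5 ln11_12_5_ok))))) (B (M (nat_lit 428) (B (L (nat_lit 430) ln14_13_1 ln14_13_1_ok) (M (nat_lit 457) (B (L (nat_lit 426) ln13_13_1 ln13_13_1_ok) (L (nat_lit 460) ln9_14_2 ln9_14_2_ok))))) (M (nat_lit 490) (B (L (nat_lit 363) ln11_11_5 ln11_11_5_ok) (M (nat_lit 522) (B (L (nat_lit 491) ln11_12_5 ln11_12_5_ok) (L (nat_lit 554) ln10_17_6 ln10_17_6_ok)))))))) (B (M (nat_lit 459) (B (M (nat_lit 490) (B (L (nat_lit 363) ln11_11_5 ln11_11_5_ok) (M (nat_lit 522) (B (L (nat_lit 491) ln11_12_5 ln11_12_5_ok) (L (nat_lit 554) ln10_17_6 ln10_17_6_ok))))) (M (nat_lit 428) (B (L (nat_lit 430) ln14_13_1 ln14_13_1_ok) (M (nat_lit 457) (B (L (nat_lit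 456) ln8_14_2 ln8_14_2_ok) (L (nat_lit 460) ln9_14_2 ln9_14_2_ok))))))) (B (M (nat_lit 490) (B (M (nat_lit 363) (B (L (nat_lit 459) ln11_11_5 ln11_11_5_ok) (M (nat_lit 426) (B (L (nat_lit 394) ln10_15_6 ln10_15_6_ok) (L (nat_lit 522) ln10_16_6 ln10_16_6_ok))))) (B (M (nat_lit 522) (B (L (nat_lit 426) ln10_16_6 ln10_16_6_ok) (M (nat_lit 459) (B (L (nat_lit 491) ln11_12_5 ln11_12_5_ok) (L (nat_lit 554) ln10_17_6 ln10_17_6_ok))))) (B (M (nat_lit 459) (B (L (nat_lit 363) ln11_11_5 ln11_11_5_ok) (M (nat_lit 522) (B (L (nat_lit 491) ln11_12_5 ln11_12_5_ok) (L (nat_lit 554) ln10_17_6 ln10_17_6_ok))))) (B (M (nat_lit 426) (B (L (nat_lit 522) ln10_16_6 ln10_16_6_ok) (M (nat_lit 363) (B (L (nat_lit 331) ln11_10_5 ln11_10_5_ok) (L (nat_lit 394) ln10_15_6 ln10_15_6_ok))))) (M (nat_lit 363) (B (L (nat_lit 459) ln11_11_5 ln11_11_5_ok) (M (nat_lit 426) (B (L (nat_lit 331) ln11_10_5 ln11_10_5_ok) (L (nat_lit 394)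 ln10_15_6 ln10_15_6_ok)))))))))) (M (nat_lit 426) (B (M (nat_lit 428) (B (L (nat_lit 398) ln10_13_2 ln10_13_2_ok) (L (nat_lit 457) ln13_13_1 ln13_13_1_ok))) (M (nat_lit 363) (B (L (nat_lit 331) ln11_10_5 ln11_10_5_ok) (M (nat_lit 490) (B (L (nat_lit 394) ln10_15_6 ln10_15_6_ok) (L (nat_lit 522) ln10_16_6 ln10_16_6_ok))))))))))))) (B (K (nat_lit 1732918559228985830687588332223164685273243777473901889611115911763928841837992205340115440475969322760891043012737103013850644480) (nat_lit 1013065324846613311822781578762100152303669751483933814017431900421080547169413804164850384500986249870298531800608615294469285642171062926888191569327833127604292917955630465024) (nat_lit 1013065324846613311822781578762100152303669751483933814017431900421080547169413804164850384500986249870298531800608615294469285642171062926888191569327833127604292917955630465024) c11_s1892) (B c11_n1967 (B (K (nat_lit 1732918559228985830687588332223164685273243777473901889611115911763928841837992205340115440475969322760891043012737103013850644480)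 (nat_lit 58968163093780513531789367936885326284328324598479987962590798575250554678272972815420894744103065673083167549838237586841629947432743839274529287110416519751073267712) (nat_lit 58968163093780513531789367936885326284328324598479987962590798575250554678272972815420894744103065673083167549838237586841629947432743839274529287110416519751073267712) c11_s2154) (B (K (nat_lit 1732918559228985830687588332223164685273243777473901889611115911763928841837992205340115440475969322760891043012737103013850644480) (nat_lit 1356267747285205928842452830821262543532989428847767523721250718548868823399541336897593420636316984518895920458869522517759596158762151952545071632188851322569906716672) (nat_lit 1356267747285205928842452830821262543532989428847767523721250718548868823399541336897593420636316984518895920458869522517759596158762151952545071632188851322569906716672) c11_s2402) (B c11_n2487 (B (M (nat_lit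 428) (B (M (nat_lit 394) (B (L (nat_lit 430) ln14_13_3 ln14_13_3_ok) (M (nat_lit 426) (B (L (nat_lit 393) ln13_13_3 ln13_13_3_ok) (L (nat_lit 398) ln10_13_2 ln10_13_2_ok))))) (B (M (nat_lit 398) (B (L (nat_lit 426) ln10_13_2 ln10_13_2_ok) (M (nat_lit 399) (B (L (nat_lit 400) ln16_12_1 ln16_12_1_ok) (L (nat_lit 430) ln11_13_2 ln11_13_2_ok))))) (B (M (nat_lit 394) (B (L (nat_lit 430) ln14_13_3 ln14_13_3_ok) (M (nat_lit 393) (B (L (nat_lit 392) ln8_12_0 ln8_12_0_ok) (L (nat_lit 426) ln13_13_3 ln13_13_3_ok))))) (B (M (nat_lit 430) (B (L (nat_lit 394) ln14_13_3 ln14_13_3_ok) (M (nat_lit 431) (B (M (nat_lit 399) (B (L (nat_lit 398) ln11_13_2 ln11_13_2_ok) (L (nat_lit 400) ln12_13_2 ln12_13_2_ok))) (M (nat_lit 459) (B (L (nat_lit 458) ln14_13_1 ln14_13_1_ok) (L (nat_lit 460) ln15_13_1 ln15_13_1_ok))))))) (M (nat_lit 426) (B (L (nat_lit 398) ln10_13_2 ln10_13_2_ok) (M (nat_lit 460) (B (M (nat_lit 425) (B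 (L (nat_lit 461) ln9_13_0 ln9_13_0_ok) (M (nat_lit 393) (B (L (nat_lit 392) ln12_13_3 ln12_13_3_ok) (L (nat_lit 394) ln13_13_3 ln13_13_3_ok))))) (M (nat_lit 492) (B (L (nat_lit 524) ln12_16_7 ln12_16_7_ok) (M (nat_lit 363) (B (L (nat_lit 331) ln11_10_4 ln11_10_4_ok) (L (nat_lit 459) ln11_11_4 ln11_11_4_ok)))))))))))))) (B (M (nat_lit 428) (B (M (nat_lit 394) (B (L (nat_lit 430) ln14_13_3 ln14_13_3_ok) (M (nat_lit 426) (B (L (nat_lit 393) ln13_13_3 ln13_13_3_ok) (L (nat_lit 398) ln10_13_2 ln10_13_2_ok))))) (B (M (nat_lit 398) (B (L (nat_lit 426) ln10_13_2 ln10_13_2_ok) (M (nat_lit 399) (B (L (nat_lit 400) ln16_12_1 ln16_12_1_ok) (L (nat_lit 430) ln11_13_2 ln11_13_2_ok))))) (B (M (nat_lit 394) (B (L (nat_lit 430) ln14_13_3 ln14_13_3_ok) (M (nat_lit 393) (B (L (nat_lit 392) ln8_12_0 ln8_12_0_ok) (L (nat_lit 426) ln13_13_3 ln13_13_3_ok))))) (B (M (nat_lit 430) (B (L (nat_lit 394) ln14_13_3 ln14_13_3_ok)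 (M (nat_lit 431) (B (M (nat_lit 399) (B (L (nat_lit 398) ln11_13_2 ln11_13_2_ok) (L (nat_lit 400) ln12_13_2 ln12_13_2_ok))) (M (nat_lit 432) (B (M (nat_lit 460) (B (L (nat_lit 459) ln15_13_1 ln15_13_1_ok) (L (nat_lit 461) ln16_13_1 ln16_13_1_ok))) (M (nat_lit 464) (B (L (nat_lit 463) ln12_13_0 ln12_13_0_ok) (L (nat_lit 465) ln13_13_0 ln13_13_0_ok))))))))) (M (nat_lit 426) (B (L (nat_lit 398) ln10_13_2 ln10_13_2_ok) (M (nat_lit 460) (B (M (nat_lit 425) (B (L (nat_lit 461) ln9_13_0 ln9_13_0_ok) (M (nat_lit 393) (B (L (nat_lit 392) ln12_13_3 ln12_13_3_ok) (L (nat_lit 394) ln13_13_3 ln13_13_3_ok))))) (M (nat_lit 492) (B (L (nat_lit 524) ln12_16_7 ln12_16_7_ok) (M (nat_lit 363) (B (L (nat_lit 331) ln11_10_4 ln11_10_4_ok) (L (nat_lit 459) ln11_11_4 ln11_11_4_ok)))))))))))))) (M (nat_lit 428) (B (M (nat_lit 394) (B (L (nat_lit 430) ln14_13_3 ln14_13_3_ok) (M (nat_lit 426) (B (L (nat_lit 393) ln13_13_3 ln13_13_3_ok)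 (L (nat_lit 398) ln10_13_2 ln10_13_2_ok))))) (B (M (nat_lit 398) (B (L (nat_lit 426) ln10_13_2 ln10_13_2_ok) (M (nat_lit 399) (B (L (nat_lit 400) ln16_12_1 ln16_12_1_ok) (L (nat_lit 430) ln11_13_2 ln11_13_2_ok))))) (B (M (nat_lit 394) (B (L (nat_lit 430) ln14_13_3 ln14_13_3_ok) (M (nat_lit 393) (B (L (nat_lit 392) ln8_12_0 ln8_12_0_ok) (L (nat_lit 426) ln13_13_3 ln13_13_3_ok))))) (B (M (nat_lit 430) (B (L (nat_lit 394) ln14_13_3 ln14_13_3_ok) (M (nat_lit 431) (B (M (nat_lit 399) (B (L (nat_lit 398) ln11_13_2 ln11_13_2_ok) (L (nat_lit 400) ln12_13_2 ln12_13_2_ok))) (B (M (nat_lit 432) (B (M (nat_lit 400) (B (L (nat_lit 399) ln12_13_2 ln12_13_2_ok) (L (nat_lit 401) ln13_13_2 ln13_13_2_ok))) (M (nat_lit 464) (B (L (nat_lit 463) ln12_13_0 ln12_13_0_ok) (L (nat_lit 465) ln13_13_0 ln13_13_0_ok))))) (B (M (nat_lit 432) (B (M (nat_lit 464) (B (L (nat_lit 463) ln12_13_0 ln12_13_0_ok) (L (nat_lit 465) ln13_13_0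 ln13_13_0_ok))) (M (nat_lit 401) (B (L (nat_lit 400) ln13_13_2 ln13_13_2_ok) (M (nat_lit 433) (B (L (nat_lit 398) ln17_13_3 ln17_13_3_ok) (L (nat_lit 402) ln14_13_2 ln14_13_2_ok))))))) (M (nat_lit 432) (B (M (nat_lit 398) (B (L (nat_lit 433) ln17_13_3 ln17_13_3_ok) (L (nat_lit 399) ln11_13_2 ln11_13_2_ok))) (M (nat_lit 464) (B (L (nat_lit 463) ln12_13_0 ln12_13_0_ok) (L (nat_lit 465) ln13_13_0 ln13_13_0_ok))))))))))) (M (nat_lit 426) (B (L (nat_lit 398) ln10_13_2 ln10_13_2_ok) (M (nat_lit 425) (B (M (nat_lit 393) (B (L (nat_lit 392) ln12_13_3 ln12_13_3_ok) (L (nat_lit 394) ln13_13_3 ln13_13_3_ok))) (M (nat_lit 457) (B (L (nat_lit 456) ln12_13_1 ln12_13_1_ok) (L (nat_lit 458) ln13_13_1 ln13_13_1_ok)))))))))))))))))))))) (nat_lit 1386334847463883973240286559205279222343689143051924817714805964187101178362289002460118639712951875498717141642561656535228874752) (nat_lit 1013065325790103918797024254938927721371879908715439378134795347668734075564436259924968326078950624857250587674623058686355848820829386319258293323217997881962644363551352815616)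 (nat_lit 1013065325790103918797024254938927721371879908715439378134795347668734075564436259924968326078950624857250587674623058686355848820829386319258293323217997881962644363551352815616) (by decide +kernel)
theorem c11_s2578 : Sem (nat_lit 1732918559228985830687588332223164685273243777473901889611115911763928841837992205340115440475969322760891043012737103013850644480) (nat_lit 1013065324846613311822781578762100152303483680776059478041692903245418046376905439383387305228305821529649247304080828041709031979268288266312915519991411407976115203596653428736) (nat_lit 1013065324846613311822781578762100152303483680776059478041692903245418046376905439383387305228305821529649247304080828041709031979268288266312915519991411407976115203596653428736) :=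
  sem_of_chk (M (nat_lit 428) (B (M (nat_lit 398) (B (L (nat_lit 426) ln10_13_2 ln10_13_2_ok) (M (nat_lit 399) (B (L (nat_lit 400) ln16_12_1 ln16_12_1_ok) (L (nat_lit 430) ln11_13_2 ln11_13_2_ok))))) (B (M (nat_lit 459) (B (M (nat_lit 458) (B (L (nat_lit 430) ln14_13_1 ln14_13_1_ok) (M (nat_lit 457) (B (L (nat_lit 426) ln13_13_1 ln13_13_1_ok) (L (nat_lit 460) ln9_14_2 ln9_14_2_ok))))) (B (M (nat_lit 363) (B (M (nat_lit 458) (B (L (nat_lit 490) ln11_11_5 ln11_11_5_ok) (L (nat_lit 430) ln14_13_1 ln14_13_1_ok))) (M (nat_lit 460) (B (L (nat_lit 331) ln11_10_4 ln11_10_4_ok) (L (nat_lit 492) ln11_11_4 ln11_11_4_ok))))) (B (M (nat_lit 363) (B (M (nat_lit 460) (B (L (nat_lit 331) ln11_10_4 ln11_10_4_ok) (L (nat_lit 492) ln11_11_4 ln11_11_4_ok))) (B (M (nat_lit 460) (B (L (nat_lit 492) ln11_11_4 ln11_11_4_ok) (M (nat_lit 458) (B (L (nat_lit 490) ln11_11_5 ln11_11_5_ok) (L (nat_lit 457) ln9_14_2 ln9_14_2_ok)))))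 (M (nat_lit 458) (B (L (nat_lit 490) ln11_11_5 ln11_11_5_ok) (M (nat_lit 426) (B (L (nat_lit 331) ln11_10_5 ln11_10_5_ok) (L (nat_lit 457) ln13_13_1 ln13_13_1_ok)))))))) (B (M (nat_lit 491) (B (M (nat_lit 524) (B (L (nat_lit 492) ln11_12_4 ln11_12_4_ok) (M (nat_lit 523) (B (L (nat_lit 556) ln11_13_4 ln11_13_4_ok) (M (nat_lit 522) (B (L (nat_lit 490) ln11_12_5 ln11_12_5_ok) (L (nat_lit 554) ln11_13_5 ln11_13_5_ok))))))) (B (M (nat_lit 363) (B (M (nat_lit 460) (B (L (nat_lit 331) ln11_10_4 ln11_10_4_ok) (L (nat_lit 492) ln11_11_4 ln11_11_4_ok))) (B (M (nat_lit 492) (B (L (nat_lit 460) ln11_11_4 ln11_11_4_ok) (L (nat_lit 524) ln11_12_4 ln11_12_4_ok))) (M (nat_lit 331) (B (M (nat_lit 330) (B (L (nat_lit 298) ln11_13_7 ln11_13_7_ok) (L (nat_lit 362) ln11_14_7 ln11_14_7_ok))) (M (nat_lit 332) (B (L (nat_lit 300) ln11_13_6 ln11_13_6_ok) (L (nat_lit 364) ln11_14_6 ln11_14_6_ok)))))))) (B (M (nat_lit 523)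 (B (M (nat_lit 522) (B (L (nat_lit 490) ln11_12_5 ln11_12_5_ok) (L (nat_lit 554) ln11_13_5 ln11_13_5_ok))) (M (nat_lit 555) (B (L (nat_lit 460) ln11_17_6 ln11_17_6_ok) (M (nat_lit 556) (B (L (nat_lit 524) ln11_13_4 ln11_13_4_ok) (L (nat_lit 588) ln11_14_4 ln11_14_4_ok))))))) (M (nat_lit 523) (B (M (nat_lit 522) (B (L (nat_lit 490) ln11_12_5 ln11_12_5_ok) (L (nat_lit 554) ln11_13_5 ln11_13_5_ok))) (M (nat_lit 460) (B (L (nat_lit 555) ln11_17_6 ln11_17_6_ok) (M (nat_lit 363) (B (L (nat_lit 331) ln11_10_4 ln11_10_4_ok) (L (nat_lit 492) ln11_11_4 ln11_11_4_ok))))))))))) (M (nat_lit 458) (B (L (nat_lit 430) ln14_13_1 ln14_13_1_ok) (M (nat_lit 363) (B (L (nat_lit 490) ln11_11_5 ln11_11_5_ok) (M (nat_lit 426) (B (L (nat_lit 331) ln11_10_5 ln11_10_5_ok) (L (nat_lit 457) ln13_13_1 ln13_13_1_ok)))))))))))) (B (M (nat_lit 459) (B (M (nat_lit 430) (B (L (nat_lit 458) ln14_13_1 ln14_13_1_ok) (M (nat_lit 431)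 (B (L (nat_lit 460) ln15_13_1 ln15_13_1_ok) (M (nat_lit 399) (B (L (nat_lit 398) ln11_13_2 ln11_13_2_ok) (L (nat_lit 400) ln12_13_2 ln12_13_2_ok))))))) (B (M (nat_lit 460) (B (M (nat_lit 363) (B (L (nat_lit 331) ln11_10_4 ln11_10_4_ok) (L (nat_lit 492) ln11_11_4 ln11_11_4_ok))) (M (nat_lit 458) (B (L (nat_lit 430) ln14_13_1 ln14_13_1_ok) (L (nat_lit 457) ln9_14_2 ln9_14_2_ok))))) (B (M (nat_lit 363) (B (M (nat_lit 460) (B (L (nat_lit 331) ln11_10_4 ln11_10_4_ok) (L (nat_lit 492) ln11_11_4 ln11_11_4_ok))) (B (M (nat_lit 460) (B (L (nat_lit 492) ln11_11_4 ln11_11_4_ok) (M (nat_lit 458) (B (L (nat_lit 490) ln11_11_5 ln11_11_5_ok) (L (nat_lit 457) ln9_14_2 ln9_14_2_ok))))) (M (nat_lit 331) (B (M (nat_lit 330) (B (L (nat_lit 298) ln11_13_7 ln11_13_7_ok) (L (nat_lit 362) ln11_14_7 ln11_14_7_ok))) (M (nat_lit 332) (B (L (nat_lit 300) ln11_13_6 ln11_13_6_ok) (L (nat_lit 364) ln11_14_6 ln11_14_6_ok))))))))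 (B (M (nat_lit 491) (B (M (nat_lit 524) (B (L (nat_lit 492) ln11_12_4 ln11_12_4_ok) (M (nat_lit 523) (B (L (nat_lit 556) ln11_13_4 ln11_13_4_ok) (M (nat_lit 522) (B (L (nat_lit 490) ln11_12_5 ln11_12_5_ok) (L (nat_lit 554) ln11_13_5 ln11_13_5_ok))))))) (B (M (nat_lit 363) (B (M (nat_lit 460) (B (L (nat_lit 331) ln11_10_4 ln11_10_4_ok) (L (nat_lit 492) ln11_11_4 ln11_11_4_ok))) (B (M (nat_lit 492) (B (L (nat_lit 460) ln11_11_4 ln11_11_4_ok) (L (nat_lit 524) ln11_12_4 ln11_12_4_ok))) (M (nat_lit 331) (B (M (nat_lit 330) (B (L (nat_lit 298) ln11_13_7 ln11_13_7_ok) (L (nat_lit 362) ln11_14_7 ln11_14_7_ok))) (M (nat_lit 332) (B (L (nat_lit 300) ln11_13_6 ln11_13_6_ok) (L (nat_lit 364) ln11_14_6 ln11_14_6_ok)))))))) (B (M (nat_lit 523) (B (M (nat_lit 522) (B (L (nat_lit 490) ln11_12_5 ln11_12_5_ok) (L (nat_lit 554) ln11_13_5 ln11_13_5_ok))) (M (nat_lit 555) (B (L (nat_lit 460) ln11_17_6 ln11_17_6_ok) (M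 (nat_lit 556) (B (L (nat_lit 524) ln11_13_4 ln11_13_4_ok) (L (nat_lit 588) ln11_14_4 ln11_14_4_ok))))))) (M (nat_lit 523) (B (M (nat_lit 522) (B (L (nat_lit 490) ln11_12_5 ln11_12_5_ok) (L (nat_lit 554) ln11_13_5 ln11_13_5_ok))) (M (nat_lit 460) (B (L (nat_lit 555) ln11_17_6 ln11_17_6_ok) (M (nat_lit 363) (B (L (nat_lit 331) ln11_10_4 ln11_10_4_ok) (L (nat_lit 492) ln11_11_4 ln11_11_4_ok))))))))))) (M (nat_lit 458) (B (L (nat_lit 430) ln14_13_1 ln14_13_1_ok) (M (nat_lit 490) (B (L (nat_lit 363) ln11_11_5 ln11_11_5_ok) (M (nat_lit 522) (B (L (nat_lit 491) ln11_12_5 ln11_12_5_ok) (L (nat_lit 554) ln10_17_6 ln10_17_6_ok)))))))))))) (M (nat_lit 426) (B (L (nat_lit 398) ln10_13_2 ln10_13_2_ok) (M (nat_lit 458) (B (L (nat_lit 457) ln13_13_1 ln13_13_1_ok) (M (nat_lit 363) (B (L (nat_lit 331) ln11_10_5 ln11_10_5_ok) (M (nat_lit 490) (B (L (nat_lit 459) ln11_11_5 ln11_11_5_ok) (L (nat_lit 522) ln10_16_6 ln10_16_6_ok)))))))))))))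 (nat_lit 1732918559228985830687588332223164685273243777473901889611115911763928841837992205340115440475969322760891043012737103013850644480) (nat_lit 1013065324846613311822781578762100152303483680776059478041692903245418046376905439383387305228305821529649247304080828041709031979268288266312915519991411407976115203596653428736) (nat_lit 1013065324846613311822781578762100152303483680776059478041692903245418046376905439383387305228305821529649247304080828041709031979268288266312915519991411407976115203596653428736) (by decide +kernel)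
theorem c11_s2641 : Sem (nat_lit 1732918559228985830687588332223164685273243777473901889611115911763928841837992205340115440475969322760891043012737103013850644480) (nat_lit 294840814535290085436047548280673895946825052413385143342271380509042329096173227496581197397218215480576782647949426595418560117160016132744447692630451718052475043840) (nat_lit 294840814535290085436047548280673895946825052413385143342271380509042329096173227496581197397218215480576782647949426595418560117160016132744447692630451718052475043840) :=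
  sem_of_chk (M (nat_lit 459) (B (M (nat_lit 458) (B (M (nat_lit 428) (B (L (nat_lit 430) ln14_13_1 ln14_13_1_ok) (M (nat_lit 457) (B (L (nat_lit 426) ln13_13_1 ln13_13_1_ok) (L (nat_lit 456) ln8_14_2 ln8_14_2_ok))))) (B (M (nat_lit 428) (B (L (nat_lit 430) ln14_13_1 ln14_13_1_ok) (M (nat_lit 457) (B (L (nat_lit 456) ln8_14_2 ln8_14_2_ok) (L (nat_lit 460) ln9_14_2 ln9_14_2_ok))))) (M (nat_lit 490) (B (L (nat_lit 363) ln11_11_5 ln11_11_5_ok) (M (nat_lit 522) (B (L (nat_lit 426) ln10_16_6 ln10_16_6_ok) (L (nat_lit 491) ln11_12_5 ln11_12_5_ok)))))))) (B (M (nat_lit 491) (B (M (nat_lit 396) (B (L (nat_lit 364) ln11_15_6 ln11_15_6_ok) (M (nat_lit 523) (B (L (nat_lit 428) ln11_16_6 ln11_16_6_ok) (M (nat_lit 522) (B (L (nat_lit 490) ln11_12_5 ln11_12_5_ok) (L (nat_lit 554) ln11_13_5 ln11_13_5_ok))))))) (B (M (nat_lit 523) (B (M (nat_lit 522) (B (L (nat_lit 490) ln11_12_5 ln11_12_5_ok) (L (nat_lit 554) ln11_13_5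 ln11_13_5_ok))) (M (nat_lit 524) (B (L (nat_lit 492) ln11_12_4 ln11_12_4_ok) (L (nat_lit 556) ln11_13_4 ln11_13_4_ok))))) (B (M (nat_lit 523) (B (M (nat_lit 396) (B (L (nat_lit 364) ln11_15_6 ln11_15_6_ok) (L (nat_lit 428) ln11_16_6 ln11_16_6_ok))) (M (nat_lit 524) (B (L (nat_lit 492) ln11_12_4 ln11_12_4_ok) (L (nat_lit 556) ln11_13_4 ln11_13_4_ok))))) (M (nat_lit 492) (B (L (nat_lit 524) ln11_12_4 ln11_12_4_ok) (M (nat_lit 490) (B (L (nat_lit 522) ln11_12_5 ln11_12_5_ok) (M (nat_lit 460) (B (M (nat_lit 489) (B (L (nat_lit 488) ln8_15_2 ln8_15_2_ok) (L (nat_lit 461) ln9_15_2 ln9_15_2_ok))) (B (M (nat_lit 457) (B (M (nat_lit 458) (B (L (nat_lit 428) ln9_14_2 ln9_14_2_ok) (L (nat_lit 456) ln8_14_0 ln8_14_0_ok))) (B (M (nat_lit 458) (B (L (nat_lit 456) ln8_14_0 ln8_14_0_ok) (L (nat_lit 493) ln9_14_0 ln9_14_0_ok))) (B (M (nat_lit 458) (B (L (nat_lit 428) ln9_14_2 ln9_14_2_ok) (L (nat_lit 493) ln9_14_0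 ln9_14_0_ok))) (M (nat_lit 489) (B (L (nat_lit 456) ln12_15_3 ln12_15_3_ok) (L (nat_lit 488) ln8_15_2 ln8_15_2_ok))))))) (B (M (nat_lit 457) (B (M (nat_lit 458) (B (L (nat_lit 428) ln9_14_2 ln9_14_2_ok) (L (nat_lit 456) ln8_14_0 ln8_14_0_ok))) (B (M (nat_lit 458) (B (L (nat_lit 456) ln8_14_0 ln8_14_0_ok) (L (nat_lit 493) ln9_14_0 ln9_14_0_ok))) (B (M (nat_lit 458) (B (L (nat_lit 428) ln9_14_2 ln9_14_2_ok) (L (nat_lit 493) ln9_14_0 ln9_14_0_ok))) (M (nat_lit 489) (B (L (nat_lit 456) ln12_15_3 ln12_15_3_ok) (L (nat_lit 461) ln9_15_2 ln9_15_2_ok))))))) (M (nat_lit 458) (B (M (nat_lit 428) (B (L (nat_lit 430) ln14_13_1 ln14_13_1_ok) (L (nat_lit 457) ln9_14_2 ln9_14_2_ok))) (B (M (nat_lit 457) (B (L (nat_lit 456) ln8_14_0 ln8_14_0_ok) (L (nat_lit 493) ln9_14_0 ln9_14_0_ok))) (M (nat_lit 430) (B (L (nat_lit 428) ln14_13_1 ln14_13_1_ok) (L (nat_lit 461) ln10_14_2 ln10_14_2_ok)))))))))))))))))) (B (M (nat_lit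 363) (B (M (nat_lit 331) (B (M (nat_lit 330) (B (L (nat_lit 298) ln11_13_7 ln11_13_7_ok) (L (nat_lit 362) ln11_14_7 ln11_14_7_ok))) (M (nat_lit 458) (B (L (nat_lit 426) ln11_10_5 ln11_10_5_ok) (L (nat_lit 490) ln11_11_5 ln11_11_5_ok))))) (B (M (nat_lit 331) (B (M (nat_lit 332) (B (L (nat_lit 300) ln11_13_6 ln11_13_6_ok) (L (nat_lit 364) ln11_14_6 ln11_14_6_ok))) (M (nat_lit 458) (B (L (nat_lit 426) ln11_10_5 ln11_10_5_ok) (L (nat_lit 490) ln11_11_5 ln11_11_5_ok))))) (M (nat_lit 491) (B (M (nat_lit 364) (B (L (nat_lit 332) ln11_14_6 ln11_14_6_ok) (L (nat_lit 396) ln11_15_6 ln11_15_6_ok))) (M (nat_lit 492) (B (L (nat_lit 460) ln11_11_4 ln11_11_4_ok) (L (nat_lit 524) ln11_12_4 ln11_12_4_ok)))))))) (B (M (nat_lit 491) (B (M (nat_lit 396) (B (L (nat_lit 364) ln11_15_6 ln11_15_6_ok) (M (nat_lit 523) (B (L (nat_lit 428) ln11_16_6 ln11_16_6_ok) (M (nat_lit 522) (B (L (nat_lit 490) ln11_12_5 ln11_12_5_ok)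 (L (nat_lit 554) ln11_13_5 ln11_13_5_ok))))))) (B (M (nat_lit 523) (B (M (nat_lit 522) (B (L (nat_lit 490) ln11_12_5 ln11_12_5_ok) (L (nat_lit 554) ln11_13_5 ln11_13_5_ok))) (M (nat_lit 524) (B (L (nat_lit 492) ln11_12_4 ln11_12_4_ok) (L (nat_lit 556) ln11_13_4 ln11_13_4_ok))))) (B (M (nat_lit 523) (B (M (nat_lit 396) (B (L (nat_lit 364) ln11_15_6 ln11_15_6_ok) (L (nat_lit 428) ln11_16_6 ln11_16_6_ok))) (M (nat_lit 524) (B (L (nat_lit 492) ln11_12_4 ln11_12_4_ok) (L (nat_lit 556) ln11_13_4 ln11_13_4_ok))))) (M (nat_lit 363) (B (M (nat_lit 364) (B (L (nat_lit 332) ln11_14_6 ln11_14_6_ok) (L (nat_lit 396) ln11_15_6 ln11_15_6_ok))) (M (nat_lit 492) (B (L (nat_lit 460) ln11_11_4 ln11_11_4_ok) (L (nat_lit 524) ln11_12_4 ln11_12_4_ok))))))))) (B (M (nat_lit 458) (B (M (nat_lit 428) (B (L (nat_lit 430) ln14_13_1 ln14_13_1_ok) (M (nat_lit 457) (B (L (nat_lit 426) ln13_13_1 ln13_13_1_ok) (L (nat_lit 456)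 ln8_14_2 ln8_14_2_ok))))) (M (nat_lit 490) (B (L (nat_lit 363) ln11_11_5 ln11_11_5_ok) (M (nat_lit 522) (B (L (nat_lit 491) ln11_12_5 ln11_12_5_ok) (L (nat_lit 554) ln10_17_6 ln10_17_6_ok))))))) (B (M (nat_lit 363) (B (M (nat_lit 331) (B (M (nat_lit 330) (B (L (nat_lit 298) ln11_13_7 ln11_13_7_ok) (L (nat_lit 362) ln11_14_7 ln11_14_7_ok))) (M (nat_lit 332) (B (L (nat_lit 300) ln11_13_6 ln11_13_6_ok) (L (nat_lit 364) ln11_14_6 ln11_14_6_ok))))) (B (M (nat_lit 331) (B (M (nat_lit 332) (B (L (nat_lit 300) ln11_13_6 ln11_13_6_ok) (L (nat_lit 364) ln11_14_6 ln11_14_6_ok))) (M (nat_lit 460) (B (L (nat_lit 428) ln11_10_4 ln11_10_4_ok) (L (nat_lit 492) ln11_11_4 ln11_11_4_ok))))) (B (M (nat_lit 331) (B (M (nat_lit 330) (B (L (nat_lit 298) ln11_13_7 ln11_13_7_ok) (L (nat_lit 362) ln11_14_7 ln11_14_7_ok))) (M (nat_lit 460) (B (L (nat_lit 428) ln11_10_4 ln11_10_4_ok) (L (nat_lit 492) ln11_11_4 ln11_11_4_ok)))))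 (M (nat_lit 491) (B (M (nat_lit 364) (B (L (nat_lit 332) ln11_14_6 ln11_14_6_ok) (L (nat_lit 396) ln11_15_6 ln11_15_6_ok))) (M (nat_lit 492) (B (L (nat_lit 460) ln11_11_4 ln11_11_4_ok) (L (nat_lit 524) ln11_12_4 ln11_12_4_ok))))))))) (M (nat_lit 458) (B (M (nat_lit 490) (B (L (nat_lit 363) ln11_11_5 ln11_11_5_ok) (M (nat_lit 522) (B (L (nat_lit 426) ln10_16_6 ln10_16_6_ok) (L (nat_lit 554) ln10_17_6 ln10_17_6_ok))))) (B (M (nat_lit 428) (B (L (nat_lit 430) ln14_13_1 ln14_13_1_ok) (M (nat_lit 457) (B (L (nat_lit 426) ln13_13_1 ln13_13_1_ok) (L (nat_lit 456) ln8_14_2 ln8_14_2_ok))))) (M (nat_lit 428) (B (L (nat_lit 430) ln14_13_1 ln14_13_1_ok) (M (nat_lit 457) (B (L (nat_lit 456) ln8_14_2 ln8_14_2_ok) (L (nat_lit 460) ln9_14_2 ln9_14_2_ok))))))))))))))) (nat_lit 1732918559228985830687588332223164685273243777473901889611115911763928841837992205340115440475969322760891043012737103013850644480) (nat_lit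 294840814535290085436047548280673895946825052413385143342271380509042329096173227496581197397218215480576782647949426595418560117160016132744447692630451718052475043840) (nat_lit 294840814535290085436047548280673895946825052413385143342271380509042329096173227496581197397218215480576782647949426595418560117160016132744447692630451718052475043840) (by decide +kernel)
theorem c11_s2787 : Sem (nat_lit 1732918559228985830687588332223164685273243777473901889611115911763928841837992205340115440475969322760891043012737103013850644480) (nat_lit 58968162983943750918552884081706196095929430907230350361540778974042909556362039027442314328064533344805482327435336166381949004206151782211451111324623345754598014976) (nat_lit 58968162983943750918552884081706196095929430907230350361540778974042909556362039027442314328064533344805482327435336166381949004206151782211451111324623345754598014976) :=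
  sem_of_chk (M (nat_lit 396) (B (M (nat_lit 430) (B (M (nat_lit 431) (B (L (nat_lit 398) ln11_12_0 ln11_12_0_ok) (L (nat_lit 428) ln15_13_3 ln15_13_3_ok))) (B (M (nat_lit 428) (B (L (nat_lit 431) ln15_13_3 ln15_13_3_ok) (M (nat_lit 459) (B (L (nat_lit 458) ln14_13_1 ln14_13_1_ok) (M (nat_lit 364) (B (L (nat_lit 332) ln12_10_5 ln12_10_5_ok) (L (nat_lit 491) ln11_15_6 ln11_15_6_ok))))))) (B (M (nat_lit 398) (B (L (nat_lit 431) ln11_12_0 ln11_12_0_ok) (M (nat_lit 366) (B (L (nat_lit 367) ln11_12_2 ln11_12_2_ok) (M (nat_lit 334) (B (L (nat_lit 302) ln14_9_5 ln14_9_5_ok) (L (nat_lit 461) ln14_10_5 ln14_10_5_ok))))))) (M (nat_lit 398) (B (M (nat_lit 399) (B (L (nat_lit 428) ln15_12_1 ln15_12_1_ok) (M (nat_lit 363) (B (L (nat_lit 362) ln14_12_3 ln14_12_3_ok) (L (nat_lit 364) ln15_12_3 ln15_12_3_ok))))) (M (nat_lit 366) (B (L (nat_lit 367) ln11_12_2 ln11_12_2_ok) (M (nat_lit 334) (B (L (nat_lit 302) ln14_9_5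 ln14_9_5_ok) (L (nat_lit 461) ln14_10_5 ln14_10_5_ok))))))))))) (B (M (nat_lit 428) (B (M (nat_lit 459) (B (M (nat_lit 364) (B (L (nat_lit 332) ln12_10_5 ln12_10_5_ok) (L (nat_lit 491) ln11_15_6 ln11_15_6_ok))) (M (nat_lit 430) (B (L (nat_lit 431) ln15_13_3 ln15_13_3_ok) (L (nat_lit 458) ln14_13_1 ln14_13_1_ok))))) (M (nat_lit 363) (B (M (nat_lit 331) (B (L (nat_lit 299) ln11_9_4 ln11_9_4_ok) (L (nat_lit 460) ln11_10_4 ln11_10_4_ok))) (M (nat_lit 398) (B (L (nat_lit 362) ln14_12_3 ln14_12_3_ok) (L (nat_lit 399) ln15_12_1 ln15_12_1_ok))))))) (B (M (nat_lit 428) (B (M (nat_lit 459) (B (M (nat_lit 491) (B (L (nat_lit 364) ln11_15_6 ln11_15_6_ok) (L (nat_lit 523) ln11_16_6 ln11_16_6_ok))) (M (nat_lit 430) (B (L (nat_lit 431) ln15_13_3 ln15_13_3_ok) (L (nat_lit 458) ln14_13_1 ln14_13_1_ok))))) (M (nat_lit 363) (B (M (nat_lit 331) (B (L (nat_lit 299) ln11_9_4 ln11_9_4_ok) (L (nat_lit 460) ln11_10_4 ln11_10_4_ok)))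 (M (nat_lit 398) (B (L (nat_lit 362) ln14_12_3 ln14_12_3_ok) (L (nat_lit 399) ln15_12_1 ln15_12_1_ok))))))) (B (M (nat_lit 398) (B (M (nat_lit 399) (B (L (nat_lit 428) ln15_12_1 ln15_12_1_ok) (M (nat_lit 367) (B (L (nat_lit 366) ln11_12_2 ln11_12_2_ok) (L (nat_lit 368) ln12_12_2 ln12_12_2_ok))))) (B (M (nat_lit 428) (B (L (nat_lit 399) ln15_12_1 ln15_12_1_ok) (M (nat_lit 459) (B (M (nat_lit 364) (B (L (nat_lit 332) ln12_10_5 ln12_10_5_ok) (L (nat_lit 491) ln11_15_6 ln11_15_6_ok))) (M (nat_lit 430) (B (L (nat_lit 431) ln11_12_0 ln11_12_0_ok) (L (nat_lit 458) ln14_13_1 ln14_13_1_ok))))))) (M (nat_lit 430) (B (L (nat_lit 431) ln11_12_0 ln11_12_0_ok) (M (nat_lit 366) (B (L (nat_lit 367) ln11_12_2 ln11_12_2_ok) (M (nat_lit 334) (B (L (nat_lit 302) ln14_9_5 ln14_9_5_ok) (L (nat_lit 461) ln14_10_5 ln14_10_5_ok)))))))))) (B (M (nat_lit 398) (B (M (nat_lit 399) (B (L (nat_lit 428) ln15_12_1 ln15_12_1_ok)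 (M (nat_lit 367) (B (L (nat_lit 366) ln11_12_2 ln11_12_2_ok) (L (nat_lit 368) ln12_12_2 ln12_12_2_ok))))) (B (M (nat_lit 428) (B (L (nat_lit 399) ln15_12_1 ln15_12_1_ok) (M (nat_lit 363) (B (L (nat_lit 362) ln14_12_3 ln14_12_3_ok) (M (nat_lit 331) (B (L (nat_lit 299) ln11_9_4 ln11_9_4_ok) (L (nat_lit 460) ln11_10_4 ln11_10_4_ok))))))) (M (nat_lit 430) (B (L (nat_lit 431) ln11_12_0 ln11_12_0_ok) (M (nat_lit 366) (B (L (nat_lit 367) ln11_12_2 ln11_12_2_ok) (M (nat_lit 334) (B (L (nat_lit 302) ln14_9_5 ln14_9_5_ok) (L (nat_lit 461) ln14_10_5 ln14_10_5_ok)))))))))) (B (M (nat_lit 459) (B (M (nat_lit 364) (B (L (nat_lit 491) ln11_15_6 ln11_15_6_ok) (M (nat_lit 332) (B (L (nat_lit 300) ln12_9_5 ln12_9_5_ok) (L (nat_lit 428) ln12_10_5 ln12_10_5_ok))))) (B (M (nat_lit 364) (B (L (nat_lit 491) ln11_15_6 ln11_15_6_ok) (M (nat_lit 332) (B (L (nat_lit 363) ln11_14_6 ln11_14_6_ok) (L (nat_lit 428) ln12_10_5 ln12_10_5_ok)))))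 (B (M (nat_lit 428) (B (M (nat_lit 491) (B (L (nat_lit 364) ln11_15_6 ln11_15_6_ok) (L (nat_lit 523) ln11_16_6 ln11_16_6_ok))) (M (nat_lit 430) (B (L (nat_lit 431) ln15_13_3 ln15_13_3_ok) (L (nat_lit 458) ln14_13_1 ln14_13_1_ok))))) (B (M (nat_lit 491) (B (M (nat_lit 523) (B (L (nat_lit 428) ln11_16_6 ln11_16_6_ok) (M (nat_lit 522) (B (L (nat_lit 490) ln11_12_5 ln11_12_5_ok) (L (nat_lit 554) ln11_13_5 ln11_13_5_ok))))) (B (M (nat_lit 363) (B (M (nat_lit 490) (B (L (nat_lit 458) ln11_11_5 ln11_11_5_ok) (L (nat_lit 522) ln11_12_5 ln11_12_5_ok))) (M (nat_lit 492) (B (L (nat_lit 460) ln11_11_4 ln11_11_4_ok) (L (nat_lit 524) ln11_12_4 ln11_12_4_ok))))) (M (nat_lit 428) (B (L (nat_lit 523) ln11_16_6 ln11_16_6_ok) (M (nat_lit 430) (B (L (nat_lit 431) ln15_13_3 ln15_13_3_ok) (L (nat_lit 458) ln14_13_1 ln14_13_1_ok)))))))) (B (M (nat_lit 364) (B (L (nat_lit 491) ln11_15_6 ln11_15_6_ok) (M (nat_lit 332) (B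 (L (nat_lit 300) ln12_9_5 ln12_9_5_ok) (L (nat_lit 363) ln11_14_6 ln11_14_6_ok))))) (M (nat_lit 363) (B (M (nat_lit 364) (B (L (nat_lit 332) ln11_14_6 ln11_14_6_ok) (M (nat_lit 362) (B (L (nat_lit 330) ln11_14_7 ln11_14_7_ok) (L (nat_lit 361) ln9_11_0 ln9_11_0_ok))))) (M (nat_lit 428) (B (M (nat_lit 331) (B (L (nat_lit 299) ln11_9_4 ln11_9_4_ok) (L (nat_lit 460) ln11_10_4 ln11_10_4_ok))) (M (nat_lit 458) (B (L (nat_lit 490) ln11_11_5 ln11_11_5_ok) (L (nat_lit 430) ln14_13_1 ln14_13_1_ok))))))))))))) (B (M (nat_lit 398) (B (M (nat_lit 430) (B (L (nat_lit 431) ln11_12_0 ln11_12_0_ok) (M (nat_lit 366) (B (L (nat_lit 367) ln11_12_2 ln11_12_2_ok) (M (nat_lit 334) (B (L (nat_lit 302) ln14_9_5 ln14_9_5_ok) (L (nat_lit 461) ln14_10_5 ln14_10_5_ok))))))) (M (nat_lit 363) (B (L (nat_lit 362) ln14_12_3 ln14_12_3_ok) (M (nat_lit 364) (B (L (nat_lit 399) ln15_12_3 ln15_12_3_ok) (M (nat_lit 332) (B (L (nat_lit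 300) ln12_9_5 ln12_9_5_ok) (L (nat_lit 459) ln11_14_6 ln11_14_6_ok))))))))) (M (nat_lit 363) (B (M (nat_lit 398) (B (L (nat_lit 362) ln14_12_3 ln14_12_3_ok) (M (nat_lit 399) (B (L (nat_lit 364) ln15_12_3 ln15_12_3_ok) (L (nat_lit 428) ln15_12_1 ln15_12_1_ok))))) (B (M (nat_lit 332) (B (M (nat_lit 300) (B (L (nat_lit 331) ln11_13_6 ln11_13_6_ok) (L (nat_lit 364) ln12_9_5 ln12_9_5_ok))) (B (M (nat_lit 364) (B (L (nat_lit 459) ln11_14_6 ln11_14_6_ok) (M (nat_lit 461) (B (L (nat_lit 428) ln12_10_4 ln12_10_4_ok) (L (nat_lit 493) ln13_15_7 ln13_15_7_ok))))) (M (nat_lit 331) (B (L (nat_lit 300) ln11_13_6 ln11_13_6_ok) (M (nat_lit 428) (B (L (nat_lit 299) ln11_9_4 ln11_9_4_ok) (L (nat_lit 460) ln11_10_4 ln11_10_4_ok)))))))) (B (M (nat_lit 428) (B (M (nat_lit 331) (B (L (nat_lit 299) ln11_9_4 ln11_9_4_ok) (L (nat_lit 460) ln11_10_4 ln11_10_4_ok))) (M (nat_lit 398) (B (L (nat_lit 362) ln14_12_3 ln14_12_3_ok)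 (L (nat_lit 399) ln15_12_1 ln15_12_1_ok))))) (M (nat_lit 364) (B (M (nat_lit 332) (B (L (nat_lit 300) ln12_9_5 ln12_9_5_ok) (L (nat_lit 459) ln11_14_6 ln11_14_6_ok))) (M (nat_lit 398) (B (L (nat_lit 362) ln14_12_3 ln14_12_3_ok) (L (nat_lit 399) ln15_12_3 ln15_12_3_ok))))))))))))))))) (nat_lit 1732918559228985830687588332223164685273243777473901889611115911763928841837992205340115440475969322760891043012737103013850644480) (nat_lit 58968162983943750918552884081706196095929430907230350361540778974042909556362039027442314328064533344805482327435336166381949004206151782211451111324623345754598014976) (nat_lit 58968162983943750918552884081706196095929430907230350361540778974042909556362039027442314328064533344805482327435336166381949004206151782211451111324623345754598014976) (by decide +kernel)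
theorem c11_s2885 : Sem (nat_lit 1732918559228985830687588332223164685273243777473901889611115911763928841837992205340115440475969322760891043012737103013850644480) (nat_lit 294840814535290085487593860343491559687492466988758510297623334729734553255503345724188376831736053372233950103610540160651598796543112811750053134774455476224868220928) (nat_lit 294840814535290085487593860343491559687492466988758510297623334729734553255503345724188376831736053372233950103610540160651598796543112811750053134774455476224868220928) :=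
  sem_of_chk (M (nat_lit 459) (B (M (nat_lit 396) (B (M (nat_lit 364) (B (L (nat_lit 491) ln11_15_6 ln11_15_6_ok) (M (nat_lit 332) (B (L (nat_lit 300) ln12_9_5 ln12_9_5_ok) (L (nat_lit 363) ln11_14_6 ln11_14_6_ok))))) (B (M (nat_lit 364) (B (L (nat_lit 491) ln11_15_6 ln11_15_6_ok) (M (nat_lit 398) (B (L (nat_lit 426) ln14_12_1 ln14_12_1_ok) (M (nat_lit 363) (B (L (nat_lit 332) ln11_14_6 ln11_14_6_ok) (L (nat_lit 399) ln15_12_3 ln15_12_3_ok))))))) (M (nat_lit 398) (B (L (nat_lit 426) ln14_12_1 ln14_12_1_ok) (M (nat_lit 399) (B (M (nat_lit 367) (B (L (nat_lit 366) ln11_12_2 ln11_12_2_ok) (L (nat_lit 368) ln12_12_2 ln12_12_2_ok))) (M (nat_lit 431) (B (L (nat_lit 430) ln11_12_0 ln11_12_0_ok) (L (nat_lit 432) ln12_12_0 ln12_12_0_ok)))))))))) (B (M (nat_lit 363) (B (M (nat_lit 331) (B (M (nat_lit 330) (B (L (nat_lit 298) ln11_13_7 ln11_13_7_ok) (L (nat_lit 362) ln11_14_7 ln11_14_7_ok))) (M (nat_lit 458)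 (B (L (nat_lit 426) ln11_10_5 ln11_10_5_ok) (L (nat_lit 490) ln11_11_5 ln11_11_5_ok))))) (M (nat_lit 491) (B (M (nat_lit 364) (B (L (nat_lit 332) ln11_14_6 ln11_14_6_ok) (L (nat_lit 396) ln11_15_6 ln11_15_6_ok))) (M (nat_lit 492) (B (L (nat_lit 460) ln11_11_4 ln11_11_4_ok) (L (nat_lit 524) ln11_12_4 ln11_12_4_ok))))))) (B (M (nat_lit 396) (B (M (nat_lit 398) (B (L (nat_lit 426) ln14_12_1 ln14_12_1_ok) (M (nat_lit 363) (B (L (nat_lit 362) ln14_12_3 ln14_12_3_ok) (M (nat_lit 364) (B (L (nat_lit 399) ln15_12_3 ln15_12_3_ok) (L (nat_lit 491) ln11_15_6 ln11_15_6_ok))))))) (B (M (nat_lit 398) (B (L (nat_lit 426) ln14_12_1 ln14_12_1_ok) (M (nat_lit 399) (B (M (nat_lit 364) (B (L (nat_lit 363) ln15_12_3 ln15_12_3_ok) (L (nat_lit 491) ln11_15_6 ln11_15_6_ok))) (M (nat_lit 367) (B (L (nat_lit 366) ln11_12_2 ln11_12_2_ok) (L (nat_lit 368) ln12_12_2 ln12_12_2_ok))))))) (B (M (nat_lit 398) (B (L (nat_lit 426)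 ln14_12_1 ln14_12_1_ok) (M (nat_lit 399) (B (M (nat_lit 367) (B (L (nat_lit 366) ln11_12_2 ln11_12_2_ok) (L (nat_lit 368) ln12_12_2 ln12_12_2_ok))) (M (nat_lit 431) (B (L (nat_lit 430) ln11_12_0 ln11_12_0_ok) (L (nat_lit 432) ln12_12_0 ln12_12_0_ok))))))) (M (nat_lit 491) (B (L (nat_lit 364) ln11_15_6 ln11_15_6_ok) (M (nat_lit 363) (B (M (nat_lit 490) (B (L (nat_lit 458) ln11_11_5 ln11_11_5_ok) (L (nat_lit 522) ln11_12_5 ln11_12_5_ok))) (M (nat_lit 492) (B (L (nat_lit 460) ln11_11_4 ln11_11_4_ok) (L (nat_lit 524) ln11_12_4 ln11_12_4_ok))))))))))) (B (M (nat_lit 396) (B (M (nat_lit 398) (B (L (nat_lit 426) ln14_12_1 ln14_12_1_ok) (M (nat_lit 399) (B (M (nat_lit 367) (B (L (nat_lit 366) ln11_12_2 ln11_12_2_ok) (L (nat_lit 368) ln12_12_2 ln12_12_2_ok))) (M (nat_lit 431) (B (L (nat_lit 430) ln11_12_0 ln11_12_0_ok) (L (nat_lit 432) ln12_12_0 ln12_12_0_ok))))))) (M (nat_lit 491) (B (L (nat_lit 364) ln11_15_6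 ln11_15_6_ok) (M (nat_lit 523) (B (M (nat_lit 522) (B (L (nat_lit 490) ln11_12_5 ln11_12_5_ok) (L (nat_lit 554) ln11_13_5 ln11_13_5_ok))) (M (nat_lit 524) (B (L (nat_lit 492) ln11_12_4 ln11_12_4_ok) (L (nat_lit 556) ln11_13_4 ln11_13_4_ok))))))))) (B (M (nat_lit 458) (B (M (nat_lit 490) (B (L (nat_lit 363) ln11_11_5 ln11_11_5_ok) (M (nat_lit 522) (B (L (nat_lit 426) ln10_16_6 ln10_16_6_ok) (L (nat_lit 491) ln11_12_5 ln11_12_5_ok))))) (B (M (nat_lit 460) (B (M (nat_lit 461) (B (L (nat_lit 430) ln10_14_2 ln10_14_2_ok) (M (nat_lit 426) (B (L (nat_lit 425) ln13_14_3 ln13_14_3_ok) (M (nat_lit 490) (B (L (nat_lit 522) ln10_16_6 ln10_16_6_ok) (L (nat_lit 489) ln13_14_1 ln13_14_1_ok))))))) (B (M (nat_lit 490) (B (M (nat_lit 522) (B (L (nat_lit 426) ln10_16_6 ln10_16_6_ok) (L (nat_lit 491) ln11_12_5 ln11_12_5_ok))) (M (nat_lit 461) (B (L (nat_lit 430) ln10_14_2 ln10_14_2_ok) (L (nat_lit 489) ln13_14_1 ln13_14_1_ok)))))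 (B (M (nat_lit 457) (B (M (nat_lit 461) (B (L (nat_lit 430) ln10_14_2 ln10_14_2_ok) (M (nat_lit 489) (B (L (nat_lit 488) ln12_14_1 ln12_14_1_ok) (L (nat_lit 490) ln13_14_1 ln13_14_1_ok))))) (M (nat_lit 492) (B (L (nat_lit 493) ln9_14_0 ln9_14_0_ok) (M (nat_lit 491) (B (L (nat_lit 524) ln11_12_4 ln11_12_4_ok) (L (nat_lit 456) ln8_14_0 ln8_14_0_ok))))))) (B (M (nat_lit 490) (B (M (nat_lit 522) (B (L (nat_lit 426) ln10_16_6 ln10_16_6_ok) (L (nat_lit 491) ln11_12_5 ln11_12_5_ok))) (M (nat_lit 489) (B (L (nat_lit 461) ln13_14_1 ln13_14_1_ok) (M (nat_lit 488) (B (L (nat_lit 457) ln12_14_1 ln12_14_1_ok) (L (nat_lit 487) ln7_15_2 ln7_15_2_ok))))))) (B (M (nat_lit 457) (B (M (nat_lit 492) (B (L (nat_lit 493) ln9_14_0 ln9_14_0_ok) (M (nat_lit 491) (B (L (nat_lit 524) ln11_12_4 ln11_12_4_ok) (L (nat_lit 456) ln8_14_0 ln8_14_0_ok))))) (B (M (nat_lit 492) (B (L (nat_lit 493) ln9_14_0 ln9_14_0_ok) (M (nat_lit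 524) (B (L (nat_lit 491) ln11_12_4 ln11_12_4_ok) (L (nat_lit 556) ln12_17_7 ln12_17_7_ok))))) (M (nat_lit 456) (B (M (nat_lit 424) (B (L (nat_lit 423) ln11_14_3 ln11_14_3_ok) (L (nat_lit 425) ln12_14_3 ln12_14_3_ok))) (M (nat_lit 488) (B (L (nat_lit 487) ln11_14_1 ln11_14_1_ok) (L (nat_lit 489) ln12_14_1 ln12_14_1_ok)))))))) (M (nat_lit 457) (B (M (nat_lit 425) (B (L (nat_lit 424) ln12_14_3 ln12_14_3_ok) (M (nat_lit 461) (B (L (nat_lit 426) ln13_14_3 ln13_14_3_ok) (L (nat_lit 430) ln10_14_2 ln10_14_2_ok))))) (M (nat_lit 492) (B (L (nat_lit 493) ln9_14_0 ln9_14_0_ok) (M (nat_lit 491) (B (L (nat_lit 524) ln11_12_4 ln11_12_4_ok) (L (nat_lit 456) ln8_14_0 ln8_14_0_ok))))))))))))) (B (M (nat_lit 490) (B (L (nat_lit 363) ln11_11_5 ln11_11_5_ok) (M (nat_lit 522) (B (L (nat_lit 491) ln11_12_5 ln11_12_5_ok) (L (nat_lit 554) ln10_17_6 ln10_17_6_ok))))) (B (M (nat_lit 460) (B (M (nat_lit 492) (B (L (nat_lit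 363) ln11_11_4 ln11_11_4_ok) (M (nat_lit 524) (B (L (nat_lit 491) ln11_12_4 ln11_12_4_ok) (L (nat_lit 556) ln12_17_7 ln12_17_7_ok))))) (M (nat_lit 461) (B (L (nat_lit 430) ln10_14_2 ln10_14_2_ok) (M (nat_lit 398) (B (M (nat_lit 493) (B (L (nat_lit 366) ln13_15_6 ln13_15_6_ok) (L (nat_lit 494) ln10_14_0 ln10_14_0_ok))) (M (nat_lit 426) (B (L (nat_lit 396) ln14_12_1 ln14_12_1_ok) (L (nat_lit 425) ln13_14_3 ln13_14_3_ok))))))))) (M (nat_lit 490) (B (L (nat_lit 363) ln11_11_5 ln11_11_5_ok) (M (nat_lit 522) (B (L (nat_lit 426) ln10_16_6 ln10_16_6_ok) (L (nat_lit 554) ln10_17_6 ln10_17_6_ok)))))))))) (B (M (nat_lit 363) (B (M (nat_lit 331) (B (M (nat_lit 330) (B (L (nat_lit 298) ln11_13_7 ln11_13_7_ok) (L (nat_lit 362) ln11_14_7 ln11_14_7_ok))) (M (nat_lit 332) (B (L (nat_lit 300) ln11_13_6 ln11_13_6_ok) (L (nat_lit 364) ln11_14_6 ln11_14_6_ok))))) (M (nat_lit 491) (B (M (nat_lit 490) (B (L (nat_lit 458)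 ln11_11_5 ln11_11_5_ok) (L (nat_lit 522) ln11_12_5 ln11_12_5_ok))) (M (nat_lit 492) (B (L (nat_lit 460) ln11_11_4 ln11_11_4_ok) (L (nat_lit 524) ln11_12_4 ln11_12_4_ok))))))) (M (nat_lit 363) (B (M (nat_lit 331) (B (M (nat_lit 330) (B (L (nat_lit 298) ln11_13_7 ln11_13_7_ok) (L (nat_lit 362) ln11_14_7 ln11_14_7_ok))) (M (nat_lit 458) (B (L (nat_lit 426) ln11_10_5 ln11_10_5_ok) (L (nat_lit 490) ln11_11_5 ln11_11_5_ok))))) (B (M (nat_lit 331) (B (M (nat_lit 332) (B (L (nat_lit 300) ln11_13_6 ln11_13_6_ok) (L (nat_lit 364) ln11_14_6 ln11_14_6_ok))) (M (nat_lit 458) (B (L (nat_lit 426) ln11_10_5 ln11_10_5_ok) (L (nat_lit 490) ln11_11_5 ln11_11_5_ok))))) (M (nat_lit 364) (B (L (nat_lit 332) ln11_14_6 ln11_14_6_ok) (M (nat_lit 362) (B (L (nat_lit 330) ln11_14_7 ln11_14_7_ok) (M (nat_lit 396) (B (L (nat_lit 361) ln9_11_0 ln9_11_0_ok) (L (nat_lit 398) ln14_12_3 ln14_12_3_ok))))))))))))))))) (nat_lit 1732918559228985830687588332223164685273243777473901889611115911763928841837992205340115440475969322760891043012737103013850644480)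 (nat_lit 294840814535290085487593860343491559687492466988758510297623334729734553255503345724188376831736053372233950103610540160651598796543112811750053134774455476224868220928) (nat_lit 294840814535290085487593860343491559687492466988758510297623334729734553255503345724188376831736053372233950103610540160651598796543112811750053134774455476224868220928) (by decide +kernel)
noncomputable def c11_n2953 : Cert := (M (nat_lit 428) (B (M (nat_lit 398) (B (L (nat_lit 426) ln10_13_2 ln10_13_2_ok) (M (nat_lit 399) (B (L (nat_lit 396) ln15_12_1 ln15_12_1_ok) (L (nat_lit 400) ln16_12_1 ln16_12_1_ok))))) (B (M (nat_lit 426) (B (L (nat_lit 398) ln10_13_2 ln10_13_2_ok) (M (nat_lit 425) (B (M (nat_lit 457) (B (L (nat_lit 456) ln12_13_1 ln12_13_1_ok) (L (nat_lit 458) ln13_13_1 ln13_13_1_ok))) (M (nat_lit 424) (B (M (nat_lit 392) (B (L (nat_lit 391) ln11_13_3 ln11_13_3_ok) (L (nat_lit 393) ln12_13_3 ln12_13_3_ok)))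 (M (nat_lit 460) (B (L (nat_lit 459) ln8_13_0 ln8_13_0_ok) (L (nat_lit 461) ln9_13_0 ln9_13_0_ok))))))))) (B (M (nat_lit 363) (B (M (nat_lit 460) (B (L (nat_lit 331) ln11_10_4 ln11_10_4_ok) (M (nat_lit 492) (B (L (nat_lit 396) ln12_15_7 ln12_15_7_ok) (L (nat_lit 459) ln11_11_4 ln11_11_4_ok))))) (B (M (nat_lit 459) (B (M (nat_lit 458) (B (L (nat_lit 490) ln11_11_5 ln11_11_5_ok) (M (nat_lit 457) (B (L (nat_lit 426) ln13_13_1 ln13_13_1_ok) (L (nat_lit 456) ln8_14_2 ln8_14_2_ok))))) (B (M (nat_lit 458) (B (L (nat_lit 490) ln11_11_5 ln11_11_5_ok) (M (nat_lit 457) (B (L (nat_lit 456) ln8_14_2 ln8_14_2_ok) (L (nat_lit 460) ln9_14_2 ln9_14_2_ok))))) (B (M (nat_lit 458) (B (L (nat_lit 490) ln11_11_5 ln11_11_5_ok) (M (nat_lit 457) (B (L (nat_lit 426) ln13_13_1 ln13_13_1_ok) (L (nat_lit 460) ln9_14_2 ln9_14_2_ok))))) (M (nat_lit 491) (B (M (nat_lit 364) (B (L (nat_lit 332) ln11_14_6 ln11_14_6_ok) (L (nat_lit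 396) ln11_15_6 ln11_15_6_ok))) (M (nat_lit 492) (B (L (nat_lit 460) ln11_11_4 ln11_11_4_ok) (L (nat_lit 524) ln11_12_4 ln11_12_4_ok))))))))) (B (M (nat_lit 460) (B (L (nat_lit 331) ln11_10_4 ln11_10_4_ok) (M (nat_lit 492) (B (L (nat_lit 459) ln11_11_4 ln11_11_4_ok) (L (nat_lit 524) ln12_16_7 ln12_16_7_ok))))) (B (M (nat_lit 460) (B (L (nat_lit 331) ln11_10_4 ln11_10_4_ok) (M (nat_lit 492) (B (L (nat_lit 396) ln12_15_7 ln12_15_7_ok) (L (nat_lit 524) ln12_16_7 ln12_16_7_ok))))) (M (nat_lit 459) (B (M (nat_lit 458) (B (L (nat_lit 490) ln11_11_5 ln11_11_5_ok) (M (nat_lit 426) (B (L (nat_lit 331) ln11_10_5 ln11_10_5_ok) (L (nat_lit 457) ln13_13_1 ln13_13_1_ok))))) (B (M (nat_lit 458) (B (L (nat_lit 490) ln11_11_5 ln11_11_5_ok) (M (nat_lit 457) (B (L (nat_lit 426) ln13_13_1 ln13_13_1_ok) (L (nat_lit 456) ln8_14_2 ln8_14_2_ok))))) (M (nat_lit 331) (B (M (nat_lit 330) (B (L (nat_lit 298) ln11_13_7 ln11_13_7_ok)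 (L (nat_lit 362) ln11_14_7 ln11_14_7_ok))) (M (nat_lit 332) (B (L (nat_lit 300) ln11_13_6 ln11_13_6_ok) (L (nat_lit 364) ln11_14_6 ln11_14_6_ok))))))))))))) (M (nat_lit 363) (B (M (nat_lit 460) (B (L (nat_lit 331) ln11_10_4 ln11_10_4_ok) (M (nat_lit 492) (B (L (nat_lit 396) ln12_15_7 ln12_15_7_ok) (L (nat_lit 459) ln11_11_4 ln11_11_4_ok))))) (B (M (nat_lit 459) (B (M (nat_lit 458) (B (L (nat_lit 490) ln11_11_5 ln11_11_5_ok) (M (nat_lit 457) (B (L (nat_lit 456) ln8_14_2 ln8_14_2_ok) (L (nat_lit 460) ln9_14_2 ln9_14_2_ok))))) (M (nat_lit 396) (B (M (nat_lit 362) (B (L (nat_lit 330) ln11_14_7 ln11_14_7_ok) (L (nat_lit 398) ln14_12_3 ln14_12_3_ok))) (M (nat_lit 364) (B (L (nat_lit 332) ln11_14_6 ln11_14_6_ok) (L (nat_lit 491) ln11_15_6 ln11_15_6_ok))))))) (B (M (nat_lit 460) (B (L (nat_lit 331) ln11_10_4 ln11_10_4_ok) (M (nat_lit 492) (B (L (nat_lit 459) ln11_11_4 ln11_11_4_ok) (L (nat_lit 524) ln12_16_7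 ln12_16_7_ok))))) (B (M (nat_lit 460) (B (L (nat_lit 331) ln11_10_4 ln11_10_4_ok) (M (nat_lit 492) (B (L (nat_lit 396) ln12_15_7 ln12_15_7_ok) (L (nat_lit 524) ln12_16_7 ln12_16_7_ok))))) (M (nat_lit 396) (B (M (nat_lit 398) (B (L (nat_lit 362) ln14_12_3 ln14_12_3_ok) (L (nat_lit 399) ln15_12_1 ln15_12_1_ok))) (M (nat_lit 332) (B (M (nat_lit 331) (B (L (nat_lit 299) ln11_9_4 ln11_9_4_ok) (L (nat_lit 300) ln11_13_6 ln11_13_6_ok))) (B (M (nat_lit 300) (B (L (nat_lit 331) ln11_13_6 ln11_13_6_ok) (L (nat_lit 364) ln12_9_5 ln12_9_5_ok))) (M (nat_lit 364) (B (L (nat_lit 459) ln11_14_6 ln11_14_6_ok) (L (nat_lit 461) ln12_10_4 ln12_10_4_ok)))))))))))))))))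
theorem c11_s2954 : Sem (nat_lit 1386334847463883973240286559205279222343689143051924817714805964187101178362289002460118639712951875498717141642561656535228874752) (nat_lit 1013065324846613311822781578841617331383272968448249702552687411088867599010883609852201075406979802948856532362086060487782085898408284662712278390455273521499252042408105345024) (nat_lit 1013065324846613311822781578841617331383272968448249702552687411088867599010883609852201075406979802948856532362086060487782085898408284662712278390455273521499252042408105345024) :=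
  sem_of_chk (M (nat_lit 427) (B (M (nat_lit 398) (B (M (nat_lit 426) (B (L (nat_lit 396) ln14_12_1 ln14_12_1_ok) (L (nat_lit 428) ln10_13_2 ln10_13_2_ok))) (B (M (nat_lit 428) (B (L (nat_lit 426) ln10_13_2 ln10_13_2_ok) (M (nat_lit 399) (B (L (nat_lit 400) ln16_12_1 ln16_12_1_ok) (L (nat_lit 430) ln11_13_2 ln11_13_2_ok))))) (B (M (nat_lit 399) (B (M (nat_lit 428) (B (L (nat_lit 396) ln15_12_1 ln15_12_1_ok) (L (nat_lit 400) ln16_12_1 ln16_12_1_ok))) (B (M (nat_lit 428) (B (L (nat_lit 400) ln16_12_1 ln16_12_1_ok) (L (nat_lit 430) ln11_13_2 ln11_13_2_ok))) (B (M (nat_lit 428) (B (L (nat_lit 396) ln15_12_1 ln15_12_1_ok) (L (nat_lit 430) ln11_13_2 ln11_13_2_ok))) (M (nat_lit 396) (B (M (nat_lit 363) (B (L (nat_lit 362) ln14_12_3 ln14_12_3_ok) (L (nat_lit 364) ln15_12_3 ln15_12_3_ok))) (M (nat_lit 431) (B (L (nat_lit 430) ln11_12_0 ln11_12_0_ok) (L (nat_lit 432) ln12_12_0 ln12_12_0_ok))))))))) (M (nat_lit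 396) (B (L (nat_lit 426) ln14_12_1 ln14_12_1_ok) (M (nat_lit 399) (B (M (nat_lit 363) (B (L (nat_lit 362) ln14_12_3 ln14_12_3_ok) (L (nat_lit 364) ln15_12_3 ln15_12_3_ok))) (M (nat_lit 431) (B (L (nat_lit 430) ln11_12_0 ln11_12_0_ok) (L (nat_lit 432) ln12_12_0 ln12_12_0_ok))))))))))) (B (M (nat_lit 398) (B (M (nat_lit 426) (B (L (nat_lit 396) ln14_12_1 ln14_12_1_ok) (L (nat_lit 428) ln10_13_2 ln10_13_2_ok))) (B (M (nat_lit 428) (B (L (nat_lit 426) ln10_13_2 ln10_13_2_ok) (M (nat_lit 399) (B (L (nat_lit 400) ln16_12_1 ln16_12_1_ok) (L (nat_lit 430) ln11_13_2 ln11_13_2_ok))))) (B (M (nat_lit 399) (B (M (nat_lit 428) (B (L (nat_lit 396) ln15_12_1 ln15_12_1_ok) (L (nat_lit 400) ln16_12_1 ln16_12_1_ok))) (B (M (nat_lit 428) (B (L (nat_lit 400) ln16_12_1 ln16_12_1_ok) (L (nat_lit 430) ln11_13_2 ln11_13_2_ok))) (B (M (nat_lit 428) (B (L (nat_lit 396) ln15_12_1 ln15_12_1_ok) (L (nat_lit 430) ln11_13_2 ln11_13_2_ok)))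 (M (nat_lit 396) (B (M (nat_lit 367) (B (L (nat_lit 366) ln11_12_2 ln11_12_2_ok) (L (nat_lit 368) ln12_12_2 ln12_12_2_ok))) (M (nat_lit 431) (B (L (nat_lit 430) ln11_12_0 ln11_12_0_ok) (L (nat_lit 432) ln12_12_0 ln12_12_0_ok))))))))) (M (nat_lit 396) (B (L (nat_lit 426) ln14_12_1 ln14_12_1_ok) (M (nat_lit 399) (B (M (nat_lit 367) (B (L (nat_lit 366) ln11_12_2 ln11_12_2_ok) (L (nat_lit 368) ln12_12_2 ln12_12_2_ok))) (M (nat_lit 431) (B (L (nat_lit 430) ln11_12_0 ln11_12_0_ok) (L (nat_lit 432) ln12_12_0 ln12_12_0_ok))))))))))) (B (K (nat_lit 1732918559228985830687588332223164685273243777473901889611115911763928841837992205340115440475969322760891043012737103013850644480) (nat_lit 1013065324846613311822781578762100152303483680776059478041692903245418046376905439383387305228305821529649247304080828041709031979268288266312915519991411407976115203596653428736) (nat_lit 1013065324846613311822781578762100152303483680776059478041692903245418046376905439383387305228305821529649247304080828041709031979268288266312915519991411407976115203596653428736)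 c11_s2578) (B (K (nat_lit 1732918559228985830687588332223164685273243777473901889611115911763928841837992205340115440475969322760891043012737103013850644480) (nat_lit 294840814535290085436047548280673895946825052413385143342271380509042329096173227496581197397218215480576782647949426595418560117160016132744447692630451718052475043840) (nat_lit 294840814535290085436047548280673895946825052413385143342271380509042329096173227496581197397218215480576782647949426595418560117160016132744447692630451718052475043840) c11_s2641) (B (K (nat_lit 1732918559228985830687588332223164685273243777473901889611115911763928841837992205340115440475969322760891043012737103013850644480) (nat_lit 58968162983943750918552884081706196095929430907230350361540778974042909556362039027442314328064533344805482327435336166381949004206151782211451111324623345754598014976) (nat_lit 58968162983943750918552884081706196095929430907230350361540778974042909556362039027442314328064533344805482327435336166381949004206151782211451111324623345754598014976)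 c11_s2787) (B (K (nat_lit 1732918559228985830687588332223164685273243777473901889611115911763928841837992205340115440475969322760891043012737103013850644480) (nat_lit 294840814535290085487593860343491559687492466988758510297623334729734553255503345724188376831736053372233950103610540160651598796543112811750053134774455476224868220928) (nat_lit 294840814535290085487593860343491559687492466988758510297623334729734553255503345724188376831736053372233950103610540160651598796543112811750053134774455476224868220928) c11_s2885) c11_n2953))))))) (nat_lit 1386334847463883973240286559205279222343689143051924817714805964187101178362289002460118639712951875498717141642561656535228874752) (nat_lit 1013065324846613311822781578841617331383272968448249702552687411088867599010883609852201075406979802948856532362086060487782085898408284662712278390455273521499252042408105345024) (nat_lit 1013065324846613311822781578841617331383272968448249702552687411088867599010883609852201075406979802948856532362086060487782085898408284662712278390455273521499252042408105345024)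 (by decide +kernel)
noncomputable def c11_n3028 : Cert := (M (nat_lit 396) (B (M (nat_lit 430) (B (L (nat_lit 394) ln10_12_0 ln10_12_0_ok) (M (nat_lit 431) (B (L (nat_lit 398) ln11_12_0 ln11_12_0_ok) (L (nat_lit 432) ln16_13_3 ln16_13_3_ok))))) (B (M (nat_lit 398) (B (M (nat_lit 363) (B (L (nat_lit 362) ln14_12_3 ln14_12_3_ok) (M (nat_lit 399) (B (L (nat_lit 364) ln15_12_3 ln15_12_3_ok) (M (nat_lit 367) (B (L (nat_lit 366) ln11_12_2 ln11_12_2_ok) (L (nat_lit 368) ln12_12_2 ln12_12_2_ok))))))) (B (M (nat_lit 399) (B (M (nat_lit 367) (B (L (nat_lit 366) ln11_12_2 ln11_12_2_ok) (L (nat_lit 368) ln12_12_2 ln12_12_2_ok))) (M (nat_lit 431) (B (L (nat_lit 430) ln11_12_0 ln11_12_0_ok) (L (nat_lit 432) ln12_12_0 ln12_12_0_ok))))) (B (M (nat_lit 399) (B (M (nat_lit 363) (B (L (nat_lit 362) ln14_12_3 ln14_12_3_ok) (L (nat_lit 364) ln15_12_3 ln15_12_3_ok))) (M (nat_lit 431) (B (L (nat_lit 430) ln11_12_0 ln11_12_0_ok)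 (L (nat_lit 432) ln12_12_0 ln12_12_0_ok))))) (M (nat_lit 366) (B (L (nat_lit 367) ln11_12_2 ln11_12_2_ok) (M (nat_lit 461) (B (L (nat_lit 493) ln13_15_6 ln13_15_6_ok) (M (nat_lit 334) (B (L (nat_lit 302) ln14_9_5 ln14_9_5_ok) (L (nat_lit 430) ln14_10_5 ln14_10_5_ok))))))))))) (B (M (nat_lit 394) (B (L (nat_lit 430) ln10_12_0 ln10_12_0_ok) (M (nat_lit 393) (B (M (nat_lit 361) (B (L (nat_lit 360) ln12_12_3 ln12_12_3_ok) (L (nat_lit 362) ln13_12_3 ln13_12_3_ok))) (M (nat_lit 425) (B (L (nat_lit 424) ln12_12_1 ln12_12_1_ok) (L (nat_lit 426) ln13_12_1 ln13_12_1_ok))))))) (M (nat_lit 362) (B (M (nat_lit 361) (B (L (nat_lit 394) ln13_12_3 ln13_12_3_ok) (M (nat_lit 363) (B (L (nat_lit 364) ln9_11_0 ln9_11_0_ok) (L (nat_lit 398) ln14_12_3 ln14_12_3_ok))))) (B (M (nat_lit 427) (B (M (nat_lit 398) (B (L (nat_lit 363) ln14_12_3 ln14_12_3_ok) (L (nat_lit 426) ln14_12_1 ln14_12_1_ok))) (B (M (nat_lit 426) (B (L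 (nat_lit 398) ln14_12_1 ln14_12_1_ok) (M (nat_lit 425) (B (L (nat_lit 394) ln13_12_1 ln13_12_1_ok) (L (nat_lit 424) ln8_13_2 ln8_13_2_ok))))) (B (M (nat_lit 459) (B (M (nat_lit 491) (B (L (nat_lit 394) ln11_15_7 ln11_15_7_ok) (L (nat_lit 364) ln11_15_6 ln11_15_6_ok))) (B (M (nat_lit 394) (B (L (nat_lit 491) ln11_15_7 ln11_15_7_ok) (M (nat_lit 330) (B (L (nat_lit 363) ln11_14_7 ln11_14_7_ok) (L (nat_lit 426) ln10_10_4 ln10_10_4_ok))))) (B (M (nat_lit 364) (B (L (nat_lit 491) ln11_15_6 ln11_15_6_ok) (M (nat_lit 363) (B (L (nat_lit 330) ln11_14_7 ln11_14_7_ok) (L (nat_lit 332) ln11_14_6 ln11_14_6_ok))))) (M (nat_lit 330) (B (L (nat_lit 363) ln11_14_7 ln11_14_7_ok) (M (nat_lit 394) (B (L (nat_lit 298) ln10_9_4 ln10_9_4_ok) (L (nat_lit 426) ln10_10_4 ln10_10_4_ok))))))))) (M (nat_lit 459) (B (M (nat_lit 363) (B (L (nat_lit 330) ln11_14_7 ln11_14_7_ok) (L (nat_lit 398) ln14_12_3 ln14_12_3_ok))) (M (nat_lit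 491) (B (L (nat_lit 394) ln11_15_7 ln11_15_7_ok) (L (nat_lit 364) ln11_15_6 ln11_15_6_ok))))))))) (B (M (nat_lit 394) (B (L (nat_lit 361) ln13_12_3 ln13_12_3_ok) (M (nat_lit 426) (B (L (nat_lit 425) ln13_12_1 ln13_12_1_ok) (M (nat_lit 427) (B (L (nat_lit 398) ln14_12_1 ln14_12_1_ok) (M (nat_lit 330) (B (L (nat_lit 298) ln10_9_4 ln10_9_4_ok) (L (nat_lit 459) ln10_10_4 ln10_10_4_ok))))))))) (B (M (nat_lit 363) (B (L (nat_lit 398) ln14_12_3 ln14_12_3_ok) (M (nat_lit 361) (B (L (nat_lit 360) ln8_11_0 ln8_11_0_ok) (L (nat_lit 364) ln9_11_0 ln9_11_0_ok))))) (M (nat_lit 361) (B (L (nat_lit 394) ln13_12_3 ln13_12_3_ok) (M (nat_lit 363) (B (L (nat_lit 360) ln8_11_0 ln8_11_0_ok) (L (nat_lit 364) ln9_11_0 ln9_11_0_ok))))))))))))))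
noncomputable def c11_n3073 : Cert := (M (nat_lit 459) (B (M (nat_lit 396) (B (M (nat_lit 364) (B (L (nat_lit 491) ln11_15_6 ln11_15_6_ok) (M (nat_lit 332) (B (L (nat_lit 300) ln12_9_5 ln12_9_5_ok) (L (nat_lit 428) ln12_10_5 ln12_10_5_ok))))) (B (M (nat_lit 364) (B (L (nat_lit 491) ln11_15_6 ln11_15_6_ok) (M (nat_lit 332) (B (L (nat_lit 363) ln11_14_6 ln11_14_6_ok) (L (nat_lit 428) ln12_10_5 ln12_10_5_ok))))) (B (M (nat_lit 430) (B (L (nat_lit 394) ln10_12_0 ln10_12_0_ok) (M (nat_lit 428) (B (L (nat_lit 431) ln15_13_3 ln15_13_3_ok) (L (nat_lit 458) ln14_13_1 ln14_13_1_ok))))) (M (nat_lit 364) (B (L (nat_lit 491) ln11_15_6 ln11_15_6_ok) (M (nat_lit 332) (B (L (nat_lit 300) ln12_9_5 ln12_9_5_ok) (L (nat_lit 363) ln11_14_6 ln11_14_6_ok))))))))) (B (M (nat_lit 458) (B (M (nat_lit 428) (B (L (nat_lit 430) ln14_13_1 ln14_13_1_ok) (M (nat_lit 457) (B (L (nat_lit 426) ln13_13_1 ln13_13_1_ok) (L (nat_lit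 456) ln8_14_2 ln8_14_2_ok))))) (B (M (nat_lit 428) (B (L (nat_lit 430) ln14_13_1 ln14_13_1_ok) (M (nat_lit 457) (B (L (nat_lit 456) ln8_14_2 ln8_14_2_ok) (L (nat_lit 460) ln9_14_2 ln9_14_2_ok))))) (M (nat_lit 490) (B (L (nat_lit 363) ln11_11_5 ln11_11_5_ok) (M (nat_lit 522) (B (L (nat_lit 426) ln10_16_6 ln10_16_6_ok) (L (nat_lit 491) ln11_12_5 ln11_12_5_ok)))))))) (B (M (nat_lit 396) (B (M (nat_lit 491) (B (L (nat_lit 364) ln11_15_6 ln11_15_6_ok) (M (nat_lit 394) (B (L (nat_lit 362) ln11_15_7 ln11_15_7_ok) (L (nat_lit 430) ln10_12_0 ln10_12_0_ok))))) (B (M (nat_lit 364) (B (L (nat_lit 491) ln11_15_6 ln11_15_6_ok) (M (nat_lit 332) (B (L (nat_lit 300) ln12_9_5 ln12_9_5_ok) (L (nat_lit 428) ln12_10_5 ln12_10_5_ok))))) (M (nat_lit 430) (B (L (nat_lit 394) ln10_12_0 ln10_12_0_ok) (M (nat_lit 428) (B (L (nat_lit 431) ln15_13_3 ln15_13_3_ok) (L (nat_lit 458) ln14_13_1 ln14_13_1_ok)))))))) (B (M (nat_lit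 491) (B (M (nat_lit 396) (B (L (nat_lit 364) ln11_15_6 ln11_15_6_ok) (M (nat_lit 394) (B (L (nat_lit 362) ln11_15_7 ln11_15_7_ok) (L (nat_lit 430) ln10_12_0 ln10_12_0_ok))))) (B (M (nat_lit 363) (B (M (nat_lit 364) (B (L (nat_lit 332) ln11_14_6 ln11_14_6_ok) (L (nat_lit 396) ln11_15_6 ln11_15_6_ok))) (M (nat_lit 490) (B (L (nat_lit 458) ln11_11_5 ln11_11_5_ok) (L (nat_lit 522) ln11_12_5 ln11_12_5_ok))))) (M (nat_lit 363) (B (M (nat_lit 362) (B (L (nat_lit 330) ln11_14_7 ln11_14_7_ok) (L (nat_lit 394) ln11_15_7 ln11_15_7_ok))) (M (nat_lit 490) (B (L (nat_lit 458) ln11_11_5 ln11_11_5_ok) (L (nat_lit 522) ln11_12_5 ln11_12_5_ok)))))))) (B (M (nat_lit 363) (B (M (nat_lit 491) (B (M (nat_lit 364) (B (L (nat_lit 332) ln11_14_6 ln11_14_6_ok) (L (nat_lit 396) ln11_15_6 ln11_15_6_ok))) (M (nat_lit 492) (B (L (nat_lit 460) ln11_11_4 ln11_11_4_ok) (L (nat_lit 524) ln11_12_4 ln11_12_4_ok))))) (B (M (nat_lit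 491) (B (M (nat_lit 362) (B (L (nat_lit 330) ln11_14_7 ln11_14_7_ok) (L (nat_lit 394) ln11_15_7 ln11_15_7_ok))) (M (nat_lit 492) (B (L (nat_lit 460) ln11_11_4 ln11_11_4_ok) (L (nat_lit 524) ln11_12_4 ln11_12_4_ok))))) (B (M (nat_lit 491) (B (M (nat_lit 362) (B (L (nat_lit 330) ln11_14_7 ln11_14_7_ok) (L (nat_lit 394) ln11_15_7 ln11_15_7_ok))) (M (nat_lit 364) (B (L (nat_lit 332) ln11_14_6 ln11_14_6_ok) (L (nat_lit 396) ln11_15_6 ln11_15_6_ok))))) (M (nat_lit 331) (B (M (nat_lit 330) (B (L (nat_lit 298) ln11_13_7 ln11_13_7_ok) (L (nat_lit 362) ln11_14_7 ln11_14_7_ok))) (M (nat_lit 332) (B (L (nat_lit 300) ln11_13_6 ln11_13_6_ok) (L (nat_lit 364) ln11_14_6 ln11_14_6_ok))))))))) (M (nat_lit 458) (B (M (nat_lit 490) (B (L (nat_lit 363) ln11_11_5 ln11_11_5_ok) (M (nat_lit 522) (B (L (nat_lit 426) ln10_16_6 ln10_16_6_ok) (L (nat_lit 554) ln10_17_6 ln10_17_6_ok))))) (B (M (nat_lit 428) (B (L (nat_lit 430)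 ln14_13_1 ln14_13_1_ok) (M (nat_lit 457) (B (L (nat_lit 426) ln13_13_1 ln13_13_1_ok) (L (nat_lit 456) ln8_14_2 ln8_14_2_ok))))) (M (nat_lit 428) (B (L (nat_lit 430) ln14_13_1 ln14_13_1_ok) (M (nat_lit 457) (B (L (nat_lit 456) ln8_14_2 ln8_14_2_ok) (L (nat_lit 460) ln9_14_2 ln9_14_2_ok))))))))))))))
noncomputable def c11_n3187 : Cert := (M (nat_lit 458) (B (M (nat_lit 428) (B (L (nat_lit 430) ln14_13_1 ln14_13_1_ok) (M (nat_lit 457) (B (L (nat_lit 426) ln13_13_1 ln13_13_1_ok) (L (nat_lit 456) ln8_14_2 ln8_14_2_ok))))) (B (M (nat_lit 428) (B (L (nat_lit 430) ln14_13_1 ln14_13_1_ok) (M (nat_lit 457) (B (L (nat_lit 456) ln8_14_2 ln8_14_2_ok) (L (nat_lit 460) ln9_14_2 ln9_14_2_ok))))) (B (M (nat_lit 490) (B (M (nat_lit 522) (B (L (nat_lit 426) ln10_16_6 ln10_16_6_ok) (L (nat_lit 491) ln11_12_5 ln11_12_5_ok))) (B (M (nat_lit 522) (B (L (nat_lit 491) ln11_12_5 ln11_12_5_ok) (L (nat_lit 554) ln10_17_6 ln10_17_6_ok)))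 (B (M (nat_lit 522) (B (L (nat_lit 426) ln10_16_6 ln10_16_6_ok) (L (nat_lit 554) ln10_17_6 ln10_17_6_ok))) (M (nat_lit 460) (B (M (nat_lit 461) (B (L (nat_lit 430) ln10_14_2 ln10_14_2_ok) (L (nat_lit 489) ln13_14_1 ln13_14_1_ok))) (B (M (nat_lit 489) (B (L (nat_lit 461) ln13_14_1 ln13_14_1_ok) (M (nat_lit 488) (B (L (nat_lit 457) ln12_14_1 ln12_14_1_ok) (L (nat_lit 487) ln7_15_2 ln7_15_2_ok))))) (B (M (nat_lit 457) (B (M (nat_lit 492) (B (L (nat_lit 493) ln9_14_0 ln9_14_0_ok) (M (nat_lit 491) (B (L (nat_lit 524) ln11_12_4 ln11_12_4_ok) (L (nat_lit 456) ln8_14_0 ln8_14_0_ok))))) (B (M (nat_lit 492) (B (L (nat_lit 493) ln9_14_0 ln9_14_0_ok) (M (nat_lit 524) (B (L (nat_lit 491) ln11_12_4 ln11_12_4_ok) (L (nat_lit 556) ln12_17_7 ln12_17_7_ok))))) (M (nat_lit 456) (B (M (nat_lit 424) (B (L (nat_lit 423) ln11_14_3 ln11_14_3_ok) (L (nat_lit 425) ln12_14_3 ln12_14_3_ok))) (M (nat_lit 488) (B (L (nat_lit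 487) ln11_14_1 ln11_14_1_ok) (L (nat_lit 489) ln12_14_1 ln12_14_1_ok)))))))) (M (nat_lit 457) (B (M (nat_lit 425) (B (L (nat_lit 424) ln12_14_3 ln12_14_3_ok) (M (nat_lit 461) (B (L (nat_lit 426) ln13_14_3 ln13_14_3_ok) (L (nat_lit 430) ln10_14_2 ln10_14_2_ok))))) (M (nat_lit 492) (B (L (nat_lit 493) ln9_14_0 ln9_14_0_ok) (M (nat_lit 491) (B (L (nat_lit 524) ln11_12_4 ln11_12_4_ok) (L (nat_lit 456) ln8_14_0 ln8_14_0_ok))))))))))))))) (B (M (nat_lit 491) (B (M (nat_lit 490) (B (L (nat_lit 522) ln11_12_5 ln11_12_5_ok) (M (nat_lit 492) (B (L (nat_lit 524) ln11_12_4 ln11_12_4_ok) (M (nat_lit 457) (B (L (nat_lit 456) ln8_14_0 ln8_14_0_ok) (L (nat_lit 493) ln13_15_3 ln13_15_3_ok))))))) (B (M (nat_lit 428) (B (M (nat_lit 396) (B (L (nat_lit 364) ln11_15_6 ln11_15_6_ok) (L (nat_lit 523) ln11_16_6 ln11_16_6_ok))) (M (nat_lit 457) (B (L (nat_lit 426) ln13_13_1 ln13_13_1_ok) (L (nat_lit 460) ln9_14_2 ln9_14_2_ok)))))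 (M (nat_lit 524) (B (L (nat_lit 492) ln11_12_4 ln11_12_4_ok) (M (nat_lit 396) (B (L (nat_lit 364) ln11_15_6 ln11_15_6_ok) (M (nat_lit 523) (B (L (nat_lit 428) ln11_16_6 ln11_16_6_ok) (L (nat_lit 556) ln11_13_4 ln11_13_4_ok)))))))))) (B (M (nat_lit 428) (B (L (nat_lit 430) ln14_13_1 ln14_13_1_ok) (M (nat_lit 457) (B (L (nat_lit 426) ln13_13_1 ln13_13_1_ok) (L (nat_lit 460) ln9_14_2 ln9_14_2_ok))))) (M (nat_lit 461) (B (M (nat_lit 430) (B (L (nat_lit 428) ln14_13_1 ln14_13_1_ok) (L (nat_lit 460) ln10_14_2 ln10_14_2_ok))) (B (M (nat_lit 490) (B (M (nat_lit 522) (B (L (nat_lit 426) ln10_16_6 ln10_16_6_ok) (L (nat_lit 491) ln11_12_5 ln11_12_5_ok))) (M (nat_lit 460) (B (L (nat_lit 430) ln10_14_2 ln10_14_2_ok) (L (nat_lit 489) ln13_14_1 ln13_14_1_ok))))) (B (M (nat_lit 493) (B (M (nat_lit 494) (B (L (nat_lit 526) ln13_12_4 ln13_12_4_ok) (L (nat_lit 460) ln10_14_0 ln10_14_0_ok))) (B (M (nat_lit 492) (B (L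 (nat_lit 524) ln13_12_5 ln13_12_5_ok) (M (nat_lit 494) (B (L (nat_lit 526) ln13_12_4 ln13_12_4_ok) (L (nat_lit 491) ln14_15_3 ln14_15_3_ok))))) (M (nat_lit 524) (B (L (nat_lit 492) ln13_12_5 ln13_12_5_ok) (M (nat_lit 525) (B (L (nat_lit 556) ln13_13_5 ln13_13_5_ok) (M (nat_lit 396) (B (L (nat_lit 364) ln13_15_7 ln13_15_7_ok) (L (nat_lit 428) ln13_16_7 ln13_16_7_ok)))))))))) (M (nat_lit 493) (B (M (nat_lit 396) (B (L (nat_lit 364) ln13_15_7 ln13_15_7_ok) (M (nat_lit 428) (B (L (nat_lit 525) ln13_16_7 ln13_16_7_ok) (L (nat_lit 430) ln14_13_1 ln14_13_1_ok))))) (M (nat_lit 492) (B (L (nat_lit 524) ln13_12_5 ln13_12_5_ok) (M (nat_lit 494) (B (L (nat_lit 526) ln13_12_4 ln13_12_4_ok) (L (nat_lit 491) ln14_15_3 ln14_15_3_ok)))))))))))))))))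
theorem c11_s3190 : Sem (nat_lit 1732918559228985830687588332223164685273243777473901889611115911763928841837992205340115440475969322760891043012737103013850644480) (nat_lit 294840814864800373173863126662622798027456490674560031852304087217355903670097380169562441019447683753817957763414649121260702189952357847157684651899865000837858197504) (nat_lit 294840814864800373173863126662622798027456490674560031852304087217355903670097380169562441019447683753817957763414649121260702189952357847157684651899865000837858197504) :=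
  sem_of_chk (M (nat_lit 459) (B (M (nat_lit 458) (B (M (nat_lit 428) (B (L (nat_lit 430) ln14_13_1 ln14_13_1_ok) (M (nat_lit 457) (B (L (nat_lit 426) ln13_13_1 ln13_13_1_ok) (L (nat_lit 456) ln8_14_2 ln8_14_2_ok))))) (B (M (nat_lit 428) (B (L (nat_lit 430) ln14_13_1 ln14_13_1_ok) (M (nat_lit 457) (B (L (nat_lit 456) ln8_14_2 ln8_14_2_ok) (L (nat_lit 460) ln9_14_2 ln9_14_2_ok))))) (M (nat_lit 490) (B (L (nat_lit 363) ln11_11_5 ln11_11_5_ok) (M (nat_lit 522) (B (L (nat_lit 426) ln10_16_6 ln10_16_6_ok) (L (nat_lit 491) ln11_12_5 ln11_12_5_ok)))))))) (B c11_n3187 (B (M (nat_lit 363) (B (M (nat_lit 331) (B (M (nat_lit 330) (B (L (nat_lit 298) ln11_13_7 ln11_13_7_ok) (L (nat_lit 362) ln11_14_7 ln11_14_7_ok))) (M (nat_lit 332) (B (L (nat_lit 300) ln11_13_6 ln11_13_6_ok) (L (nat_lit 364) ln11_14_6 ln11_14_6_ok))))) (B (M (nat_lit 331) (B (M (nat_lit 332) (B (L (nat_lit 300) ln11_13_6 ln11_13_6_ok) (L (nat_lit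 364) ln11_14_6 ln11_14_6_ok))) (M (nat_lit 460) (B (L (nat_lit 428) ln11_10_4 ln11_10_4_ok) (L (nat_lit 492) ln11_11_4 ln11_11_4_ok))))) (B (M (nat_lit 331) (B (M (nat_lit 330) (B (L (nat_lit 298) ln11_13_7 ln11_13_7_ok) (L (nat_lit 362) ln11_14_7 ln11_14_7_ok))) (M (nat_lit 460) (B (L (nat_lit 428) ln11_10_4 ln11_10_4_ok) (L (nat_lit 492) ln11_11_4 ln11_11_4_ok))))) (M (nat_lit 491) (B (M (nat_lit 364) (B (L (nat_lit 332) ln11_14_6 ln11_14_6_ok) (L (nat_lit 396) ln11_15_6 ln11_15_6_ok))) (M (nat_lit 492) (B (L (nat_lit 460) ln11_11_4 ln11_11_4_ok) (L (nat_lit 524) ln11_12_4 ln11_12_4_ok))))))))) (B (M (nat_lit 363) (B (M (nat_lit 491) (B (M (nat_lit 490) (B (L (nat_lit 458) ln11_11_5 ln11_11_5_ok) (L (nat_lit 522) ln11_12_5 ln11_12_5_ok))) (M (nat_lit 492) (B (L (nat_lit 460) ln11_11_4 ln11_11_4_ok) (L (nat_lit 524) ln11_12_4 ln11_12_4_ok))))) (B (M (nat_lit 491) (B (M (nat_lit 364) (B (L (nat_lit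 332) ln11_14_6 ln11_14_6_ok) (L (nat_lit 396) ln11_15_6 ln11_15_6_ok))) (M (nat_lit 492) (B (L (nat_lit 460) ln11_11_4 ln11_11_4_ok) (L (nat_lit 524) ln11_12_4 ln11_12_4_ok))))) (B (M (nat_lit 491) (B (M (nat_lit 364) (B (L (nat_lit 332) ln11_14_6 ln11_14_6_ok) (L (nat_lit 396) ln11_15_6 ln11_15_6_ok))) (M (nat_lit 490) (B (L (nat_lit 458) ln11_11_5 ln11_11_5_ok) (L (nat_lit 522) ln11_12_5 ln11_12_5_ok))))) (M (nat_lit 331) (B (M (nat_lit 330) (B (L (nat_lit 298) ln11_13_7 ln11_13_7_ok) (L (nat_lit 362) ln11_14_7 ln11_14_7_ok))) (M (nat_lit 332) (B (L (nat_lit 300) ln11_13_6 ln11_13_6_ok) (L (nat_lit 364) ln11_14_6 ln11_14_6_ok))))))))) (B (M (nat_lit 458) (B (M (nat_lit 428) (B (L (nat_lit 430) ln14_13_1 ln14_13_1_ok) (M (nat_lit 457) (B (L (nat_lit 426) ln13_13_1 ln13_13_1_ok) (L (nat_lit 456) ln8_14_2 ln8_14_2_ok))))) (M (nat_lit 490) (B (L (nat_lit 363) ln11_11_5 ln11_11_5_ok) (M (nat_lit 522)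 (B (L (nat_lit 491) ln11_12_5 ln11_12_5_ok) (L (nat_lit 554) ln10_17_6 ln10_17_6_ok))))))) (M (nat_lit 458) (B (M (nat_lit 490) (B (L (nat_lit 363) ln11_11_5 ln11_11_5_ok) (M (nat_lit 522) (B (L (nat_lit 426) ln10_16_6 ln10_16_6_ok) (L (nat_lit 554) ln10_17_6 ln10_17_6_ok))))) (B (M (nat_lit 428) (B (L (nat_lit 430) ln14_13_1 ln14_13_1_ok) (M (nat_lit 457) (B (L (nat_lit 426) ln13_13_1 ln13_13_1_ok) (L (nat_lit 456) ln8_14_2 ln8_14_2_ok))))) (M (nat_lit 428) (B (L (nat_lit 430) ln14_13_1 ln14_13_1_ok) (M (nat_lit 457) (B (L (nat_lit 456) ln8_14_2 ln8_14_2_ok) (L (nat_lit 460) ln9_14_2 ln9_14_2_ok)))))))))))))) (nat_lit 1732918559228985830687588332223164685273243777473901889611115911763928841837992205340115440475969322760891043012737103013850644480) (nat_lit 294840814864800373173863126662622798027456490674560031852304087217355903670097380169562441019447683753817957763414649121260702189952357847157684651899865000837858197504)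 (nat_lit 294840814864800373173863126662622798027456490674560031852304087217355903670097380169562441019447683753817957763414649121260702189952357847157684651899865000837858197504) (by decide +kernel)
noncomputable def c11_n3234 : Cert := (M (nat_lit 396) (B (M (nat_lit 430) (B (L (nat_lit 394) ln10_12_0 ln10_12_0_ok) (M (nat_lit 431) (B (L (nat_lit 428) ln15_13_3 ln15_13_3_ok) (L (nat_lit 432) ln16_13_3 ln16_13_3_ok))))) (B (M (nat_lit 459) (B (M (nat_lit 364) (B (L (nat_lit 491) ln11_15_6 ln11_15_6_ok) (M (nat_lit 332) (B (L (nat_lit 300) ln12_9_5 ln12_9_5_ok) (L (nat_lit 428) ln12_10_5 ln12_10_5_ok))))) (B (M (nat_lit 364) (B (L (nat_lit 491) ln11_15_6 ln11_15_6_ok) (M (nat_lit 332) (B (L (nat_lit 363) ln11_14_6 ln11_14_6_ok) (L (nat_lit 428) ln12_10_5 ln12_10_5_ok))))) (B (M (nat_lit 428) (B (M (nat_lit 491) (B (L (nat_lit 364) ln11_15_6 ln11_15_6_ok) (L (nat_lit 523) ln11_16_6 ln11_16_6_ok)))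 (M (nat_lit 430) (B (L (nat_lit 431) ln15_13_3 ln15_13_3_ok) (L (nat_lit 458) ln14_13_1 ln14_13_1_ok))))) (B (M (nat_lit 491) (B (M (nat_lit 523) (B (L (nat_lit 428) ln11_16_6 ln11_16_6_ok) (M (nat_lit 522) (B (L (nat_lit 490) ln11_12_5 ln11_12_5_ok) (L (nat_lit 554) ln11_13_5 ln11_13_5_ok))))) (B (M (nat_lit 363) (B (M (nat_lit 490) (B (L (nat_lit 458) ln11_11_5 ln11_11_5_ok) (L (nat_lit 522) ln11_12_5 ln11_12_5_ok))) (M (nat_lit 492) (B (L (nat_lit 460) ln11_11_4 ln11_11_4_ok) (L (nat_lit 524) ln11_12_4 ln11_12_4_ok))))) (M (nat_lit 428) (B (L (nat_lit 523) ln11_16_6 ln11_16_6_ok) (M (nat_lit 430) (B (L (nat_lit 431) ln15_13_3 ln15_13_3_ok) (L (nat_lit 458) ln14_13_1 ln14_13_1_ok)))))))) (B (M (nat_lit 364) (B (L (nat_lit 491) ln11_15_6 ln11_15_6_ok) (M (nat_lit 332) (B (L (nat_lit 300) ln12_9_5 ln12_9_5_ok) (L (nat_lit 363) ln11_14_6 ln11_14_6_ok))))) (M (nat_lit 363) (B (M (nat_lit 364) (B (L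 (nat_lit 332) ln11_14_6 ln11_14_6_ok) (M (nat_lit 362) (B (L (nat_lit 330) ln11_14_7 ln11_14_7_ok) (L (nat_lit 361) ln9_11_0 ln9_11_0_ok))))) (M (nat_lit 428) (B (M (nat_lit 331) (B (L (nat_lit 299) ln11_9_4 ln11_9_4_ok) (L (nat_lit 460) ln11_10_4 ln11_10_4_ok))) (M (nat_lit 458) (B (L (nat_lit 490) ln11_11_5 ln11_11_5_ok) (L (nat_lit 430) ln14_13_1 ln14_13_1_ok))))))))))))) (B (M (nat_lit 394) (B (L (nat_lit 430) ln10_12_0 ln10_12_0_ok) (M (nat_lit 362) (B (L (nat_lit 361) ln13_12_3 ln13_12_3_ok) (M (nat_lit 459) (B (L (nat_lit 491) ln11_15_7 ln11_15_7_ok) (M (nat_lit 330) (B (L (nat_lit 298) ln10_9_4 ln10_9_4_ok) (L (nat_lit 363) ln11_14_7 ln11_14_7_ok))))))))) (M (nat_lit 459) (B (M (nat_lit 364) (B (L (nat_lit 491) ln11_15_6 ln11_15_6_ok) (M (nat_lit 332) (B (L (nat_lit 300) ln12_9_5 ln12_9_5_ok) (L (nat_lit 428) ln12_10_5 ln12_10_5_ok))))) (B (M (nat_lit 364) (B (L (nat_lit 491) ln11_15_6 ln11_15_6_ok)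 (M (nat_lit 332) (B (L (nat_lit 363) ln11_14_6 ln11_14_6_ok) (L (nat_lit 428) ln12_10_5 ln12_10_5_ok))))) (B (M (nat_lit 363) (B (M (nat_lit 491) (B (L (nat_lit 364) ln11_15_6 ln11_15_6_ok) (M (nat_lit 362) (B (L (nat_lit 330) ln11_14_7 ln11_14_7_ok) (L (nat_lit 394) ln11_15_7 ln11_15_7_ok))))) (B (M (nat_lit 491) (B (L (nat_lit 364) ln11_15_6 ln11_15_6_ok) (M (nat_lit 490) (B (L (nat_lit 458) ln11_11_5 ln11_11_5_ok) (L (nat_lit 522) ln11_12_5 ln11_12_5_ok))))) (M (nat_lit 362) (B (L (nat_lit 330) ln11_14_7 ln11_14_7_ok) (M (nat_lit 361) (B (L (nat_lit 360) ln8_11_0 ln8_11_0_ok) (L (nat_lit 394) ln13_12_3 ln13_12_3_ok)))))))) (B (M (nat_lit 363) (B (M (nat_lit 362) (B (L (nat_lit 330) ln11_14_7 ln11_14_7_ok) (M (nat_lit 361) (B (L (nat_lit 360) ln8_11_0 ln8_11_0_ok) (L (nat_lit 394) ln13_12_3 ln13_12_3_ok))))) (M (nat_lit 491) (B (M (nat_lit 490) (B (L (nat_lit 458) ln11_11_5 ln11_11_5_ok) (L (nat_lit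 522) ln11_12_5 ln11_12_5_ok))) (M (nat_lit 492) (B (L (nat_lit 460) ln11_11_4 ln11_11_4_ok) (L (nat_lit 524) ln11_12_4 ln11_12_4_ok))))))) (M (nat_lit 363) (B (M (nat_lit 364) (B (L (nat_lit 332) ln11_14_6 ln11_14_6_ok) (M (nat_lit 362) (B (L (nat_lit 330) ln11_14_7 ln11_14_7_ok) (L (nat_lit 361) ln9_11_0 ln9_11_0_ok))))) (B (M (nat_lit 331) (B (M (nat_lit 332) (B (L (nat_lit 300) ln11_13_6 ln11_13_6_ok) (L (nat_lit 364) ln11_14_6 ln11_14_6_ok))) (M (nat_lit 460) (B (L (nat_lit 428) ln11_10_4 ln11_10_4_ok) (L (nat_lit 492) ln11_11_4 ln11_11_4_ok))))) (B (M (nat_lit 362) (B (L (nat_lit 330) ln11_14_7 ln11_14_7_ok) (M (nat_lit 361) (B (L (nat_lit 360) ln8_11_0 ln8_11_0_ok) (L (nat_lit 364) ln9_11_0 ln9_11_0_ok))))) (M (nat_lit 362) (B (L (nat_lit 330) ln11_14_7 ln11_14_7_ok) (M (nat_lit 361) (B (L (nat_lit 360) ln8_11_0 ln8_11_0_ok) (L (nat_lit 394) ln13_12_3 ln13_12_3_ok))))))))))))))))))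
theorem c11_s3248 : Sem (nat_lit 1732918559228985830687588332223164685273243777473901889611115911763928841837992205340115440475969322760891043012737103013850644480) (nat_lit 294840814535290085408076681269284393412693747719006636497763503696806515330354427101524497664724848320908799044492686893126956565176944314458666853762063507871265456128) (nat_lit 294840814535290085408076681269284393412693747719006636497763503696806515330354427101524497664724848320908799044492686893126956565176944314458666853762063507871265456128) :=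
  sem_of_chk (M (nat_lit 459) (B (M (nat_lit 491) (B (M (nat_lit 396) (B (L (nat_lit 364) ln11_15_6 ln11_15_6_ok) (M (nat_lit 394) (B (L (nat_lit 362) ln11_15_7 ln11_15_7_ok) (L (nat_lit 430) ln10_12_0 ln10_12_0_ok))))) (B (M (nat_lit 363) (B (M (nat_lit 364) (B (L (nat_lit 332) ln11_14_6 ln11_14_6_ok) (L (nat_lit 396) ln11_15_6 ln11_15_6_ok))) (M (nat_lit 490) (B (L (nat_lit 458) ln11_11_5 ln11_11_5_ok) (L (nat_lit 522) ln11_12_5 ln11_12_5_ok))))) (M (nat_lit 363) (B (M (nat_lit 362) (B (L (nat_lit 330) ln11_14_7 ln11_14_7_ok) (L (nat_lit 394) ln11_15_7 ln11_15_7_ok))) (M (nat_lit 490) (B (L (nat_lit 458) ln11_11_5 ln11_11_5_ok) (L (nat_lit 522) ln11_12_5 ln11_12_5_ok)))))))) (B (M (nat_lit 491) (B (M (nat_lit 396) (B (L (nat_lit 364) ln11_15_6 ln11_15_6_ok) (M (nat_lit 394) (B (L (nat_lit 362) ln11_15_7 ln11_15_7_ok) (L (nat_lit 430) ln10_12_0 ln10_12_0_ok))))) (M (nat_lit 363) (B (M (nat_lit 490)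 (B (L (nat_lit 458) ln11_11_5 ln11_11_5_ok) (L (nat_lit 522) ln11_12_5 ln11_12_5_ok))) (M (nat_lit 492) (B (L (nat_lit 460) ln11_11_4 ln11_11_4_ok) (L (nat_lit 524) ln11_12_4 ln11_12_4_ok))))))) (B (M (nat_lit 491) (B (M (nat_lit 363) (B (M (nat_lit 364) (B (L (nat_lit 332) ln11_14_6 ln11_14_6_ok) (L (nat_lit 396) ln11_15_6 ln11_15_6_ok))) (M (nat_lit 492) (B (L (nat_lit 460) ln11_11_4 ln11_11_4_ok) (L (nat_lit 524) ln11_12_4 ln11_12_4_ok))))) (B (M (nat_lit 363) (B (M (nat_lit 490) (B (L (nat_lit 458) ln11_11_5 ln11_11_5_ok) (L (nat_lit 522) ln11_12_5 ln11_12_5_ok))) (M (nat_lit 492) (B (L (nat_lit 460) ln11_11_4 ln11_11_4_ok) (L (nat_lit 524) ln11_12_4 ln11_12_4_ok))))) (B (M (nat_lit 523) (B (M (nat_lit 522) (B (L (nat_lit 490) ln11_12_5 ln11_12_5_ok) (L (nat_lit 554) ln11_13_5 ln11_13_5_ok))) (M (nat_lit 524) (B (L (nat_lit 492) ln11_12_4 ln11_12_4_ok) (L (nat_lit 556) ln11_13_4 ln11_13_4_ok)))))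 (M (nat_lit 363) (B (M (nat_lit 364) (B (L (nat_lit 332) ln11_14_6 ln11_14_6_ok) (L (nat_lit 396) ln11_15_6 ln11_15_6_ok))) (M (nat_lit 490) (B (L (nat_lit 458) ln11_11_5 ln11_11_5_ok) (L (nat_lit 522) ln11_12_5 ln11_12_5_ok))))))))) (B (M (nat_lit 491) (B (M (nat_lit 396) (B (L (nat_lit 364) ln11_15_6 ln11_15_6_ok) (M (nat_lit 394) (B (L (nat_lit 362) ln11_15_7 ln11_15_7_ok) (L (nat_lit 430) ln10_12_0 ln10_12_0_ok))))) (M (nat_lit 523) (B (M (nat_lit 522) (B (L (nat_lit 490) ln11_12_5 ln11_12_5_ok) (L (nat_lit 554) ln11_13_5 ln11_13_5_ok))) (M (nat_lit 524) (B (L (nat_lit 492) ln11_12_4 ln11_12_4_ok) (L (nat_lit 556) ln11_13_4 ln11_13_4_ok))))))) (B (M (nat_lit 491) (B (M (nat_lit 523) (B (M (nat_lit 522) (B (L (nat_lit 490) ln11_12_5 ln11_12_5_ok) (L (nat_lit 554) ln11_13_5 ln11_13_5_ok))) (M (nat_lit 524) (B (L (nat_lit 492) ln11_12_4 ln11_12_4_ok) (L (nat_lit 556) ln11_13_4 ln11_13_4_ok)))))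 (B (M (nat_lit 523) (B (M (nat_lit 394) (B (L (nat_lit 362) ln11_15_7 ln11_15_7_ok) (L (nat_lit 426) ln11_16_7 ln11_16_7_ok))) (M (nat_lit 524) (B (L (nat_lit 492) ln11_12_4 ln11_12_4_ok) (L (nat_lit 556) ln11_13_4 ln11_13_4_ok))))) (B (M (nat_lit 523) (B (M (nat_lit 394) (B (L (nat_lit 362) ln11_15_7 ln11_15_7_ok) (L (nat_lit 426) ln11_16_7 ln11_16_7_ok))) (M (nat_lit 522) (B (L (nat_lit 490) ln11_12_5 ln11_12_5_ok) (L (nat_lit 554) ln11_13_5 ln11_13_5_ok))))) (M (nat_lit 363) (B (M (nat_lit 362) (B (L (nat_lit 330) ln11_14_7 ln11_14_7_ok) (L (nat_lit 394) ln11_15_7 ln11_15_7_ok))) (M (nat_lit 490) (B (L (nat_lit 458) ln11_11_5 ln11_11_5_ok) (L (nat_lit 522) ln11_12_5 ln11_12_5_ok))))))))) (B (M (nat_lit 491) (B (M (nat_lit 396) (B (L (nat_lit 364) ln11_15_6 ln11_15_6_ok) (M (nat_lit 394) (B (L (nat_lit 362) ln11_15_7 ln11_15_7_ok) (L (nat_lit 430) ln10_12_0 ln10_12_0_ok))))) (B (M (nat_lit 363)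 (B (M (nat_lit 364) (B (L (nat_lit 332) ln11_14_6 ln11_14_6_ok) (L (nat_lit 396) ln11_15_6 ln11_15_6_ok))) (M (nat_lit 492) (B (L (nat_lit 460) ln11_11_4 ln11_11_4_ok) (L (nat_lit 524) ln11_12_4 ln11_12_4_ok))))) (M (nat_lit 523) (B (M (nat_lit 394) (B (L (nat_lit 362) ln11_15_7 ln11_15_7_ok) (L (nat_lit 426) ln11_16_7 ln11_16_7_ok))) (M (nat_lit 524) (B (L (nat_lit 492) ln11_12_4 ln11_12_4_ok) (L (nat_lit 556) ln11_13_4 ln11_13_4_ok)))))))) (M (nat_lit 363) (B (M (nat_lit 331) (B (M (nat_lit 332) (B (L (nat_lit 300) ln11_13_6 ln11_13_6_ok) (L (nat_lit 364) ln11_14_6 ln11_14_6_ok))) (M (nat_lit 458) (B (L (nat_lit 426) ln11_10_5 ln11_10_5_ok) (L (nat_lit 490) ln11_11_5 ln11_11_5_ok))))) (B (M (nat_lit 331) (B (M (nat_lit 330) (B (L (nat_lit 298) ln11_13_7 ln11_13_7_ok) (L (nat_lit 362) ln11_14_7 ln11_14_7_ok))) (M (nat_lit 458) (B (L (nat_lit 426) ln11_10_5 ln11_10_5_ok) (L (nat_lit 490) ln11_11_5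 ln11_11_5_ok))))) (B (M (nat_lit 396) (B (M (nat_lit 362) (B (L (nat_lit 330) ln11_14_7 ln11_14_7_ok) (M (nat_lit 361) (B (L (nat_lit 360) ln8_11_0 ln8_11_0_ok) (L (nat_lit 364) ln9_11_0 ln9_11_0_ok))))) (M (nat_lit 430) (B (L (nat_lit 394) ln10_12_0 ln10_12_0_ok) (M (nat_lit 458) (B (L (nat_lit 490) ln11_11_5 ln11_11_5_ok) (M (nat_lit 460) (B (L (nat_lit 492) ln11_11_4 ln11_11_4_ok) (L (nat_lit 461) ln10_14_2 ln10_14_2_ok))))))))) (M (nat_lit 331) (B (M (nat_lit 330) (B (L (nat_lit 298) ln11_13_7 ln11_13_7_ok) (L (nat_lit 362) ln11_14_7 ln11_14_7_ok))) (M (nat_lit 332) (B (L (nat_lit 300) ln11_13_6 ln11_13_6_ok) (L (nat_lit 364) ln11_14_6 ln11_14_6_ok)))))))))))))))) (nat_lit 1732918559228985830687588332223164685273243777473901889611115911763928841837992205340115440475969322760891043012737103013850644480) (nat_lit 294840814535290085408076681269284393412693747719006636497763503696806515330354427101524497664724848320908799044492686893126956565176944314458666853762063507871265456128)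 (nat_lit 294840814535290085408076681269284393412693747719006636497763503696806515330354427101524497664724848320908799044492686893126956565176944314458666853762063507871265456128) (by decide +kernel)
noncomputable def c11_n3382 : Cert := (M (nat_lit 426) (B (M (nat_lit 425) (B (M (nat_lit 396) (B (L (nat_lit 394) ln13_12_1 ln13_12_1_ok) (L (nat_lit 424) ln8_13_2 ln8_13_2_ok))) (B (M (nat_lit 396) (B (L (nat_lit 424) ln8_13_2 ln8_13_2_ok) (L (nat_lit 428) ln9_13_2 ln9_13_2_ok))) (B (M (nat_lit 424) (B (L (nat_lit 460) ln8_13_0 ln8_13_0_ok) (M (nat_lit 423) (B (L (nat_lit 394) ln7_13_2 ln7_13_2_ok) (L (nat_lit 458) ln7_13_0 ln7_13_0_ok))))) (M (nat_lit 396) (B (L (nat_lit 394) ln13_12_1 ln13_12_1_ok) (L (nat_lit 428) ln9_13_2 ln9_13_2_ok))))))) (B (M (nat_lit 425) (B (M (nat_lit 396) (B (L (nat_lit 424) ln8_13_2 ln8_13_2_ok) (L (nat_lit 428) ln9_13_2 ln9_13_2_ok))) (B (M (nat_lit 460) (B (L (nat_lit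 424) ln8_13_0 ln8_13_0_ok) (M (nat_lit 461) (B (L (nat_lit 428) ln9_13_0 ln9_13_0_ok) (L (nat_lit 458) ln13_14_3 ln13_14_3_ok))))) (B (M (nat_lit 428) (B (L (nat_lit 396) ln9_13_2 ln9_13_2_ok) (M (nat_lit 457) (B (L (nat_lit 456) ln12_13_1 ln12_13_1_ok) (L (nat_lit 458) ln13_13_1 ln13_13_1_ok))))) (M (nat_lit 424) (B (L (nat_lit 396) ln8_13_2 ln8_13_2_ok) (L (nat_lit 460) ln8_13_0 ln8_13_0_ok))))))) (B (M (nat_lit 425) (B (M (nat_lit 424) (B (L (nat_lit 460) ln8_13_0 ln8_13_0_ok) (M (nat_lit 423) (B (L (nat_lit 394) ln7_13_2 ln7_13_2_ok) (L (nat_lit 458) ln7_13_0 ln7_13_0_ok))))) (B (M (nat_lit 460) (B (L (nat_lit 424) ln8_13_0 ln8_13_0_ok) (M (nat_lit 461) (B (L (nat_lit 428) ln9_13_0 ln9_13_0_ok) (L (nat_lit 458) ln13_14_3 ln13_14_3_ok))))) (B (M (nat_lit 428) (B (M (nat_lit 393) (B (L (nat_lit 392) ln12_13_3 ln12_13_3_ok) (L (nat_lit 394) ln13_13_3 ln13_13_3_ok))) (M (nat_lit 457) (B (L (nat_lit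 456) ln12_13_1 ln12_13_1_ok) (L (nat_lit 458) ln13_13_1 ln13_13_1_ok))))) (M (nat_lit 428) (B (M (nat_lit 393) (B (L (nat_lit 392) ln12_13_3 ln12_13_3_ok) (L (nat_lit 394) ln13_13_3 ln13_13_3_ok))) (M (nat_lit 460) (B (L (nat_lit 424) ln8_13_0 ln8_13_0_ok) (L (nat_lit 461) ln9_13_0 ln9_13_0_ok))))))))) (B (M (nat_lit 428) (B (M (nat_lit 458) (B (L (nat_lit 457) ln13_13_1 ln13_13_1_ok) (M (nat_lit 363) (B (L (nat_lit 331) ln11_10_5 ln11_10_5_ok) (L (nat_lit 490) ln11_11_5 ln11_11_5_ok))))) (M (nat_lit 393) (B (L (nat_lit 394) ln13_13_3 ln13_13_3_ok) (M (nat_lit 425) (B (L (nat_lit 392) ln12_13_3 ln12_13_3_ok) (L (nat_lit 396) ln9_13_2 ln9_13_2_ok))))))) (B (M (nat_lit 394) (B (M (nat_lit 428) (B (L (nat_lit 393) ln13_13_3 ln13_13_3_ok) (M (nat_lit 458) (B (L (nat_lit 457) ln13_13_1 ln13_13_1_ok) (M (nat_lit 363) (B (L (nat_lit 331) ln11_10_5 ln11_10_5_ok) (L (nat_lit 490) ln10_15_6 ln10_15_6_ok)))))))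 (B (M (nat_lit 362) (B (L (nat_lit 330) ln10_10_4 ln10_10_4_ok) (M (nat_lit 458) (B (M (nat_lit 361) (B (L (nat_lit 329) ln10_14_7 ln10_14_7_ok) (L (nat_lit 396) ln13_12_3 ln13_12_3_ok))) (M (nat_lit 428) (B (L (nat_lit 393) ln13_13_3 ln13_13_3_ok) (L (nat_lit 457) ln13_13_1 ln13_13_1_ok))))))) (B (M (nat_lit 362) (B (L (nat_lit 330) ln10_10_4 ln10_10_4_ok) (M (nat_lit 458) (B (M (nat_lit 361) (B (L (nat_lit 329) ln10_14_7 ln10_14_7_ok) (L (nat_lit 396) ln13_12_3 ln13_12_3_ok))) (M (nat_lit 363) (B (L (nat_lit 331) ln10_14_6 ln10_14_6_ok) (L (nat_lit 490) ln10_15_6 ln10_15_6_ok))))))) (M (nat_lit 363) (B (M (nat_lit 330) (B (L (nat_lit 362) ln11_14_7 ln11_14_7_ok) (M (nat_lit 331) (B (L (nat_lit 298) ln11_13_7 ln11_13_7_ok) (L (nat_lit 299) ln11_9_5 ln11_9_5_ok))))) (M (nat_lit 393) (B (L (nat_lit 428) ln13_13_3 ln13_13_3_ok) (M (nat_lit 364) (B (L (nat_lit 332) ln11_14_6 ln11_14_6_ok) (L (nat_lit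 392) ln8_12_2 ln8_12_2_ok))))))))))) (B (M (nat_lit 363) (B (M (nat_lit 458) (B (L (nat_lit 331) ln11_10_5 ln11_10_5_ok) (L (nat_lit 490) ln11_11_5 ln11_11_5_ok))) (M (nat_lit 362) (B (L (nat_lit 330) ln11_14_7 ln11_14_7_ok) (M (nat_lit 396) (B (M (nat_lit 361) (B (L (nat_lit 360) ln8_11_0 ln8_11_0_ok) (L (nat_lit 364) ln9_11_0 ln9_11_0_ok))) (B (M (nat_lit 361) (B (L (nat_lit 364) ln9_11_0 ln9_11_0_ok) (L (nat_lit 394) ln13_12_3 ln13_12_3_ok))) (M (nat_lit 425) (B (L (nat_lit 394) ln13_12_1 ln13_12_1_ok) (L (nat_lit 424) ln8_13_2 ln8_13_2_ok)))))))))) (M (nat_lit 425) (B (M (nat_lit 396) (B (L (nat_lit 394) ln13_12_1 ln13_12_1_ok) (L (nat_lit 424) ln8_13_2 ln8_13_2_ok))) (B (M (nat_lit 424) (B (L (nat_lit 396) ln8_13_2 ln8_13_2_ok) (L (nat_lit 460) ln8_13_0 ln8_13_0_ok))) (B (M (nat_lit 428) (B (M (nat_lit 393) (B (L (nat_lit 392) ln12_13_3 ln12_13_3_ok) (L (nat_lit 394) ln13_13_3 ln13_13_3_ok)))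 (M (nat_lit 460) (B (L (nat_lit 424) ln8_13_0 ln8_13_0_ok) (L (nat_lit 461) ln9_13_0 ln9_13_0_ok))))) (M (nat_lit 396) (B (L (nat_lit 394) ln13_12_1 ln13_12_1_ok) (L (nat_lit 428) ln9_13_2 ln9_13_2_ok))))))))))))))
theorem c11_s3383 : Sem (nat_lit 1732918559228985830687588332223164685273243777473901889611115911763928841837992205340115440475969322760891043012737103013850644480) (nat_lit 294840814535290085408076681269842605551024901914285398840929706026814247935976960037201089409188765707351650334654035608790700490461414583864465445867050076122866778112) (nat_lit 294840814535290085408076681269842605551024901914285398840929706026814247935976960037201089409188765707351650334654035608790700490461414583864465445867050076122866778112) :=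
  sem_of_chk (M (nat_lit 459) (B (M (nat_lit 363) (B (M (nat_lit 331) (B (M (nat_lit 332) (B (L (nat_lit 300) ln11_13_6 ln11_13_6_ok) (L (nat_lit 364) ln11_14_6 ln11_14_6_ok))) (M (nat_lit 458) (B (L (nat_lit 426) ln11_10_5 ln11_10_5_ok) (L (nat_lit 490) ln11_11_5 ln11_11_5_ok))))) (B (M (nat_lit 491) (B (M (nat_lit 362) (B (L (nat_lit 330) ln11_14_7 ln11_14_7_ok) (L (nat_lit 394) ln11_15_7 ln11_15_7_ok))) (M (nat_lit 490) (B (L (nat_lit 458) ln11_11_5 ln11_11_5_ok) (L (nat_lit 522) ln11_12_5 ln11_12_5_ok))))) (M (nat_lit 491) (B (M (nat_lit 362) (B (L (nat_lit 330) ln11_14_7 ln11_14_7_ok) (L (nat_lit 394) ln11_15_7 ln11_15_7_ok))) (M (nat_lit 364) (B (L (nat_lit 332) ln11_14_6 ln11_14_6_ok) (L (nat_lit 396) ln11_15_6 ln11_15_6_ok)))))))) (B (M (nat_lit 491) (B (M (nat_lit 523) (B (M (nat_lit 394) (B (L (nat_lit 362) ln11_15_7 ln11_15_7_ok) (L (nat_lit 426) ln11_16_7 ln11_16_7_ok))) (M (nat_lit 524)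 (B (L (nat_lit 492) ln11_12_4 ln11_12_4_ok) (L (nat_lit 556) ln11_13_4 ln11_13_4_ok))))) (B (M (nat_lit 396) (B (L (nat_lit 364) ln11_15_6 ln11_15_6_ok) (M (nat_lit 523) (B (L (nat_lit 428) ln11_16_6 ln11_16_6_ok) (M (nat_lit 522) (B (L (nat_lit 490) ln11_12_5 ln11_12_5_ok) (L (nat_lit 554) ln11_13_5 ln11_13_5_ok))))))) (M (nat_lit 363) (B (M (nat_lit 362) (B (L (nat_lit 330) ln11_14_7 ln11_14_7_ok) (L (nat_lit 394) ln11_15_7 ln11_15_7_ok))) (M (nat_lit 490) (B (L (nat_lit 458) ln11_11_5 ln11_11_5_ok) (L (nat_lit 522) ln11_12_5 ln11_12_5_ok)))))))) (B (M (nat_lit 491) (B (M (nat_lit 523) (B (M (nat_lit 394) (B (L (nat_lit 362) ln11_15_7 ln11_15_7_ok) (L (nat_lit 426) ln11_16_7 ln11_16_7_ok))) (M (nat_lit 524) (B (L (nat_lit 492) ln11_12_4 ln11_12_4_ok) (L (nat_lit 556) ln11_13_4 ln11_13_4_ok))))) (B (M (nat_lit 396) (B (L (nat_lit 364) ln11_15_6 ln11_15_6_ok) (M (nat_lit 523) (B (L (nat_lit 428)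 ln11_16_6 ln11_16_6_ok) (M (nat_lit 522) (B (L (nat_lit 490) ln11_12_5 ln11_12_5_ok) (L (nat_lit 554) ln11_13_5 ln11_13_5_ok))))))) (M (nat_lit 363) (B (M (nat_lit 364) (B (L (nat_lit 332) ln11_14_6 ln11_14_6_ok) (L (nat_lit 396) ln11_15_6 ln11_15_6_ok))) (M (nat_lit 490) (B (L (nat_lit 458) ln11_11_5 ln11_11_5_ok) (L (nat_lit 522) ln11_12_5 ln11_12_5_ok)))))))) (B (M (nat_lit 491) (B (M (nat_lit 523) (B (M (nat_lit 396) (B (L (nat_lit 364) ln11_15_6 ln11_15_6_ok) (L (nat_lit 428) ln11_16_6 ln11_16_6_ok))) (M (nat_lit 524) (B (L (nat_lit 492) ln11_12_4 ln11_12_4_ok) (L (nat_lit 556) ln11_13_4 ln11_13_4_ok))))) (B (M (nat_lit 523) (B (M (nat_lit 522) (B (L (nat_lit 490) ln11_12_5 ln11_12_5_ok) (L (nat_lit 554) ln11_13_5 ln11_13_5_ok))) (M (nat_lit 524) (B (L (nat_lit 492) ln11_12_4 ln11_12_4_ok) (L (nat_lit 556) ln11_13_4 ln11_13_4_ok))))) (B (M (nat_lit 396) (B (L (nat_lit 364) ln11_15_6 ln11_15_6_ok)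 (M (nat_lit 523) (B (L (nat_lit 428) ln11_16_6 ln11_16_6_ok) (M (nat_lit 522) (B (L (nat_lit 490) ln11_12_5 ln11_12_5_ok) (L (nat_lit 554) ln11_13_5 ln11_13_5_ok))))))) (M (nat_lit 363) (B (M (nat_lit 364) (B (L (nat_lit 332) ln11_14_6 ln11_14_6_ok) (L (nat_lit 396) ln11_15_6 ln11_15_6_ok))) (M (nat_lit 490) (B (L (nat_lit 458) ln11_11_5 ln11_11_5_ok) (L (nat_lit 522) ln11_12_5 ln11_12_5_ok))))))))) (B (M (nat_lit 396) (B (M (nat_lit 364) (B (L (nat_lit 491) ln11_15_6 ln11_15_6_ok) (M (nat_lit 332) (B (L (nat_lit 300) ln12_9_5 ln12_9_5_ok) (L (nat_lit 428) ln12_10_5 ln12_10_5_ok))))) (B (M (nat_lit 491) (B (L (nat_lit 364) ln11_15_6 ln11_15_6_ok) (M (nat_lit 394) (B (L (nat_lit 362) ln11_15_7 ln11_15_7_ok) (M (nat_lit 523) (B (L (nat_lit 426) ln11_16_7 ln11_16_7_ok) (L (nat_lit 428) ln11_16_6 ln11_16_6_ok))))))) (B (M (nat_lit 394) (B (M (nat_lit 362) (B (L (nat_lit 361) ln13_12_3 ln13_12_3_ok) (L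 (nat_lit 491) ln11_15_7 ln11_15_7_ok))) (M (nat_lit 393) (B (L (nat_lit 428) ln9_12_0 ln9_12_0_ok) (M (nat_lit 425) (B (L (nat_lit 424) ln12_12_1 ln12_12_1_ok) (L (nat_lit 426) ln13_12_1 ln13_12_1_ok))))))) (B (M (nat_lit 491) (B (L (nat_lit 364) ln11_15_6 ln11_15_6_ok) (M (nat_lit 394) (B (L (nat_lit 362) ln11_15_7 ln11_15_7_ok) (M (nat_lit 426) (B (L (nat_lit 425) ln13_12_1 ln13_12_1_ok) (L (nat_lit 523) ln11_16_7 ln11_16_7_ok))))))) (M (nat_lit 394) (B (M (nat_lit 393) (B (L (nat_lit 428) ln9_12_0 ln9_12_0_ok) (M (nat_lit 425) (B (L (nat_lit 424) ln12_12_1 ln12_12_1_ok) (L (nat_lit 426) ln13_12_1 ln13_12_1_ok))))) (B (M (nat_lit 426) (B (L (nat_lit 425) ln13_12_1 ln13_12_1_ok) (M (nat_lit 362) (B (L (nat_lit 330) ln10_10_4 ln10_10_4_ok) (L (nat_lit 361) ln13_12_3 ln13_12_3_ok))))) (M (nat_lit 393) (B (L (nat_lit 428) ln9_12_0 ln9_12_0_ok) (M (nat_lit 361) (B (L (nat_lit 360) ln12_12_3 ln12_12_3_ok)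 (L (nat_lit 362) ln13_12_3 ln13_12_3_ok))))))))))))) (B (M (nat_lit 491) (B (M (nat_lit 523) (B (M (nat_lit 522) (B (L (nat_lit 490) ln11_12_5 ln11_12_5_ok) (L (nat_lit 554) ln11_13_5 ln11_13_5_ok))) (M (nat_lit 524) (B (L (nat_lit 492) ln11_12_4 ln11_12_4_ok) (L (nat_lit 556) ln11_13_4 ln11_13_4_ok))))) (B (M (nat_lit 523) (B (M (nat_lit 394) (B (L (nat_lit 362) ln11_15_7 ln11_15_7_ok) (L (nat_lit 426) ln11_16_7 ln11_16_7_ok))) (M (nat_lit 524) (B (L (nat_lit 492) ln11_12_4 ln11_12_4_ok) (L (nat_lit 556) ln11_13_4 ln11_13_4_ok))))) (B (M (nat_lit 523) (B (M (nat_lit 394) (B (L (nat_lit 362) ln11_15_7 ln11_15_7_ok) (L (nat_lit 426) ln11_16_7 ln11_16_7_ok))) (M (nat_lit 522) (B (L (nat_lit 490) ln11_12_5 ln11_12_5_ok) (L (nat_lit 554) ln11_13_5 ln11_13_5_ok))))) (M (nat_lit 363) (B (M (nat_lit 362) (B (L (nat_lit 330) ln11_14_7 ln11_14_7_ok) (L (nat_lit 394) ln11_15_7 ln11_15_7_ok))) (M (nat_lit 490)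 (B (L (nat_lit 458) ln11_11_5 ln11_11_5_ok) (L (nat_lit 522) ln11_12_5 ln11_12_5_ok))))))))) c11_n3382))))))) (nat_lit 1732918559228985830687588332223164685273243777473901889611115911763928841837992205340115440475969322760891043012737103013850644480) (nat_lit 294840814535290085408076681269842605551024901914285398840929706026814247935976960037201089409188765707351650334654035608790700490461414583864465445867050076122866778112) (nat_lit 294840814535290085408076681269842605551024901914285398840929706026814247935976960037201089409188765707351650334654035608790700490461414583864465445867050076122866778112) (by decide +kernel)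
theorem c11_s3384 : Sem (nat_lit 1386334847463883973240286559205279222343689143051924817714805964187101178362289002460118639712951875498717141642561656535228874752) (nat_lit 294840814864800373173863126662622798044439092551120631262332858629730110518552093077918741940378365346685082848912608609124710909259734000187627563473435086699653758976) (nat_lit 294840814864800373173863126662622798044439092551120631262332858629730110518552093077918741940378365346685082848912608609124710909259734000187627563473435086699653758976) :=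
  sem_of_chk (M (nat_lit 427) (B (M (nat_lit 394) (B (M (nat_lit 430) (B (L (nat_lit 396) ln10_12_0 ln10_12_0_ok) (L (nat_lit 428) ln14_13_3 ln14_13_3_ok))) (B (M (nat_lit 428) (B (L (nat_lit 430) ln14_13_3 ln14_13_3_ok) (M (nat_lit 393) (B (L (nat_lit 392) ln8_12_0 ln8_12_0_ok) (L (nat_lit 426) ln13_13_3 ln13_13_3_ok))))) (B (M (nat_lit 396) (B (L (nat_lit 430) ln10_12_0 ln10_12_0_ok) (M (nat_lit 393) (B (M (nat_lit 361) (B (L (nat_lit 360) ln12_12_3 ln12_12_3_ok) (L (nat_lit 362) ln13_12_3 ln13_12_3_ok))) (M (nat_lit 425) (B (L (nat_lit 424) ln12_12_1 ln12_12_1_ok) (L (nat_lit 426) ln13_12_1 ln13_12_1_ok))))))) (M (nat_lit 393) (B (M (nat_lit 428) (B (L (nat_lit 392) ln8_12_0 ln8_12_0_ok) (L (nat_lit 396) ln9_12_0 ln9_12_0_ok))) (B (M (nat_lit 428) (B (L (nat_lit 396) ln9_12_0 ln9_12_0_ok) (L (nat_lit 426) ln13_13_3 ln13_13_3_ok))) (B (M (nat_lit 428) (B (L (nat_lit 392) ln8_12_0 ln8_12_0_ok) (L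 (nat_lit 426) ln13_13_3 ln13_13_3_ok))) (M (nat_lit 396) (B (M (nat_lit 361) (B (L (nat_lit 360) ln12_12_3 ln12_12_3_ok) (L (nat_lit 362) ln13_12_3 ln13_12_3_ok))) (M (nat_lit 425) (B (L (nat_lit 424) ln12_12_1 ln12_12_1_ok) (L (nat_lit 426) ln13_12_1 ln13_12_1_ok))))))))))))) (B c11_n3073 (B (M (nat_lit 428) (B (M (nat_lit 394) (B (L (nat_lit 430) ln14_13_3 ln14_13_3_ok) (M (nat_lit 393) (B (L (nat_lit 392) ln8_12_0 ln8_12_0_ok) (L (nat_lit 426) ln13_13_3 ln13_13_3_ok))))) (B (M (nat_lit 394) (B (L (nat_lit 430) ln14_13_3 ln14_13_3_ok) (M (nat_lit 393) (B (L (nat_lit 396) ln9_12_0 ln9_12_0_ok) (L (nat_lit 426) ln13_13_3 ln13_13_3_ok))))) (B (M (nat_lit 430) (B (L (nat_lit 394) ln14_13_3 ln14_13_3_ok) (M (nat_lit 459) (B (L (nat_lit 458) ln14_13_1 ln14_13_1_ok) (M (nat_lit 431) (B (L (nat_lit 396) ln15_13_3 ln15_13_3_ok) (L (nat_lit 460) ln15_13_1 ln15_13_1_ok))))))) (B (M (nat_lit 426) (B (M (nat_lit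 425) (B (L (nat_lit 396) ln9_13_2 ln9_13_2_ok) (M (nat_lit 457) (B (L (nat_lit 456) ln12_13_1 ln12_13_1_ok) (L (nat_lit 458) ln13_13_1 ln13_13_1_ok))))) (B (M (nat_lit 458) (B (L (nat_lit 457) ln13_13_1 ln13_13_1_ok) (M (nat_lit 363) (B (L (nat_lit 331) ln11_10_5 ln11_10_5_ok) (M (nat_lit 459) (B (L (nat_lit 490) ln11_11_5 ln11_11_5_ok) (L (nat_lit 430) ln14_13_1 ln14_13_1_ok))))))) (M (nat_lit 460) (B (M (nat_lit 425) (B (L (nat_lit 396) ln9_13_2 ln9_13_2_ok) (L (nat_lit 461) ln9_13_0 ln9_13_0_ok))) (M (nat_lit 492) (B (L (nat_lit 524) ln12_16_7 ln12_16_7_ok) (M (nat_lit 363) (B (L (nat_lit 331) ln11_10_4 ln11_10_4_ok) (L (nat_lit 459) ln11_11_4 ln11_11_4_ok)))))))))) (M (nat_lit 426) (B (M (nat_lit 393) (B (L (nat_lit 394) ln13_13_3 ln13_13_3_ok) (M (nat_lit 425) (B (L (nat_lit 392) ln12_13_3 ln12_13_3_ok) (L (nat_lit 396) ln9_13_2 ln9_13_2_ok))))) (B (M (nat_lit 394) (B (L (nat_lit 393) ln13_13_3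 ln13_13_3_ok) (M (nat_lit 458) (B (L (nat_lit 457) ln13_13_1 ln13_13_1_ok) (M (nat_lit 363) (B (L (nat_lit 331) ln11_10_5 ln11_10_5_ok) (L (nat_lit 490) ln10_15_6 ln10_15_6_ok))))))) (B (M (nat_lit 458) (B (L (nat_lit 457) ln13_13_1 ln13_13_1_ok) (M (nat_lit 363) (B (L (nat_lit 331) ln11_10_5 ln11_10_5_ok) (M (nat_lit 490) (B (L (nat_lit 394) ln10_15_6 ln10_15_6_ok) (L (nat_lit 522) ln10_16_6 ln10_16_6_ok))))))) (M (nat_lit 458) (B (L (nat_lit 457) ln13_13_1 ln13_13_1_ok) (M (nat_lit 363) (B (L (nat_lit 331) ln11_10_5 ln11_10_5_ok) (M (nat_lit 490) (B (L (nat_lit 459) ln11_11_5 ln11_11_5_ok) (L (nat_lit 522) ln10_16_6 ln10_16_6_ok)))))))))))))))) (B (K (nat_lit 1732918559228985830687588332223164685273243777473901889611115911763928841837992205340115440475969322760891043012737103013850644480) (nat_lit 294840814864800373173863126662622798027456490674560031852304087217355903670097380169562441019447683753817957763414649121260702189952357847157684651899865000837858197504)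 (nat_lit 294840814864800373173863126662622798027456490674560031852304087217355903670097380169562441019447683753817957763414649121260702189952357847157684651899865000837858197504) c11_s3190) (B c11_n1967 (B c11_n3234 (B (K (nat_lit 1732918559228985830687588332223164685273243777473901889611115911763928841837992205340115440475969322760891043012737103013850644480) (nat_lit 294840814535290085408076681269284393412693747719006636497763503696806515330354427101524497664724848320908799044492686893126956565176944314458666853762063507871265456128) (nat_lit 294840814535290085408076681269284393412693747719006636497763503696806515330354427101524497664724848320908799044492686893126956565176944314458666853762063507871265456128) c11_s3248) (K (nat_lit 1732918559228985830687588332223164685273243777473901889611115911763928841837992205340115440475969322760891043012737103013850644480) (nat_lit 294840814535290085408076681269842605551024901914285398840929706026814247935976960037201089409188765707351650334654035608790700490461414583864465445867050076122866778112)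 (nat_lit 294840814535290085408076681269842605551024901914285398840929706026814247935976960037201089409188765707351650334654035608790700490461414583864465445867050076122866778112) c11_s3383))))))))) (nat_lit 1386334847463883973240286559205279222343689143051924817714805964187101178362289002460118639712951875498717141642561656535228874752) (nat_lit 294840814864800373173863126662622798044439092551120631262332858629730110518552093077918741940378365346685082848912608609124710909259734000187627563473435086699653758976) (nat_lit 294840814864800373173863126662622798044439092551120631262332858629730110518552093077918741940378365346685082848912608609124710909259734000187627563473435086699653758976) (by decide +kernel)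
noncomputable def c11_n3551 : Cert := (M (nat_lit 427) (B (M (nat_lit 398) (B (L (nat_lit 426) ln14_12_1 ln14_12_1_ok) (M (nat_lit 399) (B (L (nat_lit 428) ln15_12_1 ln15_12_1_ok) (M (nat_lit 367) (B (L (nat_lit 366) ln11_12_2 ln11_12_2_ok) (L (nat_lit 368) ln12_12_2 ln12_12_2_ok))))))) (B (M (nat_lit 398) (B (L (nat_lit 426) ln14_12_1 ln14_12_1_ok) (M (nat_lit 399) (B (L (nat_lit 428) ln15_12_1 ln15_12_1_ok) (M (nat_lit 363) (B (L (nat_lit 362) ln14_12_3 ln14_12_3_ok) (L (nat_lit 364) ln15_12_3 ln15_12_3_ok))))))) (B (M (nat_lit 363) (B (M (nat_lit 331) (B (M (nat_lit 428) (B (L (nat_lit 299) ln11_9_4 ln11_9_4_ok) (L (nat_lit 460) ln11_10_4 ln11_10_4_ok))) (M (nat_lit 459) (B (M (nat_lit 330) (B (L (nat_lit 298) ln11_13_7 ln11_13_7_ok) (L (nat_lit 362) ln11_14_7 ln11_14_7_ok))) (M (nat_lit 458) (B (L (nat_lit 426) ln11_10_5 ln11_10_5_ok) (L (nat_lit 490) ln11_11_5 ln11_11_5_ok))))))) (B (M (nat_lit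 331) (B (M (nat_lit 428) (B (L (nat_lit 299) ln11_9_4 ln11_9_4_ok) (L (nat_lit 460) ln11_10_4 ln11_10_4_ok))) (M (nat_lit 459) (B (M (nat_lit 332) (B (L (nat_lit 300) ln11_13_6 ln11_13_6_ok) (L (nat_lit 364) ln11_14_6 ln11_14_6_ok))) (M (nat_lit 458) (B (L (nat_lit 426) ln11_10_5 ln11_10_5_ok) (L (nat_lit 490) ln11_11_5 ln11_11_5_ok))))))) (B (M (nat_lit 331) (B (M (nat_lit 428) (B (L (nat_lit 460) ln11_10_4 ln11_10_4_ok) (M (nat_lit 426) (B (L (nat_lit 458) ln11_10_5 ln11_10_5_ok) (L (nat_lit 425) ln9_13_2 ln9_13_2_ok))))) (B (M (nat_lit 459) (B (M (nat_lit 330) (B (L (nat_lit 298) ln11_13_7 ln11_13_7_ok) (L (nat_lit 362) ln11_14_7 ln11_14_7_ok))) (M (nat_lit 458) (B (L (nat_lit 426) ln11_10_5 ln11_10_5_ok) (L (nat_lit 490) ln11_11_5 ln11_11_5_ok))))) (M (nat_lit 459) (B (M (nat_lit 330) (B (L (nat_lit 298) ln11_13_7 ln11_13_7_ok) (L (nat_lit 362) ln11_14_7 ln11_14_7_ok))) (M (nat_lit 332) (B (L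 (nat_lit 300) ln11_13_6 ln11_13_6_ok) (L (nat_lit 364) ln11_14_6 ln11_14_6_ok)))))))) (B (M (nat_lit 364) (B (M (nat_lit 332) (B (L (nat_lit 300) ln12_9_5 ln12_9_5_ok) (L (nat_lit 459) ln11_14_6 ln11_14_6_ok))) (B (M (nat_lit 459) (B (L (nat_lit 332) ln11_14_6 ln11_14_6_ok) (L (nat_lit 491) ln11_15_6 ln11_15_6_ok))) (B (M (nat_lit 459) (B (L (nat_lit 491) ln11_15_6 ln11_15_6_ok) (M (nat_lit 362) (B (L (nat_lit 330) ln11_14_7 ln11_14_7_ok) (L (nat_lit 361) ln9_11_0 ln9_11_0_ok))))) (M (nat_lit 332) (B (L (nat_lit 300) ln12_9_5 ln12_9_5_ok) (M (nat_lit 461) (B (L (nat_lit 428) ln12_10_4 ln12_10_4_ok) (L (nat_lit 493) ln13_15_7 ln13_15_7_ok))))))))) (B (M (nat_lit 459) (B (M (nat_lit 364) (B (L (nat_lit 332) ln11_14_6 ln11_14_6_ok) (L (nat_lit 491) ln11_15_6 ln11_15_6_ok))) (M (nat_lit 331) (B (M (nat_lit 330) (B (L (nat_lit 298) ln11_13_7 ln11_13_7_ok) (L (nat_lit 362) ln11_14_7 ln11_14_7_ok))) (M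 (nat_lit 458) (B (L (nat_lit 426) ln11_10_5 ln11_10_5_ok) (L (nat_lit 490) ln11_11_5 ln11_11_5_ok))))))) (M (nat_lit 331) (B (M (nat_lit 428) (B (L (nat_lit 299) ln11_9_4 ln11_9_4_ok) (L (nat_lit 460) ln11_10_4 ln11_10_4_ok))) (B (M (nat_lit 428) (B (L (nat_lit 460) ln11_10_4 ln11_10_4_ok) (M (nat_lit 426) (B (L (nat_lit 458) ln11_10_5 ln11_10_5_ok) (L (nat_lit 425) ln9_13_2 ln9_13_2_ok))))) (M (nat_lit 299) (B (M (nat_lit 298) (B (L (nat_lit 266) ln11_12_7 ln11_12_7_ok) (L (nat_lit 330) ln11_13_7 ln11_13_7_ok))) (M (nat_lit 300) (B (L (nat_lit 268) ln11_12_6 ln11_12_6_ok) (L (nat_lit 332) ln11_13_6 ln11_13_6_ok)))))))))))))) (B (M (nat_lit 363) (B (M (nat_lit 398) (B (L (nat_lit 362) ln14_12_3 ln14_12_3_ok) (M (nat_lit 399) (B (L (nat_lit 364) ln15_12_3 ln15_12_3_ok) (L (nat_lit 428) ln15_12_1 ln15_12_1_ok))))) (B (M (nat_lit 332) (B (M (nat_lit 300) (B (L (nat_lit 331) ln11_13_6 ln11_13_6_ok) (L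 (nat_lit 364) ln12_9_5 ln12_9_5_ok))) (B (M (nat_lit 364) (B (L (nat_lit 459) ln11_14_6 ln11_14_6_ok) (M (nat_lit 461) (B (L (nat_lit 428) ln12_10_4 ln12_10_4_ok) (L (nat_lit 493) ln13_15_7 ln13_15_7_ok))))) (M (nat_lit 331) (B (L (nat_lit 300) ln11_13_6 ln11_13_6_ok) (M (nat_lit 428) (B (L (nat_lit 299) ln11_9_4 ln11_9_4_ok) (L (nat_lit 460) ln11_10_4 ln11_10_4_ok)))))))) (B (M (nat_lit 428) (B (M (nat_lit 331) (B (L (nat_lit 299) ln11_9_4 ln11_9_4_ok) (L (nat_lit 460) ln11_10_4 ln11_10_4_ok))) (M (nat_lit 398) (B (L (nat_lit 362) ln14_12_3 ln14_12_3_ok) (L (nat_lit 399) ln15_12_1 ln15_12_1_ok))))) (M (nat_lit 364) (B (M (nat_lit 332) (B (L (nat_lit 300) ln12_9_5 ln12_9_5_ok) (L (nat_lit 459) ln11_14_6 ln11_14_6_ok))) (M (nat_lit 398) (B (L (nat_lit 362) ln14_12_3 ln14_12_3_ok) (L (nat_lit 399) ln15_12_3 ln15_12_3_ok))))))))) (M (nat_lit 398) (B (L (nat_lit 426) ln14_12_1 ln14_12_1_ok) (M (nat_lit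 399) (B (M (nat_lit 363) (B (L (nat_lit 362) ln14_12_3 ln14_12_3_ok) (L (nat_lit 364) ln15_12_3 ln15_12_3_ok))) (M (nat_lit 367) (B (L (nat_lit 366) ln11_12_2 ln11_12_2_ok) (L (nat_lit 368) ln12_12_2 ln12_12_2_ok))))))))))))
noncomputable def c11_n3591 : Cert := (M (nat_lit 427) (B (M (nat_lit 398) (B (L (nat_lit 426) ln14_12_1 ln14_12_1_ok) (M (nat_lit 399) (B (L (nat_lit 428) ln15_12_1 ln15_12_1_ok) (M (nat_lit 367) (B (L (nat_lit 366) ln11_12_2 ln11_12_2_ok) (L (nat_lit 368) ln12_12_2 ln12_12_2_ok))))))) (B (M (nat_lit 398) (B (L (nat_lit 426) ln14_12_1 ln14_12_1_ok) (M (nat_lit 399) (B (L (nat_lit 428) ln15_12_1 ln15_12_1_ok) (M (nat_lit 363) (B (L (nat_lit 362) ln14_12_3 ln14_12_3_ok) (L (nat_lit 364) ln15_12_3 ln15_12_3_ok))))))) (B (M (nat_lit 459) (B (M (nat_lit 364) (B (L (nat_lit 491) ln11_15_6 ln11_15_6_ok) (M (nat_lit 332) (B (L (nat_lit 300) ln12_9_5 ln12_9_5_ok) (L (nat_lit 428) ln12_10_5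 ln12_10_5_ok))))) (B (M (nat_lit 364) (B (L (nat_lit 491) ln11_15_6 ln11_15_6_ok) (M (nat_lit 332) (B (L (nat_lit 363) ln11_14_6 ln11_14_6_ok) (L (nat_lit 428) ln12_10_5 ln12_10_5_ok))))) (B (M (nat_lit 363) (B (M (nat_lit 362) (B (L (nat_lit 330) ln11_14_7 ln11_14_7_ok) (M (nat_lit 361) (B (L (nat_lit 360) ln8_11_0 ln8_11_0_ok) (L (nat_lit 364) ln9_11_0 ln9_11_0_ok))))) (M (nat_lit 331) (B (M (nat_lit 458) (B (L (nat_lit 426) ln11_10_5 ln11_10_5_ok) (L (nat_lit 490) ln11_11_5 ln11_11_5_ok))) (M (nat_lit 460) (B (L (nat_lit 428) ln11_10_4 ln11_10_4_ok) (L (nat_lit 492) ln11_11_4 ln11_11_4_ok))))))) (B (M (nat_lit 363) (B (M (nat_lit 362) (B (L (nat_lit 330) ln11_14_7 ln11_14_7_ok) (M (nat_lit 361) (B (L (nat_lit 360) ln8_11_0 ln8_11_0_ok) (L (nat_lit 394) ln13_12_3 ln13_12_3_ok))))) (M (nat_lit 331) (B (M (nat_lit 458) (B (L (nat_lit 426) ln11_10_5 ln11_10_5_ok) (L (nat_lit 490) ln11_11_5 ln11_11_5_ok)))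 (M (nat_lit 460) (B (L (nat_lit 428) ln11_10_4 ln11_10_4_ok) (L (nat_lit 492) ln11_11_4 ln11_11_4_ok))))))) (M (nat_lit 364) (B (L (nat_lit 491) ln11_15_6 ln11_15_6_ok) (M (nat_lit 332) (B (L (nat_lit 300) ln12_9_5 ln12_9_5_ok) (L (nat_lit 363) ln11_14_6 ln11_14_6_ok)))))))))) (B (M (nat_lit 363) (B (M (nat_lit 362) (B (L (nat_lit 398) ln14_12_3 ln14_12_3_ok) (M (nat_lit 361) (B (L (nat_lit 360) ln8_11_0 ln8_11_0_ok) (L (nat_lit 394) ln13_12_3 ln13_12_3_ok))))) (B (M (nat_lit 362) (B (L (nat_lit 398) ln14_12_3 ln14_12_3_ok) (M (nat_lit 361) (B (L (nat_lit 364) ln9_11_0 ln9_11_0_ok) (L (nat_lit 394) ln13_12_3 ln13_12_3_ok))))) (B (M (nat_lit 459) (B (M (nat_lit 364) (B (L (nat_lit 332) ln11_14_6 ln11_14_6_ok) (L (nat_lit 491) ln11_15_6 ln11_15_6_ok))) (B (M (nat_lit 491) (B (L (nat_lit 364) ln11_15_6 ln11_15_6_ok) (M (nat_lit 362) (B (L (nat_lit 398) ln14_12_3 ln14_12_3_ok) (L (nat_lit 394) ln11_15_7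 ln11_15_7_ok))))) (B (M (nat_lit 491) (B (M (nat_lit 362) (B (L (nat_lit 398) ln14_12_3 ln14_12_3_ok) (L (nat_lit 394) ln11_15_7 ln11_15_7_ok))) (M (nat_lit 492) (B (L (nat_lit 460) ln11_11_4 ln11_11_4_ok) (L (nat_lit 524) ln11_12_4 ln11_12_4_ok))))) (M (nat_lit 331) (B (M (nat_lit 332) (B (L (nat_lit 300) ln11_13_6 ln11_13_6_ok) (L (nat_lit 364) ln11_14_6 ln11_14_6_ok))) (M (nat_lit 460) (B (L (nat_lit 428) ln11_10_4 ln11_10_4_ok) (L (nat_lit 492) ln11_11_4 ln11_11_4_ok))))))))) (M (nat_lit 459) (B (M (nat_lit 364) (B (L (nat_lit 332) ln11_14_6 ln11_14_6_ok) (L (nat_lit 491) ln11_15_6 ln11_15_6_ok))) (B (M (nat_lit 491) (B (L (nat_lit 364) ln11_15_6 ln11_15_6_ok) (M (nat_lit 490) (B (L (nat_lit 458) ln11_11_5 ln11_11_5_ok) (L (nat_lit 522) ln11_12_5 ln11_12_5_ok))))) (B (M (nat_lit 491) (B (M (nat_lit 490) (B (L (nat_lit 458) ln11_11_5 ln11_11_5_ok) (L (nat_lit 522) ln11_12_5 ln11_12_5_ok))) (M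 (nat_lit 492) (B (L (nat_lit 460) ln11_11_4 ln11_11_4_ok) (L (nat_lit 524) ln11_12_4 ln11_12_4_ok))))) (M (nat_lit 331) (B (M (nat_lit 332) (B (L (nat_lit 300) ln11_13_6 ln11_13_6_ok) (L (nat_lit 364) ln11_14_6 ln11_14_6_ok))) (M (nat_lit 460) (B (L (nat_lit 428) ln11_10_4 ln11_10_4_ok) (L (nat_lit 492) ln11_11_4 ln11_11_4_ok))))))))))))) (M (nat_lit 398) (B (L (nat_lit 426) ln14_12_1 ln14_12_1_ok) (M (nat_lit 399) (B (M (nat_lit 363) (B (L (nat_lit 362) ln14_12_3 ln14_12_3_ok) (L (nat_lit 364) ln15_12_3 ln15_12_3_ok))) (M (nat_lit 367) (B (L (nat_lit 366) ln11_12_2 ln11_12_2_ok) (L (nat_lit 368) ln12_12_2 ln12_12_2_ok))))))))))))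
theorem c11_s3601 : Sem (nat_lit 1386334847463883973240286559205279222343689143051924817714805964187101178362289002460118639712951875498717141642561656535228874752) (nat_lit 68647976650854490151970820959504565058287788983132347986800269560481291998987807442786427325357183175600167328993912451402256146545155253971848486818957754368) (nat_lit 68647976650854490151970820959504565058287788983132347986800269560481291998987807442786427325357183175600167328993912451402256146545155253971848486818957754368) :=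
  sem_of_chk (M (nat_lit 396) (B (M (nat_lit 394) (B (M (nat_lit 393) (B (L (nat_lit 428) ln9_12_0 ln9_12_0_ok) (M (nat_lit 425) (B (L (nat_lit 424) ln12_12_1 ln12_12_1_ok) (L (nat_lit 426) ln13_12_1 ln13_12_1_ok))))) (B (M (nat_lit 398) (B (M (nat_lit 362) (B (L (nat_lit 361) ln13_12_3 ln13_12_3_ok) (L (nat_lit 363) ln14_12_3 ln14_12_3_ok))) (M (nat_lit 426) (B (L (nat_lit 425) ln13_12_1 ln13_12_1_ok) (L (nat_lit 427) ln14_12_1 ln14_12_1_ok))))) (M (nat_lit 393) (B (L (nat_lit 428) ln9_12_0 ln9_12_0_ok) (M (nat_lit 361) (B (L (nat_lit 360) ln12_12_3 ln12_12_3_ok) (L (nat_lit 362) ln13_12_3 ln13_12_3_ok)))))))) (B (M (nat_lit 398) (B (M (nat_lit 399) (B (M (nat_lit 367) (B (L (nat_lit 366) ln11_12_2 ln11_12_2_ok) (L (nat_lit 368) ln12_12_2 ln12_12_2_ok))) (M (nat_lit 427) (B (L (nat_lit 426) ln14_12_1 ln14_12_1_ok) (L (nat_lit 428) ln15_12_1 ln15_12_1_ok))))) (B (M (nat_lit 399) (B (M (nat_lit 363)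 (B (L (nat_lit 362) ln14_12_3 ln14_12_3_ok) (L (nat_lit 364) ln15_12_3 ln15_12_3_ok))) (M (nat_lit 427) (B (L (nat_lit 426) ln14_12_1 ln14_12_1_ok) (L (nat_lit 428) ln15_12_1 ln15_12_1_ok))))) (B (M (nat_lit 394) (B (M (nat_lit 362) (B (L (nat_lit 361) ln13_12_3 ln13_12_3_ok) (L (nat_lit 363) ln14_12_3 ln14_12_3_ok))) (M (nat_lit 426) (B (L (nat_lit 425) ln13_12_1 ln13_12_1_ok) (L (nat_lit 427) ln14_12_1 ln14_12_1_ok))))) (M (nat_lit 363) (B (L (nat_lit 362) ln14_12_3 ln14_12_3_ok) (M (nat_lit 399) (B (L (nat_lit 364) ln15_12_3 ln15_12_3_ok) (M (nat_lit 367) (B (L (nat_lit 366) ln11_12_2 ln11_12_2_ok) (L (nat_lit 368) ln12_12_2 ln12_12_2_ok))))))))))) (B (M (nat_lit 398) (B (M (nat_lit 399) (B (M (nat_lit 363) (B (L (nat_lit 362) ln14_12_3 ln14_12_3_ok) (L (nat_lit 364) ln15_12_3 ln15_12_3_ok))) (M (nat_lit 427) (B (L (nat_lit 426) ln14_12_1 ln14_12_1_ok) (L (nat_lit 428) ln15_12_1 ln15_12_1_ok)))))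 (B (M (nat_lit 399) (B (M (nat_lit 367) (B (L (nat_lit 366) ln11_12_2 ln11_12_2_ok) (L (nat_lit 368) ln12_12_2 ln12_12_2_ok))) (M (nat_lit 427) (B (L (nat_lit 426) ln14_12_1 ln14_12_1_ok) (L (nat_lit 428) ln15_12_1 ln15_12_1_ok))))) (B (M (nat_lit 428) (B (M (nat_lit 426) (B (L (nat_lit 427) ln14_12_1 ln14_12_1_ok) (M (nat_lit 394) (B (L (nat_lit 393) ln9_12_0 ln9_12_0_ok) (L (nat_lit 425) ln13_12_1 ln13_12_1_ok))))) (B (M (nat_lit 427) (B (L (nat_lit 426) ln14_12_1 ln14_12_1_ok) (M (nat_lit 363) (B (L (nat_lit 362) ln14_12_3 ln14_12_3_ok) (M (nat_lit 331) (B (L (nat_lit 299) ln11_9_4 ln11_9_4_ok) (L (nat_lit 460) ln11_10_4 ln11_10_4_ok))))))) (B (M (nat_lit 363) (B (L (nat_lit 362) ln14_12_3 ln14_12_3_ok) (M (nat_lit 331) (B (L (nat_lit 299) ln11_9_4 ln11_9_4_ok) (M (nat_lit 460) (B (L (nat_lit 364) ln12_14_7 ln12_14_7_ok) (L (nat_lit 427) ln11_10_4 ln11_10_4_ok))))))) (M (nat_lit 363) (B (L (nat_lit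 362) ln14_12_3 ln14_12_3_ok) (M (nat_lit 364) (B (M (nat_lit 331) (B (L (nat_lit 299) ln11_9_4 ln11_9_4_ok) (L (nat_lit 460) ln12_14_7 ln12_14_7_ok))) (M (nat_lit 332) (B (L (nat_lit 300) ln12_9_4 ln12_9_4_ok) (L (nat_lit 461) ln12_10_4 ln12_10_4_ok))))))))))) (M (nat_lit 363) (B (L (nat_lit 362) ln14_12_3 ln14_12_3_ok) (M (nat_lit 399) (B (L (nat_lit 364) ln15_12_3 ln15_12_3_ok) (M (nat_lit 367) (B (L (nat_lit 366) ln11_12_2 ln11_12_2_ok) (L (nat_lit 368) ln12_12_2 ln12_12_2_ok))))))))))) (B (M (nat_lit 364) (B (M (nat_lit 332) (B (L (nat_lit 300) ln12_9_4 ln12_9_4_ok) (M (nat_lit 461) (B (L (nat_lit 428) ln12_10_4 ln12_10_4_ok) (L (nat_lit 493) ln13_15_7 ln13_15_7_ok))))) (B (M (nat_lit 427) (B (M (nat_lit 426) (B (L (nat_lit 398) ln14_12_1 ln14_12_1_ok) (M (nat_lit 425) (B (L (nat_lit 394) ln13_12_1 ln13_12_1_ok) (L (nat_lit 424) ln8_13_2 ln8_13_2_ok))))) (B (M (nat_lit 426) (B (L (nat_lit 398)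 ln14_12_1 ln14_12_1_ok) (M (nat_lit 425) (B (L (nat_lit 424) ln8_13_2 ln8_13_2_ok) (L (nat_lit 428) ln9_13_2 ln9_13_2_ok))))) (M (nat_lit 459) (B (L (nat_lit 491) ln11_15_6 ln11_15_6_ok) (M (nat_lit 332) (B (L (nat_lit 363) ln11_14_6 ln11_14_6_ok) (L (nat_lit 428) ln12_10_5 ln12_10_5_ok)))))))) (B (M (nat_lit 394) (B (M (nat_lit 393) (B (L (nat_lit 428) ln9_12_0 ln9_12_0_ok) (M (nat_lit 425) (B (L (nat_lit 424) ln12_12_1 ln12_12_1_ok) (L (nat_lit 426) ln13_12_1 ln13_12_1_ok))))) (B (M (nat_lit 398) (B (M (nat_lit 426) (B (L (nat_lit 425) ln13_12_1 ln13_12_1_ok) (L (nat_lit 427) ln14_12_1 ln14_12_1_ok))) (M (nat_lit 367) (B (L (nat_lit 366) ln11_12_2 ln11_12_2_ok) (M (nat_lit 399) (B (L (nat_lit 363) ln15_12_3 ln15_12_3_ok) (L (nat_lit 368) ln12_12_2 ln12_12_2_ok))))))) (M (nat_lit 393) (B (L (nat_lit 428) ln9_12_0 ln9_12_0_ok) (M (nat_lit 392) (B (L (nat_lit 363) ln8_12_2 ln8_12_2_ok) (M (nat_lit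 360) (B (L (nat_lit 359) ln11_12_3 ln11_12_3_ok) (L (nat_lit 361) ln12_12_3 ln12_12_3_ok)))))))))) (M (nat_lit 427) (B (M (nat_lit 426) (B (L (nat_lit 398) ln14_12_1 ln14_12_1_ok) (M (nat_lit 425) (B (L (nat_lit 394) ln13_12_1 ln13_12_1_ok) (L (nat_lit 424) ln8_13_2 ln8_13_2_ok))))) (M (nat_lit 332) (B (L (nat_lit 300) ln12_9_5 ln12_9_5_ok) (M (nat_lit 459) (B (L (nat_lit 363) ln11_14_6 ln11_14_6_ok) (L (nat_lit 491) ln11_15_6 ln11_15_6_ok))))))))))) (B (M (nat_lit 394) (B (M (nat_lit 393) (B (L (nat_lit 428) ln9_12_0 ln9_12_0_ok) (M (nat_lit 425) (B (L (nat_lit 424) ln12_12_1 ln12_12_1_ok) (L (nat_lit 426) ln13_12_1 ln13_12_1_ok))))) (B (M (nat_lit 426) (B (L (nat_lit 425) ln13_12_1 ln13_12_1_ok) (M (nat_lit 427) (B (L (nat_lit 398) ln14_12_1 ln14_12_1_ok) (M (nat_lit 362) (B (L (nat_lit 361) ln13_12_3 ln13_12_3_ok) (M (nat_lit 330) (B (L (nat_lit 298) ln10_9_4 ln10_9_4_ok) (L (nat_lit 459) ln10_10_4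 ln10_10_4_ok))))))))) (M (nat_lit 393) (B (L (nat_lit 428) ln9_12_0 ln9_12_0_ok) (M (nat_lit 361) (B (L (nat_lit 360) ln12_12_3 ln12_12_3_ok) (L (nat_lit 362) ln13_12_3 ln13_12_3_ok)))))))) (B c11_n3551 (B (M (nat_lit 394) (B (M (nat_lit 393) (B (L (nat_lit 428) ln9_12_0 ln9_12_0_ok) (M (nat_lit 425) (B (L (nat_lit 424) ln12_12_1 ln12_12_1_ok) (L (nat_lit 426) ln13_12_1 ln13_12_1_ok))))) (B (M (nat_lit 426) (B (L (nat_lit 425) ln13_12_1 ln13_12_1_ok) (M (nat_lit 362) (B (L (nat_lit 361) ln13_12_3 ln13_12_3_ok) (M (nat_lit 427) (B (M (nat_lit 459) (B (L (nat_lit 330) ln10_10_4 ln10_10_4_ok) (L (nat_lit 491) ln11_15_7 ln11_15_7_ok))) (M (nat_lit 458) (B (M (nat_lit 363) (B (L (nat_lit 331) ln10_14_6 ln10_14_6_ok) (L (nat_lit 490) ln10_15_6 ln10_15_6_ok))) (M (nat_lit 457) (B (L (nat_lit 489) ln10_11_5 ln10_11_5_ok) (L (nat_lit 428) ln13_13_1 ln13_13_1_ok))))))))))) (B (M (nat_lit 393) (B (L (nat_lit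 428) ln9_12_0 ln9_12_0_ok) (M (nat_lit 361) (B (L (nat_lit 360) ln12_12_3 ln12_12_3_ok) (L (nat_lit 362) ln13_12_3 ln13_12_3_ok))))) (M (nat_lit 393) (B (M (nat_lit 361) (B (L (nat_lit 360) ln12_12_3 ln12_12_3_ok) (L (nat_lit 362) ln13_12_3 ln13_12_3_ok))) (M (nat_lit 425) (B (L (nat_lit 424) ln12_12_1 ln12_12_1_ok) (L (nat_lit 426) ln13_12_1 ln13_12_1_ok))))))))) (B c11_n3591 (B (M (nat_lit 398) (B (M (nat_lit 363) (B (L (nat_lit 362) ln14_12_3 ln14_12_3_ok) (M (nat_lit 399) (B (L (nat_lit 364) ln15_12_3 ln15_12_3_ok) (M (nat_lit 367) (B (L (nat_lit 366) ln11_12_2 ln11_12_2_ok) (L (nat_lit 368) ln12_12_2 ln12_12_2_ok))))))) (B (M (nat_lit 399) (B (M (nat_lit 367) (B (L (nat_lit 366) ln11_12_2 ln11_12_2_ok) (L (nat_lit 368) ln12_12_2 ln12_12_2_ok))) (M (nat_lit 428) (B (L (nat_lit 427) ln15_12_1 ln15_12_1_ok) (L (nat_lit 400) ln16_12_1 ln16_12_1_ok))))) (B (M (nat_lit 399) (B (M (nat_lit 363) (B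 (L (nat_lit 362) ln14_12_3 ln14_12_3_ok) (L (nat_lit 364) ln15_12_3 ln15_12_3_ok))) (M (nat_lit 428) (B (L (nat_lit 427) ln15_12_1 ln15_12_1_ok) (L (nat_lit 400) ln16_12_1 ln16_12_1_ok))))) (M (nat_lit 394) (B (M (nat_lit 362) (B (L (nat_lit 361) ln13_12_3 ln13_12_3_ok) (L (nat_lit 363) ln14_12_3 ln14_12_3_ok))) (B (M (nat_lit 393) (B (L (nat_lit 428) ln9_12_0 ln9_12_0_ok) (M (nat_lit 392) (B (M (nat_lit 363) (B (L (nat_lit 362) ln14_12_3 ln14_12_3_ok) (L (nat_lit 364) ln8_12_2 ln8_12_2_ok))) (M (nat_lit 424) (B (L (nat_lit 423) ln11_12_1 ln11_12_1_ok) (L (nat_lit 425) ln12_12_1 ln12_12_1_ok))))))) (M (nat_lit 393) (B (L (nat_lit 428) ln9_12_0 ln9_12_0_ok) (M (nat_lit 392) (B (M (nat_lit 360) (B (L (nat_lit 359) ln11_12_3 ln11_12_3_ok) (L (nat_lit 361) ln12_12_3 ln12_12_3_ok))) (M (nat_lit 424) (B (L (nat_lit 423) ln11_12_1 ln11_12_1_ok) (L (nat_lit 425) ln12_12_1 ln12_12_1_ok)))))))))))))) (B (M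 (nat_lit 398) (B (M (nat_lit 363) (B (L (nat_lit 362) ln14_12_3 ln14_12_3_ok) (M (nat_lit 399) (B (L (nat_lit 364) ln15_12_3 ln15_12_3_ok) (M (nat_lit 367) (B (L (nat_lit 366) ln11_12_2 ln11_12_2_ok) (L (nat_lit 368) ln12_12_2 ln12_12_2_ok))))))) (B (M (nat_lit 399) (B (M (nat_lit 367) (B (L (nat_lit 366) ln11_12_2 ln11_12_2_ok) (L (nat_lit 368) ln12_12_2 ln12_12_2_ok))) (M (nat_lit 400) (B (L (nat_lit 428) ln16_12_1 ln16_12_1_ok) (M (nat_lit 432) (B (L (nat_lit 431) ln12_12_0 ln12_12_0_ok) (L (nat_lit 433) ln13_12_0 ln13_12_0_ok))))))) (B (M (nat_lit 399) (B (M (nat_lit 363) (B (L (nat_lit 362) ln14_12_3 ln14_12_3_ok) (L (nat_lit 364) ln15_12_3 ln15_12_3_ok))) (M (nat_lit 400) (B (L (nat_lit 428) ln16_12_1 ln16_12_1_ok) (M (nat_lit 432) (B (L (nat_lit 431) ln12_12_0 ln12_12_0_ok) (L (nat_lit 433) ln13_12_0 ln13_12_0_ok))))))) (M (nat_lit 394) (B (M (nat_lit 362) (B (L (nat_lit 361) ln13_12_3 ln13_12_3_ok)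 (L (nat_lit 363) ln14_12_3 ln14_12_3_ok))) (M (nat_lit 393) (B (L (nat_lit 428) ln9_12_0 ln9_12_0_ok) (M (nat_lit 425) (B (L (nat_lit 424) ln12_12_1 ln12_12_1_ok) (L (nat_lit 426) ln13_12_1 ln13_12_1_ok))))))))))) (M (nat_lit 362) (B (M (nat_lit 361) (B (L (nat_lit 394) ln13_12_3 ln13_12_3_ok) (M (nat_lit 363) (B (L (nat_lit 364) ln9_11_0 ln9_11_0_ok) (L (nat_lit 398) ln14_12_3 ln14_12_3_ok))))) (B (M (nat_lit 427) (B (M (nat_lit 398) (B (L (nat_lit 363) ln14_12_3 ln14_12_3_ok) (L (nat_lit 426) ln14_12_1 ln14_12_1_ok))) (B (M (nat_lit 426) (B (L (nat_lit 398) ln14_12_1 ln14_12_1_ok) (M (nat_lit 425) (B (L (nat_lit 394) ln13_12_1 ln13_12_1_ok) (L (nat_lit 424) ln8_13_2 ln8_13_2_ok))))) (B (M (nat_lit 459) (B (M (nat_lit 491) (B (L (nat_lit 394) ln11_15_7 ln11_15_7_ok) (L (nat_lit 364) ln11_15_6 ln11_15_6_ok))) (B (M (nat_lit 330) (B (L (nat_lit 363) ln11_14_7 ln11_14_7_ok) (M (nat_lit 394) (B (L (nat_lit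 298) ln10_9_4 ln10_9_4_ok) (L (nat_lit 491) ln11_15_7 ln11_15_7_ok))))) (B (M (nat_lit 364) (B (L (nat_lit 491) ln11_15_6 ln11_15_6_ok) (M (nat_lit 363) (B (L (nat_lit 330) ln11_14_7 ln11_14_7_ok) (L (nat_lit 332) ln11_14_6 ln11_14_6_ok))))) (M (nat_lit 330) (B (L (nat_lit 363) ln11_14_7 ln11_14_7_ok) (M (nat_lit 394) (B (L (nat_lit 298) ln10_9_4 ln10_9_4_ok) (L (nat_lit 426) ln10_10_4 ln10_10_4_ok))))))))) (M (nat_lit 459) (B (M (nat_lit 363) (B (L (nat_lit 330) ln11_14_7 ln11_14_7_ok) (L (nat_lit 398) ln14_12_3 ln14_12_3_ok))) (M (nat_lit 491) (B (L (nat_lit 394) ln11_15_7 ln11_15_7_ok) (L (nat_lit 364) ln11_15_6 ln11_15_6_ok))))))))) (B (M (nat_lit 394) (B (L (nat_lit 361) ln13_12_3 ln13_12_3_ok) (M (nat_lit 426) (B (L (nat_lit 425) ln13_12_1 ln13_12_1_ok) (M (nat_lit 427) (B (L (nat_lit 398) ln14_12_1 ln14_12_1_ok) (M (nat_lit 330) (B (L (nat_lit 298) ln10_9_4 ln10_9_4_ok) (L (nat_lit 459) ln10_10_4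 ln10_10_4_ok))))))))) (B (M (nat_lit 363) (B (L (nat_lit 398) ln14_12_3 ln14_12_3_ok) (M (nat_lit 361) (B (L (nat_lit 360) ln8_11_0 ln8_11_0_ok) (L (nat_lit 364) ln9_11_0 ln9_11_0_ok))))) (M (nat_lit 361) (B (L (nat_lit 394) ln13_12_3 ln13_12_3_ok) (M (nat_lit 363) (B (L (nat_lit 360) ln8_11_0 ln8_11_0_ok) (L (nat_lit 364) ln9_11_0 ln9_11_0_ok))))))))))))))))))))) (nat_lit 1386334847463883973240286559205279222343689143051924817714805964187101178362289002460118639712951875498717141642561656535228874752) (nat_lit 68647976650854490151970820959504565058287788983132347986800269560481291998987807442786427325357183175600167328993912451402256146545155253971848486818957754368) (nat_lit 68647976650854490151970820959504565058287788983132347986800269560481291998987807442786427325357183175600167328993912451402256146545155253971848486818957754368) (by decide +kernel)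
noncomputable def c11_n3635 : Cert := (M (nat_lit 396) (B (M (nat_lit 430) (B (L (nat_lit 394) ln10_12_0 ln10_12_0_ok) (M (nat_lit 431) (B (L (nat_lit 398) ln11_12_0 ln11_12_0_ok) (L (nat_lit 432) ln16_13_3 ln16_13_3_ok))))) (B (M (nat_lit 430) (B (M (nat_lit 431) (B (L (nat_lit 398) ln11_12_0 ln11_12_0_ok) (L (nat_lit 428) ln15_13_3 ln15_13_3_ok))) (B (M (nat_lit 431) (B (L (nat_lit 428) ln15_13_3 ln15_13_3_ok) (L (nat_lit 432) ln16_13_3 ln16_13_3_ok))) (B (M (nat_lit 431) (B (L (nat_lit 398) ln11_12_0 ln11_12_0_ok) (L (nat_lit 432) ln16_13_3 ln16_13_3_ok))) (M (nat_lit 398) (B (M (nat_lit 366) (B (L (nat_lit 367) ln11_12_2 ln11_12_2_ok) (M (nat_lit 334) (B (L (nat_lit 302) ln14_9_5 ln14_9_5_ok) (L (nat_lit 461) ln14_10_5 ln14_10_5_ok))))) (M (nat_lit 399) (B (M (nat_lit 363) (B (L (nat_lit 362) ln14_12_3 ln14_12_3_ok) (L (nat_lit 364) ln15_12_3 ln15_12_3_ok))) (M (nat_lit 400) (B (L (nat_lit 428)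 ln16_12_1 ln16_12_1_ok) (L (nat_lit 401) ln17_12_1 ln17_12_1_ok))))))))))) (B (M (nat_lit 430) (B (L (nat_lit 394) ln10_12_0 ln10_12_0_ok) (M (nat_lit 431) (B (L (nat_lit 428) ln15_13_3 ln15_13_3_ok) (L (nat_lit 432) ln16_13_3 ln16_13_3_ok))))) (M (nat_lit 427) (B (M (nat_lit 398) (B (L (nat_lit 426) ln14_12_1 ln14_12_1_ok) (M (nat_lit 399) (B (L (nat_lit 428) ln15_12_1 ln15_12_1_ok) (M (nat_lit 367) (B (L (nat_lit 366) ln11_12_2 ln11_12_2_ok) (L (nat_lit 368) ln12_12_2 ln12_12_2_ok))))))) (B (M (nat_lit 398) (B (L (nat_lit 426) ln14_12_1 ln14_12_1_ok) (M (nat_lit 399) (B (L (nat_lit 428) ln15_12_1 ln15_12_1_ok) (M (nat_lit 363) (B (L (nat_lit 362) ln14_12_3 ln14_12_3_ok) (L (nat_lit 364) ln15_12_3 ln15_12_3_ok))))))) (B (M (nat_lit 459) (B (M (nat_lit 364) (B (L (nat_lit 491) ln11_15_6 ln11_15_6_ok) (M (nat_lit 332) (B (L (nat_lit 300) ln12_9_5 ln12_9_5_ok) (L (nat_lit 428) ln12_10_5 ln12_10_5_ok)))))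 (B (M (nat_lit 364) (B (L (nat_lit 491) ln11_15_6 ln11_15_6_ok) (M (nat_lit 332) (B (L (nat_lit 363) ln11_14_6 ln11_14_6_ok) (L (nat_lit 428) ln12_10_5 ln12_10_5_ok))))) (B (M (nat_lit 363) (B (M (nat_lit 362) (B (L (nat_lit 330) ln11_14_7 ln11_14_7_ok) (M (nat_lit 361) (B (L (nat_lit 360) ln8_11_0 ln8_11_0_ok) (L (nat_lit 364) ln9_11_0 ln9_11_0_ok))))) (M (nat_lit 331) (B (M (nat_lit 458) (B (L (nat_lit 426) ln11_10_5 ln11_10_5_ok) (L (nat_lit 490) ln11_11_5 ln11_11_5_ok))) (M (nat_lit 460) (B (L (nat_lit 428) ln11_10_4 ln11_10_4_ok) (L (nat_lit 492) ln11_11_4 ln11_11_4_ok))))))) (B (M (nat_lit 363) (B (M (nat_lit 362) (B (L (nat_lit 330) ln11_14_7 ln11_14_7_ok) (M (nat_lit 361) (B (L (nat_lit 360) ln8_11_0 ln8_11_0_ok) (L (nat_lit 394) ln13_12_3 ln13_12_3_ok))))) (M (nat_lit 331) (B (M (nat_lit 458) (B (L (nat_lit 426) ln11_10_5 ln11_10_5_ok) (L (nat_lit 490) ln11_11_5 ln11_11_5_ok))) (M (nat_lit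 460) (B (L (nat_lit 428) ln11_10_4 ln11_10_4_ok) (L (nat_lit 492) ln11_11_4 ln11_11_4_ok))))))) (M (nat_lit 364) (B (L (nat_lit 491) ln11_15_6 ln11_15_6_ok) (M (nat_lit 332) (B (L (nat_lit 300) ln12_9_5 ln12_9_5_ok) (L (nat_lit 363) ln11_14_6 ln11_14_6_ok)))))))))) (B (M (nat_lit 363) (B (M (nat_lit 362) (B (L (nat_lit 398) ln14_12_3 ln14_12_3_ok) (M (nat_lit 361) (B (L (nat_lit 360) ln8_11_0 ln8_11_0_ok) (L (nat_lit 394) ln13_12_3 ln13_12_3_ok))))) (B (M (nat_lit 362) (B (L (nat_lit 398) ln14_12_3 ln14_12_3_ok) (M (nat_lit 361) (B (L (nat_lit 364) ln9_11_0 ln9_11_0_ok) (L (nat_lit 394) ln13_12_3 ln13_12_3_ok))))) (M (nat_lit 332) (B (M (nat_lit 300) (B (L (nat_lit 331) ln11_13_6 ln11_13_6_ok) (L (nat_lit 364) ln12_9_5 ln12_9_5_ok))) (B (M (nat_lit 428) (B (M (nat_lit 331) (B (L (nat_lit 299) ln11_9_4 ln11_9_4_ok) (L (nat_lit 460) ln11_10_4 ln11_10_4_ok))) (M (nat_lit 364) (B (L (nat_lit 459) ln11_14_6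 ln11_14_6_ok) (L (nat_lit 461) ln12_10_4 ln12_10_4_ok))))) (B (M (nat_lit 364) (B (L (nat_lit 300) ln12_9_5 ln12_9_5_ok) (L (nat_lit 459) ln11_14_6 ln11_14_6_ok))) (M (nat_lit 331) (B (L (nat_lit 300) ln11_13_6 ln11_13_6_ok) (M (nat_lit 428) (B (L (nat_lit 299) ln11_9_4 ln11_9_4_ok) (L (nat_lit 460) ln11_10_4 ln11_10_4_ok)))))))))))) (M (nat_lit 398) (B (L (nat_lit 426) ln14_12_1 ln14_12_1_ok) (M (nat_lit 399) (B (M (nat_lit 363) (B (L (nat_lit 362) ln14_12_3 ln14_12_3_ok) (L (nat_lit 364) ln15_12_3 ln15_12_3_ok))) (M (nat_lit 367) (B (L (nat_lit 366) ln11_12_2 ln11_12_2_ok) (L (nat_lit 368) ln12_12_2 ln12_12_2_ok))))))))))))))))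
theorem c11_s3737 : Sem (nat_lit 1386334847463883973240286559205279222343689143051924817714805964187101178362289002460118639712951875498717141642561656535228874752) (nat_lit 6393341036815344226631147156702248347438792185826558969635541887151628511018578335389836100222262577102443347719147729723759571727431147845037588480) (nat_lit 6393341036815344226631147156702248347438792185826558969635541887151628511018578335389836100222262577102443347719147729723759571727431147845037588480) :=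
  sem_of_chk (M (nat_lit 427) (B (M (nat_lit 428) (B (M (nat_lit 394) (B (L (nat_lit 430) ln14_13_3 ln14_13_3_ok) (M (nat_lit 426) (B (L (nat_lit 393) ln13_13_3 ln13_13_3_ok) (L (nat_lit 398) ln10_13_2 ln10_13_2_ok))))) (B (M (nat_lit 398) (B (L (nat_lit 426) ln10_13_2 ln10_13_2_ok) (M (nat_lit 399) (B (L (nat_lit 400) ln16_12_1 ln16_12_1_ok) (L (nat_lit 430) ln11_13_2 ln11_13_2_ok))))) (B (M (nat_lit 394) (B (L (nat_lit 430) ln14_13_3 ln14_13_3_ok) (M (nat_lit 393) (B (L (nat_lit 392) ln8_12_0 ln8_12_0_ok) (L (nat_lit 426) ln13_13_3 ln13_13_3_ok))))) (B (M (nat_lit 394) (B (L (nat_lit 430) ln14_13_3 ln14_13_3_ok) (M (nat_lit 393) (B (L (nat_lit 392) ln8_12_0 ln8_12_0_ok) (L (nat_lit 396) ln9_12_0 ln9_12_0_ok))))) (M (nat_lit 398) (B (L (nat_lit 426) ln10_13_2 ln10_13_2_ok) (M (nat_lit 399) (B (L (nat_lit 396) ln15_12_1 ln15_12_1_ok) (L (nat_lit 400) ln16_12_1 ln16_12_1_ok)))))))))) (B (M (nat_lit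 396) (B (M (nat_lit 430) (B (L (nat_lit 394) ln10_12_0 ln10_12_0_ok) (M (nat_lit 398) (B (L (nat_lit 426) ln14_12_1 ln14_12_1_ok) (L (nat_lit 431) ln11_12_0 ln11_12_0_ok))))) (B (M (nat_lit 426) (B (L (nat_lit 398) ln14_12_1 ln14_12_1_ok) (M (nat_lit 425) (B (L (nat_lit 424) ln8_13_2 ln8_13_2_ok) (L (nat_lit 428) ln9_13_2 ln9_13_2_ok))))) (M (nat_lit 430) (B (L (nat_lit 394) ln10_12_0 ln10_12_0_ok) (M (nat_lit 431) (B (L (nat_lit 428) ln15_13_3 ln15_13_3_ok) (L (nat_lit 432) ln16_13_3 ln16_13_3_ok)))))))) (B (M (nat_lit 398) (B (M (nat_lit 426) (B (L (nat_lit 396) ln14_12_1 ln14_12_1_ok) (L (nat_lit 428) ln10_13_2 ln10_13_2_ok))) (B (M (nat_lit 428) (B (L (nat_lit 426) ln10_13_2 ln10_13_2_ok) (M (nat_lit 399) (B (L (nat_lit 400) ln16_12_1 ln16_12_1_ok) (L (nat_lit 430) ln11_13_2 ln11_13_2_ok))))) (B (M (nat_lit 399) (B (M (nat_lit 428) (B (L (nat_lit 396) ln15_12_1 ln15_12_1_ok) (L (nat_lit 400)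 ln16_12_1 ln16_12_1_ok))) (B (M (nat_lit 428) (B (L (nat_lit 400) ln16_12_1 ln16_12_1_ok) (L (nat_lit 430) ln11_13_2 ln11_13_2_ok))) (B (M (nat_lit 428) (B (L (nat_lit 396) ln15_12_1 ln15_12_1_ok) (L (nat_lit 430) ln11_13_2 ln11_13_2_ok))) (M (nat_lit 396) (B (M (nat_lit 363) (B (L (nat_lit 362) ln14_12_3 ln14_12_3_ok) (L (nat_lit 364) ln15_12_3 ln15_12_3_ok))) (M (nat_lit 431) (B (L (nat_lit 430) ln11_12_0 ln11_12_0_ok) (L (nat_lit 432) ln12_12_0 ln12_12_0_ok))))))))) (M (nat_lit 396) (B (L (nat_lit 426) ln14_12_1 ln14_12_1_ok) (M (nat_lit 399) (B (M (nat_lit 363) (B (L (nat_lit 362) ln14_12_3 ln14_12_3_ok) (L (nat_lit 364) ln15_12_3 ln15_12_3_ok))) (M (nat_lit 431) (B (L (nat_lit 430) ln11_12_0 ln11_12_0_ok) (L (nat_lit 432) ln12_12_0 ln12_12_0_ok))))))))))) (B (M (nat_lit 428) (B (M (nat_lit 398) (B (L (nat_lit 426) ln10_13_2 ln10_13_2_ok) (M (nat_lit 399) (B (L (nat_lit 400) ln16_12_1 ln16_12_1_ok)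 (L (nat_lit 430) ln11_13_2 ln11_13_2_ok))))) (B (M (nat_lit 394) (B (L (nat_lit 430) ln14_13_3 ln14_13_3_ok) (M (nat_lit 393) (B (L (nat_lit 392) ln8_12_0 ln8_12_0_ok) (L (nat_lit 426) ln13_13_3 ln13_13_3_ok))))) (B (M (nat_lit 430) (B (L (nat_lit 394) ln14_13_3 ln14_13_3_ok) (M (nat_lit 431) (B (M (nat_lit 399) (B (L (nat_lit 398) ln11_13_2 ln11_13_2_ok) (L (nat_lit 400) ln12_13_2 ln12_13_2_ok))) (M (nat_lit 459) (B (L (nat_lit 458) ln14_13_1 ln14_13_1_ok) (L (nat_lit 460) ln15_13_1 ln15_13_1_ok))))))) (M (nat_lit 426) (B (L (nat_lit 398) ln10_13_2 ln10_13_2_ok) (M (nat_lit 425) (B (M (nat_lit 393) (B (L (nat_lit 392) ln12_13_3 ln12_13_3_ok) (L (nat_lit 394) ln13_13_3 ln13_13_3_ok))) (M (nat_lit 457) (B (L (nat_lit 456) ln12_13_1 ln12_13_1_ok) (L (nat_lit 458) ln13_13_1 ln13_13_1_ok))))))))))) (B (M (nat_lit 394) (B (M (nat_lit 430) (B (L (nat_lit 396) ln10_12_0 ln10_12_0_ok) (L (nat_lit 428) ln14_13_3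 ln14_13_3_ok))) (B (M (nat_lit 428) (B (L (nat_lit 430) ln14_13_3 ln14_13_3_ok) (M (nat_lit 393) (B (L (nat_lit 392) ln8_12_0 ln8_12_0_ok) (L (nat_lit 426) ln13_13_3 ln13_13_3_ok))))) (B (M (nat_lit 396) (B (L (nat_lit 430) ln10_12_0 ln10_12_0_ok) (M (nat_lit 393) (B (M (nat_lit 361) (B (L (nat_lit 360) ln12_12_3 ln12_12_3_ok) (L (nat_lit 362) ln13_12_3 ln13_12_3_ok))) (M (nat_lit 425) (B (L (nat_lit 424) ln12_12_1 ln12_12_1_ok) (L (nat_lit 426) ln13_12_1 ln13_12_1_ok))))))) (M (nat_lit 393) (B (M (nat_lit 428) (B (L (nat_lit 392) ln8_12_0 ln8_12_0_ok) (L (nat_lit 396) ln9_12_0 ln9_12_0_ok))) (B (M (nat_lit 428) (B (L (nat_lit 396) ln9_12_0 ln9_12_0_ok) (L (nat_lit 426) ln13_13_3 ln13_13_3_ok))) (B (M (nat_lit 428) (B (L (nat_lit 392) ln8_12_0 ln8_12_0_ok) (L (nat_lit 426) ln13_13_3 ln13_13_3_ok))) (M (nat_lit 396) (B (M (nat_lit 361) (B (L (nat_lit 360) ln12_12_3 ln12_12_3_ok) (L (nat_lit 362) ln13_12_3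 ln13_12_3_ok))) (M (nat_lit 425) (B (L (nat_lit 424) ln12_12_1 ln12_12_1_ok) (L (nat_lit 426) ln13_12_1 ln13_12_1_ok))))))))))))) (B (M (nat_lit 430) (B (M (nat_lit 394) (B (L (nat_lit 396) ln10_12_0 ln10_12_0_ok) (L (nat_lit 428) ln14_13_3 ln14_13_3_ok))) (B (M (nat_lit 431) (B (M (nat_lit 396) (B (L (nat_lit 398) ln11_12_0 ln11_12_0_ok) (L (nat_lit 428) ln15_13_3 ln15_13_3_ok))) (B (M (nat_lit 428) (B (M (nat_lit 399) (B (L (nat_lit 398) ln11_13_2 ln11_13_2_ok) (L (nat_lit 400) ln12_13_2 ln12_13_2_ok))) (M (nat_lit 459) (B (L (nat_lit 458) ln14_13_1 ln14_13_1_ok) (L (nat_lit 460) ln15_13_1 ln15_13_1_ok))))) (B (M (nat_lit 396) (B (L (nat_lit 428) ln15_13_3 ln15_13_3_ok) (L (nat_lit 432) ln16_13_3 ln16_13_3_ok))) (M (nat_lit 396) (B (L (nat_lit 398) ln11_12_0 ln11_12_0_ok) (L (nat_lit 432) ln16_13_3 ln16_13_3_ok))))))) (B (M (nat_lit 428) (B (L (nat_lit 394) ln14_13_3 ln14_13_3_ok) (M (nat_lit 431)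 (B (M (nat_lit 399) (B (L (nat_lit 398) ln11_13_2 ln11_13_2_ok) (L (nat_lit 400) ln12_13_2 ln12_13_2_ok))) (M (nat_lit 459) (B (L (nat_lit 458) ln14_13_1 ln14_13_1_ok) (L (nat_lit 460) ln15_13_1 ln15_13_1_ok))))))) (M (nat_lit 396) (B (L (nat_lit 394) ln10_12_0 ln10_12_0_ok) (M (nat_lit 431) (B (L (nat_lit 398) ln11_12_0 ln11_12_0_ok) (L (nat_lit 432) ln16_13_3 ln16_13_3_ok))))))))) (B (M (nat_lit 362) (B (M (nat_lit 396) (B (M (nat_lit 394) (B (L (nat_lit 361) ln13_12_3 ln13_12_3_ok) (L (nat_lit 430) ln10_12_0 ln10_12_0_ok))) (M (nat_lit 398) (B (L (nat_lit 363) ln14_12_3 ln14_12_3_ok) (L (nat_lit 426) ln14_12_1 ln14_12_1_ok))))) (B (M (nat_lit 330) (B (M (nat_lit 459) (B (L (nat_lit 363) ln11_14_7 ln11_14_7_ok) (M (nat_lit 394) (B (L (nat_lit 298) ln10_9_4 ln10_9_4_ok) (L (nat_lit 426) ln10_10_4 ln10_10_4_ok))))) (B (M (nat_lit 459) (B (L (nat_lit 363) ln11_14_7 ln11_14_7_ok) (M (nat_lit 394) (B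 (L (nat_lit 426) ln10_10_4 ln10_10_4_ok) (L (nat_lit 491) ln11_15_7 ln11_15_7_ok))))) (B (M (nat_lit 394) (B (L (nat_lit 298) ln10_9_4 ln10_9_4_ok) (M (nat_lit 459) (B (L (nat_lit 426) ln10_10_4 ln10_10_4_ok) (L (nat_lit 491) ln11_15_7 ln11_15_7_ok))))) (B (M (nat_lit 363) (B (L (nat_lit 459) ln11_14_7 ln11_14_7_ok) (M (nat_lit 298) (B (L (nat_lit 266) ln10_8_4 ln10_8_4_ok) (L (nat_lit 331) ln11_13_7 ln11_13_7_ok))))) (M (nat_lit 298) (B (L (nat_lit 394) ln10_9_4 ln10_9_4_ok) (M (nat_lit 363) (B (L (nat_lit 266) ln10_8_4 ln10_8_4_ok) (L (nat_lit 331) ln11_13_7 ln11_13_7_ok)))))))))) (B (M (nat_lit 394) (B (M (nat_lit 396) (B (L (nat_lit 361) ln13_12_3 ln13_12_3_ok) (L (nat_lit 430) ln10_12_0 ln10_12_0_ok))) (M (nat_lit 330) (B (L (nat_lit 298) ln10_9_4 ln10_9_4_ok) (M (nat_lit 459) (B (L (nat_lit 426) ln10_10_4 ln10_10_4_ok) (L (nat_lit 491) ln11_15_7 ln11_15_7_ok))))))) (M (nat_lit 363) (B (M (nat_lit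 330) (B (L (nat_lit 459) ln11_14_7 ln11_14_7_ok) (M (nat_lit 298) (B (L (nat_lit 266) ln10_8_4 ln10_8_4_ok) (L (nat_lit 331) ln11_13_7 ln11_13_7_ok))))) (M (nat_lit 396) (B (L (nat_lit 398) ln14_12_3 ln14_12_3_ok) (M (nat_lit 361) (B (L (nat_lit 360) ln8_11_0 ln8_11_0_ok) (L (nat_lit 364) ln9_11_0 ln9_11_0_ok))))))))))) (M (nat_lit 426) (B (M (nat_lit 398) (B (L (nat_lit 396) ln14_12_1 ln14_12_1_ok) (L (nat_lit 428) ln10_13_2 ln10_13_2_ok))) (B (M (nat_lit 428) (B (L (nat_lit 398) ln10_13_2 ln10_13_2_ok) (M (nat_lit 425) (B (M (nat_lit 393) (B (L (nat_lit 392) ln12_13_3 ln12_13_3_ok) (L (nat_lit 394) ln13_13_3 ln13_13_3_ok))) (M (nat_lit 457) (B (L (nat_lit 456) ln12_13_1 ln12_13_1_ok) (L (nat_lit 458) ln13_13_1 ln13_13_1_ok))))))) (B (M (nat_lit 425) (B (M (nat_lit 396) (B (L (nat_lit 394) ln13_12_1 ln13_12_1_ok) (L (nat_lit 424) ln8_13_2 ln8_13_2_ok))) (B (M (nat_lit 396) (B (L (nat_lit 424) ln8_13_2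 ln8_13_2_ok) (L (nat_lit 428) ln9_13_2 ln9_13_2_ok))) (M (nat_lit 428) (B (M (nat_lit 393) (B (L (nat_lit 392) ln12_13_3 ln12_13_3_ok) (L (nat_lit 394) ln13_13_3 ln13_13_3_ok))) (M (nat_lit 457) (B (L (nat_lit 456) ln12_13_1 ln12_13_1_ok) (L (nat_lit 458) ln13_13_1 ln13_13_1_ok)))))))) (M (nat_lit 396) (B (L (nat_lit 398) ln14_12_1 ln14_12_1_ok) (M (nat_lit 425) (B (L (nat_lit 394) ln13_12_1 ln13_12_1_ok) (L (nat_lit 424) ln8_13_2 ln8_13_2_ok))))))))))))))))) (nat_lit 1386334847463883973240286559205279222343689143051924817714805964187101178362289002460118639712951875498717141642561656535228874752) (nat_lit 6393341036815344226631147156702248347438792185826558969635541887151628511018578335389836100222262577102443347719147729723759571727431147845037588480) (nat_lit 6393341036815344226631147156702248347438792185826558969635541887151628511018578335389836100222262577102443347719147729723759571727431147845037588480)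 (by decide +kernel)
theorem c11_s3738 : Sem (nat_lit 1386334847383188664550070665778531748218595021979121511688892729411143073470393764272092352380775458208712834410189682411080515584) (nat_lit 1013065325790103918797024254938927721371879908715439378135042477052500876361133306565970471764069109264439529489615993470233883846127227824675400085977445550901392204035581280256) (nat_lit 1013065325790103918797024254938927721371879908715439378135042477052500876361133306565970471764069109264439529489615993470233883846127227824675400085977445550901392204035581280256) :=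
  sem_of_chk (M (nat_lit 395) (B (M (nat_lit 396) (B (M (nat_lit 430) (B (L (nat_lit 394) ln10_12_0 ln10_12_0_ok) (M (nat_lit 431) (B (L (nat_lit 398) ln11_12_0 ln11_12_0_ok) (L (nat_lit 428) ln15_13_3 ln15_13_3_ok))))) (B (M (nat_lit 430) (B (M (nat_lit 431) (B (L (nat_lit 398) ln11_12_0 ln11_12_0_ok) (L (nat_lit 428) ln15_13_3 ln15_13_3_ok))) (B (M (nat_lit 431) (B (L (nat_lit 428) ln15_13_3 ln15_13_3_ok) (L (nat_lit 432) ln16_13_3 ln16_13_3_ok))) (B (M (nat_lit 431) (B (L (nat_lit 398) ln11_12_0 ln11_12_0_ok) (L (nat_lit 432) ln16_13_3 ln16_13_3_ok))) (M (nat_lit 398) (B (M (nat_lit 366) (B (L (nat_lit 367) ln11_12_2 ln11_12_2_ok) (M (nat_lit 334) (B (L (nat_lit 302) ln14_9_5 ln14_9_5_ok) (L (nat_lit 461) ln14_10_5 ln14_10_5_ok))))) (M (nat_lit 399) (B (M (nat_lit 363) (B (L (nat_lit 362) ln14_12_3 ln14_12_3_ok) (L (nat_lit 364) ln15_12_3 ln15_12_3_ok))) (M (nat_lit 427) (B (L (nat_lit 426) ln14_12_1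 ln14_12_1_ok) (L (nat_lit 428) ln15_12_1 ln15_12_1_ok))))))))))) (B (M (nat_lit 430) (B (L (nat_lit 394) ln10_12_0 ln10_12_0_ok) (M (nat_lit 431) (B (L (nat_lit 428) ln15_13_3 ln15_13_3_ok) (L (nat_lit 432) ln16_13_3 ln16_13_3_ok))))) (B (M (nat_lit 430) (B (L (nat_lit 394) ln10_12_0 ln10_12_0_ok) (M (nat_lit 431) (B (L (nat_lit 398) ln11_12_0 ln11_12_0_ok) (L (nat_lit 432) ln16_13_3 ln16_13_3_ok))))) (M (nat_lit 394) (B (M (nat_lit 393) (B (L (nat_lit 428) ln9_12_0 ln9_12_0_ok) (M (nat_lit 425) (B (L (nat_lit 424) ln12_12_1 ln12_12_1_ok) (L (nat_lit 426) ln13_12_1 ln13_12_1_ok))))) (B (M (nat_lit 398) (B (M (nat_lit 362) (B (L (nat_lit 361) ln13_12_3 ln13_12_3_ok) (L (nat_lit 363) ln14_12_3 ln14_12_3_ok))) (M (nat_lit 426) (B (L (nat_lit 425) ln13_12_1 ln13_12_1_ok) (L (nat_lit 427) ln14_12_1 ln14_12_1_ok))))) (M (nat_lit 393) (B (L (nat_lit 428) ln9_12_0 ln9_12_0_ok) (M (nat_lit 361) (B (L (nat_lit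 360) ln12_12_3 ln12_12_3_ok) (L (nat_lit 362) ln13_12_3 ln13_12_3_ok))))))))))))) (B (K (nat_lit 1386334847463883973240286559205279222343689143051924817714805964187101178362289002460118639712951875498717141642561656535228874752) (nat_lit 1013065325790103918797024254938927721371879908715439378134795347668734075564436259924968326078950624857250587674623058686355848820829386319258293323217997881962644363551352815616) (nat_lit 1013065325790103918797024254938927721371879908715439378134795347668734075564436259924968326078950624857250587674623058686355848820829386319258293323217997881962644363551352815616) c11_s2498) (B (M (nat_lit 396) (B (M (nat_lit 430) (B (L (nat_lit 394) ln10_12_0 ln10_12_0_ok) (M (nat_lit 431) (B (L (nat_lit 398) ln11_12_0 ln11_12_0_ok) (L (nat_lit 432) ln16_13_3 ln16_13_3_ok))))) (B (M (nat_lit 430) (B (M (nat_lit 431) (B (L (nat_lit 398) ln11_12_0 ln11_12_0_ok) (L (nat_lit 428)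 ln15_13_3 ln15_13_3_ok))) (B (M (nat_lit 431) (B (L (nat_lit 428) ln15_13_3 ln15_13_3_ok) (L (nat_lit 432) ln16_13_3 ln16_13_3_ok))) (B (M (nat_lit 431) (B (L (nat_lit 398) ln11_12_0 ln11_12_0_ok) (L (nat_lit 432) ln16_13_3 ln16_13_3_ok))) (M (nat_lit 398) (B (M (nat_lit 366) (B (L (nat_lit 367) ln11_12_2 ln11_12_2_ok) (M (nat_lit 334) (B (L (nat_lit 302) ln14_9_5 ln14_9_5_ok) (L (nat_lit 461) ln14_10_5 ln14_10_5_ok))))) (M (nat_lit 399) (B (M (nat_lit 363) (B (L (nat_lit 362) ln14_12_3 ln14_12_3_ok) (L (nat_lit 364) ln15_12_3 ln15_12_3_ok))) (M (nat_lit 400) (B (L (nat_lit 428) ln16_12_1 ln16_12_1_ok) (L (nat_lit 401) ln17_12_1 ln17_12_1_ok))))))))))) (B (M (nat_lit 430) (B (L (nat_lit 394) ln10_12_0 ln10_12_0_ok) (M (nat_lit 431) (B (L (nat_lit 428) ln15_13_3 ln15_13_3_ok) (L (nat_lit 432) ln16_13_3 ln16_13_3_ok))))) (B (M (nat_lit 398) (B (M (nat_lit 363) (B (L (nat_lit 362) ln14_12_3 ln14_12_3_ok)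 (M (nat_lit 399) (B (L (nat_lit 364) ln15_12_3 ln15_12_3_ok) (M (nat_lit 367) (B (L (nat_lit 366) ln11_12_2 ln11_12_2_ok) (L (nat_lit 368) ln12_12_2 ln12_12_2_ok))))))) (B (M (nat_lit 399) (B (M (nat_lit 367) (B (L (nat_lit 366) ln11_12_2 ln11_12_2_ok) (L (nat_lit 368) ln12_12_2 ln12_12_2_ok))) (M (nat_lit 400) (B (L (nat_lit 428) ln16_12_1 ln16_12_1_ok) (M (nat_lit 432) (B (L (nat_lit 431) ln12_12_0 ln12_12_0_ok) (L (nat_lit 433) ln13_12_0 ln13_12_0_ok))))))) (B (M (nat_lit 399) (B (M (nat_lit 363) (B (L (nat_lit 362) ln14_12_3 ln14_12_3_ok) (L (nat_lit 364) ln15_12_3 ln15_12_3_ok))) (M (nat_lit 400) (B (L (nat_lit 428) ln16_12_1 ln16_12_1_ok) (M (nat_lit 432) (B (L (nat_lit 431) ln12_12_0 ln12_12_0_ok) (L (nat_lit 433) ln13_12_0 ln13_12_0_ok))))))) (M (nat_lit 394) (B (M (nat_lit 362) (B (L (nat_lit 361) ln13_12_3 ln13_12_3_ok) (L (nat_lit 363) ln14_12_3 ln14_12_3_ok))) (M (nat_lit 393) (B (L (nat_lit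 428) ln9_12_0 ln9_12_0_ok) (M (nat_lit 425) (B (L (nat_lit 424) ln12_12_1 ln12_12_1_ok) (L (nat_lit 426) ln13_12_1 ln13_12_1_ok))))))))))) (M (nat_lit 394) (B (L (nat_lit 430) ln10_12_0 ln10_12_0_ok) (M (nat_lit 393) (B (L (nat_lit 428) ln9_12_0 ln9_12_0_ok) (M (nat_lit 425) (B (L (nat_lit 424) ln12_12_1 ln12_12_1_ok) (L (nat_lit 426) ln13_12_1 ln13_12_1_ok)))))))))))) (B (K (nat_lit 1386334847463883973240286559205279222343689143051924817714805964187101178362289002460118639712951875498717141642561656535228874752) (nat_lit 1013065324846613311822781578841617331383272968448249702552687411088867599010883609852201075406979802948856532362086060487782085898408284662712278390455273521499252042408105345024) (nat_lit 1013065324846613311822781578841617331383272968448249702552687411088867599010883609852201075406979802948856532362086060487782085898408284662712278390455273521499252042408105345024) c11_s2954) (B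 c11_n3028 (B (K (nat_lit 1386334847463883973240286559205279222343689143051924817714805964187101178362289002460118639712951875498717141642561656535228874752) (nat_lit 294840814864800373173863126662622798044439092551120631262332858629730110518552093077918741940378365346685082848912608609124710909259734000187627563473435086699653758976) (nat_lit 294840814864800373173863126662622798044439092551120631262332858629730110518552093077918741940378365346685082848912608609124710909259734000187627563473435086699653758976) c11_s3384) (B (M (nat_lit 396) (B (M (nat_lit 430) (B (L (nat_lit 394) ln10_12_0 ln10_12_0_ok) (M (nat_lit 431) (B (L (nat_lit 428) ln15_13_3 ln15_13_3_ok) (L (nat_lit 432) ln16_13_3 ln16_13_3_ok))))) (B (M (nat_lit 430) (B (M (nat_lit 431) (B (L (nat_lit 398) ln11_12_0 ln11_12_0_ok) (L (nat_lit 428) ln15_13_3 ln15_13_3_ok))) (B (M (nat_lit 431) (B (L (nat_lit 428) ln15_13_3 ln15_13_3_ok) (L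 (nat_lit 432) ln16_13_3 ln16_13_3_ok))) (B (M (nat_lit 431) (B (L (nat_lit 398) ln11_12_0 ln11_12_0_ok) (L (nat_lit 432) ln16_13_3 ln16_13_3_ok))) (M (nat_lit 398) (B (M (nat_lit 366) (B (L (nat_lit 367) ln11_12_2 ln11_12_2_ok) (M (nat_lit 334) (B (L (nat_lit 302) ln14_9_5 ln14_9_5_ok) (L (nat_lit 461) ln14_10_5 ln14_10_5_ok))))) (M (nat_lit 399) (B (M (nat_lit 363) (B (L (nat_lit 362) ln14_12_3 ln14_12_3_ok) (L (nat_lit 364) ln15_12_3 ln15_12_3_ok))) (M (nat_lit 400) (B (L (nat_lit 428) ln16_12_1 ln16_12_1_ok) (L (nat_lit 401) ln17_12_1 ln17_12_1_ok))))))))))) (B (M (nat_lit 430) (B (L (nat_lit 394) ln10_12_0 ln10_12_0_ok) (M (nat_lit 431) (B (L (nat_lit 398) ln11_12_0 ln11_12_0_ok) (L (nat_lit 432) ln16_13_3 ln16_13_3_ok))))) (M (nat_lit 398) (B (M (nat_lit 363) (B (L (nat_lit 362) ln14_12_3 ln14_12_3_ok) (M (nat_lit 399) (B (L (nat_lit 364) ln15_12_3 ln15_12_3_ok) (M (nat_lit 367) (B (L (nat_lit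 366) ln11_12_2 ln11_12_2_ok) (L (nat_lit 368) ln12_12_2 ln12_12_2_ok))))))) (B (M (nat_lit 399) (B (M (nat_lit 367) (B (L (nat_lit 366) ln11_12_2 ln11_12_2_ok) (L (nat_lit 368) ln12_12_2 ln12_12_2_ok))) (M (nat_lit 428) (B (L (nat_lit 427) ln15_12_1 ln15_12_1_ok) (L (nat_lit 400) ln16_12_1 ln16_12_1_ok))))) (B (M (nat_lit 399) (B (M (nat_lit 363) (B (L (nat_lit 362) ln14_12_3 ln14_12_3_ok) (L (nat_lit 364) ln15_12_3 ln15_12_3_ok))) (M (nat_lit 428) (B (L (nat_lit 427) ln15_12_1 ln15_12_1_ok) (L (nat_lit 400) ln16_12_1 ln16_12_1_ok))))) (M (nat_lit 394) (B (M (nat_lit 362) (B (L (nat_lit 361) ln13_12_3 ln13_12_3_ok) (L (nat_lit 363) ln14_12_3 ln14_12_3_ok))) (B (M (nat_lit 393) (B (L (nat_lit 428) ln9_12_0 ln9_12_0_ok) (M (nat_lit 392) (B (M (nat_lit 363) (B (L (nat_lit 362) ln14_12_3 ln14_12_3_ok) (L (nat_lit 364) ln8_12_2 ln8_12_2_ok))) (M (nat_lit 424) (B (L (nat_lit 423) ln11_12_1 ln11_12_1_ok)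 (L (nat_lit 425) ln12_12_1 ln12_12_1_ok))))))) (M (nat_lit 393) (B (L (nat_lit 428) ln9_12_0 ln9_12_0_ok) (M (nat_lit 392) (B (M (nat_lit 360) (B (L (nat_lit 359) ln11_12_3 ln11_12_3_ok) (L (nat_lit 361) ln12_12_3 ln12_12_3_ok))) (M (nat_lit 424) (B (L (nat_lit 423) ln11_12_1 ln11_12_1_ok) (L (nat_lit 425) ln12_12_1 ln12_12_1_ok)))))))))))))))))) (B (M (nat_lit 396) (B (M (nat_lit 430) (B (L (nat_lit 394) ln10_12_0 ln10_12_0_ok) (M (nat_lit 431) (B (L (nat_lit 398) ln11_12_0 ln11_12_0_ok) (L (nat_lit 432) ln16_13_3 ln16_13_3_ok))))) (B (M (nat_lit 398) (B (M (nat_lit 430) (B (L (nat_lit 431) ln11_12_0 ln11_12_0_ok) (M (nat_lit 366) (B (L (nat_lit 367) ln11_12_2 ln11_12_2_ok) (M (nat_lit 334) (B (L (nat_lit 302) ln14_9_5 ln14_9_5_ok) (L (nat_lit 461) ln14_10_5 ln14_10_5_ok))))))) (B (M (nat_lit 399) (B (M (nat_lit 367) (B (L (nat_lit 366) ln11_12_2 ln11_12_2_ok) (L (nat_lit 368) ln12_12_2 ln12_12_2_ok)))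 (M (nat_lit 431) (B (L (nat_lit 430) ln11_12_0 ln11_12_0_ok) (L (nat_lit 432) ln12_12_0 ln12_12_0_ok))))) (B (M (nat_lit 399) (B (M (nat_lit 427) (B (L (nat_lit 426) ln14_12_1 ln14_12_1_ok) (L (nat_lit 428) ln15_12_1 ln15_12_1_ok))) (M (nat_lit 431) (B (L (nat_lit 430) ln11_12_0 ln11_12_0_ok) (L (nat_lit 432) ln12_12_0 ln12_12_0_ok))))) (M (nat_lit 399) (B (M (nat_lit 367) (B (L (nat_lit 366) ln11_12_2 ln11_12_2_ok) (L (nat_lit 368) ln12_12_2 ln12_12_2_ok))) (M (nat_lit 427) (B (L (nat_lit 426) ln14_12_1 ln14_12_1_ok) (L (nat_lit 428) ln15_12_1 ln15_12_1_ok))))))))) (B (M (nat_lit 430) (B (L (nat_lit 394) ln10_12_0 ln10_12_0_ok) (M (nat_lit 431) (B (L (nat_lit 428) ln15_13_3 ln15_13_3_ok) (L (nat_lit 432) ln16_13_3 ln16_13_3_ok))))) (M (nat_lit 394) (B (M (nat_lit 393) (B (L (nat_lit 428) ln9_12_0 ln9_12_0_ok) (M (nat_lit 425) (B (L (nat_lit 424) ln12_12_1 ln12_12_1_ok) (L (nat_lit 426) ln13_12_1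 ln13_12_1_ok))))) (B (M (nat_lit 426) (B (L (nat_lit 425) ln13_12_1 ln13_12_1_ok) (M (nat_lit 427) (B (L (nat_lit 398) ln14_12_1 ln14_12_1_ok) (M (nat_lit 362) (B (L (nat_lit 361) ln13_12_3 ln13_12_3_ok) (M (nat_lit 330) (B (L (nat_lit 298) ln10_9_4 ln10_9_4_ok) (L (nat_lit 459) ln10_10_4 ln10_10_4_ok))))))))) (M (nat_lit 393) (B (L (nat_lit 428) ln9_12_0 ln9_12_0_ok) (M (nat_lit 361) (B (L (nat_lit 360) ln12_12_3 ln12_12_3_ok) (L (nat_lit 362) ln13_12_3 ln13_12_3_ok)))))))))))) (B (K (nat_lit 1386334847463883973240286559205279222343689143051924817714805964187101178362289002460118639712951875498717141642561656535228874752) (nat_lit 68647976650854490151970820959504565058287788983132347986800269560481291998987807442786427325357183175600167328993912451402256146545155253971848486818957754368) (nat_lit 68647976650854490151970820959504565058287788983132347986800269560481291998987807442786427325357183175600167328993912451402256146545155253971848486818957754368)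 c11_s3601) (B (M (nat_lit 396) (B (M (nat_lit 430) (B (L (nat_lit 394) ln10_12_0 ln10_12_0_ok) (M (nat_lit 431) (B (L (nat_lit 428) ln15_13_3 ln15_13_3_ok) (L (nat_lit 432) ln16_13_3 ln16_13_3_ok))))) (B (M (nat_lit 398) (B (M (nat_lit 399) (B (M (nat_lit 367) (B (L (nat_lit 366) ln11_12_2 ln11_12_2_ok) (L (nat_lit 368) ln12_12_2 ln12_12_2_ok))) (M (nat_lit 427) (B (L (nat_lit 426) ln14_12_1 ln14_12_1_ok) (L (nat_lit 428) ln15_12_1 ln15_12_1_ok))))) (B (M (nat_lit 399) (B (M (nat_lit 427) (B (L (nat_lit 426) ln14_12_1 ln14_12_1_ok) (L (nat_lit 428) ln15_12_1 ln15_12_1_ok))) (M (nat_lit 431) (B (L (nat_lit 430) ln11_12_0 ln11_12_0_ok) (L (nat_lit 432) ln12_12_0 ln12_12_0_ok))))) (M (nat_lit 366) (B (L (nat_lit 367) ln11_12_2 ln11_12_2_ok) (M (nat_lit 461) (B (L (nat_lit 493) ln13_15_6 ln13_15_6_ok) (M (nat_lit 334) (B (L (nat_lit 302) ln14_9_5 ln14_9_5_ok) (L (nat_lit 430) ln14_10_5 ln14_10_5_ok))))))))))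 (B (M (nat_lit 430) (B (L (nat_lit 394) ln10_12_0 ln10_12_0_ok) (M (nat_lit 431) (B (L (nat_lit 398) ln11_12_0 ln11_12_0_ok) (L (nat_lit 432) ln16_13_3 ln16_13_3_ok))))) (M (nat_lit 364) (B (M (nat_lit 332) (B (L (nat_lit 300) ln12_9_4 ln12_9_4_ok) (M (nat_lit 461) (B (L (nat_lit 428) ln12_10_4 ln12_10_4_ok) (L (nat_lit 493) ln13_15_7 ln13_15_7_ok))))) (B (M (nat_lit 427) (B (M (nat_lit 426) (B (L (nat_lit 398) ln14_12_1 ln14_12_1_ok) (M (nat_lit 425) (B (L (nat_lit 394) ln13_12_1 ln13_12_1_ok) (L (nat_lit 424) ln8_13_2 ln8_13_2_ok))))) (B (M (nat_lit 426) (B (L (nat_lit 398) ln14_12_1 ln14_12_1_ok) (M (nat_lit 425) (B (L (nat_lit 424) ln8_13_2 ln8_13_2_ok) (L (nat_lit 428) ln9_13_2 ln9_13_2_ok))))) (M (nat_lit 459) (B (L (nat_lit 491) ln11_15_6 ln11_15_6_ok) (M (nat_lit 332) (B (L (nat_lit 363) ln11_14_6 ln11_14_6_ok) (L (nat_lit 428) ln12_10_5 ln12_10_5_ok)))))))) (B (M (nat_lit 394) (B (M (nat_lit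 393) (B (L (nat_lit 428) ln9_12_0 ln9_12_0_ok) (M (nat_lit 425) (B (L (nat_lit 424) ln12_12_1 ln12_12_1_ok) (L (nat_lit 426) ln13_12_1 ln13_12_1_ok))))) (B (M (nat_lit 398) (B (M (nat_lit 426) (B (L (nat_lit 425) ln13_12_1 ln13_12_1_ok) (L (nat_lit 427) ln14_12_1 ln14_12_1_ok))) (M (nat_lit 367) (B (L (nat_lit 366) ln11_12_2 ln11_12_2_ok) (M (nat_lit 399) (B (L (nat_lit 363) ln15_12_3 ln15_12_3_ok) (L (nat_lit 368) ln12_12_2 ln12_12_2_ok))))))) (M (nat_lit 393) (B (L (nat_lit 428) ln9_12_0 ln9_12_0_ok) (M (nat_lit 392) (B (L (nat_lit 363) ln8_12_2 ln8_12_2_ok) (M (nat_lit 360) (B (L (nat_lit 359) ln11_12_3 ln11_12_3_ok) (L (nat_lit 361) ln12_12_3 ln12_12_3_ok)))))))))) (M (nat_lit 427) (B (M (nat_lit 426) (B (L (nat_lit 398) ln14_12_1 ln14_12_1_ok) (M (nat_lit 425) (B (L (nat_lit 394) ln13_12_1 ln13_12_1_ok) (L (nat_lit 424) ln8_13_2 ln8_13_2_ok))))) (M (nat_lit 332) (B (L (nat_lit 300) ln12_9_5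 ln12_9_5_ok) (M (nat_lit 459) (B (L (nat_lit 363) ln11_14_6 ln11_14_6_ok) (L (nat_lit 491) ln11_15_6 ln11_15_6_ok))))))))))))))) (B (M (nat_lit 396) (B (M (nat_lit 394) (B (L (nat_lit 430) ln10_12_0 ln10_12_0_ok) (M (nat_lit 393) (B (L (nat_lit 428) ln9_12_0 ln9_12_0_ok) (M (nat_lit 425) (B (L (nat_lit 424) ln12_12_1 ln12_12_1_ok) (L (nat_lit 426) ln13_12_1 ln13_12_1_ok))))))) (B (M (nat_lit 398) (B (M (nat_lit 426) (B (L (nat_lit 427) ln14_12_1 ln14_12_1_ok) (M (nat_lit 394) (B (L (nat_lit 425) ln13_12_1 ln13_12_1_ok) (L (nat_lit 430) ln10_12_0 ln10_12_0_ok))))) (B (M (nat_lit 399) (B (M (nat_lit 363) (B (L (nat_lit 362) ln14_12_3 ln14_12_3_ok) (L (nat_lit 364) ln15_12_3 ln15_12_3_ok))) (M (nat_lit 427) (B (L (nat_lit 426) ln14_12_1 ln14_12_1_ok) (L (nat_lit 428) ln15_12_1 ln15_12_1_ok))))) (M (nat_lit 363) (B (L (nat_lit 362) ln14_12_3 ln14_12_3_ok) (M (nat_lit 399) (B (L (nat_lit 364) ln15_12_3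 ln15_12_3_ok) (M (nat_lit 367) (B (L (nat_lit 366) ln11_12_2 ln11_12_2_ok) (L (nat_lit 368) ln12_12_2 ln12_12_2_ok)))))))))) (B (M (nat_lit 398) (B (M (nat_lit 399) (B (M (nat_lit 367) (B (L (nat_lit 366) ln11_12_2 ln11_12_2_ok) (L (nat_lit 368) ln12_12_2 ln12_12_2_ok))) (M (nat_lit 427) (B (L (nat_lit 426) ln14_12_1 ln14_12_1_ok) (L (nat_lit 428) ln15_12_1 ln15_12_1_ok))))) (B (M (nat_lit 399) (B (M (nat_lit 363) (B (L (nat_lit 362) ln14_12_3 ln14_12_3_ok) (L (nat_lit 364) ln15_12_3 ln15_12_3_ok))) (M (nat_lit 427) (B (L (nat_lit 426) ln14_12_1 ln14_12_1_ok) (L (nat_lit 428) ln15_12_1 ln15_12_1_ok))))) (M (nat_lit 366) (B (L (nat_lit 367) ln11_12_2 ln11_12_2_ok) (M (nat_lit 461) (B (L (nat_lit 493) ln13_15_6 ln13_15_6_ok) (M (nat_lit 334) (B (L (nat_lit 302) ln14_9_5 ln14_9_5_ok) (L (nat_lit 430) ln14_10_5 ln14_10_5_ok)))))))))) (B (M (nat_lit 394) (B (L (nat_lit 430) ln10_12_0 ln10_12_0_ok) (M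 (nat_lit 393) (B (L (nat_lit 428) ln9_12_0 ln9_12_0_ok) (M (nat_lit 361) (B (L (nat_lit 360) ln12_12_3 ln12_12_3_ok) (L (nat_lit 362) ln13_12_3 ln13_12_3_ok))))))) (B (M (nat_lit 394) (B (L (nat_lit 430) ln10_12_0 ln10_12_0_ok) (M (nat_lit 393) (B (M (nat_lit 361) (B (L (nat_lit 360) ln12_12_3 ln12_12_3_ok) (L (nat_lit 362) ln13_12_3 ln13_12_3_ok))) (M (nat_lit 425) (B (L (nat_lit 424) ln12_12_1 ln12_12_1_ok) (L (nat_lit 426) ln13_12_1 ln13_12_1_ok))))))) (M (nat_lit 394) (B (M (nat_lit 393) (B (L (nat_lit 428) ln9_12_0 ln9_12_0_ok) (M (nat_lit 425) (B (L (nat_lit 424) ln12_12_1 ln12_12_1_ok) (L (nat_lit 426) ln13_12_1 ln13_12_1_ok))))) (B (M (nat_lit 398) (B (M (nat_lit 362) (B (L (nat_lit 361) ln13_12_3 ln13_12_3_ok) (L (nat_lit 363) ln14_12_3 ln14_12_3_ok))) (M (nat_lit 426) (B (L (nat_lit 425) ln13_12_1 ln13_12_1_ok) (L (nat_lit 427) ln14_12_1 ln14_12_1_ok))))) (M (nat_lit 393) (B (L (nat_lit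 428) ln9_12_0 ln9_12_0_ok) (M (nat_lit 361) (B (L (nat_lit 360) ln12_12_3 ln12_12_3_ok) (L (nat_lit 362) ln13_12_3 ln13_12_3_ok)))))))))))))) (B (M (nat_lit 396) (B (M (nat_lit 430) (B (L (nat_lit 394) ln10_12_0 ln10_12_0_ok) (M (nat_lit 431) (B (L (nat_lit 398) ln11_12_0 ln11_12_0_ok) (L (nat_lit 432) ln16_13_3 ln16_13_3_ok))))) (B (M (nat_lit 430) (B (M (nat_lit 431) (B (L (nat_lit 398) ln11_12_0 ln11_12_0_ok) (L (nat_lit 428) ln15_13_3 ln15_13_3_ok))) (B (M (nat_lit 431) (B (L (nat_lit 428) ln15_13_3 ln15_13_3_ok) (L (nat_lit 432) ln16_13_3 ln16_13_3_ok))) (B (M (nat_lit 431) (B (L (nat_lit 398) ln11_12_0 ln11_12_0_ok) (L (nat_lit 432) ln16_13_3 ln16_13_3_ok))) (M (nat_lit 398) (B (M (nat_lit 366) (B (L (nat_lit 367) ln11_12_2 ln11_12_2_ok) (M (nat_lit 334) (B (L (nat_lit 302) ln14_9_5 ln14_9_5_ok) (L (nat_lit 461) ln14_10_5 ln14_10_5_ok))))) (M (nat_lit 399) (B (M (nat_lit 363) (B (L (nat_lit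 362) ln14_12_3 ln14_12_3_ok) (L (nat_lit 364) ln15_12_3 ln15_12_3_ok))) (M (nat_lit 400) (B (L (nat_lit 428) ln16_12_1 ln16_12_1_ok) (L (nat_lit 401) ln17_12_1 ln17_12_1_ok))))))))))) (B (M (nat_lit 430) (B (L (nat_lit 394) ln10_12_0 ln10_12_0_ok) (M (nat_lit 431) (B (L (nat_lit 428) ln15_13_3 ln15_13_3_ok) (L (nat_lit 432) ln16_13_3 ln16_13_3_ok))))) (M (nat_lit 398) (B (M (nat_lit 394) (B (M (nat_lit 362) (B (L (nat_lit 361) ln13_12_3 ln13_12_3_ok) (L (nat_lit 363) ln14_12_3 ln14_12_3_ok))) (M (nat_lit 426) (B (L (nat_lit 425) ln13_12_1 ln13_12_1_ok) (L (nat_lit 427) ln14_12_1 ln14_12_1_ok))))) (B (M (nat_lit 399) (B (M (nat_lit 363) (B (L (nat_lit 362) ln14_12_3 ln14_12_3_ok) (L (nat_lit 364) ln15_12_3 ln15_12_3_ok))) (M (nat_lit 427) (B (L (nat_lit 426) ln14_12_1 ln14_12_1_ok) (L (nat_lit 428) ln15_12_1 ln15_12_1_ok))))) (B (M (nat_lit 399) (B (M (nat_lit 367) (B (L (nat_lit 366) ln11_12_2 ln11_12_2_ok)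 (L (nat_lit 368) ln12_12_2 ln12_12_2_ok))) (M (nat_lit 427) (B (L (nat_lit 426) ln14_12_1 ln14_12_1_ok) (L (nat_lit 428) ln15_12_1 ln15_12_1_ok))))) (B (M (nat_lit 399) (B (M (nat_lit 363) (B (L (nat_lit 362) ln14_12_3 ln14_12_3_ok) (L (nat_lit 364) ln15_12_3 ln15_12_3_ok))) (M (nat_lit 428) (B (L (nat_lit 427) ln15_12_1 ln15_12_1_ok) (L (nat_lit 400) ln16_12_1 ln16_12_1_ok))))) (M (nat_lit 363) (B (L (nat_lit 362) ln14_12_3 ln14_12_3_ok) (M (nat_lit 399) (B (L (nat_lit 364) ln15_12_3 ln15_12_3_ok) (M (nat_lit 367) (B (L (nat_lit 366) ln11_12_2 ln11_12_2_ok) (L (nat_lit 368) ln12_12_2 ln12_12_2_ok)))))))))))))))) (B (M (nat_lit 396) (B (M (nat_lit 430) (B (L (nat_lit 394) ln10_12_0 ln10_12_0_ok) (M (nat_lit 431) (B (L (nat_lit 428) ln15_13_3 ln15_13_3_ok) (L (nat_lit 432) ln16_13_3 ln16_13_3_ok))))) (B (M (nat_lit 430) (B (M (nat_lit 431) (B (L (nat_lit 398) ln11_12_0 ln11_12_0_ok) (L (nat_lit 428)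 ln15_13_3 ln15_13_3_ok))) (B (M (nat_lit 431) (B (L (nat_lit 428) ln15_13_3 ln15_13_3_ok) (L (nat_lit 432) ln16_13_3 ln16_13_3_ok))) (B (M (nat_lit 431) (B (L (nat_lit 398) ln11_12_0 ln11_12_0_ok) (L (nat_lit 432) ln16_13_3 ln16_13_3_ok))) (M (nat_lit 398) (B (M (nat_lit 366) (B (L (nat_lit 367) ln11_12_2 ln11_12_2_ok) (M (nat_lit 334) (B (L (nat_lit 302) ln14_9_5 ln14_9_5_ok) (L (nat_lit 461) ln14_10_5 ln14_10_5_ok))))) (M (nat_lit 399) (B (M (nat_lit 363) (B (L (nat_lit 362) ln14_12_3 ln14_12_3_ok) (L (nat_lit 364) ln15_12_3 ln15_12_3_ok))) (M (nat_lit 400) (B (L (nat_lit 428) ln16_12_1 ln16_12_1_ok) (L (nat_lit 401) ln17_12_1 ln17_12_1_ok))))))))))) (B (M (nat_lit 430) (B (L (nat_lit 394) ln10_12_0 ln10_12_0_ok) (M (nat_lit 431) (B (L (nat_lit 398) ln11_12_0 ln11_12_0_ok) (L (nat_lit 432) ln16_13_3 ln16_13_3_ok))))) (M (nat_lit 398) (B (M (nat_lit 399) (B (M (nat_lit 367) (B (L (nat_lit 366) ln11_12_2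 ln11_12_2_ok) (L (nat_lit 368) ln12_12_2 ln12_12_2_ok))) (M (nat_lit 427) (B (L (nat_lit 426) ln14_12_1 ln14_12_1_ok) (L (nat_lit 428) ln15_12_1 ln15_12_1_ok))))) (B (M (nat_lit 399) (B (M (nat_lit 363) (B (L (nat_lit 362) ln14_12_3 ln14_12_3_ok) (L (nat_lit 364) ln15_12_3 ln15_12_3_ok))) (M (nat_lit 427) (B (L (nat_lit 426) ln14_12_1 ln14_12_1_ok) (L (nat_lit 428) ln15_12_1 ln15_12_1_ok))))) (B (M (nat_lit 428) (B (M (nat_lit 426) (B (L (nat_lit 427) ln14_12_1 ln14_12_1_ok) (M (nat_lit 394) (B (L (nat_lit 393) ln9_12_0 ln9_12_0_ok) (L (nat_lit 425) ln13_12_1 ln13_12_1_ok))))) (B (M (nat_lit 427) (B (L (nat_lit 426) ln14_12_1 ln14_12_1_ok) (M (nat_lit 363) (B (L (nat_lit 362) ln14_12_3 ln14_12_3_ok) (M (nat_lit 331) (B (L (nat_lit 299) ln11_9_4 ln11_9_4_ok) (L (nat_lit 460) ln11_10_4 ln11_10_4_ok))))))) (B (M (nat_lit 363) (B (L (nat_lit 362) ln14_12_3 ln14_12_3_ok) (M (nat_lit 331) (B (L (nat_lit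 299) ln11_9_4 ln11_9_4_ok) (M (nat_lit 460) (B (L (nat_lit 364) ln12_14_7 ln12_14_7_ok) (L (nat_lit 427) ln11_10_4 ln11_10_4_ok))))))) (M (nat_lit 363) (B (L (nat_lit 362) ln14_12_3 ln14_12_3_ok) (M (nat_lit 364) (B (M (nat_lit 331) (B (L (nat_lit 299) ln11_9_4 ln11_9_4_ok) (L (nat_lit 460) ln12_14_7 ln12_14_7_ok))) (M (nat_lit 461) (B (L (nat_lit 332) ln12_10_4 ln12_10_4_ok) (L (nat_lit 493) ln13_15_7 ln13_15_7_ok))))))))))) (B (M (nat_lit 399) (B (M (nat_lit 363) (B (L (nat_lit 362) ln14_12_3 ln14_12_3_ok) (L (nat_lit 364) ln15_12_3 ln15_12_3_ok))) (M (nat_lit 428) (B (L (nat_lit 427) ln15_12_1 ln15_12_1_ok) (L (nat_lit 400) ln16_12_1 ln16_12_1_ok))))) (M (nat_lit 363) (B (L (nat_lit 362) ln14_12_3 ln14_12_3_ok) (M (nat_lit 399) (B (L (nat_lit 364) ln15_12_3 ln15_12_3_ok) (M (nat_lit 367) (B (L (nat_lit 366) ln11_12_2 ln11_12_2_ok) (L (nat_lit 368) ln12_12_2 ln12_12_2_ok)))))))))))))))) (B c11_n3635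 (K (nat_lit 1386334847463883973240286559205279222343689143051924817714805964187101178362289002460118639712951875498717141642561656535228874752) (nat_lit 6393341036815344226631147156702248347438792185826558969635541887151628511018578335389836100222262577102443347719147729723759571727431147845037588480) (nat_lit 6393341036815344226631147156702248347438792185826558969635541887151628511018578335389836100222262577102443347719147729723759571727431147845037588480) c11_s3737)))))))))))))))) (nat_lit 1386334847383188664550070665778531748218595021979121511688892729411143073470393764272092352380775458208712834410189682411080515584) (nat_lit 1013065325790103918797024254938927721371879908715439378135042477052500876361133306565970471764069109264439529489615993470233883846127227824675400085977445550901392204035581280256) (nat_lit 1013065325790103918797024254938927721371879908715439378135042477052500876361133306565970471764069109264439529489615993470233883846127227824675400085977445550901392204035581280256)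 (by decide +kernel)
noncomputable def c11_n3874 : Cert := (M (nat_lit 366) (B (M (nat_lit 334) (B (L (nat_lit 302) ln14_9_5 ln14_9_5_ok) (M (nat_lit 461) (B (L (nat_lit 365) ln13_14_6 ln13_14_6_ok) (L (nat_lit 493) ln13_15_6 ln13_15_6_ok))))) (B (M (nat_lit 461) (B (L (nat_lit 493) ln13_15_6 ln13_15_6_ok) (M (nat_lit 334) (B (L (nat_lit 365) ln13_14_6 ln13_14_6_ok) (L (nat_lit 430) ln14_10_5 ln14_10_5_ok))))) (B (M (nat_lit 461) (B (L (nat_lit 493) ln13_15_6 ln13_15_6_ok) (M (nat_lit 396) (B (M (nat_lit 395) (B (L (nat_lit 367) ln11_12_2 ln11_12_2_ok) (M (nat_lit 394) (B (L (nat_lit 365) ln10_12_2 ln10_12_2_ok) (L (nat_lit 430) ln10_12_0 ln10_12_0_ok))))) (B (M (nat_lit 395) (B (L (nat_lit 367) ln11_12_2 ln11_12_2_ok) (M (nat_lit 430) (B (L (nat_lit 394) ln10_12_0 ln10_12_0_ok) (L (nat_lit 431) ln11_12_0 ln11_12_0_ok))))) (B (M (nat_lit 364) (B (M (nat_lit 332) (B (L (nat_lit 300) ln12_9_4 ln12_9_4_ok)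 (L (nat_lit 365) ln13_14_7 ln13_14_7_ok))) (M (nat_lit 363) (B (L (nat_lit 399) ln15_12_3 ln15_12_3_ok) (M (nat_lit 362) (B (L (nat_lit 361) ln9_11_0 ln9_11_0_ok) (L (nat_lit 395) ln14_12_3 ln14_12_3_ok))))))) (M (nat_lit 399) (B (M (nat_lit 364) (B (L (nat_lit 363) ln15_12_3 ln15_12_3_ok) (M (nat_lit 332) (B (L (nat_lit 300) ln12_9_4 ln12_9_4_ok) (L (nat_lit 365) ln13_14_7 ln13_14_7_ok))))) (B (M (nat_lit 364) (B (L (nat_lit 363) ln15_12_3 ln15_12_3_ok) (M (nat_lit 365) (B (L (nat_lit 332) ln13_14_7 ln13_14_7_ok) (L (nat_lit 400) ln16_12_3 ln16_12_3_ok))))) (B (M (nat_lit 400) (B (M (nat_lit 364) (B (L (nat_lit 363) ln15_12_3 ln15_12_3_ok) (L (nat_lit 365) ln16_12_3 ln16_12_3_ok))) (M (nat_lit 432) (B (L (nat_lit 431) ln12_12_0 ln12_12_0_ok) (L (nat_lit 433) ln13_12_0 ln13_12_0_ok))))) (B (M (nat_lit 400) (B (M (nat_lit 365) (B (L (nat_lit 364) ln16_12_3 ln16_12_3_ok) (L (nat_lit 401) ln17_12_3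 ln17_12_3_ok))) (M (nat_lit 432) (B (L (nat_lit 431) ln12_12_0 ln12_12_0_ok) (L (nat_lit 433) ln13_12_0 ln13_12_0_ok))))) (B (M (nat_lit 400) (B (M (nat_lit 368) (B (L (nat_lit 367) ln12_12_2 ln12_12_2_ok) (L (nat_lit 369) ln13_12_2 ln13_12_2_ok))) (M (nat_lit 401) (B (L (nat_lit 365) ln17_12_3 ln17_12_3_ok) (L (nat_lit 430) ln17_12_1 ln17_12_1_ok))))) (M (nat_lit 400) (B (M (nat_lit 368) (B (L (nat_lit 367) ln12_12_2 ln12_12_2_ok) (L (nat_lit 369) ln13_12_2 ln13_12_2_ok))) (M (nat_lit 432) (B (L (nat_lit 431) ln12_12_0 ln12_12_0_ok) (L (nat_lit 433) ln13_12_0 ln13_12_0_ok))))))))))))))))) (B (M (nat_lit 461) (B (L (nat_lit 493) ln13_15_6 ln13_15_6_ok) (M (nat_lit 334) (B (L (nat_lit 302) ln14_9_5 ln14_9_5_ok) (L (nat_lit 430) ln14_10_5 ln14_10_5_ok))))) (M (nat_lit 396) (B (M (nat_lit 395) (B (L (nat_lit 367) ln11_12_2 ln11_12_2_ok) (M (nat_lit 394) (B (L (nat_lit 365) ln10_12_2 ln10_12_2_ok) (L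 (nat_lit 430) ln10_12_0 ln10_12_0_ok))))) (B (M (nat_lit 395) (B (L (nat_lit 367) ln11_12_2 ln11_12_2_ok) (M (nat_lit 430) (B (L (nat_lit 394) ln10_12_0 ln10_12_0_ok) (L (nat_lit 431) ln11_12_0 ln11_12_0_ok))))) (B (M (nat_lit 399) (B (M (nat_lit 431) (B (L (nat_lit 432) ln12_12_0 ln12_12_0_ok) (M (nat_lit 395) (B (L (nat_lit 430) ln11_12_0 ln11_12_0_ok) (M (nat_lit 363) (B (L (nat_lit 362) ln14_12_3 ln14_12_3_ok) (L (nat_lit 364) ln15_12_3 ln15_12_3_ok))))))) (B (M (nat_lit 431) (B (L (nat_lit 432) ln12_12_0 ln12_12_0_ok) (M (nat_lit 334) (B (L (nat_lit 302) ln14_9_5 ln14_9_5_ok) (M (nat_lit 430) (B (L (nat_lit 463) ln14_10_4 ln14_10_4_ok) (L (nat_lit 395) ln11_12_0 ln11_12_0_ok))))))) (B (M (nat_lit 364) (B (L (nat_lit 363) ln15_12_3 ln15_12_3_ok) (M (nat_lit 400) (B (L (nat_lit 365) ln16_12_3 ln16_12_3_ok) (M (nat_lit 432) (B (L (nat_lit 431) ln12_12_0 ln12_12_0_ok) (L (nat_lit 433) ln13_12_0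 ln13_12_0_ok))))))) (M (nat_lit 395) (B (M (nat_lit 363) (B (L (nat_lit 362) ln14_12_3 ln14_12_3_ok) (L (nat_lit 364) ln15_12_3 ln15_12_3_ok))) (M (nat_lit 394) (B (L (nat_lit 365) ln10_12_2 ln10_12_2_ok) (L (nat_lit 430) ln10_12_0 ln10_12_0_ok))))))))) (B (M (nat_lit 367) (B (L (nat_lit 395) ln11_12_2 ln11_12_2_ok) (M (nat_lit 368) (B (L (nat_lit 365) ln16_11_1 ln16_11_1_ok) (L (nat_lit 369) ln17_11_1 ln17_11_1_ok))))) (M (nat_lit 367) (B (M (nat_lit 368) (B (L (nat_lit 365) ln16_11_1 ln16_11_1_ok) (L (nat_lit 369) ln17_11_1 ln17_11_1_ok))) (B (M (nat_lit 368) (B (L (nat_lit 369) ln17_11_1 ln17_11_1_ok) (L (nat_lit 399) ln12_12_2 ln12_12_2_ok))) (M (nat_lit 431) (B (M (nat_lit 432) (B (L (nat_lit 399) ln12_12_0 ln12_12_0_ok) (L (nat_lit 430) ln16_13_3 ln16_13_3_ok))) (B (M (nat_lit 334) (B (L (nat_lit 302) ln14_9_5 ln14_9_5_ok) (M (nat_lit 430) (B (L (nat_lit 463) ln14_10_4 ln14_10_4_ok) (L (nat_lit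 432) ln16_13_3 ln16_13_3_ok))))) (B (M (nat_lit 334) (B (L (nat_lit 302) ln14_9_5 ln14_9_5_ok) (M (nat_lit 399) (B (L (nat_lit 463) ln15_14_7 ln15_14_7_ok) (L (nat_lit 432) ln12_12_0 ln12_12_0_ok))))) (M (nat_lit 334) (B (L (nat_lit 302) ln14_9_5 ln14_9_5_ok) (M (nat_lit 463) (B (L (nat_lit 399) ln15_14_7 ln15_14_7_ok) (L (nat_lit 430) ln14_10_4 ln14_10_4_ok))))))))))))))))))))))
theorem c11_s4071 : Sem (nat_lit 1386334848028751134071797813192511541219347990561547959896198607618807912605555669776302651038186796528747292269165475404267388928) (nat_lit 44753387228494307476463666636709405392526972516925614309793921808830624407817733600041235789655460845878938184417663153972337248025276619245251198976) (nat_lit 44753387228494307476463666636709405392526972516925614309793921808830624407817733600041235789655460845878938184417663153972337248025276619245251198976) :=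
  sem_of_chk (M (nat_lit 396) (B (M (nat_lit 395) (B (M (nat_lit 430) (B (L (nat_lit 394) ln10_12_0 ln10_12_0_ok) (L (nat_lit 431) ln11_12_0 ln11_12_0_ok))) (M (nat_lit 363) (B (L (nat_lit 362) ln14_12_3 ln14_12_3_ok) (M (nat_lit 399) (B (L (nat_lit 364) ln15_12_3 ln15_12_3_ok) (M (nat_lit 367) (B (L (nat_lit 366) ln11_12_2 ln11_12_2_ok) (L (nat_lit 368) ln12_12_2 ln12_12_2_ok))))))))) (B (M (nat_lit 399) (B (M (nat_lit 364) (B (L (nat_lit 363) ln15_12_3 ln15_12_3_ok) (M (nat_lit 368) (B (L (nat_lit 367) ln12_12_2 ln12_12_2_ok) (M (nat_lit 400) (B (L (nat_lit 365) ln16_12_3 ln16_12_3_ok) (L (nat_lit 369) ln13_12_2 ln13_12_2_ok))))))) (B (M (nat_lit 400) (B (M (nat_lit 368) (B (L (nat_lit 367) ln12_12_2 ln12_12_2_ok) (L (nat_lit 369) ln13_12_2 ln13_12_2_ok))) (M (nat_lit 432) (B (L (nat_lit 431) ln12_12_0 ln12_12_0_ok) (L (nat_lit 433) ln13_12_0 ln13_12_0_ok))))) (B (M (nat_lit 400) (B (M (nat_lit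 364) (B (L (nat_lit 363) ln15_12_3 ln15_12_3_ok) (L (nat_lit 365) ln16_12_3 ln16_12_3_ok))) (M (nat_lit 432) (B (L (nat_lit 431) ln12_12_0 ln12_12_0_ok) (L (nat_lit 433) ln13_12_0 ln13_12_0_ok))))) (M (nat_lit 395) (B (M (nat_lit 367) (B (L (nat_lit 366) ln11_12_2 ln11_12_2_ok) (L (nat_lit 368) ln12_12_2 ln12_12_2_ok))) (M (nat_lit 431) (B (L (nat_lit 430) ln11_12_0 ln11_12_0_ok) (L (nat_lit 432) ln12_12_0 ln12_12_0_ok))))))))) (B (M (nat_lit 395) (B (M (nat_lit 430) (B (L (nat_lit 394) ln10_12_0 ln10_12_0_ok) (L (nat_lit 431) ln11_12_0 ln11_12_0_ok))) (B (M (nat_lit 399) (B (M (nat_lit 367) (B (L (nat_lit 366) ln11_12_2 ln11_12_2_ok) (L (nat_lit 368) ln12_12_2 ln12_12_2_ok))) (M (nat_lit 431) (B (L (nat_lit 430) ln11_12_0 ln11_12_0_ok) (L (nat_lit 432) ln12_12_0 ln12_12_0_ok))))) (M (nat_lit 394) (B (M (nat_lit 366) (B (L (nat_lit 365) ln10_12_2 ln10_12_2_ok) (L (nat_lit 367) ln11_12_2 ln11_12_2_ok)))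 (M (nat_lit 426) (B (L (nat_lit 425) ln13_12_1 ln13_12_1_ok) (L (nat_lit 427) ln14_12_1 ln14_12_1_ok)))))))) (B (M (nat_lit 395) (B (M (nat_lit 430) (B (L (nat_lit 394) ln10_12_0 ln10_12_0_ok) (L (nat_lit 431) ln11_12_0 ln11_12_0_ok))) (B (M (nat_lit 399) (B (M (nat_lit 363) (B (L (nat_lit 362) ln14_12_3 ln14_12_3_ok) (L (nat_lit 364) ln15_12_3 ln15_12_3_ok))) (M (nat_lit 431) (B (L (nat_lit 430) ln11_12_0 ln11_12_0_ok) (L (nat_lit 432) ln12_12_0 ln12_12_0_ok))))) (M (nat_lit 394) (B (M (nat_lit 362) (B (L (nat_lit 361) ln13_12_3 ln13_12_3_ok) (L (nat_lit 363) ln14_12_3 ln14_12_3_ok))) (M (nat_lit 426) (B (L (nat_lit 425) ln13_12_1 ln13_12_1_ok) (L (nat_lit 427) ln14_12_1 ln14_12_1_ok)))))))) (B (M (nat_lit 399) (B (M (nat_lit 364) (B (L (nat_lit 363) ln15_12_3 ln15_12_3_ok) (M (nat_lit 368) (B (L (nat_lit 367) ln12_12_2 ln12_12_2_ok) (M (nat_lit 400) (B (L (nat_lit 365) ln16_12_3 ln16_12_3_ok) (L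 (nat_lit 369) ln13_12_2 ln13_12_2_ok))))))) (B (M (nat_lit 400) (B (M (nat_lit 368) (B (L (nat_lit 367) ln12_12_2 ln12_12_2_ok) (L (nat_lit 369) ln13_12_2 ln13_12_2_ok))) (M (nat_lit 432) (B (L (nat_lit 431) ln12_12_0 ln12_12_0_ok) (L (nat_lit 433) ln13_12_0 ln13_12_0_ok))))) (B (M (nat_lit 400) (B (M (nat_lit 364) (B (L (nat_lit 363) ln15_12_3 ln15_12_3_ok) (L (nat_lit 365) ln16_12_3 ln16_12_3_ok))) (M (nat_lit 432) (B (L (nat_lit 431) ln12_12_0 ln12_12_0_ok) (L (nat_lit 433) ln13_12_0 ln13_12_0_ok))))) (M (nat_lit 364) (B (L (nat_lit 363) ln15_12_3 ln15_12_3_ok) (M (nat_lit 332) (B (L (nat_lit 300) ln12_9_4 ln12_9_4_ok) (M (nat_lit 461) (B (L (nat_lit 365) ln13_14_7 ln13_14_7_ok) (L (nat_lit 493) ln13_15_7 ln13_15_7_ok))))))))))) (B (M (nat_lit 395) (B (M (nat_lit 430) (B (L (nat_lit 394) ln10_12_0 ln10_12_0_ok) (L (nat_lit 431) ln11_12_0 ln11_12_0_ok))) (B (M (nat_lit 461) (B (M (nat_lit 366)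 (B (L (nat_lit 367) ln11_12_2 ln11_12_2_ok) (L (nat_lit 493) ln13_15_6 ln13_15_6_ok))) (B (M (nat_lit 364) (B (L (nat_lit 493) ln13_15_7 ln13_15_7_ok) (M (nat_lit 332) (B (L (nat_lit 300) ln12_9_4 ln12_9_4_ok) (L (nat_lit 365) ln13_14_7 ln13_14_7_ok))))) (M (nat_lit 427) (B (L (nat_lit 426) ln14_12_1 ln14_12_1_ok) (M (nat_lit 459) (B (M (nat_lit 364) (B (L (nat_lit 491) ln11_15_6 ln11_15_6_ok) (M (nat_lit 332) (B (L (nat_lit 300) ln12_9_5 ln12_9_5_ok) (L (nat_lit 365) ln13_14_7 ln13_14_7_ok))))) (B (M (nat_lit 364) (B (L (nat_lit 491) ln11_15_6 ln11_15_6_ok) (M (nat_lit 332) (B (L (nat_lit 363) ln11_14_6 ln11_14_6_ok) (L (nat_lit 365) ln13_14_7 ln13_14_7_ok))))) (M (nat_lit 460) (B (M (nat_lit 363) (B (L (nat_lit 362) ln14_12_3 ln14_12_3_ok) (L (nat_lit 492) ln11_11_4 ln11_11_4_ok))) (M (nat_lit 430) (B (L (nat_lit 431) ln11_12_0 ln11_12_0_ok) (L (nat_lit 458) ln10_14_2 ln10_14_2_ok)))))))))))))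 (M (nat_lit 394) (B (M (nat_lit 366) (B (L (nat_lit 365) ln10_12_2 ln10_12_2_ok) (L (nat_lit 367) ln11_12_2 ln11_12_2_ok))) (M (nat_lit 426) (B (L (nat_lit 425) ln13_12_1 ln13_12_1_ok) (L (nat_lit 427) ln14_12_1 ln14_12_1_ok)))))))) (M (nat_lit 395) (B (M (nat_lit 426) (B (L (nat_lit 427) ln14_12_1 ln14_12_1_ok) (M (nat_lit 394) (B (L (nat_lit 425) ln13_12_1 ln13_12_1_ok) (L (nat_lit 430) ln10_12_0 ln10_12_0_ok))))) (M (nat_lit 363) (B (L (nat_lit 362) ln14_12_3 ln14_12_3_ok) (M (nat_lit 399) (B (L (nat_lit 364) ln15_12_3 ln15_12_3_ok) (M (nat_lit 367) (B (L (nat_lit 366) ln11_12_2 ln11_12_2_ok) (L (nat_lit 368) ln12_12_2 ln12_12_2_ok)))))))))))))))) (nat_lit 1386334848028751134071797813192511541219347990561547959896198607618807912605555669776302651038186796528747292269165475404267388928) (nat_lit 44753387228494307476463666636709405392526972516925614309793921808830624407817733600041235789655460845878938184417663153972337248025276619245251198976)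 (nat_lit 44753387228494307476463666636709405392526972516925614309793921808830624407817733600041235789655460845878938184417663153972337248025276619245251198976) (by decide +kernel)
noncomputable def c11_n4093 : Cert := (M (nat_lit 396) (B (M (nat_lit 366) (B (M (nat_lit 461) (B (L (nat_lit 493) ln13_15_6 ln13_15_6_ok) (M (nat_lit 334) (B (L (nat_lit 302) ln14_9_5 ln14_9_5_ok) (L (nat_lit 430) ln14_10_5 ln14_10_5_ok))))) (B (M (nat_lit 461) (B (L (nat_lit 493) ln13_15_6 ln13_15_6_ok) (M (nat_lit 334) (B (L (nat_lit 365) ln13_14_6 ln13_14_6_ok) (L (nat_lit 430) ln14_10_5 ln14_10_5_ok))))) (B (M (nat_lit 395) (B (L (nat_lit 367) ln11_12_2 ln11_12_2_ok) (M (nat_lit 394) (B (L (nat_lit 365) ln10_12_2 ln10_12_2_ok) (L (nat_lit 430) ln10_12_0 ln10_12_0_ok))))) (M (nat_lit 334) (B (L (nat_lit 302) ln14_9_5 ln14_9_5_ok) (M (nat_lit 461) (B (L (nat_lit 365) ln13_14_6 ln13_14_6_ok) (L (nat_lit 493) ln13_15_6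 ln13_15_6_ok))))))))) (B (M (nat_lit 366) (B (M (nat_lit 367) (B (L (nat_lit 395) ln11_12_2 ln11_12_2_ok) (M (nat_lit 368) (B (L (nat_lit 365) ln16_11_1 ln16_11_1_ok) (L (nat_lit 369) ln17_11_1 ln17_11_1_ok))))) (B (M (nat_lit 395) (B (L (nat_lit 367) ln11_12_2 ln11_12_2_ok) (M (nat_lit 430) (B (L (nat_lit 394) ln10_12_0 ln10_12_0_ok) (L (nat_lit 431) ln11_12_0 ln11_12_0_ok))))) (M (nat_lit 461) (B (L (nat_lit 493) ln13_15_6 ln13_15_6_ok) (M (nat_lit 334) (B (L (nat_lit 365) ln13_14_6 ln13_14_6_ok) (L (nat_lit 430) ln14_10_5 ln14_10_5_ok)))))))) (B (M (nat_lit 395) (B (M (nat_lit 430) (B (L (nat_lit 394) ln10_12_0 ln10_12_0_ok) (L (nat_lit 431) ln11_12_0 ln11_12_0_ok))) (B (M (nat_lit 399) (B (M (nat_lit 367) (B (L (nat_lit 366) ln11_12_2 ln11_12_2_ok) (L (nat_lit 368) ln12_12_2 ln12_12_2_ok))) (M (nat_lit 431) (B (L (nat_lit 430) ln11_12_0 ln11_12_0_ok) (L (nat_lit 432) ln12_12_0 ln12_12_0_ok)))))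 (M (nat_lit 394) (B (M (nat_lit 366) (B (L (nat_lit 365) ln10_12_2 ln10_12_2_ok) (L (nat_lit 367) ln11_12_2 ln11_12_2_ok))) (M (nat_lit 426) (B (L (nat_lit 425) ln13_12_1 ln13_12_1_ok) (L (nat_lit 427) ln14_12_1 ln14_12_1_ok)))))))) (B (M (nat_lit 366) (B (M (nat_lit 461) (B (L (nat_lit 493) ln13_15_6 ln13_15_6_ok) (M (nat_lit 334) (B (L (nat_lit 302) ln14_9_5 ln14_9_5_ok) (L (nat_lit 430) ln14_10_5 ln14_10_5_ok))))) (M (nat_lit 367) (B (L (nat_lit 395) ln11_12_2 ln11_12_2_ok) (M (nat_lit 368) (B (L (nat_lit 369) ln17_11_1 ln17_11_1_ok) (L (nat_lit 399) ln12_12_2 ln12_12_2_ok))))))) (B (M (nat_lit 399) (B (M (nat_lit 364) (B (L (nat_lit 363) ln15_12_3 ln15_12_3_ok) (M (nat_lit 368) (B (L (nat_lit 367) ln12_12_2 ln12_12_2_ok) (M (nat_lit 400) (B (L (nat_lit 365) ln16_12_3 ln16_12_3_ok) (L (nat_lit 369) ln13_12_2 ln13_12_2_ok))))))) (B (M (nat_lit 400) (B (M (nat_lit 368) (B (L (nat_lit 367) ln12_12_2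 ln12_12_2_ok) (L (nat_lit 369) ln13_12_2 ln13_12_2_ok))) (M (nat_lit 432) (B (L (nat_lit 431) ln12_12_0 ln12_12_0_ok) (L (nat_lit 433) ln13_12_0 ln13_12_0_ok))))) (B (M (nat_lit 400) (B (M (nat_lit 364) (B (L (nat_lit 363) ln15_12_3 ln15_12_3_ok) (L (nat_lit 365) ln16_12_3 ln16_12_3_ok))) (M (nat_lit 432) (B (L (nat_lit 431) ln12_12_0 ln12_12_0_ok) (L (nat_lit 433) ln13_12_0 ln13_12_0_ok))))) (M (nat_lit 364) (B (L (nat_lit 363) ln15_12_3 ln15_12_3_ok) (M (nat_lit 332) (B (L (nat_lit 300) ln12_9_4 ln12_9_4_ok) (M (nat_lit 461) (B (L (nat_lit 365) ln13_14_7 ln13_14_7_ok) (L (nat_lit 493) ln13_15_7 ln13_15_7_ok))))))))))) (M (nat_lit 399) (B (M (nat_lit 364) (B (L (nat_lit 363) ln15_12_3 ln15_12_3_ok) (M (nat_lit 332) (B (L (nat_lit 300) ln12_9_4 ln12_9_4_ok) (M (nat_lit 461) (B (L (nat_lit 365) ln13_14_7 ln13_14_7_ok) (L (nat_lit 493) ln13_15_7 ln13_15_7_ok))))))) (B (M (nat_lit 400) (B (M (nat_lit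 364) (B (L (nat_lit 363) ln15_12_3 ln15_12_3_ok) (L (nat_lit 365) ln16_12_3 ln16_12_3_ok))) (M (nat_lit 432) (B (L (nat_lit 431) ln12_12_0 ln12_12_0_ok) (L (nat_lit 433) ln13_12_0 ln13_12_0_ok))))) (M (nat_lit 400) (B (M (nat_lit 432) (B (L (nat_lit 431) ln12_12_0 ln12_12_0_ok) (L (nat_lit 433) ln13_12_0 ln13_12_0_ok))) (M (nat_lit 369) (B (L (nat_lit 368) ln13_12_2 ln13_12_2_ok) (M (nat_lit 401) (B (L (nat_lit 370) ln14_12_2 ln14_12_2_ok) (L (nat_lit 430) ln17_12_1 ln17_12_1_ok))))))))))))))))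
theorem c11_s4212 : Sem (nat_lit 5954262830815946495408811768290330958617541567969857540387515671583995655843763700493712757223453780111953373527279821900680931945878650880) (nat_lit 42196566916741633127468811452780818225269166714890664732889343921713811631262751179382205888131792269138256978460257933914831585280) (nat_lit 42196566916741633127468811452780818225269166714890664732889343921713811631262751179382205888131792269138256978460257933914831585280) :=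
  sem_of_chk (M (nat_lit 365) (B (M (nat_lit 334) (B (L (nat_lit 366) ln13_14_6 ln13_14_6_ok) (M (nat_lit 333) (B (L (nat_lit 302) ln13_13_6 ln13_13_6_ok) (M (nat_lit 332) (B (L (nat_lit 300) ln13_13_7 ln13_13_7_ok) (L (nat_lit 364) ln13_14_7 ln13_14_7_ok))))))) (B (M (nat_lit 396) (B (M (nat_lit 366) (B (L (nat_lit 334) ln13_14_6 ln13_14_6_ok) (M (nat_lit 395) (B (L (nat_lit 394) ln10_12_2 ln10_12_2_ok) (L (nat_lit 367) ln11_12_2 ln11_12_2_ok))))) (B (M (nat_lit 431) (B (M (nat_lit 430) (B (L (nat_lit 395) ln11_12_0 ln11_12_0_ok) (L (nat_lit 432) ln16_13_3 ln16_13_3_ok))) (B (M (nat_lit 432) (B (L (nat_lit 399) ln12_12_0 ln12_12_0_ok) (L (nat_lit 430) ln16_13_3 ln16_13_3_ok))) (B (M (nat_lit 364) (B (L (nat_lit 332) ln13_14_7 ln13_14_7_ok) (M (nat_lit 399) (B (L (nat_lit 400) ln16_12_3 ln16_12_3_ok) (L (nat_lit 432) ln12_12_0 ln12_12_0_ok))))) (M (nat_lit 395) (B (L (nat_lit 430) ln11_12_0 ln11_12_0_ok)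 (M (nat_lit 366) (B (L (nat_lit 394) ln10_12_2 ln10_12_2_ok) (L (nat_lit 367) ln11_12_2 ln11_12_2_ok))))))))) (B (M (nat_lit 395) (B (M (nat_lit 430) (B (L (nat_lit 394) ln10_12_0 ln10_12_0_ok) (L (nat_lit 431) ln11_12_0 ln11_12_0_ok))) (B (M (nat_lit 399) (B (M (nat_lit 364) (B (L (nat_lit 332) ln13_14_7 ln13_14_7_ok) (L (nat_lit 400) ln16_12_3 ln16_12_3_ok))) (M (nat_lit 431) (B (L (nat_lit 430) ln11_12_0 ln11_12_0_ok) (L (nat_lit 432) ln12_12_0 ln12_12_0_ok))))) (M (nat_lit 394) (B (M (nat_lit 364) (B (L (nat_lit 332) ln13_14_7 ln13_14_7_ok) (L (nat_lit 393) ln9_12_2 ln9_12_2_ok))) (M (nat_lit 426) (B (L (nat_lit 425) ln13_12_1 ln13_12_1_ok) (L (nat_lit 427) ln14_12_1 ln14_12_1_ok)))))))) (B (M (nat_lit 334) (B (L (nat_lit 366) ln13_14_6 ln13_14_6_ok) (M (nat_lit 430) (B (M (nat_lit 333) (B (L (nat_lit 301) ln13_9_4 ln13_9_4_ok) (L (nat_lit 302) ln13_13_6 ln13_13_6_ok))) (M (nat_lit 431) (B (L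 (nat_lit 395) ln11_12_0 ln11_12_0_ok) (L (nat_lit 432) ln16_13_3 ln16_13_3_ok))))))) (M (nat_lit 364) (B (L (nat_lit 332) ln13_14_7 ln13_14_7_ok) (M (nat_lit 333) (B (M (nat_lit 301) (B (L (nat_lit 269) ln13_8_5 ln13_8_5_ok) (L (nat_lit 430) ln13_9_4 ln13_9_4_ok))) (M (nat_lit 334) (B (L (nat_lit 302) ln13_13_6 ln13_13_6_ok) (L (nat_lit 366) ln13_14_6 ln13_14_6_ok)))))))))))) (B (M (nat_lit 366) (B (L (nat_lit 334) ln13_14_6 ln13_14_6_ok) (M (nat_lit 333) (B (M (nat_lit 332) (B (L (nat_lit 300) ln13_13_7 ln13_13_7_ok) (L (nat_lit 364) ln13_14_7 ln13_14_7_ok))) (M (nat_lit 301) (B (L (nat_lit 269) ln13_8_4 ln13_8_4_ok) (L (nat_lit 430) ln13_9_4 ln13_9_4_ok))))))) (B (M (nat_lit 333) (B (M (nat_lit 334) (B (L (nat_lit 302) ln13_13_6 ln13_13_6_ok) (L (nat_lit 366) ln13_14_6 ln13_14_6_ok))) (B (M (nat_lit 366) (B (L (nat_lit 334) ln13_14_6 ln13_14_6_ok) (M (nat_lit 301) (B (L (nat_lit 269) ln13_8_4 ln13_8_4_ok)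 (L (nat_lit 430) ln13_9_4 ln13_9_4_ok))))) (B (M (nat_lit 301) (B (L (nat_lit 430) ln13_9_4 ln13_9_4_ok) (M (nat_lit 269) (B (L (nat_lit 366) ln13_8_4 ln13_8_4_ok) (M (nat_lit 268) (B (L (nat_lit 236) ln13_11_7 ln13_11_7_ok) (L (nat_lit 300) ln13_12_7 ln13_12_7_ok))))))) (M (nat_lit 301) (B (L (nat_lit 430) ln13_9_4 ln13_9_4_ok) (M (nat_lit 302) (B (L (nat_lit 270) ln13_12_6 ln13_12_6_ok) (L (nat_lit 334) ln13_13_6 ln13_13_6_ok))))))))) (B (M (nat_lit 366) (B (L (nat_lit 334) ln13_14_6 ln13_14_6_ok) (M (nat_lit 399) (B (M (nat_lit 364) (B (L (nat_lit 332) ln13_14_7 ln13_14_7_ok) (L (nat_lit 400) ln16_12_3 ln16_12_3_ok))) (B (M (nat_lit 400) (B (L (nat_lit 364) ln16_12_3 ln16_12_3_ok) (L (nat_lit 401) ln17_12_3 ln17_12_3_ok))) (B (M (nat_lit 400) (B (L (nat_lit 401) ln17_12_3 ln17_12_3_ok) (M (nat_lit 396) (B (M (nat_lit 368) (B (L (nat_lit 367) ln16_11_1 ln16_11_1_ok) (L (nat_lit 369) ln13_12_2 ln13_12_2_ok)))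 (M (nat_lit 432) (B (L (nat_lit 431) ln12_12_0 ln12_12_0_ok) (L (nat_lit 433) ln13_12_0 ln13_12_0_ok))))))) (M (nat_lit 367) (B (M (nat_lit 396) (B (L (nat_lit 368) ln16_11_1 ln16_11_1_ok) (L (nat_lit 395) ln11_12_2 ln11_12_2_ok))) (M (nat_lit 335) (B (M (nat_lit 303) (B (L (nat_lit 271) ln15_8_5 ln15_8_5_ok) (L (nat_lit 430) ln15_9_5 ln15_9_5_ok))) (M (nat_lit 364) (B (L (nat_lit 332) ln13_14_7 ln13_14_7_ok) (L (nat_lit 336) ln12_11_2 ln12_11_2_ok))))))))))))) (B (M (nat_lit 333) (B (M (nat_lit 332) (B (L (nat_lit 300) ln13_13_7 ln13_13_7_ok) (L (nat_lit 364) ln13_14_7 ln13_14_7_ok))) (B (M (nat_lit 301) (B (L (nat_lit 430) ln13_9_4 ln13_9_4_ok) (M (nat_lit 269) (B (L (nat_lit 366) ln13_8_4 ln13_8_4_ok) (M (nat_lit 364) (B (L (nat_lit 396) ln13_8_5 ln13_8_5_ok) (L (nat_lit 332) ln13_14_7 ln13_14_7_ok))))))) (M (nat_lit 301) (B (L (nat_lit 430) ln13_9_4 ln13_9_4_ok) (M (nat_lit 269) (B (L (nat_lit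 366) ln13_8_4 ln13_8_4_ok) (M (nat_lit 268) (B (L (nat_lit 236) ln13_11_7 ln13_11_7_ok) (L (nat_lit 300) ln13_12_7 ln13_12_7_ok)))))))))) (M (nat_lit 333) (B (M (nat_lit 332) (B (L (nat_lit 300) ln13_13_7 ln13_13_7_ok) (L (nat_lit 364) ln13_14_7 ln13_14_7_ok))) (M (nat_lit 301) (B (L (nat_lit 430) ln13_9_4 ln13_9_4_ok) (M (nat_lit 302) (B (L (nat_lit 270) ln13_12_6 ln13_12_6_ok) (L (nat_lit 334) ln13_13_6 ln13_13_6_ok)))))))))))))) (nat_lit 5954262830815946495408811768290330958617541567969857540387515671583995655843763700493712757223453780111953373527279821900680931945878650880) (nat_lit 42196566916741633127468811452780818225269166714890664732889343921713811631262751179382205888131792269138256978460257933914831585280) (nat_lit 42196566916741633127468811452780818225269166714890664732889343921713811631262751179382205888131792269138256978460257933914831585280) (by decide +kernel)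
theorem c11_s4418 : Sem (nat_lit 1386334848028751134071797813192511541219347990561547959896198607618807912605555669776302651038186796528747292269165475404267388928) (nat_lit 741627559774143264564274788998919259634153496379763266046037549152076108722270550732628383432183768091681124353403614224333369549771437590464870481920) (nat_lit 741627559774143264564274788998919259634153496379763266046037549152076108722270550732628383432183768091681124353403614224333369549771437590464870481920) :=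
  sem_of_chk (M (nat_lit 399) (B (M (nat_lit 400) (B (M (nat_lit 401) (B (L (nat_lit 430) ln17_12_1 ln17_12_1_ok) (M (nat_lit 369) (B (L (nat_lit 368) ln13_12_2 ln13_12_2_ok) (L (nat_lit 370) ln14_12_2 ln14_12_2_ok))))) (B (M (nat_lit 401) (B (L (nat_lit 430) ln17_12_1 ln17_12_1_ok) (M (nat_lit 433) (B (L (nat_lit 432) ln13_12_0 ln13_12_0_ok) (L (nat_lit 434) ln14_12_0 ln14_12_0_ok))))) (M (nat_lit 396) (B (M (nat_lit 368) (B (L (nat_lit 367) ln12_12_2 ln12_12_2_ok) (L (nat_lit 369) ln13_12_2 ln13_12_2_ok))) (M (nat_lit 432) (B (L (nat_lit 431) ln12_12_0 ln12_12_0_ok) (L (nat_lit 433) ln13_12_0 ln13_12_0_ok)))))))) (B (M (nat_lit 400) (B (M (nat_lit 401) (B (L (nat_lit 430) ln17_12_1 ln17_12_1_ok) (M (nat_lit 369) (B (L (nat_lit 368) ln13_12_2 ln13_12_2_ok) (L (nat_lit 370) ln14_12_2 ln14_12_2_ok))))) (B (M (nat_lit 401) (B (L (nat_lit 430) ln17_12_1 ln17_12_1_ok) (M (nat_lit 433) (B (L (nat_lit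 432) ln13_12_0 ln13_12_0_ok) (L (nat_lit 434) ln14_12_0 ln14_12_0_ok))))) (M (nat_lit 432) (B (L (nat_lit 433) ln13_12_0 ln13_12_0_ok) (M (nat_lit 431) (B (L (nat_lit 396) ln12_12_0 ln12_12_0_ok) (M (nat_lit 368) (B (L (nat_lit 369) ln13_12_2 ln13_12_2_ok) (M (nat_lit 336) (B (L (nat_lit 304) ln16_9_5 ln16_9_5_ok) (L (nat_lit 463) ln16_10_5 ln16_10_5_ok)))))))))))) (B (M (nat_lit 366) (B (M (nat_lit 334) (B (L (nat_lit 302) ln14_9_5 ln14_9_5_ok) (M (nat_lit 461) (B (L (nat_lit 430) ln14_10_5 ln14_10_5_ok) (L (nat_lit 493) ln13_15_6 ln13_15_6_ok))))) (B (M (nat_lit 461) (B (L (nat_lit 493) ln13_15_6 ln13_15_6_ok) (M (nat_lit 334) (B (L (nat_lit 365) ln13_14_6 ln13_14_6_ok) (L (nat_lit 430) ln14_10_5 ln14_10_5_ok))))) (B (M (nat_lit 400) (B (M (nat_lit 401) (B (L (nat_lit 365) ln17_12_3 ln17_12_3_ok) (L (nat_lit 430) ln17_12_1 ln17_12_1_ok))) (B (M (nat_lit 396) (B (M (nat_lit 432) (B (L (nat_lit 431)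 ln12_12_0 ln12_12_0_ok) (L (nat_lit 433) ln13_12_0 ln13_12_0_ok))) (M (nat_lit 367) (B (L (nat_lit 395) ln11_12_2 ln11_12_2_ok) (M (nat_lit 401) (B (L (nat_lit 402) ln18_12_3 ln18_12_3_ok) (L (nat_lit 430) ln17_12_1 ln17_12_1_ok))))))) (B (M (nat_lit 396) (B (M (nat_lit 432) (B (L (nat_lit 431) ln12_12_0 ln12_12_0_ok) (L (nat_lit 433) ln13_12_0 ln13_12_0_ok))) (M (nat_lit 395) (B (L (nat_lit 367) ln11_12_2 ln11_12_2_ok) (M (nat_lit 394) (B (L (nat_lit 365) ln10_12_2 ln10_12_2_ok) (L (nat_lit 430) ln10_12_0 ln10_12_0_ok))))))) (M (nat_lit 396) (B (M (nat_lit 432) (B (L (nat_lit 431) ln12_12_0 ln12_12_0_ok) (L (nat_lit 433) ln13_12_0 ln13_12_0_ok))) (M (nat_lit 365) (B (L (nat_lit 401) ln17_12_3 ln17_12_3_ok) (M (nat_lit 395) (B (L (nat_lit 394) ln10_12_2 ln10_12_2_ok) (L (nat_lit 367) ln11_12_2 ln11_12_2_ok))))))))))) (M (nat_lit 334) (B (L (nat_lit 302) ln14_9_5 ln14_9_5_ok) (M (nat_lit 461) (B (L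 (nat_lit 365) ln13_14_6 ln13_14_6_ok) (L (nat_lit 493) ln13_15_6 ln13_15_6_ok))))))))) (B (M (nat_lit 400) (B (M (nat_lit 401) (B (L (nat_lit 430) ln17_12_1 ln17_12_1_ok) (M (nat_lit 369) (B (L (nat_lit 368) ln13_12_2 ln13_12_2_ok) (L (nat_lit 370) ln14_12_2 ln14_12_2_ok))))) (B (M (nat_lit 401) (B (L (nat_lit 430) ln17_12_1 ln17_12_1_ok) (M (nat_lit 433) (B (L (nat_lit 432) ln13_12_0 ln13_12_0_ok) (L (nat_lit 434) ln14_12_0 ln14_12_0_ok))))) (B (M (nat_lit 432) (B (L (nat_lit 433) ln13_12_0 ln13_12_0_ok) (M (nat_lit 368) (B (L (nat_lit 369) ln13_12_2 ln13_12_2_ok) (M (nat_lit 464) (B (M (nat_lit 367) (B (L (nat_lit 335) ln16_14_7 ln16_14_7_ok) (L (nat_lit 496) ln16_15_7 ln16_15_7_ok))) (M (nat_lit 431) (B (M (nat_lit 336) (B (L (nat_lit 304) ln16_9_5 ln16_9_5_ok) (L (nat_lit 463) ln16_10_5 ln16_10_5_ok))) (M (nat_lit 465) (B (L (nat_lit 497) ln16_11_4 ln16_11_4_ok) (L (nat_lit 430) ln13_13_0 ln13_13_0_ok)))))))))))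 (M (nat_lit 401) (B (M (nat_lit 369) (B (L (nat_lit 368) ln13_12_2 ln13_12_2_ok) (L (nat_lit 370) ln14_12_2 ln14_12_2_ok))) (M (nat_lit 433) (B (L (nat_lit 432) ln13_12_0 ln13_12_0_ok) (L (nat_lit 434) ln14_12_0 ln14_12_0_ok))))))))) (B (M (nat_lit 431) (B (M (nat_lit 432) (B (L (nat_lit 396) ln12_12_0 ln12_12_0_ok) (M (nat_lit 433) (B (L (nat_lit 430) ln17_13_3 ln17_13_3_ok) (L (nat_lit 434) ln18_13_3 ln18_13_3_ok))))) (B (M (nat_lit 432) (B (M (nat_lit 433) (B (L (nat_lit 430) ln17_13_3 ln17_13_3_ok) (L (nat_lit 434) ln18_13_3 ln18_13_3_ok))) (M (nat_lit 366) (B (M (nat_lit 334) (B (L (nat_lit 302) ln14_9_5 ln14_9_5_ok) (M (nat_lit 461) (B (L (nat_lit 365) ln13_14_6 ln13_14_6_ok) (L (nat_lit 493) ln13_15_6 ln13_15_6_ok))))) (B (M (nat_lit 334) (B (M (nat_lit 461) (B (L (nat_lit 365) ln13_14_6 ln13_14_6_ok) (L (nat_lit 493) ln13_15_6 ln13_15_6_ok))) (M (nat_lit 463) (B (L (nat_lit 367) ln15_14_7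 ln15_14_7_ok) (L (nat_lit 495) ln15_15_7 ln15_15_7_ok))))) (M (nat_lit 463) (B (L (nat_lit 495) ln15_15_7 ln15_15_7_ok) (M (nat_lit 367) (B (M (nat_lit 368) (B (L (nat_lit 336) ln15_14_6 ln15_14_6_ok) (L (nat_lit 369) ln17_11_1 ln17_11_1_ok))) (M (nat_lit 464) (B (L (nat_lit 335) ln15_10_4 ln15_10_4_ok) (L (nat_lit 496) ln15_11_4 ln15_11_4_ok)))))))))))) (B (M (nat_lit 366) (B (M (nat_lit 334) (B (L (nat_lit 302) ln14_9_5 ln14_9_5_ok) (M (nat_lit 461) (B (L (nat_lit 365) ln13_14_6 ln13_14_6_ok) (L (nat_lit 493) ln13_15_6 ln13_15_6_ok))))) (M (nat_lit 396) (B (L (nat_lit 432) ln12_12_0 ln12_12_0_ok) (M (nat_lit 367) (B (L (nat_lit 395) ln11_12_2 ln11_12_2_ok) (L (nat_lit 368) ln12_12_2 ln12_12_2_ok))))))) (M (nat_lit 367) (B (M (nat_lit 396) (B (L (nat_lit 368) ln12_12_2 ln12_12_2_ok) (M (nat_lit 395) (B (L (nat_lit 366) ln11_12_2 ln11_12_2_ok) (L (nat_lit 430) ln11_12_0 ln11_12_0_ok))))) (B (M (nat_lit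 368) (B (L (nat_lit 396) ln12_12_2 ln12_12_2_ok) (M (nat_lit 336) (B (L (nat_lit 463) ln15_14_6 ln15_14_6_ok) (M (nat_lit 304) (B (L (nat_lit 272) ln16_8_5 ln16_8_5_ok) (L (nat_lit 335) ln15_13_6 ln15_13_6_ok))))))) (M (nat_lit 334) (B (M (nat_lit 302) (B (L (nat_lit 335) ln15_13_7 ln15_13_7_ok) (L (nat_lit 366) ln14_9_5 ln14_9_5_ok))) (B (M (nat_lit 366) (B (L (nat_lit 463) ln15_14_7 ln15_14_7_ok) (M (nat_lit 461) (B (L (nat_lit 365) ln13_14_6 ln13_14_6_ok) (L (nat_lit 430) ln14_10_5 ln14_10_5_ok))))) (M (nat_lit 335) (B (L (nat_lit 302) ln15_13_7 ln15_13_7_ok) (M (nat_lit 303) (B (L (nat_lit 430) ln15_9_5 ln15_9_5_ok) (M (nat_lit 304) (B (L (nat_lit 272) ln15_12_6 ln15_12_6_ok) (L (nat_lit 336) ln15_13_6 ln15_13_6_ok))))))))))))))))) (B (M (nat_lit 366) (B (M (nat_lit 334) (B (L (nat_lit 302) ln14_9_5 ln14_9_5_ok) (M (nat_lit 461) (B (L (nat_lit 365) ln13_14_6 ln13_14_6_ok) (L (nat_lit 493) ln13_15_6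 ln13_15_6_ok))))) (B (M (nat_lit 400) (B (M (nat_lit 401) (B (L (nat_lit 365) ln17_12_3 ln17_12_3_ok) (M (nat_lit 369) (B (L (nat_lit 368) ln13_12_2 ln13_12_2_ok) (L (nat_lit 370) ln14_12_2 ln14_12_2_ok))))) (B (M (nat_lit 401) (B (M (nat_lit 369) (B (L (nat_lit 368) ln13_12_2 ln13_12_2_ok) (L (nat_lit 370) ln14_12_2 ln14_12_2_ok))) (M (nat_lit 433) (B (L (nat_lit 432) ln13_12_0 ln13_12_0_ok) (L (nat_lit 434) ln14_12_0 ln14_12_0_ok))))) (B (M (nat_lit 401) (B (L (nat_lit 365) ln17_12_3 ln17_12_3_ok) (M (nat_lit 433) (B (L (nat_lit 432) ln13_12_0 ln13_12_0_ok) (L (nat_lit 434) ln14_12_0 ln14_12_0_ok))))) (M (nat_lit 396) (B (M (nat_lit 367) (B (L (nat_lit 395) ln11_12_2 ln11_12_2_ok) (L (nat_lit 368) ln12_12_2 ln12_12_2_ok))) (M (nat_lit 432) (B (L (nat_lit 431) ln12_12_0 ln12_12_0_ok) (L (nat_lit 433) ln13_12_0 ln13_12_0_ok))))))))) (M (nat_lit 431) (B (M (nat_lit 334) (B (L (nat_lit 302) ln14_9_5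 ln14_9_5_ok) (M (nat_lit 463) (B (L (nat_lit 367) ln15_14_7 ln15_14_7_ok) (L (nat_lit 495) ln15_15_7 ln15_15_7_ok))))) (M (nat_lit 432) (B (L (nat_lit 396) ln12_12_0 ln12_12_0_ok) (M (nat_lit 433) (B (L (nat_lit 400) ln13_12_0 ln13_12_0_ok) (L (nat_lit 434) ln18_13_3 ln18_13_3_ok)))))))))) (B (M (nat_lit 400) (B (M (nat_lit 401) (B (L (nat_lit 430) ln17_12_1 ln17_12_1_ok) (M (nat_lit 369) (B (L (nat_lit 368) ln13_12_2 ln13_12_2_ok) (L (nat_lit 370) ln14_12_2 ln14_12_2_ok))))) (B (M (nat_lit 401) (B (L (nat_lit 430) ln17_12_1 ln17_12_1_ok) (M (nat_lit 433) (B (L (nat_lit 432) ln13_12_0 ln13_12_0_ok) (L (nat_lit 434) ln14_12_0 ln14_12_0_ok))))) (M (nat_lit 368) (B (L (nat_lit 369) ln13_12_2 ln13_12_2_ok) (M (nat_lit 367) (B (L (nat_lit 396) ln12_12_2 ln12_12_2_ok) (M (nat_lit 432) (B (L (nat_lit 433) ln13_12_0 ln13_12_0_ok) (M (nat_lit 464) (B (L (nat_lit 335) ln16_14_7 ln16_14_7_ok) (L (nat_lit 496)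 ln16_15_7 ln16_15_7_ok)))))))))))) (M (nat_lit 366) (B (M (nat_lit 334) (B (L (nat_lit 302) ln14_9_5 ln14_9_5_ok) (M (nat_lit 461) (B (L (nat_lit 430) ln14_10_5 ln14_10_5_ok) (L (nat_lit 493) ln13_15_6 ln13_15_6_ok))))) (B (M (nat_lit 461) (B (L (nat_lit 493) ln13_15_6 ln13_15_6_ok) (M (nat_lit 334) (B (L (nat_lit 365) ln13_14_6 ln13_14_6_ok) (L (nat_lit 430) ln14_10_5 ln14_10_5_ok))))) (B (M (nat_lit 368) (B (M (nat_lit 367) (B (L (nat_lit 369) ln17_11_1 ln17_11_1_ok) (L (nat_lit 396) ln12_12_2 ln12_12_2_ok))) (B (M (nat_lit 400) (B (L (nat_lit 369) ln13_12_2 ln13_12_2_ok) (M (nat_lit 401) (B (L (nat_lit 365) ln17_12_3 ln17_12_3_ok) (L (nat_lit 430) ln17_12_1 ln17_12_1_ok))))) (M (nat_lit 367) (B (L (nat_lit 396) ln12_12_2 ln12_12_2_ok) (M (nat_lit 335) (B (M (nat_lit 303) (B (L (nat_lit 271) ln15_8_5 ln15_8_5_ok) (L (nat_lit 430) ln15_9_5 ln15_9_5_ok))) (M (nat_lit 336) (B (M (nat_lit 304) (B (L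 (nat_lit 272) ln16_8_5 ln16_8_5_ok) (L (nat_lit 431) ln15_13_6 ln15_13_6_ok))) (M (nat_lit 337) (B (L (nat_lit 338) ln18_10_1 ln18_10_1_ok) (L (nat_lit 365) ln13_11_2 ln13_11_2_ok)))))))))))) (M (nat_lit 334) (B (L (nat_lit 302) ln14_9_5 ln14_9_5_ok) (M (nat_lit 461) (B (L (nat_lit 365) ln13_14_6 ln13_14_6_ok) (L (nat_lit 493) ln13_15_6 ln13_15_6_ok))))))))))))))))) (nat_lit 1386334848028751134071797813192511541219347990561547959896198607618807912605555669776302651038186796528747292269165475404267388928) (nat_lit 741627559774143264564274788998919259634153496379763266046037549152076108722270550732628383432183768091681124353403614224333369549771437590464870481920) (nat_lit 741627559774143264564274788998919259634153496379763266046037549152076108722270550732628383432183768091681124353403614224333369549771437590464870481920) (by decide +kernel)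
theorem c11_s4627 : Sem (nat_lit 1386334848028751134071797813192511541219347990561547959896198607618807912605555669776302651038186796528747292269165475404267388928) (nat_lit 1757388201735063646809509869218443404327349700232682134218455700507118732885020909513254267291171666692844799160626749635992017229731491934148255586792822013952) (nat_lit 1757388201735063646809509869218443404327349700232682134218455700507118732885020909513254267291171666692844799160626749635992017229731491934148255586792822013952) :=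
  sem_of_chk (M (nat_lit 399) (B (M (nat_lit 400) (B (M (nat_lit 401) (B (L (nat_lit 430) ln17_12_1 ln17_12_1_ok) (M (nat_lit 369) (B (L (nat_lit 368) ln13_12_2 ln13_12_2_ok) (L (nat_lit 370) ln14_12_2 ln14_12_2_ok))))) (B (M (nat_lit 401) (B (L (nat_lit 430) ln17_12_1 ln17_12_1_ok) (M (nat_lit 433) (B (L (nat_lit 432) ln13_12_0 ln13_12_0_ok) (L (nat_lit 434) ln14_12_0 ln14_12_0_ok))))) (M (nat_lit 396) (B (M (nat_lit 368) (B (L (nat_lit 367) ln12_12_2 ln12_12_2_ok) (L (nat_lit 369) ln13_12_2 ln13_12_2_ok))) (M (nat_lit 432) (B (L (nat_lit 431) ln12_12_0 ln12_12_0_ok) (L (nat_lit 433) ln13_12_0 ln13_12_0_ok)))))))) (B (M (nat_lit 400) (B (M (nat_lit 401) (B (L (nat_lit 430) ln17_12_1 ln17_12_1_ok) (M (nat_lit 369) (B (L (nat_lit 368) ln13_12_2 ln13_12_2_ok) (L (nat_lit 370) ln14_12_2 ln14_12_2_ok))))) (B (M (nat_lit 401) (B (L (nat_lit 430) ln17_12_1 ln17_12_1_ok) (M (nat_lit 433) (B (L (nat_lit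 432) ln13_12_0 ln13_12_0_ok) (L (nat_lit 434) ln14_12_0 ln14_12_0_ok))))) (M (nat_lit 432) (B (L (nat_lit 433) ln13_12_0 ln13_12_0_ok) (M (nat_lit 431) (B (L (nat_lit 396) ln12_12_0 ln12_12_0_ok) (M (nat_lit 368) (B (L (nat_lit 369) ln13_12_2 ln13_12_2_ok) (M (nat_lit 336) (B (L (nat_lit 304) ln16_9_5 ln16_9_5_ok) (L (nat_lit 463) ln16_10_5 ln16_10_5_ok)))))))))))) (B (M (nat_lit 366) (B (M (nat_lit 334) (B (L (nat_lit 302) ln14_9_5 ln14_9_5_ok) (M (nat_lit 461) (B (L (nat_lit 430) ln14_10_5 ln14_10_5_ok) (L (nat_lit 493) ln13_15_6 ln13_15_6_ok))))) (B (M (nat_lit 431) (B (M (nat_lit 396) (B (L (nat_lit 432) ln12_12_0 ln12_12_0_ok) (M (nat_lit 395) (B (L (nat_lit 367) ln11_12_2 ln11_12_2_ok) (L (nat_lit 430) ln11_12_0 ln11_12_0_ok))))) (B (M (nat_lit 432) (B (L (nat_lit 396) ln12_12_0 ln12_12_0_ok) (M (nat_lit 433) (B (L (nat_lit 400) ln13_12_0 ln13_12_0_ok) (L (nat_lit 434) ln18_13_3 ln18_13_3_ok)))))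 (M (nat_lit 463) (B (L (nat_lit 495) ln15_15_7 ln15_15_7_ok) (M (nat_lit 334) (B (L (nat_lit 367) ln15_14_7 ln15_14_7_ok) (L (nat_lit 430) ln14_10_4 ln14_10_4_ok)))))))) (B (M (nat_lit 400) (B (M (nat_lit 401) (B (L (nat_lit 430) ln17_12_1 ln17_12_1_ok) (M (nat_lit 433) (B (L (nat_lit 432) ln13_12_0 ln13_12_0_ok) (L (nat_lit 434) ln14_12_0 ln14_12_0_ok))))) (B (M (nat_lit 396) (B (M (nat_lit 432) (B (L (nat_lit 431) ln12_12_0 ln12_12_0_ok) (L (nat_lit 433) ln13_12_0 ln13_12_0_ok))) (M (nat_lit 395) (B (L (nat_lit 367) ln11_12_2 ln11_12_2_ok) (M (nat_lit 363) (B (L (nat_lit 362) ln14_12_3 ln14_12_3_ok) (L (nat_lit 364) ln15_12_3 ln15_12_3_ok))))))) (M (nat_lit 401) (B (L (nat_lit 430) ln17_12_1 ln17_12_1_ok) (M (nat_lit 402) (B (L (nat_lit 367) ln18_12_3 ln18_12_3_ok) (M (nat_lit 370) (B (L (nat_lit 369) ln14_12_2 ln14_12_2_ok) (L (nat_lit 371) ln15_12_2 ln15_12_2_ok)))))))))) (M (nat_lit 431) (B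 (M (nat_lit 334) (B (L (nat_lit 302) ln14_9_5 ln14_9_5_ok) (M (nat_lit 463) (B (L (nat_lit 367) ln15_14_7 ln15_14_7_ok) (L (nat_lit 495) ln15_15_7 ln15_15_7_ok))))) (M (nat_lit 432) (B (L (nat_lit 396) ln12_12_0 ln12_12_0_ok) (M (nat_lit 433) (B (L (nat_lit 400) ln13_12_0 ln13_12_0_ok) (L (nat_lit 434) ln18_13_3 ln18_13_3_ok))))))))))) (B (M (nat_lit 366) (B (M (nat_lit 334) (B (L (nat_lit 302) ln14_9_5 ln14_9_5_ok) (M (nat_lit 461) (B (L (nat_lit 430) ln14_10_5 ln14_10_5_ok) (L (nat_lit 493) ln13_15_6 ln13_15_6_ok))))) (B (M (nat_lit 431) (B (M (nat_lit 463) (B (L (nat_lit 495) ln15_15_7 ln15_15_7_ok) (M (nat_lit 334) (B (L (nat_lit 367) ln15_14_7 ln15_14_7_ok) (L (nat_lit 430) ln14_10_4 ln14_10_4_ok))))) (B (M (nat_lit 396) (B (L (nat_lit 432) ln12_12_0 ln12_12_0_ok) (M (nat_lit 395) (B (L (nat_lit 367) ln11_12_2 ln11_12_2_ok) (L (nat_lit 430) ln11_12_0 ln11_12_0_ok))))) (B (M (nat_lit 430) (B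 (M (nat_lit 461) (B (L (nat_lit 334) ln14_10_5 ln14_10_5_ok) (L (nat_lit 493) ln13_15_6 ln13_15_6_ok))) (M (nat_lit 432) (B (L (nat_lit 396) ln12_12_0 ln12_12_0_ok) (L (nat_lit 433) ln17_13_3 ln17_13_3_ok))))) (M (nat_lit 396) (B (L (nat_lit 432) ln12_12_0 ln12_12_0_ok) (M (nat_lit 367) (B (L (nat_lit 395) ln11_12_2 ln11_12_2_ok) (L (nat_lit 368) ln12_12_2 ln12_12_2_ok))))))))) (B (M (nat_lit 400) (B (M (nat_lit 401) (B (L (nat_lit 430) ln17_12_1 ln17_12_1_ok) (M (nat_lit 433) (B (L (nat_lit 432) ln13_12_0 ln13_12_0_ok) (L (nat_lit 434) ln14_12_0 ln14_12_0_ok))))) (B (M (nat_lit 396) (B (M (nat_lit 367) (B (L (nat_lit 395) ln11_12_2 ln11_12_2_ok) (L (nat_lit 368) ln12_12_2 ln12_12_2_ok))) (M (nat_lit 432) (B (L (nat_lit 431) ln12_12_0 ln12_12_0_ok) (L (nat_lit 433) ln13_12_0 ln13_12_0_ok))))) (M (nat_lit 367) (B (M (nat_lit 401) (B (L (nat_lit 402) ln18_12_3 ln18_12_3_ok) (L (nat_lit 430) ln17_12_1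 ln17_12_1_ok))) (M (nat_lit 396) (B (L (nat_lit 395) ln11_12_2 ln11_12_2_ok) (L (nat_lit 368) ln12_12_2 ln12_12_2_ok)))))))) (M (nat_lit 431) (B (M (nat_lit 396) (B (L (nat_lit 432) ln12_12_0 ln12_12_0_ok) (M (nat_lit 367) (B (L (nat_lit 395) ln11_12_2 ln11_12_2_ok) (L (nat_lit 368) ln12_12_2 ln12_12_2_ok))))) (B (M (nat_lit 432) (B (L (nat_lit 396) ln12_12_0 ln12_12_0_ok) (M (nat_lit 433) (B (L (nat_lit 400) ln13_12_0 ln13_12_0_ok) (L (nat_lit 434) ln18_13_3 ln18_13_3_ok))))) (M (nat_lit 334) (B (L (nat_lit 302) ln14_9_5 ln14_9_5_ok) (M (nat_lit 463) (B (L (nat_lit 367) ln15_14_7 ln15_14_7_ok) (L (nat_lit 495) ln15_15_7 ln15_15_7_ok)))))))))))) (B (M (nat_lit 400) (B (M (nat_lit 401) (B (L (nat_lit 430) ln17_12_1 ln17_12_1_ok) (M (nat_lit 369) (B (L (nat_lit 368) ln13_12_2 ln13_12_2_ok) (L (nat_lit 370) ln14_12_2 ln14_12_2_ok))))) (B (M (nat_lit 401) (B (L (nat_lit 430) ln17_12_1 ln17_12_1_ok) (M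 (nat_lit 433) (B (L (nat_lit 432) ln13_12_0 ln13_12_0_ok) (L (nat_lit 434) ln14_12_0 ln14_12_0_ok))))) (B (M (nat_lit 432) (B (L (nat_lit 433) ln13_12_0 ln13_12_0_ok) (M (nat_lit 368) (B (L (nat_lit 369) ln13_12_2 ln13_12_2_ok) (M (nat_lit 464) (B (M (nat_lit 367) (B (L (nat_lit 335) ln16_14_7 ln16_14_7_ok) (L (nat_lit 496) ln16_15_7 ln16_15_7_ok))) (B (M (nat_lit 496) (B (L (nat_lit 367) ln16_15_7 ln16_15_7_ok) (M (nat_lit 497) (B (L (nat_lit 465) ln16_11_4 ln16_11_4_ok) (L (nat_lit 529) ln16_12_4 ln16_12_4_ok))))) (M (nat_lit 431) (B (M (nat_lit 336) (B (L (nat_lit 304) ln16_9_5 ln16_9_5_ok) (L (nat_lit 463) ln16_10_5 ln16_10_5_ok))) (M (nat_lit 465) (B (L (nat_lit 497) ln16_11_4 ln16_11_4_ok) (L (nat_lit 430) ln13_13_0 ln13_13_0_ok)))))))))))) (M (nat_lit 401) (B (M (nat_lit 369) (B (L (nat_lit 368) ln13_12_2 ln13_12_2_ok) (L (nat_lit 370) ln14_12_2 ln14_12_2_ok))) (M (nat_lit 433) (B (L (nat_lit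 432) ln13_12_0 ln13_12_0_ok) (L (nat_lit 434) ln14_12_0 ln14_12_0_ok))))))))) (B (M (nat_lit 396) (B (M (nat_lit 431) (B (L (nat_lit 432) ln12_12_0 ln12_12_0_ok) (M (nat_lit 395) (B (L (nat_lit 430) ln11_12_0 ln11_12_0_ok) (M (nat_lit 363) (B (L (nat_lit 362) ln14_12_3 ln14_12_3_ok) (L (nat_lit 364) ln15_12_3 ln15_12_3_ok))))))) (B (M (nat_lit 395) (B (M (nat_lit 367) (B (L (nat_lit 366) ln11_12_2 ln11_12_2_ok) (L (nat_lit 368) ln12_12_2 ln12_12_2_ok))) (M (nat_lit 430) (B (L (nat_lit 394) ln10_12_0 ln10_12_0_ok) (L (nat_lit 431) ln11_12_0 ln11_12_0_ok))))) (B (M (nat_lit 367) (B (L (nat_lit 368) ln12_12_2 ln12_12_2_ok) (M (nat_lit 335) (B (M (nat_lit 431) (B (L (nat_lit 432) ln12_12_0 ln12_12_0_ok) (M (nat_lit 302) (B (L (nat_lit 334) ln15_13_7 ln15_13_7_ok) (M (nat_lit 303) (B (L (nat_lit 270) ln15_12_7 ln15_12_7_ok) (L (nat_lit 430) ln15_9_5 ln15_9_5_ok))))))) (B (M (nat_lit 431) (B (L (nat_lit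 432) ln12_12_0 ln12_12_0_ok) (M (nat_lit 303) (B (L (nat_lit 430) ln15_9_5 ln15_9_5_ok) (M (nat_lit 304) (B (L (nat_lit 272) ln15_12_6 ln15_12_6_ok) (L (nat_lit 336) ln15_13_6 ln15_13_6_ok))))))) (B (M (nat_lit 334) (B (M (nat_lit 431) (B (L (nat_lit 302) ln15_13_7 ln15_13_7_ok) (L (nat_lit 432) ln12_12_0 ln12_12_0_ok))) (B (M (nat_lit 366) (B (M (nat_lit 431) (B (L (nat_lit 463) ln15_14_7 ln15_14_7_ok) (L (nat_lit 432) ln12_12_0 ln12_12_0_ok))) (M (nat_lit 461) (B (L (nat_lit 430) ln14_10_5 ln14_10_5_ok) (L (nat_lit 493) ln13_15_6 ln13_15_6_ok))))) (M (nat_lit 366) (B (L (nat_lit 302) ln14_9_5 ln14_9_5_ok) (M (nat_lit 461) (B (L (nat_lit 430) ln14_10_5 ln14_10_5_ok) (L (nat_lit 493) ln13_15_6 ln13_15_6_ok)))))))) (B (M (nat_lit 431) (B (L (nat_lit 432) ln12_12_0 ln12_12_0_ok) (M (nat_lit 303) (B (M (nat_lit 302) (B (L (nat_lit 270) ln15_12_7 ln15_12_7_ok) (L (nat_lit 334) ln15_13_7 ln15_13_7_ok)))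 (M (nat_lit 304) (B (L (nat_lit 272) ln15_12_6 ln15_12_6_ok) (L (nat_lit 336) ln15_13_6 ln15_13_6_ok))))))) (M (nat_lit 303) (B (L (nat_lit 430) ln15_9_5 ln15_9_5_ok) (M (nat_lit 271) (B (L (nat_lit 366) ln15_8_5 ln15_8_5_ok) (M (nat_lit 272) (B (L (nat_lit 240) ln15_11_6 ln15_11_6_ok) (L (nat_lit 304) ln15_12_6 ln15_12_6_ok)))))))))))))) (M (nat_lit 395) (B (M (nat_lit 363) (B (L (nat_lit 362) ln14_12_3 ln14_12_3_ok) (L (nat_lit 364) ln15_12_3 ln15_12_3_ok))) (M (nat_lit 367) (B (L (nat_lit 366) ln11_12_2 ln11_12_2_ok) (L (nat_lit 368) ln12_12_2 ln12_12_2_ok))))))))) (B (M (nat_lit 368) (B (M (nat_lit 367) (B (L (nat_lit 396) ln12_12_2 ln12_12_2_ok) (M (nat_lit 369) (B (L (nat_lit 370) ln18_11_1 ln18_11_1_ok) (L (nat_lit 400) ln13_12_2 ln13_12_2_ok))))) (B (M (nat_lit 400) (B (L (nat_lit 369) ln13_12_2 ln13_12_2_ok) (M (nat_lit 432) (B (L (nat_lit 433) ln13_12_0 ln13_12_0_ok) (M (nat_lit 431) (B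 (L (nat_lit 396) ln12_12_0 ln12_12_0_ok) (M (nat_lit 336) (B (L (nat_lit 304) ln16_9_5 ln16_9_5_ok) (L (nat_lit 463) ln16_10_5 ln16_10_5_ok))))))))) (B (M (nat_lit 431) (B (M (nat_lit 396) (B (L (nat_lit 367) ln12_12_2 ln12_12_2_ok) (L (nat_lit 432) ln12_12_0 ln12_12_0_ok))) (B (M (nat_lit 432) (B (L (nat_lit 396) ln12_12_0 ln12_12_0_ok) (M (nat_lit 400) (B (L (nat_lit 433) ln13_12_0 ln13_12_0_ok) (M (nat_lit 463) (B (L (nat_lit 336) ln16_10_5 ln16_10_5_ok) (L (nat_lit 495) ln15_15_6 ln15_15_6_ok))))))) (B (M (nat_lit 463) (B (M (nat_lit 495) (B (L (nat_lit 366) ln15_15_7 ln15_15_7_ok) (L (nat_lit 400) ln15_15_6 ln15_15_6_ok))) (B (M (nat_lit 400) (B (L (nat_lit 495) ln15_15_6 ln15_15_6_ok) (M (nat_lit 336) (B (L (nat_lit 367) ln15_14_6 ln15_14_6_ok) (L (nat_lit 432) ln16_10_5 ln16_10_5_ok))))) (B (M (nat_lit 366) (B (L (nat_lit 495) ln15_15_7 ln15_15_7_ok) (M (nat_lit 367) (B (L (nat_lit 334) ln15_14_7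 ln15_14_7_ok) (L (nat_lit 336) ln15_14_6 ln15_14_6_ok))))) (M (nat_lit 336) (B (L (nat_lit 367) ln15_14_6 ln15_14_6_ok) (M (nat_lit 400) (B (L (nat_lit 304) ln16_9_5 ln16_9_5_ok) (L (nat_lit 432) ln16_10_5 ln16_10_5_ok))))))))) (M (nat_lit 463) (B (M (nat_lit 367) (B (L (nat_lit 336) ln15_14_6 ln15_14_6_ok) (L (nat_lit 396) ln12_12_2 ln12_12_2_ok))) (M (nat_lit 495) (B (L (nat_lit 366) ln15_15_7 ln15_15_7_ok) (L (nat_lit 400) ln15_15_6 ln15_15_6_ok))))))))) (B (M (nat_lit 369) (B (L (nat_lit 400) ln13_12_2 ln13_12_2_ok) (M (nat_lit 367) (B (L (nat_lit 366) ln17_11_1 ln17_11_1_ok) (L (nat_lit 370) ln18_11_1 ln18_11_1_ok))))) (M (nat_lit 367) (B (L (nat_lit 396) ln12_12_2 ln12_12_2_ok) (M (nat_lit 369) (B (L (nat_lit 366) ln17_11_1 ln17_11_1_ok) (L (nat_lit 370) ln18_11_1 ln18_11_1_ok)))))))))) (B (M (nat_lit 396) (B (M (nat_lit 395) (B (M (nat_lit 363) (B (L (nat_lit 362) ln14_12_3 ln14_12_3_ok) (L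 (nat_lit 364) ln15_12_3 ln15_12_3_ok))) (M (nat_lit 367) (B (L (nat_lit 366) ln11_12_2 ln11_12_2_ok) (L (nat_lit 368) ln12_12_2 ln12_12_2_ok))))) (B (M (nat_lit 400) (B (M (nat_lit 368) (B (L (nat_lit 367) ln12_12_2 ln12_12_2_ok) (L (nat_lit 369) ln13_12_2 ln13_12_2_ok))) (B (M (nat_lit 369) (B (L (nat_lit 368) ln13_12_2 ln13_12_2_ok) (M (nat_lit 401) (B (L (nat_lit 370) ln14_12_2 ln14_12_2_ok) (L (nat_lit 430) ln17_12_1 ln17_12_1_ok))))) (M (nat_lit 401) (B (L (nat_lit 430) ln17_12_1 ln17_12_1_ok) (M (nat_lit 433) (B (L (nat_lit 432) ln13_12_0 ln13_12_0_ok) (L (nat_lit 434) ln14_12_0 ln14_12_0_ok)))))))) (M (nat_lit 395) (B (M (nat_lit 363) (B (L (nat_lit 362) ln14_12_3 ln14_12_3_ok) (L (nat_lit 364) ln15_12_3 ln15_12_3_ok))) (M (nat_lit 394) (B (L (nat_lit 430) ln10_12_0 ln10_12_0_ok) (M (nat_lit 426) (B (L (nat_lit 425) ln13_12_1 ln13_12_1_ok) (L (nat_lit 427) ln14_12_1 ln14_12_1_ok))))))))))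 (M (nat_lit 396) (B (M (nat_lit 395) (B (M (nat_lit 363) (B (L (nat_lit 362) ln14_12_3 ln14_12_3_ok) (L (nat_lit 364) ln15_12_3 ln15_12_3_ok))) (M (nat_lit 367) (B (L (nat_lit 366) ln11_12_2 ln11_12_2_ok) (L (nat_lit 368) ln12_12_2 ln12_12_2_ok))))) (B (M (nat_lit 395) (B (M (nat_lit 367) (B (L (nat_lit 366) ln11_12_2 ln11_12_2_ok) (L (nat_lit 368) ln12_12_2 ln12_12_2_ok))) (M (nat_lit 394) (B (L (nat_lit 430) ln10_12_0 ln10_12_0_ok) (M (nat_lit 426) (B (L (nat_lit 425) ln13_12_1 ln13_12_1_ok) (L (nat_lit 427) ln14_12_1 ln14_12_1_ok))))))) (B (M (nat_lit 400) (B (M (nat_lit 368) (B (L (nat_lit 367) ln12_12_2 ln12_12_2_ok) (L (nat_lit 369) ln13_12_2 ln13_12_2_ok))) (M (nat_lit 395) (B (M (nat_lit 363) (B (L (nat_lit 362) ln14_12_3 ln14_12_3_ok) (L (nat_lit 364) ln15_12_3 ln15_12_3_ok))) (M (nat_lit 430) (B (L (nat_lit 394) ln10_12_0 ln10_12_0_ok) (L (nat_lit 401) ln17_12_1 ln17_12_1_ok))))))) (B (M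 (nat_lit 395) (B (M (nat_lit 363) (B (L (nat_lit 362) ln14_12_3 ln14_12_3_ok) (L (nat_lit 364) ln15_12_3 ln15_12_3_ok))) (M (nat_lit 394) (B (L (nat_lit 430) ln10_12_0 ln10_12_0_ok) (M (nat_lit 426) (B (L (nat_lit 425) ln13_12_1 ln13_12_1_ok) (L (nat_lit 427) ln14_12_1 ln14_12_1_ok))))))) (M (nat_lit 400) (B (M (nat_lit 368) (B (L (nat_lit 367) ln12_12_2 ln12_12_2_ok) (L (nat_lit 369) ln13_12_2 ln13_12_2_ok))) (B (M (nat_lit 369) (B (L (nat_lit 368) ln13_12_2 ln13_12_2_ok) (M (nat_lit 401) (B (L (nat_lit 370) ln14_12_2 ln14_12_2_ok) (L (nat_lit 430) ln17_12_1 ln17_12_1_ok))))) (B (M (nat_lit 401) (B (L (nat_lit 430) ln17_12_1 ln17_12_1_ok) (M (nat_lit 402) (B (M (nat_lit 370) (B (L (nat_lit 369) ln14_12_2 ln14_12_2_ok) (L (nat_lit 371) ln15_12_2 ln15_12_2_ok))) (M (nat_lit 434) (B (L (nat_lit 433) ln14_12_0 ln14_12_0_ok) (L (nat_lit 435) ln15_12_0 ln15_12_0_ok))))))) (M (nat_lit 401) (B (L (nat_lit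 430) ln17_12_1 ln17_12_1_ok) (M (nat_lit 402) (B (M (nat_lit 367) (B (L (nat_lit 366) ln18_12_3 ln18_12_3_ok) (L (nat_lit 368) ln12_12_2 ln12_12_2_ok))) (M (nat_lit 434) (B (L (nat_lit 433) ln14_12_0 ln14_12_0_ok) (L (nat_lit 435) ln15_12_0 ln15_12_0_ok))))))))))))))))))))))))) (nat_lit 1386334848028751134071797813192511541219347990561547959896198607618807912605555669776302651038186796528747292269165475404267388928) (nat_lit 1757388201735063646809509869218443404327349700232682134218455700507118732885020909513254267291171666692844799160626749635992017229731491934148255586792822013952) (nat_lit 1757388201735063646809509869218443404327349700232682134218455700507118732885020909513254267291171666692844799160626749635992017229731491934148255586792822013952) (by decide +kernel)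
noncomputable def c11_n4830 : Cert := (M (nat_lit 364) (B (M (nat_lit 396) (B (L (nat_lit 363) ln15_12_3 ln15_12_3_ok) (M (nat_lit 332) (B (L (nat_lit 300) ln12_9_4 ln12_9_4_ok) (M (nat_lit 461) (B (L (nat_lit 365) ln13_14_7 ln13_14_7_ok) (L (nat_lit 493) ln13_15_7 ln13_15_7_ok))))))) (B (M (nat_lit 363) (B (L (nat_lit 396) ln15_12_3 ln15_12_3_ok) (M (nat_lit 365) (B (L (nat_lit 362) ln10_11_0 ln10_11_0_ok) (M (nat_lit 333) (B (L (nat_lit 332) ln15_10_1 ln15_10_1_ok) (L (nat_lit 336) ln16_10_1 ln16_10_1_ok))))))) (B (M (nat_lit 431) (B (M (nat_lit 396) (B (L (nat_lit 363) ln15_12_3 ln15_12_3_ok) (L (nat_lit 432) ln12_12_0 ln12_12_0_ok))) (B (M (nat_lit 432) (B (L (nat_lit 464) ln15_10_4 ln15_10_4_ok) (L (nat_lit 396) ln12_12_0 ln12_12_0_ok))) (B (M (nat_lit 432) (B (L (nat_lit 464) ln15_10_4 ln15_10_4_ok) (M (nat_lit 433) (B (L (nat_lit 430) ln17_13_3 ln17_13_3_ok) (L (nat_lit 434) ln18_13_3 ln18_13_3_ok)))))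 (M (nat_lit 365) (B (M (nat_lit 336) (B (L (nat_lit 304) ln15_13_6 ln15_13_6_ok) (L (nat_lit 333) ln16_10_1 ln16_10_1_ok))) (M (nat_lit 363) (B (L (nat_lit 362) ln10_11_0 ln10_11_0_ok) (L (nat_lit 396) ln15_12_3 ln15_12_3_ok))))))))) (B (M (nat_lit 365) (B (M (nat_lit 332) (B (L (nat_lit 461) ln13_14_7 ln13_14_7_ok) (M (nat_lit 300) (B (L (nat_lit 268) ln12_8_4 ln12_8_4_ok) (L (nat_lit 396) ln12_9_4 ln12_9_4_ok))))) (B (M (nat_lit 332) (B (L (nat_lit 461) ln13_14_7 ln13_14_7_ok) (M (nat_lit 300) (B (L (nat_lit 333) ln13_13_7 ln13_13_7_ok) (L (nat_lit 396) ln12_9_4 ln12_9_4_ok))))) (B (M (nat_lit 431) (B (M (nat_lit 336) (B (L (nat_lit 304) ln15_13_6 ln15_13_6_ok) (L (nat_lit 333) ln16_10_1 ln16_10_1_ok))) (M (nat_lit 432) (B (L (nat_lit 464) ln15_10_4 ln15_10_4_ok) (L (nat_lit 396) ln12_12_0 ln12_12_0_ok))))) (M (nat_lit 332) (B (L (nat_lit 461) ln13_14_7 ln13_14_7_ok) (M (nat_lit 333) (B (L (nat_lit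 300) ln13_13_7 ln13_13_7_ok) (L (nat_lit 336) ln16_10_1 ln16_10_1_ok))))))))) (B (M (nat_lit 336) (B (M (nat_lit 396) (B (L (nat_lit 363) ln15_12_3 ln15_12_3_ok) (M (nat_lit 431) (B (L (nat_lit 304) ln15_13_6 ln15_13_6_ok) (L (nat_lit 432) ln12_12_0 ln12_12_0_ok))))) (B (M (nat_lit 332) (B (M (nat_lit 396) (B (L (nat_lit 300) ln12_9_4 ln12_9_4_ok) (L (nat_lit 363) ln15_12_3 ln15_12_3_ok))) (B (M (nat_lit 363) (B (L (nat_lit 333) ln15_10_1 ln15_10_1_ok) (L (nat_lit 396) ln15_12_3 ln15_12_3_ok))) (B (M (nat_lit 300) (B (L (nat_lit 396) ln12_9_4 ln12_9_4_ok) (M (nat_lit 333) (B (L (nat_lit 299) ln15_10_3 ln15_10_3_ok) (L (nat_lit 301) ln16_10_3 ln16_10_3_ok))))) (M (nat_lit 333) (B (L (nat_lit 363) ln15_10_1 ln15_10_1_ok) (M (nat_lit 300) (B (L (nat_lit 299) ln15_10_3 ln15_10_3_ok) (L (nat_lit 301) ln16_10_3 ln16_10_3_ok))))))))) (B (M (nat_lit 431) (B (L (nat_lit 304) ln15_13_6 ln15_13_6_ok) (M (nat_lit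 432) (B (L (nat_lit 464) ln15_10_4 ln15_10_4_ok) (L (nat_lit 396) ln12_12_0 ln12_12_0_ok))))) (M (nat_lit 431) (B (L (nat_lit 304) ln15_13_6 ln15_13_6_ok) (M (nat_lit 432) (B (L (nat_lit 464) ln15_10_4 ln15_10_4_ok) (M (nat_lit 433) (B (L (nat_lit 430) ln17_13_3 ln17_13_3_ok) (L (nat_lit 434) ln18_13_3 ln18_13_3_ok))))))))))) (M (nat_lit 431) (B (M (nat_lit 432) (B (L (nat_lit 464) ln15_10_4 ln15_10_4_ok) (M (nat_lit 433) (B (L (nat_lit 430) ln17_13_3 ln17_13_3_ok) (L (nat_lit 434) ln18_13_3 ln18_13_3_ok))))) (M (nat_lit 333) (B (M (nat_lit 336) (B (L (nat_lit 304) ln15_13_6 ln15_13_6_ok) (L (nat_lit 365) ln16_10_1 ln16_10_1_ok))) (B (M (nat_lit 332) (B (L (nat_lit 363) ln15_10_1 ln15_10_1_ok) (M (nat_lit 365) (B (L (nat_lit 300) ln13_13_7 ln13_13_7_ok) (L (nat_lit 336) ln16_10_1 ln16_10_1_ok))))) (B (M (nat_lit 332) (B (L (nat_lit 363) ln15_10_1 ln15_10_1_ok) (M (nat_lit 300) (B (L (nat_lit 299)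 ln15_10_3 ln15_10_3_ok) (L (nat_lit 365) ln13_13_7 ln13_13_7_ok))))) (M (nat_lit 300) (B (M (nat_lit 332) (B (L (nat_lit 299) ln15_10_3 ln15_10_3_ok) (L (nat_lit 363) ln15_10_1 ln15_10_1_ok))) (M (nat_lit 336) (B (L (nat_lit 301) ln16_10_3 ln16_10_3_ok) (L (nat_lit 304) ln15_13_6 ln15_13_6_ok)))))))))))))))))
theorem c11_s4874 : Sem (nat_lit 1386334849319876073415865558685513803583763825695356067082661613985703956114995523106470662972797849906549709323519877043466534912) (nat_lit 943490606589814007117209563777279293701495552211845375510028732865980579219172234218615657546051303688601288273575591676688146799810194361712268264454708982850898624512) (nat_lit 943490606589814007117209563777279293701495552211845375510028732865980579219172234218615657546051303688601288273575591676688146799810194361712268264454708982850898624512) :=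
  sem_of_chk (M (nat_lit 334) (B (M (nat_lit 431) (B (L (nat_lit 302) ln15_13_7 ln15_13_7_ok) (M (nat_lit 432) (B (L (nat_lit 464) ln15_10_4 ln15_10_4_ok) (L (nat_lit 396) ln12_12_0 ln12_12_0_ok))))) (B c11_n4830 (B (M (nat_lit 431) (B (L (nat_lit 302) ln15_13_7 ln15_13_7_ok) (M (nat_lit 432) (B (L (nat_lit 464) ln15_10_4 ln15_10_4_ok) (M (nat_lit 433) (B (L (nat_lit 430) ln17_13_3 ln17_13_3_ok) (L (nat_lit 434) ln18_13_3 ln18_13_3_ok))))))) (M (nat_lit 365) (B (M (nat_lit 333) (B (L (nat_lit 302) ln13_13_6 ln13_13_6_ok) (M (nat_lit 300) (B (L (nat_lit 332) ln13_13_7 ln13_13_7_ok) (M (nat_lit 301) (B (L (nat_lit 336) ln16_10_3 ln16_10_3_ok) (L (nat_lit 430) ln13_9_4 ln13_9_4_ok))))))) (B (M (nat_lit 364) (B (M (nat_lit 333) (B (L (nat_lit 302) ln13_13_6 ln13_13_6_ok) (L (nat_lit 336) ln16_10_1 ln16_10_1_ok))) (M (nat_lit 363) (B (L (nat_lit 362) ln10_11_0 ln10_11_0_ok) (L (nat_lit 396) ln15_12_3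 ln15_12_3_ok))))) (B (M (nat_lit 364) (B (M (nat_lit 363) (B (L (nat_lit 362) ln10_11_0 ln10_11_0_ok) (L (nat_lit 396) ln15_12_3 ln15_12_3_ok))) (B (M (nat_lit 332) (B (L (nat_lit 461) ln13_14_7 ln13_14_7_ok) (M (nat_lit 333) (B (L (nat_lit 363) ln15_10_1 ln15_10_1_ok) (L (nat_lit 336) ln16_10_1 ln16_10_1_ok))))) (M (nat_lit 332) (B (L (nat_lit 461) ln13_14_7 ln13_14_7_ok) (M (nat_lit 300) (B (L (nat_lit 268) ln12_8_4 ln12_8_4_ok) (L (nat_lit 396) ln12_9_4 ln12_9_4_ok)))))))) (M (nat_lit 461) (B (M (nat_lit 364) (B (L (nat_lit 332) ln13_14_7 ln13_14_7_ok) (M (nat_lit 363) (B (L (nat_lit 362) ln10_11_0 ln10_11_0_ok) (L (nat_lit 396) ln15_12_3 ln15_12_3_ok))))) (M (nat_lit 493) (B (M (nat_lit 492) (B (L (nat_lit 460) ln13_11_5 ln13_11_5_ok) (L (nat_lit 524) ln13_12_5 ln13_12_5_ok))) (M (nat_lit 525) (B (L (nat_lit 430) ln13_16_6 ln13_16_6_ok) (M (nat_lit 526) (B (L (nat_lit 494) ln13_12_4 ln13_12_4_ok)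 (L (nat_lit 558) ln13_13_4 ln13_13_4_ok))))))))))))))))) (nat_lit 1386334849319876073415865558685513803583763825695356067082661613985703956114995523106470662972797849906549709323519877043466534912) (nat_lit 943490606589814007117209563777279293701495552211845375510028732865980579219172234218615657546051303688601288273575591676688146799810194361712268264454708982850898624512) (nat_lit 943490606589814007117209563777279293701495552211845375510028732865980579219172234218615657546051303688601288273575591676688146799810194361712268264454708982850898624512) (by decide +kernel)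
noncomputable def c11_n4980 : Cert := (M (nat_lit 335) (B (M (nat_lit 303) (B (L (nat_lit 430) ln15_9_5 ln15_9_5_ok) (M (nat_lit 302) (B (L (nat_lit 270) ln15_12_7 ln15_12_7_ok) (M (nat_lit 431) (B (L (nat_lit 334) ln15_13_7 ln15_13_7_ok) (M (nat_lit 304) (B (L (nat_lit 272) ln15_12_6 ln15_12_6_ok) (L (nat_lit 336) ln15_13_6 ln15_13_6_ok))))))))) (B (M (nat_lit 431) (B (M (nat_lit 432) (B (L (nat_lit 464) ln15_10_4 ln15_10_4_ok) (M (nat_lit 430) (B (L (nat_lit 303) ln15_9_5 ln15_9_5_ok) (L (nat_lit 433) ln17_13_3 ln17_13_3_ok))))) (B (M (nat_lit 432) (B (L (nat_lit 464) ln15_10_4 ln15_10_4_ok) (M (nat_lit 433) (B (L (nat_lit 430) ln17_13_3 ln17_13_3_ok) (L (nat_lit 434) ln18_13_3 ln18_13_3_ok))))) (B (M (nat_lit 463) (B (M (nat_lit 336) (B (L (nat_lit 304) ln15_13_6 ln15_13_6_ok) (L (nat_lit 368) ln15_14_6 ln15_14_6_ok))) (M (nat_lit 464) (B (L (nat_lit 432) ln15_10_4 ln15_10_4_ok) (L (nat_lit 496)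 ln15_11_4 ln15_11_4_ok))))) (M (nat_lit 303) (B (L (nat_lit 430) ln15_9_5 ln15_9_5_ok) (M (nat_lit 304) (B (L (nat_lit 272) ln15_12_6 ln15_12_6_ok) (L (nat_lit 336) ln15_13_6 ln15_13_6_ok))))))))) (B (M (nat_lit 303) (B (L (nat_lit 430) ln15_9_5 ln15_9_5_ok) (M (nat_lit 431) (B (M (nat_lit 302) (B (L (nat_lit 270) ln15_12_7 ln15_12_7_ok) (L (nat_lit 334) ln15_13_7 ln15_13_7_ok))) (M (nat_lit 463) (B (M (nat_lit 336) (B (L (nat_lit 304) ln15_13_6 ln15_13_6_ok) (L (nat_lit 368) ln15_14_6 ln15_14_6_ok))) (M (nat_lit 464) (B (L (nat_lit 432) ln15_10_4 ln15_10_4_ok) (L (nat_lit 496) ln15_11_4 ln15_11_4_ok))))))))) (B (M (nat_lit 431) (B (M (nat_lit 432) (B (L (nat_lit 464) ln15_10_4 ln15_10_4_ok) (M (nat_lit 433) (B (L (nat_lit 430) ln17_13_3 ln17_13_3_ok) (L (nat_lit 434) ln18_13_3 ln18_13_3_ok))))) (M (nat_lit 336) (B (L (nat_lit 304) ln15_13_6 ln15_13_6_ok) (M (nat_lit 334) (B (L (nat_lit 302) ln15_13_7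 ln15_13_7_ok) (M (nat_lit 368) (B (L (nat_lit 463) ln15_14_6 ln15_14_6_ok) (M (nat_lit 333) (B (L (nat_lit 332) ln12_10_0 ln12_10_0_ok) (L (nat_lit 369) ln13_10_0 ln13_10_0_ok))))))))))) (B (M (nat_lit 302) (B (M (nat_lit 303) (B (L (nat_lit 270) ln15_12_7 ln15_12_7_ok) (L (nat_lit 430) ln15_9_5 ln15_9_5_ok))) (B (M (nat_lit 431) (B (L (nat_lit 334) ln15_13_7 ln15_13_7_ok) (M (nat_lit 432) (B (L (nat_lit 464) ln15_10_4 ln15_10_4_ok) (M (nat_lit 430) (B (L (nat_lit 303) ln15_9_5 ln15_9_5_ok) (L (nat_lit 433) ln17_13_3 ln17_13_3_ok))))))) (B (M (nat_lit 431) (B (L (nat_lit 334) ln15_13_7 ln15_13_7_ok) (M (nat_lit 432) (B (L (nat_lit 464) ln15_10_4 ln15_10_4_ok) (M (nat_lit 433) (B (L (nat_lit 430) ln17_13_3 ln17_13_3_ok) (L (nat_lit 434) ln18_13_3 ln18_13_3_ok))))))) (M (nat_lit 334) (B (L (nat_lit 431) ln15_13_7 ln15_13_7_ok) (M (nat_lit 270) (B (L (nat_lit 238) ln14_7_4 ln14_7_4_ok) (L (nat_lit 303)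 ln15_12_7 ln15_12_7_ok))))))))) (B (M (nat_lit 302) (B (M (nat_lit 334) (B (L (nat_lit 431) ln15_13_7 ln15_13_7_ok) (M (nat_lit 270) (B (L (nat_lit 238) ln14_7_4 ln14_7_4_ok) (L (nat_lit 303) ln15_12_7 ln15_12_7_ok))))) (B (M (nat_lit 304) (B (M (nat_lit 303) (B (L (nat_lit 270) ln15_12_7 ln15_12_7_ok) (L (nat_lit 272) ln15_12_6 ln15_12_6_ok))) (M (nat_lit 431) (B (L (nat_lit 334) ln15_13_7 ln15_13_7_ok) (L (nat_lit 336) ln15_13_6 ln15_13_6_ok))))) (B (M (nat_lit 334) (B (L (nat_lit 431) ln15_13_7 ln15_13_7_ok) (M (nat_lit 333) (B (L (nat_lit 365) ln13_13_6 ln13_13_6_ok) (M (nat_lit 368) (B (L (nat_lit 332) ln12_10_0 ln12_10_0_ok) (M (nat_lit 369) (B (L (nat_lit 336) ln13_10_0 ln13_10_0_ok) (L (nat_lit 370) ln18_11_3 ln18_11_3_ok))))))))) (B (M (nat_lit 303) (B (L (nat_lit 270) ln15_12_7 ln15_12_7_ok) (M (nat_lit 304) (B (L (nat_lit 272) ln15_12_6 ln15_12_6_ok) (M (nat_lit 336) (B (L (nat_lit 431)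 ln15_13_6 ln15_13_6_ok) (M (nat_lit 301) (B (L (nat_lit 300) ln12_9_0 ln12_9_0_ok) (L (nat_lit 337) ln13_9_0 ln13_9_0_ok))))))))) (M (nat_lit 334) (B (M (nat_lit 270) (B (L (nat_lit 238) ln14_7_4 ln14_7_4_ok) (L (nat_lit 303) ln15_12_7 ln15_12_7_ok))) (M (nat_lit 333) (B (L (nat_lit 365) ln13_13_6 ln13_13_6_ok) (M (nat_lit 368) (B (L (nat_lit 332) ln12_10_0 ln12_10_0_ok) (M (nat_lit 369) (B (L (nat_lit 336) ln13_10_0 ln13_10_0_ok) (L (nat_lit 370) ln18_11_3 ln18_11_3_ok)))))))))))))) (M (nat_lit 303) (B (L (nat_lit 430) ln15_9_5 ln15_9_5_ok) (M (nat_lit 271) (B (M (nat_lit 270) (B (L (nat_lit 238) ln15_11_7 ln15_11_7_ok) (L (nat_lit 302) ln15_12_7 ln15_12_7_ok))) (M (nat_lit 272) (B (L (nat_lit 240) ln15_11_6 ln15_11_6_ok) (L (nat_lit 304) ln15_12_6 ln15_12_6_ok))))))))))))))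
theorem c11_s4981 : Sem (nat_lit 1386334849319876073115252108020471127220853927726400856310810364034137590875879480784723248353009473168816207987117061390641135616) (nat_lit 943490607468508107818514520312288514177456686663658978791985503380566038832283985461459751946531134157667101113013032867675841781558403143832900742445431730795484020736) (nat_lit 943490607468508107818514520312288514177456686663658978791985503380566038832283985461459751946531134157667101113013032867675841781558403143832900742445431730795484020736) :=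
  sem_of_chk (M (nat_lit 367) (B (M (nat_lit 396) (B (L (nat_lit 368) ln12_12_2 ln12_12_2_ok) (M (nat_lit 431) (B (L (nat_lit 432) ln12_12_0 ln12_12_0_ok) (M (nat_lit 395) (B (L (nat_lit 430) ln11_12_0 ln11_12_0_ok) (M (nat_lit 363) (B (L (nat_lit 362) ln14_12_3 ln14_12_3_ok) (L (nat_lit 364) ln15_12_3 ln15_12_3_ok))))))))) (B (M (nat_lit 396) (B (L (nat_lit 368) ln12_12_2 ln12_12_2_ok) (M (nat_lit 364) (B (L (nat_lit 363) ln15_12_3 ln15_12_3_ok) (M (nat_lit 332) (B (L (nat_lit 300) ln12_9_4 ln12_9_4_ok) (M (nat_lit 461) (B (L (nat_lit 365) ln13_14_7 ln13_14_7_ok) (L (nat_lit 493) ln13_15_7 ln13_15_7_ok))))))))) (B (M (nat_lit 431) (B (M (nat_lit 396) (B (L (nat_lit 368) ln12_12_2 ln12_12_2_ok) (L (nat_lit 432) ln12_12_0 ln12_12_0_ok))) (B (M (nat_lit 432) (B (L (nat_lit 396) ln12_12_0 ln12_12_0_ok) (M (nat_lit 433) (B (L (nat_lit 430) ln17_13_3 ln17_13_3_ok) (L (nat_lit 434) ln18_13_3 ln18_13_3_ok)))))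 (B (M (nat_lit 432) (B (M (nat_lit 433) (B (L (nat_lit 430) ln17_13_3 ln17_13_3_ok) (L (nat_lit 434) ln18_13_3 ln18_13_3_ok))) (M (nat_lit 464) (B (L (nat_lit 335) ln15_10_4 ln15_10_4_ok) (M (nat_lit 496) (B (L (nat_lit 463) ln15_11_4 ln15_11_4_ok) (L (nat_lit 528) ln16_16_7 ln16_16_7_ok))))))) (M (nat_lit 368) (B (L (nat_lit 396) ln12_12_2 ln12_12_2_ok) (M (nat_lit 336) (B (L (nat_lit 463) ln15_14_6 ln15_14_6_ok) (M (nat_lit 304) (B (L (nat_lit 272) ln16_8_5 ln16_8_5_ok) (L (nat_lit 335) ln15_13_6 ln15_13_6_ok))))))))))) (B (M (nat_lit 335) (B (M (nat_lit 303) (B (L (nat_lit 430) ln15_9_5 ln15_9_5_ok) (M (nat_lit 302) (B (L (nat_lit 270) ln15_12_7 ln15_12_7_ok) (M (nat_lit 431) (B (L (nat_lit 334) ln15_13_7 ln15_13_7_ok) (M (nat_lit 304) (B (L (nat_lit 272) ln15_12_6 ln15_12_6_ok) (L (nat_lit 336) ln15_13_6 ln15_13_6_ok))))))))) (B (M (nat_lit 303) (B (L (nat_lit 430) ln15_9_5 ln15_9_5_ok) (M (nat_lit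 431) (B (M (nat_lit 304) (B (L (nat_lit 272) ln15_12_6 ln15_12_6_ok) (L (nat_lit 336) ln15_13_6 ln15_13_6_ok))) (M (nat_lit 432) (B (L (nat_lit 464) ln15_10_4 ln15_10_4_ok) (L (nat_lit 396) ln12_12_0 ln12_12_0_ok))))))) (B (M (nat_lit 303) (B (L (nat_lit 430) ln15_9_5 ln15_9_5_ok) (M (nat_lit 431) (B (M (nat_lit 302) (B (L (nat_lit 270) ln15_12_7 ln15_12_7_ok) (L (nat_lit 334) ln15_13_7 ln15_13_7_ok))) (M (nat_lit 432) (B (L (nat_lit 464) ln15_10_4 ln15_10_4_ok) (L (nat_lit 396) ln12_12_0 ln12_12_0_ok))))))) (B (K (nat_lit 1386334849319876073415865558685513803583763825695356067082661613985703956114995523106470662972797849906549709323519877043466534912) (nat_lit 943490606589814007117209563777279293701495552211845375510028732865980579219172234218615657546051303688601288273575591676688146799810194361712268264454708982850898624512) (nat_lit 943490606589814007117209563777279293701495552211845375510028732865980579219172234218615657546051303688601288273575591676688146799810194361712268264454708982850898624512)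 c11_s4874) (B (M (nat_lit 431) (B (M (nat_lit 432) (B (L (nat_lit 464) ln15_10_4 ln15_10_4_ok) (L (nat_lit 396) ln12_12_0 ln12_12_0_ok))) (M (nat_lit 303) (B (M (nat_lit 302) (B (L (nat_lit 270) ln15_12_7 ln15_12_7_ok) (L (nat_lit 334) ln15_13_7 ln15_13_7_ok))) (M (nat_lit 304) (B (L (nat_lit 272) ln15_12_6 ln15_12_6_ok) (L (nat_lit 336) ln15_13_6 ln15_13_6_ok))))))) (M (nat_lit 303) (B (L (nat_lit 430) ln15_9_5 ln15_9_5_ok) (M (nat_lit 271) (B (M (nat_lit 270) (B (L (nat_lit 238) ln15_11_7 ln15_11_7_ok) (L (nat_lit 302) ln15_12_7 ln15_12_7_ok))) (M (nat_lit 272) (B (L (nat_lit 240) ln15_11_6 ln15_11_6_ok) (L (nat_lit 304) ln15_12_6 ln15_12_6_ok))))))))))))) c11_n4980))))) (nat_lit 1386334849319876073115252108020471127220853927726400856310810364034137590875879480784723248353009473168816207987117061390641135616) (nat_lit 943490607468508107818514520312288514177456686663658978791985503380566038832283985461459751946531134157667101113013032867675841781558403143832900742445431730795484020736)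 (nat_lit 943490607468508107818514520312288514177456686663658978791985503380566038832283985461459751946531134157667101113013032867675841781558403143832900742445431730795484020736) (by decide +kernel)
theorem c11_s4997 : Sem (nat_lit 1386334848028751134071797813192511541219347990561547959896198607618807912605555669776302651038186796528747292269165475404267388928) (nat_lit 943490607468508108329981802891328886726616793382325613724648344872827649104825193315956028758519163533227390816635427452853771423825542420575827740686652079238102908928) (nat_lit 943490607468508108329981802891328886726616793382325613724648344872827649104825193315956028758519163533227390816635427452853771423825542420575827740686652079238102908928) :=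
  sem_of_chk (M (nat_lit 399) (B (M (nat_lit 400) (B (M (nat_lit 401) (B (L (nat_lit 430) ln17_12_1 ln17_12_1_ok) (M (nat_lit 369) (B (L (nat_lit 368) ln13_12_2 ln13_12_2_ok) (L (nat_lit 370) ln14_12_2 ln14_12_2_ok))))) (B (M (nat_lit 401) (B (L (nat_lit 430) ln17_12_1 ln17_12_1_ok) (M (nat_lit 433) (B (L (nat_lit 432) ln13_12_0 ln13_12_0_ok) (L (nat_lit 434) ln14_12_0 ln14_12_0_ok))))) (M (nat_lit 396) (B (M (nat_lit 364) (B (L (nat_lit 363) ln15_12_3 ln15_12_3_ok) (L (nat_lit 365) ln16_12_3 ln16_12_3_ok))) (M (nat_lit 368) (B (L (nat_lit 367) ln12_12_2 ln12_12_2_ok) (L (nat_lit 369) ln13_12_2 ln13_12_2_ok)))))))) (B (M (nat_lit 400) (B (M (nat_lit 401) (B (L (nat_lit 430) ln17_12_1 ln17_12_1_ok) (M (nat_lit 369) (B (L (nat_lit 368) ln13_12_2 ln13_12_2_ok) (L (nat_lit 370) ln14_12_2 ln14_12_2_ok))))) (B (M (nat_lit 401) (B (L (nat_lit 430) ln17_12_1 ln17_12_1_ok) (M (nat_lit 433) (B (L (nat_lit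 432) ln13_12_0 ln13_12_0_ok) (L (nat_lit 434) ln14_12_0 ln14_12_0_ok))))) (M (nat_lit 396) (B (M (nat_lit 368) (B (L (nat_lit 367) ln12_12_2 ln12_12_2_ok) (L (nat_lit 369) ln13_12_2 ln13_12_2_ok))) (M (nat_lit 432) (B (L (nat_lit 431) ln12_12_0 ln12_12_0_ok) (L (nat_lit 433) ln13_12_0 ln13_12_0_ok)))))))) (B (M (nat_lit 400) (B (M (nat_lit 401) (B (L (nat_lit 430) ln17_12_1 ln17_12_1_ok) (M (nat_lit 369) (B (L (nat_lit 368) ln13_12_2 ln13_12_2_ok) (L (nat_lit 370) ln14_12_2 ln14_12_2_ok))))) (B (M (nat_lit 401) (B (L (nat_lit 430) ln17_12_1 ln17_12_1_ok) (M (nat_lit 433) (B (L (nat_lit 432) ln13_12_0 ln13_12_0_ok) (L (nat_lit 434) ln14_12_0 ln14_12_0_ok))))) (M (nat_lit 432) (B (L (nat_lit 433) ln13_12_0 ln13_12_0_ok) (M (nat_lit 396) (B (L (nat_lit 431) ln12_12_0 ln12_12_0_ok) (M (nat_lit 364) (B (L (nat_lit 363) ln15_12_3 ln15_12_3_ok) (L (nat_lit 365) ln16_12_3 ln16_12_3_ok)))))))))) (B (M (nat_lit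 400) (B (M (nat_lit 401) (B (L (nat_lit 430) ln17_12_1 ln17_12_1_ok) (M (nat_lit 433) (B (L (nat_lit 432) ln13_12_0 ln13_12_0_ok) (L (nat_lit 434) ln14_12_0 ln14_12_0_ok))))) (B (M (nat_lit 432) (B (L (nat_lit 433) ln13_12_0 ln13_12_0_ok) (M (nat_lit 396) (B (L (nat_lit 431) ln12_12_0 ln12_12_0_ok) (M (nat_lit 364) (B (L (nat_lit 363) ln15_12_3 ln15_12_3_ok) (L (nat_lit 365) ln16_12_3 ln16_12_3_ok))))))) (M (nat_lit 430) (B (L (nat_lit 401) ln17_12_1 ln17_12_1_ok) (M (nat_lit 396) (B (M (nat_lit 364) (B (L (nat_lit 363) ln15_12_3 ln15_12_3_ok) (L (nat_lit 365) ln16_12_3 ln16_12_3_ok))) (M (nat_lit 395) (B (L (nat_lit 394) ln10_12_0 ln10_12_0_ok) (L (nat_lit 431) ln11_12_0 ln11_12_0_ok)))))))))) (B (M (nat_lit 400) (B (M (nat_lit 401) (B (L (nat_lit 430) ln17_12_1 ln17_12_1_ok) (M (nat_lit 369) (B (L (nat_lit 368) ln13_12_2 ln13_12_2_ok) (L (nat_lit 370) ln14_12_2 ln14_12_2_ok))))) (B (M (nat_lit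 401) (B (L (nat_lit 430) ln17_12_1 ln17_12_1_ok) (M (nat_lit 433) (B (L (nat_lit 432) ln13_12_0 ln13_12_0_ok) (L (nat_lit 434) ln14_12_0 ln14_12_0_ok))))) (B (M (nat_lit 432) (B (L (nat_lit 433) ln13_12_0 ln13_12_0_ok) (M (nat_lit 368) (B (L (nat_lit 369) ln13_12_2 ln13_12_2_ok) (M (nat_lit 431) (B (M (nat_lit 463) (B (L (nat_lit 336) ln16_10_5 ln16_10_5_ok) (L (nat_lit 495) ln15_15_6 ln15_15_6_ok))) (M (nat_lit 464) (B (M (nat_lit 367) (B (L (nat_lit 335) ln16_14_7 ln16_14_7_ok) (L (nat_lit 496) ln16_15_7 ln16_15_7_ok))) (M (nat_lit 465) (B (L (nat_lit 497) ln16_11_4 ln16_11_4_ok) (L (nat_lit 430) ln13_13_0 ln13_13_0_ok))))))))))) (M (nat_lit 401) (B (M (nat_lit 369) (B (L (nat_lit 368) ln13_12_2 ln13_12_2_ok) (L (nat_lit 370) ln14_12_2 ln14_12_2_ok))) (M (nat_lit 433) (B (L (nat_lit 432) ln13_12_0 ln13_12_0_ok) (L (nat_lit 434) ln14_12_0 ln14_12_0_ok))))))))) (B (K (nat_lit 1386334849319876073115252108020471127220853927726400856310810364034137590875879480784723248353009473168816207987117061390641135616)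 (nat_lit 943490607468508107818514520312288514177456686663658978791985503380566038832283985461459751946531134157667101113013032867675841781558403143832900742445431730795484020736) (nat_lit 943490607468508107818514520312288514177456686663658978791985503380566038832283985461459751946531134157667101113013032867675841781558403143832900742445431730795484020736) c11_s4981) (B (M (nat_lit 400) (B (M (nat_lit 432) (B (L (nat_lit 433) ln13_12_0 ln13_12_0_ok) (M (nat_lit 396) (B (L (nat_lit 431) ln12_12_0 ln12_12_0_ok) (M (nat_lit 364) (B (L (nat_lit 363) ln15_12_3 ln15_12_3_ok) (L (nat_lit 365) ln16_12_3 ln16_12_3_ok))))))) (B (M (nat_lit 401) (B (M (nat_lit 369) (B (L (nat_lit 368) ln13_12_2 ln13_12_2_ok) (L (nat_lit 370) ln14_12_2 ln14_12_2_ok))) (M (nat_lit 433) (B (L (nat_lit 432) ln13_12_0 ln13_12_0_ok) (L (nat_lit 434) ln14_12_0 ln14_12_0_ok))))) (M (nat_lit 396) (B (M (nat_lit 364) (B (L (nat_lit 363)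 ln15_12_3 ln15_12_3_ok) (L (nat_lit 365) ln16_12_3 ln16_12_3_ok))) (M (nat_lit 368) (B (L (nat_lit 367) ln12_12_2 ln12_12_2_ok) (L (nat_lit 369) ln13_12_2 ln13_12_2_ok)))))))) (B (M (nat_lit 400) (B (M (nat_lit 401) (B (L (nat_lit 430) ln17_12_1 ln17_12_1_ok) (M (nat_lit 369) (B (L (nat_lit 368) ln13_12_2 ln13_12_2_ok) (L (nat_lit 370) ln14_12_2 ln14_12_2_ok))))) (B (M (nat_lit 401) (B (L (nat_lit 430) ln17_12_1 ln17_12_1_ok) (M (nat_lit 402) (B (M (nat_lit 370) (B (L (nat_lit 369) ln14_12_2 ln14_12_2_ok) (L (nat_lit 371) ln15_12_2 ln15_12_2_ok))) (M (nat_lit 434) (B (L (nat_lit 433) ln14_12_0 ln14_12_0_ok) (L (nat_lit 435) ln15_12_0 ln15_12_0_ok))))))) (B (M (nat_lit 430) (B (L (nat_lit 401) ln17_12_1 ln17_12_1_ok) (M (nat_lit 396) (B (M (nat_lit 364) (B (L (nat_lit 363) ln15_12_3 ln15_12_3_ok) (L (nat_lit 365) ln16_12_3 ln16_12_3_ok))) (M (nat_lit 395) (B (L (nat_lit 394) ln10_12_0 ln10_12_0_ok)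 (L (nat_lit 431) ln11_12_0 ln11_12_0_ok))))))) (M (nat_lit 396) (B (M (nat_lit 364) (B (L (nat_lit 363) ln15_12_3 ln15_12_3_ok) (L (nat_lit 365) ln16_12_3 ln16_12_3_ok))) (M (nat_lit 368) (B (L (nat_lit 367) ln12_12_2 ln12_12_2_ok) (L (nat_lit 369) ln13_12_2 ln13_12_2_ok))))))))) (M (nat_lit 396) (B (M (nat_lit 364) (B (L (nat_lit 363) ln15_12_3 ln15_12_3_ok) (M (nat_lit 332) (B (L (nat_lit 300) ln12_9_4 ln12_9_4_ok) (M (nat_lit 461) (B (L (nat_lit 365) ln13_14_7 ln13_14_7_ok) (L (nat_lit 493) ln13_15_7 ln13_15_7_ok))))))) (B (M (nat_lit 364) (B (L (nat_lit 363) ln15_12_3 ln15_12_3_ok) (M (nat_lit 368) (B (L (nat_lit 367) ln12_12_2 ln12_12_2_ok) (M (nat_lit 400) (B (L (nat_lit 365) ln16_12_3 ln16_12_3_ok) (L (nat_lit 369) ln13_12_2 ln13_12_2_ok))))))) (M (nat_lit 400) (B (M (nat_lit 368) (B (L (nat_lit 367) ln12_12_2 ln12_12_2_ok) (L (nat_lit 369) ln13_12_2 ln13_12_2_ok))) (M (nat_lit 430) (B (L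 (nat_lit 401) ln17_12_1 ln17_12_1_ok) (M (nat_lit 395) (B (L (nat_lit 394) ln10_12_0 ln10_12_0_ok) (L (nat_lit 431) ln11_12_0 ln11_12_0_ok))))))))))))))))))) (nat_lit 1386334848028751134071797813192511541219347990561547959896198607618807912605555669776302651038186796528747292269165475404267388928) (nat_lit 943490607468508108329981802891328886726616793382325613724648344872827649104825193315956028758519163533227390816635427452853771423825542420575827740686652079238102908928) (nat_lit 943490607468508108329981802891328886726616793382325613724648344872827649104825193315956028758519163533227390816635427452853771423825542420575827740686652079238102908928) (by decide +kernel)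
noncomputable def c11_n5019 : Cert := (M (nat_lit 461) (B (M (nat_lit 366) (B (L (nat_lit 493) ln13_15_6 ln13_15_6_ok) (M (nat_lit 334) (B (L (nat_lit 302) ln14_9_5 ln14_9_5_ok) (L (nat_lit 430) ln14_10_5 ln14_10_5_ok))))) (B (M (nat_lit 366) (B (L (nat_lit 493) ln13_15_6 ln13_15_6_ok) (M (nat_lit 334) (B (L (nat_lit 365) ln13_14_6 ln13_14_6_ok) (L (nat_lit 430) ln14_10_5 ln14_10_5_ok))))) (B (M (nat_lit 493) (B (L (nat_lit 366) ln13_15_6 ln13_15_6_ok) (M (nat_lit 525) (B (L (nat_lit 430) ln13_16_6 ln13_16_6_ok) (M (nat_lit 524) (B (L (nat_lit 492) ln13_12_5 ln13_12_5_ok) (L (nat_lit 556) ln13_13_5 ln13_13_5_ok))))))) (B (M (nat_lit 493) (B (M (nat_lit 525) (B (L (nat_lit 430) ln13_16_6 ln13_16_6_ok) (M (nat_lit 524) (B (L (nat_lit 492) ln13_12_5 ln13_12_5_ok) (L (nat_lit 556) ln13_13_5 ln13_13_5_ok))))) (B (M (nat_lit 525) (B (M (nat_lit 524) (B (L (nat_lit 492) ln13_12_5 ln13_12_5_ok) (L (nat_lit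 556) ln13_13_5 ln13_13_5_ok))) (M (nat_lit 526) (B (L (nat_lit 494) ln13_12_4 ln13_12_4_ok) (L (nat_lit 558) ln13_13_4 ln13_13_4_ok))))) (B (M (nat_lit 525) (B (L (nat_lit 430) ln13_16_6 ln13_16_6_ok) (M (nat_lit 526) (B (L (nat_lit 494) ln13_12_4 ln13_12_4_ok) (L (nat_lit 558) ln13_13_4 ln13_13_4_ok))))) (M (nat_lit 365) (B (M (nat_lit 492) (B (L (nat_lit 460) ln13_11_5 ln13_11_5_ok) (L (nat_lit 524) ln13_12_5 ln13_12_5_ok))) (M (nat_lit 333) (B (M (nat_lit 332) (B (L (nat_lit 300) ln13_13_7 ln13_13_7_ok) (L (nat_lit 364) ln13_14_7 ln13_14_7_ok))) (M (nat_lit 301) (B (L (nat_lit 430) ln13_9_4 ln13_9_4_ok) (M (nat_lit 302) (B (L (nat_lit 270) ln13_12_6 ln13_12_6_ok) (L (nat_lit 334) ln13_13_6 ln13_13_6_ok))))))))))))) (B (M (nat_lit 366) (B (L (nat_lit 493) ln13_15_6 ln13_15_6_ok) (M (nat_lit 334) (B (L (nat_lit 302) ln14_9_5 ln14_9_5_ok) (L (nat_lit 365) ln13_14_6 ln13_14_6_ok))))) (M (nat_lit 365)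 (B (M (nat_lit 334) (B (L (nat_lit 366) ln13_14_6 ln13_14_6_ok) (M (nat_lit 333) (B (L (nat_lit 302) ln13_13_6 ln13_13_6_ok) (M (nat_lit 332) (B (L (nat_lit 300) ln13_13_7 ln13_13_7_ok) (L (nat_lit 364) ln13_14_7 ln13_14_7_ok))))))) (B (M (nat_lit 366) (B (L (nat_lit 334) ln13_14_6 ln13_14_6_ok) (M (nat_lit 364) (B (L (nat_lit 332) ln13_14_7 ln13_14_7_ok) (M (nat_lit 399) (B (L (nat_lit 363) ln11_11_0 ln11_11_0_ok) (L (nat_lit 400) ln16_12_3 ln16_12_3_ok))))))) (B (M (nat_lit 333) (B (M (nat_lit 334) (B (L (nat_lit 302) ln13_13_6 ln13_13_6_ok) (L (nat_lit 366) ln13_14_6 ln13_14_6_ok))) (B (M (nat_lit 366) (B (L (nat_lit 334) ln13_14_6 ln13_14_6_ok) (M (nat_lit 301) (B (L (nat_lit 269) ln13_8_4 ln13_8_4_ok) (L (nat_lit 430) ln13_9_4 ln13_9_4_ok))))) (B (M (nat_lit 301) (B (L (nat_lit 430) ln13_9_4 ln13_9_4_ok) (M (nat_lit 269) (B (L (nat_lit 366) ln13_8_4 ln13_8_4_ok) (M (nat_lit 268) (B (L (nat_lit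 236) ln13_11_7 ln13_11_7_ok) (L (nat_lit 300) ln13_12_7 ln13_12_7_ok))))))) (M (nat_lit 301) (B (L (nat_lit 430) ln13_9_4 ln13_9_4_ok) (M (nat_lit 302) (B (L (nat_lit 270) ln13_12_6 ln13_12_6_ok) (L (nat_lit 334) ln13_13_6 ln13_13_6_ok))))))))) (B (M (nat_lit 333) (B (M (nat_lit 332) (B (L (nat_lit 300) ln13_13_7 ln13_13_7_ok) (L (nat_lit 364) ln13_14_7 ln13_14_7_ok))) (M (nat_lit 301) (B (L (nat_lit 430) ln13_9_4 ln13_9_4_ok) (M (nat_lit 269) (B (L (nat_lit 366) ln13_8_4 ln13_8_4_ok) (M (nat_lit 270) (B (L (nat_lit 238) ln13_11_6 ln13_11_6_ok) (L (nat_lit 302) ln13_12_6 ln13_12_6_ok))))))))) (M (nat_lit 333) (B (M (nat_lit 332) (B (L (nat_lit 300) ln13_13_7 ln13_13_7_ok) (L (nat_lit 364) ln13_14_7 ln13_14_7_ok))) (M (nat_lit 301) (B (L (nat_lit 430) ln13_9_4 ln13_9_4_ok) (M (nat_lit 302) (B (L (nat_lit 270) ln13_12_6 ln13_12_6_ok) (L (nat_lit 334) ln13_13_6 ln13_13_6_ok))))))))))))))))))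
noncomputable def c11_n5042 : Cert := (M (nat_lit 365) (B (M (nat_lit 334) (B (L (nat_lit 366) ln13_14_6 ln13_14_6_ok) (M (nat_lit 333) (B (L (nat_lit 302) ln13_13_6 ln13_13_6_ok) (M (nat_lit 332) (B (L (nat_lit 300) ln13_13_7 ln13_13_7_ok) (L (nat_lit 364) ln13_14_7 ln13_14_7_ok))))))) (B (M (nat_lit 333) (B (M (nat_lit 334) (B (L (nat_lit 302) ln13_13_6 ln13_13_6_ok) (L (nat_lit 366) ln13_14_6 ln13_14_6_ok))) (B (M (nat_lit 366) (B (L (nat_lit 334) ln13_14_6 ln13_14_6_ok) (M (nat_lit 301) (B (L (nat_lit 269) ln13_8_4 ln13_8_4_ok) (L (nat_lit 430) ln13_9_4 ln13_9_4_ok))))) (B (M (nat_lit 301) (B (L (nat_lit 430) ln13_9_4 ln13_9_4_ok) (M (nat_lit 269) (B (L (nat_lit 366) ln13_8_4 ln13_8_4_ok) (M (nat_lit 364) (B (L (nat_lit 396) ln13_8_5 ln13_8_5_ok) (L (nat_lit 332) ln13_14_7 ln13_14_7_ok))))))) (M (nat_lit 301) (B (L (nat_lit 430) ln13_9_4 ln13_9_4_ok) (M (nat_lit 302) (B (L (nat_lit 270) ln13_12_6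 ln13_12_6_ok) (L (nat_lit 334) ln13_13_6 ln13_13_6_ok))))))))) (B (M (nat_lit 366) (B (L (nat_lit 334) ln13_14_6 ln13_14_6_ok) (M (nat_lit 333) (B (M (nat_lit 332) (B (L (nat_lit 300) ln13_13_7 ln13_13_7_ok) (L (nat_lit 364) ln13_14_7 ln13_14_7_ok))) (M (nat_lit 301) (B (L (nat_lit 269) ln13_8_4 ln13_8_4_ok) (L (nat_lit 430) ln13_9_4 ln13_9_4_ok))))))) (B (M (nat_lit 333) (B (M (nat_lit 334) (B (L (nat_lit 302) ln13_13_6 ln13_13_6_ok) (L (nat_lit 366) ln13_14_6 ln13_14_6_ok))) (B (M (nat_lit 366) (B (L (nat_lit 334) ln13_14_6 ln13_14_6_ok) (M (nat_lit 301) (B (L (nat_lit 269) ln13_8_4 ln13_8_4_ok) (L (nat_lit 430) ln13_9_4 ln13_9_4_ok))))) (B (M (nat_lit 301) (B (L (nat_lit 430) ln13_9_4 ln13_9_4_ok) (M (nat_lit 269) (B (L (nat_lit 366) ln13_8_4 ln13_8_4_ok) (M (nat_lit 268) (B (L (nat_lit 236) ln13_11_7 ln13_11_7_ok) (L (nat_lit 300) ln13_12_7 ln13_12_7_ok))))))) (M (nat_lit 301) (B (L (nat_lit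 430) ln13_9_4 ln13_9_4_ok) (M (nat_lit 302) (B (L (nat_lit 270) ln13_12_6 ln13_12_6_ok) (L (nat_lit 334) ln13_13_6 ln13_13_6_ok))))))))) (B (M (nat_lit 366) (B (L (nat_lit 334) ln13_14_6 ln13_14_6_ok) (M (nat_lit 364) (B (L (nat_lit 332) ln13_14_7 ln13_14_7_ok) (M (nat_lit 367) (B (M (nat_lit 396) (B (L (nat_lit 395) ln15_11_1 ln15_11_1_ok) (L (nat_lit 368) ln16_11_1 ln16_11_1_ok))) (B (M (nat_lit 395) (B (L (nat_lit 396) ln15_11_1 ln15_11_1_ok) (M (nat_lit 363) (B (L (nat_lit 362) ln10_11_0 ln10_11_0_ok) (L (nat_lit 394) ln14_11_1 ln14_11_1_ok))))) (B (M (nat_lit 368) (B (L (nat_lit 396) ln16_11_1 ln16_11_1_ok) (L (nat_lit 369) ln17_11_1 ln17_11_1_ok))) (M (nat_lit 336) (B (L (nat_lit 335) ln12_11_2 ln12_11_2_ok) (M (nat_lit 368) (B (L (nat_lit 337) ln13_11_2 ln13_11_2_ok) (L (nat_lit 369) ln17_11_1 ln17_11_1_ok))))))))))))) (B (M (nat_lit 333) (B (M (nat_lit 332) (B (L (nat_lit 300) ln13_13_7 ln13_13_7_ok)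 (L (nat_lit 364) ln13_14_7 ln13_14_7_ok))) (B (M (nat_lit 301) (B (L (nat_lit 430) ln13_9_4 ln13_9_4_ok) (M (nat_lit 269) (B (L (nat_lit 366) ln13_8_4 ln13_8_4_ok) (M (nat_lit 364) (B (L (nat_lit 396) ln13_8_5 ln13_8_5_ok) (L (nat_lit 332) ln13_14_7 ln13_14_7_ok))))))) (M (nat_lit 301) (B (L (nat_lit 430) ln13_9_4 ln13_9_4_ok) (M (nat_lit 269) (B (L (nat_lit 366) ln13_8_4 ln13_8_4_ok) (M (nat_lit 268) (B (L (nat_lit 236) ln13_11_7 ln13_11_7_ok) (L (nat_lit 300) ln13_12_7 ln13_12_7_ok)))))))))) (M (nat_lit 333) (B (M (nat_lit 332) (B (L (nat_lit 300) ln13_13_7 ln13_13_7_ok) (L (nat_lit 364) ln13_14_7 ln13_14_7_ok))) (M (nat_lit 301) (B (L (nat_lit 430) ln13_9_4 ln13_9_4_ok) (M (nat_lit 302) (B (L (nat_lit 270) ln13_12_6 ln13_12_6_ok) (L (nat_lit 334) ln13_13_6 ln13_13_6_ok))))))))))))))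
noncomputable def c11_n5043 : Cert := (M (nat_lit 461) (B (M (nat_lit 366) (B (L (nat_lit 493) ln13_15_6 ln13_15_6_ok) (M (nat_lit 334) (B (L (nat_lit 302) ln14_9_5 ln14_9_5_ok) (L (nat_lit 430) ln14_10_5 ln14_10_5_ok))))) (B (M (nat_lit 366) (B (L (nat_lit 493) ln13_15_6 ln13_15_6_ok) (M (nat_lit 334) (B (L (nat_lit 365) ln13_14_6 ln13_14_6_ok) (L (nat_lit 430) ln14_10_5 ln14_10_5_ok))))) (B (M (nat_lit 493) (B (L (nat_lit 366) ln13_15_6 ln13_15_6_ok) (M (nat_lit 525) (B (L (nat_lit 430) ln13_16_6 ln13_16_6_ok) (M (nat_lit 524) (B (L (nat_lit 492) ln13_12_5 ln13_12_5_ok) (L (nat_lit 556) ln13_13_5 ln13_13_5_ok))))))) (B (M (nat_lit 493) (B (M (nat_lit 525) (B (L (nat_lit 430) ln13_16_6 ln13_16_6_ok) (M (nat_lit 524) (B (L (nat_lit 492) ln13_12_5 ln13_12_5_ok) (L (nat_lit 556) ln13_13_5 ln13_13_5_ok))))) (B (M (nat_lit 365) (B (M (nat_lit 364) (B (L (nat_lit 332) ln13_14_7 ln13_14_7_ok) (L (nat_lit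 396) ln13_15_7 ln13_15_7_ok))) (M (nat_lit 492) (B (L (nat_lit 460) ln13_11_5 ln13_11_5_ok) (L (nat_lit 524) ln13_12_5 ln13_12_5_ok))))) (M (nat_lit 525) (B (L (nat_lit 430) ln13_16_6 ln13_16_6_ok) (M (nat_lit 526) (B (L (nat_lit 494) ln13_12_4 ln13_12_4_ok) (L (nat_lit 558) ln13_13_4 ln13_13_4_ok)))))))) (B (M (nat_lit 366) (B (L (nat_lit 493) ln13_15_6 ln13_15_6_ok) (M (nat_lit 334) (B (L (nat_lit 302) ln14_9_5 ln14_9_5_ok) (L (nat_lit 365) ln13_14_6 ln13_14_6_ok))))) c11_n5042))))))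
theorem c11_s5169 : Sem (nat_lit 1386334848028751134071797813192511541219347990561547959896198607618807912605555669776302651038186796528747292269165475404267388928) (nat_lit 127866820650714356027718371602173149000428027905155155022018087324907032341221895664450209594540712264945012477610108380635097886280088087391035719680) (nat_lit 127866820650714356027718371602173149000428027905155155022018087324907032341221895664450209594540712264945012477610108380635097886280088087391035719680) :=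
  sem_of_chk (M (nat_lit 399) (B (M (nat_lit 366) (B (M (nat_lit 334) (B (L (nat_lit 302) ln14_9_5 ln14_9_5_ok) (M (nat_lit 461) (B (L (nat_lit 365) ln13_14_6 ln13_14_6_ok) (L (nat_lit 493) ln13_15_6 ln13_15_6_ok))))) (B (M (nat_lit 365) (B (M (nat_lit 461) (B (L (nat_lit 334) ln13_14_6 ln13_14_6_ok) (L (nat_lit 493) ln13_15_6 ln13_15_6_ok))) (M (nat_lit 364) (B (L (nat_lit 363) ln11_11_0 ln11_11_0_ok) (L (nat_lit 400) ln16_12_3 ln16_12_3_ok))))) (B (M (nat_lit 396) (B (M (nat_lit 367) (B (L (nat_lit 395) ln11_12_2 ln11_12_2_ok) (L (nat_lit 368) ln12_12_2 ln12_12_2_ok))) (M (nat_lit 364) (B (L (nat_lit 363) ln15_12_3 ln15_12_3_ok) (M (nat_lit 400) (B (L (nat_lit 365) ln16_12_3 ln16_12_3_ok) (M (nat_lit 432) (B (L (nat_lit 431) ln12_12_0 ln12_12_0_ok) (L (nat_lit 433) ln13_12_0 ln13_12_0_ok))))))))) (M (nat_lit 431) (B (M (nat_lit 396) (B (L (nat_lit 432) ln12_12_0 ln12_12_0_ok) (M (nat_lit 367) (B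 (L (nat_lit 395) ln11_12_2 ln11_12_2_ok) (L (nat_lit 368) ln12_12_2 ln12_12_2_ok))))) (B (M (nat_lit 432) (B (L (nat_lit 396) ln12_12_0 ln12_12_0_ok) (M (nat_lit 433) (B (L (nat_lit 400) ln13_12_0 ln13_12_0_ok) (L (nat_lit 434) ln18_13_3 ln18_13_3_ok))))) (M (nat_lit 334) (B (L (nat_lit 302) ln14_9_5 ln14_9_5_ok) (M (nat_lit 463) (B (L (nat_lit 367) ln15_14_7 ln15_14_7_ok) (L (nat_lit 495) ln15_15_7 ln15_15_7_ok)))))))))))) (B (M (nat_lit 396) (B (M (nat_lit 400) (B (M (nat_lit 368) (B (L (nat_lit 367) ln12_12_2 ln12_12_2_ok) (L (nat_lit 369) ln13_12_2 ln13_12_2_ok))) (M (nat_lit 432) (B (L (nat_lit 431) ln12_12_0 ln12_12_0_ok) (L (nat_lit 433) ln13_12_0 ln13_12_0_ok))))) (B (M (nat_lit 400) (B (M (nat_lit 364) (B (L (nat_lit 363) ln15_12_3 ln15_12_3_ok) (L (nat_lit 365) ln16_12_3 ln16_12_3_ok))) (M (nat_lit 432) (B (L (nat_lit 431) ln12_12_0 ln12_12_0_ok) (L (nat_lit 433) ln13_12_0 ln13_12_0_ok)))))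 (M (nat_lit 395) (B (M (nat_lit 363) (B (L (nat_lit 362) ln14_12_3 ln14_12_3_ok) (L (nat_lit 364) ln15_12_3 ln15_12_3_ok))) (M (nat_lit 367) (B (L (nat_lit 366) ln11_12_2 ln11_12_2_ok) (L (nat_lit 368) ln12_12_2 ln12_12_2_ok)))))))) (B (M (nat_lit 366) (B (M (nat_lit 334) (B (L (nat_lit 302) ln14_9_5 ln14_9_5_ok) (M (nat_lit 461) (B (L (nat_lit 365) ln13_14_6 ln13_14_6_ok) (L (nat_lit 493) ln13_15_6 ln13_15_6_ok))))) (B (M (nat_lit 365) (B (M (nat_lit 461) (B (L (nat_lit 334) ln13_14_6 ln13_14_6_ok) (L (nat_lit 493) ln13_15_6 ln13_15_6_ok))) (M (nat_lit 400) (B (L (nat_lit 364) ln16_12_3 ln16_12_3_ok) (L (nat_lit 401) ln17_12_3 ln17_12_3_ok))))) (B (M (nat_lit 400) (B (M (nat_lit 365) (B (L (nat_lit 364) ln16_12_3 ln16_12_3_ok) (L (nat_lit 401) ln17_12_3 ln17_12_3_ok))) (M (nat_lit 396) (B (M (nat_lit 367) (B (L (nat_lit 395) ln11_12_2 ln11_12_2_ok) (L (nat_lit 368) ln12_12_2 ln12_12_2_ok))) (M (nat_lit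 432) (B (L (nat_lit 431) ln12_12_0 ln12_12_0_ok) (L (nat_lit 433) ln13_12_0 ln13_12_0_ok))))))) (M (nat_lit 431) (B (M (nat_lit 396) (B (L (nat_lit 432) ln12_12_0 ln12_12_0_ok) (M (nat_lit 367) (B (L (nat_lit 395) ln11_12_2 ln11_12_2_ok) (L (nat_lit 368) ln12_12_2 ln12_12_2_ok))))) (B (M (nat_lit 432) (B (L (nat_lit 396) ln12_12_0 ln12_12_0_ok) (M (nat_lit 433) (B (L (nat_lit 400) ln13_12_0 ln13_12_0_ok) (L (nat_lit 434) ln18_13_3 ln18_13_3_ok))))) (M (nat_lit 334) (B (L (nat_lit 302) ln14_9_5 ln14_9_5_ok) (M (nat_lit 463) (B (L (nat_lit 367) ln15_14_7 ln15_14_7_ok) (L (nat_lit 495) ln15_15_7 ln15_15_7_ok)))))))))))) (B (M (nat_lit 366) (B (M (nat_lit 334) (B (L (nat_lit 302) ln14_9_5 ln14_9_5_ok) (M (nat_lit 461) (B (L (nat_lit 365) ln13_14_6 ln13_14_6_ok) (L (nat_lit 493) ln13_15_6 ln13_15_6_ok))))) (B (M (nat_lit 400) (B (M (nat_lit 401) (B (L (nat_lit 365) ln17_12_3 ln17_12_3_ok) (M (nat_lit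 369) (B (L (nat_lit 368) ln13_12_2 ln13_12_2_ok) (L (nat_lit 370) ln14_12_2 ln14_12_2_ok))))) (B (M (nat_lit 401) (B (M (nat_lit 369) (B (L (nat_lit 368) ln13_12_2 ln13_12_2_ok) (L (nat_lit 370) ln14_12_2 ln14_12_2_ok))) (M (nat_lit 433) (B (L (nat_lit 432) ln13_12_0 ln13_12_0_ok) (L (nat_lit 434) ln14_12_0 ln14_12_0_ok))))) (B (M (nat_lit 401) (B (L (nat_lit 365) ln17_12_3 ln17_12_3_ok) (M (nat_lit 433) (B (L (nat_lit 432) ln13_12_0 ln13_12_0_ok) (L (nat_lit 434) ln14_12_0 ln14_12_0_ok))))) (M (nat_lit 396) (B (M (nat_lit 367) (B (L (nat_lit 395) ln11_12_2 ln11_12_2_ok) (L (nat_lit 368) ln12_12_2 ln12_12_2_ok))) (M (nat_lit 432) (B (L (nat_lit 431) ln12_12_0 ln12_12_0_ok) (L (nat_lit 433) ln13_12_0 ln13_12_0_ok))))))))) (M (nat_lit 431) (B (M (nat_lit 334) (B (L (nat_lit 302) ln14_9_5 ln14_9_5_ok) (M (nat_lit 463) (B (L (nat_lit 367) ln15_14_7 ln15_14_7_ok) (L (nat_lit 495) ln15_15_7 ln15_15_7_ok)))))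 (M (nat_lit 432) (B (L (nat_lit 396) ln12_12_0 ln12_12_0_ok) (M (nat_lit 433) (B (L (nat_lit 400) ln13_12_0 ln13_12_0_ok) (L (nat_lit 434) ln18_13_3 ln18_13_3_ok)))))))))) (B (M (nat_lit 368) (B (M (nat_lit 367) (B (L (nat_lit 396) ln12_12_2 ln12_12_2_ok) (M (nat_lit 369) (B (L (nat_lit 370) ln18_11_1 ln18_11_1_ok) (L (nat_lit 400) ln13_12_2 ln13_12_2_ok))))) (B (M (nat_lit 400) (B (L (nat_lit 369) ln13_12_2 ln13_12_2_ok) (M (nat_lit 432) (B (L (nat_lit 433) ln13_12_0 ln13_12_0_ok) (M (nat_lit 431) (B (L (nat_lit 396) ln12_12_0 ln12_12_0_ok) (M (nat_lit 336) (B (L (nat_lit 304) ln16_9_5 ln16_9_5_ok) (L (nat_lit 463) ln16_10_5 ln16_10_5_ok))))))))) (B (M (nat_lit 431) (B (M (nat_lit 396) (B (L (nat_lit 367) ln12_12_2 ln12_12_2_ok) (L (nat_lit 432) ln12_12_0 ln12_12_0_ok))) (B (M (nat_lit 432) (B (L (nat_lit 396) ln12_12_0 ln12_12_0_ok) (M (nat_lit 400) (B (L (nat_lit 433) ln13_12_0 ln13_12_0_ok) (M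 (nat_lit 463) (B (L (nat_lit 336) ln16_10_5 ln16_10_5_ok) (L (nat_lit 495) ln15_15_6 ln15_15_6_ok))))))) (B (M (nat_lit 463) (B (M (nat_lit 495) (B (L (nat_lit 366) ln15_15_7 ln15_15_7_ok) (L (nat_lit 400) ln15_15_6 ln15_15_6_ok))) (B (M (nat_lit 400) (B (L (nat_lit 495) ln15_15_6 ln15_15_6_ok) (M (nat_lit 336) (B (L (nat_lit 367) ln15_14_6 ln15_14_6_ok) (L (nat_lit 432) ln16_10_5 ln16_10_5_ok))))) (B (M (nat_lit 366) (B (L (nat_lit 495) ln15_15_7 ln15_15_7_ok) (M (nat_lit 367) (B (L (nat_lit 334) ln15_14_7 ln15_14_7_ok) (L (nat_lit 336) ln15_14_6 ln15_14_6_ok))))) (M (nat_lit 336) (B (L (nat_lit 367) ln15_14_6 ln15_14_6_ok) (M (nat_lit 400) (B (L (nat_lit 304) ln16_9_5 ln16_9_5_ok) (L (nat_lit 432) ln16_10_5 ln16_10_5_ok))))))))) (M (nat_lit 463) (B (M (nat_lit 367) (B (L (nat_lit 336) ln15_14_6 ln15_14_6_ok) (L (nat_lit 396) ln12_12_2 ln12_12_2_ok))) (M (nat_lit 495) (B (L (nat_lit 366) ln15_15_7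 ln15_15_7_ok) (L (nat_lit 400) ln15_15_6 ln15_15_6_ok))))))))) (B (M (nat_lit 369) (B (L (nat_lit 400) ln13_12_2 ln13_12_2_ok) (M (nat_lit 367) (B (L (nat_lit 366) ln17_11_1 ln17_11_1_ok) (L (nat_lit 370) ln18_11_1 ln18_11_1_ok))))) (M (nat_lit 367) (B (L (nat_lit 396) ln12_12_2 ln12_12_2_ok) (M (nat_lit 369) (B (L (nat_lit 366) ln17_11_1 ln17_11_1_ok) (L (nat_lit 370) ln18_11_1 ln18_11_1_ok)))))))))) (B (M (nat_lit 400) (B (M (nat_lit 432) (B (L (nat_lit 433) ln13_12_0 ln13_12_0_ok) (M (nat_lit 396) (B (L (nat_lit 431) ln12_12_0 ln12_12_0_ok) (M (nat_lit 364) (B (L (nat_lit 363) ln15_12_3 ln15_12_3_ok) (L (nat_lit 365) ln16_12_3 ln16_12_3_ok))))))) (B (M (nat_lit 401) (B (M (nat_lit 369) (B (L (nat_lit 368) ln13_12_2 ln13_12_2_ok) (L (nat_lit 370) ln14_12_2 ln14_12_2_ok))) (M (nat_lit 433) (B (L (nat_lit 432) ln13_12_0 ln13_12_0_ok) (L (nat_lit 434) ln14_12_0 ln14_12_0_ok))))) (M (nat_lit 396) (B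 (M (nat_lit 364) (B (L (nat_lit 363) ln15_12_3 ln15_12_3_ok) (L (nat_lit 365) ln16_12_3 ln16_12_3_ok))) (M (nat_lit 368) (B (L (nat_lit 367) ln12_12_2 ln12_12_2_ok) (L (nat_lit 369) ln13_12_2 ln13_12_2_ok)))))))) (B (M (nat_lit 400) (B (M (nat_lit 401) (B (M (nat_lit 365) (B (L (nat_lit 364) ln16_12_3 ln16_12_3_ok) (L (nat_lit 366) ln17_12_3 ln17_12_3_ok))) (M (nat_lit 369) (B (L (nat_lit 368) ln13_12_2 ln13_12_2_ok) (L (nat_lit 370) ln14_12_2 ln14_12_2_ok))))) (B (M (nat_lit 401) (B (M (nat_lit 369) (B (L (nat_lit 368) ln13_12_2 ln13_12_2_ok) (L (nat_lit 370) ln14_12_2 ln14_12_2_ok))) (M (nat_lit 433) (B (L (nat_lit 432) ln13_12_0 ln13_12_0_ok) (L (nat_lit 434) ln14_12_0 ln14_12_0_ok))))) (B (M (nat_lit 401) (B (M (nat_lit 365) (B (L (nat_lit 364) ln16_12_3 ln16_12_3_ok) (L (nat_lit 366) ln17_12_3 ln17_12_3_ok))) (M (nat_lit 433) (B (L (nat_lit 432) ln13_12_0 ln13_12_0_ok) (L (nat_lit 434) ln14_12_0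 ln14_12_0_ok))))) (M (nat_lit 432) (B (L (nat_lit 433) ln13_12_0 ln13_12_0_ok) (M (nat_lit 396) (B (L (nat_lit 431) ln12_12_0 ln12_12_0_ok) (M (nat_lit 364) (B (L (nat_lit 363) ln15_12_3 ln15_12_3_ok) (L (nat_lit 365) ln16_12_3 ln16_12_3_ok))))))))))) (B (M (nat_lit 366) (B (M (nat_lit 334) (B (L (nat_lit 302) ln14_9_5 ln14_9_5_ok) (M (nat_lit 461) (B (L (nat_lit 365) ln13_14_6 ln13_14_6_ok) (L (nat_lit 493) ln13_15_6 ln13_15_6_ok))))) (B (M (nat_lit 365) (B (M (nat_lit 461) (B (L (nat_lit 334) ln13_14_6 ln13_14_6_ok) (L (nat_lit 493) ln13_15_6 ln13_15_6_ok))) (M (nat_lit 400) (B (L (nat_lit 364) ln16_12_3 ln16_12_3_ok) (L (nat_lit 401) ln17_12_3 ln17_12_3_ok))))) (B (M (nat_lit 365) (B (M (nat_lit 364) (B (L (nat_lit 363) ln11_11_0 ln11_11_0_ok) (L (nat_lit 400) ln16_12_3 ln16_12_3_ok))) (B (M (nat_lit 400) (B (L (nat_lit 364) ln16_12_3 ln16_12_3_ok) (L (nat_lit 401) ln17_12_3 ln17_12_3_ok))) (B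 (M (nat_lit 396) (B (M (nat_lit 395) (B (L (nat_lit 394) ln10_12_2 ln10_12_2_ok) (L (nat_lit 367) ln11_12_2 ln11_12_2_ok))) (M (nat_lit 400) (B (L (nat_lit 401) ln17_12_3 ln17_12_3_ok) (M (nat_lit 432) (B (L (nat_lit 431) ln12_12_0 ln12_12_0_ok) (L (nat_lit 433) ln13_12_0 ln13_12_0_ok))))))) (M (nat_lit 364) (B (L (nat_lit 363) ln11_11_0 ln11_11_0_ok) (M (nat_lit 461) (B (L (nat_lit 332) ln13_14_7 ln13_14_7_ok) (L (nat_lit 493) ln13_15_6 ln13_15_6_ok))))))))) (M (nat_lit 431) (B (M (nat_lit 334) (B (L (nat_lit 302) ln14_9_5 ln14_9_5_ok) (M (nat_lit 463) (B (L (nat_lit 367) ln15_14_7 ln15_14_7_ok) (L (nat_lit 495) ln15_15_7 ln15_15_7_ok))))) (M (nat_lit 432) (B (L (nat_lit 396) ln12_12_0 ln12_12_0_ok) (M (nat_lit 433) (B (L (nat_lit 400) ln13_12_0 ln13_12_0_ok) (L (nat_lit 434) ln18_13_3 ln18_13_3_ok))))))))))) (B (M (nat_lit 365) (B (M (nat_lit 364) (B (L (nat_lit 400) ln16_12_3 ln16_12_3_ok) (M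 (nat_lit 363) (B (L (nat_lit 362) ln10_11_0 ln10_11_0_ok) (L (nat_lit 366) ln11_11_0 ln11_11_0_ok))))) (B (M (nat_lit 366) (B (M (nat_lit 334) (B (L (nat_lit 302) ln14_9_5 ln14_9_5_ok) (L (nat_lit 461) ln13_14_6 ln13_14_6_ok))) (M (nat_lit 400) (B (L (nat_lit 364) ln16_12_3 ln16_12_3_ok) (L (nat_lit 401) ln17_12_3 ln17_12_3_ok))))) (B (M (nat_lit 333) (B (M (nat_lit 302) (B (L (nat_lit 334) ln13_13_6 ln13_13_6_ok) (M (nat_lit 301) (B (L (nat_lit 270) ln13_12_6 ln13_12_6_ok) (M (nat_lit 300) (B (L (nat_lit 268) ln13_12_7 ln13_12_7_ok) (L (nat_lit 332) ln13_13_7 ln13_13_7_ok))))))) (B (M (nat_lit 366) (B (M (nat_lit 334) (B (L (nat_lit 302) ln13_13_6 ln13_13_6_ok) (L (nat_lit 461) ln13_14_6 ln13_14_6_ok))) (B (M (nat_lit 461) (B (L (nat_lit 334) ln13_14_6 ln13_14_6_ok) (L (nat_lit 493) ln13_15_6 ln13_15_6_ok))) (M (nat_lit 368) (B (M (nat_lit 332) (B (L (nat_lit 300) ln13_13_7 ln13_13_7_ok) (L (nat_lit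 367) ln16_11_3 ln16_11_3_ok))) (B (M (nat_lit 367) (B (L (nat_lit 332) ln16_11_3 ln16_11_3_ok) (L (nat_lit 369) ln17_11_1 ln17_11_1_ok))) (B (M (nat_lit 369) (B (L (nat_lit 367) ln17_11_1 ln17_11_1_ok) (L (nat_lit 400) ln13_12_2 ln13_12_2_ok))) (M (nat_lit 400) (B (L (nat_lit 401) ln17_12_3 ln17_12_3_ok) (L (nat_lit 369) ln13_12_2 ln13_12_2_ok)))))))))) (B (M (nat_lit 301) (B (M (nat_lit 302) (B (L (nat_lit 270) ln13_12_6 ln13_12_6_ok) (L (nat_lit 334) ln13_13_6 ln13_13_6_ok))) (B (M (nat_lit 366) (B (L (nat_lit 269) ln13_8_4 ln13_8_4_ok) (M (nat_lit 334) (B (L (nat_lit 302) ln13_13_6 ln13_13_6_ok) (L (nat_lit 461) ln13_14_6 ln13_14_6_ok))))) (B (M (nat_lit 366) (B (L (nat_lit 269) ln13_8_4 ln13_8_4_ok) (M (nat_lit 461) (B (L (nat_lit 334) ln13_14_6 ln13_14_6_ok) (L (nat_lit 493) ln13_15_6 ln13_15_6_ok))))) (M (nat_lit 269) (B (L (nat_lit 366) ln13_8_4 ln13_8_4_ok) (M (nat_lit 270) (B (L (nat_lit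 238) ln13_11_6 ln13_11_6_ok) (L (nat_lit 302) ln13_12_6 ln13_12_6_ok))))))))) (B (M (nat_lit 366) (B (M (nat_lit 461) (B (L (nat_lit 334) ln13_14_6 ln13_14_6_ok) (L (nat_lit 493) ln13_15_6 ln13_15_6_ok))) (M (nat_lit 300) (B (L (nat_lit 332) ln13_13_7 ln13_13_7_ok) (M (nat_lit 301) (B (L (nat_lit 268) ln13_12_7 ln13_12_7_ok) (L (nat_lit 269) ln13_8_4 ln13_8_4_ok))))))) (M (nat_lit 301) (B (M (nat_lit 300) (B (L (nat_lit 268) ln13_12_7 ln13_12_7_ok) (L (nat_lit 332) ln13_13_7 ln13_13_7_ok))) (M (nat_lit 269) (B (L (nat_lit 366) ln13_8_4 ln13_8_4_ok) (M (nat_lit 270) (B (L (nat_lit 238) ln13_11_6 ln13_11_6_ok) (L (nat_lit 302) ln13_12_6 ln13_12_6_ok)))))))))))) (B (M (nat_lit 364) (B (L (nat_lit 400) ln16_12_3 ln16_12_3_ok) (M (nat_lit 332) (B (L (nat_lit 461) ln13_14_7 ln13_14_7_ok) (M (nat_lit 300) (B (L (nat_lit 268) ln12_8_4 ln12_8_4_ok) (L (nat_lit 333) ln13_13_7 ln13_13_7_ok))))))) (M (nat_lit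 364) (B (M (nat_lit 363) (B (L (nat_lit 362) ln10_11_0 ln10_11_0_ok) (L (nat_lit 366) ln11_11_0 ln11_11_0_ok))) (M (nat_lit 332) (B (L (nat_lit 461) ln13_14_7 ln13_14_7_ok) (M (nat_lit 300) (B (L (nat_lit 268) ln12_8_4 ln12_8_4_ok) (L (nat_lit 333) ln13_13_7 ln13_13_7_ok)))))))))))) (M (nat_lit 396) (B (M (nat_lit 364) (B (L (nat_lit 363) ln15_12_3 ln15_12_3_ok) (M (nat_lit 332) (B (L (nat_lit 300) ln12_9_4 ln12_9_4_ok) (M (nat_lit 461) (B (L (nat_lit 365) ln13_14_7 ln13_14_7_ok) (L (nat_lit 493) ln13_15_7 ln13_15_7_ok))))))) (B (M (nat_lit 395) (B (M (nat_lit 363) (B (L (nat_lit 362) ln14_12_3 ln14_12_3_ok) (L (nat_lit 364) ln15_12_3 ln15_12_3_ok))) (M (nat_lit 367) (B (L (nat_lit 366) ln11_12_2 ln11_12_2_ok) (L (nat_lit 368) ln12_12_2 ln12_12_2_ok))))) (M (nat_lit 366) (B (M (nat_lit 367) (B (L (nat_lit 395) ln11_12_2 ln11_12_2_ok) (L (nat_lit 368) ln12_12_2 ln12_12_2_ok))) (M (nat_lit 334) (B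 (L (nat_lit 302) ln14_9_5 ln14_9_5_ok) (M (nat_lit 461) (B (L (nat_lit 365) ln13_14_6 ln13_14_6_ok) (L (nat_lit 493) ln13_15_6 ln13_15_6_ok)))))))))))))))))))) (nat_lit 1386334848028751134071797813192511541219347990561547959896198607618807912605555669776302651038186796528747292269165475404267388928) (nat_lit 127866820650714356027718371602173149000428027905155155022018087324907032341221895664450209594540712264945012477610108380635097886280088087391035719680) (nat_lit 127866820650714356027718371602173149000428027905155155022018087324907032341221895664450209594540712264945012477610108380635097886280088087391035719680) (by decide +kernel)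
theorem c11_s5222 : Sem (nat_lit 1386334848028751134071797813192511541219347990561547959896198607618807912605555669776302651038186796528747292269165475404267388928) (nat_lit 716054195644000393375367132834704233456615464135798126488591533383758509991268183794893980014300276333037312570295861761853882144949172914315069489152) (nat_lit 716054195644000393375367132834704233456615464135798126488591533383758509991268183794893980014300276333037312570295861761853882144949172914315069489152) :=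
  sem_of_chk (M (nat_lit 399) (B (M (nat_lit 400) (B (M (nat_lit 401) (B (L (nat_lit 430) ln17_12_1 ln17_12_1_ok) (M (nat_lit 369) (B (L (nat_lit 368) ln13_12_2 ln13_12_2_ok) (L (nat_lit 370) ln14_12_2 ln14_12_2_ok))))) (B (M (nat_lit 401) (B (L (nat_lit 430) ln17_12_1 ln17_12_1_ok) (M (nat_lit 365) (B (L (nat_lit 364) ln16_12_3 ln16_12_3_ok) (L (nat_lit 366) ln17_12_3 ln17_12_3_ok))))) (M (nat_lit 396) (B (M (nat_lit 364) (B (L (nat_lit 363) ln15_12_3 ln15_12_3_ok) (L (nat_lit 365) ln16_12_3 ln16_12_3_ok))) (M (nat_lit 368) (B (L (nat_lit 367) ln12_12_2 ln12_12_2_ok) (L (nat_lit 369) ln13_12_2 ln13_12_2_ok)))))))) (B (M (nat_lit 400) (B (M (nat_lit 401) (B (L (nat_lit 430) ln17_12_1 ln17_12_1_ok) (M (nat_lit 369) (B (L (nat_lit 368) ln13_12_2 ln13_12_2_ok) (L (nat_lit 370) ln14_12_2 ln14_12_2_ok))))) (B (M (nat_lit 401) (B (L (nat_lit 430) ln17_12_1 ln17_12_1_ok) (M (nat_lit 365) (B (L (nat_lit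 364) ln16_12_3 ln16_12_3_ok) (L (nat_lit 366) ln17_12_3 ln17_12_3_ok))))) (M (nat_lit 396) (B (M (nat_lit 368) (B (L (nat_lit 367) ln12_12_2 ln12_12_2_ok) (L (nat_lit 369) ln13_12_2 ln13_12_2_ok))) (M (nat_lit 432) (B (L (nat_lit 431) ln12_12_0 ln12_12_0_ok) (L (nat_lit 433) ln13_12_0 ln13_12_0_ok)))))))) (B (M (nat_lit 400) (B (M (nat_lit 401) (B (L (nat_lit 430) ln17_12_1 ln17_12_1_ok) (M (nat_lit 369) (B (L (nat_lit 368) ln13_12_2 ln13_12_2_ok) (L (nat_lit 370) ln14_12_2 ln14_12_2_ok))))) (B (M (nat_lit 401) (B (L (nat_lit 430) ln17_12_1 ln17_12_1_ok) (M (nat_lit 433) (B (L (nat_lit 432) ln13_12_0 ln13_12_0_ok) (L (nat_lit 434) ln14_12_0 ln14_12_0_ok))))) (M (nat_lit 396) (B (M (nat_lit 368) (B (L (nat_lit 367) ln12_12_2 ln12_12_2_ok) (L (nat_lit 369) ln13_12_2 ln13_12_2_ok))) (M (nat_lit 432) (B (L (nat_lit 431) ln12_12_0 ln12_12_0_ok) (L (nat_lit 433) ln13_12_0 ln13_12_0_ok)))))))) (B (M (nat_lit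 400) (B (M (nat_lit 401) (B (L (nat_lit 430) ln17_12_1 ln17_12_1_ok) (M (nat_lit 369) (B (L (nat_lit 368) ln13_12_2 ln13_12_2_ok) (L (nat_lit 370) ln14_12_2 ln14_12_2_ok))))) (M (nat_lit 432) (B (L (nat_lit 433) ln13_12_0 ln13_12_0_ok) (M (nat_lit 396) (B (L (nat_lit 431) ln12_12_0 ln12_12_0_ok) (M (nat_lit 364) (B (L (nat_lit 363) ln15_12_3 ln15_12_3_ok) (L (nat_lit 365) ln16_12_3 ln16_12_3_ok))))))))) (B (M (nat_lit 400) (B (M (nat_lit 401) (B (L (nat_lit 430) ln17_12_1 ln17_12_1_ok) (M (nat_lit 365) (B (L (nat_lit 364) ln16_12_3 ln16_12_3_ok) (L (nat_lit 366) ln17_12_3 ln17_12_3_ok))))) (B (M (nat_lit 401) (B (L (nat_lit 430) ln17_12_1 ln17_12_1_ok) (M (nat_lit 433) (B (L (nat_lit 432) ln13_12_0 ln13_12_0_ok) (L (nat_lit 434) ln14_12_0 ln14_12_0_ok))))) (M (nat_lit 432) (B (L (nat_lit 433) ln13_12_0 ln13_12_0_ok) (M (nat_lit 396) (B (L (nat_lit 431) ln12_12_0 ln12_12_0_ok) (M (nat_lit 364) (B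 (L (nat_lit 363) ln15_12_3 ln15_12_3_ok) (L (nat_lit 365) ln16_12_3 ln16_12_3_ok)))))))))) (B (M (nat_lit 400) (B (M (nat_lit 401) (B (L (nat_lit 430) ln17_12_1 ln17_12_1_ok) (M (nat_lit 369) (B (L (nat_lit 368) ln13_12_2 ln13_12_2_ok) (L (nat_lit 370) ln14_12_2 ln14_12_2_ok))))) (B (M (nat_lit 401) (B (L (nat_lit 430) ln17_12_1 ln17_12_1_ok) (M (nat_lit 365) (B (L (nat_lit 364) ln16_12_3 ln16_12_3_ok) (L (nat_lit 366) ln17_12_3 ln17_12_3_ok))))) (B (M (nat_lit 432) (B (L (nat_lit 433) ln13_12_0 ln13_12_0_ok) (M (nat_lit 368) (B (L (nat_lit 369) ln13_12_2 ln13_12_2_ok) (M (nat_lit 431) (B (M (nat_lit 463) (B (L (nat_lit 336) ln16_10_5 ln16_10_5_ok) (L (nat_lit 495) ln15_15_6 ln15_15_6_ok))) (M (nat_lit 464) (B (M (nat_lit 367) (B (L (nat_lit 335) ln16_14_7 ln16_14_7_ok) (L (nat_lit 496) ln16_15_7 ln16_15_7_ok))) (M (nat_lit 465) (B (L (nat_lit 497) ln16_11_4 ln16_11_4_ok) (L (nat_lit 430) ln13_13_0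 ln13_13_0_ok))))))))))) (M (nat_lit 401) (B (M (nat_lit 365) (B (L (nat_lit 364) ln16_12_3 ln16_12_3_ok) (L (nat_lit 366) ln17_12_3 ln17_12_3_ok))) (M (nat_lit 369) (B (L (nat_lit 368) ln13_12_2 ln13_12_2_ok) (L (nat_lit 370) ln14_12_2 ln14_12_2_ok))))))))) (B (M (nat_lit 396) (B (M (nat_lit 431) (B (L (nat_lit 432) ln12_12_0 ln12_12_0_ok) (M (nat_lit 395) (B (L (nat_lit 430) ln11_12_0 ln11_12_0_ok) (M (nat_lit 363) (B (L (nat_lit 362) ln14_12_3 ln14_12_3_ok) (L (nat_lit 364) ln15_12_3 ln15_12_3_ok))))))) (B (M (nat_lit 395) (B (M (nat_lit 367) (B (L (nat_lit 366) ln11_12_2 ln11_12_2_ok) (L (nat_lit 368) ln12_12_2 ln12_12_2_ok))) (M (nat_lit 431) (B (L (nat_lit 430) ln11_12_0 ln11_12_0_ok) (L (nat_lit 432) ln12_12_0 ln12_12_0_ok))))) (B (M (nat_lit 366) (B (M (nat_lit 367) (B (L (nat_lit 368) ln12_12_2 ln12_12_2_ok) (M (nat_lit 431) (B (L (nat_lit 432) ln12_12_0 ln12_12_0_ok) (M (nat_lit 334) (B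 (L (nat_lit 302) ln14_9_5 ln14_9_5_ok) (L (nat_lit 463) ln15_14_7 ln15_14_7_ok))))))) (B (M (nat_lit 367) (B (L (nat_lit 368) ln12_12_2 ln12_12_2_ok) (M (nat_lit 431) (B (L (nat_lit 432) ln12_12_0 ln12_12_0_ok) (M (nat_lit 463) (B (L (nat_lit 334) ln15_14_7 ln15_14_7_ok) (L (nat_lit 495) ln15_15_7 ln15_15_7_ok))))))) (B (M (nat_lit 367) (B (L (nat_lit 368) ln12_12_2 ln12_12_2_ok) (M (nat_lit 335) (B (M (nat_lit 303) (B (L (nat_lit 271) ln15_8_5 ln15_8_5_ok) (L (nat_lit 430) ln15_9_5 ln15_9_5_ok))) (M (nat_lit 336) (B (M (nat_lit 431) (B (L (nat_lit 304) ln15_13_6 ln15_13_6_ok) (L (nat_lit 432) ln12_12_0 ln12_12_0_ok))) (M (nat_lit 364) (B (L (nat_lit 365) ln12_11_2 ln12_11_2_ok) (L (nat_lit 363) ln15_12_3 ln15_12_3_ok))))))))) (B (M (nat_lit 334) (B (L (nat_lit 302) ln14_9_5 ln14_9_5_ok) (M (nat_lit 431) (B (L (nat_lit 432) ln12_12_0 ln12_12_0_ok) (M (nat_lit 463) (B (L (nat_lit 430) ln14_10_4 ln14_10_4_ok)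 (L (nat_lit 495) ln15_15_7 ln15_15_7_ok))))))) (M (nat_lit 334) (B (L (nat_lit 302) ln14_9_5 ln14_9_5_ok) (M (nat_lit 333) (B (M (nat_lit 301) (B (L (nat_lit 430) ln14_13_7 ln14_13_7_ok) (M (nat_lit 269) (B (L (nat_lit 237) ln13_7_4 ln13_7_4_ok) (L (nat_lit 365) ln13_8_4 ln13_8_4_ok))))) (B (M (nat_lit 332) (B (M (nat_lit 300) (B (L (nat_lit 365) ln13_13_7 ln13_13_7_ok) (L (nat_lit 364) ln12_9_4 ln12_9_4_ok))) (M (nat_lit 367) (B (L (nat_lit 331) ln11_10_0 ln11_10_0_ok) (L (nat_lit 368) ln12_12_2 ln12_12_2_ok))))) (M (nat_lit 332) (B (M (nat_lit 364) (B (L (nat_lit 300) ln12_9_4 ln12_9_4_ok) (L (nat_lit 363) ln15_12_3 ln15_12_3_ok))) (M (nat_lit 367) (B (L (nat_lit 331) ln11_10_0 ln11_10_0_ok) (L (nat_lit 368) ln12_12_2 ln12_12_2_ok))))))))))))))) (M (nat_lit 395) (B (M (nat_lit 363) (B (L (nat_lit 362) ln14_12_3 ln14_12_3_ok) (L (nat_lit 364) ln15_12_3 ln15_12_3_ok))) (M (nat_lit 367) (B (L (nat_lit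 366) ln11_12_2 ln11_12_2_ok) (L (nat_lit 368) ln12_12_2 ln12_12_2_ok))))))))) (M (nat_lit 400) (B (M (nat_lit 401) (B (M (nat_lit 369) (B (L (nat_lit 368) ln13_12_2 ln13_12_2_ok) (L (nat_lit 370) ln14_12_2 ln14_12_2_ok))) (M (nat_lit 433) (B (L (nat_lit 432) ln13_12_0 ln13_12_0_ok) (L (nat_lit 434) ln14_12_0 ln14_12_0_ok))))) (B (M (nat_lit 401) (B (M (nat_lit 365) (B (L (nat_lit 364) ln16_12_3 ln16_12_3_ok) (L (nat_lit 366) ln17_12_3 ln17_12_3_ok))) (M (nat_lit 433) (B (L (nat_lit 432) ln13_12_0 ln13_12_0_ok) (L (nat_lit 434) ln14_12_0 ln14_12_0_ok))))) (M (nat_lit 396) (B (M (nat_lit 364) (B (L (nat_lit 363) ln15_12_3 ln15_12_3_ok) (L (nat_lit 365) ln16_12_3 ln16_12_3_ok))) (M (nat_lit 368) (B (L (nat_lit 367) ln12_12_2 ln12_12_2_ok) (L (nat_lit 369) ln13_12_2 ln13_12_2_ok)))))))))))))))) (nat_lit 1386334848028751134071797813192511541219347990561547959896198607618807912605555669776302651038186796528747292269165475404267388928)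 (nat_lit 716054195644000393375367132834704233456615464135798126488591533383758509991268183794893980014300276333037312570295861761853882144949172914315069489152) (nat_lit 716054195644000393375367132834704233456615464135798126488591533383758509991268183794893980014300276333037312570295861761853882144949172914315069489152) (by decide +kernel)
theorem c11_s5223 : Sem (nat_lit 1386334847383188664550070665778531748218595021979121511688892729411143073470393764272092352380775458208712834410189682411080515584) (nat_lit 1179363260777242643844908392271742297625273170269967169214234565403453401884518015960602635176214739730740001091426848312469249017911540705247363749455925106456651628544) (nat_lit 1179363260777242643844908392271742297625273170269967169214234565403453401884518015960602635176214739730740001091426848312469249017911540705247363749455925106456651628544) :=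
  sem_of_chk (M (nat_lit 398) (B c11_n3874 (B (M (nat_lit 461) (B (M (nat_lit 366) (B (L (nat_lit 493) ln13_15_6 ln13_15_6_ok) (M (nat_lit 334) (B (L (nat_lit 302) ln14_9_5 ln14_9_5_ok) (L (nat_lit 430) ln14_10_5 ln14_10_5_ok))))) (B (M (nat_lit 366) (B (L (nat_lit 493) ln13_15_6 ln13_15_6_ok) (M (nat_lit 334) (B (L (nat_lit 365) ln13_14_6 ln13_14_6_ok) (L (nat_lit 430) ln14_10_5 ln14_10_5_ok))))) (B (M (nat_lit 493) (B (L (nat_lit 366) ln13_15_6 ln13_15_6_ok) (M (nat_lit 525) (B (L (nat_lit 430) ln13_16_6 ln13_16_6_ok) (M (nat_lit 524) (B (L (nat_lit 492) ln13_12_5 ln13_12_5_ok) (L (nat_lit 556) ln13_13_5 ln13_13_5_ok))))))) (B (M (nat_lit 493) (B (M (nat_lit 525) (B (L (nat_lit 430) ln13_16_6 ln13_16_6_ok) (M (nat_lit 524) (B (L (nat_lit 492) ln13_12_5 ln13_12_5_ok) (L (nat_lit 556) ln13_13_5 ln13_13_5_ok))))) (B (M (nat_lit 365) (B (M (nat_lit 364) (B (L (nat_lit 332) ln13_14_7 ln13_14_7_ok) (L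 (nat_lit 396) ln13_15_7 ln13_15_7_ok))) (M (nat_lit 492) (B (L (nat_lit 460) ln13_11_5 ln13_11_5_ok) (L (nat_lit 524) ln13_12_5 ln13_12_5_ok))))) (M (nat_lit 525) (B (L (nat_lit 430) ln13_16_6 ln13_16_6_ok) (M (nat_lit 526) (B (L (nat_lit 494) ln13_12_4 ln13_12_4_ok) (L (nat_lit 558) ln13_13_4 ln13_13_4_ok)))))))) (B (M (nat_lit 366) (B (L (nat_lit 493) ln13_15_6 ln13_15_6_ok) (M (nat_lit 334) (B (L (nat_lit 302) ln14_9_5 ln14_9_5_ok) (L (nat_lit 365) ln13_14_6 ln13_14_6_ok))))) (M (nat_lit 365) (B (M (nat_lit 366) (B (L (nat_lit 334) ln13_14_6 ln13_14_6_ok) (M (nat_lit 364) (B (L (nat_lit 332) ln13_14_7 ln13_14_7_ok) (M (nat_lit 363) (B (L (nat_lit 362) ln10_11_0 ln10_11_0_ok) (L (nat_lit 399) ln11_11_0 ln11_11_0_ok))))))) (B (M (nat_lit 333) (B (M (nat_lit 334) (B (L (nat_lit 302) ln13_13_6 ln13_13_6_ok) (L (nat_lit 366) ln13_14_6 ln13_14_6_ok))) (B (M (nat_lit 366) (B (L (nat_lit 334) ln13_14_6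 ln13_14_6_ok) (M (nat_lit 301) (B (L (nat_lit 269) ln13_8_4 ln13_8_4_ok) (L (nat_lit 430) ln13_9_4 ln13_9_4_ok))))) (B (M (nat_lit 301) (B (L (nat_lit 430) ln13_9_4 ln13_9_4_ok) (M (nat_lit 269) (B (L (nat_lit 366) ln13_8_4 ln13_8_4_ok) (M (nat_lit 270) (B (L (nat_lit 238) ln13_11_6 ln13_11_6_ok) (L (nat_lit 302) ln13_12_6 ln13_12_6_ok))))))) (M (nat_lit 301) (B (L (nat_lit 430) ln13_9_4 ln13_9_4_ok) (M (nat_lit 302) (B (L (nat_lit 270) ln13_12_6 ln13_12_6_ok) (L (nat_lit 334) ln13_13_6 ln13_13_6_ok))))))))) (B (M (nat_lit 364) (B (L (nat_lit 332) ln13_14_7 ln13_14_7_ok) (M (nat_lit 363) (B (L (nat_lit 362) ln10_11_0 ln10_11_0_ok) (M (nat_lit 399) (B (L (nat_lit 366) ln11_11_0 ln11_11_0_ok) (L (nat_lit 400) ln16_12_3 ln16_12_3_ok))))))) (M (nat_lit 364) (B (L (nat_lit 332) ln13_14_7 ln13_14_7_ok) (M (nat_lit 363) (B (L (nat_lit 362) ln10_11_0 ln10_11_0_ok) (M (nat_lit 399) (B (L (nat_lit 396) ln15_12_3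 ln15_12_3_ok) (L (nat_lit 400) ln16_12_3 ln16_12_3_ok))))))))))))))))) (B (M (nat_lit 396) (B (M (nat_lit 366) (B (M (nat_lit 367) (B (L (nat_lit 395) ln11_12_2 ln11_12_2_ok) (M (nat_lit 368) (B (L (nat_lit 365) ln16_11_1 ln16_11_1_ok) (L (nat_lit 369) ln17_11_1 ln17_11_1_ok))))) (B (M (nat_lit 395) (B (L (nat_lit 367) ln11_12_2 ln11_12_2_ok) (M (nat_lit 430) (B (L (nat_lit 394) ln10_12_0 ln10_12_0_ok) (L (nat_lit 431) ln11_12_0 ln11_12_0_ok))))) (M (nat_lit 461) (B (L (nat_lit 493) ln13_15_6 ln13_15_6_ok) (M (nat_lit 334) (B (L (nat_lit 365) ln13_14_6 ln13_14_6_ok) (L (nat_lit 430) ln14_10_5 ln14_10_5_ok)))))))) (B (M (nat_lit 395) (B (M (nat_lit 430) (B (L (nat_lit 394) ln10_12_0 ln10_12_0_ok) (L (nat_lit 431) ln11_12_0 ln11_12_0_ok))) (M (nat_lit 363) (B (L (nat_lit 362) ln14_12_3 ln14_12_3_ok) (M (nat_lit 399) (B (L (nat_lit 364) ln15_12_3 ln15_12_3_ok) (M (nat_lit 367) (B (L (nat_lit 366) ln11_12_2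 ln11_12_2_ok) (L (nat_lit 368) ln12_12_2 ln12_12_2_ok))))))))) (B (M (nat_lit 364) (B (M (nat_lit 363) (B (L (nat_lit 399) ln15_12_3 ln15_12_3_ok) (M (nat_lit 362) (B (L (nat_lit 361) ln9_11_0 ln9_11_0_ok) (L (nat_lit 395) ln14_12_3 ln14_12_3_ok))))) (B (M (nat_lit 363) (B (L (nat_lit 399) ln15_12_3 ln15_12_3_ok) (M (nat_lit 362) (B (L (nat_lit 365) ln10_11_0 ln10_11_0_ok) (L (nat_lit 395) ln14_12_3 ln14_12_3_ok))))) (M (nat_lit 332) (B (L (nat_lit 300) ln12_9_4 ln12_9_4_ok) (M (nat_lit 461) (B (L (nat_lit 365) ln13_14_7 ln13_14_7_ok) (L (nat_lit 493) ln13_15_7 ln13_15_7_ok)))))))) (M (nat_lit 399) (B (M (nat_lit 364) (B (L (nat_lit 363) ln15_12_3 ln15_12_3_ok) (M (nat_lit 368) (B (L (nat_lit 367) ln12_12_2 ln12_12_2_ok) (M (nat_lit 400) (B (L (nat_lit 365) ln16_12_3 ln16_12_3_ok) (L (nat_lit 369) ln13_12_2 ln13_12_2_ok))))))) (B (M (nat_lit 400) (B (M (nat_lit 368) (B (L (nat_lit 367) ln12_12_2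 ln12_12_2_ok) (L (nat_lit 369) ln13_12_2 ln13_12_2_ok))) (M (nat_lit 432) (B (L (nat_lit 431) ln12_12_0 ln12_12_0_ok) (L (nat_lit 433) ln13_12_0 ln13_12_0_ok))))) (B (M (nat_lit 400) (B (M (nat_lit 364) (B (L (nat_lit 363) ln15_12_3 ln15_12_3_ok) (L (nat_lit 365) ln16_12_3 ln16_12_3_ok))) (M (nat_lit 432) (B (L (nat_lit 431) ln12_12_0 ln12_12_0_ok) (L (nat_lit 433) ln13_12_0 ln13_12_0_ok))))) (M (nat_lit 364) (B (L (nat_lit 363) ln15_12_3 ln15_12_3_ok) (M (nat_lit 332) (B (L (nat_lit 300) ln12_9_4 ln12_9_4_ok) (M (nat_lit 461) (B (L (nat_lit 365) ln13_14_7 ln13_14_7_ok) (L (nat_lit 493) ln13_15_7 ln13_15_7_ok))))))))))))))) (B (M (nat_lit 366) (B (M (nat_lit 461) (B (L (nat_lit 493) ln13_15_6 ln13_15_6_ok) (M (nat_lit 334) (B (L (nat_lit 302) ln14_9_5 ln14_9_5_ok) (L (nat_lit 430) ln14_10_5 ln14_10_5_ok))))) (B (M (nat_lit 461) (B (L (nat_lit 493) ln13_15_6 ln13_15_6_ok) (M (nat_lit 334) (B (L (nat_lit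 365) ln13_14_6 ln13_14_6_ok) (L (nat_lit 430) ln14_10_5 ln14_10_5_ok))))) (B (M (nat_lit 396) (B (M (nat_lit 395) (B (L (nat_lit 367) ln11_12_2 ln11_12_2_ok) (M (nat_lit 394) (B (L (nat_lit 365) ln10_12_2 ln10_12_2_ok) (L (nat_lit 430) ln10_12_0 ln10_12_0_ok))))) (B (M (nat_lit 395) (B (L (nat_lit 367) ln11_12_2 ln11_12_2_ok) (M (nat_lit 430) (B (L (nat_lit 394) ln10_12_0 ln10_12_0_ok) (L (nat_lit 431) ln11_12_0 ln11_12_0_ok))))) (B (M (nat_lit 395) (B (M (nat_lit 394) (B (L (nat_lit 365) ln10_12_2 ln10_12_2_ok) (L (nat_lit 430) ln10_12_0 ln10_12_0_ok))) (B (M (nat_lit 430) (B (L (nat_lit 394) ln10_12_0 ln10_12_0_ok) (L (nat_lit 431) ln11_12_0 ln11_12_0_ok))) (B (M (nat_lit 399) (B (M (nat_lit 363) (B (L (nat_lit 362) ln14_12_3 ln14_12_3_ok) (L (nat_lit 364) ln15_12_3 ln15_12_3_ok))) (M (nat_lit 431) (B (L (nat_lit 430) ln11_12_0 ln11_12_0_ok) (L (nat_lit 432) ln12_12_0 ln12_12_0_ok))))) (M (nat_lit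 394) (B (L (nat_lit 365) ln10_12_2 ln10_12_2_ok) (M (nat_lit 426) (B (L (nat_lit 425) ln13_12_1 ln13_12_1_ok) (L (nat_lit 427) ln14_12_1 ln14_12_1_ok))))))))) (B (M (nat_lit 367) (B (L (nat_lit 395) ln11_12_2 ln11_12_2_ok) (M (nat_lit 368) (B (L (nat_lit 365) ln16_11_1 ln16_11_1_ok) (L (nat_lit 369) ln17_11_1 ln17_11_1_ok))))) (M (nat_lit 367) (B (M (nat_lit 368) (B (L (nat_lit 365) ln16_11_1 ln16_11_1_ok) (L (nat_lit 369) ln17_11_1 ln17_11_1_ok))) (B (M (nat_lit 368) (B (L (nat_lit 369) ln17_11_1 ln17_11_1_ok) (L (nat_lit 399) ln12_12_2 ln12_12_2_ok))) (M (nat_lit 399) (B (M (nat_lit 364) (B (L (nat_lit 363) ln15_12_3 ln15_12_3_ok) (M (nat_lit 400) (B (L (nat_lit 365) ln12_11_0 ln12_11_0_ok) (M (nat_lit 401) (B (L (nat_lit 402) ln18_12_3 ln18_12_3_ok) (L (nat_lit 430) ln17_12_1 ln17_12_1_ok))))))) (B (M (nat_lit 400) (B (M (nat_lit 365) (B (L (nat_lit 364) ln12_11_0 ln12_11_0_ok) (L (nat_lit 401)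 ln17_12_3 ln17_12_3_ok))) (M (nat_lit 432) (B (L (nat_lit 431) ln12_12_0 ln12_12_0_ok) (L (nat_lit 433) ln13_12_0 ln13_12_0_ok))))) (B (M (nat_lit 400) (B (M (nat_lit 401) (B (L (nat_lit 365) ln17_12_3 ln17_12_3_ok) (L (nat_lit 402) ln18_12_3 ln18_12_3_ok))) (M (nat_lit 432) (B (L (nat_lit 431) ln12_12_0 ln12_12_0_ok) (L (nat_lit 433) ln13_12_0 ln13_12_0_ok))))) (B (M (nat_lit 400) (B (M (nat_lit 432) (B (L (nat_lit 431) ln12_12_0 ln12_12_0_ok) (L (nat_lit 433) ln13_12_0 ln13_12_0_ok))) (M (nat_lit 401) (B (L (nat_lit 402) ln18_12_3 ln18_12_3_ok) (L (nat_lit 430) ln17_12_1 ln17_12_1_ok))))) (M (nat_lit 335) (B (M (nat_lit 303) (B (L (nat_lit 271) ln15_8_5 ln15_8_5_ok) (L (nat_lit 430) ln15_9_5 ln15_9_5_ok))) (M (nat_lit 336) (B (M (nat_lit 431) (B (L (nat_lit 304) ln15_13_6 ln15_13_6_ok) (L (nat_lit 432) ln12_12_0 ln12_12_0_ok))) (M (nat_lit 364) (B (L (nat_lit 365) ln12_11_2 ln12_11_2_ok) (L (nat_lit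 363) ln15_12_3 ln15_12_3_ok)))))))))))))))))))) (M (nat_lit 334) (B (L (nat_lit 302) ln14_9_5 ln14_9_5_ok) (M (nat_lit 461) (B (L (nat_lit 365) ln13_14_6 ln13_14_6_ok) (L (nat_lit 493) ln13_15_6 ln13_15_6_ok))))))))) (B (K (nat_lit 1386334848028751134071797813192511541219347990561547959896198607618807912605555669776302651038186796528747292269165475404267388928) (nat_lit 44753387228494307476463666636709405392526972516925614309793921808830624407817733600041235789655460845878938184417663153972337248025276619245251198976) (nat_lit 44753387228494307476463666636709405392526972516925614309793921808830624407817733600041235789655460845878938184417663153972337248025276619245251198976) c11_s4071) (B c11_n4093 (B (M (nat_lit 461) (B (M (nat_lit 366) (B (L (nat_lit 493) ln13_15_6 ln13_15_6_ok) (M (nat_lit 334) (B (L (nat_lit 302) ln14_9_5 ln14_9_5_ok) (L (nat_lit 430) ln14_10_5 ln14_10_5_ok))))) (B (M (nat_lit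 366) (B (L (nat_lit 493) ln13_15_6 ln13_15_6_ok) (M (nat_lit 334) (B (L (nat_lit 365) ln13_14_6 ln13_14_6_ok) (L (nat_lit 430) ln14_10_5 ln14_10_5_ok))))) (B (M (nat_lit 493) (B (L (nat_lit 366) ln13_15_6 ln13_15_6_ok) (M (nat_lit 525) (B (L (nat_lit 430) ln13_16_6 ln13_16_6_ok) (M (nat_lit 526) (B (L (nat_lit 494) ln13_12_4 ln13_12_4_ok) (L (nat_lit 558) ln13_13_4 ln13_13_4_ok))))))) (B (M (nat_lit 493) (B (M (nat_lit 525) (B (L (nat_lit 430) ln13_16_6 ln13_16_6_ok) (M (nat_lit 526) (B (L (nat_lit 494) ln13_12_4 ln13_12_4_ok) (L (nat_lit 558) ln13_13_4 ln13_13_4_ok))))) (M (nat_lit 365) (B (M (nat_lit 364) (B (L (nat_lit 332) ln13_14_7 ln13_14_7_ok) (L (nat_lit 396) ln13_15_7 ln13_15_7_ok))) (M (nat_lit 492) (B (L (nat_lit 460) ln13_11_5 ln13_11_5_ok) (L (nat_lit 524) ln13_12_5 ln13_12_5_ok))))))) (B (M (nat_lit 366) (B (L (nat_lit 493) ln13_15_6 ln13_15_6_ok) (M (nat_lit 334) (B (L (nat_lit 302)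 ln14_9_5 ln14_9_5_ok) (L (nat_lit 365) ln13_14_6 ln13_14_6_ok))))) (K (nat_lit 5954262830815946495408811768290330958617541567969857540387515671583995655843763700493712757223453780111953373527279821900680931945878650880) (nat_lit 42196566916741633127468811452780818225269166714890664732889343921713811631262751179382205888131792269138256978460257933914831585280) (nat_lit 42196566916741633127468811452780818225269166714890664732889343921713811631262751179382205888131792269138256978460257933914831585280) c11_s4212))))))) (B (K (nat_lit 1386334848028751134071797813192511541219347990561547959896198607618807912605555669776302651038186796528747292269165475404267388928) (nat_lit 741627559774143264564274788998919259634153496379763266046037549152076108722270550732628383432183768091681124353403614224333369549771437590464870481920) (nat_lit 741627559774143264564274788998919259634153496379763266046037549152076108722270550732628383432183768091681124353403614224333369549771437590464870481920)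 c11_s4418) (B (K (nat_lit 1386334848028751134071797813192511541219347990561547959896198607618807912605555669776302651038186796528747292269165475404267388928) (nat_lit 1757388201735063646809509869218443404327349700232682134218455700507118732885020909513254267291171666692844799160626749635992017229731491934148255586792822013952) (nat_lit 1757388201735063646809509869218443404327349700232682134218455700507118732885020909513254267291171666692844799160626749635992017229731491934148255586792822013952) c11_s4627) (B (K (nat_lit 1386334848028751134071797813192511541219347990561547959896198607618807912605555669776302651038186796528747292269165475404267388928) (nat_lit 943490607468508108329981802891328886726616793382325613724648344872827649104825193315956028758519163533227390816635427452853771423825542420575827740686652079238102908928) (nat_lit 943490607468508108329981802891328886726616793382325613724648344872827649104825193315956028758519163533227390816635427452853771423825542420575827740686652079238102908928)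 c11_s4997) (B c11_n5019 (B c11_n5043 (B (K (nat_lit 1386334848028751134071797813192511541219347990561547959896198607618807912605555669776302651038186796528747292269165475404267388928) (nat_lit 127866820650714356027718371602173149000428027905155155022018087324907032341221895664450209594540712264945012477610108380635097886280088087391035719680) (nat_lit 127866820650714356027718371602173149000428027905155155022018087324907032341221895664450209594540712264945012477610108380635097886280088087391035719680) c11_s5169) (K (nat_lit 1386334848028751134071797813192511541219347990561547959896198607618807912605555669776302651038186796528747292269165475404267388928) (nat_lit 716054195644000393375367132834704233456615464135798126488591533383758509991268183794893980014300276333037312570295861761853882144949172914315069489152) (nat_lit 716054195644000393375367132834704233456615464135798126488591533383758509991268183794893980014300276333037312570295861761853882144949172914315069489152)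 c11_s5222))))))))))))))) (nat_lit 1386334847383188664550070665778531748218595021979121511688892729411143073470393764272092352380775458208712834410189682411080515584) (nat_lit 1179363260777242643844908392271742297625273170269967169214234565403453401884518015960602635176214739730740001091426848312469249017911540705247363749455925106456651628544) (nat_lit 1179363260777242643844908392271742297625273170269967169214234565403453401884518015960602635176214739730740001091426848312469249017911540705247363749455925106456651628544) (by decide +kernel)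
noncomputable def c11_n5353 : Cert := (M (nat_lit 366) (B (M (nat_lit 461) (B (L (nat_lit 334) ln13_14_6 ln13_14_6_ok) (M (nat_lit 364) (B (L (nat_lit 332) ln13_14_7 ln13_14_7_ok) (M (nat_lit 396) (B (L (nat_lit 493) ln13_15_7 ln13_15_7_ok) (M (nat_lit 367) (B (L (nat_lit 395) ln15_11_1 ln15_11_1_ok) (L (nat_lit 368) ln16_11_1 ln16_11_1_ok))))))))) (B (M (nat_lit 461) (B (L (nat_lit 334) ln13_14_6 ln13_14_6_ok) (M (nat_lit 493) (B (M (nat_lit 492) (B (L (nat_lit 460) ln13_11_5 ln13_11_5_ok) (L (nat_lit 524) ln13_12_5 ln13_12_5_ok))) (M (nat_lit 525) (B (M (nat_lit 396) (B (L (nat_lit 364) ln13_15_7 ln13_15_7_ok) (L (nat_lit 428) ln13_16_7 ln13_16_7_ok))) (M (nat_lit 526) (B (L (nat_lit 494) ln13_12_4 ln13_12_4_ok) (L (nat_lit 558) ln13_13_4 ln13_13_4_ok))))))))) (B (M (nat_lit 367) (B (M (nat_lit 396) (B (L (nat_lit 368) ln16_11_1 ln16_11_1_ok) (M (nat_lit 395) (B (L (nat_lit 364) ln15_11_1 ln15_11_1_ok)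 (L (nat_lit 394) ln10_12_2 ln10_12_2_ok))))) (B (M (nat_lit 368) (B (L (nat_lit 396) ln16_11_1 ln16_11_1_ok) (M (nat_lit 369) (B (M (nat_lit 337) (B (L (nat_lit 336) ln13_11_2 ln13_11_2_ok) (L (nat_lit 338) ln14_11_2 ln14_11_2_ok))) (M (nat_lit 401) (B (L (nat_lit 400) ln13_11_0 ln13_11_0_ok) (L (nat_lit 402) ln14_11_0 ln14_11_0_ok))))))) (B (M (nat_lit 333) (B (M (nat_lit 332) (B (L (nat_lit 300) ln13_13_7 ln13_13_7_ok) (M (nat_lit 331) (B (L (nat_lit 330) ln10_10_0 ln10_10_0_ok) (L (nat_lit 364) ln15_11_3 ln15_11_3_ok))))) (B (M (nat_lit 396) (B (M (nat_lit 428) (B (L (nat_lit 301) ln13_9_5 ln13_9_5_ok) (L (nat_lit 460) ln13_10_5 ln13_10_5_ok))) (M (nat_lit 395) (B (L (nat_lit 364) ln15_11_1 ln15_11_1_ok) (L (nat_lit 394) ln10_12_2 ln10_12_2_ok))))) (M (nat_lit 301) (B (M (nat_lit 300) (B (L (nat_lit 268) ln13_12_7 ln13_12_7_ok) (L (nat_lit 332) ln13_13_7 ln13_13_7_ok))) (M (nat_lit 428) (B (L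 (nat_lit 396) ln13_9_5 ln13_9_5_ok) (L (nat_lit 460) ln13_10_5 ln13_10_5_ok)))))))) (M (nat_lit 332) (B (M (nat_lit 333) (B (L (nat_lit 300) ln13_13_7 ln13_13_7_ok) (L (nat_lit 368) ln16_11_3 ln16_11_3_ok))) (M (nat_lit 364) (B (L (nat_lit 331) ln15_11_3 ln15_11_3_ok) (L (nat_lit 461) ln13_14_7 ln13_14_7_ok))))))))) (B (M (nat_lit 333) (B (M (nat_lit 460) (B (L (nat_lit 428) ln13_10_5 ln13_10_5_ok) (M (nat_lit 461) (B (L (nat_lit 334) ln13_14_6 ln13_14_6_ok) (L (nat_lit 492) ln13_11_5 ln13_11_5_ok))))) (B (M (nat_lit 301) (B (M (nat_lit 300) (B (L (nat_lit 268) ln13_12_7 ln13_12_7_ok) (L (nat_lit 332) ln13_13_7 ln13_13_7_ok))) (M (nat_lit 428) (B (L (nat_lit 396) ln13_9_5 ln13_9_5_ok) (L (nat_lit 460) ln13_10_5 ln13_10_5_ok))))) (M (nat_lit 334) (B (L (nat_lit 461) ln13_14_6 ln13_14_6_ok) (M (nat_lit 332) (B (L (nat_lit 300) ln13_13_7 ln13_13_7_ok) (M (nat_lit 331) (B (L (nat_lit 330) ln10_10_0 ln10_10_0_ok)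 (L (nat_lit 367) ln11_10_0 ln11_10_0_ok)))))))))) (B (M (nat_lit 461) (B (L (nat_lit 334) ln13_14_6 ln13_14_6_ok) (M (nat_lit 333) (B (M (nat_lit 332) (B (L (nat_lit 300) ln13_13_7 ln13_13_7_ok) (L (nat_lit 364) ln13_14_7 ln13_14_7_ok))) (M (nat_lit 460) (B (L (nat_lit 428) ln13_10_5 ln13_10_5_ok) (L (nat_lit 492) ln13_11_5 ln13_11_5_ok))))))) (M (nat_lit 367) (B (M (nat_lit 396) (B (L (nat_lit 368) ln16_11_1 ln16_11_1_ok) (M (nat_lit 395) (B (L (nat_lit 364) ln15_11_1 ln15_11_1_ok) (L (nat_lit 394) ln10_12_2 ln10_12_2_ok))))) (B (M (nat_lit 368) (B (L (nat_lit 396) ln16_11_1 ln16_11_1_ok) (M (nat_lit 369) (B (M (nat_lit 337) (B (L (nat_lit 336) ln13_11_2 ln13_11_2_ok) (L (nat_lit 338) ln14_11_2 ln14_11_2_ok))) (M (nat_lit 401) (B (L (nat_lit 400) ln13_11_0 ln13_11_0_ok) (L (nat_lit 402) ln14_11_0 ln14_11_0_ok))))))) (B (M (nat_lit 333) (B (M (nat_lit 332) (B (L (nat_lit 300) ln13_13_7 ln13_13_7_ok)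 (M (nat_lit 331) (B (L (nat_lit 330) ln10_10_0 ln10_10_0_ok) (L (nat_lit 334) ln11_10_0 ln11_10_0_ok))))) (M (nat_lit 396) (B (M (nat_lit 428) (B (L (nat_lit 301) ln13_9_5 ln13_9_5_ok) (L (nat_lit 460) ln13_10_5 ln13_10_5_ok))) (M (nat_lit 395) (B (L (nat_lit 364) ln15_11_1 ln15_11_1_ok) (L (nat_lit 394) ln10_12_2 ln10_12_2_ok))))))) (M (nat_lit 364) (B (M (nat_lit 332) (B (L (nat_lit 331) ln15_11_3 ln15_11_3_ok) (M (nat_lit 300) (B (L (nat_lit 268) ln12_8_4 ln12_8_4_ok) (L (nat_lit 333) ln13_13_7 ln13_13_7_ok))))) (B (M (nat_lit 332) (B (L (nat_lit 331) ln15_11_3 ln15_11_3_ok) (M (nat_lit 333) (B (L (nat_lit 300) ln13_13_7 ln13_13_7_ok) (L (nat_lit 368) ln16_11_3 ln16_11_3_ok))))) (B (M (nat_lit 368) (B (M (nat_lit 332) (B (L (nat_lit 331) ln15_11_3 ln15_11_3_ok) (L (nat_lit 333) ln16_11_3 ln16_11_3_ok))) (M (nat_lit 400) (B (L (nat_lit 399) ln12_11_0 ln12_11_0_ok) (L (nat_lit 401) ln13_11_0 ln13_11_0_ok)))))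 (M (nat_lit 400) (B (L (nat_lit 399) ln12_11_0 ln12_11_0_ok) (M (nat_lit 368) (B (L (nat_lit 401) ln13_11_0 ln13_11_0_ok) (M (nat_lit 336) (B (L (nat_lit 335) ln12_11_2 ln12_11_2_ok) (L (nat_lit 337) ln13_11_2 ln13_11_2_ok)))))))))))))))))))))
theorem c11_s5486 : Sem (nat_lit 2079502271074782996900259361334058291418620007460921070226301906604606201515369656988575382226110281497502626949385227529827123200) (nat_lit 27459190650112450409103321339020504009306973677163534865738659787159479909988276241702966652341629008673585779647774582357320408532038461042906918107089993728) (nat_lit 27459190650112450409103321339020504009306973677163534865738659787159479909988276241702966652341629008673585779647774582357320408532038461042906918107089993728) :=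
  sem_of_chk (M (nat_lit 427) (B (M (nat_lit 426) (B (L (nat_lit 425) ln9_13_2 ln9_13_2_ok) (M (nat_lit 458) (B (L (nat_lit 457) ln13_13_1 ln13_13_1_ok) (M (nat_lit 430) (B (L (nat_lit 459) ln14_13_1 ln14_13_1_ok) (M (nat_lit 394) (B (L (nat_lit 393) ln13_13_3 ln13_13_3_ok) (L (nat_lit 395) ln10_12_0 ln10_12_0_ok))))))))) (B (M (nat_lit 426) (B (L (nat_lit 425) ln9_13_2 ln9_13_2_ok) (M (nat_lit 430) (B (M (nat_lit 395) (B (L (nat_lit 394) ln10_12_0 ln10_12_0_ok) (L (nat_lit 431) ln15_13_3 ln15_13_3_ok))) (M (nat_lit 458) (B (L (nat_lit 457) ln13_13_1 ln13_13_1_ok) (L (nat_lit 459) ln14_13_1 ln14_13_1_ok))))))) (B (M (nat_lit 426) (B (L (nat_lit 425) ln9_13_2 ln9_13_2_ok) (M (nat_lit 430) (B (M (nat_lit 431) (B (L (nat_lit 395) ln15_13_3 ln15_13_3_ok) (L (nat_lit 432) ln16_13_3 ln16_13_3_ok))) (M (nat_lit 458) (B (L (nat_lit 457) ln13_13_1 ln13_13_1_ok) (L (nat_lit 459) ln14_13_1 ln14_13_1_ok)))))))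 (B (M (nat_lit 426) (B (L (nat_lit 425) ln9_13_2 ln9_13_2_ok) (M (nat_lit 394) (B (L (nat_lit 393) ln13_13_3 ln13_13_3_ok) (M (nat_lit 458) (B (L (nat_lit 457) ln13_13_1 ln13_13_1_ok) (M (nat_lit 459) (B (L (nat_lit 430) ln14_13_1 ln14_13_1_ok) (M (nat_lit 362) (B (L (nat_lit 330) ln10_10_4 ln10_10_4_ok) (L (nat_lit 491) ln10_11_4 ln10_11_4_ok))))))))))) (B (M (nat_lit 426) (B (M (nat_lit 458) (B (L (nat_lit 457) ln13_13_1 ln13_13_1_ok) (M (nat_lit 430) (B (L (nat_lit 459) ln14_13_1 ln14_13_1_ok) (M (nat_lit 394) (B (L (nat_lit 393) ln13_13_3 ln13_13_3_ok) (L (nat_lit 395) ln10_12_0 ln10_12_0_ok))))))) (B (M (nat_lit 430) (B (M (nat_lit 395) (B (L (nat_lit 394) ln10_12_0 ln10_12_0_ok) (L (nat_lit 431) ln15_13_3 ln15_13_3_ok))) (M (nat_lit 458) (B (L (nat_lit 457) ln13_13_1 ln13_13_1_ok) (L (nat_lit 459) ln14_13_1 ln14_13_1_ok))))) (B (M (nat_lit 430) (B (M (nat_lit 431) (B (L (nat_lit 395) ln15_13_3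 ln15_13_3_ok) (L (nat_lit 432) ln16_13_3 ln16_13_3_ok))) (M (nat_lit 458) (B (L (nat_lit 457) ln13_13_1 ln13_13_1_ok) (L (nat_lit 459) ln14_13_1 ln14_13_1_ok))))) (B (M (nat_lit 394) (B (L (nat_lit 393) ln13_13_3 ln13_13_3_ok) (M (nat_lit 458) (B (L (nat_lit 457) ln13_13_1 ln13_13_1_ok) (M (nat_lit 459) (B (L (nat_lit 430) ln14_13_1 ln14_13_1_ok) (M (nat_lit 362) (B (L (nat_lit 330) ln10_10_4 ln10_10_4_ok) (L (nat_lit 491) ln10_11_4 ln10_11_4_ok))))))))) (B (M (nat_lit 458) (B (L (nat_lit 457) ln13_13_1 ln13_13_1_ok) (M (nat_lit 394) (B (L (nat_lit 393) ln13_13_3 ln13_13_3_ok) (M (nat_lit 362) (B (M (nat_lit 361) (B (L (nat_lit 329) ln10_14_7 ln10_14_7_ok) (L (nat_lit 395) ln13_12_3 ln13_12_3_ok))) (M (nat_lit 459) (B (L (nat_lit 330) ln10_10_4 ln10_10_4_ok) (L (nat_lit 491) ln10_11_4 ln10_11_4_ok))))))))) (B (M (nat_lit 394) (B (L (nat_lit 393) ln13_13_3 ln13_13_3_ok) (M (nat_lit 395) (B (L (nat_lit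 430) ln10_12_0 ln10_12_0_ok) (M (nat_lit 362) (B (L (nat_lit 361) ln13_12_3 ln13_12_3_ok) (M (nat_lit 330) (B (L (nat_lit 298) ln10_9_4 ln10_9_4_ok) (L (nat_lit 459) ln10_10_4 ln10_10_4_ok))))))))) (M (nat_lit 394) (B (L (nat_lit 393) ln13_13_3 ln13_13_3_ok) (M (nat_lit 395) (B (L (nat_lit 430) ln10_12_0 ln10_12_0_ok) (M (nat_lit 458) (B (L (nat_lit 457) ln13_13_1 ln13_13_1_ok) (M (nat_lit 363) (B (L (nat_lit 331) ln11_10_5 ln11_10_5_ok) (L (nat_lit 490) ln10_15_6 ln10_15_6_ok)))))))))))))))) (B (M (nat_lit 395) (B (M (nat_lit 394) (B (L (nat_lit 393) ln9_12_0 ln9_12_0_ok) (L (nat_lit 430) ln10_12_0 ln10_12_0_ok))) (B (M (nat_lit 430) (B (L (nat_lit 394) ln10_12_0 ln10_12_0_ok) (L (nat_lit 431) ln15_13_3 ln15_13_3_ok))) (B (M (nat_lit 459) (B (M (nat_lit 491) (B (L (nat_lit 364) ln11_15_6 ln11_15_6_ok) (L (nat_lit 523) ln11_16_6 ln11_16_6_ok))) (M (nat_lit 430) (B (L (nat_lit 431) ln15_13_3 ln15_13_3_ok)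 (L (nat_lit 458) ln14_13_1 ln14_13_1_ok))))) (M (nat_lit 394) (B (L (nat_lit 393) ln9_12_0 ln9_12_0_ok) (M (nat_lit 362) (B (L (nat_lit 361) ln13_12_3 ln13_12_3_ok) (M (nat_lit 459) (B (L (nat_lit 491) ln11_15_7 ln11_15_7_ok) (M (nat_lit 330) (B (L (nat_lit 298) ln10_9_4 ln10_9_4_ok) (L (nat_lit 363) ln11_14_7 ln11_14_7_ok))))))))))))) (B (M (nat_lit 395) (B (M (nat_lit 394) (B (L (nat_lit 393) ln9_12_0 ln9_12_0_ok) (M (nat_lit 426) (B (L (nat_lit 425) ln13_12_1 ln13_12_1_ok) (M (nat_lit 362) (B (L (nat_lit 361) ln13_12_3 ln13_12_3_ok) (M (nat_lit 330) (B (L (nat_lit 298) ln10_9_4 ln10_9_4_ok) (L (nat_lit 459) ln10_10_4 ln10_10_4_ok))))))))) (B (M (nat_lit 394) (B (L (nat_lit 393) ln9_12_0 ln9_12_0_ok) (M (nat_lit 426) (B (L (nat_lit 425) ln13_12_1 ln13_12_1_ok) (M (nat_lit 362) (B (L (nat_lit 361) ln13_12_3 ln13_12_3_ok) (M (nat_lit 459) (B (L (nat_lit 330) ln10_10_4 ln10_10_4_ok) (L (nat_lit 491)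 ln11_15_7 ln11_15_7_ok))))))))) (B (M (nat_lit 394) (B (L (nat_lit 393) ln9_12_0 ln9_12_0_ok) (M (nat_lit 426) (B (L (nat_lit 425) ln13_12_1 ln13_12_1_ok) (M (nat_lit 458) (B (L (nat_lit 457) ln13_13_1 ln13_13_1_ok) (M (nat_lit 363) (B (L (nat_lit 331) ln11_10_5 ln11_10_5_ok) (L (nat_lit 490) ln10_15_6 ln10_15_6_ok))))))))) (B (M (nat_lit 426) (B (L (nat_lit 425) ln9_13_2 ln9_13_2_ok) (M (nat_lit 458) (B (L (nat_lit 457) ln13_13_1 ln13_13_1_ok) (M (nat_lit 363) (B (L (nat_lit 331) ln11_10_5 ln11_10_5_ok) (M (nat_lit 490) (B (L (nat_lit 394) ln10_15_6 ln10_15_6_ok) (L (nat_lit 459) ln11_11_5 ln11_11_5_ok))))))))) (B (M (nat_lit 426) (B (L (nat_lit 425) ln9_13_2 ln9_13_2_ok) (M (nat_lit 458) (B (L (nat_lit 457) ln13_13_1 ln13_13_1_ok) (M (nat_lit 459) (B (M (nat_lit 363) (B (L (nat_lit 331) ln11_10_5 ln11_10_5_ok) (L (nat_lit 490) ln11_11_5 ln11_11_5_ok))) (M (nat_lit 491) (B (L (nat_lit 364) ln11_15_6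 ln11_15_6_ok) (L (nat_lit 523) ln11_16_6 ln11_16_6_ok))))))))) (M (nat_lit 394) (B (L (nat_lit 393) ln9_12_0 ln9_12_0_ok) (M (nat_lit 362) (B (L (nat_lit 361) ln13_12_3 ln13_12_3_ok) (M (nat_lit 459) (B (L (nat_lit 491) ln11_15_7 ln11_15_7_ok) (M (nat_lit 330) (B (L (nat_lit 298) ln10_9_4 ln10_9_4_ok) (L (nat_lit 363) ln11_14_7 ln11_14_7_ok))))))))))))))) (B (M (nat_lit 426) (B (L (nat_lit 425) ln9_13_2 ln9_13_2_ok) (M (nat_lit 394) (B (L (nat_lit 393) ln13_13_3 ln13_13_3_ok) (M (nat_lit 395) (B (L (nat_lit 430) ln10_12_0 ln10_12_0_ok) (M (nat_lit 362) (B (L (nat_lit 361) ln13_12_3 ln13_12_3_ok) (M (nat_lit 330) (B (L (nat_lit 298) ln10_9_4 ln10_9_4_ok) (L (nat_lit 459) ln10_10_4 ln10_10_4_ok))))))))))) (M (nat_lit 426) (B (L (nat_lit 425) ln9_13_2 ln9_13_2_ok) (M (nat_lit 394) (B (L (nat_lit 393) ln13_13_3 ln13_13_3_ok) (M (nat_lit 395) (B (L (nat_lit 430) ln10_12_0 ln10_12_0_ok) (M (nat_lit 458)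 (B (L (nat_lit 457) ln13_13_1 ln13_13_1_ok) (M (nat_lit 363) (B (L (nat_lit 331) ln11_10_5 ln11_10_5_ok) (L (nat_lit 490) ln10_15_6 ln10_15_6_ok)))))))))))))))))))) (nat_lit 2079502271074782996900259361334058291418620007460921070226301906604606201515369656988575382226110281497502626949385227529827123200) (nat_lit 27459190650112450409103321339020504009306973677163534865738659787159479909988276241702966652341629008673585779647774582357320408532038461042906918107089993728) (nat_lit 27459190650112450409103321339020504009306973677163534865738659787159479909988276241702966652341629008673585779647774582357320408532038461042906918107089993728) (by decide +kernel)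
theorem c11_s5853 : Sem (nat_lit 1386334847383188664662800709751675743157290090625009689002925491758742427264343730905638385586276663494970386332658580156613394432) (nat_lit 5209979979823268805015237659003286902952742023960223536285542124996474248189126412457023136455698915548156089957505938039115665211570257920) (nat_lit 5209979979823268805015237659003286902952742023960223536285542124996474248189126412457023136455698915548156089957505938039115665211570257920) :=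
  sem_of_chk (M (nat_lit 363) (B (M (nat_lit 362) (B (M (nat_lit 361) (B (L (nat_lit 396) ln9_11_0 ln9_11_0_ok) (M (nat_lit 393) (B (L (nat_lit 392) ln12_11_1 ln12_11_1_ok) (L (nat_lit 394) ln13_11_1 ln13_11_1_ok))))) (B (M (nat_lit 366) (B (M (nat_lit 330) (B (L (nat_lit 329) ln13_11_3 ln13_11_3_ok) (L (nat_lit 331) ln14_11_3 ln14_11_3_ok))) (M (nat_lit 394) (B (L (nat_lit 393) ln13_11_1 ln13_11_1_ok) (L (nat_lit 395) ln14_11_1 ln14_11_1_ok))))) (M (nat_lit 361) (B (L (nat_lit 396) ln9_11_0 ln9_11_0_ok) (M (nat_lit 329) (B (L (nat_lit 328) ln12_11_3 ln12_11_3_ok) (L (nat_lit 330) ln13_11_3 ln13_11_3_ok)))))))) (B (M (nat_lit 332) (B (M (nat_lit 300) (B (L (nat_lit 268) ln12_8_4 ln12_8_4_ok) (L (nat_lit 396) ln12_9_4 ln12_9_4_ok))) (B (M (nat_lit 395) (B (M (nat_lit 300) (B (L (nat_lit 396) ln12_9_4 ln12_9_4_ok) (M (nat_lit 427) (B (L (nat_lit 331) ln11_13_6 ln11_13_6_ok) (L (nat_lit 459) ln11_14_6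 ln11_14_6_ok))))) (M (nat_lit 394) (B (L (nat_lit 366) ln14_11_1 ln14_11_1_ok) (M (nat_lit 393) (B (L (nat_lit 362) ln13_11_1 ln13_11_1_ok) (L (nat_lit 392) ln8_12_2 ln8_12_2_ok))))))) (B (M (nat_lit 366) (B (M (nat_lit 331) (B (L (nat_lit 330) ln14_11_3 ln14_11_3_ok) (L (nat_lit 367) ln15_11_3 ln15_11_3_ok))) (B (M (nat_lit 367) (B (L (nat_lit 331) ln15_11_3 ln15_11_3_ok) (M (nat_lit 335) (B (L (nat_lit 334) ln11_11_2 ln11_11_2_ok) (L (nat_lit 336) ln12_11_2 ln12_11_2_ok))))) (B (M (nat_lit 367) (B (M (nat_lit 335) (B (L (nat_lit 334) ln11_11_2 ln11_11_2_ok) (L (nat_lit 336) ln12_11_2 ln12_11_2_ok))) (M (nat_lit 395) (B (L (nat_lit 394) ln14_11_1 ln14_11_1_ok) (L (nat_lit 396) ln15_11_1 ln15_11_1_ok))))) (M (nat_lit 362) (B (M (nat_lit 330) (B (L (nat_lit 329) ln13_11_3 ln13_11_3_ok) (L (nat_lit 331) ln14_11_3 ln14_11_3_ok))) (M (nat_lit 394) (B (L (nat_lit 393) ln13_11_1 ln13_11_1_ok) (L (nat_lit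 395) ln14_11_1 ln14_11_1_ok))))))))) (M (nat_lit 395) (B (M (nat_lit 394) (B (L (nat_lit 366) ln14_11_1 ln14_11_1_ok) (M (nat_lit 393) (B (L (nat_lit 362) ln13_11_1 ln13_11_1_ok) (L (nat_lit 392) ln8_12_2 ln8_12_2_ok))))) (M (nat_lit 300) (B (L (nat_lit 268) ln12_8_5 ln12_8_5_ok) (M (nat_lit 427) (B (L (nat_lit 331) ln11_13_6 ln11_13_6_ok) (L (nat_lit 459) ln11_14_6 ln11_14_6_ok))))))))))) (B (M (nat_lit 332) (B (M (nat_lit 300) (B (L (nat_lit 268) ln12_8_4 ln12_8_4_ok) (L (nat_lit 396) ln12_9_4 ln12_9_4_ok))) (B (M (nat_lit 395) (B (M (nat_lit 300) (B (L (nat_lit 396) ln12_9_4 ln12_9_4_ok) (M (nat_lit 427) (B (L (nat_lit 331) ln11_13_6 ln11_13_6_ok) (L (nat_lit 459) ln11_14_6 ln11_14_6_ok))))) (M (nat_lit 394) (B (L (nat_lit 366) ln14_11_1 ln14_11_1_ok) (M (nat_lit 393) (B (L (nat_lit 362) ln13_11_1 ln13_11_1_ok) (L (nat_lit 392) ln8_12_2 ln8_12_2_ok))))))) (B (M (nat_lit 362) (B (M (nat_lit 361)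 (B (L (nat_lit 396) ln9_11_0 ln9_11_0_ok) (M (nat_lit 393) (B (L (nat_lit 392) ln12_11_1 ln12_11_1_ok) (L (nat_lit 394) ln13_11_1 ln13_11_1_ok))))) (B (M (nat_lit 366) (B (M (nat_lit 331) (B (L (nat_lit 330) ln14_11_3 ln14_11_3_ok) (L (nat_lit 367) ln15_11_3 ln15_11_3_ok))) (M (nat_lit 394) (B (L (nat_lit 393) ln13_11_1 ln13_11_1_ok) (L (nat_lit 395) ln14_11_1 ln14_11_1_ok))))) (M (nat_lit 331) (B (M (nat_lit 361) (B (L (nat_lit 360) ln8_11_2 ln8_11_2_ok) (L (nat_lit 396) ln9_11_0 ln9_11_0_ok))) (M (nat_lit 366) (B (L (nat_lit 330) ln14_11_3 ln14_11_3_ok) (L (nat_lit 367) ln15_11_3 ln15_11_3_ok)))))))) (M (nat_lit 395) (B (M (nat_lit 394) (B (L (nat_lit 366) ln14_11_1 ln14_11_1_ok) (M (nat_lit 393) (B (L (nat_lit 362) ln13_11_1 ln13_11_1_ok) (L (nat_lit 392) ln8_12_2 ln8_12_2_ok))))) (M (nat_lit 300) (B (L (nat_lit 268) ln12_8_5 ln12_8_5_ok) (M (nat_lit 427) (B (L (nat_lit 331) ln11_13_6 ln11_13_6_ok)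 (L (nat_lit 459) ln11_14_6 ln11_14_6_ok))))))))))) (B (M (nat_lit 332) (B (M (nat_lit 300) (B (L (nat_lit 268) ln12_8_4 ln12_8_4_ok) (L (nat_lit 396) ln12_9_4 ln12_9_4_ok))) (B (M (nat_lit 395) (B (M (nat_lit 300) (B (L (nat_lit 396) ln12_9_4 ln12_9_4_ok) (M (nat_lit 427) (B (L (nat_lit 331) ln11_13_6 ln11_13_6_ok) (L (nat_lit 459) ln11_14_6 ln11_14_6_ok))))) (M (nat_lit 394) (B (L (nat_lit 366) ln14_11_1 ln14_11_1_ok) (M (nat_lit 393) (B (L (nat_lit 362) ln13_11_1 ln13_11_1_ok) (L (nat_lit 392) ln8_12_2 ln8_12_2_ok))))))) (B (M (nat_lit 362) (B (M (nat_lit 361) (B (L (nat_lit 396) ln9_11_0 ln9_11_0_ok) (M (nat_lit 393) (B (L (nat_lit 392) ln12_11_1 ln12_11_1_ok) (L (nat_lit 394) ln13_11_1 ln13_11_1_ok))))) (B (M (nat_lit 366) (B (M (nat_lit 394) (B (L (nat_lit 393) ln13_11_1 ln13_11_1_ok) (L (nat_lit 395) ln14_11_1 ln14_11_1_ok))) (M (nat_lit 367) (B (L (nat_lit 331) ln15_11_3 ln15_11_3_ok) (M (nat_lit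 335) (B (L (nat_lit 334) ln11_11_2 ln11_11_2_ok) (L (nat_lit 336) ln12_11_2 ln12_11_2_ok))))))) (M (nat_lit 361) (B (L (nat_lit 396) ln9_11_0 ln9_11_0_ok) (M (nat_lit 328) (B (L (nat_lit 329) ln12_11_3 ln12_11_3_ok) (M (nat_lit 360) (B (L (nat_lit 327) ln11_11_3 ln11_11_3_ok) (L (nat_lit 331) ln8_11_2 ln8_11_2_ok)))))))))) (M (nat_lit 395) (B (M (nat_lit 394) (B (L (nat_lit 366) ln14_11_1 ln14_11_1_ok) (M (nat_lit 393) (B (L (nat_lit 362) ln13_11_1 ln13_11_1_ok) (L (nat_lit 392) ln8_12_2 ln8_12_2_ok))))) (M (nat_lit 300) (B (L (nat_lit 268) ln12_8_5 ln12_8_5_ok) (M (nat_lit 427) (B (L (nat_lit 331) ln11_13_6 ln11_13_6_ok) (L (nat_lit 459) ln11_14_6 ln11_14_6_ok))))))))))) (B (M (nat_lit 362) (B (M (nat_lit 361) (B (L (nat_lit 396) ln9_11_0 ln9_11_0_ok) (M (nat_lit 393) (B (L (nat_lit 392) ln12_11_1 ln12_11_1_ok) (L (nat_lit 394) ln13_11_1 ln13_11_1_ok))))) (B (M (nat_lit 394) (B (L (nat_lit 393)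 ln13_11_1 ln13_11_1_ok) (M (nat_lit 395) (B (L (nat_lit 366) ln14_11_1 ln14_11_1_ok) (M (nat_lit 330) (B (L (nat_lit 329) ln13_11_3 ln13_11_3_ok) (M (nat_lit 298) (B (L (nat_lit 266) ln10_8_4 ln10_8_4_ok) (L (nat_lit 427) ln10_9_4 ln10_9_4_ok))))))))) (M (nat_lit 361) (B (L (nat_lit 396) ln9_11_0 ln9_11_0_ok) (M (nat_lit 329) (B (L (nat_lit 328) ln12_11_3 ln12_11_3_ok) (L (nat_lit 330) ln13_11_3 ln13_11_3_ok)))))))) (B (M (nat_lit 395) (B (M (nat_lit 394) (B (L (nat_lit 366) ln14_11_1 ln14_11_1_ok) (M (nat_lit 393) (B (L (nat_lit 392) ln8_12_2 ln8_12_2_ok) (L (nat_lit 396) ln9_12_2 ln9_12_2_ok))))) (B (M (nat_lit 394) (B (M (nat_lit 393) (B (L (nat_lit 392) ln8_12_2 ln8_12_2_ok) (L (nat_lit 396) ln9_12_2 ln9_12_2_ok))) (B (M (nat_lit 396) (B (L (nat_lit 393) ln9_12_2 ln9_12_2_ok) (L (nat_lit 430) ln10_12_0 ln10_12_0_ok))) (B (M (nat_lit 332) (B (M (nat_lit 300) (B (L (nat_lit 268) ln12_8_5 ln12_8_5_ok)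 (L (nat_lit 396) ln12_9_4 ln12_9_4_ok))) (B (M (nat_lit 396) (B (L (nat_lit 300) ln12_9_4 ln12_9_4_ok) (L (nat_lit 430) ln10_12_0 ln10_12_0_ok))) (B (M (nat_lit 427) (B (L (nat_lit 459) ln11_14_6 ln11_14_6_ok) (M (nat_lit 430) (B (L (nat_lit 396) ln10_12_0 ln10_12_0_ok) (L (nat_lit 428) ln14_13_3 ln14_13_3_ok))))) (M (nat_lit 427) (B (L (nat_lit 459) ln11_14_6 ln11_14_6_ok) (M (nat_lit 300) (B (L (nat_lit 268) ln12_8_5 ln12_8_5_ok) (L (nat_lit 331) ln11_13_6 ln11_13_6_ok))))))))) (M (nat_lit 427) (B (M (nat_lit 428) (B (L (nat_lit 430) ln14_13_3 ln14_13_3_ok) (M (nat_lit 393) (B (L (nat_lit 392) ln8_12_2 ln8_12_2_ok) (L (nat_lit 426) ln13_13_3 ln13_13_3_ok))))) (M (nat_lit 332) (B (L (nat_lit 459) ln11_14_6 ln11_14_6_ok) (M (nat_lit 300) (B (L (nat_lit 268) ln12_8_5 ln12_8_5_ok) (L (nat_lit 331) ln11_13_6 ln11_13_6_ok))))))))))) (B (M (nat_lit 394) (B (L (nat_lit 366) ln14_11_1 ln14_11_1_ok) (M (nat_lit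 396) (B (L (nat_lit 393) ln9_12_2 ln9_12_2_ok) (L (nat_lit 430) ln10_12_0 ln10_12_0_ok))))) (B (M (nat_lit 366) (B (L (nat_lit 394) ln14_11_1 ln14_11_1_ok) (M (nat_lit 331) (B (L (nat_lit 330) ln14_11_3 ln14_11_3_ok) (M (nat_lit 367) (B (L (nat_lit 332) ln15_11_3 ln15_11_3_ok) (L (nat_lit 396) ln15_11_1 ln15_11_1_ok))))))) (B (M (nat_lit 331) (B (M (nat_lit 366) (B (L (nat_lit 330) ln14_11_3 ln14_11_3_ok) (M (nat_lit 367) (B (L (nat_lit 332) ln15_11_3 ln15_11_3_ok) (L (nat_lit 396) ln15_11_1 ln15_11_1_ok))))) (B (M (nat_lit 300) (B (M (nat_lit 268) (B (L (nat_lit 299) ln11_12_6 ln11_12_6_ok) (L (nat_lit 332) ln12_8_5 ln12_8_5_ok))) (B (M (nat_lit 332) (B (L (nat_lit 427) ln11_13_6 ln11_13_6_ok) (L (nat_lit 396) ln12_9_4 ln12_9_4_ok))) (M (nat_lit 299) (B (L (nat_lit 268) ln11_12_6 ln11_12_6_ok) (M (nat_lit 396) (B (L (nat_lit 267) ln11_8_4 ln11_8_4_ok) (L (nat_lit 428) ln11_9_4 ln11_9_4_ok))))))))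 (B (M (nat_lit 396) (B (M (nat_lit 299) (B (L (nat_lit 267) ln11_8_4 ln11_8_4_ok) (L (nat_lit 428) ln11_9_4 ln11_9_4_ok))) (M (nat_lit 366) (B (L (nat_lit 330) ln14_11_3 ln14_11_3_ok) (L (nat_lit 367) ln15_11_1 ln15_11_1_ok))))) (M (nat_lit 332) (B (M (nat_lit 300) (B (L (nat_lit 268) ln12_8_5 ln12_8_5_ok) (L (nat_lit 427) ln11_13_6 ln11_13_6_ok))) (M (nat_lit 366) (B (L (nat_lit 330) ln14_11_3 ln14_11_3_ok) (L (nat_lit 367) ln15_11_3 ln15_11_3_ok))))))))) (M (nat_lit 366) (B (L (nat_lit 394) ln14_11_1 ln14_11_1_ok) (M (nat_lit 331) (B (L (nat_lit 330) ln14_11_3 ln14_11_3_ok) (M (nat_lit 332) (B (L (nat_lit 367) ln15_11_3 ln15_11_3_ok) (M (nat_lit 300) (B (L (nat_lit 268) ln12_8_5 ln12_8_5_ok) (L (nat_lit 427) ln11_13_6 ln11_13_6_ok))))))))))))))) (B (M (nat_lit 362) (B (M (nat_lit 361) (B (L (nat_lit 396) ln9_11_0 ln9_11_0_ok) (M (nat_lit 329) (B (L (nat_lit 328) ln12_11_3 ln12_11_3_ok) (L (nat_lit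 330) ln13_11_3 ln13_11_3_ok))))) (B (M (nat_lit 361) (B (L (nat_lit 396) ln9_11_0 ln9_11_0_ok) (M (nat_lit 393) (B (L (nat_lit 392) ln12_11_1 ln12_11_1_ok) (L (nat_lit 394) ln13_11_1 ln13_11_1_ok))))) (B (M (nat_lit 394) (B (L (nat_lit 393) ln13_11_1 ln13_11_1_ok) (M (nat_lit 395) (B (M (nat_lit 330) (B (L (nat_lit 329) ln13_11_3 ln13_11_3_ok) (M (nat_lit 298) (B (L (nat_lit 266) ln10_8_4 ln10_8_4_ok) (L (nat_lit 427) ln10_9_4 ln10_9_4_ok))))) (M (nat_lit 426) (B (M (nat_lit 331) (B (L (nat_lit 299) ln11_9_5 ln11_9_5_ok) (L (nat_lit 458) ln10_14_6 ln10_14_6_ok))) (M (nat_lit 396) (B (L (nat_lit 425) ln13_12_1 ln13_12_1_ok) (L (nat_lit 430) ln10_12_0 ln10_12_0_ok))))))))) (M (nat_lit 329) (B (L (nat_lit 330) ln13_11_3 ln13_11_3_ok) (M (nat_lit 393) (B (L (nat_lit 394) ln13_11_1 ln13_11_1_ok) (M (nat_lit 361) (B (L (nat_lit 328) ln12_11_3 ln12_11_3_ok) (L (nat_lit 392) ln12_11_1 ln12_11_1_ok)))))))))))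 (B (M (nat_lit 362) (B (M (nat_lit 361) (B (L (nat_lit 396) ln9_11_0 ln9_11_0_ok) (M (nat_lit 329) (B (L (nat_lit 328) ln12_11_3 ln12_11_3_ok) (L (nat_lit 330) ln13_11_3 ln13_11_3_ok))))) (B (M (nat_lit 366) (B (M (nat_lit 330) (B (L (nat_lit 329) ln13_11_3 ln13_11_3_ok) (L (nat_lit 331) ln14_11_3 ln14_11_3_ok))) (M (nat_lit 394) (B (L (nat_lit 393) ln13_11_1 ln13_11_1_ok) (L (nat_lit 395) ln14_11_1 ln14_11_1_ok))))) (M (nat_lit 394) (B (L (nat_lit 393) ln13_11_1 ln13_11_1_ok) (M (nat_lit 395) (B (L (nat_lit 366) ln14_11_1 ln14_11_1_ok) (M (nat_lit 396) (B (L (nat_lit 361) ln9_11_0 ln9_11_0_ok) (L (nat_lit 430) ln10_12_0 ln10_12_0_ok)))))))))) (B (M (nat_lit 395) (B (M (nat_lit 366) (B (L (nat_lit 394) ln14_11_1 ln14_11_1_ok) (M (nat_lit 367) (B (L (nat_lit 396) ln15_11_1 ln15_11_1_ok) (M (nat_lit 335) (B (L (nat_lit 334) ln11_11_2 ln11_11_2_ok) (L (nat_lit 336) ln12_11_2 ln12_11_2_ok))))))) (B (M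 (nat_lit 366) (B (L (nat_lit 394) ln14_11_1 ln14_11_1_ok) (M (nat_lit 331) (B (L (nat_lit 330) ln14_11_3 ln14_11_3_ok) (M (nat_lit 367) (B (L (nat_lit 332) ln15_11_3 ln15_11_3_ok) (L (nat_lit 396) ln15_11_1 ln15_11_1_ok))))))) (B (M (nat_lit 427) (B (M (nat_lit 332) (B (L (nat_lit 459) ln11_14_6 ln11_14_6_ok) (M (nat_lit 300) (B (L (nat_lit 268) ln12_8_5 ln12_8_5_ok) (L (nat_lit 396) ln12_9_5 ln12_9_5_ok))))) (B (M (nat_lit 332) (B (L (nat_lit 459) ln11_14_6 ln11_14_6_ok) (M (nat_lit 300) (B (L (nat_lit 331) ln11_13_6 ln11_13_6_ok) (L (nat_lit 396) ln12_9_5 ln12_9_5_ok))))) (B (M (nat_lit 331) (B (M (nat_lit 330) (B (L (nat_lit 298) ln11_13_7 ln11_13_7_ok) (M (nat_lit 329) (B (L (nat_lit 328) ln8_10_0 ln8_10_0_ok) (L (nat_lit 332) ln9_10_0 ln9_10_0_ok))))) (M (nat_lit 299) (B (M (nat_lit 426) (B (L (nat_lit 394) ln11_9_5 ln11_9_5_ok) (L (nat_lit 458) ln11_10_5 ln11_10_5_ok))) (M (nat_lit 428) (B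 (L (nat_lit 396) ln11_9_4 ln11_9_4_ok) (L (nat_lit 460) ln11_10_4 ln11_10_4_ok))))))) (B (M (nat_lit 331) (B (M (nat_lit 330) (B (L (nat_lit 298) ln11_13_7 ln11_13_7_ok) (M (nat_lit 329) (B (L (nat_lit 328) ln8_10_0 ln8_10_0_ok) (L (nat_lit 362) ln13_11_3 ln13_11_3_ok))))) (M (nat_lit 299) (B (M (nat_lit 426) (B (L (nat_lit 394) ln11_9_5 ln11_9_5_ok) (L (nat_lit 458) ln11_10_5 ln11_10_5_ok))) (M (nat_lit 428) (B (L (nat_lit 396) ln11_9_4 ln11_9_4_ok) (L (nat_lit 460) ln11_10_4 ln11_10_4_ok))))))) (M (nat_lit 332) (B (L (nat_lit 459) ln11_14_6 ln11_14_6_ok) (M (nat_lit 300) (B (L (nat_lit 268) ln12_8_5 ln12_8_5_ok) (L (nat_lit 331) ln11_13_6 ln11_13_6_ok)))))))))) (B (M (nat_lit 331) (B (M (nat_lit 366) (B (L (nat_lit 330) ln14_11_3 ln14_11_3_ok) (M (nat_lit 367) (B (L (nat_lit 332) ln15_11_3 ln15_11_3_ok) (L (nat_lit 396) ln15_11_1 ln15_11_1_ok))))) (B (M (nat_lit 300) (B (M (nat_lit 268) (B (L (nat_lit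 299) ln11_12_6 ln11_12_6_ok) (L (nat_lit 332) ln12_8_5 ln12_8_5_ok))) (B (M (nat_lit 332) (B (L (nat_lit 427) ln11_13_6 ln11_13_6_ok) (L (nat_lit 396) ln12_9_4 ln12_9_4_ok))) (M (nat_lit 299) (B (L (nat_lit 268) ln11_12_6 ln11_12_6_ok) (M (nat_lit 396) (B (L (nat_lit 267) ln11_8_4 ln11_8_4_ok) (L (nat_lit 428) ln11_9_4 ln11_9_4_ok)))))))) (B (M (nat_lit 396) (B (M (nat_lit 299) (B (L (nat_lit 267) ln11_8_4 ln11_8_4_ok) (L (nat_lit 428) ln11_9_4 ln11_9_4_ok))) (M (nat_lit 366) (B (L (nat_lit 330) ln14_11_3 ln14_11_3_ok) (L (nat_lit 367) ln15_11_1 ln15_11_1_ok))))) (M (nat_lit 332) (B (M (nat_lit 300) (B (L (nat_lit 268) ln12_8_5 ln12_8_5_ok) (L (nat_lit 427) ln11_13_6 ln11_13_6_ok))) (M (nat_lit 366) (B (L (nat_lit 330) ln14_11_3 ln14_11_3_ok) (L (nat_lit 367) ln15_11_3 ln15_11_3_ok))))))))) (M (nat_lit 366) (B (L (nat_lit 394) ln14_11_1 ln14_11_1_ok) (M (nat_lit 331) (B (L (nat_lit 330) ln14_11_3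 ln14_11_3_ok) (M (nat_lit 332) (B (L (nat_lit 367) ln15_11_3 ln15_11_3_ok) (M (nat_lit 300) (B (L (nat_lit 268) ln12_8_5 ln12_8_5_ok) (L (nat_lit 427) ln11_13_6 ln11_13_6_ok)))))))))))))) (B (M (nat_lit 362) (B (M (nat_lit 361) (B (L (nat_lit 396) ln9_11_0 ln9_11_0_ok) (M (nat_lit 329) (B (L (nat_lit 328) ln12_11_3 ln12_11_3_ok) (L (nat_lit 330) ln13_11_3 ln13_11_3_ok))))) (B (M (nat_lit 366) (B (M (nat_lit 330) (B (L (nat_lit 329) ln13_11_3 ln13_11_3_ok) (L (nat_lit 331) ln14_11_3 ln14_11_3_ok))) (M (nat_lit 367) (B (M (nat_lit 335) (B (L (nat_lit 334) ln11_11_2 ln11_11_2_ok) (L (nat_lit 336) ln12_11_2 ln12_11_2_ok))) (M (nat_lit 396) (B (L (nat_lit 361) ln9_11_0 ln9_11_0_ok) (L (nat_lit 368) ln16_11_1 ln16_11_1_ok))))))) (B (M (nat_lit 361) (B (L (nat_lit 396) ln9_11_0 ln9_11_0_ok) (M (nat_lit 360) (B (M (nat_lit 392) (B (L (nat_lit 391) ln11_11_1 ln11_11_1_ok) (L (nat_lit 393) ln12_11_1 ln12_11_1_ok)))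 (M (nat_lit 331) (B (L (nat_lit 332) ln8_11_2 ln8_11_2_ok) (M (nat_lit 330) (B (L (nat_lit 359) ln7_11_2 ln7_11_2_ok) (L (nat_lit 366) ln14_11_3 ln14_11_3_ok))))))))) (B (M (nat_lit 361) (B (L (nat_lit 396) ln9_11_0 ln9_11_0_ok) (M (nat_lit 360) (B (M (nat_lit 328) (B (L (nat_lit 327) ln11_11_3 ln11_11_3_ok) (L (nat_lit 329) ln12_11_3 ln12_11_3_ok))) (M (nat_lit 392) (B (L (nat_lit 391) ln11_11_1 ln11_11_1_ok) (L (nat_lit 393) ln12_11_1 ln12_11_1_ok))))))) (B (M (nat_lit 366) (B (M (nat_lit 330) (B (L (nat_lit 329) ln13_11_3 ln13_11_3_ok) (L (nat_lit 331) ln14_11_3 ln14_11_3_ok))) (M (nat_lit 367) (B (M (nat_lit 335) (B (L (nat_lit 334) ln11_11_2 ln11_11_2_ok) (L (nat_lit 336) ln12_11_2 ln12_11_2_ok))) (M (nat_lit 396) (B (L (nat_lit 395) ln15_11_1 ln15_11_1_ok) (L (nat_lit 368) ln16_11_1 ln16_11_1_ok))))))) (M (nat_lit 361) (B (M (nat_lit 329) (B (L (nat_lit 328) ln12_11_3 ln12_11_3_ok) (L (nat_lit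 330) ln13_11_3 ln13_11_3_ok))) (B (M (nat_lit 330) (B (L (nat_lit 329) ln13_11_3 ln13_11_3_ok) (M (nat_lit 331) (B (L (nat_lit 366) ln14_11_3 ln14_11_3_ok) (M (nat_lit 360) (B (L (nat_lit 359) ln7_11_2 ln7_11_2_ok) (L (nat_lit 332) ln8_11_2 ln8_11_2_ok))))))) (B (M (nat_lit 360) (B (M (nat_lit 392) (B (L (nat_lit 391) ln11_11_1 ln11_11_1_ok) (L (nat_lit 393) ln12_11_1 ln12_11_1_ok))) (M (nat_lit 331) (B (L (nat_lit 332) ln8_11_2 ln8_11_2_ok) (M (nat_lit 330) (B (L (nat_lit 359) ln7_11_2 ln7_11_2_ok) (L (nat_lit 366) ln14_11_3 ln14_11_3_ok))))))) (M (nat_lit 360) (B (M (nat_lit 328) (B (L (nat_lit 327) ln11_11_3 ln11_11_3_ok) (L (nat_lit 329) ln12_11_3 ln12_11_3_ok))) (M (nat_lit 392) (B (L (nat_lit 391) ln11_11_1 ln11_11_1_ok) (L (nat_lit 393) ln12_11_1 ln12_11_1_ok))))))))))))))) (B (M (nat_lit 362) (B (M (nat_lit 361) (B (L (nat_lit 396) ln9_11_0 ln9_11_0_ok) (M (nat_lit 329) (B (L (nat_lit 328)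 ln12_11_3 ln12_11_3_ok) (L (nat_lit 330) ln13_11_3 ln13_11_3_ok))))) (B (M (nat_lit 361) (B (L (nat_lit 396) ln9_11_0 ln9_11_0_ok) (M (nat_lit 393) (B (L (nat_lit 392) ln12_11_1 ln12_11_1_ok) (L (nat_lit 394) ln13_11_1 ln13_11_1_ok))))) (M (nat_lit 330) (B (L (nat_lit 329) ln13_11_3 ln13_11_3_ok) (M (nat_lit 331) (B (L (nat_lit 366) ln14_11_3 ln14_11_3_ok) (M (nat_lit 394) (B (L (nat_lit 393) ln13_11_1 ln13_11_1_ok) (M (nat_lit 299) (B (L (nat_lit 267) ln11_8_5 ln11_8_5_ok) (L (nat_lit 426) ln10_13_6 ln10_13_6_ok)))))))))))) (M (nat_lit 330) (B (M (nat_lit 329) (B (L (nat_lit 362) ln13_11_3 ln13_11_3_ok) (M (nat_lit 331) (B (L (nat_lit 332) ln9_10_0 ln9_10_0_ok) (L (nat_lit 366) ln14_11_3 ln14_11_3_ok))))) (B (M (nat_lit 395) (B (M (nat_lit 366) (B (L (nat_lit 331) ln14_11_3 ln14_11_3_ok) (L (nat_lit 394) ln14_11_1 ln14_11_1_ok))) (B (M (nat_lit 394) (B (L (nat_lit 366) ln14_11_1 ln14_11_1_ok) (M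 (nat_lit 393) (B (L (nat_lit 362) ln13_11_1 ln13_11_1_ok) (L (nat_lit 392) ln8_12_2 ln8_12_2_ok))))) (B (M (nat_lit 427) (B (M (nat_lit 459) (B (L (nat_lit 362) ln11_14_7 ln11_14_7_ok) (L (nat_lit 332) ln11_14_6 ln11_14_6_ok))) (B (M (nat_lit 298) (B (L (nat_lit 331) ln11_13_7 ln11_13_7_ok) (M (nat_lit 362) (B (L (nat_lit 266) ln10_8_4 ln10_8_4_ok) (L (nat_lit 459) ln11_14_7 ln11_14_7_ok))))) (B (M (nat_lit 331) (B (L (nat_lit 298) ln11_13_7 ln11_13_7_ok) (M (nat_lit 332) (B (L (nat_lit 300) ln11_13_6 ln11_13_6_ok) (L (nat_lit 459) ln11_14_6 ln11_14_6_ok))))) (M (nat_lit 298) (B (L (nat_lit 331) ln11_13_7 ln11_13_7_ok) (M (nat_lit 362) (B (L (nat_lit 266) ln10_8_4 ln10_8_4_ok) (L (nat_lit 394) ln10_9_4 ln10_9_4_ok))))))))) (M (nat_lit 427) (B (M (nat_lit 331) (B (L (nat_lit 298) ln11_13_7 ln11_13_7_ok) (L (nat_lit 366) ln14_11_3 ln14_11_3_ok))) (M (nat_lit 459) (B (L (nat_lit 362) ln11_14_7 ln11_14_7_ok)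 (L (nat_lit 332) ln11_14_6 ln11_14_6_ok))))))))) (B (M (nat_lit 362) (B (L (nat_lit 329) ln13_11_3 ln13_11_3_ok) (M (nat_lit 394) (B (L (nat_lit 393) ln13_11_1 ln13_11_1_ok) (M (nat_lit 395) (B (L (nat_lit 366) ln14_11_1 ln14_11_1_ok) (M (nat_lit 298) (B (L (nat_lit 266) ln10_8_4 ln10_8_4_ok) (L (nat_lit 427) ln10_9_4 ln10_9_4_ok))))))))) (B (M (nat_lit 331) (B (L (nat_lit 366) ln14_11_3 ln14_11_3_ok) (M (nat_lit 329) (B (L (nat_lit 328) ln8_10_0 ln8_10_0_ok) (L (nat_lit 332) ln9_10_0 ln9_10_0_ok))))) (M (nat_lit 329) (B (L (nat_lit 362) ln13_11_3 ln13_11_3_ok) (M (nat_lit 331) (B (L (nat_lit 328) ln8_10_0 ln8_10_0_ok) (L (nat_lit 332) ln9_10_0 ln9_10_0_ok)))))))))))))))))))))) (nat_lit 1386334847383188664662800709751675743157290090625009689002925491758742427264343730905638385586276663494970386332658580156613394432) (nat_lit 5209979979823268805015237659003286902952742023960223536285542124996474248189126412457023136455698915548156089957505938039115665211570257920)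 (nat_lit 5209979979823268805015237659003286902952742023960223536285542124996474248189126412457023136455698915548156089957505938039115665211570257920) (by decide +kernel)
noncomputable def c11_n5854 : Cert := (M (nat_lit 364) (B (M (nat_lit 332) (B (L (nat_lit 461) ln13_14_7 ln13_14_7_ok) (M (nat_lit 300) (B (L (nat_lit 268) ln12_8_4 ln12_8_4_ok) (L (nat_lit 396) ln12_9_4 ln12_9_4_ok))))) (B (M (nat_lit 461) (B (L (nat_lit 332) ln13_14_7 ln13_14_7_ok) (M (nat_lit 493) (B (L (nat_lit 396) ln13_15_7 ln13_15_7_ok) (M (nat_lit 492) (B (L (nat_lit 460) ln13_11_5 ln13_11_5_ok) (L (nat_lit 524) ln13_12_5 ln13_12_5_ok))))))) (B (M (nat_lit 366) (B (M (nat_lit 461) (B (L (nat_lit 334) ln13_14_6 ln13_14_6_ok) (M (nat_lit 396) (B (L (nat_lit 493) ln13_15_7 ln13_15_7_ok) (M (nat_lit 367) (B (L (nat_lit 395) ln15_11_1 ln15_11_1_ok) (L (nat_lit 368) ln16_11_1 ln16_11_1_ok))))))) (B (M (nat_lit 363) (B (M (nat_lit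 362) (B (M (nat_lit 330) (B (L (nat_lit 329) ln13_11_3 ln13_11_3_ok) (L (nat_lit 331) ln14_11_3 ln14_11_3_ok))) (M (nat_lit 394) (B (L (nat_lit 393) ln13_11_1 ln13_11_1_ok) (L (nat_lit 395) ln14_11_1 ln14_11_1_ok))))) (B (M (nat_lit 362) (B (M (nat_lit 394) (B (L (nat_lit 393) ln13_11_1 ln13_11_1_ok) (L (nat_lit 395) ln14_11_1 ln14_11_1_ok))) (B (M (nat_lit 396) (B (L (nat_lit 361) ln9_11_0 ln9_11_0_ok) (M (nat_lit 395) (B (L (nat_lit 394) ln14_11_1 ln14_11_1_ok) (L (nat_lit 367) ln15_11_1 ln15_11_1_ok))))) (B (M (nat_lit 396) (B (L (nat_lit 361) ln9_11_0 ln9_11_0_ok) (M (nat_lit 367) (B (L (nat_lit 395) ln15_11_1 ln15_11_1_ok) (L (nat_lit 368) ln16_11_1 ln16_11_1_ok))))) (M (nat_lit 361) (B (L (nat_lit 396) ln9_11_0 ln9_11_0_ok) (M (nat_lit 393) (B (L (nat_lit 392) ln12_11_1 ln12_11_1_ok) (L (nat_lit 394) ln13_11_1 ln13_11_1_ok))))))))) (B (M (nat_lit 367) (B (M (nat_lit 395) (B (L (nat_lit 394)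 ln14_11_1 ln14_11_1_ok) (L (nat_lit 396) ln15_11_1 ln15_11_1_ok))) (B (M (nat_lit 396) (B (L (nat_lit 395) ln15_11_1 ln15_11_1_ok) (L (nat_lit 368) ln16_11_1 ln16_11_1_ok))) (B (M (nat_lit 368) (B (L (nat_lit 396) ln16_11_1 ln16_11_1_ok) (M (nat_lit 336) (B (L (nat_lit 335) ln12_11_2 ln12_11_2_ok) (L (nat_lit 337) ln13_11_2 ln13_11_2_ok))))) (M (nat_lit 368) (B (M (nat_lit 336) (B (L (nat_lit 335) ln12_11_2 ln12_11_2_ok) (L (nat_lit 337) ln13_11_2 ln13_11_2_ok))) (M (nat_lit 400) (B (L (nat_lit 399) ln12_11_0 ln12_11_0_ok) (L (nat_lit 401) ln13_11_0 ln13_11_0_ok))))))))) (B (M (nat_lit 330) (B (L (nat_lit 331) ln14_11_3 ln14_11_3_ok) (M (nat_lit 396) (B (M (nat_lit 362) (B (L (nat_lit 329) ln13_11_3 ln13_11_3_ok) (L (nat_lit 361) ln9_11_0 ln9_11_0_ok))) (M (nat_lit 367) (B (L (nat_lit 395) ln15_11_1 ln15_11_1_ok) (L (nat_lit 368) ln16_11_1 ln16_11_1_ok))))))) (M (nat_lit 362) (B (M (nat_lit 330)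 (B (L (nat_lit 329) ln13_11_3 ln13_11_3_ok) (L (nat_lit 331) ln14_11_3 ln14_11_3_ok))) (M (nat_lit 361) (B (L (nat_lit 396) ln9_11_0 ln9_11_0_ok) (M (nat_lit 393) (B (L (nat_lit 392) ln12_11_1 ln12_11_1_ok) (L (nat_lit 394) ln13_11_1 ln13_11_1_ok)))))))))))) (B (M (nat_lit 461) (B (L (nat_lit 334) ln13_14_6 ln13_14_6_ok) (M (nat_lit 492) (B (L (nat_lit 460) ln13_11_5 ln13_11_5_ok) (M (nat_lit 493) (B (L (nat_lit 396) ln13_15_7 ln13_15_7_ok) (L (nat_lit 524) ln13_12_5 ln13_12_5_ok))))))) (M (nat_lit 334) (B (L (nat_lit 461) ln13_14_6 ln13_14_6_ok) (M (nat_lit 335) (B (L (nat_lit 363) ln11_11_2 ln11_11_2_ok) (M (nat_lit 336) (B (L (nat_lit 337) ln17_10_1 ln17_10_1_ok) (L (nat_lit 367) ln12_11_2 ln12_11_2_ok))))))))))) (B (K (nat_lit 1386334847383188664662800709751675743157290090625009689002925491758742427264343730905638385586276663494970386332658580156613394432) (nat_lit 18380855475796946494510398633190484133704047514231548553654363295157453102266322740925017423665641462464428410846995761655510397656442343931265417216)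 (nat_lit 18380855475796946494510398633190484133704047514231548553654363295157453102266322740925017423665641462464428410846995761655510397656442343931265417216) c11_s994) (K (nat_lit 1386334847383188664662800709751675743157290090625009689002925491758742427264343730905638385586276663494970386332658580156613394432) (nat_lit 5209979979823268805015237659003286902952742023960223536285542124996474248189126412457023136455698915548156089957505938039115665211570257920) (nat_lit 5209979979823268805015237659003286902952742023960223536285542124996474248189126412457023136455698915548156089957505938039115665211570257920) c11_s5853))))))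
theorem c11_s5950 : Sem (nat_lit 1386334847383188664550070665778531748218595021979121511688892729411143073470393764272092352380775458208712834410189682411080515584) (nat_lit 1179363258168619532284816678408609153989026875648321377207159057662601700250790413505474478534754836852520182862402611297674490312662653008416843038107041256819426066432) (nat_lit 1179363258168619532284816678408609153989026875648321377207159057662601700250790413505474478534754836852520182862402611297674490312662653008416843038107041256819426066432) :=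
  sem_of_chk (M (nat_lit 365) (B (M (nat_lit 333) (B (M (nat_lit 302) (B (L (nat_lit 334) ln13_13_6 ln13_13_6_ok) (M (nat_lit 301) (B (L (nat_lit 270) ln13_12_6 ln13_12_6_ok) (M (nat_lit 428) (B (L (nat_lit 396) ln13_9_5 ln13_9_5_ok) (L (nat_lit 460) ln13_10_5 ln13_10_5_ok))))))) (B (M (nat_lit 301) (B (M (nat_lit 300) (B (L (nat_lit 268) ln13_12_7 ln13_12_7_ok) (L (nat_lit 332) ln13_13_7 ln13_13_7_ok))) (M (nat_lit 428) (B (L (nat_lit 396) ln13_9_5 ln13_9_5_ok) (L (nat_lit 460) ln13_10_5 ln13_10_5_ok))))) (B (M (nat_lit 461) (B (M (nat_lit 332) (B (L (nat_lit 300) ln13_13_7 ln13_13_7_ok) (L (nat_lit 364) ln13_14_7 ln13_14_7_ok))) (M (nat_lit 460) (B (L (nat_lit 428) ln13_10_5 ln13_10_5_ok) (L (nat_lit 492) ln13_11_5 ln13_11_5_ok))))) (M (nat_lit 301) (B (M (nat_lit 300) (B (L (nat_lit 268) ln13_12_7 ln13_12_7_ok) (L (nat_lit 332) ln13_13_7 ln13_13_7_ok))) (M (nat_lit 302) (B (L (nat_lit 270) ln13_12_6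 ln13_12_6_ok) (L (nat_lit 334) ln13_13_6 ln13_13_6_ok))))))))) (B (M (nat_lit 333) (B (M (nat_lit 334) (B (L (nat_lit 302) ln13_13_6 ln13_13_6_ok) (M (nat_lit 461) (B (L (nat_lit 366) ln13_14_6 ln13_14_6_ok) (M (nat_lit 332) (B (L (nat_lit 300) ln13_13_7 ln13_13_7_ok) (L (nat_lit 364) ln13_14_7 ln13_14_7_ok))))))) (B (M (nat_lit 461) (B (M (nat_lit 334) (B (L (nat_lit 302) ln13_13_6 ln13_13_6_ok) (L (nat_lit 366) ln13_14_6 ln13_14_6_ok))) (M (nat_lit 460) (B (L (nat_lit 428) ln13_10_5 ln13_10_5_ok) (L (nat_lit 492) ln13_11_5 ln13_11_5_ok))))) (B (M (nat_lit 461) (B (M (nat_lit 332) (B (L (nat_lit 300) ln13_13_7 ln13_13_7_ok) (L (nat_lit 364) ln13_14_7 ln13_14_7_ok))) (M (nat_lit 460) (B (L (nat_lit 428) ln13_10_5 ln13_10_5_ok) (L (nat_lit 492) ln13_11_5 ln13_11_5_ok))))) (M (nat_lit 302) (B (L (nat_lit 334) ln13_13_6 ln13_13_6_ok) (M (nat_lit 301) (B (L (nat_lit 270) ln13_12_6 ln13_12_6_ok) (M (nat_lit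 428) (B (L (nat_lit 396) ln13_9_5 ln13_9_5_ok) (L (nat_lit 460) ln13_10_5 ln13_10_5_ok))))))))))) (B (M (nat_lit 333) (B (M (nat_lit 334) (B (L (nat_lit 302) ln13_13_6 ln13_13_6_ok) (M (nat_lit 461) (B (L (nat_lit 366) ln13_14_6 ln13_14_6_ok) (M (nat_lit 332) (B (L (nat_lit 300) ln13_13_7 ln13_13_7_ok) (L (nat_lit 364) ln13_14_7 ln13_14_7_ok))))))) (B (M (nat_lit 461) (B (M (nat_lit 334) (B (L (nat_lit 302) ln13_13_6 ln13_13_6_ok) (L (nat_lit 366) ln13_14_6 ln13_14_6_ok))) (M (nat_lit 460) (B (L (nat_lit 428) ln13_10_5 ln13_10_5_ok) (L (nat_lit 492) ln13_11_5 ln13_11_5_ok))))) (B (M (nat_lit 461) (B (M (nat_lit 332) (B (L (nat_lit 300) ln13_13_7 ln13_13_7_ok) (L (nat_lit 364) ln13_14_7 ln13_14_7_ok))) (M (nat_lit 460) (B (L (nat_lit 428) ln13_10_5 ln13_10_5_ok) (L (nat_lit 492) ln13_11_5 ln13_11_5_ok))))) (M (nat_lit 301) (B (M (nat_lit 300) (B (L (nat_lit 268) ln13_12_7 ln13_12_7_ok) (L (nat_lit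 332) ln13_13_7 ln13_13_7_ok))) (M (nat_lit 428) (B (L (nat_lit 396) ln13_9_5 ln13_9_5_ok) (L (nat_lit 460) ln13_10_5 ln13_10_5_ok))))))))) (B (M (nat_lit 461) (B (M (nat_lit 333) (B (M (nat_lit 334) (B (L (nat_lit 302) ln13_13_6 ln13_13_6_ok) (L (nat_lit 366) ln13_14_6 ln13_14_6_ok))) (M (nat_lit 460) (B (L (nat_lit 428) ln13_10_5 ln13_10_5_ok) (L (nat_lit 492) ln13_11_5 ln13_11_5_ok))))) (B (M (nat_lit 493) (B (M (nat_lit 364) (B (L (nat_lit 332) ln13_14_7 ln13_14_7_ok) (L (nat_lit 396) ln13_15_7 ln13_15_7_ok))) (M (nat_lit 492) (B (L (nat_lit 460) ln13_11_5 ln13_11_5_ok) (L (nat_lit 524) ln13_12_5 ln13_12_5_ok))))) (B (M (nat_lit 493) (B (M (nat_lit 364) (B (L (nat_lit 332) ln13_14_7 ln13_14_7_ok) (L (nat_lit 396) ln13_15_7 ln13_15_7_ok))) (M (nat_lit 525) (B (M (nat_lit 524) (B (L (nat_lit 492) ln13_12_5 ln13_12_5_ok) (L (nat_lit 556) ln13_13_5 ln13_13_5_ok))) (M (nat_lit 526) (B (L (nat_lit 494)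 ln13_12_4 ln13_12_4_ok) (L (nat_lit 558) ln13_13_4 ln13_13_4_ok))))))) (M (nat_lit 333) (B (M (nat_lit 334) (B (L (nat_lit 302) ln13_13_6 ln13_13_6_ok) (L (nat_lit 366) ln13_14_6 ln13_14_6_ok))) (M (nat_lit 396) (B (M (nat_lit 428) (B (L (nat_lit 301) ln13_9_5 ln13_9_5_ok) (L (nat_lit 460) ln13_10_5 ln13_10_5_ok))) (M (nat_lit 364) (B (L (nat_lit 332) ln13_14_7 ln13_14_7_ok) (L (nat_lit 493) ln13_15_7 ln13_15_7_ok))))))))))) (B (M (nat_lit 461) (B (M (nat_lit 333) (B (M (nat_lit 334) (B (L (nat_lit 302) ln13_13_6 ln13_13_6_ok) (L (nat_lit 366) ln13_14_6 ln13_14_6_ok))) (M (nat_lit 460) (B (L (nat_lit 428) ln13_10_5 ln13_10_5_ok) (L (nat_lit 492) ln13_11_5 ln13_11_5_ok))))) (B (M (nat_lit 460) (B (L (nat_lit 492) ln13_11_5 ln13_11_5_ok) (M (nat_lit 332) (B (L (nat_lit 364) ln13_14_7 ln13_14_7_ok) (M (nat_lit 333) (B (L (nat_lit 300) ln13_13_7 ln13_13_7_ok) (L (nat_lit 428) ln13_10_5 ln13_10_5_ok)))))))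 (B (M (nat_lit 493) (B (M (nat_lit 364) (B (L (nat_lit 332) ln13_14_7 ln13_14_7_ok) (L (nat_lit 396) ln13_15_7 ln13_15_7_ok))) (M (nat_lit 492) (B (L (nat_lit 460) ln13_11_5 ln13_11_5_ok) (L (nat_lit 524) ln13_12_5 ln13_12_5_ok))))) (M (nat_lit 333) (B (M (nat_lit 332) (B (L (nat_lit 300) ln13_13_7 ln13_13_7_ok) (L (nat_lit 364) ln13_14_7 ln13_14_7_ok))) (M (nat_lit 334) (B (L (nat_lit 302) ln13_13_6 ln13_13_6_ok) (L (nat_lit 366) ln13_14_6 ln13_14_6_ok))))))))) (B c11_n5353 (B (M (nat_lit 333) (B (M (nat_lit 461) (B (M (nat_lit 334) (B (L (nat_lit 302) ln13_13_6 ln13_13_6_ok) (L (nat_lit 366) ln13_14_6 ln13_14_6_ok))) (M (nat_lit 460) (B (L (nat_lit 428) ln13_10_5 ln13_10_5_ok) (L (nat_lit 492) ln13_11_5 ln13_11_5_ok))))) (B (M (nat_lit 428) (B (L (nat_lit 460) ln13_10_5 ln13_10_5_ok) (M (nat_lit 396) (B (L (nat_lit 301) ln13_9_5 ln13_9_5_ok) (K (nat_lit 2079502271074782996900259361334058291418620007460921070226301906604606201515369656988575382226110281497502626949385227529827123200)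 (nat_lit 27459190650112450409103321339020504009306973677163534865738659787159479909988276241702966652341629008673585779647774582357320408532038461042906918107089993728) (nat_lit 27459190650112450409103321339020504009306973677163534865738659787159479909988276241702966652341629008673585779647774582357320408532038461042906918107089993728) c11_s5486))))) (M (nat_lit 334) (B (L (nat_lit 302) ln13_13_6 ln13_13_6_ok) (M (nat_lit 366) (B (L (nat_lit 461) ln13_14_6 ln13_14_6_ok) (M (nat_lit 364) (B (M (nat_lit 335) (B (L (nat_lit 336) ln16_10_1 ln16_10_1_ok) (L (nat_lit 363) ln11_11_2 ln11_11_2_ok))) (B (M (nat_lit 367) (B (M (nat_lit 368) (B (L (nat_lit 369) ln17_11_3 ln17_11_3_ok) (L (nat_lit 396) ln16_11_1 ln16_11_1_ok))) (B (M (nat_lit 395) (B (L (nat_lit 396) ln15_11_1 ln15_11_1_ok) (M (nat_lit 363) (B (L (nat_lit 362) ln10_11_2 ln10_11_2_ok) (L (nat_lit 394) ln14_11_1 ln14_11_1_ok))))) (M (nat_lit 368)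 (B (L (nat_lit 369) ln17_11_3 ln17_11_3_ok) (M (nat_lit 400) (B (L (nat_lit 399) ln12_11_0 ln12_11_0_ok) (L (nat_lit 401) ln13_11_0 ln13_11_0_ok)))))))) (M (nat_lit 367) (B (M (nat_lit 368) (B (L (nat_lit 369) ln17_11_3 ln17_11_3_ok) (L (nat_lit 396) ln16_11_1 ln16_11_1_ok))) (B (M (nat_lit 399) (B (L (nat_lit 400) ln12_11_0 ln12_11_0_ok) (M (nat_lit 431) (B (L (nat_lit 463) ln15_14_7 ln15_14_7_ok) (M (nat_lit 432) (B (M (nat_lit 335) (B (L (nat_lit 336) ln16_10_1 ln16_10_1_ok) (L (nat_lit 464) ln15_10_4 ln15_10_4_ok))) (M (nat_lit 396) (B (L (nat_lit 395) ln15_11_1 ln15_11_1_ok) (L (nat_lit 430) ln16_13_3 ln16_13_3_ok))))))))) (M (nat_lit 368) (B (L (nat_lit 369) ln17_11_3 ln17_11_3_ok) (M (nat_lit 400) (B (L (nat_lit 399) ln12_11_0 ln12_11_0_ok) (L (nat_lit 401) ln13_11_0 ln13_11_0_ok)))))))))))))))))) (B c11_n5854 (B (M (nat_lit 333) (B (M (nat_lit 301) (B (M (nat_lit 300) (B (L (nat_lit 268)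 ln13_12_7 ln13_12_7_ok) (L (nat_lit 332) ln13_13_7 ln13_13_7_ok))) (M (nat_lit 428) (B (L (nat_lit 396) ln13_9_5 ln13_9_5_ok) (L (nat_lit 460) ln13_10_5 ln13_10_5_ok))))) (B (M (nat_lit 461) (B (M (nat_lit 332) (B (L (nat_lit 300) ln13_13_7 ln13_13_7_ok) (L (nat_lit 364) ln13_14_7 ln13_14_7_ok))) (M (nat_lit 460) (B (L (nat_lit 428) ln13_10_5 ln13_10_5_ok) (L (nat_lit 492) ln13_11_5 ln13_11_5_ok))))) (B (M (nat_lit 461) (B (M (nat_lit 460) (B (L (nat_lit 428) ln13_10_5 ln13_10_5_ok) (L (nat_lit 492) ln13_11_5 ln13_11_5_ok))) (B (M (nat_lit 493) (B (M (nat_lit 364) (B (L (nat_lit 332) ln13_14_7 ln13_14_7_ok) (L (nat_lit 396) ln13_15_7 ln13_15_7_ok))) (M (nat_lit 492) (B (L (nat_lit 460) ln13_11_5 ln13_11_5_ok) (L (nat_lit 524) ln13_12_5 ln13_12_5_ok))))) (M (nat_lit 364) (B (L (nat_lit 332) ln13_14_7 ln13_14_7_ok) (M (nat_lit 396) (B (L (nat_lit 493) ln13_15_7 ln13_15_7_ok) (M (nat_lit 301) (B (L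 (nat_lit 269) ln13_8_5 ln13_8_5_ok) (L (nat_lit 428) ln13_9_5 ln13_9_5_ok)))))))))) (B (M (nat_lit 301) (B (M (nat_lit 428) (B (L (nat_lit 396) ln13_9_5 ln13_9_5_ok) (L (nat_lit 460) ln13_10_5 ln13_10_5_ok))) (M (nat_lit 269) (B (M (nat_lit 268) (B (L (nat_lit 236) ln13_11_7 ln13_11_7_ok) (L (nat_lit 300) ln13_12_7 ln13_12_7_ok))) (M (nat_lit 270) (B (L (nat_lit 238) ln13_11_6 ln13_11_6_ok) (L (nat_lit 302) ln13_12_6 ln13_12_6_ok))))))) (M (nat_lit 301) (B (M (nat_lit 300) (B (L (nat_lit 268) ln13_12_7 ln13_12_7_ok) (L (nat_lit 332) ln13_13_7 ln13_13_7_ok))) (B (M (nat_lit 332) (B (L (nat_lit 300) ln13_13_7 ln13_13_7_ok) (M (nat_lit 364) (B (L (nat_lit 461) ln13_14_7 ln13_14_7_ok) (M (nat_lit 269) (B (L (nat_lit 237) ln13_7_5 ln13_7_5_ok) (L (nat_lit 396) ln13_8_5 ln13_8_5_ok))))))) (B (M (nat_lit 269) (B (M (nat_lit 270) (B (L (nat_lit 238) ln13_11_6 ln13_11_6_ok) (L (nat_lit 302) ln13_12_6 ln13_12_6_ok)))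 (M (nat_lit 364) (B (L (nat_lit 396) ln13_8_5 ln13_8_5_ok) (M (nat_lit 332) (B (L (nat_lit 237) ln13_7_5 ln13_7_5_ok) (L (nat_lit 461) ln13_14_7 ln13_14_7_ok))))))) (M (nat_lit 269) (B (M (nat_lit 268) (B (L (nat_lit 236) ln13_11_7 ln13_11_7_ok) (L (nat_lit 300) ln13_12_7 ln13_12_7_ok))) (M (nat_lit 270) (B (L (nat_lit 238) ln13_11_6 ln13_11_6_ok) (L (nat_lit 302) ln13_12_6 ln13_12_6_ok)))))))))))))) (B (M (nat_lit 333) (B (M (nat_lit 301) (B (M (nat_lit 300) (B (L (nat_lit 268) ln13_12_7 ln13_12_7_ok) (L (nat_lit 332) ln13_13_7 ln13_13_7_ok))) (M (nat_lit 428) (B (L (nat_lit 396) ln13_9_5 ln13_9_5_ok) (L (nat_lit 460) ln13_10_5 ln13_10_5_ok))))) (B (M (nat_lit 302) (B (L (nat_lit 334) ln13_13_6 ln13_13_6_ok) (M (nat_lit 301) (B (L (nat_lit 270) ln13_12_6 ln13_12_6_ok) (M (nat_lit 428) (B (L (nat_lit 396) ln13_9_5 ln13_9_5_ok) (L (nat_lit 460) ln13_10_5 ln13_10_5_ok))))))) (B (M (nat_lit 461) (B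 (M (nat_lit 334) (B (L (nat_lit 302) ln13_13_6 ln13_13_6_ok) (L (nat_lit 366) ln13_14_6 ln13_14_6_ok))) (M (nat_lit 460) (B (L (nat_lit 428) ln13_10_5 ln13_10_5_ok) (L (nat_lit 492) ln13_11_5 ln13_11_5_ok))))) (M (nat_lit 301) (B (M (nat_lit 300) (B (L (nat_lit 268) ln13_12_7 ln13_12_7_ok) (L (nat_lit 332) ln13_13_7 ln13_13_7_ok))) (M (nat_lit 302) (B (L (nat_lit 270) ln13_12_6 ln13_12_6_ok) (L (nat_lit 334) ln13_13_6 ln13_13_6_ok))))))))) (B (M (nat_lit 333) (B (M (nat_lit 334) (B (L (nat_lit 302) ln13_13_6 ln13_13_6_ok) (M (nat_lit 461) (B (L (nat_lit 366) ln13_14_6 ln13_14_6_ok) (M (nat_lit 332) (B (L (nat_lit 300) ln13_13_7 ln13_13_7_ok) (L (nat_lit 364) ln13_14_7 ln13_14_7_ok))))))) (B (M (nat_lit 461) (B (M (nat_lit 334) (B (L (nat_lit 302) ln13_13_6 ln13_13_6_ok) (L (nat_lit 366) ln13_14_6 ln13_14_6_ok))) (M (nat_lit 460) (B (L (nat_lit 428) ln13_10_5 ln13_10_5_ok) (L (nat_lit 492) ln13_11_5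 ln13_11_5_ok))))) (B (M (nat_lit 461) (B (M (nat_lit 332) (B (L (nat_lit 300) ln13_13_7 ln13_13_7_ok) (L (nat_lit 364) ln13_14_7 ln13_14_7_ok))) (M (nat_lit 460) (B (L (nat_lit 428) ln13_10_5 ln13_10_5_ok) (L (nat_lit 492) ln13_11_5 ln13_11_5_ok))))) (M (nat_lit 301) (B (M (nat_lit 300) (B (L (nat_lit 268) ln13_12_7 ln13_12_7_ok) (L (nat_lit 332) ln13_13_7 ln13_13_7_ok))) (M (nat_lit 302) (B (L (nat_lit 270) ln13_12_6 ln13_12_6_ok) (L (nat_lit 334) ln13_13_6 ln13_13_6_ok))))))))) (B (M (nat_lit 332) (B (M (nat_lit 300) (B (L (nat_lit 333) ln13_13_7 ln13_13_7_ok) (M (nat_lit 364) (B (L (nat_lit 268) ln12_8_4 ln12_8_4_ok) (L (nat_lit 461) ln13_14_7 ln13_14_7_ok))))) (B (M (nat_lit 300) (B (L (nat_lit 333) ln13_13_7 ln13_13_7_ok) (M (nat_lit 364) (B (L (nat_lit 396) ln12_9_4 ln12_9_4_ok) (L (nat_lit 461) ln13_14_7 ln13_14_7_ok))))) (B (M (nat_lit 366) (B (M (nat_lit 461) (B (L (nat_lit 364) ln13_14_7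 ln13_14_7_ok) (L (nat_lit 334) ln13_14_6 ln13_14_6_ok))) (B (M (nat_lit 367) (B (M (nat_lit 364) (B (L (nat_lit 331) ln15_11_3 ln15_11_3_ok) (L (nat_lit 461) ln13_14_7 ln13_14_7_ok))) (M (nat_lit 368) (B (L (nat_lit 333) ln16_11_3 ln16_11_3_ok) (L (nat_lit 396) ln16_11_1 ln16_11_1_ok))))) (B (M (nat_lit 334) (B (L (nat_lit 461) ln13_14_6 ln13_14_6_ok) (M (nat_lit 302) (B (L (nat_lit 270) ln14_8_5 ln14_8_5_ok) (L (nat_lit 333) ln13_13_6 ln13_13_6_ok))))) (M (nat_lit 367) (B (M (nat_lit 368) (B (L (nat_lit 333) ln16_11_3 ln16_11_3_ok) (L (nat_lit 396) ln16_11_1 ln16_11_1_ok))) (B (M (nat_lit 364) (B (L (nat_lit 331) ln15_11_3 ln15_11_3_ok) (M (nat_lit 396) (B (L (nat_lit 395) ln15_11_1 ln15_11_1_ok) (L (nat_lit 368) ln16_11_1 ln16_11_1_ok))))) (M (nat_lit 331) (B (L (nat_lit 364) ln15_11_3 ln15_11_3_ok) (M (nat_lit 333) (B (L (nat_lit 330) ln10_10_0 ln10_10_0_ok) (L (nat_lit 334) ln11_10_0 ln11_10_0_ok))))))))))))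 (B (M (nat_lit 364) (B (L (nat_lit 461) ln13_14_7 ln13_14_7_ok) (M (nat_lit 300) (B (L (nat_lit 268) ln12_8_4 ln12_8_4_ok) (L (nat_lit 396) ln12_9_4 ln12_9_4_ok))))) (B (M (nat_lit 333) (B (L (nat_lit 300) ln13_13_7 ln13_13_7_ok) (M (nat_lit 334) (B (L (nat_lit 302) ln13_13_6 ln13_13_6_ok) (M (nat_lit 366) (B (L (nat_lit 461) ln13_14_6 ln13_14_6_ok) (M (nat_lit 331) (B (L (nat_lit 330) ln10_10_0 ln10_10_0_ok) (L (nat_lit 367) ln11_10_0 ln11_10_0_ok))))))))) (M (nat_lit 300) (B (L (nat_lit 333) ln13_13_7 ln13_13_7_ok) (M (nat_lit 364) (B (L (nat_lit 268) ln12_8_4 ln12_8_4_ok) (L (nat_lit 396) ln12_9_4 ln12_9_4_ok))))))))))) (M (nat_lit 333) (B (M (nat_lit 301) (B (M (nat_lit 300) (B (L (nat_lit 268) ln13_12_7 ln13_12_7_ok) (L (nat_lit 332) ln13_13_7 ln13_13_7_ok))) (M (nat_lit 428) (B (L (nat_lit 396) ln13_9_5 ln13_9_5_ok) (L (nat_lit 460) ln13_10_5 ln13_10_5_ok))))) (B (M (nat_lit 302) (B (L (nat_lit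 334) ln13_13_6 ln13_13_6_ok) (M (nat_lit 301) (B (L (nat_lit 270) ln13_12_6 ln13_12_6_ok) (M (nat_lit 428) (B (L (nat_lit 396) ln13_9_5 ln13_9_5_ok) (L (nat_lit 460) ln13_10_5 ln13_10_5_ok))))))) (M (nat_lit 332) (B (L (nat_lit 300) ln13_13_7 ln13_13_7_ok) (M (nat_lit 334) (B (L (nat_lit 302) ln13_13_6 ln13_13_6_ok) (M (nat_lit 331) (B (M (nat_lit 366) (B (L (nat_lit 330) ln10_10_0 ln10_10_0_ok) (L (nat_lit 367) ln11_10_0 ln11_10_0_ok))) (B (M (nat_lit 335) (B (M (nat_lit 363) (B (L (nat_lit 362) ln14_10_1 ln14_10_1_ok) (L (nat_lit 364) ln15_10_1 ln15_10_1_ok))) (M (nat_lit 367) (B (L (nat_lit 366) ln11_10_0 ln11_10_0_ok) (L (nat_lit 368) ln12_10_0 ln12_10_0_ok))))) (M (nat_lit 330) (B (M (nat_lit 298) (B (L (nat_lit 297) ln13_10_3 ln13_10_3_ok) (L (nat_lit 299) ln14_10_3 ln14_10_3_ok))) (M (nat_lit 362) (B (L (nat_lit 361) ln13_10_1 ln13_10_1_ok) (L (nat_lit 363) ln14_10_1 ln14_10_1_ok))))))))))))))))))))))))))))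 (nat_lit 1386334847383188664550070665778531748218595021979121511688892729411143073470393764272092352380775458208712834410189682411080515584) (nat_lit 1179363258168619532284816678408609153989026875648321377207159057662601700250790413505474478534754836852520182862402611297674490312662653008416843038107041256819426066432) (nat_lit 1179363258168619532284816678408609153989026875648321377207159057662601700250790413505474478534754836852520182862402611297674490312662653008416843038107041256819426066432) (by decide +kernel)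
theorem c11_s6214 : Sem (nat_lit 44753387217330064630472912733859411441668478964418391758232901090994868865593032019963231227810838316818638633227285929953732203851398678289506631680) (nat_lit 18687756777394905882348276341934320243285512769068279469033473692480947228188910343427443082013603293201491368042085178428329046285513576674173867896981647203908104942294369655116965565361209475072) (nat_lit 18687756777394905882348276341934320243285512769068279469033473692480947228188910343427443082013603293201491368042085178428329046285513576674173867896981647203908104942294369655116965565361209475072) :=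
  sem_of_chk (M (nat_lit 459) (B (M (nat_lit 494) (B (L (nat_lit 458) ln14_15_3 ln14_15_3_ok) (M (nat_lit 523) (B (L (nat_lit 522) ln14_15_1 ln14_15_1_ok) (M (nat_lit 495) (B (L (nat_lit 524) ln15_15_1 ln15_15_1_ok) (M (nat_lit 527) (B (L (nat_lit 526) ln11_15_0 ln11_15_0_ok) (L (nat_lit 528) ln12_15_0 ln12_15_0_ok))))))))) (B (M (nat_lit 523) (B (M (nat_lit 427) (B (L (nat_lit 428) ln11_16_6 ln11_16_6_ok) (M (nat_lit 522) (B (L (nat_lit 554) ln11_13_5 ln11_13_5_ok) (L (nat_lit 494) ln14_15_1 ln14_15_1_ok))))) (B (M (nat_lit 522) (B (L (nat_lit 494) ln14_15_1 ln14_15_1_ok) (M (nat_lit 521) (B (L (nat_lit 520) ln8_16_2 ln8_16_2_ok) (L (nat_lit 524) ln9_16_2 ln9_16_2_ok))))) (B (M (nat_lit 522) (B (M (nat_lit 427) (B (L (nat_lit 428) ln11_16_6 ln11_16_6_ok) (L (nat_lit 554) ln11_13_5 ln11_13_5_ok))) (M (nat_lit 521) (B (L (nat_lit 520) ln8_16_2 ln8_16_2_ok) (L (nat_lit 524) ln9_16_2 ln9_16_2_ok)))))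 (M (nat_lit 555) (B (M (nat_lit 556) (B (L (nat_lit 588) ln11_14_4 ln11_14_4_ok) (M (nat_lit 427) (B (L (nat_lit 428) ln11_16_6 ln11_16_6_ok) (L (nat_lit 524) ln11_13_4 ln11_13_4_ok))))) (B (M (nat_lit 587) (B (M (nat_lit 586) (B (L (nat_lit 554) ln11_14_5 ln11_14_5_ok) (L (nat_lit 618) ln11_15_5 ln11_15_5_ok))) (M (nat_lit 588) (B (L (nat_lit 556) ln11_14_4 ln11_14_4_ok) (L (nat_lit 620) ln11_15_4 ln11_15_4_ok))))) (B (M (nat_lit 587) (B (M (nat_lit 586) (B (L (nat_lit 554) ln11_14_5 ln11_14_5_ok) (L (nat_lit 618) ln11_15_5 ln11_15_5_ok))) (M (nat_lit 619) (B (L (nat_lit 524) ln11_19_6 ln11_19_6_ok) (M (nat_lit 620) (B (L (nat_lit 588) ln11_15_4 ln11_15_4_ok) (L (nat_lit 652) ln11_16_4 ln11_16_4_ok))))))) (M (nat_lit 587) (B (M (nat_lit 586) (B (L (nat_lit 554) ln11_14_5 ln11_14_5_ok) (L (nat_lit 618) ln11_15_5 ln11_15_5_ok))) (M (nat_lit 427) (B (L (nat_lit 428) ln11_16_6 ln11_16_6_ok) (M (nat_lit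 524) (B (L (nat_lit 556) ln11_13_4 ln11_13_4_ok) (L (nat_lit 619) ln11_19_6 ln11_19_6_ok))))))))))))))) (B (M (nat_lit 427) (B (M (nat_lit 428) (B (L (nat_lit 523) ln11_16_6 ln11_16_6_ok) (M (nat_lit 398) (B (L (nat_lit 399) ln15_12_1 ln15_12_1_ok) (L (nat_lit 426) ln10_13_2 ln10_13_2_ok))))) (B (M (nat_lit 428) (B (L (nat_lit 523) ln11_16_6 ln11_16_6_ok) (M (nat_lit 426) (B (L (nat_lit 425) ln9_13_2 ln9_13_2_ok) (M (nat_lit 458) (B (L (nat_lit 457) ln13_13_1 ln13_13_1_ok) (L (nat_lit 430) ln14_13_1 ln14_13_1_ok))))))) (B (M (nat_lit 523) (B (L (nat_lit 428) ln11_16_6 ln11_16_6_ok) (M (nat_lit 524) (B (L (nat_lit 556) ln11_13_4 ln11_13_4_ok) (M (nat_lit 522) (B (L (nat_lit 554) ln11_13_5 ln11_13_5_ok) (L (nat_lit 521) ln9_16_2 ln9_16_2_ok))))))) (B (M (nat_lit 523) (B (M (nat_lit 524) (B (L (nat_lit 556) ln11_13_4 ln11_13_4_ok) (M (nat_lit 522) (B (L (nat_lit 554) ln11_13_5 ln11_13_5_ok) (L (nat_lit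 521) ln9_16_2 ln9_16_2_ok))))) (B (M (nat_lit 555) (B (M (nat_lit 426) (B (L (nat_lit 394) ln11_16_7 ln11_16_7_ok) (L (nat_lit 458) ln11_17_7 ln11_17_7_ok))) (M (nat_lit 556) (B (L (nat_lit 524) ln11_13_4 ln11_13_4_ok) (L (nat_lit 588) ln11_14_4 ln11_14_4_ok))))) (M (nat_lit 555) (B (M (nat_lit 426) (B (L (nat_lit 394) ln11_16_7 ln11_16_7_ok) (L (nat_lit 458) ln11_17_7 ln11_17_7_ok))) (M (nat_lit 554) (B (L (nat_lit 522) ln11_13_5 ln11_13_5_ok) (L (nat_lit 586) ln11_14_5 ln11_14_5_ok)))))))) (M (nat_lit 428) (B (M (nat_lit 398) (B (L (nat_lit 399) ln15_12_1 ln15_12_1_ok) (L (nat_lit 426) ln10_13_2 ln10_13_2_ok))) (B (M (nat_lit 426) (B (L (nat_lit 425) ln9_13_2 ln9_13_2_ok) (M (nat_lit 458) (B (L (nat_lit 457) ln13_13_1 ln13_13_1_ok) (L (nat_lit 430) ln14_13_1 ln14_13_1_ok))))) (M (nat_lit 399) (B (L (nat_lit 398) ln15_12_1 ln15_12_1_ok) (M (nat_lit 430) (B (L (nat_lit 458) ln14_13_1 ln14_13_1_ok)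 (M (nat_lit 431) (B (L (nat_lit 432) ln16_13_3 ln16_13_3_ok) (L (nat_lit 400) ln12_13_2 ln12_13_2_ok))))))))))))))) (B (M (nat_lit 494) (B (L (nat_lit 458) ln14_15_3 ln14_15_3_ok) (M (nat_lit 495) (B (M (nat_lit 527) (B (L (nat_lit 526) ln11_15_0 ln11_15_0_ok) (L (nat_lit 528) ln12_15_0 ln12_15_0_ok))) (M (nat_lit 496) (B (M (nat_lit 464) (B (L (nat_lit 463) ln12_15_2 ln12_15_2_ok) (L (nat_lit 465) ln13_15_2 ln13_15_2_ok))) (M (nat_lit 524) (B (L (nat_lit 523) ln15_15_1 ln15_15_1_ok) (L (nat_lit 525) ln16_15_1 ln16_15_1_ok))))))))) (B (M (nat_lit 494) (B (L (nat_lit 458) ln14_15_3 ln14_15_3_ok) (M (nat_lit 495) (B (M (nat_lit 527) (B (L (nat_lit 526) ln11_15_0 ln11_15_0_ok) (L (nat_lit 528) ln12_15_0 ln12_15_0_ok))) (B (M (nat_lit 496) (B (M (nat_lit 464) (B (L (nat_lit 463) ln12_15_2 ln12_15_2_ok) (L (nat_lit 465) ln13_15_2 ln13_15_2_ok))) (M (nat_lit 528) (B (L (nat_lit 527) ln12_15_0 ln12_15_0_ok)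 (L (nat_lit 529) ln13_15_0 ln13_15_0_ok))))) (B (M (nat_lit 496) (B (M (nat_lit 464) (B (L (nat_lit 463) ln12_15_2 ln12_15_2_ok) (L (nat_lit 465) ln13_15_2 ln13_15_2_ok))) (M (nat_lit 497) (B (M (nat_lit 525) (B (L (nat_lit 524) ln16_15_1 ln16_15_1_ok) (L (nat_lit 526) ln17_15_1 ln17_15_1_ok))) (M (nat_lit 529) (B (L (nat_lit 528) ln13_15_0 ln13_15_0_ok) (L (nat_lit 530) ln14_15_0 ln14_15_0_ok))))))) (M (nat_lit 496) (B (M (nat_lit 464) (B (L (nat_lit 463) ln12_15_2 ln12_15_2_ok) (L (nat_lit 465) ln13_15_2 ln13_15_2_ok))) (M (nat_lit 525) (B (L (nat_lit 524) ln16_15_1 ln16_15_1_ok) (M (nat_lit 526) (B (L (nat_lit 527) ln11_15_0 ln11_15_0_ok) (L (nat_lit 497) ln17_15_1 ln17_15_1_ok))))))))))))) (M (nat_lit 523) (B (M (nat_lit 494) (B (L (nat_lit 458) ln14_15_3 ln14_15_3_ok) (L (nat_lit 522) ln14_15_1 ln14_15_1_ok))) (B (M (nat_lit 427) (B (L (nat_lit 428) ln11_16_6 ln11_16_6_ok) (M (nat_lit 522) (B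 (L (nat_lit 554) ln11_13_5 ln11_13_5_ok) (L (nat_lit 494) ln14_15_1 ln14_15_1_ok))))) (B (M (nat_lit 427) (B (L (nat_lit 428) ln11_16_6 ln11_16_6_ok) (M (nat_lit 555) (B (M (nat_lit 426) (B (L (nat_lit 394) ln11_16_7 ln11_16_7_ok) (L (nat_lit 458) ln11_17_7 ln11_17_7_ok))) (M (nat_lit 554) (B (L (nat_lit 522) ln11_13_5 ln11_13_5_ok) (L (nat_lit 586) ln11_14_5 ln11_14_5_ok))))))) (M (nat_lit 426) (B (M (nat_lit 427) (B (L (nat_lit 394) ln11_16_7 ln11_16_7_ok) (L (nat_lit 428) ln11_16_6 ln11_16_6_ok))) (M (nat_lit 458) (B (L (nat_lit 555) ln11_17_7 ln11_17_7_ok) (L (nat_lit 494) ln14_15_3 ln14_15_3_ok))))))))))))))) (nat_lit 44753387217330064630472912733859411441668478964418391758232901090994868865593032019963231227810838316818638633227285929953732203851398678289506631680) (nat_lit 18687756777394905882348276341934320243285512769068279469033473692480947228188910343427443082013603293201491368042085178428329046285513576674173867896981647203908104942294369655116965565361209475072)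 (nat_lit 18687756777394905882348276341934320243285512769068279469033473692480947228188910343427443082013603293201491368042085178428329046285513576674173867896981647203908104942294369655116965565361209475072) (by decide +kernel)
noncomputable def c11_n6503 : Cert := (M (nat_lit 494) (B (M (nat_lit 526) (B (L (nat_lit 527) ln11_15_0 ln11_15_0_ok) (M (nat_lit 490) (B (L (nat_lit 457) ln13_15_3 ln13_15_3_ok) (L (nat_lit 525) ln10_15_0 ln10_15_0_ok))))) (B (M (nat_lit 495) (B (M (nat_lit 527) (B (L (nat_lit 526) ln11_15_0 ln11_15_0_ok) (L (nat_lit 528) ln12_15_0 ln12_15_0_ok))) (M (nat_lit 496) (B (M (nat_lit 464) (B (L (nat_lit 463) ln12_15_2 ln12_15_2_ok) (L (nat_lit 465) ln13_15_2 ln13_15_2_ok))) (M (nat_lit 524) (B (L (nat_lit 523) ln15_15_1 ln15_15_1_ok) (L (nat_lit 525) ln16_15_1 ln16_15_1_ok))))))) (B (M (nat_lit 495) (B (M (nat_lit 527) (B (L (nat_lit 526) ln11_15_0 ln11_15_0_ok) (L (nat_lit 528)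 ln12_15_0 ln12_15_0_ok))) (B (M (nat_lit 463) (B (L (nat_lit 464) ln12_15_2 ln12_15_2_ok) (M (nat_lit 399) (B (L (nat_lit 398) ln15_15_7 ln15_15_7_ok) (M (nat_lit 528) (B (L (nat_lit 496) ln15_12_4 ln15_12_4_ok) (L (nat_lit 527) ln12_15_0 ln12_15_0_ok))))))) (M (nat_lit 463) (B (L (nat_lit 464) ln12_15_2 ln12_15_2_ok) (M (nat_lit 399) (B (L (nat_lit 398) ln15_15_7 ln15_15_7_ok) (L (nat_lit 526) ln15_12_5 ln15_12_5_ok)))))))) (B (M (nat_lit 399) (B (M (nat_lit 398) (B (L (nat_lit 432) ln12_12_0 ln12_12_0_ok) (M (nat_lit 400) (B (L (nat_lit 401) ln17_12_3 ln17_12_3_ok) (L (nat_lit 428) ln16_12_1 ln16_12_1_ok))))) (B (M (nat_lit 496) (B (M (nat_lit 464) (B (L (nat_lit 463) ln15_11_4 ln15_11_4_ok) (M (nat_lit 432) (B (L (nat_lit 335) ln15_10_4 ln15_10_4_ok) (L (nat_lit 400) ln16_15_7 ln16_15_7_ok))))) (B (M (nat_lit 464) (B (L (nat_lit 463) ln15_11_4 ln15_11_4_ok) (M (nat_lit 432) (B (L (nat_lit 400)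 ln16_15_7 ln16_15_7_ok) (L (nat_lit 528) ln16_16_7 ln16_16_7_ok))))) (B (M (nat_lit 464) (B (L (nat_lit 463) ln15_11_4 ln15_11_4_ok) (M (nat_lit 432) (B (L (nat_lit 335) ln15_10_4 ln15_10_4_ok) (L (nat_lit 528) ln16_16_7 ln16_16_7_ok))))) (B (M (nat_lit 495) (B (M (nat_lit 463) (B (L (nat_lit 464) ln15_11_4 ln15_11_4_ok) (L (nat_lit 528) ln15_12_4 ln15_12_4_ok))) (M (nat_lit 524) (B (L (nat_lit 523) ln15_15_1 ln15_15_1_ok) (L (nat_lit 525) ln16_15_1 ln16_15_1_ok))))) (M (nat_lit 495) (B (M (nat_lit 524) (B (L (nat_lit 523) ln15_15_1 ln15_15_1_ok) (L (nat_lit 525) ln16_15_1 ln16_15_1_ok))) (M (nat_lit 528) (B (L (nat_lit 527) ln12_15_0 ln12_15_0_ok) (L (nat_lit 529) ln13_15_0 ln13_15_0_ok)))))))))) (B (M (nat_lit 464) (B (M (nat_lit 432) (B (L (nat_lit 335) ln15_10_4 ln15_10_4_ok) (L (nat_lit 398) ln12_12_0 ln12_12_0_ok))) (M (nat_lit 463) (B (L (nat_lit 496) ln15_11_4 ln15_11_4_ok) (L (nat_lit 495)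 ln12_15_2 ln12_15_2_ok))))) (M (nat_lit 495) (B (M (nat_lit 463) (B (L (nat_lit 398) ln15_15_7 ln15_15_7_ok) (L (nat_lit 464) ln12_15_2 ln12_15_2_ok))) (B (M (nat_lit 463) (B (L (nat_lit 464) ln12_15_2 ln12_15_2_ok) (M (nat_lit 528) (B (L (nat_lit 496) ln15_12_4 ln15_12_4_ok) (L (nat_lit 527) ln12_15_0 ln12_15_0_ok))))) (M (nat_lit 496) (B (M (nat_lit 524) (B (L (nat_lit 523) ln15_15_1 ln15_15_1_ok) (L (nat_lit 525) ln16_15_1 ln16_15_1_ok))) (M (nat_lit 528) (B (L (nat_lit 527) ln12_15_0 ln12_15_0_ok) (L (nat_lit 529) ln13_15_0 ln13_15_0_ok)))))))))))) (M (nat_lit 495) (B (M (nat_lit 463) (B (L (nat_lit 464) ln12_15_2 ln12_15_2_ok) (M (nat_lit 399) (B (L (nat_lit 398) ln15_15_7 ln15_15_7_ok) (L (nat_lit 526) ln15_12_5 ln15_12_5_ok))))) (B (M (nat_lit 496) (B (M (nat_lit 464) (B (L (nat_lit 463) ln12_15_2 ln12_15_2_ok) (L (nat_lit 465) ln13_15_2 ln13_15_2_ok))) (M (nat_lit 524) (B (L (nat_lit 523)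 ln15_15_1 ln15_15_1_ok) (L (nat_lit 525) ln16_15_1 ln16_15_1_ok))))) (M (nat_lit 525) (B (M (nat_lit 490) (B (L (nat_lit 457) ln13_15_3 ln13_15_3_ok) (L (nat_lit 526) ln10_15_0 ln10_15_0_ok))) (M (nat_lit 524) (B (L (nat_lit 523) ln15_15_1 ln15_15_1_ok) (L (nat_lit 496) ln16_15_1 ln16_15_1_ok)))))))))))))
noncomputable def c11_n6598 : Cert := (M (nat_lit 494) (B (M (nat_lit 526) (B (L (nat_lit 527) ln11_15_0 ln11_15_0_ok) (M (nat_lit 490) (B (L (nat_lit 457) ln13_15_3 ln13_15_3_ok) (L (nat_lit 525) ln10_15_0 ln10_15_0_ok))))) (B (M (nat_lit 526) (B (L (nat_lit 527) ln11_15_0 ln11_15_0_ok) (M (nat_lit 495) (B (M (nat_lit 524) (B (L (nat_lit 523) ln15_15_1 ln15_15_1_ok) (M (nat_lit 525) (B (L (nat_lit 490) ln10_15_0 ln10_15_0_ok) (L (nat_lit 496) ln16_15_1 ln16_15_1_ok))))) (M (nat_lit 399) (B (L (nat_lit 463) ln15_12_5 ln15_12_5_ok) (M (nat_lit 432) (B (L (nat_lit 398) ln12_12_0 ln12_12_0_ok) (L (nat_lit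 430) ln16_13_3 ln16_13_3_ok))))))))) (B (M (nat_lit 495) (B (M (nat_lit 527) (B (L (nat_lit 526) ln11_15_0 ln11_15_0_ok) (L (nat_lit 528) ln12_15_0 ln12_15_0_ok))) (B (M (nat_lit 528) (B (L (nat_lit 527) ln12_15_0 ln12_15_0_ok) (M (nat_lit 496) (B (L (nat_lit 529) ln13_15_0 ln13_15_0_ok) (M (nat_lit 524) (B (L (nat_lit 523) ln15_15_1 ln15_15_1_ok) (L (nat_lit 525) ln16_15_1 ln16_15_1_ok))))))) (B (M (nat_lit 399) (B (M (nat_lit 398) (B (L (nat_lit 463) ln15_15_7 ln15_15_7_ok) (L (nat_lit 432) ln12_12_0 ln12_12_0_ok))) (B (M (nat_lit 496) (B (M (nat_lit 463) (B (L (nat_lit 526) ln15_12_5 ln15_12_5_ok) (L (nat_lit 528) ln15_12_4 ln15_12_4_ok))) (M (nat_lit 524) (B (L (nat_lit 523) ln15_15_1 ln15_15_1_ok) (L (nat_lit 525) ln16_15_1 ln16_15_1_ok))))) (M (nat_lit 432) (B (L (nat_lit 398) ln12_12_0 ln12_12_0_ok) (L (nat_lit 430) ln16_13_3 ln16_13_3_ok)))))) (M (nat_lit 399) (B (M (nat_lit 398) (B (L (nat_lit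 463) ln15_15_7 ln15_15_7_ok) (L (nat_lit 432) ln12_12_0 ln12_12_0_ok))) (B (M (nat_lit 526) (B (L (nat_lit 463) ln15_12_5 ln15_12_5_ok) (L (nat_lit 527) ln11_15_0 ln11_15_0_ok))) (M (nat_lit 432) (B (L (nat_lit 398) ln12_12_0 ln12_12_0_ok) (L (nat_lit 430) ln16_13_3 ln16_13_3_ok)))))))))) (B (M (nat_lit 527) (B (L (nat_lit 526) ln11_15_0 ln11_15_0_ok) (M (nat_lit 495) (B (L (nat_lit 528) ln12_15_0 ln12_15_0_ok) (M (nat_lit 398) (B (M (nat_lit 399) (B (L (nat_lit 463) ln15_15_7 ln15_15_7_ok) (L (nat_lit 432) ln12_12_0 ln12_12_0_ok))) (B (M (nat_lit 430) (B (L (nat_lit 432) ln16_13_3 ln16_13_3_ok) (L (nat_lit 463) ln15_16_7 ln15_16_7_ok))) (B (M (nat_lit 463) (B (L (nat_lit 399) ln15_15_7 ln15_15_7_ok) (L (nat_lit 430) ln15_16_7 ln15_16_7_ok))) (M (nat_lit 432) (B (L (nat_lit 399) ln12_12_0 ln12_12_0_ok) (L (nat_lit 430) ln16_13_3 ln16_13_3_ok))))))))))) (B (M (nat_lit 495) (B (M (nat_lit 524) (B (L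 (nat_lit 523) ln15_15_1 ln15_15_1_ok) (M (nat_lit 490) (B (L (nat_lit 457) ln13_15_3 ln13_15_3_ok) (M (nat_lit 525) (B (L (nat_lit 489) ln9_15_0 ln9_15_0_ok) (L (nat_lit 496) ln16_15_1 ln16_15_1_ok))))))) (B (M (nat_lit 528) (B (L (nat_lit 527) ln12_15_0 ln12_15_0_ok) (M (nat_lit 496) (B (L (nat_lit 529) ln13_15_0 ln13_15_0_ok) (M (nat_lit 524) (B (L (nat_lit 523) ln15_15_1 ln15_15_1_ok) (L (nat_lit 525) ln16_15_1 ln16_15_1_ok))))))) (M (nat_lit 398) (B (M (nat_lit 399) (B (L (nat_lit 463) ln15_15_7 ln15_15_7_ok) (L (nat_lit 432) ln12_12_0 ln12_12_0_ok))) (B (M (nat_lit 430) (B (L (nat_lit 432) ln16_13_3 ln16_13_3_ok) (M (nat_lit 527) (B (L (nat_lit 463) ln15_16_7 ln15_16_7_ok) (L (nat_lit 528) ln12_15_0 ln12_15_0_ok))))) (B (M (nat_lit 399) (B (L (nat_lit 463) ln15_15_7 ln15_15_7_ok) (M (nat_lit 400) (B (L (nat_lit 401) ln17_12_3 ln17_12_3_ok) (L (nat_lit 428) ln16_12_1 ln16_12_1_ok))))) (M (nat_lit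 432) (B (L (nat_lit 399) ln12_12_0 ln12_12_0_ok) (L (nat_lit 430) ln16_13_3 ln16_13_3_ok)))))))))) (M (nat_lit 490) (B (L (nat_lit 457) ln13_15_3 ln13_15_3_ok) (M (nat_lit 525) (B (L (nat_lit 526) ln10_15_0 ln10_15_0_ok) (M (nat_lit 524) (B (L (nat_lit 489) ln9_15_0 ln9_15_0_ok) (M (nat_lit 495) (B (L (nat_lit 523) ln15_15_1 ln15_15_1_ok) (L (nat_lit 496) ln16_15_1 ln16_15_1_ok)))))))))))))))
theorem c11_s6610 : Sem (nat_lit 44753387218074347484151614189781919020945795607596520511576714784723114829554006650991350701296857952749532524361506752078548770055338110357208039424) (nat_lit 3487317211709171838889822987704759426666781491372098516718445864706879845851312118755313407736621005469927655867994573759969777552259231875695918720466869551104) (nat_lit 3487317211709171838889822987704759426666781491372098516718445864706879845851312118755313407736621005469927655867994573759969777552259231875695918720466869551104)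 :=
  sem_of_chk (M (nat_lit 431) (B (M (nat_lit 432) (B (L (nat_lit 430) ln16_13_3 ln16_13_3_ok) (M (nat_lit 399) (B (L (nat_lit 398) ln12_12_0 ln12_12_0_ok) (M (nat_lit 464) (B (L (nat_lit 335) ln15_10_4 ln15_10_4_ok) (M (nat_lit 496) (B (L (nat_lit 400) ln16_15_7 ln16_15_7_ok) (L (nat_lit 463) ln15_11_4 ln15_11_4_ok))))))))) (B (M (nat_lit 399) (B (M (nat_lit 432) (B (L (nat_lit 398) ln12_12_0 ln12_12_0_ok) (L (nat_lit 430) ln16_13_3 ln16_13_3_ok))) (B (M (nat_lit 463) (B (M (nat_lit 464) (B (L (nat_lit 496) ln15_11_4 ln15_11_4_ok) (M (nat_lit 430) (B (L (nat_lit 432) ln16_13_3 ln16_13_3_ok) (L (nat_lit 428) ln12_13_0 ln12_13_0_ok))))) (M (nat_lit 526) (B (M (nat_lit 490) (B (L (nat_lit 457) ln13_15_3 ln13_15_3_ok) (L (nat_lit 525) ln10_15_0 ln10_15_0_ok))) (M (nat_lit 494) (B (L (nat_lit 495) ln15_12_5 ln15_12_5_ok) (L (nat_lit 527) ln11_15_0 ln11_15_0_ok))))))) (B (M (nat_lit 398) (B (L (nat_lit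 432) ln12_12_0 ln12_12_0_ok) (M (nat_lit 400) (B (L (nat_lit 401) ln17_12_3 ln17_12_3_ok) (L (nat_lit 428) ln16_12_1 ln16_12_1_ok))))) (M (nat_lit 463) (B (M (nat_lit 398) (B (L (nat_lit 495) ln15_15_7 ln15_15_7_ok) (M (nat_lit 400) (B (L (nat_lit 401) ln17_12_3 ln17_12_3_ok) (L (nat_lit 428) ln16_12_1 ln16_12_1_ok))))) (B (M (nat_lit 526) (B (M (nat_lit 490) (B (L (nat_lit 457) ln13_15_3 ln13_15_3_ok) (L (nat_lit 525) ln10_15_0 ln10_15_0_ok))) (M (nat_lit 494) (B (L (nat_lit 495) ln15_12_5 ln15_12_5_ok) (L (nat_lit 527) ln11_15_0 ln11_15_0_ok))))) (M (nat_lit 428) (B (M (nat_lit 398) (B (L (nat_lit 427) ln15_12_1 ln15_12_1_ok) (L (nat_lit 400) ln16_12_1 ln16_12_1_ok))) (B (M (nat_lit 430) (B (L (nat_lit 400) ln12_13_2 ln12_13_2_ok) (L (nat_lit 464) ln12_13_0 ln12_13_0_ok))) (M (nat_lit 464) (B (L (nat_lit 496) ln15_11_4 ln15_11_4_ok) (L (nat_lit 430) ln12_13_0 ln12_13_0_ok))))))))))))) (B (M (nat_lit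 494) (B (M (nat_lit 526) (B (L (nat_lit 527) ln11_15_0 ln11_15_0_ok) (M (nat_lit 490) (B (L (nat_lit 457) ln13_15_3 ln13_15_3_ok) (L (nat_lit 525) ln10_15_0 ln10_15_0_ok))))) (B (M (nat_lit 495) (B (M (nat_lit 527) (B (L (nat_lit 526) ln11_15_0 ln11_15_0_ok) (L (nat_lit 528) ln12_15_0 ln12_15_0_ok))) (M (nat_lit 496) (B (M (nat_lit 464) (B (L (nat_lit 463) ln12_15_2 ln12_15_2_ok) (L (nat_lit 465) ln13_15_2 ln13_15_2_ok))) (M (nat_lit 524) (B (L (nat_lit 523) ln15_15_1 ln15_15_1_ok) (L (nat_lit 525) ln16_15_1 ln16_15_1_ok))))))) (B (M (nat_lit 432) (B (L (nat_lit 430) ln16_13_3 ln16_13_3_ok) (M (nat_lit 527) (B (L (nat_lit 526) ln11_15_0 ln11_15_0_ok) (M (nat_lit 495) (B (L (nat_lit 528) ln12_15_0 ln12_15_0_ok) (M (nat_lit 463) (B (L (nat_lit 400) ln15_16_6 ln15_16_6_ok) (L (nat_lit 464) ln12_15_2 ln12_15_2_ok))))))))) (B (M (nat_lit 432) (B (L (nat_lit 430) ln16_13_3 ln16_13_3_ok) (M (nat_lit 495)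 (B (M (nat_lit 463) (B (L (nat_lit 464) ln12_15_2 ln12_15_2_ok) (M (nat_lit 527) (B (L (nat_lit 400) ln15_16_6 ln15_16_6_ok) (L (nat_lit 528) ln12_15_0 ln12_15_0_ok))))) (B (M (nat_lit 496) (B (M (nat_lit 464) (B (L (nat_lit 463) ln12_15_2 ln12_15_2_ok) (L (nat_lit 465) ln13_15_2 ln13_15_2_ok))) (M (nat_lit 528) (B (L (nat_lit 527) ln12_15_0 ln12_15_0_ok) (L (nat_lit 529) ln13_15_0 ln13_15_0_ok))))) (B (M (nat_lit 496) (B (M (nat_lit 524) (B (L (nat_lit 523) ln15_15_1 ln15_15_1_ok) (L (nat_lit 525) ln16_15_1 ln16_15_1_ok))) (M (nat_lit 528) (B (L (nat_lit 527) ln12_15_0 ln12_15_0_ok) (L (nat_lit 529) ln13_15_0 ln13_15_0_ok))))) (M (nat_lit 496) (B (M (nat_lit 464) (B (L (nat_lit 463) ln12_15_2 ln12_15_2_ok) (L (nat_lit 465) ln13_15_2 ln13_15_2_ok))) (M (nat_lit 524) (B (L (nat_lit 523) ln15_15_1 ln15_15_1_ok) (L (nat_lit 525) ln16_15_1 ln16_15_1_ok))))))))))) (M (nat_lit 464) (B (M (nat_lit 430)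 (B (L (nat_lit 432) ln16_13_3 ln16_13_3_ok) (M (nat_lit 463) (B (L (nat_lit 428) ln12_13_0 ln12_13_0_ok) (L (nat_lit 495) ln12_15_2 ln12_15_2_ok))))) (B (M (nat_lit 399) (B (M (nat_lit 432) (B (L (nat_lit 335) ln15_10_4 ln15_10_4_ok) (L (nat_lit 430) ln16_13_3 ln16_13_3_ok))) (M (nat_lit 463) (B (L (nat_lit 496) ln15_11_4 ln15_11_4_ok) (L (nat_lit 495) ln12_15_2 ln12_15_2_ok))))) (B (M (nat_lit 495) (B (L (nat_lit 463) ln12_15_2 ln12_15_2_ok) (M (nat_lit 496) (B (L (nat_lit 465) ln13_15_2 ln13_15_2_ok) (M (nat_lit 524) (B (L (nat_lit 523) ln15_15_1 ln15_15_1_ok) (L (nat_lit 525) ln16_15_1 ln16_15_1_ok))))))) (M (nat_lit 432) (B (L (nat_lit 430) ln16_13_3 ln16_13_3_ok) (M (nat_lit 399) (B (L (nat_lit 335) ln15_10_4 ln15_10_4_ok) (M (nat_lit 496) (B (L (nat_lit 400) ln16_15_7 ln16_15_7_ok) (L (nat_lit 528) ln16_16_7 ln16_16_7_ok)))))))))))))))) (B (M (nat_lit 494) (B (M (nat_lit 526) (B (L (nat_lit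 527) ln11_15_0 ln11_15_0_ok) (M (nat_lit 490) (B (L (nat_lit 457) ln13_15_3 ln13_15_3_ok) (L (nat_lit 525) ln10_15_0 ln10_15_0_ok))))) (B (M (nat_lit 495) (B (M (nat_lit 527) (B (L (nat_lit 526) ln11_15_0 ln11_15_0_ok) (L (nat_lit 528) ln12_15_0 ln12_15_0_ok))) (M (nat_lit 496) (B (M (nat_lit 464) (B (L (nat_lit 463) ln12_15_2 ln12_15_2_ok) (L (nat_lit 465) ln13_15_2 ln13_15_2_ok))) (M (nat_lit 524) (B (L (nat_lit 523) ln15_15_1 ln15_15_1_ok) (L (nat_lit 525) ln16_15_1 ln16_15_1_ok))))))) (B (M (nat_lit 432) (B (L (nat_lit 430) ln16_13_3 ln16_13_3_ok) (M (nat_lit 527) (B (L (nat_lit 526) ln11_15_0 ln11_15_0_ok) (M (nat_lit 495) (B (L (nat_lit 528) ln12_15_0 ln12_15_0_ok) (M (nat_lit 463) (B (L (nat_lit 400) ln15_16_6 ln15_16_6_ok) (L (nat_lit 464) ln12_15_2 ln12_15_2_ok))))))))) (B (M (nat_lit 495) (B (M (nat_lit 524) (B (L (nat_lit 523) ln15_15_1 ln15_15_1_ok) (M (nat_lit 490) (B (L (nat_lit 457)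 ln13_15_3 ln13_15_3_ok) (M (nat_lit 525) (B (L (nat_lit 489) ln9_15_0 ln9_15_0_ok) (L (nat_lit 496) ln16_15_1 ln16_15_1_ok))))))) (B (M (nat_lit 496) (B (M (nat_lit 464) (B (L (nat_lit 463) ln12_15_2 ln12_15_2_ok) (L (nat_lit 465) ln13_15_2 ln13_15_2_ok))) (M (nat_lit 524) (B (L (nat_lit 523) ln15_15_1 ln15_15_1_ok) (L (nat_lit 525) ln16_15_1 ln16_15_1_ok))))) (M (nat_lit 432) (B (L (nat_lit 430) ln16_13_3 ln16_13_3_ok) (M (nat_lit 463) (B (L (nat_lit 464) ln12_15_2 ln12_15_2_ok) (M (nat_lit 527) (B (L (nat_lit 400) ln15_16_6 ln15_16_6_ok) (L (nat_lit 528) ln12_15_0 ln12_15_0_ok)))))))))) (M (nat_lit 490) (B (L (nat_lit 457) ln13_15_3 ln13_15_3_ok) (M (nat_lit 525) (B (L (nat_lit 526) ln10_15_0 ln10_15_0_ok) (M (nat_lit 524) (B (L (nat_lit 489) ln9_15_0 ln9_15_0_ok) (M (nat_lit 495) (B (L (nat_lit 523) ln15_15_1 ln15_15_1_ok) (L (nat_lit 496) ln16_15_1 ln16_15_1_ok)))))))))))))) (B (M (nat_lit 432)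 (B (L (nat_lit 430) ln16_13_3 ln16_13_3_ok) (M (nat_lit 399) (B (L (nat_lit 398) ln12_12_0 ln12_12_0_ok) (M (nat_lit 464) (B (L (nat_lit 335) ln15_10_4 ln15_10_4_ok) (M (nat_lit 496) (B (L (nat_lit 463) ln15_11_4 ln15_11_4_ok) (L (nat_lit 528) ln16_16_7 ln16_16_7_ok))))))))) (B c11_n6503 (B (M (nat_lit 494) (B (M (nat_lit 526) (B (L (nat_lit 527) ln11_15_0 ln11_15_0_ok) (M (nat_lit 490) (B (L (nat_lit 457) ln13_15_3 ln13_15_3_ok) (L (nat_lit 525) ln10_15_0 ln10_15_0_ok))))) (B (M (nat_lit 495) (B (M (nat_lit 527) (B (L (nat_lit 526) ln11_15_0 ln11_15_0_ok) (L (nat_lit 528) ln12_15_0 ln12_15_0_ok))) (B (M (nat_lit 496) (B (M (nat_lit 464) (B (L (nat_lit 463) ln12_15_2 ln12_15_2_ok) (L (nat_lit 465) ln13_15_2 ln13_15_2_ok))) (M (nat_lit 528) (B (L (nat_lit 527) ln12_15_0 ln12_15_0_ok) (L (nat_lit 529) ln13_15_0 ln13_15_0_ok))))) (M (nat_lit 463) (B (L (nat_lit 464) ln12_15_2 ln12_15_2_ok) (M (nat_lit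 399) (B (L (nat_lit 398) ln15_15_7 ln15_15_7_ok) (L (nat_lit 526) ln15_12_5 ln15_12_5_ok)))))))) (B (M (nat_lit 495) (B (M (nat_lit 463) (B (L (nat_lit 464) ln12_15_2 ln12_15_2_ok) (M (nat_lit 398) (B (L (nat_lit 399) ln15_15_7 ln15_15_7_ok) (M (nat_lit 527) (B (L (nat_lit 430) ln15_16_7 ln15_16_7_ok) (L (nat_lit 528) ln12_15_0 ln12_15_0_ok))))))) (M (nat_lit 524) (B (L (nat_lit 523) ln15_15_1 ln15_15_1_ok) (M (nat_lit 490) (B (L (nat_lit 457) ln13_15_3 ln13_15_3_ok) (M (nat_lit 525) (B (L (nat_lit 489) ln9_15_0 ln9_15_0_ok) (L (nat_lit 496) ln16_15_1 ln16_15_1_ok))))))))) (M (nat_lit 495) (B (M (nat_lit 463) (B (L (nat_lit 464) ln12_15_2 ln12_15_2_ok) (M (nat_lit 399) (B (L (nat_lit 398) ln15_15_7 ln15_15_7_ok) (L (nat_lit 526) ln15_12_5 ln15_12_5_ok))))) (B (M (nat_lit 496) (B (M (nat_lit 464) (B (L (nat_lit 463) ln12_15_2 ln12_15_2_ok) (L (nat_lit 465) ln13_15_2 ln13_15_2_ok))) (M (nat_lit 524)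 (B (L (nat_lit 523) ln15_15_1 ln15_15_1_ok) (L (nat_lit 525) ln16_15_1 ln16_15_1_ok))))) (M (nat_lit 525) (B (M (nat_lit 490) (B (L (nat_lit 457) ln13_15_3 ln13_15_3_ok) (L (nat_lit 526) ln10_15_0 ln10_15_0_ok))) (M (nat_lit 524) (B (L (nat_lit 523) ln15_15_1 ln15_15_1_ok) (L (nat_lit 496) ln16_15_1 ln16_15_1_ok)))))))))))) (B (M (nat_lit 432) (B (L (nat_lit 430) ln16_13_3 ln16_13_3_ok) (M (nat_lit 399) (B (L (nat_lit 398) ln12_12_0 ln12_12_0_ok) (M (nat_lit 464) (B (L (nat_lit 335) ln15_10_4 ln15_10_4_ok) (M (nat_lit 496) (B (L (nat_lit 400) ln16_15_7 ln16_15_7_ok) (L (nat_lit 528) ln16_16_7 ln16_16_7_ok))))))))) (B c11_n6598 (M (nat_lit 432) (B (L (nat_lit 430) ln16_13_3 ln16_13_3_ok) (M (nat_lit 399) (B (L (nat_lit 398) ln12_12_0 ln12_12_0_ok) (M (nat_lit 335) (B (L (nat_lit 464) ln15_10_4 ln15_10_4_ok) (M (nat_lit 303) (B (L (nat_lit 400) ln15_9_4 ln15_9_4_ok) (M (nat_lit 304) (B (L (nat_lit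 272) ln15_12_6 ln15_12_6_ok) (L (nat_lit 336) ln15_13_6 ln15_13_6_ok))))))))))))))))))))) (nat_lit 44753387218074347484151614189781919020945795607596520511576714784723114829554006650991350701296857952749532524361506752078548770055338110357208039424) (nat_lit 3487317211709171838889822987704759426666781491372098516718445864706879845851312118755313407736621005469927655867994573759969777552259231875695918720466869551104) (nat_lit 3487317211709171838889822987704759426666781491372098516718445864706879845851312118755313407736621005469927655867994573759969777552259231875695918720466869551104) (by decide +kernel)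
noncomputable def c11_n6687 : Cert := (M (nat_lit 523) (B (M (nat_lit 522) (B (L (nat_lit 494) ln14_15_1 ln14_15_1_ok) (M (nat_lit 521) (B (L (nat_lit 490) ln13_15_1 ln13_15_1_ok) (L (nat_lit 520) ln8_16_2 ln8_16_2_ok))))) (B (M (nat_lit 522) (B (L (nat_lit 494) ln14_15_1 ln14_15_1_ok) (M (nat_lit 521) (B (L (nat_lit 520) ln8_16_2 ln8_16_2_ok) (L (nat_lit 524) ln9_16_2 ln9_16_2_ok))))) (B (M (nat_lit 459) (B (M (nat_lit 427) (B (L (nat_lit 428) ln11_16_6 ln11_16_6_ok) (M (nat_lit 522) (B (L (nat_lit 554) ln11_13_5 ln11_13_5_ok) (M (nat_lit 521) (B (L (nat_lit 490) ln13_15_1 ln13_15_1_ok) (L (nat_lit 520) ln8_16_2 ln8_16_2_ok))))))) (B (M (nat_lit 555) (B (M (nat_lit 458) (B (L (nat_lit 426) ln11_17_7 ln11_17_7_ok) (M (nat_lit 457) (B (L (nat_lit 456) ln8_14_0 ln8_14_0_ok) (L (nat_lit 490) ln13_15_3 ln13_15_3_ok))))) (M (nat_lit 587) (B (M (nat_lit 586) (B (L (nat_lit 554) ln11_14_5 ln11_14_5_ok)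 (L (nat_lit 618) ln11_15_5 ln11_15_5_ok))) (M (nat_lit 588) (B (L (nat_lit 556) ln11_14_4 ln11_14_4_ok) (L (nat_lit 620) ln11_15_4 ln11_15_4_ok))))))) (B (M (nat_lit 522) (B (M (nat_lit 427) (B (L (nat_lit 428) ln11_16_6 ln11_16_6_ok) (L (nat_lit 554) ln11_13_5 ln11_13_5_ok))) (M (nat_lit 521) (B (L (nat_lit 520) ln8_16_2 ln8_16_2_ok) (L (nat_lit 524) ln9_16_2 ln9_16_2_ok))))) (M (nat_lit 427) (B (L (nat_lit 428) ln11_16_6 ln11_16_6_ok) (M (nat_lit 458) (B (M (nat_lit 426) (B (L (nat_lit 394) ln11_16_7 ln11_16_7_ok) (L (nat_lit 555) ln11_17_7 ln11_17_7_ok))) (M (nat_lit 457) (B (L (nat_lit 456) ln8_14_0 ln8_14_0_ok) (L (nat_lit 490) ln13_15_3 ln13_15_3_ok))))))))))) (B (M (nat_lit 522) (B (L (nat_lit 494) ln14_15_1 ln14_15_1_ok) (M (nat_lit 521) (B (L (nat_lit 490) ln13_15_1 ln13_15_1_ok) (L (nat_lit 524) ln9_16_2 ln9_16_2_ok))))) (B (M (nat_lit 494) (B (L (nat_lit 522) ln14_15_1 ln14_15_1_ok) (M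 (nat_lit 524) (B (L (nat_lit 495) ln15_15_1 ln15_15_1_ok) (M (nat_lit 459) (B (L (nat_lit 458) ln14_15_3 ln14_15_3_ok) (M (nat_lit 427) (B (L (nat_lit 428) ln11_16_6 ln11_16_6_ok) (L (nat_lit 556) ln11_13_4 ln11_13_4_ok))))))))) (M (nat_lit 459) (B (M (nat_lit 458) (B (L (nat_lit 494) ln14_15_3 ln14_15_3_ok) (M (nat_lit 457) (B (L (nat_lit 456) ln8_14_0 ln8_14_0_ok) (L (nat_lit 490) ln13_15_3 ln13_15_3_ok))))) (B (M (nat_lit 555) (B (M (nat_lit 556) (B (L (nat_lit 588) ln11_14_4 ln11_14_4_ok) (M (nat_lit 427) (B (L (nat_lit 428) ln11_16_6 ln11_16_6_ok) (L (nat_lit 524) ln11_13_4 ln11_13_4_ok))))) (M (nat_lit 458) (B (L (nat_lit 494) ln14_15_3 ln14_15_3_ok) (M (nat_lit 490) (B (L (nat_lit 457) ln13_15_3 ln13_15_3_ok) (L (nat_lit 587) ln11_18_7 ln11_18_7_ok))))))) (B (M (nat_lit 555) (B (M (nat_lit 556) (B (L (nat_lit 588) ln11_14_4 ln11_14_4_ok) (M (nat_lit 427) (B (L (nat_lit 428) ln11_16_6 ln11_16_6_ok)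 (L (nat_lit 524) ln11_13_4 ln11_13_4_ok))))) (M (nat_lit 587) (B (M (nat_lit 458) (B (L (nat_lit 494) ln14_15_3 ln14_15_3_ok) (L (nat_lit 490) ln11_18_7 ln11_18_7_ok))) (M (nat_lit 586) (B (L (nat_lit 554) ln11_14_5 ln11_14_5_ok) (L (nat_lit 618) ln11_15_5 ln11_15_5_ok))))))) (M (nat_lit 555) (B (M (nat_lit 556) (B (L (nat_lit 588) ln11_14_4 ln11_14_4_ok) (M (nat_lit 427) (B (L (nat_lit 428) ln11_16_6 ln11_16_6_ok) (L (nat_lit 524) ln11_13_4 ln11_13_4_ok))))) (B (M (nat_lit 587) (B (M (nat_lit 586) (B (L (nat_lit 554) ln11_14_5 ln11_14_5_ok) (L (nat_lit 618) ln11_15_5 ln11_15_5_ok))) (M (nat_lit 588) (B (L (nat_lit 556) ln11_14_4 ln11_14_4_ok) (L (nat_lit 620) ln11_15_4 ln11_15_4_ok))))) (B (M (nat_lit 587) (B (M (nat_lit 586) (B (L (nat_lit 554) ln11_14_5 ln11_14_5_ok) (L (nat_lit 618) ln11_15_5 ln11_15_5_ok))) (M (nat_lit 619) (B (L (nat_lit 524) ln11_19_6 ln11_19_6_ok) (M (nat_lit 620) (B (L (nat_lit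 588) ln11_15_4 ln11_15_4_ok) (L (nat_lit 652) ln11_16_4 ln11_16_4_ok))))))) (M (nat_lit 587) (B (M (nat_lit 586) (B (L (nat_lit 554) ln11_14_5 ln11_14_5_ok) (L (nat_lit 618) ln11_15_5 ln11_15_5_ok))) (M (nat_lit 427) (B (L (nat_lit 428) ln11_16_6 ln11_16_6_ok) (M (nat_lit 524) (B (L (nat_lit 556) ln11_13_4 ln11_13_4_ok) (L (nat_lit 619) ln11_19_6 ln11_19_6_ok)))))))))))))))))))))
theorem c11_s6688 : Sem (nat_lit 38360046186282912540603401607243006847495349968240530841273347637682107544490152029956844328736806759883313078290645166263854749660216269982224351232) (nat_lit 21023726374161355139063558878694721328025185421168911763181184008574092778391737375730589535941568574102269200178475277138235381453428550920447546201916723932249987309412848809041369622711055155200) (nat_lit 21023726374161355139063558878694721328025185421168911763181184008574092778391737375730589535941568574102269200178475277138235381453428550920447546201916723932249987309412848809041369622711055155200)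 :=
  sem_of_chk (M (nat_lit 491) (B (M (nat_lit 490) (B (M (nat_lit 522) (B (L (nat_lit 521) ln13_15_1 ln13_15_1_ok) (M (nat_lit 494) (B (L (nat_lit 523) ln14_15_1 ln14_15_1_ok) (M (nat_lit 458) (B (L (nat_lit 457) ln13_15_3 ln13_15_3_ok) (L (nat_lit 459) ln14_15_3 ln14_15_3_ok))))))) (B (M (nat_lit 494) (B (M (nat_lit 522) (B (L (nat_lit 521) ln13_15_1 ln13_15_1_ok) (L (nat_lit 523) ln14_15_1 ln14_15_1_ok))) (M (nat_lit 526) (B (L (nat_lit 525) ln10_15_0 ln10_15_0_ok) (L (nat_lit 527) ln11_15_0 ln11_15_0_ok))))) (M (nat_lit 489) (B (M (nat_lit 457) (B (L (nat_lit 456) ln12_15_3 ln12_15_3_ok) (L (nat_lit 458) ln13_15_3 ln13_15_3_ok))) (M (nat_lit 525) (B (L (nat_lit 524) ln9_15_0 ln9_15_0_ok) (L (nat_lit 526) ln10_15_0 ln10_15_0_ok)))))))) (B (M (nat_lit 494) (B (M (nat_lit 490) (B (M (nat_lit 458) (B (L (nat_lit 457) ln13_15_3 ln13_15_3_ok) (L (nat_lit 459) ln14_15_3 ln14_15_3_ok))) (M (nat_lit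 526) (B (L (nat_lit 525) ln10_15_0 ln10_15_0_ok) (L (nat_lit 527) ln11_15_0 ln11_15_0_ok))))) (B (M (nat_lit 490) (B (M (nat_lit 522) (B (L (nat_lit 521) ln13_15_1 ln13_15_1_ok) (L (nat_lit 523) ln14_15_1 ln14_15_1_ok))) (M (nat_lit 526) (B (L (nat_lit 525) ln10_15_0 ln10_15_0_ok) (L (nat_lit 527) ln11_15_0 ln11_15_0_ok))))) (B (M (nat_lit 495) (B (M (nat_lit 523) (B (L (nat_lit 522) ln14_15_1 ln14_15_1_ok) (L (nat_lit 524) ln15_15_1 ln15_15_1_ok))) (M (nat_lit 527) (B (L (nat_lit 526) ln11_15_0 ln11_15_0_ok) (L (nat_lit 528) ln12_15_0 ln12_15_0_ok))))) (M (nat_lit 490) (B (M (nat_lit 458) (B (L (nat_lit 457) ln13_15_3 ln13_15_3_ok) (L (nat_lit 459) ln14_15_3 ln14_15_3_ok))) (M (nat_lit 522) (B (L (nat_lit 521) ln13_15_1 ln13_15_1_ok) (L (nat_lit 523) ln14_15_1 ln14_15_1_ok))))))))) (B (M (nat_lit 494) (B (M (nat_lit 495) (B (M (nat_lit 523) (B (L (nat_lit 522) ln14_15_1 ln14_15_1_ok) (L (nat_lit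 524) ln15_15_1 ln15_15_1_ok))) (M (nat_lit 527) (B (L (nat_lit 526) ln11_15_0 ln11_15_0_ok) (L (nat_lit 528) ln12_15_0 ln12_15_0_ok))))) (B (M (nat_lit 490) (B (M (nat_lit 522) (B (L (nat_lit 521) ln13_15_1 ln13_15_1_ok) (L (nat_lit 523) ln14_15_1 ln14_15_1_ok))) (M (nat_lit 526) (B (L (nat_lit 525) ln10_15_0 ln10_15_0_ok) (L (nat_lit 527) ln11_15_0 ln11_15_0_ok))))) (B (M (nat_lit 495) (B (M (nat_lit 527) (B (L (nat_lit 526) ln11_15_0 ln11_15_0_ok) (L (nat_lit 528) ln12_15_0 ln12_15_0_ok))) (M (nat_lit 496) (B (M (nat_lit 464) (B (L (nat_lit 463) ln12_15_2 ln12_15_2_ok) (L (nat_lit 465) ln13_15_2 ln13_15_2_ok))) (M (nat_lit 524) (B (L (nat_lit 523) ln15_15_1 ln15_15_1_ok) (L (nat_lit 525) ln16_15_1 ln16_15_1_ok))))))) (B (M (nat_lit 495) (B (M (nat_lit 527) (B (L (nat_lit 526) ln11_15_0 ln11_15_0_ok) (L (nat_lit 528) ln12_15_0 ln12_15_0_ok))) (B (M (nat_lit 496) (B (M (nat_lit 464) (B (L (nat_lit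 463) ln12_15_2 ln12_15_2_ok) (L (nat_lit 465) ln13_15_2 ln13_15_2_ok))) (M (nat_lit 528) (B (L (nat_lit 527) ln12_15_0 ln12_15_0_ok) (L (nat_lit 529) ln13_15_0 ln13_15_0_ok))))) (M (nat_lit 496) (B (M (nat_lit 464) (B (L (nat_lit 463) ln12_15_2 ln12_15_2_ok) (L (nat_lit 465) ln13_15_2 ln13_15_2_ok))) (M (nat_lit 525) (B (L (nat_lit 524) ln16_15_1 ln16_15_1_ok) (M (nat_lit 526) (B (L (nat_lit 490) ln10_15_0 ln10_15_0_ok) (L (nat_lit 497) ln17_15_1 ln17_15_1_ok)))))))))) (B (M (nat_lit 495) (B (M (nat_lit 523) (B (L (nat_lit 522) ln14_15_1 ln14_15_1_ok) (L (nat_lit 524) ln15_15_1 ln15_15_1_ok))) (M (nat_lit 496) (B (M (nat_lit 464) (B (L (nat_lit 463) ln12_15_2 ln12_15_2_ok) (L (nat_lit 465) ln13_15_2 ln13_15_2_ok))) (M (nat_lit 528) (B (L (nat_lit 527) ln12_15_0 ln12_15_0_ok) (L (nat_lit 529) ln13_15_0 ln13_15_0_ok))))))) (M (nat_lit 523) (B (L (nat_lit 522) ln14_15_1 ln14_15_1_ok) (M (nat_lit 524)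 (B (L (nat_lit 495) ln15_15_1 ln15_15_1_ok) (M (nat_lit 459) (B (L (nat_lit 458) ln14_15_3 ln14_15_3_ok) (M (nat_lit 427) (B (L (nat_lit 428) ln11_16_6 ln11_16_6_ok) (L (nat_lit 556) ln11_13_4 ln11_13_4_ok))))))))))))))) (B (M (nat_lit 494) (B (M (nat_lit 490) (B (M (nat_lit 522) (B (L (nat_lit 521) ln13_15_1 ln13_15_1_ok) (L (nat_lit 523) ln14_15_1 ln14_15_1_ok))) (M (nat_lit 526) (B (L (nat_lit 525) ln10_15_0 ln10_15_0_ok) (L (nat_lit 527) ln11_15_0 ln11_15_0_ok))))) (B (M (nat_lit 495) (B (M (nat_lit 523) (B (L (nat_lit 522) ln14_15_1 ln14_15_1_ok) (L (nat_lit 524) ln15_15_1 ln15_15_1_ok))) (M (nat_lit 527) (B (L (nat_lit 526) ln11_15_0 ln11_15_0_ok) (L (nat_lit 528) ln12_15_0 ln12_15_0_ok))))) (B (M (nat_lit 495) (B (M (nat_lit 527) (B (L (nat_lit 526) ln11_15_0 ln11_15_0_ok) (L (nat_lit 528) ln12_15_0 ln12_15_0_ok))) (M (nat_lit 496) (B (M (nat_lit 464) (B (L (nat_lit 463) ln12_15_2 ln12_15_2_ok)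 (L (nat_lit 465) ln13_15_2 ln13_15_2_ok))) (M (nat_lit 524) (B (L (nat_lit 523) ln15_15_1 ln15_15_1_ok) (L (nat_lit 525) ln16_15_1 ln16_15_1_ok))))))) (B (M (nat_lit 495) (B (M (nat_lit 527) (B (L (nat_lit 526) ln11_15_0 ln11_15_0_ok) (L (nat_lit 528) ln12_15_0 ln12_15_0_ok))) (B (M (nat_lit 496) (B (M (nat_lit 464) (B (L (nat_lit 463) ln12_15_2 ln12_15_2_ok) (L (nat_lit 465) ln13_15_2 ln13_15_2_ok))) (M (nat_lit 528) (B (L (nat_lit 527) ln12_15_0 ln12_15_0_ok) (L (nat_lit 529) ln13_15_0 ln13_15_0_ok))))) (M (nat_lit 496) (B (M (nat_lit 464) (B (L (nat_lit 463) ln12_15_2 ln12_15_2_ok) (L (nat_lit 465) ln13_15_2 ln13_15_2_ok))) (M (nat_lit 525) (B (L (nat_lit 524) ln16_15_1 ln16_15_1_ok) (M (nat_lit 526) (B (L (nat_lit 490) ln10_15_0 ln10_15_0_ok) (L (nat_lit 497) ln17_15_1 ln17_15_1_ok)))))))))) (B (M (nat_lit 495) (B (M (nat_lit 523) (B (L (nat_lit 522) ln14_15_1 ln14_15_1_ok) (L (nat_lit 524) ln15_15_1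 ln15_15_1_ok))) (M (nat_lit 496) (B (M (nat_lit 464) (B (L (nat_lit 463) ln12_15_2 ln12_15_2_ok) (L (nat_lit 465) ln13_15_2 ln13_15_2_ok))) (M (nat_lit 528) (B (L (nat_lit 527) ln12_15_0 ln12_15_0_ok) (L (nat_lit 529) ln13_15_0 ln13_15_0_ok))))))) (M (nat_lit 490) (B (M (nat_lit 522) (B (L (nat_lit 521) ln13_15_1 ln13_15_1_ok) (L (nat_lit 523) ln14_15_1 ln14_15_1_ok))) (B (M (nat_lit 524) (B (M (nat_lit 525) (B (L (nat_lit 489) ln9_15_0 ln9_15_0_ok) (L (nat_lit 526) ln10_15_0 ln10_15_0_ok))) (M (nat_lit 523) (B (L (nat_lit 522) ln14_15_1 ln14_15_1_ok) (L (nat_lit 495) ln15_15_1 ln15_15_1_ok))))) (M (nat_lit 489) (B (M (nat_lit 525) (B (L (nat_lit 524) ln9_15_0 ln9_15_0_ok) (L (nat_lit 526) ln10_15_0 ln10_15_0_ok))) (M (nat_lit 488) (B (M (nat_lit 456) (B (L (nat_lit 455) ln11_15_3 ln11_15_3_ok) (L (nat_lit 457) ln12_15_3 ln12_15_3_ok))) (M (nat_lit 520) (B (L (nat_lit 519) ln11_15_1 ln11_15_1_ok)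 (L (nat_lit 521) ln12_15_1 ln12_15_1_ok)))))))))))))))) (B (K (nat_lit 44753387217330064630472912733859411441668478964418391758232901090994868865593032019963231227810838316818638633227285929953732203851398678289506631680) (nat_lit 18687756777394905882348276341934320243285512769068279469033473692480947228188910343427443082013603293201491368042085178428329046285513576674173867896981647203908104942294369655116965565361209475072) (nat_lit 18687756777394905882348276341934320243285512769068279469033473692480947228188910343427443082013603293201491368042085178428329046285513576674173867896981647203908104942294369655116965565361209475072) c11_s6214) (B (M (nat_lit 490) (B (M (nat_lit 521) (B (L (nat_lit 522) ln13_15_1 ln13_15_1_ok) (M (nat_lit 489) (B (L (nat_lit 520) ln12_15_1 ln12_15_1_ok) (M (nat_lit 457) (B (L (nat_lit 456) ln12_15_3 ln12_15_3_ok) (L (nat_lit 458) ln13_15_3 ln13_15_3_ok))))))) (B (M (nat_lit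 489) (B (M (nat_lit 521) (B (L (nat_lit 520) ln12_15_1 ln12_15_1_ok) (L (nat_lit 522) ln13_15_1 ln13_15_1_ok))) (M (nat_lit 525) (B (L (nat_lit 524) ln9_15_0 ln9_15_0_ok) (L (nat_lit 526) ln10_15_0 ln10_15_0_ok))))) (B (M (nat_lit 522) (B (L (nat_lit 521) ln13_15_1 ln13_15_1_ok) (M (nat_lit 554) (B (M (nat_lit 586) (B (L (nat_lit 459) ln10_18_6 ln10_18_6_ok) (M (nat_lit 618) (B (L (nat_lit 523) ln10_19_6 ln10_19_6_ok) (M (nat_lit 617) (B (L (nat_lit 585) ln10_15_5 ln10_15_5_ok) (L (nat_lit 649) ln10_16_5 ln10_16_5_ok))))))) (B (M (nat_lit 586) (B (M (nat_lit 458) (B (L (nat_lit 457) ln13_15_3 ln13_15_3_ok) (M (nat_lit 585) (B (L (nat_lit 553) ln10_14_5 ln10_14_5_ok) (L (nat_lit 617) ln10_15_5 ln10_15_5_ok))))) (B (M (nat_lit 618) (B (L (nat_lit 523) ln10_19_6 ln10_19_6_ok) (M (nat_lit 617) (B (L (nat_lit 585) ln10_15_5 ln10_15_5_ok) (L (nat_lit 649) ln10_16_5 ln10_16_5_ok))))) (M (nat_lit 458) (B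 (L (nat_lit 457) ln13_15_3 ln13_15_3_ok) (M (nat_lit 587) (B (L (nat_lit 555) ln10_14_4 ln10_14_4_ok) (L (nat_lit 619) ln10_15_4 ln10_15_4_ok)))))))) (B (M (nat_lit 586) (B (L (nat_lit 459) ln10_18_6 ln10_18_6_ok) (M (nat_lit 458) (B (L (nat_lit 457) ln13_15_3 ln13_15_3_ok) (M (nat_lit 587) (B (L (nat_lit 555) ln10_14_4 ln10_14_4_ok) (L (nat_lit 619) ln10_15_4 ln10_15_4_ok))))))) (M (nat_lit 458) (B (L (nat_lit 457) ln13_15_3 ln13_15_3_ok) (M (nat_lit 523) (B (M (nat_lit 555) (B (L (nat_lit 426) ln10_13_4 ln10_13_4_ok) (L (nat_lit 587) ln11_18_7 ln11_18_7_ok))) (M (nat_lit 525) (B (L (nat_lit 526) ln10_15_0 ln10_15_0_ok) (M (nat_lit 553) (B (L (nat_lit 585) ln10_14_5 ln10_14_5_ok) (L (nat_lit 524) ln13_16_1 ln13_16_1_ok))))))))))))))) (M (nat_lit 489) (B (M (nat_lit 457) (B (L (nat_lit 456) ln12_15_3 ln12_15_3_ok) (L (nat_lit 458) ln13_15_3 ln13_15_3_ok))) (M (nat_lit 525) (B (L (nat_lit 524) ln9_15_0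 ln9_15_0_ok) (L (nat_lit 526) ln10_15_0 ln10_15_0_ok))))))))) (B (M (nat_lit 494) (B (M (nat_lit 490) (B (M (nat_lit 458) (B (L (nat_lit 457) ln13_15_3 ln13_15_3_ok) (L (nat_lit 459) ln14_15_3 ln14_15_3_ok))) (M (nat_lit 526) (B (L (nat_lit 525) ln10_15_0 ln10_15_0_ok) (L (nat_lit 527) ln11_15_0 ln11_15_0_ok))))) (B (M (nat_lit 495) (B (M (nat_lit 523) (B (L (nat_lit 522) ln14_15_1 ln14_15_1_ok) (L (nat_lit 524) ln15_15_1 ln15_15_1_ok))) (M (nat_lit 527) (B (L (nat_lit 526) ln11_15_0 ln11_15_0_ok) (L (nat_lit 528) ln12_15_0 ln12_15_0_ok))))) (B (M (nat_lit 495) (B (M (nat_lit 523) (B (L (nat_lit 522) ln14_15_1 ln14_15_1_ok) (L (nat_lit 524) ln15_15_1 ln15_15_1_ok))) (M (nat_lit 496) (B (M (nat_lit 464) (B (L (nat_lit 463) ln12_15_2 ln12_15_2_ok) (L (nat_lit 465) ln13_15_2 ln13_15_2_ok))) (M (nat_lit 528) (B (L (nat_lit 527) ln12_15_0 ln12_15_0_ok) (L (nat_lit 529) ln13_15_0 ln13_15_0_ok))))))) (M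 (nat_lit 490) (B (M (nat_lit 458) (B (L (nat_lit 457) ln13_15_3 ln13_15_3_ok) (L (nat_lit 459) ln14_15_3 ln14_15_3_ok))) (M (nat_lit 524) (B (M (nat_lit 525) (B (L (nat_lit 489) ln9_15_0 ln9_15_0_ok) (L (nat_lit 526) ln10_15_0 ln10_15_0_ok))) (M (nat_lit 523) (B (L (nat_lit 522) ln14_15_1 ln14_15_1_ok) (L (nat_lit 495) ln15_15_1 ln15_15_1_ok))))))))))) (B (M (nat_lit 458) (B (M (nat_lit 457) (B (L (nat_lit 490) ln13_15_3 ln13_15_3_ok) (M (nat_lit 459) (B (L (nat_lit 456) ln8_14_0 ln8_14_0_ok) (L (nat_lit 494) ln14_15_3 ln14_15_3_ok))))) (B (M (nat_lit 526) (B (M (nat_lit 490) (B (L (nat_lit 457) ln13_15_3 ln13_15_3_ok) (L (nat_lit 525) ln10_15_0 ln10_15_0_ok))) (M (nat_lit 494) (B (L (nat_lit 459) ln14_15_3 ln14_15_3_ok) (L (nat_lit 527) ln11_15_0 ln11_15_0_ok))))) (B (M (nat_lit 494) (B (L (nat_lit 459) ln14_15_3 ln14_15_3_ok) (M (nat_lit 495) (B (M (nat_lit 527) (B (L (nat_lit 526) ln11_15_0 ln11_15_0_ok)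 (L (nat_lit 528) ln12_15_0 ln12_15_0_ok))) (M (nat_lit 496) (B (M (nat_lit 464) (B (L (nat_lit 463) ln12_15_2 ln12_15_2_ok) (L (nat_lit 465) ln13_15_2 ln13_15_2_ok))) (M (nat_lit 524) (B (L (nat_lit 523) ln15_15_1 ln15_15_1_ok) (L (nat_lit 525) ln16_15_1 ln16_15_1_ok))))))))) (B (K (nat_lit 44753387218074347484151614189781919020945795607596520511576714784723114829554006650991350701296857952749532524361506752078548770055338110357208039424) (nat_lit 3487317211709171838889822987704759426666781491372098516718445864706879845851312118755313407736621005469927655867994573759969777552259231875695918720466869551104) (nat_lit 3487317211709171838889822987704759426666781491372098516718445864706879845851312118755313407736621005469927655867994573759969777552259231875695918720466869551104) c11_s6610) (M (nat_lit 490) (B (L (nat_lit 457) ln13_15_3 ln13_15_3_ok) (M (nat_lit 489) (B (M (nat_lit 525) (B (L (nat_lit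 524) ln9_15_0 ln9_15_0_ok) (L (nat_lit 526) ln10_15_0 ln10_15_0_ok))) (M (nat_lit 488) (B (M (nat_lit 520) (B (L (nat_lit 519) ln11_15_1 ln11_15_1_ok) (L (nat_lit 521) ln12_15_1 ln12_15_1_ok))) (M (nat_lit 455) (B (L (nat_lit 456) ln11_15_3 ln11_15_3_ok) (M (nat_lit 487) (B (L (nat_lit 454) ln10_15_3 ln10_15_3_ok) (L (nat_lit 459) ln7_15_2 ln7_15_2_ok)))))))))))))))) (B (M (nat_lit 490) (B (M (nat_lit 489) (B (M (nat_lit 521) (B (L (nat_lit 520) ln12_15_1 ln12_15_1_ok) (L (nat_lit 522) ln13_15_1 ln13_15_1_ok))) (M (nat_lit 525) (B (L (nat_lit 524) ln9_15_0 ln9_15_0_ok) (L (nat_lit 526) ln10_15_0 ln10_15_0_ok))))) (B (M (nat_lit 494) (B (M (nat_lit 458) (B (L (nat_lit 457) ln13_15_3 ln13_15_3_ok) (L (nat_lit 459) ln14_15_3 ln14_15_3_ok))) (M (nat_lit 526) (B (L (nat_lit 525) ln10_15_0 ln10_15_0_ok) (L (nat_lit 527) ln11_15_0 ln11_15_0_ok))))) (M (nat_lit 521) (B (L (nat_lit 522) ln13_15_1 ln13_15_1_ok)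 (M (nat_lit 489) (B (L (nat_lit 520) ln12_15_1 ln12_15_1_ok) (M (nat_lit 457) (B (L (nat_lit 456) ln12_15_3 ln12_15_3_ok) (L (nat_lit 458) ln13_15_3 ln13_15_3_ok)))))))))) (B (M (nat_lit 490) (B (M (nat_lit 494) (B (M (nat_lit 522) (B (L (nat_lit 521) ln13_15_1 ln13_15_1_ok) (L (nat_lit 523) ln14_15_1 ln14_15_1_ok))) (M (nat_lit 526) (B (L (nat_lit 525) ln10_15_0 ln10_15_0_ok) (L (nat_lit 527) ln11_15_0 ln11_15_0_ok))))) (B (M (nat_lit 521) (B (L (nat_lit 522) ln13_15_1 ln13_15_1_ok) (M (nat_lit 489) (B (L (nat_lit 520) ln12_15_1 ln12_15_1_ok) (M (nat_lit 457) (B (L (nat_lit 456) ln12_15_3 ln12_15_3_ok) (L (nat_lit 458) ln13_15_3 ln13_15_3_ok))))))) (M (nat_lit 494) (B (M (nat_lit 458) (B (L (nat_lit 457) ln13_15_3 ln13_15_3_ok) (L (nat_lit 459) ln14_15_3 ln14_15_3_ok))) (M (nat_lit 526) (B (L (nat_lit 525) ln10_15_0 ln10_15_0_ok) (L (nat_lit 527) ln11_15_0 ln11_15_0_ok)))))))) c11_n6687)))))))))))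 (nat_lit 38360046186282912540603401607243006847495349968240530841273347637682107544490152029956844328736806759883313078290645166263854749660216269982224351232) (nat_lit 21023726374161355139063558878694721328025185421168911763181184008574092778391737375730589535941568574102269200178475277138235381453428550920447546201916723932249987309412848809041369622711055155200) (nat_lit 21023726374161355139063558878694721328025185421168911763181184008574092778391737375730589535941568574102269200178475277138235381453428550920447546201916723932249987309412848809041369622711055155200) (by decide +kernel)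
noncomputable def c11_n6859 : Cert := (M (nat_lit 458) (B (M (nat_lit 457) (B (L (nat_lit 456) ln8_14_0 ln8_14_0_ok) (M (nat_lit 460) (B (L (nat_lit 428) ln12_15_6 ln12_15_6_ok) (L (nat_lit 493) ln9_14_0 ln9_14_0_ok))))) (B (M (nat_lit 457) (B (L (nat_lit 456) ln8_14_0 ln8_14_0_ok) (M (nat_lit 493) (B (L (nat_lit 460) ln9_14_0 ln9_14_0_ok) (L (nat_lit 494) ln14_15_3 ln14_15_3_ok))))) (B (M (nat_lit 460) (B (L (nat_lit 428) ln12_15_6 ln12_15_6_ok) (M (nat_lit 493) (B (L (nat_lit 457) ln9_14_0 ln9_14_0_ok) (L (nat_lit 494) ln14_15_3 ln14_15_3_ok))))) (B (M (nat_lit 490) (B (M (nat_lit 460) (B (L (nat_lit 428) ln12_15_6 ln12_15_6_ok) (M (nat_lit 493) (B (L (nat_lit 494) ln14_15_3 ln14_15_3_ok) (M (nat_lit 489) (B (L (nat_lit 488) ln8_15_2 ln8_15_2_ok) (M (nat_lit 525) (B (L (nat_lit 524) ln9_15_0 ln9_15_0_ok) (L (nat_lit 526) ln10_15_0 ln10_15_0_ok))))))))) (B (M (nat_lit 489) (B (M (nat_lit 488) (B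 (L (nat_lit 487) ln7_15_2 ln7_15_2_ok) (L (nat_lit 460) ln8_15_2 ln8_15_2_ok))) (M (nat_lit 521) (B (L (nat_lit 520) ln12_15_1 ln12_15_1_ok) (M (nat_lit 493) (B (L (nat_lit 494) ln14_15_3 ln14_15_3_ok) (L (nat_lit 522) ln13_15_1 ln13_15_1_ok))))))) (B (M (nat_lit 489) (B (M (nat_lit 524) (B (L (nat_lit 525) ln9_15_0 ln9_15_0_ok) (M (nat_lit 488) (B (L (nat_lit 487) ln7_15_2 ln7_15_2_ok) (L (nat_lit 523) ln8_15_0 ln8_15_0_ok))))) (M (nat_lit 521) (B (L (nat_lit 520) ln12_15_1 ln12_15_1_ok) (M (nat_lit 493) (B (L (nat_lit 494) ln14_15_3 ln14_15_3_ok) (L (nat_lit 522) ln13_15_1 ln13_15_1_ok))))))) (B (M (nat_lit 460) (B (L (nat_lit 428) ln12_15_6 ln12_15_6_ok) (M (nat_lit 493) (B (L (nat_lit 494) ln14_15_3 ln14_15_3_ok) (M (nat_lit 489) (B (M (nat_lit 521) (B (L (nat_lit 520) ln12_15_1 ln12_15_1_ok) (L (nat_lit 522) ln13_15_1 ln13_15_1_ok))) (M (nat_lit 525) (B (L (nat_lit 524) ln9_15_0 ln9_15_0_ok)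 (L (nat_lit 526) ln10_15_0 ln10_15_0_ok))))))))) (B (M (nat_lit 522) (B (M (nat_lit 493) (B (L (nat_lit 494) ln14_15_3 ln14_15_3_ok) (L (nat_lit 521) ln13_15_1 ln13_15_1_ok))) (M (nat_lit 426) (B (M (nat_lit 394) (B (L (nat_lit 362) ln10_11_4 ln10_11_4_ok) (L (nat_lit 523) ln10_12_4 ln10_12_4_ok))) (B (M (nat_lit 523) (B (L (nat_lit 394) ln10_12_4 ln10_12_4_ok) (L (nat_lit 555) ln11_17_7 ln11_17_7_ok))) (B (M (nat_lit 555) (B (L (nat_lit 523) ln11_17_7 ln11_17_7_ok) (M (nat_lit 554) (B (L (nat_lit 587) ln10_14_4 ln10_14_4_ok) (L (nat_lit 586) ln10_18_6 ln10_18_6_ok))))) (M (nat_lit 393) (B (L (nat_lit 425) ln10_16_7 ln10_16_7_ok) (M (nat_lit 394) (B (L (nat_lit 361) ln10_15_7 ln10_15_7_ok) (L (nat_lit 362) ln10_11_4 ln10_11_4_ok))))))))))) (M (nat_lit 555) (B (M (nat_lit 523) (B (L (nat_lit 426) ln11_17_7 ln11_17_7_ok) (L (nat_lit 587) ln11_18_7 ln11_18_7_ok))) (B (M (nat_lit 460) (B (L (nat_lit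 428) ln12_15_6 ln12_15_6_ok) (M (nat_lit 524) (B (M (nat_lit 556) (B (L (nat_lit 588) ln12_18_7 ln12_18_7_ok) (L (nat_lit 587) ln12_14_5 ln12_14_5_ok))) (M (nat_lit 489) (B (L (nat_lit 488) ln8_15_2 ln8_15_2_ok) (L (nat_lit 525) ln9_15_0 ln9_15_0_ok))))))) (M (nat_lit 426) (B (L (nat_lit 523) ln11_17_7 ln11_17_7_ok) (M (nat_lit 489) (B (M (nat_lit 394) (B (L (nat_lit 362) ln10_11_4 ln10_11_4_ok) (L (nat_lit 521) ln10_12_5 ln10_12_5_ok))) (M (nat_lit 460) (B (L (nat_lit 428) ln12_15_6 ln12_15_6_ok) (L (nat_lit 488) ln8_15_2 ln8_15_2_ok)))))))))))))))) (B (M (nat_lit 457) (B (L (nat_lit 456) ln8_14_0 ln8_14_0_ok) (M (nat_lit 493) (B (L (nat_lit 490) ln13_15_3 ln13_15_3_ok) (L (nat_lit 494) ln14_15_3 ln14_15_3_ok))))) (M (nat_lit 457) (B (L (nat_lit 456) ln8_14_0 ln8_14_0_ok) (M (nat_lit 489) (B (M (nat_lit 460) (B (L (nat_lit 428) ln12_15_6 ln12_15_6_ok) (L (nat_lit 488) ln12_14_1 ln12_14_1_ok))) (B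 (M (nat_lit 488) (B (L (nat_lit 460) ln12_14_1 ln12_14_1_ok) (M (nat_lit 490) (B (L (nat_lit 487) ln7_15_2 ln7_15_2_ok) (M (nat_lit 524) (B (L (nat_lit 523) ln8_15_0 ln8_15_0_ok) (L (nat_lit 525) ln9_15_0 ln9_15_0_ok))))))) (B (M (nat_lit 490) (B (M (nat_lit 521) (B (L (nat_lit 520) ln12_15_1 ln12_15_1_ok) (M (nat_lit 426) (B (L (nat_lit 394) ln10_12_5 ln10_12_5_ok) (L (nat_lit 553) ln9_17_6 ln9_17_6_ok))))) (M (nat_lit 488) (B (L (nat_lit 487) ln7_15_2 ln7_15_2_ok) (M (nat_lit 524) (B (L (nat_lit 523) ln8_15_0 ln8_15_0_ok) (L (nat_lit 525) ln9_15_0 ln9_15_0_ok))))))) (M (nat_lit 490) (B (M (nat_lit 521) (B (L (nat_lit 520) ln12_15_1 ln12_15_1_ok) (M (nat_lit 426) (B (L (nat_lit 394) ln10_12_5 ln10_12_5_ok) (L (nat_lit 553) ln9_17_6 ln9_17_6_ok))))) (M (nat_lit 425) (B (M (nat_lit 393) (B (L (nat_lit 361) ln9_11_4 ln9_11_4_ok) (L (nat_lit 522) ln9_12_4 ln9_12_4_ok))) (M (nat_lit 460) (B (L (nat_lit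 428) ln12_15_6 ln12_15_6_ok) (L (nat_lit 424) ln12_14_3 ln12_14_3_ok)))))))))))))))))))
theorem c11_s7097 : Sem (nat_lit 19180023093141456270994868227393793064975962979706948090394687277743823581181512059937683631514712089077336413480722875194222387086669045060377509888) (nat_lit 5438853050242690060952747222519482228995641845040609963567156840923063730581819557549784259201806003552303164942783578855270975593580552188360705385887827706963089126923365854676072267776) (nat_lit 5438853050242690060952747222519482228995641845040609963567156840923063730581819557549784259201806003552303164942783578855270975593580552188360705385887827706963089126923365854676072267776) :=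
  sem_of_chk (M (nat_lit 459) (B (M (nat_lit 428) (B (L (nat_lit 460) ln12_15_6 ln12_15_6_ok) (M (nat_lit 427) (B (L (nat_lit 523) ln11_16_6 ln11_16_6_ok) (M (nat_lit 458) (B (L (nat_lit 430) ln14_13_1 ln14_13_1_ok) (M (nat_lit 426) (B (L (nat_lit 425) ln9_13_2 ln9_13_2_ok) (L (nat_lit 457) ln13_13_1 ln13_13_1_ok))))))))) (B (M (nat_lit 458) (B (M (nat_lit 457) (B (L (nat_lit 456) ln8_14_0 ln8_14_0_ok) (M (nat_lit 460) (B (L (nat_lit 428) ln12_15_6 ln12_15_6_ok) (L (nat_lit 493) ln9_14_0 ln9_14_0_ok))))) (B (M (nat_lit 457) (B (L (nat_lit 456) ln8_14_0 ln8_14_0_ok) (M (nat_lit 493) (B (L (nat_lit 460) ln9_14_0 ln9_14_0_ok) (L (nat_lit 494) ln14_15_3 ln14_15_3_ok))))) (B (M (nat_lit 428) (B (L (nat_lit 460) ln12_15_6 ln12_15_6_ok) (M (nat_lit 427) (B (L (nat_lit 523) ln11_16_6 ln11_16_6_ok) (L (nat_lit 430) ln14_13_1 ln14_13_1_ok))))) (M (nat_lit 457) (B (L (nat_lit 456) ln8_14_0 ln8_14_0_ok) (M (nat_lit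 493) (B (L (nat_lit 490) ln13_15_3 ln13_15_3_ok) (L (nat_lit 494) ln14_15_3 ln14_15_3_ok))))))))) (B c11_n6859 (B (M (nat_lit 493) (B (M (nat_lit 458) (B (L (nat_lit 494) ln14_15_3 ln14_15_3_ok) (M (nat_lit 457) (B (L (nat_lit 456) ln8_14_0 ln8_14_0_ok) (L (nat_lit 490) ln13_15_3 ln13_15_3_ok))))) (B (M (nat_lit 458) (B (L (nat_lit 494) ln14_15_3 ln14_15_3_ok) (M (nat_lit 457) (B (L (nat_lit 460) ln9_14_0 ln9_14_0_ok) (L (nat_lit 490) ln13_15_3 ln13_15_3_ok))))) (B (M (nat_lit 494) (B (L (nat_lit 458) ln14_15_3 ln14_15_3_ok) (M (nat_lit 523) (B (L (nat_lit 522) ln14_15_1 ln14_15_1_ok) (M (nat_lit 495) (B (L (nat_lit 460) ln15_15_3 ln15_15_3_ok) (L (nat_lit 524) ln15_15_1 ln15_15_1_ok))))))) (B (M (nat_lit 494) (B (M (nat_lit 523) (B (L (nat_lit 522) ln14_15_1 ln14_15_1_ok) (M (nat_lit 495) (B (L (nat_lit 460) ln15_15_3 ln15_15_3_ok) (L (nat_lit 524) ln15_15_1 ln15_15_1_ok))))) (B (M (nat_lit 490)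 (B (M (nat_lit 522) (B (L (nat_lit 521) ln13_15_1 ln13_15_1_ok) (L (nat_lit 523) ln14_15_1 ln14_15_1_ok))) (M (nat_lit 526) (B (L (nat_lit 525) ln10_15_0 ln10_15_0_ok) (L (nat_lit 527) ln11_15_0 ln11_15_0_ok))))) (B (M (nat_lit 524) (B (M (nat_lit 495) (B (L (nat_lit 460) ln15_15_3 ln15_15_3_ok) (L (nat_lit 523) ln15_15_1 ln15_15_1_ok))) (B (M (nat_lit 523) (B (L (nat_lit 495) ln15_15_1 ln15_15_1_ok) (M (nat_lit 556) (B (L (nat_lit 427) ln11_13_4 ln11_13_4_ok) (L (nat_lit 588) ln12_18_7 ln12_18_7_ok))))) (B (M (nat_lit 556) (B (L (nat_lit 588) ln12_18_7 ln12_18_7_ok) (M (nat_lit 427) (B (L (nat_lit 460) ln12_17_7 ln12_17_7_ok) (L (nat_lit 523) ln11_13_4 ln11_13_4_ok))))) (M (nat_lit 556) (B (L (nat_lit 588) ln12_18_7 ln12_18_7_ok) (M (nat_lit 460) (B (L (nat_lit 427) ln12_17_7 ln12_17_7_ok) (L (nat_lit 495) ln15_15_3 ln15_15_3_ok))))))))) (M (nat_lit 490) (B (M (nat_lit 526) (B (L (nat_lit 525) ln10_15_0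 ln10_15_0_ok) (L (nat_lit 527) ln11_15_0 ln11_15_0_ok))) (M (nat_lit 489) (B (M (nat_lit 460) (B (L (nat_lit 488) ln8_15_2 ln8_15_2_ok) (L (nat_lit 495) ln15_15_3 ln15_15_3_ok))) (M (nat_lit 521) (B (L (nat_lit 520) ln12_15_1 ln12_15_1_ok) (L (nat_lit 522) ln13_15_1 ln13_15_1_ok))))))))))) (M (nat_lit 490) (B (M (nat_lit 522) (B (L (nat_lit 521) ln13_15_1 ln13_15_1_ok) (M (nat_lit 554) (B (L (nat_lit 586) ln10_18_6 ln10_18_6_ok) (M (nat_lit 427) (B (L (nat_lit 458) ln10_17_6 ln10_17_6_ok) (L (nat_lit 523) ln11_13_5 ln11_13_5_ok))))))) (B (M (nat_lit 489) (B (M (nat_lit 521) (B (L (nat_lit 520) ln12_15_1 ln12_15_1_ok) (L (nat_lit 522) ln13_15_1 ln13_15_1_ok))) (M (nat_lit 525) (B (L (nat_lit 524) ln9_15_0 ln9_15_0_ok) (L (nat_lit 526) ln10_15_0 ln10_15_0_ok))))) (M (nat_lit 523) (B (M (nat_lit 458) (B (L (nat_lit 457) ln13_15_3 ln13_15_3_ok) (M (nat_lit 426) (B (L (nat_lit 394) ln10_12_4 ln10_12_4_ok)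 (L (nat_lit 555) ln11_17_7 ln11_17_7_ok))))) (M (nat_lit 524) (B (M (nat_lit 556) (B (L (nat_lit 427) ln11_13_4 ln11_13_4_ok) (L (nat_lit 588) ln12_18_7 ln12_18_7_ok))) (M (nat_lit 525) (B (L (nat_lit 489) ln9_15_0 ln9_15_0_ok) (L (nat_lit 526) ln10_15_0 ln10_15_0_ok))))))))))))))) (B (M (nat_lit 428) (B (L (nat_lit 460) ln12_15_6 ln12_15_6_ok) (M (nat_lit 427) (B (L (nat_lit 523) ln11_16_6 ln11_16_6_ok) (M (nat_lit 458) (B (L (nat_lit 430) ln14_13_1 ln14_13_1_ok) (M (nat_lit 426) (B (L (nat_lit 425) ln9_13_2 ln9_13_2_ok) (M (nat_lit 394) (B (L (nat_lit 362) ln10_11_4 ln10_11_4_ok) (L (nat_lit 393) ln13_13_3 ln13_13_3_ok))))))))))) (B (M (nat_lit 523) (B (M (nat_lit 428) (B (L (nat_lit 460) ln12_15_6 ln12_15_6_ok) (L (nat_lit 427) ln11_16_6 ln11_16_6_ok))) (B (M (nat_lit 555) (B (M (nat_lit 460) (B (L (nat_lit 428) ln12_15_6 ln12_15_6_ok) (L (nat_lit 587) ln11_18_6 ln11_18_6_ok))) (B (M (nat_lit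 587) (B (L (nat_lit 460) ln11_18_6 ln11_18_6_ok) (M (nat_lit 586) (B (L (nat_lit 554) ln11_14_5 ln11_14_5_ok) (L (nat_lit 618) ln11_15_5 ln11_15_5_ok))))) (B (M (nat_lit 587) (B (M (nat_lit 586) (B (L (nat_lit 554) ln11_14_5 ln11_14_5_ok) (L (nat_lit 618) ln11_15_5 ln11_15_5_ok))) (M (nat_lit 588) (B (L (nat_lit 556) ln11_14_4 ln11_14_4_ok) (L (nat_lit 620) ln11_15_4 ln11_15_4_ok))))) (M (nat_lit 524) (B (M (nat_lit 556) (B (L (nat_lit 588) ln12_18_7 ln12_18_7_ok) (M (nat_lit 554) (B (L (nat_lit 586) ln11_14_5 ln11_14_5_ok) (M (nat_lit 525) (B (L (nat_lit 526) ln14_16_1 ln14_16_1_ok) (L (nat_lit 553) ln9_17_2 ln9_17_2_ok))))))) (B (M (nat_lit 556) (B (L (nat_lit 588) ln12_18_7 ln12_18_7_ok) (M (nat_lit 557) (B (M (nat_lit 460) (B (L (nat_lit 428) ln12_15_6 ln12_15_6_ok) (L (nat_lit 589) ln12_14_4 ln12_14_4_ok))) (M (nat_lit 558) (B (L (nat_lit 522) ln14_17_3 ln14_17_3_ok) (L (nat_lit 559) ln15_17_3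 ln15_17_3_ok))))))) (M (nat_lit 525) (B (M (nat_lit 490) (B (L (nat_lit 489) ln9_15_0 ln9_15_0_ok) (L (nat_lit 526) ln14_16_3 ln14_16_3_ok))) (B (M (nat_lit 526) (B (L (nat_lit 490) ln14_16_3 ln14_16_3_ok) (L (nat_lit 554) ln14_16_1 ln14_16_1_ok))) (B (M (nat_lit 554) (B (L (nat_lit 586) ln11_14_5 ln11_14_5_ok) (L (nat_lit 526) ln14_16_1 ln14_16_1_ok))) (M (nat_lit 522) (B (M (nat_lit 493) (B (L (nat_lit 494) ln14_15_1 ln14_15_1_ok) (L (nat_lit 521) ln9_16_2 ln9_16_2_ok))) (M (nat_lit 554) (B (L (nat_lit 586) ln11_14_5 ln11_14_5_ok) (L (nat_lit 553) ln13_16_1 ln13_16_1_ok)))))))))))))))) (M (nat_lit 522) (B (M (nat_lit 554) (B (L (nat_lit 427) ln11_13_5 ln11_13_5_ok) (M (nat_lit 586) (B (L (nat_lit 490) ln10_18_6 ln10_18_6_ok) (L (nat_lit 555) ln11_14_5 ln11_14_5_ok))))) (B (M (nat_lit 493) (B (L (nat_lit 494) ln14_15_1 ln14_15_1_ok) (M (nat_lit 521) (B (L (nat_lit 490) ln13_15_1 ln13_15_1_ok) (L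 (nat_lit 520) ln8_16_2 ln8_16_2_ok))))) (M (nat_lit 554) (B (L (nat_lit 427) ln11_13_5 ln11_13_5_ok) (M (nat_lit 586) (B (L (nat_lit 555) ln11_14_5 ln11_14_5_ok) (L (nat_lit 618) ln10_19_6 ln10_19_6_ok))))))))))) (B (M (nat_lit 523) (B (M (nat_lit 427) (B (L (nat_lit 428) ln11_16_6 ln11_16_6_ok) (M (nat_lit 524) (B (L (nat_lit 556) ln11_13_4 ln11_13_4_ok) (M (nat_lit 522) (B (L (nat_lit 554) ln11_13_5 ln11_13_5_ok) (M (nat_lit 493) (B (L (nat_lit 494) ln14_15_1 ln14_15_1_ok) (L (nat_lit 521) ln9_16_2 ln9_16_2_ok))))))))) (B (M (nat_lit 555) (B (M (nat_lit 458) (B (L (nat_lit 426) ln11_17_7 ln11_17_7_ok) (M (nat_lit 587) (B (L (nat_lit 490) ln11_18_7 ln11_18_7_ok) (M (nat_lit 586) (B (L (nat_lit 554) ln11_14_5 ln11_14_5_ok) (L (nat_lit 618) ln11_15_5 ln11_15_5_ok))))))) (B (M (nat_lit 587) (B (M (nat_lit 586) (B (L (nat_lit 554) ln11_14_5 ln11_14_5_ok) (L (nat_lit 618) ln11_15_5 ln11_15_5_ok))) (M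 (nat_lit 588) (B (L (nat_lit 556) ln11_14_4 ln11_14_4_ok) (L (nat_lit 620) ln11_15_4 ln11_15_4_ok))))) (B (M (nat_lit 587) (B (M (nat_lit 458) (B (L (nat_lit 426) ln11_17_7 ln11_17_7_ok) (L (nat_lit 490) ln11_18_7 ln11_18_7_ok))) (M (nat_lit 588) (B (L (nat_lit 556) ln11_14_4 ln11_14_4_ok) (L (nat_lit 620) ln11_15_4 ln11_15_4_ok))))) (M (nat_lit 458) (B (L (nat_lit 426) ln11_17_7 ln11_17_7_ok) (M (nat_lit 493) (B (L (nat_lit 494) ln14_15_3 ln14_15_3_ok) (M (nat_lit 457) (B (L (nat_lit 456) ln8_14_0 ln8_14_0_ok) (L (nat_lit 490) ln13_15_3 ln13_15_3_ok))))))))))) (B (M (nat_lit 555) (B (M (nat_lit 426) (B (L (nat_lit 458) ln11_17_7 ln11_17_7_ok) (M (nat_lit 427) (B (L (nat_lit 394) ln11_16_7 ln11_16_7_ok) (L (nat_lit 428) ln11_16_6 ln11_16_6_ok))))) (B (M (nat_lit 587) (B (M (nat_lit 458) (B (L (nat_lit 426) ln11_17_7 ln11_17_7_ok) (L (nat_lit 490) ln11_18_7 ln11_18_7_ok))) (M (nat_lit 588) (B (L (nat_lit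 556) ln11_14_4 ln11_14_4_ok) (L (nat_lit 620) ln11_15_4 ln11_15_4_ok))))) (M (nat_lit 587) (B (M (nat_lit 586) (B (L (nat_lit 554) ln11_14_5 ln11_14_5_ok) (L (nat_lit 618) ln11_15_5 ln11_15_5_ok))) (M (nat_lit 588) (B (L (nat_lit 556) ln11_14_4 ln11_14_4_ok) (L (nat_lit 620) ln11_15_4 ln11_15_4_ok)))))))) (B (M (nat_lit 555) (B (M (nat_lit 426) (B (L (nat_lit 458) ln11_17_7 ln11_17_7_ok) (M (nat_lit 427) (B (L (nat_lit 394) ln11_16_7 ln11_16_7_ok) (L (nat_lit 428) ln11_16_6 ln11_16_6_ok))))) (B (M (nat_lit 427) (B (L (nat_lit 428) ln11_16_6 ln11_16_6_ok) (M (nat_lit 556) (B (L (nat_lit 524) ln11_13_4 ln11_13_4_ok) (L (nat_lit 588) ln11_14_4 ln11_14_4_ok))))) (M (nat_lit 587) (B (M (nat_lit 458) (B (L (nat_lit 426) ln11_17_7 ln11_17_7_ok) (L (nat_lit 490) ln11_18_7 ln11_18_7_ok))) (M (nat_lit 588) (B (L (nat_lit 556) ln11_14_4 ln11_14_4_ok) (L (nat_lit 620) ln11_15_4 ln11_15_4_ok)))))))) (M (nat_lit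 555) (B (M (nat_lit 426) (B (L (nat_lit 458) ln11_17_7 ln11_17_7_ok) (M (nat_lit 427) (B (L (nat_lit 394) ln11_16_7 ln11_16_7_ok) (L (nat_lit 428) ln11_16_6 ln11_16_6_ok))))) (B (M (nat_lit 427) (B (L (nat_lit 428) ln11_16_6 ln11_16_6_ok) (M (nat_lit 554) (B (L (nat_lit 522) ln11_13_5 ln11_13_5_ok) (L (nat_lit 586) ln11_14_5 ln11_14_5_ok))))) (M (nat_lit 458) (B (L (nat_lit 426) ln11_17_7 ln11_17_7_ok) (M (nat_lit 587) (B (L (nat_lit 490) ln11_18_7 ln11_18_7_ok) (M (nat_lit 586) (B (L (nat_lit 554) ln11_14_5 ln11_14_5_ok) (L (nat_lit 618) ln11_15_5 ln11_15_5_ok))))))))))))))) (M (nat_lit 458) (B (M (nat_lit 457) (B (L (nat_lit 456) ln8_14_0 ln8_14_0_ok) (M (nat_lit 460) (B (L (nat_lit 428) ln12_15_6 ln12_15_6_ok) (L (nat_lit 493) ln9_14_0 ln9_14_0_ok))))) (B (M (nat_lit 457) (B (L (nat_lit 456) ln8_14_0 ln8_14_0_ok) (M (nat_lit 493) (B (L (nat_lit 460) ln9_14_0 ln9_14_0_ok) (L (nat_lit 494) ln14_15_3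 ln14_15_3_ok))))) (B (M (nat_lit 460) (B (L (nat_lit 428) ln12_15_6 ln12_15_6_ok) (M (nat_lit 493) (B (L (nat_lit 457) ln9_14_0 ln9_14_0_ok) (L (nat_lit 494) ln14_15_3 ln14_15_3_ok))))) (B (M (nat_lit 490) (B (M (nat_lit 493) (B (L (nat_lit 494) ln14_15_3 ln14_15_3_ok) (M (nat_lit 522) (B (L (nat_lit 521) ln13_15_1 ln13_15_1_ok) (M (nat_lit 554) (B (L (nat_lit 427) ln10_17_6 ln10_17_6_ok) (L (nat_lit 586) ln10_18_6 ln10_18_6_ok))))))) (B (M (nat_lit 493) (B (L (nat_lit 494) ln14_15_3 ln14_15_3_ok) (M (nat_lit 489) (B (M (nat_lit 460) (B (L (nat_lit 428) ln12_15_6 ln12_15_6_ok) (L (nat_lit 488) ln8_15_2 ln8_15_2_ok))) (M (nat_lit 521) (B (L (nat_lit 520) ln12_15_1 ln12_15_1_ok) (L (nat_lit 522) ln13_15_1 ln13_15_1_ok))))))) (M (nat_lit 460) (B (L (nat_lit 428) ln12_15_6 ln12_15_6_ok) (M (nat_lit 524) (B (M (nat_lit 556) (B (L (nat_lit 427) ln12_17_7 ln12_17_7_ok) (L (nat_lit 588) ln12_18_7 ln12_18_7_ok)))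 (M (nat_lit 489) (B (L (nat_lit 488) ln8_15_2 ln8_15_2_ok) (L (nat_lit 525) ln9_15_0 ln9_15_0_ok)))))))))) (B (M (nat_lit 457) (B (L (nat_lit 456) ln8_14_0 ln8_14_0_ok) (M (nat_lit 493) (B (L (nat_lit 490) ln13_15_3 ln13_15_3_ok) (L (nat_lit 494) ln14_15_3 ln14_15_3_ok))))) (M (nat_lit 457) (B (L (nat_lit 456) ln8_14_0 ln8_14_0_ok) (M (nat_lit 428) (B (L (nat_lit 460) ln12_15_6 ln12_15_6_ok) (M (nat_lit 427) (B (L (nat_lit 426) ln13_13_1 ln13_13_1_ok) (L (nat_lit 430) ln14_13_1 ln14_13_1_ok))))))))))))))))))))) (nat_lit 19180023093141456270994868227393793064975962979706948090394687277743823581181512059937683631514712089077336413480722875194222387086669045060377509888) (nat_lit 5438853050242690060952747222519482228995641845040609963567156840923063730581819557549784259201806003552303164942783578855270975593580552188360705385887827706963089126923365854676072267776) (nat_lit 5438853050242690060952747222519482228995641845040609963567156840923063730581819557549784259201806003552303164942783578855270975593580552188360705385887827706963089126923365854676072267776)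 (by decide +kernel)
noncomputable def c11_n7212 : Cert := (M (nat_lit 490) (B (M (nat_lit 489) (B (M (nat_lit 457) (B (L (nat_lit 456) ln12_15_3 ln12_15_3_ok) (L (nat_lit 458) ln13_15_3 ln13_15_3_ok))) (M (nat_lit 525) (B (L (nat_lit 524) ln9_15_0 ln9_15_0_ok) (L (nat_lit 526) ln10_15_0 ln10_15_0_ok))))) (B (M (nat_lit 489) (B (M (nat_lit 521) (B (L (nat_lit 520) ln12_15_1 ln12_15_1_ok) (L (nat_lit 522) ln13_15_1 ln13_15_1_ok))) (M (nat_lit 525) (B (L (nat_lit 524) ln9_15_0 ln9_15_0_ok) (L (nat_lit 526) ln10_15_0 ln10_15_0_ok))))) (B (M (nat_lit 522) (B (L (nat_lit 521) ln13_15_1 ln13_15_1_ok) (M (nat_lit 554) (B (M (nat_lit 458) (B (L (nat_lit 457) ln13_15_3 ln13_15_3_ok) (M (nat_lit 459) (B (L (nat_lit 427) ln10_17_6 ln10_17_6_ok) (L (nat_lit 586) ln10_18_6 ln10_18_6_ok))))) (B (M (nat_lit 458) (B (L (nat_lit 457) ln13_15_3 ln13_15_3_ok) (M (nat_lit 586) (B (L (nat_lit 459) ln10_18_6 ln10_18_6_ok)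 (M (nat_lit 585) (B (L (nat_lit 553) ln10_14_5 ln10_14_5_ok) (L (nat_lit 617) ln10_15_5 ln10_15_5_ok))))))) (B (M (nat_lit 459) (B (L (nat_lit 586) ln10_18_6 ln10_18_6_ok) (M (nat_lit 427) (B (L (nat_lit 458) ln10_17_6 ln10_17_6_ok) (L (nat_lit 523) ln11_13_5 ln11_13_5_ok))))) (B (M (nat_lit 586) (B (L (nat_lit 459) ln10_18_6 ln10_18_6_ok) (M (nat_lit 618) (B (L (nat_lit 523) ln10_19_6 ln10_19_6_ok) (M (nat_lit 617) (B (L (nat_lit 585) ln10_15_5 ln10_15_5_ok) (L (nat_lit 649) ln10_16_5 ln10_16_5_ok))))))) (B (M (nat_lit 586) (B (M (nat_lit 458) (B (L (nat_lit 457) ln13_15_3 ln13_15_3_ok) (M (nat_lit 587) (B (L (nat_lit 555) ln10_14_4 ln10_14_4_ok) (L (nat_lit 619) ln10_15_4 ln10_15_4_ok))))) (M (nat_lit 618) (B (L (nat_lit 523) ln10_19_6 ln10_19_6_ok) (M (nat_lit 617) (B (L (nat_lit 585) ln10_15_5 ln10_15_5_ok) (L (nat_lit 649) ln10_16_5 ln10_16_5_ok))))))) (M (nat_lit 555) (B (M (nat_lit 458) (B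 (L (nat_lit 457) ln13_15_3 ln13_15_3_ok) (L (nat_lit 587) ln10_14_4 ln10_14_4_ok))) (B (M (nat_lit 460) (B (L (nat_lit 428) ln12_15_6 ln12_15_6_ok) (M (nat_lit 587) (B (L (nat_lit 458) ln10_14_4 ln10_14_4_ok) (L (nat_lit 523) ln11_18_6 ln11_18_6_ok))))) (B (M (nat_lit 524) (B (M (nat_lit 460) (B (L (nat_lit 428) ln12_15_6 ln12_15_6_ok) (M (nat_lit 587) (B (L (nat_lit 523) ln11_18_6 ln11_18_6_ok) (L (nat_lit 556) ln12_14_5 ln12_14_5_ok))))) (B (M (nat_lit 525) (B (L (nat_lit 526) ln10_15_0 ln10_15_0_ok) (M (nat_lit 553) (B (L (nat_lit 523) ln13_16_1 ln13_16_1_ok) (L (nat_lit 556) ln9_17_2 ln9_17_2_ok))))) (B (M (nat_lit 556) (B (M (nat_lit 460) (B (L (nat_lit 428) ln12_15_6 ln12_15_6_ok) (L (nat_lit 587) ln12_14_5 ln12_14_5_ok))) (M (nat_lit 525) (B (L (nat_lit 526) ln10_15_0 ln10_15_0_ok) (L (nat_lit 553) ln9_17_2 ln9_17_2_ok))))) (M (nat_lit 523) (B (M (nat_lit 460) (B (L (nat_lit 428) ln12_15_6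 ln12_15_6_ok) (L (nat_lit 587) ln11_18_6 ln11_18_6_ok))) (M (nat_lit 525) (B (L (nat_lit 526) ln10_15_0 ln10_15_0_ok) (L (nat_lit 553) ln13_16_1 ln13_16_1_ok))))))))) (M (nat_lit 525) (B (L (nat_lit 526) ln10_15_0 ln10_15_0_ok) (M (nat_lit 553) (B (M (nat_lit 458) (B (L (nat_lit 457) ln13_15_3 ln13_15_3_ok) (L (nat_lit 585) ln10_14_5 ln10_14_5_ok))) (M (nat_lit 524) (B (L (nat_lit 523) ln13_16_1 ln13_16_1_ok) (L (nat_lit 556) ln9_17_2 ln9_17_2_ok))))))))))))))))))) (M (nat_lit 521) (B (L (nat_lit 522) ln13_15_1 ln13_15_1_ok) (M (nat_lit 489) (B (L (nat_lit 520) ln12_15_1 ln12_15_1_ok) (M (nat_lit 457) (B (L (nat_lit 456) ln12_15_3 ln12_15_3_ok) (L (nat_lit 458) ln13_15_3 ln13_15_3_ok)))))))))))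
theorem c11_s7249 : Sem (nat_lit 19180023093141456270994868227393793064975962979706948090394687277743823581181512059937683631514712089077336413480722875194222387086669045060377509888) (nat_lit 2335969600029761085341298584847385296398999331511775108855862605459834659194633694922967136118473809599425387330631220663091705053457608732617308947941485364661378243917126363005306745447725924352) (nat_lit 2335969600029761085341298584847385296398999331511775108855862605459834659194633694922967136118473809599425387330631220663091705053457608732617308947941485364661378243917126363005306745447725924352) :=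
  sem_of_chk (M (nat_lit 493) (B (M (nat_lit 494) (B (M (nat_lit 460) (B (L (nat_lit 428) ln12_15_6 ln12_15_6_ok) (M (nat_lit 459) (B (L (nat_lit 458) ln14_15_3 ln14_15_3_ok) (L (nat_lit 495) ln15_15_3 ln15_15_3_ok))))) (B (M (nat_lit 490) (B (M (nat_lit 458) (B (L (nat_lit 457) ln13_15_3 ln13_15_3_ok) (L (nat_lit 459) ln14_15_3 ln14_15_3_ok))) (M (nat_lit 522) (B (L (nat_lit 521) ln13_15_1 ln13_15_1_ok) (L (nat_lit 523) ln14_15_1 ln14_15_1_ok))))) (M (nat_lit 490) (B (M (nat_lit 522) (B (L (nat_lit 521) ln13_15_1 ln13_15_1_ok) (L (nat_lit 523) ln14_15_1 ln14_15_1_ok))) (M (nat_lit 526) (B (L (nat_lit 525) ln10_15_0 ln10_15_0_ok) (L (nat_lit 527) ln11_15_0 ln11_15_0_ok)))))))) (B (M (nat_lit 494) (B (M (nat_lit 495) (B (M (nat_lit 459) (B (L (nat_lit 458) ln14_15_3 ln14_15_3_ok) (L (nat_lit 460) ln15_15_3 ln15_15_3_ok))) (M (nat_lit 523) (B (L (nat_lit 522) ln14_15_1 ln14_15_1_ok) (L (nat_lit 524)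 ln15_15_1 ln15_15_1_ok))))) (B (M (nat_lit 495) (B (M (nat_lit 523) (B (L (nat_lit 522) ln14_15_1 ln14_15_1_ok) (L (nat_lit 524) ln15_15_1 ln15_15_1_ok))) (M (nat_lit 527) (B (L (nat_lit 526) ln11_15_0 ln11_15_0_ok) (L (nat_lit 528) ln12_15_0 ln12_15_0_ok))))) (B (M (nat_lit 490) (B (M (nat_lit 522) (B (L (nat_lit 521) ln13_15_1 ln13_15_1_ok) (L (nat_lit 523) ln14_15_1 ln14_15_1_ok))) (M (nat_lit 526) (B (L (nat_lit 525) ln10_15_0 ln10_15_0_ok) (L (nat_lit 527) ln11_15_0 ln11_15_0_ok))))) (M (nat_lit 495) (B (M (nat_lit 459) (B (L (nat_lit 458) ln14_15_3 ln14_15_3_ok) (L (nat_lit 460) ln15_15_3 ln15_15_3_ok))) (M (nat_lit 527) (B (L (nat_lit 526) ln11_15_0 ln11_15_0_ok) (L (nat_lit 528) ln12_15_0 ln12_15_0_ok))))))))) (B (M (nat_lit 460) (B (L (nat_lit 428) ln12_15_6 ln12_15_6_ok) (M (nat_lit 494) (B (M (nat_lit 495) (B (L (nat_lit 459) ln15_15_3 ln15_15_3_ok) (M (nat_lit 523) (B (L (nat_lit 522)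 ln14_15_1 ln14_15_1_ok) (L (nat_lit 524) ln15_15_1 ln15_15_1_ok))))) (B (M (nat_lit 495) (B (M (nat_lit 523) (B (L (nat_lit 522) ln14_15_1 ln14_15_1_ok) (L (nat_lit 524) ln15_15_1 ln15_15_1_ok))) (M (nat_lit 527) (B (L (nat_lit 526) ln11_15_0 ln11_15_0_ok) (L (nat_lit 528) ln12_15_0 ln12_15_0_ok))))) (B (M (nat_lit 490) (B (M (nat_lit 522) (B (L (nat_lit 521) ln13_15_1 ln13_15_1_ok) (L (nat_lit 523) ln14_15_1 ln14_15_1_ok))) (M (nat_lit 526) (B (L (nat_lit 525) ln10_15_0 ln10_15_0_ok) (L (nat_lit 527) ln11_15_0 ln11_15_0_ok))))) (M (nat_lit 495) (B (L (nat_lit 459) ln15_15_3 ln15_15_3_ok) (M (nat_lit 527) (B (L (nat_lit 526) ln11_15_0 ln11_15_0_ok) (L (nat_lit 528) ln12_15_0 ln12_15_0_ok))))))))))) (B (M (nat_lit 490) (B (M (nat_lit 489) (B (M (nat_lit 521) (B (L (nat_lit 520) ln12_15_1 ln12_15_1_ok) (L (nat_lit 522) ln13_15_1 ln13_15_1_ok))) (M (nat_lit 525) (B (L (nat_lit 524) ln9_15_0 ln9_15_0_ok)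 (L (nat_lit 526) ln10_15_0 ln10_15_0_ok))))) (B (M (nat_lit 494) (B (M (nat_lit 522) (B (L (nat_lit 521) ln13_15_1 ln13_15_1_ok) (L (nat_lit 523) ln14_15_1 ln14_15_1_ok))) (M (nat_lit 526) (B (L (nat_lit 525) ln10_15_0 ln10_15_0_ok) (L (nat_lit 527) ln11_15_0 ln11_15_0_ok))))) (B (M (nat_lit 489) (B (M (nat_lit 457) (B (L (nat_lit 456) ln12_15_3 ln12_15_3_ok) (L (nat_lit 458) ln13_15_3 ln13_15_3_ok))) (M (nat_lit 525) (B (L (nat_lit 524) ln9_15_0 ln9_15_0_ok) (L (nat_lit 526) ln10_15_0 ln10_15_0_ok))))) (M (nat_lit 521) (B (L (nat_lit 522) ln13_15_1 ln13_15_1_ok) (M (nat_lit 489) (B (L (nat_lit 520) ln12_15_1 ln12_15_1_ok) (M (nat_lit 457) (B (L (nat_lit 456) ln12_15_3 ln12_15_3_ok) (L (nat_lit 458) ln13_15_3 ln13_15_3_ok))))))))))) (B (M (nat_lit 494) (B (M (nat_lit 460) (B (L (nat_lit 428) ln12_15_6 ln12_15_6_ok) (M (nat_lit 459) (B (L (nat_lit 458) ln14_15_3 ln14_15_3_ok) (L (nat_lit 495) ln15_15_3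 ln15_15_3_ok))))) (B (M (nat_lit 495) (B (M (nat_lit 459) (B (L (nat_lit 458) ln14_15_3 ln14_15_3_ok) (L (nat_lit 460) ln15_15_3 ln15_15_3_ok))) (M (nat_lit 527) (B (L (nat_lit 526) ln11_15_0 ln11_15_0_ok) (L (nat_lit 528) ln12_15_0 ln12_15_0_ok))))) (B (M (nat_lit 495) (B (M (nat_lit 460) (B (L (nat_lit 428) ln12_15_6 ln12_15_6_ok) (L (nat_lit 459) ln15_15_3 ln15_15_3_ok))) (M (nat_lit 527) (B (L (nat_lit 526) ln11_15_0 ln11_15_0_ok) (L (nat_lit 528) ln12_15_0 ln12_15_0_ok))))) (B (M (nat_lit 495) (B (M (nat_lit 523) (B (L (nat_lit 522) ln14_15_1 ln14_15_1_ok) (L (nat_lit 524) ln15_15_1 ln15_15_1_ok))) (M (nat_lit 527) (B (L (nat_lit 526) ln11_15_0 ln11_15_0_ok) (L (nat_lit 528) ln12_15_0 ln12_15_0_ok))))) (M (nat_lit 428) (B (L (nat_lit 460) ln12_15_6 ln12_15_6_ok) (M (nat_lit 523) (B (L (nat_lit 522) ln14_15_1 ln14_15_1_ok) (M (nat_lit 459) (B (L (nat_lit 427) ln11_16_6 ln11_16_6_ok) (L (nat_lit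 458) ln14_15_3 ln14_15_3_ok)))))))))))) (B c11_n7212 (B (M (nat_lit 460) (B (L (nat_lit 428) ln12_15_6 ln12_15_6_ok) (M (nat_lit 494) (B (M (nat_lit 459) (B (L (nat_lit 458) ln14_15_3 ln14_15_3_ok) (L (nat_lit 495) ln15_15_3 ln15_15_3_ok))) (B (M (nat_lit 495) (B (L (nat_lit 459) ln15_15_3 ln15_15_3_ok) (M (nat_lit 527) (B (L (nat_lit 526) ln11_15_0 ln11_15_0_ok) (L (nat_lit 528) ln12_15_0 ln12_15_0_ok))))) (B (M (nat_lit 495) (B (M (nat_lit 527) (B (L (nat_lit 526) ln11_15_0 ln11_15_0_ok) (L (nat_lit 528) ln12_15_0 ln12_15_0_ok))) (M (nat_lit 496) (B (M (nat_lit 464) (B (L (nat_lit 463) ln12_15_2 ln12_15_2_ok) (L (nat_lit 465) ln13_15_2 ln13_15_2_ok))) (M (nat_lit 524) (B (L (nat_lit 523) ln15_15_1 ln15_15_1_ok) (L (nat_lit 525) ln16_15_1 ln16_15_1_ok))))))) (M (nat_lit 490) (B (M (nat_lit 458) (B (L (nat_lit 457) ln13_15_3 ln13_15_3_ok) (L (nat_lit 459) ln14_15_3 ln14_15_3_ok))) (M (nat_lit 526)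 (B (L (nat_lit 525) ln10_15_0 ln10_15_0_ok) (L (nat_lit 527) ln11_15_0 ln11_15_0_ok))))))))))) (B (M (nat_lit 490) (B (M (nat_lit 489) (B (M (nat_lit 521) (B (L (nat_lit 520) ln12_15_1 ln12_15_1_ok) (L (nat_lit 522) ln13_15_1 ln13_15_1_ok))) (M (nat_lit 525) (B (L (nat_lit 524) ln9_15_0 ln9_15_0_ok) (L (nat_lit 526) ln10_15_0 ln10_15_0_ok))))) (B (M (nat_lit 494) (B (M (nat_lit 458) (B (L (nat_lit 457) ln13_15_3 ln13_15_3_ok) (L (nat_lit 459) ln14_15_3 ln14_15_3_ok))) (M (nat_lit 526) (B (L (nat_lit 525) ln10_15_0 ln10_15_0_ok) (L (nat_lit 527) ln11_15_0 ln11_15_0_ok))))) (M (nat_lit 521) (B (L (nat_lit 522) ln13_15_1 ln13_15_1_ok) (M (nat_lit 489) (B (L (nat_lit 520) ln12_15_1 ln12_15_1_ok) (M (nat_lit 457) (B (L (nat_lit 456) ln12_15_3 ln12_15_3_ok) (L (nat_lit 458) ln13_15_3 ln13_15_3_ok)))))))))) (M (nat_lit 459) (B (M (nat_lit 460) (B (L (nat_lit 428) ln12_15_6 ln12_15_6_ok) (M (nat_lit 494)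 (B (L (nat_lit 458) ln14_15_3 ln14_15_3_ok) (L (nat_lit 495) ln15_15_3 ln15_15_3_ok))))) (B (M (nat_lit 458) (B (L (nat_lit 494) ln14_15_3 ln14_15_3_ok) (M (nat_lit 457) (B (L (nat_lit 456) ln8_14_0 ln8_14_0_ok) (L (nat_lit 490) ln13_15_3 ln13_15_3_ok))))) (B (M (nat_lit 523) (B (M (nat_lit 428) (B (L (nat_lit 460) ln12_15_6 ln12_15_6_ok) (L (nat_lit 427) ln11_16_6 ln11_16_6_ok))) (M (nat_lit 522) (B (L (nat_lit 494) ln14_15_1 ln14_15_1_ok) (M (nat_lit 521) (B (L (nat_lit 490) ln13_15_1 ln13_15_1_ok) (L (nat_lit 520) ln8_16_2 ln8_16_2_ok))))))) (M (nat_lit 428) (B (L (nat_lit 460) ln12_15_6 ln12_15_6_ok) (M (nat_lit 458) (B (M (nat_lit 427) (B (L (nat_lit 523) ln11_16_6 ln11_16_6_ok) (L (nat_lit 430) ln14_13_1 ln14_13_1_ok))) (M (nat_lit 457) (B (L (nat_lit 456) ln8_14_0 ln8_14_0_ok) (L (nat_lit 490) ln13_15_3 ln13_15_3_ok)))))))))))))))))))) (nat_lit 19180023093141456270994868227393793064975962979706948090394687277743823581181512059937683631514712089077336413480722875194222387086669045060377509888)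 (nat_lit 2335969600029761085341298584847385296398999331511775108855862605459834659194633694922967136118473809599425387330631220663091705053457608732617308947941485364661378243917126363005306745447725924352) (nat_lit 2335969600029761085341298584847385296398999331511775108855862605459834659194633694922967136118473809599425387330631220663091705053457608732617308947941485364661378243917126363005306745447725924352) (by decide +kernel)
theorem c11_s7385 : Sem (nat_lit 22376693608665032315929623790701995362062527477795878548874464004400204241732952054940877081051727867544999190949043257039161114182260249214018650112) (nat_lit 11679847984920016893118418033085709276912660028200008897089350478544660231214079804278491455878390422532719917355322670088968017733652251495607730547310930501020286692514809484412280849806028439552) (nat_lit 11679847984920016893118418033085709276912660028200008897089350478544660231214079804278491455878390422532719917355322670088968017733652251495607730547310930501020286692514809484412280849806028439552)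 :=
  sem_of_chk (M (nat_lit 522) (B (M (nat_lit 521) (B (L (nat_lit 493) ln13_15_1 ln13_15_1_ok) (M (nat_lit 520) (B (L (nat_lit 519) ln7_16_2 ln7_16_2_ok) (L (nat_lit 523) ln8_16_2 ln8_16_2_ok))))) (B (M (nat_lit 554) (B (M (nat_lit 586) (B (L (nat_lit 459) ln10_18_6 ln10_18_6_ok) (M (nat_lit 618) (B (L (nat_lit 523) ln10_19_6 ln10_19_6_ok) (M (nat_lit 617) (B (L (nat_lit 585) ln10_15_5 ln10_15_5_ok) (L (nat_lit 649) ln10_16_5 ln10_16_5_ok))))))) (B (M (nat_lit 586) (B (M (nat_lit 618) (B (L (nat_lit 523) ln10_19_6 ln10_19_6_ok) (M (nat_lit 617) (B (L (nat_lit 585) ln10_15_5 ln10_15_5_ok) (L (nat_lit 649) ln10_16_5 ln10_16_5_ok))))) (B (M (nat_lit 618) (B (M (nat_lit 617) (B (L (nat_lit 585) ln10_15_5 ln10_15_5_ok) (L (nat_lit 649) ln10_16_5 ln10_16_5_ok))) (M (nat_lit 619) (B (L (nat_lit 587) ln10_15_4 ln10_15_4_ok) (L (nat_lit 651) ln10_16_4 ln10_16_4_ok))))) (B (M (nat_lit 618) (B (L (nat_lit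 523) ln10_19_6 ln10_19_6_ok) (M (nat_lit 619) (B (L (nat_lit 587) ln10_15_4 ln10_15_4_ok) (L (nat_lit 651) ln10_16_4 ln10_16_4_ok))))) (M (nat_lit 458) (B (M (nat_lit 585) (B (L (nat_lit 553) ln10_14_5 ln10_14_5_ok) (L (nat_lit 617) ln10_15_5 ln10_15_5_ok))) (M (nat_lit 587) (B (L (nat_lit 555) ln10_14_4 ln10_14_4_ok) (L (nat_lit 619) ln10_15_4 ln10_15_4_ok))))))))) (B (M (nat_lit 586) (B (L (nat_lit 459) ln10_18_6 ln10_18_6_ok) (M (nat_lit 458) (B (M (nat_lit 585) (B (L (nat_lit 553) ln10_14_5 ln10_14_5_ok) (L (nat_lit 617) ln10_15_5 ln10_15_5_ok))) (M (nat_lit 587) (B (L (nat_lit 555) ln10_14_4 ln10_14_4_ok) (L (nat_lit 619) ln10_15_4 ln10_15_4_ok))))))) (B (M (nat_lit 586) (B (L (nat_lit 459) ln10_18_6 ln10_18_6_ok) (M (nat_lit 618) (B (L (nat_lit 523) ln10_19_6 ln10_19_6_ok) (M (nat_lit 619) (B (L (nat_lit 587) ln10_15_4 ln10_15_4_ok) (L (nat_lit 651) ln10_16_4 ln10_16_4_ok))))))) (M (nat_lit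 458) (B (M (nat_lit 457) (B (L (nat_lit 425) ln10_17_7 ln10_17_7_ok) (M (nat_lit 456) (B (L (nat_lit 455) ln7_14_0 ln7_14_0_ok) (L (nat_lit 459) ln8_14_0 ln8_14_0_ok))))) (M (nat_lit 426) (B (M (nat_lit 553) (B (L (nat_lit 521) ln10_13_5 ln10_13_5_ok) (L (nat_lit 585) ln10_14_5 ln10_14_5_ok))) (M (nat_lit 555) (B (L (nat_lit 523) ln10_13_4 ln10_13_4_ok) (L (nat_lit 587) ln10_14_4 ln10_14_4_ok)))))))))))) (B (M (nat_lit 458) (B (M (nat_lit 457) (B (L (nat_lit 493) ln13_15_3 ln13_15_3_ok) (M (nat_lit 456) (B (L (nat_lit 455) ln7_14_0 ln7_14_0_ok) (L (nat_lit 459) ln8_14_0 ln8_14_0_ok))))) (B (M (nat_lit 493) (B (L (nat_lit 457) ln13_15_3 ln13_15_3_ok) (M (nat_lit 494) (B (L (nat_lit 459) ln14_15_3 ln14_15_3_ok) (L (nat_lit 523) ln14_15_1 ln14_15_1_ok))))) (B (M (nat_lit 523) (B (M (nat_lit 555) (B (L (nat_lit 426) ln10_13_4 ln10_13_4_ok) (L (nat_lit 587) ln11_18_7 ln11_18_7_ok))) (M (nat_lit 554) (B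 (M (nat_lit 586) (B (L (nat_lit 459) ln10_18_6 ln10_18_6_ok) (L (nat_lit 618) ln10_19_6 ln10_19_6_ok))) (M (nat_lit 525) (B (M (nat_lit 493) (B (L (nat_lit 526) ln10_15_0 ln10_15_0_ok) (L (nat_lit 494) ln14_15_1 ln14_15_1_ok))) (B (M (nat_lit 524) (B (L (nat_lit 526) ln14_16_3 ln14_16_3_ok) (L (nat_lit 553) ln13_16_1 ln13_16_1_ok))) (M (nat_lit 553) (B (L (nat_lit 585) ln10_14_5 ln10_14_5_ok) (L (nat_lit 524) ln13_16_1 ln13_16_1_ok)))))))))) (B (M (nat_lit 523) (B (M (nat_lit 555) (B (L (nat_lit 426) ln10_13_4 ln10_13_4_ok) (L (nat_lit 587) ln11_18_7 ln11_18_7_ok))) (M (nat_lit 493) (B (L (nat_lit 457) ln13_15_3 ln13_15_3_ok) (L (nat_lit 494) ln14_15_1 ln14_15_1_ok))))) (M (nat_lit 523) (B (M (nat_lit 555) (B (L (nat_lit 426) ln10_13_4 ln10_13_4_ok) (L (nat_lit 587) ln11_18_7 ln11_18_7_ok))) (M (nat_lit 554) (B (M (nat_lit 586) (B (L (nat_lit 459) ln10_18_6 ln10_18_6_ok) (L (nat_lit 618) ln10_19_6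 ln10_19_6_ok))) (B (M (nat_lit 585) (B (L (nat_lit 553) ln10_14_5 ln10_14_5_ok) (M (nat_lit 586) (B (L (nat_lit 617) ln10_15_5 ln10_15_5_ok) (L (nat_lit 618) ln10_19_6 ln10_19_6_ok))))) (M (nat_lit 457) (B (L (nat_lit 425) ln10_17_7 ln10_17_7_ok) (M (nat_lit 456) (B (L (nat_lit 455) ln7_14_0 ln7_14_0_ok) (L (nat_lit 459) ln8_14_0 ln8_14_0_ok))))))))))))))) (M (nat_lit 458) (B (M (nat_lit 493) (B (L (nat_lit 457) ln13_15_3 ln13_15_3_ok) (L (nat_lit 521) ln13_15_1 ln13_15_1_ok))) (B (M (nat_lit 521) (B (L (nat_lit 493) ln13_15_1 ln13_15_1_ok) (M (nat_lit 553) (B (L (nat_lit 426) ln10_13_5 ln10_13_5_ok) (M (nat_lit 585) (B (L (nat_lit 554) ln10_14_5 ln10_14_5_ok) (L (nat_lit 617) ln9_19_6 ln9_19_6_ok))))))) (M (nat_lit 554) (B (M (nat_lit 586) (B (L (nat_lit 459) ln10_18_6 ln10_18_6_ok) (M (nat_lit 585) (B (L (nat_lit 553) ln10_14_5 ln10_14_5_ok) (L (nat_lit 617) ln10_15_5 ln10_15_5_ok))))) (B (M (nat_lit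 586) (B (M (nat_lit 585) (B (L (nat_lit 553) ln10_14_5 ln10_14_5_ok) (L (nat_lit 617) ln10_15_5 ln10_15_5_ok))) (M (nat_lit 587) (B (L (nat_lit 555) ln10_14_4 ln10_14_4_ok) (L (nat_lit 619) ln10_15_4 ln10_15_4_ok))))) (B (M (nat_lit 586) (B (L (nat_lit 459) ln10_18_6 ln10_18_6_ok) (M (nat_lit 587) (B (L (nat_lit 555) ln10_14_4 ln10_14_4_ok) (L (nat_lit 619) ln10_15_4 ln10_15_4_ok))))) (M (nat_lit 457) (B (L (nat_lit 425) ln10_17_7 ln10_17_7_ok) (M (nat_lit 456) (B (L (nat_lit 455) ln7_14_0 ln7_14_0_ok) (L (nat_lit 459) ln8_14_0 ln8_14_0_ok)))))))))))))))) (nat_lit 22376693608665032315929623790701995362062527477795878548874464004400204241732952054940877081051727867544999190949043257039161114182260249214018650112) (nat_lit 11679847984920016893118418033085709276912660028200008897089350478544660231214079804278491455878390422532719917355322670088968017733652251495607730547310930501020286692514809484412280849806028439552)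 (nat_lit 11679847984920016893118418033085709276912660028200008897089350478544660231214079804278491455878390422532719917355322670088968017733652251495607730547310930501020286692514809484412280849806028439552) (by decide +kernel)
theorem c11_s7421 : Sem (nat_lit 19180023093141456270994868227393793064975962979706948090394687277743823581181512059937683631514712089077336413480722875194222387086669045060377509888) (nat_lit 11679847985191959545503919370406635240108971756686578000001713263441873879990988225416624515585565539051099162118875664632102954727188393437354997552706854056409682013534337842200891696099841015808) (nat_lit 11679847985191959545503919370406635240108971756686578000001713263441873879990988225416624515585565539051099162118875664632102954727188393437354997552706854056409682013534337842200891696099841015808) :=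
  sem_of_chk (M (nat_lit 490) (B (M (nat_lit 489) (B (M (nat_lit 521) (B (L (nat_lit 520) ln12_15_1 ln12_15_1_ok) (M (nat_lit 457) (B (L (nat_lit 456) ln12_15_3 ln12_15_3_ok) (M (nat_lit 493) (B (L (nat_lit 458) ln13_15_3 ln13_15_3_ok) (L (nat_lit 522) ln13_15_1 ln13_15_1_ok))))))) (M (nat_lit 488) (B (M (nat_lit 460) (B (L (nat_lit 428) ln12_15_6 ln12_15_6_ok) (L (nat_lit 459) ln8_15_2 ln8_15_2_ok))) (M (nat_lit 524) (B (L (nat_lit 523) ln8_15_0 ln8_15_0_ok) (L (nat_lit 525) ln9_15_0 ln9_15_0_ok))))))) (B (M (nat_lit 489) (B (M (nat_lit 493) (B (M (nat_lit 521) (B (L (nat_lit 520) ln12_15_1 ln12_15_1_ok) (L (nat_lit 522) ln13_15_1 ln13_15_1_ok))) (M (nat_lit 525) (B (L (nat_lit 524) ln9_15_0 ln9_15_0_ok) (L (nat_lit 526) ln10_15_0 ln10_15_0_ok))))) (B (M (nat_lit 488) (B (M (nat_lit 456) (B (L (nat_lit 455) ln11_15_3 ln11_15_3_ok) (L (nat_lit 457) ln12_15_3 ln12_15_3_ok))) (M (nat_lit 520) (B (L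 (nat_lit 519) ln11_15_1 ln11_15_1_ok) (L (nat_lit 521) ln12_15_1 ln12_15_1_ok))))) (M (nat_lit 493) (B (M (nat_lit 457) (B (L (nat_lit 456) ln12_15_3 ln12_15_3_ok) (L (nat_lit 458) ln13_15_3 ln13_15_3_ok))) (M (nat_lit 525) (B (L (nat_lit 524) ln9_15_0 ln9_15_0_ok) (L (nat_lit 526) ln10_15_0 ln10_15_0_ok)))))))) (B (M (nat_lit 489) (B (M (nat_lit 488) (B (M (nat_lit 460) (B (L (nat_lit 428) ln12_15_6 ln12_15_6_ok) (L (nat_lit 459) ln8_15_2 ln8_15_2_ok))) (M (nat_lit 520) (B (L (nat_lit 519) ln11_15_1 ln11_15_1_ok) (L (nat_lit 521) ln12_15_1 ln12_15_1_ok))))) (B (M (nat_lit 488) (B (M (nat_lit 520) (B (L (nat_lit 519) ln11_15_1 ln11_15_1_ok) (L (nat_lit 521) ln12_15_1 ln12_15_1_ok))) (M (nat_lit 524) (B (L (nat_lit 523) ln8_15_0 ln8_15_0_ok) (L (nat_lit 525) ln9_15_0 ln9_15_0_ok))))) (B (M (nat_lit 493) (B (M (nat_lit 521) (B (L (nat_lit 520) ln12_15_1 ln12_15_1_ok) (L (nat_lit 522) ln13_15_1 ln13_15_1_ok)))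 (M (nat_lit 525) (B (L (nat_lit 524) ln9_15_0 ln9_15_0_ok) (L (nat_lit 526) ln10_15_0 ln10_15_0_ok))))) (M (nat_lit 488) (B (M (nat_lit 460) (B (L (nat_lit 428) ln12_15_6 ln12_15_6_ok) (L (nat_lit 459) ln8_15_2 ln8_15_2_ok))) (M (nat_lit 524) (B (L (nat_lit 523) ln8_15_0 ln8_15_0_ok) (L (nat_lit 525) ln9_15_0 ln9_15_0_ok))))))))) (B (M (nat_lit 493) (B (M (nat_lit 489) (B (M (nat_lit 521) (B (L (nat_lit 520) ln12_15_1 ln12_15_1_ok) (L (nat_lit 522) ln13_15_1 ln13_15_1_ok))) (M (nat_lit 525) (B (L (nat_lit 524) ln9_15_0 ln9_15_0_ok) (L (nat_lit 526) ln10_15_0 ln10_15_0_ok))))) (B (M (nat_lit 522) (B (L (nat_lit 521) ln13_15_1 ln13_15_1_ok) (M (nat_lit 494) (B (L (nat_lit 523) ln14_15_1 ln14_15_1_ok) (M (nat_lit 458) (B (L (nat_lit 457) ln13_15_3 ln13_15_3_ok) (L (nat_lit 459) ln14_15_3 ln14_15_3_ok))))))) (M (nat_lit 489) (B (M (nat_lit 457) (B (L (nat_lit 456) ln12_15_3 ln12_15_3_ok) (L (nat_lit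 458) ln13_15_3 ln13_15_3_ok))) (M (nat_lit 525) (B (L (nat_lit 524) ln9_15_0 ln9_15_0_ok) (L (nat_lit 526) ln10_15_0 ln10_15_0_ok)))))))) (B (K (nat_lit 22376693608665032315929623790701995362062527477795878548874464004400204241732952054940877081051727867544999190949043257039161114182260249214018650112) (nat_lit 11679847984920016893118418033085709276912660028200008897089350478544660231214079804278491455878390422532719917355322670088968017733652251495607730547310930501020286692514809484412280849806028439552) (nat_lit 11679847984920016893118418033085709276912660028200008897089350478544660231214079804278491455878390422532719917355322670088968017733652251495607730547310930501020286692514809484412280849806028439552) c11_s7385) (B (M (nat_lit 489) (B (M (nat_lit 460) (B (L (nat_lit 428) ln12_15_6 ln12_15_6_ok) (M (nat_lit 488) (B (L (nat_lit 459) ln8_15_2 ln8_15_2_ok) (M (nat_lit 456) (B (L (nat_lit 455)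 ln11_15_3 ln11_15_3_ok) (L (nat_lit 457) ln12_15_3 ln12_15_3_ok))))))) (B (M (nat_lit 488) (B (M (nat_lit 456) (B (L (nat_lit 455) ln11_15_3 ln11_15_3_ok) (L (nat_lit 457) ln12_15_3 ln12_15_3_ok))) (M (nat_lit 520) (B (L (nat_lit 519) ln11_15_1 ln11_15_1_ok) (L (nat_lit 521) ln12_15_1 ln12_15_1_ok))))) (B (M (nat_lit 488) (B (M (nat_lit 460) (B (L (nat_lit 428) ln12_15_6 ln12_15_6_ok) (L (nat_lit 459) ln8_15_2 ln8_15_2_ok))) (M (nat_lit 524) (B (L (nat_lit 523) ln8_15_0 ln8_15_0_ok) (L (nat_lit 525) ln9_15_0 ln9_15_0_ok))))) (M (nat_lit 521) (B (L (nat_lit 520) ln12_15_1 ln12_15_1_ok) (M (nat_lit 457) (B (L (nat_lit 456) ln12_15_3 ln12_15_3_ok) (M (nat_lit 553) (B (M (nat_lit 458) (B (L (nat_lit 426) ln9_17_6 ln9_17_6_ok) (L (nat_lit 585) ln9_18_6 ln9_18_6_ok))) (B (M (nat_lit 585) (B (L (nat_lit 458) ln9_18_6 ln9_18_6_ok) (M (nat_lit 584) (B (L (nat_lit 552) ln9_14_5 ln9_14_5_ok) (L (nat_lit 616)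 ln9_15_5 ln9_15_5_ok))))) (B (M (nat_lit 585) (B (M (nat_lit 584) (B (L (nat_lit 552) ln9_14_5 ln9_14_5_ok) (L (nat_lit 616) ln9_15_5 ln9_15_5_ok))) (M (nat_lit 586) (B (L (nat_lit 554) ln9_14_4 ln9_14_4_ok) (L (nat_lit 618) ln9_15_4 ln9_15_4_ok))))) (M (nat_lit 425) (B (M (nat_lit 426) (B (L (nat_lit 394) ln9_16_6 ln9_16_6_ok) (L (nat_lit 458) ln9_17_6 ln9_17_6_ok))) (M (nat_lit 554) (B (L (nat_lit 522) ln9_13_4 ln9_13_4_ok) (L (nat_lit 586) ln9_14_4 ln9_14_4_ok))))))))))))))))) (B (M (nat_lit 489) (B (M (nat_lit 460) (B (L (nat_lit 428) ln12_15_6 ln12_15_6_ok) (M (nat_lit 488) (B (L (nat_lit 459) ln8_15_2 ln8_15_2_ok) (M (nat_lit 456) (B (L (nat_lit 455) ln11_15_3 ln11_15_3_ok) (L (nat_lit 457) ln12_15_3 ln12_15_3_ok))))))) (B (M (nat_lit 488) (B (M (nat_lit 456) (B (L (nat_lit 455) ln11_15_3 ln11_15_3_ok) (L (nat_lit 457) ln12_15_3 ln12_15_3_ok))) (M (nat_lit 524) (B (L (nat_lit 523) ln8_15_0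 ln8_15_0_ok) (L (nat_lit 525) ln9_15_0 ln9_15_0_ok))))) (B (M (nat_lit 488) (B (M (nat_lit 460) (B (L (nat_lit 428) ln12_15_6 ln12_15_6_ok) (L (nat_lit 459) ln8_15_2 ln8_15_2_ok))) (M (nat_lit 524) (B (L (nat_lit 523) ln8_15_0 ln8_15_0_ok) (L (nat_lit 525) ln9_15_0 ln9_15_0_ok))))) (M (nat_lit 493) (B (M (nat_lit 457) (B (L (nat_lit 456) ln12_15_3 ln12_15_3_ok) (L (nat_lit 458) ln13_15_3 ln13_15_3_ok))) (M (nat_lit 525) (B (L (nat_lit 524) ln9_15_0 ln9_15_0_ok) (L (nat_lit 526) ln10_15_0 ln10_15_0_ok))))))))) (M (nat_lit 489) (B (M (nat_lit 488) (B (M (nat_lit 460) (B (L (nat_lit 428) ln12_15_6 ln12_15_6_ok) (L (nat_lit 459) ln8_15_2 ln8_15_2_ok))) (M (nat_lit 520) (B (L (nat_lit 519) ln11_15_1 ln11_15_1_ok) (L (nat_lit 521) ln12_15_1 ln12_15_1_ok))))) (B (M (nat_lit 488) (B (M (nat_lit 456) (B (L (nat_lit 455) ln11_15_3 ln11_15_3_ok) (L (nat_lit 457) ln12_15_3 ln12_15_3_ok))) (M (nat_lit 520) (B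 (L (nat_lit 519) ln11_15_1 ln11_15_1_ok) (L (nat_lit 521) ln12_15_1 ln12_15_1_ok))))) (B (M (nat_lit 521) (B (L (nat_lit 520) ln12_15_1 ln12_15_1_ok) (M (nat_lit 457) (B (L (nat_lit 456) ln12_15_3 ln12_15_3_ok) (M (nat_lit 493) (B (L (nat_lit 458) ln13_15_3 ln13_15_3_ok) (L (nat_lit 522) ln13_15_1 ln13_15_1_ok))))))) (M (nat_lit 460) (B (L (nat_lit 428) ln12_15_6 ln12_15_6_ok) (M (nat_lit 488) (B (L (nat_lit 459) ln8_15_2 ln8_15_2_ok) (M (nat_lit 456) (B (L (nat_lit 455) ln11_15_3 ln11_15_3_ok) (L (nat_lit 457) ln12_15_3 ln12_15_3_ok))))))))))))))))))) (nat_lit 19180023093141456270994868227393793064975962979706948090394687277743823581181512059937683631514712089077336413480722875194222387086669045060377509888) (nat_lit 11679847985191959545503919370406635240108971756686578000001713263441873879990988225416624515585565539051099162118875664632102954727188393437354997552706854056409682013534337842200891696099841015808)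 (nat_lit 11679847985191959545503919370406635240108971756686578000001713263441873879990988225416624515585565539051099162118875664632102954727188393437354997552706854056409682013534337842200891696099841015808) (by decide +kernel)
noncomputable def c11_n7481 : Cert := (M (nat_lit 522) (B (M (nat_lit 521) (B (L (nat_lit 493) ln13_15_1 ln13_15_1_ok) (M (nat_lit 520) (B (L (nat_lit 519) ln7_16_2 ln7_16_2_ok) (L (nat_lit 523) ln8_16_2 ln8_16_2_ok))))) (B (M (nat_lit 554) (B (M (nat_lit 459) (B (L (nat_lit 586) ln10_18_6 ln10_18_6_ok) (M (nat_lit 427) (B (L (nat_lit 458) ln10_17_6 ln10_17_6_ok) (L (nat_lit 523) ln11_13_5 ln11_13_5_ok))))) (B (M (nat_lit 586) (B (L (nat_lit 459) ln10_18_6 ln10_18_6_ok) (M (nat_lit 618) (B (L (nat_lit 523) ln10_19_6 ln10_19_6_ok) (M (nat_lit 617) (B (L (nat_lit 585) ln10_15_5 ln10_15_5_ok) (L (nat_lit 649) ln10_16_5 ln10_16_5_ok))))))) (B (M (nat_lit 586) (B (M (nat_lit 618)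 (B (L (nat_lit 523) ln10_19_6 ln10_19_6_ok) (M (nat_lit 617) (B (L (nat_lit 585) ln10_15_5 ln10_15_5_ok) (L (nat_lit 649) ln10_16_5 ln10_16_5_ok))))) (B (M (nat_lit 618) (B (M (nat_lit 617) (B (L (nat_lit 585) ln10_15_5 ln10_15_5_ok) (L (nat_lit 649) ln10_16_5 ln10_16_5_ok))) (M (nat_lit 619) (B (L (nat_lit 587) ln10_15_4 ln10_15_4_ok) (L (nat_lit 651) ln10_16_4 ln10_16_4_ok))))) (B (M (nat_lit 618) (B (L (nat_lit 523) ln10_19_6 ln10_19_6_ok) (M (nat_lit 619) (B (L (nat_lit 587) ln10_15_4 ln10_15_4_ok) (L (nat_lit 651) ln10_16_4 ln10_16_4_ok))))) (M (nat_lit 458) (B (M (nat_lit 585) (B (L (nat_lit 553) ln10_14_5 ln10_14_5_ok) (L (nat_lit 617) ln10_15_5 ln10_15_5_ok))) (M (nat_lit 587) (B (L (nat_lit 555) ln10_14_4 ln10_14_4_ok) (L (nat_lit 619) ln10_15_4 ln10_15_4_ok))))))))) (B (M (nat_lit 459) (B (L (nat_lit 586) ln10_18_6 ln10_18_6_ok) (M (nat_lit 458) (B (L (nat_lit 427) ln10_17_6 ln10_17_6_ok)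 (M (nat_lit 457) (B (L (nat_lit 425) ln10_17_7 ln10_17_7_ok) (L (nat_lit 456) ln8_14_0 ln8_14_0_ok))))))) (M (nat_lit 458) (B (M (nat_lit 457) (B (L (nat_lit 425) ln10_17_7 ln10_17_7_ok) (M (nat_lit 456) (B (L (nat_lit 455) ln7_14_0 ln7_14_0_ok) (L (nat_lit 459) ln8_14_0 ln8_14_0_ok))))) (M (nat_lit 426) (B (M (nat_lit 553) (B (L (nat_lit 521) ln10_13_5 ln10_13_5_ok) (L (nat_lit 585) ln10_14_5 ln10_14_5_ok))) (M (nat_lit 555) (B (L (nat_lit 523) ln10_13_4 ln10_13_4_ok) (L (nat_lit 587) ln10_14_4 ln10_14_4_ok)))))))))))) (B (M (nat_lit 554) (B (M (nat_lit 459) (B (L (nat_lit 586) ln10_18_6 ln10_18_6_ok) (M (nat_lit 427) (B (L (nat_lit 458) ln10_17_6 ln10_17_6_ok) (L (nat_lit 523) ln11_13_5 ln11_13_5_ok))))) (B (M (nat_lit 586) (B (L (nat_lit 459) ln10_18_6 ln10_18_6_ok) (M (nat_lit 618) (B (L (nat_lit 523) ln10_19_6 ln10_19_6_ok) (M (nat_lit 619) (B (L (nat_lit 587) ln10_15_4 ln10_15_4_ok) (L (nat_lit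 651) ln10_16_4 ln10_16_4_ok))))))) (B (M (nat_lit 586) (B (M (nat_lit 618) (B (L (nat_lit 523) ln10_19_6 ln10_19_6_ok) (M (nat_lit 619) (B (L (nat_lit 587) ln10_15_4 ln10_15_4_ok) (L (nat_lit 651) ln10_16_4 ln10_16_4_ok))))) (B (M (nat_lit 458) (B (M (nat_lit 457) (B (L (nat_lit 425) ln10_17_7 ln10_17_7_ok) (L (nat_lit 493) ln13_15_3 ln13_15_3_ok))) (M (nat_lit 587) (B (L (nat_lit 555) ln10_14_4 ln10_14_4_ok) (L (nat_lit 619) ln10_15_4 ln10_15_4_ok))))) (M (nat_lit 458) (B (M (nat_lit 457) (B (L (nat_lit 425) ln10_17_7 ln10_17_7_ok) (L (nat_lit 493) ln13_15_3 ln13_15_3_ok))) (M (nat_lit 585) (B (L (nat_lit 553) ln10_14_5 ln10_14_5_ok) (L (nat_lit 617) ln10_15_5 ln10_15_5_ok)))))))) (B (M (nat_lit 458) (B (M (nat_lit 459) (B (L (nat_lit 427) ln10_17_6 ln10_17_6_ok) (L (nat_lit 586) ln10_18_6 ln10_18_6_ok))) (M (nat_lit 457) (B (L (nat_lit 425) ln10_17_7 ln10_17_7_ok) (L (nat_lit 493) ln13_15_3 ln13_15_3_ok)))))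 (M (nat_lit 458) (B (M (nat_lit 457) (B (L (nat_lit 425) ln10_17_7 ln10_17_7_ok) (L (nat_lit 493) ln13_15_3 ln13_15_3_ok))) (B (M (nat_lit 459) (B (L (nat_lit 427) ln10_17_6 ln10_17_6_ok) (M (nat_lit 493) (B (L (nat_lit 457) ln13_15_3 ln13_15_3_ok) (L (nat_lit 494) ln14_15_3 ln14_15_3_ok))))) (B (M (nat_lit 523) (B (M (nat_lit 555) (B (L (nat_lit 426) ln10_13_4 ln10_13_4_ok) (L (nat_lit 587) ln11_18_7 ln11_18_7_ok))) (M (nat_lit 525) (B (M (nat_lit 493) (B (L (nat_lit 526) ln10_15_0 ln10_15_0_ok) (L (nat_lit 494) ln14_15_1 ln14_15_1_ok))) (B (M (nat_lit 524) (B (L (nat_lit 526) ln14_16_3 ln14_16_3_ok) (L (nat_lit 553) ln13_16_1 ln13_16_1_ok))) (M (nat_lit 553) (B (L (nat_lit 585) ln10_14_5 ln10_14_5_ok) (L (nat_lit 524) ln13_16_1 ln13_16_1_ok)))))))) (M (nat_lit 459) (B (L (nat_lit 427) ln10_17_6 ln10_17_6_ok) (M (nat_lit 457) (B (L (nat_lit 425) ln10_17_7 ln10_17_7_ok) (L (nat_lit 456) ln8_14_0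 ln8_14_0_ok)))))))))))))) (M (nat_lit 493) (B (L (nat_lit 521) ln13_15_1 ln13_15_1_ok) (M (nat_lit 458) (B (L (nat_lit 457) ln13_15_3 ln13_15_3_ok) (M (nat_lit 459) (B (L (nat_lit 494) ln14_15_3 ln14_15_3_ok) (M (nat_lit 554) (B (L (nat_lit 427) ln10_17_6 ln10_17_6_ok) (L (nat_lit 586) ln10_18_6 ln10_18_6_ok)))))))))))))
theorem c11_s7499 : Sem (nat_lit 19180023093141456270994868227393793064975962979706948090394687277743823581181512059937683631514712089077336413480722875194222387086669045060377509888) (nat_lit 11679847985191959545503919370406635240549176906642852931789414616866593399623034344191707326042427372262836524566518444857882272650841995760083423517359705992656540895867412101586720928812408766464) (nat_lit 11679847985191959545503919370406635240549176906642852931789414616866593399623034344191707326042427372262836524566518444857882272650841995760083423517359705992656540895867412101586720928812408766464)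 :=
  sem_of_chk (M (nat_lit 490) (B (M (nat_lit 489) (B (M (nat_lit 488) (B (M (nat_lit 456) (B (L (nat_lit 455) ln11_15_3 ln11_15_3_ok) (L (nat_lit 457) ln12_15_3 ln12_15_3_ok))) (M (nat_lit 520) (B (L (nat_lit 519) ln11_15_1 ln11_15_1_ok) (L (nat_lit 521) ln12_15_1 ln12_15_1_ok))))) (B (M (nat_lit 488) (B (M (nat_lit 520) (B (L (nat_lit 519) ln11_15_1 ln11_15_1_ok) (L (nat_lit 521) ln12_15_1 ln12_15_1_ok))) (M (nat_lit 524) (B (L (nat_lit 523) ln8_15_0 ln8_15_0_ok) (L (nat_lit 525) ln9_15_0 ln9_15_0_ok))))) (B (M (nat_lit 521) (B (L (nat_lit 520) ln12_15_1 ln12_15_1_ok) (M (nat_lit 457) (B (L (nat_lit 456) ln12_15_3 ln12_15_3_ok) (M (nat_lit 493) (B (L (nat_lit 458) ln13_15_3 ln13_15_3_ok) (L (nat_lit 522) ln13_15_1 ln13_15_1_ok))))))) (M (nat_lit 488) (B (M (nat_lit 456) (B (L (nat_lit 455) ln11_15_3 ln11_15_3_ok) (L (nat_lit 457) ln12_15_3 ln12_15_3_ok))) (M (nat_lit 524) (B (L (nat_lit 523)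 ln8_15_0 ln8_15_0_ok) (L (nat_lit 525) ln9_15_0 ln9_15_0_ok))))))))) (B (M (nat_lit 489) (B (M (nat_lit 521) (B (L (nat_lit 520) ln12_15_1 ln12_15_1_ok) (M (nat_lit 457) (B (L (nat_lit 456) ln12_15_3 ln12_15_3_ok) (M (nat_lit 493) (B (L (nat_lit 458) ln13_15_3 ln13_15_3_ok) (L (nat_lit 522) ln13_15_1 ln13_15_1_ok))))))) (B (M (nat_lit 493) (B (M (nat_lit 521) (B (L (nat_lit 520) ln12_15_1 ln12_15_1_ok) (L (nat_lit 522) ln13_15_1 ln13_15_1_ok))) (M (nat_lit 525) (B (L (nat_lit 524) ln9_15_0 ln9_15_0_ok) (L (nat_lit 526) ln10_15_0 ln10_15_0_ok))))) (B (M (nat_lit 488) (B (M (nat_lit 520) (B (L (nat_lit 519) ln11_15_1 ln11_15_1_ok) (L (nat_lit 521) ln12_15_1 ln12_15_1_ok))) (M (nat_lit 524) (B (L (nat_lit 523) ln8_15_0 ln8_15_0_ok) (L (nat_lit 525) ln9_15_0 ln9_15_0_ok))))) (M (nat_lit 493) (B (M (nat_lit 457) (B (L (nat_lit 456) ln12_15_3 ln12_15_3_ok) (L (nat_lit 458) ln13_15_3 ln13_15_3_ok))) (M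 (nat_lit 525) (B (L (nat_lit 524) ln9_15_0 ln9_15_0_ok) (L (nat_lit 526) ln10_15_0 ln10_15_0_ok))))))))) (B (M (nat_lit 493) (B (M (nat_lit 522) (B (L (nat_lit 521) ln13_15_1 ln13_15_1_ok) (M (nat_lit 494) (B (L (nat_lit 523) ln14_15_1 ln14_15_1_ok) (M (nat_lit 458) (B (L (nat_lit 457) ln13_15_3 ln13_15_3_ok) (L (nat_lit 459) ln14_15_3 ln14_15_3_ok))))))) (B (M (nat_lit 494) (B (M (nat_lit 522) (B (L (nat_lit 521) ln13_15_1 ln13_15_1_ok) (L (nat_lit 523) ln14_15_1 ln14_15_1_ok))) (M (nat_lit 526) (B (L (nat_lit 525) ln10_15_0 ln10_15_0_ok) (L (nat_lit 527) ln11_15_0 ln11_15_0_ok))))) (B (M (nat_lit 489) (B (M (nat_lit 521) (B (L (nat_lit 520) ln12_15_1 ln12_15_1_ok) (L (nat_lit 522) ln13_15_1 ln13_15_1_ok))) (M (nat_lit 525) (B (L (nat_lit 524) ln9_15_0 ln9_15_0_ok) (L (nat_lit 526) ln10_15_0 ln10_15_0_ok))))) (M (nat_lit 494) (B (M (nat_lit 458) (B (L (nat_lit 457) ln13_15_3 ln13_15_3_ok) (L (nat_lit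 459) ln14_15_3 ln14_15_3_ok))) (M (nat_lit 526) (B (L (nat_lit 525) ln10_15_0 ln10_15_0_ok) (L (nat_lit 527) ln11_15_0 ln11_15_0_ok))))))))) (B (M (nat_lit 489) (B (M (nat_lit 488) (B (M (nat_lit 520) (B (L (nat_lit 519) ln11_15_1 ln11_15_1_ok) (L (nat_lit 521) ln12_15_1 ln12_15_1_ok))) (M (nat_lit 524) (B (L (nat_lit 523) ln8_15_0 ln8_15_0_ok) (L (nat_lit 525) ln9_15_0 ln9_15_0_ok))))) (B (M (nat_lit 493) (B (M (nat_lit 521) (B (L (nat_lit 520) ln12_15_1 ln12_15_1_ok) (L (nat_lit 522) ln13_15_1 ln13_15_1_ok))) (M (nat_lit 525) (B (L (nat_lit 524) ln9_15_0 ln9_15_0_ok) (L (nat_lit 526) ln10_15_0 ln10_15_0_ok))))) (B (M (nat_lit 488) (B (M (nat_lit 524) (B (L (nat_lit 523) ln8_15_0 ln8_15_0_ok) (L (nat_lit 525) ln9_15_0 ln9_15_0_ok))) (M (nat_lit 487) (B (M (nat_lit 455) (B (L (nat_lit 454) ln10_15_3 ln10_15_3_ok) (L (nat_lit 456) ln11_15_3 ln11_15_3_ok))) (M (nat_lit 459) (B (L (nat_lit 458) ln7_15_2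 ln7_15_2_ok) (L (nat_lit 460) ln8_15_2 ln8_15_2_ok))))))) (M (nat_lit 488) (B (M (nat_lit 520) (B (L (nat_lit 519) ln11_15_1 ln11_15_1_ok) (L (nat_lit 521) ln12_15_1 ln12_15_1_ok))) (M (nat_lit 487) (B (M (nat_lit 455) (B (L (nat_lit 454) ln10_15_3 ln10_15_3_ok) (L (nat_lit 456) ln11_15_3 ln11_15_3_ok))) (M (nat_lit 459) (B (L (nat_lit 458) ln7_15_2 ln7_15_2_ok) (L (nat_lit 460) ln8_15_2 ln8_15_2_ok))))))))))) (B (M (nat_lit 489) (B (M (nat_lit 488) (B (M (nat_lit 456) (B (L (nat_lit 455) ln11_15_3 ln11_15_3_ok) (L (nat_lit 457) ln12_15_3 ln12_15_3_ok))) (M (nat_lit 524) (B (L (nat_lit 523) ln8_15_0 ln8_15_0_ok) (L (nat_lit 525) ln9_15_0 ln9_15_0_ok))))) (B (M (nat_lit 488) (B (M (nat_lit 520) (B (L (nat_lit 519) ln11_15_1 ln11_15_1_ok) (L (nat_lit 521) ln12_15_1 ln12_15_1_ok))) (M (nat_lit 524) (B (L (nat_lit 523) ln8_15_0 ln8_15_0_ok) (L (nat_lit 525) ln9_15_0 ln9_15_0_ok))))) (B (M (nat_lit 493)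 (B (M (nat_lit 521) (B (L (nat_lit 520) ln12_15_1 ln12_15_1_ok) (L (nat_lit 522) ln13_15_1 ln13_15_1_ok))) (M (nat_lit 525) (B (L (nat_lit 524) ln9_15_0 ln9_15_0_ok) (L (nat_lit 526) ln10_15_0 ln10_15_0_ok))))) (M (nat_lit 488) (B (M (nat_lit 456) (B (L (nat_lit 455) ln11_15_3 ln11_15_3_ok) (L (nat_lit 457) ln12_15_3 ln12_15_3_ok))) (M (nat_lit 520) (B (L (nat_lit 519) ln11_15_1 ln11_15_1_ok) (L (nat_lit 521) ln12_15_1 ln12_15_1_ok))))))))) (B c11_n7481 (B (M (nat_lit 489) (B (M (nat_lit 488) (B (M (nat_lit 520) (B (L (nat_lit 519) ln11_15_1 ln11_15_1_ok) (L (nat_lit 521) ln12_15_1 ln12_15_1_ok))) (M (nat_lit 524) (B (L (nat_lit 523) ln8_15_0 ln8_15_0_ok) (L (nat_lit 525) ln9_15_0 ln9_15_0_ok))))) (B (M (nat_lit 521) (B (L (nat_lit 520) ln12_15_1 ln12_15_1_ok) (M (nat_lit 457) (B (L (nat_lit 456) ln12_15_3 ln12_15_3_ok) (M (nat_lit 553) (B (M (nat_lit 458) (B (L (nat_lit 426) ln9_17_6 ln9_17_6_ok)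 (L (nat_lit 585) ln9_18_6 ln9_18_6_ok))) (B (M (nat_lit 585) (B (L (nat_lit 458) ln9_18_6 ln9_18_6_ok) (M (nat_lit 584) (B (L (nat_lit 552) ln9_14_5 ln9_14_5_ok) (L (nat_lit 616) ln9_15_5 ln9_15_5_ok))))) (B (M (nat_lit 585) (B (M (nat_lit 584) (B (L (nat_lit 552) ln9_14_5 ln9_14_5_ok) (L (nat_lit 616) ln9_15_5 ln9_15_5_ok))) (M (nat_lit 586) (B (L (nat_lit 554) ln9_14_4 ln9_14_4_ok) (L (nat_lit 618) ln9_15_4 ln9_15_4_ok))))) (M (nat_lit 425) (B (M (nat_lit 426) (B (L (nat_lit 394) ln9_16_6 ln9_16_6_ok) (L (nat_lit 458) ln9_17_6 ln9_17_6_ok))) (M (nat_lit 554) (B (L (nat_lit 522) ln9_13_4 ln9_13_4_ok) (L (nat_lit 586) ln9_14_4 ln9_14_4_ok))))))))))))) (M (nat_lit 488) (B (M (nat_lit 456) (B (L (nat_lit 455) ln11_15_3 ln11_15_3_ok) (L (nat_lit 457) ln12_15_3 ln12_15_3_ok))) (M (nat_lit 524) (B (L (nat_lit 523) ln8_15_0 ln8_15_0_ok) (L (nat_lit 525) ln9_15_0 ln9_15_0_ok)))))))) (B (M (nat_lit 493)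 (B (M (nat_lit 522) (B (L (nat_lit 521) ln13_15_1 ln13_15_1_ok) (M (nat_lit 494) (B (L (nat_lit 523) ln14_15_1 ln14_15_1_ok) (M (nat_lit 458) (B (L (nat_lit 457) ln13_15_3 ln13_15_3_ok) (L (nat_lit 459) ln14_15_3 ln14_15_3_ok))))))) (B (M (nat_lit 494) (B (M (nat_lit 522) (B (L (nat_lit 521) ln13_15_1 ln13_15_1_ok) (L (nat_lit 523) ln14_15_1 ln14_15_1_ok))) (M (nat_lit 526) (B (L (nat_lit 525) ln10_15_0 ln10_15_0_ok) (L (nat_lit 527) ln11_15_0 ln11_15_0_ok))))) (M (nat_lit 489) (B (M (nat_lit 457) (B (L (nat_lit 456) ln12_15_3 ln12_15_3_ok) (L (nat_lit 458) ln13_15_3 ln13_15_3_ok))) (M (nat_lit 525) (B (L (nat_lit 524) ln9_15_0 ln9_15_0_ok) (L (nat_lit 526) ln10_15_0 ln10_15_0_ok)))))))) (B (M (nat_lit 489) (B (M (nat_lit 488) (B (M (nat_lit 456) (B (L (nat_lit 455) ln11_15_3 ln11_15_3_ok) (L (nat_lit 457) ln12_15_3 ln12_15_3_ok))) (M (nat_lit 524) (B (L (nat_lit 523) ln8_15_0 ln8_15_0_ok) (L (nat_lit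 525) ln9_15_0 ln9_15_0_ok))))) (B (M (nat_lit 493) (B (M (nat_lit 457) (B (L (nat_lit 456) ln12_15_3 ln12_15_3_ok) (L (nat_lit 458) ln13_15_3 ln13_15_3_ok))) (M (nat_lit 525) (B (L (nat_lit 524) ln9_15_0 ln9_15_0_ok) (L (nat_lit 526) ln10_15_0 ln10_15_0_ok))))) (B (M (nat_lit 488) (B (M (nat_lit 524) (B (L (nat_lit 523) ln8_15_0 ln8_15_0_ok) (L (nat_lit 525) ln9_15_0 ln9_15_0_ok))) (M (nat_lit 487) (B (M (nat_lit 459) (B (L (nat_lit 458) ln7_15_2 ln7_15_2_ok) (L (nat_lit 460) ln8_15_2 ln8_15_2_ok))) (M (nat_lit 519) (B (L (nat_lit 518) ln10_15_1 ln10_15_1_ok) (L (nat_lit 520) ln11_15_1 ln11_15_1_ok))))))) (M (nat_lit 488) (B (M (nat_lit 456) (B (L (nat_lit 455) ln11_15_3 ln11_15_3_ok) (L (nat_lit 457) ln12_15_3 ln12_15_3_ok))) (M (nat_lit 487) (B (M (nat_lit 459) (B (L (nat_lit 458) ln7_15_2 ln7_15_2_ok) (L (nat_lit 460) ln8_15_2 ln8_15_2_ok))) (M (nat_lit 519) (B (L (nat_lit 518) ln10_15_1 ln10_15_1_ok)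 (L (nat_lit 520) ln11_15_1 ln11_15_1_ok))))))))))) (B (M (nat_lit 489) (B (M (nat_lit 493) (B (M (nat_lit 521) (B (L (nat_lit 520) ln12_15_1 ln12_15_1_ok) (L (nat_lit 522) ln13_15_1 ln13_15_1_ok))) (M (nat_lit 525) (B (L (nat_lit 524) ln9_15_0 ln9_15_0_ok) (L (nat_lit 526) ln10_15_0 ln10_15_0_ok))))) (B (M (nat_lit 488) (B (M (nat_lit 456) (B (L (nat_lit 455) ln11_15_3 ln11_15_3_ok) (L (nat_lit 457) ln12_15_3 ln12_15_3_ok))) (M (nat_lit 520) (B (L (nat_lit 519) ln11_15_1 ln11_15_1_ok) (L (nat_lit 521) ln12_15_1 ln12_15_1_ok))))) (M (nat_lit 493) (B (M (nat_lit 457) (B (L (nat_lit 456) ln12_15_3 ln12_15_3_ok) (L (nat_lit 458) ln13_15_3 ln13_15_3_ok))) (M (nat_lit 525) (B (L (nat_lit 524) ln9_15_0 ln9_15_0_ok) (L (nat_lit 526) ln10_15_0 ln10_15_0_ok)))))))) (B (M (nat_lit 493) (B (M (nat_lit 494) (B (M (nat_lit 522) (B (L (nat_lit 521) ln13_15_1 ln13_15_1_ok) (L (nat_lit 523) ln14_15_1 ln14_15_1_ok)))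 (M (nat_lit 526) (B (L (nat_lit 525) ln10_15_0 ln10_15_0_ok) (L (nat_lit 527) ln11_15_0 ln11_15_0_ok))))) (B (M (nat_lit 521) (B (L (nat_lit 522) ln13_15_1 ln13_15_1_ok) (M (nat_lit 489) (B (L (nat_lit 520) ln12_15_1 ln12_15_1_ok) (M (nat_lit 457) (B (L (nat_lit 456) ln12_15_3 ln12_15_3_ok) (L (nat_lit 458) ln13_15_3 ln13_15_3_ok))))))) (M (nat_lit 494) (B (M (nat_lit 458) (B (L (nat_lit 457) ln13_15_3 ln13_15_3_ok) (L (nat_lit 459) ln14_15_3 ln14_15_3_ok))) (M (nat_lit 526) (B (L (nat_lit 525) ln10_15_0 ln10_15_0_ok) (L (nat_lit 527) ln11_15_0 ln11_15_0_ok)))))))) (M (nat_lit 489) (B (M (nat_lit 488) (B (M (nat_lit 456) (B (L (nat_lit 455) ln11_15_3 ln11_15_3_ok) (L (nat_lit 457) ln12_15_3 ln12_15_3_ok))) (M (nat_lit 520) (B (L (nat_lit 519) ln11_15_1 ln11_15_1_ok) (L (nat_lit 521) ln12_15_1 ln12_15_1_ok))))) (B (M (nat_lit 521) (B (L (nat_lit 520) ln12_15_1 ln12_15_1_ok) (M (nat_lit 457) (B (L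 (nat_lit 456) ln12_15_3 ln12_15_3_ok) (M (nat_lit 493) (B (L (nat_lit 458) ln13_15_3 ln13_15_3_ok) (L (nat_lit 522) ln13_15_1 ln13_15_1_ok))))))) (B (M (nat_lit 488) (B (M (nat_lit 520) (B (L (nat_lit 519) ln11_15_1 ln11_15_1_ok) (L (nat_lit 521) ln12_15_1 ln12_15_1_ok))) (M (nat_lit 487) (B (M (nat_lit 459) (B (L (nat_lit 458) ln7_15_2 ln7_15_2_ok) (L (nat_lit 460) ln8_15_2 ln8_15_2_ok))) (M (nat_lit 523) (B (L (nat_lit 522) ln7_15_0 ln7_15_0_ok) (L (nat_lit 524) ln8_15_0 ln8_15_0_ok))))))) (M (nat_lit 488) (B (M (nat_lit 456) (B (L (nat_lit 455) ln11_15_3 ln11_15_3_ok) (L (nat_lit 457) ln12_15_3 ln12_15_3_ok))) (M (nat_lit 487) (B (M (nat_lit 459) (B (L (nat_lit 458) ln7_15_2 ln7_15_2_ok) (L (nat_lit 460) ln8_15_2 ln8_15_2_ok))) (M (nat_lit 523) (B (L (nat_lit 522) ln7_15_0 ln7_15_0_ok) (L (nat_lit 524) ln8_15_0 ln8_15_0_ok))))))))))))))))))))))) (nat_lit 19180023093141456270994868227393793064975962979706948090394687277743823581181512059937683631514712089077336413480722875194222387086669045060377509888)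 (nat_lit 11679847985191959545503919370406635240549176906642852931789414616866593399623034344191707326042427372262836524566518444857882272650841995760083423517359705992656540895867412101586720928812408766464) (nat_lit 11679847985191959545503919370406635240549176906642852931789414616866593399623034344191707326042427372262836524566518444857882272650841995760083423517359705992656540895867412101586720928812408766464) (by decide +kernel)
noncomputable def c11_n7691 : Cert := (M (nat_lit 555) (B (M (nat_lit 460) (B (L (nat_lit 428) ln12_15_6 ln12_15_6_ok) (L (nat_lit 587) ln11_18_6 ln11_18_6_ok))) (B (M (nat_lit 587) (B (L (nat_lit 460) ln11_18_6 ln11_18_6_ok) (M (nat_lit 619) (B (L (nat_lit 524) ln11_19_6 ln11_19_6_ok) (M (nat_lit 618) (B (L (nat_lit 586) ln11_15_5 ln11_15_5_ok) (L (nat_lit 650) ln11_16_5 ln11_16_5_ok))))))) (B (M (nat_lit 587) (B (M (nat_lit 619) (B (L (nat_lit 524) ln11_19_6 ln11_19_6_ok)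 (M (nat_lit 618) (B (L (nat_lit 586) ln11_15_5 ln11_15_5_ok) (L (nat_lit 650) ln11_16_5 ln11_16_5_ok))))) (B (M (nat_lit 619) (B (M (nat_lit 618) (B (L (nat_lit 586) ln11_15_5 ln11_15_5_ok) (L (nat_lit 650) ln11_16_5 ln11_16_5_ok))) (M (nat_lit 620) (B (L (nat_lit 588) ln11_15_4 ln11_15_4_ok) (L (nat_lit 652) ln11_16_4 ln11_16_4_ok))))) (B (M (nat_lit 619) (B (L (nat_lit 524) ln11_19_6 ln11_19_6_ok) (M (nat_lit 620) (B (L (nat_lit 588) ln11_15_4 ln11_15_4_ok) (L (nat_lit 652) ln11_16_4 ln11_16_4_ok))))) (M (nat_lit 459) (B (M (nat_lit 586) (B (L (nat_lit 554) ln11_14_5 ln11_14_5_ok) (L (nat_lit 618) ln11_15_5 ln11_15_5_ok))) (M (nat_lit 588) (B (L (nat_lit 556) ln11_14_4 ln11_14_4_ok) (L (nat_lit 620) ln11_15_4 ln11_15_4_ok))))))))) (M (nat_lit 556) (B (M (nat_lit 588) (B (L (nat_lit 459) ln11_14_4 ln11_14_4_ok) (M (nat_lit 620) (B (L (nat_lit 524) ln12_19_7 ln12_19_7_ok) (L (nat_lit 652) ln12_20_7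 ln12_20_7_ok))))) (B (M (nat_lit 557) (B (M (nat_lit 522) (B (L (nat_lit 558) ln14_17_3 ln14_17_3_ok) (M (nat_lit 521) (B (L (nat_lit 520) ln8_16_2 ln8_16_2_ok) (L (nat_lit 554) ln13_17_3 ln13_17_3_ok))))) (B (M (nat_lit 522) (B (L (nat_lit 558) ln14_17_3 ln14_17_3_ok) (M (nat_lit 521) (B (L (nat_lit 524) ln9_16_0 ln9_16_0_ok) (L (nat_lit 554) ln13_17_3 ln13_17_3_ok))))) (B (M (nat_lit 524) (B (M (nat_lit 460) (B (L (nat_lit 428) ln12_15_6 ln12_15_6_ok) (L (nat_lit 589) ln12_14_4 ln12_14_4_ok))) (M (nat_lit 558) (B (L (nat_lit 522) ln14_17_3 ln14_17_3_ok) (L (nat_lit 559) ln15_17_3 ln15_17_3_ok))))) (B (M (nat_lit 524) (B (M (nat_lit 460) (B (L (nat_lit 428) ln12_15_6 ln12_15_6_ok) (L (nat_lit 589) ln12_14_4 ln12_14_4_ok))) (M (nat_lit 526) (B (M (nat_lit 525) (B (L (nat_lit 490) ln14_16_3 ln14_16_3_ok) (L (nat_lit 527) ln15_16_3 ln15_16_3_ok))) (B (M (nat_lit 525) (B (L (nat_lit 527) ln15_16_3 ln15_16_3_ok)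 (L (nat_lit 554) ln14_16_1 ln14_16_1_ok))) (B (M (nat_lit 558) (B (L (nat_lit 559) ln15_17_3 ln15_17_3_ok) (L (nat_lit 527) ln11_17_2 ln11_17_2_ok))) (M (nat_lit 525) (B (L (nat_lit 490) ln14_16_3 ln14_16_3_ok) (L (nat_lit 554) ln14_16_1 ln14_16_1_ok))))))))) (M (nat_lit 554) (B (M (nat_lit 522) (B (L (nat_lit 521) ln13_17_3 ln13_17_3_ok) (M (nat_lit 586) (B (L (nat_lit 618) ln10_19_6 ln10_19_6_ok) (L (nat_lit 585) ln13_17_1 ln13_17_1_ok))))) (M (nat_lit 460) (B (L (nat_lit 428) ln12_15_6 ln12_15_6_ok) (M (nat_lit 589) (B (L (nat_lit 524) ln12_14_4 ln12_14_4_ok) (L (nat_lit 590) ln10_17_0 ln10_17_0_ok)))))))))))) (M (nat_lit 554) (B (M (nat_lit 459) (B (L (nat_lit 586) ln11_14_5 ln11_14_5_ok) (L (nat_lit 588) ln11_14_4 ln11_14_4_ok))) (B (M (nat_lit 522) (B (M (nat_lit 521) (B (L (nat_lit 520) ln8_16_2 ln8_16_2_ok) (L (nat_lit 557) ln13_17_3 ln13_17_3_ok))) (B (M (nat_lit 557) (B (L (nat_lit 521)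 ln13_17_3 ln13_17_3_ok) (L (nat_lit 558) ln14_17_3 ln14_17_3_ok))) (B (M (nat_lit 557) (B (L (nat_lit 558) ln14_17_3 ln14_17_3_ok) (M (nat_lit 586) (B (L (nat_lit 618) ln10_19_6 ln10_19_6_ok) (L (nat_lit 585) ln13_17_1 ln13_17_1_ok))))) (M (nat_lit 521) (B (L (nat_lit 520) ln8_16_2 ln8_16_2_ok) (M (nat_lit 493) (B (L (nat_lit 490) ln13_15_1 ln13_15_1_ok) (L (nat_lit 494) ln14_15_1 ln14_15_1_ok))))))))) (M (nat_lit 521) (B (M (nat_lit 520) (B (L (nat_lit 522) ln8_16_2 ln8_16_2_ok) (L (nat_lit 553) ln12_17_3 ln12_17_3_ok))) (B (M (nat_lit 522) (B (L (nat_lit 557) ln13_17_3 ln13_17_3_ok) (M (nat_lit 493) (B (L (nat_lit 490) ln13_15_1 ln13_15_1_ok) (L (nat_lit 494) ln14_15_1 ln14_15_1_ok))))) (M (nat_lit 553) (B (L (nat_lit 520) ln12_17_3 ln12_17_3_ok) (M (nat_lit 588) (B (L (nat_lit 459) ln11_14_4 ln11_14_4_ok) (L (nat_lit 589) ln9_17_0 ln9_17_0_ok))))))))))))))))))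
noncomputable def c11_n7743 : Cert := (M (nat_lit 555) (B (M (nat_lit 587) (B (L (nat_lit 460) ln11_18_6 ln11_18_6_ok) (M (nat_lit 619) (B (L (nat_lit 524) ln11_19_6 ln11_19_6_ok) (M (nat_lit 618) (B (L (nat_lit 586) ln11_15_5 ln11_15_5_ok) (L (nat_lit 650) ln11_16_5 ln11_16_5_ok))))))) (B (M (nat_lit 587) (B (M (nat_lit 619) (B (L (nat_lit 524) ln11_19_6 ln11_19_6_ok) (M (nat_lit 618) (B (L (nat_lit 586) ln11_15_5 ln11_15_5_ok) (L (nat_lit 650) ln11_16_5 ln11_16_5_ok))))) (B (M (nat_lit 619) (B (M (nat_lit 618) (B (L (nat_lit 586) ln11_15_5 ln11_15_5_ok) (L (nat_lit 650) ln11_16_5 ln11_16_5_ok))) (M (nat_lit 620) (B (L (nat_lit 588) ln11_15_4 ln11_15_4_ok) (L (nat_lit 652) ln11_16_4 ln11_16_4_ok))))) (B (M (nat_lit 619) (B (L (nat_lit 524) ln11_19_6 ln11_19_6_ok) (M (nat_lit 620) (B (L (nat_lit 588) ln11_15_4 ln11_15_4_ok) (L (nat_lit 652) ln11_16_4 ln11_16_4_ok))))) (M (nat_lit 459) (B (M (nat_lit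 586) (B (L (nat_lit 554) ln11_14_5 ln11_14_5_ok) (L (nat_lit 618) ln11_15_5 ln11_15_5_ok))) (M (nat_lit 588) (B (L (nat_lit 556) ln11_14_4 ln11_14_4_ok) (L (nat_lit 620) ln11_15_4 ln11_15_4_ok))))))))) (B (M (nat_lit 587) (B (L (nat_lit 460) ln11_18_6 ln11_18_6_ok) (M (nat_lit 619) (B (M (nat_lit 618) (B (L (nat_lit 586) ln11_15_5 ln11_15_5_ok) (L (nat_lit 650) ln11_16_5 ln11_16_5_ok))) (M (nat_lit 620) (B (L (nat_lit 588) ln11_15_4 ln11_15_4_ok) (L (nat_lit 652) ln11_16_4 ln11_16_4_ok))))))) (B (M (nat_lit 587) (B (L (nat_lit 460) ln11_18_6 ln11_18_6_ok) (M (nat_lit 619) (B (L (nat_lit 524) ln11_19_6 ln11_19_6_ok) (M (nat_lit 620) (B (L (nat_lit 588) ln11_15_4 ln11_15_4_ok) (L (nat_lit 652) ln11_16_4 ln11_16_4_ok))))))) (M (nat_lit 556) (B (M (nat_lit 588) (B (L (nat_lit 459) ln11_14_4 ln11_14_4_ok) (M (nat_lit 620) (B (L (nat_lit 524) ln12_19_7 ln12_19_7_ok) (L (nat_lit 652) ln12_20_7 ln12_20_7_ok)))))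 (B (M (nat_lit 557) (B (M (nat_lit 522) (B (L (nat_lit 558) ln14_17_3 ln14_17_3_ok) (M (nat_lit 521) (B (L (nat_lit 520) ln8_16_2 ln8_16_2_ok) (L (nat_lit 554) ln13_17_3 ln13_17_3_ok))))) (B (M (nat_lit 522) (B (L (nat_lit 558) ln14_17_3 ln14_17_3_ok) (M (nat_lit 521) (B (L (nat_lit 524) ln9_16_0 ln9_16_0_ok) (L (nat_lit 554) ln13_17_3 ln13_17_3_ok))))) (B (M (nat_lit 524) (B (M (nat_lit 558) (B (L (nat_lit 522) ln14_17_3 ln14_17_3_ok) (L (nat_lit 559) ln15_17_3 ln15_17_3_ok))) (M (nat_lit 589) (B (L (nat_lit 460) ln12_14_4 ln12_14_4_ok) (M (nat_lit 588) (B (L (nat_lit 620) ln12_19_7 ln12_19_7_ok) (L (nat_lit 621) ln12_15_4 ln12_15_4_ok))))))) (B (M (nat_lit 524) (B (M (nat_lit 589) (B (L (nat_lit 460) ln12_14_4 ln12_14_4_ok) (M (nat_lit 588) (B (L (nat_lit 620) ln12_19_7 ln12_19_7_ok) (L (nat_lit 621) ln12_15_4 ln12_15_4_ok))))) (M (nat_lit 526) (B (M (nat_lit 525) (B (L (nat_lit 490) ln14_16_3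 ln14_16_3_ok) (L (nat_lit 527) ln15_16_3 ln15_16_3_ok))) (B (M (nat_lit 525) (B (L (nat_lit 527) ln15_16_3 ln15_16_3_ok) (L (nat_lit 554) ln14_16_1 ln14_16_1_ok))) (B (M (nat_lit 558) (B (L (nat_lit 559) ln15_17_3 ln15_17_3_ok) (L (nat_lit 527) ln11_17_2 ln11_17_2_ok))) (M (nat_lit 525) (B (L (nat_lit 490) ln14_16_3 ln14_16_3_ok) (L (nat_lit 554) ln14_16_1 ln14_16_1_ok))))))))) (M (nat_lit 554) (B (M (nat_lit 522) (B (L (nat_lit 521) ln13_17_3 ln13_17_3_ok) (M (nat_lit 586) (B (L (nat_lit 618) ln10_19_6 ln10_19_6_ok) (L (nat_lit 585) ln13_17_1 ln13_17_1_ok))))) (M (nat_lit 524) (B (M (nat_lit 589) (B (L (nat_lit 460) ln12_14_4 ln12_14_4_ok) (L (nat_lit 590) ln10_17_0 ln10_17_0_ok))) (M (nat_lit 525) (B (L (nat_lit 526) ln14_16_1 ln14_16_1_ok) (L (nat_lit 553) ln9_17_2 ln9_17_2_ok)))))))))))) (B (M (nat_lit 459) (B (L (nat_lit 588) ln11_14_4 ln11_14_4_ok) (M (nat_lit 554) (B (L (nat_lit 586) ln11_14_5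 ln11_14_5_ok) (M (nat_lit 522) (B (L (nat_lit 427) ln11_13_5 ln11_13_5_ok) (M (nat_lit 521) (B (L (nat_lit 520) ln8_16_2 ln8_16_2_ok) (L (nat_lit 557) ln13_17_3 ln13_17_3_ok))))))))) (M (nat_lit 554) (B (M (nat_lit 459) (B (L (nat_lit 586) ln11_14_5 ln11_14_5_ok) (M (nat_lit 427) (B (L (nat_lit 522) ln11_13_5 ln11_13_5_ok) (L (nat_lit 524) ln11_13_4 ln11_13_4_ok))))) (B (M (nat_lit 557) (B (M (nat_lit 522) (B (L (nat_lit 521) ln13_17_3 ln13_17_3_ok) (L (nat_lit 558) ln14_17_3 ln14_17_3_ok))) (M (nat_lit 586) (B (L (nat_lit 459) ln11_14_5 ln11_14_5_ok) (L (nat_lit 585) ln13_17_1 ln13_17_1_ok))))) (B (M (nat_lit 557) (B (M (nat_lit 522) (B (L (nat_lit 521) ln13_17_3 ln13_17_3_ok) (L (nat_lit 558) ln14_17_3 ln14_17_3_ok))) (M (nat_lit 524) (B (M (nat_lit 589) (B (L (nat_lit 460) ln12_14_4 ln12_14_4_ok) (L (nat_lit 590) ln10_17_0 ln10_17_0_ok))) (M (nat_lit 525) (B (L (nat_lit 526) ln14_16_1 ln14_16_1_ok)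 (L (nat_lit 553) ln9_17_2 ln9_17_2_ok))))))) (M (nat_lit 524) (B (M (nat_lit 459) (B (L (nat_lit 427) ln11_13_4 ln11_13_4_ok) (L (nat_lit 586) ln11_14_5 ln11_14_5_ok))) (M (nat_lit 525) (B (L (nat_lit 526) ln14_16_1 ln14_16_1_ok) (L (nat_lit 553) ln9_17_2 ln9_17_2_ok))))))))))))))))))
noncomputable def c11_n7903 : Cert := (M (nat_lit 522) (B (M (nat_lit 521) (B (L (nat_lit 520) ln8_16_2 ln8_16_2_ok) (M (nat_lit 493) (B (L (nat_lit 490) ln13_15_1 ln13_15_1_ok) (L (nat_lit 494) ln14_15_1 ln14_15_1_ok))))) (B (M (nat_lit 521) (B (L (nat_lit 520) ln8_16_2 ln8_16_2_ok) (M (nat_lit 493) (B (L (nat_lit 494) ln14_15_1 ln14_15_1_ok) (L (nat_lit 524) ln9_16_2 ln9_16_2_ok))))) (B (M (nat_lit 524) (B (M (nat_lit 521) (B (L (nat_lit 520) ln8_16_2 ln8_16_2_ok) (M (nat_lit 557) (B (L (nat_lit 556) ln9_16_0 ln9_16_0_ok) (M (nat_lit 525) (B (L (nat_lit 558) ln10_16_0 ln10_16_0_ok) (M (nat_lit 553) (B (L (nat_lit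 552) ln12_16_1 ln12_16_1_ok) (L (nat_lit 554) ln13_16_1 ln13_16_1_ok))))))))) (B (M (nat_lit 557) (B (M (nat_lit 556) (B (L (nat_lit 521) ln9_16_0 ln9_16_0_ok) (L (nat_lit 558) ln14_17_3 ln14_17_3_ok))) (B (M (nat_lit 558) (B (L (nat_lit 525) ln10_16_0 ln10_16_0_ok) (L (nat_lit 556) ln14_17_3 ln14_17_3_ok))) (B (M (nat_lit 525) (B (L (nat_lit 558) ln10_16_0 ln10_16_0_ok) (M (nat_lit 554) (B (L (nat_lit 553) ln13_16_1 ln13_16_1_ok) (L (nat_lit 526) ln14_16_1 ln14_16_1_ok))))) (M (nat_lit 460) (B (L (nat_lit 428) ln12_15_6 ln12_15_6_ok) (M (nat_lit 556) (B (L (nat_lit 589) ln12_14_4 ln12_14_4_ok) (L (nat_lit 521) ln9_16_0 ln9_16_0_ok))))))))) (B (M (nat_lit 557) (B (M (nat_lit 558) (B (L (nat_lit 525) ln10_16_0 ln10_16_0_ok) (L (nat_lit 556) ln14_17_3 ln14_17_3_ok))) (B (M (nat_lit 460) (B (L (nat_lit 428) ln12_15_6 ln12_15_6_ok) (M (nat_lit 556) (B (L (nat_lit 589) ln12_14_4 ln12_14_4_ok) (L (nat_lit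 558) ln14_17_3 ln14_17_3_ok))))) (B (M (nat_lit 525) (B (L (nat_lit 558) ln10_16_0 ln10_16_0_ok) (M (nat_lit 526) (B (L (nat_lit 490) ln14_16_3 ln14_16_3_ok) (L (nat_lit 527) ln15_16_3 ln15_16_3_ok))))) (M (nat_lit 525) (B (M (nat_lit 526) (B (L (nat_lit 490) ln14_16_3 ln14_16_3_ok) (L (nat_lit 527) ln15_16_3 ln15_16_3_ok))) (M (nat_lit 460) (B (L (nat_lit 428) ln12_15_6 ln12_15_6_ok) (M (nat_lit 589) (B (L (nat_lit 556) ln12_14_4 ln12_14_4_ok) (L (nat_lit 621) ln13_19_7 ln13_19_7_ok))))))))))) (B (M (nat_lit 556) (B (M (nat_lit 521) (B (L (nat_lit 520) ln8_16_2 ln8_16_2_ok) (L (nat_lit 557) ln9_16_0 ln9_16_0_ok))) (B (M (nat_lit 557) (B (L (nat_lit 521) ln9_16_0 ln9_16_0_ok) (L (nat_lit 558) ln14_17_3 ln14_17_3_ok))) (B (M (nat_lit 460) (B (L (nat_lit 428) ln12_15_6 ln12_15_6_ok) (M (nat_lit 557) (B (L (nat_lit 589) ln12_14_4 ln12_14_4_ok) (L (nat_lit 558) ln14_17_3 ln14_17_3_ok))))) (M (nat_lit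 588) (B (L (nat_lit 620) ln12_19_7 ln12_19_7_ok) (M (nat_lit 553) (B (M (nat_lit 521) (B (L (nat_lit 520) ln8_16_2 ln8_16_2_ok) (L (nat_lit 552) ln12_16_1 ln12_16_1_ok))) (B (M (nat_lit 552) (B (L (nat_lit 521) ln12_16_1 ln12_16_1_ok) (L (nat_lit 554) ln8_17_2 ln8_17_2_ok))) (B (M (nat_lit 554) (B (L (nat_lit 552) ln8_17_2 ln8_17_2_ok) (L (nat_lit 589) ln9_17_0 ln9_17_0_ok))) (M (nat_lit 589) (B (L (nat_lit 621) ln12_15_4 ln12_15_4_ok) (L (nat_lit 554) ln9_17_0 ln9_17_0_ok))))))))))))) (M (nat_lit 525) (B (M (nat_lit 490) (B (L (nat_lit 489) ln9_15_0 ln9_15_0_ok) (L (nat_lit 526) ln14_16_3 ln14_16_3_ok))) (B (M (nat_lit 526) (B (L (nat_lit 490) ln14_16_3 ln14_16_3_ok) (L (nat_lit 554) ln14_16_1 ln14_16_1_ok))) (B (M (nat_lit 526) (B (L (nat_lit 527) ln15_16_3 ln15_16_3_ok) (L (nat_lit 554) ln14_16_1 ln14_16_1_ok))) (M (nat_lit 489) (B (L (nat_lit 490) ln9_15_0 ln9_15_0_ok) (M (nat_lit 521) (B (L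 (nat_lit 488) ln12_16_3 ln12_16_3_ok) (L (nat_lit 520) ln8_16_2 ln8_16_2_ok)))))))))))))) (B (M (nat_lit 493) (B (L (nat_lit 494) ln14_15_1 ln14_15_1_ok) (M (nat_lit 521) (B (L (nat_lit 490) ln13_15_1 ln13_15_1_ok) (L (nat_lit 524) ln9_16_2 ln9_16_2_ok))))) (M (nat_lit 493) (B (L (nat_lit 494) ln14_15_1 ln14_15_1_ok) (M (nat_lit 525) (B (M (nat_lit 526) (B (L (nat_lit 490) ln10_15_0 ln10_15_0_ok) (M (nat_lit 524) (B (L (nat_lit 527) ln15_16_3 ln15_16_3_ok) (L (nat_lit 554) ln14_16_1 ln14_16_1_ok))))) (B (M (nat_lit 557) (B (M (nat_lit 460) (B (L (nat_lit 428) ln12_15_6 ln12_15_6_ok) (L (nat_lit 589) ln13_18_7 ln13_18_7_ok))) (M (nat_lit 558) (B (L (nat_lit 524) ln10_16_0 ln10_16_0_ok) (L (nat_lit 556) ln14_17_3 ln14_17_3_ok))))) (M (nat_lit 557) (B (M (nat_lit 460) (B (L (nat_lit 428) ln12_15_6 ln12_15_6_ok) (L (nat_lit 589) ln13_18_7 ln13_18_7_ok))) (M (nat_lit 526) (B (L (nat_lit 490) ln10_15_0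 ln10_15_0_ok) (M (nat_lit 556) (B (L (nat_lit 558) ln14_17_3 ln14_17_3_ok) (L (nat_lit 554) ln10_17_2 ln10_17_2_ok)))))))))))))))))
theorem c11_s7904 : Sem (nat_lit 27459190659702461953069059467320441096471534265549184617284801927136860011334447789671750622583501851423897334643259845629210827193088962336965158224837738496) (nat_lit 18687756787048870042001915526382125156421902250710327869861348534720021949977048138716605433807149809821721810217202310968347403211157835913236231323752985924409850551226857900663284209317316657152) (nat_lit 18687756787048870042001915526382125156421902250710327869861348534720021949977048138716605433807149809821721810217202310968347403211157835913236231323752985924409850551226857900663284209317316657152) :=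
  sem_of_chk (M (nat_lit 555) (B (M (nat_lit 460) (B (L (nat_lit 428) ln12_15_6 ln12_15_6_ok) (L (nat_lit 587) ln11_18_6 ln11_18_6_ok))) (B (M (nat_lit 587) (B (L (nat_lit 460) ln11_18_6 ln11_18_6_ok) (M (nat_lit 619) (B (L (nat_lit 524) ln11_19_6 ln11_19_6_ok) (M (nat_lit 620) (B (L (nat_lit 588) ln11_15_4 ln11_15_4_ok) (L (nat_lit 652) ln11_16_4 ln11_16_4_ok))))))) (B (M (nat_lit 587) (B (M (nat_lit 619) (B (L (nat_lit 524) ln11_19_6 ln11_19_6_ok) (M (nat_lit 620) (B (L (nat_lit 588) ln11_15_4 ln11_15_4_ok) (L (nat_lit 652) ln11_16_4 ln11_16_4_ok))))) (B (M (nat_lit 586) (B (L (nat_lit 618) ln11_15_5 ln11_15_5_ok) (M (nat_lit 588) (B (L (nat_lit 620) ln11_15_4 ln11_15_4_ok) (M (nat_lit 585) (B (M (nat_lit 556) (B (L (nat_lit 584) ln8_18_2 ln8_18_2_ok) (L (nat_lit 557) ln9_18_2 ln9_18_2_ok))) (B (M (nat_lit 584) (B (M (nat_lit 552) (B (L (nat_lit 551) ln11_18_3 ln11_18_3_ok) (L (nat_lit 553) ln12_18_3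 ln12_18_3_ok))) (M (nat_lit 616) (B (L (nat_lit 615) ln11_18_1 ln11_18_1_ok) (L (nat_lit 617) ln12_18_1 ln12_18_1_ok))))) (M (nat_lit 589) (B (M (nat_lit 553) (B (L (nat_lit 552) ln12_18_3 ln12_18_3_ok) (L (nat_lit 554) ln13_18_3 ln13_18_3_ok))) (M (nat_lit 557) (B (L (nat_lit 556) ln9_18_2 ln9_18_2_ok) (L (nat_lit 558) ln10_18_2 ln10_18_2_ok)))))))))))) (M (nat_lit 522) (B (M (nat_lit 619) (B (L (nat_lit 490) ln11_19_7 ln11_19_7_ok) (L (nat_lit 524) ln11_19_6 ln11_19_6_ok))) (B (M (nat_lit 521) (B (L (nat_lit 520) ln8_16_2 ln8_16_2_ok) (M (nat_lit 493) (B (L (nat_lit 494) ln14_15_1 ln14_15_1_ok) (L (nat_lit 524) ln9_16_2 ln9_16_2_ok))))) (M (nat_lit 521) (B (L (nat_lit 520) ln8_16_2 ln8_16_2_ok) (M (nat_lit 493) (B (L (nat_lit 490) ln13_15_1 ln13_15_1_ok) (L (nat_lit 494) ln14_15_1 ln14_15_1_ok))))))))))) c11_n7903)))) (nat_lit 27459190659702461953069059467320441096471534265549184617284801927136860011334447789671750622583501851423897334643259845629210827193088962336965158224837738496)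 (nat_lit 18687756787048870042001915526382125156421902250710327869861348534720021949977048138716605433807149809821721810217202310968347403211157835913236231323752985924409850551226857900663284209317316657152) (nat_lit 18687756787048870042001915526382125156421902250710327869861348534720021949977048138716605433807149809821721810217202310968347403211157835913236231323752985924409850551226857900663284209317316657152) (by decide +kernel)
noncomputable def c11_n8027 : Cert := (M (nat_lit 556) (B (M (nat_lit 588) (B (L (nat_lit 459) ln11_14_4 ln11_14_4_ok) (M (nat_lit 620) (B (L (nat_lit 524) ln12_19_7 ln12_19_7_ok) (L (nat_lit 652) ln12_20_7 ln12_20_7_ok))))) (B (M (nat_lit 557) (B (M (nat_lit 522) (B (L (nat_lit 558) ln14_17_3 ln14_17_3_ok) (M (nat_lit 521) (B (L (nat_lit 520) ln8_16_2 ln8_16_2_ok) (L (nat_lit 554) ln13_17_3 ln13_17_3_ok))))) (B (M (nat_lit 522) (B (L (nat_lit 558) ln14_17_3 ln14_17_3_ok)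 (M (nat_lit 521) (B (L (nat_lit 524) ln9_16_0 ln9_16_0_ok) (L (nat_lit 554) ln13_17_3 ln13_17_3_ok))))) (B (M (nat_lit 554) (B (M (nat_lit 522) (B (L (nat_lit 558) ln14_17_3 ln14_17_3_ok) (M (nat_lit 586) (B (L (nat_lit 618) ln10_19_6 ln10_19_6_ok) (L (nat_lit 585) ln13_17_1 ln13_17_1_ok))))) (M (nat_lit 553) (B (M (nat_lit 524) (B (L (nat_lit 552) ln8_17_2 ln8_17_2_ok) (L (nat_lit 525) ln9_17_2 ln9_17_2_ok))) (M (nat_lit 589) (B (L (nat_lit 588) ln9_17_0 ln9_17_0_ok) (L (nat_lit 590) ln10_17_0 ln10_17_0_ok))))))) (B (M (nat_lit 554) (B (M (nat_lit 553) (B (M (nat_lit 524) (B (L (nat_lit 552) ln8_17_2 ln8_17_2_ok) (L (nat_lit 525) ln9_17_2 ln9_17_2_ok))) (M (nat_lit 585) (B (L (nat_lit 584) ln12_17_1 ln12_17_1_ok) (L (nat_lit 586) ln13_17_1 ln13_17_1_ok))))) (B (M (nat_lit 553) (B (M (nat_lit 585) (B (L (nat_lit 584) ln12_17_1 ln12_17_1_ok) (L (nat_lit 586) ln13_17_1 ln13_17_1_ok))) (M (nat_lit 589)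 (B (L (nat_lit 588) ln9_17_0 ln9_17_0_ok) (L (nat_lit 590) ln10_17_0 ln10_17_0_ok))))) (M (nat_lit 558) (B (M (nat_lit 526) (B (L (nat_lit 525) ln10_17_2 ln10_17_2_ok) (L (nat_lit 527) ln11_17_2 ln11_17_2_ok))) (M (nat_lit 590) (B (L (nat_lit 589) ln10_17_0 ln10_17_0_ok) (L (nat_lit 591) ln11_17_0 ln11_17_0_ok)))))))) (B (M (nat_lit 522) (B (L (nat_lit 558) ln14_17_3 ln14_17_3_ok) (M (nat_lit 521) (B (L (nat_lit 520) ln8_16_2 ln8_16_2_ok) (L (nat_lit 524) ln9_16_0 ln9_16_0_ok))))) (M (nat_lit 554) (B (M (nat_lit 522) (B (L (nat_lit 521) ln13_17_3 ln13_17_3_ok) (M (nat_lit 586) (B (L (nat_lit 618) ln10_19_6 ln10_19_6_ok) (L (nat_lit 585) ln13_17_1 ln13_17_1_ok))))) (M (nat_lit 553) (B (M (nat_lit 524) (B (L (nat_lit 552) ln8_17_2 ln8_17_2_ok) (L (nat_lit 525) ln9_17_2 ln9_17_2_ok))) (M (nat_lit 589) (B (L (nat_lit 588) ln9_17_0 ln9_17_0_ok) (L (nat_lit 590) ln10_17_0 ln10_17_0_ok))))))))))))) (B (M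 (nat_lit 522) (B (M (nat_lit 459) (B (L (nat_lit 588) ln11_14_4 ln11_14_4_ok) (M (nat_lit 554) (B (L (nat_lit 427) ln11_13_5 ln11_13_5_ok) (L (nat_lit 586) ln11_14_5 ln11_14_5_ok))))) (M (nat_lit 521) (B (L (nat_lit 520) ln8_16_2 ln8_16_2_ok) (M (nat_lit 493) (B (L (nat_lit 490) ln13_15_1 ln13_15_1_ok) (L (nat_lit 494) ln14_15_1 ln14_15_1_ok))))))) (M (nat_lit 554) (B (M (nat_lit 459) (B (L (nat_lit 586) ln11_14_5 ln11_14_5_ok) (M (nat_lit 427) (B (L (nat_lit 522) ln11_13_5 ln11_13_5_ok) (L (nat_lit 524) ln11_13_4 ln11_13_4_ok))))) (B (M (nat_lit 522) (B (M (nat_lit 586) (B (L (nat_lit 459) ln11_14_5 ln11_14_5_ok) (L (nat_lit 618) ln10_19_6 ln10_19_6_ok))) (M (nat_lit 521) (B (L (nat_lit 520) ln8_16_2 ln8_16_2_ok) (L (nat_lit 557) ln13_17_3 ln13_17_3_ok))))) (B (M (nat_lit 522) (B (M (nat_lit 521) (B (L (nat_lit 520) ln8_16_2 ln8_16_2_ok) (L (nat_lit 557) ln13_17_3 ln13_17_3_ok))) (B (M (nat_lit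 557) (B (L (nat_lit 521) ln13_17_3 ln13_17_3_ok) (L (nat_lit 558) ln14_17_3 ln14_17_3_ok))) (B (M (nat_lit 557) (B (L (nat_lit 558) ln14_17_3 ln14_17_3_ok) (M (nat_lit 586) (B (L (nat_lit 618) ln10_19_6 ln10_19_6_ok) (L (nat_lit 585) ln13_17_1 ln13_17_1_ok))))) (M (nat_lit 521) (B (L (nat_lit 520) ln8_16_2 ln8_16_2_ok) (M (nat_lit 493) (B (L (nat_lit 494) ln14_15_1 ln14_15_1_ok) (L (nat_lit 524) ln9_16_2 ln9_16_2_ok))))))))) (B (M (nat_lit 524) (B (M (nat_lit 459) (B (L (nat_lit 427) ln11_13_4 ln11_13_4_ok) (L (nat_lit 586) ln11_14_5 ln11_14_5_ok))) (M (nat_lit 553) (B (L (nat_lit 552) ln8_17_2 ln8_17_2_ok) (L (nat_lit 525) ln9_17_2 ln9_17_2_ok))))) (M (nat_lit 521) (B (M (nat_lit 520) (B (L (nat_lit 522) ln8_16_2 ln8_16_2_ok) (L (nat_lit 553) ln12_17_3 ln12_17_3_ok))) (B (M (nat_lit 522) (B (L (nat_lit 557) ln13_17_3 ln13_17_3_ok) (M (nat_lit 493) (B (L (nat_lit 490) ln13_15_1 ln13_15_1_ok) (L (nat_lit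 524) ln9_16_2 ln9_16_2_ok))))) (M (nat_lit 553) (B (L (nat_lit 520) ln12_17_3 ln12_17_3_ok) (M (nat_lit 524) (B (L (nat_lit 552) ln8_17_2 ln8_17_2_ok) (L (nat_lit 525) ln9_17_2 ln9_17_2_ok)))))))))))))))))
theorem c11_s8071 : Sem (nat_lit 27459190659702461953069059467320441096471534265549184617284801927136860011334447789671750622583501851423897334643259845629210827193088962336965158224837738496) (nat_lit 25695665567014397035681626861013593513444075160831363464109942035795668316117630947683646520501543108035973620987351893272168107648565627247599559963773628993171311328993583035701155711873114439680) (nat_lit 25695665567014397035681626861013593513444075160831363464109942035795668316117630947683646520501543108035973620987351893272168107648565627247599559963773628993171311328993583035701155711873114439680) :=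
  sem_of_chk (M (nat_lit 555) (B (M (nat_lit 587) (B (M (nat_lit 619) (B (L (nat_lit 524) ln11_19_6 ln11_19_6_ok) (M (nat_lit 618) (B (L (nat_lit 586) ln11_15_5 ln11_15_5_ok) (L (nat_lit 650) ln11_16_5 ln11_16_5_ok))))) (B (M (nat_lit 619) (B (M (nat_lit 618) (B (L (nat_lit 586) ln11_15_5 ln11_15_5_ok) (L (nat_lit 650) ln11_16_5 ln11_16_5_ok))) (M (nat_lit 620) (B (L (nat_lit 588) ln11_15_4 ln11_15_4_ok) (L (nat_lit 652) ln11_16_4 ln11_16_4_ok))))) (B (M (nat_lit 619) (B (L (nat_lit 524) ln11_19_6 ln11_19_6_ok) (M (nat_lit 620) (B (L (nat_lit 588) ln11_15_4 ln11_15_4_ok) (L (nat_lit 652) ln11_16_4 ln11_16_4_ok))))) (M (nat_lit 459) (B (M (nat_lit 586) (B (L (nat_lit 554) ln11_14_5 ln11_14_5_ok) (L (nat_lit 618) ln11_15_5 ln11_15_5_ok))) (M (nat_lit 588) (B (L (nat_lit 556) ln11_14_4 ln11_14_4_ok) (L (nat_lit 620) ln11_15_4 ln11_15_4_ok))))))))) (B (M (nat_lit 587) (B (M (nat_lit 619) (B (L (nat_lit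 524) ln11_19_6 ln11_19_6_ok) (M (nat_lit 618) (B (L (nat_lit 586) ln11_15_5 ln11_15_5_ok) (L (nat_lit 650) ln11_16_5 ln11_16_5_ok))))) (B (M (nat_lit 586) (B (L (nat_lit 618) ln11_15_5 ln11_15_5_ok) (M (nat_lit 588) (B (L (nat_lit 620) ln11_15_4 ln11_15_4_ok) (M (nat_lit 585) (B (M (nat_lit 556) (B (L (nat_lit 584) ln8_18_2 ln8_18_2_ok) (L (nat_lit 557) ln9_18_2 ln9_18_2_ok))) (B (M (nat_lit 584) (B (M (nat_lit 552) (B (L (nat_lit 551) ln11_18_3 ln11_18_3_ok) (L (nat_lit 553) ln12_18_3 ln12_18_3_ok))) (M (nat_lit 616) (B (L (nat_lit 615) ln11_18_1 ln11_18_1_ok) (L (nat_lit 617) ln12_18_1 ln12_18_1_ok))))) (M (nat_lit 589) (B (M (nat_lit 553) (B (L (nat_lit 552) ln12_18_3 ln12_18_3_ok) (L (nat_lit 554) ln13_18_3 ln13_18_3_ok))) (M (nat_lit 557) (B (L (nat_lit 556) ln9_18_2 ln9_18_2_ok) (L (nat_lit 558) ln10_18_2 ln10_18_2_ok)))))))))))) (M (nat_lit 522) (B (M (nat_lit 619) (B (L (nat_lit 490) ln11_19_7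 ln11_19_7_ok) (L (nat_lit 524) ln11_19_6 ln11_19_6_ok))) (B (M (nat_lit 521) (B (L (nat_lit 520) ln8_16_2 ln8_16_2_ok) (M (nat_lit 493) (B (L (nat_lit 494) ln14_15_1 ln14_15_1_ok) (L (nat_lit 524) ln9_16_2 ln9_16_2_ok))))) (M (nat_lit 521) (B (L (nat_lit 520) ln8_16_2 ln8_16_2_ok) (M (nat_lit 490) (B (L (nat_lit 493) ln13_15_1 ln13_15_1_ok) (L (nat_lit 619) ln11_19_7 ln11_19_7_ok))))))))))) (B (M (nat_lit 522) (B (M (nat_lit 521) (B (L (nat_lit 520) ln8_16_2 ln8_16_2_ok) (M (nat_lit 493) (B (L (nat_lit 490) ln13_15_1 ln13_15_1_ok) (L (nat_lit 494) ln14_15_1 ln14_15_1_ok))))) (B (M (nat_lit 556) (B (M (nat_lit 521) (B (L (nat_lit 520) ln8_16_2 ln8_16_2_ok) (M (nat_lit 557) (B (L (nat_lit 554) ln13_17_3 ln13_17_3_ok) (L (nat_lit 558) ln14_17_3 ln14_17_3_ok))))) (M (nat_lit 588) (B (L (nat_lit 459) ln11_14_4 ln11_14_4_ok) (M (nat_lit 620) (B (L (nat_lit 587) ln11_15_4 ln11_15_4_ok) (L (nat_lit 652)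 ln12_20_7 ln12_20_7_ok))))))) (M (nat_lit 587) (B (M (nat_lit 618) (B (L (nat_lit 586) ln11_15_5 ln11_15_5_ok) (M (nat_lit 619) (B (L (nat_lit 490) ln11_19_7 ln11_19_7_ok) (L (nat_lit 650) ln11_16_5 ln11_16_5_ok))))) (M (nat_lit 459) (B (M (nat_lit 427) (B (L (nat_lit 428) ln11_16_6 ln11_16_6_ok) (L (nat_lit 554) ln11_13_5 ln11_13_5_ok))) (M (nat_lit 588) (B (L (nat_lit 556) ln11_14_4 ln11_14_4_ok) (L (nat_lit 620) ln11_15_4 ln11_15_4_ok)))))))))) (B (M (nat_lit 587) (B (M (nat_lit 619) (B (L (nat_lit 524) ln11_19_6 ln11_19_6_ok) (M (nat_lit 618) (B (L (nat_lit 586) ln11_15_5 ln11_15_5_ok) (L (nat_lit 650) ln11_16_5 ln11_16_5_ok))))) (B (M (nat_lit 588) (B (L (nat_lit 620) ln11_15_4 ln11_15_4_ok) (M (nat_lit 556) (B (L (nat_lit 459) ln11_14_4 ln11_14_4_ok) (M (nat_lit 586) (B (L (nat_lit 618) ln11_15_5 ln11_15_5_ok) (M (nat_lit 557) (B (L (nat_lit 558) ln14_17_1 ln14_17_1_ok) (L (nat_lit 585) ln9_18_2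 ln9_18_2_ok))))))))) (M (nat_lit 522) (B (M (nat_lit 619) (B (L (nat_lit 490) ln11_19_7 ln11_19_7_ok) (L (nat_lit 524) ln11_19_6 ln11_19_6_ok))) (B (M (nat_lit 521) (B (L (nat_lit 520) ln8_16_2 ln8_16_2_ok) (M (nat_lit 493) (B (L (nat_lit 494) ln14_15_1 ln14_15_1_ok) (L (nat_lit 524) ln9_16_2 ln9_16_2_ok))))) (M (nat_lit 521) (B (L (nat_lit 520) ln8_16_2 ln8_16_2_ok) (M (nat_lit 490) (B (L (nat_lit 493) ln13_15_1 ln13_15_1_ok) (L (nat_lit 619) ln11_19_7 ln11_19_7_ok))))))))))) (B (M (nat_lit 587) (B (M (nat_lit 619) (B (L (nat_lit 524) ln11_19_6 ln11_19_6_ok) (M (nat_lit 618) (B (L (nat_lit 586) ln11_15_5 ln11_15_5_ok) (L (nat_lit 650) ln11_16_5 ln11_16_5_ok))))) (B (M (nat_lit 586) (B (L (nat_lit 618) ln11_15_5 ln11_15_5_ok) (M (nat_lit 588) (B (L (nat_lit 620) ln11_15_4 ln11_15_4_ok) (M (nat_lit 554) (B (L (nat_lit 459) ln11_14_5 ln11_14_5_ok) (M (nat_lit 553) (B (L (nat_lit 552) ln8_17_0 ln8_17_0_ok)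 (L (nat_lit 589) ln13_18_3 ln13_18_3_ok))))))))) (M (nat_lit 522) (B (M (nat_lit 619) (B (L (nat_lit 490) ln11_19_7 ln11_19_7_ok) (L (nat_lit 524) ln11_19_6 ln11_19_6_ok))) (B (M (nat_lit 521) (B (L (nat_lit 520) ln8_16_2 ln8_16_2_ok) (M (nat_lit 493) (B (L (nat_lit 494) ln14_15_1 ln14_15_1_ok) (L (nat_lit 524) ln9_16_2 ln9_16_2_ok))))) (M (nat_lit 521) (B (L (nat_lit 520) ln8_16_2 ln8_16_2_ok) (M (nat_lit 490) (B (L (nat_lit 493) ln13_15_1 ln13_15_1_ok) (L (nat_lit 619) ln11_19_7 ln11_19_7_ok))))))))))) (B (M (nat_lit 587) (B (M (nat_lit 619) (B (L (nat_lit 524) ln11_19_6 ln11_19_6_ok) (M (nat_lit 620) (B (L (nat_lit 588) ln11_15_4 ln11_15_4_ok) (L (nat_lit 652) ln11_16_4 ln11_16_4_ok))))) (B (M (nat_lit 522) (B (M (nat_lit 521) (B (L (nat_lit 520) ln8_16_2 ln8_16_2_ok) (M (nat_lit 490) (B (L (nat_lit 493) ln13_15_1 ln13_15_1_ok) (L (nat_lit 619) ln11_19_7 ln11_19_7_ok))))) (M (nat_lit 459) (B (M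 (nat_lit 427) (B (L (nat_lit 428) ln11_16_6 ln11_16_6_ok) (L (nat_lit 554) ln11_13_5 ln11_13_5_ok))) (M (nat_lit 588) (B (L (nat_lit 556) ln11_14_4 ln11_14_4_ok) (L (nat_lit 620) ln11_15_4 ln11_15_4_ok))))))) (B (M (nat_lit 522) (B (M (nat_lit 619) (B (L (nat_lit 490) ln11_19_7 ln11_19_7_ok) (L (nat_lit 524) ln11_19_6 ln11_19_6_ok))) (B (M (nat_lit 521) (B (L (nat_lit 520) ln8_16_2 ln8_16_2_ok) (M (nat_lit 493) (B (L (nat_lit 494) ln14_15_1 ln14_15_1_ok) (L (nat_lit 524) ln9_16_2 ln9_16_2_ok))))) (M (nat_lit 521) (B (L (nat_lit 520) ln8_16_2 ln8_16_2_ok) (M (nat_lit 490) (B (L (nat_lit 493) ln13_15_1 ln13_15_1_ok) (L (nat_lit 619) ln11_19_7 ln11_19_7_ok)))))))) (M (nat_lit 522) (B (M (nat_lit 521) (B (L (nat_lit 520) ln8_16_2 ln8_16_2_ok) (M (nat_lit 493) (B (L (nat_lit 490) ln13_15_1 ln13_15_1_ok) (L (nat_lit 494) ln14_15_1 ln14_15_1_ok))))) (M (nat_lit 459) (B (M (nat_lit 427) (B (L (nat_lit 428)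 ln11_16_6 ln11_16_6_ok) (L (nat_lit 554) ln11_13_5 ln11_13_5_ok))) (M (nat_lit 588) (B (L (nat_lit 556) ln11_14_4 ln11_14_4_ok) (L (nat_lit 620) ln11_15_4 ln11_15_4_ok))))))))))) (B c11_n8027 (M (nat_lit 522) (B (M (nat_lit 521) (B (L (nat_lit 520) ln8_16_2 ln8_16_2_ok) (M (nat_lit 493) (B (L (nat_lit 490) ln13_15_1 ln13_15_1_ok) (L (nat_lit 494) ln14_15_1 ln14_15_1_ok))))) (B (M (nat_lit 521) (B (L (nat_lit 520) ln8_16_2 ln8_16_2_ok) (M (nat_lit 493) (B (L (nat_lit 494) ln14_15_1 ln14_15_1_ok) (L (nat_lit 524) ln9_16_2 ln9_16_2_ok))))) (B (M (nat_lit 521) (B (L (nat_lit 520) ln8_16_2 ln8_16_2_ok) (M (nat_lit 554) (B (M (nat_lit 459) (B (L (nat_lit 427) ln11_13_5 ln11_13_5_ok) (L (nat_lit 586) ln11_14_5 ln11_14_5_ok))) (M (nat_lit 553) (B (M (nat_lit 524) (B (L (nat_lit 552) ln12_16_1 ln12_16_1_ok) (L (nat_lit 525) ln13_16_1 ln13_16_1_ok))) (M (nat_lit 585) (B (M (nat_lit 617) (B (L (nat_lit 490)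 ln9_19_6 ln9_19_6_ok) (L (nat_lit 649) ln9_20_6 ln9_20_6_ok))) (M (nat_lit 556) (B (L (nat_lit 557) ln13_17_3 ln13_17_3_ok) (L (nat_lit 584) ln12_17_1 ln12_17_1_ok))))))))))) (B (M (nat_lit 493) (B (L (nat_lit 494) ln14_15_1 ln14_15_1_ok) (M (nat_lit 521) (B (L (nat_lit 490) ln13_15_1 ln13_15_1_ok) (L (nat_lit 524) ln9_16_2 ln9_16_2_ok))))) (M (nat_lit 586) (B (M (nat_lit 554) (B (L (nat_lit 459) ln11_14_5 ln11_14_5_ok) (L (nat_lit 618) ln10_19_6 ln10_19_6_ok))) (B (M (nat_lit 618) (B (L (nat_lit 554) ln10_19_6 ln10_19_6_ok) (L (nat_lit 587) ln11_15_5 ln11_15_5_ok))) (B (M (nat_lit 587) (B (L (nat_lit 618) ln11_15_5 ln11_15_5_ok) (M (nat_lit 619) (B (L (nat_lit 490) ln11_19_7 ln11_19_7_ok) (L (nat_lit 524) ln11_19_6 ln11_19_6_ok))))) (M (nat_lit 554) (B (L (nat_lit 459) ln11_14_5 ln11_14_5_ok) (M (nat_lit 553) (B (M (nat_lit 524) (B (L (nat_lit 525) ln13_16_1 ln13_16_1_ok) (L (nat_lit 552) ln8_17_2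 ln8_17_2_ok))) (M (nat_lit 585) (B (M (nat_lit 617) (B (L (nat_lit 490) ln10_15_5 ln10_15_5_ok) (L (nat_lit 649) ln9_20_6 ln9_20_6_ok))) (M (nat_lit 556) (B (L (nat_lit 584) ln12_17_1 ln12_17_1_ok) (L (nat_lit 557) ln13_17_1 ln13_17_1_ok)))))))))))))))))))))))))) (nat_lit 27459190659702461953069059467320441096471534265549184617284801927136860011334447789671750622583501851423897334643259845629210827193088962336965158224837738496) (nat_lit 25695665567014397035681626861013593513444075160831363464109942035795668316117630947683646520501543108035973620987351893272168107648565627247599559963773628993171311328993583035701155711873114439680) (nat_lit 25695665567014397035681626861013593513444075160831363464109942035795668316117630947683646520501543108035973620987351893272168107648565627247599559963773628993171311328993583035701155711873114439680) (by decide +kernel)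
theorem c11_s8072 : Sem (nat_lit 19180023093141456270994868227393793064975962979706948090394687277743823581181512059937683631514712089077336413480722875194222387086669045060377509888) (nat_lit 25695665575716561909991539007830787902037951017763114337193314927598736423824331248209739059575401575150008959705952191603977953746160270181232800765237372016385829084995058912434348581083013971968) (nat_lit 25695665575716561909991539007830787902037951017763114337193314927598736423824331248209739059575401575150008959705952191603977953746160270181232800765237372016385829084995058912434348581083013971968) :=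
  sem_of_chk (M (nat_lit 523) (B (M (nat_lit 428) (B (L (nat_lit 460) ln12_15_6 ln12_15_6_ok) (M (nat_lit 427) (B (L (nat_lit 459) ln11_16_6 ln11_16_6_ok) (M (nat_lit 398) (B (L (nat_lit 399) ln15_12_1 ln15_12_1_ok) (L (nat_lit 426) ln10_13_2 ln10_13_2_ok))))))) (B (M (nat_lit 460) (B (L (nat_lit 428) ln12_15_6 ln12_15_6_ok) (M (nat_lit 556) (B (M (nat_lit 555) (B (L (nat_lit 587) ln11_18_6 ln11_18_6_ok) (M (nat_lit 588) (B (L (nat_lit 459) ln11_14_4 ln11_14_4_ok) (M (nat_lit 620) (B (L (nat_lit 524) ln12_19_7 ln12_19_7_ok) (L (nat_lit 652) ln12_20_7 ln12_20_7_ok))))))) (B (M (nat_lit 524) (B (M (nat_lit 587) (B (L (nat_lit 555) ln11_18_6 ln11_18_6_ok) (M (nat_lit 588) (B (L (nat_lit 620) ln12_19_7 ln12_19_7_ok) (L (nat_lit 619) ln12_15_5 ln12_15_5_ok))))) (M (nat_lit 525) (B (M (nat_lit 490) (B (L (nat_lit 489) ln9_15_0 ln9_15_0_ok) (L (nat_lit 526) ln14_16_3 ln14_16_3_ok))) (M (nat_lit 557) (B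 (L (nat_lit 589) ln12_14_4 ln12_14_4_ok) (M (nat_lit 522) (B (L (nat_lit 521) ln9_16_0 ln9_16_0_ok) (L (nat_lit 558) ln10_16_0 ln10_16_0_ok))))))))) (B (M (nat_lit 555) (B (L (nat_lit 587) ln11_18_6 ln11_18_6_ok) (M (nat_lit 522) (B (M (nat_lit 459) (B (L (nat_lit 588) ln11_14_4 ln11_14_4_ok) (M (nat_lit 554) (B (L (nat_lit 427) ln11_13_5 ln11_13_5_ok) (L (nat_lit 586) ln11_14_5 ln11_14_5_ok))))) (M (nat_lit 521) (B (L (nat_lit 520) ln8_16_2 ln8_16_2_ok) (M (nat_lit 493) (B (L (nat_lit 490) ln13_15_1 ln13_15_1_ok) (L (nat_lit 494) ln14_15_1 ln14_15_1_ok))))))))) (B (M (nat_lit 524) (B (M (nat_lit 588) (B (L (nat_lit 459) ln12_18_7 ln12_18_7_ok) (L (nat_lit 620) ln12_19_7 ln12_19_7_ok))) (M (nat_lit 522) (B (M (nat_lit 521) (B (L (nat_lit 520) ln8_16_2 ln8_16_2_ok) (L (nat_lit 493) ln9_16_2 ln9_16_2_ok))) (B (M (nat_lit 521) (B (L (nat_lit 520) ln8_16_2 ln8_16_2_ok) (L (nat_lit 557) ln9_16_0 ln9_16_0_ok)))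 (B (M (nat_lit 521) (B (L (nat_lit 493) ln9_16_2 ln9_16_2_ok) (L (nat_lit 557) ln9_16_0 ln9_16_0_ok))) (M (nat_lit 525) (B (M (nat_lit 490) (B (L (nat_lit 489) ln9_15_0 ln9_15_0_ok) (L (nat_lit 526) ln14_16_3 ln14_16_3_ok))) (M (nat_lit 557) (B (L (nat_lit 589) ln12_14_4 ln12_14_4_ok) (L (nat_lit 558) ln10_16_0 ln10_16_0_ok))))))))))) (M (nat_lit 524) (B (M (nat_lit 555) (B (L (nat_lit 587) ln11_18_6 ln11_18_6_ok) (M (nat_lit 557) (B (L (nat_lit 589) ln12_14_4 ln12_14_4_ok) (M (nat_lit 522) (B (L (nat_lit 521) ln9_16_0 ln9_16_0_ok) (L (nat_lit 558) ln14_17_3 ln14_17_3_ok))))))) (B (M (nat_lit 555) (B (L (nat_lit 587) ln11_18_6 ln11_18_6_ok) (M (nat_lit 554) (B (M (nat_lit 459) (B (L (nat_lit 427) ln12_17_7 ln12_17_7_ok) (L (nat_lit 586) ln11_14_5 ln11_14_5_ok))) (M (nat_lit 553) (B (L (nat_lit 552) ln8_17_2 ln8_17_2_ok) (L (nat_lit 525) ln9_17_2 ln9_17_2_ok))))))) (M (nat_lit 522) (B (M (nat_lit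 521) (B (L (nat_lit 520) ln8_16_2 ln8_16_2_ok) (L (nat_lit 493) ln9_16_2 ln9_16_2_ok))) (B (M (nat_lit 521) (B (L (nat_lit 520) ln8_16_2 ln8_16_2_ok) (L (nat_lit 557) ln9_16_0 ln9_16_0_ok))) (B (M (nat_lit 521) (B (L (nat_lit 493) ln9_16_2 ln9_16_2_ok) (L (nat_lit 557) ln9_16_0 ln9_16_0_ok))) (M (nat_lit 525) (B (M (nat_lit 490) (B (L (nat_lit 489) ln9_15_0 ln9_15_0_ok) (L (nat_lit 526) ln14_16_3 ln14_16_3_ok))) (M (nat_lit 557) (B (L (nat_lit 589) ln12_14_4 ln12_14_4_ok) (L (nat_lit 558) ln10_16_0 ln10_16_0_ok))))))))))))))))))) (B c11_n7691 (B c11_n7743 (B (K (nat_lit 27459190659702461953069059467320441096471534265549184617284801927136860011334447789671750622583501851423897334643259845629210827193088962336965158224837738496) (nat_lit 18687756787048870042001915526382125156421902250710327869861348534720021949977048138716605433807149809821721810217202310968347403211157835913236231323752985924409850551226857900663284209317316657152)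 (nat_lit 18687756787048870042001915526382125156421902250710327869861348534720021949977048138716605433807149809821721810217202310968347403211157835913236231323752985924409850551226857900663284209317316657152) c11_s7904) (K (nat_lit 27459190659702461953069059467320441096471534265549184617284801927136860011334447789671750622583501851423897334643259845629210827193088962336965158224837738496) (nat_lit 25695665567014397035681626861013593513444075160831363464109942035795668316117630947683646520501543108035973620987351893272168107648565627247599559963773628993171311328993583035701155711873114439680) (nat_lit 25695665567014397035681626861013593513444075160831363464109942035795668316117630947683646520501543108035973620987351893272168107648565627247599559963773628993171311328993583035701155711873114439680) c11_s8071))))))) (nat_lit 19180023093141456270994868227393793064975962979706948090394687277743823581181512059937683631514712089077336413480722875194222387086669045060377509888)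 (nat_lit 25695665575716561909991539007830787902037951017763114337193314927598736423824331248209739059575401575150008959705952191603977953746160270181232800765237372016385829084995058912434348581083013971968) (nat_lit 25695665575716561909991539007830787902037951017763114337193314927598736423824331248209739059575401575150008959705952191603977953746160270181232800765237372016385829084995058912434348581083013971968) (by decide +kernel)
theorem c11_s8257 : Sem (nat_lit 19180023093141456271688035650923996779870566525742719016253796546587777724974131955091338958466118494837330015006757769718570189827019938017621049344) (nat_lit 633165827977536177739945347375500729495578781401928210490856696218087537898892600201327772937108485205685080389701038322695786703603754186017068937604511655038795685695158484992) (nat_lit 633165827977536177739945347375500729495578781401928210490856696218087537898892600201327772937108485205685080389701038322695786703603754186017068937604511655038795685695158484992)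 :=
  sem_of_chk (M (nat_lit 490) (B (M (nat_lit 489) (B (M (nat_lit 521) (B (L (nat_lit 520) ln12_15_1 ln12_15_1_ok) (M (nat_lit 493) (B (L (nat_lit 522) ln13_15_1 ln13_15_1_ok) (M (nat_lit 457) (B (L (nat_lit 456) ln12_15_3 ln12_15_3_ok) (L (nat_lit 458) ln13_15_3 ln13_15_3_ok))))))) (B (M (nat_lit 493) (B (M (nat_lit 521) (B (L (nat_lit 520) ln12_15_1 ln12_15_1_ok) (L (nat_lit 522) ln13_15_1 ln13_15_1_ok))) (M (nat_lit 525) (B (L (nat_lit 524) ln9_15_0 ln9_15_0_ok) (L (nat_lit 526) ln10_15_0 ln10_15_0_ok))))) (B (M (nat_lit 488) (B (M (nat_lit 456) (B (L (nat_lit 455) ln11_15_3 ln11_15_3_ok) (L (nat_lit 457) ln12_15_3 ln12_15_3_ok))) (M (nat_lit 520) (B (L (nat_lit 519) ln11_15_1 ln11_15_1_ok) (L (nat_lit 521) ln12_15_1 ln12_15_1_ok))))) (M (nat_lit 493) (B (M (nat_lit 457) (B (L (nat_lit 456) ln12_15_3 ln12_15_3_ok) (L (nat_lit 458) ln13_15_3 ln13_15_3_ok))) (M (nat_lit 525) (B (L (nat_lit 524)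 ln9_15_0 ln9_15_0_ok) (L (nat_lit 526) ln10_15_0 ln10_15_0_ok))))))))) (B (M (nat_lit 489) (B (M (nat_lit 520) (B (L (nat_lit 521) ln12_15_1 ln12_15_1_ok) (M (nat_lit 488) (B (L (nat_lit 519) ln11_15_1 ln11_15_1_ok) (M (nat_lit 524) (B (L (nat_lit 523) ln8_15_0 ln8_15_0_ok) (L (nat_lit 525) ln9_15_0 ln9_15_0_ok))))))) (B (M (nat_lit 493) (B (M (nat_lit 457) (B (L (nat_lit 456) ln12_15_3 ln12_15_3_ok) (L (nat_lit 458) ln13_15_3 ln13_15_3_ok))) (M (nat_lit 525) (B (L (nat_lit 524) ln9_15_0 ln9_15_0_ok) (L (nat_lit 526) ln10_15_0 ln10_15_0_ok))))) (M (nat_lit 521) (B (L (nat_lit 520) ln12_15_1 ln12_15_1_ok) (M (nat_lit 493) (B (L (nat_lit 522) ln13_15_1 ln13_15_1_ok) (M (nat_lit 457) (B (L (nat_lit 456) ln12_15_3 ln12_15_3_ok) (L (nat_lit 458) ln13_15_3 ln13_15_3_ok)))))))))) (B (M (nat_lit 458) (B (M (nat_lit 426) (B (M (nat_lit 427) (B (L (nat_lit 425) ln9_13_2 ln9_13_2_ok) (L (nat_lit 398) ln10_13_2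 ln10_13_2_ok))) (B (M (nat_lit 427) (B (L (nat_lit 425) ln9_13_2 ln9_13_2_ok) (L (nat_lit 457) ln13_13_1 ln13_13_1_ok))) (B (M (nat_lit 427) (B (L (nat_lit 398) ln10_13_2 ln10_13_2_ok) (L (nat_lit 457) ln13_13_1 ln13_13_1_ok))) (M (nat_lit 523) (B (L (nat_lit 394) ln10_12_4 ln10_12_4_ok) (M (nat_lit 555) (B (L (nat_lit 522) ln10_13_4 ln10_13_4_ok) (L (nat_lit 587) ln11_18_7 ln11_18_7_ok))))))))) (B (M (nat_lit 493) (B (L (nat_lit 457) ln13_15_3 ln13_15_3_ok) (M (nat_lit 489) (B (M (nat_lit 521) (B (L (nat_lit 520) ln12_15_1 ln12_15_1_ok) (L (nat_lit 522) ln13_15_1 ln13_15_1_ok))) (M (nat_lit 525) (B (L (nat_lit 524) ln9_15_0 ln9_15_0_ok) (L (nat_lit 526) ln10_15_0 ln10_15_0_ok))))))) (B (M (nat_lit 426) (B (M (nat_lit 427) (B (L (nat_lit 425) ln9_13_2 ln9_13_2_ok) (L (nat_lit 398) ln10_13_2 ln10_13_2_ok))) (M (nat_lit 523) (B (L (nat_lit 394) ln10_12_4 ln10_12_4_ok) (M (nat_lit 555) (B (L (nat_lit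 522) ln10_13_4 ln10_13_4_ok) (L (nat_lit 587) ln11_18_7 ln11_18_7_ok))))))) (M (nat_lit 489) (B (M (nat_lit 493) (B (L (nat_lit 457) ln13_15_3 ln13_15_3_ok) (M (nat_lit 525) (B (L (nat_lit 524) ln9_15_0 ln9_15_0_ok) (L (nat_lit 526) ln10_15_0 ln10_15_0_ok))))) (M (nat_lit 426) (B (M (nat_lit 521) (B (L (nat_lit 394) ln10_12_5 ln10_12_5_ok) (L (nat_lit 520) ln12_15_1 ln12_15_1_ok))) (M (nat_lit 427) (B (L (nat_lit 425) ln9_13_2 ln9_13_2_ok) (L (nat_lit 398) ln10_13_2 ln10_13_2_ok))))))))))) (B (M (nat_lit 489) (B (M (nat_lit 493) (B (M (nat_lit 521) (B (L (nat_lit 520) ln12_15_1 ln12_15_1_ok) (L (nat_lit 522) ln13_15_1 ln13_15_1_ok))) (M (nat_lit 525) (B (L (nat_lit 524) ln9_15_0 ln9_15_0_ok) (L (nat_lit 526) ln10_15_0 ln10_15_0_ok))))) (B (M (nat_lit 520) (B (L (nat_lit 521) ln12_15_1 ln12_15_1_ok) (M (nat_lit 488) (B (L (nat_lit 519) ln11_15_1 ln11_15_1_ok) (M (nat_lit 524) (B (L (nat_lit 523) ln8_15_0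 ln8_15_0_ok) (L (nat_lit 525) ln9_15_0 ln9_15_0_ok))))))) (B (M (nat_lit 523) (B (M (nat_lit 524) (B (L (nat_lit 488) ln8_15_0 ln8_15_0_ok) (L (nat_lit 525) ln9_15_0 ln9_15_0_ok))) (M (nat_lit 426) (B (M (nat_lit 427) (B (L (nat_lit 425) ln9_13_2 ln9_13_2_ok) (L (nat_lit 398) ln10_13_2 ln10_13_2_ok))) (M (nat_lit 458) (B (L (nat_lit 394) ln10_12_4 ln10_12_4_ok) (M (nat_lit 555) (B (L (nat_lit 522) ln10_13_4 ln10_13_4_ok) (L (nat_lit 587) ln11_18_7 ln11_18_7_ok))))))))) (M (nat_lit 521) (B (L (nat_lit 520) ln12_15_1 ln12_15_1_ok) (M (nat_lit 426) (B (M (nat_lit 427) (B (L (nat_lit 425) ln9_13_2 ln9_13_2_ok) (L (nat_lit 398) ln10_13_2 ln10_13_2_ok))) (M (nat_lit 458) (B (L (nat_lit 394) ln10_12_5 ln10_12_5_ok) (M (nat_lit 522) (B (L (nat_lit 553) ln10_13_5 ln10_13_5_ok) (L (nat_lit 493) ln13_15_1 ln13_15_1_ok))))))))))))) (B (M (nat_lit 489) (B (M (nat_lit 488) (B (M (nat_lit 456) (B (L (nat_lit 455)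 ln11_15_3 ln11_15_3_ok) (L (nat_lit 457) ln12_15_3 ln12_15_3_ok))) (M (nat_lit 520) (B (L (nat_lit 519) ln11_15_1 ln11_15_1_ok) (L (nat_lit 521) ln12_15_1 ln12_15_1_ok))))) (B (M (nat_lit 520) (B (L (nat_lit 521) ln12_15_1 ln12_15_1_ok) (M (nat_lit 488) (B (L (nat_lit 519) ln11_15_1 ln11_15_1_ok) (M (nat_lit 524) (B (L (nat_lit 523) ln8_15_0 ln8_15_0_ok) (L (nat_lit 525) ln9_15_0 ln9_15_0_ok))))))) (B (M (nat_lit 493) (B (M (nat_lit 521) (B (L (nat_lit 520) ln12_15_1 ln12_15_1_ok) (L (nat_lit 522) ln13_15_1 ln13_15_1_ok))) (M (nat_lit 525) (B (L (nat_lit 524) ln9_15_0 ln9_15_0_ok) (L (nat_lit 526) ln10_15_0 ln10_15_0_ok))))) (M (nat_lit 488) (B (M (nat_lit 456) (B (L (nat_lit 455) ln11_15_3 ln11_15_3_ok) (L (nat_lit 457) ln12_15_3 ln12_15_3_ok))) (M (nat_lit 524) (B (L (nat_lit 523) ln8_15_0 ln8_15_0_ok) (L (nat_lit 525) ln9_15_0 ln9_15_0_ok))))))))) (B (M (nat_lit 522) (B (M (nat_lit 521) (B (L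 (nat_lit 493) ln13_15_1 ln13_15_1_ok) (M (nat_lit 520) (B (L (nat_lit 519) ln7_16_2 ln7_16_2_ok) (L (nat_lit 523) ln8_16_2 ln8_16_2_ok))))) (B (M (nat_lit 426) (B (M (nat_lit 427) (B (L (nat_lit 425) ln9_13_2 ln9_13_2_ok) (L (nat_lit 398) ln10_13_2 ln10_13_2_ok))) (B (M (nat_lit 458) (B (M (nat_lit 425) (B (L (nat_lit 393) ln10_16_7 ln10_16_7_ok) (L (nat_lit 427) ln9_13_2 ln9_13_2_ok))) (M (nat_lit 523) (B (L (nat_lit 394) ln10_12_4 ln10_12_4_ok) (L (nat_lit 555) ln10_13_4 ln10_13_4_ok))))) (B (M (nat_lit 458) (B (M (nat_lit 427) (B (L (nat_lit 398) ln10_13_2 ln10_13_2_ok) (L (nat_lit 457) ln13_13_1 ln13_13_1_ok))) (M (nat_lit 523) (B (L (nat_lit 394) ln10_12_4 ln10_12_4_ok) (L (nat_lit 555) ln10_13_4 ln10_13_4_ok))))) (M (nat_lit 458) (B (M (nat_lit 523) (B (L (nat_lit 394) ln10_12_4 ln10_12_4_ok) (L (nat_lit 555) ln10_13_4 ln10_13_4_ok))) (M (nat_lit 554) (B (M (nat_lit 425) (B (L (nat_lit 393)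 ln10_16_7 ln10_16_7_ok) (L (nat_lit 457) ln10_17_7 ln10_17_7_ok))) (M (nat_lit 553) (B (L (nat_lit 521) ln10_13_5 ln10_13_5_ok) (L (nat_lit 585) ln10_14_5 ln10_14_5_ok))))))))))) (B (M (nat_lit 426) (B (M (nat_lit 427) (B (L (nat_lit 425) ln9_13_2 ln9_13_2_ok) (L (nat_lit 398) ln10_13_2 ln10_13_2_ok))) (B (M (nat_lit 458) (B (M (nat_lit 425) (B (L (nat_lit 393) ln10_16_7 ln10_16_7_ok) (L (nat_lit 427) ln9_13_2 ln9_13_2_ok))) (M (nat_lit 523) (B (L (nat_lit 394) ln10_12_4 ln10_12_4_ok) (L (nat_lit 555) ln10_13_4 ln10_13_4_ok))))) (B (M (nat_lit 458) (B (M (nat_lit 427) (B (L (nat_lit 398) ln10_13_2 ln10_13_2_ok) (L (nat_lit 457) ln13_13_1 ln13_13_1_ok))) (M (nat_lit 523) (B (L (nat_lit 394) ln10_12_4 ln10_12_4_ok) (L (nat_lit 555) ln10_13_4 ln10_13_4_ok))))) (M (nat_lit 458) (B (M (nat_lit 523) (B (L (nat_lit 394) ln10_12_4 ln10_12_4_ok) (L (nat_lit 555) ln10_13_4 ln10_13_4_ok))) (M (nat_lit 425)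 (B (L (nat_lit 393) ln10_16_7 ln10_16_7_ok) (M (nat_lit 457) (B (L (nat_lit 554) ln10_17_7 ln10_17_7_ok) (L (nat_lit 493) ln13_15_3 ln13_15_3_ok))))))))))) (M (nat_lit 426) (B (M (nat_lit 427) (B (L (nat_lit 425) ln9_13_2 ln9_13_2_ok) (L (nat_lit 398) ln10_13_2 ln10_13_2_ok))) (B (M (nat_lit 458) (B (M (nat_lit 425) (B (L (nat_lit 393) ln10_16_7 ln10_16_7_ok) (L (nat_lit 427) ln9_13_2 ln9_13_2_ok))) (M (nat_lit 521) (B (L (nat_lit 553) ln10_13_5 ln10_13_5_ok) (L (nat_lit 493) ln13_15_1 ln13_15_1_ok))))) (B (M (nat_lit 458) (B (M (nat_lit 427) (B (L (nat_lit 398) ln10_13_2 ln10_13_2_ok) (L (nat_lit 457) ln13_13_1 ln13_13_1_ok))) (B (M (nat_lit 493) (B (L (nat_lit 457) ln13_15_3 ln13_15_3_ok) (L (nat_lit 521) ln13_15_1 ln13_15_1_ok))) (M (nat_lit 521) (B (L (nat_lit 553) ln10_13_5 ln10_13_5_ok) (L (nat_lit 493) ln13_15_1 ln13_15_1_ok)))))) (M (nat_lit 458) (B (M (nat_lit 521) (B (L (nat_lit 553) ln10_13_5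 ln10_13_5_ok) (L (nat_lit 493) ln13_15_1 ln13_15_1_ok))) (B (M (nat_lit 554) (B (M (nat_lit 425) (B (L (nat_lit 393) ln10_16_7 ln10_16_7_ok) (L (nat_lit 457) ln10_17_7 ln10_17_7_ok))) (M (nat_lit 553) (B (L (nat_lit 521) ln10_13_5 ln10_13_5_ok) (L (nat_lit 585) ln10_14_5 ln10_14_5_ok))))) (M (nat_lit 425) (B (L (nat_lit 393) ln10_16_7 ln10_16_7_ok) (M (nat_lit 457) (B (L (nat_lit 554) ln10_17_7 ln10_17_7_ok) (L (nat_lit 493) ln13_15_3 ln13_15_3_ok)))))))))))))))) (B (M (nat_lit 489) (B (M (nat_lit 520) (B (L (nat_lit 521) ln12_15_1 ln12_15_1_ok) (M (nat_lit 488) (B (L (nat_lit 519) ln11_15_1 ln11_15_1_ok) (M (nat_lit 524) (B (L (nat_lit 523) ln8_15_0 ln8_15_0_ok) (L (nat_lit 525) ln9_15_0 ln9_15_0_ok))))))) (B (M (nat_lit 426) (B (M (nat_lit 427) (B (L (nat_lit 425) ln9_13_2 ln9_13_2_ok) (L (nat_lit 398) ln10_13_2 ln10_13_2_ok))) (B (M (nat_lit 427) (B (L (nat_lit 425) ln9_13_2 ln9_13_2_ok) (M (nat_lit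 457) (B (L (nat_lit 458) ln13_13_1 ln13_13_1_ok) (L (nat_lit 456) ln12_15_3 ln12_15_3_ok))))) (B (M (nat_lit 427) (B (L (nat_lit 398) ln10_13_2 ln10_13_2_ok) (M (nat_lit 457) (B (L (nat_lit 458) ln13_13_1 ln13_13_1_ok) (L (nat_lit 456) ln12_15_3 ln12_15_3_ok))))) (M (nat_lit 521) (B (L (nat_lit 520) ln12_15_1 ln12_15_1_ok) (M (nat_lit 458) (B (L (nat_lit 394) ln10_12_5 ln10_12_5_ok) (M (nat_lit 457) (B (L (nat_lit 553) ln9_17_6 ln9_17_6_ok) (L (nat_lit 456) ln12_15_3 ln12_15_3_ok))))))))))) (B (M (nat_lit 426) (B (M (nat_lit 427) (B (L (nat_lit 425) ln9_13_2 ln9_13_2_ok) (L (nat_lit 398) ln10_13_2 ln10_13_2_ok))) (B (M (nat_lit 427) (B (L (nat_lit 425) ln9_13_2 ln9_13_2_ok) (M (nat_lit 457) (B (L (nat_lit 458) ln13_13_1 ln13_13_1_ok) (L (nat_lit 456) ln12_15_3 ln12_15_3_ok))))) (B (M (nat_lit 427) (B (L (nat_lit 398) ln10_13_2 ln10_13_2_ok) (M (nat_lit 457) (B (L (nat_lit 458) ln13_13_1 ln13_13_1_ok)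 (L (nat_lit 456) ln12_15_3 ln12_15_3_ok))))) (M (nat_lit 458) (B (M (nat_lit 394) (B (L (nat_lit 521) ln10_12_5 ln10_12_5_ok) (L (nat_lit 523) ln10_12_4 ln10_12_4_ok))) (B (M (nat_lit 523) (B (M (nat_lit 555) (B (L (nat_lit 522) ln10_13_4 ln10_13_4_ok) (L (nat_lit 587) ln11_18_7 ln11_18_7_ok))) (M (nat_lit 524) (B (L (nat_lit 488) ln8_15_0 ln8_15_0_ok) (L (nat_lit 525) ln9_15_0 ln9_15_0_ok))))) (M (nat_lit 521) (B (L (nat_lit 394) ln10_12_5 ln10_12_5_ok) (M (nat_lit 457) (B (L (nat_lit 553) ln9_17_6 ln9_17_6_ok) (L (nat_lit 456) ln12_15_3 ln12_15_3_ok)))))))))))) (M (nat_lit 523) (B (M (nat_lit 524) (B (L (nat_lit 488) ln8_15_0 ln8_15_0_ok) (L (nat_lit 525) ln9_15_0 ln9_15_0_ok))) (M (nat_lit 426) (B (M (nat_lit 427) (B (L (nat_lit 425) ln9_13_2 ln9_13_2_ok) (L (nat_lit 398) ln10_13_2 ln10_13_2_ok))) (M (nat_lit 458) (B (L (nat_lit 394) ln10_12_4 ln10_12_4_ok) (M (nat_lit 555) (B (L (nat_lit 522)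 ln10_13_4 ln10_13_4_ok) (L (nat_lit 587) ln11_18_7 ln11_18_7_ok))))))))))))) (B (M (nat_lit 458) (B (M (nat_lit 457) (B (L (nat_lit 493) ln13_15_3 ln13_15_3_ok) (M (nat_lit 456) (B (L (nat_lit 455) ln7_14_0 ln7_14_0_ok) (L (nat_lit 489) ln12_15_3 ln12_15_3_ok))))) (B (M (nat_lit 426) (B (M (nat_lit 427) (B (L (nat_lit 425) ln9_13_2 ln9_13_2_ok) (L (nat_lit 398) ln10_13_2 ln10_13_2_ok))) (B (M (nat_lit 427) (B (L (nat_lit 425) ln9_13_2 ln9_13_2_ok) (L (nat_lit 457) ln13_13_1 ln13_13_1_ok))) (B (M (nat_lit 427) (B (L (nat_lit 398) ln10_13_2 ln10_13_2_ok) (L (nat_lit 457) ln13_13_1 ln13_13_1_ok))) (M (nat_lit 523) (B (L (nat_lit 394) ln10_12_4 ln10_12_4_ok) (M (nat_lit 555) (B (L (nat_lit 522) ln10_13_4 ln10_13_4_ok) (L (nat_lit 587) ln11_18_7 ln11_18_7_ok))))))))) (M (nat_lit 426) (B (M (nat_lit 427) (B (L (nat_lit 425) ln9_13_2 ln9_13_2_ok) (L (nat_lit 398) ln10_13_2 ln10_13_2_ok))) (M (nat_lit 523)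 (B (L (nat_lit 394) ln10_12_4 ln10_12_4_ok) (M (nat_lit 555) (B (L (nat_lit 522) ln10_13_4 ln10_13_4_ok) (L (nat_lit 587) ln11_18_7 ln11_18_7_ok)))))))))) (M (nat_lit 489) (B (M (nat_lit 488) (B (M (nat_lit 456) (B (L (nat_lit 455) ln11_15_3 ln11_15_3_ok) (L (nat_lit 457) ln12_15_3 ln12_15_3_ok))) (M (nat_lit 524) (B (L (nat_lit 523) ln8_15_0 ln8_15_0_ok) (L (nat_lit 525) ln9_15_0 ln9_15_0_ok))))) (B (M (nat_lit 520) (B (L (nat_lit 521) ln12_15_1 ln12_15_1_ok) (M (nat_lit 488) (B (L (nat_lit 519) ln11_15_1 ln11_15_1_ok) (M (nat_lit 524) (B (L (nat_lit 523) ln8_15_0 ln8_15_0_ok) (L (nat_lit 525) ln9_15_0 ln9_15_0_ok))))))) (B (M (nat_lit 493) (B (M (nat_lit 457) (B (L (nat_lit 456) ln12_15_3 ln12_15_3_ok) (L (nat_lit 458) ln13_15_3 ln13_15_3_ok))) (M (nat_lit 525) (B (L (nat_lit 524) ln9_15_0 ln9_15_0_ok) (L (nat_lit 526) ln10_15_0 ln10_15_0_ok))))) (M (nat_lit 488) (B (M (nat_lit 456) (B (L (nat_lit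 455) ln11_15_3 ln11_15_3_ok) (L (nat_lit 457) ln12_15_3 ln12_15_3_ok))) (M (nat_lit 520) (B (L (nat_lit 519) ln11_15_1 ln11_15_1_ok) (L (nat_lit 521) ln12_15_1 ln12_15_1_ok)))))))))))))))))) (nat_lit 19180023093141456271688035650923996779870566525742719016253796546587777724974131955091338958466118494837330015006757769718570189827019938017621049344) (nat_lit 633165827977536177739945347375500729495578781401928210490856696218087537898892600201327772937108485205685080389701038322695786703603754186017068937604511655038795685695158484992) (nat_lit 633165827977536177739945347375500729495578781401928210490856696218087537898892600201327772937108485205685080389701038322695786703603754186017068937604511655038795685695158484992) (by decide +kernel)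
noncomputable def c11_n8335 : Cert := (M (nat_lit 489) (B (M (nat_lit 493) (B (M (nat_lit 521) (B (L (nat_lit 520) ln12_15_1 ln12_15_1_ok) (L (nat_lit 522) ln13_15_1 ln13_15_1_ok))) (M (nat_lit 525) (B (L (nat_lit 524) ln9_15_0 ln9_15_0_ok) (L (nat_lit 526) ln10_15_0 ln10_15_0_ok))))) (B (M (nat_lit 488) (B (M (nat_lit 520) (B (L (nat_lit 519) ln11_15_1 ln11_15_1_ok) (L (nat_lit 521) ln12_15_1 ln12_15_1_ok))) (M (nat_lit 524) (B (L (nat_lit 523) ln8_15_0 ln8_15_0_ok) (L (nat_lit 525) ln9_15_0 ln9_15_0_ok))))) (B (M (nat_lit 523) (B (M (nat_lit 524) (B (L (nat_lit 488) ln8_15_0 ln8_15_0_ok) (L (nat_lit 525) ln9_15_0 ln9_15_0_ok))) (M (nat_lit 555) (B (M (nat_lit 458) (B (L (nat_lit 587) ln11_18_7 ln11_18_7_ok) (M (nat_lit 426) (B (L (nat_lit 394) ln10_12_4 ln10_12_4_ok) (L (nat_lit 522) ln10_13_4 ln10_13_4_ok))))) (B (M (nat_lit 458) (B (L (nat_lit 587) ln11_18_7 ln11_18_7_ok) (M (nat_lit 426) (B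 (L (nat_lit 459) ln11_17_7 ln11_17_7_ok) (L (nat_lit 522) ln10_13_4 ln10_13_4_ok))))) (B (M (nat_lit 587) (B (L (nat_lit 458) ln11_18_7 ln11_18_7_ok) (M (nat_lit 619) (B (L (nat_lit 522) ln11_19_7 ln11_19_7_ok) (M (nat_lit 618) (B (L (nat_lit 586) ln11_15_5 ln11_15_5_ok) (L (nat_lit 650) ln11_16_5 ln11_16_5_ok))))))) (B (M (nat_lit 587) (B (M (nat_lit 619) (B (L (nat_lit 522) ln11_19_7 ln11_19_7_ok) (M (nat_lit 618) (B (L (nat_lit 586) ln11_15_5 ln11_15_5_ok) (L (nat_lit 650) ln11_16_5 ln11_16_5_ok))))) (B (M (nat_lit 619) (B (M (nat_lit 618) (B (L (nat_lit 586) ln11_15_5 ln11_15_5_ok) (L (nat_lit 650) ln11_16_5 ln11_16_5_ok))) (M (nat_lit 620) (B (L (nat_lit 588) ln11_15_4 ln11_15_4_ok) (L (nat_lit 652) ln11_16_4 ln11_16_4_ok))))) (B (M (nat_lit 619) (B (L (nat_lit 522) ln11_19_7 ln11_19_7_ok) (M (nat_lit 620) (B (L (nat_lit 588) ln11_15_4 ln11_15_4_ok) (L (nat_lit 652) ln11_16_4 ln11_16_4_ok)))))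 (M (nat_lit 459) (B (M (nat_lit 586) (B (L (nat_lit 554) ln11_14_5 ln11_14_5_ok) (L (nat_lit 618) ln11_15_5 ln11_15_5_ok))) (M (nat_lit 588) (B (L (nat_lit 556) ln11_14_4 ln11_14_4_ok) (L (nat_lit 620) ln11_15_4 ln11_15_4_ok))))))))) (B (M (nat_lit 458) (B (L (nat_lit 587) ln11_18_7 ln11_18_7_ok) (M (nat_lit 426) (B (L (nat_lit 394) ln10_12_4 ln10_12_4_ok) (L (nat_lit 459) ln11_17_7 ln11_17_7_ok))))) (M (nat_lit 427) (B (M (nat_lit 459) (B (L (nat_lit 428) ln11_16_6 ln11_16_6_ok) (M (nat_lit 426) (B (L (nat_lit 394) ln11_16_7 ln11_16_7_ok) (L (nat_lit 458) ln11_17_7 ln11_17_7_ok))))) (B (M (nat_lit 459) (B (L (nat_lit 428) ln11_16_6 ln11_16_6_ok) (M (nat_lit 554) (B (L (nat_lit 522) ln11_13_5 ln11_13_5_ok) (L (nat_lit 586) ln11_14_5 ln11_14_5_ok))))) (B (M (nat_lit 459) (B (M (nat_lit 426) (B (L (nat_lit 394) ln11_16_7 ln11_16_7_ok) (L (nat_lit 458) ln11_17_7 ln11_17_7_ok))) (M (nat_lit 554) (B (L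 (nat_lit 522) ln11_13_5 ln11_13_5_ok) (L (nat_lit 586) ln11_14_5 ln11_14_5_ok))))) (M (nat_lit 426) (B (M (nat_lit 428) (B (L (nat_lit 425) ln9_13_2 ln9_13_2_ok) (L (nat_lit 398) ln10_13_2 ln10_13_2_ok))) (M (nat_lit 458) (B (L (nat_lit 394) ln10_12_4 ln10_12_4_ok) (L (nat_lit 522) ln10_13_4 ln10_13_4_ok))))))))))))))))) (M (nat_lit 488) (B (M (nat_lit 520) (B (L (nat_lit 519) ln11_15_1 ln11_15_1_ok) (L (nat_lit 521) ln12_15_1 ln12_15_1_ok))) (B (M (nat_lit 521) (B (L (nat_lit 520) ln12_15_1 ln12_15_1_ok) (M (nat_lit 522) (B (L (nat_lit 493) ln13_15_1 ln13_15_1_ok) (M (nat_lit 487) (B (L (nat_lit 486) ln6_15_0 ln6_15_0_ok) (L (nat_lit 523) ln7_15_0 ln7_15_0_ok))))))) (B (M (nat_lit 487) (B (M (nat_lit 455) (B (L (nat_lit 454) ln10_15_3 ln10_15_3_ok) (L (nat_lit 456) ln11_15_3 ln11_15_3_ok))) (M (nat_lit 522) (B (L (nat_lit 523) ln7_15_0 ln7_15_0_ok) (M (nat_lit 521) (B (L (nat_lit 486) ln6_15_0 ln6_15_0_ok)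 (L (nat_lit 493) ln13_15_1 ln13_15_1_ok))))))) (M (nat_lit 487) (B (M (nat_lit 455) (B (L (nat_lit 454) ln10_15_3 ln10_15_3_ok) (L (nat_lit 456) ln11_15_3 ln11_15_3_ok))) (M (nat_lit 519) (B (L (nat_lit 518) ln10_15_1 ln10_15_1_ok) (L (nat_lit 520) ln11_15_1 ln11_15_1_ok)))))))))))))
noncomputable def c11_n8359 : Cert := (M (nat_lit 522) (B (M (nat_lit 521) (B (L (nat_lit 493) ln13_15_1 ln13_15_1_ok) (M (nat_lit 520) (B (L (nat_lit 519) ln7_16_2 ln7_16_2_ok) (L (nat_lit 523) ln8_16_2 ln8_16_2_ok))))) (B (M (nat_lit 554) (B (M (nat_lit 459) (B (L (nat_lit 586) ln10_18_6 ln10_18_6_ok) (M (nat_lit 427) (B (L (nat_lit 458) ln10_17_6 ln10_17_6_ok) (L (nat_lit 523) ln11_13_5 ln11_13_5_ok))))) (B (M (nat_lit 586) (B (L (nat_lit 459) ln10_18_6 ln10_18_6_ok) (M (nat_lit 618) (B (L (nat_lit 523) ln10_19_6 ln10_19_6_ok) (M (nat_lit 617) (B (L (nat_lit 585) ln10_15_5 ln10_15_5_ok) (L (nat_lit 649) ln10_16_5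 ln10_16_5_ok))))))) (B (M (nat_lit 586) (B (M (nat_lit 618) (B (L (nat_lit 523) ln10_19_6 ln10_19_6_ok) (M (nat_lit 617) (B (L (nat_lit 585) ln10_15_5 ln10_15_5_ok) (L (nat_lit 649) ln10_16_5 ln10_16_5_ok))))) (B (M (nat_lit 458) (B (M (nat_lit 585) (B (L (nat_lit 553) ln10_14_5 ln10_14_5_ok) (L (nat_lit 617) ln10_15_5 ln10_15_5_ok))) (M (nat_lit 587) (B (L (nat_lit 555) ln10_14_4 ln10_14_4_ok) (L (nat_lit 619) ln10_15_4 ln10_15_4_ok))))) (M (nat_lit 458) (B (M (nat_lit 587) (B (L (nat_lit 555) ln10_14_4 ln10_14_4_ok) (L (nat_lit 619) ln10_15_4 ln10_15_4_ok))) (M (nat_lit 426) (B (M (nat_lit 425) (B (L (nat_lit 393) ln10_16_7 ln10_16_7_ok) (L (nat_lit 457) ln10_17_7 ln10_17_7_ok))) (M (nat_lit 523) (B (L (nat_lit 394) ln10_12_4 ln10_12_4_ok) (L (nat_lit 618) ln10_19_6 ln10_19_6_ok)))))))))) (B (M (nat_lit 459) (B (L (nat_lit 586) ln10_18_6 ln10_18_6_ok) (M (nat_lit 458) (B (L (nat_lit 427) ln10_17_6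 ln10_17_6_ok) (M (nat_lit 457) (B (L (nat_lit 425) ln10_17_7 ln10_17_7_ok) (L (nat_lit 456) ln8_14_0 ln8_14_0_ok))))))) (M (nat_lit 458) (B (M (nat_lit 457) (B (L (nat_lit 425) ln10_17_7 ln10_17_7_ok) (M (nat_lit 456) (B (L (nat_lit 455) ln7_14_0 ln7_14_0_ok) (L (nat_lit 459) ln8_14_0 ln8_14_0_ok))))) (M (nat_lit 426) (B (M (nat_lit 553) (B (L (nat_lit 521) ln10_13_5 ln10_13_5_ok) (L (nat_lit 585) ln10_14_5 ln10_14_5_ok))) (M (nat_lit 555) (B (L (nat_lit 523) ln10_13_4 ln10_13_4_ok) (L (nat_lit 587) ln10_14_4 ln10_14_4_ok)))))))))))) (B (M (nat_lit 458) (B (M (nat_lit 457) (B (L (nat_lit 493) ln13_15_3 ln13_15_3_ok) (M (nat_lit 456) (B (L (nat_lit 455) ln7_14_0 ln7_14_0_ok) (L (nat_lit 459) ln8_14_0 ln8_14_0_ok))))) (B (M (nat_lit 493) (B (L (nat_lit 457) ln13_15_3 ln13_15_3_ok) (M (nat_lit 494) (B (L (nat_lit 459) ln14_15_3 ln14_15_3_ok) (L (nat_lit 523) ln14_15_1 ln14_15_1_ok))))) (B (M (nat_lit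 523) (B (M (nat_lit 555) (B (L (nat_lit 426) ln10_13_4 ln10_13_4_ok) (L (nat_lit 587) ln11_18_7 ln11_18_7_ok))) (M (nat_lit 554) (B (M (nat_lit 459) (B (L (nat_lit 427) ln10_17_6 ln10_17_6_ok) (L (nat_lit 586) ln10_18_6 ln10_18_6_ok))) (M (nat_lit 525) (B (M (nat_lit 493) (B (L (nat_lit 526) ln10_15_0 ln10_15_0_ok) (L (nat_lit 494) ln14_15_1 ln14_15_1_ok))) (B (M (nat_lit 524) (B (L (nat_lit 526) ln14_16_3 ln14_16_3_ok) (L (nat_lit 553) ln13_16_1 ln13_16_1_ok))) (M (nat_lit 553) (B (L (nat_lit 585) ln10_14_5 ln10_14_5_ok) (L (nat_lit 524) ln13_16_1 ln13_16_1_ok)))))))))) (B (M (nat_lit 523) (B (M (nat_lit 555) (B (L (nat_lit 426) ln10_13_4 ln10_13_4_ok) (L (nat_lit 587) ln11_18_7 ln11_18_7_ok))) (M (nat_lit 493) (B (L (nat_lit 457) ln13_15_3 ln13_15_3_ok) (L (nat_lit 494) ln14_15_1 ln14_15_1_ok))))) (M (nat_lit 523) (B (M (nat_lit 555) (B (L (nat_lit 426) ln10_13_4 ln10_13_4_ok) (L (nat_lit 587)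 ln11_18_7 ln11_18_7_ok))) (M (nat_lit 554) (B (M (nat_lit 459) (B (L (nat_lit 427) ln10_17_6 ln10_17_6_ok) (L (nat_lit 586) ln10_18_6 ln10_18_6_ok))) (B (M (nat_lit 586) (B (L (nat_lit 459) ln10_18_6 ln10_18_6_ok) (L (nat_lit 618) ln10_19_6 ln10_19_6_ok))) (B (M (nat_lit 585) (B (L (nat_lit 553) ln10_14_5 ln10_14_5_ok) (M (nat_lit 586) (B (L (nat_lit 617) ln10_15_5 ln10_15_5_ok) (L (nat_lit 618) ln10_19_6 ln10_19_6_ok))))) (M (nat_lit 459) (B (L (nat_lit 427) ln10_17_6 ln10_17_6_ok) (M (nat_lit 457) (B (L (nat_lit 425) ln10_17_7 ln10_17_7_ok) (L (nat_lit 456) ln8_14_0 ln8_14_0_ok)))))))))))))))) (M (nat_lit 493) (B (L (nat_lit 521) ln13_15_1 ln13_15_1_ok) (M (nat_lit 458) (B (L (nat_lit 457) ln13_15_3 ln13_15_3_ok) (M (nat_lit 459) (B (L (nat_lit 494) ln14_15_3 ln14_15_3_ok) (M (nat_lit 554) (B (L (nat_lit 427) ln10_17_6 ln10_17_6_ok) (L (nat_lit 586) ln10_18_6 ln10_18_6_ok)))))))))))))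
theorem c11_s8468 : Sem (nat_lit 19180023093141456270994868227393793064975962979706948090394687277743823581181512059937683631514712089077336413480722875194222387086669045060377509888) (nat_lit 25695665566606483042952118602931819638565850808125252773041228054989544619483161953999936849756703669489908710926383710720448729907473129475817464782278346517537941800155453005329163580977004412928) (nat_lit 25695665566606483042952118602931819638565850808125252773041228054989544619483161953999936849756703669489908710926383710720448729907473129475817464782278346517537941800155453005329163580977004412928) :=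
  sem_of_chk (M (nat_lit 490) (B (M (nat_lit 489) (B (M (nat_lit 521) (B (L (nat_lit 520) ln12_15_1 ln12_15_1_ok) (M (nat_lit 457) (B (L (nat_lit 456) ln12_15_3 ln12_15_3_ok) (M (nat_lit 493) (B (L (nat_lit 458) ln13_15_3 ln13_15_3_ok) (L (nat_lit 522) ln13_15_1 ln13_15_1_ok))))))) (B (M (nat_lit 493) (B (M (nat_lit 521) (B (L (nat_lit 520) ln12_15_1 ln12_15_1_ok) (L (nat_lit 522) ln13_15_1 ln13_15_1_ok))) (M (nat_lit 525) (B (L (nat_lit 524) ln9_15_0 ln9_15_0_ok) (L (nat_lit 526) ln10_15_0 ln10_15_0_ok))))) (M (nat_lit 488) (B (M (nat_lit 456) (B (L (nat_lit 455) ln11_15_3 ln11_15_3_ok) (L (nat_lit 457) ln12_15_3 ln12_15_3_ok))) (M (nat_lit 524) (B (L (nat_lit 523) ln8_15_0 ln8_15_0_ok) (L (nat_lit 525) ln9_15_0 ln9_15_0_ok)))))))) (B (M (nat_lit 489) (B (M (nat_lit 521) (B (L (nat_lit 520) ln12_15_1 ln12_15_1_ok) (M (nat_lit 457) (B (L (nat_lit 456) ln12_15_3 ln12_15_3_ok) (M (nat_lit 493) (B (L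 (nat_lit 458) ln13_15_3 ln13_15_3_ok) (L (nat_lit 522) ln13_15_1 ln13_15_1_ok))))))) (B (M (nat_lit 493) (B (M (nat_lit 521) (B (L (nat_lit 520) ln12_15_1 ln12_15_1_ok) (L (nat_lit 522) ln13_15_1 ln13_15_1_ok))) (M (nat_lit 525) (B (L (nat_lit 524) ln9_15_0 ln9_15_0_ok) (L (nat_lit 526) ln10_15_0 ln10_15_0_ok))))) (B (M (nat_lit 488) (B (M (nat_lit 520) (B (L (nat_lit 519) ln11_15_1 ln11_15_1_ok) (L (nat_lit 521) ln12_15_1 ln12_15_1_ok))) (M (nat_lit 524) (B (L (nat_lit 523) ln8_15_0 ln8_15_0_ok) (L (nat_lit 525) ln9_15_0 ln9_15_0_ok))))) (M (nat_lit 493) (B (M (nat_lit 457) (B (L (nat_lit 456) ln12_15_3 ln12_15_3_ok) (L (nat_lit 458) ln13_15_3 ln13_15_3_ok))) (M (nat_lit 525) (B (L (nat_lit 524) ln9_15_0 ln9_15_0_ok) (L (nat_lit 526) ln10_15_0 ln10_15_0_ok))))))))) (B (M (nat_lit 493) (B (M (nat_lit 522) (B (L (nat_lit 521) ln13_15_1 ln13_15_1_ok) (M (nat_lit 494) (B (L (nat_lit 523) ln14_15_1 ln14_15_1_ok)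 (M (nat_lit 458) (B (L (nat_lit 457) ln13_15_3 ln13_15_3_ok) (L (nat_lit 459) ln14_15_3 ln14_15_3_ok))))))) (B (M (nat_lit 494) (B (M (nat_lit 522) (B (L (nat_lit 521) ln13_15_1 ln13_15_1_ok) (L (nat_lit 523) ln14_15_1 ln14_15_1_ok))) (M (nat_lit 526) (B (L (nat_lit 525) ln10_15_0 ln10_15_0_ok) (L (nat_lit 527) ln11_15_0 ln11_15_0_ok))))) (B (M (nat_lit 489) (B (M (nat_lit 521) (B (L (nat_lit 520) ln12_15_1 ln12_15_1_ok) (L (nat_lit 522) ln13_15_1 ln13_15_1_ok))) (M (nat_lit 525) (B (L (nat_lit 524) ln9_15_0 ln9_15_0_ok) (L (nat_lit 526) ln10_15_0 ln10_15_0_ok))))) (M (nat_lit 494) (B (M (nat_lit 458) (B (L (nat_lit 457) ln13_15_3 ln13_15_3_ok) (L (nat_lit 459) ln14_15_3 ln14_15_3_ok))) (M (nat_lit 526) (B (L (nat_lit 525) ln10_15_0 ln10_15_0_ok) (L (nat_lit 527) ln11_15_0 ln11_15_0_ok))))))))) (B c11_n8335 (B (M (nat_lit 489) (B (M (nat_lit 488) (B (M (nat_lit 456) (B (L (nat_lit 455) ln11_15_3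 ln11_15_3_ok) (L (nat_lit 457) ln12_15_3 ln12_15_3_ok))) (M (nat_lit 524) (B (L (nat_lit 523) ln8_15_0 ln8_15_0_ok) (L (nat_lit 525) ln9_15_0 ln9_15_0_ok))))) (B (M (nat_lit 488) (B (M (nat_lit 520) (B (L (nat_lit 519) ln11_15_1 ln11_15_1_ok) (L (nat_lit 521) ln12_15_1 ln12_15_1_ok))) (M (nat_lit 524) (B (L (nat_lit 523) ln8_15_0 ln8_15_0_ok) (L (nat_lit 525) ln9_15_0 ln9_15_0_ok))))) (B (M (nat_lit 493) (B (M (nat_lit 521) (B (L (nat_lit 520) ln12_15_1 ln12_15_1_ok) (L (nat_lit 522) ln13_15_1 ln13_15_1_ok))) (M (nat_lit 525) (B (L (nat_lit 524) ln9_15_0 ln9_15_0_ok) (L (nat_lit 526) ln10_15_0 ln10_15_0_ok))))) (M (nat_lit 488) (B (M (nat_lit 456) (B (L (nat_lit 455) ln11_15_3 ln11_15_3_ok) (L (nat_lit 457) ln12_15_3 ln12_15_3_ok))) (M (nat_lit 520) (B (L (nat_lit 519) ln11_15_1 ln11_15_1_ok) (L (nat_lit 521) ln12_15_1 ln12_15_1_ok))))))))) (B c11_n8359 (B (M (nat_lit 489) (B (M (nat_lit 488) (B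 (M (nat_lit 456) (B (L (nat_lit 455) ln11_15_3 ln11_15_3_ok) (L (nat_lit 457) ln12_15_3 ln12_15_3_ok))) (M (nat_lit 520) (B (L (nat_lit 519) ln11_15_1 ln11_15_1_ok) (L (nat_lit 521) ln12_15_1 ln12_15_1_ok))))) (B (M (nat_lit 488) (B (M (nat_lit 520) (B (L (nat_lit 519) ln11_15_1 ln11_15_1_ok) (L (nat_lit 521) ln12_15_1 ln12_15_1_ok))) (M (nat_lit 524) (B (L (nat_lit 523) ln8_15_0 ln8_15_0_ok) (L (nat_lit 525) ln9_15_0 ln9_15_0_ok))))) (B (M (nat_lit 457) (B (L (nat_lit 456) ln12_15_3 ln12_15_3_ok) (M (nat_lit 521) (B (L (nat_lit 520) ln12_15_1 ln12_15_1_ok) (M (nat_lit 425) (B (M (nat_lit 522) (B (L (nat_lit 393) ln9_12_4 ln9_12_4_ok) (L (nat_lit 554) ln9_13_4 ln9_13_4_ok))) (B (M (nat_lit 553) (B (M (nat_lit 426) (B (L (nat_lit 394) ln9_16_6 ln9_16_6_ok) (L (nat_lit 458) ln9_17_6 ln9_17_6_ok))) (M (nat_lit 554) (B (L (nat_lit 522) ln9_13_4 ln9_13_4_ok) (L (nat_lit 586) ln9_14_4 ln9_14_4_ok)))))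 (M (nat_lit 393) (B (M (nat_lit 392) (B (L (nat_lit 360) ln9_15_7 ln9_15_7_ok) (L (nat_lit 424) ln9_16_7 ln9_16_7_ok))) (M (nat_lit 394) (B (L (nat_lit 362) ln9_15_6 ln9_15_6_ok) (L (nat_lit 426) ln9_16_6 ln9_16_6_ok)))))))))))) (M (nat_lit 488) (B (M (nat_lit 456) (B (L (nat_lit 455) ln11_15_3 ln11_15_3_ok) (L (nat_lit 457) ln12_15_3 ln12_15_3_ok))) (M (nat_lit 524) (B (L (nat_lit 523) ln8_15_0 ln8_15_0_ok) (L (nat_lit 525) ln9_15_0 ln9_15_0_ok))))))))) (B (M (nat_lit 493) (B (M (nat_lit 522) (B (L (nat_lit 521) ln13_15_1 ln13_15_1_ok) (M (nat_lit 494) (B (L (nat_lit 523) ln14_15_1 ln14_15_1_ok) (M (nat_lit 458) (B (L (nat_lit 457) ln13_15_3 ln13_15_3_ok) (L (nat_lit 459) ln14_15_3 ln14_15_3_ok))))))) (B (M (nat_lit 494) (B (M (nat_lit 522) (B (L (nat_lit 521) ln13_15_1 ln13_15_1_ok) (L (nat_lit 523) ln14_15_1 ln14_15_1_ok))) (M (nat_lit 526) (B (L (nat_lit 525) ln10_15_0 ln10_15_0_ok) (L (nat_lit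 527) ln11_15_0 ln11_15_0_ok))))) (M (nat_lit 489) (B (M (nat_lit 457) (B (L (nat_lit 456) ln12_15_3 ln12_15_3_ok) (L (nat_lit 458) ln13_15_3 ln13_15_3_ok))) (M (nat_lit 525) (B (L (nat_lit 524) ln9_15_0 ln9_15_0_ok) (L (nat_lit 526) ln10_15_0 ln10_15_0_ok)))))))) (B (M (nat_lit 489) (B (M (nat_lit 488) (B (M (nat_lit 456) (B (L (nat_lit 455) ln11_15_3 ln11_15_3_ok) (L (nat_lit 457) ln12_15_3 ln12_15_3_ok))) (M (nat_lit 524) (B (L (nat_lit 523) ln8_15_0 ln8_15_0_ok) (L (nat_lit 525) ln9_15_0 ln9_15_0_ok))))) (B (M (nat_lit 493) (B (M (nat_lit 457) (B (L (nat_lit 456) ln12_15_3 ln12_15_3_ok) (L (nat_lit 458) ln13_15_3 ln13_15_3_ok))) (M (nat_lit 525) (B (L (nat_lit 524) ln9_15_0 ln9_15_0_ok) (L (nat_lit 526) ln10_15_0 ln10_15_0_ok))))) (B (M (nat_lit 488) (B (M (nat_lit 524) (B (L (nat_lit 523) ln8_15_0 ln8_15_0_ok) (L (nat_lit 525) ln9_15_0 ln9_15_0_ok))) (M (nat_lit 487) (B (M (nat_lit 519) (B (L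 (nat_lit 518) ln10_15_1 ln10_15_1_ok) (L (nat_lit 520) ln11_15_1 ln11_15_1_ok))) (M (nat_lit 458) (B (L (nat_lit 459) ln7_15_2 ln7_15_2_ok) (M (nat_lit 457) (B (L (nat_lit 486) ln6_15_2 ln6_15_2_ok) (L (nat_lit 493) ln13_15_3 ln13_15_3_ok))))))))) (B (M (nat_lit 488) (B (M (nat_lit 524) (B (L (nat_lit 523) ln8_15_0 ln8_15_0_ok) (L (nat_lit 525) ln9_15_0 ln9_15_0_ok))) (M (nat_lit 487) (B (M (nat_lit 455) (B (L (nat_lit 454) ln10_15_3 ln10_15_3_ok) (L (nat_lit 456) ln11_15_3 ln11_15_3_ok))) (M (nat_lit 519) (B (L (nat_lit 518) ln10_15_1 ln10_15_1_ok) (L (nat_lit 520) ln11_15_1 ln11_15_1_ok))))))) (M (nat_lit 488) (B (M (nat_lit 456) (B (L (nat_lit 455) ln11_15_3 ln11_15_3_ok) (L (nat_lit 457) ln12_15_3 ln12_15_3_ok))) (B (M (nat_lit 457) (B (L (nat_lit 456) ln12_15_3 ln12_15_3_ok) (M (nat_lit 458) (B (L (nat_lit 493) ln13_15_3 ln13_15_3_ok) (M (nat_lit 487) (B (L (nat_lit 486) ln6_15_2 ln6_15_2_ok)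 (L (nat_lit 459) ln7_15_2 ln7_15_2_ok))))))) (B (M (nat_lit 487) (B (M (nat_lit 519) (B (L (nat_lit 518) ln10_15_1 ln10_15_1_ok) (L (nat_lit 520) ln11_15_1 ln11_15_1_ok))) (M (nat_lit 458) (B (L (nat_lit 459) ln7_15_2 ln7_15_2_ok) (M (nat_lit 457) (B (L (nat_lit 486) ln6_15_2 ln6_15_2_ok) (L (nat_lit 493) ln13_15_3 ln13_15_3_ok))))))) (M (nat_lit 487) (B (M (nat_lit 455) (B (L (nat_lit 454) ln10_15_3 ln10_15_3_ok) (L (nat_lit 456) ln11_15_3 ln11_15_3_ok))) (M (nat_lit 519) (B (L (nat_lit 518) ln10_15_1 ln10_15_1_ok) (L (nat_lit 520) ln11_15_1 ln11_15_1_ok)))))))))))))) (B (M (nat_lit 489) (B (M (nat_lit 493) (B (M (nat_lit 521) (B (L (nat_lit 520) ln12_15_1 ln12_15_1_ok) (L (nat_lit 522) ln13_15_1 ln13_15_1_ok))) (M (nat_lit 525) (B (L (nat_lit 524) ln9_15_0 ln9_15_0_ok) (L (nat_lit 526) ln10_15_0 ln10_15_0_ok))))) (B (M (nat_lit 488) (B (M (nat_lit 456) (B (L (nat_lit 455) ln11_15_3 ln11_15_3_ok)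 (L (nat_lit 457) ln12_15_3 ln12_15_3_ok))) (M (nat_lit 520) (B (L (nat_lit 519) ln11_15_1 ln11_15_1_ok) (L (nat_lit 521) ln12_15_1 ln12_15_1_ok))))) (M (nat_lit 493) (B (M (nat_lit 457) (B (L (nat_lit 456) ln12_15_3 ln12_15_3_ok) (L (nat_lit 458) ln13_15_3 ln13_15_3_ok))) (M (nat_lit 525) (B (L (nat_lit 524) ln9_15_0 ln9_15_0_ok) (L (nat_lit 526) ln10_15_0 ln10_15_0_ok)))))))) (B (M (nat_lit 493) (B (M (nat_lit 494) (B (M (nat_lit 522) (B (L (nat_lit 521) ln13_15_1 ln13_15_1_ok) (L (nat_lit 523) ln14_15_1 ln14_15_1_ok))) (M (nat_lit 526) (B (L (nat_lit 525) ln10_15_0 ln10_15_0_ok) (L (nat_lit 527) ln11_15_0 ln11_15_0_ok))))) (B (M (nat_lit 521) (B (L (nat_lit 522) ln13_15_1 ln13_15_1_ok) (M (nat_lit 489) (B (L (nat_lit 520) ln12_15_1 ln12_15_1_ok) (M (nat_lit 457) (B (L (nat_lit 456) ln12_15_3 ln12_15_3_ok) (L (nat_lit 458) ln13_15_3 ln13_15_3_ok))))))) (M (nat_lit 494) (B (M (nat_lit 458) (B (L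 (nat_lit 457) ln13_15_3 ln13_15_3_ok) (L (nat_lit 459) ln14_15_3 ln14_15_3_ok))) (M (nat_lit 526) (B (L (nat_lit 525) ln10_15_0 ln10_15_0_ok) (L (nat_lit 527) ln11_15_0 ln11_15_0_ok)))))))) (M (nat_lit 458) (B (M (nat_lit 457) (B (L (nat_lit 493) ln13_15_3 ln13_15_3_ok) (M (nat_lit 456) (B (L (nat_lit 455) ln7_14_0 ln7_14_0_ok) (L (nat_lit 489) ln12_15_3 ln12_15_3_ok))))) (B (M (nat_lit 457) (B (L (nat_lit 493) ln13_15_3 ln13_15_3_ok) (M (nat_lit 456) (B (L (nat_lit 459) ln8_14_0 ln8_14_0_ok) (L (nat_lit 489) ln12_15_3 ln12_15_3_ok))))) (B (M (nat_lit 522) (B (M (nat_lit 493) (B (L (nat_lit 457) ln13_15_3 ln13_15_3_ok) (L (nat_lit 521) ln13_15_1 ln13_15_1_ok))) (B (M (nat_lit 523) (B (M (nat_lit 555) (B (L (nat_lit 426) ln10_13_4 ln10_13_4_ok) (L (nat_lit 587) ln11_18_7 ln11_18_7_ok))) (M (nat_lit 521) (B (L (nat_lit 493) ln13_15_1 ln13_15_1_ok) (L (nat_lit 520) ln8_16_2 ln8_16_2_ok))))) (M (nat_lit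 554) (B (M (nat_lit 459) (B (L (nat_lit 427) ln10_17_6 ln10_17_6_ok) (L (nat_lit 586) ln10_18_6 ln10_18_6_ok))) (M (nat_lit 426) (B (M (nat_lit 425) (B (L (nat_lit 393) ln10_16_7 ln10_16_7_ok) (L (nat_lit 457) ln10_17_7 ln10_17_7_ok))) (M (nat_lit 555) (B (L (nat_lit 523) ln10_13_4 ln10_13_4_ok) (L (nat_lit 587) ln10_14_4 ln10_14_4_ok)))))))))) (B (M (nat_lit 426) (B (M (nat_lit 523) (B (L (nat_lit 394) ln10_12_4 ln10_12_4_ok) (M (nat_lit 555) (B (L (nat_lit 459) ln11_17_7 ln11_17_7_ok) (L (nat_lit 522) ln10_13_4 ln10_13_4_ok))))) (B (M (nat_lit 522) (B (M (nat_lit 521) (B (L (nat_lit 553) ln10_13_5 ln10_13_5_ok) (L (nat_lit 493) ln13_15_1 ln13_15_1_ok))) (M (nat_lit 554) (B (M (nat_lit 555) (B (L (nat_lit 523) ln10_13_4 ln10_13_4_ok) (L (nat_lit 587) ln10_14_4 ln10_14_4_ok))) (M (nat_lit 459) (B (L (nat_lit 427) ln10_17_6 ln10_17_6_ok) (L (nat_lit 586) ln10_18_6 ln10_18_6_ok))))))) (B (M (nat_lit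 523) (B (L (nat_lit 394) ln10_12_4 ln10_12_4_ok) (M (nat_lit 555) (B (L (nat_lit 522) ln10_13_4 ln10_13_4_ok) (L (nat_lit 587) ln11_18_7 ln11_18_7_ok))))) (B (M (nat_lit 523) (B (L (nat_lit 394) ln10_12_4 ln10_12_4_ok) (M (nat_lit 555) (B (L (nat_lit 459) ln11_17_7 ln11_17_7_ok) (L (nat_lit 587) ln11_18_7 ln11_18_7_ok))))) (M (nat_lit 521) (B (M (nat_lit 489) (B (L (nat_lit 394) ln10_12_5 ln10_12_5_ok) (L (nat_lit 520) ln12_15_1 ln12_15_1_ok))) (M (nat_lit 522) (B (L (nat_lit 553) ln10_13_5 ln10_13_5_ok) (L (nat_lit 493) ln13_15_1 ln13_15_1_ok)))))))))) (M (nat_lit 426) (B (M (nat_lit 523) (B (L (nat_lit 394) ln10_12_4 ln10_12_4_ok) (M (nat_lit 555) (B (L (nat_lit 459) ln11_17_7 ln11_17_7_ok) (L (nat_lit 522) ln10_13_4 ln10_13_4_ok))))) (B (M (nat_lit 522) (B (M (nat_lit 521) (B (L (nat_lit 553) ln10_13_5 ln10_13_5_ok) (M (nat_lit 520) (B (L (nat_lit 489) ln12_15_1 ln12_15_1_ok) (L (nat_lit 519)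 ln7_16_2 ln7_16_2_ok))))) (M (nat_lit 457) (B (M (nat_lit 425) (B (L (nat_lit 393) ln10_16_7 ln10_16_7_ok) (L (nat_lit 554) ln10_17_7 ln10_17_7_ok))) (M (nat_lit 456) (B (L (nat_lit 455) ln7_14_0 ln7_14_0_ok) (L (nat_lit 459) ln8_14_0 ln8_14_0_ok))))))) (M (nat_lit 394) (B (L (nat_lit 523) ln10_12_4 ln10_12_4_ok) (M (nat_lit 489) (B (L (nat_lit 521) ln10_12_5 ln10_12_5_ok) (M (nat_lit 457) (B (L (nat_lit 362) ln10_11_5 ln10_11_5_ok) (L (nat_lit 456) ln12_15_3 ln12_15_3_ok))))))))))))))))))))))))))) (nat_lit 19180023093141456270994868227393793064975962979706948090394687277743823581181512059937683631514712089077336413480722875194222387086669045060377509888) (nat_lit 25695665566606483042952118602931819638565850808125252773041228054989544619483161953999936849756703669489908710926383710720448729907473129475817464782278346517537941800155453005329163580977004412928) (nat_lit 25695665566606483042952118602931819638565850808125252773041228054989544619483161953999936849756703669489908710926383710720448729907473129475817464782278346517537941800155453005329163580977004412928)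 (by decide +kernel)
theorem c11_s8585 : Sem (nat_lit 19180023093141456270994868227393793064975962979706948090394687277743823581181512059937683631514712089077336413480722875194222387086669045060377509888) (nat_lit 126633165642681766181761926290548359566275821988066269838909452460765174046285550079737522119247548356103067635020247698318262499122229066388607454008912128718868140678239485952) (nat_lit 126633165642681766181761926290548359566275821988066269838909452460765174046285550079737522119247548356103067635020247698318262499122229066388607454008912128718868140678239485952) :=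
  sem_of_chk (M (nat_lit 490) (B (M (nat_lit 489) (B (M (nat_lit 488) (B (M (nat_lit 456) (B (L (nat_lit 455) ln11_15_3 ln11_15_3_ok) (L (nat_lit 457) ln12_15_3 ln12_15_3_ok))) (M (nat_lit 520) (B (L (nat_lit 519) ln11_15_1 ln11_15_1_ok) (L (nat_lit 521) ln12_15_1 ln12_15_1_ok))))) (B (M (nat_lit 493) (B (M (nat_lit 457) (B (L (nat_lit 456) ln12_15_3 ln12_15_3_ok) (L (nat_lit 458) ln13_15_3 ln13_15_3_ok))) (M (nat_lit 525) (B (L (nat_lit 524) ln9_15_0 ln9_15_0_ok) (L (nat_lit 526) ln10_15_0 ln10_15_0_ok))))) (M (nat_lit 493) (B (M (nat_lit 521) (B (L (nat_lit 520) ln12_15_1 ln12_15_1_ok) (L (nat_lit 522) ln13_15_1 ln13_15_1_ok))) (M (nat_lit 525) (B (L (nat_lit 524) ln9_15_0 ln9_15_0_ok) (L (nat_lit 526) ln10_15_0 ln10_15_0_ok)))))))) (B (M (nat_lit 489) (B (M (nat_lit 488) (B (M (nat_lit 460) (B (L (nat_lit 428) ln12_15_6 ln12_15_6_ok) (L (nat_lit 459) ln8_15_2 ln8_15_2_ok))) (M (nat_lit 520) (B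 (L (nat_lit 519) ln11_15_1 ln11_15_1_ok) (L (nat_lit 521) ln12_15_1 ln12_15_1_ok))))) (M (nat_lit 493) (B (M (nat_lit 457) (B (L (nat_lit 456) ln12_15_3 ln12_15_3_ok) (L (nat_lit 458) ln13_15_3 ln13_15_3_ok))) (M (nat_lit 525) (B (L (nat_lit 524) ln9_15_0 ln9_15_0_ok) (L (nat_lit 526) ln10_15_0 ln10_15_0_ok))))))) (B (M (nat_lit 489) (B (M (nat_lit 488) (B (M (nat_lit 460) (B (L (nat_lit 428) ln12_15_6 ln12_15_6_ok) (L (nat_lit 459) ln8_15_2 ln8_15_2_ok))) (M (nat_lit 520) (B (L (nat_lit 519) ln11_15_1 ln11_15_1_ok) (L (nat_lit 521) ln12_15_1 ln12_15_1_ok))))) (B (M (nat_lit 493) (B (M (nat_lit 521) (B (L (nat_lit 520) ln12_15_1 ln12_15_1_ok) (L (nat_lit 522) ln13_15_1 ln13_15_1_ok))) (M (nat_lit 525) (B (L (nat_lit 524) ln9_15_0 ln9_15_0_ok) (L (nat_lit 526) ln10_15_0 ln10_15_0_ok))))) (M (nat_lit 493) (B (M (nat_lit 525) (B (L (nat_lit 524) ln9_15_0 ln9_15_0_ok) (L (nat_lit 526) ln10_15_0 ln10_15_0_ok)))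 (M (nat_lit 459) (B (M (nat_lit 458) (B (L (nat_lit 457) ln13_15_3 ln13_15_3_ok) (L (nat_lit 494) ln14_15_3 ln14_15_3_ok))) (M (nat_lit 460) (B (L (nat_lit 428) ln12_15_6 ln12_15_6_ok) (L (nat_lit 488) ln8_15_2 ln8_15_2_ok)))))))))) (B (M (nat_lit 489) (B (M (nat_lit 488) (B (M (nat_lit 460) (B (L (nat_lit 428) ln12_15_6 ln12_15_6_ok) (L (nat_lit 459) ln8_15_2 ln8_15_2_ok))) (M (nat_lit 520) (B (L (nat_lit 519) ln11_15_1 ln11_15_1_ok) (L (nat_lit 521) ln12_15_1 ln12_15_1_ok))))) (B (M (nat_lit 493) (B (M (nat_lit 521) (B (L (nat_lit 520) ln12_15_1 ln12_15_1_ok) (L (nat_lit 522) ln13_15_1 ln13_15_1_ok))) (M (nat_lit 525) (B (L (nat_lit 524) ln9_15_0 ln9_15_0_ok) (L (nat_lit 526) ln10_15_0 ln10_15_0_ok))))) (M (nat_lit 493) (B (M (nat_lit 525) (B (L (nat_lit 524) ln9_15_0 ln9_15_0_ok) (L (nat_lit 526) ln10_15_0 ln10_15_0_ok))) (M (nat_lit 460) (B (L (nat_lit 428) ln12_15_6 ln12_15_6_ok) (M (nat_lit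 459) (B (L (nat_lit 488) ln8_15_2 ln8_15_2_ok) (M (nat_lit 494) (B (L (nat_lit 458) ln14_15_3 ln14_15_3_ok) (L (nat_lit 495) ln15_15_3 ln15_15_3_ok)))))))))))) (B (M (nat_lit 489) (B (M (nat_lit 460) (B (L (nat_lit 428) ln12_15_6 ln12_15_6_ok) (M (nat_lit 488) (B (L (nat_lit 459) ln8_15_2 ln8_15_2_ok) (M (nat_lit 456) (B (L (nat_lit 455) ln11_15_3 ln11_15_3_ok) (L (nat_lit 457) ln12_15_3 ln12_15_3_ok))))))) (M (nat_lit 493) (B (M (nat_lit 521) (B (L (nat_lit 520) ln12_15_1 ln12_15_1_ok) (L (nat_lit 522) ln13_15_1 ln13_15_1_ok))) (M (nat_lit 525) (B (L (nat_lit 524) ln9_15_0 ln9_15_0_ok) (L (nat_lit 526) ln10_15_0 ln10_15_0_ok))))))) (B (M (nat_lit 457) (B (M (nat_lit 456) (B (L (nat_lit 489) ln12_15_3 ln12_15_3_ok) (M (nat_lit 458) (B (L (nat_lit 459) ln8_14_0 ln8_14_0_ok) (L (nat_lit 493) ln13_15_3 ln13_15_3_ok))))) (B (M (nat_lit 493) (B (L (nat_lit 458) ln13_15_3 ln13_15_3_ok) (M (nat_lit 489)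 (B (M (nat_lit 521) (B (L (nat_lit 520) ln12_15_1 ln12_15_1_ok) (L (nat_lit 522) ln13_15_1 ln13_15_1_ok))) (M (nat_lit 525) (B (L (nat_lit 524) ln9_15_0 ln9_15_0_ok) (L (nat_lit 526) ln10_15_0 ln10_15_0_ok))))))) (B (M (nat_lit 489) (B (L (nat_lit 456) ln12_15_3 ln12_15_3_ok) (M (nat_lit 493) (B (M (nat_lit 521) (B (L (nat_lit 520) ln12_15_1 ln12_15_1_ok) (L (nat_lit 522) ln13_15_1 ln13_15_1_ok))) (M (nat_lit 525) (B (L (nat_lit 524) ln9_15_0 ln9_15_0_ok) (L (nat_lit 526) ln10_15_0 ln10_15_0_ok))))))) (B (M (nat_lit 458) (B (L (nat_lit 493) ln13_15_3 ln13_15_3_ok) (M (nat_lit 456) (B (L (nat_lit 455) ln7_14_0 ln7_14_0_ok) (L (nat_lit 459) ln8_14_0 ln8_14_0_ok))))) (M (nat_lit 456) (B (L (nat_lit 489) ln12_15_3 ln12_15_3_ok) (M (nat_lit 458) (B (L (nat_lit 455) ln7_14_0 ln7_14_0_ok) (L (nat_lit 459) ln8_14_0 ln8_14_0_ok)))))))))) (B (M (nat_lit 428) (B (L (nat_lit 460) ln12_15_6 ln12_15_6_ok) (M (nat_lit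 458) (B (M (nat_lit 457) (B (L (nat_lit 493) ln13_15_3 ln13_15_3_ok) (M (nat_lit 456) (B (L (nat_lit 455) ln7_14_0 ln7_14_0_ok) (L (nat_lit 459) ln8_14_0 ln8_14_0_ok))))) (B (M (nat_lit 457) (B (L (nat_lit 493) ln13_15_3 ln13_15_3_ok) (M (nat_lit 427) (B (L (nat_lit 426) ln13_13_1 ln13_13_1_ok) (M (nat_lit 459) (B (L (nat_lit 430) ln14_13_1 ln14_13_1_ok) (L (nat_lit 456) ln8_14_2 ln8_14_2_ok))))))) (B (M (nat_lit 522) (B (M (nat_lit 493) (B (L (nat_lit 457) ln13_15_3 ln13_15_3_ok) (L (nat_lit 521) ln13_15_1 ln13_15_1_ok))) (M (nat_lit 427) (B (M (nat_lit 398) (B (L (nat_lit 399) ln15_12_1 ln15_12_1_ok) (L (nat_lit 426) ln10_13_2 ln10_13_2_ok))) (M (nat_lit 459) (B (L (nat_lit 430) ln14_13_1 ln14_13_1_ok) (L (nat_lit 554) ln10_17_6 ln10_17_6_ok))))))) (B (M (nat_lit 427) (B (M (nat_lit 398) (B (L (nat_lit 399) ln15_12_1 ln15_12_1_ok) (L (nat_lit 426) ln10_13_2 ln10_13_2_ok))) (B (M (nat_lit 426) (B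 (L (nat_lit 425) ln9_13_2 ln9_13_2_ok) (M (nat_lit 394) (B (L (nat_lit 393) ln13_13_3 ln13_13_3_ok) (M (nat_lit 459) (B (L (nat_lit 362) ln10_11_4 ln10_11_4_ok) (L (nat_lit 430) ln14_13_1 ln14_13_1_ok))))))) (M (nat_lit 399) (B (L (nat_lit 398) ln15_12_1 ln15_12_1_ok) (M (nat_lit 430) (B (L (nat_lit 459) ln14_13_1 ln14_13_1_ok) (M (nat_lit 431) (B (L (nat_lit 432) ln16_13_3 ln16_13_3_ok) (L (nat_lit 400) ln12_13_2 ln12_13_2_ok)))))))))) (M (nat_lit 426) (B (M (nat_lit 427) (B (L (nat_lit 425) ln9_13_2 ln9_13_2_ok) (L (nat_lit 398) ln10_13_2 ln10_13_2_ok))) (B (M (nat_lit 427) (B (L (nat_lit 425) ln9_13_2 ln9_13_2_ok) (L (nat_lit 457) ln13_13_1 ln13_13_1_ok))) (B (M (nat_lit 427) (B (L (nat_lit 398) ln10_13_2 ln10_13_2_ok) (L (nat_lit 457) ln13_13_1 ln13_13_1_ok))) (M (nat_lit 522) (B (M (nat_lit 493) (B (L (nat_lit 457) ln13_15_3 ln13_15_3_ok) (L (nat_lit 521) ln13_15_1 ln13_15_1_ok))) (B (M (nat_lit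 521) (B (L (nat_lit 553) ln10_13_5 ln10_13_5_ok) (L (nat_lit 493) ln13_15_1 ln13_15_1_ok))) (B (M (nat_lit 554) (B (M (nat_lit 425) (B (L (nat_lit 393) ln10_16_7 ln10_16_7_ok) (L (nat_lit 457) ln10_17_7 ln10_17_7_ok))) (M (nat_lit 553) (B (L (nat_lit 521) ln10_13_5 ln10_13_5_ok) (L (nat_lit 585) ln10_14_5 ln10_14_5_ok))))) (M (nat_lit 425) (B (L (nat_lit 393) ln10_16_7 ln10_16_7_ok) (M (nat_lit 457) (B (L (nat_lit 554) ln10_17_7 ln10_17_7_ok) (L (nat_lit 493) ln13_15_3 ln13_15_3_ok)))))))))))))))))))) (B (M (nat_lit 489) (B (M (nat_lit 460) (B (L (nat_lit 428) ln12_15_6 ln12_15_6_ok) (M (nat_lit 488) (B (L (nat_lit 459) ln8_15_2 ln8_15_2_ok) (M (nat_lit 456) (B (L (nat_lit 455) ln11_15_3 ln11_15_3_ok) (L (nat_lit 457) ln12_15_3 ln12_15_3_ok))))))) (B (M (nat_lit 488) (B (M (nat_lit 456) (B (L (nat_lit 455) ln11_15_3 ln11_15_3_ok) (L (nat_lit 457) ln12_15_3 ln12_15_3_ok))) (M (nat_lit 520) (B (L (nat_lit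 519) ln11_15_1 ln11_15_1_ok) (L (nat_lit 521) ln12_15_1 ln12_15_1_ok))))) (B (M (nat_lit 488) (B (M (nat_lit 460) (B (L (nat_lit 428) ln12_15_6 ln12_15_6_ok) (L (nat_lit 459) ln8_15_2 ln8_15_2_ok))) (M (nat_lit 520) (B (L (nat_lit 519) ln11_15_1 ln11_15_1_ok) (L (nat_lit 521) ln12_15_1 ln12_15_1_ok))))) (M (nat_lit 457) (B (L (nat_lit 456) ln12_15_3 ln12_15_3_ok) (M (nat_lit 426) (B (M (nat_lit 521) (B (L (nat_lit 520) ln12_15_1 ln12_15_1_ok) (M (nat_lit 394) (B (L (nat_lit 425) ln9_16_6 ln9_16_6_ok) (L (nat_lit 458) ln10_12_5 ln10_12_5_ok))))) (B (M (nat_lit 428) (B (L (nat_lit 460) ln12_15_6 ln12_15_6_ok) (M (nat_lit 427) (B (L (nat_lit 425) ln9_13_2 ln9_13_2_ok) (L (nat_lit 398) ln10_13_2 ln10_13_2_ok))))) (M (nat_lit 428) (B (L (nat_lit 460) ln12_15_6 ln12_15_6_ok) (M (nat_lit 427) (B (L (nat_lit 398) ln10_13_2 ln10_13_2_ok) (L (nat_lit 458) ln13_13_1 ln13_13_1_ok)))))))))))))) (M (nat_lit 489)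 (B (M (nat_lit 460) (B (L (nat_lit 428) ln12_15_6 ln12_15_6_ok) (M (nat_lit 488) (B (L (nat_lit 459) ln8_15_2 ln8_15_2_ok) (M (nat_lit 456) (B (L (nat_lit 455) ln11_15_3 ln11_15_3_ok) (L (nat_lit 457) ln12_15_3 ln12_15_3_ok))))))) (B (M (nat_lit 493) (B (M (nat_lit 457) (B (L (nat_lit 456) ln12_15_3 ln12_15_3_ok) (L (nat_lit 458) ln13_15_3 ln13_15_3_ok))) (M (nat_lit 525) (B (L (nat_lit 524) ln9_15_0 ln9_15_0_ok) (L (nat_lit 526) ln10_15_0 ln10_15_0_ok))))) (B (M (nat_lit 493) (B (M (nat_lit 525) (B (L (nat_lit 524) ln9_15_0 ln9_15_0_ok) (L (nat_lit 526) ln10_15_0 ln10_15_0_ok))) (M (nat_lit 459) (B (M (nat_lit 458) (B (L (nat_lit 457) ln13_15_3 ln13_15_3_ok) (L (nat_lit 494) ln14_15_3 ln14_15_3_ok))) (M (nat_lit 460) (B (L (nat_lit 428) ln12_15_6 ln12_15_6_ok) (L (nat_lit 488) ln8_15_2 ln8_15_2_ok))))))) (M (nat_lit 488) (B (M (nat_lit 460) (B (L (nat_lit 428) ln12_15_6 ln12_15_6_ok) (L (nat_lit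 459) ln8_15_2 ln8_15_2_ok))) (M (nat_lit 487) (B (M (nat_lit 455) (B (L (nat_lit 454) ln10_15_3 ln10_15_3_ok) (L (nat_lit 456) ln11_15_3 ln11_15_3_ok))) (M (nat_lit 519) (B (L (nat_lit 518) ln10_15_1 ln10_15_1_ok) (L (nat_lit 520) ln11_15_1 ln11_15_1_ok)))))))))))))))))))) (nat_lit 19180023093141456270994868227393793064975962979706948090394687277743823581181512059937683631514712089077336413480722875194222387086669045060377509888) (nat_lit 126633165642681766181761926290548359566275821988066269838909452460765174046285550079737522119247548356103067635020247698318262499122229066388607454008912128718868140678239485952) (nat_lit 126633165642681766181761926290548359566275821988066269838909452460765174046285550079737522119247548356103067635020247698318262499122229066388607454008912128718868140678239485952) (by decide +kernel)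
noncomputable def c11_n8587 : Cert := (M (nat_lit 492) (B (M (nat_lit 460) (B (L (nat_lit 428) ln12_15_6 ln12_15_6_ok) (L (nat_lit 461) ln13_11_5 ln13_11_5_ok))) (B (M (nat_lit 493) (B (M (nat_lit 461) (B (L (nat_lit 398) ln13_15_6 ln13_15_6_ok) (L (nat_lit 524) ln13_12_5 ln13_12_5_ok))) (B (M (nat_lit 461) (B (L (nat_lit 524) ln13_12_5 ln13_12_5_ok) (M (nat_lit 526) (B (L (nat_lit 494) ln13_12_4 ln13_12_4_ok) (M (nat_lit 525) (B (L (nat_lit 428) ln13_16_7 ln13_16_7_ok) (L (nat_lit 558) ln13_13_4 ln13_13_4_ok))))))) (B (K (nat_lit 38360046186282912540603401607243006847495349968240530841273347637682107544490152029956844328736806759883313078290645166263854749660216269982224351232) (nat_lit 21023726374161355139063558878694721328025185421168911763181184008574092778391737375730589535941568574102269200178475277138235381453428550920447546201916723932249987309412848809041369622711055155200) (nat_lit 21023726374161355139063558878694721328025185421168911763181184008574092778391737375730589535941568574102269200178475277138235381453428550920447546201916723932249987309412848809041369622711055155200)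 c11_s6688) (M (nat_lit 461) (B (L (nat_lit 398) ln13_15_6 ln13_15_6_ok) (M (nat_lit 526) (B (L (nat_lit 494) ln13_12_4 ln13_12_4_ok) (M (nat_lit 525) (B (L (nat_lit 428) ln13_16_7 ln13_16_7_ok) (L (nat_lit 558) ln13_13_4 ln13_13_4_ok))))))))))) (B (M (nat_lit 461) (B (L (nat_lit 460) ln13_11_5 ln13_11_5_ok) (M (nat_lit 493) (B (L (nat_lit 398) ln13_15_6 ln13_15_6_ok) (L (nat_lit 524) ln13_12_5 ln13_12_5_ok))))) (M (nat_lit 491) (B (M (nat_lit 428) (B (L (nat_lit 460) ln12_15_6 ln12_15_6_ok) (M (nat_lit 427) (B (M (nat_lit 398) (B (L (nat_lit 399) ln15_12_1 ln15_12_1_ok) (L (nat_lit 426) ln10_13_2 ln10_13_2_ok))) (B (M (nat_lit 458) (B (M (nat_lit 426) (B (L (nat_lit 425) ln9_13_2 ln9_13_2_ok) (L (nat_lit 457) ln13_13_1 ln13_13_1_ok))) (M (nat_lit 459) (B (L (nat_lit 523) ln11_16_6 ln11_16_6_ok) (L (nat_lit 430) ln14_13_1 ln14_13_1_ok))))) (M (nat_lit 399) (B (L (nat_lit 398) ln15_12_1 ln15_12_1_ok)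 (M (nat_lit 430) (B (M (nat_lit 431) (B (L (nat_lit 432) ln16_13_3 ln16_13_3_ok) (L (nat_lit 400) ln12_13_2 ln12_13_2_ok))) (M (nat_lit 459) (B (L (nat_lit 523) ln11_16_6 ln11_16_6_ok) (L (nat_lit 458) ln14_13_1 ln14_13_1_ok)))))))))))) (B (K (nat_lit 19180023093141456270994868227393793064975962979706948090394687277743823581181512059937683631514712089077336413480722875194222387086669045060377509888) (nat_lit 5438853050242690060952747222519482228995641845040609963567156840923063730581819557549784259201806003552303164942783578855270975593580552188360705385887827706963089126923365854676072267776) (nat_lit 5438853050242690060952747222519482228995641845040609963567156840923063730581819557549784259201806003552303164942783578855270975593580552188360705385887827706963089126923365854676072267776) c11_s7097) (B (M (nat_lit 428) (B (L (nat_lit 460) ln12_15_6 ln12_15_6_ok) (M (nat_lit 427) (B (M (nat_lit 398)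 (B (L (nat_lit 399) ln15_12_1 ln15_12_1_ok) (L (nat_lit 426) ln10_13_2 ln10_13_2_ok))) (B (M (nat_lit 459) (B (L (nat_lit 523) ln11_16_6 ln11_16_6_ok) (M (nat_lit 458) (B (L (nat_lit 430) ln14_13_1 ln14_13_1_ok) (M (nat_lit 457) (B (L (nat_lit 426) ln13_13_1 ln13_13_1_ok) (L (nat_lit 456) ln8_14_2 ln8_14_2_ok))))))) (M (nat_lit 399) (B (L (nat_lit 398) ln15_12_1 ln15_12_1_ok) (M (nat_lit 430) (B (M (nat_lit 431) (B (L (nat_lit 432) ln16_13_3 ln16_13_3_ok) (L (nat_lit 400) ln12_13_2 ln12_13_2_ok))) (M (nat_lit 459) (B (L (nat_lit 523) ln11_16_6 ln11_16_6_ok) (L (nat_lit 458) ln14_13_1 ln14_13_1_ok)))))))))))) (B (K (nat_lit 19180023093141456270994868227393793064975962979706948090394687277743823581181512059937683631514712089077336413480722875194222387086669045060377509888) (nat_lit 2335969600029761085341298584847385296398999331511775108855862605459834659194633694922967136118473809599425387330631220663091705053457608732617308947941485364661378243917126363005306745447725924352)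 (nat_lit 2335969600029761085341298584847385296398999331511775108855862605459834659194633694922967136118473809599425387330631220663091705053457608732617308947941485364661378243917126363005306745447725924352) c11_s7249) (B (K (nat_lit 19180023093141456270994868227393793064975962979706948090394687277743823581181512059937683631514712089077336413480722875194222387086669045060377509888) (nat_lit 11679847985191959545503919370406635240108971756686578000001713263441873879990988225416624515585565539051099162118875664632102954727188393437354997552706854056409682013534337842200891696099841015808) (nat_lit 11679847985191959545503919370406635240108971756686578000001713263441873879990988225416624515585565539051099162118875664632102954727188393437354997552706854056409682013534337842200891696099841015808) c11_s7421) (B (K (nat_lit 19180023093141456270994868227393793064975962979706948090394687277743823581181512059937683631514712089077336413480722875194222387086669045060377509888)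 (nat_lit 11679847985191959545503919370406635240549176906642852931789414616866593399623034344191707326042427372262836524566518444857882272650841995760083423517359705992656540895867412101586720928812408766464) (nat_lit 11679847985191959545503919370406635240549176906642852931789414616866593399623034344191707326042427372262836524566518444857882272650841995760083423517359705992656540895867412101586720928812408766464) c11_s7499) (B (M (nat_lit 428) (B (L (nat_lit 460) ln12_15_6 ln12_15_6_ok) (M (nat_lit 427) (B (M (nat_lit 398) (B (L (nat_lit 399) ln15_12_1 ln15_12_1_ok) (L (nat_lit 426) ln10_13_2 ln10_13_2_ok))) (B (M (nat_lit 426) (B (L (nat_lit 425) ln9_13_2 ln9_13_2_ok) (M (nat_lit 459) (B (L (nat_lit 523) ln11_16_6 ln11_16_6_ok) (M (nat_lit 394) (B (L (nat_lit 393) ln13_13_3 ln13_13_3_ok) (M (nat_lit 458) (B (L (nat_lit 362) ln10_11_4 ln10_11_4_ok) (L (nat_lit 430) ln14_13_1 ln14_13_1_ok)))))))))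 (M (nat_lit 399) (B (L (nat_lit 398) ln15_12_1 ln15_12_1_ok) (M (nat_lit 430) (B (M (nat_lit 431) (B (L (nat_lit 432) ln16_13_3 ln16_13_3_ok) (L (nat_lit 400) ln12_13_2 ln12_13_2_ok))) (M (nat_lit 459) (B (L (nat_lit 523) ln11_16_6 ln11_16_6_ok) (L (nat_lit 458) ln14_13_1 ln14_13_1_ok)))))))))))) (B (K (nat_lit 19180023093141456270994868227393793064975962979706948090394687277743823581181512059937683631514712089077336413480722875194222387086669045060377509888) (nat_lit 25695665575716561909991539007830787902037951017763114337193314927598736423824331248209739059575401575150008959705952191603977953746160270181232800765237372016385829084995058912434348581083013971968) (nat_lit 25695665575716561909991539007830787902037951017763114337193314927598736423824331248209739059575401575150008959705952191603977953746160270181232800765237372016385829084995058912434348581083013971968) c11_s8072) (B (M (nat_lit 428)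 (B (L (nat_lit 460) ln12_15_6 ln12_15_6_ok) (K (nat_lit 19180023093141456271688035650923996779870566525742719016253796546587777724974131955091338958466118494837330015006757769718570189827019938017621049344) (nat_lit 633165827977536177739945347375500729495578781401928210490856696218087537898892600201327772937108485205685080389701038322695786703603754186017068937604511655038795685695158484992) (nat_lit 633165827977536177739945347375500729495578781401928210490856696218087537898892600201327772937108485205685080389701038322695786703603754186017068937604511655038795685695158484992) c11_s8257))) (B (K (nat_lit 19180023093141456270994868227393793064975962979706948090394687277743823581181512059937683631514712089077336413480722875194222387086669045060377509888) (nat_lit 25695665566606483042952118602931819638565850808125252773041228054989544619483161953999936849756703669489908710926383710720448729907473129475817464782278346517537941800155453005329163580977004412928)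 (nat_lit 25695665566606483042952118602931819638565850808125252773041228054989544619483161953999936849756703669489908710926383710720448729907473129475817464782278346517537941800155453005329163580977004412928) c11_s8468) (K (nat_lit 19180023093141456270994868227393793064975962979706948090394687277743823581181512059937683631514712089077336413480722875194222387086669045060377509888) (nat_lit 126633165642681766181761926290548359566275821988066269838909452460765174046285550079737522119247548356103067635020247698318262499122229066388607454008912128718868140678239485952) (nat_lit 126633165642681766181761926290548359566275821988066269838909452460765174046285550079737522119247548356103067635020247698318262499122229066388607454008912128718868140678239485952) c11_s8585))))))))))))))))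
noncomputable def c11_n8588 : Cert := (M (nat_lit 367) (B (L (nat_lit 368) ln16_11_1 ln16_11_1_ok) c11_n8587))
noncomputable def c11_n8872 : Cert := (M (nat_lit 459) (B (M (nat_lit 458) (B (L (nat_lit 494) ln14_15_3 ln14_15_3_ok) (M (nat_lit 457) (B (L (nat_lit 456) ln8_14_0 ln8_14_0_ok) (L (nat_lit 460) ln9_14_0 ln9_14_0_ok))))) (B (M (nat_lit 494) (B (L (nat_lit 458) ln14_15_3 ln14_15_3_ok) (M (nat_lit 495) (B (L (nat_lit 460) ln15_15_3 ln15_15_3_ok) (M (nat_lit 523) (B (L (nat_lit 522) ln14_15_1 ln14_15_1_ok) (L (nat_lit 524) ln15_15_1 ln15_15_1_ok))))))) (B (M (nat_lit 523) (B (M (nat_lit 494) (B (L (nat_lit 522) ln14_15_1 ln14_15_1_ok) (M (nat_lit 495) (B (L (nat_lit 460) ln15_15_3 ln15_15_3_ok) (L (nat_lit 524) ln15_15_1 ln15_15_1_ok))))) (B (M (nat_lit 524) (B (M (nat_lit 395) (B (L (nat_lit 394) ln10_12_2 ln10_12_2_ok) (L (nat_lit 427) ln11_12_4 ln11_12_4_ok))) (M (nat_lit 522) (B (L (nat_lit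 494) ln14_15_1 ln14_15_1_ok) (L (nat_lit 521) ln9_16_2 ln9_16_2_ok))))) (B (M (nat_lit 427) (B (M (nat_lit 394) (B (L (nat_lit 395) ln10_12_2 ln10_12_2_ok) (L (nat_lit 426) ln11_16_7 ln11_16_7_ok))) (B (M (nat_lit 524) (B (L (nat_lit 395) ln11_12_4 ln11_12_4_ok) (L (nat_lit 556) ln11_13_4 ln11_13_4_ok))) (M (nat_lit 524) (B (L (nat_lit 556) ln11_13_4 ln11_13_4_ok) (M (nat_lit 522) (B (L (nat_lit 554) ln11_13_5 ln11_13_5_ok) (L (nat_lit 521) ln9_16_2 ln9_16_2_ok)))))))) (B (M (nat_lit 555) (B (M (nat_lit 586) (B (L (nat_lit 554) ln11_14_5 ln11_14_5_ok) (M (nat_lit 587) (B (L (nat_lit 460) ln11_18_6 ln11_18_6_ok) (L (nat_lit 618) ln11_15_5 ln11_15_5_ok))))) (M (nat_lit 427) (B (M (nat_lit 394) (B (L (nat_lit 395) ln10_12_2 ln10_12_2_ok) (L (nat_lit 426) ln11_16_7 ln11_16_7_ok))) (B (M (nat_lit 524) (B (L (nat_lit 395) ln11_12_4 ln11_12_4_ok) (L (nat_lit 556) ln11_13_4 ln11_13_4_ok))) (M (nat_lit 556)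 (B (L (nat_lit 524) ln11_13_4 ln11_13_4_ok) (L (nat_lit 588) ln11_14_4 ln11_14_4_ok)))))))) (M (nat_lit 427) (B (M (nat_lit 394) (B (L (nat_lit 395) ln10_12_2 ln10_12_2_ok) (L (nat_lit 426) ln11_16_7 ln11_16_7_ok))) (M (nat_lit 522) (B (L (nat_lit 554) ln11_13_5 ln11_13_5_ok) (L (nat_lit 494) ln14_15_1 ln14_15_1_ok)))))))))) (B (M (nat_lit 494) (B (L (nat_lit 458) ln14_15_3 ln14_15_3_ok) (M (nat_lit 495) (B (M (nat_lit 523) (B (L (nat_lit 522) ln14_15_1 ln14_15_1_ok) (L (nat_lit 524) ln15_15_1 ln15_15_1_ok))) (M (nat_lit 527) (B (L (nat_lit 526) ln11_15_0 ln11_15_0_ok) (L (nat_lit 528) ln12_15_0 ln12_15_0_ok))))))) (M (nat_lit 523) (B (M (nat_lit 394) (B (L (nat_lit 395) ln10_12_2 ln10_12_2_ok) (M (nat_lit 426) (B (L (nat_lit 427) ln11_16_7 ln11_16_7_ok) (M (nat_lit 458) (B (L (nat_lit 362) ln10_11_4 ln10_11_4_ok) (L (nat_lit 555) ln11_17_7 ln11_17_7_ok))))))) (B (M (nat_lit 394) (B (L (nat_lit 395)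 ln10_12_2 ln10_12_2_ok) (M (nat_lit 458) (B (M (nat_lit 426) (B (L (nat_lit 427) ln11_16_7 ln11_16_7_ok) (L (nat_lit 555) ln11_17_7 ln11_17_7_ok))) (M (nat_lit 457) (B (L (nat_lit 456) ln8_14_0 ln8_14_0_ok) (L (nat_lit 460) ln9_14_0 ln9_14_0_ok))))))) (B (M (nat_lit 522) (B (M (nat_lit 521) (B (L (nat_lit 520) ln8_16_2 ln8_16_2_ok) (L (nat_lit 524) ln9_16_2 ln9_16_2_ok))) (M (nat_lit 554) (B (L (nat_lit 427) ln11_13_5 ln11_13_5_ok) (M (nat_lit 586) (B (L (nat_lit 555) ln11_14_5 ln11_14_5_ok) (L (nat_lit 618) ln10_19_6 ln10_19_6_ok))))))) (B (M (nat_lit 458) (B (M (nat_lit 457) (B (L (nat_lit 456) ln8_14_0 ln8_14_0_ok) (L (nat_lit 460) ln9_14_0 ln9_14_0_ok))) (M (nat_lit 394) (B (L (nat_lit 395) ln10_12_2 ln10_12_2_ok) (M (nat_lit 426) (B (L (nat_lit 362) ln10_11_4 ln10_11_4_ok) (L (nat_lit 555) ln11_17_7 ln11_17_7_ok))))))) (M (nat_lit 458) (B (M (nat_lit 457) (B (L (nat_lit 456) ln8_14_0 ln8_14_0_ok)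 (L (nat_lit 460) ln9_14_0 ln9_14_0_ok))) (M (nat_lit 394) (B (L (nat_lit 395) ln10_12_2 ln10_12_2_ok) (M (nat_lit 426) (B (L (nat_lit 362) ln10_11_4 ln10_11_4_ok) (L (nat_lit 427) ln11_16_7 ln11_16_7_ok)))))))))))))))))
theorem c11_s8926 : Sem (nat_lit 38360046186282912540603401607243006847194736517645480188103494121293072404986064663696579385286273515527190323075975285500501277866965875994136674304) (nat_lit 1087770611061603336288267090893054107783111929558797046842356033071836719952810118001127396504985032056888510780568276164450609927119118147320377350905329848938357071382830660289646559232) (nat_lit 1087770611061603336288267090893054107783111929558797046842356033071836719952810118001127396504985032056888510780568276164450609927119118147320377350905329848938357071382830660289646559232) :=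
  sem_of_chk (M (nat_lit 491) (B (M (nat_lit 490) (B (M (nat_lit 521) (B (L (nat_lit 522) ln13_15_1 ln13_15_1_ok) (M (nat_lit 489) (B (L (nat_lit 520) ln12_15_1 ln12_15_1_ok) (M (nat_lit 525) (B (L (nat_lit 524) ln9_15_0 ln9_15_0_ok) (L (nat_lit 526) ln10_15_0 ln10_15_0_ok))))))) (B (M (nat_lit 494) (B (M (nat_lit 458) (B (L (nat_lit 457) ln13_15_3 ln13_15_3_ok) (L (nat_lit 459) ln14_15_3 ln14_15_3_ok))) (M (nat_lit 526) (B (L (nat_lit 525) ln10_15_0 ln10_15_0_ok) (L (nat_lit 527) ln11_15_0 ln11_15_0_ok))))) (M (nat_lit 494) (B (M (nat_lit 458) (B (L (nat_lit 457) ln13_15_3 ln13_15_3_ok) (L (nat_lit 459) ln14_15_3 ln14_15_3_ok))) (M (nat_lit 522) (B (L (nat_lit 521) ln13_15_1 ln13_15_1_ok) (L (nat_lit 523) ln14_15_1 ln14_15_1_ok)))))))) (B (M (nat_lit 494) (B (M (nat_lit 495) (B (M (nat_lit 459) (B (L (nat_lit 458) ln14_15_3 ln14_15_3_ok) (L (nat_lit 460) ln15_15_3 ln15_15_3_ok))) (M (nat_lit 523)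 (B (L (nat_lit 522) ln14_15_1 ln14_15_1_ok) (L (nat_lit 524) ln15_15_1 ln15_15_1_ok))))) (B (M (nat_lit 495) (B (M (nat_lit 523) (B (L (nat_lit 522) ln14_15_1 ln14_15_1_ok) (L (nat_lit 524) ln15_15_1 ln15_15_1_ok))) (M (nat_lit 527) (B (L (nat_lit 526) ln11_15_0 ln11_15_0_ok) (L (nat_lit 528) ln12_15_0 ln12_15_0_ok))))) (B (M (nat_lit 490) (B (M (nat_lit 522) (B (L (nat_lit 521) ln13_15_1 ln13_15_1_ok) (L (nat_lit 523) ln14_15_1 ln14_15_1_ok))) (M (nat_lit 526) (B (L (nat_lit 525) ln10_15_0 ln10_15_0_ok) (L (nat_lit 527) ln11_15_0 ln11_15_0_ok))))) (M (nat_lit 495) (B (M (nat_lit 459) (B (L (nat_lit 458) ln14_15_3 ln14_15_3_ok) (L (nat_lit 460) ln15_15_3 ln15_15_3_ok))) (M (nat_lit 527) (B (L (nat_lit 526) ln11_15_0 ln11_15_0_ok) (L (nat_lit 528) ln12_15_0 ln12_15_0_ok))))))))) (B (M (nat_lit 490) (B (M (nat_lit 522) (B (L (nat_lit 521) ln13_15_1 ln13_15_1_ok) (M (nat_lit 494) (B (L (nat_lit 523)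 ln14_15_1 ln14_15_1_ok) (M (nat_lit 526) (B (L (nat_lit 525) ln10_15_0 ln10_15_0_ok) (L (nat_lit 527) ln11_15_0 ln11_15_0_ok))))))) (B (M (nat_lit 521) (B (L (nat_lit 522) ln13_15_1 ln13_15_1_ok) (M (nat_lit 489) (B (L (nat_lit 520) ln12_15_1 ln12_15_1_ok) (M (nat_lit 525) (B (L (nat_lit 524) ln9_15_0 ln9_15_0_ok) (L (nat_lit 526) ln10_15_0 ln10_15_0_ok))))))) (B (M (nat_lit 494) (B (M (nat_lit 526) (B (L (nat_lit 525) ln10_15_0 ln10_15_0_ok) (L (nat_lit 527) ln11_15_0 ln11_15_0_ok))) (B (M (nat_lit 495) (B (M (nat_lit 523) (B (L (nat_lit 522) ln14_15_1 ln14_15_1_ok) (L (nat_lit 524) ln15_15_1 ln15_15_1_ok))) (M (nat_lit 527) (B (L (nat_lit 526) ln11_15_0 ln11_15_0_ok) (L (nat_lit 528) ln12_15_0 ln12_15_0_ok))))) (M (nat_lit 523) (B (L (nat_lit 522) ln14_15_1 ln14_15_1_ok) (M (nat_lit 524) (B (L (nat_lit 495) ln15_15_1 ln15_15_1_ok) (M (nat_lit 489) (B (L (nat_lit 488) ln8_15_0 ln8_15_0_ok) (L (nat_lit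 525) ln9_15_0 ln9_15_0_ok)))))))))) (B (M (nat_lit 489) (B (M (nat_lit 525) (B (L (nat_lit 524) ln9_15_0 ln9_15_0_ok) (L (nat_lit 526) ln10_15_0 ln10_15_0_ok))) (M (nat_lit 488) (B (M (nat_lit 456) (B (L (nat_lit 455) ln11_15_3 ln11_15_3_ok) (L (nat_lit 457) ln12_15_3 ln12_15_3_ok))) (M (nat_lit 520) (B (L (nat_lit 519) ln11_15_1 ln11_15_1_ok) (L (nat_lit 521) ln12_15_1 ln12_15_1_ok))))))) (M (nat_lit 489) (B (M (nat_lit 521) (B (L (nat_lit 520) ln12_15_1 ln12_15_1_ok) (L (nat_lit 522) ln13_15_1 ln13_15_1_ok))) (B (M (nat_lit 459) (B (M (nat_lit 395) (B (L (nat_lit 394) ln10_12_2 ln10_12_2_ok) (M (nat_lit 522) (B (L (nat_lit 427) ln11_12_5 ln11_12_5_ok) (L (nat_lit 521) ln13_15_1 ln13_15_1_ok))))) (M (nat_lit 456) (B (L (nat_lit 457) ln12_15_3 ln12_15_3_ok) (M (nat_lit 488) (B (L (nat_lit 455) ln11_15_3 ln11_15_3_ok) (L (nat_lit 460) ln8_15_2 ln8_15_2_ok))))))) (B (M (nat_lit 459) (B (M (nat_lit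 395) (B (L (nat_lit 394) ln10_12_2 ln10_12_2_ok) (M (nat_lit 427) (B (L (nat_lit 522) ln11_12_5 ln11_12_5_ok) (L (nat_lit 524) ln11_12_4 ln11_12_4_ok))))) (M (nat_lit 456) (B (L (nat_lit 457) ln12_15_3 ln12_15_3_ok) (M (nat_lit 488) (B (L (nat_lit 455) ln11_15_3 ln11_15_3_ok) (L (nat_lit 460) ln8_15_2 ln8_15_2_ok))))))) (M (nat_lit 488) (B (M (nat_lit 456) (B (L (nat_lit 455) ln11_15_3 ln11_15_3_ok) (L (nat_lit 457) ln12_15_3 ln12_15_3_ok))) (M (nat_lit 520) (B (L (nat_lit 519) ln11_15_1 ln11_15_1_ok) (L (nat_lit 521) ln12_15_1 ln12_15_1_ok)))))))))))))) (B (M (nat_lit 490) (B (M (nat_lit 489) (B (M (nat_lit 457) (B (L (nat_lit 456) ln12_15_3 ln12_15_3_ok) (L (nat_lit 458) ln13_15_3 ln13_15_3_ok))) (M (nat_lit 525) (B (L (nat_lit 524) ln9_15_0 ln9_15_0_ok) (L (nat_lit 526) ln10_15_0 ln10_15_0_ok))))) (B (M (nat_lit 521) (B (L (nat_lit 522) ln13_15_1 ln13_15_1_ok) (M (nat_lit 489) (B (L (nat_lit 520)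 ln12_15_1 ln12_15_1_ok) (M (nat_lit 525) (B (L (nat_lit 524) ln9_15_0 ln9_15_0_ok) (L (nat_lit 526) ln10_15_0 ln10_15_0_ok))))))) (B (M (nat_lit 522) (B (L (nat_lit 521) ln13_15_1 ln13_15_1_ok) (M (nat_lit 494) (B (L (nat_lit 523) ln14_15_1 ln14_15_1_ok) (M (nat_lit 526) (B (L (nat_lit 525) ln10_15_0 ln10_15_0_ok) (L (nat_lit 527) ln11_15_0 ln11_15_0_ok))))))) (M (nat_lit 489) (B (M (nat_lit 457) (B (L (nat_lit 456) ln12_15_3 ln12_15_3_ok) (L (nat_lit 458) ln13_15_3 ln13_15_3_ok))) (M (nat_lit 521) (B (L (nat_lit 520) ln12_15_1 ln12_15_1_ok) (L (nat_lit 522) ln13_15_1 ln13_15_1_ok))))))))) (B c11_n8872 (B (M (nat_lit 490) (B (M (nat_lit 489) (B (M (nat_lit 457) (B (L (nat_lit 456) ln12_15_3 ln12_15_3_ok) (L (nat_lit 458) ln13_15_3 ln13_15_3_ok))) (M (nat_lit 521) (B (L (nat_lit 520) ln12_15_1 ln12_15_1_ok) (L (nat_lit 522) ln13_15_1 ln13_15_1_ok))))) (B (M (nat_lit 521) (B (L (nat_lit 522) ln13_15_1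 ln13_15_1_ok) (M (nat_lit 489) (B (L (nat_lit 520) ln12_15_1 ln12_15_1_ok) (M (nat_lit 525) (B (L (nat_lit 524) ln9_15_0 ln9_15_0_ok) (L (nat_lit 526) ln10_15_0 ln10_15_0_ok))))))) (B (M (nat_lit 522) (B (L (nat_lit 521) ln13_15_1 ln13_15_1_ok) (M (nat_lit 458) (B (L (nat_lit 457) ln13_15_3 ln13_15_3_ok) (M (nat_lit 395) (B (L (nat_lit 394) ln10_12_2 ln10_12_2_ok) (M (nat_lit 427) (B (L (nat_lit 426) ln10_16_6 ln10_16_6_ok) (L (nat_lit 459) ln11_12_5 ln11_12_5_ok))))))))) (M (nat_lit 489) (B (M (nat_lit 457) (B (L (nat_lit 456) ln12_15_3 ln12_15_3_ok) (L (nat_lit 458) ln13_15_3 ln13_15_3_ok))) (M (nat_lit 525) (B (L (nat_lit 524) ln9_15_0 ln9_15_0_ok) (L (nat_lit 526) ln10_15_0 ln10_15_0_ok))))))))) (B (M (nat_lit 494) (B (M (nat_lit 495) (B (M (nat_lit 459) (B (L (nat_lit 458) ln14_15_3 ln14_15_3_ok) (L (nat_lit 460) ln15_15_3 ln15_15_3_ok))) (M (nat_lit 523) (B (L (nat_lit 522) ln14_15_1 ln14_15_1_ok)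 (L (nat_lit 524) ln15_15_1 ln15_15_1_ok))))) (B (M (nat_lit 495) (B (M (nat_lit 523) (B (L (nat_lit 522) ln14_15_1 ln14_15_1_ok) (L (nat_lit 524) ln15_15_1 ln15_15_1_ok))) (M (nat_lit 527) (B (L (nat_lit 526) ln11_15_0 ln11_15_0_ok) (L (nat_lit 528) ln12_15_0 ln12_15_0_ok))))) (M (nat_lit 490) (B (M (nat_lit 458) (B (L (nat_lit 457) ln13_15_3 ln13_15_3_ok) (L (nat_lit 459) ln14_15_3 ln14_15_3_ok))) (M (nat_lit 526) (B (L (nat_lit 525) ln10_15_0 ln10_15_0_ok) (L (nat_lit 527) ln11_15_0 ln11_15_0_ok)))))))) (B (M (nat_lit 494) (B (M (nat_lit 490) (B (M (nat_lit 458) (B (L (nat_lit 457) ln13_15_3 ln13_15_3_ok) (L (nat_lit 459) ln14_15_3 ln14_15_3_ok))) (M (nat_lit 526) (B (L (nat_lit 525) ln10_15_0 ln10_15_0_ok) (L (nat_lit 527) ln11_15_0 ln11_15_0_ok))))) (B (M (nat_lit 495) (B (M (nat_lit 459) (B (L (nat_lit 458) ln14_15_3 ln14_15_3_ok) (L (nat_lit 460) ln15_15_3 ln15_15_3_ok))) (M (nat_lit 527) (B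 (L (nat_lit 526) ln11_15_0 ln11_15_0_ok) (L (nat_lit 528) ln12_15_0 ln12_15_0_ok))))) (B (M (nat_lit 495) (B (M (nat_lit 527) (B (L (nat_lit 526) ln11_15_0 ln11_15_0_ok) (L (nat_lit 528) ln12_15_0 ln12_15_0_ok))) (M (nat_lit 496) (B (M (nat_lit 464) (B (L (nat_lit 463) ln12_15_2 ln12_15_2_ok) (L (nat_lit 465) ln13_15_2 ln13_15_2_ok))) (M (nat_lit 524) (B (L (nat_lit 523) ln15_15_1 ln15_15_1_ok) (L (nat_lit 525) ln16_15_1 ln16_15_1_ok))))))) (B (M (nat_lit 495) (B (M (nat_lit 459) (B (L (nat_lit 458) ln14_15_3 ln14_15_3_ok) (L (nat_lit 460) ln15_15_3 ln15_15_3_ok))) (M (nat_lit 496) (B (M (nat_lit 464) (B (L (nat_lit 463) ln12_15_2 ln12_15_2_ok) (L (nat_lit 465) ln13_15_2 ln13_15_2_ok))) (M (nat_lit 528) (B (L (nat_lit 527) ln12_15_0 ln12_15_0_ok) (L (nat_lit 529) ln13_15_0 ln13_15_0_ok))))))) (M (nat_lit 495) (B (M (nat_lit 459) (B (L (nat_lit 458) ln14_15_3 ln14_15_3_ok) (L (nat_lit 460) ln15_15_3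 ln15_15_3_ok))) (M (nat_lit 496) (B (M (nat_lit 464) (B (L (nat_lit 463) ln12_15_2 ln12_15_2_ok) (L (nat_lit 465) ln13_15_2 ln13_15_2_ok))) (M (nat_lit 524) (B (L (nat_lit 523) ln15_15_1 ln15_15_1_ok) (L (nat_lit 525) ln16_15_1 ln16_15_1_ok)))))))))))) (B (M (nat_lit 494) (B (M (nat_lit 490) (B (M (nat_lit 522) (B (L (nat_lit 521) ln13_15_1 ln13_15_1_ok) (L (nat_lit 523) ln14_15_1 ln14_15_1_ok))) (M (nat_lit 526) (B (L (nat_lit 525) ln10_15_0 ln10_15_0_ok) (L (nat_lit 527) ln11_15_0 ln11_15_0_ok))))) (B (M (nat_lit 495) (B (M (nat_lit 459) (B (L (nat_lit 458) ln14_15_3 ln14_15_3_ok) (L (nat_lit 460) ln15_15_3 ln15_15_3_ok))) (M (nat_lit 527) (B (L (nat_lit 526) ln11_15_0 ln11_15_0_ok) (L (nat_lit 528) ln12_15_0 ln12_15_0_ok))))) (M (nat_lit 490) (B (M (nat_lit 458) (B (L (nat_lit 457) ln13_15_3 ln13_15_3_ok) (L (nat_lit 459) ln14_15_3 ln14_15_3_ok))) (M (nat_lit 522) (B (L (nat_lit 521) ln13_15_1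 ln13_15_1_ok) (L (nat_lit 523) ln14_15_1 ln14_15_1_ok)))))))) (M (nat_lit 490) (B (M (nat_lit 494) (B (M (nat_lit 458) (B (L (nat_lit 457) ln13_15_3 ln13_15_3_ok) (L (nat_lit 459) ln14_15_3 ln14_15_3_ok))) (M (nat_lit 522) (B (L (nat_lit 521) ln13_15_1 ln13_15_1_ok) (L (nat_lit 523) ln14_15_1 ln14_15_1_ok))))) (B (M (nat_lit 522) (B (L (nat_lit 521) ln13_15_1 ln13_15_1_ok) (M (nat_lit 459) (B (M (nat_lit 395) (B (L (nat_lit 394) ln10_12_2 ln10_12_2_ok) (L (nat_lit 427) ln11_12_5 ln11_12_5_ok))) (M (nat_lit 494) (B (L (nat_lit 458) ln14_15_3 ln14_15_3_ok) (L (nat_lit 523) ln14_15_1 ln14_15_1_ok))))))) (B (M (nat_lit 489) (B (M (nat_lit 521) (B (L (nat_lit 520) ln12_15_1 ln12_15_1_ok) (L (nat_lit 522) ln13_15_1 ln13_15_1_ok))) (M (nat_lit 488) (B (M (nat_lit 456) (B (L (nat_lit 455) ln11_15_3 ln11_15_3_ok) (L (nat_lit 457) ln12_15_3 ln12_15_3_ok))) (M (nat_lit 524) (B (L (nat_lit 523) ln8_15_0 ln8_15_0_ok)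 (L (nat_lit 525) ln9_15_0 ln9_15_0_ok))))))) (B (M (nat_lit 458) (B (L (nat_lit 457) ln13_15_3 ln13_15_3_ok) (M (nat_lit 523) (B (M (nat_lit 394) (B (L (nat_lit 395) ln10_12_2 ln10_12_2_ok) (L (nat_lit 426) ln10_12_4 ln10_12_4_ok))) (M (nat_lit 494) (B (L (nat_lit 459) ln14_15_3 ln14_15_3_ok) (L (nat_lit 522) ln14_15_1 ln14_15_1_ok))))))) (B (M (nat_lit 489) (B (M (nat_lit 457) (B (L (nat_lit 456) ln12_15_3 ln12_15_3_ok) (L (nat_lit 458) ln13_15_3 ln13_15_3_ok))) (M (nat_lit 488) (B (M (nat_lit 520) (B (L (nat_lit 519) ln11_15_1 ln11_15_1_ok) (L (nat_lit 521) ln12_15_1 ln12_15_1_ok))) (M (nat_lit 524) (B (L (nat_lit 523) ln8_15_0 ln8_15_0_ok) (L (nat_lit 525) ln9_15_0 ln9_15_0_ok))))))) (M (nat_lit 489) (B (M (nat_lit 457) (B (L (nat_lit 456) ln12_15_3 ln12_15_3_ok) (L (nat_lit 458) ln13_15_3 ln13_15_3_ok))) (M (nat_lit 521) (B (L (nat_lit 520) ln12_15_1 ln12_15_1_ok) (L (nat_lit 522) ln13_15_1 ln13_15_1_ok)))))))))))))))))))))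 (nat_lit 38360046186282912540603401607243006847194736517645480188103494121293072404986064663696579385286273515527190323075975285500501277866965875994136674304) (nat_lit 1087770611061603336288267090893054107783111929558797046842356033071836719952810118001127396504985032056888510780568276164450609927119118147320377350905329848938357071382830660289646559232) (nat_lit 1087770611061603336288267090893054107783111929558797046842356033071836719952810118001127396504985032056888510780568276164450609927119118147320377350905329848938357071382830660289646559232) (by decide +kernel)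
theorem c11_s9078 : Sem (nat_lit 38360046186282912540603401607243006847194736517645480188103494121293072404986064663696579385286273515527190323075975285500501277866965875994136674304) (nat_lit 58968166400896786979802250298404551589346348516775835408072081572524341066035249898262148435597344158389028781552651824682623411326838863359015757135563619040139149312) (nat_lit 58968166400896786979802250298404551589346348516775835408072081572524341066035249898262148435597344158389028781552651824682623411326838863359015757135563619040139149312) :=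
  sem_of_chk (M (nat_lit 491) (B (M (nat_lit 490) (B (M (nat_lit 489) (B (M (nat_lit 457) (B (L (nat_lit 456) ln12_15_3 ln12_15_3_ok) (L (nat_lit 458) ln13_15_3 ln13_15_3_ok))) (M (nat_lit 521) (B (L (nat_lit 520) ln12_15_1 ln12_15_1_ok) (L (nat_lit 522) ln13_15_1 ln13_15_1_ok))))) (B (M (nat_lit 494) (B (M (nat_lit 458) (B (L (nat_lit 457) ln13_15_3 ln13_15_3_ok) (L (nat_lit 459) ln14_15_3 ln14_15_3_ok))) (M (nat_lit 526) (B (L (nat_lit 525) ln10_15_0 ln10_15_0_ok) (L (nat_lit 527) ln11_15_0 ln11_15_0_ok))))) (M (nat_lit 522) (B (L (nat_lit 521) ln13_15_1 ln13_15_1_ok) (M (nat_lit 494) (B (L (nat_lit 523) ln14_15_1 ln14_15_1_ok) (M (nat_lit 526) (B (L (nat_lit 525) ln10_15_0 ln10_15_0_ok) (L (nat_lit 527) ln11_15_0 ln11_15_0_ok)))))))))) (B (M (nat_lit 494) (B (M (nat_lit 490) (B (M (nat_lit 458) (B (L (nat_lit 457) ln13_15_3 ln13_15_3_ok) (L (nat_lit 459) ln14_15_3 ln14_15_3_ok))) (M (nat_lit 526)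 (B (L (nat_lit 525) ln10_15_0 ln10_15_0_ok) (L (nat_lit 527) ln11_15_0 ln11_15_0_ok))))) (B (M (nat_lit 490) (B (M (nat_lit 522) (B (L (nat_lit 521) ln13_15_1 ln13_15_1_ok) (L (nat_lit 523) ln14_15_1 ln14_15_1_ok))) (M (nat_lit 526) (B (L (nat_lit 525) ln10_15_0 ln10_15_0_ok) (L (nat_lit 527) ln11_15_0 ln11_15_0_ok))))) (B (M (nat_lit 495) (B (M (nat_lit 523) (B (L (nat_lit 522) ln14_15_1 ln14_15_1_ok) (L (nat_lit 524) ln15_15_1 ln15_15_1_ok))) (M (nat_lit 527) (B (L (nat_lit 526) ln11_15_0 ln11_15_0_ok) (L (nat_lit 528) ln12_15_0 ln12_15_0_ok))))) (M (nat_lit 490) (B (M (nat_lit 458) (B (L (nat_lit 457) ln13_15_3 ln13_15_3_ok) (L (nat_lit 459) ln14_15_3 ln14_15_3_ok))) (M (nat_lit 522) (B (L (nat_lit 521) ln13_15_1 ln13_15_1_ok) (L (nat_lit 523) ln14_15_1 ln14_15_1_ok))))))))) (B (M (nat_lit 494) (B (M (nat_lit 490) (B (M (nat_lit 522) (B (L (nat_lit 521) ln13_15_1 ln13_15_1_ok) (L (nat_lit 523)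 ln14_15_1 ln14_15_1_ok))) (M (nat_lit 526) (B (L (nat_lit 525) ln10_15_0 ln10_15_0_ok) (L (nat_lit 527) ln11_15_0 ln11_15_0_ok))))) (B (M (nat_lit 495) (B (M (nat_lit 523) (B (L (nat_lit 522) ln14_15_1 ln14_15_1_ok) (L (nat_lit 524) ln15_15_1 ln15_15_1_ok))) (M (nat_lit 527) (B (L (nat_lit 526) ln11_15_0 ln11_15_0_ok) (L (nat_lit 528) ln12_15_0 ln12_15_0_ok))))) (B (M (nat_lit 495) (B (M (nat_lit 527) (B (L (nat_lit 526) ln11_15_0 ln11_15_0_ok) (L (nat_lit 528) ln12_15_0 ln12_15_0_ok))) (M (nat_lit 496) (B (M (nat_lit 464) (B (L (nat_lit 463) ln12_15_2 ln12_15_2_ok) (L (nat_lit 465) ln13_15_2 ln13_15_2_ok))) (M (nat_lit 524) (B (L (nat_lit 523) ln15_15_1 ln15_15_1_ok) (L (nat_lit 525) ln16_15_1 ln16_15_1_ok))))))) (B (M (nat_lit 395) (B (L (nat_lit 394) ln10_12_2 ln10_12_2_ok) (M (nat_lit 490) (B (M (nat_lit 526) (B (L (nat_lit 525) ln10_15_0 ln10_15_0_ok) (L (nat_lit 527) ln11_15_0 ln11_15_0_ok)))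 (M (nat_lit 459) (B (L (nat_lit 458) ln14_15_3 ln14_15_3_ok) (M (nat_lit 427) (B (L (nat_lit 522) ln11_12_5 ln11_12_5_ok) (L (nat_lit 524) ln11_12_4 ln11_12_4_ok))))))))) (B (M (nat_lit 495) (B (M (nat_lit 523) (B (L (nat_lit 522) ln14_15_1 ln14_15_1_ok) (L (nat_lit 524) ln15_15_1 ln15_15_1_ok))) (M (nat_lit 496) (B (M (nat_lit 464) (B (L (nat_lit 463) ln12_15_2 ln12_15_2_ok) (L (nat_lit 465) ln13_15_2 ln13_15_2_ok))) (M (nat_lit 528) (B (L (nat_lit 527) ln12_15_0 ln12_15_0_ok) (L (nat_lit 529) ln13_15_0 ln13_15_0_ok))))))) (M (nat_lit 524) (B (M (nat_lit 523) (B (L (nat_lit 522) ln14_15_1 ln14_15_1_ok) (L (nat_lit 495) ln15_15_1 ln15_15_1_ok))) (M (nat_lit 395) (B (L (nat_lit 394) ln10_12_2 ln10_12_2_ok) (M (nat_lit 459) (B (L (nat_lit 427) ln11_12_4 ln11_12_4_ok) (L (nat_lit 458) ln14_15_3 ln14_15_3_ok))))))))))))) (B (M (nat_lit 494) (B (M (nat_lit 490) (B (M (nat_lit 522) (B (L (nat_lit 521)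 ln13_15_1 ln13_15_1_ok) (L (nat_lit 523) ln14_15_1 ln14_15_1_ok))) (M (nat_lit 526) (B (L (nat_lit 525) ln10_15_0 ln10_15_0_ok) (L (nat_lit 527) ln11_15_0 ln11_15_0_ok))))) (B (M (nat_lit 495) (B (M (nat_lit 523) (B (L (nat_lit 522) ln14_15_1 ln14_15_1_ok) (L (nat_lit 524) ln15_15_1 ln15_15_1_ok))) (M (nat_lit 527) (B (L (nat_lit 526) ln11_15_0 ln11_15_0_ok) (L (nat_lit 528) ln12_15_0 ln12_15_0_ok))))) (B (M (nat_lit 495) (B (M (nat_lit 527) (B (L (nat_lit 526) ln11_15_0 ln11_15_0_ok) (L (nat_lit 528) ln12_15_0 ln12_15_0_ok))) (M (nat_lit 496) (B (M (nat_lit 464) (B (L (nat_lit 463) ln12_15_2 ln12_15_2_ok) (L (nat_lit 465) ln13_15_2 ln13_15_2_ok))) (M (nat_lit 524) (B (L (nat_lit 523) ln15_15_1 ln15_15_1_ok) (L (nat_lit 525) ln16_15_1 ln16_15_1_ok))))))) (B (M (nat_lit 495) (B (M (nat_lit 527) (B (L (nat_lit 526) ln11_15_0 ln11_15_0_ok) (L (nat_lit 528) ln12_15_0 ln12_15_0_ok))) (B (M (nat_lit 496)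 (B (M (nat_lit 464) (B (L (nat_lit 463) ln12_15_2 ln12_15_2_ok) (L (nat_lit 465) ln13_15_2 ln13_15_2_ok))) (M (nat_lit 528) (B (L (nat_lit 527) ln12_15_0 ln12_15_0_ok) (L (nat_lit 529) ln13_15_0 ln13_15_0_ok))))) (M (nat_lit 496) (B (M (nat_lit 464) (B (L (nat_lit 463) ln12_15_2 ln12_15_2_ok) (L (nat_lit 465) ln13_15_2 ln13_15_2_ok))) (M (nat_lit 525) (B (L (nat_lit 524) ln16_15_1 ln16_15_1_ok) (M (nat_lit 526) (B (L (nat_lit 490) ln10_15_0 ln10_15_0_ok) (L (nat_lit 497) ln17_15_1 ln17_15_1_ok)))))))))) (B (M (nat_lit 495) (B (M (nat_lit 523) (B (L (nat_lit 522) ln14_15_1 ln14_15_1_ok) (L (nat_lit 524) ln15_15_1 ln15_15_1_ok))) (M (nat_lit 496) (B (M (nat_lit 464) (B (L (nat_lit 463) ln12_15_2 ln12_15_2_ok) (L (nat_lit 465) ln13_15_2 ln13_15_2_ok))) (M (nat_lit 528) (B (L (nat_lit 527) ln12_15_0 ln12_15_0_ok) (L (nat_lit 529) ln13_15_0 ln13_15_0_ok))))))) (M (nat_lit 490) (B (M (nat_lit 522) (B (L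 (nat_lit 521) ln13_15_1 ln13_15_1_ok) (L (nat_lit 523) ln14_15_1 ln14_15_1_ok))) (B (M (nat_lit 524) (B (M (nat_lit 525) (B (L (nat_lit 489) ln9_15_0 ln9_15_0_ok) (L (nat_lit 526) ln10_15_0 ln10_15_0_ok))) (M (nat_lit 523) (B (L (nat_lit 522) ln14_15_1 ln14_15_1_ok) (L (nat_lit 495) ln15_15_1 ln15_15_1_ok))))) (M (nat_lit 489) (B (M (nat_lit 525) (B (L (nat_lit 524) ln9_15_0 ln9_15_0_ok) (L (nat_lit 526) ln10_15_0 ln10_15_0_ok))) (M (nat_lit 488) (B (M (nat_lit 456) (B (L (nat_lit 455) ln11_15_3 ln11_15_3_ok) (L (nat_lit 457) ln12_15_3 ln12_15_3_ok))) (M (nat_lit 520) (B (L (nat_lit 519) ln11_15_1 ln11_15_1_ok) (L (nat_lit 521) ln12_15_1 ln12_15_1_ok)))))))))))))))) (B (M (nat_lit 459) (B (M (nat_lit 458) (B (L (nat_lit 494) ln14_15_3 ln14_15_3_ok) (M (nat_lit 395) (B (L (nat_lit 394) ln10_12_2 ln10_12_2_ok) (M (nat_lit 427) (B (L (nat_lit 524) ln11_12_4 ln11_12_4_ok) (M (nat_lit 428) (B (L (nat_lit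 523) ln11_16_6 ln11_16_6_ok) (L (nat_lit 430) ln14_13_1 ln14_13_1_ok))))))))) (B (M (nat_lit 494) (B (L (nat_lit 458) ln14_15_3 ln14_15_3_ok) (M (nat_lit 495) (B (M (nat_lit 523) (B (L (nat_lit 522) ln14_15_1 ln14_15_1_ok) (L (nat_lit 524) ln15_15_1 ln15_15_1_ok))) (M (nat_lit 527) (B (L (nat_lit 526) ln11_15_0 ln11_15_0_ok) (L (nat_lit 528) ln12_15_0 ln12_15_0_ok))))))) (B (M (nat_lit 523) (B (M (nat_lit 522) (B (L (nat_lit 494) ln14_15_1 ln14_15_1_ok) (M (nat_lit 427) (B (L (nat_lit 428) ln11_16_6 ln11_16_6_ok) (L (nat_lit 554) ln11_13_5 ln11_13_5_ok))))) (B (M (nat_lit 522) (B (L (nat_lit 494) ln14_15_1 ln14_15_1_ok) (M (nat_lit 521) (B (L (nat_lit 520) ln8_16_2 ln8_16_2_ok) (L (nat_lit 524) ln9_16_2 ln9_16_2_ok))))) (M (nat_lit 427) (B (L (nat_lit 428) ln11_16_6 ln11_16_6_ok) (M (nat_lit 395) (B (L (nat_lit 394) ln10_12_2 ln10_12_2_ok) (L (nat_lit 524) ln11_12_4 ln11_12_4_ok)))))))) (B (M (nat_lit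 427) (B (M (nat_lit 395) (B (L (nat_lit 394) ln10_12_2 ln10_12_2_ok) (L (nat_lit 524) ln11_12_4 ln11_12_4_ok))) (B (M (nat_lit 523) (B (L (nat_lit 428) ln11_16_6 ln11_16_6_ok) (M (nat_lit 522) (B (L (nat_lit 554) ln11_13_5 ln11_13_5_ok) (M (nat_lit 521) (B (L (nat_lit 520) ln8_16_2 ln8_16_2_ok) (L (nat_lit 524) ln9_16_2 ln9_16_2_ok))))))) (M (nat_lit 523) (B (L (nat_lit 428) ln11_16_6 ln11_16_6_ok) (M (nat_lit 394) (B (L (nat_lit 395) ln10_12_2 ln10_12_2_ok) (L (nat_lit 426) ln11_16_7 ln11_16_7_ok)))))))) (B (M (nat_lit 427) (B (M (nat_lit 395) (B (L (nat_lit 394) ln10_12_2 ln10_12_2_ok) (L (nat_lit 524) ln11_12_4 ln11_12_4_ok))) (M (nat_lit 458) (B (L (nat_lit 494) ln14_15_3 ln14_15_3_ok) (M (nat_lit 428) (B (L (nat_lit 430) ln14_13_1 ln14_13_1_ok) (M (nat_lit 457) (B (L (nat_lit 426) ln13_13_1 ln13_13_1_ok) (L (nat_lit 456) ln8_14_2 ln8_14_2_ok))))))))) (M (nat_lit 394) (B (L (nat_lit 395) ln10_12_2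 ln10_12_2_ok) (M (nat_lit 523) (B (M (nat_lit 427) (B (L (nat_lit 426) ln11_16_7 ln11_16_7_ok) (L (nat_lit 428) ln11_16_6 ln11_16_6_ok))) (M (nat_lit 494) (B (L (nat_lit 458) ln14_15_3 ln14_15_3_ok) (L (nat_lit 522) ln14_15_1 ln14_15_1_ok))))))))))))) (B (M (nat_lit 490) (B (M (nat_lit 489) (B (M (nat_lit 457) (B (L (nat_lit 456) ln12_15_3 ln12_15_3_ok) (L (nat_lit 458) ln13_15_3 ln13_15_3_ok))) (M (nat_lit 521) (B (L (nat_lit 520) ln12_15_1 ln12_15_1_ok) (L (nat_lit 522) ln13_15_1 ln13_15_1_ok))))) (B (M (nat_lit 521) (B (L (nat_lit 522) ln13_15_1 ln13_15_1_ok) (M (nat_lit 489) (B (L (nat_lit 520) ln12_15_1 ln12_15_1_ok) (M (nat_lit 525) (B (L (nat_lit 524) ln9_15_0 ln9_15_0_ok) (L (nat_lit 526) ln10_15_0 ln10_15_0_ok))))))) (B (M (nat_lit 522) (B (L (nat_lit 521) ln13_15_1 ln13_15_1_ok) (M (nat_lit 458) (B (L (nat_lit 457) ln13_15_3 ln13_15_3_ok) (M (nat_lit 395) (B (L (nat_lit 394) ln10_12_2 ln10_12_2_ok)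 (M (nat_lit 427) (B (L (nat_lit 426) ln10_16_6 ln10_16_6_ok) (L (nat_lit 459) ln11_12_5 ln11_12_5_ok))))))))) (M (nat_lit 489) (B (M (nat_lit 457) (B (L (nat_lit 456) ln12_15_3 ln12_15_3_ok) (L (nat_lit 458) ln13_15_3 ln13_15_3_ok))) (M (nat_lit 525) (B (L (nat_lit 524) ln9_15_0 ln9_15_0_ok) (L (nat_lit 526) ln10_15_0 ln10_15_0_ok))))))))) (B (M (nat_lit 494) (B (M (nat_lit 490) (B (M (nat_lit 458) (B (L (nat_lit 457) ln13_15_3 ln13_15_3_ok) (L (nat_lit 459) ln14_15_3 ln14_15_3_ok))) (M (nat_lit 526) (B (L (nat_lit 525) ln10_15_0 ln10_15_0_ok) (L (nat_lit 527) ln11_15_0 ln11_15_0_ok))))) (B (M (nat_lit 495) (B (M (nat_lit 523) (B (L (nat_lit 522) ln14_15_1 ln14_15_1_ok) (L (nat_lit 524) ln15_15_1 ln15_15_1_ok))) (M (nat_lit 527) (B (L (nat_lit 526) ln11_15_0 ln11_15_0_ok) (L (nat_lit 528) ln12_15_0 ln12_15_0_ok))))) (M (nat_lit 524) (B (M (nat_lit 523) (B (L (nat_lit 522) ln14_15_1 ln14_15_1_ok)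 (L (nat_lit 495) ln15_15_1 ln15_15_1_ok))) (M (nat_lit 395) (B (L (nat_lit 394) ln10_12_2 ln10_12_2_ok) (M (nat_lit 459) (B (L (nat_lit 427) ln11_12_4 ln11_12_4_ok) (L (nat_lit 458) ln14_15_3 ln14_15_3_ok)))))))))) (B (M (nat_lit 490) (B (M (nat_lit 494) (B (M (nat_lit 458) (B (L (nat_lit 457) ln13_15_3 ln13_15_3_ok) (L (nat_lit 459) ln14_15_3 ln14_15_3_ok))) (M (nat_lit 526) (B (L (nat_lit 525) ln10_15_0 ln10_15_0_ok) (L (nat_lit 527) ln11_15_0 ln11_15_0_ok))))) (B (M (nat_lit 458) (B (M (nat_lit 494) (B (L (nat_lit 459) ln14_15_3 ln14_15_3_ok) (M (nat_lit 526) (B (L (nat_lit 525) ln10_15_0 ln10_15_0_ok) (L (nat_lit 527) ln11_15_0 ln11_15_0_ok))))) (B (M (nat_lit 394) (B (L (nat_lit 395) ln10_12_2 ln10_12_2_ok) (M (nat_lit 489) (B (M (nat_lit 426) (B (L (nat_lit 521) ln10_12_5 ln10_12_5_ok) (L (nat_lit 523) ln10_12_4 ln10_12_4_ok))) (M (nat_lit 525) (B (L (nat_lit 524) ln9_15_0 ln9_15_0_ok) (L (nat_lit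 526) ln10_15_0 ln10_15_0_ok))))))) (M (nat_lit 394) (B (L (nat_lit 395) ln10_12_2 ln10_12_2_ok) (M (nat_lit 426) (B (L (nat_lit 523) ln10_12_4 ln10_12_4_ok) (M (nat_lit 459) (B (L (nat_lit 362) ln10_11_4 ln10_11_4_ok) (L (nat_lit 494) ln14_15_3 ln14_15_3_ok)))))))))) (B (M (nat_lit 489) (B (M (nat_lit 525) (B (L (nat_lit 524) ln9_15_0 ln9_15_0_ok) (L (nat_lit 526) ln10_15_0 ln10_15_0_ok))) (M (nat_lit 488) (B (M (nat_lit 456) (B (L (nat_lit 455) ln11_15_3 ln11_15_3_ok) (L (nat_lit 457) ln12_15_3 ln12_15_3_ok))) (M (nat_lit 520) (B (L (nat_lit 519) ln11_15_1 ln11_15_1_ok) (L (nat_lit 521) ln12_15_1 ln12_15_1_ok))))))) (M (nat_lit 458) (B (L (nat_lit 457) ln13_15_3 ln13_15_3_ok) (M (nat_lit 394) (B (L (nat_lit 395) ln10_12_2 ln10_12_2_ok) (M (nat_lit 426) (B (L (nat_lit 523) ln10_12_4 ln10_12_4_ok) (M (nat_lit 459) (B (L (nat_lit 362) ln10_11_4 ln10_11_4_ok) (L (nat_lit 494) ln14_15_3 ln14_15_3_ok)))))))))))))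 (M (nat_lit 490) (B (M (nat_lit 494) (B (M (nat_lit 458) (B (L (nat_lit 457) ln13_15_3 ln13_15_3_ok) (L (nat_lit 459) ln14_15_3 ln14_15_3_ok))) (M (nat_lit 522) (B (L (nat_lit 521) ln13_15_1 ln13_15_1_ok) (L (nat_lit 523) ln14_15_1 ln14_15_1_ok))))) (B (M (nat_lit 522) (B (L (nat_lit 521) ln13_15_1 ln13_15_1_ok) (M (nat_lit 459) (B (M (nat_lit 395) (B (L (nat_lit 394) ln10_12_2 ln10_12_2_ok) (L (nat_lit 427) ln11_12_5 ln11_12_5_ok))) (M (nat_lit 494) (B (L (nat_lit 458) ln14_15_3 ln14_15_3_ok) (L (nat_lit 523) ln14_15_1 ln14_15_1_ok))))))) (B (M (nat_lit 489) (B (M (nat_lit 521) (B (L (nat_lit 520) ln12_15_1 ln12_15_1_ok) (L (nat_lit 522) ln13_15_1 ln13_15_1_ok))) (M (nat_lit 488) (B (M (nat_lit 456) (B (L (nat_lit 455) ln11_15_3 ln11_15_3_ok) (L (nat_lit 457) ln12_15_3 ln12_15_3_ok))) (M (nat_lit 524) (B (L (nat_lit 523) ln8_15_0 ln8_15_0_ok) (L (nat_lit 525) ln9_15_0 ln9_15_0_ok))))))) (B (M (nat_lit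 458) (B (L (nat_lit 457) ln13_15_3 ln13_15_3_ok) (M (nat_lit 523) (B (M (nat_lit 394) (B (L (nat_lit 395) ln10_12_2 ln10_12_2_ok) (L (nat_lit 426) ln10_12_4 ln10_12_4_ok))) (M (nat_lit 494) (B (L (nat_lit 459) ln14_15_3 ln14_15_3_ok) (L (nat_lit 522) ln14_15_1 ln14_15_1_ok))))))) (B (M (nat_lit 489) (B (M (nat_lit 457) (B (L (nat_lit 456) ln12_15_3 ln12_15_3_ok) (L (nat_lit 458) ln13_15_3 ln13_15_3_ok))) (M (nat_lit 488) (B (M (nat_lit 520) (B (L (nat_lit 519) ln11_15_1 ln11_15_1_ok) (L (nat_lit 521) ln12_15_1 ln12_15_1_ok))) (M (nat_lit 524) (B (L (nat_lit 523) ln8_15_0 ln8_15_0_ok) (L (nat_lit 525) ln9_15_0 ln9_15_0_ok))))))) (M (nat_lit 489) (B (M (nat_lit 457) (B (L (nat_lit 456) ln12_15_3 ln12_15_3_ok) (L (nat_lit 458) ln13_15_3 ln13_15_3_ok))) (M (nat_lit 521) (B (L (nat_lit 520) ln12_15_1 ln12_15_1_ok) (L (nat_lit 522) ln13_15_1 ln13_15_1_ok)))))))))))))))))))) (nat_lit 38360046186282912540603401607243006847194736517645480188103494121293072404986064663696579385286273515527190323075975285500501277866965875994136674304)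 (nat_lit 58968166400896786979802250298404551589346348516775835408072081572524341066035249898262148435597344158389028781552651824682623411326838863359015757135563619040139149312) (nat_lit 58968166400896786979802250298404551589346348516775835408072081572524341066035249898262148435597344158389028781552651824682623411326838863359015757135563619040139149312) (by decide +kernel)
theorem c11_s9222 : Sem (nat_lit 38360046186282912540603401607243006847194736517645480188103494121293072404986064663696579385286273515527190323075975285500501277866965875994136674304) (nat_lit 943490606643016188905702529019215167747360735598598834101045118388819554458998539749009885881669248974276198855072439361351505678589776972853181438385921898475780308992) (nat_lit 943490606643016188905702529019215167747360735598598834101045118388819554458998539749009885881669248974276198855072439361351505678589776972853181438385921898475780308992)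 :=
  sem_of_chk (M (nat_lit 491) (B (M (nat_lit 461) (B (L (nat_lit 524) ln13_12_5 ln13_12_5_ok) (M (nat_lit 525) (B (L (nat_lit 428) ln13_16_7 ln13_16_7_ok) (M (nat_lit 526) (B (L (nat_lit 558) ln13_13_4 ln13_13_4_ok) (L (nat_lit 490) ln10_15_0 ln10_15_0_ok))))))) (B (M (nat_lit 490) (B (M (nat_lit 489) (B (M (nat_lit 457) (B (L (nat_lit 456) ln12_15_3 ln12_15_3_ok) (L (nat_lit 458) ln13_15_3 ln13_15_3_ok))) (M (nat_lit 521) (B (L (nat_lit 520) ln12_15_1 ln12_15_1_ok) (L (nat_lit 522) ln13_15_1 ln13_15_1_ok))))) (B (M (nat_lit 524) (B (L (nat_lit 461) ln13_12_5 ln13_12_5_ok) (M (nat_lit 489) (B (L (nat_lit 525) ln9_15_0 ln9_15_0_ok) (M (nat_lit 521) (B (L (nat_lit 520) ln12_15_1 ln12_15_1_ok) (L (nat_lit 522) ln13_15_1 ln13_15_1_ok))))))) (B (M (nat_lit 522) (B (L (nat_lit 521) ln13_15_1 ln13_15_1_ok) (M (nat_lit 458) (B (L (nat_lit 457) ln13_15_3 ln13_15_3_ok) (M (nat_lit 395) (B (L (nat_lit 394)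 ln10_12_2 ln10_12_2_ok) (M (nat_lit 427) (B (L (nat_lit 426) ln10_16_6 ln10_16_6_ok) (L (nat_lit 459) ln11_12_5 ln11_12_5_ok))))))))) (M (nat_lit 457) (B (L (nat_lit 458) ln13_15_3 ln13_15_3_ok) (M (nat_lit 489) (B (L (nat_lit 456) ln12_15_3 ln12_15_3_ok) (M (nat_lit 524) (B (L (nat_lit 461) ln13_12_5 ln13_12_5_ok) (L (nat_lit 525) ln9_15_0 ln9_15_0_ok))))))))))) (B (M (nat_lit 490) (B (M (nat_lit 521) (B (L (nat_lit 522) ln13_15_1 ln13_15_1_ok) (M (nat_lit 489) (B (L (nat_lit 520) ln12_15_1 ln12_15_1_ok) (M (nat_lit 525) (B (L (nat_lit 524) ln9_15_0 ln9_15_0_ok) (L (nat_lit 526) ln10_15_0 ln10_15_0_ok))))))) (B (M (nat_lit 522) (B (L (nat_lit 521) ln13_15_1 ln13_15_1_ok) (M (nat_lit 458) (B (L (nat_lit 457) ln13_15_3 ln13_15_3_ok) (M (nat_lit 395) (B (L (nat_lit 394) ln10_12_2 ln10_12_2_ok) (M (nat_lit 427) (B (L (nat_lit 426) ln10_16_6 ln10_16_6_ok) (L (nat_lit 459) ln11_12_5 ln11_12_5_ok)))))))))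 (M (nat_lit 489) (B (M (nat_lit 457) (B (L (nat_lit 456) ln12_15_3 ln12_15_3_ok) (L (nat_lit 458) ln13_15_3 ln13_15_3_ok))) (M (nat_lit 525) (B (L (nat_lit 524) ln9_15_0 ln9_15_0_ok) (L (nat_lit 526) ln10_15_0 ln10_15_0_ok)))))))) (B (M (nat_lit 428) (B (M (nat_lit 461) (B (L (nat_lit 525) ln13_16_7 ln13_16_7_ok) (L (nat_lit 524) ln13_12_5 ln13_12_5_ok))) (M (nat_lit 427) (B (M (nat_lit 394) (B (L (nat_lit 395) ln10_12_2 ln10_12_2_ok) (M (nat_lit 426) (B (L (nat_lit 393) ln13_13_3 ln13_13_3_ok) (L (nat_lit 425) ln9_13_2 ln9_13_2_ok))))) (B (M (nat_lit 430) (B (M (nat_lit 395) (B (L (nat_lit 394) ln10_12_2 ln10_12_2_ok) (L (nat_lit 431) ln15_13_3 ln15_13_3_ok))) (M (nat_lit 459) (B (L (nat_lit 523) ln11_16_6 ln11_16_6_ok) (L (nat_lit 458) ln14_13_1 ln14_13_1_ok))))) (B (M (nat_lit 430) (B (M (nat_lit 431) (B (L (nat_lit 395) ln15_13_3 ln15_13_3_ok) (L (nat_lit 432) ln16_13_3 ln16_13_3_ok))) (M (nat_lit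 459) (B (L (nat_lit 523) ln11_16_6 ln11_16_6_ok) (L (nat_lit 458) ln14_13_1 ln14_13_1_ok))))) (M (nat_lit 458) (B (M (nat_lit 426) (B (L (nat_lit 425) ln9_13_2 ln9_13_2_ok) (L (nat_lit 457) ln13_13_1 ln13_13_1_ok))) (M (nat_lit 459) (B (L (nat_lit 523) ln11_16_6 ln11_16_6_ok) (L (nat_lit 430) ln14_13_1 ln14_13_1_ok))))))))))) (B (M (nat_lit 525) (B (M (nat_lit 461) (B (L (nat_lit 428) ln13_16_7 ln13_16_7_ok) (M (nat_lit 526) (B (L (nat_lit 558) ln13_13_4 ln13_13_4_ok) (L (nat_lit 490) ln10_15_0 ln10_15_0_ok))))) (B (M (nat_lit 490) (B (L (nat_lit 526) ln10_15_0 ln10_15_0_ok) (M (nat_lit 489) (B (M (nat_lit 457) (B (L (nat_lit 456) ln12_15_3 ln12_15_3_ok) (L (nat_lit 458) ln13_15_3 ln13_15_3_ok))) (M (nat_lit 521) (B (L (nat_lit 520) ln12_15_1 ln12_15_1_ok) (L (nat_lit 522) ln13_15_1 ln13_15_1_ok))))))) (M (nat_lit 428) (B (L (nat_lit 461) ln13_16_7 ln13_16_7_ok) (M (nat_lit 427) (B (M (nat_lit 394)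 (B (L (nat_lit 395) ln10_12_2 ln10_12_2_ok) (M (nat_lit 426) (B (L (nat_lit 393) ln13_13_3 ln13_13_3_ok) (L (nat_lit 425) ln9_13_2 ln9_13_2_ok))))) (B (M (nat_lit 430) (B (M (nat_lit 395) (B (L (nat_lit 394) ln10_12_2 ln10_12_2_ok) (L (nat_lit 431) ln15_13_3 ln15_13_3_ok))) (M (nat_lit 459) (B (L (nat_lit 523) ln11_16_6 ln11_16_6_ok) (L (nat_lit 458) ln14_13_1 ln14_13_1_ok))))) (M (nat_lit 458) (B (M (nat_lit 426) (B (L (nat_lit 425) ln9_13_2 ln9_13_2_ok) (L (nat_lit 457) ln13_13_1 ln13_13_1_ok))) (M (nat_lit 459) (B (L (nat_lit 523) ln11_16_6 ln11_16_6_ok) (L (nat_lit 430) ln14_13_1 ln14_13_1_ok))))))))))))) (M (nat_lit 395) (B (L (nat_lit 394) ln10_12_2 ln10_12_2_ok) (M (nat_lit 490) (B (M (nat_lit 522) (B (L (nat_lit 521) ln13_15_1 ln13_15_1_ok) (M (nat_lit 427) (B (L (nat_lit 459) ln11_12_5 ln11_12_5_ok) (M (nat_lit 458) (B (L (nat_lit 426) ln10_16_6 ln10_16_6_ok) (L (nat_lit 457) ln13_15_3 ln13_15_3_ok)))))))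 (B (M (nat_lit 521) (B (L (nat_lit 522) ln13_15_1 ln13_15_1_ok) (M (nat_lit 489) (B (L (nat_lit 520) ln12_15_1 ln12_15_1_ok) (M (nat_lit 457) (B (L (nat_lit 456) ln12_15_3 ln12_15_3_ok) (L (nat_lit 458) ln13_15_3 ln13_15_3_ok))))))) (B (M (nat_lit 427) (B (M (nat_lit 522) (B (L (nat_lit 459) ln11_12_5 ln11_12_5_ok) (L (nat_lit 521) ln13_15_1 ln13_15_1_ok))) (B (M (nat_lit 426) (B (M (nat_lit 522) (B (L (nat_lit 458) ln10_16_6 ln10_16_6_ok) (L (nat_lit 521) ln13_15_1 ln13_15_1_ok))) (M (nat_lit 425) (B (L (nat_lit 424) ln8_13_2 ln8_13_2_ok) (L (nat_lit 428) ln9_13_2 ln9_13_2_ok))))) (B (M (nat_lit 459) (B (L (nat_lit 522) ln11_12_5 ln11_12_5_ok) (L (nat_lit 524) ln11_12_4 ln11_12_4_ok))) (M (nat_lit 524) (B (L (nat_lit 459) ln11_12_4 ln11_12_4_ok) (L (nat_lit 461) ln13_12_5 ln13_12_5_ok))))))) (B (M (nat_lit 489) (B (M (nat_lit 521) (B (L (nat_lit 520) ln12_15_1 ln12_15_1_ok) (L (nat_lit 522) ln13_15_1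 ln13_15_1_ok))) (M (nat_lit 488) (B (M (nat_lit 456) (B (L (nat_lit 455) ln11_15_3 ln11_15_3_ok) (L (nat_lit 457) ln12_15_3 ln12_15_3_ok))) (M (nat_lit 524) (B (L (nat_lit 461) ln13_12_5 ln13_12_5_ok) (L (nat_lit 523) ln8_15_0 ln8_15_0_ok))))))) (B (M (nat_lit 427) (B (M (nat_lit 459) (B (L (nat_lit 522) ln11_12_5 ln11_12_5_ok) (L (nat_lit 524) ln11_12_4 ln11_12_4_ok))) (B (M (nat_lit 426) (B (M (nat_lit 458) (B (L (nat_lit 522) ln10_16_6 ln10_16_6_ok) (L (nat_lit 457) ln13_15_3 ln13_15_3_ok))) (M (nat_lit 425) (B (L (nat_lit 424) ln8_13_2 ln8_13_2_ok) (L (nat_lit 428) ln9_13_2 ln9_13_2_ok))))) (M (nat_lit 524) (B (L (nat_lit 459) ln11_12_4 ln11_12_4_ok) (L (nat_lit 461) ln13_12_5 ln13_12_5_ok)))))) (M (nat_lit 489) (B (M (nat_lit 457) (B (L (nat_lit 456) ln12_15_3 ln12_15_3_ok) (L (nat_lit 458) ln13_15_3 ln13_15_3_ok))) (M (nat_lit 488) (B (M (nat_lit 520) (B (L (nat_lit 519) ln11_15_1 ln11_15_1_ok)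 (L (nat_lit 521) ln12_15_1 ln12_15_1_ok))) (M (nat_lit 524) (B (L (nat_lit 461) ln13_12_5 ln13_12_5_ok) (L (nat_lit 523) ln8_15_0 ln8_15_0_ok))))))))))))))))))))) (nat_lit 38360046186282912540603401607243006847194736517645480188103494121293072404986064663696579385286273515527190323075975285500501277866965875994136674304) (nat_lit 943490606643016188905702529019215167747360735598598834101045118388819554458998539749009885881669248974276198855072439361351505678589776972853181438385921898475780308992) (nat_lit 943490606643016188905702529019215167747360735598598834101045118388819554458998539749009885881669248974276198855072439361351505678589776972853181438385921898475780308992) (by decide +kernel)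
noncomputable def c11_n9284 : Cert := (M (nat_lit 491) (B (M (nat_lit 494) (B (M (nat_lit 526) (B (L (nat_lit 461) ln13_12_4 ln13_12_4_ok) (L (nat_lit 527) ln11_15_0 ln11_15_0_ok))) (M (nat_lit 490) (B (M (nat_lit 458) (B (L (nat_lit 457) ln13_15_3 ln13_15_3_ok) (L (nat_lit 459) ln14_15_3 ln14_15_3_ok))) (M (nat_lit 522) (B (L (nat_lit 521) ln13_15_1 ln13_15_1_ok) (L (nat_lit 523) ln14_15_1 ln14_15_1_ok))))))) (B (M (nat_lit 526) (B (M (nat_lit 494) (B (L (nat_lit 461) ln13_12_4 ln13_12_4_ok) (L (nat_lit 527) ln11_15_0 ln11_15_0_ok))) (B (M (nat_lit 525) (B (L (nat_lit 490) ln10_15_0 ln10_15_0_ok) (M (nat_lit 527) (B (L (nat_lit 494) ln11_15_0 ln11_15_0_ok) (L (nat_lit 528) ln16_16_3 ln16_16_3_ok))))) (M (nat_lit 525) (B (L (nat_lit 490) ln10_15_0 ln10_15_0_ok) (M (nat_lit 461) (B (L (nat_lit 428) ln13_16_7 ln13_16_7_ok) (L (nat_lit 558) ln13_13_4 ln13_13_4_ok)))))))) (B (M (nat_lit 490) (B (M (nat_lit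 494) (B (M (nat_lit 458) (B (L (nat_lit 457) ln13_15_3 ln13_15_3_ok) (L (nat_lit 459) ln14_15_3 ln14_15_3_ok))) (M (nat_lit 522) (B (L (nat_lit 521) ln13_15_1 ln13_15_1_ok) (L (nat_lit 523) ln14_15_1 ln14_15_1_ok))))) (B (M (nat_lit 522) (B (L (nat_lit 521) ln13_15_1 ln13_15_1_ok) (M (nat_lit 494) (B (L (nat_lit 523) ln14_15_1 ln14_15_1_ok) (M (nat_lit 526) (B (L (nat_lit 525) ln10_15_0 ln10_15_0_ok) (L (nat_lit 527) ln11_15_0 ln11_15_0_ok))))))) (B (M (nat_lit 489) (B (M (nat_lit 457) (B (L (nat_lit 456) ln12_15_3 ln12_15_3_ok) (L (nat_lit 458) ln13_15_3 ln13_15_3_ok))) (M (nat_lit 521) (B (L (nat_lit 520) ln12_15_1 ln12_15_1_ok) (L (nat_lit 522) ln13_15_1 ln13_15_1_ok))))) (M (nat_lit 494) (B (M (nat_lit 458) (B (L (nat_lit 457) ln13_15_3 ln13_15_3_ok) (L (nat_lit 459) ln14_15_3 ln14_15_3_ok))) (M (nat_lit 526) (B (L (nat_lit 525) ln10_15_0 ln10_15_0_ok) (L (nat_lit 527) ln11_15_0 ln11_15_0_ok)))))))))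 (B (M (nat_lit 394) (B (L (nat_lit 395) ln10_12_2 ln10_12_2_ok) (M (nat_lit 494) (B (M (nat_lit 526) (B (L (nat_lit 461) ln13_12_4 ln13_12_4_ok) (L (nat_lit 527) ln11_15_0 ln11_15_0_ok))) (M (nat_lit 459) (B (L (nat_lit 458) ln14_15_3 ln14_15_3_ok) (M (nat_lit 523) (B (L (nat_lit 522) ln14_15_1 ln14_15_1_ok) (M (nat_lit 427) (B (L (nat_lit 426) ln11_16_7 ln11_16_7_ok) (L (nat_lit 428) ln11_16_6 ln11_16_6_ok))))))))))) (B (M (nat_lit 525) (B (M (nat_lit 461) (B (L (nat_lit 428) ln13_16_7 ln13_16_7_ok) (M (nat_lit 526) (B (L (nat_lit 558) ln13_13_4 ln13_13_4_ok) (L (nat_lit 490) ln10_15_0 ln10_15_0_ok))))) (B (M (nat_lit 490) (B (L (nat_lit 526) ln10_15_0 ln10_15_0_ok) (M (nat_lit 489) (B (M (nat_lit 457) (B (L (nat_lit 456) ln12_15_3 ln12_15_3_ok) (L (nat_lit 458) ln13_15_3 ln13_15_3_ok))) (M (nat_lit 521) (B (L (nat_lit 520) ln12_15_1 ln12_15_1_ok) (L (nat_lit 522) ln13_15_1 ln13_15_1_ok))))))) (M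 (nat_lit 428) (B (L (nat_lit 461) ln13_16_7 ln13_16_7_ok) (M (nat_lit 427) (B (M (nat_lit 394) (B (L (nat_lit 395) ln10_12_2 ln10_12_2_ok) (M (nat_lit 426) (B (L (nat_lit 393) ln13_13_3 ln13_13_3_ok) (L (nat_lit 425) ln9_13_2 ln9_13_2_ok))))) (B (M (nat_lit 430) (B (M (nat_lit 395) (B (L (nat_lit 394) ln10_12_2 ln10_12_2_ok) (L (nat_lit 431) ln15_13_3 ln15_13_3_ok))) (M (nat_lit 459) (B (L (nat_lit 523) ln11_16_6 ln11_16_6_ok) (L (nat_lit 458) ln14_13_1 ln14_13_1_ok))))) (M (nat_lit 458) (B (M (nat_lit 426) (B (L (nat_lit 425) ln9_13_2 ln9_13_2_ok) (L (nat_lit 457) ln13_13_1 ln13_13_1_ok))) (M (nat_lit 459) (B (L (nat_lit 523) ln11_16_6 ln11_16_6_ok) (L (nat_lit 430) ln14_13_1 ln14_13_1_ok))))))))))))) (M (nat_lit 394) (B (L (nat_lit 395) ln10_12_2 ln10_12_2_ok) (M (nat_lit 458) (B (M (nat_lit 459) (B (L (nat_lit 494) ln14_15_3 ln14_15_3_ok) (M (nat_lit 457) (B (L (nat_lit 456) ln8_14_0 ln8_14_0_ok)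 (L (nat_lit 490) ln13_15_3 ln13_15_3_ok))))) (B (M (nat_lit 426) (B (M (nat_lit 459) (B (L (nat_lit 362) ln10_11_4 ln10_11_4_ok) (L (nat_lit 494) ln14_15_3 ln14_15_3_ok))) (M (nat_lit 490) (B (L (nat_lit 523) ln10_12_4 ln10_12_4_ok) (L (nat_lit 457) ln13_15_3 ln13_15_3_ok))))) (B (M (nat_lit 459) (B (L (nat_lit 494) ln14_15_3 ln14_15_3_ok) (M (nat_lit 426) (B (L (nat_lit 362) ln10_11_4 ln10_11_4_ok) (M (nat_lit 523) (B (L (nat_lit 427) ln11_16_7 ln11_16_7_ok) (L (nat_lit 555) ln11_17_7 ln11_17_7_ok))))))) (M (nat_lit 490) (B (L (nat_lit 457) ln13_15_3 ln13_15_3_ok) (M (nat_lit 521) (B (L (nat_lit 522) ln13_15_1 ln13_15_1_ok) (M (nat_lit 426) (B (L (nat_lit 489) ln10_12_5 ln10_12_5_ok) (L (nat_lit 523) ln10_12_4 ln10_12_4_ok)))))))))))))))))))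
theorem c11_s9352 : Sem (nat_lit 38360046186282912540603401607243006847194736517645480188103494121293072404986064663696579385286273515527190323075975285500501277866965875994136674304) (nat_lit 1645835239181741378354094135793915215913837172248148938026749471892059876827073024614594338232482053670300033136930476439559405880215771533591236669840600072192) (nat_lit 1645835239181741378354094135793915215913837172248148938026749471892059876827073024614594338232482053670300033136930476439559405880215771533591236669840600072192) :=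
  sem_of_chk (M (nat_lit 491) (B (M (nat_lit 461) (B (L (nat_lit 524) ln13_12_5 ln13_12_5_ok) (M (nat_lit 494) (B (L (nat_lit 526) ln13_12_4 ln13_12_4_ok) (M (nat_lit 522) (B (L (nat_lit 523) ln14_15_1 ln14_15_1_ok) (M (nat_lit 458) (B (L (nat_lit 459) ln14_15_3 ln14_15_3_ok) (M (nat_lit 490) (B (L (nat_lit 457) ln13_15_3 ln13_15_3_ok) (L (nat_lit 521) ln13_15_1 ln13_15_1_ok))))))))))) (B (M (nat_lit 494) (B (M (nat_lit 461) (B (L (nat_lit 524) ln13_12_5 ln13_12_5_ok) (L (nat_lit 526) ln13_12_4 ln13_12_4_ok))) (B (M (nat_lit 495) (B (M (nat_lit 523) (B (L (nat_lit 522) ln14_15_1 ln14_15_1_ok) (L (nat_lit 524) ln15_15_1 ln15_15_1_ok))) (M (nat_lit 527) (B (L (nat_lit 526) ln11_15_0 ln11_15_0_ok) (L (nat_lit 528) ln12_15_0 ln12_15_0_ok))))) (B (M (nat_lit 526) (B (L (nat_lit 461) ln13_12_4 ln13_12_4_ok) (L (nat_lit 527) ln11_15_0 ln11_15_0_ok))) (M (nat_lit 523) (B (L (nat_lit 522) ln14_15_1 ln14_15_1_ok)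 (M (nat_lit 524) (B (L (nat_lit 461) ln13_12_5 ln13_12_5_ok) (L (nat_lit 495) ln15_15_1 ln15_15_1_ok))))))))) (B (M (nat_lit 522) (B (M (nat_lit 521) (B (L (nat_lit 490) ln13_15_1 ln13_15_1_ok) (M (nat_lit 523) (B (L (nat_lit 494) ln14_15_1 ln14_15_1_ok) (L (nat_lit 520) ln8_16_2 ln8_16_2_ok))))) (B (M (nat_lit 523) (B (L (nat_lit 494) ln14_15_1 ln14_15_1_ok) (M (nat_lit 521) (B (L (nat_lit 520) ln8_16_2 ln8_16_2_ok) (L (nat_lit 524) ln9_16_2 ln9_16_2_ok))))) (B (M (nat_lit 521) (B (L (nat_lit 490) ln13_15_1 ln13_15_1_ok) (M (nat_lit 523) (B (L (nat_lit 520) ln8_16_2 ln8_16_2_ok) (L (nat_lit 524) ln9_16_2 ln9_16_2_ok))))) (B (M (nat_lit 521) (B (L (nat_lit 490) ln13_15_1 ln13_15_1_ok) (M (nat_lit 523) (B (L (nat_lit 494) ln14_15_1 ln14_15_1_ok) (L (nat_lit 524) ln9_16_2 ln9_16_2_ok))))) (B (M (nat_lit 459) (B (M (nat_lit 494) (B (L (nat_lit 458) ln14_15_3 ln14_15_3_ok) (L (nat_lit 523) ln14_15_1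 ln14_15_1_ok))) (M (nat_lit 395) (B (L (nat_lit 394) ln10_12_2 ln10_12_2_ok) (M (nat_lit 427) (B (L (nat_lit 490) ln11_12_5 ln11_12_5_ok) (L (nat_lit 524) ln11_12_4 ln11_12_4_ok))))))) (M (nat_lit 490) (B (L (nat_lit 521) ln13_15_1 ln13_15_1_ok) (M (nat_lit 459) (B (M (nat_lit 395) (B (L (nat_lit 394) ln10_12_2 ln10_12_2_ok) (L (nat_lit 427) ln11_12_5 ln11_12_5_ok))) (M (nat_lit 458) (B (L (nat_lit 457) ln13_15_3 ln13_15_3_ok) (L (nat_lit 494) ln14_15_3 ln14_15_3_ok))))))))))))) (B (M (nat_lit 395) (B (L (nat_lit 394) ln10_12_2 ln10_12_2_ok) (M (nat_lit 490) (B (M (nat_lit 522) (B (L (nat_lit 521) ln13_15_1 ln13_15_1_ok) (M (nat_lit 427) (B (L (nat_lit 459) ln11_12_5 ln11_12_5_ok) (M (nat_lit 458) (B (L (nat_lit 426) ln10_16_6 ln10_16_6_ok) (L (nat_lit 457) ln13_15_3 ln13_15_3_ok))))))) (B (M (nat_lit 521) (B (L (nat_lit 522) ln13_15_1 ln13_15_1_ok) (M (nat_lit 489) (B (L (nat_lit 520) ln12_15_1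 ln12_15_1_ok) (M (nat_lit 457) (B (L (nat_lit 456) ln12_15_3 ln12_15_3_ok) (L (nat_lit 458) ln13_15_3 ln13_15_3_ok))))))) (B (M (nat_lit 427) (B (M (nat_lit 522) (B (L (nat_lit 459) ln11_12_5 ln11_12_5_ok) (L (nat_lit 521) ln13_15_1 ln13_15_1_ok))) (B (M (nat_lit 426) (B (M (nat_lit 522) (B (L (nat_lit 458) ln10_16_6 ln10_16_6_ok) (L (nat_lit 521) ln13_15_1 ln13_15_1_ok))) (M (nat_lit 425) (B (L (nat_lit 424) ln8_13_2 ln8_13_2_ok) (L (nat_lit 428) ln9_13_2 ln9_13_2_ok))))) (B (M (nat_lit 459) (B (L (nat_lit 522) ln11_12_5 ln11_12_5_ok) (L (nat_lit 524) ln11_12_4 ln11_12_4_ok))) (M (nat_lit 524) (B (L (nat_lit 459) ln11_12_4 ln11_12_4_ok) (L (nat_lit 461) ln13_12_5 ln13_12_5_ok))))))) (B (M (nat_lit 489) (B (M (nat_lit 521) (B (L (nat_lit 520) ln12_15_1 ln12_15_1_ok) (L (nat_lit 522) ln13_15_1 ln13_15_1_ok))) (M (nat_lit 488) (B (M (nat_lit 456) (B (L (nat_lit 455) ln11_15_3 ln11_15_3_ok) (L (nat_lit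 457) ln12_15_3 ln12_15_3_ok))) (M (nat_lit 524) (B (L (nat_lit 461) ln13_12_5 ln13_12_5_ok) (L (nat_lit 523) ln8_15_0 ln8_15_0_ok))))))) (B (M (nat_lit 427) (B (M (nat_lit 459) (B (L (nat_lit 522) ln11_12_5 ln11_12_5_ok) (L (nat_lit 524) ln11_12_4 ln11_12_4_ok))) (B (M (nat_lit 426) (B (M (nat_lit 458) (B (L (nat_lit 522) ln10_16_6 ln10_16_6_ok) (L (nat_lit 457) ln13_15_3 ln13_15_3_ok))) (M (nat_lit 425) (B (L (nat_lit 424) ln8_13_2 ln8_13_2_ok) (L (nat_lit 428) ln9_13_2 ln9_13_2_ok))))) (M (nat_lit 524) (B (L (nat_lit 459) ln11_12_4 ln11_12_4_ok) (L (nat_lit 461) ln13_12_5 ln13_12_5_ok)))))) (M (nat_lit 489) (B (M (nat_lit 457) (B (L (nat_lit 456) ln12_15_3 ln12_15_3_ok) (L (nat_lit 458) ln13_15_3 ln13_15_3_ok))) (M (nat_lit 488) (B (M (nat_lit 520) (B (L (nat_lit 519) ln11_15_1 ln11_15_1_ok) (L (nat_lit 521) ln12_15_1 ln12_15_1_ok))) (M (nat_lit 524) (B (L (nat_lit 461) ln13_12_5 ln13_12_5_ok)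 (L (nat_lit 523) ln8_15_0 ln8_15_0_ok))))))))))))))) (B (M (nat_lit 395) (B (L (nat_lit 394) ln10_12_2 ln10_12_2_ok) (M (nat_lit 459) (B (M (nat_lit 524) (B (L (nat_lit 427) ln11_12_4 ln11_12_4_ok) (L (nat_lit 461) ln13_12_5 ln13_12_5_ok))) (M (nat_lit 458) (B (L (nat_lit 494) ln14_15_3 ln14_15_3_ok) (M (nat_lit 457) (B (L (nat_lit 456) ln8_14_0 ln8_14_0_ok) (L (nat_lit 490) ln13_15_3 ln13_15_3_ok))))))))) (M (nat_lit 494) (B (M (nat_lit 526) (B (L (nat_lit 461) ln13_12_4 ln13_12_4_ok) (L (nat_lit 527) ln11_15_0 ln11_15_0_ok))) (M (nat_lit 490) (B (M (nat_lit 458) (B (L (nat_lit 457) ln13_15_3 ln13_15_3_ok) (L (nat_lit 459) ln14_15_3 ln14_15_3_ok))) (M (nat_lit 522) (B (L (nat_lit 521) ln13_15_1 ln13_15_1_ok) (L (nat_lit 523) ln14_15_1 ln14_15_1_ok))))))))))))) (nat_lit 38360046186282912540603401607243006847194736517645480188103494121293072404986064663696579385286273515527190323075975285500501277866965875994136674304)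 (nat_lit 1645835239181741378354094135793915215913837172248148938026749471892059876827073024614594338232482053670300033136930476439559405880215771533591236669840600072192) (nat_lit 1645835239181741378354094135793915215913837172248148938026749471892059876827073024614594338232482053670300033136930476439559405880215771533591236669840600072192) (by decide +kernel)
theorem c11_s9483 : Sem (nat_lit 38360046186282912540603401607243006847194736517645480188103494121293072404986064663696579385286273515527190323075975285500501277866965875994136674304) (nat_lit 412777140431097211860162769875731274969584496446120059499008122879287898198409817037531197181885119974239316089886082368651777042618462466715108346338327030963428655104) (nat_lit 412777140431097211860162769875731274969584496446120059499008122879287898198409817037531197181885119974239316089886082368651777042618462466715108346338327030963428655104) :=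
  sem_of_chk (M (nat_lit 491) (B (M (nat_lit 395) (B (L (nat_lit 394) ln10_12_2 ln10_12_2_ok) (M (nat_lit 459) (B (M (nat_lit 524) (B (L (nat_lit 427) ln11_12_4 ln11_12_4_ok) (L (nat_lit 461) ln13_12_5 ln13_12_5_ok))) (M (nat_lit 458) (B (L (nat_lit 494) ln14_15_3 ln14_15_3_ok) (M (nat_lit 457) (B (L (nat_lit 456) ln8_14_0 ln8_14_0_ok) (L (nat_lit 490) ln13_15_3 ln13_15_3_ok))))))))) (B (M (nat_lit 524) (B (L (nat_lit 461) ln13_12_5 ln13_12_5_ok) (M (nat_lit 459) (B (M (nat_lit 427) (B (L (nat_lit 395) ln11_12_4 ln11_12_4_ok) (M (nat_lit 523) (B (L (nat_lit 428) ln11_16_6 ln11_16_6_ok) (L (nat_lit 556) ln11_13_4 ln11_13_4_ok))))) (M (nat_lit 458) (B (L (nat_lit 494) ln14_15_3 ln14_15_3_ok) (M (nat_lit 457) (B (L (nat_lit 456) ln8_14_0 ln8_14_0_ok) (L (nat_lit 490) ln13_15_3 ln13_15_3_ok))))))))) (B (M (nat_lit 524) (B (L (nat_lit 461) ln13_12_5 ln13_12_5_ok) (M (nat_lit 490) (B (M (nat_lit 489) (B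 (L (nat_lit 525) ln9_15_0 ln9_15_0_ok) (M (nat_lit 521) (B (L (nat_lit 520) ln12_15_1 ln12_15_1_ok) (L (nat_lit 522) ln13_15_1 ln13_15_1_ok))))) (B (M (nat_lit 494) (B (M (nat_lit 458) (B (L (nat_lit 457) ln13_15_3 ln13_15_3_ok) (L (nat_lit 459) ln14_15_3 ln14_15_3_ok))) (M (nat_lit 522) (B (L (nat_lit 521) ln13_15_1 ln13_15_1_ok) (L (nat_lit 523) ln14_15_1 ln14_15_1_ok))))) (M (nat_lit 457) (B (L (nat_lit 458) ln13_15_3 ln13_15_3_ok) (M (nat_lit 489) (B (L (nat_lit 456) ln12_15_3 ln12_15_3_ok) (L (nat_lit 525) ln9_15_0 ln9_15_0_ok)))))))))) (B (M (nat_lit 395) (B (L (nat_lit 394) ln10_12_2 ln10_12_2_ok) (M (nat_lit 524) (B (L (nat_lit 461) ln13_12_5 ln13_12_5_ok) (M (nat_lit 494) (B (M (nat_lit 459) (B (L (nat_lit 427) ln11_12_4 ln11_12_4_ok) (L (nat_lit 458) ln14_15_3 ln14_15_3_ok))) (M (nat_lit 523) (B (L (nat_lit 522) ln14_15_1 ln14_15_1_ok) (L (nat_lit 495) ln15_15_1 ln15_15_1_ok))))))))) (B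 (M (nat_lit 394) (B (L (nat_lit 395) ln10_12_2 ln10_12_2_ok) (M (nat_lit 523) (B (M (nat_lit 522) (B (L (nat_lit 494) ln14_15_1 ln14_15_1_ok) (M (nat_lit 521) (B (L (nat_lit 490) ln13_15_1 ln13_15_1_ok) (L (nat_lit 520) ln8_16_2 ln8_16_2_ok))))) (B (M (nat_lit 522) (B (L (nat_lit 494) ln14_15_1 ln14_15_1_ok) (M (nat_lit 521) (B (L (nat_lit 520) ln8_16_2 ln8_16_2_ok) (L (nat_lit 524) ln9_16_2 ln9_16_2_ok))))) (M (nat_lit 427) (B (M (nat_lit 459) (B (L (nat_lit 426) ln11_16_7 ln11_16_7_ok) (L (nat_lit 428) ln11_16_6 ln11_16_6_ok))) (B (M (nat_lit 428) (B (L (nat_lit 459) ln11_16_6 ln11_16_6_ok) (M (nat_lit 461) (B (L (nat_lit 525) ln13_16_7 ln13_16_7_ok) (L (nat_lit 524) ln13_12_5 ln13_12_5_ok))))) (B (M (nat_lit 459) (B (L (nat_lit 426) ln11_16_7 ln11_16_7_ok) (M (nat_lit 524) (B (L (nat_lit 461) ln13_12_5 ln13_12_5_ok) (L (nat_lit 556) ln11_13_4 ln11_13_4_ok))))) (M (nat_lit 428) (B (M (nat_lit 426)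 (B (L (nat_lit 393) ln13_13_3 ln13_13_3_ok) (L (nat_lit 425) ln9_13_2 ln9_13_2_ok))) (M (nat_lit 461) (B (L (nat_lit 525) ln13_16_7 ln13_16_7_ok) (L (nat_lit 524) ln13_12_5 ln13_12_5_ok)))))))))))))) (B (M (nat_lit 490) (B (M (nat_lit 489) (B (M (nat_lit 457) (B (L (nat_lit 456) ln12_15_3 ln12_15_3_ok) (L (nat_lit 458) ln13_15_3 ln13_15_3_ok))) (M (nat_lit 521) (B (L (nat_lit 520) ln12_15_1 ln12_15_1_ok) (L (nat_lit 522) ln13_15_1 ln13_15_1_ok))))) (B (M (nat_lit 524) (B (L (nat_lit 461) ln13_12_5 ln13_12_5_ok) (M (nat_lit 489) (B (L (nat_lit 525) ln9_15_0 ln9_15_0_ok) (M (nat_lit 521) (B (L (nat_lit 520) ln12_15_1 ln12_15_1_ok) (L (nat_lit 522) ln13_15_1 ln13_15_1_ok))))))) (B (M (nat_lit 394) (B (L (nat_lit 395) ln10_12_2 ln10_12_2_ok) (M (nat_lit 523) (B (M (nat_lit 458) (B (L (nat_lit 426) ln10_12_4 ln10_12_4_ok) (L (nat_lit 457) ln13_15_3 ln13_15_3_ok))) (M (nat_lit 522) (B (L (nat_lit 521)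 ln13_15_1 ln13_15_1_ok) (L (nat_lit 494) ln14_15_1 ln14_15_1_ok))))))) (M (nat_lit 457) (B (L (nat_lit 458) ln13_15_3 ln13_15_3_ok) (M (nat_lit 489) (B (L (nat_lit 456) ln12_15_3 ln12_15_3_ok) (M (nat_lit 524) (B (L (nat_lit 461) ln13_12_5 ln13_12_5_ok) (L (nat_lit 525) ln9_15_0 ln9_15_0_ok))))))))))) (B (M (nat_lit 459) (B (M (nat_lit 458) (B (L (nat_lit 494) ln14_15_3 ln14_15_3_ok) (M (nat_lit 457) (B (L (nat_lit 456) ln8_14_0 ln8_14_0_ok) (L (nat_lit 490) ln13_15_3 ln13_15_3_ok))))) (B (M (nat_lit 458) (B (L (nat_lit 494) ln14_15_3 ln14_15_3_ok) (M (nat_lit 395) (B (L (nat_lit 394) ln10_12_2 ln10_12_2_ok) (M (nat_lit 427) (B (L (nat_lit 524) ln11_12_4 ln11_12_4_ok) (M (nat_lit 428) (B (L (nat_lit 523) ln11_16_6 ln11_16_6_ok) (L (nat_lit 430) ln14_13_1 ln14_13_1_ok))))))))) (B (M (nat_lit 522) (B (M (nat_lit 521) (B (L (nat_lit 490) ln13_15_1 ln13_15_1_ok) (M (nat_lit 523) (B (L (nat_lit 494) ln14_15_1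 ln14_15_1_ok) (L (nat_lit 520) ln8_16_2 ln8_16_2_ok))))) (B (M (nat_lit 523) (B (L (nat_lit 494) ln14_15_1 ln14_15_1_ok) (M (nat_lit 427) (B (L (nat_lit 428) ln11_16_6 ln11_16_6_ok) (L (nat_lit 554) ln11_13_5 ln11_13_5_ok))))) (M (nat_lit 395) (B (L (nat_lit 394) ln10_12_2 ln10_12_2_ok) (M (nat_lit 490) (B (L (nat_lit 427) ln11_12_5 ln11_12_5_ok) (L (nat_lit 521) ln13_15_1 ln13_15_1_ok)))))))) (M (nat_lit 522) (B (M (nat_lit 395) (B (L (nat_lit 394) ln10_12_2 ln10_12_2_ok) (M (nat_lit 490) (B (L (nat_lit 427) ln11_12_5 ln11_12_5_ok) (L (nat_lit 521) ln13_15_1 ln13_15_1_ok))))) (B (M (nat_lit 521) (B (L (nat_lit 490) ln13_15_1 ln13_15_1_ok) (M (nat_lit 523) (B (L (nat_lit 520) ln8_16_2 ln8_16_2_ok) (L (nat_lit 524) ln9_16_2 ln9_16_2_ok))))) (B (M (nat_lit 523) (B (M (nat_lit 427) (B (L (nat_lit 428) ln11_16_6 ln11_16_6_ok) (L (nat_lit 554) ln11_13_5 ln11_13_5_ok))) (M (nat_lit 521) (B (L (nat_lit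 520) ln8_16_2 ln8_16_2_ok) (L (nat_lit 524) ln9_16_2 ln9_16_2_ok))))) (M (nat_lit 395) (B (L (nat_lit 394) ln10_12_2 ln10_12_2_ok) (M (nat_lit 427) (B (L (nat_lit 490) ln11_12_5 ln11_12_5_ok) (L (nat_lit 524) ln11_12_4 ln11_12_4_ok))))))))))))) (B (M (nat_lit 428) (B (M (nat_lit 461) (B (L (nat_lit 525) ln13_16_7 ln13_16_7_ok) (L (nat_lit 524) ln13_12_5 ln13_12_5_ok))) (M (nat_lit 427) (B (M (nat_lit 394) (B (L (nat_lit 395) ln10_12_2 ln10_12_2_ok) (M (nat_lit 426) (B (L (nat_lit 393) ln13_13_3 ln13_13_3_ok) (L (nat_lit 425) ln9_13_2 ln9_13_2_ok))))) (B (M (nat_lit 430) (B (M (nat_lit 395) (B (L (nat_lit 394) ln10_12_2 ln10_12_2_ok) (L (nat_lit 431) ln15_13_3 ln15_13_3_ok))) (M (nat_lit 459) (B (L (nat_lit 523) ln11_16_6 ln11_16_6_ok) (L (nat_lit 458) ln14_13_1 ln14_13_1_ok))))) (M (nat_lit 458) (B (M (nat_lit 426) (B (L (nat_lit 425) ln9_13_2 ln9_13_2_ok) (L (nat_lit 457) ln13_13_1 ln13_13_1_ok)))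 (M (nat_lit 459) (B (L (nat_lit 523) ln11_16_6 ln11_16_6_ok) (L (nat_lit 430) ln14_13_1 ln14_13_1_ok)))))))))) (M (nat_lit 394) (B (L (nat_lit 395) ln10_12_2 ln10_12_2_ok) (M (nat_lit 523) (B (M (nat_lit 522) (B (L (nat_lit 494) ln14_15_1 ln14_15_1_ok) (M (nat_lit 521) (B (L (nat_lit 490) ln13_15_1 ln13_15_1_ok) (L (nat_lit 520) ln8_16_2 ln8_16_2_ok))))) (B (M (nat_lit 459) (B (M (nat_lit 427) (B (L (nat_lit 426) ln11_16_7 ln11_16_7_ok) (L (nat_lit 428) ln11_16_6 ln11_16_6_ok))) (M (nat_lit 494) (B (L (nat_lit 458) ln14_15_3 ln14_15_3_ok) (L (nat_lit 522) ln14_15_1 ln14_15_1_ok))))) (B (M (nat_lit 459) (B (M (nat_lit 427) (B (L (nat_lit 426) ln11_16_7 ln11_16_7_ok) (L (nat_lit 428) ln11_16_6 ln11_16_6_ok))) (B (M (nat_lit 522) (B (M (nat_lit 427) (B (L (nat_lit 428) ln11_16_6 ln11_16_6_ok) (L (nat_lit 554) ln11_13_5 ln11_13_5_ok))) (M (nat_lit 521) (B (L (nat_lit 490) ln13_15_1 ln13_15_1_ok) (L (nat_lit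 520) ln8_16_2 ln8_16_2_ok))))) (M (nat_lit 458) (B (M (nat_lit 426) (B (L (nat_lit 362) ln10_11_4 ln10_11_4_ok) (L (nat_lit 490) ln10_12_4 ln10_12_4_ok))) (B (M (nat_lit 426) (B (L (nat_lit 490) ln10_12_4 ln10_12_4_ok) (L (nat_lit 555) ln11_17_7 ln11_17_7_ok))) (B (M (nat_lit 457) (B (L (nat_lit 456) ln8_14_0 ln8_14_0_ok) (L (nat_lit 490) ln13_15_3 ln13_15_3_ok))) (M (nat_lit 426) (B (L (nat_lit 362) ln10_11_4 ln10_11_4_ok) (L (nat_lit 555) ln11_17_7 ln11_17_7_ok)))))))))) (M (nat_lit 459) (B (M (nat_lit 427) (B (L (nat_lit 426) ln11_16_7 ln11_16_7_ok) (L (nat_lit 428) ln11_16_6 ln11_16_6_ok))) (M (nat_lit 458) (B (L (nat_lit 494) ln14_15_3 ln14_15_3_ok) (M (nat_lit 457) (B (L (nat_lit 456) ln8_14_0 ln8_14_0_ok) (L (nat_lit 490) ln13_15_3 ln13_15_3_ok)))))))))))))))))))))) (nat_lit 38360046186282912540603401607243006847194736517645480188103494121293072404986064663696579385286273515527190323075975285500501277866965875994136674304)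 (nat_lit 412777140431097211860162769875731274969584496446120059499008122879287898198409817037531197181885119974239316089886082368651777042618462466715108346338327030963428655104) (nat_lit 412777140431097211860162769875731274969584496446120059499008122879287898198409817037531197181885119974239316089886082368651777042618462466715108346338327030963428655104) (by decide +kernel)
theorem c11_s9484 : Sem (nat_lit 12786682062094304181125357100777388470502220532934036520265280308042027120574544703671031788990147287785888103329412230740991461102236242765007552512) (nat_lit 1356267749933301626838410001643264854047711661245429887854489823655191016720673620136376564891007334531742313829422123073034067035427829078190214683052128190749724377088) (nat_lit 1356267749933301626838410001643264854047711661245429887854489823655191016720673620136376564891007334531742313829422123073034067035427829078190214683052128190749724377088)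 :=
  sem_of_chk (M (nat_lit 493) (B (M (nat_lit 461) (B (L (nat_lit 524) ln13_12_5 ln13_12_5_ok) (M (nat_lit 526) (B (L (nat_lit 494) ln13_12_4 ln13_12_4_ok) (M (nat_lit 525) (B (L (nat_lit 428) ln13_16_7 ln13_16_7_ok) (L (nat_lit 558) ln13_13_4 ln13_13_4_ok))))))) (B (M (nat_lit 494) (B (M (nat_lit 461) (B (L (nat_lit 524) ln13_12_5 ln13_12_5_ok) (L (nat_lit 526) ln13_12_4 ln13_12_4_ok))) (B (M (nat_lit 491) (B (M (nat_lit 490) (B (M (nat_lit 458) (B (L (nat_lit 457) ln13_15_3 ln13_15_3_ok) (L (nat_lit 459) ln14_15_3 ln14_15_3_ok))) (M (nat_lit 526) (B (L (nat_lit 525) ln10_15_0 ln10_15_0_ok) (L (nat_lit 527) ln11_15_0 ln11_15_0_ok))))) (B (M (nat_lit 490) (B (M (nat_lit 522) (B (L (nat_lit 521) ln13_15_1 ln13_15_1_ok) (L (nat_lit 523) ln14_15_1 ln14_15_1_ok))) (M (nat_lit 526) (B (L (nat_lit 525) ln10_15_0 ln10_15_0_ok) (L (nat_lit 527) ln11_15_0 ln11_15_0_ok))))) (B (M (nat_lit 495) (B (M (nat_lit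 523) (B (L (nat_lit 522) ln14_15_1 ln14_15_1_ok) (L (nat_lit 524) ln15_15_1 ln15_15_1_ok))) (M (nat_lit 527) (B (L (nat_lit 526) ln11_15_0 ln11_15_0_ok) (L (nat_lit 528) ln12_15_0 ln12_15_0_ok))))) (M (nat_lit 490) (B (M (nat_lit 458) (B (L (nat_lit 457) ln13_15_3 ln13_15_3_ok) (L (nat_lit 459) ln14_15_3 ln14_15_3_ok))) (M (nat_lit 522) (B (L (nat_lit 521) ln13_15_1 ln13_15_1_ok) (L (nat_lit 523) ln14_15_1 ln14_15_1_ok))))))))) (B (M (nat_lit 526) (B (L (nat_lit 461) ln13_12_4 ln13_12_4_ok) (M (nat_lit 527) (B (L (nat_lit 491) ln11_15_0 ln11_15_0_ok) (M (nat_lit 528) (B (L (nat_lit 495) ln12_15_0 ln12_15_0_ok) (L (nat_lit 525) ln16_16_3 ln16_16_3_ok))))))) (M (nat_lit 524) (B (L (nat_lit 461) ln13_12_5 ln13_12_5_ok) (M (nat_lit 523) (B (L (nat_lit 495) ln15_15_1 ln15_15_1_ok) (M (nat_lit 522) (B (L (nat_lit 491) ln14_15_1 ln14_15_1_ok) (L (nat_lit 521) ln9_16_2 ln9_16_2_ok))))))))))) (B (K (nat_lit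 38360046186282912540603401607243006847194736517645480188103494121293072404986064663696579385286273515527190323075975285500501277866965875994136674304) (nat_lit 58968166400896786979802250298404551589346348516775835408072081572524341066035249898262148435597344158389028781552651824682623411326838863359015757135563619040139149312) (nat_lit 58968166400896786979802250298404551589346348516775835408072081572524341066035249898262148435597344158389028781552651824682623411326838863359015757135563619040139149312) c11_s9078) (B (K (nat_lit 38360046186282912540603401607243006847194736517645480188103494121293072404986064663696579385286273515527190323075975285500501277866965875994136674304) (nat_lit 943490606643016188905702529019215167747360735598598834101045118388819554458998539749009885881669248974276198855072439361351505678589776972853181438385921898475780308992) (nat_lit 943490606643016188905702529019215167747360735598598834101045118388819554458998539749009885881669248974276198855072439361351505678589776972853181438385921898475780308992)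 c11_s9222) (B c11_n9284 (B (K (nat_lit 38360046186282912540603401607243006847194736517645480188103494121293072404986064663696579385286273515527190323075975285500501277866965875994136674304) (nat_lit 1645835239181741378354094135793915215913837172248148938026749471892059876827073024614594338232482053670300033136930476439559405880215771533591236669840600072192) (nat_lit 1645835239181741378354094135793915215913837172248148938026749471892059876827073024614594338232482053670300033136930476439559405880215771533591236669840600072192) c11_s9352) (K (nat_lit 38360046186282912540603401607243006847194736517645480188103494121293072404986064663696579385286273515527190323075975285500501277866965875994136674304) (nat_lit 412777140431097211860162769875731274969584496446120059499008122879287898198409817037531197181885119974239316089886082368651777042618462466715108346338327030963428655104) (nat_lit 412777140431097211860162769875731274969584496446120059499008122879287898198409817037531197181885119974239316089886082368651777042618462466715108346338327030963428655104)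 c11_s9483)))))))) (nat_lit 12786682062094304181125357100777388470502220532934036520265280308042027120574544703671031788990147287785888103329412230740991461102236242765007552512) (nat_lit 1356267749933301626838410001643264854047711661245429887854489823655191016720673620136376564891007334531742313829422123073034067035427829078190214683052128190749724377088) (nat_lit 1356267749933301626838410001643264854047711661245429887854489823655191016720673620136376564891007334531742313829422123073034067035427829078190214683052128190749724377088) (by decide +kernel)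
noncomputable def c11_n9526 : Cert := (M (nat_lit 492) (B (M (nat_lit 460) (B (L (nat_lit 428) ln12_15_6 ln12_15_6_ok) (L (nat_lit 461) ln13_11_5 ln13_11_5_ok))) (B (M (nat_lit 493) (B (M (nat_lit 461) (B (L (nat_lit 460) ln13_11_5 ln13_11_5_ok) (L (nat_lit 524) ln13_12_5 ln13_12_5_ok))) (B (M (nat_lit 494) (B (M (nat_lit 461) (B (L (nat_lit 524) ln13_12_5 ln13_12_5_ok) (L (nat_lit 526) ln13_12_4 ln13_12_4_ok))) (B (M (nat_lit 491) (B (M (nat_lit 490) (B (M (nat_lit 458) (B (L (nat_lit 457) ln13_15_3 ln13_15_3_ok) (L (nat_lit 459) ln14_15_3 ln14_15_3_ok))) (M (nat_lit 526) (B (L (nat_lit 525) ln10_15_0 ln10_15_0_ok) (L (nat_lit 527) ln11_15_0 ln11_15_0_ok))))) (B (M (nat_lit 490) (B (M (nat_lit 522) (B (L (nat_lit 521) ln13_15_1 ln13_15_1_ok) (L (nat_lit 523) ln14_15_1 ln14_15_1_ok))) (M (nat_lit 526) (B (L (nat_lit 525) ln10_15_0 ln10_15_0_ok) (L (nat_lit 527) ln11_15_0 ln11_15_0_ok))))) (B (M (nat_lit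 495) (B (M (nat_lit 523) (B (L (nat_lit 522) ln14_15_1 ln14_15_1_ok) (L (nat_lit 524) ln15_15_1 ln15_15_1_ok))) (M (nat_lit 527) (B (L (nat_lit 526) ln11_15_0 ln11_15_0_ok) (L (nat_lit 528) ln12_15_0 ln12_15_0_ok))))) (M (nat_lit 490) (B (M (nat_lit 458) (B (L (nat_lit 457) ln13_15_3 ln13_15_3_ok) (L (nat_lit 459) ln14_15_3 ln14_15_3_ok))) (M (nat_lit 522) (B (L (nat_lit 521) ln13_15_1 ln13_15_1_ok) (L (nat_lit 523) ln14_15_1 ln14_15_1_ok))))))))) (B (M (nat_lit 526) (B (L (nat_lit 461) ln13_12_4 ln13_12_4_ok) (M (nat_lit 527) (B (L (nat_lit 491) ln11_15_0 ln11_15_0_ok) (M (nat_lit 528) (B (L (nat_lit 495) ln12_15_0 ln12_15_0_ok) (L (nat_lit 525) ln16_16_3 ln16_16_3_ok))))))) (M (nat_lit 524) (B (L (nat_lit 461) ln13_12_5 ln13_12_5_ok) (M (nat_lit 523) (B (L (nat_lit 495) ln15_15_1 ln15_15_1_ok) (M (nat_lit 522) (B (L (nat_lit 491) ln14_15_1 ln14_15_1_ok) (L (nat_lit 521) ln9_16_2 ln9_16_2_ok)))))))))))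 (B (K (nat_lit 38360046186282912540603401607243006847194736517645480188103494121293072404986064663696579385286273515527190323075975285500501277866965875994136674304) (nat_lit 1087770611061603336288267090893054107783111929558797046842356033071836719952810118001127396504985032056888510780568276164450609927119118147320377350905329848938357071382830660289646559232) (nat_lit 1087770611061603336288267090893054107783111929558797046842356033071836719952810118001127396504985032056888510780568276164450609927119118147320377350905329848938357071382830660289646559232) c11_s8926) (M (nat_lit 494) (B (M (nat_lit 461) (B (L (nat_lit 460) ln13_11_5 ln13_11_5_ok) (L (nat_lit 526) ln13_12_4 ln13_12_4_ok))) (B (M (nat_lit 526) (B (L (nat_lit 461) ln13_12_4 ln13_12_4_ok) (M (nat_lit 527) (B (L (nat_lit 491) ln11_15_0 ln11_15_0_ok) (M (nat_lit 528) (B (L (nat_lit 495) ln12_15_0 ln12_15_0_ok) (L (nat_lit 525) ln16_16_3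 ln16_16_3_ok))))))) (B (M (nat_lit 491) (B (M (nat_lit 490) (B (M (nat_lit 522) (B (L (nat_lit 521) ln13_15_1 ln13_15_1_ok) (L (nat_lit 523) ln14_15_1 ln14_15_1_ok))) (M (nat_lit 526) (B (L (nat_lit 525) ln10_15_0 ln10_15_0_ok) (L (nat_lit 527) ln11_15_0 ln11_15_0_ok))))) (B (M (nat_lit 495) (B (M (nat_lit 459) (B (L (nat_lit 458) ln14_15_3 ln14_15_3_ok) (L (nat_lit 460) ln15_15_3 ln15_15_3_ok))) (M (nat_lit 527) (B (L (nat_lit 526) ln11_15_0 ln11_15_0_ok) (L (nat_lit 528) ln12_15_0 ln12_15_0_ok))))) (M (nat_lit 490) (B (M (nat_lit 458) (B (L (nat_lit 457) ln13_15_3 ln13_15_3_ok) (L (nat_lit 459) ln14_15_3 ln14_15_3_ok))) (M (nat_lit 522) (B (L (nat_lit 521) ln13_15_1 ln13_15_1_ok) (L (nat_lit 523) ln14_15_1 ln14_15_1_ok)))))))) (M (nat_lit 460) (B (L (nat_lit 461) ln13_11_5 ln13_11_5_ok) (M (nat_lit 459) (B (L (nat_lit 495) ln15_15_3 ln15_15_3_ok) (M (nat_lit 458) (B (L (nat_lit 457) ln9_14_0 ln9_14_0_ok)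 (L (nat_lit 491) ln14_15_3 ln14_15_3_ok))))))))))))))) (B (K (nat_lit 12786682062094304181125357100777388470502220532934036520265280308042027120574544703671031788990147287785888103329412230740991461102236242765007552512) (nat_lit 1356267749933301626838410001643264854047711661245429887854489823655191016720673620136376564891007334531742313829422123073034067035427829078190214683052128190749724377088) (nat_lit 1356267749933301626838410001643264854047711661245429887854489823655191016720673620136376564891007334531742313829422123073034067035427829078190214683052128190749724377088) c11_s9484) (M (nat_lit 428) (B (L (nat_lit 460) ln12_15_6 ln12_15_6_ok) (M (nat_lit 427) (B (M (nat_lit 394) (B (L (nat_lit 395) ln10_12_2 ln10_12_2_ok) (M (nat_lit 426) (B (L (nat_lit 393) ln13_13_3 ln13_13_3_ok) (L (nat_lit 425) ln9_13_2 ln9_13_2_ok))))) (B (M (nat_lit 395) (B (L (nat_lit 394) ln10_12_2 ln10_12_2_ok) (M (nat_lit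 459) (B (M (nat_lit 491) (B (L (nat_lit 524) ln11_12_4 ln11_12_4_ok) (L (nat_lit 523) ln11_16_6 ln11_16_6_ok))) (M (nat_lit 430) (B (L (nat_lit 431) ln15_13_3 ln15_13_3_ok) (L (nat_lit 458) ln14_13_1 ln14_13_1_ok))))))) (B (M (nat_lit 426) (B (L (nat_lit 425) ln9_13_2 ln9_13_2_ok) (M (nat_lit 458) (B (L (nat_lit 457) ln13_13_1 ln13_13_1_ok) (M (nat_lit 459) (B (L (nat_lit 430) ln14_13_1 ln14_13_1_ok) (M (nat_lit 395) (B (M (nat_lit 490) (B (L (nat_lit 363) ln11_11_5 ln11_11_5_ok) (L (nat_lit 522) ln10_16_6 ln10_16_6_ok))) (M (nat_lit 491) (B (L (nat_lit 524) ln11_12_4 ln11_12_4_ok) (L (nat_lit 523) ln11_16_6 ln11_16_6_ok))))))))))) (M (nat_lit 426) (B (L (nat_lit 425) ln9_13_2 ln9_13_2_ok) (M (nat_lit 458) (B (L (nat_lit 457) ln13_13_1 ln13_13_1_ok) (M (nat_lit 459) (B (L (nat_lit 430) ln14_13_1 ln14_13_1_ok) (M (nat_lit 394) (B (L (nat_lit 393) ln13_13_3 ln13_13_3_ok) (M (nat_lit 491) (B (L (nat_lit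 362) ln10_11_4 ln10_11_4_ok) (L (nat_lit 523) ln11_16_7 ln11_16_7_ok)))))))))))))))))))))
theorem c11_s9527 : Sem (nat_lit 1386334847383188664775530753724819738095985159270897866316958254106341781058293697539184418791777868781227938255127477902146273280) (nat_lit 35039543960606817717768658456304984541572716003943573952752601363978454736230288097197568729417285992749245080598498154514082361566072688785603297438279960883934544956985781734332235095904545144832) (nat_lit 35039543960606817717768658456304984541572716003943573952752601363978454736230288097197568729417285992749245080598498154514082361566072688785603297438279960883934544956985781734332235095904545144832) :=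
  sem_of_chk (M (nat_lit 396) (B (M (nat_lit 395) (B (L (nat_lit 394) ln10_12_2 ln10_12_2_ok) (M (nat_lit 367) (B (L (nat_lit 368) ln16_11_1 ln16_11_1_ok) (L (nat_lit 398) ln11_12_2 ln11_12_2_ok))))) (B c11_n8588 (B (M (nat_lit 367) (B (L (nat_lit 368) ln16_11_1 ln16_11_1_ok) (M (nat_lit 431) (B (M (nat_lit 395) (B (L (nat_lit 398) ln11_12_2 ln11_12_2_ok) (M (nat_lit 430) (B (L (nat_lit 428) ln15_13_3 ln15_13_3_ok) (L (nat_lit 432) ln16_13_3 ln16_13_3_ok))))) (B (M (nat_lit 432) (B (L (nat_lit 430) ln16_13_3 ln16_13_3_ok) (M (nat_lit 399) (B (L (nat_lit 398) ln12_12_0 ln12_12_0_ok) (M (nat_lit 464) (B (L (nat_lit 335) ln15_10_4 ln15_10_4_ok) (M (nat_lit 496) (B (L (nat_lit 400) ln16_15_7 ln16_15_7_ok) (L (nat_lit 463) ln15_11_4 ln15_11_4_ok))))))))) (B (M (nat_lit 430) (B (L (nat_lit 432) ln16_13_3 ln16_13_3_ok) (M (nat_lit 428) (B (L (nat_lit 395) ln15_13_3 ln15_13_3_ok) (M (nat_lit 460) (B (L (nat_lit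 492) ln12_15_6 ln12_15_6_ok) (L (nat_lit 459) ln15_13_1 ln15_13_1_ok))))))) (B (M (nat_lit 398) (B (L (nat_lit 395) ln11_12_2 ln11_12_2_ok) (M (nat_lit 399) (B (L (nat_lit 432) ln12_12_0 ln12_12_0_ok) (M (nat_lit 428) (B (L (nat_lit 427) ln15_12_1 ln15_12_1_ok) (L (nat_lit 400) ln16_12_1 ln16_12_1_ok))))))) (M (nat_lit 428) (B (M (nat_lit 395) (B (L (nat_lit 398) ln11_12_2 ln11_12_2_ok) (L (nat_lit 430) ln15_13_3 ln15_13_3_ok))) (B (M (nat_lit 399) (B (M (nat_lit 398) (B (L (nat_lit 427) ln15_12_1 ln15_12_1_ok) (L (nat_lit 400) ln16_12_1 ln16_12_1_ok))) (B (M (nat_lit 430) (B (L (nat_lit 400) ln12_13_2 ln12_13_2_ok) (M (nat_lit 460) (B (L (nat_lit 492) ln12_15_6 ln12_15_6_ok) (L (nat_lit 459) ln15_13_1 ln15_13_1_ok))))) (M (nat_lit 463) (B (M (nat_lit 398) (B (L (nat_lit 495) ln15_15_7 ln15_15_7_ok) (L (nat_lit 427) ln15_12_1 ln15_12_1_ok))) (M (nat_lit 464) (B (L (nat_lit 496) ln15_11_4 ln15_11_4_ok)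 (L (nat_lit 430) ln12_13_0 ln12_13_0_ok)))))))) (B (M (nat_lit 430) (B (L (nat_lit 395) ln15_13_3 ln15_13_3_ok) (M (nat_lit 460) (B (L (nat_lit 492) ln12_15_6 ln12_15_6_ok) (L (nat_lit 459) ln15_13_1 ln15_13_1_ok))))) (M (nat_lit 398) (B (L (nat_lit 395) ln11_12_2 ln11_12_2_ok) (M (nat_lit 399) (B (L (nat_lit 427) ln15_12_1 ln15_12_1_ok) (L (nat_lit 400) ln16_12_1 ln16_12_1_ok)))))))))))))))) c11_n9526)))) (nat_lit 1386334847383188664775530753724819738095985159270897866316958254106341781058293697539184418791777868781227938255127477902146273280) (nat_lit 35039543960606817717768658456304984541572716003943573952752601363978454736230288097197568729417285992749245080598498154514082361566072688785603297438279960883934544956985781734332235095904545144832) (nat_lit 35039543960606817717768658456304984541572716003943573952752601363978454736230288097197568729417285992749245080598498154514082361566072688785603297438279960883934544956985781734332235095904545144832)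 (by decide +kernel)
theorem c11_s9781 : Sem (nat_lit 1386334847383188665076144204319870391265838675659933005821045620366606724508826941895307174006447749544581410048377871890233950208) (nat_lit 319667051914823354277806253788386544174213275175059220183212343711682503008230646741288520074192836127802996497005656276312486879092880792037609177088) (nat_lit 319667051914823354277806253788386544174213275175059220183212343711682503008230646741288520074192836127802996497005656276312486879092880792037609177088) :=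
  sem_of_chk (M (nat_lit 431) (B (M (nat_lit 399) (B (M (nat_lit 334) (B (L (nat_lit 463) ln15_14_7 ln15_14_7_ok) (M (nat_lit 302) (B (L (nat_lit 270) ln14_8_5 ln14_8_5_ok) (L (nat_lit 398) ln14_9_5 ln14_9_5_ok))))) (B (M (nat_lit 334) (B (L (nat_lit 463) ln15_14_7 ln15_14_7_ok) (M (nat_lit 302) (B (L (nat_lit 335) ln15_13_7 ln15_13_7_ok) (L (nat_lit 398) ln14_9_5 ln14_9_5_ok))))) (B (M (nat_lit 398) (B (M (nat_lit 396) (B (L (nat_lit 395) ln11_12_2 ln11_12_2_ok) (L (nat_lit 432) ln12_12_0 ln12_12_0_ok))) (M (nat_lit 400) (B (L (nat_lit 401) ln17_12_3 ln17_12_3_ok) (L (nat_lit 428) ln16_12_1 ln16_12_1_ok))))) (M (nat_lit 334) (B (L (nat_lit 463) ln15_14_7 ln15_14_7_ok) (M (nat_lit 302) (B (L (nat_lit 270) ln14_8_5 ln14_8_5_ok) (L (nat_lit 335) ln15_13_7 ln15_13_7_ok))))))))) (B (M (nat_lit 398) (B (M (nat_lit 396) (B (L (nat_lit 395) ln11_12_2 ln11_12_2_ok) (M (nat_lit 432) (B (L (nat_lit 399) ln12_12_0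 ln12_12_0_ok) (L (nat_lit 430) ln16_13_3 ln16_13_3_ok))))) (B (M (nat_lit 334) (B (L (nat_lit 302) ln14_9_5 ln14_9_5_ok) (M (nat_lit 463) (B (L (nat_lit 399) ln15_14_7 ln15_14_7_ok) (L (nat_lit 430) ln14_10_4 ln14_10_4_ok))))) (B (M (nat_lit 430) (B (M (nat_lit 334) (B (L (nat_lit 302) ln14_9_5 ln14_9_5_ok) (L (nat_lit 463) ln14_10_4 ln14_10_4_ok))) (M (nat_lit 396) (B (L (nat_lit 395) ln11_12_2 ln11_12_2_ok) (L (nat_lit 432) ln16_13_3 ln16_13_3_ok))))) (M (nat_lit 399) (B (M (nat_lit 334) (B (L (nat_lit 302) ln14_9_5 ln14_9_5_ok) (L (nat_lit 463) ln15_14_7 ln15_14_7_ok))) (M (nat_lit 396) (B (L (nat_lit 395) ln11_12_2 ln11_12_2_ok) (L (nat_lit 432) ln12_12_0 ln12_12_0_ok))))))))) (B (M (nat_lit 430) (B (M (nat_lit 396) (B (L (nat_lit 432) ln16_13_3 ln16_13_3_ok) (M (nat_lit 395) (B (L (nat_lit 394) ln10_12_2 ln10_12_2_ok) (L (nat_lit 428) ln15_13_3 ln15_13_3_ok))))) (B (M (nat_lit 396) (B (L (nat_lit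 432) ln16_13_3 ln16_13_3_ok) (M (nat_lit 395) (B (L (nat_lit 398) ln11_12_2 ln11_12_2_ok) (L (nat_lit 428) ln15_13_3 ln15_13_3_ok))))) (B (M (nat_lit 399) (B (M (nat_lit 400) (B (L (nat_lit 428) ln12_13_2 ln12_13_2_ok) (M (nat_lit 401) (B (L (nat_lit 398) ln17_12_3 ln17_12_3_ok) (L (nat_lit 402) ln18_12_3 ln18_12_3_ok))))) (B (M (nat_lit 400) (B (L (nat_lit 428) ln12_13_2 ln12_13_2_ok) (M (nat_lit 401) (B (L (nat_lit 402) ln18_12_3 ln18_12_3_ok) (L (nat_lit 432) ln13_13_2 ln13_13_2_ok))))) (M (nat_lit 432) (B (L (nat_lit 396) ln16_13_3 ln16_13_3_ok) (M (nat_lit 464) (B (L (nat_lit 335) ln15_10_4 ln15_10_4_ok) (L (nat_lit 465) ln13_13_0 ln13_13_0_ok)))))))) (B (M (nat_lit 399) (B (M (nat_lit 400) (B (L (nat_lit 428) ln12_13_2 ln12_13_2_ok) (M (nat_lit 401) (B (L (nat_lit 398) ln17_12_3 ln17_12_3_ok) (L (nat_lit 402) ln18_12_3 ln18_12_3_ok))))) (B (M (nat_lit 400) (B (L (nat_lit 428) ln12_13_2 ln12_13_2_ok)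 (M (nat_lit 401) (B (L (nat_lit 402) ln18_12_3 ln18_12_3_ok) (L (nat_lit 432) ln13_13_2 ln13_13_2_ok))))) (B (M (nat_lit 463) (B (L (nat_lit 334) ln15_14_7 ln15_14_7_ok) (M (nat_lit 464) (B (L (nat_lit 496) ln15_11_4 ln15_11_4_ok) (L (nat_lit 428) ln12_13_0 ln12_13_0_ok))))) (M (nat_lit 464) (B (M (nat_lit 463) (B (L (nat_lit 334) ln15_14_7 ln15_14_7_ok) (L (nat_lit 496) ln15_11_4 ln15_11_4_ok))) (M (nat_lit 432) (B (L (nat_lit 335) ln15_10_4 ln15_10_4_ok) (L (nat_lit 465) ln13_13_0 ln13_13_0_ok))))))))) (B (M (nat_lit 396) (B (L (nat_lit 432) ln16_13_3 ln16_13_3_ok) (M (nat_lit 395) (B (L (nat_lit 394) ln10_12_2 ln10_12_2_ok) (L (nat_lit 398) ln11_12_2 ln11_12_2_ok))))) (M (nat_lit 428) (B (M (nat_lit 396) (B (L (nat_lit 395) ln15_13_3 ln15_13_3_ok) (M (nat_lit 460) (B (L (nat_lit 492) ln12_15_6 ln12_15_6_ok) (L (nat_lit 459) ln15_13_1 ln15_13_1_ok))))) (M (nat_lit 399) (B (L (nat_lit 400) ln12_13_2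 ln12_13_2_ok) (M (nat_lit 463) (B (L (nat_lit 334) ln15_14_7 ln15_14_7_ok) (L (nat_lit 464) ln12_13_0 ln12_13_0_ok))))))))))))) (B (M (nat_lit 430) (B (M (nat_lit 396) (B (L (nat_lit 432) ln16_13_3 ln16_13_3_ok) (M (nat_lit 395) (B (L (nat_lit 394) ln10_12_2 ln10_12_2_ok) (L (nat_lit 428) ln15_13_3 ln15_13_3_ok))))) (B (M (nat_lit 396) (B (L (nat_lit 432) ln16_13_3 ln16_13_3_ok) (M (nat_lit 395) (B (L (nat_lit 398) ln11_12_2 ln11_12_2_ok) (L (nat_lit 428) ln15_13_3 ln15_13_3_ok))))) (B (M (nat_lit 432) (B (L (nat_lit 396) ln16_13_3 ln16_13_3_ok) (M (nat_lit 433) (B (L (nat_lit 398) ln17_13_3 ln17_13_3_ok) (M (nat_lit 401) (B (L (nat_lit 400) ln13_13_2 ln13_13_2_ok) (L (nat_lit 402) ln14_13_2 ln14_13_2_ok))))))) (B (M (nat_lit 432) (B (M (nat_lit 433) (B (L (nat_lit 398) ln17_13_3 ln17_13_3_ok) (M (nat_lit 401) (B (L (nat_lit 400) ln13_13_2 ln13_13_2_ok) (L (nat_lit 402) ln14_13_2 ln14_13_2_ok)))))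 (B (M (nat_lit 428) (B (M (nat_lit 400) (B (L (nat_lit 399) ln12_13_2 ln12_13_2_ok) (L (nat_lit 401) ln13_13_2 ln13_13_2_ok))) (M (nat_lit 464) (B (L (nat_lit 463) ln12_13_0 ln12_13_0_ok) (L (nat_lit 465) ln13_13_0 ln13_13_0_ok))))) (M (nat_lit 433) (B (L (nat_lit 398) ln17_13_3 ln17_13_3_ok) (M (nat_lit 465) (B (L (nat_lit 464) ln13_13_0 ln13_13_0_ok) (L (nat_lit 466) ln14_13_0 ln14_13_0_ok)))))))) (M (nat_lit 428) (B (M (nat_lit 396) (B (L (nat_lit 395) ln15_13_3 ln15_13_3_ok) (M (nat_lit 460) (B (L (nat_lit 492) ln12_15_6 ln12_15_6_ok) (L (nat_lit 459) ln15_13_1 ln15_13_1_ok))))) (B (M (nat_lit 427) (B (M (nat_lit 398) (B (L (nat_lit 426) ln10_13_2 ln10_13_2_ok) (L (nat_lit 399) ln11_13_2 ln11_13_2_ok))) (M (nat_lit 459) (B (L (nat_lit 458) ln14_13_1 ln14_13_1_ok) (L (nat_lit 460) ln15_13_1 ln15_13_1_ok))))) (M (nat_lit 427) (B (M (nat_lit 395) (B (L (nat_lit 394) ln14_13_3 ln14_13_3_ok) (L (nat_lit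 396) ln15_13_3 ln15_13_3_ok))) (M (nat_lit 398) (B (L (nat_lit 426) ln10_13_2 ln10_13_2_ok) (L (nat_lit 399) ln11_13_2 ln11_13_2_ok))))))))))))) (B (M (nat_lit 430) (B (M (nat_lit 432) (B (L (nat_lit 396) ln16_13_3 ln16_13_3_ok) (M (nat_lit 433) (B (L (nat_lit 398) ln17_13_3 ln17_13_3_ok) (M (nat_lit 465) (B (L (nat_lit 464) ln13_13_0 ln13_13_0_ok) (L (nat_lit 466) ln14_13_0 ln14_13_0_ok))))))) (B (M (nat_lit 399) (B (M (nat_lit 400) (B (L (nat_lit 428) ln12_13_2 ln12_13_2_ok) (M (nat_lit 401) (B (L (nat_lit 402) ln18_12_3 ln18_12_3_ok) (L (nat_lit 432) ln13_13_2 ln13_13_2_ok))))) (M (nat_lit 334) (B (L (nat_lit 463) ln15_14_7 ln15_14_7_ok) (M (nat_lit 302) (B (L (nat_lit 270) ln14_8_5 ln14_8_5_ok) (L (nat_lit 335) ln15_13_7 ln15_13_7_ok))))))) (M (nat_lit 399) (B (M (nat_lit 334) (B (L (nat_lit 463) ln15_14_7 ln15_14_7_ok) (M (nat_lit 302) (B (L (nat_lit 270) ln14_8_5 ln14_8_5_ok) (L (nat_lit 335)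 ln15_13_7 ln15_13_7_ok))))) (M (nat_lit 400) (B (L (nat_lit 428) ln12_13_2 ln12_13_2_ok) (M (nat_lit 401) (B (L (nat_lit 398) ln17_12_3 ln17_12_3_ok) (L (nat_lit 402) ln18_12_3 ln18_12_3_ok)))))))))) (B (M (nat_lit 399) (B (M (nat_lit 334) (B (L (nat_lit 463) ln15_14_7 ln15_14_7_ok) (M (nat_lit 302) (B (L (nat_lit 270) ln14_8_5 ln14_8_5_ok) (L (nat_lit 398) ln14_9_5 ln14_9_5_ok))))) (B (M (nat_lit 334) (B (L (nat_lit 463) ln15_14_7 ln15_14_7_ok) (M (nat_lit 302) (B (L (nat_lit 335) ln15_13_7 ln15_13_7_ok) (L (nat_lit 398) ln14_9_5 ln14_9_5_ok))))) (B (M (nat_lit 400) (B (M (nat_lit 401) (B (L (nat_lit 398) ln17_12_3 ln17_12_3_ok) (L (nat_lit 402) ln18_12_3 ln18_12_3_ok))) (B (M (nat_lit 401) (B (L (nat_lit 402) ln18_12_3 ln18_12_3_ok) (M (nat_lit 430) (B (L (nat_lit 428) ln12_13_2 ln12_13_2_ok) (L (nat_lit 432) ln13_13_2 ln13_13_2_ok))))) (M (nat_lit 428) (B (L (nat_lit 398) ln16_12_1 ln16_12_1_ok)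 (L (nat_lit 430) ln12_13_2 ln12_13_2_ok)))))) (M (nat_lit 334) (B (L (nat_lit 463) ln15_14_7 ln15_14_7_ok) (M (nat_lit 302) (B (L (nat_lit 270) ln14_8_5 ln14_8_5_ok) (L (nat_lit 335) ln15_13_7 ln15_13_7_ok))))))))) (B (M (nat_lit 430) (B (M (nat_lit 396) (B (L (nat_lit 432) ln16_13_3 ln16_13_3_ok) (M (nat_lit 395) (B (L (nat_lit 394) ln10_12_2 ln10_12_2_ok) (L (nat_lit 428) ln15_13_3 ln15_13_3_ok))))) (B (M (nat_lit 396) (B (L (nat_lit 432) ln16_13_3 ln16_13_3_ok) (M (nat_lit 428) (B (L (nat_lit 395) ln15_13_3 ln15_13_3_ok) (M (nat_lit 460) (B (L (nat_lit 492) ln12_15_6 ln12_15_6_ok) (L (nat_lit 459) ln15_13_1 ln15_13_1_ok))))))) (B (M (nat_lit 432) (B (L (nat_lit 396) ln16_13_3 ln16_13_3_ok) (M (nat_lit 433) (B (M (nat_lit 401) (B (L (nat_lit 400) ln13_13_2 ln13_13_2_ok) (L (nat_lit 402) ln14_13_2 ln14_13_2_ok))) (M (nat_lit 465) (B (L (nat_lit 464) ln13_13_0 ln13_13_0_ok) (L (nat_lit 466) ln14_13_0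 ln14_13_0_ok))))))) (B (M (nat_lit 399) (B (M (nat_lit 400) (B (L (nat_lit 428) ln12_13_2 ln12_13_2_ok) (M (nat_lit 401) (B (L (nat_lit 402) ln18_12_3 ln18_12_3_ok) (L (nat_lit 432) ln13_13_2 ln13_13_2_ok))))) (M (nat_lit 334) (B (L (nat_lit 463) ln15_14_7 ln15_14_7_ok) (M (nat_lit 302) (B (L (nat_lit 270) ln14_8_5 ln14_8_5_ok) (L (nat_lit 335) ln15_13_7 ln15_13_7_ok))))))) (M (nat_lit 428) (B (M (nat_lit 396) (B (L (nat_lit 395) ln15_13_3 ln15_13_3_ok) (M (nat_lit 460) (B (L (nat_lit 492) ln12_15_6 ln12_15_6_ok) (L (nat_lit 459) ln15_13_1 ln15_13_1_ok))))) (M (nat_lit 399) (B (L (nat_lit 400) ln12_13_2 ln12_13_2_ok) (M (nat_lit 463) (B (L (nat_lit 334) ln15_14_7 ln15_14_7_ok) (L (nat_lit 464) ln12_13_0 ln12_13_0_ok)))))))))))) (B (M (nat_lit 430) (B (M (nat_lit 396) (B (L (nat_lit 432) ln16_13_3 ln16_13_3_ok) (M (nat_lit 395) (B (L (nat_lit 394) ln10_12_2 ln10_12_2_ok) (L (nat_lit 428) ln15_13_3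 ln15_13_3_ok))))) (B (M (nat_lit 396) (B (L (nat_lit 432) ln16_13_3 ln16_13_3_ok) (M (nat_lit 395) (B (L (nat_lit 398) ln11_12_2 ln11_12_2_ok) (L (nat_lit 428) ln15_13_3 ln15_13_3_ok))))) (B (M (nat_lit 398) (B (M (nat_lit 334) (B (L (nat_lit 302) ln14_9_5 ln14_9_5_ok) (L (nat_lit 463) ln14_10_4 ln14_10_4_ok))) (M (nat_lit 432) (B (L (nat_lit 396) ln16_13_3 ln16_13_3_ok) (L (nat_lit 433) ln17_13_3 ln17_13_3_ok))))) (B (M (nat_lit 432) (B (M (nat_lit 433) (B (L (nat_lit 398) ln17_13_3 ln17_13_3_ok) (M (nat_lit 401) (B (L (nat_lit 400) ln13_13_2 ln13_13_2_ok) (L (nat_lit 402) ln14_13_2 ln14_13_2_ok))))) (B (M (nat_lit 433) (B (M (nat_lit 401) (B (L (nat_lit 400) ln13_13_2 ln13_13_2_ok) (L (nat_lit 402) ln14_13_2 ln14_13_2_ok))) (M (nat_lit 465) (B (L (nat_lit 464) ln13_13_0 ln13_13_0_ok) (L (nat_lit 466) ln14_13_0 ln14_13_0_ok))))) (B (M (nat_lit 433) (B (L (nat_lit 398) ln17_13_3 ln17_13_3_ok) (M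 (nat_lit 465) (B (L (nat_lit 464) ln13_13_0 ln13_13_0_ok) (L (nat_lit 466) ln14_13_0 ln14_13_0_ok))))) (M (nat_lit 428) (B (M (nat_lit 464) (B (L (nat_lit 463) ln12_13_0 ln12_13_0_ok) (L (nat_lit 465) ln13_13_0 ln13_13_0_ok))) (M (nat_lit 427) (B (M (nat_lit 459) (B (L (nat_lit 458) ln14_13_1 ln14_13_1_ok) (L (nat_lit 460) ln15_13_1 ln15_13_1_ok))) (M (nat_lit 394) (B (L (nat_lit 395) ln14_13_3 ln14_13_3_ok) (M (nat_lit 426) (B (L (nat_lit 393) ln13_13_3 ln13_13_3_ok) (L (nat_lit 398) ln10_13_2 ln10_13_2_ok))))))))))))) (M (nat_lit 428) (B (M (nat_lit 396) (B (L (nat_lit 395) ln15_13_3 ln15_13_3_ok) (M (nat_lit 460) (B (L (nat_lit 492) ln12_15_6 ln12_15_6_ok) (L (nat_lit 459) ln15_13_1 ln15_13_1_ok))))) (B (M (nat_lit 459) (B (L (nat_lit 460) ln15_13_1 ln15_13_1_ok) (M (nat_lit 398) (B (M (nat_lit 463) (B (L (nat_lit 334) ln14_10_4 ln14_10_4_ok) (L (nat_lit 464) ln12_13_0 ln12_13_0_ok))) (M (nat_lit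 427) (B (L (nat_lit 426) ln10_13_2 ln10_13_2_ok) (L (nat_lit 458) ln14_13_1 ln14_13_1_ok))))))) (M (nat_lit 395) (B (L (nat_lit 396) ln15_13_3 ln15_13_3_ok) (M (nat_lit 398) (B (M (nat_lit 463) (B (L (nat_lit 334) ln14_10_4 ln14_10_4_ok) (L (nat_lit 464) ln12_13_0 ln12_13_0_ok))) (M (nat_lit 427) (B (L (nat_lit 394) ln14_13_3 ln14_13_3_ok) (L (nat_lit 426) ln10_13_2 ln10_13_2_ok))))))))))))))) (B (M (nat_lit 399) (B (M (nat_lit 334) (B (L (nat_lit 463) ln15_14_7 ln15_14_7_ok) (M (nat_lit 302) (B (L (nat_lit 270) ln14_8_5 ln14_8_5_ok) (L (nat_lit 398) ln14_9_5 ln14_9_5_ok))))) (B (M (nat_lit 334) (B (L (nat_lit 463) ln15_14_7 ln15_14_7_ok) (M (nat_lit 302) (B (L (nat_lit 335) ln15_13_7 ln15_13_7_ok) (L (nat_lit 398) ln14_9_5 ln14_9_5_ok))))) (B (M (nat_lit 398) (B (M (nat_lit 463) (B (L (nat_lit 334) ln15_14_7 ln15_14_7_ok) (L (nat_lit 495) ln15_15_7 ln15_15_7_ok))) (M (nat_lit 400) (B (L (nat_lit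 401) ln17_12_3 ln17_12_3_ok) (L (nat_lit 428) ln16_12_1 ln16_12_1_ok))))) (B (M (nat_lit 428) (B (M (nat_lit 400) (B (L (nat_lit 398) ln16_12_1 ln16_12_1_ok) (L (nat_lit 430) ln12_13_2 ln12_13_2_ok))) (B (M (nat_lit 430) (B (L (nat_lit 400) ln12_13_2 ln12_13_2_ok) (M (nat_lit 396) (B (L (nat_lit 395) ln15_13_3 ln15_13_3_ok) (M (nat_lit 460) (B (L (nat_lit 492) ln12_15_6 ln12_15_6_ok) (L (nat_lit 459) ln15_13_1 ln15_13_1_ok))))))) (B (M (nat_lit 398) (B (M (nat_lit 396) (B (L (nat_lit 395) ln11_12_2 ln11_12_2_ok) (L (nat_lit 427) ln15_12_1 ln15_12_1_ok))) (B (M (nat_lit 427) (B (L (nat_lit 396) ln15_12_1 ln15_12_1_ok) (L (nat_lit 426) ln10_13_2 ln10_13_2_ok))) (B (M (nat_lit 427) (B (L (nat_lit 426) ln10_13_2 ln10_13_2_ok) (L (nat_lit 430) ln11_13_2 ln11_13_2_ok))) (M (nat_lit 463) (B (L (nat_lit 495) ln15_15_7 ln15_15_7_ok) (M (nat_lit 464) (B (L (nat_lit 496) ln15_11_4 ln15_11_4_ok) (L (nat_lit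 430) ln12_13_0 ln12_13_0_ok))))))))) (M (nat_lit 398) (B (L (nat_lit 400) ln16_12_1 ln16_12_1_ok) (M (nat_lit 396) (B (L (nat_lit 395) ln11_12_2 ln11_12_2_ok) (L (nat_lit 427) ln15_12_1 ln15_12_1_ok))))))))) (B (M (nat_lit 334) (B (L (nat_lit 463) ln15_14_7 ln15_14_7_ok) (M (nat_lit 302) (B (L (nat_lit 270) ln14_8_5 ln14_8_5_ok) (L (nat_lit 335) ln15_13_7 ln15_13_7_ok))))) (M (nat_lit 398) (B (M (nat_lit 400) (B (L (nat_lit 401) ln17_12_3 ln17_12_3_ok) (L (nat_lit 428) ln16_12_1 ln16_12_1_ok))) (M (nat_lit 335) (B (M (nat_lit 302) (B (L (nat_lit 334) ln15_13_7 ln15_13_7_ok) (M (nat_lit 303) (B (L (nat_lit 270) ln15_12_7 ln15_12_7_ok) (L (nat_lit 430) ln15_9_5 ln15_9_5_ok))))) (B (M (nat_lit 334) (B (L (nat_lit 302) ln15_13_7 ln15_13_7_ok) (M (nat_lit 336) (B (L (nat_lit 304) ln15_13_6 ln15_13_6_ok) (L (nat_lit 337) ln17_10_1 ln17_10_1_ok))))) (M (nat_lit 303) (B (L (nat_lit 430) ln15_9_5 ln15_9_5_ok)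 (M (nat_lit 304) (B (L (nat_lit 272) ln15_12_6 ln15_12_6_ok) (L (nat_lit 336) ln15_13_6 ln15_13_6_ok)))))))))))))))) (M (nat_lit 430) (B (M (nat_lit 396) (B (L (nat_lit 432) ln16_13_3 ln16_13_3_ok) (M (nat_lit 395) (B (L (nat_lit 394) ln10_12_2 ln10_12_2_ok) (L (nat_lit 428) ln15_13_3 ln15_13_3_ok))))) (B (M (nat_lit 396) (B (L (nat_lit 432) ln16_13_3 ln16_13_3_ok) (M (nat_lit 395) (B (L (nat_lit 398) ln11_12_2 ln11_12_2_ok) (L (nat_lit 428) ln15_13_3 ln15_13_3_ok))))) (B (M (nat_lit 432) (B (L (nat_lit 396) ln16_13_3 ln16_13_3_ok) (M (nat_lit 433) (B (L (nat_lit 398) ln17_13_3 ln17_13_3_ok) (M (nat_lit 401) (B (L (nat_lit 400) ln13_13_2 ln13_13_2_ok) (L (nat_lit 402) ln14_13_2 ln14_13_2_ok))))))) (B (M (nat_lit 432) (B (M (nat_lit 433) (B (L (nat_lit 398) ln17_13_3 ln17_13_3_ok) (M (nat_lit 401) (B (L (nat_lit 400) ln13_13_2 ln13_13_2_ok) (L (nat_lit 402) ln14_13_2 ln14_13_2_ok))))) (B (M (nat_lit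 433) (B (M (nat_lit 401) (B (L (nat_lit 400) ln13_13_2 ln13_13_2_ok) (L (nat_lit 402) ln14_13_2 ln14_13_2_ok))) (M (nat_lit 465) (B (L (nat_lit 464) ln13_13_0 ln13_13_0_ok) (L (nat_lit 466) ln14_13_0 ln14_13_0_ok))))) (B (M (nat_lit 433) (B (L (nat_lit 398) ln17_13_3 ln17_13_3_ok) (M (nat_lit 465) (B (L (nat_lit 464) ln13_13_0 ln13_13_0_ok) (L (nat_lit 466) ln14_13_0 ln14_13_0_ok))))) (M (nat_lit 399) (B (M (nat_lit 464) (B (L (nat_lit 335) ln15_10_4 ln15_10_4_ok) (L (nat_lit 465) ln13_13_0 ln13_13_0_ok))) (M (nat_lit 400) (B (L (nat_lit 428) ln12_13_2 ln12_13_2_ok) (L (nat_lit 401) ln13_13_2 ln13_13_2_ok))))))))) (M (nat_lit 428) (B (M (nat_lit 396) (B (L (nat_lit 395) ln15_13_3 ln15_13_3_ok) (M (nat_lit 460) (B (L (nat_lit 492) ln12_15_6 ln12_15_6_ok) (L (nat_lit 459) ln15_13_1 ln15_13_1_ok))))) (B (M (nat_lit 427) (B (M (nat_lit 398) (B (L (nat_lit 426) ln10_13_2 ln10_13_2_ok) (L (nat_lit 399)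 ln11_13_2 ln11_13_2_ok))) (M (nat_lit 459) (B (L (nat_lit 458) ln14_13_1 ln14_13_1_ok) (L (nat_lit 460) ln15_13_1 ln15_13_1_ok))))) (M (nat_lit 427) (B (M (nat_lit 395) (B (L (nat_lit 394) ln14_13_3 ln14_13_3_ok) (L (nat_lit 396) ln15_13_3 ln15_13_3_ok))) (M (nat_lit 398) (B (L (nat_lit 426) ln10_13_2 ln10_13_2_ok) (L (nat_lit 399) ln11_13_2 ln11_13_2_ok))))))))))))))))))))))) (nat_lit 1386334847383188665076144204319870391265838675659933005821045620366606724508826941895307174006447749544581410048377871890233950208) (nat_lit 319667051914823354277806253788386544174213275175059220183212343711682503008230646741288520074192836127802996497005656276312486879092880792037609177088) (nat_lit 319667051914823354277806253788386544174213275175059220183212343711682503008230646741288520074192836127802996497005656276312486879092880792037609177088) (by decide +kernel)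
noncomputable def c11_n9970 : Cert := (M (nat_lit 363) (B (M (nat_lit 459) (B (M (nat_lit 362) (B (L (nat_lit 330) ln11_14_7 ln11_14_7_ok) (L (nat_lit 396) ln14_12_3 ln14_12_3_ok))) (M (nat_lit 458) (B (L (nat_lit 490) ln11_11_5 ln11_11_5_ok) (L (nat_lit 430) ln14_13_1 ln14_13_1_ok))))) (B (M (nat_lit 333) (B (M (nat_lit 396) (B (L (nat_lit 301) ln13_9_5 ln13_9_5_ok) (L (nat_lit 362) ln14_12_3 ln14_12_3_ok))) (B (M (nat_lit 332) (B (L (nat_lit 300) ln13_13_7 ln13_13_7_ok) (M (nat_lit 362) (B (L (nat_lit 396) ln14_12_3 ln14_12_3_ok) (M (nat_lit 334) (B (L (nat_lit 302) ln13_13_6 ln13_13_6_ok) (L (nat_lit 331) ln14_10_1 ln14_10_1_ok))))))) (B (M (nat_lit 301) (B (L (nat_lit 396) ln13_9_5 ln13_9_5_ok) (L (nat_lit 430) ln13_9_4 ln13_9_4_ok))) (M (nat_lit 300) (B (L (nat_lit 332) ln13_13_7 ln13_13_7_ok) (M (nat_lit 301) (B (L (nat_lit 268) ln13_12_7 ln13_12_7_ok) (L (nat_lit 430) ln13_9_4 ln13_9_4_ok)))))))))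 (B (M (nat_lit 300) (B (M (nat_lit 332) (B (L (nat_lit 331) ln11_13_6 ln11_13_6_ok) (L (nat_lit 333) ln13_13_7 ln13_13_7_ok))) (B (M (nat_lit 333) (B (L (nat_lit 332) ln13_13_7 ln13_13_7_ok) (M (nat_lit 301) (B (L (nat_lit 268) ln13_12_7 ln13_12_7_ok) (L (nat_lit 396) ln13_9_5 ln13_9_5_ok))))) (B (M (nat_lit 299) (B (M (nat_lit 331) (B (L (nat_lit 268) ln11_12_6 ln11_12_6_ok) (L (nat_lit 396) ln11_9_4 ln11_9_4_ok))) (B (M (nat_lit 331) (B (L (nat_lit 396) ln11_9_4 ln11_9_4_ok) (M (nat_lit 298) (B (L (nat_lit 266) ln11_12_7 ln11_12_7_ok) (L (nat_lit 330) ln11_13_7 ln11_13_7_ok))))) (B (M (nat_lit 301) (B (M (nat_lit 333) (B (L (nat_lit 268) ln13_12_7 ln13_12_7_ok) (L (nat_lit 396) ln13_9_5 ln13_9_5_ok))) (B (M (nat_lit 333) (B (L (nat_lit 396) ln13_9_5 ln13_9_5_ok) (L (nat_lit 430) ln13_9_4 ln13_9_4_ok))) (M (nat_lit 298) (B (M (nat_lit 297) (B (M (nat_lit 265) (B (L (nat_lit 264) ln12_9_3 ln12_9_3_ok)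 (L (nat_lit 266) ln13_9_3 ln13_9_3_ok))) (M (nat_lit 329) (B (L (nat_lit 328) ln12_9_1 ln12_9_1_ok) (L (nat_lit 330) ln13_9_1 ln13_9_1_ok))))) (B (M (nat_lit 297) (B (M (nat_lit 269) (B (L (nat_lit 268) ln9_9_2 ln9_9_2_ok) (L (nat_lit 270) ln10_9_2 ln10_9_2_ok))) (M (nat_lit 329) (B (L (nat_lit 328) ln12_9_1 ln12_9_1_ok) (L (nat_lit 330) ln13_9_1 ln13_9_1_ok))))) (M (nat_lit 302) (B (M (nat_lit 266) (B (L (nat_lit 265) ln13_9_3 ln13_9_3_ok) (L (nat_lit 267) ln14_9_3 ln14_9_3_ok))) (M (nat_lit 270) (B (L (nat_lit 269) ln10_9_2 ln10_9_2_ok) (L (nat_lit 271) ln11_9_2 ln11_9_2_ok))))))))))) (M (nat_lit 331) (B (L (nat_lit 268) ln11_12_6 ln11_12_6_ok) (M (nat_lit 298) (B (L (nat_lit 266) ln11_12_7 ln11_12_7_ok) (L (nat_lit 330) ln11_13_7 ln11_13_7_ok))))))))) (M (nat_lit 331) (B (L (nat_lit 332) ln11_13_6 ln11_13_6_ok) (M (nat_lit 299) (B (L (nat_lit 268) ln11_12_6 ln11_12_6_ok) (L (nat_lit 396) ln11_9_4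 ln11_9_4_ok))))))))) (B (M (nat_lit 333) (B (M (nat_lit 300) (B (L (nat_lit 332) ln13_13_7 ln13_13_7_ok) (M (nat_lit 301) (B (L (nat_lit 268) ln13_12_7 ln13_12_7_ok) (L (nat_lit 430) ln13_9_4 ln13_9_4_ok))))) (B (M (nat_lit 301) (B (L (nat_lit 430) ln13_9_4 ln13_9_4_ok) (M (nat_lit 302) (B (L (nat_lit 270) ln13_12_6 ln13_12_6_ok) (L (nat_lit 334) ln13_13_6 ln13_13_6_ok))))) (B (M (nat_lit 331) (B (M (nat_lit 332) (B (L (nat_lit 300) ln11_13_6 ln11_13_6_ok) (M (nat_lit 334) (B (L (nat_lit 302) ln13_13_6 ln13_13_6_ok) (L (nat_lit 362) ln14_10_1 ln14_10_1_ok))))) (B (M (nat_lit 459) (B (M (nat_lit 330) (B (L (nat_lit 298) ln11_13_7 ln11_13_7_ok) (L (nat_lit 362) ln11_14_7 ln11_14_7_ok))) (M (nat_lit 458) (B (L (nat_lit 490) ln11_11_5 ln11_11_5_ok) (L (nat_lit 430) ln14_13_1 ln14_13_1_ok))))) (M (nat_lit 299) (B (M (nat_lit 298) (B (L (nat_lit 266) ln11_12_7 ln11_12_7_ok) (L (nat_lit 330) ln11_13_7 ln11_13_7_ok)))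 (M (nat_lit 300) (B (L (nat_lit 268) ln11_12_6 ln11_12_6_ok) (L (nat_lit 332) ln11_13_6 ln11_13_6_ok)))))))) (M (nat_lit 301) (B (M (nat_lit 300) (B (L (nat_lit 268) ln13_12_7 ln13_12_7_ok) (L (nat_lit 332) ln13_13_7 ln13_13_7_ok))) (M (nat_lit 302) (B (L (nat_lit 270) ln13_12_6 ln13_12_6_ok) (L (nat_lit 334) ln13_13_6 ln13_13_6_ok))))))))) (M (nat_lit 362) (B (L (nat_lit 396) ln14_12_3 ln14_12_3_ok) (M (nat_lit 330) (B (L (nat_lit 459) ln11_14_7 ln11_14_7_ok) (M (nat_lit 298) (B (L (nat_lit 266) ln10_8_4 ln10_8_4_ok) (L (nat_lit 331) ln11_13_7 ln11_13_7_ok))))))))))))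
noncomputable def c11_n10117 : Cert := (M (nat_lit 300) (B (M (nat_lit 332) (B (L (nat_lit 331) ln11_13_6 ln11_13_6_ok) (L (nat_lit 333) ln13_13_7 ln13_13_7_ok))) (B (M (nat_lit 333) (B (L (nat_lit 332) ln13_13_7 ln13_13_7_ok) (M (nat_lit 301) (B (L (nat_lit 268) ln13_12_7 ln13_12_7_ok) (M (nat_lit 302) (B (L (nat_lit 270) ln13_12_6 ln13_12_6_ok) (L (nat_lit 334) ln13_13_6 ln13_13_6_ok))))))) (B (M (nat_lit 298) (B (M (nat_lit 330) (B (L (nat_lit 331) ln11_13_7 ln11_13_7_ok) (M (nat_lit 362) (B (L (nat_lit 266) ln10_8_4 ln10_8_4_ok) (L (nat_lit 394) ln10_9_4 ln10_9_4_ok))))) (B (M (nat_lit 330) (B (L (nat_lit 331) ln11_13_7 ln11_13_7_ok) (M (nat_lit 362) (B (L (nat_lit 394) ln10_9_4 ln10_9_4_ok) (L (nat_lit 459) ln11_14_7 ln11_14_7_ok))))) (B (M (nat_lit 299) (B (M (nat_lit 331) (B (L (nat_lit 266) ln11_12_7 ln11_12_7_ok) (L (nat_lit 268) ln11_12_6 ln11_12_6_ok))) (B (M (nat_lit 268) (B (L (nat_lit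 331) ln11_12_6 ln11_12_6_ok) (M (nat_lit 269) (B (L (nat_lit 297) ln9_9_2 ln9_9_2_ok) (M (nat_lit 270) (B (L (nat_lit 271) ln15_8_1 ln15_8_1_ok) (L (nat_lit 301) ln10_9_2 ln10_9_2_ok))))))) (B (M (nat_lit 301) (B (M (nat_lit 266) (B (L (nat_lit 265) ln13_9_3 ln13_9_3_ok) (L (nat_lit 331) ln11_12_7 ln11_12_7_ok))) (M (nat_lit 270) (B (L (nat_lit 269) ln10_9_2 ln10_9_2_ok) (M (nat_lit 302) (B (L (nat_lit 271) ln11_9_2 ln11_9_2_ok) (L (nat_lit 333) ln13_12_6 ln13_12_6_ok))))))) (M (nat_lit 301) (B (M (nat_lit 333) (B (L (nat_lit 268) ln13_12_7 ln13_12_7_ok) (L (nat_lit 334) ln10_9_0 ln10_9_0_ok))) (B (M (nat_lit 270) (B (L (nat_lit 269) ln10_9_2 ln10_9_2_ok) (M (nat_lit 302) (B (L (nat_lit 271) ln11_9_2 ln11_9_2_ok) (L (nat_lit 333) ln13_12_6 ln13_12_6_ok))))) (M (nat_lit 297) (B (M (nat_lit 265) (B (L (nat_lit 264) ln12_9_3 ln12_9_3_ok) (L (nat_lit 266) ln13_9_3 ln13_9_3_ok))) (M (nat_lit 269) (B (L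 (nat_lit 268) ln9_9_2 ln9_9_2_ok) (L (nat_lit 270) ln10_9_2 ln10_9_2_ok)))))))))))) (M (nat_lit 301) (B (M (nat_lit 333) (B (L (nat_lit 268) ln13_12_7 ln13_12_7_ok) (M (nat_lit 302) (B (L (nat_lit 270) ln13_12_6 ln13_12_6_ok) (L (nat_lit 334) ln13_13_6 ln13_13_6_ok))))) (B (M (nat_lit 299) (B (M (nat_lit 266) (B (L (nat_lit 265) ln13_9_3 ln13_9_3_ok) (M (nat_lit 330) (B (L (nat_lit 362) ln10_8_4 ln10_8_4_ok) (L (nat_lit 329) ln13_9_1 ln13_9_1_ok))))) (M (nat_lit 333) (B (L (nat_lit 334) ln10_9_0 ln10_9_0_ok) (M (nat_lit 270) (B (L (nat_lit 269) ln10_9_2 ln10_9_2_ok) (L (nat_lit 302) ln13_12_6 ln13_12_6_ok))))))) (B (M (nat_lit 333) (B (L (nat_lit 268) ln13_12_7 ln13_12_7_ok) (M (nat_lit 334) (B (L (nat_lit 299) ln10_9_0 ln10_9_0_ok) (L (nat_lit 302) ln13_13_6 ln13_13_6_ok))))) (B (M (nat_lit 299) (B (M (nat_lit 333) (B (L (nat_lit 268) ln13_12_7 ln13_12_7_ok) (L (nat_lit 334) ln10_9_0 ln10_9_0_ok)))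 (M (nat_lit 266) (B (L (nat_lit 265) ln13_9_3 ln13_9_3_ok) (M (nat_lit 330) (B (L (nat_lit 362) ln10_8_4 ln10_8_4_ok) (L (nat_lit 329) ln13_9_1 ln13_9_1_ok))))))) (M (nat_lit 299) (B (M (nat_lit 266) (B (L (nat_lit 265) ln13_9_3 ln13_9_3_ok) (M (nat_lit 330) (B (L (nat_lit 362) ln10_8_4 ln10_8_4_ok) (L (nat_lit 329) ln13_9_1 ln13_9_1_ok))))) (B (M (nat_lit 297) (B (M (nat_lit 269) (B (L (nat_lit 268) ln9_9_2 ln9_9_2_ok) (L (nat_lit 270) ln10_9_2 ln10_9_2_ok))) (M (nat_lit 329) (B (L (nat_lit 328) ln12_9_1 ln12_9_1_ok) (L (nat_lit 330) ln13_9_1 ln13_9_1_ok))))) (M (nat_lit 297) (B (M (nat_lit 265) (B (L (nat_lit 264) ln12_9_3 ln12_9_3_ok) (L (nat_lit 266) ln13_9_3 ln13_9_3_ok))) (M (nat_lit 269) (B (L (nat_lit 268) ln9_9_2 ln9_9_2_ok) (L (nat_lit 270) ln10_9_2 ln10_9_2_ok))))))))))))))))) (M (nat_lit 331) (B (L (nat_lit 332) ln11_13_6 ln11_13_6_ok) (M (nat_lit 299) (B (L (nat_lit 268) ln11_12_6 ln11_12_6_ok)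 (M (nat_lit 298) (B (L (nat_lit 266) ln11_12_7 ln11_12_7_ok) (L (nat_lit 330) ln11_13_7 ln11_13_7_ok)))))))))))
theorem c11_s10118 : Sem (nat_lit 2426085983404752015179072388321678067425569393997541266487063526690315243787193827693350029463083025796111671560376387461302976512) (nat_lit 13729595329851230978767378294003157492432738501131976487219704448417168984712692218401414926327080676052431408188382877839932562239016052967306514027583111168) (nat_lit 13729595329851230978767378294003157492432738501131976487219704448417168984712692218401414926327080676052431408188382877839932562239016052967306514027583111168) :=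
  sem_of_chk (M (nat_lit 363) (B (M (nat_lit 362) (B (L (nat_lit 396) ln14_12_3 ln14_12_3_ok) (M (nat_lit 330) (B (L (nat_lit 459) ln11_14_7 ln11_14_7_ok) (M (nat_lit 298) (B (L (nat_lit 266) ln10_8_4 ln10_8_4_ok) (L (nat_lit 394) ln10_9_4 ln10_9_4_ok))))))) (B (M (nat_lit 362) (B (L (nat_lit 396) ln14_12_3 ln14_12_3_ok) (M (nat_lit 330) (B (L (nat_lit 459) ln11_14_7 ln11_14_7_ok) (M (nat_lit 298) (B (L (nat_lit 331) ln11_13_7 ln11_13_7_ok) (L (nat_lit 394) ln10_9_4 ln10_9_4_ok))))))) (B (M (nat_lit 362) (B (L (nat_lit 396) ln14_12_3 ln14_12_3_ok) (M (nat_lit 459) (B (L (nat_lit 330) ln11_14_7 ln11_14_7_ok) (M (nat_lit 491) (B (L (nat_lit 394) ln11_15_7 ln11_15_7_ok) (M (nat_lit 490) (B (L (nat_lit 458) ln11_11_5 ln11_11_5_ok) (L (nat_lit 522) ln11_12_5 ln11_12_5_ok))))))))) (B (M (nat_lit 333) (B (M (nat_lit 396) (B (L (nat_lit 301) ln13_9_5 ln13_9_5_ok) (L (nat_lit 362) ln14_12_3 ln14_12_3_ok)))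 (B (M (nat_lit 332) (B (L (nat_lit 300) ln13_13_7 ln13_13_7_ok) (M (nat_lit 362) (B (L (nat_lit 396) ln14_12_3 ln14_12_3_ok) (M (nat_lit 334) (B (L (nat_lit 302) ln13_13_6 ln13_13_6_ok) (L (nat_lit 331) ln14_10_1 ln14_10_1_ok))))))) (B (M (nat_lit 300) (B (L (nat_lit 332) ln13_13_7 ln13_13_7_ok) (M (nat_lit 301) (B (L (nat_lit 268) ln13_12_7 ln13_12_7_ok) (L (nat_lit 396) ln13_9_5 ln13_9_5_ok))))) (M (nat_lit 301) (B (M (nat_lit 300) (B (L (nat_lit 268) ln13_12_7 ln13_12_7_ok) (L (nat_lit 332) ln13_13_7 ln13_13_7_ok))) (M (nat_lit 302) (B (L (nat_lit 270) ln13_12_6 ln13_12_6_ok) (L (nat_lit 334) ln13_13_6 ln13_13_6_ok))))))))) (B (M (nat_lit 300) (B (M (nat_lit 332) (B (L (nat_lit 331) ln11_13_6 ln11_13_6_ok) (L (nat_lit 333) ln13_13_7 ln13_13_7_ok))) (B (M (nat_lit 333) (B (L (nat_lit 332) ln13_13_7 ln13_13_7_ok) (M (nat_lit 301) (B (L (nat_lit 268) ln13_12_7 ln13_12_7_ok) (L (nat_lit 396) ln13_9_5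 ln13_9_5_ok))))) (B (M (nat_lit 299) (B (M (nat_lit 331) (B (L (nat_lit 268) ln11_12_6 ln11_12_6_ok) (L (nat_lit 396) ln11_9_4 ln11_9_4_ok))) (B (M (nat_lit 331) (B (L (nat_lit 396) ln11_9_4 ln11_9_4_ok) (M (nat_lit 298) (B (L (nat_lit 266) ln11_12_7 ln11_12_7_ok) (L (nat_lit 330) ln11_13_7 ln11_13_7_ok))))) (B (M (nat_lit 301) (B (M (nat_lit 333) (B (L (nat_lit 268) ln13_12_7 ln13_12_7_ok) (L (nat_lit 396) ln13_9_5 ln13_9_5_ok))) (B (M (nat_lit 333) (B (L (nat_lit 396) ln13_9_5 ln13_9_5_ok) (M (nat_lit 302) (B (L (nat_lit 270) ln13_12_6 ln13_12_6_ok) (L (nat_lit 334) ln13_13_6 ln13_13_6_ok))))) (M (nat_lit 298) (B (M (nat_lit 297) (B (M (nat_lit 265) (B (L (nat_lit 264) ln12_9_3 ln12_9_3_ok) (L (nat_lit 266) ln13_9_3 ln13_9_3_ok))) (M (nat_lit 329) (B (L (nat_lit 328) ln12_9_1 ln12_9_1_ok) (L (nat_lit 330) ln13_9_1 ln13_9_1_ok))))) (B (M (nat_lit 297) (B (M (nat_lit 269) (B (L (nat_lit 268) ln9_9_2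 ln9_9_2_ok) (L (nat_lit 270) ln10_9_2 ln10_9_2_ok))) (M (nat_lit 329) (B (L (nat_lit 328) ln12_9_1 ln12_9_1_ok) (L (nat_lit 330) ln13_9_1 ln13_9_1_ok))))) (M (nat_lit 302) (B (M (nat_lit 266) (B (L (nat_lit 265) ln13_9_3 ln13_9_3_ok) (L (nat_lit 267) ln14_9_3 ln14_9_3_ok))) (M (nat_lit 270) (B (L (nat_lit 269) ln10_9_2 ln10_9_2_ok) (L (nat_lit 271) ln11_9_2 ln11_9_2_ok))))))))))) (M (nat_lit 331) (B (L (nat_lit 268) ln11_12_6 ln11_12_6_ok) (M (nat_lit 298) (B (L (nat_lit 266) ln11_12_7 ln11_12_7_ok) (L (nat_lit 330) ln11_13_7 ln11_13_7_ok))))))))) (M (nat_lit 331) (B (L (nat_lit 332) ln11_13_6 ln11_13_6_ok) (M (nat_lit 299) (B (L (nat_lit 268) ln11_12_6 ln11_12_6_ok) (L (nat_lit 396) ln11_9_4 ln11_9_4_ok))))))))) c11_n10117)))))) (nat_lit 2426085983404752015179072388321678067425569393997541266487063526690315243787193827693350029463083025796111671560376387461302976512) (nat_lit 13729595329851230978767378294003157492432738501131976487219704448417168984712692218401414926327080676052431408188382877839932562239016052967306514027583111168)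 (nat_lit 13729595329851230978767378294003157492432738501131976487219704448417168984712692218401414926327080676052431408188382877839932562239016052967306514027583111168) (by decide +kernel)
theorem c11_s10119 : Sem (nat_lit 2426085983324056706488856494894930593300475272924737960461150291914357138895298589505323742130906608506107364328004413337154617344) (nat_lit 294840814535290085408076681427072358431222540236498056459337901371672797223388030064771765665238374930887366645127028970122829477131081988114695052538506410972132933632) (nat_lit 294840814535290085408076681427072358431222540236498056459337901371672797223388030064771765665238374930887366645127028970122829477131081988114695052538506410972132933632) :=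
  sem_of_chk (M (nat_lit 395) (B (M (nat_lit 394) (B (L (nat_lit 430) ln14_13_3 ln14_13_3_ok) (M (nat_lit 393) (B (L (nat_lit 392) ln8_12_0 ln8_12_0_ok) (L (nat_lit 396) ln9_12_0 ln9_12_0_ok))))) (B (M (nat_lit 394) (B (L (nat_lit 430) ln14_13_3 ln14_13_3_ok) (M (nat_lit 396) (B (L (nat_lit 393) ln9_12_0 ln9_12_0_ok) (M (nat_lit 362) (B (L (nat_lit 361) ln13_12_3 ln13_12_3_ok) (L (nat_lit 363) ln14_12_3 ln14_12_3_ok))))))) (B (M (nat_lit 430) (B (L (nat_lit 394) ln14_13_3 ln14_13_3_ok) (M (nat_lit 431) (B (L (nat_lit 396) ln11_12_0 ln11_12_0_ok) (M (nat_lit 432) (B (L (nat_lit 433) ln17_13_3 ln17_13_3_ok) (M (nat_lit 464) (B (L (nat_lit 463) ln12_13_0 ln12_13_0_ok) (L (nat_lit 465) ln13_13_0 ln13_13_0_ok))))))))) (B c11_n9970 (B (M (nat_lit 333) (B (M (nat_lit 430) (B (L (nat_lit 301) ln13_9_4 ln13_9_4_ok) (L (nat_lit 394) ln14_13_3 ln14_13_3_ok))) (B (M (nat_lit 459) (B (M (nat_lit 430) (B (L (nat_lit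 394) ln14_13_3 ln14_13_3_ok) (L (nat_lit 458) ln14_13_1 ln14_13_1_ok))) (B (M (nat_lit 458) (B (L (nat_lit 430) ln14_13_1 ln14_13_1_ok) (M (nat_lit 490) (B (L (nat_lit 363) ln11_11_5 ln11_11_5_ok) (M (nat_lit 522) (B (L (nat_lit 491) ln11_12_5 ln11_12_5_ok) (L (nat_lit 554) ln10_17_6 ln10_17_6_ok))))))) (M (nat_lit 491) (B (M (nat_lit 522) (B (L (nat_lit 490) ln11_12_5 ln11_12_5_ok) (M (nat_lit 523) (B (L (nat_lit 554) ln11_13_5 ln11_13_5_ok) (M (nat_lit 524) (B (L (nat_lit 492) ln11_12_4 ln11_12_4_ok) (L (nat_lit 556) ln11_13_4 ln11_13_4_ok))))))) (M (nat_lit 362) (B (L (nat_lit 394) ln11_15_7 ln11_15_7_ok) (M (nat_lit 363) (B (L (nat_lit 330) ln11_14_7 ln11_14_7_ok) (M (nat_lit 332) (B (L (nat_lit 300) ln13_13_7 ln13_13_7_ok) (M (nat_lit 334) (B (L (nat_lit 302) ln13_13_6 ln13_13_6_ok) (L (nat_lit 331) ln14_10_1 ln14_10_1_ok)))))))))))))) (B (M (nat_lit 301) (B (L (nat_lit 430) ln13_9_4 ln13_9_4_ok)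 (M (nat_lit 302) (B (L (nat_lit 270) ln13_12_6 ln13_12_6_ok) (L (nat_lit 334) ln13_13_6 ln13_13_6_ok))))) (M (nat_lit 301) (B (M (nat_lit 300) (B (L (nat_lit 268) ln13_12_7 ln13_12_7_ok) (L (nat_lit 332) ln13_13_7 ln13_13_7_ok))) (M (nat_lit 302) (B (L (nat_lit 270) ln13_12_6 ln13_12_6_ok) (L (nat_lit 334) ln13_13_6 ln13_13_6_ok))))))))) (K (nat_lit 2426085983404752015179072388321678067425569393997541266487063526690315243787193827693350029463083025796111671560376387461302976512) (nat_lit 13729595329851230978767378294003157492432738501131976487219704448417168984712692218401414926327080676052431408188382877839932562239016052967306514027583111168) (nat_lit 13729595329851230978767378294003157492432738501131976487219704448417168984712692218401414926327080676052431408188382877839932562239016052967306514027583111168) c11_s10118))))))) (nat_lit 2426085983324056706488856494894930593300475272924737960461150291914357138895298589505323742130906608506107364328004413337154617344)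 (nat_lit 294840814535290085408076681427072358431222540236498056459337901371672797223388030064771765665238374930887366645127028970122829477131081988114695052538506410972132933632) (nat_lit 294840814535290085408076681427072358431222540236498056459337901371672797223388030064771765665238374930887366645127028970122829477131081988114695052538506410972132933632) (by decide +kernel)
noncomputable def c11_n10233 : Cert := (M (nat_lit 395) (B (M (nat_lit 394) (B (L (nat_lit 430) ln14_13_3 ln14_13_3_ok) (M (nat_lit 393) (B (L (nat_lit 392) ln8_12_0 ln8_12_0_ok) (L (nat_lit 396) ln9_12_0 ln9_12_0_ok))))) (B (M (nat_lit 430) (B (L (nat_lit 394) ln14_13_3 ln14_13_3_ok) (M (nat_lit 399) (B (L (nat_lit 398) ln11_13_2 ln11_13_2_ok) (M (nat_lit 431) (B (L (nat_lit 396) ln15_13_3 ln15_13_3_ok) (L (nat_lit 400) ln12_13_2 ln12_13_2_ok))))))) (B (M (nat_lit 430) (B (M (nat_lit 399) (B (L (nat_lit 398) ln11_13_2 ln11_13_2_ok)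 (M (nat_lit 431) (B (L (nat_lit 396) ln15_13_3 ln15_13_3_ok) (L (nat_lit 400) ln12_13_2 ln12_13_2_ok))))) (B (M (nat_lit 431) (B (M (nat_lit 399) (B (L (nat_lit 398) ln11_13_2 ln11_13_2_ok) (L (nat_lit 400) ln12_13_2 ln12_13_2_ok))) (M (nat_lit 459) (B (L (nat_lit 458) ln14_13_1 ln14_13_1_ok) (L (nat_lit 460) ln15_13_1 ln15_13_1_ok))))) (B (M (nat_lit 431) (B (L (nat_lit 396) ln15_13_3 ln15_13_3_ok) (M (nat_lit 459) (B (L (nat_lit 458) ln14_13_1 ln14_13_1_ok) (L (nat_lit 460) ln15_13_1 ln15_13_1_ok))))) (M (nat_lit 363) (B (M (nat_lit 460) (B (L (nat_lit 331) ln11_10_4 ln11_10_4_ok) (M (nat_lit 459) (B (L (nat_lit 492) ln11_11_4 ln11_11_4_ok) (L (nat_lit 458) ln14_13_1 ln14_13_1_ok))))) (B (M (nat_lit 362) (B (M (nat_lit 459) (B (L (nat_lit 330) ln11_14_7 ln11_14_7_ok) (L (nat_lit 458) ln14_13_1 ln14_13_1_ok))) (M (nat_lit 398) (B (L (nat_lit 396) ln14_12_3 ln14_12_3_ok) (L (nat_lit 399) ln11_13_2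 ln11_13_2_ok))))) (B (M (nat_lit 460) (B (L (nat_lit 331) ln11_10_4 ln11_10_4_ok) (M (nat_lit 492) (B (L (nat_lit 396) ln12_15_7 ln12_15_7_ok) (L (nat_lit 459) ln11_11_4 ln11_11_4_ok))))) (M (nat_lit 460) (B (L (nat_lit 331) ln11_10_4 ln11_10_4_ok) (M (nat_lit 492) (B (L (nat_lit 396) ln12_15_7 ln12_15_7_ok) (L (nat_lit 461) ln13_11_5 ln13_11_5_ok))))))))))))) (B (M (nat_lit 460) (B (M (nat_lit 492) (B (L (nat_lit 461) ln13_11_5 ln13_11_5_ok) (L (nat_lit 524) ln12_16_7 ln12_16_7_ok))) (M (nat_lit 430) (B (L (nat_lit 394) ln14_13_3 ln14_13_3_ok) (M (nat_lit 459) (B (L (nat_lit 458) ln14_13_1 ln14_13_1_ok) (L (nat_lit 431) ln15_13_1 ln15_13_1_ok))))))) (M (nat_lit 363) (B (M (nat_lit 460) (B (L (nat_lit 331) ln11_10_4 ln11_10_4_ok) (M (nat_lit 492) (B (L (nat_lit 396) ln12_15_7 ln12_15_7_ok) (L (nat_lit 459) ln11_11_4 ln11_11_4_ok))))) (B (M (nat_lit 459) (B (M (nat_lit 460) (B (L (nat_lit 492) ln11_11_4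 ln11_11_4_ok) (M (nat_lit 458) (B (L (nat_lit 490) ln11_11_5 ln11_11_5_ok) (L (nat_lit 457) ln9_14_2 ln9_14_2_ok))))) (M (nat_lit 394) (B (M (nat_lit 362) (B (L (nat_lit 330) ln11_14_7 ln11_14_7_ok) (L (nat_lit 491) ln11_15_7 ln11_15_7_ok))) (M (nat_lit 393) (B (L (nat_lit 392) ln8_12_0 ln8_12_0_ok) (L (nat_lit 396) ln9_12_0 ln9_12_0_ok))))))) (B (M (nat_lit 460) (B (L (nat_lit 331) ln11_10_4 ln11_10_4_ok) (M (nat_lit 492) (B (L (nat_lit 459) ln11_11_4 ln11_11_4_ok) (L (nat_lit 461) ln13_11_5 ln13_11_5_ok))))) (B (M (nat_lit 460) (B (L (nat_lit 331) ln11_10_4 ln11_10_4_ok) (M (nat_lit 492) (B (L (nat_lit 396) ln12_15_7 ln12_15_7_ok) (L (nat_lit 461) ln13_11_5 ln13_11_5_ok))))) (M (nat_lit 362) (B (M (nat_lit 330) (B (L (nat_lit 459) ln11_14_7 ln11_14_7_ok) (M (nat_lit 298) (B (L (nat_lit 266) ln10_8_4 ln10_8_4_ok) (L (nat_lit 394) ln10_9_4 ln10_9_4_ok))))) (B (M (nat_lit 330) (B (L (nat_lit 459)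 ln11_14_7 ln11_14_7_ok) (M (nat_lit 298) (B (L (nat_lit 331) ln11_13_7 ln11_13_7_ok) (L (nat_lit 394) ln10_9_4 ln10_9_4_ok))))) (B (M (nat_lit 396) (B (L (nat_lit 398) ln14_12_3 ln14_12_3_ok) (M (nat_lit 361) (B (L (nat_lit 360) ln8_11_0 ln8_11_0_ok) (L (nat_lit 394) ln13_12_3 ln13_12_3_ok))))) (M (nat_lit 330) (B (L (nat_lit 459) ln11_14_7 ln11_14_7_ok) (M (nat_lit 298) (B (L (nat_lit 266) ln10_8_4 ln10_8_4_ok) (L (nat_lit 331) ln11_13_7 ln11_13_7_ok)))))))))))))))))))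
noncomputable def c11_n10234 : Cert := (M (nat_lit 427) (B (M (nat_lit 398) (B (L (nat_lit 426) ln10_13_2 ln10_13_2_ok) (M (nat_lit 399) (B (L (nat_lit 396) ln15_12_1 ln15_12_1_ok) (L (nat_lit 400) ln16_12_1 ln16_12_1_ok))))) (B (M (nat_lit 398) (B (L (nat_lit 426) ln10_13_2 ln10_13_2_ok) (M (nat_lit 399) (B (L (nat_lit 400) ln16_12_1 ln16_12_1_ok) (L (nat_lit 430) ln11_13_2 ln11_13_2_ok))))) (B (M (nat_lit 426) (B (M (nat_lit 425) (B (L (nat_lit 396) ln9_13_2 ln9_13_2_ok) (M (nat_lit 393) (B (L (nat_lit 392) ln12_13_3 ln12_13_3_ok) (L (nat_lit 394) ln13_13_3 ln13_13_3_ok))))) (B (M (nat_lit 425) (B (L (nat_lit 396) ln9_13_2 ln9_13_2_ok) (M (nat_lit 457) (B (L (nat_lit 456) ln12_13_1 ln12_13_1_ok) (L (nat_lit 458) ln13_13_1 ln13_13_1_ok))))) (M (nat_lit 430) (B (M (nat_lit 394) (B (L (nat_lit 393) ln13_13_3 ln13_13_3_ok) (L (nat_lit 395) ln14_13_3 ln14_13_3_ok))) (M (nat_lit 458) (B (L (nat_lit 457)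 ln13_13_1 ln13_13_1_ok) (L (nat_lit 459) ln14_13_1 ln14_13_1_ok)))))))) c11_n10233))))
theorem c11_s10239 : Sem (nat_lit 1386334847383188664625224028427294411511058401076380296564914570976209309333027075361123041184442928399551202358502280908102434816) (nat_lit 294840814535290085408076681436561964816925672723148097347205508795491641698740644799563090199830480609911555863924506968542718891580706874122963305788107413785497567232) (nat_lit 294840814535290085408076681436561964816925672723148097347205508795491641698740644799563090199830480609911555863924506968542718891580706874122963305788107413785497567232) :=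
  sem_of_chk (M (nat_lit 428) (B (M (nat_lit 460) (B (L (nat_lit 333) ln13_10_5 ln13_10_5_ok) (M (nat_lit 492) (B (L (nat_lit 396) ln12_15_6 ln12_15_6_ok) (L (nat_lit 524) ln12_16_6 ln12_16_6_ok))))) (B (M (nat_lit 427) (B (M (nat_lit 398) (B (L (nat_lit 426) ln10_13_2 ln10_13_2_ok) (M (nat_lit 399) (B (L (nat_lit 396) ln15_12_1 ln15_12_1_ok) (L (nat_lit 400) ln16_12_1 ln16_12_1_ok))))) (B (M (nat_lit 398) (B (M (nat_lit 399) (B (L (nat_lit 396) ln15_12_1 ln15_12_1_ok) (L (nat_lit 400) ln16_12_1 ln16_12_1_ok))) (B (M (nat_lit 399) (B (L (nat_lit 400) ln16_12_1 ln16_12_1_ok) (L (nat_lit 430) ln11_13_2 ln11_13_2_ok))) (K (nat_lit 2426085983324056706488856494894930593300475272924737960461150291914357138895298589505323742130906608506107364328004413337154617344) (nat_lit 294840814535290085408076681427072358431222540236498056459337901371672797223388030064771765665238374930887366645127028970122829477131081988114695052538506410972132933632)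 (nat_lit 294840814535290085408076681427072358431222540236498056459337901371672797223388030064771765665238374930887366645127028970122829477131081988114695052538506410972132933632) c11_s10119)))) (B (M (nat_lit 426) (B (M (nat_lit 425) (B (L (nat_lit 396) ln9_13_2 ln9_13_2_ok) (M (nat_lit 393) (B (L (nat_lit 392) ln12_13_3 ln12_13_3_ok) (L (nat_lit 394) ln13_13_3 ln13_13_3_ok))))) (B (M (nat_lit 425) (B (L (nat_lit 396) ln9_13_2 ln9_13_2_ok) (M (nat_lit 457) (B (L (nat_lit 456) ln12_13_1 ln12_13_1_ok) (L (nat_lit 458) ln13_13_1 ln13_13_1_ok))))) (M (nat_lit 430) (B (M (nat_lit 394) (B (L (nat_lit 393) ln13_13_3 ln13_13_3_ok) (L (nat_lit 395) ln14_13_3 ln14_13_3_ok))) (M (nat_lit 458) (B (L (nat_lit 457) ln13_13_1 ln13_13_1_ok) (L (nat_lit 459) ln14_13_1 ln14_13_1_ok)))))))) (M (nat_lit 398) (B (L (nat_lit 426) ln10_13_2 ln10_13_2_ok) (M (nat_lit 399) (B (L (nat_lit 400) ln16_12_1 ln16_12_1_ok) (L (nat_lit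 430) ln11_13_2 ln11_13_2_ok))))))))) (B c11_n10234 (B (M (nat_lit 333) (B (L (nat_lit 460) ln13_10_5 ln13_10_5_ok) (M (nat_lit 301) (B (L (nat_lit 396) ln13_9_5 ln13_9_5_ok) (M (nat_lit 302) (B (L (nat_lit 270) ln13_12_6 ln13_12_6_ok) (L (nat_lit 334) ln13_13_6 ln13_13_6_ok))))))) (M (nat_lit 460) (B (L (nat_lit 333) ln13_10_5 ln13_10_5_ok) (M (nat_lit 492) (B (L (nat_lit 461) ln13_11_5 ln13_11_5_ok) (L (nat_lit 524) ln12_16_6 ln12_16_6_ok)))))))))) (nat_lit 1386334847383188664625224028427294411511058401076380296564914570976209309333027075361123041184442928399551202358502280908102434816) (nat_lit 294840814535290085408076681436561964816925672723148097347205508795491641698740644799563090199830480609911555863924506968542718891580706874122963305788107413785497567232) (nat_lit 294840814535290085408076681436561964816925672723148097347205508795491641698740644799563090199830480609911555863924506968542718891580706874122963305788107413785497567232)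 (by decide +kernel)
noncomputable def c11_n10371 : Cert := (M (nat_lit 396) (B (M (nat_lit 398) (B (L (nat_lit 362) ln14_12_3 ln14_12_3_ok) (L (nat_lit 399) ln15_12_1 ln15_12_1_ok))) (M (nat_lit 300) (B (M (nat_lit 331) (B (L (nat_lit 299) ln11_9_4 ln11_9_4_ok) (L (nat_lit 332) ln11_13_6 ln11_13_6_ok))) (B (M (nat_lit 332) (B (L (nat_lit 331) ln11_13_6 ln11_13_6_ok) (L (nat_lit 333) ln13_13_7 ln13_13_7_ok))) (B (M (nat_lit 333) (B (L (nat_lit 332) ln13_13_7 ln13_13_7_ok) (L (nat_lit 301) ln13_9_5 ln13_9_5_ok))) (M (nat_lit 299) (B (L (nat_lit 331) ln11_9_4 ln11_9_4_ok) (M (nat_lit 301) (B (L (nat_lit 333) ln13_9_5 ln13_9_5_ok) (M (nat_lit 298) (B (M (nat_lit 265) (B (L (nat_lit 266) ln13_9_3 ln13_9_3_ok) (M (nat_lit 297) (B (L (nat_lit 264) ln12_9_3 ln12_9_3_ok) (M (nat_lit 269) (B (L (nat_lit 268) ln9_9_2 ln9_9_2_ok) (L (nat_lit 270) ln10_9_2 ln10_9_2_ok))))))) (B (M (nat_lit 270) (B (L (nat_lit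 269) ln10_9_2 ln10_9_2_ok) (M (nat_lit 266) (B (L (nat_lit 265) ln13_9_3 ln13_9_3_ok) (M (nat_lit 302) (B (L (nat_lit 267) ln14_9_3 ln14_9_3_ok) (L (nat_lit 271) ln11_9_2 ln11_9_2_ok))))))) (B (M (nat_lit 302) (B (M (nat_lit 270) (B (L (nat_lit 269) ln10_9_2 ln10_9_2_ok) (L (nat_lit 271) ln11_9_2 ln11_9_2_ok))) (B (M (nat_lit 303) (B (M (nat_lit 267) (B (L (nat_lit 266) ln14_9_3 ln14_9_3_ok) (L (nat_lit 268) ln15_9_3 ln15_9_3_ok))) (M (nat_lit 271) (B (L (nat_lit 270) ln11_9_2 ln11_9_2_ok) (L (nat_lit 272) ln12_9_2 ln12_9_2_ok))))) (B (M (nat_lit 303) (B (M (nat_lit 267) (B (L (nat_lit 266) ln14_9_3 ln14_9_3_ok) (L (nat_lit 268) ln15_9_3 ln15_9_3_ok))) (M (nat_lit 304) (B (M (nat_lit 272) (B (L (nat_lit 271) ln12_9_2 ln12_9_2_ok) (L (nat_lit 273) ln13_9_2 ln13_9_2_ok))) (M (nat_lit 336) (B (L (nat_lit 335) ln12_9_0 ln12_9_0_ok) (L (nat_lit 337) ln13_9_0 ln13_9_0_ok))))))) (M (nat_lit 268) (B (M (nat_lit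 267) (B (L (nat_lit 266) ln14_9_3 ln14_9_3_ok) (L (nat_lit 303) ln15_9_3 ln15_9_3_ok))) (M (nat_lit 269) (B (L (nat_lit 297) ln9_9_2 ln9_9_2_ok) (L (nat_lit 270) ln10_9_2 ln10_9_2_ok))))))))) (B (M (nat_lit 297) (B (M (nat_lit 269) (B (L (nat_lit 268) ln9_9_2 ln9_9_2_ok) (L (nat_lit 270) ln10_9_2 ln10_9_2_ok))) (M (nat_lit 296) (B (M (nat_lit 264) (B (L (nat_lit 263) ln11_9_3 ln11_9_3_ok) (L (nat_lit 265) ln12_9_3 ln12_9_3_ok))) (M (nat_lit 328) (B (L (nat_lit 327) ln11_9_1 ln11_9_1_ok) (L (nat_lit 329) ln12_9_1 ln12_9_1_ok))))))) (M (nat_lit 297) (B (M (nat_lit 265) (B (L (nat_lit 264) ln12_9_3 ln12_9_3_ok) (L (nat_lit 266) ln13_9_3 ln13_9_3_ok))) (B (M (nat_lit 266) (B (L (nat_lit 265) ln13_9_3 ln13_9_3_ok) (M (nat_lit 267) (B (L (nat_lit 302) ln14_9_3 ln14_9_3_ok) (M (nat_lit 296) (B (L (nat_lit 295) ln7_9_2 ln7_9_2_ok) (L (nat_lit 268) ln8_9_2 ln8_9_2_ok))))))) (B (M (nat_lit 296) (B (M (nat_lit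 328) (B (L (nat_lit 327) ln11_9_1 ln11_9_1_ok) (L (nat_lit 329) ln12_9_1 ln12_9_1_ok))) (M (nat_lit 267) (B (L (nat_lit 268) ln8_9_2 ln8_9_2_ok) (M (nat_lit 266) (B (L (nat_lit 295) ln7_9_2 ln7_9_2_ok) (L (nat_lit 302) ln14_9_3 ln14_9_3_ok))))))) (M (nat_lit 296) (B (M (nat_lit 264) (B (L (nat_lit 263) ln11_9_3 ln11_9_3_ok) (L (nat_lit 265) ln12_9_3 ln12_9_3_ok))) (M (nat_lit 328) (B (L (nat_lit 327) ln11_9_1 ln11_9_1_ok) (L (nat_lit 329) ln12_9_1 ln12_9_1_ok))))))))))))))))))))))))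
theorem c11_s10400 : Sem (nat_lit 5198755676880004405235759425050781977861253500790931393450237229097271712457657545229114136909811265573468424662804166297090260992) (nat_lit 2232848561036104369865600763956052395445298680275935233691249916491058309351832658350749048779535041975223626318413505622198805101331611648) (nat_lit 2232848561036104369865600763956052395445298680275935233691249916491058309351832658350749048779535041975223626318413505622198805101331611648) :=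
  sem_of_chk (M (nat_lit 363) (B (M (nat_lit 362) (B (M (nat_lit 459) (B (L (nat_lit 330) ln11_14_7 ln11_14_7_ok) (L (nat_lit 458) ln14_13_1 ln14_13_1_ok))) (M (nat_lit 398) (B (L (nat_lit 396) ln14_12_3 ln14_12_3_ok) (L (nat_lit 399) ln11_13_2 ln11_13_2_ok))))) (B (M (nat_lit 331) (B (M (nat_lit 459) (B (L (nat_lit 458) ln14_13_1 ln14_13_1_ok) (M (nat_lit 330) (B (L (nat_lit 298) ln11_13_7 ln11_13_7_ok) (L (nat_lit 362) ln11_14_7 ln11_14_7_ok))))) (M (nat_lit 299) (B (L (nat_lit 396) ln11_9_4 ln11_9_4_ok) (M (nat_lit 300) (B (L (nat_lit 268) ln11_12_6 ln11_12_6_ok) (L (nat_lit 332) ln11_13_6 ln11_13_6_ok))))))) (B (M (nat_lit 331) (B (M (nat_lit 396) (B (L (nat_lit 299) ln11_9_4 ln11_9_4_ok) (M (nat_lit 398) (B (L (nat_lit 362) ln14_12_3 ln14_12_3_ok) (L (nat_lit 399) ln15_12_1 ln15_12_1_ok))))) (B (M (nat_lit 333) (B (M (nat_lit 301) (B (L (nat_lit 396) ln13_9_5 ln13_9_5_ok) (L (nat_lit 398) ln13_9_4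 ln13_9_4_ok))) (M (nat_lit 332) (B (L (nat_lit 300) ln11_13_6 ln11_13_6_ok) (M (nat_lit 330) (B (L (nat_lit 298) ln11_13_7 ln11_13_7_ok) (L (nat_lit 366) ln10_10_0 ln10_10_0_ok))))))) (B (M (nat_lit 333) (B (M (nat_lit 398) (B (L (nat_lit 301) ln13_9_4 ln13_9_4_ok) (L (nat_lit 399) ln11_13_2 ln11_13_2_ok))) (M (nat_lit 332) (B (L (nat_lit 300) ln11_13_6 ln11_13_6_ok) (M (nat_lit 330) (B (L (nat_lit 298) ln11_13_7 ln11_13_7_ok) (L (nat_lit 366) ln10_10_0 ln10_10_0_ok))))))) (M (nat_lit 299) (B (L (nat_lit 396) ln11_9_4 ln11_9_4_ok) (M (nat_lit 300) (B (L (nat_lit 268) ln11_12_6 ln11_12_6_ok) (L (nat_lit 332) ln11_13_6 ln11_13_6_ok))))))))) (B c11_n10371 (B (M (nat_lit 333) (B (M (nat_lit 398) (B (L (nat_lit 301) ln13_9_4 ln13_9_4_ok) (L (nat_lit 399) ln11_13_2 ln11_13_2_ok))) (M (nat_lit 332) (B (L (nat_lit 300) ln13_13_7 ln13_13_7_ok) (M (nat_lit 330) (B (M (nat_lit 331) (B (L (nat_lit 298) ln11_13_7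 ln11_13_7_ok) (L (nat_lit 366) ln10_10_0 ln10_10_0_ok))) (M (nat_lit 459) (B (L (nat_lit 362) ln11_14_7 ln11_14_7_ok) (L (nat_lit 458) ln14_13_1 ln14_13_1_ok))))))))) (M (nat_lit 333) (B (M (nat_lit 301) (B (L (nat_lit 396) ln13_9_5 ln13_9_5_ok) (L (nat_lit 398) ln13_9_4 ln13_9_4_ok))) (B (M (nat_lit 331) (B (M (nat_lit 299) (B (L (nat_lit 396) ln11_9_4 ln11_9_4_ok) (M (nat_lit 300) (B (L (nat_lit 268) ln11_12_6 ln11_12_6_ok) (L (nat_lit 332) ln11_13_6 ln11_13_6_ok))))) (B (M (nat_lit 299) (B (L (nat_lit 396) ln11_9_4 ln11_9_4_ok) (M (nat_lit 298) (B (L (nat_lit 266) ln11_12_7 ln11_12_7_ok) (L (nat_lit 330) ln11_13_7 ln11_13_7_ok))))) (M (nat_lit 332) (B (L (nat_lit 300) ln11_13_6 ln11_13_6_ok) (M (nat_lit 330) (B (L (nat_lit 298) ln11_13_7 ln11_13_7_ok) (L (nat_lit 366) ln10_10_0 ln10_10_0_ok)))))))) (M (nat_lit 398) (B (L (nat_lit 301) ln13_9_4 ln13_9_4_ok) (L (nat_lit 399) ln11_13_2 ln11_13_2_ok))))))))))))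 (nat_lit 5198755676880004405235759425050781977861253500790931393450237229097271712457657545229114136909811265573468424662804166297090260992) (nat_lit 2232848561036104369865600763956052395445298680275935233691249916491058309351832658350749048779535041975223626318413505622198805101331611648) (nat_lit 2232848561036104369865600763956052395445298680275935233691249916491058309351832658350749048779535041975223626318413505622198805101331611648) (by decide +kernel)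
noncomputable def c11_n10403 : Cert := (M (nat_lit 427) (B (M (nat_lit 398) (B (L (nat_lit 426) ln10_13_2 ln10_13_2_ok) (M (nat_lit 399) (B (L (nat_lit 396) ln15_12_1 ln15_12_1_ok) (L (nat_lit 400) ln16_12_1 ln16_12_1_ok))))) (B (M (nat_lit 430) (B (M (nat_lit 431) (B (M (nat_lit 395) (B (L (nat_lit 394) ln14_13_3 ln14_13_3_ok) (L (nat_lit 396) ln15_13_3 ln15_13_3_ok))) (M (nat_lit 399) (B (L (nat_lit 398) ln11_13_2 ln11_13_2_ok) (L (nat_lit 400) ln12_13_2 ln12_13_2_ok))))) (B (M (nat_lit 431) (B (M (nat_lit 395) (B (L (nat_lit 394) ln14_13_3 ln14_13_3_ok) (L (nat_lit 396) ln15_13_3 ln15_13_3_ok))) (B (M (nat_lit 396) (B (L (nat_lit 395) ln15_13_3 ln15_13_3_ok) (L (nat_lit 432) ln16_13_3 ln16_13_3_ok))) (B (M (nat_lit 432) (B (L (nat_lit 396) ln16_13_3 ln16_13_3_ok) (M (nat_lit 400) (B (L (nat_lit 399) ln12_13_2 ln12_13_2_ok) (L (nat_lit 401) ln13_13_2 ln13_13_2_ok))))) (M (nat_lit 432) (B (M (nat_lit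 400) (B (L (nat_lit 399) ln12_13_2 ln12_13_2_ok) (L (nat_lit 401) ln13_13_2 ln13_13_2_ok))) (M (nat_lit 464) (B (L (nat_lit 463) ln12_13_0 ln12_13_0_ok) (L (nat_lit 465) ln13_13_0 ln13_13_0_ok))))))))) (B (M (nat_lit 431) (B (M (nat_lit 395) (B (L (nat_lit 394) ln14_13_3 ln14_13_3_ok) (L (nat_lit 396) ln15_13_3 ln15_13_3_ok))) (B (M (nat_lit 396) (B (L (nat_lit 395) ln15_13_3 ln15_13_3_ok) (L (nat_lit 432) ln16_13_3 ln16_13_3_ok))) (B (M (nat_lit 432) (B (L (nat_lit 396) ln16_13_3 ln16_13_3_ok) (M (nat_lit 464) (B (L (nat_lit 463) ln12_13_0 ln12_13_0_ok) (L (nat_lit 465) ln13_13_0 ln13_13_0_ok))))) (M (nat_lit 432) (B (M (nat_lit 464) (B (L (nat_lit 463) ln12_13_0 ln12_13_0_ok) (L (nat_lit 465) ln13_13_0 ln13_13_0_ok))) (M (nat_lit 401) (B (L (nat_lit 400) ln13_13_2 ln13_13_2_ok) (M (nat_lit 433) (B (L (nat_lit 398) ln17_13_3 ln17_13_3_ok) (L (nat_lit 402) ln14_13_2 ln14_13_2_ok))))))))))) (B (M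 (nat_lit 431) (B (M (nat_lit 399) (B (L (nat_lit 398) ln11_13_2 ln11_13_2_ok) (L (nat_lit 400) ln12_13_2 ln12_13_2_ok))) (M (nat_lit 432) (B (L (nat_lit 396) ln16_13_3 ln16_13_3_ok) (M (nat_lit 464) (B (L (nat_lit 463) ln12_13_0 ln12_13_0_ok) (L (nat_lit 465) ln13_13_0 ln13_13_0_ok))))))) (B (M (nat_lit 395) (B (L (nat_lit 394) ln14_13_3 ln14_13_3_ok) (K (nat_lit 5198755676880004405235759425050781977861253500790931393450237229097271712457657545229114136909811265573468424662804166297090260992) (nat_lit 2232848561036104369865600763956052395445298680275935233691249916491058309351832658350749048779535041975223626318413505622198805101331611648) (nat_lit 2232848561036104369865600763956052395445298680275935233691249916491058309351832658350749048779535041975223626318413505622198805101331611648) c11_s10400))) (M (nat_lit 431) (B (M (nat_lit 399) (B (L (nat_lit 398) ln11_13_2 ln11_13_2_ok) (L (nat_lit 400)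 ln12_13_2 ln12_13_2_ok))) (B (M (nat_lit 432) (B (M (nat_lit 400) (B (L (nat_lit 399) ln12_13_2 ln12_13_2_ok) (L (nat_lit 401) ln13_13_2 ln13_13_2_ok))) (M (nat_lit 464) (B (L (nat_lit 463) ln12_13_0 ln12_13_0_ok) (L (nat_lit 465) ln13_13_0 ln13_13_0_ok))))) (B (M (nat_lit 432) (B (M (nat_lit 464) (B (L (nat_lit 463) ln12_13_0 ln12_13_0_ok) (L (nat_lit 465) ln13_13_0 ln13_13_0_ok))) (M (nat_lit 401) (B (L (nat_lit 400) ln13_13_2 ln13_13_2_ok) (M (nat_lit 433) (B (L (nat_lit 398) ln17_13_3 ln17_13_3_ok) (L (nat_lit 402) ln14_13_2 ln14_13_2_ok))))))) (M (nat_lit 432) (B (M (nat_lit 398) (B (L (nat_lit 433) ln17_13_3 ln17_13_3_ok) (L (nat_lit 399) ln11_13_2 ln11_13_2_ok))) (M (nat_lit 464) (B (L (nat_lit 463) ln12_13_0 ln12_13_0_ok) (L (nat_lit 465) ln13_13_0 ln13_13_0_ok))))))))))))))) (B (M (nat_lit 426) (B (M (nat_lit 425) (B (L (nat_lit 396) ln9_13_2 ln9_13_2_ok) (M (nat_lit 393) (B (L (nat_lit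 392) ln12_13_3 ln12_13_3_ok) (L (nat_lit 394) ln13_13_3 ln13_13_3_ok))))) (B (M (nat_lit 425) (B (L (nat_lit 396) ln9_13_2 ln9_13_2_ok) (M (nat_lit 457) (B (L (nat_lit 456) ln12_13_1 ln12_13_1_ok) (L (nat_lit 458) ln13_13_1 ln13_13_1_ok))))) (M (nat_lit 430) (B (M (nat_lit 394) (B (L (nat_lit 393) ln13_13_3 ln13_13_3_ok) (L (nat_lit 395) ln14_13_3 ln14_13_3_ok))) (M (nat_lit 458) (B (L (nat_lit 457) ln13_13_1 ln13_13_1_ok) (L (nat_lit 459) ln14_13_1 ln14_13_1_ok)))))))) (M (nat_lit 398) (B (L (nat_lit 426) ln10_13_2 ln10_13_2_ok) (M (nat_lit 399) (B (L (nat_lit 400) ln16_12_1 ln16_12_1_ok) (L (nat_lit 430) ln11_13_2 ln11_13_2_ok)))))))))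
noncomputable def c11_n10435 : Cert := (M (nat_lit 427) (B (M (nat_lit 398) (B (L (nat_lit 426) ln10_13_2 ln10_13_2_ok) (M (nat_lit 399) (B (L (nat_lit 396) ln15_12_1 ln15_12_1_ok) (L (nat_lit 400) ln16_12_1 ln16_12_1_ok))))) (B (M (nat_lit 398) (B (L (nat_lit 426) ln10_13_2 ln10_13_2_ok) (M (nat_lit 399) (B (L (nat_lit 400) ln16_12_1 ln16_12_1_ok) (L (nat_lit 430) ln11_13_2 ln11_13_2_ok))))) (B (M (nat_lit 426) (B (M (nat_lit 425) (B (L (nat_lit 396) ln9_13_2 ln9_13_2_ok) (M (nat_lit 457) (B (L (nat_lit 456) ln12_13_1 ln12_13_1_ok) (L (nat_lit 458) ln13_13_1 ln13_13_1_ok))))) (B (M (nat_lit 430) (B (M (nat_lit 394) (B (L (nat_lit 393) ln13_13_3 ln13_13_3_ok) (L (nat_lit 395) ln14_13_3 ln14_13_3_ok))) (M (nat_lit 458) (B (L (nat_lit 457) ln13_13_1 ln13_13_1_ok) (L (nat_lit 459) ln14_13_1 ln14_13_1_ok))))) (M (nat_lit 460) (B (M (nat_lit 396) (B (L (nat_lit 492) ln12_15_6 ln12_15_6_ok) (L (nat_lit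 425) ln9_13_2 ln9_13_2_ok))) (B (M (nat_lit 461) (B (L (nat_lit 492) ln13_11_5 ln13_11_5_ok) (L (nat_lit 425) ln9_13_0 ln9_13_0_ok))) (B (M (nat_lit 492) (B (L (nat_lit 396) ln12_15_6 ln12_15_6_ok) (L (nat_lit 461) ln13_11_5 ln13_11_5_ok))) (M (nat_lit 425) (B (L (nat_lit 396) ln9_13_2 ln9_13_2_ok) (L (nat_lit 461) ln9_13_0 ln9_13_0_ok)))))))))) (M (nat_lit 395) (B (M (nat_lit 394) (B (L (nat_lit 430) ln14_13_3 ln14_13_3_ok) (M (nat_lit 396) (B (L (nat_lit 366) ln10_12_2 ln10_12_2_ok) (L (nat_lit 393) ln9_12_0 ln9_12_0_ok))))) (B (M (nat_lit 430) (B (L (nat_lit 394) ln14_13_3 ln14_13_3_ok) (M (nat_lit 399) (B (L (nat_lit 398) ln11_13_2 ln11_13_2_ok) (M (nat_lit 431) (B (L (nat_lit 396) ln15_13_3 ln15_13_3_ok) (L (nat_lit 400) ln12_13_2 ln12_13_2_ok))))))) (B (M (nat_lit 430) (B (M (nat_lit 399) (B (L (nat_lit 398) ln11_13_2 ln11_13_2_ok) (M (nat_lit 431) (B (L (nat_lit 396) ln15_13_3 ln15_13_3_ok)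 (L (nat_lit 400) ln12_13_2 ln12_13_2_ok))))) (B (M (nat_lit 431) (B (M (nat_lit 399) (B (L (nat_lit 398) ln11_13_2 ln11_13_2_ok) (L (nat_lit 400) ln12_13_2 ln12_13_2_ok))) (M (nat_lit 459) (B (L (nat_lit 458) ln14_13_1 ln14_13_1_ok) (L (nat_lit 460) ln15_13_1 ln15_13_1_ok))))) (B (M (nat_lit 431) (B (L (nat_lit 396) ln15_13_3 ln15_13_3_ok) (M (nat_lit 459) (B (L (nat_lit 458) ln14_13_1 ln14_13_1_ok) (L (nat_lit 460) ln15_13_1 ln15_13_1_ok))))) (M (nat_lit 363) (B (M (nat_lit 460) (B (L (nat_lit 331) ln11_10_4 ln11_10_4_ok) (M (nat_lit 459) (B (L (nat_lit 492) ln11_11_4 ln11_11_4_ok) (L (nat_lit 458) ln14_13_1 ln14_13_1_ok))))) (B (M (nat_lit 362) (B (M (nat_lit 459) (B (L (nat_lit 330) ln11_14_7 ln11_14_7_ok) (L (nat_lit 458) ln14_13_1 ln14_13_1_ok))) (M (nat_lit 398) (B (L (nat_lit 396) ln14_12_3 ln14_12_3_ok) (L (nat_lit 399) ln11_13_2 ln11_13_2_ok))))) (B (M (nat_lit 460) (B (L (nat_lit 331) ln11_10_4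 ln11_10_4_ok) (M (nat_lit 492) (B (L (nat_lit 396) ln12_15_7 ln12_15_7_ok) (L (nat_lit 459) ln11_11_4 ln11_11_4_ok))))) (M (nat_lit 460) (B (L (nat_lit 331) ln11_10_4 ln11_10_4_ok) (M (nat_lit 492) (B (L (nat_lit 396) ln12_15_7 ln12_15_7_ok) (L (nat_lit 461) ln13_11_5 ln13_11_5_ok))))))))))))) (B (M (nat_lit 460) (B (M (nat_lit 492) (B (L (nat_lit 461) ln13_11_5 ln13_11_5_ok) (L (nat_lit 524) ln12_16_7 ln12_16_7_ok))) (M (nat_lit 430) (B (L (nat_lit 394) ln14_13_3 ln14_13_3_ok) (M (nat_lit 459) (B (L (nat_lit 458) ln14_13_1 ln14_13_1_ok) (L (nat_lit 431) ln15_13_1 ln15_13_1_ok))))))) (M (nat_lit 396) (B (M (nat_lit 394) (B (L (nat_lit 366) ln10_12_2 ln10_12_2_ok) (L (nat_lit 393) ln9_12_0 ln9_12_0_ok))) (M (nat_lit 363) (B (M (nat_lit 460) (B (L (nat_lit 331) ln11_10_4 ln11_10_4_ok) (L (nat_lit 492) ln12_15_7 ln12_15_7_ok))) (M (nat_lit 398) (B (L (nat_lit 362) ln14_12_3 ln14_12_3_ok) (L (nat_lit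 399) ln15_12_1 ln15_12_1_ok))))))))))))))))
theorem c11_s10436 : Sem (nat_lit 1386334847383188664625224028427294411511058401076380296564914570976209309333027075361123041184442928399551202358502280908102434816) (nat_lit 54918381293831559960391324784748576400065969456859578274108622297365300204699362339209547228215488541707439742541203487751018049819966803959047547094579544064) (nat_lit 54918381293831559960391324784748576400065969456859578274108622297365300204699362339209547228215488541707439742541203487751018049819966803959047547094579544064) :=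
  sem_of_chk (M (nat_lit 428) (B (M (nat_lit 460) (B (L (nat_lit 333) ln13_10_5 ln13_10_5_ok) (M (nat_lit 492) (B (L (nat_lit 461) ln13_11_5 ln13_11_5_ok) (L (nat_lit 524) ln12_16_6 ln12_16_6_ok))))) (B c11_n10403 c11_n10435))) (nat_lit 1386334847383188664625224028427294411511058401076380296564914570976209309333027075361123041184442928399551202358502280908102434816) (nat_lit 54918381293831559960391324784748576400065969456859578274108622297365300204699362339209547228215488541707439742541203487751018049819966803959047547094579544064) (nat_lit 54918381293831559960391324784748576400065969456859578274108622297365300204699362339209547228215488541707439742541203487751018049819966803959047547094579544064) (by decide +kernel)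
theorem c11_s10478 : Sem (nat_lit 1386334847383188664550070665778531748218595021979121511688892729411143073470393764272092352380775458208712834410189682411080515584) (nat_lit 35039543960606817717768658456304984541572716003943573952943137774542383666509745555885369559398651818643931115492964959273606915330921913911395699585888053781497333755933991336624563495428281073664) (nat_lit 35039543960606817717768658456304984541572716003943573952943137774542383666509745555885369559398651818643931115492964959273606915330921913911395699585888053781497333755933991336624563495428281073664) :=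
  sem_of_chk (M (nat_lit 365) (B (M (nat_lit 333) (B (M (nat_lit 301) (B (M (nat_lit 300) (B (L (nat_lit 268) ln13_12_7 ln13_12_7_ok) (L (nat_lit 332) ln13_13_7 ln13_13_7_ok))) (M (nat_lit 428) (B (L (nat_lit 396) ln13_9_5 ln13_9_5_ok) (L (nat_lit 460) ln13_10_5 ln13_10_5_ok))))) (B (M (nat_lit 302) (B (L (nat_lit 334) ln13_13_6 ln13_13_6_ok) (M (nat_lit 301) (B (L (nat_lit 270) ln13_12_6 ln13_12_6_ok) (M (nat_lit 428) (B (L (nat_lit 396) ln13_9_5 ln13_9_5_ok) (L (nat_lit 460) ln13_10_5 ln13_10_5_ok))))))) (B (M (nat_lit 461) (B (M (nat_lit 334) (B (L (nat_lit 302) ln13_13_6 ln13_13_6_ok) (L (nat_lit 366) ln13_14_6 ln13_14_6_ok))) (M (nat_lit 460) (B (L (nat_lit 428) ln13_10_5 ln13_10_5_ok) (L (nat_lit 492) ln13_11_5 ln13_11_5_ok))))) (M (nat_lit 301) (B (M (nat_lit 300) (B (L (nat_lit 268) ln13_12_7 ln13_12_7_ok) (L (nat_lit 332) ln13_13_7 ln13_13_7_ok))) (M (nat_lit 302) (B (L (nat_lit 270) ln13_12_6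 ln13_12_6_ok) (L (nat_lit 334) ln13_13_6 ln13_13_6_ok))))))))) (B (M (nat_lit 366) (B (M (nat_lit 334) (B (L (nat_lit 461) ln13_14_6 ln13_14_6_ok) (M (nat_lit 302) (B (L (nat_lit 270) ln14_8_5 ln14_8_5_ok) (L (nat_lit 398) ln14_9_5 ln14_9_5_ok))))) (B (M (nat_lit 461) (B (L (nat_lit 334) ln13_14_6 ln13_14_6_ok) (M (nat_lit 493) (B (M (nat_lit 492) (B (L (nat_lit 460) ln13_11_5 ln13_11_5_ok) (L (nat_lit 524) ln13_12_5 ln13_12_5_ok))) (B (M (nat_lit 525) (B (M (nat_lit 524) (B (L (nat_lit 492) ln13_12_5 ln13_12_5_ok) (L (nat_lit 556) ln13_13_5 ln13_13_5_ok))) (M (nat_lit 526) (B (L (nat_lit 494) ln13_12_4 ln13_12_4_ok) (L (nat_lit 558) ln13_13_4 ln13_13_4_ok))))) (B (M (nat_lit 525) (B (M (nat_lit 526) (B (L (nat_lit 494) ln13_12_4 ln13_12_4_ok) (L (nat_lit 558) ln13_13_4 ln13_13_4_ok))) (M (nat_lit 557) (B (M (nat_lit 428) (B (L (nat_lit 396) ln13_16_7 ln13_16_7_ok) (L (nat_lit 460) ln13_17_7 ln13_17_7_ok)))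 (M (nat_lit 556) (B (L (nat_lit 524) ln13_13_5 ln13_13_5_ok) (L (nat_lit 588) ln13_14_5 ln13_14_5_ok))))))) (M (nat_lit 525) (B (M (nat_lit 526) (B (L (nat_lit 494) ln13_12_4 ln13_12_4_ok) (L (nat_lit 558) ln13_13_4 ln13_13_4_ok))) (M (nat_lit 428) (B (L (nat_lit 396) ln13_16_7 ln13_16_7_ok) (M (nat_lit 460) (B (L (nat_lit 492) ln13_11_5 ln13_11_5_ok) (L (nat_lit 557) ln13_17_7 ln13_17_7_ok))))))))))))) (B (K (nat_lit 1386334847383188664775530753724819738095985159270897866316958254106341781058293697539184418791777868781227938255127477902146273280) (nat_lit 35039543960606817717768658456304984541572716003943573952752601363978454736230288097197568729417285992749245080598498154514082361566072688785603297438279960883934544956985781734332235095904545144832) (nat_lit 35039543960606817717768658456304984541572716003943573952752601363978454736230288097197568729417285992749245080598498154514082361566072688785603297438279960883934544956985781734332235095904545144832)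 c11_s9527) (M (nat_lit 367) (B (M (nat_lit 396) (B (L (nat_lit 368) ln16_11_1 ln16_11_1_ok) (M (nat_lit 395) (B (L (nat_lit 394) ln10_12_2 ln10_12_2_ok) (L (nat_lit 398) ln11_12_2 ln11_12_2_ok))))) (B (K (nat_lit 1386334847383188665076144204319870391265838675659933005821045620366606724508826941895307174006447749544581410048377871890233950208) (nat_lit 319667051914823354277806253788386544174213275175059220183212343711682503008230646741288520074192836127802996497005656276312486879092880792037609177088) (nat_lit 319667051914823354277806253788386544174213275175059220183212343711682503008230646741288520074192836127802996497005656276312486879092880792037609177088) c11_s9781) (B (M (nat_lit 368) (B (L (nat_lit 396) ln16_11_1 ln16_11_1_ok) (M (nat_lit 369) (B (L (nat_lit 398) ln17_11_1 ln17_11_1_ok) (M (nat_lit 337) (B (L (nat_lit 336) ln13_11_2 ln13_11_2_ok) (L (nat_lit 338) ln14_11_2 ln14_11_2_ok)))))))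 (B (M (nat_lit 368) (B (M (nat_lit 369) (B (L (nat_lit 398) ln17_11_1 ln17_11_1_ok) (M (nat_lit 337) (B (L (nat_lit 336) ln13_11_2 ln13_11_2_ok) (L (nat_lit 338) ln14_11_2 ln14_11_2_ok))))) (B (M (nat_lit 369) (B (L (nat_lit 398) ln17_11_1 ln17_11_1_ok) (M (nat_lit 401) (B (L (nat_lit 400) ln13_11_0 ln13_11_0_ok) (L (nat_lit 402) ln14_11_0 ln14_11_0_ok))))) (B (M (nat_lit 400) (B (L (nat_lit 401) ln13_11_0 ln13_11_0_ok) (M (nat_lit 399) (B (M (nat_lit 336) (B (L (nat_lit 337) ln13_11_2 ln13_11_2_ok) (M (nat_lit 304) (B (L (nat_lit 272) ln16_8_5 ln16_8_5_ok) (L (nat_lit 431) ln16_9_5 ln16_9_5_ok))))) (M (nat_lit 432) (B (M (nat_lit 335) (B (L (nat_lit 303) ln15_9_4 ln15_9_4_ok) (L (nat_lit 464) ln16_14_7 ln16_14_7_ok))) (M (nat_lit 398) (B (L (nat_lit 428) ln16_12_1 ln16_12_1_ok) (L (nat_lit 433) ln13_12_0 ln13_12_0_ok))))))))) (M (nat_lit 369) (B (M (nat_lit 337) (B (L (nat_lit 336) ln13_11_2 ln13_11_2_ok)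 (L (nat_lit 338) ln14_11_2 ln14_11_2_ok))) (M (nat_lit 401) (B (L (nat_lit 400) ln13_11_0 ln13_11_0_ok) (L (nat_lit 402) ln14_11_0 ln14_11_0_ok))))))))) (M (nat_lit 368) (B (L (nat_lit 396) ln16_11_1 ln16_11_1_ok) (M (nat_lit 369) (B (M (nat_lit 337) (B (L (nat_lit 336) ln13_11_2 ln13_11_2_ok) (L (nat_lit 338) ln14_11_2 ln14_11_2_ok))) (M (nat_lit 401) (B (L (nat_lit 400) ln13_11_0 ln13_11_0_ok) (L (nat_lit 402) ln14_11_0 ln14_11_0_ok)))))))))))))))) (B (M (nat_lit 333) (B (M (nat_lit 301) (B (M (nat_lit 300) (B (L (nat_lit 268) ln13_12_7 ln13_12_7_ok) (L (nat_lit 332) ln13_13_7 ln13_13_7_ok))) (M (nat_lit 302) (B (L (nat_lit 270) ln13_12_6 ln13_12_6_ok) (L (nat_lit 334) ln13_13_6 ln13_13_6_ok))))) (B (M (nat_lit 334) (B (L (nat_lit 302) ln13_13_6 ln13_13_6_ok) (M (nat_lit 366) (B (L (nat_lit 461) ln13_14_6 ln13_14_6_ok) (M (nat_lit 332) (B (L (nat_lit 300) ln13_13_7 ln13_13_7_ok) (M (nat_lit 331)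 (B (L (nat_lit 330) ln10_10_0 ln10_10_0_ok) (L (nat_lit 367) ln11_10_0 ln11_10_0_ok))))))))) (B (M (nat_lit 301) (B (M (nat_lit 302) (B (L (nat_lit 270) ln13_12_6 ln13_12_6_ok) (L (nat_lit 334) ln13_13_6 ln13_13_6_ok))) (B (M (nat_lit 366) (B (M (nat_lit 398) (B (L (nat_lit 269) ln13_8_4 ln13_8_4_ok) (L (nat_lit 430) ln13_9_4 ln13_9_4_ok))) (M (nat_lit 334) (B (L (nat_lit 302) ln13_13_6 ln13_13_6_ok) (L (nat_lit 461) ln13_14_6 ln13_14_6_ok))))) (M (nat_lit 269) (B (M (nat_lit 398) (B (L (nat_lit 366) ln13_8_4 ln13_8_4_ok) (L (nat_lit 430) ln13_9_4 ln13_9_4_ok))) (M (nat_lit 237) (B (M (nat_lit 236) (B (L (nat_lit 204) ln13_10_7 ln13_10_7_ok) (L (nat_lit 268) ln13_11_7 ln13_11_7_ok))) (M (nat_lit 238) (B (L (nat_lit 206) ln13_10_6 ln13_10_6_ok) (L (nat_lit 270) ln13_11_6 ln13_11_6_ok)))))))))) (B (M (nat_lit 301) (B (M (nat_lit 300) (B (L (nat_lit 268) ln13_12_7 ln13_12_7_ok) (L (nat_lit 332) ln13_13_7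 ln13_13_7_ok))) (M (nat_lit 398) (B (L (nat_lit 430) ln13_9_4 ln13_9_4_ok) (M (nat_lit 366) (B (L (nat_lit 269) ln13_8_4 ln13_8_4_ok) (M (nat_lit 461) (B (L (nat_lit 334) ln13_14_6 ln13_14_6_ok) (L (nat_lit 493) ln13_15_6 ln13_15_6_ok))))))))) (M (nat_lit 301) (B (M (nat_lit 300) (B (L (nat_lit 268) ln13_12_7 ln13_12_7_ok) (L (nat_lit 332) ln13_13_7 ln13_13_7_ok))) (M (nat_lit 269) (B (M (nat_lit 270) (B (L (nat_lit 238) ln13_11_6 ln13_11_6_ok) (L (nat_lit 302) ln13_12_6 ln13_12_6_ok))) (M (nat_lit 398) (B (L (nat_lit 366) ln13_8_4 ln13_8_4_ok) (L (nat_lit 430) ln13_9_4 ln13_9_4_ok)))))))))))) (B (K (nat_lit 1386334847383188664625224028427294411511058401076380296564914570976209309333027075361123041184442928399551202358502280908102434816) (nat_lit 294840814535290085408076681436561964816925672723148097347205508795491641698740644799563090199830480609911555863924506968542718891580706874122963305788107413785497567232)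 (nat_lit 294840814535290085408076681436561964816925672723148097347205508795491641698740644799563090199830480609911555863924506968542718891580706874122963305788107413785497567232) c11_s10239) (B (K (nat_lit 1386334847383188664625224028427294411511058401076380296564914570976209309333027075361123041184442928399551202358502280908102434816) (nat_lit 54918381293831559960391324784748576400065969456859578274108622297365300204699362339209547228215488541707439742541203487751018049819966803959047547094579544064) (nat_lit 54918381293831559960391324784748576400065969456859578274108622297365300204699362339209547228215488541707439742541203487751018049819966803959047547094579544064) c11_s10436) (B (M (nat_lit 333) (B (M (nat_lit 301) (B (M (nat_lit 300) (B (L (nat_lit 268) ln13_12_7 ln13_12_7_ok) (L (nat_lit 332) ln13_13_7 ln13_13_7_ok))) (M (nat_lit 428) (B (L (nat_lit 396) ln13_9_5 ln13_9_5_ok) (L (nat_lit 460)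 ln13_10_5 ln13_10_5_ok))))) (B (M (nat_lit 366) (B (M (nat_lit 460) (B (L (nat_lit 428) ln13_10_5 ln13_10_5_ok) (M (nat_lit 461) (B (L (nat_lit 334) ln13_14_6 ln13_14_6_ok) (L (nat_lit 492) ln13_11_5 ln13_11_5_ok))))) (B (M (nat_lit 301) (B (M (nat_lit 428) (B (L (nat_lit 396) ln13_9_5 ln13_9_5_ok) (L (nat_lit 460) ln13_10_5 ln13_10_5_ok))) (M (nat_lit 398) (B (L (nat_lit 269) ln13_8_4 ln13_8_4_ok) (L (nat_lit 430) ln13_9_4 ln13_9_4_ok))))) (M (nat_lit 398) (B (M (nat_lit 301) (B (L (nat_lit 269) ln13_8_4 ln13_8_4_ok) (L (nat_lit 430) ln13_9_4 ln13_9_4_ok))) (M (nat_lit 461) (B (L (nat_lit 334) ln13_14_6 ln13_14_6_ok) (L (nat_lit 493) ln13_15_6 ln13_15_6_ok)))))))) (B (M (nat_lit 461) (B (M (nat_lit 460) (B (L (nat_lit 428) ln13_10_5 ln13_10_5_ok) (L (nat_lit 492) ln13_11_5 ln13_11_5_ok))) (B (M (nat_lit 493) (B (M (nat_lit 366) (B (L (nat_lit 334) ln13_14_6 ln13_14_6_ok) (L (nat_lit 398) ln13_15_6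 ln13_15_6_ok))) (M (nat_lit 492) (B (L (nat_lit 460) ln13_11_5 ln13_11_5_ok) (L (nat_lit 524) ln13_12_5 ln13_12_5_ok))))) (B (M (nat_lit 493) (B (M (nat_lit 366) (B (L (nat_lit 334) ln13_14_6 ln13_14_6_ok) (L (nat_lit 398) ln13_15_6 ln13_15_6_ok))) (M (nat_lit 525) (B (M (nat_lit 524) (B (L (nat_lit 492) ln13_12_5 ln13_12_5_ok) (L (nat_lit 556) ln13_13_5 ln13_13_5_ok))) (M (nat_lit 526) (B (L (nat_lit 494) ln13_12_4 ln13_12_4_ok) (L (nat_lit 558) ln13_13_4 ln13_13_4_ok))))))) (M (nat_lit 493) (B (M (nat_lit 366) (B (L (nat_lit 334) ln13_14_6 ln13_14_6_ok) (L (nat_lit 398) ln13_15_6 ln13_15_6_ok))) (M (nat_lit 525) (B (M (nat_lit 428) (B (L (nat_lit 460) ln13_10_5 ln13_10_5_ok) (L (nat_lit 396) ln13_16_7 ln13_16_7_ok))) (M (nat_lit 526) (B (L (nat_lit 494) ln13_12_4 ln13_12_4_ok) (L (nat_lit 558) ln13_13_4 ln13_13_4_ok))))))))))) (B (M (nat_lit 366) (B (M (nat_lit 460) (B (L (nat_lit 428) ln13_10_5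 ln13_10_5_ok) (M (nat_lit 461) (B (L (nat_lit 334) ln13_14_6 ln13_14_6_ok) (L (nat_lit 492) ln13_11_5 ln13_11_5_ok))))) (M (nat_lit 301) (B (M (nat_lit 300) (B (L (nat_lit 268) ln13_12_7 ln13_12_7_ok) (L (nat_lit 332) ln13_13_7 ln13_13_7_ok))) (M (nat_lit 398) (B (L (nat_lit 269) ln13_8_4 ln13_8_4_ok) (L (nat_lit 430) ln13_9_4 ln13_9_4_ok))))))) (M (nat_lit 301) (B (M (nat_lit 300) (B (L (nat_lit 268) ln13_12_7 ln13_12_7_ok) (L (nat_lit 332) ln13_13_7 ln13_13_7_ok))) (M (nat_lit 398) (B (L (nat_lit 430) ln13_9_4 ln13_9_4_ok) (M (nat_lit 366) (B (L (nat_lit 269) ln13_8_4 ln13_8_4_ok) (M (nat_lit 461) (B (L (nat_lit 334) ln13_14_6 ln13_14_6_ok) (L (nat_lit 493) ln13_15_6 ln13_15_6_ok)))))))))))))) (M (nat_lit 333) (B (M (nat_lit 301) (B (M (nat_lit 300) (B (L (nat_lit 268) ln13_12_7 ln13_12_7_ok) (L (nat_lit 332) ln13_13_7 ln13_13_7_ok))) (M (nat_lit 302) (B (L (nat_lit 270) ln13_12_6 ln13_12_6_ok)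 (L (nat_lit 334) ln13_13_6 ln13_13_6_ok))))) (B (M (nat_lit 302) (B (L (nat_lit 334) ln13_13_6 ln13_13_6_ok) (M (nat_lit 301) (B (L (nat_lit 270) ln13_12_6 ln13_12_6_ok) (M (nat_lit 428) (B (L (nat_lit 396) ln13_9_5 ln13_9_5_ok) (L (nat_lit 460) ln13_10_5 ln13_10_5_ok))))))) (B (M (nat_lit 301) (B (M (nat_lit 300) (B (L (nat_lit 268) ln13_12_7 ln13_12_7_ok) (L (nat_lit 332) ln13_13_7 ln13_13_7_ok))) (M (nat_lit 428) (B (L (nat_lit 396) ln13_9_5 ln13_9_5_ok) (L (nat_lit 460) ln13_10_5 ln13_10_5_ok))))) (M (nat_lit 334) (B (L (nat_lit 302) ln13_13_6 ln13_13_6_ok) (M (nat_lit 332) (B (L (nat_lit 300) ln13_13_7 ln13_13_7_ok) (M (nat_lit 331) (B (M (nat_lit 366) (B (L (nat_lit 330) ln10_10_0 ln10_10_0_ok) (L (nat_lit 367) ln11_10_0 ln11_10_0_ok))) (B (M (nat_lit 335) (B (M (nat_lit 367) (B (L (nat_lit 366) ln11_10_0 ln11_10_0_ok) (L (nat_lit 368) ln12_10_0 ln12_10_0_ok))) (B (M (nat_lit 336) (B (M (nat_lit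 304) (B (L (nat_lit 303) ln12_10_2 ln12_10_2_ok) (L (nat_lit 305) ln13_10_2 ln13_10_2_ok))) (M (nat_lit 368) (B (L (nat_lit 367) ln12_10_0 ln12_10_0_ok) (L (nat_lit 369) ln13_10_0 ln13_10_0_ok))))) (B (M (nat_lit 336) (B (M (nat_lit 304) (B (L (nat_lit 303) ln12_10_2 ln12_10_2_ok) (L (nat_lit 305) ln13_10_2 ln13_10_2_ok))) (M (nat_lit 337) (B (L (nat_lit 366) ln17_10_1 ln17_10_1_ok) (M (nat_lit 369) (B (L (nat_lit 368) ln13_10_0 ln13_10_0_ok) (L (nat_lit 370) ln14_10_0 ln14_10_0_ok))))))) (M (nat_lit 336) (B (M (nat_lit 304) (B (L (nat_lit 303) ln12_10_2 ln12_10_2_ok) (L (nat_lit 305) ln13_10_2 ln13_10_2_ok))) (M (nat_lit 366) (B (L (nat_lit 367) ln11_10_0 ln11_10_0_ok) (L (nat_lit 337) ln17_10_1 ln17_10_1_ok))))))))) (M (nat_lit 330) (B (M (nat_lit 298) (B (L (nat_lit 297) ln13_10_3 ln13_10_3_ok) (L (nat_lit 299) ln14_10_3 ln14_10_3_ok))) (M (nat_lit 362) (B (L (nat_lit 361) ln13_10_1 ln13_10_1_ok)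 (L (nat_lit 363) ln14_10_1 ln14_10_1_ok))))))))))))))))))))))) (nat_lit 1386334847383188664550070665778531748218595021979121511688892729411143073470393764272092352380775458208712834410189682411080515584) (nat_lit 35039543960606817717768658456304984541572716003943573952943137774542383666509745555885369559398651818643931115492964959273606915330921913911395699585888053781497333755933991336624563495428281073664) (nat_lit 35039543960606817717768658456304984541572716003943573952943137774542383666509745555885369559398651818643931115492964959273606915330921913911395699585888053781497333755933991336624563495428281073664) (by decide +kernel)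
noncomputable def c11_n10510 : Cert := (M (nat_lit 364) (B (M (nat_lit 332) (B (L (nat_lit 461) ln13_14_7 ln13_14_7_ok) (M (nat_lit 300) (B (L (nat_lit 268) ln12_8_4 ln12_8_4_ok) (L (nat_lit 396) ln12_9_4 ln12_9_4_ok))))) (B (M (nat_lit 461) (B (L (nat_lit 332) ln13_14_7 ln13_14_7_ok) (M (nat_lit 493) (B (L (nat_lit 396) ln13_15_7 ln13_15_7_ok) (M (nat_lit 492) (B (L (nat_lit 460) ln13_11_5 ln13_11_5_ok) (L (nat_lit 524) ln13_12_5 ln13_12_5_ok))))))) (B (M (nat_lit 366) (B (M (nat_lit 461) (B (L (nat_lit 334) ln13_14_6 ln13_14_6_ok) (M (nat_lit 493) (B (L (nat_lit 396) ln13_15_7 ln13_15_7_ok) (L (nat_lit 398) ln13_15_6 ln13_15_6_ok))))) (B (M (nat_lit 363) (B (M (nat_lit 398) (B (L (nat_lit 362) ln10_11_0 ln10_11_0_ok) (L (nat_lit 399) ln11_11_0 ln11_11_0_ok))) (B (M (nat_lit 367) (B (M (nat_lit 399) (B (L (nat_lit 398) ln11_11_0 ln11_11_0_ok) (L (nat_lit 400) ln12_11_0 ln12_11_0_ok))) (M (nat_lit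 368) (B (L (nat_lit 396) ln16_11_1 ln16_11_1_ok) (M (nat_lit 336) (B (L (nat_lit 335) ln12_11_2 ln12_11_2_ok) (L (nat_lit 337) ln13_11_2 ln13_11_2_ok))))))) (M (nat_lit 362) (B (M (nat_lit 330) (B (L (nat_lit 329) ln13_11_3 ln13_11_3_ok) (L (nat_lit 331) ln14_11_3 ln14_11_3_ok))) (M (nat_lit 361) (B (L (nat_lit 396) ln9_11_0 ln9_11_0_ok) (M (nat_lit 393) (B (L (nat_lit 392) ln12_11_1 ln12_11_1_ok) (L (nat_lit 394) ln13_11_1 ln13_11_1_ok)))))))))) (B (M (nat_lit 363) (B (M (nat_lit 334) (B (L (nat_lit 335) ln11_11_2 ln11_11_2_ok) (L (nat_lit 461) ln13_14_6 ln13_14_6_ok))) (M (nat_lit 398) (B (L (nat_lit 362) ln10_11_0 ln10_11_0_ok) (L (nat_lit 399) ln11_11_0 ln11_11_0_ok))))) (M (nat_lit 461) (B (L (nat_lit 334) ln13_14_6 ln13_14_6_ok) (M (nat_lit 492) (B (L (nat_lit 460) ln13_11_5 ln13_11_5_ok) (M (nat_lit 493) (B (L (nat_lit 396) ln13_15_7 ln13_15_7_ok) (L (nat_lit 524) ln13_12_5 ln13_12_5_ok)))))))))))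 (B (M (nat_lit 461) (B (L (nat_lit 332) ln13_14_7 ln13_14_7_ok) (M (nat_lit 493) (B (M (nat_lit 366) (B (L (nat_lit 334) ln13_14_6 ln13_14_6_ok) (L (nat_lit 398) ln13_15_6 ln13_15_6_ok))) (M (nat_lit 492) (B (L (nat_lit 460) ln13_11_5 ln13_11_5_ok) (L (nat_lit 524) ln13_12_5 ln13_12_5_ok))))))) (M (nat_lit 363) (B (M (nat_lit 398) (B (L (nat_lit 362) ln10_11_0 ln10_11_0_ok) (M (nat_lit 399) (B (L (nat_lit 366) ln11_11_0 ln11_11_0_ok) (L (nat_lit 396) ln15_12_3 ln15_12_3_ok))))) (B (M (nat_lit 366) (B (M (nat_lit 334) (B (L (nat_lit 335) ln11_11_2 ln11_11_2_ok) (M (nat_lit 398) (B (L (nat_lit 302) ln14_9_5 ln14_9_5_ok) (L (nat_lit 399) ln11_11_0 ln11_11_0_ok))))) (B (M (nat_lit 367) (B (M (nat_lit 331) (B (L (nat_lit 330) ln14_11_3 ln14_11_3_ok) (L (nat_lit 332) ln15_11_3 ln15_11_3_ok))) (M (nat_lit 399) (B (L (nat_lit 398) ln11_11_0 ln11_11_0_ok) (L (nat_lit 400) ln12_11_0 ln12_11_0_ok))))) (M (nat_lit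 367) (B (M (nat_lit 331) (B (L (nat_lit 330) ln14_11_3 ln14_11_3_ok) (L (nat_lit 332) ln15_11_3 ln15_11_3_ok))) (M (nat_lit 335) (B (L (nat_lit 334) ln11_11_2 ln11_11_2_ok) (L (nat_lit 336) ln12_11_2 ln12_11_2_ok)))))))) (B (M (nat_lit 398) (B (L (nat_lit 362) ln10_11_0 ln10_11_0_ok) (M (nat_lit 399) (B (L (nat_lit 396) ln15_12_3 ln15_12_3_ok) (L (nat_lit 400) ln16_12_3 ln16_12_3_ok))))) (B (M (nat_lit 366) (B (M (nat_lit 367) (B (M (nat_lit 331) (B (L (nat_lit 330) ln14_11_3 ln14_11_3_ok) (L (nat_lit 332) ln15_11_3 ln15_11_3_ok))) (M (nat_lit 335) (B (L (nat_lit 334) ln11_11_2 ln11_11_2_ok) (L (nat_lit 336) ln12_11_2 ln12_11_2_ok))))) (B (M (nat_lit 367) (B (M (nat_lit 335) (B (L (nat_lit 334) ln11_11_2 ln11_11_2_ok) (L (nat_lit 336) ln12_11_2 ln12_11_2_ok))) (M (nat_lit 368) (B (L (nat_lit 396) ln16_11_1 ln16_11_1_ok) (M (nat_lit 400) (B (L (nat_lit 399) ln12_11_0 ln12_11_0_ok) (L (nat_lit 401)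 ln13_11_0 ln13_11_0_ok))))))) (B (M (nat_lit 367) (B (M (nat_lit 331) (B (L (nat_lit 330) ln14_11_3 ln14_11_3_ok) (L (nat_lit 332) ln15_11_3 ln15_11_3_ok))) (M (nat_lit 368) (B (L (nat_lit 396) ln16_11_1 ln16_11_1_ok) (M (nat_lit 400) (B (L (nat_lit 399) ln12_11_0 ln12_11_0_ok) (L (nat_lit 401) ln13_11_0 ln13_11_0_ok))))))) (M (nat_lit 362) (B (M (nat_lit 330) (B (L (nat_lit 329) ln13_11_3 ln13_11_3_ok) (L (nat_lit 331) ln14_11_3 ln14_11_3_ok))) (M (nat_lit 361) (B (L (nat_lit 396) ln9_11_0 ln9_11_0_ok) (M (nat_lit 393) (B (L (nat_lit 392) ln12_11_1 ln12_11_1_ok) (L (nat_lit 394) ln13_11_1 ln13_11_1_ok))))))))))) (M (nat_lit 362) (B (L (nat_lit 398) ln10_11_0 ln10_11_0_ok) (M (nat_lit 361) (B (L (nat_lit 396) ln9_11_0 ln9_11_0_ok) (M (nat_lit 393) (B (L (nat_lit 392) ln12_11_1 ln12_11_1_ok) (L (nat_lit 394) ln13_11_1 ln13_11_1_ok)))))))))))))))))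
theorem c11_s10521 : Sem (nat_lit 1386334847383188664550070665778531748218595021979121511688892729411143073470393764272092352380775458208712834410189682411080515584) (nat_lit 54918381319404923915069513179478467096490455548494069323124366234205653292193935129729319674781649938500833251819506310855304337236320684042984465303789895680) (nat_lit 54918381319404923915069513179478467096490455548494069323124366234205653292193935129729319674781649938500833251819506310855304337236320684042984465303789895680) :=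
  sem_of_chk (M (nat_lit 365) (B (M (nat_lit 333) (B (M (nat_lit 334) (B (L (nat_lit 302) ln13_13_6 ln13_13_6_ok) (M (nat_lit 461) (B (L (nat_lit 366) ln13_14_6 ln13_14_6_ok) (M (nat_lit 332) (B (L (nat_lit 300) ln13_13_7 ln13_13_7_ok) (L (nat_lit 364) ln13_14_7 ln13_14_7_ok))))))) (B (M (nat_lit 461) (B (M (nat_lit 334) (B (L (nat_lit 302) ln13_13_6 ln13_13_6_ok) (L (nat_lit 366) ln13_14_6 ln13_14_6_ok))) (M (nat_lit 460) (B (L (nat_lit 428) ln13_10_5 ln13_10_5_ok) (L (nat_lit 492) ln13_11_5 ln13_11_5_ok))))) (B (M (nat_lit 461) (B (M (nat_lit 332) (B (L (nat_lit 300) ln13_13_7 ln13_13_7_ok) (L (nat_lit 364) ln13_14_7 ln13_14_7_ok))) (M (nat_lit 460) (B (L (nat_lit 428) ln13_10_5 ln13_10_5_ok) (L (nat_lit 492) ln13_11_5 ln13_11_5_ok))))) (M (nat_lit 301) (B (M (nat_lit 300) (B (L (nat_lit 268) ln13_12_7 ln13_12_7_ok) (L (nat_lit 332) ln13_13_7 ln13_13_7_ok))) (M (nat_lit 428) (B (L (nat_lit 396)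 ln13_9_5 ln13_9_5_ok) (L (nat_lit 460) ln13_10_5 ln13_10_5_ok))))))))) (B (M (nat_lit 333) (B (M (nat_lit 334) (B (L (nat_lit 302) ln13_13_6 ln13_13_6_ok) (M (nat_lit 461) (B (L (nat_lit 366) ln13_14_6 ln13_14_6_ok) (M (nat_lit 332) (B (L (nat_lit 300) ln13_13_7 ln13_13_7_ok) (L (nat_lit 364) ln13_14_7 ln13_14_7_ok))))))) (B (M (nat_lit 461) (B (M (nat_lit 334) (B (L (nat_lit 302) ln13_13_6 ln13_13_6_ok) (L (nat_lit 366) ln13_14_6 ln13_14_6_ok))) (M (nat_lit 460) (B (L (nat_lit 428) ln13_10_5 ln13_10_5_ok) (L (nat_lit 492) ln13_11_5 ln13_11_5_ok))))) (B (M (nat_lit 461) (B (M (nat_lit 332) (B (L (nat_lit 300) ln13_13_7 ln13_13_7_ok) (L (nat_lit 364) ln13_14_7 ln13_14_7_ok))) (M (nat_lit 460) (B (L (nat_lit 428) ln13_10_5 ln13_10_5_ok) (L (nat_lit 492) ln13_11_5 ln13_11_5_ok))))) (M (nat_lit 302) (B (L (nat_lit 334) ln13_13_6 ln13_13_6_ok) (M (nat_lit 301) (B (L (nat_lit 270) ln13_12_6 ln13_12_6_ok)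 (M (nat_lit 428) (B (L (nat_lit 396) ln13_9_5 ln13_9_5_ok) (L (nat_lit 460) ln13_10_5 ln13_10_5_ok))))))))))) (B (M (nat_lit 461) (B (M (nat_lit 493) (B (M (nat_lit 364) (B (L (nat_lit 332) ln13_14_7 ln13_14_7_ok) (L (nat_lit 396) ln13_15_7 ln13_15_7_ok))) (M (nat_lit 366) (B (L (nat_lit 334) ln13_14_6 ln13_14_6_ok) (L (nat_lit 398) ln13_15_6 ln13_15_6_ok))))) (B (M (nat_lit 493) (B (M (nat_lit 366) (B (L (nat_lit 334) ln13_14_6 ln13_14_6_ok) (L (nat_lit 398) ln13_15_6 ln13_15_6_ok))) (M (nat_lit 492) (B (L (nat_lit 460) ln13_11_5 ln13_11_5_ok) (L (nat_lit 524) ln13_12_5 ln13_12_5_ok))))) (B (M (nat_lit 493) (B (M (nat_lit 364) (B (L (nat_lit 332) ln13_14_7 ln13_14_7_ok) (L (nat_lit 396) ln13_15_7 ln13_15_7_ok))) (M (nat_lit 492) (B (L (nat_lit 460) ln13_11_5 ln13_11_5_ok) (L (nat_lit 524) ln13_12_5 ln13_12_5_ok))))) (M (nat_lit 333) (B (M (nat_lit 334) (B (L (nat_lit 302) ln13_13_6 ln13_13_6_ok)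 (L (nat_lit 366) ln13_14_6 ln13_14_6_ok))) (M (nat_lit 460) (B (L (nat_lit 428) ln13_10_5 ln13_10_5_ok) (L (nat_lit 492) ln13_11_5 ln13_11_5_ok))))))))) (B (M (nat_lit 461) (B (M (nat_lit 493) (B (M (nat_lit 364) (B (L (nat_lit 332) ln13_14_7 ln13_14_7_ok) (L (nat_lit 396) ln13_15_7 ln13_15_7_ok))) (M (nat_lit 366) (B (L (nat_lit 334) ln13_14_6 ln13_14_6_ok) (L (nat_lit 398) ln13_15_6 ln13_15_6_ok))))) (B (M (nat_lit 493) (B (M (nat_lit 366) (B (L (nat_lit 334) ln13_14_6 ln13_14_6_ok) (L (nat_lit 398) ln13_15_6 ln13_15_6_ok))) (M (nat_lit 492) (B (L (nat_lit 460) ln13_11_5 ln13_11_5_ok) (L (nat_lit 524) ln13_12_5 ln13_12_5_ok))))) (B (M (nat_lit 493) (B (M (nat_lit 364) (B (L (nat_lit 332) ln13_14_7 ln13_14_7_ok) (L (nat_lit 396) ln13_15_7 ln13_15_7_ok))) (M (nat_lit 492) (B (L (nat_lit 460) ln13_11_5 ln13_11_5_ok) (L (nat_lit 524) ln13_12_5 ln13_12_5_ok))))) (M (nat_lit 460) (B (L (nat_lit 492)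 ln13_11_5 ln13_11_5_ok) (M (nat_lit 332) (B (L (nat_lit 364) ln13_14_7 ln13_14_7_ok) (M (nat_lit 333) (B (L (nat_lit 300) ln13_13_7 ln13_13_7_ok) (L (nat_lit 428) ln13_10_5 ln13_10_5_ok))))))))))) (B (M (nat_lit 333) (B (M (nat_lit 302) (B (L (nat_lit 334) ln13_13_6 ln13_13_6_ok) (M (nat_lit 301) (B (L (nat_lit 270) ln13_12_6 ln13_12_6_ok) (M (nat_lit 428) (B (L (nat_lit 396) ln13_9_5 ln13_9_5_ok) (L (nat_lit 460) ln13_10_5 ln13_10_5_ok))))))) (B (M (nat_lit 461) (B (M (nat_lit 334) (B (L (nat_lit 302) ln13_13_6 ln13_13_6_ok) (L (nat_lit 366) ln13_14_6 ln13_14_6_ok))) (M (nat_lit 460) (B (L (nat_lit 428) ln13_10_5 ln13_10_5_ok) (L (nat_lit 492) ln13_11_5 ln13_11_5_ok))))) (B (M (nat_lit 301) (B (M (nat_lit 428) (B (L (nat_lit 396) ln13_9_5 ln13_9_5_ok) (L (nat_lit 460) ln13_10_5 ln13_10_5_ok))) (M (nat_lit 269) (B (M (nat_lit 268) (B (L (nat_lit 236) ln13_11_7 ln13_11_7_ok) (L (nat_lit 300) ln13_12_7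 ln13_12_7_ok))) (M (nat_lit 398) (B (L (nat_lit 366) ln13_8_4 ln13_8_4_ok) (L (nat_lit 430) ln13_9_4 ln13_9_4_ok))))))) (M (nat_lit 301) (B (M (nat_lit 302) (B (L (nat_lit 270) ln13_12_6 ln13_12_6_ok) (L (nat_lit 334) ln13_13_6 ln13_13_6_ok))) (M (nat_lit 269) (B (M (nat_lit 268) (B (L (nat_lit 236) ln13_11_7 ln13_11_7_ok) (L (nat_lit 300) ln13_12_7 ln13_12_7_ok))) (M (nat_lit 398) (B (L (nat_lit 366) ln13_8_4 ln13_8_4_ok) (L (nat_lit 430) ln13_9_4 ln13_9_4_ok))))))))))) (B c11_n10510 (B (M (nat_lit 333) (B (M (nat_lit 301) (B (M (nat_lit 300) (B (L (nat_lit 268) ln13_12_7 ln13_12_7_ok) (L (nat_lit 332) ln13_13_7 ln13_13_7_ok))) (M (nat_lit 428) (B (L (nat_lit 396) ln13_9_5 ln13_9_5_ok) (L (nat_lit 460) ln13_10_5 ln13_10_5_ok))))) (B (M (nat_lit 461) (B (M (nat_lit 332) (B (L (nat_lit 300) ln13_13_7 ln13_13_7_ok) (L (nat_lit 364) ln13_14_7 ln13_14_7_ok))) (M (nat_lit 460) (B (L (nat_lit 428) ln13_10_5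 ln13_10_5_ok) (L (nat_lit 492) ln13_11_5 ln13_11_5_ok))))) (B (M (nat_lit 301) (B (M (nat_lit 428) (B (L (nat_lit 396) ln13_9_5 ln13_9_5_ok) (L (nat_lit 460) ln13_10_5 ln13_10_5_ok))) (M (nat_lit 269) (B (M (nat_lit 270) (B (L (nat_lit 238) ln13_11_6 ln13_11_6_ok) (L (nat_lit 302) ln13_12_6 ln13_12_6_ok))) (M (nat_lit 398) (B (L (nat_lit 366) ln13_8_4 ln13_8_4_ok) (L (nat_lit 430) ln13_9_4 ln13_9_4_ok))))))) (M (nat_lit 301) (B (M (nat_lit 300) (B (L (nat_lit 268) ln13_12_7 ln13_12_7_ok) (L (nat_lit 332) ln13_13_7 ln13_13_7_ok))) (M (nat_lit 269) (B (M (nat_lit 270) (B (L (nat_lit 238) ln13_11_6 ln13_11_6_ok) (L (nat_lit 302) ln13_12_6 ln13_12_6_ok))) (M (nat_lit 398) (B (L (nat_lit 366) ln13_8_4 ln13_8_4_ok) (L (nat_lit 430) ln13_9_4 ln13_9_4_ok))))))))))) (B (M (nat_lit 333) (B (M (nat_lit 302) (B (L (nat_lit 334) ln13_13_6 ln13_13_6_ok) (M (nat_lit 301) (B (L (nat_lit 270) ln13_12_6 ln13_12_6_ok)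 (M (nat_lit 428) (B (L (nat_lit 396) ln13_9_5 ln13_9_5_ok) (L (nat_lit 460) ln13_10_5 ln13_10_5_ok))))))) (B (M (nat_lit 301) (B (M (nat_lit 300) (B (L (nat_lit 268) ln13_12_7 ln13_12_7_ok) (L (nat_lit 332) ln13_13_7 ln13_13_7_ok))) (M (nat_lit 428) (B (L (nat_lit 396) ln13_9_5 ln13_9_5_ok) (L (nat_lit 460) ln13_10_5 ln13_10_5_ok))))) (B (M (nat_lit 461) (B (M (nat_lit 332) (B (L (nat_lit 300) ln13_13_7 ln13_13_7_ok) (L (nat_lit 364) ln13_14_7 ln13_14_7_ok))) (M (nat_lit 460) (B (L (nat_lit 428) ln13_10_5 ln13_10_5_ok) (L (nat_lit 492) ln13_11_5 ln13_11_5_ok))))) (M (nat_lit 301) (B (M (nat_lit 300) (B (L (nat_lit 268) ln13_12_7 ln13_12_7_ok) (L (nat_lit 332) ln13_13_7 ln13_13_7_ok))) (M (nat_lit 302) (B (L (nat_lit 270) ln13_12_6 ln13_12_6_ok) (L (nat_lit 334) ln13_13_6 ln13_13_6_ok))))))))) (B (M (nat_lit 333) (B (M (nat_lit 334) (B (L (nat_lit 302) ln13_13_6 ln13_13_6_ok) (M (nat_lit 461) (B (L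 (nat_lit 366) ln13_14_6 ln13_14_6_ok) (M (nat_lit 332) (B (L (nat_lit 300) ln13_13_7 ln13_13_7_ok) (L (nat_lit 364) ln13_14_7 ln13_14_7_ok))))))) (B (M (nat_lit 461) (B (M (nat_lit 334) (B (L (nat_lit 302) ln13_13_6 ln13_13_6_ok) (L (nat_lit 366) ln13_14_6 ln13_14_6_ok))) (M (nat_lit 460) (B (L (nat_lit 428) ln13_10_5 ln13_10_5_ok) (L (nat_lit 492) ln13_11_5 ln13_11_5_ok))))) (B (M (nat_lit 461) (B (M (nat_lit 332) (B (L (nat_lit 300) ln13_13_7 ln13_13_7_ok) (L (nat_lit 364) ln13_14_7 ln13_14_7_ok))) (M (nat_lit 460) (B (L (nat_lit 428) ln13_10_5 ln13_10_5_ok) (L (nat_lit 492) ln13_11_5 ln13_11_5_ok))))) (M (nat_lit 301) (B (M (nat_lit 300) (B (L (nat_lit 268) ln13_12_7 ln13_12_7_ok) (L (nat_lit 332) ln13_13_7 ln13_13_7_ok))) (M (nat_lit 302) (B (L (nat_lit 270) ln13_12_6 ln13_12_6_ok) (L (nat_lit 334) ln13_13_6 ln13_13_6_ok))))))))) (B (M (nat_lit 333) (B (M (nat_lit 301) (B (M (nat_lit 300) (B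 (L (nat_lit 268) ln13_12_7 ln13_12_7_ok) (L (nat_lit 332) ln13_13_7 ln13_13_7_ok))) (M (nat_lit 302) (B (L (nat_lit 270) ln13_12_6 ln13_12_6_ok) (L (nat_lit 334) ln13_13_6 ln13_13_6_ok))))) (B (M (nat_lit 334) (B (L (nat_lit 302) ln13_13_6 ln13_13_6_ok) (M (nat_lit 461) (B (L (nat_lit 366) ln13_14_6 ln13_14_6_ok) (M (nat_lit 332) (B (L (nat_lit 300) ln13_13_7 ln13_13_7_ok) (L (nat_lit 364) ln13_14_7 ln13_14_7_ok))))))) (B (M (nat_lit 301) (B (M (nat_lit 302) (B (L (nat_lit 270) ln13_12_6 ln13_12_6_ok) (L (nat_lit 334) ln13_13_6 ln13_13_6_ok))) (M (nat_lit 269) (B (M (nat_lit 396) (B (L (nat_lit 364) ln13_8_5 ln13_8_5_ok) (L (nat_lit 428) ln13_9_5 ln13_9_5_ok))) (M (nat_lit 398) (B (L (nat_lit 366) ln13_8_4 ln13_8_4_ok) (L (nat_lit 430) ln13_9_4 ln13_9_4_ok))))))) (M (nat_lit 301) (B (M (nat_lit 300) (B (L (nat_lit 268) ln13_12_7 ln13_12_7_ok) (L (nat_lit 332) ln13_13_7 ln13_13_7_ok))) (M (nat_lit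 269) (B (M (nat_lit 396) (B (L (nat_lit 364) ln13_8_5 ln13_8_5_ok) (L (nat_lit 428) ln13_9_5 ln13_9_5_ok))) (M (nat_lit 398) (B (L (nat_lit 366) ln13_8_4 ln13_8_4_ok) (L (nat_lit 430) ln13_9_4 ln13_9_4_ok))))))))))) (M (nat_lit 333) (B (M (nat_lit 302) (B (L (nat_lit 334) ln13_13_6 ln13_13_6_ok) (M (nat_lit 301) (B (L (nat_lit 270) ln13_12_6 ln13_12_6_ok) (M (nat_lit 428) (B (L (nat_lit 396) ln13_9_5 ln13_9_5_ok) (L (nat_lit 460) ln13_10_5 ln13_10_5_ok))))))) (B (M (nat_lit 301) (B (M (nat_lit 300) (B (L (nat_lit 268) ln13_12_7 ln13_12_7_ok) (L (nat_lit 332) ln13_13_7 ln13_13_7_ok))) (M (nat_lit 428) (B (L (nat_lit 396) ln13_9_5 ln13_9_5_ok) (L (nat_lit 460) ln13_10_5 ln13_10_5_ok))))) (M (nat_lit 332) (B (L (nat_lit 300) ln13_13_7 ln13_13_7_ok) (M (nat_lit 334) (B (L (nat_lit 302) ln13_13_6 ln13_13_6_ok) (M (nat_lit 331) (B (M (nat_lit 366) (B (L (nat_lit 330) ln10_10_0 ln10_10_0_ok) (L (nat_lit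 367) ln11_10_0 ln11_10_0_ok))) (B (M (nat_lit 335) (B (M (nat_lit 363) (B (L (nat_lit 362) ln14_10_1 ln14_10_1_ok) (L (nat_lit 364) ln15_10_1 ln15_10_1_ok))) (M (nat_lit 367) (B (L (nat_lit 366) ln11_10_0 ln11_10_0_ok) (L (nat_lit 368) ln12_10_0 ln12_10_0_ok))))) (M (nat_lit 330) (B (M (nat_lit 298) (B (L (nat_lit 297) ln13_10_3 ln13_10_3_ok) (L (nat_lit 299) ln14_10_3 ln14_10_3_ok))) (M (nat_lit 362) (B (L (nat_lit 361) ln13_10_1 ln13_10_1_ok) (L (nat_lit 363) ln14_10_1 ln14_10_1_ok)))))))))))))))))))))))))) (nat_lit 1386334847383188664550070665778531748218595021979121511688892729411143073470393764272092352380775458208712834410189682411080515584) (nat_lit 54918381319404923915069513179478467096490455548494069323124366234205653292193935129729319674781649938500833251819506310855304337236320684042984465303789895680) (nat_lit 54918381319404923915069513179478467096490455548494069323124366234205653292193935129729319674781649938500833251819506310855304337236320684042984465303789895680)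 (by decide +kernel)
noncomputable def c11_n10694 : Cert := (M (nat_lit 396) (B (M (nat_lit 427) (B (M (nat_lit 426) (B (L (nat_lit 425) ln9_13_2 ln9_13_2_ok) (L (nat_lit 398) ln10_13_2 ln10_13_2_ok))) (M (nat_lit 460) (B (M (nat_lit 492) (B (L (nat_lit 365) ln12_15_6 ln12_15_6_ok) (L (nat_lit 524) ln12_16_6 ln12_16_6_ok))) (M (nat_lit 459) (B (M (nat_lit 491) (B (L (nat_lit 364) ln12_11_5 ln12_11_5_ok) (L (nat_lit 523) ln11_16_6 ln11_16_6_ok))) (M (nat_lit 430) (B (L (nat_lit 458) ln14_13_1 ln14_13_1_ok) (L (nat_lit 431) ln15_13_1 ln15_13_1_ok))))))))) (B (M (nat_lit 365) (B (M (nat_lit 333) (B (L (nat_lit 301) ln13_9_5 ln13_9_5_ok) (L (nat_lit 460) ln13_10_5 ln13_10_5_ok))) (M (nat_lit 398) (B (M (nat_lit 399) (B (L (nat_lit 427) ln15_12_1 ln15_12_1_ok) (L (nat_lit 400) ln16_12_1 ln16_12_1_ok))) (M (nat_lit 366) (B (M (nat_lit 334) (B (L (nat_lit 302) ln14_9_5 ln14_9_5_ok) (L (nat_lit 461) ln13_14_6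 ln13_14_6_ok))) (M (nat_lit 367) (B (L (nat_lit 368) ln16_11_1 ln16_11_1_ok) (L (nat_lit 395) ln11_12_2 ln11_12_2_ok))))))))) (B (M (nat_lit 427) (B (M (nat_lit 426) (B (L (nat_lit 425) ln9_13_2 ln9_13_2_ok) (L (nat_lit 398) ln10_13_2 ln10_13_2_ok))) (M (nat_lit 459) (B (M (nat_lit 430) (B (L (nat_lit 458) ln14_13_1 ln14_13_1_ok) (M (nat_lit 395) (B (L (nat_lit 394) ln10_12_0 ln10_12_0_ok) (L (nat_lit 431) ln15_13_3 ln15_13_3_ok))))) (B (M (nat_lit 430) (B (L (nat_lit 458) ln14_13_1 ln14_13_1_ok) (M (nat_lit 431) (B (L (nat_lit 395) ln15_13_3 ln15_13_3_ok) (L (nat_lit 460) ln15_13_1 ln15_13_1_ok))))) (B (M (nat_lit 460) (B (M (nat_lit 491) (B (L (nat_lit 364) ln12_11_5 ln12_11_5_ok) (L (nat_lit 523) ln11_16_6 ln11_16_6_ok))) (M (nat_lit 430) (B (L (nat_lit 458) ln14_13_1 ln14_13_1_ok) (L (nat_lit 431) ln15_13_1 ln15_13_1_ok))))) (M (nat_lit 491) (B (L (nat_lit 523) ln11_16_6 ln11_16_6_ok) (M (nat_lit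 364) (B (L (nat_lit 395) ln11_15_6 ln11_15_6_ok) (L (nat_lit 460) ln12_11_5 ln12_11_5_ok))))))))))) (B (M (nat_lit 460) (B (M (nat_lit 492) (B (L (nat_lit 365) ln12_15_6 ln12_15_6_ok) (L (nat_lit 524) ln12_16_6 ln12_16_6_ok))) (M (nat_lit 459) (B (M (nat_lit 491) (B (L (nat_lit 364) ln12_11_5 ln12_11_5_ok) (M (nat_lit 523) (B (L (nat_lit 427) ln11_16_6 ln11_16_6_ok) (L (nat_lit 555) ln11_17_6 ln11_17_6_ok))))) (B (M (nat_lit 430) (B (L (nat_lit 431) ln15_13_1 ln15_13_1_ok) (M (nat_lit 458) (B (L (nat_lit 427) ln14_13_1 ln14_13_1_ok) (L (nat_lit 457) ln9_14_2 ln9_14_2_ok))))) (M (nat_lit 430) (B (L (nat_lit 431) ln15_13_1 ln15_13_1_ok) (M (nat_lit 458) (B (L (nat_lit 457) ln9_14_2 ln9_14_2_ok) (L (nat_lit 461) ln10_14_2 ln10_14_2_ok)))))))))) (B (M (nat_lit 365) (B (M (nat_lit 333) (B (L (nat_lit 301) ln13_9_5 ln13_9_5_ok) (L (nat_lit 460) ln13_10_5 ln13_10_5_ok))) (M (nat_lit 366) (B (M (nat_lit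 395) (B (L (nat_lit 394) ln10_12_2 ln10_12_2_ok) (M (nat_lit 367) (B (L (nat_lit 364) ln15_11_1 ln15_11_1_ok) (L (nat_lit 368) ln16_11_1 ln16_11_1_ok))))) (B (M (nat_lit 367) (B (L (nat_lit 368) ln16_11_1 ln16_11_1_ok) (M (nat_lit 395) (B (L (nat_lit 394) ln10_12_2 ln10_12_2_ok) (L (nat_lit 398) ln11_12_2 ln11_12_2_ok))))) (M (nat_lit 461) (B (L (nat_lit 334) ln13_14_6 ln13_14_6_ok) (M (nat_lit 493) (B (L (nat_lit 364) ln13_15_7 ln13_15_7_ok) (L (nat_lit 398) ln13_15_6 ln13_15_6_ok)))))))))) (M (nat_lit 398) (B (M (nat_lit 399) (B (L (nat_lit 427) ln15_12_1 ln15_12_1_ok) (L (nat_lit 400) ln16_12_1 ln16_12_1_ok))) (M (nat_lit 366) (B (M (nat_lit 395) (B (L (nat_lit 367) ln11_12_2 ln11_12_2_ok) (M (nat_lit 394) (B (L (nat_lit 365) ln10_12_2 ln10_12_2_ok) (L (nat_lit 393) ln9_12_0 ln9_12_0_ok))))) (B (M (nat_lit 395) (B (L (nat_lit 367) ln11_12_2 ln11_12_2_ok) (M (nat_lit 394) (B (L (nat_lit 393) ln9_12_0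 ln9_12_0_ok) (L (nat_lit 430) ln10_12_0 ln10_12_0_ok))))) (M (nat_lit 334) (B (L (nat_lit 302) ln14_9_5 ln14_9_5_ok) (M (nat_lit 461) (B (L (nat_lit 365) ln13_14_6 ln13_14_6_ok) (L (nat_lit 493) ln13_15_6 ln13_15_6_ok))))))))))))))))
theorem c11_s10816 : Sem (nat_lit 2079502270913392379444674211814302674077704290823075655481512624564798400421800170032085953906810352733060637150540575368324055040) (nat_lit 117936325858050739223869284464532661311165520629655414297938997466443542807859844815586410954514250470583458394089714213795305191920023263493105123873508392154844626944) (nat_lit 117936325858050739223869284464532661311165520629655414297938997466443542807859844815586410954514250470583458394089714213795305191920023263493105123873508392154844626944) :=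
  sem_of_chk (M (nat_lit 396) (B (M (nat_lit 365) (B (M (nat_lit 333) (B (L (nat_lit 301) ln13_9_5 ln13_9_5_ok) (L (nat_lit 460) ln13_10_5 ln13_10_5_ok))) (M (nat_lit 366) (B (M (nat_lit 395) (B (L (nat_lit 394) ln10_12_2 ln10_12_2_ok) (M (nat_lit 367) (B (L (nat_lit 364) ln15_11_1 ln15_11_1_ok) (L (nat_lit 368) ln16_11_1 ln16_11_1_ok))))) (B (M (nat_lit 367) (B (L (nat_lit 368) ln16_11_1 ln16_11_1_ok) (M (nat_lit 395) (B (L (nat_lit 394) ln10_12_2 ln10_12_2_ok) (L (nat_lit 398) ln11_12_2 ln11_12_2_ok))))) (M (nat_lit 461) (B (L (nat_lit 334) ln13_14_6 ln13_14_6_ok) (M (nat_lit 493) (B (L (nat_lit 364) ln13_15_7 ln13_15_7_ok) (L (nat_lit 398) ln13_15_6 ln13_15_6_ok)))))))))) (B (M (nat_lit 365) (B (M (nat_lit 460) (B (L (nat_lit 333) ln13_10_5 ln13_10_5_ok) (L (nat_lit 492) ln12_15_6 ln12_15_6_ok))) (M (nat_lit 366) (B (M (nat_lit 395) (B (L (nat_lit 394) ln10_12_2 ln10_12_2_ok) (M (nat_lit 367)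 (B (L (nat_lit 364) ln15_11_1 ln15_11_1_ok) (L (nat_lit 368) ln16_11_1 ln16_11_1_ok))))) (B (M (nat_lit 367) (B (L (nat_lit 368) ln16_11_1 ln16_11_1_ok) (M (nat_lit 395) (B (L (nat_lit 394) ln10_12_2 ln10_12_2_ok) (L (nat_lit 398) ln11_12_2 ln11_12_2_ok))))) (M (nat_lit 461) (B (L (nat_lit 334) ln13_14_6 ln13_14_6_ok) (M (nat_lit 493) (B (L (nat_lit 364) ln13_15_7 ln13_15_7_ok) (L (nat_lit 398) ln13_15_6 ln13_15_6_ok)))))))))) (B (M (nat_lit 398) (B (M (nat_lit 399) (B (L (nat_lit 427) ln15_12_1 ln15_12_1_ok) (L (nat_lit 400) ln16_12_1 ln16_12_1_ok))) (M (nat_lit 430) (B (M (nat_lit 395) (B (L (nat_lit 394) ln10_12_0 ln10_12_0_ok) (L (nat_lit 431) ln11_12_0 ln11_12_0_ok))) (B (M (nat_lit 431) (B (L (nat_lit 395) ln11_12_0 ln11_12_0_ok) (L (nat_lit 432) ln16_13_3 ln16_13_3_ok))) (B (M (nat_lit 460) (B (M (nat_lit 492) (B (L (nat_lit 365) ln12_15_6 ln12_15_6_ok) (L (nat_lit 524) ln12_16_6 ln12_16_6_ok)))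 (M (nat_lit 431) (B (L (nat_lit 432) ln16_13_3 ln16_13_3_ok) (L (nat_lit 459) ln15_13_1 ln15_13_1_ok))))) (M (nat_lit 366) (B (M (nat_lit 334) (B (L (nat_lit 302) ln14_9_5 ln14_9_5_ok) (L (nat_lit 461) ln14_10_5 ln14_10_5_ok))) (M (nat_lit 395) (B (L (nat_lit 367) ln11_12_2 ln11_12_2_ok) (L (nat_lit 394) ln10_12_0 ln10_12_0_ok))))))))))) (B (M (nat_lit 460) (B (M (nat_lit 492) (B (L (nat_lit 365) ln12_15_6 ln12_15_6_ok) (L (nat_lit 524) ln12_16_6 ln12_16_6_ok))) (M (nat_lit 427) (B (M (nat_lit 398) (B (L (nat_lit 399) ln15_12_1 ln15_12_1_ok) (L (nat_lit 426) ln10_13_2 ln10_13_2_ok))) (M (nat_lit 459) (B (M (nat_lit 491) (B (L (nat_lit 364) ln12_11_5 ln12_11_5_ok) (L (nat_lit 523) ln11_16_6 ln11_16_6_ok))) (M (nat_lit 430) (B (L (nat_lit 458) ln14_13_1 ln14_13_1_ok) (L (nat_lit 431) ln15_13_1 ln15_13_1_ok))))))))) (B (M (nat_lit 398) (B (M (nat_lit 399) (B (L (nat_lit 427) ln15_12_1 ln15_12_1_ok)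 (L (nat_lit 400) ln16_12_1 ln16_12_1_ok))) (B (M (nat_lit 430) (B (M (nat_lit 395) (B (L (nat_lit 394) ln10_12_0 ln10_12_0_ok) (L (nat_lit 431) ln11_12_0 ln11_12_0_ok))) (B (M (nat_lit 431) (B (L (nat_lit 395) ln11_12_0 ln11_12_0_ok) (L (nat_lit 432) ln16_13_3 ln16_13_3_ok))) (B (M (nat_lit 459) (B (M (nat_lit 427) (B (L (nat_lit 426) ln10_13_2 ln10_13_2_ok) (L (nat_lit 458) ln14_13_1 ln14_13_1_ok))) (M (nat_lit 431) (B (L (nat_lit 432) ln16_13_3 ln16_13_3_ok) (L (nat_lit 460) ln15_13_1 ln15_13_1_ok))))) (M (nat_lit 366) (B (M (nat_lit 334) (B (L (nat_lit 302) ln14_9_5 ln14_9_5_ok) (L (nat_lit 461) ln14_10_5 ln14_10_5_ok))) (M (nat_lit 395) (B (L (nat_lit 367) ln11_12_2 ln11_12_2_ok) (L (nat_lit 394) ln10_12_0 ln10_12_0_ok))))))))) (M (nat_lit 399) (B (L (nat_lit 400) ln16_12_1 ln16_12_1_ok) (M (nat_lit 395) (B (M (nat_lit 367) (B (L (nat_lit 366) ln11_12_2 ln11_12_2_ok) (L (nat_lit 368) ln12_12_2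 ln12_12_2_ok))) (M (nat_lit 431) (B (L (nat_lit 430) ln11_12_0 ln11_12_0_ok) (L (nat_lit 432) ln12_12_0 ln12_12_0_ok)))))))))) (B (M (nat_lit 460) (B (M (nat_lit 492) (B (L (nat_lit 365) ln12_15_6 ln12_15_6_ok) (L (nat_lit 524) ln12_16_6 ln12_16_6_ok))) (M (nat_lit 459) (B (M (nat_lit 491) (B (L (nat_lit 364) ln12_11_5 ln12_11_5_ok) (M (nat_lit 523) (B (L (nat_lit 427) ln11_16_6 ln11_16_6_ok) (L (nat_lit 555) ln11_17_6 ln11_17_6_ok))))) (B (M (nat_lit 430) (B (L (nat_lit 431) ln15_13_1 ln15_13_1_ok) (M (nat_lit 458) (B (L (nat_lit 427) ln14_13_1 ln14_13_1_ok) (L (nat_lit 457) ln9_14_2 ln9_14_2_ok))))) (M (nat_lit 430) (B (L (nat_lit 431) ln15_13_1 ln15_13_1_ok) (M (nat_lit 458) (B (L (nat_lit 457) ln9_14_2 ln9_14_2_ok) (L (nat_lit 461) ln10_14_2 ln10_14_2_ok)))))))))) (M (nat_lit 398) (B (M (nat_lit 399) (B (L (nat_lit 427) ln15_12_1 ln15_12_1_ok) (L (nat_lit 400) ln16_12_1 ln16_12_1_ok))) (M (nat_lit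 366) (B (M (nat_lit 395) (B (L (nat_lit 367) ln11_12_2 ln11_12_2_ok) (M (nat_lit 394) (B (L (nat_lit 365) ln10_12_2 ln10_12_2_ok) (L (nat_lit 430) ln10_12_0 ln10_12_0_ok))))) (B (M (nat_lit 395) (B (L (nat_lit 367) ln11_12_2 ln11_12_2_ok) (M (nat_lit 430) (B (L (nat_lit 394) ln10_12_0 ln10_12_0_ok) (L (nat_lit 431) ln11_12_0 ln11_12_0_ok))))) (M (nat_lit 334) (B (L (nat_lit 302) ln14_9_5 ln14_9_5_ok) (M (nat_lit 461) (B (L (nat_lit 365) ln13_14_6 ln13_14_6_ok) (L (nat_lit 493) ln13_15_6 ln13_15_6_ok))))))))))))))))) (nat_lit 2079502270913392379444674211814302674077704290823075655481512624564798400421800170032085953906810352733060637150540575368324055040) (nat_lit 117936325858050739223869284464532661311165520629655414297938997466443542807859844815586410954514250470583458394089714213795305191920023263493105123873508392154844626944) (nat_lit 117936325858050739223869284464532661311165520629655414297938997466443542807859844815586410954514250470583458394089714213795305191920023263493105123873508392154844626944)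 (by decide +kernel)
noncomputable def c11_n10877 : Cert := (M (nat_lit 396) (B (M (nat_lit 365) (B (M (nat_lit 460) (B (L (nat_lit 333) ln13_10_5 ln13_10_5_ok) (L (nat_lit 492) ln12_15_6 ln12_15_6_ok))) (M (nat_lit 398) (B (M (nat_lit 399) (B (L (nat_lit 427) ln15_12_1 ln15_12_1_ok) (L (nat_lit 400) ln16_12_1 ln16_12_1_ok))) (M (nat_lit 366) (B (M (nat_lit 334) (B (L (nat_lit 302) ln14_9_5 ln14_9_5_ok) (L (nat_lit 461) ln13_14_6 ln13_14_6_ok))) (M (nat_lit 367) (B (L (nat_lit 368) ln16_11_1 ln16_11_1_ok) (L (nat_lit 395) ln11_12_2 ln11_12_2_ok))))))))) (B (M (nat_lit 365) (B (M (nat_lit 460) (B (L (nat_lit 333) ln13_10_5 ln13_10_5_ok) (L (nat_lit 492) ln12_15_6 ln12_15_6_ok))) (M (nat_lit 398) (B (M (nat_lit 399) (B (L (nat_lit 427) ln15_12_1 ln15_12_1_ok) (L (nat_lit 400) ln16_12_1 ln16_12_1_ok))) (M (nat_lit 366) (B (M (nat_lit 367) (B (L (nat_lit 368) ln16_11_1 ln16_11_1_ok) (L (nat_lit 395) ln11_12_2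 ln11_12_2_ok))) (M (nat_lit 461) (B (L (nat_lit 334) ln13_14_6 ln13_14_6_ok) (L (nat_lit 493) ln13_15_6 ln13_15_6_ok))))))))) (B (M (nat_lit 398) (B (M (nat_lit 399) (B (L (nat_lit 427) ln15_12_1 ln15_12_1_ok) (L (nat_lit 400) ln16_12_1 ln16_12_1_ok))) (M (nat_lit 366) (B (M (nat_lit 461) (B (L (nat_lit 493) ln13_15_6 ln13_15_6_ok) (M (nat_lit 334) (B (L (nat_lit 302) ln14_9_5 ln14_9_5_ok) (L (nat_lit 430) ln14_10_5 ln14_10_5_ok))))) (M (nat_lit 367) (B (L (nat_lit 395) ln11_12_2 ln11_12_2_ok) (M (nat_lit 368) (B (L (nat_lit 365) ln16_11_1 ln16_11_1_ok) (L (nat_lit 369) ln17_11_1 ln17_11_1_ok))))))))) (B (M (nat_lit 460) (B (M (nat_lit 492) (B (L (nat_lit 365) ln12_15_6 ln12_15_6_ok) (L (nat_lit 524) ln12_16_6 ln12_16_6_ok))) (M (nat_lit 459) (B (M (nat_lit 491) (B (L (nat_lit 364) ln12_11_5 ln12_11_5_ok) (M (nat_lit 523) (B (L (nat_lit 427) ln11_16_6 ln11_16_6_ok) (L (nat_lit 555) ln11_17_6 ln11_17_6_ok)))))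 (B (M (nat_lit 430) (B (L (nat_lit 431) ln15_13_1 ln15_13_1_ok) (M (nat_lit 458) (B (L (nat_lit 427) ln14_13_1 ln14_13_1_ok) (L (nat_lit 457) ln9_14_2 ln9_14_2_ok))))) (M (nat_lit 430) (B (L (nat_lit 431) ln15_13_1 ln15_13_1_ok) (M (nat_lit 458) (B (L (nat_lit 457) ln9_14_2 ln9_14_2_ok) (L (nat_lit 461) ln10_14_2 ln10_14_2_ok)))))))))) (B (M (nat_lit 427) (B (M (nat_lit 398) (B (L (nat_lit 399) ln15_12_1 ln15_12_1_ok) (L (nat_lit 426) ln10_13_2 ln10_13_2_ok))) (B (M (nat_lit 426) (B (L (nat_lit 425) ln9_13_2 ln9_13_2_ok) (M (nat_lit 430) (B (M (nat_lit 431) (B (L (nat_lit 395) ln15_13_3 ln15_13_3_ok) (L (nat_lit 432) ln16_13_3 ln16_13_3_ok))) (M (nat_lit 458) (B (L (nat_lit 457) ln13_13_1 ln13_13_1_ok) (L (nat_lit 459) ln14_13_1 ln14_13_1_ok))))))) (M (nat_lit 459) (B (M (nat_lit 430) (B (L (nat_lit 458) ln14_13_1 ln14_13_1_ok) (M (nat_lit 431) (B (L (nat_lit 395) ln15_13_3 ln15_13_3_ok) (L (nat_lit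 432) ln16_13_3 ln16_13_3_ok))))) (B (M (nat_lit 430) (B (L (nat_lit 458) ln14_13_1 ln14_13_1_ok) (M (nat_lit 431) (B (L (nat_lit 432) ln16_13_3 ln16_13_3_ok) (L (nat_lit 460) ln15_13_1 ln15_13_1_ok))))) (M (nat_lit 491) (B (L (nat_lit 523) ln11_16_6 ln11_16_6_ok) (M (nat_lit 364) (B (L (nat_lit 395) ln11_15_6 ln11_15_6_ok) (L (nat_lit 460) ln12_11_5 ln12_11_5_ok))))))))))) (M (nat_lit 365) (B (M (nat_lit 333) (B (L (nat_lit 301) ln13_9_5 ln13_9_5_ok) (L (nat_lit 460) ln13_10_5 ln13_10_5_ok))) (B (M (nat_lit 460) (B (L (nat_lit 333) ln13_10_5 ln13_10_5_ok) (L (nat_lit 492) ln12_15_6 ln12_15_6_ok))) (M (nat_lit 366) (B (M (nat_lit 367) (B (L (nat_lit 368) ln16_11_1 ln16_11_1_ok) (M (nat_lit 395) (B (L (nat_lit 364) ln15_11_1 ln15_11_1_ok) (L (nat_lit 398) ln11_12_2 ln11_12_2_ok))))) (B (M (nat_lit 461) (B (L (nat_lit 334) ln13_14_6 ln13_14_6_ok) (M (nat_lit 493) (B (L (nat_lit 398) ln13_15_6 ln13_15_6_ok)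 (L (nat_lit 525) ln13_16_7 ln13_16_7_ok))))) (M (nat_lit 461) (B (L (nat_lit 334) ln13_14_6 ln13_14_6_ok) (M (nat_lit 493) (B (L (nat_lit 364) ln13_15_7 ln13_15_7_ok) (L (nat_lit 525) ln13_16_7 ln13_16_7_ok)))))))))))))))))
theorem c11_s10993 : Sem (nat_lit 7971425372211248895092258647946315129881639013161538774133393489786198357779078430000452164192929632830085876161474751491267887104) (nat_lit 54918381498418472855840925656604960067135456856102718022432730950082420309702430749754418331918747853787485776603482636616593205091217669477898739529501638656) (nat_lit 54918381498418472855840925656604960067135456856102718022432730950082420309702430749754418331918747853787485776603482636616593205091217669477898739529501638656) :=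
  sem_of_chk (M (nat_lit 367) (B (M (nat_lit 365) (B (M (nat_lit 460) (B (L (nat_lit 333) ln13_10_5 ln13_10_5_ok) (M (nat_lit 492) (B (L (nat_lit 396) ln12_15_6 ln12_15_6_ok) (L (nat_lit 461) ln13_11_5 ln13_11_5_ok))))) (B (M (nat_lit 366) (B (M (nat_lit 334) (B (L (nat_lit 461) ln13_14_6 ln13_14_6_ok) (L (nat_lit 463) ln15_14_7 ln15_14_7_ok))) (B (M (nat_lit 368) (B (L (nat_lit 396) ln16_11_1 ln16_11_1_ok) (M (nat_lit 336) (B (L (nat_lit 337) ln13_11_2 ln13_11_2_ok) (L (nat_lit 463) ln15_14_6 ln15_14_6_ok))))) (M (nat_lit 334) (B (L (nat_lit 461) ln13_14_6 ln13_14_6_ok) (M (nat_lit 302) (B (L (nat_lit 270) ln14_8_5 ln14_8_5_ok) (L (nat_lit 335) ln15_13_7 ln15_13_7_ok)))))))) (B (M (nat_lit 460) (B (L (nat_lit 333) ln13_10_5 ln13_10_5_ok) (M (nat_lit 492) (B (L (nat_lit 461) ln13_11_5 ln13_11_5_ok) (L (nat_lit 524) ln12_16_6 ln12_16_6_ok))))) (M (nat_lit 460) (B (L (nat_lit 333) ln13_10_5 ln13_10_5_ok)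 (M (nat_lit 492) (B (L (nat_lit 396) ln12_15_6 ln12_15_6_ok) (L (nat_lit 524) ln12_16_6 ln12_16_6_ok))))))))) (B (M (nat_lit 335) (B (M (nat_lit 463) (B (M (nat_lit 334) (B (L (nat_lit 302) ln15_13_7 ln15_13_7_ok) (L (nat_lit 366) ln15_14_7 ln15_14_7_ok))) (M (nat_lit 336) (B (L (nat_lit 304) ln15_13_6 ln15_13_6_ok) (L (nat_lit 368) ln15_14_6 ln15_14_6_ok))))) (B (M (nat_lit 463) (B (M (nat_lit 336) (B (L (nat_lit 304) ln15_13_6 ln15_13_6_ok) (L (nat_lit 368) ln15_14_6 ln15_14_6_ok))) (M (nat_lit 464) (B (L (nat_lit 432) ln15_10_4 ln15_10_4_ok) (L (nat_lit 496) ln15_11_4 ln15_11_4_ok))))) (B (M (nat_lit 463) (B (M (nat_lit 334) (B (L (nat_lit 302) ln15_13_7 ln15_13_7_ok) (L (nat_lit 366) ln15_14_7 ln15_14_7_ok))) (M (nat_lit 464) (B (L (nat_lit 432) ln15_10_4 ln15_10_4_ok) (L (nat_lit 496) ln15_11_4 ln15_11_4_ok))))) (M (nat_lit 303) (B (M (nat_lit 304) (B (L (nat_lit 272) ln15_12_6 ln15_12_6_ok)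 (L (nat_lit 336) ln15_13_6 ln15_13_6_ok))) (M (nat_lit 432) (B (L (nat_lit 400) ln15_9_4 ln15_9_4_ok) (L (nat_lit 464) ln15_10_4 ln15_10_4_ok))))))))) (B (M (nat_lit 365) (B (M (nat_lit 460) (B (L (nat_lit 333) ln13_10_5 ln13_10_5_ok) (M (nat_lit 492) (B (L (nat_lit 396) ln12_15_6 ln12_15_6_ok) (L (nat_lit 461) ln13_11_5 ln13_11_5_ok))))) (B (M (nat_lit 366) (B (M (nat_lit 334) (B (L (nat_lit 461) ln13_14_6 ln13_14_6_ok) (L (nat_lit 463) ln15_14_7 ln15_14_7_ok))) (B (M (nat_lit 368) (B (L (nat_lit 396) ln16_11_1 ln16_11_1_ok) (M (nat_lit 336) (B (L (nat_lit 337) ln13_11_2 ln13_11_2_ok) (L (nat_lit 463) ln15_14_6 ln15_14_6_ok))))) (M (nat_lit 368) (B (L (nat_lit 396) ln16_11_1 ln16_11_1_ok) (M (nat_lit 400) (B (L (nat_lit 364) ln12_11_0 ln12_11_0_ok) (L (nat_lit 401) ln13_11_0 ln13_11_0_ok)))))))) (B (M (nat_lit 460) (B (L (nat_lit 333) ln13_10_5 ln13_10_5_ok) (M (nat_lit 492) (B (L (nat_lit 461)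 ln13_11_5 ln13_11_5_ok) (L (nat_lit 524) ln12_16_6 ln12_16_6_ok))))) (M (nat_lit 460) (B (L (nat_lit 333) ln13_10_5 ln13_10_5_ok) (M (nat_lit 492) (B (L (nat_lit 396) ln12_15_6 ln12_15_6_ok) (L (nat_lit 524) ln12_16_6 ln12_16_6_ok))))))))) (B (M (nat_lit 365) (B (M (nat_lit 460) (B (L (nat_lit 333) ln13_10_5 ln13_10_5_ok) (M (nat_lit 492) (B (L (nat_lit 396) ln12_15_6 ln12_15_6_ok) (L (nat_lit 461) ln13_11_5 ln13_11_5_ok))))) (B (M (nat_lit 368) (B (M (nat_lit 366) (B (L (nat_lit 396) ln16_11_1 ln16_11_1_ok) (M (nat_lit 336) (B (L (nat_lit 337) ln13_11_2 ln13_11_2_ok) (L (nat_lit 463) ln15_14_6 ln15_14_6_ok))))) (B (M (nat_lit 366) (B (L (nat_lit 396) ln16_11_1 ln16_11_1_ok) (M (nat_lit 400) (B (L (nat_lit 364) ln12_11_0 ln12_11_0_ok) (L (nat_lit 401) ln13_11_0 ln13_11_0_ok))))) (M (nat_lit 336) (B (L (nat_lit 463) ln15_14_6 ln15_14_6_ok) (M (nat_lit 304) (B (L (nat_lit 272) ln16_8_5 ln16_8_5_ok)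 (L (nat_lit 400) ln16_9_5 ln16_9_5_ok)))))))) (M (nat_lit 460) (B (L (nat_lit 333) ln13_10_5 ln13_10_5_ok) (M (nat_lit 492) (B (L (nat_lit 461) ln13_11_5 ln13_11_5_ok) (L (nat_lit 524) ln12_16_6 ln12_16_6_ok)))))))) (B (M (nat_lit 365) (B (M (nat_lit 460) (B (L (nat_lit 333) ln13_10_5 ln13_10_5_ok) (M (nat_lit 492) (B (L (nat_lit 396) ln12_15_6 ln12_15_6_ok) (L (nat_lit 461) ln13_11_5 ln13_11_5_ok))))) (B (M (nat_lit 366) (B (M (nat_lit 334) (B (L (nat_lit 461) ln13_14_6 ln13_14_6_ok) (L (nat_lit 463) ln15_14_7 ln15_14_7_ok))) (M (nat_lit 368) (B (L (nat_lit 396) ln16_11_1 ln16_11_1_ok) (M (nat_lit 400) (B (L (nat_lit 364) ln12_11_0 ln12_11_0_ok) (L (nat_lit 401) ln13_11_0 ln13_11_0_ok))))))) (B (M (nat_lit 460) (B (L (nat_lit 333) ln13_10_5 ln13_10_5_ok) (M (nat_lit 492) (B (L (nat_lit 461) ln13_11_5 ln13_11_5_ok) (L (nat_lit 524) ln12_16_6 ln12_16_6_ok))))) (M (nat_lit 460) (B (L (nat_lit 333)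 ln13_10_5 ln13_10_5_ok) (M (nat_lit 492) (B (L (nat_lit 396) ln12_15_6 ln12_15_6_ok) (L (nat_lit 524) ln12_16_6 ln12_16_6_ok))))))))) (B (M (nat_lit 335) (B (M (nat_lit 303) (B (M (nat_lit 302) (B (L (nat_lit 270) ln15_12_7 ln15_12_7_ok) (L (nat_lit 334) ln15_13_7 ln15_13_7_ok))) (M (nat_lit 432) (B (L (nat_lit 400) ln15_9_4 ln15_9_4_ok) (L (nat_lit 464) ln15_10_4 ln15_10_4_ok))))) (B (M (nat_lit 303) (B (M (nat_lit 304) (B (L (nat_lit 272) ln15_12_6 ln15_12_6_ok) (L (nat_lit 336) ln15_13_6 ln15_13_6_ok))) (M (nat_lit 432) (B (L (nat_lit 400) ln15_9_4 ln15_9_4_ok) (L (nat_lit 464) ln15_10_4 ln15_10_4_ok))))) (B (M (nat_lit 463) (B (M (nat_lit 336) (B (L (nat_lit 304) ln15_13_6 ln15_13_6_ok) (L (nat_lit 368) ln15_14_6 ln15_14_6_ok))) (M (nat_lit 464) (B (L (nat_lit 432) ln15_10_4 ln15_10_4_ok) (L (nat_lit 496) ln15_11_4 ln15_11_4_ok))))) (M (nat_lit 303) (B (M (nat_lit 302) (B (L (nat_lit 270) ln15_12_7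 ln15_12_7_ok) (L (nat_lit 334) ln15_13_7 ln15_13_7_ok))) (M (nat_lit 304) (B (L (nat_lit 272) ln15_12_6 ln15_12_6_ok) (L (nat_lit 336) ln15_13_6 ln15_13_6_ok))))))))) (B (M (nat_lit 335) (B (M (nat_lit 303) (B (M (nat_lit 302) (B (L (nat_lit 270) ln15_12_7 ln15_12_7_ok) (L (nat_lit 334) ln15_13_7 ln15_13_7_ok))) (M (nat_lit 304) (B (L (nat_lit 272) ln15_12_6 ln15_12_6_ok) (L (nat_lit 336) ln15_13_6 ln15_13_6_ok))))) (B (M (nat_lit 303) (B (M (nat_lit 304) (B (L (nat_lit 272) ln15_12_6 ln15_12_6_ok) (L (nat_lit 336) ln15_13_6 ln15_13_6_ok))) (M (nat_lit 432) (B (L (nat_lit 400) ln15_9_4 ln15_9_4_ok) (L (nat_lit 464) ln15_10_4 ln15_10_4_ok))))) (B (M (nat_lit 303) (B (M (nat_lit 302) (B (L (nat_lit 270) ln15_12_7 ln15_12_7_ok) (L (nat_lit 334) ln15_13_7 ln15_13_7_ok))) (M (nat_lit 432) (B (L (nat_lit 400) ln15_9_4 ln15_9_4_ok) (L (nat_lit 464) ln15_10_4 ln15_10_4_ok))))) (M (nat_lit 463) (B (M (nat_lit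 334) (B (L (nat_lit 302) ln15_13_7 ln15_13_7_ok) (L (nat_lit 366) ln15_14_7 ln15_14_7_ok))) (M (nat_lit 464) (B (L (nat_lit 432) ln15_10_4 ln15_10_4_ok) (L (nat_lit 496) ln15_11_4 ln15_11_4_ok))))))))) (M (nat_lit 365) (B (M (nat_lit 460) (B (L (nat_lit 333) ln13_10_5 ln13_10_5_ok) (M (nat_lit 492) (B (L (nat_lit 396) ln12_15_6 ln12_15_6_ok) (L (nat_lit 461) ln13_11_5 ln13_11_5_ok))))) (B (M (nat_lit 366) (B (M (nat_lit 334) (B (L (nat_lit 461) ln13_14_6 ln13_14_6_ok) (M (nat_lit 302) (B (L (nat_lit 270) ln14_8_5 ln14_8_5_ok) (L (nat_lit 335) ln15_13_7 ln15_13_7_ok))))) (M (nat_lit 368) (B (L (nat_lit 396) ln16_11_1 ln16_11_1_ok) (M (nat_lit 400) (B (L (nat_lit 364) ln12_11_0 ln12_11_0_ok) (L (nat_lit 401) ln13_11_0 ln13_11_0_ok))))))) (B (M (nat_lit 460) (B (L (nat_lit 333) ln13_10_5 ln13_10_5_ok) (M (nat_lit 492) (B (L (nat_lit 461) ln13_11_5 ln13_11_5_ok) (L (nat_lit 524) ln12_16_6 ln12_16_6_ok)))))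 (M (nat_lit 460) (B (L (nat_lit 333) ln13_10_5 ln13_10_5_ok) (M (nat_lit 492) (B (L (nat_lit 396) ln12_15_6 ln12_15_6_ok) (L (nat_lit 524) ln12_16_6 ln12_16_6_ok))))))))))))))))) (nat_lit 7971425372211248895092258647946315129881639013161538774133393489786198357779078430000452164192929632830085876161474751491267887104) (nat_lit 54918381498418472855840925656604960067135456856102718022432730950082420309702430749754418331918747853787485776603482636616593205091217669477898739529501638656) (nat_lit 54918381498418472855840925656604960067135456856102718022432730950082420309702430749754418331918747853787485776603482636616593205091217669477898739529501638656) (by decide +kernel)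
noncomputable def c11_n11117 : Cert := (M (nat_lit 460) (B (M (nat_lit 492) (B (L (nat_lit 524) ln12_16_6 ln12_16_6_ok) (M (nat_lit 365) (B (L (nat_lit 333) ln13_10_5 ln13_10_5_ok) (L (nat_lit 461) ln13_11_5 ln13_11_5_ok))))) (B (M (nat_lit 492) (B (L (nat_lit 524) ln12_16_6 ln12_16_6_ok) (M (nat_lit 430) (B (M (nat_lit 459) (B (L (nat_lit 458) ln14_13_1 ln14_13_1_ok) (L (nat_lit 431) ln15_13_1 ln15_13_1_ok))) (B (M (nat_lit 395) (B (L (nat_lit 394) ln14_13_3 ln14_13_3_ok) (M (nat_lit 459) (B (L (nat_lit 363) ln11_11_4 ln11_11_4_ok) (L (nat_lit 458) ln14_13_1 ln14_13_1_ok))))) (B (M (nat_lit 395) (B (L (nat_lit 394) ln14_13_3 ln14_13_3_ok) (M (nat_lit 459) (B (L (nat_lit 363) ln11_11_4 ln11_11_4_ok) (L (nat_lit 431) ln15_13_1 ln15_13_1_ok))))) (M (nat_lit 431) (B (M (nat_lit 399) (B (L (nat_lit 398) ln11_13_2 ln11_13_2_ok) (L (nat_lit 400) ln12_13_2 ln12_13_2_ok))) (M (nat_lit 461) (B (L (nat_lit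 365) ln13_11_5 ln13_11_5_ok) (L (nat_lit 432) ln16_13_1 ln16_13_1_ok))))))))))) (B (M (nat_lit 430) (B (M (nat_lit 459) (B (L (nat_lit 458) ln14_13_1 ln14_13_1_ok) (L (nat_lit 431) ln15_13_1 ln15_13_1_ok))) (B (M (nat_lit 459) (B (L (nat_lit 458) ln14_13_1 ln14_13_1_ok) (M (nat_lit 395) (B (L (nat_lit 394) ln14_13_3 ln14_13_3_ok) (M (nat_lit 492) (B (L (nat_lit 363) ln11_11_4 ln11_11_4_ok) (L (nat_lit 524) ln12_16_7 ln12_16_7_ok))))))) (B (M (nat_lit 431) (B (L (nat_lit 459) ln15_13_1 ln15_13_1_ok) (M (nat_lit 399) (B (L (nat_lit 398) ln11_13_2 ln11_13_2_ok) (L (nat_lit 400) ln12_13_2 ln12_13_2_ok))))) (M (nat_lit 431) (B (M (nat_lit 399) (B (L (nat_lit 398) ln11_13_2 ln11_13_2_ok) (L (nat_lit 400) ln12_13_2 ln12_13_2_ok))) (M (nat_lit 432) (B (L (nat_lit 461) ln16_13_1 ln16_13_1_ok) (M (nat_lit 464) (B (L (nat_lit 463) ln12_13_0 ln12_13_0_ok) (L (nat_lit 465) ln13_13_0 ln13_13_0_ok))))))))))) (B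 (M (nat_lit 430) (B (M (nat_lit 459) (B (L (nat_lit 458) ln14_13_1 ln14_13_1_ok) (L (nat_lit 431) ln15_13_1 ln15_13_1_ok))) (B (M (nat_lit 459) (B (L (nat_lit 458) ln14_13_1 ln14_13_1_ok) (M (nat_lit 395) (B (L (nat_lit 394) ln14_13_3 ln14_13_3_ok) (M (nat_lit 492) (B (L (nat_lit 363) ln11_11_4 ln11_11_4_ok) (L (nat_lit 524) ln12_16_7 ln12_16_7_ok))))))) (B (M (nat_lit 431) (B (L (nat_lit 459) ln15_13_1 ln15_13_1_ok) (M (nat_lit 399) (B (L (nat_lit 398) ln11_13_2 ln11_13_2_ok) (L (nat_lit 400) ln12_13_2 ln12_13_2_ok))))) (M (nat_lit 431) (B (M (nat_lit 399) (B (L (nat_lit 398) ln11_13_2 ln11_13_2_ok) (L (nat_lit 400) ln12_13_2 ln12_13_2_ok))) (B (M (nat_lit 432) (B (M (nat_lit 400) (B (L (nat_lit 399) ln12_13_2 ln12_13_2_ok) (L (nat_lit 401) ln13_13_2 ln13_13_2_ok))) (M (nat_lit 464) (B (L (nat_lit 463) ln12_13_0 ln12_13_0_ok) (L (nat_lit 465) ln13_13_0 ln13_13_0_ok))))) (B (M (nat_lit 432) (B (M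 (nat_lit 464) (B (L (nat_lit 463) ln12_13_0 ln12_13_0_ok) (L (nat_lit 465) ln13_13_0 ln13_13_0_ok))) (M (nat_lit 401) (B (L (nat_lit 400) ln13_13_2 ln13_13_2_ok) (M (nat_lit 433) (B (L (nat_lit 398) ln17_13_3 ln17_13_3_ok) (L (nat_lit 402) ln14_13_2 ln14_13_2_ok))))))) (M (nat_lit 432) (B (M (nat_lit 398) (B (L (nat_lit 433) ln17_13_3 ln17_13_3_ok) (L (nat_lit 399) ln11_13_2 ln11_13_2_ok))) (M (nat_lit 464) (B (L (nat_lit 463) ln12_13_0 ln12_13_0_ok) (L (nat_lit 465) ln13_13_0 ln13_13_0_ok))))))))))))) (M (nat_lit 430) (B (M (nat_lit 459) (B (L (nat_lit 458) ln14_13_1 ln14_13_1_ok) (L (nat_lit 431) ln15_13_1 ln15_13_1_ok))) (B (M (nat_lit 398) (B (L (nat_lit 399) ln11_13_2 ln11_13_2_ok) (M (nat_lit 395) (B (L (nat_lit 394) ln14_13_3 ln14_13_3_ok) (M (nat_lit 363) (B (L (nat_lit 331) ln11_10_4 ln11_10_4_ok) (M (nat_lit 362) (B (M (nat_lit 459) (B (L (nat_lit 330) ln11_14_7 ln11_14_7_ok) (L (nat_lit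 458) ln14_13_1 ln14_13_1_ok))) (M (nat_lit 365) (B (L (nat_lit 333) ln13_10_5 ln13_10_5_ok) (L (nat_lit 364) ln10_11_0 ln10_11_0_ok))))))))))) (B (M (nat_lit 431) (B (L (nat_lit 459) ln15_13_1 ln15_13_1_ok) (M (nat_lit 399) (B (L (nat_lit 398) ln11_13_2 ln11_13_2_ok) (L (nat_lit 400) ln12_13_2 ln12_13_2_ok))))) (M (nat_lit 431) (B (M (nat_lit 399) (B (L (nat_lit 398) ln11_13_2 ln11_13_2_ok) (L (nat_lit 400) ln12_13_2 ln12_13_2_ok))) (M (nat_lit 432) (B (L (nat_lit 461) ln16_13_1 ln16_13_1_ok) (M (nat_lit 464) (B (L (nat_lit 463) ln12_13_0 ln12_13_0_ok) (L (nat_lit 465) ln13_13_0 ln13_13_0_ok))))))))))))))))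
theorem c11_s11120 : Sem (nat_lit 2079502270913392379444674211814302674077704290823075655481512624564798400421800170032085953906810352733060637150540575368324055040) (nat_lit 54918381293831559960391324784055408976374375124546966259394368081909937656071633261571545339370737550251091707399603431802041999910773642843788291347838926848) (nat_lit 54918381293831559960391324784055408976374375124546966259394368081909937656071633261571545339370737550251091707399603431802041999910773642843788291347838926848) :=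
  sem_of_chk (M (nat_lit 427) (B (M (nat_lit 398) (B (L (nat_lit 426) ln10_13_2 ln10_13_2_ok) (M (nat_lit 399) (B (L (nat_lit 400) ln16_12_1 ln16_12_1_ok) (L (nat_lit 430) ln11_13_2 ln11_13_2_ok))))) (B (M (nat_lit 460) (B (M (nat_lit 492) (B (L (nat_lit 524) ln12_16_6 ln12_16_6_ok) (M (nat_lit 365) (B (L (nat_lit 333) ln13_10_5 ln13_10_5_ok) (L (nat_lit 461) ln13_11_5 ln13_11_5_ok))))) (B (M (nat_lit 395) (B (M (nat_lit 430) (B (L (nat_lit 394) ln14_13_3 ln14_13_3_ok) (M (nat_lit 459) (B (L (nat_lit 458) ln14_13_1 ln14_13_1_ok) (L (nat_lit 431) ln15_13_1 ln15_13_1_ok))))) (B (M (nat_lit 492) (B (L (nat_lit 524) ln12_16_7 ln12_16_7_ok) (M (nat_lit 363) (B (L (nat_lit 331) ln11_10_4 ln11_10_4_ok) (L (nat_lit 459) ln11_11_4 ln11_11_4_ok))))) (M (nat_lit 394) (B (L (nat_lit 430) ln14_13_3 ln14_13_3_ok) (M (nat_lit 393) (B (L (nat_lit 392) ln8_12_0 ln8_12_0_ok) (L (nat_lit 426) ln13_13_3 ln13_13_3_ok))))))))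 (M (nat_lit 426) (B (M (nat_lit 425) (B (L (nat_lit 461) ln9_13_0 ln9_13_0_ok) (M (nat_lit 457) (B (L (nat_lit 456) ln12_13_1 ln12_13_1_ok) (L (nat_lit 458) ln13_13_1 ln13_13_1_ok))))) (B (M (nat_lit 430) (B (M (nat_lit 394) (B (L (nat_lit 393) ln13_13_3 ln13_13_3_ok) (L (nat_lit 395) ln14_13_3 ln14_13_3_ok))) (M (nat_lit 458) (B (L (nat_lit 457) ln13_13_1 ln13_13_1_ok) (L (nat_lit 459) ln14_13_1 ln14_13_1_ok))))) (M (nat_lit 425) (B (L (nat_lit 461) ln9_13_0 ln9_13_0_ok) (M (nat_lit 393) (B (L (nat_lit 392) ln12_13_3 ln12_13_3_ok) (L (nat_lit 394) ln13_13_3 ln13_13_3_ok))))))))))) (B c11_n11117 (M (nat_lit 426) (B (L (nat_lit 398) ln10_13_2 ln10_13_2_ok) (M (nat_lit 425) (B (M (nat_lit 393) (B (L (nat_lit 392) ln12_13_3 ln12_13_3_ok) (L (nat_lit 394) ln13_13_3 ln13_13_3_ok))) (M (nat_lit 457) (B (L (nat_lit 456) ln12_13_1 ln12_13_1_ok) (L (nat_lit 458) ln13_13_1 ln13_13_1_ok))))))))))) (nat_lit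 2079502270913392379444674211814302674077704290823075655481512624564798400421800170032085953906810352733060637150540575368324055040) (nat_lit 54918381293831559960391324784055408976374375124546966259394368081909937656071633261571545339370737550251091707399603431802041999910773642843788291347838926848) (nat_lit 54918381293831559960391324784055408976374375124546966259394368081909937656071633261571545339370737550251091707399603431802041999910773642843788291347838926848) (by decide +kernel)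
noncomputable def c11_n11192 : Cert := (M (nat_lit 395) (B (M (nat_lit 430) (B (L (nat_lit 394) ln14_13_3 ln14_13_3_ok) (M (nat_lit 459) (B (L (nat_lit 458) ln14_13_1 ln14_13_1_ok) (M (nat_lit 431) (B (L (nat_lit 396) ln15_13_3 ln15_13_3_ok) (L (nat_lit 460) ln15_13_1 ln15_13_1_ok))))))) (B (M (nat_lit 460) (B (M (nat_lit 492) (B (L (nat_lit 524) ln12_16_7 ln12_16_7_ok) (M (nat_lit 365) (B (L (nat_lit 333) ln13_10_5 ln13_10_5_ok) (L (nat_lit 461) ln13_11_5 ln13_11_5_ok))))) (B (M (nat_lit 492) (B (L (nat_lit 524) ln12_16_7 ln12_16_7_ok) (M (nat_lit 365) (B (L (nat_lit 396) ln12_15_6 ln12_15_6_ok) (L (nat_lit 461) ln13_11_5 ln13_11_5_ok))))) (B (M (nat_lit 492) (B (L (nat_lit 524) ln12_16_7 ln12_16_7_ok) (M (nat_lit 363) (B (L (nat_lit 396) ln12_15_7 ln12_15_7_ok) (L (nat_lit 459) ln11_11_4 ln11_11_4_ok))))) (M (nat_lit 458) (B (M (nat_lit 457) (B (L (nat_lit 426) ln13_13_1 ln13_13_1_ok) (L (nat_lit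 459) ln9_14_2 ln9_14_2_ok))) (B (M (nat_lit 459) (B (L (nat_lit 430) ln14_13_1 ln14_13_1_ok) (L (nat_lit 457) ln9_14_2 ln9_14_2_ok))) (B (M (nat_lit 459) (B (L (nat_lit 430) ln14_13_1 ln14_13_1_ok) (M (nat_lit 363) (B (L (nat_lit 331) ln11_10_4 ln11_10_4_ok) (L (nat_lit 490) ln11_11_5 ln11_11_5_ok))))) (M (nat_lit 426) (B (L (nat_lit 457) ln13_13_1 ln13_13_1_ok) (M (nat_lit 425) (B (L (nat_lit 396) ln9_13_2 ln9_13_2_ok) (L (nat_lit 461) ln9_13_0 ln9_13_0_ok))))))))))))) (B (M (nat_lit 460) (B (M (nat_lit 430) (B (L (nat_lit 394) ln14_13_3 ln14_13_3_ok) (M (nat_lit 459) (B (L (nat_lit 458) ln14_13_1 ln14_13_1_ok) (L (nat_lit 431) ln15_13_1 ln15_13_1_ok))))) (B (M (nat_lit 492) (B (L (nat_lit 524) ln12_16_7 ln12_16_7_ok) (M (nat_lit 363) (B (L (nat_lit 331) ln11_10_4 ln11_10_4_ok) (L (nat_lit 459) ln11_11_4 ln11_11_4_ok))))) (M (nat_lit 492) (B (L (nat_lit 524) ln12_16_7 ln12_16_7_ok) (M (nat_lit 365)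 (B (L (nat_lit 333) ln13_10_5 ln13_10_5_ok) (L (nat_lit 461) ln13_11_5 ln13_11_5_ok)))))))) (B (M (nat_lit 426) (B (M (nat_lit 425) (B (L (nat_lit 396) ln9_13_2 ln9_13_2_ok) (M (nat_lit 457) (B (L (nat_lit 456) ln12_13_1 ln12_13_1_ok) (L (nat_lit 458) ln13_13_1 ln13_13_1_ok))))) (B (M (nat_lit 458) (B (L (nat_lit 457) ln13_13_1 ln13_13_1_ok) (M (nat_lit 363) (B (L (nat_lit 331) ln11_10_5 ln11_10_5_ok) (M (nat_lit 490) (B (L (nat_lit 459) ln11_11_5 ln11_11_5_ok) (L (nat_lit 522) ln10_16_6 ln10_16_6_ok))))))) (M (nat_lit 460) (B (M (nat_lit 425) (B (L (nat_lit 396) ln9_13_2 ln9_13_2_ok) (L (nat_lit 461) ln9_13_0 ln9_13_0_ok))) (M (nat_lit 492) (B (L (nat_lit 524) ln12_16_7 ln12_16_7_ok) (M (nat_lit 363) (B (L (nat_lit 331) ln11_10_4 ln11_10_4_ok) (L (nat_lit 459) ln11_11_4 ln11_11_4_ok)))))))))) (B (M (nat_lit 460) (B (M (nat_lit 492) (B (L (nat_lit 524) ln12_16_7 ln12_16_7_ok) (M (nat_lit 365) (B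 (L (nat_lit 333) ln13_10_5 ln13_10_5_ok) (L (nat_lit 461) ln13_11_5 ln13_11_5_ok))))) (B (M (nat_lit 492) (B (L (nat_lit 524) ln12_16_7 ln12_16_7_ok) (M (nat_lit 365) (B (L (nat_lit 396) ln12_15_6 ln12_15_6_ok) (L (nat_lit 461) ln13_11_5 ln13_11_5_ok))))) (M (nat_lit 430) (B (L (nat_lit 394) ln14_13_3 ln14_13_3_ok) (M (nat_lit 431) (B (L (nat_lit 396) ln15_13_3 ln15_13_3_ok) (L (nat_lit 459) ln15_13_1 ln15_13_1_ok)))))))) (M (nat_lit 426) (B (M (nat_lit 396) (B (L (nat_lit 425) ln9_13_2 ln9_13_2_ok) (M (nat_lit 430) (B (L (nat_lit 394) ln10_12_0 ln10_12_0_ok) (L (nat_lit 431) ln15_13_3 ln15_13_3_ok))))) (B (M (nat_lit 425) (B (L (nat_lit 396) ln9_13_2 ln9_13_2_ok) (M (nat_lit 457) (B (L (nat_lit 456) ln12_13_1 ln12_13_1_ok) (L (nat_lit 458) ln13_13_1 ln13_13_1_ok))))) (M (nat_lit 458) (B (L (nat_lit 457) ln13_13_1 ln13_13_1_ok) (M (nat_lit 363) (B (L (nat_lit 331) ln11_10_5 ln11_10_5_ok) (M (nat_lit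 394) (B (L (nat_lit 490) ln10_15_6 ln10_15_6_ok) (L (nat_lit 430) ln14_13_3 ln14_13_3_ok))))))))))))))))
noncomputable def c11_n11275 : Cert := (M (nat_lit 395) (B (M (nat_lit 394) (B (L (nat_lit 430) ln14_13_3 ln14_13_3_ok) (M (nat_lit 393) (B (L (nat_lit 392) ln8_12_0 ln8_12_0_ok) (L (nat_lit 426) ln13_13_3 ln13_13_3_ok))))) (B (M (nat_lit 394) (B (L (nat_lit 430) ln14_13_3 ln14_13_3_ok) (M (nat_lit 393) (B (L (nat_lit 396) ln9_12_0 ln9_12_0_ok) (L (nat_lit 426) ln13_13_3 ln13_13_3_ok))))) (B (M (nat_lit 430) (B (L (nat_lit 394) ln14_13_3 ln14_13_3_ok) (M (nat_lit 459) (B (L (nat_lit 458) ln14_13_1 ln14_13_1_ok) (M (nat_lit 431) (B (L (nat_lit 396) ln15_13_3 ln15_13_3_ok) (L (nat_lit 460) ln15_13_1 ln15_13_1_ok))))))) (B (M (nat_lit 459) (B (M (nat_lit 430) (B (L (nat_lit 458) ln14_13_1 ln14_13_1_ok) (M (nat_lit 431) (B (L (nat_lit 396) ln15_13_3 ln15_13_3_ok) (L (nat_lit 460) ln15_13_1 ln15_13_1_ok)))))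 (B (M (nat_lit 460) (B (M (nat_lit 363) (B (L (nat_lit 331) ln11_10_4 ln11_10_4_ok) (L (nat_lit 492) ln11_11_4 ln11_11_4_ok))) (M (nat_lit 458) (B (L (nat_lit 430) ln14_13_1 ln14_13_1_ok) (L (nat_lit 457) ln9_14_2 ln9_14_2_ok))))) (B (M (nat_lit 460) (B (M (nat_lit 363) (B (L (nat_lit 331) ln11_10_4 ln11_10_4_ok) (L (nat_lit 492) ln11_11_4 ln11_11_4_ok))) (B (M (nat_lit 492) (B (L (nat_lit 363) ln11_11_4 ln11_11_4_ok) (L (nat_lit 524) ln12_16_7 ln12_16_7_ok))) (B (M (nat_lit 492) (B (L (nat_lit 524) ln12_16_7 ln12_16_7_ok) (M (nat_lit 365) (B (L (nat_lit 333) ln13_10_5 ln13_10_5_ok) (L (nat_lit 461) ln13_11_5 ln13_11_5_ok))))) (M (nat_lit 363) (B (L (nat_lit 331) ln11_10_4 ln11_10_4_ok) (M (nat_lit 458) (B (L (nat_lit 490) ln11_11_5 ln11_11_5_ok) (L (nat_lit 457) ln9_14_2 ln9_14_2_ok))))))))) (B (M (nat_lit 492) (B (M (nat_lit 460) (B (L (nat_lit 363) ln11_11_4 ln11_11_4_ok) (L (nat_lit 524) ln12_16_7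 ln12_16_7_ok))) (B (M (nat_lit 524) (B (L (nat_lit 460) ln12_16_7 ln12_16_7_ok) (L (nat_lit 491) ln11_12_4 ln11_12_4_ok))) (B (M (nat_lit 491) (B (L (nat_lit 524) ln11_12_4 ln11_12_4_ok) (M (nat_lit 396) (B (L (nat_lit 364) ln11_15_6 ln11_15_6_ok) (L (nat_lit 523) ln11_16_6 ln11_16_6_ok))))) (M (nat_lit 460) (B (L (nat_lit 363) ln11_11_4 ln11_11_4_ok) (M (nat_lit 365) (B (L (nat_lit 333) ln13_10_5 ln13_10_5_ok) (L (nat_lit 461) ln13_11_5 ln13_11_5_ok))))))))) (M (nat_lit 396) (B (M (nat_lit 430) (B (L (nat_lit 431) ln15_13_3 ln15_13_3_ok) (L (nat_lit 458) ln14_13_1 ln14_13_1_ok))) (M (nat_lit 491) (B (L (nat_lit 364) ln11_15_6 ln11_15_6_ok) (L (nat_lit 523) ln11_16_6 ln11_16_6_ok)))))))))) (M (nat_lit 363) (B (M (nat_lit 460) (B (L (nat_lit 331) ln11_10_4 ln11_10_4_ok) (M (nat_lit 492) (B (L (nat_lit 396) ln12_15_7 ln12_15_7_ok) (L (nat_lit 459) ln11_11_4 ln11_11_4_ok))))) (B (M (nat_lit 459) (B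 (M (nat_lit 460) (B (L (nat_lit 492) ln11_11_4 ln11_11_4_ok) (M (nat_lit 458) (B (L (nat_lit 490) ln11_11_5 ln11_11_5_ok) (L (nat_lit 457) ln9_14_2 ln9_14_2_ok))))) (M (nat_lit 491) (B (M (nat_lit 362) (B (L (nat_lit 330) ln11_14_7 ln11_14_7_ok) (L (nat_lit 394) ln11_15_7 ln11_15_7_ok))) (M (nat_lit 396) (B (L (nat_lit 364) ln11_15_6 ln11_15_6_ok) (L (nat_lit 523) ln11_16_6 ln11_16_6_ok))))))) (B (M (nat_lit 460) (B (L (nat_lit 331) ln11_10_4 ln11_10_4_ok) (M (nat_lit 492) (B (L (nat_lit 459) ln11_11_4 ln11_11_4_ok) (L (nat_lit 524) ln12_16_7 ln12_16_7_ok))))) (B (M (nat_lit 460) (B (L (nat_lit 331) ln11_10_4 ln11_10_4_ok) (M (nat_lit 492) (B (L (nat_lit 396) ln12_15_7 ln12_15_7_ok) (L (nat_lit 524) ln12_16_7 ln12_16_7_ok))))) (M (nat_lit 459) (B (M (nat_lit 458) (B (L (nat_lit 490) ln11_11_5 ln11_11_5_ok) (M (nat_lit 426) (B (L (nat_lit 331) ln11_10_5 ln11_10_5_ok) (L (nat_lit 457) ln13_13_1 ln13_13_1_ok)))))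 (M (nat_lit 491) (B (M (nat_lit 362) (B (L (nat_lit 330) ln11_14_7 ln11_14_7_ok) (L (nat_lit 394) ln11_15_7 ln11_15_7_ok))) (M (nat_lit 396) (B (L (nat_lit 364) ln11_15_6 ln11_15_6_ok) (L (nat_lit 523) ln11_16_6 ln11_16_6_ok)))))))))))))))))
noncomputable def c11_n11297 : Cert := (M (nat_lit 395) (B (M (nat_lit 394) (B (L (nat_lit 430) ln14_13_3 ln14_13_3_ok) (M (nat_lit 393) (B (L (nat_lit 392) ln8_12_0 ln8_12_0_ok) (L (nat_lit 396) ln9_12_0 ln9_12_0_ok))))) (B (M (nat_lit 430) (B (L (nat_lit 394) ln14_13_3 ln14_13_3_ok) (M (nat_lit 459) (B (L (nat_lit 458) ln14_13_1 ln14_13_1_ok) (M (nat_lit 431) (B (L (nat_lit 396) ln15_13_3 ln15_13_3_ok) (L (nat_lit 460) ln15_13_1 ln15_13_1_ok))))))) (B (M (nat_lit 459) (B (M (nat_lit 430) (B (L (nat_lit 458) ln14_13_1 ln14_13_1_ok) (M (nat_lit 431) (B (L (nat_lit 396) ln15_13_3 ln15_13_3_ok) (L (nat_lit 460) ln15_13_1 ln15_13_1_ok))))) (B (M (nat_lit 460) (B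 (M (nat_lit 363) (B (L (nat_lit 331) ln11_10_4 ln11_10_4_ok) (L (nat_lit 492) ln11_11_4 ln11_11_4_ok))) (M (nat_lit 458) (B (L (nat_lit 430) ln14_13_1 ln14_13_1_ok) (L (nat_lit 457) ln9_14_2 ln9_14_2_ok))))) (B (M (nat_lit 460) (B (M (nat_lit 363) (B (L (nat_lit 331) ln11_10_4 ln11_10_4_ok) (L (nat_lit 492) ln11_11_4 ln11_11_4_ok))) (B (M (nat_lit 492) (B (L (nat_lit 363) ln11_11_4 ln11_11_4_ok) (L (nat_lit 524) ln12_16_7 ln12_16_7_ok))) (B (M (nat_lit 492) (B (L (nat_lit 524) ln12_16_7 ln12_16_7_ok) (M (nat_lit 365) (B (L (nat_lit 333) ln13_10_5 ln13_10_5_ok) (L (nat_lit 461) ln13_11_5 ln13_11_5_ok))))) (M (nat_lit 363) (B (L (nat_lit 331) ln11_10_4 ln11_10_4_ok) (M (nat_lit 458) (B (L (nat_lit 490) ln11_11_5 ln11_11_5_ok) (L (nat_lit 457) ln9_14_2 ln9_14_2_ok))))))))) (B (M (nat_lit 492) (B (M (nat_lit 460) (B (L (nat_lit 363) ln11_11_4 ln11_11_4_ok) (L (nat_lit 524) ln12_16_7 ln12_16_7_ok))) (B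 (M (nat_lit 524) (B (L (nat_lit 460) ln12_16_7 ln12_16_7_ok) (L (nat_lit 491) ln11_12_4 ln11_12_4_ok))) (B (M (nat_lit 491) (B (L (nat_lit 524) ln11_12_4 ln11_12_4_ok) (M (nat_lit 396) (B (L (nat_lit 364) ln11_15_6 ln11_15_6_ok) (L (nat_lit 523) ln11_16_6 ln11_16_6_ok))))) (M (nat_lit 460) (B (L (nat_lit 363) ln11_11_4 ln11_11_4_ok) (M (nat_lit 365) (B (L (nat_lit 333) ln13_10_5 ln13_10_5_ok) (L (nat_lit 461) ln13_11_5 ln13_11_5_ok))))))))) (M (nat_lit 396) (B (M (nat_lit 430) (B (L (nat_lit 431) ln15_13_3 ln15_13_3_ok) (L (nat_lit 458) ln14_13_1 ln14_13_1_ok))) (M (nat_lit 491) (B (L (nat_lit 364) ln11_15_6 ln11_15_6_ok) (L (nat_lit 523) ln11_16_6 ln11_16_6_ok)))))))))) (B (M (nat_lit 460) (B (M (nat_lit 492) (B (L (nat_lit 524) ln12_16_7 ln12_16_7_ok) (M (nat_lit 365) (B (L (nat_lit 333) ln13_10_5 ln13_10_5_ok) (L (nat_lit 461) ln13_11_5 ln13_11_5_ok))))) (M (nat_lit 430) (B (L (nat_lit 394) ln14_13_3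 ln14_13_3_ok) (M (nat_lit 459) (B (L (nat_lit 458) ln14_13_1 ln14_13_1_ok) (L (nat_lit 431) ln15_13_1 ln15_13_1_ok))))))) (M (nat_lit 459) (B (M (nat_lit 460) (B (M (nat_lit 363) (B (L (nat_lit 331) ln11_10_4 ln11_10_4_ok) (L (nat_lit 492) ln11_11_4 ln11_11_4_ok))) (B (M (nat_lit 492) (B (L (nat_lit 363) ln11_11_4 ln11_11_4_ok) (L (nat_lit 524) ln12_16_7 ln12_16_7_ok))) (B (M (nat_lit 492) (B (L (nat_lit 524) ln12_16_7 ln12_16_7_ok) (M (nat_lit 365) (B (L (nat_lit 333) ln13_10_5 ln13_10_5_ok) (L (nat_lit 461) ln13_11_5 ln13_11_5_ok))))) (M (nat_lit 363) (B (L (nat_lit 331) ln11_10_4 ln11_10_4_ok) (M (nat_lit 458) (B (L (nat_lit 490) ln11_11_5 ln11_11_5_ok) (L (nat_lit 457) ln9_14_2 ln9_14_2_ok))))))))) (B (M (nat_lit 396) (B (M (nat_lit 491) (B (L (nat_lit 364) ln11_15_6 ln11_15_6_ok) (L (nat_lit 523) ln11_16_6 ln11_16_6_ok))) (M (nat_lit 365) (B (M (nat_lit 333) (B (L (nat_lit 301) ln13_9_5 ln13_9_5_ok)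 (L (nat_lit 460) ln13_10_5 ln13_10_5_ok))) (M (nat_lit 394) (B (L (nat_lit 366) ln10_12_2 ln10_12_2_ok) (L (nat_lit 393) ln9_12_0 ln9_12_0_ok))))))) (B (M (nat_lit 460) (B (M (nat_lit 363) (B (L (nat_lit 331) ln11_10_4 ln11_10_4_ok) (L (nat_lit 492) ln11_11_4 ln11_11_4_ok))) (B (M (nat_lit 492) (B (L (nat_lit 363) ln11_11_4 ln11_11_4_ok) (L (nat_lit 524) ln12_16_7 ln12_16_7_ok))) (B (M (nat_lit 492) (B (L (nat_lit 524) ln12_16_7 ln12_16_7_ok) (M (nat_lit 365) (B (L (nat_lit 396) ln12_15_6 ln12_15_6_ok) (L (nat_lit 461) ln13_11_5 ln13_11_5_ok))))) (M (nat_lit 363) (B (L (nat_lit 331) ln11_10_4 ln11_10_4_ok) (M (nat_lit 458) (B (L (nat_lit 490) ln11_11_5 ln11_11_5_ok) (L (nat_lit 457) ln9_14_2 ln9_14_2_ok))))))))) (M (nat_lit 491) (B (M (nat_lit 396) (B (L (nat_lit 364) ln11_15_6 ln11_15_6_ok) (L (nat_lit 523) ln11_16_6 ln11_16_6_ok))) (M (nat_lit 363) (B (M (nat_lit 362) (B (L (nat_lit 330) ln11_14_7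 ln11_14_7_ok) (L (nat_lit 394) ln11_15_7 ln11_15_7_ok))) (M (nat_lit 490) (B (L (nat_lit 458) ln11_11_5 ln11_11_5_ok) (L (nat_lit 522) ln11_12_5 ln11_12_5_ok))))))))))))))))
theorem c11_s11342 : Sem (nat_lit 2079502270913392379444674211814302674077704290823075655481512624564798400421800170032085953906810352733060637150540575368324055040) (nat_lit 96107167266602732516776780500838617942937482967097068066033415663451122255672790328992451276209560786203540332132817486441696375527744815570006482910810472448) (nat_lit 96107167266602732516776780500838617942937482967097068066033415663451122255672790328992451276209560786203540332132817486441696375527744815570006482910810472448) :=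
  sem_of_chk (M (nat_lit 427) (B (M (nat_lit 426) (B (M (nat_lit 393) (B (L (nat_lit 394) ln13_13_3 ln13_13_3_ok) (M (nat_lit 425) (B (L (nat_lit 392) ln12_13_3 ln12_13_3_ok) (L (nat_lit 396) ln9_13_2 ln9_13_2_ok))))) (B (M (nat_lit 425) (B (L (nat_lit 396) ln9_13_2 ln9_13_2_ok) (M (nat_lit 457) (B (L (nat_lit 456) ln12_13_1 ln12_13_1_ok) (L (nat_lit 458) ln13_13_1 ln13_13_1_ok))))) (M (nat_lit 430) (B (M (nat_lit 394) (B (L (nat_lit 393) ln13_13_3 ln13_13_3_ok) (L (nat_lit 395) ln14_13_3 ln14_13_3_ok))) (M (nat_lit 458) (B (L (nat_lit 457) ln13_13_1 ln13_13_1_ok) (L (nat_lit 459) ln14_13_1 ln14_13_1_ok)))))))) (B (M (nat_lit 460) (B (M (nat_lit 492) (B (L (nat_lit 524) ln12_16_6 ln12_16_6_ok) (M (nat_lit 365) (B (L (nat_lit 333) ln13_10_5 ln13_10_5_ok) (L (nat_lit 461) ln13_11_5 ln13_11_5_ok))))) (B (M (nat_lit 492) (B (L (nat_lit 524) ln12_16_6 ln12_16_6_ok) (M (nat_lit 365) (B (L (nat_lit 396)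 ln12_15_6 ln12_15_6_ok) (L (nat_lit 461) ln13_11_5 ln13_11_5_ok))))) (B (M (nat_lit 430) (B (M (nat_lit 459) (B (L (nat_lit 458) ln14_13_1 ln14_13_1_ok) (L (nat_lit 431) ln15_13_1 ln15_13_1_ok))) (M (nat_lit 426) (B (M (nat_lit 394) (B (L (nat_lit 393) ln13_13_3 ln13_13_3_ok) (L (nat_lit 395) ln14_13_3 ln14_13_3_ok))) (M (nat_lit 425) (B (L (nat_lit 396) ln9_13_2 ln9_13_2_ok) (L (nat_lit 461) ln9_13_0 ln9_13_0_ok))))))) (M (nat_lit 492) (B (L (nat_lit 524) ln12_16_6 ln12_16_6_ok) (M (nat_lit 365) (B (L (nat_lit 333) ln13_10_5 ln13_10_5_ok) (L (nat_lit 396) ln12_15_6 ln12_15_6_ok))))))))) (B c11_n11192 (B (M (nat_lit 460) (B (M (nat_lit 492) (B (L (nat_lit 524) ln12_16_6 ln12_16_6_ok) (M (nat_lit 365) (B (L (nat_lit 333) ln13_10_5 ln13_10_5_ok) (L (nat_lit 461) ln13_11_5 ln13_11_5_ok))))) (B (M (nat_lit 492) (B (L (nat_lit 524) ln12_16_6 ln12_16_6_ok) (M (nat_lit 365) (B (L (nat_lit 396) ln12_15_6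 ln12_15_6_ok) (L (nat_lit 461) ln13_11_5 ln13_11_5_ok))))) (B (M (nat_lit 492) (B (L (nat_lit 524) ln12_16_6 ln12_16_6_ok) (M (nat_lit 459) (B (M (nat_lit 458) (B (L (nat_lit 430) ln14_13_1 ln14_13_1_ok) (L (nat_lit 457) ln9_14_2 ln9_14_2_ok))) (M (nat_lit 491) (B (M (nat_lit 396) (B (L (nat_lit 364) ln12_11_5 ln12_11_5_ok) (L (nat_lit 523) ln11_16_6 ln11_16_6_ok))) (M (nat_lit 490) (B (M (nat_lit 395) (B (L (nat_lit 363) ln11_11_4 ln11_11_4_ok) (L (nat_lit 522) ln11_12_5 ln11_12_5_ok))) (M (nat_lit 489) (B (L (nat_lit 488) ln8_15_2 ln8_15_2_ok) (L (nat_lit 461) ln9_15_2 ln9_15_2_ok))))))))))) (B (M (nat_lit 492) (B (L (nat_lit 524) ln12_16_6 ln12_16_6_ok) (M (nat_lit 365) (B (L (nat_lit 333) ln13_10_5 ln13_10_5_ok) (L (nat_lit 396) ln12_15_6 ln12_15_6_ok))))) (M (nat_lit 458) (B (M (nat_lit 457) (B (L (nat_lit 426) ln13_13_1 ln13_13_1_ok) (L (nat_lit 459) ln9_14_2 ln9_14_2_ok))) (B (M (nat_lit 459)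 (B (L (nat_lit 430) ln14_13_1 ln14_13_1_ok) (L (nat_lit 457) ln9_14_2 ln9_14_2_ok))) (B (M (nat_lit 459) (B (L (nat_lit 430) ln14_13_1 ln14_13_1_ok) (M (nat_lit 491) (B (M (nat_lit 396) (B (L (nat_lit 364) ln12_11_5 ln12_11_5_ok) (L (nat_lit 523) ln11_16_6 ln11_16_6_ok))) (M (nat_lit 490) (B (M (nat_lit 395) (B (L (nat_lit 363) ln11_11_5 ln11_11_5_ok) (L (nat_lit 522) ln11_12_5 ln11_12_5_ok))) (M (nat_lit 489) (B (L (nat_lit 461) ln13_14_1 ln13_14_1_ok) (L (nat_lit 488) ln8_15_2 ln8_15_2_ok))))))))) (M (nat_lit 426) (B (L (nat_lit 457) ln13_13_1 ln13_13_1_ok) (M (nat_lit 425) (B (L (nat_lit 396) ln9_13_2 ln9_13_2_ok) (L (nat_lit 461) ln9_13_0 ln9_13_0_ok)))))))))))))) (B (M (nat_lit 426) (B (M (nat_lit 425) (B (L (nat_lit 396) ln9_13_2 ln9_13_2_ok) (M (nat_lit 457) (B (L (nat_lit 456) ln12_13_1 ln12_13_1_ok) (L (nat_lit 458) ln13_13_1 ln13_13_1_ok))))) (B (M (nat_lit 425) (B (M (nat_lit 393) (B (L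 (nat_lit 392) ln12_13_3 ln12_13_3_ok) (L (nat_lit 394) ln13_13_3 ln13_13_3_ok))) (M (nat_lit 457) (B (L (nat_lit 456) ln12_13_1 ln12_13_1_ok) (L (nat_lit 458) ln13_13_1 ln13_13_1_ok))))) (B (M (nat_lit 458) (B (L (nat_lit 457) ln13_13_1 ln13_13_1_ok) (M (nat_lit 394) (B (L (nat_lit 393) ln13_13_3 ln13_13_3_ok) (M (nat_lit 459) (B (L (nat_lit 430) ln14_13_1 ln14_13_1_ok) (M (nat_lit 362) (B (L (nat_lit 330) ln10_10_4 ln10_10_4_ok) (L (nat_lit 491) ln10_11_4 ln10_11_4_ok))))))))) (M (nat_lit 393) (B (L (nat_lit 394) ln13_13_3 ln13_13_3_ok) (M (nat_lit 425) (B (L (nat_lit 392) ln12_13_3 ln12_13_3_ok) (L (nat_lit 396) ln9_13_2 ln9_13_2_ok))))))))) (B (M (nat_lit 460) (B (M (nat_lit 492) (B (L (nat_lit 524) ln12_16_6 ln12_16_6_ok) (M (nat_lit 365) (B (L (nat_lit 333) ln13_10_5 ln13_10_5_ok) (L (nat_lit 461) ln13_11_5 ln13_11_5_ok))))) (B (M (nat_lit 395) (B (M (nat_lit 492) (B (L (nat_lit 524) ln12_16_7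 ln12_16_7_ok) (M (nat_lit 363) (B (L (nat_lit 331) ln11_10_4 ln11_10_4_ok) (L (nat_lit 459) ln11_11_4 ln11_11_4_ok))))) (M (nat_lit 394) (B (L (nat_lit 430) ln14_13_3 ln14_13_3_ok) (M (nat_lit 393) (B (L (nat_lit 392) ln8_12_0 ln8_12_0_ok) (L (nat_lit 426) ln13_13_3 ln13_13_3_ok))))))) (M (nat_lit 426) (B (M (nat_lit 425) (B (L (nat_lit 461) ln9_13_0 ln9_13_0_ok) (M (nat_lit 457) (B (L (nat_lit 456) ln12_13_1 ln12_13_1_ok) (L (nat_lit 458) ln13_13_1 ln13_13_1_ok))))) (B (M (nat_lit 430) (B (M (nat_lit 394) (B (L (nat_lit 393) ln13_13_3 ln13_13_3_ok) (L (nat_lit 395) ln14_13_3 ln14_13_3_ok))) (M (nat_lit 458) (B (L (nat_lit 457) ln13_13_1 ln13_13_1_ok) (L (nat_lit 459) ln14_13_1 ln14_13_1_ok))))) (M (nat_lit 425) (B (L (nat_lit 461) ln9_13_0 ln9_13_0_ok) (M (nat_lit 393) (B (L (nat_lit 392) ln12_13_3 ln12_13_3_ok) (L (nat_lit 394) ln13_13_3 ln13_13_3_ok))))))))))) (B c11_n11275 (B c11_n11297 (B (M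 (nat_lit 426) (B (M (nat_lit 393) (B (L (nat_lit 394) ln13_13_3 ln13_13_3_ok) (M (nat_lit 425) (B (L (nat_lit 392) ln12_13_3 ln12_13_3_ok) (L (nat_lit 396) ln9_13_2 ln9_13_2_ok))))) (B (M (nat_lit 425) (B (L (nat_lit 396) ln9_13_2 ln9_13_2_ok) (M (nat_lit 457) (B (L (nat_lit 456) ln12_13_1 ln12_13_1_ok) (L (nat_lit 458) ln13_13_1 ln13_13_1_ok))))) (B (M (nat_lit 425) (B (M (nat_lit 393) (B (L (nat_lit 392) ln12_13_3 ln12_13_3_ok) (L (nat_lit 394) ln13_13_3 ln13_13_3_ok))) (M (nat_lit 457) (B (L (nat_lit 456) ln12_13_1 ln12_13_1_ok) (L (nat_lit 458) ln13_13_1 ln13_13_1_ok))))) (M (nat_lit 394) (B (L (nat_lit 393) ln13_13_3 ln13_13_3_ok) (M (nat_lit 458) (B (L (nat_lit 457) ln13_13_1 ln13_13_1_ok) (M (nat_lit 395) (B (M (nat_lit 363) (B (L (nat_lit 331) ln11_10_5 ln11_10_5_ok) (L (nat_lit 490) ln10_15_6 ln10_15_6_ok))) (M (nat_lit 362) (B (M (nat_lit 330) (B (L (nat_lit 298) ln10_9_4 ln10_9_4_ok) (L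 (nat_lit 459) ln10_10_4 ln10_10_4_ok))) (M (nat_lit 361) (B (L (nat_lit 329) ln10_14_7 ln10_14_7_ok) (L (nat_lit 396) ln13_12_3 ln13_12_3_ok))))))))))))))) (B (M (nat_lit 460) (B (M (nat_lit 492) (B (L (nat_lit 524) ln12_16_6 ln12_16_6_ok) (M (nat_lit 365) (B (L (nat_lit 333) ln13_10_5 ln13_10_5_ok) (L (nat_lit 461) ln13_11_5 ln13_11_5_ok))))) (B (M (nat_lit 492) (B (L (nat_lit 524) ln12_16_6 ln12_16_6_ok) (M (nat_lit 365) (B (L (nat_lit 396) ln12_15_6 ln12_15_6_ok) (L (nat_lit 461) ln13_11_5 ln13_11_5_ok))))) (B (M (nat_lit 430) (B (M (nat_lit 431) (B (L (nat_lit 459) ln15_13_1 ln15_13_1_ok) (M (nat_lit 395) (B (L (nat_lit 394) ln14_13_3 ln14_13_3_ok) (L (nat_lit 396) ln15_13_3 ln15_13_3_ok))))) (B (M (nat_lit 431) (B (L (nat_lit 459) ln15_13_1 ln15_13_1_ok) (M (nat_lit 396) (B (L (nat_lit 395) ln15_13_3 ln15_13_3_ok) (L (nat_lit 432) ln16_13_3 ln16_13_3_ok))))) (B (M (nat_lit 431) (B (L (nat_lit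 459) ln15_13_1 ln15_13_1_ok) (M (nat_lit 432) (B (L (nat_lit 396) ln16_13_3 ln16_13_3_ok) (L (nat_lit 461) ln16_13_1 ln16_13_1_ok))))) (B (M (nat_lit 394) (B (L (nat_lit 395) ln14_13_3 ln14_13_3_ok) (M (nat_lit 461) (B (M (nat_lit 426) (B (L (nat_lit 393) ln13_13_3 ln13_13_3_ok) (L (nat_lit 425) ln9_13_0 ln9_13_0_ok))) (M (nat_lit 431) (B (L (nat_lit 459) ln15_13_1 ln15_13_1_ok) (L (nat_lit 432) ln16_13_1 ln16_13_1_ok))))))) (M (nat_lit 426) (B (M (nat_lit 394) (B (L (nat_lit 393) ln13_13_3 ln13_13_3_ok) (L (nat_lit 395) ln14_13_3 ln14_13_3_ok))) (M (nat_lit 425) (B (L (nat_lit 396) ln9_13_2 ln9_13_2_ok) (L (nat_lit 461) ln9_13_0 ln9_13_0_ok)))))))))) (M (nat_lit 492) (B (L (nat_lit 524) ln12_16_6 ln12_16_6_ok) (M (nat_lit 365) (B (L (nat_lit 333) ln13_10_5 ln13_10_5_ok) (L (nat_lit 396) ln12_15_6 ln12_15_6_ok))))))))) (M (nat_lit 426) (B (M (nat_lit 393) (B (L (nat_lit 394) ln13_13_3 ln13_13_3_ok)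 (M (nat_lit 425) (B (L (nat_lit 392) ln12_13_3 ln12_13_3_ok) (L (nat_lit 396) ln9_13_2 ln9_13_2_ok))))) (B (M (nat_lit 425) (B (L (nat_lit 396) ln9_13_2 ln9_13_2_ok) (M (nat_lit 457) (B (L (nat_lit 456) ln12_13_1 ln12_13_1_ok) (L (nat_lit 458) ln13_13_1 ln13_13_1_ok))))) (B (M (nat_lit 425) (B (M (nat_lit 393) (B (L (nat_lit 392) ln12_13_3 ln12_13_3_ok) (L (nat_lit 394) ln13_13_3 ln13_13_3_ok))) (M (nat_lit 457) (B (L (nat_lit 456) ln12_13_1 ln12_13_1_ok) (L (nat_lit 458) ln13_13_1 ln13_13_1_ok))))) (M (nat_lit 394) (B (L (nat_lit 393) ln13_13_3 ln13_13_3_ok) (M (nat_lit 395) (B (L (nat_lit 430) ln14_13_3 ln14_13_3_ok) (M (nat_lit 458) (B (L (nat_lit 457) ln13_13_1 ln13_13_1_ok) (M (nat_lit 363) (B (L (nat_lit 331) ln11_10_5 ln11_10_5_ok) (L (nat_lit 490) ln10_15_6 ln10_15_6_ok)))))))))))))))))))))))) (nat_lit 2079502270913392379444674211814302674077704290823075655481512624564798400421800170032085953906810352733060637150540575368324055040)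 (nat_lit 96107167266602732516776780500838617942937482967097068066033415663451122255672790328992451276209560786203540332132817486441696375527744815570006482910810472448) (nat_lit 96107167266602732516776780500838617942937482967097068066033415663451122255672790328992451276209560786203540332132817486441696375527744815570006482910810472448) (by decide +kernel)
theorem c11_s11504 : Sem (nat_lit 2079502270913392379444674211814302674077704290823075655481512624564798400421800170032085953906810352733060637150540575368324055040) (nat_lit 192214334528410459247987529827954797672363882964871259722483205544179956124220522829235523328570160354413708462873868011639975318519426274641996657777480564736) (nat_lit 192214334528410459247987529827954797672363882964871259722483205544179956124220522829235523328570160354413708462873868011639975318519426274641996657777480564736) :=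
  sem_of_chk (M (nat_lit 396) (B (M (nat_lit 365) (B (M (nat_lit 460) (B (L (nat_lit 333) ln13_10_5 ln13_10_5_ok) (L (nat_lit 492) ln12_15_6 ln12_15_6_ok))) (M (nat_lit 366) (B (M (nat_lit 395) (B (L (nat_lit 394) ln10_12_2 ln10_12_2_ok) (M (nat_lit 367) (B (L (nat_lit 364) ln15_11_1 ln15_11_1_ok) (L (nat_lit 368) ln16_11_1 ln16_11_1_ok))))) (B (M (nat_lit 367) (B (L (nat_lit 368) ln16_11_1 ln16_11_1_ok) (M (nat_lit 395) (B (L (nat_lit 394) ln10_12_2 ln10_12_2_ok) (L (nat_lit 398) ln11_12_2 ln11_12_2_ok))))) (M (nat_lit 461) (B (L (nat_lit 334) ln13_14_6 ln13_14_6_ok) (M (nat_lit 493) (B (L (nat_lit 364) ln13_15_7 ln13_15_7_ok) (L (nat_lit 398) ln13_15_6 ln13_15_6_ok)))))))))) (B (M (nat_lit 395) (B (M (nat_lit 394) (B (L (nat_lit 393) ln9_12_0 ln9_12_0_ok) (L (nat_lit 430) ln10_12_0 ln10_12_0_ok))) (B (M (nat_lit 430) (B (L (nat_lit 394) ln10_12_0 ln10_12_0_ok) (L (nat_lit 431) ln15_13_3 ln15_13_3_ok)))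 (B (M (nat_lit 430) (B (L (nat_lit 431) ln15_13_3 ln15_13_3_ok) (M (nat_lit 398) (B (M (nat_lit 363) (B (L (nat_lit 362) ln14_12_3 ln14_12_3_ok) (M (nat_lit 399) (B (L (nat_lit 364) ln15_12_3 ln15_12_3_ok) (L (nat_lit 400) ln16_12_1 ln16_12_1_ok))))) (M (nat_lit 366) (B (L (nat_lit 367) ln11_12_2 ln11_12_2_ok) (M (nat_lit 334) (B (L (nat_lit 302) ln14_9_5 ln14_9_5_ok) (L (nat_lit 461) ln14_10_5 ln14_10_5_ok))))))))) (M (nat_lit 398) (B (M (nat_lit 399) (B (L (nat_lit 400) ln16_12_1 ln16_12_1_ok) (M (nat_lit 367) (B (L (nat_lit 366) ln11_12_2 ln11_12_2_ok) (L (nat_lit 368) ln12_12_2 ln12_12_2_ok))))) (B (M (nat_lit 399) (B (L (nat_lit 400) ln16_12_1 ln16_12_1_ok) (M (nat_lit 363) (B (L (nat_lit 362) ln14_12_3 ln14_12_3_ok) (L (nat_lit 364) ln15_12_3 ln15_12_3_ok))))) (M (nat_lit 394) (B (L (nat_lit 393) ln9_12_0 ln9_12_0_ok) (M (nat_lit 366) (B (L (nat_lit 365) ln10_12_2 ln10_12_2_ok) (L (nat_lit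 367) ln11_12_2 ln11_12_2_ok)))))))))))) (B (M (nat_lit 460) (B (M (nat_lit 365) (B (L (nat_lit 333) ln13_10_5 ln13_10_5_ok) (L (nat_lit 492) ln12_15_6 ln12_15_6_ok))) (B (M (nat_lit 492) (B (L (nat_lit 365) ln12_15_6 ln12_15_6_ok) (L (nat_lit 524) ln12_16_6 ln12_16_6_ok))) (B (M (nat_lit 395) (B (M (nat_lit 492) (B (L (nat_lit 363) ln12_15_7 ln12_15_7_ok) (L (nat_lit 524) ln12_16_6 ln12_16_6_ok))) (M (nat_lit 430) (B (L (nat_lit 394) ln10_12_0 ln10_12_0_ok) (L (nat_lit 431) ln15_13_3 ln15_13_3_ok))))) (M (nat_lit 364) (B (M (nat_lit 365) (B (L (nat_lit 333) ln12_14_6 ln12_14_6_ok) (M (nat_lit 363) (B (L (nat_lit 331) ln12_14_7 ln12_14_7_ok) (M (nat_lit 362) (B (L (nat_lit 361) ln9_11_0 ln9_11_0_ok) (L (nat_lit 398) ln10_11_0 ln10_11_0_ok))))))) (M (nat_lit 461) (B (L (nat_lit 493) ln13_15_7 ln13_15_7_ok) (M (nat_lit 459) (B (L (nat_lit 491) ln12_11_5 ln12_11_5_ok) (M (nat_lit 430) (B (L (nat_lit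 431) ln15_13_1 ln15_13_1_ok) (L (nat_lit 458) ln10_14_2 ln10_14_2_ok))))))))))))) (B (M (nat_lit 365) (B (M (nat_lit 333) (B (L (nat_lit 301) ln13_9_5 ln13_9_5_ok) (L (nat_lit 460) ln13_10_5 ln13_10_5_ok))) (B (M (nat_lit 460) (B (L (nat_lit 333) ln13_10_5 ln13_10_5_ok) (L (nat_lit 492) ln12_15_6 ln12_15_6_ok))) (M (nat_lit 395) (B (M (nat_lit 394) (B (L (nat_lit 366) ln10_12_2 ln10_12_2_ok) (L (nat_lit 393) ln9_12_0 ln9_12_0_ok))) (B (M (nat_lit 394) (B (L (nat_lit 393) ln9_12_0 ln9_12_0_ok) (L (nat_lit 430) ln10_12_0 ln10_12_0_ok))) (B (M (nat_lit 394) (B (L (nat_lit 366) ln10_12_2 ln10_12_2_ok) (L (nat_lit 430) ln10_12_0 ln10_12_0_ok))) (M (nat_lit 398) (B (M (nat_lit 431) (B (L (nat_lit 430) ln11_12_0 ln11_12_0_ok) (M (nat_lit 399) (B (L (nat_lit 432) ln12_12_0 ln12_12_0_ok) (L (nat_lit 400) ln16_12_1 ln16_12_1_ok))))) (M (nat_lit 366) (B (L (nat_lit 367) ln11_12_2 ln11_12_2_ok) (M (nat_lit 334)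 (B (L (nat_lit 302) ln14_9_5 ln14_9_5_ok) (L (nat_lit 461) ln13_14_6 ln13_14_6_ok)))))))))))))) (B (M (nat_lit 395) (B (M (nat_lit 394) (B (L (nat_lit 393) ln9_12_0 ln9_12_0_ok) (L (nat_lit 430) ln10_12_0 ln10_12_0_ok))) (B (M (nat_lit 430) (B (L (nat_lit 394) ln10_12_0 ln10_12_0_ok) (L (nat_lit 431) ln15_13_3 ln15_13_3_ok))) (B (M (nat_lit 430) (B (L (nat_lit 431) ln15_13_3 ln15_13_3_ok) (M (nat_lit 398) (B (M (nat_lit 363) (B (L (nat_lit 362) ln14_12_3 ln14_12_3_ok) (M (nat_lit 399) (B (L (nat_lit 364) ln15_12_3 ln15_12_3_ok) (L (nat_lit 400) ln16_12_1 ln16_12_1_ok))))) (M (nat_lit 366) (B (L (nat_lit 367) ln11_12_2 ln11_12_2_ok) (M (nat_lit 334) (B (L (nat_lit 302) ln14_9_5 ln14_9_5_ok) (L (nat_lit 461) ln14_10_5 ln14_10_5_ok))))))))) (M (nat_lit 398) (B (M (nat_lit 362) (B (L (nat_lit 363) ln14_12_3 ln14_12_3_ok) (M (nat_lit 394) (B (L (nat_lit 361) ln13_12_3 ln13_12_3_ok) (L (nat_lit 393) ln9_12_0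 ln9_12_0_ok))))) (M (nat_lit 399) (B (L (nat_lit 400) ln16_12_1 ln16_12_1_ok) (M (nat_lit 367) (B (L (nat_lit 366) ln11_12_2 ln11_12_2_ok) (L (nat_lit 368) ln12_12_2 ln12_12_2_ok))))))))))) (B (M (nat_lit 365) (B (M (nat_lit 333) (B (L (nat_lit 301) ln13_9_5 ln13_9_5_ok) (L (nat_lit 460) ln13_10_5 ln13_10_5_ok))) (B (M (nat_lit 460) (B (L (nat_lit 333) ln13_10_5 ln13_10_5_ok) (L (nat_lit 492) ln12_15_6 ln12_15_6_ok))) (M (nat_lit 366) (B (M (nat_lit 367) (B (L (nat_lit 368) ln16_11_1 ln16_11_1_ok) (M (nat_lit 395) (B (L (nat_lit 364) ln15_11_1 ln15_11_1_ok) (L (nat_lit 398) ln11_12_2 ln11_12_2_ok))))) (B (M (nat_lit 461) (B (L (nat_lit 334) ln13_14_6 ln13_14_6_ok) (M (nat_lit 493) (B (L (nat_lit 398) ln13_15_6 ln13_15_6_ok) (L (nat_lit 525) ln13_16_7 ln13_16_7_ok))))) (M (nat_lit 461) (B (L (nat_lit 334) ln13_14_6 ln13_14_6_ok) (M (nat_lit 493) (B (L (nat_lit 364) ln13_15_7 ln13_15_7_ok) (L (nat_lit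 525) ln13_16_7 ln13_16_7_ok))))))))))) (B (M (nat_lit 460) (B (M (nat_lit 365) (B (L (nat_lit 333) ln13_10_5 ln13_10_5_ok) (L (nat_lit 492) ln12_15_6 ln12_15_6_ok))) (B (M (nat_lit 492) (B (L (nat_lit 365) ln12_15_6 ln12_15_6_ok) (L (nat_lit 524) ln12_16_6 ln12_16_6_ok))) (B (M (nat_lit 492) (B (L (nat_lit 524) ln12_16_6 ln12_16_6_ok) (M (nat_lit 364) (B (M (nat_lit 493) (B (L (nat_lit 461) ln13_15_7 ln13_15_7_ok) (L (nat_lit 525) ln12_12_4 ln12_12_4_ok))) (M (nat_lit 491) (B (L (nat_lit 459) ln12_11_5 ln12_11_5_ok) (L (nat_lit 523) ln12_12_5 ln12_12_5_ok))))))) (M (nat_lit 364) (B (M (nat_lit 365) (B (L (nat_lit 333) ln12_14_6 ln12_14_6_ok) (M (nat_lit 363) (B (L (nat_lit 331) ln12_14_7 ln12_14_7_ok) (M (nat_lit 362) (B (L (nat_lit 361) ln9_11_0 ln9_11_0_ok) (L (nat_lit 398) ln10_11_0 ln10_11_0_ok))))))) (M (nat_lit 461) (B (L (nat_lit 493) ln13_15_7 ln13_15_7_ok) (M (nat_lit 459) (B (L (nat_lit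 491) ln12_11_5 ln12_11_5_ok) (M (nat_lit 430) (B (L (nat_lit 431) ln15_13_1 ln15_13_1_ok) (L (nat_lit 458) ln10_14_2 ln10_14_2_ok))))))))))))) (B (M (nat_lit 365) (B (M (nat_lit 333) (B (L (nat_lit 301) ln13_9_5 ln13_9_5_ok) (L (nat_lit 460) ln13_10_5 ln13_10_5_ok))) (B (M (nat_lit 460) (B (L (nat_lit 333) ln13_10_5 ln13_10_5_ok) (L (nat_lit 492) ln12_15_6 ln12_15_6_ok))) (B (M (nat_lit 395) (B (M (nat_lit 394) (B (L (nat_lit 366) ln10_12_2 ln10_12_2_ok) (L (nat_lit 393) ln9_12_0 ln9_12_0_ok))) (B (M (nat_lit 394) (B (L (nat_lit 393) ln9_12_0 ln9_12_0_ok) (L (nat_lit 430) ln10_12_0 ln10_12_0_ok))) (B (M (nat_lit 394) (B (L (nat_lit 366) ln10_12_2 ln10_12_2_ok) (L (nat_lit 430) ln10_12_0 ln10_12_0_ok))) (M (nat_lit 461) (B (M (nat_lit 493) (B (L (nat_lit 364) ln13_15_7 ln13_15_7_ok) (L (nat_lit 525) ln13_16_7 ln13_16_7_ok))) (B (M (nat_lit 493) (B (L (nat_lit 525) ln13_16_7 ln13_16_7_ok) (M (nat_lit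 492) (B (L (nat_lit 460) ln12_15_6 ln12_15_6_ok) (L (nat_lit 524) ln13_12_5 ln13_12_5_ok))))) (M (nat_lit 366) (B (L (nat_lit 334) ln13_14_6 ln13_14_6_ok) (M (nat_lit 367) (B (L (nat_lit 364) ln15_11_1 ln15_11_1_ok) (L (nat_lit 368) ln16_11_1 ln16_11_1_ok)))))))))))) (M (nat_lit 366) (B (M (nat_lit 395) (B (L (nat_lit 394) ln10_12_2 ln10_12_2_ok) (M (nat_lit 367) (B (L (nat_lit 364) ln15_11_1 ln15_11_1_ok) (L (nat_lit 368) ln16_11_1 ln16_11_1_ok))))) (M (nat_lit 333) (B (L (nat_lit 301) ln13_9_5 ln13_9_5_ok) (M (nat_lit 334) (B (L (nat_lit 302) ln13_13_6 ln13_13_6_ok) (L (nat_lit 461) ln13_14_6 ln13_14_6_ok))))))))))) (M (nat_lit 395) (B (M (nat_lit 394) (B (L (nat_lit 393) ln9_12_0 ln9_12_0_ok) (L (nat_lit 430) ln10_12_0 ln10_12_0_ok))) (B (M (nat_lit 430) (B (L (nat_lit 394) ln10_12_0 ln10_12_0_ok) (L (nat_lit 431) ln15_13_3 ln15_13_3_ok))) (B (M (nat_lit 460) (B (M (nat_lit 492) (B (L (nat_lit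 363) ln12_15_7 ln12_15_7_ok) (L (nat_lit 365) ln12_15_6 ln12_15_6_ok))) (B (M (nat_lit 492) (B (L (nat_lit 365) ln12_15_6 ln12_15_6_ok) (L (nat_lit 524) ln12_16_6 ln12_16_6_ok))) (B (M (nat_lit 492) (B (L (nat_lit 363) ln12_15_7 ln12_15_7_ok) (L (nat_lit 524) ln12_16_6 ln12_16_6_ok))) (M (nat_lit 398) (B (M (nat_lit 431) (B (L (nat_lit 430) ln11_12_0 ln11_12_0_ok) (M (nat_lit 399) (B (L (nat_lit 432) ln12_12_0 ln12_12_0_ok) (L (nat_lit 400) ln16_12_1 ln16_12_1_ok))))) (M (nat_lit 363) (B (L (nat_lit 362) ln14_12_3 ln14_12_3_ok) (M (nat_lit 331) (B (L (nat_lit 299) ln11_9_4 ln11_9_4_ok) (L (nat_lit 364) ln12_14_7 ln12_14_7_ok))))))))))) (M (nat_lit 365) (B (M (nat_lit 333) (B (L (nat_lit 301) ln13_9_5 ln13_9_5_ok) (L (nat_lit 460) ln13_10_5 ln13_10_5_ok))) (M (nat_lit 394) (B (L (nat_lit 366) ln10_12_2 ln10_12_2_ok) (L (nat_lit 393) ln9_12_0 ln9_12_0_ok)))))))))))))))))) (nat_lit 2079502270913392379444674211814302674077704290823075655481512624564798400421800170032085953906810352733060637150540575368324055040)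 (nat_lit 192214334528410459247987529827954797672363882964871259722483205544179956124220522829235523328570160354413708462873868011639975318519426274641996657777480564736) (nat_lit 192214334528410459247987529827954797672363882964871259722483205544179956124220522829235523328570160354413708462873868011639975318519426274641996657777480564736) (by decide +kernel)
noncomputable def c11_n11640 : Cert := (M (nat_lit 366) (B (M (nat_lit 334) (B (L (nat_lit 461) ln13_14_6 ln13_14_6_ok) (M (nat_lit 302) (B (L (nat_lit 270) ln14_8_5 ln14_8_5_ok) (L (nat_lit 398) ln14_9_5 ln14_9_5_ok))))) (B (M (nat_lit 398) (B (M (nat_lit 334) (B (L (nat_lit 302) ln14_9_5 ln14_9_5_ok) (L (nat_lit 461) ln13_14_6 ln13_14_6_ok))) (M (nat_lit 399) (B (L (nat_lit 396) ln15_12_1 ln15_12_1_ok) (L (nat_lit 400) ln16_12_1 ln16_12_1_ok))))) (B (M (nat_lit 398) (B (M (nat_lit 461) (B (L (nat_lit 334) ln13_14_6 ln13_14_6_ok) (L (nat_lit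 493) ln13_15_6 ln13_15_6_ok))) (M (nat_lit 399) (B (L (nat_lit 396) ln15_12_1 ln15_12_1_ok) (L (nat_lit 400) ln16_12_1 ln16_12_1_ok))))) (B (M (nat_lit 363) (B (M (nat_lit 331) (B (L (nat_lit 395) ln11_10_4 ln11_10_4_ok) (M (nat_lit 364) (B (L (nat_lit 330) ln14_11_3 ln14_11_3_ok) (L (nat_lit 396) ln12_14_7 ln12_14_7_ok))))) (B (M (nat_lit 395) (B (L (nat_lit 331) ln11_10_4 ln11_10_4_ok) (M (nat_lit 394) (B (L (nat_lit 364) ln14_11_1 ln14_11_1_ok) (L (nat_lit 396) ln10_12_2 ln10_12_2_ok))))) (B (M (nat_lit 395) (B (M (nat_lit 394) (B (L (nat_lit 364) ln14_11_1 ln14_11_1_ok) (L (nat_lit 396) ln10_12_2 ln10_12_2_ok))) (B (M (nat_lit 396) (B (L (nat_lit 394) ln10_12_2 ln10_12_2_ok) (M (nat_lit 367) (B (L (nat_lit 368) ln16_11_1 ln16_11_1_ok) (L (nat_lit 398) ln11_12_2 ln11_12_2_ok))))) (B (M (nat_lit 396) (B (M (nat_lit 367) (B (L (nat_lit 364) ln15_11_1 ln15_11_1_ok) (L (nat_lit 368) ln16_11_1 ln16_11_1_ok)))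 (M (nat_lit 398) (B (L (nat_lit 362) ln14_12_3 ln14_12_3_ok) (L (nat_lit 399) ln15_12_1 ln15_12_1_ok))))) (M (nat_lit 364) (B (L (nat_lit 394) ln14_11_1 ln14_11_1_ok) (M (nat_lit 398) (B (L (nat_lit 362) ln10_11_0 ln10_11_0_ok) (L (nat_lit 399) ln11_11_0 ln11_11_0_ok))))))))) (B (M (nat_lit 395) (B (L (nat_lit 331) ln11_10_4 ln11_10_4_ok) (M (nat_lit 396) (B (L (nat_lit 394) ln10_12_2 ln10_12_2_ok) (M (nat_lit 367) (B (L (nat_lit 368) ln16_11_1 ln16_11_1_ok) (L (nat_lit 398) ln11_12_2 ln11_12_2_ok))))))) (B (M (nat_lit 364) (B (M (nat_lit 331) (B (L (nat_lit 330) ln14_11_3 ln14_11_3_ok) (L (nat_lit 396) ln12_14_7 ln12_14_7_ok))) (M (nat_lit 398) (B (L (nat_lit 362) ln10_11_0 ln10_11_0_ok) (L (nat_lit 399) ln11_11_0 ln11_11_0_ok))))) (M (nat_lit 364) (B (M (nat_lit 331) (B (L (nat_lit 330) ln14_11_3 ln14_11_3_ok) (L (nat_lit 395) ln11_10_4 ln11_10_4_ok))) (M (nat_lit 398) (B (L (nat_lit 362) ln10_11_0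 ln10_11_0_ok) (L (nat_lit 399) ln11_11_0 ln11_11_0_ok))))))))))) (M (nat_lit 364) (B (M (nat_lit 461) (B (L (nat_lit 334) ln13_14_6 ln13_14_6_ok) (M (nat_lit 396) (B (L (nat_lit 493) ln13_15_7 ln13_15_7_ok) (M (nat_lit 367) (B (L (nat_lit 395) ln15_11_1 ln15_11_1_ok) (L (nat_lit 368) ln16_11_1 ln16_11_1_ok))))))) (B (M (nat_lit 367) (B (M (nat_lit 396) (B (L (nat_lit 395) ln15_11_1 ln15_11_1_ok) (L (nat_lit 368) ln16_11_1 ln16_11_1_ok))) (B (M (nat_lit 395) (B (L (nat_lit 396) ln15_11_1 ln15_11_1_ok) (M (nat_lit 363) (B (L (nat_lit 331) ln11_10_4 ln11_10_4_ok) (L (nat_lit 394) ln14_11_1 ln14_11_1_ok))))) (B (M (nat_lit 368) (B (L (nat_lit 396) ln16_11_1 ln16_11_1_ok) (M (nat_lit 336) (B (L (nat_lit 335) ln12_11_2 ln12_11_2_ok) (L (nat_lit 337) ln13_11_2 ln13_11_2_ok))))) (M (nat_lit 368) (B (M (nat_lit 336) (B (L (nat_lit 335) ln12_11_2 ln12_11_2_ok) (L (nat_lit 337) ln13_11_2 ln13_11_2_ok))) (M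 (nat_lit 400) (B (L (nat_lit 399) ln12_11_0 ln12_11_0_ok) (L (nat_lit 401) ln13_11_0 ln13_11_0_ok))))))))) (B (M (nat_lit 363) (B (M (nat_lit 331) (B (L (nat_lit 330) ln14_11_3 ln14_11_3_ok) (L (nat_lit 396) ln12_14_7 ln12_14_7_ok))) (M (nat_lit 334) (B (L (nat_lit 335) ln11_11_2 ln11_11_2_ok) (L (nat_lit 461) ln13_14_6 ln13_14_6_ok))))) (M (nat_lit 363) (B (M (nat_lit 331) (B (L (nat_lit 330) ln14_11_3 ln14_11_3_ok) (L (nat_lit 395) ln11_10_4 ln11_10_4_ok))) (M (nat_lit 334) (B (L (nat_lit 335) ln11_11_2 ln11_11_2_ok) (L (nat_lit 461) ln13_14_6 ln13_14_6_ok))))))))))))))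
noncomputable def c11_n11641 : Cert := (M (nat_lit 365) (B (L (nat_lit 333) ln13_10_5 ln13_10_5_ok) c11_n11640))
theorem c11_s11642 : Sem (nat_lit 2426085982678494236891975984832188137007258925245052727377822572141626063897503372912082754669827799995234538520716021846945824768) (nat_lit 192214334528410459247243246954867408362739997297541609911585226088871139253104066847654266866638463736971942788100666198397205763761414522307443807696103407616) (nat_lit 192214334528410459247243246954867408362739997297541609911585226088871139253104066847654266866638463736971942788100666198397205763761414522307443807696103407616) :=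
  sem_of_chk (M (nat_lit 460) (B (M (nat_lit 492) (B (L (nat_lit 524) ln12_16_6 ln12_16_6_ok) (M (nat_lit 365) (B (L (nat_lit 333) ln13_10_5 ln13_10_5_ok) (L (nat_lit 461) ln13_11_5 ln13_11_5_ok))))) (B (M (nat_lit 492) (B (L (nat_lit 524) ln12_16_6 ln12_16_6_ok) (M (nat_lit 365) (B (L (nat_lit 396) ln12_15_6 ln12_15_6_ok) (L (nat_lit 461) ln13_11_5 ln13_11_5_ok))))) (B (M (nat_lit 492) (B (L (nat_lit 524) ln12_16_6 ln12_16_6_ok) (M (nat_lit 396) (B (M (nat_lit 363) (B (L (nat_lit 395) ln12_15_7 ln12_15_7_ok) (M (nat_lit 364) (B (L (nat_lit 331) ln12_14_7 ln12_14_7_ok) (M (nat_lit 493) (B (L (nat_lit 461) ln13_15_7 ln13_15_7_ok) (L (nat_lit 525) ln12_12_4 ln12_12_4_ok))))))) (B (M (nat_lit 364) (B (M (nat_lit 493) (B (L (nat_lit 461) ln13_15_7 ln13_15_7_ok) (L (nat_lit 525) ln12_12_4 ln12_12_4_ok))) (M (nat_lit 491) (B (L (nat_lit 459) ln12_11_5 ln12_11_5_ok) (L (nat_lit 523) ln12_12_5 ln12_12_5_ok)))))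 (B (M (nat_lit 398) (B (L (nat_lit 399) ln15_12_1 ln15_12_1_ok) (M (nat_lit 366) (B (M (nat_lit 395) (B (L (nat_lit 363) ln12_15_7 ln12_15_7_ok) (L (nat_lit 367) ln11_12_2 ln11_12_2_ok))) (M (nat_lit 493) (B (L (nat_lit 461) ln13_15_6 ln13_15_6_ok) (L (nat_lit 525) ln12_12_4 ln12_12_4_ok))))))) (M (nat_lit 364) (B (M (nat_lit 363) (B (L (nat_lit 331) ln12_14_7 ln12_14_7_ok) (L (nat_lit 395) ln12_15_7 ln12_15_7_ok))) (M (nat_lit 491) (B (L (nat_lit 459) ln12_11_5 ln12_11_5_ok) (L (nat_lit 523) ln12_12_5 ln12_12_5_ok))))))))))) (B (M (nat_lit 492) (B (L (nat_lit 524) ln12_16_6 ln12_16_6_ok) (M (nat_lit 365) (B (L (nat_lit 333) ln13_10_5 ln13_10_5_ok) (L (nat_lit 396) ln12_15_6 ln12_15_6_ok))))) c11_n11641))))) (nat_lit 2426085982678494236891975984832188137007258925245052727377822572141626063897503372912082754669827799995234538520716021846945824768) (nat_lit 192214334528410459247243246954867408362739997297541609911585226088871139253104066847654266866638463736971942788100666198397205763761414522307443807696103407616)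 (nat_lit 192214334528410459247243246954867408362739997297541609911585226088871139253104066847654266866638463736971942788100666198397205763761414522307443807696103407616) (by decide +kernel)
noncomputable def c11_n11749 : Cert := (M (nat_lit 395) (B (M (nat_lit 427) (B (L (nat_lit 426) ln10_13_2 ln10_13_2_ok) (M (nat_lit 394) (B (L (nat_lit 430) ln14_13_3 ln14_13_3_ok) (M (nat_lit 396) (B (L (nat_lit 393) ln9_12_0 ln9_12_0_ok) (M (nat_lit 366) (B (L (nat_lit 365) ln10_12_2 ln10_12_2_ok) (L (nat_lit 367) ln11_12_2 ln11_12_2_ok))))))))) (B (M (nat_lit 430) (B (M (nat_lit 394) (B (L (nat_lit 396) ln10_12_0 ln10_12_0_ok) (L (nat_lit 427) ln14_13_3 ln14_13_3_ok))) (B (M (nat_lit 366) (B (M (nat_lit 334) (B (L (nat_lit 302) ln14_9_5 ln14_9_5_ok) (L (nat_lit 461) ln14_10_5 ln14_10_5_ok))) (M (nat_lit 396) (B (L (nat_lit 367) ln11_12_2 ln11_12_2_ok) (L (nat_lit 431) ln11_12_0 ln11_12_0_ok))))) (M (nat_lit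 427) (B (L (nat_lit 394) ln14_13_3 ln14_13_3_ok) (L (nat_lit 426) ln10_13_2 ln10_13_2_ok)))))) (B (M (nat_lit 460) (B (M (nat_lit 492) (B (L (nat_lit 524) ln12_16_6 ln12_16_6_ok) (M (nat_lit 365) (B (L (nat_lit 333) ln13_10_5 ln13_10_5_ok) (L (nat_lit 461) ln13_11_5 ln13_11_5_ok))))) (B (M (nat_lit 492) (B (L (nat_lit 524) ln12_16_6 ln12_16_6_ok) (M (nat_lit 365) (B (L (nat_lit 396) ln12_15_6 ln12_15_6_ok) (L (nat_lit 461) ln13_11_5 ln13_11_5_ok))))) (B (M (nat_lit 396) (B (M (nat_lit 363) (B (L (nat_lit 362) ln14_12_3 ln14_12_3_ok) (L (nat_lit 492) ln12_15_7 ln12_15_7_ok))) (M (nat_lit 394) (B (L (nat_lit 393) ln9_12_0 ln9_12_0_ok) (L (nat_lit 430) ln10_12_0 ln10_12_0_ok))))) (M (nat_lit 430) (B (M (nat_lit 394) (B (L (nat_lit 396) ln10_12_0 ln10_12_0_ok) (L (nat_lit 427) ln14_13_3 ln14_13_3_ok))) (B (M (nat_lit 431) (B (L (nat_lit 396) ln11_12_0 ln11_12_0_ok) (L (nat_lit 459) ln15_13_1 ln15_13_1_ok)))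 (M (nat_lit 427) (B (L (nat_lit 394) ln14_13_3 ln14_13_3_ok) (L (nat_lit 426) ln10_13_2 ln10_13_2_ok)))))))))) (B (M (nat_lit 460) (B (M (nat_lit 492) (B (L (nat_lit 524) ln12_16_6 ln12_16_6_ok) (M (nat_lit 365) (B (L (nat_lit 333) ln13_10_5 ln13_10_5_ok) (L (nat_lit 461) ln13_11_5 ln13_11_5_ok))))) (B (M (nat_lit 492) (B (L (nat_lit 524) ln12_16_6 ln12_16_6_ok) (M (nat_lit 365) (B (L (nat_lit 396) ln12_15_6 ln12_15_6_ok) (L (nat_lit 461) ln13_11_5 ln13_11_5_ok))))) (B (M (nat_lit 363) (B (M (nat_lit 427) (B (L (nat_lit 331) ln11_10_4 ln11_10_4_ok) (L (nat_lit 426) ln10_13_2 ln10_13_2_ok))) (M (nat_lit 396) (B (L (nat_lit 362) ln14_12_3 ln14_12_3_ok) (L (nat_lit 492) ln12_15_7 ln12_15_7_ok))))) (M (nat_lit 363) (B (M (nat_lit 427) (B (L (nat_lit 331) ln11_10_4 ln11_10_4_ok) (L (nat_lit 426) ln10_13_2 ln10_13_2_ok))) (M (nat_lit 362) (B (L (nat_lit 396) ln14_12_3 ln14_12_3_ok) (M (nat_lit 365) (B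 (L (nat_lit 333) ln13_10_5 ln13_10_5_ok) (L (nat_lit 364) ln10_11_0 ln10_11_0_ok))))))))))) (B (M (nat_lit 460) (B (M (nat_lit 492) (B (L (nat_lit 524) ln12_16_6 ln12_16_6_ok) (M (nat_lit 365) (B (L (nat_lit 333) ln13_10_5 ln13_10_5_ok) (L (nat_lit 461) ln13_11_5 ln13_11_5_ok))))) (B (M (nat_lit 492) (B (L (nat_lit 524) ln12_16_6 ln12_16_6_ok) (M (nat_lit 427) (B (L (nat_lit 426) ln10_13_2 ln10_13_2_ok) (M (nat_lit 363) (B (L (nat_lit 331) ln11_10_4 ln11_10_4_ok) (L (nat_lit 459) ln11_11_4 ln11_11_4_ok))))))) (M (nat_lit 430) (B (M (nat_lit 427) (B (L (nat_lit 394) ln14_13_3 ln14_13_3_ok) (L (nat_lit 426) ln10_13_2 ln10_13_2_ok))) (M (nat_lit 431) (B (L (nat_lit 459) ln15_13_1 ln15_13_1_ok) (M (nat_lit 432) (B (L (nat_lit 433) ln17_13_3 ln17_13_3_ok) (L (nat_lit 461) ln16_13_1 ln16_13_1_ok)))))))))) (M (nat_lit 365) (B (M (nat_lit 460) (B (L (nat_lit 333) ln13_10_5 ln13_10_5_ok) (M (nat_lit 492)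 (B (L (nat_lit 396) ln12_15_6 ln12_15_6_ok) (L (nat_lit 461) ln13_11_5 ln13_11_5_ok))))) (B (M (nat_lit 366) (B (M (nat_lit 334) (B (L (nat_lit 302) ln14_9_5 ln14_9_5_ok) (L (nat_lit 461) ln13_14_6 ln13_14_6_ok))) (M (nat_lit 396) (B (L (nat_lit 394) ln10_12_2 ln10_12_2_ok) (L (nat_lit 367) ln11_12_2 ln11_12_2_ok))))) (B (M (nat_lit 460) (B (L (nat_lit 333) ln13_10_5 ln13_10_5_ok) (M (nat_lit 492) (B (L (nat_lit 461) ln13_11_5 ln13_11_5_ok) (L (nat_lit 524) ln12_16_6 ln12_16_6_ok))))) (M (nat_lit 460) (B (L (nat_lit 333) ln13_10_5 ln13_10_5_ok) (M (nat_lit 492) (B (L (nat_lit 396) ln12_15_6 ln12_15_6_ok) (L (nat_lit 524) ln12_16_6 ln12_16_6_ok)))))))))))))))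
theorem c11_s11800 : Sem (nat_lit 2079502270913392379444674211814302674077704290823075655481512624564798400421800170032085953906810352733060637150540575368324055040) (nat_lit 54918381600711929354083924877256498310666003958842975466099460814186254825577493835701840177466971537204696696981570378701359968216494340954681553371216740352) (nat_lit 54918381600711929354083924877256498310666003958842975466099460814186254825577493835701840177466971537204696696981570378701359968216494340954681553371216740352) :=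
  sem_of_chk (M (nat_lit 398) (B (M (nat_lit 399) (B (L (nat_lit 400) ln16_12_1 ln16_12_1_ok) (M (nat_lit 427) (B (L (nat_lit 396) ln15_12_1 ln15_12_1_ok) (L (nat_lit 426) ln10_13_2 ln10_13_2_ok))))) (B (M (nat_lit 399) (B (L (nat_lit 400) ln16_12_1 ln16_12_1_ok) (M (nat_lit 427) (B (L (nat_lit 426) ln10_13_2 ln10_13_2_ok) (L (nat_lit 430) ln11_13_2 ln11_13_2_ok))))) (B c11_n11749 (B (M (nat_lit 399) (B (L (nat_lit 400) ln16_12_1 ln16_12_1_ok) (M (nat_lit 427) (B (L (nat_lit 396) ln15_12_1 ln15_12_1_ok) (L (nat_lit 430) ln11_13_2 ln11_13_2_ok))))) (M (nat_lit 399) (B (L (nat_lit 400) ln16_12_1 ln16_12_1_ok) (M (nat_lit 431) (B (M (nat_lit 432) (B (L (nat_lit 396) ln12_12_0 ln12_12_0_ok) (M (nat_lit 433) (B (L (nat_lit 430) ln17_13_3 ln17_13_3_ok) (L (nat_lit 434) ln18_13_3 ln18_13_3_ok))))) (B (M (nat_lit 430) (B (M (nat_lit 463) (B (L (nat_lit 464) ln12_13_0 ln12_13_0_ok) (M (nat_lit 366) (B (L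 (nat_lit 334) ln14_10_4 ln14_10_4_ok) (L (nat_lit 495) ln15_15_7 ln15_15_7_ok))))) (M (nat_lit 432) (B (L (nat_lit 433) ln17_13_3 ln17_13_3_ok) (M (nat_lit 460) (B (L (nat_lit 459) ln15_13_1 ln15_13_1_ok) (L (nat_lit 461) ln16_13_1 ln16_13_1_ok))))))) (B (M (nat_lit 396) (B (L (nat_lit 432) ln12_12_0 ln12_12_0_ok) (M (nat_lit 395) (B (M (nat_lit 363) (B (L (nat_lit 362) ln14_12_3 ln14_12_3_ok) (L (nat_lit 364) ln15_12_3 ln15_12_3_ok))) (M (nat_lit 367) (B (L (nat_lit 366) ln11_12_2 ln11_12_2_ok) (L (nat_lit 368) ln12_12_2 ln12_12_2_ok))))))) (M (nat_lit 463) (B (M (nat_lit 366) (B (L (nat_lit 495) ln15_15_7 ln15_15_7_ok) (M (nat_lit 430) (B (L (nat_lit 334) ln14_10_4 ln14_10_4_ok) (L (nat_lit 464) ln12_13_0 ln12_13_0_ok))))) (B (M (nat_lit 367) (B (M (nat_lit 368) (B (L (nat_lit 336) ln15_14_6 ln15_14_6_ok) (L (nat_lit 396) ln12_12_2 ln12_12_2_ok))) (M (nat_lit 464) (B (L (nat_lit 496) ln15_11_4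 ln15_11_4_ok) (L (nat_lit 430) ln12_13_0 ln12_13_0_ok))))) (M (nat_lit 367) (B (M (nat_lit 366) (B (L (nat_lit 334) ln15_14_7 ln15_14_7_ok) (L (nat_lit 495) ln15_15_7 ln15_15_7_ok))) (M (nat_lit 368) (B (L (nat_lit 336) ln15_14_6 ln15_14_6_ok) (L (nat_lit 396) ln12_12_2 ln12_12_2_ok))))))))))))))))))) (nat_lit 2079502270913392379444674211814302674077704290823075655481512624564798400421800170032085953906810352733060637150540575368324055040) (nat_lit 54918381600711929354083924877256498310666003958842975466099460814186254825577493835701840177466971537204696696981570378701359968216494340954681553371216740352) (nat_lit 54918381600711929354083924877256498310666003958842975466099460814186254825577493835701840177466971537204696696981570378701359968216494340954681553371216740352) (by decide +kernel)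
noncomputable def c11_n11849 : Cert := (M (nat_lit 430) (B (M (nat_lit 431) (B (M (nat_lit 395) (B (L (nat_lit 394) ln14_13_3 ln14_13_3_ok) (L (nat_lit 396) ln15_13_3 ln15_13_3_ok))) (M (nat_lit 399) (B (L (nat_lit 398) ln11_13_2 ln11_13_2_ok) (L (nat_lit 400) ln12_13_2 ln12_13_2_ok))))) (B (M (nat_lit 431) (B (M (nat_lit 396) (B (L (nat_lit 395) ln15_13_3 ln15_13_3_ok) (L (nat_lit 432) ln16_13_3 ln16_13_3_ok))) (M (nat_lit 399) (B (L (nat_lit 398) ln11_13_2 ln11_13_2_ok) (L (nat_lit 400) ln12_13_2 ln12_13_2_ok))))) (B (M (nat_lit 431) (B (M (nat_lit 399) (B (L (nat_lit 398) ln11_13_2 ln11_13_2_ok) (L (nat_lit 400) ln12_13_2 ln12_13_2_ok))) (M (nat_lit 432) (B (L (nat_lit 396) ln16_13_3 ln16_13_3_ok) (M (nat_lit 464) (B (L (nat_lit 463) ln12_13_0 ln12_13_0_ok) (L (nat_lit 465) ln13_13_0 ln13_13_0_ok))))))) (B (M (nat_lit 431) (B (M (nat_lit 399) (B (L (nat_lit 398) ln11_13_2 ln11_13_2_ok) (L (nat_lit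 400) ln12_13_2 ln12_13_2_ok))) (B (M (nat_lit 432) (B (M (nat_lit 400) (B (L (nat_lit 399) ln12_13_2 ln12_13_2_ok) (L (nat_lit 401) ln13_13_2 ln13_13_2_ok))) (M (nat_lit 464) (B (L (nat_lit 463) ln12_13_0 ln12_13_0_ok) (L (nat_lit 465) ln13_13_0 ln13_13_0_ok))))) (B (M (nat_lit 432) (B (M (nat_lit 464) (B (L (nat_lit 463) ln12_13_0 ln12_13_0_ok) (L (nat_lit 465) ln13_13_0 ln13_13_0_ok))) (M (nat_lit 401) (B (L (nat_lit 400) ln13_13_2 ln13_13_2_ok) (M (nat_lit 433) (B (L (nat_lit 398) ln17_13_3 ln17_13_3_ok) (L (nat_lit 402) ln14_13_2 ln14_13_2_ok))))))) (M (nat_lit 432) (B (M (nat_lit 398) (B (L (nat_lit 433) ln17_13_3 ln17_13_3_ok) (L (nat_lit 399) ln11_13_2 ln11_13_2_ok))) (M (nat_lit 464) (B (L (nat_lit 463) ln12_13_0 ln12_13_0_ok) (L (nat_lit 465) ln13_13_0 ln13_13_0_ok))))))))) (B (M (nat_lit 431) (B (M (nat_lit 395) (B (L (nat_lit 394) ln14_13_3 ln14_13_3_ok) (L (nat_lit 396) ln15_13_3 ln15_13_3_ok)))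 (B (M (nat_lit 396) (B (L (nat_lit 395) ln15_13_3 ln15_13_3_ok) (L (nat_lit 432) ln16_13_3 ln16_13_3_ok))) (B (M (nat_lit 432) (B (L (nat_lit 396) ln16_13_3 ln16_13_3_ok) (M (nat_lit 400) (B (L (nat_lit 399) ln12_13_2 ln12_13_2_ok) (L (nat_lit 401) ln13_13_2 ln13_13_2_ok))))) (M (nat_lit 432) (B (M (nat_lit 400) (B (L (nat_lit 399) ln12_13_2 ln12_13_2_ok) (L (nat_lit 401) ln13_13_2 ln13_13_2_ok))) (M (nat_lit 464) (B (L (nat_lit 463) ln12_13_0 ln12_13_0_ok) (L (nat_lit 465) ln13_13_0 ln13_13_0_ok))))))))) (B (M (nat_lit 431) (B (M (nat_lit 395) (B (L (nat_lit 394) ln14_13_3 ln14_13_3_ok) (L (nat_lit 396) ln15_13_3 ln15_13_3_ok))) (B (M (nat_lit 396) (B (L (nat_lit 395) ln15_13_3 ln15_13_3_ok) (L (nat_lit 432) ln16_13_3 ln16_13_3_ok))) (B (M (nat_lit 432) (B (L (nat_lit 396) ln16_13_3 ln16_13_3_ok) (M (nat_lit 464) (B (L (nat_lit 463) ln12_13_0 ln12_13_0_ok) (L (nat_lit 465) ln13_13_0 ln13_13_0_ok)))))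 (M (nat_lit 432) (B (M (nat_lit 464) (B (L (nat_lit 463) ln12_13_0 ln12_13_0_ok) (L (nat_lit 465) ln13_13_0 ln13_13_0_ok))) (M (nat_lit 401) (B (L (nat_lit 400) ln13_13_2 ln13_13_2_ok) (M (nat_lit 433) (B (L (nat_lit 398) ln17_13_3 ln17_13_3_ok) (L (nat_lit 402) ln14_13_2 ln14_13_2_ok))))))))))) (B (M (nat_lit 431) (B (M (nat_lit 395) (B (L (nat_lit 394) ln14_13_3 ln14_13_3_ok) (L (nat_lit 396) ln15_13_3 ln15_13_3_ok))) (B (M (nat_lit 396) (B (L (nat_lit 395) ln15_13_3 ln15_13_3_ok) (L (nat_lit 432) ln16_13_3 ln16_13_3_ok))) (B (M (nat_lit 398) (B (L (nat_lit 399) ln11_13_2 ln11_13_2_ok) (M (nat_lit 432) (B (L (nat_lit 396) ln16_13_3 ln16_13_3_ok) (L (nat_lit 433) ln17_13_3 ln17_13_3_ok))))) (M (nat_lit 432) (B (M (nat_lit 398) (B (L (nat_lit 433) ln17_13_3 ln17_13_3_ok) (L (nat_lit 399) ln11_13_2 ln11_13_2_ok))) (M (nat_lit 464) (B (L (nat_lit 463) ln12_13_0 ln12_13_0_ok) (L (nat_lit 465) ln13_13_0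 ln13_13_0_ok))))))))) (M (nat_lit 398) (B (L (nat_lit 399) ln11_13_2 ln11_13_2_ok) (M (nat_lit 395) (B (L (nat_lit 394) ln14_13_3 ln14_13_3_ok) (M (nat_lit 396) (B (M (nat_lit 366) (B (L (nat_lit 367) ln11_12_2 ln11_12_2_ok) (M (nat_lit 334) (B (L (nat_lit 302) ln14_9_5 ln14_9_5_ok) (L (nat_lit 461) ln14_10_5 ln14_10_5_ok))))) (M (nat_lit 363) (B (L (nat_lit 362) ln14_12_3 ln14_12_3_ok) (M (nat_lit 460) (B (L (nat_lit 331) ln11_10_4 ln11_10_4_ok) (L (nat_lit 492) ln12_15_7 ln12_15_7_ok)))))))))))))))))))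
theorem c11_s11850 : Sem (nat_lit 2079502270913392379444674211814302674077704290823075655481512624564798400421800170032085953906810352733060637150540575368324055040) (nat_lit 15983352754571128728981615889843470479651076114759571048365644203549490181149380835931879582823796459779966376233215516738940513924676985585947115520) (nat_lit 15983352754571128728981615889843470479651076114759571048365644203549490181149380835931879582823796459779966376233215516738940513924676985585947115520) :=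
  sem_of_chk (M (nat_lit 427) (B (M (nat_lit 398) (B (L (nat_lit 426) ln10_13_2 ln10_13_2_ok) (M (nat_lit 399) (B (L (nat_lit 396) ln15_12_1 ln15_12_1_ok) (L (nat_lit 400) ln16_12_1 ln16_12_1_ok))))) (B (M (nat_lit 398) (B (L (nat_lit 426) ln10_13_2 ln10_13_2_ok) (M (nat_lit 399) (B (L (nat_lit 400) ln16_12_1 ln16_12_1_ok) (L (nat_lit 430) ln11_13_2 ln11_13_2_ok))))) (B (M (nat_lit 426) (B (M (nat_lit 393) (B (L (nat_lit 394) ln13_13_3 ln13_13_3_ok) (M (nat_lit 425) (B (L (nat_lit 392) ln12_13_3 ln12_13_3_ok) (L (nat_lit 396) ln9_13_2 ln9_13_2_ok))))) (B (M (nat_lit 425) (B (L (nat_lit 396) ln9_13_2 ln9_13_2_ok) (M (nat_lit 457) (B (L (nat_lit 456) ln12_13_1 ln12_13_1_ok) (L (nat_lit 458) ln13_13_1 ln13_13_1_ok))))) (B (M (nat_lit 425) (B (M (nat_lit 393) (B (L (nat_lit 392) ln12_13_3 ln12_13_3_ok) (L (nat_lit 394) ln13_13_3 ln13_13_3_ok))) (M (nat_lit 457) (B (L (nat_lit 456) ln12_13_1 ln12_13_1_ok)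 (L (nat_lit 458) ln13_13_1 ln13_13_1_ok))))) (M (nat_lit 394) (B (L (nat_lit 393) ln13_13_3 ln13_13_3_ok) (M (nat_lit 395) (B (L (nat_lit 430) ln14_13_3 ln14_13_3_ok) (M (nat_lit 458) (B (L (nat_lit 457) ln13_13_1 ln13_13_1_ok) (M (nat_lit 363) (B (L (nat_lit 331) ln11_10_5 ln11_10_5_ok) (L (nat_lit 490) ln10_15_6 ln10_15_6_ok))))))))))))) c11_n11849)))) (nat_lit 2079502270913392379444674211814302674077704290823075655481512624564798400421800170032085953906810352733060637150540575368324055040) (nat_lit 15983352754571128728981615889843470479651076114759571048365644203549490181149380835931879582823796459779966376233215516738940513924676985585947115520) (nat_lit 15983352754571128728981615889843470479651076114759571048365644203549490181149380835931879582823796459779966376233215516738940513924676985585947115520) (by decide +kernel)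
noncomputable def c11_n11867 : Cert := (M (nat_lit 427) (B (M (nat_lit 398) (B (L (nat_lit 426) ln10_13_2 ln10_13_2_ok) (M (nat_lit 399) (B (L (nat_lit 396) ln15_12_1 ln15_12_1_ok) (L (nat_lit 400) ln16_12_1 ln16_12_1_ok))))) (B (M (nat_lit 398) (B (L (nat_lit 426) ln10_13_2 ln10_13_2_ok) (M (nat_lit 399) (B (L (nat_lit 400) ln16_12_1 ln16_12_1_ok) (L (nat_lit 430) ln11_13_2 ln11_13_2_ok))))) (B (M (nat_lit 426) (B (M (nat_lit 393) (B (L (nat_lit 394) ln13_13_3 ln13_13_3_ok) (M (nat_lit 425) (B (L (nat_lit 392) ln12_13_3 ln12_13_3_ok) (L (nat_lit 396) ln9_13_2 ln9_13_2_ok))))) (B (M (nat_lit 425) (B (L (nat_lit 396) ln9_13_2 ln9_13_2_ok) (M (nat_lit 457) (B (L (nat_lit 456) ln12_13_1 ln12_13_1_ok) (L (nat_lit 458) ln13_13_1 ln13_13_1_ok))))) (M (nat_lit 430) (B (M (nat_lit 394) (B (L (nat_lit 393) ln13_13_3 ln13_13_3_ok) (L (nat_lit 395) ln14_13_3 ln14_13_3_ok))) (M (nat_lit 458) (B (L (nat_lit 457)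 ln13_13_1 ln13_13_1_ok) (L (nat_lit 459) ln14_13_1 ln14_13_1_ok)))))))) (M (nat_lit 430) (B (M (nat_lit 431) (B (M (nat_lit 395) (B (L (nat_lit 394) ln14_13_3 ln14_13_3_ok) (L (nat_lit 396) ln15_13_3 ln15_13_3_ok))) (M (nat_lit 399) (B (L (nat_lit 398) ln11_13_2 ln11_13_2_ok) (L (nat_lit 400) ln12_13_2 ln12_13_2_ok))))) (B (M (nat_lit 431) (B (M (nat_lit 396) (B (L (nat_lit 395) ln15_13_3 ln15_13_3_ok) (L (nat_lit 432) ln16_13_3 ln16_13_3_ok))) (M (nat_lit 399) (B (L (nat_lit 398) ln11_13_2 ln11_13_2_ok) (L (nat_lit 400) ln12_13_2 ln12_13_2_ok))))) (B (M (nat_lit 431) (B (M (nat_lit 399) (B (L (nat_lit 398) ln11_13_2 ln11_13_2_ok) (L (nat_lit 400) ln12_13_2 ln12_13_2_ok))) (M (nat_lit 432) (B (L (nat_lit 396) ln16_13_3 ln16_13_3_ok) (M (nat_lit 464) (B (L (nat_lit 463) ln12_13_0 ln12_13_0_ok) (L (nat_lit 465) ln13_13_0 ln13_13_0_ok))))))) (B (M (nat_lit 431) (B (M (nat_lit 399) (B (L (nat_lit 398)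 ln11_13_2 ln11_13_2_ok) (L (nat_lit 400) ln12_13_2 ln12_13_2_ok))) (B (M (nat_lit 432) (B (M (nat_lit 400) (B (L (nat_lit 399) ln12_13_2 ln12_13_2_ok) (L (nat_lit 401) ln13_13_2 ln13_13_2_ok))) (M (nat_lit 464) (B (L (nat_lit 463) ln12_13_0 ln12_13_0_ok) (L (nat_lit 465) ln13_13_0 ln13_13_0_ok))))) (B (M (nat_lit 432) (B (M (nat_lit 464) (B (L (nat_lit 463) ln12_13_0 ln12_13_0_ok) (L (nat_lit 465) ln13_13_0 ln13_13_0_ok))) (M (nat_lit 401) (B (L (nat_lit 400) ln13_13_2 ln13_13_2_ok) (M (nat_lit 433) (B (L (nat_lit 398) ln17_13_3 ln17_13_3_ok) (L (nat_lit 402) ln14_13_2 ln14_13_2_ok))))))) (M (nat_lit 432) (B (M (nat_lit 398) (B (L (nat_lit 433) ln17_13_3 ln17_13_3_ok) (L (nat_lit 399) ln11_13_2 ln11_13_2_ok))) (M (nat_lit 464) (B (L (nat_lit 463) ln12_13_0 ln12_13_0_ok) (L (nat_lit 465) ln13_13_0 ln13_13_0_ok))))))))) (B (M (nat_lit 431) (B (M (nat_lit 395) (B (L (nat_lit 394) ln14_13_3 ln14_13_3_ok)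 (L (nat_lit 396) ln15_13_3 ln15_13_3_ok))) (B (M (nat_lit 396) (B (L (nat_lit 395) ln15_13_3 ln15_13_3_ok) (L (nat_lit 432) ln16_13_3 ln16_13_3_ok))) (B (M (nat_lit 432) (B (L (nat_lit 396) ln16_13_3 ln16_13_3_ok) (M (nat_lit 400) (B (L (nat_lit 399) ln12_13_2 ln12_13_2_ok) (L (nat_lit 401) ln13_13_2 ln13_13_2_ok))))) (M (nat_lit 432) (B (M (nat_lit 400) (B (L (nat_lit 399) ln12_13_2 ln12_13_2_ok) (L (nat_lit 401) ln13_13_2 ln13_13_2_ok))) (M (nat_lit 464) (B (L (nat_lit 463) ln12_13_0 ln12_13_0_ok) (L (nat_lit 465) ln13_13_0 ln13_13_0_ok))))))))) (B (M (nat_lit 395) (B (L (nat_lit 394) ln14_13_3 ln14_13_3_ok) (M (nat_lit 396) (B (L (nat_lit 431) ln15_13_3 ln15_13_3_ok) (M (nat_lit 459) (B (L (nat_lit 458) ln14_13_1 ln14_13_1_ok) (M (nat_lit 491) (B (L (nat_lit 364) ln11_15_6 ln11_15_6_ok) (L (nat_lit 523) ln11_16_6 ln11_16_6_ok))))))))) (M (nat_lit 398) (B (L (nat_lit 399) ln11_13_2 ln11_13_2_ok)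 (M (nat_lit 395) (B (L (nat_lit 394) ln14_13_3 ln14_13_3_ok) (M (nat_lit 396) (B (M (nat_lit 366) (B (L (nat_lit 367) ln11_12_2 ln11_12_2_ok) (M (nat_lit 334) (B (L (nat_lit 302) ln14_9_5 ln14_9_5_ok) (L (nat_lit 461) ln14_10_5 ln14_10_5_ok))))) (M (nat_lit 459) (B (L (nat_lit 458) ln14_13_1 ln14_13_1_ok) (M (nat_lit 491) (B (L (nat_lit 364) ln11_15_6 ln11_15_6_ok) (L (nat_lit 523) ln11_16_6 ln11_16_6_ok))))))))))))))))))))))
theorem c11_s11868 : Sem (nat_lit 1386334847383188664550070665778531748218595021979121511688892729411143073470393764272092352380775458208712834410189682411080515584) (nat_lit 117936325981617097418694802393541864091775642370399144713322417062163642653637405890943868844119743233792159405996113563887264354224735240870136200446246161826382348288) (nat_lit 117936325981617097418694802393541864091775642370399144713322417062163642653637405890943868844119743233792159405996113563887264354224735240870136200446246161826382348288)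 :=
  sem_of_chk (M (nat_lit 428) (B (M (nat_lit 427) (B (M (nat_lit 398) (B (L (nat_lit 426) ln10_13_2 ln10_13_2_ok) (M (nat_lit 399) (B (L (nat_lit 396) ln15_12_1 ln15_12_1_ok) (L (nat_lit 400) ln16_12_1 ln16_12_1_ok))))) (B (M (nat_lit 398) (B (L (nat_lit 426) ln10_13_2 ln10_13_2_ok) (M (nat_lit 399) (B (L (nat_lit 400) ln16_12_1 ln16_12_1_ok) (L (nat_lit 430) ln11_13_2 ln11_13_2_ok))))) (B (M (nat_lit 426) (B (M (nat_lit 393) (B (L (nat_lit 394) ln13_13_3 ln13_13_3_ok) (M (nat_lit 425) (B (L (nat_lit 392) ln12_13_3 ln12_13_3_ok) (L (nat_lit 396) ln9_13_2 ln9_13_2_ok))))) (B (M (nat_lit 425) (B (L (nat_lit 396) ln9_13_2 ln9_13_2_ok) (M (nat_lit 457) (B (L (nat_lit 456) ln12_13_1 ln12_13_1_ok) (L (nat_lit 458) ln13_13_1 ln13_13_1_ok))))) (M (nat_lit 430) (B (M (nat_lit 394) (B (L (nat_lit 393) ln13_13_3 ln13_13_3_ok) (L (nat_lit 395) ln14_13_3 ln14_13_3_ok))) (M (nat_lit 458) (B (L (nat_lit 457)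 ln13_13_1 ln13_13_1_ok) (L (nat_lit 459) ln14_13_1 ln14_13_1_ok)))))))) (M (nat_lit 398) (B (M (nat_lit 399) (B (L (nat_lit 396) ln15_12_1 ln15_12_1_ok) (L (nat_lit 400) ln16_12_1 ln16_12_1_ok))) (B (M (nat_lit 399) (B (L (nat_lit 400) ln16_12_1 ln16_12_1_ok) (L (nat_lit 430) ln11_13_2 ln11_13_2_ok))) (M (nat_lit 395) (B (M (nat_lit 430) (B (L (nat_lit 394) ln14_13_3 ln14_13_3_ok) (M (nat_lit 431) (B (L (nat_lit 396) ln11_12_0 ln11_12_0_ok) (M (nat_lit 459) (B (L (nat_lit 458) ln14_13_1 ln14_13_1_ok) (L (nat_lit 460) ln15_13_1 ln15_13_1_ok))))))) (B (M (nat_lit 396) (B (M (nat_lit 363) (B (L (nat_lit 362) ln14_12_3 ln14_12_3_ok) (M (nat_lit 331) (B (L (nat_lit 299) ln11_9_4 ln11_9_4_ok) (L (nat_lit 460) ln11_10_4 ln11_10_4_ok))))) (M (nat_lit 459) (B (M (nat_lit 491) (B (L (nat_lit 364) ln11_15_6 ln11_15_6_ok) (L (nat_lit 523) ln11_16_6 ln11_16_6_ok))) (M (nat_lit 430) (B (L (nat_lit 431) ln11_12_0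 ln11_12_0_ok) (L (nat_lit 458) ln14_13_1 ln14_13_1_ok))))))) (B (M (nat_lit 460) (B (M (nat_lit 492) (B (L (nat_lit 524) ln12_16_7 ln12_16_7_ok) (M (nat_lit 365) (B (L (nat_lit 333) ln13_10_5 ln13_10_5_ok) (L (nat_lit 461) ln13_11_5 ln13_11_5_ok))))) (M (nat_lit 430) (B (L (nat_lit 394) ln14_13_3 ln14_13_3_ok) (M (nat_lit 459) (B (L (nat_lit 458) ln14_13_1 ln14_13_1_ok) (L (nat_lit 431) ln15_13_1 ln15_13_1_ok))))))) (B (M (nat_lit 396) (B (M (nat_lit 366) (B (L (nat_lit 367) ln11_12_2 ln11_12_2_ok) (M (nat_lit 394) (B (L (nat_lit 365) ln10_12_2 ln10_12_2_ok) (L (nat_lit 393) ln9_12_0 ln9_12_0_ok))))) (M (nat_lit 363) (B (L (nat_lit 362) ln14_12_3 ln14_12_3_ok) (M (nat_lit 331) (B (L (nat_lit 299) ln11_9_4 ln11_9_4_ok) (L (nat_lit 460) ln11_10_4 ln11_10_4_ok))))))) (M (nat_lit 394) (B (L (nat_lit 430) ln14_13_3 ln14_13_3_ok) (M (nat_lit 396) (B (L (nat_lit 393) ln9_12_0 ln9_12_0_ok) (M (nat_lit 366)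 (B (L (nat_lit 365) ln10_12_2 ln10_12_2_ok) (L (nat_lit 367) ln11_12_2 ln11_12_2_ok))))))))))))))))))) (B c11_n10694 (B (M (nat_lit 427) (B (M (nat_lit 398) (B (L (nat_lit 426) ln10_13_2 ln10_13_2_ok) (M (nat_lit 399) (B (L (nat_lit 400) ln16_12_1 ln16_12_1_ok) (L (nat_lit 430) ln11_13_2 ln11_13_2_ok))))) (B (M (nat_lit 426) (B (M (nat_lit 393) (B (L (nat_lit 394) ln13_13_3 ln13_13_3_ok) (M (nat_lit 425) (B (L (nat_lit 392) ln12_13_3 ln12_13_3_ok) (L (nat_lit 396) ln9_13_2 ln9_13_2_ok))))) (B (M (nat_lit 425) (B (L (nat_lit 396) ln9_13_2 ln9_13_2_ok) (M (nat_lit 457) (B (L (nat_lit 456) ln12_13_1 ln12_13_1_ok) (L (nat_lit 458) ln13_13_1 ln13_13_1_ok))))) (M (nat_lit 430) (B (M (nat_lit 394) (B (L (nat_lit 393) ln13_13_3 ln13_13_3_ok) (L (nat_lit 395) ln14_13_3 ln14_13_3_ok))) (M (nat_lit 458) (B (L (nat_lit 457) ln13_13_1 ln13_13_1_ok) (L (nat_lit 459) ln14_13_1 ln14_13_1_ok)))))))) (B (M (nat_lit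 430) (B (M (nat_lit 395) (B (L (nat_lit 394) ln14_13_3 ln14_13_3_ok) (M (nat_lit 459) (B (L (nat_lit 458) ln14_13_1 ln14_13_1_ok) (M (nat_lit 431) (B (L (nat_lit 396) ln15_13_3 ln15_13_3_ok) (L (nat_lit 460) ln15_13_1 ln15_13_1_ok))))))) (B (M (nat_lit 431) (B (M (nat_lit 396) (B (L (nat_lit 395) ln15_13_3 ln15_13_3_ok) (L (nat_lit 432) ln16_13_3 ln16_13_3_ok))) (M (nat_lit 459) (B (L (nat_lit 458) ln14_13_1 ln14_13_1_ok) (L (nat_lit 460) ln15_13_1 ln15_13_1_ok))))) (B (M (nat_lit 431) (B (M (nat_lit 399) (B (L (nat_lit 398) ln11_13_2 ln11_13_2_ok) (L (nat_lit 400) ln12_13_2 ln12_13_2_ok))) (M (nat_lit 459) (B (L (nat_lit 458) ln14_13_1 ln14_13_1_ok) (L (nat_lit 460) ln15_13_1 ln15_13_1_ok))))) (B (M (nat_lit 395) (B (L (nat_lit 394) ln14_13_3 ln14_13_3_ok) (M (nat_lit 396) (B (M (nat_lit 459) (B (L (nat_lit 458) ln14_13_1 ln14_13_1_ok) (M (nat_lit 491) (B (L (nat_lit 364) ln11_15_6 ln11_15_6_ok)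 (L (nat_lit 523) ln11_16_6 ln11_16_6_ok))))) (M (nat_lit 363) (B (M (nat_lit 331) (B (L (nat_lit 299) ln11_9_4 ln11_9_4_ok) (L (nat_lit 460) ln11_10_4 ln11_10_4_ok))) (M (nat_lit 398) (B (L (nat_lit 362) ln14_12_3 ln14_12_3_ok) (L (nat_lit 399) ln15_12_1 ln15_12_1_ok))))))))) (M (nat_lit 431) (B (M (nat_lit 395) (B (L (nat_lit 394) ln14_13_3 ln14_13_3_ok) (L (nat_lit 396) ln15_13_3 ln15_13_3_ok))) (M (nat_lit 399) (B (L (nat_lit 398) ln11_13_2 ln11_13_2_ok) (L (nat_lit 400) ln12_13_2 ln12_13_2_ok)))))))))) (M (nat_lit 398) (B (L (nat_lit 426) ln10_13_2 ln10_13_2_ok) (M (nat_lit 399) (B (L (nat_lit 396) ln15_12_1 ln15_12_1_ok) (L (nat_lit 400) ln16_12_1 ln16_12_1_ok))))))))) (B (M (nat_lit 427) (B (M (nat_lit 398) (B (L (nat_lit 426) ln10_13_2 ln10_13_2_ok) (M (nat_lit 399) (B (L (nat_lit 396) ln15_12_1 ln15_12_1_ok) (L (nat_lit 400) ln16_12_1 ln16_12_1_ok))))) (B (M (nat_lit 398) (B (L (nat_lit 426)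 ln10_13_2 ln10_13_2_ok) (M (nat_lit 399) (B (L (nat_lit 400) ln16_12_1 ln16_12_1_ok) (L (nat_lit 430) ln11_13_2 ln11_13_2_ok))))) (B (M (nat_lit 426) (B (M (nat_lit 393) (B (L (nat_lit 394) ln13_13_3 ln13_13_3_ok) (M (nat_lit 425) (B (L (nat_lit 392) ln12_13_3 ln12_13_3_ok) (L (nat_lit 396) ln9_13_2 ln9_13_2_ok))))) (B (M (nat_lit 425) (B (L (nat_lit 396) ln9_13_2 ln9_13_2_ok) (M (nat_lit 457) (B (L (nat_lit 456) ln12_13_1 ln12_13_1_ok) (L (nat_lit 458) ln13_13_1 ln13_13_1_ok))))) (M (nat_lit 430) (B (M (nat_lit 394) (B (L (nat_lit 393) ln13_13_3 ln13_13_3_ok) (L (nat_lit 395) ln14_13_3 ln14_13_3_ok))) (M (nat_lit 458) (B (L (nat_lit 457) ln13_13_1 ln13_13_1_ok) (L (nat_lit 459) ln14_13_1 ln14_13_1_ok)))))))) (M (nat_lit 398) (B (M (nat_lit 399) (B (L (nat_lit 396) ln15_12_1 ln15_12_1_ok) (L (nat_lit 400) ln16_12_1 ln16_12_1_ok))) (B (M (nat_lit 399) (B (L (nat_lit 400) ln16_12_1 ln16_12_1_ok) (L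 (nat_lit 430) ln11_13_2 ln11_13_2_ok))) (M (nat_lit 395) (B (M (nat_lit 430) (B (L (nat_lit 394) ln14_13_3 ln14_13_3_ok) (M (nat_lit 431) (B (L (nat_lit 396) ln11_12_0 ln11_12_0_ok) (M (nat_lit 459) (B (L (nat_lit 458) ln14_13_1 ln14_13_1_ok) (L (nat_lit 460) ln15_13_1 ln15_13_1_ok))))))) (B (M (nat_lit 363) (B (M (nat_lit 460) (B (L (nat_lit 331) ln11_10_4 ln11_10_4_ok) (M (nat_lit 396) (B (L (nat_lit 362) ln14_12_3 ln14_12_3_ok) (L (nat_lit 492) ln12_15_7 ln12_15_7_ok))))) (B (M (nat_lit 459) (B (M (nat_lit 362) (B (L (nat_lit 330) ln11_14_7 ln11_14_7_ok) (L (nat_lit 396) ln14_12_3 ln14_12_3_ok))) (M (nat_lit 458) (B (L (nat_lit 490) ln11_11_5 ln11_11_5_ok) (L (nat_lit 430) ln14_13_1 ln14_13_1_ok))))) (B (M (nat_lit 460) (B (L (nat_lit 331) ln11_10_4 ln11_10_4_ok) (M (nat_lit 492) (B (L (nat_lit 396) ln12_15_7 ln12_15_7_ok) (L (nat_lit 459) ln11_11_4 ln11_11_4_ok))))) (M (nat_lit 459) (B (M (nat_lit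 460) (B (L (nat_lit 331) ln11_10_4 ln11_10_4_ok) (L (nat_lit 492) ln11_11_4 ln11_11_4_ok))) (M (nat_lit 458) (B (L (nat_lit 490) ln11_11_5 ln11_11_5_ok) (L (nat_lit 430) ln14_13_1 ln14_13_1_ok))))))))) (B (M (nat_lit 460) (B (M (nat_lit 492) (B (L (nat_lit 524) ln12_16_7 ln12_16_7_ok) (M (nat_lit 365) (B (L (nat_lit 333) ln13_10_5 ln13_10_5_ok) (L (nat_lit 461) ln13_11_5 ln13_11_5_ok))))) (M (nat_lit 430) (B (L (nat_lit 394) ln14_13_3 ln14_13_3_ok) (M (nat_lit 459) (B (L (nat_lit 458) ln14_13_1 ln14_13_1_ok) (L (nat_lit 431) ln15_13_1 ln15_13_1_ok))))))) (B (M (nat_lit 396) (B (M (nat_lit 366) (B (L (nat_lit 367) ln11_12_2 ln11_12_2_ok) (M (nat_lit 394) (B (L (nat_lit 365) ln10_12_2 ln10_12_2_ok) (L (nat_lit 393) ln9_12_0 ln9_12_0_ok))))) (M (nat_lit 363) (B (L (nat_lit 362) ln14_12_3 ln14_12_3_ok) (M (nat_lit 331) (B (L (nat_lit 299) ln11_9_4 ln11_9_4_ok) (L (nat_lit 460) ln11_10_4 ln11_10_4_ok)))))))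 (M (nat_lit 394) (B (L (nat_lit 430) ln14_13_3 ln14_13_3_ok) (M (nat_lit 396) (B (L (nat_lit 393) ln9_12_0 ln9_12_0_ok) (M (nat_lit 366) (B (L (nat_lit 365) ln10_12_2 ln10_12_2_ok) (L (nat_lit 367) ln11_12_2 ln11_12_2_ok))))))))))))))))))) (B (K (nat_lit 2079502270913392379444674211814302674077704290823075655481512624564798400421800170032085953906810352733060637150540575368324055040) (nat_lit 117936325858050739223869284464532661311165520629655414297938997466443542807859844815586410954514250470583458394089714213795305191920023263493105123873508392154844626944) (nat_lit 117936325858050739223869284464532661311165520629655414297938997466443542807859844815586410954514250470583458394089714213795305191920023263493105123873508392154844626944) c11_s10816) (B c11_n10877 (B (M (nat_lit 427) (B (M (nat_lit 398) (B (L (nat_lit 426) ln10_13_2 ln10_13_2_ok) (M (nat_lit 399) (B (L (nat_lit 396) ln15_12_1 ln15_12_1_ok)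 (L (nat_lit 400) ln16_12_1 ln16_12_1_ok))))) (B (M (nat_lit 398) (B (L (nat_lit 426) ln10_13_2 ln10_13_2_ok) (M (nat_lit 399) (B (L (nat_lit 400) ln16_12_1 ln16_12_1_ok) (L (nat_lit 430) ln11_13_2 ln11_13_2_ok))))) (B (M (nat_lit 426) (B (M (nat_lit 425) (B (L (nat_lit 396) ln9_13_2 ln9_13_2_ok) (M (nat_lit 457) (B (L (nat_lit 456) ln12_13_1 ln12_13_1_ok) (L (nat_lit 458) ln13_13_1 ln13_13_1_ok))))) (B (M (nat_lit 425) (B (M (nat_lit 393) (B (L (nat_lit 392) ln12_13_3 ln12_13_3_ok) (L (nat_lit 394) ln13_13_3 ln13_13_3_ok))) (M (nat_lit 457) (B (L (nat_lit 456) ln12_13_1 ln12_13_1_ok) (L (nat_lit 458) ln13_13_1 ln13_13_1_ok))))) (B (M (nat_lit 458) (B (L (nat_lit 457) ln13_13_1 ln13_13_1_ok) (M (nat_lit 394) (B (L (nat_lit 393) ln13_13_3 ln13_13_3_ok) (M (nat_lit 459) (B (L (nat_lit 430) ln14_13_1 ln14_13_1_ok) (M (nat_lit 362) (B (L (nat_lit 330) ln10_10_4 ln10_10_4_ok) (L (nat_lit 491) ln10_11_4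 ln10_11_4_ok))))))))) (M (nat_lit 393) (B (L (nat_lit 394) ln13_13_3 ln13_13_3_ok) (M (nat_lit 425) (B (L (nat_lit 392) ln12_13_3 ln12_13_3_ok) (L (nat_lit 396) ln9_13_2 ln9_13_2_ok))))))))) (M (nat_lit 399) (B (M (nat_lit 398) (B (L (nat_lit 396) ln15_12_1 ln15_12_1_ok) (L (nat_lit 400) ln16_12_1 ln16_12_1_ok))) (B (M (nat_lit 398) (B (L (nat_lit 400) ln16_12_1 ln16_12_1_ok) (L (nat_lit 430) ln11_13_2 ln11_13_2_ok))) (B (M (nat_lit 431) (B (M (nat_lit 430) (B (L (nat_lit 400) ln12_13_2 ln12_13_2_ok) (M (nat_lit 459) (B (L (nat_lit 458) ln14_13_1 ln14_13_1_ok) (L (nat_lit 460) ln15_13_1 ln15_13_1_ok))))) (B (M (nat_lit 430) (B (M (nat_lit 459) (B (L (nat_lit 458) ln14_13_1 ln14_13_1_ok) (L (nat_lit 460) ln15_13_1 ln15_13_1_ok))) (B (M (nat_lit 432) (B (L (nat_lit 396) ln16_13_3 ln16_13_3_ok) (M (nat_lit 460) (B (L (nat_lit 459) ln15_13_1 ln15_13_1_ok) (L (nat_lit 461) ln16_13_1 ln16_13_1_ok)))))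 (M (nat_lit 432) (B (L (nat_lit 396) ln16_13_3 ln16_13_3_ok) (M (nat_lit 464) (B (L (nat_lit 463) ln12_13_0 ln12_13_0_ok) (L (nat_lit 465) ln13_13_0 ln13_13_0_ok)))))))) (B (K (nat_lit 7971425372211248895092258647946315129881639013161538774133393489786198357779078430000452164192929632830085876161474751491267887104) (nat_lit 54918381498418472855840925656604960067135456856102718022432730950082420309702430749754418331918747853787485776603482636616593205091217669477898739529501638656) (nat_lit 54918381498418472855840925656604960067135456856102718022432730950082420309702430749754418331918747853787485776603482636616593205091217669477898739529501638656) c11_s10993) (M (nat_lit 430) (B (L (nat_lit 400) ln12_13_2 ln12_13_2_ok) (M (nat_lit 432) (B (L (nat_lit 396) ln16_13_3 ln16_13_3_ok) (M (nat_lit 464) (B (L (nat_lit 463) ln12_13_0 ln12_13_0_ok) (L (nat_lit 465) ln13_13_0 ln13_13_0_ok))))))))))) (M (nat_lit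 398) (B (L (nat_lit 396) ln15_12_1 ln15_12_1_ok) (L (nat_lit 430) ln11_13_2 ln11_13_2_ok))))))))))) (B (K (nat_lit 2079502270913392379444674211814302674077704290823075655481512624564798400421800170032085953906810352733060637150540575368324055040) (nat_lit 54918381293831559960391324784055408976374375124546966259394368081909937656071633261571545339370737550251091707399603431802041999910773642843788291347838926848) (nat_lit 54918381293831559960391324784055408976374375124546966259394368081909937656071633261571545339370737550251091707399603431802041999910773642843788291347838926848) c11_s11120) (B (K (nat_lit 2079502270913392379444674211814302674077704290823075655481512624564798400421800170032085953906810352733060637150540575368324055040) (nat_lit 96107167266602732516776780500838617942937482967097068066033415663451122255672790328992451276209560786203540332132817486441696375527744815570006482910810472448)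 (nat_lit 96107167266602732516776780500838617942937482967097068066033415663451122255672790328992451276209560786203540332132817486441696375527744815570006482910810472448) c11_s11342) (B (M (nat_lit 396) (B (M (nat_lit 365) (B (M (nat_lit 460) (B (L (nat_lit 333) ln13_10_5 ln13_10_5_ok) (L (nat_lit 492) ln12_15_6 ln12_15_6_ok))) (M (nat_lit 366) (B (M (nat_lit 395) (B (L (nat_lit 394) ln10_12_2 ln10_12_2_ok) (M (nat_lit 367) (B (L (nat_lit 364) ln15_11_1 ln15_11_1_ok) (L (nat_lit 368) ln16_11_1 ln16_11_1_ok))))) (B (M (nat_lit 367) (B (L (nat_lit 368) ln16_11_1 ln16_11_1_ok) (M (nat_lit 395) (B (L (nat_lit 394) ln10_12_2 ln10_12_2_ok) (L (nat_lit 398) ln11_12_2 ln11_12_2_ok))))) (M (nat_lit 461) (B (L (nat_lit 334) ln13_14_6 ln13_14_6_ok) (M (nat_lit 493) (B (L (nat_lit 364) ln13_15_7 ln13_15_7_ok) (L (nat_lit 398) ln13_15_6 ln13_15_6_ok)))))))))) (B (M (nat_lit 460) (B (M (nat_lit 492) (B (L (nat_lit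 365) ln12_15_6 ln12_15_6_ok) (L (nat_lit 524) ln12_16_6 ln12_16_6_ok))) (M (nat_lit 459) (B (M (nat_lit 491) (B (L (nat_lit 364) ln12_11_5 ln12_11_5_ok) (M (nat_lit 523) (B (L (nat_lit 427) ln11_16_6 ln11_16_6_ok) (L (nat_lit 555) ln11_17_6 ln11_17_6_ok))))) (B (M (nat_lit 430) (B (L (nat_lit 431) ln15_13_1 ln15_13_1_ok) (M (nat_lit 458) (B (L (nat_lit 427) ln14_13_1 ln14_13_1_ok) (L (nat_lit 457) ln9_14_2 ln9_14_2_ok))))) (M (nat_lit 430) (B (L (nat_lit 431) ln15_13_1 ln15_13_1_ok) (M (nat_lit 458) (B (L (nat_lit 457) ln9_14_2 ln9_14_2_ok) (L (nat_lit 461) ln10_14_2 ln10_14_2_ok)))))))))) (B (M (nat_lit 365) (B (M (nat_lit 460) (B (L (nat_lit 333) ln13_10_5 ln13_10_5_ok) (L (nat_lit 492) ln12_15_6 ln12_15_6_ok))) (M (nat_lit 398) (B (M (nat_lit 399) (B (L (nat_lit 427) ln15_12_1 ln15_12_1_ok) (L (nat_lit 400) ln16_12_1 ln16_12_1_ok))) (M (nat_lit 366) (B (M (nat_lit 334) (B (L (nat_lit 302) ln14_9_5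 ln14_9_5_ok) (L (nat_lit 461) ln13_14_6 ln13_14_6_ok))) (M (nat_lit 367) (B (L (nat_lit 368) ln16_11_1 ln16_11_1_ok) (L (nat_lit 395) ln11_12_2 ln11_12_2_ok))))))))) (B (M (nat_lit 395) (B (M (nat_lit 430) (B (L (nat_lit 394) ln10_12_0 ln10_12_0_ok) (L (nat_lit 431) ln15_13_3 ln15_13_3_ok))) (M (nat_lit 363) (B (M (nat_lit 398) (B (L (nat_lit 362) ln14_12_3 ln14_12_3_ok) (M (nat_lit 399) (B (L (nat_lit 364) ln15_12_3 ln15_12_3_ok) (L (nat_lit 427) ln15_12_1 ln15_12_1_ok))))) (B (M (nat_lit 331) (B (L (nat_lit 299) ln11_9_4 ln11_9_4_ok) (M (nat_lit 460) (B (L (nat_lit 364) ln12_14_7 ln12_14_7_ok) (L (nat_lit 492) ln12_15_7 ln12_15_7_ok))))) (M (nat_lit 398) (B (L (nat_lit 362) ln14_12_3 ln14_12_3_ok) (M (nat_lit 399) (B (L (nat_lit 427) ln15_12_1 ln15_12_1_ok) (L (nat_lit 400) ln16_12_1 ln16_12_1_ok)))))))))) (M (nat_lit 398) (B (M (nat_lit 399) (B (L (nat_lit 427) ln15_12_1 ln15_12_1_ok) (L (nat_lit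 400) ln16_12_1 ln16_12_1_ok))) (M (nat_lit 366) (B (M (nat_lit 395) (B (L (nat_lit 367) ln11_12_2 ln11_12_2_ok) (M (nat_lit 394) (B (L (nat_lit 365) ln10_12_2 ln10_12_2_ok) (L (nat_lit 393) ln9_12_0 ln9_12_0_ok))))) (B (M (nat_lit 395) (B (L (nat_lit 367) ln11_12_2 ln11_12_2_ok) (M (nat_lit 394) (B (L (nat_lit 393) ln9_12_0 ln9_12_0_ok) (L (nat_lit 430) ln10_12_0 ln10_12_0_ok))))) (M (nat_lit 334) (B (L (nat_lit 302) ln14_9_5 ln14_9_5_ok) (M (nat_lit 461) (B (L (nat_lit 365) ln13_14_6 ln13_14_6_ok) (L (nat_lit 493) ln13_15_6 ln13_15_6_ok))))))))))))))) (B (K (nat_lit 2079502270913392379444674211814302674077704290823075655481512624564798400421800170032085953906810352733060637150540575368324055040) (nat_lit 192214334528410459247987529827954797672363882964871259722483205544179956124220522829235523328570160354413708462873868011639975318519426274641996657777480564736) (nat_lit 192214334528410459247987529827954797672363882964871259722483205544179956124220522829235523328570160354413708462873868011639975318519426274641996657777480564736)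 c11_s11504) (B (M (nat_lit 427) (B (M (nat_lit 398) (B (L (nat_lit 426) ln10_13_2 ln10_13_2_ok) (M (nat_lit 399) (B (L (nat_lit 396) ln15_12_1 ln15_12_1_ok) (L (nat_lit 400) ln16_12_1 ln16_12_1_ok))))) (B (M (nat_lit 426) (B (L (nat_lit 398) ln10_13_2 ln10_13_2_ok) (M (nat_lit 425) (B (M (nat_lit 393) (B (L (nat_lit 392) ln12_13_3 ln12_13_3_ok) (L (nat_lit 394) ln13_13_3 ln13_13_3_ok))) (M (nat_lit 457) (B (L (nat_lit 456) ln12_13_1 ln12_13_1_ok) (L (nat_lit 458) ln13_13_1 ln13_13_1_ok))))))) (B (M (nat_lit 426) (B (M (nat_lit 425) (B (L (nat_lit 396) ln9_13_2 ln9_13_2_ok) (M (nat_lit 457) (B (L (nat_lit 456) ln12_13_1 ln12_13_1_ok) (L (nat_lit 458) ln13_13_1 ln13_13_1_ok))))) (B (M (nat_lit 425) (B (M (nat_lit 393) (B (L (nat_lit 392) ln12_13_3 ln12_13_3_ok) (L (nat_lit 394) ln13_13_3 ln13_13_3_ok))) (M (nat_lit 457) (B (L (nat_lit 456) ln12_13_1 ln12_13_1_ok) (L (nat_lit 458) ln13_13_1 ln13_13_1_ok)))))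 (B (M (nat_lit 394) (B (L (nat_lit 393) ln13_13_3 ln13_13_3_ok) (M (nat_lit 395) (B (M (nat_lit 458) (B (L (nat_lit 457) ln13_13_1 ln13_13_1_ok) (M (nat_lit 363) (B (L (nat_lit 331) ln11_10_5 ln11_10_5_ok) (L (nat_lit 490) ln10_15_6 ln10_15_6_ok))))) (M (nat_lit 396) (B (M (nat_lit 365) (B (L (nat_lit 366) ln10_12_2 ln10_12_2_ok) (M (nat_lit 333) (B (L (nat_lit 301) ln13_9_5 ln13_9_5_ok) (L (nat_lit 460) ln13_10_5 ln13_10_5_ok))))) (M (nat_lit 362) (B (L (nat_lit 361) ln13_12_3 ln13_12_3_ok) (M (nat_lit 330) (B (L (nat_lit 298) ln10_9_4 ln10_9_4_ok) (L (nat_lit 459) ln10_10_4 ln10_10_4_ok))))))))))) (M (nat_lit 393) (B (L (nat_lit 394) ln13_13_3 ln13_13_3_ok) (M (nat_lit 425) (B (L (nat_lit 392) ln12_13_3 ln12_13_3_ok) (L (nat_lit 396) ln9_13_2 ln9_13_2_ok))))))))) (K (nat_lit 2426085982678494236891975984832188137007258925245052727377822572141626063897503372912082754669827799995234538520716021846945824768)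 (nat_lit 192214334528410459247243246954867408362739997297541609911585226088871139253104066847654266866638463736971942788100666198397205763761414522307443807696103407616) (nat_lit 192214334528410459247243246954867408362739997297541609911585226088871139253104066847654266866638463736971942788100666198397205763761414522307443807696103407616) c11_s11642))))) (B (K (nat_lit 2079502270913392379444674211814302674077704290823075655481512624564798400421800170032085953906810352733060637150540575368324055040) (nat_lit 54918381600711929354083924877256498310666003958842975466099460814186254825577493835701840177466971537204696696981570378701359968216494340954681553371216740352) (nat_lit 54918381600711929354083924877256498310666003958842975466099460814186254825577493835701840177466971537204696696981570378701359968216494340954681553371216740352) c11_s11800) (B (K (nat_lit 2079502270913392379444674211814302674077704290823075655481512624564798400421800170032085953906810352733060637150540575368324055040)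 (nat_lit 15983352754571128728981615889843470479651076114759571048365644203549490181149380835931879582823796459779966376233215516738940513924676985585947115520) (nat_lit 15983352754571128728981615889843470479651076114759571048365644203549490181149380835931879582823796459779966376233215516738940513924676985585947115520) c11_s11850) c11_n11867))))))))))))))) (nat_lit 1386334847383188664550070665778531748218595021979121511688892729411143073470393764272092352380775458208712834410189682411080515584) (nat_lit 117936325981617097418694802393541864091775642370399144713322417062163642653637405890943868844119743233792159405996113563887264354224735240870136200446246161826382348288) (nat_lit 117936325981617097418694802393541864091775642370399144713322417062163642653637405890943868844119743233792159405996113563887264354224735240870136200446246161826382348288) (by decide +kernel)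
noncomputable def c11_n11949 : Cert := (M (nat_lit 396) (B (M (nat_lit 364) (B (L (nat_lit 493) ln13_15_7 ln13_15_7_ok) (M (nat_lit 332) (B (L (nat_lit 300) ln12_9_4 ln12_9_4_ok) (L (nat_lit 428) ln12_10_4 ln12_10_4_ok))))) (B (M (nat_lit 493) (B (L (nat_lit 364) ln13_15_7 ln13_15_7_ok) (M (nat_lit 525) (B (L (nat_lit 428) ln13_16_7 ln13_16_7_ok) (M (nat_lit 398) (B (L (nat_lit 366) ln13_15_6 ln13_15_6_ok) (L (nat_lit 430) ln13_16_6 ln13_16_6_ok))))))) (B (M (nat_lit 395) (B (M (nat_lit 430) (B (L (nat_lit 394) ln10_12_0 ln10_12_0_ok) (M (nat_lit 431) (B (L (nat_lit 398) ln11_12_0 ln11_12_0_ok) (L (nat_lit 428) ln15_13_3 ln15_13_3_ok))))) (B (M (nat_lit 398) (B (M (nat_lit 366) (B (L (nat_lit 367) ln11_12_2 ln11_12_2_ok) (L (nat_lit 493) ln13_15_6 ln13_15_6_ok))) (M (nat_lit 399) (B (M (nat_lit 427) (B (L (nat_lit 426) ln14_12_1 ln14_12_1_ok) (L (nat_lit 428) ln15_12_1 ln15_12_1_ok))) (M (nat_lit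 431) (B (L (nat_lit 430) ln11_12_0 ln11_12_0_ok) (L (nat_lit 432) ln12_12_0 ln12_12_0_ok))))))) (B (M (nat_lit 430) (B (L (nat_lit 394) ln10_12_0 ln10_12_0_ok) (M (nat_lit 431) (B (L (nat_lit 428) ln15_13_3 ln15_13_3_ok) (L (nat_lit 432) ln16_13_3 ln16_13_3_ok))))) (B (M (nat_lit 430) (B (L (nat_lit 394) ln10_12_0 ln10_12_0_ok) (M (nat_lit 431) (B (L (nat_lit 398) ln11_12_0 ln11_12_0_ok) (L (nat_lit 432) ln16_13_3 ln16_13_3_ok))))) (M (nat_lit 398) (B (M (nat_lit 366) (B (L (nat_lit 367) ln11_12_2 ln11_12_2_ok) (L (nat_lit 493) ln13_15_6 ln13_15_6_ok))) (M (nat_lit 394) (B (M (nat_lit 362) (B (L (nat_lit 361) ln13_12_3 ln13_12_3_ok) (L (nat_lit 363) ln14_12_3 ln14_12_3_ok))) (M (nat_lit 426) (B (L (nat_lit 425) ln13_12_1 ln13_12_1_ok) (L (nat_lit 427) ln14_12_1 ln14_12_1_ok)))))))))))) (B (M (nat_lit 493) (B (L (nat_lit 364) ln13_15_7 ln13_15_7_ok) (M (nat_lit 525) (B (M (nat_lit 398) (B (L (nat_lit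 366) ln13_15_6 ln13_15_6_ok) (L (nat_lit 430) ln13_16_6 ln13_16_6_ok))) (M (nat_lit 526) (B (L (nat_lit 494) ln13_12_4 ln13_12_4_ok) (L (nat_lit 558) ln13_13_4 ln13_13_4_ok))))))) (M (nat_lit 395) (B (M (nat_lit 430) (B (L (nat_lit 394) ln10_12_0 ln10_12_0_ok) (M (nat_lit 431) (B (L (nat_lit 398) ln11_12_0 ln11_12_0_ok) (L (nat_lit 428) ln15_13_3 ln15_13_3_ok))))) (B (M (nat_lit 398) (B (M (nat_lit 430) (B (L (nat_lit 431) ln11_12_0 ln11_12_0_ok) (M (nat_lit 366) (B (L (nat_lit 334) ln14_10_5 ln14_10_5_ok) (L (nat_lit 367) ln11_12_2 ln11_12_2_ok))))) (M (nat_lit 399) (B (M (nat_lit 363) (B (L (nat_lit 362) ln14_12_3 ln14_12_3_ok) (L (nat_lit 364) ln15_12_3 ln15_12_3_ok))) (M (nat_lit 427) (B (L (nat_lit 426) ln14_12_1 ln14_12_1_ok) (L (nat_lit 428) ln15_12_1 ln15_12_1_ok))))))) (B (M (nat_lit 394) (B (L (nat_lit 430) ln10_12_0 ln10_12_0_ok) (M (nat_lit 393) (B (L (nat_lit 428) ln9_12_0 ln9_12_0_ok)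 (M (nat_lit 425) (B (L (nat_lit 424) ln12_12_1 ln12_12_1_ok) (L (nat_lit 426) ln13_12_1 ln13_12_1_ok))))))) (B (M (nat_lit 430) (B (L (nat_lit 394) ln10_12_0 ln10_12_0_ok) (M (nat_lit 398) (B (L (nat_lit 431) ln11_12_0 ln11_12_0_ok) (M (nat_lit 366) (B (L (nat_lit 334) ln14_10_5 ln14_10_5_ok) (L (nat_lit 367) ln11_12_2 ln11_12_2_ok))))))) (M (nat_lit 394) (B (M (nat_lit 393) (B (L (nat_lit 428) ln9_12_0 ln9_12_0_ok) (M (nat_lit 425) (B (L (nat_lit 424) ln12_12_1 ln12_12_1_ok) (L (nat_lit 426) ln13_12_1 ln13_12_1_ok))))) (B (M (nat_lit 398) (B (M (nat_lit 362) (B (L (nat_lit 361) ln13_12_3 ln13_12_3_ok) (L (nat_lit 363) ln14_12_3 ln14_12_3_ok))) (M (nat_lit 426) (B (L (nat_lit 425) ln13_12_1 ln13_12_1_ok) (L (nat_lit 427) ln14_12_1 ln14_12_1_ok))))) (M (nat_lit 361) (B (L (nat_lit 362) ln13_12_3 ln13_12_3_ok) (M (nat_lit 393) (B (L (nat_lit 360) ln12_12_3 ln12_12_3_ok) (L (nat_lit 428) ln9_12_0 ln9_12_0_ok))))))))))))))))))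
theorem c11_s12134 : Sem (nat_lit 10419959952888155230298294774432503670272334295031986734174565007142537563804815702274668667304606828259866967956144761265341731358900224000) (nat_lit 235872651647453501780900726187940237227209447785494781795959358635757836256348790402890827725238979847038886600528433354019697206933365582672521590077623531199040323584) (nat_lit 235872651647453501780900726187940237227209447785494781795959358635757836256348790402890827725238979847038886600528433354019697206933365582672521590077623531199040323584) :=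
  sem_of_chk (M (nat_lit 395) (B (M (nat_lit 396) (B (M (nat_lit 430) (B (L (nat_lit 394) ln10_12_0 ln10_12_0_ok) (M (nat_lit 431) (B (L (nat_lit 398) ln11_12_0 ln11_12_0_ok) (L (nat_lit 428) ln15_13_3 ln15_13_3_ok))))) (B (M (nat_lit 428) (B (M (nat_lit 364) (B (L (nat_lit 332) ln12_10_4 ln12_10_4_ok) (L (nat_lit 491) ln12_11_5 ln12_11_5_ok))) (M (nat_lit 492) (B (L (nat_lit 363) ln12_15_7 ln12_15_7_ok) (L (nat_lit 524) ln12_16_6 ln12_16_6_ok))))) (M (nat_lit 430) (B (L (nat_lit 394) ln10_12_0 ln10_12_0_ok) (M (nat_lit 431) (B (L (nat_lit 398) ln11_12_0 ln11_12_0_ok) (L (nat_lit 432) ln16_13_3 ln16_13_3_ok)))))))) (B (M (nat_lit 427) (B (M (nat_lit 492) (B (L (nat_lit 363) ln11_11_4 ln11_11_4_ok) (M (nat_lit 524) (B (L (nat_lit 428) ln12_16_7 ln12_16_7_ok) (L (nat_lit 491) ln11_12_4 ln11_12_4_ok))))) (B (M (nat_lit 428) (B (M (nat_lit 426) (B (L (nat_lit 398) ln10_13_2 ln10_13_2_ok) (L (nat_lit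 425) ln9_13_0 ln9_13_0_ok))) (M (nat_lit 430) (B (L (nat_lit 394) ln14_13_3 ln14_13_3_ok) (L (nat_lit 431) ln15_13_1 ln15_13_1_ok))))) (M (nat_lit 492) (B (L (nat_lit 363) ln11_11_4 ln11_11_4_ok) (M (nat_lit 524) (B (L (nat_lit 491) ln11_12_4 ln11_12_4_ok) (L (nat_lit 556) ln12_17_7 ln12_17_7_ok)))))))) (B (M (nat_lit 396) (B (M (nat_lit 430) (B (L (nat_lit 394) ln10_12_0 ln10_12_0_ok) (M (nat_lit 431) (B (L (nat_lit 398) ln11_12_0 ln11_12_0_ok) (L (nat_lit 428) ln15_13_3 ln15_13_3_ok))))) (B (M (nat_lit 398) (B (M (nat_lit 430) (B (L (nat_lit 431) ln11_12_0 ln11_12_0_ok) (M (nat_lit 366) (B (L (nat_lit 334) ln14_10_5 ln14_10_5_ok) (L (nat_lit 367) ln11_12_2 ln11_12_2_ok))))) (M (nat_lit 364) (B (M (nat_lit 332) (B (L (nat_lit 300) ln12_9_4 ln12_9_4_ok) (L (nat_lit 428) ln12_10_4 ln12_10_4_ok))) (B (M (nat_lit 428) (B (L (nat_lit 332) ln12_10_4 ln12_10_4_ok) (L (nat_lit 491) ln12_11_5 ln12_11_5_ok)))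 (M (nat_lit 427) (B (L (nat_lit 491) ln11_15_6 ln11_15_6_ok) (L (nat_lit 426) ln14_12_1 ln14_12_1_ok)))))))) (B (M (nat_lit 430) (B (L (nat_lit 394) ln10_12_0 ln10_12_0_ok) (M (nat_lit 431) (B (L (nat_lit 428) ln15_13_3 ln15_13_3_ok) (L (nat_lit 432) ln16_13_3 ln16_13_3_ok))))) (B (M (nat_lit 430) (B (L (nat_lit 394) ln10_12_0 ln10_12_0_ok) (M (nat_lit 431) (B (L (nat_lit 398) ln11_12_0 ln11_12_0_ok) (L (nat_lit 432) ln16_13_3 ln16_13_3_ok))))) (M (nat_lit 427) (B (M (nat_lit 364) (B (L (nat_lit 491) ln11_15_6 ln11_15_6_ok) (M (nat_lit 332) (B (L (nat_lit 300) ln12_9_5 ln12_9_5_ok) (L (nat_lit 428) ln12_10_5 ln12_10_5_ok))))) (M (nat_lit 426) (B (L (nat_lit 398) ln14_12_1 ln14_12_1_ok) (M (nat_lit 425) (B (L (nat_lit 394) ln13_12_1 ln13_12_1_ok) (L (nat_lit 424) ln8_13_2 ln8_13_2_ok)))))))))))) (B (M (nat_lit 427) (B (M (nat_lit 492) (B (L (nat_lit 363) ln11_11_4 ln11_11_4_ok) (M (nat_lit 524) (B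 (L (nat_lit 428) ln12_16_7 ln12_16_7_ok) (L (nat_lit 491) ln11_12_4 ln11_12_4_ok))))) (B (M (nat_lit 491) (B (M (nat_lit 492) (B (L (nat_lit 524) ln11_12_4 ln11_12_4_ok) (M (nat_lit 490) (B (L (nat_lit 522) ln11_12_5 ln11_12_5_ok) (L (nat_lit 489) ln9_15_2 ln9_15_2_ok))))) (M (nat_lit 428) (B (M (nat_lit 396) (B (L (nat_lit 364) ln11_15_6 ln11_15_6_ok) (L (nat_lit 523) ln11_16_6 ln11_16_6_ok))) (M (nat_lit 426) (B (L (nat_lit 398) ln10_13_2 ln10_13_2_ok) (L (nat_lit 425) ln9_13_0 ln9_13_0_ok))))))) (B (M (nat_lit 492) (B (L (nat_lit 363) ln11_11_4 ln11_11_4_ok) (M (nat_lit 524) (B (L (nat_lit 491) ln11_12_4 ln11_12_4_ok) (L (nat_lit 556) ln12_17_7 ln12_17_7_ok))))) (B (M (nat_lit 492) (B (L (nat_lit 363) ln11_11_4 ln11_11_4_ok) (M (nat_lit 524) (B (L (nat_lit 428) ln12_16_7 ln12_16_7_ok) (L (nat_lit 556) ln12_17_7 ln12_17_7_ok))))) (M (nat_lit 396) (B (M (nat_lit 364) (B (L (nat_lit 491) ln11_15_6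 ln11_15_6_ok) (M (nat_lit 332) (B (L (nat_lit 300) ln12_9_5 ln12_9_5_ok) (L (nat_lit 428) ln12_10_5 ln12_10_5_ok))))) (B (M (nat_lit 364) (B (L (nat_lit 491) ln11_15_6 ln11_15_6_ok) (M (nat_lit 332) (B (L (nat_lit 363) ln11_14_6 ln11_14_6_ok) (L (nat_lit 428) ln12_10_5 ln12_10_5_ok))))) (B (M (nat_lit 426) (B (L (nat_lit 398) ln14_12_1 ln14_12_1_ok) (M (nat_lit 425) (B (L (nat_lit 424) ln8_13_2 ln8_13_2_ok) (L (nat_lit 428) ln9_13_2 ln9_13_2_ok))))) (M (nat_lit 364) (B (L (nat_lit 491) ln11_15_6 ln11_15_6_ok) (M (nat_lit 332) (B (L (nat_lit 300) ln12_9_5 ln12_9_5_ok) (L (nat_lit 363) ln11_14_6 ln11_14_6_ok)))))))))))))) (B (M (nat_lit 428) (B (M (nat_lit 430) (B (L (nat_lit 431) ln15_13_1 ln15_13_1_ok) (M (nat_lit 394) (B (L (nat_lit 396) ln10_12_0 ln10_12_0_ok) (L (nat_lit 427) ln14_13_3 ln14_13_3_ok))))) (B (M (nat_lit 492) (B (L (nat_lit 524) ln12_16_6 ln12_16_6_ok) (M (nat_lit 363) (B (L (nat_lit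 396) ln12_15_7 ln12_15_7_ok) (L (nat_lit 427) ln11_11_4 ln11_11_4_ok))))) (B (M (nat_lit 427) (B (M (nat_lit 363) (B (L (nat_lit 331) ln11_10_4 ln11_10_4_ok) (L (nat_lit 492) ln11_11_4 ln11_11_4_ok))) (M (nat_lit 430) (B (L (nat_lit 394) ln14_13_3 ln14_13_3_ok) (L (nat_lit 431) ln15_13_1 ln15_13_1_ok))))) (M (nat_lit 396) (B (M (nat_lit 492) (B (L (nat_lit 363) ln12_15_7 ln12_15_7_ok) (L (nat_lit 524) ln12_16_6 ln12_16_6_ok))) (M (nat_lit 430) (B (L (nat_lit 394) ln10_12_0 ln10_12_0_ok) (L (nat_lit 431) ln15_13_3 ln15_13_3_ok))))))))) (M (nat_lit 396) (B (M (nat_lit 430) (B (L (nat_lit 394) ln10_12_0 ln10_12_0_ok) (M (nat_lit 431) (B (L (nat_lit 398) ln11_12_0 ln11_12_0_ok) (L (nat_lit 432) ln16_13_3 ln16_13_3_ok))))) (B (M (nat_lit 398) (B (M (nat_lit 430) (B (L (nat_lit 431) ln11_12_0 ln11_12_0_ok) (M (nat_lit 366) (B (L (nat_lit 334) ln14_10_5 ln14_10_5_ok) (L (nat_lit 367) ln11_12_2 ln11_12_2_ok)))))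 (M (nat_lit 363) (B (L (nat_lit 362) ln14_12_3 ln14_12_3_ok) (M (nat_lit 427) (B (L (nat_lit 492) ln11_11_4 ln11_11_4_ok) (L (nat_lit 426) ln14_12_1 ln14_12_1_ok))))))) (B (M (nat_lit 394) (B (L (nat_lit 430) ln10_12_0 ln10_12_0_ok) (M (nat_lit 393) (B (M (nat_lit 361) (B (L (nat_lit 360) ln12_12_3 ln12_12_3_ok) (L (nat_lit 362) ln13_12_3 ln13_12_3_ok))) (M (nat_lit 425) (B (L (nat_lit 424) ln12_12_1 ln12_12_1_ok) (L (nat_lit 426) ln13_12_1 ln13_12_1_ok))))))) (M (nat_lit 427) (B (M (nat_lit 364) (B (L (nat_lit 491) ln11_15_6 ln11_15_6_ok) (M (nat_lit 363) (B (L (nat_lit 332) ln11_14_6 ln11_14_6_ok) (L (nat_lit 492) ln11_11_4 ln11_11_4_ok))))) (M (nat_lit 426) (B (L (nat_lit 398) ln14_12_1 ln14_12_1_ok) (M (nat_lit 425) (B (L (nat_lit 394) ln13_12_1 ln13_12_1_ok) (L (nat_lit 424) ln8_13_2 ln8_13_2_ok))))))))))))))))) (nat_lit 10419959952888155230298294774432503670272334295031986734174565007142537563804815702274668667304606828259866967956144761265341731358900224000)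 (nat_lit 235872651647453501780900726187940237227209447785494781795959358635757836256348790402890827725238979847038886600528433354019697206933365582672521590077623531199040323584) (nat_lit 235872651647453501780900726187940237227209447785494781795959358635757836256348790402890827725238979847038886600528433354019697206933365582672521590077623531199040323584) (by decide +kernel)
theorem c11_s12278 : Sem (nat_lit 10419959952888155230298294774432503670272334295031986734174565007142537563804815702274668667304606828259866967956144761265341731358900224000) (nat_lit 6393341031047152110577887906820535393399430792661432889811144233598542193507844888657207067941950711071741600968139030271325309156952841345585643520) (nat_lit 6393341031047152110577887906820535393399430792661432889811144233598542193507844888657207067941950711071741600968139030271325309156952841345585643520) :=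
  sem_of_chk (M (nat_lit 396) (B (M (nat_lit 395) (B (M (nat_lit 430) (B (L (nat_lit 394) ln10_12_0 ln10_12_0_ok) (M (nat_lit 431) (B (L (nat_lit 398) ln11_12_0 ln11_12_0_ok) (L (nat_lit 428) ln15_13_3 ln15_13_3_ok))))) (B (M (nat_lit 364) (B (M (nat_lit 332) (B (L (nat_lit 300) ln12_9_4 ln12_9_4_ok) (L (nat_lit 365) ln13_14_7 ln13_14_7_ok))) (M (nat_lit 491) (B (L (nat_lit 427) ln11_15_6 ln11_15_6_ok) (L (nat_lit 428) ln12_11_5 ln12_11_5_ok))))) (M (nat_lit 430) (B (L (nat_lit 394) ln10_12_0 ln10_12_0_ok) (M (nat_lit 431) (B (L (nat_lit 398) ln11_12_0 ln11_12_0_ok) (L (nat_lit 432) ln16_13_3 ln16_13_3_ok)))))))) (B (M (nat_lit 430) (B (M (nat_lit 431) (B (L (nat_lit 432) ln16_13_3 ln16_13_3_ok) (L (nat_lit 428) ln15_13_1 ln15_13_1_ok))) (B (M (nat_lit 431) (B (L (nat_lit 432) ln16_13_3 ln16_13_3_ok) (M (nat_lit 395) (B (L (nat_lit 394) ln10_12_0 ln10_12_0_ok) (L (nat_lit 398) ln11_12_0 ln11_12_0_ok)))))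 (M (nat_lit 398) (B (M (nat_lit 395) (B (L (nat_lit 394) ln10_12_0 ln10_12_0_ok) (M (nat_lit 366) (B (L (nat_lit 334) ln14_10_5 ln14_10_5_ok) (L (nat_lit 367) ln11_12_2 ln11_12_2_ok))))) (M (nat_lit 428) (B (M (nat_lit 364) (B (L (nat_lit 332) ln12_10_4 ln12_10_4_ok) (L (nat_lit 491) ln12_11_5 ln12_11_5_ok))) (M (nat_lit 427) (B (L (nat_lit 399) ln15_12_1 ln15_12_1_ok) (L (nat_lit 426) ln10_13_2 ln10_13_2_ok)))))))))) (B (M (nat_lit 395) (B (M (nat_lit 430) (B (L (nat_lit 394) ln10_12_0 ln10_12_0_ok) (M (nat_lit 431) (B (L (nat_lit 398) ln11_12_0 ln11_12_0_ok) (L (nat_lit 428) ln15_13_3 ln15_13_3_ok))))) (B (M (nat_lit 398) (B (M (nat_lit 430) (B (L (nat_lit 431) ln11_12_0 ln11_12_0_ok) (M (nat_lit 366) (B (L (nat_lit 334) ln14_10_5 ln14_10_5_ok) (L (nat_lit 367) ln11_12_2 ln11_12_2_ok))))) (B (M (nat_lit 399) (B (M (nat_lit 363) (B (L (nat_lit 362) ln14_12_3 ln14_12_3_ok) (L (nat_lit 364) ln15_12_3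 ln15_12_3_ok))) (M (nat_lit 431) (B (L (nat_lit 430) ln11_12_0 ln11_12_0_ok) (L (nat_lit 432) ln12_12_0 ln12_12_0_ok))))) (M (nat_lit 366) (B (L (nat_lit 367) ln11_12_2 ln11_12_2_ok) (M (nat_lit 334) (B (L (nat_lit 302) ln14_9_5 ln14_9_5_ok) (L (nat_lit 365) ln13_14_6 ln13_14_6_ok)))))))) (B (M (nat_lit 430) (B (L (nat_lit 394) ln10_12_0 ln10_12_0_ok) (M (nat_lit 431) (B (L (nat_lit 428) ln15_13_3 ln15_13_3_ok) (L (nat_lit 432) ln16_13_3 ln16_13_3_ok))))) (M (nat_lit 398) (B (M (nat_lit 366) (B (L (nat_lit 367) ln11_12_2 ln11_12_2_ok) (M (nat_lit 334) (B (L (nat_lit 302) ln14_9_5 ln14_9_5_ok) (L (nat_lit 365) ln13_14_6 ln13_14_6_ok))))) (M (nat_lit 399) (B (M (nat_lit 363) (B (L (nat_lit 362) ln14_12_3 ln14_12_3_ok) (L (nat_lit 364) ln15_12_3 ln15_12_3_ok))) (M (nat_lit 427) (B (L (nat_lit 426) ln14_12_1 ln14_12_1_ok) (L (nat_lit 428) ln15_12_1 ln15_12_1_ok))))))))))) (B (M (nat_lit 395) (B (M (nat_lit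 430) (B (L (nat_lit 394) ln10_12_0 ln10_12_0_ok) (M (nat_lit 431) (B (L (nat_lit 398) ln11_12_0 ln11_12_0_ok) (L (nat_lit 428) ln15_13_3 ln15_13_3_ok))))) (B (M (nat_lit 398) (B (M (nat_lit 430) (B (L (nat_lit 431) ln11_12_0 ln11_12_0_ok) (M (nat_lit 366) (B (L (nat_lit 334) ln14_10_5 ln14_10_5_ok) (L (nat_lit 367) ln11_12_2 ln11_12_2_ok))))) (B (M (nat_lit 399) (B (M (nat_lit 427) (B (L (nat_lit 426) ln14_12_1 ln14_12_1_ok) (L (nat_lit 428) ln15_12_1 ln15_12_1_ok))) (M (nat_lit 431) (B (L (nat_lit 430) ln11_12_0 ln11_12_0_ok) (L (nat_lit 432) ln12_12_0 ln12_12_0_ok))))) (M (nat_lit 366) (B (L (nat_lit 367) ln11_12_2 ln11_12_2_ok) (M (nat_lit 334) (B (L (nat_lit 302) ln14_9_5 ln14_9_5_ok) (L (nat_lit 365) ln13_14_6 ln13_14_6_ok)))))))) (B (M (nat_lit 430) (B (L (nat_lit 394) ln10_12_0 ln10_12_0_ok) (M (nat_lit 431) (B (L (nat_lit 428) ln15_13_3 ln15_13_3_ok) (L (nat_lit 432) ln16_13_3 ln16_13_3_ok)))))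 (B (M (nat_lit 430) (B (L (nat_lit 394) ln10_12_0 ln10_12_0_ok) (M (nat_lit 431) (B (L (nat_lit 398) ln11_12_0 ln11_12_0_ok) (L (nat_lit 432) ln16_13_3 ln16_13_3_ok))))) (M (nat_lit 398) (B (M (nat_lit 366) (B (L (nat_lit 367) ln11_12_2 ln11_12_2_ok) (M (nat_lit 334) (B (L (nat_lit 302) ln14_9_5 ln14_9_5_ok) (L (nat_lit 365) ln13_14_6 ln13_14_6_ok))))) (B (M (nat_lit 366) (B (L (nat_lit 367) ln11_12_2 ln11_12_2_ok) (M (nat_lit 365) (B (L (nat_lit 334) ln13_14_6 ln13_14_6_ok) (L (nat_lit 394) ln10_12_2 ln10_12_2_ok))))) (B (M (nat_lit 394) (B (M (nat_lit 362) (B (L (nat_lit 361) ln13_12_3 ln13_12_3_ok) (L (nat_lit 363) ln14_12_3 ln14_12_3_ok))) (M (nat_lit 366) (B (L (nat_lit 365) ln10_12_2 ln10_12_2_ok) (L (nat_lit 367) ln11_12_2 ln11_12_2_ok))))) (M (nat_lit 394) (B (M (nat_lit 362) (B (L (nat_lit 361) ln13_12_3 ln13_12_3_ok) (L (nat_lit 363) ln14_12_3 ln14_12_3_ok))) (M (nat_lit 426) (B (L (nat_lit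 425) ln13_12_1 ln13_12_1_ok) (L (nat_lit 427) ln14_12_1 ln14_12_1_ok)))))))))))))) (B (M (nat_lit 364) (B (M (nat_lit 332) (B (L (nat_lit 300) ln12_9_4 ln12_9_4_ok) (L (nat_lit 365) ln13_14_7 ln13_14_7_ok))) (B (M (nat_lit 332) (B (L (nat_lit 365) ln13_14_7 ln13_14_7_ok) (L (nat_lit 428) ln12_10_4 ln12_10_4_ok))) (B (M (nat_lit 363) (B (M (nat_lit 428) (B (L (nat_lit 331) ln12_14_7 ln12_14_7_ok) (L (nat_lit 491) ln12_11_5 ln12_11_5_ok))) (M (nat_lit 362) (B (L (nat_lit 361) ln9_11_0 ln9_11_0_ok) (M (nat_lit 398) (B (L (nat_lit 365) ln10_11_0 ln10_11_0_ok) (L (nat_lit 399) ln15_12_3 ln15_12_3_ok))))))) (M (nat_lit 428) (B (L (nat_lit 332) ln12_10_4 ln12_10_4_ok) (L (nat_lit 491) ln12_11_5 ln12_11_5_ok))))))) (B (M (nat_lit 364) (B (M (nat_lit 332) (B (L (nat_lit 300) ln12_9_4 ln12_9_4_ok) (L (nat_lit 365) ln13_14_7 ln13_14_7_ok))) (B (M (nat_lit 332) (B (L (nat_lit 365) ln13_14_7 ln13_14_7_ok) (L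 (nat_lit 428) ln12_10_4 ln12_10_4_ok))) (B (M (nat_lit 395) (B (M (nat_lit 491) (B (L (nat_lit 427) ln11_15_6 ln11_15_6_ok) (L (nat_lit 428) ln12_11_5 ln12_11_5_ok))) (B (M (nat_lit 394) (B (L (nat_lit 430) ln10_12_0 ln10_12_0_ok) (M (nat_lit 428) (B (L (nat_lit 491) ln12_11_5 ln12_11_5_ok) (L (nat_lit 393) ln9_12_0 ln9_12_0_ok))))) (M (nat_lit 394) (B (L (nat_lit 430) ln10_12_0 ln10_12_0_ok) (M (nat_lit 365) (B (L (nat_lit 393) ln9_12_2 ln9_12_2_ok) (L (nat_lit 366) ln10_12_2 ln10_12_2_ok)))))))) (M (nat_lit 428) (B (L (nat_lit 332) ln12_10_4 ln12_10_4_ok) (L (nat_lit 491) ln12_11_5 ln12_11_5_ok))))))) (M (nat_lit 395) (B (M (nat_lit 430) (B (L (nat_lit 394) ln10_12_0 ln10_12_0_ok) (M (nat_lit 431) (B (L (nat_lit 398) ln11_12_0 ln11_12_0_ok) (L (nat_lit 432) ln16_13_3 ln16_13_3_ok))))) (B (M (nat_lit 364) (B (M (nat_lit 332) (B (L (nat_lit 300) ln12_9_4 ln12_9_4_ok) (L (nat_lit 365) ln13_14_7 ln13_14_7_ok)))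 (B (M (nat_lit 427) (B (L (nat_lit 491) ln11_15_6 ln11_15_6_ok) (M (nat_lit 332) (B (L (nat_lit 363) ln11_14_6 ln11_14_6_ok) (L (nat_lit 365) ln13_14_7 ln13_14_7_ok))))) (M (nat_lit 398) (B (M (nat_lit 363) (B (L (nat_lit 362) ln14_12_3 ln14_12_3_ok) (L (nat_lit 399) ln15_12_3 ln15_12_3_ok))) (M (nat_lit 427) (B (L (nat_lit 491) ln11_15_6 ln11_15_6_ok) (L (nat_lit 426) ln14_12_1 ln14_12_1_ok)))))))) (M (nat_lit 394) (B (L (nat_lit 430) ln10_12_0 ln10_12_0_ok) (M (nat_lit 365) (B (L (nat_lit 366) ln10_12_2 ln10_12_2_ok) (M (nat_lit 364) (B (L (nat_lit 332) ln13_14_7 ln13_14_7_ok) (L (nat_lit 393) ln9_12_2 ln9_12_2_ok))))))))))))))))) (nat_lit 10419959952888155230298294774432503670272334295031986734174565007142537563804815702274668667304606828259866967956144761265341731358900224000) (nat_lit 6393341031047152110577887906820535393399430792661432889811144233598542193507844888657207067941950711071741600968139030271325309156952841345585643520)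 (nat_lit 6393341031047152110577887906820535393399430792661432889811144233598542193507844888657207067941950711071741600968139030271325309156952841345585643520) (by decide +kernel)
noncomputable def c11_n12280 : Cert := (M (nat_lit 460) (B (M (nat_lit 492) (B (L (nat_lit 365) ln13_11_5 ln13_11_5_ok) (M (nat_lit 524) (B (L (nat_lit 428) ln12_16_6 ln12_16_6_ok) (L (nat_lit 556) ln12_17_6 ln12_17_6_ok))))) (B (M (nat_lit 459) (B (M (nat_lit 430) (B (L (nat_lit 458) ln10_14_2 ln10_14_2_ok) (M (nat_lit 431) (B (L (nat_lit 428) ln15_13_1 ln15_13_1_ok) (L (nat_lit 432) ln16_13_1 ln16_13_1_ok))))) (B (M (nat_lit 458) (B (L (nat_lit 430) ln10_14_2 ln10_14_2_ok) (M (nat_lit 457) (B (M (nat_lit 425) (B (L (nat_lit 424) ln12_14_3 ln12_14_3_ok) (L (nat_lit 426) ln13_14_3 ln13_14_3_ok))) (M (nat_lit 489) (B (L (nat_lit 488) ln12_14_1 ln12_14_1_ok) (L (nat_lit 490) ln13_14_1 ln13_14_1_ok))))))) (B (M (nat_lit 458)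 (B (M (nat_lit 457) (B (L (nat_lit 428) ln9_14_2 ln9_14_2_ok) (M (nat_lit 425) (B (L (nat_lit 424) ln12_14_3 ln12_14_3_ok) (L (nat_lit 426) ln13_14_3 ln13_14_3_ok))))) (B (M (nat_lit 457) (B (L (nat_lit 428) ln9_14_2 ln9_14_2_ok) (M (nat_lit 489) (B (L (nat_lit 488) ln12_14_1 ln12_14_1_ok) (L (nat_lit 490) ln13_14_1 ln13_14_1_ok))))) (B (M (nat_lit 457) (B (M (nat_lit 425) (B (L (nat_lit 424) ln12_14_3 ln12_14_3_ok) (L (nat_lit 426) ln13_14_3 ln13_14_3_ok))) (M (nat_lit 489) (B (L (nat_lit 488) ln12_14_1 ln12_14_1_ok) (L (nat_lit 490) ln13_14_1 ln13_14_1_ok))))) (M (nat_lit 426) (B (L (nat_lit 425) ln13_14_3 ln13_14_3_ok) (M (nat_lit 427) (B (M (nat_lit 490) (B (L (nat_lit 489) ln13_14_1 ln13_14_1_ok) (M (nat_lit 395) (B (L (nat_lit 363) ln11_11_5 ln11_11_5_ok) (L (nat_lit 522) ln10_16_6 ln10_16_6_ok))))) (M (nat_lit 394) (B (M (nat_lit 362) (B (L (nat_lit 330) ln10_10_4 ln10_10_4_ok) (L (nat_lit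 491) ln10_11_4 ln10_11_4_ok))) (M (nat_lit 428) (B (L (nat_lit 393) ln13_13_3 ln13_13_3_ok) (L (nat_lit 398) ln10_13_2 ln10_13_2_ok))))))))))))) (K (nat_lit 10419959952888155230298294774432503670272334295031986734174565007142537563804815702274668667304606828259866967956144761265341731358900224000) (nat_lit 235872651647453501780900726187940237227209447785494781795959358635757836256348790402890827725238979847038886600528433354019697206933365582672521590077623531199040323584) (nat_lit 235872651647453501780900726187940237227209447785494781795959358635757836256348790402890827725238979847038886600528433354019697206933365582672521590077623531199040323584) c11_s12134))))) (B (M (nat_lit 365) (B (L (nat_lit 492) ln13_11_5 ln13_11_5_ok) (M (nat_lit 366) (B (L (nat_lit 334) ln13_14_6 ln13_14_6_ok) (M (nat_lit 364) (B (L (nat_lit 332) ln13_14_7 ln13_14_7_ok) (M (nat_lit 367) (B (M (nat_lit 396) (B (L (nat_lit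 395) ln15_11_1 ln15_11_1_ok) (L (nat_lit 368) ln16_11_1 ln16_11_1_ok))) (B (M (nat_lit 363) (B (M (nat_lit 395) (B (L (nat_lit 394) ln14_11_1 ln14_11_1_ok) (L (nat_lit 396) ln15_11_1 ln15_11_1_ok))) (M (nat_lit 399) (B (L (nat_lit 398) ln11_11_0 ln11_11_0_ok) (L (nat_lit 400) ln12_11_0 ln12_11_0_ok))))) (B (M (nat_lit 368) (B (L (nat_lit 396) ln16_11_1 ln16_11_1_ok) (M (nat_lit 336) (B (L (nat_lit 335) ln12_11_2 ln12_11_2_ok) (L (nat_lit 337) ln13_11_2 ln13_11_2_ok))))) (M (nat_lit 368) (B (M (nat_lit 336) (B (L (nat_lit 335) ln12_11_2 ln12_11_2_ok) (L (nat_lit 337) ln13_11_2 ln13_11_2_ok))) (M (nat_lit 400) (B (L (nat_lit 399) ln12_11_0 ln12_11_0_ok) (L (nat_lit 401) ln13_11_0 ln13_11_0_ok))))))))))))))) (M (nat_lit 459) (B (M (nat_lit 430) (B (L (nat_lit 458) ln10_14_2 ln10_14_2_ok) (M (nat_lit 431) (B (L (nat_lit 428) ln15_13_1 ln15_13_1_ok) (L (nat_lit 432) ln16_13_1 ln16_13_1_ok))))) (B (M (nat_lit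 458) (B (L (nat_lit 430) ln10_14_2 ln10_14_2_ok) (M (nat_lit 457) (B (M (nat_lit 425) (B (L (nat_lit 424) ln12_14_3 ln12_14_3_ok) (L (nat_lit 426) ln13_14_3 ln13_14_3_ok))) (M (nat_lit 489) (B (L (nat_lit 488) ln12_14_1 ln12_14_1_ok) (L (nat_lit 490) ln13_14_1 ln13_14_1_ok))))))) (B (M (nat_lit 458) (B (M (nat_lit 457) (B (L (nat_lit 428) ln9_14_2 ln9_14_2_ok) (M (nat_lit 425) (B (L (nat_lit 424) ln12_14_3 ln12_14_3_ok) (L (nat_lit 426) ln13_14_3 ln13_14_3_ok))))) (B (M (nat_lit 457) (B (L (nat_lit 428) ln9_14_2 ln9_14_2_ok) (M (nat_lit 489) (B (L (nat_lit 488) ln12_14_1 ln12_14_1_ok) (L (nat_lit 490) ln13_14_1 ln13_14_1_ok))))) (B (M (nat_lit 457) (B (M (nat_lit 425) (B (L (nat_lit 424) ln12_14_3 ln12_14_3_ok) (L (nat_lit 426) ln13_14_3 ln13_14_3_ok))) (M (nat_lit 489) (B (L (nat_lit 488) ln12_14_1 ln12_14_1_ok) (L (nat_lit 490) ln13_14_1 ln13_14_1_ok))))) (M (nat_lit 426) (B (L (nat_lit 425) ln13_14_3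 ln13_14_3_ok) (M (nat_lit 427) (B (M (nat_lit 490) (B (L (nat_lit 489) ln13_14_1 ln13_14_1_ok) (M (nat_lit 395) (B (L (nat_lit 363) ln11_11_5 ln11_11_5_ok) (L (nat_lit 522) ln10_16_6 ln10_16_6_ok))))) (M (nat_lit 394) (B (M (nat_lit 362) (B (L (nat_lit 330) ln10_10_4 ln10_10_4_ok) (L (nat_lit 491) ln10_11_4 ln10_11_4_ok))) (M (nat_lit 428) (B (L (nat_lit 393) ln13_13_3 ln13_13_3_ok) (L (nat_lit 398) ln10_13_2 ln10_13_2_ok))))))))))))) (K (nat_lit 10419959952888155230298294774432503670272334295031986734174565007142537563804815702274668667304606828259866967956144761265341731358900224000) (nat_lit 6393341031047152110577887906820535393399430792661432889811144233598542193507844888657207067941950711071741600968139030271325309156952841345585643520) (nat_lit 6393341031047152110577887906820535393399430792661432889811144233598542193507844888657207067941950711071741600968139030271325309156952841345585643520)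 c11_s12278)))))))))
theorem c11_s12281 : Sem (nat_lit 1386334847383188664550070665778531748218595021979121511688892729411143073470393764272092352380775458208712834410189682411080515584) (nat_lit 1179363258182349127605077897767121801634034322304598431054017750724142394674982811900633493265537078602870096492686699659153784728265161122289004793653317097892815568896) (nat_lit 1179363258182349127605077897767121801634034322304598431054017750724142394674982811900633493265537078602870096492686699659153784728265161122289004793653317097892815568896) :=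
  sem_of_chk (M (nat_lit 461) (B (M (nat_lit 493) (B (M (nat_lit 525) (B (M (nat_lit 396) (B (L (nat_lit 364) ln13_15_7 ln13_15_7_ok) (L (nat_lit 428) ln13_16_7 ln13_16_7_ok))) (M (nat_lit 526) (B (L (nat_lit 494) ln13_12_4 ln13_12_4_ok) (L (nat_lit 558) ln13_13_4 ln13_13_4_ok))))) (B (M (nat_lit 524) (B (L (nat_lit 492) ln13_12_5 ln13_12_5_ok) (M (nat_lit 525) (B (L (nat_lit 556) ln13_13_5 ln13_13_5_ok) (M (nat_lit 526) (B (L (nat_lit 494) ln13_12_4 ln13_12_4_ok) (L (nat_lit 558) ln13_13_4 ln13_13_4_ok))))))) (B (M (nat_lit 525) (B (M (nat_lit 396) (B (L (nat_lit 364) ln13_15_7 ln13_15_7_ok) (L (nat_lit 428) ln13_16_7 ln13_16_7_ok))) (M (nat_lit 524) (B (L (nat_lit 492) ln13_12_5 ln13_12_5_ok) (L (nat_lit 556) ln13_13_5 ln13_13_5_ok))))) (M (nat_lit 365) (B (M (nat_lit 364) (B (L (nat_lit 332) ln13_14_7 ln13_14_7_ok) (L (nat_lit 396) ln13_15_7 ln13_15_7_ok))) (M (nat_lit 492) (B (L (nat_lit 460)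 ln13_11_5 ln13_11_5_ok) (L (nat_lit 524) ln13_12_5 ln13_12_5_ok))))))))) (B (M (nat_lit 493) (B (M (nat_lit 525) (B (M (nat_lit 396) (B (L (nat_lit 364) ln13_15_7 ln13_15_7_ok) (L (nat_lit 428) ln13_16_7 ln13_16_7_ok))) (M (nat_lit 526) (B (L (nat_lit 494) ln13_12_4 ln13_12_4_ok) (L (nat_lit 558) ln13_13_4 ln13_13_4_ok))))) (B (M (nat_lit 524) (B (L (nat_lit 492) ln13_12_5 ln13_12_5_ok) (M (nat_lit 525) (B (L (nat_lit 556) ln13_13_5 ln13_13_5_ok) (M (nat_lit 526) (B (L (nat_lit 494) ln13_12_4 ln13_12_4_ok) (L (nat_lit 558) ln13_13_4 ln13_13_4_ok))))))) (B (M (nat_lit 525) (B (M (nat_lit 396) (B (L (nat_lit 364) ln13_15_7 ln13_15_7_ok) (L (nat_lit 428) ln13_16_7 ln13_16_7_ok))) (M (nat_lit 524) (B (L (nat_lit 492) ln13_12_5 ln13_12_5_ok) (L (nat_lit 556) ln13_13_5 ln13_13_5_ok))))) (M (nat_lit 365) (B (M (nat_lit 366) (B (L (nat_lit 334) ln13_14_6 ln13_14_6_ok) (L (nat_lit 398) ln13_15_6 ln13_15_6_ok)))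 (M (nat_lit 492) (B (L (nat_lit 460) ln13_11_5 ln13_11_5_ok) (L (nat_lit 524) ln13_12_5 ln13_12_5_ok))))))))) (B (M (nat_lit 493) (B (M (nat_lit 524) (B (L (nat_lit 492) ln13_12_5 ln13_12_5_ok) (M (nat_lit 525) (B (L (nat_lit 556) ln13_13_5 ln13_13_5_ok) (M (nat_lit 526) (B (L (nat_lit 494) ln13_12_4 ln13_12_4_ok) (L (nat_lit 558) ln13_13_4 ln13_13_4_ok))))))) (B (M (nat_lit 525) (B (M (nat_lit 398) (B (L (nat_lit 366) ln13_15_6 ln13_15_6_ok) (L (nat_lit 430) ln13_16_6 ln13_16_6_ok))) (M (nat_lit 526) (B (L (nat_lit 494) ln13_12_4 ln13_12_4_ok) (L (nat_lit 558) ln13_13_4 ln13_13_4_ok))))) (B (M (nat_lit 525) (B (M (nat_lit 398) (B (L (nat_lit 366) ln13_15_6 ln13_15_6_ok) (L (nat_lit 430) ln13_16_6 ln13_16_6_ok))) (M (nat_lit 524) (B (L (nat_lit 492) ln13_12_5 ln13_12_5_ok) (L (nat_lit 556) ln13_13_5 ln13_13_5_ok))))) (M (nat_lit 365) (B (M (nat_lit 366) (B (L (nat_lit 334) ln13_14_6 ln13_14_6_ok)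 (L (nat_lit 398) ln13_15_6 ln13_15_6_ok))) (M (nat_lit 492) (B (L (nat_lit 460) ln13_11_5 ln13_11_5_ok) (L (nat_lit 524) ln13_12_5 ln13_12_5_ok))))))))) (B c11_n11949 c11_n12280))))) (nat_lit 1386334847383188664550070665778531748218595021979121511688892729411143073470393764272092352380775458208712834410189682411080515584) (nat_lit 1179363258182349127605077897767121801634034322304598431054017750724142394674982811900633493265537078602870096492686699659153784728265161122289004793653317097892815568896) (nat_lit 1179363258182349127605077897767121801634034322304598431054017750724142394674982811900633493265537078602870096492686699659153784728265161122289004793653317097892815568896) (by decide +kernel)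
noncomputable def c11_n12368 : Cert := (M (nat_lit 459) (B (M (nat_lit 458) (B (L (nat_lit 430) ln14_13_1 ln14_13_1_ok) (M (nat_lit 457) (B (L (nat_lit 456) ln8_14_2 ln8_14_2_ok) (L (nat_lit 460) ln9_14_2 ln9_14_2_ok))))) (B (M (nat_lit 491) (B (M (nat_lit 396) (B (L (nat_lit 523) ln11_16_6 ln11_16_6_ok) (M (nat_lit 364) (B (L (nat_lit 395) ln11_15_6 ln11_15_6_ok) (L (nat_lit 460) ln12_11_5 ln12_11_5_ok))))) (B (M (nat_lit 524) (B (M (nat_lit 492) (B (L (nat_lit 395) ln11_12_4 ln11_12_4_ok) (L (nat_lit 460) ln12_16_6 ln12_16_6_ok))) (M (nat_lit 523) (B (L (nat_lit 396) ln11_16_6 ln11_16_6_ok) (L (nat_lit 556) ln11_13_4 ln11_13_4_ok))))) (B (M (nat_lit 396) (B (L (nat_lit 523) ln11_16_6 ln11_16_6_ok) (M (nat_lit 364) (B (L (nat_lit 332) ln12_10_5 ln12_10_5_ok) (L (nat_lit 460) ln12_11_5 ln12_11_5_ok))))) (B (M (nat_lit 523) (B (M (nat_lit 555) (B (L (nat_lit 460) ln11_17_6 ln11_17_6_ok) (M (nat_lit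 554) (B (L (nat_lit 522) ln11_13_5 ln11_13_5_ok) (L (nat_lit 586) ln11_14_5 ln11_14_5_ok))))) (B (M (nat_lit 555) (B (M (nat_lit 554) (B (L (nat_lit 522) ln11_13_5 ln11_13_5_ok) (L (nat_lit 586) ln11_14_5 ln11_14_5_ok))) (M (nat_lit 556) (B (L (nat_lit 524) ln11_13_4 ln11_13_4_ok) (L (nat_lit 588) ln11_14_4 ln11_14_4_ok))))) (B (M (nat_lit 555) (B (L (nat_lit 460) ln11_17_6 ln11_17_6_ok) (M (nat_lit 556) (B (L (nat_lit 524) ln11_13_4 ln11_13_4_ok) (L (nat_lit 588) ln11_14_4 ln11_14_4_ok))))) (M (nat_lit 524) (B (L (nat_lit 556) ln11_13_4 ln11_13_4_ok) (M (nat_lit 492) (B (L (nat_lit 395) ln11_12_4 ln11_12_4_ok) (L (nat_lit 460) ln12_16_6 ln12_16_6_ok))))))))) (B (M (nat_lit 396) (B (L (nat_lit 523) ln11_16_6 ln11_16_6_ok) (M (nat_lit 364) (B (L (nat_lit 332) ln12_10_5 ln12_10_5_ok) (L (nat_lit 395) ln11_15_6 ln11_15_6_ok))))) (M (nat_lit 395) (B (M (nat_lit 396) (B (L (nat_lit 364) ln11_15_6 ln11_15_6_ok)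 (M (nat_lit 394) (B (L (nat_lit 362) ln11_15_7 ln11_15_7_ok) (L (nat_lit 393) ln9_12_0 ln9_12_0_ok))))) (B (M (nat_lit 363) (B (M (nat_lit 364) (B (L (nat_lit 332) ln11_14_6 ln11_14_6_ok) (L (nat_lit 396) ln11_15_6 ln11_15_6_ok))) (M (nat_lit 490) (B (L (nat_lit 458) ln11_11_5 ln11_11_5_ok) (L (nat_lit 522) ln11_12_5 ln11_12_5_ok))))) (M (nat_lit 363) (B (M (nat_lit 362) (B (L (nat_lit 330) ln11_14_7 ln11_14_7_ok) (L (nat_lit 394) ln11_15_7 ln11_15_7_ok))) (M (nat_lit 490) (B (L (nat_lit 458) ln11_11_5 ln11_11_5_ok) (L (nat_lit 522) ln11_12_5 ln11_12_5_ok)))))))))))))) (B (M (nat_lit 395) (B (M (nat_lit 430) (B (L (nat_lit 394) ln14_13_3 ln14_13_3_ok) (M (nat_lit 431) (B (L (nat_lit 396) ln15_13_3 ln15_13_3_ok) (L (nat_lit 460) ln15_13_1 ln15_13_1_ok))))) (B (M (nat_lit 491) (B (M (nat_lit 396) (B (L (nat_lit 364) ln11_15_6 ln11_15_6_ok) (L (nat_lit 523) ln11_16_6 ln11_16_6_ok))) (B (M (nat_lit 524)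 (B (L (nat_lit 492) ln11_12_4 ln11_12_4_ok) (M (nat_lit 523) (B (L (nat_lit 396) ln11_16_6 ln11_16_6_ok) (L (nat_lit 556) ln11_13_4 ln11_13_4_ok))))) (B (M (nat_lit 524) (B (L (nat_lit 492) ln11_12_4 ln11_12_4_ok) (M (nat_lit 523) (B (L (nat_lit 556) ln11_13_4 ln11_13_4_ok) (M (nat_lit 522) (B (L (nat_lit 490) ln11_12_5 ln11_12_5_ok) (L (nat_lit 554) ln11_13_5 ln11_13_5_ok))))))) (M (nat_lit 363) (B (M (nat_lit 364) (B (L (nat_lit 332) ln11_14_6 ln11_14_6_ok) (L (nat_lit 396) ln11_15_6 ln11_15_6_ok))) (M (nat_lit 492) (B (L (nat_lit 460) ln11_11_4 ln11_11_4_ok) (L (nat_lit 524) ln11_12_4 ln11_12_4_ok))))))))) (B (M (nat_lit 460) (B (M (nat_lit 492) (B (L (nat_lit 363) ln11_11_4 ln11_11_4_ok) (L (nat_lit 524) ln12_16_7 ln12_16_7_ok))) (M (nat_lit 430) (B (L (nat_lit 394) ln14_13_3 ln14_13_3_ok) (L (nat_lit 431) ln15_13_1 ln15_13_1_ok))))) (M (nat_lit 396) (B (M (nat_lit 364) (B (L (nat_lit 332) ln12_10_5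 ln12_10_5_ok) (L (nat_lit 491) ln11_15_6 ln11_15_6_ok))) (M (nat_lit 430) (B (L (nat_lit 394) ln10_12_0 ln10_12_0_ok) (L (nat_lit 431) ln15_13_3 ln15_13_3_ok))))))))) (M (nat_lit 430) (B (L (nat_lit 458) ln14_13_1 ln14_13_1_ok) (M (nat_lit 431) (B (M (nat_lit 395) (B (L (nat_lit 394) ln14_13_3 ln14_13_3_ok) (L (nat_lit 396) ln15_13_3 ln15_13_3_ok))) (M (nat_lit 399) (B (L (nat_lit 398) ln11_13_2 ln11_13_2_ok) (L (nat_lit 400) ln12_13_2 ln12_13_2_ok)))))))))))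
theorem c11_s12369 : Sem (nat_lit 2079502270913392379444674211814302674077704290823075655481512624564798400421800170032085953906810352733060637150540575368324055040) (nat_lit 1266331655955072354700736160286218874899644252968860139694162967507453244304049461417712714762972227984853617026311383440862550568834795279417043438338998689500364013929179906048) (nat_lit 1266331655955072354700736160286218874899644252968860139694162967507453244304049461417712714762972227984853617026311383440862550568834795279417043438338998689500364013929179906048) :=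
  sem_of_chk (M (nat_lit 427) (B (M (nat_lit 398) (B (L (nat_lit 426) ln10_13_2 ln10_13_2_ok) (M (nat_lit 399) (B (L (nat_lit 396) ln15_12_1 ln15_12_1_ok) (L (nat_lit 400) ln16_12_1 ln16_12_1_ok))))) (B (M (nat_lit 398) (B (L (nat_lit 426) ln10_13_2 ln10_13_2_ok) (M (nat_lit 399) (B (L (nat_lit 400) ln16_12_1 ln16_12_1_ok) (L (nat_lit 430) ln11_13_2 ln11_13_2_ok))))) (B (M (nat_lit 426) (B (M (nat_lit 393) (B (L (nat_lit 394) ln13_13_3 ln13_13_3_ok) (M (nat_lit 425) (B (L (nat_lit 392) ln12_13_3 ln12_13_3_ok) (L (nat_lit 396) ln9_13_2 ln9_13_2_ok))))) (B (M (nat_lit 425) (B (L (nat_lit 396) ln9_13_2 ln9_13_2_ok) (M (nat_lit 457) (B (L (nat_lit 456) ln12_13_1 ln12_13_1_ok) (L (nat_lit 458) ln13_13_1 ln13_13_1_ok))))) (M (nat_lit 430) (B (M (nat_lit 394) (B (L (nat_lit 393) ln13_13_3 ln13_13_3_ok) (L (nat_lit 395) ln14_13_3 ln14_13_3_ok))) (M (nat_lit 458) (B (L (nat_lit 457) ln13_13_1 ln13_13_1_ok)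 (L (nat_lit 459) ln14_13_1 ln14_13_1_ok)))))))) c11_n12368)))) (nat_lit 2079502270913392379444674211814302674077704290823075655481512624564798400421800170032085953906810352733060637150540575368324055040) (nat_lit 1266331655955072354700736160286218874899644252968860139694162967507453244304049461417712714762972227984853617026311383440862550568834795279417043438338998689500364013929179906048) (nat_lit 1266331655955072354700736160286218874899644252968860139694162967507453244304049461417712714762972227984853617026311383440862550568834795279417043438338998689500364013929179906048) (by decide +kernel)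
noncomputable def c11_n12453 : Cert := (M (nat_lit 395) (B (M (nat_lit 430) (B (L (nat_lit 394) ln14_13_3 ln14_13_3_ok) (M (nat_lit 431) (B (L (nat_lit 396) ln11_12_0 ln11_12_0_ok) (M (nat_lit 459) (B (L (nat_lit 458) ln14_13_1 ln14_13_1_ok) (L (nat_lit 460) ln15_13_1 ln15_13_1_ok))))))) (B (M (nat_lit 459) (B (M (nat_lit 430) (B (L (nat_lit 458) ln14_13_1 ln14_13_1_ok) (M (nat_lit 431) (B (L (nat_lit 396) ln11_12_0 ln11_12_0_ok) (L (nat_lit 460) ln15_13_1 ln15_13_1_ok))))) (B (M (nat_lit 460) (B (M (nat_lit 363) (B (L (nat_lit 331) ln11_10_4 ln11_10_4_ok) (L (nat_lit 492) ln11_11_4 ln11_11_4_ok))) (M (nat_lit 458) (B (L (nat_lit 430) ln14_13_1 ln14_13_1_ok) (L (nat_lit 457) ln9_14_2 ln9_14_2_ok))))) (B (M (nat_lit 460) (B (M (nat_lit 363) (B (L (nat_lit 331) ln11_10_4 ln11_10_4_ok) (L (nat_lit 492) ln11_11_4 ln11_11_4_ok))) (B (M (nat_lit 492) (B (L (nat_lit 363) ln11_11_4 ln11_11_4_ok) (L (nat_lit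 524) ln12_16_7 ln12_16_7_ok))) (B (M (nat_lit 492) (B (L (nat_lit 524) ln12_16_7 ln12_16_7_ok) (M (nat_lit 365) (B (L (nat_lit 333) ln13_10_5 ln13_10_5_ok) (L (nat_lit 461) ln13_11_5 ln13_11_5_ok))))) (M (nat_lit 363) (B (L (nat_lit 331) ln11_10_4 ln11_10_4_ok) (M (nat_lit 458) (B (L (nat_lit 490) ln11_11_5 ln11_11_5_ok) (L (nat_lit 457) ln9_14_2 ln9_14_2_ok))))))))) (B (M (nat_lit 492) (B (M (nat_lit 460) (B (L (nat_lit 363) ln11_11_4 ln11_11_4_ok) (L (nat_lit 524) ln12_16_7 ln12_16_7_ok))) (B (M (nat_lit 524) (B (L (nat_lit 460) ln12_16_7 ln12_16_7_ok) (L (nat_lit 491) ln11_12_4 ln11_12_4_ok))) (B (M (nat_lit 491) (B (L (nat_lit 524) ln11_12_4 ln11_12_4_ok) (M (nat_lit 396) (B (L (nat_lit 364) ln11_15_6 ln11_15_6_ok) (L (nat_lit 523) ln11_16_6 ln11_16_6_ok))))) (M (nat_lit 460) (B (L (nat_lit 363) ln11_11_4 ln11_11_4_ok) (M (nat_lit 365) (B (L (nat_lit 333) ln13_10_5 ln13_10_5_ok) (L (nat_lit 461)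 ln13_11_5 ln13_11_5_ok))))))))) (M (nat_lit 396) (B (M (nat_lit 364) (B (L (nat_lit 332) ln12_10_5 ln12_10_5_ok) (L (nat_lit 491) ln11_15_6 ln11_15_6_ok))) (M (nat_lit 430) (B (L (nat_lit 431) ln11_12_0 ln11_12_0_ok) (L (nat_lit 458) ln14_13_1 ln14_13_1_ok)))))))))) (B (M (nat_lit 460) (B (M (nat_lit 492) (B (L (nat_lit 524) ln12_16_7 ln12_16_7_ok) (M (nat_lit 365) (B (L (nat_lit 333) ln13_10_5 ln13_10_5_ok) (L (nat_lit 461) ln13_11_5 ln13_11_5_ok))))) (M (nat_lit 430) (B (L (nat_lit 394) ln14_13_3 ln14_13_3_ok) (M (nat_lit 459) (B (L (nat_lit 458) ln14_13_1 ln14_13_1_ok) (L (nat_lit 431) ln15_13_1 ln15_13_1_ok))))))) (B (M (nat_lit 363) (B (M (nat_lit 460) (B (L (nat_lit 331) ln11_10_4 ln11_10_4_ok) (M (nat_lit 492) (B (L (nat_lit 396) ln12_15_7 ln12_15_7_ok) (L (nat_lit 459) ln11_11_4 ln11_11_4_ok))))) (B (M (nat_lit 459) (B (M (nat_lit 460) (B (L (nat_lit 492) ln11_11_4 ln11_11_4_ok) (M (nat_lit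 458) (B (L (nat_lit 490) ln11_11_5 ln11_11_5_ok) (L (nat_lit 457) ln9_14_2 ln9_14_2_ok))))) (B (M (nat_lit 491) (B (M (nat_lit 364) (B (L (nat_lit 332) ln11_14_6 ln11_14_6_ok) (L (nat_lit 396) ln11_15_6 ln11_15_6_ok))) (M (nat_lit 492) (B (L (nat_lit 460) ln11_11_4 ln11_11_4_ok) (L (nat_lit 524) ln11_12_4 ln11_12_4_ok))))) (M (nat_lit 491) (B (M (nat_lit 364) (B (L (nat_lit 332) ln11_14_6 ln11_14_6_ok) (L (nat_lit 396) ln11_15_6 ln11_15_6_ok))) (M (nat_lit 490) (B (L (nat_lit 458) ln11_11_5 ln11_11_5_ok) (L (nat_lit 522) ln11_12_5 ln11_12_5_ok)))))))) (B (M (nat_lit 460) (B (L (nat_lit 331) ln11_10_4 ln11_10_4_ok) (M (nat_lit 492) (B (L (nat_lit 459) ln11_11_4 ln11_11_4_ok) (L (nat_lit 524) ln12_16_7 ln12_16_7_ok))))) (B (M (nat_lit 460) (B (L (nat_lit 331) ln11_10_4 ln11_10_4_ok) (M (nat_lit 492) (B (L (nat_lit 396) ln12_15_7 ln12_15_7_ok) (L (nat_lit 524) ln12_16_7 ln12_16_7_ok))))) (M (nat_lit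 396) (B (M (nat_lit 366) (B (L (nat_lit 367) ln11_12_2 ln11_12_2_ok) (M (nat_lit 394) (B (L (nat_lit 365) ln10_12_2 ln10_12_2_ok) (L (nat_lit 393) ln9_12_0 ln9_12_0_ok))))) (M (nat_lit 332) (B (M (nat_lit 331) (B (L (nat_lit 299) ln11_9_4 ln11_9_4_ok) (L (nat_lit 300) ln11_13_6 ln11_13_6_ok))) (B (M (nat_lit 300) (B (L (nat_lit 331) ln11_13_6 ln11_13_6_ok) (L (nat_lit 364) ln12_9_5 ln12_9_5_ok))) (M (nat_lit 364) (B (L (nat_lit 459) ln11_14_6 ln11_14_6_ok) (L (nat_lit 461) ln12_10_4 ln12_10_4_ok))))))))))))) (M (nat_lit 394) (B (L (nat_lit 430) ln14_13_3 ln14_13_3_ok) (M (nat_lit 396) (B (L (nat_lit 393) ln9_12_0 ln9_12_0_ok) (M (nat_lit 366) (B (L (nat_lit 365) ln10_12_2 ln10_12_2_ok) (L (nat_lit 367) ln11_12_2 ln11_12_2_ok))))))))))))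
noncomputable def c11_n12454 : Cert := (M (nat_lit 398) (B (M (nat_lit 399) (B (L (nat_lit 396) ln15_12_1 ln15_12_1_ok) (L (nat_lit 400) ln16_12_1 ln16_12_1_ok))) (B (M (nat_lit 399) (B (L (nat_lit 400) ln16_12_1 ln16_12_1_ok) (L (nat_lit 430) ln11_13_2 ln11_13_2_ok))) c11_n12453)))
theorem c11_s12455 : Sem (nat_lit 2079502270913392379444674211814302674077704290823075655481512624564798400421800170032085953906810352733060637150540575368324055040) (nat_lit 96107167264205229630134098456046872498492009092907100182896117337463758574891203178691020095066225255957143272974389344917807152258271063051707405614807252992) (nat_lit 96107167264205229630134098456046872498492009092907100182896117337463758574891203178691020095066225255957143272974389344917807152258271063051707405614807252992) :=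
  sem_of_chk (M (nat_lit 427) (B (M (nat_lit 398) (B (L (nat_lit 426) ln10_13_2 ln10_13_2_ok) (M (nat_lit 399) (B (L (nat_lit 396) ln15_12_1 ln15_12_1_ok) (L (nat_lit 400) ln16_12_1 ln16_12_1_ok))))) (B (M (nat_lit 398) (B (L (nat_lit 426) ln10_13_2 ln10_13_2_ok) (M (nat_lit 399) (B (L (nat_lit 400) ln16_12_1 ln16_12_1_ok) (L (nat_lit 430) ln11_13_2 ln11_13_2_ok))))) (B (M (nat_lit 426) (B (M (nat_lit 393) (B (L (nat_lit 394) ln13_13_3 ln13_13_3_ok) (M (nat_lit 425) (B (L (nat_lit 392) ln12_13_3 ln12_13_3_ok) (L (nat_lit 396) ln9_13_2 ln9_13_2_ok))))) (B (M (nat_lit 425) (B (L (nat_lit 396) ln9_13_2 ln9_13_2_ok) (M (nat_lit 457) (B (L (nat_lit 456) ln12_13_1 ln12_13_1_ok) (L (nat_lit 458) ln13_13_1 ln13_13_1_ok))))) (M (nat_lit 430) (B (M (nat_lit 394) (B (L (nat_lit 393) ln13_13_3 ln13_13_3_ok) (L (nat_lit 395) ln14_13_3 ln14_13_3_ok))) (M (nat_lit 458) (B (L (nat_lit 457) ln13_13_1 ln13_13_1_ok)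 (L (nat_lit 459) ln14_13_1 ln14_13_1_ok)))))))) c11_n12454)))) (nat_lit 2079502270913392379444674211814302674077704290823075655481512624564798400421800170032085953906810352733060637150540575368324055040) (nat_lit 96107167264205229630134098456046872498492009092907100182896117337463758574891203178691020095066225255957143272974389344917807152258271063051707405614807252992) (nat_lit 96107167264205229630134098456046872498492009092907100182896117337463758574891203178691020095066225255957143272974389344917807152258271063051707405614807252992) (by decide +kernel)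
noncomputable def c11_n12578 : Cert := (M (nat_lit 491) (B (M (nat_lit 396) (B (L (nat_lit 523) ln11_16_6 ln11_16_6_ok) (M (nat_lit 364) (B (L (nat_lit 332) ln12_10_5 ln12_10_5_ok) (L (nat_lit 460) ln12_11_5 ln12_11_5_ok))))) (B (M (nat_lit 396) (B (L (nat_lit 523) ln11_16_6 ln11_16_6_ok) (M (nat_lit 364) (B (L (nat_lit 395) ln11_15_6 ln11_15_6_ok) (L (nat_lit 460) ln12_11_5 ln12_11_5_ok))))) (B (M (nat_lit 524) (B (M (nat_lit 492) (B (L (nat_lit 395) ln11_12_4 ln11_12_4_ok) (L (nat_lit 460) ln12_16_6 ln12_16_6_ok))) (M (nat_lit 523) (B (L (nat_lit 396) ln11_16_6 ln11_16_6_ok) (L (nat_lit 556) ln11_13_4 ln11_13_4_ok))))) (B (M (nat_lit 395) (B (M (nat_lit 394) (B (L (nat_lit 362) ln11_15_7 ln11_15_7_ok) (L (nat_lit 430) ln14_13_3 ln14_13_3_ok))) (M (nat_lit 524) (B (L (nat_lit 492) ln11_12_4 ln11_12_4_ok) (M (nat_lit 523) (B (L (nat_lit 556) ln11_13_4 ln11_13_4_ok) (M (nat_lit 522) (B (L (nat_lit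 490) ln11_12_5 ln11_12_5_ok) (L (nat_lit 554) ln11_13_5 ln11_13_5_ok))))))))) (M (nat_lit 461) (B (M (nat_lit 396) (B (M (nat_lit 364) (B (L (nat_lit 332) ln12_10_5 ln12_10_5_ok) (L (nat_lit 395) ln11_15_6 ln11_15_6_ok))) (B (M (nat_lit 364) (B (L (nat_lit 395) ln11_15_6 ln11_15_6_ok) (L (nat_lit 493) ln13_15_7 ln13_15_7_ok))) (M (nat_lit 398) (B (L (nat_lit 399) ln15_12_1 ln15_12_1_ok) (M (nat_lit 493) (B (L (nat_lit 366) ln13_15_6 ln13_15_6_ok) (L (nat_lit 525) ln13_16_7 ln13_16_7_ok)))))))) (B (M (nat_lit 493) (B (M (nat_lit 396) (B (L (nat_lit 364) ln13_15_7 ln13_15_7_ok) (L (nat_lit 525) ln13_16_7 ln13_16_7_ok))) (B (M (nat_lit 398) (B (L (nat_lit 366) ln13_15_6 ln13_15_6_ok) (M (nat_lit 396) (B (L (nat_lit 399) ln15_12_1 ln15_12_1_ok) (L (nat_lit 525) ln13_16_7 ln13_16_7_ok))))) (M (nat_lit 398) (B (L (nat_lit 366) ln13_15_6 ln13_15_6_ok) (M (nat_lit 399) (B (L (nat_lit 400) ln16_12_1 ln16_12_1_ok)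 (L (nat_lit 430) ln11_13_2 ln11_13_2_ok)))))))) (B (M (nat_lit 493) (B (M (nat_lit 524) (B (L (nat_lit 492) ln13_12_5 ln13_12_5_ok) (M (nat_lit 525) (B (L (nat_lit 396) ln13_16_7 ln13_16_7_ok) (L (nat_lit 556) ln13_13_5 ln13_13_5_ok))))) (M (nat_lit 398) (B (L (nat_lit 366) ln13_15_6 ln13_15_6_ok) (M (nat_lit 399) (B (L (nat_lit 400) ln16_12_1 ln16_12_1_ok) (L (nat_lit 430) ln11_13_2 ln11_13_2_ok))))))) (B (M (nat_lit 364) (B (M (nat_lit 332) (B (L (nat_lit 365) ln13_14_7 ln13_14_7_ok) (L (nat_lit 396) ln12_10_5 ln12_10_5_ok))) (B (M (nat_lit 396) (B (L (nat_lit 493) ln13_15_7 ln13_15_7_ok) (L (nat_lit 460) ln12_11_5 ln12_11_5_ok))) (M (nat_lit 492) (B (M (nat_lit 365) (B (L (nat_lit 332) ln13_14_7 ln13_14_7_ok) (L (nat_lit 460) ln13_11_5 ln13_11_5_ok))) (B (M (nat_lit 460) (B (L (nat_lit 365) ln13_11_5 ln13_11_5_ok) (L (nat_lit 524) ln12_16_6 ln12_16_6_ok))) (B (M (nat_lit 524) (B (L (nat_lit 395)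 ln11_12_4 ln11_12_4_ok) (L (nat_lit 460) ln12_16_6 ln12_16_6_ok))) (M (nat_lit 524) (B (L (nat_lit 395) ln11_12_4 ln11_12_4_ok) (L (nat_lit 493) ln13_12_5 ln13_12_5_ok)))))))))) (B (M (nat_lit 493) (B (M (nat_lit 398) (B (L (nat_lit 366) ln13_15_6 ln13_15_6_ok) (M (nat_lit 399) (B (L (nat_lit 400) ln16_12_1 ln16_12_1_ok) (L (nat_lit 430) ln11_13_2 ln11_13_2_ok))))) (M (nat_lit 525) (B (M (nat_lit 524) (B (L (nat_lit 492) ln13_12_5 ln13_12_5_ok) (L (nat_lit 556) ln13_13_5 ln13_13_5_ok))) (M (nat_lit 526) (B (L (nat_lit 494) ln13_12_4 ln13_12_4_ok) (L (nat_lit 558) ln13_13_4 ln13_13_4_ok))))))) (M (nat_lit 492) (B (M (nat_lit 460) (B (L (nat_lit 365) ln13_11_5 ln13_11_5_ok) (L (nat_lit 524) ln12_16_6 ln12_16_6_ok))) (B (M (nat_lit 524) (B (L (nat_lit 395) ln11_12_4 ln11_12_4_ok) (L (nat_lit 460) ln12_16_6 ln12_16_6_ok))) (B (M (nat_lit 395) (B (L (nat_lit 524) ln11_12_4 ln11_12_4_ok) (M (nat_lit 394)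 (B (L (nat_lit 362) ln11_15_7 ln11_15_7_ok) (L (nat_lit 430) ln14_13_3 ln14_13_3_ok))))) (M (nat_lit 364) (B (M (nat_lit 365) (B (L (nat_lit 332) ln13_14_7 ln13_14_7_ok) (L (nat_lit 460) ln13_11_5 ln13_11_5_ok))) (B (M (nat_lit 460) (B (L (nat_lit 396) ln12_11_5 ln12_11_5_ok) (L (nat_lit 365) ln13_11_5 ln13_11_5_ok))) (B (M (nat_lit 396) (B (L (nat_lit 332) ln12_10_5 ln12_10_5_ok) (L (nat_lit 460) ln12_11_5 ln12_11_5_ok))) (M (nat_lit 332) (B (L (nat_lit 365) ln13_14_7 ln13_14_7_ok) (L (nat_lit 396) ln12_10_5 ln12_10_5_ok))))))))))))))))))))))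
theorem c11_s12579 : Sem (nat_lit 2426085982678494236891975984832188137007258925245052727377822572141626063897503372912082754669827799995234538520716021846945824768) (nat_lit 1266331656898562961235631786109596878844362801961254542898393956522353453760467217605922186342920112644253869597331850337796283998749400798113227443053214951210412945812433666048) (nat_lit 1266331656898562961235631786109596878844362801961254542898393956522353453760467217605922186342920112644253869597331850337796283998749400798113227443053214951210412945812433666048) :=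
  sem_of_chk (M (nat_lit 459) (B (M (nat_lit 458) (B (L (nat_lit 430) ln14_13_1 ln14_13_1_ok) (M (nat_lit 457) (B (L (nat_lit 456) ln8_14_2 ln8_14_2_ok) (L (nat_lit 460) ln9_14_2 ln9_14_2_ok))))) (B (M (nat_lit 491) (B (M (nat_lit 396) (B (L (nat_lit 523) ln11_16_6 ln11_16_6_ok) (M (nat_lit 364) (B (L (nat_lit 332) ln12_10_5 ln12_10_5_ok) (L (nat_lit 395) ln11_15_6 ln11_15_6_ok))))) (B (M (nat_lit 396) (B (L (nat_lit 523) ln11_16_6 ln11_16_6_ok) (M (nat_lit 364) (B (L (nat_lit 395) ln11_15_6 ln11_15_6_ok) (L (nat_lit 460) ln12_11_5 ln12_11_5_ok))))) (B (M (nat_lit 524) (B (M (nat_lit 492) (B (L (nat_lit 395) ln11_12_4 ln11_12_4_ok) (L (nat_lit 460) ln12_16_6 ln12_16_6_ok))) (M (nat_lit 523) (B (L (nat_lit 396) ln11_16_6 ln11_16_6_ok) (L (nat_lit 556) ln11_13_4 ln11_13_4_ok))))) (B (M (nat_lit 396) (B (L (nat_lit 523) ln11_16_6 ln11_16_6_ok) (M (nat_lit 364) (B (L (nat_lit 332) ln12_10_5 ln12_10_5_ok)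 (L (nat_lit 460) ln12_11_5 ln12_11_5_ok))))) (B (M (nat_lit 523) (B (M (nat_lit 555) (B (L (nat_lit 460) ln11_17_6 ln11_17_6_ok) (M (nat_lit 554) (B (L (nat_lit 522) ln11_13_5 ln11_13_5_ok) (L (nat_lit 586) ln11_14_5 ln11_14_5_ok))))) (B (M (nat_lit 555) (B (M (nat_lit 554) (B (L (nat_lit 522) ln11_13_5 ln11_13_5_ok) (L (nat_lit 586) ln11_14_5 ln11_14_5_ok))) (M (nat_lit 556) (B (L (nat_lit 524) ln11_13_4 ln11_13_4_ok) (L (nat_lit 588) ln11_14_4 ln11_14_4_ok))))) (B (M (nat_lit 555) (B (L (nat_lit 460) ln11_17_6 ln11_17_6_ok) (M (nat_lit 556) (B (L (nat_lit 524) ln11_13_4 ln11_13_4_ok) (L (nat_lit 588) ln11_14_4 ln11_14_4_ok))))) (M (nat_lit 524) (B (L (nat_lit 556) ln11_13_4 ln11_13_4_ok) (M (nat_lit 492) (B (L (nat_lit 395) ln11_12_4 ln11_12_4_ok) (L (nat_lit 460) ln12_16_6 ln12_16_6_ok))))))))) (M (nat_lit 492) (B (M (nat_lit 524) (B (L (nat_lit 395) ln11_12_4 ln11_12_4_ok) (L (nat_lit 460) ln12_16_6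 ln12_16_6_ok))) (B (M (nat_lit 460) (B (L (nat_lit 524) ln12_16_6 ln12_16_6_ok) (M (nat_lit 365) (B (L (nat_lit 333) ln13_10_5 ln13_10_5_ok) (L (nat_lit 461) ln13_11_5 ln13_11_5_ok))))) (B (M (nat_lit 395) (B (L (nat_lit 524) ln11_12_4 ln11_12_4_ok) (M (nat_lit 394) (B (L (nat_lit 362) ln11_15_7 ln11_15_7_ok) (M (nat_lit 393) (B (L (nat_lit 392) ln8_12_0 ln8_12_0_ok) (L (nat_lit 396) ln9_12_0 ln9_12_0_ok))))))) (M (nat_lit 460) (B (M (nat_lit 365) (B (L (nat_lit 333) ln13_10_5 ln13_10_5_ok) (L (nat_lit 396) ln12_15_6 ln12_15_6_ok))) (B (M (nat_lit 396) (B (L (nat_lit 364) ln12_11_5 ln12_11_5_ok) (L (nat_lit 365) ln12_15_6 ln12_15_6_ok))) (B (M (nat_lit 493) (B (M (nat_lit 396) (B (L (nat_lit 364) ln12_11_5 ln12_11_5_ok) (L (nat_lit 525) ln12_12_4 ln12_12_4_ok))) (M (nat_lit 458) (B (L (nat_lit 457) ln9_14_2 ln9_14_2_ok) (L (nat_lit 494) ln14_15_3 ln14_15_3_ok))))) (M (nat_lit 365) (B (L (nat_lit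 333) ln13_10_5 ln13_10_5_ok) (L (nat_lit 461) ln13_11_5 ln13_11_5_ok))))))))))))))))) (B (M (nat_lit 430) (B (L (nat_lit 458) ln14_13_1 ln14_13_1_ok) (M (nat_lit 431) (B (L (nat_lit 460) ln15_13_1 ln15_13_1_ok) (M (nat_lit 399) (B (L (nat_lit 398) ln11_13_2 ln11_13_2_ok) (L (nat_lit 400) ln12_13_2 ln12_13_2_ok))))))) (B c11_n12578 (M (nat_lit 430) (B (L (nat_lit 458) ln14_13_1 ln14_13_1_ok) (M (nat_lit 431) (B (M (nat_lit 395) (B (L (nat_lit 394) ln14_13_3 ln14_13_3_ok) (L (nat_lit 396) ln15_13_3 ln15_13_3_ok))) (M (nat_lit 399) (B (L (nat_lit 398) ln11_13_2 ln11_13_2_ok) (L (nat_lit 400) ln12_13_2 ln12_13_2_ok)))))))))))) (nat_lit 2426085982678494236891975984832188137007258925245052727377822572141626063897503372912082754669827799995234538520716021846945824768) (nat_lit 1266331656898562961235631786109596878844362801961254542898393956522353453760467217605922186342920112644253869597331850337796283998749400798113227443053214951210412945812433666048)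 (nat_lit 1266331656898562961235631786109596878844362801961254542898393956522353453760467217605922186342920112644253869597331850337796283998749400798113227443053214951210412945812433666048) (by decide +kernel)
theorem c11_s12676 : Sem (nat_lit 2079502270913392379444674211814302674077704290823075655481512624564798400421800170032085953906810352733060637150540575368324055040) (nat_lit 54918381300224900824533046903204082264994231308031359570915678348882751365902870793412175868439491748903257006467114459726987341856900710589697199607711268864) (nat_lit 54918381300224900824533046903204082264994231308031359570915678348882751365902870793412175868439491748903257006467114459726987341856900710589697199607711268864) :=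
  sem_of_chk (M (nat_lit 396) (B (M (nat_lit 460) (B (M (nat_lit 492) (B (L (nat_lit 365) ln12_15_6 ln12_15_6_ok) (L (nat_lit 524) ln12_16_6 ln12_16_6_ok))) (M (nat_lit 427) (B (M (nat_lit 426) (B (L (nat_lit 425) ln9_13_2 ln9_13_2_ok) (L (nat_lit 398) ln10_13_2 ln10_13_2_ok))) (M (nat_lit 459) (B (M (nat_lit 364) (B (L (nat_lit 332) ln12_10_5 ln12_10_5_ok) (L (nat_lit 491) ln12_11_5 ln12_11_5_ok))) (M (nat_lit 430) (B (L (nat_lit 458) ln14_13_1 ln14_13_1_ok) (L (nat_lit 431) ln15_13_1 ln15_13_1_ok))))))))) (B (M (nat_lit 395) (B (M (nat_lit 394) (B (L (nat_lit 393) ln9_12_0 ln9_12_0_ok) (L (nat_lit 430) ln10_12_0 ln10_12_0_ok))) (B (M (nat_lit 430) (B (L (nat_lit 394) ln10_12_0 ln10_12_0_ok) (L (nat_lit 431) ln15_13_3 ln15_13_3_ok))) (M (nat_lit 363) (B (M (nat_lit 331) (B (L (nat_lit 299) ln11_9_4 ln11_9_4_ok) (M (nat_lit 460) (B (L (nat_lit 364) ln12_14_7 ln12_14_7_ok) (L (nat_lit 492) ln12_15_7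 ln12_15_7_ok))))) (B (M (nat_lit 398) (B (L (nat_lit 362) ln14_12_3 ln14_12_3_ok) (M (nat_lit 399) (B (L (nat_lit 364) ln15_12_3 ln15_12_3_ok) (L (nat_lit 427) ln15_12_1 ln15_12_1_ok))))) (M (nat_lit 331) (B (L (nat_lit 299) ln11_9_4 ln11_9_4_ok) (M (nat_lit 460) (B (L (nat_lit 427) ln11_10_4 ln11_10_4_ok) (L (nat_lit 492) ln12_15_7 ln12_15_7_ok))))))))))) (B (M (nat_lit 427) (B (M (nat_lit 398) (B (L (nat_lit 399) ln15_12_1 ln15_12_1_ok) (L (nat_lit 426) ln10_13_2 ln10_13_2_ok))) (B (M (nat_lit 426) (B (L (nat_lit 425) ln9_13_2 ln9_13_2_ok) (M (nat_lit 430) (B (M (nat_lit 394) (B (L (nat_lit 393) ln13_13_3 ln13_13_3_ok) (L (nat_lit 395) ln10_12_0 ln10_12_0_ok))) (M (nat_lit 458) (B (L (nat_lit 457) ln13_13_1 ln13_13_1_ok) (L (nat_lit 459) ln14_13_1 ln14_13_1_ok))))))) (M (nat_lit 395) (B (M (nat_lit 394) (B (L (nat_lit 393) ln9_12_0 ln9_12_0_ok) (L (nat_lit 430) ln10_12_0 ln10_12_0_ok))) (M (nat_lit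 363) (B (M (nat_lit 331) (B (L (nat_lit 299) ln11_9_4 ln11_9_4_ok) (L (nat_lit 460) ln11_10_4 ln11_10_4_ok))) (M (nat_lit 398) (B (L (nat_lit 362) ln14_12_3 ln14_12_3_ok) (L (nat_lit 399) ln15_12_1 ln15_12_1_ok)))))))))) (B (M (nat_lit 460) (B (M (nat_lit 492) (B (L (nat_lit 365) ln12_15_6 ln12_15_6_ok) (L (nat_lit 524) ln12_16_6 ln12_16_6_ok))) (M (nat_lit 459) (B (M (nat_lit 364) (B (L (nat_lit 491) ln12_11_5 ln12_11_5_ok) (M (nat_lit 332) (B (L (nat_lit 300) ln12_9_4 ln12_9_4_ok) (L (nat_lit 427) ln12_10_5 ln12_10_5_ok))))) (B (M (nat_lit 364) (B (L (nat_lit 491) ln12_11_5 ln12_11_5_ok) (M (nat_lit 332) (B (L (nat_lit 427) ln12_10_5 ln12_10_5_ok) (L (nat_lit 461) ln12_10_4 ln12_10_4_ok))))) (B (M (nat_lit 430) (B (L (nat_lit 431) ln15_13_1 ln15_13_1_ok) (M (nat_lit 458) (B (L (nat_lit 427) ln14_13_1 ln14_13_1_ok) (L (nat_lit 457) ln9_14_2 ln9_14_2_ok))))) (M (nat_lit 430) (B (L (nat_lit 431) ln15_13_1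 ln15_13_1_ok) (M (nat_lit 458) (B (L (nat_lit 457) ln9_14_2 ln9_14_2_ok) (L (nat_lit 461) ln10_14_2 ln10_14_2_ok))))))))))) (B (M (nat_lit 364) (B (M (nat_lit 332) (B (L (nat_lit 300) ln12_9_4 ln12_9_4_ok) (L (nat_lit 461) ln12_10_4 ln12_10_4_ok))) (M (nat_lit 395) (B (M (nat_lit 394) (B (L (nat_lit 393) ln9_12_0 ln9_12_0_ok) (L (nat_lit 430) ln10_12_0 ln10_12_0_ok))) (M (nat_lit 363) (B (M (nat_lit 331) (B (L (nat_lit 299) ln11_9_4 ln11_9_4_ok) (L (nat_lit 460) ln12_14_7 ln12_14_7_ok))) (M (nat_lit 362) (B (L (nat_lit 361) ln9_11_0 ln9_11_0_ok) (L (nat_lit 398) ln14_12_3 ln14_12_3_ok))))))))) (B (M (nat_lit 365) (B (M (nat_lit 333) (B (L (nat_lit 301) ln13_9_5 ln13_9_5_ok) (L (nat_lit 460) ln13_10_5 ln13_10_5_ok))) (B (M (nat_lit 460) (B (L (nat_lit 333) ln13_10_5 ln13_10_5_ok) (L (nat_lit 492) ln12_15_6 ln12_15_6_ok))) (B (M (nat_lit 364) (B (M (nat_lit 332) (B (L (nat_lit 300) ln12_9_4 ln12_9_4_ok)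 (L (nat_lit 461) ln13_14_7 ln13_14_7_ok))) (M (nat_lit 363) (B (M (nat_lit 460) (B (L (nat_lit 331) ln12_14_7 ln12_14_7_ok) (L (nat_lit 492) ln12_15_6 ln12_15_6_ok))) (M (nat_lit 398) (B (L (nat_lit 362) ln10_11_0 ln10_11_0_ok) (L (nat_lit 399) ln15_12_3 ln15_12_3_ok))))))) (M (nat_lit 332) (B (M (nat_lit 333) (B (L (nat_lit 300) ln13_13_7 ln13_13_7_ok) (L (nat_lit 301) ln13_9_5 ln13_9_5_ok))) (M (nat_lit 427) (B (M (nat_lit 364) (B (L (nat_lit 461) ln13_14_7 ln13_14_7_ok) (L (nat_lit 459) ln12_10_5 ln12_10_5_ok))) (M (nat_lit 398) (B (L (nat_lit 399) ln15_12_1 ln15_12_1_ok) (L (nat_lit 426) ln10_13_2 ln10_13_2_ok))))))))))) (M (nat_lit 395) (B (M (nat_lit 394) (B (L (nat_lit 393) ln9_12_0 ln9_12_0_ok) (L (nat_lit 430) ln10_12_0 ln10_12_0_ok))) (B (M (nat_lit 430) (B (L (nat_lit 394) ln10_12_0 ln10_12_0_ok) (L (nat_lit 431) ln15_13_3 ln15_13_3_ok))) (B (M (nat_lit 427) (B (M (nat_lit 398) (B (L (nat_lit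 426) ln14_12_1 ln14_12_1_ok) (L (nat_lit 399) ln15_12_1 ln15_12_1_ok))) (M (nat_lit 459) (B (M (nat_lit 364) (B (L (nat_lit 332) ln12_10_5 ln12_10_5_ok) (L (nat_lit 491) ln11_15_6 ln11_15_6_ok))) (M (nat_lit 430) (B (L (nat_lit 431) ln15_13_3 ln15_13_3_ok) (L (nat_lit 458) ln14_13_1 ln14_13_1_ok))))))) (M (nat_lit 394) (B (L (nat_lit 393) ln9_12_0 ln9_12_0_ok) (M (nat_lit 398) (B (M (nat_lit 362) (B (L (nat_lit 361) ln13_12_3 ln13_12_3_ok) (L (nat_lit 363) ln14_12_3 ln14_12_3_ok))) (M (nat_lit 426) (B (L (nat_lit 425) ln13_12_1 ln13_12_1_ok) (L (nat_lit 427) ln14_12_1 ln14_12_1_ok)))))))))))))))))) (nat_lit 2079502270913392379444674211814302674077704290823075655481512624564798400421800170032085953906810352733060637150540575368324055040) (nat_lit 54918381300224900824533046903204082264994231308031359570915678348882751365902870793412175868439491748903257006467114459726987341856900710589697199607711268864)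 (nat_lit 54918381300224900824533046903204082264994231308031359570915678348882751365902870793412175868439491748903257006467114459726987341856900710589697199607711268864) (by decide +kernel)
theorem c11_s12704 : Sem (nat_lit 2079502270913392379444674211814302674077704290823075655481512624564798400421800170032085953906810352733060637150540575368324055040) (nat_lit 54918381300224900991252406138323887175845764311547419089834376892658639086131567441020047068831682810168558016526698483462764127488298259721301244951314563072) (nat_lit 54918381300224900991252406138323887175845764311547419089834376892658639086131567441020047068831682810168558016526698483462764127488298259721301244951314563072) :=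
  sem_of_chk (M (nat_lit 427) (B (M (nat_lit 398) (B (L (nat_lit 426) ln10_13_2 ln10_13_2_ok) (M (nat_lit 399) (B (L (nat_lit 396) ln15_12_1 ln15_12_1_ok) (L (nat_lit 400) ln16_12_1 ln16_12_1_ok))))) (B (M (nat_lit 398) (B (L (nat_lit 426) ln10_13_2 ln10_13_2_ok) (M (nat_lit 399) (B (L (nat_lit 400) ln16_12_1 ln16_12_1_ok) (L (nat_lit 430) ln11_13_2 ln11_13_2_ok))))) (B (M (nat_lit 430) (B (M (nat_lit 395) (B (L (nat_lit 394) ln14_13_3 ln14_13_3_ok) (M (nat_lit 459) (B (L (nat_lit 458) ln14_13_1 ln14_13_1_ok) (M (nat_lit 431) (B (L (nat_lit 396) ln15_13_3 ln15_13_3_ok) (L (nat_lit 460) ln15_13_1 ln15_13_1_ok))))))) (B (M (nat_lit 431) (B (M (nat_lit 396) (B (L (nat_lit 395) ln15_13_3 ln15_13_3_ok) (L (nat_lit 432) ln16_13_3 ln16_13_3_ok))) (M (nat_lit 459) (B (L (nat_lit 458) ln14_13_1 ln14_13_1_ok) (L (nat_lit 460) ln15_13_1 ln15_13_1_ok))))) (B (M (nat_lit 460) (B (M (nat_lit 459) (B (L (nat_lit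 458) ln14_13_1 ln14_13_1_ok) (L (nat_lit 431) ln15_13_1 ln15_13_1_ok))) (M (nat_lit 365) (B (L (nat_lit 333) ln13_10_5 ln13_10_5_ok) (M (nat_lit 492) (B (L (nat_lit 396) ln12_15_6 ln12_15_6_ok) (L (nat_lit 524) ln12_16_6 ln12_16_6_ok))))))) (B (M (nat_lit 460) (B (M (nat_lit 459) (B (L (nat_lit 458) ln14_13_1 ln14_13_1_ok) (L (nat_lit 431) ln15_13_1 ln15_13_1_ok))) (M (nat_lit 365) (B (L (nat_lit 333) ln13_10_5 ln13_10_5_ok) (M (nat_lit 492) (B (L (nat_lit 461) ln13_11_5 ln13_11_5_ok) (L (nat_lit 524) ln12_16_6 ln12_16_6_ok))))))) (B (M (nat_lit 460) (B (M (nat_lit 365) (B (L (nat_lit 333) ln13_10_5 ln13_10_5_ok) (M (nat_lit 492) (B (L (nat_lit 396) ln12_15_6 ln12_15_6_ok) (L (nat_lit 524) ln12_16_6 ln12_16_6_ok))))) (B (M (nat_lit 492) (B (L (nat_lit 524) ln12_16_6 ln12_16_6_ok) (M (nat_lit 365) (B (L (nat_lit 396) ln12_15_6 ln12_15_6_ok) (L (nat_lit 461) ln13_11_5 ln13_11_5_ok))))) (B (M (nat_lit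 426) (B (M (nat_lit 425) (B (L (nat_lit 396) ln9_13_2 ln9_13_2_ok) (L (nat_lit 461) ln9_13_0 ln9_13_0_ok))) (M (nat_lit 458) (B (L (nat_lit 457) ln13_13_1 ln13_13_1_ok) (L (nat_lit 459) ln14_13_1 ln14_13_1_ok))))) (M (nat_lit 365) (B (L (nat_lit 333) ln13_10_5 ln13_10_5_ok) (M (nat_lit 492) (B (L (nat_lit 461) ln13_11_5 ln13_11_5_ok) (L (nat_lit 524) ln12_16_6 ln12_16_6_ok))))))))) (M (nat_lit 431) (B (M (nat_lit 395) (B (L (nat_lit 394) ln14_13_3 ln14_13_3_ok) (L (nat_lit 396) ln15_13_3 ln15_13_3_ok))) (B (M (nat_lit 396) (B (L (nat_lit 395) ln15_13_3 ln15_13_3_ok) (L (nat_lit 432) ln16_13_3 ln16_13_3_ok))) (B (M (nat_lit 432) (B (L (nat_lit 396) ln16_13_3 ln16_13_3_ok) (M (nat_lit 400) (B (L (nat_lit 399) ln12_13_2 ln12_13_2_ok) (L (nat_lit 401) ln13_13_2 ln13_13_2_ok))))) (M (nat_lit 432) (B (M (nat_lit 400) (B (L (nat_lit 399) ln12_13_2 ln12_13_2_ok) (L (nat_lit 401) ln13_13_2 ln13_13_2_ok)))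 (M (nat_lit 464) (B (L (nat_lit 463) ln12_13_0 ln12_13_0_ok) (L (nat_lit 465) ln13_13_0 ln13_13_0_ok))))))))))))))) (B (M (nat_lit 460) (B (M (nat_lit 492) (B (L (nat_lit 524) ln12_16_6 ln12_16_6_ok) (M (nat_lit 365) (B (L (nat_lit 333) ln13_10_5 ln13_10_5_ok) (L (nat_lit 461) ln13_11_5 ln13_11_5_ok))))) (B (M (nat_lit 492) (B (L (nat_lit 524) ln12_16_6 ln12_16_6_ok) (M (nat_lit 365) (B (L (nat_lit 396) ln12_15_6 ln12_15_6_ok) (L (nat_lit 461) ln13_11_5 ln13_11_5_ok))))) (B (M (nat_lit 426) (B (L (nat_lit 398) ln10_13_2 ln10_13_2_ok) (M (nat_lit 425) (B (L (nat_lit 396) ln9_13_2 ln9_13_2_ok) (L (nat_lit 461) ln9_13_0 ln9_13_0_ok))))) (M (nat_lit 492) (B (L (nat_lit 524) ln12_16_6 ln12_16_6_ok) (M (nat_lit 365) (B (L (nat_lit 333) ln13_10_5 ln13_10_5_ok) (L (nat_lit 396) ln12_15_6 ln12_15_6_ok))))))))) (M (nat_lit 430) (B (M (nat_lit 395) (B (L (nat_lit 394) ln14_13_3 ln14_13_3_ok) (M (nat_lit 459)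 (B (L (nat_lit 458) ln14_13_1 ln14_13_1_ok) (M (nat_lit 431) (B (L (nat_lit 396) ln15_13_3 ln15_13_3_ok) (L (nat_lit 460) ln15_13_1 ln15_13_1_ok))))))) (B (M (nat_lit 431) (B (M (nat_lit 396) (B (L (nat_lit 395) ln15_13_3 ln15_13_3_ok) (L (nat_lit 432) ln16_13_3 ln16_13_3_ok))) (M (nat_lit 459) (B (L (nat_lit 458) ln14_13_1 ln14_13_1_ok) (L (nat_lit 460) ln15_13_1 ln15_13_1_ok))))) (B (M (nat_lit 431) (B (M (nat_lit 399) (B (L (nat_lit 398) ln11_13_2 ln11_13_2_ok) (L (nat_lit 400) ln12_13_2 ln12_13_2_ok))) (M (nat_lit 459) (B (L (nat_lit 458) ln14_13_1 ln14_13_1_ok) (L (nat_lit 460) ln15_13_1 ln15_13_1_ok))))) (B (M (nat_lit 395) (B (L (nat_lit 394) ln14_13_3 ln14_13_3_ok) (M (nat_lit 396) (B (M (nat_lit 459) (B (L (nat_lit 458) ln14_13_1 ln14_13_1_ok) (M (nat_lit 364) (B (L (nat_lit 332) ln12_10_5 ln12_10_5_ok) (L (nat_lit 491) ln11_15_6 ln11_15_6_ok))))) (M (nat_lit 363) (B (M (nat_lit 331) (B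 (L (nat_lit 299) ln11_9_4 ln11_9_4_ok) (L (nat_lit 460) ln11_10_4 ln11_10_4_ok))) (M (nat_lit 398) (B (L (nat_lit 362) ln14_12_3 ln14_12_3_ok) (L (nat_lit 399) ln15_12_1 ln15_12_1_ok))))))))) (M (nat_lit 431) (B (M (nat_lit 395) (B (L (nat_lit 394) ln14_13_3 ln14_13_3_ok) (L (nat_lit 396) ln15_13_3 ln15_13_3_ok))) (M (nat_lit 399) (B (L (nat_lit 398) ln11_13_2 ln11_13_2_ok) (L (nat_lit 400) ln12_13_2 ln12_13_2_ok))))))))))))))) (nat_lit 2079502270913392379444674211814302674077704290823075655481512624564798400421800170032085953906810352733060637150540575368324055040) (nat_lit 54918381300224900991252406138323887175845764311547419089834376892658639086131567441020047068831682810168558016526698483462764127488298259721301244951314563072) (nat_lit 54918381300224900991252406138323887175845764311547419089834376892658639086131567441020047068831682810168558016526698483462764127488298259721301244951314563072)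 (by decide +kernel)
theorem c11_s12799 : Sem (nat_lit 2079502270913392379444674211814302674077704290823075655481512624564798400421800170032085953906810352733060637150540575368324055040) (nat_lit 117936325981617097111814432736373133762262387927712272091549999076949588375598239084240382189496093111075353540843481188846346603570006723604361360161170380358349225984) (nat_lit 117936325981617097111814432736373133762262387927712272091549999076949588375598239084240382189496093111075353540843481188846346603570006723604361360161170380358349225984) :=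
  sem_of_chk (M (nat_lit 427) (B (M (nat_lit 398) (B (L (nat_lit 426) ln10_13_2 ln10_13_2_ok) (M (nat_lit 399) (B (L (nat_lit 396) ln15_12_1 ln15_12_1_ok) (L (nat_lit 400) ln16_12_1 ln16_12_1_ok))))) (B (M (nat_lit 398) (B (L (nat_lit 426) ln10_13_2 ln10_13_2_ok) (M (nat_lit 399) (B (L (nat_lit 400) ln16_12_1 ln16_12_1_ok) (L (nat_lit 430) ln11_13_2 ln11_13_2_ok))))) (B (M (nat_lit 460) (B (M (nat_lit 492) (B (L (nat_lit 524) ln12_16_6 ln12_16_6_ok) (M (nat_lit 365) (B (L (nat_lit 333) ln13_10_5 ln13_10_5_ok) (L (nat_lit 461) ln13_11_5 ln13_11_5_ok))))) (B (M (nat_lit 492) (B (L (nat_lit 524) ln12_16_6 ln12_16_6_ok) (M (nat_lit 365) (B (L (nat_lit 396) ln12_15_6 ln12_15_6_ok) (L (nat_lit 461) ln13_11_5 ln13_11_5_ok))))) (B (M (nat_lit 492) (B (L (nat_lit 524) ln12_16_6 ln12_16_6_ok) (M (nat_lit 459) (B (M (nat_lit 458) (B (L (nat_lit 430) ln14_13_1 ln14_13_1_ok) (L (nat_lit 457) ln9_14_2 ln9_14_2_ok)))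 (M (nat_lit 491) (B (M (nat_lit 523) (B (L (nat_lit 396) ln11_16_6 ln11_16_6_ok) (L (nat_lit 555) ln11_17_6 ln11_17_6_ok))) (M (nat_lit 490) (B (M (nat_lit 395) (B (L (nat_lit 363) ln11_11_4 ln11_11_4_ok) (L (nat_lit 522) ln11_12_5 ln11_12_5_ok))) (M (nat_lit 489) (B (L (nat_lit 488) ln8_15_2 ln8_15_2_ok) (L (nat_lit 461) ln9_15_2 ln9_15_2_ok))))))))))) (B (M (nat_lit 492) (B (L (nat_lit 524) ln12_16_6 ln12_16_6_ok) (M (nat_lit 365) (B (L (nat_lit 333) ln13_10_5 ln13_10_5_ok) (L (nat_lit 396) ln12_15_6 ln12_15_6_ok))))) (M (nat_lit 458) (B (M (nat_lit 457) (B (L (nat_lit 426) ln13_13_1 ln13_13_1_ok) (L (nat_lit 459) ln9_14_2 ln9_14_2_ok))) (B (M (nat_lit 459) (B (L (nat_lit 430) ln14_13_1 ln14_13_1_ok) (L (nat_lit 457) ln9_14_2 ln9_14_2_ok))) (B (M (nat_lit 459) (B (L (nat_lit 430) ln14_13_1 ln14_13_1_ok) (M (nat_lit 491) (B (M (nat_lit 523) (B (L (nat_lit 396) ln11_16_6 ln11_16_6_ok) (L (nat_lit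 555) ln11_17_6 ln11_17_6_ok))) (M (nat_lit 490) (B (M (nat_lit 395) (B (L (nat_lit 363) ln11_11_5 ln11_11_5_ok) (L (nat_lit 522) ln11_12_5 ln11_12_5_ok))) (M (nat_lit 489) (B (L (nat_lit 461) ln13_14_1 ln13_14_1_ok) (L (nat_lit 488) ln8_15_2 ln8_15_2_ok))))))))) (M (nat_lit 426) (B (L (nat_lit 457) ln13_13_1 ln13_13_1_ok) (M (nat_lit 425) (B (L (nat_lit 396) ln9_13_2 ln9_13_2_ok) (L (nat_lit 461) ln9_13_0 ln9_13_0_ok)))))))))))))) (M (nat_lit 398) (B (M (nat_lit 399) (B (L (nat_lit 396) ln15_12_1 ln15_12_1_ok) (L (nat_lit 400) ln16_12_1 ln16_12_1_ok))) (B (M (nat_lit 399) (B (L (nat_lit 400) ln16_12_1 ln16_12_1_ok) (L (nat_lit 430) ln11_13_2 ln11_13_2_ok))) (M (nat_lit 460) (B (M (nat_lit 492) (B (L (nat_lit 524) ln12_16_6 ln12_16_6_ok) (M (nat_lit 365) (B (L (nat_lit 333) ln13_10_5 ln13_10_5_ok) (L (nat_lit 461) ln13_11_5 ln13_11_5_ok))))) (B (M (nat_lit 492) (B (L (nat_lit 524) ln12_16_6 ln12_16_6_ok)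 (M (nat_lit 365) (B (L (nat_lit 396) ln12_15_6 ln12_15_6_ok) (L (nat_lit 461) ln13_11_5 ln13_11_5_ok))))) (B (M (nat_lit 396) (B (M (nat_lit 492) (B (L (nat_lit 524) ln12_16_6 ln12_16_6_ok) (M (nat_lit 493) (B (L (nat_lit 525) ln12_12_4 ln12_12_4_ok) (M (nat_lit 461) (B (L (nat_lit 364) ln13_15_7 ln13_15_7_ok) (L (nat_lit 366) ln13_15_6 ln13_15_6_ok))))))) (B (M (nat_lit 395) (B (M (nat_lit 363) (B (L (nat_lit 331) ln11_10_4 ln11_10_4_ok) (L (nat_lit 362) ln14_12_3 ln14_12_3_ok))) (B (M (nat_lit 363) (B (L (nat_lit 362) ln14_12_3 ln14_12_3_ok) (L (nat_lit 492) ln12_15_7 ln12_15_7_ok))) (B (M (nat_lit 363) (B (L (nat_lit 331) ln11_10_4 ln11_10_4_ok) (L (nat_lit 492) ln12_15_7 ln12_15_7_ok))) (M (nat_lit 493) (B (M (nat_lit 366) (B (L (nat_lit 367) ln11_12_2 ln11_12_2_ok) (L (nat_lit 461) ln13_15_6 ln13_15_6_ok))) (M (nat_lit 492) (B (L (nat_lit 524) ln12_16_7 ln12_16_7_ok) (L (nat_lit 525) ln12_12_4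 ln12_12_4_ok))))))))) (M (nat_lit 459) (B (M (nat_lit 364) (B (L (nat_lit 332) ln12_10_5 ln12_10_5_ok) (L (nat_lit 491) ln12_11_5 ln12_11_5_ok))) (M (nat_lit 430) (B (L (nat_lit 458) ln14_13_1 ln14_13_1_ok) (L (nat_lit 431) ln15_13_1 ln15_13_1_ok)))))))) (B (M (nat_lit 492) (B (L (nat_lit 524) ln12_16_6 ln12_16_6_ok) (M (nat_lit 365) (B (L (nat_lit 333) ln13_10_5 ln13_10_5_ok) (L (nat_lit 396) ln12_15_6 ln12_15_6_ok))))) (M (nat_lit 364) (B (M (nat_lit 365) (B (L (nat_lit 333) ln13_10_5 ln13_10_5_ok) (M (nat_lit 461) (B (L (nat_lit 332) ln13_14_7 ln13_14_7_ok) (M (nat_lit 493) (B (L (nat_lit 396) ln13_15_7 ln13_15_7_ok) (L (nat_lit 366) ln13_15_6 ln13_15_6_ok))))))) (B (M (nat_lit 363) (B (M (nat_lit 331) (B (L (nat_lit 396) ln12_14_7 ln12_14_7_ok) (L (nat_lit 395) ln11_10_4 ln11_10_4_ok))) (M (nat_lit 365) (B (L (nat_lit 333) ln13_10_5 ln13_10_5_ok) (L (nat_lit 362) ln10_11_0 ln10_11_0_ok))))) (B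 (M (nat_lit 459) (B (M (nat_lit 396) (B (L (nat_lit 332) ln12_10_5 ln12_10_5_ok) (L (nat_lit 491) ln12_11_5 ln12_11_5_ok))) (M (nat_lit 430) (B (L (nat_lit 458) ln14_13_1 ln14_13_1_ok) (L (nat_lit 431) ln15_13_1 ln15_13_1_ok))))) (M (nat_lit 459) (B (M (nat_lit 430) (B (L (nat_lit 458) ln14_13_1 ln14_13_1_ok) (L (nat_lit 431) ln15_13_1 ln15_13_1_ok))) (M (nat_lit 363) (B (M (nat_lit 395) (B (L (nat_lit 331) ln11_10_4 ln11_10_4_ok) (L (nat_lit 332) ln11_14_6 ln11_14_6_ok))) (M (nat_lit 365) (B (L (nat_lit 333) ln13_10_5 ln13_10_5_ok) (L (nat_lit 362) ln10_11_0 ln10_11_0_ok))))))))))))))))))))))) (nat_lit 2079502270913392379444674211814302674077704290823075655481512624564798400421800170032085953906810352733060637150540575368324055040) (nat_lit 117936325981617097111814432736373133762262387927712272091549999076949588375598239084240382189496093111075353540843481188846346603570006723604361360161170380358349225984)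 (nat_lit 117936325981617097111814432736373133762262387927712272091549999076949588375598239084240382189496093111075353540843481188846346603570006723604361360161170380358349225984) (by decide +kernel)
noncomputable def c11_n12909 : Cert := (M (nat_lit 460) (B (M (nat_lit 492) (B (L (nat_lit 524) ln12_16_6 ln12_16_6_ok) (M (nat_lit 365) (B (L (nat_lit 333) ln13_10_5 ln13_10_5_ok) (L (nat_lit 461) ln13_11_5 ln13_11_5_ok))))) (B (M (nat_lit 492) (B (L (nat_lit 524) ln12_16_6 ln12_16_6_ok) (M (nat_lit 365) (B (L (nat_lit 396) ln12_15_6 ln12_15_6_ok) (L (nat_lit 461) ln13_11_5 ln13_11_5_ok))))) (B (M (nat_lit 492) (B (L (nat_lit 524) ln12_16_6 ln12_16_6_ok) (M (nat_lit 493) (B (M (nat_lit 396) (B (L (nat_lit 525) ln12_12_4 ln12_12_4_ok) (M (nat_lit 364) (B (L (nat_lit 461) ln13_15_7 ln13_15_7_ok) (M (nat_lit 491) (B (L (nat_lit 459) ln12_11_5 ln12_11_5_ok) (L (nat_lit 523) ln12_12_5 ln12_12_5_ok)))))))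 (B (M (nat_lit 398) (B (M (nat_lit 396) (B (L (nat_lit 399) ln15_12_1 ln15_12_1_ok) (L (nat_lit 525) ln12_12_4 ln12_12_4_ok))) (B (M (nat_lit 399) (B (L (nat_lit 400) ln16_12_1 ln16_12_1_ok) (L (nat_lit 430) ln11_13_2 ln11_13_2_ok))) (M (nat_lit 461) (B (L (nat_lit 366) ln13_15_6 ln13_15_6_ok) (M (nat_lit 525) (B (L (nat_lit 396) ln13_16_7 ln13_16_7_ok) (L (nat_lit 430) ln13_16_6 ln13_16_6_ok)))))))) (B (M (nat_lit 430) (B (M (nat_lit 459) (B (L (nat_lit 458) ln14_13_1 ln14_13_1_ok) (L (nat_lit 431) ln15_13_1 ln15_13_1_ok))) (M (nat_lit 398) (B (L (nat_lit 399) ln11_13_2 ln11_13_2_ok) (M (nat_lit 461) (B (L (nat_lit 366) ln13_15_6 ln13_15_6_ok) (L (nat_lit 525) ln13_16_6 ln13_16_6_ok))))))) (B (M (nat_lit 459) (B (M (nat_lit 458) (B (L (nat_lit 430) ln14_13_1 ln14_13_1_ok) (L (nat_lit 457) ln9_14_2 ln9_14_2_ok))) (M (nat_lit 396) (B (L (nat_lit 525) ln12_12_4 ln12_12_4_ok) (M (nat_lit 364) (B (L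 (nat_lit 332) ln12_10_5 ln12_10_5_ok) (L (nat_lit 491) ln12_11_5 ln12_11_5_ok))))))) (M (nat_lit 461) (B (M (nat_lit 396) (B (L (nat_lit 364) ln13_15_7 ln13_15_7_ok) (M (nat_lit 398) (B (L (nat_lit 366) ln13_15_6 ln13_15_6_ok) (L (nat_lit 399) ln15_12_1 ln15_12_1_ok))))) (B (M (nat_lit 398) (B (L (nat_lit 366) ln13_15_6 ln13_15_6_ok) (M (nat_lit 399) (B (L (nat_lit 396) ln15_12_1 ln15_12_1_ok) (L (nat_lit 430) ln11_13_2 ln11_13_2_ok))))) (M (nat_lit 494) (B (L (nat_lit 526) ln13_12_4 ln13_12_4_ok) (M (nat_lit 459) (B (L (nat_lit 458) ln10_14_0 ln10_14_0_ok) (L (nat_lit 495) ln15_15_3 ln15_15_3_ok))))))))))))))) (B (M (nat_lit 492) (B (L (nat_lit 524) ln12_16_6 ln12_16_6_ok) (M (nat_lit 365) (B (L (nat_lit 333) ln13_10_5 ln13_10_5_ok) (L (nat_lit 396) ln12_15_6 ln12_15_6_ok))))) (M (nat_lit 364) (B (M (nat_lit 365) (B (L (nat_lit 333) ln13_10_5 ln13_10_5_ok) (M (nat_lit 332) (B (L (nat_lit 461) ln13_14_7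 ln13_14_7_ok) (M (nat_lit 396) (B (L (nat_lit 300) ln12_9_4 ln12_9_4_ok) (L (nat_lit 459) ln12_10_5 ln12_10_5_ok))))))) (B (M (nat_lit 459) (B (M (nat_lit 396) (B (L (nat_lit 332) ln12_10_5 ln12_10_5_ok) (L (nat_lit 491) ln12_11_5 ln12_11_5_ok))) (M (nat_lit 430) (B (L (nat_lit 458) ln14_13_1 ln14_13_1_ok) (L (nat_lit 431) ln15_13_1 ln15_13_1_ok))))) (B (M (nat_lit 398) (B (M (nat_lit 399) (B (L (nat_lit 396) ln15_12_1 ln15_12_1_ok) (L (nat_lit 400) ln16_12_1 ln16_12_1_ok))) (B (M (nat_lit 399) (B (L (nat_lit 400) ln16_12_1 ln16_12_1_ok) (L (nat_lit 430) ln11_13_2 ln11_13_2_ok))) (M (nat_lit 396) (B (M (nat_lit 459) (B (L (nat_lit 491) ln12_11_5 ln12_11_5_ok) (M (nat_lit 458) (B (L (nat_lit 430) ln14_13_1 ln14_13_1_ok) (L (nat_lit 457) ln9_14_2 ln9_14_2_ok))))) (M (nat_lit 365) (B (L (nat_lit 333) ln12_14_6 ln12_14_6_ok) (M (nat_lit 363) (B (L (nat_lit 331) ln12_14_7 ln12_14_7_ok) (L (nat_lit 362)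 ln10_11_0 ln10_11_0_ok)))))))))) (B (M (nat_lit 398) (B (M (nat_lit 399) (B (L (nat_lit 400) ln16_12_1 ln16_12_1_ok) (L (nat_lit 430) ln11_13_2 ln11_13_2_ok))) (B (M (nat_lit 430) (B (M (nat_lit 459) (B (L (nat_lit 458) ln14_13_1 ln14_13_1_ok) (L (nat_lit 431) ln15_13_1 ln15_13_1_ok))) (M (nat_lit 461) (B (M (nat_lit 365) (B (L (nat_lit 332) ln13_14_7 ln13_14_7_ok) (L (nat_lit 333) ln13_10_5 ln13_10_5_ok))) (M (nat_lit 493) (B (L (nat_lit 366) ln13_15_6 ln13_15_6_ok) (L (nat_lit 525) ln13_16_6 ln13_16_6_ok))))))) (M (nat_lit 365) (B (L (nat_lit 333) ln13_10_5 ln13_10_5_ok) (M (nat_lit 399) (B (L (nat_lit 400) ln16_12_3 ln16_12_3_ok) (M (nat_lit 363) (B (L (nat_lit 362) ln10_11_0 ln10_11_0_ok) (L (nat_lit 366) ln11_11_0 ln11_11_0_ok)))))))))) (M (nat_lit 398) (B (M (nat_lit 399) (B (L (nat_lit 396) ln15_12_1 ln15_12_1_ok) (L (nat_lit 400) ln16_12_1 ln16_12_1_ok))) (B (M (nat_lit 399) (B (L (nat_lit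 400) ln16_12_1 ln16_12_1_ok) (L (nat_lit 430) ln11_13_2 ln11_13_2_ok))) (M (nat_lit 365) (B (L (nat_lit 333) ln13_10_5 ln13_10_5_ok) (M (nat_lit 461) (B (L (nat_lit 332) ln13_14_7 ln13_14_7_ok) (M (nat_lit 493) (B (L (nat_lit 396) ln13_15_7 ln13_15_7_ok) (L (nat_lit 366) ln13_15_6 ln13_15_6_ok))))))))))))))))))))
theorem c11_s12910 : Sem (nat_lit 2079502270913392379444674211814302674077704290823075655481512624564798400421800170032085953906810352733060637150540575368324055040) (nat_lit 411887859806030154873098217685202516474756463930278761236244096132726839756145842068421448818349333220939409572285534171417743620211885870928887486980185653248) (nat_lit 411887859806030154873098217685202516474756463930278761236244096132726839756145842068421448818349333220939409572285534171417743620211885870928887486980185653248) :=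
  sem_of_chk (M (nat_lit 427) (B (M (nat_lit 398) (B (L (nat_lit 426) ln10_13_2 ln10_13_2_ok) (M (nat_lit 399) (B (L (nat_lit 396) ln15_12_1 ln15_12_1_ok) (L (nat_lit 400) ln16_12_1 ln16_12_1_ok))))) (B (M (nat_lit 398) (B (L (nat_lit 426) ln10_13_2 ln10_13_2_ok) (M (nat_lit 399) (B (L (nat_lit 400) ln16_12_1 ln16_12_1_ok) (L (nat_lit 430) ln11_13_2 ln11_13_2_ok))))) (B (M (nat_lit 426) (B (M (nat_lit 425) (B (L (nat_lit 396) ln9_13_2 ln9_13_2_ok) (M (nat_lit 457) (B (L (nat_lit 456) ln12_13_1 ln12_13_1_ok) (L (nat_lit 458) ln13_13_1 ln13_13_1_ok))))) (B (M (nat_lit 425) (B (M (nat_lit 393) (B (L (nat_lit 392) ln12_13_3 ln12_13_3_ok) (L (nat_lit 394) ln13_13_3 ln13_13_3_ok))) (M (nat_lit 457) (B (L (nat_lit 456) ln12_13_1 ln12_13_1_ok) (L (nat_lit 458) ln13_13_1 ln13_13_1_ok))))) (B (M (nat_lit 458) (B (L (nat_lit 457) ln13_13_1 ln13_13_1_ok) (M (nat_lit 394) (B (L (nat_lit 393) ln13_13_3 ln13_13_3_ok)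 (M (nat_lit 459) (B (L (nat_lit 430) ln14_13_1 ln14_13_1_ok) (M (nat_lit 362) (B (L (nat_lit 330) ln10_10_4 ln10_10_4_ok) (L (nat_lit 491) ln10_11_4 ln10_11_4_ok))))))))) (M (nat_lit 393) (B (L (nat_lit 394) ln13_13_3 ln13_13_3_ok) (M (nat_lit 425) (B (L (nat_lit 392) ln12_13_3 ln12_13_3_ok) (L (nat_lit 396) ln9_13_2 ln9_13_2_ok))))))))) c11_n12909)))) (nat_lit 2079502270913392379444674211814302674077704290823075655481512624564798400421800170032085953906810352733060637150540575368324055040) (nat_lit 411887859806030154873098217685202516474756463930278761236244096132726839756145842068421448818349333220939409572285534171417743620211885870928887486980185653248) (nat_lit 411887859806030154873098217685202516474756463930278761236244096132726839756145842068421448818349333220939409572285534171417743620211885870928887486980185653248) (by decide +kernel)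
noncomputable def c11_n12956 : Cert := (M (nat_lit 430) (B (M (nat_lit 431) (B (M (nat_lit 399) (B (L (nat_lit 398) ln11_13_2 ln11_13_2_ok) (L (nat_lit 400) ln12_13_2 ln12_13_2_ok))) (M (nat_lit 459) (B (L (nat_lit 458) ln14_13_1 ln14_13_1_ok) (L (nat_lit 460) ln15_13_1 ln15_13_1_ok))))) (B (M (nat_lit 460) (B (M (nat_lit 459) (B (L (nat_lit 458) ln14_13_1 ln14_13_1_ok) (L (nat_lit 431) ln15_13_1 ln15_13_1_ok))) (M (nat_lit 365) (B (L (nat_lit 333) ln13_10_5 ln13_10_5_ok) (M (nat_lit 492) (B (L (nat_lit 461) ln13_11_5 ln13_11_5_ok) (L (nat_lit 524) ln12_16_6 ln12_16_6_ok))))))) (B (M (nat_lit 395) (B (L (nat_lit 394) ln14_13_3 ln14_13_3_ok) (M (nat_lit 363) (B (M (nat_lit 460) (B (L (nat_lit 331) ln11_10_4 ln11_10_4_ok) (M (nat_lit 459) (B (L (nat_lit 492) ln11_11_4 ln11_11_4_ok) (L (nat_lit 458) ln14_13_1 ln14_13_1_ok))))) (B (M (nat_lit 365) (B (M (nat_lit 398) (B (L (nat_lit 399) ln11_13_2 ln11_13_2_ok)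 (M (nat_lit 333) (B (L (nat_lit 301) ln13_9_4 ln13_9_4_ok) (L (nat_lit 460) ln13_10_5 ln13_10_5_ok))))) (B (M (nat_lit 459) (B (L (nat_lit 458) ln14_13_1 ln14_13_1_ok) (M (nat_lit 460) (B (L (nat_lit 333) ln13_10_5 ln13_10_5_ok) (L (nat_lit 492) ln11_11_4 ln11_11_4_ok))))) (M (nat_lit 364) (B (M (nat_lit 459) (B (L (nat_lit 332) ln11_14_6 ln11_14_6_ok) (L (nat_lit 458) ln14_13_1 ln14_13_1_ok))) (M (nat_lit 398) (B (L (nat_lit 362) ln10_11_0 ln10_11_0_ok) (L (nat_lit 399) ln11_13_2 ln11_13_2_ok)))))))) (B (M (nat_lit 460) (B (L (nat_lit 331) ln11_10_4 ln11_10_4_ok) (M (nat_lit 492) (B (L (nat_lit 459) ln11_11_4 ln11_11_4_ok) (L (nat_lit 524) ln12_16_7 ln12_16_7_ok))))) (B (M (nat_lit 460) (B (L (nat_lit 331) ln11_10_4 ln11_10_4_ok) (M (nat_lit 492) (B (L (nat_lit 524) ln12_16_7 ln12_16_7_ok) (M (nat_lit 365) (B (L (nat_lit 333) ln13_10_5 ln13_10_5_ok) (L (nat_lit 461) ln13_11_5 ln13_11_5_ok)))))))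 (M (nat_lit 459) (B (L (nat_lit 458) ln14_13_1 ln14_13_1_ok) (M (nat_lit 331) (B (M (nat_lit 330) (B (L (nat_lit 298) ln11_13_7 ln11_13_7_ok) (L (nat_lit 362) ln11_14_7 ln11_14_7_ok))) (M (nat_lit 332) (B (L (nat_lit 300) ln11_13_6 ln11_13_6_ok) (L (nat_lit 364) ln11_14_6 ln11_14_6_ok)))))))))))))) (B (M (nat_lit 431) (B (M (nat_lit 399) (B (L (nat_lit 398) ln11_13_2 ln11_13_2_ok) (L (nat_lit 400) ln12_13_2 ln12_13_2_ok))) (M (nat_lit 432) (B (M (nat_lit 460) (B (L (nat_lit 459) ln15_13_1 ln15_13_1_ok) (L (nat_lit 461) ln16_13_1 ln16_13_1_ok))) (M (nat_lit 464) (B (L (nat_lit 463) ln12_13_0 ln12_13_0_ok) (L (nat_lit 465) ln13_13_0 ln13_13_0_ok))))))) (M (nat_lit 431) (B (M (nat_lit 399) (B (L (nat_lit 398) ln11_13_2 ln11_13_2_ok) (L (nat_lit 400) ln12_13_2 ln12_13_2_ok))) (B (M (nat_lit 432) (B (M (nat_lit 400) (B (L (nat_lit 399) ln12_13_2 ln12_13_2_ok) (L (nat_lit 401) ln13_13_2 ln13_13_2_ok)))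 (M (nat_lit 464) (B (L (nat_lit 463) ln12_13_0 ln12_13_0_ok) (L (nat_lit 465) ln13_13_0 ln13_13_0_ok))))) (B (M (nat_lit 432) (B (M (nat_lit 464) (B (L (nat_lit 463) ln12_13_0 ln12_13_0_ok) (L (nat_lit 465) ln13_13_0 ln13_13_0_ok))) (M (nat_lit 401) (B (L (nat_lit 400) ln13_13_2 ln13_13_2_ok) (M (nat_lit 433) (B (L (nat_lit 398) ln17_13_3 ln17_13_3_ok) (L (nat_lit 402) ln14_13_2 ln14_13_2_ok))))))) (M (nat_lit 432) (B (M (nat_lit 398) (B (L (nat_lit 433) ln17_13_3 ln17_13_3_ok) (L (nat_lit 399) ln11_13_2 ln11_13_2_ok))) (M (nat_lit 464) (B (L (nat_lit 463) ln12_13_0 ln12_13_0_ok) (L (nat_lit 465) ln13_13_0 ln13_13_0_ok))))))))))))))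
theorem c11_s12957 : Sem (nat_lit 2079502270913392379444674211814302674077704290823075655481512624564798400421800170032085953906810352733060637150540575368324055040) (nat_lit 54918381293831559960391324784055408976374375124546966259403117084815690070692210350260388273319480706998081829424720807042249268367972885760913188351027183616) (nat_lit 54918381293831559960391324784055408976374375124546966259403117084815690070692210350260388273319480706998081829424720807042249268367972885760913188351027183616) :=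
  sem_of_chk (M (nat_lit 427) (B (M (nat_lit 398) (B (L (nat_lit 426) ln10_13_2 ln10_13_2_ok) (M (nat_lit 399) (B (L (nat_lit 400) ln16_12_1 ln16_12_1_ok) (L (nat_lit 430) ln11_13_2 ln11_13_2_ok))))) (B (M (nat_lit 460) (B (M (nat_lit 492) (B (L (nat_lit 524) ln12_16_6 ln12_16_6_ok) (M (nat_lit 365) (B (L (nat_lit 333) ln13_10_5 ln13_10_5_ok) (L (nat_lit 461) ln13_11_5 ln13_11_5_ok))))) (B (M (nat_lit 395) (B (M (nat_lit 492) (B (L (nat_lit 524) ln12_16_7 ln12_16_7_ok) (M (nat_lit 363) (B (L (nat_lit 331) ln11_10_4 ln11_10_4_ok) (L (nat_lit 459) ln11_11_4 ln11_11_4_ok))))) (M (nat_lit 394) (B (L (nat_lit 430) ln14_13_3 ln14_13_3_ok) (M (nat_lit 393) (B (L (nat_lit 392) ln8_12_0 ln8_12_0_ok) (L (nat_lit 426) ln13_13_3 ln13_13_3_ok))))))) (M (nat_lit 426) (B (M (nat_lit 425) (B (L (nat_lit 461) ln9_13_0 ln9_13_0_ok) (M (nat_lit 457) (B (L (nat_lit 456) ln12_13_1 ln12_13_1_ok) (L (nat_lit 458) ln13_13_1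 ln13_13_1_ok))))) (B (M (nat_lit 430) (B (M (nat_lit 394) (B (L (nat_lit 393) ln13_13_3 ln13_13_3_ok) (L (nat_lit 395) ln14_13_3 ln14_13_3_ok))) (M (nat_lit 458) (B (L (nat_lit 457) ln13_13_1 ln13_13_1_ok) (L (nat_lit 459) ln14_13_1 ln14_13_1_ok))))) (M (nat_lit 425) (B (L (nat_lit 461) ln9_13_0 ln9_13_0_ok) (M (nat_lit 393) (B (L (nat_lit 392) ln12_13_3 ln12_13_3_ok) (L (nat_lit 394) ln13_13_3 ln13_13_3_ok))))))))))) (B c11_n12956 (M (nat_lit 426) (B (L (nat_lit 398) ln10_13_2 ln10_13_2_ok) (M (nat_lit 425) (B (M (nat_lit 393) (B (L (nat_lit 392) ln12_13_3 ln12_13_3_ok) (L (nat_lit 394) ln13_13_3 ln13_13_3_ok))) (M (nat_lit 457) (B (L (nat_lit 456) ln12_13_1 ln12_13_1_ok) (L (nat_lit 458) ln13_13_1 ln13_13_1_ok))))))))))) (nat_lit 2079502270913392379444674211814302674077704290823075655481512624564798400421800170032085953906810352733060637150540575368324055040) (nat_lit 54918381293831559960391324784055408976374375124546966259403117084815690070692210350260388273319480706998081829424720807042249268367972885760913188351027183616)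 (nat_lit 54918381293831559960391324784055408976374375124546966259403117084815690070692210350260388273319480706998081829424720807042249268367972885760913188351027183616) (by decide +kernel)
noncomputable def c11_n13001 : Cert := (M (nat_lit 395) (B (M (nat_lit 430) (B (L (nat_lit 394) ln14_13_3 ln14_13_3_ok) (M (nat_lit 459) (B (L (nat_lit 458) ln14_13_1 ln14_13_1_ok) (M (nat_lit 431) (B (L (nat_lit 396) ln15_13_3 ln15_13_3_ok) (L (nat_lit 460) ln15_13_1 ln15_13_1_ok))))))) (B (M (nat_lit 460) (B (M (nat_lit 492) (B (L (nat_lit 524) ln12_16_7 ln12_16_7_ok) (M (nat_lit 365) (B (L (nat_lit 333) ln13_10_5 ln13_10_5_ok) (L (nat_lit 461) ln13_11_5 ln13_11_5_ok))))) (B (M (nat_lit 492) (B (L (nat_lit 524) ln12_16_7 ln12_16_7_ok) (M (nat_lit 365) (B (L (nat_lit 396) ln12_15_6 ln12_15_6_ok) (L (nat_lit 461) ln13_11_5 ln13_11_5_ok))))) (B (M (nat_lit 492) (B (L (nat_lit 524) ln12_16_7 ln12_16_7_ok) (M (nat_lit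 363) (B (L (nat_lit 331) ln11_10_4 ln11_10_4_ok) (L (nat_lit 396) ln12_15_7 ln12_15_7_ok))))) (M (nat_lit 458) (B (M (nat_lit 457) (B (L (nat_lit 426) ln13_13_1 ln13_13_1_ok) (L (nat_lit 459) ln9_14_2 ln9_14_2_ok))) (B (M (nat_lit 459) (B (L (nat_lit 430) ln14_13_1 ln14_13_1_ok) (L (nat_lit 457) ln9_14_2 ln9_14_2_ok))) (B (M (nat_lit 459) (B (L (nat_lit 430) ln14_13_1 ln14_13_1_ok) (M (nat_lit 363) (B (L (nat_lit 331) ln11_10_4 ln11_10_4_ok) (L (nat_lit 490) ln11_11_5 ln11_11_5_ok))))) (M (nat_lit 426) (B (L (nat_lit 457) ln13_13_1 ln13_13_1_ok) (M (nat_lit 425) (B (L (nat_lit 396) ln9_13_2 ln9_13_2_ok) (L (nat_lit 461) ln9_13_0 ln9_13_0_ok))))))))))))) (B (M (nat_lit 460) (B (M (nat_lit 492) (B (L (nat_lit 524) ln12_16_7 ln12_16_7_ok) (M (nat_lit 365) (B (L (nat_lit 333) ln13_10_5 ln13_10_5_ok) (L (nat_lit 461) ln13_11_5 ln13_11_5_ok))))) (M (nat_lit 430) (B (L (nat_lit 394) ln14_13_3 ln14_13_3_ok)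 (M (nat_lit 459) (B (L (nat_lit 458) ln14_13_1 ln14_13_1_ok) (L (nat_lit 431) ln15_13_1 ln15_13_1_ok))))))) (B (M (nat_lit 363) (B (M (nat_lit 460) (B (L (nat_lit 331) ln11_10_4 ln11_10_4_ok) (M (nat_lit 492) (B (L (nat_lit 396) ln12_15_7 ln12_15_7_ok) (L (nat_lit 459) ln11_11_4 ln11_11_4_ok))))) (B (M (nat_lit 459) (B (M (nat_lit 460) (B (L (nat_lit 492) ln11_11_4 ln11_11_4_ok) (M (nat_lit 458) (B (L (nat_lit 490) ln11_11_5 ln11_11_5_ok) (L (nat_lit 457) ln9_14_2 ln9_14_2_ok))))) (M (nat_lit 491) (B (M (nat_lit 362) (B (L (nat_lit 330) ln11_14_7 ln11_14_7_ok) (L (nat_lit 394) ln11_15_7 ln11_15_7_ok))) (M (nat_lit 364) (B (L (nat_lit 332) ln11_14_6 ln11_14_6_ok) (L (nat_lit 396) ln11_15_6 ln11_15_6_ok))))))) (B (M (nat_lit 460) (B (L (nat_lit 331) ln11_10_4 ln11_10_4_ok) (M (nat_lit 492) (B (L (nat_lit 459) ln11_11_4 ln11_11_4_ok) (L (nat_lit 524) ln12_16_7 ln12_16_7_ok))))) (B (M (nat_lit 460) (B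 (L (nat_lit 331) ln11_10_4 ln11_10_4_ok) (M (nat_lit 492) (B (L (nat_lit 396) ln12_15_7 ln12_15_7_ok) (L (nat_lit 524) ln12_16_7 ln12_16_7_ok))))) (M (nat_lit 459) (B (M (nat_lit 458) (B (L (nat_lit 490) ln11_11_5 ln11_11_5_ok) (M (nat_lit 426) (B (L (nat_lit 331) ln11_10_5 ln11_10_5_ok) (L (nat_lit 457) ln13_13_1 ln13_13_1_ok))))) (M (nat_lit 491) (B (M (nat_lit 362) (B (L (nat_lit 330) ln11_14_7 ln11_14_7_ok) (L (nat_lit 394) ln11_15_7 ln11_15_7_ok))) (M (nat_lit 364) (B (L (nat_lit 332) ln11_14_6 ln11_14_6_ok) (L (nat_lit 396) ln11_15_6 ln11_15_6_ok)))))))))))) (B (M (nat_lit 460) (B (M (nat_lit 492) (B (L (nat_lit 524) ln12_16_7 ln12_16_7_ok) (M (nat_lit 365) (B (L (nat_lit 333) ln13_10_5 ln13_10_5_ok) (L (nat_lit 461) ln13_11_5 ln13_11_5_ok))))) (B (M (nat_lit 492) (B (L (nat_lit 524) ln12_16_7 ln12_16_7_ok) (M (nat_lit 365) (B (L (nat_lit 396) ln12_15_6 ln12_15_6_ok) (L (nat_lit 461) ln13_11_5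 ln13_11_5_ok))))) (M (nat_lit 430) (B (L (nat_lit 394) ln14_13_3 ln14_13_3_ok) (M (nat_lit 431) (B (L (nat_lit 396) ln15_13_3 ln15_13_3_ok) (L (nat_lit 459) ln15_13_1 ln15_13_1_ok)))))))) (B (M (nat_lit 426) (B (M (nat_lit 396) (B (L (nat_lit 425) ln9_13_2 ln9_13_2_ok) (M (nat_lit 430) (B (L (nat_lit 394) ln10_12_0 ln10_12_0_ok) (L (nat_lit 431) ln15_13_3 ln15_13_3_ok))))) (B (M (nat_lit 460) (B (M (nat_lit 425) (B (L (nat_lit 396) ln9_13_2 ln9_13_2_ok) (L (nat_lit 461) ln9_13_0 ln9_13_0_ok))) (B (M (nat_lit 492) (B (L (nat_lit 524) ln12_16_7 ln12_16_7_ok) (M (nat_lit 365) (B (L (nat_lit 333) ln13_10_5 ln13_10_5_ok) (L (nat_lit 461) ln13_11_5 ln13_11_5_ok))))) (M (nat_lit 492) (B (L (nat_lit 524) ln12_16_7 ln12_16_7_ok) (M (nat_lit 365) (B (L (nat_lit 333) ln13_10_5 ln13_10_5_ok) (L (nat_lit 396) ln12_15_6 ln12_15_6_ok)))))))) (M (nat_lit 458) (B (L (nat_lit 457) ln13_13_1 ln13_13_1_ok) (M (nat_lit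 363) (B (L (nat_lit 331) ln11_10_5 ln11_10_5_ok) (M (nat_lit 394) (B (L (nat_lit 490) ln10_15_6 ln10_15_6_ok) (L (nat_lit 430) ln14_13_3 ln14_13_3_ok)))))))))) (M (nat_lit 430) (B (L (nat_lit 394) ln14_13_3 ln14_13_3_ok) (M (nat_lit 426) (B (M (nat_lit 396) (B (L (nat_lit 431) ln15_13_3 ln15_13_3_ok) (L (nat_lit 425) ln9_13_2 ln9_13_2_ok))) (M (nat_lit 458) (B (L (nat_lit 457) ln13_13_1 ln13_13_1_ok) (L (nat_lit 459) ln14_13_1 ln14_13_1_ok))))))))))))))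
noncomputable def c11_n13026 : Cert := (M (nat_lit 395) (B (M (nat_lit 394) (B (L (nat_lit 430) ln14_13_3 ln14_13_3_ok) (M (nat_lit 393) (B (L (nat_lit 392) ln8_12_0 ln8_12_0_ok) (L (nat_lit 426) ln13_13_3 ln13_13_3_ok))))) (B (M (nat_lit 394) (B (L (nat_lit 430) ln14_13_3 ln14_13_3_ok) (M (nat_lit 393) (B (L (nat_lit 396) ln9_12_0 ln9_12_0_ok) (L (nat_lit 426) ln13_13_3 ln13_13_3_ok))))) (B (M (nat_lit 430) (B (L (nat_lit 394) ln14_13_3 ln14_13_3_ok) (M (nat_lit 459) (B (L (nat_lit 458) ln14_13_1 ln14_13_1_ok) (M (nat_lit 431) (B (L (nat_lit 396) ln15_13_3 ln15_13_3_ok) (L (nat_lit 460) ln15_13_1 ln15_13_1_ok))))))) (B (M (nat_lit 459) (B (M (nat_lit 430) (B (L (nat_lit 458) ln14_13_1 ln14_13_1_ok) (M (nat_lit 431) (B (L (nat_lit 396) ln15_13_3 ln15_13_3_ok) (L (nat_lit 460) ln15_13_1 ln15_13_1_ok))))) (B (M (nat_lit 460) (B (M (nat_lit 363) (B (L (nat_lit 331) ln11_10_4 ln11_10_4_ok) (L (nat_lit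 492) ln11_11_4 ln11_11_4_ok))) (M (nat_lit 458) (B (L (nat_lit 430) ln14_13_1 ln14_13_1_ok) (L (nat_lit 457) ln9_14_2 ln9_14_2_ok))))) (B (M (nat_lit 460) (B (M (nat_lit 363) (B (L (nat_lit 331) ln11_10_4 ln11_10_4_ok) (L (nat_lit 492) ln11_11_4 ln11_11_4_ok))) (B (M (nat_lit 492) (B (L (nat_lit 363) ln11_11_4 ln11_11_4_ok) (L (nat_lit 524) ln12_16_7 ln12_16_7_ok))) (B (M (nat_lit 492) (B (L (nat_lit 524) ln12_16_7 ln12_16_7_ok) (M (nat_lit 365) (B (L (nat_lit 333) ln13_10_5 ln13_10_5_ok) (L (nat_lit 461) ln13_11_5 ln13_11_5_ok))))) (M (nat_lit 363) (B (L (nat_lit 331) ln11_10_4 ln11_10_4_ok) (M (nat_lit 458) (B (L (nat_lit 490) ln11_11_5 ln11_11_5_ok) (L (nat_lit 457) ln9_14_2 ln9_14_2_ok))))))))) (B (M (nat_lit 363) (B (M (nat_lit 460) (B (L (nat_lit 331) ln11_10_4 ln11_10_4_ok) (L (nat_lit 492) ln11_11_4 ln11_11_4_ok))) (B (M (nat_lit 491) (B (M (nat_lit 364) (B (L (nat_lit 332) ln11_14_6 ln11_14_6_ok)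 (L (nat_lit 396) ln11_15_6 ln11_15_6_ok))) (M (nat_lit 492) (B (L (nat_lit 460) ln11_11_4 ln11_11_4_ok) (L (nat_lit 524) ln11_12_4 ln11_12_4_ok))))) (M (nat_lit 331) (B (M (nat_lit 330) (B (L (nat_lit 298) ln11_13_7 ln11_13_7_ok) (L (nat_lit 362) ln11_14_7 ln11_14_7_ok))) (M (nat_lit 332) (B (L (nat_lit 300) ln11_13_6 ln11_13_6_ok) (L (nat_lit 364) ln11_14_6 ln11_14_6_ok)))))))) (M (nat_lit 396) (B (M (nat_lit 364) (B (L (nat_lit 332) ln12_10_5 ln12_10_5_ok) (L (nat_lit 491) ln11_15_6 ln11_15_6_ok))) (M (nat_lit 430) (B (L (nat_lit 431) ln15_13_3 ln15_13_3_ok) (L (nat_lit 458) ln14_13_1 ln14_13_1_ok)))))))))) (M (nat_lit 363) (B (M (nat_lit 460) (B (L (nat_lit 331) ln11_10_4 ln11_10_4_ok) (M (nat_lit 492) (B (L (nat_lit 396) ln12_15_7 ln12_15_7_ok) (L (nat_lit 459) ln11_11_4 ln11_11_4_ok))))) (B (M (nat_lit 459) (B (M (nat_lit 460) (B (L (nat_lit 492) ln11_11_4 ln11_11_4_ok) (M (nat_lit 458) (B (L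 (nat_lit 490) ln11_11_5 ln11_11_5_ok) (L (nat_lit 457) ln9_14_2 ln9_14_2_ok))))) (M (nat_lit 394) (B (M (nat_lit 362) (B (L (nat_lit 330) ln11_14_7 ln11_14_7_ok) (L (nat_lit 491) ln11_15_7 ln11_15_7_ok))) (M (nat_lit 393) (B (L (nat_lit 396) ln9_12_0 ln9_12_0_ok) (L (nat_lit 426) ln13_13_3 ln13_13_3_ok))))))) (B (M (nat_lit 460) (B (L (nat_lit 331) ln11_10_4 ln11_10_4_ok) (M (nat_lit 492) (B (L (nat_lit 459) ln11_11_4 ln11_11_4_ok) (L (nat_lit 524) ln12_16_7 ln12_16_7_ok))))) (B (M (nat_lit 460) (B (L (nat_lit 331) ln11_10_4 ln11_10_4_ok) (M (nat_lit 492) (B (L (nat_lit 396) ln12_15_7 ln12_15_7_ok) (L (nat_lit 524) ln12_16_7 ln12_16_7_ok))))) (M (nat_lit 459) (B (M (nat_lit 458) (B (L (nat_lit 490) ln11_11_5 ln11_11_5_ok) (M (nat_lit 426) (B (L (nat_lit 331) ln11_10_5 ln11_10_5_ok) (L (nat_lit 457) ln13_13_1 ln13_13_1_ok))))) (B (M (nat_lit 394) (B (M (nat_lit 362) (B (L (nat_lit 330) ln11_14_7 ln11_14_7_ok)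 (L (nat_lit 491) ln11_15_7 ln11_15_7_ok))) (M (nat_lit 393) (B (L (nat_lit 396) ln9_12_0 ln9_12_0_ok) (L (nat_lit 426) ln13_13_3 ln13_13_3_ok))))) (M (nat_lit 491) (B (M (nat_lit 362) (B (L (nat_lit 330) ln11_14_7 ln11_14_7_ok) (L (nat_lit 394) ln11_15_7 ln11_15_7_ok))) (M (nat_lit 364) (B (L (nat_lit 332) ln11_14_6 ln11_14_6_ok) (L (nat_lit 396) ln11_15_6 ln11_15_6_ok))))))))))))))))))
noncomputable def c11_n13036 : Cert := (M (nat_lit 395) (B (M (nat_lit 394) (B (L (nat_lit 430) ln14_13_3 ln14_13_3_ok) (M (nat_lit 393) (B (L (nat_lit 392) ln8_12_0 ln8_12_0_ok) (L (nat_lit 396) ln9_12_0 ln9_12_0_ok))))) (B (M (nat_lit 430) (B (L (nat_lit 394) ln14_13_3 ln14_13_3_ok) (M (nat_lit 459) (B (L (nat_lit 458) ln14_13_1 ln14_13_1_ok) (M (nat_lit 431) (B (L (nat_lit 396) ln15_13_3 ln15_13_3_ok) (L (nat_lit 460) ln15_13_1 ln15_13_1_ok))))))) (B (M (nat_lit 459) (B (M (nat_lit 430) (B (L (nat_lit 458) ln14_13_1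 ln14_13_1_ok) (M (nat_lit 431) (B (L (nat_lit 396) ln15_13_3 ln15_13_3_ok) (L (nat_lit 460) ln15_13_1 ln15_13_1_ok))))) (B (M (nat_lit 460) (B (M (nat_lit 363) (B (L (nat_lit 331) ln11_10_4 ln11_10_4_ok) (L (nat_lit 492) ln11_11_4 ln11_11_4_ok))) (M (nat_lit 458) (B (L (nat_lit 430) ln14_13_1 ln14_13_1_ok) (L (nat_lit 457) ln9_14_2 ln9_14_2_ok))))) (B (M (nat_lit 460) (B (M (nat_lit 363) (B (L (nat_lit 331) ln11_10_4 ln11_10_4_ok) (L (nat_lit 492) ln11_11_4 ln11_11_4_ok))) (B (M (nat_lit 492) (B (L (nat_lit 363) ln11_11_4 ln11_11_4_ok) (L (nat_lit 524) ln12_16_7 ln12_16_7_ok))) (B (M (nat_lit 492) (B (L (nat_lit 524) ln12_16_7 ln12_16_7_ok) (M (nat_lit 365) (B (L (nat_lit 333) ln13_10_5 ln13_10_5_ok) (L (nat_lit 396) ln12_15_6 ln12_15_6_ok))))) (M (nat_lit 363) (B (L (nat_lit 331) ln11_10_4 ln11_10_4_ok) (M (nat_lit 458) (B (L (nat_lit 490) ln11_11_5 ln11_11_5_ok) (L (nat_lit 457) ln9_14_2 ln9_14_2_ok)))))))))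 (B (M (nat_lit 363) (B (M (nat_lit 460) (B (L (nat_lit 331) ln11_10_4 ln11_10_4_ok) (L (nat_lit 492) ln11_11_4 ln11_11_4_ok))) (B (M (nat_lit 491) (B (M (nat_lit 364) (B (L (nat_lit 332) ln11_14_6 ln11_14_6_ok) (L (nat_lit 396) ln11_15_6 ln11_15_6_ok))) (M (nat_lit 492) (B (L (nat_lit 460) ln11_11_4 ln11_11_4_ok) (L (nat_lit 524) ln11_12_4 ln11_12_4_ok))))) (M (nat_lit 331) (B (M (nat_lit 330) (B (L (nat_lit 298) ln11_13_7 ln11_13_7_ok) (L (nat_lit 362) ln11_14_7 ln11_14_7_ok))) (M (nat_lit 332) (B (L (nat_lit 300) ln11_13_6 ln11_13_6_ok) (L (nat_lit 364) ln11_14_6 ln11_14_6_ok)))))))) (M (nat_lit 396) (B (M (nat_lit 364) (B (L (nat_lit 332) ln12_10_5 ln12_10_5_ok) (L (nat_lit 491) ln11_15_6 ln11_15_6_ok))) (M (nat_lit 430) (B (L (nat_lit 431) ln15_13_3 ln15_13_3_ok) (L (nat_lit 458) ln14_13_1 ln14_13_1_ok)))))))))) (B (M (nat_lit 460) (B (M (nat_lit 492) (B (L (nat_lit 524) ln12_16_7 ln12_16_7_ok)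 (M (nat_lit 365) (B (L (nat_lit 333) ln13_10_5 ln13_10_5_ok) (L (nat_lit 461) ln13_11_5 ln13_11_5_ok))))) (M (nat_lit 430) (B (L (nat_lit 394) ln14_13_3 ln14_13_3_ok) (M (nat_lit 459) (B (L (nat_lit 458) ln14_13_1 ln14_13_1_ok) (L (nat_lit 431) ln15_13_1 ln15_13_1_ok))))))) (M (nat_lit 459) (B (M (nat_lit 460) (B (M (nat_lit 363) (B (L (nat_lit 331) ln11_10_4 ln11_10_4_ok) (L (nat_lit 492) ln11_11_4 ln11_11_4_ok))) (B (M (nat_lit 492) (B (L (nat_lit 363) ln11_11_4 ln11_11_4_ok) (L (nat_lit 524) ln12_16_7 ln12_16_7_ok))) (B (M (nat_lit 492) (B (L (nat_lit 524) ln12_16_7 ln12_16_7_ok) (M (nat_lit 365) (B (L (nat_lit 333) ln13_10_5 ln13_10_5_ok) (L (nat_lit 461) ln13_11_5 ln13_11_5_ok))))) (M (nat_lit 363) (B (L (nat_lit 331) ln11_10_4 ln11_10_4_ok) (M (nat_lit 458) (B (L (nat_lit 490) ln11_11_5 ln11_11_5_ok) (L (nat_lit 457) ln9_14_2 ln9_14_2_ok))))))))) (B (M (nat_lit 396) (B (M (nat_lit 491) (B (L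 (nat_lit 364) ln11_15_6 ln11_15_6_ok) (L (nat_lit 523) ln11_16_6 ln11_16_6_ok))) (M (nat_lit 365) (B (M (nat_lit 333) (B (L (nat_lit 301) ln13_9_5 ln13_9_5_ok) (L (nat_lit 460) ln13_10_5 ln13_10_5_ok))) (M (nat_lit 394) (B (L (nat_lit 366) ln10_12_2 ln10_12_2_ok) (L (nat_lit 393) ln9_12_0 ln9_12_0_ok))))))) (B (M (nat_lit 460) (B (M (nat_lit 363) (B (L (nat_lit 331) ln11_10_4 ln11_10_4_ok) (L (nat_lit 492) ln11_11_4 ln11_11_4_ok))) (B (M (nat_lit 492) (B (L (nat_lit 363) ln11_11_4 ln11_11_4_ok) (L (nat_lit 524) ln12_16_7 ln12_16_7_ok))) (B (M (nat_lit 492) (B (L (nat_lit 524) ln12_16_7 ln12_16_7_ok) (M (nat_lit 365) (B (L (nat_lit 396) ln12_15_6 ln12_15_6_ok) (L (nat_lit 461) ln13_11_5 ln13_11_5_ok))))) (M (nat_lit 363) (B (L (nat_lit 331) ln11_10_4 ln11_10_4_ok) (M (nat_lit 458) (B (L (nat_lit 490) ln11_11_5 ln11_11_5_ok) (L (nat_lit 457) ln9_14_2 ln9_14_2_ok))))))))) (B (M (nat_lit 363) (B (M (nat_lit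 460) (B (L (nat_lit 331) ln11_10_4 ln11_10_4_ok) (L (nat_lit 492) ln11_11_4 ln11_11_4_ok))) (M (nat_lit 491) (B (M (nat_lit 362) (B (L (nat_lit 330) ln11_14_7 ln11_14_7_ok) (L (nat_lit 394) ln11_15_7 ln11_15_7_ok))) (M (nat_lit 364) (B (L (nat_lit 332) ln11_14_6 ln11_14_6_ok) (L (nat_lit 396) ln11_15_6 ln11_15_6_ok))))))) (M (nat_lit 491) (B (M (nat_lit 396) (B (L (nat_lit 364) ln11_15_6 ln11_15_6_ok) (L (nat_lit 523) ln11_16_6 ln11_16_6_ok))) (M (nat_lit 363) (B (M (nat_lit 362) (B (L (nat_lit 330) ln11_14_7 ln11_14_7_ok) (L (nat_lit 394) ln11_15_7 ln11_15_7_ok))) (M (nat_lit 490) (B (L (nat_lit 458) ln11_11_5 ln11_11_5_ok) (L (nat_lit 522) ln11_12_5 ln11_12_5_ok)))))))))))))))))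
theorem c11_s13107 : Sem (nat_lit 2426085982678494236891975984832188137007258925245052727377822572141626063897503372912082754669827799995234538520716021846945824768) (nat_lit 68647976623682790770020424537637031466787157274393392832082515785067326969316764279889902168142286263824183491494761988289489413616609872378077292158517248000) (nat_lit 68647976623682790770020424537637031466787157274393392832082515785067326969316764279889902168142286263824183491494761988289489413616609872378077292158517248000) :=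
  sem_of_chk (M (nat_lit 395) (B (M (nat_lit 394) (B (M (nat_lit 393) (B (L (nat_lit 392) ln8_12_0 ln8_12_0_ok) (L (nat_lit 396) ln9_12_0 ln9_12_0_ok))) (B (M (nat_lit 393) (B (L (nat_lit 396) ln9_12_0 ln9_12_0_ok) (L (nat_lit 426) ln13_13_3 ln13_13_3_ok))) (B (M (nat_lit 426) (B (M (nat_lit 458) (B (L (nat_lit 457) ln13_13_1 ln13_13_1_ok) (M (nat_lit 363) (B (L (nat_lit 331) ln11_10_5 ln11_10_5_ok) (L (nat_lit 490) ln10_15_6 ln10_15_6_ok))))) (M (nat_lit 362) (B (M (nat_lit 330) (B (L (nat_lit 298) ln10_9_4 ln10_9_4_ok) (L (nat_lit 459) ln10_10_4 ln10_10_4_ok))) (M (nat_lit 396) (B (L (nat_lit 361) ln13_12_3 ln13_12_3_ok) (L (nat_lit 425) ln13_12_1 ln13_12_1_ok))))))) (M (nat_lit 393) (B (L (nat_lit 392) ln8_12_0 ln8_12_0_ok) (L (nat_lit 426) ln13_13_3 ln13_13_3_ok))))))) (B (M (nat_lit 394) (B (M (nat_lit 393) (B (L (nat_lit 392) ln8_12_0 ln8_12_0_ok) (L (nat_lit 396) ln9_12_0 ln9_12_0_ok))) (B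 (M (nat_lit 393) (B (L (nat_lit 396) ln9_12_0 ln9_12_0_ok) (L (nat_lit 426) ln13_13_3 ln13_13_3_ok))) (B (M (nat_lit 426) (B (M (nat_lit 458) (B (L (nat_lit 457) ln13_13_1 ln13_13_1_ok) (M (nat_lit 363) (B (L (nat_lit 331) ln11_10_5 ln11_10_5_ok) (L (nat_lit 490) ln10_15_6 ln10_15_6_ok))))) (M (nat_lit 362) (B (M (nat_lit 396) (B (L (nat_lit 361) ln13_12_3 ln13_12_3_ok) (L (nat_lit 425) ln13_12_1 ln13_12_1_ok))) (M (nat_lit 459) (B (L (nat_lit 330) ln10_10_4 ln10_10_4_ok) (L (nat_lit 491) ln11_15_7 ln11_15_7_ok))))))) (M (nat_lit 393) (B (L (nat_lit 392) ln8_12_0 ln8_12_0_ok) (L (nat_lit 426) ln13_13_3 ln13_13_3_ok))))))) (B (M (nat_lit 426) (B (M (nat_lit 393) (B (L (nat_lit 394) ln13_13_3 ln13_13_3_ok) (M (nat_lit 425) (B (L (nat_lit 392) ln12_13_3 ln12_13_3_ok) (L (nat_lit 396) ln9_13_2 ln9_13_2_ok))))) (B (M (nat_lit 394) (B (L (nat_lit 393) ln13_13_3 ln13_13_3_ok) (M (nat_lit 458) (B (L (nat_lit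 457) ln13_13_1 ln13_13_1_ok) (M (nat_lit 363) (B (L (nat_lit 331) ln11_10_5 ln11_10_5_ok) (L (nat_lit 490) ln10_15_6 ln10_15_6_ok))))))) (B (M (nat_lit 458) (B (L (nat_lit 457) ln13_13_1 ln13_13_1_ok) (M (nat_lit 363) (B (L (nat_lit 331) ln11_10_5 ln11_10_5_ok) (M (nat_lit 490) (B (L (nat_lit 394) ln10_15_6 ln10_15_6_ok) (L (nat_lit 459) ln11_11_5 ln11_11_5_ok))))))) (M (nat_lit 460) (B (M (nat_lit 425) (B (L (nat_lit 396) ln9_13_2 ln9_13_2_ok) (L (nat_lit 461) ln9_13_0 ln9_13_0_ok))) (M (nat_lit 492) (B (L (nat_lit 524) ln12_16_7 ln12_16_7_ok) (M (nat_lit 363) (B (L (nat_lit 331) ln11_10_4 ln11_10_4_ok) (L (nat_lit 459) ln11_11_4 ln11_11_4_ok))))))))))) (B (M (nat_lit 394) (B (M (nat_lit 393) (B (L (nat_lit 392) ln8_12_0 ln8_12_0_ok) (L (nat_lit 396) ln9_12_0 ln9_12_0_ok))) (B (M (nat_lit 393) (B (L (nat_lit 396) ln9_12_0 ln9_12_0_ok) (L (nat_lit 426) ln13_13_3 ln13_13_3_ok))) (B (M (nat_lit 426)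 (B (M (nat_lit 458) (B (L (nat_lit 457) ln13_13_1 ln13_13_1_ok) (M (nat_lit 490) (B (L (nat_lit 363) ln10_15_6 ln10_15_6_ok) (L (nat_lit 522) ln10_16_6 ln10_16_6_ok))))) (M (nat_lit 362) (B (M (nat_lit 330) (B (L (nat_lit 298) ln10_9_4 ln10_9_4_ok) (L (nat_lit 459) ln10_10_4 ln10_10_4_ok))) (M (nat_lit 396) (B (L (nat_lit 361) ln13_12_3 ln13_12_3_ok) (L (nat_lit 425) ln13_12_1 ln13_12_1_ok))))))) (M (nat_lit 393) (B (L (nat_lit 392) ln8_12_0 ln8_12_0_ok) (L (nat_lit 426) ln13_13_3 ln13_13_3_ok))))))) (B (M (nat_lit 394) (B (M (nat_lit 393) (B (L (nat_lit 392) ln8_12_0 ln8_12_0_ok) (L (nat_lit 396) ln9_12_0 ln9_12_0_ok))) (B (M (nat_lit 393) (B (L (nat_lit 396) ln9_12_0 ln9_12_0_ok) (L (nat_lit 426) ln13_13_3 ln13_13_3_ok))) (B (M (nat_lit 396) (B (M (nat_lit 365) (B (L (nat_lit 366) ln10_12_2 ln10_12_2_ok) (M (nat_lit 333) (B (L (nat_lit 301) ln13_9_5 ln13_9_5_ok) (L (nat_lit 460) ln13_10_5 ln13_10_5_ok)))))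 (M (nat_lit 426) (B (L (nat_lit 425) ln13_12_1 ln13_12_1_ok) (M (nat_lit 362) (B (L (nat_lit 361) ln13_12_3 ln13_12_3_ok) (M (nat_lit 459) (B (L (nat_lit 330) ln10_10_4 ln10_10_4_ok) (L (nat_lit 491) ln11_15_7 ln11_15_7_ok))))))))) (M (nat_lit 393) (B (L (nat_lit 392) ln8_12_0 ln8_12_0_ok) (L (nat_lit 426) ln13_13_3 ln13_13_3_ok))))))) (B (M (nat_lit 394) (B (M (nat_lit 393) (B (L (nat_lit 396) ln9_12_0 ln9_12_0_ok) (L (nat_lit 426) ln13_13_3 ln13_13_3_ok))) (B (M (nat_lit 426) (B (M (nat_lit 458) (B (L (nat_lit 457) ln13_13_1 ln13_13_1_ok) (M (nat_lit 363) (B (L (nat_lit 331) ln11_10_5 ln11_10_5_ok) (L (nat_lit 490) ln10_15_6 ln10_15_6_ok))))) (M (nat_lit 362) (B (M (nat_lit 330) (B (L (nat_lit 298) ln10_9_4 ln10_9_4_ok) (L (nat_lit 459) ln10_10_4 ln10_10_4_ok))) (M (nat_lit 396) (B (L (nat_lit 361) ln13_12_3 ln13_12_3_ok) (L (nat_lit 425) ln13_12_1 ln13_12_1_ok))))))) (B (M (nat_lit 426) (B (L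 (nat_lit 393) ln13_13_3 ln13_13_3_ok) (M (nat_lit 458) (B (L (nat_lit 457) ln13_13_1 ln13_13_1_ok) (M (nat_lit 363) (B (L (nat_lit 331) ln11_10_5 ln11_10_5_ok) (L (nat_lit 490) ln10_15_6 ln10_15_6_ok))))))) (M (nat_lit 396) (B (L (nat_lit 393) ln9_12_0 ln9_12_0_ok) (M (nat_lit 365) (B (L (nat_lit 366) ln10_12_2 ln10_12_2_ok) (M (nat_lit 333) (B (L (nat_lit 301) ln13_9_5 ln13_9_5_ok) (L (nat_lit 460) ln13_10_5 ln13_10_5_ok))))))))))) (B (M (nat_lit 363) (B (M (nat_lit 460) (B (L (nat_lit 331) ln11_10_4 ln11_10_4_ok) (M (nat_lit 492) (B (L (nat_lit 396) ln12_15_7 ln12_15_7_ok) (L (nat_lit 459) ln11_11_4 ln11_11_4_ok))))) (B (M (nat_lit 459) (B (M (nat_lit 460) (B (L (nat_lit 492) ln11_11_4 ln11_11_4_ok) (M (nat_lit 458) (B (L (nat_lit 490) ln11_11_5 ln11_11_5_ok) (L (nat_lit 457) ln9_14_2 ln9_14_2_ok))))) (M (nat_lit 491) (B (M (nat_lit 362) (B (L (nat_lit 330) ln11_14_7 ln11_14_7_ok) (L (nat_lit 394)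 ln11_15_7 ln11_15_7_ok))) (M (nat_lit 364) (B (L (nat_lit 332) ln11_14_6 ln11_14_6_ok) (L (nat_lit 396) ln11_15_6 ln11_15_6_ok))))))) (B (M (nat_lit 460) (B (L (nat_lit 331) ln11_10_4 ln11_10_4_ok) (M (nat_lit 492) (B (L (nat_lit 459) ln11_11_4 ln11_11_4_ok) (L (nat_lit 524) ln12_16_7 ln12_16_7_ok))))) (B (M (nat_lit 460) (B (L (nat_lit 331) ln11_10_4 ln11_10_4_ok) (M (nat_lit 492) (B (L (nat_lit 396) ln12_15_7 ln12_15_7_ok) (L (nat_lit 524) ln12_16_7 ln12_16_7_ok))))) (M (nat_lit 459) (B (M (nat_lit 458) (B (L (nat_lit 490) ln11_11_5 ln11_11_5_ok) (M (nat_lit 426) (B (L (nat_lit 331) ln11_10_5 ln11_10_5_ok) (L (nat_lit 457) ln13_13_1 ln13_13_1_ok))))) (M (nat_lit 491) (B (M (nat_lit 362) (B (L (nat_lit 330) ln11_14_7 ln11_14_7_ok) (L (nat_lit 394) ln11_15_7 ln11_15_7_ok))) (M (nat_lit 364) (B (L (nat_lit 332) ln11_14_6 ln11_14_6_ok) (L (nat_lit 396) ln11_15_6 ln11_15_6_ok)))))))))))) (B (M (nat_lit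 363) (B (M (nat_lit 460) (B (L (nat_lit 331) ln11_10_4 ln11_10_4_ok) (M (nat_lit 492) (B (L (nat_lit 396) ln12_15_7 ln12_15_7_ok) (L (nat_lit 459) ln11_11_4 ln11_11_4_ok))))) (B (M (nat_lit 459) (B (M (nat_lit 460) (B (L (nat_lit 492) ln11_11_4 ln11_11_4_ok) (M (nat_lit 458) (B (L (nat_lit 490) ln11_11_5 ln11_11_5_ok) (L (nat_lit 457) ln9_14_2 ln9_14_2_ok))))) (B (M (nat_lit 491) (B (M (nat_lit 364) (B (L (nat_lit 332) ln11_14_6 ln11_14_6_ok) (L (nat_lit 396) ln11_15_6 ln11_15_6_ok))) (M (nat_lit 492) (B (L (nat_lit 460) ln11_11_4 ln11_11_4_ok) (L (nat_lit 524) ln11_12_4 ln11_12_4_ok))))) (M (nat_lit 491) (B (M (nat_lit 364) (B (L (nat_lit 332) ln11_14_6 ln11_14_6_ok) (L (nat_lit 396) ln11_15_6 ln11_15_6_ok))) (M (nat_lit 490) (B (L (nat_lit 458) ln11_11_5 ln11_11_5_ok) (L (nat_lit 522) ln11_12_5 ln11_12_5_ok)))))))) (B (M (nat_lit 460) (B (L (nat_lit 331) ln11_10_4 ln11_10_4_ok) (M (nat_lit 492)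 (B (L (nat_lit 459) ln11_11_4 ln11_11_4_ok) (L (nat_lit 524) ln12_16_7 ln12_16_7_ok))))) (B (M (nat_lit 460) (B (L (nat_lit 331) ln11_10_4 ln11_10_4_ok) (M (nat_lit 492) (B (L (nat_lit 396) ln12_15_7 ln12_15_7_ok) (L (nat_lit 524) ln12_16_7 ln12_16_7_ok))))) (M (nat_lit 459) (B (M (nat_lit 458) (B (L (nat_lit 490) ln11_11_5 ln11_11_5_ok) (M (nat_lit 426) (B (L (nat_lit 331) ln11_10_5 ln11_10_5_ok) (L (nat_lit 457) ln13_13_1 ln13_13_1_ok))))) (B (M (nat_lit 491) (B (M (nat_lit 364) (B (L (nat_lit 332) ln11_14_6 ln11_14_6_ok) (L (nat_lit 396) ln11_15_6 ln11_15_6_ok))) (M (nat_lit 490) (B (L (nat_lit 458) ln11_11_5 ln11_11_5_ok) (L (nat_lit 522) ln11_12_5 ln11_12_5_ok))))) (M (nat_lit 331) (B (M (nat_lit 330) (B (L (nat_lit 298) ln11_13_7 ln11_13_7_ok) (L (nat_lit 362) ln11_14_7 ln11_14_7_ok))) (M (nat_lit 332) (B (L (nat_lit 300) ln11_13_6 ln11_13_6_ok) (L (nat_lit 364) ln11_14_6 ln11_14_6_ok)))))))))))))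 (B (M (nat_lit 363) (B (M (nat_lit 460) (B (L (nat_lit 331) ln11_10_4 ln11_10_4_ok) (M (nat_lit 492) (B (L (nat_lit 459) ln11_11_4 ln11_11_4_ok) (L (nat_lit 524) ln12_16_7 ln12_16_7_ok))))) (B (M (nat_lit 459) (B (M (nat_lit 460) (B (L (nat_lit 492) ln11_11_4 ln11_11_4_ok) (M (nat_lit 458) (B (L (nat_lit 490) ln11_11_5 ln11_11_5_ok) (L (nat_lit 457) ln9_14_2 ln9_14_2_ok))))) (M (nat_lit 394) (B (M (nat_lit 362) (B (L (nat_lit 330) ln11_14_7 ln11_14_7_ok) (L (nat_lit 491) ln11_15_7 ln11_15_7_ok))) (M (nat_lit 393) (B (L (nat_lit 392) ln8_12_0 ln8_12_0_ok) (L (nat_lit 426) ln13_13_3 ln13_13_3_ok))))))) (B (M (nat_lit 460) (B (L (nat_lit 331) ln11_10_4 ln11_10_4_ok) (M (nat_lit 492) (B (L (nat_lit 524) ln12_16_7 ln12_16_7_ok) (M (nat_lit 365) (B (L (nat_lit 333) ln13_10_5 ln13_10_5_ok) (L (nat_lit 461) ln13_11_5 ln13_11_5_ok))))))) (M (nat_lit 459) (B (M (nat_lit 458) (B (L (nat_lit 490) ln11_11_5 ln11_11_5_ok)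 (M (nat_lit 426) (B (L (nat_lit 331) ln11_10_5 ln11_10_5_ok) (L (nat_lit 457) ln13_13_1 ln13_13_1_ok))))) (B (M (nat_lit 394) (B (M (nat_lit 362) (B (L (nat_lit 330) ln11_14_7 ln11_14_7_ok) (L (nat_lit 491) ln11_15_7 ln11_15_7_ok))) (M (nat_lit 393) (B (L (nat_lit 392) ln8_12_0 ln8_12_0_ok) (L (nat_lit 426) ln13_13_3 ln13_13_3_ok))))) (M (nat_lit 491) (B (M (nat_lit 362) (B (L (nat_lit 330) ln11_14_7 ln11_14_7_ok) (L (nat_lit 394) ln11_15_7 ln11_15_7_ok))) (M (nat_lit 490) (B (L (nat_lit 458) ln11_11_5 ln11_11_5_ok) (L (nat_lit 522) ln11_12_5 ln11_12_5_ok)))))))))))) (B (M (nat_lit 363) (B (M (nat_lit 460) (B (L (nat_lit 331) ln11_10_4 ln11_10_4_ok) (M (nat_lit 492) (B (L (nat_lit 396) ln12_15_7 ln12_15_7_ok) (L (nat_lit 459) ln11_11_4 ln11_11_4_ok))))) (B (M (nat_lit 459) (B (M (nat_lit 460) (B (L (nat_lit 492) ln11_11_4 ln11_11_4_ok) (M (nat_lit 458) (B (L (nat_lit 490) ln11_11_5 ln11_11_5_ok)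 (L (nat_lit 457) ln9_14_2 ln9_14_2_ok))))) (B (M (nat_lit 491) (B (M (nat_lit 362) (B (L (nat_lit 330) ln11_14_7 ln11_14_7_ok) (L (nat_lit 394) ln11_15_7 ln11_15_7_ok))) (M (nat_lit 492) (B (L (nat_lit 460) ln11_11_4 ln11_11_4_ok) (L (nat_lit 524) ln11_12_4 ln11_12_4_ok))))) (M (nat_lit 491) (B (M (nat_lit 362) (B (L (nat_lit 330) ln11_14_7 ln11_14_7_ok) (L (nat_lit 394) ln11_15_7 ln11_15_7_ok))) (M (nat_lit 490) (B (L (nat_lit 458) ln11_11_5 ln11_11_5_ok) (L (nat_lit 522) ln11_12_5 ln11_12_5_ok)))))))) (B (M (nat_lit 460) (B (L (nat_lit 331) ln11_10_4 ln11_10_4_ok) (M (nat_lit 492) (B (L (nat_lit 396) ln12_15_7 ln12_15_7_ok) (L (nat_lit 524) ln12_16_7 ln12_16_7_ok))))) (M (nat_lit 459) (B (M (nat_lit 491) (B (M (nat_lit 364) (B (L (nat_lit 332) ln11_14_6 ln11_14_6_ok) (L (nat_lit 396) ln11_15_6 ln11_15_6_ok))) (M (nat_lit 490) (B (L (nat_lit 458) ln11_11_5 ln11_11_5_ok) (L (nat_lit 522) ln11_12_5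 ln11_12_5_ok))))) (B (M (nat_lit 491) (B (M (nat_lit 362) (B (L (nat_lit 330) ln11_14_7 ln11_14_7_ok) (L (nat_lit 394) ln11_15_7 ln11_15_7_ok))) (M (nat_lit 490) (B (L (nat_lit 458) ln11_11_5 ln11_11_5_ok) (L (nat_lit 522) ln11_12_5 ln11_12_5_ok))))) (B (M (nat_lit 491) (B (M (nat_lit 362) (B (L (nat_lit 330) ln11_14_7 ln11_14_7_ok) (L (nat_lit 394) ln11_15_7 ln11_15_7_ok))) (M (nat_lit 364) (B (L (nat_lit 332) ln11_14_6 ln11_14_6_ok) (L (nat_lit 396) ln11_15_6 ln11_15_6_ok))))) (M (nat_lit 331) (B (M (nat_lit 330) (B (L (nat_lit 298) ln11_13_7 ln11_13_7_ok) (L (nat_lit 362) ln11_14_7 ln11_14_7_ok))) (M (nat_lit 332) (B (L (nat_lit 300) ln11_13_6 ln11_13_6_ok) (L (nat_lit 364) ln11_14_6 ln11_14_6_ok))))))))))))) (M (nat_lit 426) (B (M (nat_lit 393) (B (L (nat_lit 394) ln13_13_3 ln13_13_3_ok) (M (nat_lit 425) (B (L (nat_lit 392) ln12_13_3 ln12_13_3_ok) (L (nat_lit 396) ln9_13_2 ln9_13_2_ok))))) (B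 (M (nat_lit 394) (B (L (nat_lit 393) ln13_13_3 ln13_13_3_ok) (M (nat_lit 458) (B (L (nat_lit 457) ln13_13_1 ln13_13_1_ok) (M (nat_lit 363) (B (L (nat_lit 331) ln11_10_5 ln11_10_5_ok) (L (nat_lit 490) ln10_15_6 ln10_15_6_ok))))))) (M (nat_lit 460) (B (M (nat_lit 425) (B (L (nat_lit 396) ln9_13_2 ln9_13_2_ok) (L (nat_lit 461) ln9_13_0 ln9_13_0_ok))) (B (M (nat_lit 492) (B (L (nat_lit 524) ln12_16_7 ln12_16_7_ok) (M (nat_lit 365) (B (L (nat_lit 333) ln13_10_5 ln13_10_5_ok) (L (nat_lit 461) ln13_11_5 ln13_11_5_ok))))) (M (nat_lit 492) (B (L (nat_lit 524) ln12_16_7 ln12_16_7_ok) (M (nat_lit 365) (B (L (nat_lit 333) ln13_10_5 ln13_10_5_ok) (L (nat_lit 396) ln12_15_6 ln12_15_6_ok)))))))))))))))))))))) (nat_lit 2426085982678494236891975984832188137007258925245052727377822572141626063897503372912082754669827799995234538520716021846945824768) (nat_lit 68647976623682790770020424537637031466787157274393392832082515785067326969316764279889902168142286263824183491494761988289489413616609872378077292158517248000)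 (nat_lit 68647976623682790770020424537637031466787157274393392832082515785067326969316764279889902168142286263824183491494761988289489413616609872378077292158517248000) (by decide +kernel)
theorem c11_s13122 : Sem (nat_lit 2079502270913392379444674211814302674077704290823075655481512624564798400421800170032085953906810352733060637150540575368324055040) (nat_lit 96107167266602732516590709787462265542927493804458651626873774535520140739255114215870426482366779846935676035431249747126589326850864608721339188529476927488) (nat_lit 96107167266602732516590709787462265542927493804458651626873774535520140739255114215870426482366779846935676035431249747126589326850864608721339188529476927488) :=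
  sem_of_chk (M (nat_lit 427) (B (M (nat_lit 460) (B (M (nat_lit 492) (B (L (nat_lit 524) ln12_16_6 ln12_16_6_ok) (M (nat_lit 365) (B (L (nat_lit 333) ln13_10_5 ln13_10_5_ok) (L (nat_lit 461) ln13_11_5 ln13_11_5_ok))))) (B (M (nat_lit 492) (B (L (nat_lit 524) ln12_16_6 ln12_16_6_ok) (M (nat_lit 365) (B (L (nat_lit 396) ln12_15_6 ln12_15_6_ok) (L (nat_lit 461) ln13_11_5 ln13_11_5_ok))))) (B (M (nat_lit 430) (B (M (nat_lit 459) (B (L (nat_lit 458) ln14_13_1 ln14_13_1_ok) (L (nat_lit 431) ln15_13_1 ln15_13_1_ok))) (M (nat_lit 426) (B (M (nat_lit 394) (B (L (nat_lit 393) ln13_13_3 ln13_13_3_ok) (L (nat_lit 395) ln14_13_3 ln14_13_3_ok))) (M (nat_lit 425) (B (L (nat_lit 396) ln9_13_2 ln9_13_2_ok) (L (nat_lit 461) ln9_13_0 ln9_13_0_ok))))))) (M (nat_lit 492) (B (L (nat_lit 524) ln12_16_6 ln12_16_6_ok) (M (nat_lit 365) (B (L (nat_lit 333) ln13_10_5 ln13_10_5_ok) (L (nat_lit 396) ln12_15_6 ln12_15_6_ok)))))))))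 (B (M (nat_lit 460) (B (M (nat_lit 492) (B (L (nat_lit 524) ln12_16_6 ln12_16_6_ok) (M (nat_lit 365) (B (L (nat_lit 396) ln12_15_6 ln12_15_6_ok) (L (nat_lit 461) ln13_11_5 ln13_11_5_ok))))) (B (M (nat_lit 395) (B (M (nat_lit 492) (B (L (nat_lit 524) ln12_16_7 ln12_16_7_ok) (M (nat_lit 363) (B (L (nat_lit 331) ln11_10_4 ln11_10_4_ok) (L (nat_lit 396) ln12_15_7 ln12_15_7_ok))))) (M (nat_lit 394) (B (L (nat_lit 430) ln14_13_3 ln14_13_3_ok) (M (nat_lit 393) (B (L (nat_lit 392) ln8_12_0 ln8_12_0_ok) (L (nat_lit 426) ln13_13_3 ln13_13_3_ok))))))) (B (M (nat_lit 395) (B (M (nat_lit 492) (B (L (nat_lit 524) ln12_16_7 ln12_16_7_ok) (M (nat_lit 363) (B (L (nat_lit 331) ln11_10_4 ln11_10_4_ok) (L (nat_lit 459) ln11_11_4 ln11_11_4_ok))))) (M (nat_lit 394) (B (L (nat_lit 430) ln14_13_3 ln14_13_3_ok) (M (nat_lit 393) (B (L (nat_lit 392) ln8_12_0 ln8_12_0_ok) (L (nat_lit 426) ln13_13_3 ln13_13_3_ok))))))) (M (nat_lit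 430) (B (M (nat_lit 459) (B (L (nat_lit 458) ln14_13_1 ln14_13_1_ok) (L (nat_lit 431) ln15_13_1 ln15_13_1_ok))) (M (nat_lit 426) (B (M (nat_lit 394) (B (L (nat_lit 393) ln13_13_3 ln13_13_3_ok) (L (nat_lit 395) ln14_13_3 ln14_13_3_ok))) (M (nat_lit 425) (B (L (nat_lit 396) ln9_13_2 ln9_13_2_ok) (L (nat_lit 461) ln9_13_0 ln9_13_0_ok))))))))))) (B (M (nat_lit 426) (B (M (nat_lit 393) (B (L (nat_lit 394) ln13_13_3 ln13_13_3_ok) (M (nat_lit 425) (B (L (nat_lit 392) ln12_13_3 ln12_13_3_ok) (L (nat_lit 396) ln9_13_2 ln9_13_2_ok))))) (B (M (nat_lit 430) (B (M (nat_lit 394) (B (L (nat_lit 393) ln13_13_3 ln13_13_3_ok) (L (nat_lit 395) ln14_13_3 ln14_13_3_ok))) (M (nat_lit 458) (B (L (nat_lit 457) ln13_13_1 ln13_13_1_ok) (L (nat_lit 459) ln14_13_1 ln14_13_1_ok))))) (M (nat_lit 425) (B (L (nat_lit 396) ln9_13_2 ln9_13_2_ok) (M (nat_lit 459) (B (M (nat_lit 460) (B (L (nat_lit 424) ln8_13_0 ln8_13_0_ok) (L (nat_lit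 461) ln9_13_0 ln9_13_0_ok))) (M (nat_lit 458) (B (L (nat_lit 457) ln13_13_1 ln13_13_1_ok) (L (nat_lit 430) ln14_13_1 ln14_13_1_ok)))))))))) (B c11_n13001 (B (M (nat_lit 460) (B (M (nat_lit 492) (B (L (nat_lit 524) ln12_16_6 ln12_16_6_ok) (M (nat_lit 365) (B (L (nat_lit 333) ln13_10_5 ln13_10_5_ok) (L (nat_lit 461) ln13_11_5 ln13_11_5_ok))))) (B (M (nat_lit 492) (B (L (nat_lit 524) ln12_16_6 ln12_16_6_ok) (M (nat_lit 365) (B (L (nat_lit 396) ln12_15_6 ln12_15_6_ok) (L (nat_lit 461) ln13_11_5 ln13_11_5_ok))))) (B (M (nat_lit 492) (B (L (nat_lit 524) ln12_16_6 ln12_16_6_ok) (M (nat_lit 459) (B (M (nat_lit 458) (B (L (nat_lit 430) ln14_13_1 ln14_13_1_ok) (L (nat_lit 457) ln9_14_2 ln9_14_2_ok))) (M (nat_lit 491) (B (M (nat_lit 396) (B (L (nat_lit 364) ln12_11_5 ln12_11_5_ok) (L (nat_lit 523) ln11_16_6 ln11_16_6_ok))) (M (nat_lit 490) (B (M (nat_lit 395) (B (L (nat_lit 363) ln11_11_4 ln11_11_4_ok) (L (nat_lit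 522) ln11_12_5 ln11_12_5_ok))) (M (nat_lit 489) (B (L (nat_lit 488) ln8_15_2 ln8_15_2_ok) (L (nat_lit 461) ln9_15_2 ln9_15_2_ok))))))))))) (B (M (nat_lit 492) (B (L (nat_lit 524) ln12_16_6 ln12_16_6_ok) (M (nat_lit 365) (B (L (nat_lit 333) ln13_10_5 ln13_10_5_ok) (L (nat_lit 396) ln12_15_6 ln12_15_6_ok))))) (M (nat_lit 458) (B (M (nat_lit 457) (B (L (nat_lit 426) ln13_13_1 ln13_13_1_ok) (L (nat_lit 459) ln9_14_2 ln9_14_2_ok))) (B (M (nat_lit 459) (B (L (nat_lit 430) ln14_13_1 ln14_13_1_ok) (L (nat_lit 457) ln9_14_2 ln9_14_2_ok))) (B (M (nat_lit 459) (B (L (nat_lit 430) ln14_13_1 ln14_13_1_ok) (M (nat_lit 491) (B (M (nat_lit 396) (B (L (nat_lit 364) ln12_11_5 ln12_11_5_ok) (L (nat_lit 523) ln11_16_6 ln11_16_6_ok))) (M (nat_lit 490) (B (M (nat_lit 395) (B (L (nat_lit 363) ln11_11_5 ln11_11_5_ok) (L (nat_lit 522) ln11_12_5 ln11_12_5_ok))) (M (nat_lit 489) (B (L (nat_lit 461) ln13_14_1 ln13_14_1_ok)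 (L (nat_lit 488) ln8_15_2 ln8_15_2_ok))))))))) (M (nat_lit 426) (B (L (nat_lit 457) ln13_13_1 ln13_13_1_ok) (M (nat_lit 425) (B (L (nat_lit 396) ln9_13_2 ln9_13_2_ok) (L (nat_lit 461) ln9_13_0 ln9_13_0_ok)))))))))))))) (B (M (nat_lit 426) (B (M (nat_lit 393) (B (L (nat_lit 394) ln13_13_3 ln13_13_3_ok) (M (nat_lit 425) (B (L (nat_lit 392) ln12_13_3 ln12_13_3_ok) (L (nat_lit 396) ln9_13_2 ln9_13_2_ok))))) (B (M (nat_lit 425) (B (L (nat_lit 396) ln9_13_2 ln9_13_2_ok) (M (nat_lit 459) (B (M (nat_lit 460) (B (L (nat_lit 424) ln8_13_0 ln8_13_0_ok) (L (nat_lit 461) ln9_13_0 ln9_13_0_ok))) (M (nat_lit 458) (B (L (nat_lit 457) ln13_13_1 ln13_13_1_ok) (L (nat_lit 430) ln14_13_1 ln14_13_1_ok))))))) (B (M (nat_lit 425) (B (M (nat_lit 393) (B (L (nat_lit 392) ln12_13_3 ln12_13_3_ok) (L (nat_lit 394) ln13_13_3 ln13_13_3_ok))) (M (nat_lit 459) (B (M (nat_lit 460) (B (L (nat_lit 424) ln8_13_0 ln8_13_0_ok) (L (nat_lit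 461) ln9_13_0 ln9_13_0_ok))) (M (nat_lit 458) (B (L (nat_lit 457) ln13_13_1 ln13_13_1_ok) (L (nat_lit 430) ln14_13_1 ln14_13_1_ok))))))) (M (nat_lit 458) (B (L (nat_lit 457) ln13_13_1 ln13_13_1_ok) (M (nat_lit 394) (B (L (nat_lit 393) ln13_13_3 ln13_13_3_ok) (M (nat_lit 459) (B (L (nat_lit 430) ln14_13_1 ln14_13_1_ok) (M (nat_lit 362) (B (L (nat_lit 330) ln10_10_4 ln10_10_4_ok) (L (nat_lit 491) ln10_11_4 ln10_11_4_ok))))))))))))) (B (M (nat_lit 460) (B (M (nat_lit 492) (B (L (nat_lit 524) ln12_16_6 ln12_16_6_ok) (M (nat_lit 365) (B (L (nat_lit 333) ln13_10_5 ln13_10_5_ok) (L (nat_lit 461) ln13_11_5 ln13_11_5_ok))))) (B (M (nat_lit 395) (B (M (nat_lit 492) (B (L (nat_lit 524) ln12_16_7 ln12_16_7_ok) (M (nat_lit 363) (B (L (nat_lit 331) ln11_10_4 ln11_10_4_ok) (L (nat_lit 459) ln11_11_4 ln11_11_4_ok))))) (M (nat_lit 394) (B (L (nat_lit 430) ln14_13_3 ln14_13_3_ok) (M (nat_lit 393) (B (L (nat_lit 392)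 ln8_12_0 ln8_12_0_ok) (L (nat_lit 426) ln13_13_3 ln13_13_3_ok))))))) (M (nat_lit 426) (B (M (nat_lit 425) (B (L (nat_lit 461) ln9_13_0 ln9_13_0_ok) (M (nat_lit 393) (B (L (nat_lit 392) ln12_13_3 ln12_13_3_ok) (L (nat_lit 394) ln13_13_3 ln13_13_3_ok))))) (B (M (nat_lit 459) (B (M (nat_lit 425) (B (L (nat_lit 424) ln8_13_0 ln8_13_0_ok) (L (nat_lit 461) ln9_13_0 ln9_13_0_ok))) (M (nat_lit 430) (B (L (nat_lit 458) ln14_13_1 ln14_13_1_ok) (L (nat_lit 431) ln15_13_1 ln15_13_1_ok))))) (M (nat_lit 430) (B (M (nat_lit 394) (B (L (nat_lit 393) ln13_13_3 ln13_13_3_ok) (L (nat_lit 395) ln14_13_3 ln14_13_3_ok))) (M (nat_lit 458) (B (L (nat_lit 457) ln13_13_1 ln13_13_1_ok) (L (nat_lit 459) ln14_13_1 ln14_13_1_ok))))))))))) (B c11_n13026 (B c11_n13036 (B (K (nat_lit 2426085982678494236891975984832188137007258925245052727377822572141626063897503372912082754669827799995234538520716021846945824768) (nat_lit 68647976623682790770020424537637031466787157274393392832082515785067326969316764279889902168142286263824183491494761988289489413616609872378077292158517248000)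 (nat_lit 68647976623682790770020424537637031466787157274393392832082515785067326969316764279889902168142286263824183491494761988289489413616609872378077292158517248000) c11_s13107) (B (M (nat_lit 460) (B (M (nat_lit 492) (B (L (nat_lit 524) ln12_16_6 ln12_16_6_ok) (M (nat_lit 365) (B (L (nat_lit 333) ln13_10_5 ln13_10_5_ok) (L (nat_lit 461) ln13_11_5 ln13_11_5_ok))))) (B (M (nat_lit 492) (B (L (nat_lit 524) ln12_16_6 ln12_16_6_ok) (M (nat_lit 365) (B (L (nat_lit 396) ln12_15_6 ln12_15_6_ok) (L (nat_lit 461) ln13_11_5 ln13_11_5_ok))))) (B (M (nat_lit 395) (B (M (nat_lit 492) (B (L (nat_lit 524) ln12_16_7 ln12_16_7_ok) (M (nat_lit 363) (B (L (nat_lit 396) ln12_15_7 ln12_15_7_ok) (L (nat_lit 459) ln11_11_4 ln11_11_4_ok))))) (M (nat_lit 394) (B (L (nat_lit 430) ln14_13_3 ln14_13_3_ok) (M (nat_lit 393) (B (L (nat_lit 392) ln8_12_0 ln8_12_0_ok) (L (nat_lit 426) ln13_13_3 ln13_13_3_ok))))))) (M (nat_lit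 430) (B (M (nat_lit 431) (B (L (nat_lit 459) ln15_13_1 ln15_13_1_ok) (M (nat_lit 395) (B (L (nat_lit 394) ln14_13_3 ln14_13_3_ok) (L (nat_lit 396) ln15_13_3 ln15_13_3_ok))))) (B (M (nat_lit 431) (B (L (nat_lit 459) ln15_13_1 ln15_13_1_ok) (M (nat_lit 396) (B (L (nat_lit 395) ln15_13_3 ln15_13_3_ok) (L (nat_lit 432) ln16_13_3 ln16_13_3_ok))))) (B (M (nat_lit 431) (B (L (nat_lit 459) ln15_13_1 ln15_13_1_ok) (M (nat_lit 432) (B (L (nat_lit 396) ln16_13_3 ln16_13_3_ok) (L (nat_lit 461) ln16_13_1 ln16_13_1_ok))))) (B (M (nat_lit 394) (B (L (nat_lit 395) ln14_13_3 ln14_13_3_ok) (M (nat_lit 461) (B (M (nat_lit 426) (B (L (nat_lit 393) ln13_13_3 ln13_13_3_ok) (L (nat_lit 425) ln9_13_0 ln9_13_0_ok))) (M (nat_lit 431) (B (L (nat_lit 459) ln15_13_1 ln15_13_1_ok) (L (nat_lit 432) ln16_13_1 ln16_13_1_ok))))))) (M (nat_lit 426) (B (M (nat_lit 394) (B (L (nat_lit 393) ln13_13_3 ln13_13_3_ok) (L (nat_lit 395) ln14_13_3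 ln14_13_3_ok))) (M (nat_lit 425) (B (L (nat_lit 396) ln9_13_2 ln9_13_2_ok) (L (nat_lit 461) ln9_13_0 ln9_13_0_ok)))))))))))))) (B (M (nat_lit 426) (B (M (nat_lit 393) (B (L (nat_lit 394) ln13_13_3 ln13_13_3_ok) (M (nat_lit 425) (B (L (nat_lit 392) ln12_13_3 ln12_13_3_ok) (L (nat_lit 396) ln9_13_2 ln9_13_2_ok))))) (B (M (nat_lit 460) (B (M (nat_lit 425) (B (L (nat_lit 396) ln9_13_2 ln9_13_2_ok) (L (nat_lit 461) ln9_13_0 ln9_13_0_ok))) (B (M (nat_lit 365) (B (L (nat_lit 333) ln13_10_5 ln13_10_5_ok) (M (nat_lit 461) (B (L (nat_lit 492) ln13_11_5 ln13_11_5_ok) (L (nat_lit 425) ln9_13_0 ln9_13_0_ok))))) (M (nat_lit 365) (B (L (nat_lit 333) ln13_10_5 ln13_10_5_ok) (M (nat_lit 492) (B (L (nat_lit 396) ln12_15_6 ln12_15_6_ok) (L (nat_lit 524) ln12_16_6 ln12_16_6_ok)))))))) (M (nat_lit 394) (B (L (nat_lit 393) ln13_13_3 ln13_13_3_ok) (M (nat_lit 395) (B (L (nat_lit 430) ln14_13_3 ln14_13_3_ok) (M (nat_lit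 458) (B (L (nat_lit 457) ln13_13_1 ln13_13_1_ok) (M (nat_lit 363) (B (L (nat_lit 331) ln11_10_5 ln11_10_5_ok) (L (nat_lit 490) ln10_15_6 ln10_15_6_ok)))))))))))) (M (nat_lit 426) (B (M (nat_lit 393) (B (L (nat_lit 394) ln13_13_3 ln13_13_3_ok) (M (nat_lit 425) (B (L (nat_lit 392) ln12_13_3 ln12_13_3_ok) (L (nat_lit 396) ln9_13_2 ln9_13_2_ok))))) (B (M (nat_lit 430) (B (M (nat_lit 394) (B (L (nat_lit 393) ln13_13_3 ln13_13_3_ok) (L (nat_lit 395) ln14_13_3 ln14_13_3_ok))) (M (nat_lit 458) (B (L (nat_lit 457) ln13_13_1 ln13_13_1_ok) (L (nat_lit 459) ln14_13_1 ln14_13_1_ok))))) (M (nat_lit 396) (B (L (nat_lit 425) ln9_13_2 ln9_13_2_ok) (M (nat_lit 430) (B (M (nat_lit 431) (B (L (nat_lit 395) ln15_13_3 ln15_13_3_ok) (L (nat_lit 432) ln16_13_3 ln16_13_3_ok))) (M (nat_lit 458) (B (L (nat_lit 457) ln13_13_1 ln13_13_1_ok) (L (nat_lit 459) ln14_13_1 ln14_13_1_ok))))))))))))))))))))))) (nat_lit 2079502270913392379444674211814302674077704290823075655481512624564798400421800170032085953906810352733060637150540575368324055040)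 (nat_lit 96107167266602732516590709787462265542927493804458651626873774535520140739255114215870426482366779846935676035431249747126589326850864608721339188529476927488) (nat_lit 96107167266602732516590709787462265542927493804458651626873774535520140739255114215870426482366779846935676035431249747126589326850864608721339188529476927488) (by decide +kernel)
noncomputable def c11_n13138 : Cert := (M (nat_lit 427) (B (M (nat_lit 398) (B (L (nat_lit 426) ln10_13_2 ln10_13_2_ok) (M (nat_lit 399) (B (L (nat_lit 396) ln15_12_1 ln15_12_1_ok) (L (nat_lit 400) ln16_12_1 ln16_12_1_ok))))) (B (M (nat_lit 398) (B (L (nat_lit 426) ln10_13_2 ln10_13_2_ok) (M (nat_lit 399) (B (L (nat_lit 400) ln16_12_1 ln16_12_1_ok) (L (nat_lit 430) ln11_13_2 ln11_13_2_ok))))) (B (M (nat_lit 430) (B (M (nat_lit 394) (B (L (nat_lit 395) ln14_13_3 ln14_13_3_ok) (M (nat_lit 426) (B (L (nat_lit 393) ln13_13_3 ln13_13_3_ok) (M (nat_lit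 458) (B (L (nat_lit 457) ln13_13_1 ln13_13_1_ok) (L (nat_lit 459) ln14_13_1 ln14_13_1_ok))))))) (B (M (nat_lit 395) (B (L (nat_lit 394) ln14_13_3 ln14_13_3_ok) (M (nat_lit 459) (B (L (nat_lit 458) ln14_13_1 ln14_13_1_ok) (M (nat_lit 431) (B (L (nat_lit 396) ln15_13_3 ln15_13_3_ok) (L (nat_lit 460) ln15_13_1 ln15_13_1_ok))))))) (B (M (nat_lit 431) (B (M (nat_lit 396) (B (L (nat_lit 395) ln15_13_3 ln15_13_3_ok) (L (nat_lit 432) ln16_13_3 ln16_13_3_ok))) (M (nat_lit 459) (B (L (nat_lit 458) ln14_13_1 ln14_13_1_ok) (L (nat_lit 460) ln15_13_1 ln15_13_1_ok))))) (B (M (nat_lit 431) (B (M (nat_lit 459) (B (L (nat_lit 458) ln14_13_1 ln14_13_1_ok) (L (nat_lit 460) ln15_13_1 ln15_13_1_ok))) (M (nat_lit 432) (B (L (nat_lit 396) ln16_13_3 ln16_13_3_ok) (M (nat_lit 400) (B (L (nat_lit 399) ln12_13_2 ln12_13_2_ok) (L (nat_lit 401) ln13_13_2 ln13_13_2_ok))))))) (M (nat_lit 431) (B (M (nat_lit 395) (B (L (nat_lit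 394) ln14_13_3 ln14_13_3_ok) (L (nat_lit 396) ln15_13_3 ln15_13_3_ok))) (B (M (nat_lit 396) (B (L (nat_lit 395) ln15_13_3 ln15_13_3_ok) (L (nat_lit 432) ln16_13_3 ln16_13_3_ok))) (B (M (nat_lit 432) (B (L (nat_lit 396) ln16_13_3 ln16_13_3_ok) (M (nat_lit 400) (B (L (nat_lit 399) ln12_13_2 ln12_13_2_ok) (L (nat_lit 401) ln13_13_2 ln13_13_2_ok))))) (M (nat_lit 432) (B (M (nat_lit 400) (B (L (nat_lit 399) ln12_13_2 ln12_13_2_ok) (L (nat_lit 401) ln13_13_2 ln13_13_2_ok))) (M (nat_lit 464) (B (L (nat_lit 463) ln12_13_0 ln12_13_0_ok) (L (nat_lit 465) ln13_13_0 ln13_13_0_ok)))))))))))))) (B (M (nat_lit 426) (B (L (nat_lit 398) ln10_13_2 ln10_13_2_ok) (M (nat_lit 430) (B (M (nat_lit 394) (B (L (nat_lit 393) ln13_13_3 ln13_13_3_ok) (L (nat_lit 395) ln14_13_3 ln14_13_3_ok))) (M (nat_lit 458) (B (L (nat_lit 457) ln13_13_1 ln13_13_1_ok) (L (nat_lit 459) ln14_13_1 ln14_13_1_ok))))))) (M (nat_lit 398) (B (M (nat_lit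 399) (B (L (nat_lit 396) ln15_12_1 ln15_12_1_ok) (L (nat_lit 400) ln16_12_1 ln16_12_1_ok))) (B (M (nat_lit 399) (B (L (nat_lit 400) ln16_12_1 ln16_12_1_ok) (L (nat_lit 430) ln11_13_2 ln11_13_2_ok))) (M (nat_lit 395) (B (M (nat_lit 430) (B (L (nat_lit 394) ln14_13_3 ln14_13_3_ok) (M (nat_lit 431) (B (L (nat_lit 396) ln11_12_0 ln11_12_0_ok) (M (nat_lit 459) (B (L (nat_lit 458) ln14_13_1 ln14_13_1_ok) (L (nat_lit 460) ln15_13_1 ln15_13_1_ok))))))) (B (M (nat_lit 396) (B (M (nat_lit 363) (B (L (nat_lit 362) ln14_12_3 ln14_12_3_ok) (M (nat_lit 331) (B (L (nat_lit 299) ln11_9_4 ln11_9_4_ok) (L (nat_lit 460) ln11_10_4 ln11_10_4_ok))))) (M (nat_lit 459) (B (M (nat_lit 364) (B (L (nat_lit 332) ln12_10_5 ln12_10_5_ok) (L (nat_lit 491) ln11_15_6 ln11_15_6_ok))) (M (nat_lit 430) (B (L (nat_lit 431) ln11_12_0 ln11_12_0_ok) (L (nat_lit 458) ln14_13_1 ln14_13_1_ok))))))) (B (M (nat_lit 460) (B (M (nat_lit 492)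 (B (L (nat_lit 524) ln12_16_7 ln12_16_7_ok) (M (nat_lit 365) (B (L (nat_lit 333) ln13_10_5 ln13_10_5_ok) (L (nat_lit 461) ln13_11_5 ln13_11_5_ok))))) (M (nat_lit 430) (B (L (nat_lit 394) ln14_13_3 ln14_13_3_ok) (M (nat_lit 459) (B (L (nat_lit 458) ln14_13_1 ln14_13_1_ok) (L (nat_lit 431) ln15_13_1 ln15_13_1_ok))))))) (B (M (nat_lit 396) (B (M (nat_lit 366) (B (L (nat_lit 367) ln11_12_2 ln11_12_2_ok) (M (nat_lit 394) (B (L (nat_lit 365) ln10_12_2 ln10_12_2_ok) (L (nat_lit 393) ln9_12_0 ln9_12_0_ok))))) (M (nat_lit 363) (B (L (nat_lit 362) ln14_12_3 ln14_12_3_ok) (M (nat_lit 331) (B (L (nat_lit 299) ln11_9_4 ln11_9_4_ok) (L (nat_lit 460) ln11_10_4 ln11_10_4_ok))))))) (M (nat_lit 394) (B (L (nat_lit 430) ln14_13_3 ln14_13_3_ok) (M (nat_lit 396) (B (L (nat_lit 393) ln9_12_0 ln9_12_0_ok) (M (nat_lit 366) (B (L (nat_lit 365) ln10_12_2 ln10_12_2_ok) (L (nat_lit 367) ln11_12_2 ln11_12_2_ok))))))))))))))))))))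
noncomputable def c11_n13243 : Cert := (M (nat_lit 364) (B (M (nat_lit 365) (B (L (nat_lit 333) ln13_10_5 ln13_10_5_ok) (M (nat_lit 332) (B (L (nat_lit 461) ln13_14_7 ln13_14_7_ok) (M (nat_lit 300) (B (L (nat_lit 268) ln12_8_4 ln12_8_4_ok) (L (nat_lit 396) ln12_9_4 ln12_9_4_ok))))))) (B (M (nat_lit 461) (B (M (nat_lit 365) (B (L (nat_lit 332) ln13_14_7 ln13_14_7_ok) (L (nat_lit 333) ln13_10_5 ln13_10_5_ok))) (M (nat_lit 459) (B (M (nat_lit 396) (B (L (nat_lit 493) ln13_15_7 ln13_15_7_ok) (L (nat_lit 491) ln12_11_5 ln12_11_5_ok))) (M (nat_lit 430) (B (L (nat_lit 431) ln15_13_1 ln15_13_1_ok) (L (nat_lit 458) ln10_14_2 ln10_14_2_ok))))))) (B (M (nat_lit 396) (B (M (nat_lit 365) (B (L (nat_lit 333) ln12_14_6 ln12_14_6_ok) (M (nat_lit 363) (B (L (nat_lit 331) ln12_14_7 ln12_14_7_ok) (M (nat_lit 362) (B (L (nat_lit 361) ln9_11_0 ln9_11_0_ok) (L (nat_lit 398) ln10_11_0 ln10_11_0_ok))))))) (M (nat_lit 459)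 (B (L (nat_lit 491) ln12_11_5 ln12_11_5_ok) (M (nat_lit 430) (B (L (nat_lit 431) ln15_13_1 ln15_13_1_ok) (M (nat_lit 458) (B (L (nat_lit 427) ln14_13_1 ln14_13_1_ok) (L (nat_lit 461) ln10_14_2 ln10_14_2_ok))))))))) (B (M (nat_lit 396) (B (M (nat_lit 461) (B (L (nat_lit 332) ln12_10_4 ln12_10_4_ok) (L (nat_lit 493) ln13_15_7 ln13_15_7_ok))) (B (M (nat_lit 459) (B (L (nat_lit 491) ln12_11_5 ln12_11_5_ok) (M (nat_lit 430) (B (L (nat_lit 431) ln15_13_1 ln15_13_1_ok) (M (nat_lit 458) (B (L (nat_lit 427) ln14_13_1 ln14_13_1_ok) (L (nat_lit 461) ln10_14_2 ln10_14_2_ok))))))) (M (nat_lit 459) (B (L (nat_lit 491) ln12_11_5 ln12_11_5_ok) (M (nat_lit 430) (B (L (nat_lit 431) ln15_13_1 ln15_13_1_ok) (M (nat_lit 427) (B (L (nat_lit 332) ln12_10_5 ln12_10_5_ok) (L (nat_lit 458) ln14_13_1 ln14_13_1_ok)))))))))) (B (M (nat_lit 430) (B (M (nat_lit 459) (B (L (nat_lit 431) ln15_13_1 ln15_13_1_ok) (M (nat_lit 458)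 (B (L (nat_lit 427) ln14_13_1 ln14_13_1_ok) (L (nat_lit 461) ln10_14_2 ln10_14_2_ok))))) (B (M (nat_lit 459) (B (L (nat_lit 431) ln15_13_1 ln15_13_1_ok) (M (nat_lit 365) (B (L (nat_lit 333) ln13_10_5 ln13_10_5_ok) (M (nat_lit 461) (B (L (nat_lit 332) ln13_14_7 ln13_14_7_ok) (L (nat_lit 458) ln10_14_2 ln10_14_2_ok))))))) (B (M (nat_lit 398) (B (M (nat_lit 399) (B (L (nat_lit 400) ln16_12_1 ln16_12_1_ok) (L (nat_lit 427) ln11_13_2 ln11_13_2_ok))) (M (nat_lit 461) (B (M (nat_lit 365) (B (L (nat_lit 332) ln13_14_7 ln13_14_7_ok) (L (nat_lit 333) ln13_10_5 ln13_10_5_ok))) (M (nat_lit 493) (B (L (nat_lit 366) ln13_15_6 ln13_15_6_ok) (L (nat_lit 525) ln13_16_6 ln13_16_6_ok))))))) (M (nat_lit 399) (B (M (nat_lit 398) (B (L (nat_lit 400) ln16_12_1 ln16_12_1_ok) (L (nat_lit 427) ln11_13_2 ln11_13_2_ok))) (B (M (nat_lit 431) (B (L (nat_lit 400) ln12_13_2 ln12_13_2_ok) (L (nat_lit 459) ln15_13_1 ln15_13_1_ok)))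 (M (nat_lit 427) (B (L (nat_lit 398) ln11_13_2 ln11_13_2_ok) (M (nat_lit 459) (B (L (nat_lit 458) ln14_13_1 ln14_13_1_ok) (L (nat_lit 431) ln15_13_1 ln15_13_1_ok)))))))))))) (M (nat_lit 365) (B (L (nat_lit 333) ln13_10_5 ln13_10_5_ok) (M (nat_lit 396) (B (M (nat_lit 459) (B (L (nat_lit 491) ln12_11_5 ln12_11_5_ok) (M (nat_lit 332) (B (L (nat_lit 300) ln12_9_4 ln12_9_4_ok) (L (nat_lit 427) ln12_10_5 ln12_10_5_ok))))) (M (nat_lit 363) (B (L (nat_lit 331) ln12_14_7 ln12_14_7_ok) (M (nat_lit 362) (B (L (nat_lit 361) ln9_11_0 ln9_11_0_ok) (L (nat_lit 398) ln10_11_0 ln10_11_0_ok)))))))))))))))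
noncomputable def c11_n13244 : Cert := (M (nat_lit 460) (B (M (nat_lit 492) (B (L (nat_lit 524) ln12_16_6 ln12_16_6_ok) (M (nat_lit 365) (B (L (nat_lit 333) ln13_10_5 ln13_10_5_ok) (L (nat_lit 461) ln13_11_5 ln13_11_5_ok))))) (B (M (nat_lit 492) (B (L (nat_lit 524) ln12_16_6 ln12_16_6_ok) (M (nat_lit 365) (B (L (nat_lit 396) ln12_15_6 ln12_15_6_ok) (L (nat_lit 461) ln13_11_5 ln13_11_5_ok))))) (B (M (nat_lit 492) (B (L (nat_lit 524) ln12_16_6 ln12_16_6_ok) (M (nat_lit 396) (B (M (nat_lit 395) (B (L (nat_lit 363) ln12_15_7 ln12_15_7_ok) (M (nat_lit 394) (B (L (nat_lit 393) ln9_12_0 ln9_12_0_ok) (L (nat_lit 430) ln10_12_0 ln10_12_0_ok))))) (M (nat_lit 364) (B (M (nat_lit 493) (B (L (nat_lit 461) ln13_15_7 ln13_15_7_ok) (L (nat_lit 525) ln12_12_4 ln12_12_4_ok))) (M (nat_lit 491) (B (L (nat_lit 459) ln12_11_5 ln12_11_5_ok) (L (nat_lit 523) ln12_12_5 ln12_12_5_ok))))))))) (B (M (nat_lit 492) (B (L (nat_lit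 524) ln12_16_6 ln12_16_6_ok) (M (nat_lit 365) (B (L (nat_lit 333) ln13_10_5 ln13_10_5_ok) (L (nat_lit 396) ln12_15_6 ln12_15_6_ok))))) c11_n13243)))))
theorem c11_s13451 : Sem (nat_lit 2079502270913392379444674211814302674077704290823075655481512624564798400421800170032085953906810352733060637150540575368324055040) (nat_lit 1651108561271312201411710284054907645331580681595972210244202385088809022283001106783193586282566106035923506776205576843702761729993299690901849272707404034850078851072) (nat_lit 1651108561271312201411710284054907645331580681595972210244202385088809022283001106783193586282566106035923506776205576843702761729993299690901849272707404034850078851072) :=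
  sem_of_chk (M (nat_lit 461) (B (M (nat_lit 493) (B (M (nat_lit 396) (B (L (nat_lit 364) ln13_15_7 ln13_15_7_ok) (L (nat_lit 525) ln13_16_7 ln13_16_7_ok))) (B (M (nat_lit 525) (B (L (nat_lit 396) ln13_16_7 ln13_16_7_ok) (M (nat_lit 398) (B (L (nat_lit 366) ln13_15_6 ln13_15_6_ok) (L (nat_lit 430) ln13_16_6 ln13_16_6_ok))))) (B (M (nat_lit 525) (B (M (nat_lit 398) (B (L (nat_lit 366) ln13_15_6 ln13_15_6_ok) (L (nat_lit 430) ln13_16_6 ln13_16_6_ok))) (M (nat_lit 526) (B (L (nat_lit 494) ln13_12_4 ln13_12_4_ok) (L (nat_lit 558) ln13_13_4 ln13_13_4_ok))))) (M (nat_lit 365) (B (M (nat_lit 364) (B (L (nat_lit 332) ln13_14_7 ln13_14_7_ok) (L (nat_lit 396) ln13_15_7 ln13_15_7_ok))) (M (nat_lit 460) (B (L (nat_lit 333) ln13_10_5 ln13_10_5_ok) (L (nat_lit 492) ln13_11_5 ln13_11_5_ok))))))))) (B (M (nat_lit 492) (B (M (nat_lit 460) (B (L (nat_lit 365) ln13_11_5 ln13_11_5_ok) (L (nat_lit 524) ln12_16_6 ln12_16_6_ok)))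 (B (M (nat_lit 524) (B (L (nat_lit 460) ln12_16_6 ln12_16_6_ok) (L (nat_lit 493) ln13_12_5 ln13_12_5_ok))) (B (M (nat_lit 493) (B (L (nat_lit 524) ln13_12_5 ln13_12_5_ok) (M (nat_lit 396) (B (L (nat_lit 364) ln13_15_7 ln13_15_7_ok) (L (nat_lit 525) ln13_16_7 ln13_16_7_ok))))) (M (nat_lit 396) (B (M (nat_lit 493) (B (L (nat_lit 364) ln13_15_7 ln13_15_7_ok) (L (nat_lit 525) ln13_16_7 ln13_16_7_ok))) (M (nat_lit 395) (B (M (nat_lit 460) (B (L (nat_lit 363) ln12_15_7 ln12_15_7_ok) (L (nat_lit 365) ln12_15_6 ln12_15_6_ok))) (M (nat_lit 394) (B (L (nat_lit 393) ln9_12_0 ln9_12_0_ok) (L (nat_lit 430) ln10_12_0 ln10_12_0_ok))))))))))) (B (M (nat_lit 493) (B (M (nat_lit 525) (B (L (nat_lit 396) ln13_16_7 ln13_16_7_ok) (M (nat_lit 398) (B (L (nat_lit 366) ln13_15_6 ln13_15_6_ok) (L (nat_lit 430) ln13_16_6 ln13_16_6_ok))))) (M (nat_lit 492) (B (L (nat_lit 524) ln13_12_5 ln13_12_5_ok) (M (nat_lit 460) (B (L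 (nat_lit 365) ln13_11_5 ln13_11_5_ok) (M (nat_lit 494) (B (L (nat_lit 526) ln13_12_4 ln13_12_4_ok) (M (nat_lit 459) (B (L (nat_lit 458) ln10_14_0 ln10_14_0_ok) (L (nat_lit 495) ln15_15_3 ln15_15_3_ok))))))))))) (B (M (nat_lit 398) (B (M (nat_lit 493) (B (L (nat_lit 366) ln13_15_6 ln13_15_6_ok) (M (nat_lit 396) (B (L (nat_lit 364) ln13_15_7 ln13_15_7_ok) (L (nat_lit 525) ln13_16_7 ln13_16_7_ok))))) (B (M (nat_lit 493) (B (L (nat_lit 366) ln13_15_6 ln13_15_6_ok) (M (nat_lit 525) (B (L (nat_lit 396) ln13_16_7 ln13_16_7_ok) (L (nat_lit 430) ln13_16_6 ln13_16_6_ok))))) (B (M (nat_lit 396) (B (M (nat_lit 493) (B (L (nat_lit 364) ln13_15_7 ln13_15_7_ok) (L (nat_lit 525) ln13_16_7 ln13_16_7_ok))) (M (nat_lit 395) (B (M (nat_lit 394) (B (L (nat_lit 393) ln9_12_0 ln9_12_0_ok) (L (nat_lit 430) ln10_12_0 ln10_12_0_ok))) (B (M (nat_lit 430) (B (L (nat_lit 394) ln10_12_0 ln10_12_0_ok) (L (nat_lit 431) ln11_12_0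 ln11_12_0_ok))) (B (M (nat_lit 431) (B (L (nat_lit 430) ln11_12_0 ln11_12_0_ok) (M (nat_lit 399) (B (L (nat_lit 432) ln12_12_0 ln12_12_0_ok) (L (nat_lit 400) ln16_12_1 ln16_12_1_ok))))) (M (nat_lit 362) (B (L (nat_lit 363) ln14_12_3 ln14_12_3_ok) (M (nat_lit 394) (B (L (nat_lit 361) ln13_12_3 ln13_12_3_ok) (L (nat_lit 393) ln9_12_0 ln9_12_0_ok))))))))))) (B (M (nat_lit 493) (B (L (nat_lit 366) ln13_15_6 ln13_15_6_ok) (M (nat_lit 524) (B (L (nat_lit 492) ln13_12_5 ln13_12_5_ok) (M (nat_lit 525) (B (L (nat_lit 430) ln13_16_6 ln13_16_6_ok) (L (nat_lit 556) ln13_13_5 ln13_13_5_ok))))))) (M (nat_lit 399) (B (L (nat_lit 400) ln16_12_1 ln16_12_1_ok) (M (nat_lit 396) (B (M (nat_lit 364) (B (L (nat_lit 332) ln12_10_4 ln12_10_4_ok) (L (nat_lit 363) ln15_12_3 ln15_12_3_ok))) (M (nat_lit 395) (B (M (nat_lit 367) (B (L (nat_lit 366) ln11_12_2 ln11_12_2_ok) (L (nat_lit 368) ln12_12_2 ln12_12_2_ok))) (M (nat_lit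 431) (B (L (nat_lit 430) ln11_12_0 ln11_12_0_ok) (L (nat_lit 432) ln12_12_0 ln12_12_0_ok)))))))))))))) (B (M (nat_lit 493) (B (M (nat_lit 525) (B (M (nat_lit 398) (B (L (nat_lit 366) ln13_15_6 ln13_15_6_ok) (L (nat_lit 430) ln13_16_6 ln13_16_6_ok))) (M (nat_lit 526) (B (L (nat_lit 494) ln13_12_4 ln13_12_4_ok) (L (nat_lit 558) ln13_13_4 ln13_13_4_ok))))) (B (M (nat_lit 460) (B (M (nat_lit 365) (B (L (nat_lit 333) ln13_10_5 ln13_10_5_ok) (L (nat_lit 492) ln13_11_5 ln13_11_5_ok))) (B (M (nat_lit 492) (B (L (nat_lit 365) ln13_11_5 ln13_11_5_ok) (L (nat_lit 524) ln12_16_6 ln12_16_6_ok))) (M (nat_lit 525) (B (L (nat_lit 557) ln13_17_7 ln13_17_7_ok) (M (nat_lit 526) (B (L (nat_lit 494) ln13_12_4 ln13_12_4_ok) (L (nat_lit 558) ln13_13_4 ln13_13_4_ok)))))))) (B (M (nat_lit 460) (B (M (nat_lit 365) (B (L (nat_lit 333) ln13_10_5 ln13_10_5_ok) (L (nat_lit 492) ln13_11_5 ln13_11_5_ok))) (B (M (nat_lit 492) (B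 (L (nat_lit 365) ln13_11_5 ln13_11_5_ok) (L (nat_lit 524) ln12_16_6 ln12_16_6_ok))) (M (nat_lit 525) (B (L (nat_lit 557) ln13_17_7 ln13_17_7_ok) (M (nat_lit 398) (B (L (nat_lit 366) ln13_15_6 ln13_15_6_ok) (L (nat_lit 430) ln13_16_6 ln13_16_6_ok)))))))) (M (nat_lit 492) (B (L (nat_lit 524) ln13_12_5 ln13_12_5_ok) (M (nat_lit 460) (B (L (nat_lit 365) ln13_11_5 ln13_11_5_ok) (M (nat_lit 494) (B (L (nat_lit 526) ln13_12_4 ln13_12_4_ok) (M (nat_lit 459) (B (L (nat_lit 458) ln10_14_0 ln10_14_0_ok) (L (nat_lit 495) ln15_15_3 ln15_15_3_ok))))))))))))) (B (M (nat_lit 493) (B (M (nat_lit 396) (B (L (nat_lit 364) ln13_15_7 ln13_15_7_ok) (L (nat_lit 525) ln13_16_7 ln13_16_7_ok))) (B (M (nat_lit 524) (B (L (nat_lit 492) ln13_12_5 ln13_12_5_ok) (M (nat_lit 525) (B (L (nat_lit 396) ln13_16_7 ln13_16_7_ok) (L (nat_lit 556) ln13_13_5 ln13_13_5_ok))))) (B (M (nat_lit 525) (B (M (nat_lit 524) (B (L (nat_lit 492) ln13_12_5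 ln13_12_5_ok) (L (nat_lit 556) ln13_13_5 ln13_13_5_ok))) (M (nat_lit 526) (B (L (nat_lit 494) ln13_12_4 ln13_12_4_ok) (L (nat_lit 558) ln13_13_4 ln13_13_4_ok))))) (M (nat_lit 365) (B (M (nat_lit 364) (B (L (nat_lit 332) ln13_14_7 ln13_14_7_ok) (L (nat_lit 396) ln13_15_7 ln13_15_7_ok))) (M (nat_lit 460) (B (L (nat_lit 333) ln13_10_5 ln13_10_5_ok) (L (nat_lit 492) ln13_11_5 ln13_11_5_ok))))))))) (B (M (nat_lit 398) (B (M (nat_lit 493) (B (L (nat_lit 366) ln13_15_6 ln13_15_6_ok) (M (nat_lit 396) (B (L (nat_lit 364) ln13_15_7 ln13_15_7_ok) (L (nat_lit 525) ln13_16_7 ln13_16_7_ok))))) (B (M (nat_lit 493) (B (L (nat_lit 366) ln13_15_6 ln13_15_6_ok) (M (nat_lit 525) (B (L (nat_lit 396) ln13_16_7 ln13_16_7_ok) (L (nat_lit 430) ln13_16_6 ln13_16_6_ok))))) (B (M (nat_lit 396) (B (M (nat_lit 364) (B (L (nat_lit 332) ln12_10_4 ln12_10_4_ok) (L (nat_lit 493) ln13_15_7 ln13_15_7_ok))) (B (M (nat_lit 493) (B (L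 (nat_lit 364) ln13_15_7 ln13_15_7_ok) (L (nat_lit 525) ln13_16_7 ln13_16_7_ok))) (M (nat_lit 395) (B (M (nat_lit 394) (B (L (nat_lit 393) ln9_12_0 ln9_12_0_ok) (L (nat_lit 430) ln10_12_0 ln10_12_0_ok))) (B (M (nat_lit 430) (B (L (nat_lit 394) ln10_12_0 ln10_12_0_ok) (L (nat_lit 431) ln11_12_0 ln11_12_0_ok))) (B (M (nat_lit 431) (B (L (nat_lit 430) ln11_12_0 ln11_12_0_ok) (M (nat_lit 399) (B (L (nat_lit 432) ln12_12_0 ln12_12_0_ok) (L (nat_lit 400) ln16_12_1 ln16_12_1_ok))))) (M (nat_lit 362) (B (L (nat_lit 363) ln14_12_3 ln14_12_3_ok) (M (nat_lit 394) (B (L (nat_lit 361) ln13_12_3 ln13_12_3_ok) (L (nat_lit 393) ln9_12_0 ln9_12_0_ok)))))))))))) (B (M (nat_lit 493) (B (L (nat_lit 366) ln13_15_6 ln13_15_6_ok) (M (nat_lit 525) (B (L (nat_lit 430) ln13_16_6 ln13_16_6_ok) (M (nat_lit 526) (B (L (nat_lit 494) ln13_12_4 ln13_12_4_ok) (L (nat_lit 558) ln13_13_4 ln13_13_4_ok))))))) (M (nat_lit 399) (B (L (nat_lit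 400) ln16_12_1 ln16_12_1_ok) (M (nat_lit 364) (B (M (nat_lit 332) (B (L (nat_lit 365) ln13_14_7 ln13_14_7_ok) (L (nat_lit 396) ln12_10_4 ln12_10_4_ok))) (B (M (nat_lit 363) (B (L (nat_lit 396) ln15_12_3 ln15_12_3_ok) (M (nat_lit 365) (B (L (nat_lit 362) ln10_11_0 ln10_11_0_ok) (L (nat_lit 366) ln11_11_0 ln11_11_0_ok))))) (B (M (nat_lit 396) (B (L (nat_lit 332) ln12_10_4 ln12_10_4_ok) (L (nat_lit 363) ln15_12_3 ln15_12_3_ok))) (M (nat_lit 365) (B (L (nat_lit 332) ln13_14_7 ln13_14_7_ok) (M (nat_lit 363) (B (L (nat_lit 362) ln10_11_0 ln10_11_0_ok) (L (nat_lit 366) ln11_11_0 ln11_11_0_ok)))))))))))))))) (M (nat_lit 460) (B (M (nat_lit 365) (B (L (nat_lit 333) ln13_10_5 ln13_10_5_ok) (L (nat_lit 492) ln13_11_5 ln13_11_5_ok))) (B (M (nat_lit 492) (B (L (nat_lit 365) ln13_11_5 ln13_11_5_ok) (L (nat_lit 524) ln12_16_6 ln12_16_6_ok))) (B (M (nat_lit 492) (B (L (nat_lit 524) ln12_16_6 ln12_16_6_ok) (M (nat_lit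 396) (B (M (nat_lit 364) (B (L (nat_lit 332) ln12_10_4 ln12_10_4_ok) (M (nat_lit 363) (B (L (nat_lit 331) ln12_14_7 ln12_14_7_ok) (L (nat_lit 395) ln12_15_7 ln12_15_7_ok))))) (B (M (nat_lit 364) (B (L (nat_lit 332) ln12_10_4 ln12_10_4_ok) (M (nat_lit 491) (B (L (nat_lit 459) ln12_11_5 ln12_11_5_ok) (L (nat_lit 523) ln12_12_5 ln12_12_5_ok))))) (M (nat_lit 395) (B (L (nat_lit 363) ln12_15_7 ln12_15_7_ok) (M (nat_lit 430) (B (L (nat_lit 394) ln10_12_0 ln10_12_0_ok) (L (nat_lit 431) ln15_13_3 ln15_13_3_ok)))))))))) (M (nat_lit 364) (B (M (nat_lit 365) (B (L (nat_lit 332) ln13_14_7 ln13_14_7_ok) (L (nat_lit 333) ln13_10_5 ln13_10_5_ok))) (B (M (nat_lit 396) (B (M (nat_lit 459) (B (L (nat_lit 491) ln12_11_5 ln12_11_5_ok) (M (nat_lit 430) (B (L (nat_lit 431) ln15_13_1 ln15_13_1_ok) (L (nat_lit 458) ln10_14_2 ln10_14_2_ok))))) (M (nat_lit 365) (B (L (nat_lit 333) ln12_14_6 ln12_14_6_ok) (M (nat_lit 363)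 (B (L (nat_lit 331) ln12_14_7 ln12_14_7_ok) (M (nat_lit 362) (B (L (nat_lit 361) ln9_11_0 ln9_11_0_ok) (L (nat_lit 398) ln10_11_0 ln10_11_0_ok))))))))) (B (M (nat_lit 332) (B (L (nat_lit 365) ln13_14_7 ln13_14_7_ok) (L (nat_lit 396) ln12_10_4 ln12_10_4_ok))) (M (nat_lit 459) (B (M (nat_lit 396) (B (L (nat_lit 332) ln12_10_4 ln12_10_4_ok) (L (nat_lit 491) ln12_11_5 ln12_11_5_ok))) (M (nat_lit 430) (B (L (nat_lit 431) ln15_13_1 ln15_13_1_ok) (L (nat_lit 458) ln10_14_2 ln10_14_2_ok))))))))))))))))))))) (nat_lit 2079502270913392379444674211814302674077704290823075655481512624564798400421800170032085953906810352733060637150540575368324055040) (nat_lit 1651108561271312201411710284054907645331580681595972210244202385088809022283001106783193586282566106035923506776205576843702761729993299690901849272707404034850078851072) (nat_lit 1651108561271312201411710284054907645331580681595972210244202385088809022283001106783193586282566106035923506776205576843702761729993299690901849272707404034850078851072)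 (by decide +kernel)
noncomputable def c11_n13527 : Cert := (M (nat_lit 460) (B (M (nat_lit 492) (B (L (nat_lit 524) ln12_16_6 ln12_16_6_ok) (M (nat_lit 365) (B (L (nat_lit 333) ln13_10_5 ln13_10_5_ok) (L (nat_lit 461) ln13_11_5 ln13_11_5_ok))))) (B (M (nat_lit 492) (B (L (nat_lit 524) ln12_16_6 ln12_16_6_ok) (M (nat_lit 365) (B (L (nat_lit 396) ln12_15_6 ln12_15_6_ok) (L (nat_lit 461) ln13_11_5 ln13_11_5_ok))))) (B (M (nat_lit 492) (B (L (nat_lit 524) ln12_16_6 ln12_16_6_ok) (M (nat_lit 396) (B (M (nat_lit 363) (B (L (nat_lit 395) ln12_15_7 ln12_15_7_ok) (M (nat_lit 364) (B (L (nat_lit 331) ln12_14_7 ln12_14_7_ok) (M (nat_lit 332) (B (L (nat_lit 300) ln12_9_4 ln12_9_4_ok) (L (nat_lit 459) ln12_10_5 ln12_10_5_ok))))))) (B (M (nat_lit 363) (B (L (nat_lit 395) ln12_15_7 ln12_15_7_ok) (M (nat_lit 364) (B (L (nat_lit 331) ln12_14_7 ln12_14_7_ok) (M (nat_lit 493) (B (L (nat_lit 461) ln13_15_7 ln13_15_7_ok)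 (L (nat_lit 525) ln12_12_4 ln12_12_4_ok))))))) (B (M (nat_lit 364) (B (M (nat_lit 332) (B (L (nat_lit 300) ln12_9_4 ln12_9_4_ok) (L (nat_lit 459) ln12_10_5 ln12_10_5_ok))) (B (M (nat_lit 332) (B (L (nat_lit 459) ln12_10_5 ln12_10_5_ok) (L (nat_lit 461) ln12_10_4 ln12_10_4_ok))) (M (nat_lit 493) (B (L (nat_lit 461) ln13_15_7 ln13_15_7_ok) (L (nat_lit 525) ln12_12_4 ln12_12_4_ok)))))) (M (nat_lit 398) (B (L (nat_lit 399) ln15_12_1 ln15_12_1_ok) (M (nat_lit 366) (B (M (nat_lit 395) (B (L (nat_lit 363) ln12_15_7 ln12_15_7_ok) (L (nat_lit 367) ln11_12_2 ln11_12_2_ok))) (M (nat_lit 493) (B (L (nat_lit 461) ln13_15_6 ln13_15_6_ok) (L (nat_lit 525) ln12_12_4 ln12_12_4_ok))))))))))))) (B (M (nat_lit 492) (B (L (nat_lit 524) ln12_16_6 ln12_16_6_ok) (M (nat_lit 365) (B (L (nat_lit 333) ln13_10_5 ln13_10_5_ok) (L (nat_lit 396) ln12_15_6 ln12_15_6_ok))))) (M (nat_lit 364) (B (M (nat_lit 365) (B (L (nat_lit 333)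 ln13_10_5 ln13_10_5_ok) (M (nat_lit 332) (B (L (nat_lit 461) ln13_14_7 ln13_14_7_ok) (M (nat_lit 396) (B (L (nat_lit 300) ln12_9_4 ln12_9_4_ok) (L (nat_lit 459) ln12_10_5 ln12_10_5_ok))))))) (B (M (nat_lit 363) (B (M (nat_lit 331) (B (L (nat_lit 396) ln12_14_7 ln12_14_7_ok) (L (nat_lit 395) ln11_10_4 ln11_10_4_ok))) (B (M (nat_lit 332) (B (M (nat_lit 365) (B (L (nat_lit 461) ln13_14_7 ln13_14_7_ok) (L (nat_lit 333) ln13_10_5 ln13_10_5_ok))) (B (M (nat_lit 461) (B (L (nat_lit 365) ln13_14_7 ln13_14_7_ok) (L (nat_lit 396) ln12_10_4 ln12_10_4_ok))) (B (M (nat_lit 396) (B (L (nat_lit 459) ln12_10_5 ln12_10_5_ok) (L (nat_lit 461) ln12_10_4 ln12_10_4_ok))) (M (nat_lit 459) (B (L (nat_lit 395) ln11_14_6 ln11_14_6_ok) (L (nat_lit 396) ln12_10_5 ln12_10_5_ok))))))) (B (M (nat_lit 396) (B (L (nat_lit 331) ln12_14_7 ln12_14_7_ok) (M (nat_lit 332) (B (L (nat_lit 459) ln12_10_5 ln12_10_5_ok) (L (nat_lit 461)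 ln12_10_4 ln12_10_4_ok))))) (M (nat_lit 332) (B (M (nat_lit 395) (B (L (nat_lit 331) ln11_10_4 ln11_10_4_ok) (L (nat_lit 459) ln11_14_6 ln11_14_6_ok))) (M (nat_lit 365) (B (L (nat_lit 461) ln13_14_7 ln13_14_7_ok) (L (nat_lit 333) ln13_10_5 ln13_10_5_ok))))))))) (B (M (nat_lit 398) (B (M (nat_lit 399) (B (L (nat_lit 396) ln15_12_1 ln15_12_1_ok) (L (nat_lit 400) ln16_12_1 ln16_12_1_ok))) (B (M (nat_lit 365) (B (L (nat_lit 333) ln13_10_5 ln13_10_5_ok) (M (nat_lit 399) (B (L (nat_lit 400) ln16_12_3 ln16_12_3_ok) (M (nat_lit 363) (B (L (nat_lit 362) ln10_11_0 ln10_11_0_ok) (L (nat_lit 366) ln11_11_0 ln11_11_0_ok))))))) (M (nat_lit 363) (B (M (nat_lit 331) (B (L (nat_lit 396) ln12_14_7 ln12_14_7_ok) (L (nat_lit 395) ln11_10_4 ln11_10_4_ok))) (M (nat_lit 365) (B (L (nat_lit 333) ln13_10_5 ln13_10_5_ok) (L (nat_lit 362) ln10_11_0 ln10_11_0_ok)))))))) (B (M (nat_lit 396) (B (M (nat_lit 332) (B (L (nat_lit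 459) ln12_10_5 ln12_10_5_ok) (L (nat_lit 461) ln12_10_4 ln12_10_4_ok))) (M (nat_lit 363) (B (L (nat_lit 331) ln12_14_7 ln12_14_7_ok) (M (nat_lit 398) (B (L (nat_lit 399) ln15_12_3 ln15_12_3_ok) (M (nat_lit 362) (B (L (nat_lit 361) ln9_11_0 ln9_11_0_ok) (L (nat_lit 395) ln14_12_3 ln14_12_3_ok))))))))) (M (nat_lit 365) (B (L (nat_lit 333) ln13_10_5 ln13_10_5_ok) (M (nat_lit 363) (B (M (nat_lit 332) (B (L (nat_lit 461) ln13_14_7 ln13_14_7_ok) (M (nat_lit 395) (B (L (nat_lit 331) ln11_10_4 ln11_10_4_ok) (L (nat_lit 459) ln11_14_6 ln11_14_6_ok))))) (M (nat_lit 398) (B (L (nat_lit 362) ln10_11_0 ln10_11_0_ok) (M (nat_lit 399) (B (L (nat_lit 366) ln11_11_0 ln11_11_0_ok) (L (nat_lit 400) ln16_12_3 ln16_12_3_ok)))))))))))))))))))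
theorem c11_s13528 : Sem (nat_lit 2079502270913392379444674211814302674077704290823075655481512624564798400421800170032085953906810352733060637150540575368324055040) (nat_lit 178484739204952569303058364306314115403212001898425000787232840738355310617937603917001278507792496189926893839312747501056485414478681255680050219174147915776) (nat_lit 178484739204952569303058364306314115403212001898425000787232840738355310617937603917001278507792496189926893839312747501056485414478681255680050219174147915776) :=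
  sem_of_chk (M (nat_lit 427) (B (M (nat_lit 398) (B (L (nat_lit 426) ln10_13_2 ln10_13_2_ok) (M (nat_lit 399) (B (L (nat_lit 396) ln15_12_1 ln15_12_1_ok) (L (nat_lit 400) ln16_12_1 ln16_12_1_ok))))) (B (M (nat_lit 426) (B (L (nat_lit 398) ln10_13_2 ln10_13_2_ok) (M (nat_lit 425) (B (M (nat_lit 393) (B (L (nat_lit 392) ln12_13_3 ln12_13_3_ok) (L (nat_lit 394) ln13_13_3 ln13_13_3_ok))) (M (nat_lit 457) (B (L (nat_lit 456) ln12_13_1 ln12_13_1_ok) (L (nat_lit 458) ln13_13_1 ln13_13_1_ok))))))) (B (M (nat_lit 426) (B (M (nat_lit 393) (B (L (nat_lit 394) ln13_13_3 ln13_13_3_ok) (M (nat_lit 425) (B (L (nat_lit 392) ln12_13_3 ln12_13_3_ok) (L (nat_lit 396) ln9_13_2 ln9_13_2_ok))))) (B (M (nat_lit 425) (B (L (nat_lit 396) ln9_13_2 ln9_13_2_ok) (M (nat_lit 457) (B (L (nat_lit 456) ln12_13_1 ln12_13_1_ok) (L (nat_lit 458) ln13_13_1 ln13_13_1_ok))))) (B (M (nat_lit 425) (B (M (nat_lit 393) (B (L (nat_lit 392)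 ln12_13_3 ln12_13_3_ok) (L (nat_lit 394) ln13_13_3 ln13_13_3_ok))) (M (nat_lit 457) (B (L (nat_lit 456) ln12_13_1 ln12_13_1_ok) (L (nat_lit 458) ln13_13_1 ln13_13_1_ok))))) (M (nat_lit 395) (B (M (nat_lit 394) (B (L (nat_lit 393) ln13_13_3 ln13_13_3_ok) (M (nat_lit 458) (B (L (nat_lit 457) ln13_13_1 ln13_13_1_ok) (M (nat_lit 363) (B (L (nat_lit 331) ln11_10_5 ln11_10_5_ok) (L (nat_lit 490) ln10_15_6 ln10_15_6_ok))))))) (B (M (nat_lit 394) (B (L (nat_lit 393) ln13_13_3 ln13_13_3_ok) (M (nat_lit 458) (B (L (nat_lit 457) ln13_13_1 ln13_13_1_ok) (M (nat_lit 490) (B (L (nat_lit 363) ln10_15_6 ln10_15_6_ok) (L (nat_lit 522) ln10_16_6 ln10_16_6_ok))))))) (B (M (nat_lit 394) (B (L (nat_lit 393) ln13_13_3 ln13_13_3_ok) (M (nat_lit 396) (B (M (nat_lit 365) (B (L (nat_lit 366) ln10_12_2 ln10_12_2_ok) (M (nat_lit 333) (B (L (nat_lit 301) ln13_9_5 ln13_9_5_ok) (L (nat_lit 460) ln13_10_5 ln13_10_5_ok))))) (M (nat_lit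 362) (B (L (nat_lit 361) ln13_12_3 ln13_12_3_ok) (M (nat_lit 330) (B (L (nat_lit 298) ln10_9_4 ln10_9_4_ok) (L (nat_lit 459) ln10_10_4 ln10_10_4_ok))))))))) (M (nat_lit 458) (B (L (nat_lit 457) ln13_13_1 ln13_13_1_ok) (M (nat_lit 363) (B (L (nat_lit 331) ln11_10_5 ln11_10_5_ok) (M (nat_lit 490) (B (L (nat_lit 459) ln11_11_5 ln11_11_5_ok) (L (nat_lit 522) ln10_16_6 ln10_16_6_ok))))))))))))))) c11_n13527)))) (nat_lit 2079502270913392379444674211814302674077704290823075655481512624564798400421800170032085953906810352733060637150540575368324055040) (nat_lit 178484739204952569303058364306314115403212001898425000787232840738355310617937603917001278507792496189926893839312747501056485414478681255680050219174147915776) (nat_lit 178484739204952569303058364306314115403212001898425000787232840738355310617937603917001278507792496189926893839312747501056485414478681255680050219174147915776) (by decide +kernel)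
noncomputable def c11_n13649 : Cert := (M (nat_lit 427) (B (M (nat_lit 398) (B (L (nat_lit 426) ln10_13_2 ln10_13_2_ok) (M (nat_lit 399) (B (L (nat_lit 396) ln15_12_1 ln15_12_1_ok) (L (nat_lit 400) ln16_12_1 ln16_12_1_ok))))) (B (M (nat_lit 398) (B (L (nat_lit 426) ln10_13_2 ln10_13_2_ok) (M (nat_lit 399) (B (L (nat_lit 400) ln16_12_1 ln16_12_1_ok) (L (nat_lit 430) ln11_13_2 ln11_13_2_ok))))) (B (M (nat_lit 426) (B (M (nat_lit 393) (B (L (nat_lit 394) ln13_13_3 ln13_13_3_ok) (M (nat_lit 425) (B (L (nat_lit 392) ln12_13_3 ln12_13_3_ok) (L (nat_lit 396) ln9_13_2 ln9_13_2_ok))))) (B (M (nat_lit 425) (B (L (nat_lit 396) ln9_13_2 ln9_13_2_ok) (M (nat_lit 457) (B (L (nat_lit 456) ln12_13_1 ln12_13_1_ok) (L (nat_lit 458) ln13_13_1 ln13_13_1_ok))))) (B (M (nat_lit 425) (B (M (nat_lit 393) (B (L (nat_lit 392) ln12_13_3 ln12_13_3_ok) (L (nat_lit 394) ln13_13_3 ln13_13_3_ok))) (M (nat_lit 457) (B (L (nat_lit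 456) ln12_13_1 ln12_13_1_ok) (L (nat_lit 458) ln13_13_1 ln13_13_1_ok))))) (M (nat_lit 394) (B (L (nat_lit 393) ln13_13_3 ln13_13_3_ok) (M (nat_lit 395) (B (L (nat_lit 430) ln14_13_3 ln14_13_3_ok) (M (nat_lit 458) (B (L (nat_lit 457) ln13_13_1 ln13_13_1_ok) (M (nat_lit 363) (B (L (nat_lit 331) ln11_10_5 ln11_10_5_ok) (L (nat_lit 490) ln10_15_6 ln10_15_6_ok))))))))))))) (M (nat_lit 398) (B (M (nat_lit 399) (B (L (nat_lit 396) ln15_12_1 ln15_12_1_ok) (L (nat_lit 400) ln16_12_1 ln16_12_1_ok))) (B (M (nat_lit 399) (B (L (nat_lit 400) ln16_12_1 ln16_12_1_ok) (L (nat_lit 430) ln11_13_2 ln11_13_2_ok))) (M (nat_lit 395) (B (M (nat_lit 394) (B (L (nat_lit 430) ln14_13_3 ln14_13_3_ok) (M (nat_lit 396) (B (L (nat_lit 393) ln9_12_0 ln9_12_0_ok) (M (nat_lit 366) (B (L (nat_lit 365) ln10_12_2 ln10_12_2_ok) (L (nat_lit 367) ln11_12_2 ln11_12_2_ok))))))) (B (M (nat_lit 396) (B (M (nat_lit 430) (B (L (nat_lit 394)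 ln10_12_0 ln10_12_0_ok) (L (nat_lit 431) ln11_12_0 ln11_12_0_ok))) (M (nat_lit 363) (B (L (nat_lit 362) ln14_12_3 ln14_12_3_ok) (M (nat_lit 331) (B (L (nat_lit 299) ln11_9_4 ln11_9_4_ok) (L (nat_lit 460) ln11_10_4 ln11_10_4_ok))))))) (B (M (nat_lit 460) (B (M (nat_lit 492) (B (L (nat_lit 524) ln12_16_7 ln12_16_7_ok) (M (nat_lit 365) (B (L (nat_lit 333) ln13_10_5 ln13_10_5_ok) (L (nat_lit 461) ln13_11_5 ln13_11_5_ok))))) (B (M (nat_lit 492) (B (L (nat_lit 524) ln12_16_7 ln12_16_7_ok) (M (nat_lit 365) (B (L (nat_lit 396) ln12_15_6 ln12_15_6_ok) (L (nat_lit 461) ln13_11_5 ln13_11_5_ok))))) (B (M (nat_lit 492) (B (L (nat_lit 524) ln12_16_7 ln12_16_7_ok) (M (nat_lit 363) (B (L (nat_lit 331) ln11_10_4 ln11_10_4_ok) (L (nat_lit 396) ln12_15_7 ln12_15_7_ok))))) (M (nat_lit 363) (B (L (nat_lit 331) ln11_10_4 ln11_10_4_ok) (M (nat_lit 362) (B (L (nat_lit 396) ln14_12_3 ln14_12_3_ok) (M (nat_lit 365) (B (L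 (nat_lit 333) ln13_10_5 ln13_10_5_ok) (L (nat_lit 364) ln10_11_0 ln10_11_0_ok))))))))))) (M (nat_lit 365) (B (M (nat_lit 460) (B (L (nat_lit 333) ln13_10_5 ln13_10_5_ok) (M (nat_lit 492) (B (L (nat_lit 461) ln13_11_5 ln13_11_5_ok) (L (nat_lit 524) ln12_16_7 ln12_16_7_ok))))) (B (M (nat_lit 461) (B (M (nat_lit 492) (B (L (nat_lit 460) ln13_11_5 ln13_11_5_ok) (M (nat_lit 493) (B (L (nat_lit 366) ln13_15_6 ln13_15_6_ok) (L (nat_lit 524) ln13_12_5 ln13_12_5_ok))))) (B (M (nat_lit 363) (B (M (nat_lit 460) (B (L (nat_lit 331) ln11_10_4 ln11_10_4_ok) (L (nat_lit 492) ln13_11_5 ln13_11_5_ok))) (M (nat_lit 364) (B (L (nat_lit 332) ln13_14_7 ln13_14_7_ok) (L (nat_lit 362) ln10_11_0 ln10_11_0_ok))))) (M (nat_lit 493) (B (L (nat_lit 366) ln13_15_6 ln13_15_6_ok) (M (nat_lit 430) (B (L (nat_lit 394) ln14_13_3 ln14_13_3_ok) (L (nat_lit 525) ln13_16_6 ln13_16_6_ok)))))))) (B (M (nat_lit 364) (B (M (nat_lit 332)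 (B (L (nat_lit 461) ln13_14_7 ln13_14_7_ok) (M (nat_lit 300) (B (L (nat_lit 268) ln12_8_4 ln12_8_4_ok) (L (nat_lit 333) ln13_13_7 ln13_13_7_ok))))) (M (nat_lit 363) (B (L (nat_lit 362) ln10_11_0 ln10_11_0_ok) (M (nat_lit 394) (B (L (nat_lit 366) ln14_11_1 ln14_11_1_ok) (L (nat_lit 430) ln14_13_3 ln14_13_3_ok))))))) (M (nat_lit 333) (B (L (nat_lit 460) ln13_10_5 ln13_10_5_ok) (M (nat_lit 430) (B (L (nat_lit 301) ln13_9_4 ln13_9_4_ok) (L (nat_lit 394) ln14_13_3 ln14_13_3_ok))))))))))))))))))))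
noncomputable def c11_n13712 : Cert := (M (nat_lit 395) (B (M (nat_lit 394) (B (L (nat_lit 430) ln14_13_3 ln14_13_3_ok) (M (nat_lit 393) (B (L (nat_lit 392) ln8_12_0 ln8_12_0_ok) (L (nat_lit 396) ln9_12_0 ln9_12_0_ok))))) (B (M (nat_lit 430) (B (L (nat_lit 394) ln14_13_3 ln14_13_3_ok) (M (nat_lit 431) (B (L (nat_lit 396) ln15_13_3 ln15_13_3_ok) (M (nat_lit 399) (B (L (nat_lit 398) ln11_13_2 ln11_13_2_ok) (L (nat_lit 400) ln12_13_2 ln12_13_2_ok))))))) (B (M (nat_lit 459) (B (M (nat_lit 430) (B (L (nat_lit 458) ln14_13_1 ln14_13_1_ok) (M (nat_lit 431) (B (L (nat_lit 396) ln15_13_3 ln15_13_3_ok) (M (nat_lit 399) (B (L (nat_lit 398) ln11_13_2 ln11_13_2_ok) (L (nat_lit 400) ln12_13_2 ln12_13_2_ok))))))) (B (M (nat_lit 458) (B (L (nat_lit 430) ln14_13_1 ln14_13_1_ok) (M (nat_lit 490) (B (L (nat_lit 363) ln11_11_5 ln11_11_5_ok) (M (nat_lit 522) (B (L (nat_lit 491) ln11_12_5 ln11_12_5_ok) (L (nat_lit 554)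 ln10_17_6 ln10_17_6_ok))))))) (B (M (nat_lit 491) (B (M (nat_lit 396) (B (L (nat_lit 364) ln11_15_6 ln11_15_6_ok) (L (nat_lit 523) ln11_16_6 ln11_16_6_ok))) (B (M (nat_lit 523) (B (L (nat_lit 396) ln11_16_6 ln11_16_6_ok) (M (nat_lit 522) (B (L (nat_lit 490) ln11_12_5 ln11_12_5_ok) (L (nat_lit 554) ln11_13_5 ln11_13_5_ok))))) (B (M (nat_lit 524) (B (L (nat_lit 492) ln11_12_4 ln11_12_4_ok) (M (nat_lit 523) (B (L (nat_lit 556) ln11_13_4 ln11_13_4_ok) (M (nat_lit 522) (B (L (nat_lit 490) ln11_12_5 ln11_12_5_ok) (L (nat_lit 554) ln11_13_5 ln11_13_5_ok))))))) (M (nat_lit 363) (B (M (nat_lit 364) (B (L (nat_lit 332) ln11_14_6 ln11_14_6_ok) (L (nat_lit 396) ln11_15_6 ln11_15_6_ok))) (M (nat_lit 490) (B (L (nat_lit 458) ln11_11_5 ln11_11_5_ok) (L (nat_lit 522) ln11_12_5 ln11_12_5_ok))))))))) (M (nat_lit 364) (B (M (nat_lit 332) (B (L (nat_lit 363) ln11_14_6 ln11_14_6_ok) (L (nat_lit 396) ln12_10_5 ln12_10_5_ok)))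 (B (M (nat_lit 491) (B (L (nat_lit 396) ln11_15_6 ln11_15_6_ok) (M (nat_lit 523) (B (M (nat_lit 522) (B (L (nat_lit 490) ln11_12_5 ln11_12_5_ok) (L (nat_lit 554) ln11_13_5 ln11_13_5_ok))) (M (nat_lit 524) (B (L (nat_lit 492) ln11_12_4 ln11_12_4_ok) (L (nat_lit 556) ln11_13_4 ln11_13_4_ok))))))) (M (nat_lit 332) (B (L (nat_lit 363) ln11_14_6 ln11_14_6_ok) (M (nat_lit 365) (B (L (nat_lit 461) ln13_14_7 ln13_14_7_ok) (M (nat_lit 300) (B (L (nat_lit 268) ln12_8_4 ln12_8_4_ok) (L (nat_lit 333) ln13_13_7 ln13_13_7_ok)))))))))))))) (B (M (nat_lit 430) (B (L (nat_lit 394) ln14_13_3 ln14_13_3_ok) (M (nat_lit 431) (B (M (nat_lit 399) (B (L (nat_lit 398) ln11_13_2 ln11_13_2_ok) (L (nat_lit 400) ln12_13_2 ln12_13_2_ok))) (B (M (nat_lit 432) (B (M (nat_lit 400) (B (L (nat_lit 399) ln12_13_2 ln12_13_2_ok) (L (nat_lit 401) ln13_13_2 ln13_13_2_ok))) (M (nat_lit 464) (B (L (nat_lit 463) ln12_13_0 ln12_13_0_ok) (L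 (nat_lit 465) ln13_13_0 ln13_13_0_ok))))) (B (M (nat_lit 432) (B (M (nat_lit 464) (B (L (nat_lit 463) ln12_13_0 ln12_13_0_ok) (L (nat_lit 465) ln13_13_0 ln13_13_0_ok))) (M (nat_lit 401) (B (L (nat_lit 400) ln13_13_2 ln13_13_2_ok) (M (nat_lit 433) (B (L (nat_lit 398) ln17_13_3 ln17_13_3_ok) (L (nat_lit 402) ln14_13_2 ln14_13_2_ok))))))) (M (nat_lit 432) (B (M (nat_lit 398) (B (L (nat_lit 433) ln17_13_3 ln17_13_3_ok) (L (nat_lit 399) ln11_13_2 ln11_13_2_ok))) (M (nat_lit 464) (B (L (nat_lit 463) ln12_13_0 ln12_13_0_ok) (L (nat_lit 465) ln13_13_0 ln13_13_0_ok))))))))))) (M (nat_lit 396) (B (M (nat_lit 394) (B (L (nat_lit 393) ln9_12_0 ln9_12_0_ok) (M (nat_lit 362) (B (L (nat_lit 361) ln13_12_3 ln13_12_3_ok) (M (nat_lit 398) (B (L (nat_lit 363) ln14_12_3 ln14_12_3_ok) (L (nat_lit 399) ln15_12_1 ln15_12_1_ok))))))) (B (M (nat_lit 332) (B (M (nat_lit 364) (B (L (nat_lit 300) ln12_9_5 ln12_9_5_ok) (L (nat_lit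 459) ln12_10_5 ln12_10_5_ok))) (B (M (nat_lit 364) (B (L (nat_lit 459) ln12_10_5 ln12_10_5_ok) (L (nat_lit 461) ln12_10_4 ln12_10_4_ok))) (M (nat_lit 363) (B (M (nat_lit 331) (B (L (nat_lit 299) ln11_9_4 ln11_9_4_ok) (L (nat_lit 300) ln11_13_6 ln11_13_6_ok))) (M (nat_lit 398) (B (L (nat_lit 362) ln14_12_3 ln14_12_3_ok) (L (nat_lit 399) ln15_12_1 ln15_12_1_ok)))))))) (M (nat_lit 332) (B (M (nat_lit 364) (B (L (nat_lit 300) ln12_9_5 ln12_9_5_ok) (L (nat_lit 459) ln12_10_5 ln12_10_5_ok))) (B (M (nat_lit 364) (B (L (nat_lit 459) ln12_10_5 ln12_10_5_ok) (L (nat_lit 461) ln12_10_4 ln12_10_4_ok))) (M (nat_lit 365) (B (M (nat_lit 333) (B (L (nat_lit 300) ln13_13_7 ln13_13_7_ok) (L (nat_lit 301) ln13_9_5 ln13_9_5_ok))) (M (nat_lit 394) (B (L (nat_lit 366) ln10_12_2 ln10_12_2_ok) (L (nat_lit 393) ln9_12_0 ln9_12_0_ok))))))))))))))))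
theorem c11_s13713 : Sem (nat_lit 2079502270913392379444674211814302674077704290823075655481512624564798400421800170032085953906810352733060637150540575368324055040) (nat_lit 294840814535290085408076681433584833401517699491421362583983778441327942579446273853966843452861345847335596733921690793077331724981290015532742302024505036524876726272) (nat_lit 294840814535290085408076681433584833401517699491421362583983778441327942579446273853966843452861345847335596733921690793077331724981290015532742302024505036524876726272) :=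
  sem_of_chk (M (nat_lit 427) (B (M (nat_lit 398) (B (L (nat_lit 426) ln10_13_2 ln10_13_2_ok) (M (nat_lit 399) (B (L (nat_lit 396) ln15_12_1 ln15_12_1_ok) (L (nat_lit 400) ln16_12_1 ln16_12_1_ok))))) (B (M (nat_lit 398) (B (L (nat_lit 426) ln10_13_2 ln10_13_2_ok) (M (nat_lit 399) (B (L (nat_lit 400) ln16_12_1 ln16_12_1_ok) (L (nat_lit 430) ln11_13_2 ln11_13_2_ok))))) (B (M (nat_lit 426) (B (M (nat_lit 393) (B (L (nat_lit 394) ln13_13_3 ln13_13_3_ok) (M (nat_lit 425) (B (L (nat_lit 392) ln12_13_3 ln12_13_3_ok) (L (nat_lit 396) ln9_13_2 ln9_13_2_ok))))) (B (M (nat_lit 425) (B (L (nat_lit 396) ln9_13_2 ln9_13_2_ok) (M (nat_lit 457) (B (L (nat_lit 456) ln12_13_1 ln12_13_1_ok) (L (nat_lit 458) ln13_13_1 ln13_13_1_ok))))) (M (nat_lit 430) (B (M (nat_lit 394) (B (L (nat_lit 393) ln13_13_3 ln13_13_3_ok) (L (nat_lit 395) ln14_13_3 ln14_13_3_ok))) (M (nat_lit 458) (B (L (nat_lit 457) ln13_13_1 ln13_13_1_ok)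 (L (nat_lit 459) ln14_13_1 ln14_13_1_ok)))))))) c11_n13712)))) (nat_lit 2079502270913392379444674211814302674077704290823075655481512624564798400421800170032085953906810352733060637150540575368324055040) (nat_lit 294840814535290085408076681433584833401517699491421362583983778441327942579446273853966843452861345847335596733921690793077331724981290015532742302024505036524876726272) (nat_lit 294840814535290085408076681433584833401517699491421362583983778441327942579446273853966843452861345847335596733921690793077331724981290015532742302024505036524876726272) (by decide +kernel)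
theorem c11_s13714 : Sem (nat_lit 1386334847383188664550070665778531748218595021979121511688892729411143073470393764272092352380775458208712834410189682411080515584) (nat_lit 1266331657370308264338324455244482161018012888056127114503467380339079198571199828855245531681502555567086884324722291430937063796537421019502484424652173843935714752707149430784) (nat_lit 1266331657370308264338324455244482161018012888056127114503467380339079198571199828855245531681502555567086884324722291430937063796537421019502484424652173843935714752707149430784) :=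
  sem_of_chk (M (nat_lit 428) (B (M (nat_lit 427) (B (M (nat_lit 398) (B (L (nat_lit 426) ln10_13_2 ln10_13_2_ok) (M (nat_lit 399) (B (L (nat_lit 400) ln16_12_1 ln16_12_1_ok) (L (nat_lit 430) ln11_13_2 ln11_13_2_ok))))) (B (M (nat_lit 426) (B (M (nat_lit 393) (B (L (nat_lit 394) ln13_13_3 ln13_13_3_ok) (M (nat_lit 425) (B (L (nat_lit 392) ln12_13_3 ln12_13_3_ok) (L (nat_lit 396) ln9_13_2 ln9_13_2_ok))))) (B (M (nat_lit 425) (B (L (nat_lit 396) ln9_13_2 ln9_13_2_ok) (M (nat_lit 457) (B (L (nat_lit 456) ln12_13_1 ln12_13_1_ok) (L (nat_lit 458) ln13_13_1 ln13_13_1_ok))))) (M (nat_lit 430) (B (M (nat_lit 394) (B (L (nat_lit 393) ln13_13_3 ln13_13_3_ok) (L (nat_lit 395) ln14_13_3 ln14_13_3_ok))) (M (nat_lit 458) (B (L (nat_lit 457) ln13_13_1 ln13_13_1_ok) (L (nat_lit 459) ln14_13_1 ln14_13_1_ok)))))))) (B (M (nat_lit 430) (B (M (nat_lit 395) (B (L (nat_lit 394) ln14_13_3 ln14_13_3_ok) (M (nat_lit 459)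 (B (L (nat_lit 458) ln14_13_1 ln14_13_1_ok) (M (nat_lit 431) (B (L (nat_lit 396) ln15_13_3 ln15_13_3_ok) (L (nat_lit 460) ln15_13_1 ln15_13_1_ok))))))) (B (M (nat_lit 431) (B (M (nat_lit 396) (B (L (nat_lit 395) ln15_13_3 ln15_13_3_ok) (L (nat_lit 432) ln16_13_3 ln16_13_3_ok))) (M (nat_lit 459) (B (L (nat_lit 458) ln14_13_1 ln14_13_1_ok) (L (nat_lit 460) ln15_13_1 ln15_13_1_ok))))) (B (M (nat_lit 431) (B (M (nat_lit 399) (B (L (nat_lit 398) ln11_13_2 ln11_13_2_ok) (L (nat_lit 400) ln12_13_2 ln12_13_2_ok))) (M (nat_lit 459) (B (L (nat_lit 458) ln14_13_1 ln14_13_1_ok) (L (nat_lit 460) ln15_13_1 ln15_13_1_ok))))) (B (M (nat_lit 395) (B (L (nat_lit 394) ln14_13_3 ln14_13_3_ok) (M (nat_lit 396) (B (M (nat_lit 459) (B (L (nat_lit 458) ln14_13_1 ln14_13_1_ok) (M (nat_lit 491) (B (L (nat_lit 364) ln11_15_6 ln11_15_6_ok) (L (nat_lit 523) ln11_16_6 ln11_16_6_ok))))) (M (nat_lit 363) (B (M (nat_lit 331) (B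 (L (nat_lit 299) ln11_9_4 ln11_9_4_ok) (L (nat_lit 460) ln11_10_4 ln11_10_4_ok))) (M (nat_lit 398) (B (L (nat_lit 362) ln14_12_3 ln14_12_3_ok) (L (nat_lit 399) ln15_12_1 ln15_12_1_ok))))))))) (M (nat_lit 431) (B (M (nat_lit 395) (B (L (nat_lit 394) ln14_13_3 ln14_13_3_ok) (L (nat_lit 396) ln15_13_3 ln15_13_3_ok))) (M (nat_lit 399) (B (L (nat_lit 398) ln11_13_2 ln11_13_2_ok) (L (nat_lit 400) ln12_13_2 ln12_13_2_ok)))))))))) (M (nat_lit 398) (B (L (nat_lit 426) ln10_13_2 ln10_13_2_ok) (M (nat_lit 399) (B (L (nat_lit 396) ln15_12_1 ln15_12_1_ok) (L (nat_lit 400) ln16_12_1 ln16_12_1_ok))))))))) (B (M (nat_lit 427) (B (M (nat_lit 398) (B (L (nat_lit 426) ln10_13_2 ln10_13_2_ok) (M (nat_lit 399) (B (L (nat_lit 396) ln15_12_1 ln15_12_1_ok) (L (nat_lit 400) ln16_12_1 ln16_12_1_ok))))) (B (M (nat_lit 398) (B (L (nat_lit 426) ln10_13_2 ln10_13_2_ok) (M (nat_lit 399) (B (L (nat_lit 400) ln16_12_1 ln16_12_1_ok)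 (L (nat_lit 430) ln11_13_2 ln11_13_2_ok))))) (B (M (nat_lit 426) (B (M (nat_lit 393) (B (L (nat_lit 394) ln13_13_3 ln13_13_3_ok) (M (nat_lit 425) (B (L (nat_lit 392) ln12_13_3 ln12_13_3_ok) (L (nat_lit 396) ln9_13_2 ln9_13_2_ok))))) (B (M (nat_lit 425) (B (L (nat_lit 396) ln9_13_2 ln9_13_2_ok) (M (nat_lit 457) (B (L (nat_lit 456) ln12_13_1 ln12_13_1_ok) (L (nat_lit 458) ln13_13_1 ln13_13_1_ok))))) (M (nat_lit 430) (B (M (nat_lit 394) (B (L (nat_lit 393) ln13_13_3 ln13_13_3_ok) (L (nat_lit 395) ln14_13_3 ln14_13_3_ok))) (M (nat_lit 458) (B (L (nat_lit 457) ln13_13_1 ln13_13_1_ok) (L (nat_lit 459) ln14_13_1 ln14_13_1_ok)))))))) (M (nat_lit 398) (B (M (nat_lit 399) (B (L (nat_lit 396) ln15_12_1 ln15_12_1_ok) (L (nat_lit 400) ln16_12_1 ln16_12_1_ok))) (B (M (nat_lit 399) (B (L (nat_lit 400) ln16_12_1 ln16_12_1_ok) (L (nat_lit 430) ln11_13_2 ln11_13_2_ok))) (M (nat_lit 395) (B (M (nat_lit 430) (B (L (nat_lit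 394) ln14_13_3 ln14_13_3_ok) (M (nat_lit 431) (B (L (nat_lit 396) ln11_12_0 ln11_12_0_ok) (M (nat_lit 459) (B (L (nat_lit 458) ln14_13_1 ln14_13_1_ok) (L (nat_lit 460) ln15_13_1 ln15_13_1_ok))))))) (B (M (nat_lit 396) (B (M (nat_lit 363) (B (L (nat_lit 362) ln14_12_3 ln14_12_3_ok) (M (nat_lit 460) (B (L (nat_lit 331) ln11_10_4 ln11_10_4_ok) (L (nat_lit 492) ln12_15_7 ln12_15_7_ok))))) (M (nat_lit 459) (B (M (nat_lit 364) (B (L (nat_lit 332) ln12_10_5 ln12_10_5_ok) (L (nat_lit 491) ln11_15_6 ln11_15_6_ok))) (M (nat_lit 430) (B (L (nat_lit 431) ln11_12_0 ln11_12_0_ok) (L (nat_lit 458) ln14_13_1 ln14_13_1_ok))))))) (B (M (nat_lit 460) (B (M (nat_lit 492) (B (L (nat_lit 524) ln12_16_7 ln12_16_7_ok) (M (nat_lit 365) (B (L (nat_lit 333) ln13_10_5 ln13_10_5_ok) (L (nat_lit 461) ln13_11_5 ln13_11_5_ok))))) (M (nat_lit 430) (B (L (nat_lit 394) ln14_13_3 ln14_13_3_ok) (M (nat_lit 459) (B (L (nat_lit 458) ln14_13_1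 ln14_13_1_ok) (L (nat_lit 431) ln15_13_1 ln15_13_1_ok))))))) (B (M (nat_lit 396) (B (M (nat_lit 366) (B (L (nat_lit 367) ln11_12_2 ln11_12_2_ok) (M (nat_lit 394) (B (L (nat_lit 365) ln10_12_2 ln10_12_2_ok) (L (nat_lit 393) ln9_12_0 ln9_12_0_ok))))) (M (nat_lit 363) (B (L (nat_lit 362) ln14_12_3 ln14_12_3_ok) (M (nat_lit 460) (B (L (nat_lit 331) ln11_10_4 ln11_10_4_ok) (L (nat_lit 492) ln12_15_7 ln12_15_7_ok))))))) (M (nat_lit 394) (B (L (nat_lit 430) ln14_13_3 ln14_13_3_ok) (M (nat_lit 396) (B (L (nat_lit 393) ln9_12_0 ln9_12_0_ok) (M (nat_lit 366) (B (L (nat_lit 365) ln10_12_2 ln10_12_2_ok) (L (nat_lit 367) ln11_12_2 ln11_12_2_ok))))))))))))))))))) (B (K (nat_lit 2079502270913392379444674211814302674077704290823075655481512624564798400421800170032085953906810352733060637150540575368324055040) (nat_lit 1266331655955072354700736160286218874899644252968860139694162967507453244304049461417712714762972227984853617026311383440862550568834795279417043438338998689500364013929179906048)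 (nat_lit 1266331655955072354700736160286218874899644252968860139694162967507453244304049461417712714762972227984853617026311383440862550568834795279417043438338998689500364013929179906048) c11_s12369) (B (K (nat_lit 2079502270913392379444674211814302674077704290823075655481512624564798400421800170032085953906810352733060637150540575368324055040) (nat_lit 96107167264205229630134098456046872498492009092907100182896117337463758574891203178691020095066225255957143272974389344917807152258271063051707405614807252992) (nat_lit 96107167264205229630134098456046872498492009092907100182896117337463758574891203178691020095066225255957143272974389344917807152258271063051707405614807252992) c11_s12455) (B (M (nat_lit 427) (B (M (nat_lit 398) (B (L (nat_lit 426) ln10_13_2 ln10_13_2_ok) (M (nat_lit 399) (B (L (nat_lit 396) ln15_12_1 ln15_12_1_ok) (L (nat_lit 400) ln16_12_1 ln16_12_1_ok))))) (B (M (nat_lit 398) (B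 (L (nat_lit 426) ln10_13_2 ln10_13_2_ok) (M (nat_lit 399) (B (L (nat_lit 400) ln16_12_1 ln16_12_1_ok) (L (nat_lit 430) ln11_13_2 ln11_13_2_ok))))) (B (M (nat_lit 426) (B (M (nat_lit 393) (B (L (nat_lit 394) ln13_13_3 ln13_13_3_ok) (M (nat_lit 425) (B (L (nat_lit 392) ln12_13_3 ln12_13_3_ok) (L (nat_lit 396) ln9_13_2 ln9_13_2_ok))))) (B (M (nat_lit 425) (B (L (nat_lit 396) ln9_13_2 ln9_13_2_ok) (M (nat_lit 457) (B (L (nat_lit 456) ln12_13_1 ln12_13_1_ok) (L (nat_lit 458) ln13_13_1 ln13_13_1_ok))))) (M (nat_lit 430) (B (M (nat_lit 394) (B (L (nat_lit 393) ln13_13_3 ln13_13_3_ok) (L (nat_lit 395) ln14_13_3 ln14_13_3_ok))) (M (nat_lit 458) (B (L (nat_lit 457) ln13_13_1 ln13_13_1_ok) (L (nat_lit 459) ln14_13_1 ln14_13_1_ok)))))))) (K (nat_lit 2426085982678494236891975984832188137007258925245052727377822572141626063897503372912082754669827799995234538520716021846945824768) (nat_lit 1266331656898562961235631786109596878844362801961254542898393956522353453760467217605922186342920112644253869597331850337796283998749400798113227443053214951210412945812433666048)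 (nat_lit 1266331656898562961235631786109596878844362801961254542898393956522353453760467217605922186342920112644253869597331850337796283998749400798113227443053214951210412945812433666048) c11_s12579))))) (B (M (nat_lit 427) (B (M (nat_lit 398) (B (L (nat_lit 426) ln10_13_2 ln10_13_2_ok) (M (nat_lit 399) (B (L (nat_lit 396) ln15_12_1 ln15_12_1_ok) (L (nat_lit 400) ln16_12_1 ln16_12_1_ok))))) (B (M (nat_lit 398) (B (L (nat_lit 426) ln10_13_2 ln10_13_2_ok) (M (nat_lit 399) (B (L (nat_lit 400) ln16_12_1 ln16_12_1_ok) (L (nat_lit 430) ln11_13_2 ln11_13_2_ok))))) (B (M (nat_lit 426) (B (M (nat_lit 393) (B (L (nat_lit 394) ln13_13_3 ln13_13_3_ok) (M (nat_lit 425) (B (L (nat_lit 392) ln12_13_3 ln12_13_3_ok) (L (nat_lit 396) ln9_13_2 ln9_13_2_ok))))) (B (M (nat_lit 425) (B (L (nat_lit 396) ln9_13_2 ln9_13_2_ok) (M (nat_lit 457) (B (L (nat_lit 456) ln12_13_1 ln12_13_1_ok) (L (nat_lit 458) ln13_13_1 ln13_13_1_ok)))))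 (M (nat_lit 430) (B (M (nat_lit 394) (B (L (nat_lit 393) ln13_13_3 ln13_13_3_ok) (L (nat_lit 395) ln14_13_3 ln14_13_3_ok))) (M (nat_lit 458) (B (L (nat_lit 457) ln13_13_1 ln13_13_1_ok) (L (nat_lit 459) ln14_13_1 ln14_13_1_ok)))))))) (M (nat_lit 398) (B (M (nat_lit 399) (B (L (nat_lit 396) ln15_12_1 ln15_12_1_ok) (L (nat_lit 400) ln16_12_1 ln16_12_1_ok))) (B (M (nat_lit 399) (B (L (nat_lit 400) ln16_12_1 ln16_12_1_ok) (L (nat_lit 430) ln11_13_2 ln11_13_2_ok))) (M (nat_lit 395) (B (M (nat_lit 430) (B (L (nat_lit 394) ln14_13_3 ln14_13_3_ok) (M (nat_lit 431) (B (L (nat_lit 396) ln11_12_0 ln11_12_0_ok) (M (nat_lit 459) (B (L (nat_lit 458) ln14_13_1 ln14_13_1_ok) (L (nat_lit 460) ln15_13_1 ln15_13_1_ok))))))) (B (M (nat_lit 363) (B (M (nat_lit 460) (B (L (nat_lit 331) ln11_10_4 ln11_10_4_ok) (M (nat_lit 396) (B (L (nat_lit 362) ln14_12_3 ln14_12_3_ok) (L (nat_lit 492) ln12_15_7 ln12_15_7_ok))))) (B (M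 (nat_lit 459) (B (M (nat_lit 362) (B (L (nat_lit 330) ln11_14_7 ln11_14_7_ok) (L (nat_lit 396) ln14_12_3 ln14_12_3_ok))) (M (nat_lit 458) (B (L (nat_lit 490) ln11_11_5 ln11_11_5_ok) (L (nat_lit 430) ln14_13_1 ln14_13_1_ok))))) (B (M (nat_lit 460) (B (L (nat_lit 331) ln11_10_4 ln11_10_4_ok) (M (nat_lit 492) (B (L (nat_lit 396) ln12_15_7 ln12_15_7_ok) (L (nat_lit 459) ln11_11_4 ln11_11_4_ok))))) (M (nat_lit 460) (B (L (nat_lit 331) ln11_10_4 ln11_10_4_ok) (M (nat_lit 492) (B (L (nat_lit 459) ln11_11_4 ln11_11_4_ok) (L (nat_lit 524) ln12_16_7 ln12_16_7_ok))))))))) (B (M (nat_lit 460) (B (M (nat_lit 492) (B (L (nat_lit 524) ln12_16_7 ln12_16_7_ok) (M (nat_lit 365) (B (L (nat_lit 333) ln13_10_5 ln13_10_5_ok) (L (nat_lit 461) ln13_11_5 ln13_11_5_ok))))) (M (nat_lit 430) (B (L (nat_lit 394) ln14_13_3 ln14_13_3_ok) (M (nat_lit 459) (B (L (nat_lit 458) ln14_13_1 ln14_13_1_ok) (L (nat_lit 431) ln15_13_1 ln15_13_1_ok)))))))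 (B (M (nat_lit 396) (B (M (nat_lit 366) (B (L (nat_lit 367) ln11_12_2 ln11_12_2_ok) (M (nat_lit 394) (B (L (nat_lit 365) ln10_12_2 ln10_12_2_ok) (L (nat_lit 393) ln9_12_0 ln9_12_0_ok))))) (M (nat_lit 363) (B (L (nat_lit 362) ln14_12_3 ln14_12_3_ok) (M (nat_lit 331) (B (L (nat_lit 299) ln11_9_4 ln11_9_4_ok) (L (nat_lit 460) ln11_10_4 ln11_10_4_ok))))))) (M (nat_lit 394) (B (L (nat_lit 430) ln14_13_3 ln14_13_3_ok) (M (nat_lit 396) (B (L (nat_lit 393) ln9_12_0 ln9_12_0_ok) (M (nat_lit 366) (B (L (nat_lit 365) ln10_12_2 ln10_12_2_ok) (L (nat_lit 367) ln11_12_2 ln11_12_2_ok))))))))))))))))))) (B (K (nat_lit 2079502270913392379444674211814302674077704290823075655481512624564798400421800170032085953906810352733060637150540575368324055040) (nat_lit 54918381300224900824533046903204082264994231308031359570915678348882751365902870793412175868439491748903257006467114459726987341856900710589697199607711268864)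 (nat_lit 54918381300224900824533046903204082264994231308031359570915678348882751365902870793412175868439491748903257006467114459726987341856900710589697199607711268864) c11_s12676) (B (K (nat_lit 2079502270913392379444674211814302674077704290823075655481512624564798400421800170032085953906810352733060637150540575368324055040) (nat_lit 54918381300224900991252406138323887175845764311547419089834376892658639086131567441020047068831682810168558016526698483462764127488298259721301244951314563072) (nat_lit 54918381300224900991252406138323887175845764311547419089834376892658639086131567441020047068831682810168558016526698483462764127488298259721301244951314563072) c11_s12704) (B (K (nat_lit 2079502270913392379444674211814302674077704290823075655481512624564798400421800170032085953906810352733060637150540575368324055040) (nat_lit 117936325981617097111814432736373133762262387927712272091549999076949588375598239084240382189496093111075353540843481188846346603570006723604361360161170380358349225984)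 (nat_lit 117936325981617097111814432736373133762262387927712272091549999076949588375598239084240382189496093111075353540843481188846346603570006723604361360161170380358349225984) c11_s12799) (B (K (nat_lit 2079502270913392379444674211814302674077704290823075655481512624564798400421800170032085953906810352733060637150540575368324055040) (nat_lit 411887859806030154873098217685202516474756463930278761236244096132726839756145842068421448818349333220939409572285534171417743620211885870928887486980185653248) (nat_lit 411887859806030154873098217685202516474756463930278761236244096132726839756145842068421448818349333220939409572285534171417743620211885870928887486980185653248) c11_s12910) (B (K (nat_lit 2079502270913392379444674211814302674077704290823075655481512624564798400421800170032085953906810352733060637150540575368324055040) (nat_lit 54918381293831559960391324784055408976374375124546966259403117084815690070692210350260388273319480706998081829424720807042249268367972885760913188351027183616)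 (nat_lit 54918381293831559960391324784055408976374375124546966259403117084815690070692210350260388273319480706998081829424720807042249268367972885760913188351027183616) c11_s12957) (B (K (nat_lit 2079502270913392379444674211814302674077704290823075655481512624564798400421800170032085953906810352733060637150540575368324055040) (nat_lit 96107167266602732516590709787462265542927493804458651626873774535520140739255114215870426482366779846935676035431249747126589326850864608721339188529476927488) (nat_lit 96107167266602732516590709787462265542927493804458651626873774535520140739255114215870426482366779846935676035431249747126589326850864608721339188529476927488) c11_s13122) (B c11_n13138 (B c11_n13244 (B (K (nat_lit 2079502270913392379444674211814302674077704290823075655481512624564798400421800170032085953906810352733060637150540575368324055040) (nat_lit 1651108561271312201411710284054907645331580681595972210244202385088809022283001106783193586282566106035923506776205576843702761729993299690901849272707404034850078851072)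 (nat_lit 1651108561271312201411710284054907645331580681595972210244202385088809022283001106783193586282566106035923506776205576843702761729993299690901849272707404034850078851072) c11_s13451) (B (K (nat_lit 2079502270913392379444674211814302674077704290823075655481512624564798400421800170032085953906810352733060637150540575368324055040) (nat_lit 178484739204952569303058364306314115403212001898425000787232840738355310617937603917001278507792496189926893839312747501056485414478681255680050219174147915776) (nat_lit 178484739204952569303058364306314115403212001898425000787232840738355310617937603917001278507792496189926893839312747501056485414478681255680050219174147915776) c11_s13528) (B (M (nat_lit 460) (B (M (nat_lit 492) (B (L (nat_lit 524) ln12_16_6 ln12_16_6_ok) (M (nat_lit 365) (B (L (nat_lit 333) ln13_10_5 ln13_10_5_ok) (L (nat_lit 396) ln12_15_6 ln12_15_6_ok))))) (B (M (nat_lit 492) (B (L (nat_lit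 524) ln12_16_6 ln12_16_6_ok) (M (nat_lit 365) (B (L (nat_lit 396) ln12_15_6 ln12_15_6_ok) (L (nat_lit 461) ln13_11_5 ln13_11_5_ok))))) (B (M (nat_lit 492) (B (L (nat_lit 524) ln12_16_6 ln12_16_6_ok) (M (nat_lit 396) (B (M (nat_lit 395) (B (L (nat_lit 363) ln12_15_7 ln12_15_7_ok) (M (nat_lit 394) (B (L (nat_lit 393) ln9_12_0 ln9_12_0_ok) (L (nat_lit 430) ln10_12_0 ln10_12_0_ok))))) (M (nat_lit 364) (B (M (nat_lit 493) (B (L (nat_lit 461) ln13_15_7 ln13_15_7_ok) (L (nat_lit 525) ln12_12_4 ln12_12_4_ok))) (M (nat_lit 491) (B (L (nat_lit 459) ln12_11_5 ln12_11_5_ok) (L (nat_lit 523) ln12_12_5 ln12_12_5_ok))))))))) (B (M (nat_lit 492) (B (L (nat_lit 524) ln12_16_6 ln12_16_6_ok) (M (nat_lit 365) (B (L (nat_lit 333) ln13_10_5 ln13_10_5_ok) (L (nat_lit 461) ln13_11_5 ln13_11_5_ok))))) (M (nat_lit 398) (B (M (nat_lit 427) (B (L (nat_lit 426) ln10_13_2 ln10_13_2_ok) (M (nat_lit 399) (B (L (nat_lit 396) ln15_12_1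 ln15_12_1_ok) (L (nat_lit 400) ln16_12_1 ln16_12_1_ok))))) (B (M (nat_lit 427) (B (L (nat_lit 426) ln10_13_2 ln10_13_2_ok) (M (nat_lit 399) (B (L (nat_lit 400) ln16_12_1 ln16_12_1_ok) (L (nat_lit 430) ln11_13_2 ln11_13_2_ok))))) (B (M (nat_lit 364) (B (M (nat_lit 365) (B (L (nat_lit 333) ln13_10_5 ln13_10_5_ok) (M (nat_lit 461) (B (L (nat_lit 332) ln13_14_7 ln13_14_7_ok) (M (nat_lit 493) (B (L (nat_lit 396) ln13_15_7 ln13_15_7_ok) (L (nat_lit 366) ln13_15_6 ln13_15_6_ok))))))) (B (M (nat_lit 427) (B (L (nat_lit 426) ln10_13_2 ln10_13_2_ok) (M (nat_lit 363) (B (M (nat_lit 331) (B (L (nat_lit 396) ln12_14_7 ln12_14_7_ok) (L (nat_lit 395) ln11_10_4 ln11_10_4_ok))) (M (nat_lit 365) (B (L (nat_lit 333) ln13_10_5 ln13_10_5_ok) (L (nat_lit 362) ln10_11_0 ln10_11_0_ok))))))) (B (M (nat_lit 396) (B (M (nat_lit 461) (B (L (nat_lit 332) ln12_10_4 ln12_10_4_ok) (L (nat_lit 493) ln13_15_7 ln13_15_7_ok))) (M (nat_lit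 395) (B (M (nat_lit 363) (B (L (nat_lit 331) ln12_14_7 ln12_14_7_ok) (L (nat_lit 362) ln14_12_3 ln14_12_3_ok))) (M (nat_lit 394) (B (L (nat_lit 393) ln9_12_0 ln9_12_0_ok) (L (nat_lit 430) ln10_12_0 ln10_12_0_ok))))))) (M (nat_lit 461) (B (M (nat_lit 365) (B (L (nat_lit 332) ln13_14_7 ln13_14_7_ok) (L (nat_lit 333) ln13_10_5 ln13_10_5_ok))) (M (nat_lit 430) (B (M (nat_lit 493) (B (L (nat_lit 366) ln13_15_6 ln13_15_6_ok) (L (nat_lit 525) ln13_16_6 ln13_16_6_ok))) (M (nat_lit 431) (B (L (nat_lit 459) ln15_13_1 ln15_13_1_ok) (L (nat_lit 432) ln16_13_1 ln16_13_1_ok))))))))))) (B (M (nat_lit 399) (B (L (nat_lit 400) ln16_12_1 ln16_12_1_ok) (M (nat_lit 427) (B (L (nat_lit 396) ln15_12_1 ln15_12_1_ok) (L (nat_lit 430) ln11_13_2 ln11_13_2_ok))))) (M (nat_lit 399) (B (L (nat_lit 400) ln16_12_1 ln16_12_1_ok) (M (nat_lit 396) (B (M (nat_lit 431) (B (L (nat_lit 432) ln12_12_0 ln12_12_0_ok) (M (nat_lit 430) (B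 (L (nat_lit 395) ln11_12_0 ln11_12_0_ok) (L (nat_lit 459) ln15_13_1 ln15_13_1_ok))))) (M (nat_lit 364) (B (L (nat_lit 363) ln15_12_3 ln15_12_3_ok) (M (nat_lit 332) (B (L (nat_lit 300) ln12_9_4 ln12_9_4_ok) (L (nat_lit 461) ln12_10_4 ln12_10_4_ok))))))))))))))))))) (B c11_n13649 (K (nat_lit 2079502270913392379444674211814302674077704290823075655481512624564798400421800170032085953906810352733060637150540575368324055040) (nat_lit 294840814535290085408076681433584833401517699491421362583983778441327942579446273853966843452861345847335596733921690793077331724981290015532742302024505036524876726272) (nat_lit 294840814535290085408076681433584833401517699491421362583983778441327942579446273853966843452861345847335596733921690793077331724981290015532742302024505036524876726272) c11_s13713)))))))))))))))))))) (nat_lit 1386334847383188664550070665778531748218595021979121511688892729411143073470393764272092352380775458208712834410189682411080515584)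 (nat_lit 1266331657370308264338324455244482161018012888056127114503467380339079198571199828855245531681502555567086884324722291430937063796537421019502484424652173843935714752707149430784) (nat_lit 1266331657370308264338324455244482161018012888056127114503467380339079198571199828855245531681502555567086884324722291430937063796537421019502484424652173843935714752707149430784) (by decide +kernel)
noncomputable def c11_n13776 : Cert := (M (nat_lit 428) (B (M (nat_lit 460) (B (M (nat_lit 492) (B (L (nat_lit 365) ln12_15_6 ln12_15_6_ok) (L (nat_lit 524) ln12_16_6 ln12_16_6_ok))) (M (nat_lit 427) (B (M (nat_lit 426) (B (L (nat_lit 425) ln9_13_2 ln9_13_2_ok) (L (nat_lit 398) ln10_13_2 ln10_13_2_ok))) (M (nat_lit 459) (B (M (nat_lit 364) (B (L (nat_lit 332) ln12_10_5 ln12_10_5_ok) (L (nat_lit 491) ln12_11_5 ln12_11_5_ok))) (M (nat_lit 430) (B (L (nat_lit 458) ln14_13_1 ln14_13_1_ok) (L (nat_lit 431) ln15_13_1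 ln15_13_1_ok))))))))) (B (M (nat_lit 395) (B (M (nat_lit 394) (B (L (nat_lit 393) ln9_12_0 ln9_12_0_ok) (L (nat_lit 430) ln10_12_0 ln10_12_0_ok))) (B (M (nat_lit 430) (B (L (nat_lit 394) ln10_12_0 ln10_12_0_ok) (L (nat_lit 431) ln15_13_3 ln15_13_3_ok))) (M (nat_lit 363) (B (M (nat_lit 331) (B (L (nat_lit 299) ln11_9_4 ln11_9_4_ok) (M (nat_lit 460) (B (L (nat_lit 364) ln12_14_7 ln12_14_7_ok) (L (nat_lit 492) ln12_15_7 ln12_15_7_ok))))) (B (M (nat_lit 398) (B (L (nat_lit 362) ln14_12_3 ln14_12_3_ok) (M (nat_lit 399) (B (L (nat_lit 364) ln15_12_3 ln15_12_3_ok) (L (nat_lit 427) ln15_12_1 ln15_12_1_ok))))) (M (nat_lit 331) (B (L (nat_lit 299) ln11_9_4 ln11_9_4_ok) (M (nat_lit 460) (B (L (nat_lit 427) ln11_10_4 ln11_10_4_ok) (L (nat_lit 492) ln12_15_7 ln12_15_7_ok))))))))))) (B (M (nat_lit 427) (B (M (nat_lit 398) (B (L (nat_lit 399) ln15_12_1 ln15_12_1_ok) (L (nat_lit 426) ln10_13_2 ln10_13_2_ok))) (B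 (M (nat_lit 426) (B (L (nat_lit 425) ln9_13_2 ln9_13_2_ok) (M (nat_lit 430) (B (M (nat_lit 394) (B (L (nat_lit 393) ln13_13_3 ln13_13_3_ok) (L (nat_lit 395) ln10_12_0 ln10_12_0_ok))) (M (nat_lit 458) (B (L (nat_lit 457) ln13_13_1 ln13_13_1_ok) (L (nat_lit 459) ln14_13_1 ln14_13_1_ok))))))) (M (nat_lit 395) (B (M (nat_lit 394) (B (L (nat_lit 393) ln9_12_0 ln9_12_0_ok) (L (nat_lit 430) ln10_12_0 ln10_12_0_ok))) (B (M (nat_lit 430) (B (L (nat_lit 394) ln10_12_0 ln10_12_0_ok) (L (nat_lit 431) ln15_13_3 ln15_13_3_ok))) (M (nat_lit 363) (B (M (nat_lit 331) (B (L (nat_lit 299) ln11_9_4 ln11_9_4_ok) (L (nat_lit 460) ln11_10_4 ln11_10_4_ok))) (M (nat_lit 398) (B (L (nat_lit 362) ln14_12_3 ln14_12_3_ok) (L (nat_lit 399) ln15_12_1 ln15_12_1_ok))))))))))) (B (M (nat_lit 460) (B (M (nat_lit 492) (B (L (nat_lit 365) ln12_15_6 ln12_15_6_ok) (L (nat_lit 524) ln12_16_6 ln12_16_6_ok))) (M (nat_lit 459) (B (M (nat_lit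 430) (B (L (nat_lit 431) ln15_13_1 ln15_13_1_ok) (M (nat_lit 458) (B (L (nat_lit 427) ln14_13_1 ln14_13_1_ok) (L (nat_lit 457) ln9_14_2 ln9_14_2_ok))))) (B (M (nat_lit 430) (B (L (nat_lit 431) ln15_13_1 ln15_13_1_ok) (M (nat_lit 458) (B (L (nat_lit 457) ln9_14_2 ln9_14_2_ok) (L (nat_lit 461) ln10_14_2 ln10_14_2_ok))))) (M (nat_lit 364) (B (L (nat_lit 491) ln12_11_5 ln12_11_5_ok) (M (nat_lit 332) (B (L (nat_lit 427) ln12_10_5 ln12_10_5_ok) (L (nat_lit 461) ln12_10_4 ln12_10_4_ok)))))))))) (B (M (nat_lit 364) (B (M (nat_lit 461) (B (L (nat_lit 332) ln12_10_4 ln12_10_4_ok) (L (nat_lit 493) ln13_15_7 ln13_15_7_ok))) (M (nat_lit 395) (B (M (nat_lit 394) (B (L (nat_lit 393) ln9_12_0 ln9_12_0_ok) (L (nat_lit 430) ln10_12_0 ln10_12_0_ok))) (M (nat_lit 363) (B (M (nat_lit 331) (B (L (nat_lit 299) ln11_9_4 ln11_9_4_ok) (L (nat_lit 460) ln12_14_7 ln12_14_7_ok))) (M (nat_lit 362) (B (L (nat_lit 361) ln9_11_0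 ln9_11_0_ok) (L (nat_lit 398) ln14_12_3 ln14_12_3_ok))))))))) (B (M (nat_lit 364) (B (M (nat_lit 461) (B (L (nat_lit 332) ln12_10_4 ln12_10_4_ok) (L (nat_lit 493) ln13_15_7 ln13_15_7_ok))) (M (nat_lit 363) (B (M (nat_lit 460) (B (L (nat_lit 331) ln12_14_7 ln12_14_7_ok) (M (nat_lit 365) (B (L (nat_lit 333) ln12_14_6 ln12_14_6_ok) (L (nat_lit 492) ln12_15_6 ln12_15_6_ok))))) (B (M (nat_lit 362) (B (L (nat_lit 361) ln9_11_0 ln9_11_0_ok) (M (nat_lit 398) (B (L (nat_lit 365) ln10_11_0 ln10_11_0_ok) (L (nat_lit 399) ln15_12_3 ln15_12_3_ok))))) (M (nat_lit 362) (B (L (nat_lit 361) ln9_11_0 ln9_11_0_ok) (M (nat_lit 398) (B (L (nat_lit 395) ln14_12_3 ln14_12_3_ok) (L (nat_lit 399) ln15_12_3 ln15_12_3_ok)))))))))) (M (nat_lit 395) (B (M (nat_lit 394) (B (L (nat_lit 393) ln9_12_0 ln9_12_0_ok) (L (nat_lit 430) ln10_12_0 ln10_12_0_ok))) (B (M (nat_lit 430) (B (L (nat_lit 394) ln10_12_0 ln10_12_0_ok) (L (nat_lit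 431) ln15_13_3 ln15_13_3_ok))) (B (M (nat_lit 427) (B (M (nat_lit 398) (B (L (nat_lit 426) ln14_12_1 ln14_12_1_ok) (L (nat_lit 399) ln15_12_1 ln15_12_1_ok))) (M (nat_lit 459) (B (M (nat_lit 364) (B (L (nat_lit 332) ln12_10_5 ln12_10_5_ok) (L (nat_lit 491) ln11_15_6 ln11_15_6_ok))) (M (nat_lit 430) (B (L (nat_lit 431) ln15_13_3 ln15_13_3_ok) (L (nat_lit 458) ln14_13_1 ln14_13_1_ok))))))) (M (nat_lit 394) (B (L (nat_lit 393) ln9_12_0 ln9_12_0_ok) (M (nat_lit 398) (B (M (nat_lit 362) (B (L (nat_lit 361) ln13_12_3 ln13_12_3_ok) (L (nat_lit 363) ln14_12_3 ln14_12_3_ok))) (M (nat_lit 426) (B (L (nat_lit 425) ln13_12_1 ln13_12_1_ok) (L (nat_lit 427) ln14_12_1 ln14_12_1_ok))))))))))))))))))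
noncomputable def c11_n13922 : Cert := (M (nat_lit 395) (B (M (nat_lit 430) (B (L (nat_lit 394) ln10_12_0 ln10_12_0_ok) (M (nat_lit 431) (B (L (nat_lit 398) ln11_12_0 ln11_12_0_ok) (L (nat_lit 432) ln16_13_3 ln16_13_3_ok))))) (B (M (nat_lit 430) (B (M (nat_lit 431) (B (L (nat_lit 398) ln11_12_0 ln11_12_0_ok) (L (nat_lit 428) ln15_13_3 ln15_13_3_ok))) (B (M (nat_lit 431) (B (L (nat_lit 428) ln15_13_3 ln15_13_3_ok) (L (nat_lit 432) ln16_13_3 ln16_13_3_ok))) (B (M (nat_lit 431) (B (L (nat_lit 398) ln11_12_0 ln11_12_0_ok) (L (nat_lit 432) ln16_13_3 ln16_13_3_ok))) (M (nat_lit 427) (B (M (nat_lit 426) (B (L (nat_lit 398) ln14_12_1 ln14_12_1_ok) (M (nat_lit 425) (B (L (nat_lit 424) ln8_13_2 ln8_13_2_ok) (L (nat_lit 428) ln9_13_2 ln9_13_2_ok))))) (B (M (nat_lit 364) (B (M (nat_lit 332) (B (L (nat_lit 300) ln12_9_5 ln12_9_5_ok) (M (nat_lit 459) (B (L (nat_lit 363) ln11_14_6 ln11_14_6_ok) (L (nat_lit 491)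 ln11_15_6 ln11_15_6_ok))))) (B (M (nat_lit 459) (B (L (nat_lit 491) ln11_15_6 ln11_15_6_ok) (M (nat_lit 332) (B (L (nat_lit 363) ln11_14_6 ln11_14_6_ok) (L (nat_lit 428) ln12_10_5 ln12_10_5_ok))))) (B (M (nat_lit 459) (B (L (nat_lit 491) ln11_15_6 ln11_15_6_ok) (M (nat_lit 458) (B (L (nat_lit 428) ln14_13_1 ln14_13_1_ok) (M (nat_lit 461) (B (L (nat_lit 493) ln13_15_7 ln13_15_7_ok) (L (nat_lit 460) ln10_14_2 ln10_14_2_ok))))))) (M (nat_lit 332) (B (L (nat_lit 300) ln12_9_5 ln12_9_5_ok) (M (nat_lit 461) (B (L (nat_lit 365) ln13_14_7 ln13_14_7_ok) (L (nat_lit 493) ln13_15_7 ln13_15_7_ok))))))))) (M (nat_lit 364) (B (M (nat_lit 332) (B (L (nat_lit 300) ln12_9_5 ln12_9_5_ok) (M (nat_lit 461) (B (L (nat_lit 365) ln13_14_7 ln13_14_7_ok) (L (nat_lit 493) ln13_15_7 ln13_15_7_ok))))) (B (M (nat_lit 398) (B (L (nat_lit 426) ln14_12_1 ln14_12_1_ok) (M (nat_lit 399) (B (L (nat_lit 363) ln15_12_3 ln15_12_3_ok)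 (M (nat_lit 400) (B (L (nat_lit 365) ln16_12_3 ln16_12_3_ok) (L (nat_lit 401) ln17_12_1 ln17_12_1_ok))))))) (M (nat_lit 363) (B (M (nat_lit 332) (B (L (nat_lit 300) ln12_9_5 ln12_9_5_ok) (L (nat_lit 459) ln11_14_6 ln11_14_6_ok))) (M (nat_lit 398) (B (L (nat_lit 399) ln15_12_3 ln15_12_3_ok) (L (nat_lit 426) ln14_12_1 ln14_12_1_ok))))))))))))))) (B (M (nat_lit 430) (B (L (nat_lit 394) ln10_12_0 ln10_12_0_ok) (M (nat_lit 431) (B (L (nat_lit 428) ln15_13_3 ln15_13_3_ok) (L (nat_lit 432) ln16_13_3 ln16_13_3_ok))))) (M (nat_lit 364) (B (M (nat_lit 332) (B (L (nat_lit 300) ln12_9_4 ln12_9_4_ok) (M (nat_lit 461) (B (L (nat_lit 428) ln12_10_4 ln12_10_4_ok) (L (nat_lit 493) ln13_15_7 ln13_15_7_ok))))) (B (M (nat_lit 461) (B (L (nat_lit 493) ln13_15_7 ln13_15_7_ok) (M (nat_lit 332) (B (L (nat_lit 365) ln13_14_7 ln13_14_7_ok) (L (nat_lit 428) ln12_10_4 ln12_10_4_ok))))) (B (M (nat_lit 394) (B (M (nat_lit 393)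 (B (L (nat_lit 365) ln9_12_2 ln9_12_2_ok) (L (nat_lit 428) ln9_12_0 ln9_12_0_ok))) (B (M (nat_lit 393) (B (L (nat_lit 428) ln9_12_0 ln9_12_0_ok) (M (nat_lit 425) (B (L (nat_lit 424) ln12_12_1 ln12_12_1_ok) (L (nat_lit 426) ln13_12_1 ln13_12_1_ok))))) (B (M (nat_lit 398) (B (M (nat_lit 426) (B (L (nat_lit 425) ln13_12_1 ln13_12_1_ok) (L (nat_lit 427) ln14_12_1 ln14_12_1_ok))) (B (M (nat_lit 399) (B (L (nat_lit 363) ln15_12_3 ln15_12_3_ok) (M (nat_lit 427) (B (L (nat_lit 426) ln14_12_1 ln14_12_1_ok) (L (nat_lit 428) ln15_12_1 ln15_12_1_ok))))) (M (nat_lit 399) (B (L (nat_lit 363) ln15_12_3 ln15_12_3_ok) (M (nat_lit 400) (B (L (nat_lit 365) ln16_12_3 ln16_12_3_ok) (L (nat_lit 428) ln16_12_1 ln16_12_1_ok)))))))) (M (nat_lit 393) (B (L (nat_lit 365) ln9_12_2 ln9_12_2_ok) (M (nat_lit 425) (B (L (nat_lit 424) ln12_12_1 ln12_12_1_ok) (L (nat_lit 426) ln13_12_1 ln13_12_1_ok))))))))) (M (nat_lit 332) (B (L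 (nat_lit 300) ln12_9_4 ln12_9_4_ok) (M (nat_lit 461) (B (L (nat_lit 365) ln13_14_7 ln13_14_7_ok) (L (nat_lit 493) ln13_15_7 ln13_15_7_ok)))))))))))))
noncomputable def c11_n13992 : Cert := (M (nat_lit 364) (B (M (nat_lit 332) (B (L (nat_lit 300) ln12_9_4 ln12_9_4_ok) (M (nat_lit 461) (B (L (nat_lit 428) ln12_10_4 ln12_10_4_ok) (L (nat_lit 493) ln13_15_7 ln13_15_7_ok))))) (B (M (nat_lit 461) (B (L (nat_lit 493) ln13_15_7 ln13_15_7_ok) (M (nat_lit 332) (B (L (nat_lit 365) ln13_14_7 ln13_14_7_ok) (L (nat_lit 428) ln12_10_4 ln12_10_4_ok))))) (B (M (nat_lit 461) (B (L (nat_lit 493) ln13_15_7 ln13_15_7_ok) (M (nat_lit 398) (B (M (nat_lit 427) (B (L (nat_lit 426) ln14_12_1 ln14_12_1_ok) (M (nat_lit 399) (B (L (nat_lit 428) ln15_12_1 ln15_12_1_ok) (M (nat_lit 431) (B (L (nat_lit 430) ln11_12_0 ln11_12_0_ok) (L (nat_lit 432) ln12_12_0 ln12_12_0_ok))))))) (B (M (nat_lit 460) (B (M (nat_lit 492) (B (L (nat_lit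 365) ln13_11_5 ln13_11_5_ok) (M (nat_lit 524) (B (L (nat_lit 428) ln12_16_6 ln12_16_6_ok) (L (nat_lit 556) ln12_17_6 ln12_17_6_ok))))) (M (nat_lit 459) (B (M (nat_lit 427) (B (L (nat_lit 491) ln11_15_6 ln11_15_6_ok) (L (nat_lit 426) ln14_12_1 ln14_12_1_ok))) (M (nat_lit 430) (B (L (nat_lit 431) ln11_12_0 ln11_12_0_ok) (L (nat_lit 458) ln10_14_2 ln10_14_2_ok))))))) (B (M (nat_lit 399) (B (M (nat_lit 431) (B (L (nat_lit 430) ln11_12_0 ln11_12_0_ok) (L (nat_lit 432) ln12_12_0 ln12_12_0_ok))) (M (nat_lit 400) (B (L (nat_lit 365) ln16_12_3 ln16_12_3_ok) (L (nat_lit 428) ln16_12_1 ln16_12_1_ok))))) (B (M (nat_lit 399) (B (M (nat_lit 431) (B (L (nat_lit 430) ln11_12_0 ln11_12_0_ok) (L (nat_lit 432) ln12_12_0 ln12_12_0_ok))) (M (nat_lit 368) (B (L (nat_lit 367) ln12_12_2 ln12_12_2_ok) (M (nat_lit 400) (B (L (nat_lit 365) ln16_12_3 ln16_12_3_ok) (L (nat_lit 369) ln13_12_2 ln13_12_2_ok))))))) (M (nat_lit 399)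 (B (M (nat_lit 427) (B (L (nat_lit 426) ln14_12_1 ln14_12_1_ok) (L (nat_lit 428) ln15_12_1 ln15_12_1_ok))) (B (M (nat_lit 400) (B (L (nat_lit 365) ln16_12_3 ln16_12_3_ok) (L (nat_lit 428) ln16_12_1 ln16_12_1_ok))) (M (nat_lit 368) (B (L (nat_lit 367) ln12_12_2 ln12_12_2_ok) (M (nat_lit 400) (B (L (nat_lit 365) ln16_12_3 ln16_12_3_ok) (L (nat_lit 369) ln13_12_2 ln13_12_2_ok))))))))))))))) (B (M (nat_lit 332) (B (L (nat_lit 300) ln12_9_4 ln12_9_4_ok) (M (nat_lit 461) (B (L (nat_lit 365) ln13_14_7 ln13_14_7_ok) (L (nat_lit 493) ln13_15_7 ln13_15_7_ok))))) (M (nat_lit 398) (B (M (nat_lit 427) (B (L (nat_lit 426) ln14_12_1 ln14_12_1_ok) (M (nat_lit 332) (B (L (nat_lit 300) ln12_9_5 ln12_9_5_ok) (M (nat_lit 428) (B (L (nat_lit 459) ln12_10_5 ln12_10_5_ok) (L (nat_lit 399) ln15_12_1 ln15_12_1_ok))))))) (B (M (nat_lit 399) (B (M (nat_lit 427) (B (L (nat_lit 426) ln14_12_1 ln14_12_1_ok) (L (nat_lit 428) ln15_12_1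 ln15_12_1_ok))) (M (nat_lit 431) (B (L (nat_lit 430) ln11_12_0 ln11_12_0_ok) (L (nat_lit 432) ln12_12_0 ln12_12_0_ok))))) (B (M (nat_lit 427) (B (L (nat_lit 426) ln14_12_1 ln14_12_1_ok) (M (nat_lit 332) (B (L (nat_lit 300) ln12_9_5 ln12_9_5_ok) (M (nat_lit 459) (B (L (nat_lit 428) ln12_10_5 ln12_10_5_ok) (L (nat_lit 491) ln11_15_6 ln11_15_6_ok))))))) (B (M (nat_lit 399) (B (M (nat_lit 431) (B (L (nat_lit 430) ln11_12_0 ln11_12_0_ok) (L (nat_lit 432) ln12_12_0 ln12_12_0_ok))) (M (nat_lit 400) (B (L (nat_lit 365) ln16_12_3 ln16_12_3_ok) (L (nat_lit 428) ln16_12_1 ln16_12_1_ok))))) (M (nat_lit 399) (B (M (nat_lit 431) (B (L (nat_lit 430) ln11_12_0 ln11_12_0_ok) (L (nat_lit 432) ln12_12_0 ln12_12_0_ok))) (M (nat_lit 368) (B (L (nat_lit 367) ln12_12_2 ln12_12_2_ok) (M (nat_lit 400) (B (L (nat_lit 365) ln16_12_3 ln16_12_3_ok) (L (nat_lit 369) ln13_12_2 ln13_12_2_ok)))))))))))))))))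
noncomputable def c11_n13993 : Cert := (M (nat_lit 395) (B (M (nat_lit 430) (B (L (nat_lit 394) ln10_12_0 ln10_12_0_ok) (M (nat_lit 431) (B (L (nat_lit 428) ln15_13_3 ln15_13_3_ok) (L (nat_lit 432) ln16_13_3 ln16_13_3_ok))))) (B c11_n13992 (B (M (nat_lit 430) (B (L (nat_lit 394) ln10_12_0 ln10_12_0_ok) (M (nat_lit 431) (B (L (nat_lit 398) ln11_12_0 ln11_12_0_ok) (L (nat_lit 432) ln16_13_3 ln16_13_3_ok))))) (M (nat_lit 394) (B (M (nat_lit 393) (B (L (nat_lit 428) ln9_12_0 ln9_12_0_ok) (M (nat_lit 425) (B (L (nat_lit 424) ln12_12_1 ln12_12_1_ok) (L (nat_lit 426) ln13_12_1 ln13_12_1_ok))))) (B (M (nat_lit 426) (B (L (nat_lit 425) ln13_12_1 ln13_12_1_ok) (M (nat_lit 427) (B (L (nat_lit 398) ln14_12_1 ln14_12_1_ok) (M (nat_lit 362) (B (L (nat_lit 361) ln13_12_3 ln13_12_3_ok) (M (nat_lit 330) (B (L (nat_lit 298) ln10_9_4 ln10_9_4_ok) (L (nat_lit 459) ln10_10_4 ln10_10_4_ok))))))))) (M (nat_lit 393) (B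 (L (nat_lit 428) ln9_12_0 ln9_12_0_ok) (M (nat_lit 361) (B (L (nat_lit 360) ln12_12_3 ln12_12_3_ok) (L (nat_lit 362) ln13_12_3 ln13_12_3_ok))))))))))))
noncomputable def c11_n14086 : Cert := (M (nat_lit 459) (B (M (nat_lit 458) (B (L (nat_lit 428) ln14_13_1 ln14_13_1_ok) (M (nat_lit 363) (B (L (nat_lit 490) ln11_11_5 ln11_11_5_ok) (M (nat_lit 460) (B (L (nat_lit 492) ln11_11_4 ln11_11_4_ok) (L (nat_lit 461) ln10_14_2 ln10_14_2_ok))))))) (B (M (nat_lit 492) (B (M (nat_lit 428) (B (L (nat_lit 458) ln14_13_1 ln14_13_1_ok) (M (nat_lit 524) (B (L (nat_lit 460) ln12_16_7 ln12_16_7_ok) (L (nat_lit 491) ln11_12_4 ln11_12_4_ok))))) (B (M (nat_lit 460) (B (M (nat_lit 524) (B (L (nat_lit 491) ln11_12_4 ln11_12_4_ok) (L (nat_lit 556) ln12_17_7 ln12_17_7_ok))) (M (nat_lit 461) (B (L (nat_lit 365) ln13_11_5 ln13_11_5_ok) (L (nat_lit 458) ln10_14_2 ln10_14_2_ok))))) (B (M (nat_lit 524) (B (L (nat_lit 491) ln11_12_4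 ln11_12_4_ok) (M (nat_lit 460) (B (L (nat_lit 428) ln12_16_7 ln12_16_7_ok) (L (nat_lit 556) ln12_17_7 ln12_17_7_ok))))) (B (M (nat_lit 428) (B (L (nat_lit 458) ln14_13_1 ln14_13_1_ok) (M (nat_lit 491) (B (L (nat_lit 524) ln11_12_4 ln11_12_4_ok) (L (nat_lit 523) ln11_16_6 ln11_16_6_ok))))) (B (M (nat_lit 428) (B (L (nat_lit 458) ln14_13_1 ln14_13_1_ok) (M (nat_lit 460) (B (L (nat_lit 365) ln12_15_6 ln12_15_6_ok) (L (nat_lit 524) ln12_16_7 ln12_16_7_ok))))) (M (nat_lit 460) (B (M (nat_lit 428) (B (L (nat_lit 365) ln12_15_6 ln12_15_6_ok) (L (nat_lit 458) ln14_13_1 ln14_13_1_ok))) (B (M (nat_lit 458) (B (L (nat_lit 428) ln14_13_1 ln14_13_1_ok) (L (nat_lit 461) ln10_14_2 ln10_14_2_ok))) (B (M (nat_lit 461) (B (L (nat_lit 365) ln13_11_5 ln13_11_5_ok) (L (nat_lit 458) ln10_14_2 ln10_14_2_ok))) (M (nat_lit 365) (B (L (nat_lit 428) ln12_15_6 ln12_15_6_ok) (L (nat_lit 461) ln13_11_5 ln13_11_5_ok)))))))))))))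 (B (M (nat_lit 460) (B (M (nat_lit 492) (B (L (nat_lit 363) ln11_11_4 ln11_11_4_ok) (M (nat_lit 461) (B (L (nat_lit 365) ln13_11_5 ln13_11_5_ok) (L (nat_lit 458) ln10_14_2 ln10_14_2_ok))))) (B (M (nat_lit 492) (B (M (nat_lit 461) (B (L (nat_lit 365) ln13_11_5 ln13_11_5_ok) (L (nat_lit 458) ln10_14_2 ln10_14_2_ok))) (M (nat_lit 524) (B (L (nat_lit 491) ln11_12_4 ln11_12_4_ok) (L (nat_lit 556) ln12_17_7 ln12_17_7_ok))))) (B (M (nat_lit 492) (B (L (nat_lit 363) ln11_11_4 ln11_11_4_ok) (M (nat_lit 524) (B (L (nat_lit 491) ln11_12_4 ln11_12_4_ok) (L (nat_lit 556) ln12_17_7 ln12_17_7_ok))))) (M (nat_lit 458) (B (L (nat_lit 461) ln10_14_2 ln10_14_2_ok) (M (nat_lit 490) (B (L (nat_lit 363) ln11_11_5 ln11_11_5_ok) (M (nat_lit 522) (B (L (nat_lit 426) ln10_16_6 ln10_16_6_ok) (L (nat_lit 554) ln10_17_6 ln10_17_6_ok))))))))))) (B (M (nat_lit 492) (B (M (nat_lit 460) (B (L (nat_lit 363) ln11_11_4 ln11_11_4_ok)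 (M (nat_lit 524) (B (L (nat_lit 491) ln11_12_4 ln11_12_4_ok) (L (nat_lit 556) ln12_17_7 ln12_17_7_ok))))) (B (M (nat_lit 524) (B (L (nat_lit 491) ln11_12_4 ln11_12_4_ok) (M (nat_lit 460) (B (L (nat_lit 428) ln12_16_7 ln12_16_7_ok) (L (nat_lit 556) ln12_17_7 ln12_17_7_ok))))) (B (M (nat_lit 491) (B (L (nat_lit 524) ln11_12_4 ln11_12_4_ok) (M (nat_lit 522) (B (L (nat_lit 490) ln11_12_5 ln11_12_5_ok) (M (nat_lit 523) (B (L (nat_lit 428) ln11_16_6 ln11_16_6_ok) (L (nat_lit 554) ln11_13_5 ln11_13_5_ok))))))) (M (nat_lit 460) (B (L (nat_lit 363) ln11_11_4 ln11_11_4_ok) (M (nat_lit 365) (B (L (nat_lit 428) ln12_15_6 ln12_15_6_ok) (L (nat_lit 461) ln13_11_5 ln13_11_5_ok))))))))) (M (nat_lit 458) (B (L (nat_lit 428) ln14_13_1 ln14_13_1_ok) (M (nat_lit 490) (B (L (nat_lit 363) ln11_11_5 ln11_11_5_ok) (M (nat_lit 522) (B (L (nat_lit 426) ln10_16_6 ln10_16_6_ok) (L (nat_lit 491) ln11_12_5 ln11_12_5_ok))))))))))))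
theorem c11_s14174 : Sem (nat_lit 4159004541746089450199132530201857874030314460573348004937112014353638695951705101876145620481444288176116967068709176612499750912) (nat_lit 294840814535290085408076681269284393410960829169662825983762187517101330629557769535939268219712628387922174186908559075227881037168571334744365049726650169698465873920) (nat_lit 294840814535290085408076681269284393410960829169662825983762187517101330629557769535939268219712628387922174186908559075227881037168571334744365049726650169698465873920) :=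
  sem_of_chk (M (nat_lit 427) (B (M (nat_lit 398) (B (L (nat_lit 426) ln14_12_1 ln14_12_1_ok) (M (nat_lit 399) (B (L (nat_lit 428) ln15_12_1 ln15_12_1_ok) (M (nat_lit 400) (B (L (nat_lit 401) ln17_12_1 ln17_12_1_ok) (M (nat_lit 368) (B (L (nat_lit 367) ln12_12_2 ln12_12_2_ok) (L (nat_lit 369) ln13_12_2 ln13_12_2_ok))))))))) (B (M (nat_lit 398) (B (L (nat_lit 426) ln14_12_1 ln14_12_1_ok) (M (nat_lit 428) (B (L (nat_lit 399) ln15_12_1 ln15_12_1_ok) (M (nat_lit 363) (B (L (nat_lit 362) ln14_12_3 ln14_12_3_ok) (M (nat_lit 331) (B (L (nat_lit 299) ln11_9_4 ln11_9_4_ok) (L (nat_lit 460) ln11_10_4 ln11_10_4_ok))))))))) (B c11_n14086 (B (M (nat_lit 459) (B (M (nat_lit 458) (B (L (nat_lit 428) ln14_13_1 ln14_13_1_ok) (M (nat_lit 490) (B (L (nat_lit 363) ln11_11_5 ln11_11_5_ok) (M (nat_lit 522) (B (L (nat_lit 491) ln11_12_5 ln11_12_5_ok) (L (nat_lit 554) ln10_17_6 ln10_17_6_ok))))))) (B (M (nat_lit 460) (B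 (M (nat_lit 458) (B (L (nat_lit 428) ln14_13_1 ln14_13_1_ok) (L (nat_lit 461) ln10_14_2 ln10_14_2_ok))) (B (M (nat_lit 492) (B (M (nat_lit 461) (B (L (nat_lit 365) ln13_11_5 ln13_11_5_ok) (L (nat_lit 458) ln10_14_2 ln10_14_2_ok))) (M (nat_lit 524) (B (L (nat_lit 491) ln11_12_4 ln11_12_4_ok) (L (nat_lit 556) ln12_17_7 ln12_17_7_ok))))) (B (M (nat_lit 492) (B (M (nat_lit 365) (B (L (nat_lit 428) ln12_15_6 ln12_15_6_ok) (L (nat_lit 461) ln13_11_5 ln13_11_5_ok))) (B (M (nat_lit 524) (B (L (nat_lit 428) ln12_16_7 ln12_16_7_ok) (L (nat_lit 556) ln12_17_7 ln12_17_7_ok))) (M (nat_lit 524) (B (L (nat_lit 491) ln11_12_4 ln11_12_4_ok) (L (nat_lit 556) ln12_17_7 ln12_17_7_ok)))))) (M (nat_lit 428) (B (L (nat_lit 458) ln14_13_1 ln14_13_1_ok) (M (nat_lit 492) (B (L (nat_lit 365) ln12_15_6 ln12_15_6_ok) (L (nat_lit 524) ln12_16_7 ln12_16_7_ok))))))))) (B (M (nat_lit 460) (B (M (nat_lit 363) (B (L (nat_lit 492)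 ln11_11_4 ln11_11_4_ok) (M (nat_lit 458) (B (L (nat_lit 490) ln11_11_5 ln11_11_5_ok) (L (nat_lit 461) ln10_14_2 ln10_14_2_ok))))) (B (M (nat_lit 492) (B (M (nat_lit 461) (B (L (nat_lit 365) ln13_11_5 ln13_11_5_ok) (L (nat_lit 458) ln10_14_2 ln10_14_2_ok))) (M (nat_lit 524) (B (L (nat_lit 491) ln11_12_4 ln11_12_4_ok) (L (nat_lit 556) ln12_17_7 ln12_17_7_ok))))) (B (M (nat_lit 492) (B (L (nat_lit 363) ln11_11_4 ln11_11_4_ok) (M (nat_lit 524) (B (L (nat_lit 491) ln11_12_4 ln11_12_4_ok) (L (nat_lit 556) ln12_17_7 ln12_17_7_ok))))) (M (nat_lit 363) (B (M (nat_lit 362) (B (L (nat_lit 330) ln11_14_7 ln11_14_7_ok) (L (nat_lit 398) ln14_12_3 ln14_12_3_ok))) (M (nat_lit 458) (B (L (nat_lit 490) ln11_11_5 ln11_11_5_ok) (L (nat_lit 461) ln10_14_2 ln10_14_2_ok))))))))) (B (M (nat_lit 491) (B (M (nat_lit 523) (B (L (nat_lit 428) ln11_16_6 ln11_16_6_ok) (M (nat_lit 522) (B (L (nat_lit 490) ln11_12_5 ln11_12_5_ok)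 (L (nat_lit 554) ln11_13_5 ln11_13_5_ok))))) (B (M (nat_lit 523) (B (M (nat_lit 522) (B (L (nat_lit 490) ln11_12_5 ln11_12_5_ok) (L (nat_lit 554) ln11_13_5 ln11_13_5_ok))) (M (nat_lit 524) (B (L (nat_lit 492) ln11_12_4 ln11_12_4_ok) (L (nat_lit 556) ln11_13_4 ln11_13_4_ok))))) (B (M (nat_lit 523) (B (L (nat_lit 428) ln11_16_6 ln11_16_6_ok) (M (nat_lit 524) (B (L (nat_lit 492) ln11_12_4 ln11_12_4_ok) (L (nat_lit 556) ln11_13_4 ln11_13_4_ok))))) (M (nat_lit 363) (B (M (nat_lit 362) (B (L (nat_lit 330) ln11_14_7 ln11_14_7_ok) (L (nat_lit 398) ln14_12_3 ln14_12_3_ok))) (M (nat_lit 492) (B (L (nat_lit 460) ln11_11_4 ln11_11_4_ok) (L (nat_lit 524) ln11_12_4 ln11_12_4_ok))))))))) (M (nat_lit 363) (B (M (nat_lit 362) (B (L (nat_lit 330) ln11_14_7 ln11_14_7_ok) (L (nat_lit 398) ln14_12_3 ln14_12_3_ok))) (M (nat_lit 458) (B (L (nat_lit 490) ln11_11_5 ln11_11_5_ok) (L (nat_lit 428) ln14_13_1 ln14_13_1_ok))))))))))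 (M (nat_lit 363) (B (M (nat_lit 398) (B (L (nat_lit 362) ln14_12_3 ln14_12_3_ok) (L (nat_lit 426) ln14_12_1 ln14_12_1_ok))) (B (M (nat_lit 331) (B (M (nat_lit 426) (B (L (nat_lit 458) ln11_10_5 ln11_10_5_ok) (L (nat_lit 398) ln14_12_1 ln14_12_1_ok))) (M (nat_lit 299) (B (M (nat_lit 298) (B (L (nat_lit 266) ln11_12_7 ln11_12_7_ok) (L (nat_lit 330) ln11_13_7 ln11_13_7_ok))) (M (nat_lit 300) (B (L (nat_lit 268) ln11_12_6 ln11_12_6_ok) (L (nat_lit 332) ln11_13_6 ln11_13_6_ok))))))) (B (M (nat_lit 331) (B (M (nat_lit 458) (B (L (nat_lit 426) ln11_10_5 ln11_10_5_ok) (M (nat_lit 459) (B (L (nat_lit 490) ln11_11_5 ln11_11_5_ok) (M (nat_lit 460) (B (L (nat_lit 492) ln11_11_4 ln11_11_4_ok) (L (nat_lit 461) ln10_14_2 ln10_14_2_ok))))))) (M (nat_lit 299) (B (M (nat_lit 298) (B (L (nat_lit 266) ln11_12_7 ln11_12_7_ok) (L (nat_lit 330) ln11_13_7 ln11_13_7_ok))) (M (nat_lit 300) (B (L (nat_lit 268) ln11_12_6 ln11_12_6_ok)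 (L (nat_lit 332) ln11_13_6 ln11_13_6_ok))))))) (M (nat_lit 362) (B (L (nat_lit 398) ln14_12_3 ln14_12_3_ok) (M (nat_lit 330) (B (L (nat_lit 459) ln11_14_7 ln11_14_7_ok) (M (nat_lit 298) (B (L (nat_lit 266) ln10_8_4 ln10_8_4_ok) (L (nat_lit 331) ln11_13_7 ln11_13_7_ok)))))))))))))))) (nat_lit 4159004541746089450199132530201857874030314460573348004937112014353638695951705101876145620481444288176116967068709176612499750912) (nat_lit 294840814535290085408076681269284393410960829169662825983762187517101330629557769535939268219712628387922174186908559075227881037168571334744365049726650169698465873920) (nat_lit 294840814535290085408076681269284393410960829169662825983762187517101330629557769535939268219712628387922174186908559075227881037168571334744365049726650169698465873920) (by decide +kernel)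
theorem c11_s14198 : Sem (nat_lit 1386334847544579281930502452632026696468783264124728123740719198963059283254184240648144927045128292788721448874933630659377233920) (nat_lit 82377571943944010193657821922203975041390165579488657700544160462977802493332152991648153725798019654620928530432117737462801328068577320804292752523611078656) (nat_lit 82377571943944010193657821922203975041390165579488657700544160462977802493332152991648153725798019654620928530432117737462801328068577320804292752523611078656) :=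
  sem_of_chk (M (nat_lit 395) (B (M (nat_lit 430) (B (L (nat_lit 394) ln10_12_0 ln10_12_0_ok) (M (nat_lit 431) (B (L (nat_lit 428) ln15_13_3 ln15_13_3_ok) (L (nat_lit 432) ln16_13_3 ln16_13_3_ok))))) (B (M (nat_lit 427) (B (M (nat_lit 426) (B (L (nat_lit 398) ln14_12_1 ln14_12_1_ok) (M (nat_lit 425) (B (L (nat_lit 424) ln8_13_2 ln8_13_2_ok) (L (nat_lit 428) ln9_13_2 ln9_13_2_ok))))) (B (M (nat_lit 459) (B (M (nat_lit 364) (B (L (nat_lit 491) ln11_15_6 ln11_15_6_ok) (M (nat_lit 332) (B (L (nat_lit 300) ln12_9_5 ln12_9_5_ok) (L (nat_lit 428) ln12_10_5 ln12_10_5_ok))))) (B (M (nat_lit 364) (B (L (nat_lit 491) ln11_15_6 ln11_15_6_ok) (M (nat_lit 332) (B (L (nat_lit 363) ln11_14_6 ln11_14_6_ok) (L (nat_lit 428) ln12_10_5 ln12_10_5_ok))))) (B (M (nat_lit 428) (B (M (nat_lit 491) (B (L (nat_lit 364) ln11_15_6 ln11_15_6_ok) (L (nat_lit 523) ln11_16_6 ln11_16_6_ok))) (M (nat_lit 430) (B (L (nat_lit 431) ln15_13_3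 ln15_13_3_ok) (L (nat_lit 458) ln14_13_1 ln14_13_1_ok))))) (B (M (nat_lit 428) (B (M (nat_lit 430) (B (L (nat_lit 431) ln15_13_3 ln15_13_3_ok) (L (nat_lit 458) ln14_13_1 ln14_13_1_ok))) (M (nat_lit 492) (B (M (nat_lit 460) (B (L (nat_lit 363) ln12_15_7 ln12_15_7_ok) (L (nat_lit 365) ln12_15_6 ln12_15_6_ok))) (M (nat_lit 491) (B (L (nat_lit 524) ln11_12_4 ln11_12_4_ok) (L (nat_lit 523) ln11_16_6 ln11_16_6_ok))))))) (B (M (nat_lit 364) (B (L (nat_lit 491) ln11_15_6 ln11_15_6_ok) (M (nat_lit 332) (B (L (nat_lit 300) ln12_9_5 ln12_9_5_ok) (L (nat_lit 363) ln11_14_6 ln11_14_6_ok))))) (M (nat_lit 363) (B (M (nat_lit 364) (B (L (nat_lit 332) ln11_14_6 ln11_14_6_ok) (M (nat_lit 362) (B (L (nat_lit 330) ln11_14_7 ln11_14_7_ok) (L (nat_lit 361) ln9_11_0 ln9_11_0_ok))))) (M (nat_lit 428) (B (M (nat_lit 331) (B (L (nat_lit 299) ln11_9_4 ln11_9_4_ok) (L (nat_lit 460) ln11_10_4 ln11_10_4_ok))) (M (nat_lit 458)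 (B (L (nat_lit 490) ln11_11_5 ln11_11_5_ok) (L (nat_lit 430) ln14_13_1 ln14_13_1_ok))))))))))))) (M (nat_lit 398) (B (L (nat_lit 426) ln14_12_1 ln14_12_1_ok) (M (nat_lit 399) (B (M (nat_lit 363) (B (L (nat_lit 362) ln14_12_3 ln14_12_3_ok) (L (nat_lit 364) ln15_12_3 ln15_12_3_ok))) (M (nat_lit 431) (B (L (nat_lit 430) ln11_12_0 ln11_12_0_ok) (L (nat_lit 432) ln12_12_0 ln12_12_0_ok)))))))))) (B (M (nat_lit 430) (B (L (nat_lit 394) ln10_12_0 ln10_12_0_ok) (M (nat_lit 431) (B (L (nat_lit 398) ln11_12_0 ln11_12_0_ok) (L (nat_lit 432) ln16_13_3 ln16_13_3_ok))))) (B (M (nat_lit 398) (B (M (nat_lit 399) (B (M (nat_lit 363) (B (L (nat_lit 362) ln14_12_3 ln14_12_3_ok) (L (nat_lit 364) ln15_12_3 ln15_12_3_ok))) (M (nat_lit 427) (B (L (nat_lit 426) ln14_12_1 ln14_12_1_ok) (L (nat_lit 428) ln15_12_1 ln15_12_1_ok))))) (B (M (nat_lit 399) (B (M (nat_lit 427) (B (L (nat_lit 426) ln14_12_1 ln14_12_1_ok) (L (nat_lit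 428) ln15_12_1 ln15_12_1_ok))) (B (M (nat_lit 428) (B (L (nat_lit 427) ln15_12_1 ln15_12_1_ok) (L (nat_lit 400) ln16_12_1 ln16_12_1_ok))) (B (M (nat_lit 400) (B (L (nat_lit 428) ln16_12_1 ln16_12_1_ok) (M (nat_lit 364) (B (L (nat_lit 363) ln15_12_3 ln15_12_3_ok) (L (nat_lit 365) ln16_12_3 ln16_12_3_ok))))) (M (nat_lit 400) (B (M (nat_lit 364) (B (L (nat_lit 363) ln15_12_3 ln15_12_3_ok) (L (nat_lit 365) ln16_12_3 ln16_12_3_ok))) (M (nat_lit 432) (B (L (nat_lit 431) ln12_12_0 ln12_12_0_ok) (L (nat_lit 433) ln13_12_0 ln13_12_0_ok))))))))) (B (M (nat_lit 399) (B (M (nat_lit 427) (B (L (nat_lit 426) ln14_12_1 ln14_12_1_ok) (L (nat_lit 428) ln15_12_1 ln15_12_1_ok))) (B (M (nat_lit 428) (B (L (nat_lit 427) ln15_12_1 ln15_12_1_ok) (L (nat_lit 400) ln16_12_1 ln16_12_1_ok))) (B (M (nat_lit 400) (B (L (nat_lit 428) ln16_12_1 ln16_12_1_ok) (M (nat_lit 368) (B (L (nat_lit 367) ln12_12_2 ln12_12_2_ok) (L (nat_lit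 369) ln13_12_2 ln13_12_2_ok))))) (M (nat_lit 400) (B (M (nat_lit 368) (B (L (nat_lit 367) ln12_12_2 ln12_12_2_ok) (L (nat_lit 369) ln13_12_2 ln13_12_2_ok))) (M (nat_lit 432) (B (L (nat_lit 431) ln12_12_0 ln12_12_0_ok) (L (nat_lit 433) ln13_12_0 ln13_12_0_ok))))))))) (B (M (nat_lit 394) (B (M (nat_lit 362) (B (L (nat_lit 361) ln13_12_3 ln13_12_3_ok) (L (nat_lit 363) ln14_12_3 ln14_12_3_ok))) (M (nat_lit 426) (B (L (nat_lit 425) ln13_12_1 ln13_12_1_ok) (L (nat_lit 427) ln14_12_1 ln14_12_1_ok))))) (B (M (nat_lit 399) (B (M (nat_lit 363) (B (L (nat_lit 362) ln14_12_3 ln14_12_3_ok) (L (nat_lit 364) ln15_12_3 ln15_12_3_ok))) (M (nat_lit 428) (B (L (nat_lit 427) ln15_12_1 ln15_12_1_ok) (L (nat_lit 400) ln16_12_1 ln16_12_1_ok))))) (M (nat_lit 399) (B (M (nat_lit 363) (B (L (nat_lit 362) ln14_12_3 ln14_12_3_ok) (L (nat_lit 364) ln15_12_3 ln15_12_3_ok))) (M (nat_lit 400) (B (L (nat_lit 428) ln16_12_1 ln16_12_1_ok)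 (M (nat_lit 368) (B (L (nat_lit 367) ln12_12_2 ln12_12_2_ok) (L (nat_lit 369) ln13_12_2 ln13_12_2_ok))))))))))))) (M (nat_lit 394) (B (L (nat_lit 430) ln10_12_0 ln10_12_0_ok) (M (nat_lit 398) (B (M (nat_lit 362) (B (L (nat_lit 361) ln13_12_3 ln13_12_3_ok) (L (nat_lit 363) ln14_12_3 ln14_12_3_ok))) (M (nat_lit 426) (B (L (nat_lit 425) ln13_12_1 ln13_12_1_ok) (L (nat_lit 427) ln14_12_1 ln14_12_1_ok)))))))))))) (nat_lit 1386334847544579281930502452632026696468783264124728123740719198963059283254184240648144927045128292788721448874933630659377233920) (nat_lit 82377571943944010193657821922203975041390165579488657700544160462977802493332152991648153725798019654620928530432117737462801328068577320804292752523611078656) (nat_lit 82377571943944010193657821922203975041390165579488657700544160462977802493332152991648153725798019654620928530432117737462801328068577320804292752523611078656) (by decide +kernel)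
noncomputable def c11_n14280 : Cert := (M (nat_lit 364) (B (M (nat_lit 461) (B (L (nat_lit 493) ln13_15_7 ln13_15_7_ok) (M (nat_lit 332) (B (L (nat_lit 365) ln13_14_7 ln13_14_7_ok) (L (nat_lit 428) ln12_10_4 ln12_10_4_ok))))) (B (M (nat_lit 428) (B (M (nat_lit 363) (B (M (nat_lit 460) (B (L (nat_lit 331) ln12_14_7 ln12_14_7_ok) (M (nat_lit 365) (B (L (nat_lit 333) ln12_14_6 ln12_14_6_ok) (L (nat_lit 492) ln12_15_6 ln12_15_6_ok))))) (B (M (nat_lit 362) (B (L (nat_lit 361) ln9_11_0 ln9_11_0_ok) (M (nat_lit 398) (B (L (nat_lit 365) ln10_11_0 ln10_11_0_ok) (L (nat_lit 399) ln15_12_3 ln15_12_3_ok))))) (M (nat_lit 362) (B (L (nat_lit 361) ln9_11_0 ln9_11_0_ok) (M (nat_lit 398) (B (L (nat_lit 395) ln14_12_3 ln14_12_3_ok) (L (nat_lit 399) ln15_12_3 ln15_12_3_ok)))))))) (B (M (nat_lit 461) (B (L (nat_lit 493) ln13_15_7 ln13_15_7_ok) (M (nat_lit 460) (B (M (nat_lit 492) (B (L (nat_lit 365) ln12_15_6 ln12_15_6_ok)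 (L (nat_lit 524) ln12_16_6 ln12_16_6_ok))) (M (nat_lit 459) (B (L (nat_lit 491) ln12_11_5 ln12_11_5_ok) (M (nat_lit 430) (B (L (nat_lit 431) ln15_13_1 ln15_13_1_ok) (L (nat_lit 458) ln10_14_2 ln10_14_2_ok))))))))) (B (M (nat_lit 461) (B (L (nat_lit 493) ln13_15_7 ln13_15_7_ok) (M (nat_lit 460) (B (M (nat_lit 492) (B (L (nat_lit 524) ln12_16_6 ln12_16_6_ok) (M (nat_lit 363) (B (L (nat_lit 331) ln12_14_7 ln12_14_7_ok) (L (nat_lit 395) ln12_15_7 ln12_15_7_ok))))) (M (nat_lit 459) (B (L (nat_lit 491) ln12_11_5 ln12_11_5_ok) (M (nat_lit 430) (B (L (nat_lit 431) ln15_13_1 ln15_13_1_ok) (L (nat_lit 458) ln10_14_2 ln10_14_2_ok))))))))) (M (nat_lit 427) (B (M (nat_lit 398) (B (L (nat_lit 399) ln15_12_1 ln15_12_1_ok) (L (nat_lit 426) ln10_13_2 ln10_13_2_ok))) (B (M (nat_lit 430) (B (M (nat_lit 431) (B (L (nat_lit 395) ln15_13_3 ln15_13_3_ok) (L (nat_lit 432) ln16_13_3 ln16_13_3_ok))) (M (nat_lit 426) (B (L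 (nat_lit 425) ln9_13_2 ln9_13_2_ok) (M (nat_lit 458) (B (L (nat_lit 457) ln13_13_1 ln13_13_1_ok) (L (nat_lit 459) ln14_13_1 ln14_13_1_ok))))))) (M (nat_lit 430) (B (M (nat_lit 431) (B (L (nat_lit 395) ln15_13_3 ln15_13_3_ok) (L (nat_lit 432) ln16_13_3 ln16_13_3_ok))) (B (M (nat_lit 399) (B (L (nat_lit 398) ln15_12_1 ln15_12_1_ok) (M (nat_lit 431) (B (L (nat_lit 432) ln16_13_3 ln16_13_3_ok) (L (nat_lit 400) ln12_13_2 ln12_13_2_ok))))) (M (nat_lit 459) (B (L (nat_lit 458) ln14_13_1 ln14_13_1_ok) (M (nat_lit 491) (B (L (nat_lit 395) ln11_15_6 ln11_15_6_ok) (L (nat_lit 523) ln11_16_6 ln11_16_6_ok))))))))))))))) (B (M (nat_lit 461) (B (L (nat_lit 493) ln13_15_7 ln13_15_7_ok) (M (nat_lit 332) (B (L (nat_lit 300) ln12_9_4 ln12_9_4_ok) (L (nat_lit 428) ln12_10_4 ln12_10_4_ok))))) (B (M (nat_lit 461) (B (L (nat_lit 493) ln13_15_7 ln13_15_7_ok) (M (nat_lit 332) (B (L (nat_lit 300) ln12_9_4 ln12_9_4_ok) (L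 (nat_lit 365) ln13_14_7 ln13_14_7_ok))))) (M (nat_lit 428) (B (M (nat_lit 332) (B (L (nat_lit 300) ln12_9_4 ln12_9_4_ok) (M (nat_lit 427) (B (L (nat_lit 459) ln12_10_5 ln12_10_5_ok) (M (nat_lit 398) (B (L (nat_lit 399) ln15_12_1 ln15_12_1_ok) (L (nat_lit 426) ln10_13_2 ln10_13_2_ok))))))) (B (M (nat_lit 460) (B (M (nat_lit 365) (B (L (nat_lit 333) ln12_14_6 ln12_14_6_ok) (L (nat_lit 492) ln12_15_6 ln12_15_6_ok))) (B (M (nat_lit 492) (B (L (nat_lit 365) ln12_15_6 ln12_15_6_ok) (L (nat_lit 524) ln12_16_6 ln12_16_6_ok))) (B (M (nat_lit 363) (B (L (nat_lit 331) ln12_14_7 ln12_14_7_ok) (M (nat_lit 492) (B (L (nat_lit 395) ln12_15_7 ln12_15_7_ok) (L (nat_lit 524) ln12_16_6 ln12_16_6_ok))))) (M (nat_lit 427) (B (M (nat_lit 459) (B (L (nat_lit 332) ln12_10_5 ln12_10_5_ok) (L (nat_lit 491) ln12_11_5 ln12_11_5_ok))) (M (nat_lit 398) (B (L (nat_lit 399) ln15_12_1 ln15_12_1_ok) (L (nat_lit 426) ln10_13_2 ln10_13_2_ok)))))))))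 (B (M (nat_lit 363) (B (M (nat_lit 460) (B (L (nat_lit 331) ln12_14_7 ln12_14_7_ok) (M (nat_lit 365) (B (L (nat_lit 333) ln12_14_6 ln12_14_6_ok) (L (nat_lit 492) ln12_15_6 ln12_15_6_ok))))) (B (M (nat_lit 362) (B (L (nat_lit 361) ln9_11_0 ln9_11_0_ok) (M (nat_lit 398) (B (L (nat_lit 365) ln10_11_0 ln10_11_0_ok) (L (nat_lit 399) ln15_12_3 ln15_12_3_ok))))) (M (nat_lit 362) (B (L (nat_lit 361) ln9_11_0 ln9_11_0_ok) (M (nat_lit 398) (B (L (nat_lit 395) ln14_12_3 ln14_12_3_ok) (L (nat_lit 399) ln15_12_3 ln15_12_3_ok)))))))) (M (nat_lit 460) (B (M (nat_lit 365) (B (L (nat_lit 333) ln12_14_6 ln12_14_6_ok) (L (nat_lit 492) ln12_15_6 ln12_15_6_ok))) (M (nat_lit 332) (B (L (nat_lit 300) ln12_9_4 ln12_9_4_ok) (M (nat_lit 459) (B (L (nat_lit 427) ln12_10_5 ln12_10_5_ok) (L (nat_lit 491) ln12_11_5 ln12_11_5_ok))))))))))))))))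
noncomputable def c11_n14355 : Cert := (M (nat_lit 365) (B (M (nat_lit 332) (B (L (nat_lit 364) ln13_14_7 ln13_14_7_ok) (M (nat_lit 333) (B (L (nat_lit 300) ln13_13_7 ln13_13_7_ok) (M (nat_lit 428) (B (L (nat_lit 301) ln13_9_5 ln13_9_5_ok) (L (nat_lit 460) ln13_10_5 ln13_10_5_ok))))))) (B (M (nat_lit 333) (B (M (nat_lit 428) (B (L (nat_lit 301) ln13_9_5 ln13_9_5_ok) (L (nat_lit 460) ln13_10_5 ln13_10_5_ok))) (B (M (nat_lit 460) (B (L (nat_lit 428) ln13_10_5 ln13_10_5_ok) (L (nat_lit 492) ln13_11_5 ln13_11_5_ok))) (M (nat_lit 301) (B (M (nat_lit 364) (B (L (nat_lit 269) ln13_8_5 ln13_8_5_ok) (L (nat_lit 332) ln13_14_7 ln13_14_7_ok))) (M (nat_lit 302) (B (L (nat_lit 270) ln13_12_6 ln13_12_6_ok) (L (nat_lit 334) ln13_13_6 ln13_13_6_ok)))))))) (B (M (nat_lit 333) (B (M (nat_lit 332) (B (L (nat_lit 300) ln13_13_7 ln13_13_7_ok) (L (nat_lit 364) ln13_14_7 ln13_14_7_ok))) (M (nat_lit 460) (B (L (nat_lit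 428) ln13_10_5 ln13_10_5_ok) (L (nat_lit 492) ln13_11_5 ln13_11_5_ok))))) (B (M (nat_lit 333) (B (M (nat_lit 428) (B (L (nat_lit 301) ln13_9_5 ln13_9_5_ok) (L (nat_lit 460) ln13_10_5 ln13_10_5_ok))) (B (M (nat_lit 460) (B (L (nat_lit 428) ln13_10_5 ln13_10_5_ok) (L (nat_lit 492) ln13_11_5 ln13_11_5_ok))) (M (nat_lit 301) (B (M (nat_lit 302) (B (L (nat_lit 270) ln13_12_6 ln13_12_6_ok) (L (nat_lit 334) ln13_13_6 ln13_13_6_ok))) (M (nat_lit 268) (B (L (nat_lit 300) ln13_12_7 ln13_12_7_ok) (M (nat_lit 269) (B (L (nat_lit 236) ln13_11_7 ln13_11_7_ok) (L (nat_lit 364) ln13_8_5 ln13_8_5_ok)))))))))) (B (M (nat_lit 364) (B (L (nat_lit 332) ln13_14_7 ln13_14_7_ok) (M (nat_lit 460) (B (L (nat_lit 492) ln13_11_5 ln13_11_5_ok) (M (nat_lit 428) (B (M (nat_lit 363) (B (L (nat_lit 331) ln12_14_7 ln12_14_7_ok) (M (nat_lit 398) (B (L (nat_lit 362) ln10_11_0 ln10_11_0_ok) (L (nat_lit 399) ln15_12_3 ln15_12_3_ok)))))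 (M (nat_lit 459) (B (L (nat_lit 491) ln12_11_5 ln12_11_5_ok) (M (nat_lit 430) (B (L (nat_lit 431) ln15_13_1 ln15_13_1_ok) (L (nat_lit 458) ln10_14_2 ln10_14_2_ok))))))))))) (B (M (nat_lit 333) (B (M (nat_lit 428) (B (L (nat_lit 301) ln13_9_5 ln13_9_5_ok) (L (nat_lit 460) ln13_10_5 ln13_10_5_ok))) (B (M (nat_lit 460) (B (L (nat_lit 428) ln13_10_5 ln13_10_5_ok) (L (nat_lit 492) ln13_11_5 ln13_11_5_ok))) (M (nat_lit 301) (B (M (nat_lit 300) (B (L (nat_lit 268) ln13_12_7 ln13_12_7_ok) (L (nat_lit 332) ln13_13_7 ln13_13_7_ok))) (M (nat_lit 302) (B (L (nat_lit 270) ln13_12_6 ln13_12_6_ok) (L (nat_lit 334) ln13_13_6 ln13_13_6_ok)))))))) (M (nat_lit 333) (B (M (nat_lit 332) (B (L (nat_lit 300) ln13_13_7 ln13_13_7_ok) (L (nat_lit 364) ln13_14_7 ln13_14_7_ok))) (B (M (nat_lit 301) (B (M (nat_lit 364) (B (L (nat_lit 269) ln13_8_5 ln13_8_5_ok) (L (nat_lit 332) ln13_14_7 ln13_14_7_ok))) (M (nat_lit 302) (B (L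 (nat_lit 270) ln13_12_6 ln13_12_6_ok) (L (nat_lit 334) ln13_13_6 ln13_13_6_ok))))) (B (M (nat_lit 301) (B (M (nat_lit 302) (B (L (nat_lit 270) ln13_12_6 ln13_12_6_ok) (L (nat_lit 334) ln13_13_6 ln13_13_6_ok))) (M (nat_lit 268) (B (L (nat_lit 300) ln13_12_7 ln13_12_7_ok) (M (nat_lit 269) (B (L (nat_lit 236) ln13_11_7 ln13_11_7_ok) (L (nat_lit 364) ln13_8_5 ln13_8_5_ok))))))) (M (nat_lit 301) (B (M (nat_lit 300) (B (L (nat_lit 268) ln13_12_7 ln13_12_7_ok) (L (nat_lit 332) ln13_13_7 ln13_13_7_ok))) (M (nat_lit 302) (B (L (nat_lit 270) ln13_12_6 ln13_12_6_ok) (L (nat_lit 334) ln13_13_6 ln13_13_6_ok))))))))))))))))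
noncomputable def c11_n14356 : Cert := (M (nat_lit 461) (B (M (nat_lit 364) (B (L (nat_lit 493) ln13_15_7 ln13_15_7_ok) (M (nat_lit 332) (B (L (nat_lit 365) ln13_14_7 ln13_14_7_ok) (L (nat_lit 428) ln12_10_4 ln12_10_4_ok))))) (B (M (nat_lit 493) (B (L (nat_lit 364) ln13_15_7 ln13_15_7_ok) (M (nat_lit 525) (B (L (nat_lit 428) ln13_16_7 ln13_16_7_ok) (M (nat_lit 524) (B (L (nat_lit 492) ln13_12_5 ln13_12_5_ok) (L (nat_lit 556) ln13_13_5 ln13_13_5_ok))))))) (B (M (nat_lit 493) (B (M (nat_lit 525) (B (L (nat_lit 428) ln13_16_7 ln13_16_7_ok) (M (nat_lit 524) (B (L (nat_lit 492) ln13_12_5 ln13_12_5_ok) (L (nat_lit 556) ln13_13_5 ln13_13_5_ok))))) (B (M (nat_lit 525) (B (M (nat_lit 524) (B (L (nat_lit 492) ln13_12_5 ln13_12_5_ok) (L (nat_lit 556) ln13_13_5 ln13_13_5_ok))) (M (nat_lit 526) (B (L (nat_lit 494) ln13_12_4 ln13_12_4_ok) (L (nat_lit 558) ln13_13_4 ln13_13_4_ok))))) (B (M (nat_lit 525) (B (L (nat_lit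 428) ln13_16_7 ln13_16_7_ok) (M (nat_lit 526) (B (L (nat_lit 494) ln13_12_4 ln13_12_4_ok) (L (nat_lit 558) ln13_13_4 ln13_13_4_ok))))) (M (nat_lit 492) (B (L (nat_lit 524) ln13_12_5 ln13_12_5_ok) (M (nat_lit 460) (B (L (nat_lit 365) ln13_11_5 ln13_11_5_ok) (M (nat_lit 494) (B (L (nat_lit 526) ln13_12_4 ln13_12_4_ok) (M (nat_lit 459) (B (L (nat_lit 458) ln10_14_0 ln10_14_0_ok) (L (nat_lit 495) ln15_15_3 ln15_15_3_ok))))))))))))) (B (M (nat_lit 364) (B (L (nat_lit 493) ln13_15_7 ln13_15_7_ok) (M (nat_lit 332) (B (L (nat_lit 300) ln12_9_4 ln12_9_4_ok) (L (nat_lit 365) ln13_14_7 ln13_14_7_ok))))) c11_n14355)))))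
theorem c11_s14584 : Sem (nat_lit 2977131416101140671315304907729984918771289183969132160110515285610530957851495282090158022559746778914187998577992020923063333054331224064) (nat_lit 58968162901566178986596388323866774373689146080978180722596163816755356954966299795682630769803560527161652646758146938646016066917480074602146552103443836052298530816) (nat_lit 58968162901566178986596388323866774373689146080978180722596163816755356954966299795682630769803560527161652646758146938646016066917480074602146552103443836052298530816) :=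
  sem_of_chk (M (nat_lit 459) (B (M (nat_lit 364) (B (M (nat_lit 491) (B (L (nat_lit 427) ln11_15_6 ln11_15_6_ok) (L (nat_lit 428) ln12_11_5 ln12_11_5_ok))) (B (M (nat_lit 461) (B (L (nat_lit 493) ln13_15_7 ln13_15_7_ok) (M (nat_lit 332) (B (L (nat_lit 300) ln12_9_4 ln12_9_4_ok) (L (nat_lit 428) ln12_10_4 ln12_10_4_ok))))) (M (nat_lit 332) (B (L (nat_lit 300) ln12_9_4 ln12_9_4_ok) (M (nat_lit 461) (B (L (nat_lit 365) ln13_14_7 ln13_14_7_ok) (L (nat_lit 493) ln13_15_7 ln13_15_7_ok)))))))) (B (M (nat_lit 364) (B (M (nat_lit 491) (B (L (nat_lit 427) ln11_15_6 ln11_15_6_ok) (L (nat_lit 428) ln12_11_5 ln12_11_5_ok))) (B (M (nat_lit 461) (B (L (nat_lit 493) ln13_15_7 ln13_15_7_ok) (M (nat_lit 428) (B (L (nat_lit 332) ln12_10_4 ln12_10_4_ok) (L (nat_lit 491) ln12_11_5 ln12_11_5_ok))))) (B (M (nat_lit 332) (B (M (nat_lit 427) (B (L (nat_lit 363) ln11_14_6 ln11_14_6_ok) (L (nat_lit 491) ln11_15_6 ln11_15_6_ok)))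 (M (nat_lit 461) (B (L (nat_lit 365) ln13_14_7 ln13_14_7_ok) (L (nat_lit 493) ln13_15_7 ln13_15_7_ok))))) (M (nat_lit 461) (B (L (nat_lit 493) ln13_15_7 ln13_15_7_ok) (M (nat_lit 332) (B (L (nat_lit 365) ln13_14_7 ln13_14_7_ok) (L (nat_lit 428) ln12_10_4 ln12_10_4_ok))))))))) (B (M (nat_lit 458) (B (M (nat_lit 428) (B (L (nat_lit 457) ln9_14_2 ln9_14_2_ok) (M (nat_lit 430) (B (L (nat_lit 431) ln15_13_3 ln15_13_3_ok) (L (nat_lit 461) ln10_14_2 ln10_14_2_ok))))) (B (M (nat_lit 461) (B (L (nat_lit 430) ln10_14_2 ln10_14_2_ok) (M (nat_lit 427) (B (M (nat_lit 490) (B (L (nat_lit 363) ln11_11_5 ln11_11_5_ok) (L (nat_lit 489) ln13_14_1 ln13_14_1_ok))) (M (nat_lit 364) (B (L (nat_lit 491) ln11_15_6 ln11_15_6_ok) (L (nat_lit 493) ln13_15_7 ln13_15_7_ok))))))) (B (M (nat_lit 461) (B (M (nat_lit 364) (B (L (nat_lit 493) ln13_15_7 ln13_15_7_ok) (M (nat_lit 428) (B (L (nat_lit 491) ln12_11_5 ln12_11_5_ok) (L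 (nat_lit 457) ln9_14_2 ln9_14_2_ok))))) (B (M (nat_lit 425) (B (L (nat_lit 426) ln13_14_3 ln13_14_3_ok) (M (nat_lit 457) (B (L (nat_lit 424) ln12_14_3 ln12_14_3_ok) (L (nat_lit 428) ln9_14_2 ln9_14_2_ok))))) (M (nat_lit 427) (B (M (nat_lit 490) (B (L (nat_lit 363) ln11_11_5 ln11_11_5_ok) (L (nat_lit 489) ln13_14_1 ln13_14_1_ok))) (M (nat_lit 364) (B (L (nat_lit 491) ln11_15_6 ln11_15_6_ok) (L (nat_lit 493) ln13_15_7 ln13_15_7_ok)))))))) (M (nat_lit 428) (B (L (nat_lit 457) ln9_14_2 ln9_14_2_ok) (M (nat_lit 430) (B (L (nat_lit 431) ln15_13_3 ln15_13_3_ok) (L (nat_lit 427) ln14_13_1 ln14_13_1_ok))))))))) (B (M (nat_lit 458) (B (M (nat_lit 428) (B (L (nat_lit 457) ln9_14_2 ln9_14_2_ok) (M (nat_lit 430) (B (L (nat_lit 431) ln15_13_3 ln15_13_3_ok) (L (nat_lit 461) ln10_14_2 ln10_14_2_ok))))) (B (M (nat_lit 461) (B (L (nat_lit 430) ln10_14_2 ln10_14_2_ok) (M (nat_lit 457) (B (M (nat_lit 425) (B (L (nat_lit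 424) ln12_14_3 ln12_14_3_ok) (L (nat_lit 426) ln13_14_3 ln13_14_3_ok))) (M (nat_lit 489) (B (L (nat_lit 488) ln12_14_1 ln12_14_1_ok) (L (nat_lit 490) ln13_14_1 ln13_14_1_ok))))))) (B (M (nat_lit 427) (B (M (nat_lit 490) (B (L (nat_lit 363) ln11_11_5 ln11_11_5_ok) (M (nat_lit 522) (B (L (nat_lit 426) ln10_16_6 ln10_16_6_ok) (L (nat_lit 491) ln11_12_5 ln11_12_5_ok))))) (B (M (nat_lit 425) (B (M (nat_lit 426) (B (L (nat_lit 424) ln8_13_2 ln8_13_2_ok) (L (nat_lit 428) ln9_13_2 ln9_13_2_ok))) (B (M (nat_lit 428) (B (L (nat_lit 426) ln9_13_2 ln9_13_2_ok) (L (nat_lit 457) ln9_14_2 ln9_14_2_ok))) (B (M (nat_lit 457) (B (L (nat_lit 424) ln12_14_3 ln12_14_3_ok) (L (nat_lit 428) ln9_14_2 ln9_14_2_ok))) (M (nat_lit 424) (B (L (nat_lit 426) ln8_13_2 ln8_13_2_ok) (L (nat_lit 457) ln12_14_3 ln12_14_3_ok))))))) (M (nat_lit 490) (B (L (nat_lit 363) ln11_11_5 ln11_11_5_ok) (M (nat_lit 522) (B (L (nat_lit 491) ln11_12_5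 ln11_12_5_ok) (L (nat_lit 554) ln10_17_6 ln10_17_6_ok)))))))) (M (nat_lit 430) (B (L (nat_lit 461) ln10_14_2 ln10_14_2_ok) (M (nat_lit 428) (B (L (nat_lit 431) ln15_13_3 ln15_13_3_ok) (L (nat_lit 427) ln14_13_1 ln14_13_1_ok))))))))) (B (M (nat_lit 428) (B (M (nat_lit 364) (B (L (nat_lit 491) ln12_11_5 ln12_11_5_ok) (M (nat_lit 332) (B (L (nat_lit 300) ln12_9_4 ln12_9_4_ok) (L (nat_lit 461) ln12_10_4 ln12_10_4_ok))))) (B (M (nat_lit 430) (B (L (nat_lit 431) ln15_13_3 ln15_13_3_ok) (M (nat_lit 458) (B (L (nat_lit 457) ln9_14_2 ln9_14_2_ok) (L (nat_lit 461) ln10_14_2 ln10_14_2_ok))))) (M (nat_lit 333) (B (L (nat_lit 365) ln13_10_5 ln13_10_5_ok) (M (nat_lit 364) (B (L (nat_lit 491) ln12_11_5 ln12_11_5_ok) (M (nat_lit 332) (B (L (nat_lit 300) ln12_9_4 ln12_9_4_ok) (L (nat_lit 301) ln12_13_6 ln12_13_6_ok)))))))))) (B (M (nat_lit 461) (B (M (nat_lit 364) (B (L (nat_lit 493) ln13_15_7 ln13_15_7_ok) (M (nat_lit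 332) (B (L (nat_lit 300) ln12_9_4 ln12_9_4_ok) (L (nat_lit 365) ln13_14_7 ln13_14_7_ok))))) (M (nat_lit 458) (B (L (nat_lit 430) ln10_14_2 ln10_14_2_ok) (M (nat_lit 457) (B (M (nat_lit 425) (B (L (nat_lit 424) ln12_14_3 ln12_14_3_ok) (L (nat_lit 426) ln13_14_3 ln13_14_3_ok))) (M (nat_lit 489) (B (L (nat_lit 488) ln12_14_1 ln12_14_1_ok) (L (nat_lit 490) ln13_14_1 ln13_14_1_ok))))))))) (M (nat_lit 428) (B (M (nat_lit 364) (B (L (nat_lit 491) ln12_11_5 ln12_11_5_ok) (M (nat_lit 332) (B (L (nat_lit 300) ln12_9_4 ln12_9_4_ok) (L (nat_lit 427) ln12_10_5 ln12_10_5_ok))))) (B (M (nat_lit 430) (B (L (nat_lit 431) ln15_13_3 ln15_13_3_ok) (M (nat_lit 458) (B (L (nat_lit 427) ln14_13_1 ln14_13_1_ok) (L (nat_lit 457) ln9_14_2 ln9_14_2_ok))))) (M (nat_lit 333) (B (L (nat_lit 365) ln13_10_5 ln13_10_5_ok) (M (nat_lit 364) (B (L (nat_lit 491) ln12_11_5 ln12_11_5_ok) (M (nat_lit 332) (B (L (nat_lit 300) ln12_9_4 ln12_9_4_ok)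 (L (nat_lit 301) ln12_13_6 ln12_13_6_ok))))))))))))))))) (nat_lit 2977131416101140671315304907729984918771289183969132160110515285610530957851495282090158022559746778914187998577992020923063333054331224064) (nat_lit 58968162901566178986596388323866774373689146080978180722596163816755356954966299795682630769803560527161652646758146938646016066917480074602146552103443836052298530816) (nat_lit 58968162901566178986596388323866774373689146080978180722596163816755356954966299795682630769803560527161652646758146938646016066917480074602146552103443836052298530816) (by decide +kernel)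
theorem c11_s14585 : Sem (nat_lit 1386334847625274590620718346058774170593877385197531429766632433739017388146079478836171214377304710078725756107305604783525593088) (nat_lit 294840814507830894795525109420560222043101696172084029402711025422330811625254310199785306008437369127920314218091399393607751144994920334013990516516702109994676387840) (nat_lit 294840814507830894795525109420560222043101696172084029402711025422330811625254310199785306008437369127920314218091399393607751144994920334013990516516702109994676387840) :=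
  sem_of_chk (M (nat_lit 460) (B (M (nat_lit 492) (B (M (nat_lit 428) (B (L (nat_lit 363) ln12_15_7 ln12_15_7_ok) (L (nat_lit 365) ln12_15_6 ln12_15_6_ok))) (B (M (nat_lit 365) (B (L (nat_lit 428) ln12_15_6 ln12_15_6_ok) (L (nat_lit 461) ln13_11_5 ln13_11_5_ok))) (B (M (nat_lit 428) (B (L (nat_lit 363) ln12_15_7 ln12_15_7_ok) (L (nat_lit 524) ln12_16_6 ln12_16_6_ok))) (M (nat_lit 461) (B (L (nat_lit 365) ln13_11_5 ln13_11_5_ok) (M (nat_lit 493) (B (L (nat_lit 364) ln13_15_7 ln13_15_7_ok) (L (nat_lit 524) ln13_12_5 ln13_12_5_ok))))))))) (B (M (nat_lit 461) (B (M (nat_lit 364) (B (L (nat_lit 493) ln13_15_7 ln13_15_7_ok) (M (nat_lit 332) (B (L (nat_lit 300) ln12_9_4 ln12_9_4_ok) (L (nat_lit 428) ln12_10_4 ln12_10_4_ok))))) (B (M (nat_lit 364) (B (L (nat_lit 493) ln13_15_7 ln13_15_7_ok) (M (nat_lit 332) (B (L (nat_lit 365) ln13_14_7 ln13_14_7_ok) (L (nat_lit 428) ln12_10_4 ln12_10_4_ok))))) (B (M (nat_lit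 492) (B (L (nat_lit 365) ln13_11_5 ln13_11_5_ok) (M (nat_lit 524) (B (L (nat_lit 428) ln12_16_6 ln12_16_6_ok) (L (nat_lit 556) ln12_17_6 ln12_17_6_ok))))) (M (nat_lit 492) (B (L (nat_lit 365) ln13_11_5 ln13_11_5_ok) (M (nat_lit 493) (B (L (nat_lit 364) ln13_15_7 ln13_15_7_ok) (L (nat_lit 524) ln13_12_5 ln13_12_5_ok))))))))) (B (M (nat_lit 492) (B (M (nat_lit 428) (B (L (nat_lit 363) ln12_15_7 ln12_15_7_ok) (L (nat_lit 365) ln12_15_6 ln12_15_6_ok))) (B (M (nat_lit 428) (B (L (nat_lit 365) ln12_15_6 ln12_15_6_ok) (L (nat_lit 524) ln12_16_6 ln12_16_6_ok))) (B (M (nat_lit 428) (B (L (nat_lit 363) ln12_15_7 ln12_15_7_ok) (L (nat_lit 524) ln12_16_6 ln12_16_6_ok))) (M (nat_lit 461) (B (L (nat_lit 365) ln13_11_5 ln13_11_5_ok) (M (nat_lit 524) (B (L (nat_lit 493) ln13_12_5 ln13_12_5_ok) (L (nat_lit 556) ln12_17_6 ln12_17_6_ok))))))))) (B (M (nat_lit 428) (B (M (nat_lit 492) (B (L (nat_lit 363) ln12_15_7 ln12_15_7_ok)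 (L (nat_lit 524) ln12_16_6 ln12_16_6_ok))) (M (nat_lit 459) (B (M (nat_lit 364) (B (L (nat_lit 491) ln12_11_5 ln12_11_5_ok) (M (nat_lit 332) (B (L (nat_lit 300) ln12_9_4 ln12_9_4_ok) (L (nat_lit 461) ln12_10_4 ln12_10_4_ok))))) (M (nat_lit 430) (B (L (nat_lit 431) ln15_13_3 ln15_13_3_ok) (M (nat_lit 458) (B (L (nat_lit 427) ln14_13_1 ln14_13_1_ok) (L (nat_lit 457) ln9_14_2 ln9_14_2_ok))))))))) (B (M (nat_lit 461) (B (M (nat_lit 364) (B (L (nat_lit 493) ln13_15_7 ln13_15_7_ok) (M (nat_lit 365) (B (L (nat_lit 332) ln13_14_7 ln13_14_7_ok) (L (nat_lit 492) ln13_11_5 ln13_11_5_ok))))) (B (M (nat_lit 492) (B (L (nat_lit 365) ln13_11_5 ln13_11_5_ok) (M (nat_lit 493) (B (L (nat_lit 364) ln13_15_7 ln13_15_7_ok) (L (nat_lit 524) ln13_12_5 ln13_12_5_ok))))) (B (M (nat_lit 492) (B (L (nat_lit 365) ln13_11_5 ln13_11_5_ok) (M (nat_lit 524) (B (L (nat_lit 493) ln13_12_5 ln13_12_5_ok) (L (nat_lit 556) ln12_17_6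 ln12_17_6_ok))))) (B (M (nat_lit 459) (B (M (nat_lit 458) (B (L (nat_lit 430) ln10_14_2 ln10_14_2_ok) (M (nat_lit 493) (B (L (nat_lit 364) ln13_15_7 ln13_15_7_ok) (M (nat_lit 492) (B (L (nat_lit 524) ln13_12_5 ln13_12_5_ok) (L (nat_lit 457) ln9_14_0 ln9_14_0_ok))))))) (B (M (nat_lit 458) (B (L (nat_lit 430) ln10_14_2 ln10_14_2_ok) (M (nat_lit 457) (B (M (nat_lit 425) (B (L (nat_lit 424) ln12_14_3 ln12_14_3_ok) (L (nat_lit 426) ln13_14_3 ln13_14_3_ok))) (M (nat_lit 489) (B (L (nat_lit 488) ln12_14_1 ln12_14_1_ok) (L (nat_lit 490) ln13_14_1 ln13_14_1_ok))))))) (M (nat_lit 364) (B (L (nat_lit 493) ln13_15_7 ln13_15_7_ok) (M (nat_lit 427) (B (L (nat_lit 491) ln11_15_6 ln11_15_6_ok) (M (nat_lit 332) (B (L (nat_lit 300) ln12_9_5 ln12_9_5_ok) (L (nat_lit 363) ln11_14_6 ln11_14_6_ok)))))))))) (B (M (nat_lit 364) (B (L (nat_lit 493) ln13_15_7 ln13_15_7_ok) (M (nat_lit 332) (B (L (nat_lit 300) ln12_9_4 ln12_9_4_ok)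 (L (nat_lit 365) ln13_14_7 ln13_14_7_ok))))) (M (nat_lit 459) (B (M (nat_lit 492) (B (L (nat_lit 365) ln13_11_5 ln13_11_5_ok) (M (nat_lit 427) (B (L (nat_lit 363) ln11_11_4 ln11_11_4_ok) (M (nat_lit 491) (B (L (nat_lit 364) ln11_15_6 ln11_15_6_ok) (L (nat_lit 524) ln11_12_4 ln11_12_4_ok))))))) (M (nat_lit 458) (B (L (nat_lit 430) ln10_14_2 ln10_14_2_ok) (M (nat_lit 457) (B (M (nat_lit 425) (B (L (nat_lit 424) ln12_14_3 ln12_14_3_ok) (L (nat_lit 426) ln13_14_3 ln13_14_3_ok))) (M (nat_lit 489) (B (L (nat_lit 488) ln12_14_1 ln12_14_1_ok) (L (nat_lit 490) ln13_14_1 ln13_14_1_ok))))))))))))))) (B (M (nat_lit 428) (B (M (nat_lit 365) (B (L (nat_lit 333) ln13_10_5 ln13_10_5_ok) (L (nat_lit 492) ln12_15_6 ln12_15_6_ok))) (B (M (nat_lit 492) (B (L (nat_lit 363) ln12_15_7 ln12_15_7_ok) (L (nat_lit 365) ln12_15_6 ln12_15_6_ok))) (B (M (nat_lit 492) (B (L (nat_lit 363) ln12_15_7 ln12_15_7_ok) (L (nat_lit 524)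 ln12_16_6 ln12_16_6_ok))) (M (nat_lit 364) (B (M (nat_lit 333) (B (L (nat_lit 365) ln12_14_6 ln12_14_6_ok) (M (nat_lit 332) (B (L (nat_lit 300) ln12_9_4 ln12_9_4_ok) (L (nat_lit 301) ln12_13_6 ln12_13_6_ok))))) (M (nat_lit 459) (B (L (nat_lit 491) ln12_11_5 ln12_11_5_ok) (M (nat_lit 430) (B (L (nat_lit 431) ln15_13_3 ln15_13_3_ok) (M (nat_lit 458) (B (L (nat_lit 427) ln14_13_1 ln14_13_1_ok) (L (nat_lit 457) ln9_14_2 ln9_14_2_ok))))))))))))) (K (nat_lit 2977131416101140671315304907729984918771289183969132160110515285610530957851495282090158022559746778914187998577992020923063333054331224064) (nat_lit 58968162901566178986596388323866774373689146080978180722596163816755356954966299795682630769803560527161652646758146938646016066917480074602146552103443836052298530816) (nat_lit 58968162901566178986596388323866774373689146080978180722596163816755356954966299795682630769803560527161652646758146938646016066917480074602146552103443836052298530816)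 c11_s14584)))))))) (nat_lit 1386334847625274590620718346058774170593877385197531429766632433739017388146079478836171214377304710078725756107305604783525593088) (nat_lit 294840814507830894795525109420560222043101696172084029402711025422330811625254310199785306008437369127920314218091399393607751144994920334013990516516702109994676387840) (nat_lit 294840814507830894795525109420560222043101696172084029402711025422330811625254310199785306008437369127920314218091399393607751144994920334013990516516702109994676387840) (by decide +kernel)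
theorem c11_s14648 : Sem (nat_lit 1386334847544579281930502452632026696468783264124728123740719198963059283254184240648144927045128292788721448874933630659377233920) (nat_lit 164755143887888020388059926698823141926748373516741550340823570832026970473456886011069613751627022208736126339776386391573374279116157358756673132235837145088) (nat_lit 164755143887888020388059926698823141926748373516741550340823570832026970473456886011069613751627022208736126339776386391573374279116157358756673132235837145088) :=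
  sem_of_chk (M (nat_lit 395) (B (M (nat_lit 430) (B (L (nat_lit 394) ln10_12_0 ln10_12_0_ok) (M (nat_lit 431) (B (L (nat_lit 398) ln11_12_0 ln11_12_0_ok) (L (nat_lit 432) ln16_13_3 ln16_13_3_ok))))) (B (M (nat_lit 398) (B (M (nat_lit 399) (B (M (nat_lit 363) (B (L (nat_lit 362) ln14_12_3 ln14_12_3_ok) (L (nat_lit 364) ln15_12_3 ln15_12_3_ok))) (M (nat_lit 431) (B (L (nat_lit 430) ln11_12_0 ln11_12_0_ok) (L (nat_lit 432) ln12_12_0 ln12_12_0_ok))))) (B (M (nat_lit 364) (B (M (nat_lit 332) (B (L (nat_lit 300) ln12_9_4 ln12_9_4_ok) (M (nat_lit 461) (B (L (nat_lit 365) ln13_14_7 ln13_14_7_ok) (L (nat_lit 493) ln13_15_7 ln13_15_7_ok))))) (M (nat_lit 431) (B (L (nat_lit 430) ln11_12_0 ln11_12_0_ok) (M (nat_lit 399) (B (L (nat_lit 363) ln15_12_3 ln15_12_3_ok) (L (nat_lit 432) ln12_12_0 ln12_12_0_ok))))))) (B (M (nat_lit 399) (B (M (nat_lit 431) (B (L (nat_lit 430) ln11_12_0 ln11_12_0_ok) (L (nat_lit 432)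 ln12_12_0 ln12_12_0_ok))) (B (M (nat_lit 400) (B (M (nat_lit 368) (B (L (nat_lit 367) ln12_12_2 ln12_12_2_ok) (L (nat_lit 369) ln13_12_2 ln13_12_2_ok))) (M (nat_lit 432) (B (L (nat_lit 431) ln12_12_0 ln12_12_0_ok) (L (nat_lit 433) ln13_12_0 ln13_12_0_ok))))) (B (M (nat_lit 400) (B (M (nat_lit 368) (B (L (nat_lit 367) ln12_12_2 ln12_12_2_ok) (L (nat_lit 369) ln13_12_2 ln13_12_2_ok))) (M (nat_lit 401) (B (L (nat_lit 430) ln17_12_1 ln17_12_1_ok) (M (nat_lit 433) (B (L (nat_lit 432) ln13_12_0 ln13_12_0_ok) (L (nat_lit 434) ln14_12_0 ln14_12_0_ok))))))) (M (nat_lit 400) (B (M (nat_lit 368) (B (L (nat_lit 367) ln12_12_2 ln12_12_2_ok) (L (nat_lit 369) ln13_12_2 ln13_12_2_ok))) (M (nat_lit 430) (B (L (nat_lit 431) ln11_12_0 ln11_12_0_ok) (L (nat_lit 401) ln17_12_1 ln17_12_1_ok))))))))) (B (M (nat_lit 427) (B (L (nat_lit 426) ln14_12_1 ln14_12_1_ok) (M (nat_lit 461) (B (M (nat_lit 364) (B (L (nat_lit 493)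 ln13_15_7 ln13_15_7_ok) (M (nat_lit 332) (B (L (nat_lit 300) ln12_9_5 ln12_9_5_ok) (L (nat_lit 365) ln13_14_7 ln13_14_7_ok))))) (B (M (nat_lit 493) (B (L (nat_lit 364) ln13_15_7 ln13_15_7_ok) (M (nat_lit 430) (B (L (nat_lit 431) ln11_12_0 ln11_12_0_ok) (L (nat_lit 525) ln13_16_6 ln13_16_6_ok))))) (B (M (nat_lit 492) (B (M (nat_lit 430) (B (L (nat_lit 431) ln11_12_0 ln11_12_0_ok) (M (nat_lit 493) (B (L (nat_lit 524) ln13_12_5 ln13_12_5_ok) (L (nat_lit 525) ln13_16_6 ln13_16_6_ok))))) (M (nat_lit 363) (B (L (nat_lit 362) ln14_12_3 ln14_12_3_ok) (M (nat_lit 460) (B (L (nat_lit 459) ln11_11_4 ln11_11_4_ok) (L (nat_lit 365) ln13_11_5 ln13_11_5_ok))))))) (M (nat_lit 459) (B (M (nat_lit 364) (B (L (nat_lit 491) ln11_15_6 ln11_15_6_ok) (M (nat_lit 332) (B (L (nat_lit 300) ln12_9_5 ln12_9_5_ok) (L (nat_lit 365) ln13_14_7 ln13_14_7_ok))))) (B (M (nat_lit 364) (B (L (nat_lit 491) ln11_15_6 ln11_15_6_ok) (M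 (nat_lit 332) (B (L (nat_lit 363) ln11_14_6 ln11_14_6_ok) (L (nat_lit 365) ln13_14_7 ln13_14_7_ok))))) (M (nat_lit 460) (B (M (nat_lit 363) (B (L (nat_lit 362) ln14_12_3 ln14_12_3_ok) (L (nat_lit 492) ln11_11_4 ln11_11_4_ok))) (M (nat_lit 430) (B (L (nat_lit 431) ln11_12_0 ln11_12_0_ok) (L (nat_lit 458) ln10_14_2 ln10_14_2_ok)))))))))))))) (M (nat_lit 364) (B (M (nat_lit 363) (B (L (nat_lit 362) ln14_12_3 ln14_12_3_ok) (L (nat_lit 399) ln15_12_3 ln15_12_3_ok))) (M (nat_lit 332) (B (L (nat_lit 300) ln12_9_4 ln12_9_4_ok) (M (nat_lit 461) (B (L (nat_lit 365) ln13_14_7 ln13_14_7_ok) (L (nat_lit 493) ln13_15_7 ln13_15_7_ok)))))))))))) (B (M (nat_lit 394) (B (L (nat_lit 430) ln10_12_0 ln10_12_0_ok) (M (nat_lit 393) (B (M (nat_lit 361) (B (L (nat_lit 360) ln12_12_3 ln12_12_3_ok) (L (nat_lit 362) ln13_12_3 ln13_12_3_ok))) (M (nat_lit 425) (B (L (nat_lit 424) ln12_12_1 ln12_12_1_ok) (L (nat_lit 426) ln13_12_1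 ln13_12_1_ok))))))) (M (nat_lit 364) (B (M (nat_lit 332) (B (L (nat_lit 300) ln12_9_4 ln12_9_4_ok) (M (nat_lit 461) (B (L (nat_lit 365) ln13_14_7 ln13_14_7_ok) (L (nat_lit 493) ln13_15_7 ln13_15_7_ok))))) (B (M (nat_lit 394) (B (M (nat_lit 393) (B (L (nat_lit 365) ln9_12_2 ln9_12_2_ok) (M (nat_lit 361) (B (L (nat_lit 360) ln12_12_3 ln12_12_3_ok) (L (nat_lit 362) ln13_12_3 ln13_12_3_ok))))) (B (M (nat_lit 393) (B (L (nat_lit 365) ln9_12_2 ln9_12_2_ok) (M (nat_lit 425) (B (L (nat_lit 424) ln12_12_1 ln12_12_1_ok) (L (nat_lit 426) ln13_12_1 ln13_12_1_ok))))) (B (M (nat_lit 393) (B (M (nat_lit 361) (B (L (nat_lit 360) ln12_12_3 ln12_12_3_ok) (L (nat_lit 362) ln13_12_3 ln13_12_3_ok))) (M (nat_lit 425) (B (L (nat_lit 424) ln12_12_1 ln12_12_1_ok) (L (nat_lit 426) ln13_12_1 ln13_12_1_ok))))) (M (nat_lit 398) (B (M (nat_lit 362) (B (L (nat_lit 361) ln13_12_3 ln13_12_3_ok) (L (nat_lit 363) ln14_12_3 ln14_12_3_ok)))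 (M (nat_lit 426) (B (L (nat_lit 425) ln13_12_1 ln13_12_1_ok) (L (nat_lit 427) ln14_12_1 ln14_12_1_ok))))))))) (M (nat_lit 427) (B (M (nat_lit 426) (B (L (nat_lit 398) ln14_12_1 ln14_12_1_ok) (M (nat_lit 425) (B (L (nat_lit 394) ln13_12_1 ln13_12_1_ok) (L (nat_lit 424) ln8_13_2 ln8_13_2_ok))))) (M (nat_lit 332) (B (L (nat_lit 300) ln12_9_5 ln12_9_5_ok) (M (nat_lit 459) (B (L (nat_lit 363) ln11_14_6 ln11_14_6_ok) (L (nat_lit 491) ln11_15_6 ln11_15_6_ok)))))))))))))) (nat_lit 1386334847544579281930502452632026696468783264124728123740719198963059283254184240648144927045128292788721448874933630659377233920) (nat_lit 164755143887888020388059926698823141926748373516741550340823570832026970473456886011069613751627022208736126339776386391573374279116157358756673132235837145088) (nat_lit 164755143887888020388059926698823141926748373516741550340823570832026970473456886011069613751627022208736126339776386391573374279116157358756673132235837145088)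 (by decide +kernel)
theorem c11_s14677 : Sem (nat_lit 1386334847625274590620718346058774170593877385197531429766632433739017388146079478836171214377304710078725756107305604783525593088) (nat_lit 47950057744017883480544867173487105251777302571839422140414333113332564483341318578417968671944555922718070012529121402610753800346443383691076960256) (nat_lit 47950057744017883480544867173487105251777302571839422140414333113332564483341318578417968671944555922718070012529121402610753800346443383691076960256) :=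
  sem_of_chk (M (nat_lit 427) (B (M (nat_lit 426) (B (L (nat_lit 398) ln14_12_1 ln14_12_1_ok) (M (nat_lit 425) (B (L (nat_lit 424) ln8_13_2 ln8_13_2_ok) (L (nat_lit 428) ln9_13_2 ln9_13_2_ok))))) (B (M (nat_lit 363) (B (M (nat_lit 331) (B (M (nat_lit 428) (B (L (nat_lit 299) ln11_9_4 ln11_9_4_ok) (L (nat_lit 460) ln11_10_4 ln11_10_4_ok))) (M (nat_lit 459) (B (M (nat_lit 330) (B (L (nat_lit 298) ln11_13_7 ln11_13_7_ok) (L (nat_lit 362) ln11_14_7 ln11_14_7_ok))) (M (nat_lit 458) (B (L (nat_lit 426) ln11_10_5 ln11_10_5_ok) (L (nat_lit 490) ln11_11_5 ln11_11_5_ok))))))) (B (M (nat_lit 331) (B (M (nat_lit 428) (B (L (nat_lit 299) ln11_9_4 ln11_9_4_ok) (L (nat_lit 460) ln11_10_4 ln11_10_4_ok))) (M (nat_lit 459) (B (M (nat_lit 332) (B (L (nat_lit 300) ln11_13_6 ln11_13_6_ok) (L (nat_lit 364) ln11_14_6 ln11_14_6_ok))) (M (nat_lit 458) (B (L (nat_lit 426) ln11_10_5 ln11_10_5_ok) (L (nat_lit 490) ln11_11_5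 ln11_11_5_ok))))))) (B (M (nat_lit 331) (B (M (nat_lit 428) (B (L (nat_lit 460) ln11_10_4 ln11_10_4_ok) (M (nat_lit 426) (B (L (nat_lit 458) ln11_10_5 ln11_10_5_ok) (L (nat_lit 425) ln9_13_2 ln9_13_2_ok))))) (B (M (nat_lit 459) (B (M (nat_lit 330) (B (L (nat_lit 298) ln11_13_7 ln11_13_7_ok) (L (nat_lit 362) ln11_14_7 ln11_14_7_ok))) (M (nat_lit 458) (B (L (nat_lit 426) ln11_10_5 ln11_10_5_ok) (L (nat_lit 490) ln11_11_5 ln11_11_5_ok))))) (M (nat_lit 459) (B (M (nat_lit 330) (B (L (nat_lit 298) ln11_13_7 ln11_13_7_ok) (L (nat_lit 362) ln11_14_7 ln11_14_7_ok))) (M (nat_lit 332) (B (L (nat_lit 300) ln11_13_6 ln11_13_6_ok) (L (nat_lit 364) ln11_14_6 ln11_14_6_ok)))))))) (B (M (nat_lit 364) (B (M (nat_lit 332) (B (L (nat_lit 300) ln12_9_5 ln12_9_5_ok) (L (nat_lit 459) ln11_14_6 ln11_14_6_ok))) (B (M (nat_lit 459) (B (L (nat_lit 332) ln11_14_6 ln11_14_6_ok) (L (nat_lit 491) ln11_15_6 ln11_15_6_ok))) (B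 (M (nat_lit 459) (B (L (nat_lit 491) ln11_15_6 ln11_15_6_ok) (M (nat_lit 362) (B (L (nat_lit 330) ln11_14_7 ln11_14_7_ok) (L (nat_lit 361) ln9_11_0 ln9_11_0_ok))))) (M (nat_lit 332) (B (L (nat_lit 300) ln12_9_5 ln12_9_5_ok) (M (nat_lit 461) (B (L (nat_lit 428) ln12_10_4 ln12_10_4_ok) (L (nat_lit 493) ln13_15_7 ln13_15_7_ok))))))))) (B (M (nat_lit 459) (B (M (nat_lit 364) (B (L (nat_lit 332) ln11_14_6 ln11_14_6_ok) (L (nat_lit 491) ln11_15_6 ln11_15_6_ok))) (M (nat_lit 331) (B (M (nat_lit 330) (B (L (nat_lit 298) ln11_13_7 ln11_13_7_ok) (L (nat_lit 362) ln11_14_7 ln11_14_7_ok))) (M (nat_lit 458) (B (L (nat_lit 426) ln11_10_5 ln11_10_5_ok) (L (nat_lit 490) ln11_11_5 ln11_11_5_ok))))))) (M (nat_lit 331) (B (M (nat_lit 428) (B (L (nat_lit 299) ln11_9_4 ln11_9_4_ok) (L (nat_lit 460) ln11_10_4 ln11_10_4_ok))) (B (M (nat_lit 428) (B (L (nat_lit 460) ln11_10_4 ln11_10_4_ok) (M (nat_lit 426) (B (L (nat_lit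 458) ln11_10_5 ln11_10_5_ok) (L (nat_lit 425) ln9_13_2 ln9_13_2_ok))))) (M (nat_lit 299) (B (M (nat_lit 298) (B (L (nat_lit 266) ln11_12_7 ln11_12_7_ok) (L (nat_lit 330) ln11_13_7 ln11_13_7_ok))) (M (nat_lit 300) (B (L (nat_lit 268) ln11_12_6 ln11_12_6_ok) (L (nat_lit 332) ln11_13_6 ln11_13_6_ok)))))))))))))) (B (M (nat_lit 398) (B (L (nat_lit 426) ln14_12_1 ln14_12_1_ok) (M (nat_lit 399) (B (L (nat_lit 428) ln15_12_1 ln15_12_1_ok) (M (nat_lit 363) (B (L (nat_lit 362) ln14_12_3 ln14_12_3_ok) (L (nat_lit 364) ln15_12_3 ln15_12_3_ok))))))) (B (M (nat_lit 363) (B (M (nat_lit 398) (B (L (nat_lit 362) ln14_12_3 ln14_12_3_ok) (M (nat_lit 399) (B (L (nat_lit 364) ln15_12_3 ln15_12_3_ok) (L (nat_lit 428) ln15_12_1 ln15_12_1_ok))))) (B (M (nat_lit 331) (B (M (nat_lit 428) (B (L (nat_lit 299) ln11_9_4 ln11_9_4_ok) (L (nat_lit 460) ln11_10_4 ln11_10_4_ok))) (B (M (nat_lit 459) (B (M (nat_lit 332) (B (L (nat_lit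 300) ln11_13_6 ln11_13_6_ok) (L (nat_lit 364) ln11_14_6 ln11_14_6_ok))) (M (nat_lit 460) (B (L (nat_lit 428) ln11_10_4 ln11_10_4_ok) (L (nat_lit 492) ln11_11_4 ln11_11_4_ok))))) (M (nat_lit 299) (B (M (nat_lit 298) (B (L (nat_lit 266) ln11_12_7 ln11_12_7_ok) (L (nat_lit 330) ln11_13_7 ln11_13_7_ok))) (M (nat_lit 300) (B (L (nat_lit 268) ln11_12_6 ln11_12_6_ok) (L (nat_lit 332) ln11_13_6 ln11_13_6_ok)))))))) (B (M (nat_lit 428) (B (M (nat_lit 331) (B (L (nat_lit 299) ln11_9_4 ln11_9_4_ok) (L (nat_lit 460) ln11_10_4 ln11_10_4_ok))) (M (nat_lit 398) (B (L (nat_lit 362) ln14_12_3 ln14_12_3_ok) (L (nat_lit 399) ln15_12_1 ln15_12_1_ok))))) (M (nat_lit 364) (B (M (nat_lit 332) (B (L (nat_lit 300) ln12_9_5 ln12_9_5_ok) (L (nat_lit 459) ln11_14_6 ln11_14_6_ok))) (M (nat_lit 398) (B (L (nat_lit 362) ln14_12_3 ln14_12_3_ok) (L (nat_lit 399) ln15_12_3 ln15_12_3_ok))))))))) (M (nat_lit 364) (B (M (nat_lit 332)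 (B (L (nat_lit 300) ln12_9_5 ln12_9_5_ok) (M (nat_lit 459) (B (L (nat_lit 363) ln11_14_6 ln11_14_6_ok) (L (nat_lit 491) ln11_15_6 ln11_15_6_ok))))) (B (M (nat_lit 398) (B (L (nat_lit 426) ln14_12_1 ln14_12_1_ok) (M (nat_lit 363) (B (L (nat_lit 362) ln14_12_3 ln14_12_3_ok) (L (nat_lit 399) ln15_12_3 ln15_12_3_ok))))) (M (nat_lit 332) (B (L (nat_lit 300) ln12_9_5 ln12_9_5_ok) (M (nat_lit 461) (B (L (nat_lit 365) ln13_14_7 ln13_14_7_ok) (L (nat_lit 493) ln13_15_7 ln13_15_7_ok))))))))))))) (nat_lit 1386334847625274590620718346058774170593877385197531429766632433739017388146079478836171214377304710078725756107305604783525593088) (nat_lit 47950057744017883480544867173487105251777302571839422140414333113332564483341318578417968671944555922718070012529121402610753800346443383691076960256) (nat_lit 47950057744017883480544867173487105251777302571839422140414333113332564483341318578417968671944555922718070012529121402610753800346443383691076960256)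 (by decide +kernel)
noncomputable def c11_n14715 : Cert := (M (nat_lit 427) (B (M (nat_lit 398) (B (L (nat_lit 426) ln14_12_1 ln14_12_1_ok) (M (nat_lit 399) (B (L (nat_lit 428) ln15_12_1 ln15_12_1_ok) (M (nat_lit 363) (B (L (nat_lit 362) ln14_12_3 ln14_12_3_ok) (L (nat_lit 364) ln15_12_3 ln15_12_3_ok))))))) (B (M (nat_lit 364) (B (M (nat_lit 332) (B (L (nat_lit 300) ln12_9_5 ln12_9_5_ok) (M (nat_lit 459) (B (L (nat_lit 363) ln11_14_6 ln11_14_6_ok) (L (nat_lit 491) ln11_15_6 ln11_15_6_ok))))) (B (M (nat_lit 398) (B (L (nat_lit 426) ln14_12_1 ln14_12_1_ok) (M (nat_lit 399) (B (L (nat_lit 363) ln15_12_3 ln15_12_3_ok) (L (nat_lit 428) ln15_12_1 ln15_12_1_ok))))) (M (nat_lit 332) (B (L (nat_lit 300) ln12_9_5 ln12_9_5_ok) (M (nat_lit 461) (B (L (nat_lit 365) ln13_14_7 ln13_14_7_ok) (L (nat_lit 493) ln13_15_7 ln13_15_7_ok)))))))) (B (M (nat_lit 394) (B (M (nat_lit 428) (B (L (nat_lit 393) ln9_12_0 ln9_12_0_ok)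 (M (nat_lit 398) (B (L (nat_lit 426) ln14_12_1 ln14_12_1_ok) (L (nat_lit 399) ln15_12_1 ln15_12_1_ok))))) (B (M (nat_lit 362) (B (L (nat_lit 361) ln13_12_3 ln13_12_3_ok) (M (nat_lit 426) (B (L (nat_lit 398) ln14_12_1 ln14_12_1_ok) (M (nat_lit 330) (B (L (nat_lit 298) ln10_9_4 ln10_9_4_ok) (L (nat_lit 459) ln10_10_4 ln10_10_4_ok))))))) (M (nat_lit 393) (B (L (nat_lit 428) ln9_12_0 ln9_12_0_ok) (M (nat_lit 361) (B (L (nat_lit 360) ln12_12_3 ln12_12_3_ok) (L (nat_lit 362) ln13_12_3 ln13_12_3_ok)))))))) (B (M (nat_lit 459) (B (M (nat_lit 364) (B (L (nat_lit 491) ln11_15_6 ln11_15_6_ok) (M (nat_lit 332) (B (L (nat_lit 300) ln12_9_5 ln12_9_5_ok) (L (nat_lit 428) ln12_10_5 ln12_10_5_ok))))) (B (M (nat_lit 364) (B (L (nat_lit 491) ln11_15_6 ln11_15_6_ok) (M (nat_lit 332) (B (L (nat_lit 363) ln11_14_6 ln11_14_6_ok) (L (nat_lit 428) ln12_10_5 ln12_10_5_ok))))) (B (M (nat_lit 363) (B (M (nat_lit 362) (B (L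 (nat_lit 330) ln11_14_7 ln11_14_7_ok) (M (nat_lit 361) (B (L (nat_lit 360) ln8_11_0 ln8_11_0_ok) (L (nat_lit 364) ln9_11_0 ln9_11_0_ok))))) (M (nat_lit 331) (B (M (nat_lit 458) (B (L (nat_lit 426) ln11_10_5 ln11_10_5_ok) (L (nat_lit 490) ln11_11_5 ln11_11_5_ok))) (M (nat_lit 460) (B (L (nat_lit 428) ln11_10_4 ln11_10_4_ok) (L (nat_lit 492) ln11_11_4 ln11_11_4_ok))))))) (B (M (nat_lit 363) (B (M (nat_lit 362) (B (L (nat_lit 330) ln11_14_7 ln11_14_7_ok) (M (nat_lit 361) (B (L (nat_lit 360) ln8_11_0 ln8_11_0_ok) (L (nat_lit 394) ln13_12_3 ln13_12_3_ok))))) (M (nat_lit 331) (B (M (nat_lit 458) (B (L (nat_lit 426) ln11_10_5 ln11_10_5_ok) (L (nat_lit 490) ln11_11_5 ln11_11_5_ok))) (M (nat_lit 460) (B (L (nat_lit 428) ln11_10_4 ln11_10_4_ok) (L (nat_lit 492) ln11_11_4 ln11_11_4_ok))))))) (M (nat_lit 364) (B (L (nat_lit 491) ln11_15_6 ln11_15_6_ok) (M (nat_lit 332) (B (L (nat_lit 300) ln12_9_5 ln12_9_5_ok)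 (L (nat_lit 363) ln11_14_6 ln11_14_6_ok)))))))))) (B (M (nat_lit 364) (B (M (nat_lit 332) (B (L (nat_lit 300) ln12_9_5 ln12_9_5_ok) (M (nat_lit 459) (B (L (nat_lit 363) ln11_14_6 ln11_14_6_ok) (L (nat_lit 491) ln11_15_6 ln11_15_6_ok))))) (B (M (nat_lit 459) (B (L (nat_lit 491) ln11_15_6 ln11_15_6_ok) (M (nat_lit 332) (B (L (nat_lit 363) ln11_14_6 ln11_14_6_ok) (L (nat_lit 428) ln12_10_5 ln12_10_5_ok))))) (B (M (nat_lit 362) (B (M (nat_lit 361) (B (L (nat_lit 363) ln9_11_0 ln9_11_0_ok) (L (nat_lit 394) ln13_12_3 ln13_12_3_ok))) (B (M (nat_lit 363) (B (L (nat_lit 398) ln14_12_3 ln14_12_3_ok) (M (nat_lit 459) (B (L (nat_lit 330) ln11_14_7 ln11_14_7_ok) (L (nat_lit 491) ln11_15_6 ln11_15_6_ok))))) (M (nat_lit 394) (B (L (nat_lit 361) ln13_12_3 ln13_12_3_ok) (M (nat_lit 393) (B (L (nat_lit 365) ln9_12_2 ln9_12_2_ok) (L (nat_lit 428) ln9_12_0 ln9_12_0_ok)))))))) (M (nat_lit 332) (B (L (nat_lit 300) ln12_9_5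 ln12_9_5_ok) (M (nat_lit 461) (B (L (nat_lit 365) ln13_14_7 ln13_14_7_ok) (L (nat_lit 493) ln13_15_7 ln13_15_7_ok))))))))) (M (nat_lit 364) (B (M (nat_lit 398) (B (L (nat_lit 426) ln14_12_1 ln14_12_1_ok) (M (nat_lit 363) (B (L (nat_lit 362) ln14_12_3 ln14_12_3_ok) (L (nat_lit 399) ln15_12_3 ln15_12_3_ok))))) (M (nat_lit 332) (B (L (nat_lit 300) ln12_9_5 ln12_9_5_ok) (M (nat_lit 461) (B (L (nat_lit 365) ln13_14_7 ln13_14_7_ok) (L (nat_lit 493) ln13_15_7 ln13_15_7_ok)))))))))))))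
theorem c11_s14749 : Sem (nat_lit 1386334847544579281930502452632026696468783264124728123740719198963059283254184240648144927045128292788721448874933630659377233920) (nat_lit 49548393002151812929851595685825926858256378088210093269319531649272295229868569487263361843878712911897370578199863393201292856161613438167057170432) (nat_lit 49548393002151812929851595685825926858256378088210093269319531649272295229868569487263361843878712911897370578199863393201292856161613438167057170432) :=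
  sem_of_chk (M (nat_lit 395) (B (M (nat_lit 394) (B (M (nat_lit 393) (B (L (nat_lit 428) ln9_12_0 ln9_12_0_ok) (M (nat_lit 425) (B (L (nat_lit 424) ln12_12_1 ln12_12_1_ok) (L (nat_lit 426) ln13_12_1 ln13_12_1_ok))))) (B (M (nat_lit 398) (B (M (nat_lit 362) (B (L (nat_lit 361) ln13_12_3 ln13_12_3_ok) (L (nat_lit 363) ln14_12_3 ln14_12_3_ok))) (M (nat_lit 426) (B (L (nat_lit 425) ln13_12_1 ln13_12_1_ok) (L (nat_lit 427) ln14_12_1 ln14_12_1_ok))))) (M (nat_lit 393) (B (L (nat_lit 428) ln9_12_0 ln9_12_0_ok) (M (nat_lit 361) (B (L (nat_lit 360) ln12_12_3 ln12_12_3_ok) (L (nat_lit 362) ln13_12_3 ln13_12_3_ok)))))))) (B (M (nat_lit 364) (B (M (nat_lit 332) (B (L (nat_lit 300) ln12_9_4 ln12_9_4_ok) (M (nat_lit 461) (B (L (nat_lit 428) ln12_10_4 ln12_10_4_ok) (L (nat_lit 493) ln13_15_7 ln13_15_7_ok))))) (B (M (nat_lit 461) (B (L (nat_lit 493) ln13_15_7 ln13_15_7_ok) (M (nat_lit 332) (B (L (nat_lit 365) ln13_14_7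 ln13_14_7_ok) (L (nat_lit 428) ln12_10_4 ln12_10_4_ok))))) (B (M (nat_lit 398) (B (M (nat_lit 363) (B (L (nat_lit 362) ln14_12_3 ln14_12_3_ok) (L (nat_lit 399) ln15_12_3 ln15_12_3_ok))) (B (M (nat_lit 427) (B (L (nat_lit 426) ln14_12_1 ln14_12_1_ok) (M (nat_lit 399) (B (L (nat_lit 363) ln15_12_3 ln15_12_3_ok) (L (nat_lit 428) ln15_12_1 ln15_12_1_ok))))) (M (nat_lit 394) (B (M (nat_lit 393) (B (L (nat_lit 365) ln9_12_2 ln9_12_2_ok) (L (nat_lit 428) ln9_12_0 ln9_12_0_ok))) (M (nat_lit 426) (B (L (nat_lit 425) ln13_12_1 ln13_12_1_ok) (L (nat_lit 427) ln14_12_1 ln14_12_1_ok)))))))) (M (nat_lit 332) (B (L (nat_lit 300) ln12_9_4 ln12_9_4_ok) (M (nat_lit 461) (B (L (nat_lit 365) ln13_14_7 ln13_14_7_ok) (L (nat_lit 493) ln13_15_7 ln13_15_7_ok))))))))) (B (M (nat_lit 364) (B (M (nat_lit 332) (B (L (nat_lit 300) ln12_9_4 ln12_9_4_ok) (M (nat_lit 461) (B (L (nat_lit 428) ln12_10_4 ln12_10_4_ok) (L (nat_lit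 493) ln13_15_7 ln13_15_7_ok))))) (B (M (nat_lit 461) (B (L (nat_lit 493) ln13_15_7 ln13_15_7_ok) (M (nat_lit 332) (B (L (nat_lit 365) ln13_14_7 ln13_14_7_ok) (L (nat_lit 428) ln12_10_4 ln12_10_4_ok))))) (B (M (nat_lit 398) (B (M (nat_lit 427) (B (L (nat_lit 426) ln14_12_1 ln14_12_1_ok) (M (nat_lit 399) (B (L (nat_lit 363) ln15_12_3 ln15_12_3_ok) (L (nat_lit 428) ln15_12_1 ln15_12_1_ok))))) (B (M (nat_lit 394) (B (M (nat_lit 393) (B (L (nat_lit 365) ln9_12_2 ln9_12_2_ok) (L (nat_lit 428) ln9_12_0 ln9_12_0_ok))) (M (nat_lit 426) (B (L (nat_lit 425) ln13_12_1 ln13_12_1_ok) (L (nat_lit 427) ln14_12_1 ln14_12_1_ok))))) (B (M (nat_lit 399) (B (L (nat_lit 363) ln15_12_3 ln15_12_3_ok) (M (nat_lit 400) (B (L (nat_lit 365) ln16_12_3 ln16_12_3_ok) (L (nat_lit 428) ln16_12_1 ln16_12_1_ok))))) (M (nat_lit 399) (B (L (nat_lit 363) ln15_12_3 ln15_12_3_ok) (M (nat_lit 394) (B (M (nat_lit 365) (B (L (nat_lit 393)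 ln9_12_2 ln9_12_2_ok) (L (nat_lit 400) ln16_12_3 ln16_12_3_ok))) (M (nat_lit 426) (B (L (nat_lit 425) ln13_12_1 ln13_12_1_ok) (L (nat_lit 427) ln14_12_1 ln14_12_1_ok))))))))))) (M (nat_lit 332) (B (L (nat_lit 300) ln12_9_4 ln12_9_4_ok) (M (nat_lit 461) (B (L (nat_lit 365) ln13_14_7 ln13_14_7_ok) (L (nat_lit 493) ln13_15_7 ln13_15_7_ok))))))))) (B (M (nat_lit 394) (B (M (nat_lit 393) (B (L (nat_lit 428) ln9_12_0 ln9_12_0_ok) (M (nat_lit 425) (B (L (nat_lit 424) ln12_12_1 ln12_12_1_ok) (L (nat_lit 426) ln13_12_1 ln13_12_1_ok))))) (B (M (nat_lit 426) (B (L (nat_lit 425) ln13_12_1 ln13_12_1_ok) (M (nat_lit 427) (B (L (nat_lit 398) ln14_12_1 ln14_12_1_ok) (M (nat_lit 362) (B (L (nat_lit 361) ln13_12_3 ln13_12_3_ok) (M (nat_lit 330) (B (L (nat_lit 298) ln10_9_4 ln10_9_4_ok) (L (nat_lit 459) ln10_10_4 ln10_10_4_ok))))))))) (M (nat_lit 393) (B (L (nat_lit 428) ln9_12_0 ln9_12_0_ok) (M (nat_lit 361) (B (L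 (nat_lit 360) ln12_12_3 ln12_12_3_ok) (L (nat_lit 362) ln13_12_3 ln13_12_3_ok)))))))) (B (M (nat_lit 427) (B (M (nat_lit 426) (B (L (nat_lit 398) ln14_12_1 ln14_12_1_ok) (M (nat_lit 425) (B (L (nat_lit 394) ln13_12_1 ln13_12_1_ok) (L (nat_lit 424) ln8_13_2 ln8_13_2_ok))))) (B (M (nat_lit 426) (B (L (nat_lit 398) ln14_12_1 ln14_12_1_ok) (M (nat_lit 425) (B (L (nat_lit 424) ln8_13_2 ln8_13_2_ok) (L (nat_lit 428) ln9_13_2 ln9_13_2_ok))))) (B (M (nat_lit 459) (B (M (nat_lit 364) (B (L (nat_lit 491) ln11_15_6 ln11_15_6_ok) (M (nat_lit 332) (B (L (nat_lit 300) ln12_9_5 ln12_9_5_ok) (L (nat_lit 428) ln12_10_5 ln12_10_5_ok))))) (B (M (nat_lit 364) (B (L (nat_lit 491) ln11_15_6 ln11_15_6_ok) (M (nat_lit 332) (B (L (nat_lit 363) ln11_14_6 ln11_14_6_ok) (L (nat_lit 428) ln12_10_5 ln12_10_5_ok))))) (B (M (nat_lit 363) (B (M (nat_lit 362) (B (L (nat_lit 330) ln11_14_7 ln11_14_7_ok) (M (nat_lit 361) (B (L (nat_lit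 360) ln8_11_0 ln8_11_0_ok) (L (nat_lit 364) ln9_11_0 ln9_11_0_ok))))) (M (nat_lit 331) (B (M (nat_lit 458) (B (L (nat_lit 426) ln11_10_5 ln11_10_5_ok) (L (nat_lit 490) ln11_11_5 ln11_11_5_ok))) (M (nat_lit 460) (B (L (nat_lit 428) ln11_10_4 ln11_10_4_ok) (L (nat_lit 492) ln11_11_4 ln11_11_4_ok))))))) (B (M (nat_lit 363) (B (M (nat_lit 362) (B (L (nat_lit 330) ln11_14_7 ln11_14_7_ok) (M (nat_lit 361) (B (L (nat_lit 360) ln8_11_0 ln8_11_0_ok) (L (nat_lit 394) ln13_12_3 ln13_12_3_ok))))) (M (nat_lit 331) (B (M (nat_lit 458) (B (L (nat_lit 426) ln11_10_5 ln11_10_5_ok) (L (nat_lit 490) ln11_11_5 ln11_11_5_ok))) (M (nat_lit 460) (B (L (nat_lit 428) ln11_10_4 ln11_10_4_ok) (L (nat_lit 492) ln11_11_4 ln11_11_4_ok))))))) (M (nat_lit 364) (B (L (nat_lit 491) ln11_15_6 ln11_15_6_ok) (M (nat_lit 332) (B (L (nat_lit 300) ln12_9_5 ln12_9_5_ok) (L (nat_lit 363) ln11_14_6 ln11_14_6_ok)))))))))) (M (nat_lit 363)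 (B (M (nat_lit 362) (B (L (nat_lit 398) ln14_12_3 ln14_12_3_ok) (M (nat_lit 361) (B (L (nat_lit 360) ln8_11_0 ln8_11_0_ok) (L (nat_lit 394) ln13_12_3 ln13_12_3_ok))))) (B (M (nat_lit 362) (B (L (nat_lit 398) ln14_12_3 ln14_12_3_ok) (M (nat_lit 361) (B (L (nat_lit 364) ln9_11_0 ln9_11_0_ok) (L (nat_lit 394) ln13_12_3 ln13_12_3_ok))))) (M (nat_lit 332) (B (M (nat_lit 300) (B (L (nat_lit 331) ln11_13_6 ln11_13_6_ok) (L (nat_lit 364) ln12_9_5 ln12_9_5_ok))) (B (M (nat_lit 364) (B (L (nat_lit 459) ln11_14_6 ln11_14_6_ok) (M (nat_lit 461) (B (L (nat_lit 365) ln13_14_7 ln13_14_7_ok) (L (nat_lit 493) ln13_15_7 ln13_15_7_ok))))) (M (nat_lit 331) (B (L (nat_lit 300) ln11_13_6 ln11_13_6_ok) (M (nat_lit 428) (B (L (nat_lit 299) ln11_9_4 ln11_9_4_ok) (L (nat_lit 460) ln11_10_4 ln11_10_4_ok))))))))))))))) (B (K (nat_lit 1386334847625274590620718346058774170593877385197531429766632433739017388146079478836171214377304710078725756107305604783525593088)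 (nat_lit 47950057744017883480544867173487105251777302571839422140414333113332564483341318578417968671944555922718070012529121402610753800346443383691076960256) (nat_lit 47950057744017883480544867173487105251777302571839422140414333113332564483341318578417968671944555922718070012529121402610753800346443383691076960256) c11_s14677) (B (M (nat_lit 394) (B (M (nat_lit 393) (B (L (nat_lit 428) ln9_12_0 ln9_12_0_ok) (M (nat_lit 425) (B (L (nat_lit 424) ln12_12_1 ln12_12_1_ok) (L (nat_lit 426) ln13_12_1 ln13_12_1_ok))))) (B (M (nat_lit 426) (B (L (nat_lit 425) ln13_12_1 ln13_12_1_ok) (M (nat_lit 362) (B (L (nat_lit 361) ln13_12_3 ln13_12_3_ok) (M (nat_lit 427) (B (M (nat_lit 330) (B (L (nat_lit 298) ln10_9_4 ln10_9_4_ok) (L (nat_lit 459) ln10_10_4 ln10_10_4_ok))) (M (nat_lit 458) (B (M (nat_lit 363) (B (L (nat_lit 331) ln10_14_6 ln10_14_6_ok) (L (nat_lit 490) ln10_15_6 ln10_15_6_ok))) (M (nat_lit 457) (B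 (L (nat_lit 489) ln10_11_5 ln10_11_5_ok) (L (nat_lit 428) ln13_13_1 ln13_13_1_ok))))))))))) (B (M (nat_lit 393) (B (L (nat_lit 428) ln9_12_0 ln9_12_0_ok) (M (nat_lit 361) (B (L (nat_lit 360) ln12_12_3 ln12_12_3_ok) (L (nat_lit 362) ln13_12_3 ln13_12_3_ok))))) (M (nat_lit 393) (B (M (nat_lit 361) (B (L (nat_lit 360) ln12_12_3 ln12_12_3_ok) (L (nat_lit 362) ln13_12_3 ln13_12_3_ok))) (M (nat_lit 425) (B (L (nat_lit 424) ln12_12_1 ln12_12_1_ok) (L (nat_lit 426) ln13_12_1 ln13_12_1_ok))))))))) (B c11_n14715 (B (M (nat_lit 364) (B (M (nat_lit 332) (B (L (nat_lit 300) ln12_9_4 ln12_9_4_ok) (M (nat_lit 461) (B (L (nat_lit 428) ln12_10_4 ln12_10_4_ok) (L (nat_lit 493) ln13_15_7 ln13_15_7_ok))))) (B (M (nat_lit 461) (B (L (nat_lit 493) ln13_15_7 ln13_15_7_ok) (M (nat_lit 332) (B (L (nat_lit 365) ln13_14_7 ln13_14_7_ok) (L (nat_lit 428) ln12_10_4 ln12_10_4_ok))))) (B (M (nat_lit 362) (B (M (nat_lit 361) (B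 (L (nat_lit 363) ln9_11_0 ln9_11_0_ok) (L (nat_lit 394) ln13_12_3 ln13_12_3_ok))) (B (M (nat_lit 363) (B (L (nat_lit 398) ln14_12_3 ln14_12_3_ok) (M (nat_lit 331) (B (M (nat_lit 299) (B (L (nat_lit 267) ln11_8_4 ln11_8_4_ok) (L (nat_lit 428) ln11_9_4 ln11_9_4_ok))) (M (nat_lit 330) (B (M (nat_lit 298) (B (L (nat_lit 266) ln10_8_4 ln10_8_4_ok) (L (nat_lit 427) ln11_13_7 ln11_13_7_ok))) (M (nat_lit 329) (B (L (nat_lit 328) ln8_10_0 ln8_10_0_ok) (L (nat_lit 365) ln13_11_3 ln13_11_3_ok))))))))) (M (nat_lit 394) (B (L (nat_lit 361) ln13_12_3 ln13_12_3_ok) (M (nat_lit 393) (B (L (nat_lit 365) ln9_12_2 ln9_12_2_ok) (L (nat_lit 428) ln9_12_0 ln9_12_0_ok)))))))) (M (nat_lit 332) (B (L (nat_lit 300) ln12_9_4 ln12_9_4_ok) (M (nat_lit 461) (B (L (nat_lit 365) ln13_14_7 ln13_14_7_ok) (L (nat_lit 493) ln13_15_7 ln13_15_7_ok))))))))) (B (M (nat_lit 394) (B (M (nat_lit 393) (B (L (nat_lit 428) ln9_12_0 ln9_12_0_ok)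 (M (nat_lit 425) (B (L (nat_lit 424) ln12_12_1 ln12_12_1_ok) (L (nat_lit 426) ln13_12_1 ln13_12_1_ok))))) (B (M (nat_lit 362) (B (L (nat_lit 361) ln13_12_3 ln13_12_3_ok) (M (nat_lit 363) (B (L (nat_lit 398) ln14_12_3 ln14_12_3_ok) (M (nat_lit 426) (B (L (nat_lit 425) ln13_12_1 ln13_12_1_ok) (M (nat_lit 331) (B (L (nat_lit 299) ln11_9_5 ln11_9_5_ok) (L (nat_lit 458) ln10_14_6 ln10_14_6_ok))))))))) (M (nat_lit 393) (B (L (nat_lit 428) ln9_12_0 ln9_12_0_ok) (M (nat_lit 361) (B (L (nat_lit 360) ln12_12_3 ln12_12_3_ok) (L (nat_lit 362) ln13_12_3 ln13_12_3_ok)))))))) (M (nat_lit 364) (B (M (nat_lit 332) (B (L (nat_lit 300) ln12_9_4 ln12_9_4_ok) (M (nat_lit 461) (B (L (nat_lit 365) ln13_14_7 ln13_14_7_ok) (L (nat_lit 493) ln13_15_7 ln13_15_7_ok))))) (B (M (nat_lit 394) (B (M (nat_lit 393) (B (L (nat_lit 365) ln9_12_2 ln9_12_2_ok) (M (nat_lit 361) (B (L (nat_lit 360) ln12_12_3 ln12_12_3_ok) (L (nat_lit 362)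 ln13_12_3 ln13_12_3_ok))))) (B (M (nat_lit 393) (B (L (nat_lit 365) ln9_12_2 ln9_12_2_ok) (M (nat_lit 425) (B (L (nat_lit 424) ln12_12_1 ln12_12_1_ok) (L (nat_lit 426) ln13_12_1 ln13_12_1_ok))))) (B (M (nat_lit 393) (B (M (nat_lit 361) (B (L (nat_lit 360) ln12_12_3 ln12_12_3_ok) (L (nat_lit 362) ln13_12_3 ln13_12_3_ok))) (M (nat_lit 425) (B (L (nat_lit 424) ln12_12_1 ln12_12_1_ok) (L (nat_lit 426) ln13_12_1 ln13_12_1_ok))))) (M (nat_lit 398) (B (M (nat_lit 362) (B (L (nat_lit 361) ln13_12_3 ln13_12_3_ok) (L (nat_lit 363) ln14_12_3 ln14_12_3_ok))) (M (nat_lit 426) (B (L (nat_lit 425) ln13_12_1 ln13_12_1_ok) (L (nat_lit 427) ln14_12_1 ln14_12_1_ok))))))))) (M (nat_lit 427) (B (M (nat_lit 426) (B (L (nat_lit 398) ln14_12_1 ln14_12_1_ok) (M (nat_lit 425) (B (L (nat_lit 394) ln13_12_1 ln13_12_1_ok) (L (nat_lit 424) ln8_13_2 ln8_13_2_ok))))) (M (nat_lit 332) (B (L (nat_lit 300) ln12_9_5 ln12_9_5_ok) (M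 (nat_lit 459) (B (L (nat_lit 363) ln11_14_6 ln11_14_6_ok) (L (nat_lit 491) ln11_15_6 ln11_15_6_ok))))))))))))))))))))) (nat_lit 1386334847544579281930502452632026696468783264124728123740719198963059283254184240648144927045128292788721448874933630659377233920) (nat_lit 49548393002151812929851595685825926858256378088210093269319531649272295229868569487263361843878712911897370578199863393201292856161613438167057170432) (nat_lit 49548393002151812929851595685825926858256378088210093269319531649272295229868569487263361843878712911897370578199863393201292856161613438167057170432) (by decide +kernel)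
noncomputable def c11_n14890 : Cert := (M (nat_lit 363) (B (M (nat_lit 362) (B (L (nat_lit 398) ln14_12_3 ln14_12_3_ok) (M (nat_lit 361) (B (L (nat_lit 360) ln8_11_0 ln8_11_0_ok) (L (nat_lit 364) ln9_11_0 ln9_11_0_ok))))) (B (M (nat_lit 398) (B (L (nat_lit 362) ln14_12_3 ln14_12_3_ok) (M (nat_lit 399) (B (L (nat_lit 364) ln15_12_3 ln15_12_3_ok) (M (nat_lit 427) (B (L (nat_lit 426) ln14_12_1 ln14_12_1_ok) (L (nat_lit 428) ln15_12_1 ln15_12_1_ok))))))) (B (M (nat_lit 461) (B (M (nat_lit 364) (B (L (nat_lit 493) ln13_15_7 ln13_15_7_ok) (M (nat_lit 332) (B (L (nat_lit 300) ln12_9_4 ln12_9_4_ok) (L (nat_lit 365) ln13_14_7 ln13_14_7_ok))))) (B (M (nat_lit 364) (B (L (nat_lit 493) ln13_15_7 ln13_15_7_ok) (M (nat_lit 332) (B (L (nat_lit 365) ln13_14_7 ln13_14_7_ok) (L (nat_lit 428) ln12_10_4 ln12_10_4_ok))))) (B (M (nat_lit 492) (B (M (nat_lit 460) (B (L (nat_lit 428) ln12_15_7 ln12_15_7_ok) (L (nat_lit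 365) ln13_11_5 ln13_11_5_ok))) (M (nat_lit 493) (B (L (nat_lit 364) ln13_15_7 ln13_15_7_ok) (L (nat_lit 524) ln13_12_5 ln13_12_5_ok))))) (B (M (nat_lit 493) (B (M (nat_lit 525) (B (L (nat_lit 428) ln13_16_7 ln13_16_7_ok) (M (nat_lit 524) (B (L (nat_lit 492) ln13_12_5 ln13_12_5_ok) (L (nat_lit 556) ln13_13_5 ln13_13_5_ok))))) (B (M (nat_lit 525) (B (M (nat_lit 524) (B (L (nat_lit 492) ln13_12_5 ln13_12_5_ok) (L (nat_lit 556) ln13_13_5 ln13_13_5_ok))) (M (nat_lit 526) (B (L (nat_lit 494) ln13_12_4 ln13_12_4_ok) (L (nat_lit 558) ln13_13_4 ln13_13_4_ok))))) (B (M (nat_lit 525) (B (L (nat_lit 428) ln13_16_7 ln13_16_7_ok) (M (nat_lit 526) (B (L (nat_lit 494) ln13_12_4 ln13_12_4_ok) (L (nat_lit 558) ln13_13_4 ln13_13_4_ok))))) (M (nat_lit 492) (B (L (nat_lit 524) ln13_12_5 ln13_12_5_ok) (M (nat_lit 460) (B (L (nat_lit 428) ln12_15_7 ln12_15_7_ok) (L (nat_lit 365) ln13_11_5 ln13_11_5_ok))))))))) (B (M (nat_lit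 364) (B (L (nat_lit 493) ln13_15_7 ln13_15_7_ok) (M (nat_lit 332) (B (L (nat_lit 300) ln12_9_4 ln12_9_4_ok) (L (nat_lit 428) ln12_10_4 ln12_10_4_ok))))) (M (nat_lit 331) (B (M (nat_lit 428) (B (L (nat_lit 299) ln11_9_4 ln11_9_4_ok) (M (nat_lit 460) (B (L (nat_lit 364) ln12_14_7 ln12_14_7_ok) (L (nat_lit 427) ln11_10_4 ln11_10_4_ok))))) (B (M (nat_lit 428) (B (M (nat_lit 460) (B (L (nat_lit 364) ln12_14_7 ln12_14_7_ok) (L (nat_lit 427) ln11_10_4 ln11_10_4_ok))) (B (M (nat_lit 427) (B (L (nat_lit 460) ln11_10_4 ln11_10_4_ok) (M (nat_lit 426) (B (L (nat_lit 458) ln11_10_5 ln11_10_5_ok) (L (nat_lit 398) ln14_12_1 ln14_12_1_ok))))) (B (M (nat_lit 364) (B (L (nat_lit 460) ln12_14_7 ln12_14_7_ok) (L (nat_lit 332) ln12_10_4 ln12_10_4_ok))) (M (nat_lit 427) (B (M (nat_lit 332) (B (L (nat_lit 300) ln11_13_6 ln11_13_6_ok) (L (nat_lit 364) ln12_10_4 ln12_10_4_ok))) (M (nat_lit 426) (B (L (nat_lit 458) ln11_10_5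 ln11_10_5_ok) (L (nat_lit 398) ln14_12_1 ln14_12_1_ok))))))))) (B (M (nat_lit 428) (B (L (nat_lit 299) ln11_9_4 ln11_9_4_ok) (M (nat_lit 460) (B (L (nat_lit 427) ln11_10_4 ln11_10_4_ok) (L (nat_lit 492) ln12_15_7 ln12_15_7_ok))))) (B (M (nat_lit 428) (B (L (nat_lit 299) ln11_9_4 ln11_9_4_ok) (M (nat_lit 364) (B (L (nat_lit 460) ln12_14_7 ln12_14_7_ok) (L (nat_lit 332) ln12_10_4 ln12_10_4_ok))))) (M (nat_lit 427) (B (M (nat_lit 426) (B (L (nat_lit 458) ln11_10_5 ln11_10_5_ok) (L (nat_lit 398) ln14_12_1 ln14_12_1_ok))) (M (nat_lit 299) (B (M (nat_lit 298) (B (L (nat_lit 266) ln11_12_7 ln11_12_7_ok) (L (nat_lit 330) ln11_13_7 ln11_13_7_ok))) (M (nat_lit 300) (B (L (nat_lit 268) ln11_12_6 ln11_12_6_ok) (L (nat_lit 332) ln11_13_6 ln11_13_6_ok)))))))))))))))))) (B (M (nat_lit 398) (B (L (nat_lit 362) ln14_12_3 ln14_12_3_ok) (M (nat_lit 399) (B (M (nat_lit 427) (B (L (nat_lit 426) ln14_12_1 ln14_12_1_ok)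 (L (nat_lit 428) ln15_12_1 ln15_12_1_ok))) (M (nat_lit 431) (B (L (nat_lit 430) ln11_12_0 ln11_12_0_ok) (L (nat_lit 432) ln12_12_0 ln12_12_0_ok))))))) (M (nat_lit 364) (B (M (nat_lit 332) (B (L (nat_lit 300) ln12_9_4 ln12_9_4_ok) (M (nat_lit 461) (B (L (nat_lit 365) ln13_14_7 ln13_14_7_ok) (L (nat_lit 493) ln13_15_7 ln13_15_7_ok))))) (B (M (nat_lit 461) (B (L (nat_lit 493) ln13_15_7 ln13_15_7_ok) (M (nat_lit 332) (B (L (nat_lit 365) ln13_14_7 ln13_14_7_ok) (L (nat_lit 428) ln12_10_4 ln12_10_4_ok))))) (B (M (nat_lit 331) (B (M (nat_lit 299) (B (L (nat_lit 267) ln11_8_4 ln11_8_4_ok) (L (nat_lit 428) ln11_9_4 ln11_9_4_ok))) (M (nat_lit 362) (B (L (nat_lit 361) ln9_11_0 ln9_11_0_ok) (M (nat_lit 330) (B (M (nat_lit 298) (B (L (nat_lit 266) ln10_8_4 ln10_8_4_ok) (L (nat_lit 427) ln11_13_7 ln11_13_7_ok))) (M (nat_lit 329) (B (L (nat_lit 328) ln8_10_0 ln8_10_0_ok) (L (nat_lit 365) ln13_11_3 ln13_11_3_ok)))))))))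 (M (nat_lit 332) (B (L (nat_lit 300) ln12_9_4 ln12_9_4_ok) (M (nat_lit 461) (B (L (nat_lit 428) ln12_10_4 ln12_10_4_ok) (L (nat_lit 493) ln13_15_7 ln13_15_7_ok))))))))))))))
theorem c11_s14891 : Sem (nat_lit 1386334847544579281930502452632026696468783264124728123740719198963059283254184240648144927045128292788721448874933630659377233920) (nat_lit 1179363258141160341632306725042156279536843875990861651438196705158569573330946188698640789347104971132454993353317387761280135963747976830012166431717439838691268755456) (nat_lit 1179363258141160341632306725042156279536843875990861651438196705158569573330946188698640789347104971132454993353317387761280135963747976830012166431717439838691268755456) :=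
  sem_of_chk (M (nat_lit 395) (B (M (nat_lit 430) (B (L (nat_lit 394) ln10_12_0 ln10_12_0_ok) (M (nat_lit 431) (B (L (nat_lit 428) ln15_13_3 ln15_13_3_ok) (L (nat_lit 432) ln16_13_3 ln16_13_3_ok))))) (B c11_n14890 (B (M (nat_lit 430) (B (L (nat_lit 394) ln10_12_0 ln10_12_0_ok) (M (nat_lit 431) (B (L (nat_lit 398) ln11_12_0 ln11_12_0_ok) (L (nat_lit 432) ln16_13_3 ln16_13_3_ok))))) (M (nat_lit 394) (B (M (nat_lit 393) (B (L (nat_lit 428) ln9_12_0 ln9_12_0_ok) (M (nat_lit 425) (B (L (nat_lit 424) ln12_12_1 ln12_12_1_ok) (L (nat_lit 426) ln13_12_1 ln13_12_1_ok))))) (B (M (nat_lit 398) (B (M (nat_lit 362) (B (L (nat_lit 361) ln13_12_3 ln13_12_3_ok) (L (nat_lit 363) ln14_12_3 ln14_12_3_ok))) (M (nat_lit 426) (B (L (nat_lit 425) ln13_12_1 ln13_12_1_ok) (L (nat_lit 427) ln14_12_1 ln14_12_1_ok))))) (M (nat_lit 393) (B (L (nat_lit 428) ln9_12_0 ln9_12_0_ok) (M (nat_lit 361) (B (L (nat_lit 360) ln12_12_3 ln12_12_3_ok)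 (L (nat_lit 362) ln13_12_3 ln13_12_3_ok)))))))))))) (nat_lit 1386334847544579281930502452632026696468783264124728123740719198963059283254184240648144927045128292788721448874933630659377233920) (nat_lit 1179363258141160341632306725042156279536843875990861651438196705158569573330946188698640789347104971132454993353317387761280135963747976830012166431717439838691268755456) (nat_lit 1179363258141160341632306725042156279536843875990861651438196705158569573330946188698640789347104971132454993353317387761280135963747976830012166431717439838691268755456) (by decide +kernel)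
theorem c11_s14939 : Sem (nat_lit 1386334847625274590620718346058774170593877385197531429766632433739017388146079478836171214377304710078725756107305604783525593088) (nat_lit 58968162901566178984198885437224092351078758186916975846674169877488640049594331468941179080071512696502704968521310927425946516885056755446525871303897306329780322304) (nat_lit 58968162901566178984198885437224092351078758186916975846674169877488640049594331468941179080071512696502704968521310927425946516885056755446525871303897306329780322304) :=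
  sem_of_chk (M (nat_lit 427) (B (M (nat_lit 426) (B (L (nat_lit 398) ln14_12_1 ln14_12_1_ok) (M (nat_lit 425) (B (L (nat_lit 424) ln8_13_2 ln8_13_2_ok) (L (nat_lit 428) ln9_13_2 ln9_13_2_ok))))) (B (M (nat_lit 459) (B (M (nat_lit 364) (B (L (nat_lit 491) ln11_15_6 ln11_15_6_ok) (M (nat_lit 332) (B (L (nat_lit 300) ln12_9_5 ln12_9_5_ok) (L (nat_lit 428) ln12_10_5 ln12_10_5_ok))))) (B (M (nat_lit 364) (B (L (nat_lit 491) ln11_15_6 ln11_15_6_ok) (M (nat_lit 332) (B (L (nat_lit 363) ln11_14_6 ln11_14_6_ok) (L (nat_lit 428) ln12_10_5 ln12_10_5_ok))))) (B (M (nat_lit 458) (B (M (nat_lit 490) (B (L (nat_lit 363) ln11_11_5 ln11_11_5_ok) (M (nat_lit 522) (B (L (nat_lit 426) ln10_16_6 ln10_16_6_ok) (L (nat_lit 491) ln11_12_5 ln11_12_5_ok))))) (B (M (nat_lit 428) (B (L (nat_lit 430) ln14_13_1 ln14_13_1_ok) (M (nat_lit 426) (B (L (nat_lit 425) ln9_13_2 ln9_13_2_ok) (L (nat_lit 457) ln13_13_1 ln13_13_1_ok)))))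 (M (nat_lit 490) (B (L (nat_lit 363) ln11_11_5 ln11_11_5_ok) (M (nat_lit 491) (B (L (nat_lit 364) ln11_15_6 ln11_15_6_ok) (L (nat_lit 522) ln11_12_5 ln11_12_5_ok)))))))) (B (M (nat_lit 458) (B (M (nat_lit 490) (B (L (nat_lit 363) ln11_11_5 ln11_11_5_ok) (M (nat_lit 522) (B (L (nat_lit 426) ln10_16_6 ln10_16_6_ok) (L (nat_lit 491) ln11_12_5 ln11_12_5_ok))))) (B (M (nat_lit 428) (B (L (nat_lit 430) ln14_13_1 ln14_13_1_ok) (M (nat_lit 426) (B (L (nat_lit 425) ln9_13_2 ln9_13_2_ok) (L (nat_lit 457) ln13_13_1 ln13_13_1_ok))))) (M (nat_lit 490) (B (L (nat_lit 363) ln11_11_5 ln11_11_5_ok) (M (nat_lit 522) (B (L (nat_lit 491) ln11_12_5 ln11_12_5_ok) (L (nat_lit 554) ln10_17_6 ln10_17_6_ok)))))))) (B (M (nat_lit 364) (B (L (nat_lit 491) ln11_15_6 ln11_15_6_ok) (M (nat_lit 332) (B (L (nat_lit 300) ln12_9_5 ln12_9_5_ok) (L (nat_lit 363) ln11_14_6 ln11_14_6_ok))))) (M (nat_lit 363) (B (M (nat_lit 364) (B (L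 (nat_lit 332) ln11_14_6 ln11_14_6_ok) (M (nat_lit 362) (B (L (nat_lit 330) ln11_14_7 ln11_14_7_ok) (L (nat_lit 361) ln9_11_0 ln9_11_0_ok))))) (B (M (nat_lit 331) (B (M (nat_lit 332) (B (L (nat_lit 300) ln11_13_6 ln11_13_6_ok) (L (nat_lit 364) ln11_14_6 ln11_14_6_ok))) (M (nat_lit 458) (B (L (nat_lit 426) ln11_10_5 ln11_10_5_ok) (L (nat_lit 490) ln11_11_5 ln11_11_5_ok))))) (M (nat_lit 331) (B (M (nat_lit 330) (B (L (nat_lit 298) ln11_13_7 ln11_13_7_ok) (L (nat_lit 362) ln11_14_7 ln11_14_7_ok))) (M (nat_lit 458) (B (L (nat_lit 426) ln11_10_5 ln11_10_5_ok) (L (nat_lit 490) ln11_11_5 ln11_11_5_ok)))))))))))))) (B (M (nat_lit 398) (B (L (nat_lit 426) ln14_12_1 ln14_12_1_ok) (M (nat_lit 399) (B (L (nat_lit 428) ln15_12_1 ln15_12_1_ok) (M (nat_lit 363) (B (L (nat_lit 362) ln14_12_3 ln14_12_3_ok) (L (nat_lit 364) ln15_12_3 ln15_12_3_ok))))))) (B (M (nat_lit 363) (B (M (nat_lit 398) (B (L (nat_lit 362) ln14_12_3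 ln14_12_3_ok) (M (nat_lit 399) (B (L (nat_lit 364) ln15_12_3 ln15_12_3_ok) (L (nat_lit 428) ln15_12_1 ln15_12_1_ok))))) (B (M (nat_lit 430) (B (M (nat_lit 431) (B (L (nat_lit 398) ln11_12_0 ln11_12_0_ok) (L (nat_lit 428) ln15_13_3 ln15_13_3_ok))) (B (M (nat_lit 431) (B (L (nat_lit 428) ln15_13_3 ln15_13_3_ok) (L (nat_lit 432) ln16_13_3 ln16_13_3_ok))) (B (M (nat_lit 431) (B (L (nat_lit 398) ln11_12_0 ln11_12_0_ok) (L (nat_lit 432) ln16_13_3 ln16_13_3_ok))) (M (nat_lit 459) (B (M (nat_lit 364) (B (L (nat_lit 332) ln11_14_6 ln11_14_6_ok) (L (nat_lit 491) ln11_15_6 ln11_15_6_ok))) (M (nat_lit 458) (B (L (nat_lit 490) ln11_11_5 ln11_11_5_ok) (L (nat_lit 428) ln14_13_1 ln14_13_1_ok))))))))) (B (M (nat_lit 398) (B (L (nat_lit 362) ln14_12_3 ln14_12_3_ok) (M (nat_lit 399) (B (L (nat_lit 428) ln15_12_1 ln15_12_1_ok) (M (nat_lit 431) (B (L (nat_lit 430) ln11_12_0 ln11_12_0_ok) (L (nat_lit 432) ln12_12_0 ln12_12_0_ok)))))))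 (B (M (nat_lit 364) (B (M (nat_lit 332) (B (L (nat_lit 300) ln12_9_5 ln12_9_5_ok) (L (nat_lit 459) ln11_14_6 ln11_14_6_ok))) (B (M (nat_lit 459) (B (L (nat_lit 332) ln11_14_6 ln11_14_6_ok) (L (nat_lit 491) ln11_15_6 ln11_15_6_ok))) (B (M (nat_lit 459) (B (L (nat_lit 491) ln11_15_6 ln11_15_6_ok) (M (nat_lit 362) (B (L (nat_lit 330) ln11_14_7 ln11_14_7_ok) (L (nat_lit 361) ln9_11_0 ln9_11_0_ok))))) (M (nat_lit 332) (B (L (nat_lit 300) ln12_9_5 ln12_9_5_ok) (M (nat_lit 461) (B (L (nat_lit 428) ln12_10_4 ln12_10_4_ok) (L (nat_lit 493) ln13_15_7 ln13_15_7_ok))))))))) (M (nat_lit 364) (B (M (nat_lit 332) (B (L (nat_lit 300) ln12_9_5 ln12_9_5_ok) (L (nat_lit 459) ln11_14_6 ln11_14_6_ok))) (M (nat_lit 398) (B (L (nat_lit 362) ln14_12_3 ln14_12_3_ok) (L (nat_lit 399) ln15_12_3 ln15_12_3_ok)))))))))) (M (nat_lit 364) (B (M (nat_lit 332) (B (L (nat_lit 300) ln12_9_5 ln12_9_5_ok) (M (nat_lit 459) (B (L (nat_lit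 363) ln11_14_6 ln11_14_6_ok) (L (nat_lit 491) ln11_15_6 ln11_15_6_ok))))) (B (M (nat_lit 398) (B (L (nat_lit 426) ln14_12_1 ln14_12_1_ok) (M (nat_lit 363) (B (L (nat_lit 362) ln14_12_3 ln14_12_3_ok) (L (nat_lit 399) ln15_12_3 ln15_12_3_ok))))) (M (nat_lit 332) (B (L (nat_lit 300) ln12_9_5 ln12_9_5_ok) (M (nat_lit 461) (B (L (nat_lit 365) ln13_14_7 ln13_14_7_ok) (L (nat_lit 493) ln13_15_7 ln13_15_7_ok))))))))))))) (nat_lit 1386334847625274590620718346058774170593877385197531429766632433739017388146079478836171214377304710078725756107305604783525593088) (nat_lit 58968162901566178984198885437224092351078758186916975846674169877488640049594331468941179080071512696502704968521310927425946516885056755446525871303897306329780322304) (nat_lit 58968162901566178984198885437224092351078758186916975846674169877488640049594331468941179080071512696502704968521310927425946516885056755446525871303897306329780322304)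 (by decide +kernel)
theorem c11_s14941 : Sem (nat_lit 1386334847383188664550070665778531748218595021979121511688892729411143073470393764272092352380775458208712834410189682411080515584) (nat_lit 1238331421070185711336145644591817936559067467058367342885100125600371927333778028616082039712870922422469499483450613261066349218304654998186424834073051368707703439360) (nat_lit 1238331421070185711336145644591817936559067467058367342885100125600371927333778028616082039712870922422469499483450613261066349218304654998186424834073051368707703439360) :=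
  sem_of_chk (M (nat_lit 396) (B (M (nat_lit 395) (B (M (nat_lit 430) (B (L (nat_lit 394) ln10_12_0 ln10_12_0_ok) (M (nat_lit 431) (B (L (nat_lit 428) ln15_13_3 ln15_13_3_ok) (L (nat_lit 432) ln16_13_3 ln16_13_3_ok))))) (B (M (nat_lit 427) (B (M (nat_lit 426) (B (L (nat_lit 398) ln14_12_1 ln14_12_1_ok) (M (nat_lit 425) (B (L (nat_lit 424) ln8_13_2 ln8_13_2_ok) (L (nat_lit 428) ln9_13_2 ln9_13_2_ok))))) (B (M (nat_lit 459) (B (M (nat_lit 364) (B (L (nat_lit 491) ln11_15_6 ln11_15_6_ok) (M (nat_lit 332) (B (L (nat_lit 300) ln12_9_5 ln12_9_5_ok) (L (nat_lit 428) ln12_10_5 ln12_10_5_ok))))) (B (M (nat_lit 364) (B (L (nat_lit 491) ln11_15_6 ln11_15_6_ok) (M (nat_lit 332) (B (L (nat_lit 363) ln11_14_6 ln11_14_6_ok) (L (nat_lit 428) ln12_10_5 ln12_10_5_ok))))) (B (M (nat_lit 428) (B (M (nat_lit 491) (B (L (nat_lit 364) ln11_15_6 ln11_15_6_ok) (L (nat_lit 523) ln11_16_6 ln11_16_6_ok))) (M (nat_lit 430) (B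 (L (nat_lit 431) ln15_13_3 ln15_13_3_ok) (L (nat_lit 458) ln14_13_1 ln14_13_1_ok))))) (B (M (nat_lit 428) (B (M (nat_lit 430) (B (L (nat_lit 431) ln15_13_3 ln15_13_3_ok) (L (nat_lit 458) ln14_13_1 ln14_13_1_ok))) (M (nat_lit 492) (B (M (nat_lit 460) (B (L (nat_lit 363) ln12_15_7 ln12_15_7_ok) (L (nat_lit 365) ln12_15_6 ln12_15_6_ok))) (M (nat_lit 491) (B (L (nat_lit 524) ln11_12_4 ln11_12_4_ok) (L (nat_lit 523) ln11_16_6 ln11_16_6_ok))))))) (B (M (nat_lit 364) (B (L (nat_lit 491) ln11_15_6 ln11_15_6_ok) (M (nat_lit 332) (B (L (nat_lit 300) ln12_9_5 ln12_9_5_ok) (L (nat_lit 363) ln11_14_6 ln11_14_6_ok))))) (M (nat_lit 363) (B (M (nat_lit 364) (B (L (nat_lit 332) ln11_14_6 ln11_14_6_ok) (M (nat_lit 362) (B (L (nat_lit 330) ln11_14_7 ln11_14_7_ok) (L (nat_lit 361) ln9_11_0 ln9_11_0_ok))))) (M (nat_lit 428) (B (M (nat_lit 331) (B (L (nat_lit 299) ln11_9_4 ln11_9_4_ok) (L (nat_lit 460) ln11_10_4 ln11_10_4_ok)))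 (M (nat_lit 458) (B (L (nat_lit 490) ln11_11_5 ln11_11_5_ok) (L (nat_lit 430) ln14_13_1 ln14_13_1_ok))))))))))))) (M (nat_lit 364) (B (M (nat_lit 332) (B (L (nat_lit 300) ln12_9_5 ln12_9_5_ok) (M (nat_lit 459) (B (L (nat_lit 363) ln11_14_6 ln11_14_6_ok) (L (nat_lit 491) ln11_15_6 ln11_15_6_ok))))) (B (M (nat_lit 398) (B (L (nat_lit 426) ln14_12_1 ln14_12_1_ok) (M (nat_lit 363) (B (L (nat_lit 362) ln14_12_3 ln14_12_3_ok) (L (nat_lit 399) ln15_12_3 ln15_12_3_ok))))) (M (nat_lit 332) (B (L (nat_lit 300) ln12_9_5 ln12_9_5_ok) (M (nat_lit 461) (B (L (nat_lit 365) ln13_14_7 ln13_14_7_ok) (L (nat_lit 493) ln13_15_7 ln13_15_7_ok))))))))))) (B (M (nat_lit 430) (B (L (nat_lit 394) ln10_12_0 ln10_12_0_ok) (M (nat_lit 431) (B (L (nat_lit 398) ln11_12_0 ln11_12_0_ok) (L (nat_lit 432) ln16_13_3 ln16_13_3_ok))))) (M (nat_lit 394) (B (M (nat_lit 393) (B (L (nat_lit 428) ln9_12_0 ln9_12_0_ok) (M (nat_lit 425) (B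 (L (nat_lit 424) ln12_12_1 ln12_12_1_ok) (L (nat_lit 426) ln13_12_1 ln13_12_1_ok))))) (B (M (nat_lit 398) (B (M (nat_lit 362) (B (L (nat_lit 361) ln13_12_3 ln13_12_3_ok) (L (nat_lit 363) ln14_12_3 ln14_12_3_ok))) (M (nat_lit 426) (B (L (nat_lit 425) ln13_12_1 ln13_12_1_ok) (L (nat_lit 427) ln14_12_1 ln14_12_1_ok))))) (M (nat_lit 393) (B (L (nat_lit 428) ln9_12_0 ln9_12_0_ok) (M (nat_lit 361) (B (L (nat_lit 360) ln12_12_3 ln12_12_3_ok) (L (nat_lit 362) ln13_12_3 ln13_12_3_ok)))))))))))) (B (M (nat_lit 395) (B (M (nat_lit 430) (B (L (nat_lit 394) ln10_12_0 ln10_12_0_ok) (M (nat_lit 431) (B (L (nat_lit 398) ln11_12_0 ln11_12_0_ok) (L (nat_lit 432) ln16_13_3 ln16_13_3_ok))))) (B (M (nat_lit 427) (B (M (nat_lit 426) (B (L (nat_lit 398) ln14_12_1 ln14_12_1_ok) (M (nat_lit 425) (B (L (nat_lit 424) ln8_13_2 ln8_13_2_ok) (L (nat_lit 428) ln9_13_2 ln9_13_2_ok))))) (B (M (nat_lit 459) (B (M (nat_lit 364) (B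 (L (nat_lit 491) ln11_15_6 ln11_15_6_ok) (M (nat_lit 332) (B (L (nat_lit 300) ln12_9_5 ln12_9_5_ok) (L (nat_lit 428) ln12_10_5 ln12_10_5_ok))))) (B (M (nat_lit 364) (B (L (nat_lit 491) ln11_15_6 ln11_15_6_ok) (M (nat_lit 332) (B (L (nat_lit 363) ln11_14_6 ln11_14_6_ok) (L (nat_lit 428) ln12_10_5 ln12_10_5_ok))))) (B (M (nat_lit 428) (B (M (nat_lit 491) (B (L (nat_lit 364) ln11_15_6 ln11_15_6_ok) (L (nat_lit 523) ln11_16_6 ln11_16_6_ok))) (M (nat_lit 430) (B (L (nat_lit 431) ln15_13_3 ln15_13_3_ok) (L (nat_lit 458) ln14_13_1 ln14_13_1_ok))))) (B (M (nat_lit 428) (B (M (nat_lit 430) (B (L (nat_lit 431) ln15_13_3 ln15_13_3_ok) (L (nat_lit 458) ln14_13_1 ln14_13_1_ok))) (M (nat_lit 492) (B (M (nat_lit 460) (B (L (nat_lit 363) ln12_15_7 ln12_15_7_ok) (L (nat_lit 365) ln12_15_6 ln12_15_6_ok))) (M (nat_lit 491) (B (L (nat_lit 524) ln11_12_4 ln11_12_4_ok) (L (nat_lit 523) ln11_16_6 ln11_16_6_ok))))))) (B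 (M (nat_lit 364) (B (L (nat_lit 491) ln11_15_6 ln11_15_6_ok) (M (nat_lit 332) (B (L (nat_lit 300) ln12_9_5 ln12_9_5_ok) (L (nat_lit 363) ln11_14_6 ln11_14_6_ok))))) (M (nat_lit 363) (B (M (nat_lit 364) (B (L (nat_lit 332) ln11_14_6 ln11_14_6_ok) (M (nat_lit 362) (B (L (nat_lit 330) ln11_14_7 ln11_14_7_ok) (L (nat_lit 361) ln9_11_0 ln9_11_0_ok))))) (M (nat_lit 428) (B (M (nat_lit 460) (B (L (nat_lit 331) ln11_10_4 ln11_10_4_ok) (L (nat_lit 492) ln12_15_7 ln12_15_7_ok))) (M (nat_lit 430) (B (L (nat_lit 431) ln15_13_3 ln15_13_3_ok) (L (nat_lit 458) ln14_13_1 ln14_13_1_ok))))))))))))) (M (nat_lit 364) (B (M (nat_lit 332) (B (L (nat_lit 300) ln12_9_5 ln12_9_5_ok) (M (nat_lit 459) (B (L (nat_lit 363) ln11_14_6 ln11_14_6_ok) (L (nat_lit 491) ln11_15_6 ln11_15_6_ok))))) (B (M (nat_lit 398) (B (L (nat_lit 426) ln14_12_1 ln14_12_1_ok) (M (nat_lit 363) (B (L (nat_lit 362) ln14_12_3 ln14_12_3_ok) (L (nat_lit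 399) ln15_12_3 ln15_12_3_ok))))) (M (nat_lit 332) (B (L (nat_lit 300) ln12_9_5 ln12_9_5_ok) (M (nat_lit 461) (B (L (nat_lit 365) ln13_14_7 ln13_14_7_ok) (L (nat_lit 493) ln13_15_7 ln13_15_7_ok))))))))))) (B (M (nat_lit 430) (B (L (nat_lit 394) ln10_12_0 ln10_12_0_ok) (M (nat_lit 431) (B (L (nat_lit 428) ln15_13_3 ln15_13_3_ok) (L (nat_lit 432) ln16_13_3 ln16_13_3_ok))))) (M (nat_lit 394) (B (M (nat_lit 393) (B (L (nat_lit 428) ln9_12_0 ln9_12_0_ok) (M (nat_lit 425) (B (L (nat_lit 424) ln12_12_1 ln12_12_1_ok) (L (nat_lit 426) ln13_12_1 ln13_12_1_ok))))) (B (M (nat_lit 398) (B (M (nat_lit 362) (B (L (nat_lit 361) ln13_12_3 ln13_12_3_ok) (L (nat_lit 363) ln14_12_3 ln14_12_3_ok))) (M (nat_lit 426) (B (L (nat_lit 425) ln13_12_1 ln13_12_1_ok) (L (nat_lit 427) ln14_12_1 ln14_12_1_ok))))) (M (nat_lit 393) (B (L (nat_lit 428) ln9_12_0 ln9_12_0_ok) (M (nat_lit 361) (B (L (nat_lit 360) ln12_12_3 ln12_12_3_ok)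 (L (nat_lit 362) ln13_12_3 ln13_12_3_ok)))))))))))) (B c11_n13776 (B (M (nat_lit 395) (B (M (nat_lit 430) (B (L (nat_lit 394) ln10_12_0 ln10_12_0_ok) (M (nat_lit 431) (B (L (nat_lit 428) ln15_13_3 ln15_13_3_ok) (L (nat_lit 432) ln16_13_3 ln16_13_3_ok))))) (B (M (nat_lit 430) (B (M (nat_lit 431) (B (L (nat_lit 398) ln11_12_0 ln11_12_0_ok) (L (nat_lit 428) ln15_13_3 ln15_13_3_ok))) (B (M (nat_lit 431) (B (L (nat_lit 428) ln15_13_3 ln15_13_3_ok) (L (nat_lit 432) ln16_13_3 ln16_13_3_ok))) (B (M (nat_lit 431) (B (L (nat_lit 398) ln11_12_0 ln11_12_0_ok) (L (nat_lit 432) ln16_13_3 ln16_13_3_ok))) (M (nat_lit 364) (B (M (nat_lit 332) (B (L (nat_lit 300) ln12_9_4 ln12_9_4_ok) (M (nat_lit 461) (B (L (nat_lit 428) ln12_10_4 ln12_10_4_ok) (L (nat_lit 493) ln13_15_7 ln13_15_7_ok))))) (B (M (nat_lit 461) (B (L (nat_lit 493) ln13_15_7 ln13_15_7_ok) (M (nat_lit 332) (B (L (nat_lit 365) ln13_14_7 ln13_14_7_ok) (L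 (nat_lit 428) ln12_10_4 ln12_10_4_ok))))) (B (M (nat_lit 427) (B (M (nat_lit 398) (B (L (nat_lit 426) ln14_12_1 ln14_12_1_ok) (M (nat_lit 363) (B (L (nat_lit 362) ln14_12_3 ln14_12_3_ok) (L (nat_lit 399) ln15_12_3 ln15_12_3_ok))))) (B (M (nat_lit 398) (B (L (nat_lit 426) ln14_12_1 ln14_12_1_ok) (M (nat_lit 399) (B (L (nat_lit 363) ln15_12_3 ln15_12_3_ok) (L (nat_lit 428) ln15_12_1 ln15_12_1_ok))))) (B (M (nat_lit 428) (B (M (nat_lit 398) (B (L (nat_lit 426) ln14_12_1 ln14_12_1_ok) (L (nat_lit 399) ln15_12_1 ln15_12_1_ok))) (M (nat_lit 459) (B (L (nat_lit 491) ln11_15_6 ln11_15_6_ok) (L (nat_lit 458) ln14_13_1 ln14_13_1_ok))))) (M (nat_lit 459) (B (L (nat_lit 491) ln11_15_6 ln11_15_6_ok) (M (nat_lit 458) (B (L (nat_lit 428) ln14_13_1 ln14_13_1_ok) (M (nat_lit 461) (B (L (nat_lit 493) ln13_15_7 ln13_15_7_ok) (L (nat_lit 460) ln10_14_2 ln10_14_2_ok))))))))))) (B (M (nat_lit 332) (B (L (nat_lit 300)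 ln12_9_4 ln12_9_4_ok) (M (nat_lit 461) (B (L (nat_lit 365) ln13_14_7 ln13_14_7_ok) (L (nat_lit 493) ln13_15_7 ln13_15_7_ok))))) (M (nat_lit 427) (B (M (nat_lit 398) (B (L (nat_lit 426) ln14_12_1 ln14_12_1_ok) (M (nat_lit 363) (B (L (nat_lit 362) ln14_12_3 ln14_12_3_ok) (L (nat_lit 399) ln15_12_3 ln15_12_3_ok))))) (B (M (nat_lit 398) (B (L (nat_lit 426) ln14_12_1 ln14_12_1_ok) (M (nat_lit 399) (B (L (nat_lit 363) ln15_12_3 ln15_12_3_ok) (L (nat_lit 428) ln15_12_1 ln15_12_1_ok))))) (M (nat_lit 332) (B (L (nat_lit 300) ln12_9_5 ln12_9_5_ok) (M (nat_lit 459) (B (L (nat_lit 428) ln12_10_5 ln12_10_5_ok) (L (nat_lit 491) ln11_15_6 ln11_15_6_ok))))))))))))))))) (B (M (nat_lit 430) (B (L (nat_lit 394) ln10_12_0 ln10_12_0_ok) (M (nat_lit 431) (B (L (nat_lit 398) ln11_12_0 ln11_12_0_ok) (L (nat_lit 432) ln16_13_3 ln16_13_3_ok))))) (M (nat_lit 394) (B (M (nat_lit 393) (B (L (nat_lit 428) ln9_12_0 ln9_12_0_ok)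 (M (nat_lit 425) (B (L (nat_lit 424) ln12_12_1 ln12_12_1_ok) (L (nat_lit 426) ln13_12_1 ln13_12_1_ok))))) (B (M (nat_lit 398) (B (M (nat_lit 362) (B (L (nat_lit 361) ln13_12_3 ln13_12_3_ok) (L (nat_lit 363) ln14_12_3 ln14_12_3_ok))) (M (nat_lit 426) (B (L (nat_lit 425) ln13_12_1 ln13_12_1_ok) (L (nat_lit 427) ln14_12_1 ln14_12_1_ok))))) (M (nat_lit 393) (B (L (nat_lit 428) ln9_12_0 ln9_12_0_ok) (M (nat_lit 361) (B (L (nat_lit 360) ln12_12_3 ln12_12_3_ok) (L (nat_lit 362) ln13_12_3 ln13_12_3_ok)))))))))))) (B (M (nat_lit 395) (B (M (nat_lit 430) (B (L (nat_lit 394) ln10_12_0 ln10_12_0_ok) (M (nat_lit 431) (B (L (nat_lit 398) ln11_12_0 ln11_12_0_ok) (L (nat_lit 432) ln16_13_3 ln16_13_3_ok))))) (B (M (nat_lit 398) (B (M (nat_lit 399) (B (M (nat_lit 363) (B (L (nat_lit 362) ln14_12_3 ln14_12_3_ok) (L (nat_lit 364) ln15_12_3 ln15_12_3_ok))) (M (nat_lit 427) (B (L (nat_lit 426) ln14_12_1 ln14_12_1_ok)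 (L (nat_lit 428) ln15_12_1 ln15_12_1_ok))))) (B (M (nat_lit 399) (B (M (nat_lit 427) (B (L (nat_lit 426) ln14_12_1 ln14_12_1_ok) (L (nat_lit 428) ln15_12_1 ln15_12_1_ok))) (M (nat_lit 431) (B (L (nat_lit 430) ln11_12_0 ln11_12_0_ok) (L (nat_lit 432) ln12_12_0 ln12_12_0_ok))))) (B (M (nat_lit 428) (B (M (nat_lit 427) (B (L (nat_lit 426) ln14_12_1 ln14_12_1_ok) (M (nat_lit 363) (B (L (nat_lit 362) ln14_12_3 ln14_12_3_ok) (M (nat_lit 331) (B (L (nat_lit 299) ln11_9_4 ln11_9_4_ok) (L (nat_lit 460) ln11_10_4 ln11_10_4_ok))))))) (B (M (nat_lit 427) (B (L (nat_lit 426) ln14_12_1 ln14_12_1_ok) (M (nat_lit 363) (B (L (nat_lit 362) ln14_12_3 ln14_12_3_ok) (M (nat_lit 460) (B (L (nat_lit 331) ln11_10_4 ln11_10_4_ok) (L (nat_lit 492) ln12_15_7 ln12_15_7_ok))))))) (B (M (nat_lit 427) (B (L (nat_lit 426) ln14_12_1 ln14_12_1_ok) (M (nat_lit 459) (B (M (nat_lit 491) (B (L (nat_lit 364) ln11_15_6 ln11_15_6_ok) (L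 (nat_lit 523) ln11_16_6 ln11_16_6_ok))) (M (nat_lit 430) (B (L (nat_lit 431) ln11_12_0 ln11_12_0_ok) (L (nat_lit 458) ln14_13_1 ln14_13_1_ok))))))) (M (nat_lit 363) (B (L (nat_lit 362) ln14_12_3 ln14_12_3_ok) (M (nat_lit 460) (B (L (nat_lit 492) ln12_15_7 ln12_15_7_ok) (M (nat_lit 331) (B (L (nat_lit 299) ln11_9_4 ln11_9_4_ok) (L (nat_lit 364) ln12_14_7 ln12_14_7_ok))))))))))) (M (nat_lit 399) (B (M (nat_lit 363) (B (L (nat_lit 362) ln14_12_3 ln14_12_3_ok) (L (nat_lit 364) ln15_12_3 ln15_12_3_ok))) (M (nat_lit 431) (B (L (nat_lit 430) ln11_12_0 ln11_12_0_ok) (L (nat_lit 432) ln12_12_0 ln12_12_0_ok))))))))) (B (M (nat_lit 430) (B (L (nat_lit 394) ln10_12_0 ln10_12_0_ok) (M (nat_lit 431) (B (L (nat_lit 428) ln15_13_3 ln15_13_3_ok) (L (nat_lit 432) ln16_13_3 ln16_13_3_ok))))) (M (nat_lit 394) (B (M (nat_lit 393) (B (L (nat_lit 428) ln9_12_0 ln9_12_0_ok) (M (nat_lit 425) (B (L (nat_lit 424) ln12_12_1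 ln12_12_1_ok) (L (nat_lit 426) ln13_12_1 ln13_12_1_ok))))) (B (M (nat_lit 398) (B (M (nat_lit 362) (B (L (nat_lit 361) ln13_12_3 ln13_12_3_ok) (L (nat_lit 363) ln14_12_3 ln14_12_3_ok))) (M (nat_lit 426) (B (L (nat_lit 425) ln13_12_1 ln13_12_1_ok) (L (nat_lit 427) ln14_12_1 ln14_12_1_ok))))) (M (nat_lit 393) (B (L (nat_lit 428) ln9_12_0 ln9_12_0_ok) (M (nat_lit 361) (B (L (nat_lit 360) ln12_12_3 ln12_12_3_ok) (L (nat_lit 362) ln13_12_3 ln13_12_3_ok)))))))))))) (B (M (nat_lit 395) (B (M (nat_lit 430) (B (L (nat_lit 394) ln10_12_0 ln10_12_0_ok) (M (nat_lit 431) (B (L (nat_lit 428) ln15_13_3 ln15_13_3_ok) (L (nat_lit 432) ln16_13_3 ln16_13_3_ok))))) (B (M (nat_lit 398) (B (M (nat_lit 399) (B (M (nat_lit 363) (B (L (nat_lit 362) ln14_12_3 ln14_12_3_ok) (L (nat_lit 364) ln15_12_3 ln15_12_3_ok))) (M (nat_lit 427) (B (L (nat_lit 426) ln14_12_1 ln14_12_1_ok) (L (nat_lit 428) ln15_12_1 ln15_12_1_ok))))) (B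 (M (nat_lit 399) (B (M (nat_lit 427) (B (L (nat_lit 426) ln14_12_1 ln14_12_1_ok) (L (nat_lit 428) ln15_12_1 ln15_12_1_ok))) (M (nat_lit 431) (B (L (nat_lit 430) ln11_12_0 ln11_12_0_ok) (L (nat_lit 432) ln12_12_0 ln12_12_0_ok))))) (B (M (nat_lit 428) (B (M (nat_lit 427) (B (L (nat_lit 426) ln14_12_1 ln14_12_1_ok) (M (nat_lit 363) (B (L (nat_lit 362) ln14_12_3 ln14_12_3_ok) (M (nat_lit 331) (B (L (nat_lit 299) ln11_9_4 ln11_9_4_ok) (L (nat_lit 460) ln11_10_4 ln11_10_4_ok))))))) (B (M (nat_lit 427) (B (L (nat_lit 426) ln14_12_1 ln14_12_1_ok) (M (nat_lit 459) (B (M (nat_lit 364) (B (L (nat_lit 332) ln12_10_5 ln12_10_5_ok) (L (nat_lit 491) ln11_15_6 ln11_15_6_ok))) (M (nat_lit 430) (B (L (nat_lit 431) ln11_12_0 ln11_12_0_ok) (L (nat_lit 458) ln14_13_1 ln14_13_1_ok))))))) (B (M (nat_lit 363) (B (L (nat_lit 362) ln14_12_3 ln14_12_3_ok) (M (nat_lit 331) (B (L (nat_lit 299) ln11_9_4 ln11_9_4_ok) (M (nat_lit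 460) (B (L (nat_lit 364) ln12_14_7 ln12_14_7_ok) (L (nat_lit 427) ln11_10_4 ln11_10_4_ok))))))) (M (nat_lit 363) (B (L (nat_lit 362) ln14_12_3 ln14_12_3_ok) (M (nat_lit 364) (B (M (nat_lit 331) (B (L (nat_lit 299) ln11_9_4 ln11_9_4_ok) (L (nat_lit 460) ln12_14_7 ln12_14_7_ok))) (M (nat_lit 332) (B (L (nat_lit 300) ln12_9_4 ln12_9_4_ok) (L (nat_lit 461) ln12_10_4 ln12_10_4_ok))))))))))) (M (nat_lit 399) (B (M (nat_lit 363) (B (L (nat_lit 362) ln14_12_3 ln14_12_3_ok) (L (nat_lit 364) ln15_12_3 ln15_12_3_ok))) (M (nat_lit 431) (B (L (nat_lit 430) ln11_12_0 ln11_12_0_ok) (L (nat_lit 432) ln12_12_0 ln12_12_0_ok))))))))) (B (M (nat_lit 430) (B (L (nat_lit 394) ln10_12_0 ln10_12_0_ok) (M (nat_lit 431) (B (L (nat_lit 398) ln11_12_0 ln11_12_0_ok) (L (nat_lit 432) ln16_13_3 ln16_13_3_ok))))) (M (nat_lit 364) (B (M (nat_lit 332) (B (L (nat_lit 300) ln12_9_4 ln12_9_4_ok) (M (nat_lit 461) (B (L (nat_lit 428)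 ln12_10_4 ln12_10_4_ok) (L (nat_lit 493) ln13_15_7 ln13_15_7_ok))))) (B (M (nat_lit 461) (B (L (nat_lit 493) ln13_15_7 ln13_15_7_ok) (M (nat_lit 332) (B (L (nat_lit 365) ln13_14_7 ln13_14_7_ok) (L (nat_lit 428) ln12_10_4 ln12_10_4_ok))))) (B (M (nat_lit 398) (B (M (nat_lit 363) (B (L (nat_lit 362) ln14_12_3 ln14_12_3_ok) (L (nat_lit 399) ln15_12_3 ln15_12_3_ok))) (B (M (nat_lit 427) (B (L (nat_lit 426) ln14_12_1 ln14_12_1_ok) (M (nat_lit 399) (B (L (nat_lit 363) ln15_12_3 ln15_12_3_ok) (L (nat_lit 428) ln15_12_1 ln15_12_1_ok))))) (M (nat_lit 394) (B (M (nat_lit 393) (B (L (nat_lit 365) ln9_12_2 ln9_12_2_ok) (L (nat_lit 428) ln9_12_0 ln9_12_0_ok))) (M (nat_lit 426) (B (L (nat_lit 425) ln13_12_1 ln13_12_1_ok) (L (nat_lit 427) ln14_12_1 ln14_12_1_ok)))))))) (M (nat_lit 332) (B (L (nat_lit 300) ln12_9_4 ln12_9_4_ok) (M (nat_lit 461) (B (L (nat_lit 365) ln13_14_7 ln13_14_7_ok) (L (nat_lit 493) ln13_15_7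 ln13_15_7_ok))))))))))))) (B c11_n13922 (B c11_n13993 (B (M (nat_lit 395) (B (M (nat_lit 430) (B (L (nat_lit 394) ln10_12_0 ln10_12_0_ok) (M (nat_lit 431) (B (L (nat_lit 398) ln11_12_0 ln11_12_0_ok) (L (nat_lit 432) ln16_13_3 ln16_13_3_ok))))) (B (M (nat_lit 430) (B (M (nat_lit 431) (B (L (nat_lit 398) ln11_12_0 ln11_12_0_ok) (L (nat_lit 428) ln15_13_3 ln15_13_3_ok))) (B (M (nat_lit 431) (B (L (nat_lit 428) ln15_13_3 ln15_13_3_ok) (L (nat_lit 432) ln16_13_3 ln16_13_3_ok))) (B (M (nat_lit 431) (B (L (nat_lit 398) ln11_12_0 ln11_12_0_ok) (L (nat_lit 432) ln16_13_3 ln16_13_3_ok))) (K (nat_lit 4159004541746089450199132530201857874030314460573348004937112014353638695951705101876145620481444288176116967068709176612499750912) (nat_lit 294840814535290085408076681269284393410960829169662825983762187517101330629557769535939268219712628387922174186908559075227881037168571334744365049726650169698465873920) (nat_lit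 294840814535290085408076681269284393410960829169662825983762187517101330629557769535939268219712628387922174186908559075227881037168571334744365049726650169698465873920) c11_s14174))))) (B (M (nat_lit 430) (B (L (nat_lit 394) ln10_12_0 ln10_12_0_ok) (M (nat_lit 431) (B (L (nat_lit 428) ln15_13_3 ln15_13_3_ok) (L (nat_lit 432) ln16_13_3 ln16_13_3_ok))))) (M (nat_lit 394) (B (M (nat_lit 393) (B (L (nat_lit 428) ln9_12_0 ln9_12_0_ok) (M (nat_lit 425) (B (L (nat_lit 424) ln12_12_1 ln12_12_1_ok) (L (nat_lit 426) ln13_12_1 ln13_12_1_ok))))) (B (M (nat_lit 398) (B (M (nat_lit 362) (B (L (nat_lit 361) ln13_12_3 ln13_12_3_ok) (L (nat_lit 363) ln14_12_3 ln14_12_3_ok))) (M (nat_lit 426) (B (L (nat_lit 425) ln13_12_1 ln13_12_1_ok) (L (nat_lit 427) ln14_12_1 ln14_12_1_ok))))) (M (nat_lit 393) (B (L (nat_lit 428) ln9_12_0 ln9_12_0_ok) (M (nat_lit 361) (B (L (nat_lit 360) ln12_12_3 ln12_12_3_ok) (L (nat_lit 362)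 ln13_12_3 ln13_12_3_ok)))))))))))) (B (K (nat_lit 1386334847544579281930502452632026696468783264124728123740719198963059283254184240648144927045128292788721448874933630659377233920) (nat_lit 82377571943944010193657821922203975041390165579488657700544160462977802493332152991648153725798019654620928530432117737462801328068577320804292752523611078656) (nat_lit 82377571943944010193657821922203975041390165579488657700544160462977802493332152991648153725798019654620928530432117737462801328068577320804292752523611078656) c11_s14198) (B c11_n14280 (B c11_n14356 (B (M (nat_lit 395) (B (M (nat_lit 430) (B (L (nat_lit 394) ln10_12_0 ln10_12_0_ok) (M (nat_lit 431) (B (L (nat_lit 428) ln15_13_3 ln15_13_3_ok) (L (nat_lit 432) ln16_13_3 ln16_13_3_ok))))) (B (K (nat_lit 1386334847625274590620718346058774170593877385197531429766632433739017388146079478836171214377304710078725756107305604783525593088) (nat_lit 294840814507830894795525109420560222043101696172084029402711025422330811625254310199785306008437369127920314218091399393607751144994920334013990516516702109994676387840)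 (nat_lit 294840814507830894795525109420560222043101696172084029402711025422330811625254310199785306008437369127920314218091399393607751144994920334013990516516702109994676387840) c11_s14585) (B (M (nat_lit 394) (B (L (nat_lit 430) ln10_12_0 ln10_12_0_ok) (M (nat_lit 393) (B (M (nat_lit 361) (B (L (nat_lit 360) ln12_12_3 ln12_12_3_ok) (L (nat_lit 362) ln13_12_3 ln13_12_3_ok))) (M (nat_lit 425) (B (L (nat_lit 424) ln12_12_1 ln12_12_1_ok) (L (nat_lit 426) ln13_12_1 ln13_12_1_ok))))))) (M (nat_lit 394) (B (M (nat_lit 393) (B (L (nat_lit 428) ln9_12_0 ln9_12_0_ok) (M (nat_lit 425) (B (L (nat_lit 424) ln12_12_1 ln12_12_1_ok) (L (nat_lit 426) ln13_12_1 ln13_12_1_ok))))) (B (M (nat_lit 426) (B (L (nat_lit 425) ln13_12_1 ln13_12_1_ok) (M (nat_lit 362) (B (L (nat_lit 361) ln13_12_3 ln13_12_3_ok) (M (nat_lit 427) (B (M (nat_lit 459) (B (L (nat_lit 330) ln10_10_4 ln10_10_4_ok) (L (nat_lit 491) ln11_15_7 ln11_15_7_ok)))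 (M (nat_lit 458) (B (M (nat_lit 363) (B (L (nat_lit 331) ln10_14_6 ln10_14_6_ok) (L (nat_lit 490) ln10_15_6 ln10_15_6_ok))) (M (nat_lit 457) (B (L (nat_lit 489) ln10_11_5 ln10_11_5_ok) (L (nat_lit 428) ln13_13_1 ln13_13_1_ok))))))))))) (B (M (nat_lit 393) (B (L (nat_lit 428) ln9_12_0 ln9_12_0_ok) (M (nat_lit 361) (B (L (nat_lit 360) ln12_12_3 ln12_12_3_ok) (L (nat_lit 362) ln13_12_3 ln13_12_3_ok))))) (M (nat_lit 393) (B (M (nat_lit 361) (B (L (nat_lit 360) ln12_12_3 ln12_12_3_ok) (L (nat_lit 362) ln13_12_3 ln13_12_3_ok))) (M (nat_lit 425) (B (L (nat_lit 424) ln12_12_1 ln12_12_1_ok) (L (nat_lit 426) ln13_12_1 ln13_12_1_ok))))))))))))) (B (K (nat_lit 1386334847544579281930502452632026696468783264124728123740719198963059283254184240648144927045128292788721448874933630659377233920) (nat_lit 164755143887888020388059926698823141926748373516741550340823570832026970473456886011069613751627022208736126339776386391573374279116157358756673132235837145088)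 (nat_lit 164755143887888020388059926698823141926748373516741550340823570832026970473456886011069613751627022208736126339776386391573374279116157358756673132235837145088) c11_s14648) (B (K (nat_lit 1386334847544579281930502452632026696468783264124728123740719198963059283254184240648144927045128292788721448874933630659377233920) (nat_lit 49548393002151812929851595685825926858256378088210093269319531649272295229868569487263361843878712911897370578199863393201292856161613438167057170432) (nat_lit 49548393002151812929851595685825926858256378088210093269319531649272295229868569487263361843878712911897370578199863393201292856161613438167057170432) c11_s14749) (B (M (nat_lit 395) (B (M (nat_lit 430) (B (L (nat_lit 394) ln10_12_0 ln10_12_0_ok) (M (nat_lit 431) (B (L (nat_lit 398) ln11_12_0 ln11_12_0_ok) (L (nat_lit 432) ln16_13_3 ln16_13_3_ok))))) (B (M (nat_lit 364) (B (M (nat_lit 332) (B (L (nat_lit 300)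 ln12_9_4 ln12_9_4_ok) (M (nat_lit 461) (B (L (nat_lit 428) ln12_10_4 ln12_10_4_ok) (L (nat_lit 493) ln13_15_7 ln13_15_7_ok))))) (B (M (nat_lit 461) (B (L (nat_lit 493) ln13_15_7 ln13_15_7_ok) (M (nat_lit 332) (B (L (nat_lit 365) ln13_14_7 ln13_14_7_ok) (L (nat_lit 428) ln12_10_4 ln12_10_4_ok))))) (B (M (nat_lit 363) (B (M (nat_lit 362) (B (L (nat_lit 361) ln9_11_0 ln9_11_0_ok) (L (nat_lit 398) ln14_12_3 ln14_12_3_ok))) (B (M (nat_lit 398) (B (L (nat_lit 362) ln14_12_3 ln14_12_3_ok) (L (nat_lit 399) ln15_12_3 ln15_12_3_ok))) (B (M (nat_lit 331) (B (M (nat_lit 299) (B (L (nat_lit 267) ln11_8_4 ln11_8_4_ok) (L (nat_lit 428) ln11_9_4 ln11_9_4_ok))) (B (M (nat_lit 428) (B (L (nat_lit 299) ln11_9_4 ln11_9_4_ok) (L (nat_lit 460) ln12_14_7 ln12_14_7_ok))) (B (M (nat_lit 427) (B (M (nat_lit 398) (B (L (nat_lit 399) ln15_12_3 ln15_12_3_ok) (L (nat_lit 426) ln14_12_1 ln14_12_1_ok))) (M (nat_lit 460) (B (L (nat_lit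 428) ln12_14_7 ln12_14_7_ok) (M (nat_lit 459) (B (L (nat_lit 492) ln11_11_4 ln11_11_4_ok) (L (nat_lit 491) ln11_15_6 ln11_15_6_ok))))))) (M (nat_lit 427) (B (M (nat_lit 398) (B (L (nat_lit 399) ln15_12_3 ln15_12_3_ok) (L (nat_lit 426) ln14_12_1 ln14_12_1_ok))) (M (nat_lit 298) (B (L (nat_lit 330) ln11_13_7 ln11_13_7_ok) (M (nat_lit 299) (B (L (nat_lit 266) ln11_12_7 ln11_12_7_ok) (L (nat_lit 267) ln11_8_4 ln11_8_4_ok))))))))))) (M (nat_lit 331) (B (M (nat_lit 428) (B (L (nat_lit 299) ln11_9_4 ln11_9_4_ok) (L (nat_lit 460) ln12_14_7 ln12_14_7_ok))) (M (nat_lit 362) (B (L (nat_lit 361) ln9_11_0 ln9_11_0_ok) (M (nat_lit 330) (B (M (nat_lit 298) (B (L (nat_lit 266) ln10_8_4 ln10_8_4_ok) (L (nat_lit 427) ln11_13_7 ln11_13_7_ok))) (M (nat_lit 329) (B (L (nat_lit 328) ln8_10_0 ln8_10_0_ok) (L (nat_lit 365) ln13_11_3 ln13_11_3_ok))))))))))))) (M (nat_lit 332) (B (L (nat_lit 300) ln12_9_4 ln12_9_4_ok) (M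 (nat_lit 461) (B (L (nat_lit 365) ln13_14_7 ln13_14_7_ok) (L (nat_lit 493) ln13_15_7 ln13_15_7_ok))))))))) (M (nat_lit 430) (B (L (nat_lit 394) ln10_12_0 ln10_12_0_ok) (M (nat_lit 431) (B (L (nat_lit 428) ln15_13_3 ln15_13_3_ok) (L (nat_lit 432) ln16_13_3 ln16_13_3_ok)))))))) (B (K (nat_lit 1386334847544579281930502452632026696468783264124728123740719198963059283254184240648144927045128292788721448874933630659377233920) (nat_lit 1179363258141160341632306725042156279536843875990861651438196705158569573330946188698640789347104971132454993353317387761280135963747976830012166431717439838691268755456) (nat_lit 1179363258141160341632306725042156279536843875990861651438196705158569573330946188698640789347104971132454993353317387761280135963747976830012166431717439838691268755456) c11_s14891) (M (nat_lit 395) (B (M (nat_lit 430) (B (L (nat_lit 394) ln10_12_0 ln10_12_0_ok) (M (nat_lit 431) (B (L (nat_lit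 398) ln11_12_0 ln11_12_0_ok) (L (nat_lit 432) ln16_13_3 ln16_13_3_ok))))) (B (K (nat_lit 1386334847625274590620718346058774170593877385197531429766632433739017388146079478836171214377304710078725756107305604783525593088) (nat_lit 58968162901566178984198885437224092351078758186916975846674169877488640049594331468941179080071512696502704968521310927425946516885056755446525871303897306329780322304) (nat_lit 58968162901566178984198885437224092351078758186916975846674169877488640049594331468941179080071512696502704968521310927425946516885056755446525871303897306329780322304) c11_s14939) (B (M (nat_lit 430) (B (L (nat_lit 394) ln10_12_0 ln10_12_0_ok) (M (nat_lit 431) (B (L (nat_lit 428) ln15_13_3 ln15_13_3_ok) (L (nat_lit 432) ln16_13_3 ln16_13_3_ok))))) (M (nat_lit 394) (B (M (nat_lit 393) (B (L (nat_lit 428) ln9_12_0 ln9_12_0_ok) (M (nat_lit 425) (B (L (nat_lit 424) ln12_12_1 ln12_12_1_ok) (L (nat_lit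 426) ln13_12_1 ln13_12_1_ok))))) (B (M (nat_lit 398) (B (M (nat_lit 362) (B (L (nat_lit 361) ln13_12_3 ln13_12_3_ok) (L (nat_lit 363) ln14_12_3 ln14_12_3_ok))) (M (nat_lit 426) (B (L (nat_lit 425) ln13_12_1 ln13_12_1_ok) (L (nat_lit 427) ln14_12_1 ln14_12_1_ok))))) (M (nat_lit 393) (B (L (nat_lit 428) ln9_12_0 ln9_12_0_ok) (M (nat_lit 361) (B (L (nat_lit 360) ln12_12_3 ln12_12_3_ok) (L (nat_lit 362) ln13_12_3 ln13_12_3_ok)))))))))))))))))))))))))))))) (nat_lit 1386334847383188664550070665778531748218595021979121511688892729411143073470393764272092352380775458208712834410189682411080515584) (nat_lit 1238331421070185711336145644591817936559067467058367342885100125600371927333778028616082039712870922422469499483450613261066349218304654998186424834073051368707703439360) (nat_lit 1238331421070185711336145644591817936559067467058367342885100125600371927333778028616082039712870922422469499483450613261066349218304654998186424834073051368707703439360)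 (by decide +kernel)
noncomputable def c11_n14966 : Cert := (M (nat_lit 396) (B (M (nat_lit 430) (B (L (nat_lit 394) ln10_12_0 ln10_12_0_ok) (M (nat_lit 431) (B (L (nat_lit 428) ln15_13_3 ln15_13_3_ok) (L (nat_lit 432) ln16_13_3 ln16_13_3_ok))))) (B (M (nat_lit 398) (B (M (nat_lit 399) (B (M (nat_lit 363) (B (L (nat_lit 362) ln14_12_3 ln14_12_3_ok) (L (nat_lit 364) ln15_12_3 ln15_12_3_ok))) (M (nat_lit 427) (B (L (nat_lit 426) ln14_12_1 ln14_12_1_ok) (L (nat_lit 428) ln15_12_1 ln15_12_1_ok))))) (B (M (nat_lit 399) (B (M (nat_lit 367) (B (L (nat_lit 366) ln11_12_2 ln11_12_2_ok) (L (nat_lit 368) ln12_12_2 ln12_12_2_ok))) (M (nat_lit 431) (B (L (nat_lit 430) ln11_12_0 ln11_12_0_ok) (L (nat_lit 432) ln12_12_0 ln12_12_0_ok))))) (M (nat_lit 428) (B (M (nat_lit 427) (B (L (nat_lit 426) ln14_12_1 ln14_12_1_ok) (M (nat_lit 363) (B (L (nat_lit 362) ln14_12_3 ln14_12_3_ok) (M (nat_lit 331) (B (L (nat_lit 299)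 ln11_9_4 ln11_9_4_ok) (L (nat_lit 460) ln11_10_4 ln11_10_4_ok))))))) (B (M (nat_lit 427) (B (L (nat_lit 426) ln14_12_1 ln14_12_1_ok) (M (nat_lit 363) (B (L (nat_lit 362) ln14_12_3 ln14_12_3_ok) (M (nat_lit 460) (B (L (nat_lit 331) ln11_10_4 ln11_10_4_ok) (L (nat_lit 492) ln12_15_7 ln12_15_7_ok))))))) (B (M (nat_lit 427) (B (L (nat_lit 426) ln14_12_1 ln14_12_1_ok) (M (nat_lit 459) (B (M (nat_lit 364) (B (L (nat_lit 332) ln12_10_5 ln12_10_5_ok) (L (nat_lit 491) ln11_15_6 ln11_15_6_ok))) (M (nat_lit 430) (B (L (nat_lit 431) ln11_12_0 ln11_12_0_ok) (L (nat_lit 458) ln14_13_1 ln14_13_1_ok))))))) (B (M (nat_lit 363) (B (L (nat_lit 362) ln14_12_3 ln14_12_3_ok) (M (nat_lit 460) (B (L (nat_lit 492) ln12_15_7 ln12_15_7_ok) (M (nat_lit 331) (B (L (nat_lit 299) ln11_9_4 ln11_9_4_ok) (L (nat_lit 427) ln11_10_4 ln11_10_4_ok))))))) (M (nat_lit 363) (B (L (nat_lit 362) ln14_12_3 ln14_12_3_ok) (M (nat_lit 460) (B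 (L (nat_lit 492) ln12_15_7 ln12_15_7_ok) (M (nat_lit 331) (B (L (nat_lit 299) ln11_9_4 ln11_9_4_ok) (L (nat_lit 364) ln12_14_7 ln12_14_7_ok))))))))))))))) (B (M (nat_lit 430) (B (L (nat_lit 394) ln10_12_0 ln10_12_0_ok) (M (nat_lit 431) (B (L (nat_lit 398) ln11_12_0 ln11_12_0_ok) (L (nat_lit 432) ln16_13_3 ln16_13_3_ok))))) (M (nat_lit 428) (B (M (nat_lit 365) (B (M (nat_lit 333) (B (L (nat_lit 301) ln13_9_5 ln13_9_5_ok) (L (nat_lit 460) ln13_10_5 ln13_10_5_ok))) (M (nat_lit 394) (B (L (nat_lit 366) ln10_12_2 ln10_12_2_ok) (L (nat_lit 393) ln9_12_0 ln9_12_0_ok))))) (B (M (nat_lit 365) (B (M (nat_lit 394) (B (L (nat_lit 366) ln10_12_2 ln10_12_2_ok) (L (nat_lit 393) ln9_12_0 ln9_12_0_ok))) (M (nat_lit 460) (B (L (nat_lit 333) ln13_10_5 ln13_10_5_ok) (L (nat_lit 492) ln12_15_6 ln12_15_6_ok))))) (B (M (nat_lit 398) (B (M (nat_lit 427) (B (L (nat_lit 426) ln14_12_1 ln14_12_1_ok) (L (nat_lit 399) ln15_12_1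 ln15_12_1_ok))) (M (nat_lit 394) (B (L (nat_lit 393) ln9_12_0 ln9_12_0_ok) (M (nat_lit 366) (B (L (nat_lit 365) ln10_12_2 ln10_12_2_ok) (L (nat_lit 367) ln11_12_2 ln11_12_2_ok))))))) (M (nat_lit 363) (B (M (nat_lit 331) (B (L (nat_lit 299) ln11_9_4 ln11_9_4_ok) (M (nat_lit 460) (B (L (nat_lit 364) ln12_14_7 ln12_14_7_ok) (L (nat_lit 492) ln12_15_7 ln12_15_7_ok))))) (B (M (nat_lit 398) (B (L (nat_lit 362) ln14_12_3 ln14_12_3_ok) (M (nat_lit 399) (B (L (nat_lit 364) ln15_12_3 ln15_12_3_ok) (L (nat_lit 427) ln15_12_1 ln15_12_1_ok))))) (M (nat_lit 398) (B (L (nat_lit 362) ln14_12_3 ln14_12_3_ok) (M (nat_lit 427) (B (L (nat_lit 426) ln14_12_1 ln14_12_1_ok) (L (nat_lit 399) ln15_12_1 ln15_12_1_ok))))))))))))))))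
theorem c11_s14988 : Sem (nat_lit 1386334847463883973240286559205279222343689143051924817714805964187101178362289002460118639712951875498717141642561656535228874752) (nat_lit 5768192136761636030085843753491123277588424290378520276363323845241464882776372319214539552608874314847322866558884093720551058276454760448) (nat_lit 5768192136761636030085843753491123277588424290378520276363323845241464882776372319214539552608874314847322866558884093720551058276454760448) :=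
  sem_of_chk (M (nat_lit 427) (B (M (nat_lit 396) (B (M (nat_lit 430) (B (L (nat_lit 394) ln10_12_0 ln10_12_0_ok) (M (nat_lit 398) (B (L (nat_lit 426) ln14_12_1 ln14_12_1_ok) (L (nat_lit 431) ln11_12_0 ln11_12_0_ok))))) (B (M (nat_lit 426) (B (L (nat_lit 398) ln14_12_1 ln14_12_1_ok) (M (nat_lit 425) (B (L (nat_lit 424) ln8_13_2 ln8_13_2_ok) (L (nat_lit 428) ln9_13_2 ln9_13_2_ok))))) (M (nat_lit 430) (B (L (nat_lit 394) ln10_12_0 ln10_12_0_ok) (M (nat_lit 431) (B (L (nat_lit 428) ln15_13_3 ln15_13_3_ok) (L (nat_lit 432) ln16_13_3 ln16_13_3_ok)))))))) (B (M (nat_lit 398) (B (M (nat_lit 426) (B (L (nat_lit 396) ln14_12_1 ln14_12_1_ok) (L (nat_lit 428) ln10_13_2 ln10_13_2_ok))) (B (M (nat_lit 428) (B (L (nat_lit 426) ln10_13_2 ln10_13_2_ok) (M (nat_lit 399) (B (L (nat_lit 400) ln16_12_1 ln16_12_1_ok) (L (nat_lit 430) ln11_13_2 ln11_13_2_ok))))) (B (M (nat_lit 399) (B (M (nat_lit 428) (B (L (nat_lit 396)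 ln15_12_1 ln15_12_1_ok) (L (nat_lit 400) ln16_12_1 ln16_12_1_ok))) (B (M (nat_lit 428) (B (L (nat_lit 400) ln16_12_1 ln16_12_1_ok) (L (nat_lit 430) ln11_13_2 ln11_13_2_ok))) (B (M (nat_lit 428) (B (L (nat_lit 396) ln15_12_1 ln15_12_1_ok) (L (nat_lit 430) ln11_13_2 ln11_13_2_ok))) (M (nat_lit 396) (B (M (nat_lit 363) (B (L (nat_lit 362) ln14_12_3 ln14_12_3_ok) (L (nat_lit 364) ln15_12_3 ln15_12_3_ok))) (M (nat_lit 431) (B (L (nat_lit 430) ln11_12_0 ln11_12_0_ok) (L (nat_lit 432) ln12_12_0 ln12_12_0_ok))))))))) (M (nat_lit 396) (B (L (nat_lit 426) ln14_12_1 ln14_12_1_ok) (M (nat_lit 399) (B (M (nat_lit 363) (B (L (nat_lit 362) ln14_12_3 ln14_12_3_ok) (L (nat_lit 364) ln15_12_3 ln15_12_3_ok))) (M (nat_lit 431) (B (L (nat_lit 430) ln11_12_0 ln11_12_0_ok) (L (nat_lit 432) ln12_12_0 ln12_12_0_ok))))))))))) (B (M (nat_lit 428) (B (M (nat_lit 398) (B (L (nat_lit 426) ln10_13_2 ln10_13_2_ok) (M (nat_lit 399)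 (B (L (nat_lit 400) ln16_12_1 ln16_12_1_ok) (L (nat_lit 430) ln11_13_2 ln11_13_2_ok))))) (B (M (nat_lit 394) (B (L (nat_lit 430) ln14_13_3 ln14_13_3_ok) (M (nat_lit 393) (B (L (nat_lit 392) ln8_12_0 ln8_12_0_ok) (L (nat_lit 426) ln13_13_3 ln13_13_3_ok))))) (B (M (nat_lit 430) (B (L (nat_lit 394) ln14_13_3 ln14_13_3_ok) (M (nat_lit 431) (B (M (nat_lit 399) (B (L (nat_lit 398) ln11_13_2 ln11_13_2_ok) (L (nat_lit 400) ln12_13_2 ln12_13_2_ok))) (M (nat_lit 459) (B (L (nat_lit 458) ln14_13_1 ln14_13_1_ok) (L (nat_lit 460) ln15_13_1 ln15_13_1_ok))))))) (M (nat_lit 426) (B (L (nat_lit 398) ln10_13_2 ln10_13_2_ok) (M (nat_lit 425) (B (M (nat_lit 393) (B (L (nat_lit 392) ln12_13_3 ln12_13_3_ok) (L (nat_lit 394) ln13_13_3 ln13_13_3_ok))) (M (nat_lit 457) (B (L (nat_lit 456) ln12_13_1 ln12_13_1_ok) (L (nat_lit 458) ln13_13_1 ln13_13_1_ok))))))))))) (B (M (nat_lit 394) (B (M (nat_lit 430) (B (L (nat_lit 396)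 ln10_12_0 ln10_12_0_ok) (L (nat_lit 428) ln14_13_3 ln14_13_3_ok))) (B (M (nat_lit 428) (B (L (nat_lit 430) ln14_13_3 ln14_13_3_ok) (M (nat_lit 393) (B (L (nat_lit 392) ln8_12_0 ln8_12_0_ok) (L (nat_lit 426) ln13_13_3 ln13_13_3_ok))))) (B (M (nat_lit 396) (B (L (nat_lit 430) ln10_12_0 ln10_12_0_ok) (M (nat_lit 393) (B (M (nat_lit 361) (B (L (nat_lit 360) ln12_12_3 ln12_12_3_ok) (L (nat_lit 362) ln13_12_3 ln13_12_3_ok))) (M (nat_lit 365) (B (L (nat_lit 364) ln9_12_2 ln9_12_2_ok) (L (nat_lit 366) ln10_12_2 ln10_12_2_ok))))))) (M (nat_lit 393) (B (M (nat_lit 428) (B (L (nat_lit 392) ln8_12_0 ln8_12_0_ok) (L (nat_lit 396) ln9_12_0 ln9_12_0_ok))) (B (M (nat_lit 428) (B (L (nat_lit 396) ln9_12_0 ln9_12_0_ok) (L (nat_lit 426) ln13_13_3 ln13_13_3_ok))) (B (M (nat_lit 428) (B (L (nat_lit 392) ln8_12_0 ln8_12_0_ok) (L (nat_lit 426) ln13_13_3 ln13_13_3_ok))) (M (nat_lit 396) (B (M (nat_lit 361) (B (L (nat_lit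 360) ln12_12_3 ln12_12_3_ok) (L (nat_lit 362) ln13_12_3 ln13_12_3_ok))) (M (nat_lit 425) (B (L (nat_lit 424) ln12_12_1 ln12_12_1_ok) (L (nat_lit 426) ln13_12_1 ln13_12_1_ok))))))))))))) (B (M (nat_lit 430) (B (M (nat_lit 394) (B (L (nat_lit 396) ln10_12_0 ln10_12_0_ok) (L (nat_lit 428) ln14_13_3 ln14_13_3_ok))) (B (M (nat_lit 431) (B (M (nat_lit 396) (B (L (nat_lit 398) ln11_12_0 ln11_12_0_ok) (L (nat_lit 428) ln15_13_3 ln15_13_3_ok))) (B (M (nat_lit 428) (B (M (nat_lit 399) (B (L (nat_lit 398) ln11_13_2 ln11_13_2_ok) (L (nat_lit 400) ln12_13_2 ln12_13_2_ok))) (M (nat_lit 459) (B (L (nat_lit 458) ln14_13_1 ln14_13_1_ok) (L (nat_lit 460) ln15_13_1 ln15_13_1_ok))))) (B (M (nat_lit 396) (B (L (nat_lit 428) ln15_13_3 ln15_13_3_ok) (L (nat_lit 432) ln16_13_3 ln16_13_3_ok))) (M (nat_lit 396) (B (L (nat_lit 398) ln11_12_0 ln11_12_0_ok) (L (nat_lit 432) ln16_13_3 ln16_13_3_ok))))))) (B (M (nat_lit 428) (B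 (L (nat_lit 394) ln14_13_3 ln14_13_3_ok) (M (nat_lit 431) (B (M (nat_lit 399) (B (L (nat_lit 398) ln11_13_2 ln11_13_2_ok) (L (nat_lit 400) ln12_13_2 ln12_13_2_ok))) (M (nat_lit 459) (B (L (nat_lit 458) ln14_13_1 ln14_13_1_ok) (L (nat_lit 460) ln15_13_1 ln15_13_1_ok))))))) (M (nat_lit 396) (B (L (nat_lit 394) ln10_12_0 ln10_12_0_ok) (M (nat_lit 431) (B (L (nat_lit 398) ln11_12_0 ln11_12_0_ok) (L (nat_lit 432) ln16_13_3 ln16_13_3_ok))))))))) (B (M (nat_lit 396) (B (M (nat_lit 426) (B (L (nat_lit 398) ln14_12_1 ln14_12_1_ok) (M (nat_lit 394) (B (L (nat_lit 425) ln13_12_1 ln13_12_1_ok) (L (nat_lit 430) ln10_12_0 ln10_12_0_ok))))) (B (M (nat_lit 398) (B (L (nat_lit 426) ln14_12_1 ln14_12_1_ok) (M (nat_lit 399) (B (M (nat_lit 363) (B (L (nat_lit 362) ln14_12_3 ln14_12_3_ok) (L (nat_lit 364) ln15_12_3 ln15_12_3_ok))) (M (nat_lit 431) (B (L (nat_lit 430) ln11_12_0 ln11_12_0_ok) (L (nat_lit 432) ln12_12_0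 ln12_12_0_ok))))))) (B (M (nat_lit 394) (B (L (nat_lit 430) ln10_12_0 ln10_12_0_ok) (M (nat_lit 393) (B (M (nat_lit 361) (B (L (nat_lit 360) ln12_12_3 ln12_12_3_ok) (L (nat_lit 362) ln13_12_3 ln13_12_3_ok))) (M (nat_lit 365) (B (L (nat_lit 364) ln9_12_2 ln9_12_2_ok) (L (nat_lit 366) ln10_12_2 ln10_12_2_ok))))))) (M (nat_lit 426) (B (L (nat_lit 398) ln14_12_1 ln14_12_1_ok) (M (nat_lit 425) (B (L (nat_lit 394) ln13_12_1 ln13_12_1_ok) (L (nat_lit 424) ln8_13_2 ln8_13_2_ok))))))))) (M (nat_lit 426) (B (M (nat_lit 398) (B (L (nat_lit 396) ln14_12_1 ln14_12_1_ok) (L (nat_lit 428) ln10_13_2 ln10_13_2_ok))) (B (M (nat_lit 428) (B (L (nat_lit 398) ln10_13_2 ln10_13_2_ok) (M (nat_lit 425) (B (M (nat_lit 393) (B (L (nat_lit 392) ln12_13_3 ln12_13_3_ok) (L (nat_lit 394) ln13_13_3 ln13_13_3_ok))) (M (nat_lit 457) (B (L (nat_lit 456) ln12_13_1 ln12_13_1_ok) (L (nat_lit 458) ln13_13_1 ln13_13_1_ok))))))) (B (M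 (nat_lit 425) (B (M (nat_lit 396) (B (L (nat_lit 394) ln13_12_1 ln13_12_1_ok) (L (nat_lit 424) ln8_13_2 ln8_13_2_ok))) (B (M (nat_lit 396) (B (L (nat_lit 424) ln8_13_2 ln8_13_2_ok) (L (nat_lit 428) ln9_13_2 ln9_13_2_ok))) (M (nat_lit 428) (B (M (nat_lit 393) (B (L (nat_lit 392) ln12_13_3 ln12_13_3_ok) (L (nat_lit 394) ln13_13_3 ln13_13_3_ok))) (M (nat_lit 457) (B (L (nat_lit 456) ln12_13_1 ln12_13_1_ok) (L (nat_lit 458) ln13_13_1 ln13_13_1_ok)))))))) (M (nat_lit 396) (B (L (nat_lit 398) ln14_12_1 ln14_12_1_ok) (M (nat_lit 425) (B (L (nat_lit 394) ln13_12_1 ln13_12_1_ok) (L (nat_lit 424) ln8_13_2 ln8_13_2_ok)))))))))))))))) (nat_lit 1386334847463883973240286559205279222343689143051924817714805964187101178362289002460118639712951875498717141642561656535228874752) (nat_lit 5768192136761636030085843753491123277588424290378520276363323845241464882776372319214539552608874314847322866558884093720551058276454760448)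 (nat_lit 5768192136761636030085843753491123277588424290378520276363323845241464882776372319214539552608874314847322866558884093720551058276454760448) (by decide +kernel)
theorem c11_s15003 : Sem (nat_lit 1386334847463883973240286559205279222343689143051924817714805964187101178362289002460118639712951875498717141642561656535228874752) (nat_lit 58968162901566178958625521310244423290305583223556202939301051585692129749930162845811833075816689955613448067754299708494234091850130162161119247048613430398715691008) (nat_lit 58968162901566178958625521310244423290305583223556202939301051585692129749930162845811833075816689955613448067754299708494234091850130162161119247048613430398715691008) :=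
  sem_of_chk (M (nat_lit 427) (B (M (nat_lit 396) (B (M (nat_lit 430) (B (L (nat_lit 394) ln10_12_0 ln10_12_0_ok) (M (nat_lit 398) (B (L (nat_lit 426) ln14_12_1 ln14_12_1_ok) (L (nat_lit 431) ln11_12_0 ln11_12_0_ok))))) (B (M (nat_lit 426) (B (L (nat_lit 398) ln14_12_1 ln14_12_1_ok) (M (nat_lit 425) (B (L (nat_lit 424) ln8_13_2 ln8_13_2_ok) (L (nat_lit 428) ln9_13_2 ln9_13_2_ok))))) (M (nat_lit 430) (B (L (nat_lit 394) ln10_12_0 ln10_12_0_ok) (M (nat_lit 431) (B (L (nat_lit 428) ln15_13_3 ln15_13_3_ok) (L (nat_lit 432) ln16_13_3 ln16_13_3_ok)))))))) (B (M (nat_lit 398) (B (M (nat_lit 426) (B (L (nat_lit 396) ln14_12_1 ln14_12_1_ok) (L (nat_lit 428) ln10_13_2 ln10_13_2_ok))) (B (M (nat_lit 428) (B (L (nat_lit 426) ln10_13_2 ln10_13_2_ok) (M (nat_lit 399) (B (L (nat_lit 400) ln16_12_1 ln16_12_1_ok) (L (nat_lit 430) ln11_13_2 ln11_13_2_ok))))) (B (M (nat_lit 399) (B (M (nat_lit 428) (B (L (nat_lit 396)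 ln15_12_1 ln15_12_1_ok) (L (nat_lit 400) ln16_12_1 ln16_12_1_ok))) (B (M (nat_lit 428) (B (L (nat_lit 400) ln16_12_1 ln16_12_1_ok) (L (nat_lit 430) ln11_13_2 ln11_13_2_ok))) (B (M (nat_lit 428) (B (L (nat_lit 396) ln15_12_1 ln15_12_1_ok) (L (nat_lit 430) ln11_13_2 ln11_13_2_ok))) (M (nat_lit 396) (B (M (nat_lit 367) (B (L (nat_lit 366) ln11_12_2 ln11_12_2_ok) (L (nat_lit 368) ln12_12_2 ln12_12_2_ok))) (M (nat_lit 431) (B (L (nat_lit 430) ln11_12_0 ln11_12_0_ok) (L (nat_lit 432) ln12_12_0 ln12_12_0_ok))))))))) (M (nat_lit 396) (B (L (nat_lit 426) ln14_12_1 ln14_12_1_ok) (M (nat_lit 399) (B (M (nat_lit 367) (B (L (nat_lit 366) ln11_12_2 ln11_12_2_ok) (L (nat_lit 368) ln12_12_2 ln12_12_2_ok))) (M (nat_lit 431) (B (L (nat_lit 430) ln11_12_0 ln11_12_0_ok) (L (nat_lit 432) ln12_12_0 ln12_12_0_ok))))))))))) (B (M (nat_lit 458) (B (M (nat_lit 428) (B (M (nat_lit 426) (B (L (nat_lit 398) ln10_13_2 ln10_13_2_ok)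 (L (nat_lit 457) ln13_13_1 ln13_13_1_ok))) (M (nat_lit 430) (B (L (nat_lit 394) ln14_13_3 ln14_13_3_ok) (L (nat_lit 459) ln14_13_1 ln14_13_1_ok))))) (B (M (nat_lit 428) (B (M (nat_lit 426) (B (L (nat_lit 398) ln10_13_2 ln10_13_2_ok) (L (nat_lit 457) ln13_13_1 ln13_13_1_ok))) (B (M (nat_lit 459) (B (L (nat_lit 430) ln14_13_1 ln14_13_1_ok) (M (nat_lit 457) (B (L (nat_lit 426) ln13_13_1 ln13_13_1_ok) (L (nat_lit 456) ln8_14_2 ln8_14_2_ok))))) (B (M (nat_lit 459) (B (L (nat_lit 430) ln14_13_1 ln14_13_1_ok) (M (nat_lit 457) (B (L (nat_lit 456) ln8_14_2 ln8_14_2_ok) (L (nat_lit 460) ln9_14_2 ln9_14_2_ok))))) (M (nat_lit 363) (B (M (nat_lit 426) (B (L (nat_lit 331) ln11_10_5 ln11_10_5_ok) (L (nat_lit 398) ln10_13_2 ln10_13_2_ok))) (M (nat_lit 459) (B (L (nat_lit 490) ln11_11_5 ln11_11_5_ok) (L (nat_lit 430) ln14_13_1 ln14_13_1_ok))))))))) (B (M (nat_lit 459) (B (M (nat_lit 490) (B (L (nat_lit 363) ln11_11_5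 ln11_11_5_ok) (M (nat_lit 522) (B (L (nat_lit 426) ln10_16_6 ln10_16_6_ok) (L (nat_lit 491) ln11_12_5 ln11_12_5_ok))))) (B (M (nat_lit 428) (B (L (nat_lit 430) ln14_13_1 ln14_13_1_ok) (M (nat_lit 457) (B (L (nat_lit 426) ln13_13_1 ln13_13_1_ok) (L (nat_lit 460) ln9_14_2 ln9_14_2_ok))))) (M (nat_lit 490) (B (L (nat_lit 363) ln11_11_5 ln11_11_5_ok) (M (nat_lit 522) (B (L (nat_lit 491) ln11_12_5 ln11_12_5_ok) (L (nat_lit 554) ln10_17_6 ln10_17_6_ok)))))))) (B (M (nat_lit 459) (B (M (nat_lit 490) (B (L (nat_lit 363) ln11_11_5 ln11_11_5_ok) (M (nat_lit 522) (B (L (nat_lit 491) ln11_12_5 ln11_12_5_ok) (L (nat_lit 554) ln10_17_6 ln10_17_6_ok))))) (M (nat_lit 428) (B (L (nat_lit 430) ln14_13_1 ln14_13_1_ok) (M (nat_lit 457) (B (L (nat_lit 456) ln8_14_2 ln8_14_2_ok) (L (nat_lit 460) ln9_14_2 ln9_14_2_ok))))))) (B (M (nat_lit 490) (B (M (nat_lit 363) (B (L (nat_lit 459) ln11_11_5 ln11_11_5_ok) (M (nat_lit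 426) (B (L (nat_lit 394) ln10_15_6 ln10_15_6_ok) (L (nat_lit 522) ln10_16_6 ln10_16_6_ok))))) (B (M (nat_lit 522) (B (L (nat_lit 426) ln10_16_6 ln10_16_6_ok) (M (nat_lit 459) (B (L (nat_lit 491) ln11_12_5 ln11_12_5_ok) (L (nat_lit 554) ln10_17_6 ln10_17_6_ok))))) (B (M (nat_lit 459) (B (L (nat_lit 363) ln11_11_5 ln11_11_5_ok) (M (nat_lit 522) (B (L (nat_lit 491) ln11_12_5 ln11_12_5_ok) (L (nat_lit 554) ln10_17_6 ln10_17_6_ok))))) (B (M (nat_lit 426) (B (L (nat_lit 522) ln10_16_6 ln10_16_6_ok) (M (nat_lit 363) (B (L (nat_lit 331) ln11_10_5 ln11_10_5_ok) (L (nat_lit 394) ln10_15_6 ln10_15_6_ok))))) (M (nat_lit 363) (B (L (nat_lit 459) ln11_11_5 ln11_11_5_ok) (M (nat_lit 426) (B (L (nat_lit 331) ln11_10_5 ln11_10_5_ok) (L (nat_lit 394) ln10_15_6 ln10_15_6_ok)))))))))) (M (nat_lit 426) (B (M (nat_lit 428) (B (L (nat_lit 398) ln10_13_2 ln10_13_2_ok) (L (nat_lit 457) ln13_13_1 ln13_13_1_ok))) (M (nat_lit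 363) (B (L (nat_lit 331) ln11_10_5 ln11_10_5_ok) (M (nat_lit 490) (B (L (nat_lit 394) ln10_15_6 ln10_15_6_ok) (L (nat_lit 522) ln10_16_6 ln10_16_6_ok))))))))))))) (B (M (nat_lit 394) (B (M (nat_lit 430) (B (L (nat_lit 396) ln10_12_0 ln10_12_0_ok) (L (nat_lit 428) ln14_13_3 ln14_13_3_ok))) (B (M (nat_lit 428) (B (L (nat_lit 430) ln14_13_3 ln14_13_3_ok) (M (nat_lit 393) (B (L (nat_lit 392) ln8_12_0 ln8_12_0_ok) (L (nat_lit 426) ln13_13_3 ln13_13_3_ok))))) (B (M (nat_lit 396) (B (L (nat_lit 430) ln10_12_0 ln10_12_0_ok) (M (nat_lit 393) (B (M (nat_lit 365) (B (L (nat_lit 364) ln9_12_2 ln9_12_2_ok) (L (nat_lit 366) ln10_12_2 ln10_12_2_ok))) (M (nat_lit 425) (B (L (nat_lit 424) ln12_12_1 ln12_12_1_ok) (L (nat_lit 426) ln13_12_1 ln13_12_1_ok))))))) (M (nat_lit 393) (B (M (nat_lit 428) (B (L (nat_lit 392) ln8_12_0 ln8_12_0_ok) (L (nat_lit 396) ln9_12_0 ln9_12_0_ok))) (B (M (nat_lit 428) (B (L (nat_lit 396)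 ln9_12_0 ln9_12_0_ok) (L (nat_lit 426) ln13_13_3 ln13_13_3_ok))) (B (M (nat_lit 428) (B (L (nat_lit 392) ln8_12_0 ln8_12_0_ok) (L (nat_lit 426) ln13_13_3 ln13_13_3_ok))) (M (nat_lit 396) (B (M (nat_lit 365) (B (L (nat_lit 364) ln9_12_2 ln9_12_2_ok) (L (nat_lit 366) ln10_12_2 ln10_12_2_ok))) (M (nat_lit 425) (B (L (nat_lit 424) ln12_12_1 ln12_12_1_ok) (L (nat_lit 426) ln13_12_1 ln13_12_1_ok))))))))))))) (B (M (nat_lit 430) (B (M (nat_lit 394) (B (L (nat_lit 396) ln10_12_0 ln10_12_0_ok) (L (nat_lit 428) ln14_13_3 ln14_13_3_ok))) (B (M (nat_lit 431) (B (M (nat_lit 396) (B (L (nat_lit 398) ln11_12_0 ln11_12_0_ok) (L (nat_lit 428) ln15_13_3 ln15_13_3_ok))) (B (M (nat_lit 428) (B (M (nat_lit 399) (B (L (nat_lit 398) ln11_13_2 ln11_13_2_ok) (L (nat_lit 400) ln12_13_2 ln12_13_2_ok))) (M (nat_lit 459) (B (L (nat_lit 458) ln14_13_1 ln14_13_1_ok) (L (nat_lit 460) ln15_13_1 ln15_13_1_ok))))) (B (M (nat_lit 396)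 (B (L (nat_lit 428) ln15_13_3 ln15_13_3_ok) (L (nat_lit 432) ln16_13_3 ln16_13_3_ok))) (M (nat_lit 396) (B (L (nat_lit 398) ln11_12_0 ln11_12_0_ok) (L (nat_lit 432) ln16_13_3 ln16_13_3_ok))))))) (B (M (nat_lit 428) (B (L (nat_lit 394) ln14_13_3 ln14_13_3_ok) (M (nat_lit 431) (B (M (nat_lit 399) (B (L (nat_lit 398) ln11_13_2 ln11_13_2_ok) (L (nat_lit 400) ln12_13_2 ln12_13_2_ok))) (M (nat_lit 459) (B (L (nat_lit 458) ln14_13_1 ln14_13_1_ok) (L (nat_lit 460) ln15_13_1 ln15_13_1_ok))))))) (M (nat_lit 396) (B (L (nat_lit 394) ln10_12_0 ln10_12_0_ok) (M (nat_lit 431) (B (L (nat_lit 398) ln11_12_0 ln11_12_0_ok) (L (nat_lit 432) ln16_13_3 ln16_13_3_ok))))))))) (B (M (nat_lit 396) (B (M (nat_lit 426) (B (L (nat_lit 398) ln14_12_1 ln14_12_1_ok) (M (nat_lit 394) (B (L (nat_lit 425) ln13_12_1 ln13_12_1_ok) (L (nat_lit 430) ln10_12_0 ln10_12_0_ok))))) (B (M (nat_lit 398) (B (L (nat_lit 426) ln14_12_1 ln14_12_1_ok)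 (M (nat_lit 399) (B (M (nat_lit 367) (B (L (nat_lit 366) ln11_12_2 ln11_12_2_ok) (L (nat_lit 368) ln12_12_2 ln12_12_2_ok))) (M (nat_lit 431) (B (L (nat_lit 430) ln11_12_0 ln11_12_0_ok) (L (nat_lit 432) ln12_12_0 ln12_12_0_ok))))))) (B (M (nat_lit 394) (B (L (nat_lit 430) ln10_12_0 ln10_12_0_ok) (M (nat_lit 393) (B (M (nat_lit 365) (B (L (nat_lit 364) ln9_12_2 ln9_12_2_ok) (L (nat_lit 366) ln10_12_2 ln10_12_2_ok))) (M (nat_lit 425) (B (L (nat_lit 424) ln12_12_1 ln12_12_1_ok) (L (nat_lit 426) ln13_12_1 ln13_12_1_ok))))))) (B (M (nat_lit 430) (B (L (nat_lit 394) ln10_12_0 ln10_12_0_ok) (M (nat_lit 431) (B (L (nat_lit 398) ln11_12_0 ln11_12_0_ok) (L (nat_lit 432) ln16_13_3 ln16_13_3_ok))))) (M (nat_lit 426) (B (L (nat_lit 398) ln14_12_1 ln14_12_1_ok) (M (nat_lit 425) (B (L (nat_lit 394) ln13_12_1 ln13_12_1_ok) (L (nat_lit 424) ln8_13_2 ln8_13_2_ok)))))))))) (M (nat_lit 426) (B (M (nat_lit 398) (B (L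 (nat_lit 396) ln14_12_1 ln14_12_1_ok) (L (nat_lit 428) ln10_13_2 ln10_13_2_ok))) (B (M (nat_lit 428) (B (L (nat_lit 398) ln10_13_2 ln10_13_2_ok) (M (nat_lit 425) (B (M (nat_lit 393) (B (L (nat_lit 392) ln12_13_3 ln12_13_3_ok) (L (nat_lit 394) ln13_13_3 ln13_13_3_ok))) (M (nat_lit 457) (B (L (nat_lit 456) ln12_13_1 ln12_13_1_ok) (L (nat_lit 458) ln13_13_1 ln13_13_1_ok))))))) (B (M (nat_lit 425) (B (M (nat_lit 396) (B (L (nat_lit 394) ln13_12_1 ln13_12_1_ok) (L (nat_lit 424) ln8_13_2 ln8_13_2_ok))) (B (M (nat_lit 396) (B (L (nat_lit 424) ln8_13_2 ln8_13_2_ok) (L (nat_lit 428) ln9_13_2 ln9_13_2_ok))) (M (nat_lit 428) (B (M (nat_lit 393) (B (L (nat_lit 392) ln12_13_3 ln12_13_3_ok) (L (nat_lit 394) ln13_13_3 ln13_13_3_ok))) (M (nat_lit 457) (B (L (nat_lit 456) ln12_13_1 ln12_13_1_ok) (L (nat_lit 458) ln13_13_1 ln13_13_1_ok)))))))) (M (nat_lit 396) (B (L (nat_lit 398) ln14_12_1 ln14_12_1_ok) (M (nat_lit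 425) (B (L (nat_lit 394) ln13_12_1 ln13_12_1_ok) (L (nat_lit 424) ln8_13_2 ln8_13_2_ok)))))))))))))))) (nat_lit 1386334847463883973240286559205279222343689143051924817714805964187101178362289002460118639712951875498717141642561656535228874752) (nat_lit 58968162901566178958625521310244423290305583223556202939301051585692129749930162845811833075816689955613448067754299708494234091850130162161119247048613430398715691008) (nat_lit 58968162901566178958625521310244423290305583223556202939301051585692129749930162845811833075816689955613448067754299708494234091850130162161119247048613430398715691008) (by decide +kernel)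
theorem c11_s15005 : Sem (nat_lit 1386334847463883973240286559205279222343689143051924817714805964187101178362289002460118639712951875498717141642561656535228874752) (nat_lit 5768192136761636030085843754374175288711385584064964980756114567534721521165900590600480957904984908290415641301234917113224090616462311424) (nat_lit 5768192136761636030085843754374175288711385584064964980756114567534721521165900590600480957904984908290415641301234917113224090616462311424) :=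
  sem_of_chk (M (nat_lit 427) (B (M (nat_lit 396) (B (M (nat_lit 430) (B (L (nat_lit 394) ln10_12_0 ln10_12_0_ok) (M (nat_lit 398) (B (L (nat_lit 426) ln14_12_1 ln14_12_1_ok) (L (nat_lit 431) ln11_12_0 ln11_12_0_ok))))) (B (M (nat_lit 426) (B (L (nat_lit 398) ln14_12_1 ln14_12_1_ok) (M (nat_lit 425) (B (L (nat_lit 424) ln8_13_2 ln8_13_2_ok) (L (nat_lit 428) ln9_13_2 ln9_13_2_ok))))) (M (nat_lit 430) (B (L (nat_lit 394) ln10_12_0 ln10_12_0_ok) (M (nat_lit 431) (B (L (nat_lit 428) ln15_13_3 ln15_13_3_ok) (L (nat_lit 432) ln16_13_3 ln16_13_3_ok)))))))) (B (M (nat_lit 398) (B (M (nat_lit 426) (B (L (nat_lit 396) ln14_12_1 ln14_12_1_ok) (L (nat_lit 428) ln10_13_2 ln10_13_2_ok))) (B (M (nat_lit 428) (B (L (nat_lit 426) ln10_13_2 ln10_13_2_ok) (M (nat_lit 399) (B (L (nat_lit 400) ln16_12_1 ln16_12_1_ok) (L (nat_lit 430) ln11_13_2 ln11_13_2_ok))))) (B (M (nat_lit 399) (B (M (nat_lit 428) (B (L (nat_lit 396)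 ln15_12_1 ln15_12_1_ok) (L (nat_lit 400) ln16_12_1 ln16_12_1_ok))) (B (M (nat_lit 428) (B (L (nat_lit 400) ln16_12_1 ln16_12_1_ok) (L (nat_lit 430) ln11_13_2 ln11_13_2_ok))) (B (M (nat_lit 428) (B (L (nat_lit 396) ln15_12_1 ln15_12_1_ok) (L (nat_lit 430) ln11_13_2 ln11_13_2_ok))) (M (nat_lit 396) (B (M (nat_lit 367) (B (L (nat_lit 366) ln11_12_2 ln11_12_2_ok) (L (nat_lit 368) ln12_12_2 ln12_12_2_ok))) (M (nat_lit 431) (B (L (nat_lit 430) ln11_12_0 ln11_12_0_ok) (L (nat_lit 432) ln12_12_0 ln12_12_0_ok))))))))) (M (nat_lit 396) (B (L (nat_lit 426) ln14_12_1 ln14_12_1_ok) (M (nat_lit 399) (B (M (nat_lit 367) (B (L (nat_lit 366) ln11_12_2 ln11_12_2_ok) (L (nat_lit 368) ln12_12_2 ln12_12_2_ok))) (M (nat_lit 431) (B (L (nat_lit 430) ln11_12_0 ln11_12_0_ok) (L (nat_lit 432) ln12_12_0 ln12_12_0_ok))))))))))) (B (M (nat_lit 428) (B (M (nat_lit 398) (B (L (nat_lit 426) ln10_13_2 ln10_13_2_ok) (M (nat_lit 399)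 (B (L (nat_lit 400) ln16_12_1 ln16_12_1_ok) (L (nat_lit 430) ln11_13_2 ln11_13_2_ok))))) (B (M (nat_lit 394) (B (L (nat_lit 430) ln14_13_3 ln14_13_3_ok) (M (nat_lit 393) (B (L (nat_lit 392) ln8_12_0 ln8_12_0_ok) (L (nat_lit 426) ln13_13_3 ln13_13_3_ok))))) (B (M (nat_lit 430) (B (L (nat_lit 394) ln14_13_3 ln14_13_3_ok) (M (nat_lit 431) (B (M (nat_lit 399) (B (L (nat_lit 398) ln11_13_2 ln11_13_2_ok) (L (nat_lit 400) ln12_13_2 ln12_13_2_ok))) (M (nat_lit 459) (B (L (nat_lit 458) ln14_13_1 ln14_13_1_ok) (L (nat_lit 460) ln15_13_1 ln15_13_1_ok))))))) (M (nat_lit 426) (B (L (nat_lit 398) ln10_13_2 ln10_13_2_ok) (M (nat_lit 425) (B (M (nat_lit 393) (B (L (nat_lit 392) ln12_13_3 ln12_13_3_ok) (L (nat_lit 394) ln13_13_3 ln13_13_3_ok))) (M (nat_lit 457) (B (L (nat_lit 456) ln12_13_1 ln12_13_1_ok) (L (nat_lit 458) ln13_13_1 ln13_13_1_ok))))))))))) (B (M (nat_lit 394) (B (M (nat_lit 430) (B (L (nat_lit 396)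 ln10_12_0 ln10_12_0_ok) (L (nat_lit 428) ln14_13_3 ln14_13_3_ok))) (B (M (nat_lit 428) (B (L (nat_lit 430) ln14_13_3 ln14_13_3_ok) (M (nat_lit 393) (B (L (nat_lit 392) ln8_12_0 ln8_12_0_ok) (L (nat_lit 426) ln13_13_3 ln13_13_3_ok))))) (B (M (nat_lit 396) (B (L (nat_lit 430) ln10_12_0 ln10_12_0_ok) (M (nat_lit 393) (B (M (nat_lit 361) (B (L (nat_lit 360) ln12_12_3 ln12_12_3_ok) (L (nat_lit 362) ln13_12_3 ln13_12_3_ok))) (M (nat_lit 365) (B (L (nat_lit 364) ln9_12_2 ln9_12_2_ok) (L (nat_lit 366) ln10_12_2 ln10_12_2_ok))))))) (M (nat_lit 393) (B (M (nat_lit 428) (B (L (nat_lit 392) ln8_12_0 ln8_12_0_ok) (L (nat_lit 396) ln9_12_0 ln9_12_0_ok))) (B (M (nat_lit 428) (B (L (nat_lit 396) ln9_12_0 ln9_12_0_ok) (L (nat_lit 426) ln13_13_3 ln13_13_3_ok))) (B (M (nat_lit 428) (B (L (nat_lit 392) ln8_12_0 ln8_12_0_ok) (L (nat_lit 426) ln13_13_3 ln13_13_3_ok))) (M (nat_lit 396) (B (M (nat_lit 361) (B (L (nat_lit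 360) ln12_12_3 ln12_12_3_ok) (L (nat_lit 362) ln13_12_3 ln13_12_3_ok))) (M (nat_lit 425) (B (L (nat_lit 424) ln12_12_1 ln12_12_1_ok) (L (nat_lit 426) ln13_12_1 ln13_12_1_ok))))))))))))) (B (M (nat_lit 430) (B (M (nat_lit 394) (B (L (nat_lit 396) ln10_12_0 ln10_12_0_ok) (L (nat_lit 428) ln14_13_3 ln14_13_3_ok))) (B (M (nat_lit 431) (B (M (nat_lit 396) (B (L (nat_lit 398) ln11_12_0 ln11_12_0_ok) (L (nat_lit 428) ln15_13_3 ln15_13_3_ok))) (B (M (nat_lit 428) (B (M (nat_lit 399) (B (L (nat_lit 398) ln11_13_2 ln11_13_2_ok) (L (nat_lit 400) ln12_13_2 ln12_13_2_ok))) (M (nat_lit 459) (B (L (nat_lit 458) ln14_13_1 ln14_13_1_ok) (L (nat_lit 460) ln15_13_1 ln15_13_1_ok))))) (B (M (nat_lit 396) (B (L (nat_lit 428) ln15_13_3 ln15_13_3_ok) (L (nat_lit 432) ln16_13_3 ln16_13_3_ok))) (M (nat_lit 396) (B (L (nat_lit 398) ln11_12_0 ln11_12_0_ok) (L (nat_lit 432) ln16_13_3 ln16_13_3_ok))))))) (B (M (nat_lit 428) (B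 (L (nat_lit 394) ln14_13_3 ln14_13_3_ok) (M (nat_lit 431) (B (M (nat_lit 399) (B (L (nat_lit 398) ln11_13_2 ln11_13_2_ok) (L (nat_lit 400) ln12_13_2 ln12_13_2_ok))) (M (nat_lit 459) (B (L (nat_lit 458) ln14_13_1 ln14_13_1_ok) (L (nat_lit 460) ln15_13_1 ln15_13_1_ok))))))) (M (nat_lit 396) (B (L (nat_lit 394) ln10_12_0 ln10_12_0_ok) (M (nat_lit 431) (B (L (nat_lit 398) ln11_12_0 ln11_12_0_ok) (L (nat_lit 432) ln16_13_3 ln16_13_3_ok))))))))) (B (M (nat_lit 396) (B (M (nat_lit 426) (B (L (nat_lit 398) ln14_12_1 ln14_12_1_ok) (M (nat_lit 394) (B (L (nat_lit 425) ln13_12_1 ln13_12_1_ok) (L (nat_lit 430) ln10_12_0 ln10_12_0_ok))))) (B (M (nat_lit 398) (B (L (nat_lit 426) ln14_12_1 ln14_12_1_ok) (M (nat_lit 399) (B (M (nat_lit 367) (B (L (nat_lit 366) ln11_12_2 ln11_12_2_ok) (L (nat_lit 368) ln12_12_2 ln12_12_2_ok))) (M (nat_lit 431) (B (L (nat_lit 430) ln11_12_0 ln11_12_0_ok) (L (nat_lit 432) ln12_12_0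 ln12_12_0_ok))))))) (B (M (nat_lit 394) (B (L (nat_lit 430) ln10_12_0 ln10_12_0_ok) (M (nat_lit 393) (B (M (nat_lit 361) (B (L (nat_lit 360) ln12_12_3 ln12_12_3_ok) (L (nat_lit 362) ln13_12_3 ln13_12_3_ok))) (M (nat_lit 365) (B (L (nat_lit 364) ln9_12_2 ln9_12_2_ok) (L (nat_lit 366) ln10_12_2 ln10_12_2_ok))))))) (M (nat_lit 426) (B (L (nat_lit 398) ln14_12_1 ln14_12_1_ok) (M (nat_lit 425) (B (L (nat_lit 394) ln13_12_1 ln13_12_1_ok) (L (nat_lit 424) ln8_13_2 ln8_13_2_ok))))))))) (M (nat_lit 426) (B (M (nat_lit 398) (B (L (nat_lit 396) ln14_12_1 ln14_12_1_ok) (L (nat_lit 428) ln10_13_2 ln10_13_2_ok))) (B (M (nat_lit 428) (B (L (nat_lit 398) ln10_13_2 ln10_13_2_ok) (M (nat_lit 425) (B (M (nat_lit 393) (B (L (nat_lit 392) ln12_13_3 ln12_13_3_ok) (L (nat_lit 394) ln13_13_3 ln13_13_3_ok))) (M (nat_lit 457) (B (L (nat_lit 456) ln12_13_1 ln12_13_1_ok) (L (nat_lit 458) ln13_13_1 ln13_13_1_ok))))))) (B (M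 (nat_lit 425) (B (M (nat_lit 396) (B (L (nat_lit 394) ln13_12_1 ln13_12_1_ok) (L (nat_lit 424) ln8_13_2 ln8_13_2_ok))) (B (M (nat_lit 396) (B (L (nat_lit 424) ln8_13_2 ln8_13_2_ok) (L (nat_lit 428) ln9_13_2 ln9_13_2_ok))) (M (nat_lit 428) (B (M (nat_lit 393) (B (L (nat_lit 392) ln12_13_3 ln12_13_3_ok) (L (nat_lit 394) ln13_13_3 ln13_13_3_ok))) (M (nat_lit 457) (B (L (nat_lit 456) ln12_13_1 ln12_13_1_ok) (L (nat_lit 458) ln13_13_1 ln13_13_1_ok)))))))) (M (nat_lit 396) (B (L (nat_lit 398) ln14_12_1 ln14_12_1_ok) (M (nat_lit 425) (B (L (nat_lit 394) ln13_12_1 ln13_12_1_ok) (L (nat_lit 424) ln8_13_2 ln8_13_2_ok)))))))))))))))) (nat_lit 1386334847463883973240286559205279222343689143051924817714805964187101178362289002460118639712951875498717141642561656535228874752) (nat_lit 5768192136761636030085843754374175288711385584064964980756114567534721521165900590600480957904984908290415641301234917113224090616462311424)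 (nat_lit 5768192136761636030085843754374175288711385584064964980756114567534721521165900590600480957904984908290415641301234917113224090616462311424) (by decide +kernel)
theorem c11_s15034 : Sem (nat_lit 1386334847463883973240286559205279222343689143051924817714805964187101178362289002460118639712951875498717141642561656535228874752) (nat_lit 13729595329851230982302721869728689154549321245824189355879938467706771117819406963514677778511310787300064490665808182621810710763409450185981616542921523200) (nat_lit 13729595329851230982302721869728689154549321245824189355879938467706771117819406963514677778511310787300064490665808182621810710763409450185981616542921523200) :=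
  sem_of_chk (M (nat_lit 427) (B (M (nat_lit 396) (B (M (nat_lit 430) (B (L (nat_lit 394) ln10_12_0 ln10_12_0_ok) (M (nat_lit 398) (B (L (nat_lit 426) ln14_12_1 ln14_12_1_ok) (L (nat_lit 431) ln11_12_0 ln11_12_0_ok))))) (B (M (nat_lit 426) (B (L (nat_lit 398) ln14_12_1 ln14_12_1_ok) (M (nat_lit 425) (B (L (nat_lit 424) ln8_13_2 ln8_13_2_ok) (L (nat_lit 428) ln9_13_2 ln9_13_2_ok))))) (M (nat_lit 430) (B (L (nat_lit 394) ln10_12_0 ln10_12_0_ok) (M (nat_lit 431) (B (L (nat_lit 428) ln15_13_3 ln15_13_3_ok) (L (nat_lit 432) ln16_13_3 ln16_13_3_ok)))))))) (B (M (nat_lit 398) (B (M (nat_lit 426) (B (L (nat_lit 396) ln14_12_1 ln14_12_1_ok) (L (nat_lit 428) ln10_13_2 ln10_13_2_ok))) (B (M (nat_lit 428) (B (L (nat_lit 426) ln10_13_2 ln10_13_2_ok) (M (nat_lit 399) (B (L (nat_lit 400) ln16_12_1 ln16_12_1_ok) (L (nat_lit 430) ln11_13_2 ln11_13_2_ok))))) (B (M (nat_lit 399) (B (M (nat_lit 428) (B (L (nat_lit 396)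 ln15_12_1 ln15_12_1_ok) (L (nat_lit 400) ln16_12_1 ln16_12_1_ok))) (B (M (nat_lit 428) (B (L (nat_lit 400) ln16_12_1 ln16_12_1_ok) (L (nat_lit 430) ln11_13_2 ln11_13_2_ok))) (B (M (nat_lit 428) (B (L (nat_lit 396) ln15_12_1 ln15_12_1_ok) (L (nat_lit 430) ln11_13_2 ln11_13_2_ok))) (M (nat_lit 396) (B (M (nat_lit 367) (B (L (nat_lit 366) ln11_12_2 ln11_12_2_ok) (L (nat_lit 368) ln12_12_2 ln12_12_2_ok))) (M (nat_lit 431) (B (L (nat_lit 430) ln11_12_0 ln11_12_0_ok) (L (nat_lit 432) ln12_12_0 ln12_12_0_ok))))))))) (M (nat_lit 396) (B (L (nat_lit 426) ln14_12_1 ln14_12_1_ok) (M (nat_lit 399) (B (M (nat_lit 367) (B (L (nat_lit 366) ln11_12_2 ln11_12_2_ok) (L (nat_lit 368) ln12_12_2 ln12_12_2_ok))) (M (nat_lit 431) (B (L (nat_lit 430) ln11_12_0 ln11_12_0_ok) (L (nat_lit 432) ln12_12_0 ln12_12_0_ok))))))))))) (B (M (nat_lit 428) (B (M (nat_lit 394) (B (L (nat_lit 430) ln14_13_3 ln14_13_3_ok) (M (nat_lit 426)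 (B (L (nat_lit 393) ln13_13_3 ln13_13_3_ok) (L (nat_lit 398) ln10_13_2 ln10_13_2_ok))))) (B (M (nat_lit 398) (B (L (nat_lit 426) ln10_13_2 ln10_13_2_ok) (M (nat_lit 399) (B (L (nat_lit 400) ln16_12_1 ln16_12_1_ok) (L (nat_lit 430) ln11_13_2 ln11_13_2_ok))))) (B (M (nat_lit 394) (B (L (nat_lit 430) ln14_13_3 ln14_13_3_ok) (M (nat_lit 393) (B (L (nat_lit 392) ln8_12_0 ln8_12_0_ok) (L (nat_lit 426) ln13_13_3 ln13_13_3_ok))))) (B (M (nat_lit 430) (B (L (nat_lit 394) ln14_13_3 ln14_13_3_ok) (M (nat_lit 431) (B (M (nat_lit 399) (B (L (nat_lit 398) ln11_13_2 ln11_13_2_ok) (L (nat_lit 400) ln12_13_2 ln12_13_2_ok))) (M (nat_lit 459) (B (L (nat_lit 458) ln14_13_1 ln14_13_1_ok) (L (nat_lit 460) ln15_13_1 ln15_13_1_ok))))))) (M (nat_lit 426) (B (L (nat_lit 398) ln10_13_2 ln10_13_2_ok) (M (nat_lit 458) (B (L (nat_lit 457) ln13_13_1 ln13_13_1_ok) (M (nat_lit 363) (B (L (nat_lit 331) ln11_10_5 ln11_10_5_ok) (M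 (nat_lit 490) (B (L (nat_lit 459) ln11_11_5 ln11_11_5_ok) (L (nat_lit 522) ln10_16_6 ln10_16_6_ok)))))))))))))) (B (M (nat_lit 394) (B (M (nat_lit 430) (B (L (nat_lit 396) ln10_12_0 ln10_12_0_ok) (L (nat_lit 428) ln14_13_3 ln14_13_3_ok))) (B (M (nat_lit 428) (B (L (nat_lit 430) ln14_13_3 ln14_13_3_ok) (M (nat_lit 393) (B (L (nat_lit 392) ln8_12_0 ln8_12_0_ok) (L (nat_lit 426) ln13_13_3 ln13_13_3_ok))))) (B (M (nat_lit 362) (B (M (nat_lit 396) (B (L (nat_lit 361) ln13_12_3 ln13_12_3_ok) (L (nat_lit 430) ln10_12_0 ln10_12_0_ok))) (M (nat_lit 330) (B (L (nat_lit 298) ln10_9_4 ln10_9_4_ok) (M (nat_lit 459) (B (L (nat_lit 363) ln11_14_7 ln11_14_7_ok) (L (nat_lit 491) ln11_15_7 ln11_15_7_ok))))))) (M (nat_lit 426) (B (M (nat_lit 458) (B (M (nat_lit 363) (B (L (nat_lit 331) ln11_10_5 ln11_10_5_ok) (L (nat_lit 490) ln10_15_6 ln10_15_6_ok))) (M (nat_lit 428) (B (L (nat_lit 393) ln13_13_3 ln13_13_3_ok) (L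 (nat_lit 457) ln13_13_1 ln13_13_1_ok))))) (M (nat_lit 362) (B (M (nat_lit 330) (B (L (nat_lit 298) ln10_9_4 ln10_9_4_ok) (L (nat_lit 459) ln10_10_4 ln10_10_4_ok))) (M (nat_lit 396) (B (L (nat_lit 361) ln13_12_3 ln13_12_3_ok) (L (nat_lit 425) ln13_12_1 ln13_12_1_ok))))))))))) (B (M (nat_lit 430) (B (M (nat_lit 394) (B (L (nat_lit 396) ln10_12_0 ln10_12_0_ok) (L (nat_lit 428) ln14_13_3 ln14_13_3_ok))) (B (M (nat_lit 431) (B (M (nat_lit 396) (B (L (nat_lit 398) ln11_12_0 ln11_12_0_ok) (L (nat_lit 428) ln15_13_3 ln15_13_3_ok))) (B (M (nat_lit 428) (B (M (nat_lit 399) (B (L (nat_lit 398) ln11_13_2 ln11_13_2_ok) (L (nat_lit 400) ln12_13_2 ln12_13_2_ok))) (M (nat_lit 459) (B (L (nat_lit 458) ln14_13_1 ln14_13_1_ok) (L (nat_lit 460) ln15_13_1 ln15_13_1_ok))))) (B (M (nat_lit 396) (B (L (nat_lit 428) ln15_13_3 ln15_13_3_ok) (L (nat_lit 432) ln16_13_3 ln16_13_3_ok))) (M (nat_lit 396) (B (L (nat_lit 398) ln11_12_0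 ln11_12_0_ok) (L (nat_lit 432) ln16_13_3 ln16_13_3_ok))))))) (B (M (nat_lit 428) (B (L (nat_lit 394) ln14_13_3 ln14_13_3_ok) (M (nat_lit 431) (B (M (nat_lit 399) (B (L (nat_lit 398) ln11_13_2 ln11_13_2_ok) (L (nat_lit 400) ln12_13_2 ln12_13_2_ok))) (M (nat_lit 459) (B (L (nat_lit 458) ln14_13_1 ln14_13_1_ok) (L (nat_lit 460) ln15_13_1 ln15_13_1_ok))))))) (M (nat_lit 396) (B (L (nat_lit 394) ln10_12_0 ln10_12_0_ok) (M (nat_lit 431) (B (L (nat_lit 398) ln11_12_0 ln11_12_0_ok) (L (nat_lit 432) ln16_13_3 ln16_13_3_ok))))))))) (B (M (nat_lit 396) (B (M (nat_lit 426) (B (L (nat_lit 398) ln14_12_1 ln14_12_1_ok) (M (nat_lit 394) (B (L (nat_lit 425) ln13_12_1 ln13_12_1_ok) (L (nat_lit 430) ln10_12_0 ln10_12_0_ok))))) (B (M (nat_lit 398) (B (L (nat_lit 426) ln14_12_1 ln14_12_1_ok) (M (nat_lit 399) (B (M (nat_lit 367) (B (L (nat_lit 366) ln11_12_2 ln11_12_2_ok) (L (nat_lit 368) ln12_12_2 ln12_12_2_ok))) (M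 (nat_lit 431) (B (L (nat_lit 430) ln11_12_0 ln11_12_0_ok) (L (nat_lit 432) ln12_12_0 ln12_12_0_ok))))))) (B (M (nat_lit 394) (B (L (nat_lit 430) ln10_12_0 ln10_12_0_ok) (M (nat_lit 426) (B (L (nat_lit 425) ln13_12_1 ln13_12_1_ok) (M (nat_lit 362) (B (L (nat_lit 361) ln13_12_3 ln13_12_3_ok) (M (nat_lit 330) (B (L (nat_lit 298) ln10_9_4 ln10_9_4_ok) (L (nat_lit 459) ln10_10_4 ln10_10_4_ok))))))))) (B (M (nat_lit 430) (B (L (nat_lit 394) ln10_12_0 ln10_12_0_ok) (M (nat_lit 431) (B (L (nat_lit 398) ln11_12_0 ln11_12_0_ok) (L (nat_lit 432) ln16_13_3 ln16_13_3_ok))))) (M (nat_lit 426) (B (L (nat_lit 398) ln14_12_1 ln14_12_1_ok) (M (nat_lit 425) (B (L (nat_lit 394) ln13_12_1 ln13_12_1_ok) (L (nat_lit 424) ln8_13_2 ln8_13_2_ok)))))))))) (M (nat_lit 426) (B (M (nat_lit 398) (B (L (nat_lit 396) ln14_12_1 ln14_12_1_ok) (L (nat_lit 428) ln10_13_2 ln10_13_2_ok))) (B (M (nat_lit 428) (B (L (nat_lit 398) ln10_13_2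 ln10_13_2_ok) (M (nat_lit 425) (B (M (nat_lit 393) (B (L (nat_lit 392) ln12_13_3 ln12_13_3_ok) (L (nat_lit 394) ln13_13_3 ln13_13_3_ok))) (M (nat_lit 457) (B (L (nat_lit 456) ln12_13_1 ln12_13_1_ok) (L (nat_lit 458) ln13_13_1 ln13_13_1_ok))))))) (B (M (nat_lit 425) (B (M (nat_lit 396) (B (L (nat_lit 394) ln13_12_1 ln13_12_1_ok) (L (nat_lit 424) ln8_13_2 ln8_13_2_ok))) (B (M (nat_lit 396) (B (L (nat_lit 424) ln8_13_2 ln8_13_2_ok) (L (nat_lit 428) ln9_13_2 ln9_13_2_ok))) (M (nat_lit 428) (B (M (nat_lit 393) (B (L (nat_lit 392) ln12_13_3 ln12_13_3_ok) (L (nat_lit 394) ln13_13_3 ln13_13_3_ok))) (M (nat_lit 457) (B (L (nat_lit 456) ln12_13_1 ln12_13_1_ok) (L (nat_lit 458) ln13_13_1 ln13_13_1_ok)))))))) (M (nat_lit 396) (B (L (nat_lit 398) ln14_12_1 ln14_12_1_ok) (M (nat_lit 425) (B (L (nat_lit 394) ln13_12_1 ln13_12_1_ok) (L (nat_lit 424) ln8_13_2 ln8_13_2_ok)))))))))))))))) (nat_lit 1386334847463883973240286559205279222343689143051924817714805964187101178362289002460118639712951875498717141642561656535228874752)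 (nat_lit 13729595329851230982302721869728689154549321245824189355879938467706771117819406963514677778511310787300064490665808182621810710763409450185981616542921523200) (nat_lit 13729595329851230982302721869728689154549321245824189355879938467706771117819406963514677778511310787300064490665808182621810710763409450185981616542921523200) (by decide +kernel)
noncomputable def c11_n15042 : Cert := (M (nat_lit 427) (B (M (nat_lit 398) (B (L (nat_lit 426) ln14_12_1 ln14_12_1_ok) (M (nat_lit 399) (B (L (nat_lit 428) ln15_12_1 ln15_12_1_ok) (M (nat_lit 363) (B (L (nat_lit 362) ln14_12_3 ln14_12_3_ok) (L (nat_lit 364) ln15_12_3 ln15_12_3_ok))))))) (B (M (nat_lit 398) (B (L (nat_lit 426) ln14_12_1 ln14_12_1_ok) (M (nat_lit 399) (B (L (nat_lit 428) ln15_12_1 ln15_12_1_ok) (M (nat_lit 431) (B (L (nat_lit 430) ln11_12_0 ln11_12_0_ok) (L (nat_lit 432) ln12_12_0 ln12_12_0_ok))))))) (B (M (nat_lit 459) (B (M (nat_lit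 364) (B (L (nat_lit 491) ln11_15_6 ln11_15_6_ok) (M (nat_lit 332) (B (L (nat_lit 300) ln12_9_5 ln12_9_5_ok) (L (nat_lit 428) ln12_10_5 ln12_10_5_ok))))) (B (M (nat_lit 364) (B (L (nat_lit 491) ln11_15_6 ln11_15_6_ok) (M (nat_lit 332) (B (L (nat_lit 363) ln11_14_6 ln11_14_6_ok) (L (nat_lit 428) ln12_10_5 ln12_10_5_ok))))) (B (M (nat_lit 428) (B (M (nat_lit 491) (B (L (nat_lit 364) ln11_15_6 ln11_15_6_ok) (L (nat_lit 523) ln11_16_6 ln11_16_6_ok))) (M (nat_lit 430) (B (L (nat_lit 431) ln15_13_3 ln15_13_3_ok) (L (nat_lit 458) ln14_13_1 ln14_13_1_ok))))) (B (M (nat_lit 428) (B (M (nat_lit 430) (B (L (nat_lit 431) ln15_13_3 ln15_13_3_ok) (L (nat_lit 458) ln14_13_1 ln14_13_1_ok))) (M (nat_lit 492) (B (M (nat_lit 460) (B (L (nat_lit 363) ln12_15_7 ln12_15_7_ok) (L (nat_lit 365) ln12_15_6 ln12_15_6_ok))) (M (nat_lit 491) (B (L (nat_lit 524) ln11_12_4 ln11_12_4_ok) (L (nat_lit 523) ln11_16_6 ln11_16_6_ok)))))))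 (B (M (nat_lit 364) (B (L (nat_lit 491) ln11_15_6 ln11_15_6_ok) (M (nat_lit 332) (B (L (nat_lit 300) ln12_9_5 ln12_9_5_ok) (L (nat_lit 363) ln11_14_6 ln11_14_6_ok))))) (M (nat_lit 363) (B (M (nat_lit 364) (B (L (nat_lit 332) ln11_14_6 ln11_14_6_ok) (M (nat_lit 362) (B (L (nat_lit 330) ln11_14_7 ln11_14_7_ok) (L (nat_lit 361) ln9_11_0 ln9_11_0_ok))))) (B (M (nat_lit 331) (B (M (nat_lit 332) (B (L (nat_lit 300) ln11_13_6 ln11_13_6_ok) (L (nat_lit 364) ln11_14_6 ln11_14_6_ok))) (M (nat_lit 458) (B (L (nat_lit 426) ln11_10_5 ln11_10_5_ok) (L (nat_lit 490) ln11_11_5 ln11_11_5_ok))))) (M (nat_lit 331) (B (M (nat_lit 330) (B (L (nat_lit 298) ln11_13_7 ln11_13_7_ok) (L (nat_lit 362) ln11_14_7 ln11_14_7_ok))) (M (nat_lit 458) (B (L (nat_lit 426) ln11_10_5 ln11_10_5_ok) (L (nat_lit 490) ln11_11_5 ln11_11_5_ok)))))))))))))) (B (M (nat_lit 430) (B (M (nat_lit 431) (B (L (nat_lit 398) ln11_12_0 ln11_12_0_ok)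 (L (nat_lit 428) ln15_13_3 ln15_13_3_ok))) (B (M (nat_lit 431) (B (L (nat_lit 428) ln15_13_3 ln15_13_3_ok) (L (nat_lit 432) ln16_13_3 ln16_13_3_ok))) (B (M (nat_lit 431) (B (L (nat_lit 398) ln11_12_0 ln11_12_0_ok) (L (nat_lit 432) ln16_13_3 ln16_13_3_ok))) (M (nat_lit 428) (B (M (nat_lit 459) (B (L (nat_lit 458) ln14_13_1 ln14_13_1_ok) (M (nat_lit 364) (B (L (nat_lit 332) ln12_10_5 ln12_10_5_ok) (L (nat_lit 491) ln11_15_6 ln11_15_6_ok))))) (M (nat_lit 363) (B (M (nat_lit 331) (B (L (nat_lit 299) ln11_9_4 ln11_9_4_ok) (L (nat_lit 460) ln11_10_4 ln11_10_4_ok))) (M (nat_lit 398) (B (L (nat_lit 362) ln14_12_3 ln14_12_3_ok) (L (nat_lit 399) ln15_12_1 ln15_12_1_ok))))))))))) (M (nat_lit 398) (B (L (nat_lit 426) ln14_12_1 ln14_12_1_ok) (M (nat_lit 399) (B (M (nat_lit 363) (B (L (nat_lit 362) ln14_12_3 ln14_12_3_ok) (L (nat_lit 364) ln15_12_3 ln15_12_3_ok))) (M (nat_lit 431) (B (L (nat_lit 430) ln11_12_0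 ln11_12_0_ok) (L (nat_lit 432) ln12_12_0 ln12_12_0_ok))))))))))))
noncomputable def c11_n15043 : Cert := (M (nat_lit 396) (B (M (nat_lit 430) (B (L (nat_lit 394) ln10_12_0 ln10_12_0_ok) (M (nat_lit 431) (B (L (nat_lit 428) ln15_13_3 ln15_13_3_ok) (L (nat_lit 432) ln16_13_3 ln16_13_3_ok))))) (B c11_n15042 (B (M (nat_lit 430) (B (L (nat_lit 394) ln10_12_0 ln10_12_0_ok) (M (nat_lit 431) (B (L (nat_lit 398) ln11_12_0 ln11_12_0_ok) (L (nat_lit 432) ln16_13_3 ln16_13_3_ok))))) (M (nat_lit 394) (B (M (nat_lit 393) (B (L (nat_lit 428) ln9_12_0 ln9_12_0_ok) (M (nat_lit 425) (B (L (nat_lit 424) ln12_12_1 ln12_12_1_ok) (L (nat_lit 426) ln13_12_1 ln13_12_1_ok))))) (B (M (nat_lit 398) (B (M (nat_lit 362) (B (L (nat_lit 361) ln13_12_3 ln13_12_3_ok) (L (nat_lit 363) ln14_12_3 ln14_12_3_ok))) (M (nat_lit 426) (B (L (nat_lit 425) ln13_12_1 ln13_12_1_ok) (L (nat_lit 427) ln14_12_1 ln14_12_1_ok))))) (M (nat_lit 393)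 (B (L (nat_lit 428) ln9_12_0 ln9_12_0_ok) (M (nat_lit 361) (B (L (nat_lit 360) ln12_12_3 ln12_12_3_ok) (L (nat_lit 362) ln13_12_3 ln13_12_3_ok))))))))))))
noncomputable def c11_n15173 : Cert := (M (nat_lit 396) (B (M (nat_lit 362) (B (L (nat_lit 398) ln14_12_3 ln14_12_3_ok) (M (nat_lit 361) (B (L (nat_lit 360) ln8_11_0 ln8_11_0_ok) (L (nat_lit 364) ln9_11_0 ln9_11_0_ok))))) (B (M (nat_lit 398) (B (L (nat_lit 362) ln14_12_3 ln14_12_3_ok) (M (nat_lit 399) (B (L (nat_lit 364) ln15_12_3 ln15_12_3_ok) (M (nat_lit 427) (B (L (nat_lit 426) ln14_12_1 ln14_12_1_ok) (L (nat_lit 428) ln15_12_1 ln15_12_1_ok))))))) (B (M (nat_lit 428) (B (M (nat_lit 331) (B (L (nat_lit 299) ln11_9_4 ln11_9_4_ok) (M (nat_lit 460) (B (L (nat_lit 364) ln12_14_7 ln12_14_7_ok) (L (nat_lit 492) ln12_15_7 ln12_15_7_ok))))) (B (M (nat_lit 460) (B (L (nat_lit 492) ln12_15_7 ln12_15_7_ok) (M (nat_lit 331) (B (L (nat_lit 364) ln12_14_7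 ln12_14_7_ok) (L (nat_lit 427) ln11_10_4 ln11_10_4_ok))))) (B (M (nat_lit 427) (B (M (nat_lit 398) (B (L (nat_lit 426) ln14_12_1 ln14_12_1_ok) (L (nat_lit 399) ln15_12_1 ln15_12_1_ok))) (M (nat_lit 459) (B (M (nat_lit 364) (B (L (nat_lit 332) ln11_14_6 ln11_14_6_ok) (L (nat_lit 491) ln11_15_6 ln11_15_6_ok))) (M (nat_lit 430) (B (L (nat_lit 431) ln15_13_3 ln15_13_3_ok) (L (nat_lit 458) ln14_13_1 ln14_13_1_ok))))))) (M (nat_lit 331) (B (L (nat_lit 299) ln11_9_4 ln11_9_4_ok) (M (nat_lit 460) (B (L (nat_lit 427) ln11_10_4 ln11_10_4_ok) (L (nat_lit 492) ln12_15_7 ln12_15_7_ok))))))))) (B (M (nat_lit 398) (B (L (nat_lit 362) ln14_12_3 ln14_12_3_ok) (M (nat_lit 399) (B (M (nat_lit 427) (B (L (nat_lit 426) ln14_12_1 ln14_12_1_ok) (L (nat_lit 428) ln15_12_1 ln15_12_1_ok))) (M (nat_lit 431) (B (L (nat_lit 430) ln11_12_0 ln11_12_0_ok) (L (nat_lit 432) ln12_12_0 ln12_12_0_ok))))))) (M (nat_lit 331) (B (M (nat_lit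 428) (B (L (nat_lit 299) ln11_9_4 ln11_9_4_ok) (M (nat_lit 460) (B (L (nat_lit 364) ln12_14_7 ln12_14_7_ok) (L (nat_lit 427) ln11_10_4 ln11_10_4_ok))))) (B (M (nat_lit 427) (B (M (nat_lit 428) (B (L (nat_lit 460) ln11_10_4 ln11_10_4_ok) (M (nat_lit 426) (B (L (nat_lit 458) ln11_10_5 ln11_10_5_ok) (L (nat_lit 425) ln9_13_2 ln9_13_2_ok))))) (B (M (nat_lit 459) (B (M (nat_lit 332) (B (L (nat_lit 300) ln11_13_6 ln11_13_6_ok) (L (nat_lit 364) ln11_14_6 ln11_14_6_ok))) (M (nat_lit 460) (B (L (nat_lit 428) ln11_10_4 ln11_10_4_ok) (L (nat_lit 492) ln11_11_4 ln11_11_4_ok))))) (M (nat_lit 459) (B (M (nat_lit 332) (B (L (nat_lit 300) ln11_13_6 ln11_13_6_ok) (L (nat_lit 364) ln11_14_6 ln11_14_6_ok))) (M (nat_lit 458) (B (L (nat_lit 426) ln11_10_5 ln11_10_5_ok) (L (nat_lit 490) ln11_11_5 ln11_11_5_ok)))))))) (B (M (nat_lit 428) (B (L (nat_lit 299) ln11_9_4 ln11_9_4_ok) (M (nat_lit 460) (B (L (nat_lit 427) ln11_10_4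 ln11_10_4_ok) (L (nat_lit 492) ln12_15_7 ln12_15_7_ok))))) (B (M (nat_lit 428) (B (L (nat_lit 299) ln11_9_4 ln11_9_4_ok) (M (nat_lit 460) (B (L (nat_lit 364) ln12_14_7 ln12_14_7_ok) (L (nat_lit 492) ln12_15_7 ln12_15_7_ok))))) (M (nat_lit 299) (B (M (nat_lit 267) (B (L (nat_lit 364) ln11_8_4 ln11_8_4_ok) (M (nat_lit 268) (B (L (nat_lit 236) ln11_11_6 ln11_11_6_ok) (L (nat_lit 300) ln11_12_6 ln11_12_6_ok))))) (B (M (nat_lit 300) (B (L (nat_lit 268) ln11_12_6 ln11_12_6_ok) (M (nat_lit 332) (B (L (nat_lit 427) ln11_13_6 ln11_13_6_ok) (L (nat_lit 364) ln12_9_4 ln12_9_4_ok))))) (B (M (nat_lit 266) (B (L (nat_lit 298) ln11_12_7 ln11_12_7_ok) (M (nat_lit 267) (B (L (nat_lit 234) ln11_11_7 ln11_11_7_ok) (L (nat_lit 364) ln11_8_4 ln11_8_4_ok))))) (M (nat_lit 267) (B (M (nat_lit 266) (B (L (nat_lit 234) ln11_11_7 ln11_11_7_ok) (L (nat_lit 298) ln11_12_7 ln11_12_7_ok))) (M (nat_lit 268) (B (L (nat_lit 236)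 ln11_11_6 ln11_11_6_ok) (L (nat_lit 300) ln11_12_6 ln11_12_6_ok)))))))))))))))))))
noncomputable def c11_n15235 : Cert := (M (nat_lit 427) (B (M (nat_lit 428) (B (M (nat_lit 460) (B (L (nat_lit 331) ln11_10_4 ln11_10_4_ok) (M (nat_lit 492) (B (L (nat_lit 396) ln12_15_7 ln12_15_7_ok) (L (nat_lit 459) ln11_11_4 ln11_11_4_ok))))) (M (nat_lit 398) (B (L (nat_lit 426) ln10_13_2 ln10_13_2_ok) (M (nat_lit 399) (B (L (nat_lit 400) ln16_12_1 ln16_12_1_ok) (L (nat_lit 430) ln11_13_2 ln11_13_2_ok))))))) (B (M (nat_lit 398) (B (M (nat_lit 426) (B (L (nat_lit 396) ln14_12_1 ln14_12_1_ok) (L (nat_lit 428) ln10_13_2 ln10_13_2_ok))) (B (M (nat_lit 428) (B (L (nat_lit 426) ln10_13_2 ln10_13_2_ok) (M (nat_lit 399) (B (L (nat_lit 400) ln16_12_1 ln16_12_1_ok) (L (nat_lit 430) ln11_13_2 ln11_13_2_ok))))) (B (M (nat_lit 399) (B (M (nat_lit 396) (B (L (nat_lit 364) ln15_12_3 ln15_12_3_ok) (L (nat_lit 428) ln15_12_1 ln15_12_1_ok)))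 (B (M (nat_lit 428) (B (L (nat_lit 396) ln15_12_1 ln15_12_1_ok) (L (nat_lit 400) ln16_12_1 ln16_12_1_ok))) (B (M (nat_lit 428) (B (L (nat_lit 400) ln16_12_1 ln16_12_1_ok) (L (nat_lit 430) ln11_13_2 ln11_13_2_ok))) (M (nat_lit 396) (B (L (nat_lit 364) ln15_12_3 ln15_12_3_ok) (M (nat_lit 367) (B (L (nat_lit 366) ln11_12_2 ln11_12_2_ok) (L (nat_lit 368) ln12_12_2 ln12_12_2_ok))))))))) (M (nat_lit 396) (B (L (nat_lit 426) ln14_12_1 ln14_12_1_ok) (M (nat_lit 399) (B (L (nat_lit 364) ln15_12_3 ln15_12_3_ok) (M (nat_lit 367) (B (L (nat_lit 366) ln11_12_2 ln11_12_2_ok) (L (nat_lit 368) ln12_12_2 ln12_12_2_ok))))))))))) (B (M (nat_lit 331) (B (M (nat_lit 428) (B (L (nat_lit 460) ln11_10_4 ln11_10_4_ok) (M (nat_lit 426) (B (L (nat_lit 458) ln11_10_5 ln11_10_5_ok) (L (nat_lit 398) ln10_13_2 ln10_13_2_ok))))) (M (nat_lit 299) (B (M (nat_lit 298) (B (L (nat_lit 266) ln11_12_7 ln11_12_7_ok) (L (nat_lit 330) ln11_13_7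 ln11_13_7_ok))) (M (nat_lit 300) (B (L (nat_lit 268) ln11_12_6 ln11_12_6_ok) (L (nat_lit 332) ln11_13_6 ln11_13_6_ok))))))) (B (M (nat_lit 331) (B (M (nat_lit 299) (B (M (nat_lit 298) (B (L (nat_lit 266) ln11_12_7 ln11_12_7_ok) (L (nat_lit 330) ln11_13_7 ln11_13_7_ok))) (M (nat_lit 428) (B (L (nat_lit 396) ln11_9_4 ln11_9_4_ok) (L (nat_lit 460) ln11_10_4 ln11_10_4_ok))))) (B (M (nat_lit 299) (B (M (nat_lit 300) (B (L (nat_lit 268) ln11_12_6 ln11_12_6_ok) (L (nat_lit 332) ln11_13_6 ln11_13_6_ok))) (M (nat_lit 428) (B (L (nat_lit 396) ln11_9_4 ln11_9_4_ok) (L (nat_lit 460) ln11_10_4 ln11_10_4_ok))))) (B (M (nat_lit 459) (B (M (nat_lit 332) (B (L (nat_lit 300) ln11_13_6 ln11_13_6_ok) (L (nat_lit 364) ln11_14_6 ln11_14_6_ok))) (M (nat_lit 460) (B (L (nat_lit 428) ln11_10_4 ln11_10_4_ok) (L (nat_lit 492) ln11_11_4 ln11_11_4_ok))))) (M (nat_lit 299) (B (M (nat_lit 298) (B (L (nat_lit 266) ln11_12_7 ln11_12_7_ok)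 (L (nat_lit 330) ln11_13_7 ln11_13_7_ok))) (M (nat_lit 300) (B (L (nat_lit 268) ln11_12_6 ln11_12_6_ok) (L (nat_lit 332) ln11_13_6 ln11_13_6_ok))))))))) (M (nat_lit 459) (B (M (nat_lit 491) (B (M (nat_lit 364) (B (L (nat_lit 332) ln11_14_6 ln11_14_6_ok) (L (nat_lit 396) ln11_15_6 ln11_15_6_ok))) (M (nat_lit 492) (B (L (nat_lit 460) ln11_11_4 ln11_11_4_ok) (L (nat_lit 524) ln11_12_4 ln11_12_4_ok))))) (B (M (nat_lit 491) (B (M (nat_lit 490) (B (L (nat_lit 458) ln11_11_5 ln11_11_5_ok) (L (nat_lit 522) ln11_12_5 ln11_12_5_ok))) (M (nat_lit 492) (B (L (nat_lit 460) ln11_11_4 ln11_11_4_ok) (L (nat_lit 524) ln11_12_4 ln11_12_4_ok))))) (B (M (nat_lit 491) (B (M (nat_lit 364) (B (L (nat_lit 332) ln11_14_6 ln11_14_6_ok) (L (nat_lit 396) ln11_15_6 ln11_15_6_ok))) (M (nat_lit 490) (B (L (nat_lit 458) ln11_11_5 ln11_11_5_ok) (L (nat_lit 522) ln11_12_5 ln11_12_5_ok))))) (M (nat_lit 331) (B (M (nat_lit 332) (B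 (L (nat_lit 300) ln11_13_6 ln11_13_6_ok) (L (nat_lit 364) ln11_14_6 ln11_14_6_ok))) (M (nat_lit 458) (B (L (nat_lit 426) ln11_10_5 ln11_10_5_ok) (L (nat_lit 490) ln11_11_5 ln11_11_5_ok))))))))))))))
noncomputable def c11_n15356 : Cert := (M (nat_lit 331) (B (M (nat_lit 428) (B (L (nat_lit 299) ln11_9_4 ln11_9_4_ok) (M (nat_lit 460) (B (L (nat_lit 427) ln11_10_4 ln11_10_4_ok) (L (nat_lit 492) ln12_15_7 ln12_15_7_ok))))) (B (M (nat_lit 427) (B (M (nat_lit 428) (B (L (nat_lit 460) ln11_10_4 ln11_10_4_ok) (M (nat_lit 426) (B (L (nat_lit 458) ln11_10_5 ln11_10_5_ok) (L (nat_lit 425) ln9_13_2 ln9_13_2_ok))))) (B (M (nat_lit 459) (B (M (nat_lit 330) (B (L (nat_lit 298) ln11_13_7 ln11_13_7_ok) (L (nat_lit 362) ln11_14_7 ln11_14_7_ok))) (M (nat_lit 460) (B (L (nat_lit 428) ln11_10_4 ln11_10_4_ok) (L (nat_lit 492) ln11_11_4 ln11_11_4_ok))))) (M (nat_lit 459) (B (M (nat_lit 330) (B (L (nat_lit 298) ln11_13_7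 ln11_13_7_ok) (L (nat_lit 362) ln11_14_7 ln11_14_7_ok))) (M (nat_lit 458) (B (L (nat_lit 426) ln11_10_5 ln11_10_5_ok) (L (nat_lit 490) ln11_11_5 ln11_11_5_ok)))))))) (B (M (nat_lit 299) (B (L (nat_lit 428) ln11_9_4 ln11_9_4_ok) (M (nat_lit 267) (B (M (nat_lit 266) (B (L (nat_lit 234) ln11_11_7 ln11_11_7_ok) (L (nat_lit 298) ln11_12_7 ln11_12_7_ok))) (M (nat_lit 268) (B (L (nat_lit 236) ln11_11_6 ln11_11_6_ok) (L (nat_lit 300) ln11_12_6 ln11_12_6_ok))))))) (M (nat_lit 299) (B (M (nat_lit 427) (B (M (nat_lit 298) (B (L (nat_lit 266) ln11_12_7 ln11_12_7_ok) (L (nat_lit 330) ln11_13_7 ln11_13_7_ok))) (M (nat_lit 300) (B (L (nat_lit 268) ln11_12_6 ln11_12_6_ok) (L (nat_lit 332) ln11_13_6 ln11_13_6_ok))))) (B (M (nat_lit 300) (B (L (nat_lit 268) ln11_12_6 ln11_12_6_ok) (M (nat_lit 332) (B (L (nat_lit 427) ln11_13_6 ln11_13_6_ok) (M (nat_lit 333) (B (L (nat_lit 365) ln13_13_7 ln13_13_7_ok) (M (nat_lit 298)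 (B (L (nat_lit 297) ln9_9_0 ln9_9_0_ok) (L (nat_lit 334) ln14_10_3 ln14_10_3_ok))))))))) (B (M (nat_lit 298) (B (L (nat_lit 266) ln11_12_7 ln11_12_7_ok) (M (nat_lit 332) (B (M (nat_lit 427) (B (L (nat_lit 330) ln11_13_7 ln11_13_7_ok) (L (nat_lit 300) ln11_13_6 ln11_13_6_ok))) (B (M (nat_lit 333) (B (L (nat_lit 334) ln14_10_3 ln14_10_3_ok) (M (nat_lit 297) (B (L (nat_lit 296) ln8_9_0 ln8_9_0_ok) (L (nat_lit 330) ln13_10_3 ln13_10_3_ok))))) (M (nat_lit 333) (B (L (nat_lit 334) ln14_10_3 ln14_10_3_ok) (M (nat_lit 297) (B (L (nat_lit 296) ln8_9_0 ln8_9_0_ok) (L (nat_lit 300) ln9_9_0 ln9_9_0_ok)))))))))) (B (M (nat_lit 300) (B (L (nat_lit 268) ln11_12_6 ln11_12_6_ok) (M (nat_lit 332) (B (L (nat_lit 427) ln11_13_6 ln11_13_6_ok) (M (nat_lit 333) (B (L (nat_lit 365) ln13_13_7 ln13_13_7_ok) (M (nat_lit 334) (B (L (nat_lit 335) ln15_10_3 ln15_10_3_ok) (L (nat_lit 362) ln14_10_1 ln14_10_1_ok))))))))) (B (M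 (nat_lit 267) (B (M (nat_lit 266) (B (L (nat_lit 234) ln11_11_7 ln11_11_7_ok) (L (nat_lit 298) ln11_12_7 ln11_12_7_ok))) (B (M (nat_lit 298) (B (L (nat_lit 266) ln11_12_7 ln11_12_7_ok) (M (nat_lit 330) (B (L (nat_lit 427) ln11_13_7 ln11_13_7_ok) (M (nat_lit 235) (B (L (nat_lit 203) ln11_6_5 ln11_6_5_ok) (L (nat_lit 362) ln11_7_5 ln11_7_5_ok))))))) (B (M (nat_lit 235) (B (M (nat_lit 236) (B (L (nat_lit 204) ln11_10_6 ln11_10_6_ok) (L (nat_lit 268) ln11_11_6 ln11_11_6_ok))) (M (nat_lit 330) (B (L (nat_lit 362) ln11_7_5 ln11_7_5_ok) (M (nat_lit 298) (B (L (nat_lit 203) ln11_6_5 ln11_6_5_ok) (L (nat_lit 427) ln11_13_7 ln11_13_7_ok))))))) (M (nat_lit 235) (B (M (nat_lit 234) (B (L (nat_lit 202) ln11_10_7 ln11_10_7_ok) (L (nat_lit 266) ln11_11_7 ln11_11_7_ok))) (M (nat_lit 236) (B (L (nat_lit 204) ln11_10_6 ln11_10_6_ok) (L (nat_lit 268) ln11_11_6 ln11_11_6_ok))))))))) (M (nat_lit 267) (B (M (nat_lit 266)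 (B (L (nat_lit 234) ln11_11_7 ln11_11_7_ok) (L (nat_lit 298) ln11_12_7 ln11_12_7_ok))) (M (nat_lit 268) (B (L (nat_lit 236) ln11_11_6 ln11_11_6_ok) (L (nat_lit 300) ln11_12_6 ln11_12_6_ok)))))))))))))))
theorem c11_s15359 : Sem (nat_lit 1386334847463883973259074899867469888166804987826239513933811424578367737327947330232376311913868743046426733629639806159484354560) (nat_lit 68647976623682790764066161728655858815333489935177469181517536266549593295425570703317481520834880316167231531183136161129240585176605705853218744298960322560) (nat_lit 68647976623682790764066161728655858815333489935177469181517536266549593295425570703317481520834880316167231531183136161129240585176605705853218744298960322560) :=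
  sem_of_chk (M (nat_lit 396) (B (M (nat_lit 398) (B (L (nat_lit 362) ln14_12_3 ln14_12_3_ok) (M (nat_lit 399) (B (M (nat_lit 367) (B (L (nat_lit 366) ln11_12_2 ln11_12_2_ok) (L (nat_lit 368) ln12_12_2 ln12_12_2_ok))) (M (nat_lit 427) (B (L (nat_lit 426) ln14_12_1 ln14_12_1_ok) (L (nat_lit 428) ln15_12_1 ln15_12_1_ok))))))) (B (M (nat_lit 427) (B (M (nat_lit 398) (B (L (nat_lit 426) ln14_12_1 ln14_12_1_ok) (M (nat_lit 399) (B (L (nat_lit 428) ln15_12_1 ln15_12_1_ok) (M (nat_lit 367) (B (L (nat_lit 366) ln11_12_2 ln11_12_2_ok) (L (nat_lit 368) ln12_12_2 ln12_12_2_ok))))))) (B (M (nat_lit 428) (B (M (nat_lit 331) (B (L (nat_lit 299) ln11_9_4 ln11_9_4_ok) (L (nat_lit 460) ln11_10_4 ln11_10_4_ok))) (M (nat_lit 426) (B (L (nat_lit 398) ln14_12_1 ln14_12_1_ok) (L (nat_lit 425) ln9_13_2 ln9_13_2_ok))))) (B (M (nat_lit 428) (B (M (nat_lit 331) (B (L (nat_lit 299) ln11_9_4 ln11_9_4_ok) (L (nat_lit 460) ln11_10_4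 ln11_10_4_ok))) (B (M (nat_lit 426) (B (L (nat_lit 425) ln9_13_2 ln9_13_2_ok) (M (nat_lit 331) (B (L (nat_lit 458) ln11_10_5 ln11_10_5_ok) (L (nat_lit 460) ln11_10_4 ln11_10_4_ok))))) (M (nat_lit 458) (B (M (nat_lit 426) (B (L (nat_lit 425) ln9_13_2 ln9_13_2_ok) (L (nat_lit 457) ln13_13_1 ln13_13_1_ok))) (M (nat_lit 430) (B (L (nat_lit 431) ln15_13_3 ln15_13_3_ok) (L (nat_lit 459) ln14_13_1 ln14_13_1_ok)))))))) (B (M (nat_lit 459) (B (M (nat_lit 460) (B (L (nat_lit 492) ln11_11_4 ln11_11_4_ok) (M (nat_lit 428) (B (L (nat_lit 331) ln11_10_4 ln11_10_4_ok) (M (nat_lit 458) (B (L (nat_lit 490) ln11_11_5 ln11_11_5_ok) (L (nat_lit 457) ln9_14_2 ln9_14_2_ok))))))) (B (M (nat_lit 430) (B (M (nat_lit 431) (B (L (nat_lit 398) ln11_12_0 ln11_12_0_ok) (L (nat_lit 428) ln15_13_3 ln15_13_3_ok))) (B (M (nat_lit 431) (B (L (nat_lit 428) ln15_13_3 ln15_13_3_ok) (L (nat_lit 432) ln16_13_3 ln16_13_3_ok))) (B (M (nat_lit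 431) (B (L (nat_lit 398) ln11_12_0 ln11_12_0_ok) (L (nat_lit 432) ln16_13_3 ln16_13_3_ok))) (M (nat_lit 458) (B (L (nat_lit 490) ln11_11_5 ln11_11_5_ok) (L (nat_lit 428) ln14_13_1 ln14_13_1_ok))))))) (B (M (nat_lit 491) (B (M (nat_lit 490) (B (L (nat_lit 458) ln11_11_5 ln11_11_5_ok) (L (nat_lit 522) ln11_12_5 ln11_12_5_ok))) (M (nat_lit 492) (B (L (nat_lit 460) ln11_11_4 ln11_11_4_ok) (L (nat_lit 524) ln11_12_4 ln11_12_4_ok))))) (M (nat_lit 331) (B (M (nat_lit 428) (B (L (nat_lit 299) ln11_9_4 ln11_9_4_ok) (L (nat_lit 460) ln11_10_4 ln11_10_4_ok))) (B (M (nat_lit 460) (B (L (nat_lit 428) ln11_10_4 ln11_10_4_ok) (L (nat_lit 492) ln11_11_4 ln11_11_4_ok))) (M (nat_lit 299) (B (M (nat_lit 298) (B (L (nat_lit 266) ln11_12_7 ln11_12_7_ok) (L (nat_lit 330) ln11_13_7 ln11_13_7_ok))) (M (nat_lit 300) (B (L (nat_lit 268) ln11_12_6 ln11_12_6_ok) (L (nat_lit 332) ln11_13_6 ln11_13_6_ok)))))))))))) (M (nat_lit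 426) (B (L (nat_lit 398) ln14_12_1 ln14_12_1_ok) (M (nat_lit 458) (B (L (nat_lit 331) ln11_10_5 ln11_10_5_ok) (M (nat_lit 490) (B (L (nat_lit 459) ln11_11_5 ln11_11_5_ok) (L (nat_lit 522) ln10_16_6 ln10_16_6_ok)))))))))))) (B (M (nat_lit 398) (B (L (nat_lit 362) ln14_12_3 ln14_12_3_ok) (M (nat_lit 399) (B (M (nat_lit 427) (B (L (nat_lit 426) ln14_12_1 ln14_12_1_ok) (L (nat_lit 428) ln15_12_1 ln15_12_1_ok))) (M (nat_lit 431) (B (L (nat_lit 430) ln11_12_0 ln11_12_0_ok) (L (nat_lit 432) ln12_12_0 ln12_12_0_ok))))))) (B c11_n15356 (M (nat_lit 398) (B (L (nat_lit 362) ln14_12_3 ln14_12_3_ok) (M (nat_lit 399) (B (M (nat_lit 367) (B (L (nat_lit 366) ln11_12_2 ln11_12_2_ok) (L (nat_lit 368) ln12_12_2 ln12_12_2_ok))) (M (nat_lit 431) (B (L (nat_lit 430) ln11_12_0 ln11_12_0_ok) (L (nat_lit 432) ln12_12_0 ln12_12_0_ok)))))))))))) (nat_lit 1386334847463883973259074899867469888166804987826239513933811424578367737327947330232376311913868743046426733629639806159484354560)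 (nat_lit 68647976623682790764066161728655858815333489935177469181517536266549593295425570703317481520834880316167231531183136161129240585176605705853218744298960322560) (nat_lit 68647976623682790764066161728655858815333489935177469181517536266549593295425570703317481520834880316167231531183136161129240585176605705853218744298960322560) (by decide +kernel)
theorem c11_s15370 : Sem (nat_lit 1386334847463883973259074899867469888166804987826239513933811424578367737327947330232376311913868743046426733629639806159484354560) (nat_lit 68647976623682790763694020285093843997126930783398406718737140532243012740061499604232428014396897929369047355705919954276518955069454731475581841173406285824) (nat_lit 68647976623682790763694020285093843997126930783398406718737140532243012740061499604232428014396897929369047355705919954276518955069454731475581841173406285824) :=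
  sem_of_chk (M (nat_lit 427) (B (M (nat_lit 331) (B (M (nat_lit 428) (B (L (nat_lit 460) ln11_10_4 ln11_10_4_ok) (M (nat_lit 426) (B (L (nat_lit 458) ln11_10_5 ln11_10_5_ok) (L (nat_lit 398) ln10_13_2 ln10_13_2_ok))))) (B (M (nat_lit 459) (B (M (nat_lit 330) (B (L (nat_lit 298) ln11_13_7 ln11_13_7_ok) (L (nat_lit 362) ln11_14_7 ln11_14_7_ok))) (M (nat_lit 460) (B (L (nat_lit 428) ln11_10_4 ln11_10_4_ok) (L (nat_lit 492) ln11_11_4 ln11_11_4_ok))))) (M (nat_lit 459) (B (M (nat_lit 330) (B (L (nat_lit 298) ln11_13_7 ln11_13_7_ok) (L (nat_lit 362) ln11_14_7 ln11_14_7_ok))) (M (nat_lit 458) (B (L (nat_lit 426) ln11_10_5 ln11_10_5_ok) (L (nat_lit 490) ln11_11_5 ln11_11_5_ok)))))))) (B (M (nat_lit 428) (B (M (nat_lit 460) (B (L (nat_lit 331) ln11_10_4 ln11_10_4_ok) (M (nat_lit 492) (B (L (nat_lit 459) ln11_11_4 ln11_11_4_ok) (L (nat_lit 524) ln12_16_7 ln12_16_7_ok))))) (M (nat_lit 398) (B (L (nat_lit 426)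 ln10_13_2 ln10_13_2_ok) (M (nat_lit 399) (B (L (nat_lit 400) ln16_12_1 ln16_12_1_ok) (L (nat_lit 430) ln11_13_2 ln11_13_2_ok))))))) (B (M (nat_lit 398) (B (M (nat_lit 428) (B (L (nat_lit 426) ln10_13_2 ln10_13_2_ok) (M (nat_lit 399) (B (L (nat_lit 400) ln16_12_1 ln16_12_1_ok) (L (nat_lit 430) ln11_13_2 ln11_13_2_ok))))) (B (M (nat_lit 459) (B (M (nat_lit 428) (B (L (nat_lit 426) ln10_13_2 ln10_13_2_ok) (M (nat_lit 458) (B (L (nat_lit 490) ln11_11_5 ln11_11_5_ok) (L (nat_lit 430) ln14_13_1 ln14_13_1_ok))))) (M (nat_lit 362) (B (L (nat_lit 330) ln11_14_7 ln11_14_7_ok) (M (nat_lit 364) (B (L (nat_lit 332) ln11_14_6 ln11_14_6_ok) (L (nat_lit 365) ln10_11_0 ln10_11_0_ok))))))) (M (nat_lit 459) (B (M (nat_lit 362) (B (L (nat_lit 330) ln11_14_7 ln11_14_7_ok) (M (nat_lit 364) (B (L (nat_lit 332) ln11_14_6 ln11_14_6_ok) (L (nat_lit 365) ln10_11_0 ln10_11_0_ok))))) (M (nat_lit 491) (B (M (nat_lit 490) (B (L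 (nat_lit 458) ln11_11_5 ln11_11_5_ok) (L (nat_lit 522) ln11_12_5 ln11_12_5_ok))) (M (nat_lit 492) (B (L (nat_lit 460) ln11_11_4 ln11_11_4_ok) (L (nat_lit 524) ln11_12_4 ln11_12_4_ok)))))))))) (B (M (nat_lit 459) (B (M (nat_lit 331) (B (M (nat_lit 330) (B (L (nat_lit 298) ln11_13_7 ln11_13_7_ok) (L (nat_lit 362) ln11_14_7 ln11_14_7_ok))) (M (nat_lit 332) (B (L (nat_lit 300) ln11_13_6 ln11_13_6_ok) (L (nat_lit 364) ln11_14_6 ln11_14_6_ok))))) (B (M (nat_lit 331) (B (M (nat_lit 332) (B (L (nat_lit 300) ln11_13_6 ln11_13_6_ok) (L (nat_lit 364) ln11_14_6 ln11_14_6_ok))) (M (nat_lit 458) (B (L (nat_lit 426) ln11_10_5 ln11_10_5_ok) (L (nat_lit 490) ln11_11_5 ln11_11_5_ok))))) (B (M (nat_lit 331) (B (M (nat_lit 330) (B (L (nat_lit 298) ln11_13_7 ln11_13_7_ok) (L (nat_lit 362) ln11_14_7 ln11_14_7_ok))) (M (nat_lit 458) (B (L (nat_lit 426) ln11_10_5 ln11_10_5_ok) (L (nat_lit 490) ln11_11_5 ln11_11_5_ok)))))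 (M (nat_lit 491) (B (M (nat_lit 490) (B (L (nat_lit 458) ln11_11_5 ln11_11_5_ok) (L (nat_lit 522) ln11_12_5 ln11_12_5_ok))) (M (nat_lit 492) (B (L (nat_lit 460) ln11_11_4 ln11_11_4_ok) (L (nat_lit 524) ln11_12_4 ln11_12_4_ok))))))))) (B (M (nat_lit 331) (B (M (nat_lit 459) (B (M (nat_lit 332) (B (L (nat_lit 300) ln11_13_6 ln11_13_6_ok) (L (nat_lit 364) ln11_14_6 ln11_14_6_ok))) (M (nat_lit 460) (B (L (nat_lit 428) ln11_10_4 ln11_10_4_ok) (L (nat_lit 492) ln11_11_4 ln11_11_4_ok))))) (B (M (nat_lit 459) (B (M (nat_lit 330) (B (L (nat_lit 298) ln11_13_7 ln11_13_7_ok) (L (nat_lit 362) ln11_14_7 ln11_14_7_ok))) (M (nat_lit 460) (B (L (nat_lit 428) ln11_10_4 ln11_10_4_ok) (L (nat_lit 492) ln11_11_4 ln11_11_4_ok))))) (B (M (nat_lit 459) (B (M (nat_lit 330) (B (L (nat_lit 298) ln11_13_7 ln11_13_7_ok) (L (nat_lit 362) ln11_14_7 ln11_14_7_ok))) (M (nat_lit 332) (B (L (nat_lit 300) ln11_13_6 ln11_13_6_ok) (L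 (nat_lit 364) ln11_14_6 ln11_14_6_ok))))) (M (nat_lit 299) (B (M (nat_lit 298) (B (L (nat_lit 266) ln11_12_7 ln11_12_7_ok) (L (nat_lit 330) ln11_13_7 ln11_13_7_ok))) (M (nat_lit 300) (B (L (nat_lit 268) ln11_12_6 ln11_12_6_ok) (L (nat_lit 332) ln11_13_6 ln11_13_6_ok))))))))) (B (M (nat_lit 331) (B (M (nat_lit 428) (B (L (nat_lit 460) ln11_10_4 ln11_10_4_ok) (M (nat_lit 426) (B (L (nat_lit 458) ln11_10_5 ln11_10_5_ok) (L (nat_lit 398) ln10_13_2 ln10_13_2_ok))))) (M (nat_lit 299) (B (M (nat_lit 298) (B (L (nat_lit 266) ln11_12_7 ln11_12_7_ok) (L (nat_lit 330) ln11_13_7 ln11_13_7_ok))) (M (nat_lit 300) (B (L (nat_lit 268) ln11_12_6 ln11_12_6_ok) (L (nat_lit 332) ln11_13_6 ln11_13_6_ok))))))) (M (nat_lit 331) (B (M (nat_lit 459) (B (M (nat_lit 332) (B (L (nat_lit 300) ln11_13_6 ln11_13_6_ok) (L (nat_lit 364) ln11_14_6 ln11_14_6_ok))) (M (nat_lit 458) (B (L (nat_lit 426) ln11_10_5 ln11_10_5_ok) (L (nat_lit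 490) ln11_11_5 ln11_11_5_ok))))) (B (M (nat_lit 459) (B (M (nat_lit 330) (B (L (nat_lit 298) ln11_13_7 ln11_13_7_ok) (L (nat_lit 362) ln11_14_7 ln11_14_7_ok))) (M (nat_lit 458) (B (L (nat_lit 426) ln11_10_5 ln11_10_5_ok) (L (nat_lit 490) ln11_11_5 ln11_11_5_ok))))) (B (M (nat_lit 459) (B (M (nat_lit 330) (B (L (nat_lit 298) ln11_13_7 ln11_13_7_ok) (L (nat_lit 362) ln11_14_7 ln11_14_7_ok))) (M (nat_lit 332) (B (L (nat_lit 300) ln11_13_6 ln11_13_6_ok) (L (nat_lit 364) ln11_14_6 ln11_14_6_ok))))) (M (nat_lit 299) (B (M (nat_lit 298) (B (L (nat_lit 266) ln11_12_7 ln11_12_7_ok) (L (nat_lit 330) ln11_13_7 ln11_13_7_ok))) (M (nat_lit 300) (B (L (nat_lit 268) ln11_12_6 ln11_12_6_ok) (L (nat_lit 332) ln11_13_6 ln11_13_6_ok)))))))))))))))) (nat_lit 1386334847463883973259074899867469888166804987826239513933811424578367737327947330232376311913868743046426733629639806159484354560) (nat_lit 68647976623682790763694020285093843997126930783398406718737140532243012740061499604232428014396897929369047355705919954276518955069454731475581841173406285824)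 (nat_lit 68647976623682790763694020285093843997126930783398406718737140532243012740061499604232428014396897929369047355705919954276518955069454731475581841173406285824) (by decide +kernel)
theorem c11_s15503 : Sem (nat_lit 1386334847463883973259074899867469888166804987826239513933811424578367737327947330232376311913868743046426733629639806159484354560) (nat_lit 15983352582827860201637730999337811659099503552526632186274890991700801321590391879679812902972908848085818299455170186902216031815361653805680689152) (nat_lit 15983352582827860201637730999337811659099503552526632186274890991700801321590391879679812902972908848085818299455170186902216031815361653805680689152) :=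
  sem_of_chk (M (nat_lit 331) (B (M (nat_lit 332) (B (M (nat_lit 300) (B (L (nat_lit 427) ln11_13_6 ln11_13_6_ok) (M (nat_lit 268) (B (L (nat_lit 236) ln12_7_5 ln12_7_5_ok) (L (nat_lit 364) ln12_8_5 ln12_8_5_ok))))) (B (M (nat_lit 300) (B (L (nat_lit 427) ln11_13_6 ln11_13_6_ok) (M (nat_lit 268) (B (L (nat_lit 299) ln11_12_6 ln11_12_6_ok) (L (nat_lit 364) ln12_8_5 ln12_8_5_ok))))) (B (M (nat_lit 427) (B (L (nat_lit 300) ln11_13_6 ln11_13_6_ok) (M (nat_lit 459) (B (L (nat_lit 364) ln11_14_6 ln11_14_6_ok) (M (nat_lit 330) (B (L (nat_lit 298) ln11_13_7 ln11_13_7_ok) (L (nat_lit 362) ln11_14_7 ln11_14_7_ok))))))) (B (M (nat_lit 427) (B (M (nat_lit 459) (B (L (nat_lit 364) ln11_14_6 ln11_14_6_ok) (M (nat_lit 330) (B (L (nat_lit 298) ln11_13_7 ln11_13_7_ok) (L (nat_lit 362) ln11_14_7 ln11_14_7_ok))))) (B (M (nat_lit 459) (B (L (nat_lit 364) ln11_14_6 ln11_14_6_ok) (M (nat_lit 458) (B (L (nat_lit 426) ln11_10_5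 ln11_10_5_ok) (L (nat_lit 490) ln11_11_5 ln11_11_5_ok))))) (B (M (nat_lit 459) (B (M (nat_lit 330) (B (L (nat_lit 298) ln11_13_7 ln11_13_7_ok) (L (nat_lit 362) ln11_14_7 ln11_14_7_ok))) (M (nat_lit 458) (B (L (nat_lit 426) ln11_10_5 ln11_10_5_ok) (L (nat_lit 490) ln11_11_5 ln11_11_5_ok))))) (M (nat_lit 299) (B (M (nat_lit 298) (B (L (nat_lit 266) ln11_12_7 ln11_12_7_ok) (L (nat_lit 330) ln11_13_7 ln11_13_7_ok))) (M (nat_lit 428) (B (L (nat_lit 396) ln11_9_4 ln11_9_4_ok) (L (nat_lit 460) ln11_10_4 ln11_10_4_ok))))))))) (B (M (nat_lit 300) (B (L (nat_lit 427) ln11_13_6 ln11_13_6_ok) (M (nat_lit 268) (B (L (nat_lit 236) ln12_7_5 ln12_7_5_ok) (L (nat_lit 299) ln11_12_6 ln11_12_6_ok))))) (M (nat_lit 333) (B (M (nat_lit 300) (B (L (nat_lit 365) ln13_13_7 ln13_13_7_ok) (M (nat_lit 268) (B (L (nat_lit 236) ln12_7_5 ln12_7_5_ok) (L (nat_lit 364) ln12_8_5 ln12_8_5_ok))))) (M (nat_lit 362) (B (L (nat_lit 334)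 ln14_10_1 ln14_10_1_ok) (M (nat_lit 361) (B (L (nat_lit 330) ln13_10_1 ln13_10_1_ok) (L (nat_lit 360) ln8_11_2 ln8_11_2_ok))))))))))))) (B (M (nat_lit 427) (B (M (nat_lit 299) (B (M (nat_lit 300) (B (L (nat_lit 268) ln11_12_6 ln11_12_6_ok) (L (nat_lit 332) ln11_13_6 ln11_13_6_ok))) (M (nat_lit 428) (B (L (nat_lit 396) ln11_9_4 ln11_9_4_ok) (L (nat_lit 460) ln11_10_4 ln11_10_4_ok))))) (B (M (nat_lit 299) (B (M (nat_lit 298) (B (L (nat_lit 266) ln11_12_7 ln11_12_7_ok) (L (nat_lit 330) ln11_13_7 ln11_13_7_ok))) (M (nat_lit 428) (B (L (nat_lit 396) ln11_9_4 ln11_9_4_ok) (L (nat_lit 460) ln11_10_4 ln11_10_4_ok))))) (B (M (nat_lit 459) (B (M (nat_lit 330) (B (L (nat_lit 298) ln11_13_7 ln11_13_7_ok) (L (nat_lit 362) ln11_14_7 ln11_14_7_ok))) (M (nat_lit 460) (B (L (nat_lit 428) ln11_10_4 ln11_10_4_ok) (L (nat_lit 492) ln11_11_4 ln11_11_4_ok))))) (M (nat_lit 299) (B (M (nat_lit 298) (B (L (nat_lit 266) ln11_12_7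 ln11_12_7_ok) (L (nat_lit 330) ln11_13_7 ln11_13_7_ok))) (M (nat_lit 300) (B (L (nat_lit 268) ln11_12_6 ln11_12_6_ok) (L (nat_lit 332) ln11_13_6 ln11_13_6_ok))))))))) (B (M (nat_lit 427) (B (M (nat_lit 459) (B (M (nat_lit 330) (B (L (nat_lit 298) ln11_13_7 ln11_13_7_ok) (L (nat_lit 362) ln11_14_7 ln11_14_7_ok))) (M (nat_lit 458) (B (L (nat_lit 426) ln11_10_5 ln11_10_5_ok) (L (nat_lit 490) ln11_11_5 ln11_11_5_ok))))) (B (M (nat_lit 459) (B (M (nat_lit 458) (B (L (nat_lit 426) ln11_10_5 ln11_10_5_ok) (L (nat_lit 490) ln11_11_5 ln11_11_5_ok))) (M (nat_lit 460) (B (L (nat_lit 428) ln11_10_4 ln11_10_4_ok) (L (nat_lit 492) ln11_11_4 ln11_11_4_ok))))) (B (M (nat_lit 459) (B (M (nat_lit 330) (B (L (nat_lit 298) ln11_13_7 ln11_13_7_ok) (L (nat_lit 362) ln11_14_7 ln11_14_7_ok))) (M (nat_lit 460) (B (L (nat_lit 428) ln11_10_4 ln11_10_4_ok) (L (nat_lit 492) ln11_11_4 ln11_11_4_ok))))) (M (nat_lit 299) (B (M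 (nat_lit 300) (B (L (nat_lit 268) ln11_12_6 ln11_12_6_ok) (L (nat_lit 332) ln11_13_6 ln11_13_6_ok))) (M (nat_lit 428) (B (L (nat_lit 396) ln11_9_4 ln11_9_4_ok) (L (nat_lit 460) ln11_10_4 ln11_10_4_ok))))))))) (B (M (nat_lit 427) (B (M (nat_lit 459) (B (M (nat_lit 330) (B (L (nat_lit 298) ln11_13_7 ln11_13_7_ok) (L (nat_lit 362) ln11_14_7 ln11_14_7_ok))) (M (nat_lit 458) (B (L (nat_lit 426) ln11_10_5 ln11_10_5_ok) (L (nat_lit 490) ln11_11_5 ln11_11_5_ok))))) (B (M (nat_lit 459) (B (M (nat_lit 332) (B (L (nat_lit 300) ln11_13_6 ln11_13_6_ok) (L (nat_lit 364) ln11_14_6 ln11_14_6_ok))) (M (nat_lit 460) (B (L (nat_lit 428) ln11_10_4 ln11_10_4_ok) (L (nat_lit 492) ln11_11_4 ln11_11_4_ok))))) (M (nat_lit 299) (B (M (nat_lit 298) (B (L (nat_lit 266) ln11_12_7 ln11_12_7_ok) (L (nat_lit 330) ln11_13_7 ln11_13_7_ok))) (M (nat_lit 428) (B (L (nat_lit 396) ln11_9_4 ln11_9_4_ok) (L (nat_lit 460) ln11_10_4 ln11_10_4_ok))))))))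 (B (M (nat_lit 427) (B (M (nat_lit 459) (B (M (nat_lit 332) (B (L (nat_lit 300) ln11_13_6 ln11_13_6_ok) (L (nat_lit 364) ln11_14_6 ln11_14_6_ok))) (M (nat_lit 458) (B (L (nat_lit 426) ln11_10_5 ln11_10_5_ok) (L (nat_lit 490) ln11_11_5 ln11_11_5_ok))))) (B (M (nat_lit 459) (B (M (nat_lit 458) (B (L (nat_lit 426) ln11_10_5 ln11_10_5_ok) (L (nat_lit 490) ln11_11_5 ln11_11_5_ok))) (M (nat_lit 460) (B (L (nat_lit 428) ln11_10_4 ln11_10_4_ok) (L (nat_lit 492) ln11_11_4 ln11_11_4_ok))))) (B (M (nat_lit 459) (B (M (nat_lit 332) (B (L (nat_lit 300) ln11_13_6 ln11_13_6_ok) (L (nat_lit 364) ln11_14_6 ln11_14_6_ok))) (M (nat_lit 460) (B (L (nat_lit 428) ln11_10_4 ln11_10_4_ok) (L (nat_lit 492) ln11_11_4 ln11_11_4_ok))))) (M (nat_lit 299) (B (M (nat_lit 300) (B (L (nat_lit 268) ln11_12_6 ln11_12_6_ok) (L (nat_lit 332) ln11_13_6 ln11_13_6_ok))) (M (nat_lit 428) (B (L (nat_lit 396) ln11_9_4 ln11_9_4_ok) (L (nat_lit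 460) ln11_10_4 ln11_10_4_ok))))))))) (B (M (nat_lit 332) (B (M (nat_lit 300) (B (L (nat_lit 427) ln11_13_6 ln11_13_6_ok) (M (nat_lit 268) (B (L (nat_lit 236) ln12_7_5 ln12_7_5_ok) (L (nat_lit 364) ln12_8_5 ln12_8_5_ok))))) (B (M (nat_lit 427) (B (L (nat_lit 300) ln11_13_6 ln11_13_6_ok) (M (nat_lit 459) (B (L (nat_lit 364) ln11_14_6 ln11_14_6_ok) (M (nat_lit 330) (B (L (nat_lit 298) ln11_13_7 ln11_13_7_ok) (L (nat_lit 362) ln11_14_7 ln11_14_7_ok))))))) (B (M (nat_lit 330) (B (M (nat_lit 427) (B (L (nat_lit 298) ln11_13_7 ln11_13_7_ok) (M (nat_lit 459) (B (L (nat_lit 362) ln11_14_7 ln11_14_7_ok) (L (nat_lit 364) ln11_14_6 ln11_14_6_ok))))) (B (M (nat_lit 333) (B (M (nat_lit 362) (B (L (nat_lit 361) ln13_10_1 ln13_10_1_ok) (L (nat_lit 334) ln14_10_1 ln14_10_1_ok))) (B (M (nat_lit 329) (B (M (nat_lit 361) (B (L (nat_lit 360) ln12_10_1 ln12_10_1_ok) (L (nat_lit 362) ln13_10_1 ln13_10_1_ok))) (M (nat_lit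 365) (B (L (nat_lit 364) ln9_10_0 ln9_10_0_ok) (L (nat_lit 366) ln10_10_0 ln10_10_0_ok))))) (M (nat_lit 365) (B (L (nat_lit 366) ln10_10_0 ln10_10_0_ok) (M (nat_lit 302) (B (L (nat_lit 301) ln10_10_2 ln10_10_2_ok) (L (nat_lit 334) ln13_13_6 ln13_13_6_ok)))))))) (B (M (nat_lit 364) (B (M (nat_lit 365) (B (L (nat_lit 329) ln9_10_0 ln9_10_0_ok) (L (nat_lit 366) ln14_11_3 ln14_11_3_ok))) (M (nat_lit 427) (B (L (nat_lit 298) ln11_13_7 ln11_13_7_ok) (L (nat_lit 459) ln11_14_6 ln11_14_6_ok))))) (M (nat_lit 333) (B (M (nat_lit 298) (B (L (nat_lit 297) ln13_10_3 ln13_10_3_ok) (L (nat_lit 427) ln11_13_7 ln11_13_7_ok))) (M (nat_lit 362) (B (L (nat_lit 361) ln13_10_1 ln13_10_1_ok) (L (nat_lit 334) ln14_10_1 ln14_10_1_ok))))))))) (B (M (nat_lit 330) (B (M (nat_lit 427) (B (L (nat_lit 298) ln11_13_7 ln11_13_7_ok) (L (nat_lit 300) ln11_13_6 ln11_13_6_ok))) (B (M (nat_lit 333) (B (M (nat_lit 300) (B (L (nat_lit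 427) ln11_13_6 ln11_13_6_ok) (L (nat_lit 365) ln13_13_7 ln13_13_7_ok))) (M (nat_lit 362) (B (L (nat_lit 361) ln13_10_1 ln13_10_1_ok) (L (nat_lit 334) ln14_10_1 ln14_10_1_ok))))) (B (M (nat_lit 333) (B (M (nat_lit 298) (B (L (nat_lit 297) ln13_10_3 ln13_10_3_ok) (L (nat_lit 427) ln11_13_7 ln11_13_7_ok))) (M (nat_lit 362) (B (L (nat_lit 361) ln13_10_1 ln13_10_1_ok) (L (nat_lit 334) ln14_10_1 ln14_10_1_ok))))) (M (nat_lit 333) (B (M (nat_lit 365) (B (L (nat_lit 300) ln13_13_7 ln13_13_7_ok) (L (nat_lit 366) ln10_10_0 ln10_10_0_ok))) (M (nat_lit 362) (B (L (nat_lit 361) ln13_10_1 ln13_10_1_ok) (L (nat_lit 334) ln14_10_1 ln14_10_1_ok))))))))) (M (nat_lit 333) (B (M (nat_lit 300) (B (L (nat_lit 365) ln13_13_7 ln13_13_7_ok) (M (nat_lit 268) (B (L (nat_lit 236) ln12_7_5 ln12_7_5_ok) (L (nat_lit 364) ln12_8_5 ln12_8_5_ok))))) (M (nat_lit 362) (B (L (nat_lit 334) ln14_10_1 ln14_10_1_ok) (M (nat_lit 361) (B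 (L (nat_lit 330) ln13_10_1 ln13_10_1_ok) (L (nat_lit 360) ln8_11_2 ln8_11_2_ok)))))))))))) (B (M (nat_lit 427) (B (M (nat_lit 459) (B (M (nat_lit 330) (B (L (nat_lit 298) ln11_13_7 ln11_13_7_ok) (L (nat_lit 362) ln11_14_7 ln11_14_7_ok))) (M (nat_lit 458) (B (L (nat_lit 426) ln11_10_5 ln11_10_5_ok) (L (nat_lit 490) ln11_11_5 ln11_11_5_ok))))) (B (M (nat_lit 459) (B (M (nat_lit 458) (B (L (nat_lit 426) ln11_10_5 ln11_10_5_ok) (L (nat_lit 490) ln11_11_5 ln11_11_5_ok))) (M (nat_lit 460) (B (L (nat_lit 428) ln11_10_4 ln11_10_4_ok) (L (nat_lit 492) ln11_11_4 ln11_11_4_ok))))) (B (M (nat_lit 459) (B (M (nat_lit 330) (B (L (nat_lit 298) ln11_13_7 ln11_13_7_ok) (L (nat_lit 362) ln11_14_7 ln11_14_7_ok))) (M (nat_lit 460) (B (L (nat_lit 428) ln11_10_4 ln11_10_4_ok) (L (nat_lit 492) ln11_11_4 ln11_11_4_ok))))) (M (nat_lit 299) (B (M (nat_lit 298) (B (L (nat_lit 266) ln11_12_7 ln11_12_7_ok) (L (nat_lit 330) ln11_13_7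 ln11_13_7_ok))) (M (nat_lit 428) (B (L (nat_lit 396) ln11_9_4 ln11_9_4_ok) (L (nat_lit 460) ln11_10_4 ln11_10_4_ok))))))))) (M (nat_lit 299) (B (M (nat_lit 268) (B (L (nat_lit 300) ln11_12_6 ln11_12_6_ok) (M (nat_lit 267) (B (L (nat_lit 236) ln11_11_6 ln11_11_6_ok) (M (nat_lit 266) (B (L (nat_lit 234) ln11_11_7 ln11_11_7_ok) (L (nat_lit 298) ln11_12_7 ln11_12_7_ok))))))) (B (M (nat_lit 267) (B (M (nat_lit 268) (B (L (nat_lit 236) ln11_11_6 ln11_11_6_ok) (L (nat_lit 300) ln11_12_6 ln11_12_6_ok))) (M (nat_lit 396) (B (L (nat_lit 364) ln11_8_4 ln11_8_4_ok) (L (nat_lit 428) ln11_9_4 ln11_9_4_ok))))) (B (M (nat_lit 267) (B (M (nat_lit 266) (B (L (nat_lit 234) ln11_11_7 ln11_11_7_ok) (L (nat_lit 298) ln11_12_7 ln11_12_7_ok))) (M (nat_lit 396) (B (L (nat_lit 364) ln11_8_4 ln11_8_4_ok) (L (nat_lit 428) ln11_9_4 ln11_9_4_ok))))) (M (nat_lit 332) (B (M (nat_lit 300) (B (L (nat_lit 268) ln11_12_6 ln11_12_6_ok)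 (M (nat_lit 396) (B (L (nat_lit 428) ln11_9_4 ln11_9_4_ok) (L (nat_lit 364) ln12_9_4 ln12_9_4_ok))))) (M (nat_lit 298) (B (L (nat_lit 266) ln11_12_7 ln11_12_7_ok) (M (nat_lit 333) (B (L (nat_lit 334) ln14_10_3 ln14_10_3_ok) (M (nat_lit 297) (B (L (nat_lit 296) ln8_9_0 ln8_9_0_ok) (L (nat_lit 330) ln13_10_3 ln13_10_3_ok))))))))))))))))))))) (nat_lit 1386334847463883973259074899867469888166804987826239513933811424578367737327947330232376311913868743046426733629639806159484354560) (nat_lit 15983352582827860201637730999337811659099503552526632186274890991700801321590391879679812902972908848085818299455170186902216031815361653805680689152) (nat_lit 15983352582827860201637730999337811659099503552526632186274890991700801321590391879679812902972908848085818299455170186902216031815361653805680689152) (by decide +kernel)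
theorem c11_s15684 : Sem (nat_lit 1386334847463883973259074899867469888166804987826239513933811424578367737327947330232376311913868743046426733629639806159484354560) (nat_lit 12786682066560001305623651819026232380513775584385190651789926903066237170925959058757971961467517052342763334692334728943167897702549041377454325760) (nat_lit 12786682066560001305623651819026232380513775584385190651789926903066237170925959058757971961467517052342763334692334728943167897702549041377454325760) :=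
  sem_of_chk (M (nat_lit 362) (B (M (nat_lit 396) (B (L (nat_lit 398) ln14_12_3 ln14_12_3_ok) (M (nat_lit 361) (B (L (nat_lit 360) ln8_11_0 ln8_11_0_ok) (L (nat_lit 364) ln9_11_0 ln9_11_0_ok))))) (B (M (nat_lit 364) (B (M (nat_lit 396) (B (L (nat_lit 361) ln9_11_0 ln9_11_0_ok) (L (nat_lit 398) ln14_12_3 ln14_12_3_ok))) (B (M (nat_lit 398) (B (L (nat_lit 365) ln10_11_0 ln10_11_0_ok) (L (nat_lit 396) ln14_12_3 ln14_12_3_ok))) (B (M (nat_lit 365) (B (L (nat_lit 398) ln10_11_0 ln10_11_0_ok) (M (nat_lit 333) (B (L (nat_lit 334) ln10_11_2 ln10_11_2_ok) (M (nat_lit 332) (B (L (nat_lit 300) ln13_13_7 ln13_13_7_ok) (L (nat_lit 361) ln9_11_2 ln9_11_2_ok))))))) (M (nat_lit 361) (B (L (nat_lit 396) ln9_11_0 ln9_11_0_ok) (M (nat_lit 365) (B (M (nat_lit 329) (B (L (nat_lit 328) ln12_11_3 ln12_11_3_ok) (L (nat_lit 330) ln13_11_3 ln13_11_3_ok))) (M (nat_lit 333) (B (L (nat_lit 332) ln9_11_2 ln9_11_2_ok) (L (nat_lit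 334) ln10_11_2 ln10_11_2_ok))))))))))) (B (M (nat_lit 365) (B (M (nat_lit 398) (B (L (nat_lit 364) ln10_11_0 ln10_11_0_ok) (L (nat_lit 396) ln14_12_3 ln14_12_3_ok))) (B (M (nat_lit 333) (B (M (nat_lit 332) (B (L (nat_lit 300) ln13_13_7 ln13_13_7_ok) (M (nat_lit 334) (B (L (nat_lit 302) ln13_13_6 ln13_13_6_ok) (L (nat_lit 331) ln14_10_1 ln14_10_1_ok))))) (B (M (nat_lit 301) (B (M (nat_lit 302) (B (L (nat_lit 270) ln13_12_6 ln13_12_6_ok) (L (nat_lit 334) ln13_13_6 ln13_13_6_ok))) (M (nat_lit 396) (B (L (nat_lit 428) ln13_9_5 ln13_9_5_ok) (L (nat_lit 398) ln14_12_3 ln14_12_3_ok))))) (M (nat_lit 301) (B (M (nat_lit 300) (B (L (nat_lit 268) ln13_12_7 ln13_12_7_ok) (L (nat_lit 332) ln13_13_7 ln13_13_7_ok))) (M (nat_lit 396) (B (L (nat_lit 428) ln13_9_5 ln13_9_5_ok) (L (nat_lit 398) ln14_12_3 ln14_12_3_ok)))))))) (B (M (nat_lit 333) (B (M (nat_lit 334) (B (L (nat_lit 302) ln13_13_6 ln13_13_6_ok) (L (nat_lit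 364) ln10_11_2 ln10_11_2_ok))) (B (M (nat_lit 364) (B (L (nat_lit 334) ln10_11_2 ln10_11_2_ok) (L (nat_lit 398) ln10_11_0 ln10_11_0_ok))) (B (M (nat_lit 301) (B (M (nat_lit 300) (B (L (nat_lit 268) ln13_12_7 ln13_12_7_ok) (L (nat_lit 332) ln13_13_7 ln13_13_7_ok))) (M (nat_lit 398) (B (L (nat_lit 430) ln13_9_4 ln13_9_4_ok) (L (nat_lit 364) ln10_11_0 ln10_11_0_ok))))) (M (nat_lit 301) (B (M (nat_lit 300) (B (L (nat_lit 268) ln13_12_7 ln13_12_7_ok) (L (nat_lit 332) ln13_13_7 ln13_13_7_ok))) (M (nat_lit 302) (B (L (nat_lit 270) ln13_12_6 ln13_12_6_ok) (L (nat_lit 334) ln13_13_6 ln13_13_6_ok))))))))) (M (nat_lit 333) (B (M (nat_lit 334) (B (L (nat_lit 302) ln13_13_6 ln13_13_6_ok) (L (nat_lit 364) ln10_11_2 ln10_11_2_ok))) (M (nat_lit 301) (B (M (nat_lit 300) (B (L (nat_lit 268) ln13_12_7 ln13_12_7_ok) (L (nat_lit 332) ln13_13_7 ln13_13_7_ok))) (M (nat_lit 428) (B (L (nat_lit 396) ln13_9_5 ln13_9_5_ok)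 (L (nat_lit 460) ln13_10_5 ln13_10_5_ok))))))))))) (B (M (nat_lit 331) (B (M (nat_lit 396) (B (L (nat_lit 398) ln14_12_3 ln14_12_3_ok) (M (nat_lit 428) (B (L (nat_lit 299) ln11_9_4 ln11_9_4_ok) (M (nat_lit 460) (B (L (nat_lit 427) ln11_10_4 ln11_10_4_ok) (L (nat_lit 492) ln12_15_7 ln12_15_7_ok))))))) (B (M (nat_lit 332) (B (M (nat_lit 300) (B (L (nat_lit 427) ln11_13_6 ln11_13_6_ok) (M (nat_lit 333) (B (L (nat_lit 365) ln13_13_7 ln13_13_7_ok) (L (nat_lit 334) ln14_10_1 ln14_10_1_ok))))) (B (M (nat_lit 333) (B (L (nat_lit 334) ln14_10_1 ln14_10_1_ok) (M (nat_lit 361) (B (L (nat_lit 330) ln13_10_1 ln13_10_1_ok) (L (nat_lit 360) ln8_11_2 ln8_11_2_ok))))) (M (nat_lit 427) (B (L (nat_lit 300) ln11_13_6 ln11_13_6_ok) (M (nat_lit 330) (B (L (nat_lit 298) ln11_13_7 ln11_13_7_ok) (L (nat_lit 459) ln11_14_7 ln11_14_7_ok)))))))) (M (nat_lit 299) (B (M (nat_lit 396) (B (L (nat_lit 428) ln11_9_4 ln11_9_4_ok)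 (L (nat_lit 398) ln14_12_3 ln14_12_3_ok))) (M (nat_lit 267) (B (M (nat_lit 266) (B (L (nat_lit 234) ln11_11_7 ln11_11_7_ok) (L (nat_lit 298) ln11_12_7 ln11_12_7_ok))) (M (nat_lit 268) (B (L (nat_lit 236) ln11_11_6 ln11_11_6_ok) (L (nat_lit 300) ln11_12_6 ln11_12_6_ok)))))))))) (B (M (nat_lit 364) (B (M (nat_lit 365) (B (L (nat_lit 398) ln10_11_0 ln10_11_0_ok) (M (nat_lit 333) (B (L (nat_lit 334) ln10_11_2 ln10_11_2_ok) (M (nat_lit 332) (B (L (nat_lit 300) ln13_13_7 ln13_13_7_ok) (L (nat_lit 361) ln9_11_2 ln9_11_2_ok))))))) (B (M (nat_lit 365) (B (L (nat_lit 398) ln10_11_0 ln10_11_0_ok) (M (nat_lit 361) (B (M (nat_lit 329) (B (L (nat_lit 328) ln12_11_3 ln12_11_3_ok) (L (nat_lit 330) ln13_11_3 ln13_11_3_ok))) (M (nat_lit 333) (B (L (nat_lit 332) ln9_11_2 ln9_11_2_ok) (L (nat_lit 334) ln10_11_2 ln10_11_2_ok))))))) (B (M (nat_lit 330) (B (M (nat_lit 365) (B (L (nat_lit 329) ln13_11_3 ln13_11_3_ok) (L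 (nat_lit 398) ln10_11_0 ln10_11_0_ok))) (M (nat_lit 298) (B (L (nat_lit 266) ln10_8_4 ln10_8_4_ok) (M (nat_lit 427) (B (L (nat_lit 331) ln11_13_7 ln11_13_7_ok) (L (nat_lit 459) ln11_14_7 ln11_14_7_ok))))))) (M (nat_lit 332) (B (M (nat_lit 300) (B (L (nat_lit 268) ln12_8_5 ln12_8_5_ok) (M (nat_lit 427) (B (L (nat_lit 331) ln11_13_6 ln11_13_6_ok) (L (nat_lit 459) ln11_14_6 ln11_14_6_ok))))) (B (M (nat_lit 331) (B (M (nat_lit 427) (B (L (nat_lit 300) ln11_13_6 ln11_13_6_ok) (L (nat_lit 459) ln11_14_6 ln11_14_6_ok))) (M (nat_lit 361) (B (L (nat_lit 360) ln8_11_2 ln8_11_2_ok) (L (nat_lit 333) ln9_11_2 ln9_11_2_ok))))) (B (M (nat_lit 361) (B (L (nat_lit 333) ln9_11_2 ln9_11_2_ok) (M (nat_lit 360) (B (L (nat_lit 331) ln8_11_2 ln8_11_2_ok) (M (nat_lit 328) (B (L (nat_lit 327) ln11_11_3 ln11_11_3_ok) (L (nat_lit 329) ln12_11_3 ln12_11_3_ok))))))) (M (nat_lit 361) (B (L (nat_lit 333) ln9_11_2 ln9_11_2_ok)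 (M (nat_lit 360) (B (M (nat_lit 328) (B (L (nat_lit 327) ln11_11_3 ln11_11_3_ok) (L (nat_lit 329) ln12_11_3 ln12_11_3_ok))) (M (nat_lit 392) (B (L (nat_lit 391) ln11_11_1 ln11_11_1_ok) (L (nat_lit 393) ln12_11_1 ln12_11_1_ok))))))))))))))) (M (nat_lit 364) (B (M (nat_lit 361) (B (L (nat_lit 396) ln9_11_0 ln9_11_0_ok) (M (nat_lit 332) (B (L (nat_lit 333) ln9_11_2 ln9_11_2_ok) (M (nat_lit 360) (B (L (nat_lit 331) ln8_11_2 ln8_11_2_ok) (M (nat_lit 328) (B (L (nat_lit 327) ln11_11_3 ln11_11_3_ok) (L (nat_lit 329) ln12_11_3 ln12_11_3_ok))))))))) (B (M (nat_lit 332) (B (M (nat_lit 300) (B (L (nat_lit 268) ln12_8_5 ln12_8_5_ok) (L (nat_lit 396) ln12_9_4 ln12_9_4_ok))) (B (M (nat_lit 361) (B (L (nat_lit 333) ln9_11_2 ln9_11_2_ok) (L (nat_lit 396) ln9_11_0 ln9_11_0_ok))) (M (nat_lit 300) (B (L (nat_lit 268) ln12_8_5 ln12_8_5_ok) (M (nat_lit 333) (B (L (nat_lit 365) ln13_13_7 ln13_13_7_ok) (L (nat_lit 361)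 ln9_11_2 ln9_11_2_ok)))))))) (B (M (nat_lit 361) (B (L (nat_lit 396) ln9_11_0 ln9_11_0_ok) (M (nat_lit 360) (B (M (nat_lit 328) (B (L (nat_lit 327) ln11_11_3 ln11_11_3_ok) (L (nat_lit 329) ln12_11_3 ln12_11_3_ok))) (M (nat_lit 392) (B (L (nat_lit 391) ln11_11_1 ln11_11_1_ok) (L (nat_lit 393) ln12_11_1 ln12_11_1_ok))))))) (B (M (nat_lit 365) (B (M (nat_lit 330) (B (L (nat_lit 329) ln13_11_3 ln13_11_3_ok) (M (nat_lit 427) (B (L (nat_lit 459) ln11_14_7 ln11_14_7_ok) (M (nat_lit 298) (B (L (nat_lit 266) ln10_8_4 ln10_8_4_ok) (L (nat_lit 331) ln11_13_7 ln11_13_7_ok))))))) (M (nat_lit 333) (B (L (nat_lit 334) ln10_11_2 ln10_11_2_ok) (M (nat_lit 301) (B (M (nat_lit 300) (B (L (nat_lit 268) ln13_12_7 ln13_12_7_ok) (L (nat_lit 332) ln13_13_7 ln13_13_7_ok))) (M (nat_lit 428) (B (L (nat_lit 396) ln13_9_5 ln13_9_5_ok) (L (nat_lit 460) ln13_10_5 ln13_10_5_ok))))))))) (M (nat_lit 332) (B (M (nat_lit 300) (B (L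 (nat_lit 268) ln12_8_5 ln12_8_5_ok) (M (nat_lit 333) (B (L (nat_lit 365) ln13_13_7 ln13_13_7_ok) (L (nat_lit 361) ln9_11_2 ln9_11_2_ok))))) (B (M (nat_lit 333) (B (L (nat_lit 361) ln9_11_2 ln9_11_2_ok) (M (nat_lit 334) (B (L (nat_lit 331) ln14_10_1 ln14_10_1_ok) (L (nat_lit 365) ln10_11_2 ln10_11_2_ok))))) (M (nat_lit 300) (B (L (nat_lit 268) ln12_8_5 ln12_8_5_ok) (M (nat_lit 427) (B (L (nat_lit 331) ln11_13_6 ln11_13_6_ok) (L (nat_lit 459) ln11_14_6 ln11_14_6_ok))))))))))))))))))) (nat_lit 1386334847463883973259074899867469888166804987826239513933811424578367737327947330232376311913868743046426733629639806159484354560) (nat_lit 12786682066560001305623651819026232380513775584385190651789926903066237170925959058757971961467517052342763334692334728943167897702549041377454325760) (nat_lit 12786682066560001305623651819026232380513775584385190651789926903066237170925959058757971961467517052342763334692334728943167897702549041377454325760)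 (by decide +kernel)
theorem c11_s15839 : Sem (nat_lit 1386334847463883973259074899867469888166804987826239513933811424578367737327947330232376311913868743046426733629639806159484354560) (nat_lit 2977131434816661115910765710438076782643308829014145886078329541411172281100772808522743150978451849033334212599814426274609821861831245824) (nat_lit 2977131434816661115910765710438076782643308829014145886078329541411172281100772808522743150978451849033334212599814426274609821861831245824) :=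
  sem_of_chk (M (nat_lit 365) (B (M (nat_lit 364) (B (M (nat_lit 398) (B (L (nat_lit 362) ln10_11_0 ln10_11_0_ok) (M (nat_lit 399) (B (L (nat_lit 366) ln11_11_0 ln11_11_0_ok) (L (nat_lit 400) ln16_12_3 ln16_12_3_ok))))) (B (M (nat_lit 366) (B (M (nat_lit 398) (B (L (nat_lit 399) ln11_11_0 ln11_11_0_ok) (M (nat_lit 334) (B (L (nat_lit 302) ln14_9_5 ln14_9_5_ok) (L (nat_lit 335) ln11_11_2 ln11_11_2_ok))))) (M (nat_lit 331) (B (L (nat_lit 330) ln14_11_3 ln14_11_3_ok) (M (nat_lit 367) (B (L (nat_lit 332) ln15_11_3 ln15_11_3_ok) (L (nat_lit 396) ln15_11_1 ln15_11_1_ok))))))) (B (M (nat_lit 398) (B (L (nat_lit 362) ln10_11_0 ln10_11_0_ok) (M (nat_lit 399) (B (L (nat_lit 396) ln15_12_3 ln15_12_3_ok) (L (nat_lit 400) ln16_12_3 ln16_12_3_ok))))) (M (nat_lit 366) (B (M (nat_lit 331) (B (L (nat_lit 330) ln14_11_3 ln14_11_3_ok) (M (nat_lit 367) (B (L (nat_lit 332) ln15_11_3 ln15_11_3_ok) (L (nat_lit 396) ln15_11_1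 ln15_11_1_ok))))) (M (nat_lit 334) (B (L (nat_lit 335) ln11_11_2 ln11_11_2_ok) (M (nat_lit 333) (B (L (nat_lit 302) ln13_13_6 ln13_13_6_ok) (L (nat_lit 362) ln10_11_2 ln10_11_2_ok))))))))))) (B (M (nat_lit 398) (B (M (nat_lit 362) (B (L (nat_lit 364) ln10_11_0 ln10_11_0_ok) (L (nat_lit 396) ln14_12_3 ln14_12_3_ok))) (B (M (nat_lit 399) (B (M (nat_lit 364) (B (L (nat_lit 366) ln11_11_0 ln11_11_0_ok) (L (nat_lit 396) ln15_12_3 ln15_12_3_ok))) (B (M (nat_lit 400) (B (L (nat_lit 428) ln16_12_1 ln16_12_1_ok) (M (nat_lit 401) (B (L (nat_lit 366) ln17_12_3 ln17_12_3_ok) (L (nat_lit 430) ln17_12_1 ln17_12_1_ok))))) (M (nat_lit 400) (B (L (nat_lit 364) ln16_12_3 ln16_12_3_ok) (L (nat_lit 428) ln16_12_1 ln16_12_1_ok)))))) (B (M (nat_lit 396) (B (L (nat_lit 362) ln14_12_3 ln14_12_3_ok) (M (nat_lit 399) (B (M (nat_lit 367) (B (L (nat_lit 366) ln11_12_2 ln11_12_2_ok) (L (nat_lit 368) ln12_12_2 ln12_12_2_ok)))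 (M (nat_lit 431) (B (L (nat_lit 430) ln11_12_0 ln11_12_0_ok) (L (nat_lit 432) ln12_12_0 ln12_12_0_ok))))))) (M (nat_lit 364) (B (L (nat_lit 362) ln10_11_0 ln10_11_0_ok) (M (nat_lit 399) (B (L (nat_lit 366) ln11_11_0 ln11_11_0_ok) (L (nat_lit 400) ln16_12_3 ln16_12_3_ok))))))))) (B (M (nat_lit 333) (B (M (nat_lit 428) (B (L (nat_lit 460) ln13_10_5 ln13_10_5_ok) (M (nat_lit 301) (B (L (nat_lit 396) ln13_9_5 ln13_9_5_ok) (M (nat_lit 302) (B (L (nat_lit 270) ln13_12_6 ln13_12_6_ok) (L (nat_lit 334) ln13_13_6 ln13_13_6_ok))))))) (B (M (nat_lit 301) (B (M (nat_lit 300) (B (L (nat_lit 268) ln13_12_7 ln13_12_7_ok) (L (nat_lit 332) ln13_13_7 ln13_13_7_ok))) (M (nat_lit 428) (B (L (nat_lit 396) ln13_9_5 ln13_9_5_ok) (L (nat_lit 460) ln13_10_5 ln13_10_5_ok))))) (B (M (nat_lit 364) (B (M (nat_lit 334) (B (L (nat_lit 302) ln13_13_6 ln13_13_6_ok) (M (nat_lit 332) (B (L (nat_lit 300) ln13_13_7 ln13_13_7_ok) (L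 (nat_lit 335) ln15_10_1 ln15_10_1_ok))))) (B (M (nat_lit 334) (B (L (nat_lit 302) ln13_13_6 ln13_13_6_ok) (M (nat_lit 335) (B (L (nat_lit 332) ln15_10_1 ln15_10_1_ok) (L (nat_lit 336) ln16_10_1 ln16_10_1_ok))))) (B (M (nat_lit 331) (B (M (nat_lit 332) (B (L (nat_lit 300) ln13_13_7 ln13_13_7_ok) (M (nat_lit 366) (B (L (nat_lit 330) ln10_10_0 ln10_10_0_ok) (L (nat_lit 367) ln15_11_3 ln15_11_3_ok))))) (B (M (nat_lit 366) (B (L (nat_lit 330) ln14_11_3 ln14_11_3_ok) (M (nat_lit 367) (B (L (nat_lit 332) ln15_11_3 ln15_11_3_ok) (L (nat_lit 396) ln15_11_1 ln15_11_1_ok))))) (B (M (nat_lit 299) (B (M (nat_lit 300) (B (L (nat_lit 268) ln11_12_6 ln11_12_6_ok) (L (nat_lit 332) ln13_13_7 ln13_13_7_ok))) (M (nat_lit 428) (B (L (nat_lit 396) ln11_9_4 ln11_9_4_ok) (L (nat_lit 460) ln13_10_5 ln13_10_5_ok))))) (M (nat_lit 396) (B (M (nat_lit 299) (B (L (nat_lit 267) ln11_8_4 ln11_8_4_ok) (L (nat_lit 428) ln11_9_4 ln11_9_4_ok)))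 (M (nat_lit 366) (B (L (nat_lit 330) ln14_11_3 ln14_11_3_ok) (L (nat_lit 367) ln15_11_1 ln15_11_1_ok))))))))) (M (nat_lit 334) (B (L (nat_lit 302) ln13_13_6 ln13_13_6_ok) (M (nat_lit 335) (B (L (nat_lit 336) ln16_10_1 ln16_10_1_ok) (L (nat_lit 366) ln11_11_2 ln11_11_2_ok))))))))) (M (nat_lit 301) (B (M (nat_lit 300) (B (L (nat_lit 268) ln13_12_7 ln13_12_7_ok) (L (nat_lit 332) ln13_13_7 ln13_13_7_ok))) (M (nat_lit 302) (B (L (nat_lit 270) ln13_12_6 ln13_12_6_ok) (L (nat_lit 334) ln13_13_6 ln13_13_6_ok))))))))) (B (M (nat_lit 333) (B (M (nat_lit 428) (B (L (nat_lit 460) ln13_10_5 ln13_10_5_ok) (M (nat_lit 301) (B (L (nat_lit 396) ln13_9_5 ln13_9_5_ok) (M (nat_lit 302) (B (L (nat_lit 270) ln13_12_6 ln13_12_6_ok) (L (nat_lit 334) ln13_13_6 ln13_13_6_ok))))))) (B (M (nat_lit 301) (B (M (nat_lit 300) (B (L (nat_lit 268) ln13_12_7 ln13_12_7_ok) (L (nat_lit 332) ln13_13_7 ln13_13_7_ok))) (M (nat_lit 428)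 (B (L (nat_lit 396) ln13_9_5 ln13_9_5_ok) (L (nat_lit 460) ln13_10_5 ln13_10_5_ok))))) (M (nat_lit 332) (B (L (nat_lit 300) ln13_13_7 ln13_13_7_ok) (M (nat_lit 334) (B (L (nat_lit 302) ln13_13_6 ln13_13_6_ok) (M (nat_lit 331) (B (L (nat_lit 362) ln14_10_1 ln14_10_1_ok) (M (nat_lit 366) (B (L (nat_lit 330) ln10_10_0 ln10_10_0_ok) (L (nat_lit 367) ln11_10_0 ln11_10_0_ok)))))))))))) (B (M (nat_lit 364) (B (M (nat_lit 398) (B (L (nat_lit 362) ln10_11_0 ln10_11_0_ok) (M (nat_lit 399) (B (L (nat_lit 396) ln15_12_3 ln15_12_3_ok) (L (nat_lit 400) ln16_12_3 ln16_12_3_ok))))) (B (M (nat_lit 333) (B (M (nat_lit 334) (B (L (nat_lit 302) ln13_13_6 ln13_13_6_ok) (M (nat_lit 332) (B (L (nat_lit 300) ln13_13_7 ln13_13_7_ok) (L (nat_lit 335) ln15_10_1 ln15_10_1_ok))))) (B (M (nat_lit 301) (B (M (nat_lit 302) (B (L (nat_lit 270) ln13_12_6 ln13_12_6_ok) (L (nat_lit 334) ln13_13_6 ln13_13_6_ok))) (M (nat_lit 428) (B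 (L (nat_lit 396) ln13_9_5 ln13_9_5_ok) (L (nat_lit 460) ln13_10_5 ln13_10_5_ok))))) (M (nat_lit 301) (B (M (nat_lit 300) (B (L (nat_lit 268) ln13_12_7 ln13_12_7_ok) (L (nat_lit 332) ln13_13_7 ln13_13_7_ok))) (M (nat_lit 428) (B (L (nat_lit 396) ln13_9_5 ln13_9_5_ok) (L (nat_lit 460) ln13_10_5 ln13_10_5_ok)))))))) (M (nat_lit 362) (B (L (nat_lit 398) ln10_11_0 ln10_11_0_ok) (M (nat_lit 333) (B (L (nat_lit 334) ln10_11_2 ln10_11_2_ok) (M (nat_lit 332) (B (L (nat_lit 300) ln13_13_7 ln13_13_7_ok) (L (nat_lit 361) ln9_11_2 ln9_11_2_ok)))))))))) (M (nat_lit 364) (B (M (nat_lit 398) (B (L (nat_lit 362) ln10_11_0 ln10_11_0_ok) (M (nat_lit 399) (B (L (nat_lit 366) ln11_11_0 ln11_11_0_ok) (L (nat_lit 400) ln16_12_3 ln16_12_3_ok))))) (B (M (nat_lit 366) (B (M (nat_lit 398) (B (L (nat_lit 399) ln11_11_0 ln11_11_0_ok) (M (nat_lit 334) (B (L (nat_lit 302) ln14_9_5 ln14_9_5_ok) (L (nat_lit 335) ln11_11_2 ln11_11_2_ok)))))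 (M (nat_lit 332) (B (M (nat_lit 300) (B (L (nat_lit 268) ln12_8_5 ln12_8_5_ok) (L (nat_lit 333) ln13_13_7 ln13_13_7_ok))) (M (nat_lit 331) (B (L (nat_lit 330) ln14_11_3 ln14_11_3_ok) (L (nat_lit 367) ln15_11_3 ln15_11_3_ok))))))) (B (M (nat_lit 362) (B (L (nat_lit 398) ln10_11_0 ln10_11_0_ok) (M (nat_lit 333) (B (L (nat_lit 334) ln10_11_2 ln10_11_2_ok) (M (nat_lit 332) (B (L (nat_lit 300) ln13_13_7 ln13_13_7_ok) (L (nat_lit 361) ln9_11_2 ln9_11_2_ok))))))) (M (nat_lit 366) (B (M (nat_lit 334) (B (L (nat_lit 335) ln11_11_2 ln11_11_2_ok) (M (nat_lit 302) (B (L (nat_lit 270) ln14_8_5 ln14_8_5_ok) (L (nat_lit 333) ln13_13_6 ln13_13_6_ok))))) (B (M (nat_lit 332) (B (M (nat_lit 300) (B (L (nat_lit 268) ln12_8_5 ln12_8_5_ok) (L (nat_lit 333) ln13_13_7 ln13_13_7_ok))) (M (nat_lit 331) (B (L (nat_lit 330) ln14_11_3 ln14_11_3_ok) (L (nat_lit 367) ln15_11_3 ln15_11_3_ok))))) (M (nat_lit 367) (B (M (nat_lit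 331) (B (L (nat_lit 330) ln14_11_3 ln14_11_3_ok) (L (nat_lit 332) ln15_11_3 ln15_11_3_ok))) (M (nat_lit 335) (B (L (nat_lit 334) ln11_11_2 ln11_11_2_ok) (L (nat_lit 336) ln12_11_2 ln12_11_2_ok)))))))))))))))))) (nat_lit 1386334847463883973259074899867469888166804987826239513933811424578367737327947330232376311913868743046426733629639806159484354560) (nat_lit 2977131434816661115910765710438076782643308829014145886078329541411172281100772808522743150978451849033334212599814426274609821861831245824) (nat_lit 2977131434816661115910765710438076782643308829014145886078329541411172281100772808522743150978451849033334212599814426274609821861831245824) (by decide +kernel)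
theorem c11_s15990 : Sem (nat_lit 1386334847463883973296651581191851219813036677374868906371822345360900855259263985776891656315702478141845917603796105407995314176) (nat_lit 9590011548803576696360246627437860441224649110537306188631673975625539055670808080424274217705838717691187655504192208533679783011744679618234286080) (nat_lit 9590011548803576696360246627437860441224649110537306188631673975625539055670808080424274217705838717691187655504192208533679783011744679618234286080) :=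
  sem_of_chk (M (nat_lit 331) (B (M (nat_lit 396) (B (M (nat_lit 362) (B (L (nat_lit 361) ln9_11_0 ln9_11_0_ok) (L (nat_lit 398) ln14_12_3 ln14_12_3_ok))) (B (M (nat_lit 398) (B (L (nat_lit 362) ln14_12_3 ln14_12_3_ok) (L (nat_lit 399) ln15_12_3 ln15_12_3_ok))) (M (nat_lit 300) (B (L (nat_lit 332) ln12_9_4 ln12_9_4_ok) (M (nat_lit 299) (B (L (nat_lit 267) ln11_8_4 ln11_8_4_ok) (L (nat_lit 268) ln11_12_6 ln11_12_6_ok)))))))) (B (M (nat_lit 427) (B (M (nat_lit 332) (B (L (nat_lit 300) ln11_13_6 ln11_13_6_ok) (L (nat_lit 459) ln11_14_6 ln11_14_6_ok))) (B (M (nat_lit 330) (B (L (nat_lit 298) ln11_13_7 ln11_13_7_ok) (M (nat_lit 459) (B (L (nat_lit 362) ln11_14_7 ln11_14_7_ok) (L (nat_lit 332) ln11_14_6 ln11_14_6_ok))))) (B (M (nat_lit 362) (B (M (nat_lit 330) (B (L (nat_lit 298) ln11_13_7 ln11_13_7_ok) (L (nat_lit 459) ln11_14_7 ln11_14_7_ok))) (M (nat_lit 396) (B (L (nat_lit 361) ln9_11_0 ln9_11_0_ok)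 (L (nat_lit 398) ln14_12_3 ln14_12_3_ok))))) (M (nat_lit 300) (B (L (nat_lit 332) ln11_13_6 ln11_13_6_ok) (M (nat_lit 299) (B (L (nat_lit 268) ln11_12_6 ln11_12_6_ok) (M (nat_lit 298) (B (L (nat_lit 266) ln11_12_7 ln11_12_7_ok) (L (nat_lit 330) ln11_13_7 ln11_13_7_ok))))))))))) (B (M (nat_lit 396) (B (M (nat_lit 362) (B (L (nat_lit 361) ln9_11_0 ln9_11_0_ok) (L (nat_lit 398) ln14_12_3 ln14_12_3_ok))) (B (M (nat_lit 398) (B (L (nat_lit 362) ln14_12_3 ln14_12_3_ok) (L (nat_lit 399) ln15_12_3 ln15_12_3_ok))) (B (M (nat_lit 427) (B (M (nat_lit 332) (B (L (nat_lit 300) ln11_13_6 ln11_13_6_ok) (L (nat_lit 459) ln11_14_6 ln11_14_6_ok))) (M (nat_lit 398) (B (L (nat_lit 399) ln15_12_3 ln15_12_3_ok) (L (nat_lit 426) ln14_12_1 ln14_12_1_ok))))) (M (nat_lit 427) (B (M (nat_lit 332) (B (L (nat_lit 300) ln11_13_6 ln11_13_6_ok) (L (nat_lit 459) ln11_14_6 ln11_14_6_ok))) (M (nat_lit 298) (B (L (nat_lit 330) ln11_13_7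 ln11_13_7_ok) (M (nat_lit 299) (B (L (nat_lit 266) ln11_12_7 ln11_12_7_ok) (L (nat_lit 267) ln11_8_4 ln11_8_4_ok))))))))))) (B (M (nat_lit 332) (B (M (nat_lit 300) (B (L (nat_lit 268) ln12_8_5 ln12_8_5_ok) (L (nat_lit 427) ln11_13_6 ln11_13_6_ok))) (B (M (nat_lit 300) (B (L (nat_lit 427) ln11_13_6 ln11_13_6_ok) (L (nat_lit 396) ln12_9_4 ln12_9_4_ok))) (B (M (nat_lit 361) (B (M (nat_lit 362) (B (L (nat_lit 360) ln8_11_2 ln8_11_2_ok) (L (nat_lit 333) ln9_11_2 ln9_11_2_ok))) (B (M (nat_lit 362) (B (L (nat_lit 360) ln8_11_2 ln8_11_2_ok) (L (nat_lit 396) ln9_11_0 ln9_11_0_ok))) (B (M (nat_lit 362) (B (L (nat_lit 333) ln9_11_2 ln9_11_2_ok) (L (nat_lit 396) ln9_11_0 ln9_11_0_ok))) (M (nat_lit 330) (B (M (nat_lit 427) (B (L (nat_lit 298) ln11_13_7 ln11_13_7_ok) (L (nat_lit 459) ln11_14_6 ln11_14_6_ok))) (M (nat_lit 329) (B (L (nat_lit 328) ln8_10_0 ln8_10_0_ok) (L (nat_lit 360) ln12_10_1 ln12_10_1_ok)))))))))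 (M (nat_lit 300) (B (L (nat_lit 268) ln12_8_5 ln12_8_5_ok) (L (nat_lit 396) ln12_9_4 ln12_9_4_ok))))))) (B (M (nat_lit 396) (B (M (nat_lit 362) (B (L (nat_lit 361) ln9_11_0 ln9_11_0_ok) (L (nat_lit 398) ln14_12_3 ln14_12_3_ok))) (B (M (nat_lit 398) (B (L (nat_lit 362) ln14_12_3 ln14_12_3_ok) (L (nat_lit 399) ln15_12_3 ln15_12_3_ok))) (B (M (nat_lit 427) (B (M (nat_lit 459) (B (L (nat_lit 332) ln11_14_6 ln11_14_6_ok) (L (nat_lit 491) ln11_15_6 ln11_15_6_ok))) (M (nat_lit 398) (B (L (nat_lit 399) ln15_12_3 ln15_12_3_ok) (L (nat_lit 426) ln14_12_1 ln14_12_1_ok))))) (M (nat_lit 427) (B (M (nat_lit 459) (B (L (nat_lit 332) ln11_14_6 ln11_14_6_ok) (L (nat_lit 491) ln11_15_6 ln11_15_6_ok))) (M (nat_lit 298) (B (L (nat_lit 330) ln11_13_7 ln11_13_7_ok) (M (nat_lit 299) (B (L (nat_lit 266) ln11_12_7 ln11_12_7_ok) (L (nat_lit 267) ln11_8_4 ln11_8_4_ok))))))))))) (B (M (nat_lit 396) (B (M (nat_lit 362) (B (L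 (nat_lit 361) ln9_11_0 ln9_11_0_ok) (L (nat_lit 398) ln14_12_3 ln14_12_3_ok))) (B (M (nat_lit 398) (B (L (nat_lit 362) ln14_12_3 ln14_12_3_ok) (L (nat_lit 399) ln15_12_3 ln15_12_3_ok))) (B (M (nat_lit 427) (B (M (nat_lit 398) (B (L (nat_lit 399) ln15_12_3 ln15_12_3_ok) (L (nat_lit 426) ln14_12_1 ln14_12_1_ok))) (M (nat_lit 298) (B (L (nat_lit 330) ln11_13_7 ln11_13_7_ok) (M (nat_lit 299) (B (L (nat_lit 266) ln11_12_7 ln11_12_7_ok) (L (nat_lit 267) ln11_8_4 ln11_8_4_ok))))))) (M (nat_lit 427) (B (M (nat_lit 459) (B (L (nat_lit 491) ln11_15_6 ln11_15_6_ok) (M (nat_lit 458) (B (L (nat_lit 426) ln11_10_5 ln11_10_5_ok) (L (nat_lit 490) ln11_11_5 ln11_11_5_ok))))) (M (nat_lit 298) (B (L (nat_lit 330) ln11_13_7 ln11_13_7_ok) (M (nat_lit 299) (B (L (nat_lit 266) ln11_12_7 ln11_12_7_ok) (L (nat_lit 267) ln11_8_4 ln11_8_4_ok))))))))))) (B (M (nat_lit 396) (B (M (nat_lit 398) (B (L (nat_lit 362) ln14_12_3 ln14_12_3_ok)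 (L (nat_lit 399) ln15_12_3 ln15_12_3_ok))) (M (nat_lit 300) (B (L (nat_lit 332) ln12_9_4 ln12_9_4_ok) (M (nat_lit 299) (B (L (nat_lit 267) ln11_8_4 ln11_8_4_ok) (L (nat_lit 268) ln11_12_6 ln11_12_6_ok))))))) (B (M (nat_lit 396) (B (M (nat_lit 300) (B (L (nat_lit 332) ln12_9_4 ln12_9_4_ok) (M (nat_lit 299) (B (L (nat_lit 267) ln11_8_4 ln11_8_4_ok) (L (nat_lit 268) ln11_12_6 ln11_12_6_ok))))) (B (M (nat_lit 427) (B (M (nat_lit 332) (B (L (nat_lit 300) ln11_13_6 ln11_13_6_ok) (L (nat_lit 459) ln11_14_6 ln11_14_6_ok))) (M (nat_lit 398) (B (L (nat_lit 399) ln15_12_3 ln15_12_3_ok) (L (nat_lit 426) ln14_12_1 ln14_12_1_ok))))) (B (M (nat_lit 427) (B (M (nat_lit 459) (B (L (nat_lit 332) ln11_14_6 ln11_14_6_ok) (L (nat_lit 491) ln11_15_6 ln11_15_6_ok))) (M (nat_lit 398) (B (L (nat_lit 399) ln15_12_3 ln15_12_3_ok) (L (nat_lit 426) ln14_12_1 ln14_12_1_ok))))) (M (nat_lit 427) (B (M (nat_lit 398) (B (L (nat_lit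 399) ln15_12_3 ln15_12_3_ok) (L (nat_lit 426) ln14_12_1 ln14_12_1_ok))) (M (nat_lit 298) (B (L (nat_lit 330) ln11_13_7 ln11_13_7_ok) (M (nat_lit 299) (B (L (nat_lit 266) ln11_12_7 ln11_12_7_ok) (L (nat_lit 267) ln11_8_4 ln11_8_4_ok))))))))))) (M (nat_lit 427) (B (M (nat_lit 332) (B (L (nat_lit 300) ln11_13_6 ln11_13_6_ok) (L (nat_lit 459) ln11_14_6 ln11_14_6_ok))) (B (M (nat_lit 330) (B (L (nat_lit 298) ln11_13_7 ln11_13_7_ok) (M (nat_lit 459) (B (L (nat_lit 362) ln11_14_7 ln11_14_7_ok) (L (nat_lit 332) ln11_14_6 ln11_14_6_ok))))) (B (M (nat_lit 459) (B (M (nat_lit 330) (B (L (nat_lit 298) ln11_13_7 ln11_13_7_ok) (L (nat_lit 362) ln11_14_7 ln11_14_7_ok))) (M (nat_lit 458) (B (L (nat_lit 426) ln11_10_5 ln11_10_5_ok) (L (nat_lit 490) ln11_11_5 ln11_11_5_ok))))) (M (nat_lit 300) (B (L (nat_lit 332) ln11_13_6 ln11_13_6_ok) (M (nat_lit 299) (B (L (nat_lit 268) ln11_12_6 ln11_12_6_ok) (M (nat_lit 298)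 (B (L (nat_lit 266) ln11_12_7 ln11_12_7_ok) (L (nat_lit 330) ln11_13_7 ln11_13_7_ok)))))))))))))))))))) (nat_lit 1386334847463883973296651581191851219813036677374868906371822345360900855259263985776891656315702478141845917603796105407995314176) (nat_lit 9590011548803576696360246627437860441224649110537306188631673975625539055670808080424274217705838717691187655504192208533679783011744679618234286080) (nat_lit 9590011548803576696360246627437860441224649110537306188631673975625539055670808080424274217705838717691187655504192208533679783011744679618234286080) (by decide +kernel)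
theorem c11_s16095 : Sem (nat_lit 1386334847463883973296651581191851219813036677374868906371822345360900855259263985776891656315702478141845917603796105407995314176) (nat_lit 1488565707703986623771507633917834555239509127546875879090110873544814994482520088814460822129444020303662214383141676617965367787918458880) (nat_lit 1488565707703986623771507633917834555239509127546875879090110873544814994482520088814460822129444020303662214383141676617965367787918458880) :=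
  sem_of_chk (M (nat_lit 331) (B (M (nat_lit 332) (B (M (nat_lit 300) (B (L (nat_lit 268) ln12_8_5 ln12_8_5_ok) (L (nat_lit 427) ln11_13_6 ln11_13_6_ok))) (B (M (nat_lit 427) (B (L (nat_lit 300) ln11_13_6 ln11_13_6_ok) (L (nat_lit 459) ln11_14_6 ln11_14_6_ok))) (B (M (nat_lit 330) (B (M (nat_lit 427) (B (L (nat_lit 298) ln11_13_7 ln11_13_7_ok) (L (nat_lit 459) ln11_14_6 ln11_14_6_ok))) (M (nat_lit 365) (B (L (nat_lit 329) ln9_10_0 ln9_10_0_ok) (L (nat_lit 366) ln14_11_3 ln14_11_3_ok))))) (M (nat_lit 300) (B (L (nat_lit 268) ln12_8_5 ln12_8_5_ok) (L (nat_lit 396) ln12_9_4 ln12_9_4_ok))))))) (B (M (nat_lit 332) (B (M (nat_lit 300) (B (L (nat_lit 427) ln11_13_6 ln11_13_6_ok) (L (nat_lit 396) ln12_9_4 ln12_9_4_ok))) (B (M (nat_lit 330) (B (M (nat_lit 427) (B (L (nat_lit 298) ln11_13_7 ln11_13_7_ok) (L (nat_lit 459) ln11_14_6 ln11_14_6_ok))) (M (nat_lit 365) (B (L (nat_lit 329) ln9_10_0 ln9_10_0_ok) (L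 (nat_lit 366) ln14_11_3 ln14_11_3_ok))))) (M (nat_lit 333) (B (M (nat_lit 300) (B (L (nat_lit 365) ln13_13_7 ln13_13_7_ok) (L (nat_lit 396) ln12_9_4 ln12_9_4_ok))) (M (nat_lit 334) (B (L (nat_lit 362) ln14_10_1 ln14_10_1_ok) (L (nat_lit 335) ln15_10_1 ln15_10_1_ok)))))))) (B (M (nat_lit 365) (B (M (nat_lit 366) (B (L (nat_lit 330) ln14_11_3 ln14_11_3_ok) (M (nat_lit 367) (B (L (nat_lit 332) ln15_11_3 ln15_11_3_ok) (L (nat_lit 396) ln15_11_1 ln15_11_1_ok))))) (B (M (nat_lit 366) (B (M (nat_lit 367) (B (L (nat_lit 332) ln15_11_3 ln15_11_3_ok) (L (nat_lit 396) ln15_11_1 ln15_11_1_ok))) (M (nat_lit 334) (B (L (nat_lit 335) ln11_11_2 ln11_11_2_ok) (M (nat_lit 302) (B (L (nat_lit 270) ln14_8_5 ln14_8_5_ok) (L (nat_lit 333) ln13_13_6 ln13_13_6_ok))))))) (B (M (nat_lit 334) (B (M (nat_lit 333) (B (L (nat_lit 302) ln13_13_6 ln13_13_6_ok) (L (nat_lit 362) ln10_11_2 ln10_11_2_ok))) (M (nat_lit 366) (B (L (nat_lit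 330) ln14_11_3 ln14_11_3_ok) (L (nat_lit 335) ln11_11_2 ln11_11_2_ok))))) (M (nat_lit 300) (B (M (nat_lit 268) (B (L (nat_lit 299) ln11_12_6 ln11_12_6_ok) (L (nat_lit 332) ln12_8_5 ln12_8_5_ok))) (B (M (nat_lit 332) (B (L (nat_lit 427) ln11_13_6 ln11_13_6_ok) (L (nat_lit 333) ln13_13_7 ln13_13_7_ok))) (M (nat_lit 333) (B (M (nat_lit 268) (B (L (nat_lit 299) ln11_12_6 ln11_12_6_ok) (L (nat_lit 301) ln13_12_7 ln13_12_7_ok))) (M (nat_lit 334) (B (L (nat_lit 302) ln13_13_6 ln13_13_6_ok) (L (nat_lit 362) ln10_11_2 ln10_11_2_ok)))))))))))) (B (M (nat_lit 330) (B (M (nat_lit 329) (B (L (nat_lit 328) ln8_10_0 ln8_10_0_ok) (M (nat_lit 365) (B (L (nat_lit 332) ln9_10_0 ln9_10_0_ok) (L (nat_lit 366) ln14_11_3 ln14_11_3_ok))))) (M (nat_lit 298) (B (L (nat_lit 427) ln11_13_7 ln11_13_7_ok) (M (nat_lit 266) (B (L (nat_lit 234) ln10_7_4 ln10_7_4_ok) (L (nat_lit 362) ln10_8_4 ln10_8_4_ok))))))) (B (M (nat_lit 300)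 (B (M (nat_lit 268) (B (L (nat_lit 299) ln11_12_6 ln11_12_6_ok) (L (nat_lit 332) ln12_8_5 ln12_8_5_ok))) (B (M (nat_lit 332) (B (L (nat_lit 427) ln11_13_6 ln11_13_6_ok) (L (nat_lit 396) ln12_9_4 ln12_9_4_ok))) (M (nat_lit 299) (B (L (nat_lit 268) ln11_12_6 ln11_12_6_ok) (M (nat_lit 266) (B (L (nat_lit 298) ln11_12_7 ln11_12_7_ok) (M (nat_lit 267) (B (L (nat_lit 234) ln11_11_7 ln11_11_7_ok) (L (nat_lit 396) ln11_8_4 ln11_8_4_ok)))))))))) (B (M (nat_lit 330) (B (M (nat_lit 298) (B (L (nat_lit 427) ln11_13_7 ln11_13_7_ok) (M (nat_lit 266) (B (L (nat_lit 234) ln10_7_4 ln10_7_4_ok) (L (nat_lit 362) ln10_8_4 ln10_8_4_ok))))) (B (M (nat_lit 298) (B (L (nat_lit 427) ln11_13_7 ln11_13_7_ok) (M (nat_lit 266) (B (L (nat_lit 299) ln11_12_7 ln11_12_7_ok) (L (nat_lit 362) ln10_8_4 ln10_8_4_ok))))) (B (M (nat_lit 329) (B (L (nat_lit 328) ln8_10_0 ln8_10_0_ok) (M (nat_lit 365) (B (L (nat_lit 362) ln13_11_3 ln13_11_3_ok)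 (L (nat_lit 366) ln14_11_3 ln14_11_3_ok))))) (M (nat_lit 298) (B (L (nat_lit 427) ln11_13_7 ln11_13_7_ok) (M (nat_lit 266) (B (L (nat_lit 234) ln10_7_4 ln10_7_4_ok) (L (nat_lit 299) ln11_12_7 ln11_12_7_ok))))))))) (M (nat_lit 365) (B (M (nat_lit 366) (B (L (nat_lit 330) ln14_11_3 ln14_11_3_ok) (M (nat_lit 367) (B (L (nat_lit 332) ln15_11_3 ln15_11_3_ok) (L (nat_lit 396) ln15_11_1 ln15_11_1_ok))))) (B (M (nat_lit 366) (B (M (nat_lit 367) (B (L (nat_lit 332) ln15_11_3 ln15_11_3_ok) (L (nat_lit 396) ln15_11_1 ln15_11_1_ok))) (M (nat_lit 334) (B (L (nat_lit 335) ln11_11_2 ln11_11_2_ok) (M (nat_lit 302) (B (L (nat_lit 270) ln14_8_5 ln14_8_5_ok) (L (nat_lit 333) ln13_13_6 ln13_13_6_ok))))))) (B (M (nat_lit 334) (B (M (nat_lit 333) (B (L (nat_lit 302) ln13_13_6 ln13_13_6_ok) (L (nat_lit 362) ln10_11_2 ln10_11_2_ok))) (M (nat_lit 366) (B (L (nat_lit 330) ln14_11_3 ln14_11_3_ok) (L (nat_lit 335) ln11_11_2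 ln11_11_2_ok))))) (M (nat_lit 300) (B (M (nat_lit 268) (B (L (nat_lit 299) ln11_12_6 ln11_12_6_ok) (L (nat_lit 332) ln12_8_5 ln12_8_5_ok))) (B (M (nat_lit 333) (B (L (nat_lit 332) ln13_13_7 ln13_13_7_ok) (M (nat_lit 334) (B (L (nat_lit 302) ln13_13_6 ln13_13_6_ok) (L (nat_lit 362) ln10_11_2 ln10_11_2_ok))))) (M (nat_lit 333) (B (M (nat_lit 268) (B (L (nat_lit 299) ln11_12_6 ln11_12_6_ok) (L (nat_lit 301) ln13_12_7 ln13_12_7_ok))) (M (nat_lit 334) (B (L (nat_lit 302) ln13_13_6 ln13_13_6_ok) (L (nat_lit 362) ln10_11_2 ln10_11_2_ok))))))))))))))))))) (nat_lit 1386334847463883973296651581191851219813036677374868906371822345360900855259263985776891656315702478141845917603796105407995314176) (nat_lit 1488565707703986623771507633917834555239509127546875879090110873544814994482520088814460822129444020303662214383141676617965367787918458880) (nat_lit 1488565707703986623771507633917834555239509127546875879090110873544814994482520088814460822129444020303662214383141676617965367787918458880)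 (by decide +kernel)
noncomputable def c11_n16096 : Cert := (M (nat_lit 364) (B (M (nat_lit 398) (B (M (nat_lit 362) (B (L (nat_lit 365) ln10_11_0 ln10_11_0_ok) (L (nat_lit 396) ln14_12_3 ln14_12_3_ok))) (B (M (nat_lit 399) (B (L (nat_lit 396) ln15_12_3 ln15_12_3_ok) (M (nat_lit 365) (B (L (nat_lit 366) ln11_11_0 ln11_11_0_ok) (L (nat_lit 400) ln16_12_3 ln16_12_3_ok))))) (B (M (nat_lit 396) (B (L (nat_lit 362) ln14_12_3 ln14_12_3_ok) (L (nat_lit 399) ln15_12_3 ln15_12_3_ok))) (M (nat_lit 365) (B (L (nat_lit 362) ln10_11_0 ln10_11_0_ok) (M (nat_lit 399) (B (L (nat_lit 366) ln11_11_0 ln11_11_0_ok) (L (nat_lit 400) ln16_12_3 ln16_12_3_ok))))))))) (B (M (nat_lit 398) (B (M (nat_lit 399) (B (L (nat_lit 396) ln15_12_3 ln15_12_3_ok) (M (nat_lit 365) (B (L (nat_lit 366) ln11_11_0 ln11_11_0_ok) (L (nat_lit 400) ln16_12_3 ln16_12_3_ok))))) (B (M (nat_lit 396) (B (L (nat_lit 399) ln15_12_3 ln15_12_3_ok) (M (nat_lit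 427) (B (L (nat_lit 426) ln14_12_1 ln14_12_1_ok) (M (nat_lit 332) (B (L (nat_lit 300) ln12_9_5 ln12_9_5_ok) (L (nat_lit 459) ln11_14_6 ln11_14_6_ok))))))) (B (M (nat_lit 365) (B (M (nat_lit 399) (B (L (nat_lit 366) ln11_11_0 ln11_11_0_ok) (L (nat_lit 400) ln16_12_3 ln16_12_3_ok))) (M (nat_lit 333) (B (M (nat_lit 300) (B (L (nat_lit 332) ln13_13_7 ln13_13_7_ok) (M (nat_lit 301) (B (L (nat_lit 268) ln13_12_7 ln13_12_7_ok) (L (nat_lit 430) ln13_9_4 ln13_9_4_ok))))) (B (M (nat_lit 301) (B (L (nat_lit 430) ln13_9_4 ln13_9_4_ok) (M (nat_lit 302) (B (L (nat_lit 270) ln13_12_6 ln13_12_6_ok) (L (nat_lit 334) ln13_13_6 ln13_13_6_ok))))) (M (nat_lit 332) (B (L (nat_lit 300) ln13_13_7 ln13_13_7_ok) (M (nat_lit 334) (B (L (nat_lit 302) ln13_13_6 ln13_13_6_ok) (L (nat_lit 335) ln15_10_1 ln15_10_1_ok)))))))))) (M (nat_lit 332) (B (M (nat_lit 300) (B (L (nat_lit 268) ln12_8_5 ln12_8_5_ok) (L (nat_lit 396) ln12_9_4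 ln12_9_4_ok))) (B (M (nat_lit 300) (B (L (nat_lit 396) ln12_9_4 ln12_9_4_ok) (M (nat_lit 427) (B (L (nat_lit 331) ln11_13_6 ln11_13_6_ok) (L (nat_lit 459) ln11_14_6 ln11_14_6_ok))))) (B (M (nat_lit 366) (B (M (nat_lit 396) (B (L (nat_lit 367) ln11_12_2 ln11_12_2_ok) (M (nat_lit 427) (B (L (nat_lit 459) ln11_14_6 ln11_14_6_ok) (L (nat_lit 426) ln14_12_1 ln14_12_1_ok))))) (M (nat_lit 334) (B (L (nat_lit 302) ln14_9_5 ln14_9_5_ok) (M (nat_lit 335) (B (L (nat_lit 333) ln15_10_1 ln15_10_1_ok) (L (nat_lit 365) ln11_11_2 ln11_11_2_ok))))))) (M (nat_lit 300) (B (L (nat_lit 268) ln12_8_5 ln12_8_5_ok) (M (nat_lit 427) (B (L (nat_lit 331) ln11_13_6 ln11_13_6_ok) (L (nat_lit 459) ln11_14_6 ln11_14_6_ok))))))))))))) (B (K (nat_lit 1386334847463883973296651581191851219813036677374868906371822345360900855259263985776891656315702478141845917603796105407995314176) (nat_lit 9590011548803576696360246627437860441224649110537306188631673975625539055670808080424274217705838717691187655504192208533679783011744679618234286080)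 (nat_lit 9590011548803576696360246627437860441224649110537306188631673975625539055670808080424274217705838717691187655504192208533679783011744679618234286080) c11_s15990) (B (M (nat_lit 365) (B (M (nat_lit 398) (B (L (nat_lit 362) ln10_11_0 ln10_11_0_ok) (M (nat_lit 399) (B (L (nat_lit 366) ln11_11_0 ln11_11_0_ok) (L (nat_lit 400) ln16_12_3 ln16_12_3_ok))))) (B (M (nat_lit 366) (B (M (nat_lit 398) (B (L (nat_lit 399) ln11_11_0 ln11_11_0_ok) (M (nat_lit 334) (B (L (nat_lit 302) ln14_9_5 ln14_9_5_ok) (L (nat_lit 335) ln11_11_2 ln11_11_2_ok))))) (M (nat_lit 332) (B (M (nat_lit 300) (B (L (nat_lit 268) ln12_8_5 ln12_8_5_ok) (L (nat_lit 333) ln13_13_7 ln13_13_7_ok))) (M (nat_lit 331) (B (L (nat_lit 330) ln14_11_3 ln14_11_3_ok) (L (nat_lit 367) ln15_11_3 ln15_11_3_ok))))))) (B (M (nat_lit 362) (B (L (nat_lit 398) ln10_11_0 ln10_11_0_ok) (M (nat_lit 333) (B (L (nat_lit 334) ln10_11_2 ln10_11_2_ok) (M (nat_lit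 332) (B (L (nat_lit 300) ln13_13_7 ln13_13_7_ok) (L (nat_lit 361) ln9_11_2 ln9_11_2_ok))))))) (M (nat_lit 332) (B (M (nat_lit 300) (B (L (nat_lit 268) ln12_8_5 ln12_8_5_ok) (L (nat_lit 333) ln13_13_7 ln13_13_7_ok))) (B (M (nat_lit 300) (B (L (nat_lit 333) ln13_13_7 ln13_13_7_ok) (M (nat_lit 427) (B (L (nat_lit 331) ln11_13_6 ln11_13_6_ok) (L (nat_lit 459) ln11_14_6 ln11_14_6_ok))))) (B (M (nat_lit 330) (B (M (nat_lit 329) (B (L (nat_lit 331) ln9_10_0 ln9_10_0_ok) (L (nat_lit 362) ln13_11_3 ln13_11_3_ok))) (B (M (nat_lit 331) (B (L (nat_lit 366) ln14_11_3 ln14_11_3_ok) (M (nat_lit 427) (B (L (nat_lit 298) ln11_13_7 ln11_13_7_ok) (L (nat_lit 459) ln11_14_6 ln11_14_6_ok))))) (M (nat_lit 362) (B (L (nat_lit 329) ln13_11_3 ln13_11_3_ok) (M (nat_lit 333) (B (L (nat_lit 361) ln9_11_2 ln9_11_2_ok) (L (nat_lit 334) ln10_11_2 ln10_11_2_ok)))))))) (M (nat_lit 300) (B (L (nat_lit 268) ln12_8_5 ln12_8_5_ok) (M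 (nat_lit 427) (B (L (nat_lit 331) ln11_13_6 ln11_13_6_ok) (L (nat_lit 459) ln11_14_6 ln11_14_6_ok))))))))))))) (K (nat_lit 1386334847463883973296651581191851219813036677374868906371822345360900855259263985776891656315702478141845917603796105407995314176) (nat_lit 1488565707703986623771507633917834555239509127546875879090110873544814994482520088814460822129444020303662214383141676617965367787918458880) (nat_lit 1488565707703986623771507633917834555239509127546875879090110873544814994482520088814460822129444020303662214383141676617965367787918458880) c11_s16095))))))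
theorem c11_s16097 : Sem (nat_lit 1386334847463883973240286559205279222343689143051924817714805964187101178362289002460118639712951875498717141642561656535228874752) (nat_lit 68647976623682790764066161728655858823115543767053575053736287190423893686950921764022563077115427616002363730029676350427522654075324231405570840190871666688) (nat_lit 68647976623682790764066161728655858823115543767053575053736287190423893686950921764022563077115427616002363730029676350427522654075324231405570840190871666688) :=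
  sem_of_chk (M (nat_lit 363) (B (M (nat_lit 396) (B (M (nat_lit 362) (B (L (nat_lit 398) ln14_12_3 ln14_12_3_ok) (M (nat_lit 361) (B (L (nat_lit 360) ln8_11_0 ln8_11_0_ok) (L (nat_lit 364) ln9_11_0 ln9_11_0_ok))))) (B (M (nat_lit 398) (B (L (nat_lit 362) ln14_12_3 ln14_12_3_ok) (M (nat_lit 399) (B (L (nat_lit 364) ln15_12_3 ln15_12_3_ok) (M (nat_lit 427) (B (L (nat_lit 426) ln14_12_1 ln14_12_1_ok) (L (nat_lit 428) ln15_12_1 ln15_12_1_ok))))))) (B (M (nat_lit 428) (B (M (nat_lit 331) (B (L (nat_lit 299) ln11_9_4 ln11_9_4_ok) (M (nat_lit 460) (B (L (nat_lit 364) ln12_14_7 ln12_14_7_ok) (L (nat_lit 492) ln12_15_7 ln12_15_7_ok))))) (B (M (nat_lit 460) (B (L (nat_lit 492) ln12_15_7 ln12_15_7_ok) (M (nat_lit 331) (B (L (nat_lit 364) ln12_14_7 ln12_14_7_ok) (L (nat_lit 427) ln11_10_4 ln11_10_4_ok))))) (B (M (nat_lit 427) (B (M (nat_lit 398) (B (L (nat_lit 426) ln14_12_1 ln14_12_1_ok) (L (nat_lit 399) ln15_12_1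 ln15_12_1_ok))) (M (nat_lit 459) (B (M (nat_lit 364) (B (L (nat_lit 332) ln11_14_6 ln11_14_6_ok) (L (nat_lit 491) ln11_15_6 ln11_15_6_ok))) (M (nat_lit 430) (B (L (nat_lit 431) ln15_13_3 ln15_13_3_ok) (L (nat_lit 458) ln14_13_1 ln14_13_1_ok))))))) (M (nat_lit 331) (B (L (nat_lit 299) ln11_9_4 ln11_9_4_ok) (M (nat_lit 460) (B (L (nat_lit 427) ln11_10_4 ln11_10_4_ok) (L (nat_lit 492) ln12_15_7 ln12_15_7_ok))))))))) (B (M (nat_lit 398) (B (L (nat_lit 362) ln14_12_3 ln14_12_3_ok) (M (nat_lit 399) (B (M (nat_lit 427) (B (L (nat_lit 426) ln14_12_1 ln14_12_1_ok) (L (nat_lit 428) ln15_12_1 ln15_12_1_ok))) (M (nat_lit 431) (B (L (nat_lit 430) ln11_12_0 ln11_12_0_ok) (L (nat_lit 432) ln12_12_0 ln12_12_0_ok))))))) (M (nat_lit 331) (B (M (nat_lit 428) (B (L (nat_lit 299) ln11_9_4 ln11_9_4_ok) (M (nat_lit 460) (B (L (nat_lit 364) ln12_14_7 ln12_14_7_ok) (L (nat_lit 427) ln11_10_4 ln11_10_4_ok))))) (B (M (nat_lit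 427) (B (M (nat_lit 428) (B (L (nat_lit 460) ln11_10_4 ln11_10_4_ok) (M (nat_lit 426) (B (L (nat_lit 458) ln11_10_5 ln11_10_5_ok) (L (nat_lit 425) ln9_13_2 ln9_13_2_ok))))) (M (nat_lit 459) (B (M (nat_lit 330) (B (L (nat_lit 298) ln11_13_7 ln11_13_7_ok) (L (nat_lit 362) ln11_14_7 ln11_14_7_ok))) (M (nat_lit 332) (B (L (nat_lit 300) ln11_13_6 ln11_13_6_ok) (L (nat_lit 364) ln11_14_6 ln11_14_6_ok))))))) (B (M (nat_lit 428) (B (L (nat_lit 299) ln11_9_4 ln11_9_4_ok) (M (nat_lit 460) (B (L (nat_lit 427) ln11_10_4 ln11_10_4_ok) (L (nat_lit 492) ln12_15_7 ln12_15_7_ok))))) (B (M (nat_lit 428) (B (L (nat_lit 299) ln11_9_4 ln11_9_4_ok) (M (nat_lit 460) (B (L (nat_lit 364) ln12_14_7 ln12_14_7_ok) (L (nat_lit 492) ln12_15_7 ln12_15_7_ok))))) (M (nat_lit 299) (B (M (nat_lit 300) (B (L (nat_lit 268) ln11_12_6 ln11_12_6_ok) (M (nat_lit 332) (B (L (nat_lit 427) ln11_13_6 ln11_13_6_ok) (L (nat_lit 364) ln12_9_4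 ln12_9_4_ok))))) (B (M (nat_lit 266) (B (L (nat_lit 298) ln11_12_7 ln11_12_7_ok) (M (nat_lit 267) (B (L (nat_lit 234) ln11_11_7 ln11_11_7_ok) (L (nat_lit 364) ln11_8_4 ln11_8_4_ok))))) (M (nat_lit 427) (B (M (nat_lit 298) (B (L (nat_lit 266) ln11_12_7 ln11_12_7_ok) (L (nat_lit 330) ln11_13_7 ln11_13_7_ok))) (M (nat_lit 300) (B (L (nat_lit 268) ln11_12_6 ln11_12_6_ok) (L (nat_lit 332) ln11_13_6 ln11_13_6_ok)))))))))))))))))) (B (M (nat_lit 427) (B (M (nat_lit 426) (B (M (nat_lit 398) (B (L (nat_lit 396) ln14_12_1 ln14_12_1_ok) (L (nat_lit 428) ln10_13_2 ln10_13_2_ok))) (M (nat_lit 458) (B (L (nat_lit 331) ln11_10_5 ln11_10_5_ok) (M (nat_lit 490) (B (L (nat_lit 459) ln11_11_5 ln11_11_5_ok) (L (nat_lit 522) ln10_16_6 ln10_16_6_ok))))))) (B (M (nat_lit 398) (B (M (nat_lit 396) (B (L (nat_lit 362) ln14_12_3 ln14_12_3_ok) (L (nat_lit 426) ln14_12_1 ln14_12_1_ok))) (B (M (nat_lit 426) (B (L (nat_lit 396)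 ln14_12_1 ln14_12_1_ok) (L (nat_lit 428) ln10_13_2 ln10_13_2_ok))) (B (M (nat_lit 428) (B (L (nat_lit 426) ln10_13_2 ln10_13_2_ok) (M (nat_lit 399) (B (L (nat_lit 400) ln16_12_1 ln16_12_1_ok) (L (nat_lit 430) ln11_13_2 ln11_13_2_ok))))) (M (nat_lit 396) (B (L (nat_lit 362) ln14_12_3 ln14_12_3_ok) (M (nat_lit 399) (B (L (nat_lit 364) ln15_12_3 ln15_12_3_ok) (L (nat_lit 428) ln15_12_1 ln15_12_1_ok))))))))) (B (M (nat_lit 428) (B (M (nat_lit 398) (B (L (nat_lit 426) ln10_13_2 ln10_13_2_ok) (M (nat_lit 399) (B (L (nat_lit 400) ln16_12_1 ln16_12_1_ok) (L (nat_lit 430) ln11_13_2 ln11_13_2_ok))))) (M (nat_lit 460) (B (L (nat_lit 331) ln11_10_4 ln11_10_4_ok) (M (nat_lit 492) (B (L (nat_lit 459) ln11_11_4 ln11_11_4_ok) (L (nat_lit 524) ln12_16_7 ln12_16_7_ok))))))) (B (M (nat_lit 459) (B (M (nat_lit 331) (B (M (nat_lit 330) (B (L (nat_lit 298) ln11_13_7 ln11_13_7_ok) (L (nat_lit 362) ln11_14_7 ln11_14_7_ok)))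 (M (nat_lit 332) (B (L (nat_lit 300) ln11_13_6 ln11_13_6_ok) (L (nat_lit 364) ln11_14_6 ln11_14_6_ok))))) (B (M (nat_lit 331) (B (M (nat_lit 332) (B (L (nat_lit 300) ln11_13_6 ln11_13_6_ok) (L (nat_lit 364) ln11_14_6 ln11_14_6_ok))) (M (nat_lit 458) (B (L (nat_lit 426) ln11_10_5 ln11_10_5_ok) (L (nat_lit 490) ln11_11_5 ln11_11_5_ok))))) (B (M (nat_lit 331) (B (M (nat_lit 330) (B (L (nat_lit 298) ln11_13_7 ln11_13_7_ok) (L (nat_lit 362) ln11_14_7 ln11_14_7_ok))) (M (nat_lit 458) (B (L (nat_lit 426) ln11_10_5 ln11_10_5_ok) (L (nat_lit 490) ln11_11_5 ln11_11_5_ok))))) (M (nat_lit 491) (B (M (nat_lit 490) (B (L (nat_lit 458) ln11_11_5 ln11_11_5_ok) (L (nat_lit 522) ln11_12_5 ln11_12_5_ok))) (M (nat_lit 492) (B (L (nat_lit 460) ln11_11_4 ln11_11_4_ok) (L (nat_lit 524) ln11_12_4 ln11_12_4_ok))))))))) (M (nat_lit 459) (B (M (nat_lit 331) (B (M (nat_lit 330) (B (L (nat_lit 298) ln11_13_7 ln11_13_7_ok) (L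 (nat_lit 362) ln11_14_7 ln11_14_7_ok))) (M (nat_lit 332) (B (L (nat_lit 300) ln11_13_6 ln11_13_6_ok) (L (nat_lit 364) ln11_14_6 ln11_14_6_ok))))) (M (nat_lit 491) (B (M (nat_lit 490) (B (L (nat_lit 458) ln11_11_5 ln11_11_5_ok) (L (nat_lit 522) ln11_12_5 ln11_12_5_ok))) (M (nat_lit 492) (B (L (nat_lit 460) ln11_11_4 ln11_11_4_ok) (L (nat_lit 524) ln11_12_4 ln11_12_4_ok)))))))))))) (B (M (nat_lit 398) (B (M (nat_lit 396) (B (L (nat_lit 362) ln14_12_3 ln14_12_3_ok) (M (nat_lit 399) (B (L (nat_lit 364) ln15_12_3 ln15_12_3_ok) (M (nat_lit 367) (B (L (nat_lit 366) ln11_12_2 ln11_12_2_ok) (L (nat_lit 368) ln12_12_2 ln12_12_2_ok))))))) (B (M (nat_lit 399) (B (M (nat_lit 396) (B (L (nat_lit 364) ln15_12_3 ln15_12_3_ok) (M (nat_lit 367) (B (L (nat_lit 366) ln11_12_2 ln11_12_2_ok) (L (nat_lit 368) ln12_12_2 ln12_12_2_ok))))) (B (M (nat_lit 428) (B (L (nat_lit 400) ln16_12_1 ln16_12_1_ok) (M (nat_lit 427) (B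 (L (nat_lit 396) ln15_12_1 ln15_12_1_ok) (L (nat_lit 426) ln10_13_2 ln10_13_2_ok))))) (M (nat_lit 428) (B (L (nat_lit 400) ln16_12_1 ln16_12_1_ok) (M (nat_lit 427) (B (L (nat_lit 426) ln10_13_2 ln10_13_2_ok) (L (nat_lit 430) ln11_13_2 ln11_13_2_ok)))))))) (B (M (nat_lit 396) (B (L (nat_lit 362) ln14_12_3 ln14_12_3_ok) (M (nat_lit 399) (B (M (nat_lit 367) (B (L (nat_lit 366) ln11_12_2 ln11_12_2_ok) (L (nat_lit 368) ln12_12_2 ln12_12_2_ok))) (M (nat_lit 427) (B (L (nat_lit 426) ln14_12_1 ln14_12_1_ok) (L (nat_lit 428) ln15_12_1 ln15_12_1_ok))))))) (B (M (nat_lit 396) (B (L (nat_lit 362) ln14_12_3 ln14_12_3_ok) (M (nat_lit 399) (B (L (nat_lit 364) ln15_12_3 ln15_12_3_ok) (M (nat_lit 427) (B (L (nat_lit 426) ln14_12_1 ln14_12_1_ok) (L (nat_lit 428) ln15_12_1 ln15_12_1_ok))))))) (B (M (nat_lit 427) (B (M (nat_lit 428) (B (L (nat_lit 426) ln10_13_2 ln10_13_2_ok) (M (nat_lit 399) (B (L (nat_lit 400) ln16_12_1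 ln16_12_1_ok) (L (nat_lit 430) ln11_13_2 ln11_13_2_ok))))) (B (M (nat_lit 459) (B (M (nat_lit 362) (B (L (nat_lit 330) ln11_14_7 ln11_14_7_ok) (M (nat_lit 364) (B (L (nat_lit 332) ln11_14_6 ln11_14_6_ok) (L (nat_lit 365) ln10_11_0 ln10_11_0_ok))))) (M (nat_lit 428) (B (L (nat_lit 426) ln10_13_2 ln10_13_2_ok) (M (nat_lit 460) (B (L (nat_lit 331) ln11_10_4 ln11_10_4_ok) (L (nat_lit 492) ln11_11_4 ln11_11_4_ok))))))) (M (nat_lit 364) (B (M (nat_lit 362) (B (L (nat_lit 365) ln10_11_0 ln10_11_0_ok) (M (nat_lit 459) (B (L (nat_lit 330) ln11_14_7 ln11_14_7_ok) (L (nat_lit 332) ln11_14_6 ln11_14_6_ok))))) (B (M (nat_lit 332) (B (L (nat_lit 459) ln11_14_6 ln11_14_6_ok) (M (nat_lit 300) (B (L (nat_lit 268) ln12_8_5 ln12_8_5_ok) (L (nat_lit 331) ln11_13_6 ln11_13_6_ok))))) (M (nat_lit 365) (B (L (nat_lit 362) ln10_11_0 ln10_11_0_ok) (M (nat_lit 399) (B (L (nat_lit 366) ln11_11_0 ln11_11_0_ok) (L (nat_lit 400)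 ln16_12_3 ln16_12_3_ok))))))))))) (M (nat_lit 427) (B (M (nat_lit 396) (B (L (nat_lit 362) ln14_12_3 ln14_12_3_ok) (L (nat_lit 426) ln14_12_1 ln14_12_1_ok))) (B (M (nat_lit 426) (B (L (nat_lit 396) ln14_12_1 ln14_12_1_ok) (L (nat_lit 428) ln10_13_2 ln10_13_2_ok))) (B (M (nat_lit 459) (B (M (nat_lit 362) (B (L (nat_lit 330) ln11_14_7 ln11_14_7_ok) (M (nat_lit 364) (B (L (nat_lit 332) ln11_14_6 ln11_14_6_ok) (L (nat_lit 365) ln10_11_0 ln10_11_0_ok))))) (M (nat_lit 428) (B (L (nat_lit 426) ln10_13_2 ln10_13_2_ok) (M (nat_lit 460) (B (L (nat_lit 331) ln11_10_4 ln11_10_4_ok) (L (nat_lit 492) ln11_11_4 ln11_11_4_ok))))))) (M (nat_lit 362) (B (L (nat_lit 396) ln14_12_3 ln14_12_3_ok) (M (nat_lit 459) (B (L (nat_lit 330) ln11_14_7 ln11_14_7_ok) (M (nat_lit 364) (B (L (nat_lit 332) ln11_14_6 ln11_14_6_ok) (L (nat_lit 365) ln10_11_0 ln10_11_0_ok))))))))))))))))) (B (M (nat_lit 427) (B (M (nat_lit 398) (B (M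 (nat_lit 396) (B (L (nat_lit 362) ln14_12_3 ln14_12_3_ok) (L (nat_lit 426) ln14_12_1 ln14_12_1_ok))) (B (M (nat_lit 426) (B (L (nat_lit 396) ln14_12_1 ln14_12_1_ok) (L (nat_lit 428) ln10_13_2 ln10_13_2_ok))) (B (M (nat_lit 428) (B (L (nat_lit 426) ln10_13_2 ln10_13_2_ok) (M (nat_lit 399) (B (L (nat_lit 400) ln16_12_1 ln16_12_1_ok) (L (nat_lit 430) ln11_13_2 ln11_13_2_ok))))) (M (nat_lit 396) (B (L (nat_lit 362) ln14_12_3 ln14_12_3_ok) (M (nat_lit 399) (B (L (nat_lit 364) ln15_12_3 ln15_12_3_ok) (L (nat_lit 428) ln15_12_1 ln15_12_1_ok))))))))) (B (M (nat_lit 428) (B (M (nat_lit 398) (B (L (nat_lit 426) ln10_13_2 ln10_13_2_ok) (M (nat_lit 399) (B (L (nat_lit 400) ln16_12_1 ln16_12_1_ok) (L (nat_lit 430) ln11_13_2 ln11_13_2_ok))))) (M (nat_lit 460) (B (L (nat_lit 331) ln11_10_4 ln11_10_4_ok) (M (nat_lit 492) (B (L (nat_lit 459) ln11_11_4 ln11_11_4_ok) (L (nat_lit 524) ln12_16_7 ln12_16_7_ok))))))) (B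 (M (nat_lit 459) (B (M (nat_lit 331) (B (M (nat_lit 330) (B (L (nat_lit 298) ln11_13_7 ln11_13_7_ok) (L (nat_lit 362) ln11_14_7 ln11_14_7_ok))) (M (nat_lit 458) (B (L (nat_lit 426) ln11_10_5 ln11_10_5_ok) (L (nat_lit 490) ln11_11_5 ln11_11_5_ok))))) (B (M (nat_lit 331) (B (M (nat_lit 458) (B (L (nat_lit 426) ln11_10_5 ln11_10_5_ok) (L (nat_lit 490) ln11_11_5 ln11_11_5_ok))) (M (nat_lit 460) (B (L (nat_lit 428) ln11_10_4 ln11_10_4_ok) (L (nat_lit 492) ln11_11_4 ln11_11_4_ok))))) (M (nat_lit 491) (B (M (nat_lit 364) (B (L (nat_lit 332) ln11_14_6 ln11_14_6_ok) (L (nat_lit 396) ln11_15_6 ln11_15_6_ok))) (M (nat_lit 492) (B (L (nat_lit 460) ln11_11_4 ln11_11_4_ok) (L (nat_lit 524) ln11_12_4 ln11_12_4_ok)))))))) (M (nat_lit 362) (B (M (nat_lit 330) (B (L (nat_lit 459) ln11_14_7 ln11_14_7_ok) (M (nat_lit 298) (B (L (nat_lit 266) ln10_8_4 ln10_8_4_ok) (L (nat_lit 331) ln11_13_7 ln11_13_7_ok))))) (M (nat_lit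 396) (B (L (nat_lit 398) ln14_12_3 ln14_12_3_ok) (M (nat_lit 361) (B (L (nat_lit 360) ln8_11_0 ln8_11_0_ok) (L (nat_lit 364) ln9_11_0 ln9_11_0_ok))))))))))) (B c11_n15173 (B (M (nat_lit 398) (B (M (nat_lit 396) (B (L (nat_lit 362) ln14_12_3 ln14_12_3_ok) (M (nat_lit 399) (B (L (nat_lit 364) ln15_12_3 ln15_12_3_ok) (M (nat_lit 427) (B (L (nat_lit 426) ln14_12_1 ln14_12_1_ok) (L (nat_lit 428) ln15_12_1 ln15_12_1_ok))))))) (B (M (nat_lit 399) (B (M (nat_lit 396) (B (L (nat_lit 364) ln15_12_3 ln15_12_3_ok) (M (nat_lit 367) (B (L (nat_lit 366) ln11_12_2 ln11_12_2_ok) (L (nat_lit 368) ln12_12_2 ln12_12_2_ok))))) (B (M (nat_lit 428) (B (L (nat_lit 400) ln16_12_1 ln16_12_1_ok) (M (nat_lit 427) (B (L (nat_lit 396) ln15_12_1 ln15_12_1_ok) (L (nat_lit 426) ln10_13_2 ln10_13_2_ok))))) (M (nat_lit 428) (B (L (nat_lit 400) ln16_12_1 ln16_12_1_ok) (M (nat_lit 427) (B (L (nat_lit 426) ln10_13_2 ln10_13_2_ok) (L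 (nat_lit 430) ln11_13_2 ln11_13_2_ok)))))))) (B (M (nat_lit 396) (B (L (nat_lit 362) ln14_12_3 ln14_12_3_ok) (M (nat_lit 399) (B (M (nat_lit 367) (B (L (nat_lit 366) ln11_12_2 ln11_12_2_ok) (L (nat_lit 368) ln12_12_2 ln12_12_2_ok))) (M (nat_lit 431) (B (L (nat_lit 430) ln11_12_0 ln11_12_0_ok) (L (nat_lit 432) ln12_12_0 ln12_12_0_ok))))))) (B (M (nat_lit 427) (B (M (nat_lit 428) (B (L (nat_lit 426) ln10_13_2 ln10_13_2_ok) (M (nat_lit 399) (B (L (nat_lit 400) ln16_12_1 ln16_12_1_ok) (L (nat_lit 430) ln11_13_2 ln11_13_2_ok))))) (B (M (nat_lit 459) (B (M (nat_lit 428) (B (L (nat_lit 426) ln10_13_2 ln10_13_2_ok) (M (nat_lit 458) (B (L (nat_lit 490) ln11_11_5 ln11_11_5_ok) (L (nat_lit 430) ln14_13_1 ln14_13_1_ok))))) (M (nat_lit 362) (B (L (nat_lit 330) ln11_14_7 ln11_14_7_ok) (M (nat_lit 364) (B (L (nat_lit 332) ln11_14_6 ln11_14_6_ok) (L (nat_lit 365) ln10_11_0 ln10_11_0_ok))))))) (M (nat_lit 459) (B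 (M (nat_lit 362) (B (L (nat_lit 330) ln11_14_7 ln11_14_7_ok) (M (nat_lit 364) (B (L (nat_lit 332) ln11_14_6 ln11_14_6_ok) (L (nat_lit 365) ln10_11_0 ln10_11_0_ok))))) (M (nat_lit 491) (B (M (nat_lit 490) (B (L (nat_lit 458) ln11_11_5 ln11_11_5_ok) (L (nat_lit 522) ln11_12_5 ln11_12_5_ok))) (M (nat_lit 492) (B (L (nat_lit 460) ln11_11_4 ln11_11_4_ok) (L (nat_lit 524) ln11_12_4 ln11_12_4_ok)))))))))) (M (nat_lit 427) (B (M (nat_lit 396) (B (L (nat_lit 362) ln14_12_3 ln14_12_3_ok) (L (nat_lit 426) ln14_12_1 ln14_12_1_ok))) (B (M (nat_lit 426) (B (L (nat_lit 396) ln14_12_1 ln14_12_1_ok) (L (nat_lit 428) ln10_13_2 ln10_13_2_ok))) (M (nat_lit 459) (B (M (nat_lit 362) (B (L (nat_lit 330) ln11_14_7 ln11_14_7_ok) (M (nat_lit 364) (B (L (nat_lit 332) ln11_14_6 ln11_14_6_ok) (L (nat_lit 365) ln10_11_0 ln10_11_0_ok))))) (M (nat_lit 491) (B (M (nat_lit 490) (B (L (nat_lit 458) ln11_11_5 ln11_11_5_ok) (L (nat_lit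 522) ln11_12_5 ln11_12_5_ok))) (M (nat_lit 492) (B (L (nat_lit 460) ln11_11_4 ln11_11_4_ok) (L (nat_lit 524) ln11_12_4 ln11_12_4_ok))))))))))))))) (B (M (nat_lit 427) (B (M (nat_lit 398) (B (M (nat_lit 396) (B (L (nat_lit 362) ln14_12_3 ln14_12_3_ok) (L (nat_lit 426) ln14_12_1 ln14_12_1_ok))) (B (M (nat_lit 426) (B (L (nat_lit 396) ln14_12_1 ln14_12_1_ok) (L (nat_lit 428) ln10_13_2 ln10_13_2_ok))) (B (M (nat_lit 428) (B (L (nat_lit 426) ln10_13_2 ln10_13_2_ok) (M (nat_lit 399) (B (L (nat_lit 400) ln16_12_1 ln16_12_1_ok) (L (nat_lit 430) ln11_13_2 ln11_13_2_ok))))) (M (nat_lit 396) (B (L (nat_lit 362) ln14_12_3 ln14_12_3_ok) (M (nat_lit 399) (B (L (nat_lit 364) ln15_12_3 ln15_12_3_ok) (L (nat_lit 428) ln15_12_1 ln15_12_1_ok))))))))) (B (M (nat_lit 428) (B (M (nat_lit 460) (B (L (nat_lit 331) ln11_10_4 ln11_10_4_ok) (M (nat_lit 492) (B (L (nat_lit 396) ln12_15_7 ln12_15_7_ok) (L (nat_lit 459) ln11_11_4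 ln11_11_4_ok))))) (M (nat_lit 398) (B (L (nat_lit 426) ln10_13_2 ln10_13_2_ok) (M (nat_lit 399) (B (L (nat_lit 400) ln16_12_1 ln16_12_1_ok) (L (nat_lit 430) ln11_13_2 ln11_13_2_ok))))))) (B (M (nat_lit 428) (B (M (nat_lit 398) (B (L (nat_lit 426) ln10_13_2 ln10_13_2_ok) (M (nat_lit 399) (B (L (nat_lit 400) ln16_12_1 ln16_12_1_ok) (L (nat_lit 430) ln11_13_2 ln11_13_2_ok))))) (M (nat_lit 460) (B (L (nat_lit 331) ln11_10_4 ln11_10_4_ok) (M (nat_lit 492) (B (L (nat_lit 459) ln11_11_4 ln11_11_4_ok) (L (nat_lit 524) ln12_16_7 ln12_16_7_ok))))))) (B (M (nat_lit 459) (B (M (nat_lit 331) (B (M (nat_lit 330) (B (L (nat_lit 298) ln11_13_7 ln11_13_7_ok) (L (nat_lit 362) ln11_14_7 ln11_14_7_ok))) (M (nat_lit 460) (B (L (nat_lit 428) ln11_10_4 ln11_10_4_ok) (L (nat_lit 492) ln11_11_4 ln11_11_4_ok))))) (B (M (nat_lit 331) (B (M (nat_lit 458) (B (L (nat_lit 426) ln11_10_5 ln11_10_5_ok) (L (nat_lit 490) ln11_11_5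 ln11_11_5_ok))) (M (nat_lit 460) (B (L (nat_lit 428) ln11_10_4 ln11_10_4_ok) (L (nat_lit 492) ln11_11_4 ln11_11_4_ok))))) (B (M (nat_lit 491) (B (M (nat_lit 490) (B (L (nat_lit 458) ln11_11_5 ln11_11_5_ok) (L (nat_lit 522) ln11_12_5 ln11_12_5_ok))) (M (nat_lit 492) (B (L (nat_lit 460) ln11_11_4 ln11_11_4_ok) (L (nat_lit 524) ln11_12_4 ln11_12_4_ok))))) (M (nat_lit 331) (B (M (nat_lit 330) (B (L (nat_lit 298) ln11_13_7 ln11_13_7_ok) (L (nat_lit 362) ln11_14_7 ln11_14_7_ok))) (M (nat_lit 458) (B (L (nat_lit 426) ln11_10_5 ln11_10_5_ok) (L (nat_lit 490) ln11_11_5 ln11_11_5_ok))))))))) (M (nat_lit 362) (B (M (nat_lit 330) (B (L (nat_lit 459) ln11_14_7 ln11_14_7_ok) (M (nat_lit 298) (B (L (nat_lit 266) ln10_8_4 ln10_8_4_ok) (L (nat_lit 331) ln11_13_7 ln11_13_7_ok))))) (M (nat_lit 396) (B (L (nat_lit 398) ln14_12_3 ln14_12_3_ok) (M (nat_lit 361) (B (L (nat_lit 360) ln8_11_0 ln8_11_0_ok) (L (nat_lit 364)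 ln9_11_0 ln9_11_0_ok)))))))))))) (B c11_n15235 (B (K (nat_lit 1386334847463883973259074899867469888166804987826239513933811424578367737327947330232376311913868743046426733629639806159484354560) (nat_lit 68647976623682790764066161728655858815333489935177469181517536266549593295425570703317481520834880316167231531183136161129240585176605705853218744298960322560) (nat_lit 68647976623682790764066161728655858815333489935177469181517536266549593295425570703317481520834880316167231531183136161129240585176605705853218744298960322560) c11_s15359) (B (K (nat_lit 1386334847463883973259074899867469888166804987826239513933811424578367737327947330232376311913868743046426733629639806159484354560) (nat_lit 68647976623682790763694020285093843997126930783398406718737140532243012740061499604232428014396897929369047355705919954276518955069454731475581841173406285824) (nat_lit 68647976623682790763694020285093843997126930783398406718737140532243012740061499604232428014396897929369047355705919954276518955069454731475581841173406285824)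 c11_s15370) (B (K (nat_lit 1386334847463883973259074899867469888166804987826239513933811424578367737327947330232376311913868743046426733629639806159484354560) (nat_lit 15983352582827860201637730999337811659099503552526632186274890991700801321590391879679812902972908848085818299455170186902216031815361653805680689152) (nat_lit 15983352582827860201637730999337811659099503552526632186274890991700801321590391879679812902972908848085818299455170186902216031815361653805680689152) c11_s15503) (B (K (nat_lit 1386334847463883973259074899867469888166804987826239513933811424578367737327947330232376311913868743046426733629639806159484354560) (nat_lit 12786682066560001305623651819026232380513775584385190651789926903066237170925959058757971961467517052342763334692334728943167897702549041377454325760) (nat_lit 12786682066560001305623651819026232380513775584385190651789926903066237170925959058757971961467517052342763334692334728943167897702549041377454325760)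 c11_s15684) (B (K (nat_lit 1386334847463883973259074899867469888166804987826239513933811424578367737327947330232376311913868743046426733629639806159484354560) (nat_lit 2977131434816661115910765710438076782643308829014145886078329541411172281100772808522743150978451849033334212599814426274609821861831245824) (nat_lit 2977131434816661115910765710438076782643308829014145886078329541411172281100772808522743150978451849033334212599814426274609821861831245824) c11_s15839) c11_n16096)))))))))))))) (nat_lit 1386334847463883973240286559205279222343689143051924817714805964187101178362289002460118639712951875498717141642561656535228874752) (nat_lit 68647976623682790764066161728655858823115543767053575053736287190423893686950921764022563077115427616002363730029676350427522654075324231405570840190871666688) (nat_lit 68647976623682790764066161728655858823115543767053575053736287190423893686950921764022563077115427616002363730029676350427522654075324231405570840190871666688)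 (by decide +kernel)
theorem c11_s16108 : Sem (nat_lit 1732918559228985830687588332223164685273243777473901889611115911763928841837992205340115440475969322760891043012737103013850644480) (nat_lit 68647976623682790763694020284747260285361828926120200011678971061721500708608354798307167210341469296584269102776242203321753315736667157989109741313083834368) (nat_lit 68647976623682790763694020284747260285361828926120200011678971061721500708608354798307167210341469296584269102776242203321753315736667157989109741313083834368) :=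
  sem_of_chk (M (nat_lit 363) (B (M (nat_lit 331) (B (M (nat_lit 428) (B (L (nat_lit 460) ln11_10_4 ln11_10_4_ok) (M (nat_lit 426) (B (L (nat_lit 458) ln11_10_5 ln11_10_5_ok) (L (nat_lit 398) ln10_13_2 ln10_13_2_ok))))) (B (M (nat_lit 459) (B (M (nat_lit 330) (B (L (nat_lit 298) ln11_13_7 ln11_13_7_ok) (L (nat_lit 362) ln11_14_7 ln11_14_7_ok))) (M (nat_lit 460) (B (L (nat_lit 428) ln11_10_4 ln11_10_4_ok) (L (nat_lit 492) ln11_11_4 ln11_11_4_ok))))) (M (nat_lit 459) (B (M (nat_lit 330) (B (L (nat_lit 298) ln11_13_7 ln11_13_7_ok) (L (nat_lit 362) ln11_14_7 ln11_14_7_ok))) (M (nat_lit 458) (B (L (nat_lit 426) ln11_10_5 ln11_10_5_ok) (L (nat_lit 490) ln11_11_5 ln11_11_5_ok)))))))) (B (M (nat_lit 428) (B (M (nat_lit 398) (B (L (nat_lit 426) ln10_13_2 ln10_13_2_ok) (M (nat_lit 399) (B (L (nat_lit 400) ln16_12_1 ln16_12_1_ok) (L (nat_lit 430) ln11_13_2 ln11_13_2_ok))))) (M (nat_lit 460) (B (L (nat_lit 331)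 ln11_10_4 ln11_10_4_ok) (M (nat_lit 492) (B (L (nat_lit 459) ln11_11_4 ln11_11_4_ok) (L (nat_lit 524) ln12_16_7 ln12_16_7_ok))))))) (B (M (nat_lit 398) (B (M (nat_lit 428) (B (L (nat_lit 426) ln10_13_2 ln10_13_2_ok) (M (nat_lit 399) (B (L (nat_lit 400) ln16_12_1 ln16_12_1_ok) (L (nat_lit 430) ln11_13_2 ln11_13_2_ok))))) (B (M (nat_lit 459) (B (M (nat_lit 428) (B (L (nat_lit 426) ln10_13_2 ln10_13_2_ok) (M (nat_lit 458) (B (L (nat_lit 490) ln11_11_5 ln11_11_5_ok) (L (nat_lit 430) ln14_13_1 ln14_13_1_ok))))) (M (nat_lit 362) (B (L (nat_lit 330) ln11_14_7 ln11_14_7_ok) (M (nat_lit 364) (B (L (nat_lit 332) ln11_14_6 ln11_14_6_ok) (L (nat_lit 365) ln10_11_0 ln10_11_0_ok))))))) (M (nat_lit 459) (B (M (nat_lit 362) (B (L (nat_lit 330) ln11_14_7 ln11_14_7_ok) (M (nat_lit 364) (B (L (nat_lit 332) ln11_14_6 ln11_14_6_ok) (L (nat_lit 365) ln10_11_0 ln10_11_0_ok))))) (M (nat_lit 491) (B (M (nat_lit 490) (B (L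 (nat_lit 458) ln11_11_5 ln11_11_5_ok) (L (nat_lit 522) ln11_12_5 ln11_12_5_ok))) (M (nat_lit 492) (B (L (nat_lit 460) ln11_11_4 ln11_11_4_ok) (L (nat_lit 524) ln11_12_4 ln11_12_4_ok)))))))))) (B (M (nat_lit 459) (B (M (nat_lit 331) (B (M (nat_lit 330) (B (L (nat_lit 298) ln11_13_7 ln11_13_7_ok) (L (nat_lit 362) ln11_14_7 ln11_14_7_ok))) (M (nat_lit 332) (B (L (nat_lit 300) ln11_13_6 ln11_13_6_ok) (L (nat_lit 364) ln11_14_6 ln11_14_6_ok))))) (B (M (nat_lit 331) (B (M (nat_lit 332) (B (L (nat_lit 300) ln11_13_6 ln11_13_6_ok) (L (nat_lit 364) ln11_14_6 ln11_14_6_ok))) (M (nat_lit 458) (B (L (nat_lit 426) ln11_10_5 ln11_10_5_ok) (L (nat_lit 490) ln11_11_5 ln11_11_5_ok))))) (B (M (nat_lit 331) (B (M (nat_lit 330) (B (L (nat_lit 298) ln11_13_7 ln11_13_7_ok) (L (nat_lit 362) ln11_14_7 ln11_14_7_ok))) (M (nat_lit 458) (B (L (nat_lit 426) ln11_10_5 ln11_10_5_ok) (L (nat_lit 490) ln11_11_5 ln11_11_5_ok)))))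 (M (nat_lit 491) (B (M (nat_lit 490) (B (L (nat_lit 458) ln11_11_5 ln11_11_5_ok) (L (nat_lit 522) ln11_12_5 ln11_12_5_ok))) (M (nat_lit 492) (B (L (nat_lit 460) ln11_11_4 ln11_11_4_ok) (L (nat_lit 524) ln11_12_4 ln11_12_4_ok))))))))) (B (M (nat_lit 331) (B (M (nat_lit 459) (B (M (nat_lit 332) (B (L (nat_lit 300) ln11_13_6 ln11_13_6_ok) (L (nat_lit 364) ln11_14_6 ln11_14_6_ok))) (M (nat_lit 460) (B (L (nat_lit 428) ln11_10_4 ln11_10_4_ok) (L (nat_lit 492) ln11_11_4 ln11_11_4_ok))))) (B (M (nat_lit 459) (B (M (nat_lit 330) (B (L (nat_lit 298) ln11_13_7 ln11_13_7_ok) (L (nat_lit 362) ln11_14_7 ln11_14_7_ok))) (M (nat_lit 460) (B (L (nat_lit 428) ln11_10_4 ln11_10_4_ok) (L (nat_lit 492) ln11_11_4 ln11_11_4_ok))))) (B (M (nat_lit 459) (B (M (nat_lit 330) (B (L (nat_lit 298) ln11_13_7 ln11_13_7_ok) (L (nat_lit 362) ln11_14_7 ln11_14_7_ok))) (M (nat_lit 332) (B (L (nat_lit 300) ln11_13_6 ln11_13_6_ok) (L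 (nat_lit 364) ln11_14_6 ln11_14_6_ok))))) (M (nat_lit 299) (B (M (nat_lit 298) (B (L (nat_lit 266) ln11_12_7 ln11_12_7_ok) (L (nat_lit 330) ln11_13_7 ln11_13_7_ok))) (M (nat_lit 300) (B (L (nat_lit 268) ln11_12_6 ln11_12_6_ok) (L (nat_lit 332) ln11_13_6 ln11_13_6_ok))))))))) (B (M (nat_lit 331) (B (M (nat_lit 428) (B (L (nat_lit 460) ln11_10_4 ln11_10_4_ok) (M (nat_lit 426) (B (L (nat_lit 458) ln11_10_5 ln11_10_5_ok) (L (nat_lit 398) ln10_13_2 ln10_13_2_ok))))) (M (nat_lit 299) (B (M (nat_lit 298) (B (L (nat_lit 266) ln11_12_7 ln11_12_7_ok) (L (nat_lit 330) ln11_13_7 ln11_13_7_ok))) (M (nat_lit 300) (B (L (nat_lit 268) ln11_12_6 ln11_12_6_ok) (L (nat_lit 332) ln11_13_6 ln11_13_6_ok))))))) (M (nat_lit 398) (B (M (nat_lit 428) (B (L (nat_lit 426) ln10_13_2 ln10_13_2_ok) (M (nat_lit 399) (B (L (nat_lit 400) ln16_12_1 ln16_12_1_ok) (L (nat_lit 430) ln11_13_2 ln11_13_2_ok))))) (B (M (nat_lit 459) (B (M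 (nat_lit 458) (B (L (nat_lit 490) ln11_11_5 ln11_11_5_ok) (M (nat_lit 426) (B (L (nat_lit 331) ln11_10_5 ln11_10_5_ok) (L (nat_lit 428) ln10_13_2 ln10_13_2_ok))))) (M (nat_lit 362) (B (L (nat_lit 330) ln11_14_7 ln11_14_7_ok) (M (nat_lit 364) (B (L (nat_lit 332) ln11_14_6 ln11_14_6_ok) (L (nat_lit 365) ln10_11_0 ln10_11_0_ok))))))) (M (nat_lit 364) (B (M (nat_lit 332) (B (L (nat_lit 459) ln11_14_6 ln11_14_6_ok) (M (nat_lit 300) (B (L (nat_lit 268) ln12_8_5 ln12_8_5_ok) (L (nat_lit 331) ln11_13_6 ln11_13_6_ok))))) (M (nat_lit 365) (B (L (nat_lit 362) ln10_11_0 ln10_11_0_ok) (M (nat_lit 399) (B (L (nat_lit 366) ln11_11_0 ln11_11_0_ok) (L (nat_lit 400) ln16_12_3 ln16_12_3_ok))))))))))))))))) (nat_lit 1732918559228985830687588332223164685273243777473901889611115911763928841837992205340115440475969322760891043012737103013850644480) (nat_lit 68647976623682790763694020284747260285361828926120200011678971061721500708608354798307167210341469296584269102776242203321753315736667157989109741313083834368)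 (nat_lit 68647976623682790763694020284747260285361828926120200011678971061721500708608354798307167210341469296584269102776242203321753315736667157989109741313083834368) (by decide +kernel)
noncomputable def c11_n16117 : Cert := (M (nat_lit 459) (B (M (nat_lit 458) (B (M (nat_lit 428) (B (L (nat_lit 430) ln14_13_1 ln14_13_1_ok) (M (nat_lit 457) (B (L (nat_lit 426) ln13_13_1 ln13_13_1_ok) (L (nat_lit 456) ln8_14_2 ln8_14_2_ok))))) (B (M (nat_lit 428) (B (L (nat_lit 430) ln14_13_1 ln14_13_1_ok) (M (nat_lit 457) (B (L (nat_lit 456) ln8_14_2 ln8_14_2_ok) (L (nat_lit 460) ln9_14_2 ln9_14_2_ok))))) (M (nat_lit 490) (B (L (nat_lit 363) ln11_11_5 ln11_11_5_ok) (M (nat_lit 522) (B (L (nat_lit 426) ln10_16_6 ln10_16_6_ok) (L (nat_lit 491) ln11_12_5 ln11_12_5_ok)))))))) (B (M (nat_lit 491) (B (M (nat_lit 523) (B (M (nat_lit 394) (B (L (nat_lit 362) ln11_15_7 ln11_15_7_ok) (L (nat_lit 426) ln11_16_7 ln11_16_7_ok)))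 (M (nat_lit 522) (B (L (nat_lit 490) ln11_12_5 ln11_12_5_ok) (L (nat_lit 554) ln11_13_5 ln11_13_5_ok))))) (B (M (nat_lit 523) (B (M (nat_lit 522) (B (L (nat_lit 490) ln11_12_5 ln11_12_5_ok) (L (nat_lit 554) ln11_13_5 ln11_13_5_ok))) (M (nat_lit 524) (B (L (nat_lit 492) ln11_12_4 ln11_12_4_ok) (L (nat_lit 556) ln11_13_4 ln11_13_4_ok))))) (B (M (nat_lit 523) (B (M (nat_lit 394) (B (L (nat_lit 362) ln11_15_7 ln11_15_7_ok) (L (nat_lit 426) ln11_16_7 ln11_16_7_ok))) (M (nat_lit 524) (B (L (nat_lit 492) ln11_12_4 ln11_12_4_ok) (L (nat_lit 556) ln11_13_4 ln11_13_4_ok))))) (M (nat_lit 394) (B (L (nat_lit 362) ln11_15_7 ln11_15_7_ok) (M (nat_lit 428) (B (L (nat_lit 430) ln14_13_3 ln14_13_3_ok) (M (nat_lit 393) (B (L (nat_lit 392) ln8_12_0 ln8_12_0_ok) (L (nat_lit 426) ln13_13_3 ln13_13_3_ok))))))))))) (B (M (nat_lit 458) (B (M (nat_lit 428) (B (L (nat_lit 430) ln14_13_1 ln14_13_1_ok) (M (nat_lit 457) (B (L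 (nat_lit 456) ln8_14_2 ln8_14_2_ok) (L (nat_lit 460) ln9_14_2 ln9_14_2_ok))))) (M (nat_lit 490) (B (L (nat_lit 363) ln11_11_5 ln11_11_5_ok) (M (nat_lit 522) (B (L (nat_lit 491) ln11_12_5 ln11_12_5_ok) (L (nat_lit 554) ln10_17_6 ln10_17_6_ok))))))) (B (M (nat_lit 363) (B (M (nat_lit 331) (B (M (nat_lit 332) (B (L (nat_lit 300) ln11_13_6 ln11_13_6_ok) (L (nat_lit 364) ln11_14_6 ln11_14_6_ok))) (M (nat_lit 458) (B (L (nat_lit 426) ln11_10_5 ln11_10_5_ok) (L (nat_lit 490) ln11_11_5 ln11_11_5_ok))))) (B (M (nat_lit 331) (B (M (nat_lit 330) (B (L (nat_lit 298) ln11_13_7 ln11_13_7_ok) (L (nat_lit 362) ln11_14_7 ln11_14_7_ok))) (M (nat_lit 458) (B (L (nat_lit 426) ln11_10_5 ln11_10_5_ok) (L (nat_lit 490) ln11_11_5 ln11_11_5_ok))))) (M (nat_lit 491) (B (M (nat_lit 362) (B (L (nat_lit 330) ln11_14_7 ln11_14_7_ok) (L (nat_lit 394) ln11_15_7 ln11_15_7_ok))) (M (nat_lit 492) (B (L (nat_lit 460) ln11_11_4 ln11_11_4_ok)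 (L (nat_lit 524) ln11_12_4 ln11_12_4_ok)))))))) (B (M (nat_lit 394) (B (M (nat_lit 362) (B (L (nat_lit 491) ln11_15_7 ln11_15_7_ok) (M (nat_lit 330) (B (L (nat_lit 298) ln10_9_4 ln10_9_4_ok) (L (nat_lit 426) ln10_10_4 ln10_10_4_ok))))) (B (M (nat_lit 362) (B (L (nat_lit 491) ln11_15_7 ln11_15_7_ok) (M (nat_lit 330) (B (L (nat_lit 363) ln11_14_7 ln11_14_7_ok) (L (nat_lit 426) ln10_10_4 ln10_10_4_ok))))) (B (M (nat_lit 428) (B (L (nat_lit 430) ln14_13_3 ln14_13_3_ok) (M (nat_lit 393) (B (L (nat_lit 392) ln8_12_0 ln8_12_0_ok) (L (nat_lit 426) ln13_13_3 ln13_13_3_ok))))) (M (nat_lit 362) (B (L (nat_lit 491) ln11_15_7 ln11_15_7_ok) (M (nat_lit 330) (B (L (nat_lit 298) ln10_9_4 ln10_9_4_ok) (L (nat_lit 363) ln11_14_7 ln11_14_7_ok))))))))) (M (nat_lit 458) (B (M (nat_lit 490) (B (L (nat_lit 363) ln11_11_5 ln11_11_5_ok) (M (nat_lit 522) (B (L (nat_lit 426) ln10_16_6 ln10_16_6_ok) (L (nat_lit 554) ln10_17_6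 ln10_17_6_ok))))) (B (M (nat_lit 428) (B (L (nat_lit 430) ln14_13_1 ln14_13_1_ok) (M (nat_lit 457) (B (L (nat_lit 426) ln13_13_1 ln13_13_1_ok) (L (nat_lit 456) ln8_14_2 ln8_14_2_ok))))) (M (nat_lit 428) (B (L (nat_lit 430) ln14_13_1 ln14_13_1_ok) (M (nat_lit 457) (B (L (nat_lit 456) ln8_14_2 ln8_14_2_ok) (L (nat_lit 460) ln9_14_2 ln9_14_2_ok))))))))))))))
noncomputable def c11_n16208 : Cert := (M (nat_lit 363) (B (M (nat_lit 460) (B (L (nat_lit 331) ln11_10_4 ln11_10_4_ok) (M (nat_lit 492) (B (L (nat_lit 459) ln11_11_4 ln11_11_4_ok) (L (nat_lit 524) ln12_16_7 ln12_16_7_ok))))) (B (M (nat_lit 459) (B (M (nat_lit 460) (B (L (nat_lit 492) ln11_11_4 ln11_11_4_ok) (M (nat_lit 458) (B (L (nat_lit 490) ln11_11_5 ln11_11_5_ok) (L (nat_lit 457) ln9_14_2 ln9_14_2_ok))))) (B (M (nat_lit 491) (B (M (nat_lit 362) (B (L (nat_lit 330) ln11_14_7 ln11_14_7_ok) (L (nat_lit 394) ln11_15_7 ln11_15_7_ok))) (M (nat_lit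 492) (B (L (nat_lit 460) ln11_11_4 ln11_11_4_ok) (L (nat_lit 524) ln11_12_4 ln11_12_4_ok))))) (M (nat_lit 491) (B (M (nat_lit 362) (B (L (nat_lit 330) ln11_14_7 ln11_14_7_ok) (L (nat_lit 394) ln11_15_7 ln11_15_7_ok))) (M (nat_lit 490) (B (L (nat_lit 458) ln11_11_5 ln11_11_5_ok) (L (nat_lit 522) ln11_12_5 ln11_12_5_ok)))))))) (B (M (nat_lit 331) (B (L (nat_lit 460) ln11_10_4 ln11_10_4_ok) (M (nat_lit 299) (B (M (nat_lit 298) (B (L (nat_lit 266) ln11_12_7 ln11_12_7_ok) (L (nat_lit 330) ln11_13_7 ln11_13_7_ok))) (M (nat_lit 300) (B (L (nat_lit 268) ln11_12_6 ln11_12_6_ok) (L (nat_lit 332) ln11_13_6 ln11_13_6_ok))))))) (M (nat_lit 364) (B (M (nat_lit 332) (B (L (nat_lit 459) ln11_14_6 ln11_14_6_ok) (M (nat_lit 300) (B (L (nat_lit 268) ln12_8_5 ln12_8_5_ok) (L (nat_lit 331) ln11_13_6 ln11_13_6_ok))))) (B (M (nat_lit 365) (B (M (nat_lit 332) (B (L (nat_lit 459) ln11_14_6 ln11_14_6_ok) (M (nat_lit 300)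 (B (L (nat_lit 331) ln11_13_6 ln11_13_6_ok) (L (nat_lit 333) ln13_13_7 ln13_13_7_ok))))) (M (nat_lit 362) (B (L (nat_lit 398) ln10_11_0 ln10_11_0_ok) (M (nat_lit 394) (B (L (nat_lit 393) ln13_11_1 ln13_11_1_ok) (L (nat_lit 366) ln14_11_1 ln14_11_1_ok))))))) (B (M (nat_lit 362) (B (M (nat_lit 459) (B (L (nat_lit 330) ln11_14_7 ln11_14_7_ok) (L (nat_lit 332) ln11_14_6 ln11_14_6_ok))) (M (nat_lit 365) (B (L (nat_lit 398) ln10_11_0 ln10_11_0_ok) (M (nat_lit 394) (B (L (nat_lit 393) ln13_11_1 ln13_11_1_ok) (L (nat_lit 366) ln14_11_1 ln14_11_1_ok))))))) (B (M (nat_lit 362) (B (M (nat_lit 330) (B (L (nat_lit 459) ln11_14_7 ln11_14_7_ok) (M (nat_lit 365) (B (L (nat_lit 329) ln13_11_3 ln13_11_3_ok) (L (nat_lit 398) ln10_11_0 ln10_11_0_ok))))) (B (M (nat_lit 330) (B (L (nat_lit 459) ln11_14_7 ln11_14_7_ok) (M (nat_lit 298) (B (L (nat_lit 266) ln10_8_4 ln10_8_4_ok) (L (nat_lit 394) ln10_9_4 ln10_9_4_ok)))))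 (M (nat_lit 365) (B (L (nat_lit 398) ln10_11_0 ln10_11_0_ok) (M (nat_lit 394) (B (L (nat_lit 393) ln13_11_1 ln13_11_1_ok) (L (nat_lit 366) ln14_11_1 ln14_11_1_ok)))))))) (M (nat_lit 365) (B (M (nat_lit 362) (B (L (nat_lit 398) ln10_11_0 ln10_11_0_ok) (M (nat_lit 394) (B (L (nat_lit 393) ln13_11_1 ln13_11_1_ok) (L (nat_lit 366) ln14_11_1 ln14_11_1_ok))))) (B (M (nat_lit 366) (B (L (nat_lit 394) ln14_11_1 ln14_11_1_ok) (M (nat_lit 398) (B (L (nat_lit 399) ln11_11_0 ln11_11_0_ok) (M (nat_lit 334) (B (L (nat_lit 302) ln14_9_5 ln14_9_5_ok) (L (nat_lit 335) ln11_11_2 ln11_11_2_ok))))))) (B (M (nat_lit 362) (B (L (nat_lit 398) ln10_11_0 ln10_11_0_ok) (M (nat_lit 330) (B (L (nat_lit 329) ln13_11_3 ln13_11_3_ok) (M (nat_lit 394) (B (L (nat_lit 298) ln10_9_4 ln10_9_4_ok) (L (nat_lit 393) ln13_11_1 ln13_11_1_ok))))))) (B (M (nat_lit 330) (B (M (nat_lit 362) (B (L (nat_lit 329) ln13_11_3 ln13_11_3_ok) (L (nat_lit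 398) ln10_11_0 ln10_11_0_ok))) (M (nat_lit 331) (B (L (nat_lit 298) ln11_13_7 ln11_13_7_ok) (L (nat_lit 366) ln14_11_3 ln14_11_3_ok))))) (M (nat_lit 334) (B (M (nat_lit 333) (B (L (nat_lit 302) ln13_13_6 ln13_13_6_ok) (L (nat_lit 362) ln10_11_2 ln10_11_2_ok))) (M (nat_lit 366) (B (L (nat_lit 335) ln11_11_2 ln11_11_2_ok) (L (nat_lit 394) ln14_11_1 ln14_11_1_ok)))))))))))))))))))
theorem c11_s16239 : Sem (nat_lit 1732918559228985830687588332223164685273243777473901889611115911763928841837992205340115440475969322760891043012737103013850644480) (nat_lit 68647976623682790930785520974259821017327658329291047554792260607623296843065238780656526423932591875139064027356350715572484591390888757448954376634509557760) (nat_lit 68647976623682790930785520974259821017327658329291047554792260607623296843065238780656526423932591875139064027356350715572484591390888757448954376634509557760) :=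
  sem_of_chk (M (nat_lit 428) (B (M (nat_lit 430) (B (L (nat_lit 394) ln14_13_3 ln14_13_3_ok) (M (nat_lit 431) (B (M (nat_lit 399) (B (L (nat_lit 398) ln11_13_2 ln11_13_2_ok) (L (nat_lit 400) ln12_13_2 ln12_13_2_ok))) (M (nat_lit 459) (B (L (nat_lit 458) ln14_13_1 ln14_13_1_ok) (L (nat_lit 460) ln15_13_1 ln15_13_1_ok))))))) (B (M (nat_lit 398) (B (M (nat_lit 399) (B (L (nat_lit 400) ln16_12_1 ln16_12_1_ok) (L (nat_lit 430) ln11_13_2 ln11_13_2_ok))) (B (M (nat_lit 363) (B (M (nat_lit 460) (B (L (nat_lit 331) ln11_10_4 ln11_10_4_ok) (M (nat_lit 492) (B (L (nat_lit 459) ln11_11_4 ln11_11_4_ok) (L (nat_lit 524) ln12_16_7 ln12_16_7_ok))))) (B (M (nat_lit 459) (B (M (nat_lit 458) (B (L (nat_lit 490) ln11_11_5 ln11_11_5_ok) (L (nat_lit 430) ln14_13_1 ln14_13_1_ok))) (M (nat_lit 362) (B (L (nat_lit 330) ln11_14_7 ln11_14_7_ok) (M (nat_lit 364) (B (L (nat_lit 332) ln11_14_6 ln11_14_6_ok) (L (nat_lit 365)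 ln10_11_0 ln10_11_0_ok))))))) (M (nat_lit 331) (B (L (nat_lit 460) ln11_10_4 ln11_10_4_ok) (M (nat_lit 299) (B (M (nat_lit 298) (B (L (nat_lit 266) ln11_12_7 ln11_12_7_ok) (L (nat_lit 330) ln11_13_7 ln11_13_7_ok))) (M (nat_lit 300) (B (L (nat_lit 268) ln11_12_6 ln11_12_6_ok) (L (nat_lit 332) ln11_13_6 ln11_13_6_ok)))))))))) (M (nat_lit 363) (B (M (nat_lit 460) (B (L (nat_lit 331) ln11_10_4 ln11_10_4_ok) (M (nat_lit 492) (B (L (nat_lit 459) ln11_11_4 ln11_11_4_ok) (L (nat_lit 524) ln12_16_7 ln12_16_7_ok))))) (B (M (nat_lit 459) (B (M (nat_lit 362) (B (L (nat_lit 330) ln11_14_7 ln11_14_7_ok) (M (nat_lit 364) (B (L (nat_lit 332) ln11_14_6 ln11_14_6_ok) (L (nat_lit 365) ln10_11_0 ln10_11_0_ok))))) (M (nat_lit 460) (B (L (nat_lit 492) ln11_11_4 ln11_11_4_ok) (M (nat_lit 458) (B (L (nat_lit 490) ln11_11_5 ln11_11_5_ok) (L (nat_lit 457) ln9_14_2 ln9_14_2_ok))))))) (B (M (nat_lit 331) (B (L (nat_lit 460)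 ln11_10_4 ln11_10_4_ok) (M (nat_lit 299) (B (M (nat_lit 298) (B (L (nat_lit 266) ln11_12_7 ln11_12_7_ok) (L (nat_lit 330) ln11_13_7 ln11_13_7_ok))) (M (nat_lit 300) (B (L (nat_lit 268) ln11_12_6 ln11_12_6_ok) (L (nat_lit 332) ln11_13_6 ln11_13_6_ok))))))) (M (nat_lit 364) (B (M (nat_lit 332) (B (L (nat_lit 459) ln11_14_6 ln11_14_6_ok) (M (nat_lit 300) (B (L (nat_lit 268) ln12_8_5 ln12_8_5_ok) (L (nat_lit 331) ln11_13_6 ln11_13_6_ok))))) (M (nat_lit 365) (B (L (nat_lit 362) ln10_11_0 ln10_11_0_ok) (M (nat_lit 399) (B (L (nat_lit 366) ln11_11_0 ln11_11_0_ok) (L (nat_lit 400) ln16_12_3 ln16_12_3_ok)))))))))))))) (B (M (nat_lit 430) (B (L (nat_lit 394) ln14_13_3 ln14_13_3_ok) (M (nat_lit 459) (B (L (nat_lit 458) ln14_13_1 ln14_13_1_ok) (M (nat_lit 460) (B (L (nat_lit 431) ln15_13_1 ln15_13_1_ok) (M (nat_lit 363) (B (L (nat_lit 331) ln11_10_4 ln11_10_4_ok) (L (nat_lit 492) ln11_11_4 ln11_11_4_ok)))))))))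 (B c11_n16208 (B (M (nat_lit 398) (B (M (nat_lit 399) (B (L (nat_lit 400) ln16_12_1 ln16_12_1_ok) (L (nat_lit 430) ln11_13_2 ln11_13_2_ok))) (B (M (nat_lit 363) (B (M (nat_lit 460) (B (L (nat_lit 331) ln11_10_4 ln11_10_4_ok) (M (nat_lit 492) (B (L (nat_lit 459) ln11_11_4 ln11_11_4_ok) (L (nat_lit 524) ln12_16_7 ln12_16_7_ok))))) (B (M (nat_lit 459) (B (M (nat_lit 430) (B (L (nat_lit 394) ln14_13_3 ln14_13_3_ok) (M (nat_lit 460) (B (L (nat_lit 492) ln11_11_4 ln11_11_4_ok) (L (nat_lit 431) ln15_13_1 ln15_13_1_ok))))) (M (nat_lit 362) (B (L (nat_lit 330) ln11_14_7 ln11_14_7_ok) (M (nat_lit 364) (B (L (nat_lit 332) ln11_14_6 ln11_14_6_ok) (L (nat_lit 365) ln10_11_0 ln10_11_0_ok))))))) (B (M (nat_lit 331) (B (L (nat_lit 460) ln11_10_4 ln11_10_4_ok) (M (nat_lit 299) (B (M (nat_lit 298) (B (L (nat_lit 266) ln11_12_7 ln11_12_7_ok) (L (nat_lit 330) ln11_13_7 ln11_13_7_ok))) (M (nat_lit 300) (B (L (nat_lit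 268) ln11_12_6 ln11_12_6_ok) (L (nat_lit 332) ln11_13_6 ln11_13_6_ok))))))) (M (nat_lit 364) (B (M (nat_lit 332) (B (L (nat_lit 459) ln11_14_6 ln11_14_6_ok) (M (nat_lit 300) (B (L (nat_lit 268) ln12_8_5 ln12_8_5_ok) (L (nat_lit 331) ln11_13_6 ln11_13_6_ok))))) (M (nat_lit 365) (B (L (nat_lit 362) ln10_11_0 ln10_11_0_ok) (M (nat_lit 394) (B (L (nat_lit 366) ln14_11_1 ln14_11_1_ok) (L (nat_lit 430) ln14_13_3 ln14_13_3_ok))))))))))) (M (nat_lit 363) (B (M (nat_lit 460) (B (L (nat_lit 331) ln11_10_4 ln11_10_4_ok) (M (nat_lit 492) (B (L (nat_lit 459) ln11_11_4 ln11_11_4_ok) (L (nat_lit 524) ln12_16_7 ln12_16_7_ok))))) (B (M (nat_lit 365) (B (M (nat_lit 460) (B (L (nat_lit 333) ln13_10_5 ln13_10_5_ok) (M (nat_lit 492) (B (L (nat_lit 459) ln11_11_4 ln11_11_4_ok) (L (nat_lit 524) ln12_16_7 ln12_16_7_ok))))) (M (nat_lit 364) (B (L (nat_lit 362) ln10_11_0 ln10_11_0_ok) (M (nat_lit 366) (B (L (nat_lit 394)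 ln14_11_1 ln14_11_1_ok) (L (nat_lit 399) ln11_11_0 ln11_11_0_ok))))))) (B (M (nat_lit 365) (B (M (nat_lit 460) (B (L (nat_lit 331) ln11_10_4 ln11_10_4_ok) (L (nat_lit 333) ln13_10_5 ln13_10_5_ok))) (M (nat_lit 364) (B (L (nat_lit 362) ln10_11_0 ln10_11_0_ok) (M (nat_lit 366) (B (L (nat_lit 394) ln14_11_1 ln14_11_1_ok) (L (nat_lit 399) ln11_11_0 ln11_11_0_ok))))))) (M (nat_lit 364) (B (M (nat_lit 332) (B (L (nat_lit 459) ln11_14_6 ln11_14_6_ok) (M (nat_lit 300) (B (L (nat_lit 268) ln12_8_5 ln12_8_5_ok) (L (nat_lit 331) ln11_13_6 ln11_13_6_ok))))) (M (nat_lit 365) (B (L (nat_lit 362) ln10_11_0 ln10_11_0_ok) (M (nat_lit 366) (B (L (nat_lit 394) ln14_11_1 ln14_11_1_ok) (L (nat_lit 399) ln11_11_0 ln11_11_0_ok)))))))))))))) (M (nat_lit 430) (B (L (nat_lit 394) ln14_13_3 ln14_13_3_ok) (M (nat_lit 431) (B (M (nat_lit 399) (B (L (nat_lit 398) ln11_13_2 ln11_13_2_ok) (L (nat_lit 400) ln12_13_2 ln12_13_2_ok)))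 (B (M (nat_lit 432) (B (M (nat_lit 400) (B (L (nat_lit 399) ln12_13_2 ln12_13_2_ok) (L (nat_lit 401) ln13_13_2 ln13_13_2_ok))) (M (nat_lit 464) (B (L (nat_lit 463) ln12_13_0 ln12_13_0_ok) (L (nat_lit 465) ln13_13_0 ln13_13_0_ok))))) (B (M (nat_lit 432) (B (M (nat_lit 464) (B (L (nat_lit 463) ln12_13_0 ln12_13_0_ok) (L (nat_lit 465) ln13_13_0 ln13_13_0_ok))) (M (nat_lit 401) (B (L (nat_lit 400) ln13_13_2 ln13_13_2_ok) (M (nat_lit 433) (B (L (nat_lit 398) ln17_13_3 ln17_13_3_ok) (L (nat_lit 402) ln14_13_2 ln14_13_2_ok))))))) (M (nat_lit 432) (B (M (nat_lit 398) (B (L (nat_lit 433) ln17_13_3 ln17_13_3_ok) (L (nat_lit 399) ln11_13_2 ln11_13_2_ok))) (M (nat_lit 464) (B (L (nat_lit 463) ln12_13_0 ln12_13_0_ok) (L (nat_lit 465) ln13_13_0 ln13_13_0_ok))))))))))))))))) (nat_lit 1732918559228985830687588332223164685273243777473901889611115911763928841837992205340115440475969322760891043012737103013850644480)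 (nat_lit 68647976623682790930785520974259821017327658329291047554792260607623296843065238780656526423932591875139064027356350715572484591390888757448954376634509557760) (nat_lit 68647976623682790930785520974259821017327658329291047554792260607623296843065238780656526423932591875139064027356350715572484591390888757448954376634509557760) (by decide +kernel)
theorem c11_s16448 : Sem (nat_lit 1732918559228985830706376672885355351096359622248216585830121372155195400803650533112373112676886190308600634999815252638106124288) (nat_lit 744282856624663010515419049913152127977671174210076735157652165715350978596705927021526805886209367015308572935120977378604966546442813440) (nat_lit 744282856624663010515419049913152127977671174210076735157652165715350978596705927021526805886209367015308572935120977378604966546442813440) :=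
  sem_of_chk (M (nat_lit 365) (B (M (nat_lit 364) (B (M (nat_lit 362) (B (L (nat_lit 398) ln10_11_0 ln10_11_0_ok) (M (nat_lit 394) (B (L (nat_lit 393) ln13_11_1 ln13_11_1_ok) (L (nat_lit 366) ln14_11_1 ln14_11_1_ok))))) (B (M (nat_lit 366) (B (L (nat_lit 394) ln14_11_1 ln14_11_1_ok) (M (nat_lit 331) (B (L (nat_lit 330) ln14_11_3 ln14_11_3_ok) (M (nat_lit 332) (B (L (nat_lit 300) ln11_13_6 ln11_13_6_ok) (L (nat_lit 367) ln15_11_3 ln15_11_3_ok))))))) (M (nat_lit 362) (B (L (nat_lit 398) ln10_11_0 ln10_11_0_ok) (M (nat_lit 333) (B (L (nat_lit 334) ln10_11_2 ln10_11_2_ok) (M (nat_lit 332) (B (L (nat_lit 300) ln13_13_7 ln13_13_7_ok) (L (nat_lit 361) ln9_11_2 ln9_11_2_ok)))))))))) (B (M (nat_lit 364) (B (M (nat_lit 366) (B (L (nat_lit 394) ln14_11_1 ln14_11_1_ok) (M (nat_lit 398) (B (L (nat_lit 362) ln10_11_0 ln10_11_0_ok) (L (nat_lit 399) ln11_11_0 ln11_11_0_ok))))) (B (M (nat_lit 366) (B (L (nat_lit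 394) ln14_11_1 ln14_11_1_ok) (M (nat_lit 398) (B (L (nat_lit 399) ln11_11_0 ln11_11_0_ok) (M (nat_lit 334) (B (L (nat_lit 302) ln14_9_5 ln14_9_5_ok) (L (nat_lit 335) ln11_11_2 ln11_11_2_ok))))))) (B (M (nat_lit 362) (B (L (nat_lit 398) ln10_11_0 ln10_11_0_ok) (M (nat_lit 330) (B (L (nat_lit 329) ln13_11_3 ln13_11_3_ok) (M (nat_lit 394) (B (L (nat_lit 298) ln10_9_4 ln10_9_4_ok) (L (nat_lit 393) ln13_11_1 ln13_11_1_ok))))))) (B (M (nat_lit 330) (B (M (nat_lit 362) (B (L (nat_lit 329) ln13_11_3 ln13_11_3_ok) (L (nat_lit 398) ln10_11_0 ln10_11_0_ok))) (M (nat_lit 331) (B (L (nat_lit 298) ln11_13_7 ln11_13_7_ok) (L (nat_lit 366) ln14_11_3 ln14_11_3_ok))))) (M (nat_lit 394) (B (L (nat_lit 366) ln14_11_1 ln14_11_1_ok) (M (nat_lit 393) (B (L (nat_lit 362) ln13_11_1 ln13_11_1_ok) (L (nat_lit 392) ln8_12_2 ln8_12_2_ok)))))))))) (B (M (nat_lit 364) (B (M (nat_lit 362) (B (L (nat_lit 398) ln10_11_0 ln10_11_0_ok)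 (M (nat_lit 394) (B (L (nat_lit 393) ln13_11_1 ln13_11_1_ok) (L (nat_lit 366) ln14_11_1 ln14_11_1_ok))))) (B (M (nat_lit 366) (B (L (nat_lit 394) ln14_11_1 ln14_11_1_ok) (M (nat_lit 398) (B (L (nat_lit 399) ln11_11_0 ln11_11_0_ok) (M (nat_lit 334) (B (L (nat_lit 302) ln14_9_5 ln14_9_5_ok) (L (nat_lit 335) ln11_11_2 ln11_11_2_ok))))))) (B (M (nat_lit 362) (B (L (nat_lit 398) ln10_11_0 ln10_11_0_ok) (M (nat_lit 333) (B (L (nat_lit 334) ln10_11_2 ln10_11_2_ok) (M (nat_lit 332) (B (L (nat_lit 300) ln13_13_7 ln13_13_7_ok) (L (nat_lit 361) ln9_11_2 ln9_11_2_ok))))))) (M (nat_lit 334) (B (M (nat_lit 333) (B (L (nat_lit 302) ln13_13_6 ln13_13_6_ok) (L (nat_lit 362) ln10_11_2 ln10_11_2_ok))) (M (nat_lit 366) (B (L (nat_lit 335) ln11_11_2 ln11_11_2_ok) (L (nat_lit 394) ln14_11_1 ln14_11_1_ok))))))))) (B (M (nat_lit 364) (B (M (nat_lit 362) (B (L (nat_lit 398) ln10_11_0 ln10_11_0_ok) (M (nat_lit 394) (B (L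 (nat_lit 393) ln13_11_1 ln13_11_1_ok) (L (nat_lit 366) ln14_11_1 ln14_11_1_ok))))) (B (M (nat_lit 366) (B (L (nat_lit 394) ln14_11_1 ln14_11_1_ok) (M (nat_lit 331) (B (L (nat_lit 330) ln14_11_3 ln14_11_3_ok) (M (nat_lit 332) (B (L (nat_lit 300) ln11_13_6 ln11_13_6_ok) (L (nat_lit 367) ln15_11_3 ln15_11_3_ok))))))) (B (M (nat_lit 362) (B (L (nat_lit 398) ln10_11_0 ln10_11_0_ok) (M (nat_lit 330) (B (L (nat_lit 329) ln13_11_3 ln13_11_3_ok) (M (nat_lit 394) (B (L (nat_lit 298) ln10_9_4 ln10_9_4_ok) (L (nat_lit 393) ln13_11_1 ln13_11_1_ok))))))) (M (nat_lit 330) (B (M (nat_lit 362) (B (L (nat_lit 329) ln13_11_3 ln13_11_3_ok) (L (nat_lit 398) ln10_11_0 ln10_11_0_ok))) (M (nat_lit 331) (B (L (nat_lit 298) ln11_13_7 ln11_13_7_ok) (L (nat_lit 366) ln14_11_3 ln14_11_3_ok))))))))) (B (M (nat_lit 331) (B (M (nat_lit 300) (B (L (nat_lit 332) ln11_13_6 ln11_13_6_ok) (M (nat_lit 299) (B (L (nat_lit 268) ln11_12_6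 ln11_12_6_ok) (M (nat_lit 426) (B (L (nat_lit 394) ln11_9_5 ln11_9_5_ok) (L (nat_lit 458) ln11_10_5 ln11_10_5_ok))))))) (B (M (nat_lit 299) (B (M (nat_lit 298) (B (L (nat_lit 266) ln11_12_7 ln11_12_7_ok) (L (nat_lit 330) ln11_13_7 ln11_13_7_ok))) (M (nat_lit 426) (B (L (nat_lit 394) ln11_9_5 ln11_9_5_ok) (L (nat_lit 458) ln11_10_5 ln11_10_5_ok))))) (M (nat_lit 330) (B (L (nat_lit 298) ln11_13_7 ln11_13_7_ok) (M (nat_lit 364) (B (L (nat_lit 366) ln14_11_3 ln14_11_3_ok) (M (nat_lit 332) (B (L (nat_lit 300) ln11_13_6 ln11_13_6_ok) (L (nat_lit 329) ln9_10_0 ln9_10_0_ok)))))))))) (B (M (nat_lit 331) (B (M (nat_lit 300) (B (L (nat_lit 332) ln11_13_6 ln11_13_6_ok) (M (nat_lit 299) (B (L (nat_lit 268) ln11_12_6 ln11_12_6_ok) (M (nat_lit 426) (B (L (nat_lit 394) ln11_9_5 ln11_9_5_ok) (L (nat_lit 458) ln11_10_5 ln11_10_5_ok))))))) (B (M (nat_lit 299) (B (M (nat_lit 298) (B (L (nat_lit 266) ln11_12_7 ln11_12_7_ok)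 (L (nat_lit 330) ln11_13_7 ln11_13_7_ok))) (M (nat_lit 426) (B (L (nat_lit 394) ln11_9_5 ln11_9_5_ok) (L (nat_lit 458) ln11_10_5 ln11_10_5_ok))))) (M (nat_lit 332) (B (L (nat_lit 300) ln11_13_6 ln11_13_6_ok) (M (nat_lit 333) (B (M (nat_lit 330) (B (L (nat_lit 298) ln11_13_7 ln11_13_7_ok) (L (nat_lit 366) ln10_10_0 ln10_10_0_ok))) (M (nat_lit 334) (B (L (nat_lit 302) ln13_13_6 ln13_13_6_ok) (L (nat_lit 362) ln14_10_1 ln14_10_1_ok)))))))))) (B (M (nat_lit 364) (B (M (nat_lit 362) (B (L (nat_lit 398) ln10_11_0 ln10_11_0_ok) (M (nat_lit 330) (B (L (nat_lit 329) ln13_11_3 ln13_11_3_ok) (M (nat_lit 394) (B (L (nat_lit 298) ln10_9_4 ln10_9_4_ok) (L (nat_lit 393) ln13_11_1 ln13_11_1_ok))))))) (B (M (nat_lit 362) (B (L (nat_lit 398) ln10_11_0 ln10_11_0_ok) (M (nat_lit 333) (B (L (nat_lit 334) ln10_11_2 ln10_11_2_ok) (M (nat_lit 332) (B (L (nat_lit 300) ln13_13_7 ln13_13_7_ok) (L (nat_lit 361) ln9_11_2 ln9_11_2_ok)))))))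 (M (nat_lit 331) (B (M (nat_lit 332) (B (L (nat_lit 300) ln11_13_6 ln11_13_6_ok) (M (nat_lit 330) (B (L (nat_lit 298) ln11_13_7 ln11_13_7_ok) (L (nat_lit 329) ln9_10_0 ln9_10_0_ok))))) (B (M (nat_lit 299) (B (M (nat_lit 300) (B (L (nat_lit 268) ln11_12_6 ln11_12_6_ok) (L (nat_lit 332) ln11_13_6 ln11_13_6_ok))) (M (nat_lit 426) (B (L (nat_lit 394) ln11_9_5 ln11_9_5_ok) (L (nat_lit 458) ln11_10_5 ln11_10_5_ok))))) (M (nat_lit 299) (B (M (nat_lit 298) (B (L (nat_lit 266) ln11_12_7 ln11_12_7_ok) (L (nat_lit 330) ln11_13_7 ln11_13_7_ok))) (M (nat_lit 426) (B (L (nat_lit 394) ln11_9_5 ln11_9_5_ok) (L (nat_lit 458) ln11_10_5 ln11_10_5_ok))))))))))) (M (nat_lit 333) (B (M (nat_lit 301) (B (M (nat_lit 300) (B (L (nat_lit 268) ln13_12_7 ln13_12_7_ok) (L (nat_lit 332) ln13_13_7 ln13_13_7_ok))) (M (nat_lit 302) (B (L (nat_lit 270) ln13_12_6 ln13_12_6_ok) (L (nat_lit 334) ln13_13_6 ln13_13_6_ok))))) (B (M (nat_lit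 334) (B (L (nat_lit 302) ln13_13_6 ln13_13_6_ok) (M (nat_lit 364) (B (L (nat_lit 362) ln10_11_2 ln10_11_2_ok) (M (nat_lit 332) (B (L (nat_lit 300) ln13_13_7 ln13_13_7_ok) (L (nat_lit 335) ln15_10_1 ln15_10_1_ok))))))) (B (M (nat_lit 334) (B (L (nat_lit 302) ln13_13_6 ln13_13_6_ok) (M (nat_lit 364) (B (L (nat_lit 362) ln10_11_2 ln10_11_2_ok) (M (nat_lit 335) (B (L (nat_lit 332) ln15_10_1 ln15_10_1_ok) (L (nat_lit 366) ln11_11_2 ln11_11_2_ok))))))) (B (M (nat_lit 398) (B (M (nat_lit 364) (B (L (nat_lit 362) ln10_11_0 ln10_11_0_ok) (M (nat_lit 399) (B (L (nat_lit 366) ln11_11_0 ln11_11_0_ok) (L (nat_lit 400) ln16_12_3 ln16_12_3_ok))))) (M (nat_lit 300) (B (L (nat_lit 332) ln13_13_7 ln13_13_7_ok) (M (nat_lit 301) (B (L (nat_lit 268) ln13_12_7 ln13_12_7_ok) (L (nat_lit 430) ln13_9_4 ln13_9_4_ok))))))) (M (nat_lit 398) (B (M (nat_lit 301) (B (L (nat_lit 430) ln13_9_4 ln13_9_4_ok) (M (nat_lit 302) (B (L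 (nat_lit 270) ln13_12_6 ln13_12_6_ok) (L (nat_lit 334) ln13_13_6 ln13_13_6_ok))))) (M (nat_lit 364) (B (L (nat_lit 362) ln10_11_0 ln10_11_0_ok) (M (nat_lit 399) (B (L (nat_lit 366) ln11_11_0 ln11_11_0_ok) (L (nat_lit 400) ln16_12_3 ln16_12_3_ok)))))))))))))))))))) (nat_lit 1732918559228985830706376672885355351096359622248216585830121372155195400803650533112373112676886190308600634999815252638106124288) (nat_lit 744282856624663010515419049913152127977671174210076735157652165715350978596705927021526805886209367015308572935120977378604966546442813440) (nat_lit 744282856624663010515419049913152127977671174210076735157652165715350978596705927021526805886209367015308572935120977378604966546442813440) (by decide +kernel)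
theorem c11_s16449 : Sem (nat_lit 1732918559228985830687588332223164685273243777473901889611115911763928841837992205340115440475969322760891043012737103013850644480) (nat_lit 58968162983943750892979519951563324900956559799986856500586290987191513535429442210309022080177037402274850603200246834557117225662075763026106479813130409410027323392) (nat_lit 58968162983943750892979519951563324900956559799986856500586290987191513535429442210309022080177037402274850603200246834557117225662075763026106479813130409410027323392) :=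
  sem_of_chk (M (nat_lit 363) (B (M (nat_lit 459) (B (M (nat_lit 331) (B (M (nat_lit 332) (B (L (nat_lit 300) ln11_13_6 ln11_13_6_ok) (L (nat_lit 364) ln11_14_6 ln11_14_6_ok))) (M (nat_lit 458) (B (L (nat_lit 426) ln11_10_5 ln11_10_5_ok) (L (nat_lit 490) ln11_11_5 ln11_11_5_ok))))) (M (nat_lit 491) (B (M (nat_lit 362) (B (L (nat_lit 330) ln11_14_7 ln11_14_7_ok) (L (nat_lit 394) ln11_15_7 ln11_15_7_ok))) (M (nat_lit 492) (B (L (nat_lit 460) ln11_11_4 ln11_11_4_ok) (L (nat_lit 524) ln11_12_4 ln11_12_4_ok))))))) (B (M (nat_lit 459) (B (M (nat_lit 491) (B (M (nat_lit 362) (B (L (nat_lit 330) ln11_14_7 ln11_14_7_ok) (L (nat_lit 394) ln11_15_7 ln11_15_7_ok))) (M (nat_lit 492) (B (L (nat_lit 460) ln11_11_4 ln11_11_4_ok) (L (nat_lit 524) ln11_12_4 ln11_12_4_ok))))) (B (M (nat_lit 491) (B (M (nat_lit 490) (B (L (nat_lit 458) ln11_11_5 ln11_11_5_ok) (L (nat_lit 522) ln11_12_5 ln11_12_5_ok))) (M (nat_lit 492)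 (B (L (nat_lit 460) ln11_11_4 ln11_11_4_ok) (L (nat_lit 524) ln11_12_4 ln11_12_4_ok))))) (B (M (nat_lit 491) (B (M (nat_lit 362) (B (L (nat_lit 330) ln11_14_7 ln11_14_7_ok) (L (nat_lit 394) ln11_15_7 ln11_15_7_ok))) (M (nat_lit 490) (B (L (nat_lit 458) ln11_11_5 ln11_11_5_ok) (L (nat_lit 522) ln11_12_5 ln11_12_5_ok))))) (M (nat_lit 331) (B (M (nat_lit 330) (B (L (nat_lit 298) ln11_13_7 ln11_13_7_ok) (L (nat_lit 362) ln11_14_7 ln11_14_7_ok))) (M (nat_lit 458) (B (L (nat_lit 426) ln11_10_5 ln11_10_5_ok) (L (nat_lit 490) ln11_11_5 ln11_11_5_ok))))))))) (B (M (nat_lit 459) (B (M (nat_lit 331) (B (M (nat_lit 332) (B (L (nat_lit 300) ln11_13_6 ln11_13_6_ok) (L (nat_lit 364) ln11_14_6 ln11_14_6_ok))) (M (nat_lit 458) (B (L (nat_lit 426) ln11_10_5 ln11_10_5_ok) (L (nat_lit 490) ln11_11_5 ln11_11_5_ok))))) (B (M (nat_lit 491) (B (M (nat_lit 490) (B (L (nat_lit 458) ln11_11_5 ln11_11_5_ok) (L (nat_lit 522)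 ln11_12_5 ln11_12_5_ok))) (M (nat_lit 492) (B (L (nat_lit 460) ln11_11_4 ln11_11_4_ok) (L (nat_lit 524) ln11_12_4 ln11_12_4_ok))))) (B (M (nat_lit 491) (B (M (nat_lit 492) (B (L (nat_lit 460) ln11_11_4 ln11_11_4_ok) (L (nat_lit 524) ln11_12_4 ln11_12_4_ok))) (M (nat_lit 523) (B (M (nat_lit 394) (B (L (nat_lit 362) ln11_15_7 ln11_15_7_ok) (L (nat_lit 426) ln11_16_7 ln11_16_7_ok))) (M (nat_lit 522) (B (L (nat_lit 490) ln11_12_5 ln11_12_5_ok) (L (nat_lit 554) ln11_13_5 ln11_13_5_ok))))))) (M (nat_lit 491) (B (M (nat_lit 492) (B (L (nat_lit 460) ln11_11_4 ln11_11_4_ok) (L (nat_lit 524) ln11_12_4 ln11_12_4_ok))) (M (nat_lit 394) (B (L (nat_lit 362) ln11_15_7 ln11_15_7_ok) (M (nat_lit 331) (B (M (nat_lit 332) (B (L (nat_lit 300) ln11_13_6 ln11_13_6_ok) (L (nat_lit 364) ln11_14_6 ln11_14_6_ok))) (M (nat_lit 426) (B (L (nat_lit 458) ln11_10_5 ln11_10_5_ok) (L (nat_lit 523) ln11_16_7 ln11_16_7_ok)))))))))))))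 (B (M (nat_lit 459) (B (M (nat_lit 491) (B (M (nat_lit 362) (B (L (nat_lit 330) ln11_14_7 ln11_14_7_ok) (L (nat_lit 394) ln11_15_7 ln11_15_7_ok))) (M (nat_lit 492) (B (L (nat_lit 460) ln11_11_4 ln11_11_4_ok) (L (nat_lit 524) ln11_12_4 ln11_12_4_ok))))) (B (M (nat_lit 491) (B (M (nat_lit 490) (B (L (nat_lit 458) ln11_11_5 ln11_11_5_ok) (L (nat_lit 522) ln11_12_5 ln11_12_5_ok))) (M (nat_lit 492) (B (L (nat_lit 460) ln11_11_4 ln11_11_4_ok) (L (nat_lit 524) ln11_12_4 ln11_12_4_ok))))) (B (M (nat_lit 491) (B (M (nat_lit 362) (B (L (nat_lit 330) ln11_14_7 ln11_14_7_ok) (L (nat_lit 394) ln11_15_7 ln11_15_7_ok))) (M (nat_lit 490) (B (L (nat_lit 458) ln11_11_5 ln11_11_5_ok) (L (nat_lit 522) ln11_12_5 ln11_12_5_ok))))) (M (nat_lit 364) (B (L (nat_lit 332) ln11_14_6 ln11_14_6_ok) (M (nat_lit 362) (B (L (nat_lit 330) ln11_14_7 ln11_14_7_ok) (M (nat_lit 365) (B (L (nat_lit 398) ln10_11_0 ln10_11_0_ok) (M (nat_lit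 394) (B (L (nat_lit 393) ln13_11_1 ln13_11_1_ok) (L (nat_lit 366) ln14_11_1 ln14_11_1_ok))))))))))))) (B (M (nat_lit 331) (B (M (nat_lit 299) (B (M (nat_lit 298) (B (L (nat_lit 266) ln11_12_7 ln11_12_7_ok) (L (nat_lit 330) ln11_13_7 ln11_13_7_ok))) (M (nat_lit 426) (B (L (nat_lit 394) ln11_9_5 ln11_9_5_ok) (L (nat_lit 458) ln11_10_5 ln11_10_5_ok))))) (B (M (nat_lit 299) (B (M (nat_lit 300) (B (L (nat_lit 268) ln11_12_6 ln11_12_6_ok) (L (nat_lit 332) ln11_13_6 ln11_13_6_ok))) (M (nat_lit 426) (B (L (nat_lit 394) ln11_9_5 ln11_9_5_ok) (L (nat_lit 458) ln11_10_5 ln11_10_5_ok))))) (B (M (nat_lit 459) (B (M (nat_lit 332) (B (L (nat_lit 300) ln11_13_6 ln11_13_6_ok) (L (nat_lit 364) ln11_14_6 ln11_14_6_ok))) (M (nat_lit 458) (B (L (nat_lit 426) ln11_10_5 ln11_10_5_ok) (L (nat_lit 490) ln11_11_5 ln11_11_5_ok))))) (M (nat_lit 299) (B (M (nat_lit 298) (B (L (nat_lit 266) ln11_12_7 ln11_12_7_ok) (L (nat_lit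 330) ln11_13_7 ln11_13_7_ok))) (M (nat_lit 300) (B (L (nat_lit 268) ln11_12_6 ln11_12_6_ok) (L (nat_lit 332) ln11_13_6 ln11_13_6_ok))))))))) (B (M (nat_lit 331) (B (M (nat_lit 459) (B (M (nat_lit 332) (B (L (nat_lit 300) ln11_13_6 ln11_13_6_ok) (L (nat_lit 364) ln11_14_6 ln11_14_6_ok))) (M (nat_lit 458) (B (L (nat_lit 426) ln11_10_5 ln11_10_5_ok) (L (nat_lit 490) ln11_11_5 ln11_11_5_ok))))) (B (M (nat_lit 459) (B (M (nat_lit 330) (B (L (nat_lit 298) ln11_13_7 ln11_13_7_ok) (L (nat_lit 362) ln11_14_7 ln11_14_7_ok))) (M (nat_lit 458) (B (L (nat_lit 426) ln11_10_5 ln11_10_5_ok) (L (nat_lit 490) ln11_11_5 ln11_11_5_ok))))) (B (M (nat_lit 459) (B (M (nat_lit 330) (B (L (nat_lit 298) ln11_13_7 ln11_13_7_ok) (L (nat_lit 362) ln11_14_7 ln11_14_7_ok))) (M (nat_lit 332) (B (L (nat_lit 300) ln11_13_6 ln11_13_6_ok) (L (nat_lit 364) ln11_14_6 ln11_14_6_ok))))) (M (nat_lit 299) (B (M (nat_lit 298) (B (L (nat_lit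 266) ln11_12_7 ln11_12_7_ok) (L (nat_lit 330) ln11_13_7 ln11_13_7_ok))) (M (nat_lit 300) (B (L (nat_lit 268) ln11_12_6 ln11_12_6_ok) (L (nat_lit 332) ln11_13_6 ln11_13_6_ok))))))))) (B (M (nat_lit 364) (B (M (nat_lit 332) (B (L (nat_lit 459) ln11_14_6 ln11_14_6_ok) (M (nat_lit 300) (B (L (nat_lit 268) ln12_8_5 ln12_8_5_ok) (L (nat_lit 331) ln11_13_6 ln11_13_6_ok))))) (B (M (nat_lit 365) (B (M (nat_lit 332) (B (L (nat_lit 459) ln11_14_6 ln11_14_6_ok) (M (nat_lit 300) (B (L (nat_lit 331) ln11_13_6 ln11_13_6_ok) (L (nat_lit 333) ln13_13_7 ln13_13_7_ok))))) (M (nat_lit 362) (B (L (nat_lit 398) ln10_11_0 ln10_11_0_ok) (M (nat_lit 394) (B (L (nat_lit 393) ln13_11_1 ln13_11_1_ok) (L (nat_lit 366) ln14_11_1 ln14_11_1_ok))))))) (B (M (nat_lit 362) (B (M (nat_lit 459) (B (L (nat_lit 330) ln11_14_7 ln11_14_7_ok) (L (nat_lit 332) ln11_14_6 ln11_14_6_ok))) (M (nat_lit 365) (B (L (nat_lit 398) ln10_11_0 ln10_11_0_ok)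 (M (nat_lit 394) (B (L (nat_lit 393) ln13_11_1 ln13_11_1_ok) (L (nat_lit 366) ln14_11_1 ln14_11_1_ok))))))) (B (M (nat_lit 362) (B (M (nat_lit 330) (B (L (nat_lit 459) ln11_14_7 ln11_14_7_ok) (M (nat_lit 365) (B (L (nat_lit 329) ln13_11_3 ln13_11_3_ok) (L (nat_lit 398) ln10_11_0 ln10_11_0_ok))))) (B (M (nat_lit 330) (B (L (nat_lit 459) ln11_14_7 ln11_14_7_ok) (M (nat_lit 298) (B (L (nat_lit 331) ln11_13_7 ln11_13_7_ok) (L (nat_lit 394) ln10_9_4 ln10_9_4_ok))))) (M (nat_lit 365) (B (L (nat_lit 398) ln10_11_0 ln10_11_0_ok) (M (nat_lit 394) (B (L (nat_lit 393) ln13_11_1 ln13_11_1_ok) (L (nat_lit 366) ln14_11_1 ln14_11_1_ok)))))))) (M (nat_lit 365) (B (M (nat_lit 362) (B (L (nat_lit 398) ln10_11_0 ln10_11_0_ok) (M (nat_lit 394) (B (L (nat_lit 393) ln13_11_1 ln13_11_1_ok) (L (nat_lit 366) ln14_11_1 ln14_11_1_ok))))) (B (M (nat_lit 366) (B (L (nat_lit 394) ln14_11_1 ln14_11_1_ok) (M (nat_lit 331) (B (L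 (nat_lit 330) ln14_11_3 ln14_11_3_ok) (M (nat_lit 332) (B (L (nat_lit 300) ln11_13_6 ln11_13_6_ok) (L (nat_lit 367) ln15_11_3 ln15_11_3_ok))))))) (M (nat_lit 362) (B (L (nat_lit 398) ln10_11_0 ln10_11_0_ok) (M (nat_lit 333) (B (L (nat_lit 334) ln10_11_2 ln10_11_2_ok) (M (nat_lit 332) (B (L (nat_lit 300) ln13_13_7 ln13_13_7_ok) (L (nat_lit 361) ln9_11_2 ln9_11_2_ok))))))))))))))) (K (nat_lit 1732918559228985830706376672885355351096359622248216585830121372155195400803650533112373112676886190308600634999815252638106124288) (nat_lit 744282856624663010515419049913152127977671174210076735157652165715350978596705927021526805886209367015308572935120977378604966546442813440) (nat_lit 744282856624663010515419049913152127977671174210076735157652165715350978596705927021526805886209367015308572935120977378604966546442813440) c11_s16448))))))))) (nat_lit 1732918559228985830687588332223164685273243777473901889611115911763928841837992205340115440475969322760891043012737103013850644480)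 (nat_lit 58968162983943750892979519951563324900956559799986856500586290987191513535429442210309022080177037402274850603200246834557117225662075763026106479813130409410027323392) (nat_lit 58968162983943750892979519951563324900956559799986856500586290987191513535429442210309022080177037402274850603200246834557117225662075763026106479813130409410027323392) (by decide +kernel)
noncomputable def c11_n16452 : Cert := (M (nat_lit 363) (B (M (nat_lit 331) (B (M (nat_lit 428) (B (L (nat_lit 460) ln11_10_4 ln11_10_4_ok) (M (nat_lit 426) (B (L (nat_lit 458) ln11_10_5 ln11_10_5_ok) (L (nat_lit 398) ln10_13_2 ln10_13_2_ok))))) (B (M (nat_lit 459) (B (M (nat_lit 330) (B (L (nat_lit 298) ln11_13_7 ln11_13_7_ok) (L (nat_lit 362) ln11_14_7 ln11_14_7_ok))) (M (nat_lit 460) (B (L (nat_lit 428) ln11_10_4 ln11_10_4_ok) (L (nat_lit 492) ln11_11_4 ln11_11_4_ok))))) (M (nat_lit 459) (B (M (nat_lit 330) (B (L (nat_lit 298)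 ln11_13_7 ln11_13_7_ok) (L (nat_lit 362) ln11_14_7 ln11_14_7_ok))) (M (nat_lit 458) (B (L (nat_lit 426) ln11_10_5 ln11_10_5_ok) (L (nat_lit 490) ln11_11_5 ln11_11_5_ok)))))))) (B (M (nat_lit 331) (B (M (nat_lit 428) (B (L (nat_lit 460) ln11_10_4 ln11_10_4_ok) (M (nat_lit 426) (B (L (nat_lit 458) ln11_10_5 ln11_10_5_ok) (L (nat_lit 398) ln10_13_2 ln10_13_2_ok))))) (B (M (nat_lit 459) (B (M (nat_lit 332) (B (L (nat_lit 300) ln11_13_6 ln11_13_6_ok) (L (nat_lit 364) ln11_14_6 ln11_14_6_ok))) (M (nat_lit 460) (B (L (nat_lit 428) ln11_10_4 ln11_10_4_ok) (L (nat_lit 492) ln11_11_4 ln11_11_4_ok))))) (M (nat_lit 459) (B (M (nat_lit 332) (B (L (nat_lit 300) ln11_13_6 ln11_13_6_ok) (L (nat_lit 364) ln11_14_6 ln11_14_6_ok))) (M (nat_lit 458) (B (L (nat_lit 426) ln11_10_5 ln11_10_5_ok) (L (nat_lit 490) ln11_11_5 ln11_11_5_ok)))))))) (B (M (nat_lit 459) (B (M (nat_lit 491) (B (M (nat_lit 362) (B (L (nat_lit 330)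 ln11_14_7 ln11_14_7_ok) (L (nat_lit 394) ln11_15_7 ln11_15_7_ok))) (M (nat_lit 492) (B (L (nat_lit 460) ln11_11_4 ln11_11_4_ok) (L (nat_lit 524) ln11_12_4 ln11_12_4_ok))))) (B (M (nat_lit 491) (B (M (nat_lit 490) (B (L (nat_lit 458) ln11_11_5 ln11_11_5_ok) (L (nat_lit 522) ln11_12_5 ln11_12_5_ok))) (M (nat_lit 492) (B (L (nat_lit 460) ln11_11_4 ln11_11_4_ok) (L (nat_lit 524) ln11_12_4 ln11_12_4_ok))))) (B (M (nat_lit 491) (B (M (nat_lit 362) (B (L (nat_lit 330) ln11_14_7 ln11_14_7_ok) (L (nat_lit 394) ln11_15_7 ln11_15_7_ok))) (M (nat_lit 490) (B (L (nat_lit 458) ln11_11_5 ln11_11_5_ok) (L (nat_lit 522) ln11_12_5 ln11_12_5_ok))))) (M (nat_lit 364) (B (L (nat_lit 332) ln11_14_6 ln11_14_6_ok) (M (nat_lit 362) (B (L (nat_lit 330) ln11_14_7 ln11_14_7_ok) (M (nat_lit 365) (B (L (nat_lit 398) ln10_11_0 ln10_11_0_ok) (M (nat_lit 394) (B (L (nat_lit 393) ln13_11_1 ln13_11_1_ok) (L (nat_lit 366) ln14_11_1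 ln14_11_1_ok))))))))))))) (B (M (nat_lit 331) (B (M (nat_lit 299) (B (M (nat_lit 298) (B (L (nat_lit 266) ln11_12_7 ln11_12_7_ok) (L (nat_lit 330) ln11_13_7 ln11_13_7_ok))) (M (nat_lit 426) (B (L (nat_lit 394) ln11_9_5 ln11_9_5_ok) (L (nat_lit 458) ln11_10_5 ln11_10_5_ok))))) (B (M (nat_lit 299) (B (M (nat_lit 300) (B (L (nat_lit 268) ln11_12_6 ln11_12_6_ok) (L (nat_lit 332) ln11_13_6 ln11_13_6_ok))) (M (nat_lit 426) (B (L (nat_lit 394) ln11_9_5 ln11_9_5_ok) (L (nat_lit 458) ln11_10_5 ln11_10_5_ok))))) (B (M (nat_lit 459) (B (M (nat_lit 332) (B (L (nat_lit 300) ln11_13_6 ln11_13_6_ok) (L (nat_lit 364) ln11_14_6 ln11_14_6_ok))) (M (nat_lit 458) (B (L (nat_lit 426) ln11_10_5 ln11_10_5_ok) (L (nat_lit 490) ln11_11_5 ln11_11_5_ok))))) (M (nat_lit 299) (B (M (nat_lit 298) (B (L (nat_lit 266) ln11_12_7 ln11_12_7_ok) (L (nat_lit 330) ln11_13_7 ln11_13_7_ok))) (M (nat_lit 300) (B (L (nat_lit 268) ln11_12_6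 ln11_12_6_ok) (L (nat_lit 332) ln11_13_6 ln11_13_6_ok))))))))) (B (M (nat_lit 459) (B (M (nat_lit 331) (B (M (nat_lit 332) (B (L (nat_lit 300) ln11_13_6 ln11_13_6_ok) (L (nat_lit 364) ln11_14_6 ln11_14_6_ok))) (M (nat_lit 460) (B (L (nat_lit 428) ln11_10_4 ln11_10_4_ok) (L (nat_lit 492) ln11_11_4 ln11_11_4_ok))))) (B (M (nat_lit 331) (B (M (nat_lit 330) (B (L (nat_lit 298) ln11_13_7 ln11_13_7_ok) (L (nat_lit 362) ln11_14_7 ln11_14_7_ok))) (M (nat_lit 460) (B (L (nat_lit 428) ln11_10_4 ln11_10_4_ok) (L (nat_lit 492) ln11_11_4 ln11_11_4_ok))))) (B (M (nat_lit 491) (B (M (nat_lit 362) (B (L (nat_lit 330) ln11_14_7 ln11_14_7_ok) (L (nat_lit 394) ln11_15_7 ln11_15_7_ok))) (M (nat_lit 492) (B (L (nat_lit 460) ln11_11_4 ln11_11_4_ok) (L (nat_lit 524) ln11_12_4 ln11_12_4_ok))))) (M (nat_lit 331) (B (M (nat_lit 330) (B (L (nat_lit 298) ln11_13_7 ln11_13_7_ok) (L (nat_lit 362) ln11_14_7 ln11_14_7_ok))) (M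 (nat_lit 332) (B (L (nat_lit 300) ln11_13_6 ln11_13_6_ok) (L (nat_lit 364) ln11_14_6 ln11_14_6_ok))))))))) (M (nat_lit 331) (B (M (nat_lit 428) (B (L (nat_lit 460) ln11_10_4 ln11_10_4_ok) (M (nat_lit 426) (B (L (nat_lit 458) ln11_10_5 ln11_10_5_ok) (L (nat_lit 398) ln10_13_2 ln10_13_2_ok))))) (M (nat_lit 299) (B (M (nat_lit 298) (B (L (nat_lit 266) ln11_12_7 ln11_12_7_ok) (L (nat_lit 330) ln11_13_7 ln11_13_7_ok))) (M (nat_lit 300) (B (L (nat_lit 268) ln11_12_6 ln11_12_6_ok) (L (nat_lit 332) ln11_13_6 ln11_13_6_ok)))))))))))))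
noncomputable def c11_n16523 : Cert := (M (nat_lit 428) (B (M (nat_lit 394) (B (L (nat_lit 430) ln14_13_3 ln14_13_3_ok) (M (nat_lit 426) (B (L (nat_lit 393) ln13_13_3 ln13_13_3_ok) (L (nat_lit 398) ln10_13_2 ln10_13_2_ok))))) (B (M (nat_lit 398) (B (L (nat_lit 426) ln10_13_2 ln10_13_2_ok) (M (nat_lit 399) (B (L (nat_lit 400) ln16_12_1 ln16_12_1_ok) (L (nat_lit 430) ln11_13_2 ln11_13_2_ok))))) (B (M (nat_lit 394) (B (L (nat_lit 430) ln14_13_3 ln14_13_3_ok) (M (nat_lit 393) (B (L (nat_lit 392) ln8_12_0 ln8_12_0_ok) (L (nat_lit 426) ln13_13_3 ln13_13_3_ok))))) (B (M (nat_lit 394) (B (L (nat_lit 430) ln14_13_3 ln14_13_3_ok) (M (nat_lit 363) (B (M (nat_lit 460) (B (L (nat_lit 331) ln11_10_4 ln11_10_4_ok) (M (nat_lit 459) (B (L (nat_lit 492) ln11_11_4 ln11_11_4_ok) (M (nat_lit 362) (B (L (nat_lit 330) ln11_14_7 ln11_14_7_ok) (L (nat_lit 491) ln11_15_7 ln11_15_7_ok))))))) (B (M (nat_lit 460) (B (L (nat_lit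 331) ln11_10_4 ln11_10_4_ok) (M (nat_lit 364) (B (M (nat_lit 459) (B (L (nat_lit 332) ln11_14_6 ln11_14_6_ok) (L (nat_lit 492) ln11_11_4 ln11_11_4_ok))) (M (nat_lit 365) (B (L (nat_lit 333) ln13_10_5 ln13_10_5_ok) (L (nat_lit 366) ln14_11_1 ln14_11_1_ok))))))) (B (M (nat_lit 459) (B (M (nat_lit 362) (B (L (nat_lit 330) ln11_14_7 ln11_14_7_ok) (L (nat_lit 491) ln11_15_7 ln11_15_7_ok))) (M (nat_lit 365) (B (M (nat_lit 460) (B (L (nat_lit 333) ln13_10_5 ln13_10_5_ok) (L (nat_lit 492) ln11_11_4 ln11_11_4_ok))) (M (nat_lit 364) (B (L (nat_lit 332) ln11_14_6 ln11_14_6_ok) (L (nat_lit 366) ln14_11_1 ln14_11_1_ok))))))) (B (M (nat_lit 331) (B (L (nat_lit 460) ln11_10_4 ln11_10_4_ok) (M (nat_lit 299) (B (M (nat_lit 298) (B (L (nat_lit 266) ln11_12_7 ln11_12_7_ok) (L (nat_lit 330) ln11_13_7 ln11_13_7_ok))) (M (nat_lit 300) (B (L (nat_lit 268) ln11_12_6 ln11_12_6_ok) (L (nat_lit 332) ln11_13_6 ln11_13_6_ok)))))))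 (M (nat_lit 364) (B (M (nat_lit 332) (B (L (nat_lit 459) ln11_14_6 ln11_14_6_ok) (M (nat_lit 300) (B (L (nat_lit 268) ln12_8_5 ln12_8_5_ok) (L (nat_lit 331) ln11_13_6 ln11_13_6_ok))))) (M (nat_lit 393) (B (L (nat_lit 392) ln8_12_2 ln8_12_2_ok) (M (nat_lit 365) (B (L (nat_lit 362) ln13_11_1 ln13_11_1_ok) (L (nat_lit 366) ln14_11_1 ln14_11_1_ok)))))))))))))) (M (nat_lit 363) (B (M (nat_lit 460) (B (L (nat_lit 331) ln11_10_4 ln11_10_4_ok) (M (nat_lit 492) (B (L (nat_lit 459) ln11_11_4 ln11_11_4_ok) (L (nat_lit 524) ln12_16_7 ln12_16_7_ok))))) (B (M (nat_lit 394) (B (M (nat_lit 393) (B (L (nat_lit 392) ln8_12_0 ln8_12_0_ok) (L (nat_lit 426) ln13_13_3 ln13_13_3_ok))) (M (nat_lit 459) (B (M (nat_lit 362) (B (L (nat_lit 330) ln11_14_7 ln11_14_7_ok) (L (nat_lit 491) ln11_15_7 ln11_15_7_ok))) (M (nat_lit 365) (B (M (nat_lit 460) (B (L (nat_lit 333) ln13_10_5 ln13_10_5_ok) (L (nat_lit 492) ln11_11_4 ln11_11_4_ok)))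 (M (nat_lit 364) (B (L (nat_lit 332) ln11_14_6 ln11_14_6_ok) (L (nat_lit 366) ln14_11_1 ln14_11_1_ok))))))))) (B (M (nat_lit 331) (B (L (nat_lit 460) ln11_10_4 ln11_10_4_ok) (M (nat_lit 426) (B (L (nat_lit 398) ln10_13_2 ln10_13_2_ok) (M (nat_lit 394) (B (L (nat_lit 299) ln11_9_5 ln11_9_5_ok) (L (nat_lit 393) ln13_13_3 ln13_13_3_ok))))))) (M (nat_lit 394) (B (M (nat_lit 393) (B (L (nat_lit 392) ln8_12_0 ln8_12_0_ok) (L (nat_lit 426) ln13_13_3 ln13_13_3_ok))) (B (M (nat_lit 426) (B (L (nat_lit 393) ln13_13_3 ln13_13_3_ok) (L (nat_lit 398) ln10_13_2 ln10_13_2_ok))) (B (M (nat_lit 364) (B (M (nat_lit 365) (B (L (nat_lit 366) ln14_11_1 ln14_11_1_ok) (M (nat_lit 398) (B (L (nat_lit 362) ln10_11_0 ln10_11_0_ok) (L (nat_lit 426) ln10_13_2 ln10_13_2_ok))))) (M (nat_lit 332) (B (L (nat_lit 459) ln11_14_6 ln11_14_6_ok) (M (nat_lit 300) (B (L (nat_lit 268) ln12_8_5 ln12_8_5_ok) (L (nat_lit 331) ln11_13_6 ln11_13_6_ok)))))))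 (M (nat_lit 364) (B (M (nat_lit 393) (B (L (nat_lit 392) ln8_12_2 ln8_12_2_ok) (M (nat_lit 365) (B (L (nat_lit 362) ln13_11_1 ln13_11_1_ok) (L (nat_lit 366) ln14_11_1 ln14_11_1_ok))))) (M (nat_lit 332) (B (L (nat_lit 459) ln11_14_6 ln11_14_6_ok) (M (nat_lit 300) (B (L (nat_lit 268) ln12_8_5 ln12_8_5_ok) (L (nat_lit 331) ln11_13_6 ln11_13_6_ok))))))))))))))))))))
theorem c11_s16527 : Sem (nat_lit 1386334847463883973240286559205279222343689143051924817714805964187101178362289002460118639712951875498717141642561656535228874752) (nat_lit 294840814535290085408076681430607701987496061091019450055999081185074275633610115994226315097034821232399820063424580180281859253164137991760088496391200507851649843200) (nat_lit 294840814535290085408076681430607701987496061091019450055999081185074275633610115994226315097034821232399820063424580180281859253164137991760088496391200507851649843200) :=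
  sem_of_chk (M (nat_lit 427) (B (M (nat_lit 428) (B (M (nat_lit 394) (B (L (nat_lit 430) ln14_13_3 ln14_13_3_ok) (M (nat_lit 426) (B (L (nat_lit 393) ln13_13_3 ln13_13_3_ok) (L (nat_lit 398) ln10_13_2 ln10_13_2_ok))))) (B (M (nat_lit 398) (B (L (nat_lit 426) ln10_13_2 ln10_13_2_ok) (M (nat_lit 399) (B (L (nat_lit 400) ln16_12_1 ln16_12_1_ok) (L (nat_lit 430) ln11_13_2 ln11_13_2_ok))))) (B (M (nat_lit 394) (B (L (nat_lit 430) ln14_13_3 ln14_13_3_ok) (M (nat_lit 393) (B (L (nat_lit 392) ln8_12_0 ln8_12_0_ok) (L (nat_lit 426) ln13_13_3 ln13_13_3_ok))))) (B (M (nat_lit 430) (B (L (nat_lit 394) ln14_13_3 ln14_13_3_ok) (M (nat_lit 431) (B (M (nat_lit 399) (B (L (nat_lit 398) ln11_13_2 ln11_13_2_ok) (L (nat_lit 400) ln12_13_2 ln12_13_2_ok))) (M (nat_lit 459) (B (L (nat_lit 458) ln14_13_1 ln14_13_1_ok) (L (nat_lit 460) ln15_13_1 ln15_13_1_ok))))))) (M (nat_lit 426) (B (L (nat_lit 398) ln10_13_2 ln10_13_2_ok)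 (M (nat_lit 425) (B (M (nat_lit 393) (B (L (nat_lit 392) ln12_13_3 ln12_13_3_ok) (L (nat_lit 394) ln13_13_3 ln13_13_3_ok))) (M (nat_lit 457) (B (L (nat_lit 456) ln12_13_1 ln12_13_1_ok) (L (nat_lit 458) ln13_13_1 ln13_13_1_ok)))))))))))) (B (M (nat_lit 428) (B (M (nat_lit 398) (B (L (nat_lit 426) ln10_13_2 ln10_13_2_ok) (M (nat_lit 399) (B (L (nat_lit 400) ln16_12_1 ln16_12_1_ok) (L (nat_lit 430) ln11_13_2 ln11_13_2_ok))))) (B (M (nat_lit 430) (B (L (nat_lit 394) ln14_13_3 ln14_13_3_ok) (M (nat_lit 459) (B (L (nat_lit 458) ln14_13_1 ln14_13_1_ok) (M (nat_lit 460) (B (L (nat_lit 431) ln15_13_1 ln15_13_1_ok) (M (nat_lit 363) (B (L (nat_lit 331) ln11_10_4 ln11_10_4_ok) (L (nat_lit 492) ln11_11_4 ln11_11_4_ok))))))))) (M (nat_lit 426) (B (L (nat_lit 398) ln10_13_2 ln10_13_2_ok) (M (nat_lit 458) (B (L (nat_lit 457) ln13_13_1 ln13_13_1_ok) (M (nat_lit 363) (B (L (nat_lit 331) ln11_10_5 ln11_10_5_ok) (M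 (nat_lit 490) (B (L (nat_lit 459) ln11_11_5 ln11_11_5_ok) (L (nat_lit 522) ln10_16_6 ln10_16_6_ok)))))))))))) (B (K (nat_lit 1732918559228985830687588332223164685273243777473901889611115911763928841837992205340115440475969322760891043012737103013850644480) (nat_lit 68647976623682790763694020284747260285361828926120200011678971061721500708608354798307167210341469296584269102776242203321753315736667157989109741313083834368) (nat_lit 68647976623682790763694020284747260285361828926120200011678971061721500708608354798307167210341469296584269102776242203321753315736667157989109741313083834368) c11_s16108) (B c11_n16117 (B (K (nat_lit 1732918559228985830687588332223164685273243777473901889611115911763928841837992205340115440475969322760891043012737103013850644480) (nat_lit 68647976623682790930785520974259821017327658329291047554792260607623296843065238780656526423932591875139064027356350715572484591390888757448954376634509557760)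 (nat_lit 68647976623682790930785520974259821017327658329291047554792260607623296843065238780656526423932591875139064027356350715572484591390888757448954376634509557760) c11_s16239) (B (K (nat_lit 1732918559228985830687588332223164685273243777473901889611115911763928841837992205340115440475969322760891043012737103013850644480) (nat_lit 58968162983943750892979519951563324900956559799986856500586290987191513535429442210309022080177037402274850603200246834557117225662075763026106479813130409410027323392) (nat_lit 58968162983943750892979519951563324900956559799986856500586290987191513535429442210309022080177037402274850603200246834557117225662075763026106479813130409410027323392) c11_s16449) (B c11_n16452 (B c11_n16523 (M (nat_lit 428) (B (M (nat_lit 398) (B (L (nat_lit 426) ln10_13_2 ln10_13_2_ok) (M (nat_lit 399) (B (L (nat_lit 400) ln16_12_1 ln16_12_1_ok) (L (nat_lit 430) ln11_13_2 ln11_13_2_ok)))))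 (B (M (nat_lit 394) (B (L (nat_lit 430) ln14_13_3 ln14_13_3_ok) (M (nat_lit 393) (B (L (nat_lit 392) ln8_12_0 ln8_12_0_ok) (L (nat_lit 426) ln13_13_3 ln13_13_3_ok))))) (B (M (nat_lit 430) (B (L (nat_lit 394) ln14_13_3 ln14_13_3_ok) (M (nat_lit 431) (B (M (nat_lit 399) (B (L (nat_lit 398) ln11_13_2 ln11_13_2_ok) (L (nat_lit 400) ln12_13_2 ln12_13_2_ok))) (B (M (nat_lit 432) (B (M (nat_lit 400) (B (L (nat_lit 399) ln12_13_2 ln12_13_2_ok) (L (nat_lit 401) ln13_13_2 ln13_13_2_ok))) (M (nat_lit 464) (B (L (nat_lit 463) ln12_13_0 ln12_13_0_ok) (L (nat_lit 465) ln13_13_0 ln13_13_0_ok))))) (B (M (nat_lit 432) (B (M (nat_lit 464) (B (L (nat_lit 463) ln12_13_0 ln12_13_0_ok) (L (nat_lit 465) ln13_13_0 ln13_13_0_ok))) (M (nat_lit 401) (B (L (nat_lit 400) ln13_13_2 ln13_13_2_ok) (M (nat_lit 433) (B (L (nat_lit 398) ln17_13_3 ln17_13_3_ok) (L (nat_lit 402) ln14_13_2 ln14_13_2_ok))))))) (M (nat_lit 432) (B (M (nat_lit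 398) (B (L (nat_lit 433) ln17_13_3 ln17_13_3_ok) (L (nat_lit 399) ln11_13_2 ln11_13_2_ok))) (M (nat_lit 464) (B (L (nat_lit 463) ln12_13_0 ln12_13_0_ok) (L (nat_lit 465) ln13_13_0 ln13_13_0_ok))))))))))) (M (nat_lit 426) (B (L (nat_lit 398) ln10_13_2 ln10_13_2_ok) (M (nat_lit 394) (B (L (nat_lit 393) ln13_13_3 ln13_13_3_ok) (M (nat_lit 458) (B (L (nat_lit 457) ln13_13_1 ln13_13_1_ok) (M (nat_lit 363) (B (L (nat_lit 331) ln11_10_5 ln11_10_5_ok) (L (nat_lit 490) ln10_15_6 ln10_15_6_ok)))))))))))))))))))))) (nat_lit 1386334847463883973240286559205279222343689143051924817714805964187101178362289002460118639712951875498717141642561656535228874752) (nat_lit 294840814535290085408076681430607701987496061091019450055999081185074275633610115994226315097034821232399820063424580180281859253164137991760088496391200507851649843200) (nat_lit 294840814535290085408076681430607701987496061091019450055999081185074275633610115994226315097034821232399820063424580180281859253164137991760088496391200507851649843200)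 (by decide +kernel)
theorem c11_s16668 : Sem (nat_lit 1386334847504231627585394505918652959406236203588326470727762581575080230808236621554131783379040084143719295258747643597303054336) (nat_lit 235872651647453501779302390935760570590566343865704776001399016437352456639366077694193315486586452323007278771523235051214308688318355453838715968625403459062351265792) (nat_lit 235872651647453501779302390935760570590566343865704776001399016437352456639366077694193315486586452323007278771523235051214308688318355453838715968625403459062351265792) :=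
  sem_of_chk (M (nat_lit 427) (B (M (nat_lit 428) (B (L (nat_lit 430) ln14_13_3 ln14_13_3_ok) (M (nat_lit 393) (B (L (nat_lit 392) ln8_12_0 ln8_12_0_ok) (L (nat_lit 426) ln13_13_3 ln13_13_3_ok))))) (B (M (nat_lit 428) (B (L (nat_lit 430) ln14_13_3 ln14_13_3_ok) (M (nat_lit 426) (B (L (nat_lit 393) ln13_13_3 ln13_13_3_ok) (M (nat_lit 458) (B (L (nat_lit 457) ln13_13_1 ln13_13_1_ok) (M (nat_lit 363) (B (L (nat_lit 331) ln11_10_5 ln11_10_5_ok) (L (nat_lit 490) ln10_15_6 ln10_15_6_ok))))))))) (B (M (nat_lit 363) (B (M (nat_lit 428) (B (L (nat_lit 430) ln14_13_3 ln14_13_3_ok) (M (nat_lit 331) (B (L (nat_lit 460) ln11_10_4 ln11_10_4_ok) (M (nat_lit 426) (B (L (nat_lit 299) ln11_9_5 ln11_9_5_ok) (L (nat_lit 458) ln11_10_5 ln11_10_5_ok))))))) (B (M (nat_lit 428) (B (L (nat_lit 430) ln14_13_3 ln14_13_3_ok) (M (nat_lit 460) (B (L (nat_lit 331) ln11_10_4 ln11_10_4_ok) (M (nat_lit 492) (B (L (nat_lit 459) ln11_11_4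 ln11_11_4_ok) (L (nat_lit 524) ln12_16_7 ln12_16_7_ok))))))) (B (M (nat_lit 459) (B (M (nat_lit 362) (B (L (nat_lit 330) ln11_14_7 ln11_14_7_ok) (L (nat_lit 491) ln11_15_7 ln11_15_7_ok))) (B (M (nat_lit 491) (B (L (nat_lit 362) ln11_15_7 ln11_15_7_ok) (M (nat_lit 492) (B (L (nat_lit 460) ln11_11_4 ln11_11_4_ok) (L (nat_lit 524) ln11_12_4 ln11_12_4_ok))))) (M (nat_lit 428) (B (L (nat_lit 430) ln14_13_3 ln14_13_3_ok) (M (nat_lit 458) (B (L (nat_lit 490) ln11_11_5 ln11_11_5_ok) (M (nat_lit 460) (B (L (nat_lit 492) ln11_11_4 ln11_11_4_ok) (L (nat_lit 457) ln9_14_2 ln9_14_2_ok)))))))))) (M (nat_lit 459) (B (M (nat_lit 362) (B (L (nat_lit 330) ln11_14_7 ln11_14_7_ok) (L (nat_lit 491) ln11_15_7 ln11_15_7_ok))) (M (nat_lit 331) (B (M (nat_lit 332) (B (L (nat_lit 300) ln11_13_6 ln11_13_6_ok) (L (nat_lit 364) ln11_14_6 ln11_14_6_ok))) (M (nat_lit 458) (B (L (nat_lit 426) ln11_10_5 ln11_10_5_ok) (L (nat_lit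 490) ln11_11_5 ln11_11_5_ok))))))))))) (B (M (nat_lit 363) (B (M (nat_lit 428) (B (L (nat_lit 430) ln14_13_3 ln14_13_3_ok) (M (nat_lit 460) (B (L (nat_lit 331) ln11_10_4 ln11_10_4_ok) (M (nat_lit 492) (B (L (nat_lit 459) ln11_11_4 ln11_11_4_ok) (L (nat_lit 524) ln12_16_7 ln12_16_7_ok))))))) (B (M (nat_lit 459) (B (M (nat_lit 362) (B (L (nat_lit 330) ln11_14_7 ln11_14_7_ok) (L (nat_lit 491) ln11_15_7 ln11_15_7_ok))) (M (nat_lit 428) (B (L (nat_lit 430) ln14_13_3 ln14_13_3_ok) (M (nat_lit 458) (B (L (nat_lit 490) ln11_11_5 ln11_11_5_ok) (M (nat_lit 460) (B (L (nat_lit 492) ln11_11_4 ln11_11_4_ok) (L (nat_lit 457) ln9_14_2 ln9_14_2_ok))))))))) (B (M (nat_lit 364) (B (M (nat_lit 332) (B (L (nat_lit 459) ln11_14_6 ln11_14_6_ok) (M (nat_lit 300) (B (L (nat_lit 268) ln12_8_5 ln12_8_5_ok) (L (nat_lit 331) ln11_13_6 ln11_13_6_ok))))) (B (M (nat_lit 459) (B (L (nat_lit 332) ln11_14_6 ln11_14_6_ok) (M (nat_lit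 362) (B (L (nat_lit 330) ln11_14_7 ln11_14_7_ok) (L (nat_lit 491) ln11_15_7 ln11_15_7_ok))))) (M (nat_lit 365) (B (L (nat_lit 366) ln14_11_1 ln14_11_1_ok) (M (nat_lit 393) (B (L (nat_lit 362) ln13_11_1 ln13_11_1_ok) (L (nat_lit 392) ln8_12_2 ln8_12_2_ok)))))))) (M (nat_lit 331) (B (M (nat_lit 428) (B (L (nat_lit 460) ln11_10_4 ln11_10_4_ok) (L (nat_lit 430) ln14_13_3 ln14_13_3_ok))) (M (nat_lit 299) (B (M (nat_lit 298) (B (L (nat_lit 266) ln11_12_7 ln11_12_7_ok) (L (nat_lit 330) ln11_13_7 ln11_13_7_ok))) (M (nat_lit 300) (B (L (nat_lit 268) ln11_12_6 ln11_12_6_ok) (L (nat_lit 332) ln11_13_6 ln11_13_6_ok))))))))))) (M (nat_lit 459) (B (M (nat_lit 362) (B (L (nat_lit 491) ln11_15_7 ln11_15_7_ok) (M (nat_lit 330) (B (L (nat_lit 298) ln10_9_4 ln10_9_4_ok) (L (nat_lit 426) ln10_10_4 ln10_10_4_ok))))) (B (M (nat_lit 362) (B (L (nat_lit 491) ln11_15_7 ln11_15_7_ok) (M (nat_lit 330) (B (L (nat_lit 363) ln11_14_7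 ln11_14_7_ok) (L (nat_lit 426) ln10_10_4 ln10_10_4_ok))))) (B (M (nat_lit 491) (B (L (nat_lit 362) ln11_15_7 ln11_15_7_ok) (M (nat_lit 523) (B (L (nat_lit 426) ln11_16_7 ln11_16_7_ok) (M (nat_lit 524) (B (L (nat_lit 492) ln11_12_4 ln11_12_4_ok) (L (nat_lit 556) ln11_13_4 ln11_13_4_ok))))))) (B (M (nat_lit 491) (B (M (nat_lit 523) (B (L (nat_lit 426) ln11_16_7 ln11_16_7_ok) (M (nat_lit 524) (B (L (nat_lit 492) ln11_12_4 ln11_12_4_ok) (L (nat_lit 556) ln11_13_4 ln11_13_4_ok))))) (B (M (nat_lit 363) (B (M (nat_lit 490) (B (L (nat_lit 458) ln11_11_5 ln11_11_5_ok) (L (nat_lit 522) ln11_12_5 ln11_12_5_ok))) (M (nat_lit 492) (B (L (nat_lit 460) ln11_11_4 ln11_11_4_ok) (L (nat_lit 524) ln11_12_4 ln11_12_4_ok))))) (M (nat_lit 363) (B (M (nat_lit 490) (B (L (nat_lit 458) ln11_11_5 ln11_11_5_ok) (L (nat_lit 522) ln11_12_5 ln11_12_5_ok))) (M (nat_lit 331) (B (M (nat_lit 426) (B (L (nat_lit 299) ln11_9_5 ln11_9_5_ok)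 (L (nat_lit 523) ln11_16_7 ln11_16_7_ok))) (M (nat_lit 332) (B (L (nat_lit 300) ln11_13_6 ln11_13_6_ok) (L (nat_lit 364) ln11_14_6 ln11_14_6_ok)))))))))) (B (M (nat_lit 362) (B (L (nat_lit 491) ln11_15_7 ln11_15_7_ok) (M (nat_lit 330) (B (L (nat_lit 298) ln10_9_4 ln10_9_4_ok) (L (nat_lit 363) ln11_14_7 ln11_14_7_ok))))) (M (nat_lit 363) (B (M (nat_lit 330) (B (L (nat_lit 362) ln11_14_7 ln11_14_7_ok) (M (nat_lit 331) (B (L (nat_lit 298) ln11_13_7 ln11_13_7_ok) (M (nat_lit 332) (B (L (nat_lit 300) ln11_13_6 ln11_13_6_ok) (L (nat_lit 364) ln11_14_6 ln11_14_6_ok))))))) (B (M (nat_lit 331) (B (M (nat_lit 332) (B (L (nat_lit 300) ln11_13_6 ln11_13_6_ok) (L (nat_lit 364) ln11_14_6 ln11_14_6_ok))) (M (nat_lit 426) (B (L (nat_lit 299) ln11_9_5 ln11_9_5_ok) (L (nat_lit 458) ln11_10_5 ln11_10_5_ok))))) (B (M (nat_lit 331) (B (M (nat_lit 330) (B (L (nat_lit 298) ln11_13_7 ln11_13_7_ok) (L (nat_lit 362) ln11_14_7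 ln11_14_7_ok))) (M (nat_lit 426) (B (L (nat_lit 299) ln11_9_5 ln11_9_5_ok) (L (nat_lit 458) ln11_10_5 ln11_10_5_ok))))) (M (nat_lit 362) (B (L (nat_lit 330) ln11_14_7 ln11_14_7_ok) (M (nat_lit 364) (B (L (nat_lit 332) ln11_14_6 ln11_14_6_ok) (M (nat_lit 365) (B (L (nat_lit 393) ln13_11_1 ln13_11_1_ok) (L (nat_lit 366) ln14_11_1 ln14_11_1_ok)))))))))))))))))))))) (nat_lit 1386334847504231627585394505918652959406236203588326470727762581575080230808236621554131783379040084143719295258747643597303054336) (nat_lit 235872651647453501779302390935760570590566343865704776001399016437352456639366077694193315486586452323007278771523235051214308688318355453838715968625403459062351265792) (nat_lit 235872651647453501779302390935760570590566343865704776001399016437352456639366077694193315486586452323007278771523235051214308688318355453838715968625403459062351265792) (by decide +kernel)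
noncomputable def c11_n16689 : Cert := (M (nat_lit 394) (B (M (nat_lit 396) (B (L (nat_lit 430) ln10_12_0 ln10_12_0_ok) (M (nat_lit 393) (B (L (nat_lit 428) ln9_12_0 ln9_12_0_ok) (M (nat_lit 425) (B (L (nat_lit 424) ln12_12_1 ln12_12_1_ok) (L (nat_lit 426) ln13_12_1 ln13_12_1_ok))))))) (B (M (nat_lit 396) (B (L (nat_lit 430) ln10_12_0 ln10_12_0_ok) (M (nat_lit 427) (B (M (nat_lit 362) (B (L (nat_lit 361) ln13_12_3 ln13_12_3_ok) (M (nat_lit 459) (B (L (nat_lit 491) ln11_15_7 ln11_15_7_ok) (M (nat_lit 330) (B (L (nat_lit 298) ln10_9_4 ln10_9_4_ok) (L (nat_lit 363) ln11_14_7 ln11_14_7_ok))))))) (B (M (nat_lit 362) (B (L (nat_lit 361) ln13_12_3 ln13_12_3_ok) (M (nat_lit 459) (B (L (nat_lit 491) ln11_15_7 ln11_15_7_ok) (M (nat_lit 426) (B (L (nat_lit 330) ln10_10_4 ln10_10_4_ok) (L (nat_lit 425) ln13_12_1 ln13_12_1_ok))))))) (B (M (nat_lit 362) (B (L (nat_lit 361) ln13_12_3 ln13_12_3_ok) (M (nat_lit 426)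 (B (L (nat_lit 425) ln13_12_1 ln13_12_1_ok) (M (nat_lit 458) (B (M (nat_lit 363) (B (L (nat_lit 331) ln10_14_6 ln10_14_6_ok) (L (nat_lit 490) ln10_15_6 ln10_15_6_ok))) (M (nat_lit 457) (B (L (nat_lit 489) ln10_11_5 ln10_11_5_ok) (L (nat_lit 428) ln13_13_1 ln13_13_1_ok))))))))) (B (M (nat_lit 362) (B (M (nat_lit 426) (B (L (nat_lit 425) ln13_12_1 ln13_12_1_ok) (M (nat_lit 330) (B (L (nat_lit 298) ln10_9_4 ln10_9_4_ok) (L (nat_lit 459) ln10_10_4 ln10_10_4_ok))))) (B (M (nat_lit 459) (B (L (nat_lit 491) ln11_15_7 ln11_15_7_ok) (M (nat_lit 426) (B (L (nat_lit 330) ln10_10_4 ln10_10_4_ok) (L (nat_lit 425) ln13_12_1 ln13_12_1_ok))))) (B (M (nat_lit 426) (B (L (nat_lit 425) ln13_12_1 ln13_12_1_ok) (M (nat_lit 458) (B (M (nat_lit 363) (B (L (nat_lit 331) ln10_14_6 ln10_14_6_ok) (L (nat_lit 490) ln10_15_6 ln10_15_6_ok))) (M (nat_lit 457) (B (L (nat_lit 489) ln10_11_5 ln10_11_5_ok) (L (nat_lit 428) ln13_13_1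 ln13_13_1_ok))))))) (M (nat_lit 459) (B (L (nat_lit 491) ln11_15_7 ln11_15_7_ok) (M (nat_lit 330) (B (L (nat_lit 298) ln10_9_4 ln10_9_4_ok) (L (nat_lit 363) ln11_14_7 ln11_14_7_ok))))))))) (M (nat_lit 428) (B (M (nat_lit 365) (B (L (nat_lit 366) ln10_12_2 ln10_12_2_ok) (M (nat_lit 460) (B (L (nat_lit 333) ln13_10_5 ln13_10_5_ok) (L (nat_lit 492) ln12_15_6 ln12_15_6_ok))))) (M (nat_lit 426) (B (L (nat_lit 425) ln13_12_1 ln13_12_1_ok) (M (nat_lit 458) (B (L (nat_lit 457) ln13_13_1 ln13_13_1_ok) (M (nat_lit 363) (B (L (nat_lit 331) ln11_10_5 ln11_10_5_ok) (L (nat_lit 490) ln10_15_6 ln10_15_6_ok)))))))))))))))) (B (K (nat_lit 1386334847504231627585394505918652959406236203588326470727762581575080230808236621554131783379040084143719295258747643597303054336) (nat_lit 235872651647453501779302390935760570590566343865704776001399016437352456639366077694193315486586452323007278771523235051214308688318355453838715968625403459062351265792)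 (nat_lit 235872651647453501779302390935760570590566343865704776001399016437352456639366077694193315486586452323007278771523235051214308688318355453838715968625403459062351265792) c11_s16668) (B (M (nat_lit 396) (B (L (nat_lit 430) ln10_12_0 ln10_12_0_ok) (M (nat_lit 393) (B (L (nat_lit 428) ln9_12_0 ln9_12_0_ok) (M (nat_lit 361) (B (L (nat_lit 360) ln12_12_3 ln12_12_3_ok) (L (nat_lit 362) ln13_12_3 ln13_12_3_ok))))))) (B (M (nat_lit 396) (B (L (nat_lit 430) ln10_12_0 ln10_12_0_ok) (M (nat_lit 393) (B (M (nat_lit 361) (B (L (nat_lit 360) ln12_12_3 ln12_12_3_ok) (L (nat_lit 362) ln13_12_3 ln13_12_3_ok))) (M (nat_lit 365) (B (L (nat_lit 364) ln9_12_2 ln9_12_2_ok) (L (nat_lit 366) ln10_12_2 ln10_12_2_ok))))))) (M (nat_lit 396) (B (M (nat_lit 393) (B (L (nat_lit 428) ln9_12_0 ln9_12_0_ok) (M (nat_lit 425) (B (L (nat_lit 424) ln12_12_1 ln12_12_1_ok) (L (nat_lit 426) ln13_12_1 ln13_12_1_ok))))) (B (M (nat_lit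 427) (B (M (nat_lit 426) (B (L (nat_lit 425) ln13_12_1 ln13_12_1_ok) (M (nat_lit 362) (B (L (nat_lit 361) ln13_12_3 ln13_12_3_ok) (M (nat_lit 330) (B (L (nat_lit 298) ln10_9_4 ln10_9_4_ok) (L (nat_lit 459) ln10_10_4 ln10_10_4_ok))))))) (B (M (nat_lit 362) (B (L (nat_lit 361) ln13_12_3 ln13_12_3_ok) (M (nat_lit 459) (B (L (nat_lit 491) ln11_15_7 ln11_15_7_ok) (M (nat_lit 426) (B (L (nat_lit 330) ln10_10_4 ln10_10_4_ok) (L (nat_lit 425) ln13_12_1 ln13_12_1_ok))))))) (B (M (nat_lit 426) (B (L (nat_lit 425) ln13_12_1 ln13_12_1_ok) (M (nat_lit 428) (B (M (nat_lit 458) (B (L (nat_lit 457) ln13_13_1 ln13_13_1_ok) (M (nat_lit 363) (B (L (nat_lit 331) ln11_10_5 ln11_10_5_ok) (L (nat_lit 490) ln10_15_6 ln10_15_6_ok))))) (M (nat_lit 365) (B (L (nat_lit 366) ln10_12_2 ln10_12_2_ok) (M (nat_lit 460) (B (L (nat_lit 333) ln13_10_5 ln13_10_5_ok) (L (nat_lit 492) ln12_15_6 ln12_15_6_ok))))))))) (M (nat_lit 362) (B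 (L (nat_lit 361) ln13_12_3 ln13_12_3_ok) (M (nat_lit 459) (B (L (nat_lit 491) ln11_15_7 ln11_15_7_ok) (M (nat_lit 330) (B (L (nat_lit 298) ln10_9_4 ln10_9_4_ok) (L (nat_lit 363) ln11_14_7 ln11_14_7_ok))))))))))) (B (M (nat_lit 393) (B (L (nat_lit 428) ln9_12_0 ln9_12_0_ok) (M (nat_lit 365) (B (L (nat_lit 364) ln9_12_2 ln9_12_2_ok) (L (nat_lit 366) ln10_12_2 ln10_12_2_ok))))) (M (nat_lit 393) (B (M (nat_lit 361) (B (L (nat_lit 360) ln12_12_3 ln12_12_3_ok) (L (nat_lit 362) ln13_12_3 ln13_12_3_ok))) (M (nat_lit 365) (B (L (nat_lit 364) ln9_12_2 ln9_12_2_ok) (L (nat_lit 366) ln10_12_2 ln10_12_2_ok)))))))))))))))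
noncomputable def c11_n16832 : Cert := (M (nat_lit 427) (B (M (nat_lit 398) (B (L (nat_lit 426) ln14_12_1 ln14_12_1_ok) (M (nat_lit 399) (B (L (nat_lit 364) ln15_12_3 ln15_12_3_ok) (M (nat_lit 367) (B (L (nat_lit 366) ln11_12_2 ln11_12_2_ok) (L (nat_lit 368) ln12_12_2 ln12_12_2_ok))))))) (B (M (nat_lit 398) (B (L (nat_lit 426) ln14_12_1 ln14_12_1_ok) (M (nat_lit 399) (B (M (nat_lit 367) (B (L (nat_lit 366) ln11_12_2 ln11_12_2_ok) (L (nat_lit 368) ln12_12_2 ln12_12_2_ok))) (M (nat_lit 431) (B (L (nat_lit 430) ln11_12_0 ln11_12_0_ok) (L (nat_lit 432) ln12_12_0 ln12_12_0_ok))))))) (B (M (nat_lit 364) (B (M (nat_lit 332) (B (L (nat_lit 300) ln12_9_5 ln12_9_5_ok) (L (nat_lit 459) ln11_14_6 ln11_14_6_ok))) (M (nat_lit 398) (B (L (nat_lit 399) ln15_12_3 ln15_12_3_ok) (L (nat_lit 426) ln14_12_1 ln14_12_1_ok))))) (B (M (nat_lit 331) (B (M (nat_lit 299) (B (M (nat_lit 298) (B (L (nat_lit 266) ln11_12_7 ln11_12_7_ok)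 (L (nat_lit 330) ln11_13_7 ln11_13_7_ok))) (M (nat_lit 300) (B (L (nat_lit 268) ln11_12_6 ln11_12_6_ok) (L (nat_lit 332) ln11_13_6 ln11_13_6_ok))))) (B (M (nat_lit 459) (B (M (nat_lit 332) (B (L (nat_lit 300) ln11_13_6 ln11_13_6_ok) (L (nat_lit 364) ln11_14_6 ln11_14_6_ok))) (M (nat_lit 458) (B (L (nat_lit 426) ln11_10_5 ln11_10_5_ok) (L (nat_lit 490) ln11_11_5 ln11_11_5_ok))))) (B (M (nat_lit 459) (B (M (nat_lit 458) (B (L (nat_lit 426) ln11_10_5 ln11_10_5_ok) (L (nat_lit 490) ln11_11_5 ln11_11_5_ok))) (M (nat_lit 364) (B (L (nat_lit 332) ln11_14_6 ln11_14_6_ok) (L (nat_lit 491) ln11_15_6 ln11_15_6_ok))))) (M (nat_lit 299) (B (M (nat_lit 298) (B (L (nat_lit 266) ln11_12_7 ln11_12_7_ok) (L (nat_lit 330) ln11_13_7 ln11_13_7_ok))) (M (nat_lit 267) (B (L (nat_lit 364) ln11_8_4 ln11_8_4_ok) (M (nat_lit 268) (B (L (nat_lit 236) ln11_11_6 ln11_11_6_ok) (L (nat_lit 300) ln11_12_6 ln11_12_6_ok)))))))))))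 (M (nat_lit 331) (B (M (nat_lit 299) (B (M (nat_lit 298) (B (L (nat_lit 266) ln11_12_7 ln11_12_7_ok) (L (nat_lit 330) ln11_13_7 ln11_13_7_ok))) (M (nat_lit 300) (B (L (nat_lit 268) ln11_12_6 ln11_12_6_ok) (L (nat_lit 332) ln11_13_6 ln11_13_6_ok))))) (B (M (nat_lit 364) (B (M (nat_lit 332) (B (L (nat_lit 300) ln11_13_6 ln11_13_6_ok) (L (nat_lit 459) ln11_14_6 ln11_14_6_ok))) (M (nat_lit 366) (B (M (nat_lit 330) (B (L (nat_lit 298) ln11_13_7 ln11_13_7_ok) (L (nat_lit 365) ln14_11_3 ln14_11_3_ok))) (B (M (nat_lit 365) (B (L (nat_lit 330) ln14_11_3 ln14_11_3_ok) (L (nat_lit 367) ln15_11_1 ln15_11_1_ok))) (B (M (nat_lit 367) (B (L (nat_lit 365) ln15_11_1 ln15_11_1_ok) (L (nat_lit 398) ln11_12_2 ln11_12_2_ok))) (M (nat_lit 398) (B (L (nat_lit 399) ln15_12_3 ln15_12_3_ok) (L (nat_lit 367) ln11_12_2 ln11_12_2_ok))))))))) (B (M (nat_lit 299) (B (M (nat_lit 300) (B (L (nat_lit 268) ln11_12_6 ln11_12_6_ok)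 (L (nat_lit 332) ln11_13_6 ln11_13_6_ok))) (B (M (nat_lit 364) (B (L (nat_lit 267) ln11_8_4 ln11_8_4_ok) (M (nat_lit 332) (B (L (nat_lit 300) ln11_13_6 ln11_13_6_ok) (L (nat_lit 459) ln11_14_6 ln11_14_6_ok))))) (B (M (nat_lit 364) (B (L (nat_lit 267) ln11_8_4 ln11_8_4_ok) (M (nat_lit 459) (B (L (nat_lit 332) ln11_14_6 ln11_14_6_ok) (L (nat_lit 491) ln11_15_6 ln11_15_6_ok))))) (M (nat_lit 267) (B (L (nat_lit 364) ln11_8_4 ln11_8_4_ok) (M (nat_lit 268) (B (L (nat_lit 236) ln11_11_6 ln11_11_6_ok) (L (nat_lit 300) ln11_12_6 ln11_12_6_ok))))))))) (B (M (nat_lit 364) (B (M (nat_lit 459) (B (L (nat_lit 332) ln11_14_6 ln11_14_6_ok) (L (nat_lit 491) ln11_15_6 ln11_15_6_ok))) (M (nat_lit 298) (B (L (nat_lit 330) ln11_13_7 ln11_13_7_ok) (M (nat_lit 299) (B (L (nat_lit 266) ln11_12_7 ln11_12_7_ok) (L (nat_lit 267) ln11_8_4 ln11_8_4_ok))))))) (M (nat_lit 299) (B (M (nat_lit 298) (B (L (nat_lit 266) ln11_12_7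 ln11_12_7_ok) (L (nat_lit 330) ln11_13_7 ln11_13_7_ok))) (M (nat_lit 267) (B (L (nat_lit 364) ln11_8_4 ln11_8_4_ok) (M (nat_lit 268) (B (L (nat_lit 236) ln11_11_6 ln11_11_6_ok) (L (nat_lit 300) ln11_12_6 ln11_12_6_ok)))))))))))))))))
theorem c11_s16852 : Sem (nat_lit 1386334847463883973259074899867469888166804987826239513933811424578367737327947330232376311913868743046426733629639806159484354560) (nat_lit 9590011548803576715855580414265187578128919112464003220077773879889877414750739256419686173936240131139341994972207483530272885767128286974028283904) (nat_lit 9590011548803576715855580414265187578128919112464003220077773879889877414750739256419686173936240131139341994972207483530272885767128286974028283904) :=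
  sem_of_chk (M (nat_lit 396) (B (M (nat_lit 430) (B (L (nat_lit 394) ln10_12_0 ln10_12_0_ok) (M (nat_lit 431) (B (L (nat_lit 398) ln11_12_0 ln11_12_0_ok) (L (nat_lit 432) ln16_13_3 ln16_13_3_ok))))) (B c11_n16832 (B (M (nat_lit 394) (B (L (nat_lit 430) ln10_12_0 ln10_12_0_ok) (M (nat_lit 426) (B (L (nat_lit 425) ln13_12_1 ln13_12_1_ok) (M (nat_lit 331) (B (L (nat_lit 299) ln11_9_5 ln11_9_5_ok) (M (nat_lit 458) (B (L (nat_lit 427) ln11_10_5 ln11_10_5_ok) (L (nat_lit 490) ln10_15_6 ln10_15_6_ok))))))))) (M (nat_lit 398) (B (M (nat_lit 399) (B (L (nat_lit 364) ln15_12_3 ln15_12_3_ok) (M (nat_lit 367) (B (L (nat_lit 366) ln11_12_2 ln11_12_2_ok) (L (nat_lit 368) ln12_12_2 ln12_12_2_ok))))) (B (M (nat_lit 394) (B (M (nat_lit 366) (B (L (nat_lit 365) ln10_12_2 ln10_12_2_ok) (L (nat_lit 367) ln11_12_2 ln11_12_2_ok))) (M (nat_lit 426) (B (L (nat_lit 425) ln13_12_1 ln13_12_1_ok) (L (nat_lit 427) ln14_12_1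 ln14_12_1_ok))))) (M (nat_lit 364) (B (L (nat_lit 399) ln15_12_3 ln15_12_3_ok) (M (nat_lit 427) (B (L (nat_lit 426) ln14_12_1 ln14_12_1_ok) (M (nat_lit 332) (B (L (nat_lit 300) ln12_9_5 ln12_9_5_ok) (L (nat_lit 459) ln11_14_6 ln11_14_6_ok)))))))))))))) (nat_lit 1386334847463883973259074899867469888166804987826239513933811424578367737327947330232376311913868743046426733629639806159484354560) (nat_lit 9590011548803576715855580414265187578128919112464003220077773879889877414750739256419686173936240131139341994972207483530272885767128286974028283904) (nat_lit 9590011548803576715855580414265187578128919112464003220077773879889877414750739256419686173936240131139341994972207483530272885767128286974028283904) (by decide +kernel)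
theorem c11_s16863 : Sem (nat_lit 1386334847463883973296651581191851219813036677374868906371822345360900855259263985776891656315702478141845917603796105407995314176) (nat_lit 9590011548803576696360246627437860441224649110537306188631673975625539055670808080424274217705838717691187655504192208533679783011744679618234286080) (nat_lit 9590011548803576696360246627437860441224649110537306188631673975625539055670808080424274217705838717691187655504192208533679783011744679618234286080) :=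
  sem_of_chk (M (nat_lit 331) (B (M (nat_lit 396) (B (M (nat_lit 362) (B (L (nat_lit 361) ln9_11_0 ln9_11_0_ok) (L (nat_lit 398) ln14_12_3 ln14_12_3_ok))) (B (M (nat_lit 398) (B (L (nat_lit 362) ln14_12_3 ln14_12_3_ok) (L (nat_lit 399) ln15_12_3 ln15_12_3_ok))) (M (nat_lit 300) (B (L (nat_lit 332) ln12_9_4 ln12_9_4_ok) (M (nat_lit 299) (B (L (nat_lit 267) ln11_8_4 ln11_8_4_ok) (L (nat_lit 268) ln11_12_6 ln11_12_6_ok)))))))) (B (M (nat_lit 427) (B (M (nat_lit 332) (B (L (nat_lit 300) ln11_13_6 ln11_13_6_ok) (L (nat_lit 459) ln11_14_6 ln11_14_6_ok))) (B (M (nat_lit 330) (B (L (nat_lit 298) ln11_13_7 ln11_13_7_ok) (M (nat_lit 459) (B (L (nat_lit 362) ln11_14_7 ln11_14_7_ok) (L (nat_lit 332) ln11_14_6 ln11_14_6_ok))))) (B (M (nat_lit 362) (B (M (nat_lit 330) (B (L (nat_lit 298) ln11_13_7 ln11_13_7_ok) (L (nat_lit 459) ln11_14_7 ln11_14_7_ok))) (M (nat_lit 396) (B (L (nat_lit 361) ln9_11_0 ln9_11_0_ok)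 (L (nat_lit 398) ln14_12_3 ln14_12_3_ok))))) (M (nat_lit 300) (B (L (nat_lit 332) ln11_13_6 ln11_13_6_ok) (M (nat_lit 299) (B (L (nat_lit 268) ln11_12_6 ln11_12_6_ok) (M (nat_lit 298) (B (L (nat_lit 266) ln11_12_7 ln11_12_7_ok) (L (nat_lit 330) ln11_13_7 ln11_13_7_ok))))))))))) (B (M (nat_lit 396) (B (M (nat_lit 362) (B (L (nat_lit 361) ln9_11_0 ln9_11_0_ok) (L (nat_lit 398) ln14_12_3 ln14_12_3_ok))) (B (M (nat_lit 398) (B (L (nat_lit 362) ln14_12_3 ln14_12_3_ok) (L (nat_lit 399) ln15_12_3 ln15_12_3_ok))) (B (M (nat_lit 427) (B (M (nat_lit 332) (B (L (nat_lit 300) ln11_13_6 ln11_13_6_ok) (L (nat_lit 459) ln11_14_6 ln11_14_6_ok))) (M (nat_lit 398) (B (L (nat_lit 399) ln15_12_3 ln15_12_3_ok) (L (nat_lit 426) ln14_12_1 ln14_12_1_ok))))) (M (nat_lit 427) (B (M (nat_lit 332) (B (L (nat_lit 300) ln11_13_6 ln11_13_6_ok) (L (nat_lit 459) ln11_14_6 ln11_14_6_ok))) (M (nat_lit 298) (B (L (nat_lit 330) ln11_13_7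 ln11_13_7_ok) (M (nat_lit 299) (B (L (nat_lit 266) ln11_12_7 ln11_12_7_ok) (L (nat_lit 267) ln11_8_4 ln11_8_4_ok))))))))))) (B (M (nat_lit 332) (B (M (nat_lit 300) (B (L (nat_lit 268) ln12_8_5 ln12_8_5_ok) (L (nat_lit 427) ln11_13_6 ln11_13_6_ok))) (B (M (nat_lit 300) (B (L (nat_lit 427) ln11_13_6 ln11_13_6_ok) (L (nat_lit 396) ln12_9_4 ln12_9_4_ok))) (B (M (nat_lit 361) (B (M (nat_lit 362) (B (L (nat_lit 360) ln8_11_2 ln8_11_2_ok) (L (nat_lit 333) ln9_11_2 ln9_11_2_ok))) (B (M (nat_lit 362) (B (L (nat_lit 360) ln8_11_2 ln8_11_2_ok) (L (nat_lit 396) ln9_11_0 ln9_11_0_ok))) (B (M (nat_lit 362) (B (L (nat_lit 333) ln9_11_2 ln9_11_2_ok) (L (nat_lit 396) ln9_11_0 ln9_11_0_ok))) (M (nat_lit 330) (B (M (nat_lit 427) (B (L (nat_lit 298) ln11_13_7 ln11_13_7_ok) (L (nat_lit 459) ln11_14_6 ln11_14_6_ok))) (M (nat_lit 329) (B (L (nat_lit 328) ln8_10_0 ln8_10_0_ok) (L (nat_lit 360) ln12_10_1 ln12_10_1_ok)))))))))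 (M (nat_lit 300) (B (L (nat_lit 268) ln12_8_5 ln12_8_5_ok) (L (nat_lit 396) ln12_9_4 ln12_9_4_ok))))))) (B (M (nat_lit 396) (B (M (nat_lit 362) (B (L (nat_lit 361) ln9_11_0 ln9_11_0_ok) (L (nat_lit 398) ln14_12_3 ln14_12_3_ok))) (B (M (nat_lit 398) (B (L (nat_lit 362) ln14_12_3 ln14_12_3_ok) (L (nat_lit 399) ln15_12_3 ln15_12_3_ok))) (B (M (nat_lit 427) (B (M (nat_lit 459) (B (L (nat_lit 332) ln11_14_6 ln11_14_6_ok) (L (nat_lit 491) ln11_15_6 ln11_15_6_ok))) (M (nat_lit 398) (B (L (nat_lit 399) ln15_12_3 ln15_12_3_ok) (L (nat_lit 426) ln14_12_1 ln14_12_1_ok))))) (M (nat_lit 427) (B (M (nat_lit 459) (B (L (nat_lit 332) ln11_14_6 ln11_14_6_ok) (L (nat_lit 491) ln11_15_6 ln11_15_6_ok))) (M (nat_lit 298) (B (L (nat_lit 330) ln11_13_7 ln11_13_7_ok) (M (nat_lit 299) (B (L (nat_lit 266) ln11_12_7 ln11_12_7_ok) (L (nat_lit 267) ln11_8_4 ln11_8_4_ok))))))))))) (B (M (nat_lit 396) (B (M (nat_lit 362) (B (L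 (nat_lit 361) ln9_11_0 ln9_11_0_ok) (L (nat_lit 398) ln14_12_3 ln14_12_3_ok))) (B (M (nat_lit 398) (B (L (nat_lit 362) ln14_12_3 ln14_12_3_ok) (L (nat_lit 399) ln15_12_3 ln15_12_3_ok))) (B (M (nat_lit 427) (B (M (nat_lit 398) (B (L (nat_lit 399) ln15_12_3 ln15_12_3_ok) (L (nat_lit 426) ln14_12_1 ln14_12_1_ok))) (M (nat_lit 298) (B (L (nat_lit 330) ln11_13_7 ln11_13_7_ok) (M (nat_lit 299) (B (L (nat_lit 266) ln11_12_7 ln11_12_7_ok) (L (nat_lit 267) ln11_8_4 ln11_8_4_ok))))))) (M (nat_lit 427) (B (M (nat_lit 459) (B (L (nat_lit 491) ln11_15_6 ln11_15_6_ok) (M (nat_lit 458) (B (L (nat_lit 426) ln11_10_5 ln11_10_5_ok) (L (nat_lit 490) ln11_11_5 ln11_11_5_ok))))) (M (nat_lit 298) (B (L (nat_lit 330) ln11_13_7 ln11_13_7_ok) (M (nat_lit 299) (B (L (nat_lit 266) ln11_12_7 ln11_12_7_ok) (L (nat_lit 267) ln11_8_4 ln11_8_4_ok))))))))))) (B (M (nat_lit 396) (B (M (nat_lit 398) (B (L (nat_lit 362) ln14_12_3 ln14_12_3_ok)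 (L (nat_lit 399) ln15_12_3 ln15_12_3_ok))) (M (nat_lit 300) (B (L (nat_lit 332) ln12_9_4 ln12_9_4_ok) (M (nat_lit 299) (B (L (nat_lit 267) ln11_8_4 ln11_8_4_ok) (L (nat_lit 268) ln11_12_6 ln11_12_6_ok))))))) (B (M (nat_lit 396) (B (M (nat_lit 300) (B (L (nat_lit 332) ln12_9_4 ln12_9_4_ok) (M (nat_lit 299) (B (L (nat_lit 267) ln11_8_4 ln11_8_4_ok) (L (nat_lit 268) ln11_12_6 ln11_12_6_ok))))) (B (M (nat_lit 427) (B (M (nat_lit 332) (B (L (nat_lit 300) ln11_13_6 ln11_13_6_ok) (L (nat_lit 459) ln11_14_6 ln11_14_6_ok))) (M (nat_lit 398) (B (L (nat_lit 399) ln15_12_3 ln15_12_3_ok) (L (nat_lit 426) ln14_12_1 ln14_12_1_ok))))) (B (M (nat_lit 427) (B (M (nat_lit 459) (B (L (nat_lit 332) ln11_14_6 ln11_14_6_ok) (L (nat_lit 491) ln11_15_6 ln11_15_6_ok))) (M (nat_lit 398) (B (L (nat_lit 399) ln15_12_3 ln15_12_3_ok) (L (nat_lit 426) ln14_12_1 ln14_12_1_ok))))) (M (nat_lit 427) (B (M (nat_lit 398) (B (L (nat_lit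 399) ln15_12_3 ln15_12_3_ok) (L (nat_lit 426) ln14_12_1 ln14_12_1_ok))) (M (nat_lit 298) (B (L (nat_lit 330) ln11_13_7 ln11_13_7_ok) (M (nat_lit 299) (B (L (nat_lit 266) ln11_12_7 ln11_12_7_ok) (L (nat_lit 267) ln11_8_4 ln11_8_4_ok))))))))))) (M (nat_lit 427) (B (M (nat_lit 332) (B (L (nat_lit 300) ln11_13_6 ln11_13_6_ok) (L (nat_lit 459) ln11_14_6 ln11_14_6_ok))) (B (M (nat_lit 330) (B (L (nat_lit 298) ln11_13_7 ln11_13_7_ok) (M (nat_lit 459) (B (L (nat_lit 362) ln11_14_7 ln11_14_7_ok) (L (nat_lit 332) ln11_14_6 ln11_14_6_ok))))) (B (M (nat_lit 459) (B (M (nat_lit 330) (B (L (nat_lit 298) ln11_13_7 ln11_13_7_ok) (L (nat_lit 362) ln11_14_7 ln11_14_7_ok))) (M (nat_lit 458) (B (L (nat_lit 426) ln11_10_5 ln11_10_5_ok) (L (nat_lit 490) ln11_11_5 ln11_11_5_ok))))) (M (nat_lit 300) (B (L (nat_lit 332) ln11_13_6 ln11_13_6_ok) (M (nat_lit 299) (B (L (nat_lit 268) ln11_12_6 ln11_12_6_ok) (M (nat_lit 298)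 (B (L (nat_lit 266) ln11_12_7 ln11_12_7_ok) (L (nat_lit 330) ln11_13_7 ln11_13_7_ok)))))))))))))))))))) (nat_lit 1386334847463883973296651581191851219813036677374868906371822345360900855259263985776891656315702478141845917603796105407995314176) (nat_lit 9590011548803576696360246627437860441224649110537306188631673975625539055670808080424274217705838717691187655504192208533679783011744679618234286080) (nat_lit 9590011548803576696360246627437860441224649110537306188631673975625539055670808080424274217705838717691187655504192208533679783011744679618234286080) (by decide +kernel)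
theorem c11_s16993 : Sem (nat_lit 1386334847463883973296651581191851219813036677374868906371822345360900855259263985776891656315702478141845917603796105407995314176) (nat_lit 1488565707703986623771507633924880183127814673616657084041267595958054043492501030615934242785406115939820047880677700152030343522404007936) (nat_lit 1488565707703986623771507633924880183127814673616657084041267595958054043492501030615934242785406115939820047880677700152030343522404007936) :=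
  sem_of_chk (M (nat_lit 365) (B (M (nat_lit 362) (B (M (nat_lit 333) (B (L (nat_lit 334) ln10_11_2 ln10_11_2_ok) (M (nat_lit 361) (B (L (nat_lit 332) ln9_11_2 ln9_11_2_ok) (L (nat_lit 396) ln9_11_0 ln9_11_0_ok))))) (B (M (nat_lit 329) (B (L (nat_lit 330) ln13_11_3 ln13_11_3_ok) (M (nat_lit 361) (B (L (nat_lit 328) ln12_11_3 ln12_11_3_ok) (L (nat_lit 396) ln9_11_0 ln9_11_0_ok))))) (M (nat_lit 366) (B (M (nat_lit 330) (B (L (nat_lit 329) ln13_11_3 ln13_11_3_ok) (L (nat_lit 331) ln14_11_3 ln14_11_3_ok))) (M (nat_lit 334) (B (L (nat_lit 333) ln10_11_2 ln10_11_2_ok) (L (nat_lit 335) ln11_11_2 ln11_11_2_ok)))))))) (B (M (nat_lit 362) (B (M (nat_lit 333) (B (L (nat_lit 334) ln10_11_2 ln10_11_2_ok) (M (nat_lit 361) (B (L (nat_lit 332) ln9_11_2 ln9_11_2_ok) (L (nat_lit 396) ln9_11_0 ln9_11_0_ok))))) (B (M (nat_lit 366) (B (M (nat_lit 330) (B (L (nat_lit 329) ln13_11_3 ln13_11_3_ok) (L (nat_lit 331) ln14_11_3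 ln14_11_3_ok))) (M (nat_lit 396) (B (L (nat_lit 361) ln9_11_0 ln9_11_0_ok) (L (nat_lit 367) ln15_11_1 ln15_11_1_ok))))) (M (nat_lit 366) (B (M (nat_lit 330) (B (L (nat_lit 329) ln13_11_3 ln13_11_3_ok) (L (nat_lit 331) ln14_11_3 ln14_11_3_ok))) (M (nat_lit 334) (B (L (nat_lit 333) ln10_11_2 ln10_11_2_ok) (L (nat_lit 335) ln11_11_2 ln11_11_2_ok)))))))) (B (M (nat_lit 332) (B (M (nat_lit 300) (B (L (nat_lit 268) ln12_8_5 ln12_8_5_ok) (L (nat_lit 333) ln13_13_7 ln13_13_7_ok))) (B (M (nat_lit 300) (B (L (nat_lit 333) ln13_13_7 ln13_13_7_ok) (L (nat_lit 396) ln12_9_4 ln12_9_4_ok))) (B (M (nat_lit 362) (B (M (nat_lit 333) (B (L (nat_lit 361) ln9_11_2 ln9_11_2_ok) (L (nat_lit 334) ln10_11_2 ln10_11_2_ok))) (B (M (nat_lit 331) (B (M (nat_lit 361) (B (L (nat_lit 360) ln8_11_2 ln8_11_2_ok) (L (nat_lit 396) ln9_11_0 ln9_11_0_ok))) (M (nat_lit 366) (B (L (nat_lit 330) ln14_11_3 ln14_11_3_ok) (L (nat_lit 367)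 ln15_11_3 ln15_11_3_ok))))) (M (nat_lit 366) (B (M (nat_lit 331) (B (L (nat_lit 330) ln14_11_3 ln14_11_3_ok) (L (nat_lit 367) ln15_11_3 ln15_11_3_ok))) (M (nat_lit 334) (B (L (nat_lit 333) ln10_11_2 ln10_11_2_ok) (L (nat_lit 335) ln11_11_2 ln11_11_2_ok)))))))) (M (nat_lit 300) (B (L (nat_lit 268) ln12_8_5 ln12_8_5_ok) (L (nat_lit 396) ln12_9_4 ln12_9_4_ok))))))) (B (M (nat_lit 332) (B (M (nat_lit 300) (B (L (nat_lit 268) ln12_8_5 ln12_8_5_ok) (L (nat_lit 333) ln13_13_7 ln13_13_7_ok))) (B (M (nat_lit 300) (B (L (nat_lit 333) ln13_13_7 ln13_13_7_ok) (L (nat_lit 396) ln12_9_4 ln12_9_4_ok))) (B (M (nat_lit 334) (B (M (nat_lit 333) (B (L (nat_lit 302) ln13_13_6 ln13_13_6_ok) (L (nat_lit 335) ln15_10_1 ln15_10_1_ok))) (B (M (nat_lit 333) (B (L (nat_lit 335) ln15_10_1 ln15_10_1_ok) (L (nat_lit 362) ln10_11_2 ln10_11_2_ok))) (B (M (nat_lit 366) (B (L (nat_lit 335) ln11_11_2 ln11_11_2_ok) (M (nat_lit 367)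 (B (L (nat_lit 331) ln15_11_3 ln15_11_3_ok) (L (nat_lit 396) ln15_11_1 ln15_11_1_ok))))) (M (nat_lit 333) (B (L (nat_lit 302) ln13_13_6 ln13_13_6_ok) (L (nat_lit 362) ln10_11_2 ln10_11_2_ok))))))) (M (nat_lit 300) (B (L (nat_lit 268) ln12_8_5 ln12_8_5_ok) (L (nat_lit 396) ln12_9_4 ln12_9_4_ok))))))) (B (M (nat_lit 333) (B (M (nat_lit 334) (B (L (nat_lit 302) ln13_13_6 ln13_13_6_ok) (L (nat_lit 362) ln10_11_2 ln10_11_2_ok))) (B (M (nat_lit 334) (B (L (nat_lit 362) ln10_11_2 ln10_11_2_ok) (M (nat_lit 332) (B (L (nat_lit 300) ln13_13_7 ln13_13_7_ok) (L (nat_lit 335) ln15_10_1 ln15_10_1_ok))))) (M (nat_lit 301) (B (M (nat_lit 300) (B (L (nat_lit 268) ln13_12_7 ln13_12_7_ok) (L (nat_lit 332) ln13_13_7 ln13_13_7_ok))) (M (nat_lit 269) (B (L (nat_lit 396) ln13_8_5 ln13_8_5_ok) (M (nat_lit 270) (B (L (nat_lit 238) ln13_11_6 ln13_11_6_ok) (L (nat_lit 302) ln13_12_6 ln13_12_6_ok)))))))))) (B (M (nat_lit 362)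 (B (M (nat_lit 329) (B (L (nat_lit 330) ln13_11_3 ln13_11_3_ok) (M (nat_lit 361) (B (L (nat_lit 328) ln12_11_3 ln12_11_3_ok) (L (nat_lit 396) ln9_11_0 ln9_11_0_ok))))) (B (M (nat_lit 366) (B (M (nat_lit 330) (B (L (nat_lit 329) ln13_11_3 ln13_11_3_ok) (L (nat_lit 331) ln14_11_3 ln14_11_3_ok))) (M (nat_lit 396) (B (L (nat_lit 361) ln9_11_0 ln9_11_0_ok) (L (nat_lit 367) ln15_11_1 ln15_11_1_ok))))) (B (M (nat_lit 366) (B (M (nat_lit 334) (B (L (nat_lit 333) ln10_11_2 ln10_11_2_ok) (L (nat_lit 335) ln11_11_2 ln11_11_2_ok))) (M (nat_lit 396) (B (L (nat_lit 361) ln9_11_0 ln9_11_0_ok) (L (nat_lit 367) ln15_11_1 ln15_11_1_ok))))) (M (nat_lit 366) (B (M (nat_lit 330) (B (L (nat_lit 329) ln13_11_3 ln13_11_3_ok) (L (nat_lit 331) ln14_11_3 ln14_11_3_ok))) (M (nat_lit 334) (B (L (nat_lit 333) ln10_11_2 ln10_11_2_ok) (L (nat_lit 335) ln11_11_2 ln11_11_2_ok))))))))) (B (M (nat_lit 331) (B (M (nat_lit 366) (B (L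 (nat_lit 330) ln14_11_3 ln14_11_3_ok) (M (nat_lit 367) (B (L (nat_lit 332) ln15_11_3 ln15_11_3_ok) (L (nat_lit 396) ln15_11_1 ln15_11_1_ok))))) (B (M (nat_lit 299) (B (M (nat_lit 267) (B (L (nat_lit 396) ln11_8_4 ln11_8_4_ok) (M (nat_lit 268) (B (L (nat_lit 236) ln11_11_6 ln11_11_6_ok) (L (nat_lit 300) ln11_12_6 ln11_12_6_ok))))) (B (M (nat_lit 267) (B (L (nat_lit 396) ln11_8_4 ln11_8_4_ok) (M (nat_lit 266) (B (L (nat_lit 234) ln11_11_7 ln11_11_7_ok) (L (nat_lit 298) ln11_12_7 ln11_12_7_ok))))) (B (M (nat_lit 300) (B (L (nat_lit 268) ln11_12_6 ln11_12_6_ok) (M (nat_lit 332) (B (L (nat_lit 427) ln11_13_6 ln11_13_6_ok) (L (nat_lit 396) ln12_9_4 ln12_9_4_ok))))) (M (nat_lit 267) (B (M (nat_lit 266) (B (L (nat_lit 234) ln11_11_7 ln11_11_7_ok) (L (nat_lit 298) ln11_12_7 ln11_12_7_ok))) (M (nat_lit 268) (B (L (nat_lit 236) ln11_11_6 ln11_11_6_ok) (L (nat_lit 300) ln11_12_6 ln11_12_6_ok))))))))) (B (M (nat_lit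 366) (B (L (nat_lit 330) ln14_11_3 ln14_11_3_ok) (M (nat_lit 335) (B (L (nat_lit 334) ln11_11_2 ln11_11_2_ok) (M (nat_lit 367) (B (L (nat_lit 336) ln12_11_2 ln12_11_2_ok) (L (nat_lit 396) ln15_11_1 ln15_11_1_ok))))))) (M (nat_lit 332) (B (M (nat_lit 300) (B (L (nat_lit 268) ln12_8_5 ln12_8_5_ok) (L (nat_lit 427) ln11_13_6 ln11_13_6_ok))) (M (nat_lit 366) (B (L (nat_lit 330) ln14_11_3 ln14_11_3_ok) (L (nat_lit 367) ln15_11_3 ln15_11_3_ok))))))))) (B (M (nat_lit 332) (B (M (nat_lit 300) (B (L (nat_lit 268) ln12_8_5 ln12_8_5_ok) (L (nat_lit 333) ln13_13_7 ln13_13_7_ok))) (B (M (nat_lit 300) (B (L (nat_lit 333) ln13_13_7 ln13_13_7_ok) (L (nat_lit 396) ln12_9_4 ln12_9_4_ok))) (B (M (nat_lit 330) (B (M (nat_lit 329) (B (L (nat_lit 331) ln9_10_0 ln9_10_0_ok) (L (nat_lit 362) ln13_11_3 ln13_11_3_ok))) (B (M (nat_lit 331) (B (L (nat_lit 366) ln14_11_3 ln14_11_3_ok) (M (nat_lit 427) (B (L (nat_lit 298) ln11_13_7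 ln11_13_7_ok) (L (nat_lit 459) ln11_14_6 ln11_14_6_ok))))) (M (nat_lit 362) (B (L (nat_lit 329) ln13_11_3 ln13_11_3_ok) (M (nat_lit 361) (B (L (nat_lit 333) ln9_11_2 ln9_11_2_ok) (L (nat_lit 396) ln9_11_0 ln9_11_0_ok)))))))) (M (nat_lit 300) (B (L (nat_lit 268) ln12_8_5 ln12_8_5_ok) (L (nat_lit 396) ln12_9_4 ln12_9_4_ok))))))) (M (nat_lit 332) (B (M (nat_lit 300) (B (L (nat_lit 268) ln12_8_5 ln12_8_5_ok) (L (nat_lit 333) ln13_13_7 ln13_13_7_ok))) (B (M (nat_lit 300) (B (L (nat_lit 333) ln13_13_7 ln13_13_7_ok) (M (nat_lit 427) (B (L (nat_lit 331) ln11_13_6 ln11_13_6_ok) (L (nat_lit 459) ln11_14_6 ln11_14_6_ok))))) (B (M (nat_lit 331) (B (M (nat_lit 330) (B (L (nat_lit 329) ln9_10_0 ln9_10_0_ok) (L (nat_lit 366) ln14_11_3 ln14_11_3_ok))) (B (M (nat_lit 366) (B (L (nat_lit 330) ln14_11_3 ln14_11_3_ok) (L (nat_lit 367) ln15_11_3 ln15_11_3_ok))) (B (M (nat_lit 334) (B (M (nat_lit 333) (B (L (nat_lit 302)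 ln13_13_6 ln13_13_6_ok) (L (nat_lit 362) ln14_10_1 ln14_10_1_ok))) (B (M (nat_lit 333) (B (L (nat_lit 362) ln14_10_1 ln14_10_1_ok) (L (nat_lit 335) ln15_10_1 ln15_10_1_ok))) (M (nat_lit 366) (B (L (nat_lit 367) ln15_11_3 ln15_11_3_ok) (L (nat_lit 335) ln11_11_2 ln11_11_2_ok)))))) (M (nat_lit 330) (B (L (nat_lit 329) ln9_10_0 ln9_10_0_ok) (M (nat_lit 427) (B (L (nat_lit 298) ln11_13_7 ln11_13_7_ok) (L (nat_lit 459) ln11_14_6 ln11_14_6_ok))))))))) (M (nat_lit 300) (B (L (nat_lit 268) ln12_8_5 ln12_8_5_ok) (M (nat_lit 427) (B (L (nat_lit 331) ln11_13_6 ln11_13_6_ok) (L (nat_lit 459) ln11_14_6 ln11_14_6_ok)))))))))))))))))) (nat_lit 1386334847463883973296651581191851219813036677374868906371822345360900855259263985776891656315702478141845917603796105407995314176) (nat_lit 1488565707703986623771507633924880183127814673616657084041267595958054043492501030615934242785406115939820047880677700152030343522404007936)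 (nat_lit 1488565707703986623771507633924880183127814673616657084041267595958054043492501030615934242785406115939820047880677700152030343522404007936) (by decide +kernel)
noncomputable def c11_n16994 : Cert := (M (nat_lit 364) (B (M (nat_lit 398) (B (M (nat_lit 362) (B (L (nat_lit 365) ln10_11_0 ln10_11_0_ok) (L (nat_lit 396) ln14_12_3 ln14_12_3_ok))) (B (M (nat_lit 399) (B (L (nat_lit 396) ln15_12_3 ln15_12_3_ok) (M (nat_lit 365) (B (L (nat_lit 366) ln11_11_0 ln11_11_0_ok) (L (nat_lit 400) ln16_12_3 ln16_12_3_ok))))) (B (M (nat_lit 396) (B (L (nat_lit 362) ln14_12_3 ln14_12_3_ok) (L (nat_lit 399) ln15_12_3 ln15_12_3_ok))) (M (nat_lit 365) (B (L (nat_lit 362) ln10_11_0 ln10_11_0_ok) (M (nat_lit 399) (B (L (nat_lit 366) ln11_11_0 ln11_11_0_ok) (L (nat_lit 400) ln16_12_3 ln16_12_3_ok))))))))) (B (M (nat_lit 398) (B (M (nat_lit 399) (B (L (nat_lit 396) ln15_12_3 ln15_12_3_ok) (M (nat_lit 365) (B (L (nat_lit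 366) ln11_11_0 ln11_11_0_ok) (L (nat_lit 400) ln16_12_3 ln16_12_3_ok))))) (B (M (nat_lit 396) (B (L (nat_lit 399) ln15_12_3 ln15_12_3_ok) (M (nat_lit 427) (B (L (nat_lit 426) ln14_12_1 ln14_12_1_ok) (M (nat_lit 332) (B (L (nat_lit 300) ln12_9_5 ln12_9_5_ok) (L (nat_lit 459) ln11_14_6 ln11_14_6_ok))))))) (B (M (nat_lit 365) (B (M (nat_lit 399) (B (L (nat_lit 366) ln11_11_0 ln11_11_0_ok) (L (nat_lit 400) ln16_12_3 ln16_12_3_ok))) (M (nat_lit 333) (B (M (nat_lit 301) (B (L (nat_lit 430) ln13_9_4 ln13_9_4_ok) (M (nat_lit 302) (B (L (nat_lit 270) ln13_12_6 ln13_12_6_ok) (L (nat_lit 334) ln13_13_6 ln13_13_6_ok))))) (B (M (nat_lit 300) (B (L (nat_lit 332) ln13_13_7 ln13_13_7_ok) (M (nat_lit 301) (B (L (nat_lit 268) ln13_12_7 ln13_12_7_ok) (L (nat_lit 430) ln13_9_4 ln13_9_4_ok))))) (M (nat_lit 332) (B (L (nat_lit 300) ln13_13_7 ln13_13_7_ok) (M (nat_lit 334) (B (L (nat_lit 302) ln13_13_6 ln13_13_6_ok) (L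 (nat_lit 335) ln15_10_1 ln15_10_1_ok)))))))))) (M (nat_lit 332) (B (M (nat_lit 300) (B (L (nat_lit 268) ln12_8_5 ln12_8_5_ok) (L (nat_lit 396) ln12_9_4 ln12_9_4_ok))) (B (M (nat_lit 300) (B (L (nat_lit 396) ln12_9_4 ln12_9_4_ok) (M (nat_lit 427) (B (L (nat_lit 331) ln11_13_6 ln11_13_6_ok) (L (nat_lit 459) ln11_14_6 ln11_14_6_ok))))) (B (M (nat_lit 366) (B (M (nat_lit 396) (B (L (nat_lit 367) ln11_12_2 ln11_12_2_ok) (M (nat_lit 427) (B (L (nat_lit 459) ln11_14_6 ln11_14_6_ok) (L (nat_lit 426) ln14_12_1 ln14_12_1_ok))))) (M (nat_lit 334) (B (L (nat_lit 302) ln14_9_5 ln14_9_5_ok) (M (nat_lit 335) (B (L (nat_lit 333) ln15_10_1 ln15_10_1_ok) (L (nat_lit 365) ln11_11_2 ln11_11_2_ok))))))) (M (nat_lit 300) (B (L (nat_lit 268) ln12_8_5 ln12_8_5_ok) (M (nat_lit 427) (B (L (nat_lit 331) ln11_13_6 ln11_13_6_ok) (L (nat_lit 459) ln11_14_6 ln11_14_6_ok))))))))))))) (B (K (nat_lit 1386334847463883973296651581191851219813036677374868906371822345360900855259263985776891656315702478141845917603796105407995314176)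 (nat_lit 9590011548803576696360246627437860441224649110537306188631673975625539055670808080424274217705838717691187655504192208533679783011744679618234286080) (nat_lit 9590011548803576696360246627437860441224649110537306188631673975625539055670808080424274217705838717691187655504192208533679783011744679618234286080) c11_s16863) (B (M (nat_lit 365) (B (M (nat_lit 398) (B (L (nat_lit 362) ln10_11_0 ln10_11_0_ok) (M (nat_lit 399) (B (L (nat_lit 366) ln11_11_0 ln11_11_0_ok) (L (nat_lit 400) ln16_12_3 ln16_12_3_ok))))) (B (M (nat_lit 366) (B (M (nat_lit 398) (B (L (nat_lit 399) ln11_11_0 ln11_11_0_ok) (M (nat_lit 334) (B (L (nat_lit 302) ln14_9_5 ln14_9_5_ok) (L (nat_lit 335) ln11_11_2 ln11_11_2_ok))))) (M (nat_lit 332) (B (M (nat_lit 300) (B (L (nat_lit 268) ln12_8_5 ln12_8_5_ok) (L (nat_lit 333) ln13_13_7 ln13_13_7_ok))) (M (nat_lit 331) (B (L (nat_lit 330) ln14_11_3 ln14_11_3_ok) (L (nat_lit 367) ln15_11_3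 ln15_11_3_ok))))))) (B (M (nat_lit 362) (B (L (nat_lit 398) ln10_11_0 ln10_11_0_ok) (M (nat_lit 333) (B (L (nat_lit 334) ln10_11_2 ln10_11_2_ok) (M (nat_lit 332) (B (L (nat_lit 300) ln13_13_7 ln13_13_7_ok) (L (nat_lit 361) ln9_11_2 ln9_11_2_ok))))))) (M (nat_lit 366) (B (M (nat_lit 334) (B (L (nat_lit 335) ln11_11_2 ln11_11_2_ok) (M (nat_lit 333) (B (L (nat_lit 302) ln13_13_6 ln13_13_6_ok) (L (nat_lit 362) ln10_11_2 ln10_11_2_ok))))) (B (M (nat_lit 332) (B (M (nat_lit 300) (B (L (nat_lit 268) ln12_8_5 ln12_8_5_ok) (L (nat_lit 333) ln13_13_7 ln13_13_7_ok))) (M (nat_lit 331) (B (L (nat_lit 330) ln14_11_3 ln14_11_3_ok) (L (nat_lit 367) ln15_11_3 ln15_11_3_ok))))) (M (nat_lit 367) (B (M (nat_lit 331) (B (L (nat_lit 330) ln14_11_3 ln14_11_3_ok) (L (nat_lit 332) ln15_11_3 ln15_11_3_ok))) (M (nat_lit 335) (B (L (nat_lit 334) ln11_11_2 ln11_11_2_ok) (L (nat_lit 336) ln12_11_2 ln12_11_2_ok)))))))))))) (K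 (nat_lit 1386334847463883973296651581191851219813036677374868906371822345360900855259263985776891656315702478141845917603796105407995314176) (nat_lit 1488565707703986623771507633924880183127814673616657084041267595958054043492501030615934242785406115939820047880677700152030343522404007936) (nat_lit 1488565707703986623771507633924880183127814673616657084041267595958054043492501030615934242785406115939820047880677700152030343522404007936) c11_s16993))))))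
theorem c11_s17017 : Sem (nat_lit 1732918559228985830706376672885355351096359622248216585830121372155195400803650533112373112676886190308600634999815252638106124288) (nat_lit 744282853851993316394604190334737943834587470769565587827269480782270318059446075875415903376635112981134858937798530761289072589081149440) (nat_lit 744282853851993316394604190334737943834587470769565587827269480782270318059446075875415903376635112981134858937798530761289072589081149440) :=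
  sem_of_chk (M (nat_lit 365) (B (M (nat_lit 364) (B (M (nat_lit 362) (B (L (nat_lit 398) ln10_11_0 ln10_11_0_ok) (M (nat_lit 394) (B (L (nat_lit 393) ln13_11_1 ln13_11_1_ok) (L (nat_lit 366) ln14_11_1 ln14_11_1_ok))))) (B (M (nat_lit 366) (B (L (nat_lit 394) ln14_11_1 ln14_11_1_ok) (M (nat_lit 331) (B (L (nat_lit 330) ln14_11_3 ln14_11_3_ok) (M (nat_lit 332) (B (L (nat_lit 300) ln11_13_6 ln11_13_6_ok) (L (nat_lit 367) ln15_11_3 ln15_11_3_ok))))))) (M (nat_lit 362) (B (L (nat_lit 398) ln10_11_0 ln10_11_0_ok) (M (nat_lit 333) (B (L (nat_lit 334) ln10_11_2 ln10_11_2_ok) (M (nat_lit 332) (B (L (nat_lit 300) ln13_13_7 ln13_13_7_ok) (L (nat_lit 361) ln9_11_2 ln9_11_2_ok)))))))))) (B (M (nat_lit 364) (B (M (nat_lit 362) (B (L (nat_lit 398) ln10_11_0 ln10_11_0_ok) (M (nat_lit 394) (B (L (nat_lit 393) ln13_11_1 ln13_11_1_ok) (L (nat_lit 366) ln14_11_1 ln14_11_1_ok))))) (B (M (nat_lit 366) (B (L (nat_lit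 394) ln14_11_1 ln14_11_1_ok) (M (nat_lit 398) (B (L (nat_lit 399) ln11_11_0 ln11_11_0_ok) (M (nat_lit 334) (B (L (nat_lit 302) ln14_9_5 ln14_9_5_ok) (L (nat_lit 335) ln11_11_2 ln11_11_2_ok))))))) (B (M (nat_lit 362) (B (L (nat_lit 398) ln10_11_0 ln10_11_0_ok) (M (nat_lit 330) (B (L (nat_lit 329) ln13_11_3 ln13_11_3_ok) (M (nat_lit 394) (B (L (nat_lit 298) ln10_9_4 ln10_9_4_ok) (L (nat_lit 393) ln13_11_1 ln13_11_1_ok))))))) (B (M (nat_lit 330) (B (M (nat_lit 362) (B (L (nat_lit 329) ln13_11_3 ln13_11_3_ok) (L (nat_lit 398) ln10_11_0 ln10_11_0_ok))) (M (nat_lit 331) (B (L (nat_lit 298) ln11_13_7 ln11_13_7_ok) (L (nat_lit 366) ln14_11_3 ln14_11_3_ok))))) (M (nat_lit 334) (B (M (nat_lit 333) (B (L (nat_lit 302) ln13_13_6 ln13_13_6_ok) (L (nat_lit 362) ln10_11_2 ln10_11_2_ok))) (M (nat_lit 366) (B (L (nat_lit 335) ln11_11_2 ln11_11_2_ok) (L (nat_lit 394) ln14_11_1 ln14_11_1_ok)))))))))) (B (M (nat_lit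 364) (B (M (nat_lit 366) (B (L (nat_lit 394) ln14_11_1 ln14_11_1_ok) (M (nat_lit 398) (B (L (nat_lit 362) ln10_11_0 ln10_11_0_ok) (L (nat_lit 399) ln11_11_0 ln11_11_0_ok))))) (B (M (nat_lit 366) (B (L (nat_lit 394) ln14_11_1 ln14_11_1_ok) (M (nat_lit 398) (B (L (nat_lit 399) ln11_11_0 ln11_11_0_ok) (M (nat_lit 334) (B (L (nat_lit 302) ln14_9_5 ln14_9_5_ok) (L (nat_lit 335) ln11_11_2 ln11_11_2_ok))))))) (B (M (nat_lit 362) (B (L (nat_lit 398) ln10_11_0 ln10_11_0_ok) (M (nat_lit 333) (B (L (nat_lit 334) ln10_11_2 ln10_11_2_ok) (M (nat_lit 332) (B (L (nat_lit 300) ln13_13_7 ln13_13_7_ok) (L (nat_lit 361) ln9_11_2 ln9_11_2_ok))))))) (M (nat_lit 334) (B (M (nat_lit 333) (B (L (nat_lit 302) ln13_13_6 ln13_13_6_ok) (L (nat_lit 362) ln10_11_2 ln10_11_2_ok))) (M (nat_lit 366) (B (L (nat_lit 335) ln11_11_2 ln11_11_2_ok) (L (nat_lit 394) ln14_11_1 ln14_11_1_ok))))))))) (B (M (nat_lit 364) (B (M (nat_lit 366)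 (B (L (nat_lit 394) ln14_11_1 ln14_11_1_ok) (M (nat_lit 398) (B (L (nat_lit 362) ln10_11_0 ln10_11_0_ok) (L (nat_lit 399) ln11_11_0 ln11_11_0_ok))))) (B (M (nat_lit 366) (B (L (nat_lit 394) ln14_11_1 ln14_11_1_ok) (M (nat_lit 398) (B (L (nat_lit 399) ln11_11_0 ln11_11_0_ok) (M (nat_lit 334) (B (L (nat_lit 302) ln14_9_5 ln14_9_5_ok) (L (nat_lit 335) ln11_11_2 ln11_11_2_ok))))))) (B (M (nat_lit 362) (B (L (nat_lit 398) ln10_11_0 ln10_11_0_ok) (M (nat_lit 330) (B (L (nat_lit 329) ln13_11_3 ln13_11_3_ok) (M (nat_lit 394) (B (L (nat_lit 298) ln10_9_4 ln10_9_4_ok) (L (nat_lit 393) ln13_11_1 ln13_11_1_ok))))))) (B (M (nat_lit 398) (B (L (nat_lit 362) ln10_11_0 ln10_11_0_ok) (M (nat_lit 399) (B (L (nat_lit 366) ln11_11_0 ln11_11_0_ok) (L (nat_lit 400) ln16_12_3 ln16_12_3_ok))))) (M (nat_lit 394) (B (L (nat_lit 366) ln14_11_1 ln14_11_1_ok) (M (nat_lit 393) (B (L (nat_lit 362) ln13_11_1 ln13_11_1_ok) (L (nat_lit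 392) ln8_12_2 ln8_12_2_ok)))))))))) (B (M (nat_lit 364) (B (M (nat_lit 362) (B (L (nat_lit 398) ln10_11_0 ln10_11_0_ok) (M (nat_lit 394) (B (L (nat_lit 393) ln13_11_1 ln13_11_1_ok) (L (nat_lit 366) ln14_11_1 ln14_11_1_ok))))) (B (M (nat_lit 366) (B (L (nat_lit 394) ln14_11_1 ln14_11_1_ok) (M (nat_lit 331) (B (L (nat_lit 330) ln14_11_3 ln14_11_3_ok) (M (nat_lit 332) (B (L (nat_lit 300) ln11_13_6 ln11_13_6_ok) (L (nat_lit 367) ln15_11_3 ln15_11_3_ok))))))) (B (M (nat_lit 362) (B (L (nat_lit 398) ln10_11_0 ln10_11_0_ok) (M (nat_lit 330) (B (L (nat_lit 329) ln13_11_3 ln13_11_3_ok) (M (nat_lit 394) (B (L (nat_lit 298) ln10_9_4 ln10_9_4_ok) (L (nat_lit 393) ln13_11_1 ln13_11_1_ok))))))) (M (nat_lit 330) (B (M (nat_lit 362) (B (L (nat_lit 329) ln13_11_3 ln13_11_3_ok) (L (nat_lit 398) ln10_11_0 ln10_11_0_ok))) (M (nat_lit 331) (B (L (nat_lit 298) ln11_13_7 ln11_13_7_ok) (L (nat_lit 366) ln14_11_3 ln14_11_3_ok)))))))))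 (B (M (nat_lit 331) (B (M (nat_lit 330) (B (L (nat_lit 298) ln11_13_7 ln11_13_7_ok) (M (nat_lit 364) (B (L (nat_lit 366) ln14_11_3 ln14_11_3_ok) (M (nat_lit 332) (B (L (nat_lit 300) ln11_13_6 ln11_13_6_ok) (L (nat_lit 329) ln9_10_0 ln9_10_0_ok))))))) (B (M (nat_lit 300) (B (L (nat_lit 332) ln11_13_6 ln11_13_6_ok) (M (nat_lit 299) (B (L (nat_lit 268) ln11_12_6 ln11_12_6_ok) (M (nat_lit 426) (B (L (nat_lit 394) ln11_9_5 ln11_9_5_ok) (L (nat_lit 458) ln11_10_5 ln11_10_5_ok))))))) (M (nat_lit 299) (B (M (nat_lit 298) (B (L (nat_lit 266) ln11_12_7 ln11_12_7_ok) (L (nat_lit 330) ln11_13_7 ln11_13_7_ok))) (M (nat_lit 426) (B (L (nat_lit 394) ln11_9_5 ln11_9_5_ok) (L (nat_lit 458) ln11_10_5 ln11_10_5_ok)))))))) (B (M (nat_lit 331) (B (M (nat_lit 300) (B (L (nat_lit 332) ln11_13_6 ln11_13_6_ok) (M (nat_lit 299) (B (L (nat_lit 268) ln11_12_6 ln11_12_6_ok) (M (nat_lit 426) (B (L (nat_lit 394) ln11_9_5 ln11_9_5_ok)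 (L (nat_lit 458) ln11_10_5 ln11_10_5_ok))))))) (B (M (nat_lit 299) (B (M (nat_lit 298) (B (L (nat_lit 266) ln11_12_7 ln11_12_7_ok) (L (nat_lit 330) ln11_13_7 ln11_13_7_ok))) (M (nat_lit 426) (B (L (nat_lit 394) ln11_9_5 ln11_9_5_ok) (L (nat_lit 458) ln11_10_5 ln11_10_5_ok))))) (M (nat_lit 332) (B (L (nat_lit 300) ln11_13_6 ln11_13_6_ok) (M (nat_lit 333) (B (M (nat_lit 330) (B (L (nat_lit 298) ln11_13_7 ln11_13_7_ok) (L (nat_lit 366) ln10_10_0 ln10_10_0_ok))) (M (nat_lit 334) (B (L (nat_lit 302) ln13_13_6 ln13_13_6_ok) (L (nat_lit 362) ln14_10_1 ln14_10_1_ok)))))))))) (B (M (nat_lit 364) (B (M (nat_lit 362) (B (L (nat_lit 398) ln10_11_0 ln10_11_0_ok) (M (nat_lit 330) (B (L (nat_lit 329) ln13_11_3 ln13_11_3_ok) (M (nat_lit 394) (B (L (nat_lit 298) ln10_9_4 ln10_9_4_ok) (L (nat_lit 393) ln13_11_1 ln13_11_1_ok))))))) (B (M (nat_lit 362) (B (L (nat_lit 398) ln10_11_0 ln10_11_0_ok) (M (nat_lit 333) (B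 (L (nat_lit 334) ln10_11_2 ln10_11_2_ok) (M (nat_lit 332) (B (L (nat_lit 300) ln13_13_7 ln13_13_7_ok) (L (nat_lit 361) ln9_11_2 ln9_11_2_ok))))))) (M (nat_lit 331) (B (M (nat_lit 332) (B (L (nat_lit 300) ln11_13_6 ln11_13_6_ok) (M (nat_lit 330) (B (L (nat_lit 298) ln11_13_7 ln11_13_7_ok) (L (nat_lit 329) ln9_10_0 ln9_10_0_ok))))) (B (M (nat_lit 299) (B (M (nat_lit 300) (B (L (nat_lit 268) ln11_12_6 ln11_12_6_ok) (L (nat_lit 332) ln11_13_6 ln11_13_6_ok))) (M (nat_lit 426) (B (L (nat_lit 394) ln11_9_5 ln11_9_5_ok) (L (nat_lit 458) ln11_10_5 ln11_10_5_ok))))) (M (nat_lit 299) (B (M (nat_lit 298) (B (L (nat_lit 266) ln11_12_7 ln11_12_7_ok) (L (nat_lit 330) ln11_13_7 ln11_13_7_ok))) (M (nat_lit 426) (B (L (nat_lit 394) ln11_9_5 ln11_9_5_ok) (L (nat_lit 458) ln11_10_5 ln11_10_5_ok))))))))))) (M (nat_lit 364) (B (M (nat_lit 398) (B (L (nat_lit 362) ln10_11_0 ln10_11_0_ok) (M (nat_lit 399) (B (L (nat_lit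 366) ln11_11_0 ln11_11_0_ok) (L (nat_lit 400) ln16_12_3 ln16_12_3_ok))))) (B (M (nat_lit 366) (B (M (nat_lit 398) (B (L (nat_lit 399) ln11_11_0 ln11_11_0_ok) (M (nat_lit 334) (B (L (nat_lit 302) ln14_9_5 ln14_9_5_ok) (L (nat_lit 335) ln11_11_2 ln11_11_2_ok))))) (M (nat_lit 331) (B (L (nat_lit 330) ln14_11_3 ln14_11_3_ok) (M (nat_lit 332) (B (L (nat_lit 300) ln11_13_6 ln11_13_6_ok) (L (nat_lit 367) ln15_11_3 ln15_11_3_ok))))))) (B (M (nat_lit 362) (B (L (nat_lit 398) ln10_11_0 ln10_11_0_ok) (M (nat_lit 333) (B (L (nat_lit 334) ln10_11_2 ln10_11_2_ok) (M (nat_lit 332) (B (L (nat_lit 300) ln13_13_7 ln13_13_7_ok) (L (nat_lit 361) ln9_11_2 ln9_11_2_ok))))))) (M (nat_lit 362) (B (M (nat_lit 330) (B (L (nat_lit 329) ln13_11_3 ln13_11_3_ok) (M (nat_lit 298) (B (L (nat_lit 266) ln10_8_4 ln10_8_4_ok) (L (nat_lit 331) ln11_13_7 ln11_13_7_ok))))) (M (nat_lit 333) (B (L (nat_lit 334) ln10_11_2 ln10_11_2_ok) (M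 (nat_lit 332) (B (L (nat_lit 300) ln13_13_7 ln13_13_7_ok) (L (nat_lit 361) ln9_11_2 ln9_11_2_ok)))))))))))))))))))) (nat_lit 1732918559228985830706376672885355351096359622248216585830121372155195400803650533112373112676886190308600634999815252638106124288) (nat_lit 744282853851993316394604190334737943834587470769565587827269480782270318059446075875415903376635112981134858937798530761289072589081149440) (nat_lit 744282853851993316394604190334737943834587470769565587827269480782270318059446075875415903376635112981134858937798530761289072589081149440) (by decide +kernel)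
theorem c11_s17018 : Sem (nat_lit 1386334847463883973259074899867469888166804987826239513933811424578367737327947330232376311913868743046426733629639806159484354560) (nat_lit 58968162983943750892979519951563324898530473817631143498436390235404124629095369852626301770921261228923151856564180807155282100190002628743248342578911812307031949312) (nat_lit 58968162983943750892979519951563324898530473817631143498436390235404124629095369852626301770921261228923151856564180807155282100190002628743248342578911812307031949312) :=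
  sem_of_chk (M (nat_lit 427) (B (M (nat_lit 459) (B (M (nat_lit 491) (B (M (nat_lit 362) (B (L (nat_lit 330) ln11_14_7 ln11_14_7_ok) (L (nat_lit 394) ln11_15_7 ln11_15_7_ok))) (M (nat_lit 492) (B (L (nat_lit 460) ln11_11_4 ln11_11_4_ok) (L (nat_lit 524) ln11_12_4 ln11_12_4_ok))))) (B (M (nat_lit 491) (B (M (nat_lit 490) (B (L (nat_lit 458) ln11_11_5 ln11_11_5_ok) (L (nat_lit 522) ln11_12_5 ln11_12_5_ok))) (M (nat_lit 492) (B (L (nat_lit 460) ln11_11_4 ln11_11_4_ok) (L (nat_lit 524) ln11_12_4 ln11_12_4_ok))))) (B (M (nat_lit 491) (B (M (nat_lit 362) (B (L (nat_lit 330) ln11_14_7 ln11_14_7_ok) (L (nat_lit 394) ln11_15_7 ln11_15_7_ok))) (M (nat_lit 490) (B (L (nat_lit 458) ln11_11_5 ln11_11_5_ok) (L (nat_lit 522) ln11_12_5 ln11_12_5_ok))))) (M (nat_lit 331) (B (M (nat_lit 330) (B (L (nat_lit 298) ln11_13_7 ln11_13_7_ok) (L (nat_lit 362) ln11_14_7 ln11_14_7_ok))) (M (nat_lit 332) (B (L (nat_lit 300)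 ln11_13_6 ln11_13_6_ok) (L (nat_lit 364) ln11_14_6 ln11_14_6_ok))))))))) (B (M (nat_lit 459) (B (M (nat_lit 331) (B (M (nat_lit 332) (B (L (nat_lit 300) ln11_13_6 ln11_13_6_ok) (L (nat_lit 364) ln11_14_6 ln11_14_6_ok))) (M (nat_lit 458) (B (L (nat_lit 426) ln11_10_5 ln11_10_5_ok) (L (nat_lit 490) ln11_11_5 ln11_11_5_ok))))) (M (nat_lit 491) (B (M (nat_lit 362) (B (L (nat_lit 330) ln11_14_7 ln11_14_7_ok) (L (nat_lit 394) ln11_15_7 ln11_15_7_ok))) (M (nat_lit 492) (B (L (nat_lit 460) ln11_11_4 ln11_11_4_ok) (L (nat_lit 524) ln11_12_4 ln11_12_4_ok))))))) (B (M (nat_lit 459) (B (M (nat_lit 491) (B (M (nat_lit 362) (B (L (nat_lit 330) ln11_14_7 ln11_14_7_ok) (L (nat_lit 394) ln11_15_7 ln11_15_7_ok))) (M (nat_lit 492) (B (L (nat_lit 460) ln11_11_4 ln11_11_4_ok) (L (nat_lit 524) ln11_12_4 ln11_12_4_ok))))) (B (M (nat_lit 491) (B (M (nat_lit 490) (B (L (nat_lit 458) ln11_11_5 ln11_11_5_ok) (L (nat_lit 522)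 ln11_12_5 ln11_12_5_ok))) (M (nat_lit 492) (B (L (nat_lit 460) ln11_11_4 ln11_11_4_ok) (L (nat_lit 524) ln11_12_4 ln11_12_4_ok))))) (B (M (nat_lit 491) (B (M (nat_lit 362) (B (L (nat_lit 330) ln11_14_7 ln11_14_7_ok) (L (nat_lit 394) ln11_15_7 ln11_15_7_ok))) (M (nat_lit 490) (B (L (nat_lit 458) ln11_11_5 ln11_11_5_ok) (L (nat_lit 522) ln11_12_5 ln11_12_5_ok))))) (M (nat_lit 331) (B (M (nat_lit 330) (B (L (nat_lit 298) ln11_13_7 ln11_13_7_ok) (L (nat_lit 362) ln11_14_7 ln11_14_7_ok))) (M (nat_lit 458) (B (L (nat_lit 426) ln11_10_5 ln11_10_5_ok) (L (nat_lit 490) ln11_11_5 ln11_11_5_ok))))))))) (B (M (nat_lit 459) (B (M (nat_lit 331) (B (M (nat_lit 332) (B (L (nat_lit 300) ln11_13_6 ln11_13_6_ok) (L (nat_lit 364) ln11_14_6 ln11_14_6_ok))) (M (nat_lit 458) (B (L (nat_lit 426) ln11_10_5 ln11_10_5_ok) (L (nat_lit 490) ln11_11_5 ln11_11_5_ok))))) (B (M (nat_lit 491) (B (M (nat_lit 490) (B (L (nat_lit 458)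 ln11_11_5 ln11_11_5_ok) (L (nat_lit 522) ln11_12_5 ln11_12_5_ok))) (M (nat_lit 492) (B (L (nat_lit 460) ln11_11_4 ln11_11_4_ok) (L (nat_lit 524) ln11_12_4 ln11_12_4_ok))))) (B (M (nat_lit 491) (B (M (nat_lit 492) (B (L (nat_lit 460) ln11_11_4 ln11_11_4_ok) (L (nat_lit 524) ln11_12_4 ln11_12_4_ok))) (M (nat_lit 523) (B (M (nat_lit 394) (B (L (nat_lit 362) ln11_15_7 ln11_15_7_ok) (L (nat_lit 426) ln11_16_7 ln11_16_7_ok))) (M (nat_lit 522) (B (L (nat_lit 490) ln11_12_5 ln11_12_5_ok) (L (nat_lit 554) ln11_13_5 ln11_13_5_ok))))))) (M (nat_lit 491) (B (M (nat_lit 492) (B (L (nat_lit 460) ln11_11_4 ln11_11_4_ok) (L (nat_lit 524) ln11_12_4 ln11_12_4_ok))) (M (nat_lit 394) (B (L (nat_lit 362) ln11_15_7 ln11_15_7_ok) (M (nat_lit 331) (B (M (nat_lit 332) (B (L (nat_lit 300) ln11_13_6 ln11_13_6_ok) (L (nat_lit 364) ln11_14_6 ln11_14_6_ok))) (M (nat_lit 426) (B (L (nat_lit 458) ln11_10_5 ln11_10_5_ok) (L (nat_lit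 523) ln11_16_7 ln11_16_7_ok))))))))))))) (B (M (nat_lit 459) (B (M (nat_lit 491) (B (M (nat_lit 362) (B (L (nat_lit 330) ln11_14_7 ln11_14_7_ok) (L (nat_lit 394) ln11_15_7 ln11_15_7_ok))) (M (nat_lit 492) (B (L (nat_lit 460) ln11_11_4 ln11_11_4_ok) (L (nat_lit 524) ln11_12_4 ln11_12_4_ok))))) (B (M (nat_lit 491) (B (M (nat_lit 490) (B (L (nat_lit 458) ln11_11_5 ln11_11_5_ok) (L (nat_lit 522) ln11_12_5 ln11_12_5_ok))) (M (nat_lit 492) (B (L (nat_lit 460) ln11_11_4 ln11_11_4_ok) (L (nat_lit 524) ln11_12_4 ln11_12_4_ok))))) (B (M (nat_lit 491) (B (M (nat_lit 362) (B (L (nat_lit 330) ln11_14_7 ln11_14_7_ok) (L (nat_lit 394) ln11_15_7 ln11_15_7_ok))) (M (nat_lit 490) (B (L (nat_lit 458) ln11_11_5 ln11_11_5_ok) (L (nat_lit 522) ln11_12_5 ln11_12_5_ok))))) (M (nat_lit 364) (B (L (nat_lit 332) ln11_14_6 ln11_14_6_ok) (M (nat_lit 362) (B (L (nat_lit 330) ln11_14_7 ln11_14_7_ok) (M (nat_lit 365) (B (L (nat_lit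 398) ln10_11_0 ln10_11_0_ok) (M (nat_lit 394) (B (L (nat_lit 393) ln13_11_1 ln13_11_1_ok) (L (nat_lit 366) ln14_11_1 ln14_11_1_ok))))))))))))) (B (M (nat_lit 331) (B (M (nat_lit 299) (B (M (nat_lit 298) (B (L (nat_lit 266) ln11_12_7 ln11_12_7_ok) (L (nat_lit 330) ln11_13_7 ln11_13_7_ok))) (M (nat_lit 426) (B (L (nat_lit 394) ln11_9_5 ln11_9_5_ok) (L (nat_lit 458) ln11_10_5 ln11_10_5_ok))))) (B (M (nat_lit 299) (B (M (nat_lit 300) (B (L (nat_lit 268) ln11_12_6 ln11_12_6_ok) (L (nat_lit 332) ln11_13_6 ln11_13_6_ok))) (M (nat_lit 426) (B (L (nat_lit 394) ln11_9_5 ln11_9_5_ok) (L (nat_lit 458) ln11_10_5 ln11_10_5_ok))))) (B (M (nat_lit 459) (B (M (nat_lit 332) (B (L (nat_lit 300) ln11_13_6 ln11_13_6_ok) (L (nat_lit 364) ln11_14_6 ln11_14_6_ok))) (M (nat_lit 458) (B (L (nat_lit 426) ln11_10_5 ln11_10_5_ok) (L (nat_lit 490) ln11_11_5 ln11_11_5_ok))))) (M (nat_lit 299) (B (M (nat_lit 298) (B (L (nat_lit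 266) ln11_12_7 ln11_12_7_ok) (L (nat_lit 330) ln11_13_7 ln11_13_7_ok))) (M (nat_lit 300) (B (L (nat_lit 268) ln11_12_6 ln11_12_6_ok) (L (nat_lit 332) ln11_13_6 ln11_13_6_ok))))))))) (B (M (nat_lit 331) (B (M (nat_lit 459) (B (M (nat_lit 332) (B (L (nat_lit 300) ln11_13_6 ln11_13_6_ok) (L (nat_lit 364) ln11_14_6 ln11_14_6_ok))) (M (nat_lit 458) (B (L (nat_lit 426) ln11_10_5 ln11_10_5_ok) (L (nat_lit 490) ln11_11_5 ln11_11_5_ok))))) (B (M (nat_lit 459) (B (M (nat_lit 330) (B (L (nat_lit 298) ln11_13_7 ln11_13_7_ok) (L (nat_lit 362) ln11_14_7 ln11_14_7_ok))) (M (nat_lit 458) (B (L (nat_lit 426) ln11_10_5 ln11_10_5_ok) (L (nat_lit 490) ln11_11_5 ln11_11_5_ok))))) (B (M (nat_lit 459) (B (M (nat_lit 330) (B (L (nat_lit 298) ln11_13_7 ln11_13_7_ok) (L (nat_lit 362) ln11_14_7 ln11_14_7_ok))) (M (nat_lit 332) (B (L (nat_lit 300) ln11_13_6 ln11_13_6_ok) (L (nat_lit 364) ln11_14_6 ln11_14_6_ok))))) (M (nat_lit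 299) (B (M (nat_lit 298) (B (L (nat_lit 266) ln11_12_7 ln11_12_7_ok) (L (nat_lit 330) ln11_13_7 ln11_13_7_ok))) (M (nat_lit 300) (B (L (nat_lit 268) ln11_12_6 ln11_12_6_ok) (L (nat_lit 332) ln11_13_6 ln11_13_6_ok))))))))) (B (M (nat_lit 364) (B (M (nat_lit 332) (B (L (nat_lit 459) ln11_14_6 ln11_14_6_ok) (M (nat_lit 300) (B (L (nat_lit 268) ln12_8_5 ln12_8_5_ok) (L (nat_lit 331) ln11_13_6 ln11_13_6_ok))))) (B (M (nat_lit 365) (B (M (nat_lit 332) (B (L (nat_lit 459) ln11_14_6 ln11_14_6_ok) (M (nat_lit 300) (B (L (nat_lit 331) ln11_13_6 ln11_13_6_ok) (L (nat_lit 333) ln13_13_7 ln13_13_7_ok))))) (M (nat_lit 362) (B (L (nat_lit 398) ln10_11_0 ln10_11_0_ok) (M (nat_lit 394) (B (L (nat_lit 393) ln13_11_1 ln13_11_1_ok) (L (nat_lit 366) ln14_11_1 ln14_11_1_ok))))))) (B (M (nat_lit 362) (B (M (nat_lit 459) (B (L (nat_lit 330) ln11_14_7 ln11_14_7_ok) (L (nat_lit 332) ln11_14_6 ln11_14_6_ok))) (M (nat_lit 365)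 (B (L (nat_lit 398) ln10_11_0 ln10_11_0_ok) (M (nat_lit 394) (B (L (nat_lit 393) ln13_11_1 ln13_11_1_ok) (L (nat_lit 366) ln14_11_1 ln14_11_1_ok))))))) (B (M (nat_lit 365) (B (M (nat_lit 362) (B (L (nat_lit 398) ln10_11_0 ln10_11_0_ok) (M (nat_lit 394) (B (L (nat_lit 393) ln13_11_1 ln13_11_1_ok) (L (nat_lit 366) ln14_11_1 ln14_11_1_ok))))) (B (M (nat_lit 366) (B (L (nat_lit 394) ln14_11_1 ln14_11_1_ok) (M (nat_lit 398) (B (L (nat_lit 399) ln11_11_0 ln11_11_0_ok) (M (nat_lit 334) (B (L (nat_lit 302) ln14_9_5 ln14_9_5_ok) (L (nat_lit 335) ln11_11_2 ln11_11_2_ok))))))) (B (M (nat_lit 362) (B (L (nat_lit 398) ln10_11_0 ln10_11_0_ok) (M (nat_lit 330) (B (L (nat_lit 329) ln13_11_3 ln13_11_3_ok) (L (nat_lit 459) ln11_14_7 ln11_14_7_ok))))) (M (nat_lit 362) (B (M (nat_lit 330) (B (L (nat_lit 329) ln13_11_3 ln13_11_3_ok) (L (nat_lit 459) ln11_14_7 ln11_14_7_ok))) (M (nat_lit 394) (B (L (nat_lit 393) ln13_11_1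 ln13_11_1_ok) (L (nat_lit 366) ln14_11_1 ln14_11_1_ok))))))))) (M (nat_lit 365) (B (M (nat_lit 362) (B (L (nat_lit 398) ln10_11_0 ln10_11_0_ok) (M (nat_lit 394) (B (L (nat_lit 393) ln13_11_1 ln13_11_1_ok) (L (nat_lit 366) ln14_11_1 ln14_11_1_ok))))) (B (M (nat_lit 366) (B (L (nat_lit 394) ln14_11_1 ln14_11_1_ok) (M (nat_lit 331) (B (L (nat_lit 330) ln14_11_3 ln14_11_3_ok) (M (nat_lit 332) (B (L (nat_lit 300) ln11_13_6 ln11_13_6_ok) (L (nat_lit 367) ln15_11_3 ln15_11_3_ok))))))) (M (nat_lit 362) (B (L (nat_lit 398) ln10_11_0 ln10_11_0_ok) (M (nat_lit 333) (B (L (nat_lit 334) ln10_11_2 ln10_11_2_ok) (M (nat_lit 332) (B (L (nat_lit 300) ln13_13_7 ln13_13_7_ok) (L (nat_lit 361) ln9_11_2 ln9_11_2_ok))))))))))))))) (K (nat_lit 1732918559228985830706376672885355351096359622248216585830121372155195400803650533112373112676886190308600634999815252638106124288) (nat_lit 744282853851993316394604190334737943834587470769565587827269480782270318059446075875415903376635112981134858937798530761289072589081149440)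 (nat_lit 744282853851993316394604190334737943834587470769565587827269480782270318059446075875415903376635112981134858937798530761289072589081149440) c11_s17017)))))))))) (nat_lit 1386334847463883973259074899867469888166804987826239513933811424578367737327947330232376311913868743046426733629639806159484354560) (nat_lit 58968162983943750892979519951563324898530473817631143498436390235404124629095369852626301770921261228923151856564180807155282100190002628743248342578911812307031949312) (nat_lit 58968162983943750892979519951563324898530473817631143498436390235404124629095369852626301770921261228923151856564180807155282100190002628743248342578911812307031949312) (by decide +kernel)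
theorem c11_s17200 : Sem (nat_lit 1386334847463883973296651581191851219813036677374868906371822345360900855259263985776891656315702478141845917603796105407995314176) (nat_lit 1488565707703986623771507633917834555239509127546875879090110873544925422424068737835059778223240452710901432126696402802847968175499247616) (nat_lit 1488565707703986623771507633917834555239509127546875879090110873544925422424068737835059778223240452710901432126696402802847968175499247616) :=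
  sem_of_chk (M (nat_lit 331) (B (M (nat_lit 332) (B (M (nat_lit 300) (B (L (nat_lit 268) ln12_8_5 ln12_8_5_ok) (L (nat_lit 427) ln11_13_6 ln11_13_6_ok))) (B (M (nat_lit 427) (B (L (nat_lit 300) ln11_13_6 ln11_13_6_ok) (L (nat_lit 459) ln11_14_6 ln11_14_6_ok))) (B (M (nat_lit 330) (B (M (nat_lit 427) (B (L (nat_lit 298) ln11_13_7 ln11_13_7_ok) (L (nat_lit 459) ln11_14_6 ln11_14_6_ok))) (M (nat_lit 365) (B (L (nat_lit 329) ln9_10_0 ln9_10_0_ok) (L (nat_lit 366) ln14_11_3 ln14_11_3_ok))))) (M (nat_lit 300) (B (L (nat_lit 268) ln12_8_5 ln12_8_5_ok) (L (nat_lit 396) ln12_9_4 ln12_9_4_ok))))))) (B (M (nat_lit 332) (B (M (nat_lit 300) (B (L (nat_lit 427) ln11_13_6 ln11_13_6_ok) (L (nat_lit 396) ln12_9_4 ln12_9_4_ok))) (B (M (nat_lit 330) (B (M (nat_lit 427) (B (L (nat_lit 298) ln11_13_7 ln11_13_7_ok) (L (nat_lit 459) ln11_14_6 ln11_14_6_ok))) (M (nat_lit 365) (B (L (nat_lit 329) ln9_10_0 ln9_10_0_ok) (L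 (nat_lit 366) ln14_11_3 ln14_11_3_ok))))) (M (nat_lit 333) (B (M (nat_lit 300) (B (L (nat_lit 365) ln13_13_7 ln13_13_7_ok) (L (nat_lit 396) ln12_9_4 ln12_9_4_ok))) (M (nat_lit 334) (B (L (nat_lit 362) ln14_10_1 ln14_10_1_ok) (L (nat_lit 335) ln15_10_1 ln15_10_1_ok)))))))) (B (M (nat_lit 365) (B (M (nat_lit 366) (B (L (nat_lit 330) ln14_11_3 ln14_11_3_ok) (M (nat_lit 367) (B (L (nat_lit 332) ln15_11_3 ln15_11_3_ok) (L (nat_lit 396) ln15_11_1 ln15_11_1_ok))))) (B (M (nat_lit 366) (B (M (nat_lit 367) (B (L (nat_lit 332) ln15_11_3 ln15_11_3_ok) (L (nat_lit 396) ln15_11_1 ln15_11_1_ok))) (M (nat_lit 334) (B (L (nat_lit 335) ln11_11_2 ln11_11_2_ok) (M (nat_lit 302) (B (L (nat_lit 270) ln14_8_5 ln14_8_5_ok) (L (nat_lit 333) ln13_13_6 ln13_13_6_ok))))))) (B (M (nat_lit 334) (B (M (nat_lit 333) (B (L (nat_lit 302) ln13_13_6 ln13_13_6_ok) (L (nat_lit 362) ln10_11_2 ln10_11_2_ok))) (M (nat_lit 366) (B (L (nat_lit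 330) ln14_11_3 ln14_11_3_ok) (L (nat_lit 335) ln11_11_2 ln11_11_2_ok))))) (M (nat_lit 300) (B (M (nat_lit 268) (B (L (nat_lit 299) ln11_12_6 ln11_12_6_ok) (L (nat_lit 332) ln12_8_5 ln12_8_5_ok))) (B (M (nat_lit 332) (B (L (nat_lit 427) ln11_13_6 ln11_13_6_ok) (L (nat_lit 333) ln13_13_7 ln13_13_7_ok))) (M (nat_lit 333) (B (M (nat_lit 268) (B (L (nat_lit 299) ln11_12_6 ln11_12_6_ok) (L (nat_lit 301) ln13_12_7 ln13_12_7_ok))) (M (nat_lit 334) (B (L (nat_lit 302) ln13_13_6 ln13_13_6_ok) (L (nat_lit 362) ln10_11_2 ln10_11_2_ok)))))))))))) (B (M (nat_lit 330) (B (M (nat_lit 298) (B (L (nat_lit 427) ln11_13_7 ln11_13_7_ok) (M (nat_lit 266) (B (L (nat_lit 234) ln10_7_4 ln10_7_4_ok) (L (nat_lit 362) ln10_8_4 ln10_8_4_ok))))) (B (M (nat_lit 298) (B (L (nat_lit 427) ln11_13_7 ln11_13_7_ok) (M (nat_lit 266) (B (L (nat_lit 299) ln11_12_7 ln11_12_7_ok) (L (nat_lit 362) ln10_8_4 ln10_8_4_ok))))) (B (M (nat_lit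 329) (B (L (nat_lit 328) ln8_10_0 ln8_10_0_ok) (M (nat_lit 365) (B (L (nat_lit 362) ln13_11_3 ln13_11_3_ok) (L (nat_lit 366) ln14_11_3 ln14_11_3_ok))))) (M (nat_lit 298) (B (L (nat_lit 427) ln11_13_7 ln11_13_7_ok) (M (nat_lit 266) (B (L (nat_lit 234) ln10_7_4 ln10_7_4_ok) (L (nat_lit 299) ln11_12_7 ln11_12_7_ok))))))))) (B (M (nat_lit 299) (B (M (nat_lit 267) (B (L (nat_lit 396) ln11_8_4 ln11_8_4_ok) (M (nat_lit 268) (B (L (nat_lit 236) ln11_11_6 ln11_11_6_ok) (L (nat_lit 300) ln11_12_6 ln11_12_6_ok))))) (B (M (nat_lit 266) (B (L (nat_lit 298) ln11_12_7 ln11_12_7_ok) (M (nat_lit 267) (B (L (nat_lit 234) ln11_11_7 ln11_11_7_ok) (L (nat_lit 396) ln11_8_4 ln11_8_4_ok))))) (B (M (nat_lit 300) (B (L (nat_lit 268) ln11_12_6 ln11_12_6_ok) (M (nat_lit 332) (B (L (nat_lit 427) ln11_13_6 ln11_13_6_ok) (L (nat_lit 396) ln12_9_4 ln12_9_4_ok))))) (M (nat_lit 267) (B (M (nat_lit 266) (B (L (nat_lit 234) ln11_11_7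 ln11_11_7_ok) (L (nat_lit 298) ln11_12_7 ln11_12_7_ok))) (M (nat_lit 268) (B (L (nat_lit 236) ln11_11_6 ln11_11_6_ok) (L (nat_lit 300) ln11_12_6 ln11_12_6_ok))))))))) (M (nat_lit 365) (B (M (nat_lit 366) (B (L (nat_lit 330) ln14_11_3 ln14_11_3_ok) (M (nat_lit 367) (B (L (nat_lit 332) ln15_11_3 ln15_11_3_ok) (L (nat_lit 396) ln15_11_1 ln15_11_1_ok))))) (B (M (nat_lit 366) (B (M (nat_lit 367) (B (L (nat_lit 332) ln15_11_3 ln15_11_3_ok) (L (nat_lit 396) ln15_11_1 ln15_11_1_ok))) (M (nat_lit 334) (B (L (nat_lit 335) ln11_11_2 ln11_11_2_ok) (M (nat_lit 302) (B (L (nat_lit 270) ln14_8_5 ln14_8_5_ok) (L (nat_lit 333) ln13_13_6 ln13_13_6_ok))))))) (B (M (nat_lit 334) (B (M (nat_lit 333) (B (L (nat_lit 302) ln13_13_6 ln13_13_6_ok) (L (nat_lit 362) ln10_11_2 ln10_11_2_ok))) (M (nat_lit 366) (B (L (nat_lit 330) ln14_11_3 ln14_11_3_ok) (L (nat_lit 335) ln11_11_2 ln11_11_2_ok))))) (M (nat_lit 300) (B (M (nat_lit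 268) (B (L (nat_lit 299) ln11_12_6 ln11_12_6_ok) (L (nat_lit 332) ln12_8_5 ln12_8_5_ok))) (B (M (nat_lit 333) (B (L (nat_lit 332) ln13_13_7 ln13_13_7_ok) (M (nat_lit 334) (B (L (nat_lit 302) ln13_13_6 ln13_13_6_ok) (L (nat_lit 362) ln10_11_2 ln10_11_2_ok))))) (M (nat_lit 333) (B (M (nat_lit 268) (B (L (nat_lit 299) ln11_12_6 ln11_12_6_ok) (L (nat_lit 301) ln13_12_7 ln13_12_7_ok))) (M (nat_lit 334) (B (L (nat_lit 302) ln13_13_6 ln13_13_6_ok) (L (nat_lit 362) ln10_11_2 ln10_11_2_ok)))))))))))))))))) (nat_lit 1386334847463883973296651581191851219813036677374868906371822345360900855259263985776891656315702478141845917603796105407995314176) (nat_lit 1488565707703986623771507633917834555239509127546875879090110873544925422424068737835059778223240452710901432126696402802847968175499247616) (nat_lit 1488565707703986623771507633917834555239509127546875879090110873544925422424068737835059778223240452710901432126696402802847968175499247616)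 (by decide +kernel)
theorem c11_s17213 : Sem (nat_lit 1386334847463883973259074899867469888166804987826239513933811424578367737327947330232376311913868743046426733629639806159484354560) (nat_lit 9590011548803576699262885211604509484448209144039269611019174620560245628532782872064335492602839536990729255914695169792686574751504182918128861184) (nat_lit 9590011548803576699262885211604509484448209144039269611019174620560245628532782872064335492602839536990729255914695169792686574751504182918128861184) :=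
  sem_of_chk (M (nat_lit 364) (B (M (nat_lit 394) (B (M (nat_lit 396) (B (L (nat_lit 430) ln10_12_0 ln10_12_0_ok) (M (nat_lit 365) (B (L (nat_lit 366) ln14_11_1 ln14_11_1_ok) (L (nat_lit 393) ln9_12_2 ln9_12_2_ok))))) (B (M (nat_lit 396) (B (L (nat_lit 430) ln10_12_0 ln10_12_0_ok) (M (nat_lit 361) (B (L (nat_lit 362) ln9_11_0 ln9_11_0_ok) (M (nat_lit 393) (B (L (nat_lit 360) ln12_12_3 ln12_12_3_ok) (L (nat_lit 392) ln8_12_2 ln8_12_2_ok))))))) (B (M (nat_lit 362) (B (M (nat_lit 396) (B (L (nat_lit 361) ln9_11_0 ln9_11_0_ok) (L (nat_lit 430) ln10_12_0 ln10_12_0_ok))) (M (nat_lit 330) (B (M (nat_lit 298) (B (L (nat_lit 266) ln10_8_4 ln10_8_4_ok) (L (nat_lit 427) ln10_9_4 ln10_9_4_ok))) (M (nat_lit 365) (B (L (nat_lit 329) ln13_11_3 ln13_11_3_ok) (L (nat_lit 366) ln14_11_1 ln14_11_1_ok))))))) (M (nat_lit 393) (B (L (nat_lit 392) ln8_12_2 ln8_12_2_ok) (M (nat_lit 365) (B (L (nat_lit 362) ln13_11_1 ln13_11_1_ok)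 (L (nat_lit 366) ln14_11_1 ln14_11_1_ok))))))))) (B (M (nat_lit 394) (B (M (nat_lit 396) (B (L (nat_lit 430) ln10_12_0 ln10_12_0_ok) (M (nat_lit 365) (B (L (nat_lit 366) ln14_11_1 ln14_11_1_ok) (L (nat_lit 393) ln9_12_2 ln9_12_2_ok))))) (B (M (nat_lit 396) (B (L (nat_lit 430) ln10_12_0 ln10_12_0_ok) (M (nat_lit 361) (B (L (nat_lit 362) ln9_11_0 ln9_11_0_ok) (M (nat_lit 393) (B (L (nat_lit 360) ln12_12_3 ln12_12_3_ok) (L (nat_lit 392) ln8_12_2 ln8_12_2_ok))))))) (B (M (nat_lit 362) (B (M (nat_lit 396) (B (L (nat_lit 361) ln9_11_0 ln9_11_0_ok) (L (nat_lit 430) ln10_12_0 ln10_12_0_ok))) (M (nat_lit 330) (B (M (nat_lit 365) (B (L (nat_lit 329) ln13_11_3 ln13_11_3_ok) (L (nat_lit 366) ln14_11_1 ln14_11_1_ok))) (M (nat_lit 427) (B (L (nat_lit 298) ln10_9_4 ln10_9_4_ok) (L (nat_lit 459) ln11_14_7 ln11_14_7_ok))))))) (M (nat_lit 393) (B (L (nat_lit 392) ln8_12_2 ln8_12_2_ok) (M (nat_lit 365) (B (L (nat_lit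 362) ln13_11_1 ln13_11_1_ok) (L (nat_lit 366) ln14_11_1 ln14_11_1_ok))))))))) (B (M (nat_lit 362) (B (M (nat_lit 396) (B (L (nat_lit 361) ln9_11_0 ln9_11_0_ok) (M (nat_lit 394) (B (L (nat_lit 430) ln10_12_0 ln10_12_0_ok) (M (nat_lit 365) (B (L (nat_lit 393) ln13_11_1 ln13_11_1_ok) (L (nat_lit 366) ln14_11_1 ln14_11_1_ok))))))) (B (M (nat_lit 394) (B (M (nat_lit 365) (B (L (nat_lit 393) ln13_11_1 ln13_11_1_ok) (L (nat_lit 366) ln14_11_1 ln14_11_1_ok))) (M (nat_lit 426) (B (M (nat_lit 331) (B (L (nat_lit 299) ln11_9_5 ln11_9_5_ok) (L (nat_lit 458) ln10_14_6 ln10_14_6_ok))) (M (nat_lit 396) (B (L (nat_lit 425) ln13_12_1 ln13_12_1_ok) (L (nat_lit 430) ln10_12_0 ln10_12_0_ok))))))) (B (M (nat_lit 332) (B (M (nat_lit 300) (B (L (nat_lit 268) ln12_8_5 ln12_8_5_ok) (L (nat_lit 396) ln12_9_4 ln12_9_4_ok))) (B (M (nat_lit 396) (B (L (nat_lit 300) ln12_9_4 ln12_9_4_ok) (L (nat_lit 361) ln9_11_0 ln9_11_0_ok)))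 (B (M (nat_lit 361) (B (L (nat_lit 333) ln9_11_2 ln9_11_2_ok) (L (nat_lit 396) ln9_11_0 ln9_11_0_ok))) (M (nat_lit 300) (B (L (nat_lit 268) ln12_8_5 ln12_8_5_ok) (M (nat_lit 427) (B (L (nat_lit 331) ln11_13_6 ln11_13_6_ok) (L (nat_lit 459) ln11_14_6 ln11_14_6_ok))))))))) (M (nat_lit 332) (B (M (nat_lit 300) (B (L (nat_lit 268) ln12_8_5 ln12_8_5_ok) (M (nat_lit 333) (B (L (nat_lit 365) ln13_13_7 ln13_13_7_ok) (L (nat_lit 361) ln9_11_2 ln9_11_2_ok))))) (B (M (nat_lit 333) (B (L (nat_lit 361) ln9_11_2 ln9_11_2_ok) (M (nat_lit 334) (B (L (nat_lit 331) ln14_10_1 ln14_10_1_ok) (L (nat_lit 365) ln10_11_2 ln10_11_2_ok))))) (M (nat_lit 300) (B (L (nat_lit 268) ln12_8_5 ln12_8_5_ok) (M (nat_lit 427) (B (L (nat_lit 331) ln11_13_6 ln11_13_6_ok) (L (nat_lit 459) ln11_14_6 ln11_14_6_ok)))))))))))) (B (M (nat_lit 394) (B (M (nat_lit 396) (B (L (nat_lit 430) ln10_12_0 ln10_12_0_ok) (M (nat_lit 365) (B (L (nat_lit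 366) ln14_11_1 ln14_11_1_ok) (L (nat_lit 393) ln9_12_2 ln9_12_2_ok))))) (B (M (nat_lit 396) (B (L (nat_lit 430) ln10_12_0 ln10_12_0_ok) (M (nat_lit 393) (B (L (nat_lit 392) ln8_12_2 ln8_12_2_ok) (M (nat_lit 425) (B (L (nat_lit 424) ln12_12_1 ln12_12_1_ok) (L (nat_lit 426) ln13_12_1 ln13_12_1_ok))))))) (B (M (nat_lit 427) (B (M (nat_lit 459) (B (L (nat_lit 332) ln11_14_6 ln11_14_6_ok) (M (nat_lit 362) (B (L (nat_lit 330) ln11_14_7 ln11_14_7_ok) (L (nat_lit 491) ln11_15_7 ln11_15_7_ok))))) (B (M (nat_lit 459) (B (L (nat_lit 332) ln11_14_6 ln11_14_6_ok) (M (nat_lit 396) (B (L (nat_lit 491) ln11_15_6 ln11_15_6_ok) (L (nat_lit 430) ln10_12_0 ln10_12_0_ok))))) (M (nat_lit 426) (B (M (nat_lit 331) (B (L (nat_lit 299) ln11_9_5 ln11_9_5_ok) (L (nat_lit 458) ln11_10_5 ln11_10_5_ok))) (M (nat_lit 396) (B (L (nat_lit 425) ln13_12_1 ln13_12_1_ok) (L (nat_lit 430) ln10_12_0 ln10_12_0_ok)))))))) (M (nat_lit 393)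 (B (L (nat_lit 392) ln8_12_2 ln8_12_2_ok) (M (nat_lit 365) (B (L (nat_lit 362) ln13_11_1 ln13_11_1_ok) (L (nat_lit 366) ln14_11_1 ln14_11_1_ok))))))))) (B (M (nat_lit 331) (B (M (nat_lit 396) (B (M (nat_lit 394) (B (L (nat_lit 430) ln10_12_0 ln10_12_0_ok) (M (nat_lit 299) (B (L (nat_lit 267) ln11_8_4 ln11_8_4_ok) (L (nat_lit 426) ln11_9_5 ln11_9_5_ok))))) (B (M (nat_lit 394) (B (L (nat_lit 430) ln10_12_0 ln10_12_0_ok) (M (nat_lit 365) (B (L (nat_lit 366) ln14_11_1 ln14_11_1_ok) (L (nat_lit 393) ln9_12_2 ln9_12_2_ok))))) (M (nat_lit 300) (B (L (nat_lit 332) ln12_9_4 ln12_9_4_ok) (M (nat_lit 299) (B (L (nat_lit 267) ln11_8_4 ln11_8_4_ok) (L (nat_lit 268) ln11_12_6 ln11_12_6_ok)))))))) (B (M (nat_lit 332) (B (M (nat_lit 300) (B (L (nat_lit 268) ln12_8_5 ln12_8_5_ok) (L (nat_lit 427) ln11_13_6 ln11_13_6_ok))) (B (M (nat_lit 427) (B (L (nat_lit 300) ln11_13_6 ln11_13_6_ok) (L (nat_lit 459) ln11_14_6 ln11_14_6_ok)))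 (B (M (nat_lit 330) (B (M (nat_lit 427) (B (L (nat_lit 298) ln11_13_7 ln11_13_7_ok) (L (nat_lit 459) ln11_14_6 ln11_14_6_ok))) (M (nat_lit 365) (B (L (nat_lit 329) ln9_10_0 ln9_10_0_ok) (L (nat_lit 366) ln14_11_3 ln14_11_3_ok))))) (M (nat_lit 300) (B (L (nat_lit 268) ln12_8_5 ln12_8_5_ok) (L (nat_lit 396) ln12_9_4 ln12_9_4_ok))))))) (B (M (nat_lit 332) (B (M (nat_lit 300) (B (L (nat_lit 427) ln11_13_6 ln11_13_6_ok) (L (nat_lit 396) ln12_9_4 ln12_9_4_ok))) (B (M (nat_lit 330) (B (M (nat_lit 427) (B (L (nat_lit 298) ln11_13_7 ln11_13_7_ok) (L (nat_lit 459) ln11_14_6 ln11_14_6_ok))) (M (nat_lit 365) (B (L (nat_lit 329) ln9_10_0 ln9_10_0_ok) (L (nat_lit 366) ln14_11_3 ln14_11_3_ok))))) (M (nat_lit 365) (B (M (nat_lit 300) (B (L (nat_lit 333) ln13_13_7 ln13_13_7_ok) (L (nat_lit 396) ln12_9_4 ln12_9_4_ok))) (M (nat_lit 366) (B (L (nat_lit 367) ln15_11_3 ln15_11_3_ok) (L (nat_lit 394) ln14_11_1 ln14_11_1_ok))))))))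 (B (M (nat_lit 394) (B (M (nat_lit 426) (B (L (nat_lit 299) ln11_9_5 ln11_9_5_ok) (M (nat_lit 458) (B (L (nat_lit 427) ln11_10_5 ln11_10_5_ok) (L (nat_lit 490) ln10_15_6 ln10_15_6_ok))))) (M (nat_lit 365) (B (L (nat_lit 366) ln14_11_1 ln14_11_1_ok) (M (nat_lit 396) (B (L (nat_lit 393) ln9_12_2 ln9_12_2_ok) (L (nat_lit 430) ln10_12_0 ln10_12_0_ok))))))) (M (nat_lit 427) (B (M (nat_lit 332) (B (L (nat_lit 300) ln11_13_6 ln11_13_6_ok) (L (nat_lit 459) ln11_14_6 ln11_14_6_ok))) (M (nat_lit 299) (B (M (nat_lit 298) (B (L (nat_lit 266) ln11_12_7 ln11_12_7_ok) (L (nat_lit 330) ln11_13_7 ln11_13_7_ok))) (M (nat_lit 426) (B (L (nat_lit 394) ln11_9_5 ln11_9_5_ok) (L (nat_lit 458) ln11_10_5 ln11_10_5_ok)))))))))))) (B (M (nat_lit 331) (B (M (nat_lit 427) (B (M (nat_lit 332) (B (L (nat_lit 300) ln11_13_6 ln11_13_6_ok) (L (nat_lit 459) ln11_14_6 ln11_14_6_ok))) (M (nat_lit 299) (B (M (nat_lit 298) (B (L (nat_lit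 266) ln11_12_7 ln11_12_7_ok) (L (nat_lit 330) ln11_13_7 ln11_13_7_ok))) (M (nat_lit 426) (B (L (nat_lit 394) ln11_9_5 ln11_9_5_ok) (L (nat_lit 458) ln11_10_5 ln11_10_5_ok))))))) (B (M (nat_lit 396) (B (M (nat_lit 394) (B (L (nat_lit 430) ln10_12_0 ln10_12_0_ok) (M (nat_lit 299) (B (L (nat_lit 267) ln11_8_4 ln11_8_4_ok) (L (nat_lit 426) ln11_9_5 ln11_9_5_ok))))) (B (M (nat_lit 394) (B (L (nat_lit 430) ln10_12_0 ln10_12_0_ok) (M (nat_lit 426) (B (L (nat_lit 299) ln11_9_5 ln11_9_5_ok) (L (nat_lit 425) ln13_12_1 ln13_12_1_ok))))) (B (M (nat_lit 394) (B (L (nat_lit 430) ln10_12_0 ln10_12_0_ok) (M (nat_lit 393) (B (L (nat_lit 392) ln8_12_2 ln8_12_2_ok) (M (nat_lit 425) (B (L (nat_lit 424) ln12_12_1 ln12_12_1_ok) (L (nat_lit 426) ln13_12_1 ln13_12_1_ok))))))) (M (nat_lit 300) (B (L (nat_lit 332) ln12_9_4 ln12_9_4_ok) (M (nat_lit 299) (B (L (nat_lit 267) ln11_8_4 ln11_8_4_ok) (L (nat_lit 268) ln11_12_6 ln11_12_6_ok)))))))))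 (B (M (nat_lit 332) (B (M (nat_lit 300) (B (L (nat_lit 268) ln12_8_5 ln12_8_5_ok) (L (nat_lit 427) ln11_13_6 ln11_13_6_ok))) (B (M (nat_lit 300) (B (L (nat_lit 427) ln11_13_6 ln11_13_6_ok) (L (nat_lit 396) ln12_9_4 ln12_9_4_ok))) (B (M (nat_lit 361) (B (M (nat_lit 362) (B (L (nat_lit 360) ln8_11_2 ln8_11_2_ok) (L (nat_lit 333) ln9_11_2 ln9_11_2_ok))) (B (M (nat_lit 362) (B (L (nat_lit 360) ln8_11_2 ln8_11_2_ok) (L (nat_lit 396) ln9_11_0 ln9_11_0_ok))) (B (M (nat_lit 362) (B (L (nat_lit 333) ln9_11_2 ln9_11_2_ok) (L (nat_lit 396) ln9_11_0 ln9_11_0_ok))) (M (nat_lit 330) (B (M (nat_lit 427) (B (L (nat_lit 298) ln11_13_7 ln11_13_7_ok) (L (nat_lit 459) ln11_14_6 ln11_14_6_ok))) (M (nat_lit 329) (B (L (nat_lit 328) ln8_10_0 ln8_10_0_ok) (L (nat_lit 360) ln12_10_1 ln12_10_1_ok))))))))) (M (nat_lit 300) (B (L (nat_lit 268) ln12_8_5 ln12_8_5_ok) (L (nat_lit 396) ln12_9_4 ln12_9_4_ok))))))) (M (nat_lit 299)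 (B (M (nat_lit 267) (B (L (nat_lit 396) ln11_8_4 ln11_8_4_ok) (M (nat_lit 394) (B (L (nat_lit 362) ln11_8_5 ln11_8_5_ok) (L (nat_lit 426) ln11_9_5 ln11_9_5_ok))))) (B (M (nat_lit 427) (B (M (nat_lit 298) (B (L (nat_lit 266) ln11_12_7 ln11_12_7_ok) (L (nat_lit 330) ln11_13_7 ln11_13_7_ok))) (M (nat_lit 426) (B (L (nat_lit 394) ln11_9_5 ln11_9_5_ok) (L (nat_lit 458) ln11_10_5 ln11_10_5_ok))))) (M (nat_lit 266) (B (L (nat_lit 298) ln11_12_7 ln11_12_7_ok) (M (nat_lit 267) (B (L (nat_lit 234) ln11_11_7 ln11_11_7_ok) (L (nat_lit 396) ln11_8_4 ln11_8_4_ok)))))))))))) (B (M (nat_lit 362) (B (M (nat_lit 394) (B (M (nat_lit 396) (B (L (nat_lit 361) ln9_11_0 ln9_11_0_ok) (L (nat_lit 430) ln10_12_0 ln10_12_0_ok))) (M (nat_lit 330) (B (M (nat_lit 298) (B (L (nat_lit 266) ln10_8_4 ln10_8_4_ok) (L (nat_lit 427) ln10_9_4 ln10_9_4_ok))) (M (nat_lit 365) (B (L (nat_lit 329) ln13_11_3 ln13_11_3_ok) (L (nat_lit 366)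 ln14_11_1 ln14_11_1_ok))))))) (B (M (nat_lit 394) (B (M (nat_lit 396) (B (L (nat_lit 361) ln9_11_0 ln9_11_0_ok) (L (nat_lit 430) ln10_12_0 ln10_12_0_ok))) (M (nat_lit 330) (B (M (nat_lit 365) (B (L (nat_lit 329) ln13_11_3 ln13_11_3_ok) (L (nat_lit 366) ln14_11_1 ln14_11_1_ok))) (M (nat_lit 427) (B (L (nat_lit 298) ln10_9_4 ln10_9_4_ok) (L (nat_lit 459) ln11_14_7 ln11_14_7_ok))))))) (B (M (nat_lit 332) (B (M (nat_lit 300) (B (L (nat_lit 268) ln12_8_5 ln12_8_5_ok) (L (nat_lit 396) ln12_9_4 ln12_9_4_ok))) (B (M (nat_lit 361) (B (L (nat_lit 333) ln9_11_2 ln9_11_2_ok) (L (nat_lit 396) ln9_11_0 ln9_11_0_ok))) (M (nat_lit 300) (B (L (nat_lit 268) ln12_8_5 ln12_8_5_ok) (M (nat_lit 333) (B (L (nat_lit 365) ln13_13_7 ln13_13_7_ok) (L (nat_lit 361) ln9_11_2 ln9_11_2_ok)))))))) (B (M (nat_lit 330) (B (M (nat_lit 427) (B (L (nat_lit 459) ln11_14_7 ln11_14_7_ok) (M (nat_lit 298) (B (L (nat_lit 266) ln10_8_4 ln10_8_4_ok)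 (L (nat_lit 394) ln10_9_4 ln10_9_4_ok))))) (B (M (nat_lit 427) (B (L (nat_lit 459) ln11_14_7 ln11_14_7_ok) (M (nat_lit 298) (B (L (nat_lit 331) ln11_13_7 ln11_13_7_ok) (L (nat_lit 394) ln10_9_4 ln10_9_4_ok))))) (B (M (nat_lit 365) (B (L (nat_lit 329) ln13_11_3 ln13_11_3_ok) (M (nat_lit 366) (B (L (nat_lit 331) ln14_11_3 ln14_11_3_ok) (L (nat_lit 394) ln14_11_1 ln14_11_1_ok))))) (M (nat_lit 298) (B (L (nat_lit 266) ln10_8_4 ln10_8_4_ok) (M (nat_lit 427) (B (L (nat_lit 331) ln11_13_7 ln11_13_7_ok) (L (nat_lit 459) ln11_14_7 ln11_14_7_ok))))))))) (M (nat_lit 332) (B (M (nat_lit 300) (B (L (nat_lit 268) ln12_8_5 ln12_8_5_ok) (L (nat_lit 396) ln12_9_4 ln12_9_4_ok))) (B (M (nat_lit 361) (B (L (nat_lit 333) ln9_11_2 ln9_11_2_ok) (L (nat_lit 396) ln9_11_0 ln9_11_0_ok))) (M (nat_lit 333) (B (L (nat_lit 361) ln9_11_2 ln9_11_2_ok) (M (nat_lit 334) (B (L (nat_lit 331) ln14_10_1 ln14_10_1_ok) (L (nat_lit 335)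 ln15_10_1 ln15_10_1_ok))))))))))))) (B (K (nat_lit 1386334847463883973296651581191851219813036677374868906371822345360900855259263985776891656315702478141845917603796105407995314176) (nat_lit 1488565707703986623771507633917834555239509127546875879090110873544925422424068737835059778223240452710901432126696402802847968175499247616) (nat_lit 1488565707703986623771507633917834555239509127546875879090110873544925422424068737835059778223240452710901432126696402802847968175499247616) c11_s17200) (B (M (nat_lit 365) (B (M (nat_lit 394) (B (L (nat_lit 366) ln14_11_1 ln14_11_1_ok) (M (nat_lit 393) (B (L (nat_lit 362) ln13_11_1 ln13_11_1_ok) (L (nat_lit 392) ln8_12_2 ln8_12_2_ok))))) (B (M (nat_lit 332) (B (M (nat_lit 300) (B (L (nat_lit 268) ln12_8_5 ln12_8_5_ok) (L (nat_lit 333) ln13_13_7 ln13_13_7_ok))) (M (nat_lit 366) (B (L (nat_lit 394) ln14_11_1 ln14_11_1_ok) (M (nat_lit 331) (B (L (nat_lit 330) ln14_11_3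 ln14_11_3_ok) (L (nat_lit 367) ln15_11_3 ln15_11_3_ok))))))) (B (M (nat_lit 362) (B (M (nat_lit 333) (B (L (nat_lit 334) ln10_11_2 ln10_11_2_ok) (M (nat_lit 332) (B (L (nat_lit 300) ln13_13_7 ln13_13_7_ok) (L (nat_lit 361) ln9_11_2 ln9_11_2_ok))))) (M (nat_lit 394) (B (L (nat_lit 393) ln13_11_1 ln13_11_1_ok) (M (nat_lit 330) (B (L (nat_lit 329) ln13_11_3 ln13_11_3_ok) (M (nat_lit 298) (B (L (nat_lit 266) ln10_8_4 ln10_8_4_ok) (L (nat_lit 427) ln10_9_4 ln10_9_4_ok))))))))) (M (nat_lit 332) (B (M (nat_lit 300) (B (L (nat_lit 268) ln12_8_5 ln12_8_5_ok) (L (nat_lit 333) ln13_13_7 ln13_13_7_ok))) (B (M (nat_lit 300) (B (L (nat_lit 333) ln13_13_7 ln13_13_7_ok) (M (nat_lit 427) (B (L (nat_lit 331) ln11_13_6 ln11_13_6_ok) (L (nat_lit 459) ln11_14_6 ln11_14_6_ok))))) (B (M (nat_lit 330) (B (M (nat_lit 329) (B (L (nat_lit 331) ln9_10_0 ln9_10_0_ok) (L (nat_lit 362) ln13_11_3 ln13_11_3_ok))) (B (M (nat_lit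 331) (B (L (nat_lit 366) ln14_11_3 ln14_11_3_ok) (M (nat_lit 427) (B (L (nat_lit 298) ln11_13_7 ln11_13_7_ok) (L (nat_lit 459) ln11_14_6 ln11_14_6_ok))))) (M (nat_lit 362) (B (L (nat_lit 329) ln13_11_3 ln13_11_3_ok) (M (nat_lit 333) (B (L (nat_lit 361) ln9_11_2 ln9_11_2_ok) (L (nat_lit 334) ln10_11_2 ln10_11_2_ok)))))))) (M (nat_lit 300) (B (L (nat_lit 268) ln12_8_5 ln12_8_5_ok) (M (nat_lit 427) (B (L (nat_lit 331) ln11_13_6 ln11_13_6_ok) (L (nat_lit 459) ln11_14_6 ln11_14_6_ok))))))))))))) (M (nat_lit 362) (B (M (nat_lit 396) (B (L (nat_lit 361) ln9_11_0 ln9_11_0_ok) (M (nat_lit 394) (B (L (nat_lit 430) ln10_12_0 ln10_12_0_ok) (M (nat_lit 365) (B (L (nat_lit 393) ln13_11_1 ln13_11_1_ok) (L (nat_lit 366) ln14_11_1 ln14_11_1_ok))))))) (B (M (nat_lit 394) (B (M (nat_lit 365) (B (L (nat_lit 393) ln13_11_1 ln13_11_1_ok) (L (nat_lit 366) ln14_11_1 ln14_11_1_ok))) (M (nat_lit 426) (B (M (nat_lit 331) (B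 (L (nat_lit 299) ln11_9_5 ln11_9_5_ok) (L (nat_lit 458) ln10_14_6 ln10_14_6_ok))) (M (nat_lit 396) (B (L (nat_lit 425) ln13_12_1 ln13_12_1_ok) (L (nat_lit 430) ln10_12_0 ln10_12_0_ok))))))) (B (M (nat_lit 332) (B (M (nat_lit 300) (B (L (nat_lit 268) ln12_8_5 ln12_8_5_ok) (L (nat_lit 396) ln12_9_4 ln12_9_4_ok))) (B (M (nat_lit 361) (B (L (nat_lit 333) ln9_11_2 ln9_11_2_ok) (L (nat_lit 396) ln9_11_0 ln9_11_0_ok))) (M (nat_lit 333) (B (L (nat_lit 361) ln9_11_2 ln9_11_2_ok) (M (nat_lit 334) (B (L (nat_lit 331) ln14_10_1 ln14_10_1_ok) (L (nat_lit 335) ln15_10_1 ln15_10_1_ok)))))))) (M (nat_lit 365) (B (M (nat_lit 394) (B (L (nat_lit 393) ln13_11_1 ln13_11_1_ok) (L (nat_lit 366) ln14_11_1 ln14_11_1_ok))) (M (nat_lit 333) (B (L (nat_lit 334) ln10_11_2 ln10_11_2_ok) (M (nat_lit 332) (B (L (nat_lit 300) ln13_13_7 ln13_13_7_ok) (L (nat_lit 361) ln9_11_2 ln9_11_2_ok))))))))))))))))))))) (nat_lit 1386334847463883973259074899867469888166804987826239513933811424578367737327947330232376311913868743046426733629639806159484354560)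 (nat_lit 9590011548803576699262885211604509484448209144039269611019174620560245628532782872064335492602839536990729255914695169792686574751504182918128861184) (nat_lit 9590011548803576699262885211604509484448209144039269611019174620560245628532782872064335492602839536990729255914695169792686574751504182918128861184) (by decide +kernel)
theorem c11_s17214 : Sem (nat_lit 1386334847463883973240286559205279222343689143051924817714805964187101178362289002460118639712951875498717141642561656535228874752) (nat_lit 58968162983943750892979519951563324918069130568550151330030823260716509214461295556556725212231394985760279814048179115525994073697690958874108378213157988325524504576) (nat_lit 58968162983943750892979519951563324918069130568550151330030823260716509214461295556556725212231394985760279814048179115525994073697690958874108378213157988325524504576) :=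
  sem_of_chk (M (nat_lit 363) (B (M (nat_lit 396) (B (M (nat_lit 430) (B (L (nat_lit 394) ln10_12_0 ln10_12_0_ok) (M (nat_lit 398) (B (L (nat_lit 362) ln14_12_3 ln14_12_3_ok) (L (nat_lit 431) ln11_12_0 ln11_12_0_ok))))) (B (M (nat_lit 430) (B (L (nat_lit 394) ln10_12_0 ln10_12_0_ok) (M (nat_lit 431) (B (L (nat_lit 398) ln11_12_0 ln11_12_0_ok) (L (nat_lit 432) ln16_13_3 ln16_13_3_ok))))) (B (M (nat_lit 362) (B (L (nat_lit 398) ln14_12_3 ln14_12_3_ok) (M (nat_lit 361) (B (L (nat_lit 360) ln8_11_0 ln8_11_0_ok) (L (nat_lit 364) ln9_11_0 ln9_11_0_ok))))) (M (nat_lit 394) (B (L (nat_lit 430) ln10_12_0 ln10_12_0_ok) (M (nat_lit 393) (B (M (nat_lit 361) (B (L (nat_lit 360) ln12_12_3 ln12_12_3_ok) (L (nat_lit 362) ln13_12_3 ln13_12_3_ok))) (M (nat_lit 365) (B (L (nat_lit 364) ln9_12_2 ln9_12_2_ok) (L (nat_lit 366) ln10_12_2 ln10_12_2_ok))))))))))) (B (M (nat_lit 396) (B (M (nat_lit 362) (B (L (nat_lit 398)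 ln14_12_3 ln14_12_3_ok) (M (nat_lit 394) (B (L (nat_lit 361) ln13_12_3 ln13_12_3_ok) (L (nat_lit 430) ln10_12_0 ln10_12_0_ok))))) (B (M (nat_lit 430) (B (L (nat_lit 394) ln10_12_0 ln10_12_0_ok) (M (nat_lit 398) (B (L (nat_lit 362) ln14_12_3 ln14_12_3_ok) (L (nat_lit 431) ln11_12_0 ln11_12_0_ok))))) (B (M (nat_lit 398) (B (M (nat_lit 430) (B (L (nat_lit 394) ln10_12_0 ln10_12_0_ok) (L (nat_lit 431) ln11_12_0 ln11_12_0_ok))) (M (nat_lit 399) (B (L (nat_lit 364) ln15_12_3 ln15_12_3_ok) (M (nat_lit 367) (B (L (nat_lit 366) ln11_12_2 ln11_12_2_ok) (L (nat_lit 368) ln12_12_2 ln12_12_2_ok))))))) (B (M (nat_lit 398) (B (L (nat_lit 362) ln14_12_3 ln14_12_3_ok) (M (nat_lit 399) (B (L (nat_lit 364) ln15_12_3 ln15_12_3_ok) (M (nat_lit 367) (B (L (nat_lit 366) ln11_12_2 ln11_12_2_ok) (L (nat_lit 368) ln12_12_2 ln12_12_2_ok))))))) (M (nat_lit 394) (B (L (nat_lit 430) ln10_12_0 ln10_12_0_ok) (M (nat_lit 393) (B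 (M (nat_lit 364) (B (L (nat_lit 392) ln8_12_2 ln8_12_2_ok) (L (nat_lit 365) ln9_12_2 ln9_12_2_ok))) (M (nat_lit 425) (B (L (nat_lit 424) ln12_12_1 ln12_12_1_ok) (L (nat_lit 426) ln13_12_1 ln13_12_1_ok)))))))))))) (B (M (nat_lit 396) (B (M (nat_lit 430) (B (L (nat_lit 394) ln10_12_0 ln10_12_0_ok) (M (nat_lit 398) (B (L (nat_lit 362) ln14_12_3 ln14_12_3_ok) (L (nat_lit 431) ln11_12_0 ln11_12_0_ok))))) (B (M (nat_lit 398) (B (M (nat_lit 430) (B (L (nat_lit 394) ln10_12_0 ln10_12_0_ok) (L (nat_lit 431) ln11_12_0 ln11_12_0_ok))) (M (nat_lit 399) (B (L (nat_lit 364) ln15_12_3 ln15_12_3_ok) (M (nat_lit 367) (B (L (nat_lit 366) ln11_12_2 ln11_12_2_ok) (L (nat_lit 368) ln12_12_2 ln12_12_2_ok))))))) (B (M (nat_lit 398) (B (L (nat_lit 362) ln14_12_3 ln14_12_3_ok) (M (nat_lit 399) (B (L (nat_lit 364) ln15_12_3 ln15_12_3_ok) (M (nat_lit 367) (B (L (nat_lit 366) ln11_12_2 ln11_12_2_ok) (L (nat_lit 368) ln12_12_2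 ln12_12_2_ok))))))) (M (nat_lit 394) (B (L (nat_lit 430) ln10_12_0 ln10_12_0_ok) (M (nat_lit 393) (B (M (nat_lit 364) (B (L (nat_lit 392) ln8_12_2 ln8_12_2_ok) (L (nat_lit 365) ln9_12_2 ln9_12_2_ok))) (M (nat_lit 425) (B (L (nat_lit 424) ln12_12_1 ln12_12_1_ok) (L (nat_lit 426) ln13_12_1 ln13_12_1_ok))))))))))) (B (K (nat_lit 1386334847463883973259074899867469888166804987826239513933811424578367737327947330232376311913868743046426733629639806159484354560) (nat_lit 9590011548803576715855580414265187578128919112464003220077773879889877414750739256419686173936240131139341994972207483530272885767128286974028283904) (nat_lit 9590011548803576715855580414265187578128919112464003220077773879889877414750739256419686173936240131139341994972207483530272885767128286974028283904) c11_s16852) (B (M (nat_lit 396) (B (M (nat_lit 362) (B (L (nat_lit 398) ln14_12_3 ln14_12_3_ok) (M (nat_lit 394) (B (L (nat_lit 361)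 ln13_12_3 ln13_12_3_ok) (L (nat_lit 430) ln10_12_0 ln10_12_0_ok))))) (B (M (nat_lit 430) (B (L (nat_lit 394) ln10_12_0 ln10_12_0_ok) (M (nat_lit 398) (B (L (nat_lit 362) ln14_12_3 ln14_12_3_ok) (L (nat_lit 431) ln11_12_0 ln11_12_0_ok))))) (B (M (nat_lit 430) (B (L (nat_lit 394) ln10_12_0 ln10_12_0_ok) (M (nat_lit 431) (B (L (nat_lit 398) ln11_12_0 ln11_12_0_ok) (L (nat_lit 432) ln16_13_3 ln16_13_3_ok))))) (B (M (nat_lit 398) (B (L (nat_lit 362) ln14_12_3 ln14_12_3_ok) (M (nat_lit 399) (B (M (nat_lit 367) (B (L (nat_lit 366) ln11_12_2 ln11_12_2_ok) (L (nat_lit 368) ln12_12_2 ln12_12_2_ok))) (M (nat_lit 431) (B (L (nat_lit 430) ln11_12_0 ln11_12_0_ok) (L (nat_lit 432) ln12_12_0 ln12_12_0_ok))))))) (B (M (nat_lit 394) (B (L (nat_lit 430) ln10_12_0 ln10_12_0_ok) (M (nat_lit 426) (B (L (nat_lit 425) ln13_12_1 ln13_12_1_ok) (M (nat_lit 331) (B (L (nat_lit 299) ln11_9_5 ln11_9_5_ok) (M (nat_lit 458) (B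 (L (nat_lit 427) ln11_10_5 ln11_10_5_ok) (L (nat_lit 490) ln10_15_6 ln10_15_6_ok))))))))) (M (nat_lit 362) (B (L (nat_lit 398) ln14_12_3 ln14_12_3_ok) (M (nat_lit 361) (B (L (nat_lit 360) ln8_11_0 ln8_11_0_ok) (L (nat_lit 394) ln13_12_3 ln13_12_3_ok))))))))))) (B (M (nat_lit 396) (B (M (nat_lit 362) (B (L (nat_lit 398) ln14_12_3 ln14_12_3_ok) (M (nat_lit 394) (B (L (nat_lit 361) ln13_12_3 ln13_12_3_ok) (L (nat_lit 430) ln10_12_0 ln10_12_0_ok))))) (B (M (nat_lit 394) (B (L (nat_lit 430) ln10_12_0 ln10_12_0_ok) (M (nat_lit 393) (B (M (nat_lit 364) (B (L (nat_lit 392) ln8_12_2 ln8_12_2_ok) (L (nat_lit 365) ln9_12_2 ln9_12_2_ok))) (M (nat_lit 425) (B (L (nat_lit 424) ln12_12_1 ln12_12_1_ok) (L (nat_lit 426) ln13_12_1 ln13_12_1_ok))))))) (M (nat_lit 362) (B (L (nat_lit 398) ln14_12_3 ln14_12_3_ok) (M (nat_lit 361) (B (L (nat_lit 360) ln8_11_0 ln8_11_0_ok) (L (nat_lit 364) ln9_11_0 ln9_11_0_ok))))))))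 (B c11_n16994 (B (K (nat_lit 1386334847463883973259074899867469888166804987826239513933811424578367737327947330232376311913868743046426733629639806159484354560) (nat_lit 58968162983943750892979519951563324898530473817631143498436390235404124629095369852626301770921261228923151856564180807155282100190002628743248342578911812307031949312) (nat_lit 58968162983943750892979519951563324898530473817631143498436390235404124629095369852626301770921261228923151856564180807155282100190002628743248342578911812307031949312) c11_s17018) (K (nat_lit 1386334847463883973259074899867469888166804987826239513933811424578367737327947330232376311913868743046426733629639806159484354560) (nat_lit 9590011548803576699262885211604509484448209144039269611019174620560245628532782872064335492602839536990729255914695169792686574751504182918128861184) (nat_lit 9590011548803576699262885211604509484448209144039269611019174620560245628532782872064335492602839536990729255914695169792686574751504182918128861184)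 c11_s17213)))))))))) (nat_lit 1386334847463883973240286559205279222343689143051924817714805964187101178362289002460118639712951875498717141642561656535228874752) (nat_lit 58968162983943750892979519951563324918069130568550151330030823260716509214461295556556725212231394985760279814048179115525994073697690958874108378213157988325524504576) (nat_lit 58968162983943750892979519951563324918069130568550151330030823260716509214461295556556725212231394985760279814048179115525994073697690958874108378213157988325524504576) (by decide +kernel)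
noncomputable def c11_n17228 : Cert := (M (nat_lit 363) (B (M (nat_lit 362) (B (L (nat_lit 398) ln14_12_3 ln14_12_3_ok) (M (nat_lit 361) (B (L (nat_lit 360) ln8_11_0 ln8_11_0_ok) (L (nat_lit 364) ln9_11_0 ln9_11_0_ok))))) (B (M (nat_lit 398) (B (L (nat_lit 362) ln14_12_3 ln14_12_3_ok) (M (nat_lit 399) (B (L (nat_lit 364) ln15_12_3 ln15_12_3_ok) (M (nat_lit 367) (B (L (nat_lit 366) ln11_12_2 ln11_12_2_ok) (L (nat_lit 368) ln12_12_2 ln12_12_2_ok))))))) (B (M (nat_lit 427) (B (M (nat_lit 398) (B (L (nat_lit 426) ln14_12_1 ln14_12_1_ok) (M (nat_lit 399) (B (L (nat_lit 364) ln15_12_3 ln15_12_3_ok) (L (nat_lit 428) ln15_12_1 ln15_12_1_ok))))) (B (M (nat_lit 331) (B (M (nat_lit 426) (B (L (nat_lit 458) ln11_10_5 ln11_10_5_ok) (L (nat_lit 398) ln14_12_1 ln14_12_1_ok))) (M (nat_lit 428) (B (L (nat_lit 299) ln11_9_4 ln11_9_4_ok) (L (nat_lit 460) ln11_10_4 ln11_10_4_ok))))) (B (M (nat_lit 331) (B (M (nat_lit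 428) (B (L (nat_lit 299) ln11_9_4 ln11_9_4_ok) (L (nat_lit 460) ln11_10_4 ln11_10_4_ok))) (M (nat_lit 459) (B (M (nat_lit 332) (B (L (nat_lit 300) ln11_13_6 ln11_13_6_ok) (L (nat_lit 364) ln11_14_6 ln11_14_6_ok))) (M (nat_lit 458) (B (L (nat_lit 426) ln11_10_5 ln11_10_5_ok) (L (nat_lit 490) ln11_11_5 ln11_11_5_ok))))))) (B (M (nat_lit 331) (B (M (nat_lit 428) (B (L (nat_lit 299) ln11_9_4 ln11_9_4_ok) (L (nat_lit 460) ln11_10_4 ln11_10_4_ok))) (B (M (nat_lit 459) (B (M (nat_lit 332) (B (L (nat_lit 300) ln11_13_6 ln11_13_6_ok) (L (nat_lit 364) ln11_14_6 ln11_14_6_ok))) (M (nat_lit 460) (B (L (nat_lit 428) ln11_10_4 ln11_10_4_ok) (L (nat_lit 492) ln11_11_4 ln11_11_4_ok))))) (M (nat_lit 299) (B (M (nat_lit 298) (B (L (nat_lit 266) ln11_12_7 ln11_12_7_ok) (L (nat_lit 330) ln11_13_7 ln11_13_7_ok))) (M (nat_lit 300) (B (L (nat_lit 268) ln11_12_6 ln11_12_6_ok) (L (nat_lit 332) ln11_13_6 ln11_13_6_ok))))))))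 (M (nat_lit 364) (B (M (nat_lit 332) (B (L (nat_lit 300) ln12_9_5 ln12_9_5_ok) (L (nat_lit 459) ln11_14_6 ln11_14_6_ok))) (M (nat_lit 398) (B (L (nat_lit 399) ln15_12_3 ln15_12_3_ok) (L (nat_lit 426) ln14_12_1 ln14_12_1_ok)))))))))) (B (M (nat_lit 398) (B (L (nat_lit 362) ln14_12_3 ln14_12_3_ok) (M (nat_lit 399) (B (M (nat_lit 367) (B (L (nat_lit 366) ln11_12_2 ln11_12_2_ok) (L (nat_lit 368) ln12_12_2 ln12_12_2_ok))) (M (nat_lit 427) (B (L (nat_lit 426) ln14_12_1 ln14_12_1_ok) (L (nat_lit 428) ln15_12_1 ln15_12_1_ok))))))) (M (nat_lit 331) (B (M (nat_lit 428) (B (L (nat_lit 299) ln11_9_4 ln11_9_4_ok) (M (nat_lit 460) (B (L (nat_lit 364) ln12_14_7 ln12_14_7_ok) (L (nat_lit 427) ln11_10_4 ln11_10_4_ok))))) (B (M (nat_lit 427) (B (M (nat_lit 428) (B (L (nat_lit 460) ln11_10_4 ln11_10_4_ok) (M (nat_lit 426) (B (L (nat_lit 458) ln11_10_5 ln11_10_5_ok) (L (nat_lit 425) ln9_13_2 ln9_13_2_ok))))) (B (M (nat_lit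 459) (B (M (nat_lit 330) (B (L (nat_lit 298) ln11_13_7 ln11_13_7_ok) (L (nat_lit 362) ln11_14_7 ln11_14_7_ok))) (M (nat_lit 460) (B (L (nat_lit 428) ln11_10_4 ln11_10_4_ok) (L (nat_lit 492) ln11_11_4 ln11_11_4_ok))))) (M (nat_lit 459) (B (M (nat_lit 330) (B (L (nat_lit 298) ln11_13_7 ln11_13_7_ok) (L (nat_lit 362) ln11_14_7 ln11_14_7_ok))) (M (nat_lit 458) (B (L (nat_lit 426) ln11_10_5 ln11_10_5_ok) (L (nat_lit 490) ln11_11_5 ln11_11_5_ok)))))))) (B (M (nat_lit 428) (B (L (nat_lit 299) ln11_9_4 ln11_9_4_ok) (M (nat_lit 460) (B (L (nat_lit 364) ln12_14_7 ln12_14_7_ok) (L (nat_lit 492) ln12_15_7 ln12_15_7_ok))))) (M (nat_lit 427) (B (M (nat_lit 459) (B (M (nat_lit 332) (B (L (nat_lit 300) ln11_13_6 ln11_13_6_ok) (L (nat_lit 364) ln11_14_6 ln11_14_6_ok))) (M (nat_lit 458) (B (L (nat_lit 426) ln11_10_5 ln11_10_5_ok) (L (nat_lit 490) ln11_11_5 ln11_11_5_ok))))) (B (M (nat_lit 459) (B (M (nat_lit 330)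 (B (L (nat_lit 298) ln11_13_7 ln11_13_7_ok) (L (nat_lit 362) ln11_14_7 ln11_14_7_ok))) (M (nat_lit 458) (B (L (nat_lit 426) ln11_10_5 ln11_10_5_ok) (L (nat_lit 490) ln11_11_5 ln11_11_5_ok))))) (B (M (nat_lit 459) (B (M (nat_lit 330) (B (L (nat_lit 298) ln11_13_7 ln11_13_7_ok) (L (nat_lit 362) ln11_14_7 ln11_14_7_ok))) (M (nat_lit 332) (B (L (nat_lit 300) ln11_13_6 ln11_13_6_ok) (L (nat_lit 364) ln11_14_6 ln11_14_6_ok))))) (M (nat_lit 299) (B (M (nat_lit 298) (B (L (nat_lit 266) ln11_12_7 ln11_12_7_ok) (L (nat_lit 330) ln11_13_7 ln11_13_7_ok))) (M (nat_lit 300) (B (L (nat_lit 268) ln11_12_6 ln11_12_6_ok) (L (nat_lit 332) ln11_13_6 ln11_13_6_ok))))))))))))))))))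
theorem c11_s17336 : Sem (nat_lit 1386334847625274590620718346058774170593877385197531429766632433739017388146079478836171214377304710078725756107305604783525593088) (nat_lit 15983352582827860201767699891148855720700100543071153892187009272001472596296753922978820407204996317776855892633164210962346016837072971373597425664) (nat_lit 15983352582827860201767699891148855720700100543071153892187009272001472596296753922978820407204996317776855892633164210962346016837072971373597425664) :=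
  sem_of_chk (M (nat_lit 363) (B (M (nat_lit 362) (B (M (nat_lit 361) (B (L (nat_lit 360) ln8_11_0 ln8_11_0_ok) (L (nat_lit 364) ln9_11_0 ln9_11_0_ok))) (B (M (nat_lit 361) (B (L (nat_lit 364) ln9_11_0 ln9_11_0_ok) (L (nat_lit 394) ln13_12_3 ln13_12_3_ok))) (B (M (nat_lit 394) (B (M (nat_lit 365) (B (L (nat_lit 366) ln10_12_2 ln10_12_2_ok) (M (nat_lit 393) (B (L (nat_lit 364) ln13_11_1 ln13_11_1_ok) (L (nat_lit 428) ln9_12_0 ln9_12_0_ok))))) (M (nat_lit 426) (B (L (nat_lit 425) ln13_12_1 ln13_12_1_ok) (M (nat_lit 331) (B (L (nat_lit 299) ln11_9_5 ln11_9_5_ok) (L (nat_lit 458) ln10_14_6 ln10_14_6_ok))))))) (M (nat_lit 361) (B (L (nat_lit 360) ln8_11_0 ln8_11_0_ok) (L (nat_lit 394) ln13_12_3 ln13_12_3_ok))))))) (B (M (nat_lit 362) (B (M (nat_lit 361) (B (L (nat_lit 360) ln8_11_0 ln8_11_0_ok) (L (nat_lit 364) ln9_11_0 ln9_11_0_ok))) (B (M (nat_lit 361) (B (L (nat_lit 364) ln9_11_0 ln9_11_0_ok) (L (nat_lit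 394) ln13_12_3 ln13_12_3_ok))) (B (M (nat_lit 394) (B (M (nat_lit 426) (B (L (nat_lit 425) ln13_12_1 ln13_12_1_ok) (M (nat_lit 458) (B (L (nat_lit 331) ln10_14_6 ln10_14_6_ok) (L (nat_lit 490) ln10_15_6 ln10_15_6_ok))))) (M (nat_lit 365) (B (L (nat_lit 366) ln10_12_2 ln10_12_2_ok) (M (nat_lit 393) (B (L (nat_lit 364) ln13_11_1 ln13_11_1_ok) (L (nat_lit 428) ln9_12_0 ln9_12_0_ok))))))) (M (nat_lit 361) (B (L (nat_lit 360) ln8_11_0 ln8_11_0_ok) (L (nat_lit 394) ln13_12_3 ln13_12_3_ok))))))) (B (M (nat_lit 362) (B (M (nat_lit 361) (B (L (nat_lit 360) ln8_11_0 ln8_11_0_ok) (L (nat_lit 364) ln9_11_0 ln9_11_0_ok))) (B (M (nat_lit 361) (B (L (nat_lit 364) ln9_11_0 ln9_11_0_ok) (L (nat_lit 394) ln13_12_3 ln13_12_3_ok))) (B (M (nat_lit 365) (B (M (nat_lit 394) (B (L (nat_lit 366) ln10_12_2 ln10_12_2_ok) (M (nat_lit 393) (B (L (nat_lit 364) ln13_11_1 ln13_11_1_ok) (L (nat_lit 428) ln9_12_0 ln9_12_0_ok)))))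 (B (M (nat_lit 428) (B (M (nat_lit 333) (B (L (nat_lit 301) ln13_9_5 ln13_9_5_ok) (L (nat_lit 460) ln13_10_5 ln13_10_5_ok))) (M (nat_lit 394) (B (L (nat_lit 366) ln10_12_2 ln10_12_2_ok) (L (nat_lit 393) ln9_12_0 ln9_12_0_ok))))) (B (M (nat_lit 333) (B (M (nat_lit 334) (B (L (nat_lit 302) ln13_13_6 ln13_13_6_ok) (L (nat_lit 364) ln10_11_2 ln10_11_2_ok))) (M (nat_lit 428) (B (L (nat_lit 301) ln13_9_5 ln13_9_5_ok) (L (nat_lit 460) ln13_10_5 ln13_10_5_ok))))) (M (nat_lit 366) (B (L (nat_lit 394) ln10_12_2 ln10_12_2_ok) (M (nat_lit 367) (B (L (nat_lit 364) ln15_11_1 ln15_11_1_ok) (L (nat_lit 368) ln16_11_1 ln16_11_1_ok))))))))) (M (nat_lit 361) (B (L (nat_lit 360) ln8_11_0 ln8_11_0_ok) (L (nat_lit 394) ln13_12_3 ln13_12_3_ok))))))) (B (M (nat_lit 394) (B (M (nat_lit 365) (B (L (nat_lit 366) ln10_12_2 ln10_12_2_ok) (M (nat_lit 393) (B (L (nat_lit 364) ln9_12_2 ln9_12_2_ok) (L (nat_lit 428) ln9_12_0 ln9_12_0_ok)))))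 (B (M (nat_lit 393) (B (L (nat_lit 428) ln9_12_0 ln9_12_0_ok) (M (nat_lit 425) (B (L (nat_lit 424) ln12_12_1 ln12_12_1_ok) (L (nat_lit 426) ln13_12_1 ln13_12_1_ok))))) (M (nat_lit 426) (B (L (nat_lit 425) ln13_12_1 ln13_12_1_ok) (M (nat_lit 331) (B (L (nat_lit 299) ln11_9_5 ln11_9_5_ok) (M (nat_lit 362) (B (L (nat_lit 458) ln10_14_6 ln10_14_6_ok) (L (nat_lit 361) ln13_12_3 ln13_12_3_ok)))))))))) (B (M (nat_lit 394) (B (M (nat_lit 365) (B (L (nat_lit 366) ln10_12_2 ln10_12_2_ok) (M (nat_lit 393) (B (L (nat_lit 364) ln9_12_2 ln9_12_2_ok) (L (nat_lit 428) ln9_12_0 ln9_12_0_ok))))) (B (M (nat_lit 393) (B (L (nat_lit 428) ln9_12_0 ln9_12_0_ok) (M (nat_lit 425) (B (L (nat_lit 424) ln12_12_1 ln12_12_1_ok) (L (nat_lit 426) ln13_12_1 ln13_12_1_ok))))) (M (nat_lit 426) (B (L (nat_lit 425) ln13_12_1 ln13_12_1_ok) (M (nat_lit 331) (B (L (nat_lit 299) ln11_9_5 ln11_9_5_ok) (M (nat_lit 458) (B (L (nat_lit 427)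 ln11_10_5 ln11_10_5_ok) (L (nat_lit 490) ln10_15_6 ln10_15_6_ok)))))))))) (B (M (nat_lit 394) (B (M (nat_lit 361) (B (L (nat_lit 362) ln13_12_3 ln13_12_3_ok) (M (nat_lit 393) (B (L (nat_lit 360) ln12_12_3 ln12_12_3_ok) (L (nat_lit 428) ln9_12_0 ln9_12_0_ok))))) (B (M (nat_lit 428) (B (L (nat_lit 393) ln9_12_0 ln9_12_0_ok) (M (nat_lit 365) (B (L (nat_lit 366) ln10_12_2 ln10_12_2_ok) (M (nat_lit 460) (B (L (nat_lit 333) ln13_10_5 ln13_10_5_ok) (L (nat_lit 492) ln12_15_7 ln12_15_7_ok))))))) (M (nat_lit 426) (B (L (nat_lit 425) ln13_12_1 ln13_12_1_ok) (M (nat_lit 331) (B (L (nat_lit 299) ln11_9_5 ln11_9_5_ok) (M (nat_lit 458) (B (L (nat_lit 427) ln11_10_5 ln11_10_5_ok) (L (nat_lit 490) ln10_15_6 ln10_15_6_ok)))))))))) (B (M (nat_lit 394) (B (M (nat_lit 361) (B (L (nat_lit 362) ln13_12_3 ln13_12_3_ok) (M (nat_lit 393) (B (L (nat_lit 360) ln12_12_3 ln12_12_3_ok) (L (nat_lit 428) ln9_12_0 ln9_12_0_ok)))))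 (B (M (nat_lit 428) (B (L (nat_lit 393) ln9_12_0 ln9_12_0_ok) (M (nat_lit 331) (B (L (nat_lit 299) ln11_9_4 ln11_9_4_ok) (M (nat_lit 460) (B (L (nat_lit 427) ln11_10_4 ln11_10_4_ok) (L (nat_lit 492) ln12_15_7 ln12_15_7_ok))))))) (M (nat_lit 426) (B (L (nat_lit 425) ln13_12_1 ln13_12_1_ok) (M (nat_lit 331) (B (L (nat_lit 299) ln11_9_5 ln11_9_5_ok) (M (nat_lit 362) (B (L (nat_lit 458) ln10_14_6 ln10_14_6_ok) (L (nat_lit 361) ln13_12_3 ln13_12_3_ok)))))))))) (B (M (nat_lit 331) (B (M (nat_lit 428) (B (L (nat_lit 299) ln11_9_4 ln11_9_4_ok) (M (nat_lit 460) (B (L (nat_lit 364) ln12_14_7 ln12_14_7_ok) (L (nat_lit 427) ln11_10_4 ln11_10_4_ok))))) (B (M (nat_lit 427) (B (M (nat_lit 428) (B (L (nat_lit 460) ln11_10_4 ln11_10_4_ok) (M (nat_lit 426) (B (L (nat_lit 458) ln11_10_5 ln11_10_5_ok) (L (nat_lit 425) ln9_13_2 ln9_13_2_ok))))) (M (nat_lit 362) (B (M (nat_lit 330) (B (L (nat_lit 298) ln11_13_7 ln11_13_7_ok)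 (L (nat_lit 459) ln11_14_7 ln11_14_7_ok))) (M (nat_lit 361) (B (L (nat_lit 364) ln9_11_0 ln9_11_0_ok) (L (nat_lit 394) ln13_12_3 ln13_12_3_ok))))))) (B (M (nat_lit 428) (B (L (nat_lit 299) ln11_9_4 ln11_9_4_ok) (M (nat_lit 460) (B (L (nat_lit 427) ln11_10_4 ln11_10_4_ok) (L (nat_lit 492) ln12_15_7 ln12_15_7_ok))))) (B (M (nat_lit 428) (B (L (nat_lit 299) ln11_9_4 ln11_9_4_ok) (M (nat_lit 460) (B (L (nat_lit 364) ln12_14_7 ln12_14_7_ok) (L (nat_lit 492) ln12_15_7 ln12_15_7_ok))))) (M (nat_lit 427) (B (M (nat_lit 426) (B (L (nat_lit 458) ln11_10_5 ln11_10_5_ok) (M (nat_lit 394) (B (L (nat_lit 299) ln11_9_5 ln11_9_5_ok) (L (nat_lit 425) ln13_12_1 ln13_12_1_ok))))) (B (M (nat_lit 362) (B (M (nat_lit 330) (B (L (nat_lit 298) ln11_13_7 ln11_13_7_ok) (L (nat_lit 459) ln11_14_7 ln11_14_7_ok))) (M (nat_lit 361) (B (L (nat_lit 364) ln9_11_0 ln9_11_0_ok) (L (nat_lit 394) ln13_12_3 ln13_12_3_ok))))) (M (nat_lit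 459) (B (M (nat_lit 330) (B (L (nat_lit 298) ln11_13_7 ln11_13_7_ok) (L (nat_lit 362) ln11_14_7 ln11_14_7_ok))) (M (nat_lit 458) (B (L (nat_lit 426) ln11_10_5 ln11_10_5_ok) (L (nat_lit 490) ln11_11_5 ln11_11_5_ok))))))))))))) (B (M (nat_lit 331) (B (M (nat_lit 428) (B (L (nat_lit 299) ln11_9_4 ln11_9_4_ok) (M (nat_lit 460) (B (L (nat_lit 364) ln12_14_7 ln12_14_7_ok) (L (nat_lit 427) ln11_10_4 ln11_10_4_ok))))) (B (M (nat_lit 427) (B (M (nat_lit 428) (B (L (nat_lit 460) ln11_10_4 ln11_10_4_ok) (M (nat_lit 426) (B (L (nat_lit 458) ln11_10_5 ln11_10_5_ok) (L (nat_lit 425) ln9_13_2 ln9_13_2_ok))))) (B (M (nat_lit 459) (B (M (nat_lit 330) (B (L (nat_lit 298) ln11_13_7 ln11_13_7_ok) (L (nat_lit 362) ln11_14_7 ln11_14_7_ok))) (M (nat_lit 460) (B (L (nat_lit 428) ln11_10_4 ln11_10_4_ok) (L (nat_lit 492) ln11_11_4 ln11_11_4_ok))))) (M (nat_lit 459) (B (M (nat_lit 330) (B (L (nat_lit 298) ln11_13_7 ln11_13_7_ok)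 (L (nat_lit 362) ln11_14_7 ln11_14_7_ok))) (M (nat_lit 458) (B (L (nat_lit 426) ln11_10_5 ln11_10_5_ok) (L (nat_lit 490) ln11_11_5 ln11_11_5_ok)))))))) (B (M (nat_lit 428) (B (L (nat_lit 299) ln11_9_4 ln11_9_4_ok) (M (nat_lit 460) (B (L (nat_lit 364) ln12_14_7 ln12_14_7_ok) (L (nat_lit 492) ln12_15_7 ln12_15_7_ok))))) (M (nat_lit 427) (B (M (nat_lit 459) (B (M (nat_lit 332) (B (L (nat_lit 300) ln11_13_6 ln11_13_6_ok) (L (nat_lit 364) ln11_14_6 ln11_14_6_ok))) (M (nat_lit 458) (B (L (nat_lit 426) ln11_10_5 ln11_10_5_ok) (L (nat_lit 490) ln11_11_5 ln11_11_5_ok))))) (B (M (nat_lit 459) (B (M (nat_lit 330) (B (L (nat_lit 298) ln11_13_7 ln11_13_7_ok) (L (nat_lit 362) ln11_14_7 ln11_14_7_ok))) (M (nat_lit 458) (B (L (nat_lit 426) ln11_10_5 ln11_10_5_ok) (L (nat_lit 490) ln11_11_5 ln11_11_5_ok))))) (B (M (nat_lit 459) (B (M (nat_lit 330) (B (L (nat_lit 298) ln11_13_7 ln11_13_7_ok) (L (nat_lit 362) ln11_14_7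 ln11_14_7_ok))) (M (nat_lit 332) (B (L (nat_lit 300) ln11_13_6 ln11_13_6_ok) (L (nat_lit 364) ln11_14_6 ln11_14_6_ok))))) (M (nat_lit 299) (B (M (nat_lit 298) (B (L (nat_lit 266) ln11_12_7 ln11_12_7_ok) (L (nat_lit 330) ln11_13_7 ln11_13_7_ok))) (M (nat_lit 300) (B (L (nat_lit 268) ln11_12_6 ln11_12_6_ok) (L (nat_lit 332) ln11_13_6 ln11_13_6_ok))))))))))))) (M (nat_lit 394) (B (M (nat_lit 365) (B (L (nat_lit 366) ln10_12_2 ln10_12_2_ok) (M (nat_lit 393) (B (L (nat_lit 364) ln9_12_2 ln9_12_2_ok) (M (nat_lit 425) (B (L (nat_lit 424) ln12_12_1 ln12_12_1_ok) (L (nat_lit 426) ln13_12_1 ln13_12_1_ok))))))) (B (M (nat_lit 361) (B (L (nat_lit 362) ln13_12_3 ln13_12_3_ok) (M (nat_lit 393) (B (L (nat_lit 360) ln12_12_3 ln12_12_3_ok) (M (nat_lit 425) (B (L (nat_lit 424) ln12_12_1 ln12_12_1_ok) (L (nat_lit 426) ln13_12_1 ln13_12_1_ok))))))) (B (M (nat_lit 426) (B (L (nat_lit 425) ln13_12_1 ln13_12_1_ok) (M (nat_lit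 331) (B (L (nat_lit 299) ln11_9_5 ln11_9_5_ok) (M (nat_lit 362) (B (L (nat_lit 458) ln10_14_6 ln10_14_6_ok) (L (nat_lit 361) ln13_12_3 ln13_12_3_ok))))))) (M (nat_lit 393) (B (M (nat_lit 361) (B (L (nat_lit 360) ln12_12_3 ln12_12_3_ok) (L (nat_lit 362) ln13_12_3 ln13_12_3_ok))) (M (nat_lit 365) (B (L (nat_lit 364) ln9_12_2 ln9_12_2_ok) (L (nat_lit 366) ln10_12_2 ln10_12_2_ok))))))))))))))))))) (nat_lit 1386334847625274590620718346058774170593877385197531429766632433739017388146079478836171214377304710078725756107305604783525593088) (nat_lit 15983352582827860201767699891148855720700100543071153892187009272001472596296753922978820407204996317776855892633164210962346016837072971373597425664) (nat_lit 15983352582827860201767699891148855720700100543071153892187009272001472596296753922978820407204996317776855892633164210962346016837072971373597425664) (by decide +kernel)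
theorem c11_s17337 : Sem (nat_lit 1386334847463883973240286559205279222343689143051924817714805964187101178362289002460118639712951875498717141642561656535228874752) (nat_lit 15983352582827860201767699893246933746645713772166588219439456419894358552970498027153731134394272510665539363269751060502458004878744298601454764032) (nat_lit 15983352582827860201767699893246933746645713772166588219439456419894358552970498027153731134394272510665539363269751060502458004878744298601454764032) :=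
  sem_of_chk (M (nat_lit 396) (B (M (nat_lit 394) (B (M (nat_lit 393) (B (L (nat_lit 428) ln9_12_0 ln9_12_0_ok) (M (nat_lit 425) (B (L (nat_lit 424) ln12_12_1 ln12_12_1_ok) (L (nat_lit 426) ln13_12_1 ln13_12_1_ok))))) (B (M (nat_lit 398) (B (M (nat_lit 362) (B (L (nat_lit 361) ln13_12_3 ln13_12_3_ok) (L (nat_lit 363) ln14_12_3 ln14_12_3_ok))) (M (nat_lit 426) (B (L (nat_lit 425) ln13_12_1 ln13_12_1_ok) (L (nat_lit 427) ln14_12_1 ln14_12_1_ok))))) (M (nat_lit 393) (B (L (nat_lit 428) ln9_12_0 ln9_12_0_ok) (M (nat_lit 361) (B (L (nat_lit 360) ln12_12_3 ln12_12_3_ok) (L (nat_lit 362) ln13_12_3 ln13_12_3_ok)))))))) (B (M (nat_lit 394) (B (M (nat_lit 393) (B (L (nat_lit 428) ln9_12_0 ln9_12_0_ok) (M (nat_lit 425) (B (L (nat_lit 424) ln12_12_1 ln12_12_1_ok) (L (nat_lit 426) ln13_12_1 ln13_12_1_ok))))) (B (M (nat_lit 398) (B (M (nat_lit 362) (B (L (nat_lit 361) ln13_12_3 ln13_12_3_ok) (L (nat_lit 363) ln14_12_3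 ln14_12_3_ok))) (M (nat_lit 426) (B (L (nat_lit 425) ln13_12_1 ln13_12_1_ok) (L (nat_lit 427) ln14_12_1 ln14_12_1_ok))))) (M (nat_lit 393) (B (L (nat_lit 428) ln9_12_0 ln9_12_0_ok) (M (nat_lit 365) (B (L (nat_lit 364) ln9_12_2 ln9_12_2_ok) (L (nat_lit 366) ln10_12_2 ln10_12_2_ok)))))))) (B (M (nat_lit 394) (B (M (nat_lit 393) (B (L (nat_lit 428) ln9_12_0 ln9_12_0_ok) (M (nat_lit 425) (B (L (nat_lit 424) ln12_12_1 ln12_12_1_ok) (L (nat_lit 426) ln13_12_1 ln13_12_1_ok))))) (B (M (nat_lit 398) (B (M (nat_lit 366) (B (L (nat_lit 365) ln10_12_2 ln10_12_2_ok) (L (nat_lit 367) ln11_12_2 ln11_12_2_ok))) (M (nat_lit 426) (B (L (nat_lit 425) ln13_12_1 ln13_12_1_ok) (L (nat_lit 427) ln14_12_1 ln14_12_1_ok))))) (M (nat_lit 393) (B (L (nat_lit 428) ln9_12_0 ln9_12_0_ok) (M (nat_lit 365) (B (L (nat_lit 364) ln9_12_2 ln9_12_2_ok) (L (nat_lit 366) ln10_12_2 ln10_12_2_ok)))))))) (B (M (nat_lit 398) (B (M (nat_lit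 394) (B (M (nat_lit 362) (B (L (nat_lit 361) ln13_12_3 ln13_12_3_ok) (L (nat_lit 363) ln14_12_3 ln14_12_3_ok))) (M (nat_lit 426) (B (L (nat_lit 425) ln13_12_1 ln13_12_1_ok) (L (nat_lit 427) ln14_12_1 ln14_12_1_ok))))) (B (M (nat_lit 394) (B (M (nat_lit 366) (B (L (nat_lit 365) ln10_12_2 ln10_12_2_ok) (L (nat_lit 367) ln11_12_2 ln11_12_2_ok))) (M (nat_lit 426) (B (L (nat_lit 425) ln13_12_1 ln13_12_1_ok) (L (nat_lit 427) ln14_12_1 ln14_12_1_ok))))) (M (nat_lit 363) (B (L (nat_lit 362) ln14_12_3 ln14_12_3_ok) (M (nat_lit 399) (B (L (nat_lit 364) ln15_12_3 ln15_12_3_ok) (M (nat_lit 367) (B (L (nat_lit 366) ln11_12_2 ln11_12_2_ok) (L (nat_lit 368) ln12_12_2 ln12_12_2_ok)))))))))) (B c11_n17228 (B (K (nat_lit 1386334847625274590620718346058774170593877385197531429766632433739017388146079478836171214377304710078725756107305604783525593088) (nat_lit 15983352582827860201767699891148855720700100543071153892187009272001472596296753922978820407204996317776855892633164210962346016837072971373597425664)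 (nat_lit 15983352582827860201767699891148855720700100543071153892187009272001472596296753922978820407204996317776855892633164210962346016837072971373597425664) c11_s17336) (M (nat_lit 394) (B (M (nat_lit 393) (B (L (nat_lit 428) ln9_12_0 ln9_12_0_ok) (M (nat_lit 365) (B (L (nat_lit 364) ln9_12_2 ln9_12_2_ok) (L (nat_lit 366) ln10_12_2 ln10_12_2_ok))))) (B (M (nat_lit 393) (B (L (nat_lit 428) ln9_12_0 ln9_12_0_ok) (M (nat_lit 361) (B (L (nat_lit 360) ln12_12_3 ln12_12_3_ok) (L (nat_lit 362) ln13_12_3 ln13_12_3_ok))))) (M (nat_lit 398) (B (M (nat_lit 362) (B (L (nat_lit 361) ln13_12_3 ln13_12_3_ok) (L (nat_lit 363) ln14_12_3 ln14_12_3_ok))) (M (nat_lit 366) (B (L (nat_lit 365) ln10_12_2 ln10_12_2_ok) (L (nat_lit 367) ln11_12_2 ln11_12_2_ok))))))))))))))) (nat_lit 1386334847463883973240286559205279222343689143051924817714805964187101178362289002460118639712951875498717141642561656535228874752) (nat_lit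 15983352582827860201767699893246933746645713772166588219439456419894358552970498027153731134394272510665539363269751060502458004878744298601454764032) (nat_lit 15983352582827860201767699893246933746645713772166588219439456419894358552970498027153731134394272510665539363269751060502458004878744298601454764032) (by decide +kernel)
theorem c11_s17338 : Sem (nat_lit 1386334847383188664550070665778531748218595021979121511688892729411143073470393764272092352380775458208712834410189682411080515584) (nat_lit 294840814535290085409675016688369490010006761836891318320190637773279070090216480570706476448734155378775976605999483490209402312980309785204871048320525849876097925120) (nat_lit 294840814535290085409675016688369490010006761836891318320190637773279070090216480570706476448734155378775976605999483490209402312980309785204871048320525849876097925120) :=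
  sem_of_chk (M (nat_lit 395) (B c11_n14966 (B (M (nat_lit 396) (B (M (nat_lit 430) (B (L (nat_lit 394) ln10_12_0 ln10_12_0_ok) (M (nat_lit 431) (B (L (nat_lit 398) ln11_12_0 ln11_12_0_ok) (L (nat_lit 432) ln16_13_3 ln16_13_3_ok))))) (B (M (nat_lit 398) (B (M (nat_lit 399) (B (M (nat_lit 363) (B (L (nat_lit 362) ln14_12_3 ln14_12_3_ok) (L (nat_lit 364) ln15_12_3 ln15_12_3_ok))) (M (nat_lit 431) (B (L (nat_lit 430) ln11_12_0 ln11_12_0_ok) (L (nat_lit 432) ln12_12_0 ln12_12_0_ok))))) (B (M (nat_lit 399) (B (M (nat_lit 367) (B (L (nat_lit 366) ln11_12_2 ln11_12_2_ok) (L (nat_lit 368) ln12_12_2 ln12_12_2_ok))) (M (nat_lit 431) (B (L (nat_lit 430) ln11_12_0 ln11_12_0_ok) (L (nat_lit 432) ln12_12_0 ln12_12_0_ok))))) (B (M (nat_lit 427) (B (L (nat_lit 426) ln14_12_1 ln14_12_1_ok) (M (nat_lit 428) (B (M (nat_lit 363) (B (L (nat_lit 362) ln14_12_3 ln14_12_3_ok) (M (nat_lit 460) (B (L (nat_lit 331) ln11_10_4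 ln11_10_4_ok) (L (nat_lit 492) ln12_15_7 ln12_15_7_ok))))) (M (nat_lit 459) (B (M (nat_lit 364) (B (L (nat_lit 332) ln12_10_5 ln12_10_5_ok) (L (nat_lit 491) ln11_15_6 ln11_15_6_ok))) (M (nat_lit 430) (B (L (nat_lit 431) ln11_12_0 ln11_12_0_ok) (L (nat_lit 458) ln14_13_1 ln14_13_1_ok))))))))) (M (nat_lit 363) (B (L (nat_lit 362) ln14_12_3 ln14_12_3_ok) (M (nat_lit 399) (B (L (nat_lit 364) ln15_12_3 ln15_12_3_ok) (M (nat_lit 367) (B (L (nat_lit 366) ln11_12_2 ln11_12_2_ok) (L (nat_lit 368) ln12_12_2 ln12_12_2_ok))))))))))) (B (M (nat_lit 430) (B (L (nat_lit 394) ln10_12_0 ln10_12_0_ok) (M (nat_lit 431) (B (L (nat_lit 428) ln15_13_3 ln15_13_3_ok) (L (nat_lit 432) ln16_13_3 ln16_13_3_ok))))) (M (nat_lit 394) (B (M (nat_lit 393) (B (L (nat_lit 428) ln9_12_0 ln9_12_0_ok) (M (nat_lit 425) (B (L (nat_lit 424) ln12_12_1 ln12_12_1_ok) (L (nat_lit 426) ln13_12_1 ln13_12_1_ok))))) (B (M (nat_lit 398) (B (M (nat_lit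 362) (B (L (nat_lit 361) ln13_12_3 ln13_12_3_ok) (L (nat_lit 363) ln14_12_3 ln14_12_3_ok))) (M (nat_lit 426) (B (L (nat_lit 425) ln13_12_1 ln13_12_1_ok) (L (nat_lit 427) ln14_12_1 ln14_12_1_ok))))) (M (nat_lit 393) (B (L (nat_lit 428) ln9_12_0 ln9_12_0_ok) (M (nat_lit 361) (B (L (nat_lit 360) ln12_12_3 ln12_12_3_ok) (L (nat_lit 362) ln13_12_3 ln13_12_3_ok)))))))))))) (B (K (nat_lit 1386334847463883973240286559205279222343689143051924817714805964187101178362289002460118639712951875498717141642561656535228874752) (nat_lit 5768192136761636030085843753491123277588424290378520276363323845241464882776372319214539552608874314847322866558884093720551058276454760448) (nat_lit 5768192136761636030085843753491123277588424290378520276363323845241464882776372319214539552608874314847322866558884093720551058276454760448) c11_s14988) (B (K (nat_lit 1386334847463883973240286559205279222343689143051924817714805964187101178362289002460118639712951875498717141642561656535228874752)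 (nat_lit 58968162901566178958625521310244423290305583223556202939301051585692129749930162845811833075816689955613448067754299708494234091850130162161119247048613430398715691008) (nat_lit 58968162901566178958625521310244423290305583223556202939301051585692129749930162845811833075816689955613448067754299708494234091850130162161119247048613430398715691008) c11_s15003) (B (K (nat_lit 1386334847463883973240286559205279222343689143051924817714805964187101178362289002460118639712951875498717141642561656535228874752) (nat_lit 5768192136761636030085843754374175288711385584064964980756114567534721521165900590600480957904984908290415641301234917113224090616462311424) (nat_lit 5768192136761636030085843754374175288711385584064964980756114567534721521165900590600480957904984908290415641301234917113224090616462311424) c11_s15005) (B (K (nat_lit 1386334847463883973240286559205279222343689143051924817714805964187101178362289002460118639712951875498717141642561656535228874752)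 (nat_lit 13729595329851230982302721869728689154549321245824189355879938467706771117819406963514677778511310787300064490665808182621810710763409450185981616542921523200) (nat_lit 13729595329851230982302721869728689154549321245824189355879938467706771117819406963514677778511310787300064490665808182621810710763409450185981616542921523200) c11_s15034) (B c11_n15043 (B (M (nat_lit 396) (B (M (nat_lit 430) (B (L (nat_lit 394) ln10_12_0 ln10_12_0_ok) (M (nat_lit 431) (B (L (nat_lit 398) ln11_12_0 ln11_12_0_ok) (L (nat_lit 432) ln16_13_3 ln16_13_3_ok))))) (B (M (nat_lit 398) (B (M (nat_lit 399) (B (M (nat_lit 427) (B (L (nat_lit 426) ln14_12_1 ln14_12_1_ok) (L (nat_lit 428) ln15_12_1 ln15_12_1_ok))) (M (nat_lit 431) (B (L (nat_lit 430) ln11_12_0 ln11_12_0_ok) (L (nat_lit 432) ln12_12_0 ln12_12_0_ok))))) (B (M (nat_lit 428) (B (M (nat_lit 427) (B (L (nat_lit 426) ln14_12_1 ln14_12_1_ok) (M (nat_lit 363) (B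 (L (nat_lit 362) ln14_12_3 ln14_12_3_ok) (M (nat_lit 331) (B (L (nat_lit 299) ln11_9_4 ln11_9_4_ok) (L (nat_lit 460) ln11_10_4 ln11_10_4_ok))))))) (B (M (nat_lit 427) (B (L (nat_lit 426) ln14_12_1 ln14_12_1_ok) (M (nat_lit 363) (B (L (nat_lit 362) ln14_12_3 ln14_12_3_ok) (M (nat_lit 460) (B (L (nat_lit 331) ln11_10_4 ln11_10_4_ok) (L (nat_lit 492) ln12_15_7 ln12_15_7_ok))))))) (B (M (nat_lit 427) (B (L (nat_lit 426) ln14_12_1 ln14_12_1_ok) (M (nat_lit 459) (B (M (nat_lit 364) (B (L (nat_lit 332) ln12_10_5 ln12_10_5_ok) (L (nat_lit 491) ln11_15_6 ln11_15_6_ok))) (M (nat_lit 430) (B (L (nat_lit 431) ln11_12_0 ln11_12_0_ok) (L (nat_lit 458) ln14_13_1 ln14_13_1_ok))))))) (B (M (nat_lit 363) (B (L (nat_lit 362) ln14_12_3 ln14_12_3_ok) (M (nat_lit 460) (B (L (nat_lit 492) ln12_15_7 ln12_15_7_ok) (M (nat_lit 331) (B (L (nat_lit 299) ln11_9_4 ln11_9_4_ok) (L (nat_lit 427) ln11_10_4 ln11_10_4_ok))))))) (M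 (nat_lit 363) (B (L (nat_lit 362) ln14_12_3 ln14_12_3_ok) (M (nat_lit 460) (B (L (nat_lit 492) ln12_15_7 ln12_15_7_ok) (M (nat_lit 331) (B (L (nat_lit 299) ln11_9_4 ln11_9_4_ok) (L (nat_lit 364) ln12_14_7 ln12_14_7_ok)))))))))))) (B (M (nat_lit 399) (B (M (nat_lit 363) (B (L (nat_lit 362) ln14_12_3 ln14_12_3_ok) (L (nat_lit 364) ln15_12_3 ln15_12_3_ok))) (M (nat_lit 431) (B (L (nat_lit 430) ln11_12_0 ln11_12_0_ok) (L (nat_lit 432) ln12_12_0 ln12_12_0_ok))))) (M (nat_lit 363) (B (L (nat_lit 362) ln14_12_3 ln14_12_3_ok) (M (nat_lit 399) (B (L (nat_lit 364) ln15_12_3 ln15_12_3_ok) (M (nat_lit 367) (B (L (nat_lit 366) ln11_12_2 ln11_12_2_ok) (L (nat_lit 368) ln12_12_2 ln12_12_2_ok))))))))))) (B (M (nat_lit 430) (B (L (nat_lit 394) ln10_12_0 ln10_12_0_ok) (M (nat_lit 431) (B (L (nat_lit 428) ln15_13_3 ln15_13_3_ok) (L (nat_lit 432) ln16_13_3 ln16_13_3_ok))))) (M (nat_lit 398) (B (M (nat_lit 394) (B (M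 (nat_lit 366) (B (L (nat_lit 365) ln10_12_2 ln10_12_2_ok) (L (nat_lit 367) ln11_12_2 ln11_12_2_ok))) (M (nat_lit 426) (B (L (nat_lit 425) ln13_12_1 ln13_12_1_ok) (L (nat_lit 427) ln14_12_1 ln14_12_1_ok))))) (B (M (nat_lit 399) (B (M (nat_lit 363) (B (L (nat_lit 362) ln14_12_3 ln14_12_3_ok) (L (nat_lit 364) ln15_12_3 ln15_12_3_ok))) (M (nat_lit 427) (B (L (nat_lit 426) ln14_12_1 ln14_12_1_ok) (L (nat_lit 428) ln15_12_1 ln15_12_1_ok))))) (M (nat_lit 363) (B (L (nat_lit 362) ln14_12_3 ln14_12_3_ok) (M (nat_lit 399) (B (L (nat_lit 364) ln15_12_3 ln15_12_3_ok) (M (nat_lit 367) (B (L (nat_lit 366) ln11_12_2 ln11_12_2_ok) (L (nat_lit 368) ln12_12_2 ln12_12_2_ok)))))))))))))) (B (K (nat_lit 1386334847463883973240286559205279222343689143051924817714805964187101178362289002460118639712951875498717141642561656535228874752) (nat_lit 68647976623682790764066161728655858823115543767053575053736287190423893686950921764022563077115427616002363730029676350427522654075324231405570840190871666688)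 (nat_lit 68647976623682790764066161728655858823115543767053575053736287190423893686950921764022563077115427616002363730029676350427522654075324231405570840190871666688) c11_s16097) (B (K (nat_lit 1386334847463883973240286559205279222343689143051924817714805964187101178362289002460118639712951875498717141642561656535228874752) (nat_lit 294840814535290085408076681430607701987496061091019450055999081185074275633610115994226315097034821232399820063424580180281859253164137991760088496391200507851649843200) (nat_lit 294840814535290085408076681430607701987496061091019450055999081185074275633610115994226315097034821232399820063424580180281859253164137991760088496391200507851649843200) c11_s16527) (B c11_n16689 (B (M (nat_lit 396) (B (M (nat_lit 430) (B (L (nat_lit 394) ln10_12_0 ln10_12_0_ok) (M (nat_lit 431) (B (L (nat_lit 428) ln15_13_3 ln15_13_3_ok) (L (nat_lit 432) ln16_13_3 ln16_13_3_ok))))) (B (M (nat_lit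 398) (B (M (nat_lit 399) (B (M (nat_lit 363) (B (L (nat_lit 362) ln14_12_3 ln14_12_3_ok) (L (nat_lit 364) ln15_12_3 ln15_12_3_ok))) (M (nat_lit 431) (B (L (nat_lit 430) ln11_12_0 ln11_12_0_ok) (L (nat_lit 432) ln12_12_0 ln12_12_0_ok))))) (B (M (nat_lit 399) (B (M (nat_lit 367) (B (L (nat_lit 366) ln11_12_2 ln11_12_2_ok) (L (nat_lit 368) ln12_12_2 ln12_12_2_ok))) (M (nat_lit 431) (B (L (nat_lit 430) ln11_12_0 ln11_12_0_ok) (L (nat_lit 432) ln12_12_0 ln12_12_0_ok))))) (B (M (nat_lit 366) (B (L (nat_lit 367) ln11_12_2 ln11_12_2_ok) (M (nat_lit 334) (B (L (nat_lit 302) ln14_9_5 ln14_9_5_ok) (M (nat_lit 333) (B (M (nat_lit 430) (B (L (nat_lit 301) ln14_13_7 ln14_13_7_ok) (L (nat_lit 431) ln11_12_0 ln11_12_0_ok))) (B (M (nat_lit 363) (B (L (nat_lit 362) ln14_12_3 ln14_12_3_ok) (M (nat_lit 335) (B (M (nat_lit 430) (B (L (nat_lit 303) ln14_13_6 ln14_13_6_ok) (L (nat_lit 431) ln11_12_0 ln11_12_0_ok))) (M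 (nat_lit 364) (B (L (nat_lit 332) ln15_10_1 ln15_10_1_ok) (L (nat_lit 365) ln11_11_2 ln11_11_2_ok))))))) (M (nat_lit 364) (B (M (nat_lit 363) (B (L (nat_lit 362) ln14_12_3 ln14_12_3_ok) (M (nat_lit 332) (B (L (nat_lit 300) ln12_9_4 ln12_9_4_ok) (L (nat_lit 335) ln15_10_1 ln15_10_1_ok))))) (B (M (nat_lit 363) (B (L (nat_lit 362) ln14_12_3 ln14_12_3_ok) (M (nat_lit 335) (B (L (nat_lit 332) ln15_10_1 ln15_10_1_ok) (L (nat_lit 365) ln11_11_2 ln11_11_2_ok))))) (B (M (nat_lit 365) (B (M (nat_lit 301) (B (L (nat_lit 269) ln13_8_5 ln13_8_5_ok) (L (nat_lit 428) ln13_9_5 ln13_9_5_ok))) (M (nat_lit 363) (B (L (nat_lit 362) ln10_11_2 ln10_11_2_ok) (L (nat_lit 335) ln11_11_2 ln11_11_2_ok))))) (M (nat_lit 301) (B (M (nat_lit 269) (B (L (nat_lit 237) ln13_7_4 ln13_7_4_ok) (L (nat_lit 365) ln13_8_5 ln13_8_5_ok))) (B (M (nat_lit 365) (B (L (nat_lit 269) ln13_8_5 ln13_8_5_ok) (L (nat_lit 428) ln13_9_5 ln13_9_5_ok)))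 (B (M (nat_lit 428) (B (L (nat_lit 332) ln12_13_6 ln12_13_6_ok) (L (nat_lit 365) ln13_9_5 ln13_9_5_ok))) (M (nat_lit 332) (B (L (nat_lit 300) ln12_9_4 ln12_9_4_ok) (L (nat_lit 428) ln12_13_6 ln12_13_6_ok)))))))))))))))))) (M (nat_lit 363) (B (L (nat_lit 362) ln14_12_3 ln14_12_3_ok) (M (nat_lit 399) (B (L (nat_lit 364) ln15_12_3 ln15_12_3_ok) (M (nat_lit 367) (B (L (nat_lit 366) ln11_12_2 ln11_12_2_ok) (L (nat_lit 368) ln12_12_2 ln12_12_2_ok))))))))))) (B (M (nat_lit 430) (B (L (nat_lit 394) ln10_12_0 ln10_12_0_ok) (M (nat_lit 431) (B (L (nat_lit 398) ln11_12_0 ln11_12_0_ok) (L (nat_lit 432) ln16_13_3 ln16_13_3_ok))))) (M (nat_lit 394) (B (M (nat_lit 393) (B (L (nat_lit 428) ln9_12_0 ln9_12_0_ok) (M (nat_lit 365) (B (L (nat_lit 364) ln9_12_2 ln9_12_2_ok) (L (nat_lit 366) ln10_12_2 ln10_12_2_ok))))) (B (M (nat_lit 393) (B (L (nat_lit 428) ln9_12_0 ln9_12_0_ok) (M (nat_lit 361) (B (L (nat_lit 360) ln12_12_3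 ln12_12_3_ok) (L (nat_lit 362) ln13_12_3 ln13_12_3_ok))))) (M (nat_lit 398) (B (M (nat_lit 362) (B (L (nat_lit 361) ln13_12_3 ln13_12_3_ok) (L (nat_lit 363) ln14_12_3 ln14_12_3_ok))) (M (nat_lit 366) (B (L (nat_lit 365) ln10_12_2 ln10_12_2_ok) (L (nat_lit 367) ln11_12_2 ln11_12_2_ok)))))))))))) (B (K (nat_lit 1386334847463883973240286559205279222343689143051924817714805964187101178362289002460118639712951875498717141642561656535228874752) (nat_lit 58968162983943750892979519951563324918069130568550151330030823260716509214461295556556725212231394985760279814048179115525994073697690958874108378213157988325524504576) (nat_lit 58968162983943750892979519951563324918069130568550151330030823260716509214461295556556725212231394985760279814048179115525994073697690958874108378213157988325524504576) c11_s17214) (K (nat_lit 1386334847463883973240286559205279222343689143051924817714805964187101178362289002460118639712951875498717141642561656535228874752)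 (nat_lit 15983352582827860201767699893246933746645713772166588219439456419894358552970498027153731134394272510665539363269751060502458004878744298601454764032) (nat_lit 15983352582827860201767699893246933746645713772166588219439456419894358552970498027153731134394272510665539363269751060502458004878744298601454764032) c11_s17337))))))))))))))) (nat_lit 1386334847383188664550070665778531748218595021979121511688892729411143073470393764272092352380775458208712834410189682411080515584) (nat_lit 294840814535290085409675016688369490010006761836891318320190637773279070090216480570706476448734155378775976605999483490209402312980309785204871048320525849876097925120) (nat_lit 294840814535290085409675016688369490010006761836891318320190637773279070090216480570706476448734155378775976605999483490209402312980309785204871048320525849876097925120) (by decide +kernel)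
noncomputable def c11_n17411 : Cert := (M (nat_lit 366) (B (M (nat_lit 334) (B (L (nat_lit 461) ln13_14_6 ln13_14_6_ok) (M (nat_lit 302) (B (L (nat_lit 270) ln14_8_5 ln14_8_5_ok) (L (nat_lit 398) ln14_9_5 ln14_9_5_ok))))) (B (M (nat_lit 461) (B (L (nat_lit 334) ln13_14_6 ln13_14_6_ok) (M (nat_lit 493) (B (L (nat_lit 398) ln13_15_6 ln13_15_6_ok) (M (nat_lit 492) (B (L (nat_lit 460) ln13_11_5 ln13_11_5_ok) (L (nat_lit 524) ln13_12_5 ln13_12_5_ok))))))) (B (M (nat_lit 364) (B (M (nat_lit 461) (B (L (nat_lit 332) ln13_14_7 ln13_14_7_ok) (M (nat_lit 493) (B (L (nat_lit 396) ln13_15_7 ln13_15_7_ok) (L (nat_lit 398) ln13_15_6 ln13_15_6_ok))))) (B (M (nat_lit 396) (B (M (nat_lit 367) (B (L (nat_lit 395) ln15_11_1 ln15_11_1_ok) (L (nat_lit 368) ln16_11_1 ln16_11_1_ok))) (M (nat_lit 363) (B (M (nat_lit 362) (B (L (nat_lit 361) ln9_11_0 ln9_11_0_ok) (L (nat_lit 398) ln10_11_0 ln10_11_0_ok))) (B (M (nat_lit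 398) (B (L (nat_lit 362) ln10_11_0 ln10_11_0_ok) (L (nat_lit 399) ln11_11_0 ln11_11_0_ok))) (M (nat_lit 460) (B (M (nat_lit 331) (B (L (nat_lit 330) ln14_11_3 ln14_11_3_ok) (L (nat_lit 428) ln12_14_7 ln12_14_7_ok))) (B (M (nat_lit 428) (B (L (nat_lit 331) ln12_14_7 ln12_14_7_ok) (L (nat_lit 492) ln12_15_6 ln12_15_6_ok))) (M (nat_lit 461) (B (L (nat_lit 493) ln13_15_7 ln13_15_7_ok) (L (nat_lit 492) ln13_11_5 ln13_11_5_ok))))))))))) (B (M (nat_lit 398) (B (M (nat_lit 363) (B (L (nat_lit 362) ln10_11_0 ln10_11_0_ok) (L (nat_lit 399) ln11_11_0 ln11_11_0_ok))) (M (nat_lit 461) (B (L (nat_lit 332) ln13_14_7 ln13_14_7_ok) (L (nat_lit 493) ln13_15_6 ln13_15_6_ok))))) (B (M (nat_lit 367) (B (M (nat_lit 332) (B (L (nat_lit 331) ln15_11_3 ln15_11_3_ok) (L (nat_lit 461) ln13_14_7 ln13_14_7_ok))) (M (nat_lit 396) (B (L (nat_lit 395) ln15_11_1 ln15_11_1_ok) (L (nat_lit 368) ln16_11_1 ln16_11_1_ok))))) (M (nat_lit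 367) (B (M (nat_lit 396) (B (L (nat_lit 395) ln15_11_1 ln15_11_1_ok) (L (nat_lit 368) ln16_11_1 ln16_11_1_ok))) (M (nat_lit 363) (B (M (nat_lit 331) (B (L (nat_lit 330) ln14_11_3 ln14_11_3_ok) (L (nat_lit 332) ln15_11_3 ln15_11_3_ok))) (M (nat_lit 398) (B (L (nat_lit 362) ln10_11_0 ln10_11_0_ok) (L (nat_lit 399) ln11_11_0 ln11_11_0_ok)))))))))))) (B (M (nat_lit 461) (B (L (nat_lit 334) ln13_14_6 ln13_14_6_ok) (M (nat_lit 493) (B (M (nat_lit 364) (B (L (nat_lit 332) ln13_14_7 ln13_14_7_ok) (L (nat_lit 396) ln13_15_7 ln13_15_7_ok))) (M (nat_lit 492) (B (L (nat_lit 460) ln13_11_5 ln13_11_5_ok) (L (nat_lit 524) ln13_12_5 ln13_12_5_ok))))))) (M (nat_lit 367) (B (M (nat_lit 396) (B (L (nat_lit 368) ln16_11_1 ln16_11_1_ok) (M (nat_lit 395) (B (L (nat_lit 364) ln15_11_1 ln15_11_1_ok) (L (nat_lit 398) ln11_12_2 ln11_12_2_ok))))) (B (M (nat_lit 368) (B (L (nat_lit 396) ln16_11_1 ln16_11_1_ok) (M (nat_lit 369)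 (B (L (nat_lit 398) ln17_11_1 ln17_11_1_ok) (M (nat_lit 401) (B (L (nat_lit 400) ln13_11_0 ln13_11_0_ok) (L (nat_lit 402) ln14_11_0 ln14_11_0_ok))))))) (B (M (nat_lit 364) (B (M (nat_lit 332) (B (L (nat_lit 331) ln15_11_3 ln15_11_3_ok) (M (nat_lit 396) (B (L (nat_lit 300) ln12_9_4 ln12_9_4_ok) (L (nat_lit 395) ln15_11_1 ln15_11_1_ok))))) (M (nat_lit 363) (B (M (nat_lit 335) (B (L (nat_lit 334) ln11_11_2 ln11_11_2_ok) (L (nat_lit 336) ln12_11_2 ln12_11_2_ok))) (M (nat_lit 398) (B (L (nat_lit 362) ln10_11_0 ln10_11_0_ok) (L (nat_lit 399) ln11_11_0 ln11_11_0_ok))))))) (B (M (nat_lit 368) (B (M (nat_lit 369) (B (L (nat_lit 398) ln17_11_1 ln17_11_1_ok) (M (nat_lit 401) (B (L (nat_lit 400) ln13_11_0 ln13_11_0_ok) (L (nat_lit 402) ln14_11_0 ln14_11_0_ok))))) (B (M (nat_lit 364) (B (M (nat_lit 336) (B (L (nat_lit 335) ln12_11_2 ln12_11_2_ok) (L (nat_lit 337) ln13_11_2 ln13_11_2_ok))) (M (nat_lit 400) (B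 (L (nat_lit 399) ln12_11_0 ln12_11_0_ok) (L (nat_lit 401) ln13_11_0 ln13_11_0_ok))))) (M (nat_lit 369) (B (L (nat_lit 398) ln17_11_1 ln17_11_1_ok) (M (nat_lit 337) (B (L (nat_lit 336) ln13_11_2 ln13_11_2_ok) (L (nat_lit 338) ln14_11_2 ln14_11_2_ok)))))))) (M (nat_lit 396) (B (L (nat_lit 368) ln16_11_1 ln16_11_1_ok) (M (nat_lit 364) (B (L (nat_lit 395) ln15_11_1 ln15_11_1_ok) (M (nat_lit 332) (B (L (nat_lit 300) ln12_9_4 ln12_9_4_ok) (L (nat_lit 331) ln15_11_3 ln15_11_3_ok)))))))))))))))))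
theorem c11_s17421 : Sem (nat_lit 1386334847383188664550070665778531748218595021979121511688892729411143073470393764272092352380775458208712834410189682411080515584) (nat_lit 943490606589814007117209563729645190983571735652803780229945701153128605503964524618001435956464507449741889684281300202432795839214053137538535178398909076435846037504) (nat_lit 943490606589814007117209563729645190983571735652803780229945701153128605503964524618001435956464507449741889684281300202432795839214053137538535178398909076435846037504) :=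
  sem_of_chk (M (nat_lit 365) (B (M (nat_lit 333) (B (M (nat_lit 334) (B (L (nat_lit 302) ln13_13_6 ln13_13_6_ok) (M (nat_lit 461) (B (L (nat_lit 366) ln13_14_6 ln13_14_6_ok) (M (nat_lit 332) (B (L (nat_lit 300) ln13_13_7 ln13_13_7_ok) (L (nat_lit 364) ln13_14_7 ln13_14_7_ok))))))) (B (M (nat_lit 461) (B (M (nat_lit 334) (B (L (nat_lit 302) ln13_13_6 ln13_13_6_ok) (L (nat_lit 366) ln13_14_6 ln13_14_6_ok))) (M (nat_lit 460) (B (L (nat_lit 428) ln13_10_5 ln13_10_5_ok) (L (nat_lit 492) ln13_11_5 ln13_11_5_ok))))) (B (M (nat_lit 461) (B (M (nat_lit 332) (B (L (nat_lit 300) ln13_13_7 ln13_13_7_ok) (L (nat_lit 364) ln13_14_7 ln13_14_7_ok))) (M (nat_lit 460) (B (L (nat_lit 428) ln13_10_5 ln13_10_5_ok) (L (nat_lit 492) ln13_11_5 ln13_11_5_ok))))) (M (nat_lit 301) (B (M (nat_lit 300) (B (L (nat_lit 268) ln13_12_7 ln13_12_7_ok) (L (nat_lit 332) ln13_13_7 ln13_13_7_ok))) (M (nat_lit 428) (B (L (nat_lit 396)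 ln13_9_5 ln13_9_5_ok) (L (nat_lit 460) ln13_10_5 ln13_10_5_ok))))))))) (B (M (nat_lit 333) (B (M (nat_lit 334) (B (L (nat_lit 302) ln13_13_6 ln13_13_6_ok) (M (nat_lit 461) (B (L (nat_lit 366) ln13_14_6 ln13_14_6_ok) (M (nat_lit 332) (B (L (nat_lit 300) ln13_13_7 ln13_13_7_ok) (L (nat_lit 364) ln13_14_7 ln13_14_7_ok))))))) (B (M (nat_lit 461) (B (M (nat_lit 334) (B (L (nat_lit 302) ln13_13_6 ln13_13_6_ok) (L (nat_lit 366) ln13_14_6 ln13_14_6_ok))) (M (nat_lit 460) (B (L (nat_lit 428) ln13_10_5 ln13_10_5_ok) (L (nat_lit 492) ln13_11_5 ln13_11_5_ok))))) (B (M (nat_lit 461) (B (M (nat_lit 332) (B (L (nat_lit 300) ln13_13_7 ln13_13_7_ok) (L (nat_lit 364) ln13_14_7 ln13_14_7_ok))) (M (nat_lit 460) (B (L (nat_lit 428) ln13_10_5 ln13_10_5_ok) (L (nat_lit 492) ln13_11_5 ln13_11_5_ok))))) (M (nat_lit 302) (B (L (nat_lit 334) ln13_13_6 ln13_13_6_ok) (M (nat_lit 301) (B (L (nat_lit 270) ln13_12_6 ln13_12_6_ok)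 (M (nat_lit 428) (B (L (nat_lit 396) ln13_9_5 ln13_9_5_ok) (L (nat_lit 460) ln13_10_5 ln13_10_5_ok))))))))))) (B (M (nat_lit 461) (B (M (nat_lit 493) (B (M (nat_lit 364) (B (L (nat_lit 332) ln13_14_7 ln13_14_7_ok) (L (nat_lit 396) ln13_15_7 ln13_15_7_ok))) (M (nat_lit 366) (B (L (nat_lit 334) ln13_14_6 ln13_14_6_ok) (L (nat_lit 398) ln13_15_6 ln13_15_6_ok))))) (B (M (nat_lit 493) (B (M (nat_lit 366) (B (L (nat_lit 334) ln13_14_6 ln13_14_6_ok) (L (nat_lit 398) ln13_15_6 ln13_15_6_ok))) (M (nat_lit 492) (B (L (nat_lit 460) ln13_11_5 ln13_11_5_ok) (L (nat_lit 524) ln13_12_5 ln13_12_5_ok))))) (B (M (nat_lit 493) (B (M (nat_lit 364) (B (L (nat_lit 332) ln13_14_7 ln13_14_7_ok) (L (nat_lit 396) ln13_15_7 ln13_15_7_ok))) (M (nat_lit 492) (B (L (nat_lit 460) ln13_11_5 ln13_11_5_ok) (L (nat_lit 524) ln13_12_5 ln13_12_5_ok))))) (M (nat_lit 333) (B (M (nat_lit 334) (B (L (nat_lit 302) ln13_13_6 ln13_13_6_ok)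 (L (nat_lit 366) ln13_14_6 ln13_14_6_ok))) (M (nat_lit 460) (B (L (nat_lit 428) ln13_10_5 ln13_10_5_ok) (L (nat_lit 492) ln13_11_5 ln13_11_5_ok))))))))) (B (M (nat_lit 461) (B (M (nat_lit 493) (B (M (nat_lit 364) (B (L (nat_lit 332) ln13_14_7 ln13_14_7_ok) (L (nat_lit 396) ln13_15_7 ln13_15_7_ok))) (M (nat_lit 366) (B (L (nat_lit 334) ln13_14_6 ln13_14_6_ok) (L (nat_lit 398) ln13_15_6 ln13_15_6_ok))))) (B (M (nat_lit 493) (B (M (nat_lit 366) (B (L (nat_lit 334) ln13_14_6 ln13_14_6_ok) (L (nat_lit 398) ln13_15_6 ln13_15_6_ok))) (M (nat_lit 492) (B (L (nat_lit 460) ln13_11_5 ln13_11_5_ok) (L (nat_lit 524) ln13_12_5 ln13_12_5_ok))))) (B (M (nat_lit 493) (B (M (nat_lit 364) (B (L (nat_lit 332) ln13_14_7 ln13_14_7_ok) (L (nat_lit 396) ln13_15_7 ln13_15_7_ok))) (M (nat_lit 492) (B (L (nat_lit 460) ln13_11_5 ln13_11_5_ok) (L (nat_lit 524) ln13_12_5 ln13_12_5_ok))))) (M (nat_lit 460) (B (L (nat_lit 492)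 ln13_11_5 ln13_11_5_ok) (M (nat_lit 332) (B (L (nat_lit 364) ln13_14_7 ln13_14_7_ok) (M (nat_lit 333) (B (L (nat_lit 300) ln13_13_7 ln13_13_7_ok) (L (nat_lit 428) ln13_10_5 ln13_10_5_ok))))))))))) (B (M (nat_lit 333) (B (M (nat_lit 302) (B (L (nat_lit 334) ln13_13_6 ln13_13_6_ok) (M (nat_lit 301) (B (L (nat_lit 270) ln13_12_6 ln13_12_6_ok) (M (nat_lit 428) (B (L (nat_lit 396) ln13_9_5 ln13_9_5_ok) (L (nat_lit 460) ln13_10_5 ln13_10_5_ok))))))) (B (M (nat_lit 461) (B (M (nat_lit 334) (B (L (nat_lit 302) ln13_13_6 ln13_13_6_ok) (L (nat_lit 366) ln13_14_6 ln13_14_6_ok))) (M (nat_lit 460) (B (L (nat_lit 428) ln13_10_5 ln13_10_5_ok) (L (nat_lit 492) ln13_11_5 ln13_11_5_ok))))) (B (M (nat_lit 301) (B (M (nat_lit 428) (B (L (nat_lit 396) ln13_9_5 ln13_9_5_ok) (L (nat_lit 460) ln13_10_5 ln13_10_5_ok))) (M (nat_lit 269) (B (M (nat_lit 268) (B (L (nat_lit 236) ln13_11_7 ln13_11_7_ok) (L (nat_lit 300) ln13_12_7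 ln13_12_7_ok))) (M (nat_lit 398) (B (L (nat_lit 366) ln13_8_4 ln13_8_4_ok) (L (nat_lit 430) ln13_9_4 ln13_9_4_ok))))))) (M (nat_lit 301) (B (M (nat_lit 302) (B (L (nat_lit 270) ln13_12_6 ln13_12_6_ok) (L (nat_lit 334) ln13_13_6 ln13_13_6_ok))) (M (nat_lit 269) (B (M (nat_lit 268) (B (L (nat_lit 236) ln13_11_7 ln13_11_7_ok) (L (nat_lit 300) ln13_12_7 ln13_12_7_ok))) (M (nat_lit 398) (B (L (nat_lit 366) ln13_8_4 ln13_8_4_ok) (L (nat_lit 430) ln13_9_4 ln13_9_4_ok))))))))))) (B c11_n17411 (B (M (nat_lit 461) (B (M (nat_lit 493) (B (M (nat_lit 364) (B (L (nat_lit 332) ln13_14_7 ln13_14_7_ok) (L (nat_lit 396) ln13_15_7 ln13_15_7_ok))) (M (nat_lit 492) (B (L (nat_lit 460) ln13_11_5 ln13_11_5_ok) (L (nat_lit 524) ln13_12_5 ln13_12_5_ok))))) (B (M (nat_lit 493) (B (M (nat_lit 492) (B (L (nat_lit 460) ln13_11_5 ln13_11_5_ok) (L (nat_lit 524) ln13_12_5 ln13_12_5_ok))) (M (nat_lit 525) (B (M (nat_lit 396) (B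 (L (nat_lit 364) ln13_15_7 ln13_15_7_ok) (L (nat_lit 428) ln13_16_7 ln13_16_7_ok))) (M (nat_lit 526) (B (L (nat_lit 494) ln13_12_4 ln13_12_4_ok) (L (nat_lit 558) ln13_13_4 ln13_13_4_ok))))))) (B (M (nat_lit 493) (B (M (nat_lit 492) (B (L (nat_lit 460) ln13_11_5 ln13_11_5_ok) (L (nat_lit 524) ln13_12_5 ln13_12_5_ok))) (M (nat_lit 525) (B (M (nat_lit 398) (B (L (nat_lit 366) ln13_15_6 ln13_15_6_ok) (L (nat_lit 430) ln13_16_6 ln13_16_6_ok))) (M (nat_lit 526) (B (L (nat_lit 494) ln13_12_4 ln13_12_4_ok) (L (nat_lit 558) ln13_13_4 ln13_13_4_ok))))))) (B (M (nat_lit 493) (B (M (nat_lit 364) (B (L (nat_lit 332) ln13_14_7 ln13_14_7_ok) (L (nat_lit 396) ln13_15_7 ln13_15_7_ok))) (M (nat_lit 525) (B (M (nat_lit 398) (B (L (nat_lit 366) ln13_15_6 ln13_15_6_ok) (L (nat_lit 430) ln13_16_6 ln13_16_6_ok))) (M (nat_lit 526) (B (L (nat_lit 494) ln13_12_4 ln13_12_4_ok) (L (nat_lit 558) ln13_13_4 ln13_13_4_ok)))))))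 (M (nat_lit 460) (B (L (nat_lit 492) ln13_11_5 ln13_11_5_ok) (M (nat_lit 332) (B (L (nat_lit 364) ln13_14_7 ln13_14_7_ok) (M (nat_lit 333) (B (L (nat_lit 300) ln13_13_7 ln13_13_7_ok) (L (nat_lit 428) ln13_10_5 ln13_10_5_ok)))))))))))) (B (M (nat_lit 333) (B (M (nat_lit 302) (B (L (nat_lit 334) ln13_13_6 ln13_13_6_ok) (M (nat_lit 301) (B (L (nat_lit 270) ln13_12_6 ln13_12_6_ok) (M (nat_lit 428) (B (L (nat_lit 396) ln13_9_5 ln13_9_5_ok) (L (nat_lit 460) ln13_10_5 ln13_10_5_ok))))))) (B (M (nat_lit 301) (B (M (nat_lit 300) (B (L (nat_lit 268) ln13_12_7 ln13_12_7_ok) (L (nat_lit 332) ln13_13_7 ln13_13_7_ok))) (M (nat_lit 428) (B (L (nat_lit 396) ln13_9_5 ln13_9_5_ok) (L (nat_lit 460) ln13_10_5 ln13_10_5_ok))))) (B (M (nat_lit 461) (B (M (nat_lit 332) (B (L (nat_lit 300) ln13_13_7 ln13_13_7_ok) (L (nat_lit 364) ln13_14_7 ln13_14_7_ok))) (M (nat_lit 460) (B (L (nat_lit 428) ln13_10_5 ln13_10_5_ok) (L (nat_lit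 492) ln13_11_5 ln13_11_5_ok))))) (M (nat_lit 301) (B (M (nat_lit 300) (B (L (nat_lit 268) ln13_12_7 ln13_12_7_ok) (L (nat_lit 332) ln13_13_7 ln13_13_7_ok))) (M (nat_lit 302) (B (L (nat_lit 270) ln13_12_6 ln13_12_6_ok) (L (nat_lit 334) ln13_13_6 ln13_13_6_ok))))))))) (B (M (nat_lit 333) (B (M (nat_lit 334) (B (L (nat_lit 302) ln13_13_6 ln13_13_6_ok) (M (nat_lit 461) (B (L (nat_lit 366) ln13_14_6 ln13_14_6_ok) (M (nat_lit 332) (B (L (nat_lit 300) ln13_13_7 ln13_13_7_ok) (L (nat_lit 364) ln13_14_7 ln13_14_7_ok))))))) (B (M (nat_lit 461) (B (M (nat_lit 334) (B (L (nat_lit 302) ln13_13_6 ln13_13_6_ok) (L (nat_lit 366) ln13_14_6 ln13_14_6_ok))) (M (nat_lit 460) (B (L (nat_lit 428) ln13_10_5 ln13_10_5_ok) (L (nat_lit 492) ln13_11_5 ln13_11_5_ok))))) (B (M (nat_lit 461) (B (M (nat_lit 332) (B (L (nat_lit 300) ln13_13_7 ln13_13_7_ok) (L (nat_lit 364) ln13_14_7 ln13_14_7_ok))) (M (nat_lit 460) (B (L (nat_lit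 428) ln13_10_5 ln13_10_5_ok) (L (nat_lit 492) ln13_11_5 ln13_11_5_ok))))) (M (nat_lit 301) (B (M (nat_lit 300) (B (L (nat_lit 268) ln13_12_7 ln13_12_7_ok) (L (nat_lit 332) ln13_13_7 ln13_13_7_ok))) (M (nat_lit 302) (B (L (nat_lit 270) ln13_12_6 ln13_12_6_ok) (L (nat_lit 334) ln13_13_6 ln13_13_6_ok))))))))) (B (M (nat_lit 461) (B (M (nat_lit 493) (B (M (nat_lit 366) (B (L (nat_lit 334) ln13_14_6 ln13_14_6_ok) (L (nat_lit 398) ln13_15_6 ln13_15_6_ok))) (M (nat_lit 492) (B (L (nat_lit 460) ln13_11_5 ln13_11_5_ok) (L (nat_lit 524) ln13_12_5 ln13_12_5_ok))))) (B (M (nat_lit 493) (B (M (nat_lit 364) (B (L (nat_lit 332) ln13_14_7 ln13_14_7_ok) (L (nat_lit 396) ln13_15_7 ln13_15_7_ok))) (M (nat_lit 492) (B (L (nat_lit 460) ln13_11_5 ln13_11_5_ok) (L (nat_lit 524) ln13_12_5 ln13_12_5_ok))))) (B (M (nat_lit 493) (B (M (nat_lit 364) (B (L (nat_lit 332) ln13_14_7 ln13_14_7_ok) (L (nat_lit 396) ln13_15_7 ln13_15_7_ok)))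 (M (nat_lit 366) (B (L (nat_lit 334) ln13_14_6 ln13_14_6_ok) (L (nat_lit 398) ln13_15_6 ln13_15_6_ok))))) (M (nat_lit 333) (B (M (nat_lit 332) (B (L (nat_lit 300) ln13_13_7 ln13_13_7_ok) (L (nat_lit 364) ln13_14_7 ln13_14_7_ok))) (M (nat_lit 334) (B (L (nat_lit 302) ln13_13_6 ln13_13_6_ok) (L (nat_lit 366) ln13_14_6 ln13_14_6_ok))))))))) (B (M (nat_lit 333) (B (M (nat_lit 301) (B (M (nat_lit 300) (B (L (nat_lit 268) ln13_12_7 ln13_12_7_ok) (L (nat_lit 332) ln13_13_7 ln13_13_7_ok))) (M (nat_lit 302) (B (L (nat_lit 270) ln13_12_6 ln13_12_6_ok) (L (nat_lit 334) ln13_13_6 ln13_13_6_ok))))) (B (M (nat_lit 334) (B (L (nat_lit 302) ln13_13_6 ln13_13_6_ok) (M (nat_lit 461) (B (L (nat_lit 366) ln13_14_6 ln13_14_6_ok) (M (nat_lit 332) (B (L (nat_lit 300) ln13_13_7 ln13_13_7_ok) (L (nat_lit 364) ln13_14_7 ln13_14_7_ok))))))) (B (M (nat_lit 301) (B (M (nat_lit 302) (B (L (nat_lit 270) ln13_12_6 ln13_12_6_ok)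 (L (nat_lit 334) ln13_13_6 ln13_13_6_ok))) (M (nat_lit 269) (B (M (nat_lit 396) (B (L (nat_lit 364) ln13_8_5 ln13_8_5_ok) (L (nat_lit 428) ln13_9_5 ln13_9_5_ok))) (M (nat_lit 398) (B (L (nat_lit 366) ln13_8_4 ln13_8_4_ok) (L (nat_lit 430) ln13_9_4 ln13_9_4_ok))))))) (M (nat_lit 301) (B (M (nat_lit 300) (B (L (nat_lit 268) ln13_12_7 ln13_12_7_ok) (L (nat_lit 332) ln13_13_7 ln13_13_7_ok))) (M (nat_lit 269) (B (M (nat_lit 396) (B (L (nat_lit 364) ln13_8_5 ln13_8_5_ok) (L (nat_lit 428) ln13_9_5 ln13_9_5_ok))) (M (nat_lit 398) (B (L (nat_lit 366) ln13_8_4 ln13_8_4_ok) (L (nat_lit 430) ln13_9_4 ln13_9_4_ok))))))))))) (M (nat_lit 333) (B (M (nat_lit 301) (B (M (nat_lit 300) (B (L (nat_lit 268) ln13_12_7 ln13_12_7_ok) (L (nat_lit 332) ln13_13_7 ln13_13_7_ok))) (M (nat_lit 302) (B (L (nat_lit 270) ln13_12_6 ln13_12_6_ok) (L (nat_lit 334) ln13_13_6 ln13_13_6_ok))))) (B (M (nat_lit 302) (B (L (nat_lit 334)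 ln13_13_6 ln13_13_6_ok) (M (nat_lit 301) (B (L (nat_lit 270) ln13_12_6 ln13_12_6_ok) (M (nat_lit 428) (B (L (nat_lit 396) ln13_9_5 ln13_9_5_ok) (L (nat_lit 460) ln13_10_5 ln13_10_5_ok))))))) (B (M (nat_lit 301) (B (M (nat_lit 300) (B (L (nat_lit 268) ln13_12_7 ln13_12_7_ok) (L (nat_lit 332) ln13_13_7 ln13_13_7_ok))) (M (nat_lit 428) (B (L (nat_lit 396) ln13_9_5 ln13_9_5_ok) (L (nat_lit 460) ln13_10_5 ln13_10_5_ok))))) (M (nat_lit 332) (B (L (nat_lit 300) ln13_13_7 ln13_13_7_ok) (M (nat_lit 334) (B (L (nat_lit 302) ln13_13_6 ln13_13_6_ok) (M (nat_lit 331) (B (M (nat_lit 366) (B (L (nat_lit 330) ln10_10_0 ln10_10_0_ok) (L (nat_lit 367) ln11_10_0 ln11_10_0_ok))) (B (M (nat_lit 335) (B (M (nat_lit 363) (B (L (nat_lit 362) ln14_10_1 ln14_10_1_ok) (L (nat_lit 364) ln15_10_1 ln15_10_1_ok))) (M (nat_lit 367) (B (L (nat_lit 366) ln11_10_0 ln11_10_0_ok) (L (nat_lit 368) ln12_10_0 ln12_10_0_ok))))) (M (nat_lit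 330) (B (M (nat_lit 298) (B (L (nat_lit 297) ln13_10_3 ln13_10_3_ok) (L (nat_lit 299) ln14_10_3 ln14_10_3_ok))) (M (nat_lit 362) (B (L (nat_lit 361) ln13_10_1 ln13_10_1_ok) (L (nat_lit 363) ln14_10_1 ln14_10_1_ok)))))))))))))))))))))))))))) (nat_lit 1386334847383188664550070665778531748218595021979121511688892729411143073470393764272092352380775458208712834410189682411080515584) (nat_lit 943490606589814007117209563729645190983571735652803780229945701153128605503964524618001435956464507449741889684281300202432795839214053137538535178398909076435846037504) (nat_lit 943490606589814007117209563729645190983571735652803780229945701153128605503964524618001435956464507449741889684281300202432795839214053137538535178398909076435846037504) (by decide +kernel)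
noncomputable def c11_n17472 : Cert := (M (nat_lit 366) (B (M (nat_lit 334) (B (L (nat_lit 461) ln13_14_6 ln13_14_6_ok) (M (nat_lit 302) (B (L (nat_lit 270) ln14_8_5 ln14_8_5_ok) (L (nat_lit 398) ln14_9_5 ln14_9_5_ok))))) (B (M (nat_lit 461) (B (L (nat_lit 334) ln13_14_6 ln13_14_6_ok) (M (nat_lit 493) (B (L (nat_lit 398) ln13_15_6 ln13_15_6_ok) (M (nat_lit 492) (B (L (nat_lit 460) ln13_11_5 ln13_11_5_ok) (L (nat_lit 524) ln13_12_5 ln13_12_5_ok))))))) (B (M (nat_lit 364) (B (M (nat_lit 461) (B (L (nat_lit 332) ln13_14_7 ln13_14_7_ok) (M (nat_lit 493) (B (L (nat_lit 396) ln13_15_7 ln13_15_7_ok) (L (nat_lit 398) ln13_15_6 ln13_15_6_ok))))) (B (M (nat_lit 396) (B (M (nat_lit 395) (B (L (nat_lit 367) ln15_11_1 ln15_11_1_ok) (L (nat_lit 394) ln10_12_2 ln10_12_2_ok))) (M (nat_lit 363) (B (M (nat_lit 362) (B (L (nat_lit 361) ln9_11_0 ln9_11_0_ok) (L (nat_lit 398) ln10_11_0 ln10_11_0_ok))) (M (nat_lit 460)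 (B (M (nat_lit 331) (B (L (nat_lit 330) ln14_11_3 ln14_11_3_ok) (L (nat_lit 428) ln12_14_7 ln12_14_7_ok))) (B (M (nat_lit 428) (B (L (nat_lit 331) ln12_14_7 ln12_14_7_ok) (L (nat_lit 492) ln12_15_6 ln12_15_6_ok))) (M (nat_lit 461) (B (L (nat_lit 493) ln13_15_7 ln13_15_7_ok) (L (nat_lit 492) ln13_11_5 ln13_11_5_ok)))))))))) (B (M (nat_lit 461) (B (L (nat_lit 332) ln13_14_7 ln13_14_7_ok) (M (nat_lit 493) (B (L (nat_lit 398) ln13_15_6 ln13_15_6_ok) (M (nat_lit 492) (B (L (nat_lit 460) ln13_11_5 ln13_11_5_ok) (L (nat_lit 524) ln13_12_5 ln13_12_5_ok))))))) (B (M (nat_lit 396) (B (M (nat_lit 461) (B (L (nat_lit 332) ln13_14_7 ln13_14_7_ok) (L (nat_lit 493) ln13_15_7 ln13_15_7_ok))) (M (nat_lit 395) (B (L (nat_lit 367) ln15_11_1 ln15_11_1_ok) (L (nat_lit 394) ln10_12_2 ln10_12_2_ok))))) (M (nat_lit 363) (B (M (nat_lit 362) (B (L (nat_lit 398) ln10_11_0 ln10_11_0_ok) (M (nat_lit 394) (B (L (nat_lit 393)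 ln13_11_1 ln13_11_1_ok) (L (nat_lit 395) ln14_11_1 ln14_11_1_ok))))) (B (M (nat_lit 367) (B (M (nat_lit 331) (B (L (nat_lit 330) ln14_11_3 ln14_11_3_ok) (L (nat_lit 332) ln15_11_3 ln15_11_3_ok))) (M (nat_lit 395) (B (L (nat_lit 394) ln14_11_1 ln14_11_1_ok) (L (nat_lit 396) ln15_11_1 ln15_11_1_ok))))) (M (nat_lit 330) (B (L (nat_lit 331) ln14_11_3 ln14_11_3_ok) (M (nat_lit 362) (B (L (nat_lit 329) ln13_11_3 ln13_11_3_ok) (L (nat_lit 398) ln10_11_0 ln10_11_0_ok))))))))))))) (B (M (nat_lit 461) (B (L (nat_lit 334) ln13_14_6 ln13_14_6_ok) (M (nat_lit 493) (B (M (nat_lit 364) (B (L (nat_lit 332) ln13_14_7 ln13_14_7_ok) (L (nat_lit 396) ln13_15_7 ln13_15_7_ok))) (M (nat_lit 492) (B (L (nat_lit 460) ln13_11_5 ln13_11_5_ok) (L (nat_lit 524) ln13_12_5 ln13_12_5_ok))))))) (M (nat_lit 367) (B (M (nat_lit 396) (B (L (nat_lit 368) ln16_11_1 ln16_11_1_ok) (M (nat_lit 395) (B (L (nat_lit 364) ln15_11_1 ln15_11_1_ok)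 (L (nat_lit 394) ln10_12_2 ln10_12_2_ok))))) (B (M (nat_lit 396) (B (L (nat_lit 368) ln16_11_1 ln16_11_1_ok) (M (nat_lit 395) (B (L (nat_lit 394) ln10_12_2 ln10_12_2_ok) (L (nat_lit 398) ln11_12_2 ln11_12_2_ok))))) (B (M (nat_lit 364) (B (M (nat_lit 332) (B (L (nat_lit 331) ln15_11_3 ln15_11_3_ok) (M (nat_lit 396) (B (L (nat_lit 300) ln12_9_4 ln12_9_4_ok) (L (nat_lit 395) ln15_11_1 ln15_11_1_ok))))) (M (nat_lit 334) (B (M (nat_lit 302) (B (L (nat_lit 270) ln14_8_5 ln14_8_5_ok) (L (nat_lit 398) ln14_9_5 ln14_9_5_ok))) (M (nat_lit 335) (B (L (nat_lit 363) ln11_11_2 ln11_11_2_ok) (L (nat_lit 336) ln12_11_2 ln12_11_2_ok))))))) (B (M (nat_lit 368) (B (L (nat_lit 396) ln16_11_1 ln16_11_1_ok) (M (nat_lit 369) (B (L (nat_lit 398) ln17_11_1 ln17_11_1_ok) (M (nat_lit 401) (B (L (nat_lit 400) ln13_11_0 ln13_11_0_ok) (L (nat_lit 402) ln14_11_0 ln14_11_0_ok))))))) (M (nat_lit 364) (B (M (nat_lit 335) (B (L (nat_lit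 336) ln12_11_2 ln12_11_2_ok) (M (nat_lit 363) (B (L (nat_lit 334) ln11_11_2 ln11_11_2_ok) (M (nat_lit 331) (B (L (nat_lit 330) ln14_11_3 ln14_11_3_ok) (L (nat_lit 332) ln15_11_3 ln15_11_3_ok))))))) (B (M (nat_lit 363) (B (M (nat_lit 335) (B (L (nat_lit 334) ln11_11_2 ln11_11_2_ok) (L (nat_lit 336) ln12_11_2 ln12_11_2_ok))) (M (nat_lit 362) (B (L (nat_lit 398) ln10_11_0 ln10_11_0_ok) (M (nat_lit 394) (B (L (nat_lit 393) ln13_11_1 ln13_11_1_ok) (L (nat_lit 395) ln14_11_1 ln14_11_1_ok))))))) (B (M (nat_lit 363) (B (M (nat_lit 331) (B (L (nat_lit 330) ln14_11_3 ln14_11_3_ok) (L (nat_lit 332) ln15_11_3 ln15_11_3_ok))) (M (nat_lit 362) (B (L (nat_lit 398) ln10_11_0 ln10_11_0_ok) (M (nat_lit 394) (B (L (nat_lit 393) ln13_11_1 ln13_11_1_ok) (L (nat_lit 395) ln14_11_1 ln14_11_1_ok))))))) (M (nat_lit 368) (B (M (nat_lit 336) (B (L (nat_lit 335) ln12_11_2 ln12_11_2_ok) (L (nat_lit 337) ln13_11_2 ln13_11_2_ok)))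 (M (nat_lit 369) (B (L (nat_lit 398) ln17_11_1 ln17_11_1_ok) (M (nat_lit 401) (B (L (nat_lit 400) ln13_11_0 ln13_11_0_ok) (L (nat_lit 402) ln14_11_0 ln14_11_0_ok)))))))))))))))))))))
theorem c11_s17476 : Sem (nat_lit 1386334847383188664550070665778531748218595021979121511688892729411143073470393764272092352380775458208712834410189682411080515584) (nat_lit 1179363258141160341632306725041411996665879311927600703545932802543163374112884082980345982975349308809688108691979632221359341686709299176861452622723096932295689371648) (nat_lit 1179363258141160341632306725041411996665879311927600703545932802543163374112884082980345982975349308809688108691979632221359341686709299176861452622723096932295689371648) :=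
  sem_of_chk (M (nat_lit 365) (B (M (nat_lit 461) (B (M (nat_lit 493) (B (M (nat_lit 364) (B (L (nat_lit 332) ln13_14_7 ln13_14_7_ok) (L (nat_lit 396) ln13_15_7 ln13_15_7_ok))) (M (nat_lit 366) (B (L (nat_lit 334) ln13_14_6 ln13_14_6_ok) (L (nat_lit 398) ln13_15_6 ln13_15_6_ok))))) (B (M (nat_lit 493) (B (M (nat_lit 366) (B (L (nat_lit 334) ln13_14_6 ln13_14_6_ok) (L (nat_lit 398) ln13_15_6 ln13_15_6_ok))) (M (nat_lit 492) (B (L (nat_lit 460) ln13_11_5 ln13_11_5_ok) (L (nat_lit 524) ln13_12_5 ln13_12_5_ok))))) (B (M (nat_lit 493) (B (M (nat_lit 364) (B (L (nat_lit 332) ln13_14_7 ln13_14_7_ok) (L (nat_lit 396) ln13_15_7 ln13_15_7_ok))) (M (nat_lit 492) (B (L (nat_lit 460) ln13_11_5 ln13_11_5_ok) (L (nat_lit 524) ln13_12_5 ln13_12_5_ok))))) (M (nat_lit 333) (B (M (nat_lit 334) (B (L (nat_lit 302) ln13_13_6 ln13_13_6_ok) (L (nat_lit 366) ln13_14_6 ln13_14_6_ok))) (M (nat_lit 460) (B (L (nat_lit 428)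 ln13_10_5 ln13_10_5_ok) (L (nat_lit 492) ln13_11_5 ln13_11_5_ok))))))))) (B (M (nat_lit 461) (B (M (nat_lit 493) (B (M (nat_lit 364) (B (L (nat_lit 332) ln13_14_7 ln13_14_7_ok) (L (nat_lit 396) ln13_15_7 ln13_15_7_ok))) (M (nat_lit 366) (B (L (nat_lit 334) ln13_14_6 ln13_14_6_ok) (L (nat_lit 398) ln13_15_6 ln13_15_6_ok))))) (B (M (nat_lit 493) (B (M (nat_lit 366) (B (L (nat_lit 334) ln13_14_6 ln13_14_6_ok) (L (nat_lit 398) ln13_15_6 ln13_15_6_ok))) (M (nat_lit 492) (B (L (nat_lit 460) ln13_11_5 ln13_11_5_ok) (L (nat_lit 524) ln13_12_5 ln13_12_5_ok))))) (B (M (nat_lit 493) (B (M (nat_lit 364) (B (L (nat_lit 332) ln13_14_7 ln13_14_7_ok) (L (nat_lit 396) ln13_15_7 ln13_15_7_ok))) (M (nat_lit 492) (B (L (nat_lit 460) ln13_11_5 ln13_11_5_ok) (L (nat_lit 524) ln13_12_5 ln13_12_5_ok))))) (M (nat_lit 460) (B (L (nat_lit 492) ln13_11_5 ln13_11_5_ok) (M (nat_lit 332) (B (L (nat_lit 364) ln13_14_7 ln13_14_7_ok)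 (M (nat_lit 333) (B (L (nat_lit 300) ln13_13_7 ln13_13_7_ok) (L (nat_lit 428) ln13_10_5 ln13_10_5_ok))))))))))) (B (M (nat_lit 461) (B (M (nat_lit 493) (B (M (nat_lit 366) (B (L (nat_lit 334) ln13_14_6 ln13_14_6_ok) (L (nat_lit 398) ln13_15_6 ln13_15_6_ok))) (M (nat_lit 492) (B (L (nat_lit 460) ln13_11_5 ln13_11_5_ok) (L (nat_lit 524) ln13_12_5 ln13_12_5_ok))))) (B (M (nat_lit 493) (B (M (nat_lit 492) (B (L (nat_lit 460) ln13_11_5 ln13_11_5_ok) (L (nat_lit 524) ln13_12_5 ln13_12_5_ok))) (M (nat_lit 525) (B (M (nat_lit 396) (B (L (nat_lit 364) ln13_15_7 ln13_15_7_ok) (L (nat_lit 428) ln13_16_7 ln13_16_7_ok))) (M (nat_lit 526) (B (L (nat_lit 494) ln13_12_4 ln13_12_4_ok) (L (nat_lit 558) ln13_13_4 ln13_13_4_ok))))))) (B (M (nat_lit 493) (B (M (nat_lit 366) (B (L (nat_lit 334) ln13_14_6 ln13_14_6_ok) (L (nat_lit 398) ln13_15_6 ln13_15_6_ok))) (M (nat_lit 525) (B (M (nat_lit 396) (B (L (nat_lit 364) ln13_15_7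 ln13_15_7_ok) (L (nat_lit 428) ln13_16_7 ln13_16_7_ok))) (M (nat_lit 526) (B (L (nat_lit 494) ln13_12_4 ln13_12_4_ok) (L (nat_lit 558) ln13_13_4 ln13_13_4_ok))))))) (M (nat_lit 333) (B (M (nat_lit 334) (B (L (nat_lit 302) ln13_13_6 ln13_13_6_ok) (L (nat_lit 366) ln13_14_6 ln13_14_6_ok))) (M (nat_lit 460) (B (L (nat_lit 428) ln13_10_5 ln13_10_5_ok) (L (nat_lit 492) ln13_11_5 ln13_11_5_ok))))))))) (B c11_n17472 (B (M (nat_lit 461) (B (M (nat_lit 493) (B (M (nat_lit 364) (B (L (nat_lit 332) ln13_14_7 ln13_14_7_ok) (L (nat_lit 396) ln13_15_7 ln13_15_7_ok))) (M (nat_lit 492) (B (L (nat_lit 460) ln13_11_5 ln13_11_5_ok) (L (nat_lit 524) ln13_12_5 ln13_12_5_ok))))) (B (M (nat_lit 493) (B (M (nat_lit 492) (B (L (nat_lit 460) ln13_11_5 ln13_11_5_ok) (L (nat_lit 524) ln13_12_5 ln13_12_5_ok))) (M (nat_lit 525) (B (M (nat_lit 396) (B (L (nat_lit 364) ln13_15_7 ln13_15_7_ok) (L (nat_lit 428) ln13_16_7 ln13_16_7_ok)))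 (M (nat_lit 526) (B (L (nat_lit 494) ln13_12_4 ln13_12_4_ok) (L (nat_lit 558) ln13_13_4 ln13_13_4_ok))))))) (B (M (nat_lit 493) (B (M (nat_lit 492) (B (L (nat_lit 460) ln13_11_5 ln13_11_5_ok) (L (nat_lit 524) ln13_12_5 ln13_12_5_ok))) (M (nat_lit 525) (B (M (nat_lit 398) (B (L (nat_lit 366) ln13_15_6 ln13_15_6_ok) (L (nat_lit 430) ln13_16_6 ln13_16_6_ok))) (M (nat_lit 526) (B (L (nat_lit 494) ln13_12_4 ln13_12_4_ok) (L (nat_lit 558) ln13_13_4 ln13_13_4_ok))))))) (B (M (nat_lit 493) (B (M (nat_lit 364) (B (L (nat_lit 332) ln13_14_7 ln13_14_7_ok) (L (nat_lit 396) ln13_15_7 ln13_15_7_ok))) (M (nat_lit 525) (B (M (nat_lit 398) (B (L (nat_lit 366) ln13_15_6 ln13_15_6_ok) (L (nat_lit 430) ln13_16_6 ln13_16_6_ok))) (M (nat_lit 526) (B (L (nat_lit 494) ln13_12_4 ln13_12_4_ok) (L (nat_lit 558) ln13_13_4 ln13_13_4_ok))))))) (M (nat_lit 460) (B (L (nat_lit 492) ln13_11_5 ln13_11_5_ok) (M (nat_lit 332) (B (L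 (nat_lit 364) ln13_14_7 ln13_14_7_ok) (M (nat_lit 333) (B (L (nat_lit 300) ln13_13_7 ln13_13_7_ok) (L (nat_lit 428) ln13_10_5 ln13_10_5_ok)))))))))))) (B (M (nat_lit 333) (B (M (nat_lit 301) (B (M (nat_lit 300) (B (L (nat_lit 268) ln13_12_7 ln13_12_7_ok) (L (nat_lit 332) ln13_13_7 ln13_13_7_ok))) (M (nat_lit 428) (B (L (nat_lit 396) ln13_9_5 ln13_9_5_ok) (L (nat_lit 460) ln13_10_5 ln13_10_5_ok))))) (B (M (nat_lit 302) (B (L (nat_lit 334) ln13_13_6 ln13_13_6_ok) (M (nat_lit 301) (B (L (nat_lit 270) ln13_12_6 ln13_12_6_ok) (M (nat_lit 428) (B (L (nat_lit 396) ln13_9_5 ln13_9_5_ok) (L (nat_lit 460) ln13_10_5 ln13_10_5_ok))))))) (B (M (nat_lit 461) (B (M (nat_lit 334) (B (L (nat_lit 302) ln13_13_6 ln13_13_6_ok) (L (nat_lit 366) ln13_14_6 ln13_14_6_ok))) (M (nat_lit 460) (B (L (nat_lit 428) ln13_10_5 ln13_10_5_ok) (L (nat_lit 492) ln13_11_5 ln13_11_5_ok))))) (M (nat_lit 301) (B (M (nat_lit 300) (B (L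 (nat_lit 268) ln13_12_7 ln13_12_7_ok) (L (nat_lit 332) ln13_13_7 ln13_13_7_ok))) (M (nat_lit 302) (B (L (nat_lit 270) ln13_12_6 ln13_12_6_ok) (L (nat_lit 334) ln13_13_6 ln13_13_6_ok))))))))) (B (M (nat_lit 333) (B (M (nat_lit 302) (B (L (nat_lit 334) ln13_13_6 ln13_13_6_ok) (M (nat_lit 301) (B (L (nat_lit 270) ln13_12_6 ln13_12_6_ok) (M (nat_lit 428) (B (L (nat_lit 396) ln13_9_5 ln13_9_5_ok) (L (nat_lit 460) ln13_10_5 ln13_10_5_ok))))))) (B (M (nat_lit 301) (B (M (nat_lit 300) (B (L (nat_lit 268) ln13_12_7 ln13_12_7_ok) (L (nat_lit 332) ln13_13_7 ln13_13_7_ok))) (M (nat_lit 428) (B (L (nat_lit 396) ln13_9_5 ln13_9_5_ok) (L (nat_lit 460) ln13_10_5 ln13_10_5_ok))))) (B (M (nat_lit 461) (B (M (nat_lit 332) (B (L (nat_lit 300) ln13_13_7 ln13_13_7_ok) (L (nat_lit 364) ln13_14_7 ln13_14_7_ok))) (M (nat_lit 460) (B (L (nat_lit 428) ln13_10_5 ln13_10_5_ok) (L (nat_lit 492) ln13_11_5 ln13_11_5_ok))))) (M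 (nat_lit 301) (B (M (nat_lit 300) (B (L (nat_lit 268) ln13_12_7 ln13_12_7_ok) (L (nat_lit 332) ln13_13_7 ln13_13_7_ok))) (M (nat_lit 302) (B (L (nat_lit 270) ln13_12_6 ln13_12_6_ok) (L (nat_lit 334) ln13_13_6 ln13_13_6_ok))))))))) (B (M (nat_lit 333) (B (M (nat_lit 334) (B (L (nat_lit 302) ln13_13_6 ln13_13_6_ok) (M (nat_lit 461) (B (L (nat_lit 366) ln13_14_6 ln13_14_6_ok) (M (nat_lit 332) (B (L (nat_lit 300) ln13_13_7 ln13_13_7_ok) (L (nat_lit 364) ln13_14_7 ln13_14_7_ok))))))) (B (M (nat_lit 461) (B (M (nat_lit 334) (B (L (nat_lit 302) ln13_13_6 ln13_13_6_ok) (L (nat_lit 366) ln13_14_6 ln13_14_6_ok))) (M (nat_lit 460) (B (L (nat_lit 428) ln13_10_5 ln13_10_5_ok) (L (nat_lit 492) ln13_11_5 ln13_11_5_ok))))) (B (M (nat_lit 461) (B (M (nat_lit 332) (B (L (nat_lit 300) ln13_13_7 ln13_13_7_ok) (L (nat_lit 364) ln13_14_7 ln13_14_7_ok))) (M (nat_lit 460) (B (L (nat_lit 428) ln13_10_5 ln13_10_5_ok) (L (nat_lit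 492) ln13_11_5 ln13_11_5_ok))))) (M (nat_lit 301) (B (M (nat_lit 300) (B (L (nat_lit 268) ln13_12_7 ln13_12_7_ok) (L (nat_lit 332) ln13_13_7 ln13_13_7_ok))) (M (nat_lit 302) (B (L (nat_lit 270) ln13_12_6 ln13_12_6_ok) (L (nat_lit 334) ln13_13_6 ln13_13_6_ok))))))))) (B (M (nat_lit 461) (B (M (nat_lit 493) (B (M (nat_lit 366) (B (L (nat_lit 334) ln13_14_6 ln13_14_6_ok) (L (nat_lit 398) ln13_15_6 ln13_15_6_ok))) (M (nat_lit 492) (B (L (nat_lit 460) ln13_11_5 ln13_11_5_ok) (L (nat_lit 524) ln13_12_5 ln13_12_5_ok))))) (B (M (nat_lit 493) (B (M (nat_lit 364) (B (L (nat_lit 332) ln13_14_7 ln13_14_7_ok) (L (nat_lit 396) ln13_15_7 ln13_15_7_ok))) (M (nat_lit 492) (B (L (nat_lit 460) ln13_11_5 ln13_11_5_ok) (L (nat_lit 524) ln13_12_5 ln13_12_5_ok))))) (B (M (nat_lit 493) (B (M (nat_lit 364) (B (L (nat_lit 332) ln13_14_7 ln13_14_7_ok) (L (nat_lit 396) ln13_15_7 ln13_15_7_ok))) (M (nat_lit 366) (B (L (nat_lit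 334) ln13_14_6 ln13_14_6_ok) (L (nat_lit 398) ln13_15_6 ln13_15_6_ok))))) (M (nat_lit 333) (B (M (nat_lit 332) (B (L (nat_lit 300) ln13_13_7 ln13_13_7_ok) (L (nat_lit 364) ln13_14_7 ln13_14_7_ok))) (M (nat_lit 334) (B (L (nat_lit 302) ln13_13_6 ln13_13_6_ok) (L (nat_lit 366) ln13_14_6 ln13_14_6_ok))))))))) (B (M (nat_lit 461) (B (M (nat_lit 493) (B (M (nat_lit 364) (B (L (nat_lit 332) ln13_14_7 ln13_14_7_ok) (L (nat_lit 396) ln13_15_7 ln13_15_7_ok))) (M (nat_lit 366) (B (L (nat_lit 334) ln13_14_6 ln13_14_6_ok) (L (nat_lit 398) ln13_15_6 ln13_15_6_ok))))) (B (M (nat_lit 493) (B (M (nat_lit 366) (B (L (nat_lit 334) ln13_14_6 ln13_14_6_ok) (L (nat_lit 398) ln13_15_6 ln13_15_6_ok))) (M (nat_lit 525) (B (M (nat_lit 524) (B (L (nat_lit 492) ln13_12_5 ln13_12_5_ok) (L (nat_lit 556) ln13_13_5 ln13_13_5_ok))) (M (nat_lit 526) (B (L (nat_lit 494) ln13_12_4 ln13_12_4_ok) (L (nat_lit 558) ln13_13_4 ln13_13_4_ok)))))))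 (B (M (nat_lit 493) (B (M (nat_lit 364) (B (L (nat_lit 332) ln13_14_7 ln13_14_7_ok) (L (nat_lit 396) ln13_15_7 ln13_15_7_ok))) (M (nat_lit 525) (B (M (nat_lit 524) (B (L (nat_lit 492) ln13_12_5 ln13_12_5_ok) (L (nat_lit 556) ln13_13_5 ln13_13_5_ok))) (M (nat_lit 526) (B (L (nat_lit 494) ln13_12_4 ln13_12_4_ok) (L (nat_lit 558) ln13_13_4 ln13_13_4_ok))))))) (M (nat_lit 333) (B (M (nat_lit 332) (B (L (nat_lit 300) ln13_13_7 ln13_13_7_ok) (L (nat_lit 364) ln13_14_7 ln13_14_7_ok))) (M (nat_lit 334) (B (L (nat_lit 302) ln13_13_6 ln13_13_6_ok) (L (nat_lit 366) ln13_14_6 ln13_14_6_ok))))))))) (M (nat_lit 333) (B (M (nat_lit 301) (B (M (nat_lit 300) (B (L (nat_lit 268) ln13_12_7 ln13_12_7_ok) (L (nat_lit 332) ln13_13_7 ln13_13_7_ok))) (M (nat_lit 428) (B (L (nat_lit 396) ln13_9_5 ln13_9_5_ok) (L (nat_lit 460) ln13_10_5 ln13_10_5_ok))))) (B (M (nat_lit 302) (B (L (nat_lit 334) ln13_13_6 ln13_13_6_ok) (M (nat_lit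 301) (B (L (nat_lit 270) ln13_12_6 ln13_12_6_ok) (M (nat_lit 428) (B (L (nat_lit 396) ln13_9_5 ln13_9_5_ok) (L (nat_lit 460) ln13_10_5 ln13_10_5_ok))))))) (M (nat_lit 332) (B (L (nat_lit 300) ln13_13_7 ln13_13_7_ok) (M (nat_lit 334) (B (L (nat_lit 302) ln13_13_6 ln13_13_6_ok) (M (nat_lit 331) (B (M (nat_lit 366) (B (L (nat_lit 330) ln10_10_0 ln10_10_0_ok) (L (nat_lit 367) ln11_10_0 ln11_10_0_ok))) (B (M (nat_lit 335) (B (M (nat_lit 363) (B (L (nat_lit 362) ln14_10_1 ln14_10_1_ok) (L (nat_lit 364) ln15_10_1 ln15_10_1_ok))) (M (nat_lit 367) (B (L (nat_lit 366) ln11_10_0 ln11_10_0_ok) (L (nat_lit 368) ln12_10_0 ln12_10_0_ok))))) (M (nat_lit 330) (B (M (nat_lit 298) (B (L (nat_lit 297) ln13_10_3 ln13_10_3_ok) (L (nat_lit 299) ln14_10_3 ln14_10_3_ok))) (M (nat_lit 362) (B (L (nat_lit 361) ln13_10_1 ln13_10_1_ok) (L (nat_lit 363) ln14_10_1 ln14_10_1_ok)))))))))))))))))))))))))) (nat_lit 1386334847383188664550070665778531748218595021979121511688892729411143073470393764272092352380775458208712834410189682411080515584)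 (nat_lit 1179363258141160341632306725041411996665879311927600703545932802543163374112884082980345982975349308809688108691979632221359341686709299176861452622723096932295689371648) (nat_lit 1179363258141160341632306725041411996665879311927600703545932802543163374112884082980345982975349308809688108691979632221359341686709299176861452622723096932295689371648) (by decide +kernel)
noncomputable def c11_n17509 : Cert := (M (nat_lit 428) (B (M (nat_lit 460) (B (M (nat_lit 492) (B (L (nat_lit 365) ln12_15_6 ln12_15_6_ok) (L (nat_lit 524) ln12_16_6 ln12_16_6_ok))) (M (nat_lit 459) (B (M (nat_lit 430) (B (L (nat_lit 431) ln15_13_1 ln15_13_1_ok) (M (nat_lit 458) (B (L (nat_lit 427) ln14_13_1 ln14_13_1_ok) (L (nat_lit 457) ln9_14_2 ln9_14_2_ok))))) (B (M (nat_lit 430) (B (L (nat_lit 431) ln15_13_1 ln15_13_1_ok) (M (nat_lit 458) (B (L (nat_lit 457) ln9_14_2 ln9_14_2_ok) (L (nat_lit 461) ln10_14_2 ln10_14_2_ok)))))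 (M (nat_lit 364) (B (L (nat_lit 491) ln12_11_5 ln12_11_5_ok) (M (nat_lit 332) (B (L (nat_lit 427) ln12_10_5 ln12_10_5_ok) (L (nat_lit 461) ln12_10_4 ln12_10_4_ok)))))))))) (B (M (nat_lit 395) (B (M (nat_lit 394) (B (L (nat_lit 393) ln9_12_0 ln9_12_0_ok) (L (nat_lit 430) ln10_12_0 ln10_12_0_ok))) (B (M (nat_lit 430) (B (L (nat_lit 394) ln10_12_0 ln10_12_0_ok) (L (nat_lit 431) ln15_13_3 ln15_13_3_ok))) (M (nat_lit 363) (B (M (nat_lit 331) (B (L (nat_lit 299) ln11_9_4 ln11_9_4_ok) (M (nat_lit 460) (B (L (nat_lit 364) ln12_14_7 ln12_14_7_ok) (L (nat_lit 492) ln12_15_7 ln12_15_7_ok))))) (B (M (nat_lit 398) (B (L (nat_lit 362) ln14_12_3 ln14_12_3_ok) (M (nat_lit 399) (B (L (nat_lit 364) ln15_12_3 ln15_12_3_ok) (L (nat_lit 427) ln15_12_1 ln15_12_1_ok))))) (M (nat_lit 331) (B (L (nat_lit 299) ln11_9_4 ln11_9_4_ok) (M (nat_lit 460) (B (L (nat_lit 427) ln11_10_4 ln11_10_4_ok) (L (nat_lit 492) ln12_15_7 ln12_15_7_ok)))))))))))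 (B (M (nat_lit 427) (B (M (nat_lit 398) (B (L (nat_lit 399) ln15_12_1 ln15_12_1_ok) (L (nat_lit 426) ln10_13_2 ln10_13_2_ok))) (B (M (nat_lit 426) (B (L (nat_lit 425) ln9_13_2 ln9_13_2_ok) (M (nat_lit 430) (B (M (nat_lit 394) (B (L (nat_lit 393) ln13_13_3 ln13_13_3_ok) (L (nat_lit 395) ln10_12_0 ln10_12_0_ok))) (M (nat_lit 458) (B (L (nat_lit 457) ln13_13_1 ln13_13_1_ok) (L (nat_lit 459) ln14_13_1 ln14_13_1_ok))))))) (M (nat_lit 395) (B (M (nat_lit 394) (B (L (nat_lit 393) ln9_12_0 ln9_12_0_ok) (L (nat_lit 430) ln10_12_0 ln10_12_0_ok))) (M (nat_lit 363) (B (M (nat_lit 331) (B (L (nat_lit 299) ln11_9_4 ln11_9_4_ok) (L (nat_lit 460) ln11_10_4 ln11_10_4_ok))) (M (nat_lit 398) (B (L (nat_lit 362) ln14_12_3 ln14_12_3_ok) (L (nat_lit 399) ln15_12_1 ln15_12_1_ok)))))))))) (B (M (nat_lit 364) (B (M (nat_lit 332) (B (L (nat_lit 300) ln12_9_4 ln12_9_4_ok) (L (nat_lit 461) ln12_10_4 ln12_10_4_ok))) (B (M (nat_lit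 461) (B (L (nat_lit 332) ln12_10_4 ln12_10_4_ok) (L (nat_lit 493) ln13_15_7 ln13_15_7_ok))) (M (nat_lit 395) (B (M (nat_lit 394) (B (L (nat_lit 393) ln9_12_0 ln9_12_0_ok) (L (nat_lit 430) ln10_12_0 ln10_12_0_ok))) (M (nat_lit 363) (B (M (nat_lit 331) (B (L (nat_lit 299) ln11_9_4 ln11_9_4_ok) (L (nat_lit 460) ln12_14_7 ln12_14_7_ok))) (M (nat_lit 362) (B (L (nat_lit 361) ln9_11_0 ln9_11_0_ok) (L (nat_lit 398) ln14_12_3 ln14_12_3_ok)))))))))) (B (M (nat_lit 364) (B (M (nat_lit 332) (B (L (nat_lit 300) ln12_9_4 ln12_9_4_ok) (L (nat_lit 461) ln12_10_4 ln12_10_4_ok))) (B (M (nat_lit 461) (B (L (nat_lit 332) ln12_10_4 ln12_10_4_ok) (L (nat_lit 493) ln13_15_7 ln13_15_7_ok))) (M (nat_lit 363) (B (M (nat_lit 460) (B (L (nat_lit 331) ln12_14_7 ln12_14_7_ok) (M (nat_lit 365) (B (L (nat_lit 333) ln12_14_6 ln12_14_6_ok) (L (nat_lit 492) ln12_15_6 ln12_15_6_ok))))) (B (M (nat_lit 362) (B (L (nat_lit 361) ln9_11_0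 ln9_11_0_ok) (M (nat_lit 398) (B (L (nat_lit 365) ln10_11_0 ln10_11_0_ok) (L (nat_lit 399) ln15_12_3 ln15_12_3_ok))))) (M (nat_lit 362) (B (L (nat_lit 361) ln9_11_0 ln9_11_0_ok) (M (nat_lit 398) (B (L (nat_lit 395) ln14_12_3 ln14_12_3_ok) (L (nat_lit 399) ln15_12_3 ln15_12_3_ok))))))))))) (M (nat_lit 395) (B (M (nat_lit 394) (B (L (nat_lit 393) ln9_12_0 ln9_12_0_ok) (L (nat_lit 430) ln10_12_0 ln10_12_0_ok))) (B (M (nat_lit 430) (B (L (nat_lit 394) ln10_12_0 ln10_12_0_ok) (L (nat_lit 431) ln15_13_3 ln15_13_3_ok))) (B (M (nat_lit 427) (B (M (nat_lit 398) (B (L (nat_lit 426) ln14_12_1 ln14_12_1_ok) (L (nat_lit 399) ln15_12_1 ln15_12_1_ok))) (M (nat_lit 459) (B (M (nat_lit 364) (B (L (nat_lit 332) ln12_10_5 ln12_10_5_ok) (L (nat_lit 491) ln11_15_6 ln11_15_6_ok))) (M (nat_lit 430) (B (L (nat_lit 431) ln15_13_3 ln15_13_3_ok) (L (nat_lit 458) ln14_13_1 ln14_13_1_ok))))))) (M (nat_lit 394) (B (L (nat_lit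 393) ln9_12_0 ln9_12_0_ok) (M (nat_lit 398) (B (M (nat_lit 362) (B (L (nat_lit 361) ln13_12_3 ln13_12_3_ok) (L (nat_lit 363) ln14_12_3 ln14_12_3_ok))) (M (nat_lit 426) (B (L (nat_lit 425) ln13_12_1 ln13_12_1_ok) (L (nat_lit 427) ln14_12_1 ln14_12_1_ok)))))))))))))))))
noncomputable def c11_n17623 : Cert := (M (nat_lit 364) (B (M (nat_lit 461) (B (L (nat_lit 493) ln13_15_7 ln13_15_7_ok) (M (nat_lit 332) (B (L (nat_lit 300) ln12_9_4 ln12_9_4_ok) (L (nat_lit 365) ln13_14_7 ln13_14_7_ok))))) (B (M (nat_lit 461) (B (L (nat_lit 493) ln13_15_7 ln13_15_7_ok) (M (nat_lit 332) (B (L (nat_lit 365) ln13_14_7 ln13_14_7_ok) (L (nat_lit 428) ln12_10_4 ln12_10_4_ok))))) (B (M (nat_lit 365) (B (M (nat_lit 461) (B (L (nat_lit 493) ln13_15_7 ln13_15_7_ok) (M (nat_lit 460) (B (L (nat_lit 492) ln13_11_5 ln13_11_5_ok) (M (nat_lit 333) (B (L (nat_lit 428) ln12_14_6 ln12_14_6_ok) (M (nat_lit 334) (B (L (nat_lit 302) ln13_13_6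 ln13_13_6_ok) (L (nat_lit 366) ln13_14_6 ln13_14_6_ok))))))))) (B (M (nat_lit 363) (B (M (nat_lit 362) (B (L (nat_lit 361) ln9_11_0 ln9_11_0_ok) (L (nat_lit 398) ln10_11_0 ln10_11_0_ok))) (B (M (nat_lit 398) (B (L (nat_lit 362) ln10_11_0 ln10_11_0_ok) (L (nat_lit 399) ln15_12_3 ln15_12_3_ok))) (M (nat_lit 460) (B (M (nat_lit 428) (B (L (nat_lit 331) ln12_14_7 ln12_14_7_ok) (L (nat_lit 333) ln12_14_6 ln12_14_6_ok))) (B (M (nat_lit 428) (B (L (nat_lit 333) ln12_14_6 ln12_14_6_ok) (L (nat_lit 492) ln12_15_6 ln12_15_6_ok))) (B (M (nat_lit 428) (B (L (nat_lit 331) ln12_14_7 ln12_14_7_ok) (L (nat_lit 492) ln12_15_6 ln12_15_6_ok))) (M (nat_lit 461) (B (L (nat_lit 493) ln13_15_7 ln13_15_7_ok) (L (nat_lit 492) ln13_11_5 ln13_11_5_ok)))))))))) (B (M (nat_lit 363) (B (M (nat_lit 398) (B (L (nat_lit 362) ln10_11_0 ln10_11_0_ok) (L (nat_lit 399) ln15_12_3 ln15_12_3_ok))) (M (nat_lit 461) (B (L (nat_lit 493) ln13_15_7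 ln13_15_7_ok) (M (nat_lit 331) (B (M (nat_lit 366) (B (L (nat_lit 330) ln14_11_3 ln14_11_3_ok) (L (nat_lit 334) ln13_14_6 ln13_14_6_ok))) (M (nat_lit 460) (B (L (nat_lit 428) ln12_14_7 ln12_14_7_ok) (L (nat_lit 492) ln13_11_5 ln13_11_5_ok))))))))) (B (M (nat_lit 333) (B (M (nat_lit 334) (B (L (nat_lit 302) ln13_13_6 ln13_13_6_ok) (M (nat_lit 461) (B (L (nat_lit 366) ln13_14_6 ln13_14_6_ok) (L (nat_lit 493) ln13_15_7 ln13_15_7_ok))))) (M (nat_lit 398) (B (M (nat_lit 301) (B (L (nat_lit 269) ln13_8_5 ln13_8_5_ok) (L (nat_lit 430) ln13_9_4 ln13_9_4_ok))) (M (nat_lit 363) (B (L (nat_lit 362) ln10_11_0 ln10_11_0_ok) (L (nat_lit 399) ln15_12_3 ln15_12_3_ok))))))) (M (nat_lit 333) (B (M (nat_lit 301) (B (L (nat_lit 269) ln13_8_5 ln13_8_5_ok) (L (nat_lit 428) ln13_9_5 ln13_9_5_ok))) (B (M (nat_lit 428) (B (L (nat_lit 301) ln13_9_5 ln13_9_5_ok) (L (nat_lit 460) ln12_14_6 ln12_14_6_ok))) (M (nat_lit 334) (B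 (L (nat_lit 302) ln13_13_6 ln13_13_6_ok) (M (nat_lit 363) (B (L (nat_lit 362) ln10_11_2 ln10_11_2_ok) (M (nat_lit 335) (B (L (nat_lit 336) ln16_10_1 ln16_10_1_ok) (L (nat_lit 366) ln11_11_2 ln11_11_2_ok))))))))))))))) (B (M (nat_lit 461) (B (L (nat_lit 493) ln13_15_7 ln13_15_7_ok) (M (nat_lit 332) (B (L (nat_lit 300) ln12_9_4 ln12_9_4_ok) (L (nat_lit 428) ln12_10_4 ln12_10_4_ok))))) (M (nat_lit 332) (B (L (nat_lit 300) ln12_9_4 ln12_9_4_ok) (M (nat_lit 428) (B (M (nat_lit 427) (B (L (nat_lit 459) ln12_10_5 ln12_10_5_ok) (M (nat_lit 398) (B (L (nat_lit 399) ln15_12_1 ln15_12_1_ok) (L (nat_lit 426) ln10_13_2 ln10_13_2_ok))))) (M (nat_lit 460) (B (M (nat_lit 331) (B (L (nat_lit 299) ln12_13_7 ln12_13_7_ok) (L (nat_lit 363) ln12_14_7 ln12_14_7_ok))) (M (nat_lit 492) (B (L (nat_lit 365) ln12_15_6 ln12_15_6_ok) (L (nat_lit 524) ln12_16_6 ln12_16_6_ok))))))))))))))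
theorem c11_s17697 : Sem (nat_lit 1386334847544579281930502452632026696468783264124728123740719198963059283254184240648144927045128292788721448874933630659377233920) (nat_lit 54918381300224900818578784074467638040982983771326998184672924299741162842775250613465172245816275078182715848403904357514902824802707369233788687775046828032) (nat_lit 54918381300224900818578784074467638040982983771326998184672924299741162842775250613465172245816275078182715848403904357514902824802707369233788687775046828032) :=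
  sem_of_chk (M (nat_lit 428) (B (M (nat_lit 460) (B (M (nat_lit 492) (B (L (nat_lit 365) ln12_15_6 ln12_15_6_ok) (L (nat_lit 524) ln12_16_6 ln12_16_6_ok))) (M (nat_lit 427) (B (M (nat_lit 426) (B (L (nat_lit 425) ln9_13_2 ln9_13_2_ok) (L (nat_lit 398) ln10_13_2 ln10_13_2_ok))) (M (nat_lit 459) (B (M (nat_lit 364) (B (L (nat_lit 332) ln12_10_5 ln12_10_5_ok) (L (nat_lit 491) ln12_11_5 ln12_11_5_ok))) (M (nat_lit 430) (B (L (nat_lit 458) ln14_13_1 ln14_13_1_ok) (L (nat_lit 431) ln15_13_1 ln15_13_1_ok))))))))) (B (M (nat_lit 395) (B (M (nat_lit 394) (B (L (nat_lit 393) ln9_12_0 ln9_12_0_ok) (L (nat_lit 430) ln10_12_0 ln10_12_0_ok))) (B (M (nat_lit 430) (B (L (nat_lit 394) ln10_12_0 ln10_12_0_ok) (L (nat_lit 431) ln15_13_3 ln15_13_3_ok))) (M (nat_lit 363) (B (M (nat_lit 331) (B (L (nat_lit 299) ln11_9_4 ln11_9_4_ok) (M (nat_lit 460) (B (L (nat_lit 364) ln12_14_7 ln12_14_7_ok) (L (nat_lit 492) ln12_15_7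 ln12_15_7_ok))))) (B (M (nat_lit 398) (B (L (nat_lit 362) ln14_12_3 ln14_12_3_ok) (M (nat_lit 399) (B (L (nat_lit 364) ln15_12_3 ln15_12_3_ok) (L (nat_lit 427) ln15_12_1 ln15_12_1_ok))))) (M (nat_lit 398) (B (L (nat_lit 362) ln14_12_3 ln14_12_3_ok) (M (nat_lit 427) (B (L (nat_lit 426) ln14_12_1 ln14_12_1_ok) (L (nat_lit 399) ln15_12_1 ln15_12_1_ok))))))))))) (B (M (nat_lit 427) (B (M (nat_lit 398) (B (L (nat_lit 399) ln15_12_1 ln15_12_1_ok) (L (nat_lit 426) ln10_13_2 ln10_13_2_ok))) (B (M (nat_lit 426) (B (L (nat_lit 425) ln9_13_2 ln9_13_2_ok) (M (nat_lit 430) (B (M (nat_lit 394) (B (L (nat_lit 393) ln13_13_3 ln13_13_3_ok) (L (nat_lit 395) ln10_12_0 ln10_12_0_ok))) (M (nat_lit 458) (B (L (nat_lit 457) ln13_13_1 ln13_13_1_ok) (L (nat_lit 459) ln14_13_1 ln14_13_1_ok))))))) (M (nat_lit 395) (B (M (nat_lit 394) (B (L (nat_lit 393) ln9_12_0 ln9_12_0_ok) (L (nat_lit 430) ln10_12_0 ln10_12_0_ok))) (M (nat_lit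 363) (B (M (nat_lit 331) (B (L (nat_lit 299) ln11_9_4 ln11_9_4_ok) (L (nat_lit 460) ln11_10_4 ln11_10_4_ok))) (M (nat_lit 398) (B (L (nat_lit 362) ln14_12_3 ln14_12_3_ok) (L (nat_lit 399) ln15_12_1 ln15_12_1_ok)))))))))) (B (M (nat_lit 460) (B (M (nat_lit 365) (B (L (nat_lit 333) ln13_10_5 ln13_10_5_ok) (L (nat_lit 492) ln12_15_6 ln12_15_6_ok))) (B (M (nat_lit 492) (B (L (nat_lit 365) ln12_15_6 ln12_15_6_ok) (L (nat_lit 524) ln12_16_6 ln12_16_6_ok))) (B (M (nat_lit 395) (B (M (nat_lit 492) (B (L (nat_lit 363) ln12_15_7 ln12_15_7_ok) (L (nat_lit 524) ln12_16_6 ln12_16_6_ok))) (M (nat_lit 430) (B (L (nat_lit 394) ln10_12_0 ln10_12_0_ok) (L (nat_lit 431) ln15_13_3 ln15_13_3_ok))))) (M (nat_lit 333) (B (L (nat_lit 365) ln13_10_5 ln13_10_5_ok) (M (nat_lit 459) (B (M (nat_lit 364) (B (L (nat_lit 491) ln12_11_5 ln12_11_5_ok) (M (nat_lit 332) (B (L (nat_lit 300) ln12_9_4 ln12_9_4_ok) (L (nat_lit 301) ln12_13_6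 ln12_13_6_ok))))) (B (M (nat_lit 364) (B (L (nat_lit 491) ln12_11_5 ln12_11_5_ok) (M (nat_lit 332) (B (L (nat_lit 301) ln12_13_6 ln12_13_6_ok) (L (nat_lit 427) ln12_10_5 ln12_10_5_ok))))) (B (M (nat_lit 364) (B (L (nat_lit 491) ln12_11_5 ln12_11_5_ok) (M (nat_lit 332) (B (L (nat_lit 300) ln12_9_4 ln12_9_4_ok) (L (nat_lit 427) ln12_10_5 ln12_10_5_ok))))) (M (nat_lit 430) (B (L (nat_lit 431) ln15_13_1 ln15_13_1_ok) (M (nat_lit 458) (B (L (nat_lit 427) ln14_13_1 ln14_13_1_ok) (L (nat_lit 457) ln9_14_2 ln9_14_2_ok))))))))))))))) (B (M (nat_lit 460) (B (M (nat_lit 365) (B (L (nat_lit 333) ln13_10_5 ln13_10_5_ok) (L (nat_lit 492) ln12_15_6 ln12_15_6_ok))) (B (M (nat_lit 492) (B (L (nat_lit 365) ln12_15_6 ln12_15_6_ok) (L (nat_lit 524) ln12_16_6 ln12_16_6_ok))) (B (M (nat_lit 395) (B (M (nat_lit 492) (B (L (nat_lit 363) ln12_15_7 ln12_15_7_ok) (L (nat_lit 524) ln12_16_6 ln12_16_6_ok))) (M (nat_lit 394)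 (B (L (nat_lit 393) ln9_12_0 ln9_12_0_ok) (L (nat_lit 430) ln10_12_0 ln10_12_0_ok))))) (M (nat_lit 364) (B (M (nat_lit 333) (B (L (nat_lit 365) ln12_14_6 ln12_14_6_ok) (M (nat_lit 332) (B (L (nat_lit 300) ln12_9_4 ln12_9_4_ok) (L (nat_lit 301) ln12_13_6 ln12_13_6_ok))))) (B (M (nat_lit 365) (B (L (nat_lit 333) ln12_14_6 ln12_14_6_ok) (M (nat_lit 363) (B (L (nat_lit 331) ln12_14_7 ln12_14_7_ok) (M (nat_lit 362) (B (L (nat_lit 361) ln9_11_0 ln9_11_0_ok) (L (nat_lit 398) ln10_11_0 ln10_11_0_ok))))))) (B (M (nat_lit 363) (B (L (nat_lit 331) ln12_14_7 ln12_14_7_ok) (M (nat_lit 362) (B (L (nat_lit 361) ln9_11_0 ln9_11_0_ok) (M (nat_lit 398) (B (L (nat_lit 365) ln10_11_0 ln10_11_0_ok) (L (nat_lit 395) ln14_12_3 ln14_12_3_ok))))))) (M (nat_lit 363) (B (L (nat_lit 331) ln12_14_7 ln12_14_7_ok) (M (nat_lit 395) (B (M (nat_lit 362) (B (L (nat_lit 361) ln9_11_0 ln9_11_0_ok) (L (nat_lit 398) ln14_12_3 ln14_12_3_ok)))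 (M (nat_lit 394) (B (L (nat_lit 393) ln9_12_0 ln9_12_0_ok) (L (nat_lit 430) ln10_12_0 ln10_12_0_ok))))))))))))))) (B (M (nat_lit 364) (B (M (nat_lit 332) (B (L (nat_lit 300) ln12_9_4 ln12_9_4_ok) (M (nat_lit 427) (B (L (nat_lit 459) ln12_10_5 ln12_10_5_ok) (M (nat_lit 398) (B (L (nat_lit 399) ln15_12_1 ln15_12_1_ok) (L (nat_lit 426) ln10_13_2 ln10_13_2_ok))))))) (B (M (nat_lit 363) (B (M (nat_lit 460) (B (L (nat_lit 331) ln12_14_7 ln12_14_7_ok) (M (nat_lit 365) (B (L (nat_lit 333) ln12_14_6 ln12_14_6_ok) (L (nat_lit 492) ln12_15_6 ln12_15_6_ok))))) (B (M (nat_lit 362) (B (L (nat_lit 361) ln9_11_0 ln9_11_0_ok) (M (nat_lit 398) (B (L (nat_lit 365) ln10_11_0 ln10_11_0_ok) (L (nat_lit 399) ln15_12_3 ln15_12_3_ok))))) (M (nat_lit 362) (B (L (nat_lit 361) ln9_11_0 ln9_11_0_ok) (M (nat_lit 398) (B (L (nat_lit 395) ln14_12_3 ln14_12_3_ok) (L (nat_lit 399) ln15_12_3 ln15_12_3_ok)))))))) (M (nat_lit 460) (B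 (M (nat_lit 365) (B (L (nat_lit 333) ln12_14_6 ln12_14_6_ok) (L (nat_lit 492) ln12_15_6 ln12_15_6_ok))) (M (nat_lit 332) (B (L (nat_lit 300) ln12_9_4 ln12_9_4_ok) (M (nat_lit 331) (B (L (nat_lit 299) ln12_13_7 ln12_13_7_ok) (L (nat_lit 363) ln12_14_7 ln12_14_7_ok)))))))))) (M (nat_lit 395) (B (M (nat_lit 394) (B (L (nat_lit 393) ln9_12_0 ln9_12_0_ok) (L (nat_lit 430) ln10_12_0 ln10_12_0_ok))) (B (M (nat_lit 430) (B (L (nat_lit 394) ln10_12_0 ln10_12_0_ok) (L (nat_lit 431) ln15_13_3 ln15_13_3_ok))) (B (M (nat_lit 427) (B (M (nat_lit 398) (B (L (nat_lit 426) ln14_12_1 ln14_12_1_ok) (L (nat_lit 399) ln15_12_1 ln15_12_1_ok))) (M (nat_lit 459) (B (M (nat_lit 364) (B (L (nat_lit 332) ln12_10_5 ln12_10_5_ok) (L (nat_lit 491) ln11_15_6 ln11_15_6_ok))) (M (nat_lit 430) (B (L (nat_lit 431) ln15_13_3 ln15_13_3_ok) (L (nat_lit 458) ln14_13_1 ln14_13_1_ok))))))) (M (nat_lit 394) (B (L (nat_lit 393) ln9_12_0 ln9_12_0_ok)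 (M (nat_lit 398) (B (M (nat_lit 362) (B (L (nat_lit 361) ln13_12_3 ln13_12_3_ok) (L (nat_lit 363) ln14_12_3 ln14_12_3_ok))) (M (nat_lit 426) (B (L (nat_lit 425) ln13_12_1 ln13_12_1_ok) (L (nat_lit 427) ln14_12_1 ln14_12_1_ok)))))))))))))))))) (nat_lit 1386334847544579281930502452632026696468783264124728123740719198963059283254184240648144927045128292788721448874933630659377233920) (nat_lit 54918381300224900818578784074467638040982983771326998184672924299741162842775250613465172245816275078182715848403904357514902824802707369233788687775046828032) (nat_lit 54918381300224900818578784074467638040982983771326998184672924299741162842775250613465172245816275078182715848403904357514902824802707369233788687775046828032) (by decide +kernel)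
theorem c11_s17698 : Sem (nat_lit 1386334847383188664550070665778531748218595021979121511688892729411143073470393764272092352380775458208712834410189682411080515584) (nat_lit 1179363258141160341638700066075064138760910140757445715598995704626889758014552039064629229357093199109487630297488813590743007460441661703693248834364140450734739030016) (nat_lit 1179363258141160341638700066075064138760910140757445715598995704626889758014552039064629229357093199109487630297488813590743007460441661703693248834364140450734739030016) :=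
  sem_of_chk (M (nat_lit 396) (B (M (nat_lit 395) (B (M (nat_lit 430) (B (L (nat_lit 394) ln10_12_0 ln10_12_0_ok) (M (nat_lit 431) (B (L (nat_lit 398) ln11_12_0 ln11_12_0_ok) (L (nat_lit 432) ln16_13_3 ln16_13_3_ok))))) (B (M (nat_lit 430) (B (M (nat_lit 431) (B (L (nat_lit 398) ln11_12_0 ln11_12_0_ok) (L (nat_lit 428) ln15_13_3 ln15_13_3_ok))) (B (M (nat_lit 431) (B (L (nat_lit 428) ln15_13_3 ln15_13_3_ok) (L (nat_lit 432) ln16_13_3 ln16_13_3_ok))) (B (M (nat_lit 431) (B (L (nat_lit 398) ln11_12_0 ln11_12_0_ok) (L (nat_lit 432) ln16_13_3 ln16_13_3_ok))) (M (nat_lit 398) (B (M (nat_lit 366) (B (L (nat_lit 367) ln11_12_2 ln11_12_2_ok) (M (nat_lit 334) (B (L (nat_lit 302) ln14_9_5 ln14_9_5_ok) (L (nat_lit 461) ln14_10_5 ln14_10_5_ok))))) (M (nat_lit 399) (B (M (nat_lit 363) (B (L (nat_lit 362) ln14_12_3 ln14_12_3_ok) (L (nat_lit 364) ln15_12_3 ln15_12_3_ok))) (M (nat_lit 427) (B (L (nat_lit 426) ln14_12_1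 ln14_12_1_ok) (L (nat_lit 428) ln15_12_1 ln15_12_1_ok))))))))))) (B (M (nat_lit 430) (B (L (nat_lit 394) ln10_12_0 ln10_12_0_ok) (M (nat_lit 431) (B (L (nat_lit 428) ln15_13_3 ln15_13_3_ok) (L (nat_lit 432) ln16_13_3 ln16_13_3_ok))))) (M (nat_lit 394) (B (M (nat_lit 393) (B (L (nat_lit 428) ln9_12_0 ln9_12_0_ok) (M (nat_lit 425) (B (L (nat_lit 424) ln12_12_1 ln12_12_1_ok) (L (nat_lit 426) ln13_12_1 ln13_12_1_ok))))) (B (M (nat_lit 398) (B (M (nat_lit 362) (B (L (nat_lit 361) ln13_12_3 ln13_12_3_ok) (L (nat_lit 363) ln14_12_3 ln14_12_3_ok))) (M (nat_lit 426) (B (L (nat_lit 425) ln13_12_1 ln13_12_1_ok) (L (nat_lit 427) ln14_12_1 ln14_12_1_ok))))) (M (nat_lit 393) (B (L (nat_lit 428) ln9_12_0 ln9_12_0_ok) (M (nat_lit 361) (B (L (nat_lit 360) ln12_12_3 ln12_12_3_ok) (L (nat_lit 362) ln13_12_3 ln13_12_3_ok)))))))))))) (B (M (nat_lit 461) (B (M (nat_lit 364) (B (L (nat_lit 493) ln13_15_7 ln13_15_7_ok)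 (M (nat_lit 332) (B (L (nat_lit 300) ln12_9_4 ln12_9_4_ok) (L (nat_lit 365) ln13_14_7 ln13_14_7_ok))))) (B (M (nat_lit 364) (B (L (nat_lit 493) ln13_15_7 ln13_15_7_ok) (M (nat_lit 332) (B (L (nat_lit 365) ln13_14_7 ln13_14_7_ok) (L (nat_lit 428) ln12_10_4 ln12_10_4_ok))))) (B (M (nat_lit 493) (B (L (nat_lit 364) ln13_15_7 ln13_15_7_ok) (M (nat_lit 525) (B (L (nat_lit 428) ln13_16_7 ln13_16_7_ok) (M (nat_lit 398) (B (L (nat_lit 366) ln13_15_6 ln13_15_6_ok) (L (nat_lit 430) ln13_16_6 ln13_16_6_ok))))))) (B (M (nat_lit 493) (B (M (nat_lit 525) (B (L (nat_lit 428) ln13_16_7 ln13_16_7_ok) (M (nat_lit 398) (B (L (nat_lit 366) ln13_15_6 ln13_15_6_ok) (L (nat_lit 430) ln13_16_6 ln13_16_6_ok))))) (B (M (nat_lit 525) (B (L (nat_lit 428) ln13_16_7 ln13_16_7_ok) (M (nat_lit 526) (B (L (nat_lit 494) ln13_12_4 ln13_12_4_ok) (L (nat_lit 558) ln13_13_4 ln13_13_4_ok))))) (B (M (nat_lit 525) (B (M (nat_lit 398) (B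 (L (nat_lit 366) ln13_15_6 ln13_15_6_ok) (L (nat_lit 430) ln13_16_6 ln13_16_6_ok))) (M (nat_lit 526) (B (L (nat_lit 494) ln13_12_4 ln13_12_4_ok) (L (nat_lit 558) ln13_13_4 ln13_13_4_ok))))) (M (nat_lit 365) (B (M (nat_lit 366) (B (L (nat_lit 334) ln13_14_6 ln13_14_6_ok) (L (nat_lit 398) ln13_15_6 ln13_15_6_ok))) (M (nat_lit 492) (B (L (nat_lit 460) ln13_11_5 ln13_11_5_ok) (L (nat_lit 524) ln13_12_5 ln13_12_5_ok))))))))) (M (nat_lit 365) (B (M (nat_lit 332) (B (L (nat_lit 364) ln13_14_7 ln13_14_7_ok) (M (nat_lit 333) (B (L (nat_lit 300) ln13_13_7 ln13_13_7_ok) (M (nat_lit 428) (B (L (nat_lit 301) ln13_9_5 ln13_9_5_ok) (L (nat_lit 460) ln13_10_5 ln13_10_5_ok))))))) (B (M (nat_lit 366) (B (L (nat_lit 334) ln13_14_6 ln13_14_6_ok) (M (nat_lit 364) (B (L (nat_lit 332) ln13_14_7 ln13_14_7_ok) (M (nat_lit 367) (B (L (nat_lit 395) ln15_11_1 ln15_11_1_ok) (L (nat_lit 368) ln16_11_1 ln16_11_1_ok))))))) (B (M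 (nat_lit 366) (B (L (nat_lit 334) ln13_14_6 ln13_14_6_ok) (M (nat_lit 367) (B (L (nat_lit 368) ln16_11_1 ln16_11_1_ok) (M (nat_lit 395) (B (L (nat_lit 364) ln15_11_1 ln15_11_1_ok) (L (nat_lit 394) ln10_12_2 ln10_12_2_ok))))))) (M (nat_lit 366) (B (L (nat_lit 334) ln13_14_6 ln13_14_6_ok) (M (nat_lit 367) (B (L (nat_lit 368) ln16_11_1 ln16_11_1_ok) (M (nat_lit 395) (B (L (nat_lit 394) ln10_12_2 ln10_12_2_ok) (L (nat_lit 398) ln11_12_2 ln11_12_2_ok)))))))))))))))) (B c11_n17509 (B (M (nat_lit 395) (B (M (nat_lit 430) (B (L (nat_lit 394) ln10_12_0 ln10_12_0_ok) (M (nat_lit 431) (B (L (nat_lit 428) ln15_13_3 ln15_13_3_ok) (L (nat_lit 432) ln16_13_3 ln16_13_3_ok))))) (B (M (nat_lit 398) (B (M (nat_lit 399) (B (M (nat_lit 427) (B (L (nat_lit 426) ln14_12_1 ln14_12_1_ok) (L (nat_lit 428) ln15_12_1 ln15_12_1_ok))) (M (nat_lit 431) (B (L (nat_lit 430) ln11_12_0 ln11_12_0_ok) (L (nat_lit 432) ln12_12_0 ln12_12_0_ok)))))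 (M (nat_lit 366) (B (L (nat_lit 367) ln11_12_2 ln11_12_2_ok) (M (nat_lit 334) (B (L (nat_lit 302) ln14_9_5 ln14_9_5_ok) (M (nat_lit 461) (B (L (nat_lit 365) ln13_14_6 ln13_14_6_ok) (L (nat_lit 493) ln13_15_6 ln13_15_6_ok))))))))) (B (M (nat_lit 430) (B (L (nat_lit 394) ln10_12_0 ln10_12_0_ok) (M (nat_lit 431) (B (L (nat_lit 398) ln11_12_0 ln11_12_0_ok) (L (nat_lit 432) ln16_13_3 ln16_13_3_ok))))) (M (nat_lit 394) (B (M (nat_lit 393) (B (L (nat_lit 428) ln9_12_0 ln9_12_0_ok) (M (nat_lit 425) (B (L (nat_lit 424) ln12_12_1 ln12_12_1_ok) (L (nat_lit 426) ln13_12_1 ln13_12_1_ok))))) (B (M (nat_lit 398) (B (M (nat_lit 362) (B (L (nat_lit 361) ln13_12_3 ln13_12_3_ok) (L (nat_lit 363) ln14_12_3 ln14_12_3_ok))) (M (nat_lit 426) (B (L (nat_lit 425) ln13_12_1 ln13_12_1_ok) (L (nat_lit 427) ln14_12_1 ln14_12_1_ok))))) (M (nat_lit 393) (B (L (nat_lit 428) ln9_12_0 ln9_12_0_ok) (M (nat_lit 361) (B (L (nat_lit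 360) ln12_12_3 ln12_12_3_ok) (L (nat_lit 362) ln13_12_3 ln13_12_3_ok)))))))))))) (B (M (nat_lit 461) (B (M (nat_lit 364) (B (L (nat_lit 493) ln13_15_7 ln13_15_7_ok) (M (nat_lit 332) (B (L (nat_lit 300) ln12_9_4 ln12_9_4_ok) (L (nat_lit 428) ln12_10_4 ln12_10_4_ok))))) (B (M (nat_lit 364) (B (L (nat_lit 493) ln13_15_7 ln13_15_7_ok) (M (nat_lit 332) (B (L (nat_lit 365) ln13_14_7 ln13_14_7_ok) (L (nat_lit 428) ln12_10_4 ln12_10_4_ok))))) (B (M (nat_lit 493) (B (L (nat_lit 364) ln13_15_7 ln13_15_7_ok) (M (nat_lit 365) (B (M (nat_lit 366) (B (L (nat_lit 334) ln13_14_6 ln13_14_6_ok) (L (nat_lit 398) ln13_15_6 ln13_15_6_ok))) (M (nat_lit 492) (B (L (nat_lit 460) ln13_11_5 ln13_11_5_ok) (L (nat_lit 524) ln13_12_5 ln13_12_5_ok))))))) (B (M (nat_lit 365) (B (M (nat_lit 366) (B (L (nat_lit 334) ln13_14_6 ln13_14_6_ok) (M (nat_lit 367) (B (L (nat_lit 368) ln16_11_1 ln16_11_1_ok) (M (nat_lit 398) (B (L (nat_lit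 395) ln11_12_2 ln11_12_2_ok) (L (nat_lit 493) ln13_15_6 ln13_15_6_ok))))))) (B (M (nat_lit 428) (B (M (nat_lit 460) (B (L (nat_lit 333) ln13_10_5 ln13_10_5_ok) (L (nat_lit 492) ln12_15_6 ln12_15_6_ok))) (M (nat_lit 398) (B (M (nat_lit 493) (B (L (nat_lit 366) ln13_15_6 ln13_15_6_ok) (L (nat_lit 525) ln13_16_7 ln13_16_7_ok))) (M (nat_lit 427) (B (L (nat_lit 399) ln15_12_1 ln15_12_1_ok) (L (nat_lit 426) ln10_13_2 ln10_13_2_ok))))))) (M (nat_lit 333) (B (M (nat_lit 428) (B (L (nat_lit 301) ln13_9_5 ln13_9_5_ok) (L (nat_lit 460) ln13_10_5 ln13_10_5_ok))) (B (M (nat_lit 460) (B (L (nat_lit 428) ln13_10_5 ln13_10_5_ok) (L (nat_lit 492) ln13_11_5 ln13_11_5_ok))) (M (nat_lit 301) (B (M (nat_lit 300) (B (L (nat_lit 268) ln13_12_7 ln13_12_7_ok) (L (nat_lit 332) ln13_13_7 ln13_13_7_ok))) (M (nat_lit 302) (B (L (nat_lit 270) ln13_12_6 ln13_12_6_ok) (L (nat_lit 334) ln13_13_6 ln13_13_6_ok))))))))))) (M (nat_lit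 365) (B (M (nat_lit 332) (B (L (nat_lit 364) ln13_14_7 ln13_14_7_ok) (M (nat_lit 333) (B (L (nat_lit 300) ln13_13_7 ln13_13_7_ok) (M (nat_lit 428) (B (L (nat_lit 301) ln13_9_5 ln13_9_5_ok) (L (nat_lit 460) ln13_10_5 ln13_10_5_ok))))))) (B (M (nat_lit 333) (B (M (nat_lit 334) (B (L (nat_lit 302) ln13_13_6 ln13_13_6_ok) (L (nat_lit 366) ln13_14_6 ln13_14_6_ok))) (M (nat_lit 460) (B (L (nat_lit 428) ln13_10_5 ln13_10_5_ok) (L (nat_lit 492) ln13_11_5 ln13_11_5_ok))))) (M (nat_lit 366) (B (L (nat_lit 334) ln13_14_6 ln13_14_6_ok) (M (nat_lit 364) (B (L (nat_lit 332) ln13_14_7 ln13_14_7_ok) (M (nat_lit 367) (B (L (nat_lit 395) ln15_11_1 ln15_11_1_ok) (L (nat_lit 368) ln16_11_1 ln16_11_1_ok))))))))))))))) (B c11_n17623 (B (M (nat_lit 461) (B (M (nat_lit 364) (B (L (nat_lit 493) ln13_15_7 ln13_15_7_ok) (M (nat_lit 332) (B (L (nat_lit 300) ln12_9_4 ln12_9_4_ok) (L (nat_lit 428) ln12_10_4 ln12_10_4_ok)))))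 (B (M (nat_lit 364) (B (L (nat_lit 493) ln13_15_7 ln13_15_7_ok) (M (nat_lit 332) (B (L (nat_lit 365) ln13_14_7 ln13_14_7_ok) (L (nat_lit 428) ln12_10_4 ln12_10_4_ok))))) (B (M (nat_lit 493) (B (L (nat_lit 364) ln13_15_7 ln13_15_7_ok) (M (nat_lit 525) (B (L (nat_lit 428) ln13_16_7 ln13_16_7_ok) (M (nat_lit 524) (B (L (nat_lit 492) ln13_12_5 ln13_12_5_ok) (L (nat_lit 556) ln13_13_5 ln13_13_5_ok))))))) (B (M (nat_lit 493) (B (M (nat_lit 525) (B (L (nat_lit 428) ln13_16_7 ln13_16_7_ok) (M (nat_lit 524) (B (L (nat_lit 492) ln13_12_5 ln13_12_5_ok) (L (nat_lit 556) ln13_13_5 ln13_13_5_ok))))) (B (M (nat_lit 525) (B (M (nat_lit 524) (B (L (nat_lit 492) ln13_12_5 ln13_12_5_ok) (L (nat_lit 556) ln13_13_5 ln13_13_5_ok))) (M (nat_lit 526) (B (L (nat_lit 494) ln13_12_4 ln13_12_4_ok) (L (nat_lit 558) ln13_13_4 ln13_13_4_ok))))) (B (M (nat_lit 525) (B (L (nat_lit 428) ln13_16_7 ln13_16_7_ok) (M (nat_lit 526) (B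 (L (nat_lit 494) ln13_12_4 ln13_12_4_ok) (L (nat_lit 558) ln13_13_4 ln13_13_4_ok))))) (M (nat_lit 365) (B (M (nat_lit 492) (B (L (nat_lit 460) ln13_11_5 ln13_11_5_ok) (L (nat_lit 524) ln13_12_5 ln13_12_5_ok))) (M (nat_lit 333) (B (M (nat_lit 334) (B (L (nat_lit 302) ln13_13_6 ln13_13_6_ok) (L (nat_lit 366) ln13_14_6 ln13_14_6_ok))) (M (nat_lit 300) (B (L (nat_lit 332) ln13_13_7 ln13_13_7_ok) (M (nat_lit 301) (B (L (nat_lit 268) ln13_12_7 ln13_12_7_ok) (L (nat_lit 428) ln13_9_5 ln13_9_5_ok))))))))))))) (B (M (nat_lit 364) (B (L (nat_lit 493) ln13_15_7 ln13_15_7_ok) (M (nat_lit 332) (B (L (nat_lit 300) ln12_9_4 ln12_9_4_ok) (L (nat_lit 365) ln13_14_7 ln13_14_7_ok))))) (M (nat_lit 365) (B (M (nat_lit 333) (B (M (nat_lit 334) (B (L (nat_lit 302) ln13_13_6 ln13_13_6_ok) (L (nat_lit 366) ln13_14_6 ln13_14_6_ok))) (M (nat_lit 460) (B (L (nat_lit 428) ln13_10_5 ln13_10_5_ok) (L (nat_lit 492) ln13_11_5 ln13_11_5_ok)))))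 (B (M (nat_lit 333) (B (M (nat_lit 332) (B (L (nat_lit 300) ln13_13_7 ln13_13_7_ok) (L (nat_lit 364) ln13_14_7 ln13_14_7_ok))) (M (nat_lit 460) (B (L (nat_lit 428) ln13_10_5 ln13_10_5_ok) (L (nat_lit 492) ln13_11_5 ln13_11_5_ok))))) (M (nat_lit 366) (B (L (nat_lit 334) ln13_14_6 ln13_14_6_ok) (M (nat_lit 364) (B (L (nat_lit 332) ln13_14_7 ln13_14_7_ok) (M (nat_lit 367) (B (L (nat_lit 395) ln15_11_1 ln15_11_1_ok) (L (nat_lit 368) ln16_11_1 ln16_11_1_ok)))))))))))))))) (B (M (nat_lit 395) (B (M (nat_lit 430) (B (L (nat_lit 394) ln10_12_0 ln10_12_0_ok) (M (nat_lit 431) (B (L (nat_lit 398) ln11_12_0 ln11_12_0_ok) (L (nat_lit 432) ln16_13_3 ln16_13_3_ok))))) (B (M (nat_lit 398) (B (M (nat_lit 366) (B (L (nat_lit 367) ln11_12_2 ln11_12_2_ok) (M (nat_lit 334) (B (L (nat_lit 302) ln14_9_5 ln14_9_5_ok) (M (nat_lit 461) (B (L (nat_lit 365) ln13_14_6 ln13_14_6_ok) (L (nat_lit 493) ln13_15_6 ln13_15_6_ok)))))))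 (B (M (nat_lit 363) (B (L (nat_lit 362) ln14_12_3 ln14_12_3_ok) (M (nat_lit 399) (B (L (nat_lit 364) ln15_12_3 ln15_12_3_ok) (M (nat_lit 367) (B (L (nat_lit 366) ln11_12_2 ln11_12_2_ok) (L (nat_lit 368) ln12_12_2 ln12_12_2_ok))))))) (M (nat_lit 364) (B (M (nat_lit 363) (B (L (nat_lit 362) ln14_12_3 ln14_12_3_ok) (L (nat_lit 399) ln15_12_3 ln15_12_3_ok))) (M (nat_lit 332) (B (L (nat_lit 300) ln12_9_4 ln12_9_4_ok) (M (nat_lit 461) (B (L (nat_lit 365) ln13_14_7 ln13_14_7_ok) (L (nat_lit 493) ln13_15_7 ln13_15_7_ok)))))))))) (M (nat_lit 394) (B (L (nat_lit 430) ln10_12_0 ln10_12_0_ok) (M (nat_lit 393) (B (M (nat_lit 361) (B (L (nat_lit 360) ln12_12_3 ln12_12_3_ok) (L (nat_lit 362) ln13_12_3 ln13_12_3_ok))) (M (nat_lit 365) (B (L (nat_lit 364) ln9_12_2 ln9_12_2_ok) (L (nat_lit 366) ln10_12_2 ln10_12_2_ok)))))))))) (K (nat_lit 1386334847544579281930502452632026696468783264124728123740719198963059283254184240648144927045128292788721448874933630659377233920)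 (nat_lit 54918381300224900818578784074467638040982983771326998184672924299741162842775250613465172245816275078182715848403904357514902824802707369233788687775046828032) (nat_lit 54918381300224900818578784074467638040982983771326998184672924299741162842775250613465172245816275078182715848403904357514902824802707369233788687775046828032) c11_s17697)))))))))) (nat_lit 1386334847383188664550070665778531748218595021979121511688892729411143073470393764272092352380775458208712834410189682411080515584) (nat_lit 1179363258141160341638700066075064138760910140757445715598995704626889758014552039064629229357093199109487630297488813590743007460441661703693248834364140450734739030016) (nat_lit 1179363258141160341638700066075064138760910140757445715598995704626889758014552039064629229357093199109487630297488813590743007460441661703693248834364140450734739030016) (by decide +kernel)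
noncomputable def c11_n17739 : Cert := (M (nat_lit 396) (B (M (nat_lit 493) (B (L (nat_lit 364) ln13_15_7 ln13_15_7_ok) (M (nat_lit 525) (B (L (nat_lit 428) ln13_16_7 ln13_16_7_ok) (M (nat_lit 398) (B (L (nat_lit 366) ln13_15_6 ln13_15_6_ok) (L (nat_lit 430) ln13_16_6 ln13_16_6_ok))))))) (B (M (nat_lit 398) (B (M (nat_lit 493) (B (L (nat_lit 366) ln13_15_6 ln13_15_6_ok) (M (nat_lit 525) (B (L (nat_lit 428) ln13_16_7 ln13_16_7_ok) (L (nat_lit 430) ln13_16_6 ln13_16_6_ok))))) (B (M (nat_lit 395) (B (M (nat_lit 430) (B (L (nat_lit 394) ln10_12_0 ln10_12_0_ok) (L (nat_lit 431) ln11_12_0 ln11_12_0_ok))) (B (M (nat_lit 399) (B (M (nat_lit 427) (B (L (nat_lit 426) ln14_12_1 ln14_12_1_ok) (L (nat_lit 428) ln15_12_1 ln15_12_1_ok))) (M (nat_lit 431) (B (L (nat_lit 430) ln11_12_0 ln11_12_0_ok) (L (nat_lit 432) ln12_12_0 ln12_12_0_ok))))) (M (nat_lit 394) (B (M (nat_lit 362) (B (L (nat_lit 361) ln13_12_3 ln13_12_3_ok)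 (L (nat_lit 363) ln14_12_3 ln14_12_3_ok))) (M (nat_lit 426) (B (L (nat_lit 425) ln13_12_1 ln13_12_1_ok) (L (nat_lit 427) ln14_12_1 ln14_12_1_ok)))))))) (M (nat_lit 366) (B (L (nat_lit 493) ln13_15_6 ln13_15_6_ok) (M (nat_lit 334) (B (L (nat_lit 302) ln14_9_5 ln14_9_5_ok) (L (nat_lit 365) ln13_14_6 ln13_14_6_ok)))))))) (B (M (nat_lit 493) (B (L (nat_lit 364) ln13_15_7 ln13_15_7_ok) (M (nat_lit 525) (B (L (nat_lit 428) ln13_16_7 ln13_16_7_ok) (M (nat_lit 526) (B (L (nat_lit 494) ln13_12_4 ln13_12_4_ok) (L (nat_lit 558) ln13_13_4 ln13_13_4_ok))))))) (B (M (nat_lit 493) (B (L (nat_lit 364) ln13_15_7 ln13_15_7_ok) (M (nat_lit 525) (B (M (nat_lit 398) (B (L (nat_lit 366) ln13_15_6 ln13_15_6_ok) (L (nat_lit 430) ln13_16_6 ln13_16_6_ok))) (M (nat_lit 526) (B (L (nat_lit 494) ln13_12_4 ln13_12_4_ok) (L (nat_lit 558) ln13_13_4 ln13_13_4_ok))))))) (M (nat_lit 395) (B (M (nat_lit 430) (B (L (nat_lit 394) ln10_12_0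 ln10_12_0_ok) (M (nat_lit 431) (B (L (nat_lit 398) ln11_12_0 ln11_12_0_ok) (L (nat_lit 428) ln15_13_3 ln15_13_3_ok))))) (B (M (nat_lit 398) (B (M (nat_lit 430) (B (L (nat_lit 431) ln11_12_0 ln11_12_0_ok) (M (nat_lit 366) (B (L (nat_lit 334) ln14_10_5 ln14_10_5_ok) (L (nat_lit 367) ln11_12_2 ln11_12_2_ok))))) (M (nat_lit 399) (B (M (nat_lit 363) (B (L (nat_lit 362) ln14_12_3 ln14_12_3_ok) (L (nat_lit 364) ln15_12_3 ln15_12_3_ok))) (M (nat_lit 427) (B (L (nat_lit 426) ln14_12_1 ln14_12_1_ok) (L (nat_lit 428) ln15_12_1 ln15_12_1_ok))))))) (B (M (nat_lit 394) (B (L (nat_lit 430) ln10_12_0 ln10_12_0_ok) (M (nat_lit 365) (B (L (nat_lit 366) ln10_12_2 ln10_12_2_ok) (M (nat_lit 393) (B (L (nat_lit 364) ln9_12_2 ln9_12_2_ok) (L (nat_lit 428) ln9_12_0 ln9_12_0_ok))))))) (B (M (nat_lit 430) (B (L (nat_lit 394) ln10_12_0 ln10_12_0_ok) (M (nat_lit 398) (B (L (nat_lit 431) ln11_12_0 ln11_12_0_ok) (M (nat_lit 366)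 (B (L (nat_lit 334) ln14_10_5 ln14_10_5_ok) (L (nat_lit 367) ln11_12_2 ln11_12_2_ok))))))) (M (nat_lit 398) (B (M (nat_lit 366) (B (L (nat_lit 367) ln11_12_2 ln11_12_2_ok) (M (nat_lit 334) (B (L (nat_lit 302) ln14_9_5 ln14_9_5_ok) (L (nat_lit 365) ln13_14_6 ln13_14_6_ok))))) (B (M (nat_lit 366) (B (L (nat_lit 367) ln11_12_2 ln11_12_2_ok) (M (nat_lit 365) (B (L (nat_lit 334) ln13_14_6 ln13_14_6_ok) (L (nat_lit 394) ln10_12_2 ln10_12_2_ok))))) (B (M (nat_lit 394) (B (M (nat_lit 362) (B (L (nat_lit 361) ln13_12_3 ln13_12_3_ok) (L (nat_lit 363) ln14_12_3 ln14_12_3_ok))) (M (nat_lit 366) (B (L (nat_lit 365) ln10_12_2 ln10_12_2_ok) (L (nat_lit 367) ln11_12_2 ln11_12_2_ok))))) (M (nat_lit 394) (B (M (nat_lit 362) (B (L (nat_lit 361) ln13_12_3 ln13_12_3_ok) (L (nat_lit 363) ln14_12_3 ln14_12_3_ok))) (M (nat_lit 426) (B (L (nat_lit 425) ln13_12_1 ln13_12_1_ok) (L (nat_lit 427) ln14_12_1 ln14_12_1_ok)))))))))))))))))))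
noncomputable def c11_n17838 : Cert := (M (nat_lit 396) (B (M (nat_lit 364) (B (L (nat_lit 493) ln13_15_7 ln13_15_7_ok) (M (nat_lit 332) (B (L (nat_lit 300) ln12_9_4 ln12_9_4_ok) (L (nat_lit 428) ln12_10_4 ln12_10_4_ok))))) (B (M (nat_lit 493) (B (L (nat_lit 364) ln13_15_7 ln13_15_7_ok) (M (nat_lit 525) (B (L (nat_lit 428) ln13_16_7 ln13_16_7_ok) (M (nat_lit 398) (B (L (nat_lit 366) ln13_15_6 ln13_15_6_ok) (L (nat_lit 430) ln13_16_6 ln13_16_6_ok))))))) (B (M (nat_lit 398) (B (M (nat_lit 493) (B (L (nat_lit 366) ln13_15_6 ln13_15_6_ok) (M (nat_lit 525) (B (L (nat_lit 428) ln13_16_7 ln13_16_7_ok) (L (nat_lit 430) ln13_16_6 ln13_16_6_ok))))) (B (M (nat_lit 395) (B (M (nat_lit 430) (B (L (nat_lit 394) ln10_12_0 ln10_12_0_ok) (L (nat_lit 431) ln11_12_0 ln11_12_0_ok))) (B (M (nat_lit 399) (B (M (nat_lit 427) (B (L (nat_lit 426) ln14_12_1 ln14_12_1_ok) (L (nat_lit 428) ln15_12_1 ln15_12_1_ok))) (M (nat_lit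 431) (B (L (nat_lit 430) ln11_12_0 ln11_12_0_ok) (L (nat_lit 432) ln12_12_0 ln12_12_0_ok))))) (M (nat_lit 394) (B (M (nat_lit 362) (B (L (nat_lit 361) ln13_12_3 ln13_12_3_ok) (L (nat_lit 363) ln14_12_3 ln14_12_3_ok))) (M (nat_lit 426) (B (L (nat_lit 425) ln13_12_1 ln13_12_1_ok) (L (nat_lit 427) ln14_12_1 ln14_12_1_ok)))))))) (B (M (nat_lit 395) (B (M (nat_lit 366) (B (L (nat_lit 367) ln11_12_2 ln11_12_2_ok) (L (nat_lit 493) ln13_15_6 ln13_15_6_ok))) (M (nat_lit 430) (B (L (nat_lit 394) ln10_12_0 ln10_12_0_ok) (L (nat_lit 431) ln11_12_0 ln11_12_0_ok))))) (M (nat_lit 428) (B (M (nat_lit 493) (B (L (nat_lit 366) ln13_15_6 ln13_15_6_ok) (L (nat_lit 525) ln13_16_7 ln13_16_7_ok))) (M (nat_lit 427) (B (L (nat_lit 399) ln15_12_1 ln15_12_1_ok) (L (nat_lit 426) ln10_13_2 ln10_13_2_ok))))))))) (B (M (nat_lit 493) (B (L (nat_lit 364) ln13_15_7 ln13_15_7_ok) (M (nat_lit 525) (B (M (nat_lit 398) (B (L (nat_lit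 366) ln13_15_6 ln13_15_6_ok) (L (nat_lit 430) ln13_16_6 ln13_16_6_ok))) (M (nat_lit 526) (B (L (nat_lit 494) ln13_12_4 ln13_12_4_ok) (L (nat_lit 558) ln13_13_4 ln13_13_4_ok))))))) (M (nat_lit 398) (B (M (nat_lit 395) (B (M (nat_lit 430) (B (L (nat_lit 394) ln10_12_0 ln10_12_0_ok) (L (nat_lit 431) ln11_12_0 ln11_12_0_ok))) (M (nat_lit 399) (B (M (nat_lit 363) (B (L (nat_lit 362) ln14_12_3 ln14_12_3_ok) (L (nat_lit 364) ln15_12_3 ln15_12_3_ok))) (M (nat_lit 367) (B (L (nat_lit 366) ln11_12_2 ln11_12_2_ok) (L (nat_lit 368) ln12_12_2 ln12_12_2_ok))))))) (B (M (nat_lit 399) (B (M (nat_lit 428) (B (L (nat_lit 427) ln15_12_1 ln15_12_1_ok) (L (nat_lit 400) ln16_12_1 ln16_12_1_ok))) (M (nat_lit 395) (B (M (nat_lit 367) (B (L (nat_lit 366) ln11_12_2 ln11_12_2_ok) (L (nat_lit 368) ln12_12_2 ln12_12_2_ok))) (M (nat_lit 431) (B (L (nat_lit 430) ln11_12_0 ln11_12_0_ok) (L (nat_lit 432) ln12_12_0 ln12_12_0_ok)))))))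 (B (M (nat_lit 399) (B (M (nat_lit 428) (B (L (nat_lit 427) ln15_12_1 ln15_12_1_ok) (L (nat_lit 400) ln16_12_1 ln16_12_1_ok))) (M (nat_lit 395) (B (M (nat_lit 363) (B (L (nat_lit 362) ln14_12_3 ln14_12_3_ok) (L (nat_lit 364) ln15_12_3 ln15_12_3_ok))) (M (nat_lit 431) (B (L (nat_lit 430) ln11_12_0 ln11_12_0_ok) (L (nat_lit 432) ln12_12_0 ln12_12_0_ok))))))) (B (M (nat_lit 399) (B (M (nat_lit 428) (B (L (nat_lit 427) ln15_12_1 ln15_12_1_ok) (L (nat_lit 400) ln16_12_1 ln16_12_1_ok))) (B (M (nat_lit 428) (B (L (nat_lit 427) ln15_12_1 ln15_12_1_ok) (M (nat_lit 364) (B (L (nat_lit 332) ln12_10_4 ln12_10_4_ok) (L (nat_lit 363) ln15_12_3 ln15_12_3_ok))))) (B (M (nat_lit 428) (B (L (nat_lit 400) ln16_12_1 ln16_12_1_ok) (M (nat_lit 364) (B (L (nat_lit 332) ln12_10_4 ln12_10_4_ok) (L (nat_lit 363) ln15_12_3 ln15_12_3_ok))))) (M (nat_lit 400) (B (M (nat_lit 368) (B (L (nat_lit 367) ln12_12_2 ln12_12_2_ok) (L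 (nat_lit 369) ln13_12_2 ln13_12_2_ok))) (M (nat_lit 432) (B (L (nat_lit 431) ln12_12_0 ln12_12_0_ok) (L (nat_lit 433) ln13_12_0 ln13_12_0_ok))))))))) (B (M (nat_lit 395) (B (M (nat_lit 430) (B (L (nat_lit 394) ln10_12_0 ln10_12_0_ok) (L (nat_lit 431) ln11_12_0 ln11_12_0_ok))) (B (M (nat_lit 430) (B (L (nat_lit 431) ln11_12_0 ln11_12_0_ok) (M (nat_lit 366) (B (L (nat_lit 334) ln14_10_5 ln14_10_5_ok) (L (nat_lit 367) ln11_12_2 ln11_12_2_ok))))) (M (nat_lit 394) (B (M (nat_lit 362) (B (L (nat_lit 361) ln13_12_3 ln13_12_3_ok) (L (nat_lit 363) ln14_12_3 ln14_12_3_ok))) (M (nat_lit 426) (B (L (nat_lit 425) ln13_12_1 ln13_12_1_ok) (L (nat_lit 427) ln14_12_1 ln14_12_1_ok)))))))) (M (nat_lit 399) (B (M (nat_lit 428) (B (L (nat_lit 427) ln15_12_1 ln15_12_1_ok) (L (nat_lit 400) ln16_12_1 ln16_12_1_ok))) (M (nat_lit 395) (B (M (nat_lit 363) (B (L (nat_lit 362) ln14_12_3 ln14_12_3_ok) (L (nat_lit 364) ln15_12_3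 ln15_12_3_ok))) (M (nat_lit 367) (B (L (nat_lit 366) ln11_12_2 ln11_12_2_ok) (L (nat_lit 368) ln12_12_2 ln12_12_2_ok))))))))))))))))))
theorem c11_s17945 : Sem (nat_lit 5954262830815946494763249298768603811203561774969104571805089223376689777636098861358550851719243481454542035207245364041705138952691777536) (nat_lit 943490606534895625836164686006068570339509684496072599330866637472058344788317432316188552769756090759547678216178721598743314830966290973292817469059797184648728018944) (nat_lit 943490606534895625836164686006068570339509684496072599330866637472058344788317432316188552769756090759547678216178721598743314830966290973292817469059797184648728018944) :=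
  sem_of_chk (M (nat_lit 430) (B (M (nat_lit 396) (B (M (nat_lit 364) (B (L (nat_lit 493) ln13_15_7 ln13_15_7_ok) (M (nat_lit 332) (B (L (nat_lit 300) ln12_9_4 ln12_9_4_ok) (L (nat_lit 428) ln12_10_4 ln12_10_4_ok))))) (M (nat_lit 395) (B (L (nat_lit 394) ln10_12_0 ln10_12_0_ok) (M (nat_lit 431) (B (L (nat_lit 398) ln11_12_0 ln11_12_0_ok) (L (nat_lit 432) ln16_13_3 ln16_13_3_ok))))))) (B (M (nat_lit 396) (B (M (nat_lit 395) (B (L (nat_lit 394) ln10_12_0 ln10_12_0_ok) (M (nat_lit 431) (B (L (nat_lit 398) ln11_12_0 ln11_12_0_ok) (L (nat_lit 432) ln16_13_3 ln16_13_3_ok))))) (B (M (nat_lit 431) (B (L (nat_lit 432) ln16_13_3 ln16_13_3_ok) (M (nat_lit 395) (B (L (nat_lit 398) ln11_12_0 ln11_12_0_ok) (L (nat_lit 428) ln15_13_3 ln15_13_3_ok))))) (B (M (nat_lit 493) (B (L (nat_lit 364) ln13_15_7 ln13_15_7_ok) (M (nat_lit 525) (B (L (nat_lit 428) ln13_16_7 ln13_16_7_ok) (L (nat_lit 398) ln13_16_6 ln13_16_6_ok)))))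 (M (nat_lit 395) (B (L (nat_lit 394) ln10_12_0 ln10_12_0_ok) (M (nat_lit 431) (B (L (nat_lit 428) ln15_13_3 ln15_13_3_ok) (L (nat_lit 432) ln16_13_3 ln16_13_3_ok))))))))) (B (M (nat_lit 431) (B (M (nat_lit 432) (B (L (nat_lit 396) ln16_13_3 ln16_13_3_ok) (L (nat_lit 460) ln16_13_1 ln16_13_1_ok))) (B (M (nat_lit 460) (B (L (nat_lit 432) ln16_13_1 ln16_13_1_ok) (M (nat_lit 428) (B (L (nat_lit 459) ln15_13_1 ln15_13_1_ok) (M (nat_lit 365) (B (L (nat_lit 333) ln13_10_5 ln13_10_5_ok) (L (nat_lit 492) ln13_11_5 ln13_11_5_ok))))))) (B (M (nat_lit 428) (B (M (nat_lit 460) (B (L (nat_lit 459) ln15_13_1 ln15_13_1_ok) (M (nat_lit 365) (B (L (nat_lit 333) ln13_10_5 ln13_10_5_ok) (L (nat_lit 492) ln13_11_5 ln13_11_5_ok))))) (M (nat_lit 427) (B (M (nat_lit 395) (B (L (nat_lit 394) ln14_13_3 ln14_13_3_ok) (L (nat_lit 396) ln15_13_3 ln15_13_3_ok))) (M (nat_lit 399) (B (L (nat_lit 398) ln11_13_2 ln11_13_2_ok) (L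 (nat_lit 400) ln12_13_2 ln12_13_2_ok))))))) (M (nat_lit 396) (B (L (nat_lit 432) ln16_13_3 ln16_13_3_ok) (M (nat_lit 395) (B (L (nat_lit 394) ln10_12_0 ln10_12_0_ok) (L (nat_lit 428) ln15_13_3 ln15_13_3_ok))))))))) (B (M (nat_lit 396) (B (M (nat_lit 364) (B (L (nat_lit 493) ln13_15_7 ln13_15_7_ok) (M (nat_lit 332) (B (L (nat_lit 300) ln12_9_4 ln12_9_4_ok) (L (nat_lit 428) ln12_10_4 ln12_10_4_ok))))) (B (M (nat_lit 364) (B (L (nat_lit 493) ln13_15_7 ln13_15_7_ok) (M (nat_lit 332) (B (L (nat_lit 365) ln13_14_7 ln13_14_7_ok) (L (nat_lit 428) ln12_10_4 ln12_10_4_ok))))) (B (M (nat_lit 431) (B (L (nat_lit 432) ln16_13_3 ln16_13_3_ok) (M (nat_lit 395) (B (L (nat_lit 398) ln11_12_0 ln11_12_0_ok) (L (nat_lit 428) ln15_13_3 ln15_13_3_ok))))) (M (nat_lit 364) (B (L (nat_lit 493) ln13_15_7 ln13_15_7_ok) (M (nat_lit 332) (B (L (nat_lit 300) ln12_9_4 ln12_9_4_ok) (L (nat_lit 365) ln13_14_7 ln13_14_7_ok)))))))))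 (B (M (nat_lit 365) (B (M (nat_lit 460) (B (L (nat_lit 492) ln13_11_5 ln13_11_5_ok) (M (nat_lit 431) (B (L (nat_lit 432) ln16_13_1 ln16_13_1_ok) (M (nat_lit 428) (B (L (nat_lit 333) ln13_10_5 ln13_10_5_ok) (L (nat_lit 459) ln15_13_1 ln15_13_1_ok))))))) (M (nat_lit 493) (B (M (nat_lit 364) (B (L (nat_lit 332) ln13_14_7 ln13_14_7_ok) (L (nat_lit 396) ln13_15_7 ln13_15_7_ok))) (M (nat_lit 525) (B (L (nat_lit 398) ln13_16_6 ln13_16_6_ok) (M (nat_lit 526) (B (L (nat_lit 494) ln13_12_4 ln13_12_4_ok) (L (nat_lit 558) ln13_13_4 ln13_13_4_ok))))))))) (B (M (nat_lit 365) (B (M (nat_lit 460) (B (L (nat_lit 492) ln13_11_5 ln13_11_5_ok) (M (nat_lit 431) (B (L (nat_lit 432) ln16_13_1 ln16_13_1_ok) (M (nat_lit 428) (B (L (nat_lit 333) ln13_10_5 ln13_10_5_ok) (L (nat_lit 459) ln15_13_1 ln15_13_1_ok))))))) (B (M (nat_lit 460) (B (L (nat_lit 492) ln13_11_5 ln13_11_5_ok) (M (nat_lit 431) (B (L (nat_lit 432) ln16_13_1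 ln16_13_1_ok) (M (nat_lit 459) (B (L (nat_lit 428) ln15_13_1 ln15_13_1_ok) (L (nat_lit 458) ln10_14_2 ln10_14_2_ok))))))) (M (nat_lit 333) (B (M (nat_lit 332) (B (L (nat_lit 300) ln13_13_7 ln13_13_7_ok) (L (nat_lit 364) ln13_14_7 ln13_14_7_ok))) (M (nat_lit 301) (B (L (nat_lit 398) ln13_9_4 ln13_9_4_ok) (M (nat_lit 302) (B (L (nat_lit 270) ln13_12_6 ln13_12_6_ok) (L (nat_lit 334) ln13_13_6 ln13_13_6_ok)))))))))) (B (M (nat_lit 396) (B (M (nat_lit 364) (B (L (nat_lit 493) ln13_15_7 ln13_15_7_ok) (M (nat_lit 332) (B (L (nat_lit 300) ln12_9_4 ln12_9_4_ok) (L (nat_lit 365) ln13_14_7 ln13_14_7_ok))))) (B (M (nat_lit 364) (B (L (nat_lit 493) ln13_15_7 ln13_15_7_ok) (M (nat_lit 332) (B (L (nat_lit 365) ln13_14_7 ln13_14_7_ok) (L (nat_lit 428) ln12_10_4 ln12_10_4_ok))))) (M (nat_lit 395) (B (L (nat_lit 394) ln10_12_0 ln10_12_0_ok) (M (nat_lit 431) (B (L (nat_lit 428) ln15_13_3 ln15_13_3_ok) (L (nat_lit 432)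 ln16_13_3 ln16_13_3_ok)))))))) (B (M (nat_lit 396) (B (M (nat_lit 395) (B (L (nat_lit 394) ln10_12_0 ln10_12_0_ok) (M (nat_lit 431) (B (L (nat_lit 398) ln11_12_0 ln11_12_0_ok) (L (nat_lit 432) ln16_13_3 ln16_13_3_ok))))) (M (nat_lit 364) (B (L (nat_lit 493) ln13_15_7 ln13_15_7_ok) (M (nat_lit 332) (B (L (nat_lit 300) ln12_9_4 ln12_9_4_ok) (L (nat_lit 365) ln13_14_7 ln13_14_7_ok))))))) (M (nat_lit 365) (B (M (nat_lit 332) (B (L (nat_lit 364) ln13_14_7 ln13_14_7_ok) (M (nat_lit 333) (B (L (nat_lit 300) ln13_13_7 ln13_13_7_ok) (M (nat_lit 460) (B (L (nat_lit 428) ln13_10_5 ln13_10_5_ok) (L (nat_lit 492) ln13_11_5 ln13_11_5_ok))))))) (B (M (nat_lit 493) (B (M (nat_lit 364) (B (L (nat_lit 332) ln13_14_7 ln13_14_7_ok) (L (nat_lit 396) ln13_15_7 ln13_15_7_ok))) (M (nat_lit 525) (B (L (nat_lit 398) ln13_16_6 ln13_16_6_ok) (M (nat_lit 526) (B (L (nat_lit 494) ln13_12_4 ln13_12_4_ok) (L (nat_lit 558) ln13_13_4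 ln13_13_4_ok))))))) (M (nat_lit 333) (B (M (nat_lit 460) (B (L (nat_lit 428) ln13_10_5 ln13_10_5_ok) (L (nat_lit 492) ln13_11_5 ln13_11_5_ok))) (M (nat_lit 301) (B (L (nat_lit 398) ln13_9_4 ln13_9_4_ok) (M (nat_lit 302) (B (L (nat_lit 270) ln13_12_6 ln13_12_6_ok) (L (nat_lit 334) ln13_13_6 ln13_13_6_ok))))))))))))))))))) (nat_lit 5954262830815946494763249298768603811203561774969104571805089223376689777636098861358550851719243481454542035207245364041705138952691777536) (nat_lit 943490606534895625836164686006068570339509684496072599330866637472058344788317432316188552769756090759547678216178721598743314830966290973292817469059797184648728018944) (nat_lit 943490606534895625836164686006068570339509684496072599330866637472058344788317432316188552769756090759547678216178721598743314830966290973292817469059797184648728018944) (by decide +kernel)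
theorem c11_s17993 : Sem (nat_lit 1386334847383188664550070665778531748218595021979121511688892729411143073470393764272092352380775458208712834410189682411080515584) (nat_lit 1415235909637588294866359008635556444555995744032318232611283782400080534648807579128880169667300123689301656213018738730159017241460334367090936729069496224720000909312) (nat_lit 1415235909637588294866359008635556444555995744032318232611283782400080534648807579128880169667300123689301656213018738730159017241460334367090936729069496224720000909312) :=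
  sem_of_chk (M (nat_lit 461) (B (M (nat_lit 493) (B (M (nat_lit 525) (B (M (nat_lit 398) (B (L (nat_lit 366) ln13_15_6 ln13_15_6_ok) (L (nat_lit 430) ln13_16_6 ln13_16_6_ok))) (M (nat_lit 526) (B (L (nat_lit 494) ln13_12_4 ln13_12_4_ok) (L (nat_lit 558) ln13_13_4 ln13_13_4_ok))))) (B (M (nat_lit 525) (B (M (nat_lit 396) (B (L (nat_lit 364) ln13_15_7 ln13_15_7_ok) (L (nat_lit 428) ln13_16_7 ln13_16_7_ok))) (M (nat_lit 526) (B (L (nat_lit 494) ln13_12_4 ln13_12_4_ok) (L (nat_lit 558) ln13_13_4 ln13_13_4_ok))))) (B (M (nat_lit 525) (B (M (nat_lit 396) (B (L (nat_lit 364) ln13_15_7 ln13_15_7_ok) (L (nat_lit 428) ln13_16_7 ln13_16_7_ok))) (M (nat_lit 398) (B (L (nat_lit 366) ln13_15_6 ln13_15_6_ok) (L (nat_lit 430) ln13_16_6 ln13_16_6_ok))))) (M (nat_lit 364) (B (L (nat_lit 396) ln13_15_7 ln13_15_7_ok) (M (nat_lit 365) (B (L (nat_lit 332) ln13_14_7 ln13_14_7_ok) (M (nat_lit 366) (B (L (nat_lit 334) ln13_14_6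 ln13_14_6_ok) (L (nat_lit 398) ln13_15_6 ln13_15_6_ok))))))))))) (B c11_n17739 (B (M (nat_lit 493) (B (M (nat_lit 525) (B (M (nat_lit 396) (B (L (nat_lit 364) ln13_15_7 ln13_15_7_ok) (L (nat_lit 428) ln13_16_7 ln13_16_7_ok))) (M (nat_lit 398) (B (L (nat_lit 366) ln13_15_6 ln13_15_6_ok) (L (nat_lit 430) ln13_16_6 ln13_16_6_ok))))) (B (M (nat_lit 525) (B (M (nat_lit 398) (B (L (nat_lit 366) ln13_15_6 ln13_15_6_ok) (L (nat_lit 430) ln13_16_6 ln13_16_6_ok))) (M (nat_lit 526) (B (L (nat_lit 494) ln13_12_4 ln13_12_4_ok) (L (nat_lit 558) ln13_13_4 ln13_13_4_ok))))) (B (M (nat_lit 525) (B (M (nat_lit 396) (B (L (nat_lit 364) ln13_15_7 ln13_15_7_ok) (L (nat_lit 428) ln13_16_7 ln13_16_7_ok))) (M (nat_lit 526) (B (L (nat_lit 494) ln13_12_4 ln13_12_4_ok) (L (nat_lit 558) ln13_13_4 ln13_13_4_ok))))) (M (nat_lit 398) (B (L (nat_lit 366) ln13_15_6 ln13_15_6_ok) (M (nat_lit 428) (B (M (nat_lit 396) (B (L (nat_lit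 364) ln13_15_7 ln13_15_7_ok) (M (nat_lit 399) (B (L (nat_lit 427) ln15_12_1 ln15_12_1_ok) (L (nat_lit 400) ln16_12_1 ln16_12_1_ok))))) (B (M (nat_lit 399) (B (L (nat_lit 400) ln16_12_1 ln16_12_1_ok) (M (nat_lit 427) (B (L (nat_lit 396) ln15_12_1 ln15_12_1_ok) (L (nat_lit 426) ln10_13_2 ln10_13_2_ok))))) (B (M (nat_lit 399) (B (L (nat_lit 400) ln16_12_1 ln16_12_1_ok) (M (nat_lit 427) (B (L (nat_lit 426) ln10_13_2 ln10_13_2_ok) (L (nat_lit 430) ln11_13_2 ln11_13_2_ok))))) (M (nat_lit 365) (B (M (nat_lit 364) (B (L (nat_lit 332) ln13_14_7 ln13_14_7_ok) (L (nat_lit 396) ln13_15_7 ln13_15_7_ok))) (M (nat_lit 460) (B (L (nat_lit 333) ln13_10_5 ln13_10_5_ok) (L (nat_lit 492) ln13_11_5 ln13_11_5_ok))))))))))))))) (B (M (nat_lit 493) (B (M (nat_lit 525) (B (M (nat_lit 398) (B (L (nat_lit 366) ln13_15_6 ln13_15_6_ok) (L (nat_lit 430) ln13_16_6 ln13_16_6_ok))) (M (nat_lit 526) (B (L (nat_lit 494) ln13_12_4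 ln13_12_4_ok) (L (nat_lit 558) ln13_13_4 ln13_13_4_ok))))) (B (M (nat_lit 525) (B (M (nat_lit 526) (B (L (nat_lit 494) ln13_12_4 ln13_12_4_ok) (L (nat_lit 558) ln13_13_4 ln13_13_4_ok))) (M (nat_lit 428) (B (L (nat_lit 396) ln13_16_7 ln13_16_7_ok) (M (nat_lit 460) (B (L (nat_lit 557) ln13_17_7 ln13_17_7_ok) (M (nat_lit 365) (B (L (nat_lit 333) ln13_10_5 ln13_10_5_ok) (L (nat_lit 492) ln13_11_5 ln13_11_5_ok))))))))) (B (M (nat_lit 428) (B (M (nat_lit 525) (B (L (nat_lit 396) ln13_16_7 ln13_16_7_ok) (M (nat_lit 398) (B (L (nat_lit 366) ln13_15_6 ln13_15_6_ok) (L (nat_lit 430) ln13_16_6 ln13_16_6_ok))))) (B (M (nat_lit 460) (B (M (nat_lit 365) (B (L (nat_lit 333) ln13_10_5 ln13_10_5_ok) (L (nat_lit 492) ln13_11_5 ln13_11_5_ok))) (M (nat_lit 525) (B (L (nat_lit 396) ln13_16_7 ln13_16_7_ok) (L (nat_lit 557) ln13_17_7 ln13_17_7_ok))))) (M (nat_lit 365) (B (M (nat_lit 366) (B (L (nat_lit 334) ln13_14_6 ln13_14_6_ok)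 (L (nat_lit 398) ln13_15_6 ln13_15_6_ok))) (M (nat_lit 460) (B (L (nat_lit 333) ln13_10_5 ln13_10_5_ok) (L (nat_lit 492) ln13_11_5 ln13_11_5_ok)))))))) (M (nat_lit 365) (B (M (nat_lit 366) (B (L (nat_lit 334) ln13_14_6 ln13_14_6_ok) (L (nat_lit 398) ln13_15_6 ln13_15_6_ok))) (B (M (nat_lit 333) (B (M (nat_lit 460) (B (L (nat_lit 428) ln13_10_5 ln13_10_5_ok) (L (nat_lit 492) ln13_11_5 ln13_11_5_ok))) (M (nat_lit 301) (B (M (nat_lit 300) (B (L (nat_lit 268) ln13_12_7 ln13_12_7_ok) (L (nat_lit 332) ln13_13_7 ln13_13_7_ok))) (M (nat_lit 398) (B (L (nat_lit 430) ln13_9_4 ln13_9_4_ok) (L (nat_lit 366) ln13_15_6 ln13_15_6_ok))))))) (M (nat_lit 333) (B (M (nat_lit 460) (B (L (nat_lit 428) ln13_10_5 ln13_10_5_ok) (L (nat_lit 492) ln13_11_5 ln13_11_5_ok))) (M (nat_lit 301) (B (M (nat_lit 300) (B (L (nat_lit 268) ln13_12_7 ln13_12_7_ok) (L (nat_lit 332) ln13_13_7 ln13_13_7_ok))) (M (nat_lit 302) (B (L (nat_lit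 270) ln13_12_6 ln13_12_6_ok) (L (nat_lit 334) ln13_13_6 ln13_13_6_ok)))))))))))))) (B c11_n17838 (B (K (nat_lit 5954262830815946494763249298768603811203561774969104571805089223376689777636098861358550851719243481454542035207245364041705138952691777536) (nat_lit 943490606534895625836164686006068570339509684496072599330866637472058344788317432316188552769756090759547678216178721598743314830966290973292817469059797184648728018944) (nat_lit 943490606534895625836164686006068570339509684496072599330866637472058344788317432316188552769756090759547678216178721598743314830966290973292817469059797184648728018944) c11_s17945) (B (M (nat_lit 365) (B (M (nat_lit 460) (B (L (nat_lit 492) ln13_11_5 ln13_11_5_ok) (M (nat_lit 332) (B (L (nat_lit 364) ln13_14_7 ln13_14_7_ok) (M (nat_lit 333) (B (L (nat_lit 300) ln13_13_7 ln13_13_7_ok) (L (nat_lit 428) ln13_10_5 ln13_10_5_ok))))))) (B (M (nat_lit 333) (B (M (nat_lit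 334) (B (L (nat_lit 302) ln13_13_6 ln13_13_6_ok) (L (nat_lit 366) ln13_14_6 ln13_14_6_ok))) (M (nat_lit 460) (B (L (nat_lit 428) ln13_10_5 ln13_10_5_ok) (L (nat_lit 492) ln13_11_5 ln13_11_5_ok))))) (M (nat_lit 366) (B (L (nat_lit 334) ln13_14_6 ln13_14_6_ok) (M (nat_lit 364) (B (L (nat_lit 332) ln13_14_7 ln13_14_7_ok) (M (nat_lit 398) (B (L (nat_lit 493) ln13_15_6 ln13_15_6_ok) (M (nat_lit 363) (B (L (nat_lit 362) ln10_11_0 ln10_11_0_ok) (L (nat_lit 399) ln11_11_0 ln11_11_0_ok)))))))))))) (B (M (nat_lit 365) (B (M (nat_lit 460) (B (L (nat_lit 492) ln13_11_5 ln13_11_5_ok) (M (nat_lit 332) (B (L (nat_lit 364) ln13_14_7 ln13_14_7_ok) (M (nat_lit 333) (B (L (nat_lit 300) ln13_13_7 ln13_13_7_ok) (L (nat_lit 428) ln13_10_5 ln13_10_5_ok))))))) (B (M (nat_lit 333) (B (M (nat_lit 334) (B (L (nat_lit 302) ln13_13_6 ln13_13_6_ok) (L (nat_lit 366) ln13_14_6 ln13_14_6_ok))) (M (nat_lit 460) (B (L (nat_lit 428)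 ln13_10_5 ln13_10_5_ok) (L (nat_lit 492) ln13_11_5 ln13_11_5_ok))))) (M (nat_lit 364) (B (L (nat_lit 332) ln13_14_7 ln13_14_7_ok) (M (nat_lit 396) (B (L (nat_lit 493) ln13_15_7 ln13_15_7_ok) (M (nat_lit 366) (B (L (nat_lit 334) ln13_14_6 ln13_14_6_ok) (M (nat_lit 367) (B (L (nat_lit 395) ln15_11_1 ln15_11_1_ok) (L (nat_lit 368) ln16_11_1 ln16_11_1_ok)))))))))))) (B (M (nat_lit 366) (B (M (nat_lit 398) (B (L (nat_lit 493) ln13_15_6 ln13_15_6_ok) (M (nat_lit 334) (B (L (nat_lit 302) ln14_9_5 ln14_9_5_ok) (L (nat_lit 430) ln14_10_5 ln14_10_5_ok))))) (B (M (nat_lit 398) (B (L (nat_lit 493) ln13_15_6 ln13_15_6_ok) (M (nat_lit 334) (B (L (nat_lit 365) ln13_14_6 ln13_14_6_ok) (L (nat_lit 430) ln14_10_5 ln14_10_5_ok))))) (B (M (nat_lit 396) (B (M (nat_lit 493) (B (L (nat_lit 364) ln13_15_7 ln13_15_7_ok) (L (nat_lit 398) ln13_15_6 ln13_15_6_ok))) (B (M (nat_lit 395) (B (M (nat_lit 398) (B (L (nat_lit 367)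 ln11_12_2 ln11_12_2_ok) (L (nat_lit 493) ln13_15_6 ln13_15_6_ok))) (M (nat_lit 394) (B (L (nat_lit 365) ln10_12_2 ln10_12_2_ok) (L (nat_lit 430) ln10_12_0 ln10_12_0_ok))))) (B (M (nat_lit 364) (B (L (nat_lit 493) ln13_15_7 ln13_15_7_ok) (M (nat_lit 365) (B (L (nat_lit 332) ln13_14_7 ln13_14_7_ok) (M (nat_lit 367) (B (L (nat_lit 395) ln15_11_1 ln15_11_1_ok) (L (nat_lit 368) ln16_11_1 ln16_11_1_ok))))))) (M (nat_lit 395) (B (M (nat_lit 394) (B (L (nat_lit 365) ln10_12_2 ln10_12_2_ok) (L (nat_lit 430) ln10_12_0 ln10_12_0_ok))) (B (M (nat_lit 398) (B (L (nat_lit 367) ln11_12_2 ln11_12_2_ok) (M (nat_lit 430) (B (L (nat_lit 394) ln10_12_0 ln10_12_0_ok) (L (nat_lit 431) ln11_12_0 ln11_12_0_ok))))) (M (nat_lit 367) (B (L (nat_lit 398) ln11_12_2 ln11_12_2_ok) (M (nat_lit 365) (B (L (nat_lit 364) ln15_11_1 ln15_11_1_ok) (L (nat_lit 368) ln16_11_1 ln16_11_1_ok)))))))))))) (B (M (nat_lit 365) (B (L (nat_lit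 334) ln13_14_6 ln13_14_6_ok) (M (nat_lit 364) (B (L (nat_lit 332) ln13_14_7 ln13_14_7_ok) (M (nat_lit 396) (B (L (nat_lit 493) ln13_15_7 ln13_15_7_ok) (M (nat_lit 367) (B (L (nat_lit 395) ln15_11_1 ln15_11_1_ok) (L (nat_lit 368) ln16_11_1 ln16_11_1_ok))))))))) (M (nat_lit 334) (B (L (nat_lit 365) ln13_14_6 ln13_14_6_ok) (M (nat_lit 398) (B (L (nat_lit 302) ln14_9_5 ln14_9_5_ok) (L (nat_lit 430) ln14_10_5 ln14_10_5_ok)))))))))) (M (nat_lit 365) (B (M (nat_lit 460) (B (L (nat_lit 492) ln13_11_5 ln13_11_5_ok) (M (nat_lit 332) (B (L (nat_lit 364) ln13_14_7 ln13_14_7_ok) (M (nat_lit 333) (B (L (nat_lit 300) ln13_13_7 ln13_13_7_ok) (L (nat_lit 428) ln13_10_5 ln13_10_5_ok))))))) (B (M (nat_lit 333) (B (M (nat_lit 334) (B (L (nat_lit 302) ln13_13_6 ln13_13_6_ok) (L (nat_lit 366) ln13_14_6 ln13_14_6_ok))) (M (nat_lit 460) (B (L (nat_lit 428) ln13_10_5 ln13_10_5_ok) (L (nat_lit 492) ln13_11_5 ln13_11_5_ok)))))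 (M (nat_lit 364) (B (L (nat_lit 332) ln13_14_7 ln13_14_7_ok) (M (nat_lit 366) (B (L (nat_lit 334) ln13_14_6 ln13_14_6_ok) (M (nat_lit 363) (B (M (nat_lit 398) (B (L (nat_lit 362) ln10_11_0 ln10_11_0_ok) (L (nat_lit 399) ln11_11_0 ln11_11_0_ok))) (B (M (nat_lit 367) (B (M (nat_lit 395) (B (L (nat_lit 394) ln14_11_1 ln14_11_1_ok) (L (nat_lit 396) ln15_11_1 ln15_11_1_ok))) (M (nat_lit 399) (B (L (nat_lit 398) ln11_11_0 ln11_11_0_ok) (L (nat_lit 400) ln12_11_0 ln12_11_0_ok))))) (M (nat_lit 362) (B (M (nat_lit 330) (B (L (nat_lit 329) ln13_11_3 ln13_11_3_ok) (L (nat_lit 331) ln14_11_3 ln14_11_3_ok))) (M (nat_lit 394) (B (L (nat_lit 393) ln13_11_1 ln13_11_1_ok) (L (nat_lit 395) ln14_11_1 ln14_11_1_ok))))))))))))))))))))))))) (nat_lit 1386334847383188664550070665778531748218595021979121511688892729411143073470393764272092352380775458208712834410189682411080515584) (nat_lit 1415235909637588294866359008635556444555995744032318232611283782400080534648807579128880169667300123689301656213018738730159017241460334367090936729069496224720000909312)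 (nat_lit 1415235909637588294866359008635556444555995744032318232611283782400080534648807579128880169667300123689301656213018738730159017241460334367090936729069496224720000909312) (by decide +kernel)
theorem c11_s18043 : Sem (nat_lit 1732918559390376448068020119076659633523432019619508501662942381315845051621782681716168015140322157340899657477481051262147362816) (nat_lit 35163375678946447885744455382862476480311643334094134284416047372221590905800808174641803118841932636702747850408819732952919051199602782050556313600) (nat_lit 35163375678946447885744455382862476480311643334094134284416047372221590905800808174641803118841932636702747850408819732952919051199602782050556313600) :=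
  sem_of_chk (M (nat_lit 363) (B (M (nat_lit 331) (B (M (nat_lit 428) (B (L (nat_lit 299) ln11_9_4 ln11_9_4_ok) (M (nat_lit 426) (B (L (nat_lit 458) ln11_10_5 ln11_10_5_ok) (L (nat_lit 425) ln9_13_2 ln9_13_2_ok))))) (B (M (nat_lit 459) (B (M (nat_lit 330) (B (L (nat_lit 298) ln11_13_7 ln11_13_7_ok) (L (nat_lit 362) ln11_14_7 ln11_14_7_ok))) (M (nat_lit 458) (B (L (nat_lit 426) ln11_10_5 ln11_10_5_ok) (L (nat_lit 490) ln11_11_5 ln11_11_5_ok))))) (M (nat_lit 299) (B (L (nat_lit 428) ln11_9_4 ln11_9_4_ok) (M (nat_lit 300) (B (L (nat_lit 268) ln11_12_6 ln11_12_6_ok) (L (nat_lit 332) ln11_13_6 ln11_13_6_ok)))))))) (B (M (nat_lit 331) (B (M (nat_lit 428) (B (L (nat_lit 299) ln11_9_4 ln11_9_4_ok) (M (nat_lit 426) (B (L (nat_lit 458) ln11_10_5 ln11_10_5_ok) (L (nat_lit 425) ln9_13_2 ln9_13_2_ok))))) (B (M (nat_lit 459) (B (M (nat_lit 330) (B (L (nat_lit 298) ln11_13_7 ln11_13_7_ok) (L (nat_lit 362) ln11_14_7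 ln11_14_7_ok))) (M (nat_lit 458) (B (L (nat_lit 426) ln11_10_5 ln11_10_5_ok) (L (nat_lit 490) ln11_11_5 ln11_11_5_ok))))) (M (nat_lit 459) (B (M (nat_lit 330) (B (L (nat_lit 298) ln11_13_7 ln11_13_7_ok) (L (nat_lit 362) ln11_14_7 ln11_14_7_ok))) (M (nat_lit 332) (B (L (nat_lit 300) ln11_13_6 ln11_13_6_ok) (L (nat_lit 364) ln11_14_6 ln11_14_6_ok)))))))) (B (M (nat_lit 331) (B (M (nat_lit 428) (B (L (nat_lit 299) ln11_9_4 ln11_9_4_ok) (M (nat_lit 426) (B (L (nat_lit 458) ln11_10_5 ln11_10_5_ok) (L (nat_lit 425) ln9_13_2 ln9_13_2_ok))))) (B (M (nat_lit 459) (B (M (nat_lit 332) (B (L (nat_lit 300) ln11_13_6 ln11_13_6_ok) (L (nat_lit 364) ln11_14_6 ln11_14_6_ok))) (M (nat_lit 458) (B (L (nat_lit 426) ln11_10_5 ln11_10_5_ok) (L (nat_lit 490) ln11_11_5 ln11_11_5_ok))))) (M (nat_lit 299) (B (L (nat_lit 428) ln11_9_4 ln11_9_4_ok) (M (nat_lit 300) (B (L (nat_lit 268) ln11_12_6 ln11_12_6_ok) (L (nat_lit 332)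 ln11_13_6 ln11_13_6_ok)))))))) (B (M (nat_lit 331) (B (M (nat_lit 426) (B (L (nat_lit 458) ln11_10_5 ln11_10_5_ok) (M (nat_lit 425) (B (L (nat_lit 424) ln8_13_2 ln8_13_2_ok) (L (nat_lit 428) ln9_13_2 ln9_13_2_ok))))) (M (nat_lit 459) (B (M (nat_lit 330) (B (L (nat_lit 298) ln11_13_7 ln11_13_7_ok) (L (nat_lit 362) ln11_14_7 ln11_14_7_ok))) (M (nat_lit 332) (B (L (nat_lit 300) ln11_13_6 ln11_13_6_ok) (L (nat_lit 364) ln11_14_6 ln11_14_6_ok))))))) (B (M (nat_lit 331) (B (M (nat_lit 428) (B (L (nat_lit 299) ln11_9_4 ln11_9_4_ok) (M (nat_lit 426) (B (L (nat_lit 458) ln11_10_5 ln11_10_5_ok) (L (nat_lit 425) ln9_13_2 ln9_13_2_ok))))) (B (M (nat_lit 459) (B (M (nat_lit 330) (B (L (nat_lit 298) ln11_13_7 ln11_13_7_ok) (L (nat_lit 362) ln11_14_7 ln11_14_7_ok))) (M (nat_lit 458) (B (L (nat_lit 426) ln11_10_5 ln11_10_5_ok) (L (nat_lit 490) ln11_11_5 ln11_11_5_ok))))) (M (nat_lit 459) (B (M (nat_lit 330) (B (L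 (nat_lit 298) ln11_13_7 ln11_13_7_ok) (L (nat_lit 362) ln11_14_7 ln11_14_7_ok))) (M (nat_lit 364) (B (L (nat_lit 332) ln11_14_6 ln11_14_6_ok) (L (nat_lit 491) ln11_15_6 ln11_15_6_ok)))))))) (B (M (nat_lit 364) (B (M (nat_lit 332) (B (L (nat_lit 300) ln12_9_5 ln12_9_5_ok) (L (nat_lit 459) ln11_14_6 ln11_14_6_ok))) (B (M (nat_lit 459) (B (L (nat_lit 332) ln11_14_6 ln11_14_6_ok) (L (nat_lit 491) ln11_15_6 ln11_15_6_ok))) (B (M (nat_lit 459) (B (L (nat_lit 491) ln11_15_6 ln11_15_6_ok) (M (nat_lit 362) (B (L (nat_lit 330) ln11_14_7 ln11_14_7_ok) (L (nat_lit 361) ln9_11_0 ln9_11_0_ok))))) (M (nat_lit 332) (B (L (nat_lit 300) ln12_9_5 ln12_9_5_ok) (M (nat_lit 461) (B (L (nat_lit 428) ln12_10_4 ln12_10_4_ok) (L (nat_lit 493) ln13_15_7 ln13_15_7_ok))))))))) (B (M (nat_lit 331) (B (M (nat_lit 428) (B (L (nat_lit 299) ln11_9_4 ln11_9_4_ok) (M (nat_lit 426) (B (L (nat_lit 458) ln11_10_5 ln11_10_5_ok) (L (nat_lit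 425) ln9_13_2 ln9_13_2_ok))))) (M (nat_lit 362) (B (M (nat_lit 330) (B (L (nat_lit 298) ln11_13_7 ln11_13_7_ok) (L (nat_lit 459) ln11_14_7 ln11_14_7_ok))) (M (nat_lit 361) (B (L (nat_lit 360) ln8_11_0 ln8_11_0_ok) (L (nat_lit 364) ln9_11_0 ln9_11_0_ok))))))) (B (M (nat_lit 364) (B (M (nat_lit 332) (B (L (nat_lit 300) ln12_9_5 ln12_9_5_ok) (L (nat_lit 459) ln11_14_6 ln11_14_6_ok))) (B (M (nat_lit 459) (B (L (nat_lit 332) ln11_14_6 ln11_14_6_ok) (L (nat_lit 491) ln11_15_6 ln11_15_6_ok))) (B (M (nat_lit 459) (B (L (nat_lit 491) ln11_15_6 ln11_15_6_ok) (M (nat_lit 362) (B (L (nat_lit 330) ln11_14_7 ln11_14_7_ok) (L (nat_lit 361) ln9_11_0 ln9_11_0_ok))))) (M (nat_lit 332) (B (L (nat_lit 300) ln12_9_5 ln12_9_5_ok) (M (nat_lit 461) (B (L (nat_lit 365) ln13_14_7 ln13_14_7_ok) (L (nat_lit 493) ln13_15_7 ln13_15_7_ok))))))))) (M (nat_lit 331) (B (M (nat_lit 428) (B (L (nat_lit 299) ln11_9_4 ln11_9_4_ok) (M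 (nat_lit 426) (B (L (nat_lit 458) ln11_10_5 ln11_10_5_ok) (L (nat_lit 425) ln9_13_2 ln9_13_2_ok))))) (B (M (nat_lit 426) (B (L (nat_lit 458) ln11_10_5 ln11_10_5_ok) (M (nat_lit 425) (B (L (nat_lit 424) ln8_13_2 ln8_13_2_ok) (L (nat_lit 428) ln9_13_2 ln9_13_2_ok))))) (B (M (nat_lit 299) (B (L (nat_lit 428) ln11_9_4 ln11_9_4_ok) (M (nat_lit 300) (B (L (nat_lit 268) ln11_12_6 ln11_12_6_ok) (L (nat_lit 332) ln11_13_6 ln11_13_6_ok))))) (M (nat_lit 299) (B (M (nat_lit 298) (B (L (nat_lit 266) ln11_12_7 ln11_12_7_ok) (L (nat_lit 330) ln11_13_7 ln11_13_7_ok))) (M (nat_lit 300) (B (L (nat_lit 268) ln11_12_6 ln11_12_6_ok) (L (nat_lit 332) ln11_13_6 ln11_13_6_ok)))))))))))))))))) (nat_lit 1732918559390376448068020119076659633523432019619508501662942381315845051621782681716168015140322157340899657477481051262147362816) (nat_lit 35163375678946447885744455382862476480311643334094134284416047372221590905800808174641803118841932636702747850408819732952919051199602782050556313600)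 (nat_lit 35163375678946447885744455382862476480311643334094134284416047372221590905800808174641803118841932636702747850408819732952919051199602782050556313600) (by decide +kernel)
theorem c11_s18337 : Sem (nat_lit 1386334847544579281930502452632026696468783264124728123740719198963059283254184240648144927045128292788721448874933630659377233920) (nat_lit 235872651716101478396591840663569600232373529019742418038532395192881071292419733945472078765812563046563437017403913199189984614564746403051251838934988791419804581888) (nat_lit 235872651716101478396591840663569600232373529019742418038532395192881071292419733945472078765812563046563437017403913199189984614564746403051251838934988791419804581888) :=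
  sem_of_chk (M (nat_lit 365) (B (M (nat_lit 333) (B (M (nat_lit 301) (B (L (nat_lit 428) ln13_9_5 ln13_9_5_ok) (M (nat_lit 302) (B (L (nat_lit 270) ln13_12_6 ln13_12_6_ok) (L (nat_lit 334) ln13_13_6 ln13_13_6_ok))))) (B (M (nat_lit 300) (B (L (nat_lit 332) ln13_13_7 ln13_13_7_ok) (M (nat_lit 301) (B (L (nat_lit 268) ln13_12_7 ln13_12_7_ok) (L (nat_lit 428) ln13_9_5 ln13_9_5_ok))))) (M (nat_lit 461) (B (M (nat_lit 332) (B (L (nat_lit 300) ln13_13_7 ln13_13_7_ok) (L (nat_lit 364) ln13_14_7 ln13_14_7_ok))) (M (nat_lit 334) (B (L (nat_lit 302) ln13_13_6 ln13_13_6_ok) (L (nat_lit 366) ln13_14_6 ln13_14_6_ok)))))))) (B (M (nat_lit 333) (B (M (nat_lit 301) (B (L (nat_lit 428) ln13_9_5 ln13_9_5_ok) (M (nat_lit 302) (B (L (nat_lit 270) ln13_12_6 ln13_12_6_ok) (L (nat_lit 334) ln13_13_6 ln13_13_6_ok))))) (B (M (nat_lit 364) (B (M (nat_lit 301) (B (L (nat_lit 269) ln13_8_5 ln13_8_5_ok) (L (nat_lit 428) ln13_9_5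 ln13_9_5_ok))) (M (nat_lit 332) (B (L (nat_lit 300) ln13_13_7 ln13_13_7_ok) (L (nat_lit 461) ln13_14_7 ln13_14_7_ok))))) (M (nat_lit 461) (B (M (nat_lit 332) (B (L (nat_lit 300) ln13_13_7 ln13_13_7_ok) (L (nat_lit 364) ln13_14_7 ln13_14_7_ok))) (M (nat_lit 334) (B (L (nat_lit 302) ln13_13_6 ln13_13_6_ok) (L (nat_lit 366) ln13_14_6 ln13_14_6_ok)))))))) (B (M (nat_lit 333) (B (M (nat_lit 300) (B (L (nat_lit 332) ln13_13_7 ln13_13_7_ok) (M (nat_lit 301) (B (L (nat_lit 268) ln13_12_7 ln13_12_7_ok) (L (nat_lit 428) ln13_9_5 ln13_9_5_ok))))) (B (M (nat_lit 461) (B (M (nat_lit 332) (B (L (nat_lit 300) ln13_13_7 ln13_13_7_ok) (L (nat_lit 364) ln13_14_7 ln13_14_7_ok))) (M (nat_lit 334) (B (L (nat_lit 302) ln13_13_6 ln13_13_6_ok) (L (nat_lit 366) ln13_14_6 ln13_14_6_ok))))) (B (M (nat_lit 461) (B (M (nat_lit 334) (B (L (nat_lit 302) ln13_13_6 ln13_13_6_ok) (L (nat_lit 366) ln13_14_6 ln13_14_6_ok))) (M (nat_lit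 364) (B (L (nat_lit 332) ln13_14_7 ln13_14_7_ok) (L (nat_lit 493) ln13_15_7 ln13_15_7_ok))))) (M (nat_lit 428) (B (L (nat_lit 301) ln13_9_5 ln13_9_5_ok) (M (nat_lit 461) (B (M (nat_lit 334) (B (L (nat_lit 302) ln13_13_6 ln13_13_6_ok) (L (nat_lit 366) ln13_14_6 ln13_14_6_ok))) (M (nat_lit 493) (B (L (nat_lit 364) ln13_15_7 ln13_15_7_ok) (L (nat_lit 525) ln13_16_7 ln13_16_7_ok))))))))))) (B (M (nat_lit 333) (B (M (nat_lit 301) (B (L (nat_lit 428) ln13_9_5 ln13_9_5_ok) (M (nat_lit 302) (B (L (nat_lit 270) ln13_12_6 ln13_12_6_ok) (L (nat_lit 334) ln13_13_6 ln13_13_6_ok))))) (B (M (nat_lit 364) (B (M (nat_lit 301) (B (L (nat_lit 269) ln13_8_5 ln13_8_5_ok) (L (nat_lit 428) ln13_9_5 ln13_9_5_ok))) (M (nat_lit 461) (B (L (nat_lit 332) ln13_14_7 ln13_14_7_ok) (L (nat_lit 493) ln13_15_7 ln13_15_7_ok))))) (M (nat_lit 461) (B (M (nat_lit 334) (B (L (nat_lit 302) ln13_13_6 ln13_13_6_ok) (L (nat_lit 366) ln13_14_6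 ln13_14_6_ok))) (M (nat_lit 364) (B (L (nat_lit 332) ln13_14_7 ln13_14_7_ok) (L (nat_lit 493) ln13_15_7 ln13_15_7_ok)))))))) (B (M (nat_lit 461) (B (M (nat_lit 364) (B (L (nat_lit 332) ln13_14_7 ln13_14_7_ok) (L (nat_lit 493) ln13_15_7 ln13_15_7_ok))) (B (M (nat_lit 493) (B (L (nat_lit 364) ln13_15_7 ln13_15_7_ok) (M (nat_lit 366) (B (L (nat_lit 334) ln13_14_6 ln13_14_6_ok) (L (nat_lit 398) ln13_15_6 ln13_15_6_ok))))) (B (M (nat_lit 493) (B (M (nat_lit 366) (B (L (nat_lit 334) ln13_14_6 ln13_14_6_ok) (L (nat_lit 398) ln13_15_6 ln13_15_6_ok))) (M (nat_lit 524) (B (L (nat_lit 492) ln13_12_5 ln13_12_5_ok) (M (nat_lit 525) (B (L (nat_lit 428) ln13_16_7 ln13_16_7_ok) (L (nat_lit 556) ln13_13_5 ln13_13_5_ok))))))) (M (nat_lit 333) (B (M (nat_lit 332) (B (L (nat_lit 300) ln13_13_7 ln13_13_7_ok) (L (nat_lit 364) ln13_14_7 ln13_14_7_ok))) (M (nat_lit 334) (B (L (nat_lit 302) ln13_13_6 ln13_13_6_ok) (L (nat_lit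 366) ln13_14_6 ln13_14_6_ok))))))))) (B (M (nat_lit 366) (B (M (nat_lit 461) (B (L (nat_lit 334) ln13_14_6 ln13_14_6_ok) (M (nat_lit 364) (B (L (nat_lit 332) ln13_14_7 ln13_14_7_ok) (L (nat_lit 493) ln13_15_7 ln13_15_7_ok))))) (B (M (nat_lit 461) (B (L (nat_lit 334) ln13_14_6 ln13_14_6_ok) (M (nat_lit 493) (B (L (nat_lit 364) ln13_15_7 ln13_15_7_ok) (L (nat_lit 398) ln13_15_6 ln13_15_6_ok))))) (B (M (nat_lit 364) (B (M (nat_lit 332) (B (L (nat_lit 300) ln12_9_4 ln12_9_4_ok) (L (nat_lit 461) ln13_14_7 ln13_14_7_ok))) (B (M (nat_lit 367) (B (L (nat_lit 368) ln16_11_1 ln16_11_1_ok) (M (nat_lit 332) (B (L (nat_lit 331) ln15_11_3 ln15_11_3_ok) (L (nat_lit 461) ln13_14_7 ln13_14_7_ok))))) (M (nat_lit 363) (B (M (nat_lit 362) (B (L (nat_lit 361) ln9_11_0 ln9_11_0_ok) (L (nat_lit 398) ln10_11_0 ln10_11_0_ok))) (B (M (nat_lit 398) (B (L (nat_lit 362) ln10_11_0 ln10_11_0_ok) (L (nat_lit 399) ln11_11_0 ln11_11_0_ok)))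 (B (M (nat_lit 399) (B (L (nat_lit 398) ln11_11_0 ln11_11_0_ok) (M (nat_lit 367) (B (L (nat_lit 400) ln12_11_0 ln12_11_0_ok) (L (nat_lit 368) ln16_11_1 ln16_11_1_ok))))) (M (nat_lit 330) (B (L (nat_lit 331) ln14_11_3 ln14_11_3_ok) (M (nat_lit 362) (B (L (nat_lit 329) ln13_11_3 ln13_11_3_ok) (L (nat_lit 361) ln9_11_0 ln9_11_0_ok)))))))))))) (B (M (nat_lit 334) (B (L (nat_lit 461) ln13_14_6 ln13_14_6_ok) (M (nat_lit 333) (B (M (nat_lit 301) (B (L (nat_lit 428) ln13_9_5 ln13_9_5_ok) (M (nat_lit 269) (B (L (nat_lit 237) ln13_7_4 ln13_7_4_ok) (L (nat_lit 398) ln13_8_4 ln13_8_4_ok))))) (B (M (nat_lit 301) (B (L (nat_lit 428) ln13_9_5 ln13_9_5_ok) (M (nat_lit 300) (B (L (nat_lit 268) ln13_12_7 ln13_12_7_ok) (L (nat_lit 332) ln13_13_7 ln13_13_7_ok))))) (M (nat_lit 332) (B (L (nat_lit 300) ln13_13_7 ln13_13_7_ok) (M (nat_lit 331) (B (L (nat_lit 330) ln10_10_0 ln10_10_0_ok) (L (nat_lit 367) ln11_10_0 ln11_10_0_ok))))))))))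 (M (nat_lit 333) (B (M (nat_lit 301) (B (L (nat_lit 428) ln13_9_5 ln13_9_5_ok) (M (nat_lit 300) (B (L (nat_lit 268) ln13_12_7 ln13_12_7_ok) (L (nat_lit 332) ln13_13_7 ln13_13_7_ok))))) (B (M (nat_lit 301) (B (L (nat_lit 428) ln13_9_5 ln13_9_5_ok) (M (nat_lit 269) (B (L (nat_lit 364) ln13_8_5 ln13_8_5_ok) (L (nat_lit 398) ln13_8_4 ln13_8_4_ok))))) (M (nat_lit 332) (B (L (nat_lit 300) ln13_13_7 ln13_13_7_ok) (M (nat_lit 367) (B (L (nat_lit 368) ln16_11_3 ln16_11_3_ok) (M (nat_lit 331) (B (L (nat_lit 334) ln11_10_0 ln11_10_0_ok) (L (nat_lit 364) ln15_11_3 ln15_11_3_ok))))))))))))))) (B (M (nat_lit 333) (B (M (nat_lit 301) (B (L (nat_lit 428) ln13_9_5 ln13_9_5_ok) (M (nat_lit 302) (B (L (nat_lit 270) ln13_12_6 ln13_12_6_ok) (L (nat_lit 334) ln13_13_6 ln13_13_6_ok))))) (B (M (nat_lit 301) (B (L (nat_lit 428) ln13_9_5 ln13_9_5_ok) (M (nat_lit 269) (B (L (nat_lit 364) ln13_8_5 ln13_8_5_ok) (M (nat_lit 398)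 (B (L (nat_lit 366) ln13_8_4 ln13_8_4_ok) (L (nat_lit 430) ln13_9_4 ln13_9_4_ok))))))) (B (M (nat_lit 461) (B (M (nat_lit 334) (B (L (nat_lit 302) ln13_13_6 ln13_13_6_ok) (L (nat_lit 366) ln13_14_6 ln13_14_6_ok))) (B (M (nat_lit 493) (B (L (nat_lit 364) ln13_15_7 ln13_15_7_ok) (M (nat_lit 366) (B (L (nat_lit 334) ln13_14_6 ln13_14_6_ok) (L (nat_lit 398) ln13_15_6 ln13_15_6_ok))))) (B (M (nat_lit 493) (B (L (nat_lit 364) ln13_15_7 ln13_15_7_ok) (M (nat_lit 525) (B (L (nat_lit 428) ln13_16_7 ln13_16_7_ok) (M (nat_lit 398) (B (L (nat_lit 366) ln13_15_6 ln13_15_6_ok) (L (nat_lit 430) ln13_16_6 ln13_16_6_ok))))))) (M (nat_lit 493) (B (L (nat_lit 364) ln13_15_7 ln13_15_7_ok) (M (nat_lit 525) (B (L (nat_lit 428) ln13_16_7 ln13_16_7_ok) (M (nat_lit 524) (B (L (nat_lit 492) ln13_12_5 ln13_12_5_ok) (L (nat_lit 556) ln13_13_5 ln13_13_5_ok))))))))))) (M (nat_lit 364) (B (M (nat_lit 334) (B (L (nat_lit 302) ln13_13_6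 ln13_13_6_ok) (M (nat_lit 461) (B (L (nat_lit 366) ln13_14_6 ln13_14_6_ok) (L (nat_lit 493) ln13_15_7 ln13_15_7_ok))))) (M (nat_lit 398) (B (M (nat_lit 301) (B (L (nat_lit 269) ln13_8_5 ln13_8_5_ok) (L (nat_lit 430) ln13_9_4 ln13_9_4_ok))) (M (nat_lit 363) (B (L (nat_lit 362) ln10_11_0 ln10_11_0_ok) (L (nat_lit 399) ln15_12_3 ln15_12_3_ok))))))))))) (B (M (nat_lit 366) (B (M (nat_lit 334) (B (L (nat_lit 461) ln13_14_6 ln13_14_6_ok) (M (nat_lit 302) (B (L (nat_lit 270) ln14_8_5 ln14_8_5_ok) (L (nat_lit 398) ln14_9_5 ln14_9_5_ok))))) (B (M (nat_lit 364) (B (M (nat_lit 332) (B (L (nat_lit 300) ln12_9_4 ln12_9_4_ok) (L (nat_lit 461) ln13_14_7 ln13_14_7_ok))) (B (M (nat_lit 461) (B (L (nat_lit 332) ln13_14_7 ln13_14_7_ok) (L (nat_lit 334) ln13_14_6 ln13_14_6_ok))) (B (M (nat_lit 363) (B (M (nat_lit 334) (B (L (nat_lit 335) ln11_11_2 ln11_11_2_ok) (L (nat_lit 461) ln13_14_6 ln13_14_6_ok))) (M (nat_lit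 362) (B (L (nat_lit 361) ln9_11_0 ln9_11_0_ok) (L (nat_lit 398) ln10_11_0 ln10_11_0_ok))))) (M (nat_lit 332) (B (L (nat_lit 300) ln12_9_4 ln12_9_4_ok) (M (nat_lit 367) (B (L (nat_lit 331) ln15_11_3 ln15_11_3_ok) (L (nat_lit 368) ln16_11_1 ln16_11_1_ok))))))))) (B (M (nat_lit 364) (B (M (nat_lit 332) (B (L (nat_lit 300) ln12_9_4 ln12_9_4_ok) (L (nat_lit 461) ln13_14_7 ln13_14_7_ok))) (B (M (nat_lit 367) (B (L (nat_lit 368) ln16_11_1 ln16_11_1_ok) (M (nat_lit 332) (B (L (nat_lit 331) ln15_11_3 ln15_11_3_ok) (L (nat_lit 461) ln13_14_7 ln13_14_7_ok))))) (M (nat_lit 363) (B (M (nat_lit 362) (B (L (nat_lit 361) ln9_11_0 ln9_11_0_ok) (L (nat_lit 398) ln10_11_0 ln10_11_0_ok))) (B (M (nat_lit 398) (B (L (nat_lit 362) ln10_11_0 ln10_11_0_ok) (L (nat_lit 399) ln11_11_0 ln11_11_0_ok))) (B (M (nat_lit 399) (B (L (nat_lit 398) ln11_11_0 ln11_11_0_ok) (M (nat_lit 367) (B (L (nat_lit 400) ln12_11_0 ln12_11_0_ok)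 (L (nat_lit 368) ln16_11_1 ln16_11_1_ok))))) (M (nat_lit 330) (B (L (nat_lit 331) ln14_11_3 ln14_11_3_ok) (M (nat_lit 362) (B (L (nat_lit 329) ln13_11_3 ln13_11_3_ok) (L (nat_lit 361) ln9_11_0 ln9_11_0_ok)))))))))))) (B (M (nat_lit 364) (B (M (nat_lit 332) (B (L (nat_lit 300) ln12_9_4 ln12_9_4_ok) (L (nat_lit 461) ln13_14_7 ln13_14_7_ok))) (B (M (nat_lit 461) (B (L (nat_lit 332) ln13_14_7 ln13_14_7_ok) (L (nat_lit 334) ln13_14_6 ln13_14_6_ok))) (B (M (nat_lit 335) (B (M (nat_lit 334) (B (L (nat_lit 363) ln11_11_2 ln11_11_2_ok) (L (nat_lit 461) ln13_14_6 ln13_14_6_ok))) (M (nat_lit 367) (B (L (nat_lit 336) ln12_11_2 ln12_11_2_ok) (L (nat_lit 368) ln16_11_1 ln16_11_1_ok))))) (M (nat_lit 332) (B (L (nat_lit 300) ln12_9_4 ln12_9_4_ok) (M (nat_lit 367) (B (L (nat_lit 331) ln15_11_3 ln15_11_3_ok) (L (nat_lit 368) ln16_11_1 ln16_11_1_ok))))))))) (M (nat_lit 334) (B (M (nat_lit 302) (B (L (nat_lit 270) ln14_8_5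 ln14_8_5_ok) (L (nat_lit 398) ln14_9_5 ln14_9_5_ok))) (M (nat_lit 367) (B (L (nat_lit 368) ln16_11_1 ln16_11_1_ok) (M (nat_lit 364) (B (M (nat_lit 332) (B (L (nat_lit 300) ln12_9_4 ln12_9_4_ok) (L (nat_lit 331) ln15_11_3 ln15_11_3_ok))) (M (nat_lit 335) (B (L (nat_lit 363) ln11_11_2 ln11_11_2_ok) (L (nat_lit 336) ln12_11_2 ln12_11_2_ok)))))))))))))) (B (M (nat_lit 332) (B (M (nat_lit 300) (B (L (nat_lit 333) ln13_13_7 ln13_13_7_ok) (L (nat_lit 364) ln12_9_4 ln12_9_4_ok))) (B (M (nat_lit 364) (B (L (nat_lit 461) ln13_14_7 ln13_14_7_ok) (M (nat_lit 363) (B (M (nat_lit 362) (B (L (nat_lit 361) ln9_11_0 ln9_11_0_ok) (L (nat_lit 398) ln10_11_0 ln10_11_0_ok))) (M (nat_lit 331) (B (M (nat_lit 299) (B (L (nat_lit 267) ln11_8_4 ln11_8_4_ok) (L (nat_lit 428) ln12_13_7 ln12_13_7_ok))) (M (nat_lit 330) (B (L (nat_lit 329) ln9_10_0 ln9_10_0_ok) (L (nat_lit 366) ln14_11_3 ln14_11_3_ok))))))))) (M (nat_lit 333)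 (B (L (nat_lit 300) ln13_13_7 ln13_13_7_ok) (M (nat_lit 301) (B (L (nat_lit 428) ln13_9_5 ln13_9_5_ok) (M (nat_lit 269) (B (M (nat_lit 270) (B (L (nat_lit 238) ln13_11_6 ln13_11_6_ok) (L (nat_lit 302) ln13_12_6 ln13_12_6_ok))) (M (nat_lit 398) (B (L (nat_lit 366) ln13_8_4 ln13_8_4_ok) (L (nat_lit 430) ln13_9_4 ln13_9_4_ok)))))))))))) (B (M (nat_lit 333) (B (M (nat_lit 300) (B (L (nat_lit 332) ln13_13_7 ln13_13_7_ok) (M (nat_lit 301) (B (L (nat_lit 268) ln13_12_7 ln13_12_7_ok) (L (nat_lit 428) ln13_9_5 ln13_9_5_ok))))) (B (M (nat_lit 301) (B (L (nat_lit 428) ln13_9_5 ln13_9_5_ok) (M (nat_lit 302) (B (L (nat_lit 270) ln13_12_6 ln13_12_6_ok) (L (nat_lit 334) ln13_13_6 ln13_13_6_ok))))) (M (nat_lit 334) (B (L (nat_lit 302) ln13_13_6 ln13_13_6_ok) (M (nat_lit 366) (B (L (nat_lit 461) ln13_14_6 ln13_14_6_ok) (M (nat_lit 332) (B (L (nat_lit 300) ln13_13_7 ln13_13_7_ok) (M (nat_lit 331) (B (L (nat_lit 330)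 ln10_10_0 ln10_10_0_ok) (L (nat_lit 367) ln11_10_0 ln11_10_0_ok)))))))))))) (B (M (nat_lit 333) (B (M (nat_lit 301) (B (L (nat_lit 428) ln13_9_5 ln13_9_5_ok) (M (nat_lit 302) (B (L (nat_lit 270) ln13_12_6 ln13_12_6_ok) (L (nat_lit 334) ln13_13_6 ln13_13_6_ok))))) (B (M (nat_lit 300) (B (L (nat_lit 332) ln13_13_7 ln13_13_7_ok) (M (nat_lit 301) (B (L (nat_lit 268) ln13_12_7 ln13_12_7_ok) (L (nat_lit 428) ln13_9_5 ln13_9_5_ok))))) (M (nat_lit 332) (B (L (nat_lit 300) ln13_13_7 ln13_13_7_ok) (M (nat_lit 364) (B (L (nat_lit 461) ln13_14_7 ln13_14_7_ok) (M (nat_lit 334) (B (L (nat_lit 302) ln13_13_6 ln13_13_6_ok) (M (nat_lit 363) (B (L (nat_lit 335) ln15_10_1 ln15_10_1_ok) (L (nat_lit 362) ln10_11_2 ln10_11_2_ok)))))))))))) (M (nat_lit 333) (B (M (nat_lit 300) (B (L (nat_lit 332) ln13_13_7 ln13_13_7_ok) (M (nat_lit 301) (B (L (nat_lit 268) ln13_12_7 ln13_12_7_ok) (L (nat_lit 428) ln13_9_5 ln13_9_5_ok)))))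 (B (M (nat_lit 301) (B (L (nat_lit 428) ln13_9_5 ln13_9_5_ok) (M (nat_lit 302) (B (L (nat_lit 270) ln13_12_6 ln13_12_6_ok) (L (nat_lit 334) ln13_13_6 ln13_13_6_ok))))) (B (M (nat_lit 332) (B (L (nat_lit 300) ln13_13_7 ln13_13_7_ok) (M (nat_lit 331) (B (M (nat_lit 334) (B (L (nat_lit 302) ln13_13_6 ln13_13_6_ok) (M (nat_lit 366) (B (L (nat_lit 330) ln10_10_0 ln10_10_0_ok) (L (nat_lit 367) ln11_10_0 ln11_10_0_ok))))) (B (M (nat_lit 366) (B (L (nat_lit 330) ln10_10_0 ln10_10_0_ok) (M (nat_lit 367) (B (L (nat_lit 334) ln11_10_0 ln11_10_0_ok) (L (nat_lit 364) ln15_11_3 ln15_11_3_ok))))) (B (M (nat_lit 363) (B (M (nat_lit 334) (B (L (nat_lit 302) ln13_13_6 ln13_13_6_ok) (L (nat_lit 362) ln14_10_1 ln14_10_1_ok))) (B (M (nat_lit 364) (B (M (nat_lit 299) (B (L (nat_lit 267) ln11_8_4 ln11_8_4_ok) (L (nat_lit 428) ln12_13_7 ln12_13_7_ok))) (M (nat_lit 362) (B (L (nat_lit 334) ln14_10_1 ln14_10_1_ok) (L (nat_lit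 398) ln10_11_0 ln10_11_0_ok))))) (B (M (nat_lit 364) (B (M (nat_lit 299) (B (L (nat_lit 267) ln11_8_4 ln11_8_4_ok) (L (nat_lit 428) ln12_13_7 ln12_13_7_ok))) (M (nat_lit 398) (B (L (nat_lit 362) ln10_11_0 ln10_11_0_ok) (L (nat_lit 399) ln15_12_3 ln15_12_3_ok))))) (M (nat_lit 364) (B (M (nat_lit 299) (B (L (nat_lit 267) ln11_8_4 ln11_8_4_ok) (L (nat_lit 428) ln12_13_7 ln12_13_7_ok))) (M (nat_lit 334) (B (L (nat_lit 302) ln13_13_6 ln13_13_6_ok) (L (nat_lit 335) ln15_10_1 ln15_10_1_ok))))))))) (M (nat_lit 364) (B (M (nat_lit 366) (B (L (nat_lit 330) ln10_10_0 ln10_10_0_ok) (L (nat_lit 367) ln15_11_3 ln15_11_3_ok))) (M (nat_lit 363) (B (M (nat_lit 299) (B (L (nat_lit 267) ln11_8_4 ln11_8_4_ok) (L (nat_lit 428) ln12_13_7 ln12_13_7_ok))) (M (nat_lit 398) (B (L (nat_lit 362) ln10_11_0 ln10_11_0_ok) (L (nat_lit 399) ln15_12_3 ln15_12_3_ok))))))))))))) (M (nat_lit 301) (B (M (nat_lit 300) (B (L (nat_lit 268)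 ln13_12_7 ln13_12_7_ok) (L (nat_lit 332) ln13_13_7 ln13_13_7_ok))) (M (nat_lit 302) (B (L (nat_lit 270) ln13_12_6 ln13_12_6_ok) (L (nat_lit 334) ln13_13_6 ln13_13_6_ok))))))))))))))))))))) (nat_lit 1386334847544579281930502452632026696468783264124728123740719198963059283254184240648144927045128292788721448874933630659377233920) (nat_lit 235872651716101478396591840663569600232373529019742418038532395192881071292419733945472078765812563046563437017403913199189984614564746403051251838934988791419804581888) (nat_lit 235872651716101478396591840663569600232373529019742418038532395192881071292419733945472078765812563046563437017403913199189984614564746403051251838934988791419804581888) (by decide +kernel)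
noncomputable def c11_n18424 : Cert := (M (nat_lit 333) (B (M (nat_lit 301) (B (L (nat_lit 428) ln12_13_6 ln12_13_6_ok) (M (nat_lit 269) (B (L (nat_lit 237) ln13_7_5 ln13_7_5_ok) (L (nat_lit 365) ln13_8_5 ln13_8_5_ok))))) (B (M (nat_lit 331) (B (M (nat_lit 428) (B (L (nat_lit 299) ln12_13_7 ln12_13_7_ok) (L (nat_lit 301) ln12_13_6 ln12_13_6_ok))) (M (nat_lit 334) (B (M (nat_lit 302) (B (L (nat_lit 303) ln11_10_2 ln11_10_2_ok) (L (nat_lit 365) ln13_13_6 ln13_13_6_ok))) (M (nat_lit 363) (B (L (nat_lit 362) ln14_10_1 ln14_10_1_ok) (L (nat_lit 335) ln15_10_1 ln15_10_1_ok))))))) (B (M (nat_lit 334) (B (M (nat_lit 363) (B (L (nat_lit 335) ln15_10_1 ln15_10_1_ok) (M (nat_lit 362) (B (L (nat_lit 331) ln14_10_1 ln14_10_1_ok) (L (nat_lit 361) ln9_11_2 ln9_11_2_ok))))) (B (M (nat_lit 363) (B (L (nat_lit 335) ln15_10_1 ln15_10_1_ok) (M (nat_lit 362) (B (L (nat_lit 361) ln9_11_2 ln9_11_2_ok) (L (nat_lit 365)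 ln10_11_2 ln10_11_2_ok))))) (M (nat_lit 331) (B (M (nat_lit 299) (B (L (nat_lit 298) ln14_10_3 ln14_10_3_ok) (L (nat_lit 428) ln12_13_7 ln12_13_7_ok))) (M (nat_lit 302) (B (L (nat_lit 303) ln11_10_2 ln11_10_2_ok) (L (nat_lit 365) ln13_13_6 ln13_13_6_ok)))))))) (B (M (nat_lit 331) (B (M (nat_lit 428) (B (L (nat_lit 299) ln12_13_7 ln12_13_7_ok) (L (nat_lit 301) ln12_13_6 ln12_13_6_ok))) (B (M (nat_lit 363) (B (M (nat_lit 362) (B (L (nat_lit 334) ln14_10_1 ln14_10_1_ok) (L (nat_lit 361) ln9_11_2 ln9_11_2_ok))) (M (nat_lit 330) (B (M (nat_lit 298) (B (L (nat_lit 297) ln13_10_3 ln13_10_3_ok) (L (nat_lit 427) ln11_13_7 ln11_13_7_ok))) (M (nat_lit 301) (B (L (nat_lit 302) ln10_10_2 ln10_10_2_ok) (L (nat_lit 428) ln12_13_6 ln12_13_6_ok))))))) (B (M (nat_lit 363) (B (M (nat_lit 299) (B (L (nat_lit 267) ln11_8_4 ln11_8_4_ok) (L (nat_lit 428) ln12_13_7 ln12_13_7_ok))) (M (nat_lit 334) (B (L (nat_lit 362) ln14_10_1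 ln14_10_1_ok) (L (nat_lit 335) ln15_10_1 ln15_10_1_ok))))) (M (nat_lit 363) (B (M (nat_lit 362) (B (L (nat_lit 334) ln14_10_1 ln14_10_1_ok) (L (nat_lit 361) ln9_11_2 ln9_11_2_ok))) (M (nat_lit 298) (B (M (nat_lit 299) (B (L (nat_lit 266) ln11_12_7 ln11_12_7_ok) (L (nat_lit 267) ln11_8_4 ln11_8_4_ok))) (M (nat_lit 330) (B (L (nat_lit 297) ln13_10_3 ln13_10_3_ok) (L (nat_lit 427) ln11_13_7 ln11_13_7_ok))))))))))) (M (nat_lit 334) (B (M (nat_lit 363) (B (L (nat_lit 335) ln15_10_1 ln15_10_1_ok) (M (nat_lit 362) (B (L (nat_lit 331) ln14_10_1 ln14_10_1_ok) (L (nat_lit 361) ln9_11_2 ln9_11_2_ok))))) (B (M (nat_lit 363) (B (L (nat_lit 335) ln15_10_1 ln15_10_1_ok) (M (nat_lit 362) (B (L (nat_lit 361) ln9_11_2 ln9_11_2_ok) (L (nat_lit 365) ln10_11_2 ln10_11_2_ok))))) (B (M (nat_lit 331) (B (M (nat_lit 302) (B (L (nat_lit 303) ln11_10_2 ln11_10_2_ok) (L (nat_lit 365) ln13_13_6 ln13_13_6_ok))) (M (nat_lit 330)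 (B (M (nat_lit 298) (B (L (nat_lit 297) ln13_10_3 ln13_10_3_ok) (L (nat_lit 299) ln14_10_3 ln14_10_3_ok))) (M (nat_lit 362) (B (L (nat_lit 361) ln13_10_1 ln13_10_1_ok) (L (nat_lit 363) ln14_10_1 ln14_10_1_ok))))))) (B (M (nat_lit 363) (B (L (nat_lit 335) ln15_10_1 ln15_10_1_ok) (M (nat_lit 362) (B (L (nat_lit 331) ln14_10_1 ln14_10_1_ok) (L (nat_lit 365) ln10_11_2 ln10_11_2_ok))))) (M (nat_lit 331) (B (M (nat_lit 302) (B (L (nat_lit 303) ln11_10_2 ln11_10_2_ok) (L (nat_lit 365) ln13_13_6 ln13_13_6_ok))) (B (M (nat_lit 330) (B (M (nat_lit 298) (B (L (nat_lit 297) ln13_10_3 ln13_10_3_ok) (L (nat_lit 299) ln14_10_3 ln14_10_3_ok))) (M (nat_lit 365) (B (L (nat_lit 329) ln9_10_0 ln9_10_0_ok) (L (nat_lit 366) ln10_10_0 ln10_10_0_ok))))) (M (nat_lit 330) (B (M (nat_lit 298) (B (L (nat_lit 297) ln13_10_3 ln13_10_3_ok) (L (nat_lit 299) ln14_10_3 ln14_10_3_ok))) (M (nat_lit 302) (B (L (nat_lit 301) ln10_10_2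 ln10_10_2_ok) (L (nat_lit 303) ln11_10_2 ln11_10_2_ok))))))))))))))))))
noncomputable def c11_n18425 : Cert := (M (nat_lit 364) (B (M (nat_lit 461) (B (L (nat_lit 365) ln13_14_7 ln13_14_7_ok) (L (nat_lit 428) ln12_10_4 ln12_10_4_ok))) (B (M (nat_lit 461) (B (L (nat_lit 428) ln12_10_4 ln12_10_4_ok) (L (nat_lit 493) ln13_15_7 ln13_15_7_ok))) (B (M (nat_lit 461) (B (L (nat_lit 365) ln13_14_7 ln13_14_7_ok) (L (nat_lit 493) ln13_15_7 ln13_15_7_ok))) c11_n18424))))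
theorem c11_s18609 : Sem (nat_lit 1386334847625274590620718346085021179291273528290001456492043890123255421316798028073280461654224146069118267185987762907802238976) (nat_lit 1039751135295305573429280534990584585692876370179353628937521906284866514717411522846244948473408445858119775999997258833827201024) (nat_lit 1039751135295305573429280534990584585692876370179353628937521906284866514717411522846244948473408445858119775999997258833827201024) :=
  sem_of_chk (M (nat_lit 331) (B (M (nat_lit 363) (B (M (nat_lit 362) (B (L (nat_lit 334) ln14_10_1 ln14_10_1_ok) (M (nat_lit 361) (B (L (nat_lit 330) ln13_10_1 ln13_10_1_ok) (L (nat_lit 360) ln8_11_2 ln8_11_2_ok))))) (B (M (nat_lit 299) (B (L (nat_lit 428) ln11_9_4 ln11_9_4_ok) (M (nat_lit 334) (B (L (nat_lit 298) ln14_10_3 ln14_10_3_ok) (L (nat_lit 362) ln14_10_1 ln14_10_1_ok))))) (M (nat_lit 299) (B (L (nat_lit 428) ln11_9_4 ln11_9_4_ok) (M (nat_lit 300)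 (B (L (nat_lit 268) ln11_12_6 ln11_12_6_ok) (L (nat_lit 427) ln11_13_6 ln11_13_6_ok)))))))) (B (M (nat_lit 334) (B (M (nat_lit 299) (B (L (nat_lit 298) ln14_10_3 ln14_10_3_ok) (M (nat_lit 363) (B (L (nat_lit 428) ln11_9_4 ln11_9_4_ok) (L (nat_lit 362) ln14_10_1 ln14_10_1_ok))))) (B (M (nat_lit 330) (B (M (nat_lit 302) (B (L (nat_lit 301) ln10_10_2 ln10_10_2_ok) (L (nat_lit 303) ln11_10_2 ln11_10_2_ok))) (M (nat_lit 362) (B (L (nat_lit 361) ln13_10_1 ln13_10_1_ok) (L (nat_lit 363) ln14_10_1 ln14_10_1_ok))))) (M (nat_lit 330) (B (M (nat_lit 298) (B (L (nat_lit 297) ln13_10_3 ln13_10_3_ok) (L (nat_lit 299) ln14_10_3 ln14_10_3_ok))) (M (nat_lit 302) (B (L (nat_lit 301) ln10_10_2 ln10_10_2_ok) (L (nat_lit 303) ln11_10_2 ln11_10_2_ok)))))))) (B (M (nat_lit 363) (B (M (nat_lit 299) (B (L (nat_lit 428) ln11_9_4 ln11_9_4_ok) (M (nat_lit 300) (B (L (nat_lit 268) ln11_12_6 ln11_12_6_ok) (L (nat_lit 427) ln11_13_6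 ln11_13_6_ok))))) (M (nat_lit 362) (B (L (nat_lit 334) ln14_10_1 ln14_10_1_ok) (M (nat_lit 361) (B (L (nat_lit 330) ln13_10_1 ln13_10_1_ok) (L (nat_lit 360) ln8_11_2 ln8_11_2_ok))))))) (B (M (nat_lit 330) (B (M (nat_lit 363) (B (M (nat_lit 298) (B (L (nat_lit 297) ln13_10_3 ln13_10_3_ok) (L (nat_lit 427) ln11_13_7 ln11_13_7_ok))) (M (nat_lit 362) (B (L (nat_lit 361) ln13_10_1 ln13_10_1_ok) (L (nat_lit 334) ln14_10_1 ln14_10_1_ok))))) (B (M (nat_lit 363) (B (M (nat_lit 427) (B (L (nat_lit 298) ln11_13_7 ln11_13_7_ok) (L (nat_lit 300) ln11_13_6 ln11_13_6_ok))) (M (nat_lit 362) (B (L (nat_lit 361) ln13_10_1 ln13_10_1_ok) (L (nat_lit 334) ln14_10_1 ln14_10_1_ok))))) (B (M (nat_lit 334) (B (M (nat_lit 302) (B (L (nat_lit 301) ln10_10_2 ln10_10_2_ok) (L (nat_lit 303) ln11_10_2 ln11_10_2_ok))) (M (nat_lit 362) (B (L (nat_lit 361) ln13_10_1 ln13_10_1_ok) (L (nat_lit 363) ln14_10_1 ln14_10_1_ok))))) (M (nat_lit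 329) (B (M (nat_lit 297) (B (L (nat_lit 296) ln12_10_3 ln12_10_3_ok) (L (nat_lit 298) ln13_10_3 ln13_10_3_ok))) (M (nat_lit 301) (B (L (nat_lit 300) ln9_10_2 ln9_10_2_ok) (L (nat_lit 302) ln10_10_2 ln10_10_2_ok))))))))) (B (M (nat_lit 334) (B (M (nat_lit 299) (B (L (nat_lit 298) ln14_10_3 ln14_10_3_ok) (M (nat_lit 363) (B (L (nat_lit 428) ln11_9_4 ln11_9_4_ok) (L (nat_lit 362) ln14_10_1 ln14_10_1_ok))))) (M (nat_lit 335) (B (M (nat_lit 303) (B (L (nat_lit 302) ln11_10_2 ln11_10_2_ok) (L (nat_lit 304) ln12_10_2 ln12_10_2_ok))) (M (nat_lit 367) (B (L (nat_lit 366) ln11_10_0 ln11_10_0_ok) (L (nat_lit 368) ln12_10_0 ln12_10_0_ok))))))) (B (M (nat_lit 330) (B (M (nat_lit 298) (B (L (nat_lit 297) ln13_10_3 ln13_10_3_ok) (M (nat_lit 363) (B (L (nat_lit 427) ln11_13_7 ln11_13_7_ok) (M (nat_lit 362) (B (L (nat_lit 266) ln10_8_4 ln10_8_4_ok) (L (nat_lit 361) ln13_10_1 ln13_10_1_ok))))))) (B (M (nat_lit 361)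 (B (L (nat_lit 362) ln13_10_1 ln13_10_1_ok) (M (nat_lit 301) (B (L (nat_lit 302) ln10_10_2 ln10_10_2_ok) (M (nat_lit 329) (B (L (nat_lit 300) ln9_10_2 ln9_10_2_ok) (L (nat_lit 360) ln12_10_1 ln12_10_1_ok))))))) (B (M (nat_lit 298) (B (L (nat_lit 297) ln13_10_3 ln13_10_3_ok) (M (nat_lit 363) (B (L (nat_lit 427) ln11_13_7 ln11_13_7_ok) (M (nat_lit 266) (B (L (nat_lit 299) ln11_12_7 ln11_12_7_ok) (L (nat_lit 362) ln10_8_4 ln10_8_4_ok))))))) (M (nat_lit 298) (B (L (nat_lit 297) ln13_10_3 ln13_10_3_ok) (M (nat_lit 363) (B (L (nat_lit 427) ln11_13_7 ln11_13_7_ok) (M (nat_lit 299) (B (L (nat_lit 266) ln11_12_7 ln11_12_7_ok) (L (nat_lit 428) ln11_9_4 ln11_9_4_ok))))))))))) (B (M (nat_lit 299) (B (M (nat_lit 298) (B (L (nat_lit 334) ln14_10_3 ln14_10_3_ok) (M (nat_lit 297) (B (L (nat_lit 296) ln8_9_0 ln8_9_0_ok) (L (nat_lit 330) ln13_10_3 ln13_10_3_ok))))) (B (M (nat_lit 298) (B (L (nat_lit 334) ln14_10_3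 ln14_10_3_ok) (M (nat_lit 297) (B (L (nat_lit 300) ln9_9_0 ln9_9_0_ok) (L (nat_lit 330) ln13_10_3 ln13_10_3_ok))))) (M (nat_lit 363) (B (L (nat_lit 428) ln11_9_4 ln11_9_4_ok) (M (nat_lit 300) (B (L (nat_lit 268) ln11_12_6 ln11_12_6_ok) (L (nat_lit 427) ln11_13_6 ln11_13_6_ok)))))))) (M (nat_lit 330) (B (M (nat_lit 361) (B (L (nat_lit 362) ln13_10_1 ln13_10_1_ok) (M (nat_lit 301) (B (L (nat_lit 302) ln10_10_2 ln10_10_2_ok) (M (nat_lit 329) (B (L (nat_lit 300) ln9_10_2 ln9_10_2_ok) (L (nat_lit 360) ln12_10_1 ln12_10_1_ok))))))) (B (M (nat_lit 329) (B (M (nat_lit 297) (B (L (nat_lit 296) ln12_10_3 ln12_10_3_ok) (L (nat_lit 298) ln13_10_3 ln13_10_3_ok))) (M (nat_lit 361) (B (L (nat_lit 360) ln12_10_1 ln12_10_1_ok) (L (nat_lit 362) ln13_10_1 ln13_10_1_ok))))) (M (nat_lit 334) (B (M (nat_lit 298) (B (L (nat_lit 297) ln13_10_3 ln13_10_3_ok) (L (nat_lit 299) ln14_10_3 ln14_10_3_ok))) (M (nat_lit 302) (B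 (L (nat_lit 301) ln10_10_2 ln10_10_2_ok) (L (nat_lit 303) ln11_10_2 ln11_10_2_ok)))))))))))))))) (nat_lit 1386334847625274590620718346085021179291273528290001456492043890123255421316798028073280461654224146069118267185987762907802238976) (nat_lit 1039751135295305573429280534990584585692876370179353628937521906284866514717411522846244948473408445858119775999997258833827201024) (nat_lit 1039751135295305573429280534990584585692876370179353628937521906284866514717411522846244948473408445858119775999997258833827201024) (by decide +kernel)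
theorem c11_s18610 : Sem (nat_lit 1386334847625274590620718346067523173493009432895021438675102919200430065869652328581874296802944522075523259800199657491617808384) (nat_lit 5954262830469362782675366207722967043081875281534113394499457280908456383485082329954328919649897339038123189785862880206881668392246312960) (nat_lit 5954262830469362782675366207722967043081875281534113394499457280908456383485082329954328919649897339038123189785862880206881668392246312960) :=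
  sem_of_chk (M (nat_lit 333) (B (M (nat_lit 365) (B (L (nat_lit 300) ln13_13_7 ln13_13_7_ok) (M (nat_lit 302) (B (L (nat_lit 334) ln13_13_6 ln13_13_6_ok) (M (nat_lit 301) (B (L (nat_lit 270) ln13_12_6 ln13_12_6_ok) (L (nat_lit 428) ln13_9_5 ln13_9_5_ok))))))) (B (M (nat_lit 365) (B (L (nat_lit 300) ln13_13_7 ln13_13_7_ok) (M (nat_lit 334) (B (L (nat_lit 302) ln13_13_6 ln13_13_6_ok) (M (nat_lit 366) (B (L (nat_lit 461) ln13_14_6 ln13_14_6_ok) (M (nat_lit 331) (B (L (nat_lit 330) ln10_10_0 ln10_10_0_ok) (L (nat_lit 367) ln11_10_0 ln11_10_0_ok))))))))) (B (M (nat_lit 331) (B (M (nat_lit 365) (B (M (nat_lit 366) (B (L (nat_lit 330) ln10_10_0 ln10_10_0_ok) (M (nat_lit 334) (B (L (nat_lit 302) ln13_13_6 ln13_13_6_ok) (L (nat_lit 367) ln11_10_0 ln11_10_0_ok))))) (B (M (nat_lit 366) (B (L (nat_lit 330) ln10_10_0 ln10_10_0_ok) (M (nat_lit 367) (B (L (nat_lit 334) ln11_10_0 ln11_10_0_ok) (L (nat_lit 368)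 ln16_11_3 ln16_11_3_ok))))) (B (M (nat_lit 334) (B (L (nat_lit 302) ln13_13_6 ln13_13_6_ok) (M (nat_lit 366) (B (L (nat_lit 367) ln11_10_0 ln11_10_0_ok) (L (nat_lit 461) ln13_14_6 ln13_14_6_ok))))) (B (M (nat_lit 301) (B (L (nat_lit 428) ln13_9_5 ln13_9_5_ok) (M (nat_lit 330) (B (L (nat_lit 302) ln10_10_2 ln10_10_2_ok) (L (nat_lit 366) ln10_10_0 ln10_10_0_ok))))) (M (nat_lit 301) (B (L (nat_lit 428) ln13_9_5 ln13_9_5_ok) (M (nat_lit 302) (B (L (nat_lit 330) ln10_10_2 ln10_10_2_ok) (L (nat_lit 334) ln13_13_6 ln13_13_6_ok)))))))))) (B (M (nat_lit 334) (B (M (nat_lit 302) (B (L (nat_lit 303) ln11_10_2 ln11_10_2_ok) (L (nat_lit 365) ln13_13_6 ln13_13_6_ok))) (M (nat_lit 299) (B (L (nat_lit 298) ln14_10_3 ln14_10_3_ok) (M (nat_lit 363) (B (L (nat_lit 428) ln11_9_4 ln11_9_4_ok) (L (nat_lit 362) ln14_10_1 ln14_10_1_ok))))))) (B (M (nat_lit 334) (B (M (nat_lit 366) (B (L (nat_lit 367) ln11_10_0 ln11_10_0_ok)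 (M (nat_lit 365) (B (L (nat_lit 330) ln10_10_0 ln10_10_0_ok) (L (nat_lit 461) ln13_14_6 ln13_14_6_ok))))) (M (nat_lit 299) (B (L (nat_lit 298) ln14_10_3 ln14_10_3_ok) (M (nat_lit 363) (B (L (nat_lit 428) ln11_9_4 ln11_9_4_ok) (L (nat_lit 362) ln14_10_1 ln14_10_1_ok))))))) (B (M (nat_lit 330) (B (M (nat_lit 301) (B (L (nat_lit 302) ln10_10_2 ln10_10_2_ok) (M (nat_lit 365) (B (L (nat_lit 428) ln13_9_5 ln13_9_5_ok) (L (nat_lit 366) ln10_10_0 ln10_10_0_ok))))) (M (nat_lit 329) (B (M (nat_lit 297) (B (L (nat_lit 296) ln12_10_3 ln12_10_3_ok) (L (nat_lit 298) ln13_10_3 ln13_10_3_ok))) (M (nat_lit 361) (B (L (nat_lit 360) ln12_10_1 ln12_10_1_ok) (L (nat_lit 362) ln13_10_1 ln13_10_1_ok))))))) (B (M (nat_lit 334) (B (M (nat_lit 299) (B (L (nat_lit 298) ln14_10_3 ln14_10_3_ok) (M (nat_lit 363) (B (L (nat_lit 428) ln11_9_4 ln11_9_4_ok) (L (nat_lit 362) ln14_10_1 ln14_10_1_ok))))) (B (M (nat_lit 330) (B (M (nat_lit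 302) (B (L (nat_lit 301) ln10_10_2 ln10_10_2_ok) (L (nat_lit 303) ln11_10_2 ln11_10_2_ok))) (M (nat_lit 362) (B (L (nat_lit 361) ln13_10_1 ln13_10_1_ok) (L (nat_lit 363) ln14_10_1 ln14_10_1_ok))))) (M (nat_lit 330) (B (M (nat_lit 298) (B (L (nat_lit 297) ln13_10_3 ln13_10_3_ok) (L (nat_lit 299) ln14_10_3 ln14_10_3_ok))) (M (nat_lit 302) (B (L (nat_lit 301) ln10_10_2 ln10_10_2_ok) (L (nat_lit 303) ln11_10_2 ln11_10_2_ok)))))))) (M (nat_lit 334) (B (M (nat_lit 302) (B (L (nat_lit 303) ln11_10_2 ln11_10_2_ok) (L (nat_lit 365) ln13_13_6 ln13_13_6_ok))) (B (M (nat_lit 366) (B (L (nat_lit 367) ln11_10_0 ln11_10_0_ok) (M (nat_lit 365) (B (L (nat_lit 330) ln10_10_0 ln10_10_0_ok) (L (nat_lit 461) ln13_14_6 ln13_14_6_ok))))) (M (nat_lit 330) (B (M (nat_lit 298) (B (L (nat_lit 297) ln13_10_3 ln13_10_3_ok) (L (nat_lit 299) ln14_10_3 ln14_10_3_ok))) (M (nat_lit 302) (B (L (nat_lit 301) ln10_10_2 ln10_10_2_ok)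 (L (nat_lit 303) ln11_10_2 ln11_10_2_ok)))))))))))))) (B (M (nat_lit 331) (B (M (nat_lit 365) (B (L (nat_lit 300) ln13_13_7 ln13_13_7_ok) (M (nat_lit 366) (B (L (nat_lit 330) ln10_10_0 ln10_10_0_ok) (M (nat_lit 367) (B (L (nat_lit 334) ln11_10_0 ln11_10_0_ok) (L (nat_lit 368) ln16_11_3 ln16_11_3_ok))))))) (B (M (nat_lit 334) (B (M (nat_lit 366) (B (L (nat_lit 367) ln11_10_0 ln11_10_0_ok) (M (nat_lit 365) (B (L (nat_lit 330) ln10_10_0 ln10_10_0_ok) (L (nat_lit 461) ln13_14_6 ln13_14_6_ok))))) (M (nat_lit 299) (B (L (nat_lit 298) ln14_10_3 ln14_10_3_ok) (M (nat_lit 363) (B (L (nat_lit 428) ln11_9_4 ln11_9_4_ok) (L (nat_lit 362) ln14_10_1 ln14_10_1_ok))))))) (B (M (nat_lit 300) (B (L (nat_lit 365) ln13_13_7 ln13_13_7_ok) (M (nat_lit 363) (B (L (nat_lit 427) ln11_13_6 ln11_13_6_ok) (M (nat_lit 268) (B (L (nat_lit 236) ln12_7_5 ln12_7_5_ok) (L (nat_lit 299) ln11_12_6 ln11_12_6_ok))))))) (M (nat_lit 363)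 (B (M (nat_lit 299) (B (L (nat_lit 428) ln11_9_4 ln11_9_4_ok) (M (nat_lit 300) (B (L (nat_lit 268) ln11_12_6 ln11_12_6_ok) (L (nat_lit 427) ln11_13_6 ln11_13_6_ok))))) (M (nat_lit 362) (B (L (nat_lit 334) ln14_10_1 ln14_10_1_ok) (M (nat_lit 361) (B (L (nat_lit 330) ln13_10_1 ln13_10_1_ok) (L (nat_lit 360) ln8_11_2 ln8_11_2_ok))))))))))) (B (M (nat_lit 331) (B (M (nat_lit 365) (B (L (nat_lit 300) ln13_13_7 ln13_13_7_ok) (M (nat_lit 301) (B (L (nat_lit 428) ln13_9_5 ln13_9_5_ok) (M (nat_lit 330) (B (L (nat_lit 302) ln10_10_2 ln10_10_2_ok) (L (nat_lit 366) ln10_10_0 ln10_10_0_ok))))))) (B (M (nat_lit 330) (B (M (nat_lit 301) (B (L (nat_lit 302) ln10_10_2 ln10_10_2_ok) (M (nat_lit 365) (B (L (nat_lit 428) ln13_9_5 ln13_9_5_ok) (L (nat_lit 366) ln10_10_0 ln10_10_0_ok))))) (M (nat_lit 329) (B (M (nat_lit 297) (B (L (nat_lit 296) ln12_10_3 ln12_10_3_ok) (L (nat_lit 298) ln13_10_3 ln13_10_3_ok))) (M (nat_lit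 361) (B (L (nat_lit 360) ln12_10_1 ln12_10_1_ok) (L (nat_lit 362) ln13_10_1 ln13_10_1_ok))))))) (B (M (nat_lit 300) (B (L (nat_lit 365) ln13_13_7 ln13_13_7_ok) (M (nat_lit 363) (B (L (nat_lit 427) ln11_13_6 ln11_13_6_ok) (M (nat_lit 268) (B (L (nat_lit 236) ln12_7_5 ln12_7_5_ok) (L (nat_lit 299) ln11_12_6 ln11_12_6_ok))))))) (M (nat_lit 330) (B (M (nat_lit 298) (B (L (nat_lit 297) ln13_10_3 ln13_10_3_ok) (M (nat_lit 363) (B (L (nat_lit 427) ln11_13_7 ln11_13_7_ok) (M (nat_lit 362) (B (L (nat_lit 266) ln10_8_4 ln10_8_4_ok) (L (nat_lit 361) ln13_10_1 ln13_10_1_ok))))))) (B (M (nat_lit 361) (B (L (nat_lit 362) ln13_10_1 ln13_10_1_ok) (M (nat_lit 301) (B (L (nat_lit 302) ln10_10_2 ln10_10_2_ok) (M (nat_lit 329) (B (L (nat_lit 300) ln9_10_2 ln9_10_2_ok) (L (nat_lit 360) ln12_10_1 ln12_10_1_ok))))))) (B (M (nat_lit 298) (B (L (nat_lit 297) ln13_10_3 ln13_10_3_ok) (M (nat_lit 363) (B (L (nat_lit 427) ln11_13_7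 ln11_13_7_ok) (M (nat_lit 266) (B (L (nat_lit 299) ln11_12_7 ln11_12_7_ok) (L (nat_lit 362) ln10_8_4 ln10_8_4_ok))))))) (M (nat_lit 298) (B (L (nat_lit 297) ln13_10_3 ln13_10_3_ok) (M (nat_lit 363) (B (L (nat_lit 427) ln11_13_7 ln11_13_7_ok) (M (nat_lit 299) (B (L (nat_lit 266) ln11_12_7 ln11_12_7_ok) (L (nat_lit 428) ln11_9_4 ln11_9_4_ok))))))))))))))) (K (nat_lit 1386334847625274590620718346085021179291273528290001456492043890123255421316798028073280461654224146069118267185987762907802238976) (nat_lit 1039751135295305573429280534990584585692876370179353628937521906284866514717411522846244948473408445858119775999997258833827201024) (nat_lit 1039751135295305573429280534990584585692876370179353628937521906284866514717411522846244948473408445858119775999997258833827201024) c11_s18609))))))) (nat_lit 1386334847625274590620718346067523173493009432895021438675102919200430065869652328581874296802944522075523259800199657491617808384)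 (nat_lit 5954262830469362782675366207722967043081875281534113394499457280908456383485082329954328919649897339038123189785862880206881668392246312960) (nat_lit 5954262830469362782675366207722967043081875281534113394499457280908456383485082329954328919649897339038123189785862880206881668392246312960) (by decide +kernel)
noncomputable def c11_n18648 : Cert := (M (nat_lit 333) (B (M (nat_lit 300) (B (L (nat_lit 365) ln13_13_7 ln13_13_7_ok) (L (nat_lit 364) ln12_9_4 ln12_9_4_ok))) (B (M (nat_lit 334) (B (M (nat_lit 302) (B (L (nat_lit 365) ln13_13_6 ln13_13_6_ok) (M (nat_lit 303) (B (L (nat_lit 331) ln11_10_2 ln11_10_2_ok) (M (nat_lit 304) (B (L (nat_lit 301) ln16_9_1 ln16_9_1_ok) (L (nat_lit 335) ln12_10_2 ln12_10_2_ok))))))) (B (M (nat_lit 331) (B (M (nat_lit 302) (B (L (nat_lit 303) ln11_10_2 ln11_10_2_ok) (L (nat_lit 365) ln13_13_6 ln13_13_6_ok))) (M (nat_lit 299) (B (L (nat_lit 298) ln14_10_3 ln14_10_3_ok)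 (M (nat_lit 363) (B (L (nat_lit 428) ln11_9_4 ln11_9_4_ok) (L (nat_lit 362) ln14_10_1 ln14_10_1_ok))))))) (B (M (nat_lit 331) (B (M (nat_lit 299) (B (L (nat_lit 298) ln14_10_3 ln14_10_3_ok) (M (nat_lit 363) (B (L (nat_lit 428) ln11_9_4 ln11_9_4_ok) (L (nat_lit 362) ln14_10_1 ln14_10_1_ok))))) (B (M (nat_lit 330) (B (M (nat_lit 362) (B (L (nat_lit 361) ln13_10_1 ln13_10_1_ok) (L (nat_lit 363) ln14_10_1 ln14_10_1_ok))) (M (nat_lit 366) (B (L (nat_lit 365) ln10_10_0 ln10_10_0_ok) (L (nat_lit 367) ln11_10_0 ln11_10_0_ok))))) (M (nat_lit 330) (B (M (nat_lit 298) (B (L (nat_lit 297) ln13_10_3 ln13_10_3_ok) (L (nat_lit 299) ln14_10_3 ln14_10_3_ok))) (M (nat_lit 366) (B (L (nat_lit 365) ln10_10_0 ln10_10_0_ok) (L (nat_lit 367) ln11_10_0 ln11_10_0_ok)))))))) (B (M (nat_lit 365) (B (L (nat_lit 302) ln13_13_6 ln13_13_6_ok) (M (nat_lit 364) (B (M (nat_lit 301) (B (L (nat_lit 269) ln13_8_5 ln13_8_5_ok) (L (nat_lit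 428) ln12_13_6 ln12_13_6_ok))) (M (nat_lit 363) (B (L (nat_lit 335) ln15_10_1 ln15_10_1_ok) (L (nat_lit 362) ln10_11_2 ln10_11_2_ok))))))) (M (nat_lit 331) (B (M (nat_lit 299) (B (L (nat_lit 298) ln14_10_3 ln14_10_3_ok) (M (nat_lit 363) (B (L (nat_lit 428) ln11_9_4 ln11_9_4_ok) (L (nat_lit 362) ln14_10_1 ln14_10_1_ok))))) (B (M (nat_lit 330) (B (M (nat_lit 302) (B (L (nat_lit 301) ln10_10_2 ln10_10_2_ok) (L (nat_lit 303) ln11_10_2 ln11_10_2_ok))) (M (nat_lit 362) (B (L (nat_lit 361) ln13_10_1 ln13_10_1_ok) (L (nat_lit 363) ln14_10_1 ln14_10_1_ok))))) (M (nat_lit 330) (B (M (nat_lit 298) (B (L (nat_lit 297) ln13_10_3 ln13_10_3_ok) (L (nat_lit 299) ln14_10_3 ln14_10_3_ok))) (M (nat_lit 302) (B (L (nat_lit 301) ln10_10_2 ln10_10_2_ok) (L (nat_lit 303) ln11_10_2 ln11_10_2_ok))))))))))))) (B (M (nat_lit 365) (B (L (nat_lit 300) ln13_13_7 ln13_13_7_ok) (M (nat_lit 302) (B (L (nat_lit 334) ln13_13_6 ln13_13_6_ok)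 (M (nat_lit 301) (B (L (nat_lit 270) ln13_12_6 ln13_12_6_ok) (L (nat_lit 428) ln13_9_5 ln13_9_5_ok))))))) (M (nat_lit 331) (B (M (nat_lit 364) (B (L (nat_lit 300) ln12_9_4 ln12_9_4_ok) (M (nat_lit 428) (B (L (nat_lit 299) ln12_13_7 ln12_13_7_ok) (L (nat_lit 301) ln12_13_6 ln12_13_6_ok))))) (B (M (nat_lit 363) (B (M (nat_lit 300) (B (L (nat_lit 427) ln11_13_6 ln11_13_6_ok) (L (nat_lit 364) ln12_9_4 ln12_9_4_ok))) (M (nat_lit 362) (B (L (nat_lit 334) ln14_10_1 ln14_10_1_ok) (M (nat_lit 361) (B (L (nat_lit 330) ln13_10_1 ln13_10_1_ok) (L (nat_lit 360) ln8_11_2 ln8_11_2_ok))))))) (M (nat_lit 334) (B (M (nat_lit 299) (B (L (nat_lit 298) ln14_10_3 ln14_10_3_ok) (M (nat_lit 363) (B (L (nat_lit 428) ln11_9_4 ln11_9_4_ok) (L (nat_lit 362) ln14_10_1 ln14_10_1_ok))))) (B (M (nat_lit 330) (B (M (nat_lit 302) (B (L (nat_lit 301) ln10_10_2 ln10_10_2_ok) (L (nat_lit 303) ln11_10_2 ln11_10_2_ok))) (M (nat_lit 362)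 (B (L (nat_lit 361) ln13_10_1 ln13_10_1_ok) (L (nat_lit 363) ln14_10_1 ln14_10_1_ok))))) (M (nat_lit 330) (B (M (nat_lit 298) (B (L (nat_lit 297) ln13_10_3 ln13_10_3_ok) (L (nat_lit 299) ln14_10_3 ln14_10_3_ok))) (M (nat_lit 302) (B (L (nat_lit 301) ln10_10_2 ln10_10_2_ok) (L (nat_lit 303) ln11_10_2 ln11_10_2_ok)))))))))))))))
theorem c11_s18649 : Sem (nat_lit 1386334847625274590620718346058774170593877385197531429766632433739017388146079478836171214377304710078725756107305604783525593088) (nat_lit 25573364130142871189947407289140984584453059709126449283917690944997807677660468723478810386833031529045428335069614386500462882668667884800653131776) (nat_lit 25573364130142871189947407289140984584453059709126449283917690944997807677660468723478810386833031529045428335069614386500462882668667884800653131776) :=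
  sem_of_chk (M (nat_lit 332) (B (M (nat_lit 364) (B (L (nat_lit 300) ln12_9_4 ln12_9_4_ok) (M (nat_lit 461) (B (L (nat_lit 365) ln13_14_7 ln13_14_7_ok) (L (nat_lit 493) ln13_15_7 ln13_15_7_ok))))) (B c11_n18425 (B (K (nat_lit 1386334847625274590620718346067523173493009432895021438675102919200430065869652328581874296802944522075523259800199657491617808384) (nat_lit 5954262830469362782675366207722967043081875281534113394499457280908456383485082329954328919649897339038123189785862880206881668392246312960) (nat_lit 5954262830469362782675366207722967043081875281534113394499457280908456383485082329954328919649897339038123189785862880206881668392246312960) c11_s18610) (B (M (nat_lit 364) (B (L (nat_lit 300) ln12_9_4 ln12_9_4_ok) (M (nat_lit 461) (B (L (nat_lit 428) ln12_10_4 ln12_10_4_ok) (L (nat_lit 493) ln13_15_7 ln13_15_7_ok))))) c11_n18648))))) (nat_lit 1386334847625274590620718346058774170593877385197531429766632433739017388146079478836171214377304710078725756107305604783525593088)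 (nat_lit 25573364130142871189947407289140984584453059709126449283917690944997807677660468723478810386833031529045428335069614386500462882668667884800653131776) (nat_lit 25573364130142871189947407289140984584453059709126449283917690944997807677660468723478810386833031529045428335069614386500462882668667884800653131776) (by decide +kernel)
theorem c11_s18733 : Sem (nat_lit 1386334847383188664550070665778531748218595021979121511688892729411143073470393764272092352380775458208712834410189682411080515584) (nat_lit 235872651716101478406181852212373176945499762702021610216601326491262565865428229165269799967651839919287633053861107209008266363803778409408063611727735585015720837120) (nat_lit 235872651716101478406181852212373176945499762702021610216601326491262565865428229165269799967651839919287633053861107209008266363803778409408063611727735585015720837120) :=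
  sem_of_chk (M (nat_lit 396) (B (M (nat_lit 395) (B (M (nat_lit 430) (B (L (nat_lit 394) ln10_12_0 ln10_12_0_ok) (M (nat_lit 431) (B (L (nat_lit 398) ln11_12_0 ln11_12_0_ok) (L (nat_lit 432) ln16_13_3 ln16_13_3_ok))))) (B (M (nat_lit 430) (B (M (nat_lit 431) (B (L (nat_lit 398) ln11_12_0 ln11_12_0_ok) (L (nat_lit 428) ln15_13_3 ln15_13_3_ok))) (B (M (nat_lit 431) (B (L (nat_lit 428) ln15_13_3 ln15_13_3_ok) (L (nat_lit 432) ln16_13_3 ln16_13_3_ok))) (B (M (nat_lit 431) (B (L (nat_lit 398) ln11_12_0 ln11_12_0_ok) (L (nat_lit 432) ln16_13_3 ln16_13_3_ok))) (M (nat_lit 398) (B (M (nat_lit 366) (B (L (nat_lit 367) ln11_12_2 ln11_12_2_ok) (M (nat_lit 334) (B (L (nat_lit 302) ln14_9_5 ln14_9_5_ok) (L (nat_lit 461) ln14_10_5 ln14_10_5_ok))))) (M (nat_lit 399) (B (M (nat_lit 363) (B (L (nat_lit 362) ln14_12_3 ln14_12_3_ok) (L (nat_lit 364) ln15_12_3 ln15_12_3_ok))) (M (nat_lit 427) (B (L (nat_lit 426) ln14_12_1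 ln14_12_1_ok) (L (nat_lit 428) ln15_12_1 ln15_12_1_ok))))))))))) (B (M (nat_lit 430) (B (L (nat_lit 394) ln10_12_0 ln10_12_0_ok) (M (nat_lit 431) (B (L (nat_lit 428) ln15_13_3 ln15_13_3_ok) (L (nat_lit 432) ln16_13_3 ln16_13_3_ok))))) (M (nat_lit 394) (B (M (nat_lit 393) (B (L (nat_lit 428) ln9_12_0 ln9_12_0_ok) (M (nat_lit 425) (B (L (nat_lit 424) ln12_12_1 ln12_12_1_ok) (L (nat_lit 426) ln13_12_1 ln13_12_1_ok))))) (B (M (nat_lit 398) (B (M (nat_lit 362) (B (L (nat_lit 361) ln13_12_3 ln13_12_3_ok) (L (nat_lit 363) ln14_12_3 ln14_12_3_ok))) (M (nat_lit 426) (B (L (nat_lit 425) ln13_12_1 ln13_12_1_ok) (L (nat_lit 427) ln14_12_1 ln14_12_1_ok))))) (M (nat_lit 393) (B (L (nat_lit 428) ln9_12_0 ln9_12_0_ok) (M (nat_lit 361) (B (L (nat_lit 360) ln12_12_3 ln12_12_3_ok) (L (nat_lit 362) ln13_12_3 ln13_12_3_ok)))))))))))) (B (M (nat_lit 398) (B (M (nat_lit 364) (B (M (nat_lit 461) (B (L (nat_lit 493) ln13_15_7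 ln13_15_7_ok) (M (nat_lit 332) (B (L (nat_lit 300) ln12_9_4 ln12_9_4_ok) (L (nat_lit 428) ln12_10_4 ln12_10_4_ok))))) (B (M (nat_lit 461) (B (L (nat_lit 493) ln13_15_7 ln13_15_7_ok) (M (nat_lit 332) (B (L (nat_lit 365) ln13_14_7 ln13_14_7_ok) (L (nat_lit 428) ln12_10_4 ln12_10_4_ok))))) (B (M (nat_lit 399) (B (L (nat_lit 363) ln15_12_3 ln15_12_3_ok) (M (nat_lit 400) (B (L (nat_lit 365) ln16_12_3 ln16_12_3_ok) (L (nat_lit 428) ln16_12_1 ln16_12_1_ok))))) (M (nat_lit 332) (B (L (nat_lit 300) ln12_9_4 ln12_9_4_ok) (M (nat_lit 461) (B (L (nat_lit 365) ln13_14_7 ln13_14_7_ok) (L (nat_lit 493) ln13_15_7 ln13_15_7_ok))))))))) (B (M (nat_lit 399) (B (M (nat_lit 428) (B (L (nat_lit 427) ln15_12_1 ln15_12_1_ok) (L (nat_lit 400) ln16_12_1 ln16_12_1_ok))) (B (M (nat_lit 395) (B (M (nat_lit 367) (B (L (nat_lit 366) ln11_12_2 ln11_12_2_ok) (L (nat_lit 368) ln12_12_2 ln12_12_2_ok))) (M (nat_lit 427) (B (L (nat_lit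 426) ln14_12_1 ln14_12_1_ok) (L (nat_lit 428) ln15_12_1 ln15_12_1_ok))))) (B (M (nat_lit 400) (B (L (nat_lit 428) ln16_12_1 ln16_12_1_ok) (M (nat_lit 368) (B (L (nat_lit 367) ln12_12_2 ln12_12_2_ok) (L (nat_lit 369) ln13_12_2 ln13_12_2_ok))))) (M (nat_lit 364) (B (L (nat_lit 363) ln15_12_3 ln15_12_3_ok) (M (nat_lit 368) (B (L (nat_lit 367) ln12_12_2 ln12_12_2_ok) (M (nat_lit 400) (B (L (nat_lit 365) ln16_12_3 ln16_12_3_ok) (L (nat_lit 369) ln13_12_2 ln13_12_2_ok))))))))))) (B (M (nat_lit 399) (B (M (nat_lit 428) (B (L (nat_lit 427) ln15_12_1 ln15_12_1_ok) (L (nat_lit 400) ln16_12_1 ln16_12_1_ok))) (M (nat_lit 395) (B (M (nat_lit 367) (B (L (nat_lit 366) ln11_12_2 ln11_12_2_ok) (L (nat_lit 368) ln12_12_2 ln12_12_2_ok))) (M (nat_lit 431) (B (L (nat_lit 430) ln11_12_0 ln11_12_0_ok) (L (nat_lit 432) ln12_12_0 ln12_12_0_ok))))))) (M (nat_lit 366) (B (M (nat_lit 367) (B (L (nat_lit 395) ln11_12_2 ln11_12_2_ok)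 (M (nat_lit 368) (B (L (nat_lit 365) ln16_11_1 ln16_11_1_ok) (L (nat_lit 369) ln17_11_1 ln17_11_1_ok))))) (B (M (nat_lit 395) (B (L (nat_lit 367) ln11_12_2 ln11_12_2_ok) (M (nat_lit 430) (B (L (nat_lit 394) ln10_12_0 ln10_12_0_ok) (L (nat_lit 431) ln11_12_0 ln11_12_0_ok))))) (M (nat_lit 461) (B (L (nat_lit 493) ln13_15_6 ln13_15_6_ok) (M (nat_lit 334) (B (L (nat_lit 365) ln13_14_6 ln13_14_6_ok) (L (nat_lit 430) ln14_10_5 ln14_10_5_ok)))))))))))) (B (M (nat_lit 395) (B (M (nat_lit 430) (B (L (nat_lit 394) ln10_12_0 ln10_12_0_ok) (M (nat_lit 431) (B (L (nat_lit 398) ln11_12_0 ln11_12_0_ok) (L (nat_lit 432) ln16_13_3 ln16_13_3_ok))))) (B (M (nat_lit 427) (B (M (nat_lit 426) (B (L (nat_lit 398) ln14_12_1 ln14_12_1_ok) (M (nat_lit 425) (B (L (nat_lit 424) ln8_13_2 ln8_13_2_ok) (L (nat_lit 428) ln9_13_2 ln9_13_2_ok))))) (B (K (nat_lit 1732918559390376448068020119076659633523432019619508501662942381315845051621782681716168015140322157340899657477481051262147362816)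 (nat_lit 35163375678946447885744455382862476480311643334094134284416047372221590905800808174641803118841932636702747850408819732952919051199602782050556313600) (nat_lit 35163375678946447885744455382862476480311643334094134284416047372221590905800808174641803118841932636702747850408819732952919051199602782050556313600) c11_s18043) (B (M (nat_lit 398) (B (L (nat_lit 426) ln14_12_1 ln14_12_1_ok) (M (nat_lit 399) (B (L (nat_lit 428) ln15_12_1 ln15_12_1_ok) (M (nat_lit 367) (B (L (nat_lit 366) ln11_12_2 ln11_12_2_ok) (L (nat_lit 368) ln12_12_2 ln12_12_2_ok))))))) (B (M (nat_lit 430) (B (M (nat_lit 431) (B (L (nat_lit 398) ln11_12_0 ln11_12_0_ok) (L (nat_lit 428) ln15_13_3 ln15_13_3_ok))) (B (M (nat_lit 431) (B (L (nat_lit 428) ln15_13_3 ln15_13_3_ok) (L (nat_lit 432) ln16_13_3 ln16_13_3_ok))) (B (M (nat_lit 431) (B (L (nat_lit 398) ln11_12_0 ln11_12_0_ok) (L (nat_lit 432) ln16_13_3 ln16_13_3_ok))) (M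 (nat_lit 459) (B (M (nat_lit 364) (B (L (nat_lit 491) ln11_15_6 ln11_15_6_ok) (M (nat_lit 428) (B (L (nat_lit 332) ln12_10_5 ln12_10_5_ok) (L (nat_lit 458) ln14_13_1 ln14_13_1_ok))))) (B (M (nat_lit 363) (B (M (nat_lit 362) (B (L (nat_lit 330) ln11_14_7 ln11_14_7_ok) (L (nat_lit 398) ln14_12_3 ln14_12_3_ok))) (M (nat_lit 458) (B (L (nat_lit 490) ln11_11_5 ln11_11_5_ok) (L (nat_lit 428) ln14_13_1 ln14_13_1_ok))))) (M (nat_lit 364) (B (L (nat_lit 491) ln11_15_6 ln11_15_6_ok) (M (nat_lit 332) (B (L (nat_lit 300) ln12_9_5 ln12_9_5_ok) (L (nat_lit 363) ln11_14_6 ln11_14_6_ok)))))))))))) (M (nat_lit 398) (B (L (nat_lit 426) ln14_12_1 ln14_12_1_ok) (M (nat_lit 399) (B (M (nat_lit 363) (B (L (nat_lit 362) ln14_12_3 ln14_12_3_ok) (L (nat_lit 364) ln15_12_3 ln15_12_3_ok))) (M (nat_lit 431) (B (L (nat_lit 430) ln11_12_0 ln11_12_0_ok) (L (nat_lit 432) ln12_12_0 ln12_12_0_ok)))))))))))) (B (M (nat_lit 430) (B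 (L (nat_lit 394) ln10_12_0 ln10_12_0_ok) (M (nat_lit 431) (B (L (nat_lit 428) ln15_13_3 ln15_13_3_ok) (L (nat_lit 432) ln16_13_3 ln16_13_3_ok))))) (M (nat_lit 394) (B (M (nat_lit 393) (B (L (nat_lit 428) ln9_12_0 ln9_12_0_ok) (M (nat_lit 425) (B (L (nat_lit 424) ln12_12_1 ln12_12_1_ok) (L (nat_lit 426) ln13_12_1 ln13_12_1_ok))))) (B (M (nat_lit 398) (B (M (nat_lit 362) (B (L (nat_lit 361) ln13_12_3 ln13_12_3_ok) (L (nat_lit 363) ln14_12_3 ln14_12_3_ok))) (M (nat_lit 426) (B (L (nat_lit 425) ln13_12_1 ln13_12_1_ok) (L (nat_lit 427) ln14_12_1 ln14_12_1_ok))))) (M (nat_lit 393) (B (L (nat_lit 428) ln9_12_0 ln9_12_0_ok) (M (nat_lit 361) (B (L (nat_lit 360) ln12_12_3 ln12_12_3_ok) (L (nat_lit 362) ln13_12_3 ln13_12_3_ok)))))))))))) (B (M (nat_lit 395) (B (M (nat_lit 430) (B (L (nat_lit 394) ln10_12_0 ln10_12_0_ok) (M (nat_lit 431) (B (L (nat_lit 428) ln15_13_3 ln15_13_3_ok) (L (nat_lit 432) ln16_13_3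 ln16_13_3_ok))))) (B (M (nat_lit 398) (B (M (nat_lit 366) (B (L (nat_lit 367) ln11_12_2 ln11_12_2_ok) (M (nat_lit 461) (B (L (nat_lit 493) ln13_15_6 ln13_15_6_ok) (M (nat_lit 334) (B (L (nat_lit 302) ln14_9_5 ln14_9_5_ok) (L (nat_lit 430) ln14_10_5 ln14_10_5_ok))))))) (B (M (nat_lit 399) (B (M (nat_lit 431) (B (L (nat_lit 430) ln11_12_0 ln11_12_0_ok) (L (nat_lit 432) ln12_12_0 ln12_12_0_ok))) (M (nat_lit 428) (B (L (nat_lit 427) ln15_12_1 ln15_12_1_ok) (L (nat_lit 400) ln16_12_1 ln16_12_1_ok))))) (M (nat_lit 366) (B (L (nat_lit 367) ln11_12_2 ln11_12_2_ok) (M (nat_lit 334) (B (L (nat_lit 302) ln14_9_5 ln14_9_5_ok) (M (nat_lit 461) (B (L (nat_lit 365) ln13_14_6 ln13_14_6_ok) (L (nat_lit 493) ln13_15_6 ln13_15_6_ok)))))))))) (B (M (nat_lit 430) (B (L (nat_lit 394) ln10_12_0 ln10_12_0_ok) (M (nat_lit 431) (B (L (nat_lit 398) ln11_12_0 ln11_12_0_ok) (L (nat_lit 432) ln16_13_3 ln16_13_3_ok))))) (M (nat_lit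 394) (B (M (nat_lit 393) (B (L (nat_lit 428) ln9_12_0 ln9_12_0_ok) (M (nat_lit 425) (B (L (nat_lit 424) ln12_12_1 ln12_12_1_ok) (L (nat_lit 426) ln13_12_1 ln13_12_1_ok))))) (B (M (nat_lit 398) (B (M (nat_lit 366) (B (L (nat_lit 365) ln10_12_2 ln10_12_2_ok) (L (nat_lit 367) ln11_12_2 ln11_12_2_ok))) (M (nat_lit 426) (B (L (nat_lit 425) ln13_12_1 ln13_12_1_ok) (L (nat_lit 427) ln14_12_1 ln14_12_1_ok))))) (M (nat_lit 393) (B (L (nat_lit 428) ln9_12_0 ln9_12_0_ok) (M (nat_lit 361) (B (L (nat_lit 360) ln12_12_3 ln12_12_3_ok) (L (nat_lit 362) ln13_12_3 ln13_12_3_ok)))))))))))) (B (M (nat_lit 395) (B (M (nat_lit 430) (B (L (nat_lit 394) ln10_12_0 ln10_12_0_ok) (M (nat_lit 431) (B (L (nat_lit 398) ln11_12_0 ln11_12_0_ok) (L (nat_lit 432) ln16_13_3 ln16_13_3_ok))))) (B (M (nat_lit 427) (B (M (nat_lit 426) (B (L (nat_lit 398) ln14_12_1 ln14_12_1_ok) (M (nat_lit 425) (B (L (nat_lit 424) ln8_13_2 ln8_13_2_ok)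 (L (nat_lit 428) ln9_13_2 ln9_13_2_ok))))) (B (K (nat_lit 1732918559390376448068020119076659633523432019619508501662942381315845051621782681716168015140322157340899657477481051262147362816) (nat_lit 35163375678946447885744455382862476480311643334094134284416047372221590905800808174641803118841932636702747850408819732952919051199602782050556313600) (nat_lit 35163375678946447885744455382862476480311643334094134284416047372221590905800808174641803118841932636702747850408819732952919051199602782050556313600) c11_s18043) (B (M (nat_lit 398) (B (L (nat_lit 426) ln14_12_1 ln14_12_1_ok) (M (nat_lit 399) (B (L (nat_lit 428) ln15_12_1 ln15_12_1_ok) (M (nat_lit 363) (B (L (nat_lit 362) ln14_12_3 ln14_12_3_ok) (L (nat_lit 364) ln15_12_3 ln15_12_3_ok))))))) (B (M (nat_lit 430) (B (M (nat_lit 431) (B (L (nat_lit 398) ln11_12_0 ln11_12_0_ok) (L (nat_lit 428) ln15_13_3 ln15_13_3_ok))) (B (M (nat_lit 431) (B (L (nat_lit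 428) ln15_13_3 ln15_13_3_ok) (L (nat_lit 432) ln16_13_3 ln16_13_3_ok))) (B (M (nat_lit 431) (B (L (nat_lit 398) ln11_12_0 ln11_12_0_ok) (L (nat_lit 432) ln16_13_3 ln16_13_3_ok))) (M (nat_lit 363) (B (M (nat_lit 362) (B (L (nat_lit 398) ln14_12_3 ln14_12_3_ok) (M (nat_lit 361) (B (L (nat_lit 360) ln8_11_0 ln8_11_0_ok) (L (nat_lit 364) ln9_11_0 ln9_11_0_ok))))) (B (M (nat_lit 459) (B (M (nat_lit 362) (B (L (nat_lit 330) ln11_14_7 ln11_14_7_ok) (L (nat_lit 398) ln14_12_3 ln14_12_3_ok))) (M (nat_lit 364) (B (L (nat_lit 332) ln11_14_6 ln11_14_6_ok) (L (nat_lit 491) ln11_15_6 ln11_15_6_ok))))) (B (M (nat_lit 459) (B (M (nat_lit 364) (B (L (nat_lit 332) ln11_14_6 ln11_14_6_ok) (L (nat_lit 491) ln11_15_6 ln11_15_6_ok))) (M (nat_lit 458) (B (L (nat_lit 490) ln11_11_5 ln11_11_5_ok) (L (nat_lit 428) ln14_13_1 ln14_13_1_ok))))) (M (nat_lit 459) (B (M (nat_lit 362) (B (L (nat_lit 330) ln11_14_7 ln11_14_7_ok)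 (L (nat_lit 398) ln14_12_3 ln14_12_3_ok))) (M (nat_lit 458) (B (L (nat_lit 490) ln11_11_5 ln11_11_5_ok) (L (nat_lit 428) ln14_13_1 ln14_13_1_ok))))))))))))) (M (nat_lit 364) (B (M (nat_lit 332) (B (L (nat_lit 300) ln12_9_5 ln12_9_5_ok) (M (nat_lit 459) (B (L (nat_lit 363) ln11_14_6 ln11_14_6_ok) (L (nat_lit 491) ln11_15_6 ln11_15_6_ok))))) (B (M (nat_lit 398) (B (L (nat_lit 426) ln14_12_1 ln14_12_1_ok) (M (nat_lit 363) (B (L (nat_lit 362) ln14_12_3 ln14_12_3_ok) (L (nat_lit 399) ln15_12_3 ln15_12_3_ok))))) (M (nat_lit 332) (B (L (nat_lit 300) ln12_9_5 ln12_9_5_ok) (M (nat_lit 461) (B (L (nat_lit 365) ln13_14_7 ln13_14_7_ok) (L (nat_lit 493) ln13_15_7 ln13_15_7_ok))))))))))))) (B (M (nat_lit 430) (B (L (nat_lit 394) ln10_12_0 ln10_12_0_ok) (M (nat_lit 431) (B (L (nat_lit 428) ln15_13_3 ln15_13_3_ok) (L (nat_lit 432) ln16_13_3 ln16_13_3_ok))))) (M (nat_lit 394) (B (M (nat_lit 393) (B (L (nat_lit 428)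 ln9_12_0 ln9_12_0_ok) (M (nat_lit 425) (B (L (nat_lit 424) ln12_12_1 ln12_12_1_ok) (L (nat_lit 426) ln13_12_1 ln13_12_1_ok))))) (B (M (nat_lit 398) (B (M (nat_lit 362) (B (L (nat_lit 361) ln13_12_3 ln13_12_3_ok) (L (nat_lit 363) ln14_12_3 ln14_12_3_ok))) (M (nat_lit 426) (B (L (nat_lit 425) ln13_12_1 ln13_12_1_ok) (L (nat_lit 427) ln14_12_1 ln14_12_1_ok))))) (M (nat_lit 393) (B (L (nat_lit 428) ln9_12_0 ln9_12_0_ok) (M (nat_lit 361) (B (L (nat_lit 360) ln12_12_3 ln12_12_3_ok) (L (nat_lit 362) ln13_12_3 ln13_12_3_ok)))))))))))) (B (M (nat_lit 398) (B (M (nat_lit 364) (B (M (nat_lit 461) (B (L (nat_lit 493) ln13_15_7 ln13_15_7_ok) (M (nat_lit 332) (B (L (nat_lit 300) ln12_9_4 ln12_9_4_ok) (L (nat_lit 428) ln12_10_4 ln12_10_4_ok))))) (B (M (nat_lit 461) (B (L (nat_lit 493) ln13_15_7 ln13_15_7_ok) (M (nat_lit 332) (B (L (nat_lit 365) ln13_14_7 ln13_14_7_ok) (L (nat_lit 428) ln12_10_4 ln12_10_4_ok)))))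 (B (M (nat_lit 399) (B (L (nat_lit 363) ln15_12_3 ln15_12_3_ok) (M (nat_lit 400) (B (L (nat_lit 365) ln16_12_3 ln16_12_3_ok) (L (nat_lit 428) ln16_12_1 ln16_12_1_ok))))) (M (nat_lit 332) (B (L (nat_lit 300) ln12_9_4 ln12_9_4_ok) (M (nat_lit 461) (B (L (nat_lit 365) ln13_14_7 ln13_14_7_ok) (L (nat_lit 493) ln13_15_7 ln13_15_7_ok))))))))) (B (M (nat_lit 399) (B (M (nat_lit 428) (B (L (nat_lit 427) ln15_12_1 ln15_12_1_ok) (L (nat_lit 400) ln16_12_1 ln16_12_1_ok))) (M (nat_lit 395) (B (M (nat_lit 367) (B (L (nat_lit 366) ln11_12_2 ln11_12_2_ok) (L (nat_lit 368) ln12_12_2 ln12_12_2_ok))) (M (nat_lit 431) (B (L (nat_lit 430) ln11_12_0 ln11_12_0_ok) (L (nat_lit 432) ln12_12_0 ln12_12_0_ok))))))) (M (nat_lit 366) (B (M (nat_lit 461) (B (L (nat_lit 493) ln13_15_6 ln13_15_6_ok) (M (nat_lit 334) (B (L (nat_lit 302) ln14_9_5 ln14_9_5_ok) (L (nat_lit 430) ln14_10_5 ln14_10_5_ok))))) (B (M (nat_lit 461) (B (L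 (nat_lit 493) ln13_15_6 ln13_15_6_ok) (M (nat_lit 334) (B (L (nat_lit 365) ln13_14_6 ln13_14_6_ok) (L (nat_lit 430) ln14_10_5 ln14_10_5_ok))))) (M (nat_lit 367) (B (L (nat_lit 395) ln11_12_2 ln11_12_2_ok) (M (nat_lit 368) (B (L (nat_lit 365) ln16_11_1 ln16_11_1_ok) (L (nat_lit 369) ln17_11_1 ln17_11_1_ok))))))))))) (B (K (nat_lit 1386334847544579281930502452632026696468783264124728123740719198963059283254184240648144927045128292788721448874933630659377233920) (nat_lit 235872651716101478396591840663569600232373529019742418038532395192881071292419733945472078765812563046563437017403913199189984614564746403051251838934988791419804581888) (nat_lit 235872651716101478396591840663569600232373529019742418038532395192881071292419733945472078765812563046563437017403913199189984614564746403051251838934988791419804581888) c11_s18337) (B (M (nat_lit 395) (B (M (nat_lit 430) (B (L (nat_lit 394) ln10_12_0 ln10_12_0_ok)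 (M (nat_lit 431) (B (L (nat_lit 428) ln15_13_3 ln15_13_3_ok) (L (nat_lit 432) ln16_13_3 ln16_13_3_ok))))) (B (K (nat_lit 1386334847625274590620718346058774170593877385197531429766632433739017388146079478836171214377304710078725756107305604783525593088) (nat_lit 25573364130142871189947407289140984584453059709126449283917690944997807677660468723478810386833031529045428335069614386500462882668667884800653131776) (nat_lit 25573364130142871189947407289140984584453059709126449283917690944997807677660468723478810386833031529045428335069614386500462882668667884800653131776) c11_s18649) (M (nat_lit 394) (B (L (nat_lit 430) ln10_12_0 ln10_12_0_ok) (M (nat_lit 393) (B (M (nat_lit 361) (B (L (nat_lit 360) ln12_12_3 ln12_12_3_ok) (L (nat_lit 362) ln13_12_3 ln13_12_3_ok))) (M (nat_lit 365) (B (L (nat_lit 364) ln9_12_2 ln9_12_2_ok) (L (nat_lit 366) ln10_12_2 ln10_12_2_ok)))))))))) (B (M (nat_lit 366) (B (M (nat_lit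 395) (B (M (nat_lit 394) (B (L (nat_lit 365) ln10_12_2 ln10_12_2_ok) (L (nat_lit 430) ln10_12_0 ln10_12_0_ok))) (B (M (nat_lit 398) (B (L (nat_lit 367) ln11_12_2 ln11_12_2_ok) (M (nat_lit 430) (B (L (nat_lit 394) ln10_12_0 ln10_12_0_ok) (L (nat_lit 431) ln11_12_0 ln11_12_0_ok))))) (M (nat_lit 367) (B (L (nat_lit 398) ln11_12_2 ln11_12_2_ok) (M (nat_lit 365) (B (L (nat_lit 364) ln15_11_1 ln15_11_1_ok) (L (nat_lit 368) ln16_11_1 ln16_11_1_ok)))))))) (B (M (nat_lit 398) (B (M (nat_lit 334) (B (L (nat_lit 302) ln14_9_5 ln14_9_5_ok) (M (nat_lit 461) (B (L (nat_lit 365) ln13_14_6 ln13_14_6_ok) (L (nat_lit 493) ln13_15_6 ln13_15_6_ok))))) (B (M (nat_lit 367) (B (L (nat_lit 395) ln11_12_2 ln11_12_2_ok) (M (nat_lit 368) (B (L (nat_lit 365) ln16_11_1 ln16_11_1_ok) (L (nat_lit 369) ln17_11_1 ln17_11_1_ok))))) (M (nat_lit 461) (B (L (nat_lit 493) ln13_15_6 ln13_15_6_ok) (M (nat_lit 334) (B (L (nat_lit 302) ln14_9_5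 ln14_9_5_ok) (L (nat_lit 430) ln14_10_5 ln14_10_5_ok)))))))) (B (M (nat_lit 398) (B (M (nat_lit 367) (B (L (nat_lit 395) ln11_12_2 ln11_12_2_ok) (M (nat_lit 368) (B (L (nat_lit 369) ln17_11_1 ln17_11_1_ok) (L (nat_lit 399) ln12_12_2 ln12_12_2_ok))))) (M (nat_lit 461) (B (L (nat_lit 493) ln13_15_6 ln13_15_6_ok) (M (nat_lit 334) (B (L (nat_lit 302) ln14_9_5 ln14_9_5_ok) (L (nat_lit 430) ln14_10_5 ln14_10_5_ok))))))) (B (M (nat_lit 461) (B (M (nat_lit 493) (B (L (nat_lit 364) ln13_15_7 ln13_15_7_ok) (L (nat_lit 398) ln13_15_6 ln13_15_6_ok))) (B (M (nat_lit 334) (B (L (nat_lit 365) ln13_14_6 ln13_14_6_ok) (M (nat_lit 398) (B (L (nat_lit 302) ln14_9_5 ln14_9_5_ok) (L (nat_lit 493) ln13_15_6 ln13_15_6_ok))))) (B (M (nat_lit 364) (B (L (nat_lit 493) ln13_15_7 ln13_15_7_ok) (M (nat_lit 365) (B (L (nat_lit 332) ln13_14_7 ln13_14_7_ok) (L (nat_lit 334) ln13_14_6 ln13_14_6_ok))))) (M (nat_lit 334) (B (L (nat_lit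 365) ln13_14_6 ln13_14_6_ok) (M (nat_lit 398) (B (L (nat_lit 302) ln14_9_5 ln14_9_5_ok) (L (nat_lit 430) ln14_10_5 ln14_10_5_ok))))))))) (M (nat_lit 365) (B (M (nat_lit 334) (B (L (nat_lit 461) ln13_14_6 ln13_14_6_ok) (M (nat_lit 302) (B (L (nat_lit 270) ln14_8_5 ln14_8_5_ok) (L (nat_lit 333) ln13_13_6 ln13_13_6_ok))))) (M (nat_lit 367) (B (L (nat_lit 368) ln16_11_1 ln16_11_1_ok) (M (nat_lit 395) (B (L (nat_lit 364) ln15_11_1 ln15_11_1_ok) (L (nat_lit 394) ln10_12_2 ln10_12_2_ok)))))))))))) (B (M (nat_lit 398) (B (M (nat_lit 364) (B (M (nat_lit 461) (B (L (nat_lit 493) ln13_15_7 ln13_15_7_ok) (M (nat_lit 332) (B (L (nat_lit 300) ln12_9_4 ln12_9_4_ok) (L (nat_lit 428) ln12_10_4 ln12_10_4_ok))))) (B (M (nat_lit 461) (B (L (nat_lit 493) ln13_15_7 ln13_15_7_ok) (M (nat_lit 332) (B (L (nat_lit 365) ln13_14_7 ln13_14_7_ok) (L (nat_lit 428) ln12_10_4 ln12_10_4_ok))))) (B (M (nat_lit 399) (B (L (nat_lit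 363) ln15_12_3 ln15_12_3_ok) (M (nat_lit 400) (B (L (nat_lit 365) ln16_12_3 ln16_12_3_ok) (L (nat_lit 428) ln16_12_1 ln16_12_1_ok))))) (M (nat_lit 332) (B (L (nat_lit 300) ln12_9_4 ln12_9_4_ok) (M (nat_lit 461) (B (L (nat_lit 365) ln13_14_7 ln13_14_7_ok) (L (nat_lit 493) ln13_15_7 ln13_15_7_ok))))))))) (B (M (nat_lit 364) (B (M (nat_lit 363) (B (L (nat_lit 399) ln15_12_3 ln15_12_3_ok) (M (nat_lit 362) (B (L (nat_lit 361) ln9_11_0 ln9_11_0_ok) (L (nat_lit 395) ln14_12_3 ln14_12_3_ok))))) (B (M (nat_lit 363) (B (L (nat_lit 399) ln15_12_3 ln15_12_3_ok) (M (nat_lit 362) (B (L (nat_lit 365) ln10_11_0 ln10_11_0_ok) (L (nat_lit 395) ln14_12_3 ln14_12_3_ok))))) (B (M (nat_lit 399) (B (L (nat_lit 363) ln15_12_3 ln15_12_3_ok) (M (nat_lit 400) (B (L (nat_lit 365) ln16_12_3 ln16_12_3_ok) (L (nat_lit 428) ln16_12_1 ln16_12_1_ok))))) (M (nat_lit 461) (B (L (nat_lit 493) ln13_15_7 ln13_15_7_ok) (M (nat_lit 332)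 (B (L (nat_lit 365) ln13_14_7 ln13_14_7_ok) (L (nat_lit 428) ln12_10_4 ln12_10_4_ok))))))))) (B (M (nat_lit 399) (B (M (nat_lit 428) (B (L (nat_lit 427) ln15_12_1 ln15_12_1_ok) (L (nat_lit 400) ln16_12_1 ln16_12_1_ok))) (M (nat_lit 395) (B (M (nat_lit 363) (B (L (nat_lit 362) ln14_12_3 ln14_12_3_ok) (L (nat_lit 364) ln15_12_3 ln15_12_3_ok))) (M (nat_lit 367) (B (L (nat_lit 366) ln11_12_2 ln11_12_2_ok) (L (nat_lit 368) ln12_12_2 ln12_12_2_ok))))))) (B (M (nat_lit 366) (B (M (nat_lit 367) (B (L (nat_lit 395) ln11_12_2 ln11_12_2_ok) (M (nat_lit 368) (B (L (nat_lit 365) ln16_11_1 ln16_11_1_ok) (L (nat_lit 369) ln17_11_1 ln17_11_1_ok))))) (B (M (nat_lit 367) (B (L (nat_lit 395) ln11_12_2 ln11_12_2_ok) (M (nat_lit 368) (B (L (nat_lit 369) ln17_11_1 ln17_11_1_ok) (L (nat_lit 399) ln12_12_2 ln12_12_2_ok))))) (M (nat_lit 334) (B (L (nat_lit 302) ln14_9_5 ln14_9_5_ok) (M (nat_lit 461) (B (L (nat_lit 365) ln13_14_6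 ln13_14_6_ok) (L (nat_lit 493) ln13_15_6 ln13_15_6_ok)))))))) (M (nat_lit 395) (B (M (nat_lit 366) (B (L (nat_lit 367) ln11_12_2 ln11_12_2_ok) (M (nat_lit 394) (B (L (nat_lit 365) ln10_12_2 ln10_12_2_ok) (M (nat_lit 362) (B (L (nat_lit 361) ln13_12_3 ln13_12_3_ok) (L (nat_lit 363) ln14_12_3 ln14_12_3_ok))))))) (B (M (nat_lit 394) (B (M (nat_lit 366) (B (L (nat_lit 365) ln10_12_2 ln10_12_2_ok) (L (nat_lit 367) ln11_12_2 ln11_12_2_ok))) (M (nat_lit 426) (B (L (nat_lit 425) ln13_12_1 ln13_12_1_ok) (L (nat_lit 427) ln14_12_1 ln14_12_1_ok))))) (B (M (nat_lit 394) (B (M (nat_lit 362) (B (L (nat_lit 361) ln13_12_3 ln13_12_3_ok) (L (nat_lit 363) ln14_12_3 ln14_12_3_ok))) (M (nat_lit 426) (B (L (nat_lit 425) ln13_12_1 ln13_12_1_ok) (L (nat_lit 427) ln14_12_1 ln14_12_1_ok))))) (M (nat_lit 366) (B (L (nat_lit 367) ln11_12_2 ln11_12_2_ok) (M (nat_lit 334) (B (L (nat_lit 302) ln14_9_5 ln14_9_5_ok) (M (nat_lit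 461) (B (L (nat_lit 365) ln13_14_6 ln13_14_6_ok) (L (nat_lit 493) ln13_15_6 ln13_15_6_ok)))))))))))))))) (M (nat_lit 395) (B (M (nat_lit 430) (B (L (nat_lit 394) ln10_12_0 ln10_12_0_ok) (M (nat_lit 431) (B (L (nat_lit 398) ln11_12_0 ln11_12_0_ok) (L (nat_lit 432) ln16_13_3 ln16_13_3_ok))))) (B (M (nat_lit 430) (B (M (nat_lit 431) (B (L (nat_lit 398) ln11_12_0 ln11_12_0_ok) (L (nat_lit 428) ln15_13_3 ln15_13_3_ok))) (B (M (nat_lit 431) (B (L (nat_lit 428) ln15_13_3 ln15_13_3_ok) (L (nat_lit 432) ln16_13_3 ln16_13_3_ok))) (B (M (nat_lit 431) (B (L (nat_lit 398) ln11_12_0 ln11_12_0_ok) (L (nat_lit 432) ln16_13_3 ln16_13_3_ok))) (M (nat_lit 398) (B (M (nat_lit 427) (B (L (nat_lit 426) ln14_12_1 ln14_12_1_ok) (M (nat_lit 399) (B (L (nat_lit 428) ln15_12_1 ln15_12_1_ok) (M (nat_lit 367) (B (L (nat_lit 366) ln11_12_2 ln11_12_2_ok) (L (nat_lit 368) ln12_12_2 ln12_12_2_ok))))))) (B (M (nat_lit 399) (B (M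 (nat_lit 363) (B (L (nat_lit 362) ln14_12_3 ln14_12_3_ok) (L (nat_lit 364) ln15_12_3 ln15_12_3_ok))) (M (nat_lit 427) (B (L (nat_lit 426) ln14_12_1 ln14_12_1_ok) (L (nat_lit 428) ln15_12_1 ln15_12_1_ok))))) (B (M (nat_lit 427) (B (L (nat_lit 426) ln14_12_1 ln14_12_1_ok) (M (nat_lit 459) (B (M (nat_lit 363) (B (L (nat_lit 362) ln14_12_3 ln14_12_3_ok) (M (nat_lit 364) (B (L (nat_lit 332) ln11_14_6 ln11_14_6_ok) (L (nat_lit 491) ln11_15_6 ln11_15_6_ok))))) (B (M (nat_lit 363) (B (L (nat_lit 362) ln14_12_3 ln14_12_3_ok) (M (nat_lit 458) (B (L (nat_lit 490) ln11_11_5 ln11_11_5_ok) (L (nat_lit 428) ln14_13_1 ln14_13_1_ok))))) (M (nat_lit 364) (B (L (nat_lit 491) ln11_15_6 ln11_15_6_ok) (M (nat_lit 428) (B (L (nat_lit 332) ln12_10_5 ln12_10_5_ok) (L (nat_lit 458) ln14_13_1 ln14_13_1_ok)))))))))) (M (nat_lit 399) (B (M (nat_lit 363) (B (L (nat_lit 362) ln14_12_3 ln14_12_3_ok) (L (nat_lit 364) ln15_12_3 ln15_12_3_ok)))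 (M (nat_lit 367) (B (L (nat_lit 366) ln11_12_2 ln11_12_2_ok) (L (nat_lit 368) ln12_12_2 ln12_12_2_ok))))))))))))) (B (M (nat_lit 430) (B (L (nat_lit 394) ln10_12_0 ln10_12_0_ok) (M (nat_lit 431) (B (L (nat_lit 428) ln15_13_3 ln15_13_3_ok) (L (nat_lit 432) ln16_13_3 ln16_13_3_ok))))) (M (nat_lit 394) (B (M (nat_lit 393) (B (L (nat_lit 428) ln9_12_0 ln9_12_0_ok) (M (nat_lit 425) (B (L (nat_lit 424) ln12_12_1 ln12_12_1_ok) (L (nat_lit 426) ln13_12_1 ln13_12_1_ok))))) (B (M (nat_lit 398) (B (M (nat_lit 362) (B (L (nat_lit 361) ln13_12_3 ln13_12_3_ok) (L (nat_lit 363) ln14_12_3 ln14_12_3_ok))) (M (nat_lit 426) (B (L (nat_lit 425) ln13_12_1 ln13_12_1_ok) (L (nat_lit 427) ln14_12_1 ln14_12_1_ok))))) (M (nat_lit 393) (B (L (nat_lit 428) ln9_12_0 ln9_12_0_ok) (M (nat_lit 361) (B (L (nat_lit 360) ln12_12_3 ln12_12_3_ok) (L (nat_lit 362) ln13_12_3 ln13_12_3_ok))))))))))))))))))))))) (nat_lit 1386334847383188664550070665778531748218595021979121511688892729411143073470393764272092352380775458208712834410189682411080515584)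 (nat_lit 235872651716101478406181852212373176945499762702021610216601326491262565865428229165269799967651839919287633053861107209008266363803778409408063611727735585015720837120) (nat_lit 235872651716101478406181852212373176945499762702021610216601326491262565865428229165269799967651839919287633053861107209008266363803778409408063611727735585015720837120) (by decide +kernel)
noncomputable def c11_n18743 : Cert := (M (nat_lit 427) (B (M (nat_lit 426) (B (L (nat_lit 398) ln14_12_1 ln14_12_1_ok) (M (nat_lit 425) (B (L (nat_lit 424) ln8_13_2 ln8_13_2_ok) (L (nat_lit 428) ln9_13_2 ln9_13_2_ok))))) (B (M (nat_lit 459) (B (M (nat_lit 364) (B (L (nat_lit 491) ln11_15_6 ln11_15_6_ok) (M (nat_lit 332) (B (L (nat_lit 300) ln12_9_5 ln12_9_5_ok) (L (nat_lit 428) ln12_10_5 ln12_10_5_ok))))) (B (M (nat_lit 364) (B (L (nat_lit 491) ln11_15_6 ln11_15_6_ok) (M (nat_lit 332) (B (L (nat_lit 363) ln11_14_6 ln11_14_6_ok)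 (L (nat_lit 428) ln12_10_5 ln12_10_5_ok))))) (B (M (nat_lit 458) (B (M (nat_lit 490) (B (L (nat_lit 363) ln11_11_5 ln11_11_5_ok) (M (nat_lit 522) (B (L (nat_lit 426) ln10_16_6 ln10_16_6_ok) (L (nat_lit 491) ln11_12_5 ln11_12_5_ok))))) (B (M (nat_lit 428) (B (L (nat_lit 430) ln14_13_1 ln14_13_1_ok) (M (nat_lit 457) (B (L (nat_lit 426) ln13_13_1 ln13_13_1_ok) (L (nat_lit 460) ln9_14_2 ln9_14_2_ok))))) (M (nat_lit 490) (B (L (nat_lit 363) ln11_11_5 ln11_11_5_ok) (M (nat_lit 491) (B (L (nat_lit 364) ln11_15_6 ln11_15_6_ok) (L (nat_lit 522) ln11_12_5 ln11_12_5_ok)))))))) (B (M (nat_lit 458) (B (M (nat_lit 490) (B (L (nat_lit 363) ln11_11_5 ln11_11_5_ok) (M (nat_lit 522) (B (L (nat_lit 426) ln10_16_6 ln10_16_6_ok) (L (nat_lit 491) ln11_12_5 ln11_12_5_ok))))) (B (M (nat_lit 428) (B (L (nat_lit 430) ln14_13_1 ln14_13_1_ok) (M (nat_lit 457) (B (L (nat_lit 426) ln13_13_1 ln13_13_1_ok) (L (nat_lit 460) ln9_14_2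 ln9_14_2_ok))))) (M (nat_lit 490) (B (L (nat_lit 363) ln11_11_5 ln11_11_5_ok) (M (nat_lit 522) (B (L (nat_lit 491) ln11_12_5 ln11_12_5_ok) (L (nat_lit 554) ln10_17_6 ln10_17_6_ok)))))))) (B (M (nat_lit 364) (B (L (nat_lit 491) ln11_15_6 ln11_15_6_ok) (M (nat_lit 332) (B (L (nat_lit 300) ln12_9_5 ln12_9_5_ok) (L (nat_lit 363) ln11_14_6 ln11_14_6_ok))))) (M (nat_lit 363) (B (M (nat_lit 364) (B (L (nat_lit 332) ln11_14_6 ln11_14_6_ok) (M (nat_lit 362) (B (L (nat_lit 330) ln11_14_7 ln11_14_7_ok) (L (nat_lit 361) ln9_11_0 ln9_11_0_ok))))) (B (M (nat_lit 331) (B (M (nat_lit 332) (B (L (nat_lit 300) ln11_13_6 ln11_13_6_ok) (L (nat_lit 364) ln11_14_6 ln11_14_6_ok))) (M (nat_lit 458) (B (L (nat_lit 426) ln11_10_5 ln11_10_5_ok) (L (nat_lit 490) ln11_11_5 ln11_11_5_ok))))) (M (nat_lit 331) (B (M (nat_lit 330) (B (L (nat_lit 298) ln11_13_7 ln11_13_7_ok) (L (nat_lit 362) ln11_14_7 ln11_14_7_ok))) (M (nat_lit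 458) (B (L (nat_lit 426) ln11_10_5 ln11_10_5_ok) (L (nat_lit 490) ln11_11_5 ln11_11_5_ok)))))))))))))) (B (M (nat_lit 430) (B (M (nat_lit 431) (B (L (nat_lit 398) ln11_12_0 ln11_12_0_ok) (L (nat_lit 428) ln15_13_3 ln15_13_3_ok))) (B (M (nat_lit 431) (B (L (nat_lit 428) ln15_13_3 ln15_13_3_ok) (L (nat_lit 432) ln16_13_3 ln16_13_3_ok))) (B (M (nat_lit 431) (B (L (nat_lit 398) ln11_12_0 ln11_12_0_ok) (L (nat_lit 432) ln16_13_3 ln16_13_3_ok))) (M (nat_lit 428) (B (M (nat_lit 459) (B (L (nat_lit 458) ln14_13_1 ln14_13_1_ok) (M (nat_lit 364) (B (L (nat_lit 332) ln12_10_5 ln12_10_5_ok) (L (nat_lit 491) ln11_15_6 ln11_15_6_ok))))) (M (nat_lit 363) (B (M (nat_lit 331) (B (L (nat_lit 299) ln11_9_4 ln11_9_4_ok) (L (nat_lit 460) ln11_10_4 ln11_10_4_ok))) (M (nat_lit 398) (B (L (nat_lit 362) ln14_12_3 ln14_12_3_ok) (L (nat_lit 399) ln15_12_1 ln15_12_1_ok))))))))))) (M (nat_lit 364) (B (M (nat_lit 332) (B (L (nat_lit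 300) ln12_9_5 ln12_9_5_ok) (M (nat_lit 459) (B (L (nat_lit 363) ln11_14_6 ln11_14_6_ok) (L (nat_lit 491) ln11_15_6 ln11_15_6_ok))))) (B (M (nat_lit 398) (B (L (nat_lit 426) ln14_12_1 ln14_12_1_ok) (M (nat_lit 363) (B (L (nat_lit 362) ln14_12_3 ln14_12_3_ok) (L (nat_lit 399) ln15_12_3 ln15_12_3_ok))))) (M (nat_lit 332) (B (L (nat_lit 300) ln12_9_5 ln12_9_5_ok) (M (nat_lit 461) (B (L (nat_lit 365) ln13_14_7 ln13_14_7_ok) (L (nat_lit 493) ln13_15_7 ln13_15_7_ok))))))))))))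
noncomputable def c11_n18744 : Cert := (M (nat_lit 395) (B (M (nat_lit 430) (B (L (nat_lit 394) ln10_12_0 ln10_12_0_ok) (M (nat_lit 431) (B (L (nat_lit 428) ln15_13_3 ln15_13_3_ok) (L (nat_lit 432) ln16_13_3 ln16_13_3_ok))))) (B c11_n18743 (B (M (nat_lit 430) (B (L (nat_lit 394) ln10_12_0 ln10_12_0_ok) (M (nat_lit 431) (B (L (nat_lit 398) ln11_12_0 ln11_12_0_ok) (L (nat_lit 432) ln16_13_3 ln16_13_3_ok))))) (M (nat_lit 394) (B (M (nat_lit 393) (B (L (nat_lit 428) ln9_12_0 ln9_12_0_ok) (M (nat_lit 425) (B (L (nat_lit 424) ln12_12_1 ln12_12_1_ok) (L (nat_lit 426) ln13_12_1 ln13_12_1_ok))))) (B (M (nat_lit 398) (B (M (nat_lit 362) (B (L (nat_lit 361) ln13_12_3 ln13_12_3_ok) (L (nat_lit 363) ln14_12_3 ln14_12_3_ok))) (M (nat_lit 426) (B (L (nat_lit 425) ln13_12_1 ln13_12_1_ok) (L (nat_lit 427) ln14_12_1 ln14_12_1_ok))))) (M (nat_lit 393) (B (L (nat_lit 428) ln9_12_0 ln9_12_0_ok) (M (nat_lit 361) (B (L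 (nat_lit 360) ln12_12_3 ln12_12_3_ok) (L (nat_lit 362) ln13_12_3 ln13_12_3_ok))))))))))))
theorem c11_s18852 : Sem (nat_lit 1386334847544579281930502452632026696468783264124728123740719198963059283254184240648144927045128292788721448874933630659377233920) (nat_lit 109836762587663119574318981100267869055509297937361652678613732349964192430284591632433545086233692308643520378459121557602009997444353222375044199457386135552) (nat_lit 109836762587663119574318981100267869055509297937361652678613732349964192430284591632433545086233692308643520378459121557602009997444353222375044199457386135552) :=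
  sem_of_chk (M (nat_lit 365) (B (M (nat_lit 461) (B (M (nat_lit 364) (B (L (nat_lit 332) ln13_14_7 ln13_14_7_ok) (L (nat_lit 493) ln13_15_7 ln13_15_7_ok))) (M (nat_lit 333) (B (M (nat_lit 334) (B (L (nat_lit 302) ln13_13_6 ln13_13_6_ok) (L (nat_lit 366) ln13_14_6 ln13_14_6_ok))) (M (nat_lit 428) (B (L (nat_lit 301) ln13_9_5 ln13_9_5_ok) (L (nat_lit 460) ln13_10_5 ln13_10_5_ok))))))) (B (M (nat_lit 366) (B (M (nat_lit 334) (B (L (nat_lit 461) ln13_14_6 ln13_14_6_ok) (M (nat_lit 302) (B (L (nat_lit 270) ln14_8_5 ln14_8_5_ok) (L (nat_lit 398) ln14_9_5 ln14_9_5_ok))))) (B (M (nat_lit 334) (B (L (nat_lit 461) ln13_14_6 ln13_14_6_ok) (M (nat_lit 302) (B (L (nat_lit 333) ln13_13_6 ln13_13_6_ok) (L (nat_lit 398) ln14_9_5 ln14_9_5_ok))))) (B (M (nat_lit 364) (B (M (nat_lit 332) (B (L (nat_lit 300) ln12_9_4 ln12_9_4_ok) (L (nat_lit 461) ln13_14_7 ln13_14_7_ok))) (B (M (nat_lit 461) (B (L (nat_lit 332) ln13_14_7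 ln13_14_7_ok) (L (nat_lit 334) ln13_14_6 ln13_14_6_ok))) (B (M (nat_lit 363) (B (M (nat_lit 334) (B (L (nat_lit 335) ln11_11_2 ln11_11_2_ok) (L (nat_lit 461) ln13_14_6 ln13_14_6_ok))) (M (nat_lit 362) (B (L (nat_lit 361) ln9_11_0 ln9_11_0_ok) (L (nat_lit 398) ln10_11_0 ln10_11_0_ok))))) (M (nat_lit 332) (B (L (nat_lit 300) ln12_9_4 ln12_9_4_ok) (M (nat_lit 367) (B (L (nat_lit 331) ln15_11_3 ln15_11_3_ok) (L (nat_lit 368) ln16_11_1 ln16_11_1_ok))))))))) (B (M (nat_lit 364) (B (M (nat_lit 332) (B (L (nat_lit 300) ln12_9_4 ln12_9_4_ok) (L (nat_lit 461) ln13_14_7 ln13_14_7_ok))) (B (M (nat_lit 367) (B (L (nat_lit 368) ln16_11_1 ln16_11_1_ok) (M (nat_lit 332) (B (L (nat_lit 331) ln15_11_3 ln15_11_3_ok) (L (nat_lit 461) ln13_14_7 ln13_14_7_ok))))) (M (nat_lit 363) (B (M (nat_lit 362) (B (L (nat_lit 361) ln9_11_0 ln9_11_0_ok) (L (nat_lit 398) ln10_11_0 ln10_11_0_ok))) (B (M (nat_lit 398) (B (L (nat_lit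 362) ln10_11_0 ln10_11_0_ok) (L (nat_lit 399) ln11_11_0 ln11_11_0_ok))) (B (M (nat_lit 399) (B (L (nat_lit 398) ln11_11_0 ln11_11_0_ok) (M (nat_lit 367) (B (L (nat_lit 400) ln12_11_0 ln12_11_0_ok) (L (nat_lit 368) ln16_11_1 ln16_11_1_ok))))) (M (nat_lit 330) (B (L (nat_lit 331) ln14_11_3 ln14_11_3_ok) (M (nat_lit 362) (B (L (nat_lit 329) ln13_11_3 ln13_11_3_ok) (L (nat_lit 361) ln9_11_0 ln9_11_0_ok)))))))))))) (B (M (nat_lit 334) (B (L (nat_lit 461) ln13_14_6 ln13_14_6_ok) (M (nat_lit 302) (B (L (nat_lit 270) ln14_8_5 ln14_8_5_ok) (L (nat_lit 333) ln13_13_6 ln13_13_6_ok))))) (M (nat_lit 334) (B (M (nat_lit 302) (B (L (nat_lit 270) ln14_8_5 ln14_8_5_ok) (L (nat_lit 333) ln13_13_6 ln13_13_6_ok))) (B (M (nat_lit 302) (B (L (nat_lit 333) ln13_13_6 ln13_13_6_ok) (L (nat_lit 398) ln14_9_5 ln14_9_5_ok))) (B (M (nat_lit 364) (B (M (nat_lit 332) (B (L (nat_lit 300) ln12_9_4 ln12_9_4_ok) (M (nat_lit 367) (B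 (L (nat_lit 331) ln15_11_3 ln15_11_3_ok) (L (nat_lit 368) ln16_11_1 ln16_11_1_ok))))) (M (nat_lit 363) (B (L (nat_lit 335) ln11_11_2 ln11_11_2_ok) (M (nat_lit 362) (B (L (nat_lit 333) ln10_11_2 ln10_11_2_ok) (L (nat_lit 361) ln9_11_0 ln9_11_0_ok))))))) (M (nat_lit 302) (B (L (nat_lit 270) ln14_8_5 ln14_8_5_ok) (L (nat_lit 398) ln14_9_5 ln14_9_5_ok))))))))))))) (B (M (nat_lit 364) (B (M (nat_lit 332) (B (L (nat_lit 300) ln12_9_4 ln12_9_4_ok) (L (nat_lit 461) ln13_14_7 ln13_14_7_ok))) (B (M (nat_lit 461) (B (L (nat_lit 332) ln13_14_7 ln13_14_7_ok) (L (nat_lit 493) ln13_15_7 ln13_15_7_ok))) (B (M (nat_lit 399) (B (M (nat_lit 398) (B (L (nat_lit 363) ln15_12_3 ln15_12_3_ok) (L (nat_lit 400) ln16_12_3 ln16_12_3_ok))) (B (M (nat_lit 428) (B (M (nat_lit 333) (B (L (nat_lit 301) ln13_9_5 ln13_9_5_ok) (L (nat_lit 460) ln12_14_6 ln12_14_6_ok))) (M (nat_lit 398) (B (L (nat_lit 400) ln16_12_3 ln16_12_3_ok) (L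 (nat_lit 427) ln15_12_1 ln15_12_1_ok))))) (B (M (nat_lit 366) (B (M (nat_lit 461) (B (L (nat_lit 334) ln13_14_6 ln13_14_6_ok) (L (nat_lit 493) ln13_15_7 ln13_15_7_ok))) (M (nat_lit 367) (B (L (nat_lit 400) ln12_11_0 ln12_11_0_ok) (L (nat_lit 368) ln16_11_1 ln16_11_1_ok))))) (M (nat_lit 428) (B (M (nat_lit 333) (B (L (nat_lit 301) ln13_9_5 ln13_9_5_ok) (L (nat_lit 460) ln12_14_6 ln12_14_6_ok))) (M (nat_lit 398) (B (L (nat_lit 363) ln15_12_3 ln15_12_3_ok) (L (nat_lit 427) ln15_12_1 ln15_12_1_ok))))))))) (M (nat_lit 428) (B (M (nat_lit 333) (B (L (nat_lit 301) ln13_9_5 ln13_9_5_ok) (L (nat_lit 460) ln12_14_6 ln12_14_6_ok))) (M (nat_lit 427) (B (M (nat_lit 332) (B (L (nat_lit 300) ln12_9_4 ln12_9_4_ok) (L (nat_lit 459) ln12_10_5 ln12_10_5_ok))) (M (nat_lit 398) (B (L (nat_lit 399) ln15_12_1 ln15_12_1_ok) (L (nat_lit 426) ln10_13_2 ln10_13_2_ok))))))))))) (B (M (nat_lit 333) (B (M (nat_lit 428) (B (L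 (nat_lit 301) ln13_9_5 ln13_9_5_ok) (L (nat_lit 460) ln13_10_5 ln13_10_5_ok))) (B (M (nat_lit 428) (B (L (nat_lit 460) ln13_10_5 ln13_10_5_ok) (M (nat_lit 461) (B (M (nat_lit 334) (B (L (nat_lit 302) ln13_13_6 ln13_13_6_ok) (L (nat_lit 366) ln13_14_6 ln13_14_6_ok))) (M (nat_lit 493) (B (L (nat_lit 364) ln13_15_7 ln13_15_7_ok) (L (nat_lit 525) ln13_16_7 ln13_16_7_ok))))))) (M (nat_lit 301) (B (M (nat_lit 302) (B (L (nat_lit 270) ln13_12_6 ln13_12_6_ok) (L (nat_lit 334) ln13_13_6 ln13_13_6_ok))) (M (nat_lit 269) (B (L (nat_lit 364) ln13_8_5 ln13_8_5_ok) (M (nat_lit 398) (B (L (nat_lit 366) ln13_8_4 ln13_8_4_ok) (L (nat_lit 430) ln13_9_4 ln13_9_4_ok)))))))))) (B (M (nat_lit 366) (B (M (nat_lit 334) (B (L (nat_lit 461) ln13_14_6 ln13_14_6_ok) (M (nat_lit 302) (B (L (nat_lit 270) ln14_8_5 ln14_8_5_ok) (L (nat_lit 398) ln14_9_5 ln14_9_5_ok))))) (B (M (nat_lit 461) (B (L (nat_lit 334) ln13_14_6 ln13_14_6_ok)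 (M (nat_lit 364) (B (L (nat_lit 332) ln13_14_7 ln13_14_7_ok) (L (nat_lit 493) ln13_15_7 ln13_15_7_ok))))) (B (M (nat_lit 364) (B (M (nat_lit 332) (B (L (nat_lit 300) ln12_9_4 ln12_9_4_ok) (L (nat_lit 461) ln13_14_7 ln13_14_7_ok))) (B (M (nat_lit 367) (B (L (nat_lit 368) ln16_11_1 ln16_11_1_ok) (M (nat_lit 332) (B (L (nat_lit 331) ln15_11_3 ln15_11_3_ok) (L (nat_lit 461) ln13_14_7 ln13_14_7_ok))))) (M (nat_lit 363) (B (M (nat_lit 362) (B (L (nat_lit 361) ln9_11_0 ln9_11_0_ok) (L (nat_lit 398) ln10_11_0 ln10_11_0_ok))) (B (M (nat_lit 398) (B (L (nat_lit 362) ln10_11_0 ln10_11_0_ok) (L (nat_lit 399) ln11_11_0 ln11_11_0_ok))) (B (M (nat_lit 399) (B (L (nat_lit 398) ln11_11_0 ln11_11_0_ok) (M (nat_lit 367) (B (L (nat_lit 400) ln12_11_0 ln12_11_0_ok) (L (nat_lit 368) ln16_11_1 ln16_11_1_ok))))) (M (nat_lit 330) (B (L (nat_lit 331) ln14_11_3 ln14_11_3_ok) (M (nat_lit 362) (B (L (nat_lit 329) ln13_11_3 ln13_11_3_ok)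 (L (nat_lit 361) ln9_11_0 ln9_11_0_ok)))))))))))) (M (nat_lit 334) (B (M (nat_lit 302) (B (L (nat_lit 270) ln14_8_5 ln14_8_5_ok) (L (nat_lit 398) ln14_9_5 ln14_9_5_ok))) (M (nat_lit 367) (B (L (nat_lit 368) ln16_11_1 ln16_11_1_ok) (M (nat_lit 364) (B (M (nat_lit 332) (B (L (nat_lit 300) ln12_9_4 ln12_9_4_ok) (L (nat_lit 331) ln15_11_3 ln15_11_3_ok))) (M (nat_lit 335) (B (L (nat_lit 363) ln11_11_2 ln11_11_2_ok) (L (nat_lit 336) ln12_11_2 ln12_11_2_ok))))))))))))) (B (M (nat_lit 332) (B (M (nat_lit 300) (B (L (nat_lit 333) ln13_13_7 ln13_13_7_ok) (L (nat_lit 364) ln12_9_4 ln12_9_4_ok))) (B (M (nat_lit 428) (B (M (nat_lit 333) (B (L (nat_lit 301) ln13_9_5 ln13_9_5_ok) (L (nat_lit 460) ln13_10_5 ln13_10_5_ok))) (M (nat_lit 427) (B (M (nat_lit 364) (B (L (nat_lit 461) ln13_14_7 ln13_14_7_ok) (L (nat_lit 459) ln12_10_5 ln12_10_5_ok))) (M (nat_lit 398) (B (L (nat_lit 399) ln15_12_1 ln15_12_1_ok) (L (nat_lit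 426) ln10_13_2 ln10_13_2_ok))))))) (B (M (nat_lit 364) (B (L (nat_lit 300) ln12_9_4 ln12_9_4_ok) (L (nat_lit 461) ln13_14_7 ln13_14_7_ok))) (M (nat_lit 333) (B (L (nat_lit 300) ln13_13_7 ln13_13_7_ok) (M (nat_lit 428) (B (L (nat_lit 301) ln13_9_5 ln13_9_5_ok) (L (nat_lit 460) ln13_10_5 ln13_10_5_ok))))))))) (B (M (nat_lit 333) (B (M (nat_lit 428) (B (L (nat_lit 301) ln13_9_5 ln13_9_5_ok) (L (nat_lit 460) ln13_10_5 ln13_10_5_ok))) (M (nat_lit 334) (B (L (nat_lit 302) ln13_13_6 ln13_13_6_ok) (M (nat_lit 366) (B (L (nat_lit 461) ln13_14_6 ln13_14_6_ok) (M (nat_lit 332) (B (L (nat_lit 300) ln13_13_7 ln13_13_7_ok) (M (nat_lit 331) (B (L (nat_lit 330) ln10_10_0 ln10_10_0_ok) (L (nat_lit 367) ln11_10_0 ln11_10_0_ok))))))))))) (M (nat_lit 333) (B (M (nat_lit 428) (B (L (nat_lit 301) ln13_9_5 ln13_9_5_ok) (L (nat_lit 460) ln13_10_5 ln13_10_5_ok))) (B (M (nat_lit 364) (B (M (nat_lit 332) (B (L (nat_lit 300)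 ln13_13_7 ln13_13_7_ok) (M (nat_lit 334) (B (L (nat_lit 302) ln13_13_6 ln13_13_6_ok) (M (nat_lit 335) (B (L (nat_lit 363) ln15_10_1 ln15_10_1_ok) (L (nat_lit 336) ln16_10_1 ln16_10_1_ok))))))) (B (M (nat_lit 334) (B (L (nat_lit 302) ln13_13_6 ln13_13_6_ok) (M (nat_lit 363) (B (L (nat_lit 362) ln10_11_2 ln10_11_2_ok) (M (nat_lit 335) (B (L (nat_lit 332) ln15_10_1 ln15_10_1_ok) (L (nat_lit 336) ln16_10_1 ln16_10_1_ok))))))) (B (M (nat_lit 332) (B (L (nat_lit 300) ln13_13_7 ln13_13_7_ok) (M (nat_lit 331) (B (M (nat_lit 428) (B (L (nat_lit 299) ln12_13_7 ln12_13_7_ok) (L (nat_lit 460) ln12_14_6 ln12_14_6_ok))) (M (nat_lit 330) (B (L (nat_lit 329) ln9_10_0 ln9_10_0_ok) (L (nat_lit 366) ln10_10_0 ln10_10_0_ok))))))) (M (nat_lit 334) (B (L (nat_lit 302) ln13_13_6 ln13_13_6_ok) (M (nat_lit 363) (B (L (nat_lit 362) ln10_11_2 ln10_11_2_ok) (M (nat_lit 335) (B (L (nat_lit 336) ln16_10_1 ln16_10_1_ok) (L (nat_lit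 366) ln11_11_2 ln11_11_2_ok))))))))))) (M (nat_lit 301) (B (M (nat_lit 300) (B (L (nat_lit 268) ln13_12_7 ln13_12_7_ok) (L (nat_lit 332) ln13_13_7 ln13_13_7_ok))) (M (nat_lit 302) (B (L (nat_lit 270) ln13_12_6 ln13_12_6_ok) (L (nat_lit 334) ln13_13_6 ln13_13_6_ok)))))))))))))))) (nat_lit 1386334847544579281930502452632026696468783264124728123740719198963059283254184240648144927045128292788721448874933630659377233920) (nat_lit 109836762587663119574318981100267869055509297937361652678613732349964192430284591632433545086233692308643520378459121557602009997444353222375044199457386135552) (nat_lit 109836762587663119574318981100267869055509297937361652678613732349964192430284591632433545086233692308643520378459121557602009997444353222375044199457386135552) (by decide +kernel)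
theorem c11_s18967 : Sem (nat_lit 1386334847544579281930502452632026696468783264124728123740719198963059283254184240648144927045128292788721448874933630659377233920) (nat_lit 31966705165655720404921734629378292697159508349333598814401087539640059609047481255250603633432526703644476005579096981346115756155261802222926692352) (nat_lit 31966705165655720404921734629378292697159508349333598814401087539640059609047481255250603633432526703644476005579096981346115756155261802222926692352) :=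
  sem_of_chk (M (nat_lit 365) (B (M (nat_lit 366) (B (M (nat_lit 367) (B (L (nat_lit 368) ln16_11_1 ln16_11_1_ok) (M (nat_lit 395) (B (L (nat_lit 364) ln15_11_1 ln15_11_1_ok) (L (nat_lit 394) ln10_12_2 ln10_12_2_ok))))) (M (nat_lit 333) (B (M (nat_lit 334) (B (L (nat_lit 302) ln13_13_6 ln13_13_6_ok) (L (nat_lit 461) ln13_14_6 ln13_14_6_ok))) (M (nat_lit 428) (B (L (nat_lit 301) ln13_9_5 ln13_9_5_ok) (L (nat_lit 460) ln13_10_5 ln13_10_5_ok))))))) (B (M (nat_lit 366) (B (M (nat_lit 367) (B (L (nat_lit 368) ln16_11_1 ln16_11_1_ok) (M (nat_lit 395) (B (L (nat_lit 364) ln15_11_1 ln15_11_1_ok) (L (nat_lit 394) ln10_12_2 ln10_12_2_ok))))) (M (nat_lit 334) (B (L (nat_lit 461) ln13_14_6 ln13_14_6_ok) (M (nat_lit 302) (B (L (nat_lit 270) ln14_8_5 ln14_8_5_ok) (L (nat_lit 333) ln13_13_6 ln13_13_6_ok))))))) (B (M (nat_lit 366) (B (M (nat_lit 461) (B (L (nat_lit 334) ln13_14_6 ln13_14_6_ok) (M (nat_lit 364) (B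 (L (nat_lit 332) ln13_14_7 ln13_14_7_ok) (L (nat_lit 493) ln13_15_7 ln13_15_7_ok))))) (B (M (nat_lit 367) (B (L (nat_lit 368) ln16_11_1 ln16_11_1_ok) (M (nat_lit 395) (B (L (nat_lit 364) ln15_11_1 ln15_11_1_ok) (L (nat_lit 394) ln10_12_2 ln10_12_2_ok))))) (M (nat_lit 367) (B (L (nat_lit 368) ln16_11_1 ln16_11_1_ok) (M (nat_lit 333) (B (M (nat_lit 428) (B (L (nat_lit 301) ln13_9_5 ln13_9_5_ok) (L (nat_lit 460) ln13_10_5 ln13_10_5_ok))) (M (nat_lit 332) (B (L (nat_lit 300) ln13_13_7 ln13_13_7_ok) (M (nat_lit 334) (B (L (nat_lit 331) ln11_10_0 ln11_10_0_ok) (L (nat_lit 461) ln13_14_6 ln13_14_6_ok)))))))))))) (B (M (nat_lit 364) (B (M (nat_lit 332) (B (L (nat_lit 300) ln12_9_4 ln12_9_4_ok) (L (nat_lit 461) ln13_14_7 ln13_14_7_ok))) (B (M (nat_lit 461) (B (L (nat_lit 332) ln13_14_7 ln13_14_7_ok) (L (nat_lit 493) ln13_15_7 ln13_15_7_ok))) (B (M (nat_lit 366) (B (M (nat_lit 461) (B (L (nat_lit 334) ln13_14_6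 ln13_14_6_ok) (L (nat_lit 493) ln13_15_7 ln13_15_7_ok))) (M (nat_lit 395) (B (L (nat_lit 367) ln15_11_1 ln15_11_1_ok) (L (nat_lit 394) ln10_12_2 ln10_12_2_ok))))) (M (nat_lit 428) (B (M (nat_lit 394) (B (M (nat_lit 395) (B (L (nat_lit 393) ln9_12_2 ln9_12_2_ok) (L (nat_lit 366) ln10_12_2 ln10_12_2_ok))) (B (M (nat_lit 395) (B (L (nat_lit 393) ln9_12_2 ln9_12_2_ok) (L (nat_lit 430) ln10_12_0 ln10_12_0_ok))) (B (M (nat_lit 395) (B (L (nat_lit 366) ln10_12_2 ln10_12_2_ok) (L (nat_lit 430) ln10_12_0 ln10_12_0_ok))) (M (nat_lit 427) (B (M (nat_lit 332) (B (L (nat_lit 300) ln12_9_4 ln12_9_4_ok) (L (nat_lit 459) ln12_10_5 ln12_10_5_ok))) (M (nat_lit 426) (B (L (nat_lit 393) ln13_13_3 ln13_13_3_ok) (L (nat_lit 425) ln9_13_2 ln9_13_2_ok))))))))) (B (M (nat_lit 363) (B (M (nat_lit 331) (B (L (nat_lit 460) ln12_14_7 ln12_14_7_ok) (M (nat_lit 299) (B (L (nat_lit 267) ln11_8_4 ln11_8_4_ok) (L (nat_lit 395) ln11_9_4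 ln11_9_4_ok))))) (B (M (nat_lit 331) (B (L (nat_lit 460) ln12_14_7 ln12_14_7_ok) (M (nat_lit 299) (B (L (nat_lit 332) ln12_13_7 ln12_13_7_ok) (L (nat_lit 395) ln11_9_4 ln11_9_4_ok))))) (B (M (nat_lit 394) (B (M (nat_lit 362) (B (L (nat_lit 361) ln9_11_0 ln9_11_0_ok) (L (nat_lit 393) ln13_11_1 ln13_11_1_ok))) (M (nat_lit 395) (B (L (nat_lit 366) ln14_11_1 ln14_11_1_ok) (L (nat_lit 430) ln10_12_0 ln10_12_0_ok))))) (M (nat_lit 331) (B (L (nat_lit 460) ln12_14_7 ln12_14_7_ok) (M (nat_lit 299) (B (L (nat_lit 267) ln11_8_4 ln11_8_4_ok) (L (nat_lit 332) ln12_13_7 ln12_13_7_ok))))))))) (B (M (nat_lit 363) (B (M (nat_lit 331) (B (L (nat_lit 460) ln12_14_7 ln12_14_7_ok) (M (nat_lit 299) (B (L (nat_lit 267) ln11_8_4 ln11_8_4_ok) (L (nat_lit 395) ln11_9_4 ln11_9_4_ok))))) (B (M (nat_lit 394) (B (M (nat_lit 362) (B (L (nat_lit 361) ln9_11_0 ln9_11_0_ok) (L (nat_lit 393) ln13_11_1 ln13_11_1_ok))) (M (nat_lit 395)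 (B (L (nat_lit 366) ln14_11_1 ln14_11_1_ok) (L (nat_lit 430) ln10_12_0 ln10_12_0_ok))))) (M (nat_lit 330) (B (M (nat_lit 362) (B (L (nat_lit 329) ln13_11_3 ln13_11_3_ok) (L (nat_lit 361) ln9_11_0 ln9_11_0_ok))) (M (nat_lit 331) (B (L (nat_lit 366) ln14_11_3 ln14_11_3_ok) (L (nat_lit 460) ln12_14_7 ln12_14_7_ok)))))))) (M (nat_lit 332) (B (L (nat_lit 300) ln12_9_4 ln12_9_4_ok) (M (nat_lit 460) (B (M (nat_lit 331) (B (L (nat_lit 299) ln12_13_7 ln12_13_7_ok) (L (nat_lit 363) ln12_14_7 ln12_14_7_ok))) (M (nat_lit 459) (B (L (nat_lit 427) ln12_10_5 ln12_10_5_ok) (L (nat_lit 491) ln12_11_5 ln12_11_5_ok))))))))))))))) (B (M (nat_lit 428) (B (M (nat_lit 333) (B (L (nat_lit 301) ln13_9_5 ln13_9_5_ok) (L (nat_lit 460) ln13_10_5 ln13_10_5_ok))) (B (M (nat_lit 364) (B (M (nat_lit 332) (B (L (nat_lit 300) ln12_9_4 ln12_9_4_ok) (L (nat_lit 461) ln13_14_7 ln13_14_7_ok))) (M (nat_lit 394) (B (M (nat_lit 395) (B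 (L (nat_lit 393) ln9_12_2 ln9_12_2_ok) (L (nat_lit 366) ln10_12_2 ln10_12_2_ok))) (B (M (nat_lit 395) (B (L (nat_lit 393) ln9_12_2 ln9_12_2_ok) (L (nat_lit 430) ln10_12_0 ln10_12_0_ok))) (B (M (nat_lit 395) (B (L (nat_lit 366) ln10_12_2 ln10_12_2_ok) (L (nat_lit 430) ln10_12_0 ln10_12_0_ok))) (M (nat_lit 363) (B (M (nat_lit 460) (B (L (nat_lit 331) ln12_14_7 ln12_14_7_ok) (L (nat_lit 333) ln12_14_6 ln12_14_6_ok))) (M (nat_lit 362) (B (L (nat_lit 361) ln9_11_0 ln9_11_0_ok) (L (nat_lit 393) ln13_11_1 ln13_11_1_ok))))))))))) (B (M (nat_lit 364) (B (M (nat_lit 332) (B (L (nat_lit 300) ln12_9_4 ln12_9_4_ok) (L (nat_lit 461) ln13_14_7 ln13_14_7_ok))) (M (nat_lit 363) (B (M (nat_lit 331) (B (L (nat_lit 460) ln12_14_7 ln12_14_7_ok) (M (nat_lit 299) (B (L (nat_lit 267) ln11_8_4 ln11_8_4_ok) (L (nat_lit 395) ln11_9_4 ln11_9_4_ok))))) (B (M (nat_lit 394) (B (M (nat_lit 362) (B (L (nat_lit 361) ln9_11_0 ln9_11_0_ok)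 (L (nat_lit 393) ln13_11_1 ln13_11_1_ok))) (M (nat_lit 395) (B (L (nat_lit 366) ln14_11_1 ln14_11_1_ok) (L (nat_lit 430) ln10_12_0 ln10_12_0_ok))))) (M (nat_lit 330) (B (M (nat_lit 362) (B (L (nat_lit 329) ln13_11_3 ln13_11_3_ok) (L (nat_lit 361) ln9_11_0 ln9_11_0_ok))) (M (nat_lit 331) (B (L (nat_lit 366) ln14_11_3 ln14_11_3_ok) (L (nat_lit 460) ln12_14_7 ln12_14_7_ok)))))))))) (M (nat_lit 332) (B (M (nat_lit 333) (B (L (nat_lit 300) ln13_13_7 ln13_13_7_ok) (L (nat_lit 301) ln13_9_5 ln13_9_5_ok))) (M (nat_lit 394) (B (M (nat_lit 395) (B (L (nat_lit 366) ln10_12_2 ln10_12_2_ok) (L (nat_lit 393) ln9_12_0 ln9_12_0_ok))) (B (M (nat_lit 395) (B (L (nat_lit 393) ln9_12_0 ln9_12_0_ok) (L (nat_lit 430) ln10_12_0 ln10_12_0_ok))) (B (M (nat_lit 395) (B (L (nat_lit 366) ln10_12_2 ln10_12_2_ok) (L (nat_lit 430) ln10_12_0 ln10_12_0_ok))) (M (nat_lit 427) (B (M (nat_lit 364) (B (L (nat_lit 461) ln13_14_7 ln13_14_7_ok)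 (L (nat_lit 459) ln12_10_5 ln12_10_5_ok))) (M (nat_lit 426) (B (L (nat_lit 393) ln13_13_3 ln13_13_3_ok) (L (nat_lit 425) ln9_13_2 ln9_13_2_ok))))))))))))))) (B (M (nat_lit 333) (B (M (nat_lit 428) (B (L (nat_lit 301) ln13_9_5 ln13_9_5_ok) (L (nat_lit 460) ln13_10_5 ln13_10_5_ok))) (M (nat_lit 334) (B (L (nat_lit 302) ln13_13_6 ln13_13_6_ok) (M (nat_lit 366) (B (L (nat_lit 461) ln13_14_6 ln13_14_6_ok) (M (nat_lit 332) (B (L (nat_lit 300) ln13_13_7 ln13_13_7_ok) (M (nat_lit 331) (B (L (nat_lit 330) ln10_10_0 ln10_10_0_ok) (L (nat_lit 367) ln11_10_0 ln11_10_0_ok))))))))))) (B (M (nat_lit 333) (B (M (nat_lit 428) (B (L (nat_lit 301) ln13_9_5 ln13_9_5_ok) (L (nat_lit 460) ln13_10_5 ln13_10_5_ok))) (M (nat_lit 332) (B (L (nat_lit 300) ln13_13_7 ln13_13_7_ok) (M (nat_lit 364) (B (L (nat_lit 461) ln13_14_7 ln13_14_7_ok) (M (nat_lit 334) (B (L (nat_lit 302) ln13_13_6 ln13_13_6_ok) (M (nat_lit 335) (B (L (nat_lit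 363) ln15_10_1 ln15_10_1_ok) (L (nat_lit 336) ln16_10_1 ln16_10_1_ok))))))))))) (M (nat_lit 333) (B (M (nat_lit 428) (B (L (nat_lit 301) ln13_9_5 ln13_9_5_ok) (L (nat_lit 460) ln13_10_5 ln13_10_5_ok))) (B (M (nat_lit 364) (B (M (nat_lit 332) (B (L (nat_lit 300) ln13_13_7 ln13_13_7_ok) (M (nat_lit 334) (B (L (nat_lit 302) ln13_13_6 ln13_13_6_ok) (M (nat_lit 335) (B (L (nat_lit 363) ln15_10_1 ln15_10_1_ok) (L (nat_lit 336) ln16_10_1 ln16_10_1_ok))))))) (B (M (nat_lit 334) (B (L (nat_lit 302) ln13_13_6 ln13_13_6_ok) (M (nat_lit 363) (B (L (nat_lit 362) ln10_11_2 ln10_11_2_ok) (M (nat_lit 335) (B (L (nat_lit 332) ln15_10_1 ln15_10_1_ok) (L (nat_lit 336) ln16_10_1 ln16_10_1_ok))))))) (B (M (nat_lit 332) (B (L (nat_lit 300) ln13_13_7 ln13_13_7_ok) (M (nat_lit 331) (B (M (nat_lit 428) (B (L (nat_lit 299) ln12_13_7 ln12_13_7_ok) (L (nat_lit 460) ln12_14_6 ln12_14_6_ok))) (M (nat_lit 330) (B (L (nat_lit 329)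 ln9_10_0 ln9_10_0_ok) (L (nat_lit 366) ln10_10_0 ln10_10_0_ok))))))) (M (nat_lit 334) (B (L (nat_lit 302) ln13_13_6 ln13_13_6_ok) (M (nat_lit 363) (B (L (nat_lit 362) ln10_11_2 ln10_11_2_ok) (M (nat_lit 335) (B (L (nat_lit 336) ln16_10_1 ln16_10_1_ok) (L (nat_lit 366) ln11_11_2 ln11_11_2_ok))))))))))) (M (nat_lit 301) (B (M (nat_lit 300) (B (L (nat_lit 268) ln13_12_7 ln13_12_7_ok) (L (nat_lit 332) ln13_13_7 ln13_13_7_ok))) (M (nat_lit 302) (B (L (nat_lit 270) ln13_12_6 ln13_12_6_ok) (L (nat_lit 334) ln13_13_6 ln13_13_6_ok)))))))))))))))) (nat_lit 1386334847544579281930502452632026696468783264124728123740719198963059283254184240648144927045128292788721448874933630659377233920) (nat_lit 31966705165655720404921734629378292697159508349333598814401087539640059609047481255250603633432526703644476005579096981346115756155261802222926692352) (nat_lit 31966705165655720404921734629378292697159508349333598814401087539640059609047481255250603633432526703644476005579096981346115756155261802222926692352)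 (by decide +kernel)
noncomputable def c11_n18981 : Cert := (M (nat_lit 398) (B (M (nat_lit 364) (B (M (nat_lit 399) (B (L (nat_lit 363) ln15_12_3 ln15_12_3_ok) (M (nat_lit 400) (B (L (nat_lit 365) ln16_12_3 ln16_12_3_ok) (L (nat_lit 428) ln16_12_1 ln16_12_1_ok))))) (B (M (nat_lit 332) (B (L (nat_lit 300) ln12_9_4 ln12_9_4_ok) (M (nat_lit 461) (B (L (nat_lit 365) ln13_14_7 ln13_14_7_ok) (L (nat_lit 493) ln13_15_7 ln13_15_7_ok))))) (M (nat_lit 461) (B (L (nat_lit 493) ln13_15_7 ln13_15_7_ok) (M (nat_lit 332) (B (L (nat_lit 300) ln12_9_4 ln12_9_4_ok) (L (nat_lit 428) ln12_10_4 ln12_10_4_ok)))))))) (B (M (nat_lit 364) (B (M (nat_lit 363) (B (L (nat_lit 399) ln15_12_3 ln15_12_3_ok) (M (nat_lit 362) (B (L (nat_lit 361) ln9_11_0 ln9_11_0_ok) (L (nat_lit 395) ln14_12_3 ln14_12_3_ok))))) (B (M (nat_lit 363) (B (L (nat_lit 399) ln15_12_3 ln15_12_3_ok) (M (nat_lit 362) (B (L (nat_lit 365) ln10_11_0 ln10_11_0_ok)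 (L (nat_lit 395) ln14_12_3 ln14_12_3_ok))))) (B (M (nat_lit 399) (B (L (nat_lit 363) ln15_12_3 ln15_12_3_ok) (M (nat_lit 400) (B (L (nat_lit 365) ln16_12_3 ln16_12_3_ok) (L (nat_lit 428) ln16_12_1 ln16_12_1_ok))))) (M (nat_lit 461) (B (L (nat_lit 493) ln13_15_7 ln13_15_7_ok) (M (nat_lit 332) (B (L (nat_lit 365) ln13_14_7 ln13_14_7_ok) (L (nat_lit 428) ln12_10_4 ln12_10_4_ok))))))))) (B (M (nat_lit 366) (B (M (nat_lit 367) (B (L (nat_lit 395) ln11_12_2 ln11_12_2_ok) (M (nat_lit 368) (B (L (nat_lit 365) ln16_11_1 ln16_11_1_ok) (L (nat_lit 399) ln12_12_2 ln12_12_2_ok))))) (B (M (nat_lit 399) (B (M (nat_lit 367) (B (L (nat_lit 395) ln11_12_2 ln11_12_2_ok) (L (nat_lit 368) ln12_12_2 ln12_12_2_ok))) (M (nat_lit 428) (B (L (nat_lit 427) ln15_12_1 ln15_12_1_ok) (L (nat_lit 400) ln16_12_1 ln16_12_1_ok))))) (M (nat_lit 334) (B (L (nat_lit 302) ln14_9_5 ln14_9_5_ok) (M (nat_lit 461) (B (L (nat_lit 365) ln13_14_6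 ln13_14_6_ok) (L (nat_lit 493) ln13_15_6 ln13_15_6_ok)))))))) (B (M (nat_lit 364) (B (M (nat_lit 461) (B (L (nat_lit 493) ln13_15_7 ln13_15_7_ok) (M (nat_lit 332) (B (L (nat_lit 300) ln12_9_4 ln12_9_4_ok) (L (nat_lit 428) ln12_10_4 ln12_10_4_ok))))) (M (nat_lit 363) (B (L (nat_lit 399) ln15_12_3 ln15_12_3_ok) (M (nat_lit 362) (B (L (nat_lit 361) ln9_11_0 ln9_11_0_ok) (L (nat_lit 395) ln14_12_3 ln14_12_3_ok))))))) (B (M (nat_lit 395) (B (M (nat_lit 366) (B (L (nat_lit 367) ln11_12_2 ln11_12_2_ok) (M (nat_lit 394) (B (L (nat_lit 365) ln10_12_2 ln10_12_2_ok) (M (nat_lit 362) (B (L (nat_lit 361) ln13_12_3 ln13_12_3_ok) (L (nat_lit 363) ln14_12_3 ln14_12_3_ok))))))) (B (M (nat_lit 394) (B (M (nat_lit 366) (B (L (nat_lit 365) ln10_12_2 ln10_12_2_ok) (L (nat_lit 367) ln11_12_2 ln11_12_2_ok))) (M (nat_lit 426) (B (L (nat_lit 425) ln13_12_1 ln13_12_1_ok) (L (nat_lit 427) ln14_12_1 ln14_12_1_ok))))) (B (M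 (nat_lit 394) (B (M (nat_lit 362) (B (L (nat_lit 361) ln13_12_3 ln13_12_3_ok) (L (nat_lit 363) ln14_12_3 ln14_12_3_ok))) (M (nat_lit 426) (B (L (nat_lit 425) ln13_12_1 ln13_12_1_ok) (L (nat_lit 427) ln14_12_1 ln14_12_1_ok))))) (M (nat_lit 366) (B (L (nat_lit 367) ln11_12_2 ln11_12_2_ok) (M (nat_lit 334) (B (L (nat_lit 302) ln14_9_5 ln14_9_5_ok) (M (nat_lit 461) (B (L (nat_lit 365) ln13_14_6 ln13_14_6_ok) (L (nat_lit 493) ln13_15_6 ln13_15_6_ok))))))))))) (M (nat_lit 399) (B (M (nat_lit 428) (B (L (nat_lit 427) ln15_12_1 ln15_12_1_ok) (L (nat_lit 400) ln16_12_1 ln16_12_1_ok))) (M (nat_lit 395) (B (M (nat_lit 363) (B (L (nat_lit 362) ln14_12_3 ln14_12_3_ok) (L (nat_lit 364) ln15_12_3 ln15_12_3_ok))) (M (nat_lit 367) (B (L (nat_lit 366) ln11_12_2 ln11_12_2_ok) (L (nat_lit 368) ln12_12_2 ln12_12_2_ok)))))))))))))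
noncomputable def c11_n18986 : Cert := (M (nat_lit 427) (B (M (nat_lit 426) (B (L (nat_lit 398) ln14_12_1 ln14_12_1_ok) (M (nat_lit 425) (B (L (nat_lit 424) ln8_13_2 ln8_13_2_ok) (L (nat_lit 428) ln9_13_2 ln9_13_2_ok))))) (B (M (nat_lit 459) (B (M (nat_lit 364) (B (L (nat_lit 491) ln11_15_6 ln11_15_6_ok) (M (nat_lit 332) (B (L (nat_lit 300) ln12_9_5 ln12_9_5_ok) (L (nat_lit 428) ln12_10_5 ln12_10_5_ok))))) (B (M (nat_lit 364) (B (L (nat_lit 491) ln11_15_6 ln11_15_6_ok) (M (nat_lit 332) (B (L (nat_lit 363) ln11_14_6 ln11_14_6_ok) (L (nat_lit 428) ln12_10_5 ln12_10_5_ok))))) (B (M (nat_lit 458) (B (M (nat_lit 490) (B (L (nat_lit 363) ln11_11_5 ln11_11_5_ok) (M (nat_lit 522) (B (L (nat_lit 426) ln10_16_6 ln10_16_6_ok) (L (nat_lit 491) ln11_12_5 ln11_12_5_ok))))) (B (M (nat_lit 428) (B (L (nat_lit 430) ln14_13_1 ln14_13_1_ok) (M (nat_lit 457) (B (L (nat_lit 426) ln13_13_1 ln13_13_1_ok) (L (nat_lit 460)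 ln9_14_2 ln9_14_2_ok))))) (M (nat_lit 490) (B (L (nat_lit 363) ln11_11_5 ln11_11_5_ok) (M (nat_lit 491) (B (L (nat_lit 364) ln11_15_6 ln11_15_6_ok) (L (nat_lit 522) ln11_12_5 ln11_12_5_ok)))))))) (B (M (nat_lit 458) (B (M (nat_lit 490) (B (L (nat_lit 363) ln11_11_5 ln11_11_5_ok) (M (nat_lit 522) (B (L (nat_lit 426) ln10_16_6 ln10_16_6_ok) (L (nat_lit 491) ln11_12_5 ln11_12_5_ok))))) (B (M (nat_lit 428) (B (L (nat_lit 430) ln14_13_1 ln14_13_1_ok) (M (nat_lit 457) (B (L (nat_lit 426) ln13_13_1 ln13_13_1_ok) (L (nat_lit 460) ln9_14_2 ln9_14_2_ok))))) (M (nat_lit 490) (B (L (nat_lit 363) ln11_11_5 ln11_11_5_ok) (M (nat_lit 522) (B (L (nat_lit 491) ln11_12_5 ln11_12_5_ok) (L (nat_lit 554) ln10_17_6 ln10_17_6_ok)))))))) (B (M (nat_lit 364) (B (L (nat_lit 491) ln11_15_6 ln11_15_6_ok) (M (nat_lit 332) (B (L (nat_lit 300) ln12_9_5 ln12_9_5_ok) (L (nat_lit 363) ln11_14_6 ln11_14_6_ok))))) (M (nat_lit 363)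 (B (M (nat_lit 364) (B (L (nat_lit 332) ln11_14_6 ln11_14_6_ok) (M (nat_lit 362) (B (L (nat_lit 330) ln11_14_7 ln11_14_7_ok) (L (nat_lit 361) ln9_11_0 ln9_11_0_ok))))) (B (M (nat_lit 331) (B (M (nat_lit 332) (B (L (nat_lit 300) ln11_13_6 ln11_13_6_ok) (L (nat_lit 364) ln11_14_6 ln11_14_6_ok))) (M (nat_lit 458) (B (L (nat_lit 426) ln11_10_5 ln11_10_5_ok) (L (nat_lit 490) ln11_11_5 ln11_11_5_ok))))) (M (nat_lit 331) (B (M (nat_lit 330) (B (L (nat_lit 298) ln11_13_7 ln11_13_7_ok) (L (nat_lit 362) ln11_14_7 ln11_14_7_ok))) (M (nat_lit 458) (B (L (nat_lit 426) ln11_10_5 ln11_10_5_ok) (L (nat_lit 490) ln11_11_5 ln11_11_5_ok)))))))))))))) (B (M (nat_lit 430) (B (M (nat_lit 431) (B (L (nat_lit 398) ln11_12_0 ln11_12_0_ok) (L (nat_lit 428) ln15_13_3 ln15_13_3_ok))) (B (M (nat_lit 428) (B (L (nat_lit 431) ln15_13_3 ln15_13_3_ok) (M (nat_lit 459) (B (L (nat_lit 458) ln14_13_1 ln14_13_1_ok) (M (nat_lit 364)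 (B (L (nat_lit 332) ln12_10_5 ln12_10_5_ok) (L (nat_lit 491) ln11_15_6 ln11_15_6_ok))))))) (B (M (nat_lit 398) (B (L (nat_lit 431) ln11_12_0 ln11_12_0_ok) (M (nat_lit 399) (B (M (nat_lit 363) (B (L (nat_lit 362) ln14_12_3 ln14_12_3_ok) (L (nat_lit 364) ln15_12_3 ln15_12_3_ok))) (M (nat_lit 367) (B (L (nat_lit 366) ln11_12_2 ln11_12_2_ok) (L (nat_lit 368) ln12_12_2 ln12_12_2_ok))))))) (M (nat_lit 428) (B (M (nat_lit 459) (B (L (nat_lit 458) ln14_13_1 ln14_13_1_ok) (M (nat_lit 364) (B (L (nat_lit 332) ln12_10_5 ln12_10_5_ok) (L (nat_lit 491) ln11_15_6 ln11_15_6_ok))))) (M (nat_lit 363) (B (M (nat_lit 331) (B (L (nat_lit 299) ln11_9_4 ln11_9_4_ok) (L (nat_lit 460) ln11_10_4 ln11_10_4_ok))) (M (nat_lit 398) (B (L (nat_lit 362) ln14_12_3 ln14_12_3_ok) (L (nat_lit 399) ln15_12_1 ln15_12_1_ok))))))))))) (M (nat_lit 398) (B (L (nat_lit 426) ln14_12_1 ln14_12_1_ok) (M (nat_lit 399) (B (M (nat_lit 363) (B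 (L (nat_lit 362) ln14_12_3 ln14_12_3_ok) (L (nat_lit 364) ln15_12_3 ln15_12_3_ok))) (M (nat_lit 367) (B (L (nat_lit 366) ln11_12_2 ln11_12_2_ok) (L (nat_lit 368) ln12_12_2 ln12_12_2_ok)))))))))))
noncomputable def c11_n18987 : Cert := (M (nat_lit 395) (B (M (nat_lit 430) (B (L (nat_lit 394) ln10_12_0 ln10_12_0_ok) (M (nat_lit 431) (B (L (nat_lit 428) ln15_13_3 ln15_13_3_ok) (L (nat_lit 432) ln16_13_3 ln16_13_3_ok))))) (B c11_n18986 (B (M (nat_lit 430) (B (L (nat_lit 394) ln10_12_0 ln10_12_0_ok) (M (nat_lit 431) (B (L (nat_lit 398) ln11_12_0 ln11_12_0_ok) (L (nat_lit 432) ln16_13_3 ln16_13_3_ok))))) (M (nat_lit 394) (B (M (nat_lit 393) (B (L (nat_lit 428) ln9_12_0 ln9_12_0_ok) (M (nat_lit 425) (B (L (nat_lit 424) ln12_12_1 ln12_12_1_ok) (L (nat_lit 426) ln13_12_1 ln13_12_1_ok))))) (B (M (nat_lit 398) (B (M (nat_lit 362) (B (L (nat_lit 361) ln13_12_3 ln13_12_3_ok) (L (nat_lit 363) ln14_12_3 ln14_12_3_ok)))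 (M (nat_lit 426) (B (L (nat_lit 425) ln13_12_1 ln13_12_1_ok) (L (nat_lit 427) ln14_12_1 ln14_12_1_ok))))) (M (nat_lit 393) (B (L (nat_lit 428) ln9_12_0 ln9_12_0_ok) (M (nat_lit 361) (B (L (nat_lit 360) ln12_12_3 ln12_12_3_ok) (L (nat_lit 362) ln13_12_3 ln13_12_3_ok))))))))))))
theorem c11_s18988 : Sem (nat_lit 1386334847383188664550070665778531748218595021979121511688892729411143073470393764272092352380775458208712834410189682411080515584) (nat_lit 58968163011402941546288640879911636551095855489802828254008490612828010054261776530820548654520583168962983362866025377954994852906800211679147572303518403574429122560) (nat_lit 58968163011402941546288640879911636551095855489802828254008490612828010054261776530820548654520583168962983362866025377954994852906800211679147572303518403574429122560) :=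
  sem_of_chk (M (nat_lit 396) (B (M (nat_lit 395) (B (M (nat_lit 430) (B (L (nat_lit 394) ln10_12_0 ln10_12_0_ok) (M (nat_lit 431) (B (L (nat_lit 398) ln11_12_0 ln11_12_0_ok) (L (nat_lit 432) ln16_13_3 ln16_13_3_ok))))) (B (M (nat_lit 430) (B (M (nat_lit 431) (B (L (nat_lit 398) ln11_12_0 ln11_12_0_ok) (L (nat_lit 428) ln15_13_3 ln15_13_3_ok))) (B (M (nat_lit 431) (B (L (nat_lit 428) ln15_13_3 ln15_13_3_ok) (L (nat_lit 432) ln16_13_3 ln16_13_3_ok))) (B (M (nat_lit 431) (B (L (nat_lit 398) ln11_12_0 ln11_12_0_ok) (L (nat_lit 432) ln16_13_3 ln16_13_3_ok))) (M (nat_lit 398) (B (M (nat_lit 366) (B (L (nat_lit 367) ln11_12_2 ln11_12_2_ok) (M (nat_lit 334) (B (L (nat_lit 302) ln14_9_5 ln14_9_5_ok) (L (nat_lit 461) ln14_10_5 ln14_10_5_ok))))) (M (nat_lit 399) (B (M (nat_lit 363) (B (L (nat_lit 362) ln14_12_3 ln14_12_3_ok) (L (nat_lit 364) ln15_12_3 ln15_12_3_ok))) (M (nat_lit 427) (B (L (nat_lit 426) ln14_12_1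 ln14_12_1_ok) (L (nat_lit 428) ln15_12_1 ln15_12_1_ok))))))))))) (B (M (nat_lit 430) (B (L (nat_lit 394) ln10_12_0 ln10_12_0_ok) (M (nat_lit 431) (B (L (nat_lit 428) ln15_13_3 ln15_13_3_ok) (L (nat_lit 432) ln16_13_3 ln16_13_3_ok))))) (M (nat_lit 394) (B (M (nat_lit 393) (B (L (nat_lit 428) ln9_12_0 ln9_12_0_ok) (M (nat_lit 425) (B (L (nat_lit 424) ln12_12_1 ln12_12_1_ok) (L (nat_lit 426) ln13_12_1 ln13_12_1_ok))))) (B (M (nat_lit 398) (B (M (nat_lit 362) (B (L (nat_lit 361) ln13_12_3 ln13_12_3_ok) (L (nat_lit 363) ln14_12_3 ln14_12_3_ok))) (M (nat_lit 426) (B (L (nat_lit 425) ln13_12_1 ln13_12_1_ok) (L (nat_lit 427) ln14_12_1 ln14_12_1_ok))))) (M (nat_lit 393) (B (L (nat_lit 428) ln9_12_0 ln9_12_0_ok) (M (nat_lit 361) (B (L (nat_lit 360) ln12_12_3 ln12_12_3_ok) (L (nat_lit 362) ln13_12_3 ln13_12_3_ok)))))))))))) (B (M (nat_lit 398) (B (M (nat_lit 364) (B (M (nat_lit 461) (B (L (nat_lit 493) ln13_15_7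 ln13_15_7_ok) (M (nat_lit 332) (B (L (nat_lit 300) ln12_9_4 ln12_9_4_ok) (L (nat_lit 428) ln12_10_4 ln12_10_4_ok))))) (B (M (nat_lit 461) (B (L (nat_lit 493) ln13_15_7 ln13_15_7_ok) (M (nat_lit 332) (B (L (nat_lit 365) ln13_14_7 ln13_14_7_ok) (L (nat_lit 428) ln12_10_4 ln12_10_4_ok))))) (B (M (nat_lit 399) (B (L (nat_lit 363) ln15_12_3 ln15_12_3_ok) (M (nat_lit 400) (B (L (nat_lit 365) ln16_12_3 ln16_12_3_ok) (L (nat_lit 428) ln16_12_1 ln16_12_1_ok))))) (M (nat_lit 332) (B (L (nat_lit 300) ln12_9_4 ln12_9_4_ok) (M (nat_lit 461) (B (L (nat_lit 365) ln13_14_7 ln13_14_7_ok) (L (nat_lit 493) ln13_15_7 ln13_15_7_ok))))))))) (B (M (nat_lit 399) (B (M (nat_lit 428) (B (L (nat_lit 427) ln15_12_1 ln15_12_1_ok) (L (nat_lit 400) ln16_12_1 ln16_12_1_ok))) (B (M (nat_lit 395) (B (M (nat_lit 367) (B (L (nat_lit 366) ln11_12_2 ln11_12_2_ok) (L (nat_lit 368) ln12_12_2 ln12_12_2_ok))) (M (nat_lit 427) (B (L (nat_lit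 426) ln14_12_1 ln14_12_1_ok) (L (nat_lit 428) ln15_12_1 ln15_12_1_ok))))) (B (M (nat_lit 400) (B (L (nat_lit 428) ln16_12_1 ln16_12_1_ok) (M (nat_lit 368) (B (L (nat_lit 367) ln12_12_2 ln12_12_2_ok) (L (nat_lit 369) ln13_12_2 ln13_12_2_ok))))) (M (nat_lit 364) (B (L (nat_lit 363) ln15_12_3 ln15_12_3_ok) (M (nat_lit 368) (B (L (nat_lit 367) ln12_12_2 ln12_12_2_ok) (M (nat_lit 400) (B (L (nat_lit 365) ln16_12_3 ln16_12_3_ok) (L (nat_lit 369) ln13_12_2 ln13_12_2_ok))))))))))) (B (M (nat_lit 399) (B (M (nat_lit 428) (B (L (nat_lit 427) ln15_12_1 ln15_12_1_ok) (L (nat_lit 400) ln16_12_1 ln16_12_1_ok))) (M (nat_lit 395) (B (M (nat_lit 367) (B (L (nat_lit 366) ln11_12_2 ln11_12_2_ok) (L (nat_lit 368) ln12_12_2 ln12_12_2_ok))) (M (nat_lit 431) (B (L (nat_lit 430) ln11_12_0 ln11_12_0_ok) (L (nat_lit 432) ln12_12_0 ln12_12_0_ok))))))) (M (nat_lit 366) (B (M (nat_lit 367) (B (L (nat_lit 395) ln11_12_2 ln11_12_2_ok)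 (M (nat_lit 368) (B (L (nat_lit 365) ln16_11_1 ln16_11_1_ok) (L (nat_lit 369) ln17_11_1 ln17_11_1_ok))))) (B (M (nat_lit 395) (B (L (nat_lit 367) ln11_12_2 ln11_12_2_ok) (M (nat_lit 430) (B (L (nat_lit 394) ln10_12_0 ln10_12_0_ok) (L (nat_lit 431) ln11_12_0 ln11_12_0_ok))))) (M (nat_lit 461) (B (L (nat_lit 493) ln13_15_6 ln13_15_6_ok) (M (nat_lit 334) (B (L (nat_lit 365) ln13_14_6 ln13_14_6_ok) (L (nat_lit 430) ln14_10_5 ln14_10_5_ok)))))))))))) (B c11_n18744 (B (M (nat_lit 366) (B (M (nat_lit 395) (B (M (nat_lit 394) (B (L (nat_lit 365) ln10_12_2 ln10_12_2_ok) (L (nat_lit 430) ln10_12_0 ln10_12_0_ok))) (B (M (nat_lit 398) (B (L (nat_lit 367) ln11_12_2 ln11_12_2_ok) (M (nat_lit 430) (B (L (nat_lit 394) ln10_12_0 ln10_12_0_ok) (L (nat_lit 431) ln11_12_0 ln11_12_0_ok))))) (M (nat_lit 367) (B (L (nat_lit 398) ln11_12_2 ln11_12_2_ok) (M (nat_lit 365) (B (L (nat_lit 364) ln15_11_1 ln15_11_1_ok) (L (nat_lit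 368) ln16_11_1 ln16_11_1_ok)))))))) (B (M (nat_lit 398) (B (M (nat_lit 334) (B (L (nat_lit 302) ln14_9_5 ln14_9_5_ok) (M (nat_lit 461) (B (L (nat_lit 365) ln13_14_6 ln13_14_6_ok) (L (nat_lit 493) ln13_15_6 ln13_15_6_ok))))) (B (M (nat_lit 367) (B (L (nat_lit 395) ln11_12_2 ln11_12_2_ok) (M (nat_lit 368) (B (L (nat_lit 365) ln16_11_1 ln16_11_1_ok) (L (nat_lit 369) ln17_11_1 ln17_11_1_ok))))) (M (nat_lit 461) (B (L (nat_lit 493) ln13_15_6 ln13_15_6_ok) (M (nat_lit 334) (B (L (nat_lit 302) ln14_9_5 ln14_9_5_ok) (L (nat_lit 430) ln14_10_5 ln14_10_5_ok)))))))) (B (M (nat_lit 398) (B (M (nat_lit 367) (B (L (nat_lit 395) ln11_12_2 ln11_12_2_ok) (M (nat_lit 368) (B (L (nat_lit 369) ln17_11_1 ln17_11_1_ok) (L (nat_lit 399) ln12_12_2 ln12_12_2_ok))))) (M (nat_lit 461) (B (L (nat_lit 493) ln13_15_6 ln13_15_6_ok) (M (nat_lit 334) (B (L (nat_lit 302) ln14_9_5 ln14_9_5_ok) (L (nat_lit 430) ln14_10_5 ln14_10_5_ok)))))))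 (B (M (nat_lit 461) (B (M (nat_lit 493) (B (L (nat_lit 364) ln13_15_7 ln13_15_7_ok) (L (nat_lit 398) ln13_15_6 ln13_15_6_ok))) (B (M (nat_lit 334) (B (L (nat_lit 365) ln13_14_6 ln13_14_6_ok) (M (nat_lit 398) (B (L (nat_lit 302) ln14_9_5 ln14_9_5_ok) (L (nat_lit 493) ln13_15_6 ln13_15_6_ok))))) (B (M (nat_lit 364) (B (L (nat_lit 493) ln13_15_7 ln13_15_7_ok) (M (nat_lit 365) (B (L (nat_lit 332) ln13_14_7 ln13_14_7_ok) (L (nat_lit 334) ln13_14_6 ln13_14_6_ok))))) (M (nat_lit 334) (B (L (nat_lit 365) ln13_14_6 ln13_14_6_ok) (M (nat_lit 398) (B (L (nat_lit 302) ln14_9_5 ln14_9_5_ok) (L (nat_lit 430) ln14_10_5 ln14_10_5_ok))))))))) (M (nat_lit 365) (B (M (nat_lit 334) (B (L (nat_lit 461) ln13_14_6 ln13_14_6_ok) (M (nat_lit 302) (B (L (nat_lit 270) ln14_8_5 ln14_8_5_ok) (L (nat_lit 333) ln13_13_6 ln13_13_6_ok))))) (M (nat_lit 367) (B (L (nat_lit 368) ln16_11_1 ln16_11_1_ok) (M (nat_lit 395) (B (L (nat_lit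 364) ln15_11_1 ln15_11_1_ok) (L (nat_lit 394) ln10_12_2 ln10_12_2_ok)))))))))))) (B (M (nat_lit 395) (B (M (nat_lit 430) (B (L (nat_lit 394) ln10_12_0 ln10_12_0_ok) (M (nat_lit 431) (B (L (nat_lit 428) ln15_13_3 ln15_13_3_ok) (L (nat_lit 432) ln16_13_3 ln16_13_3_ok))))) (B (M (nat_lit 398) (B (M (nat_lit 366) (B (L (nat_lit 367) ln11_12_2 ln11_12_2_ok) (M (nat_lit 461) (B (L (nat_lit 493) ln13_15_6 ln13_15_6_ok) (M (nat_lit 334) (B (L (nat_lit 302) ln14_9_5 ln14_9_5_ok) (L (nat_lit 430) ln14_10_5 ln14_10_5_ok))))))) (B (M (nat_lit 399) (B (M (nat_lit 431) (B (L (nat_lit 430) ln11_12_0 ln11_12_0_ok) (L (nat_lit 432) ln12_12_0 ln12_12_0_ok))) (M (nat_lit 428) (B (L (nat_lit 427) ln15_12_1 ln15_12_1_ok) (L (nat_lit 400) ln16_12_1 ln16_12_1_ok))))) (M (nat_lit 366) (B (L (nat_lit 367) ln11_12_2 ln11_12_2_ok) (M (nat_lit 334) (B (L (nat_lit 302) ln14_9_5 ln14_9_5_ok) (M (nat_lit 461) (B (L (nat_lit 365)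 ln13_14_6 ln13_14_6_ok) (L (nat_lit 493) ln13_15_6 ln13_15_6_ok)))))))))) (B (M (nat_lit 430) (B (L (nat_lit 394) ln10_12_0 ln10_12_0_ok) (M (nat_lit 431) (B (L (nat_lit 398) ln11_12_0 ln11_12_0_ok) (L (nat_lit 432) ln16_13_3 ln16_13_3_ok))))) (M (nat_lit 394) (B (M (nat_lit 393) (B (L (nat_lit 428) ln9_12_0 ln9_12_0_ok) (M (nat_lit 425) (B (L (nat_lit 424) ln12_12_1 ln12_12_1_ok) (L (nat_lit 426) ln13_12_1 ln13_12_1_ok))))) (B (M (nat_lit 398) (B (M (nat_lit 366) (B (L (nat_lit 365) ln10_12_2 ln10_12_2_ok) (L (nat_lit 367) ln11_12_2 ln11_12_2_ok))) (M (nat_lit 426) (B (L (nat_lit 425) ln13_12_1 ln13_12_1_ok) (L (nat_lit 427) ln14_12_1 ln14_12_1_ok))))) (M (nat_lit 393) (B (L (nat_lit 428) ln9_12_0 ln9_12_0_ok) (M (nat_lit 361) (B (L (nat_lit 360) ln12_12_3 ln12_12_3_ok) (L (nat_lit 362) ln13_12_3 ln13_12_3_ok)))))))))))) (B (M (nat_lit 398) (B (M (nat_lit 364) (B (M (nat_lit 461) (B (L (nat_lit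 493) ln13_15_7 ln13_15_7_ok) (M (nat_lit 332) (B (L (nat_lit 300) ln12_9_4 ln12_9_4_ok) (L (nat_lit 428) ln12_10_4 ln12_10_4_ok))))) (B (M (nat_lit 461) (B (L (nat_lit 493) ln13_15_7 ln13_15_7_ok) (M (nat_lit 332) (B (L (nat_lit 365) ln13_14_7 ln13_14_7_ok) (L (nat_lit 428) ln12_10_4 ln12_10_4_ok))))) (B (M (nat_lit 399) (B (L (nat_lit 363) ln15_12_3 ln15_12_3_ok) (M (nat_lit 400) (B (L (nat_lit 365) ln16_12_3 ln16_12_3_ok) (L (nat_lit 428) ln16_12_1 ln16_12_1_ok))))) (M (nat_lit 332) (B (L (nat_lit 300) ln12_9_4 ln12_9_4_ok) (M (nat_lit 461) (B (L (nat_lit 365) ln13_14_7 ln13_14_7_ok) (L (nat_lit 493) ln13_15_7 ln13_15_7_ok))))))))) (B (M (nat_lit 399) (B (M (nat_lit 428) (B (L (nat_lit 427) ln15_12_1 ln15_12_1_ok) (L (nat_lit 400) ln16_12_1 ln16_12_1_ok))) (M (nat_lit 395) (B (M (nat_lit 367) (B (L (nat_lit 366) ln11_12_2 ln11_12_2_ok) (L (nat_lit 368) ln12_12_2 ln12_12_2_ok))) (M (nat_lit 431)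 (B (L (nat_lit 430) ln11_12_0 ln11_12_0_ok) (L (nat_lit 432) ln12_12_0 ln12_12_0_ok))))))) (M (nat_lit 366) (B (M (nat_lit 461) (B (L (nat_lit 493) ln13_15_6 ln13_15_6_ok) (M (nat_lit 334) (B (L (nat_lit 302) ln14_9_5 ln14_9_5_ok) (L (nat_lit 430) ln14_10_5 ln14_10_5_ok))))) (B (M (nat_lit 461) (B (L (nat_lit 493) ln13_15_6 ln13_15_6_ok) (M (nat_lit 334) (B (L (nat_lit 365) ln13_14_6 ln13_14_6_ok) (L (nat_lit 430) ln14_10_5 ln14_10_5_ok))))) (M (nat_lit 367) (B (L (nat_lit 395) ln11_12_2 ln11_12_2_ok) (M (nat_lit 368) (B (L (nat_lit 365) ln16_11_1 ln16_11_1_ok) (L (nat_lit 369) ln17_11_1 ln17_11_1_ok))))))))))) (B (K (nat_lit 1386334847544579281930502452632026696468783264124728123740719198963059283254184240648144927045128292788721448874933630659377233920) (nat_lit 109836762587663119574318981100267869055509297937361652678613732349964192430284591632433545086233692308643520378459121557602009997444353222375044199457386135552)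 (nat_lit 109836762587663119574318981100267869055509297937361652678613732349964192430284591632433545086233692308643520378459121557602009997444353222375044199457386135552) c11_s18852) (B (K (nat_lit 1386334847544579281930502452632026696468783264124728123740719198963059283254184240648144927045128292788721448874933630659377233920) (nat_lit 31966705165655720404921734629378292697159508349333598814401087539640059609047481255250603633432526703644476005579096981346115756155261802222926692352) (nat_lit 31966705165655720404921734629378292697159508349333598814401087539640059609047481255250603633432526703644476005579096981346115756155261802222926692352) c11_s18967) (B c11_n18981 c11_n18987)))))))))) (nat_lit 1386334847383188664550070665778531748218595021979121511688892729411143073470393764272092352380775458208712834410189682411080515584) (nat_lit 58968163011402941546288640879911636551095855489802828254008490612828010054261776530820548654520583168962983362866025377954994852906800211679147572303518403574429122560)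 (nat_lit 58968163011402941546288640879911636551095855489802828254008490612828010054261776530820548654520583168962983362866025377954994852906800211679147572303518403574429122560) (by decide +kernel)
theorem c11_s19027 : Sem (nat_lit 1386334847383188664550070665778531748218595021979121511688892729411143073470393764272092352380775458208712834410189682411080515584) (nat_lit 1179363258141160341632306725041411996705216563203881715965710728488036671807936784993067836684726959468948113514138334372291719832995322891613804994125363449920531464192) (nat_lit 1179363258141160341632306725041411996705216563203881715965710728488036671807936784993067836684726959468948113514138334372291719832995322891613804994125363449920531464192) :=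
  sem_of_chk (M (nat_lit 461) (B (M (nat_lit 493) (B (M (nat_lit 525) (B (M (nat_lit 398) (B (L (nat_lit 366) ln13_15_6 ln13_15_6_ok) (L (nat_lit 430) ln13_16_6 ln13_16_6_ok))) (M (nat_lit 526) (B (L (nat_lit 494) ln13_12_4 ln13_12_4_ok) (L (nat_lit 558) ln13_13_4 ln13_13_4_ok))))) (B (M (nat_lit 525) (B (M (nat_lit 396) (B (L (nat_lit 364) ln13_15_7 ln13_15_7_ok) (L (nat_lit 428) ln13_16_7 ln13_16_7_ok))) (M (nat_lit 526) (B (L (nat_lit 494) ln13_12_4 ln13_12_4_ok) (L (nat_lit 558) ln13_13_4 ln13_13_4_ok))))) (B (M (nat_lit 525) (B (M (nat_lit 396) (B (L (nat_lit 364) ln13_15_7 ln13_15_7_ok) (L (nat_lit 428) ln13_16_7 ln13_16_7_ok))) (M (nat_lit 398) (B (L (nat_lit 366) ln13_15_6 ln13_15_6_ok) (L (nat_lit 430) ln13_16_6 ln13_16_6_ok))))) (M (nat_lit 364) (B (L (nat_lit 396) ln13_15_7 ln13_15_7_ok) (M (nat_lit 365) (B (L (nat_lit 332) ln13_14_7 ln13_14_7_ok) (M (nat_lit 366) (B (L (nat_lit 334) ln13_14_6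 ln13_14_6_ok) (L (nat_lit 398) ln13_15_6 ln13_15_6_ok))))))))))) (B (M (nat_lit 493) (B (M (nat_lit 525) (B (M (nat_lit 396) (B (L (nat_lit 364) ln13_15_7 ln13_15_7_ok) (L (nat_lit 428) ln13_16_7 ln13_16_7_ok))) (M (nat_lit 526) (B (L (nat_lit 494) ln13_12_4 ln13_12_4_ok) (L (nat_lit 558) ln13_13_4 ln13_13_4_ok))))) (B (M (nat_lit 524) (B (L (nat_lit 492) ln13_12_5 ln13_12_5_ok) (M (nat_lit 525) (B (L (nat_lit 556) ln13_13_5 ln13_13_5_ok) (M (nat_lit 526) (B (L (nat_lit 494) ln13_12_4 ln13_12_4_ok) (L (nat_lit 558) ln13_13_4 ln13_13_4_ok))))))) (B (M (nat_lit 525) (B (M (nat_lit 396) (B (L (nat_lit 364) ln13_15_7 ln13_15_7_ok) (L (nat_lit 428) ln13_16_7 ln13_16_7_ok))) (M (nat_lit 524) (B (L (nat_lit 492) ln13_12_5 ln13_12_5_ok) (L (nat_lit 556) ln13_13_5 ln13_13_5_ok))))) (M (nat_lit 365) (B (M (nat_lit 366) (B (L (nat_lit 334) ln13_14_6 ln13_14_6_ok) (L (nat_lit 398) ln13_15_6 ln13_15_6_ok))) (M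 (nat_lit 492) (B (L (nat_lit 460) ln13_11_5 ln13_11_5_ok) (L (nat_lit 524) ln13_12_5 ln13_12_5_ok))))))))) (B (M (nat_lit 493) (B (M (nat_lit 525) (B (M (nat_lit 396) (B (L (nat_lit 364) ln13_15_7 ln13_15_7_ok) (L (nat_lit 428) ln13_16_7 ln13_16_7_ok))) (M (nat_lit 526) (B (L (nat_lit 494) ln13_12_4 ln13_12_4_ok) (L (nat_lit 558) ln13_13_4 ln13_13_4_ok))))) (B (M (nat_lit 524) (B (L (nat_lit 492) ln13_12_5 ln13_12_5_ok) (M (nat_lit 525) (B (L (nat_lit 556) ln13_13_5 ln13_13_5_ok) (M (nat_lit 526) (B (L (nat_lit 494) ln13_12_4 ln13_12_4_ok) (L (nat_lit 558) ln13_13_4 ln13_13_4_ok))))))) (B (M (nat_lit 525) (B (M (nat_lit 396) (B (L (nat_lit 364) ln13_15_7 ln13_15_7_ok) (L (nat_lit 428) ln13_16_7 ln13_16_7_ok))) (M (nat_lit 524) (B (L (nat_lit 492) ln13_12_5 ln13_12_5_ok) (L (nat_lit 556) ln13_13_5 ln13_13_5_ok))))) (M (nat_lit 365) (B (M (nat_lit 364) (B (L (nat_lit 332) ln13_14_7 ln13_14_7_ok) (L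 (nat_lit 396) ln13_15_7 ln13_15_7_ok))) (M (nat_lit 492) (B (L (nat_lit 460) ln13_11_5 ln13_11_5_ok) (L (nat_lit 524) ln13_12_5 ln13_12_5_ok))))))))) (B (M (nat_lit 493) (B (M (nat_lit 524) (B (L (nat_lit 492) ln13_12_5 ln13_12_5_ok) (M (nat_lit 525) (B (L (nat_lit 556) ln13_13_5 ln13_13_5_ok) (M (nat_lit 526) (B (L (nat_lit 494) ln13_12_4 ln13_12_4_ok) (L (nat_lit 558) ln13_13_4 ln13_13_4_ok))))))) (B (M (nat_lit 525) (B (M (nat_lit 398) (B (L (nat_lit 366) ln13_15_6 ln13_15_6_ok) (L (nat_lit 430) ln13_16_6 ln13_16_6_ok))) (M (nat_lit 526) (B (L (nat_lit 494) ln13_12_4 ln13_12_4_ok) (L (nat_lit 558) ln13_13_4 ln13_13_4_ok))))) (B (M (nat_lit 525) (B (M (nat_lit 398) (B (L (nat_lit 366) ln13_15_6 ln13_15_6_ok) (L (nat_lit 430) ln13_16_6 ln13_16_6_ok))) (M (nat_lit 524) (B (L (nat_lit 492) ln13_12_5 ln13_12_5_ok) (L (nat_lit 556) ln13_13_5 ln13_13_5_ok))))) (M (nat_lit 365) (B (M (nat_lit 366) (B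 (L (nat_lit 334) ln13_14_6 ln13_14_6_ok) (L (nat_lit 398) ln13_15_6 ln13_15_6_ok))) (M (nat_lit 492) (B (L (nat_lit 460) ln13_11_5 ln13_11_5_ok) (L (nat_lit 524) ln13_12_5 ln13_12_5_ok))))))))) (B (M (nat_lit 493) (B (M (nat_lit 525) (B (M (nat_lit 396) (B (L (nat_lit 364) ln13_15_7 ln13_15_7_ok) (L (nat_lit 428) ln13_16_7 ln13_16_7_ok))) (M (nat_lit 398) (B (L (nat_lit 366) ln13_15_6 ln13_15_6_ok) (L (nat_lit 430) ln13_16_6 ln13_16_6_ok))))) (B (M (nat_lit 524) (B (L (nat_lit 492) ln13_12_5 ln13_12_5_ok) (M (nat_lit 525) (B (L (nat_lit 556) ln13_13_5 ln13_13_5_ok) (M (nat_lit 526) (B (L (nat_lit 494) ln13_12_4 ln13_12_4_ok) (L (nat_lit 558) ln13_13_4 ln13_13_4_ok))))))) (M (nat_lit 398) (B (L (nat_lit 366) ln13_15_6 ln13_15_6_ok) (M (nat_lit 396) (B (L (nat_lit 364) ln13_15_7 ln13_15_7_ok) (M (nat_lit 399) (B (M (nat_lit 428) (B (L (nat_lit 427) ln15_12_1 ln15_12_1_ok) (L (nat_lit 400) ln16_12_1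 ln16_12_1_ok))) (B (M (nat_lit 395) (B (M (nat_lit 427) (B (L (nat_lit 426) ln14_12_1 ln14_12_1_ok) (L (nat_lit 428) ln15_12_1 ln15_12_1_ok))) (M (nat_lit 431) (B (L (nat_lit 430) ln11_12_0 ln11_12_0_ok) (L (nat_lit 432) ln12_12_0 ln12_12_0_ok))))) (B (M (nat_lit 400) (B (L (nat_lit 428) ln16_12_1 ln16_12_1_ok) (M (nat_lit 368) (B (L (nat_lit 367) ln12_12_2 ln12_12_2_ok) (L (nat_lit 369) ln13_12_2 ln13_12_2_ok))))) (M (nat_lit 400) (B (M (nat_lit 368) (B (L (nat_lit 367) ln12_12_2 ln12_12_2_ok) (L (nat_lit 369) ln13_12_2 ln13_12_2_ok))) (M (nat_lit 432) (B (L (nat_lit 431) ln12_12_0 ln12_12_0_ok) (L (nat_lit 433) ln13_12_0 ln13_12_0_ok)))))))))))))))) (M (nat_lit 365) (B (M (nat_lit 333) (B (M (nat_lit 334) (B (L (nat_lit 302) ln13_13_6 ln13_13_6_ok) (L (nat_lit 366) ln13_14_6 ln13_14_6_ok))) (M (nat_lit 460) (B (L (nat_lit 428) ln13_10_5 ln13_10_5_ok) (L (nat_lit 492) ln13_11_5 ln13_11_5_ok)))))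 (B (M (nat_lit 460) (B (L (nat_lit 492) ln13_11_5 ln13_11_5_ok) (M (nat_lit 332) (B (L (nat_lit 364) ln13_14_7 ln13_14_7_ok) (M (nat_lit 333) (B (L (nat_lit 300) ln13_13_7 ln13_13_7_ok) (L (nat_lit 428) ln13_10_5 ln13_10_5_ok))))))) (M (nat_lit 366) (B (L (nat_lit 334) ln13_14_6 ln13_14_6_ok) (M (nat_lit 364) (B (L (nat_lit 332) ln13_14_7 ln13_14_7_ok) (M (nat_lit 367) (B (M (nat_lit 396) (B (L (nat_lit 395) ln15_11_1 ln15_11_1_ok) (L (nat_lit 368) ln16_11_1 ln16_11_1_ok))) (B (M (nat_lit 363) (B (M (nat_lit 395) (B (L (nat_lit 394) ln14_11_1 ln14_11_1_ok) (L (nat_lit 396) ln15_11_1 ln15_11_1_ok))) (M (nat_lit 399) (B (L (nat_lit 398) ln11_11_0 ln11_11_0_ok) (L (nat_lit 400) ln12_11_0 ln12_11_0_ok))))) (B (M (nat_lit 368) (B (L (nat_lit 396) ln16_11_1 ln16_11_1_ok) (M (nat_lit 336) (B (L (nat_lit 335) ln12_11_2 ln12_11_2_ok) (L (nat_lit 337) ln13_11_2 ln13_11_2_ok))))) (M (nat_lit 368) (B (M (nat_lit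 336) (B (L (nat_lit 335) ln12_11_2 ln12_11_2_ok) (L (nat_lit 337) ln13_11_2 ln13_11_2_ok))) (M (nat_lit 400) (B (L (nat_lit 399) ln12_11_0 ln12_11_0_ok) (L (nat_lit 401) ln13_11_0 ln13_11_0_ok)))))))))))))))))))))) (nat_lit 1386334847383188664550070665778531748218595021979121511688892729411143073470393764272092352380775458208712834410189682411080515584) (nat_lit 1179363258141160341632306725041411996705216563203881715965710728488036671807936784993067836684726959468948113514138334372291719832995322891613804994125363449920531464192) (nat_lit 1179363258141160341632306725041411996705216563203881715965710728488036671807936784993067836684726959468948113514138334372291719832995322891613804994125363449920531464192) (by decide +kernel)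
noncomputable def c11_n19170 : Cert := (M (nat_lit 399) (B (M (nat_lit 366) (B (L (nat_lit 334) ln13_14_6 ln13_14_6_ok) (M (nat_lit 364) (B (L (nat_lit 332) ln13_14_7 ln13_14_7_ok) (M (nat_lit 367) (B (L (nat_lit 400) ln12_11_0 ln12_11_0_ok) (L (nat_lit 368) ln16_11_1 ln16_11_1_ok))))))) (B (M (nat_lit 366) (B (L (nat_lit 334) ln13_14_6 ln13_14_6_ok) (M (nat_lit 400) (B (M (nat_lit 367) (B (L (nat_lit 364) ln12_11_0 ln12_11_0_ok) (L (nat_lit 368) ln16_11_1 ln16_11_1_ok))) (M (nat_lit 398) (B (L (nat_lit 401) ln17_12_3 ln17_12_3_ok) (L (nat_lit 428) ln16_12_1 ln16_12_1_ok))))))) (B (M (nat_lit 364) (B (L (nat_lit 332) ln13_14_7 ln13_14_7_ok) (M (nat_lit 367) (B (M (nat_lit 400) (B (L (nat_lit 366) ln12_11_0 ln12_11_0_ok) (L (nat_lit 398) ln16_12_3 ln16_12_3_ok))) (B (M (nat_lit 398) (B (L (nat_lit 400) ln16_12_3 ln16_12_3_ok) (L (nat_lit 368) ln12_12_2 ln12_12_2_ok))) (B (M (nat_lit 366) (B (L (nat_lit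 400) ln12_11_0 ln12_11_0_ok) (L (nat_lit 368) ln16_11_1 ln16_11_1_ok))) (M (nat_lit 368) (B (L (nat_lit 366) ln16_11_1 ln16_11_1_ok) (L (nat_lit 398) ln12_12_2 ln12_12_2_ok))))))))) (B (M (nat_lit 398) (B (M (nat_lit 428) (B (L (nat_lit 427) ln15_12_1 ln15_12_1_ok) (L (nat_lit 400) ln16_12_1 ln16_12_1_ok))) (M (nat_lit 367) (B (L (nat_lit 368) ln12_12_2 ln12_12_2_ok) (M (nat_lit 335) (B (M (nat_lit 303) (B (L (nat_lit 430) ln15_9_5 ln15_9_5_ok) (M (nat_lit 366) (B (L (nat_lit 271) ln15_8_5 ln15_8_5_ok) (L (nat_lit 334) ln13_14_6 ln13_14_6_ok))))) (B (M (nat_lit 334) (B (L (nat_lit 366) ln13_14_6 ln13_14_6_ok) (M (nat_lit 431) (B (L (nat_lit 302) ln15_13_7 ln15_13_7_ok) (L (nat_lit 432) ln12_12_0 ln12_12_0_ok))))) (M (nat_lit 304) (B (M (nat_lit 303) (B (L (nat_lit 272) ln15_12_6 ln15_12_6_ok) (L (nat_lit 430) ln15_9_5 ln15_9_5_ok))) (M (nat_lit 431) (B (L (nat_lit 336) ln15_13_6 ln15_13_6_ok) (L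 (nat_lit 432) ln12_12_0 ln12_12_0_ok)))))))))))) (B (M (nat_lit 428) (B (M (nat_lit 398) (B (L (nat_lit 427) ln15_12_1 ln15_12_1_ok) (L (nat_lit 400) ln16_12_1 ln16_12_1_ok))) (M (nat_lit 460) (B (L (nat_lit 492) ln12_15_6 ln12_15_6_ok) (M (nat_lit 459) (B (M (nat_lit 364) (B (L (nat_lit 332) ln13_14_7 ln13_14_7_ok) (L (nat_lit 491) ln12_11_5 ln12_11_5_ok))) (M (nat_lit 458) (B (L (nat_lit 457) ln9_14_2 ln9_14_2_ok) (L (nat_lit 430) ln10_14_2 ln10_14_2_ok))))))))) (M (nat_lit 367) (B (M (nat_lit 366) (B (L (nat_lit 334) ln13_14_6 ln13_14_6_ok) (L (nat_lit 368) ln16_11_1 ln16_11_1_ok))) (B (M (nat_lit 368) (B (L (nat_lit 366) ln16_11_1 ln16_11_1_ok) (L (nat_lit 398) ln12_12_2 ln12_12_2_ok))) (B (M (nat_lit 428) (B (M (nat_lit 398) (B (L (nat_lit 368) ln12_12_2 ln12_12_2_ok) (L (nat_lit 427) ln15_12_1 ln15_12_1_ok))) (M (nat_lit 460) (B (L (nat_lit 492) ln12_15_6 ln12_15_6_ok) (M (nat_lit 459) (B (M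 (nat_lit 364) (B (L (nat_lit 332) ln13_14_7 ln13_14_7_ok) (L (nat_lit 491) ln12_11_5 ln12_11_5_ok))) (M (nat_lit 458) (B (L (nat_lit 457) ln9_14_2 ln9_14_2_ok) (L (nat_lit 430) ln10_14_2 ln10_14_2_ok))))))))) (M (nat_lit 431) (B (M (nat_lit 432) (B (L (nat_lit 398) ln12_12_0 ln12_12_0_ok) (L (nat_lit 430) ln16_13_3 ln16_13_3_ok))) (M (nat_lit 335) (B (M (nat_lit 334) (B (L (nat_lit 302) ln15_13_7 ln15_13_7_ok) (L (nat_lit 366) ln13_14_6 ln13_14_6_ok))) (B (M (nat_lit 336) (B (L (nat_lit 304) ln15_13_6 ln15_13_6_ok) (M (nat_lit 364) (B (L (nat_lit 332) ln13_14_7 ln13_14_7_ok) (L (nat_lit 366) ln12_11_2 ln12_11_2_ok))))) (M (nat_lit 303) (B (M (nat_lit 302) (B (L (nat_lit 270) ln15_12_7 ln15_12_7_ok) (L (nat_lit 334) ln15_13_7 ln15_13_7_ok))) (M (nat_lit 304) (B (L (nat_lit 272) ln15_12_6 ln15_12_6_ok) (L (nat_lit 336) ln15_13_6 ln15_13_6_ok))))))))))))))))))))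
theorem c11_s19171 : Sem (nat_lit 5954262830815946494763249298843757173852324438261567950902348008252711619201165097221184162808274170258209505398083731990017737449713696768) (nat_lit 19180023098723577692647233303374900840821453017288883470122695833776092441692447684764344019212705993643594999874273164054312663273916287527386349568) (nat_lit 19180023098723577692647233303374900840821453017288883470122695833776092441692447684764344019212705993643594999874273164054312663273916287527386349568) :=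
  sem_of_chk (M (nat_lit 396) (B (M (nat_lit 366) (B (L (nat_lit 334) ln13_14_6 ln13_14_6_ok) (M (nat_lit 364) (B (L (nat_lit 332) ln13_14_7 ln13_14_7_ok) (M (nat_lit 367) (B (L (nat_lit 395) ln15_11_1 ln15_11_1_ok) (L (nat_lit 368) ln16_11_1 ln16_11_1_ok))))))) (B (M (nat_lit 366) (B (L (nat_lit 334) ln13_14_6 ln13_14_6_ok) (M (nat_lit 367) (B (L (nat_lit 368) ln16_11_1 ln16_11_1_ok) (M (nat_lit 395) (B (L (nat_lit 364) ln15_11_1 ln15_11_1_ok) (L (nat_lit 394) ln10_12_2 ln10_12_2_ok))))))) (B (M (nat_lit 430) (B (M (nat_lit 431) (B (L (nat_lit 432) ln16_13_3 ln16_13_3_ok) (M (nat_lit 395) (B (L (nat_lit 394) ln10_12_0 ln10_12_0_ok) (L (nat_lit 428) ln15_13_3 ln15_13_3_ok))))) (B (M (nat_lit 431) (B (L (nat_lit 432) ln16_13_3 ln16_13_3_ok) (M (nat_lit 395) (B (L (nat_lit 398) ln11_12_0 ln11_12_0_ok) (L (nat_lit 428) ln15_13_3 ln15_13_3_ok))))) (B (M (nat_lit 431) (B (L (nat_lit 432) ln16_13_3 ln16_13_3_ok)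 (M (nat_lit 460) (B (L (nat_lit 492) ln13_11_5 ln13_11_5_ok) (M (nat_lit 459) (B (L (nat_lit 428) ln15_13_1 ln15_13_1_ok) (L (nat_lit 458) ln10_14_2 ln10_14_2_ok))))))) (B (M (nat_lit 431) (B (L (nat_lit 432) ln16_13_3 ln16_13_3_ok) (M (nat_lit 395) (B (L (nat_lit 394) ln10_12_0 ln10_12_0_ok) (L (nat_lit 398) ln11_12_0 ln11_12_0_ok))))) (M (nat_lit 460) (B (L (nat_lit 492) ln13_11_5 ln13_11_5_ok) (M (nat_lit 364) (B (L (nat_lit 332) ln13_14_7 ln13_14_7_ok) (M (nat_lit 459) (B (L (nat_lit 458) ln10_14_2 ln10_14_2_ok) (M (nat_lit 395) (B (L (nat_lit 394) ln10_12_0 ln10_12_0_ok) (M (nat_lit 491) (B (L (nat_lit 427) ln11_15_6 ln11_15_6_ok) (L (nat_lit 428) ln12_11_5 ln12_11_5_ok)))))))))))))))) (B (M (nat_lit 366) (B (L (nat_lit 334) ln13_14_6 ln13_14_6_ok) (M (nat_lit 367) (B (L (nat_lit 368) ln16_11_1 ln16_11_1_ok) (M (nat_lit 395) (B (L (nat_lit 394) ln10_12_2 ln10_12_2_ok) (L (nat_lit 398) ln11_12_2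 ln11_12_2_ok))))))) c11_n19170))))) (nat_lit 5954262830815946494763249298843757173852324438261567950902348008252711619201165097221184162808274170258209505398083731990017737449713696768) (nat_lit 19180023098723577692647233303374900840821453017288883470122695833776092441692447684764344019212705993643594999874273164054312663273916287527386349568) (nat_lit 19180023098723577692647233303374900840821453017288883470122695833776092441692447684764344019212705993643594999874273164054312663273916287527386349568) (by decide +kernel)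
theorem c11_s19173 : Sem (nat_lit 1386334847383188664550070665778531748218595021979121511688892729411143073470393764272092352380775458208712834410189682411080515584) (nat_lit 1179363258141160341638700066075064138782961529426226897087335677394395824603053233866780771527604081688739009909287356775574275995096946037088373182459665656142108819456) (nat_lit 1179363258141160341638700066075064138782961529426226897087335677394395824603053233866780771527604081688739009909287356775574275995096946037088373182459665656142108819456) :=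
  sem_of_chk (M (nat_lit 461) (B (M (nat_lit 493) (B (M (nat_lit 525) (B (M (nat_lit 398) (B (L (nat_lit 366) ln13_15_6 ln13_15_6_ok) (L (nat_lit 430) ln13_16_6 ln13_16_6_ok))) (M (nat_lit 526) (B (L (nat_lit 494) ln13_12_4 ln13_12_4_ok) (L (nat_lit 558) ln13_13_4 ln13_13_4_ok))))) (B (M (nat_lit 525) (B (M (nat_lit 396) (B (L (nat_lit 364) ln13_15_7 ln13_15_7_ok) (L (nat_lit 428) ln13_16_7 ln13_16_7_ok))) (M (nat_lit 526) (B (L (nat_lit 494) ln13_12_4 ln13_12_4_ok) (L (nat_lit 558) ln13_13_4 ln13_13_4_ok))))) (B (M (nat_lit 525) (B (M (nat_lit 396) (B (L (nat_lit 364) ln13_15_7 ln13_15_7_ok) (L (nat_lit 428) ln13_16_7 ln13_16_7_ok))) (M (nat_lit 398) (B (L (nat_lit 366) ln13_15_6 ln13_15_6_ok) (L (nat_lit 430) ln13_16_6 ln13_16_6_ok))))) (M (nat_lit 364) (B (L (nat_lit 396) ln13_15_7 ln13_15_7_ok) (M (nat_lit 365) (B (L (nat_lit 332) ln13_14_7 ln13_14_7_ok) (M (nat_lit 366) (B (L (nat_lit 334) ln13_14_6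 ln13_14_6_ok) (L (nat_lit 398) ln13_15_6 ln13_15_6_ok))))))))))) (B (M (nat_lit 493) (B (M (nat_lit 524) (B (L (nat_lit 492) ln13_12_5 ln13_12_5_ok) (M (nat_lit 525) (B (L (nat_lit 556) ln13_13_5 ln13_13_5_ok) (M (nat_lit 526) (B (L (nat_lit 494) ln13_12_4 ln13_12_4_ok) (L (nat_lit 558) ln13_13_4 ln13_13_4_ok))))))) (B (M (nat_lit 525) (B (M (nat_lit 398) (B (L (nat_lit 366) ln13_15_6 ln13_15_6_ok) (L (nat_lit 430) ln13_16_6 ln13_16_6_ok))) (M (nat_lit 526) (B (L (nat_lit 494) ln13_12_4 ln13_12_4_ok) (L (nat_lit 558) ln13_13_4 ln13_13_4_ok))))) (B (M (nat_lit 525) (B (M (nat_lit 398) (B (L (nat_lit 366) ln13_15_6 ln13_15_6_ok) (L (nat_lit 430) ln13_16_6 ln13_16_6_ok))) (M (nat_lit 524) (B (L (nat_lit 492) ln13_12_5 ln13_12_5_ok) (L (nat_lit 556) ln13_13_5 ln13_13_5_ok))))) (M (nat_lit 365) (B (M (nat_lit 366) (B (L (nat_lit 334) ln13_14_6 ln13_14_6_ok) (L (nat_lit 398) ln13_15_6 ln13_15_6_ok))) (M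 (nat_lit 492) (B (L (nat_lit 460) ln13_11_5 ln13_11_5_ok) (L (nat_lit 524) ln13_12_5 ln13_12_5_ok))))))))) (B (M (nat_lit 493) (B (M (nat_lit 525) (B (M (nat_lit 396) (B (L (nat_lit 364) ln13_15_7 ln13_15_7_ok) (L (nat_lit 428) ln13_16_7 ln13_16_7_ok))) (M (nat_lit 526) (B (L (nat_lit 494) ln13_12_4 ln13_12_4_ok) (L (nat_lit 558) ln13_13_4 ln13_13_4_ok))))) (B (M (nat_lit 524) (B (L (nat_lit 492) ln13_12_5 ln13_12_5_ok) (M (nat_lit 525) (B (L (nat_lit 556) ln13_13_5 ln13_13_5_ok) (M (nat_lit 526) (B (L (nat_lit 494) ln13_12_4 ln13_12_4_ok) (L (nat_lit 558) ln13_13_4 ln13_13_4_ok))))))) (B (M (nat_lit 525) (B (M (nat_lit 396) (B (L (nat_lit 364) ln13_15_7 ln13_15_7_ok) (L (nat_lit 428) ln13_16_7 ln13_16_7_ok))) (M (nat_lit 524) (B (L (nat_lit 492) ln13_12_5 ln13_12_5_ok) (L (nat_lit 556) ln13_13_5 ln13_13_5_ok))))) (M (nat_lit 365) (B (M (nat_lit 364) (B (L (nat_lit 332) ln13_14_7 ln13_14_7_ok) (L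 (nat_lit 396) ln13_15_7 ln13_15_7_ok))) (M (nat_lit 492) (B (L (nat_lit 460) ln13_11_5 ln13_11_5_ok) (L (nat_lit 524) ln13_12_5 ln13_12_5_ok))))))))) (B (M (nat_lit 493) (B (M (nat_lit 525) (B (M (nat_lit 396) (B (L (nat_lit 364) ln13_15_7 ln13_15_7_ok) (L (nat_lit 428) ln13_16_7 ln13_16_7_ok))) (M (nat_lit 398) (B (L (nat_lit 366) ln13_15_6 ln13_15_6_ok) (L (nat_lit 430) ln13_16_6 ln13_16_6_ok))))) (B (M (nat_lit 524) (B (L (nat_lit 492) ln13_12_5 ln13_12_5_ok) (M (nat_lit 525) (B (L (nat_lit 556) ln13_13_5 ln13_13_5_ok) (M (nat_lit 526) (B (L (nat_lit 494) ln13_12_4 ln13_12_4_ok) (L (nat_lit 558) ln13_13_4 ln13_13_4_ok))))))) (M (nat_lit 398) (B (L (nat_lit 366) ln13_15_6 ln13_15_6_ok) (M (nat_lit 396) (B (L (nat_lit 364) ln13_15_7 ln13_15_7_ok) (M (nat_lit 399) (B (M (nat_lit 428) (B (L (nat_lit 427) ln15_12_1 ln15_12_1_ok) (L (nat_lit 400) ln16_12_1 ln16_12_1_ok))) (B (M (nat_lit 395) (B (M (nat_lit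 427) (B (L (nat_lit 426) ln14_12_1 ln14_12_1_ok) (L (nat_lit 428) ln15_12_1 ln15_12_1_ok))) (M (nat_lit 431) (B (L (nat_lit 430) ln11_12_0 ln11_12_0_ok) (L (nat_lit 432) ln12_12_0 ln12_12_0_ok))))) (B (M (nat_lit 400) (B (L (nat_lit 428) ln16_12_1 ln16_12_1_ok) (M (nat_lit 368) (B (L (nat_lit 367) ln12_12_2 ln12_12_2_ok) (L (nat_lit 369) ln13_12_2 ln13_12_2_ok))))) (M (nat_lit 400) (B (M (nat_lit 368) (B (L (nat_lit 367) ln12_12_2 ln12_12_2_ok) (L (nat_lit 369) ln13_12_2 ln13_12_2_ok))) (M (nat_lit 432) (B (L (nat_lit 431) ln12_12_0 ln12_12_0_ok) (L (nat_lit 433) ln13_12_0 ln13_12_0_ok)))))))))))))))) (M (nat_lit 365) (B (M (nat_lit 333) (B (M (nat_lit 334) (B (L (nat_lit 302) ln13_13_6 ln13_13_6_ok) (L (nat_lit 366) ln13_14_6 ln13_14_6_ok))) (M (nat_lit 460) (B (L (nat_lit 428) ln13_10_5 ln13_10_5_ok) (L (nat_lit 492) ln13_11_5 ln13_11_5_ok))))) (B (M (nat_lit 460) (B (L (nat_lit 492) ln13_11_5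 ln13_11_5_ok) (M (nat_lit 332) (B (L (nat_lit 364) ln13_14_7 ln13_14_7_ok) (M (nat_lit 333) (B (L (nat_lit 300) ln13_13_7 ln13_13_7_ok) (L (nat_lit 428) ln13_10_5 ln13_10_5_ok))))))) (B (K (nat_lit 5954262830815946494763249298843757173852324438261567950902348008252711619201165097221184162808274170258209505398083731990017737449713696768) (nat_lit 19180023098723577692647233303374900840821453017288883470122695833776092441692447684764344019212705993643594999874273164054312663273916287527386349568) (nat_lit 19180023098723577692647233303374900840821453017288883470122695833776092441692447684764344019212705993643594999874273164054312663273916287527386349568) c11_s19171) (M (nat_lit 333) (B (M (nat_lit 332) (B (L (nat_lit 300) ln13_13_7 ln13_13_7_ok) (L (nat_lit 364) ln13_14_7 ln13_14_7_ok))) (M (nat_lit 334) (B (L (nat_lit 302) ln13_13_6 ln13_13_6_ok) (L (nat_lit 366) ln13_14_6 ln13_14_6_ok))))))))))))))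 (nat_lit 1386334847383188664550070665778531748218595021979121511688892729411143073470393764272092352380775458208712834410189682411080515584) (nat_lit 1179363258141160341638700066075064138782961529426226897087335677394395824603053233866780771527604081688739009909287356775574275995096946037088373182459665656142108819456) (nat_lit 1179363258141160341638700066075064138782961529426226897087335677394395824603053233866780771527604081688739009909287356775574275995096946037088373182459665656142108819456) (by decide +kernel)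
theorem c11_s19190 : Sem (nat_lit 1386334847383188664550070665778531748218595021979121511688892729411143073470393764272092352380775458208712834410189682411080515584) (nat_lit 1651108561243853010662501047664945608027721794771332567902699724843815600510611934751886964201202513083999539497512295524479824811593318735893788555861396814132001374208) (nat_lit 1651108561243853010662501047664945608027721794771332567902699724843815600510611934751886964201202513083999539497512295524479824811593318735893788555861396814132001374208) :=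
  sem_of_chk (M (nat_lit 365) (B (M (nat_lit 461) (B (M (nat_lit 333) (B (M (nat_lit 334) (B (L (nat_lit 302) ln13_13_6 ln13_13_6_ok) (L (nat_lit 366) ln13_14_6 ln13_14_6_ok))) (M (nat_lit 460) (B (L (nat_lit 428) ln13_10_5 ln13_10_5_ok) (L (nat_lit 492) ln13_11_5 ln13_11_5_ok))))) (B (M (nat_lit 493) (B (M (nat_lit 364) (B (L (nat_lit 332) ln13_14_7 ln13_14_7_ok) (L (nat_lit 396) ln13_15_7 ln13_15_7_ok))) (M (nat_lit 366) (B (L (nat_lit 334) ln13_14_6 ln13_14_6_ok) (L (nat_lit 398) ln13_15_6 ln13_15_6_ok))))) (M (nat_lit 460) (B (L (nat_lit 492) ln13_11_5 ln13_11_5_ok) (M (nat_lit 332) (B (L (nat_lit 364) ln13_14_7 ln13_14_7_ok) (M (nat_lit 333) (B (L (nat_lit 300) ln13_13_7 ln13_13_7_ok) (L (nat_lit 428) ln13_10_5 ln13_10_5_ok)))))))))) (B (M (nat_lit 461) (B (M (nat_lit 493) (B (M (nat_lit 364) (B (L (nat_lit 332) ln13_14_7 ln13_14_7_ok) (L (nat_lit 396) ln13_15_7 ln13_15_7_ok))) (M (nat_lit 366)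 (B (L (nat_lit 334) ln13_14_6 ln13_14_6_ok) (L (nat_lit 398) ln13_15_6 ln13_15_6_ok))))) (B (M (nat_lit 493) (B (M (nat_lit 366) (B (L (nat_lit 334) ln13_14_6 ln13_14_6_ok) (L (nat_lit 398) ln13_15_6 ln13_15_6_ok))) (M (nat_lit 492) (B (L (nat_lit 460) ln13_11_5 ln13_11_5_ok) (L (nat_lit 524) ln13_12_5 ln13_12_5_ok))))) (B (M (nat_lit 493) (B (M (nat_lit 364) (B (L (nat_lit 332) ln13_14_7 ln13_14_7_ok) (L (nat_lit 396) ln13_15_7 ln13_15_7_ok))) (M (nat_lit 492) (B (L (nat_lit 460) ln13_11_5 ln13_11_5_ok) (L (nat_lit 524) ln13_12_5 ln13_12_5_ok))))) (M (nat_lit 333) (B (M (nat_lit 334) (B (L (nat_lit 302) ln13_13_6 ln13_13_6_ok) (L (nat_lit 366) ln13_14_6 ln13_14_6_ok))) (M (nat_lit 460) (B (L (nat_lit 428) ln13_10_5 ln13_10_5_ok) (L (nat_lit 492) ln13_11_5 ln13_11_5_ok))))))))) (B (M (nat_lit 461) (B (M (nat_lit 493) (B (M (nat_lit 364) (B (L (nat_lit 332) ln13_14_7 ln13_14_7_ok) (L (nat_lit 396)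 ln13_15_7 ln13_15_7_ok))) (M (nat_lit 366) (B (L (nat_lit 334) ln13_14_6 ln13_14_6_ok) (L (nat_lit 398) ln13_15_6 ln13_15_6_ok))))) (B (M (nat_lit 493) (B (M (nat_lit 366) (B (L (nat_lit 334) ln13_14_6 ln13_14_6_ok) (L (nat_lit 398) ln13_15_6 ln13_15_6_ok))) (M (nat_lit 492) (B (L (nat_lit 460) ln13_11_5 ln13_11_5_ok) (L (nat_lit 524) ln13_12_5 ln13_12_5_ok))))) (B (M (nat_lit 493) (B (M (nat_lit 364) (B (L (nat_lit 332) ln13_14_7 ln13_14_7_ok) (L (nat_lit 396) ln13_15_7 ln13_15_7_ok))) (M (nat_lit 492) (B (L (nat_lit 460) ln13_11_5 ln13_11_5_ok) (L (nat_lit 524) ln13_12_5 ln13_12_5_ok))))) (M (nat_lit 460) (B (L (nat_lit 492) ln13_11_5 ln13_11_5_ok) (M (nat_lit 332) (B (L (nat_lit 364) ln13_14_7 ln13_14_7_ok) (M (nat_lit 333) (B (L (nat_lit 300) ln13_13_7 ln13_13_7_ok) (L (nat_lit 428) ln13_10_5 ln13_10_5_ok))))))))))) (B (M (nat_lit 461) (B (M (nat_lit 493) (B (M (nat_lit 366) (B (L (nat_lit 334)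 ln13_14_6 ln13_14_6_ok) (L (nat_lit 398) ln13_15_6 ln13_15_6_ok))) (M (nat_lit 492) (B (L (nat_lit 460) ln13_11_5 ln13_11_5_ok) (L (nat_lit 524) ln13_12_5 ln13_12_5_ok))))) (B (M (nat_lit 493) (B (M (nat_lit 492) (B (L (nat_lit 460) ln13_11_5 ln13_11_5_ok) (L (nat_lit 524) ln13_12_5 ln13_12_5_ok))) (M (nat_lit 525) (B (M (nat_lit 396) (B (L (nat_lit 364) ln13_15_7 ln13_15_7_ok) (L (nat_lit 428) ln13_16_7 ln13_16_7_ok))) (M (nat_lit 526) (B (L (nat_lit 494) ln13_12_4 ln13_12_4_ok) (L (nat_lit 558) ln13_13_4 ln13_13_4_ok))))))) (B (M (nat_lit 493) (B (M (nat_lit 366) (B (L (nat_lit 334) ln13_14_6 ln13_14_6_ok) (L (nat_lit 398) ln13_15_6 ln13_15_6_ok))) (M (nat_lit 525) (B (M (nat_lit 396) (B (L (nat_lit 364) ln13_15_7 ln13_15_7_ok) (L (nat_lit 428) ln13_16_7 ln13_16_7_ok))) (M (nat_lit 526) (B (L (nat_lit 494) ln13_12_4 ln13_12_4_ok) (L (nat_lit 558) ln13_13_4 ln13_13_4_ok))))))) (M (nat_lit 333) (B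 (M (nat_lit 334) (B (L (nat_lit 302) ln13_13_6 ln13_13_6_ok) (L (nat_lit 366) ln13_14_6 ln13_14_6_ok))) (M (nat_lit 460) (B (L (nat_lit 428) ln13_10_5 ln13_10_5_ok) (L (nat_lit 492) ln13_11_5 ln13_11_5_ok))))))))) (B (M (nat_lit 461) (B (M (nat_lit 493) (B (M (nat_lit 366) (B (L (nat_lit 334) ln13_14_6 ln13_14_6_ok) (L (nat_lit 398) ln13_15_6 ln13_15_6_ok))) (M (nat_lit 492) (B (L (nat_lit 460) ln13_11_5 ln13_11_5_ok) (L (nat_lit 524) ln13_12_5 ln13_12_5_ok))))) (B (M (nat_lit 493) (B (M (nat_lit 364) (B (L (nat_lit 332) ln13_14_7 ln13_14_7_ok) (L (nat_lit 396) ln13_15_7 ln13_15_7_ok))) (M (nat_lit 492) (B (L (nat_lit 460) ln13_11_5 ln13_11_5_ok) (L (nat_lit 524) ln13_12_5 ln13_12_5_ok))))) (B (M (nat_lit 493) (B (M (nat_lit 364) (B (L (nat_lit 332) ln13_14_7 ln13_14_7_ok) (L (nat_lit 396) ln13_15_7 ln13_15_7_ok))) (M (nat_lit 366) (B (L (nat_lit 334) ln13_14_6 ln13_14_6_ok) (L (nat_lit 398) ln13_15_6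 ln13_15_6_ok))))) (M (nat_lit 364) (B (L (nat_lit 332) ln13_14_7 ln13_14_7_ok) (M (nat_lit 366) (B (L (nat_lit 334) ln13_14_6 ln13_14_6_ok) (M (nat_lit 363) (B (M (nat_lit 398) (B (L (nat_lit 362) ln10_11_0 ln10_11_0_ok) (L (nat_lit 399) ln11_11_0 ln11_11_0_ok))) (B (M (nat_lit 367) (B (M (nat_lit 395) (B (L (nat_lit 394) ln14_11_1 ln14_11_1_ok) (L (nat_lit 396) ln15_11_1 ln15_11_1_ok))) (M (nat_lit 399) (B (L (nat_lit 398) ln11_11_0 ln11_11_0_ok) (L (nat_lit 400) ln12_11_0 ln12_11_0_ok))))) (M (nat_lit 362) (B (M (nat_lit 330) (B (L (nat_lit 329) ln13_11_3 ln13_11_3_ok) (L (nat_lit 331) ln14_11_3 ln14_11_3_ok))) (M (nat_lit 394) (B (L (nat_lit 393) ln13_11_1 ln13_11_1_ok) (L (nat_lit 395) ln14_11_1 ln14_11_1_ok)))))))))))))))) (B (M (nat_lit 461) (B (M (nat_lit 493) (B (M (nat_lit 364) (B (L (nat_lit 332) ln13_14_7 ln13_14_7_ok) (L (nat_lit 396) ln13_15_7 ln13_15_7_ok))) (M (nat_lit 492) (B (L (nat_lit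 460) ln13_11_5 ln13_11_5_ok) (L (nat_lit 524) ln13_12_5 ln13_12_5_ok))))) (B (M (nat_lit 493) (B (M (nat_lit 492) (B (L (nat_lit 460) ln13_11_5 ln13_11_5_ok) (L (nat_lit 524) ln13_12_5 ln13_12_5_ok))) (M (nat_lit 525) (B (M (nat_lit 396) (B (L (nat_lit 364) ln13_15_7 ln13_15_7_ok) (L (nat_lit 428) ln13_16_7 ln13_16_7_ok))) (M (nat_lit 526) (B (L (nat_lit 494) ln13_12_4 ln13_12_4_ok) (L (nat_lit 558) ln13_13_4 ln13_13_4_ok))))))) (B (M (nat_lit 493) (B (M (nat_lit 492) (B (L (nat_lit 460) ln13_11_5 ln13_11_5_ok) (L (nat_lit 524) ln13_12_5 ln13_12_5_ok))) (B (M (nat_lit 525) (B (M (nat_lit 524) (B (L (nat_lit 492) ln13_12_5 ln13_12_5_ok) (L (nat_lit 556) ln13_13_5 ln13_13_5_ok))) (M (nat_lit 526) (B (L (nat_lit 494) ln13_12_4 ln13_12_4_ok) (L (nat_lit 558) ln13_13_4 ln13_13_4_ok))))) (M (nat_lit 525) (B (M (nat_lit 526) (B (L (nat_lit 494) ln13_12_4 ln13_12_4_ok) (L (nat_lit 558) ln13_13_4 ln13_13_4_ok)))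 (M (nat_lit 428) (B (L (nat_lit 396) ln13_16_7 ln13_16_7_ok) (M (nat_lit 460) (B (L (nat_lit 333) ln13_10_5 ln13_10_5_ok) (L (nat_lit 557) ln13_17_7 ln13_17_7_ok)))))))))) (B (M (nat_lit 460) (B (L (nat_lit 492) ln13_11_5 ln13_11_5_ok) (M (nat_lit 332) (B (L (nat_lit 364) ln13_14_7 ln13_14_7_ok) (M (nat_lit 333) (B (L (nat_lit 300) ln13_13_7 ln13_13_7_ok) (L (nat_lit 428) ln13_10_5 ln13_10_5_ok))))))) (B (M (nat_lit 493) (B (M (nat_lit 364) (B (L (nat_lit 332) ln13_14_7 ln13_14_7_ok) (L (nat_lit 396) ln13_15_7 ln13_15_7_ok))) (M (nat_lit 525) (B (M (nat_lit 524) (B (L (nat_lit 492) ln13_12_5 ln13_12_5_ok) (L (nat_lit 556) ln13_13_5 ln13_13_5_ok))) (M (nat_lit 526) (B (L (nat_lit 494) ln13_12_4 ln13_12_4_ok) (L (nat_lit 558) ln13_13_4 ln13_13_4_ok))))))) (M (nat_lit 364) (B (L (nat_lit 332) ln13_14_7 ln13_14_7_ok) (M (nat_lit 398) (B (M (nat_lit 493) (B (L (nat_lit 396) ln13_15_7 ln13_15_7_ok) (L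 (nat_lit 366) ln13_15_6 ln13_15_6_ok))) (B (M (nat_lit 363) (B (L (nat_lit 362) ln10_11_0 ln10_11_0_ok) (M (nat_lit 399) (B (L (nat_lit 396) ln15_12_3 ln15_12_3_ok) (L (nat_lit 400) ln16_12_3 ln16_12_3_ok))))) (M (nat_lit 363) (B (L (nat_lit 362) ln10_11_0 ln10_11_0_ok) (M (nat_lit 399) (B (L (nat_lit 366) ln11_11_0 ln11_11_0_ok) (L (nat_lit 400) ln16_12_3 ln16_12_3_ok)))))))))))))))) (B (M (nat_lit 333) (B (M (nat_lit 301) (B (M (nat_lit 300) (B (L (nat_lit 268) ln13_12_7 ln13_12_7_ok) (L (nat_lit 332) ln13_13_7 ln13_13_7_ok))) (M (nat_lit 428) (B (L (nat_lit 396) ln13_9_5 ln13_9_5_ok) (L (nat_lit 460) ln13_10_5 ln13_10_5_ok))))) (B (M (nat_lit 302) (B (L (nat_lit 334) ln13_13_6 ln13_13_6_ok) (M (nat_lit 301) (B (L (nat_lit 270) ln13_12_6 ln13_12_6_ok) (M (nat_lit 428) (B (L (nat_lit 396) ln13_9_5 ln13_9_5_ok) (L (nat_lit 460) ln13_10_5 ln13_10_5_ok))))))) (B (M (nat_lit 461) (B (M (nat_lit 334)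 (B (L (nat_lit 302) ln13_13_6 ln13_13_6_ok) (L (nat_lit 366) ln13_14_6 ln13_14_6_ok))) (M (nat_lit 460) (B (L (nat_lit 428) ln13_10_5 ln13_10_5_ok) (L (nat_lit 492) ln13_11_5 ln13_11_5_ok))))) (M (nat_lit 301) (B (M (nat_lit 300) (B (L (nat_lit 268) ln13_12_7 ln13_12_7_ok) (L (nat_lit 332) ln13_13_7 ln13_13_7_ok))) (M (nat_lit 302) (B (L (nat_lit 270) ln13_12_6 ln13_12_6_ok) (L (nat_lit 334) ln13_13_6 ln13_13_6_ok))))))))) (B (M (nat_lit 333) (B (M (nat_lit 302) (B (L (nat_lit 334) ln13_13_6 ln13_13_6_ok) (M (nat_lit 301) (B (L (nat_lit 270) ln13_12_6 ln13_12_6_ok) (M (nat_lit 428) (B (L (nat_lit 396) ln13_9_5 ln13_9_5_ok) (L (nat_lit 460) ln13_10_5 ln13_10_5_ok))))))) (B (M (nat_lit 301) (B (M (nat_lit 300) (B (L (nat_lit 268) ln13_12_7 ln13_12_7_ok) (L (nat_lit 332) ln13_13_7 ln13_13_7_ok))) (M (nat_lit 428) (B (L (nat_lit 396) ln13_9_5 ln13_9_5_ok) (L (nat_lit 460) ln13_10_5 ln13_10_5_ok)))))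 (B (M (nat_lit 461) (B (M (nat_lit 332) (B (L (nat_lit 300) ln13_13_7 ln13_13_7_ok) (L (nat_lit 364) ln13_14_7 ln13_14_7_ok))) (M (nat_lit 460) (B (L (nat_lit 428) ln13_10_5 ln13_10_5_ok) (L (nat_lit 492) ln13_11_5 ln13_11_5_ok))))) (M (nat_lit 301) (B (M (nat_lit 300) (B (L (nat_lit 268) ln13_12_7 ln13_12_7_ok) (L (nat_lit 332) ln13_13_7 ln13_13_7_ok))) (M (nat_lit 302) (B (L (nat_lit 270) ln13_12_6 ln13_12_6_ok) (L (nat_lit 334) ln13_13_6 ln13_13_6_ok))))))))) (B (M (nat_lit 333) (B (M (nat_lit 334) (B (L (nat_lit 302) ln13_13_6 ln13_13_6_ok) (M (nat_lit 461) (B (L (nat_lit 366) ln13_14_6 ln13_14_6_ok) (M (nat_lit 332) (B (L (nat_lit 300) ln13_13_7 ln13_13_7_ok) (L (nat_lit 364) ln13_14_7 ln13_14_7_ok))))))) (B (M (nat_lit 461) (B (M (nat_lit 334) (B (L (nat_lit 302) ln13_13_6 ln13_13_6_ok) (L (nat_lit 366) ln13_14_6 ln13_14_6_ok))) (M (nat_lit 460) (B (L (nat_lit 428) ln13_10_5 ln13_10_5_ok) (L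 (nat_lit 492) ln13_11_5 ln13_11_5_ok))))) (B (M (nat_lit 461) (B (M (nat_lit 332) (B (L (nat_lit 300) ln13_13_7 ln13_13_7_ok) (L (nat_lit 364) ln13_14_7 ln13_14_7_ok))) (M (nat_lit 460) (B (L (nat_lit 428) ln13_10_5 ln13_10_5_ok) (L (nat_lit 492) ln13_11_5 ln13_11_5_ok))))) (M (nat_lit 301) (B (M (nat_lit 300) (B (L (nat_lit 268) ln13_12_7 ln13_12_7_ok) (L (nat_lit 332) ln13_13_7 ln13_13_7_ok))) (M (nat_lit 302) (B (L (nat_lit 270) ln13_12_6 ln13_12_6_ok) (L (nat_lit 334) ln13_13_6 ln13_13_6_ok))))))))) (B (M (nat_lit 461) (B (M (nat_lit 493) (B (M (nat_lit 364) (B (L (nat_lit 332) ln13_14_7 ln13_14_7_ok) (L (nat_lit 396) ln13_15_7 ln13_15_7_ok))) (M (nat_lit 366) (B (L (nat_lit 334) ln13_14_6 ln13_14_6_ok) (L (nat_lit 398) ln13_15_6 ln13_15_6_ok))))) (B (M (nat_lit 493) (B (M (nat_lit 366) (B (L (nat_lit 334) ln13_14_6 ln13_14_6_ok) (L (nat_lit 398) ln13_15_6 ln13_15_6_ok))) (M (nat_lit 525) (B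 (M (nat_lit 524) (B (L (nat_lit 492) ln13_12_5 ln13_12_5_ok) (L (nat_lit 556) ln13_13_5 ln13_13_5_ok))) (M (nat_lit 526) (B (L (nat_lit 494) ln13_12_4 ln13_12_4_ok) (L (nat_lit 558) ln13_13_4 ln13_13_4_ok))))))) (B (M (nat_lit 493) (B (M (nat_lit 364) (B (L (nat_lit 332) ln13_14_7 ln13_14_7_ok) (L (nat_lit 396) ln13_15_7 ln13_15_7_ok))) (M (nat_lit 525) (B (M (nat_lit 524) (B (L (nat_lit 492) ln13_12_5 ln13_12_5_ok) (L (nat_lit 556) ln13_13_5 ln13_13_5_ok))) (M (nat_lit 526) (B (L (nat_lit 494) ln13_12_4 ln13_12_4_ok) (L (nat_lit 558) ln13_13_4 ln13_13_4_ok))))))) (M (nat_lit 333) (B (M (nat_lit 332) (B (L (nat_lit 300) ln13_13_7 ln13_13_7_ok) (L (nat_lit 364) ln13_14_7 ln13_14_7_ok))) (M (nat_lit 334) (B (L (nat_lit 302) ln13_13_6 ln13_13_6_ok) (L (nat_lit 366) ln13_14_6 ln13_14_6_ok))))))))) (M (nat_lit 333) (B (M (nat_lit 301) (B (M (nat_lit 300) (B (L (nat_lit 268) ln13_12_7 ln13_12_7_ok) (L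 (nat_lit 332) ln13_13_7 ln13_13_7_ok))) (M (nat_lit 428) (B (L (nat_lit 396) ln13_9_5 ln13_9_5_ok) (L (nat_lit 460) ln13_10_5 ln13_10_5_ok))))) (B (M (nat_lit 302) (B (L (nat_lit 334) ln13_13_6 ln13_13_6_ok) (M (nat_lit 301) (B (L (nat_lit 270) ln13_12_6 ln13_12_6_ok) (M (nat_lit 428) (B (L (nat_lit 396) ln13_9_5 ln13_9_5_ok) (L (nat_lit 460) ln13_10_5 ln13_10_5_ok))))))) (M (nat_lit 332) (B (L (nat_lit 300) ln13_13_7 ln13_13_7_ok) (M (nat_lit 334) (B (L (nat_lit 302) ln13_13_6 ln13_13_6_ok) (M (nat_lit 331) (B (M (nat_lit 366) (B (L (nat_lit 330) ln10_10_0 ln10_10_0_ok) (L (nat_lit 367) ln11_10_0 ln11_10_0_ok))) (B (M (nat_lit 335) (B (M (nat_lit 363) (B (L (nat_lit 362) ln14_10_1 ln14_10_1_ok) (L (nat_lit 364) ln15_10_1 ln15_10_1_ok))) (M (nat_lit 367) (B (L (nat_lit 366) ln11_10_0 ln11_10_0_ok) (L (nat_lit 368) ln12_10_0 ln12_10_0_ok))))) (M (nat_lit 330) (B (M (nat_lit 298) (B (L (nat_lit 297)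 ln13_10_3 ln13_10_3_ok) (L (nat_lit 299) ln14_10_3 ln14_10_3_ok))) (M (nat_lit 362) (B (L (nat_lit 361) ln13_10_1 ln13_10_1_ok) (L (nat_lit 363) ln14_10_1 ln14_10_1_ok)))))))))))))))))))))))))) (nat_lit 1386334847383188664550070665778531748218595021979121511688892729411143073470393764272092352380775458208712834410189682411080515584) (nat_lit 1651108561243853010662501047664945608027721794771332567902699724843815600510611934751886964201202513083999539497512295524479824811593318735893788555861396814132001374208) (nat_lit 1651108561243853010662501047664945608027721794771332567902699724843815600510611934751886964201202513083999539497512295524479824811593318735893788555861396814132001374208) (by decide +kernel)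
noncomputable def c11_n19211 : Cert := (M (nat_lit 427) (B (M (nat_lit 398) (B (L (nat_lit 426) ln10_13_2 ln10_13_2_ok) (M (nat_lit 399) (B (L (nat_lit 396) ln15_12_1 ln15_12_1_ok) (L (nat_lit 400) ln16_12_1 ln16_12_1_ok))))) (B (M (nat_lit 398) (B (L (nat_lit 426) ln10_13_2 ln10_13_2_ok) (M (nat_lit 399) (B (L (nat_lit 400) ln16_12_1 ln16_12_1_ok) (L (nat_lit 430) ln11_13_2 ln11_13_2_ok))))) (B (M (nat_lit 460) (B (M (nat_lit 492) (B (L (nat_lit 524) ln12_16_6 ln12_16_6_ok) (M (nat_lit 365) (B (L (nat_lit 333) ln13_10_5 ln13_10_5_ok) (L (nat_lit 461) ln13_11_5 ln13_11_5_ok))))) (B (M (nat_lit 492) (B (L (nat_lit 524) ln12_16_6 ln12_16_6_ok) (M (nat_lit 365) (B (L (nat_lit 396) ln12_15_6 ln12_15_6_ok) (L (nat_lit 461) ln13_11_5 ln13_11_5_ok))))) (B (M (nat_lit 430) (B (M (nat_lit 459) (B (L (nat_lit 458) ln14_13_1 ln14_13_1_ok) (L (nat_lit 431) ln15_13_1 ln15_13_1_ok))) (M (nat_lit 426) (B (M (nat_lit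 394) (B (L (nat_lit 393) ln13_13_3 ln13_13_3_ok) (L (nat_lit 395) ln14_13_3 ln14_13_3_ok))) (M (nat_lit 425) (B (L (nat_lit 396) ln9_13_2 ln9_13_2_ok) (L (nat_lit 461) ln9_13_0 ln9_13_0_ok))))))) (M (nat_lit 492) (B (L (nat_lit 524) ln12_16_6 ln12_16_6_ok) (M (nat_lit 365) (B (L (nat_lit 333) ln13_10_5 ln13_10_5_ok) (L (nat_lit 396) ln12_15_6 ln12_15_6_ok))))))))) (M (nat_lit 398) (B (M (nat_lit 399) (B (L (nat_lit 396) ln15_12_1 ln15_12_1_ok) (L (nat_lit 400) ln16_12_1 ln16_12_1_ok))) (B (M (nat_lit 399) (B (L (nat_lit 400) ln16_12_1 ln16_12_1_ok) (L (nat_lit 430) ln11_13_2 ln11_13_2_ok))) (M (nat_lit 395) (B (M (nat_lit 430) (B (L (nat_lit 394) ln14_13_3 ln14_13_3_ok) (M (nat_lit 431) (B (L (nat_lit 396) ln11_12_0 ln11_12_0_ok) (M (nat_lit 459) (B (L (nat_lit 458) ln14_13_1 ln14_13_1_ok) (L (nat_lit 460) ln15_13_1 ln15_13_1_ok))))))) (B (M (nat_lit 396) (B (M (nat_lit 363) (B (L (nat_lit 362) ln14_12_3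 ln14_12_3_ok) (M (nat_lit 331) (B (L (nat_lit 299) ln11_9_4 ln11_9_4_ok) (L (nat_lit 460) ln11_10_4 ln11_10_4_ok))))) (M (nat_lit 459) (B (M (nat_lit 364) (B (L (nat_lit 332) ln12_10_5 ln12_10_5_ok) (L (nat_lit 491) ln11_15_6 ln11_15_6_ok))) (M (nat_lit 430) (B (L (nat_lit 431) ln11_12_0 ln11_12_0_ok) (L (nat_lit 458) ln14_13_1 ln14_13_1_ok))))))) (B (M (nat_lit 460) (B (M (nat_lit 492) (B (L (nat_lit 524) ln12_16_7 ln12_16_7_ok) (M (nat_lit 365) (B (L (nat_lit 333) ln13_10_5 ln13_10_5_ok) (L (nat_lit 461) ln13_11_5 ln13_11_5_ok))))) (M (nat_lit 430) (B (L (nat_lit 394) ln14_13_3 ln14_13_3_ok) (M (nat_lit 459) (B (L (nat_lit 458) ln14_13_1 ln14_13_1_ok) (L (nat_lit 431) ln15_13_1 ln15_13_1_ok))))))) (B (M (nat_lit 396) (B (M (nat_lit 394) (B (L (nat_lit 393) ln9_12_0 ln9_12_0_ok) (M (nat_lit 362) (B (L (nat_lit 361) ln13_12_3 ln13_12_3_ok) (L (nat_lit 363) ln14_12_3 ln14_12_3_ok))))) (B (M (nat_lit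 363) (B (L (nat_lit 362) ln14_12_3 ln14_12_3_ok) (M (nat_lit 331) (B (L (nat_lit 299) ln11_9_4 ln11_9_4_ok) (L (nat_lit 460) ln11_10_4 ln11_10_4_ok))))) (M (nat_lit 365) (B (M (nat_lit 333) (B (L (nat_lit 301) ln13_9_5 ln13_9_5_ok) (L (nat_lit 460) ln13_10_5 ln13_10_5_ok))) (M (nat_lit 394) (B (L (nat_lit 366) ln10_12_2 ln10_12_2_ok) (L (nat_lit 393) ln9_12_0 ln9_12_0_ok)))))))) (M (nat_lit 394) (B (L (nat_lit 430) ln14_13_3 ln14_13_3_ok) (M (nat_lit 396) (B (L (nat_lit 393) ln9_12_0 ln9_12_0_ok) (M (nat_lit 362) (B (L (nat_lit 361) ln13_12_3 ln13_12_3_ok) (L (nat_lit 363) ln14_12_3 ln14_12_3_ok)))))))))))))))))))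
noncomputable def c11_n19220 : Cert := (M (nat_lit 427) (B (M (nat_lit 398) (B (L (nat_lit 426) ln10_13_2 ln10_13_2_ok) (M (nat_lit 399) (B (L (nat_lit 396) ln15_12_1 ln15_12_1_ok) (L (nat_lit 400) ln16_12_1 ln16_12_1_ok))))) (B (M (nat_lit 398) (B (L (nat_lit 426) ln10_13_2 ln10_13_2_ok) (M (nat_lit 399) (B (L (nat_lit 400) ln16_12_1 ln16_12_1_ok) (L (nat_lit 430) ln11_13_2 ln11_13_2_ok))))) (B (M (nat_lit 426) (B (M (nat_lit 393) (B (L (nat_lit 394) ln13_13_3 ln13_13_3_ok) (M (nat_lit 425) (B (L (nat_lit 392) ln12_13_3 ln12_13_3_ok) (L (nat_lit 396) ln9_13_2 ln9_13_2_ok))))) (B (M (nat_lit 425) (B (L (nat_lit 396) ln9_13_2 ln9_13_2_ok) (M (nat_lit 457) (B (L (nat_lit 456) ln12_13_1 ln12_13_1_ok) (L (nat_lit 458) ln13_13_1 ln13_13_1_ok))))) (M (nat_lit 430) (B (M (nat_lit 394) (B (L (nat_lit 393) ln13_13_3 ln13_13_3_ok) (L (nat_lit 395) ln14_13_3 ln14_13_3_ok))) (M (nat_lit 458) (B (L (nat_lit 457)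 ln13_13_1 ln13_13_1_ok) (L (nat_lit 459) ln14_13_1 ln14_13_1_ok)))))))) (M (nat_lit 398) (B (M (nat_lit 399) (B (L (nat_lit 396) ln15_12_1 ln15_12_1_ok) (L (nat_lit 400) ln16_12_1 ln16_12_1_ok))) (B (M (nat_lit 399) (B (L (nat_lit 400) ln16_12_1 ln16_12_1_ok) (L (nat_lit 430) ln11_13_2 ln11_13_2_ok))) (M (nat_lit 395) (B (M (nat_lit 394) (B (L (nat_lit 430) ln14_13_3 ln14_13_3_ok) (M (nat_lit 393) (B (L (nat_lit 392) ln8_12_0 ln8_12_0_ok) (L (nat_lit 396) ln9_12_0 ln9_12_0_ok))))) (B (M (nat_lit 394) (B (L (nat_lit 430) ln14_13_3 ln14_13_3_ok) (M (nat_lit 396) (B (L (nat_lit 393) ln9_12_0 ln9_12_0_ok) (M (nat_lit 362) (B (L (nat_lit 361) ln13_12_3 ln13_12_3_ok) (L (nat_lit 363) ln14_12_3 ln14_12_3_ok))))))) (B (M (nat_lit 430) (B (L (nat_lit 394) ln14_13_3 ln14_13_3_ok) (M (nat_lit 431) (B (L (nat_lit 396) ln11_12_0 ln11_12_0_ok) (M (nat_lit 459) (B (L (nat_lit 458) ln14_13_1 ln14_13_1_ok) (L (nat_lit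 460) ln15_13_1 ln15_13_1_ok))))))) (B (M (nat_lit 363) (B (M (nat_lit 460) (B (L (nat_lit 331) ln11_10_4 ln11_10_4_ok) (M (nat_lit 396) (B (L (nat_lit 362) ln14_12_3 ln14_12_3_ok) (L (nat_lit 492) ln12_15_7 ln12_15_7_ok))))) (B (M (nat_lit 459) (B (M (nat_lit 362) (B (L (nat_lit 330) ln11_14_7 ln11_14_7_ok) (L (nat_lit 396) ln14_12_3 ln14_12_3_ok))) (M (nat_lit 458) (B (L (nat_lit 490) ln11_11_5 ln11_11_5_ok) (L (nat_lit 430) ln14_13_1 ln14_13_1_ok))))) (B (M (nat_lit 460) (B (L (nat_lit 331) ln11_10_4 ln11_10_4_ok) (M (nat_lit 492) (B (L (nat_lit 396) ln12_15_7 ln12_15_7_ok) (L (nat_lit 459) ln11_11_4 ln11_11_4_ok))))) (M (nat_lit 459) (B (M (nat_lit 460) (B (L (nat_lit 331) ln11_10_4 ln11_10_4_ok) (L (nat_lit 492) ln11_11_4 ln11_11_4_ok))) (M (nat_lit 458) (B (L (nat_lit 490) ln11_11_5 ln11_11_5_ok) (L (nat_lit 430) ln14_13_1 ln14_13_1_ok))))))))) (B (M (nat_lit 460) (B (M (nat_lit 492) (B (L (nat_lit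 524) ln12_16_7 ln12_16_7_ok) (M (nat_lit 365) (B (L (nat_lit 333) ln13_10_5 ln13_10_5_ok) (L (nat_lit 461) ln13_11_5 ln13_11_5_ok))))) (M (nat_lit 430) (B (L (nat_lit 394) ln14_13_3 ln14_13_3_ok) (M (nat_lit 459) (B (L (nat_lit 458) ln14_13_1 ln14_13_1_ok) (L (nat_lit 431) ln15_13_1 ln15_13_1_ok))))))) (M (nat_lit 396) (B (M (nat_lit 394) (B (L (nat_lit 393) ln9_12_0 ln9_12_0_ok) (M (nat_lit 362) (B (L (nat_lit 361) ln13_12_3 ln13_12_3_ok) (L (nat_lit 363) ln14_12_3 ln14_12_3_ok))))) (B (M (nat_lit 363) (B (L (nat_lit 362) ln14_12_3 ln14_12_3_ok) (M (nat_lit 460) (B (L (nat_lit 331) ln11_10_4 ln11_10_4_ok) (L (nat_lit 492) ln12_15_7 ln12_15_7_ok))))) (M (nat_lit 365) (B (M (nat_lit 333) (B (L (nat_lit 301) ln13_9_5 ln13_9_5_ok) (L (nat_lit 460) ln13_10_5 ln13_10_5_ok))) (M (nat_lit 394) (B (L (nat_lit 366) ln10_12_2 ln10_12_2_ok) (L (nat_lit 393) ln9_12_0 ln9_12_0_ok)))))))))))))))))))))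
noncomputable def c11_n19312 : Cert := (M (nat_lit 395) (B (M (nat_lit 430) (B (L (nat_lit 394) ln14_13_3 ln14_13_3_ok) (M (nat_lit 431) (B (L (nat_lit 396) ln11_12_0 ln11_12_0_ok) (M (nat_lit 459) (B (L (nat_lit 458) ln14_13_1 ln14_13_1_ok) (L (nat_lit 460) ln15_13_1 ln15_13_1_ok))))))) (B (M (nat_lit 459) (B (M (nat_lit 430) (B (L (nat_lit 458) ln14_13_1 ln14_13_1_ok) (M (nat_lit 431) (B (L (nat_lit 396) ln11_12_0 ln11_12_0_ok) (L (nat_lit 460) ln15_13_1 ln15_13_1_ok))))) (B (M (nat_lit 460) (B (M (nat_lit 492) (B (L (nat_lit 363) ln11_11_4 ln11_11_4_ok) (L (nat_lit 524) ln12_16_7 ln12_16_7_ok))) (M (nat_lit 458) (B (L (nat_lit 430) ln14_13_1 ln14_13_1_ok) (L (nat_lit 457) ln9_14_2 ln9_14_2_ok))))) (B (M (nat_lit 460) (B (M (nat_lit 492) (B (L (nat_lit 363) ln11_11_4 ln11_11_4_ok) (L (nat_lit 524) ln12_16_7 ln12_16_7_ok))) (B (M (nat_lit 492) (B (L (nat_lit 524) ln12_16_7 ln12_16_7_ok) (M (nat_lit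 365) (B (L (nat_lit 333) ln13_10_5 ln13_10_5_ok) (L (nat_lit 396) ln12_15_6 ln12_15_6_ok))))) (M (nat_lit 363) (B (M (nat_lit 362) (B (L (nat_lit 330) ln11_14_7 ln11_14_7_ok) (L (nat_lit 396) ln14_12_3 ln14_12_3_ok))) (M (nat_lit 458) (B (L (nat_lit 490) ln11_11_5 ln11_11_5_ok) (L (nat_lit 457) ln9_14_2 ln9_14_2_ok)))))))) (B (M (nat_lit 492) (B (M (nat_lit 460) (B (L (nat_lit 363) ln11_11_4 ln11_11_4_ok) (L (nat_lit 524) ln12_16_7 ln12_16_7_ok))) (B (M (nat_lit 524) (B (L (nat_lit 460) ln12_16_7 ln12_16_7_ok) (L (nat_lit 491) ln11_12_4 ln11_12_4_ok))) (B (M (nat_lit 491) (B (L (nat_lit 524) ln11_12_4 ln11_12_4_ok) (M (nat_lit 396) (B (L (nat_lit 364) ln11_15_6 ln11_15_6_ok) (L (nat_lit 523) ln11_16_6 ln11_16_6_ok))))) (M (nat_lit 396) (B (M (nat_lit 363) (B (L (nat_lit 362) ln14_12_3 ln14_12_3_ok) (L (nat_lit 460) ln12_15_7 ln12_15_7_ok))) (M (nat_lit 364) (B (L (nat_lit 332) ln12_10_5 ln12_10_5_ok)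 (L (nat_lit 491) ln11_15_6 ln11_15_6_ok))))))))) (M (nat_lit 396) (B (M (nat_lit 364) (B (L (nat_lit 332) ln12_10_5 ln12_10_5_ok) (L (nat_lit 491) ln11_15_6 ln11_15_6_ok))) (M (nat_lit 430) (B (L (nat_lit 431) ln11_12_0 ln11_12_0_ok) (L (nat_lit 458) ln14_13_1 ln14_13_1_ok)))))))))) (B (M (nat_lit 460) (B (M (nat_lit 492) (B (L (nat_lit 524) ln12_16_7 ln12_16_7_ok) (M (nat_lit 365) (B (L (nat_lit 333) ln13_10_5 ln13_10_5_ok) (L (nat_lit 461) ln13_11_5 ln13_11_5_ok))))) (M (nat_lit 430) (B (L (nat_lit 394) ln14_13_3 ln14_13_3_ok) (M (nat_lit 459) (B (L (nat_lit 458) ln14_13_1 ln14_13_1_ok) (L (nat_lit 431) ln15_13_1 ln15_13_1_ok))))))) (B (M (nat_lit 365) (B (M (nat_lit 460) (B (L (nat_lit 333) ln13_10_5 ln13_10_5_ok) (M (nat_lit 492) (B (L (nat_lit 396) ln12_15_6 ln12_15_6_ok) (L (nat_lit 461) ln13_11_5 ln13_11_5_ok))))) (B (M (nat_lit 364) (B (M (nat_lit 332) (B (L (nat_lit 461) ln13_14_7 ln13_14_7_ok)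 (M (nat_lit 363) (B (L (nat_lit 459) ln11_14_6 ln11_14_6_ok) (L (nat_lit 362) ln10_11_0 ln10_11_0_ok))))) (B (M (nat_lit 366) (B (M (nat_lit 334) (B (L (nat_lit 302) ln14_9_5 ln14_9_5_ok) (L (nat_lit 461) ln13_14_6 ln13_14_6_ok))) (M (nat_lit 363) (B (L (nat_lit 362) ln10_11_0 ln10_11_0_ok) (L (nat_lit 394) ln14_11_1 ln14_11_1_ok))))) (B (M (nat_lit 332) (B (L (nat_lit 461) ln13_14_7 ln13_14_7_ok) (M (nat_lit 396) (B (L (nat_lit 300) ln12_9_5 ln12_9_5_ok) (L (nat_lit 459) ln12_10_5 ln12_10_5_ok))))) (M (nat_lit 396) (B (M (nat_lit 332) (B (L (nat_lit 300) ln12_9_5 ln12_9_5_ok) (L (nat_lit 459) ln12_10_5 ln12_10_5_ok))) (M (nat_lit 394) (B (L (nat_lit 393) ln9_12_2 ln9_12_2_ok) (L (nat_lit 366) ln10_12_2 ln10_12_2_ok))))))))) (B (M (nat_lit 460) (B (L (nat_lit 333) ln13_10_5 ln13_10_5_ok) (M (nat_lit 492) (B (L (nat_lit 461) ln13_11_5 ln13_11_5_ok) (L (nat_lit 524) ln12_16_7 ln12_16_7_ok))))) (M (nat_lit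 460) (B (L (nat_lit 333) ln13_10_5 ln13_10_5_ok) (M (nat_lit 492) (B (L (nat_lit 396) ln12_15_6 ln12_15_6_ok) (L (nat_lit 524) ln12_16_7 ln12_16_7_ok))))))))) (B (M (nat_lit 365) (B (M (nat_lit 394) (B (L (nat_lit 430) ln14_13_3 ln14_13_3_ok) (M (nat_lit 396) (B (L (nat_lit 366) ln10_12_2 ln10_12_2_ok) (L (nat_lit 393) ln9_12_0 ln9_12_0_ok))))) (B (M (nat_lit 460) (B (L (nat_lit 333) ln13_10_5 ln13_10_5_ok) (M (nat_lit 492) (B (L (nat_lit 396) ln12_15_6 ln12_15_6_ok) (L (nat_lit 524) ln12_16_7 ln12_16_7_ok))))) (M (nat_lit 333) (B (L (nat_lit 460) ln13_10_5 ln13_10_5_ok) (M (nat_lit 430) (B (L (nat_lit 301) ln13_9_4 ln13_9_4_ok) (L (nat_lit 394) ln14_13_3 ln14_13_3_ok)))))))) (M (nat_lit 430) (B (L (nat_lit 394) ln14_13_3 ln14_13_3_ok) (M (nat_lit 396) (B (L (nat_lit 431) ln11_12_0 ln11_12_0_ok) (M (nat_lit 459) (B (L (nat_lit 458) ln14_13_1 ln14_13_1_ok) (M (nat_lit 364) (B (L (nat_lit 332) ln12_10_5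 ln12_10_5_ok) (L (nat_lit 491) ln11_15_6 ln11_15_6_ok)))))))))))))))
noncomputable def c11_n19313 : Cert := (M (nat_lit 398) (B (M (nat_lit 399) (B (L (nat_lit 396) ln15_12_1 ln15_12_1_ok) (L (nat_lit 400) ln16_12_1 ln16_12_1_ok))) (B (M (nat_lit 399) (B (L (nat_lit 400) ln16_12_1 ln16_12_1_ok) (L (nat_lit 430) ln11_13_2 ln11_13_2_ok))) c11_n19312)))
theorem c11_s19314 : Sem (nat_lit 2079502270913392379444674211814302674077704290823075655481512624564798400421800170032085953906810352733060637150540575368324055040) (nat_lit 82377571943944010200170296857884086063953138492329270083876043859717325490829440489932556949445233603384027832432982918203999796728778835623899079395971694592) (nat_lit 82377571943944010200170296857884086063953138492329270083876043859717325490829440489932556949445233603384027832432982918203999796728778835623899079395971694592) :=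
  sem_of_chk (M (nat_lit 427) (B (M (nat_lit 398) (B (L (nat_lit 426) ln10_13_2 ln10_13_2_ok) (M (nat_lit 399) (B (L (nat_lit 396) ln15_12_1 ln15_12_1_ok) (L (nat_lit 400) ln16_12_1 ln16_12_1_ok))))) (B (M (nat_lit 398) (B (L (nat_lit 426) ln10_13_2 ln10_13_2_ok) (M (nat_lit 399) (B (L (nat_lit 400) ln16_12_1 ln16_12_1_ok) (L (nat_lit 430) ln11_13_2 ln11_13_2_ok))))) (B (M (nat_lit 426) (B (M (nat_lit 393) (B (L (nat_lit 394) ln13_13_3 ln13_13_3_ok) (M (nat_lit 425) (B (L (nat_lit 392) ln12_13_3 ln12_13_3_ok) (L (nat_lit 396) ln9_13_2 ln9_13_2_ok))))) (B (M (nat_lit 425) (B (L (nat_lit 396) ln9_13_2 ln9_13_2_ok) (M (nat_lit 457) (B (L (nat_lit 456) ln12_13_1 ln12_13_1_ok) (L (nat_lit 458) ln13_13_1 ln13_13_1_ok))))) (M (nat_lit 430) (B (M (nat_lit 394) (B (L (nat_lit 393) ln13_13_3 ln13_13_3_ok) (L (nat_lit 395) ln14_13_3 ln14_13_3_ok))) (M (nat_lit 458) (B (L (nat_lit 457) ln13_13_1 ln13_13_1_ok)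 (L (nat_lit 459) ln14_13_1 ln14_13_1_ok)))))))) c11_n19313)))) (nat_lit 2079502270913392379444674211814302674077704290823075655481512624564798400421800170032085953906810352733060637150540575368324055040) (nat_lit 82377571943944010200170296857884086063953138492329270083876043859717325490829440489932556949445233603384027832432982918203999796728778835623899079395971694592) (nat_lit 82377571943944010200170296857884086063953138492329270083876043859717325490829440489932556949445233603384027832432982918203999796728778835623899079395971694592) (by decide +kernel)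
noncomputable def c11_n19319 : Cert := (M (nat_lit 427) (B (M (nat_lit 398) (B (L (nat_lit 426) ln10_13_2 ln10_13_2_ok) (M (nat_lit 399) (B (L (nat_lit 396) ln15_12_1 ln15_12_1_ok) (L (nat_lit 400) ln16_12_1 ln16_12_1_ok))))) (B (M (nat_lit 398) (B (L (nat_lit 426) ln10_13_2 ln10_13_2_ok) (M (nat_lit 399) (B (L (nat_lit 400) ln16_12_1 ln16_12_1_ok) (L (nat_lit 430) ln11_13_2 ln11_13_2_ok))))) (B (M (nat_lit 426) (B (M (nat_lit 393) (B (L (nat_lit 394) ln13_13_3 ln13_13_3_ok) (M (nat_lit 425) (B (L (nat_lit 392) ln12_13_3 ln12_13_3_ok) (L (nat_lit 396) ln9_13_2 ln9_13_2_ok))))) (B (M (nat_lit 425) (B (L (nat_lit 396) ln9_13_2 ln9_13_2_ok) (M (nat_lit 457) (B (L (nat_lit 456) ln12_13_1 ln12_13_1_ok) (L (nat_lit 458) ln13_13_1 ln13_13_1_ok))))) (M (nat_lit 430) (B (M (nat_lit 394) (B (L (nat_lit 393) ln13_13_3 ln13_13_3_ok) (L (nat_lit 395) ln14_13_3 ln14_13_3_ok))) (M (nat_lit 458) (B (L (nat_lit 457)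 ln13_13_1 ln13_13_1_ok) (L (nat_lit 459) ln14_13_1 ln14_13_1_ok)))))))) (M (nat_lit 395) (B (M (nat_lit 394) (B (L (nat_lit 430) ln14_13_3 ln14_13_3_ok) (M (nat_lit 393) (B (L (nat_lit 392) ln8_12_0 ln8_12_0_ok) (L (nat_lit 396) ln9_12_0 ln9_12_0_ok))))) (B (M (nat_lit 430) (B (L (nat_lit 394) ln14_13_3 ln14_13_3_ok) (M (nat_lit 459) (B (L (nat_lit 458) ln14_13_1 ln14_13_1_ok) (M (nat_lit 431) (B (L (nat_lit 396) ln15_13_3 ln15_13_3_ok) (L (nat_lit 460) ln15_13_1 ln15_13_1_ok))))))) (B (M (nat_lit 398) (B (M (nat_lit 399) (B (L (nat_lit 396) ln15_12_1 ln15_12_1_ok) (L (nat_lit 400) ln16_12_1 ln16_12_1_ok))) (B (M (nat_lit 399) (B (L (nat_lit 400) ln16_12_1 ln16_12_1_ok) (L (nat_lit 430) ln11_13_2 ln11_13_2_ok))) (M (nat_lit 396) (B (M (nat_lit 363) (B (L (nat_lit 362) ln14_12_3 ln14_12_3_ok) (M (nat_lit 331) (B (L (nat_lit 299) ln11_9_4 ln11_9_4_ok) (L (nat_lit 460) ln11_10_4 ln11_10_4_ok))))) (M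 (nat_lit 459) (B (M (nat_lit 364) (B (L (nat_lit 332) ln12_10_5 ln12_10_5_ok) (L (nat_lit 491) ln11_15_6 ln11_15_6_ok))) (M (nat_lit 430) (B (L (nat_lit 431) ln11_12_0 ln11_12_0_ok) (L (nat_lit 458) ln14_13_1 ln14_13_1_ok)))))))))) (B (M (nat_lit 430) (B (L (nat_lit 394) ln14_13_3 ln14_13_3_ok) (M (nat_lit 431) (B (M (nat_lit 399) (B (L (nat_lit 398) ln11_13_2 ln11_13_2_ok) (L (nat_lit 400) ln12_13_2 ln12_13_2_ok))) (M (nat_lit 459) (B (L (nat_lit 458) ln14_13_1 ln14_13_1_ok) (L (nat_lit 460) ln15_13_1 ln15_13_1_ok))))))) (M (nat_lit 363) (B (M (nat_lit 460) (B (L (nat_lit 331) ln11_10_4 ln11_10_4_ok) (M (nat_lit 492) (B (L (nat_lit 396) ln12_15_7 ln12_15_7_ok) (L (nat_lit 459) ln11_11_4 ln11_11_4_ok))))) (B (M (nat_lit 459) (B (M (nat_lit 460) (B (L (nat_lit 492) ln11_11_4 ln11_11_4_ok) (M (nat_lit 458) (B (L (nat_lit 490) ln11_11_5 ln11_11_5_ok) (L (nat_lit 457) ln9_14_2 ln9_14_2_ok))))) (M (nat_lit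 396) (B (M (nat_lit 362) (B (L (nat_lit 330) ln11_14_7 ln11_14_7_ok) (L (nat_lit 398) ln14_12_3 ln14_12_3_ok))) (M (nat_lit 364) (B (L (nat_lit 332) ln11_14_6 ln11_14_6_ok) (L (nat_lit 491) ln11_15_6 ln11_15_6_ok))))))) (B (M (nat_lit 460) (B (L (nat_lit 331) ln11_10_4 ln11_10_4_ok) (M (nat_lit 492) (B (L (nat_lit 459) ln11_11_4 ln11_11_4_ok) (L (nat_lit 524) ln12_16_7 ln12_16_7_ok))))) (B (M (nat_lit 460) (B (L (nat_lit 331) ln11_10_4 ln11_10_4_ok) (M (nat_lit 492) (B (L (nat_lit 396) ln12_15_7 ln12_15_7_ok) (L (nat_lit 524) ln12_16_7 ln12_16_7_ok))))) (M (nat_lit 396) (B (M (nat_lit 398) (B (L (nat_lit 362) ln14_12_3 ln14_12_3_ok) (L (nat_lit 399) ln15_12_1 ln15_12_1_ok))) (M (nat_lit 332) (B (M (nat_lit 331) (B (L (nat_lit 299) ln11_9_4 ln11_9_4_ok) (L (nat_lit 300) ln11_13_6 ln11_13_6_ok))) (B (M (nat_lit 300) (B (L (nat_lit 331) ln11_13_6 ln11_13_6_ok) (L (nat_lit 364) ln12_9_5 ln12_9_5_ok)))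 (M (nat_lit 364) (B (L (nat_lit 459) ln11_14_6 ln11_14_6_ok) (L (nat_lit 461) ln12_10_4 ln12_10_4_ok))))))))))))))))))))))
noncomputable def c11_n19342 : Cert := (M (nat_lit 395) (B (M (nat_lit 430) (B (L (nat_lit 394) ln14_13_3 ln14_13_3_ok) (M (nat_lit 431) (B (L (nat_lit 396) ln11_12_0 ln11_12_0_ok) (M (nat_lit 459) (B (L (nat_lit 458) ln14_13_1 ln14_13_1_ok) (L (nat_lit 460) ln15_13_1 ln15_13_1_ok))))))) (B (M (nat_lit 459) (B (M (nat_lit 430) (B (L (nat_lit 458) ln14_13_1 ln14_13_1_ok) (M (nat_lit 431) (B (L (nat_lit 396) ln11_12_0 ln11_12_0_ok) (L (nat_lit 460) ln15_13_1 ln15_13_1_ok))))) (B (M (nat_lit 460) (B (M (nat_lit 363) (B (L (nat_lit 331) ln11_10_4 ln11_10_4_ok) (L (nat_lit 492) ln11_11_4 ln11_11_4_ok))) (M (nat_lit 458) (B (L (nat_lit 430) ln14_13_1 ln14_13_1_ok) (L (nat_lit 457) ln9_14_2 ln9_14_2_ok))))) (B (M (nat_lit 460) (B (M (nat_lit 363) (B (L (nat_lit 331) ln11_10_4 ln11_10_4_ok)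 (L (nat_lit 492) ln11_11_4 ln11_11_4_ok))) (B (M (nat_lit 492) (B (L (nat_lit 363) ln11_11_4 ln11_11_4_ok) (L (nat_lit 524) ln12_16_7 ln12_16_7_ok))) (B (M (nat_lit 492) (B (L (nat_lit 524) ln12_16_7 ln12_16_7_ok) (M (nat_lit 365) (B (L (nat_lit 333) ln13_10_5 ln13_10_5_ok) (L (nat_lit 461) ln13_11_5 ln13_11_5_ok))))) (M (nat_lit 363) (B (L (nat_lit 331) ln11_10_4 ln11_10_4_ok) (M (nat_lit 458) (B (L (nat_lit 490) ln11_11_5 ln11_11_5_ok) (L (nat_lit 457) ln9_14_2 ln9_14_2_ok))))))))) (B (M (nat_lit 492) (B (M (nat_lit 460) (B (L (nat_lit 363) ln11_11_4 ln11_11_4_ok) (L (nat_lit 524) ln12_16_7 ln12_16_7_ok))) (B (M (nat_lit 524) (B (L (nat_lit 460) ln12_16_7 ln12_16_7_ok) (L (nat_lit 491) ln11_12_4 ln11_12_4_ok))) (B (M (nat_lit 491) (B (L (nat_lit 524) ln11_12_4 ln11_12_4_ok) (M (nat_lit 396) (B (L (nat_lit 364) ln11_15_6 ln11_15_6_ok) (L (nat_lit 523) ln11_16_6 ln11_16_6_ok))))) (M (nat_lit 460)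 (B (L (nat_lit 363) ln11_11_4 ln11_11_4_ok) (M (nat_lit 365) (B (L (nat_lit 333) ln13_10_5 ln13_10_5_ok) (L (nat_lit 461) ln13_11_5 ln13_11_5_ok))))))))) (M (nat_lit 396) (B (M (nat_lit 364) (B (L (nat_lit 332) ln12_10_5 ln12_10_5_ok) (L (nat_lit 491) ln11_15_6 ln11_15_6_ok))) (M (nat_lit 430) (B (L (nat_lit 431) ln11_12_0 ln11_12_0_ok) (L (nat_lit 458) ln14_13_1 ln14_13_1_ok)))))))))) (B (M (nat_lit 460) (B (M (nat_lit 492) (B (L (nat_lit 524) ln12_16_7 ln12_16_7_ok) (M (nat_lit 365) (B (L (nat_lit 333) ln13_10_5 ln13_10_5_ok) (L (nat_lit 461) ln13_11_5 ln13_11_5_ok))))) (M (nat_lit 430) (B (L (nat_lit 394) ln14_13_3 ln14_13_3_ok) (M (nat_lit 459) (B (L (nat_lit 458) ln14_13_1 ln14_13_1_ok) (L (nat_lit 431) ln15_13_1 ln15_13_1_ok))))))) (B (M (nat_lit 365) (B (M (nat_lit 460) (B (L (nat_lit 333) ln13_10_5 ln13_10_5_ok) (M (nat_lit 492) (B (L (nat_lit 396) ln12_15_6 ln12_15_6_ok) (L (nat_lit 461)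 ln13_11_5 ln13_11_5_ok))))) (B (M (nat_lit 364) (B (M (nat_lit 332) (B (L (nat_lit 461) ln13_14_7 ln13_14_7_ok) (M (nat_lit 300) (B (L (nat_lit 268) ln12_8_4 ln12_8_4_ok) (L (nat_lit 396) ln12_9_5 ln12_9_5_ok))))) (B (M (nat_lit 332) (B (L (nat_lit 461) ln13_14_7 ln13_14_7_ok) (M (nat_lit 396) (B (L (nat_lit 300) ln12_9_5 ln12_9_5_ok) (L (nat_lit 459) ln12_10_5 ln12_10_5_ok))))) (B (M (nat_lit 332) (B (L (nat_lit 461) ln13_14_7 ln13_14_7_ok) (M (nat_lit 459) (B (L (nat_lit 363) ln11_14_6 ln11_14_6_ok) (L (nat_lit 396) ln12_10_5 ln12_10_5_ok))))) (B (M (nat_lit 366) (B (M (nat_lit 334) (B (L (nat_lit 302) ln14_9_5 ln14_9_5_ok) (L (nat_lit 461) ln13_14_6 ln13_14_6_ok))) (M (nat_lit 394) (B (L (nat_lit 363) ln14_11_1 ln14_11_1_ok) (L (nat_lit 396) ln10_12_2 ln10_12_2_ok))))) (B (M (nat_lit 461) (B (L (nat_lit 332) ln13_14_7 ln13_14_7_ok) (M (nat_lit 366) (B (L (nat_lit 334) ln13_14_6 ln13_14_6_ok) (L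 (nat_lit 493) ln13_15_6 ln13_15_6_ok))))) (M (nat_lit 396) (B (M (nat_lit 332) (B (L (nat_lit 300) ln12_9_5 ln12_9_5_ok) (L (nat_lit 459) ln12_10_5 ln12_10_5_ok))) (M (nat_lit 394) (B (L (nat_lit 393) ln9_12_2 ln9_12_2_ok) (L (nat_lit 366) ln10_12_2 ln10_12_2_ok))))))))))) (B (M (nat_lit 460) (B (L (nat_lit 333) ln13_10_5 ln13_10_5_ok) (M (nat_lit 492) (B (L (nat_lit 461) ln13_11_5 ln13_11_5_ok) (L (nat_lit 524) ln12_16_7 ln12_16_7_ok))))) (M (nat_lit 460) (B (L (nat_lit 333) ln13_10_5 ln13_10_5_ok) (M (nat_lit 492) (B (L (nat_lit 396) ln12_15_6 ln12_15_6_ok) (L (nat_lit 524) ln12_16_7 ln12_16_7_ok))))))))) (B (M (nat_lit 365) (B (M (nat_lit 460) (B (L (nat_lit 333) ln13_10_5 ln13_10_5_ok) (M (nat_lit 492) (B (L (nat_lit 396) ln12_15_6 ln12_15_6_ok) (L (nat_lit 461) ln13_11_5 ln13_11_5_ok))))) (B (M (nat_lit 394) (B (L (nat_lit 430) ln14_13_3 ln14_13_3_ok) (M (nat_lit 396) (B (L (nat_lit 366) ln10_12_2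 ln10_12_2_ok) (L (nat_lit 393) ln9_12_0 ln9_12_0_ok))))) (M (nat_lit 460) (B (L (nat_lit 333) ln13_10_5 ln13_10_5_ok) (M (nat_lit 492) (B (L (nat_lit 461) ln13_11_5 ln13_11_5_ok) (L (nat_lit 524) ln12_16_7 ln12_16_7_ok)))))))) (M (nat_lit 430) (B (L (nat_lit 394) ln14_13_3 ln14_13_3_ok) (M (nat_lit 396) (B (L (nat_lit 431) ln11_12_0 ln11_12_0_ok) (M (nat_lit 459) (B (L (nat_lit 458) ln14_13_1 ln14_13_1_ok) (M (nat_lit 364) (B (L (nat_lit 332) ln12_10_5 ln12_10_5_ok) (L (nat_lit 491) ln11_15_6 ln11_15_6_ok)))))))))))))))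
theorem c11_s19343 : Sem (nat_lit 2426085982678494236891975984832188137007258925245052727377822572141626063897503372912082754669827799995234538520716021846945824768) (nat_lit 82377571969517374324172834503335933710839114810074007648004404262636379522860884460624645736036664237495238338811596033777074763163971080630044503636602519552) (nat_lit 82377571969517374324172834503335933710839114810074007648004404262636379522860884460624645736036664237495238338811596033777074763163971080630044503636602519552) :=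
  sem_of_chk (M (nat_lit 398) (B (M (nat_lit 399) (B (L (nat_lit 396) ln15_12_1 ln15_12_1_ok) (L (nat_lit 400) ln16_12_1 ln16_12_1_ok))) (B (M (nat_lit 399) (B (L (nat_lit 400) ln16_12_1 ln16_12_1_ok) (L (nat_lit 430) ln11_13_2 ln11_13_2_ok))) c11_n19342))) (nat_lit 2426085982678494236891975984832188137007258925245052727377822572141626063897503372912082754669827799995234538520716021846945824768) (nat_lit 82377571969517374324172834503335933710839114810074007648004404262636379522860884460624645736036664237495238338811596033777074763163971080630044503636602519552) (nat_lit 82377571969517374324172834503335933710839114810074007648004404262636379522860884460624645736036664237495238338811596033777074763163971080630044503636602519552) (by decide +kernel)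
noncomputable def c11_n19503 : Cert := (M (nat_lit 459) (B (M (nat_lit 458) (B (L (nat_lit 430) ln14_13_1 ln14_13_1_ok) (M (nat_lit 457) (B (L (nat_lit 456) ln8_14_2 ln8_14_2_ok) (L (nat_lit 460) ln9_14_2 ln9_14_2_ok))))) (B (M (nat_lit 491) (B (M (nat_lit 396) (B (L (nat_lit 523) ln11_16_6 ln11_16_6_ok) (M (nat_lit 364) (B (L (nat_lit 332) ln12_10_5 ln12_10_5_ok) (L (nat_lit 460) ln12_11_5 ln12_11_5_ok))))) (B (M (nat_lit 396) (B (L (nat_lit 523) ln11_16_6 ln11_16_6_ok) (M (nat_lit 364) (B (L (nat_lit 395) ln11_15_6 ln11_15_6_ok) (L (nat_lit 460) ln12_11_5 ln12_11_5_ok))))) (B (M (nat_lit 490) (B (M (nat_lit 522) (B (L (nat_lit 395) ln11_12_5 ln11_12_5_ok) (M (nat_lit 523) (B (L (nat_lit 396) ln11_16_6 ln11_16_6_ok) (L (nat_lit 554) ln11_13_5 ln11_13_5_ok))))) (M (nat_lit 460) (B (M (nat_lit 365) (B (L (nat_lit 333) ln13_10_5 ln13_10_5_ok) (L (nat_lit 492) ln13_11_5 ln13_11_5_ok))) (B (M (nat_lit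 489) (B (L (nat_lit 458) ln13_14_1 ln13_14_1_ok) (L (nat_lit 492) ln9_15_2 ln9_15_2_ok))) (M (nat_lit 489) (B (L (nat_lit 458) ln13_14_1 ln13_14_1_ok) (L (nat_lit 488) ln8_15_2 ln8_15_2_ok)))))))) (B (M (nat_lit 490) (B (M (nat_lit 522) (B (L (nat_lit 395) ln11_12_5 ln11_12_5_ok) (M (nat_lit 554) (B (L (nat_lit 458) ln10_17_6 ln10_17_6_ok) (L (nat_lit 523) ln11_13_5 ln11_13_5_ok))))) (B (M (nat_lit 460) (B (M (nat_lit 365) (B (L (nat_lit 333) ln13_10_5 ln13_10_5_ok) (L (nat_lit 492) ln13_11_5 ln13_11_5_ok))) (B (M (nat_lit 489) (B (L (nat_lit 458) ln13_14_1 ln13_14_1_ok) (L (nat_lit 492) ln9_15_2 ln9_15_2_ok))) (M (nat_lit 489) (B (L (nat_lit 458) ln13_14_1 ln13_14_1_ok) (L (nat_lit 488) ln8_15_2 ln8_15_2_ok)))))) (M (nat_lit 492) (B (M (nat_lit 395) (B (L (nat_lit 522) ln11_12_5 ln11_12_5_ok) (L (nat_lit 524) ln11_12_4 ln11_12_4_ok))) (B (M (nat_lit 460) (B (L (nat_lit 365) ln13_11_5 ln13_11_5_ok)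 (L (nat_lit 524) ln12_16_6 ln12_16_6_ok))) (M (nat_lit 460) (B (L (nat_lit 365) ln13_11_5 ln13_11_5_ok) (L (nat_lit 489) ln9_15_2 ln9_15_2_ok))))))))) (B (M (nat_lit 396) (B (L (nat_lit 523) ln11_16_6 ln11_16_6_ok) (M (nat_lit 364) (B (L (nat_lit 332) ln12_10_5 ln12_10_5_ok) (L (nat_lit 395) ln11_15_6 ln11_15_6_ok))))) (M (nat_lit 364) (B (M (nat_lit 332) (B (L (nat_lit 365) ln13_14_7 ln13_14_7_ok) (L (nat_lit 396) ln12_10_5 ln12_10_5_ok))) (B (M (nat_lit 396) (B (L (nat_lit 395) ln11_15_6 ln11_15_6_ok) (L (nat_lit 460) ln12_11_5 ln12_11_5_ok))) (M (nat_lit 365) (B (L (nat_lit 332) ln13_14_7 ln13_14_7_ok) (M (nat_lit 460) (B (L (nat_lit 333) ln13_10_5 ln13_10_5_ok) (L (nat_lit 492) ln13_11_5 ln13_11_5_ok)))))))))))))) (B (M (nat_lit 365) (B (M (nat_lit 460) (B (L (nat_lit 333) ln13_10_5 ln13_10_5_ok) (L (nat_lit 492) ln13_11_5 ln13_11_5_ok))) (B (M (nat_lit 395) (B (M (nat_lit 460) (B (L (nat_lit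 492) ln13_11_5 ln13_11_5_ok) (M (nat_lit 430) (B (L (nat_lit 394) ln14_13_3 ln14_13_3_ok) (L (nat_lit 431) ln15_13_1 ln15_13_1_ok))))) (B (M (nat_lit 491) (B (M (nat_lit 364) (B (L (nat_lit 332) ln13_14_7 ln13_14_7_ok) (L (nat_lit 396) ln11_15_6 ln11_15_6_ok))) (M (nat_lit 492) (B (L (nat_lit 460) ln13_11_5 ln13_11_5_ok) (L (nat_lit 524) ln11_12_4 ln11_12_4_ok))))) (M (nat_lit 394) (B (L (nat_lit 430) ln14_13_3 ln14_13_3_ok) (M (nat_lit 366) (B (L (nat_lit 334) ln13_14_6 ln13_14_6_ok) (L (nat_lit 396) ln10_12_2 ln10_12_2_ok)))))))) (M (nat_lit 333) (B (M (nat_lit 332) (B (L (nat_lit 300) ln13_13_7 ln13_13_7_ok) (L (nat_lit 364) ln13_14_7 ln13_14_7_ok))) (M (nat_lit 334) (B (L (nat_lit 302) ln13_13_6 ln13_13_6_ok) (L (nat_lit 366) ln13_14_6 ln13_14_6_ok)))))))) (M (nat_lit 430) (B (L (nat_lit 458) ln14_13_1 ln14_13_1_ok) (M (nat_lit 431) (B (M (nat_lit 395) (B (L (nat_lit 394) ln14_13_3 ln14_13_3_ok)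 (L (nat_lit 396) ln15_13_3 ln15_13_3_ok))) (M (nat_lit 399) (B (L (nat_lit 398) ln11_13_2 ln11_13_2_ok) (L (nat_lit 400) ln12_13_2 ln12_13_2_ok)))))))))))
theorem c11_s19504 : Sem (nat_lit 2426085982678494236891975984832188137007258925245052727377822572141626063897503372912082754669827799995234538520716021846945824768) (nat_lit 1002458769518839376718755026783482768073289624796800710148497018810232360689396335724155801185717866412420031881218205260340592694230897465988947025791978750688796606464) (nat_lit 1002458769518839376718755026783482768073289624796800710148497018810232360689396335724155801185717866412420031881218205260340592694230897465988947025791978750688796606464) :=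
  sem_of_chk (M (nat_lit 461) (B (M (nat_lit 398) (B (M (nat_lit 399) (B (L (nat_lit 396) ln15_12_1 ln15_12_1_ok) (L (nat_lit 400) ln16_12_1 ln16_12_1_ok))) (B (M (nat_lit 399) (B (L (nat_lit 400) ln16_12_1 ln16_12_1_ok) (L (nat_lit 430) ln11_13_2 ln11_13_2_ok))) (M (nat_lit 493) (B (L (nat_lit 366) ln13_15_6 ln13_15_6_ok) (M (nat_lit 396) (B (L (nat_lit 364) ln13_15_7 ln13_15_7_ok) (L (nat_lit 525) ln13_16_7 ln13_16_7_ok)))))))) (B (M (nat_lit 398) (B (M (nat_lit 399) (B (L (nat_lit 396) ln15_12_1 ln15_12_1_ok) (L (nat_lit 400) ln16_12_1 ln16_12_1_ok))) (B (M (nat_lit 399) (B (L (nat_lit 400) ln16_12_1 ln16_12_1_ok) (L (nat_lit 430) ln11_13_2 ln11_13_2_ok))) (M (nat_lit 493) (B (L (nat_lit 366) ln13_15_6 ln13_15_6_ok) (M (nat_lit 525) (B (L (nat_lit 396) ln13_16_7 ln13_16_7_ok) (L (nat_lit 430) ln13_16_6 ln13_16_6_ok)))))))) (B (M (nat_lit 398) (B (M (nat_lit 399) (B (L (nat_lit 396) ln15_12_1 ln15_12_1_ok)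 (L (nat_lit 400) ln16_12_1 ln16_12_1_ok))) (B (M (nat_lit 399) (B (L (nat_lit 400) ln16_12_1 ln16_12_1_ok) (L (nat_lit 430) ln11_13_2 ln11_13_2_ok))) (M (nat_lit 493) (B (M (nat_lit 396) (B (L (nat_lit 364) ln13_15_7 ln13_15_7_ok) (L (nat_lit 525) ln13_16_7 ln13_16_7_ok))) (B (M (nat_lit 525) (B (L (nat_lit 396) ln13_16_7 ln13_16_7_ok) (L (nat_lit 430) ln13_16_6 ln13_16_6_ok))) (B (M (nat_lit 525) (B (L (nat_lit 430) ln13_16_6 ln13_16_6_ok) (M (nat_lit 526) (B (L (nat_lit 494) ln13_12_4 ln13_12_4_ok) (L (nat_lit 558) ln13_13_4 ln13_13_4_ok))))) (M (nat_lit 365) (B (M (nat_lit 364) (B (L (nat_lit 332) ln13_14_7 ln13_14_7_ok) (L (nat_lit 396) ln13_15_7 ln13_15_7_ok))) (M (nat_lit 460) (B (L (nat_lit 333) ln13_10_5 ln13_10_5_ok) (L (nat_lit 492) ln13_11_5 ln13_11_5_ok)))))))))))) (B (M (nat_lit 398) (B (M (nat_lit 399) (B (L (nat_lit 400) ln16_12_1 ln16_12_1_ok) (L (nat_lit 430) ln11_13_2 ln11_13_2_ok)))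 (B (M (nat_lit 366) (B (L (nat_lit 493) ln13_15_6 ln13_15_6_ok) (M (nat_lit 334) (B (L (nat_lit 302) ln14_9_5 ln14_9_5_ok) (L (nat_lit 430) ln14_10_5 ln14_10_5_ok))))) (M (nat_lit 366) (B (L (nat_lit 493) ln13_15_6 ln13_15_6_ok) (M (nat_lit 334) (B (L (nat_lit 302) ln14_9_5 ln14_9_5_ok) (L (nat_lit 365) ln13_14_6 ln13_14_6_ok)))))))) (B (M (nat_lit 365) (B (M (nat_lit 460) (B (L (nat_lit 333) ln13_10_5 ln13_10_5_ok) (L (nat_lit 492) ln13_11_5 ln13_11_5_ok))) (B (M (nat_lit 493) (B (M (nat_lit 364) (B (L (nat_lit 332) ln13_14_7 ln13_14_7_ok) (L (nat_lit 396) ln13_15_7 ln13_15_7_ok))) (M (nat_lit 492) (B (L (nat_lit 460) ln13_11_5 ln13_11_5_ok) (L (nat_lit 524) ln13_12_5 ln13_12_5_ok))))) (M (nat_lit 333) (B (M (nat_lit 332) (B (L (nat_lit 300) ln13_13_7 ln13_13_7_ok) (L (nat_lit 364) ln13_14_7 ln13_14_7_ok))) (M (nat_lit 334) (B (L (nat_lit 302) ln13_13_6 ln13_13_6_ok) (L (nat_lit 366) ln13_14_6 ln13_14_6_ok))))))))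 c11_n19503)))))) (nat_lit 2426085982678494236891975984832188137007258925245052727377822572141626063897503372912082754669827799995234538520716021846945824768) (nat_lit 1002458769518839376718755026783482768073289624796800710148497018810232360689396335724155801185717866412420031881218205260340592694230897465988947025791978750688796606464) (nat_lit 1002458769518839376718755026783482768073289624796800710148497018810232360689396335724155801185717866412420031881218205260340592694230897465988947025791978750688796606464) (by decide +kernel)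
theorem c11_s19507 : Sem (nat_lit 2079502270913392379444674211814302674077704290823075655481512624564798400421800170032085953906810352733060637150540575368324055040) (nat_lit 54918381300224900991252406138323887175845764311547419089834376892658639086131567441020047068831682810168558016526698483462764127488298259721301244951314563072) (nat_lit 54918381300224900991252406138323887175845764311547419089834376892658639086131567441020047068831682810168558016526698483462764127488298259721301244951314563072) :=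
  sem_of_chk (M (nat_lit 427) (B (M (nat_lit 398) (B (L (nat_lit 426) ln10_13_2 ln10_13_2_ok) (M (nat_lit 399) (B (L (nat_lit 396) ln15_12_1 ln15_12_1_ok) (L (nat_lit 400) ln16_12_1 ln16_12_1_ok))))) (B (M (nat_lit 398) (B (L (nat_lit 426) ln10_13_2 ln10_13_2_ok) (M (nat_lit 399) (B (L (nat_lit 400) ln16_12_1 ln16_12_1_ok) (L (nat_lit 430) ln11_13_2 ln11_13_2_ok))))) (B (M (nat_lit 430) (B (M (nat_lit 395) (B (L (nat_lit 394) ln14_13_3 ln14_13_3_ok) (M (nat_lit 459) (B (L (nat_lit 458) ln14_13_1 ln14_13_1_ok) (M (nat_lit 431) (B (L (nat_lit 396) ln15_13_3 ln15_13_3_ok) (L (nat_lit 460) ln15_13_1 ln15_13_1_ok))))))) (B (M (nat_lit 431) (B (M (nat_lit 396) (B (L (nat_lit 395) ln15_13_3 ln15_13_3_ok) (L (nat_lit 432) ln16_13_3 ln16_13_3_ok))) (M (nat_lit 459) (B (L (nat_lit 458) ln14_13_1 ln14_13_1_ok) (L (nat_lit 460) ln15_13_1 ln15_13_1_ok))))) (B (M (nat_lit 460) (B (M (nat_lit 459) (B (L (nat_lit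 458) ln14_13_1 ln14_13_1_ok) (L (nat_lit 431) ln15_13_1 ln15_13_1_ok))) (M (nat_lit 365) (B (L (nat_lit 333) ln13_10_5 ln13_10_5_ok) (M (nat_lit 492) (B (L (nat_lit 396) ln12_15_6 ln12_15_6_ok) (L (nat_lit 524) ln12_16_6 ln12_16_6_ok))))))) (B (M (nat_lit 460) (B (M (nat_lit 459) (B (L (nat_lit 458) ln14_13_1 ln14_13_1_ok) (L (nat_lit 431) ln15_13_1 ln15_13_1_ok))) (M (nat_lit 365) (B (L (nat_lit 333) ln13_10_5 ln13_10_5_ok) (M (nat_lit 492) (B (L (nat_lit 461) ln13_11_5 ln13_11_5_ok) (L (nat_lit 524) ln12_16_6 ln12_16_6_ok))))))) (B (M (nat_lit 460) (B (M (nat_lit 365) (B (L (nat_lit 333) ln13_10_5 ln13_10_5_ok) (M (nat_lit 492) (B (L (nat_lit 396) ln12_15_6 ln12_15_6_ok) (L (nat_lit 524) ln12_16_6 ln12_16_6_ok))))) (B (M (nat_lit 492) (B (L (nat_lit 524) ln12_16_6 ln12_16_6_ok) (M (nat_lit 365) (B (L (nat_lit 396) ln12_15_6 ln12_15_6_ok) (L (nat_lit 461) ln13_11_5 ln13_11_5_ok))))) (B (M (nat_lit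 426) (B (M (nat_lit 425) (B (L (nat_lit 396) ln9_13_2 ln9_13_2_ok) (L (nat_lit 461) ln9_13_0 ln9_13_0_ok))) (M (nat_lit 458) (B (L (nat_lit 457) ln13_13_1 ln13_13_1_ok) (L (nat_lit 459) ln14_13_1 ln14_13_1_ok))))) (M (nat_lit 365) (B (L (nat_lit 333) ln13_10_5 ln13_10_5_ok) (M (nat_lit 492) (B (L (nat_lit 461) ln13_11_5 ln13_11_5_ok) (L (nat_lit 524) ln12_16_6 ln12_16_6_ok))))))))) (M (nat_lit 431) (B (M (nat_lit 395) (B (L (nat_lit 394) ln14_13_3 ln14_13_3_ok) (L (nat_lit 396) ln15_13_3 ln15_13_3_ok))) (B (M (nat_lit 396) (B (L (nat_lit 395) ln15_13_3 ln15_13_3_ok) (L (nat_lit 432) ln16_13_3 ln16_13_3_ok))) (B (M (nat_lit 432) (B (L (nat_lit 396) ln16_13_3 ln16_13_3_ok) (M (nat_lit 400) (B (L (nat_lit 399) ln12_13_2 ln12_13_2_ok) (L (nat_lit 401) ln13_13_2 ln13_13_2_ok))))) (M (nat_lit 432) (B (M (nat_lit 400) (B (L (nat_lit 399) ln12_13_2 ln12_13_2_ok) (L (nat_lit 401) ln13_13_2 ln13_13_2_ok)))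 (M (nat_lit 464) (B (L (nat_lit 463) ln12_13_0 ln12_13_0_ok) (L (nat_lit 465) ln13_13_0 ln13_13_0_ok))))))))))))))) (B (M (nat_lit 460) (B (M (nat_lit 492) (B (L (nat_lit 524) ln12_16_6 ln12_16_6_ok) (M (nat_lit 365) (B (L (nat_lit 333) ln13_10_5 ln13_10_5_ok) (L (nat_lit 461) ln13_11_5 ln13_11_5_ok))))) (B (M (nat_lit 492) (B (L (nat_lit 524) ln12_16_6 ln12_16_6_ok) (M (nat_lit 365) (B (L (nat_lit 396) ln12_15_6 ln12_15_6_ok) (L (nat_lit 461) ln13_11_5 ln13_11_5_ok))))) (B (M (nat_lit 426) (B (L (nat_lit 398) ln10_13_2 ln10_13_2_ok) (M (nat_lit 425) (B (L (nat_lit 396) ln9_13_2 ln9_13_2_ok) (L (nat_lit 461) ln9_13_0 ln9_13_0_ok))))) (M (nat_lit 492) (B (L (nat_lit 524) ln12_16_6 ln12_16_6_ok) (M (nat_lit 365) (B (L (nat_lit 333) ln13_10_5 ln13_10_5_ok) (L (nat_lit 396) ln12_15_6 ln12_15_6_ok))))))))) (M (nat_lit 430) (B (M (nat_lit 395) (B (L (nat_lit 394) ln14_13_3 ln14_13_3_ok) (M (nat_lit 459)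 (B (L (nat_lit 458) ln14_13_1 ln14_13_1_ok) (M (nat_lit 431) (B (L (nat_lit 396) ln15_13_3 ln15_13_3_ok) (L (nat_lit 460) ln15_13_1 ln15_13_1_ok))))))) (B (M (nat_lit 431) (B (M (nat_lit 396) (B (L (nat_lit 395) ln15_13_3 ln15_13_3_ok) (L (nat_lit 432) ln16_13_3 ln16_13_3_ok))) (M (nat_lit 459) (B (L (nat_lit 458) ln14_13_1 ln14_13_1_ok) (L (nat_lit 460) ln15_13_1 ln15_13_1_ok))))) (B (M (nat_lit 431) (B (M (nat_lit 399) (B (L (nat_lit 398) ln11_13_2 ln11_13_2_ok) (L (nat_lit 400) ln12_13_2 ln12_13_2_ok))) (M (nat_lit 459) (B (L (nat_lit 458) ln14_13_1 ln14_13_1_ok) (L (nat_lit 460) ln15_13_1 ln15_13_1_ok))))) (B (M (nat_lit 395) (B (L (nat_lit 394) ln14_13_3 ln14_13_3_ok) (M (nat_lit 396) (B (M (nat_lit 459) (B (L (nat_lit 458) ln14_13_1 ln14_13_1_ok) (M (nat_lit 364) (B (L (nat_lit 332) ln12_10_5 ln12_10_5_ok) (L (nat_lit 491) ln11_15_6 ln11_15_6_ok))))) (M (nat_lit 363) (B (M (nat_lit 331) (B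 (L (nat_lit 299) ln11_9_4 ln11_9_4_ok) (L (nat_lit 460) ln11_10_4 ln11_10_4_ok))) (M (nat_lit 398) (B (L (nat_lit 362) ln14_12_3 ln14_12_3_ok) (L (nat_lit 399) ln15_12_1 ln15_12_1_ok))))))))) (M (nat_lit 431) (B (M (nat_lit 395) (B (L (nat_lit 394) ln14_13_3 ln14_13_3_ok) (L (nat_lit 396) ln15_13_3 ln15_13_3_ok))) (M (nat_lit 399) (B (L (nat_lit 398) ln11_13_2 ln11_13_2_ok) (L (nat_lit 400) ln12_13_2 ln12_13_2_ok))))))))))))))) (nat_lit 2079502270913392379444674211814302674077704290823075655481512624564798400421800170032085953906810352733060637150540575368324055040) (nat_lit 54918381300224900991252406138323887175845764311547419089834376892658639086131567441020047068831682810168558016526698483462764127488298259721301244951314563072) (nat_lit 54918381300224900991252406138323887175845764311547419089834376892658639086131567441020047068831682810168558016526698483462764127488298259721301244951314563072)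 (by decide +kernel)
noncomputable def c11_n19575 : Cert := (M (nat_lit 365) (B (M (nat_lit 460) (B (L (nat_lit 333) ln13_10_5 ln13_10_5_ok) (M (nat_lit 492) (B (L (nat_lit 396) ln12_15_6 ln12_15_6_ok) (L (nat_lit 461) ln13_11_5 ln13_11_5_ok))))) (B (M (nat_lit 460) (B (M (nat_lit 492) (B (L (nat_lit 396) ln12_15_6 ln12_15_6_ok) (L (nat_lit 461) ln13_11_5 ln13_11_5_ok))) (B (M (nat_lit 492) (B (L (nat_lit 461) ln13_11_5 ln13_11_5_ok) (L (nat_lit 524) ln12_16_6 ln12_16_6_ok))) (B (M (nat_lit 492) (B (L (nat_lit 396) ln12_15_6 ln12_15_6_ok) (L (nat_lit 524) ln12_16_6 ln12_16_6_ok))) (M (nat_lit 364) (B (M (nat_lit 461) (B (L (nat_lit 332) ln13_14_7 ln13_14_7_ok) (M (nat_lit 493) (B (L (nat_lit 396) ln13_15_7 ln13_15_7_ok) (M (nat_lit 366) (B (L (nat_lit 334) ln13_14_6 ln13_14_6_ok) (L (nat_lit 398) ln13_15_6 ln13_15_6_ok))))))) (B (M (nat_lit 363) (B (M (nat_lit 398) (B (L (nat_lit 362) ln10_11_0 ln10_11_0_ok)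 (M (nat_lit 396) (B (L (nat_lit 331) ln12_14_7 ln12_14_7_ok) (L (nat_lit 399) ln15_12_3 ln15_12_3_ok))))) (B (M (nat_lit 398) (B (L (nat_lit 362) ln10_11_0 ln10_11_0_ok) (M (nat_lit 399) (B (L (nat_lit 366) ln11_11_0 ln11_11_0_ok) (L (nat_lit 396) ln15_12_3 ln15_12_3_ok))))) (B (M (nat_lit 366) (B (M (nat_lit 331) (B (L (nat_lit 330) ln14_11_3 ln14_11_3_ok) (L (nat_lit 396) ln12_14_7 ln12_14_7_ok))) (M (nat_lit 334) (B (L (nat_lit 335) ln11_11_2 ln11_11_2_ok) (L (nat_lit 461) ln13_14_6 ln13_14_6_ok))))) (M (nat_lit 398) (B (L (nat_lit 362) ln10_11_0 ln10_11_0_ok) (M (nat_lit 399) (B (L (nat_lit 366) ln11_11_0 ln11_11_0_ok) (L (nat_lit 400) ln16_12_3 ln16_12_3_ok))))))))) (B (M (nat_lit 332) (B (L (nat_lit 461) ln13_14_7 ln13_14_7_ok) (M (nat_lit 396) (B (L (nat_lit 300) ln12_9_4 ln12_9_4_ok) (M (nat_lit 459) (B (L (nat_lit 427) ln12_10_5 ln12_10_5_ok) (L (nat_lit 491) ln12_11_5 ln12_11_5_ok)))))))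 (B (M (nat_lit 398) (B (M (nat_lit 399) (B (L (nat_lit 400) ln16_12_3 ln16_12_3_ok) (M (nat_lit 363) (B (L (nat_lit 362) ln10_11_0 ln10_11_0_ok) (L (nat_lit 366) ln11_11_0 ln11_11_0_ok))))) (B (M (nat_lit 399) (B (L (nat_lit 400) ln16_12_3 ln16_12_3_ok) (M (nat_lit 427) (B (L (nat_lit 426) ln10_13_2 ln10_13_2_ok) (L (nat_lit 430) ln11_13_2 ln11_13_2_ok))))) (M (nat_lit 461) (B (L (nat_lit 332) ln13_14_7 ln13_14_7_ok) (M (nat_lit 366) (B (L (nat_lit 334) ln13_14_6 ln13_14_6_ok) (L (nat_lit 493) ln13_15_6 ln13_15_6_ok)))))))) (M (nat_lit 396) (B (M (nat_lit 459) (B (L (nat_lit 491) ln12_11_5 ln12_11_5_ok) (M (nat_lit 332) (B (L (nat_lit 300) ln12_9_4 ln12_9_4_ok) (L (nat_lit 427) ln12_10_5 ln12_10_5_ok))))) (M (nat_lit 363) (B (L (nat_lit 331) ln12_14_7 ln12_14_7_ok) (M (nat_lit 362) (B (L (nat_lit 361) ln9_11_0 ln9_11_0_ok) (L (nat_lit 398) ln10_11_0 ln10_11_0_ok)))))))))))))))) (B (M (nat_lit 460)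 (B (L (nat_lit 333) ln13_10_5 ln13_10_5_ok) (M (nat_lit 492) (B (L (nat_lit 461) ln13_11_5 ln13_11_5_ok) (L (nat_lit 524) ln12_16_6 ln12_16_6_ok))))) (B (M (nat_lit 333) (B (M (nat_lit 301) (B (L (nat_lit 396) ln13_9_5 ln13_9_5_ok) (M (nat_lit 302) (B (L (nat_lit 270) ln13_12_6 ln13_12_6_ok) (L (nat_lit 334) ln13_13_6 ln13_13_6_ok))))) (B (M (nat_lit 301) (B (L (nat_lit 396) ln13_9_5 ln13_9_5_ok) (M (nat_lit 300) (B (L (nat_lit 268) ln13_12_7 ln13_12_7_ok) (L (nat_lit 332) ln13_13_7 ln13_13_7_ok))))) (M (nat_lit 461) (B (M (nat_lit 332) (B (L (nat_lit 300) ln13_13_7 ln13_13_7_ok) (L (nat_lit 364) ln13_14_7 ln13_14_7_ok))) (M (nat_lit 334) (B (L (nat_lit 302) ln13_13_6 ln13_13_6_ok) (L (nat_lit 366) ln13_14_6 ln13_14_6_ok)))))))) (M (nat_lit 460) (B (L (nat_lit 333) ln13_10_5 ln13_10_5_ok) (M (nat_lit 492) (B (L (nat_lit 396) ln12_15_6 ln12_15_6_ok) (L (nat_lit 524) ln12_16_6 ln12_16_6_ok))))))))))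
noncomputable def c11_n19606 : Cert := (M (nat_lit 430) (B (M (nat_lit 431) (B (M (nat_lit 399) (B (L (nat_lit 398) ln11_13_2 ln11_13_2_ok) (L (nat_lit 400) ln12_13_2 ln12_13_2_ok))) (M (nat_lit 459) (B (L (nat_lit 458) ln14_13_1 ln14_13_1_ok) (L (nat_lit 460) ln15_13_1 ln15_13_1_ok))))) (B (M (nat_lit 460) (B (M (nat_lit 459) (B (L (nat_lit 458) ln14_13_1 ln14_13_1_ok) (L (nat_lit 431) ln15_13_1 ln15_13_1_ok))) (M (nat_lit 365) (B (L (nat_lit 333) ln13_10_5 ln13_10_5_ok) (M (nat_lit 492) (B (L (nat_lit 461) ln13_11_5 ln13_11_5_ok) (L (nat_lit 524) ln12_16_6 ln12_16_6_ok))))))) (B (M (nat_lit 395) (B (L (nat_lit 394) ln14_13_3 ln14_13_3_ok) (M (nat_lit 365) (B (M (nat_lit 460) (B (L (nat_lit 333) ln13_10_5 ln13_10_5_ok) (M (nat_lit 492) (B (L (nat_lit 461) ln13_11_5 ln13_11_5_ok) (L (nat_lit 524) ln12_16_7 ln12_16_7_ok))))) (B (M (nat_lit 363) (B (M (nat_lit 460) (B (L (nat_lit 331) ln11_10_4 ln11_10_4_ok)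 (M (nat_lit 459) (B (L (nat_lit 492) ln11_11_4 ln11_11_4_ok) (L (nat_lit 458) ln14_13_1 ln14_13_1_ok))))) (B (M (nat_lit 364) (B (M (nat_lit 459) (B (L (nat_lit 332) ln11_14_6 ln11_14_6_ok) (L (nat_lit 458) ln14_13_1 ln14_13_1_ok))) (M (nat_lit 398) (B (L (nat_lit 362) ln10_11_0 ln10_11_0_ok) (L (nat_lit 399) ln11_13_2 ln11_13_2_ok))))) (B (M (nat_lit 460) (B (L (nat_lit 331) ln11_10_4 ln11_10_4_ok) (M (nat_lit 492) (B (L (nat_lit 459) ln11_11_4 ln11_11_4_ok) (L (nat_lit 461) ln13_11_5 ln13_11_5_ok))))) (M (nat_lit 460) (B (L (nat_lit 331) ln11_10_4 ln11_10_4_ok) (M (nat_lit 492) (B (L (nat_lit 461) ln13_11_5 ln13_11_5_ok) (L (nat_lit 524) ln12_16_7 ln12_16_7_ok))))))))) (B (M (nat_lit 461) (B (M (nat_lit 398) (B (L (nat_lit 399) ln11_13_2 ln11_13_2_ok) (M (nat_lit 366) (B (L (nat_lit 334) ln13_14_6 ln13_14_6_ok) (L (nat_lit 493) ln13_15_6 ln13_15_6_ok))))) (B (M (nat_lit 333) (B (M (nat_lit 332)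 (B (L (nat_lit 300) ln13_13_7 ln13_13_7_ok) (L (nat_lit 364) ln13_14_7 ln13_14_7_ok))) (M (nat_lit 398) (B (L (nat_lit 301) ln13_9_4 ln13_9_4_ok) (L (nat_lit 399) ln11_13_2 ln11_13_2_ok))))) (M (nat_lit 333) (B (M (nat_lit 332) (B (L (nat_lit 300) ln13_13_7 ln13_13_7_ok) (L (nat_lit 364) ln13_14_7 ln13_14_7_ok))) (M (nat_lit 334) (B (L (nat_lit 302) ln13_13_6 ln13_13_6_ok) (L (nat_lit 366) ln13_14_6 ln13_14_6_ok)))))))) (M (nat_lit 333) (B (L (nat_lit 460) ln13_10_5 ln13_10_5_ok) (M (nat_lit 398) (B (L (nat_lit 301) ln13_9_4 ln13_9_4_ok) (L (nat_lit 399) ln11_13_2 ln11_13_2_ok))))))))))) (B (M (nat_lit 431) (B (M (nat_lit 399) (B (L (nat_lit 398) ln11_13_2 ln11_13_2_ok) (L (nat_lit 400) ln12_13_2 ln12_13_2_ok))) (M (nat_lit 432) (B (M (nat_lit 460) (B (L (nat_lit 459) ln15_13_1 ln15_13_1_ok) (L (nat_lit 461) ln16_13_1 ln16_13_1_ok))) (M (nat_lit 464) (B (L (nat_lit 463) ln12_13_0 ln12_13_0_ok) (L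 (nat_lit 465) ln13_13_0 ln13_13_0_ok))))))) (M (nat_lit 431) (B (M (nat_lit 399) (B (L (nat_lit 398) ln11_13_2 ln11_13_2_ok) (L (nat_lit 400) ln12_13_2 ln12_13_2_ok))) (B (M (nat_lit 432) (B (M (nat_lit 400) (B (L (nat_lit 399) ln12_13_2 ln12_13_2_ok) (L (nat_lit 401) ln13_13_2 ln13_13_2_ok))) (M (nat_lit 464) (B (L (nat_lit 463) ln12_13_0 ln12_13_0_ok) (L (nat_lit 465) ln13_13_0 ln13_13_0_ok))))) (B (M (nat_lit 432) (B (M (nat_lit 464) (B (L (nat_lit 463) ln12_13_0 ln12_13_0_ok) (L (nat_lit 465) ln13_13_0 ln13_13_0_ok))) (M (nat_lit 401) (B (L (nat_lit 400) ln13_13_2 ln13_13_2_ok) (M (nat_lit 433) (B (L (nat_lit 398) ln17_13_3 ln17_13_3_ok) (L (nat_lit 402) ln14_13_2 ln14_13_2_ok))))))) (M (nat_lit 432) (B (M (nat_lit 398) (B (L (nat_lit 433) ln17_13_3 ln17_13_3_ok) (L (nat_lit 399) ln11_13_2 ln11_13_2_ok))) (M (nat_lit 464) (B (L (nat_lit 463) ln12_13_0 ln12_13_0_ok) (L (nat_lit 465) ln13_13_0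 ln13_13_0_ok))))))))))))))
theorem c11_s19607 : Sem (nat_lit 2079502270913392379444674211814302674077704290823075655481512624564798400421800170032085953906810352733060637150540575368324055040) (nat_lit 54918381319404924084579933143533453482839993501389788969444894840118214705914615060654222908286993484586815872366718224432182085182229007144733228877733691392) (nat_lit 54918381319404924084579933143533453482839993501389788969444894840118214705914615060654222908286993484586815872366718224432182085182229007144733228877733691392) :=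
  sem_of_chk (M (nat_lit 427) (B (M (nat_lit 398) (B (L (nat_lit 426) ln10_13_2 ln10_13_2_ok) (M (nat_lit 399) (B (L (nat_lit 400) ln16_12_1 ln16_12_1_ok) (L (nat_lit 430) ln11_13_2 ln11_13_2_ok))))) (B (M (nat_lit 460) (B (M (nat_lit 492) (B (L (nat_lit 524) ln12_16_6 ln12_16_6_ok) (M (nat_lit 365) (B (L (nat_lit 333) ln13_10_5 ln13_10_5_ok) (L (nat_lit 461) ln13_11_5 ln13_11_5_ok))))) (B (M (nat_lit 395) (B (M (nat_lit 430) (B (L (nat_lit 394) ln14_13_3 ln14_13_3_ok) (M (nat_lit 459) (B (L (nat_lit 458) ln14_13_1 ln14_13_1_ok) (L (nat_lit 431) ln15_13_1 ln15_13_1_ok))))) (B (M (nat_lit 492) (B (L (nat_lit 524) ln12_16_7 ln12_16_7_ok) (M (nat_lit 363) (B (L (nat_lit 331) ln11_10_4 ln11_10_4_ok) (L (nat_lit 459) ln11_11_4 ln11_11_4_ok))))) (M (nat_lit 394) (B (L (nat_lit 430) ln14_13_3 ln14_13_3_ok) (M (nat_lit 393) (B (L (nat_lit 392) ln8_12_0 ln8_12_0_ok) (L (nat_lit 426) ln13_13_3 ln13_13_3_ok))))))))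 (M (nat_lit 426) (B (M (nat_lit 425) (B (L (nat_lit 461) ln9_13_0 ln9_13_0_ok) (M (nat_lit 457) (B (L (nat_lit 456) ln12_13_1 ln12_13_1_ok) (L (nat_lit 458) ln13_13_1 ln13_13_1_ok))))) (B (M (nat_lit 430) (B (M (nat_lit 394) (B (L (nat_lit 393) ln13_13_3 ln13_13_3_ok) (L (nat_lit 395) ln14_13_3 ln14_13_3_ok))) (M (nat_lit 458) (B (L (nat_lit 457) ln13_13_1 ln13_13_1_ok) (L (nat_lit 459) ln14_13_1 ln14_13_1_ok))))) (M (nat_lit 425) (B (L (nat_lit 461) ln9_13_0 ln9_13_0_ok) (M (nat_lit 393) (B (L (nat_lit 392) ln12_13_3 ln12_13_3_ok) (L (nat_lit 394) ln13_13_3 ln13_13_3_ok))))))))))) (B c11_n19606 (M (nat_lit 426) (B (L (nat_lit 398) ln10_13_2 ln10_13_2_ok) (M (nat_lit 425) (B (M (nat_lit 393) (B (L (nat_lit 392) ln12_13_3 ln12_13_3_ok) (L (nat_lit 394) ln13_13_3 ln13_13_3_ok))) (M (nat_lit 457) (B (L (nat_lit 456) ln12_13_1 ln12_13_1_ok) (L (nat_lit 458) ln13_13_1 ln13_13_1_ok))))))))))) (nat_lit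 2079502270913392379444674211814302674077704290823075655481512624564798400421800170032085953906810352733060637150540575368324055040) (nat_lit 54918381319404924084579933143533453482839993501389788969444894840118214705914615060654222908286993484586815872366718224432182085182229007144733228877733691392) (nat_lit 54918381319404924084579933143533453482839993501389788969444894840118214705914615060654222908286993484586815872366718224432182085182229007144733228877733691392) (by decide +kernel)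
noncomputable def c11_n19627 : Cert := (M (nat_lit 395) (B (M (nat_lit 430) (B (L (nat_lit 394) ln14_13_3 ln14_13_3_ok) (M (nat_lit 459) (B (L (nat_lit 458) ln14_13_1 ln14_13_1_ok) (M (nat_lit 431) (B (L (nat_lit 396) ln15_13_3 ln15_13_3_ok) (L (nat_lit 460) ln15_13_1 ln15_13_1_ok))))))) (B (M (nat_lit 460) (B (M (nat_lit 492) (B (L (nat_lit 524) ln12_16_7 ln12_16_7_ok) (M (nat_lit 365) (B (L (nat_lit 333) ln13_10_5 ln13_10_5_ok) (L (nat_lit 461) ln13_11_5 ln13_11_5_ok))))) (B (M (nat_lit 492) (B (L (nat_lit 524) ln12_16_7 ln12_16_7_ok) (M (nat_lit 365) (B (L (nat_lit 396) ln12_15_6 ln12_15_6_ok) (L (nat_lit 461) ln13_11_5 ln13_11_5_ok))))) (B (M (nat_lit 492) (B (L (nat_lit 524) ln12_16_7 ln12_16_7_ok) (M (nat_lit 363) (B (L (nat_lit 331) ln11_10_4 ln11_10_4_ok) (L (nat_lit 396) ln12_15_7 ln12_15_7_ok))))) (M (nat_lit 458) (B (M (nat_lit 457) (B (L (nat_lit 426) ln13_13_1 ln13_13_1_ok) (L (nat_lit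 459) ln9_14_2 ln9_14_2_ok))) (B (M (nat_lit 459) (B (L (nat_lit 430) ln14_13_1 ln14_13_1_ok) (L (nat_lit 457) ln9_14_2 ln9_14_2_ok))) (B (M (nat_lit 459) (B (L (nat_lit 430) ln14_13_1 ln14_13_1_ok) (M (nat_lit 363) (B (L (nat_lit 331) ln11_10_4 ln11_10_4_ok) (L (nat_lit 490) ln11_11_5 ln11_11_5_ok))))) (M (nat_lit 426) (B (L (nat_lit 457) ln13_13_1 ln13_13_1_ok) (M (nat_lit 425) (B (L (nat_lit 396) ln9_13_2 ln9_13_2_ok) (L (nat_lit 461) ln9_13_0 ln9_13_0_ok))))))))))))) (B (M (nat_lit 460) (B (M (nat_lit 492) (B (L (nat_lit 524) ln12_16_7 ln12_16_7_ok) (M (nat_lit 365) (B (L (nat_lit 333) ln13_10_5 ln13_10_5_ok) (L (nat_lit 461) ln13_11_5 ln13_11_5_ok))))) (M (nat_lit 430) (B (L (nat_lit 394) ln14_13_3 ln14_13_3_ok) (M (nat_lit 459) (B (L (nat_lit 458) ln14_13_1 ln14_13_1_ok) (L (nat_lit 431) ln15_13_1 ln15_13_1_ok))))))) (B (M (nat_lit 363) (B (M (nat_lit 460) (B (L (nat_lit 331) ln11_10_4 ln11_10_4_ok)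 (M (nat_lit 492) (B (L (nat_lit 396) ln12_15_7 ln12_15_7_ok) (L (nat_lit 459) ln11_11_4 ln11_11_4_ok))))) (B (M (nat_lit 426) (B (M (nat_lit 425) (B (L (nat_lit 396) ln9_13_2 ln9_13_2_ok) (M (nat_lit 457) (B (L (nat_lit 456) ln12_13_1 ln12_13_1_ok) (L (nat_lit 458) ln13_13_1 ln13_13_1_ok))))) (B (M (nat_lit 458) (B (L (nat_lit 457) ln13_13_1 ln13_13_1_ok) (M (nat_lit 490) (B (L (nat_lit 394) ln10_15_6 ln10_15_6_ok) (L (nat_lit 459) ln11_11_5 ln11_11_5_ok))))) (M (nat_lit 460) (B (M (nat_lit 396) (B (L (nat_lit 492) ln12_15_7 ln12_15_7_ok) (L (nat_lit 425) ln9_13_2 ln9_13_2_ok))) (B (M (nat_lit 492) (B (L (nat_lit 459) ln11_11_4 ln11_11_4_ok) (L (nat_lit 524) ln12_16_7 ln12_16_7_ok))) (M (nat_lit 425) (B (L (nat_lit 396) ln9_13_2 ln9_13_2_ok) (L (nat_lit 461) ln9_13_0 ln9_13_0_ok))))))))) (B (M (nat_lit 460) (B (L (nat_lit 331) ln11_10_4 ln11_10_4_ok) (M (nat_lit 492) (B (L (nat_lit 459) ln11_11_4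 ln11_11_4_ok) (L (nat_lit 524) ln12_16_7 ln12_16_7_ok))))) (B (M (nat_lit 460) (B (L (nat_lit 331) ln11_10_4 ln11_10_4_ok) (M (nat_lit 492) (B (L (nat_lit 396) ln12_15_7 ln12_15_7_ok) (L (nat_lit 524) ln12_16_7 ln12_16_7_ok))))) (M (nat_lit 459) (B (M (nat_lit 458) (B (L (nat_lit 490) ln11_11_5 ln11_11_5_ok) (M (nat_lit 426) (B (L (nat_lit 331) ln11_10_5 ln11_10_5_ok) (L (nat_lit 457) ln13_13_1 ln13_13_1_ok))))) (M (nat_lit 491) (B (M (nat_lit 362) (B (L (nat_lit 330) ln11_14_7 ln11_14_7_ok) (L (nat_lit 394) ln11_15_7 ln11_15_7_ok))) (M (nat_lit 364) (B (L (nat_lit 332) ln11_14_6 ln11_14_6_ok) (L (nat_lit 396) ln11_15_6 ln11_15_6_ok)))))))))))) (B (M (nat_lit 460) (B (M (nat_lit 492) (B (L (nat_lit 524) ln12_16_7 ln12_16_7_ok) (M (nat_lit 365) (B (L (nat_lit 333) ln13_10_5 ln13_10_5_ok) (L (nat_lit 461) ln13_11_5 ln13_11_5_ok))))) (B (M (nat_lit 492) (B (L (nat_lit 524) ln12_16_7 ln12_16_7_ok) (M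 (nat_lit 365) (B (L (nat_lit 396) ln12_15_6 ln12_15_6_ok) (L (nat_lit 461) ln13_11_5 ln13_11_5_ok))))) (M (nat_lit 430) (B (L (nat_lit 394) ln14_13_3 ln14_13_3_ok) (M (nat_lit 431) (B (L (nat_lit 396) ln15_13_3 ln15_13_3_ok) (L (nat_lit 459) ln15_13_1 ln15_13_1_ok)))))))) (M (nat_lit 426) (B (M (nat_lit 396) (B (L (nat_lit 425) ln9_13_2 ln9_13_2_ok) (M (nat_lit 430) (B (L (nat_lit 394) ln10_12_0 ln10_12_0_ok) (L (nat_lit 431) ln15_13_3 ln15_13_3_ok))))) (B (M (nat_lit 425) (B (L (nat_lit 396) ln9_13_2 ln9_13_2_ok) (M (nat_lit 457) (B (L (nat_lit 456) ln12_13_1 ln12_13_1_ok) (L (nat_lit 458) ln13_13_1 ln13_13_1_ok))))) (M (nat_lit 458) (B (L (nat_lit 457) ln13_13_1 ln13_13_1_ok) (M (nat_lit 363) (B (L (nat_lit 331) ln11_10_5 ln11_10_5_ok) (M (nat_lit 394) (B (L (nat_lit 490) ln10_15_6 ln10_15_6_ok) (L (nat_lit 430) ln14_13_3 ln14_13_3_ok))))))))))))))))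
noncomputable def c11_n19629 : Cert := (M (nat_lit 395) (B (M (nat_lit 394) (B (L (nat_lit 430) ln14_13_3 ln14_13_3_ok) (M (nat_lit 393) (B (L (nat_lit 392) ln8_12_0 ln8_12_0_ok) (L (nat_lit 396) ln9_12_0 ln9_12_0_ok))))) (B (M (nat_lit 430) (B (L (nat_lit 394) ln14_13_3 ln14_13_3_ok) (M (nat_lit 459) (B (L (nat_lit 458) ln14_13_1 ln14_13_1_ok) (M (nat_lit 431) (B (L (nat_lit 396) ln15_13_3 ln15_13_3_ok) (L (nat_lit 460) ln15_13_1 ln15_13_1_ok))))))) (B (M (nat_lit 459) (B (M (nat_lit 430) (B (L (nat_lit 458) ln14_13_1 ln14_13_1_ok) (M (nat_lit 431) (B (L (nat_lit 396) ln15_13_3 ln15_13_3_ok) (L (nat_lit 460) ln15_13_1 ln15_13_1_ok))))) (B (M (nat_lit 460) (B (M (nat_lit 363) (B (L (nat_lit 331) ln11_10_4 ln11_10_4_ok) (L (nat_lit 492) ln11_11_4 ln11_11_4_ok))) (M (nat_lit 458) (B (L (nat_lit 430) ln14_13_1 ln14_13_1_ok) (L (nat_lit 457) ln9_14_2 ln9_14_2_ok))))) (B (M (nat_lit 460) (B (M (nat_lit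 363) (B (L (nat_lit 331) ln11_10_4 ln11_10_4_ok) (L (nat_lit 492) ln11_11_4 ln11_11_4_ok))) (B (M (nat_lit 492) (B (L (nat_lit 363) ln11_11_4 ln11_11_4_ok) (L (nat_lit 524) ln12_16_7 ln12_16_7_ok))) (B (M (nat_lit 492) (B (L (nat_lit 524) ln12_16_7 ln12_16_7_ok) (M (nat_lit 365) (B (L (nat_lit 333) ln13_10_5 ln13_10_5_ok) (L (nat_lit 396) ln12_15_6 ln12_15_6_ok))))) (M (nat_lit 363) (B (L (nat_lit 331) ln11_10_4 ln11_10_4_ok) (M (nat_lit 458) (B (L (nat_lit 490) ln11_11_5 ln11_11_5_ok) (L (nat_lit 457) ln9_14_2 ln9_14_2_ok))))))))) (B (M (nat_lit 363) (B (M (nat_lit 460) (B (L (nat_lit 331) ln11_10_4 ln11_10_4_ok) (L (nat_lit 492) ln11_11_4 ln11_11_4_ok))) (B (M (nat_lit 491) (B (M (nat_lit 364) (B (L (nat_lit 332) ln11_14_6 ln11_14_6_ok) (L (nat_lit 396) ln11_15_6 ln11_15_6_ok))) (M (nat_lit 492) (B (L (nat_lit 460) ln11_11_4 ln11_11_4_ok) (L (nat_lit 524) ln11_12_4 ln11_12_4_ok))))) (M (nat_lit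 331) (B (M (nat_lit 330) (B (L (nat_lit 298) ln11_13_7 ln11_13_7_ok) (L (nat_lit 362) ln11_14_7 ln11_14_7_ok))) (M (nat_lit 332) (B (L (nat_lit 300) ln11_13_6 ln11_13_6_ok) (L (nat_lit 364) ln11_14_6 ln11_14_6_ok)))))))) (M (nat_lit 396) (B (M (nat_lit 364) (B (L (nat_lit 332) ln12_10_5 ln12_10_5_ok) (L (nat_lit 491) ln11_15_6 ln11_15_6_ok))) (M (nat_lit 430) (B (L (nat_lit 431) ln15_13_3 ln15_13_3_ok) (L (nat_lit 458) ln14_13_1 ln14_13_1_ok)))))))))) (B (M (nat_lit 460) (B (M (nat_lit 492) (B (L (nat_lit 524) ln12_16_7 ln12_16_7_ok) (M (nat_lit 365) (B (L (nat_lit 333) ln13_10_5 ln13_10_5_ok) (L (nat_lit 461) ln13_11_5 ln13_11_5_ok))))) (M (nat_lit 430) (B (L (nat_lit 394) ln14_13_3 ln14_13_3_ok) (M (nat_lit 459) (B (L (nat_lit 458) ln14_13_1 ln14_13_1_ok) (L (nat_lit 431) ln15_13_1 ln15_13_1_ok))))))) (M (nat_lit 363) (B (M (nat_lit 460) (B (L (nat_lit 331) ln11_10_4 ln11_10_4_ok) (M (nat_lit 492)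 (B (L (nat_lit 396) ln12_15_7 ln12_15_7_ok) (L (nat_lit 459) ln11_11_4 ln11_11_4_ok))))) (B (M (nat_lit 459) (B (M (nat_lit 460) (B (L (nat_lit 492) ln11_11_4 ln11_11_4_ok) (M (nat_lit 458) (B (L (nat_lit 490) ln11_11_5 ln11_11_5_ok) (L (nat_lit 457) ln9_14_2 ln9_14_2_ok))))) (B (M (nat_lit 491) (B (M (nat_lit 362) (B (L (nat_lit 330) ln11_14_7 ln11_14_7_ok) (L (nat_lit 394) ln11_15_7 ln11_15_7_ok))) (M (nat_lit 492) (B (L (nat_lit 460) ln11_11_4 ln11_11_4_ok) (L (nat_lit 524) ln11_12_4 ln11_12_4_ok))))) (M (nat_lit 491) (B (M (nat_lit 362) (B (L (nat_lit 330) ln11_14_7 ln11_14_7_ok) (L (nat_lit 394) ln11_15_7 ln11_15_7_ok))) (M (nat_lit 490) (B (L (nat_lit 458) ln11_11_5 ln11_11_5_ok) (L (nat_lit 522) ln11_12_5 ln11_12_5_ok)))))))) (B (M (nat_lit 460) (B (L (nat_lit 331) ln11_10_4 ln11_10_4_ok) (M (nat_lit 492) (B (L (nat_lit 396) ln12_15_7 ln12_15_7_ok) (L (nat_lit 524) ln12_16_7 ln12_16_7_ok)))))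 (M (nat_lit 459) (B (M (nat_lit 491) (B (M (nat_lit 364) (B (L (nat_lit 332) ln11_14_6 ln11_14_6_ok) (L (nat_lit 396) ln11_15_6 ln11_15_6_ok))) (M (nat_lit 490) (B (L (nat_lit 458) ln11_11_5 ln11_11_5_ok) (L (nat_lit 522) ln11_12_5 ln11_12_5_ok))))) (B (M (nat_lit 491) (B (M (nat_lit 362) (B (L (nat_lit 330) ln11_14_7 ln11_14_7_ok) (L (nat_lit 394) ln11_15_7 ln11_15_7_ok))) (M (nat_lit 490) (B (L (nat_lit 458) ln11_11_5 ln11_11_5_ok) (L (nat_lit 522) ln11_12_5 ln11_12_5_ok))))) (B (M (nat_lit 491) (B (M (nat_lit 362) (B (L (nat_lit 330) ln11_14_7 ln11_14_7_ok) (L (nat_lit 394) ln11_15_7 ln11_15_7_ok))) (M (nat_lit 364) (B (L (nat_lit 332) ln11_14_6 ln11_14_6_ok) (L (nat_lit 396) ln11_15_6 ln11_15_6_ok))))) (M (nat_lit 331) (B (M (nat_lit 330) (B (L (nat_lit 298) ln11_13_7 ln11_13_7_ok) (L (nat_lit 362) ln11_14_7 ln11_14_7_ok))) (M (nat_lit 332) (B (L (nat_lit 300) ln11_13_6 ln11_13_6_ok) (L (nat_lit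 364) ln11_14_6 ln11_14_6_ok))))))))))))))))))
theorem c11_s19668 : Sem (nat_lit 2079502270913392379444674211814302674077704290823075655481512624564798400421800170032085953906810352733060637150540575368324055040) (nat_lit 117936325871780334524151313172660183341992406080951246353853514948716826115744551461075888734675467882347592977084088197171804389499917121241841832958323867100618162176) (nat_lit 117936325871780334524151313172660183341992406080951246353853514948716826115744551461075888734675467882347592977084088197171804389499917121241841832958323867100618162176) :=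
  sem_of_chk (M (nat_lit 427) (B (M (nat_lit 426) (B (M (nat_lit 393) (B (L (nat_lit 394) ln13_13_3 ln13_13_3_ok) (M (nat_lit 425) (B (L (nat_lit 392) ln12_13_3 ln12_13_3_ok) (L (nat_lit 396) ln9_13_2 ln9_13_2_ok))))) (B (M (nat_lit 425) (B (L (nat_lit 396) ln9_13_2 ln9_13_2_ok) (M (nat_lit 457) (B (L (nat_lit 456) ln12_13_1 ln12_13_1_ok) (L (nat_lit 458) ln13_13_1 ln13_13_1_ok))))) (M (nat_lit 430) (B (M (nat_lit 394) (B (L (nat_lit 393) ln13_13_3 ln13_13_3_ok) (L (nat_lit 395) ln14_13_3 ln14_13_3_ok))) (M (nat_lit 458) (B (L (nat_lit 457) ln13_13_1 ln13_13_1_ok) (L (nat_lit 459) ln14_13_1 ln14_13_1_ok)))))))) (B (M (nat_lit 460) (B (M (nat_lit 492) (B (L (nat_lit 524) ln12_16_6 ln12_16_6_ok) (M (nat_lit 365) (B (L (nat_lit 333) ln13_10_5 ln13_10_5_ok) (L (nat_lit 461) ln13_11_5 ln13_11_5_ok))))) (B (M (nat_lit 492) (B (L (nat_lit 524) ln12_16_6 ln12_16_6_ok) (M (nat_lit 365) (B (L (nat_lit 396)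 ln12_15_6 ln12_15_6_ok) (L (nat_lit 461) ln13_11_5 ln13_11_5_ok))))) (B (M (nat_lit 430) (B (M (nat_lit 459) (B (L (nat_lit 458) ln14_13_1 ln14_13_1_ok) (L (nat_lit 431) ln15_13_1 ln15_13_1_ok))) (M (nat_lit 426) (B (M (nat_lit 394) (B (L (nat_lit 393) ln13_13_3 ln13_13_3_ok) (L (nat_lit 395) ln14_13_3 ln14_13_3_ok))) (M (nat_lit 425) (B (L (nat_lit 396) ln9_13_2 ln9_13_2_ok) (L (nat_lit 461) ln9_13_0 ln9_13_0_ok))))))) (M (nat_lit 492) (B (L (nat_lit 524) ln12_16_6 ln12_16_6_ok) (M (nat_lit 365) (B (L (nat_lit 333) ln13_10_5 ln13_10_5_ok) (L (nat_lit 396) ln12_15_6 ln12_15_6_ok))))))))) (B c11_n19627 (B (M (nat_lit 460) (B (M (nat_lit 492) (B (L (nat_lit 524) ln12_16_6 ln12_16_6_ok) (M (nat_lit 365) (B (L (nat_lit 333) ln13_10_5 ln13_10_5_ok) (L (nat_lit 461) ln13_11_5 ln13_11_5_ok))))) (B (M (nat_lit 492) (B (L (nat_lit 524) ln12_16_6 ln12_16_6_ok) (M (nat_lit 365) (B (L (nat_lit 396) ln12_15_6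 ln12_15_6_ok) (L (nat_lit 461) ln13_11_5 ln13_11_5_ok))))) (B (M (nat_lit 492) (B (L (nat_lit 524) ln12_16_6 ln12_16_6_ok) (M (nat_lit 459) (B (M (nat_lit 458) (B (L (nat_lit 430) ln14_13_1 ln14_13_1_ok) (L (nat_lit 457) ln9_14_2 ln9_14_2_ok))) (M (nat_lit 491) (B (M (nat_lit 523) (B (L (nat_lit 396) ln11_16_6 ln11_16_6_ok) (L (nat_lit 555) ln11_17_6 ln11_17_6_ok))) (M (nat_lit 490) (B (M (nat_lit 395) (B (L (nat_lit 363) ln11_11_4 ln11_11_4_ok) (L (nat_lit 522) ln11_12_5 ln11_12_5_ok))) (M (nat_lit 489) (B (L (nat_lit 488) ln8_15_2 ln8_15_2_ok) (L (nat_lit 461) ln9_15_2 ln9_15_2_ok))))))))))) (B (M (nat_lit 492) (B (L (nat_lit 524) ln12_16_6 ln12_16_6_ok) (M (nat_lit 365) (B (L (nat_lit 333) ln13_10_5 ln13_10_5_ok) (L (nat_lit 396) ln12_15_6 ln12_15_6_ok))))) (M (nat_lit 458) (B (M (nat_lit 457) (B (L (nat_lit 426) ln13_13_1 ln13_13_1_ok) (L (nat_lit 459) ln9_14_2 ln9_14_2_ok))) (B (M (nat_lit 459)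 (B (L (nat_lit 430) ln14_13_1 ln14_13_1_ok) (L (nat_lit 457) ln9_14_2 ln9_14_2_ok))) (B (M (nat_lit 459) (B (L (nat_lit 430) ln14_13_1 ln14_13_1_ok) (M (nat_lit 491) (B (M (nat_lit 523) (B (L (nat_lit 396) ln11_16_6 ln11_16_6_ok) (L (nat_lit 555) ln11_17_6 ln11_17_6_ok))) (M (nat_lit 490) (B (M (nat_lit 395) (B (L (nat_lit 363) ln11_11_5 ln11_11_5_ok) (L (nat_lit 522) ln11_12_5 ln11_12_5_ok))) (M (nat_lit 489) (B (L (nat_lit 461) ln13_14_1 ln13_14_1_ok) (L (nat_lit 488) ln8_15_2 ln8_15_2_ok))))))))) (M (nat_lit 426) (B (L (nat_lit 457) ln13_13_1 ln13_13_1_ok) (M (nat_lit 425) (B (L (nat_lit 396) ln9_13_2 ln9_13_2_ok) (L (nat_lit 461) ln9_13_0 ln9_13_0_ok)))))))))))))) (B (M (nat_lit 426) (B (M (nat_lit 425) (B (L (nat_lit 396) ln9_13_2 ln9_13_2_ok) (M (nat_lit 457) (B (L (nat_lit 456) ln12_13_1 ln12_13_1_ok) (L (nat_lit 458) ln13_13_1 ln13_13_1_ok))))) (B (M (nat_lit 425) (B (M (nat_lit 393) (B (L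 (nat_lit 392) ln12_13_3 ln12_13_3_ok) (L (nat_lit 394) ln13_13_3 ln13_13_3_ok))) (M (nat_lit 457) (B (L (nat_lit 456) ln12_13_1 ln12_13_1_ok) (L (nat_lit 458) ln13_13_1 ln13_13_1_ok))))) (B (M (nat_lit 458) (B (L (nat_lit 457) ln13_13_1 ln13_13_1_ok) (M (nat_lit 394) (B (L (nat_lit 393) ln13_13_3 ln13_13_3_ok) (M (nat_lit 459) (B (L (nat_lit 430) ln14_13_1 ln14_13_1_ok) (M (nat_lit 362) (B (L (nat_lit 330) ln10_10_4 ln10_10_4_ok) (L (nat_lit 491) ln10_11_4 ln10_11_4_ok))))))))) (M (nat_lit 393) (B (L (nat_lit 394) ln13_13_3 ln13_13_3_ok) (M (nat_lit 425) (B (L (nat_lit 392) ln12_13_3 ln12_13_3_ok) (L (nat_lit 396) ln9_13_2 ln9_13_2_ok))))))))) (B (M (nat_lit 460) (B (M (nat_lit 492) (B (L (nat_lit 524) ln12_16_6 ln12_16_6_ok) (M (nat_lit 365) (B (L (nat_lit 333) ln13_10_5 ln13_10_5_ok) (L (nat_lit 461) ln13_11_5 ln13_11_5_ok))))) (B (M (nat_lit 395) (B (M (nat_lit 492) (B (L (nat_lit 524) ln12_16_7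 ln12_16_7_ok) (M (nat_lit 363) (B (L (nat_lit 331) ln11_10_4 ln11_10_4_ok) (L (nat_lit 459) ln11_11_4 ln11_11_4_ok))))) (M (nat_lit 394) (B (L (nat_lit 430) ln14_13_3 ln14_13_3_ok) (M (nat_lit 393) (B (L (nat_lit 392) ln8_12_0 ln8_12_0_ok) (L (nat_lit 426) ln13_13_3 ln13_13_3_ok))))))) (M (nat_lit 426) (B (M (nat_lit 425) (B (L (nat_lit 461) ln9_13_0 ln9_13_0_ok) (M (nat_lit 457) (B (L (nat_lit 456) ln12_13_1 ln12_13_1_ok) (L (nat_lit 458) ln13_13_1 ln13_13_1_ok))))) (B (M (nat_lit 430) (B (M (nat_lit 394) (B (L (nat_lit 393) ln13_13_3 ln13_13_3_ok) (L (nat_lit 395) ln14_13_3 ln14_13_3_ok))) (M (nat_lit 458) (B (L (nat_lit 457) ln13_13_1 ln13_13_1_ok) (L (nat_lit 459) ln14_13_1 ln14_13_1_ok))))) (M (nat_lit 425) (B (L (nat_lit 461) ln9_13_0 ln9_13_0_ok) (M (nat_lit 393) (B (L (nat_lit 392) ln12_13_3 ln12_13_3_ok) (L (nat_lit 394) ln13_13_3 ln13_13_3_ok))))))))))) (B c11_n13026 (B c11_n19629 (B (M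 (nat_lit 426) (B (M (nat_lit 425) (B (L (nat_lit 396) ln9_13_2 ln9_13_2_ok) (M (nat_lit 457) (B (L (nat_lit 456) ln12_13_1 ln12_13_1_ok) (L (nat_lit 458) ln13_13_1 ln13_13_1_ok))))) (B (M (nat_lit 425) (B (M (nat_lit 393) (B (L (nat_lit 392) ln12_13_3 ln12_13_3_ok) (L (nat_lit 394) ln13_13_3 ln13_13_3_ok))) (M (nat_lit 457) (B (L (nat_lit 456) ln12_13_1 ln12_13_1_ok) (L (nat_lit 458) ln13_13_1 ln13_13_1_ok))))) (B (M (nat_lit 395) (B (M (nat_lit 394) (B (L (nat_lit 393) ln13_13_3 ln13_13_3_ok) (M (nat_lit 458) (B (L (nat_lit 457) ln13_13_1 ln13_13_1_ok) (M (nat_lit 363) (B (L (nat_lit 331) ln11_10_5 ln11_10_5_ok) (L (nat_lit 490) ln10_15_6 ln10_15_6_ok))))))) (B (M (nat_lit 394) (B (L (nat_lit 393) ln13_13_3 ln13_13_3_ok) (M (nat_lit 458) (B (L (nat_lit 457) ln13_13_1 ln13_13_1_ok) (M (nat_lit 490) (B (L (nat_lit 363) ln10_15_6 ln10_15_6_ok) (L (nat_lit 522) ln10_16_6 ln10_16_6_ok))))))) (B (M (nat_lit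 394) (B (L (nat_lit 393) ln13_13_3 ln13_13_3_ok) (M (nat_lit 396) (B (M (nat_lit 365) (B (L (nat_lit 366) ln10_12_2 ln10_12_2_ok) (M (nat_lit 333) (B (L (nat_lit 301) ln13_9_5 ln13_9_5_ok) (L (nat_lit 460) ln13_10_5 ln13_10_5_ok))))) (M (nat_lit 362) (B (L (nat_lit 361) ln13_12_3 ln13_12_3_ok) (M (nat_lit 330) (B (L (nat_lit 298) ln10_9_4 ln10_9_4_ok) (L (nat_lit 459) ln10_10_4 ln10_10_4_ok))))))))) (M (nat_lit 458) (B (L (nat_lit 457) ln13_13_1 ln13_13_1_ok) (M (nat_lit 363) (B (L (nat_lit 331) ln11_10_5 ln11_10_5_ok) (M (nat_lit 490) (B (L (nat_lit 459) ln11_11_5 ln11_11_5_ok) (L (nat_lit 522) ln10_16_6 ln10_16_6_ok))))))))))) (M (nat_lit 393) (B (L (nat_lit 394) ln13_13_3 ln13_13_3_ok) (M (nat_lit 425) (B (L (nat_lit 392) ln12_13_3 ln12_13_3_ok) (L (nat_lit 396) ln9_13_2 ln9_13_2_ok))))))))) (B (M (nat_lit 394) (B (M (nat_lit 395) (B (L (nat_lit 430) ln14_13_3 ln14_13_3_ok) (M (nat_lit 393) (B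 (L (nat_lit 396) ln9_12_0 ln9_12_0_ok) (L (nat_lit 426) ln13_13_3 ln13_13_3_ok))))) (B (M (nat_lit 460) (B (M (nat_lit 492) (B (L (nat_lit 524) ln12_16_6 ln12_16_6_ok) (M (nat_lit 365) (B (L (nat_lit 333) ln13_10_5 ln13_10_5_ok) (L (nat_lit 461) ln13_11_5 ln13_11_5_ok))))) (B (M (nat_lit 492) (B (L (nat_lit 524) ln12_16_6 ln12_16_6_ok) (M (nat_lit 365) (B (L (nat_lit 396) ln12_15_6 ln12_15_6_ok) (L (nat_lit 461) ln13_11_5 ln13_11_5_ok))))) (B (M (nat_lit 430) (B (L (nat_lit 395) ln14_13_3 ln14_13_3_ok) (M (nat_lit 431) (B (L (nat_lit 459) ln15_13_1 ln15_13_1_ok) (M (nat_lit 432) (B (L (nat_lit 396) ln16_13_3 ln16_13_3_ok) (L (nat_lit 461) ln16_13_1 ln16_13_1_ok))))))) (M (nat_lit 492) (B (L (nat_lit 524) ln12_16_6 ln12_16_6_ok) (M (nat_lit 365) (B (L (nat_lit 333) ln13_10_5 ln13_10_5_ok) (L (nat_lit 396) ln12_15_6 ln12_15_6_ok))))))))) (B (M (nat_lit 460) (B (M (nat_lit 492) (B (L (nat_lit 524) ln12_16_6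 ln12_16_6_ok) (M (nat_lit 365) (B (L (nat_lit 333) ln13_10_5 ln13_10_5_ok) (L (nat_lit 396) ln12_15_6 ln12_15_6_ok))))) (B (M (nat_lit 426) (B (L (nat_lit 393) ln13_13_3 ln13_13_3_ok) (M (nat_lit 425) (B (L (nat_lit 396) ln9_13_2 ln9_13_2_ok) (L (nat_lit 461) ln9_13_0 ln9_13_0_ok))))) (M (nat_lit 492) (B (L (nat_lit 524) ln12_16_6 ln12_16_6_ok) (M (nat_lit 365) (B (L (nat_lit 333) ln13_10_5 ln13_10_5_ok) (L (nat_lit 461) ln13_11_5 ln13_11_5_ok)))))))) (M (nat_lit 393) (B (L (nat_lit 426) ln13_13_3 ln13_13_3_ok) (M (nat_lit 395) (B (L (nat_lit 392) ln8_12_0 ln8_12_0_ok) (L (nat_lit 430) ln14_13_3 ln14_13_3_ok))))))))) (M (nat_lit 426) (B (M (nat_lit 393) (B (L (nat_lit 394) ln13_13_3 ln13_13_3_ok) (M (nat_lit 425) (B (L (nat_lit 392) ln12_13_3 ln12_13_3_ok) (L (nat_lit 396) ln9_13_2 ln9_13_2_ok))))) (B (M (nat_lit 425) (B (L (nat_lit 396) ln9_13_2 ln9_13_2_ok) (M (nat_lit 457) (B (L (nat_lit 456)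 ln12_13_1 ln12_13_1_ok) (L (nat_lit 458) ln13_13_1 ln13_13_1_ok))))) (B (M (nat_lit 425) (B (M (nat_lit 393) (B (L (nat_lit 392) ln12_13_3 ln12_13_3_ok) (L (nat_lit 394) ln13_13_3 ln13_13_3_ok))) (M (nat_lit 457) (B (L (nat_lit 456) ln12_13_1 ln12_13_1_ok) (L (nat_lit 458) ln13_13_1 ln13_13_1_ok))))) (M (nat_lit 394) (B (L (nat_lit 393) ln13_13_3 ln13_13_3_ok) (M (nat_lit 395) (B (L (nat_lit 430) ln14_13_3 ln14_13_3_ok) (M (nat_lit 458) (B (L (nat_lit 457) ln13_13_1 ln13_13_1_ok) (M (nat_lit 363) (B (L (nat_lit 331) ln11_10_5 ln11_10_5_ok) (L (nat_lit 490) ln10_15_6 ln10_15_6_ok)))))))))))))))))))))))) (nat_lit 2079502270913392379444674211814302674077704290823075655481512624564798400421800170032085953906810352733060637150540575368324055040) (nat_lit 117936325871780334524151313172660183341992406080951246353853514948716826115744551461075888734675467882347592977084088197171804389499917121241841832958323867100618162176)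 (nat_lit 117936325871780334524151313172660183341992406080951246353853514948716826115744551461075888734675467882347592977084088197171804389499917121241841832958323867100618162176) (by decide +kernel)
noncomputable def c11_n19715 : Cert := (M (nat_lit 460) (B (M (nat_lit 492) (B (L (nat_lit 524) ln12_16_6 ln12_16_6_ok) (M (nat_lit 365) (B (L (nat_lit 333) ln13_10_5 ln13_10_5_ok) (L (nat_lit 461) ln13_11_5 ln13_11_5_ok))))) (B (M (nat_lit 492) (B (L (nat_lit 524) ln12_16_6 ln12_16_6_ok) (M (nat_lit 365) (B (L (nat_lit 396) ln12_15_6 ln12_15_6_ok) (L (nat_lit 461) ln13_11_5 ln13_11_5_ok))))) (B (M (nat_lit 492) (B (L (nat_lit 524) ln12_16_6 ln12_16_6_ok) (M (nat_lit 396) (B (M (nat_lit 395) (B (L (nat_lit 363) ln12_15_7 ln12_15_7_ok) (M (nat_lit 430) (B (L (nat_lit 394) ln10_12_0 ln10_12_0_ok) (L (nat_lit 431) ln15_13_3 ln15_13_3_ok))))) (M (nat_lit 364) (B (M (nat_lit 332) (B (L (nat_lit 300) ln12_9_4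 ln12_9_4_ok) (L (nat_lit 461) ln12_10_4 ln12_10_4_ok))) (B (M (nat_lit 461) (B (L (nat_lit 332) ln12_10_4 ln12_10_4_ok) (L (nat_lit 493) ln13_15_7 ln13_15_7_ok))) (B (M (nat_lit 493) (B (L (nat_lit 461) ln13_15_7 ln13_15_7_ok) (L (nat_lit 525) ln12_12_4 ln12_12_4_ok))) (M (nat_lit 491) (B (L (nat_lit 459) ln12_11_5 ln12_11_5_ok) (L (nat_lit 523) ln12_12_5 ln12_12_5_ok))))))))))) (B (M (nat_lit 492) (B (L (nat_lit 524) ln12_16_6 ln12_16_6_ok) (M (nat_lit 365) (B (L (nat_lit 333) ln13_10_5 ln13_10_5_ok) (L (nat_lit 396) ln12_15_6 ln12_15_6_ok))))) (M (nat_lit 364) (B (M (nat_lit 365) (B (L (nat_lit 333) ln13_10_5 ln13_10_5_ok) (M (nat_lit 461) (B (L (nat_lit 332) ln13_14_7 ln13_14_7_ok) (M (nat_lit 493) (B (L (nat_lit 396) ln13_15_7 ln13_15_7_ok) (M (nat_lit 366) (B (L (nat_lit 334) ln13_14_6 ln13_14_6_ok) (L (nat_lit 398) ln13_15_6 ln13_15_6_ok))))))))) (B (M (nat_lit 365) (B (L (nat_lit 333) ln13_10_5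 ln13_10_5_ok) (M (nat_lit 363) (B (M (nat_lit 398) (B (L (nat_lit 362) ln10_11_0 ln10_11_0_ok) (M (nat_lit 396) (B (L (nat_lit 331) ln12_14_7 ln12_14_7_ok) (L (nat_lit 399) ln15_12_3 ln15_12_3_ok))))) (B (M (nat_lit 398) (B (L (nat_lit 362) ln10_11_0 ln10_11_0_ok) (M (nat_lit 399) (B (L (nat_lit 366) ln11_11_0 ln11_11_0_ok) (L (nat_lit 396) ln15_12_3 ln15_12_3_ok))))) (B (M (nat_lit 366) (B (M (nat_lit 331) (B (L (nat_lit 330) ln14_11_3 ln14_11_3_ok) (L (nat_lit 396) ln12_14_7 ln12_14_7_ok))) (M (nat_lit 334) (B (L (nat_lit 335) ln11_11_2 ln11_11_2_ok) (L (nat_lit 461) ln13_14_6 ln13_14_6_ok))))) (M (nat_lit 398) (B (L (nat_lit 362) ln10_11_0 ln10_11_0_ok) (M (nat_lit 399) (B (L (nat_lit 366) ln11_11_0 ln11_11_0_ok) (L (nat_lit 400) ln16_12_3 ln16_12_3_ok))))))))))) (B (M (nat_lit 459) (B (M (nat_lit 430) (B (L (nat_lit 431) ln15_13_1 ln15_13_1_ok) (M (nat_lit 458) (B (L (nat_lit 427) ln14_13_1 ln14_13_1_ok)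 (L (nat_lit 457) ln9_14_2 ln9_14_2_ok))))) (B (M (nat_lit 430) (B (L (nat_lit 431) ln15_13_1 ln15_13_1_ok) (M (nat_lit 458) (B (L (nat_lit 457) ln9_14_2 ln9_14_2_ok) (L (nat_lit 461) ln10_14_2 ln10_14_2_ok))))) (M (nat_lit 396) (B (L (nat_lit 491) ln12_11_5 ln12_11_5_ok) (M (nat_lit 332) (B (L (nat_lit 300) ln12_9_4 ln12_9_4_ok) (L (nat_lit 461) ln12_10_4 ln12_10_4_ok)))))))) (B (M (nat_lit 430) (B (M (nat_lit 459) (B (L (nat_lit 431) ln15_13_1 ln15_13_1_ok) (M (nat_lit 458) (B (L (nat_lit 427) ln14_13_1 ln14_13_1_ok) (L (nat_lit 457) ln9_14_2 ln9_14_2_ok))))) (B (M (nat_lit 459) (B (L (nat_lit 431) ln15_13_1 ln15_13_1_ok) (M (nat_lit 458) (B (L (nat_lit 457) ln9_14_2 ln9_14_2_ok) (L (nat_lit 461) ln10_14_2 ln10_14_2_ok))))) (M (nat_lit 398) (B (M (nat_lit 399) (B (L (nat_lit 400) ln16_12_1 ln16_12_1_ok) (L (nat_lit 427) ln11_13_2 ln11_13_2_ok))) (M (nat_lit 461) (B (M (nat_lit 365) (B (L (nat_lit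 332) ln13_14_7 ln13_14_7_ok) (L (nat_lit 333) ln13_10_5 ln13_10_5_ok))) (M (nat_lit 366) (B (L (nat_lit 334) ln14_10_5 ln14_10_5_ok) (L (nat_lit 493) ln13_15_6 ln13_15_6_ok)))))))))) (M (nat_lit 365) (B (L (nat_lit 333) ln13_10_5 ln13_10_5_ok) (M (nat_lit 396) (B (M (nat_lit 459) (B (L (nat_lit 491) ln12_11_5 ln12_11_5_ok) (M (nat_lit 332) (B (L (nat_lit 300) ln12_9_4 ln12_9_4_ok) (L (nat_lit 427) ln12_10_5 ln12_10_5_ok))))) (M (nat_lit 363) (B (L (nat_lit 331) ln12_14_7 ln12_14_7_ok) (M (nat_lit 362) (B (L (nat_lit 361) ln9_11_0 ln9_11_0_ok) (L (nat_lit 398) ln10_11_0 ln10_11_0_ok)))))))))))))))))))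
noncomputable def c11_n19833 : Cert := (M (nat_lit 365) (B (M (nat_lit 460) (B (L (nat_lit 333) ln13_10_5 ln13_10_5_ok) (M (nat_lit 492) (B (L (nat_lit 396) ln12_15_6 ln12_15_6_ok) (L (nat_lit 461) ln13_11_5 ln13_11_5_ok))))) (B (M (nat_lit 364) (B (M (nat_lit 332) (B (L (nat_lit 461) ln13_14_7 ln13_14_7_ok) (M (nat_lit 300) (B (L (nat_lit 268) ln12_8_4 ln12_8_4_ok) (L (nat_lit 396) ln12_9_4 ln12_9_4_ok))))) (B (M (nat_lit 461) (B (L (nat_lit 332) ln13_14_7 ln13_14_7_ok) (M (nat_lit 493) (B (L (nat_lit 396) ln13_15_7 ln13_15_7_ok) (M (nat_lit 366) (B (L (nat_lit 334) ln13_14_6 ln13_14_6_ok) (L (nat_lit 398) ln13_15_6 ln13_15_6_ok))))))) (B (M (nat_lit 461) (B (M (nat_lit 493) (B (L (nat_lit 396) ln13_15_7 ln13_15_7_ok) (M (nat_lit 366) (B (L (nat_lit 334) ln13_14_6 ln13_14_6_ok) (L (nat_lit 398) ln13_15_6 ln13_15_6_ok))))) (B (M (nat_lit 492) (B (L (nat_lit 460) ln13_11_5 ln13_11_5_ok) (M (nat_lit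 493) (B (L (nat_lit 396) ln13_15_7 ln13_15_7_ok) (L (nat_lit 524) ln13_12_5 ln13_12_5_ok))))) (B (M (nat_lit 366) (B (L (nat_lit 334) ln13_14_6 ln13_14_6_ok) (M (nat_lit 398) (B (L (nat_lit 493) ln13_15_6 ln13_15_6_ok) (M (nat_lit 363) (B (L (nat_lit 362) ln10_11_0 ln10_11_0_ok) (L (nat_lit 399) ln11_11_0 ln11_11_0_ok))))))) (M (nat_lit 363) (B (M (nat_lit 398) (B (L (nat_lit 362) ln10_11_0 ln10_11_0_ok) (M (nat_lit 366) (B (L (nat_lit 334) ln13_14_6 ln13_14_6_ok) (L (nat_lit 399) ln11_11_0 ln11_11_0_ok))))) (B (M (nat_lit 398) (B (L (nat_lit 362) ln10_11_0 ln10_11_0_ok) (M (nat_lit 399) (B (L (nat_lit 366) ln11_11_0 ln11_11_0_ok) (L (nat_lit 396) ln15_12_3 ln15_12_3_ok))))) (B (M (nat_lit 331) (B (M (nat_lit 366) (B (L (nat_lit 330) ln14_11_3 ln14_11_3_ok) (L (nat_lit 334) ln13_14_6 ln13_14_6_ok))) (M (nat_lit 460) (B (L (nat_lit 396) ln12_14_7 ln12_14_7_ok) (L (nat_lit 492) ln13_11_5 ln13_11_5_ok)))))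 (M (nat_lit 398) (B (L (nat_lit 362) ln10_11_0 ln10_11_0_ok) (M (nat_lit 399) (B (L (nat_lit 396) ln15_12_3 ln15_12_3_ok) (L (nat_lit 400) ln16_12_3 ln16_12_3_ok))))))))))))) (B (M (nat_lit 461) (B (L (nat_lit 332) ln13_14_7 ln13_14_7_ok) (M (nat_lit 366) (B (L (nat_lit 334) ln13_14_6 ln13_14_6_ok) (M (nat_lit 398) (B (L (nat_lit 493) ln13_15_6 ln13_15_6_ok) (M (nat_lit 363) (B (L (nat_lit 362) ln10_11_0 ln10_11_0_ok) (L (nat_lit 399) ln11_11_0 ln11_11_0_ok))))))))) (M (nat_lit 398) (B (M (nat_lit 399) (B (L (nat_lit 400) ln16_12_3 ln16_12_3_ok) (M (nat_lit 363) (B (L (nat_lit 362) ln10_11_0 ln10_11_0_ok) (L (nat_lit 396) ln15_12_3 ln15_12_3_ok))))) (B (M (nat_lit 399) (B (L (nat_lit 400) ln16_12_3 ln16_12_3_ok) (M (nat_lit 396) (B (L (nat_lit 363) ln15_12_3 ln15_12_3_ok) (L (nat_lit 427) ln15_12_1 ln15_12_1_ok))))) (B (M (nat_lit 399) (B (L (nat_lit 400) ln16_12_3 ln16_12_3_ok) (M (nat_lit 427)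 (B (L (nat_lit 396) ln15_12_1 ln15_12_1_ok) (L (nat_lit 426) ln10_13_2 ln10_13_2_ok))))) (B (M (nat_lit 399) (B (L (nat_lit 400) ln16_12_3 ln16_12_3_ok) (M (nat_lit 363) (B (L (nat_lit 362) ln10_11_0 ln10_11_0_ok) (L (nat_lit 366) ln11_11_0 ln11_11_0_ok))))) (M (nat_lit 396) (B (M (nat_lit 363) (B (L (nat_lit 362) ln10_11_0 ln10_11_0_ok) (M (nat_lit 460) (B (L (nat_lit 331) ln12_14_7 ln12_14_7_ok) (L (nat_lit 492) ln12_15_6 ln12_15_6_ok))))) (M (nat_lit 332) (B (L (nat_lit 300) ln12_9_4 ln12_9_4_ok) (M (nat_lit 427) (B (L (nat_lit 459) ln12_10_5 ln12_10_5_ok) (L (nat_lit 426) ln10_13_2 ln10_13_2_ok))))))))))))))))) (B (M (nat_lit 460) (B (L (nat_lit 333) ln13_10_5 ln13_10_5_ok) (M (nat_lit 492) (B (L (nat_lit 461) ln13_11_5 ln13_11_5_ok) (L (nat_lit 524) ln12_16_6 ln12_16_6_ok))))) (B (M (nat_lit 333) (B (M (nat_lit 301) (B (L (nat_lit 396) ln13_9_5 ln13_9_5_ok) (M (nat_lit 302) (B (L (nat_lit 270)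 ln13_12_6 ln13_12_6_ok) (L (nat_lit 334) ln13_13_6 ln13_13_6_ok))))) (B (M (nat_lit 301) (B (L (nat_lit 396) ln13_9_5 ln13_9_5_ok) (M (nat_lit 300) (B (L (nat_lit 268) ln13_12_7 ln13_12_7_ok) (L (nat_lit 332) ln13_13_7 ln13_13_7_ok))))) (M (nat_lit 461) (B (M (nat_lit 332) (B (L (nat_lit 300) ln13_13_7 ln13_13_7_ok) (L (nat_lit 364) ln13_14_7 ln13_14_7_ok))) (M (nat_lit 334) (B (L (nat_lit 302) ln13_13_6 ln13_13_6_ok) (L (nat_lit 366) ln13_14_6 ln13_14_6_ok)))))))) (M (nat_lit 460) (B (L (nat_lit 333) ln13_10_5 ln13_10_5_ok) (M (nat_lit 492) (B (L (nat_lit 396) ln12_15_6 ln12_15_6_ok) (L (nat_lit 524) ln12_16_6 ln12_16_6_ok))))))))))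
noncomputable def c11_n19924 : Cert := (M (nat_lit 427) (B (M (nat_lit 398) (B (L (nat_lit 426) ln10_13_2 ln10_13_2_ok) (M (nat_lit 399) (B (L (nat_lit 396) ln15_12_1 ln15_12_1_ok) (L (nat_lit 400) ln16_12_1 ln16_12_1_ok))))) (B (M (nat_lit 398) (B (L (nat_lit 426) ln10_13_2 ln10_13_2_ok) (M (nat_lit 399) (B (L (nat_lit 400) ln16_12_1 ln16_12_1_ok) (L (nat_lit 430) ln11_13_2 ln11_13_2_ok))))) (B (M (nat_lit 365) (B (M (nat_lit 460) (B (L (nat_lit 333) ln13_10_5 ln13_10_5_ok) (M (nat_lit 492) (B (L (nat_lit 396) ln12_15_6 ln12_15_6_ok) (L (nat_lit 461) ln13_11_5 ln13_11_5_ok))))) (B (M (nat_lit 394) (B (M (nat_lit 395) (B (L (nat_lit 430) ln14_13_3 ln14_13_3_ok) (M (nat_lit 393) (B (L (nat_lit 396) ln9_12_0 ln9_12_0_ok) (L (nat_lit 426) ln13_13_3 ln13_13_3_ok))))) (B (M (nat_lit 364) (B (M (nat_lit 332) (B (L (nat_lit 461) ln13_14_7 ln13_14_7_ok) (M (nat_lit 300) (B (L (nat_lit 268) ln12_8_4 ln12_8_4_ok)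 (L (nat_lit 396) ln12_9_4 ln12_9_4_ok))))) (B (M (nat_lit 395) (B (L (nat_lit 430) ln14_13_3 ln14_13_3_ok) (M (nat_lit 366) (B (L (nat_lit 363) ln14_11_1 ln14_11_1_ok) (L (nat_lit 396) ln10_12_2 ln10_12_2_ok))))) (M (nat_lit 366) (B (M (nat_lit 461) (B (L (nat_lit 332) ln13_14_7 ln13_14_7_ok) (L (nat_lit 334) ln13_14_6 ln13_14_6_ok))) (M (nat_lit 395) (B (L (nat_lit 363) ln14_11_1 ln14_11_1_ok) (L (nat_lit 430) ln14_13_3 ln14_13_3_ok)))))))) (B (M (nat_lit 426) (B (L (nat_lit 393) ln13_13_3 ln13_13_3_ok) (M (nat_lit 425) (B (L (nat_lit 396) ln9_13_2 ln9_13_2_ok) (M (nat_lit 457) (B (L (nat_lit 456) ln12_13_1 ln12_13_1_ok) (L (nat_lit 458) ln13_13_1 ln13_13_1_ok))))))) (M (nat_lit 395) (B (L (nat_lit 430) ln14_13_3 ln14_13_3_ok) (M (nat_lit 393) (B (L (nat_lit 392) ln8_12_0 ln8_12_0_ok) (L (nat_lit 426) ln13_13_3 ln13_13_3_ok))))))))) (B (M (nat_lit 460) (B (L (nat_lit 333) ln13_10_5 ln13_10_5_ok)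 (M (nat_lit 492) (B (L (nat_lit 461) ln13_11_5 ln13_11_5_ok) (L (nat_lit 524) ln12_16_6 ln12_16_6_ok))))) (M (nat_lit 460) (B (L (nat_lit 333) ln13_10_5 ln13_10_5_ok) (M (nat_lit 492) (B (L (nat_lit 396) ln12_15_6 ln12_15_6_ok) (L (nat_lit 524) ln12_16_6 ln12_16_6_ok))))))))) (M (nat_lit 398) (B (M (nat_lit 399) (B (L (nat_lit 396) ln15_12_1 ln15_12_1_ok) (L (nat_lit 400) ln16_12_1 ln16_12_1_ok))) (B (M (nat_lit 399) (B (L (nat_lit 400) ln16_12_1 ln16_12_1_ok) (L (nat_lit 430) ln11_13_2 ln11_13_2_ok))) (M (nat_lit 365) (B (M (nat_lit 333) (B (L (nat_lit 460) ln13_10_5 ln13_10_5_ok) (M (nat_lit 301) (B (L (nat_lit 396) ln13_9_5 ln13_9_5_ok) (L (nat_lit 430) ln13_9_4 ln13_9_4_ok))))) (B (M (nat_lit 460) (B (L (nat_lit 333) ln13_10_5 ln13_10_5_ok) (M (nat_lit 492) (B (L (nat_lit 396) ln12_15_6 ln12_15_6_ok) (L (nat_lit 461) ln13_11_5 ln13_11_5_ok))))) (B (M (nat_lit 395) (B (M (nat_lit 394) (B (L (nat_lit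 430) ln14_13_3 ln14_13_3_ok) (M (nat_lit 396) (B (L (nat_lit 366) ln10_12_2 ln10_12_2_ok) (L (nat_lit 393) ln9_12_0 ln9_12_0_ok))))) (B (M (nat_lit 396) (B (M (nat_lit 394) (B (L (nat_lit 393) ln9_12_0 ln9_12_0_ok) (L (nat_lit 430) ln10_12_0 ln10_12_0_ok))) (M (nat_lit 460) (B (L (nat_lit 492) ln12_15_6 ln12_15_6_ok) (M (nat_lit 363) (B (L (nat_lit 331) ln11_10_4 ln11_10_4_ok) (L (nat_lit 362) ln14_12_3 ln14_12_3_ok))))))) (B (M (nat_lit 366) (B (M (nat_lit 394) (B (L (nat_lit 396) ln10_12_2 ln10_12_2_ok) (L (nat_lit 430) ln14_13_3 ln14_13_3_ok))) (M (nat_lit 461) (B (L (nat_lit 334) ln13_14_6 ln13_14_6_ok) (L (nat_lit 493) ln13_15_6 ln13_15_6_ok))))) (M (nat_lit 461) (B (M (nat_lit 366) (B (L (nat_lit 334) ln13_14_6 ln13_14_6_ok) (L (nat_lit 493) ln13_15_6 ln13_15_6_ok))) (M (nat_lit 363) (B (M (nat_lit 460) (B (L (nat_lit 331) ln11_10_4 ln11_10_4_ok) (L (nat_lit 492) ln13_11_5 ln13_11_5_ok))) (M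 (nat_lit 364) (B (L (nat_lit 332) ln13_14_7 ln13_14_7_ok) (L (nat_lit 362) ln10_11_0 ln10_11_0_ok))))))))))) (B (M (nat_lit 460) (B (L (nat_lit 333) ln13_10_5 ln13_10_5_ok) (M (nat_lit 492) (B (L (nat_lit 461) ln13_11_5 ln13_11_5_ok) (L (nat_lit 524) ln12_16_6 ln12_16_6_ok))))) (M (nat_lit 333) (B (M (nat_lit 301) (B (L (nat_lit 396) ln13_9_5 ln13_9_5_ok) (L (nat_lit 430) ln13_9_4 ln13_9_4_ok))) (M (nat_lit 461) (B (M (nat_lit 332) (B (L (nat_lit 300) ln13_13_7 ln13_13_7_ok) (L (nat_lit 364) ln13_14_7 ln13_14_7_ok))) (M (nat_lit 334) (B (L (nat_lit 302) ln13_13_6 ln13_13_6_ok) (L (nat_lit 366) ln13_14_6 ln13_14_6_ok)))))))))))))))))))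
noncomputable def c11_n19926 : Cert := (M (nat_lit 395) (B (M (nat_lit 394) (B (L (nat_lit 430) ln14_13_3 ln14_13_3_ok) (M (nat_lit 393) (B (L (nat_lit 392) ln8_12_0 ln8_12_0_ok) (L (nat_lit 396) ln9_12_0 ln9_12_0_ok))))) (B (M (nat_lit 430) (B (L (nat_lit 394) ln14_13_3 ln14_13_3_ok) (M (nat_lit 431) (B (L (nat_lit 396) ln15_13_3 ln15_13_3_ok) (M (nat_lit 399) (B (L (nat_lit 398) ln11_13_2 ln11_13_2_ok) (L (nat_lit 400) ln12_13_2 ln12_13_2_ok))))))) (B (M (nat_lit 459) (B (M (nat_lit 430) (B (L (nat_lit 458) ln14_13_1 ln14_13_1_ok) (M (nat_lit 431) (B (L (nat_lit 396) ln15_13_3 ln15_13_3_ok) (M (nat_lit 399) (B (L (nat_lit 398) ln11_13_2 ln11_13_2_ok) (L (nat_lit 400) ln12_13_2 ln12_13_2_ok))))))) (B (M (nat_lit 458) (B (L (nat_lit 430) ln14_13_1 ln14_13_1_ok) (M (nat_lit 490) (B (L (nat_lit 363) ln11_11_5 ln11_11_5_ok) (M (nat_lit 522) (B (L (nat_lit 491) ln11_12_5 ln11_12_5_ok) (L (nat_lit 554)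 ln10_17_6 ln10_17_6_ok))))))) (B (M (nat_lit 491) (B (M (nat_lit 396) (B (L (nat_lit 364) ln11_15_6 ln11_15_6_ok) (L (nat_lit 523) ln11_16_6 ln11_16_6_ok))) (B (M (nat_lit 523) (B (L (nat_lit 396) ln11_16_6 ln11_16_6_ok) (M (nat_lit 522) (B (L (nat_lit 490) ln11_12_5 ln11_12_5_ok) (L (nat_lit 554) ln11_13_5 ln11_13_5_ok))))) (B (M (nat_lit 524) (B (L (nat_lit 492) ln11_12_4 ln11_12_4_ok) (M (nat_lit 523) (B (L (nat_lit 556) ln11_13_4 ln11_13_4_ok) (M (nat_lit 522) (B (L (nat_lit 490) ln11_12_5 ln11_12_5_ok) (L (nat_lit 554) ln11_13_5 ln11_13_5_ok))))))) (M (nat_lit 363) (B (M (nat_lit 364) (B (L (nat_lit 332) ln11_14_6 ln11_14_6_ok) (L (nat_lit 396) ln11_15_6 ln11_15_6_ok))) (M (nat_lit 490) (B (L (nat_lit 458) ln11_11_5 ln11_11_5_ok) (L (nat_lit 522) ln11_12_5 ln11_12_5_ok))))))))) (M (nat_lit 364) (B (M (nat_lit 332) (B (L (nat_lit 363) ln11_14_6 ln11_14_6_ok) (L (nat_lit 396) ln12_10_5 ln12_10_5_ok)))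 (B (M (nat_lit 491) (B (L (nat_lit 396) ln11_15_6 ln11_15_6_ok) (M (nat_lit 523) (B (M (nat_lit 522) (B (L (nat_lit 490) ln11_12_5 ln11_12_5_ok) (L (nat_lit 554) ln11_13_5 ln11_13_5_ok))) (M (nat_lit 524) (B (L (nat_lit 492) ln11_12_4 ln11_12_4_ok) (L (nat_lit 556) ln11_13_4 ln11_13_4_ok))))))) (M (nat_lit 332) (B (L (nat_lit 363) ln11_14_6 ln11_14_6_ok) (M (nat_lit 365) (B (L (nat_lit 461) ln13_14_7 ln13_14_7_ok) (M (nat_lit 300) (B (L (nat_lit 268) ln12_8_4 ln12_8_4_ok) (L (nat_lit 333) ln13_13_7 ln13_13_7_ok)))))))))))))) (B (M (nat_lit 430) (B (L (nat_lit 394) ln14_13_3 ln14_13_3_ok) (M (nat_lit 431) (B (M (nat_lit 399) (B (L (nat_lit 398) ln11_13_2 ln11_13_2_ok) (L (nat_lit 400) ln12_13_2 ln12_13_2_ok))) (B (M (nat_lit 432) (B (M (nat_lit 400) (B (L (nat_lit 399) ln12_13_2 ln12_13_2_ok) (L (nat_lit 401) ln13_13_2 ln13_13_2_ok))) (M (nat_lit 464) (B (L (nat_lit 463) ln12_13_0 ln12_13_0_ok) (L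 (nat_lit 465) ln13_13_0 ln13_13_0_ok))))) (B (M (nat_lit 432) (B (M (nat_lit 464) (B (L (nat_lit 463) ln12_13_0 ln12_13_0_ok) (L (nat_lit 465) ln13_13_0 ln13_13_0_ok))) (M (nat_lit 401) (B (L (nat_lit 400) ln13_13_2 ln13_13_2_ok) (M (nat_lit 433) (B (L (nat_lit 398) ln17_13_3 ln17_13_3_ok) (L (nat_lit 402) ln14_13_2 ln14_13_2_ok))))))) (M (nat_lit 432) (B (M (nat_lit 398) (B (L (nat_lit 433) ln17_13_3 ln17_13_3_ok) (L (nat_lit 399) ln11_13_2 ln11_13_2_ok))) (M (nat_lit 464) (B (L (nat_lit 463) ln12_13_0 ln12_13_0_ok) (L (nat_lit 465) ln13_13_0 ln13_13_0_ok))))))))))) (M (nat_lit 396) (B (M (nat_lit 394) (B (L (nat_lit 393) ln9_12_0 ln9_12_0_ok) (M (nat_lit 362) (B (L (nat_lit 361) ln13_12_3 ln13_12_3_ok) (M (nat_lit 398) (B (L (nat_lit 363) ln14_12_3 ln14_12_3_ok) (L (nat_lit 399) ln15_12_1 ln15_12_1_ok))))))) (B (M (nat_lit 332) (B (M (nat_lit 364) (B (L (nat_lit 300) ln12_9_5 ln12_9_5_ok) (L (nat_lit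 459) ln12_10_5 ln12_10_5_ok))) (B (M (nat_lit 364) (B (L (nat_lit 459) ln12_10_5 ln12_10_5_ok) (L (nat_lit 461) ln12_10_4 ln12_10_4_ok))) (M (nat_lit 363) (B (M (nat_lit 331) (B (L (nat_lit 299) ln11_9_4 ln11_9_4_ok) (L (nat_lit 300) ln11_13_6 ln11_13_6_ok))) (M (nat_lit 398) (B (L (nat_lit 362) ln14_12_3 ln14_12_3_ok) (L (nat_lit 399) ln15_12_1 ln15_12_1_ok)))))))) (M (nat_lit 332) (B (M (nat_lit 364) (B (L (nat_lit 300) ln12_9_5 ln12_9_5_ok) (L (nat_lit 459) ln12_10_5 ln12_10_5_ok))) (B (M (nat_lit 364) (B (L (nat_lit 459) ln12_10_5 ln12_10_5_ok) (L (nat_lit 461) ln12_10_4 ln12_10_4_ok))) (M (nat_lit 365) (B (M (nat_lit 333) (B (L (nat_lit 300) ln13_13_7 ln13_13_7_ok) (L (nat_lit 301) ln13_9_5 ln13_9_5_ok))) (M (nat_lit 394) (B (L (nat_lit 366) ln10_12_2 ln10_12_2_ok) (L (nat_lit 393) ln9_12_0 ln9_12_0_ok))))))))))))))))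
theorem c11_s19927 : Sem (nat_lit 2079502270913392379444674211814302674077704290823075655481512624564798400421800170032085953906810352733060637150540575368324055040) (nat_lit 294840814535290085408076681433584833401517699491421362583983778441327942579446273853966843452861345847335596733921690793077331724981290015532742302024505036524876726272) (nat_lit 294840814535290085408076681433584833401517699491421362583983778441327942579446273853966843452861345847335596733921690793077331724981290015532742302024505036524876726272) :=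
  sem_of_chk (M (nat_lit 427) (B (M (nat_lit 398) (B (L (nat_lit 426) ln10_13_2 ln10_13_2_ok) (M (nat_lit 399) (B (L (nat_lit 396) ln15_12_1 ln15_12_1_ok) (L (nat_lit 400) ln16_12_1 ln16_12_1_ok))))) (B (M (nat_lit 398) (B (L (nat_lit 426) ln10_13_2 ln10_13_2_ok) (M (nat_lit 399) (B (L (nat_lit 400) ln16_12_1 ln16_12_1_ok) (L (nat_lit 430) ln11_13_2 ln11_13_2_ok))))) (B (M (nat_lit 426) (B (M (nat_lit 393) (B (L (nat_lit 394) ln13_13_3 ln13_13_3_ok) (M (nat_lit 425) (B (L (nat_lit 392) ln12_13_3 ln12_13_3_ok) (L (nat_lit 396) ln9_13_2 ln9_13_2_ok))))) (B (M (nat_lit 425) (B (L (nat_lit 396) ln9_13_2 ln9_13_2_ok) (M (nat_lit 457) (B (L (nat_lit 456) ln12_13_1 ln12_13_1_ok) (L (nat_lit 458) ln13_13_1 ln13_13_1_ok))))) (M (nat_lit 430) (B (M (nat_lit 394) (B (L (nat_lit 393) ln13_13_3 ln13_13_3_ok) (L (nat_lit 395) ln14_13_3 ln14_13_3_ok))) (M (nat_lit 458) (B (L (nat_lit 457) ln13_13_1 ln13_13_1_ok)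 (L (nat_lit 459) ln14_13_1 ln14_13_1_ok)))))))) c11_n19926)))) (nat_lit 2079502270913392379444674211814302674077704290823075655481512624564798400421800170032085953906810352733060637150540575368324055040) (nat_lit 294840814535290085408076681433584833401517699491421362583983778441327942579446273853966843452861345847335596733921690793077331724981290015532742302024505036524876726272) (nat_lit 294840814535290085408076681433584833401517699491421362583983778441327942579446273853966843452861345847335596733921690793077331724981290015532742302024505036524876726272) (by decide +kernel)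
theorem c11_s19956 : Sem (nat_lit 1386334847383188664550070665778531748218595021979121511688892729411143073470393764272092352380775458208712834410189682411080515584) (nat_lit 1828013049948551547521595091541385947219966993153631421903592589013603494664294680832741246719038209738025978772332969689698646789281993229054819446662914061653063499776) (nat_lit 1828013049948551547521595091541385947219966993153631421903592589013603494664294680832741246719038209738025978772332969689698646789281993229054819446662914061653063499776) :=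
  sem_of_chk (M (nat_lit 428) (B c11_n19211 (B c11_n19220 (B (M (nat_lit 427) (B (M (nat_lit 398) (B (L (nat_lit 426) ln10_13_2 ln10_13_2_ok) (M (nat_lit 399) (B (L (nat_lit 396) ln15_12_1 ln15_12_1_ok) (L (nat_lit 400) ln16_12_1 ln16_12_1_ok))))) (B (M (nat_lit 398) (B (L (nat_lit 426) ln10_13_2 ln10_13_2_ok) (M (nat_lit 399) (B (L (nat_lit 400) ln16_12_1 ln16_12_1_ok) (L (nat_lit 430) ln11_13_2 ln11_13_2_ok))))) (B (M (nat_lit 426) (B (M (nat_lit 393) (B (L (nat_lit 394) ln13_13_3 ln13_13_3_ok) (M (nat_lit 425) (B (L (nat_lit 392) ln12_13_3 ln12_13_3_ok) (L (nat_lit 396) ln9_13_2 ln9_13_2_ok))))) (B (M (nat_lit 425) (B (L (nat_lit 396) ln9_13_2 ln9_13_2_ok) (M (nat_lit 457) (B (L (nat_lit 456) ln12_13_1 ln12_13_1_ok) (L (nat_lit 458) ln13_13_1 ln13_13_1_ok))))) (M (nat_lit 430) (B (M (nat_lit 394) (B (L (nat_lit 393) ln13_13_3 ln13_13_3_ok) (L (nat_lit 395) ln14_13_3 ln14_13_3_ok))) (M (nat_lit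 458) (B (L (nat_lit 457) ln13_13_1 ln13_13_1_ok) (L (nat_lit 459) ln14_13_1 ln14_13_1_ok)))))))) (M (nat_lit 460) (B (M (nat_lit 492) (B (L (nat_lit 524) ln12_16_6 ln12_16_6_ok) (M (nat_lit 365) (B (L (nat_lit 333) ln13_10_5 ln13_10_5_ok) (L (nat_lit 461) ln13_11_5 ln13_11_5_ok))))) (B (M (nat_lit 492) (B (L (nat_lit 524) ln12_16_6 ln12_16_6_ok) (M (nat_lit 365) (B (L (nat_lit 396) ln12_15_6 ln12_15_6_ok) (L (nat_lit 461) ln13_11_5 ln13_11_5_ok))))) (B (M (nat_lit 395) (B (M (nat_lit 492) (B (L (nat_lit 524) ln12_16_7 ln12_16_7_ok) (M (nat_lit 363) (B (L (nat_lit 331) ln11_10_4 ln11_10_4_ok) (L (nat_lit 396) ln12_15_7 ln12_15_7_ok))))) (B (M (nat_lit 492) (B (L (nat_lit 524) ln12_16_7 ln12_16_7_ok) (M (nat_lit 363) (B (L (nat_lit 396) ln12_15_7 ln12_15_7_ok) (L (nat_lit 459) ln11_11_4 ln11_11_4_ok))))) (B (M (nat_lit 430) (B (L (nat_lit 394) ln14_13_3 ln14_13_3_ok) (M (nat_lit 431) (B (L (nat_lit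 396) ln15_13_3 ln15_13_3_ok) (L (nat_lit 459) ln15_13_1 ln15_13_1_ok))))) (M (nat_lit 492) (B (L (nat_lit 524) ln12_16_7 ln12_16_7_ok) (M (nat_lit 363) (B (L (nat_lit 331) ln11_10_4 ln11_10_4_ok) (L (nat_lit 459) ln11_11_4 ln11_11_4_ok))))))))) (M (nat_lit 395) (B (M (nat_lit 430) (B (L (nat_lit 394) ln14_13_3 ln14_13_3_ok) (M (nat_lit 431) (B (L (nat_lit 396) ln15_13_3 ln15_13_3_ok) (L (nat_lit 459) ln15_13_1 ln15_13_1_ok))))) (B (M (nat_lit 396) (B (M (nat_lit 398) (B (L (nat_lit 399) ln15_12_1 ln15_12_1_ok) (M (nat_lit 363) (B (L (nat_lit 331) ln11_10_4 ln11_10_4_ok) (L (nat_lit 362) ln14_12_3 ln14_12_3_ok))))) (M (nat_lit 459) (B (M (nat_lit 364) (B (L (nat_lit 332) ln12_10_5 ln12_10_5_ok) (L (nat_lit 491) ln11_15_6 ln11_15_6_ok))) (M (nat_lit 430) (B (L (nat_lit 431) ln15_13_3 ln15_13_3_ok) (L (nat_lit 458) ln14_13_1 ln14_13_1_ok))))))) (B (M (nat_lit 430) (B (L (nat_lit 394) ln14_13_3 ln14_13_3_ok)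 (M (nat_lit 459) (B (L (nat_lit 458) ln14_13_1 ln14_13_1_ok) (L (nat_lit 431) ln15_13_1 ln15_13_1_ok))))) (M (nat_lit 396) (B (M (nat_lit 365) (B (L (nat_lit 333) ln13_10_5 ln13_10_5_ok) (M (nat_lit 394) (B (L (nat_lit 366) ln10_12_2 ln10_12_2_ok) (L (nat_lit 393) ln9_12_0 ln9_12_0_ok))))) (M (nat_lit 398) (B (L (nat_lit 399) ln15_12_1 ln15_12_1_ok) (M (nat_lit 363) (B (L (nat_lit 331) ln11_10_4 ln11_10_4_ok) (L (nat_lit 362) ln14_12_3 ln14_12_3_ok))))))))))))))))))) (B (K (nat_lit 2079502270913392379444674211814302674077704290823075655481512624564798400421800170032085953906810352733060637150540575368324055040) (nat_lit 82377571943944010200170296857884086063953138492329270083876043859717325490829440489932556949445233603384027832432982918203999796728778835623899079395971694592) (nat_lit 82377571943944010200170296857884086063953138492329270083876043859717325490829440489932556949445233603384027832432982918203999796728778835623899079395971694592)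 c11_s19314) (B c11_n19319 (B (M (nat_lit 427) (B (M (nat_lit 398) (B (L (nat_lit 426) ln10_13_2 ln10_13_2_ok) (M (nat_lit 399) (B (L (nat_lit 396) ln15_12_1 ln15_12_1_ok) (L (nat_lit 400) ln16_12_1 ln16_12_1_ok))))) (B (M (nat_lit 398) (B (L (nat_lit 426) ln10_13_2 ln10_13_2_ok) (M (nat_lit 399) (B (L (nat_lit 400) ln16_12_1 ln16_12_1_ok) (L (nat_lit 430) ln11_13_2 ln11_13_2_ok))))) (B (M (nat_lit 426) (B (M (nat_lit 393) (B (L (nat_lit 394) ln13_13_3 ln13_13_3_ok) (M (nat_lit 425) (B (L (nat_lit 392) ln12_13_3 ln12_13_3_ok) (L (nat_lit 396) ln9_13_2 ln9_13_2_ok))))) (B (M (nat_lit 425) (B (L (nat_lit 396) ln9_13_2 ln9_13_2_ok) (M (nat_lit 457) (B (L (nat_lit 456) ln12_13_1 ln12_13_1_ok) (L (nat_lit 458) ln13_13_1 ln13_13_1_ok))))) (M (nat_lit 430) (B (M (nat_lit 394) (B (L (nat_lit 393) ln13_13_3 ln13_13_3_ok) (L (nat_lit 395) ln14_13_3 ln14_13_3_ok))) (M (nat_lit 458) (B (L (nat_lit 457) ln13_13_1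 ln13_13_1_ok) (L (nat_lit 459) ln14_13_1 ln14_13_1_ok)))))))) (K (nat_lit 2426085982678494236891975984832188137007258925245052727377822572141626063897503372912082754669827799995234538520716021846945824768) (nat_lit 82377571969517374324172834503335933710839114810074007648004404262636379522860884460624645736036664237495238338811596033777074763163971080630044503636602519552) (nat_lit 82377571969517374324172834503335933710839114810074007648004404262636379522860884460624645736036664237495238338811596033777074763163971080630044503636602519552) c11_s19343))))) (B (M (nat_lit 427) (B (M (nat_lit 398) (B (L (nat_lit 426) ln10_13_2 ln10_13_2_ok) (M (nat_lit 399) (B (L (nat_lit 396) ln15_12_1 ln15_12_1_ok) (L (nat_lit 400) ln16_12_1 ln16_12_1_ok))))) (B (M (nat_lit 398) (B (L (nat_lit 426) ln10_13_2 ln10_13_2_ok) (M (nat_lit 399) (B (L (nat_lit 400) ln16_12_1 ln16_12_1_ok) (L (nat_lit 430) ln11_13_2 ln11_13_2_ok)))))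 (B (M (nat_lit 426) (B (M (nat_lit 393) (B (L (nat_lit 394) ln13_13_3 ln13_13_3_ok) (M (nat_lit 425) (B (L (nat_lit 392) ln12_13_3 ln12_13_3_ok) (L (nat_lit 396) ln9_13_2 ln9_13_2_ok))))) (B (M (nat_lit 425) (B (L (nat_lit 396) ln9_13_2 ln9_13_2_ok) (M (nat_lit 457) (B (L (nat_lit 456) ln12_13_1 ln12_13_1_ok) (L (nat_lit 458) ln13_13_1 ln13_13_1_ok))))) (M (nat_lit 430) (B (M (nat_lit 394) (B (L (nat_lit 393) ln13_13_3 ln13_13_3_ok) (L (nat_lit 395) ln14_13_3 ln14_13_3_ok))) (M (nat_lit 458) (B (L (nat_lit 457) ln13_13_1 ln13_13_1_ok) (L (nat_lit 459) ln14_13_1 ln14_13_1_ok)))))))) (K (nat_lit 2426085982678494236891975984832188137007258925245052727377822572141626063897503372912082754669827799995234538520716021846945824768) (nat_lit 1002458769518839376718755026783482768073289624796800710148497018810232360689396335724155801185717866412420031881218205260340592694230897465988947025791978750688796606464)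 (nat_lit 1002458769518839376718755026783482768073289624796800710148497018810232360689396335724155801185717866412420031881218205260340592694230897465988947025791978750688796606464) c11_s19504))))) (B (K (nat_lit 2079502270913392379444674211814302674077704290823075655481512624564798400421800170032085953906810352733060637150540575368324055040) (nat_lit 54918381300224900991252406138323887175845764311547419089834376892658639086131567441020047068831682810168558016526698483462764127488298259721301244951314563072) (nat_lit 54918381300224900991252406138323887175845764311547419089834376892658639086131567441020047068831682810168558016526698483462764127488298259721301244951314563072) c11_s19507) (B c11_n19575 (B (K (nat_lit 2079502270913392379444674211814302674077704290823075655481512624564798400421800170032085953906810352733060637150540575368324055040) (nat_lit 54918381319404924084579933143533453482839993501389788969444894840118214705914615060654222908286993484586815872366718224432182085182229007144733228877733691392)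 (nat_lit 54918381319404924084579933143533453482839993501389788969444894840118214705914615060654222908286993484586815872366718224432182085182229007144733228877733691392) c11_s19607) (B (K (nat_lit 2079502270913392379444674211814302674077704290823075655481512624564798400421800170032085953906810352733060637150540575368324055040) (nat_lit 117936325871780334524151313172660183341992406080951246353853514948716826115744551461075888734675467882347592977084088197171804389499917121241841832958323867100618162176) (nat_lit 117936325871780334524151313172660183341992406080951246353853514948716826115744551461075888734675467882347592977084088197171804389499917121241841832958323867100618162176) c11_s19668) (B c11_n19715 (B (M (nat_lit 460) (B (M (nat_lit 492) (B (L (nat_lit 524) ln12_16_6 ln12_16_6_ok) (M (nat_lit 365) (B (L (nat_lit 333) ln13_10_5 ln13_10_5_ok) (L (nat_lit 396) ln12_15_6 ln12_15_6_ok))))) (B (M (nat_lit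 492) (B (L (nat_lit 524) ln12_16_6 ln12_16_6_ok) (M (nat_lit 365) (B (L (nat_lit 396) ln12_15_6 ln12_15_6_ok) (L (nat_lit 461) ln13_11_5 ln13_11_5_ok))))) (B (M (nat_lit 492) (B (L (nat_lit 524) ln12_16_6 ln12_16_6_ok) (M (nat_lit 396) (B (M (nat_lit 395) (B (L (nat_lit 363) ln12_15_7 ln12_15_7_ok) (M (nat_lit 430) (B (L (nat_lit 394) ln10_12_0 ln10_12_0_ok) (L (nat_lit 431) ln15_13_3 ln15_13_3_ok))))) (M (nat_lit 364) (B (M (nat_lit 332) (B (L (nat_lit 300) ln12_9_4 ln12_9_4_ok) (L (nat_lit 461) ln12_10_4 ln12_10_4_ok))) (B (M (nat_lit 461) (B (L (nat_lit 332) ln12_10_4 ln12_10_4_ok) (L (nat_lit 493) ln13_15_7 ln13_15_7_ok))) (B (M (nat_lit 493) (B (L (nat_lit 461) ln13_15_7 ln13_15_7_ok) (L (nat_lit 525) ln12_12_4 ln12_12_4_ok))) (M (nat_lit 491) (B (L (nat_lit 459) ln12_11_5 ln12_11_5_ok) (L (nat_lit 523) ln12_12_5 ln12_12_5_ok))))))))))) (B (M (nat_lit 492) (B (L (nat_lit 524) ln12_16_6 ln12_16_6_ok)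 (M (nat_lit 365) (B (L (nat_lit 333) ln13_10_5 ln13_10_5_ok) (L (nat_lit 461) ln13_11_5 ln13_11_5_ok))))) (M (nat_lit 365) (B (L (nat_lit 333) ln13_10_5 ln13_10_5_ok) (M (nat_lit 461) (B (M (nat_lit 366) (B (L (nat_lit 334) ln13_14_6 ln13_14_6_ok) (M (nat_lit 493) (B (L (nat_lit 398) ln13_15_6 ln13_15_6_ok) (M (nat_lit 396) (B (L (nat_lit 364) ln13_15_7 ln13_15_7_ok) (L (nat_lit 525) ln13_16_7 ln13_16_7_ok))))))) (B (M (nat_lit 493) (B (M (nat_lit 364) (B (L (nat_lit 332) ln13_14_7 ln13_14_7_ok) (L (nat_lit 396) ln13_15_7 ln13_15_7_ok))) (B (M (nat_lit 396) (B (L (nat_lit 364) ln13_15_7 ln13_15_7_ok) (L (nat_lit 525) ln13_16_7 ln13_16_7_ok))) (B (M (nat_lit 525) (B (L (nat_lit 396) ln13_16_7 ln13_16_7_ok) (L (nat_lit 557) ln13_17_7 ln13_17_7_ok))) (M (nat_lit 525) (B (L (nat_lit 557) ln13_17_7 ln13_17_7_ok) (M (nat_lit 526) (B (L (nat_lit 494) ln13_12_4 ln13_12_4_ok) (L (nat_lit 558) ln13_13_4 ln13_13_4_ok)))))))))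 (B (M (nat_lit 493) (B (M (nat_lit 366) (B (L (nat_lit 334) ln13_14_6 ln13_14_6_ok) (L (nat_lit 398) ln13_15_6 ln13_15_6_ok))) (M (nat_lit 525) (B (L (nat_lit 396) ln13_16_7 ln13_16_7_ok) (L (nat_lit 557) ln13_17_7 ln13_17_7_ok))))) (B (M (nat_lit 493) (B (M (nat_lit 366) (B (L (nat_lit 334) ln13_14_6 ln13_14_6_ok) (L (nat_lit 398) ln13_15_6 ln13_15_6_ok))) (M (nat_lit 525) (B (L (nat_lit 557) ln13_17_7 ln13_17_7_ok) (M (nat_lit 526) (B (L (nat_lit 494) ln13_12_4 ln13_12_4_ok) (L (nat_lit 558) ln13_13_4 ln13_13_4_ok))))))) (M (nat_lit 364) (B (L (nat_lit 332) ln13_14_7 ln13_14_7_ok) (M (nat_lit 396) (B (M (nat_lit 363) (B (L (nat_lit 331) ln12_14_7 ln12_14_7_ok) (M (nat_lit 362) (B (L (nat_lit 361) ln9_11_0 ln9_11_0_ok) (L (nat_lit 398) ln10_11_0 ln10_11_0_ok))))) (M (nat_lit 459) (B (L (nat_lit 491) ln12_11_5 ln12_11_5_ok) (M (nat_lit 430) (B (L (nat_lit 431) ln15_13_1 ln15_13_1_ok) (L (nat_lit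 458) ln10_14_2 ln10_14_2_ok))))))))))))))))))))) (B c11_n19833 (B c11_n19924 (B (K (nat_lit 2079502270913392379444674211814302674077704290823075655481512624564798400421800170032085953906810352733060637150540575368324055040) (nat_lit 294840814535290085408076681433584833401517699491421362583983778441327942579446273853966843452861345847335596733921690793077331724981290015532742302024505036524876726272) (nat_lit 294840814535290085408076681433584833401517699491421362583983778441327942579446273853966843452861345847335596733921690793077331724981290015532742302024505036524876726272) c11_s19927) (B (M (nat_lit 427) (B (M (nat_lit 398) (B (L (nat_lit 426) ln10_13_2 ln10_13_2_ok) (M (nat_lit 399) (B (L (nat_lit 396) ln15_12_1 ln15_12_1_ok) (L (nat_lit 400) ln16_12_1 ln16_12_1_ok))))) (B (M (nat_lit 398) (B (L (nat_lit 426) ln10_13_2 ln10_13_2_ok) (M (nat_lit 399) (B (L (nat_lit 400) ln16_12_1 ln16_12_1_ok)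 (L (nat_lit 430) ln11_13_2 ln11_13_2_ok))))) (B (M (nat_lit 426) (B (M (nat_lit 393) (B (L (nat_lit 394) ln13_13_3 ln13_13_3_ok) (M (nat_lit 425) (B (L (nat_lit 392) ln12_13_3 ln12_13_3_ok) (L (nat_lit 396) ln9_13_2 ln9_13_2_ok))))) (B (M (nat_lit 425) (B (L (nat_lit 396) ln9_13_2 ln9_13_2_ok) (M (nat_lit 457) (B (L (nat_lit 456) ln12_13_1 ln12_13_1_ok) (L (nat_lit 458) ln13_13_1 ln13_13_1_ok))))) (M (nat_lit 430) (B (M (nat_lit 394) (B (L (nat_lit 393) ln13_13_3 ln13_13_3_ok) (L (nat_lit 395) ln14_13_3 ln14_13_3_ok))) (M (nat_lit 458) (B (L (nat_lit 457) ln13_13_1 ln13_13_1_ok) (L (nat_lit 459) ln14_13_1 ln14_13_1_ok)))))))) (M (nat_lit 395) (B (M (nat_lit 394) (B (L (nat_lit 430) ln14_13_3 ln14_13_3_ok) (M (nat_lit 393) (B (L (nat_lit 392) ln8_12_0 ln8_12_0_ok) (L (nat_lit 396) ln9_12_0 ln9_12_0_ok))))) (B (M (nat_lit 430) (B (L (nat_lit 394) ln14_13_3 ln14_13_3_ok) (M (nat_lit 459) (B (L (nat_lit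 458) ln14_13_1 ln14_13_1_ok) (M (nat_lit 431) (B (L (nat_lit 396) ln15_13_3 ln15_13_3_ok) (L (nat_lit 460) ln15_13_1 ln15_13_1_ok))))))) (B (M (nat_lit 396) (B (M (nat_lit 363) (B (M (nat_lit 331) (B (L (nat_lit 299) ln11_9_4 ln11_9_4_ok) (L (nat_lit 460) ln11_10_4 ln11_10_4_ok))) (M (nat_lit 398) (B (L (nat_lit 362) ln14_12_3 ln14_12_3_ok) (L (nat_lit 399) ln15_12_1 ln15_12_1_ok))))) (M (nat_lit 459) (B (M (nat_lit 364) (B (L (nat_lit 332) ln12_10_5 ln12_10_5_ok) (L (nat_lit 491) ln11_15_6 ln11_15_6_ok))) (M (nat_lit 430) (B (L (nat_lit 431) ln15_13_3 ln15_13_3_ok) (L (nat_lit 458) ln14_13_1 ln14_13_1_ok))))))) (B (M (nat_lit 430) (B (L (nat_lit 394) ln14_13_3 ln14_13_3_ok) (M (nat_lit 431) (B (M (nat_lit 399) (B (L (nat_lit 398) ln11_13_2 ln11_13_2_ok) (L (nat_lit 400) ln12_13_2 ln12_13_2_ok))) (M (nat_lit 459) (B (L (nat_lit 458) ln14_13_1 ln14_13_1_ok) (L (nat_lit 460) ln15_13_1 ln15_13_1_ok)))))))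 (M (nat_lit 396) (B (M (nat_lit 394) (B (L (nat_lit 393) ln9_12_0 ln9_12_0_ok) (M (nat_lit 362) (B (L (nat_lit 361) ln13_12_3 ln13_12_3_ok) (M (nat_lit 398) (B (L (nat_lit 363) ln14_12_3 ln14_12_3_ok) (L (nat_lit 399) ln15_12_1 ln15_12_1_ok))))))) (B (M (nat_lit 365) (B (M (nat_lit 333) (B (L (nat_lit 301) ln13_9_5 ln13_9_5_ok) (L (nat_lit 460) ln13_10_5 ln13_10_5_ok))) (M (nat_lit 394) (B (L (nat_lit 366) ln10_12_2 ln10_12_2_ok) (L (nat_lit 393) ln9_12_0 ln9_12_0_ok))))) (M (nat_lit 363) (B (M (nat_lit 398) (B (L (nat_lit 362) ln14_12_3 ln14_12_3_ok) (L (nat_lit 399) ln15_12_1 ln15_12_1_ok))) (M (nat_lit 460) (B (L (nat_lit 331) ln11_10_4 ln11_10_4_ok) (L (nat_lit 492) ln12_15_7 ln12_15_7_ok))))))))))))))))) (M (nat_lit 427) (B (M (nat_lit 398) (B (L (nat_lit 426) ln10_13_2 ln10_13_2_ok) (M (nat_lit 399) (B (L (nat_lit 396) ln15_12_1 ln15_12_1_ok) (L (nat_lit 400) ln16_12_1 ln16_12_1_ok))))) (B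 (M (nat_lit 398) (B (L (nat_lit 426) ln10_13_2 ln10_13_2_ok) (M (nat_lit 399) (B (L (nat_lit 400) ln16_12_1 ln16_12_1_ok) (L (nat_lit 430) ln11_13_2 ln11_13_2_ok))))) (B (M (nat_lit 426) (B (M (nat_lit 393) (B (L (nat_lit 394) ln13_13_3 ln13_13_3_ok) (M (nat_lit 425) (B (L (nat_lit 392) ln12_13_3 ln12_13_3_ok) (L (nat_lit 396) ln9_13_2 ln9_13_2_ok))))) (B (M (nat_lit 425) (B (L (nat_lit 396) ln9_13_2 ln9_13_2_ok) (M (nat_lit 457) (B (L (nat_lit 456) ln12_13_1 ln12_13_1_ok) (L (nat_lit 458) ln13_13_1 ln13_13_1_ok))))) (M (nat_lit 430) (B (M (nat_lit 394) (B (L (nat_lit 393) ln13_13_3 ln13_13_3_ok) (L (nat_lit 395) ln14_13_3 ln14_13_3_ok))) (M (nat_lit 458) (B (L (nat_lit 457) ln13_13_1 ln13_13_1_ok) (L (nat_lit 459) ln14_13_1 ln14_13_1_ok)))))))) (M (nat_lit 430) (B (M (nat_lit 395) (B (L (nat_lit 394) ln14_13_3 ln14_13_3_ok) (M (nat_lit 459) (B (L (nat_lit 458) ln14_13_1 ln14_13_1_ok) (M (nat_lit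 431) (B (L (nat_lit 396) ln15_13_3 ln15_13_3_ok) (L (nat_lit 460) ln15_13_1 ln15_13_1_ok))))))) (B (M (nat_lit 431) (B (M (nat_lit 396) (B (L (nat_lit 395) ln15_13_3 ln15_13_3_ok) (L (nat_lit 432) ln16_13_3 ln16_13_3_ok))) (M (nat_lit 459) (B (L (nat_lit 458) ln14_13_1 ln14_13_1_ok) (L (nat_lit 460) ln15_13_1 ln15_13_1_ok))))) (B (M (nat_lit 431) (B (M (nat_lit 399) (B (L (nat_lit 398) ln11_13_2 ln11_13_2_ok) (L (nat_lit 400) ln12_13_2 ln12_13_2_ok))) (M (nat_lit 459) (B (L (nat_lit 458) ln14_13_1 ln14_13_1_ok) (L (nat_lit 460) ln15_13_1 ln15_13_1_ok))))) (B (M (nat_lit 396) (B (M (nat_lit 395) (B (L (nat_lit 394) ln10_12_0 ln10_12_0_ok) (M (nat_lit 459) (B (L (nat_lit 458) ln14_13_1 ln14_13_1_ok) (M (nat_lit 364) (B (L (nat_lit 332) ln12_10_5 ln12_10_5_ok) (L (nat_lit 491) ln11_15_6 ln11_15_6_ok))))))) (B (M (nat_lit 395) (B (L (nat_lit 394) ln10_12_0 ln10_12_0_ok) (M (nat_lit 459) (B (L (nat_lit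 458) ln14_13_1 ln14_13_1_ok) (M (nat_lit 491) (B (L (nat_lit 364) ln11_15_6 ln11_15_6_ok) (L (nat_lit 523) ln11_16_6 ln11_16_6_ok))))))) (B (M (nat_lit 395) (B (L (nat_lit 394) ln10_12_0 ln10_12_0_ok) (M (nat_lit 363) (B (M (nat_lit 331) (B (L (nat_lit 299) ln11_9_4 ln11_9_4_ok) (L (nat_lit 460) ln11_10_4 ln11_10_4_ok))) (M (nat_lit 398) (B (L (nat_lit 362) ln14_12_3 ln14_12_3_ok) (L (nat_lit 399) ln15_12_1 ln15_12_1_ok))))))) (M (nat_lit 459) (B (L (nat_lit 458) ln14_13_1 ln14_13_1_ok) (M (nat_lit 364) (B (L (nat_lit 332) ln12_10_5 ln12_10_5_ok) (M (nat_lit 491) (B (L (nat_lit 460) ln12_11_5 ln12_11_5_ok) (L (nat_lit 523) ln11_16_6 ln11_16_6_ok))))))))))) (M (nat_lit 431) (B (M (nat_lit 395) (B (L (nat_lit 394) ln14_13_3 ln14_13_3_ok) (L (nat_lit 396) ln15_13_3 ln15_13_3_ok))) (M (nat_lit 399) (B (L (nat_lit 398) ln11_13_2 ln11_13_2_ok) (L (nat_lit 400) ln12_13_2 ln12_13_2_ok))))))))))))))))))))))))))))))))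 (nat_lit 1386334847383188664550070665778531748218595021979121511688892729411143073470393764272092352380775458208712834410189682411080515584) (nat_lit 1828013049948551547521595091541385947219966993153631421903592589013603494664294680832741246719038209738025978772332969689698646789281993229054819446662914061653063499776) (nat_lit 1828013049948551547521595091541385947219966993153631421903592589013603494664294680832741246719038209738025978772332969689698646789281993229054819446662914061653063499776) (by decide +kernel)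
def c11_U : ℕ := 35039543960606817717768658456304984541572716003943573952943137774675504304050852993869068262254592726045377476546439863340731937704450662871933969457368976477712038343319581871951177067386139312128
noncomputable def c11_kids : Cert := (B (K (nat_lit 1386334847383188664550070665778531748218595021979121511688892729411143073470393764272092352380775458208712834410189682411080515584) (nat_lit 1179363258141160341632306725041411996683121851573712146622654387803635372366236488486197976036245525980629507179713024691665822271075987756169643167872986979250017927168) (nat_lit 1179363258141160341632306725041411996683121851573712146622654387803635372366236488486197976036245525980629507179713024691665822271075987756169643167872986979250017927168) c11_s108) (B (K (nat_lit 1386334847383188664550070665778531748218595021979121511688892729411143073470393764272092352380775458208712834410189682411080515584)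 (nat_lit 1013065326084944732783130527616072804505003914154504899815615943295316475428091028725286627095986365431770415917450345477977807972592329101543120222049761796031658455384547393536) (nat_lit 1013065326084944732783130527616072804505003914154504899815615943295316475428091028725286627095986365431770415917450345477977807972592329101543120222049761796031658455384547393536) c11_s1652) (B (K (nat_lit 1386334847383188664550070665778531748218595021979121511688892729411143073470393764272092352380775458208712834410189682411080515584) (nat_lit 1013065325790103918797024254938927721371879908715439378135042477052500876361133306565970471764069109264439529489615993470233883846127227824675400085977445550901392204035581280256) (nat_lit 1013065325790103918797024254938927721371879908715439378135042477052500876361133306565970471764069109264439529489615993470233883846127227824675400085977445550901392204035581280256)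 c11_s3738) (B (K (nat_lit 1386334847383188664550070665778531748218595021979121511688892729411143073470393764272092352380775458208712834410189682411080515584) (nat_lit 1179363260777242643844908392271742297625273170269967169214234565403453401884518015960602635176214739730740001091426848312469249017911540705247363749455925106456651628544) (nat_lit 1179363260777242643844908392271742297625273170269967169214234565403453401884518015960602635176214739730740001091426848312469249017911540705247363749455925106456651628544) c11_s5223) (B (K (nat_lit 1386334847383188664550070665778531748218595021979121511688892729411143073470393764272092352380775458208712834410189682411080515584) (nat_lit 1179363258168619532284816678408609153989026875648321377207159057662601700250790413505474478534754836852520182862402611297674490312662653008416843038107041256819426066432) (nat_lit 1179363258168619532284816678408609153989026875648321377207159057662601700250790413505474478534754836852520182862402611297674490312662653008416843038107041256819426066432)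 c11_s5950) (B (K (nat_lit 1386334847383188664550070665778531748218595021979121511688892729411143073470393764272092352380775458208712834410189682411080515584) (nat_lit 35039543960606817717768658456304984541572716003943573952943137774542383666509745555885369559398651818643931115492964959273606915330921913911395699585888053781497333755933991336624563495428281073664) (nat_lit 35039543960606817717768658456304984541572716003943573952943137774542383666509745555885369559398651818643931115492964959273606915330921913911395699585888053781497333755933991336624563495428281073664) c11_s10478) (B (K (nat_lit 1386334847383188664550070665778531748218595021979121511688892729411143073470393764272092352380775458208712834410189682411080515584) (nat_lit 54918381319404923915069513179478467096490455548494069323124366234205653292193935129729319674781649938500833251819506310855304337236320684042984465303789895680) (nat_lit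 54918381319404923915069513179478467096490455548494069323124366234205653292193935129729319674781649938500833251819506310855304337236320684042984465303789895680) c11_s10521) (B (K (nat_lit 1386334847383188664550070665778531748218595021979121511688892729411143073470393764272092352380775458208712834410189682411080515584) (nat_lit 117936325981617097418694802393541864091775642370399144713322417062163642653637405890943868844119743233792159405996113563887264354224735240870136200446246161826382348288) (nat_lit 117936325981617097418694802393541864091775642370399144713322417062163642653637405890943868844119743233792159405996113563887264354224735240870136200446246161826382348288) c11_s11868) (B (K (nat_lit 1386334847383188664550070665778531748218595021979121511688892729411143073470393764272092352380775458208712834410189682411080515584) (nat_lit 1179363258182349127605077897767121801634034322304598431054017750724142394674982811900633493265537078602870096492686699659153784728265161122289004793653317097892815568896)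 (nat_lit 1179363258182349127605077897767121801634034322304598431054017750724142394674982811900633493265537078602870096492686699659153784728265161122289004793653317097892815568896) c11_s12281) (B (K (nat_lit 1386334847383188664550070665778531748218595021979121511688892729411143073470393764272092352380775458208712834410189682411080515584) (nat_lit 1266331657370308264338324455244482161018012888056127114503467380339079198571199828855245531681502555567086884324722291430937063796537421019502484424652173843935714752707149430784) (nat_lit 1266331657370308264338324455244482161018012888056127114503467380339079198571199828855245531681502555567086884324722291430937063796537421019502484424652173843935714752707149430784) c11_s13714) (B (K (nat_lit 1386334847383188664550070665778531748218595021979121511688892729411143073470393764272092352380775458208712834410189682411080515584) (nat_lit 1238331421070185711336145644591817936559067467058367342885100125600371927333778028616082039712870922422469499483450613261066349218304654998186424834073051368707703439360)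 (nat_lit 1238331421070185711336145644591817936559067467058367342885100125600371927333778028616082039712870922422469499483450613261066349218304654998186424834073051368707703439360) c11_s14941) (B (K (nat_lit 1386334847383188664550070665778531748218595021979121511688892729411143073470393764272092352380775458208712834410189682411080515584) (nat_lit 294840814535290085409675016688369490010006761836891318320190637773279070090216480570706476448734155378775976605999483490209402312980309785204871048320525849876097925120) (nat_lit 294840814535290085409675016688369490010006761836891318320190637773279070090216480570706476448734155378775976605999483490209402312980309785204871048320525849876097925120) c11_s17338) (B (K (nat_lit 1386334847383188664550070665778531748218595021979121511688892729411143073470393764272092352380775458208712834410189682411080515584) (nat_lit 943490606589814007117209563729645190983571735652803780229945701153128605503964524618001435956464507449741889684281300202432795839214053137538535178398909076435846037504)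 (nat_lit 943490606589814007117209563729645190983571735652803780229945701153128605503964524618001435956464507449741889684281300202432795839214053137538535178398909076435846037504) c11_s17421) (B (K (nat_lit 1386334847383188664550070665778531748218595021979121511688892729411143073470393764272092352380775458208712834410189682411080515584) (nat_lit 1179363258141160341632306725041411996665879311927600703545932802543163374112884082980345982975349308809688108691979632221359341686709299176861452622723096932295689371648) (nat_lit 1179363258141160341632306725041411996665879311927600703545932802543163374112884082980345982975349308809688108691979632221359341686709299176861452622723096932295689371648) c11_s17476) (B (K (nat_lit 1386334847383188664550070665778531748218595021979121511688892729411143073470393764272092352380775458208712834410189682411080515584) (nat_lit 1179363258141160341638700066075064138760910140757445715598995704626889758014552039064629229357093199109487630297488813590743007460441661703693248834364140450734739030016)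 (nat_lit 1179363258141160341638700066075064138760910140757445715598995704626889758014552039064629229357093199109487630297488813590743007460441661703693248834364140450734739030016) c11_s17698) (B (K (nat_lit 1386334847383188664550070665778531748218595021979121511688892729411143073470393764272092352380775458208712834410189682411080515584) (nat_lit 1415235909637588294866359008635556444555995744032318232611283782400080534648807579128880169667300123689301656213018738730159017241460334367090936729069496224720000909312) (nat_lit 1415235909637588294866359008635556444555995744032318232611283782400080534648807579128880169667300123689301656213018738730159017241460334367090936729069496224720000909312) c11_s17993) (B (K (nat_lit 1386334847383188664550070665778531748218595021979121511688892729411143073470393764272092352380775458208712834410189682411080515584) (nat_lit 235872651716101478406181852212373176945499762702021610216601326491262565865428229165269799967651839919287633053861107209008266363803778409408063611727735585015720837120)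 (nat_lit 235872651716101478406181852212373176945499762702021610216601326491262565865428229165269799967651839919287633053861107209008266363803778409408063611727735585015720837120) c11_s18733) (B (K (nat_lit 1386334847383188664550070665778531748218595021979121511688892729411143073470393764272092352380775458208712834410189682411080515584) (nat_lit 58968163011402941546288640879911636551095855489802828254008490612828010054261776530820548654520583168962983362866025377954994852906800211679147572303518403574429122560) (nat_lit 58968163011402941546288640879911636551095855489802828254008490612828010054261776530820548654520583168962983362866025377954994852906800211679147572303518403574429122560) c11_s18988) (B (K (nat_lit 1386334847383188664550070665778531748218595021979121511688892729411143073470393764272092352380775458208712834410189682411080515584) (nat_lit 1179363258141160341632306725041411996705216563203881715965710728488036671807936784993067836684726959468948113514138334372291719832995322891613804994125363449920531464192)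 (nat_lit 1179363258141160341632306725041411996705216563203881715965710728488036671807936784993067836684726959468948113514138334372291719832995322891613804994125363449920531464192) c11_s19027) (B (K (nat_lit 1386334847383188664550070665778531748218595021979121511688892729411143073470393764272092352380775458208712834410189682411080515584) (nat_lit 1179363258141160341638700066075064138782961529426226897087335677394395824603053233866780771527604081688739009909287356775574275995096946037088373182459665656142108819456) (nat_lit 1179363258141160341638700066075064138782961529426226897087335677394395824603053233866780771527604081688739009909287356775574275995096946037088373182459665656142108819456) c11_s19173) (B (K (nat_lit 1386334847383188664550070665778531748218595021979121511688892729411143073470393764272092352380775458208712834410189682411080515584) (nat_lit 1651108561243853010662501047664945608027721794771332567902699724843815600510611934751886964201202513083999539497512295524479824811593318735893788555861396814132001374208)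 (nat_lit 1651108561243853010662501047664945608027721794771332567902699724843815600510611934751886964201202513083999539497512295524479824811593318735893788555861396814132001374208) c11_s19190) (K (nat_lit 1386334847383188664550070665778531748218595021979121511688892729411143073470393764272092352380775458208712834410189682411080515584) (nat_lit 1828013049948551547521595091541385947219966993153631421903592589013603494664294680832741246719038209738025978772332969689698646789281993229054819446662914061653063499776) (nat_lit 1828013049948551547521595091541385947219966993153631421903592589013603494664294680832741246719038209738025978772332969689698646789281993229054819446662914061653063499776) c11_s19956))))))))))))))))))))))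
theorem c11_win : ∃ n, ∀ B : Set Cell, Avoids B c11_U → MakerForces n (cellsOf (1 <<< 429)) B :=
  forces_of_chk (1 <<< 429) (nat_lit 397) c11_kids c11_U c11_U (by decide +kernel)

end Vale.Agent.Lib.P062.Data
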