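import Vale.Agent.Lib.P062.Data.Lines

namespace Vale.Agent.Lib.P062.Data

noncomputable def c20_n171 : Cert := (M (nat_lit 493) (B (M (nat_lit 525) (B (M (nat_lit 396) (B (L (nat_lit 364) ln13_15_7 ln13_15_7_ok) (L (nat_lit 428) ln13_16_7 ln13_16_7_ok))) (M (nat_lit 398) (B (L (nat_lit 366) ln13_15_6 ln13_15_6_ok) (L (nat_lit 430) ln13_16_6 ln13_16_6_ok))))) (B (M (nat_lit 398) (B (L (nat_lit 366) ln13_15_6 ln13_15_6_ok) (M (nat_lit 428) (B (M (nat_lit 525) (B (L (nat_lit 396) ln13_16_7 ln13_16_7_ok) (L (nat_lit 430) ln13_16_6 ln13_16_6_ok))) (B (M (nat_lit 399) (B (L (nat_lit 400) ln16_12_1 ln16_12_1_ok) (M (nat_lit 427) (B (L (nat_lit 426) ln10_13_2 ln10_13_2_ok) (L (nat_lit 430) ln11_13_2 ln11_13_2_ok))))) (M (nat_lit 396) (B (L (nat_lit 525) ln13_16_7 ln13_16_7_ok) (M (nat_lit 399) (B (L (nat_lit 427) ln15_12_1 ln15_12_1_ok) (L (nat_lit 400) ln16_12_1 ln16_12_1_ok)))))))))) (B (M (nat_lit 492) (B (L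 (nat_lit 524) ln13_12_5 ln13_12_5_ok) (M (nat_lit 396) (B (L (nat_lit 364) ln13_15_7 ln13_15_7_ok) (M (nat_lit 460) (B (M (nat_lit 494) (B (L (nat_lit 526) ln13_12_4 ln13_12_4_ok) (M (nat_lit 459) (B (L (nat_lit 458) ln10_14_0 ln10_14_0_ok) (L (nat_lit 495) ln15_15_3 ln15_15_3_ok))))) (M (nat_lit 491) (B (M (nat_lit 428) (B (L (nat_lit 525) ln13_16_7 ln13_16_7_ok) (L (nat_lit 523) ln12_12_5 ln12_12_5_ok))) (M (nat_lit 462) (B (L (nat_lit 463) ln15_14_1 ln15_14_1_ok) (L (nat_lit 490) ln10_15_2 ln10_15_2_ok))))))))))) (B (M (nat_lit 492) (B (L (nat_lit 524) ln13_12_5 ln13_12_5_ok) (M (nat_lit 491) (B (M (nat_lit 462) (B (L (nat_lit 490) ln10_15_2 ln10_15_2_ok) (M (nat_lit 463) (B (L (nat_lit 460) ln15_14_1 ln15_14_1_ok) (L (nat_lit 494) ln11_15_2 ln11_15_2_ok))))) (B (M (nat_lit 462) (B (L (nat_lit 490) ln10_15_2 ln10_15_2_ok) (M (nat_lit 463) (B (L (nat_lit 464) ln16_14_1 ln16_14_1_ok) (L (nat_lit 494) ln11_15_2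 ln11_15_2_ok))))) (B (M (nat_lit 525) (B (M (nat_lit 398) (B (L (nat_lit 366) ln13_15_6 ln13_15_6_ok) (L (nat_lit 430) ln13_16_6 ln13_16_6_ok))) (M (nat_lit 526) (B (L (nat_lit 494) ln13_12_4 ln13_12_4_ok) (L (nat_lit 490) ln10_15_0 ln10_15_0_ok))))) (B (M (nat_lit 494) (B (L (nat_lit 526) ln13_12_4 ln13_12_4_ok) (M (nat_lit 495) (B (M (nat_lit 459) (B (L (nat_lit 458) ln14_15_3 ln14_15_3_ok) (L (nat_lit 460) ln15_15_3 ln15_15_3_ok))) (M (nat_lit 463) (B (L (nat_lit 462) ln11_15_2 ln11_15_2_ok) (L (nat_lit 464) ln12_15_2 ln12_15_2_ok))))))) (M (nat_lit 462) (B (L (nat_lit 490) ln10_15_2 ln10_15_2_ok) (M (nat_lit 463) (B (L (nat_lit 460) ln15_14_1 ln15_14_1_ok) (L (nat_lit 464) ln16_14_1 ln16_14_1_ok)))))))))))) (M (nat_lit 428) (B (M (nat_lit 398) (B (L (nat_lit 366) ln13_15_6 ln13_15_6_ok) (M (nat_lit 399) (B (L (nat_lit 400) ln16_12_1 ln16_12_1_ok) (M (nat_lit 427) (B (L (nat_lit 426) ln10_13_2 ln10_13_2_ok)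 (L (nat_lit 430) ln11_13_2 ln11_13_2_ok))))))) (B (M (nat_lit 460) (B (M (nat_lit 492) (B (L (nat_lit 524) ln12_16_6 ln12_16_6_ok) (M (nat_lit 494) (B (L (nat_lit 526) ln13_12_4 ln13_12_4_ok) (M (nat_lit 459) (B (L (nat_lit 458) ln10_14_0 ln10_14_0_ok) (L (nat_lit 495) ln15_15_3 ln15_15_3_ok))))))) (B (M (nat_lit 396) (B (L (nat_lit 364) ln13_15_7 ln13_15_7_ok) (M (nat_lit 395) (B (M (nat_lit 492) (B (L (nat_lit 363) ln12_15_7 ln12_15_7_ok) (L (nat_lit 524) ln12_16_6 ln12_16_6_ok))) (M (nat_lit 394) (B (L (nat_lit 393) ln9_12_0 ln9_12_0_ok) (L (nat_lit 430) ln10_12_0 ln10_12_0_ok))))))) (M (nat_lit 459) (B (M (nat_lit 458) (B (L (nat_lit 457) ln9_14_2 ln9_14_2_ok) (L (nat_lit 430) ln10_14_2 ln10_14_2_ok))) (B (M (nat_lit 458) (B (L (nat_lit 457) ln9_14_2 ln9_14_2_ok) (L (nat_lit 494) ln10_14_0 ln10_14_0_ok))) (B (M (nat_lit 458) (B (L (nat_lit 430) ln10_14_2 ln10_14_2_ok) (L (nat_lit 494) ln10_14_0 ln10_14_0_ok)))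 (M (nat_lit 462) (B (M (nat_lit 427) (B (L (nat_lit 426) ln10_13_0 ln10_13_0_ok) (L (nat_lit 463) ln15_14_3 ln15_14_3_ok))) (M (nat_lit 494) (B (L (nat_lit 526) ln13_12_4 ln13_12_4_ok) (L (nat_lit 495) ln11_14_0 ln11_14_0_ok)))))))))))) (B (M (nat_lit 396) (B (L (nat_lit 364) ln13_15_7 ln13_15_7_ok) (M (nat_lit 398) (B (L (nat_lit 366) ln13_15_6 ln13_15_6_ok) (M (nat_lit 399) (B (L (nat_lit 427) ln15_12_1 ln15_12_1_ok) (L (nat_lit 400) ln16_12_1 ln16_12_1_ok))))))) (M (nat_lit 396) (B (L (nat_lit 364) ln13_15_7 ln13_15_7_ok) (M (nat_lit 395) (B (M (nat_lit 394) (B (L (nat_lit 393) ln9_12_0 ln9_12_0_ok) (L (nat_lit 430) ln10_12_0 ln10_12_0_ok))) (M (nat_lit 363) (B (M (nat_lit 398) (B (L (nat_lit 362) ln14_12_3 ln14_12_3_ok) (L (nat_lit 366) ln13_15_6 ln13_15_6_ok))) (M (nat_lit 492) (B (L (nat_lit 460) ln12_15_7 ln12_15_7_ok) (L (nat_lit 524) ln13_12_5 ln13_12_5_ok))))))))))))))))))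
theorem c20_s214 : Sem (nat_lit 5954262830815946494440468064007740237496571878468728087513875999273036838532266441790969898967138332125836366047228135112217242456098340864) (nat_lit 411887859809226825465841139794363730197765515738928293129642270254290714345984444949533842518577123599028318528187284953246199445858097880756664468160877953024) (nat_lit 411887859809226825465841139794363730197765515738928293129642270254290714345984444949533842518577123599028318528187284953246199445858097880756664468160877953024) :=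
  sem_of_chk (M (nat_lit 397) (B (M (nat_lit 365) (B (M (nat_lit 364) (B (L (nat_lit 332) ln13_14_7 ln13_14_7_ok) (M (nat_lit 366) (B (L (nat_lit 334) ln13_14_6 ln13_14_6_ok) (M (nat_lit 493) (B (L (nat_lit 396) ln13_15_7 ln13_15_7_ok) (L (nat_lit 398) ln13_15_6 ln13_15_6_ok))))))) (B (M (nat_lit 333) (B (M (nat_lit 334) (B (L (nat_lit 302) ln13_13_6 ln13_13_6_ok) (L (nat_lit 366) ln13_14_6 ln13_14_6_ok))) (M (nat_lit 460) (B (L (nat_lit 428) ln13_10_5 ln13_10_5_ok) (L (nat_lit 492) ln13_11_5 ln13_11_5_ok))))) (M (nat_lit 333) (B (M (nat_lit 332) (B (L (nat_lit 300) ln13_13_7 ln13_13_7_ok) (L (nat_lit 364) ln13_14_7 ln13_14_7_ok))) (M (nat_lit 460) (B (L (nat_lit 428) ln13_10_5 ln13_10_5_ok) (L (nat_lit 492) ln13_11_5 ln13_11_5_ok)))))))) (B (M (nat_lit 365) (B (M (nat_lit 333) (B (M (nat_lit 334) (B (L (nat_lit 302) ln13_13_6 ln13_13_6_ok) (L (nat_lit 366) ln13_14_6 ln13_14_6_ok))) (M (nat_lit 460) (B (L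 (nat_lit 428) ln13_10_5 ln13_10_5_ok) (L (nat_lit 492) ln13_11_5 ln13_11_5_ok))))) (M (nat_lit 493) (B (M (nat_lit 364) (B (L (nat_lit 332) ln13_14_7 ln13_14_7_ok) (L (nat_lit 396) ln13_15_7 ln13_15_7_ok))) (M (nat_lit 494) (B (L (nat_lit 462) ln13_11_4 ln13_11_4_ok) (L (nat_lit 526) ln13_12_4 ln13_12_4_ok))))))) (B (M (nat_lit 365) (B (M (nat_lit 333) (B (M (nat_lit 460) (B (L (nat_lit 428) ln13_10_5 ln13_10_5_ok) (L (nat_lit 492) ln13_11_5 ln13_11_5_ok))) (M (nat_lit 462) (B (L (nat_lit 430) ln13_10_4 ln13_10_4_ok) (L (nat_lit 494) ln13_11_4 ln13_11_4_ok))))) (B (M (nat_lit 493) (B (M (nat_lit 364) (B (L (nat_lit 332) ln13_14_7 ln13_14_7_ok) (L (nat_lit 396) ln13_15_7 ln13_15_7_ok))) (M (nat_lit 494) (B (L (nat_lit 462) ln13_11_4 ln13_11_4_ok) (L (nat_lit 526) ln13_12_4 ln13_12_4_ok))))) (M (nat_lit 333) (B (M (nat_lit 332) (B (L (nat_lit 300) ln13_13_7 ln13_13_7_ok) (L (nat_lit 364) ln13_14_7 ln13_14_7_ok)))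 (M (nat_lit 460) (B (L (nat_lit 428) ln13_10_5 ln13_10_5_ok) (L (nat_lit 492) ln13_11_5 ln13_11_5_ok)))))))) (B (M (nat_lit 365) (B (M (nat_lit 333) (B (M (nat_lit 460) (B (L (nat_lit 428) ln13_10_5 ln13_10_5_ok) (L (nat_lit 492) ln13_11_5 ln13_11_5_ok))) (M (nat_lit 462) (B (L (nat_lit 430) ln13_10_4 ln13_10_4_ok) (L (nat_lit 494) ln13_11_4 ln13_11_4_ok))))) (B (M (nat_lit 493) (B (M (nat_lit 366) (B (L (nat_lit 334) ln13_14_6 ln13_14_6_ok) (L (nat_lit 398) ln13_15_6 ln13_15_6_ok))) (M (nat_lit 494) (B (L (nat_lit 462) ln13_11_4 ln13_11_4_ok) (L (nat_lit 526) ln13_12_4 ln13_12_4_ok))))) (M (nat_lit 333) (B (M (nat_lit 334) (B (L (nat_lit 302) ln13_13_6 ln13_13_6_ok) (L (nat_lit 366) ln13_14_6 ln13_14_6_ok))) (M (nat_lit 460) (B (L (nat_lit 428) ln13_10_5 ln13_10_5_ok) (L (nat_lit 492) ln13_11_5 ln13_11_5_ok)))))))) (B (M (nat_lit 493) (B (M (nat_lit 365) (B (M (nat_lit 366) (B (L (nat_lit 334) ln13_14_6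 ln13_14_6_ok) (L (nat_lit 398) ln13_15_6 ln13_15_6_ok))) (M (nat_lit 492) (B (L (nat_lit 460) ln13_11_5 ln13_11_5_ok) (L (nat_lit 524) ln13_12_5 ln13_12_5_ok))))) (B (M (nat_lit 365) (B (M (nat_lit 364) (B (L (nat_lit 332) ln13_14_7 ln13_14_7_ok) (L (nat_lit 396) ln13_15_7 ln13_15_7_ok))) (M (nat_lit 492) (B (L (nat_lit 460) ln13_11_5 ln13_11_5_ok) (L (nat_lit 524) ln13_12_5 ln13_12_5_ok))))) (M (nat_lit 525) (B (M (nat_lit 396) (B (L (nat_lit 364) ln13_15_7 ln13_15_7_ok) (L (nat_lit 428) ln13_16_7 ln13_16_7_ok))) (M (nat_lit 398) (B (L (nat_lit 366) ln13_15_6 ln13_15_6_ok) (L (nat_lit 430) ln13_16_6 ln13_16_6_ok)))))))) (B c20_n171 (B (M (nat_lit 365) (B (M (nat_lit 333) (B (M (nat_lit 334) (B (L (nat_lit 302) ln13_13_6 ln13_13_6_ok) (L (nat_lit 366) ln13_14_6 ln13_14_6_ok))) (M (nat_lit 462) (B (L (nat_lit 430) ln13_10_4 ln13_10_4_ok) (L (nat_lit 494) ln13_11_4 ln13_11_4_ok))))) (B (M (nat_lit 333) (B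 (M (nat_lit 332) (B (L (nat_lit 300) ln13_13_7 ln13_13_7_ok) (L (nat_lit 364) ln13_14_7 ln13_14_7_ok))) (M (nat_lit 462) (B (L (nat_lit 430) ln13_10_4 ln13_10_4_ok) (L (nat_lit 494) ln13_11_4 ln13_11_4_ok))))) (B (M (nat_lit 493) (B (M (nat_lit 364) (B (L (nat_lit 332) ln13_14_7 ln13_14_7_ok) (L (nat_lit 396) ln13_15_7 ln13_15_7_ok))) (M (nat_lit 494) (B (L (nat_lit 462) ln13_11_4 ln13_11_4_ok) (L (nat_lit 526) ln13_12_4 ln13_12_4_ok))))) (M (nat_lit 333) (B (M (nat_lit 332) (B (L (nat_lit 300) ln13_13_7 ln13_13_7_ok) (L (nat_lit 364) ln13_14_7 ln13_14_7_ok))) (M (nat_lit 334) (B (L (nat_lit 302) ln13_13_6 ln13_13_6_ok) (L (nat_lit 366) ln13_14_6 ln13_14_6_ok))))))))) (M (nat_lit 365) (B (M (nat_lit 333) (B (M (nat_lit 460) (B (L (nat_lit 428) ln13_10_5 ln13_10_5_ok) (L (nat_lit 492) ln13_11_5 ln13_11_5_ok))) (M (nat_lit 462) (B (L (nat_lit 430) ln13_10_4 ln13_10_4_ok) (L (nat_lit 494) ln13_11_4 ln13_11_4_ok)))))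 (B (M (nat_lit 364) (B (L (nat_lit 332) ln13_14_7 ln13_14_7_ok) (M (nat_lit 428) (B (M (nat_lit 460) (B (L (nat_lit 492) ln13_11_5 ln13_11_5_ok) (M (nat_lit 462) (B (L (nat_lit 494) ln13_11_4 ln13_11_4_ok) (M (nat_lit 427) (B (L (nat_lit 426) ln10_13_0 ln10_13_0_ok) (L (nat_lit 463) ln15_14_3 ln15_14_3_ok))))))) (B (M (nat_lit 460) (B (L (nat_lit 492) ln13_11_5 ln13_11_5_ok) (M (nat_lit 462) (B (L (nat_lit 494) ln13_11_4 ln13_11_4_ok) (M (nat_lit 463) (B (L (nat_lit 427) ln15_14_3 ln15_14_3_ok) (L (nat_lit 464) ln16_14_3 ln16_14_3_ok))))))) (B (M (nat_lit 396) (B (M (nat_lit 366) (B (L (nat_lit 334) ln13_14_6 ln13_14_6_ok) (M (nat_lit 395) (B (L (nat_lit 367) ln15_11_1 ln15_11_1_ok) (L (nat_lit 394) ln10_12_2 ln10_12_2_ok))))) (M (nat_lit 363) (B (M (nat_lit 460) (B (L (nat_lit 331) ln12_14_7 ln12_14_7_ok) (L (nat_lit 492) ln12_15_6 ln12_15_6_ok))) (M (nat_lit 398) (B (L (nat_lit 362) ln10_11_0 ln10_11_0_ok)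 (L (nat_lit 399) ln15_12_3 ln15_12_3_ok))))))) (M (nat_lit 462) (B (L (nat_lit 494) ln13_11_4 ln13_11_4_ok) (M (nat_lit 427) (B (L (nat_lit 426) ln10_13_0 ln10_13_0_ok) (M (nat_lit 463) (B (L (nat_lit 430) ln11_13_0 ln11_13_0_ok) (L (nat_lit 464) ln16_14_3 ln16_14_3_ok))))))))))))) (M (nat_lit 333) (B (M (nat_lit 332) (B (L (nat_lit 300) ln13_13_7 ln13_13_7_ok) (L (nat_lit 364) ln13_14_7 ln13_14_7_ok))) (M (nat_lit 334) (B (L (nat_lit 302) ln13_13_6 ln13_13_6_ok) (L (nat_lit 366) ln13_14_6 ln13_14_6_ok)))))))))))))))) (nat_lit 5954262830815946494440468064007740237496571878468728087513875999273036838532266441790969898967138332125836366047228135112217242456098340864) (nat_lit 411887859809226825465841139794363730197765515738928293129642270254290714345984444949533842518577123599028318528187284953246199445858097880756664468160877953024) (nat_lit 411887859809226825465841139794363730197765515738928293129642270254290714345984444949533842518577123599028318528187284953246199445858097880756664468160877953024)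 (by decide +kernel)
theorem c20_s231 : Sem (nat_lit 5954262830815946494440468064007740237496571878468728087513875999273036838532266441790969898967138332125836366047228135112217242456098340864) (nat_lit 943490606589814007219503020306410031192464195742873274741146953059203665640144387417980025567717707410600409410037995703767353409923312366015419305778005416741659738112) (nat_lit 943490606589814007219503020306410031192464195742873274741146953059203665640144387417980025567717707410600409410037995703767353409923312366015419305778005416741659738112) :=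
  sem_of_chk (M (nat_lit 397) (B (M (nat_lit 365) (B (M (nat_lit 333) (B (M (nat_lit 460) (B (L (nat_lit 428) ln13_10_5 ln13_10_5_ok) (L (nat_lit 492) ln13_11_5 ln13_11_5_ok))) (M (nat_lit 462) (B (L (nat_lit 430) ln13_10_4 ln13_10_4_ok) (L (nat_lit 494) ln13_11_4 ln13_11_4_ok))))) (M (nat_lit 364) (B (L (nat_lit 332) ln13_14_7 ln13_14_7_ok) (M (nat_lit 366) (B (L (nat_lit 334) ln13_14_6 ln13_14_6_ok) (M (nat_lit 493) (B (L (nat_lit 396) ln13_15_7 ln13_15_7_ok) (L (nat_lit 398) ln13_15_6 ln13_15_6_ok))))))))) (B (M (nat_lit 365) (B (M (nat_lit 333) (B (M (nat_lit 460) (B (L (nat_lit 428) ln13_10_5 ln13_10_5_ok) (L (nat_lit 492) ln13_11_5 ln13_11_5_ok))) (M (nat_lit 462) (B (L (nat_lit 430) ln13_10_4 ln13_10_4_ok) (L (nat_lit 494) ln13_11_4 ln13_11_4_ok))))) (B (M (nat_lit 493) (B (M (nat_lit 366) (B (L (nat_lit 334) ln13_14_6 ln13_14_6_ok) (L (nat_lit 398) ln13_15_6 ln13_15_6_ok))) (M (nat_lit 494) (B (L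 (nat_lit 462) ln13_11_4 ln13_11_4_ok) (L (nat_lit 526) ln13_12_4 ln13_12_4_ok))))) (M (nat_lit 333) (B (M (nat_lit 334) (B (L (nat_lit 302) ln13_13_6 ln13_13_6_ok) (L (nat_lit 366) ln13_14_6 ln13_14_6_ok))) (M (nat_lit 460) (B (L (nat_lit 428) ln13_10_5 ln13_10_5_ok) (L (nat_lit 492) ln13_11_5 ln13_11_5_ok)))))))) (B (M (nat_lit 493) (B (M (nat_lit 525) (B (M (nat_lit 398) (B (L (nat_lit 366) ln13_15_6 ln13_15_6_ok) (L (nat_lit 430) ln13_16_6 ln13_16_6_ok))) (M (nat_lit 526) (B (L (nat_lit 494) ln13_12_4 ln13_12_4_ok) (L (nat_lit 558) ln13_13_4 ln13_13_4_ok))))) (B (M (nat_lit 525) (B (M (nat_lit 396) (B (L (nat_lit 364) ln13_15_7 ln13_15_7_ok) (L (nat_lit 428) ln13_16_7 ln13_16_7_ok))) (M (nat_lit 526) (B (L (nat_lit 494) ln13_12_4 ln13_12_4_ok) (L (nat_lit 558) ln13_13_4 ln13_13_4_ok))))) (B (M (nat_lit 525) (B (M (nat_lit 396) (B (L (nat_lit 364) ln13_15_7 ln13_15_7_ok) (L (nat_lit 428) ln13_16_7 ln13_16_7_ok)))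 (M (nat_lit 398) (B (L (nat_lit 366) ln13_15_6 ln13_15_6_ok) (L (nat_lit 430) ln13_16_6 ln13_16_6_ok))))) (M (nat_lit 365) (B (M (nat_lit 364) (B (L (nat_lit 332) ln13_14_7 ln13_14_7_ok) (L (nat_lit 396) ln13_15_7 ln13_15_7_ok))) (M (nat_lit 492) (B (L (nat_lit 460) ln13_11_5 ln13_11_5_ok) (L (nat_lit 524) ln13_12_5 ln13_12_5_ok))))))))) (B (M (nat_lit 493) (B (M (nat_lit 525) (B (M (nat_lit 396) (B (L (nat_lit 364) ln13_15_7 ln13_15_7_ok) (L (nat_lit 428) ln13_16_7 ln13_16_7_ok))) (M (nat_lit 398) (B (L (nat_lit 366) ln13_15_6 ln13_15_6_ok) (L (nat_lit 430) ln13_16_6 ln13_16_6_ok))))) (B (M (nat_lit 525) (B (M (nat_lit 398) (B (L (nat_lit 366) ln13_15_6 ln13_15_6_ok) (L (nat_lit 430) ln13_16_6 ln13_16_6_ok))) (M (nat_lit 526) (B (L (nat_lit 494) ln13_12_4 ln13_12_4_ok) (L (nat_lit 558) ln13_13_4 ln13_13_4_ok))))) (B (M (nat_lit 525) (B (M (nat_lit 396) (B (L (nat_lit 364) ln13_15_7 ln13_15_7_ok) (L (nat_lit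 428) ln13_16_7 ln13_16_7_ok))) (M (nat_lit 526) (B (L (nat_lit 494) ln13_12_4 ln13_12_4_ok) (L (nat_lit 558) ln13_13_4 ln13_13_4_ok))))) (M (nat_lit 428) (B (M (nat_lit 398) (B (L (nat_lit 366) ln13_15_6 ln13_15_6_ok) (M (nat_lit 399) (B (L (nat_lit 400) ln16_12_1 ln16_12_1_ok) (M (nat_lit 427) (B (L (nat_lit 426) ln10_13_2 ln10_13_2_ok) (L (nat_lit 430) ln11_13_2 ln11_13_2_ok))))))) (B (M (nat_lit 460) (B (M (nat_lit 492) (B (L (nat_lit 524) ln12_16_6 ln12_16_6_ok) (M (nat_lit 494) (B (L (nat_lit 526) ln13_12_4 ln13_12_4_ok) (M (nat_lit 459) (B (L (nat_lit 458) ln10_14_0 ln10_14_0_ok) (L (nat_lit 495) ln15_15_3 ln15_15_3_ok))))))) (B (M (nat_lit 396) (B (L (nat_lit 364) ln13_15_7 ln13_15_7_ok) (M (nat_lit 395) (B (M (nat_lit 492) (B (L (nat_lit 363) ln12_15_7 ln12_15_7_ok) (L (nat_lit 524) ln12_16_6 ln12_16_6_ok))) (M (nat_lit 394) (B (L (nat_lit 393) ln9_12_0 ln9_12_0_ok) (L (nat_lit 430) ln10_12_0 ln10_12_0_ok)))))))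 (M (nat_lit 459) (B (M (nat_lit 458) (B (L (nat_lit 457) ln9_14_2 ln9_14_2_ok) (L (nat_lit 430) ln10_14_2 ln10_14_2_ok))) (B (M (nat_lit 458) (B (L (nat_lit 457) ln9_14_2 ln9_14_2_ok) (L (nat_lit 494) ln10_14_0 ln10_14_0_ok))) (B (M (nat_lit 458) (B (L (nat_lit 430) ln10_14_2 ln10_14_2_ok) (L (nat_lit 494) ln10_14_0 ln10_14_0_ok))) (M (nat_lit 462) (B (M (nat_lit 427) (B (L (nat_lit 426) ln10_13_0 ln10_13_0_ok) (L (nat_lit 463) ln15_14_3 ln15_14_3_ok))) (M (nat_lit 494) (B (L (nat_lit 526) ln13_12_4 ln13_12_4_ok) (L (nat_lit 495) ln11_14_0 ln11_14_0_ok)))))))))))) (B (M (nat_lit 396) (B (L (nat_lit 364) ln13_15_7 ln13_15_7_ok) (M (nat_lit 398) (B (L (nat_lit 366) ln13_15_6 ln13_15_6_ok) (M (nat_lit 399) (B (L (nat_lit 427) ln15_12_1 ln15_12_1_ok) (L (nat_lit 400) ln16_12_1 ln16_12_1_ok))))))) (M (nat_lit 396) (B (L (nat_lit 364) ln13_15_7 ln13_15_7_ok) (M (nat_lit 395) (B (M (nat_lit 394) (B (L (nat_lit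 393) ln9_12_0 ln9_12_0_ok) (L (nat_lit 430) ln10_12_0 ln10_12_0_ok))) (M (nat_lit 363) (B (M (nat_lit 398) (B (L (nat_lit 362) ln14_12_3 ln14_12_3_ok) (L (nat_lit 366) ln13_15_6 ln13_15_6_ok))) (M (nat_lit 492) (B (L (nat_lit 460) ln12_15_7 ln12_15_7_ok) (L (nat_lit 524) ln13_12_5 ln13_12_5_ok))))))))))))))))) (B (M (nat_lit 365) (B (M (nat_lit 493) (B (M (nat_lit 364) (B (L (nat_lit 332) ln13_14_7 ln13_14_7_ok) (L (nat_lit 396) ln13_15_7 ln13_15_7_ok))) (M (nat_lit 492) (B (L (nat_lit 460) ln13_11_5 ln13_11_5_ok) (L (nat_lit 524) ln13_12_5 ln13_12_5_ok))))) (B (M (nat_lit 493) (B (M (nat_lit 492) (B (L (nat_lit 460) ln13_11_5 ln13_11_5_ok) (L (nat_lit 524) ln13_12_5 ln13_12_5_ok))) (M (nat_lit 494) (B (L (nat_lit 462) ln13_11_4 ln13_11_4_ok) (L (nat_lit 526) ln13_12_4 ln13_12_4_ok))))) (B (M (nat_lit 493) (B (M (nat_lit 364) (B (L (nat_lit 332) ln13_14_7 ln13_14_7_ok) (L (nat_lit 396) ln13_15_7 ln13_15_7_ok)))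 (M (nat_lit 494) (B (L (nat_lit 462) ln13_11_4 ln13_11_4_ok) (L (nat_lit 526) ln13_12_4 ln13_12_4_ok))))) (M (nat_lit 333) (B (M (nat_lit 460) (B (L (nat_lit 428) ln13_10_5 ln13_10_5_ok) (L (nat_lit 492) ln13_11_5 ln13_11_5_ok))) (M (nat_lit 462) (B (L (nat_lit 430) ln13_10_4 ln13_10_4_ok) (L (nat_lit 494) ln13_11_4 ln13_11_4_ok))))))))) (B (M (nat_lit 365) (B (M (nat_lit 493) (B (M (nat_lit 364) (B (L (nat_lit 332) ln13_14_7 ln13_14_7_ok) (L (nat_lit 396) ln13_15_7 ln13_15_7_ok))) (M (nat_lit 492) (B (L (nat_lit 460) ln13_11_5 ln13_11_5_ok) (L (nat_lit 524) ln13_12_5 ln13_12_5_ok))))) (B (M (nat_lit 493) (B (M (nat_lit 492) (B (L (nat_lit 460) ln13_11_5 ln13_11_5_ok) (L (nat_lit 524) ln13_12_5 ln13_12_5_ok))) (M (nat_lit 494) (B (L (nat_lit 462) ln13_11_4 ln13_11_4_ok) (L (nat_lit 526) ln13_12_4 ln13_12_4_ok))))) (B (M (nat_lit 493) (B (M (nat_lit 364) (B (L (nat_lit 332) ln13_14_7 ln13_14_7_ok) (L (nat_lit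 396) ln13_15_7 ln13_15_7_ok))) (M (nat_lit 494) (B (L (nat_lit 462) ln13_11_4 ln13_11_4_ok) (L (nat_lit 526) ln13_12_4 ln13_12_4_ok))))) (M (nat_lit 333) (B (M (nat_lit 334) (B (L (nat_lit 302) ln13_13_6 ln13_13_6_ok) (L (nat_lit 366) ln13_14_6 ln13_14_6_ok))) (M (nat_lit 462) (B (L (nat_lit 430) ln13_10_4 ln13_10_4_ok) (L (nat_lit 494) ln13_11_4 ln13_11_4_ok))))))))) (B (M (nat_lit 365) (B (M (nat_lit 333) (B (M (nat_lit 334) (B (L (nat_lit 302) ln13_13_6 ln13_13_6_ok) (L (nat_lit 366) ln13_14_6 ln13_14_6_ok))) (M (nat_lit 460) (B (L (nat_lit 428) ln13_10_5 ln13_10_5_ok) (L (nat_lit 492) ln13_11_5 ln13_11_5_ok))))) (M (nat_lit 493) (B (M (nat_lit 364) (B (L (nat_lit 332) ln13_14_7 ln13_14_7_ok) (L (nat_lit 396) ln13_15_7 ln13_15_7_ok))) (M (nat_lit 494) (B (L (nat_lit 462) ln13_11_4 ln13_11_4_ok) (L (nat_lit 526) ln13_12_4 ln13_12_4_ok))))))) (B (M (nat_lit 365) (B (M (nat_lit 364) (B (L (nat_lit 332) ln13_14_7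 ln13_14_7_ok) (M (nat_lit 366) (B (L (nat_lit 334) ln13_14_6 ln13_14_6_ok) (M (nat_lit 493) (B (L (nat_lit 396) ln13_15_7 ln13_15_7_ok) (L (nat_lit 398) ln13_15_6 ln13_15_6_ok))))))) (B (M (nat_lit 493) (B (M (nat_lit 366) (B (L (nat_lit 334) ln13_14_6 ln13_14_6_ok) (L (nat_lit 398) ln13_15_6 ln13_15_6_ok))) (M (nat_lit 494) (B (L (nat_lit 462) ln13_11_4 ln13_11_4_ok) (L (nat_lit 526) ln13_12_4 ln13_12_4_ok))))) (B (M (nat_lit 493) (B (M (nat_lit 364) (B (L (nat_lit 332) ln13_14_7 ln13_14_7_ok) (L (nat_lit 396) ln13_15_7 ln13_15_7_ok))) (M (nat_lit 494) (B (L (nat_lit 462) ln13_11_4 ln13_11_4_ok) (L (nat_lit 526) ln13_12_4 ln13_12_4_ok))))) (M (nat_lit 333) (B (M (nat_lit 334) (B (L (nat_lit 302) ln13_13_6 ln13_13_6_ok) (L (nat_lit 366) ln13_14_6 ln13_14_6_ok))) (M (nat_lit 462) (B (L (nat_lit 430) ln13_10_4 ln13_10_4_ok) (L (nat_lit 494) ln13_11_4 ln13_11_4_ok))))))))) (B (M (nat_lit 365) (B (M (nat_lit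 333) (B (M (nat_lit 460) (B (L (nat_lit 428) ln13_10_5 ln13_10_5_ok) (L (nat_lit 492) ln13_11_5 ln13_11_5_ok))) (M (nat_lit 462) (B (L (nat_lit 430) ln13_10_4 ln13_10_4_ok) (L (nat_lit 494) ln13_11_4 ln13_11_4_ok))))) (B (M (nat_lit 364) (B (L (nat_lit 332) ln13_14_7 ln13_14_7_ok) (M (nat_lit 428) (B (M (nat_lit 460) (B (L (nat_lit 492) ln13_11_5 ln13_11_5_ok) (M (nat_lit 462) (B (L (nat_lit 494) ln13_11_4 ln13_11_4_ok) (M (nat_lit 427) (B (L (nat_lit 426) ln10_13_0 ln10_13_0_ok) (L (nat_lit 463) ln15_14_3 ln15_14_3_ok))))))) (B (M (nat_lit 460) (B (L (nat_lit 492) ln13_11_5 ln13_11_5_ok) (M (nat_lit 462) (B (L (nat_lit 494) ln13_11_4 ln13_11_4_ok) (M (nat_lit 463) (B (L (nat_lit 427) ln15_14_3 ln15_14_3_ok) (L (nat_lit 464) ln16_14_3 ln16_14_3_ok))))))) (B (M (nat_lit 396) (B (M (nat_lit 366) (B (L (nat_lit 334) ln13_14_6 ln13_14_6_ok) (M (nat_lit 395) (B (L (nat_lit 367) ln15_11_1 ln15_11_1_ok) (L (nat_lit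 394) ln10_12_2 ln10_12_2_ok))))) (M (nat_lit 363) (B (M (nat_lit 460) (B (L (nat_lit 331) ln12_14_7 ln12_14_7_ok) (L (nat_lit 492) ln12_15_6 ln12_15_6_ok))) (M (nat_lit 398) (B (L (nat_lit 362) ln10_11_0 ln10_11_0_ok) (L (nat_lit 399) ln15_12_3 ln15_12_3_ok))))))) (M (nat_lit 462) (B (L (nat_lit 494) ln13_11_4 ln13_11_4_ok) (M (nat_lit 427) (B (L (nat_lit 426) ln10_13_0 ln10_13_0_ok) (M (nat_lit 463) (B (L (nat_lit 430) ln11_13_0 ln11_13_0_ok) (L (nat_lit 464) ln16_14_3 ln16_14_3_ok))))))))))))) (B (M (nat_lit 333) (B (M (nat_lit 334) (B (L (nat_lit 302) ln13_13_6 ln13_13_6_ok) (L (nat_lit 366) ln13_14_6 ln13_14_6_ok))) (M (nat_lit 462) (B (L (nat_lit 430) ln13_10_4 ln13_10_4_ok) (L (nat_lit 494) ln13_11_4 ln13_11_4_ok))))) (M (nat_lit 333) (B (M (nat_lit 334) (B (L (nat_lit 302) ln13_13_6 ln13_13_6_ok) (L (nat_lit 366) ln13_14_6 ln13_14_6_ok))) (M (nat_lit 460) (B (L (nat_lit 428) ln13_10_5 ln13_10_5_ok)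 (L (nat_lit 492) ln13_11_5 ln13_11_5_ok))))))))) (M (nat_lit 365) (B (M (nat_lit 364) (B (L (nat_lit 332) ln13_14_7 ln13_14_7_ok) (M (nat_lit 366) (B (L (nat_lit 334) ln13_14_6 ln13_14_6_ok) (M (nat_lit 493) (B (L (nat_lit 396) ln13_15_7 ln13_15_7_ok) (L (nat_lit 398) ln13_15_6 ln13_15_6_ok))))))) (B (M (nat_lit 493) (B (M (nat_lit 366) (B (L (nat_lit 334) ln13_14_6 ln13_14_6_ok) (L (nat_lit 398) ln13_15_6 ln13_15_6_ok))) (M (nat_lit 492) (B (L (nat_lit 460) ln13_11_5 ln13_11_5_ok) (L (nat_lit 524) ln13_12_5 ln13_12_5_ok))))) (B (M (nat_lit 493) (B (M (nat_lit 364) (B (L (nat_lit 332) ln13_14_7 ln13_14_7_ok) (L (nat_lit 396) ln13_15_7 ln13_15_7_ok))) (M (nat_lit 492) (B (L (nat_lit 460) ln13_11_5 ln13_11_5_ok) (L (nat_lit 524) ln13_12_5 ln13_12_5_ok))))) (M (nat_lit 333) (B (M (nat_lit 334) (B (L (nat_lit 302) ln13_13_6 ln13_13_6_ok) (L (nat_lit 366) ln13_14_6 ln13_14_6_ok))) (M (nat_lit 460) (B (L (nat_lit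 428) ln13_10_5 ln13_10_5_ok) (L (nat_lit 492) ln13_11_5 ln13_11_5_ok))))))))))))))))))) (nat_lit 5954262830815946494440468064007740237496571878468728087513875999273036838532266441790969898967138332125836366047228135112217242456098340864) (nat_lit 943490606589814007219503020306410031192464195742873274741146953059203665640144387417980025567717707410600409410037995703767353409923312366015419305778005416741659738112) (nat_lit 943490606589814007219503020306410031192464195742873274741146953059203665640144387417980025567717707410600409410037995703767353409923312366015419305778005416741659738112) (by decide +kernel)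
theorem c20_s266 : Sem (nat_lit 5954262830815946494440468064007740237496571878468728087513875999273036838532266441790969898967138332125836366047228135112217242456098340864) (nat_lit 1179363258141160341734600181570542734239334878839860316440911581661158216451730677684712759492900875091125338166018664723899446763861185797712984629425970526783841239040) (nat_lit 1179363258141160341734600181570542734239334878839860316440911581661158216451730677684712759492900875091125338166018664723899446763861185797712984629425970526783841239040) :=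
  sem_of_chk (M (nat_lit 397) (B (M (nat_lit 365) (B (M (nat_lit 333) (B (M (nat_lit 460) (B (L (nat_lit 428) ln13_10_5 ln13_10_5_ok) (L (nat_lit 492) ln13_11_5 ln13_11_5_ok))) (M (nat_lit 462) (B (L (nat_lit 430) ln13_10_4 ln13_10_4_ok) (L (nat_lit 494) ln13_11_4 ln13_11_4_ok))))) (M (nat_lit 364) (B (L (nat_lit 332) ln13_14_7 ln13_14_7_ok) (M (nat_lit 366) (B (L (nat_lit 334) ln13_14_6 ln13_14_6_ok) (M (nat_lit 493) (B (L (nat_lit 396) ln13_15_7 ln13_15_7_ok) (L (nat_lit 398) ln13_15_6 ln13_15_6_ok))))))))) (B (M (nat_lit 365) (B (M (nat_lit 493) (B (M (nat_lit 366) (B (L (nat_lit 334) ln13_14_6 ln13_14_6_ok) (L (nat_lit 398) ln13_15_6 ln13_15_6_ok))) (M (nat_lit 492) (B (L (nat_lit 460) ln13_11_5 ln13_11_5_ok) (L (nat_lit 524) ln13_12_5 ln13_12_5_ok))))) (B (M (nat_lit 493) (B (M (nat_lit 492) (B (L (nat_lit 460) ln13_11_5 ln13_11_5_ok) (L (nat_lit 524) ln13_12_5 ln13_12_5_ok))) (M (nat_lit 494) (B (L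 (nat_lit 462) ln13_11_4 ln13_11_4_ok) (L (nat_lit 526) ln13_12_4 ln13_12_4_ok))))) (B (M (nat_lit 493) (B (M (nat_lit 366) (B (L (nat_lit 334) ln13_14_6 ln13_14_6_ok) (L (nat_lit 398) ln13_15_6 ln13_15_6_ok))) (M (nat_lit 494) (B (L (nat_lit 462) ln13_11_4 ln13_11_4_ok) (L (nat_lit 526) ln13_12_4 ln13_12_4_ok))))) (M (nat_lit 333) (B (M (nat_lit 460) (B (L (nat_lit 428) ln13_10_5 ln13_10_5_ok) (L (nat_lit 492) ln13_11_5 ln13_11_5_ok))) (M (nat_lit 462) (B (L (nat_lit 430) ln13_10_4 ln13_10_4_ok) (L (nat_lit 494) ln13_11_4 ln13_11_4_ok))))))))) (B (M (nat_lit 493) (B (M (nat_lit 365) (B (M (nat_lit 366) (B (L (nat_lit 334) ln13_14_6 ln13_14_6_ok) (L (nat_lit 398) ln13_15_6 ln13_15_6_ok))) (M (nat_lit 492) (B (L (nat_lit 460) ln13_11_5 ln13_11_5_ok) (L (nat_lit 524) ln13_12_5 ln13_12_5_ok))))) (B (M (nat_lit 365) (B (M (nat_lit 364) (B (L (nat_lit 332) ln13_14_7 ln13_14_7_ok) (L (nat_lit 396) ln13_15_7 ln13_15_7_ok)))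 (M (nat_lit 492) (B (L (nat_lit 460) ln13_11_5 ln13_11_5_ok) (L (nat_lit 524) ln13_12_5 ln13_12_5_ok))))) (M (nat_lit 525) (B (M (nat_lit 396) (B (L (nat_lit 364) ln13_15_7 ln13_15_7_ok) (L (nat_lit 428) ln13_16_7 ln13_16_7_ok))) (M (nat_lit 526) (B (L (nat_lit 494) ln13_12_4 ln13_12_4_ok) (L (nat_lit 558) ln13_13_4 ln13_13_4_ok)))))))) (B (M (nat_lit 365) (B (M (nat_lit 333) (B (M (nat_lit 460) (B (L (nat_lit 428) ln13_10_5 ln13_10_5_ok) (L (nat_lit 492) ln13_11_5 ln13_11_5_ok))) (M (nat_lit 462) (B (L (nat_lit 430) ln13_10_4 ln13_10_4_ok) (L (nat_lit 494) ln13_11_4 ln13_11_4_ok))))) (B (M (nat_lit 493) (B (M (nat_lit 364) (B (L (nat_lit 332) ln13_14_7 ln13_14_7_ok) (L (nat_lit 396) ln13_15_7 ln13_15_7_ok))) (M (nat_lit 494) (B (L (nat_lit 462) ln13_11_4 ln13_11_4_ok) (L (nat_lit 526) ln13_12_4 ln13_12_4_ok))))) (M (nat_lit 333) (B (M (nat_lit 332) (B (L (nat_lit 300) ln13_13_7 ln13_13_7_ok) (L (nat_lit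 364) ln13_14_7 ln13_14_7_ok))) (M (nat_lit 460) (B (L (nat_lit 428) ln13_10_5 ln13_10_5_ok) (L (nat_lit 492) ln13_11_5 ln13_11_5_ok)))))))) (B (M (nat_lit 493) (B (M (nat_lit 525) (B (M (nat_lit 396) (B (L (nat_lit 364) ln13_15_7 ln13_15_7_ok) (L (nat_lit 428) ln13_16_7 ln13_16_7_ok))) (M (nat_lit 398) (B (L (nat_lit 366) ln13_15_6 ln13_15_6_ok) (L (nat_lit 430) ln13_16_6 ln13_16_6_ok))))) (B (M (nat_lit 525) (B (M (nat_lit 398) (B (L (nat_lit 366) ln13_15_6 ln13_15_6_ok) (L (nat_lit 430) ln13_16_6 ln13_16_6_ok))) (M (nat_lit 526) (B (L (nat_lit 494) ln13_12_4 ln13_12_4_ok) (L (nat_lit 558) ln13_13_4 ln13_13_4_ok))))) (B (M (nat_lit 525) (B (M (nat_lit 396) (B (L (nat_lit 364) ln13_15_7 ln13_15_7_ok) (L (nat_lit 428) ln13_16_7 ln13_16_7_ok))) (M (nat_lit 526) (B (L (nat_lit 494) ln13_12_4 ln13_12_4_ok) (L (nat_lit 558) ln13_13_4 ln13_13_4_ok))))) (M (nat_lit 428) (B (M (nat_lit 398) (B (L (nat_lit 366) ln13_15_6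 ln13_15_6_ok) (M (nat_lit 399) (B (L (nat_lit 400) ln16_12_1 ln16_12_1_ok) (M (nat_lit 427) (B (L (nat_lit 426) ln10_13_2 ln10_13_2_ok) (L (nat_lit 430) ln11_13_2 ln11_13_2_ok))))))) (B (M (nat_lit 460) (B (M (nat_lit 492) (B (L (nat_lit 524) ln12_16_6 ln12_16_6_ok) (M (nat_lit 494) (B (L (nat_lit 526) ln13_12_4 ln13_12_4_ok) (M (nat_lit 459) (B (L (nat_lit 458) ln10_14_0 ln10_14_0_ok) (L (nat_lit 495) ln15_15_3 ln15_15_3_ok))))))) (B (M (nat_lit 396) (B (L (nat_lit 364) ln13_15_7 ln13_15_7_ok) (M (nat_lit 395) (B (M (nat_lit 492) (B (L (nat_lit 363) ln12_15_7 ln12_15_7_ok) (L (nat_lit 524) ln12_16_6 ln12_16_6_ok))) (M (nat_lit 394) (B (L (nat_lit 393) ln9_12_0 ln9_12_0_ok) (L (nat_lit 430) ln10_12_0 ln10_12_0_ok))))))) (M (nat_lit 459) (B (M (nat_lit 458) (B (L (nat_lit 457) ln9_14_2 ln9_14_2_ok) (L (nat_lit 430) ln10_14_2 ln10_14_2_ok))) (B (M (nat_lit 458) (B (L (nat_lit 457) ln9_14_2 ln9_14_2_ok) (L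 (nat_lit 494) ln10_14_0 ln10_14_0_ok))) (B (M (nat_lit 458) (B (L (nat_lit 430) ln10_14_2 ln10_14_2_ok) (L (nat_lit 494) ln10_14_0 ln10_14_0_ok))) (M (nat_lit 462) (B (M (nat_lit 427) (B (L (nat_lit 426) ln10_13_0 ln10_13_0_ok) (L (nat_lit 463) ln15_14_3 ln15_14_3_ok))) (M (nat_lit 494) (B (L (nat_lit 526) ln13_12_4 ln13_12_4_ok) (L (nat_lit 495) ln11_14_0 ln11_14_0_ok)))))))))))) (B (M (nat_lit 396) (B (L (nat_lit 364) ln13_15_7 ln13_15_7_ok) (M (nat_lit 398) (B (L (nat_lit 366) ln13_15_6 ln13_15_6_ok) (M (nat_lit 399) (B (L (nat_lit 427) ln15_12_1 ln15_12_1_ok) (L (nat_lit 400) ln16_12_1 ln16_12_1_ok))))))) (M (nat_lit 396) (B (L (nat_lit 364) ln13_15_7 ln13_15_7_ok) (M (nat_lit 395) (B (M (nat_lit 394) (B (L (nat_lit 393) ln9_12_0 ln9_12_0_ok) (L (nat_lit 430) ln10_12_0 ln10_12_0_ok))) (M (nat_lit 363) (B (M (nat_lit 398) (B (L (nat_lit 362) ln14_12_3 ln14_12_3_ok) (L (nat_lit 366) ln13_15_6 ln13_15_6_ok)))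 (M (nat_lit 492) (B (L (nat_lit 460) ln12_15_7 ln12_15_7_ok) (L (nat_lit 524) ln13_12_5 ln13_12_5_ok))))))))))))))))) (B (M (nat_lit 365) (B (M (nat_lit 493) (B (M (nat_lit 364) (B (L (nat_lit 332) ln13_14_7 ln13_14_7_ok) (L (nat_lit 396) ln13_15_7 ln13_15_7_ok))) (M (nat_lit 492) (B (L (nat_lit 460) ln13_11_5 ln13_11_5_ok) (L (nat_lit 524) ln13_12_5 ln13_12_5_ok))))) (B (M (nat_lit 493) (B (M (nat_lit 366) (B (L (nat_lit 334) ln13_14_6 ln13_14_6_ok) (L (nat_lit 398) ln13_15_6 ln13_15_6_ok))) (M (nat_lit 494) (B (L (nat_lit 462) ln13_11_4 ln13_11_4_ok) (L (nat_lit 526) ln13_12_4 ln13_12_4_ok))))) (M (nat_lit 333) (B (M (nat_lit 332) (B (L (nat_lit 300) ln13_13_7 ln13_13_7_ok) (L (nat_lit 364) ln13_14_7 ln13_14_7_ok))) (M (nat_lit 462) (B (L (nat_lit 430) ln13_10_4 ln13_10_4_ok) (L (nat_lit 494) ln13_11_4 ln13_11_4_ok)))))))) (B (M (nat_lit 365) (B (M (nat_lit 364) (B (L (nat_lit 332) ln13_14_7 ln13_14_7_ok)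 (M (nat_lit 366) (B (L (nat_lit 334) ln13_14_6 ln13_14_6_ok) (M (nat_lit 493) (B (L (nat_lit 396) ln13_15_7 ln13_15_7_ok) (L (nat_lit 398) ln13_15_6 ln13_15_6_ok))))))) (B (M (nat_lit 493) (B (M (nat_lit 366) (B (L (nat_lit 334) ln13_14_6 ln13_14_6_ok) (L (nat_lit 398) ln13_15_6 ln13_15_6_ok))) (M (nat_lit 494) (B (L (nat_lit 462) ln13_11_4 ln13_11_4_ok) (L (nat_lit 526) ln13_12_4 ln13_12_4_ok))))) (B (M (nat_lit 493) (B (M (nat_lit 364) (B (L (nat_lit 332) ln13_14_7 ln13_14_7_ok) (L (nat_lit 396) ln13_15_7 ln13_15_7_ok))) (M (nat_lit 494) (B (L (nat_lit 462) ln13_11_4 ln13_11_4_ok) (L (nat_lit 526) ln13_12_4 ln13_12_4_ok))))) (M (nat_lit 333) (B (M (nat_lit 332) (B (L (nat_lit 300) ln13_13_7 ln13_13_7_ok) (L (nat_lit 364) ln13_14_7 ln13_14_7_ok))) (M (nat_lit 462) (B (L (nat_lit 430) ln13_10_4 ln13_10_4_ok) (L (nat_lit 494) ln13_11_4 ln13_11_4_ok))))))))) (B (M (nat_lit 365) (B (M (nat_lit 333) (B (M (nat_lit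 460) (B (L (nat_lit 428) ln13_10_5 ln13_10_5_ok) (L (nat_lit 492) ln13_11_5 ln13_11_5_ok))) (M (nat_lit 462) (B (L (nat_lit 430) ln13_10_4 ln13_10_4_ok) (L (nat_lit 494) ln13_11_4 ln13_11_4_ok))))) (M (nat_lit 364) (B (L (nat_lit 332) ln13_14_7 ln13_14_7_ok) (M (nat_lit 366) (B (L (nat_lit 334) ln13_14_6 ln13_14_6_ok) (M (nat_lit 363) (B (M (nat_lit 398) (B (L (nat_lit 362) ln10_11_0 ln10_11_0_ok) (L (nat_lit 399) ln11_11_0 ln11_11_0_ok))) (B (M (nat_lit 367) (B (M (nat_lit 395) (B (L (nat_lit 394) ln14_11_1 ln14_11_1_ok) (L (nat_lit 396) ln15_11_1 ln15_11_1_ok))) (M (nat_lit 399) (B (L (nat_lit 398) ln11_11_0 ln11_11_0_ok) (L (nat_lit 400) ln12_11_0 ln12_11_0_ok))))) (M (nat_lit 362) (B (M (nat_lit 330) (B (L (nat_lit 329) ln13_11_3 ln13_11_3_ok) (L (nat_lit 331) ln14_11_3 ln14_11_3_ok))) (M (nat_lit 394) (B (L (nat_lit 393) ln13_11_1 ln13_11_1_ok) (L (nat_lit 395) ln14_11_1 ln14_11_1_ok)))))))))))))) (M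 (nat_lit 493) (B (M (nat_lit 365) (B (M (nat_lit 366) (B (L (nat_lit 334) ln13_14_6 ln13_14_6_ok) (L (nat_lit 398) ln13_15_6 ln13_15_6_ok))) (M (nat_lit 492) (B (L (nat_lit 460) ln13_11_5 ln13_11_5_ok) (L (nat_lit 524) ln13_12_5 ln13_12_5_ok))))) (B (M (nat_lit 365) (B (M (nat_lit 364) (B (L (nat_lit 332) ln13_14_7 ln13_14_7_ok) (L (nat_lit 396) ln13_15_7 ln13_15_7_ok))) (M (nat_lit 492) (B (L (nat_lit 460) ln13_11_5 ln13_11_5_ok) (L (nat_lit 524) ln13_12_5 ln13_12_5_ok))))) (B (M (nat_lit 525) (B (M (nat_lit 396) (B (L (nat_lit 364) ln13_15_7 ln13_15_7_ok) (L (nat_lit 428) ln13_16_7 ln13_16_7_ok))) (M (nat_lit 524) (B (L (nat_lit 492) ln13_12_5 ln13_12_5_ok) (L (nat_lit 556) ln13_13_5 ln13_13_5_ok))))) (M (nat_lit 365) (B (M (nat_lit 364) (B (L (nat_lit 332) ln13_14_7 ln13_14_7_ok) (L (nat_lit 396) ln13_15_7 ln13_15_7_ok))) (M (nat_lit 366) (B (L (nat_lit 334) ln13_14_6 ln13_14_6_ok) (L (nat_lit 398) ln13_15_6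 ln13_15_6_ok)))))))))))))))))) (nat_lit 5954262830815946494440468064007740237496571878468728087513875999273036838532266441790969898967138332125836366047228135112217242456098340864) (nat_lit 1179363258141160341734600181570542734239334878839860316440911581661158216451730677684712759492900875091125338166018664723899446763861185797712984629425970526783841239040) (nat_lit 1179363258141160341734600181570542734239334878839860316440911581661158216451730677684712759492900875091125338166018664723899446763861185797712984629425970526783841239040) (by decide +kernel)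
theorem c20_s298 : Sem (nat_lit 5954262830815946494440468064007740237496571878468728087513875999273036838532266441790969898967138332125836366047228135112217242456098340864) (nat_lit 235872651935775003674211536323475511510104573740914709103635050680736404288853849573942696804232240475000466867822018573934610924782012743983071064096888303326746116096) (nat_lit 235872651935775003674211536323475511510104573740914709103635050680736404288853849573942696804232240475000466867822018573934610924782012743983071064096888303326746116096) :=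
  sem_of_chk (M (nat_lit 397) (B (M (nat_lit 493) (B (M (nat_lit 525) (B (M (nat_lit 396) (B (L (nat_lit 364) ln13_15_7 ln13_15_7_ok) (L (nat_lit 428) ln13_16_7 ln13_16_7_ok))) (M (nat_lit 398) (B (L (nat_lit 366) ln13_15_6 ln13_15_6_ok) (L (nat_lit 430) ln13_16_6 ln13_16_6_ok))))) (B (M (nat_lit 365) (B (M (nat_lit 366) (B (L (nat_lit 334) ln13_14_6 ln13_14_6_ok) (L (nat_lit 398) ln13_15_6 ln13_15_6_ok))) (M (nat_lit 492) (B (L (nat_lit 460) ln13_11_5 ln13_11_5_ok) (L (nat_lit 524) ln13_12_5 ln13_12_5_ok))))) (M (nat_lit 365) (B (M (nat_lit 364) (B (L (nat_lit 332) ln13_14_7 ln13_14_7_ok) (L (nat_lit 396) ln13_15_7 ln13_15_7_ok))) (M (nat_lit 492) (B (L (nat_lit 460) ln13_11_5 ln13_11_5_ok) (L (nat_lit 524) ln13_12_5 ln13_12_5_ok)))))))) (B (M (nat_lit 493) (B (M (nat_lit 525) (B (M (nat_lit 396) (B (L (nat_lit 364) ln13_15_7 ln13_15_7_ok) (L (nat_lit 428) ln13_16_7 ln13_16_7_ok))) (M (nat_lit 398) (B (L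 (nat_lit 366) ln13_15_6 ln13_15_6_ok) (L (nat_lit 430) ln13_16_6 ln13_16_6_ok))))) (B (M (nat_lit 525) (B (M (nat_lit 398) (B (L (nat_lit 366) ln13_15_6 ln13_15_6_ok) (L (nat_lit 430) ln13_16_6 ln13_16_6_ok))) (M (nat_lit 524) (B (L (nat_lit 492) ln13_12_5 ln13_12_5_ok) (L (nat_lit 556) ln13_13_5 ln13_13_5_ok))))) (B (M (nat_lit 525) (B (M (nat_lit 396) (B (L (nat_lit 364) ln13_15_7 ln13_15_7_ok) (L (nat_lit 428) ln13_16_7 ln13_16_7_ok))) (M (nat_lit 524) (B (L (nat_lit 492) ln13_12_5 ln13_12_5_ok) (L (nat_lit 556) ln13_13_5 ln13_13_5_ok))))) (M (nat_lit 365) (B (M (nat_lit 366) (B (L (nat_lit 334) ln13_14_6 ln13_14_6_ok) (L (nat_lit 398) ln13_15_6 ln13_15_6_ok))) (M (nat_lit 492) (B (L (nat_lit 460) ln13_11_5 ln13_11_5_ok) (L (nat_lit 524) ln13_12_5 ln13_12_5_ok))))))))) (B (M (nat_lit 493) (B (M (nat_lit 525) (B (M (nat_lit 396) (B (L (nat_lit 364) ln13_15_7 ln13_15_7_ok) (L (nat_lit 428) ln13_16_7 ln13_16_7_ok)))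 (M (nat_lit 398) (B (L (nat_lit 366) ln13_15_6 ln13_15_6_ok) (L (nat_lit 430) ln13_16_6 ln13_16_6_ok))))) (B (M (nat_lit 525) (B (M (nat_lit 398) (B (L (nat_lit 366) ln13_15_6 ln13_15_6_ok) (L (nat_lit 430) ln13_16_6 ln13_16_6_ok))) (M (nat_lit 524) (B (L (nat_lit 492) ln13_12_5 ln13_12_5_ok) (L (nat_lit 556) ln13_13_5 ln13_13_5_ok))))) (B (M (nat_lit 525) (B (M (nat_lit 396) (B (L (nat_lit 364) ln13_15_7 ln13_15_7_ok) (L (nat_lit 428) ln13_16_7 ln13_16_7_ok))) (M (nat_lit 524) (B (L (nat_lit 492) ln13_12_5 ln13_12_5_ok) (L (nat_lit 556) ln13_13_5 ln13_13_5_ok))))) (M (nat_lit 365) (B (M (nat_lit 364) (B (L (nat_lit 332) ln13_14_7 ln13_14_7_ok) (L (nat_lit 396) ln13_15_7 ln13_15_7_ok))) (M (nat_lit 492) (B (L (nat_lit 460) ln13_11_5 ln13_11_5_ok) (L (nat_lit 524) ln13_12_5 ln13_12_5_ok))))))))) (B (M (nat_lit 493) (B (M (nat_lit 365) (B (M (nat_lit 366) (B (L (nat_lit 334) ln13_14_6 ln13_14_6_ok) (L (nat_lit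 398) ln13_15_6 ln13_15_6_ok))) (M (nat_lit 494) (B (L (nat_lit 462) ln13_11_4 ln13_11_4_ok) (L (nat_lit 526) ln13_12_4 ln13_12_4_ok))))) (B (M (nat_lit 365) (B (M (nat_lit 492) (B (L (nat_lit 460) ln13_11_5 ln13_11_5_ok) (L (nat_lit 524) ln13_12_5 ln13_12_5_ok))) (M (nat_lit 494) (B (L (nat_lit 462) ln13_11_4 ln13_11_4_ok) (L (nat_lit 526) ln13_12_4 ln13_12_4_ok))))) (M (nat_lit 525) (B (M (nat_lit 398) (B (L (nat_lit 366) ln13_15_6 ln13_15_6_ok) (L (nat_lit 430) ln13_16_6 ln13_16_6_ok))) (M (nat_lit 524) (B (L (nat_lit 492) ln13_12_5 ln13_12_5_ok) (L (nat_lit 556) ln13_13_5 ln13_13_5_ok)))))))) (B (M (nat_lit 493) (B (M (nat_lit 525) (B (M (nat_lit 396) (B (L (nat_lit 364) ln13_15_7 ln13_15_7_ok) (L (nat_lit 428) ln13_16_7 ln13_16_7_ok))) (M (nat_lit 398) (B (L (nat_lit 366) ln13_15_6 ln13_15_6_ok) (L (nat_lit 430) ln13_16_6 ln13_16_6_ok))))) (B (M (nat_lit 525) (B (M (nat_lit 398) (B (L (nat_lit 366) ln13_15_6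 ln13_15_6_ok) (L (nat_lit 430) ln13_16_6 ln13_16_6_ok))) (M (nat_lit 524) (B (L (nat_lit 492) ln13_12_5 ln13_12_5_ok) (L (nat_lit 556) ln13_13_5 ln13_13_5_ok))))) (B (M (nat_lit 525) (B (M (nat_lit 396) (B (L (nat_lit 364) ln13_15_7 ln13_15_7_ok) (L (nat_lit 428) ln13_16_7 ln13_16_7_ok))) (M (nat_lit 524) (B (L (nat_lit 492) ln13_12_5 ln13_12_5_ok) (L (nat_lit 556) ln13_13_5 ln13_13_5_ok))))) (M (nat_lit 428) (B (M (nat_lit 398) (B (L (nat_lit 366) ln13_15_6 ln13_15_6_ok) (M (nat_lit 399) (B (L (nat_lit 400) ln16_12_1 ln16_12_1_ok) (M (nat_lit 427) (B (L (nat_lit 426) ln10_13_2 ln10_13_2_ok) (L (nat_lit 430) ln11_13_2 ln11_13_2_ok))))))) (B (M (nat_lit 460) (B (M (nat_lit 492) (B (L (nat_lit 524) ln12_16_6 ln12_16_6_ok) (M (nat_lit 494) (B (L (nat_lit 526) ln13_12_4 ln13_12_4_ok) (M (nat_lit 459) (B (L (nat_lit 458) ln10_14_0 ln10_14_0_ok) (L (nat_lit 495) ln15_15_3 ln15_15_3_ok))))))) (B (M (nat_lit 396)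 (B (L (nat_lit 364) ln13_15_7 ln13_15_7_ok) (M (nat_lit 395) (B (M (nat_lit 492) (B (L (nat_lit 363) ln12_15_7 ln12_15_7_ok) (L (nat_lit 524) ln12_16_6 ln12_16_6_ok))) (M (nat_lit 394) (B (L (nat_lit 393) ln9_12_0 ln9_12_0_ok) (L (nat_lit 430) ln10_12_0 ln10_12_0_ok))))))) (M (nat_lit 459) (B (M (nat_lit 458) (B (L (nat_lit 457) ln9_14_2 ln9_14_2_ok) (L (nat_lit 430) ln10_14_2 ln10_14_2_ok))) (B (M (nat_lit 458) (B (L (nat_lit 457) ln9_14_2 ln9_14_2_ok) (L (nat_lit 494) ln10_14_0 ln10_14_0_ok))) (B (M (nat_lit 458) (B (L (nat_lit 430) ln10_14_2 ln10_14_2_ok) (L (nat_lit 494) ln10_14_0 ln10_14_0_ok))) (M (nat_lit 462) (B (M (nat_lit 427) (B (L (nat_lit 426) ln10_13_0 ln10_13_0_ok) (L (nat_lit 463) ln15_14_3 ln15_14_3_ok))) (M (nat_lit 494) (B (L (nat_lit 526) ln13_12_4 ln13_12_4_ok) (L (nat_lit 495) ln11_14_0 ln11_14_0_ok)))))))))))) (B (M (nat_lit 396) (B (L (nat_lit 364) ln13_15_7 ln13_15_7_ok) (M (nat_lit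 398) (B (L (nat_lit 366) ln13_15_6 ln13_15_6_ok) (M (nat_lit 399) (B (L (nat_lit 427) ln15_12_1 ln15_12_1_ok) (L (nat_lit 400) ln16_12_1 ln16_12_1_ok))))))) (M (nat_lit 396) (B (L (nat_lit 364) ln13_15_7 ln13_15_7_ok) (M (nat_lit 395) (B (M (nat_lit 394) (B (L (nat_lit 393) ln9_12_0 ln9_12_0_ok) (L (nat_lit 430) ln10_12_0 ln10_12_0_ok))) (M (nat_lit 363) (B (M (nat_lit 398) (B (L (nat_lit 362) ln14_12_3 ln14_12_3_ok) (L (nat_lit 366) ln13_15_6 ln13_15_6_ok))) (M (nat_lit 492) (B (L (nat_lit 460) ln12_15_7 ln12_15_7_ok) (L (nat_lit 524) ln13_12_5 ln13_12_5_ok))))))))))))))))) (B (M (nat_lit 493) (B (M (nat_lit 365) (B (M (nat_lit 364) (B (L (nat_lit 332) ln13_14_7 ln13_14_7_ok) (L (nat_lit 396) ln13_15_7 ln13_15_7_ok))) (M (nat_lit 494) (B (L (nat_lit 462) ln13_11_4 ln13_11_4_ok) (L (nat_lit 526) ln13_12_4 ln13_12_4_ok))))) (B (M (nat_lit 365) (B (M (nat_lit 492) (B (L (nat_lit 460) ln13_11_5 ln13_11_5_ok)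 (L (nat_lit 524) ln13_12_5 ln13_12_5_ok))) (M (nat_lit 494) (B (L (nat_lit 462) ln13_11_4 ln13_11_4_ok) (L (nat_lit 526) ln13_12_4 ln13_12_4_ok))))) (M (nat_lit 525) (B (M (nat_lit 396) (B (L (nat_lit 364) ln13_15_7 ln13_15_7_ok) (L (nat_lit 428) ln13_16_7 ln13_16_7_ok))) (M (nat_lit 524) (B (L (nat_lit 492) ln13_12_5 ln13_12_5_ok) (L (nat_lit 556) ln13_13_5 ln13_13_5_ok)))))))) (B (M (nat_lit 493) (B (M (nat_lit 365) (B (M (nat_lit 366) (B (L (nat_lit 334) ln13_14_6 ln13_14_6_ok) (L (nat_lit 398) ln13_15_6 ln13_15_6_ok))) (M (nat_lit 494) (B (L (nat_lit 462) ln13_11_4 ln13_11_4_ok) (L (nat_lit 526) ln13_12_4 ln13_12_4_ok))))) (B (M (nat_lit 365) (B (M (nat_lit 364) (B (L (nat_lit 332) ln13_14_7 ln13_14_7_ok) (L (nat_lit 396) ln13_15_7 ln13_15_7_ok))) (M (nat_lit 494) (B (L (nat_lit 462) ln13_11_4 ln13_11_4_ok) (L (nat_lit 526) ln13_12_4 ln13_12_4_ok))))) (M (nat_lit 525) (B (M (nat_lit 396) (B (L (nat_lit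 364) ln13_15_7 ln13_15_7_ok) (L (nat_lit 428) ln13_16_7 ln13_16_7_ok))) (M (nat_lit 524) (B (L (nat_lit 492) ln13_12_5 ln13_12_5_ok) (L (nat_lit 556) ln13_13_5 ln13_13_5_ok)))))))) (B (M (nat_lit 493) (B (M (nat_lit 365) (B (M (nat_lit 366) (B (L (nat_lit 334) ln13_14_6 ln13_14_6_ok) (L (nat_lit 398) ln13_15_6 ln13_15_6_ok))) (M (nat_lit 494) (B (L (nat_lit 462) ln13_11_4 ln13_11_4_ok) (L (nat_lit 526) ln13_12_4 ln13_12_4_ok))))) (B (M (nat_lit 365) (B (M (nat_lit 364) (B (L (nat_lit 332) ln13_14_7 ln13_14_7_ok) (L (nat_lit 396) ln13_15_7 ln13_15_7_ok))) (M (nat_lit 494) (B (L (nat_lit 462) ln13_11_4 ln13_11_4_ok) (L (nat_lit 526) ln13_12_4 ln13_12_4_ok))))) (M (nat_lit 525) (B (M (nat_lit 396) (B (L (nat_lit 364) ln13_15_7 ln13_15_7_ok) (L (nat_lit 428) ln13_16_7 ln13_16_7_ok))) (M (nat_lit 398) (B (L (nat_lit 366) ln13_15_6 ln13_15_6_ok) (L (nat_lit 430) ln13_16_6 ln13_16_6_ok)))))))) (M (nat_lit 365)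 (B (M (nat_lit 333) (B (M (nat_lit 332) (B (L (nat_lit 300) ln13_13_7 ln13_13_7_ok) (L (nat_lit 364) ln13_14_7 ln13_14_7_ok))) (M (nat_lit 460) (B (L (nat_lit 428) ln13_10_5 ln13_10_5_ok) (L (nat_lit 492) ln13_11_5 ln13_11_5_ok))))) (B (M (nat_lit 333) (B (M (nat_lit 460) (B (L (nat_lit 428) ln13_10_5 ln13_10_5_ok) (L (nat_lit 492) ln13_11_5 ln13_11_5_ok))) (M (nat_lit 462) (B (L (nat_lit 430) ln13_10_4 ln13_10_4_ok) (L (nat_lit 494) ln13_11_4 ln13_11_4_ok))))) (M (nat_lit 366) (B (L (nat_lit 334) ln13_14_6 ln13_14_6_ok) (M (nat_lit 364) (B (L (nat_lit 332) ln13_14_7 ln13_14_7_ok) (M (nat_lit 367) (B (M (nat_lit 396) (B (L (nat_lit 395) ln15_11_1 ln15_11_1_ok) (L (nat_lit 368) ln16_11_1 ln16_11_1_ok))) (B (M (nat_lit 363) (B (M (nat_lit 395) (B (L (nat_lit 394) ln14_11_1 ln14_11_1_ok) (L (nat_lit 396) ln15_11_1 ln15_11_1_ok))) (M (nat_lit 399) (B (L (nat_lit 398) ln11_11_0 ln11_11_0_ok) (L (nat_lit 400)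 ln12_11_0 ln12_11_0_ok))))) (B (M (nat_lit 368) (B (L (nat_lit 396) ln16_11_1 ln16_11_1_ok) (M (nat_lit 336) (B (L (nat_lit 335) ln12_11_2 ln12_11_2_ok) (L (nat_lit 337) ln13_11_2 ln13_11_2_ok))))) (M (nat_lit 368) (B (M (nat_lit 336) (B (L (nat_lit 335) ln12_11_2 ln12_11_2_ok) (L (nat_lit 337) ln13_11_2 ln13_11_2_ok))) (M (nat_lit 400) (B (L (nat_lit 399) ln12_11_0 ln12_11_0_ok) (L (nat_lit 401) ln13_11_0 ln13_11_0_ok))))))))))))))))))))))))) (nat_lit 5954262830815946494440468064007740237496571878468728087513875999273036838532266441790969898967138332125836366047228135112217242456098340864) (nat_lit 235872651935775003674211536323475511510104573740914709103635050680736404288853849573942696804232240475000466867822018573934610924782012743983071064096888303326746116096) (nat_lit 235872651935775003674211536323475511510104573740914709103635050680736404288853849573942696804232240475000466867822018573934610924782012743983071064096888303326746116096)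 (by decide +kernel)
noncomputable def c20_n435 : Cert := (M (nat_lit 462) (B (M (nat_lit 494) (B (L (nat_lit 365) ln13_11_4 ln13_11_4_ok) (M (nat_lit 526) (B (L (nat_lit 430) ln14_16_7 ln14_16_7_ok) (L (nat_lit 558) ln14_17_7 ln14_17_7_ok))))) (B (M (nat_lit 463) (B (M (nat_lit 428) (B (L (nat_lit 464) ln16_14_3 ln16_14_3_ok) (M (nat_lit 427) (B (L (nat_lit 426) ln10_13_0 ln10_13_0_ok) (L (nat_lit 460) ln15_14_3 ln15_14_3_ok))))) (B (M (nat_lit 428) (B (L (nat_lit 464) ln16_14_3 ln16_14_3_ok) (M (nat_lit 427) (B (L (nat_lit 430) ln11_13_0 ln11_13_0_ok) (L (nat_lit 460) ln15_14_3 ln15_14_3_ok))))) (B (M (nat_lit 464) (B (L (nat_lit 428) ln16_14_3 ln16_14_3_ok) (M (nat_lit 465) (B (L (nat_lit 430) ln17_14_3 ln17_14_3_ok) (M (nat_lit 433) (B (L (nat_lit 432) ln13_14_2 ln13_14_2_ok) (L (nat_lit 434) ln14_14_2 ln14_14_2_ok))))))) (B (M (nat_lit 460) (B (M (nat_lit 495) (B (L (nat_lit 496) ln12_14_0 ln12_14_0_ok)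 (M (nat_lit 459) (B (L (nat_lit 494) ln11_14_0 ln11_14_0_ok) (M (nat_lit 491) (B (L (nat_lit 490) ln14_14_1 ln14_14_1_ok) (L (nat_lit 492) ln15_14_1 ln15_14_1_ok))))))) (B (M (nat_lit 464) (B (M (nat_lit 496) (B (L (nat_lit 495) ln12_14_0 ln12_14_0_ok) (L (nat_lit 497) ln13_14_0 ln13_14_0_ok))) (M (nat_lit 433) (B (L (nat_lit 432) ln13_14_2 ln13_14_2_ok) (M (nat_lit 465) (B (L (nat_lit 430) ln17_14_3 ln17_14_3_ok) (L (nat_lit 434) ln14_14_2 ln14_14_2_ok))))))) (M (nat_lit 459) (B (M (nat_lit 491) (B (L (nat_lit 490) ln14_14_1 ln14_14_1_ok) (L (nat_lit 492) ln15_14_1 ln15_14_1_ok))) (M (nat_lit 458) (B (L (nat_lit 430) ln10_14_2 ln10_14_2_ok) (M (nat_lit 426) (B (L (nat_lit 425) ln13_14_3 ln13_14_3_ok) (L (nat_lit 427) ln14_14_3 ln14_14_3_ok)))))))))) (M (nat_lit 460) (B (M (nat_lit 492) (B (L (nat_lit 491) ln15_14_1 ln15_14_1_ok) (M (nat_lit 428) (B (L (nat_lit 524) ln12_16_6 ln12_16_6_ok) (L (nat_lit 427)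 ln15_14_3 ln15_14_3_ok))))) (B (M (nat_lit 495) (B (L (nat_lit 496) ln12_14_0 ln12_14_0_ok) (M (nat_lit 459) (B (L (nat_lit 494) ln11_14_0 ln11_14_0_ok) (M (nat_lit 491) (B (L (nat_lit 490) ln14_14_1 ln14_14_1_ok) (L (nat_lit 492) ln15_14_1 ln15_14_1_ok))))))) (M (nat_lit 459) (B (M (nat_lit 427) (B (L (nat_lit 426) ln14_14_3 ln14_14_3_ok) (L (nat_lit 428) ln15_14_3 ln15_14_3_ok))) (M (nat_lit 495) (B (L (nat_lit 494) ln11_14_0 ln11_14_0_ok) (L (nat_lit 496) ln12_14_0 ln12_14_0_ok))))))))))))) (B (M (nat_lit 365) (B (L (nat_lit 494) ln13_11_4 ln13_11_4_ok) (M (nat_lit 333) (B (M (nat_lit 334) (B (L (nat_lit 302) ln13_13_6 ln13_13_6_ok) (L (nat_lit 366) ln13_14_6 ln13_14_6_ok))) (M (nat_lit 460) (B (L (nat_lit 428) ln13_10_5 ln13_10_5_ok) (L (nat_lit 492) ln13_11_5 ln13_11_5_ok))))))) (M (nat_lit 460) (B (M (nat_lit 365) (B (L (nat_lit 492) ln13_11_5 ln13_11_5_ok) (M (nat_lit 333) (B (L (nat_lit 428) ln13_10_5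 ln13_10_5_ok) (L (nat_lit 430) ln13_10_4 ln13_10_4_ok))))) (B (M (nat_lit 492) (B (L (nat_lit 365) ln13_11_5 ln13_11_5_ok) (M (nat_lit 524) (B (L (nat_lit 428) ln12_16_6 ln12_16_6_ok) (L (nat_lit 556) ln12_17_6 ln12_17_6_ok))))) (B (M (nat_lit 459) (B (M (nat_lit 458) (B (L (nat_lit 430) ln10_14_2 ln10_14_2_ok) (M (nat_lit 426) (B (L (nat_lit 425) ln13_14_3 ln13_14_3_ok) (L (nat_lit 427) ln14_14_3 ln14_14_3_ok))))) (B (M (nat_lit 458) (B (L (nat_lit 430) ln10_14_2 ln10_14_2_ok) (M (nat_lit 490) (B (L (nat_lit 489) ln13_14_1 ln13_14_1_ok) (L (nat_lit 491) ln14_14_1 ln14_14_1_ok))))) (M (nat_lit 463) (B (M (nat_lit 427) (B (L (nat_lit 426) ln14_14_3 ln14_14_3_ok) (L (nat_lit 428) ln15_14_3 ln15_14_3_ok))) (M (nat_lit 491) (B (L (nat_lit 490) ln14_14_1 ln14_14_1_ok) (L (nat_lit 492) ln15_14_1 ln15_14_1_ok)))))))) (B (M (nat_lit 365) (B (L (nat_lit 492) ln13_11_5 ln13_11_5_ok) (M (nat_lit 333) (B (L (nat_lit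 430) ln13_10_4 ln13_10_4_ok) (M (nat_lit 334) (B (L (nat_lit 302) ln13_13_6 ln13_13_6_ok) (L (nat_lit 366) ln13_14_6 ln13_14_6_ok))))))) (M (nat_lit 463) (B (M (nat_lit 428) (B (L (nat_lit 427) ln15_14_3 ln15_14_3_ok) (L (nat_lit 464) ln16_14_3 ln16_14_3_ok))) (B (M (nat_lit 464) (B (L (nat_lit 428) ln16_14_3 ln16_14_3_ok) (M (nat_lit 496) (B (L (nat_lit 495) ln12_14_0 ln12_14_0_ok) (L (nat_lit 497) ln13_14_0 ln13_14_0_ok))))) (B (M (nat_lit 464) (B (M (nat_lit 496) (B (L (nat_lit 495) ln12_14_0 ln12_14_0_ok) (L (nat_lit 497) ln13_14_0 ln13_14_0_ok))) (M (nat_lit 433) (B (L (nat_lit 432) ln13_14_2 ln13_14_2_ok) (M (nat_lit 465) (B (L (nat_lit 430) ln17_14_3 ln17_14_3_ok) (L (nat_lit 434) ln14_14_2 ln14_14_2_ok))))))) (M (nat_lit 459) (B (M (nat_lit 427) (B (L (nat_lit 426) ln14_14_3 ln14_14_3_ok) (L (nat_lit 428) ln15_14_3 ln15_14_3_ok))) (M (nat_lit 458) (B (L (nat_lit 430) ln10_14_2 ln10_14_2_ok) (M (nat_lit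 490) (B (L (nat_lit 489) ln13_14_1 ln13_14_1_ok) (L (nat_lit 491) ln14_14_1 ln14_14_1_ok))))))))))))))))))))
theorem c20_s436 : Sem (nat_lit 5954262830815946494440468064007740237496571878468728087513875999273036838532266441790969898967138332125836366047228135112217242456098340864) (nat_lit 1179363258189213925980463535503177464601681420883930867768473260333181473132732964706344092481753590690256380742569183414677782904966746592495236056611024296878117224448) (nat_lit 1179363258189213925980463535503177464601681420883930867768473260333181473132732964706344092481753590690256380742569183414677782904966746592495236056611024296878117224448) :=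
  sem_of_chk (M (nat_lit 397) (B (M (nat_lit 493) (B (M (nat_lit 525) (B (M (nat_lit 396) (B (L (nat_lit 364) ln13_15_7 ln13_15_7_ok) (L (nat_lit 428) ln13_16_7 ln13_16_7_ok))) (M (nat_lit 398) (B (L (nat_lit 366) ln13_15_6 ln13_15_6_ok) (L (nat_lit 430) ln13_16_6 ln13_16_6_ok))))) (M (nat_lit 365) (B (M (nat_lit 492) (B (L (nat_lit 460) ln13_11_5 ln13_11_5_ok) (L (nat_lit 524) ln13_12_5 ln13_12_5_ok))) (M (nat_lit 494) (B (L (nat_lit 462) ln13_11_4 ln13_11_4_ok) (L (nat_lit 526) ln13_12_4 ln13_12_4_ok))))))) (B (M (nat_lit 493) (B (M (nat_lit 525) (B (M (nat_lit 398) (B (L (nat_lit 366) ln13_15_6 ln13_15_6_ok) (L (nat_lit 430) ln13_16_6 ln13_16_6_ok))) (M (nat_lit 524) (B (L (nat_lit 492) ln13_12_5 ln13_12_5_ok) (L (nat_lit 556) ln13_13_5 ln13_13_5_ok))))) (B (M (nat_lit 525) (B (M (nat_lit 524) (B (L (nat_lit 492) ln13_12_5 ln13_12_5_ok) (L (nat_lit 556) ln13_13_5 ln13_13_5_ok))) (M (nat_lit 526) (B (L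 (nat_lit 494) ln13_12_4 ln13_12_4_ok) (L (nat_lit 558) ln13_13_4 ln13_13_4_ok))))) (B (M (nat_lit 525) (B (M (nat_lit 398) (B (L (nat_lit 366) ln13_15_6 ln13_15_6_ok) (L (nat_lit 430) ln13_16_6 ln13_16_6_ok))) (M (nat_lit 526) (B (L (nat_lit 494) ln13_12_4 ln13_12_4_ok) (L (nat_lit 558) ln13_13_4 ln13_13_4_ok))))) (M (nat_lit 365) (B (M (nat_lit 492) (B (L (nat_lit 460) ln13_11_5 ln13_11_5_ok) (L (nat_lit 524) ln13_12_5 ln13_12_5_ok))) (M (nat_lit 494) (B (L (nat_lit 462) ln13_11_4 ln13_11_4_ok) (L (nat_lit 526) ln13_12_4 ln13_12_4_ok))))))))) (B (M (nat_lit 493) (B (M (nat_lit 525) (B (M (nat_lit 396) (B (L (nat_lit 364) ln13_15_7 ln13_15_7_ok) (L (nat_lit 428) ln13_16_7 ln13_16_7_ok))) (M (nat_lit 398) (B (L (nat_lit 366) ln13_15_6 ln13_15_6_ok) (L (nat_lit 430) ln13_16_6 ln13_16_6_ok))))) (B (M (nat_lit 525) (B (M (nat_lit 398) (B (L (nat_lit 366) ln13_15_6 ln13_15_6_ok) (L (nat_lit 430) ln13_16_6 ln13_16_6_ok)))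 (M (nat_lit 526) (B (L (nat_lit 494) ln13_12_4 ln13_12_4_ok) (L (nat_lit 558) ln13_13_4 ln13_13_4_ok))))) (B (M (nat_lit 525) (B (M (nat_lit 396) (B (L (nat_lit 364) ln13_15_7 ln13_15_7_ok) (L (nat_lit 428) ln13_16_7 ln13_16_7_ok))) (M (nat_lit 526) (B (L (nat_lit 494) ln13_12_4 ln13_12_4_ok) (L (nat_lit 558) ln13_13_4 ln13_13_4_ok))))) (M (nat_lit 492) (B (L (nat_lit 524) ln13_12_5 ln13_12_5_ok) (M (nat_lit 494) (B (L (nat_lit 526) ln13_12_4 ln13_12_4_ok) (M (nat_lit 491) (B (M (nat_lit 462) (B (L (nat_lit 490) ln10_15_2 ln10_15_2_ok) (L (nat_lit 463) ln11_15_2 ln11_15_2_ok))) (B (M (nat_lit 490) (B (M (nat_lit 458) (B (L (nat_lit 457) ln13_15_3 ln13_15_3_ok) (L (nat_lit 459) ln14_15_3 ln14_15_3_ok))) (M (nat_lit 522) (B (L (nat_lit 521) ln13_15_1 ln13_15_1_ok) (L (nat_lit 523) ln14_15_1 ln14_15_1_ok))))) (M (nat_lit 495) (B (M (nat_lit 459) (B (L (nat_lit 458) ln14_15_3 ln14_15_3_ok) (L (nat_lit 460) ln15_15_3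 ln15_15_3_ok))) (M (nat_lit 463) (B (L (nat_lit 462) ln11_15_2 ln11_15_2_ok) (L (nat_lit 464) ln12_15_2 ln12_15_2_ok)))))))))))))))) (B (M (nat_lit 493) (B (M (nat_lit 525) (B (M (nat_lit 396) (B (L (nat_lit 364) ln13_15_7 ln13_15_7_ok) (L (nat_lit 428) ln13_16_7 ln13_16_7_ok))) (M (nat_lit 524) (B (L (nat_lit 492) ln13_12_5 ln13_12_5_ok) (L (nat_lit 556) ln13_13_5 ln13_13_5_ok))))) (B (M (nat_lit 525) (B (M (nat_lit 524) (B (L (nat_lit 492) ln13_12_5 ln13_12_5_ok) (L (nat_lit 556) ln13_13_5 ln13_13_5_ok))) (M (nat_lit 526) (B (L (nat_lit 494) ln13_12_4 ln13_12_4_ok) (L (nat_lit 558) ln13_13_4 ln13_13_4_ok))))) (B (M (nat_lit 525) (B (M (nat_lit 396) (B (L (nat_lit 364) ln13_15_7 ln13_15_7_ok) (L (nat_lit 428) ln13_16_7 ln13_16_7_ok))) (M (nat_lit 526) (B (L (nat_lit 494) ln13_12_4 ln13_12_4_ok) (L (nat_lit 558) ln13_13_4 ln13_13_4_ok))))) (M (nat_lit 365) (B (M (nat_lit 492) (B (L (nat_lit 460) ln13_11_5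 ln13_11_5_ok) (L (nat_lit 524) ln13_12_5 ln13_12_5_ok))) (M (nat_lit 494) (B (L (nat_lit 462) ln13_11_4 ln13_11_4_ok) (L (nat_lit 526) ln13_12_4 ln13_12_4_ok))))))))) (B (M (nat_lit 493) (B (M (nat_lit 525) (B (M (nat_lit 396) (B (L (nat_lit 364) ln13_15_7 ln13_15_7_ok) (L (nat_lit 428) ln13_16_7 ln13_16_7_ok))) (M (nat_lit 524) (B (L (nat_lit 492) ln13_12_5 ln13_12_5_ok) (L (nat_lit 556) ln13_13_5 ln13_13_5_ok))))) (B (M (nat_lit 525) (B (M (nat_lit 524) (B (L (nat_lit 492) ln13_12_5 ln13_12_5_ok) (L (nat_lit 556) ln13_13_5 ln13_13_5_ok))) (M (nat_lit 526) (B (L (nat_lit 494) ln13_12_4 ln13_12_4_ok) (L (nat_lit 558) ln13_13_4 ln13_13_4_ok))))) (B (M (nat_lit 525) (B (M (nat_lit 396) (B (L (nat_lit 364) ln13_15_7 ln13_15_7_ok) (L (nat_lit 428) ln13_16_7 ln13_16_7_ok))) (M (nat_lit 526) (B (L (nat_lit 494) ln13_12_4 ln13_12_4_ok) (L (nat_lit 558) ln13_13_4 ln13_13_4_ok))))) (M (nat_lit 365) (B (M (nat_lit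 366) (B (L (nat_lit 334) ln13_14_6 ln13_14_6_ok) (L (nat_lit 398) ln13_15_6 ln13_15_6_ok))) (M (nat_lit 494) (B (L (nat_lit 462) ln13_11_4 ln13_11_4_ok) (L (nat_lit 526) ln13_12_4 ln13_12_4_ok))))))))) (B (M (nat_lit 493) (B (M (nat_lit 525) (B (M (nat_lit 396) (B (L (nat_lit 364) ln13_15_7 ln13_15_7_ok) (L (nat_lit 428) ln13_16_7 ln13_16_7_ok))) (M (nat_lit 526) (B (L (nat_lit 494) ln13_12_4 ln13_12_4_ok) (L (nat_lit 558) ln13_13_4 ln13_13_4_ok))))) (M (nat_lit 365) (B (M (nat_lit 366) (B (L (nat_lit 334) ln13_14_6 ln13_14_6_ok) (L (nat_lit 398) ln13_15_6 ln13_15_6_ok))) (M (nat_lit 492) (B (L (nat_lit 460) ln13_11_5 ln13_11_5_ok) (L (nat_lit 524) ln13_12_5 ln13_12_5_ok))))))) (B (M (nat_lit 493) (B (M (nat_lit 525) (B (M (nat_lit 396) (B (L (nat_lit 364) ln13_15_7 ln13_15_7_ok) (L (nat_lit 428) ln13_16_7 ln13_16_7_ok))) (M (nat_lit 398) (B (L (nat_lit 366) ln13_15_6 ln13_15_6_ok) (L (nat_lit 430) ln13_16_6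 ln13_16_6_ok))))) (B (M (nat_lit 525) (B (M (nat_lit 398) (B (L (nat_lit 366) ln13_15_6 ln13_15_6_ok) (L (nat_lit 430) ln13_16_6 ln13_16_6_ok))) (M (nat_lit 526) (B (L (nat_lit 494) ln13_12_4 ln13_12_4_ok) (L (nat_lit 558) ln13_13_4 ln13_13_4_ok))))) (B (M (nat_lit 525) (B (M (nat_lit 396) (B (L (nat_lit 364) ln13_15_7 ln13_15_7_ok) (L (nat_lit 428) ln13_16_7 ln13_16_7_ok))) (M (nat_lit 526) (B (L (nat_lit 494) ln13_12_4 ln13_12_4_ok) (L (nat_lit 558) ln13_13_4 ln13_13_4_ok))))) (M (nat_lit 365) (B (M (nat_lit 366) (B (L (nat_lit 334) ln13_14_6 ln13_14_6_ok) (L (nat_lit 398) ln13_15_6 ln13_15_6_ok))) (M (nat_lit 494) (B (L (nat_lit 462) ln13_11_4 ln13_11_4_ok) (L (nat_lit 526) ln13_12_4 ln13_12_4_ok))))))))) (B c20_n435 (M (nat_lit 493) (B (M (nat_lit 525) (B (M (nat_lit 396) (B (L (nat_lit 364) ln13_15_7 ln13_15_7_ok) (L (nat_lit 428) ln13_16_7 ln13_16_7_ok))) (M (nat_lit 398) (B (L (nat_lit 366) ln13_15_6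 ln13_15_6_ok) (L (nat_lit 430) ln13_16_6 ln13_16_6_ok))))) (B (M (nat_lit 525) (B (M (nat_lit 398) (B (L (nat_lit 366) ln13_15_6 ln13_15_6_ok) (L (nat_lit 430) ln13_16_6 ln13_16_6_ok))) (M (nat_lit 524) (B (L (nat_lit 492) ln13_12_5 ln13_12_5_ok) (L (nat_lit 556) ln13_13_5 ln13_13_5_ok))))) (B (M (nat_lit 525) (B (M (nat_lit 396) (B (L (nat_lit 364) ln13_15_7 ln13_15_7_ok) (L (nat_lit 428) ln13_16_7 ln13_16_7_ok))) (M (nat_lit 524) (B (L (nat_lit 492) ln13_12_5 ln13_12_5_ok) (L (nat_lit 556) ln13_13_5 ln13_13_5_ok))))) (M (nat_lit 365) (B (M (nat_lit 366) (B (L (nat_lit 334) ln13_14_6 ln13_14_6_ok) (L (nat_lit 398) ln13_15_6 ln13_15_6_ok))) (M (nat_lit 492) (B (L (nat_lit 460) ln13_11_5 ln13_11_5_ok) (L (nat_lit 524) ln13_12_5 ln13_12_5_ok)))))))))))))))))) (nat_lit 5954262830815946494440468064007740237496571878468728087513875999273036838532266441790969898967138332125836366047228135112217242456098340864)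 (nat_lit 1179363258189213925980463535503177464601681420883930867768473260333181473132732964706344092481753590690256380742569183414677782904966746592495236056611024296878117224448) (nat_lit 1179363258189213925980463535503177464601681420883930867768473260333181473132732964706344092481753590690256380742569183414677782904966746592495236056611024296878117224448) (by decide +kernel)
theorem c20_s460 : Sem (nat_lit 5954262830815946494763249298768603811203561774969104571805089223376689777636098861358550851719243481454542035207245364041705138952691777536) (nat_lit 1179363258031323579771886147934032996436491981651177249376995155696159440213569934255230163772193975093205126007923472622563147020583245451364476380574715499865572376576) (nat_lit 1179363258031323579771886147934032996436491981651177249376995155696159440213569934255230163772193975093205126007923472622563147020583245451364476380574715499865572376576) :=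
  sem_of_chk (M (nat_lit 462) (B (M (nat_lit 494) (B (L (nat_lit 365) ln13_11_4 ln13_11_4_ok) (M (nat_lit 526) (B (L (nat_lit 430) ln14_16_7 ln14_16_7_ok) (L (nat_lit 558) ln14_17_7 ln14_17_7_ok))))) (B (M (nat_lit 463) (B (M (nat_lit 428) (B (L (nat_lit 464) ln16_14_3 ln16_14_3_ok) (M (nat_lit 427) (B (L (nat_lit 430) ln11_13_0 ln11_13_0_ok) (L (nat_lit 460) ln15_14_3 ln15_14_3_ok))))) (B (M (nat_lit 464) (B (L (nat_lit 428) ln16_14_3 ln16_14_3_ok) (M (nat_lit 465) (B (L (nat_lit 430) ln17_14_3 ln17_14_3_ok) (M (nat_lit 433) (B (L (nat_lit 432) ln13_14_2 ln13_14_2_ok) (L (nat_lit 434) ln14_14_2 ln14_14_2_ok))))))) (B (M (nat_lit 460) (B (M (nat_lit 495) (B (L (nat_lit 496) ln12_14_0 ln12_14_0_ok) (M (nat_lit 459) (B (L (nat_lit 494) ln11_14_0 ln11_14_0_ok) (M (nat_lit 491) (B (L (nat_lit 490) ln14_14_1 ln14_14_1_ok) (L (nat_lit 492) ln15_14_1 ln15_14_1_ok))))))) (B (M (nat_lit 464) (B (M (nat_lit 496) (B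 (L (nat_lit 495) ln12_14_0 ln12_14_0_ok) (L (nat_lit 497) ln13_14_0 ln13_14_0_ok))) (M (nat_lit 433) (B (L (nat_lit 432) ln13_14_2 ln13_14_2_ok) (M (nat_lit 465) (B (L (nat_lit 430) ln17_14_3 ln17_14_3_ok) (L (nat_lit 434) ln14_14_2 ln14_14_2_ok))))))) (M (nat_lit 459) (B (M (nat_lit 491) (B (L (nat_lit 490) ln14_14_1 ln14_14_1_ok) (L (nat_lit 492) ln15_14_1 ln15_14_1_ok))) (M (nat_lit 458) (B (L (nat_lit 430) ln10_14_2 ln10_14_2_ok) (M (nat_lit 426) (B (L (nat_lit 425) ln13_14_3 ln13_14_3_ok) (L (nat_lit 427) ln14_14_3 ln14_14_3_ok)))))))))) (B (M (nat_lit 428) (B (L (nat_lit 464) ln16_14_3 ln16_14_3_ok) (M (nat_lit 427) (B (L (nat_lit 426) ln10_13_0 ln10_13_0_ok) (L (nat_lit 460) ln15_14_3 ln15_14_3_ok))))) (M (nat_lit 460) (B (M (nat_lit 492) (B (L (nat_lit 491) ln15_14_1 ln15_14_1_ok) (M (nat_lit 428) (B (L (nat_lit 524) ln12_16_6 ln12_16_6_ok) (L (nat_lit 427) ln15_14_3 ln15_14_3_ok))))) (B (M (nat_lit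 495) (B (L (nat_lit 496) ln12_14_0 ln12_14_0_ok) (M (nat_lit 459) (B (L (nat_lit 494) ln11_14_0 ln11_14_0_ok) (M (nat_lit 491) (B (L (nat_lit 490) ln14_14_1 ln14_14_1_ok) (L (nat_lit 492) ln15_14_1 ln15_14_1_ok))))))) (M (nat_lit 459) (B (M (nat_lit 427) (B (L (nat_lit 426) ln14_14_3 ln14_14_3_ok) (L (nat_lit 428) ln15_14_3 ln15_14_3_ok))) (M (nat_lit 495) (B (L (nat_lit 494) ln11_14_0 ln11_14_0_ok) (L (nat_lit 496) ln12_14_0 ln12_14_0_ok))))))))))))) (B (M (nat_lit 460) (B (M (nat_lit 365) (B (L (nat_lit 492) ln13_11_5 ln13_11_5_ok) (L (nat_lit 494) ln13_11_4 ln13_11_4_ok))) (B (M (nat_lit 463) (B (M (nat_lit 428) (B (L (nat_lit 427) ln15_14_3 ln15_14_3_ok) (L (nat_lit 464) ln16_14_3 ln16_14_3_ok))) (M (nat_lit 495) (B (L (nat_lit 496) ln12_14_0 ln12_14_0_ok) (M (nat_lit 459) (B (L (nat_lit 494) ln11_14_0 ln11_14_0_ok) (M (nat_lit 491) (B (L (nat_lit 490) ln14_14_1 ln14_14_1_ok) (L (nat_lit 492) ln15_14_1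 ln15_14_1_ok))))))))) (B (M (nat_lit 459) (B (M (nat_lit 494) (B (L (nat_lit 365) ln13_11_4 ln13_11_4_ok) (L (nat_lit 495) ln11_14_0 ln11_14_0_ok))) (M (nat_lit 458) (B (M (nat_lit 426) (B (L (nat_lit 425) ln13_14_3 ln13_14_3_ok) (L (nat_lit 427) ln14_14_3 ln14_14_3_ok))) (M (nat_lit 490) (B (L (nat_lit 489) ln13_14_1 ln13_14_1_ok) (L (nat_lit 491) ln14_14_1 ln14_14_1_ok))))))) (M (nat_lit 492) (B (L (nat_lit 365) ln13_11_5 ln13_11_5_ok) (M (nat_lit 524) (B (L (nat_lit 428) ln12_16_6 ln12_16_6_ok) (L (nat_lit 556) ln12_17_6 ln12_17_6_ok))))))))) (M (nat_lit 460) (B (M (nat_lit 492) (B (L (nat_lit 365) ln13_11_5 ln13_11_5_ok) (M (nat_lit 524) (B (L (nat_lit 428) ln12_16_6 ln12_16_6_ok) (L (nat_lit 556) ln12_17_6 ln12_17_6_ok))))) (B (M (nat_lit 459) (B (M (nat_lit 458) (B (L (nat_lit 430) ln10_14_2 ln10_14_2_ok) (M (nat_lit 426) (B (L (nat_lit 425) ln13_14_3 ln13_14_3_ok) (L (nat_lit 427) ln14_14_3 ln14_14_3_ok)))))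 (B (M (nat_lit 458) (B (L (nat_lit 430) ln10_14_2 ln10_14_2_ok) (M (nat_lit 490) (B (L (nat_lit 489) ln13_14_1 ln13_14_1_ok) (L (nat_lit 491) ln14_14_1 ln14_14_1_ok))))) (M (nat_lit 463) (B (M (nat_lit 427) (B (L (nat_lit 426) ln14_14_3 ln14_14_3_ok) (L (nat_lit 428) ln15_14_3 ln15_14_3_ok))) (M (nat_lit 491) (B (L (nat_lit 490) ln14_14_1 ln14_14_1_ok) (L (nat_lit 492) ln15_14_1 ln15_14_1_ok)))))))) (B (M (nat_lit 492) (B (L (nat_lit 365) ln13_11_5 ln13_11_5_ok) (M (nat_lit 491) (B (L (nat_lit 463) ln15_14_1 ln15_14_1_ok) (M (nat_lit 490) (B (L (nat_lit 459) ln14_14_1 ln14_14_1_ok) (L (nat_lit 489) ln9_15_2 ln9_15_2_ok))))))) (M (nat_lit 463) (B (M (nat_lit 428) (B (L (nat_lit 427) ln15_14_3 ln15_14_3_ok) (L (nat_lit 464) ln16_14_3 ln16_14_3_ok))) (B (M (nat_lit 464) (B (L (nat_lit 428) ln16_14_3 ln16_14_3_ok) (M (nat_lit 496) (B (L (nat_lit 495) ln12_14_0 ln12_14_0_ok) (L (nat_lit 497) ln13_14_0 ln13_14_0_ok)))))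 (B (M (nat_lit 464) (B (M (nat_lit 496) (B (L (nat_lit 495) ln12_14_0 ln12_14_0_ok) (L (nat_lit 497) ln13_14_0 ln13_14_0_ok))) (M (nat_lit 433) (B (L (nat_lit 432) ln13_14_2 ln13_14_2_ok) (M (nat_lit 465) (B (L (nat_lit 430) ln17_14_3 ln17_14_3_ok) (L (nat_lit 434) ln14_14_2 ln14_14_2_ok))))))) (M (nat_lit 459) (B (M (nat_lit 427) (B (L (nat_lit 426) ln14_14_3 ln14_14_3_ok) (L (nat_lit 428) ln15_14_3 ln15_14_3_ok))) (M (nat_lit 458) (B (L (nat_lit 430) ln10_14_2 ln10_14_2_ok) (M (nat_lit 490) (B (L (nat_lit 489) ln13_14_1 ln13_14_1_ok) (L (nat_lit 491) ln14_14_1 ln14_14_1_ok))))))))))))))))))) (nat_lit 5954262830815946494763249298768603811203561774969104571805089223376689777636098861358550851719243481454542035207245364041705138952691777536) (nat_lit 1179363258031323579771886147934032996436491981651177249376995155696159440213569934255230163772193975093205126007923472622563147020583245451364476380574715499865572376576)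 (nat_lit 1179363258031323579771886147934032996436491981651177249376995155696159440213569934255230163772193975093205126007923472622563147020583245451364476380574715499865572376576) (by decide +kernel)
theorem c20_s461 : Sem (nat_lit 5954262830815946494440468064007740237496571878468728087513875999273036838532266441790969898967138332125836366047228135112217242456098340864) (nat_lit 1179363258189213925980463535503177464601681420883930867768473260333172724129825684514741264528500046422041330552201404691357416077538562218701021027719076897345291419648) (nat_lit 1179363258189213925980463535503177464601681420883930867768473260333172724129825684514741264528500046422041330552201404691357416077538562218701021027719076897345291419648) :=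
  sem_of_chk (M (nat_lit 397) (B (M (nat_lit 493) (B (M (nat_lit 365) (B (M (nat_lit 366) (B (L (nat_lit 334) ln13_14_6 ln13_14_6_ok) (L (nat_lit 398) ln13_15_6 ln13_15_6_ok))) (M (nat_lit 492) (B (L (nat_lit 460) ln13_11_5 ln13_11_5_ok) (L (nat_lit 524) ln13_12_5 ln13_12_5_ok))))) (B (M (nat_lit 365) (B (M (nat_lit 364) (B (L (nat_lit 332) ln13_14_7 ln13_14_7_ok) (L (nat_lit 396) ln13_15_7 ln13_15_7_ok))) (M (nat_lit 492) (B (L (nat_lit 460) ln13_11_5 ln13_11_5_ok) (L (nat_lit 524) ln13_12_5 ln13_12_5_ok))))) (M (nat_lit 525) (B (M (nat_lit 396) (B (L (nat_lit 364) ln13_15_7 ln13_15_7_ok) (L (nat_lit 428) ln13_16_7 ln13_16_7_ok))) (M (nat_lit 398) (B (L (nat_lit 366) ln13_15_6 ln13_15_6_ok) (L (nat_lit 430) ln13_16_6 ln13_16_6_ok)))))))) (B (M (nat_lit 493) (B (M (nat_lit 525) (B (M (nat_lit 396) (B (L (nat_lit 364) ln13_15_7 ln13_15_7_ok) (L (nat_lit 428) ln13_16_7 ln13_16_7_ok))) (M (nat_lit 398) (B (L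 (nat_lit 366) ln13_15_6 ln13_15_6_ok) (L (nat_lit 430) ln13_16_6 ln13_16_6_ok))))) (B (M (nat_lit 525) (B (M (nat_lit 398) (B (L (nat_lit 366) ln13_15_6 ln13_15_6_ok) (L (nat_lit 430) ln13_16_6 ln13_16_6_ok))) (M (nat_lit 524) (B (L (nat_lit 492) ln13_12_5 ln13_12_5_ok) (L (nat_lit 556) ln13_13_5 ln13_13_5_ok))))) (B (M (nat_lit 525) (B (M (nat_lit 396) (B (L (nat_lit 364) ln13_15_7 ln13_15_7_ok) (L (nat_lit 428) ln13_16_7 ln13_16_7_ok))) (M (nat_lit 524) (B (L (nat_lit 492) ln13_12_5 ln13_12_5_ok) (L (nat_lit 556) ln13_13_5 ln13_13_5_ok))))) (M (nat_lit 365) (B (M (nat_lit 366) (B (L (nat_lit 334) ln13_14_6 ln13_14_6_ok) (L (nat_lit 398) ln13_15_6 ln13_15_6_ok))) (M (nat_lit 492) (B (L (nat_lit 460) ln13_11_5 ln13_11_5_ok) (L (nat_lit 524) ln13_12_5 ln13_12_5_ok))))))))) (B (M (nat_lit 493) (B (M (nat_lit 525) (B (M (nat_lit 398) (B (L (nat_lit 366) ln13_15_6 ln13_15_6_ok) (L (nat_lit 430) ln13_16_6 ln13_16_6_ok)))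 (M (nat_lit 526) (B (L (nat_lit 494) ln13_12_4 ln13_12_4_ok) (L (nat_lit 558) ln13_13_4 ln13_13_4_ok))))) (B (M (nat_lit 525) (B (M (nat_lit 396) (B (L (nat_lit 364) ln13_15_7 ln13_15_7_ok) (L (nat_lit 428) ln13_16_7 ln13_16_7_ok))) (M (nat_lit 526) (B (L (nat_lit 494) ln13_12_4 ln13_12_4_ok) (L (nat_lit 558) ln13_13_4 ln13_13_4_ok))))) (B (M (nat_lit 525) (B (M (nat_lit 396) (B (L (nat_lit 364) ln13_15_7 ln13_15_7_ok) (L (nat_lit 428) ln13_16_7 ln13_16_7_ok))) (M (nat_lit 398) (B (L (nat_lit 366) ln13_15_6 ln13_15_6_ok) (L (nat_lit 430) ln13_16_6 ln13_16_6_ok))))) (M (nat_lit 365) (B (M (nat_lit 364) (B (L (nat_lit 332) ln13_14_7 ln13_14_7_ok) (L (nat_lit 396) ln13_15_7 ln13_15_7_ok))) (M (nat_lit 492) (B (L (nat_lit 460) ln13_11_5 ln13_11_5_ok) (L (nat_lit 524) ln13_12_5 ln13_12_5_ok))))))))) (B (M (nat_lit 493) (B (M (nat_lit 365) (B (M (nat_lit 492) (B (L (nat_lit 460) ln13_11_5 ln13_11_5_ok) (L (nat_lit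 524) ln13_12_5 ln13_12_5_ok))) (M (nat_lit 494) (B (L (nat_lit 462) ln13_11_4 ln13_11_4_ok) (L (nat_lit 526) ln13_12_4 ln13_12_4_ok))))) (B (M (nat_lit 525) (B (M (nat_lit 398) (B (L (nat_lit 366) ln13_15_6 ln13_15_6_ok) (L (nat_lit 430) ln13_16_6 ln13_16_6_ok))) (M (nat_lit 526) (B (L (nat_lit 494) ln13_12_4 ln13_12_4_ok) (L (nat_lit 558) ln13_13_4 ln13_13_4_ok))))) (M (nat_lit 365) (B (M (nat_lit 366) (B (L (nat_lit 334) ln13_14_6 ln13_14_6_ok) (L (nat_lit 398) ln13_15_6 ln13_15_6_ok))) (M (nat_lit 492) (B (L (nat_lit 460) ln13_11_5 ln13_11_5_ok) (L (nat_lit 524) ln13_12_5 ln13_12_5_ok)))))))) (B (M (nat_lit 493) (B (M (nat_lit 525) (B (M (nat_lit 396) (B (L (nat_lit 364) ln13_15_7 ln13_15_7_ok) (L (nat_lit 428) ln13_16_7 ln13_16_7_ok))) (M (nat_lit 398) (B (L (nat_lit 366) ln13_15_6 ln13_15_6_ok) (L (nat_lit 430) ln13_16_6 ln13_16_6_ok))))) (B (M (nat_lit 525) (B (M (nat_lit 398) (B (L (nat_lit 366) ln13_15_6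 ln13_15_6_ok) (L (nat_lit 430) ln13_16_6 ln13_16_6_ok))) (M (nat_lit 526) (B (L (nat_lit 494) ln13_12_4 ln13_12_4_ok) (L (nat_lit 558) ln13_13_4 ln13_13_4_ok))))) (B (M (nat_lit 525) (B (M (nat_lit 396) (B (L (nat_lit 364) ln13_15_7 ln13_15_7_ok) (L (nat_lit 428) ln13_16_7 ln13_16_7_ok))) (M (nat_lit 526) (B (L (nat_lit 494) ln13_12_4 ln13_12_4_ok) (L (nat_lit 558) ln13_13_4 ln13_13_4_ok))))) (M (nat_lit 492) (B (L (nat_lit 524) ln13_12_5 ln13_12_5_ok) (M (nat_lit 494) (B (L (nat_lit 526) ln13_12_4 ln13_12_4_ok) (M (nat_lit 491) (B (M (nat_lit 462) (B (L (nat_lit 490) ln10_15_2 ln10_15_2_ok) (L (nat_lit 463) ln11_15_2 ln11_15_2_ok))) (B (M (nat_lit 490) (B (M (nat_lit 458) (B (L (nat_lit 457) ln13_15_3 ln13_15_3_ok) (L (nat_lit 459) ln14_15_3 ln14_15_3_ok))) (M (nat_lit 522) (B (L (nat_lit 521) ln13_15_1 ln13_15_1_ok) (L (nat_lit 523) ln14_15_1 ln14_15_1_ok))))) (M (nat_lit 495) (B (M (nat_lit 459) (B (L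 (nat_lit 458) ln14_15_3 ln14_15_3_ok) (L (nat_lit 460) ln15_15_3 ln15_15_3_ok))) (M (nat_lit 463) (B (L (nat_lit 462) ln11_15_2 ln11_15_2_ok) (L (nat_lit 464) ln12_15_2 ln12_15_2_ok)))))))))))))))) (B (M (nat_lit 493) (B (M (nat_lit 365) (B (M (nat_lit 492) (B (L (nat_lit 460) ln13_11_5 ln13_11_5_ok) (L (nat_lit 524) ln13_12_5 ln13_12_5_ok))) (M (nat_lit 494) (B (L (nat_lit 462) ln13_11_4 ln13_11_4_ok) (L (nat_lit 526) ln13_12_4 ln13_12_4_ok))))) (B (M (nat_lit 525) (B (M (nat_lit 396) (B (L (nat_lit 364) ln13_15_7 ln13_15_7_ok) (L (nat_lit 428) ln13_16_7 ln13_16_7_ok))) (M (nat_lit 526) (B (L (nat_lit 494) ln13_12_4 ln13_12_4_ok) (L (nat_lit 558) ln13_13_4 ln13_13_4_ok))))) (M (nat_lit 365) (B (M (nat_lit 364) (B (L (nat_lit 332) ln13_14_7 ln13_14_7_ok) (L (nat_lit 396) ln13_15_7 ln13_15_7_ok))) (M (nat_lit 492) (B (L (nat_lit 460) ln13_11_5 ln13_11_5_ok) (L (nat_lit 524) ln13_12_5 ln13_12_5_ok))))))))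 (B (M (nat_lit 493) (B (M (nat_lit 525) (B (M (nat_lit 398) (B (L (nat_lit 366) ln13_15_6 ln13_15_6_ok) (L (nat_lit 430) ln13_16_6 ln13_16_6_ok))) (M (nat_lit 526) (B (L (nat_lit 494) ln13_12_4 ln13_12_4_ok) (L (nat_lit 558) ln13_13_4 ln13_13_4_ok))))) (B (M (nat_lit 525) (B (M (nat_lit 396) (B (L (nat_lit 364) ln13_15_7 ln13_15_7_ok) (L (nat_lit 428) ln13_16_7 ln13_16_7_ok))) (M (nat_lit 526) (B (L (nat_lit 494) ln13_12_4 ln13_12_4_ok) (L (nat_lit 558) ln13_13_4 ln13_13_4_ok))))) (B (M (nat_lit 525) (B (M (nat_lit 396) (B (L (nat_lit 364) ln13_15_7 ln13_15_7_ok) (L (nat_lit 428) ln13_16_7 ln13_16_7_ok))) (M (nat_lit 398) (B (L (nat_lit 366) ln13_15_6 ln13_15_6_ok) (L (nat_lit 430) ln13_16_6 ln13_16_6_ok))))) (M (nat_lit 365) (B (M (nat_lit 364) (B (L (nat_lit 332) ln13_14_7 ln13_14_7_ok) (L (nat_lit 396) ln13_15_7 ln13_15_7_ok))) (M (nat_lit 366) (B (L (nat_lit 334) ln13_14_6 ln13_14_6_ok) (L (nat_lit 398)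 ln13_15_6 ln13_15_6_ok))))))))) (K (nat_lit 5954262830815946494763249298768603811203561774969104571805089223376689777636098861358550851719243481454542035207245364041705138952691777536) (nat_lit 1179363258031323579771886147934032996436491981651177249376995155696159440213569934255230163772193975093205126007923472622563147020583245451364476380574715499865572376576) (nat_lit 1179363258031323579771886147934032996436491981651177249376995155696159440213569934255230163772193975093205126007923472622563147020583245451364476380574715499865572376576) c20_s460))))))))) (nat_lit 5954262830815946494440468064007740237496571878468728087513875999273036838532266441790969898967138332125836366047228135112217242456098340864) (nat_lit 1179363258189213925980463535503177464601681420883930867768473260333172724129825684514741264528500046422041330552201404691357416077538562218701021027719076897345291419648) (nat_lit 1179363258189213925980463535503177464601681420883930867768473260333172724129825684514741264528500046422041330552201404691357416077538562218701021027719076897345291419648)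 (by decide +kernel)
noncomputable def c20_n502 : Cert := (M (nat_lit 462) (B (M (nat_lit 494) (B (L (nat_lit 365) ln13_11_4 ln13_11_4_ok) (M (nat_lit 526) (B (L (nat_lit 430) ln14_16_7 ln14_16_7_ok) (L (nat_lit 558) ln14_17_7 ln14_17_7_ok))))) (B (M (nat_lit 463) (B (M (nat_lit 428) (B (L (nat_lit 464) ln16_14_3 ln16_14_3_ok) (M (nat_lit 427) (B (L (nat_lit 430) ln11_13_0 ln11_13_0_ok) (L (nat_lit 460) ln15_14_3 ln15_14_3_ok))))) (B (M (nat_lit 464) (B (L (nat_lit 428) ln16_14_3 ln16_14_3_ok) (M (nat_lit 465) (B (L (nat_lit 430) ln17_14_3 ln17_14_3_ok) (M (nat_lit 433) (B (L (nat_lit 432) ln13_14_2 ln13_14_2_ok) (L (nat_lit 434) ln14_14_2 ln14_14_2_ok))))))) (B (M (nat_lit 460) (B (M (nat_lit 495) (B (L (nat_lit 496) ln12_14_0 ln12_14_0_ok) (M (nat_lit 459) (B (L (nat_lit 494) ln11_14_0 ln11_14_0_ok) (M (nat_lit 491) (B (L (nat_lit 490) ln14_14_1 ln14_14_1_ok) (L (nat_lit 492) ln15_14_1 ln15_14_1_ok)))))))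 (B (M (nat_lit 464) (B (M (nat_lit 496) (B (L (nat_lit 495) ln12_14_0 ln12_14_0_ok) (L (nat_lit 497) ln13_14_0 ln13_14_0_ok))) (M (nat_lit 433) (B (L (nat_lit 432) ln13_14_2 ln13_14_2_ok) (M (nat_lit 465) (B (L (nat_lit 430) ln17_14_3 ln17_14_3_ok) (L (nat_lit 434) ln14_14_2 ln14_14_2_ok))))))) (M (nat_lit 459) (B (M (nat_lit 491) (B (L (nat_lit 490) ln14_14_1 ln14_14_1_ok) (L (nat_lit 492) ln15_14_1 ln15_14_1_ok))) (M (nat_lit 458) (B (L (nat_lit 430) ln10_14_2 ln10_14_2_ok) (M (nat_lit 426) (B (L (nat_lit 425) ln13_14_3 ln13_14_3_ok) (L (nat_lit 427) ln14_14_3 ln14_14_3_ok)))))))))) (B (M (nat_lit 428) (B (L (nat_lit 464) ln16_14_3 ln16_14_3_ok) (M (nat_lit 427) (B (L (nat_lit 426) ln10_13_0 ln10_13_0_ok) (L (nat_lit 460) ln15_14_3 ln15_14_3_ok))))) (M (nat_lit 460) (B (M (nat_lit 492) (B (L (nat_lit 491) ln15_14_1 ln15_14_1_ok) (M (nat_lit 428) (B (L (nat_lit 524) ln12_16_6 ln12_16_6_ok) (L (nat_lit 427)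 ln15_14_3 ln15_14_3_ok))))) (B (M (nat_lit 495) (B (L (nat_lit 496) ln12_14_0 ln12_14_0_ok) (M (nat_lit 459) (B (L (nat_lit 494) ln11_14_0 ln11_14_0_ok) (M (nat_lit 491) (B (L (nat_lit 490) ln14_14_1 ln14_14_1_ok) (L (nat_lit 492) ln15_14_1 ln15_14_1_ok))))))) (M (nat_lit 459) (B (M (nat_lit 427) (B (L (nat_lit 426) ln14_14_3 ln14_14_3_ok) (L (nat_lit 428) ln15_14_3 ln15_14_3_ok))) (M (nat_lit 495) (B (L (nat_lit 494) ln11_14_0 ln11_14_0_ok) (L (nat_lit 496) ln12_14_0 ln12_14_0_ok))))))))))))) (B (M (nat_lit 365) (B (L (nat_lit 494) ln13_11_4 ln13_11_4_ok) (M (nat_lit 333) (B (M (nat_lit 332) (B (L (nat_lit 300) ln13_13_7 ln13_13_7_ok) (L (nat_lit 364) ln13_14_7 ln13_14_7_ok))) (M (nat_lit 460) (B (L (nat_lit 428) ln13_10_5 ln13_10_5_ok) (L (nat_lit 492) ln13_11_5 ln13_11_5_ok))))))) (M (nat_lit 460) (B (M (nat_lit 365) (B (L (nat_lit 492) ln13_11_5 ln13_11_5_ok) (M (nat_lit 333) (B (L (nat_lit 428) ln13_10_5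 ln13_10_5_ok) (L (nat_lit 430) ln13_10_4 ln13_10_4_ok))))) (B (M (nat_lit 492) (B (L (nat_lit 365) ln13_11_5 ln13_11_5_ok) (M (nat_lit 524) (B (L (nat_lit 428) ln12_16_6 ln12_16_6_ok) (L (nat_lit 556) ln12_17_6 ln12_17_6_ok))))) (B (M (nat_lit 459) (B (M (nat_lit 458) (B (L (nat_lit 430) ln10_14_2 ln10_14_2_ok) (M (nat_lit 426) (B (L (nat_lit 425) ln13_14_3 ln13_14_3_ok) (L (nat_lit 427) ln14_14_3 ln14_14_3_ok))))) (M (nat_lit 492) (B (M (nat_lit 524) (B (L (nat_lit 428) ln12_16_6 ln12_16_6_ok) (L (nat_lit 556) ln12_17_6 ln12_17_6_ok))) (M (nat_lit 491) (B (L (nat_lit 490) ln14_14_1 ln14_14_1_ok) (L (nat_lit 463) ln15_14_1 ln15_14_1_ok))))))) (B (M (nat_lit 365) (B (L (nat_lit 492) ln13_11_5 ln13_11_5_ok) (M (nat_lit 333) (B (L (nat_lit 430) ln13_10_4 ln13_10_4_ok) (M (nat_lit 332) (B (L (nat_lit 300) ln13_13_7 ln13_13_7_ok) (L (nat_lit 364) ln13_14_7 ln13_14_7_ok))))))) (M (nat_lit 428) (B (M (nat_lit 427)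 (B (L (nat_lit 426) ln10_13_0 ln10_13_0_ok) (L (nat_lit 463) ln15_14_3 ln15_14_3_ok))) (M (nat_lit 459) (B (M (nat_lit 458) (B (L (nat_lit 457) ln9_14_2 ln9_14_2_ok) (L (nat_lit 430) ln10_14_2 ln10_14_2_ok))) (M (nat_lit 364) (B (M (nat_lit 365) (B (L (nat_lit 332) ln13_14_7 ln13_14_7_ok) (L (nat_lit 333) ln13_10_5 ln13_10_5_ok))) (M (nat_lit 491) (B (L (nat_lit 396) ln12_11_5 ln12_11_5_ok) (L (nat_lit 490) ln14_14_1 ln14_14_1_ok))))))))))))))))))
theorem c20_s503 : Sem (nat_lit 5954262830815946494440468064007740237496571878468728087513875999273036838532266441790969898967138332125836366047228135112217242456098340864) (nat_lit 1179363258189213925978865200245415676579214043102276766619929978084110760894789569091994428666493653899305317850146802571025844460203758544234311038085256526558469816320) (nat_lit 1179363258189213925978865200245415676579214043102276766619929978084110760894789569091994428666493653899305317850146802571025844460203758544234311038085256526558469816320)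 :=
  sem_of_chk (M (nat_lit 397) (B (M (nat_lit 493) (B (M (nat_lit 525) (B (M (nat_lit 396) (B (L (nat_lit 364) ln13_15_7 ln13_15_7_ok) (L (nat_lit 428) ln13_16_7 ln13_16_7_ok))) (M (nat_lit 398) (B (L (nat_lit 366) ln13_15_6 ln13_15_6_ok) (L (nat_lit 430) ln13_16_6 ln13_16_6_ok))))) (M (nat_lit 365) (B (M (nat_lit 492) (B (L (nat_lit 460) ln13_11_5 ln13_11_5_ok) (L (nat_lit 524) ln13_12_5 ln13_12_5_ok))) (M (nat_lit 494) (B (L (nat_lit 462) ln13_11_4 ln13_11_4_ok) (L (nat_lit 526) ln13_12_4 ln13_12_4_ok))))))) (B (M (nat_lit 493) (B (M (nat_lit 525) (B (M (nat_lit 398) (B (L (nat_lit 366) ln13_15_6 ln13_15_6_ok) (L (nat_lit 430) ln13_16_6 ln13_16_6_ok))) (M (nat_lit 524) (B (L (nat_lit 492) ln13_12_5 ln13_12_5_ok) (L (nat_lit 556) ln13_13_5 ln13_13_5_ok))))) (B (M (nat_lit 525) (B (M (nat_lit 524) (B (L (nat_lit 492) ln13_12_5 ln13_12_5_ok) (L (nat_lit 556) ln13_13_5 ln13_13_5_ok))) (M (nat_lit 526) (B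 (L (nat_lit 494) ln13_12_4 ln13_12_4_ok) (L (nat_lit 558) ln13_13_4 ln13_13_4_ok))))) (B (M (nat_lit 525) (B (M (nat_lit 398) (B (L (nat_lit 366) ln13_15_6 ln13_15_6_ok) (L (nat_lit 430) ln13_16_6 ln13_16_6_ok))) (M (nat_lit 526) (B (L (nat_lit 494) ln13_12_4 ln13_12_4_ok) (L (nat_lit 558) ln13_13_4 ln13_13_4_ok))))) (M (nat_lit 365) (B (M (nat_lit 492) (B (L (nat_lit 460) ln13_11_5 ln13_11_5_ok) (L (nat_lit 524) ln13_12_5 ln13_12_5_ok))) (M (nat_lit 494) (B (L (nat_lit 462) ln13_11_4 ln13_11_4_ok) (L (nat_lit 526) ln13_12_4 ln13_12_4_ok))))))))) (B (M (nat_lit 493) (B (M (nat_lit 525) (B (M (nat_lit 396) (B (L (nat_lit 364) ln13_15_7 ln13_15_7_ok) (L (nat_lit 428) ln13_16_7 ln13_16_7_ok))) (M (nat_lit 398) (B (L (nat_lit 366) ln13_15_6 ln13_15_6_ok) (L (nat_lit 430) ln13_16_6 ln13_16_6_ok))))) (B (M (nat_lit 525) (B (M (nat_lit 398) (B (L (nat_lit 366) ln13_15_6 ln13_15_6_ok) (L (nat_lit 430) ln13_16_6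 ln13_16_6_ok))) (M (nat_lit 526) (B (L (nat_lit 494) ln13_12_4 ln13_12_4_ok) (L (nat_lit 558) ln13_13_4 ln13_13_4_ok))))) (B (M (nat_lit 525) (B (M (nat_lit 396) (B (L (nat_lit 364) ln13_15_7 ln13_15_7_ok) (L (nat_lit 428) ln13_16_7 ln13_16_7_ok))) (M (nat_lit 526) (B (L (nat_lit 494) ln13_12_4 ln13_12_4_ok) (L (nat_lit 558) ln13_13_4 ln13_13_4_ok))))) (M (nat_lit 492) (B (L (nat_lit 524) ln13_12_5 ln13_12_5_ok) (M (nat_lit 494) (B (L (nat_lit 526) ln13_12_4 ln13_12_4_ok) (M (nat_lit 491) (B (M (nat_lit 462) (B (L (nat_lit 490) ln10_15_2 ln10_15_2_ok) (L (nat_lit 463) ln11_15_2 ln11_15_2_ok))) (B (M (nat_lit 490) (B (M (nat_lit 458) (B (L (nat_lit 457) ln13_15_3 ln13_15_3_ok) (L (nat_lit 459) ln14_15_3 ln14_15_3_ok))) (M (nat_lit 522) (B (L (nat_lit 521) ln13_15_1 ln13_15_1_ok) (L (nat_lit 523) ln14_15_1 ln14_15_1_ok))))) (M (nat_lit 495) (B (M (nat_lit 459) (B (L (nat_lit 458) ln14_15_3 ln14_15_3_ok) (L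 (nat_lit 460) ln15_15_3 ln15_15_3_ok))) (M (nat_lit 463) (B (L (nat_lit 462) ln11_15_2 ln11_15_2_ok) (L (nat_lit 464) ln12_15_2 ln12_15_2_ok)))))))))))))))) (B (M (nat_lit 493) (B (M (nat_lit 365) (B (M (nat_lit 492) (B (L (nat_lit 460) ln13_11_5 ln13_11_5_ok) (L (nat_lit 524) ln13_12_5 ln13_12_5_ok))) (M (nat_lit 494) (B (L (nat_lit 462) ln13_11_4 ln13_11_4_ok) (L (nat_lit 526) ln13_12_4 ln13_12_4_ok))))) (B (M (nat_lit 525) (B (M (nat_lit 396) (B (L (nat_lit 364) ln13_15_7 ln13_15_7_ok) (L (nat_lit 428) ln13_16_7 ln13_16_7_ok))) (M (nat_lit 526) (B (L (nat_lit 494) ln13_12_4 ln13_12_4_ok) (L (nat_lit 558) ln13_13_4 ln13_13_4_ok))))) (M (nat_lit 365) (B (M (nat_lit 364) (B (L (nat_lit 332) ln13_14_7 ln13_14_7_ok) (L (nat_lit 396) ln13_15_7 ln13_15_7_ok))) (M (nat_lit 492) (B (L (nat_lit 460) ln13_11_5 ln13_11_5_ok) (L (nat_lit 524) ln13_12_5 ln13_12_5_ok)))))))) (B (M (nat_lit 493) (B (M (nat_lit 525) (B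 (M (nat_lit 398) (B (L (nat_lit 366) ln13_15_6 ln13_15_6_ok) (L (nat_lit 430) ln13_16_6 ln13_16_6_ok))) (M (nat_lit 526) (B (L (nat_lit 494) ln13_12_4 ln13_12_4_ok) (L (nat_lit 558) ln13_13_4 ln13_13_4_ok))))) (B (M (nat_lit 525) (B (M (nat_lit 396) (B (L (nat_lit 364) ln13_15_7 ln13_15_7_ok) (L (nat_lit 428) ln13_16_7 ln13_16_7_ok))) (M (nat_lit 526) (B (L (nat_lit 494) ln13_12_4 ln13_12_4_ok) (L (nat_lit 558) ln13_13_4 ln13_13_4_ok))))) (B (M (nat_lit 525) (B (M (nat_lit 396) (B (L (nat_lit 364) ln13_15_7 ln13_15_7_ok) (L (nat_lit 428) ln13_16_7 ln13_16_7_ok))) (M (nat_lit 524) (B (L (nat_lit 492) ln13_12_5 ln13_12_5_ok) (L (nat_lit 556) ln13_13_5 ln13_13_5_ok))))) (M (nat_lit 365) (B (M (nat_lit 364) (B (L (nat_lit 332) ln13_14_7 ln13_14_7_ok) (L (nat_lit 396) ln13_15_7 ln13_15_7_ok))) (M (nat_lit 494) (B (L (nat_lit 462) ln13_11_4 ln13_11_4_ok) (L (nat_lit 526) ln13_12_4 ln13_12_4_ok))))))))) (B (M (nat_lit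 493) (B (M (nat_lit 525) (B (M (nat_lit 398) (B (L (nat_lit 366) ln13_15_6 ln13_15_6_ok) (L (nat_lit 430) ln13_16_6 ln13_16_6_ok))) (M (nat_lit 526) (B (L (nat_lit 494) ln13_12_4 ln13_12_4_ok) (L (nat_lit 558) ln13_13_4 ln13_13_4_ok))))) (B (M (nat_lit 525) (B (M (nat_lit 396) (B (L (nat_lit 364) ln13_15_7 ln13_15_7_ok) (L (nat_lit 428) ln13_16_7 ln13_16_7_ok))) (M (nat_lit 526) (B (L (nat_lit 494) ln13_12_4 ln13_12_4_ok) (L (nat_lit 558) ln13_13_4 ln13_13_4_ok))))) (B (M (nat_lit 525) (B (M (nat_lit 396) (B (L (nat_lit 364) ln13_15_7 ln13_15_7_ok) (L (nat_lit 428) ln13_16_7 ln13_16_7_ok))) (M (nat_lit 398) (B (L (nat_lit 366) ln13_15_6 ln13_15_6_ok) (L (nat_lit 430) ln13_16_6 ln13_16_6_ok))))) (M (nat_lit 365) (B (M (nat_lit 364) (B (L (nat_lit 332) ln13_14_7 ln13_14_7_ok) (L (nat_lit 396) ln13_15_7 ln13_15_7_ok))) (M (nat_lit 492) (B (L (nat_lit 460) ln13_11_5 ln13_11_5_ok) (L (nat_lit 524) ln13_12_5 ln13_12_5_ok)))))))))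 (B (M (nat_lit 493) (B (M (nat_lit 525) (B (M (nat_lit 396) (B (L (nat_lit 364) ln13_15_7 ln13_15_7_ok) (L (nat_lit 428) ln13_16_7 ln13_16_7_ok))) (M (nat_lit 398) (B (L (nat_lit 366) ln13_15_6 ln13_15_6_ok) (L (nat_lit 430) ln13_16_6 ln13_16_6_ok))))) (B (M (nat_lit 525) (B (M (nat_lit 398) (B (L (nat_lit 366) ln13_15_6 ln13_15_6_ok) (L (nat_lit 430) ln13_16_6 ln13_16_6_ok))) (M (nat_lit 526) (B (L (nat_lit 494) ln13_12_4 ln13_12_4_ok) (L (nat_lit 558) ln13_13_4 ln13_13_4_ok))))) (B (M (nat_lit 525) (B (M (nat_lit 396) (B (L (nat_lit 364) ln13_15_7 ln13_15_7_ok) (L (nat_lit 428) ln13_16_7 ln13_16_7_ok))) (M (nat_lit 526) (B (L (nat_lit 494) ln13_12_4 ln13_12_4_ok) (L (nat_lit 558) ln13_13_4 ln13_13_4_ok))))) (M (nat_lit 365) (B (M (nat_lit 364) (B (L (nat_lit 332) ln13_14_7 ln13_14_7_ok) (L (nat_lit 396) ln13_15_7 ln13_15_7_ok))) (M (nat_lit 494) (B (L (nat_lit 462) ln13_11_4 ln13_11_4_ok) (L (nat_lit 526)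 ln13_12_4 ln13_12_4_ok))))))))) (B c20_n502 (M (nat_lit 493) (B (M (nat_lit 525) (B (M (nat_lit 396) (B (L (nat_lit 364) ln13_15_7 ln13_15_7_ok) (L (nat_lit 428) ln13_16_7 ln13_16_7_ok))) (M (nat_lit 398) (B (L (nat_lit 366) ln13_15_6 ln13_15_6_ok) (L (nat_lit 430) ln13_16_6 ln13_16_6_ok))))) (B (M (nat_lit 525) (B (M (nat_lit 398) (B (L (nat_lit 366) ln13_15_6 ln13_15_6_ok) (L (nat_lit 430) ln13_16_6 ln13_16_6_ok))) (M (nat_lit 524) (B (L (nat_lit 492) ln13_12_5 ln13_12_5_ok) (L (nat_lit 556) ln13_13_5 ln13_13_5_ok))))) (B (M (nat_lit 525) (B (M (nat_lit 396) (B (L (nat_lit 364) ln13_15_7 ln13_15_7_ok) (L (nat_lit 428) ln13_16_7 ln13_16_7_ok))) (M (nat_lit 524) (B (L (nat_lit 492) ln13_12_5 ln13_12_5_ok) (L (nat_lit 556) ln13_13_5 ln13_13_5_ok))))) (M (nat_lit 365) (B (M (nat_lit 364) (B (L (nat_lit 332) ln13_14_7 ln13_14_7_ok) (L (nat_lit 396) ln13_15_7 ln13_15_7_ok))) (M (nat_lit 492) (B (L (nat_lit 460)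 ln13_11_5 ln13_11_5_ok) (L (nat_lit 524) ln13_12_5 ln13_12_5_ok)))))))))))))))))) (nat_lit 5954262830815946494440468064007740237496571878468728087513875999273036838532266441790969898967138332125836366047228135112217242456098340864) (nat_lit 1179363258189213925978865200245415676579214043102276766619929978084110760894789569091994428666493653899305317850146802571025844460203758544234311038085256526558469816320) (nat_lit 1179363258189213925978865200245415676579214043102276766619929978084110760894789569091994428666493653899305317850146802571025844460203758544234311038085256526558469816320) (by decide +kernel)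
noncomputable def c20_n543 : Cert := (M (nat_lit 462) (B (M (nat_lit 494) (B (L (nat_lit 365) ln13_11_4 ln13_11_4_ok) (M (nat_lit 526) (B (L (nat_lit 430) ln14_16_7 ln14_16_7_ok) (L (nat_lit 558) ln14_17_7 ln14_17_7_ok))))) (B (M (nat_lit 463) (B (M (nat_lit 428) (B (L (nat_lit 464) ln16_14_3 ln16_14_3_ok) (M (nat_lit 427) (B (L (nat_lit 430) ln11_13_0 ln11_13_0_ok) (L (nat_lit 460) ln15_14_3 ln15_14_3_ok))))) (B (M (nat_lit 464) (B (L (nat_lit 428) ln16_14_3 ln16_14_3_ok) (M (nat_lit 465) (B (L (nat_lit 430) ln17_14_3 ln17_14_3_ok) (M (nat_lit 433) (B (L (nat_lit 432) ln13_14_2 ln13_14_2_ok) (L (nat_lit 434) ln14_14_2 ln14_14_2_ok))))))) (B (M (nat_lit 460) (B (M (nat_lit 495) (B (L (nat_lit 496) ln12_14_0 ln12_14_0_ok) (M (nat_lit 459) (B (L (nat_lit 494) ln11_14_0 ln11_14_0_ok) (M (nat_lit 491) (B (L (nat_lit 490) ln14_14_1 ln14_14_1_ok) (L (nat_lit 492) ln15_14_1 ln15_14_1_ok))))))) (B (M (nat_lit 464)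 (B (M (nat_lit 496) (B (L (nat_lit 495) ln12_14_0 ln12_14_0_ok) (L (nat_lit 497) ln13_14_0 ln13_14_0_ok))) (M (nat_lit 433) (B (L (nat_lit 432) ln13_14_2 ln13_14_2_ok) (M (nat_lit 465) (B (L (nat_lit 430) ln17_14_3 ln17_14_3_ok) (L (nat_lit 434) ln14_14_2 ln14_14_2_ok))))))) (M (nat_lit 459) (B (M (nat_lit 491) (B (L (nat_lit 490) ln14_14_1 ln14_14_1_ok) (L (nat_lit 492) ln15_14_1 ln15_14_1_ok))) (M (nat_lit 458) (B (L (nat_lit 430) ln10_14_2 ln10_14_2_ok) (M (nat_lit 426) (B (L (nat_lit 425) ln13_14_3 ln13_14_3_ok) (L (nat_lit 427) ln14_14_3 ln14_14_3_ok)))))))))) (B (M (nat_lit 428) (B (L (nat_lit 464) ln16_14_3 ln16_14_3_ok) (M (nat_lit 427) (B (L (nat_lit 426) ln10_13_0 ln10_13_0_ok) (L (nat_lit 460) ln15_14_3 ln15_14_3_ok))))) (M (nat_lit 460) (B (M (nat_lit 492) (B (L (nat_lit 491) ln15_14_1 ln15_14_1_ok) (M (nat_lit 428) (B (L (nat_lit 524) ln12_16_6 ln12_16_6_ok) (L (nat_lit 427) ln15_14_3 ln15_14_3_ok)))))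 (B (M (nat_lit 495) (B (L (nat_lit 496) ln12_14_0 ln12_14_0_ok) (M (nat_lit 459) (B (L (nat_lit 494) ln11_14_0 ln11_14_0_ok) (M (nat_lit 491) (B (L (nat_lit 490) ln14_14_1 ln14_14_1_ok) (L (nat_lit 492) ln15_14_1 ln15_14_1_ok))))))) (M (nat_lit 459) (B (M (nat_lit 427) (B (L (nat_lit 426) ln14_14_3 ln14_14_3_ok) (L (nat_lit 428) ln15_14_3 ln15_14_3_ok))) (M (nat_lit 495) (B (L (nat_lit 494) ln11_14_0 ln11_14_0_ok) (L (nat_lit 496) ln12_14_0 ln12_14_0_ok))))))))))))) (B (M (nat_lit 365) (B (L (nat_lit 494) ln13_11_4 ln13_11_4_ok) (M (nat_lit 333) (B (M (nat_lit 334) (B (L (nat_lit 302) ln13_13_6 ln13_13_6_ok) (L (nat_lit 366) ln13_14_6 ln13_14_6_ok))) (M (nat_lit 460) (B (L (nat_lit 428) ln13_10_5 ln13_10_5_ok) (L (nat_lit 492) ln13_11_5 ln13_11_5_ok))))))) (M (nat_lit 460) (B (M (nat_lit 365) (B (L (nat_lit 492) ln13_11_5 ln13_11_5_ok) (M (nat_lit 333) (B (L (nat_lit 428) ln13_10_5 ln13_10_5_ok) (L (nat_lit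 430) ln13_10_4 ln13_10_4_ok))))) (B (M (nat_lit 463) (B (M (nat_lit 428) (B (L (nat_lit 427) ln15_14_3 ln15_14_3_ok) (L (nat_lit 464) ln16_14_3 ln16_14_3_ok))) (M (nat_lit 492) (B (L (nat_lit 365) ln13_11_5 ln13_11_5_ok) (L (nat_lit 491) ln15_14_1 ln15_14_1_ok))))) (B (M (nat_lit 459) (B (M (nat_lit 458) (B (L (nat_lit 430) ln10_14_2 ln10_14_2_ok) (M (nat_lit 426) (B (L (nat_lit 425) ln13_14_3 ln13_14_3_ok) (L (nat_lit 427) ln14_14_3 ln14_14_3_ok))))) (B (M (nat_lit 458) (B (L (nat_lit 430) ln10_14_2 ln10_14_2_ok) (M (nat_lit 490) (B (L (nat_lit 489) ln13_14_1 ln13_14_1_ok) (L (nat_lit 491) ln14_14_1 ln14_14_1_ok))))) (M (nat_lit 463) (B (M (nat_lit 428) (B (L (nat_lit 427) ln15_14_3 ln15_14_3_ok) (L (nat_lit 464) ln16_14_3 ln16_14_3_ok))) (M (nat_lit 491) (B (L (nat_lit 490) ln14_14_1 ln14_14_1_ok) (L (nat_lit 492) ln15_14_1 ln15_14_1_ok)))))))) (B (M (nat_lit 365) (B (L (nat_lit 492) ln13_11_5 ln13_11_5_ok)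 (M (nat_lit 333) (B (L (nat_lit 430) ln13_10_4 ln13_10_4_ok) (M (nat_lit 334) (B (L (nat_lit 302) ln13_13_6 ln13_13_6_ok) (L (nat_lit 366) ln13_14_6 ln13_14_6_ok))))))) (M (nat_lit 463) (B (M (nat_lit 428) (B (L (nat_lit 427) ln15_14_3 ln15_14_3_ok) (L (nat_lit 464) ln16_14_3 ln16_14_3_ok))) (B (M (nat_lit 464) (B (L (nat_lit 428) ln16_14_3 ln16_14_3_ok) (M (nat_lit 496) (B (L (nat_lit 495) ln12_14_0 ln12_14_0_ok) (L (nat_lit 497) ln13_14_0 ln13_14_0_ok))))) (B (M (nat_lit 464) (B (M (nat_lit 496) (B (L (nat_lit 495) ln12_14_0 ln12_14_0_ok) (L (nat_lit 497) ln13_14_0 ln13_14_0_ok))) (M (nat_lit 433) (B (L (nat_lit 432) ln13_14_2 ln13_14_2_ok) (M (nat_lit 465) (B (L (nat_lit 430) ln17_14_3 ln17_14_3_ok) (L (nat_lit 434) ln14_14_2 ln14_14_2_ok))))))) (M (nat_lit 459) (B (M (nat_lit 427) (B (L (nat_lit 426) ln14_14_3 ln14_14_3_ok) (L (nat_lit 428) ln15_14_3 ln15_14_3_ok))) (M (nat_lit 458) (B (L (nat_lit 430)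 ln10_14_2 ln10_14_2_ok) (M (nat_lit 490) (B (L (nat_lit 489) ln13_14_1 ln13_14_1_ok) (L (nat_lit 491) ln14_14_1 ln14_14_1_ok))))))))))))))))))))
theorem c20_s561 : Sem (nat_lit 5954262830815946494440468064007740237496571878468728087513875999273036838532266441790969898967138332125836366047228135112217242456098340864) (nat_lit 5065326623820289418850998225493032310046201105559115054875997310097996641364332751748185233261818865123483236516967928173399303274206855419440857192956768232998061696691138985984) (nat_lit 5065326623820289418850998225493032310046201105559115054875997310097996641364332751748185233261818865123483236516967928173399303274206855419440857192956768232998061696691138985984) :=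
  sem_of_chk (M (nat_lit 397) (B (M (nat_lit 493) (B (M (nat_lit 365) (B (M (nat_lit 366) (B (L (nat_lit 334) ln13_14_6 ln13_14_6_ok) (L (nat_lit 398) ln13_15_6 ln13_15_6_ok))) (M (nat_lit 494) (B (L (nat_lit 462) ln13_11_4 ln13_11_4_ok) (L (nat_lit 526) ln13_12_4 ln13_12_4_ok))))) (B (M (nat_lit 365) (B (M (nat_lit 492) (B (L (nat_lit 460) ln13_11_5 ln13_11_5_ok) (L (nat_lit 524) ln13_12_5 ln13_12_5_ok))) (M (nat_lit 494) (B (L (nat_lit 462) ln13_11_4 ln13_11_4_ok) (L (nat_lit 526) ln13_12_4 ln13_12_4_ok))))) (M (nat_lit 525) (B (M (nat_lit 398) (B (L (nat_lit 366) ln13_15_6 ln13_15_6_ok) (L (nat_lit 430) ln13_16_6 ln13_16_6_ok))) (M (nat_lit 524) (B (L (nat_lit 492) ln13_12_5 ln13_12_5_ok) (L (nat_lit 556) ln13_13_5 ln13_13_5_ok)))))))) (B (M (nat_lit 493) (B (M (nat_lit 525) (B (M (nat_lit 398) (B (L (nat_lit 366) ln13_15_6 ln13_15_6_ok) (L (nat_lit 430) ln13_16_6 ln13_16_6_ok))) (M (nat_lit 524) (B (L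 (nat_lit 492) ln13_12_5 ln13_12_5_ok) (L (nat_lit 556) ln13_13_5 ln13_13_5_ok))))) (B (M (nat_lit 525) (B (M (nat_lit 524) (B (L (nat_lit 492) ln13_12_5 ln13_12_5_ok) (L (nat_lit 556) ln13_13_5 ln13_13_5_ok))) (M (nat_lit 526) (B (L (nat_lit 494) ln13_12_4 ln13_12_4_ok) (L (nat_lit 558) ln13_13_4 ln13_13_4_ok))))) (B (M (nat_lit 525) (B (M (nat_lit 398) (B (L (nat_lit 366) ln13_15_6 ln13_15_6_ok) (L (nat_lit 430) ln13_16_6 ln13_16_6_ok))) (M (nat_lit 526) (B (L (nat_lit 494) ln13_12_4 ln13_12_4_ok) (L (nat_lit 558) ln13_13_4 ln13_13_4_ok))))) (M (nat_lit 365) (B (M (nat_lit 492) (B (L (nat_lit 460) ln13_11_5 ln13_11_5_ok) (L (nat_lit 524) ln13_12_5 ln13_12_5_ok))) (M (nat_lit 494) (B (L (nat_lit 462) ln13_11_4 ln13_11_4_ok) (L (nat_lit 526) ln13_12_4 ln13_12_4_ok))))))))) (B (M (nat_lit 493) (B (M (nat_lit 525) (B (M (nat_lit 398) (B (L (nat_lit 366) ln13_15_6 ln13_15_6_ok) (L (nat_lit 430) ln13_16_6 ln13_16_6_ok)))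 (M (nat_lit 524) (B (L (nat_lit 492) ln13_12_5 ln13_12_5_ok) (L (nat_lit 556) ln13_13_5 ln13_13_5_ok))))) (B (M (nat_lit 525) (B (M (nat_lit 524) (B (L (nat_lit 492) ln13_12_5 ln13_12_5_ok) (L (nat_lit 556) ln13_13_5 ln13_13_5_ok))) (M (nat_lit 526) (B (L (nat_lit 494) ln13_12_4 ln13_12_4_ok) (L (nat_lit 558) ln13_13_4 ln13_13_4_ok))))) (B (M (nat_lit 525) (B (M (nat_lit 398) (B (L (nat_lit 366) ln13_15_6 ln13_15_6_ok) (L (nat_lit 430) ln13_16_6 ln13_16_6_ok))) (M (nat_lit 526) (B (L (nat_lit 494) ln13_12_4 ln13_12_4_ok) (L (nat_lit 558) ln13_13_4 ln13_13_4_ok))))) (M (nat_lit 492) (B (L (nat_lit 524) ln13_12_5 ln13_12_5_ok) (M (nat_lit 494) (B (L (nat_lit 526) ln13_12_4 ln13_12_4_ok) (M (nat_lit 491) (B (M (nat_lit 462) (B (L (nat_lit 490) ln10_15_2 ln10_15_2_ok) (L (nat_lit 463) ln11_15_2 ln11_15_2_ok))) (B (M (nat_lit 490) (B (M (nat_lit 458) (B (L (nat_lit 457) ln13_15_3 ln13_15_3_ok) (L (nat_lit 459)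 ln14_15_3 ln14_15_3_ok))) (M (nat_lit 522) (B (L (nat_lit 521) ln13_15_1 ln13_15_1_ok) (L (nat_lit 523) ln14_15_1 ln14_15_1_ok))))) (M (nat_lit 495) (B (M (nat_lit 459) (B (L (nat_lit 458) ln14_15_3 ln14_15_3_ok) (L (nat_lit 460) ln15_15_3 ln15_15_3_ok))) (M (nat_lit 463) (B (L (nat_lit 462) ln11_15_2 ln11_15_2_ok) (L (nat_lit 464) ln12_15_2 ln12_15_2_ok)))))))))))))))) (B (M (nat_lit 493) (B (M (nat_lit 365) (B (M (nat_lit 492) (B (L (nat_lit 460) ln13_11_5 ln13_11_5_ok) (L (nat_lit 524) ln13_12_5 ln13_12_5_ok))) (M (nat_lit 494) (B (L (nat_lit 462) ln13_11_4 ln13_11_4_ok) (L (nat_lit 526) ln13_12_4 ln13_12_4_ok))))) (B (M (nat_lit 525) (B (M (nat_lit 524) (B (L (nat_lit 492) ln13_12_5 ln13_12_5_ok) (L (nat_lit 556) ln13_13_5 ln13_13_5_ok))) (M (nat_lit 526) (B (L (nat_lit 494) ln13_12_4 ln13_12_4_ok) (L (nat_lit 558) ln13_13_4 ln13_13_4_ok))))) (B (M (nat_lit 525) (B (M (nat_lit 526) (B (L (nat_lit 494)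 ln13_12_4 ln13_12_4_ok) (L (nat_lit 558) ln13_13_4 ln13_13_4_ok))) (M (nat_lit 557) (B (M (nat_lit 428) (B (L (nat_lit 396) ln13_16_7 ln13_16_7_ok) (L (nat_lit 460) ln13_17_7 ln13_17_7_ok))) (M (nat_lit 556) (B (L (nat_lit 524) ln13_13_5 ln13_13_5_ok) (L (nat_lit 588) ln13_14_5 ln13_14_5_ok))))))) (B (M (nat_lit 525) (B (M (nat_lit 524) (B (L (nat_lit 492) ln13_12_5 ln13_12_5_ok) (L (nat_lit 556) ln13_13_5 ln13_13_5_ok))) (M (nat_lit 557) (B (M (nat_lit 428) (B (L (nat_lit 396) ln13_16_7 ln13_16_7_ok) (L (nat_lit 460) ln13_17_7 ln13_17_7_ok))) (M (nat_lit 558) (B (L (nat_lit 526) ln13_13_4 ln13_13_4_ok) (L (nat_lit 590) ln13_14_4 ln13_14_4_ok))))))) (B (M (nat_lit 525) (B (M (nat_lit 526) (B (L (nat_lit 494) ln13_12_4 ln13_12_4_ok) (L (nat_lit 558) ln13_13_4 ln13_13_4_ok))) (M (nat_lit 557) (B (M (nat_lit 428) (B (L (nat_lit 396) ln13_16_7 ln13_16_7_ok) (L (nat_lit 460) ln13_17_7 ln13_17_7_ok))) (M (nat_lit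 430) (B (L (nat_lit 398) ln13_16_6 ln13_16_6_ok) (L (nat_lit 462) ln13_17_6 ln13_17_6_ok))))))) (M (nat_lit 525) (B (M (nat_lit 524) (B (L (nat_lit 492) ln13_12_5 ln13_12_5_ok) (L (nat_lit 556) ln13_13_5 ln13_13_5_ok))) (M (nat_lit 557) (B (M (nat_lit 428) (B (L (nat_lit 396) ln13_16_7 ln13_16_7_ok) (L (nat_lit 460) ln13_17_7 ln13_17_7_ok))) (M (nat_lit 430) (B (L (nat_lit 398) ln13_16_6 ln13_16_6_ok) (L (nat_lit 462) ln13_17_6 ln13_17_6_ok))))))))))))) (B (M (nat_lit 365) (B (M (nat_lit 333) (B (M (nat_lit 334) (B (L (nat_lit 302) ln13_13_6 ln13_13_6_ok) (L (nat_lit 366) ln13_14_6 ln13_14_6_ok))) (M (nat_lit 462) (B (L (nat_lit 430) ln13_10_4 ln13_10_4_ok) (L (nat_lit 494) ln13_11_4 ln13_11_4_ok))))) (B (M (nat_lit 333) (B (M (nat_lit 460) (B (L (nat_lit 428) ln13_10_5 ln13_10_5_ok) (L (nat_lit 492) ln13_11_5 ln13_11_5_ok))) (M (nat_lit 462) (B (L (nat_lit 430) ln13_10_4 ln13_10_4_ok) (L (nat_lit 494) ln13_11_4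 ln13_11_4_ok))))) (B (M (nat_lit 493) (B (M (nat_lit 492) (B (L (nat_lit 460) ln13_11_5 ln13_11_5_ok) (L (nat_lit 524) ln13_12_5 ln13_12_5_ok))) (M (nat_lit 494) (B (L (nat_lit 462) ln13_11_4 ln13_11_4_ok) (L (nat_lit 526) ln13_12_4 ln13_12_4_ok))))) (M (nat_lit 333) (B (M (nat_lit 334) (B (L (nat_lit 302) ln13_13_6 ln13_13_6_ok) (L (nat_lit 366) ln13_14_6 ln13_14_6_ok))) (M (nat_lit 460) (B (L (nat_lit 428) ln13_10_5 ln13_10_5_ok) (L (nat_lit 492) ln13_11_5 ln13_11_5_ok))))))))) (B (M (nat_lit 365) (B (M (nat_lit 493) (B (M (nat_lit 492) (B (L (nat_lit 460) ln13_11_5 ln13_11_5_ok) (L (nat_lit 524) ln13_12_5 ln13_12_5_ok))) (M (nat_lit 494) (B (L (nat_lit 462) ln13_11_4 ln13_11_4_ok) (L (nat_lit 526) ln13_12_4 ln13_12_4_ok))))) (B (M (nat_lit 493) (B (M (nat_lit 366) (B (L (nat_lit 334) ln13_14_6 ln13_14_6_ok) (L (nat_lit 398) ln13_15_6 ln13_15_6_ok))) (M (nat_lit 494) (B (L (nat_lit 462) ln13_11_4 ln13_11_4_ok)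 (L (nat_lit 526) ln13_12_4 ln13_12_4_ok))))) (B (M (nat_lit 493) (B (M (nat_lit 366) (B (L (nat_lit 334) ln13_14_6 ln13_14_6_ok) (L (nat_lit 398) ln13_15_6 ln13_15_6_ok))) (M (nat_lit 492) (B (L (nat_lit 460) ln13_11_5 ln13_11_5_ok) (L (nat_lit 524) ln13_12_5 ln13_12_5_ok))))) (M (nat_lit 333) (B (M (nat_lit 334) (B (L (nat_lit 302) ln13_13_6 ln13_13_6_ok) (L (nat_lit 366) ln13_14_6 ln13_14_6_ok))) (M (nat_lit 460) (B (L (nat_lit 428) ln13_10_5 ln13_10_5_ok) (L (nat_lit 492) ln13_11_5 ln13_11_5_ok))))))))) (B (M (nat_lit 493) (B (M (nat_lit 525) (B (M (nat_lit 524) (B (L (nat_lit 492) ln13_12_5 ln13_12_5_ok) (L (nat_lit 556) ln13_13_5 ln13_13_5_ok))) (M (nat_lit 526) (B (L (nat_lit 494) ln13_12_4 ln13_12_4_ok) (L (nat_lit 558) ln13_13_4 ln13_13_4_ok))))) (B (M (nat_lit 525) (B (M (nat_lit 398) (B (L (nat_lit 366) ln13_15_6 ln13_15_6_ok) (L (nat_lit 430) ln13_16_6 ln13_16_6_ok))) (M (nat_lit 526) (B (L (nat_lit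 494) ln13_12_4 ln13_12_4_ok) (L (nat_lit 558) ln13_13_4 ln13_13_4_ok))))) (B (M (nat_lit 525) (B (M (nat_lit 398) (B (L (nat_lit 366) ln13_15_6 ln13_15_6_ok) (L (nat_lit 430) ln13_16_6 ln13_16_6_ok))) (M (nat_lit 524) (B (L (nat_lit 492) ln13_12_5 ln13_12_5_ok) (L (nat_lit 556) ln13_13_5 ln13_13_5_ok))))) (M (nat_lit 365) (B (M (nat_lit 366) (B (L (nat_lit 334) ln13_14_6 ln13_14_6_ok) (L (nat_lit 398) ln13_15_6 ln13_15_6_ok))) (M (nat_lit 494) (B (L (nat_lit 462) ln13_11_4 ln13_11_4_ok) (L (nat_lit 526) ln13_12_4 ln13_12_4_ok))))))))) (B (M (nat_lit 493) (B (M (nat_lit 525) (B (M (nat_lit 524) (B (L (nat_lit 492) ln13_12_5 ln13_12_5_ok) (L (nat_lit 556) ln13_13_5 ln13_13_5_ok))) (M (nat_lit 526) (B (L (nat_lit 494) ln13_12_4 ln13_12_4_ok) (L (nat_lit 558) ln13_13_4 ln13_13_4_ok))))) (B (M (nat_lit 525) (B (M (nat_lit 398) (B (L (nat_lit 366) ln13_15_6 ln13_15_6_ok) (L (nat_lit 430) ln13_16_6 ln13_16_6_ok)))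 (M (nat_lit 526) (B (L (nat_lit 494) ln13_12_4 ln13_12_4_ok) (L (nat_lit 558) ln13_13_4 ln13_13_4_ok))))) (B (M (nat_lit 525) (B (M (nat_lit 398) (B (L (nat_lit 366) ln13_15_6 ln13_15_6_ok) (L (nat_lit 430) ln13_16_6 ln13_16_6_ok))) (M (nat_lit 524) (B (L (nat_lit 492) ln13_12_5 ln13_12_5_ok) (L (nat_lit 556) ln13_13_5 ln13_13_5_ok))))) (M (nat_lit 365) (B (M (nat_lit 366) (B (L (nat_lit 334) ln13_14_6 ln13_14_6_ok) (L (nat_lit 398) ln13_15_6 ln13_15_6_ok))) (M (nat_lit 492) (B (L (nat_lit 460) ln13_11_5 ln13_11_5_ok) (L (nat_lit 524) ln13_12_5 ln13_12_5_ok))))))))) (B (M (nat_lit 493) (B (M (nat_lit 365) (B (M (nat_lit 366) (B (L (nat_lit 334) ln13_14_6 ln13_14_6_ok) (L (nat_lit 398) ln13_15_6 ln13_15_6_ok))) (M (nat_lit 494) (B (L (nat_lit 462) ln13_11_4 ln13_11_4_ok) (L (nat_lit 526) ln13_12_4 ln13_12_4_ok))))) (B (M (nat_lit 525) (B (M (nat_lit 398) (B (L (nat_lit 366) ln13_15_6 ln13_15_6_ok) (L (nat_lit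 430) ln13_16_6 ln13_16_6_ok))) (M (nat_lit 526) (B (L (nat_lit 494) ln13_12_4 ln13_12_4_ok) (L (nat_lit 558) ln13_13_4 ln13_13_4_ok))))) (B (M (nat_lit 525) (B (M (nat_lit 526) (B (L (nat_lit 494) ln13_12_4 ln13_12_4_ok) (L (nat_lit 558) ln13_13_4 ln13_13_4_ok))) (M (nat_lit 557) (B (M (nat_lit 428) (B (L (nat_lit 396) ln13_16_7 ln13_16_7_ok) (L (nat_lit 460) ln13_17_7 ln13_17_7_ok))) (M (nat_lit 556) (B (L (nat_lit 524) ln13_13_5 ln13_13_5_ok) (L (nat_lit 588) ln13_14_5 ln13_14_5_ok))))))) (B (M (nat_lit 525) (B (M (nat_lit 398) (B (L (nat_lit 366) ln13_15_6 ln13_15_6_ok) (L (nat_lit 430) ln13_16_6 ln13_16_6_ok))) (M (nat_lit 557) (B (M (nat_lit 428) (B (L (nat_lit 396) ln13_16_7 ln13_16_7_ok) (L (nat_lit 460) ln13_17_7 ln13_17_7_ok))) (M (nat_lit 558) (B (L (nat_lit 526) ln13_13_4 ln13_13_4_ok) (L (nat_lit 590) ln13_14_4 ln13_14_4_ok))))))) (M (nat_lit 525) (B (M (nat_lit 398) (B (L (nat_lit 366) ln13_15_6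 ln13_15_6_ok) (L (nat_lit 430) ln13_16_6 ln13_16_6_ok))) (M (nat_lit 557) (B (M (nat_lit 428) (B (L (nat_lit 396) ln13_16_7 ln13_16_7_ok) (L (nat_lit 460) ln13_17_7 ln13_17_7_ok))) (M (nat_lit 556) (B (L (nat_lit 524) ln13_13_5 ln13_13_5_ok) (L (nat_lit 588) ln13_14_5 ln13_14_5_ok)))))))))))) (B c20_n543 (B (M (nat_lit 493) (B (M (nat_lit 365) (B (M (nat_lit 366) (B (L (nat_lit 334) ln13_14_6 ln13_14_6_ok) (L (nat_lit 398) ln13_15_6 ln13_15_6_ok))) (M (nat_lit 492) (B (L (nat_lit 460) ln13_11_5 ln13_11_5_ok) (L (nat_lit 524) ln13_12_5 ln13_12_5_ok))))) (B (M (nat_lit 525) (B (M (nat_lit 398) (B (L (nat_lit 366) ln13_15_6 ln13_15_6_ok) (L (nat_lit 430) ln13_16_6 ln13_16_6_ok))) (M (nat_lit 524) (B (L (nat_lit 492) ln13_12_5 ln13_12_5_ok) (L (nat_lit 556) ln13_13_5 ln13_13_5_ok))))) (B (M (nat_lit 525) (B (M (nat_lit 524) (B (L (nat_lit 492) ln13_12_5 ln13_12_5_ok) (L (nat_lit 556) ln13_13_5 ln13_13_5_ok)))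 (M (nat_lit 557) (B (M (nat_lit 428) (B (L (nat_lit 396) ln13_16_7 ln13_16_7_ok) (L (nat_lit 460) ln13_17_7 ln13_17_7_ok))) (M (nat_lit 558) (B (L (nat_lit 526) ln13_13_4 ln13_13_4_ok) (L (nat_lit 590) ln13_14_4 ln13_14_4_ok))))))) (M (nat_lit 525) (B (M (nat_lit 398) (B (L (nat_lit 366) ln13_15_6 ln13_15_6_ok) (L (nat_lit 430) ln13_16_6 ln13_16_6_ok))) (M (nat_lit 557) (B (M (nat_lit 428) (B (L (nat_lit 396) ln13_16_7 ln13_16_7_ok) (L (nat_lit 460) ln13_17_7 ln13_17_7_ok))) (M (nat_lit 558) (B (L (nat_lit 526) ln13_13_4 ln13_13_4_ok) (L (nat_lit 590) ln13_14_4 ln13_14_4_ok))))))))))) (B (M (nat_lit 493) (B (M (nat_lit 365) (B (M (nat_lit 366) (B (L (nat_lit 334) ln13_14_6 ln13_14_6_ok) (L (nat_lit 398) ln13_15_6 ln13_15_6_ok))) (M (nat_lit 494) (B (L (nat_lit 462) ln13_11_4 ln13_11_4_ok) (L (nat_lit 526) ln13_12_4 ln13_12_4_ok))))) (B (M (nat_lit 525) (B (M (nat_lit 398) (B (L (nat_lit 366) ln13_15_6 ln13_15_6_ok)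 (L (nat_lit 430) ln13_16_6 ln13_16_6_ok))) (M (nat_lit 526) (B (L (nat_lit 494) ln13_12_4 ln13_12_4_ok) (L (nat_lit 558) ln13_13_4 ln13_13_4_ok))))) (B (M (nat_lit 525) (B (M (nat_lit 526) (B (L (nat_lit 494) ln13_12_4 ln13_12_4_ok) (L (nat_lit 558) ln13_13_4 ln13_13_4_ok))) (M (nat_lit 557) (B (M (nat_lit 428) (B (L (nat_lit 396) ln13_16_7 ln13_16_7_ok) (L (nat_lit 460) ln13_17_7 ln13_17_7_ok))) (M (nat_lit 430) (B (L (nat_lit 398) ln13_16_6 ln13_16_6_ok) (L (nat_lit 462) ln13_17_6 ln13_17_6_ok))))))) (B (M (nat_lit 365) (B (M (nat_lit 494) (B (L (nat_lit 462) ln13_11_4 ln13_11_4_ok) (L (nat_lit 526) ln13_12_4 ln13_12_4_ok))) (M (nat_lit 333) (B (M (nat_lit 334) (B (L (nat_lit 302) ln13_13_6 ln13_13_6_ok) (L (nat_lit 366) ln13_14_6 ln13_14_6_ok))) (M (nat_lit 460) (B (L (nat_lit 428) ln13_10_5 ln13_10_5_ok) (L (nat_lit 492) ln13_11_5 ln13_11_5_ok))))))) (B (M (nat_lit 525) (B (M (nat_lit 398) (B (L (nat_lit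 366) ln13_15_6 ln13_15_6_ok) (L (nat_lit 430) ln13_16_6 ln13_16_6_ok))) (M (nat_lit 557) (B (M (nat_lit 428) (B (L (nat_lit 396) ln13_16_7 ln13_16_7_ok) (L (nat_lit 460) ln13_17_7 ln13_17_7_ok))) (M (nat_lit 558) (B (L (nat_lit 526) ln13_13_4 ln13_13_4_ok) (L (nat_lit 590) ln13_14_4 ln13_14_4_ok))))))) (M (nat_lit 365) (B (M (nat_lit 366) (B (L (nat_lit 334) ln13_14_6 ln13_14_6_ok) (L (nat_lit 398) ln13_15_6 ln13_15_6_ok))) (M (nat_lit 333) (B (M (nat_lit 460) (B (L (nat_lit 428) ln13_10_5 ln13_10_5_ok) (L (nat_lit 492) ln13_11_5 ln13_11_5_ok))) (M (nat_lit 462) (B (L (nat_lit 430) ln13_10_4 ln13_10_4_ok) (L (nat_lit 494) ln13_11_4 ln13_11_4_ok))))))))))))) (M (nat_lit 365) (B (M (nat_lit 333) (B (M (nat_lit 460) (B (L (nat_lit 428) ln13_10_5 ln13_10_5_ok) (L (nat_lit 492) ln13_11_5 ln13_11_5_ok))) (M (nat_lit 462) (B (L (nat_lit 430) ln13_10_4 ln13_10_4_ok) (L (nat_lit 494) ln13_11_4 ln13_11_4_ok))))) (B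 (M (nat_lit 493) (B (M (nat_lit 366) (B (L (nat_lit 334) ln13_14_6 ln13_14_6_ok) (L (nat_lit 398) ln13_15_6 ln13_15_6_ok))) (M (nat_lit 492) (B (L (nat_lit 460) ln13_11_5 ln13_11_5_ok) (L (nat_lit 524) ln13_12_5 ln13_12_5_ok))))) (M (nat_lit 333) (B (M (nat_lit 334) (B (L (nat_lit 302) ln13_13_6 ln13_13_6_ok) (L (nat_lit 366) ln13_14_6 ln13_14_6_ok))) (M (nat_lit 462) (B (L (nat_lit 430) ln13_10_4 ln13_10_4_ok) (L (nat_lit 494) ln13_11_4 ln13_11_4_ok))))))))))))))))))))) (nat_lit 5954262830815946494440468064007740237496571878468728087513875999273036838532266441790969898967138332125836366047228135112217242456098340864) (nat_lit 5065326623820289418850998225493032310046201105559115054875997310097996641364332751748185233261818865123483236516967928173399303274206855419440857192956768232998061696691138985984) (nat_lit 5065326623820289418850998225493032310046201105559115054875997310097996641364332751748185233261818865123483236516967928173399303274206855419440857192956768232998061696691138985984)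 (by decide +kernel)
noncomputable def c20_n700 : Cert := (M (nat_lit 492) (B (M (nat_lit 524) (B (L (nat_lit 397) ln13_12_5 ln13_12_5_ok) (M (nat_lit 556) (B (L (nat_lit 460) ln12_17_6 ln12_17_6_ok) (L (nat_lit 588) ln12_18_6 ln12_18_6_ok))))) (B (M (nat_lit 491) (B (M (nat_lit 462) (B (L (nat_lit 490) ln10_15_2 ln10_15_2_ok) (M (nat_lit 463) (B (L (nat_lit 460) ln15_14_1 ln15_14_1_ok) (L (nat_lit 464) ln16_14_1 ln16_14_1_ok))))) (B (M (nat_lit 462) (B (L (nat_lit 490) ln10_15_2 ln10_15_2_ok) (M (nat_lit 463) (B (L (nat_lit 464) ln16_14_1 ln16_14_1_ok) (L (nat_lit 494) ln11_15_2 ln11_15_2_ok))))) (B (M (nat_lit 490) (B (M (nat_lit 489) (B (L (nat_lit 460) ln9_15_2 ln9_15_2_ok) (M (nat_lit 457) (B (L (nat_lit 456) ln12_15_3 ln12_15_3_ok) (L (nat_lit 458) ln13_15_3 ln13_15_3_ok))))) (B (M (nat_lit 489) (B (L (nat_lit 460) ln9_15_2 ln9_15_2_ok) (M (nat_lit 521) (B (L (nat_lit 520) ln12_15_1 ln12_15_1_ok) (L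 (nat_lit 522) ln13_15_1 ln13_15_1_ok))))) (M (nat_lit 494) (B (M (nat_lit 458) (B (L (nat_lit 457) ln13_15_3 ln13_15_3_ok) (L (nat_lit 459) ln14_15_3 ln14_15_3_ok))) (M (nat_lit 522) (B (L (nat_lit 521) ln13_15_1 ln13_15_1_ok) (L (nat_lit 523) ln14_15_1 ln14_15_1_ok)))))))) (M (nat_lit 494) (B (M (nat_lit 462) (B (L (nat_lit 463) ln11_15_2 ln11_15_2_ok) (M (nat_lit 526) (B (L (nat_lit 558) ln14_17_7 ln14_17_7_ok) (L (nat_lit 527) ln11_15_0 ln11_15_0_ok))))) (M (nat_lit 495) (B (M (nat_lit 459) (B (L (nat_lit 458) ln14_15_3 ln14_15_3_ok) (L (nat_lit 460) ln15_15_3 ln15_15_3_ok))) (M (nat_lit 523) (B (L (nat_lit 522) ln14_15_1 ln14_15_1_ok) (L (nat_lit 524) ln15_15_1 ln15_15_1_ok))))))))))) (B (M (nat_lit 494) (B (M (nat_lit 397) (B (L (nat_lit 524) ln13_12_5 ln13_12_5_ok) (L (nat_lit 526) ln13_12_4 ln13_12_4_ok))) (B (M (nat_lit 491) (B (M (nat_lit 462) (B (L (nat_lit 490) ln10_15_2 ln10_15_2_ok) (L (nat_lit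 463) ln11_15_2 ln11_15_2_ok))) (M (nat_lit 495) (B (M (nat_lit 523) (B (L (nat_lit 522) ln14_15_1 ln14_15_1_ok) (L (nat_lit 524) ln15_15_1 ln15_15_1_ok))) (M (nat_lit 527) (B (L (nat_lit 526) ln11_15_0 ln11_15_0_ok) (L (nat_lit 528) ln12_15_0 ln12_15_0_ok))))))) (B (M (nat_lit 526) (B (L (nat_lit 397) ln13_12_4 ln13_12_4_ok) (M (nat_lit 558) (B (L (nat_lit 462) ln14_17_7 ln14_17_7_ok) (L (nat_lit 590) ln14_18_7 ln14_18_7_ok))))) (M (nat_lit 491) (B (M (nat_lit 462) (B (L (nat_lit 490) ln10_15_2 ln10_15_2_ok) (L (nat_lit 463) ln11_15_2 ln11_15_2_ok))) (M (nat_lit 523) (B (L (nat_lit 522) ln14_15_1 ln14_15_1_ok) (M (nat_lit 524) (B (L (nat_lit 397) ln13_12_5 ln13_12_5_ok) (L (nat_lit 495) ln15_15_1 ln15_15_1_ok))))))))))) (M (nat_lit 494) (B (M (nat_lit 526) (B (L (nat_lit 397) ln13_12_4 ln13_12_4_ok) (M (nat_lit 558) (B (L (nat_lit 462) ln14_17_7 ln14_17_7_ok) (L (nat_lit 590) ln14_18_7 ln14_18_7_ok)))))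 (B (M (nat_lit 491) (B (M (nat_lit 462) (B (L (nat_lit 490) ln10_15_2 ln10_15_2_ok) (L (nat_lit 463) ln11_15_2 ln11_15_2_ok))) (B (M (nat_lit 490) (B (M (nat_lit 458) (B (L (nat_lit 457) ln13_15_3 ln13_15_3_ok) (L (nat_lit 459) ln14_15_3 ln14_15_3_ok))) (M (nat_lit 522) (B (L (nat_lit 521) ln13_15_1 ln13_15_1_ok) (L (nat_lit 523) ln14_15_1 ln14_15_1_ok))))) (M (nat_lit 462) (B (L (nat_lit 463) ln11_15_2 ln11_15_2_ok) (M (nat_lit 526) (B (L (nat_lit 558) ln14_17_7 ln14_17_7_ok) (L (nat_lit 527) ln11_15_0 ln11_15_0_ok)))))))) (B (M (nat_lit 491) (B (M (nat_lit 526) (B (L (nat_lit 397) ln13_12_4 ln13_12_4_ok) (L (nat_lit 527) ln11_15_0 ln11_15_0_ok))) (M (nat_lit 490) (B (M (nat_lit 458) (B (L (nat_lit 457) ln13_15_3 ln13_15_3_ok) (L (nat_lit 459) ln14_15_3 ln14_15_3_ok))) (M (nat_lit 522) (B (L (nat_lit 521) ln13_15_1 ln13_15_1_ok) (L (nat_lit 523) ln14_15_1 ln14_15_1_ok))))))) (M (nat_lit 491) (B (M (nat_lit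 462) (B (L (nat_lit 490) ln10_15_2 ln10_15_2_ok) (L (nat_lit 463) ln11_15_2 ln11_15_2_ok))) (B (M (nat_lit 490) (B (M (nat_lit 458) (B (L (nat_lit 457) ln13_15_3 ln13_15_3_ok) (L (nat_lit 459) ln14_15_3 ln14_15_3_ok))) (M (nat_lit 522) (B (L (nat_lit 521) ln13_15_1 ln13_15_1_ok) (L (nat_lit 523) ln14_15_1 ln14_15_1_ok))))) (M (nat_lit 495) (B (M (nat_lit 459) (B (L (nat_lit 458) ln14_15_3 ln14_15_3_ok) (L (nat_lit 460) ln15_15_3 ln15_15_3_ok))) (M (nat_lit 463) (B (L (nat_lit 462) ln11_15_2 ln11_15_2_ok) (L (nat_lit 464) ln12_15_2 ln12_15_2_ok))))))))))))))))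
theorem c20_s702 : Sem (nat_lit 5954262830815946494440468064007740237496571878468728087513875999273036838532266441790969898967138332125836366047228135112217242456098340864) (nat_lit 5065326624026677990279899817359710870245913095966958282413365709703845729174571592160096953498578703230366463517414932642958438517693403629582893453993153052133013825183769690112) (nat_lit 5065326624026677990279899817359710870245913095966958282413365709703845729174571592160096953498578703230366463517414932642958438517693403629582893453993153052133013825183769690112) :=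
  sem_of_chk (M (nat_lit 493) (B (M (nat_lit 525) (B (M (nat_lit 428) (B (L (nat_lit 396) ln13_16_7 ln13_16_7_ok) (M (nat_lit 557) (B (L (nat_lit 460) ln13_17_7 ln13_17_7_ok) (M (nat_lit 430) (B (L (nat_lit 398) ln13_16_6 ln13_16_6_ok) (L (nat_lit 462) ln13_17_6 ln13_17_6_ok))))))) (M (nat_lit 397) (B (M (nat_lit 524) (B (L (nat_lit 492) ln13_12_5 ln13_12_5_ok) (L (nat_lit 556) ln13_13_5 ln13_13_5_ok))) (M (nat_lit 526) (B (L (nat_lit 494) ln13_12_4 ln13_12_4_ok) (L (nat_lit 558) ln13_13_4 ln13_13_4_ok))))))) (B (M (nat_lit 525) (B (M (nat_lit 557) (B (M (nat_lit 430) (B (L (nat_lit 398) ln13_16_6 ln13_16_6_ok) (L (nat_lit 462) ln13_17_6 ln13_17_6_ok))) (M (nat_lit 556) (B (L (nat_lit 524) ln13_13_5 ln13_13_5_ok) (L (nat_lit 588) ln13_14_5 ln13_14_5_ok))))) (B (M (nat_lit 557) (B (M (nat_lit 556) (B (L (nat_lit 524) ln13_13_5 ln13_13_5_ok) (L (nat_lit 588) ln13_14_5 ln13_14_5_ok))) (M (nat_lit 558) (B (L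 (nat_lit 526) ln13_13_4 ln13_13_4_ok) (L (nat_lit 590) ln13_14_4 ln13_14_4_ok))))) (B (M (nat_lit 557) (B (M (nat_lit 430) (B (L (nat_lit 398) ln13_16_6 ln13_16_6_ok) (L (nat_lit 462) ln13_17_6 ln13_17_6_ok))) (M (nat_lit 558) (B (L (nat_lit 526) ln13_13_4 ln13_13_4_ok) (L (nat_lit 590) ln13_14_4 ln13_14_4_ok))))) (M (nat_lit 397) (B (M (nat_lit 524) (B (L (nat_lit 492) ln13_12_5 ln13_12_5_ok) (L (nat_lit 556) ln13_13_5 ln13_13_5_ok))) (M (nat_lit 526) (B (L (nat_lit 494) ln13_12_4 ln13_12_4_ok) (L (nat_lit 558) ln13_13_4 ln13_13_4_ok))))))))) (B (M (nat_lit 525) (B (M (nat_lit 428) (B (L (nat_lit 396) ln13_16_7 ln13_16_7_ok) (M (nat_lit 557) (B (L (nat_lit 460) ln13_17_7 ln13_17_7_ok) (M (nat_lit 430) (B (L (nat_lit 398) ln13_16_6 ln13_16_6_ok) (L (nat_lit 462) ln13_17_6 ln13_17_6_ok))))))) (B (M (nat_lit 557) (B (M (nat_lit 430) (B (L (nat_lit 398) ln13_16_6 ln13_16_6_ok) (L (nat_lit 462) ln13_17_6 ln13_17_6_ok)))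 (M (nat_lit 556) (B (L (nat_lit 524) ln13_13_5 ln13_13_5_ok) (L (nat_lit 588) ln13_14_5 ln13_14_5_ok))))) (B (M (nat_lit 557) (B (M (nat_lit 428) (B (L (nat_lit 396) ln13_16_7 ln13_16_7_ok) (L (nat_lit 460) ln13_17_7 ln13_17_7_ok))) (M (nat_lit 556) (B (L (nat_lit 524) ln13_13_5 ln13_13_5_ok) (L (nat_lit 588) ln13_14_5 ln13_14_5_ok))))) (M (nat_lit 524) (B (L (nat_lit 556) ln13_13_5 ln13_13_5_ok) (M (nat_lit 526) (B (L (nat_lit 558) ln13_13_4 ln13_13_4_ok) (M (nat_lit 523) (B (M (nat_lit 494) (B (L (nat_lit 522) ln10_16_2 ln10_16_2_ok) (L (nat_lit 495) ln11_16_2 ln11_16_2_ok))) (B (M (nat_lit 522) (B (M (nat_lit 490) (B (L (nat_lit 489) ln13_16_3 ln13_16_3_ok) (L (nat_lit 491) ln14_16_3 ln14_16_3_ok))) (M (nat_lit 554) (B (L (nat_lit 553) ln13_16_1 ln13_16_1_ok) (L (nat_lit 555) ln14_16_1 ln14_16_1_ok))))) (M (nat_lit 527) (B (M (nat_lit 491) (B (L (nat_lit 490) ln14_16_3 ln14_16_3_ok) (L (nat_lit 492) ln15_16_3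 ln15_16_3_ok))) (M (nat_lit 495) (B (L (nat_lit 494) ln11_16_2 ln11_16_2_ok) (L (nat_lit 496) ln12_16_2 ln12_16_2_ok)))))))))))))))) (B (M (nat_lit 525) (B (M (nat_lit 557) (B (M (nat_lit 428) (B (L (nat_lit 396) ln13_16_7 ln13_16_7_ok) (L (nat_lit 460) ln13_17_7 ln13_17_7_ok))) (M (nat_lit 558) (B (L (nat_lit 526) ln13_13_4 ln13_13_4_ok) (L (nat_lit 590) ln13_14_4 ln13_14_4_ok))))) (B (M (nat_lit 557) (B (M (nat_lit 556) (B (L (nat_lit 524) ln13_13_5 ln13_13_5_ok) (L (nat_lit 588) ln13_14_5 ln13_14_5_ok))) (M (nat_lit 558) (B (L (nat_lit 526) ln13_13_4 ln13_13_4_ok) (L (nat_lit 590) ln13_14_4 ln13_14_4_ok))))) (B (M (nat_lit 557) (B (M (nat_lit 428) (B (L (nat_lit 396) ln13_16_7 ln13_16_7_ok) (L (nat_lit 460) ln13_17_7 ln13_17_7_ok))) (M (nat_lit 556) (B (L (nat_lit 524) ln13_13_5 ln13_13_5_ok) (L (nat_lit 588) ln13_14_5 ln13_14_5_ok))))) (M (nat_lit 397) (B (M (nat_lit 524) (B (L (nat_lit 492) ln13_12_5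 ln13_12_5_ok) (L (nat_lit 556) ln13_13_5 ln13_13_5_ok))) (M (nat_lit 526) (B (L (nat_lit 494) ln13_12_4 ln13_12_4_ok) (L (nat_lit 558) ln13_13_4 ln13_13_4_ok))))))))) (B (M (nat_lit 525) (B (M (nat_lit 557) (B (M (nat_lit 428) (B (L (nat_lit 396) ln13_16_7 ln13_16_7_ok) (L (nat_lit 460) ln13_17_7 ln13_17_7_ok))) (M (nat_lit 556) (B (L (nat_lit 524) ln13_13_5 ln13_13_5_ok) (L (nat_lit 588) ln13_14_5 ln13_14_5_ok))))) (B (M (nat_lit 557) (B (M (nat_lit 556) (B (L (nat_lit 524) ln13_13_5 ln13_13_5_ok) (L (nat_lit 588) ln13_14_5 ln13_14_5_ok))) (M (nat_lit 558) (B (L (nat_lit 526) ln13_13_4 ln13_13_4_ok) (L (nat_lit 590) ln13_14_4 ln13_14_4_ok))))) (B (M (nat_lit 557) (B (M (nat_lit 428) (B (L (nat_lit 396) ln13_16_7 ln13_16_7_ok) (L (nat_lit 460) ln13_17_7 ln13_17_7_ok))) (M (nat_lit 558) (B (L (nat_lit 526) ln13_13_4 ln13_13_4_ok) (L (nat_lit 590) ln13_14_4 ln13_14_4_ok))))) (M (nat_lit 397) (B (M (nat_lit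 398) (B (L (nat_lit 366) ln13_15_6 ln13_15_6_ok) (L (nat_lit 430) ln13_16_6 ln13_16_6_ok))) (M (nat_lit 526) (B (L (nat_lit 494) ln13_12_4 ln13_12_4_ok) (L (nat_lit 558) ln13_13_4 ln13_13_4_ok))))))))) (B (M (nat_lit 525) (B (M (nat_lit 397) (B (M (nat_lit 398) (B (L (nat_lit 366) ln13_15_6 ln13_15_6_ok) (L (nat_lit 430) ln13_16_6 ln13_16_6_ok))) (M (nat_lit 524) (B (L (nat_lit 492) ln13_12_5 ln13_12_5_ok) (L (nat_lit 556) ln13_13_5 ln13_13_5_ok))))) (M (nat_lit 557) (B (M (nat_lit 428) (B (L (nat_lit 396) ln13_16_7 ln13_16_7_ok) (L (nat_lit 460) ln13_17_7 ln13_17_7_ok))) (M (nat_lit 558) (B (L (nat_lit 526) ln13_13_4 ln13_13_4_ok) (L (nat_lit 590) ln13_14_4 ln13_14_4_ok))))))) (B (M (nat_lit 525) (B (M (nat_lit 428) (B (L (nat_lit 396) ln13_16_7 ln13_16_7_ok) (M (nat_lit 557) (B (L (nat_lit 460) ln13_17_7 ln13_17_7_ok) (M (nat_lit 430) (B (L (nat_lit 398) ln13_16_6 ln13_16_6_ok) (L (nat_lit 462) ln13_17_6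 ln13_17_6_ok))))))) (B (M (nat_lit 557) (B (M (nat_lit 430) (B (L (nat_lit 398) ln13_16_6 ln13_16_6_ok) (L (nat_lit 462) ln13_17_6 ln13_17_6_ok))) (M (nat_lit 558) (B (L (nat_lit 526) ln13_13_4 ln13_13_4_ok) (L (nat_lit 590) ln13_14_4 ln13_14_4_ok))))) (B (M (nat_lit 557) (B (M (nat_lit 428) (B (L (nat_lit 396) ln13_16_7 ln13_16_7_ok) (L (nat_lit 460) ln13_17_7 ln13_17_7_ok))) (M (nat_lit 558) (B (L (nat_lit 526) ln13_13_4 ln13_13_4_ok) (L (nat_lit 590) ln13_14_4 ln13_14_4_ok))))) (M (nat_lit 397) (B (M (nat_lit 398) (B (L (nat_lit 366) ln13_15_6 ln13_15_6_ok) (L (nat_lit 430) ln13_16_6 ln13_16_6_ok))) (M (nat_lit 526) (B (L (nat_lit 494) ln13_12_4 ln13_12_4_ok) (L (nat_lit 558) ln13_13_4 ln13_13_4_ok))))))))) (B c20_n700 (M (nat_lit 525) (B (M (nat_lit 428) (B (L (nat_lit 396) ln13_16_7 ln13_16_7_ok) (M (nat_lit 557) (B (L (nat_lit 460) ln13_17_7 ln13_17_7_ok) (M (nat_lit 430) (B (L (nat_lit 398) ln13_16_6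 ln13_16_6_ok) (L (nat_lit 462) ln13_17_6 ln13_17_6_ok))))))) (B (M (nat_lit 557) (B (M (nat_lit 430) (B (L (nat_lit 398) ln13_16_6 ln13_16_6_ok) (L (nat_lit 462) ln13_17_6 ln13_17_6_ok))) (M (nat_lit 556) (B (L (nat_lit 524) ln13_13_5 ln13_13_5_ok) (L (nat_lit 588) ln13_14_5 ln13_14_5_ok))))) (B (M (nat_lit 557) (B (M (nat_lit 428) (B (L (nat_lit 396) ln13_16_7 ln13_16_7_ok) (L (nat_lit 460) ln13_17_7 ln13_17_7_ok))) (M (nat_lit 556) (B (L (nat_lit 524) ln13_13_5 ln13_13_5_ok) (L (nat_lit 588) ln13_14_5 ln13_14_5_ok))))) (M (nat_lit 397) (B (M (nat_lit 398) (B (L (nat_lit 366) ln13_15_6 ln13_15_6_ok) (L (nat_lit 430) ln13_16_6 ln13_16_6_ok))) (M (nat_lit 524) (B (L (nat_lit 492) ln13_12_5 ln13_12_5_ok) (L (nat_lit 556) ln13_13_5 ln13_13_5_ok)))))))))))))))))) (nat_lit 5954262830815946494440468064007740237496571878468728087513875999273036838532266441790969898967138332125836366047228135112217242456098340864)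 (nat_lit 5065326624026677990279899817359710870245913095966958282413365709703845729174571592160096953498578703230366463517414932642958438517693403629582893453993153052133013825183769690112) (nat_lit 5065326624026677990279899817359710870245913095966958282413365709703845729174571592160096953498578703230366463517414932642958438517693403629582893453993153052133013825183769690112) (by decide +kernel)
theorem c20_s728 : Sem (nat_lit 5954262830815946494440468064007740237496571878468728087513875999273036838532266441790969898967138332125836366047228135112217242456098340864) (nat_lit 5065326623820289418850998225491433974788439317536647677094343208949340629071288895515303142578823313130909266963669265927182972463921370941472367939409585662549825028625958699008) (nat_lit 5065326623820289418850998225491433974788439317536647677094343208949340629071288895515303142578823313130909266963669265927182972463921370941472367939409585662549825028625958699008)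 :=
  sem_of_chk (M (nat_lit 397) (B (M (nat_lit 365) (B (M (nat_lit 333) (B (M (nat_lit 332) (B (L (nat_lit 300) ln13_13_7 ln13_13_7_ok) (L (nat_lit 364) ln13_14_7 ln13_14_7_ok))) (M (nat_lit 460) (B (L (nat_lit 428) ln13_10_5 ln13_10_5_ok) (L (nat_lit 492) ln13_11_5 ln13_11_5_ok))))) (B (M (nat_lit 333) (B (M (nat_lit 460) (B (L (nat_lit 428) ln13_10_5 ln13_10_5_ok) (L (nat_lit 492) ln13_11_5 ln13_11_5_ok))) (M (nat_lit 462) (B (L (nat_lit 430) ln13_10_4 ln13_10_4_ok) (L (nat_lit 494) ln13_11_4 ln13_11_4_ok))))) (B (M (nat_lit 493) (B (M (nat_lit 364) (B (L (nat_lit 332) ln13_14_7 ln13_14_7_ok) (L (nat_lit 396) ln13_15_7 ln13_15_7_ok))) (M (nat_lit 492) (B (L (nat_lit 460) ln13_11_5 ln13_11_5_ok) (L (nat_lit 524) ln13_12_5 ln13_12_5_ok))))) (M (nat_lit 333) (B (M (nat_lit 332) (B (L (nat_lit 300) ln13_13_7 ln13_13_7_ok) (L (nat_lit 364) ln13_14_7 ln13_14_7_ok))) (M (nat_lit 462) (B (L (nat_lit 430) ln13_10_4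 ln13_10_4_ok) (L (nat_lit 494) ln13_11_4 ln13_11_4_ok))))))))) (B (M (nat_lit 365) (B (M (nat_lit 493) (B (M (nat_lit 364) (B (L (nat_lit 332) ln13_14_7 ln13_14_7_ok) (L (nat_lit 396) ln13_15_7 ln13_15_7_ok))) (M (nat_lit 492) (B (L (nat_lit 460) ln13_11_5 ln13_11_5_ok) (L (nat_lit 524) ln13_12_5 ln13_12_5_ok))))) (B (M (nat_lit 493) (B (M (nat_lit 492) (B (L (nat_lit 460) ln13_11_5 ln13_11_5_ok) (L (nat_lit 524) ln13_12_5 ln13_12_5_ok))) (M (nat_lit 494) (B (L (nat_lit 462) ln13_11_4 ln13_11_4_ok) (L (nat_lit 526) ln13_12_4 ln13_12_4_ok))))) (B (M (nat_lit 493) (B (M (nat_lit 364) (B (L (nat_lit 332) ln13_14_7 ln13_14_7_ok) (L (nat_lit 396) ln13_15_7 ln13_15_7_ok))) (M (nat_lit 494) (B (L (nat_lit 462) ln13_11_4 ln13_11_4_ok) (L (nat_lit 526) ln13_12_4 ln13_12_4_ok))))) (M (nat_lit 333) (B (M (nat_lit 460) (B (L (nat_lit 428) ln13_10_5 ln13_10_5_ok) (L (nat_lit 492) ln13_11_5 ln13_11_5_ok))) (M (nat_lit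 462) (B (L (nat_lit 430) ln13_10_4 ln13_10_4_ok) (L (nat_lit 494) ln13_11_4 ln13_11_4_ok))))))))) (B (M (nat_lit 493) (B (M (nat_lit 525) (B (M (nat_lit 396) (B (L (nat_lit 364) ln13_15_7 ln13_15_7_ok) (L (nat_lit 428) ln13_16_7 ln13_16_7_ok))) (M (nat_lit 524) (B (L (nat_lit 492) ln13_12_5 ln13_12_5_ok) (L (nat_lit 556) ln13_13_5 ln13_13_5_ok))))) (B (M (nat_lit 525) (B (M (nat_lit 524) (B (L (nat_lit 492) ln13_12_5 ln13_12_5_ok) (L (nat_lit 556) ln13_13_5 ln13_13_5_ok))) (M (nat_lit 526) (B (L (nat_lit 494) ln13_12_4 ln13_12_4_ok) (L (nat_lit 558) ln13_13_4 ln13_13_4_ok))))) (B (M (nat_lit 525) (B (M (nat_lit 396) (B (L (nat_lit 364) ln13_15_7 ln13_15_7_ok) (L (nat_lit 428) ln13_16_7 ln13_16_7_ok))) (M (nat_lit 526) (B (L (nat_lit 494) ln13_12_4 ln13_12_4_ok) (L (nat_lit 558) ln13_13_4 ln13_13_4_ok))))) (M (nat_lit 365) (B (M (nat_lit 492) (B (L (nat_lit 460) ln13_11_5 ln13_11_5_ok) (L (nat_lit 524) ln13_12_5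 ln13_12_5_ok))) (M (nat_lit 494) (B (L (nat_lit 462) ln13_11_4 ln13_11_4_ok) (L (nat_lit 526) ln13_12_4 ln13_12_4_ok))))))))) (B (M (nat_lit 493) (B (M (nat_lit 365) (B (M (nat_lit 492) (B (L (nat_lit 460) ln13_11_5 ln13_11_5_ok) (L (nat_lit 524) ln13_12_5 ln13_12_5_ok))) (M (nat_lit 494) (B (L (nat_lit 462) ln13_11_4 ln13_11_4_ok) (L (nat_lit 526) ln13_12_4 ln13_12_4_ok))))) (B (M (nat_lit 525) (B (M (nat_lit 524) (B (L (nat_lit 492) ln13_12_5 ln13_12_5_ok) (L (nat_lit 556) ln13_13_5 ln13_13_5_ok))) (M (nat_lit 526) (B (L (nat_lit 494) ln13_12_4 ln13_12_4_ok) (L (nat_lit 558) ln13_13_4 ln13_13_4_ok))))) (B (M (nat_lit 525) (B (M (nat_lit 526) (B (L (nat_lit 494) ln13_12_4 ln13_12_4_ok) (L (nat_lit 558) ln13_13_4 ln13_13_4_ok))) (M (nat_lit 557) (B (M (nat_lit 428) (B (L (nat_lit 396) ln13_16_7 ln13_16_7_ok) (L (nat_lit 460) ln13_17_7 ln13_17_7_ok))) (M (nat_lit 556) (B (L (nat_lit 524) ln13_13_5 ln13_13_5_ok)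 (L (nat_lit 588) ln13_14_5 ln13_14_5_ok))))))) (B (M (nat_lit 525) (B (M (nat_lit 524) (B (L (nat_lit 492) ln13_12_5 ln13_12_5_ok) (L (nat_lit 556) ln13_13_5 ln13_13_5_ok))) (M (nat_lit 557) (B (M (nat_lit 428) (B (L (nat_lit 396) ln13_16_7 ln13_16_7_ok) (L (nat_lit 460) ln13_17_7 ln13_17_7_ok))) (M (nat_lit 558) (B (L (nat_lit 526) ln13_13_4 ln13_13_4_ok) (L (nat_lit 590) ln13_14_4 ln13_14_4_ok))))))) (B (M (nat_lit 525) (B (M (nat_lit 526) (B (L (nat_lit 494) ln13_12_4 ln13_12_4_ok) (L (nat_lit 558) ln13_13_4 ln13_13_4_ok))) (M (nat_lit 557) (B (M (nat_lit 428) (B (L (nat_lit 396) ln13_16_7 ln13_16_7_ok) (L (nat_lit 460) ln13_17_7 ln13_17_7_ok))) (M (nat_lit 430) (B (L (nat_lit 398) ln13_16_6 ln13_16_6_ok) (L (nat_lit 462) ln13_17_6 ln13_17_6_ok))))))) (M (nat_lit 525) (B (M (nat_lit 524) (B (L (nat_lit 492) ln13_12_5 ln13_12_5_ok) (L (nat_lit 556) ln13_13_5 ln13_13_5_ok))) (M (nat_lit 557) (B (M (nat_lit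 428) (B (L (nat_lit 396) ln13_16_7 ln13_16_7_ok) (L (nat_lit 460) ln13_17_7 ln13_17_7_ok))) (M (nat_lit 430) (B (L (nat_lit 398) ln13_16_6 ln13_16_6_ok) (L (nat_lit 462) ln13_17_6 ln13_17_6_ok))))))))))))) (B (M (nat_lit 493) (B (M (nat_lit 525) (B (M (nat_lit 396) (B (L (nat_lit 364) ln13_15_7 ln13_15_7_ok) (L (nat_lit 428) ln13_16_7 ln13_16_7_ok))) (M (nat_lit 524) (B (L (nat_lit 492) ln13_12_5 ln13_12_5_ok) (L (nat_lit 556) ln13_13_5 ln13_13_5_ok))))) (B (M (nat_lit 525) (B (M (nat_lit 524) (B (L (nat_lit 492) ln13_12_5 ln13_12_5_ok) (L (nat_lit 556) ln13_13_5 ln13_13_5_ok))) (M (nat_lit 526) (B (L (nat_lit 494) ln13_12_4 ln13_12_4_ok) (L (nat_lit 558) ln13_13_4 ln13_13_4_ok))))) (B (M (nat_lit 525) (B (M (nat_lit 396) (B (L (nat_lit 364) ln13_15_7 ln13_15_7_ok) (L (nat_lit 428) ln13_16_7 ln13_16_7_ok))) (M (nat_lit 526) (B (L (nat_lit 494) ln13_12_4 ln13_12_4_ok) (L (nat_lit 558) ln13_13_4 ln13_13_4_ok)))))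 (M (nat_lit 492) (B (L (nat_lit 524) ln13_12_5 ln13_12_5_ok) (M (nat_lit 494) (B (L (nat_lit 526) ln13_12_4 ln13_12_4_ok) (M (nat_lit 491) (B (M (nat_lit 462) (B (L (nat_lit 490) ln10_15_2 ln10_15_2_ok) (L (nat_lit 463) ln11_15_2 ln11_15_2_ok))) (B (M (nat_lit 490) (B (M (nat_lit 458) (B (L (nat_lit 457) ln13_15_3 ln13_15_3_ok) (L (nat_lit 459) ln14_15_3 ln14_15_3_ok))) (M (nat_lit 522) (B (L (nat_lit 521) ln13_15_1 ln13_15_1_ok) (L (nat_lit 523) ln14_15_1 ln14_15_1_ok))))) (M (nat_lit 495) (B (M (nat_lit 459) (B (L (nat_lit 458) ln14_15_3 ln14_15_3_ok) (L (nat_lit 460) ln15_15_3 ln15_15_3_ok))) (M (nat_lit 463) (B (L (nat_lit 462) ln11_15_2 ln11_15_2_ok) (L (nat_lit 464) ln12_15_2 ln12_15_2_ok)))))))))))))))) (B (M (nat_lit 493) (B (M (nat_lit 365) (B (M (nat_lit 492) (B (L (nat_lit 460) ln13_11_5 ln13_11_5_ok) (L (nat_lit 524) ln13_12_5 ln13_12_5_ok))) (M (nat_lit 494) (B (L (nat_lit 462) ln13_11_4 ln13_11_4_ok)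 (L (nat_lit 526) ln13_12_4 ln13_12_4_ok))))) (B (M (nat_lit 525) (B (M (nat_lit 524) (B (L (nat_lit 492) ln13_12_5 ln13_12_5_ok) (L (nat_lit 556) ln13_13_5 ln13_13_5_ok))) (M (nat_lit 526) (B (L (nat_lit 494) ln13_12_4 ln13_12_4_ok) (L (nat_lit 558) ln13_13_4 ln13_13_4_ok))))) (B (M (nat_lit 525) (B (M (nat_lit 526) (B (L (nat_lit 494) ln13_12_4 ln13_12_4_ok) (L (nat_lit 558) ln13_13_4 ln13_13_4_ok))) (M (nat_lit 557) (B (M (nat_lit 430) (B (L (nat_lit 398) ln13_16_6 ln13_16_6_ok) (L (nat_lit 462) ln13_17_6 ln13_17_6_ok))) (M (nat_lit 556) (B (L (nat_lit 524) ln13_13_5 ln13_13_5_ok) (L (nat_lit 588) ln13_14_5 ln13_14_5_ok))))))) (B (M (nat_lit 525) (B (M (nat_lit 524) (B (L (nat_lit 492) ln13_12_5 ln13_12_5_ok) (L (nat_lit 556) ln13_13_5 ln13_13_5_ok))) (M (nat_lit 557) (B (M (nat_lit 430) (B (L (nat_lit 398) ln13_16_6 ln13_16_6_ok) (L (nat_lit 462) ln13_17_6 ln13_17_6_ok))) (M (nat_lit 558) (B (L (nat_lit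 526) ln13_13_4 ln13_13_4_ok) (L (nat_lit 590) ln13_14_4 ln13_14_4_ok))))))) (B (M (nat_lit 365) (B (M (nat_lit 494) (B (L (nat_lit 462) ln13_11_4 ln13_11_4_ok) (L (nat_lit 526) ln13_12_4 ln13_12_4_ok))) (M (nat_lit 333) (B (M (nat_lit 332) (B (L (nat_lit 300) ln13_13_7 ln13_13_7_ok) (L (nat_lit 364) ln13_14_7 ln13_14_7_ok))) (M (nat_lit 460) (B (L (nat_lit 428) ln13_10_5 ln13_10_5_ok) (L (nat_lit 492) ln13_11_5 ln13_11_5_ok))))))) (M (nat_lit 365) (B (M (nat_lit 492) (B (L (nat_lit 460) ln13_11_5 ln13_11_5_ok) (L (nat_lit 524) ln13_12_5 ln13_12_5_ok))) (M (nat_lit 333) (B (M (nat_lit 332) (B (L (nat_lit 300) ln13_13_7 ln13_13_7_ok) (L (nat_lit 364) ln13_14_7 ln13_14_7_ok))) (M (nat_lit 462) (B (L (nat_lit 430) ln13_10_4 ln13_10_4_ok) (L (nat_lit 494) ln13_11_4 ln13_11_4_ok))))))))))))) (B (M (nat_lit 493) (B (M (nat_lit 365) (B (M (nat_lit 364) (B (L (nat_lit 332) ln13_14_7 ln13_14_7_ok) (L (nat_lit 396)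 ln13_15_7 ln13_15_7_ok))) (M (nat_lit 494) (B (L (nat_lit 462) ln13_11_4 ln13_11_4_ok) (L (nat_lit 526) ln13_12_4 ln13_12_4_ok))))) (B (M (nat_lit 365) (B (M (nat_lit 492) (B (L (nat_lit 460) ln13_11_5 ln13_11_5_ok) (L (nat_lit 524) ln13_12_5 ln13_12_5_ok))) (M (nat_lit 494) (B (L (nat_lit 462) ln13_11_4 ln13_11_4_ok) (L (nat_lit 526) ln13_12_4 ln13_12_4_ok))))) (B (M (nat_lit 525) (B (M (nat_lit 524) (B (L (nat_lit 492) ln13_12_5 ln13_12_5_ok) (L (nat_lit 556) ln13_13_5 ln13_13_5_ok))) (M (nat_lit 526) (B (L (nat_lit 494) ln13_12_4 ln13_12_4_ok) (L (nat_lit 558) ln13_13_4 ln13_13_4_ok))))) (M (nat_lit 365) (B (M (nat_lit 364) (B (L (nat_lit 332) ln13_14_7 ln13_14_7_ok) (L (nat_lit 396) ln13_15_7 ln13_15_7_ok))) (M (nat_lit 492) (B (L (nat_lit 460) ln13_11_5 ln13_11_5_ok) (L (nat_lit 524) ln13_12_5 ln13_12_5_ok))))))))) (B (M (nat_lit 493) (B (M (nat_lit 525) (B (M (nat_lit 524) (B (L (nat_lit 492) ln13_12_5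 ln13_12_5_ok) (L (nat_lit 556) ln13_13_5 ln13_13_5_ok))) (M (nat_lit 526) (B (L (nat_lit 494) ln13_12_4 ln13_12_4_ok) (L (nat_lit 558) ln13_13_4 ln13_13_4_ok))))) (B (M (nat_lit 525) (B (M (nat_lit 396) (B (L (nat_lit 364) ln13_15_7 ln13_15_7_ok) (L (nat_lit 428) ln13_16_7 ln13_16_7_ok))) (M (nat_lit 526) (B (L (nat_lit 494) ln13_12_4 ln13_12_4_ok) (L (nat_lit 558) ln13_13_4 ln13_13_4_ok))))) (B (M (nat_lit 525) (B (M (nat_lit 396) (B (L (nat_lit 364) ln13_15_7 ln13_15_7_ok) (L (nat_lit 428) ln13_16_7 ln13_16_7_ok))) (M (nat_lit 524) (B (L (nat_lit 492) ln13_12_5 ln13_12_5_ok) (L (nat_lit 556) ln13_13_5 ln13_13_5_ok))))) (M (nat_lit 365) (B (M (nat_lit 364) (B (L (nat_lit 332) ln13_14_7 ln13_14_7_ok) (L (nat_lit 396) ln13_15_7 ln13_15_7_ok))) (M (nat_lit 494) (B (L (nat_lit 462) ln13_11_4 ln13_11_4_ok) (L (nat_lit 526) ln13_12_4 ln13_12_4_ok))))))))) (B (M (nat_lit 493) (B (M (nat_lit 525) (B (M (nat_lit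 524) (B (L (nat_lit 492) ln13_12_5 ln13_12_5_ok) (L (nat_lit 556) ln13_13_5 ln13_13_5_ok))) (M (nat_lit 526) (B (L (nat_lit 494) ln13_12_4 ln13_12_4_ok) (L (nat_lit 558) ln13_13_4 ln13_13_4_ok))))) (B (M (nat_lit 525) (B (M (nat_lit 396) (B (L (nat_lit 364) ln13_15_7 ln13_15_7_ok) (L (nat_lit 428) ln13_16_7 ln13_16_7_ok))) (M (nat_lit 526) (B (L (nat_lit 494) ln13_12_4 ln13_12_4_ok) (L (nat_lit 558) ln13_13_4 ln13_13_4_ok))))) (B (M (nat_lit 525) (B (M (nat_lit 396) (B (L (nat_lit 364) ln13_15_7 ln13_15_7_ok) (L (nat_lit 428) ln13_16_7 ln13_16_7_ok))) (M (nat_lit 524) (B (L (nat_lit 492) ln13_12_5 ln13_12_5_ok) (L (nat_lit 556) ln13_13_5 ln13_13_5_ok))))) (M (nat_lit 365) (B (M (nat_lit 364) (B (L (nat_lit 332) ln13_14_7 ln13_14_7_ok) (L (nat_lit 396) ln13_15_7 ln13_15_7_ok))) (M (nat_lit 492) (B (L (nat_lit 460) ln13_11_5 ln13_11_5_ok) (L (nat_lit 524) ln13_12_5 ln13_12_5_ok))))))))) (B (M (nat_lit 493)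 (B (M (nat_lit 365) (B (M (nat_lit 364) (B (L (nat_lit 332) ln13_14_7 ln13_14_7_ok) (L (nat_lit 396) ln13_15_7 ln13_15_7_ok))) (M (nat_lit 494) (B (L (nat_lit 462) ln13_11_4 ln13_11_4_ok) (L (nat_lit 526) ln13_12_4 ln13_12_4_ok))))) (B (M (nat_lit 525) (B (M (nat_lit 396) (B (L (nat_lit 364) ln13_15_7 ln13_15_7_ok) (L (nat_lit 428) ln13_16_7 ln13_16_7_ok))) (M (nat_lit 526) (B (L (nat_lit 494) ln13_12_4 ln13_12_4_ok) (L (nat_lit 558) ln13_13_4 ln13_13_4_ok))))) (B (M (nat_lit 525) (B (M (nat_lit 526) (B (L (nat_lit 494) ln13_12_4 ln13_12_4_ok) (L (nat_lit 558) ln13_13_4 ln13_13_4_ok))) (M (nat_lit 557) (B (M (nat_lit 430) (B (L (nat_lit 398) ln13_16_6 ln13_16_6_ok) (L (nat_lit 462) ln13_17_6 ln13_17_6_ok))) (M (nat_lit 556) (B (L (nat_lit 524) ln13_13_5 ln13_13_5_ok) (L (nat_lit 588) ln13_14_5 ln13_14_5_ok))))))) (B (M (nat_lit 525) (B (M (nat_lit 396) (B (L (nat_lit 364) ln13_15_7 ln13_15_7_ok) (L (nat_lit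 428) ln13_16_7 ln13_16_7_ok))) (M (nat_lit 557) (B (M (nat_lit 430) (B (L (nat_lit 398) ln13_16_6 ln13_16_6_ok) (L (nat_lit 462) ln13_17_6 ln13_17_6_ok))) (M (nat_lit 558) (B (L (nat_lit 526) ln13_13_4 ln13_13_4_ok) (L (nat_lit 590) ln13_14_4 ln13_14_4_ok))))))) (M (nat_lit 525) (B (M (nat_lit 396) (B (L (nat_lit 364) ln13_15_7 ln13_15_7_ok) (L (nat_lit 428) ln13_16_7 ln13_16_7_ok))) (M (nat_lit 557) (B (M (nat_lit 430) (B (L (nat_lit 398) ln13_16_6 ln13_16_6_ok) (L (nat_lit 462) ln13_17_6 ln13_17_6_ok))) (M (nat_lit 556) (B (L (nat_lit 524) ln13_13_5 ln13_13_5_ok) (L (nat_lit 588) ln13_14_5 ln13_14_5_ok)))))))))))) (B c20_n502 (B (M (nat_lit 493) (B (M (nat_lit 365) (B (M (nat_lit 364) (B (L (nat_lit 332) ln13_14_7 ln13_14_7_ok) (L (nat_lit 396) ln13_15_7 ln13_15_7_ok))) (M (nat_lit 492) (B (L (nat_lit 460) ln13_11_5 ln13_11_5_ok) (L (nat_lit 524) ln13_12_5 ln13_12_5_ok))))) (B (M (nat_lit 525) (B (M (nat_lit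 396) (B (L (nat_lit 364) ln13_15_7 ln13_15_7_ok) (L (nat_lit 428) ln13_16_7 ln13_16_7_ok))) (M (nat_lit 524) (B (L (nat_lit 492) ln13_12_5 ln13_12_5_ok) (L (nat_lit 556) ln13_13_5 ln13_13_5_ok))))) (B (M (nat_lit 525) (B (M (nat_lit 524) (B (L (nat_lit 492) ln13_12_5 ln13_12_5_ok) (L (nat_lit 556) ln13_13_5 ln13_13_5_ok))) (M (nat_lit 557) (B (M (nat_lit 428) (B (L (nat_lit 396) ln13_16_7 ln13_16_7_ok) (L (nat_lit 460) ln13_17_7 ln13_17_7_ok))) (M (nat_lit 558) (B (L (nat_lit 526) ln13_13_4 ln13_13_4_ok) (L (nat_lit 590) ln13_14_4 ln13_14_4_ok))))))) (B (M (nat_lit 525) (B (M (nat_lit 524) (B (L (nat_lit 492) ln13_12_5 ln13_12_5_ok) (L (nat_lit 556) ln13_13_5 ln13_13_5_ok))) (M (nat_lit 557) (B (M (nat_lit 430) (B (L (nat_lit 398) ln13_16_6 ln13_16_6_ok) (L (nat_lit 462) ln13_17_6 ln13_17_6_ok))) (M (nat_lit 558) (B (L (nat_lit 526) ln13_13_4 ln13_13_4_ok) (L (nat_lit 590) ln13_14_4 ln13_14_4_ok))))))) (M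 (nat_lit 525) (B (M (nat_lit 396) (B (L (nat_lit 364) ln13_15_7 ln13_15_7_ok) (L (nat_lit 428) ln13_16_7 ln13_16_7_ok))) (M (nat_lit 557) (B (M (nat_lit 430) (B (L (nat_lit 398) ln13_16_6 ln13_16_6_ok) (L (nat_lit 462) ln13_17_6 ln13_17_6_ok))) (M (nat_lit 558) (B (L (nat_lit 526) ln13_13_4 ln13_13_4_ok) (L (nat_lit 590) ln13_14_4 ln13_14_4_ok)))))))))))) (M (nat_lit 493) (B (M (nat_lit 365) (B (M (nat_lit 364) (B (L (nat_lit 332) ln13_14_7 ln13_14_7_ok) (L (nat_lit 396) ln13_15_7 ln13_15_7_ok))) (M (nat_lit 494) (B (L (nat_lit 462) ln13_11_4 ln13_11_4_ok) (L (nat_lit 526) ln13_12_4 ln13_12_4_ok))))) (B (M (nat_lit 525) (B (M (nat_lit 396) (B (L (nat_lit 364) ln13_15_7 ln13_15_7_ok) (L (nat_lit 428) ln13_16_7 ln13_16_7_ok))) (M (nat_lit 526) (B (L (nat_lit 494) ln13_12_4 ln13_12_4_ok) (L (nat_lit 558) ln13_13_4 ln13_13_4_ok))))) (B (M (nat_lit 525) (B (M (nat_lit 526) (B (L (nat_lit 494) ln13_12_4 ln13_12_4_ok)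 (L (nat_lit 558) ln13_13_4 ln13_13_4_ok))) (M (nat_lit 557) (B (M (nat_lit 428) (B (L (nat_lit 396) ln13_16_7 ln13_16_7_ok) (L (nat_lit 460) ln13_17_7 ln13_17_7_ok))) (M (nat_lit 430) (B (L (nat_lit 398) ln13_16_6 ln13_16_6_ok) (L (nat_lit 462) ln13_17_6 ln13_17_6_ok))))))) (B (M (nat_lit 365) (B (M (nat_lit 494) (B (L (nat_lit 462) ln13_11_4 ln13_11_4_ok) (L (nat_lit 526) ln13_12_4 ln13_12_4_ok))) (M (nat_lit 333) (B (M (nat_lit 332) (B (L (nat_lit 300) ln13_13_7 ln13_13_7_ok) (L (nat_lit 364) ln13_14_7 ln13_14_7_ok))) (M (nat_lit 460) (B (L (nat_lit 428) ln13_10_5 ln13_10_5_ok) (L (nat_lit 492) ln13_11_5 ln13_11_5_ok))))))) (B (M (nat_lit 525) (B (M (nat_lit 396) (B (L (nat_lit 364) ln13_15_7 ln13_15_7_ok) (L (nat_lit 428) ln13_16_7 ln13_16_7_ok))) (M (nat_lit 557) (B (M (nat_lit 430) (B (L (nat_lit 398) ln13_16_6 ln13_16_6_ok) (L (nat_lit 462) ln13_17_6 ln13_17_6_ok))) (M (nat_lit 558) (B (L (nat_lit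 526) ln13_13_4 ln13_13_4_ok) (L (nat_lit 590) ln13_14_4 ln13_14_4_ok))))))) (M (nat_lit 365) (B (M (nat_lit 364) (B (L (nat_lit 332) ln13_14_7 ln13_14_7_ok) (L (nat_lit 396) ln13_15_7 ln13_15_7_ok))) (M (nat_lit 333) (B (M (nat_lit 460) (B (L (nat_lit 428) ln13_10_5 ln13_10_5_ok) (L (nat_lit 492) ln13_11_5 ln13_11_5_ok))) (M (nat_lit 462) (B (L (nat_lit 430) ln13_10_4 ln13_10_4_ok) (L (nat_lit 494) ln13_11_4 ln13_11_4_ok)))))))))))))))))))))))))) (nat_lit 5954262830815946494440468064007740237496571878468728087513875999273036838532266441790969898967138332125836366047228135112217242456098340864) (nat_lit 5065326623820289418850998225491433974788439317536647677094343208949340629071288895515303142578823313130909266963669265927182972463921370941472367939409585662549825028625958699008) (nat_lit 5065326623820289418850998225491433974788439317536647677094343208949340629071288895515303142578823313130909266963669265927182972463921370941472367939409585662549825028625958699008)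 (by decide +kernel)
noncomputable def c20_n740 : Cert := (M (nat_lit 462) (B (M (nat_lit 494) (B (L (nat_lit 365) ln13_11_4 ln13_11_4_ok) (M (nat_lit 526) (B (L (nat_lit 430) ln14_16_7 ln14_16_7_ok) (L (nat_lit 558) ln14_17_7 ln14_17_7_ok))))) (B (M (nat_lit 463) (B (M (nat_lit 428) (B (L (nat_lit 464) ln16_14_3 ln16_14_3_ok) (M (nat_lit 427) (B (L (nat_lit 430) ln11_13_0 ln11_13_0_ok) (L (nat_lit 460) ln15_14_3 ln15_14_3_ok))))) (B (M (nat_lit 464) (B (L (nat_lit 428) ln16_14_3 ln16_14_3_ok) (M (nat_lit 465) (B (L (nat_lit 430) ln17_14_3 ln17_14_3_ok) (M (nat_lit 433) (B (L (nat_lit 432) ln13_14_2 ln13_14_2_ok) (L (nat_lit 434) ln14_14_2 ln14_14_2_ok))))))) (B (M (nat_lit 460) (B (M (nat_lit 495) (B (L (nat_lit 496) ln12_14_0 ln12_14_0_ok) (M (nat_lit 459) (B (L (nat_lit 494) ln11_14_0 ln11_14_0_ok) (M (nat_lit 491) (B (L (nat_lit 490) ln14_14_1 ln14_14_1_ok) (L (nat_lit 492) ln15_14_1 ln15_14_1_ok)))))))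 (B (M (nat_lit 464) (B (M (nat_lit 496) (B (L (nat_lit 495) ln12_14_0 ln12_14_0_ok) (L (nat_lit 497) ln13_14_0 ln13_14_0_ok))) (M (nat_lit 433) (B (L (nat_lit 432) ln13_14_2 ln13_14_2_ok) (M (nat_lit 465) (B (L (nat_lit 430) ln17_14_3 ln17_14_3_ok) (L (nat_lit 434) ln14_14_2 ln14_14_2_ok))))))) (M (nat_lit 459) (B (M (nat_lit 491) (B (L (nat_lit 490) ln14_14_1 ln14_14_1_ok) (L (nat_lit 492) ln15_14_1 ln15_14_1_ok))) (M (nat_lit 458) (B (L (nat_lit 430) ln10_14_2 ln10_14_2_ok) (M (nat_lit 426) (B (L (nat_lit 425) ln13_14_3 ln13_14_3_ok) (L (nat_lit 427) ln14_14_3 ln14_14_3_ok)))))))))) (B (M (nat_lit 428) (B (L (nat_lit 464) ln16_14_3 ln16_14_3_ok) (M (nat_lit 427) (B (L (nat_lit 426) ln10_13_0 ln10_13_0_ok) (L (nat_lit 460) ln15_14_3 ln15_14_3_ok))))) (M (nat_lit 460) (B (M (nat_lit 492) (B (L (nat_lit 491) ln15_14_1 ln15_14_1_ok) (M (nat_lit 428) (B (L (nat_lit 524) ln12_16_6 ln12_16_6_ok) (L (nat_lit 427)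 ln15_14_3 ln15_14_3_ok))))) (B (M (nat_lit 495) (B (L (nat_lit 496) ln12_14_0 ln12_14_0_ok) (M (nat_lit 459) (B (L (nat_lit 494) ln11_14_0 ln11_14_0_ok) (M (nat_lit 491) (B (L (nat_lit 490) ln14_14_1 ln14_14_1_ok) (L (nat_lit 492) ln15_14_1 ln15_14_1_ok))))))) (M (nat_lit 459) (B (M (nat_lit 427) (B (L (nat_lit 426) ln14_14_3 ln14_14_3_ok) (L (nat_lit 428) ln15_14_3 ln15_14_3_ok))) (M (nat_lit 495) (B (L (nat_lit 494) ln11_14_0 ln11_14_0_ok) (L (nat_lit 496) ln12_14_0 ln12_14_0_ok))))))))))))) (B (M (nat_lit 365) (B (L (nat_lit 494) ln13_11_4 ln13_11_4_ok) (M (nat_lit 333) (B (M (nat_lit 334) (B (L (nat_lit 302) ln13_13_6 ln13_13_6_ok) (L (nat_lit 366) ln13_14_6 ln13_14_6_ok))) (M (nat_lit 460) (B (L (nat_lit 428) ln13_10_5 ln13_10_5_ok) (L (nat_lit 492) ln13_11_5 ln13_11_5_ok))))))) (M (nat_lit 460) (B (M (nat_lit 365) (B (L (nat_lit 492) ln13_11_5 ln13_11_5_ok) (M (nat_lit 333) (B (L (nat_lit 428) ln13_10_5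 ln13_10_5_ok) (L (nat_lit 430) ln13_10_4 ln13_10_4_ok))))) (B (M (nat_lit 492) (B (L (nat_lit 365) ln13_11_5 ln13_11_5_ok) (M (nat_lit 524) (B (L (nat_lit 428) ln12_16_6 ln12_16_6_ok) (L (nat_lit 556) ln12_17_6 ln12_17_6_ok))))) (B (M (nat_lit 459) (B (M (nat_lit 458) (B (L (nat_lit 430) ln10_14_2 ln10_14_2_ok) (M (nat_lit 426) (B (L (nat_lit 425) ln13_14_3 ln13_14_3_ok) (L (nat_lit 427) ln14_14_3 ln14_14_3_ok))))) (B (M (nat_lit 458) (B (L (nat_lit 430) ln10_14_2 ln10_14_2_ok) (M (nat_lit 490) (B (L (nat_lit 489) ln13_14_1 ln13_14_1_ok) (L (nat_lit 491) ln14_14_1 ln14_14_1_ok))))) (M (nat_lit 463) (B (M (nat_lit 427) (B (L (nat_lit 426) ln14_14_3 ln14_14_3_ok) (L (nat_lit 428) ln15_14_3 ln15_14_3_ok))) (M (nat_lit 491) (B (L (nat_lit 490) ln14_14_1 ln14_14_1_ok) (L (nat_lit 492) ln15_14_1 ln15_14_1_ok)))))))) (B (M (nat_lit 365) (B (L (nat_lit 492) ln13_11_5 ln13_11_5_ok) (M (nat_lit 333) (B (L (nat_lit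 430) ln13_10_4 ln13_10_4_ok) (M (nat_lit 334) (B (L (nat_lit 302) ln13_13_6 ln13_13_6_ok) (L (nat_lit 366) ln13_14_6 ln13_14_6_ok))))))) (M (nat_lit 463) (B (M (nat_lit 428) (B (L (nat_lit 427) ln15_14_3 ln15_14_3_ok) (L (nat_lit 464) ln16_14_3 ln16_14_3_ok))) (B (M (nat_lit 464) (B (L (nat_lit 428) ln16_14_3 ln16_14_3_ok) (M (nat_lit 496) (B (L (nat_lit 495) ln12_14_0 ln12_14_0_ok) (L (nat_lit 497) ln13_14_0 ln13_14_0_ok))))) (B (M (nat_lit 464) (B (M (nat_lit 496) (B (L (nat_lit 495) ln12_14_0 ln12_14_0_ok) (L (nat_lit 497) ln13_14_0 ln13_14_0_ok))) (M (nat_lit 433) (B (L (nat_lit 432) ln13_14_2 ln13_14_2_ok) (M (nat_lit 465) (B (L (nat_lit 430) ln17_14_3 ln17_14_3_ok) (L (nat_lit 434) ln14_14_2 ln14_14_2_ok))))))) (M (nat_lit 459) (B (M (nat_lit 427) (B (L (nat_lit 426) ln14_14_3 ln14_14_3_ok) (L (nat_lit 428) ln15_14_3 ln15_14_3_ok))) (M (nat_lit 458) (B (L (nat_lit 430) ln10_14_2 ln10_14_2_ok) (M (nat_lit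 490) (B (L (nat_lit 489) ln13_14_1 ln13_14_1_ok) (L (nat_lit 491) ln14_14_1 ln14_14_1_ok))))))))))))))))))))
theorem c20_s747 : Sem (nat_lit 5954262830815946494440468064007740237496571878468728087513875999273036838532266441790969898967138332125836366047228135112217242456098340864) (nat_lit 5065326623820289418850998225493032310046201105559115054875835919480653786258812387134482445792895712398864159899348367137431453771514687207854614045918330687500131437105628839936) (nat_lit 5065326623820289418850998225493032310046201105559115054875835919480653786258812387134482445792895712398864159899348367137431453771514687207854614045918330687500131437105628839936) :=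
  sem_of_chk (M (nat_lit 397) (B (M (nat_lit 493) (B (M (nat_lit 525) (B (M (nat_lit 398) (B (L (nat_lit 366) ln13_15_6 ln13_15_6_ok) (L (nat_lit 430) ln13_16_6 ln13_16_6_ok))) (M (nat_lit 524) (B (L (nat_lit 492) ln13_12_5 ln13_12_5_ok) (L (nat_lit 556) ln13_13_5 ln13_13_5_ok))))) (B (M (nat_lit 365) (B (M (nat_lit 492) (B (L (nat_lit 460) ln13_11_5 ln13_11_5_ok) (L (nat_lit 524) ln13_12_5 ln13_12_5_ok))) (M (nat_lit 494) (B (L (nat_lit 462) ln13_11_4 ln13_11_4_ok) (L (nat_lit 526) ln13_12_4 ln13_12_4_ok))))) (M (nat_lit 365) (B (M (nat_lit 366) (B (L (nat_lit 334) ln13_14_6 ln13_14_6_ok) (L (nat_lit 398) ln13_15_6 ln13_15_6_ok))) (M (nat_lit 494) (B (L (nat_lit 462) ln13_11_4 ln13_11_4_ok) (L (nat_lit 526) ln13_12_4 ln13_12_4_ok)))))))) (B (M (nat_lit 493) (B (M (nat_lit 525) (B (M (nat_lit 398) (B (L (nat_lit 366) ln13_15_6 ln13_15_6_ok) (L (nat_lit 430) ln13_16_6 ln13_16_6_ok))) (M (nat_lit 524) (B (L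 (nat_lit 492) ln13_12_5 ln13_12_5_ok) (L (nat_lit 556) ln13_13_5 ln13_13_5_ok))))) (B (M (nat_lit 525) (B (M (nat_lit 524) (B (L (nat_lit 492) ln13_12_5 ln13_12_5_ok) (L (nat_lit 556) ln13_13_5 ln13_13_5_ok))) (M (nat_lit 526) (B (L (nat_lit 494) ln13_12_4 ln13_12_4_ok) (L (nat_lit 558) ln13_13_4 ln13_13_4_ok))))) (B (M (nat_lit 525) (B (M (nat_lit 398) (B (L (nat_lit 366) ln13_15_6 ln13_15_6_ok) (L (nat_lit 430) ln13_16_6 ln13_16_6_ok))) (M (nat_lit 526) (B (L (nat_lit 494) ln13_12_4 ln13_12_4_ok) (L (nat_lit 558) ln13_13_4 ln13_13_4_ok))))) (M (nat_lit 365) (B (M (nat_lit 492) (B (L (nat_lit 460) ln13_11_5 ln13_11_5_ok) (L (nat_lit 524) ln13_12_5 ln13_12_5_ok))) (M (nat_lit 494) (B (L (nat_lit 462) ln13_11_4 ln13_11_4_ok) (L (nat_lit 526) ln13_12_4 ln13_12_4_ok))))))))) (B (M (nat_lit 493) (B (M (nat_lit 525) (B (M (nat_lit 398) (B (L (nat_lit 366) ln13_15_6 ln13_15_6_ok) (L (nat_lit 430) ln13_16_6 ln13_16_6_ok)))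 (M (nat_lit 524) (B (L (nat_lit 492) ln13_12_5 ln13_12_5_ok) (L (nat_lit 556) ln13_13_5 ln13_13_5_ok))))) (B (M (nat_lit 525) (B (M (nat_lit 524) (B (L (nat_lit 492) ln13_12_5 ln13_12_5_ok) (L (nat_lit 556) ln13_13_5 ln13_13_5_ok))) (M (nat_lit 526) (B (L (nat_lit 494) ln13_12_4 ln13_12_4_ok) (L (nat_lit 558) ln13_13_4 ln13_13_4_ok))))) (B (M (nat_lit 525) (B (M (nat_lit 398) (B (L (nat_lit 366) ln13_15_6 ln13_15_6_ok) (L (nat_lit 430) ln13_16_6 ln13_16_6_ok))) (M (nat_lit 526) (B (L (nat_lit 494) ln13_12_4 ln13_12_4_ok) (L (nat_lit 558) ln13_13_4 ln13_13_4_ok))))) (M (nat_lit 492) (B (L (nat_lit 524) ln13_12_5 ln13_12_5_ok) (M (nat_lit 494) (B (L (nat_lit 526) ln13_12_4 ln13_12_4_ok) (M (nat_lit 491) (B (M (nat_lit 462) (B (L (nat_lit 490) ln10_15_2 ln10_15_2_ok) (L (nat_lit 463) ln11_15_2 ln11_15_2_ok))) (B (M (nat_lit 490) (B (M (nat_lit 458) (B (L (nat_lit 457) ln13_15_3 ln13_15_3_ok) (L (nat_lit 459)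 ln14_15_3 ln14_15_3_ok))) (M (nat_lit 522) (B (L (nat_lit 521) ln13_15_1 ln13_15_1_ok) (L (nat_lit 523) ln14_15_1 ln14_15_1_ok))))) (M (nat_lit 495) (B (M (nat_lit 459) (B (L (nat_lit 458) ln14_15_3 ln14_15_3_ok) (L (nat_lit 460) ln15_15_3 ln15_15_3_ok))) (M (nat_lit 463) (B (L (nat_lit 462) ln11_15_2 ln11_15_2_ok) (L (nat_lit 464) ln12_15_2 ln12_15_2_ok)))))))))))))))) (B (M (nat_lit 493) (B (M (nat_lit 365) (B (M (nat_lit 492) (B (L (nat_lit 460) ln13_11_5 ln13_11_5_ok) (L (nat_lit 524) ln13_12_5 ln13_12_5_ok))) (M (nat_lit 494) (B (L (nat_lit 462) ln13_11_4 ln13_11_4_ok) (L (nat_lit 526) ln13_12_4 ln13_12_4_ok))))) (B (M (nat_lit 525) (B (M (nat_lit 524) (B (L (nat_lit 492) ln13_12_5 ln13_12_5_ok) (L (nat_lit 556) ln13_13_5 ln13_13_5_ok))) (M (nat_lit 526) (B (L (nat_lit 494) ln13_12_4 ln13_12_4_ok) (L (nat_lit 558) ln13_13_4 ln13_13_4_ok))))) (B (M (nat_lit 525) (B (M (nat_lit 526) (B (L (nat_lit 494)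 ln13_12_4 ln13_12_4_ok) (L (nat_lit 558) ln13_13_4 ln13_13_4_ok))) (M (nat_lit 557) (B (M (nat_lit 430) (B (L (nat_lit 398) ln13_16_6 ln13_16_6_ok) (L (nat_lit 462) ln13_17_6 ln13_17_6_ok))) (M (nat_lit 556) (B (L (nat_lit 524) ln13_13_5 ln13_13_5_ok) (L (nat_lit 588) ln13_14_5 ln13_14_5_ok))))))) (B (M (nat_lit 525) (B (M (nat_lit 524) (B (L (nat_lit 492) ln13_12_5 ln13_12_5_ok) (L (nat_lit 556) ln13_13_5 ln13_13_5_ok))) (M (nat_lit 557) (B (M (nat_lit 430) (B (L (nat_lit 398) ln13_16_6 ln13_16_6_ok) (L (nat_lit 462) ln13_17_6 ln13_17_6_ok))) (M (nat_lit 558) (B (L (nat_lit 526) ln13_13_4 ln13_13_4_ok) (L (nat_lit 590) ln13_14_4 ln13_14_4_ok))))))) (B (M (nat_lit 365) (B (M (nat_lit 494) (B (L (nat_lit 462) ln13_11_4 ln13_11_4_ok) (L (nat_lit 526) ln13_12_4 ln13_12_4_ok))) (M (nat_lit 333) (B (M (nat_lit 332) (B (L (nat_lit 300) ln13_13_7 ln13_13_7_ok) (L (nat_lit 364) ln13_14_7 ln13_14_7_ok))) (M (nat_lit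 460) (B (L (nat_lit 428) ln13_10_5 ln13_10_5_ok) (L (nat_lit 492) ln13_11_5 ln13_11_5_ok))))))) (M (nat_lit 365) (B (M (nat_lit 492) (B (L (nat_lit 460) ln13_11_5 ln13_11_5_ok) (L (nat_lit 524) ln13_12_5 ln13_12_5_ok))) (M (nat_lit 333) (B (M (nat_lit 332) (B (L (nat_lit 300) ln13_13_7 ln13_13_7_ok) (L (nat_lit 364) ln13_14_7 ln13_14_7_ok))) (M (nat_lit 462) (B (L (nat_lit 430) ln13_10_4 ln13_10_4_ok) (L (nat_lit 494) ln13_11_4 ln13_11_4_ok))))))))))))) (B (M (nat_lit 493) (B (M (nat_lit 365) (B (M (nat_lit 492) (B (L (nat_lit 460) ln13_11_5 ln13_11_5_ok) (L (nat_lit 524) ln13_12_5 ln13_12_5_ok))) (M (nat_lit 494) (B (L (nat_lit 462) ln13_11_4 ln13_11_4_ok) (L (nat_lit 526) ln13_12_4 ln13_12_4_ok))))) (B (M (nat_lit 525) (B (M (nat_lit 524) (B (L (nat_lit 492) ln13_12_5 ln13_12_5_ok) (L (nat_lit 556) ln13_13_5 ln13_13_5_ok))) (M (nat_lit 526) (B (L (nat_lit 494) ln13_12_4 ln13_12_4_ok) (L (nat_lit 558) ln13_13_4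 ln13_13_4_ok))))) (B (M (nat_lit 365) (B (M (nat_lit 494) (B (L (nat_lit 462) ln13_11_4 ln13_11_4_ok) (L (nat_lit 526) ln13_12_4 ln13_12_4_ok))) (M (nat_lit 333) (B (M (nat_lit 332) (B (L (nat_lit 300) ln13_13_7 ln13_13_7_ok) (L (nat_lit 364) ln13_14_7 ln13_14_7_ok))) (M (nat_lit 334) (B (L (nat_lit 302) ln13_13_6 ln13_13_6_ok) (L (nat_lit 366) ln13_14_6 ln13_14_6_ok))))))) (M (nat_lit 365) (B (M (nat_lit 492) (B (L (nat_lit 460) ln13_11_5 ln13_11_5_ok) (L (nat_lit 524) ln13_12_5 ln13_12_5_ok))) (M (nat_lit 333) (B (M (nat_lit 332) (B (L (nat_lit 300) ln13_13_7 ln13_13_7_ok) (L (nat_lit 364) ln13_14_7 ln13_14_7_ok))) (M (nat_lit 334) (B (L (nat_lit 302) ln13_13_6 ln13_13_6_ok) (L (nat_lit 366) ln13_14_6 ln13_14_6_ok))))))))))) (B (M (nat_lit 493) (B (M (nat_lit 525) (B (M (nat_lit 524) (B (L (nat_lit 492) ln13_12_5 ln13_12_5_ok) (L (nat_lit 556) ln13_13_5 ln13_13_5_ok))) (M (nat_lit 526) (B (L (nat_lit 494)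 ln13_12_4 ln13_12_4_ok) (L (nat_lit 558) ln13_13_4 ln13_13_4_ok))))) (B (M (nat_lit 525) (B (M (nat_lit 398) (B (L (nat_lit 366) ln13_15_6 ln13_15_6_ok) (L (nat_lit 430) ln13_16_6 ln13_16_6_ok))) (M (nat_lit 526) (B (L (nat_lit 494) ln13_12_4 ln13_12_4_ok) (L (nat_lit 558) ln13_13_4 ln13_13_4_ok))))) (B (M (nat_lit 525) (B (M (nat_lit 398) (B (L (nat_lit 366) ln13_15_6 ln13_15_6_ok) (L (nat_lit 430) ln13_16_6 ln13_16_6_ok))) (M (nat_lit 524) (B (L (nat_lit 492) ln13_12_5 ln13_12_5_ok) (L (nat_lit 556) ln13_13_5 ln13_13_5_ok))))) (M (nat_lit 365) (B (M (nat_lit 366) (B (L (nat_lit 334) ln13_14_6 ln13_14_6_ok) (L (nat_lit 398) ln13_15_6 ln13_15_6_ok))) (M (nat_lit 494) (B (L (nat_lit 462) ln13_11_4 ln13_11_4_ok) (L (nat_lit 526) ln13_12_4 ln13_12_4_ok))))))))) (B (M (nat_lit 493) (B (M (nat_lit 525) (B (M (nat_lit 524) (B (L (nat_lit 492) ln13_12_5 ln13_12_5_ok) (L (nat_lit 556) ln13_13_5 ln13_13_5_ok))) (M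 (nat_lit 526) (B (L (nat_lit 494) ln13_12_4 ln13_12_4_ok) (L (nat_lit 558) ln13_13_4 ln13_13_4_ok))))) (B (M (nat_lit 525) (B (M (nat_lit 398) (B (L (nat_lit 366) ln13_15_6 ln13_15_6_ok) (L (nat_lit 430) ln13_16_6 ln13_16_6_ok))) (M (nat_lit 526) (B (L (nat_lit 494) ln13_12_4 ln13_12_4_ok) (L (nat_lit 558) ln13_13_4 ln13_13_4_ok))))) (B (M (nat_lit 525) (B (M (nat_lit 398) (B (L (nat_lit 366) ln13_15_6 ln13_15_6_ok) (L (nat_lit 430) ln13_16_6 ln13_16_6_ok))) (M (nat_lit 524) (B (L (nat_lit 492) ln13_12_5 ln13_12_5_ok) (L (nat_lit 556) ln13_13_5 ln13_13_5_ok))))) (M (nat_lit 365) (B (M (nat_lit 366) (B (L (nat_lit 334) ln13_14_6 ln13_14_6_ok) (L (nat_lit 398) ln13_15_6 ln13_15_6_ok))) (M (nat_lit 492) (B (L (nat_lit 460) ln13_11_5 ln13_11_5_ok) (L (nat_lit 524) ln13_12_5 ln13_12_5_ok))))))))) (B (M (nat_lit 493) (B (M (nat_lit 365) (B (M (nat_lit 366) (B (L (nat_lit 334) ln13_14_6 ln13_14_6_ok) (L (nat_lit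 398) ln13_15_6 ln13_15_6_ok))) (M (nat_lit 494) (B (L (nat_lit 462) ln13_11_4 ln13_11_4_ok) (L (nat_lit 526) ln13_12_4 ln13_12_4_ok))))) (B (M (nat_lit 525) (B (M (nat_lit 398) (B (L (nat_lit 366) ln13_15_6 ln13_15_6_ok) (L (nat_lit 430) ln13_16_6 ln13_16_6_ok))) (M (nat_lit 526) (B (L (nat_lit 494) ln13_12_4 ln13_12_4_ok) (L (nat_lit 558) ln13_13_4 ln13_13_4_ok))))) (B (M (nat_lit 525) (B (M (nat_lit 526) (B (L (nat_lit 494) ln13_12_4 ln13_12_4_ok) (L (nat_lit 558) ln13_13_4 ln13_13_4_ok))) (M (nat_lit 557) (B (M (nat_lit 430) (B (L (nat_lit 398) ln13_16_6 ln13_16_6_ok) (L (nat_lit 462) ln13_17_6 ln13_17_6_ok))) (M (nat_lit 556) (B (L (nat_lit 524) ln13_13_5 ln13_13_5_ok) (L (nat_lit 588) ln13_14_5 ln13_14_5_ok))))))) (B (M (nat_lit 365) (B (M (nat_lit 494) (B (L (nat_lit 462) ln13_11_4 ln13_11_4_ok) (L (nat_lit 526) ln13_12_4 ln13_12_4_ok))) (M (nat_lit 333) (B (M (nat_lit 332) (B (L (nat_lit 300) ln13_13_7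 ln13_13_7_ok) (L (nat_lit 364) ln13_14_7 ln13_14_7_ok))) (M (nat_lit 334) (B (L (nat_lit 302) ln13_13_6 ln13_13_6_ok) (L (nat_lit 366) ln13_14_6 ln13_14_6_ok))))))) (B (M (nat_lit 525) (B (M (nat_lit 398) (B (L (nat_lit 366) ln13_15_6 ln13_15_6_ok) (L (nat_lit 430) ln13_16_6 ln13_16_6_ok))) (M (nat_lit 557) (B (M (nat_lit 556) (B (L (nat_lit 524) ln13_13_5 ln13_13_5_ok) (L (nat_lit 588) ln13_14_5 ln13_14_5_ok))) (M (nat_lit 558) (B (L (nat_lit 526) ln13_13_4 ln13_13_4_ok) (L (nat_lit 590) ln13_14_4 ln13_14_4_ok))))))) (M (nat_lit 365) (B (M (nat_lit 366) (B (L (nat_lit 334) ln13_14_6 ln13_14_6_ok) (L (nat_lit 398) ln13_15_6 ln13_15_6_ok))) (M (nat_lit 333) (B (M (nat_lit 332) (B (L (nat_lit 300) ln13_13_7 ln13_13_7_ok) (L (nat_lit 364) ln13_14_7 ln13_14_7_ok))) (M (nat_lit 462) (B (L (nat_lit 430) ln13_10_4 ln13_10_4_ok) (L (nat_lit 494) ln13_11_4 ln13_11_4_ok))))))))))))) (B c20_n740 (B (M (nat_lit 493)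 (B (M (nat_lit 365) (B (M (nat_lit 366) (B (L (nat_lit 334) ln13_14_6 ln13_14_6_ok) (L (nat_lit 398) ln13_15_6 ln13_15_6_ok))) (M (nat_lit 492) (B (L (nat_lit 460) ln13_11_5 ln13_11_5_ok) (L (nat_lit 524) ln13_12_5 ln13_12_5_ok))))) (B (M (nat_lit 525) (B (M (nat_lit 398) (B (L (nat_lit 366) ln13_15_6 ln13_15_6_ok) (L (nat_lit 430) ln13_16_6 ln13_16_6_ok))) (M (nat_lit 524) (B (L (nat_lit 492) ln13_12_5 ln13_12_5_ok) (L (nat_lit 556) ln13_13_5 ln13_13_5_ok))))) (B (M (nat_lit 525) (B (M (nat_lit 524) (B (L (nat_lit 492) ln13_12_5 ln13_12_5_ok) (L (nat_lit 556) ln13_13_5 ln13_13_5_ok))) (M (nat_lit 557) (B (M (nat_lit 430) (B (L (nat_lit 398) ln13_16_6 ln13_16_6_ok) (L (nat_lit 462) ln13_17_6 ln13_17_6_ok))) (M (nat_lit 558) (B (L (nat_lit 526) ln13_13_4 ln13_13_4_ok) (L (nat_lit 590) ln13_14_4 ln13_14_4_ok))))))) (B (M (nat_lit 365) (B (M (nat_lit 492) (B (L (nat_lit 460) ln13_11_5 ln13_11_5_ok) (L (nat_lit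 524) ln13_12_5 ln13_12_5_ok))) (M (nat_lit 333) (B (M (nat_lit 332) (B (L (nat_lit 300) ln13_13_7 ln13_13_7_ok) (L (nat_lit 364) ln13_14_7 ln13_14_7_ok))) (M (nat_lit 334) (B (L (nat_lit 302) ln13_13_6 ln13_13_6_ok) (L (nat_lit 366) ln13_14_6 ln13_14_6_ok))))))) (B (M (nat_lit 525) (B (M (nat_lit 398) (B (L (nat_lit 366) ln13_15_6 ln13_15_6_ok) (L (nat_lit 430) ln13_16_6 ln13_16_6_ok))) (M (nat_lit 557) (B (M (nat_lit 556) (B (L (nat_lit 524) ln13_13_5 ln13_13_5_ok) (L (nat_lit 588) ln13_14_5 ln13_14_5_ok))) (M (nat_lit 558) (B (L (nat_lit 526) ln13_13_4 ln13_13_4_ok) (L (nat_lit 590) ln13_14_4 ln13_14_4_ok))))))) (M (nat_lit 365) (B (M (nat_lit 366) (B (L (nat_lit 334) ln13_14_6 ln13_14_6_ok) (L (nat_lit 398) ln13_15_6 ln13_15_6_ok))) (M (nat_lit 333) (B (M (nat_lit 332) (B (L (nat_lit 300) ln13_13_7 ln13_13_7_ok) (L (nat_lit 364) ln13_14_7 ln13_14_7_ok))) (M (nat_lit 460) (B (L (nat_lit 428) ln13_10_5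 ln13_10_5_ok) (L (nat_lit 492) ln13_11_5 ln13_11_5_ok))))))))))))) (B (M (nat_lit 493) (B (M (nat_lit 365) (B (M (nat_lit 366) (B (L (nat_lit 334) ln13_14_6 ln13_14_6_ok) (L (nat_lit 398) ln13_15_6 ln13_15_6_ok))) (M (nat_lit 494) (B (L (nat_lit 462) ln13_11_4 ln13_11_4_ok) (L (nat_lit 526) ln13_12_4 ln13_12_4_ok))))) (B (M (nat_lit 525) (B (M (nat_lit 398) (B (L (nat_lit 366) ln13_15_6 ln13_15_6_ok) (L (nat_lit 430) ln13_16_6 ln13_16_6_ok))) (M (nat_lit 526) (B (L (nat_lit 494) ln13_12_4 ln13_12_4_ok) (L (nat_lit 558) ln13_13_4 ln13_13_4_ok))))) (B (M (nat_lit 365) (B (M (nat_lit 494) (B (L (nat_lit 462) ln13_11_4 ln13_11_4_ok) (L (nat_lit 526) ln13_12_4 ln13_12_4_ok))) (M (nat_lit 333) (B (M (nat_lit 332) (B (L (nat_lit 300) ln13_13_7 ln13_13_7_ok) (L (nat_lit 364) ln13_14_7 ln13_14_7_ok))) (M (nat_lit 460) (B (L (nat_lit 428) ln13_10_5 ln13_10_5_ok) (L (nat_lit 492) ln13_11_5 ln13_11_5_ok))))))) (M (nat_lit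 365) (B (M (nat_lit 366) (B (L (nat_lit 334) ln13_14_6 ln13_14_6_ok) (L (nat_lit 398) ln13_15_6 ln13_15_6_ok))) (M (nat_lit 333) (B (M (nat_lit 332) (B (L (nat_lit 300) ln13_13_7 ln13_13_7_ok) (L (nat_lit 364) ln13_14_7 ln13_14_7_ok))) (M (nat_lit 460) (B (L (nat_lit 428) ln13_10_5 ln13_10_5_ok) (L (nat_lit 492) ln13_11_5 ln13_11_5_ok))))))))))) (M (nat_lit 493) (B (M (nat_lit 365) (B (M (nat_lit 366) (B (L (nat_lit 334) ln13_14_6 ln13_14_6_ok) (L (nat_lit 398) ln13_15_6 ln13_15_6_ok))) (M (nat_lit 492) (B (L (nat_lit 460) ln13_11_5 ln13_11_5_ok) (L (nat_lit 524) ln13_12_5 ln13_12_5_ok))))) (B (M (nat_lit 525) (B (M (nat_lit 398) (B (L (nat_lit 366) ln13_15_6 ln13_15_6_ok) (L (nat_lit 430) ln13_16_6 ln13_16_6_ok))) (M (nat_lit 524) (B (L (nat_lit 492) ln13_12_5 ln13_12_5_ok) (L (nat_lit 556) ln13_13_5 ln13_13_5_ok))))) (B (M (nat_lit 365) (B (M (nat_lit 492) (B (L (nat_lit 460) ln13_11_5 ln13_11_5_ok) (L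 (nat_lit 524) ln13_12_5 ln13_12_5_ok))) (M (nat_lit 333) (B (M (nat_lit 332) (B (L (nat_lit 300) ln13_13_7 ln13_13_7_ok) (L (nat_lit 364) ln13_14_7 ln13_14_7_ok))) (M (nat_lit 462) (B (L (nat_lit 430) ln13_10_4 ln13_10_4_ok) (L (nat_lit 494) ln13_11_4 ln13_11_4_ok))))))) (M (nat_lit 365) (B (M (nat_lit 366) (B (L (nat_lit 334) ln13_14_6 ln13_14_6_ok) (L (nat_lit 398) ln13_15_6 ln13_15_6_ok))) (M (nat_lit 333) (B (M (nat_lit 332) (B (L (nat_lit 300) ln13_13_7 ln13_13_7_ok) (L (nat_lit 364) ln13_14_7 ln13_14_7_ok))) (M (nat_lit 462) (B (L (nat_lit 430) ln13_10_4 ln13_10_4_ok) (L (nat_lit 494) ln13_11_4 ln13_11_4_ok))))))))))))))))))))))) (nat_lit 5954262830815946494440468064007740237496571878468728087513875999273036838532266441790969898967138332125836366047228135112217242456098340864) (nat_lit 5065326623820289418850998225493032310046201105559115054875835919480653786258812387134482445792895712398864159899348367137431453771514687207854614045918330687500131437105628839936)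 (nat_lit 5065326623820289418850998225493032310046201105559115054875835919480653786258812387134482445792895712398864159899348367137431453771514687207854614045918330687500131437105628839936) (by decide +kernel)
theorem c20_s954 : Sem (nat_lit 109836762562089755445664675616811405394281636581195230333843758151296528290720326977026610984269194648379117286990825662245823068567042238853752588071182794752) (nat_lit 2026130656297660867632444337505390499244912195865483910954888387959930430246047605788545159542411603433286226100368218897771619517373519430564380596268161180407963235503254274048) (nat_lit 2026130656297660867632444337505390499244912195865483910954888387959930430246047605788545159542411603433286226100368218897771619517373519430564380596268161180407963235503254274048) :=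
  sem_of_chk (M (nat_lit 462) (B (M (nat_lit 427) (B (L (nat_lit 426) ln10_13_0 ln10_13_0_ok) (M (nat_lit 463) (B (L (nat_lit 430) ln11_13_0 ln11_13_0_ok) (L (nat_lit 464) ln16_14_3 ln16_14_3_ok))))) (B (M (nat_lit 463) (B (L (nat_lit 464) ln16_14_3 ln16_14_3_ok) (M (nat_lit 427) (B (L (nat_lit 430) ln11_13_0 ln11_13_0_ok) (L (nat_lit 460) ln15_14_3 ln15_14_3_ok))))) (B (M (nat_lit 526) (B (M (nat_lit 558) (B (L (nat_lit 494) ln14_17_7 ln14_17_7_ok) (L (nat_lit 493) ln13_13_4 ln13_13_4_ok))) (B (M (nat_lit 494) (B (L (nat_lit 558) ln14_17_7 ln14_17_7_ok) (M (nat_lit 495) (B (M (nat_lit 496) (B (L (nat_lit 497) ln17_15_3 ln17_15_3_ok) (M (nat_lit 460) (B (L (nat_lit 459) ln11_14_0 ln11_14_0_ok) (L (nat_lit 463) ln12_14_0 ln12_14_0_ok))))) (M (nat_lit 430) (B (L (nat_lit 557) ln14_13_5 ln14_13_5_ok) (M (nat_lit 527) (B (L (nat_lit 398) ln14_12_4 ln14_12_4_ok) (L (nat_lit 559) ln14_13_4 ln14_13_4_ok)))))))))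 (B (M (nat_lit 493) (B (L (nat_lit 558) ln13_13_4 ln13_13_4_ok) (M (nat_lit 430) (B (L (nat_lit 398) ln13_16_6 ln13_16_6_ok) (L (nat_lit 557) ln13_17_6 ln13_17_6_ok))))) (M (nat_lit 494) (B (M (nat_lit 557) (B (L (nat_lit 430) ln14_13_5 ln14_13_5_ok) (M (nat_lit 493) (B (L (nat_lit 460) ln13_17_7 ln13_17_7_ok) (L (nat_lit 589) ln13_18_6 ln13_18_6_ok))))) (B (M (nat_lit 493) (B (M (nat_lit 557) (B (L (nat_lit 460) ln13_17_7 ln13_17_7_ok) (L (nat_lit 589) ln13_18_6 ln13_18_6_ok))) (M (nat_lit 524) (B (L (nat_lit 556) ln13_13_5 ln13_13_5_ok) (M (nat_lit 495) (B (L (nat_lit 496) ln16_15_1 ln16_15_1_ok) (L (nat_lit 523) ln11_16_2 ln11_16_2_ok))))))) (B (M (nat_lit 430) (B (L (nat_lit 557) ln14_13_5 ln14_13_5_ok) (M (nat_lit 398) (B (L (nat_lit 493) ln13_16_6 ln13_16_6_ok) (M (nat_lit 527) (B (L (nat_lit 495) ln14_12_4 ln14_12_4_ok) (L (nat_lit 559) ln14_13_4 ln14_13_4_ok))))))) (B (M (nat_lit 495) (B (M (nat_lit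 496) (B (L (nat_lit 497) ln17_15_3 ln17_15_3_ok) (M (nat_lit 460) (B (L (nat_lit 459) ln11_14_0 ln11_14_0_ok) (L (nat_lit 463) ln12_14_0 ln12_14_0_ok))))) (M (nat_lit 430) (B (L (nat_lit 557) ln14_13_5 ln14_13_5_ok) (M (nat_lit 527) (B (L (nat_lit 398) ln14_12_4 ln14_12_4_ok) (L (nat_lit 559) ln14_13_4 ln14_13_4_ok))))))) (M (nat_lit 524) (B (M (nat_lit 495) (B (L (nat_lit 523) ln11_16_2 ln11_16_2_ok) (M (nat_lit 493) (B (L (nat_lit 556) ln13_13_5 ln13_13_5_ok) (L (nat_lit 496) ln16_15_1 ln16_15_1_ok))))) (B (M (nat_lit 495) (B (L (nat_lit 523) ln11_16_2 ln11_16_2_ok) (M (nat_lit 496) (B (L (nat_lit 497) ln17_15_3 ln17_15_3_ok) (L (nat_lit 527) ln12_16_2 ln12_16_2_ok))))) (M (nat_lit 527) (B (M (nat_lit 556) (B (L (nat_lit 493) ln13_13_5 ln13_13_5_ok) (L (nat_lit 555) ln15_16_1 ln15_16_1_ok))) (M (nat_lit 559) (B (L (nat_lit 430) ln14_13_4 ln14_13_4_ok) (L (nat_lit 560) ln12_16_0 ln12_16_0_ok)))))))))))))))))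 (B (M (nat_lit 463) (B (L (nat_lit 464) ln16_14_3 ln16_14_3_ok) (M (nat_lit 427) (B (L (nat_lit 426) ln10_13_0 ln10_13_0_ok) (L (nat_lit 460) ln15_14_3 ln15_14_3_ok))))) (M (nat_lit 494) (B (M (nat_lit 526) (B (L (nat_lit 558) ln14_17_7 ln14_17_7_ok) (M (nat_lit 557) (B (L (nat_lit 430) ln14_13_5 ln14_13_5_ok) (M (nat_lit 493) (B (L (nat_lit 460) ln13_17_7 ln13_17_7_ok) (L (nat_lit 589) ln13_18_6 ln13_18_6_ok))))))) (B (M (nat_lit 493) (B (M (nat_lit 557) (B (L (nat_lit 460) ln13_17_7 ln13_17_7_ok) (L (nat_lit 589) ln13_18_6 ln13_18_6_ok))) (M (nat_lit 526) (B (L (nat_lit 558) ln14_17_7 ln14_17_7_ok) (M (nat_lit 524) (B (L (nat_lit 556) ln13_13_5 ln13_13_5_ok) (M (nat_lit 495) (B (L (nat_lit 496) ln16_15_1 ln16_15_1_ok) (L (nat_lit 523) ln11_16_2 ln11_16_2_ok))))))))) (B (M (nat_lit 430) (B (M (nat_lit 493) (B (L (nat_lit 398) ln13_16_6 ln13_16_6_ok) (L (nat_lit 557) ln13_17_6 ln13_17_6_ok))) (B (M (nat_lit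 526) (B (L (nat_lit 558) ln14_17_7 ln14_17_7_ok) (L (nat_lit 557) ln14_13_5 ln14_13_5_ok))) (M (nat_lit 398) (B (L (nat_lit 493) ln13_16_6 ln13_16_6_ok) (M (nat_lit 427) (B (L (nat_lit 399) ln11_13_2 ln11_13_2_ok) (L (nat_lit 426) ln10_13_0 ln10_13_0_ok)))))))) (B (M (nat_lit 526) (B (L (nat_lit 558) ln14_17_7 ln14_17_7_ok) (M (nat_lit 430) (B (L (nat_lit 557) ln14_13_5 ln14_13_5_ok) (M (nat_lit 398) (B (M (nat_lit 427) (B (L (nat_lit 399) ln11_13_2 ln11_13_2_ok) (L (nat_lit 426) ln10_13_0 ln10_13_0_ok))) (M (nat_lit 527) (B (L (nat_lit 495) ln14_12_4 ln14_12_4_ok) (L (nat_lit 559) ln14_13_4 ln14_13_4_ok))))))))) (B (M (nat_lit 493) (B (M (nat_lit 430) (B (L (nat_lit 398) ln13_16_6 ln13_16_6_ok) (L (nat_lit 557) ln13_17_6 ln13_17_6_ok))) (B (M (nat_lit 557) (B (L (nat_lit 460) ln13_17_7 ln13_17_7_ok) (L (nat_lit 430) ln13_17_6 ln13_17_6_ok))) (B (M (nat_lit 460) (B (L (nat_lit 557) ln13_17_7 ln13_17_7_ok)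 (M (nat_lit 459) (B (L (nat_lit 458) ln10_14_0 ln10_14_0_ok) (L (nat_lit 495) ln11_14_0 ln11_14_0_ok))))) (M (nat_lit 459) (B (M (nat_lit 460) (B (L (nat_lit 458) ln10_14_0 ln10_14_0_ok) (L (nat_lit 495) ln11_14_0 ln11_14_0_ok))) (B (M (nat_lit 495) (B (L (nat_lit 460) ln11_14_0 ln11_14_0_ok) (M (nat_lit 524) (B (L (nat_lit 556) ln13_13_5 ln13_13_5_ok) (L (nat_lit 496) ln16_15_1 ln16_15_1_ok))))) (M (nat_lit 430) (B (L (nat_lit 398) ln13_16_6 ln13_16_6_ok) (M (nat_lit 427) (B (L (nat_lit 426) ln10_13_0 ln10_13_0_ok) (L (nat_lit 458) ln14_13_1 ln14_13_1_ok)))))))))))) (M (nat_lit 526) (B (L (nat_lit 558) ln14_17_7 ln14_17_7_ok) (M (nat_lit 524) (B (M (nat_lit 495) (B (L (nat_lit 523) ln11_16_2 ln11_16_2_ok) (M (nat_lit 493) (B (L (nat_lit 556) ln13_13_5 ln13_13_5_ok) (L (nat_lit 496) ln16_15_1 ln16_15_1_ok))))) (B (M (nat_lit 495) (B (L (nat_lit 523) ln11_16_2 ln11_16_2_ok) (M (nat_lit 496) (B (L (nat_lit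 497) ln17_15_3 ln17_15_3_ok) (L (nat_lit 527) ln12_16_2 ln12_16_2_ok))))) (M (nat_lit 527) (B (M (nat_lit 556) (B (L (nat_lit 493) ln13_13_5 ln13_13_5_ok) (L (nat_lit 555) ln15_16_1 ln15_16_1_ok))) (M (nat_lit 559) (B (L (nat_lit 430) ln14_13_4 ln14_13_4_ok) (L (nat_lit 560) ln12_16_0 ln12_16_0_ok))))))))))))))))))))) (nat_lit 109836762562089755445664675616811405394281636581195230333843758151296528290720326977026610984269194648379117286990825662245823068567042238853752588071182794752) (nat_lit 2026130656297660867632444337505390499244912195865483910954888387959930430246047605788545159542411603433286226100368218897771619517373519430564380596268161180407963235503254274048) (nat_lit 2026130656297660867632444337505390499244912195865483910954888387959930430246047605788545159542411603433286226100368218897771619517373519430564380596268161180407963235503254274048) (by decide +kernel)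
noncomputable def c20_n1053 : Cert := (M (nat_lit 459) (B (M (nat_lit 458) (B (L (nat_lit 430) ln14_13_1 ln14_13_1_ok) (M (nat_lit 457) (B (L (nat_lit 456) ln8_14_2 ln8_14_2_ok) (L (nat_lit 460) ln9_14_2 ln9_14_2_ok))))) (B (M (nat_lit 491) (B (M (nat_lit 396) (B (L (nat_lit 523) ln11_16_6 ln11_16_6_ok) (M (nat_lit 364) (B (L (nat_lit 332) ln12_10_5 ln12_10_5_ok) (L (nat_lit 460) ln12_11_5 ln12_11_5_ok))))) (B (M (nat_lit 396) (B (L (nat_lit 523) ln11_16_6 ln11_16_6_ok) (M (nat_lit 364) (B (L (nat_lit 395) ln11_15_6 ln11_15_6_ok) (L (nat_lit 460) ln12_11_5 ln12_11_5_ok))))) (B (M (nat_lit 490) (B (M (nat_lit 460) (B (L (nat_lit 462) ln14_14_1 ln14_14_1_ok) (M (nat_lit 489) (B (L (nat_lit 458) ln13_14_1 ln13_14_1_ok) (L (nat_lit 488) ln8_15_2 ln8_15_2_ok))))) (M (nat_lit 522) (B (L (nat_lit 395) ln11_12_5 ln11_12_5_ok) (M (nat_lit 554) (B (L (nat_lit 523) ln11_13_5 ln11_13_5_ok) (L (nat_lit 586) ln10_18_6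 ln10_18_6_ok))))))) (B (M (nat_lit 396) (B (L (nat_lit 523) ln11_16_6 ln11_16_6_ok) (M (nat_lit 364) (B (L (nat_lit 332) ln12_10_5 ln12_10_5_ok) (L (nat_lit 395) ln11_15_6 ln11_15_6_ok))))) (M (nat_lit 395) (B (M (nat_lit 396) (B (L (nat_lit 364) ln11_15_6 ln11_15_6_ok) (M (nat_lit 394) (B (L (nat_lit 362) ln11_15_7 ln11_15_7_ok) (L (nat_lit 393) ln9_12_0 ln9_12_0_ok))))) (B (M (nat_lit 363) (B (M (nat_lit 364) (B (L (nat_lit 332) ln11_14_6 ln11_14_6_ok) (L (nat_lit 396) ln11_15_6 ln11_15_6_ok))) (M (nat_lit 490) (B (L (nat_lit 458) ln11_11_5 ln11_11_5_ok) (L (nat_lit 522) ln11_12_5 ln11_12_5_ok))))) (M (nat_lit 363) (B (M (nat_lit 362) (B (L (nat_lit 330) ln11_14_7 ln11_14_7_ok) (L (nat_lit 394) ln11_15_7 ln11_15_7_ok))) (M (nat_lit 490) (B (L (nat_lit 458) ln11_11_5 ln11_11_5_ok) (L (nat_lit 522) ln11_12_5 ln11_12_5_ok))))))))))))) (B (M (nat_lit 491) (B (M (nat_lit 396) (B (L (nat_lit 523) ln11_16_6 ln11_16_6_ok)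 (M (nat_lit 364) (B (L (nat_lit 332) ln12_10_5 ln12_10_5_ok) (L (nat_lit 395) ln11_15_6 ln11_15_6_ok))))) (B (M (nat_lit 396) (B (L (nat_lit 523) ln11_16_6 ln11_16_6_ok) (M (nat_lit 364) (B (L (nat_lit 395) ln11_15_6 ln11_15_6_ok) (L (nat_lit 460) ln12_11_5 ln12_11_5_ok))))) (B (M (nat_lit 462) (B (M (nat_lit 463) (B (L (nat_lit 430) ln11_13_0 ln11_13_0_ok) (L (nat_lit 460) ln15_14_3 ln15_14_3_ok))) (B (M (nat_lit 463) (B (L (nat_lit 460) ln15_14_3 ln15_14_3_ok) (L (nat_lit 464) ln16_14_3 ln16_14_3_ok))) (B (M (nat_lit 463) (B (L (nat_lit 430) ln11_13_0 ln11_13_0_ok) (L (nat_lit 464) ln16_14_3 ln16_14_3_ok))) (M (nat_lit 395) (B (M (nat_lit 394) (B (L (nat_lit 362) ln11_15_7 ln11_15_7_ok) (L (nat_lit 430) ln14_13_3 ln14_13_3_ok))) (M (nat_lit 490) (B (L (nat_lit 522) ln11_12_5 ln11_12_5_ok) (L (nat_lit 460) ln14_14_1 ln14_14_1_ok))))))))) (M (nat_lit 396) (B (L (nat_lit 523) ln11_16_6 ln11_16_6_ok) (M (nat_lit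 364) (B (L (nat_lit 332) ln12_10_5 ln12_10_5_ok) (L (nat_lit 460) ln12_11_5 ln12_11_5_ok))))))))) (M (nat_lit 395) (B (M (nat_lit 430) (B (L (nat_lit 394) ln14_13_3 ln14_13_3_ok) (L (nat_lit 458) ln14_13_1 ln14_13_1_ok))) (B (M (nat_lit 458) (B (L (nat_lit 430) ln14_13_1 ln14_13_1_ok) (M (nat_lit 490) (B (L (nat_lit 363) ln11_11_5 ln11_11_5_ok) (M (nat_lit 522) (B (L (nat_lit 491) ln11_12_5 ln11_12_5_ok) (L (nat_lit 554) ln10_17_6 ln10_17_6_ok))))))) (B (M (nat_lit 491) (B (M (nat_lit 396) (B (L (nat_lit 364) ln11_15_6 ln11_15_6_ok) (L (nat_lit 523) ln11_16_6 ln11_16_6_ok))) (M (nat_lit 363) (B (M (nat_lit 362) (B (L (nat_lit 330) ln11_14_7 ln11_14_7_ok) (L (nat_lit 394) ln11_15_7 ln11_15_7_ok))) (M (nat_lit 490) (B (L (nat_lit 458) ln11_11_5 ln11_11_5_ok) (L (nat_lit 522) ln11_12_5 ln11_12_5_ok))))))) (M (nat_lit 394) (B (L (nat_lit 430) ln14_13_3 ln14_13_3_ok) (M (nat_lit 393) (B (L (nat_lit 392) ln8_12_0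 ln8_12_0_ok) (L (nat_lit 396) ln9_12_0 ln9_12_0_ok)))))))))))))
noncomputable def c20_n1079 : Cert := (M (nat_lit 427) (B (M (nat_lit 462) (B (L (nat_lit 426) ln10_13_0 ln10_13_0_ok) (M (nat_lit 463) (B (L (nat_lit 430) ln11_13_0 ln11_13_0_ok) (L (nat_lit 460) ln15_14_3 ln15_14_3_ok))))) (B c20_n1053 (B (M (nat_lit 462) (B (L (nat_lit 426) ln10_13_0 ln10_13_0_ok) (M (nat_lit 463) (B (L (nat_lit 460) ln15_14_3 ln15_14_3_ok) (L (nat_lit 464) ln16_14_3 ln16_14_3_ok))))) (B (M (nat_lit 462) (B (L (nat_lit 426) ln10_13_0 ln10_13_0_ok) (M (nat_lit 463) (B (L (nat_lit 430) ln11_13_0 ln11_13_0_ok) (L (nat_lit 464) ln16_14_3 ln16_14_3_ok))))) (M (nat_lit 426) (B (M (nat_lit 425) (B (L (nat_lit 460) ln9_13_0 ln9_13_0_ok) (M (nat_lit 457) (B (L (nat_lit 456) ln12_13_1 ln12_13_1_ok) (L (nat_lit 458) ln13_13_1 ln13_13_1_ok))))) (B (M (nat_lit 430) (B (M (nat_lit 394) (B (L (nat_lit 393) ln13_13_3 ln13_13_3_ok) (L (nat_lit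 395) ln14_13_3 ln14_13_3_ok))) (M (nat_lit 458) (B (L (nat_lit 457) ln13_13_1 ln13_13_1_ok) (L (nat_lit 459) ln14_13_1 ln14_13_1_ok))))) (M (nat_lit 425) (B (L (nat_lit 460) ln9_13_0 ln9_13_0_ok) (M (nat_lit 393) (B (L (nat_lit 392) ln12_13_3 ln12_13_3_ok) (L (nat_lit 394) ln13_13_3 ln13_13_3_ok)))))))))))))
theorem c20_s1080 : Sem (nat_lit 109836762562089755445664675616118237970751432866300626787807987225437419021876372833233991089115539321427710881230832060719788174042694436113401695113939255296) (nat_lit 7344723609634268930971056728472906697952053852266227169776577911274286572315900259996915541302219222195298439309111595464682671274493305755344410699726248632531108029558046064640) (nat_lit 7344723609634268930971056728472906697952053852266227169776577911274286572315900259996915541302219222195298439309111595464682671274493305755344410699726248632531108029558046064640) :=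
  sem_of_chk (M (nat_lit 428) (B (M (nat_lit 493) (B (L (nat_lit 396) ln13_16_7 ln13_16_7_ok) (M (nat_lit 557) (B (L (nat_lit 460) ln13_17_7 ln13_17_7_ok) (M (nat_lit 556) (B (L (nat_lit 524) ln13_13_5 ln13_13_5_ok) (L (nat_lit 588) ln13_14_5 ln13_14_5_ok))))))) (B (K (nat_lit 109836762562089755445664675616811405394281636581195230333843758151296528290720326977026610984269194648379117286990825662245823068567042238853752588071182794752) (nat_lit 2026130656297660867632444337505390499244912195865483910954888387959930430246047605788545159542411603433286226100368218897771619517373519430564380596268161180407963235503254274048) (nat_lit 2026130656297660867632444337505390499244912195865483910954888387959930430246047605788545159542411603433286226100368218897771619517373519430564380596268161180407963235503254274048) c20_s954) (B (M (nat_lit 493) (B (L (nat_lit 396) ln13_16_7 ln13_16_7_ok) (M (nat_lit 557) (B (M (nat_lit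 430) (B (L (nat_lit 398) ln13_16_6 ln13_16_6_ok) (L (nat_lit 462) ln13_17_6 ln13_17_6_ok))) (M (nat_lit 558) (B (L (nat_lit 526) ln13_13_4 ln13_13_4_ok) (L (nat_lit 590) ln13_14_4 ln13_14_4_ok))))))) c20_n1079)))) (nat_lit 109836762562089755445664675616118237970751432866300626787807987225437419021876372833233991089115539321427710881230832060719788174042694436113401695113939255296) (nat_lit 7344723609634268930971056728472906697952053852266227169776577911274286572315900259996915541302219222195298439309111595464682671274493305755344410699726248632531108029558046064640) (nat_lit 7344723609634268930971056728472906697952053852266227169776577911274286572315900259996915541302219222195298439309111595464682671274493305755344410699726248632531108029558046064640) (by decide +kernel)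
theorem c20_s1257 : Sem (nat_lit 164755143843134633165519882008769383708906915267447070062963694898921764489057621250214468214407175761246081372362678925016764078040427586613993921442859712512) (nat_lit 3744478344077832422143290921027707851477155472630768802007800341829293642703116155146622745943094816521576545866844539240264230048396769569345836639286983953898994139136) (nat_lit 3744478344077832422143290921027707851477155472630768802007800341829293642703116155146622745943094816521576545866844539240264230048396769569345836639286983953898994139136) :=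
  sem_of_chk (M (nat_lit 460) (B (M (nat_lit 492) (B (L (nat_lit 556) ln12_17_6 ln12_17_6_ok) (M (nat_lit 428) (B (L (nat_lit 557) ln12_13_4 ln12_13_4_ok) (M (nat_lit 427) (B (L (nat_lit 395) ln12_16_7 ln12_16_7_ok) (M (nat_lit 426) (B (L (nat_lit 425) ln9_13_0 ln9_13_0_ok) (L (nat_lit 462) ln10_13_0 ln10_13_0_ok))))))))) (B (M (nat_lit 492) (B (L (nat_lit 556) ln12_17_6 ln12_17_6_ok) (M (nat_lit 491) (B (M (nat_lit 490) (B (L (nat_lit 489) ln9_15_2 ln9_15_2_ok) (M (nat_lit 462) (B (L (nat_lit 459) ln14_14_1 ln14_14_1_ok) (L (nat_lit 463) ln15_14_1 ln15_14_1_ok))))) (M (nat_lit 428) (B (L (nat_lit 557) ln12_13_4 ln12_13_4_ok) (M (nat_lit 523) (B (L (nat_lit 396) ln12_12_5 ln12_12_5_ok) (L (nat_lit 555) ln12_13_5 ln12_13_5_ok))))))))) (B (M (nat_lit 526) (B (M (nat_lit 556) (B (L (nat_lit 492) ln12_17_6 ln12_17_6_ok) (M (nat_lit 555) (B (L (nat_lit 527) ln15_16_1 ln15_16_1_ok) (M (nat_lit 554) (B (L (nat_lit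 523) ln14_16_1 ln14_16_1_ok) (L (nat_lit 553) ln9_17_2 ln9_17_2_ok))))))) (B (M (nat_lit 523) (B (M (nat_lit 558) (B (L (nat_lit 559) ln11_16_0 ln11_16_0_ok) (M (nat_lit 494) (B (L (nat_lit 462) ln14_17_7 ln14_17_7_ok) (L (nat_lit 495) ln11_16_2 ln11_16_2_ok))))) (M (nat_lit 522) (B (M (nat_lit 490) (B (L (nat_lit 489) ln13_16_3 ln13_16_3_ok) (L (nat_lit 491) ln14_16_3 ln14_16_3_ok))) (M (nat_lit 554) (B (L (nat_lit 553) ln13_16_1 ln13_16_1_ok) (L (nat_lit 555) ln14_16_1 ln14_16_1_ok))))))) (B (M (nat_lit 556) (B (L (nat_lit 492) ln12_17_6 ln12_17_6_ok) (M (nat_lit 555) (B (L (nat_lit 527) ln15_16_1 ln15_16_1_ok) (M (nat_lit 554) (B (L (nat_lit 553) ln9_17_2 ln9_17_2_ok) (L (nat_lit 557) ln10_17_2 ln10_17_2_ok))))))) (B (M (nat_lit 556) (B (L (nat_lit 492) ln12_17_6 ln12_17_6_ok) (M (nat_lit 555) (B (L (nat_lit 527) ln15_16_1 ln15_16_1_ok) (M (nat_lit 554) (B (L (nat_lit 523) ln14_16_1 ln14_16_1_ok) (L (nat_lit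 557) ln10_17_2 ln10_17_2_ok))))))) (M (nat_lit 492) (B (L (nat_lit 556) ln12_17_6 ln12_17_6_ok) (M (nat_lit 491) (B (L (nat_lit 527) ln15_16_3 ln15_16_3_ok) (M (nat_lit 490) (B (L (nat_lit 489) ln9_15_2 ln9_15_2_ok) (L (nat_lit 523) ln14_16_3 ln14_16_3_ok)))))))))))) (B (M (nat_lit 492) (B (L (nat_lit 556) ln12_17_6 ln12_17_6_ok) (M (nat_lit 428) (B (L (nat_lit 557) ln12_13_4 ln12_13_4_ok) (M (nat_lit 396) (B (M (nat_lit 395) (B (L (nat_lit 363) ln12_15_7 ln12_15_7_ok) (L (nat_lit 427) ln12_16_7 ln12_16_7_ok))) (M (nat_lit 523) (B (L (nat_lit 491) ln12_12_5 ln12_12_5_ok) (L (nat_lit 555) ln12_13_5 ln12_13_5_ok))))))))) (B (M (nat_lit 459) (B (M (nat_lit 458) (B (L (nat_lit 430) ln10_14_2 ln10_14_2_ok) (M (nat_lit 457) (B (L (nat_lit 428) ln9_14_2 ln9_14_2_ok) (M (nat_lit 425) (B (L (nat_lit 424) ln12_14_3 ln12_14_3_ok) (L (nat_lit 426) ln13_14_3 ln13_14_3_ok))))))) (B (M (nat_lit 458) (B (L (nat_lit 430)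 ln10_14_2 ln10_14_2_ok) (M (nat_lit 457) (B (L (nat_lit 428) ln9_14_2 ln9_14_2_ok) (M (nat_lit 489) (B (L (nat_lit 488) ln12_14_1 ln12_14_1_ok) (L (nat_lit 490) ln13_14_1 ln13_14_1_ok))))))) (B (M (nat_lit 458) (B (L (nat_lit 430) ln10_14_2 ln10_14_2_ok) (M (nat_lit 457) (B (M (nat_lit 425) (B (L (nat_lit 424) ln12_14_3 ln12_14_3_ok) (L (nat_lit 426) ln13_14_3 ln13_14_3_ok))) (M (nat_lit 489) (B (L (nat_lit 488) ln12_14_1 ln12_14_1_ok) (L (nat_lit 490) ln13_14_1 ln13_14_1_ok))))))) (B (M (nat_lit 458) (B (M (nat_lit 457) (B (L (nat_lit 428) ln9_14_2 ln9_14_2_ok) (M (nat_lit 489) (B (L (nat_lit 488) ln12_14_1 ln12_14_1_ok) (L (nat_lit 490) ln13_14_1 ln13_14_1_ok))))) (B (M (nat_lit 462) (B (M (nat_lit 426) (B (L (nat_lit 425) ln13_14_3 ln13_14_3_ok) (L (nat_lit 427) ln14_14_3 ln14_14_3_ok))) (M (nat_lit 490) (B (L (nat_lit 489) ln13_14_1 ln13_14_1_ok) (L (nat_lit 491) ln14_14_1 ln14_14_1_ok))))) (M (nat_lit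 457) (B (L (nat_lit 428) ln9_14_2 ln9_14_2_ok) (M (nat_lit 425) (B (L (nat_lit 424) ln12_14_3 ln12_14_3_ok) (L (nat_lit 426) ln13_14_3 ln13_14_3_ok)))))))) (B (M (nat_lit 458) (B (L (nat_lit 430) ln10_14_2 ln10_14_2_ok) (M (nat_lit 462) (B (M (nat_lit 426) (B (L (nat_lit 425) ln13_14_3 ln13_14_3_ok) (L (nat_lit 427) ln14_14_3 ln14_14_3_ok))) (M (nat_lit 490) (B (L (nat_lit 489) ln13_14_1 ln13_14_1_ok) (L (nat_lit 491) ln14_14_1 ln14_14_1_ok))))))) (M (nat_lit 491) (B (M (nat_lit 490) (B (L (nat_lit 462) ln14_14_1 ln14_14_1_ok) (M (nat_lit 489) (B (L (nat_lit 488) ln8_15_2 ln8_15_2_ok) (M (nat_lit 523) (B (L (nat_lit 522) ln13_16_3 ln13_16_3_ok) (L (nat_lit 526) ln14_16_3 ln14_16_3_ok))))))) (B (M (nat_lit 523) (B (M (nat_lit 427) (B (L (nat_lit 556) ln11_13_4 ln11_13_4_ok) (M (nat_lit 428) (B (L (nat_lit 396) ln11_16_6 ln11_16_6_ok) (L (nat_lit 555) ln11_17_6 ln11_17_6_ok))))) (M (nat_lit 490) (B (L (nat_lit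 526) ln14_16_3 ln14_16_3_ok) (M (nat_lit 489) (B (L (nat_lit 488) ln8_15_2 ln8_15_2_ok) (L (nat_lit 522) ln13_16_3 ln13_16_3_ok))))))) (B (M (nat_lit 462) (B (L (nat_lit 490) ln14_14_1 ln14_14_1_ok) (M (nat_lit 463) (B (M (nat_lit 427) (B (L (nat_lit 426) ln14_14_3 ln14_14_3_ok) (L (nat_lit 428) ln15_14_3 ln15_14_3_ok))) (M (nat_lit 495) (B (L (nat_lit 494) ln11_14_0 ln11_14_0_ok) (L (nat_lit 496) ln12_14_0 ln12_14_0_ok))))))) (M (nat_lit 427) (B (M (nat_lit 523) (B (L (nat_lit 556) ln11_13_4 ln11_13_4_ok) (M (nat_lit 428) (B (L (nat_lit 396) ln11_16_6 ln11_16_6_ok) (L (nat_lit 555) ln11_17_6 ln11_17_6_ok))))) (B (M (nat_lit 426) (B (L (nat_lit 462) ln14_14_3 ln14_14_3_ok) (M (nat_lit 523) (B (L (nat_lit 394) ln11_16_7 ln11_16_7_ok) (L (nat_lit 556) ln11_13_4 ln11_13_4_ok))))) (M (nat_lit 426) (B (L (nat_lit 462) ln14_14_3 ln14_14_3_ok) (M (nat_lit 425) (B (L (nat_lit 424) ln8_13_0 ln8_13_0_ok) (L (nat_lit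 428) ln9_13_0 ln9_13_0_ok)))))))))))))))))) (M (nat_lit 428) (B (M (nat_lit 492) (B (L (nat_lit 557) ln12_13_4 ln12_13_4_ok) (M (nat_lit 427) (B (L (nat_lit 395) ln12_16_7 ln12_16_7_ok) (M (nat_lit 426) (B (L (nat_lit 425) ln9_13_0 ln9_13_0_ok) (L (nat_lit 462) ln10_13_0 ln10_13_0_ok))))))) (B (M (nat_lit 492) (B (L (nat_lit 557) ln12_13_4 ln12_13_4_ok) (M (nat_lit 523) (B (L (nat_lit 555) ln12_13_5 ln12_13_5_ok) (M (nat_lit 491) (B (L (nat_lit 396) ln12_12_5 ln12_12_5_ok) (M (nat_lit 490) (B (L (nat_lit 489) ln9_15_2 ln9_15_2_ok) (L (nat_lit 526) ln14_16_3 ln14_16_3_ok))))))))) (M (nat_lit 459) (B (M (nat_lit 458) (B (L (nat_lit 457) ln9_14_2 ln9_14_2_ok) (L (nat_lit 430) ln10_14_2 ln10_14_2_ok))) (M (nat_lit 491) (B (M (nat_lit 490) (B (L (nat_lit 462) ln14_14_1 ln14_14_1_ok) (M (nat_lit 523) (B (L (nat_lit 555) ln11_17_6 ln11_17_6_ok) (L (nat_lit 526) ln14_16_3 ln14_16_3_ok))))) (B (M (nat_lit 523) (B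 (L (nat_lit 555) ln11_17_6 ln11_17_6_ok) (M (nat_lit 396) (B (L (nat_lit 364) ln12_11_5 ln12_11_5_ok) (L (nat_lit 427) ln11_16_6 ln11_16_6_ok))))) (M (nat_lit 462) (B (L (nat_lit 490) ln14_14_1 ln14_14_1_ok) (M (nat_lit 427) (B (L (nat_lit 426) ln10_13_0 ln10_13_0_ok) (L (nat_lit 463) ln15_14_3 ln15_14_3_ok))))))))))))))))))) (nat_lit 164755143843134633165519882008769383708906915267447070062963694898921764489057621250214468214407175761246081372362678925016764078040427586613993921442859712512) (nat_lit 3744478344077832422143290921027707851477155472630768802007800341829293642703116155146622745943094816521576545866844539240264230048396769569345836639286983953898994139136) (nat_lit 3744478344077832422143290921027707851477155472630768802007800341829293642703116155146622745943094816521576545866844539240264230048396769569345836639286983953898994139136) (by decide +kernel)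
noncomputable def c20_n1318 : Cert := (M (nat_lit 526) (B (M (nat_lit 523) (B (M (nat_lit 558) (B (L (nat_lit 559) ln11_16_0 ln11_16_0_ok) (M (nat_lit 494) (B (L (nat_lit 462) ln14_17_7 ln14_17_7_ok) (L (nat_lit 495) ln11_16_2 ln11_16_2_ok))))) (M (nat_lit 527) (B (M (nat_lit 491) (B (L (nat_lit 490) ln14_16_3 ln14_16_3_ok) (L (nat_lit 492) ln15_16_3 ln15_16_3_ok))) (M (nat_lit 555) (B (L (nat_lit 554) ln14_16_1 ln14_16_1_ok) (L (nat_lit 556) ln15_16_1 ln15_16_1_ok))))))) (B (M (nat_lit 527) (B (M (nat_lit 556) (B (L (nat_lit 555) ln15_16_1 ln15_16_1_ok) (M (nat_lit 492) (B (L (nat_lit 460) ln12_17_6 ln12_17_6_ok) (L (nat_lit 491) ln15_16_3 ln15_16_3_ok))))) (B (M (nat_lit 523) (B (M (nat_lit 495) (B (L (nat_lit 494) ln11_16_2 ln11_16_2_ok) (L (nat_lit 496) ln12_16_2 ln12_16_2_ok))) (M (nat_lit 555) (B (L (nat_lit 554) ln14_16_1 ln14_16_1_ok) (L (nat_lit 556) ln15_16_1 ln15_16_1_ok))))) (M (nat_lit 523)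 (B (M (nat_lit 491) (B (L (nat_lit 490) ln14_16_3 ln14_16_3_ok) (L (nat_lit 492) ln15_16_3 ln15_16_3_ok))) (M (nat_lit 495) (B (L (nat_lit 494) ln11_16_2 ln11_16_2_ok) (L (nat_lit 496) ln12_16_2 ln12_16_2_ok)))))))) (B (M (nat_lit 527) (B (M (nat_lit 556) (B (L (nat_lit 555) ln15_16_1 ln15_16_1_ok) (M (nat_lit 492) (B (L (nat_lit 460) ln12_17_6 ln12_17_6_ok) (L (nat_lit 491) ln15_16_3 ln15_16_3_ok))))) (M (nat_lit 523) (B (M (nat_lit 495) (B (L (nat_lit 494) ln11_16_2 ln11_16_2_ok) (L (nat_lit 496) ln12_16_2 ln12_16_2_ok))) (M (nat_lit 559) (B (L (nat_lit 558) ln11_16_0 ln11_16_0_ok) (L (nat_lit 560) ln12_16_0 ln12_16_0_ok))))))) (B (M (nat_lit 523) (B (M (nat_lit 558) (B (L (nat_lit 559) ln11_16_0 ln11_16_0_ok) (M (nat_lit 494) (B (L (nat_lit 462) ln14_17_7 ln14_17_7_ok) (L (nat_lit 495) ln11_16_2 ln11_16_2_ok))))) (B (M (nat_lit 522) (B (M (nat_lit 554) (B (L (nat_lit 553) ln13_16_1 ln13_16_1_ok) (L (nat_lit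 555) ln14_16_1 ln14_16_1_ok))) (M (nat_lit 558) (B (L (nat_lit 557) ln10_16_0 ln10_16_0_ok) (L (nat_lit 559) ln11_16_0 ln11_16_0_ok))))) (M (nat_lit 527) (B (M (nat_lit 495) (B (L (nat_lit 494) ln11_16_2 ln11_16_2_ok) (L (nat_lit 496) ln12_16_2 ln12_16_2_ok))) (M (nat_lit 555) (B (L (nat_lit 554) ln14_16_1 ln14_16_1_ok) (L (nat_lit 556) ln15_16_1 ln15_16_1_ok)))))))) (B (M (nat_lit 527) (B (M (nat_lit 556) (B (L (nat_lit 555) ln15_16_1 ln15_16_1_ok) (M (nat_lit 492) (B (L (nat_lit 460) ln12_17_6 ln12_17_6_ok) (L (nat_lit 491) ln15_16_3 ln15_16_3_ok))))) (M (nat_lit 528) (B (M (nat_lit 496) (B (L (nat_lit 495) ln12_16_2 ln12_16_2_ok) (L (nat_lit 497) ln13_16_2 ln13_16_2_ok))) (M (nat_lit 560) (B (L (nat_lit 559) ln12_16_0 ln12_16_0_ok) (L (nat_lit 561) ln13_16_0 ln13_16_0_ok))))))) (B (M (nat_lit 527) (B (M (nat_lit 556) (B (L (nat_lit 555) ln15_16_1 ln15_16_1_ok) (M (nat_lit 492) (B (L (nat_lit 460) ln12_17_6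 ln12_17_6_ok) (L (nat_lit 491) ln15_16_3 ln15_16_3_ok))))) (B (M (nat_lit 528) (B (M (nat_lit 556) (B (L (nat_lit 555) ln15_16_1 ln15_16_1_ok) (L (nat_lit 557) ln16_16_1 ln16_16_1_ok))) (M (nat_lit 560) (B (L (nat_lit 559) ln12_16_0 ln12_16_0_ok) (L (nat_lit 561) ln13_16_0 ln13_16_0_ok))))) (M (nat_lit 523) (B (M (nat_lit 491) (B (L (nat_lit 490) ln14_16_3 ln14_16_3_ok) (L (nat_lit 492) ln15_16_3 ln15_16_3_ok))) (M (nat_lit 559) (B (L (nat_lit 558) ln11_16_0 ln11_16_0_ok) (L (nat_lit 560) ln12_16_0 ln12_16_0_ok)))))))) (B (M (nat_lit 523) (B (M (nat_lit 558) (B (L (nat_lit 559) ln11_16_0 ln11_16_0_ok) (M (nat_lit 494) (B (L (nat_lit 462) ln14_17_7 ln14_17_7_ok) (L (nat_lit 495) ln11_16_2 ln11_16_2_ok))))) (M (nat_lit 522) (B (M (nat_lit 490) (B (L (nat_lit 489) ln13_16_3 ln13_16_3_ok) (L (nat_lit 491) ln14_16_3 ln14_16_3_ok))) (M (nat_lit 554) (B (L (nat_lit 553) ln13_16_1 ln13_16_1_ok) (L (nat_lit 555)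 ln14_16_1 ln14_16_1_ok))))))) (M (nat_lit 523) (B (M (nat_lit 558) (B (L (nat_lit 559) ln11_16_0 ln11_16_0_ok) (M (nat_lit 494) (B (L (nat_lit 462) ln14_17_7 ln14_17_7_ok) (L (nat_lit 495) ln11_16_2 ln11_16_2_ok))))) (B (M (nat_lit 522) (B (M (nat_lit 490) (B (L (nat_lit 489) ln13_16_3 ln13_16_3_ok) (L (nat_lit 491) ln14_16_3 ln14_16_3_ok))) (M (nat_lit 558) (B (L (nat_lit 557) ln10_16_0 ln10_16_0_ok) (L (nat_lit 559) ln11_16_0 ln11_16_0_ok))))) (M (nat_lit 527) (B (M (nat_lit 491) (B (L (nat_lit 490) ln14_16_3 ln14_16_3_ok) (L (nat_lit 492) ln15_16_3 ln15_16_3_ok))) (M (nat_lit 495) (B (L (nat_lit 494) ln11_16_2 ln11_16_2_ok) (L (nat_lit 496) ln12_16_2 ln12_16_2_ok))))))))))))))))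
theorem c20_s1372 : Sem (nat_lit 164755143843134633165519882008769383708906915267447070062963694898921764489057621250214468214407175761246081372362678925016764078040427586613993921442859712512) (nat_lit 8104522610537054991515697188544846488981570694831978722575291764981302480563470901314452012403309950102635253398068122719722571258637928561906631304554338898440896300587683938304) (nat_lit 8104522610537054991515697188544846488981570694831978722575291764981302480563470901314452012403309950102635253398068122719722571258637928561906631304554338898440896300587683938304) :=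
  sem_of_chk (M (nat_lit 526) (B (M (nat_lit 523) (B (M (nat_lit 558) (B (L (nat_lit 559) ln11_16_0 ln11_16_0_ok) (M (nat_lit 494) (B (L (nat_lit 462) ln14_17_7 ln14_17_7_ok) (L (nat_lit 495) ln11_16_2 ln11_16_2_ok))))) (M (nat_lit 527) (B (M (nat_lit 491) (B (L (nat_lit 490) ln14_16_3 ln14_16_3_ok) (L (nat_lit 492) ln15_16_3 ln15_16_3_ok))) (M (nat_lit 555) (B (L (nat_lit 554) ln14_16_1 ln14_16_1_ok) (L (nat_lit 556) ln15_16_1 ln15_16_1_ok))))))) (B (M (nat_lit 523) (B (M (nat_lit 527) (B (M (nat_lit 495) (B (L (nat_lit 494) ln11_16_2 ln11_16_2_ok) (L (nat_lit 496) ln12_16_2 ln12_16_2_ok))) (M (nat_lit 559) (B (L (nat_lit 558) ln11_16_0 ln11_16_0_ok) (L (nat_lit 560) ln12_16_0 ln12_16_0_ok))))) (B (M (nat_lit 527) (B (M (nat_lit 491) (B (L (nat_lit 490) ln14_16_3 ln14_16_3_ok) (L (nat_lit 492) ln15_16_3 ln15_16_3_ok))) (M (nat_lit 559) (B (L (nat_lit 558) ln11_16_0 ln11_16_0_ok) (L (nat_lit 560) ln12_16_0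 ln12_16_0_ok))))) (M (nat_lit 522) (B (M (nat_lit 490) (B (L (nat_lit 489) ln13_16_3 ln13_16_3_ok) (L (nat_lit 491) ln14_16_3 ln14_16_3_ok))) (M (nat_lit 554) (B (L (nat_lit 553) ln13_16_1 ln13_16_1_ok) (L (nat_lit 555) ln14_16_1 ln14_16_1_ok)))))))) (B (M (nat_lit 523) (B (M (nat_lit 558) (B (L (nat_lit 559) ln11_16_0 ln11_16_0_ok) (M (nat_lit 494) (B (L (nat_lit 462) ln14_17_7 ln14_17_7_ok) (L (nat_lit 495) ln11_16_2 ln11_16_2_ok))))) (B (M (nat_lit 527) (B (M (nat_lit 555) (B (L (nat_lit 554) ln14_16_1 ln14_16_1_ok) (L (nat_lit 556) ln15_16_1 ln15_16_1_ok))) (M (nat_lit 559) (B (L (nat_lit 558) ln11_16_0 ln11_16_0_ok) (L (nat_lit 560) ln12_16_0 ln12_16_0_ok))))) (M (nat_lit 527) (B (M (nat_lit 495) (B (L (nat_lit 494) ln11_16_2 ln11_16_2_ok) (L (nat_lit 496) ln12_16_2 ln12_16_2_ok))) (M (nat_lit 555) (B (L (nat_lit 554) ln14_16_1 ln14_16_1_ok) (L (nat_lit 556) ln15_16_1 ln15_16_1_ok)))))))) (B (M (nat_lit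 527) (B (M (nat_lit 528) (B (M (nat_lit 496) (B (L (nat_lit 495) ln12_16_2 ln12_16_2_ok) (L (nat_lit 497) ln13_16_2 ln13_16_2_ok))) (M (nat_lit 560) (B (L (nat_lit 559) ln12_16_0 ln12_16_0_ok) (L (nat_lit 561) ln13_16_0 ln13_16_0_ok))))) (M (nat_lit 523) (B (M (nat_lit 491) (B (L (nat_lit 490) ln14_16_3 ln14_16_3_ok) (L (nat_lit 492) ln15_16_3 ln15_16_3_ok))) (M (nat_lit 555) (B (L (nat_lit 554) ln14_16_1 ln14_16_1_ok) (L (nat_lit 556) ln15_16_1 ln15_16_1_ok))))))) (B (M (nat_lit 523) (B (M (nat_lit 527) (B (M (nat_lit 555) (B (L (nat_lit 554) ln14_16_1 ln14_16_1_ok) (L (nat_lit 556) ln15_16_1 ln15_16_1_ok))) (M (nat_lit 559) (B (L (nat_lit 558) ln11_16_0 ln11_16_0_ok) (L (nat_lit 560) ln12_16_0 ln12_16_0_ok))))) (B (M (nat_lit 522) (B (M (nat_lit 490) (B (L (nat_lit 489) ln13_16_3 ln13_16_3_ok) (L (nat_lit 491) ln14_16_3 ln14_16_3_ok))) (M (nat_lit 554) (B (L (nat_lit 553) ln13_16_1 ln13_16_1_ok) (L (nat_lit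 555) ln14_16_1 ln14_16_1_ok))))) (M (nat_lit 527) (B (M (nat_lit 491) (B (L (nat_lit 490) ln14_16_3 ln14_16_3_ok) (L (nat_lit 492) ln15_16_3 ln15_16_3_ok))) (M (nat_lit 559) (B (L (nat_lit 558) ln11_16_0 ln11_16_0_ok) (L (nat_lit 560) ln12_16_0 ln12_16_0_ok)))))))) (B (M (nat_lit 527) (B (M (nat_lit 556) (B (L (nat_lit 555) ln15_16_1 ln15_16_1_ok) (M (nat_lit 528) (B (L (nat_lit 557) ln16_16_1 ln16_16_1_ok) (M (nat_lit 496) (B (L (nat_lit 495) ln12_16_2 ln12_16_2_ok) (L (nat_lit 497) ln13_16_2 ln13_16_2_ok))))))) (B (M (nat_lit 528) (B (M (nat_lit 556) (B (L (nat_lit 555) ln15_16_1 ln15_16_1_ok) (L (nat_lit 557) ln16_16_1 ln16_16_1_ok))) (M (nat_lit 560) (B (L (nat_lit 559) ln12_16_0 ln12_16_0_ok) (L (nat_lit 561) ln13_16_0 ln13_16_0_ok))))) (B (M (nat_lit 462) (B (M (nat_lit 494) (B (L (nat_lit 558) ln14_17_7 ln14_17_7_ok) (M (nat_lit 430) (B (L (nat_lit 557) ln14_13_5 ln14_13_5_ok) (L (nat_lit 559) ln14_13_4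 ln14_13_4_ok))))) (B (M (nat_lit 494) (B (L (nat_lit 558) ln14_17_7 ln14_17_7_ok) (M (nat_lit 559) (B (L (nat_lit 560) ln12_16_0 ln12_16_0_ok) (M (nat_lit 495) (B (L (nat_lit 591) ln15_18_7 ln15_18_7_ok) (L (nat_lit 496) ln12_16_2 ln12_16_2_ok))))))) (B (M (nat_lit 463) (B (M (nat_lit 428) (B (L (nat_lit 464) ln16_14_3 ln16_14_3_ok) (M (nat_lit 427) (B (L (nat_lit 426) ln10_13_0 ln10_13_0_ok) (L (nat_lit 430) ln11_13_0 ln11_13_0_ok))))) (B (M (nat_lit 464) (B (L (nat_lit 428) ln16_14_3 ln16_14_3_ok) (M (nat_lit 496) (B (L (nat_lit 497) ln13_14_0 ln13_14_0_ok) (L (nat_lit 495) ln12_16_2 ln12_16_2_ok))))) (M (nat_lit 495) (B (L (nat_lit 496) ln12_16_2 ln12_16_2_ok) (M (nat_lit 559) (B (L (nat_lit 430) ln15_17_7 ln15_17_7_ok) (L (nat_lit 560) ln12_16_0 ln12_16_0_ok)))))))) (M (nat_lit 494) (B (L (nat_lit 558) ln14_17_7 ln14_17_7_ok) (M (nat_lit 495) (B (L (nat_lit 496) ln12_16_2 ln12_16_2_ok) (M (nat_lit 430)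 (B (L (nat_lit 398) ln14_12_4 ln14_12_4_ok) (L (nat_lit 557) ln14_13_5 ln14_13_5_ok))))))))))) (M (nat_lit 528) (B (M (nat_lit 496) (B (L (nat_lit 495) ln12_16_2 ln12_16_2_ok) (L (nat_lit 497) ln13_16_2 ln13_16_2_ok))) (M (nat_lit 560) (B (L (nat_lit 559) ln12_16_0 ln12_16_0_ok) (L (nat_lit 561) ln13_16_0 ln13_16_0_ok))))))))) (B (M (nat_lit 523) (B (M (nat_lit 558) (B (L (nat_lit 559) ln11_16_0 ln11_16_0_ok) (M (nat_lit 494) (B (L (nat_lit 462) ln14_17_7 ln14_17_7_ok) (L (nat_lit 495) ln11_16_2 ln11_16_2_ok))))) (M (nat_lit 522) (B (M (nat_lit 490) (B (L (nat_lit 489) ln13_16_3 ln13_16_3_ok) (L (nat_lit 491) ln14_16_3 ln14_16_3_ok))) (M (nat_lit 554) (B (L (nat_lit 553) ln13_16_1 ln13_16_1_ok) (L (nat_lit 555) ln14_16_1 ln14_16_1_ok))))))) (B (M (nat_lit 523) (B (M (nat_lit 558) (B (L (nat_lit 559) ln11_16_0 ln11_16_0_ok) (M (nat_lit 494) (B (L (nat_lit 462) ln14_17_7 ln14_17_7_ok) (L (nat_lit 495) ln11_16_2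 ln11_16_2_ok))))) (B (M (nat_lit 522) (B (M (nat_lit 490) (B (L (nat_lit 489) ln13_16_3 ln13_16_3_ok) (L (nat_lit 491) ln14_16_3 ln14_16_3_ok))) (M (nat_lit 558) (B (L (nat_lit 557) ln10_16_0 ln10_16_0_ok) (L (nat_lit 559) ln11_16_0 ln11_16_0_ok))))) (M (nat_lit 527) (B (M (nat_lit 491) (B (L (nat_lit 490) ln14_16_3 ln14_16_3_ok) (L (nat_lit 492) ln15_16_3 ln15_16_3_ok))) (M (nat_lit 495) (B (L (nat_lit 494) ln11_16_2 ln11_16_2_ok) (L (nat_lit 496) ln12_16_2 ln12_16_2_ok)))))))) (M (nat_lit 527) (B (M (nat_lit 523) (B (M (nat_lit 491) (B (L (nat_lit 490) ln14_16_3 ln14_16_3_ok) (L (nat_lit 492) ln15_16_3 ln15_16_3_ok))) (M (nat_lit 555) (B (L (nat_lit 554) ln14_16_1 ln14_16_1_ok) (L (nat_lit 556) ln15_16_1 ln15_16_1_ok))))) (B (M (nat_lit 523) (B (M (nat_lit 495) (B (L (nat_lit 494) ln11_16_2 ln11_16_2_ok) (L (nat_lit 496) ln12_16_2 ln12_16_2_ok))) (M (nat_lit 555) (B (L (nat_lit 554) ln14_16_1 ln14_16_1_ok)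 (L (nat_lit 556) ln15_16_1 ln15_16_1_ok))))) (B (M (nat_lit 556) (B (L (nat_lit 555) ln15_16_1 ln15_16_1_ok) (M (nat_lit 528) (B (L (nat_lit 557) ln16_16_1 ln16_16_1_ok) (M (nat_lit 496) (B (L (nat_lit 495) ln12_16_2 ln12_16_2_ok) (L (nat_lit 497) ln13_16_2 ln13_16_2_ok))))))) (M (nat_lit 523) (B (M (nat_lit 491) (B (L (nat_lit 490) ln14_16_3 ln14_16_3_ok) (L (nat_lit 492) ln15_16_3 ln15_16_3_ok))) (M (nat_lit 495) (B (L (nat_lit 494) ln11_16_2 ln11_16_2_ok) (L (nat_lit 496) ln12_16_2 ln12_16_2_ok)))))))))))))))))) (nat_lit 164755143843134633165519882008769383708906915267447070062963694898921764489057621250214468214407175761246081372362678925016764078040427586613993921442859712512) (nat_lit 8104522610537054991515697188544846488981570694831978722575291764981302480563470901314452012403309950102635253398068122719722571258637928561906631304554338898440896300587683938304) (nat_lit 8104522610537054991515697188544846488981570694831978722575291764981302480563470901314452012403309950102635253398068122719722571258637928561906631304554338898440896300587683938304)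 (by decide +kernel)
theorem c20_s1541 : Sem (nat_lit 164755143843134633165519882008769383708906915267447070062963694898921764489057621250214468214407175761246081372362678925016764078040427586613993921442859712512) (nat_lit 2175541220097076026642527936991989452894058892592402669239947162828181334165168616465924442969047345013166265421048380627005260242489841798477317738993526824271084843172566151366275235840) (nat_lit 2175541220097076026642527936991989452894058892592402669239947162828181334165168616465924442969047345013166265421048380627005260242489841798477317738993526824271084843172566151366275235840) :=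
  sem_of_chk (M (nat_lit 523) (B (M (nat_lit 526) (B (M (nat_lit 522) (B (M (nat_lit 554) (B (L (nat_lit 553) ln13_16_1 ln13_16_1_ok) (L (nat_lit 555) ln14_16_1 ln14_16_1_ok))) (M (nat_lit 558) (B (L (nat_lit 557) ln10_16_0 ln10_16_0_ok) (L (nat_lit 559) ln11_16_0 ln11_16_0_ok))))) (B (M (nat_lit 527) (B (M (nat_lit 491) (B (L (nat_lit 490) ln14_16_3 ln14_16_3_ok) (L (nat_lit 492) ln15_16_3 ln15_16_3_ok))) (M (nat_lit 555) (B (L (nat_lit 554) ln14_16_1 ln14_16_1_ok) (L (nat_lit 556) ln15_16_1 ln15_16_1_ok))))) (M (nat_lit 522) (B (M (nat_lit 490) (B (L (nat_lit 489) ln13_16_3 ln13_16_3_ok) (L (nat_lit 491) ln14_16_3 ln14_16_3_ok))) (M (nat_lit 558) (B (L (nat_lit 557) ln10_16_0 ln10_16_0_ok) (L (nat_lit 559) ln11_16_0 ln11_16_0_ok)))))))) (B (M (nat_lit 526) (B (M (nat_lit 522) (B (M (nat_lit 554) (B (L (nat_lit 553) ln13_16_1 ln13_16_1_ok) (L (nat_lit 555) ln14_16_1 ln14_16_1_ok))) (M (nat_lit 558) (B (L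 (nat_lit 557) ln10_16_0 ln10_16_0_ok) (L (nat_lit 559) ln11_16_0 ln11_16_0_ok))))) (B (M (nat_lit 527) (B (M (nat_lit 491) (B (L (nat_lit 490) ln14_16_3 ln14_16_3_ok) (L (nat_lit 492) ln15_16_3 ln15_16_3_ok))) (M (nat_lit 555) (B (L (nat_lit 554) ln14_16_1 ln14_16_1_ok) (L (nat_lit 556) ln15_16_1 ln15_16_1_ok))))) (B (M (nat_lit 492) (B (M (nat_lit 491) (B (L (nat_lit 490) ln14_16_3 ln14_16_3_ok) (L (nat_lit 527) ln15_16_3 ln15_16_3_ok))) (M (nat_lit 460) (B (L (nat_lit 556) ln12_17_6 ln12_17_6_ok) (M (nat_lit 428) (B (L (nat_lit 555) ln12_13_5 ln12_13_5_ok) (L (nat_lit 557) ln12_13_4 ln12_13_4_ok))))))) (M (nat_lit 492) (B (M (nat_lit 491) (B (L (nat_lit 490) ln14_16_3 ln14_16_3_ok) (L (nat_lit 527) ln15_16_3 ln15_16_3_ok))) (M (nat_lit 557) (B (M (nat_lit 460) (B (L (nat_lit 428) ln12_13_4 ln12_13_4_ok) (L (nat_lit 556) ln12_17_6 ln12_17_6_ok))) (M (nat_lit 558) (B (L (nat_lit 522) ln10_16_0 ln10_16_0_ok)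 (L (nat_lit 559) ln11_16_0 ln11_16_0_ok))))))))))) (B (M (nat_lit 526) (B (M (nat_lit 522) (B (M (nat_lit 554) (B (L (nat_lit 553) ln13_16_1 ln13_16_1_ok) (L (nat_lit 555) ln14_16_1 ln14_16_1_ok))) (M (nat_lit 558) (B (L (nat_lit 557) ln10_16_0 ln10_16_0_ok) (L (nat_lit 559) ln11_16_0 ln11_16_0_ok))))) (B (M (nat_lit 527) (B (M (nat_lit 495) (B (L (nat_lit 494) ln11_16_2 ln11_16_2_ok) (L (nat_lit 496) ln12_16_2 ln12_16_2_ok))) (M (nat_lit 555) (B (L (nat_lit 554) ln14_16_1 ln14_16_1_ok) (L (nat_lit 556) ln15_16_1 ln15_16_1_ok))))) (M (nat_lit 492) (B (M (nat_lit 495) (B (L (nat_lit 494) ln11_16_2 ln11_16_2_ok) (M (nat_lit 527) (B (L (nat_lit 491) ln15_16_3 ln15_16_3_ok) (L (nat_lit 496) ln12_16_2 ln12_16_2_ok))))) (M (nat_lit 557) (B (M (nat_lit 460) (B (L (nat_lit 428) ln12_13_4 ln12_13_4_ok) (L (nat_lit 556) ln12_17_6 ln12_17_6_ok))) (M (nat_lit 558) (B (L (nat_lit 522) ln10_16_0 ln10_16_0_ok) (L (nat_lit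 559) ln11_16_0 ln11_16_0_ok)))))))))) (B (M (nat_lit 522) (B (M (nat_lit 521) (B (M (nat_lit 489) (B (L (nat_lit 488) ln12_16_3 ln12_16_3_ok) (L (nat_lit 490) ln13_16_3 ln13_16_3_ok))) (M (nat_lit 557) (B (L (nat_lit 556) ln9_16_0 ln9_16_0_ok) (L (nat_lit 558) ln10_16_0 ln10_16_0_ok))))) (B (M (nat_lit 521) (B (M (nat_lit 553) (B (L (nat_lit 552) ln12_16_1 ln12_16_1_ok) (L (nat_lit 554) ln13_16_1 ln13_16_1_ok))) (M (nat_lit 557) (B (L (nat_lit 556) ln9_16_0 ln9_16_0_ok) (L (nat_lit 558) ln10_16_0 ln10_16_0_ok))))) (B (M (nat_lit 526) (B (M (nat_lit 554) (B (L (nat_lit 553) ln13_16_1 ln13_16_1_ok) (L (nat_lit 555) ln14_16_1 ln14_16_1_ok))) (M (nat_lit 558) (B (L (nat_lit 557) ln10_16_0 ln10_16_0_ok) (L (nat_lit 559) ln11_16_0 ln11_16_0_ok))))) (M (nat_lit 521) (B (M (nat_lit 489) (B (L (nat_lit 488) ln12_16_3 ln12_16_3_ok) (L (nat_lit 490) ln13_16_3 ln13_16_3_ok))) (M (nat_lit 553) (B (L (nat_lit 552) ln12_16_1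 ln12_16_1_ok) (L (nat_lit 554) ln13_16_1 ln13_16_1_ok))))))))) (B (M (nat_lit 555) (B (M (nat_lit 554) (B (L (nat_lit 526) ln14_16_1 ln14_16_1_ok) (M (nat_lit 553) (B (L (nat_lit 552) ln8_17_2 ln8_17_2_ok) (L (nat_lit 556) ln9_17_2 ln9_17_2_ok))))) (B (M (nat_lit 491) (B (M (nat_lit 492) (B (M (nat_lit 460) (B (L (nat_lit 428) ln12_13_5 ln12_13_5_ok) (L (nat_lit 556) ln12_17_6 ln12_17_6_ok))) (B (M (nat_lit 460) (B (L (nat_lit 556) ln12_17_6 ln12_17_6_ok) (L (nat_lit 587) ln11_18_6 ln11_18_6_ok))) (M (nat_lit 490) (B (L (nat_lit 489) ln9_15_0 ln9_15_0_ok) (M (nat_lit 587) (B (L (nat_lit 458) ln11_18_7 ln11_18_7_ok) (L (nat_lit 619) ln11_19_6 ln11_19_6_ok)))))))) (B (M (nat_lit 492) (B (M (nat_lit 460) (B (L (nat_lit 556) ln12_17_6 ln12_17_6_ok) (L (nat_lit 587) ln11_18_6 ln11_18_6_ok))) (B (M (nat_lit 490) (B (L (nat_lit 489) ln9_15_0 ln9_15_0_ok) (M (nat_lit 587) (B (L (nat_lit 458) ln11_18_7 ln11_18_7_ok)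 (L (nat_lit 619) ln11_19_6 ln11_19_6_ok))))) (M (nat_lit 556) (B (L (nat_lit 460) ln12_17_6 ln12_17_6_ok) (M (nat_lit 459) (B (L (nat_lit 427) ln11_13_4 ln11_13_4_ok) (L (nat_lit 588) ln12_18_7 ln12_18_7_ok)))))))) (B (M (nat_lit 460) (B (M (nat_lit 428) (B (L (nat_lit 459) ln11_17_6 ln11_17_6_ok) (L (nat_lit 492) ln12_13_5 ln12_13_5_ok))) (B (M (nat_lit 492) (B (L (nat_lit 556) ln12_17_6 ln12_17_6_ok) (L (nat_lit 587) ln11_18_6 ln11_18_6_ok))) (M (nat_lit 459) (B (L (nat_lit 428) ln11_17_6 ln11_17_6_ok) (M (nat_lit 556) (B (L (nat_lit 427) ln11_13_4 ln11_13_4_ok) (L (nat_lit 588) ln11_14_4 ln11_14_4_ok)))))))) (B (M (nat_lit 459) (B (M (nat_lit 556) (B (L (nat_lit 427) ln11_13_4 ln11_13_4_ok) (L (nat_lit 588) ln11_14_4 ln11_14_4_ok))) (M (nat_lit 490) (B (M (nat_lit 458) (B (L (nat_lit 426) ln11_17_7 ln11_17_7_ok) (L (nat_lit 587) ln11_18_7 ln11_18_7_ok))) (M (nat_lit 489) (B (L (nat_lit 488) ln8_15_0 ln8_15_0_ok)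 (L (nat_lit 492) ln9_15_0 ln9_15_0_ok))))))) (B (M (nat_lit 459) (B (M (nat_lit 556) (B (L (nat_lit 427) ln11_13_4 ln11_13_4_ok) (L (nat_lit 588) ln11_14_4 ln11_14_4_ok))) (M (nat_lit 460) (B (L (nat_lit 428) ln11_17_6 ln11_17_6_ok) (M (nat_lit 458) (B (L (nat_lit 426) ln11_17_7 ln11_17_7_ok) (L (nat_lit 430) ln10_14_2 ln10_14_2_ok))))))) (M (nat_lit 460) (B (M (nat_lit 428) (B (L (nat_lit 459) ln11_17_6 ln11_17_6_ok) (L (nat_lit 492) ln12_13_5 ln12_13_5_ok))) (B (M (nat_lit 458) (B (M (nat_lit 459) (B (L (nat_lit 426) ln11_17_7 ln11_17_7_ok) (L (nat_lit 430) ln10_14_2 ln10_14_2_ok))) (M (nat_lit 587) (B (L (nat_lit 490) ln11_18_7 ln11_18_7_ok) (L (nat_lit 492) ln11_18_6 ln11_18_6_ok))))) (B (M (nat_lit 492) (B (L (nat_lit 428) ln12_13_5 ln12_13_5_ok) (L (nat_lit 587) ln11_18_6 ln11_18_6_ok))) (M (nat_lit 459) (B (L (nat_lit 428) ln11_17_6 ln11_17_6_ok) (M (nat_lit 458) (B (L (nat_lit 426) ln11_17_7 ln11_17_7_ok)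 (L (nat_lit 430) ln10_14_2 ln10_14_2_ok))))))))))))))) (M (nat_lit 526) (B (L (nat_lit 554) ln14_16_1 ln14_16_1_ok) (M (nat_lit 527) (B (M (nat_lit 491) (B (L (nat_lit 490) ln14_16_3 ln14_16_3_ok) (L (nat_lit 492) ln15_16_3 ln15_16_3_ok))) (M (nat_lit 495) (B (L (nat_lit 494) ln11_16_2 ln11_16_2_ok) (L (nat_lit 496) ln12_16_2 ln12_16_2_ok)))))))))) (B (M (nat_lit 522) (B (M (nat_lit 521) (B (M (nat_lit 553) (B (L (nat_lit 552) ln12_16_1 ln12_16_1_ok) (L (nat_lit 554) ln13_16_1 ln13_16_1_ok))) (M (nat_lit 557) (B (L (nat_lit 556) ln9_16_0 ln9_16_0_ok) (L (nat_lit 558) ln10_16_0 ln10_16_0_ok))))) (B (M (nat_lit 490) (B (L (nat_lit 489) ln13_16_3 ln13_16_3_ok) (M (nat_lit 458) (B (M (nat_lit 555) (B (L (nat_lit 426) ln10_13_4 ln10_13_4_ok) (M (nat_lit 554) (B (L (nat_lit 587) ln10_14_4 ln10_14_4_ok) (L (nat_lit 553) ln13_16_1 ln13_16_1_ok))))) (B (M (nat_lit 459) (B (M (nat_lit 554) (B (L (nat_lit 427) ln10_17_6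 ln10_17_6_ok) (L (nat_lit 553) ln13_16_1 ln13_16_1_ok))) (B (M (nat_lit 457) (B (M (nat_lit 554) (B (L (nat_lit 425) ln10_17_7 ln10_17_7_ok) (L (nat_lit 553) ln13_16_1 ln13_16_1_ok))) (M (nat_lit 460) (B (L (nat_lit 428) ln9_14_2 ln9_14_2_ok) (L (nat_lit 430) ln10_14_2 ln10_14_2_ok))))) (B (M (nat_lit 427) (B (L (nat_lit 554) ln10_17_6 ln10_17_6_ok) (M (nat_lit 430) (B (L (nat_lit 428) ln14_13_1 ln14_13_1_ok) (L (nat_lit 460) ln10_14_2 ln10_14_2_ok))))) (M (nat_lit 427) (B (M (nat_lit 430) (B (L (nat_lit 428) ln14_13_1 ln14_13_1_ok) (L (nat_lit 460) ln10_14_2 ln10_14_2_ok))) (M (nat_lit 491) (B (L (nat_lit 395) ln11_12_5 ln11_12_5_ok) (L (nat_lit 556) ln11_13_4 ln11_13_4_ok))))))))) (B (M (nat_lit 555) (B (L (nat_lit 426) ln10_13_4 ln10_13_4_ok) (M (nat_lit 587) (B (L (nat_lit 491) ln11_18_7 ln11_18_7_ok) (L (nat_lit 554) ln10_14_4 ln10_14_4_ok))))) (M (nat_lit 555) (B (L (nat_lit 426) ln10_13_4 ln10_13_4_ok)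 (M (nat_lit 587) (B (L (nat_lit 491) ln11_18_7 ln11_18_7_ok) (L (nat_lit 619) ln11_19_7 ln11_19_7_ok))))))))))) (B (M (nat_lit 521) (B (M (nat_lit 489) (B (L (nat_lit 488) ln12_16_3 ln12_16_3_ok) (L (nat_lit 490) ln13_16_3 ln13_16_3_ok))) (M (nat_lit 557) (B (L (nat_lit 556) ln9_16_0 ln9_16_0_ok) (L (nat_lit 558) ln10_16_0 ln10_16_0_ok))))) (M (nat_lit 521) (B (M (nat_lit 489) (B (L (nat_lit 488) ln12_16_3 ln12_16_3_ok) (L (nat_lit 490) ln13_16_3 ln13_16_3_ok))) (M (nat_lit 553) (B (L (nat_lit 552) ln12_16_1 ln12_16_1_ok) (L (nat_lit 554) ln13_16_1 ln13_16_1_ok))))))))) (B (M (nat_lit 526) (B (M (nat_lit 527) (B (M (nat_lit 495) (B (L (nat_lit 494) ln11_16_2 ln11_16_2_ok) (L (nat_lit 496) ln12_16_2 ln12_16_2_ok))) (M (nat_lit 555) (B (L (nat_lit 554) ln14_16_1 ln14_16_1_ok) (L (nat_lit 556) ln15_16_1 ln15_16_1_ok))))) (B (M (nat_lit 527) (B (M (nat_lit 491) (B (L (nat_lit 490) ln14_16_3 ln14_16_3_ok) (L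 (nat_lit 492) ln15_16_3 ln15_16_3_ok))) (M (nat_lit 555) (B (L (nat_lit 554) ln14_16_1 ln14_16_1_ok) (L (nat_lit 556) ln15_16_1 ln15_16_1_ok))))) (M (nat_lit 522) (B (M (nat_lit 490) (B (L (nat_lit 489) ln13_16_3 ln13_16_3_ok) (L (nat_lit 491) ln14_16_3 ln14_16_3_ok))) (M (nat_lit 558) (B (L (nat_lit 557) ln10_16_0 ln10_16_0_ok) (L (nat_lit 559) ln11_16_0 ln11_16_0_ok)))))))) (B (M (nat_lit 526) (B (M (nat_lit 522) (B (M (nat_lit 490) (B (L (nat_lit 489) ln13_16_3 ln13_16_3_ok) (L (nat_lit 491) ln14_16_3 ln14_16_3_ok))) (M (nat_lit 558) (B (L (nat_lit 557) ln10_16_0 ln10_16_0_ok) (L (nat_lit 559) ln11_16_0 ln11_16_0_ok))))) (B (M (nat_lit 527) (B (M (nat_lit 491) (B (L (nat_lit 490) ln14_16_3 ln14_16_3_ok) (L (nat_lit 492) ln15_16_3 ln15_16_3_ok))) (M (nat_lit 495) (B (L (nat_lit 494) ln11_16_2 ln11_16_2_ok) (L (nat_lit 496) ln12_16_2 ln12_16_2_ok))))) (M (nat_lit 527) (B (M (nat_lit 495) (B (L (nat_lit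 494) ln11_16_2 ln11_16_2_ok) (L (nat_lit 496) ln12_16_2 ln12_16_2_ok))) (M (nat_lit 557) (B (M (nat_lit 558) (B (L (nat_lit 522) ln10_16_0 ln10_16_0_ok) (L (nat_lit 559) ln11_16_0 ln11_16_0_ok))) (M (nat_lit 556) (B (L (nat_lit 555) ln15_16_1 ln15_16_1_ok) (L (nat_lit 528) ln16_16_1 ln16_16_1_ok)))))))))) (B (M (nat_lit 522) (B (M (nat_lit 521) (B (M (nat_lit 553) (B (L (nat_lit 552) ln12_16_1 ln12_16_1_ok) (L (nat_lit 554) ln13_16_1 ln13_16_1_ok))) (M (nat_lit 557) (B (L (nat_lit 556) ln9_16_0 ln9_16_0_ok) (L (nat_lit 558) ln10_16_0 ln10_16_0_ok))))) (B (M (nat_lit 526) (B (M (nat_lit 490) (B (L (nat_lit 489) ln13_16_3 ln13_16_3_ok) (L (nat_lit 491) ln14_16_3 ln14_16_3_ok))) (M (nat_lit 558) (B (L (nat_lit 557) ln10_16_0 ln10_16_0_ok) (L (nat_lit 559) ln11_16_0 ln11_16_0_ok))))) (M (nat_lit 521) (B (M (nat_lit 489) (B (L (nat_lit 488) ln12_16_3 ln12_16_3_ok) (L (nat_lit 490) ln13_16_3 ln13_16_3_ok))) (M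 (nat_lit 553) (B (L (nat_lit 552) ln12_16_1 ln12_16_1_ok) (L (nat_lit 554) ln13_16_1 ln13_16_1_ok)))))))) (M (nat_lit 526) (B (M (nat_lit 522) (B (M (nat_lit 554) (B (L (nat_lit 553) ln13_16_1 ln13_16_1_ok) (L (nat_lit 555) ln14_16_1 ln14_16_1_ok))) (M (nat_lit 558) (B (L (nat_lit 557) ln10_16_0 ln10_16_0_ok) (L (nat_lit 559) ln11_16_0 ln11_16_0_ok))))) (M (nat_lit 527) (B (M (nat_lit 491) (B (L (nat_lit 490) ln14_16_3 ln14_16_3_ok) (L (nat_lit 492) ln15_16_3 ln15_16_3_ok))) (M (nat_lit 495) (B (L (nat_lit 494) ln11_16_2 ln11_16_2_ok) (L (nat_lit 496) ln12_16_2 ln12_16_2_ok))))))))))))))))) (nat_lit 164755143843134633165519882008769383708906915267447070062963694898921764489057621250214468214407175761246081372362678925016764078040427586613993921442859712512) (nat_lit 2175541220097076026642527936991989452894058892592402669239947162828181334165168616465924442969047345013166265421048380627005260242489841798477317738993526824271084843172566151366275235840)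 (nat_lit 2175541220097076026642527936991989452894058892592402669239947162828181334165168616465924442969047345013166265421048380627005260242489841798477317738993526824271084843172566151366275235840) (by decide +kernel)
theorem c20_s1618 : Sem (nat_lit 164755143843134633165519882008769383708906915267447070062963694898921764489057621250214468214407175761246081372362678925016764078040427586613993921442859712512) (nat_lit 506532677283283705177059742819686475801405456904232914423532125122204409529413659210821570180222812944856570326119591111494814618248747674610378242930481304885734017346083749888) (nat_lit 506532677283283705177059742819686475801405456904232914423532125122204409529413659210821570180222812944856570326119591111494814618248747674610378242930481304885734017346083749888) :=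
  sem_of_chk (M (nat_lit 526) (B (M (nat_lit 527) (B (M (nat_lit 556) (B (L (nat_lit 555) ln15_16_1 ln15_16_1_ok) (M (nat_lit 492) (B (L (nat_lit 460) ln12_17_6 ln12_17_6_ok) (L (nat_lit 491) ln15_16_3 ln15_16_3_ok))))) (B (M (nat_lit 523) (B (M (nat_lit 495) (B (L (nat_lit 494) ln11_16_2 ln11_16_2_ok) (L (nat_lit 496) ln12_16_2 ln12_16_2_ok))) (M (nat_lit 555) (B (L (nat_lit 554) ln14_16_1 ln14_16_1_ok) (L (nat_lit 556) ln15_16_1 ln15_16_1_ok))))) (M (nat_lit 523) (B (M (nat_lit 491) (B (L (nat_lit 490) ln14_16_3 ln14_16_3_ok) (L (nat_lit 492) ln15_16_3 ln15_16_3_ok))) (M (nat_lit 495) (B (L (nat_lit 494) ln11_16_2 ln11_16_2_ok) (L (nat_lit 496) ln12_16_2 ln12_16_2_ok)))))))) (B (M (nat_lit 523) (B (M (nat_lit 558) (B (L (nat_lit 559) ln11_16_0 ln11_16_0_ok) (M (nat_lit 494) (B (L (nat_lit 462) ln14_17_7 ln14_17_7_ok) (L (nat_lit 495) ln11_16_2 ln11_16_2_ok))))) (M (nat_lit 527) (B (M (nat_lit 491) (B (L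 (nat_lit 490) ln14_16_3 ln14_16_3_ok) (L (nat_lit 492) ln15_16_3 ln15_16_3_ok))) (M (nat_lit 555) (B (L (nat_lit 554) ln14_16_1 ln14_16_1_ok) (L (nat_lit 556) ln15_16_1 ln15_16_1_ok))))))) (B (M (nat_lit 527) (B (M (nat_lit 556) (B (L (nat_lit 555) ln15_16_1 ln15_16_1_ok) (M (nat_lit 492) (B (L (nat_lit 460) ln12_17_6 ln12_17_6_ok) (L (nat_lit 491) ln15_16_3 ln15_16_3_ok))))) (M (nat_lit 523) (B (M (nat_lit 495) (B (L (nat_lit 494) ln11_16_2 ln11_16_2_ok) (L (nat_lit 496) ln12_16_2 ln12_16_2_ok))) (M (nat_lit 559) (B (L (nat_lit 558) ln11_16_0 ln11_16_0_ok) (L (nat_lit 560) ln12_16_0 ln12_16_0_ok))))))) (B (M (nat_lit 523) (B (M (nat_lit 558) (B (L (nat_lit 559) ln11_16_0 ln11_16_0_ok) (M (nat_lit 494) (B (L (nat_lit 462) ln14_17_7 ln14_17_7_ok) (L (nat_lit 495) ln11_16_2 ln11_16_2_ok))))) (B (M (nat_lit 527) (B (M (nat_lit 555) (B (L (nat_lit 554) ln14_16_1 ln14_16_1_ok) (L (nat_lit 556) ln15_16_1 ln15_16_1_ok)))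 (M (nat_lit 559) (B (L (nat_lit 558) ln11_16_0 ln11_16_0_ok) (L (nat_lit 560) ln12_16_0 ln12_16_0_ok))))) (M (nat_lit 527) (B (M (nat_lit 495) (B (L (nat_lit 494) ln11_16_2 ln11_16_2_ok) (L (nat_lit 496) ln12_16_2 ln12_16_2_ok))) (M (nat_lit 555) (B (L (nat_lit 554) ln14_16_1 ln14_16_1_ok) (L (nat_lit 556) ln15_16_1 ln15_16_1_ok)))))))) (B (M (nat_lit 527) (B (M (nat_lit 556) (B (L (nat_lit 555) ln15_16_1 ln15_16_1_ok) (M (nat_lit 492) (B (L (nat_lit 460) ln12_17_6 ln12_17_6_ok) (L (nat_lit 491) ln15_16_3 ln15_16_3_ok))))) (B (M (nat_lit 523) (B (M (nat_lit 555) (B (L (nat_lit 554) ln14_16_1 ln14_16_1_ok) (L (nat_lit 556) ln15_16_1 ln15_16_1_ok))) (M (nat_lit 559) (B (L (nat_lit 558) ln11_16_0 ln11_16_0_ok) (L (nat_lit 560) ln12_16_0 ln12_16_0_ok))))) (M (nat_lit 523) (B (M (nat_lit 491) (B (L (nat_lit 490) ln14_16_3 ln14_16_3_ok) (L (nat_lit 492) ln15_16_3 ln15_16_3_ok))) (M (nat_lit 559) (B (L (nat_lit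 558) ln11_16_0 ln11_16_0_ok) (L (nat_lit 560) ln12_16_0 ln12_16_0_ok)))))))) (B (M (nat_lit 527) (B (M (nat_lit 556) (B (L (nat_lit 555) ln15_16_1 ln15_16_1_ok) (M (nat_lit 492) (B (L (nat_lit 460) ln12_17_6 ln12_17_6_ok) (L (nat_lit 491) ln15_16_3 ln15_16_3_ok))))) (M (nat_lit 528) (B (M (nat_lit 496) (B (L (nat_lit 495) ln12_16_2 ln12_16_2_ok) (L (nat_lit 497) ln13_16_2 ln13_16_2_ok))) (M (nat_lit 560) (B (L (nat_lit 559) ln12_16_0 ln12_16_0_ok) (L (nat_lit 561) ln13_16_0 ln13_16_0_ok))))))) (B (M (nat_lit 460) (B (M (nat_lit 492) (B (L (nat_lit 556) ln12_17_6 ln12_17_6_ok) (M (nat_lit 428) (B (L (nat_lit 557) ln12_13_4 ln12_13_4_ok) (M (nat_lit 427) (B (L (nat_lit 395) ln12_16_7 ln12_16_7_ok) (M (nat_lit 426) (B (L (nat_lit 425) ln9_13_0 ln9_13_0_ok) (L (nat_lit 462) ln10_13_0 ln10_13_0_ok))))))))) (B (M (nat_lit 523) (B (M (nat_lit 558) (B (L (nat_lit 559) ln11_16_0 ln11_16_0_ok) (M (nat_lit 494) (B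 (L (nat_lit 462) ln14_17_7 ln14_17_7_ok) (L (nat_lit 495) ln11_16_2 ln11_16_2_ok))))) (M (nat_lit 492) (B (L (nat_lit 556) ln12_17_6 ln12_17_6_ok) (M (nat_lit 428) (B (L (nat_lit 555) ln12_13_5 ln12_13_5_ok) (L (nat_lit 557) ln12_13_4 ln12_13_4_ok))))))) (B (M (nat_lit 523) (B (M (nat_lit 558) (B (L (nat_lit 559) ln11_16_0 ln11_16_0_ok) (M (nat_lit 494) (B (L (nat_lit 462) ln14_17_7 ln14_17_7_ok) (L (nat_lit 495) ln11_16_2 ln11_16_2_ok))))) (M (nat_lit 492) (B (L (nat_lit 556) ln12_17_6 ln12_17_6_ok) (M (nat_lit 491) (B (L (nat_lit 490) ln14_16_3 ln14_16_3_ok) (M (nat_lit 555) (B (L (nat_lit 587) ln11_18_6 ln11_18_6_ok) (L (nat_lit 554) ln14_16_1 ln14_16_1_ok))))))))) (B (M (nat_lit 492) (B (L (nat_lit 556) ln12_17_6 ln12_17_6_ok) (M (nat_lit 428) (B (L (nat_lit 557) ln12_13_4 ln12_13_4_ok) (M (nat_lit 523) (B (L (nat_lit 555) ln12_13_5 ln12_13_5_ok) (M (nat_lit 491) (B (L (nat_lit 396) ln12_12_5 ln12_12_5_ok)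 (L (nat_lit 490) ln14_16_3 ln14_16_3_ok))))))))) (M (nat_lit 494) (B (M (nat_lit 495) (B (L (nat_lit 523) ln11_16_2 ln11_16_2_ok) (M (nat_lit 462) (B (L (nat_lit 558) ln14_17_7 ln14_17_7_ok) (L (nat_lit 459) ln11_14_0 ln11_14_0_ok))))) (B (M (nat_lit 523) (B (L (nat_lit 495) ln11_16_2 ln11_16_2_ok) (M (nat_lit 558) (B (L (nat_lit 462) ln14_17_7 ln14_17_7_ok) (L (nat_lit 559) ln11_16_0 ln11_16_0_ok))))) (B (M (nat_lit 523) (B (L (nat_lit 495) ln11_16_2 ln11_16_2_ok) (M (nat_lit 522) (B (M (nat_lit 554) (B (L (nat_lit 553) ln13_16_1 ln13_16_1_ok) (L (nat_lit 555) ln14_16_1 ln14_16_1_ok))) (M (nat_lit 558) (B (L (nat_lit 557) ln10_16_0 ln10_16_0_ok) (L (nat_lit 559) ln11_16_0 ln11_16_0_ok))))))) (B (M (nat_lit 558) (B (L (nat_lit 462) ln14_17_7 ln14_17_7_ok) (M (nat_lit 559) (B (L (nat_lit 523) ln11_16_0 ln11_16_0_ok) (M (nat_lit 560) (B (L (nat_lit 557) ln16_17_3 ln16_17_3_ok) (L (nat_lit 561) ln17_17_3 ln17_17_3_ok)))))))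 (B (M (nat_lit 462) (B (L (nat_lit 558) ln14_17_7 ln14_17_7_ok) (M (nat_lit 495) (B (L (nat_lit 459) ln11_14_0 ln11_14_0_ok) (M (nat_lit 496) (B (L (nat_lit 463) ln12_14_0 ln12_14_0_ok) (L (nat_lit 497) ln17_15_3 ln17_15_3_ok))))))) (M (nat_lit 495) (B (L (nat_lit 523) ln11_16_2 ln11_16_2_ok) (M (nat_lit 496) (B (L (nat_lit 497) ln17_15_1 ln17_15_1_ok) (M (nat_lit 462) (B (L (nat_lit 459) ln11_14_0 ln11_14_0_ok) (L (nat_lit 463) ln12_14_0 ln12_14_0_ok)))))))))))))))))) (M (nat_lit 523) (B (M (nat_lit 558) (B (L (nat_lit 559) ln11_16_0 ln11_16_0_ok) (M (nat_lit 494) (B (L (nat_lit 462) ln14_17_7 ln14_17_7_ok) (L (nat_lit 495) ln11_16_2 ln11_16_2_ok))))) (B (M (nat_lit 527) (B (M (nat_lit 491) (B (L (nat_lit 490) ln14_16_3 ln14_16_3_ok) (L (nat_lit 492) ln15_16_3 ln15_16_3_ok))) (M (nat_lit 559) (B (L (nat_lit 558) ln11_16_0 ln11_16_0_ok) (L (nat_lit 560) ln12_16_0 ln12_16_0_ok))))) (M (nat_lit 527) (B (M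 (nat_lit 491) (B (L (nat_lit 490) ln14_16_3 ln14_16_3_ok) (L (nat_lit 492) ln15_16_3 ln15_16_3_ok))) (M (nat_lit 495) (B (L (nat_lit 494) ln11_16_2 ln11_16_2_ok) (L (nat_lit 496) ln12_16_2 ln12_16_2_ok)))))))))))))))) (nat_lit 164755143843134633165519882008769383708906915267447070062963694898921764489057621250214468214407175761246081372362678925016764078040427586613993921442859712512) (nat_lit 506532677283283705177059742819686475801405456904232914423532125122204409529413659210821570180222812944856570326119591111494814618248747674610378242930481304885734017346083749888) (nat_lit 506532677283283705177059742819686475801405456904232914423532125122204409529413659210821570180222812944856570326119591111494814618248747674610378242930481304885734017346083749888) (by decide +kernel)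
theorem c20_s1771 : Sem (nat_lit 164755143843134633165519882008769383708906915267447070062963694898921764489057621250214468214407175761246081372362678925016764078040427586613993921442859712512) (nat_lit 17404329752672085602662136657779715864490259203356541063611866179292217044426644221923647965316294581184470146825394554592166017136979419442963262018355522950755107155777387873733980454912) (nat_lit 17404329752672085602662136657779715864490259203356541063611866179292217044426644221923647965316294581184470146825394554592166017136979419442963262018355522950755107155777387873733980454912) :=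
  sem_of_chk (M (nat_lit 526) (B (M (nat_lit 527) (B (M (nat_lit 556) (B (L (nat_lit 555) ln15_16_1 ln15_16_1_ok) (M (nat_lit 492) (B (L (nat_lit 460) ln12_17_6 ln12_17_6_ok) (L (nat_lit 491) ln15_16_3 ln15_16_3_ok))))) (M (nat_lit 523) (B (M (nat_lit 495) (B (L (nat_lit 494) ln11_16_2 ln11_16_2_ok) (L (nat_lit 496) ln12_16_2 ln12_16_2_ok))) (M (nat_lit 559) (B (L (nat_lit 558) ln11_16_0 ln11_16_0_ok) (L (nat_lit 560) ln12_16_0 ln12_16_0_ok))))))) (B (M (nat_lit 523) (B (M (nat_lit 558) (B (L (nat_lit 559) ln11_16_0 ln11_16_0_ok) (M (nat_lit 494) (B (L (nat_lit 462) ln14_17_7 ln14_17_7_ok) (L (nat_lit 495) ln11_16_2 ln11_16_2_ok))))) (B (M (nat_lit 527) (B (M (nat_lit 555) (B (L (nat_lit 554) ln14_16_1 ln14_16_1_ok) (L (nat_lit 556) ln15_16_1 ln15_16_1_ok))) (M (nat_lit 559) (B (L (nat_lit 558) ln11_16_0 ln11_16_0_ok) (L (nat_lit 560) ln12_16_0 ln12_16_0_ok))))) (M (nat_lit 527) (B (M (nat_lit 495) (B (L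 (nat_lit 494) ln11_16_2 ln11_16_2_ok) (L (nat_lit 496) ln12_16_2 ln12_16_2_ok))) (M (nat_lit 555) (B (L (nat_lit 554) ln14_16_1 ln14_16_1_ok) (L (nat_lit 556) ln15_16_1 ln15_16_1_ok)))))))) (B (M (nat_lit 527) (B (M (nat_lit 556) (B (L (nat_lit 555) ln15_16_1 ln15_16_1_ok) (M (nat_lit 492) (B (L (nat_lit 460) ln12_17_6 ln12_17_6_ok) (L (nat_lit 491) ln15_16_3 ln15_16_3_ok))))) (M (nat_lit 528) (B (M (nat_lit 496) (B (L (nat_lit 495) ln12_16_2 ln12_16_2_ok) (L (nat_lit 497) ln13_16_2 ln13_16_2_ok))) (M (nat_lit 560) (B (L (nat_lit 559) ln12_16_0 ln12_16_0_ok) (L (nat_lit 561) ln13_16_0 ln13_16_0_ok))))))) (B (M (nat_lit 462) (B (M (nat_lit 558) (B (L (nat_lit 494) ln14_17_7 ln14_17_7_ok) (M (nat_lit 559) (B (L (nat_lit 523) ln11_16_0 ln11_16_0_ok) (M (nat_lit 560) (B (L (nat_lit 527) ln12_16_0 ln12_16_0_ok) (L (nat_lit 557) ln16_17_3 ln16_17_3_ok))))))) (B (M (nat_lit 492) (B (M (nat_lit 460) (B (L (nat_lit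 556) ln12_17_6 ln12_17_6_ok) (M (nat_lit 491) (B (L (nat_lit 463) ln15_14_1 ln15_14_1_ok) (L (nat_lit 527) ln15_16_3 ln15_16_3_ok))))) (B (M (nat_lit 527) (B (L (nat_lit 491) ln15_16_3 ln15_16_3_ok) (M (nat_lit 528) (B (M (nat_lit 556) (B (L (nat_lit 555) ln15_16_1 ln15_16_1_ok) (L (nat_lit 557) ln16_16_1 ln16_16_1_ok))) (M (nat_lit 560) (B (L (nat_lit 559) ln12_16_0 ln12_16_0_ok) (L (nat_lit 561) ln13_16_0 ln13_16_0_ok))))))) (B (M (nat_lit 460) (B (L (nat_lit 556) ln12_17_6 ln12_17_6_ok) (M (nat_lit 428) (B (L (nat_lit 557) ln12_13_4 ln12_13_4_ok) (M (nat_lit 427) (B (L (nat_lit 395) ln12_16_7 ln12_16_7_ok) (L (nat_lit 463) ln15_14_3 ln15_14_3_ok))))))) (M (nat_lit 460) (B (M (nat_lit 491) (B (L (nat_lit 463) ln15_14_1 ln15_14_1_ok) (L (nat_lit 527) ln15_16_3 ln15_16_3_ok))) (M (nat_lit 428) (B (L (nat_lit 557) ln12_13_4 ln12_13_4_ok) (M (nat_lit 427) (B (L (nat_lit 395) ln12_16_7 ln12_16_7_ok) (L (nat_lit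 426) ln10_13_0 ln10_13_0_ok))))))))))) (B (M (nat_lit 558) (B (L (nat_lit 494) ln14_17_7 ln14_17_7_ok) (M (nat_lit 559) (B (L (nat_lit 523) ln11_16_0 ln11_16_0_ok) (M (nat_lit 560) (B (L (nat_lit 557) ln16_17_3 ln16_17_3_ok) (L (nat_lit 561) ln17_17_3 ln17_17_3_ok))))))) (B (M (nat_lit 558) (B (L (nat_lit 494) ln14_17_7 ln14_17_7_ok) (M (nat_lit 559) (B (L (nat_lit 523) ln11_16_0 ln11_16_0_ok) (M (nat_lit 560) (B (L (nat_lit 527) ln12_16_0 ln12_16_0_ok) (L (nat_lit 561) ln17_17_3 ln17_17_3_ok))))))) (M (nat_lit 492) (B (M (nat_lit 460) (B (L (nat_lit 556) ln12_17_6 ln12_17_6_ok) (M (nat_lit 491) (B (L (nat_lit 463) ln15_14_1 ln15_14_1_ok) (L (nat_lit 527) ln15_16_3 ln15_16_3_ok))))) (B (M (nat_lit 527) (B (L (nat_lit 491) ln15_16_3 ln15_16_3_ok) (M (nat_lit 557) (B (M (nat_lit 494) (B (L (nat_lit 558) ln14_17_7 ln14_17_7_ok) (L (nat_lit 430) ln14_13_5 ln14_13_5_ok))) (M (nat_lit 556) (B (L (nat_lit 555)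 ln15_16_1 ln15_16_1_ok) (L (nat_lit 528) ln16_16_1 ln16_16_1_ok))))))) (B (M (nat_lit 557) (B (M (nat_lit 460) (B (L (nat_lit 428) ln12_13_4 ln12_13_4_ok) (L (nat_lit 556) ln12_17_6 ln12_17_6_ok))) (M (nat_lit 494) (B (L (nat_lit 558) ln14_17_7 ln14_17_7_ok) (L (nat_lit 430) ln14_13_5 ln14_13_5_ok))))) (M (nat_lit 460) (B (M (nat_lit 491) (B (L (nat_lit 463) ln15_14_1 ln15_14_1_ok) (L (nat_lit 527) ln15_16_3 ln15_16_3_ok))) (M (nat_lit 428) (B (L (nat_lit 557) ln12_13_4 ln12_13_4_ok) (M (nat_lit 427) (B (L (nat_lit 395) ln12_16_7 ln12_16_7_ok) (L (nat_lit 426) ln10_13_0 ln10_13_0_ok)))))))))))))))) (B (M (nat_lit 460) (B (M (nat_lit 492) (B (L (nat_lit 556) ln12_17_6 ln12_17_6_ok) (M (nat_lit 428) (B (L (nat_lit 557) ln12_13_4 ln12_13_4_ok) (M (nat_lit 427) (B (L (nat_lit 395) ln12_16_7 ln12_16_7_ok) (M (nat_lit 426) (B (L (nat_lit 425) ln9_13_0 ln9_13_0_ok) (L (nat_lit 462) ln10_13_0 ln10_13_0_ok)))))))))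 (B (M (nat_lit 462) (B (M (nat_lit 494) (B (L (nat_lit 558) ln14_17_7 ln14_17_7_ok) (M (nat_lit 495) (B (L (nat_lit 459) ln11_14_0 ln11_14_0_ok) (L (nat_lit 523) ln11_16_2 ln11_16_2_ok))))) (M (nat_lit 428) (B (M (nat_lit 427) (B (L (nat_lit 426) ln10_13_0 ln10_13_0_ok) (L (nat_lit 463) ln15_14_3 ln15_14_3_ok))) (M (nat_lit 492) (B (L (nat_lit 557) ln12_13_4 ln12_13_4_ok) (L (nat_lit 556) ln12_17_6 ln12_17_6_ok))))))) (B (M (nat_lit 523) (B (M (nat_lit 492) (B (L (nat_lit 556) ln12_17_6 ln12_17_6_ok) (M (nat_lit 428) (B (L (nat_lit 555) ln12_13_5 ln12_13_5_ok) (L (nat_lit 557) ln12_13_4 ln12_13_4_ok))))) (M (nat_lit 558) (B (L (nat_lit 559) ln11_16_0 ln11_16_0_ok) (M (nat_lit 494) (B (L (nat_lit 462) ln14_17_7 ln14_17_7_ok) (L (nat_lit 495) ln11_16_2 ln11_16_2_ok))))))) (B (M (nat_lit 494) (B (M (nat_lit 495) (B (L (nat_lit 523) ln11_16_2 ln11_16_2_ok) (M (nat_lit 462) (B (L (nat_lit 558) ln14_17_7 ln14_17_7_ok)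 (L (nat_lit 459) ln11_14_0 ln11_14_0_ok))))) (B (M (nat_lit 523) (B (L (nat_lit 495) ln11_16_2 ln11_16_2_ok) (M (nat_lit 558) (B (L (nat_lit 462) ln14_17_7 ln14_17_7_ok) (L (nat_lit 559) ln11_16_0 ln11_16_0_ok))))) (B (M (nat_lit 523) (B (L (nat_lit 495) ln11_16_2 ln11_16_2_ok) (M (nat_lit 522) (B (M (nat_lit 554) (B (L (nat_lit 553) ln13_16_1 ln13_16_1_ok) (L (nat_lit 555) ln14_16_1 ln14_16_1_ok))) (M (nat_lit 558) (B (L (nat_lit 557) ln10_16_0 ln10_16_0_ok) (L (nat_lit 559) ln11_16_0 ln11_16_0_ok))))))) (B (M (nat_lit 558) (B (L (nat_lit 462) ln14_17_7 ln14_17_7_ok) (M (nat_lit 559) (B (L (nat_lit 523) ln11_16_0 ln11_16_0_ok) (M (nat_lit 560) (B (L (nat_lit 557) ln16_17_3 ln16_17_3_ok) (L (nat_lit 561) ln17_17_3 ln17_17_3_ok))))))) (B (M (nat_lit 462) (B (L (nat_lit 558) ln14_17_7 ln14_17_7_ok) (M (nat_lit 495) (B (L (nat_lit 459) ln11_14_0 ln11_14_0_ok) (M (nat_lit 496) (B (L (nat_lit 463) ln12_14_0 ln12_14_0_ok)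 (L (nat_lit 497) ln17_15_3 ln17_15_3_ok))))))) (M (nat_lit 495) (B (L (nat_lit 523) ln11_16_2 ln11_16_2_ok) (M (nat_lit 496) (B (L (nat_lit 497) ln17_15_1 ln17_15_1_ok) (M (nat_lit 462) (B (L (nat_lit 459) ln11_14_0 ln11_14_0_ok) (L (nat_lit 463) ln12_14_0 ln12_14_0_ok))))))))))))) (B (M (nat_lit 492) (B (L (nat_lit 556) ln12_17_6 ln12_17_6_ok) (M (nat_lit 428) (B (L (nat_lit 557) ln12_13_4 ln12_13_4_ok) (M (nat_lit 396) (B (M (nat_lit 395) (B (L (nat_lit 363) ln12_15_7 ln12_15_7_ok) (L (nat_lit 427) ln12_16_7 ln12_16_7_ok))) (M (nat_lit 523) (B (L (nat_lit 491) ln12_12_5 ln12_12_5_ok) (L (nat_lit 555) ln12_13_5 ln12_13_5_ok))))))))) (M (nat_lit 462) (B (M (nat_lit 494) (B (L (nat_lit 558) ln14_17_7 ln14_17_7_ok) (M (nat_lit 495) (B (L (nat_lit 459) ln11_14_0 ln11_14_0_ok) (L (nat_lit 523) ln11_16_2 ln11_16_2_ok))))) (M (nat_lit 463) (B (M (nat_lit 428) (B (L (nat_lit 427) ln15_14_3 ln15_14_3_ok) (L (nat_lit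 464) ln16_14_3 ln16_14_3_ok))) (M (nat_lit 492) (B (L (nat_lit 556) ln12_17_6 ln12_17_6_ok) (L (nat_lit 491) ln15_14_1 ln15_14_1_ok))))))))))))) (B (M (nat_lit 527) (B (M (nat_lit 523) (B (M (nat_lit 495) (B (L (nat_lit 494) ln11_16_2 ln11_16_2_ok) (L (nat_lit 496) ln12_16_2 ln12_16_2_ok))) (M (nat_lit 559) (B (L (nat_lit 558) ln11_16_0 ln11_16_0_ok) (L (nat_lit 560) ln12_16_0 ln12_16_0_ok))))) (B (M (nat_lit 528) (B (M (nat_lit 496) (B (L (nat_lit 495) ln12_16_2 ln12_16_2_ok) (L (nat_lit 497) ln13_16_2 ln13_16_2_ok))) (M (nat_lit 560) (B (L (nat_lit 559) ln12_16_0 ln12_16_0_ok) (L (nat_lit 561) ln13_16_0 ln13_16_0_ok))))) (B (M (nat_lit 556) (B (M (nat_lit 492) (B (L (nat_lit 460) ln12_17_6 ln12_17_6_ok) (L (nat_lit 491) ln15_16_3 ln15_16_3_ok))) (M (nat_lit 528) (B (L (nat_lit 557) ln16_16_1 ln16_16_1_ok) (M (nat_lit 560) (B (L (nat_lit 559) ln12_16_0 ln12_16_0_ok) (L (nat_lit 561) ln13_16_0 ln13_16_0_ok)))))))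 (M (nat_lit 556) (B (M (nat_lit 492) (B (L (nat_lit 460) ln12_17_6 ln12_17_6_ok) (L (nat_lit 491) ln15_16_3 ln15_16_3_ok))) (M (nat_lit 528) (B (L (nat_lit 557) ln16_16_1 ln16_16_1_ok) (M (nat_lit 496) (B (L (nat_lit 495) ln12_16_2 ln12_16_2_ok) (L (nat_lit 497) ln13_16_2 ln13_16_2_ok))))))))))) (B (M (nat_lit 494) (B (M (nat_lit 558) (B (L (nat_lit 462) ln14_17_7 ln14_17_7_ok) (M (nat_lit 523) (B (L (nat_lit 495) ln11_16_2 ln11_16_2_ok) (L (nat_lit 559) ln11_16_0 ln11_16_0_ok))))) (B (M (nat_lit 495) (B (L (nat_lit 523) ln11_16_2 ln11_16_2_ok) (M (nat_lit 496) (B (L (nat_lit 497) ln17_15_1 ln17_15_1_ok) (L (nat_lit 527) ln12_16_2 ln12_16_2_ok))))) (B (M (nat_lit 558) (B (L (nat_lit 462) ln14_17_7 ln14_17_7_ok) (M (nat_lit 559) (B (L (nat_lit 523) ln11_16_0 ln11_16_0_ok) (M (nat_lit 560) (B (L (nat_lit 527) ln12_16_0 ln12_16_0_ok) (L (nat_lit 557) ln16_17_3 ln16_17_3_ok))))))) (M (nat_lit 462) (B (L (nat_lit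 558) ln14_17_7 ln14_17_7_ok) (M (nat_lit 460) (B (M (nat_lit 495) (B (L (nat_lit 459) ln11_14_0 ln11_14_0_ok) (M (nat_lit 496) (B (L (nat_lit 463) ln12_14_0 ln12_14_0_ok) (L (nat_lit 497) ln17_15_3 ln17_15_3_ok))))) (B (M (nat_lit 428) (B (M (nat_lit 427) (B (L (nat_lit 426) ln10_13_0 ln10_13_0_ok) (L (nat_lit 463) ln15_14_3 ln15_14_3_ok))) (M (nat_lit 557) (B (L (nat_lit 492) ln12_13_4 ln12_13_4_ok) (L (nat_lit 430) ln14_13_5 ln14_13_5_ok))))) (M (nat_lit 495) (B (L (nat_lit 459) ln11_14_0 ln11_14_0_ok) (M (nat_lit 496) (B (L (nat_lit 497) ln17_15_3 ln17_15_3_ok) (L (nat_lit 527) ln12_16_2 ln12_16_2_ok)))))))))))))) (M (nat_lit 527) (B (M (nat_lit 556) (B (L (nat_lit 555) ln15_16_1 ln15_16_1_ok) (M (nat_lit 492) (B (L (nat_lit 460) ln12_17_6 ln12_17_6_ok) (L (nat_lit 491) ln15_16_3 ln15_16_3_ok))))) (M (nat_lit 495) (B (L (nat_lit 496) ln12_16_2 ln12_16_2_ok) (M (nat_lit 494) (B (L (nat_lit 523) ln11_16_2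 ln11_16_2_ok) (M (nat_lit 558) (B (L (nat_lit 462) ln14_17_7 ln14_17_7_ok) (M (nat_lit 590) (B (L (nat_lit 463) ln14_18_6 ln14_18_6_ok) (L (nat_lit 622) ln14_19_6 ln14_19_6_ok))))))))))))))))))) (nat_lit 164755143843134633165519882008769383708906915267447070062963694898921764489057621250214468214407175761246081372362678925016764078040427586613993921442859712512) (nat_lit 17404329752672085602662136657779715864490259203356541063611866179292217044426644221923647965316294581184470146825394554592166017136979419442963262018355522950755107155777387873733980454912) (nat_lit 17404329752672085602662136657779715864490259203356541063611866179292217044426644221923647965316294581184470146825394554592166017136979419442963262018355522950755107155777387873733980454912) (by decide +kernel)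
theorem c20_s1904 : Sem (nat_lit 164755143843134633165519882008769383708906915267447070062963694898921764489057621250214468214407175761246081372362678925016764078040427586613993921442859712512) (nat_lit 17404329760776608198154939092724886589605681519279661810745230503500627587405417295482755076294466299984690939647226626919094228862685269091973758750349083614517926704681899380183859724288) (nat_lit 17404329760776608198154939092724886589605681519279661810745230503500627587405417295482755076294466299984690939647226626919094228862685269091973758750349083614517926704681899380183859724288) :=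
  sem_of_chk (M (nat_lit 526) (B (M (nat_lit 523) (B (M (nat_lit 558) (B (L (nat_lit 559) ln11_16_0 ln11_16_0_ok) (M (nat_lit 494) (B (L (nat_lit 462) ln14_17_7 ln14_17_7_ok) (L (nat_lit 495) ln11_16_2 ln11_16_2_ok))))) (B (M (nat_lit 527) (B (M (nat_lit 555) (B (L (nat_lit 554) ln14_16_1 ln14_16_1_ok) (L (nat_lit 556) ln15_16_1 ln15_16_1_ok))) (M (nat_lit 559) (B (L (nat_lit 558) ln11_16_0 ln11_16_0_ok) (L (nat_lit 560) ln12_16_0 ln12_16_0_ok))))) (M (nat_lit 527) (B (M (nat_lit 495) (B (L (nat_lit 494) ln11_16_2 ln11_16_2_ok) (L (nat_lit 496) ln12_16_2 ln12_16_2_ok))) (M (nat_lit 555) (B (L (nat_lit 554) ln14_16_1 ln14_16_1_ok) (L (nat_lit 556) ln15_16_1 ln15_16_1_ok)))))))) (B (M (nat_lit 523) (B (M (nat_lit 527) (B (M (nat_lit 495) (B (L (nat_lit 494) ln11_16_2 ln11_16_2_ok) (L (nat_lit 496) ln12_16_2 ln12_16_2_ok))) (M (nat_lit 555) (B (L (nat_lit 554) ln14_16_1 ln14_16_1_ok) (L (nat_lit 556) ln15_16_1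 ln15_16_1_ok))))) (B (M (nat_lit 527) (B (M (nat_lit 555) (B (L (nat_lit 554) ln14_16_1 ln14_16_1_ok) (L (nat_lit 556) ln15_16_1 ln15_16_1_ok))) (M (nat_lit 559) (B (L (nat_lit 558) ln11_16_0 ln11_16_0_ok) (L (nat_lit 560) ln12_16_0 ln12_16_0_ok))))) (B (M (nat_lit 522) (B (M (nat_lit 554) (B (L (nat_lit 553) ln13_16_1 ln13_16_1_ok) (L (nat_lit 555) ln14_16_1 ln14_16_1_ok))) (M (nat_lit 558) (B (L (nat_lit 557) ln10_16_0 ln10_16_0_ok) (L (nat_lit 559) ln11_16_0 ln11_16_0_ok))))) (M (nat_lit 527) (B (M (nat_lit 495) (B (L (nat_lit 494) ln11_16_2 ln11_16_2_ok) (L (nat_lit 496) ln12_16_2 ln12_16_2_ok))) (M (nat_lit 559) (B (L (nat_lit 558) ln11_16_0 ln11_16_0_ok) (L (nat_lit 560) ln12_16_0 ln12_16_0_ok))))))))) (B (M (nat_lit 527) (B (M (nat_lit 556) (B (L (nat_lit 555) ln15_16_1 ln15_16_1_ok) (M (nat_lit 528) (B (L (nat_lit 557) ln16_16_1 ln16_16_1_ok) (M (nat_lit 496) (B (L (nat_lit 495) ln12_16_2 ln12_16_2_ok)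 (L (nat_lit 497) ln13_16_2 ln13_16_2_ok))))))) (B (M (nat_lit 528) (B (M (nat_lit 556) (B (L (nat_lit 555) ln15_16_1 ln15_16_1_ok) (L (nat_lit 557) ln16_16_1 ln16_16_1_ok))) (M (nat_lit 560) (B (L (nat_lit 559) ln12_16_0 ln12_16_0_ok) (L (nat_lit 561) ln13_16_0 ln13_16_0_ok))))) (B (M (nat_lit 523) (B (M (nat_lit 555) (B (L (nat_lit 554) ln14_16_1 ln14_16_1_ok) (L (nat_lit 556) ln15_16_1 ln15_16_1_ok))) (M (nat_lit 559) (B (L (nat_lit 558) ln11_16_0 ln11_16_0_ok) (L (nat_lit 560) ln12_16_0 ln12_16_0_ok))))) (M (nat_lit 528) (B (M (nat_lit 496) (B (L (nat_lit 495) ln12_16_2 ln12_16_2_ok) (L (nat_lit 497) ln13_16_2 ln13_16_2_ok))) (M (nat_lit 560) (B (L (nat_lit 559) ln12_16_0 ln12_16_0_ok) (L (nat_lit 561) ln13_16_0 ln13_16_0_ok))))))))) (B (M (nat_lit 523) (B (M (nat_lit 522) (B (M (nat_lit 554) (B (L (nat_lit 553) ln13_16_1 ln13_16_1_ok) (L (nat_lit 555) ln14_16_1 ln14_16_1_ok))) (M (nat_lit 558) (B (L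 (nat_lit 557) ln10_16_0 ln10_16_0_ok) (L (nat_lit 559) ln11_16_0 ln11_16_0_ok))))) (B (M (nat_lit 527) (B (M (nat_lit 555) (B (L (nat_lit 554) ln14_16_1 ln14_16_1_ok) (L (nat_lit 556) ln15_16_1 ln15_16_1_ok))) (M (nat_lit 559) (B (L (nat_lit 558) ln11_16_0 ln11_16_0_ok) (L (nat_lit 560) ln12_16_0 ln12_16_0_ok))))) (B (M (nat_lit 527) (B (M (nat_lit 559) (B (L (nat_lit 558) ln11_16_0 ln11_16_0_ok) (L (nat_lit 560) ln12_16_0 ln12_16_0_ok))) (B (M (nat_lit 528) (B (M (nat_lit 556) (B (L (nat_lit 555) ln15_16_1 ln15_16_1_ok) (L (nat_lit 557) ln16_16_1 ln16_16_1_ok))) (M (nat_lit 560) (B (L (nat_lit 559) ln12_16_0 ln12_16_0_ok) (L (nat_lit 561) ln13_16_0 ln13_16_0_ok))))) (M (nat_lit 556) (B (L (nat_lit 555) ln15_16_1 ln15_16_1_ok) (M (nat_lit 557) (B (L (nat_lit 528) ln16_16_1 ln16_16_1_ok) (M (nat_lit 522) (B (L (nat_lit 521) ln9_16_0 ln9_16_0_ok) (L (nat_lit 558) ln10_16_0 ln10_16_0_ok)))))))))) (B (M (nat_lit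 522) (B (M (nat_lit 558) (B (L (nat_lit 557) ln10_16_0 ln10_16_0_ok) (L (nat_lit 559) ln11_16_0 ln11_16_0_ok))) (M (nat_lit 521) (B (M (nat_lit 489) (B (L (nat_lit 488) ln12_16_3 ln12_16_3_ok) (L (nat_lit 490) ln13_16_3 ln13_16_3_ok))) (M (nat_lit 553) (B (L (nat_lit 552) ln12_16_1 ln12_16_1_ok) (L (nat_lit 554) ln13_16_1 ln13_16_1_ok))))))) (M (nat_lit 522) (B (M (nat_lit 554) (B (L (nat_lit 553) ln13_16_1 ln13_16_1_ok) (L (nat_lit 555) ln14_16_1 ln14_16_1_ok))) (B (M (nat_lit 555) (B (L (nat_lit 554) ln14_16_1 ln14_16_1_ok) (M (nat_lit 556) (B (L (nat_lit 527) ln15_16_1 ln15_16_1_ok) (M (nat_lit 521) (B (L (nat_lit 520) ln8_16_0 ln8_16_0_ok) (L (nat_lit 557) ln9_16_0 ln9_16_0_ok))))))) (B (M (nat_lit 521) (B (M (nat_lit 489) (B (L (nat_lit 488) ln12_16_3 ln12_16_3_ok) (L (nat_lit 490) ln13_16_3 ln13_16_3_ok))) (M (nat_lit 556) (B (L (nat_lit 557) ln9_16_0 ln9_16_0_ok) (M (nat_lit 555) (B (L (nat_lit 520)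 ln8_16_0 ln8_16_0_ok) (L (nat_lit 527) ln15_16_1 ln15_16_1_ok))))))) (M (nat_lit 521) (B (M (nat_lit 489) (B (L (nat_lit 488) ln12_16_3 ln12_16_3_ok) (L (nat_lit 490) ln13_16_3 ln13_16_3_ok))) (M (nat_lit 553) (B (L (nat_lit 552) ln12_16_1 ln12_16_1_ok) (L (nat_lit 554) ln13_16_1 ln13_16_1_ok)))))))))))))) (B (M (nat_lit 527) (B (M (nat_lit 528) (B (M (nat_lit 556) (B (L (nat_lit 555) ln15_16_1 ln15_16_1_ok) (L (nat_lit 557) ln16_16_1 ln16_16_1_ok))) (M (nat_lit 560) (B (L (nat_lit 559) ln12_16_0 ln12_16_0_ok) (L (nat_lit 561) ln13_16_0 ln13_16_0_ok))))) (B (M (nat_lit 462) (B (M (nat_lit 494) (B (L (nat_lit 558) ln14_17_7 ln14_17_7_ok) (M (nat_lit 430) (B (L (nat_lit 557) ln14_13_5 ln14_13_5_ok) (L (nat_lit 559) ln14_13_4 ln14_13_4_ok))))) (B (M (nat_lit 494) (B (L (nat_lit 558) ln14_17_7 ln14_17_7_ok) (M (nat_lit 559) (B (L (nat_lit 560) ln12_16_0 ln12_16_0_ok) (M (nat_lit 495) (B (L (nat_lit 591) ln15_18_7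 ln15_18_7_ok) (L (nat_lit 496) ln12_16_2 ln12_16_2_ok))))))) (B (M (nat_lit 463) (B (M (nat_lit 428) (B (L (nat_lit 464) ln16_14_3 ln16_14_3_ok) (M (nat_lit 427) (B (L (nat_lit 426) ln10_13_0 ln10_13_0_ok) (L (nat_lit 460) ln15_14_3 ln15_14_3_ok))))) (B (M (nat_lit 428) (B (L (nat_lit 464) ln16_14_3 ln16_14_3_ok) (M (nat_lit 427) (B (L (nat_lit 430) ln11_13_0 ln11_13_0_ok) (L (nat_lit 460) ln15_14_3 ln15_14_3_ok))))) (M (nat_lit 495) (B (L (nat_lit 496) ln12_16_2 ln12_16_2_ok) (M (nat_lit 559) (B (L (nat_lit 430) ln15_17_7 ln15_17_7_ok) (L (nat_lit 560) ln12_16_0 ln12_16_0_ok)))))))) (M (nat_lit 494) (B (L (nat_lit 558) ln14_17_7 ln14_17_7_ok) (M (nat_lit 495) (B (L (nat_lit 496) ln12_16_2 ln12_16_2_ok) (M (nat_lit 430) (B (L (nat_lit 398) ln14_12_4 ln14_12_4_ok) (L (nat_lit 557) ln14_13_5 ln14_13_5_ok))))))))))) (B (M (nat_lit 528) (B (M (nat_lit 496) (B (L (nat_lit 495) ln12_16_2 ln12_16_2_ok) (L (nat_lit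 497) ln13_16_2 ln13_16_2_ok))) (M (nat_lit 560) (B (L (nat_lit 559) ln12_16_0 ln12_16_0_ok) (L (nat_lit 561) ln13_16_0 ln13_16_0_ok))))) (M (nat_lit 556) (B (L (nat_lit 555) ln15_16_1 ln15_16_1_ok) (M (nat_lit 528) (B (L (nat_lit 557) ln16_16_1 ln16_16_1_ok) (M (nat_lit 496) (B (L (nat_lit 495) ln12_16_2 ln12_16_2_ok) (L (nat_lit 497) ln13_16_2 ln13_16_2_ok))))))))))) (B (M (nat_lit 523) (B (M (nat_lit 558) (B (L (nat_lit 559) ln11_16_0 ln11_16_0_ok) (M (nat_lit 494) (B (L (nat_lit 462) ln14_17_7 ln14_17_7_ok) (L (nat_lit 495) ln11_16_2 ln11_16_2_ok))))) (B (M (nat_lit 522) (B (M (nat_lit 554) (B (L (nat_lit 553) ln13_16_1 ln13_16_1_ok) (L (nat_lit 555) ln14_16_1 ln14_16_1_ok))) (M (nat_lit 558) (B (L (nat_lit 557) ln10_16_0 ln10_16_0_ok) (L (nat_lit 559) ln11_16_0 ln11_16_0_ok))))) (M (nat_lit 522) (B (M (nat_lit 554) (B (L (nat_lit 553) ln13_16_1 ln13_16_1_ok) (L (nat_lit 555) ln14_16_1 ln14_16_1_ok)))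 (B (M (nat_lit 555) (B (L (nat_lit 554) ln14_16_1 ln14_16_1_ok) (M (nat_lit 521) (B (M (nat_lit 489) (B (L (nat_lit 488) ln12_16_3 ln12_16_3_ok) (L (nat_lit 490) ln13_16_3 ln13_16_3_ok))) (M (nat_lit 556) (B (L (nat_lit 520) ln8_16_0 ln8_16_0_ok) (L (nat_lit 557) ln9_16_0 ln9_16_0_ok))))))) (B (M (nat_lit 521) (B (M (nat_lit 489) (B (L (nat_lit 488) ln12_16_3 ln12_16_3_ok) (L (nat_lit 490) ln13_16_3 ln13_16_3_ok))) (M (nat_lit 520) (B (M (nat_lit 552) (B (L (nat_lit 551) ln11_16_1 ln11_16_1_ok) (L (nat_lit 553) ln12_16_1 ln12_16_1_ok))) (M (nat_lit 556) (B (L (nat_lit 555) ln8_16_0 ln8_16_0_ok) (L (nat_lit 557) ln9_16_0 ln9_16_0_ok))))))) (M (nat_lit 521) (B (M (nat_lit 489) (B (L (nat_lit 488) ln12_16_3 ln12_16_3_ok) (L (nat_lit 490) ln13_16_3 ln13_16_3_ok))) (M (nat_lit 553) (B (L (nat_lit 552) ln12_16_1 ln12_16_1_ok) (L (nat_lit 554) ln13_16_1 ln13_16_1_ok)))))))))))) (B (M (nat_lit 558) (B (M (nat_lit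 559) (B (L (nat_lit 523) ln11_16_0 ln11_16_0_ok) (M (nat_lit 560) (B (L (nat_lit 557) ln16_17_3 ln16_17_3_ok) (L (nat_lit 561) ln17_17_3 ln17_17_3_ok))))) (B (M (nat_lit 494) (B (L (nat_lit 462) ln14_17_7 ln14_17_7_ok) (M (nat_lit 527) (B (M (nat_lit 495) (B (L (nat_lit 496) ln12_16_2 ln12_16_2_ok) (M (nat_lit 590) (B (L (nat_lit 463) ln14_18_6 ln14_18_6_ok) (L (nat_lit 622) ln14_19_6 ln14_19_6_ok))))) (M (nat_lit 528) (B (M (nat_lit 560) (B (L (nat_lit 559) ln12_16_0 ln12_16_0_ok) (L (nat_lit 561) ln13_16_0 ln13_16_0_ok))) (M (nat_lit 557) (B (L (nat_lit 556) ln16_16_1 ln16_16_1_ok) (L (nat_lit 529) ln17_16_1 ln17_16_1_ok))))))))) (B (M (nat_lit 559) (B (L (nat_lit 523) ln11_16_0 ln11_16_0_ok) (M (nat_lit 560) (B (L (nat_lit 527) ln12_16_0 ln12_16_0_ok) (L (nat_lit 561) ln17_17_3 ln17_17_3_ok))))) (M (nat_lit 494) (B (L (nat_lit 462) ln14_17_7 ln14_17_7_ok) (M (nat_lit 495) (B (L (nat_lit 523) ln11_16_2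 ln11_16_2_ok) (M (nat_lit 496) (B (L (nat_lit 497) ln17_15_1 ln17_15_1_ok) (L (nat_lit 527) ln12_16_2 ln12_16_2_ok))))))))))) (B (M (nat_lit 494) (B (M (nat_lit 558) (B (L (nat_lit 462) ln14_17_7 ln14_17_7_ok) (M (nat_lit 523) (B (L (nat_lit 495) ln11_16_2 ln11_16_2_ok) (L (nat_lit 559) ln11_16_0 ln11_16_0_ok))))) (B (M (nat_lit 495) (B (L (nat_lit 523) ln11_16_2 ln11_16_2_ok) (M (nat_lit 496) (B (L (nat_lit 497) ln17_15_1 ln17_15_1_ok) (L (nat_lit 527) ln12_16_2 ln12_16_2_ok))))) (B (M (nat_lit 558) (B (L (nat_lit 462) ln14_17_7 ln14_17_7_ok) (M (nat_lit 559) (B (L (nat_lit 523) ln11_16_0 ln11_16_0_ok) (M (nat_lit 560) (B (L (nat_lit 527) ln12_16_0 ln12_16_0_ok) (L (nat_lit 557) ln16_17_3 ln16_17_3_ok))))))) (M (nat_lit 462) (B (L (nat_lit 558) ln14_17_7 ln14_17_7_ok) (M (nat_lit 460) (B (M (nat_lit 495) (B (L (nat_lit 459) ln11_14_0 ln11_14_0_ok) (M (nat_lit 496) (B (L (nat_lit 463) ln12_14_0 ln12_14_0_ok)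 (L (nat_lit 497) ln17_15_3 ln17_15_3_ok))))) (B (M (nat_lit 428) (B (M (nat_lit 427) (B (L (nat_lit 426) ln10_13_0 ln10_13_0_ok) (L (nat_lit 463) ln15_14_3 ln15_14_3_ok))) (M (nat_lit 557) (B (L (nat_lit 492) ln12_13_4 ln12_13_4_ok) (L (nat_lit 430) ln14_13_5 ln14_13_5_ok))))) (M (nat_lit 495) (B (L (nat_lit 459) ln11_14_0 ln11_14_0_ok) (M (nat_lit 496) (B (L (nat_lit 497) ln17_15_3 ln17_15_3_ok) (L (nat_lit 527) ln12_16_2 ln12_16_2_ok)))))))))))))) (B (M (nat_lit 527) (B (M (nat_lit 528) (B (M (nat_lit 556) (B (L (nat_lit 555) ln15_16_1 ln15_16_1_ok) (L (nat_lit 557) ln16_16_1 ln16_16_1_ok))) (M (nat_lit 560) (B (L (nat_lit 559) ln12_16_0 ln12_16_0_ok) (L (nat_lit 561) ln13_16_0 ln13_16_0_ok))))) (B (M (nat_lit 523) (B (M (nat_lit 495) (B (L (nat_lit 494) ln11_16_2 ln11_16_2_ok) (L (nat_lit 496) ln12_16_2 ln12_16_2_ok))) (M (nat_lit 555) (B (L (nat_lit 554) ln14_16_1 ln14_16_1_ok) (L (nat_lit 556) ln15_16_1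 ln15_16_1_ok))))) (M (nat_lit 528) (B (M (nat_lit 496) (B (L (nat_lit 495) ln12_16_2 ln12_16_2_ok) (L (nat_lit 497) ln13_16_2 ln13_16_2_ok))) (M (nat_lit 560) (B (L (nat_lit 559) ln12_16_0 ln12_16_0_ok) (L (nat_lit 561) ln13_16_0 ln13_16_0_ok)))))))) (M (nat_lit 523) (B (M (nat_lit 527) (B (M (nat_lit 495) (B (L (nat_lit 494) ln11_16_2 ln11_16_2_ok) (L (nat_lit 496) ln12_16_2 ln12_16_2_ok))) (M (nat_lit 555) (B (L (nat_lit 554) ln14_16_1 ln14_16_1_ok) (L (nat_lit 556) ln15_16_1 ln15_16_1_ok))))) (B (M (nat_lit 522) (B (M (nat_lit 554) (B (L (nat_lit 553) ln13_16_1 ln13_16_1_ok) (L (nat_lit 555) ln14_16_1 ln14_16_1_ok))) (M (nat_lit 521) (B (M (nat_lit 489) (B (L (nat_lit 488) ln12_16_3 ln12_16_3_ok) (L (nat_lit 490) ln13_16_3 ln13_16_3_ok))) (M (nat_lit 557) (B (L (nat_lit 556) ln9_16_0 ln9_16_0_ok) (L (nat_lit 558) ln10_16_0 ln10_16_0_ok))))))) (B (M (nat_lit 557) (B (M (nat_lit 558) (B (L (nat_lit 522)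 ln10_16_0 ln10_16_0_ok) (M (nat_lit 494) (B (L (nat_lit 462) ln14_17_7 ln14_17_7_ok) (L (nat_lit 495) ln11_16_2 ln11_16_2_ok))))) (B (M (nat_lit 556) (B (M (nat_lit 522) (B (L (nat_lit 521) ln9_16_0 ln9_16_0_ok) (L (nat_lit 558) ln10_16_0 ln10_16_0_ok))) (M (nat_lit 527) (B (L (nat_lit 555) ln15_16_1 ln15_16_1_ok) (L (nat_lit 528) ln16_16_1 ln16_16_1_ok))))) (M (nat_lit 527) (B (M (nat_lit 495) (B (L (nat_lit 494) ln11_16_2 ln11_16_2_ok) (L (nat_lit 496) ln12_16_2 ln12_16_2_ok))) (M (nat_lit 556) (B (L (nat_lit 555) ln15_16_1 ln15_16_1_ok) (L (nat_lit 528) ln16_16_1 ln16_16_1_ok)))))))) (M (nat_lit 522) (B (M (nat_lit 494) (B (L (nat_lit 495) ln11_16_2 ln11_16_2_ok) (M (nat_lit 558) (B (L (nat_lit 462) ln14_17_7 ln14_17_7_ok) (L (nat_lit 557) ln10_16_0 ln10_16_0_ok))))) (M (nat_lit 521) (B (M (nat_lit 489) (B (L (nat_lit 488) ln12_16_3 ln12_16_3_ok) (L (nat_lit 490) ln13_16_3 ln13_16_3_ok))) (M (nat_lit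 553) (B (L (nat_lit 552) ln12_16_1 ln12_16_1_ok) (L (nat_lit 554) ln13_16_1 ln13_16_1_ok))))))))))))))))))))) (nat_lit 164755143843134633165519882008769383708906915267447070062963694898921764489057621250214468214407175761246081372362678925016764078040427586613993921442859712512) (nat_lit 17404329760776608198154939092724886589605681519279661810745230503500627587405417295482755076294466299984690939647226626919094228862685269091973758750349083614517926704681899380183859724288) (nat_lit 17404329760776608198154939092724886589605681519279661810745230503500627587405417295482755076294466299984690939647226626919094228862685269091973758750349083614517926704681899380183859724288) (by decide +kernel)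
theorem c20_s1914 : Sem (nat_lit 164755143843134633165519882008769383708906915267447070062963694898921764489057621250214468214407175761246081372362678925016764078040427586613993921442859712512) (nat_lit 17404329760776608198132826031631650674247502737172794209705431475469557383493186100171105325990904363006968958374542253866225331561843117947762915162405272547286191816773090810885333581824) (nat_lit 17404329760776608198132826031631650674247502737172794209705431475469557383493186100171105325990904363006968958374542253866225331561843117947762915162405272547286191816773090810885333581824) :=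
  sem_of_chk (M (nat_lit 526) (B (M (nat_lit 523) (B (M (nat_lit 558) (B (L (nat_lit 559) ln11_16_0 ln11_16_0_ok) (M (nat_lit 494) (B (L (nat_lit 462) ln14_17_7 ln14_17_7_ok) (L (nat_lit 495) ln11_16_2 ln11_16_2_ok))))) (B (M (nat_lit 527) (B (M (nat_lit 555) (B (L (nat_lit 554) ln14_16_1 ln14_16_1_ok) (L (nat_lit 556) ln15_16_1 ln15_16_1_ok))) (M (nat_lit 559) (B (L (nat_lit 558) ln11_16_0 ln11_16_0_ok) (L (nat_lit 560) ln12_16_0 ln12_16_0_ok))))) (M (nat_lit 527) (B (M (nat_lit 495) (B (L (nat_lit 494) ln11_16_2 ln11_16_2_ok) (L (nat_lit 496) ln12_16_2 ln12_16_2_ok))) (M (nat_lit 555) (B (L (nat_lit 554) ln14_16_1 ln14_16_1_ok) (L (nat_lit 556) ln15_16_1 ln15_16_1_ok)))))))) (B (M (nat_lit 523) (B (M (nat_lit 527) (B (M (nat_lit 495) (B (L (nat_lit 494) ln11_16_2 ln11_16_2_ok) (L (nat_lit 496) ln12_16_2 ln12_16_2_ok))) (M (nat_lit 559) (B (L (nat_lit 558) ln11_16_0 ln11_16_0_ok) (L (nat_lit 560) ln12_16_0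 ln12_16_0_ok))))) (M (nat_lit 522) (B (M (nat_lit 490) (B (L (nat_lit 489) ln13_16_3 ln13_16_3_ok) (L (nat_lit 491) ln14_16_3 ln14_16_3_ok))) (M (nat_lit 554) (B (L (nat_lit 553) ln13_16_1 ln13_16_1_ok) (L (nat_lit 555) ln14_16_1 ln14_16_1_ok))))))) (B (M (nat_lit 523) (B (M (nat_lit 522) (B (M (nat_lit 490) (B (L (nat_lit 489) ln13_16_3 ln13_16_3_ok) (L (nat_lit 491) ln14_16_3 ln14_16_3_ok))) (M (nat_lit 558) (B (L (nat_lit 557) ln10_16_0 ln10_16_0_ok) (L (nat_lit 559) ln11_16_0 ln11_16_0_ok))))) (B (M (nat_lit 522) (B (M (nat_lit 554) (B (L (nat_lit 553) ln13_16_1 ln13_16_1_ok) (L (nat_lit 555) ln14_16_1 ln14_16_1_ok))) (M (nat_lit 558) (B (L (nat_lit 557) ln10_16_0 ln10_16_0_ok) (L (nat_lit 559) ln11_16_0 ln11_16_0_ok))))) (B (M (nat_lit 527) (B (M (nat_lit 555) (B (L (nat_lit 554) ln14_16_1 ln14_16_1_ok) (L (nat_lit 556) ln15_16_1 ln15_16_1_ok))) (M (nat_lit 559) (B (L (nat_lit 558) ln11_16_0 ln11_16_0_ok)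 (L (nat_lit 560) ln12_16_0 ln12_16_0_ok))))) (M (nat_lit 522) (B (M (nat_lit 490) (B (L (nat_lit 489) ln13_16_3 ln13_16_3_ok) (L (nat_lit 491) ln14_16_3 ln14_16_3_ok))) (M (nat_lit 554) (B (L (nat_lit 553) ln13_16_1 ln13_16_1_ok) (L (nat_lit 555) ln14_16_1 ln14_16_1_ok))))))))) (B (M (nat_lit 527) (B (M (nat_lit 528) (B (M (nat_lit 556) (B (L (nat_lit 555) ln15_16_1 ln15_16_1_ok) (L (nat_lit 557) ln16_16_1 ln16_16_1_ok))) (M (nat_lit 560) (B (L (nat_lit 559) ln12_16_0 ln12_16_0_ok) (L (nat_lit 561) ln13_16_0 ln13_16_0_ok))))) (B (M (nat_lit 462) (B (M (nat_lit 494) (B (L (nat_lit 558) ln14_17_7 ln14_17_7_ok) (M (nat_lit 430) (B (L (nat_lit 557) ln14_13_5 ln14_13_5_ok) (L (nat_lit 559) ln14_13_4 ln14_13_4_ok))))) (B (M (nat_lit 494) (B (L (nat_lit 558) ln14_17_7 ln14_17_7_ok) (M (nat_lit 559) (B (L (nat_lit 560) ln12_16_0 ln12_16_0_ok) (M (nat_lit 495) (B (L (nat_lit 591) ln15_18_7 ln15_18_7_ok) (L (nat_lit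 496) ln12_16_2 ln12_16_2_ok))))))) (B (M (nat_lit 463) (B (M (nat_lit 428) (B (L (nat_lit 464) ln16_14_3 ln16_14_3_ok) (M (nat_lit 427) (B (L (nat_lit 426) ln10_13_0 ln10_13_0_ok) (L (nat_lit 460) ln15_14_3 ln15_14_3_ok))))) (B (M (nat_lit 428) (B (L (nat_lit 464) ln16_14_3 ln16_14_3_ok) (M (nat_lit 427) (B (L (nat_lit 430) ln11_13_0 ln11_13_0_ok) (L (nat_lit 460) ln15_14_3 ln15_14_3_ok))))) (M (nat_lit 495) (B (L (nat_lit 496) ln12_16_2 ln12_16_2_ok) (M (nat_lit 559) (B (L (nat_lit 430) ln15_17_7 ln15_17_7_ok) (L (nat_lit 560) ln12_16_0 ln12_16_0_ok)))))))) (M (nat_lit 494) (B (L (nat_lit 558) ln14_17_7 ln14_17_7_ok) (M (nat_lit 495) (B (L (nat_lit 496) ln12_16_2 ln12_16_2_ok) (M (nat_lit 430) (B (L (nat_lit 398) ln14_12_4 ln14_12_4_ok) (L (nat_lit 557) ln14_13_5 ln14_13_5_ok))))))))))) (B (M (nat_lit 528) (B (M (nat_lit 496) (B (L (nat_lit 495) ln12_16_2 ln12_16_2_ok) (L (nat_lit 497) ln13_16_2 ln13_16_2_ok)))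 (M (nat_lit 560) (B (L (nat_lit 559) ln12_16_0 ln12_16_0_ok) (L (nat_lit 561) ln13_16_0 ln13_16_0_ok))))) (M (nat_lit 556) (B (L (nat_lit 555) ln15_16_1 ln15_16_1_ok) (M (nat_lit 528) (B (L (nat_lit 557) ln16_16_1 ln16_16_1_ok) (M (nat_lit 496) (B (L (nat_lit 495) ln12_16_2 ln12_16_2_ok) (L (nat_lit 497) ln13_16_2 ln13_16_2_ok))))))))))) (B (M (nat_lit 523) (B (M (nat_lit 558) (B (L (nat_lit 559) ln11_16_0 ln11_16_0_ok) (M (nat_lit 494) (B (L (nat_lit 462) ln14_17_7 ln14_17_7_ok) (L (nat_lit 495) ln11_16_2 ln11_16_2_ok))))) (M (nat_lit 522) (B (M (nat_lit 490) (B (L (nat_lit 489) ln13_16_3 ln13_16_3_ok) (L (nat_lit 491) ln14_16_3 ln14_16_3_ok))) (M (nat_lit 554) (B (L (nat_lit 553) ln13_16_1 ln13_16_1_ok) (L (nat_lit 555) ln14_16_1 ln14_16_1_ok))))))) (B (M (nat_lit 558) (B (M (nat_lit 559) (B (L (nat_lit 523) ln11_16_0 ln11_16_0_ok) (M (nat_lit 560) (B (L (nat_lit 557) ln16_17_3 ln16_17_3_ok) (L (nat_lit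 561) ln17_17_3 ln17_17_3_ok))))) (B (M (nat_lit 494) (B (L (nat_lit 462) ln14_17_7 ln14_17_7_ok) (M (nat_lit 527) (B (M (nat_lit 495) (B (L (nat_lit 496) ln12_16_2 ln12_16_2_ok) (M (nat_lit 590) (B (L (nat_lit 463) ln14_18_6 ln14_18_6_ok) (L (nat_lit 622) ln14_19_6 ln14_19_6_ok))))) (M (nat_lit 528) (B (M (nat_lit 560) (B (L (nat_lit 559) ln12_16_0 ln12_16_0_ok) (L (nat_lit 561) ln13_16_0 ln13_16_0_ok))) (M (nat_lit 557) (B (L (nat_lit 556) ln16_16_1 ln16_16_1_ok) (L (nat_lit 529) ln17_16_1 ln17_16_1_ok))))))))) (B (M (nat_lit 559) (B (L (nat_lit 523) ln11_16_0 ln11_16_0_ok) (M (nat_lit 560) (B (L (nat_lit 527) ln12_16_0 ln12_16_0_ok) (L (nat_lit 561) ln17_17_3 ln17_17_3_ok))))) (M (nat_lit 494) (B (L (nat_lit 462) ln14_17_7 ln14_17_7_ok) (M (nat_lit 495) (B (L (nat_lit 523) ln11_16_2 ln11_16_2_ok) (M (nat_lit 496) (B (L (nat_lit 497) ln17_15_1 ln17_15_1_ok) (L (nat_lit 527) ln12_16_2 ln12_16_2_ok)))))))))))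 (B (M (nat_lit 527) (B (M (nat_lit 528) (B (M (nat_lit 556) (B (L (nat_lit 555) ln15_16_1 ln15_16_1_ok) (L (nat_lit 557) ln16_16_1 ln16_16_1_ok))) (M (nat_lit 560) (B (L (nat_lit 559) ln12_16_0 ln12_16_0_ok) (L (nat_lit 561) ln13_16_0 ln13_16_0_ok))))) (B (M (nat_lit 523) (B (M (nat_lit 495) (B (L (nat_lit 494) ln11_16_2 ln11_16_2_ok) (L (nat_lit 496) ln12_16_2 ln12_16_2_ok))) (M (nat_lit 555) (B (L (nat_lit 554) ln14_16_1 ln14_16_1_ok) (L (nat_lit 556) ln15_16_1 ln15_16_1_ok))))) (M (nat_lit 528) (B (M (nat_lit 496) (B (L (nat_lit 495) ln12_16_2 ln12_16_2_ok) (L (nat_lit 497) ln13_16_2 ln13_16_2_ok))) (M (nat_lit 560) (B (L (nat_lit 559) ln12_16_0 ln12_16_0_ok) (L (nat_lit 561) ln13_16_0 ln13_16_0_ok)))))))) (M (nat_lit 523) (B (M (nat_lit 522) (B (M (nat_lit 490) (B (L (nat_lit 489) ln13_16_3 ln13_16_3_ok) (L (nat_lit 491) ln14_16_3 ln14_16_3_ok))) (M (nat_lit 554) (B (L (nat_lit 553) ln13_16_1 ln13_16_1_ok)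 (L (nat_lit 555) ln14_16_1 ln14_16_1_ok))))) (B (M (nat_lit 527) (B (M (nat_lit 495) (B (L (nat_lit 494) ln11_16_2 ln11_16_2_ok) (L (nat_lit 496) ln12_16_2 ln12_16_2_ok))) (M (nat_lit 555) (B (L (nat_lit 554) ln14_16_1 ln14_16_1_ok) (L (nat_lit 556) ln15_16_1 ln15_16_1_ok))))) (M (nat_lit 558) (B (M (nat_lit 494) (B (L (nat_lit 462) ln14_17_7 ln14_17_7_ok) (L (nat_lit 495) ln11_16_2 ln11_16_2_ok))) (M (nat_lit 490) (B (L (nat_lit 491) ln14_16_3 ln14_16_3_ok) (M (nat_lit 522) (B (L (nat_lit 489) ln13_16_3 ln13_16_3_ok) (L (nat_lit 557) ln10_16_0 ln10_16_0_ok)))))))))))))))))) (nat_lit 164755143843134633165519882008769383708906915267447070062963694898921764489057621250214468214407175761246081372362678925016764078040427586613993921442859712512) (nat_lit 17404329760776608198132826031631650674247502737172794209705431475469557383493186100171105325990904363006968958374542253866225331561843117947762915162405272547286191816773090810885333581824)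 (nat_lit 17404329760776608198132826031631650674247502737172794209705431475469557383493186100171105325990904363006968958374542253866225331561843117947762915162405272547286191816773090810885333581824) (by decide +kernel)
noncomputable def c20_n1965 : Cert := (M (nat_lit 459) (B (M (nat_lit 458) (B (L (nat_lit 430) ln10_14_2 ln10_14_2_ok) (M (nat_lit 462) (B (M (nat_lit 426) (B (L (nat_lit 425) ln13_14_3 ln13_14_3_ok) (L (nat_lit 427) ln14_14_3 ln14_14_3_ok))) (M (nat_lit 490) (B (L (nat_lit 489) ln13_14_1 ln13_14_1_ok) (L (nat_lit 491) ln14_14_1 ln14_14_1_ok))))))) (B (M (nat_lit 491) (B (M (nat_lit 490) (B (L (nat_lit 462) ln14_14_1 ln14_14_1_ok) (M (nat_lit 458) (B (L (nat_lit 430) ln10_14_2 ln10_14_2_ok) (L (nat_lit 489) ln13_14_1 ln13_14_1_ok))))) (B (M (nat_lit 490) (B (L (nat_lit 462) ln14_14_1 ln14_14_1_ok) (M (nat_lit 489) (B (L (nat_lit 458) ln13_14_1 ln13_14_1_ok) (L (nat_lit 492) ln9_15_2 ln9_15_2_ok)))))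 (B (M (nat_lit 490) (B (L (nat_lit 462) ln14_14_1 ln14_14_1_ok) (M (nat_lit 492) (B (L (nat_lit 556) ln12_17_6 ln12_17_6_ok) (L (nat_lit 489) ln9_15_2 ln9_15_2_ok))))) (M (nat_lit 523) (B (M (nat_lit 556) (B (L (nat_lit 427) ln11_13_4 ln11_13_4_ok) (L (nat_lit 492) ln12_17_6 ln12_17_6_ok))) (B (M (nat_lit 555) (B (M (nat_lit 556) (B (L (nat_lit 492) ln12_17_6 ln12_17_6_ok) (L (nat_lit 588) ln11_14_4 ln11_14_4_ok))) (M (nat_lit 554) (B (L (nat_lit 586) ln11_14_5 ln11_14_5_ok) (L (nat_lit 526) ln14_16_1 ln14_16_1_ok))))) (B (M (nat_lit 554) (B (M (nat_lit 427) (B (L (nat_lit 522) ln11_13_5 ln11_13_5_ok) (L (nat_lit 556) ln11_13_4 ln11_13_4_ok))) (M (nat_lit 555) (B (L (nat_lit 586) ln11_14_5 ln11_14_5_ok) (L (nat_lit 526) ln14_16_1 ln14_16_1_ok))))) (M (nat_lit 554) (B (M (nat_lit 522) (B (L (nat_lit 427) ln11_13_5 ln11_13_5_ok) (L (nat_lit 553) ln13_16_1 ln13_16_1_ok))) (M (nat_lit 555) (B (L (nat_lit 586)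 ln11_14_5 ln11_14_5_ok) (L (nat_lit 526) ln14_16_1 ln14_16_1_ok))))))))))))) (B (M (nat_lit 458) (B (L (nat_lit 430) ln10_14_2 ln10_14_2_ok) (M (nat_lit 457) (B (M (nat_lit 425) (B (L (nat_lit 424) ln12_14_3 ln12_14_3_ok) (L (nat_lit 426) ln13_14_3 ln13_14_3_ok))) (M (nat_lit 489) (B (L (nat_lit 488) ln12_14_1 ln12_14_1_ok) (L (nat_lit 490) ln13_14_1 ln13_14_1_ok))))))) (B (M (nat_lit 427) (B (M (nat_lit 492) (B (L (nat_lit 556) ln12_17_7 ln12_17_7_ok) (M (nat_lit 395) (B (L (nat_lit 363) ln11_11_4 ln11_11_4_ok) (L (nat_lit 491) ln11_12_4 ln11_12_4_ok))))) (M (nat_lit 426) (B (L (nat_lit 462) ln14_14_3 ln14_14_3_ok) (M (nat_lit 425) (B (L (nat_lit 424) ln8_13_0 ln8_13_0_ok) (L (nat_lit 458) ln13_14_3 ln13_14_3_ok))))))) (M (nat_lit 491) (B (M (nat_lit 490) (B (L (nat_lit 462) ln14_14_1 ln14_14_1_ok) (M (nat_lit 492) (B (L (nat_lit 556) ln12_17_6 ln12_17_6_ok) (L (nat_lit 489) ln9_15_2 ln9_15_2_ok))))) (B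 (M (nat_lit 523) (B (M (nat_lit 556) (B (L (nat_lit 427) ln11_13_4 ln11_13_4_ok) (L (nat_lit 492) ln12_17_6 ln12_17_6_ok))) (B (M (nat_lit 555) (B (M (nat_lit 556) (B (L (nat_lit 492) ln12_17_6 ln12_17_6_ok) (L (nat_lit 588) ln11_14_4 ln11_14_4_ok))) (M (nat_lit 554) (B (L (nat_lit 586) ln11_14_5 ln11_14_5_ok) (L (nat_lit 526) ln14_16_1 ln14_16_1_ok))))) (B (M (nat_lit 554) (B (M (nat_lit 427) (B (L (nat_lit 522) ln11_13_5 ln11_13_5_ok) (L (nat_lit 556) ln11_13_4 ln11_13_4_ok))) (M (nat_lit 555) (B (L (nat_lit 586) ln11_14_5 ln11_14_5_ok) (L (nat_lit 526) ln14_16_1 ln14_16_1_ok))))) (M (nat_lit 554) (B (M (nat_lit 522) (B (L (nat_lit 427) ln11_13_5 ln11_13_5_ok) (L (nat_lit 553) ln13_16_1 ln13_16_1_ok))) (M (nat_lit 555) (B (L (nat_lit 586) ln11_14_5 ln11_14_5_ok) (L (nat_lit 526) ln14_16_1 ln14_16_1_ok))))))))) (M (nat_lit 490) (B (L (nat_lit 462) ln14_14_1 ln14_14_1_ok) (M (nat_lit 489) (B (L (nat_lit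 488) ln8_15_2 ln8_15_2_ok) (M (nat_lit 523) (B (L (nat_lit 522) ln13_16_3 ln13_16_3_ok) (L (nat_lit 526) ln14_16_3 ln14_16_3_ok)))))))))))))))
noncomputable def c20_n2018 : Cert := (M (nat_lit 523) (B (M (nat_lit 491) (B (M (nat_lit 490) (B (L (nat_lit 462) ln14_14_1 ln14_14_1_ok) (L (nat_lit 526) ln14_16_3 ln14_16_3_ok))) (M (nat_lit 556) (B (L (nat_lit 427) ln11_13_4 ln11_13_4_ok) (M (nat_lit 555) (B (L (nat_lit 428) ln11_17_6 ln11_17_6_ok) (L (nat_lit 588) ln11_14_4 ln11_14_4_ok))))))) (B (M (nat_lit 491) (B (M (nat_lit 490) (B (L (nat_lit 462) ln14_14_1 ln14_14_1_ok) (L (nat_lit 526) ln14_16_3 ln14_16_3_ok))) (B (M (nat_lit 490) (B (L (nat_lit 526) ln14_16_3 ln14_16_3_ok) (M (nat_lit 489) (B (L (nat_lit 488) ln8_15_2 ln8_15_2_ok) (L (nat_lit 522) ln13_16_3 ln13_16_3_ok))))) (B (M (nat_lit 555) (B (L (nat_lit 428) ln11_17_6 ln11_17_6_ok) (M (nat_lit 554) (B (L (nat_lit 586) ln11_14_5 ln11_14_5_ok) (L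 (nat_lit 526) ln14_16_1 ln14_16_1_ok))))) (M (nat_lit 490) (B (L (nat_lit 462) ln14_14_1 ln14_14_1_ok) (M (nat_lit 489) (B (L (nat_lit 488) ln8_15_2 ln8_15_2_ok) (L (nat_lit 522) ln13_16_3 ln13_16_3_ok))))))))) (B (M (nat_lit 491) (B (M (nat_lit 490) (B (L (nat_lit 462) ln14_14_1 ln14_14_1_ok) (L (nat_lit 526) ln14_16_3 ln14_16_3_ok))) (B (M (nat_lit 490) (B (L (nat_lit 526) ln14_16_3 ln14_16_3_ok) (M (nat_lit 489) (B (L (nat_lit 488) ln8_15_2 ln8_15_2_ok) (L (nat_lit 522) ln13_16_3 ln13_16_3_ok))))) (B (M (nat_lit 554) (B (M (nat_lit 522) (B (L (nat_lit 427) ln11_13_5 ln11_13_5_ok) (L (nat_lit 553) ln13_16_1 ln13_16_1_ok))) (M (nat_lit 555) (B (L (nat_lit 586) ln11_14_5 ln11_14_5_ok) (L (nat_lit 526) ln14_16_1 ln14_16_1_ok))))) (M (nat_lit 490) (B (L (nat_lit 462) ln14_14_1 ln14_14_1_ok) (M (nat_lit 489) (B (L (nat_lit 488) ln8_15_2 ln8_15_2_ok) (L (nat_lit 522) ln13_16_3 ln13_16_3_ok))))))))) (B (M (nat_lit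 491) (B (M (nat_lit 490) (B (L (nat_lit 526) ln14_16_3 ln14_16_3_ok) (M (nat_lit 489) (B (L (nat_lit 488) ln8_15_2 ln8_15_2_ok) (L (nat_lit 522) ln13_16_3 ln13_16_3_ok))))) (M (nat_lit 556) (B (L (nat_lit 427) ln11_13_4 ln11_13_4_ok) (M (nat_lit 555) (B (L (nat_lit 428) ln11_17_6 ln11_17_6_ok) (L (nat_lit 588) ln11_14_4 ln11_14_4_ok))))))) (B (M (nat_lit 427) (B (M (nat_lit 491) (B (L (nat_lit 556) ln11_13_4 ln11_13_4_ok) (M (nat_lit 428) (B (L (nat_lit 396) ln11_16_6 ln11_16_6_ok) (L (nat_lit 555) ln11_17_6 ln11_17_6_ok))))) (B (M (nat_lit 491) (B (L (nat_lit 556) ln11_13_4 ln11_13_4_ok) (M (nat_lit 426) (B (L (nat_lit 394) ln11_16_7 ln11_16_7_ok) (L (nat_lit 462) ln14_14_3 ln14_14_3_ok))))) (M (nat_lit 426) (B (L (nat_lit 462) ln14_14_3 ln14_14_3_ok) (M (nat_lit 425) (B (L (nat_lit 424) ln8_13_0 ln8_13_0_ok) (L (nat_lit 428) ln9_13_0 ln9_13_0_ok)))))))) (B (M (nat_lit 522) (B (M (nat_lit 521) (B (M (nat_lit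 489) (B (L (nat_lit 488) ln12_16_3 ln12_16_3_ok) (L (nat_lit 490) ln13_16_3 ln13_16_3_ok))) (M (nat_lit 553) (B (L (nat_lit 552) ln12_16_1 ln12_16_1_ok) (L (nat_lit 554) ln13_16_1 ln13_16_1_ok))))) (B (M (nat_lit 521) (B (M (nat_lit 553) (B (L (nat_lit 552) ln12_16_1 ln12_16_1_ok) (L (nat_lit 554) ln13_16_1 ln13_16_1_ok))) (M (nat_lit 557) (B (L (nat_lit 556) ln9_16_0 ln9_16_0_ok) (L (nat_lit 558) ln10_16_0 ln10_16_0_ok))))) (B (M (nat_lit 526) (B (M (nat_lit 554) (B (L (nat_lit 553) ln13_16_1 ln13_16_1_ok) (L (nat_lit 555) ln14_16_1 ln14_16_1_ok))) (M (nat_lit 558) (B (L (nat_lit 557) ln10_16_0 ln10_16_0_ok) (L (nat_lit 559) ln11_16_0 ln11_16_0_ok))))) (M (nat_lit 521) (B (M (nat_lit 489) (B (L (nat_lit 488) ln12_16_3 ln12_16_3_ok) (L (nat_lit 490) ln13_16_3 ln13_16_3_ok))) (M (nat_lit 557) (B (L (nat_lit 556) ln9_16_0 ln9_16_0_ok) (L (nat_lit 558) ln10_16_0 ln10_16_0_ok))))))))) (M (nat_lit 491) (B (M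 (nat_lit 490) (B (L (nat_lit 462) ln14_14_1 ln14_14_1_ok) (L (nat_lit 526) ln14_16_3 ln14_16_3_ok))) (B (M (nat_lit 490) (B (L (nat_lit 526) ln14_16_3 ln14_16_3_ok) (M (nat_lit 489) (B (L (nat_lit 488) ln8_15_2 ln8_15_2_ok) (L (nat_lit 522) ln13_16_3 ln13_16_3_ok))))) (M (nat_lit 427) (B (L (nat_lit 556) ln11_13_4 ln11_13_4_ok) (M (nat_lit 426) (B (L (nat_lit 394) ln11_16_7 ln11_16_7_ok) (L (nat_lit 462) ln14_14_3 ln14_14_3_ok)))))))))))))))
theorem c20_s2019 : Sem (nat_lit 164755143843134633168497013423484189532596945584556336635676209912297019263970605106058366738519653655190159916086254489553647366539693851429751649713665343488) (nat_lit 1266331659301515598757082222712035914718177029943511646063006511092978987595078186295165404557843478805093810668483904187138374450125369462210523450266902391748500154624052822016) (nat_lit 1266331659301515598757082222712035914718177029943511646063006511092978987595078186295165404557843478805093810668483904187138374450125369462210523450266902391748500154624052822016)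 :=
  sem_of_chk (M (nat_lit 459) (B (M (nat_lit 458) (B (L (nat_lit 430) ln10_14_2 ln10_14_2_ok) (M (nat_lit 457) (B (L (nat_lit 428) ln9_14_2 ln9_14_2_ok) (M (nat_lit 425) (B (L (nat_lit 424) ln12_14_3 ln12_14_3_ok) (L (nat_lit 426) ln13_14_3 ln13_14_3_ok))))))) (B (M (nat_lit 458) (B (L (nat_lit 430) ln10_14_2 ln10_14_2_ok) (M (nat_lit 457) (B (L (nat_lit 428) ln9_14_2 ln9_14_2_ok) (M (nat_lit 489) (B (L (nat_lit 488) ln12_14_1 ln12_14_1_ok) (L (nat_lit 490) ln13_14_1 ln13_14_1_ok))))))) (B (M (nat_lit 458) (B (L (nat_lit 430) ln10_14_2 ln10_14_2_ok) (M (nat_lit 457) (B (M (nat_lit 425) (B (L (nat_lit 424) ln12_14_3 ln12_14_3_ok) (L (nat_lit 426) ln13_14_3 ln13_14_3_ok))) (M (nat_lit 489) (B (L (nat_lit 488) ln12_14_1 ln12_14_1_ok) (L (nat_lit 490) ln13_14_1 ln13_14_1_ok))))))) (B (M (nat_lit 458) (B (M (nat_lit 457) (B (L (nat_lit 428) ln9_14_2 ln9_14_2_ok) (M (nat_lit 489) (B (L (nat_lit 488) ln12_14_1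 ln12_14_1_ok) (L (nat_lit 490) ln13_14_1 ln13_14_1_ok))))) (B (M (nat_lit 462) (B (M (nat_lit 426) (B (L (nat_lit 425) ln13_14_3 ln13_14_3_ok) (L (nat_lit 427) ln14_14_3 ln14_14_3_ok))) (M (nat_lit 490) (B (L (nat_lit 489) ln13_14_1 ln13_14_1_ok) (L (nat_lit 491) ln14_14_1 ln14_14_1_ok))))) (M (nat_lit 457) (B (L (nat_lit 428) ln9_14_2 ln9_14_2_ok) (M (nat_lit 425) (B (L (nat_lit 424) ln12_14_3 ln12_14_3_ok) (L (nat_lit 426) ln13_14_3 ln13_14_3_ok)))))))) (B (M (nat_lit 458) (B (L (nat_lit 430) ln10_14_2 ln10_14_2_ok) (M (nat_lit 462) (B (M (nat_lit 426) (B (L (nat_lit 425) ln13_14_3 ln13_14_3_ok) (L (nat_lit 427) ln14_14_3 ln14_14_3_ok))) (M (nat_lit 490) (B (L (nat_lit 489) ln13_14_1 ln13_14_1_ok) (L (nat_lit 491) ln14_14_1 ln14_14_1_ok))))))) c20_n2018)))))) (nat_lit 164755143843134633168497013423484189532596945584556336635676209912297019263970605106058366738519653655190159916086254489553647366539693851429751649713665343488)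 (nat_lit 1266331659301515598757082222712035914718177029943511646063006511092978987595078186295165404557843478805093810668483904187138374450125369462210523450266902391748500154624052822016) (nat_lit 1266331659301515598757082222712035914718177029943511646063006511092978987595078186295165404557843478805093810668483904187138374450125369462210523450266902391748500154624052822016) (by decide +kernel)
theorem c20_s2021 : Sem (nat_lit 164755143843134633165519882008769383708906915267447070062963694898921764489057621250214468214407175761246081372362678925016764078040427586613993921442859712512) (nat_lit 1266331659301515598757082222724822596807065516855683920729530288444055225657259862721056246094081603544577586981458736812572014679012999956850681594073186766666290948672782860288) (nat_lit 1266331659301515598757082222724822596807065516855683920729530288444055225657259862721056246094081603544577586981458736812572014679012999956850681594073186766666290948672782860288)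 :=
  sem_of_chk (M (nat_lit 460) (B (M (nat_lit 492) (B (L (nat_lit 556) ln12_17_6 ln12_17_6_ok) (M (nat_lit 428) (B (L (nat_lit 557) ln12_13_4 ln12_13_4_ok) (M (nat_lit 427) (B (L (nat_lit 395) ln12_16_7 ln12_16_7_ok) (M (nat_lit 426) (B (L (nat_lit 425) ln9_13_0 ln9_13_0_ok) (L (nat_lit 462) ln10_13_0 ln10_13_0_ok))))))))) (B (M (nat_lit 492) (B (L (nat_lit 556) ln12_17_6 ln12_17_6_ok) (M (nat_lit 491) (B (M (nat_lit 490) (B (L (nat_lit 489) ln9_15_2 ln9_15_2_ok) (M (nat_lit 462) (B (L (nat_lit 459) ln14_14_1 ln14_14_1_ok) (L (nat_lit 463) ln15_14_1 ln15_14_1_ok))))) (M (nat_lit 428) (B (L (nat_lit 557) ln12_13_4 ln12_13_4_ok) (M (nat_lit 523) (B (L (nat_lit 396) ln12_12_5 ln12_12_5_ok) (L (nat_lit 555) ln12_13_5 ln12_13_5_ok))))))))) (B c20_n1965 (B (M (nat_lit 492) (B (L (nat_lit 556) ln12_17_6 ln12_17_6_ok) (M (nat_lit 428) (B (L (nat_lit 557) ln12_13_4 ln12_13_4_ok) (M (nat_lit 396) (B (M (nat_lit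 395) (B (L (nat_lit 363) ln12_15_7 ln12_15_7_ok) (L (nat_lit 427) ln12_16_7 ln12_16_7_ok))) (M (nat_lit 523) (B (L (nat_lit 491) ln12_12_5 ln12_12_5_ok) (L (nat_lit 555) ln12_13_5 ln12_13_5_ok))))))))) (B (K (nat_lit 164755143843134633168497013423484189532596945584556336635676209912297019263970605106058366738519653655190159916086254489553647366539693851429751649713665343488) (nat_lit 1266331659301515598757082222712035914718177029943511646063006511092978987595078186295165404557843478805093810668483904187138374450125369462210523450266902391748500154624052822016) (nat_lit 1266331659301515598757082222712035914718177029943511646063006511092978987595078186295165404557843478805093810668483904187138374450125369462210523450266902391748500154624052822016) c20_s2019) (M (nat_lit 428) (B (M (nat_lit 492) (B (L (nat_lit 557) ln12_13_4 ln12_13_4_ok) (M (nat_lit 427) (B (L (nat_lit 395) ln12_16_7 ln12_16_7_ok) (M (nat_lit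 426) (B (L (nat_lit 425) ln9_13_0 ln9_13_0_ok) (L (nat_lit 462) ln10_13_0 ln10_13_0_ok))))))) (B (M (nat_lit 492) (B (L (nat_lit 557) ln12_13_4 ln12_13_4_ok) (M (nat_lit 523) (B (L (nat_lit 555) ln12_13_5 ln12_13_5_ok) (M (nat_lit 491) (B (L (nat_lit 396) ln12_12_5 ln12_12_5_ok) (M (nat_lit 490) (B (L (nat_lit 489) ln9_15_2 ln9_15_2_ok) (L (nat_lit 526) ln14_16_3 ln14_16_3_ok))))))))) (M (nat_lit 459) (B (M (nat_lit 458) (B (L (nat_lit 457) ln9_14_2 ln9_14_2_ok) (L (nat_lit 430) ln10_14_2 ln10_14_2_ok))) (M (nat_lit 491) (B (M (nat_lit 490) (B (L (nat_lit 462) ln14_14_1 ln14_14_1_ok) (M (nat_lit 523) (B (L (nat_lit 555) ln11_17_6 ln11_17_6_ok) (L (nat_lit 526) ln14_16_3 ln14_16_3_ok))))) (B (M (nat_lit 523) (B (L (nat_lit 555) ln11_17_6 ln11_17_6_ok) (M (nat_lit 396) (B (L (nat_lit 364) ln12_11_5 ln12_11_5_ok) (L (nat_lit 427) ln11_16_6 ln11_16_6_ok))))) (M (nat_lit 462) (B (L (nat_lit 490) ln14_14_1 ln14_14_1_ok)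 (M (nat_lit 427) (B (L (nat_lit 426) ln10_13_0 ln10_13_0_ok) (L (nat_lit 463) ln15_14_3 ln15_14_3_ok))))))))))))))))))) (nat_lit 164755143843134633165519882008769383708906915267447070062963694898921764489057621250214468214407175761246081372362678925016764078040427586613993921442859712512) (nat_lit 1266331659301515598757082222724822596807065516855683920729530288444055225657259862721056246094081603544577586981458736812572014679012999956850681594073186766666290948672782860288) (nat_lit 1266331659301515598757082222724822596807065516855683920729530288444055225657259862721056246094081603544577586981458736812572014679012999956850681594073186766666290948672782860288) (by decide +kernel)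
theorem c20_s2079 : Sem (nat_lit 164755143843134633165519882008769383708906915267447070062963694898921764489057621250214468214407175761246081372362678925016764078040427586613993921442859712512) (nat_lit 15036881537963502692639198168879463856635816497735424797943610050974844810477953093668812541661445338377245649425155693656056816870009251136970155920999351730875702181888) (nat_lit 15036881537963502692639198168879463856635816497735424797943610050974844810477953093668812541661445338377245649425155693656056816870009251136970155920999351730875702181888) :=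
  sem_of_chk (M (nat_lit 526) (B (M (nat_lit 523) (B (M (nat_lit 558) (B (L (nat_lit 559) ln11_16_0 ln11_16_0_ok) (M (nat_lit 494) (B (L (nat_lit 462) ln14_17_7 ln14_17_7_ok) (L (nat_lit 495) ln11_16_2 ln11_16_2_ok))))) (B (M (nat_lit 527) (B (M (nat_lit 555) (B (L (nat_lit 554) ln14_16_1 ln14_16_1_ok) (L (nat_lit 556) ln15_16_1 ln15_16_1_ok))) (M (nat_lit 559) (B (L (nat_lit 558) ln11_16_0 ln11_16_0_ok) (L (nat_lit 560) ln12_16_0 ln12_16_0_ok))))) (M (nat_lit 527) (B (M (nat_lit 495) (B (L (nat_lit 494) ln11_16_2 ln11_16_2_ok) (L (nat_lit 496) ln12_16_2 ln12_16_2_ok))) (M (nat_lit 555) (B (L (nat_lit 554) ln14_16_1 ln14_16_1_ok) (L (nat_lit 556) ln15_16_1 ln15_16_1_ok)))))))) (B (M (nat_lit 527) (B (M (nat_lit 556) (B (L (nat_lit 555) ln15_16_1 ln15_16_1_ok) (M (nat_lit 492) (B (L (nat_lit 460) ln12_17_6 ln12_17_6_ok) (L (nat_lit 491) ln15_16_3 ln15_16_3_ok))))) (M (nat_lit 528) (B (M (nat_lit 496) (B (L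 (nat_lit 495) ln12_16_2 ln12_16_2_ok) (L (nat_lit 497) ln13_16_2 ln13_16_2_ok))) (M (nat_lit 560) (B (L (nat_lit 559) ln12_16_0 ln12_16_0_ok) (L (nat_lit 561) ln13_16_0 ln13_16_0_ok))))))) (B (M (nat_lit 527) (B (M (nat_lit 556) (B (L (nat_lit 555) ln15_16_1 ln15_16_1_ok) (M (nat_lit 492) (B (L (nat_lit 460) ln12_17_6 ln12_17_6_ok) (L (nat_lit 491) ln15_16_3 ln15_16_3_ok))))) (B (M (nat_lit 523) (B (M (nat_lit 555) (B (L (nat_lit 554) ln14_16_1 ln14_16_1_ok) (L (nat_lit 556) ln15_16_1 ln15_16_1_ok))) (M (nat_lit 559) (B (L (nat_lit 558) ln11_16_0 ln11_16_0_ok) (L (nat_lit 560) ln12_16_0 ln12_16_0_ok))))) (M (nat_lit 523) (B (M (nat_lit 491) (B (L (nat_lit 490) ln14_16_3 ln14_16_3_ok) (L (nat_lit 492) ln15_16_3 ln15_16_3_ok))) (M (nat_lit 559) (B (L (nat_lit 558) ln11_16_0 ln11_16_0_ok) (L (nat_lit 560) ln12_16_0 ln12_16_0_ok)))))))) (B (M (nat_lit 460) (B (M (nat_lit 492) (B (L (nat_lit 556) ln12_17_6 ln12_17_6_ok)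 (M (nat_lit 428) (B (L (nat_lit 557) ln12_13_4 ln12_13_4_ok) (M (nat_lit 427) (B (L (nat_lit 395) ln12_16_7 ln12_16_7_ok) (M (nat_lit 426) (B (L (nat_lit 425) ln9_13_0 ln9_13_0_ok) (L (nat_lit 462) ln10_13_0 ln10_13_0_ok))))))))) (B (M (nat_lit 523) (B (M (nat_lit 558) (B (L (nat_lit 559) ln11_16_0 ln11_16_0_ok) (M (nat_lit 494) (B (L (nat_lit 462) ln14_17_7 ln14_17_7_ok) (L (nat_lit 495) ln11_16_2 ln11_16_2_ok))))) (M (nat_lit 492) (B (L (nat_lit 556) ln12_17_6 ln12_17_6_ok) (M (nat_lit 555) (B (L (nat_lit 428) ln12_13_5 ln12_13_5_ok) (L (nat_lit 554) ln14_16_1 ln14_16_1_ok))))))) (B (M (nat_lit 459) (B (M (nat_lit 458) (B (L (nat_lit 430) ln10_14_2 ln10_14_2_ok) (M (nat_lit 490) (B (L (nat_lit 489) ln13_14_1 ln13_14_1_ok) (M (nat_lit 491) (B (L (nat_lit 462) ln14_14_1 ln14_14_1_ok) (L (nat_lit 523) ln14_16_3 ln14_16_3_ok))))))) (B (M (nat_lit 427) (B (M (nat_lit 426) (B (L (nat_lit 462) ln14_14_3 ln14_14_3_ok)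 (M (nat_lit 425) (B (L (nat_lit 424) ln8_13_0 ln8_13_0_ok) (L (nat_lit 458) ln13_14_3 ln13_14_3_ok))))) (M (nat_lit 492) (B (L (nat_lit 556) ln12_17_7 ln12_17_7_ok) (M (nat_lit 395) (B (L (nat_lit 363) ln11_11_4 ln11_11_4_ok) (L (nat_lit 491) ln11_12_4 ln11_12_4_ok))))))) (B (M (nat_lit 427) (B (M (nat_lit 492) (B (L (nat_lit 556) ln12_17_7 ln12_17_7_ok) (M (nat_lit 395) (B (L (nat_lit 363) ln11_11_4 ln11_11_4_ok) (L (nat_lit 491) ln11_12_4 ln11_12_4_ok))))) (M (nat_lit 462) (B (L (nat_lit 426) ln14_14_3 ln14_14_3_ok) (M (nat_lit 494) (B (L (nat_lit 558) ln14_17_7 ln14_17_7_ok) (L (nat_lit 495) ln11_14_0 ln11_14_0_ok))))))) (M (nat_lit 458) (B (L (nat_lit 430) ln10_14_2 ln10_14_2_ok) (M (nat_lit 457) (B (M (nat_lit 425) (B (L (nat_lit 424) ln12_14_3 ln12_14_3_ok) (L (nat_lit 426) ln13_14_3 ln13_14_3_ok))) (M (nat_lit 489) (B (L (nat_lit 488) ln12_14_1 ln12_14_1_ok) (L (nat_lit 490) ln13_14_1 ln13_14_1_ok)))))))))))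 (B (M (nat_lit 492) (B (L (nat_lit 556) ln12_17_6 ln12_17_6_ok) (M (nat_lit 428) (B (L (nat_lit 557) ln12_13_4 ln12_13_4_ok) (M (nat_lit 523) (B (L (nat_lit 555) ln12_13_5 ln12_13_5_ok) (M (nat_lit 491) (B (L (nat_lit 396) ln12_12_5 ln12_12_5_ok) (L (nat_lit 490) ln14_16_3 ln14_16_3_ok))))))))) (M (nat_lit 459) (B (M (nat_lit 458) (B (L (nat_lit 430) ln10_14_2 ln10_14_2_ok) (M (nat_lit 490) (B (L (nat_lit 489) ln13_14_1 ln13_14_1_ok) (M (nat_lit 491) (B (L (nat_lit 462) ln14_14_1 ln14_14_1_ok) (L (nat_lit 523) ln14_16_3 ln14_16_3_ok))))))) (B (M (nat_lit 523) (B (M (nat_lit 491) (B (L (nat_lit 490) ln14_16_3 ln14_16_3_ok) (M (nat_lit 555) (B (L (nat_lit 428) ln11_17_6 ln11_17_6_ok) (L (nat_lit 554) ln14_16_1 ln14_16_1_ok))))) (M (nat_lit 494) (B (L (nat_lit 495) ln11_16_2 ln11_16_2_ok) (M (nat_lit 558) (B (L (nat_lit 462) ln14_17_7 ln14_17_7_ok) (L (nat_lit 559) ln11_16_0 ln11_16_0_ok))))))) (M (nat_lit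 458) (B (L (nat_lit 430) ln10_14_2 ln10_14_2_ok) (M (nat_lit 457) (B (L (nat_lit 428) ln9_14_2 ln9_14_2_ok) (M (nat_lit 425) (B (L (nat_lit 424) ln12_14_3 ln12_14_3_ok) (L (nat_lit 426) ln13_14_3 ln13_14_3_ok))))))))))))))) (B (M (nat_lit 523) (B (M (nat_lit 558) (B (L (nat_lit 559) ln11_16_0 ln11_16_0_ok) (M (nat_lit 494) (B (L (nat_lit 462) ln14_17_7 ln14_17_7_ok) (L (nat_lit 495) ln11_16_2 ln11_16_2_ok))))) (B (M (nat_lit 527) (B (M (nat_lit 491) (B (L (nat_lit 490) ln14_16_3 ln14_16_3_ok) (L (nat_lit 492) ln15_16_3 ln15_16_3_ok))) (M (nat_lit 559) (B (L (nat_lit 558) ln11_16_0 ln11_16_0_ok) (L (nat_lit 560) ln12_16_0 ln12_16_0_ok))))) (M (nat_lit 527) (B (M (nat_lit 491) (B (L (nat_lit 490) ln14_16_3 ln14_16_3_ok) (L (nat_lit 492) ln15_16_3 ln15_16_3_ok))) (M (nat_lit 495) (B (L (nat_lit 494) ln11_16_2 ln11_16_2_ok) (L (nat_lit 496) ln12_16_2 ln12_16_2_ok)))))))) (M (nat_lit 527) (B (M (nat_lit 556)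 (B (L (nat_lit 555) ln15_16_1 ln15_16_1_ok) (M (nat_lit 492) (B (L (nat_lit 460) ln12_17_6 ln12_17_6_ok) (L (nat_lit 491) ln15_16_3 ln15_16_3_ok))))) (B (M (nat_lit 523) (B (M (nat_lit 495) (B (L (nat_lit 494) ln11_16_2 ln11_16_2_ok) (L (nat_lit 496) ln12_16_2 ln12_16_2_ok))) (M (nat_lit 555) (B (L (nat_lit 554) ln14_16_1 ln14_16_1_ok) (L (nat_lit 556) ln15_16_1 ln15_16_1_ok))))) (M (nat_lit 523) (B (M (nat_lit 491) (B (L (nat_lit 490) ln14_16_3 ln14_16_3_ok) (L (nat_lit 492) ln15_16_3 ln15_16_3_ok))) (M (nat_lit 495) (B (L (nat_lit 494) ln11_16_2 ln11_16_2_ok) (L (nat_lit 496) ln12_16_2 ln12_16_2_ok)))))))))))))) (nat_lit 164755143843134633165519882008769383708906915267447070062963694898921764489057621250214468214407175761246081372362678925016764078040427586613993921442859712512) (nat_lit 15036881537963502692639198168879463856635816497735424797943610050974844810477953093668812541661445338377245649425155693656056816870009251136970155920999351730875702181888)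 (nat_lit 15036881537963502692639198168879463856635816497735424797943610050974844810477953093668812541661445338377245649425155693656056816870009251136970155920999351730875702181888) (by decide +kernel)
noncomputable def c20_n2220 : Cert := (M (nat_lit 462) (B (M (nat_lit 492) (B (L (nat_lit 556) ln12_17_6 ln12_17_6_ok) (M (nat_lit 491) (B (L (nat_lit 463) ln15_14_1 ln15_14_1_ok) (M (nat_lit 490) (B (L (nat_lit 459) ln14_14_1 ln14_14_1_ok) (L (nat_lit 489) ln9_15_2 ln9_15_2_ok))))))) (B (M (nat_lit 463) (B (M (nat_lit 492) (B (L (nat_lit 556) ln12_17_6 ln12_17_6_ok) (L (nat_lit 491) ln15_14_1 ln15_14_1_ok))) (M (nat_lit 464) (B (M (nat_lit 496) (B (L (nat_lit 495) ln12_14_0 ln12_14_0_ok) (L (nat_lit 497) ln13_14_0 ln13_14_0_ok))) (M (nat_lit 433) (B (L (nat_lit 432) ln13_14_2 ln13_14_2_ok) (M (nat_lit 465) (B (L (nat_lit 430) ln17_14_3 ln17_14_3_ok) (L (nat_lit 434) ln14_14_2 ln14_14_2_ok))))))))) (B (M (nat_lit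 459) (B (M (nat_lit 458) (B (L (nat_lit 430) ln10_14_2 ln10_14_2_ok) (M (nat_lit 490) (B (L (nat_lit 489) ln13_14_1 ln13_14_1_ok) (L (nat_lit 491) ln14_14_1 ln14_14_1_ok))))) (B (M (nat_lit 458) (B (M (nat_lit 426) (B (L (nat_lit 425) ln13_14_3 ln13_14_3_ok) (L (nat_lit 427) ln14_14_3 ln14_14_3_ok))) (M (nat_lit 490) (B (L (nat_lit 489) ln13_14_1 ln13_14_1_ok) (L (nat_lit 491) ln14_14_1 ln14_14_1_ok))))) (B (M (nat_lit 492) (B (L (nat_lit 556) ln12_17_6 ln12_17_6_ok) (M (nat_lit 491) (B (L (nat_lit 490) ln14_14_1 ln14_14_1_ok) (M (nat_lit 427) (B (L (nat_lit 395) ln11_12_4 ln11_12_4_ok) (L (nat_lit 426) ln14_14_3 ln14_14_3_ok))))))) (M (nat_lit 458) (B (L (nat_lit 430) ln10_14_2 ln10_14_2_ok) (M (nat_lit 426) (B (L (nat_lit 425) ln13_14_3 ln13_14_3_ok) (L (nat_lit 427) ln14_14_3 ln14_14_3_ok))))))))) (B (M (nat_lit 526) (B (M (nat_lit 494) (B (L (nat_lit 558) ln14_17_7 ln14_17_7_ok) (M (nat_lit 495) (B (L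 (nat_lit 459) ln11_14_0 ln11_14_0_ok) (M (nat_lit 496) (B (L (nat_lit 463) ln12_14_0 ln12_14_0_ok) (L (nat_lit 497) ln17_15_3 ln17_15_3_ok))))))) (B (M (nat_lit 527) (B (M (nat_lit 556) (B (L (nat_lit 492) ln12_17_6 ln12_17_6_ok) (L (nat_lit 555) ln15_16_1 ln15_16_1_ok))) (M (nat_lit 494) (B (L (nat_lit 558) ln14_17_7 ln14_17_7_ok) (M (nat_lit 430) (B (L (nat_lit 557) ln14_13_5 ln14_13_5_ok) (L (nat_lit 559) ln14_13_4 ln14_13_4_ok))))))) (M (nat_lit 527) (B (M (nat_lit 556) (B (L (nat_lit 492) ln12_17_6 ln12_17_6_ok) (L (nat_lit 555) ln15_16_1 ln15_16_1_ok))) (M (nat_lit 528) (B (M (nat_lit 496) (B (L (nat_lit 495) ln12_16_2 ln12_16_2_ok) (L (nat_lit 497) ln13_16_2 ln13_16_2_ok))) (M (nat_lit 560) (B (L (nat_lit 559) ln12_16_0 ln12_16_0_ok) (L (nat_lit 561) ln13_16_0 ln13_16_0_ok)))))))))) (B (M (nat_lit 494) (B (M (nat_lit 495) (B (L (nat_lit 459) ln11_14_0 ln11_14_0_ok) (M (nat_lit 496) (B (L (nat_lit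 463) ln12_14_0 ln12_14_0_ok) (L (nat_lit 497) ln17_15_3 ln17_15_3_ok))))) (M (nat_lit 526) (B (L (nat_lit 558) ln14_17_7 ln14_17_7_ok) (M (nat_lit 527) (B (M (nat_lit 430) (B (L (nat_lit 557) ln14_13_5 ln14_13_5_ok) (L (nat_lit 559) ln14_13_4 ln14_13_4_ok))) (B (M (nat_lit 528) (B (M (nat_lit 556) (B (L (nat_lit 555) ln15_16_1 ln15_16_1_ok) (L (nat_lit 557) ln16_16_1 ln16_16_1_ok))) (M (nat_lit 560) (B (L (nat_lit 559) ln12_16_0 ln12_16_0_ok) (L (nat_lit 561) ln13_16_0 ln13_16_0_ok))))) (B (M (nat_lit 559) (B (L (nat_lit 430) ln14_13_4 ln14_13_4_ok) (L (nat_lit 560) ln12_16_0 ln12_16_0_ok))) (M (nat_lit 556) (B (L (nat_lit 555) ln15_16_1 ln15_16_1_ok) (M (nat_lit 557) (B (L (nat_lit 430) ln14_13_5 ln14_13_5_ok) (L (nat_lit 528) ln16_16_1 ln16_16_1_ok))))))))))))) (M (nat_lit 459) (B (M (nat_lit 458) (B (L (nat_lit 430) ln10_14_2 ln10_14_2_ok) (M (nat_lit 426) (B (L (nat_lit 425) ln13_14_3 ln13_14_3_ok) (L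 (nat_lit 427) ln14_14_3 ln14_14_3_ok))))) (M (nat_lit 463) (B (M (nat_lit 491) (B (L (nat_lit 490) ln14_14_1 ln14_14_1_ok) (L (nat_lit 492) ln15_14_1 ln15_14_1_ok))) (M (nat_lit 495) (B (L (nat_lit 494) ln11_14_0 ln11_14_0_ok) (L (nat_lit 496) ln12_14_0 ln12_14_0_ok)))))))))))))
noncomputable def c20_n2289 : Cert := (M (nat_lit 459) (B (M (nat_lit 458) (B (L (nat_lit 430) ln10_14_2 ln10_14_2_ok) (M (nat_lit 457) (B (L (nat_lit 428) ln9_14_2 ln9_14_2_ok) (M (nat_lit 489) (B (L (nat_lit 488) ln12_14_1 ln12_14_1_ok) (L (nat_lit 490) ln13_14_1 ln13_14_1_ok))))))) (B (M (nat_lit 458) (B (L (nat_lit 430) ln10_14_2 ln10_14_2_ok) (M (nat_lit 462) (B (M (nat_lit 426) (B (L (nat_lit 425) ln13_14_3 ln13_14_3_ok) (L (nat_lit 427) ln14_14_3 ln14_14_3_ok))) (M (nat_lit 490) (B (L (nat_lit 489) ln13_14_1 ln13_14_1_ok) (L (nat_lit 491) ln14_14_1 ln14_14_1_ok))))))) (B (M (nat_lit 458) (B (M (nat_lit 457) (B (L (nat_lit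 428) ln9_14_2 ln9_14_2_ok) (M (nat_lit 489) (B (L (nat_lit 488) ln12_14_1 ln12_14_1_ok) (L (nat_lit 490) ln13_14_1 ln13_14_1_ok))))) (B (M (nat_lit 462) (B (M (nat_lit 426) (B (L (nat_lit 425) ln13_14_3 ln13_14_3_ok) (L (nat_lit 427) ln14_14_3 ln14_14_3_ok))) (M (nat_lit 490) (B (L (nat_lit 489) ln13_14_1 ln13_14_1_ok) (L (nat_lit 491) ln14_14_1 ln14_14_1_ok))))) (M (nat_lit 457) (B (L (nat_lit 428) ln9_14_2 ln9_14_2_ok) (M (nat_lit 425) (B (L (nat_lit 424) ln12_14_3 ln12_14_3_ok) (L (nat_lit 426) ln13_14_3 ln13_14_3_ok)))))))) (B (M (nat_lit 462) (B (M (nat_lit 427) (B (L (nat_lit 426) ln14_14_3 ln14_14_3_ok) (M (nat_lit 463) (B (L (nat_lit 428) ln15_14_3 ln15_14_3_ok) (M (nat_lit 495) (B (L (nat_lit 494) ln11_14_0 ln11_14_0_ok) (L (nat_lit 496) ln12_14_0 ln12_14_0_ok))))))) (B (M (nat_lit 463) (B (M (nat_lit 428) (B (L (nat_lit 427) ln15_14_3 ln15_14_3_ok) (L (nat_lit 464) ln16_14_3 ln16_14_3_ok))) (M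 (nat_lit 495) (B (L (nat_lit 494) ln11_14_0 ln11_14_0_ok) (L (nat_lit 496) ln12_14_0 ln12_14_0_ok))))) (B (M (nat_lit 463) (B (M (nat_lit 495) (B (L (nat_lit 494) ln11_14_0 ln11_14_0_ok) (L (nat_lit 496) ln12_14_0 ln12_14_0_ok))) (M (nat_lit 464) (B (L (nat_lit 428) ln16_14_3 ln16_14_3_ok) (M (nat_lit 465) (B (L (nat_lit 430) ln17_14_3 ln17_14_3_ok) (M (nat_lit 433) (B (L (nat_lit 432) ln13_14_2 ln13_14_2_ok) (L (nat_lit 434) ln14_14_2 ln14_14_2_ok))))))))) (B (M (nat_lit 494) (B (L (nat_lit 495) ln11_14_0 ln11_14_0_ok) (M (nat_lit 526) (B (L (nat_lit 558) ln14_17_7 ln14_17_7_ok) (M (nat_lit 527) (B (M (nat_lit 430) (B (L (nat_lit 557) ln14_13_5 ln14_13_5_ok) (L (nat_lit 559) ln14_13_4 ln14_13_4_ok))) (B (M (nat_lit 528) (B (M (nat_lit 556) (B (L (nat_lit 555) ln15_16_1 ln15_16_1_ok) (L (nat_lit 557) ln16_16_1 ln16_16_1_ok))) (M (nat_lit 560) (B (L (nat_lit 559) ln12_16_0 ln12_16_0_ok) (L (nat_lit 561) ln13_16_0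 ln13_16_0_ok))))) (B (M (nat_lit 559) (B (L (nat_lit 430) ln14_13_4 ln14_13_4_ok) (L (nat_lit 560) ln12_16_0 ln12_16_0_ok))) (M (nat_lit 556) (B (L (nat_lit 555) ln15_16_1 ln15_16_1_ok) (M (nat_lit 557) (B (L (nat_lit 430) ln14_13_5 ln14_13_5_ok) (L (nat_lit 528) ln16_16_1 ln16_16_1_ok))))))))))))) (M (nat_lit 427) (B (L (nat_lit 426) ln14_14_3 ln14_14_3_ok) (M (nat_lit 428) (B (L (nat_lit 463) ln15_14_3 ln15_14_3_ok) (M (nat_lit 395) (B (M (nat_lit 394) (B (L (nat_lit 430) ln14_13_3 ln14_13_3_ok) (M (nat_lit 393) (B (L (nat_lit 392) ln8_12_0 ln8_12_0_ok) (L (nat_lit 396) ln9_12_0 ln9_12_0_ok))))) (B (M (nat_lit 491) (B (L (nat_lit 490) ln14_14_1 ln14_14_1_ok) (M (nat_lit 394) (B (L (nat_lit 362) ln11_15_7 ln11_15_7_ok) (L (nat_lit 430) ln14_13_3 ln14_13_3_ok))))) (M (nat_lit 364) (B (M (nat_lit 363) (B (L (nat_lit 331) ln11_10_4 ln11_10_4_ok) (L (nat_lit 332) ln11_14_6 ln11_14_6_ok))) (B (M (nat_lit 332)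 (B (L (nat_lit 363) ln11_14_6 ln11_14_6_ok) (L (nat_lit 396) ln12_10_5 ln12_10_5_ok))) (M (nat_lit 491) (B (L (nat_lit 396) ln11_15_6 ln11_15_6_ok) (L (nat_lit 490) ln14_14_1 ln14_14_1_ok)))))))))))))))))) (M (nat_lit 458) (B (L (nat_lit 430) ln10_14_2 ln10_14_2_ok) (M (nat_lit 457) (B (L (nat_lit 428) ln9_14_2 ln9_14_2_ok) (M (nat_lit 425) (B (L (nat_lit 424) ln12_14_3 ln12_14_3_ok) (L (nat_lit 426) ln13_14_3 ln13_14_3_ok))))))))))))
theorem c20_s2307 : Sem (nat_lit 164755143843134633165519882008769383708906915267447070062963694898921764489057621250214468214407175761246081372362678925016764078040427586613993921442859712512) (nat_lit 14977913375048206918369901439858313911320577908359435297271124040882253267757834045666446872050768820638871795280596652655035214843555966894766605676507514466887018741760) (nat_lit 14977913375048206918369901439858313911320577908359435297271124040882253267757834045666446872050768820638871795280596652655035214843555966894766605676507514466887018741760)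 :=
  sem_of_chk (M (nat_lit 460) (B (M (nat_lit 492) (B (L (nat_lit 556) ln12_17_6 ln12_17_6_ok) (M (nat_lit 428) (B (L (nat_lit 557) ln12_13_4 ln12_13_4_ok) (M (nat_lit 427) (B (L (nat_lit 395) ln12_16_7 ln12_16_7_ok) (M (nat_lit 426) (B (L (nat_lit 425) ln9_13_0 ln9_13_0_ok) (L (nat_lit 462) ln10_13_0 ln10_13_0_ok))))))))) (B (M (nat_lit 492) (B (L (nat_lit 556) ln12_17_6 ln12_17_6_ok) (M (nat_lit 462) (B (M (nat_lit 491) (B (L (nat_lit 463) ln15_14_1 ln15_14_1_ok) (M (nat_lit 490) (B (L (nat_lit 459) ln14_14_1 ln14_14_1_ok) (L (nat_lit 489) ln9_15_2 ln9_15_2_ok))))) (B (M (nat_lit 428) (B (L (nat_lit 557) ln12_13_4 ln12_13_4_ok) (M (nat_lit 463) (B (L (nat_lit 427) ln15_14_3 ln15_14_3_ok) (L (nat_lit 491) ln15_14_1 ln15_14_1_ok))))) (B (M (nat_lit 526) (B (M (nat_lit 491) (B (L (nat_lit 527) ln15_16_3 ln15_16_3_ok) (M (nat_lit 490) (B (L (nat_lit 459) ln14_14_1 ln14_14_1_ok) (L (nat_lit 489) ln9_15_2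 ln9_15_2_ok))))) (M (nat_lit 494) (B (L (nat_lit 558) ln14_17_7 ln14_17_7_ok) (M (nat_lit 557) (B (L (nat_lit 428) ln12_13_4 ln12_13_4_ok) (L (nat_lit 430) ln14_13_5 ln14_13_5_ok))))))) (M (nat_lit 428) (B (L (nat_lit 557) ln12_13_4 ln12_13_4_ok) (M (nat_lit 427) (B (L (nat_lit 426) ln10_13_0 ln10_13_0_ok) (L (nat_lit 463) ln15_14_3 ln15_14_3_ok))))))))))) (B (M (nat_lit 492) (B (L (nat_lit 556) ln12_17_6 ln12_17_6_ok) (M (nat_lit 428) (B (L (nat_lit 557) ln12_13_4 ln12_13_4_ok) (M (nat_lit 459) (B (M (nat_lit 458) (B (L (nat_lit 457) ln9_14_2 ln9_14_2_ok) (L (nat_lit 430) ln10_14_2 ln10_14_2_ok))) (M (nat_lit 396) (B (M (nat_lit 395) (B (L (nat_lit 363) ln12_15_7 ln12_15_7_ok) (L (nat_lit 427) ln12_16_7 ln12_16_7_ok))) (M (nat_lit 364) (B (L (nat_lit 332) ln12_10_4 ln12_10_4_ok) (L (nat_lit 491) ln12_11_5 ln12_11_5_ok))))))))))) (B (M (nat_lit 492) (B (L (nat_lit 556) ln12_17_6 ln12_17_6_ok) (M (nat_lit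 462) (B (M (nat_lit 428) (B (L (nat_lit 557) ln12_13_4 ln12_13_4_ok) (M (nat_lit 463) (B (L (nat_lit 464) ln16_14_3 ln16_14_3_ok) (L (nat_lit 491) ln15_14_1 ln15_14_1_ok))))) (B (M (nat_lit 491) (B (L (nat_lit 463) ln15_14_1 ln15_14_1_ok) (M (nat_lit 490) (B (L (nat_lit 459) ln14_14_1 ln14_14_1_ok) (L (nat_lit 489) ln9_15_2 ln9_15_2_ok))))) (B (M (nat_lit 526) (B (M (nat_lit 491) (B (L (nat_lit 527) ln15_16_3 ln15_16_3_ok) (M (nat_lit 490) (B (L (nat_lit 459) ln14_14_1 ln14_14_1_ok) (L (nat_lit 489) ln9_15_2 ln9_15_2_ok))))) (M (nat_lit 494) (B (L (nat_lit 558) ln14_17_7 ln14_17_7_ok) (M (nat_lit 557) (B (L (nat_lit 428) ln12_13_4 ln12_13_4_ok) (L (nat_lit 430) ln14_13_5 ln14_13_5_ok))))))) (M (nat_lit 494) (B (M (nat_lit 495) (B (L (nat_lit 459) ln11_14_0 ln11_14_0_ok) (M (nat_lit 496) (B (L (nat_lit 463) ln12_14_0 ln12_14_0_ok) (L (nat_lit 497) ln17_15_3 ln17_15_3_ok))))) (M (nat_lit 526) (B (L (nat_lit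 558) ln14_17_7 ln14_17_7_ok) (M (nat_lit 557) (B (L (nat_lit 428) ln12_13_4 ln12_13_4_ok) (L (nat_lit 430) ln14_13_5 ln14_13_5_ok))))))))))))) (B c20_n2220 (B c20_n2289 (M (nat_lit 459) (B (M (nat_lit 458) (B (L (nat_lit 430) ln10_14_2 ln10_14_2_ok) (M (nat_lit 457) (B (L (nat_lit 428) ln9_14_2 ln9_14_2_ok) (M (nat_lit 425) (B (L (nat_lit 424) ln12_14_3 ln12_14_3_ok) (L (nat_lit 426) ln13_14_3 ln13_14_3_ok))))))) (B (M (nat_lit 458) (B (L (nat_lit 430) ln10_14_2 ln10_14_2_ok) (M (nat_lit 457) (B (L (nat_lit 428) ln9_14_2 ln9_14_2_ok) (M (nat_lit 489) (B (L (nat_lit 488) ln12_14_1 ln12_14_1_ok) (L (nat_lit 490) ln13_14_1 ln13_14_1_ok))))))) (B (M (nat_lit 458) (B (L (nat_lit 430) ln10_14_2 ln10_14_2_ok) (M (nat_lit 462) (B (M (nat_lit 426) (B (L (nat_lit 425) ln13_14_3 ln13_14_3_ok) (L (nat_lit 427) ln14_14_3 ln14_14_3_ok))) (M (nat_lit 490) (B (L (nat_lit 489) ln13_14_1 ln13_14_1_ok) (L (nat_lit 491) ln14_14_1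 ln14_14_1_ok))))))) (B (M (nat_lit 458) (B (M (nat_lit 457) (B (L (nat_lit 428) ln9_14_2 ln9_14_2_ok) (M (nat_lit 489) (B (L (nat_lit 488) ln12_14_1 ln12_14_1_ok) (L (nat_lit 490) ln13_14_1 ln13_14_1_ok))))) (B (M (nat_lit 462) (B (M (nat_lit 426) (B (L (nat_lit 425) ln13_14_3 ln13_14_3_ok) (L (nat_lit 427) ln14_14_3 ln14_14_3_ok))) (M (nat_lit 490) (B (L (nat_lit 489) ln13_14_1 ln13_14_1_ok) (L (nat_lit 491) ln14_14_1 ln14_14_1_ok))))) (M (nat_lit 457) (B (L (nat_lit 428) ln9_14_2 ln9_14_2_ok) (M (nat_lit 425) (B (L (nat_lit 424) ln12_14_3 ln12_14_3_ok) (L (nat_lit 426) ln13_14_3 ln13_14_3_ok)))))))) (M (nat_lit 462) (B (M (nat_lit 427) (B (L (nat_lit 426) ln14_14_3 ln14_14_3_ok) (M (nat_lit 463) (B (L (nat_lit 428) ln15_14_3 ln15_14_3_ok) (M (nat_lit 495) (B (L (nat_lit 494) ln11_14_0 ln11_14_0_ok) (L (nat_lit 496) ln12_14_0 ln12_14_0_ok))))))) (B (M (nat_lit 463) (B (M (nat_lit 491) (B (L (nat_lit 490)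 ln14_14_1 ln14_14_1_ok) (L (nat_lit 492) ln15_14_1 ln15_14_1_ok))) (M (nat_lit 495) (B (L (nat_lit 494) ln11_14_0 ln11_14_0_ok) (L (nat_lit 496) ln12_14_0 ln12_14_0_ok))))) (B (M (nat_lit 427) (B (L (nat_lit 426) ln14_14_3 ln14_14_3_ok) (M (nat_lit 491) (B (L (nat_lit 490) ln14_14_1 ln14_14_1_ok) (M (nat_lit 526) (B (M (nat_lit 494) (B (L (nat_lit 558) ln14_17_7 ln14_17_7_ok) (L (nat_lit 495) ln11_14_0 ln11_14_0_ok))) (M (nat_lit 492) (B (L (nat_lit 395) ln11_12_4 ln11_12_4_ok) (L (nat_lit 527) ln15_16_3 ln15_16_3_ok))))))))) (M (nat_lit 463) (B (M (nat_lit 427) (B (L (nat_lit 426) ln14_14_3 ln14_14_3_ok) (L (nat_lit 428) ln15_14_3 ln15_14_3_ok))) (M (nat_lit 491) (B (L (nat_lit 490) ln14_14_1 ln14_14_1_ok) (L (nat_lit 492) ln15_14_1 ln15_14_1_ok))))))))))))))))))))) (nat_lit 164755143843134633165519882008769383708906915267447070062963694898921764489057621250214468214407175761246081372362678925016764078040427586613993921442859712512)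 (nat_lit 14977913375048206918369901439858313911320577908359435297271124040882253267757834045666446872050768820638871795280596652655035214843555966894766605676507514466887018741760) (nat_lit 14977913375048206918369901439858313911320577908359435297271124040882253267757834045666446872050768820638871795280596652655035214843555966894766605676507514466887018741760) (by decide +kernel)
noncomputable def c20_n2368 : Cert := (M (nat_lit 459) (B (M (nat_lit 458) (B (L (nat_lit 430) ln10_14_2 ln10_14_2_ok) (M (nat_lit 457) (B (L (nat_lit 428) ln9_14_2 ln9_14_2_ok) (M (nat_lit 489) (B (L (nat_lit 488) ln12_14_1 ln12_14_1_ok) (L (nat_lit 490) ln13_14_1 ln13_14_1_ok))))))) (B (M (nat_lit 458) (B (L (nat_lit 430) ln10_14_2 ln10_14_2_ok) (M (nat_lit 457) (B (M (nat_lit 425) (B (L (nat_lit 424) ln12_14_3 ln12_14_3_ok) (L (nat_lit 426) ln13_14_3 ln13_14_3_ok))) (M (nat_lit 489) (B (L (nat_lit 488) ln12_14_1 ln12_14_1_ok)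 (L (nat_lit 490) ln13_14_1 ln13_14_1_ok))))))) (B (M (nat_lit 458) (B (M (nat_lit 457) (B (L (nat_lit 428) ln9_14_2 ln9_14_2_ok) (M (nat_lit 489) (B (L (nat_lit 488) ln12_14_1 ln12_14_1_ok) (L (nat_lit 490) ln13_14_1 ln13_14_1_ok))))) (B (M (nat_lit 462) (B (M (nat_lit 426) (B (L (nat_lit 425) ln13_14_3 ln13_14_3_ok) (L (nat_lit 427) ln14_14_3 ln14_14_3_ok))) (M (nat_lit 490) (B (L (nat_lit 489) ln13_14_1 ln13_14_1_ok) (L (nat_lit 491) ln14_14_1 ln14_14_1_ok))))) (M (nat_lit 457) (B (L (nat_lit 428) ln9_14_2 ln9_14_2_ok) (M (nat_lit 425) (B (L (nat_lit 424) ln12_14_3 ln12_14_3_ok) (L (nat_lit 426) ln13_14_3 ln13_14_3_ok)))))))) (B (M (nat_lit 458) (B (L (nat_lit 430) ln10_14_2 ln10_14_2_ok) (M (nat_lit 462) (B (M (nat_lit 426) (B (L (nat_lit 425) ln13_14_3 ln13_14_3_ok) (L (nat_lit 427) ln14_14_3 ln14_14_3_ok))) (M (nat_lit 490) (B (L (nat_lit 489) ln13_14_1 ln13_14_1_ok) (L (nat_lit 491) ln14_14_1 ln14_14_1_ok)))))))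 (B (M (nat_lit 491) (B (M (nat_lit 462) (B (L (nat_lit 490) ln14_14_1 ln14_14_1_ok) (M (nat_lit 463) (B (M (nat_lit 427) (B (L (nat_lit 426) ln14_14_3 ln14_14_3_ok) (L (nat_lit 428) ln15_14_3 ln15_14_3_ok))) (M (nat_lit 495) (B (L (nat_lit 494) ln11_14_0 ln11_14_0_ok) (L (nat_lit 496) ln12_14_0 ln12_14_0_ok))))))) (B (M (nat_lit 523) (B (M (nat_lit 556) (B (L (nat_lit 427) ln11_13_4 ln11_13_4_ok) (M (nat_lit 588) (B (L (nat_lit 555) ln11_14_4 ln11_14_4_ok) (L (nat_lit 620) ln12_19_7 ln12_19_7_ok))))) (M (nat_lit 490) (B (L (nat_lit 462) ln14_14_1 ln14_14_1_ok) (M (nat_lit 489) (B (L (nat_lit 488) ln8_15_2 ln8_15_2_ok) (L (nat_lit 522) ln13_16_3 ln13_16_3_ok))))))) (B (M (nat_lit 523) (B (M (nat_lit 490) (B (L (nat_lit 462) ln14_14_1 ln14_14_1_ok) (M (nat_lit 489) (B (L (nat_lit 488) ln8_15_2 ln8_15_2_ok) (L (nat_lit 522) ln13_16_3 ln13_16_3_ok))))) (M (nat_lit 555) (B (L (nat_lit 428) ln11_17_6 ln11_17_6_ok)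 (M (nat_lit 556) (B (L (nat_lit 588) ln11_14_4 ln11_14_4_ok) (M (nat_lit 554) (B (L (nat_lit 586) ln11_14_5 ln11_14_5_ok) (L (nat_lit 553) ln9_17_2 ln9_17_2_ok))))))))) (B (M (nat_lit 523) (B (M (nat_lit 427) (B (L (nat_lit 556) ln11_13_4 ln11_13_4_ok) (M (nat_lit 428) (B (L (nat_lit 396) ln11_16_6 ln11_16_6_ok) (L (nat_lit 555) ln11_17_6 ln11_17_6_ok))))) (B (M (nat_lit 556) (B (L (nat_lit 427) ln11_13_4 ln11_13_4_ok) (M (nat_lit 555) (B (L (nat_lit 428) ln11_17_6 ln11_17_6_ok) (L (nat_lit 588) ln11_14_4 ln11_14_4_ok))))) (B (M (nat_lit 555) (B (L (nat_lit 428) ln11_17_6 ln11_17_6_ok) (M (nat_lit 556) (B (L (nat_lit 588) ln11_14_4 ln11_14_4_ok) (M (nat_lit 554) (B (L (nat_lit 586) ln11_14_5 ln11_14_5_ok) (L (nat_lit 553) ln9_17_2 ln9_17_2_ok))))))) (B (M (nat_lit 427) (B (L (nat_lit 556) ln11_13_4 ln11_13_4_ok) (M (nat_lit 522) (B (L (nat_lit 554) ln11_13_5 ln11_13_5_ok) (M (nat_lit 490) (B (L (nat_lit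 395) ln11_12_5 ln11_12_5_ok) (L (nat_lit 489) ln13_16_3 ln13_16_3_ok))))))) (M (nat_lit 428) (B (L (nat_lit 555) ln11_17_6 ln11_17_6_ok) (M (nat_lit 396) (B (L (nat_lit 364) ln12_11_5 ln12_11_5_ok) (L (nat_lit 427) ln11_16_6 ln11_16_6_ok)))))))))) (M (nat_lit 523) (B (M (nat_lit 428) (B (L (nat_lit 555) ln11_17_6 ln11_17_6_ok) (M (nat_lit 396) (B (L (nat_lit 364) ln12_11_5 ln12_11_5_ok) (L (nat_lit 427) ln11_16_6 ln11_16_6_ok))))) (B (M (nat_lit 427) (B (L (nat_lit 556) ln11_13_4 ln11_13_4_ok) (M (nat_lit 426) (B (L (nat_lit 394) ln11_16_7 ln11_16_7_ok) (L (nat_lit 462) ln14_14_3 ln14_14_3_ok))))) (M (nat_lit 555) (B (L (nat_lit 428) ln11_17_6 ln11_17_6_ok) (M (nat_lit 556) (B (L (nat_lit 588) ln11_14_4 ln11_14_4_ok) (M (nat_lit 554) (B (L (nat_lit 586) ln11_14_5 ln11_14_5_ok) (L (nat_lit 553) ln9_17_2 ln9_17_2_ok))))))))))))))) (M (nat_lit 458) (B (L (nat_lit 430) ln10_14_2 ln10_14_2_ok) (M (nat_lit 457)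 (B (L (nat_lit 428) ln9_14_2 ln9_14_2_ok) (M (nat_lit 425) (B (L (nat_lit 424) ln12_14_3 ln12_14_3_ok) (L (nat_lit 426) ln13_14_3 ln13_14_3_ok)))))))))))))
theorem c20_s2407 : Sem (nat_lit 164755143843134633165519882008769383708906915267447070062963694898921764489057621250214468214407175761246081372362678925016764078040427586613993921442859712512) (nat_lit 4351082438421287728921408327270251735294606469862588246544738328767695827496751366104281742660147851153490808454222081346723857243267782043585670957279323505781844494367949880991326142464) (nat_lit 4351082438421287728921408327270251735294606469862588246544738328767695827496751366104281742660147851153490808454222081346723857243267782043585670957279323505781844494367949880991326142464) :=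
  sem_of_chk (M (nat_lit 460) (B (M (nat_lit 492) (B (L (nat_lit 556) ln12_17_6 ln12_17_6_ok) (M (nat_lit 428) (B (L (nat_lit 557) ln12_13_4 ln12_13_4_ok) (M (nat_lit 427) (B (L (nat_lit 395) ln12_16_7 ln12_16_7_ok) (M (nat_lit 426) (B (L (nat_lit 425) ln9_13_0 ln9_13_0_ok) (L (nat_lit 462) ln10_13_0 ln10_13_0_ok))))))))) (B (M (nat_lit 492) (B (L (nat_lit 556) ln12_17_6 ln12_17_6_ok) (M (nat_lit 491) (B (M (nat_lit 490) (B (L (nat_lit 489) ln9_15_2 ln9_15_2_ok) (M (nat_lit 462) (B (L (nat_lit 459) ln14_14_1 ln14_14_1_ok) (L (nat_lit 463) ln15_14_1 ln15_14_1_ok))))) (M (nat_lit 428) (B (L (nat_lit 557) ln12_13_4 ln12_13_4_ok) (M (nat_lit 523) (B (L (nat_lit 396) ln12_12_5 ln12_12_5_ok) (L (nat_lit 555) ln12_13_5 ln12_13_5_ok))))))))) (B (M (nat_lit 459) (B (M (nat_lit 458) (B (L (nat_lit 430) ln10_14_2 ln10_14_2_ok) (M (nat_lit 462) (B (M (nat_lit 426) (B (L (nat_lit 425) ln13_14_3 ln13_14_3_ok) (L (nat_lit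 427) ln14_14_3 ln14_14_3_ok))) (M (nat_lit 490) (B (L (nat_lit 489) ln13_14_1 ln13_14_1_ok) (L (nat_lit 491) ln14_14_1 ln14_14_1_ok))))))) (B (M (nat_lit 491) (B (M (nat_lit 490) (B (L (nat_lit 462) ln14_14_1 ln14_14_1_ok) (M (nat_lit 458) (B (L (nat_lit 430) ln10_14_2 ln10_14_2_ok) (L (nat_lit 489) ln13_14_1 ln13_14_1_ok))))) (B (M (nat_lit 490) (B (L (nat_lit 462) ln14_14_1 ln14_14_1_ok) (M (nat_lit 489) (B (L (nat_lit 458) ln13_14_1 ln13_14_1_ok) (L (nat_lit 492) ln9_15_2 ln9_15_2_ok))))) (B (M (nat_lit 490) (B (L (nat_lit 462) ln14_14_1 ln14_14_1_ok) (M (nat_lit 492) (B (L (nat_lit 556) ln12_17_6 ln12_17_6_ok) (L (nat_lit 489) ln9_15_2 ln9_15_2_ok))))) (M (nat_lit 556) (B (L (nat_lit 492) ln12_17_6 ln12_17_6_ok) (M (nat_lit 523) (B (L (nat_lit 427) ln11_13_4 ln11_13_4_ok) (M (nat_lit 588) (B (L (nat_lit 555) ln11_14_4 ln11_14_4_ok) (L (nat_lit 620) ln12_19_7 ln12_19_7_ok))))))))))) (B (M (nat_lit 458)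 (B (L (nat_lit 430) ln10_14_2 ln10_14_2_ok) (M (nat_lit 457) (B (M (nat_lit 425) (B (L (nat_lit 424) ln12_14_3 ln12_14_3_ok) (L (nat_lit 426) ln13_14_3 ln13_14_3_ok))) (M (nat_lit 489) (B (L (nat_lit 488) ln12_14_1 ln12_14_1_ok) (L (nat_lit 490) ln13_14_1 ln13_14_1_ok))))))) (B (M (nat_lit 491) (B (M (nat_lit 490) (B (L (nat_lit 462) ln14_14_1 ln14_14_1_ok) (M (nat_lit 492) (B (L (nat_lit 556) ln12_17_6 ln12_17_6_ok) (L (nat_lit 489) ln9_15_2 ln9_15_2_ok))))) (B (M (nat_lit 556) (B (L (nat_lit 492) ln12_17_6 ln12_17_6_ok) (M (nat_lit 523) (B (L (nat_lit 427) ln11_13_4 ln11_13_4_ok) (M (nat_lit 588) (B (L (nat_lit 555) ln11_14_4 ln11_14_4_ok) (L (nat_lit 620) ln12_19_7 ln12_19_7_ok))))))) (B (M (nat_lit 523) (B (M (nat_lit 490) (B (L (nat_lit 462) ln14_14_1 ln14_14_1_ok) (M (nat_lit 489) (B (L (nat_lit 488) ln8_15_2 ln8_15_2_ok) (L (nat_lit 522) ln13_16_3 ln13_16_3_ok))))) (M (nat_lit 556) (B (L (nat_lit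 427) ln11_13_4 ln11_13_4_ok) (M (nat_lit 588) (B (L (nat_lit 555) ln11_14_4 ln11_14_4_ok) (L (nat_lit 620) ln12_19_7 ln12_19_7_ok))))))) (M (nat_lit 490) (B (L (nat_lit 462) ln14_14_1 ln14_14_1_ok) (M (nat_lit 489) (B (L (nat_lit 488) ln8_15_2 ln8_15_2_ok) (L (nat_lit 492) ln9_15_2 ln9_15_2_ok))))))))) (B (M (nat_lit 458) (B (L (nat_lit 430) ln10_14_2 ln10_14_2_ok) (M (nat_lit 492) (B (L (nat_lit 556) ln12_17_6 ln12_17_6_ok) (M (nat_lit 462) (B (M (nat_lit 426) (B (L (nat_lit 425) ln13_14_3 ln13_14_3_ok) (L (nat_lit 427) ln14_14_3 ln14_14_3_ok))) (M (nat_lit 491) (B (L (nat_lit 490) ln14_14_1 ln14_14_1_ok) (L (nat_lit 463) ln15_14_1 ln15_14_1_ok))))))))) (M (nat_lit 458) (B (L (nat_lit 430) ln10_14_2 ln10_14_2_ok) (M (nat_lit 457) (B (M (nat_lit 425) (B (L (nat_lit 424) ln12_14_3 ln12_14_3_ok) (L (nat_lit 426) ln13_14_3 ln13_14_3_ok))) (M (nat_lit 456) (B (M (nat_lit 488) (B (L (nat_lit 487) ln11_14_1 ln11_14_1_ok)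 (L (nat_lit 489) ln12_14_1 ln12_14_1_ok))) (M (nat_lit 492) (B (L (nat_lit 556) ln12_17_6 ln12_17_6_ok) (L (nat_lit 491) ln8_14_0 ln8_14_0_ok))))))))))))))) (B (M (nat_lit 492) (B (L (nat_lit 556) ln12_17_6 ln12_17_6_ok) (M (nat_lit 428) (B (L (nat_lit 557) ln12_13_4 ln12_13_4_ok) (M (nat_lit 396) (B (M (nat_lit 395) (B (L (nat_lit 363) ln12_15_7 ln12_15_7_ok) (L (nat_lit 427) ln12_16_7 ln12_16_7_ok))) (M (nat_lit 523) (B (L (nat_lit 491) ln12_12_5 ln12_12_5_ok) (L (nat_lit 555) ln12_13_5 ln12_13_5_ok))))))))) (B c20_n2368 (M (nat_lit 428) (B (M (nat_lit 492) (B (L (nat_lit 557) ln12_13_4 ln12_13_4_ok) (M (nat_lit 427) (B (L (nat_lit 395) ln12_16_7 ln12_16_7_ok) (M (nat_lit 426) (B (L (nat_lit 425) ln9_13_0 ln9_13_0_ok) (L (nat_lit 462) ln10_13_0 ln10_13_0_ok))))))) (B (M (nat_lit 492) (B (L (nat_lit 557) ln12_13_4 ln12_13_4_ok) (M (nat_lit 491) (B (M (nat_lit 523) (B (L (nat_lit 396) ln12_12_5 ln12_12_5_ok)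 (L (nat_lit 555) ln12_13_5 ln12_13_5_ok))) (M (nat_lit 462) (B (L (nat_lit 463) ln15_14_1 ln15_14_1_ok) (M (nat_lit 490) (B (L (nat_lit 459) ln14_14_1 ln14_14_1_ok) (L (nat_lit 489) ln9_15_2 ln9_15_2_ok))))))))) (B (M (nat_lit 492) (B (L (nat_lit 557) ln12_13_4 ln12_13_4_ok) (M (nat_lit 396) (B (M (nat_lit 395) (B (L (nat_lit 363) ln12_15_7 ln12_15_7_ok) (L (nat_lit 427) ln12_16_7 ln12_16_7_ok))) (M (nat_lit 523) (B (L (nat_lit 491) ln12_12_5 ln12_12_5_ok) (L (nat_lit 555) ln12_13_5 ln12_13_5_ok))))))) (M (nat_lit 427) (B (M (nat_lit 426) (B (L (nat_lit 425) ln9_13_0 ln9_13_0_ok) (L (nat_lit 462) ln10_13_0 ln10_13_0_ok))) (B (M (nat_lit 462) (B (L (nat_lit 426) ln10_13_0 ln10_13_0_ok) (L (nat_lit 463) ln15_14_3 ln15_14_3_ok))) (B (M (nat_lit 459) (B (M (nat_lit 458) (B (L (nat_lit 430) ln14_13_1 ln14_13_1_ok) (L (nat_lit 457) ln9_14_2 ln9_14_2_ok))) (M (nat_lit 491) (B (M (nat_lit 396) (B (L (nat_lit 364)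 ln12_11_5 ln12_11_5_ok) (L (nat_lit 523) ln11_16_6 ln11_16_6_ok))) (M (nat_lit 462) (B (L (nat_lit 463) ln15_14_3 ln15_14_3_ok) (L (nat_lit 490) ln14_14_1 ln14_14_1_ok))))))) (M (nat_lit 426) (B (L (nat_lit 425) ln9_13_0 ln9_13_0_ok) (M (nat_lit 430) (B (M (nat_lit 394) (B (L (nat_lit 393) ln13_13_3 ln13_13_3_ok) (L (nat_lit 395) ln14_13_3 ln14_13_3_ok))) (M (nat_lit 458) (B (L (nat_lit 457) ln13_13_1 ln13_13_1_ok) (L (nat_lit 459) ln14_13_1 ln14_13_1_ok))))))))))))))))))))) (nat_lit 164755143843134633165519882008769383708906915267447070062963694898921764489057621250214468214407175761246081372362678925016764078040427586613993921442859712512) (nat_lit 4351082438421287728921408327270251735294606469862588246544738328767695827496751366104281742660147851153490808454222081346723857243267782043585670957279323505781844494367949880991326142464) (nat_lit 4351082438421287728921408327270251735294606469862588246544738328767695827496751366104281742660147851153490808454222081346723857243267782043585670957279323505781844494367949880991326142464)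 (by decide +kernel)
noncomputable def c20_n2526 : Cert := (M (nat_lit 459) (B (M (nat_lit 458) (B (L (nat_lit 430) ln10_14_2 ln10_14_2_ok) (M (nat_lit 457) (B (L (nat_lit 428) ln9_14_2 ln9_14_2_ok) (M (nat_lit 489) (B (L (nat_lit 488) ln12_14_1 ln12_14_1_ok) (L (nat_lit 490) ln13_14_1 ln13_14_1_ok))))))) (B (M (nat_lit 458) (B (L (nat_lit 430) ln10_14_2 ln10_14_2_ok) (M (nat_lit 457) (B (M (nat_lit 425) (B (L (nat_lit 424) ln12_14_3 ln12_14_3_ok) (L (nat_lit 426) ln13_14_3 ln13_14_3_ok))) (M (nat_lit 489) (B (L (nat_lit 488) ln12_14_1 ln12_14_1_ok) (L (nat_lit 490) ln13_14_1 ln13_14_1_ok))))))) (B (M (nat_lit 458) (B (M (nat_lit 457) (B (L (nat_lit 428) ln9_14_2 ln9_14_2_ok) (M (nat_lit 489) (B (L (nat_lit 488) ln12_14_1 ln12_14_1_ok) (L (nat_lit 490) ln13_14_1 ln13_14_1_ok))))) (B (M (nat_lit 462) (B (M (nat_lit 426) (B (L (nat_lit 425) ln13_14_3 ln13_14_3_ok) (L (nat_lit 427) ln14_14_3 ln14_14_3_ok)))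 (M (nat_lit 490) (B (L (nat_lit 489) ln13_14_1 ln13_14_1_ok) (L (nat_lit 491) ln14_14_1 ln14_14_1_ok))))) (M (nat_lit 457) (B (L (nat_lit 428) ln9_14_2 ln9_14_2_ok) (M (nat_lit 425) (B (L (nat_lit 424) ln12_14_3 ln12_14_3_ok) (L (nat_lit 426) ln13_14_3 ln13_14_3_ok)))))))) (B (M (nat_lit 458) (B (L (nat_lit 430) ln10_14_2 ln10_14_2_ok) (M (nat_lit 462) (B (M (nat_lit 426) (B (L (nat_lit 425) ln13_14_3 ln13_14_3_ok) (L (nat_lit 427) ln14_14_3 ln14_14_3_ok))) (M (nat_lit 490) (B (L (nat_lit 489) ln13_14_1 ln13_14_1_ok) (L (nat_lit 491) ln14_14_1 ln14_14_1_ok))))))) (B (M (nat_lit 462) (B (M (nat_lit 427) (B (L (nat_lit 426) ln14_14_3 ln14_14_3_ok) (M (nat_lit 463) (B (L (nat_lit 428) ln15_14_3 ln15_14_3_ok) (M (nat_lit 495) (B (L (nat_lit 494) ln11_14_0 ln11_14_0_ok) (L (nat_lit 496) ln12_14_0 ln12_14_0_ok))))))) (B (M (nat_lit 463) (B (M (nat_lit 428) (B (L (nat_lit 427) ln15_14_3 ln15_14_3_ok) (L (nat_lit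 464) ln16_14_3 ln16_14_3_ok))) (M (nat_lit 495) (B (L (nat_lit 494) ln11_14_0 ln11_14_0_ok) (L (nat_lit 496) ln12_14_0 ln12_14_0_ok))))) (B (M (nat_lit 463) (B (M (nat_lit 495) (B (L (nat_lit 494) ln11_14_0 ln11_14_0_ok) (L (nat_lit 496) ln12_14_0 ln12_14_0_ok))) (M (nat_lit 464) (B (L (nat_lit 428) ln16_14_3 ln16_14_3_ok) (M (nat_lit 465) (B (L (nat_lit 430) ln17_14_3 ln17_14_3_ok) (M (nat_lit 433) (B (L (nat_lit 432) ln13_14_2 ln13_14_2_ok) (L (nat_lit 434) ln14_14_2 ln14_14_2_ok))))))))) (B (M (nat_lit 523) (B (M (nat_lit 491) (B (L (nat_lit 490) ln14_14_1 ln14_14_1_ok) (M (nat_lit 427) (B (L (nat_lit 426) ln14_14_3 ln14_14_3_ok) (L (nat_lit 556) ln11_13_4 ln11_13_4_ok))))) (B (M (nat_lit 490) (B (L (nat_lit 491) ln14_14_1 ln14_14_1_ok) (M (nat_lit 558) (B (M (nat_lit 494) (B (L (nat_lit 526) ln14_17_7 ln14_17_7_ok) (L (nat_lit 495) ln11_14_0 ln11_14_0_ok))) (M (nat_lit 522) (B (L (nat_lit 489) ln13_16_3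 ln13_16_3_ok) (L (nat_lit 557) ln10_16_0 ln10_16_0_ok))))))) (B (M (nat_lit 522) (B (M (nat_lit 494) (B (L (nat_lit 495) ln11_14_0 ln11_14_0_ok) (M (nat_lit 558) (B (L (nat_lit 526) ln14_17_7 ln14_17_7_ok) (L (nat_lit 557) ln10_16_0 ln10_16_0_ok))))) (M (nat_lit 427) (B (L (nat_lit 426) ln14_14_3 ln14_14_3_ok) (M (nat_lit 554) (B (L (nat_lit 491) ln11_13_5 ln11_13_5_ok) (L (nat_lit 553) ln13_16_1 ln13_16_1_ok))))))) (M (nat_lit 522) (B (M (nat_lit 494) (B (L (nat_lit 495) ln11_14_0 ln11_14_0_ok) (M (nat_lit 558) (B (L (nat_lit 526) ln14_17_7 ln14_17_7_ok) (L (nat_lit 557) ln10_16_0 ln10_16_0_ok))))) (M (nat_lit 521) (B (M (nat_lit 489) (B (L (nat_lit 488) ln12_16_3 ln12_16_3_ok) (L (nat_lit 490) ln13_16_3 ln13_16_3_ok))) (M (nat_lit 553) (B (L (nat_lit 552) ln12_16_1 ln12_16_1_ok) (L (nat_lit 554) ln13_16_1 ln13_16_1_ok))))))))))) (M (nat_lit 427) (B (L (nat_lit 426) ln14_14_3 ln14_14_3_ok) (M (nat_lit 491)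 (B (L (nat_lit 490) ln14_14_1 ln14_14_1_ok) (M (nat_lit 428) (B (L (nat_lit 463) ln15_14_3 ln15_14_3_ok) (M (nat_lit 523) (B (L (nat_lit 396) ln11_16_6 ln11_16_6_ok) (L (nat_lit 556) ln11_13_4 ln11_13_4_ok)))))))))))))) (M (nat_lit 458) (B (L (nat_lit 430) ln10_14_2 ln10_14_2_ok) (M (nat_lit 457) (B (L (nat_lit 428) ln9_14_2 ln9_14_2_ok) (M (nat_lit 425) (B (L (nat_lit 424) ln12_14_3 ln12_14_3_ok) (L (nat_lit 426) ln13_14_3 ln13_14_3_ok)))))))))))))
theorem c20_s2543 : Sem (nat_lit 164755143843134633165519882008769383708906915267447070062963694898921764489057621250214468214407175761246081372362678925016764078040427586613993921442859712512) (nat_lit 1754302846620212522332289232317559637315712121991580425273041552713107239485479824997038791785506891675305524758512298420935936790941979143529267638147255192370949390336) (nat_lit 1754302846620212522332289232317559637315712121991580425273041552713107239485479824997038791785506891675305524758512298420935936790941979143529267638147255192370949390336)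 :=
  sem_of_chk (M (nat_lit 460) (B (M (nat_lit 492) (B (L (nat_lit 556) ln12_17_6 ln12_17_6_ok) (M (nat_lit 428) (B (L (nat_lit 557) ln12_13_4 ln12_13_4_ok) (M (nat_lit 427) (B (L (nat_lit 395) ln12_16_7 ln12_16_7_ok) (M (nat_lit 426) (B (L (nat_lit 425) ln9_13_0 ln9_13_0_ok) (L (nat_lit 462) ln10_13_0 ln10_13_0_ok))))))))) (B (M (nat_lit 459) (B (M (nat_lit 458) (B (L (nat_lit 430) ln10_14_2 ln10_14_2_ok) (M (nat_lit 457) (B (L (nat_lit 428) ln9_14_2 ln9_14_2_ok) (M (nat_lit 425) (B (L (nat_lit 424) ln12_14_3 ln12_14_3_ok) (L (nat_lit 426) ln13_14_3 ln13_14_3_ok))))))) (B (M (nat_lit 428) (B (M (nat_lit 458) (B (L (nat_lit 457) ln9_14_2 ln9_14_2_ok) (L (nat_lit 430) ln10_14_2 ln10_14_2_ok))) (M (nat_lit 492) (B (L (nat_lit 557) ln12_13_4 ln12_13_4_ok) (L (nat_lit 556) ln12_17_6 ln12_17_6_ok))))) (B (M (nat_lit 458) (B (L (nat_lit 430) ln10_14_2 ln10_14_2_ok) (M (nat_lit 462) (B (M (nat_lit 426) (B (L (nat_lit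 425) ln13_14_3 ln13_14_3_ok) (L (nat_lit 427) ln14_14_3 ln14_14_3_ok))) (M (nat_lit 490) (B (L (nat_lit 489) ln13_14_1 ln13_14_1_ok) (L (nat_lit 491) ln14_14_1 ln14_14_1_ok))))))) (B (M (nat_lit 458) (B (M (nat_lit 457) (B (L (nat_lit 428) ln9_14_2 ln9_14_2_ok) (M (nat_lit 489) (B (L (nat_lit 488) ln12_14_1 ln12_14_1_ok) (L (nat_lit 490) ln13_14_1 ln13_14_1_ok))))) (B (M (nat_lit 462) (B (M (nat_lit 426) (B (L (nat_lit 425) ln13_14_3 ln13_14_3_ok) (L (nat_lit 427) ln14_14_3 ln14_14_3_ok))) (M (nat_lit 490) (B (L (nat_lit 489) ln13_14_1 ln13_14_1_ok) (L (nat_lit 491) ln14_14_1 ln14_14_1_ok))))) (M (nat_lit 457) (B (L (nat_lit 428) ln9_14_2 ln9_14_2_ok) (M (nat_lit 425) (B (L (nat_lit 424) ln12_14_3 ln12_14_3_ok) (L (nat_lit 426) ln13_14_3 ln13_14_3_ok)))))))) (M (nat_lit 462) (B (M (nat_lit 492) (B (L (nat_lit 556) ln12_17_6 ln12_17_6_ok) (M (nat_lit 491) (B (L (nat_lit 490) ln14_14_1 ln14_14_1_ok) (L (nat_lit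 463) ln15_14_1 ln15_14_1_ok))))) (B (M (nat_lit 427) (B (L (nat_lit 426) ln14_14_3 ln14_14_3_ok) (M (nat_lit 556) (B (L (nat_lit 492) ln12_17_7 ln12_17_7_ok) (M (nat_lit 491) (B (L (nat_lit 523) ln11_13_4 ln11_13_4_ok) (L (nat_lit 490) ln14_14_1 ln14_14_1_ok))))))) (M (nat_lit 427) (B (L (nat_lit 426) ln14_14_3 ln14_14_3_ok) (M (nat_lit 463) (B (L (nat_lit 428) ln15_14_3 ln15_14_3_ok) (M (nat_lit 495) (B (L (nat_lit 494) ln11_14_0 ln11_14_0_ok) (L (nat_lit 496) ln12_14_0 ln12_14_0_ok))))))))))))))) (B (M (nat_lit 492) (B (L (nat_lit 556) ln12_17_6 ln12_17_6_ok) (M (nat_lit 428) (B (L (nat_lit 557) ln12_13_4 ln12_13_4_ok) (M (nat_lit 427) (B (L (nat_lit 395) ln12_16_7 ln12_16_7_ok) (M (nat_lit 462) (B (L (nat_lit 426) ln10_13_0 ln10_13_0_ok) (L (nat_lit 463) ln15_14_3 ln15_14_3_ok))))))))) (B (M (nat_lit 492) (B (L (nat_lit 556) ln12_17_6 ln12_17_6_ok) (M (nat_lit 428) (B (L (nat_lit 557) ln12_13_4 ln12_13_4_ok)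 (M (nat_lit 459) (B (M (nat_lit 458) (B (L (nat_lit 457) ln9_14_2 ln9_14_2_ok) (L (nat_lit 430) ln10_14_2 ln10_14_2_ok))) (M (nat_lit 396) (B (M (nat_lit 395) (B (L (nat_lit 363) ln12_15_7 ln12_15_7_ok) (L (nat_lit 427) ln12_16_7 ln12_16_7_ok))) (M (nat_lit 364) (B (L (nat_lit 332) ln12_10_4 ln12_10_4_ok) (L (nat_lit 491) ln12_11_5 ln12_11_5_ok))))))))))) (B (M (nat_lit 492) (B (L (nat_lit 556) ln12_17_6 ln12_17_6_ok) (M (nat_lit 491) (B (M (nat_lit 490) (B (L (nat_lit 489) ln9_15_2 ln9_15_2_ok) (M (nat_lit 462) (B (L (nat_lit 459) ln14_14_1 ln14_14_1_ok) (L (nat_lit 463) ln15_14_1 ln15_14_1_ok))))) (B (M (nat_lit 490) (B (L (nat_lit 489) ln9_15_2 ln9_15_2_ok) (M (nat_lit 526) (B (L (nat_lit 523) ln14_16_3 ln14_16_3_ok) (L (nat_lit 527) ln15_16_3 ln15_16_3_ok))))) (B (M (nat_lit 490) (B (M (nat_lit 462) (B (L (nat_lit 459) ln14_14_1 ln14_14_1_ok) (L (nat_lit 463) ln15_14_1 ln15_14_1_ok))) (M (nat_lit 526)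 (B (L (nat_lit 523) ln14_16_3 ln14_16_3_ok) (L (nat_lit 527) ln15_16_3 ln15_16_3_ok))))) (M (nat_lit 428) (B (L (nat_lit 557) ln12_13_4 ln12_13_4_ok) (M (nat_lit 396) (B (L (nat_lit 523) ln12_12_5 ln12_12_5_ok) (M (nat_lit 364) (B (L (nat_lit 332) ln12_10_4 ln12_10_4_ok) (L (nat_lit 459) ln12_11_5 ln12_11_5_ok))))))))))))) (B (M (nat_lit 459) (B (M (nat_lit 458) (B (L (nat_lit 430) ln10_14_2 ln10_14_2_ok) (M (nat_lit 462) (B (M (nat_lit 426) (B (L (nat_lit 425) ln13_14_3 ln13_14_3_ok) (L (nat_lit 427) ln14_14_3 ln14_14_3_ok))) (M (nat_lit 490) (B (L (nat_lit 489) ln13_14_1 ln13_14_1_ok) (L (nat_lit 491) ln14_14_1 ln14_14_1_ok))))))) (B (M (nat_lit 492) (B (L (nat_lit 556) ln12_17_6 ln12_17_6_ok) (M (nat_lit 490) (B (M (nat_lit 458) (B (L (nat_lit 430) ln10_14_2 ln10_14_2_ok) (L (nat_lit 489) ln13_14_1 ln13_14_1_ok))) (B (M (nat_lit 489) (B (L (nat_lit 458) ln13_14_1 ln13_14_1_ok) (L (nat_lit 491) ln9_15_2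 ln9_15_2_ok))) (B (M (nat_lit 491) (B (L (nat_lit 462) ln14_14_1 ln14_14_1_ok) (L (nat_lit 489) ln9_15_2 ln9_15_2_ok))) (M (nat_lit 491) (B (L (nat_lit 462) ln14_14_1 ln14_14_1_ok) (M (nat_lit 526) (B (L (nat_lit 523) ln14_16_3 ln14_16_3_ok) (L (nat_lit 527) ln15_16_3 ln15_16_3_ok))))))))))) (B (M (nat_lit 427) (B (M (nat_lit 492) (B (L (nat_lit 556) ln12_17_7 ln12_17_7_ok) (M (nat_lit 395) (B (L (nat_lit 363) ln11_11_4 ln11_11_4_ok) (L (nat_lit 491) ln11_12_4 ln11_12_4_ok))))) (M (nat_lit 426) (B (L (nat_lit 462) ln14_14_3 ln14_14_3_ok) (M (nat_lit 425) (B (L (nat_lit 424) ln8_13_0 ln8_13_0_ok) (L (nat_lit 458) ln13_14_3 ln13_14_3_ok))))))) (B (M (nat_lit 492) (B (L (nat_lit 556) ln12_17_6 ln12_17_6_ok) (M (nat_lit 491) (B (M (nat_lit 462) (B (L (nat_lit 490) ln14_14_1 ln14_14_1_ok) (L (nat_lit 463) ln15_14_1 ln15_14_1_ok))) (B (M (nat_lit 490) (B (L (nat_lit 489) ln9_15_2 ln9_15_2_ok) (M (nat_lit 526)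 (B (L (nat_lit 523) ln14_16_3 ln14_16_3_ok) (L (nat_lit 527) ln15_16_3 ln15_16_3_ok))))) (M (nat_lit 427) (B (L (nat_lit 395) ln11_12_4 ln11_12_4_ok) (M (nat_lit 462) (B (L (nat_lit 426) ln14_14_3 ln14_14_3_ok) (L (nat_lit 463) ln15_14_1 ln15_14_1_ok)))))))))) (M (nat_lit 458) (B (L (nat_lit 430) ln10_14_2 ln10_14_2_ok) (M (nat_lit 457) (B (M (nat_lit 425) (B (L (nat_lit 424) ln12_14_3 ln12_14_3_ok) (L (nat_lit 426) ln13_14_3 ln13_14_3_ok))) (M (nat_lit 489) (B (L (nat_lit 488) ln12_14_1 ln12_14_1_ok) (L (nat_lit 490) ln13_14_1 ln13_14_1_ok)))))))))))) (B c20_n2526 (M (nat_lit 428) (B (M (nat_lit 492) (B (L (nat_lit 557) ln12_13_4 ln12_13_4_ok) (M (nat_lit 427) (B (L (nat_lit 395) ln12_16_7 ln12_16_7_ok) (M (nat_lit 426) (B (L (nat_lit 425) ln9_13_0 ln9_13_0_ok) (L (nat_lit 462) ln10_13_0 ln10_13_0_ok))))))) (B (M (nat_lit 492) (B (L (nat_lit 557) ln12_13_4 ln12_13_4_ok) (M (nat_lit 491) (B (M (nat_lit 396)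 (B (L (nat_lit 523) ln12_12_5 ln12_12_5_ok) (M (nat_lit 364) (B (L (nat_lit 332) ln12_10_4 ln12_10_4_ok) (L (nat_lit 459) ln12_11_5 ln12_11_5_ok))))) (B (M (nat_lit 523) (B (L (nat_lit 396) ln12_12_5 ln12_12_5_ok) (M (nat_lit 490) (B (L (nat_lit 489) ln9_15_2 ln9_15_2_ok) (L (nat_lit 526) ln14_16_3 ln14_16_3_ok))))) (M (nat_lit 462) (B (L (nat_lit 463) ln15_14_1 ln15_14_1_ok) (M (nat_lit 490) (B (L (nat_lit 459) ln14_14_1 ln14_14_1_ok) (L (nat_lit 489) ln9_15_2 ln9_15_2_ok)))))))))) (B (M (nat_lit 396) (B (M (nat_lit 492) (B (L (nat_lit 557) ln12_13_4 ln12_13_4_ok) (M (nat_lit 395) (B (L (nat_lit 363) ln12_15_7 ln12_15_7_ok) (L (nat_lit 427) ln12_16_7 ln12_16_7_ok))))) (M (nat_lit 459) (B (M (nat_lit 364) (B (L (nat_lit 332) ln12_10_4 ln12_10_4_ok) (L (nat_lit 491) ln12_11_5 ln12_11_5_ok))) (M (nat_lit 458) (B (L (nat_lit 457) ln9_14_2 ln9_14_2_ok) (L (nat_lit 430) ln10_14_2 ln10_14_2_ok))))))) (M (nat_lit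 427) (B (M (nat_lit 426) (B (L (nat_lit 425) ln9_13_0 ln9_13_0_ok) (L (nat_lit 462) ln10_13_0 ln10_13_0_ok))) (B (M (nat_lit 462) (B (L (nat_lit 426) ln10_13_0 ln10_13_0_ok) (L (nat_lit 463) ln15_14_3 ln15_14_3_ok))) (B (M (nat_lit 459) (B (M (nat_lit 458) (B (L (nat_lit 430) ln14_13_1 ln14_13_1_ok) (L (nat_lit 457) ln9_14_2 ln9_14_2_ok))) (M (nat_lit 491) (B (M (nat_lit 396) (B (L (nat_lit 364) ln12_11_5 ln12_11_5_ok) (L (nat_lit 523) ln11_16_6 ln11_16_6_ok))) (M (nat_lit 462) (B (L (nat_lit 463) ln15_14_3 ln15_14_3_ok) (L (nat_lit 490) ln14_14_1 ln14_14_1_ok))))))) (M (nat_lit 426) (B (L (nat_lit 425) ln9_13_0 ln9_13_0_ok) (M (nat_lit 430) (B (M (nat_lit 394) (B (L (nat_lit 393) ln13_13_3 ln13_13_3_ok) (L (nat_lit 395) ln14_13_3 ln14_13_3_ok))) (M (nat_lit 458) (B (L (nat_lit 457) ln13_13_1 ln13_13_1_ok) (L (nat_lit 459) ln14_13_1 ln14_13_1_ok))))))))))))))))))))))) (nat_lit 164755143843134633165519882008769383708906915267447070062963694898921764489057621250214468214407175761246081372362678925016764078040427586613993921442859712512)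 (nat_lit 1754302846620212522332289232317559637315712121991580425273041552713107239485479824997038791785506891675305524758512298420935936790941979143529267638147255192370949390336) (nat_lit 1754302846620212522332289232317559637315712121991580425273041552713107239485479824997038791785506891675305524758512298420935936790941979143529267638147255192370949390336) (by decide +kernel)
noncomputable def c20_n2625 : Cert := (M (nat_lit 428) (B (M (nat_lit 492) (B (L (nat_lit 491) ln15_16_3 ln15_16_3_ok) (M (nat_lit 460) (B (L (nat_lit 557) ln12_13_4 ln12_13_4_ok) (M (nat_lit 427) (B (L (nat_lit 395) ln12_16_7 ln12_16_7_ok) (M (nat_lit 426) (B (L (nat_lit 425) ln9_13_0 ln9_13_0_ok) (L (nat_lit 462) ln10_13_0 ln10_13_0_ok))))))))) (B (M (nat_lit 462) (B (M (nat_lit 427) (B (L (nat_lit 426) ln10_13_0 ln10_13_0_ok) (M (nat_lit 463) (B (L (nat_lit 430) ln11_13_0 ln11_13_0_ok) (L (nat_lit 464) ln16_14_3 ln16_14_3_ok)))))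 (B (M (nat_lit 463) (B (L (nat_lit 464) ln16_14_3 ln16_14_3_ok) (M (nat_lit 427) (B (L (nat_lit 430) ln11_13_0 ln11_13_0_ok) (L (nat_lit 460) ln15_14_3 ln15_14_3_ok))))) (B (M (nat_lit 494) (B (L (nat_lit 558) ln14_17_7 ln14_17_7_ok) (M (nat_lit 430) (B (L (nat_lit 557) ln14_13_5 ln14_13_5_ok) (L (nat_lit 559) ln14_13_4 ln14_13_4_ok))))) (M (nat_lit 427) (B (L (nat_lit 426) ln10_13_0 ln10_13_0_ok) (M (nat_lit 463) (B (L (nat_lit 460) ln15_14_3 ln15_14_3_ok) (L (nat_lit 464) ln16_14_3 ln16_14_3_ok))))))))) (B (M (nat_lit 462) (B (M (nat_lit 463) (B (L (nat_lit 464) ln16_14_3 ln16_14_3_ok) (M (nat_lit 427) (B (L (nat_lit 430) ln11_13_0 ln11_13_0_ok) (L (nat_lit 460) ln15_14_3 ln15_14_3_ok))))) (B (M (nat_lit 494) (B (L (nat_lit 558) ln14_17_7 ln14_17_7_ok) (M (nat_lit 430) (B (L (nat_lit 557) ln14_13_5 ln14_13_5_ok) (L (nat_lit 559) ln14_13_4 ln14_13_4_ok))))) (M (nat_lit 460) (B (M (nat_lit 463) (B (L (nat_lit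 427) ln15_14_3 ln15_14_3_ok) (L (nat_lit 464) ln16_14_3 ln16_14_3_ok))) (M (nat_lit 492) (B (L (nat_lit 557) ln12_13_4 ln12_13_4_ok) (L (nat_lit 491) ln15_16_3 ln15_16_3_ok)))))))) (B (M (nat_lit 492) (B (L (nat_lit 491) ln15_16_3 ln15_16_3_ok) (M (nat_lit 528) (B (M (nat_lit 560) (B (L (nat_lit 559) ln12_16_0 ln12_16_0_ok) (L (nat_lit 561) ln13_16_0 ln13_16_0_ok))) (M (nat_lit 529) (B (M (nat_lit 497) (B (L (nat_lit 496) ln13_16_2 ln13_16_2_ok) (L (nat_lit 498) ln14_16_2 ln14_16_2_ok))) (M (nat_lit 557) (B (L (nat_lit 460) ln12_13_4 ln12_13_4_ok) (L (nat_lit 558) ln17_16_1 ln17_16_1_ok))))))))) (B (M (nat_lit 462) (B (M (nat_lit 494) (B (L (nat_lit 558) ln14_17_7 ln14_17_7_ok) (M (nat_lit 430) (B (L (nat_lit 557) ln14_13_5 ln14_13_5_ok) (L (nat_lit 559) ln14_13_4 ln14_13_4_ok))))) (B (M (nat_lit 528) (B (M (nat_lit 560) (B (L (nat_lit 559) ln12_16_0 ln12_16_0_ok) (L (nat_lit 561) ln13_16_0 ln13_16_0_ok)))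 (M (nat_lit 529) (B (M (nat_lit 497) (B (L (nat_lit 496) ln13_16_2 ln13_16_2_ok) (L (nat_lit 498) ln14_16_2 ln14_16_2_ok))) (M (nat_lit 558) (B (L (nat_lit 494) ln14_17_7 ln14_17_7_ok) (L (nat_lit 557) ln17_16_1 ln17_16_1_ok))))))) (M (nat_lit 427) (B (L (nat_lit 426) ln10_13_0 ln10_13_0_ok) (M (nat_lit 463) (B (L (nat_lit 430) ln11_13_0 ln11_13_0_ok) (L (nat_lit 464) ln16_14_3 ln16_14_3_ok)))))))) (M (nat_lit 462) (B (M (nat_lit 427) (B (L (nat_lit 426) ln10_13_0 ln10_13_0_ok) (M (nat_lit 463) (B (L (nat_lit 430) ln11_13_0 ln11_13_0_ok) (L (nat_lit 464) ln16_14_3 ln16_14_3_ok))))) (B (M (nat_lit 463) (B (L (nat_lit 464) ln16_14_3 ln16_14_3_ok) (M (nat_lit 427) (B (L (nat_lit 430) ln11_13_0 ln11_13_0_ok) (L (nat_lit 460) ln15_14_3 ln15_14_3_ok))))) (B (M (nat_lit 494) (B (L (nat_lit 558) ln14_17_7 ln14_17_7_ok) (M (nat_lit 559) (B (L (nat_lit 430) ln14_13_4 ln14_13_4_ok) (L (nat_lit 560) ln12_16_0 ln12_16_0_ok)))))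 (M (nat_lit 427) (B (L (nat_lit 426) ln10_13_0 ln10_13_0_ok) (M (nat_lit 463) (B (L (nat_lit 460) ln15_14_3 ln15_14_3_ok) (L (nat_lit 464) ln16_14_3 ln16_14_3_ok)))))))))))))))
theorem c20_s2765 : Sem (nat_lit 384428668967314144044940707579373966661528844872032843163586525592859146357782614918136376715573721520519563336890066382204667694031360188616362826758541541376) (nat_lit 34808659505344171204911496175262198071692694433516653855649027801527661893750109423267324847483416772554715500420897236511391145730386287946285719157963255654554248169825065047460340039680) (nat_lit 34808659505344171204911496175262198071692694433516653855649027801527661893750109423267324847483416772554715500420897236511391145730386287946285719157963255654554248169825065047460340039680) :=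
  sem_of_chk (M (nat_lit 527) (B (M (nat_lit 528) (B (M (nat_lit 496) (B (L (nat_lit 495) ln12_16_2 ln12_16_2_ok) (L (nat_lit 497) ln13_16_2 ln13_16_2_ok))) (M (nat_lit 560) (B (L (nat_lit 559) ln12_16_0 ln12_16_0_ok) (L (nat_lit 561) ln13_16_0 ln13_16_0_ok))))) (B c20_n2625 (B (M (nat_lit 462) (B (M (nat_lit 494) (B (L (nat_lit 558) ln14_17_7 ln14_17_7_ok) (M (nat_lit 430) (B (L (nat_lit 557) ln14_13_5 ln14_13_5_ok) (L (nat_lit 559) ln14_13_4 ln14_13_4_ok))))) (B (M (nat_lit 494) (B (L (nat_lit 558) ln14_17_7 ln14_17_7_ok) (M (nat_lit 559) (B (L (nat_lit 560) ln12_16_0 ln12_16_0_ok) (M (nat_lit 591) (B (L (nat_lit 495) ln15_18_7 ln15_18_7_ok) (L (nat_lit 623) ln15_19_7 ln15_19_7_ok))))))) (B (M (nat_lit 463) (B (M (nat_lit 428) (B (L (nat_lit 464) ln16_14_3 ln16_14_3_ok) (M (nat_lit 427) (B (L (nat_lit 426) ln10_13_0 ln10_13_0_ok) (L (nat_lit 460) ln15_14_3 ln15_14_3_ok))))) (B (M (nat_lit 428) (B (L (nat_lit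 464) ln16_14_3 ln16_14_3_ok) (M (nat_lit 427) (B (L (nat_lit 430) ln11_13_0 ln11_13_0_ok) (L (nat_lit 460) ln15_14_3 ln15_14_3_ok))))) (B (M (nat_lit 430) (B (M (nat_lit 464) (B (L (nat_lit 428) ln16_14_3 ln16_14_3_ok) (L (nat_lit 465) ln17_14_3 ln17_14_3_ok))) (M (nat_lit 559) (B (L (nat_lit 495) ln15_17_7 ln15_17_7_ok) (L (nat_lit 560) ln12_16_0 ln12_16_0_ok))))) (B (M (nat_lit 464) (B (M (nat_lit 465) (B (L (nat_lit 430) ln17_14_3 ln17_14_3_ok) (M (nat_lit 433) (B (L (nat_lit 432) ln13_14_2 ln13_14_2_ok) (L (nat_lit 434) ln14_14_2 ln14_14_2_ok))))) (B (M (nat_lit 432) (B (L (nat_lit 433) ln13_14_2 ln13_14_2_ok) (M (nat_lit 559) (B (L (nat_lit 495) ln15_17_6 ln15_17_6_ok) (L (nat_lit 560) ln12_16_0 ln12_16_0_ok))))) (M (nat_lit 430) (B (L (nat_lit 465) ln17_14_3 ln17_14_3_ok) (M (nat_lit 559) (B (L (nat_lit 495) ln15_17_7 ln15_17_7_ok) (L (nat_lit 560) ln12_16_0 ln12_16_0_ok)))))))) (M (nat_lit 460) (B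 (M (nat_lit 428) (B (L (nat_lit 427) ln15_14_3 ln15_14_3_ok) (M (nat_lit 492) (B (L (nat_lit 557) ln12_13_4 ln12_13_4_ok) (L (nat_lit 491) ln15_14_1 ln15_14_1_ok))))) (B (M (nat_lit 491) (B (L (nat_lit 492) ln15_14_1 ln15_14_1_ok) (M (nat_lit 430) (B (M (nat_lit 459) (B (L (nat_lit 458) ln10_14_2 ln10_14_2_ok) (L (nat_lit 490) ln14_14_1 ln14_14_1_ok))) (M (nat_lit 559) (B (L (nat_lit 495) ln15_17_7 ln15_17_7_ok) (L (nat_lit 560) ln12_16_0 ln12_16_0_ok))))))) (M (nat_lit 427) (B (L (nat_lit 428) ln15_14_3 ln15_14_3_ok) (M (nat_lit 430) (B (M (nat_lit 459) (B (L (nat_lit 426) ln14_14_3 ln14_14_3_ok) (L (nat_lit 458) ln10_14_2 ln10_14_2_ok))) (M (nat_lit 559) (B (L (nat_lit 495) ln15_17_7 ln15_17_7_ok) (L (nat_lit 560) ln12_16_0 ln12_16_0_ok))))))))))))))) (M (nat_lit 428) (B (M (nat_lit 427) (B (L (nat_lit 426) ln10_13_0 ln10_13_0_ok) (M (nat_lit 463) (B (L (nat_lit 460) ln15_14_3 ln15_14_3_ok) (L (nat_lit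 464) ln16_14_3 ln16_14_3_ok))))) (B (M (nat_lit 463) (B (L (nat_lit 464) ln16_14_3 ln16_14_3_ok) (M (nat_lit 427) (B (L (nat_lit 430) ln11_13_0 ln11_13_0_ok) (L (nat_lit 460) ln15_14_3 ln15_14_3_ok))))) (B (M (nat_lit 557) (B (M (nat_lit 492) (B (L (nat_lit 460) ln12_13_4 ln12_13_4_ok) (L (nat_lit 491) ln15_16_3 ln15_16_3_ok))) (M (nat_lit 494) (B (L (nat_lit 558) ln14_17_7 ln14_17_7_ok) (L (nat_lit 430) ln14_13_5 ln14_13_5_ok))))) (M (nat_lit 427) (B (L (nat_lit 426) ln10_13_0 ln10_13_0_ok) (M (nat_lit 463) (B (L (nat_lit 430) ln11_13_0 ln11_13_0_ok) (L (nat_lit 464) ln16_14_3 ln16_14_3_ok))))))))))))) (B (M (nat_lit 428) (B (M (nat_lit 492) (B (L (nat_lit 491) ln15_16_3 ln15_16_3_ok) (M (nat_lit 460) (B (L (nat_lit 557) ln12_13_4 ln12_13_4_ok) (M (nat_lit 427) (B (L (nat_lit 395) ln12_16_7 ln12_16_7_ok) (M (nat_lit 426) (B (L (nat_lit 425) ln9_13_0 ln9_13_0_ok) (L (nat_lit 462) ln10_13_0 ln10_13_0_ok)))))))))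 (B (M (nat_lit 492) (B (L (nat_lit 491) ln15_16_3 ln15_16_3_ok) (M (nat_lit 528) (B (M (nat_lit 496) (B (L (nat_lit 495) ln12_16_2 ln12_16_2_ok) (L (nat_lit 497) ln13_16_2 ln13_16_2_ok))) (M (nat_lit 529) (B (M (nat_lit 557) (B (L (nat_lit 460) ln12_13_4 ln12_13_4_ok) (L (nat_lit 558) ln17_16_1 ln17_16_1_ok))) (M (nat_lit 561) (B (L (nat_lit 560) ln13_16_0 ln13_16_0_ok) (L (nat_lit 562) ln14_16_0 ln14_16_0_ok))))))))) (B (M (nat_lit 462) (B (M (nat_lit 427) (B (L (nat_lit 426) ln10_13_0 ln10_13_0_ok) (M (nat_lit 463) (B (L (nat_lit 430) ln11_13_0 ln11_13_0_ok) (L (nat_lit 464) ln16_14_3 ln16_14_3_ok))))) (B (M (nat_lit 430) (B (M (nat_lit 463) (B (L (nat_lit 427) ln11_13_0 ln11_13_0_ok) (L (nat_lit 464) ln16_14_3 ln16_14_3_ok))) (M (nat_lit 494) (B (L (nat_lit 558) ln14_17_7 ln14_17_7_ok) (L (nat_lit 557) ln14_13_5 ln14_13_5_ok))))) (M (nat_lit 528) (B (M (nat_lit 496) (B (L (nat_lit 495) ln12_16_2 ln12_16_2_ok)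 (L (nat_lit 497) ln13_16_2 ln13_16_2_ok))) (M (nat_lit 529) (B (M (nat_lit 558) (B (L (nat_lit 494) ln14_17_7 ln14_17_7_ok) (L (nat_lit 557) ln17_16_1 ln17_16_1_ok))) (M (nat_lit 561) (B (L (nat_lit 560) ln13_16_0 ln13_16_0_ok) (L (nat_lit 562) ln14_16_0 ln14_16_0_ok)))))))))) (M (nat_lit 427) (B (M (nat_lit 462) (B (L (nat_lit 426) ln10_13_0 ln10_13_0_ok) (M (nat_lit 463) (B (L (nat_lit 430) ln11_13_0 ln11_13_0_ok) (L (nat_lit 464) ln16_14_3 ln16_14_3_ok))))) (B (M (nat_lit 395) (B (M (nat_lit 492) (B (L (nat_lit 460) ln12_16_7 ln12_16_7_ok) (L (nat_lit 491) ln15_16_3 ln15_16_3_ok))) (M (nat_lit 394) (B (L (nat_lit 430) ln14_13_3 ln14_13_3_ok) (M (nat_lit 393) (B (L (nat_lit 392) ln8_12_0 ln8_12_0_ok) (L (nat_lit 396) ln9_12_0 ln9_12_0_ok))))))) (M (nat_lit 462) (B (L (nat_lit 426) ln10_13_0 ln10_13_0_ok) (M (nat_lit 463) (B (L (nat_lit 460) ln15_14_3 ln15_14_3_ok) (L (nat_lit 464) ln16_14_3 ln16_14_3_ok))))))))))))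 (M (nat_lit 462) (B (M (nat_lit 494) (B (L (nat_lit 558) ln14_17_7 ln14_17_7_ok) (M (nat_lit 430) (B (L (nat_lit 557) ln14_13_5 ln14_13_5_ok) (L (nat_lit 559) ln14_13_4 ln14_13_4_ok))))) (B (M (nat_lit 460) (B (M (nat_lit 495) (B (L (nat_lit 496) ln12_16_2 ln12_16_2_ok) (M (nat_lit 494) (B (L (nat_lit 558) ln14_17_7 ln14_17_7_ok) (L (nat_lit 459) ln11_14_0 ln11_14_0_ok))))) (M (nat_lit 428) (B (M (nat_lit 427) (B (L (nat_lit 426) ln10_13_0 ln10_13_0_ok) (L (nat_lit 463) ln15_14_3 ln15_14_3_ok))) (M (nat_lit 492) (B (L (nat_lit 557) ln12_13_4 ln12_13_4_ok) (L (nat_lit 491) ln15_16_3 ln15_16_3_ok))))))) (B (M (nat_lit 463) (B (M (nat_lit 428) (B (L (nat_lit 464) ln16_14_3 ln16_14_3_ok) (M (nat_lit 427) (B (L (nat_lit 430) ln11_13_0 ln11_13_0_ok) (L (nat_lit 460) ln15_14_3 ln15_14_3_ok))))) (B (M (nat_lit 464) (B (L (nat_lit 428) ln16_14_3 ln16_14_3_ok) (M (nat_lit 496) (B (L (nat_lit 497) ln13_14_0 ln13_14_0_ok)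 (L (nat_lit 495) ln12_16_2 ln12_16_2_ok))))) (B (M (nat_lit 496) (B (L (nat_lit 495) ln12_16_2 ln12_16_2_ok) (M (nat_lit 497) (B (L (nat_lit 464) ln13_14_0 ln13_14_0_ok) (L (nat_lit 528) ln13_16_2 ln13_16_2_ok))))) (M (nat_lit 460) (B (M (nat_lit 428) (B (L (nat_lit 427) ln15_14_3 ln15_14_3_ok) (M (nat_lit 492) (B (L (nat_lit 557) ln12_13_4 ln12_13_4_ok) (L (nat_lit 491) ln15_14_1 ln15_14_1_ok))))) (B (M (nat_lit 491) (B (L (nat_lit 492) ln15_14_1 ln15_14_1_ok) (M (nat_lit 430) (B (M (nat_lit 459) (B (L (nat_lit 458) ln10_14_2 ln10_14_2_ok) (L (nat_lit 490) ln14_14_1 ln14_14_1_ok))) (M (nat_lit 495) (B (L (nat_lit 559) ln15_17_7 ln15_17_7_ok) (L (nat_lit 496) ln12_14_0 ln12_14_0_ok))))))) (M (nat_lit 427) (B (L (nat_lit 428) ln15_14_3 ln15_14_3_ok) (M (nat_lit 430) (B (M (nat_lit 459) (B (L (nat_lit 426) ln14_14_3 ln14_14_3_ok) (L (nat_lit 458) ln10_14_2 ln10_14_2_ok))) (M (nat_lit 495) (B (L (nat_lit 559)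 ln15_17_7 ln15_17_7_ok) (L (nat_lit 496) ln12_14_0 ln12_14_0_ok)))))))))))))) (M (nat_lit 494) (B (L (nat_lit 558) ln14_17_7 ln14_17_7_ok) (M (nat_lit 559) (B (L (nat_lit 430) ln14_13_4 ln14_13_4_ok) (M (nat_lit 495) (B (L (nat_lit 591) ln15_18_7 ln15_18_7_ok) (L (nat_lit 496) ln12_16_2 ln12_16_2_ok)))))))))))))))) (nat_lit 384428668967314144044940707579373966661528844872032843163586525592859146357782614918136376715573721520519563336890066382204667694031360188616362826758541541376) (nat_lit 34808659505344171204911496175262198071692694433516653855649027801527661893750109423267324847483416772554715500420897236511391145730386287946285719157963255654554248169825065047460340039680) (nat_lit 34808659505344171204911496175262198071692694433516653855649027801527661893750109423267324847483416772554715500420897236511391145730386287946285719157963255654554248169825065047460340039680) (by decide +kernel)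
theorem c20_s3016 : Sem (nat_lit 384428668967314144044940707579373966661528844872032843163586525592859146357782614918136376715573721520519563336890066382204667694031360188616362826758541541376) (nat_lit 13887002361444745382891729700546645446328883560130456149744925145681214340415685854252336979897270994771482841669453908759562278896574679132325633708345468736732313681920) (nat_lit 13887002361444745382891729700546645446328883560130456149744925145681214340415685854252336979897270994771482841669453908759562278896574679132325633708345468736732313681920) :=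
  sem_of_chk (M (nat_lit 462) (B (M (nat_lit 463) (B (M (nat_lit 428) (B (L (nat_lit 464) ln16_14_3 ln16_14_3_ok) (M (nat_lit 427) (B (L (nat_lit 426) ln10_13_0 ln10_13_0_ok) (L (nat_lit 430) ln11_13_0 ln11_13_0_ok))))) (B (M (nat_lit 428) (B (L (nat_lit 464) ln16_14_3 ln16_14_3_ok) (M (nat_lit 427) (B (L (nat_lit 430) ln11_13_0 ln11_13_0_ok) (L (nat_lit 460) ln15_14_3 ln15_14_3_ok))))) (B (M (nat_lit 496) (B (M (nat_lit 464) (B (L (nat_lit 428) ln16_14_3 ln16_14_3_ok) (L (nat_lit 497) ln13_14_0 ln13_14_0_ok))) (M (nat_lit 495) (B (L (nat_lit 460) ln12_14_0 ln12_14_0_ok) (L (nat_lit 527) ln12_16_2 ln12_16_2_ok))))) (M (nat_lit 495) (B (M (nat_lit 496) (B (L (nat_lit 460) ln12_14_0 ln12_14_0_ok) (L (nat_lit 527) ln12_16_2 ln12_16_2_ok))) (B (M (nat_lit 527) (B (L (nat_lit 496) ln12_16_2 ln12_16_2_ok) (M (nat_lit 559) (B (L (nat_lit 430) ln15_17_7 ln15_17_7_ok) (L (nat_lit 560) ln12_16_0 ln12_16_0_ok)))))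 (B (M (nat_lit 491) (B (M (nat_lit 523) (B (L (nat_lit 490) ln14_16_3 ln14_16_3_ok) (L (nat_lit 494) ln11_16_2 ln11_16_2_ok))) (M (nat_lit 492) (B (L (nat_lit 460) ln15_14_1 ln15_14_1_ok) (L (nat_lit 527) ln15_16_3 ln15_16_3_ok))))) (M (nat_lit 494) (B (L (nat_lit 523) ln11_16_2 ln11_16_2_ok) (M (nat_lit 496) (B (L (nat_lit 460) ln12_14_0 ln12_14_0_ok) (L (nat_lit 497) ln17_15_3 ln17_15_3_ok))))))))))))) (B (M (nat_lit 463) (B (M (nat_lit 428) (B (L (nat_lit 464) ln16_14_3 ln16_14_3_ok) (M (nat_lit 427) (B (L (nat_lit 430) ln11_13_0 ln11_13_0_ok) (L (nat_lit 460) ln15_14_3 ln15_14_3_ok))))) (B (M (nat_lit 496) (B (M (nat_lit 464) (B (L (nat_lit 428) ln16_14_3 ln16_14_3_ok) (L (nat_lit 497) ln13_14_0 ln13_14_0_ok))) (M (nat_lit 495) (B (L (nat_lit 460) ln12_14_0 ln12_14_0_ok) (L (nat_lit 527) ln12_16_2 ln12_16_2_ok))))) (B (M (nat_lit 495) (B (M (nat_lit 496) (B (L (nat_lit 460) ln12_14_0 ln12_14_0_ok) (L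 (nat_lit 527) ln12_16_2 ln12_16_2_ok))) (B (M (nat_lit 527) (B (L (nat_lit 496) ln12_16_2 ln12_16_2_ok) (M (nat_lit 559) (B (L (nat_lit 430) ln15_17_7 ln15_17_7_ok) (L (nat_lit 560) ln12_16_0 ln12_16_0_ok))))) (B (M (nat_lit 491) (B (M (nat_lit 523) (B (L (nat_lit 490) ln14_16_3 ln14_16_3_ok) (L (nat_lit 494) ln11_16_2 ln11_16_2_ok))) (M (nat_lit 492) (B (L (nat_lit 460) ln15_14_1 ln15_14_1_ok) (L (nat_lit 527) ln15_16_3 ln15_16_3_ok))))) (M (nat_lit 494) (B (L (nat_lit 523) ln11_16_2 ln11_16_2_ok) (M (nat_lit 496) (B (L (nat_lit 460) ln12_14_0 ln12_14_0_ok) (L (nat_lit 497) ln17_15_3 ln17_15_3_ok))))))))) (M (nat_lit 464) (B (L (nat_lit 428) ln16_14_3 ln16_14_3_ok) (M (nat_lit 433) (B (L (nat_lit 432) ln13_14_2 ln13_14_2_ok) (M (nat_lit 465) (B (L (nat_lit 430) ln17_14_3 ln17_14_3_ok) (L (nat_lit 434) ln14_14_2 ln14_14_2_ok))))))))))) (B (M (nat_lit 495) (B (M (nat_lit 494) (B (L (nat_lit 523) ln11_16_2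 ln11_16_2_ok) (M (nat_lit 496) (B (L (nat_lit 497) ln17_15_3 ln17_15_3_ok) (L (nat_lit 527) ln12_16_2 ln12_16_2_ok))))) (B (M (nat_lit 496) (B (L (nat_lit 527) ln12_16_2 ln12_16_2_ok) (M (nat_lit 463) (B (L (nat_lit 460) ln12_14_0 ln12_14_0_ok) (M (nat_lit 497) (B (L (nat_lit 464) ln13_14_0 ln13_14_0_ok) (L (nat_lit 498) ln18_15_3 ln18_15_3_ok))))))) (B (M (nat_lit 494) (B (L (nat_lit 523) ln11_16_2 ln11_16_2_ok) (M (nat_lit 430) (B (L (nat_lit 557) ln14_13_5 ln14_13_5_ok) (M (nat_lit 527) (B (L (nat_lit 398) ln14_12_4 ln14_12_4_ok) (L (nat_lit 559) ln14_13_4 ln14_13_4_ok))))))) (M (nat_lit 494) (B (L (nat_lit 523) ln11_16_2 ln11_16_2_ok) (M (nat_lit 496) (B (L (nat_lit 497) ln17_15_3 ln17_15_3_ok) (M (nat_lit 460) (B (L (nat_lit 459) ln11_14_0 ln11_14_0_ok) (L (nat_lit 463) ln12_14_0 ln12_14_0_ok))))))))))) (B (M (nat_lit 495) (B (M (nat_lit 494) (B (L (nat_lit 523) ln11_16_2 ln11_16_2_ok) (M (nat_lit 496)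 (B (L (nat_lit 497) ln17_15_3 ln17_15_3_ok) (L (nat_lit 527) ln12_16_2 ln12_16_2_ok))))) (B (M (nat_lit 496) (B (L (nat_lit 527) ln12_16_2 ln12_16_2_ok) (M (nat_lit 463) (B (L (nat_lit 460) ln12_14_0 ln12_14_0_ok) (M (nat_lit 497) (B (L (nat_lit 464) ln13_14_0 ln13_14_0_ok) (L (nat_lit 498) ln18_15_3 ln18_15_3_ok))))))) (M (nat_lit 523) (B (L (nat_lit 494) ln11_16_2 ln11_16_2_ok) (M (nat_lit 522) (B (M (nat_lit 490) (B (L (nat_lit 489) ln13_16_3 ln13_16_3_ok) (L (nat_lit 491) ln14_16_3 ln14_16_3_ok))) (M (nat_lit 554) (B (L (nat_lit 553) ln13_16_1 ln13_16_1_ok) (L (nat_lit 555) ln14_16_1 ln14_16_1_ok)))))))))) (B (M (nat_lit 495) (B (M (nat_lit 494) (B (L (nat_lit 523) ln11_16_2 ln11_16_2_ok) (M (nat_lit 496) (B (L (nat_lit 497) ln17_15_3 ln17_15_3_ok) (L (nat_lit 527) ln12_16_2 ln12_16_2_ok))))) (B (M (nat_lit 463) (B (M (nat_lit 496) (B (L (nat_lit 527) ln12_16_2 ln12_16_2_ok) (M (nat_lit 464) (B (L (nat_lit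 428) ln16_14_3 ln16_14_3_ok) (L (nat_lit 497) ln13_14_0 ln13_14_0_ok))))) (B (M (nat_lit 527) (B (L (nat_lit 496) ln12_16_2 ln12_16_2_ok) (M (nat_lit 559) (B (L (nat_lit 430) ln15_17_7 ln15_17_7_ok) (L (nat_lit 560) ln12_16_0 ln12_16_0_ok))))) (M (nat_lit 428) (B (L (nat_lit 464) ln16_14_3 ln16_14_3_ok) (M (nat_lit 427) (B (L (nat_lit 426) ln10_13_0 ln10_13_0_ok) (L (nat_lit 430) ln11_13_0 ln11_13_0_ok)))))))) (M (nat_lit 523) (B (L (nat_lit 494) ln11_16_2 ln11_16_2_ok) (M (nat_lit 522) (B (M (nat_lit 490) (B (L (nat_lit 489) ln13_16_3 ln13_16_3_ok) (L (nat_lit 491) ln14_16_3 ln14_16_3_ok))) (M (nat_lit 554) (B (L (nat_lit 553) ln13_16_1 ln13_16_1_ok) (L (nat_lit 555) ln14_16_1 ln14_16_1_ok)))))))))) (B (M (nat_lit 527) (B (M (nat_lit 496) (B (L (nat_lit 495) ln12_16_2 ln12_16_2_ok) (M (nat_lit 528) (B (L (nat_lit 497) ln13_16_2 ln13_16_2_ok) (M (nat_lit 560) (B (L (nat_lit 559) ln12_16_0 ln12_16_0_ok) (L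 (nat_lit 561) ln13_16_0 ln13_16_0_ok))))))) (B (M (nat_lit 491) (B (L (nat_lit 492) ln15_16_3 ln15_16_3_ok) (M (nat_lit 459) (B (M (nat_lit 490) (B (L (nat_lit 460) ln14_14_1 ln14_14_1_ok) (L (nat_lit 523) ln14_16_3 ln14_16_3_ok))) (B (M (nat_lit 523) (B (L (nat_lit 490) ln14_16_3 ln14_16_3_ok) (M (nat_lit 554) (B (L (nat_lit 555) ln14_16_1 ln14_16_1_ok) (M (nat_lit 522) (B (L (nat_lit 427) ln11_13_5 ln11_13_5_ok) (L (nat_lit 553) ln13_16_1 ln13_16_1_ok))))))) (B (M (nat_lit 427) (B (M (nat_lit 426) (B (L (nat_lit 428) ln10_13_0 ln10_13_0_ok) (L (nat_lit 460) ln14_14_3 ln14_14_3_ok))) (B (M (nat_lit 430) (B (M (nat_lit 458) (B (L (nat_lit 428) ln14_13_1 ln14_13_1_ok) (L (nat_lit 460) ln10_14_2 ln10_14_2_ok))) (M (nat_lit 559) (B (L (nat_lit 494) ln14_13_4 ln14_13_4_ok) (L (nat_lit 560) ln12_16_0 ln12_16_0_ok))))) (B (M (nat_lit 523) (B (M (nat_lit 426) (B (L (nat_lit 394) ln11_16_7 ln11_16_7_ok) (L (nat_lit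 460) ln14_14_3 ln14_14_3_ok))) (M (nat_lit 554) (B (L (nat_lit 522) ln11_13_5 ln11_13_5_ok) (L (nat_lit 555) ln14_16_1 ln14_16_1_ok))))) (M (nat_lit 523) (B (M (nat_lit 426) (B (L (nat_lit 394) ln11_16_7 ln11_16_7_ok) (L (nat_lit 428) ln10_13_0 ln10_13_0_ok))) (M (nat_lit 554) (B (L (nat_lit 522) ln11_13_5 ln11_13_5_ok) (L (nat_lit 555) ln14_16_1 ln14_16_1_ok))))))))) (M (nat_lit 430) (B (M (nat_lit 460) (B (L (nat_lit 458) ln10_14_2 ln10_14_2_ok) (L (nat_lit 490) ln14_14_1 ln14_14_1_ok))) (M (nat_lit 494) (B (L (nat_lit 557) ln14_13_5 ln14_13_5_ok) (L (nat_lit 559) ln14_13_4 ln14_13_4_ok))))))))))) (M (nat_lit 523) (B (M (nat_lit 491) (B (L (nat_lit 490) ln14_16_3 ln14_16_3_ok) (L (nat_lit 492) ln15_16_3 ln15_16_3_ok))) (M (nat_lit 495) (B (L (nat_lit 494) ln11_16_2 ln11_16_2_ok) (L (nat_lit 496) ln12_16_2 ln12_16_2_ok)))))))) (B (M (nat_lit 427) (B (M (nat_lit 428) (B (L (nat_lit 426) ln10_13_0 ln10_13_0_ok)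 (M (nat_lit 463) (B (L (nat_lit 430) ln11_13_0 ln11_13_0_ok) (L (nat_lit 460) ln15_14_3 ln15_14_3_ok))))) (B (M (nat_lit 492) (B (M (nat_lit 491) (B (L (nat_lit 527) ln15_16_3 ln15_16_3_ok) (M (nat_lit 490) (B (L (nat_lit 489) ln9_15_0 ln9_15_0_ok) (L (nat_lit 523) ln14_16_3 ln14_16_3_ok))))) (M (nat_lit 428) (B (M (nat_lit 460) (B (L (nat_lit 395) ln12_16_7 ln12_16_7_ok) (L (nat_lit 463) ln15_14_3 ln15_14_3_ok))) (B (M (nat_lit 463) (B (L (nat_lit 430) ln11_13_0 ln11_13_0_ok) (L (nat_lit 460) ln15_14_3 ln15_14_3_ok))) (B (M (nat_lit 463) (B (L (nat_lit 430) ln11_13_0 ln11_13_0_ok) (L (nat_lit 464) ln16_14_3 ln16_14_3_ok))) (M (nat_lit 460) (B (L (nat_lit 395) ln12_16_7 ln12_16_7_ok) (L (nat_lit 557) ln12_13_4 ln12_13_4_ok))))))))) (B (M (nat_lit 491) (B (M (nat_lit 492) (B (L (nat_lit 527) ln15_16_3 ln15_16_3_ok) (M (nat_lit 490) (B (L (nat_lit 489) ln9_15_0 ln9_15_0_ok) (L (nat_lit 523) ln14_16_3 ln14_16_3_ok)))))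 (B (M (nat_lit 459) (B (M (nat_lit 492) (B (L (nat_lit 395) ln11_12_4 ln11_12_4_ok) (L (nat_lit 527) ln15_16_3 ln15_16_3_ok))) (M (nat_lit 460) (B (L (nat_lit 426) ln14_14_3 ln14_14_3_ok) (L (nat_lit 490) ln14_14_1 ln14_14_1_ok))))) (B (M (nat_lit 492) (B (L (nat_lit 527) ln15_16_3 ln15_16_3_ok) (M (nat_lit 460) (B (L (nat_lit 463) ln15_14_1 ln15_14_1_ok) (M (nat_lit 459) (B (L (nat_lit 395) ln11_12_4 ln11_12_4_ok) (L (nat_lit 426) ln14_14_3 ln14_14_3_ok))))))) (M (nat_lit 523) (B (L (nat_lit 490) ln14_16_3 ln14_16_3_ok) (M (nat_lit 554) (B (L (nat_lit 555) ln14_16_1 ln14_16_1_ok) (M (nat_lit 522) (B (L (nat_lit 459) ln11_13_5 ln11_13_5_ok) (L (nat_lit 553) ln13_16_1 ln13_16_1_ok))))))))))) (B (M (nat_lit 428) (B (L (nat_lit 426) ln10_13_0 ln10_13_0_ok) (M (nat_lit 463) (B (L (nat_lit 430) ln11_13_0 ln11_13_0_ok) (L (nat_lit 464) ln16_14_3 ln16_14_3_ok))))) (M (nat_lit 492) (B (M (nat_lit 491) (B (L (nat_lit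 527) ln15_16_3 ln15_16_3_ok) (M (nat_lit 490) (B (L (nat_lit 489) ln9_15_0 ln9_15_0_ok) (L (nat_lit 523) ln14_16_3 ln14_16_3_ok))))) (M (nat_lit 428) (B (L (nat_lit 426) ln10_13_0 ln10_13_0_ok) (M (nat_lit 460) (B (L (nat_lit 395) ln12_16_7 ln12_16_7_ok) (L (nat_lit 557) ln12_13_4 ln12_13_4_ok)))))))))))) (B (M (nat_lit 463) (B (M (nat_lit 428) (B (L (nat_lit 464) ln16_14_3 ln16_14_3_ok) (M (nat_lit 427) (B (L (nat_lit 426) ln10_13_0 ln10_13_0_ok) (L (nat_lit 430) ln11_13_0 ln11_13_0_ok))))) (B (M (nat_lit 428) (B (L (nat_lit 464) ln16_14_3 ln16_14_3_ok) (M (nat_lit 427) (B (L (nat_lit 430) ln11_13_0 ln11_13_0_ok) (L (nat_lit 460) ln15_14_3 ln15_14_3_ok))))) (B (M (nat_lit 496) (B (M (nat_lit 464) (B (L (nat_lit 428) ln16_14_3 ln16_14_3_ok) (L (nat_lit 497) ln13_14_0 ln13_14_0_ok))) (M (nat_lit 495) (B (L (nat_lit 460) ln12_14_0 ln12_14_0_ok) (L (nat_lit 527) ln12_16_2 ln12_16_2_ok))))) (B (M (nat_lit 464)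 (B (M (nat_lit 433) (B (L (nat_lit 432) ln13_14_2 ln13_14_2_ok) (M (nat_lit 465) (B (L (nat_lit 430) ln17_14_3 ln17_14_3_ok) (L (nat_lit 434) ln14_14_2 ln14_14_2_ok))))) (M (nat_lit 496) (B (L (nat_lit 497) ln13_14_0 ln13_14_0_ok) (M (nat_lit 495) (B (L (nat_lit 460) ln12_14_0 ln12_14_0_ok) (L (nat_lit 527) ln12_16_2 ln12_16_2_ok))))))) (M (nat_lit 460) (B (M (nat_lit 428) (B (L (nat_lit 427) ln15_14_3 ln15_14_3_ok) (M (nat_lit 492) (B (L (nat_lit 557) ln12_13_4 ln12_13_4_ok) (L (nat_lit 491) ln15_14_1 ln15_14_1_ok))))) (B (M (nat_lit 459) (B (M (nat_lit 491) (B (L (nat_lit 490) ln14_14_1 ln14_14_1_ok) (L (nat_lit 492) ln15_14_1 ln15_14_1_ok))) (M (nat_lit 495) (B (L (nat_lit 494) ln11_14_0 ln11_14_0_ok) (L (nat_lit 496) ln12_14_0 ln12_14_0_ok))))) (M (nat_lit 459) (B (M (nat_lit 427) (B (L (nat_lit 426) ln14_14_3 ln14_14_3_ok) (L (nat_lit 428) ln15_14_3 ln15_14_3_ok))) (M (nat_lit 495) (B (L (nat_lit 494)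 ln11_14_0 ln11_14_0_ok) (L (nat_lit 496) ln12_14_0 ln12_14_0_ok))))))))))))) (M (nat_lit 463) (B (M (nat_lit 428) (B (L (nat_lit 464) ln16_14_3 ln16_14_3_ok) (M (nat_lit 427) (B (L (nat_lit 430) ln11_13_0 ln11_13_0_ok) (L (nat_lit 460) ln15_14_3 ln15_14_3_ok))))) (B (M (nat_lit 460) (B (M (nat_lit 491) (B (L (nat_lit 492) ln15_14_1 ln15_14_1_ok) (M (nat_lit 490) (B (L (nat_lit 459) ln14_14_1 ln14_14_1_ok) (L (nat_lit 523) ln14_16_3 ln14_16_3_ok))))) (B (M (nat_lit 523) (B (M (nat_lit 491) (B (L (nat_lit 492) ln15_14_1 ln15_14_1_ok) (L (nat_lit 490) ln14_16_3 ln14_16_3_ok))) (M (nat_lit 495) (B (L (nat_lit 496) ln12_14_0 ln12_14_0_ok) (L (nat_lit 494) ln11_16_2 ln11_16_2_ok))))) (B (M (nat_lit 495) (B (L (nat_lit 496) ln12_14_0 ln12_14_0_ok) (M (nat_lit 494) (B (L (nat_lit 459) ln11_14_0 ln11_14_0_ok) (L (nat_lit 523) ln11_16_2 ln11_16_2_ok))))) (M (nat_lit 459) (B (M (nat_lit 491) (B (L (nat_lit 490) ln14_14_1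 ln14_14_1_ok) (L (nat_lit 492) ln15_14_1 ln15_14_1_ok))) (M (nat_lit 495) (B (L (nat_lit 494) ln11_14_0 ln11_14_0_ok) (L (nat_lit 496) ln12_14_0 ln12_14_0_ok))))))))) (M (nat_lit 428) (B (L (nat_lit 464) ln16_14_3 ln16_14_3_ok) (M (nat_lit 427) (B (L (nat_lit 426) ln10_13_0 ln10_13_0_ok) (L (nat_lit 430) ln11_13_0 ln11_13_0_ok))))))))))))))))) (nat_lit 384428668967314144044940707579373966661528844872032843163586525592859146357782614918136376715573721520519563336890066382204667694031360188616362826758541541376) (nat_lit 13887002361444745382891729700546645446328883560130456149744925145681214340415685854252336979897270994771482841669453908759562278896574679132325633708345468736732313681920) (nat_lit 13887002361444745382891729700546645446328883560130456149744925145681214340415685854252336979897270994771482841669453908759562278896574679132325633708345468736732313681920) (by decide +kernel)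
noncomputable def c20_n3024 : Cert := (M (nat_lit 526) (B (M (nat_lit 523) (B (M (nat_lit 558) (B (L (nat_lit 559) ln11_16_0 ln11_16_0_ok) (M (nat_lit 494) (B (L (nat_lit 462) ln14_17_7 ln14_17_7_ok) (L (nat_lit 495) ln11_16_2 ln11_16_2_ok))))) (M (nat_lit 522) (B (M (nat_lit 490) (B (L (nat_lit 489) ln13_16_3 ln13_16_3_ok) (L (nat_lit 491) ln14_16_3 ln14_16_3_ok))) (M (nat_lit 554) (B (L (nat_lit 553) ln13_16_1 ln13_16_1_ok) (L (nat_lit 555) ln14_16_1 ln14_16_1_ok))))))) (B (M (nat_lit 523) (B (M (nat_lit 522) (B (M (nat_lit 554) (B (L (nat_lit 553) ln13_16_1 ln13_16_1_ok) (L (nat_lit 555) ln14_16_1 ln14_16_1_ok))) (M (nat_lit 558) (B (L (nat_lit 557) ln10_16_0 ln10_16_0_ok) (L (nat_lit 559) ln11_16_0 ln11_16_0_ok))))) (B (M (nat_lit 527) (B (M (nat_lit 491) (B (L (nat_lit 490) ln14_16_3 ln14_16_3_ok) (L (nat_lit 492) ln15_16_3 ln15_16_3_ok))) (M (nat_lit 559) (B (L (nat_lit 558) ln11_16_0 ln11_16_0_ok)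 (L (nat_lit 560) ln12_16_0 ln12_16_0_ok))))) (M (nat_lit 522) (B (M (nat_lit 490) (B (L (nat_lit 489) ln13_16_3 ln13_16_3_ok) (L (nat_lit 491) ln14_16_3 ln14_16_3_ok))) (M (nat_lit 554) (B (L (nat_lit 553) ln13_16_1 ln13_16_1_ok) (L (nat_lit 555) ln14_16_1 ln14_16_1_ok)))))))) (B (M (nat_lit 523) (B (M (nat_lit 558) (B (L (nat_lit 559) ln11_16_0 ln11_16_0_ok) (M (nat_lit 494) (B (L (nat_lit 462) ln14_17_7 ln14_17_7_ok) (L (nat_lit 495) ln11_16_2 ln11_16_2_ok))))) (B (M (nat_lit 527) (B (M (nat_lit 491) (B (L (nat_lit 490) ln14_16_3 ln14_16_3_ok) (L (nat_lit 492) ln15_16_3 ln15_16_3_ok))) (M (nat_lit 559) (B (L (nat_lit 558) ln11_16_0 ln11_16_0_ok) (L (nat_lit 560) ln12_16_0 ln12_16_0_ok))))) (M (nat_lit 527) (B (M (nat_lit 491) (B (L (nat_lit 490) ln14_16_3 ln14_16_3_ok) (L (nat_lit 492) ln15_16_3 ln15_16_3_ok))) (M (nat_lit 495) (B (L (nat_lit 494) ln11_16_2 ln11_16_2_ok) (L (nat_lit 496) ln12_16_2 ln12_16_2_ok))))))))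 (B (M (nat_lit 558) (B (M (nat_lit 559) (B (L (nat_lit 523) ln11_16_0 ln11_16_0_ok) (M (nat_lit 560) (B (L (nat_lit 557) ln16_17_3 ln16_17_3_ok) (L (nat_lit 561) ln17_17_3 ln17_17_3_ok))))) (M (nat_lit 494) (B (L (nat_lit 462) ln14_17_7 ln14_17_7_ok) (M (nat_lit 590) (B (M (nat_lit 495) (B (L (nat_lit 463) ln14_18_6 ln14_18_6_ok) (M (nat_lit 496) (B (L (nat_lit 497) ln17_15_1 ln17_15_1_ok) (L (nat_lit 527) ln12_16_2 ln12_16_2_ok))))) (M (nat_lit 622) (B (M (nat_lit 621) (B (L (nat_lit 589) ln14_15_5 ln14_15_5_ok) (L (nat_lit 653) ln14_16_5 ln14_16_5_ok))) (M (nat_lit 623) (B (L (nat_lit 591) ln14_15_4 ln14_15_4_ok) (L (nat_lit 655) ln14_16_4 ln14_16_4_ok))))))))))) (B (K (nat_lit 384428668967314144044940707579373966661528844872032843163586525592859146357782614918136376715573721520519563336890066382204667694031360188616362826758541541376) (nat_lit 34808659505344171204911496175262198071692694433516653855649027801527661893750109423267324847483416772554715500420897236511391145730386287946285719157963255654554248169825065047460340039680)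 (nat_lit 34808659505344171204911496175262198071692694433516653855649027801527661893750109423267324847483416772554715500420897236511391145730386287946285719157963255654554248169825065047460340039680) c20_s2765) (B (K (nat_lit 384428668967314144044940707579373966661528844872032843163586525592859146357782614918136376715573721520519563336890066382204667694031360188616362826758541541376) (nat_lit 13887002361444745382891729700546645446328883560130456149744925145681214340415685854252336979897270994771482841669453908759562278896574679132325633708345468736732313681920) (nat_lit 13887002361444745382891729700546645446328883560130456149744925145681214340415685854252336979897270994771482841669453908759562278896574679132325633708345468736732313681920) c20_s3016) (M (nat_lit 523) (B (M (nat_lit 522) (B (M (nat_lit 490) (B (L (nat_lit 489) ln13_16_3 ln13_16_3_ok) (L (nat_lit 491) ln14_16_3 ln14_16_3_ok))) (M (nat_lit 554)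 (B (L (nat_lit 553) ln13_16_1 ln13_16_1_ok) (L (nat_lit 555) ln14_16_1 ln14_16_1_ok))))) (B (M (nat_lit 527) (B (M (nat_lit 491) (B (L (nat_lit 490) ln14_16_3 ln14_16_3_ok) (L (nat_lit 492) ln15_16_3 ln15_16_3_ok))) (M (nat_lit 495) (B (L (nat_lit 494) ln11_16_2 ln11_16_2_ok) (L (nat_lit 496) ln12_16_2 ln12_16_2_ok))))) (M (nat_lit 558) (B (M (nat_lit 494) (B (L (nat_lit 462) ln14_17_7 ln14_17_7_ok) (L (nat_lit 495) ln11_16_2 ln11_16_2_ok))) (M (nat_lit 522) (B (L (nat_lit 557) ln10_16_0 ln10_16_0_ok) (M (nat_lit 554) (B (L (nat_lit 553) ln13_16_1 ln13_16_1_ok) (L (nat_lit 555) ln14_16_1 ln14_16_1_ok)))))))))))))))))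
noncomputable def c20_n3025 : Cert := (M (nat_lit 526) (B (M (nat_lit 523) (B (M (nat_lit 558) (B (L (nat_lit 559) ln11_16_0 ln11_16_0_ok) (M (nat_lit 494) (B (L (nat_lit 462) ln14_17_7 ln14_17_7_ok) (L (nat_lit 495) ln11_16_2 ln11_16_2_ok))))) (B (M (nat_lit 527) (B (M (nat_lit 491) (B (L (nat_lit 490) ln14_16_3 ln14_16_3_ok) (L (nat_lit 492) ln15_16_3 ln15_16_3_ok))) (M (nat_lit 559) (B (L (nat_lit 558) ln11_16_0 ln11_16_0_ok) (L (nat_lit 560) ln12_16_0 ln12_16_0_ok))))) (M (nat_lit 527) (B (M (nat_lit 491) (B (L (nat_lit 490) ln14_16_3 ln14_16_3_ok) (L (nat_lit 492) ln15_16_3 ln15_16_3_ok))) (M (nat_lit 495) (B (L (nat_lit 494) ln11_16_2 ln11_16_2_ok) (L (nat_lit 496) ln12_16_2 ln12_16_2_ok)))))))) (B (M (nat_lit 527) (B (M (nat_lit 556) (B (L (nat_lit 555) ln15_16_1 ln15_16_1_ok) (M (nat_lit 492) (B (L (nat_lit 460) ln12_17_6 ln12_17_6_ok) (L (nat_lit 491) ln15_16_3 ln15_16_3_ok))))) (M (nat_lit 528)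 (B (M (nat_lit 496) (B (L (nat_lit 495) ln12_16_2 ln12_16_2_ok) (L (nat_lit 497) ln13_16_2 ln13_16_2_ok))) (M (nat_lit 560) (B (L (nat_lit 559) ln12_16_0 ln12_16_0_ok) (L (nat_lit 561) ln13_16_0 ln13_16_0_ok))))))) (B (M (nat_lit 523) (B (M (nat_lit 558) (B (L (nat_lit 559) ln11_16_0 ln11_16_0_ok) (M (nat_lit 494) (B (L (nat_lit 462) ln14_17_7 ln14_17_7_ok) (L (nat_lit 495) ln11_16_2 ln11_16_2_ok))))) (B (M (nat_lit 527) (B (M (nat_lit 555) (B (L (nat_lit 554) ln14_16_1 ln14_16_1_ok) (L (nat_lit 556) ln15_16_1 ln15_16_1_ok))) (M (nat_lit 559) (B (L (nat_lit 558) ln11_16_0 ln11_16_0_ok) (L (nat_lit 560) ln12_16_0 ln12_16_0_ok))))) (M (nat_lit 527) (B (M (nat_lit 495) (B (L (nat_lit 494) ln11_16_2 ln11_16_2_ok) (L (nat_lit 496) ln12_16_2 ln12_16_2_ok))) (M (nat_lit 555) (B (L (nat_lit 554) ln14_16_1 ln14_16_1_ok) (L (nat_lit 556) ln15_16_1 ln15_16_1_ok)))))))) (B (M (nat_lit 527) (B (M (nat_lit 556) (B (L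 (nat_lit 555) ln15_16_1 ln15_16_1_ok) (M (nat_lit 492) (B (L (nat_lit 460) ln12_17_6 ln12_17_6_ok) (L (nat_lit 491) ln15_16_3 ln15_16_3_ok))))) (B (M (nat_lit 523) (B (M (nat_lit 555) (B (L (nat_lit 554) ln14_16_1 ln14_16_1_ok) (L (nat_lit 556) ln15_16_1 ln15_16_1_ok))) (M (nat_lit 559) (B (L (nat_lit 558) ln11_16_0 ln11_16_0_ok) (L (nat_lit 560) ln12_16_0 ln12_16_0_ok))))) (M (nat_lit 523) (B (M (nat_lit 491) (B (L (nat_lit 490) ln14_16_3 ln14_16_3_ok) (L (nat_lit 492) ln15_16_3 ln15_16_3_ok))) (M (nat_lit 559) (B (L (nat_lit 558) ln11_16_0 ln11_16_0_ok) (L (nat_lit 560) ln12_16_0 ln12_16_0_ok)))))))) (B (M (nat_lit 523) (B (M (nat_lit 558) (B (L (nat_lit 559) ln11_16_0 ln11_16_0_ok) (M (nat_lit 494) (B (L (nat_lit 462) ln14_17_7 ln14_17_7_ok) (L (nat_lit 495) ln11_16_2 ln11_16_2_ok))))) (M (nat_lit 522) (B (M (nat_lit 490) (B (L (nat_lit 489) ln13_16_3 ln13_16_3_ok) (L (nat_lit 491) ln14_16_3 ln14_16_3_ok)))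 (M (nat_lit 554) (B (L (nat_lit 553) ln13_16_1 ln13_16_1_ok) (L (nat_lit 555) ln14_16_1 ln14_16_1_ok))))))) (M (nat_lit 527) (B (M (nat_lit 556) (B (L (nat_lit 555) ln15_16_1 ln15_16_1_ok) (M (nat_lit 492) (B (L (nat_lit 460) ln12_17_6 ln12_17_6_ok) (L (nat_lit 491) ln15_16_3 ln15_16_3_ok))))) (B (M (nat_lit 523) (B (M (nat_lit 495) (B (L (nat_lit 494) ln11_16_2 ln11_16_2_ok) (L (nat_lit 496) ln12_16_2 ln12_16_2_ok))) (M (nat_lit 555) (B (L (nat_lit 554) ln14_16_1 ln14_16_1_ok) (L (nat_lit 556) ln15_16_1 ln15_16_1_ok))))) (M (nat_lit 523) (B (M (nat_lit 491) (B (L (nat_lit 490) ln14_16_3 ln14_16_3_ok) (L (nat_lit 492) ln15_16_3 ln15_16_3_ok))) (M (nat_lit 495) (B (L (nat_lit 494) ln11_16_2 ln11_16_2_ok) (L (nat_lit 496) ln12_16_2 ln12_16_2_ok))))))))))))))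
theorem c20_s3026 : Sem (nat_lit 109836762562089755445664675616118237970751432866300626787807987225437419021876372833233991089115539321427710881230832060719788174042694436113401695113939255296) (nat_lit 186877567765246893947399986982710332865756893203907189328160252823869084626448080143484327129529105329991750877201487862097673210553142659796346646570251871349522344440128358672830899783338058317824) (nat_lit 186877567765246893947399986982710332865756893203907189328160252823869084626448080143484327129529105329991750877201487862097673210553142659796346646570251871349522344440128358672830899783338058317824) :=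
  sem_of_chk (M (nat_lit 524) (B (K (nat_lit 164755143843134633165519882008769383708906915267447070062963694898921764489057621250214468214407175761246081372362678925016764078040427586613993921442859712512) (nat_lit 3744478344077832422143290921027707851477155472630768802007800341829293642703116155146622745943094816521576545866844539240264230048396769569345836639286983953898994139136) (nat_lit 3744478344077832422143290921027707851477155472630768802007800341829293642703116155146622745943094816521576545866844539240264230048396769569345836639286983953898994139136) c20_s1257) (B c20_n1318 (B (K (nat_lit 164755143843134633165519882008769383708906915267447070062963694898921764489057621250214468214407175761246081372362678925016764078040427586613993921442859712512) (nat_lit 8104522610537054991515697188544846488981570694831978722575291764981302480563470901314452012403309950102635253398068122719722571258637928561906631304554338898440896300587683938304)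 (nat_lit 8104522610537054991515697188544846488981570694831978722575291764981302480563470901314452012403309950102635253398068122719722571258637928561906631304554338898440896300587683938304) c20_s1372) (B (K (nat_lit 164755143843134633165519882008769383708906915267447070062963694898921764489057621250214468214407175761246081372362678925016764078040427586613993921442859712512) (nat_lit 2175541220097076026642527936991989452894058892592402669239947162828181334165168616465924442969047345013166265421048380627005260242489841798477317738993526824271084843172566151366275235840) (nat_lit 2175541220097076026642527936991989452894058892592402669239947162828181334165168616465924442969047345013166265421048380627005260242489841798477317738993526824271084843172566151366275235840) c20_s1541) (B (K (nat_lit 164755143843134633165519882008769383708906915267447070062963694898921764489057621250214468214407175761246081372362678925016764078040427586613993921442859712512)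 (nat_lit 506532677283283705177059742819686475801405456904232914423532125122204409529413659210821570180222812944856570326119591111494814618248747674610378242930481304885734017346083749888) (nat_lit 506532677283283705177059742819686475801405456904232914423532125122204409529413659210821570180222812944856570326119591111494814618248747674610378242930481304885734017346083749888) c20_s1618) (B (K (nat_lit 164755143843134633165519882008769383708906915267447070062963694898921764489057621250214468214407175761246081372362678925016764078040427586613993921442859712512) (nat_lit 17404329752672085602662136657779715864490259203356541063611866179292217044426644221923647965316294581184470146825394554592166017136979419442963262018355522950755107155777387873733980454912) (nat_lit 17404329752672085602662136657779715864490259203356541063611866179292217044426644221923647965316294581184470146825394554592166017136979419442963262018355522950755107155777387873733980454912)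 c20_s1771) (B (K (nat_lit 164755143843134633165519882008769383708906915267447070062963694898921764489057621250214468214407175761246081372362678925016764078040427586613993921442859712512) (nat_lit 17404329760776608198154939092724886589605681519279661810745230503500627587405417295482755076294466299984690939647226626919094228862685269091973758750349083614517926704681899380183859724288) (nat_lit 17404329760776608198154939092724886589605681519279661810745230503500627587405417295482755076294466299984690939647226626919094228862685269091973758750349083614517926704681899380183859724288) c20_s1904) (B (K (nat_lit 164755143843134633165519882008769383708906915267447070062963694898921764489057621250214468214407175761246081372362678925016764078040427586613993921442859712512) (nat_lit 17404329760776608198132826031631650674247502737172794209705431475469557383493186100171105325990904363006968958374542253866225331561843117947762915162405272547286191816773090810885333581824)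 (nat_lit 17404329760776608198132826031631650674247502737172794209705431475469557383493186100171105325990904363006968958374542253866225331561843117947762915162405272547286191816773090810885333581824) c20_s1914) (B (K (nat_lit 164755143843134633165519882008769383708906915267447070062963694898921764489057621250214468214407175761246081372362678925016764078040427586613993921442859712512) (nat_lit 1266331659301515598757082222724822596807065516855683920729530288444055225657259862721056246094081603544577586981458736812572014679012999956850681594073186766666290948672782860288) (nat_lit 1266331659301515598757082222724822596807065516855683920729530288444055225657259862721056246094081603544577586981458736812572014679012999956850681594073186766666290948672782860288) c20_s2021) (B (K (nat_lit 164755143843134633165519882008769383708906915267447070062963694898921764489057621250214468214407175761246081372362678925016764078040427586613993921442859712512)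 (nat_lit 15036881537963502692639198168879463856635816497735424797943610050974844810477953093668812541661445338377245649425155693656056816870009251136970155920999351730875702181888) (nat_lit 15036881537963502692639198168879463856635816497735424797943610050974844810477953093668812541661445338377245649425155693656056816870009251136970155920999351730875702181888) c20_s2079) (B (K (nat_lit 164755143843134633165519882008769383708906915267447070062963694898921764489057621250214468214407175761246081372362678925016764078040427586613993921442859712512) (nat_lit 14977913375048206918369901439858313911320577908359435297271124040882253267757834045666446872050768820638871795280596652655035214843555966894766605676507514466887018741760) (nat_lit 14977913375048206918369901439858313911320577908359435297271124040882253267757834045666446872050768820638871795280596652655035214843555966894766605676507514466887018741760) c20_s2307)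 (B (K (nat_lit 164755143843134633165519882008769383708906915267447070062963694898921764489057621250214468214407175761246081372362678925016764078040427586613993921442859712512) (nat_lit 4351082438421287728921408327270251735294606469862588246544738328767695827496751366104281742660147851153490808454222081346723857243267782043585670957279323505781844494367949880991326142464) (nat_lit 4351082438421287728921408327270251735294606469862588246544738328767695827496751366104281742660147851153490808454222081346723857243267782043585670957279323505781844494367949880991326142464) c20_s2407) (B (K (nat_lit 164755143843134633165519882008769383708906915267447070062963694898921764489057621250214468214407175761246081372362678925016764078040427586613993921442859712512) (nat_lit 1754302846620212522332289232317559637315712121991580425273041552713107239485479824997038791785506891675305524758512298420935936790941979143529267638147255192370949390336)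 (nat_lit 1754302846620212522332289232317559637315712121991580425273041552713107239485479824997038791785506891675305524758512298420935936790941979143529267638147255192370949390336) c20_s2543) (B c20_n3024 c20_n3025))))))))))))))) (nat_lit 109836762562089755445664675616118237970751432866300626787807987225437419021876372833233991089115539321427710881230832060719788174042694436113401695113939255296) (nat_lit 186877567765246893947399986982710332865756893203907189328160252823869084626448080143484327129529105329991750877201487862097673210553142659796346646570251871349522344440128358672830899783338058317824) (nat_lit 186877567765246893947399986982710332865756893203907189328160252823869084626448080143484327129529105329991750877201487862097673210553142659796346646570251871349522344440128358672830899783338058317824) (by decide +kernel)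
noncomputable def c20_n3141 : Cert := (M (nat_lit 462) (B (M (nat_lit 463) (B (L (nat_lit 464) ln16_14_3 ln16_14_3_ok) (M (nat_lit 427) (B (L (nat_lit 426) ln10_13_0 ln10_13_0_ok) (L (nat_lit 460) ln15_14_3 ln15_14_3_ok))))) (B (M (nat_lit 463) (B (L (nat_lit 464) ln16_14_3 ln16_14_3_ok) (M (nat_lit 427) (B (L (nat_lit 430) ln11_13_0 ln11_13_0_ok) (L (nat_lit 460) ln15_14_3 ln15_14_3_ok))))) (B (M (nat_lit 463) (B (L (nat_lit 464) ln16_14_3 ln16_14_3_ok) (M (nat_lit 430) (B (M (nat_lit 493) (B (L (nat_lit 398) ln13_16_6 ln13_16_6_ok) (L (nat_lit 557) ln13_17_6 ln13_17_6_ok))) (B (M (nat_lit 526) (B (M (nat_lit 493) (B (L (nat_lit 558) ln13_13_4 ln13_13_4_ok) (L (nat_lit 557) ln13_17_6 ln13_17_6_ok))) (B (M (nat_lit 494) (B (L (nat_lit 558) ln14_17_7 ln14_17_7_ok) (L (nat_lit 557) ln14_13_5 ln14_13_5_ok))) (B (M (nat_lit 558) (B (L (nat_lit 494) ln14_17_7 ln14_17_7_ok) (L (nat_lit 493) ln13_13_4 ln13_13_4_ok)))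 (M (nat_lit 557) (B (L (nat_lit 493) ln13_17_6 ln13_17_6_ok) (L (nat_lit 494) ln14_13_5 ln14_13_5_ok))))))) (B (M (nat_lit 494) (B (M (nat_lit 526) (B (L (nat_lit 558) ln14_17_7 ln14_17_7_ok) (L (nat_lit 557) ln14_13_5 ln14_13_5_ok))) (M (nat_lit 495) (B (M (nat_lit 527) (B (L (nat_lit 398) ln14_12_4 ln14_12_4_ok) (L (nat_lit 559) ln15_17_7 ln15_17_7_ok))) (M (nat_lit 496) (B (L (nat_lit 460) ln12_14_0 ln12_14_0_ok) (L (nat_lit 497) ln17_15_3 ln17_15_3_ok))))))) (M (nat_lit 398) (B (L (nat_lit 493) ln13_16_6 ln13_16_6_ok) (M (nat_lit 366) (B (L (nat_lit 334) ln14_10_5 ln14_10_5_ok) (L (nat_lit 495) ln14_11_4 ln14_11_4_ok))))))))))) (B (M (nat_lit 427) (B (L (nat_lit 426) ln10_13_0 ln10_13_0_ok) (M (nat_lit 463) (B (L (nat_lit 430) ln11_13_0 ln11_13_0_ok) (L (nat_lit 464) ln16_14_3 ln16_14_3_ok))))) (M (nat_lit 430) (B (M (nat_lit 493) (B (L (nat_lit 398) ln13_16_6 ln13_16_6_ok) (L (nat_lit 557) ln13_17_6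 ln13_17_6_ok))) (B (M (nat_lit 526) (B (M (nat_lit 493) (B (L (nat_lit 558) ln13_13_4 ln13_13_4_ok) (L (nat_lit 557) ln13_17_6 ln13_17_6_ok))) (B (M (nat_lit 494) (B (L (nat_lit 558) ln14_17_7 ln14_17_7_ok) (L (nat_lit 557) ln14_13_5 ln14_13_5_ok))) (B (M (nat_lit 558) (B (L (nat_lit 494) ln14_17_7 ln14_17_7_ok) (L (nat_lit 493) ln13_13_4 ln13_13_4_ok))) (M (nat_lit 557) (B (L (nat_lit 493) ln13_17_6 ln13_17_6_ok) (L (nat_lit 494) ln14_13_5 ln14_13_5_ok))))))) (B (M (nat_lit 494) (B (M (nat_lit 526) (B (L (nat_lit 558) ln14_17_7 ln14_17_7_ok) (L (nat_lit 557) ln14_13_5 ln14_13_5_ok))) (M (nat_lit 398) (B (M (nat_lit 399) (B (L (nat_lit 367) ln14_15_6 ln14_15_6_ok) (L (nat_lit 427) ln11_13_2 ln11_13_2_ok))) (B (M (nat_lit 427) (B (L (nat_lit 399) ln11_13_2 ln11_13_2_ok) (L (nat_lit 426) ln10_13_0 ln10_13_0_ok))) (B (M (nat_lit 459) (B (M (nat_lit 427) (B (L (nat_lit 426) ln10_13_0 ln10_13_0_ok) (L (nat_lit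 458) ln14_13_1 ln14_13_1_ok))) (B (M (nat_lit 458) (B (L (nat_lit 427) ln14_13_1 ln14_13_1_ok) (L (nat_lit 460) ln10_14_2 ln10_14_2_ok))) (B (M (nat_lit 460) (B (L (nat_lit 458) ln10_14_2 ln10_14_2_ok) (L (nat_lit 495) ln11_14_0 ln11_14_0_ok))) (M (nat_lit 495) (B (L (nat_lit 527) ln14_12_4 ln14_12_4_ok) (L (nat_lit 460) ln11_14_0 ln11_14_0_ok))))))) (M (nat_lit 366) (B (L (nat_lit 334) ln14_10_5 ln14_10_5_ok) (M (nat_lit 367) (B (L (nat_lit 335) ln14_14_6 ln14_14_6_ok) (L (nat_lit 399) ln14_15_6 ln14_15_6_ok))))))))))) (M (nat_lit 427) (B (L (nat_lit 426) ln10_13_0 ln10_13_0_ok) (M (nat_lit 398) (B (L (nat_lit 399) ln11_13_2 ln11_13_2_ok) (L (nat_lit 493) ln13_16_6 ln13_16_6_ok))))))))))))))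
theorem c20_s3146 : Sem (nat_lit 109836762562089755445664675616118237970751432866300626787807987225437419021876372833233991089115539321427710881230832060719788174042694436113401695113939255296) (nat_lit 4305527632204989014232122514888236826124585528677502350343933877067594306214027104932714817472235764099235275577379953180875445946158644205915668265078983774171344712803622584320) (nat_lit 4305527632204989014232122514888236826124585528677502350343933877067594306214027104932714817472235764099235275577379953180875445946158644205915668265078983774171344712803622584320) :=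
  sem_of_chk (M (nat_lit 428) (B (M (nat_lit 493) (B (L (nat_lit 396) ln13_16_7 ln13_16_7_ok) (M (nat_lit 557) (B (L (nat_lit 460) ln13_17_7 ln13_17_7_ok) (M (nat_lit 430) (B (L (nat_lit 398) ln13_16_6 ln13_16_6_ok) (L (nat_lit 462) ln13_17_6 ln13_17_6_ok))))))) (B c20_n3141 (B (M (nat_lit 493) (B (L (nat_lit 396) ln13_16_7 ln13_16_7_ok) (M (nat_lit 557) (B (L (nat_lit 460) ln13_17_7 ln13_17_7_ok) (M (nat_lit 558) (B (L (nat_lit 526) ln13_13_4 ln13_13_4_ok) (L (nat_lit 590) ln13_14_4 ln13_14_4_ok))))))) (B (M (nat_lit 493) (B (L (nat_lit 396) ln13_16_7 ln13_16_7_ok) (M (nat_lit 557) (B (M (nat_lit 430) (B (L (nat_lit 398) ln13_16_6 ln13_16_6_ok) (L (nat_lit 462) ln13_17_6 ln13_17_6_ok))) (M (nat_lit 558) (B (L (nat_lit 526) ln13_13_4 ln13_13_4_ok) (L (nat_lit 590) ln13_14_4 ln13_14_4_ok))))))) c20_n1079))))) (nat_lit 109836762562089755445664675616118237970751432866300626787807987225437419021876372833233991089115539321427710881230832060719788174042694436113401695113939255296)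 (nat_lit 4305527632204989014232122514888236826124585528677502350343933877067594306214027104932714817472235764099235275577379953180875445946158644205915668265078983774171344712803622584320) (nat_lit 4305527632204989014232122514888236826124585528677502350343933877067594306214027104932714817472235764099235275577379953180875445946158644205915668265078983774171344712803622584320) (by decide +kernel)
noncomputable def c20_n3226 : Cert := (M (nat_lit 459) (B (M (nat_lit 458) (B (L (nat_lit 430) ln14_13_1 ln14_13_1_ok) (M (nat_lit 457) (B (L (nat_lit 456) ln8_14_2 ln8_14_2_ok) (L (nat_lit 460) ln9_14_2 ln9_14_2_ok))))) (B (M (nat_lit 491) (B (M (nat_lit 396) (B (L (nat_lit 523) ln11_16_6 ln11_16_6_ok) (M (nat_lit 364) (B (L (nat_lit 332) ln12_10_5 ln12_10_5_ok) (L (nat_lit 395) ln11_15_6 ln11_15_6_ok))))) (B (M (nat_lit 396) (B (L (nat_lit 523) ln11_16_6 ln11_16_6_ok) (M (nat_lit 364) (B (L (nat_lit 395) ln11_15_6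 ln11_15_6_ok) (L (nat_lit 460) ln12_11_5 ln12_11_5_ok))))) (B (M (nat_lit 395) (B (M (nat_lit 396) (B (L (nat_lit 523) ln11_16_6 ln11_16_6_ok) (M (nat_lit 394) (B (L (nat_lit 362) ln11_15_7 ln11_15_7_ok) (L (nat_lit 393) ln9_12_0 ln9_12_0_ok))))) (M (nat_lit 460) (B (M (nat_lit 492) (B (L (nat_lit 363) ln11_11_4 ln11_11_4_ok) (L (nat_lit 524) ln12_16_7 ln12_16_7_ok))) (M (nat_lit 462) (B (L (nat_lit 463) ln15_14_3 ln15_14_3_ok) (L (nat_lit 490) ln14_14_1 ln14_14_1_ok))))))) (B (M (nat_lit 396) (B (L (nat_lit 523) ln11_16_6 ln11_16_6_ok) (M (nat_lit 364) (B (L (nat_lit 332) ln12_10_5 ln12_10_5_ok) (L (nat_lit 460) ln12_11_5 ln12_11_5_ok))))) (B (M (nat_lit 490) (B (M (nat_lit 522) (B (L (nat_lit 395) ln11_12_5 ln11_12_5_ok) (M (nat_lit 554) (B (L (nat_lit 523) ln11_13_5 ln11_13_5_ok) (L (nat_lit 586) ln10_18_6 ln10_18_6_ok))))) (M (nat_lit 460) (B (L (nat_lit 462) ln14_14_1 ln14_14_1_ok) (M (nat_lit 489)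 (B (L (nat_lit 458) ln13_14_1 ln13_14_1_ok) (L (nat_lit 492) ln9_15_2 ln9_15_2_ok))))))) (M (nat_lit 395) (B (M (nat_lit 396) (B (L (nat_lit 364) ln11_15_6 ln11_15_6_ok) (M (nat_lit 394) (B (L (nat_lit 362) ln11_15_7 ln11_15_7_ok) (L (nat_lit 393) ln9_12_0 ln9_12_0_ok))))) (M (nat_lit 460) (B (M (nat_lit 492) (B (L (nat_lit 363) ln11_11_4 ln11_11_4_ok) (L (nat_lit 524) ln12_16_7 ln12_16_7_ok))) (M (nat_lit 462) (B (L (nat_lit 463) ln15_14_3 ln15_14_3_ok) (L (nat_lit 490) ln14_14_1 ln14_14_1_ok))))))))))))) (B (M (nat_lit 491) (B (M (nat_lit 396) (B (L (nat_lit 523) ln11_16_6 ln11_16_6_ok) (M (nat_lit 364) (B (L (nat_lit 332) ln12_10_5 ln12_10_5_ok) (L (nat_lit 395) ln11_15_6 ln11_15_6_ok))))) (B (M (nat_lit 396) (B (L (nat_lit 523) ln11_16_6 ln11_16_6_ok) (M (nat_lit 364) (B (L (nat_lit 395) ln11_15_6 ln11_15_6_ok) (L (nat_lit 460) ln12_11_5 ln12_11_5_ok))))) (B (M (nat_lit 462) (B (M (nat_lit 463) (B (L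 (nat_lit 430) ln11_13_0 ln11_13_0_ok) (L (nat_lit 460) ln15_14_3 ln15_14_3_ok))) (B (M (nat_lit 463) (B (L (nat_lit 460) ln15_14_3 ln15_14_3_ok) (L (nat_lit 464) ln16_14_3 ln16_14_3_ok))) (B (M (nat_lit 463) (B (L (nat_lit 430) ln11_13_0 ln11_13_0_ok) (L (nat_lit 464) ln16_14_3 ln16_14_3_ok))) (M (nat_lit 395) (B (M (nat_lit 394) (B (L (nat_lit 362) ln11_15_7 ln11_15_7_ok) (L (nat_lit 430) ln14_13_3 ln14_13_3_ok))) (M (nat_lit 490) (B (L (nat_lit 522) ln11_12_5 ln11_12_5_ok) (L (nat_lit 460) ln14_14_1 ln14_14_1_ok))))))))) (M (nat_lit 396) (B (L (nat_lit 523) ln11_16_6 ln11_16_6_ok) (M (nat_lit 364) (B (L (nat_lit 332) ln12_10_5 ln12_10_5_ok) (L (nat_lit 460) ln12_11_5 ln12_11_5_ok))))))))) (M (nat_lit 395) (B (M (nat_lit 430) (B (L (nat_lit 394) ln14_13_3 ln14_13_3_ok) (L (nat_lit 458) ln14_13_1 ln14_13_1_ok))) (B (M (nat_lit 458) (B (L (nat_lit 430) ln14_13_1 ln14_13_1_ok) (M (nat_lit 490) (B (L (nat_lit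 363) ln11_11_5 ln11_11_5_ok) (M (nat_lit 522) (B (L (nat_lit 491) ln11_12_5 ln11_12_5_ok) (L (nat_lit 554) ln10_17_6 ln10_17_6_ok))))))) (B (M (nat_lit 491) (B (M (nat_lit 396) (B (L (nat_lit 364) ln11_15_6 ln11_15_6_ok) (L (nat_lit 523) ln11_16_6 ln11_16_6_ok))) (M (nat_lit 363) (B (M (nat_lit 362) (B (L (nat_lit 330) ln11_14_7 ln11_14_7_ok) (L (nat_lit 394) ln11_15_7 ln11_15_7_ok))) (M (nat_lit 490) (B (L (nat_lit 458) ln11_11_5 ln11_11_5_ok) (L (nat_lit 522) ln11_12_5 ln11_12_5_ok))))))) (M (nat_lit 394) (B (L (nat_lit 430) ln14_13_3 ln14_13_3_ok) (M (nat_lit 393) (B (L (nat_lit 392) ln8_12_0 ln8_12_0_ok) (L (nat_lit 396) ln9_12_0 ln9_12_0_ok)))))))))))))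
noncomputable def c20_n3227 : Cert := (M (nat_lit 427) (B (M (nat_lit 462) (B (L (nat_lit 426) ln10_13_0 ln10_13_0_ok) (M (nat_lit 463) (B (L (nat_lit 460) ln15_14_3 ln15_14_3_ok) (L (nat_lit 464) ln16_14_3 ln16_14_3_ok))))) (B c20_n3226 (B (M (nat_lit 462) (B (L (nat_lit 426) ln10_13_0 ln10_13_0_ok) (M (nat_lit 463) (B (L (nat_lit 430) ln11_13_0 ln11_13_0_ok) (L (nat_lit 464) ln16_14_3 ln16_14_3_ok))))) (M (nat_lit 426) (B (M (nat_lit 425) (B (L (nat_lit 460) ln9_13_0 ln9_13_0_ok) (M (nat_lit 457) (B (L (nat_lit 456) ln12_13_1 ln12_13_1_ok) (L (nat_lit 458) ln13_13_1 ln13_13_1_ok))))) (B (M (nat_lit 430) (B (M (nat_lit 394) (B (L (nat_lit 393) ln13_13_3 ln13_13_3_ok) (L (nat_lit 395) ln14_13_3 ln14_13_3_ok))) (M (nat_lit 458) (B (L (nat_lit 457) ln13_13_1 ln13_13_1_ok) (L (nat_lit 459) ln14_13_1 ln14_13_1_ok))))) (M (nat_lit 425) (B (L (nat_lit 460) ln9_13_0 ln9_13_0_ok) (M (nat_lit 393) (B (L (nat_lit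 392) ln12_13_3 ln12_13_3_ok) (L (nat_lit 394) ln13_13_3 ln13_13_3_ok))))))))))))
theorem c20_s3228 : Sem (nat_lit 109836762562089755445664675616118237970751432866300626787807987225437419021876372833233991089115539321427710881230832060719788174042694436113401695113939255296) (nat_lit 1266331656308881332027755662137183044580981754200385406505282386943053745779299627596221556390454097818021002257145417498887254362569345038167184565871514928637020738694624051200) (nat_lit 1266331656308881332027755662137183044580981754200385406505282386943053745779299627596221556390454097818021002257145417498887254362569345038167184565871514928637020738694624051200) :=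
  sem_of_chk (M (nat_lit 428) (B (M (nat_lit 493) (B (L (nat_lit 396) ln13_16_7 ln13_16_7_ok) (M (nat_lit 557) (B (L (nat_lit 460) ln13_17_7 ln13_17_7_ok) (M (nat_lit 430) (B (L (nat_lit 398) ln13_16_6 ln13_16_6_ok) (L (nat_lit 462) ln13_17_6 ln13_17_6_ok))))))) (B (M (nat_lit 427) (B (M (nat_lit 462) (B (L (nat_lit 426) ln10_13_0 ln10_13_0_ok) (M (nat_lit 463) (B (L (nat_lit 430) ln11_13_0 ln11_13_0_ok) (L (nat_lit 464) ln16_14_3 ln16_14_3_ok))))) (B (M (nat_lit 459) (B (M (nat_lit 458) (B (L (nat_lit 430) ln14_13_1 ln14_13_1_ok) (M (nat_lit 457) (B (L (nat_lit 456) ln8_14_2 ln8_14_2_ok) (L (nat_lit 460) ln9_14_2 ln9_14_2_ok))))) (B (M (nat_lit 460) (B (M (nat_lit 458) (B (L (nat_lit 457) ln9_14_2 ln9_14_2_ok) (M (nat_lit 493) (B (L (nat_lit 557) ln13_17_7 ln13_17_7_ok) (L (nat_lit 494) ln10_14_0 ln10_14_0_ok))))) (B (M (nat_lit 524) (B (M (nat_lit 492) (B (L (nat_lit 395) ln12_16_7 ln12_16_7_ok) (L (nat_lit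 556) ln12_17_7 ln12_17_7_ok))) (B (M (nat_lit 492) (B (L (nat_lit 556) ln12_17_7 ln12_17_7_ok) (L (nat_lit 557) ln12_13_4 ln12_13_4_ok))) (B (M (nat_lit 493) (B (L (nat_lit 557) ln13_17_7 ln13_17_7_ok) (L (nat_lit 556) ln13_13_5 ln13_13_5_ok))) (M (nat_lit 557) (B (L (nat_lit 493) ln13_17_7 ln13_17_7_ok) (L (nat_lit 492) ln12_13_4 ln12_13_4_ok))))))) (M (nat_lit 462) (B (L (nat_lit 463) ln15_14_3 ln15_14_3_ok) (M (nat_lit 458) (B (L (nat_lit 457) ln9_14_2 ln9_14_2_ok) (M (nat_lit 490) (B (L (nat_lit 489) ln13_14_1 ln13_14_1_ok) (L (nat_lit 491) ln14_14_1 ln14_14_1_ok)))))))))) (B (M (nat_lit 430) (B (L (nat_lit 458) ln14_13_1 ln14_13_1_ok) (M (nat_lit 398) (B (L (nat_lit 399) ln11_13_2 ln11_13_2_ok) (L (nat_lit 493) ln13_16_6 ln13_16_6_ok))))) (M (nat_lit 493) (B (M (nat_lit 430) (B (L (nat_lit 398) ln13_16_6 ln13_16_6_ok) (M (nat_lit 557) (B (L (nat_lit 460) ln13_17_7 ln13_17_7_ok) (L (nat_lit 462) ln13_17_6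 ln13_17_6_ok))))) (B (M (nat_lit 557) (B (L (nat_lit 460) ln13_17_7 ln13_17_7_ok) (M (nat_lit 556) (B (L (nat_lit 524) ln13_13_5 ln13_13_5_ok) (L (nat_lit 588) ln13_14_5 ln13_14_5_ok))))) (B (M (nat_lit 430) (B (L (nat_lit 398) ln13_16_6 ln13_16_6_ok) (M (nat_lit 462) (B (L (nat_lit 463) ln11_13_0 ln11_13_0_ok) (L (nat_lit 557) ln13_17_6 ln13_17_6_ok))))) (M (nat_lit 524) (B (L (nat_lit 556) ln13_13_5 ln13_13_5_ok) (M (nat_lit 395) (B (M (nat_lit 430) (B (L (nat_lit 394) ln14_13_3 ln14_13_3_ok) (L (nat_lit 398) ln13_16_6 ln13_16_6_ok))) (M (nat_lit 492) (B (L (nat_lit 460) ln12_16_7 ln12_16_7_ok) (L (nat_lit 491) ln11_12_4 ln11_12_4_ok))))))))))))))) (B (M (nat_lit 462) (B (L (nat_lit 426) ln10_13_0 ln10_13_0_ok) (M (nat_lit 463) (B (L (nat_lit 460) ln15_14_3 ln15_14_3_ok) (L (nat_lit 464) ln16_14_3 ln16_14_3_ok))))) (M (nat_lit 426) (B (M (nat_lit 425) (B (L (nat_lit 460) ln9_13_0 ln9_13_0_ok) (M (nat_lit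 457) (B (L (nat_lit 456) ln12_13_1 ln12_13_1_ok) (L (nat_lit 458) ln13_13_1 ln13_13_1_ok))))) (B (M (nat_lit 430) (B (M (nat_lit 394) (B (L (nat_lit 393) ln13_13_3 ln13_13_3_ok) (L (nat_lit 395) ln14_13_3 ln14_13_3_ok))) (M (nat_lit 458) (B (L (nat_lit 457) ln13_13_1 ln13_13_1_ok) (L (nat_lit 459) ln14_13_1 ln14_13_1_ok))))) (M (nat_lit 425) (B (L (nat_lit 460) ln9_13_0 ln9_13_0_ok) (M (nat_lit 393) (B (L (nat_lit 392) ln12_13_3 ln12_13_3_ok) (L (nat_lit 394) ln13_13_3 ln13_13_3_ok)))))))))))) (B (M (nat_lit 493) (B (L (nat_lit 396) ln13_16_7 ln13_16_7_ok) (M (nat_lit 557) (B (L (nat_lit 460) ln13_17_7 ln13_17_7_ok) (M (nat_lit 556) (B (L (nat_lit 524) ln13_13_5 ln13_13_5_ok) (L (nat_lit 588) ln13_14_5 ln13_14_5_ok))))))) (B (M (nat_lit 493) (B (L (nat_lit 396) ln13_16_7 ln13_16_7_ok) (M (nat_lit 557) (B (M (nat_lit 430) (B (L (nat_lit 398) ln13_16_6 ln13_16_6_ok) (L (nat_lit 462) ln13_17_6 ln13_17_6_ok)))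 (M (nat_lit 556) (B (L (nat_lit 524) ln13_13_5 ln13_13_5_ok) (L (nat_lit 588) ln13_14_5 ln13_14_5_ok))))))) c20_n3227))))) (nat_lit 109836762562089755445664675616118237970751432866300626787807987225437419021876372833233991089115539321427710881230832060719788174042694436113401695113939255296) (nat_lit 1266331656308881332027755662137183044580981754200385406505282386943053745779299627596221556390454097818021002257145417498887254362569345038167184565871514928637020738694624051200) (nat_lit 1266331656308881332027755662137183044580981754200385406505282386943053745779299627596221556390454097818021002257145417498887254362569345038167184565871514928637020738694624051200) (by decide +kernel)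
theorem c20_s3465 : Sem (nat_lit 164755143843134633165519882009462551132437118982341673608999465824780873757901575394007088109560831088197487778122672526542798972564775389354344814400103251968) (nat_lit 7017211384339033218217605311959499899322009643145029140503598714691444074793417329457533858374957432926535509299489302275961721919518852625667572454277049019529535946752) (nat_lit 7017211384339033218217605311959499899322009643145029140503598714691444074793417329457533858374957432926535509299489302275961721919518852625667572454277049019529535946752) :=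
  sem_of_chk (M (nat_lit 460) (B (M (nat_lit 492) (B (L (nat_lit 556) ln12_17_6 ln12_17_6_ok) (M (nat_lit 427) (B (L (nat_lit 395) ln12_16_7 ln12_16_7_ok) (M (nat_lit 462) (B (L (nat_lit 426) ln10_13_0 ln10_13_0_ok) (L (nat_lit 463) ln15_14_3 ln15_14_3_ok))))))) (B (M (nat_lit 427) (B (M (nat_lit 426) (B (L (nat_lit 425) ln9_13_0 ln9_13_0_ok) (L (nat_lit 462) ln10_13_0 ln10_13_0_ok))) (M (nat_lit 459) (B (M (nat_lit 458) (B (L (nat_lit 430) ln14_13_1 ln14_13_1_ok) (L (nat_lit 457) ln9_14_2 ln9_14_2_ok))) (M (nat_lit 523) (B (M (nat_lit 556) (B (L (nat_lit 492) ln12_17_7 ln12_17_7_ok) (L (nat_lit 491) ln11_13_4 ln11_13_4_ok))) (B (M (nat_lit 492) (B (L (nat_lit 556) ln12_17_7 ln12_17_7_ok) (L (nat_lit 555) ln12_13_5 ln12_13_5_ok))) (B (M (nat_lit 491) (B (L (nat_lit 556) ln11_13_4 ln11_13_4_ok) (L (nat_lit 555) ln11_17_6 ln11_17_6_ok))) (M (nat_lit 555) (B (L (nat_lit 491) ln11_17_6 ln11_17_6_ok) (L (nat_lit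 492) ln12_13_5 ln12_13_5_ok))))))))))) (B (M (nat_lit 459) (B (M (nat_lit 458) (B (L (nat_lit 457) ln9_14_2 ln9_14_2_ok) (L (nat_lit 430) ln10_14_2 ln10_14_2_ok))) (M (nat_lit 491) (B (M (nat_lit 492) (B (L (nat_lit 556) ln12_17_6 ln12_17_6_ok) (M (nat_lit 462) (B (L (nat_lit 490) ln14_14_1 ln14_14_1_ok) (L (nat_lit 463) ln15_14_1 ln15_14_1_ok))))) (B (M (nat_lit 523) (B (L (nat_lit 555) ln11_17_6 ln11_17_6_ok) (M (nat_lit 556) (B (L (nat_lit 427) ln11_13_4 ln11_13_4_ok) (L (nat_lit 492) ln12_17_6 ln12_17_6_ok))))) (M (nat_lit 462) (B (L (nat_lit 490) ln14_14_1 ln14_14_1_ok) (M (nat_lit 463) (B (L (nat_lit 427) ln15_14_3 ln15_14_3_ok) (L (nat_lit 464) ln16_14_3 ln16_14_3_ok)))))))))) (B (M (nat_lit 526) (B (M (nat_lit 492) (B (L (nat_lit 556) ln12_17_6 ln12_17_6_ok) (M (nat_lit 491) (B (L (nat_lit 527) ln15_16_3 ln15_16_3_ok) (M (nat_lit 523) (B (L (nat_lit 555) ln12_13_5 ln12_13_5_ok) (L (nat_lit 490) ln14_16_3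 ln14_16_3_ok))))))) (B (M (nat_lit 523) (B (M (nat_lit 555) (B (L (nat_lit 492) ln12_13_5 ln12_13_5_ok) (L (nat_lit 554) ln14_16_1 ln14_16_1_ok))) (M (nat_lit 494) (B (L (nat_lit 495) ln11_16_2 ln11_16_2_ok) (M (nat_lit 558) (B (L (nat_lit 462) ln14_17_7 ln14_17_7_ok) (L (nat_lit 559) ln11_16_0 ln11_16_0_ok))))))) (B (M (nat_lit 523) (B (M (nat_lit 494) (B (L (nat_lit 495) ln11_16_2 ln11_16_2_ok) (M (nat_lit 558) (B (L (nat_lit 462) ln14_17_7 ln14_17_7_ok) (L (nat_lit 559) ln11_16_0 ln11_16_0_ok))))) (M (nat_lit 555) (B (L (nat_lit 554) ln14_16_1 ln14_16_1_ok) (M (nat_lit 491) (B (L (nat_lit 459) ln11_17_6 ln11_17_6_ok) (L (nat_lit 490) ln14_16_3 ln14_16_3_ok))))))) (M (nat_lit 462) (B (M (nat_lit 463) (B (L (nat_lit 464) ln16_14_3 ln16_14_3_ok) (M (nat_lit 492) (B (L (nat_lit 556) ln12_17_6 ln12_17_6_ok) (L (nat_lit 491) ln15_14_1 ln15_14_1_ok))))) (M (nat_lit 459) (B (M (nat_lit 458) (B (L (nat_lit 457)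 ln9_14_2 ln9_14_2_ok) (L (nat_lit 430) ln10_14_2 ln10_14_2_ok))) (M (nat_lit 494) (B (L (nat_lit 558) ln14_17_7 ln14_17_7_ok) (L (nat_lit 495) ln11_14_0 ln11_14_0_ok))))))))))) (B (M (nat_lit 427) (B (M (nat_lit 492) (B (L (nat_lit 395) ln12_16_7 ln12_16_7_ok) (L (nat_lit 556) ln12_17_6 ln12_17_6_ok))) (B (M (nat_lit 459) (B (M (nat_lit 458) (B (L (nat_lit 430) ln14_13_1 ln14_13_1_ok) (L (nat_lit 457) ln9_14_2 ln9_14_2_ok))) (M (nat_lit 523) (B (M (nat_lit 556) (B (L (nat_lit 492) ln12_17_7 ln12_17_7_ok) (L (nat_lit 491) ln11_13_4 ln11_13_4_ok))) (B (M (nat_lit 492) (B (L (nat_lit 556) ln12_17_7 ln12_17_7_ok) (L (nat_lit 555) ln12_13_5 ln12_13_5_ok))) (B (M (nat_lit 491) (B (L (nat_lit 556) ln11_13_4 ln11_13_4_ok) (L (nat_lit 555) ln11_17_6 ln11_17_6_ok))) (M (nat_lit 555) (B (L (nat_lit 491) ln11_17_6 ln11_17_6_ok) (L (nat_lit 492) ln12_13_5 ln12_13_5_ok))))))))) (M (nat_lit 426) (B (L (nat_lit 425) ln9_13_0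 ln9_13_0_ok) (M (nat_lit 430) (B (M (nat_lit 394) (B (L (nat_lit 393) ln13_13_3 ln13_13_3_ok) (L (nat_lit 395) ln14_13_3 ln14_13_3_ok))) (M (nat_lit 458) (B (L (nat_lit 457) ln13_13_1 ln13_13_1_ok) (L (nat_lit 459) ln14_13_1 ln14_13_1_ok)))))))))) (B (M (nat_lit 427) (B (M (nat_lit 426) (B (L (nat_lit 425) ln9_13_0 ln9_13_0_ok) (L (nat_lit 462) ln10_13_0 ln10_13_0_ok))) (B (M (nat_lit 462) (B (L (nat_lit 426) ln10_13_0 ln10_13_0_ok) (L (nat_lit 463) ln15_14_3 ln15_14_3_ok))) (B (M (nat_lit 459) (B (M (nat_lit 458) (B (L (nat_lit 430) ln14_13_1 ln14_13_1_ok) (L (nat_lit 457) ln9_14_2 ln9_14_2_ok))) (M (nat_lit 491) (B (M (nat_lit 523) (B (L (nat_lit 556) ln11_13_4 ln11_13_4_ok) (L (nat_lit 555) ln11_17_6 ln11_17_6_ok))) (M (nat_lit 462) (B (L (nat_lit 463) ln15_14_3 ln15_14_3_ok) (L (nat_lit 490) ln14_14_1 ln14_14_1_ok))))))) (M (nat_lit 426) (B (L (nat_lit 425) ln9_13_0 ln9_13_0_ok) (M (nat_lit 430) (B (M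 (nat_lit 394) (B (L (nat_lit 393) ln13_13_3 ln13_13_3_ok) (L (nat_lit 395) ln14_13_3 ln14_13_3_ok))) (M (nat_lit 458) (B (L (nat_lit 457) ln13_13_1 ln13_13_1_ok) (L (nat_lit 459) ln14_13_1 ln14_13_1_ok))))))))))) (M (nat_lit 523) (B (M (nat_lit 492) (B (L (nat_lit 555) ln12_13_5 ln12_13_5_ok) (M (nat_lit 427) (B (L (nat_lit 395) ln12_16_7 ln12_16_7_ok) (M (nat_lit 426) (B (L (nat_lit 425) ln9_13_0 ln9_13_0_ok) (L (nat_lit 462) ln10_13_0 ln10_13_0_ok))))))) (B (M (nat_lit 459) (B (M (nat_lit 555) (B (L (nat_lit 491) ln11_17_6 ln11_17_6_ok) (L (nat_lit 492) ln12_13_5 ln12_13_5_ok))) (M (nat_lit 458) (B (L (nat_lit 457) ln9_14_2 ln9_14_2_ok) (L (nat_lit 430) ln10_14_2 ln10_14_2_ok))))) (B (M (nat_lit 459) (B (M (nat_lit 458) (B (L (nat_lit 457) ln9_14_2 ln9_14_2_ok) (L (nat_lit 430) ln10_14_2 ln10_14_2_ok))) (M (nat_lit 462) (B (M (nat_lit 427) (B (L (nat_lit 426) ln10_13_0 ln10_13_0_ok) (L (nat_lit 463) ln15_14_3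 ln15_14_3_ok))) (M (nat_lit 491) (B (L (nat_lit 555) ln11_17_6 ln11_17_6_ok) (L (nat_lit 490) ln14_14_1 ln14_14_1_ok))))))) (M (nat_lit 526) (B (M (nat_lit 494) (B (L (nat_lit 495) ln11_16_2 ln11_16_2_ok) (M (nat_lit 558) (B (L (nat_lit 462) ln14_17_7 ln14_17_7_ok) (L (nat_lit 559) ln11_16_0 ln11_16_0_ok))))) (B (M (nat_lit 527) (B (M (nat_lit 491) (B (L (nat_lit 490) ln14_16_3 ln14_16_3_ok) (L (nat_lit 492) ln15_16_3 ln15_16_3_ok))) (M (nat_lit 559) (B (L (nat_lit 558) ln11_16_0 ln11_16_0_ok) (L (nat_lit 560) ln12_16_0 ln12_16_0_ok))))) (M (nat_lit 527) (B (M (nat_lit 491) (B (L (nat_lit 490) ln14_16_3 ln14_16_3_ok) (L (nat_lit 492) ln15_16_3 ln15_16_3_ok))) (M (nat_lit 495) (B (L (nat_lit 494) ln11_16_2 ln11_16_2_ok) (L (nat_lit 496) ln12_16_2 ln12_16_2_ok))))))))))))))))))) (nat_lit 164755143843134633165519882009462551132437118982341673608999465824780873757901575394007088109560831088197487778122672526542798972564775389354344814400103251968)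 (nat_lit 7017211384339033218217605311959499899322009643145029140503598714691444074793417329457533858374957432926535509299489302275961721919518852625667572454277049019529535946752) (nat_lit 7017211384339033218217605311959499899322009643145029140503598714691444074793417329457533858374957432926535509299489302275961721919518852625667572454277049019529535946752) (by decide +kernel)
theorem c20_s3516 : Sem (nat_lit 109836762562089755445664675616811405394281636581195230333843758151296528290720326977026610984269194648379117286990825662245823068567042238853752588071182794752) (nat_lit 7046695465851599486660470253655240154405057444642283341285521860182055496430041785280759798895942646046717915367660227761643752696764317208748707651381559854567207731200) (nat_lit 7046695465851599486660470253655240154405057444642283341285521860182055496430041785280759798895942646046717915367660227761643752696764317208748707651381559854567207731200)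 :=
  sem_of_chk (M (nat_lit 524) (B (M (nat_lit 526) (B (M (nat_lit 493) (B (L (nat_lit 556) ln13_13_5 ln13_13_5_ok) (L (nat_lit 558) ln13_13_4 ln13_13_4_ok))) (B (M (nat_lit 527) (B (M (nat_lit 492) (B (L (nat_lit 491) ln15_16_3 ln15_16_3_ok) (M (nat_lit 556) (B (L (nat_lit 460) ln12_17_6 ln12_17_6_ok) (L (nat_lit 555) ln15_16_1 ln15_16_1_ok))))) (B (M (nat_lit 523) (B (M (nat_lit 491) (B (L (nat_lit 490) ln14_16_3 ln14_16_3_ok) (L (nat_lit 492) ln15_16_3 ln15_16_3_ok))) (M (nat_lit 495) (B (L (nat_lit 494) ln11_16_2 ln11_16_2_ok) (L (nat_lit 496) ln12_16_2 ln12_16_2_ok))))) (M (nat_lit 523) (B (M (nat_lit 495) (B (L (nat_lit 494) ln11_16_2 ln11_16_2_ok) (L (nat_lit 496) ln12_16_2 ln12_16_2_ok))) (M (nat_lit 555) (B (L (nat_lit 554) ln14_16_1 ln14_16_1_ok) (L (nat_lit 556) ln15_16_1 ln15_16_1_ok)))))))) (M (nat_lit 558) (B (L (nat_lit 493) ln13_13_4 ln13_13_4_ok) (M (nat_lit 523) (B (L (nat_lit 559) ln11_16_0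 ln11_16_0_ok) (M (nat_lit 494) (B (L (nat_lit 462) ln14_17_7 ln14_17_7_ok) (L (nat_lit 495) ln11_16_2 ln11_16_2_ok)))))))))) (B (M (nat_lit 526) (B (M (nat_lit 493) (B (L (nat_lit 556) ln13_13_5 ln13_13_5_ok) (L (nat_lit 558) ln13_13_4 ln13_13_4_ok))) (B (M (nat_lit 523) (B (M (nat_lit 494) (B (L (nat_lit 495) ln11_16_2 ln11_16_2_ok) (M (nat_lit 558) (B (L (nat_lit 462) ln14_17_7 ln14_17_7_ok) (L (nat_lit 559) ln11_16_0 ln11_16_0_ok))))) (M (nat_lit 527) (B (M (nat_lit 491) (B (L (nat_lit 490) ln14_16_3 ln14_16_3_ok) (L (nat_lit 492) ln15_16_3 ln15_16_3_ok))) (M (nat_lit 555) (B (L (nat_lit 554) ln14_16_1 ln14_16_1_ok) (L (nat_lit 556) ln15_16_1 ln15_16_1_ok))))))) (B (M (nat_lit 558) (B (L (nat_lit 493) ln13_13_4 ln13_13_4_ok) (M (nat_lit 523) (B (L (nat_lit 559) ln11_16_0 ln11_16_0_ok) (M (nat_lit 494) (B (L (nat_lit 462) ln14_17_7 ln14_17_7_ok) (L (nat_lit 495) ln11_16_2 ln11_16_2_ok))))))) (M (nat_lit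 523) (B (M (nat_lit 493) (B (L (nat_lit 556) ln13_13_5 ln13_13_5_ok) (M (nat_lit 494) (B (L (nat_lit 522) ln10_16_2 ln10_16_2_ok) (L (nat_lit 495) ln11_16_2 ln11_16_2_ok))))) (B (M (nat_lit 527) (B (M (nat_lit 491) (B (L (nat_lit 490) ln14_16_3 ln14_16_3_ok) (L (nat_lit 492) ln15_16_3 ln15_16_3_ok))) (M (nat_lit 555) (B (L (nat_lit 554) ln14_16_1 ln14_16_1_ok) (L (nat_lit 556) ln15_16_1 ln15_16_1_ok))))) (M (nat_lit 522) (B (M (nat_lit 490) (B (L (nat_lit 489) ln13_16_3 ln13_16_3_ok) (L (nat_lit 491) ln14_16_3 ln14_16_3_ok))) (M (nat_lit 494) (B (L (nat_lit 493) ln10_16_2 ln10_16_2_ok) (L (nat_lit 495) ln11_16_2 ln11_16_2_ok)))))))))))) (B (M (nat_lit 526) (B (M (nat_lit 493) (B (L (nat_lit 556) ln13_13_5 ln13_13_5_ok) (L (nat_lit 558) ln13_13_4 ln13_13_4_ok))) (B (M (nat_lit 527) (B (M (nat_lit 492) (B (L (nat_lit 491) ln15_16_3 ln15_16_3_ok) (M (nat_lit 556) (B (L (nat_lit 460) ln12_17_6 ln12_17_6_ok)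 (L (nat_lit 555) ln15_16_1 ln15_16_1_ok))))) (B (M (nat_lit 523) (B (M (nat_lit 491) (B (L (nat_lit 490) ln14_16_3 ln14_16_3_ok) (L (nat_lit 492) ln15_16_3 ln15_16_3_ok))) (M (nat_lit 495) (B (L (nat_lit 494) ln11_16_2 ln11_16_2_ok) (L (nat_lit 496) ln12_16_2 ln12_16_2_ok))))) (M (nat_lit 523) (B (M (nat_lit 495) (B (L (nat_lit 494) ln11_16_2 ln11_16_2_ok) (L (nat_lit 496) ln12_16_2 ln12_16_2_ok))) (M (nat_lit 555) (B (L (nat_lit 554) ln14_16_1 ln14_16_1_ok) (L (nat_lit 556) ln15_16_1 ln15_16_1_ok)))))))) (M (nat_lit 523) (B (M (nat_lit 558) (B (L (nat_lit 493) ln13_13_4 ln13_13_4_ok) (L (nat_lit 559) ln11_16_0 ln11_16_0_ok))) (B (M (nat_lit 527) (B (M (nat_lit 491) (B (L (nat_lit 490) ln14_16_3 ln14_16_3_ok) (L (nat_lit 492) ln15_16_3 ln15_16_3_ok))) (M (nat_lit 559) (B (L (nat_lit 558) ln11_16_0 ln11_16_0_ok) (L (nat_lit 560) ln12_16_0 ln12_16_0_ok))))) (M (nat_lit 522) (B (M (nat_lit 490) (B (L (nat_lit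 489) ln13_16_3 ln13_16_3_ok) (L (nat_lit 491) ln14_16_3 ln14_16_3_ok))) (M (nat_lit 494) (B (L (nat_lit 493) ln10_16_2 ln10_16_2_ok) (L (nat_lit 495) ln11_16_2 ln11_16_2_ok))))))))))) (B (M (nat_lit 526) (B (M (nat_lit 493) (B (L (nat_lit 556) ln13_13_5 ln13_13_5_ok) (L (nat_lit 558) ln13_13_4 ln13_13_4_ok))) (B (M (nat_lit 523) (B (M (nat_lit 494) (B (L (nat_lit 495) ln11_16_2 ln11_16_2_ok) (M (nat_lit 558) (B (L (nat_lit 462) ln14_17_7 ln14_17_7_ok) (L (nat_lit 559) ln11_16_0 ln11_16_0_ok))))) (B (M (nat_lit 527) (B (M (nat_lit 555) (B (L (nat_lit 554) ln14_16_1 ln14_16_1_ok) (L (nat_lit 556) ln15_16_1 ln15_16_1_ok))) (M (nat_lit 559) (B (L (nat_lit 558) ln11_16_0 ln11_16_0_ok) (L (nat_lit 560) ln12_16_0 ln12_16_0_ok))))) (M (nat_lit 527) (B (M (nat_lit 495) (B (L (nat_lit 494) ln11_16_2 ln11_16_2_ok) (L (nat_lit 496) ln12_16_2 ln12_16_2_ok))) (M (nat_lit 555) (B (L (nat_lit 554) ln14_16_1 ln14_16_1_ok)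 (L (nat_lit 556) ln15_16_1 ln15_16_1_ok)))))))) (B (M (nat_lit 558) (B (L (nat_lit 493) ln13_13_4 ln13_13_4_ok) (M (nat_lit 523) (B (L (nat_lit 559) ln11_16_0 ln11_16_0_ok) (M (nat_lit 494) (B (L (nat_lit 462) ln14_17_7 ln14_17_7_ok) (L (nat_lit 495) ln11_16_2 ln11_16_2_ok))))))) (M (nat_lit 556) (B (L (nat_lit 493) ln13_13_5 ln13_13_5_ok) (M (nat_lit 527) (B (L (nat_lit 555) ln15_16_1 ln15_16_1_ok) (M (nat_lit 492) (B (L (nat_lit 460) ln12_17_6 ln12_17_6_ok) (L (nat_lit 491) ln15_16_3 ln15_16_3_ok))))))))))) (B (M (nat_lit 526) (B (M (nat_lit 493) (B (L (nat_lit 556) ln13_13_5 ln13_13_5_ok) (L (nat_lit 558) ln13_13_4 ln13_13_4_ok))) (B (M (nat_lit 523) (B (M (nat_lit 494) (B (L (nat_lit 495) ln11_16_2 ln11_16_2_ok) (M (nat_lit 558) (B (L (nat_lit 462) ln14_17_7 ln14_17_7_ok) (L (nat_lit 559) ln11_16_0 ln11_16_0_ok))))) (B (M (nat_lit 527) (B (M (nat_lit 555) (B (L (nat_lit 554) ln14_16_1 ln14_16_1_ok) (L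 (nat_lit 556) ln15_16_1 ln15_16_1_ok))) (M (nat_lit 559) (B (L (nat_lit 558) ln11_16_0 ln11_16_0_ok) (L (nat_lit 560) ln12_16_0 ln12_16_0_ok))))) (M (nat_lit 527) (B (M (nat_lit 495) (B (L (nat_lit 494) ln11_16_2 ln11_16_2_ok) (L (nat_lit 496) ln12_16_2 ln12_16_2_ok))) (M (nat_lit 555) (B (L (nat_lit 554) ln14_16_1 ln14_16_1_ok) (L (nat_lit 556) ln15_16_1 ln15_16_1_ok)))))))) (B (M (nat_lit 558) (B (L (nat_lit 493) ln13_13_4 ln13_13_4_ok) (M (nat_lit 523) (B (L (nat_lit 559) ln11_16_0 ln11_16_0_ok) (M (nat_lit 494) (B (L (nat_lit 462) ln14_17_7 ln14_17_7_ok) (L (nat_lit 495) ln11_16_2 ln11_16_2_ok))))))) (M (nat_lit 556) (B (L (nat_lit 493) ln13_13_5 ln13_13_5_ok) (M (nat_lit 555) (B (L (nat_lit 527) ln15_16_1 ln15_16_1_ok) (M (nat_lit 554) (B (L (nat_lit 523) ln14_16_1 ln14_16_1_ok) (L (nat_lit 553) ln9_17_2 ln9_17_2_ok))))))))))) (B (K (nat_lit 164755143843134633165519882009462551132437118982341673608999465824780873757901575394007088109560831088197487778122672526542798972564775389354344814400103251968)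 (nat_lit 7017211384339033218217605311959499899322009643145029140503598714691444074793417329457533858374957432926535509299489302275961721919518852625667572454277049019529535946752) (nat_lit 7017211384339033218217605311959499899322009643145029140503598714691444074793417329457533858374957432926535509299489302275961721919518852625667572454277049019529535946752) c20_s3465) (B (M (nat_lit 492) (B (M (nat_lit 556) (B (L (nat_lit 460) ln12_17_6 ln12_17_6_ok) (L (nat_lit 493) ln13_13_5 ln13_13_5_ok))) (B (M (nat_lit 493) (B (L (nat_lit 556) ln13_13_5 ln13_13_5_ok) (M (nat_lit 526) (B (L (nat_lit 558) ln13_13_4 ln13_13_4_ok) (M (nat_lit 491) (B (L (nat_lit 490) ln10_15_0 ln10_15_0_ok) (L (nat_lit 527) ln15_16_3 ln15_16_3_ok))))))) (B (M (nat_lit 460) (B (L (nat_lit 556) ln12_17_6 ln12_17_6_ok) (M (nat_lit 427) (B (L (nat_lit 395) ln12_16_7 ln12_16_7_ok) (M (nat_lit 462) (B (L (nat_lit 426) ln10_13_0 ln10_13_0_ok)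 (L (nat_lit 463) ln15_14_3 ln15_14_3_ok))))))) (M (nat_lit 427) (B (M (nat_lit 462) (B (L (nat_lit 426) ln10_13_0 ln10_13_0_ok) (M (nat_lit 463) (B (L (nat_lit 430) ln11_13_0 ln11_13_0_ok) (L (nat_lit 464) ln16_14_3 ln16_14_3_ok))))) (B (M (nat_lit 430) (B (M (nat_lit 395) (B (L (nat_lit 394) ln14_13_3 ln14_13_3_ok) (L (nat_lit 460) ln12_16_7 ln12_16_7_ok))) (M (nat_lit 398) (B (L (nat_lit 399) ln11_13_2 ln11_13_2_ok) (L (nat_lit 493) ln13_16_6 ln13_16_6_ok))))) (M (nat_lit 460) (B (L (nat_lit 395) ln12_16_7 ln12_16_7_ok) (M (nat_lit 426) (B (L (nat_lit 425) ln9_13_0 ln9_13_0_ok) (L (nat_lit 462) ln10_13_0 ln10_13_0_ok)))))))))))) (M (nat_lit 427) (B (M (nat_lit 462) (B (L (nat_lit 426) ln10_13_0 ln10_13_0_ok) (M (nat_lit 463) (B (L (nat_lit 430) ln11_13_0 ln11_13_0_ok) (L (nat_lit 464) ln16_14_3 ln16_14_3_ok))))) (B (M (nat_lit 430) (B (M (nat_lit 398) (B (L (nat_lit 399) ln11_13_2 ln11_13_2_ok) (L (nat_lit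 493) ln13_16_6 ln13_16_6_ok))) (M (nat_lit 459) (B (L (nat_lit 458) ln14_13_1 ln14_13_1_ok) (M (nat_lit 395) (B (L (nat_lit 394) ln14_13_3 ln14_13_3_ok) (M (nat_lit 492) (B (L (nat_lit 460) ln12_16_7 ln12_16_7_ok) (L (nat_lit 491) ln11_12_4 ln11_12_4_ok))))))))) (M (nat_lit 462) (B (L (nat_lit 426) ln10_13_0 ln10_13_0_ok) (M (nat_lit 463) (B (L (nat_lit 460) ln15_14_3 ln15_14_3_ok) (L (nat_lit 464) ln16_14_3 ln16_14_3_ok)))))))))))))))) (nat_lit 109836762562089755445664675616811405394281636581195230333843758151296528290720326977026610984269194648379117286990825662245823068567042238853752588071182794752) (nat_lit 7046695465851599486660470253655240154405057444642283341285521860182055496430041785280759798895942646046717915367660227761643752696764317208748707651381559854567207731200) (nat_lit 7046695465851599486660470253655240154405057444642283341285521860182055496430041785280759798895942646046717915367660227761643752696764317208748707651381559854567207731200)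 (by decide +kernel)
theorem c20_s3595 : Sem (nat_lit 109836762562089755445664675616118237970751432866300626787807987225437419021876372833233991089115539321427710881230832060719788174042694436113401695113939255296) (nat_lit 253266345703079361008719074567026094768006149031557359869760124899917152817940265290119195792330462494245454439308297736455977479781823838446245792949054599188675557558507798528) (nat_lit 253266345703079361008719074567026094768006149031557359869760124899917152817940265290119195792330462494245454439308297736455977479781823838446245792949054599188675557558507798528) :=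
  sem_of_chk (M (nat_lit 428) (B (M (nat_lit 427) (B (M (nat_lit 462) (B (L (nat_lit 426) ln10_13_0 ln10_13_0_ok) (M (nat_lit 463) (B (L (nat_lit 430) ln11_13_0 ln11_13_0_ok) (L (nat_lit 464) ln16_14_3 ln16_14_3_ok))))) (B (M (nat_lit 459) (B (M (nat_lit 458) (B (L (nat_lit 430) ln14_13_1 ln14_13_1_ok) (M (nat_lit 457) (B (L (nat_lit 456) ln8_14_2 ln8_14_2_ok) (L (nat_lit 460) ln9_14_2 ln9_14_2_ok))))) (M (nat_lit 396) (B (L (nat_lit 493) ln13_16_7 ln13_16_7_ok) (M (nat_lit 364) (B (L (nat_lit 332) ln12_10_5 ln12_10_5_ok) (M (nat_lit 491) (B (L (nat_lit 395) ln11_15_6 ln11_15_6_ok) (L (nat_lit 523) ln11_16_6 ln11_16_6_ok))))))))) (M (nat_lit 462) (B (L (nat_lit 426) ln10_13_0 ln10_13_0_ok) (M (nat_lit 463) (B (L (nat_lit 460) ln15_14_3 ln15_14_3_ok) (L (nat_lit 464) ln16_14_3 ln16_14_3_ok)))))))) (B (M (nat_lit 427) (B (M (nat_lit 462) (B (L (nat_lit 426) ln10_13_0 ln10_13_0_ok) (M (nat_lit 463) (B (L (nat_lit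 460) ln15_14_3 ln15_14_3_ok) (L (nat_lit 464) ln16_14_3 ln16_14_3_ok))))) (B (M (nat_lit 459) (B (M (nat_lit 458) (B (L (nat_lit 430) ln14_13_1 ln14_13_1_ok) (M (nat_lit 457) (B (L (nat_lit 456) ln8_14_2 ln8_14_2_ok) (L (nat_lit 460) ln9_14_2 ln9_14_2_ok))))) (B (M (nat_lit 396) (B (L (nat_lit 493) ln13_16_7 ln13_16_7_ok) (M (nat_lit 491) (B (L (nat_lit 523) ln11_16_6 ln11_16_6_ok) (M (nat_lit 364) (B (L (nat_lit 395) ln11_15_6 ln11_15_6_ok) (L (nat_lit 460) ln12_11_5 ln12_11_5_ok))))))) (M (nat_lit 430) (B (L (nat_lit 458) ln14_13_1 ln14_13_1_ok) (M (nat_lit 493) (B (L (nat_lit 396) ln13_16_7 ln13_16_7_ok) (L (nat_lit 398) ln13_16_6 ln13_16_6_ok)))))))) (M (nat_lit 462) (B (L (nat_lit 426) ln10_13_0 ln10_13_0_ok) (M (nat_lit 463) (B (L (nat_lit 430) ln11_13_0 ln11_13_0_ok) (L (nat_lit 464) ln16_14_3 ln16_14_3_ok)))))))) (B (M (nat_lit 493) (B (L (nat_lit 396) ln13_16_7 ln13_16_7_ok) (M (nat_lit 524) (B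 (L (nat_lit 556) ln13_13_5 ln13_13_5_ok) (M (nat_lit 427) (B (M (nat_lit 430) (B (L (nat_lit 398) ln13_16_6 ln13_16_6_ok) (M (nat_lit 462) (B (L (nat_lit 426) ln10_13_0 ln10_13_0_ok) (L (nat_lit 463) ln11_13_0 ln11_13_0_ok))))) (B (M (nat_lit 462) (B (L (nat_lit 426) ln10_13_0 ln10_13_0_ok) (M (nat_lit 463) (B (L (nat_lit 430) ln11_13_0 ln11_13_0_ok) (L (nat_lit 460) ln15_14_3 ln15_14_3_ok))))) (B (M (nat_lit 492) (B (M (nat_lit 430) (B (L (nat_lit 398) ln13_16_6 ln13_16_6_ok) (M (nat_lit 395) (B (L (nat_lit 394) ln14_13_3 ln14_13_3_ok) (L (nat_lit 460) ln12_16_7 ln12_16_7_ok))))) (M (nat_lit 526) (B (L (nat_lit 558) ln13_13_4 ln13_13_4_ok) (M (nat_lit 491) (B (L (nat_lit 490) ln10_15_0 ln10_15_0_ok) (L (nat_lit 527) ln15_16_3 ln15_16_3_ok))))))) (M (nat_lit 462) (B (L (nat_lit 426) ln10_13_0 ln10_13_0_ok) (M (nat_lit 463) (B (L (nat_lit 460) ln15_14_3 ln15_14_3_ok) (L (nat_lit 464) ln16_14_3 ln16_14_3_ok)))))))))))))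 (B (M (nat_lit 427) (B (M (nat_lit 462) (B (L (nat_lit 426) ln10_13_0 ln10_13_0_ok) (M (nat_lit 463) (B (L (nat_lit 430) ln11_13_0 ln11_13_0_ok) (L (nat_lit 464) ln16_14_3 ln16_14_3_ok))))) (B (M (nat_lit 459) (B (M (nat_lit 430) (B (L (nat_lit 458) ln14_13_1 ln14_13_1_ok) (M (nat_lit 493) (B (L (nat_lit 396) ln13_16_7 ln13_16_7_ok) (L (nat_lit 398) ln13_16_6 ln13_16_6_ok))))) (B (M (nat_lit 430) (B (L (nat_lit 458) ln14_13_1 ln14_13_1_ok) (M (nat_lit 398) (B (L (nat_lit 399) ln11_13_2 ln11_13_2_ok) (L (nat_lit 493) ln13_16_6 ln13_16_6_ok))))) (B (M (nat_lit 396) (B (L (nat_lit 493) ln13_16_7 ln13_16_7_ok) (M (nat_lit 491) (B (L (nat_lit 523) ln11_16_6 ln11_16_6_ok) (M (nat_lit 364) (B (L (nat_lit 332) ln12_10_5 ln12_10_5_ok) (L (nat_lit 460) ln12_11_5 ln12_11_5_ok))))))) (M (nat_lit 460) (B (M (nat_lit 458) (B (L (nat_lit 430) ln14_13_1 ln14_13_1_ok) (L (nat_lit 457) ln9_14_2 ln9_14_2_ok))) (M (nat_lit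 491) (B (M (nat_lit 523) (B (L (nat_lit 396) ln11_16_6 ln11_16_6_ok) (L (nat_lit 555) ln11_17_6 ln11_17_6_ok))) (M (nat_lit 462) (B (L (nat_lit 463) ln15_14_3 ln15_14_3_ok) (L (nat_lit 490) ln14_14_1 ln14_14_1_ok))))))))))) (B (M (nat_lit 462) (B (L (nat_lit 426) ln10_13_0 ln10_13_0_ok) (M (nat_lit 463) (B (L (nat_lit 460) ln15_14_3 ln15_14_3_ok) (L (nat_lit 464) ln16_14_3 ln16_14_3_ok))))) (M (nat_lit 426) (B (M (nat_lit 425) (B (L (nat_lit 460) ln9_13_0 ln9_13_0_ok) (M (nat_lit 393) (B (L (nat_lit 392) ln12_13_3 ln12_13_3_ok) (L (nat_lit 394) ln13_13_3 ln13_13_3_ok))))) (M (nat_lit 430) (B (M (nat_lit 398) (B (L (nat_lit 399) ln11_13_2 ln11_13_2_ok) (L (nat_lit 493) ln13_16_6 ln13_16_6_ok))) (M (nat_lit 458) (B (L (nat_lit 457) ln13_13_1 ln13_13_1_ok) (L (nat_lit 459) ln14_13_1 ln14_13_1_ok))))))))))) (B (K (nat_lit 109836762562089755445664675616811405394281636581195230333843758151296528290720326977026610984269194648379117286990825662245823068567042238853752588071182794752)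 (nat_lit 7046695465851599486660470253655240154405057444642283341285521860182055496430041785280759798895942646046717915367660227761643752696764317208748707651381559854567207731200) (nat_lit 7046695465851599486660470253655240154405057444642283341285521860182055496430041785280759798895942646046717915367660227761643752696764317208748707651381559854567207731200) c20_s3516) (B (M (nat_lit 493) (B (L (nat_lit 396) ln13_16_7 ln13_16_7_ok) (M (nat_lit 524) (B (L (nat_lit 556) ln13_13_5 ln13_13_5_ok) (M (nat_lit 526) (B (L (nat_lit 558) ln13_13_4 ln13_13_4_ok) (M (nat_lit 492) (B (M (nat_lit 491) (B (L (nat_lit 490) ln10_15_0 ln10_15_0_ok) (L (nat_lit 527) ln15_16_3 ln15_16_3_ok))) (M (nat_lit 523) (B (M (nat_lit 494) (B (L (nat_lit 495) ln15_15_1 ln15_15_1_ok) (L (nat_lit 522) ln10_16_2 ln10_16_2_ok))) (M (nat_lit 555) (B (L (nat_lit 460) ln12_13_5 ln12_13_5_ok) (L (nat_lit 554) ln14_16_1 ln14_16_1_ok)))))))))))))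 (B (M (nat_lit 493) (B (L (nat_lit 396) ln13_16_7 ln13_16_7_ok) (M (nat_lit 526) (B (L (nat_lit 558) ln13_13_4 ln13_13_4_ok) (M (nat_lit 524) (B (L (nat_lit 556) ln13_13_5 ln13_13_5_ok) (M (nat_lit 527) (B (M (nat_lit 492) (B (L (nat_lit 491) ln15_16_3 ln15_16_3_ok) (L (nat_lit 528) ln16_16_3 ln16_16_3_ok))) (B (M (nat_lit 496) (B (L (nat_lit 495) ln12_16_2 ln12_16_2_ok) (M (nat_lit 528) (B (L (nat_lit 492) ln16_16_3 ln16_16_3_ok) (L (nat_lit 497) ln13_16_2 ln13_16_2_ok))))) (B (M (nat_lit 528) (B (M (nat_lit 496) (B (L (nat_lit 495) ln12_16_2 ln12_16_2_ok) (L (nat_lit 497) ln13_16_2 ln13_16_2_ok))) (M (nat_lit 560) (B (L (nat_lit 559) ln12_16_0 ln12_16_0_ok) (L (nat_lit 561) ln13_16_0 ln13_16_0_ok))))) (M (nat_lit 523) (B (M (nat_lit 491) (B (L (nat_lit 490) ln14_16_3 ln14_16_3_ok) (L (nat_lit 492) ln15_16_3 ln15_16_3_ok))) (M (nat_lit 495) (B (L (nat_lit 494) ln11_16_2 ln11_16_2_ok) (L (nat_lit 496) ln12_16_2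 ln12_16_2_ok))))))))))))))) (B (M (nat_lit 493) (B (L (nat_lit 396) ln13_16_7 ln13_16_7_ok) (M (nat_lit 462) (B (M (nat_lit 430) (B (L (nat_lit 398) ln13_16_6 ln13_16_6_ok) (M (nat_lit 427) (B (L (nat_lit 426) ln10_13_0 ln10_13_0_ok) (L (nat_lit 463) ln11_13_0 ln11_13_0_ok))))) (B (M (nat_lit 463) (B (L (nat_lit 464) ln16_14_3 ln16_14_3_ok) (M (nat_lit 427) (B (L (nat_lit 426) ln10_13_0 ln10_13_0_ok) (L (nat_lit 460) ln15_14_3 ln15_14_3_ok))))) (B (M (nat_lit 463) (B (L (nat_lit 464) ln16_14_3 ln16_14_3_ok) (M (nat_lit 427) (B (L (nat_lit 430) ln11_13_0 ln11_13_0_ok) (L (nat_lit 460) ln15_14_3 ln15_14_3_ok))))) (M (nat_lit 494) (B (M (nat_lit 524) (B (L (nat_lit 556) ln13_13_5 ln13_13_5_ok) (M (nat_lit 495) (B (L (nat_lit 496) ln16_15_1 ln16_15_1_ok) (M (nat_lit 523) (B (L (nat_lit 492) ln15_15_1 ln15_15_1_ok) (L (nat_lit 522) ln10_16_2 ln10_16_2_ok))))))) (B (M (nat_lit 526) (B (L (nat_lit 558) ln14_17_7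 ln14_17_7_ok) (M (nat_lit 524) (B (L (nat_lit 556) ln13_13_5 ln13_13_5_ok) (M (nat_lit 495) (B (L (nat_lit 496) ln16_15_1 ln16_15_1_ok) (L (nat_lit 523) ln11_16_2 ln11_16_2_ok))))))) (M (nat_lit 526) (B (L (nat_lit 558) ln14_17_7 ln14_17_7_ok) (M (nat_lit 527) (B (M (nat_lit 430) (B (L (nat_lit 398) ln13_16_6 ln13_16_6_ok) (L (nat_lit 559) ln14_13_4 ln14_13_4_ok))) (M (nat_lit 528) (B (L (nat_lit 492) ln16_16_3 ln16_16_3_ok) (L (nat_lit 529) ln17_16_3 ln17_16_3_ok)))))))))))))))) c20_n3227))))))))) (nat_lit 109836762562089755445664675616118237970751432866300626787807987225437419021876372833233991089115539321427710881230832060719788174042694436113401695113939255296) (nat_lit 253266345703079361008719074567026094768006149031557359869760124899917152817940265290119195792330462494245454439308297736455977479781823838446245792949054599188675557558507798528) (nat_lit 253266345703079361008719074567026094768006149031557359869760124899917152817940265290119195792330462494245454439308297736455977479781823838446245792949054599188675557558507798528)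 (by decide +kernel)
theorem c20_s3596 : Sem (nat_lit 5954262830815946494440468064007740237496571878468728087513875999273036838532266441790969898967138332125836366047228135112217242456098340864) (nat_lit 186877567765246893947399986982710332865866729966494852447724151845013864962432147851602806906534955899857828435745144062430845191016459512667839404867184334787713774497629203334242593191867663253504) (nat_lit 186877567765246893947399986982710332865866729966494852447724151845013864962432147851602806906534955899857828435745144062430845191016459512667839404867184334787713774497629203334242593191867663253504) :=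
  sem_of_chk (M (nat_lit 525) (B (M (nat_lit 493) (B (M (nat_lit 428) (B (L (nat_lit 396) ln13_16_7 ln13_16_7_ok) (M (nat_lit 557) (B (L (nat_lit 460) ln13_17_7 ln13_17_7_ok) (M (nat_lit 430) (B (L (nat_lit 398) ln13_16_6 ln13_16_6_ok) (L (nat_lit 462) ln13_17_6 ln13_17_6_ok))))))) (B (M (nat_lit 557) (B (M (nat_lit 430) (B (L (nat_lit 398) ln13_16_6 ln13_16_6_ok) (L (nat_lit 462) ln13_17_6 ln13_17_6_ok))) (M (nat_lit 556) (B (L (nat_lit 524) ln13_13_5 ln13_13_5_ok) (L (nat_lit 588) ln13_14_5 ln13_14_5_ok))))) (B (M (nat_lit 557) (B (M (nat_lit 428) (B (L (nat_lit 396) ln13_16_7 ln13_16_7_ok) (L (nat_lit 460) ln13_17_7 ln13_17_7_ok))) (M (nat_lit 556) (B (L (nat_lit 524) ln13_13_5 ln13_13_5_ok) (L (nat_lit 588) ln13_14_5 ln13_14_5_ok))))) (M (nat_lit 524) (B (L (nat_lit 556) ln13_13_5 ln13_13_5_ok) (M (nat_lit 526) (B (L (nat_lit 558) ln13_13_4 ln13_13_4_ok) (M (nat_lit 523) (B (M (nat_lit 494) (B (L (nat_lit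 522) ln10_16_2 ln10_16_2_ok) (L (nat_lit 495) ln11_16_2 ln11_16_2_ok))) (B (M (nat_lit 522) (B (M (nat_lit 490) (B (L (nat_lit 489) ln13_16_3 ln13_16_3_ok) (L (nat_lit 491) ln14_16_3 ln14_16_3_ok))) (M (nat_lit 554) (B (L (nat_lit 553) ln13_16_1 ln13_16_1_ok) (L (nat_lit 555) ln14_16_1 ln14_16_1_ok))))) (M (nat_lit 527) (B (M (nat_lit 491) (B (L (nat_lit 490) ln14_16_3 ln14_16_3_ok) (L (nat_lit 492) ln15_16_3 ln15_16_3_ok))) (M (nat_lit 495) (B (L (nat_lit 494) ln11_16_2 ln11_16_2_ok) (L (nat_lit 496) ln12_16_2 ln12_16_2_ok)))))))))))))))) (B (M (nat_lit 493) (B (M (nat_lit 557) (B (M (nat_lit 430) (B (L (nat_lit 398) ln13_16_6 ln13_16_6_ok) (L (nat_lit 462) ln13_17_6 ln13_17_6_ok))) (M (nat_lit 556) (B (L (nat_lit 524) ln13_13_5 ln13_13_5_ok) (L (nat_lit 588) ln13_14_5 ln13_14_5_ok))))) (B (M (nat_lit 557) (B (M (nat_lit 556) (B (L (nat_lit 524) ln13_13_5 ln13_13_5_ok) (L (nat_lit 588) ln13_14_5 ln13_14_5_ok)))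 (M (nat_lit 558) (B (L (nat_lit 526) ln13_13_4 ln13_13_4_ok) (L (nat_lit 590) ln13_14_4 ln13_14_4_ok))))) (B (M (nat_lit 557) (B (M (nat_lit 430) (B (L (nat_lit 398) ln13_16_6 ln13_16_6_ok) (L (nat_lit 462) ln13_17_6 ln13_17_6_ok))) (M (nat_lit 558) (B (L (nat_lit 526) ln13_13_4 ln13_13_4_ok) (L (nat_lit 590) ln13_14_4 ln13_14_4_ok))))) (M (nat_lit 524) (B (L (nat_lit 556) ln13_13_5 ln13_13_5_ok) (M (nat_lit 526) (B (L (nat_lit 558) ln13_13_4 ln13_13_4_ok) (M (nat_lit 523) (B (M (nat_lit 494) (B (L (nat_lit 522) ln10_16_2 ln10_16_2_ok) (L (nat_lit 495) ln11_16_2 ln11_16_2_ok))) (B (M (nat_lit 522) (B (M (nat_lit 490) (B (L (nat_lit 489) ln13_16_3 ln13_16_3_ok) (L (nat_lit 491) ln14_16_3 ln14_16_3_ok))) (M (nat_lit 554) (B (L (nat_lit 553) ln13_16_1 ln13_16_1_ok) (L (nat_lit 555) ln14_16_1 ln14_16_1_ok))))) (M (nat_lit 527) (B (M (nat_lit 491) (B (L (nat_lit 490) ln14_16_3 ln14_16_3_ok) (L (nat_lit 492) ln15_16_3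 ln15_16_3_ok))) (M (nat_lit 495) (B (L (nat_lit 494) ln11_16_2 ln11_16_2_ok) (L (nat_lit 496) ln12_16_2 ln12_16_2_ok)))))))))))))))) (B (M (nat_lit 493) (B (M (nat_lit 557) (B (M (nat_lit 428) (B (L (nat_lit 396) ln13_16_7 ln13_16_7_ok) (L (nat_lit 460) ln13_17_7 ln13_17_7_ok))) (M (nat_lit 556) (B (L (nat_lit 524) ln13_13_5 ln13_13_5_ok) (L (nat_lit 588) ln13_14_5 ln13_14_5_ok))))) (B (M (nat_lit 557) (B (M (nat_lit 556) (B (L (nat_lit 524) ln13_13_5 ln13_13_5_ok) (L (nat_lit 588) ln13_14_5 ln13_14_5_ok))) (M (nat_lit 558) (B (L (nat_lit 526) ln13_13_4 ln13_13_4_ok) (L (nat_lit 590) ln13_14_4 ln13_14_4_ok))))) (B (M (nat_lit 557) (B (M (nat_lit 428) (B (L (nat_lit 396) ln13_16_7 ln13_16_7_ok) (L (nat_lit 460) ln13_17_7 ln13_17_7_ok))) (M (nat_lit 558) (B (L (nat_lit 526) ln13_13_4 ln13_13_4_ok) (L (nat_lit 590) ln13_14_4 ln13_14_4_ok))))) (M (nat_lit 524) (B (L (nat_lit 556) ln13_13_5 ln13_13_5_ok) (M (nat_lit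 526) (B (L (nat_lit 558) ln13_13_4 ln13_13_4_ok) (M (nat_lit 523) (B (M (nat_lit 494) (B (L (nat_lit 522) ln10_16_2 ln10_16_2_ok) (L (nat_lit 495) ln11_16_2 ln11_16_2_ok))) (B (M (nat_lit 522) (B (M (nat_lit 490) (B (L (nat_lit 489) ln13_16_3 ln13_16_3_ok) (L (nat_lit 491) ln14_16_3 ln14_16_3_ok))) (M (nat_lit 554) (B (L (nat_lit 553) ln13_16_1 ln13_16_1_ok) (L (nat_lit 555) ln14_16_1 ln14_16_1_ok))))) (M (nat_lit 527) (B (M (nat_lit 491) (B (L (nat_lit 490) ln14_16_3 ln14_16_3_ok) (L (nat_lit 492) ln15_16_3 ln15_16_3_ok))) (M (nat_lit 495) (B (L (nat_lit 494) ln11_16_2 ln11_16_2_ok) (L (nat_lit 496) ln12_16_2 ln12_16_2_ok)))))))))))))))) (B (M (nat_lit 493) (B (M (nat_lit 557) (B (M (nat_lit 428) (B (L (nat_lit 396) ln13_16_7 ln13_16_7_ok) (L (nat_lit 460) ln13_17_7 ln13_17_7_ok))) (M (nat_lit 556) (B (L (nat_lit 524) ln13_13_5 ln13_13_5_ok) (L (nat_lit 588) ln13_14_5 ln13_14_5_ok))))) (B (M (nat_lit 557)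 (B (M (nat_lit 556) (B (L (nat_lit 524) ln13_13_5 ln13_13_5_ok) (L (nat_lit 588) ln13_14_5 ln13_14_5_ok))) (M (nat_lit 558) (B (L (nat_lit 526) ln13_13_4 ln13_13_4_ok) (L (nat_lit 590) ln13_14_4 ln13_14_4_ok))))) (B (M (nat_lit 557) (B (M (nat_lit 428) (B (L (nat_lit 396) ln13_16_7 ln13_16_7_ok) (L (nat_lit 460) ln13_17_7 ln13_17_7_ok))) (M (nat_lit 558) (B (L (nat_lit 526) ln13_13_4 ln13_13_4_ok) (L (nat_lit 590) ln13_14_4 ln13_14_4_ok))))) (M (nat_lit 526) (B (L (nat_lit 558) ln13_13_4 ln13_13_4_ok) (M (nat_lit 524) (B (L (nat_lit 556) ln13_13_5 ln13_13_5_ok) (M (nat_lit 527) (B (M (nat_lit 492) (B (L (nat_lit 491) ln15_16_3 ln15_16_3_ok) (L (nat_lit 528) ln16_16_3 ln16_16_3_ok))) (B (M (nat_lit 496) (B (L (nat_lit 495) ln12_16_2 ln12_16_2_ok) (M (nat_lit 528) (B (L (nat_lit 492) ln16_16_3 ln16_16_3_ok) (L (nat_lit 497) ln13_16_2 ln13_16_2_ok))))) (B (M (nat_lit 528) (B (M (nat_lit 496) (B (L (nat_lit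 495) ln12_16_2 ln12_16_2_ok) (L (nat_lit 497) ln13_16_2 ln13_16_2_ok))) (M (nat_lit 560) (B (L (nat_lit 559) ln12_16_0 ln12_16_0_ok) (L (nat_lit 561) ln13_16_0 ln13_16_0_ok))))) (M (nat_lit 523) (B (M (nat_lit 491) (B (L (nat_lit 490) ln14_16_3 ln14_16_3_ok) (L (nat_lit 492) ln15_16_3 ln15_16_3_ok))) (M (nat_lit 495) (B (L (nat_lit 494) ln11_16_2 ln11_16_2_ok) (L (nat_lit 496) ln12_16_2 ln12_16_2_ok))))))))))))))))) (B (M (nat_lit 493) (B (M (nat_lit 557) (B (M (nat_lit 428) (B (L (nat_lit 396) ln13_16_7 ln13_16_7_ok) (L (nat_lit 460) ln13_17_7 ln13_17_7_ok))) (M (nat_lit 556) (B (L (nat_lit 524) ln13_13_5 ln13_13_5_ok) (L (nat_lit 588) ln13_14_5 ln13_14_5_ok))))) (B (M (nat_lit 557) (B (M (nat_lit 430) (B (L (nat_lit 398) ln13_16_6 ln13_16_6_ok) (L (nat_lit 462) ln13_17_6 ln13_17_6_ok))) (M (nat_lit 558) (B (L (nat_lit 526) ln13_13_4 ln13_13_4_ok) (L (nat_lit 590) ln13_14_4 ln13_14_4_ok))))) (M (nat_lit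 494) (B (M (nat_lit 526) (B (L (nat_lit 558) ln13_13_4 ln13_13_4_ok) (M (nat_lit 524) (B (L (nat_lit 556) ln13_13_5 ln13_13_5_ok) (M (nat_lit 495) (B (L (nat_lit 496) ln16_15_1 ln16_15_1_ok) (L (nat_lit 523) ln11_16_2 ln11_16_2_ok))))))) (B (M (nat_lit 462) (B (M (nat_lit 430) (B (L (nat_lit 398) ln13_16_6 ln13_16_6_ok) (M (nat_lit 428) (B (L (nat_lit 396) ln13_16_7 ln13_16_7_ok) (M (nat_lit 427) (B (L (nat_lit 426) ln10_13_0 ln10_13_0_ok) (L (nat_lit 463) ln11_13_0 ln11_13_0_ok))))))) (B (M (nat_lit 526) (B (L (nat_lit 558) ln14_17_7 ln14_17_7_ok) (M (nat_lit 527) (B (M (nat_lit 430) (B (L (nat_lit 398) ln13_16_6 ln13_16_6_ok) (L (nat_lit 559) ln14_13_4 ln14_13_4_ok))) (M (nat_lit 528) (B (L (nat_lit 492) ln16_16_3 ln16_16_3_ok) (L (nat_lit 529) ln17_16_3 ln17_16_3_ok))))))) (M (nat_lit 428) (B (L (nat_lit 396) ln13_16_7 ln13_16_7_ok) (M (nat_lit 463) (B (L (nat_lit 464) ln16_14_3 ln16_14_3_ok) (M (nat_lit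 427) (B (L (nat_lit 426) ln10_13_0 ln10_13_0_ok) (L (nat_lit 460) ln15_14_3 ln15_14_3_ok)))))))))) (M (nat_lit 524) (B (L (nat_lit 556) ln13_13_5 ln13_13_5_ok) (M (nat_lit 495) (B (L (nat_lit 496) ln16_15_1 ln16_15_1_ok) (M (nat_lit 523) (B (L (nat_lit 492) ln15_15_1 ln15_15_1_ok) (L (nat_lit 522) ln10_16_2 ln10_16_2_ok))))))))))))) (B (K (nat_lit 109836762562089755445664675616118237970751432866300626787807987225437419021876372833233991089115539321427710881230832060719788174042694436113401695113939255296) (nat_lit 7344723609634268930971056728472906697952053852266227169776577911274286572315900259996915541302219222195298439309111595464682671274493305755344410699726248632531108029558046064640) (nat_lit 7344723609634268930971056728472906697952053852266227169776577911274286572315900259996915541302219222195298439309111595464682671274493305755344410699726248632531108029558046064640) c20_s1080) (B (K (nat_lit 109836762562089755445664675616118237970751432866300626787807987225437419021876372833233991089115539321427710881230832060719788174042694436113401695113939255296)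 (nat_lit 186877567765246893947399986982710332865756893203907189328160252823869084626448080143484327129529105329991750877201487862097673210553142659796346646570251871349522344440128358672830899783338058317824) (nat_lit 186877567765246893947399986982710332865756893203907189328160252823869084626448080143484327129529105329991750877201487862097673210553142659796346646570251871349522344440128358672830899783338058317824) c20_s3026) (B (M (nat_lit 493) (B (M (nat_lit 557) (B (M (nat_lit 428) (B (L (nat_lit 396) ln13_16_7 ln13_16_7_ok) (L (nat_lit 460) ln13_17_7 ln13_17_7_ok))) (M (nat_lit 556) (B (L (nat_lit 524) ln13_13_5 ln13_13_5_ok) (L (nat_lit 588) ln13_14_5 ln13_14_5_ok))))) (B (M (nat_lit 557) (B (M (nat_lit 430) (B (L (nat_lit 398) ln13_16_6 ln13_16_6_ok) (L (nat_lit 462) ln13_17_6 ln13_17_6_ok))) (M (nat_lit 558) (B (L (nat_lit 526) ln13_13_4 ln13_13_4_ok) (L (nat_lit 590) ln13_14_4 ln13_14_4_ok))))) (M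 (nat_lit 428) (B (L (nat_lit 396) ln13_16_7 ln13_16_7_ok) (M (nat_lit 524) (B (L (nat_lit 556) ln13_13_5 ln13_13_5_ok) (M (nat_lit 427) (B (M (nat_lit 430) (B (L (nat_lit 398) ln13_16_6 ln13_16_6_ok) (M (nat_lit 462) (B (L (nat_lit 426) ln10_13_0 ln10_13_0_ok) (L (nat_lit 463) ln11_13_0 ln11_13_0_ok))))) (B (M (nat_lit 462) (B (L (nat_lit 426) ln10_13_0 ln10_13_0_ok) (M (nat_lit 463) (B (L (nat_lit 430) ln11_13_0 ln11_13_0_ok) (L (nat_lit 460) ln15_14_3 ln15_14_3_ok))))) (B (M (nat_lit 492) (B (M (nat_lit 430) (B (L (nat_lit 398) ln13_16_6 ln13_16_6_ok) (M (nat_lit 395) (B (L (nat_lit 394) ln14_13_3 ln14_13_3_ok) (L (nat_lit 460) ln12_16_7 ln12_16_7_ok))))) (M (nat_lit 526) (B (L (nat_lit 558) ln13_13_4 ln13_13_4_ok) (M (nat_lit 491) (B (L (nat_lit 490) ln10_15_0 ln10_15_0_ok) (L (nat_lit 527) ln15_16_3 ln15_16_3_ok))))))) (M (nat_lit 462) (B (L (nat_lit 426) ln10_13_0 ln10_13_0_ok) (M (nat_lit 463) (B (L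 (nat_lit 460) ln15_14_3 ln15_14_3_ok) (L (nat_lit 464) ln16_14_3 ln16_14_3_ok)))))))))))))))) (B (K (nat_lit 109836762562089755445664675616118237970751432866300626787807987225437419021876372833233991089115539321427710881230832060719788174042694436113401695113939255296) (nat_lit 4305527632204989014232122514888236826124585528677502350343933877067594306214027104932714817472235764099235275577379953180875445946158644205915668265078983774171344712803622584320) (nat_lit 4305527632204989014232122514888236826124585528677502350343933877067594306214027104932714817472235764099235275577379953180875445946158644205915668265078983774171344712803622584320) c20_s3146) (B (K (nat_lit 109836762562089755445664675616118237970751432866300626787807987225437419021876372833233991089115539321427710881230832060719788174042694436113401695113939255296) (nat_lit 1266331656308881332027755662137183044580981754200385406505282386943053745779299627596221556390454097818021002257145417498887254362569345038167184565871514928637020738694624051200)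 (nat_lit 1266331656308881332027755662137183044580981754200385406505282386943053745779299627596221556390454097818021002257145417498887254362569345038167184565871514928637020738694624051200) c20_s3228) (K (nat_lit 109836762562089755445664675616118237970751432866300626787807987225437419021876372833233991089115539321427710881230832060719788174042694436113401695113939255296) (nat_lit 253266345703079361008719074567026094768006149031557359869760124899917152817940265290119195792330462494245454439308297736455977479781823838446245792949054599188675557558507798528) (nat_lit 253266345703079361008719074567026094768006149031557359869760124899917152817940265290119195792330462494245454439308297736455977479781823838446245792949054599188675557558507798528) c20_s3595)))))))))))) (nat_lit 5954262830815946494440468064007740237496571878468728087513875999273036838532266441790969898967138332125836366047228135112217242456098340864)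 (nat_lit 186877567765246893947399986982710332865866729966494852447724151845013864962432147851602806906534955899857828435745144062430845191016459512667839404867184334787713774497629203334242593191867663253504) (nat_lit 186877567765246893947399986982710332865866729966494852447724151845013864962432147851602806906534955899857828435745144062430845191016459512667839404867184334787713774497629203334242593191867663253504) (by decide +kernel)
noncomputable def c20_n3599 : Cert := (M (nat_lit 462) (B (M (nat_lit 494) (B (L (nat_lit 365) ln13_11_4 ln13_11_4_ok) (M (nat_lit 526) (B (L (nat_lit 430) ln14_16_7 ln14_16_7_ok) (L (nat_lit 558) ln14_17_7 ln14_17_7_ok))))) (B (M (nat_lit 463) (B (M (nat_lit 428) (B (L (nat_lit 464) ln16_14_3 ln16_14_3_ok) (M (nat_lit 427) (B (L (nat_lit 430) ln11_13_0 ln11_13_0_ok) (L (nat_lit 460) ln15_14_3 ln15_14_3_ok))))) (B (M (nat_lit 464) (B (L (nat_lit 428) ln16_14_3 ln16_14_3_ok)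 (M (nat_lit 465) (B (L (nat_lit 430) ln17_14_3 ln17_14_3_ok) (M (nat_lit 433) (B (L (nat_lit 432) ln13_14_2 ln13_14_2_ok) (L (nat_lit 434) ln14_14_2 ln14_14_2_ok))))))) (B (M (nat_lit 460) (B (M (nat_lit 495) (B (L (nat_lit 496) ln12_14_0 ln12_14_0_ok) (M (nat_lit 459) (B (L (nat_lit 494) ln11_14_0 ln11_14_0_ok) (M (nat_lit 491) (B (L (nat_lit 490) ln14_14_1 ln14_14_1_ok) (L (nat_lit 492) ln15_14_1 ln15_14_1_ok))))))) (B (M (nat_lit 464) (B (M (nat_lit 496) (B (L (nat_lit 495) ln12_14_0 ln12_14_0_ok) (L (nat_lit 497) ln13_14_0 ln13_14_0_ok))) (M (nat_lit 433) (B (L (nat_lit 432) ln13_14_2 ln13_14_2_ok) (M (nat_lit 465) (B (L (nat_lit 430) ln17_14_3 ln17_14_3_ok) (L (nat_lit 434) ln14_14_2 ln14_14_2_ok))))))) (M (nat_lit 459) (B (M (nat_lit 491) (B (L (nat_lit 490) ln14_14_1 ln14_14_1_ok) (L (nat_lit 492) ln15_14_1 ln15_14_1_ok))) (M (nat_lit 458) (B (L (nat_lit 430) ln10_14_2 ln10_14_2_ok) (M (nat_lit 426)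 (B (L (nat_lit 425) ln13_14_3 ln13_14_3_ok) (L (nat_lit 427) ln14_14_3 ln14_14_3_ok)))))))))) (B (M (nat_lit 428) (B (L (nat_lit 464) ln16_14_3 ln16_14_3_ok) (M (nat_lit 427) (B (L (nat_lit 426) ln10_13_0 ln10_13_0_ok) (L (nat_lit 460) ln15_14_3 ln15_14_3_ok))))) (M (nat_lit 460) (B (M (nat_lit 492) (B (L (nat_lit 491) ln15_14_1 ln15_14_1_ok) (M (nat_lit 428) (B (L (nat_lit 524) ln12_16_6 ln12_16_6_ok) (L (nat_lit 427) ln15_14_3 ln15_14_3_ok))))) (B (M (nat_lit 495) (B (L (nat_lit 496) ln12_14_0 ln12_14_0_ok) (M (nat_lit 459) (B (L (nat_lit 494) ln11_14_0 ln11_14_0_ok) (M (nat_lit 491) (B (L (nat_lit 490) ln14_14_1 ln14_14_1_ok) (L (nat_lit 492) ln15_14_1 ln15_14_1_ok))))))) (M (nat_lit 459) (B (M (nat_lit 427) (B (L (nat_lit 426) ln14_14_3 ln14_14_3_ok) (L (nat_lit 428) ln15_14_3 ln15_14_3_ok))) (M (nat_lit 495) (B (L (nat_lit 494) ln11_14_0 ln11_14_0_ok) (L (nat_lit 496) ln12_14_0 ln12_14_0_ok)))))))))))))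 (B (M (nat_lit 365) (B (L (nat_lit 494) ln13_11_4 ln13_11_4_ok) (M (nat_lit 333) (B (M (nat_lit 334) (B (L (nat_lit 302) ln13_13_6 ln13_13_6_ok) (L (nat_lit 366) ln13_14_6 ln13_14_6_ok))) (M (nat_lit 460) (B (L (nat_lit 428) ln13_10_5 ln13_10_5_ok) (L (nat_lit 492) ln13_11_5 ln13_11_5_ok))))))) (M (nat_lit 460) (B (M (nat_lit 365) (B (L (nat_lit 492) ln13_11_5 ln13_11_5_ok) (M (nat_lit 333) (B (L (nat_lit 428) ln13_10_5 ln13_10_5_ok) (L (nat_lit 430) ln13_10_4 ln13_10_4_ok))))) (B (M (nat_lit 463) (B (M (nat_lit 428) (B (L (nat_lit 427) ln15_14_3 ln15_14_3_ok) (L (nat_lit 464) ln16_14_3 ln16_14_3_ok))) (M (nat_lit 492) (B (L (nat_lit 365) ln13_11_5 ln13_11_5_ok) (L (nat_lit 491) ln15_14_1 ln15_14_1_ok))))) (B (M (nat_lit 463) (B (M (nat_lit 428) (B (L (nat_lit 427) ln15_14_3 ln15_14_3_ok) (L (nat_lit 464) ln16_14_3 ln16_14_3_ok))) (B (M (nat_lit 464) (B (L (nat_lit 428) ln16_14_3 ln16_14_3_ok) (M (nat_lit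 496) (B (L (nat_lit 495) ln12_14_0 ln12_14_0_ok) (L (nat_lit 497) ln13_14_0 ln13_14_0_ok))))) (M (nat_lit 459) (B (M (nat_lit 491) (B (L (nat_lit 490) ln14_14_1 ln14_14_1_ok) (L (nat_lit 492) ln15_14_1 ln15_14_1_ok))) (M (nat_lit 458) (B (L (nat_lit 430) ln10_14_2 ln10_14_2_ok) (M (nat_lit 426) (B (L (nat_lit 425) ln13_14_3 ln13_14_3_ok) (L (nat_lit 427) ln14_14_3 ln14_14_3_ok)))))))))) (B (M (nat_lit 365) (B (L (nat_lit 492) ln13_11_5 ln13_11_5_ok) (M (nat_lit 333) (B (L (nat_lit 430) ln13_10_4 ln13_10_4_ok) (M (nat_lit 334) (B (L (nat_lit 302) ln13_13_6 ln13_13_6_ok) (L (nat_lit 366) ln13_14_6 ln13_14_6_ok))))))) (M (nat_lit 428) (B (M (nat_lit 427) (B (L (nat_lit 426) ln10_13_0 ln10_13_0_ok) (L (nat_lit 463) ln15_14_3 ln15_14_3_ok))) (M (nat_lit 459) (B (M (nat_lit 458) (B (L (nat_lit 457) ln9_14_2 ln9_14_2_ok) (L (nat_lit 430) ln10_14_2 ln10_14_2_ok))) (M (nat_lit 364) (B (M (nat_lit 365) (B (L (nat_lit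 332) ln13_14_7 ln13_14_7_ok) (L (nat_lit 333) ln13_10_5 ln13_10_5_ok))) (M (nat_lit 491) (B (L (nat_lit 396) ln12_11_5 ln12_11_5_ok) (L (nat_lit 490) ln14_14_1 ln14_14_1_ok))))))))))))))))))
theorem c20_s3601 : Sem (nat_lit 5954262830815946494440468064007740237496571878468728087513875999273036838532266441790969898967138332125836366047228135112217242456098340864) (nat_lit 1179363258189213925978865200245415676579214043101631204150408250936731777113393492458107300198265303745696941234550137938079110236251451015698884120196910291222385393664) (nat_lit 1179363258189213925978865200245415676579214043101631204150408250936731777113393492458107300198265303745696941234550137938079110236251451015698884120196910291222385393664) :=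
  sem_of_chk (M (nat_lit 397) (B (M (nat_lit 365) (B (M (nat_lit 333) (B (M (nat_lit 332) (B (L (nat_lit 300) ln13_13_7 ln13_13_7_ok) (L (nat_lit 364) ln13_14_7 ln13_14_7_ok))) (M (nat_lit 460) (B (L (nat_lit 428) ln13_10_5 ln13_10_5_ok) (L (nat_lit 492) ln13_11_5 ln13_11_5_ok))))) (B (M (nat_lit 333) (B (M (nat_lit 460) (B (L (nat_lit 428) ln13_10_5 ln13_10_5_ok) (L (nat_lit 492) ln13_11_5 ln13_11_5_ok))) (M (nat_lit 462) (B (L (nat_lit 430) ln13_10_4 ln13_10_4_ok) (L (nat_lit 494) ln13_11_4 ln13_11_4_ok))))) (B (M (nat_lit 493) (B (M (nat_lit 364) (B (L (nat_lit 332) ln13_14_7 ln13_14_7_ok) (L (nat_lit 396) ln13_15_7 ln13_15_7_ok))) (M (nat_lit 492) (B (L (nat_lit 460) ln13_11_5 ln13_11_5_ok) (L (nat_lit 524) ln13_12_5 ln13_12_5_ok))))) (M (nat_lit 333) (B (M (nat_lit 332) (B (L (nat_lit 300) ln13_13_7 ln13_13_7_ok) (L (nat_lit 364) ln13_14_7 ln13_14_7_ok))) (M (nat_lit 462) (B (L (nat_lit 430) ln13_10_4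 ln13_10_4_ok) (L (nat_lit 494) ln13_11_4 ln13_11_4_ok))))))))) (B (M (nat_lit 493) (B (M (nat_lit 365) (B (M (nat_lit 492) (B (L (nat_lit 460) ln13_11_5 ln13_11_5_ok) (L (nat_lit 524) ln13_12_5 ln13_12_5_ok))) (M (nat_lit 494) (B (L (nat_lit 462) ln13_11_4 ln13_11_4_ok) (L (nat_lit 526) ln13_12_4 ln13_12_4_ok))))) (B (M (nat_lit 525) (B (M (nat_lit 396) (B (L (nat_lit 364) ln13_15_7 ln13_15_7_ok) (L (nat_lit 428) ln13_16_7 ln13_16_7_ok))) (M (nat_lit 526) (B (L (nat_lit 494) ln13_12_4 ln13_12_4_ok) (L (nat_lit 558) ln13_13_4 ln13_13_4_ok))))) (M (nat_lit 365) (B (M (nat_lit 364) (B (L (nat_lit 332) ln13_14_7 ln13_14_7_ok) (L (nat_lit 396) ln13_15_7 ln13_15_7_ok))) (M (nat_lit 492) (B (L (nat_lit 460) ln13_11_5 ln13_11_5_ok) (L (nat_lit 524) ln13_12_5 ln13_12_5_ok)))))))) (B (M (nat_lit 493) (B (M (nat_lit 525) (B (M (nat_lit 396) (B (L (nat_lit 364) ln13_15_7 ln13_15_7_ok) (L (nat_lit 428) ln13_16_7 ln13_16_7_ok)))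 (M (nat_lit 524) (B (L (nat_lit 492) ln13_12_5 ln13_12_5_ok) (L (nat_lit 556) ln13_13_5 ln13_13_5_ok))))) (B (M (nat_lit 525) (B (M (nat_lit 524) (B (L (nat_lit 492) ln13_12_5 ln13_12_5_ok) (L (nat_lit 556) ln13_13_5 ln13_13_5_ok))) (M (nat_lit 526) (B (L (nat_lit 494) ln13_12_4 ln13_12_4_ok) (L (nat_lit 558) ln13_13_4 ln13_13_4_ok))))) (B (M (nat_lit 525) (B (M (nat_lit 396) (B (L (nat_lit 364) ln13_15_7 ln13_15_7_ok) (L (nat_lit 428) ln13_16_7 ln13_16_7_ok))) (M (nat_lit 526) (B (L (nat_lit 494) ln13_12_4 ln13_12_4_ok) (L (nat_lit 558) ln13_13_4 ln13_13_4_ok))))) (M (nat_lit 365) (B (M (nat_lit 492) (B (L (nat_lit 460) ln13_11_5 ln13_11_5_ok) (L (nat_lit 524) ln13_12_5 ln13_12_5_ok))) (M (nat_lit 494) (B (L (nat_lit 462) ln13_11_4 ln13_11_4_ok) (L (nat_lit 526) ln13_12_4 ln13_12_4_ok))))))))) (B (M (nat_lit 365) (B (M (nat_lit 333) (B (M (nat_lit 334) (B (L (nat_lit 302) ln13_13_6 ln13_13_6_ok) (L (nat_lit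 366) ln13_14_6 ln13_14_6_ok))) (M (nat_lit 462) (B (L (nat_lit 430) ln13_10_4 ln13_10_4_ok) (L (nat_lit 494) ln13_11_4 ln13_11_4_ok))))) (B (M (nat_lit 333) (B (M (nat_lit 460) (B (L (nat_lit 428) ln13_10_5 ln13_10_5_ok) (L (nat_lit 492) ln13_11_5 ln13_11_5_ok))) (M (nat_lit 462) (B (L (nat_lit 430) ln13_10_4 ln13_10_4_ok) (L (nat_lit 494) ln13_11_4 ln13_11_4_ok))))) (B (M (nat_lit 493) (B (M (nat_lit 492) (B (L (nat_lit 460) ln13_11_5 ln13_11_5_ok) (L (nat_lit 524) ln13_12_5 ln13_12_5_ok))) (M (nat_lit 494) (B (L (nat_lit 462) ln13_11_4 ln13_11_4_ok) (L (nat_lit 526) ln13_12_4 ln13_12_4_ok))))) (M (nat_lit 333) (B (M (nat_lit 334) (B (L (nat_lit 302) ln13_13_6 ln13_13_6_ok) (L (nat_lit 366) ln13_14_6 ln13_14_6_ok))) (M (nat_lit 460) (B (L (nat_lit 428) ln13_10_5 ln13_10_5_ok) (L (nat_lit 492) ln13_11_5 ln13_11_5_ok))))))))) (B (M (nat_lit 493) (B (M (nat_lit 525) (B (M (nat_lit 396) (B (L (nat_lit 364)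 ln13_15_7 ln13_15_7_ok) (L (nat_lit 428) ln13_16_7 ln13_16_7_ok))) (M (nat_lit 524) (B (L (nat_lit 492) ln13_12_5 ln13_12_5_ok) (L (nat_lit 556) ln13_13_5 ln13_13_5_ok))))) (B (M (nat_lit 525) (B (M (nat_lit 524) (B (L (nat_lit 492) ln13_12_5 ln13_12_5_ok) (L (nat_lit 556) ln13_13_5 ln13_13_5_ok))) (M (nat_lit 526) (B (L (nat_lit 494) ln13_12_4 ln13_12_4_ok) (L (nat_lit 558) ln13_13_4 ln13_13_4_ok))))) (B (M (nat_lit 525) (B (M (nat_lit 396) (B (L (nat_lit 364) ln13_15_7 ln13_15_7_ok) (L (nat_lit 428) ln13_16_7 ln13_16_7_ok))) (M (nat_lit 526) (B (L (nat_lit 494) ln13_12_4 ln13_12_4_ok) (L (nat_lit 558) ln13_13_4 ln13_13_4_ok))))) (M (nat_lit 492) (B (L (nat_lit 524) ln13_12_5 ln13_12_5_ok) (M (nat_lit 494) (B (L (nat_lit 526) ln13_12_4 ln13_12_4_ok) (M (nat_lit 491) (B (M (nat_lit 462) (B (L (nat_lit 490) ln10_15_2 ln10_15_2_ok) (L (nat_lit 463) ln11_15_2 ln11_15_2_ok))) (B (M (nat_lit 490) (B (M (nat_lit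 458) (B (L (nat_lit 457) ln13_15_3 ln13_15_3_ok) (L (nat_lit 459) ln14_15_3 ln14_15_3_ok))) (M (nat_lit 522) (B (L (nat_lit 521) ln13_15_1 ln13_15_1_ok) (L (nat_lit 523) ln14_15_1 ln14_15_1_ok))))) (M (nat_lit 495) (B (M (nat_lit 459) (B (L (nat_lit 458) ln14_15_3 ln14_15_3_ok) (L (nat_lit 460) ln15_15_3 ln15_15_3_ok))) (M (nat_lit 463) (B (L (nat_lit 462) ln11_15_2 ln11_15_2_ok) (L (nat_lit 464) ln12_15_2 ln12_15_2_ok)))))))))))))))) (B (M (nat_lit 493) (B (M (nat_lit 365) (B (M (nat_lit 364) (B (L (nat_lit 332) ln13_14_7 ln13_14_7_ok) (L (nat_lit 396) ln13_15_7 ln13_15_7_ok))) (M (nat_lit 494) (B (L (nat_lit 462) ln13_11_4 ln13_11_4_ok) (L (nat_lit 526) ln13_12_4 ln13_12_4_ok))))) (B (M (nat_lit 365) (B (M (nat_lit 492) (B (L (nat_lit 460) ln13_11_5 ln13_11_5_ok) (L (nat_lit 524) ln13_12_5 ln13_12_5_ok))) (M (nat_lit 494) (B (L (nat_lit 462) ln13_11_4 ln13_11_4_ok) (L (nat_lit 526) ln13_12_4 ln13_12_4_ok)))))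 (B (M (nat_lit 525) (B (M (nat_lit 524) (B (L (nat_lit 492) ln13_12_5 ln13_12_5_ok) (L (nat_lit 556) ln13_13_5 ln13_13_5_ok))) (M (nat_lit 526) (B (L (nat_lit 494) ln13_12_4 ln13_12_4_ok) (L (nat_lit 558) ln13_13_4 ln13_13_4_ok))))) (M (nat_lit 365) (B (M (nat_lit 364) (B (L (nat_lit 332) ln13_14_7 ln13_14_7_ok) (L (nat_lit 396) ln13_15_7 ln13_15_7_ok))) (M (nat_lit 492) (B (L (nat_lit 460) ln13_11_5 ln13_11_5_ok) (L (nat_lit 524) ln13_12_5 ln13_12_5_ok))))))))) (B (M (nat_lit 493) (B (M (nat_lit 525) (B (M (nat_lit 524) (B (L (nat_lit 492) ln13_12_5 ln13_12_5_ok) (L (nat_lit 556) ln13_13_5 ln13_13_5_ok))) (M (nat_lit 526) (B (L (nat_lit 494) ln13_12_4 ln13_12_4_ok) (L (nat_lit 558) ln13_13_4 ln13_13_4_ok))))) (B (M (nat_lit 525) (B (M (nat_lit 396) (B (L (nat_lit 364) ln13_15_7 ln13_15_7_ok) (L (nat_lit 428) ln13_16_7 ln13_16_7_ok))) (M (nat_lit 526) (B (L (nat_lit 494) ln13_12_4 ln13_12_4_ok) (L (nat_lit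 558) ln13_13_4 ln13_13_4_ok))))) (B (M (nat_lit 525) (B (M (nat_lit 396) (B (L (nat_lit 364) ln13_15_7 ln13_15_7_ok) (L (nat_lit 428) ln13_16_7 ln13_16_7_ok))) (M (nat_lit 524) (B (L (nat_lit 492) ln13_12_5 ln13_12_5_ok) (L (nat_lit 556) ln13_13_5 ln13_13_5_ok))))) (M (nat_lit 365) (B (M (nat_lit 364) (B (L (nat_lit 332) ln13_14_7 ln13_14_7_ok) (L (nat_lit 396) ln13_15_7 ln13_15_7_ok))) (M (nat_lit 494) (B (L (nat_lit 462) ln13_11_4 ln13_11_4_ok) (L (nat_lit 526) ln13_12_4 ln13_12_4_ok))))))))) (B (M (nat_lit 493) (B (M (nat_lit 525) (B (M (nat_lit 524) (B (L (nat_lit 492) ln13_12_5 ln13_12_5_ok) (L (nat_lit 556) ln13_13_5 ln13_13_5_ok))) (M (nat_lit 526) (B (L (nat_lit 494) ln13_12_4 ln13_12_4_ok) (L (nat_lit 558) ln13_13_4 ln13_13_4_ok))))) (B (M (nat_lit 525) (B (M (nat_lit 396) (B (L (nat_lit 364) ln13_15_7 ln13_15_7_ok) (L (nat_lit 428) ln13_16_7 ln13_16_7_ok))) (M (nat_lit 526) (B (L (nat_lit 494)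 ln13_12_4 ln13_12_4_ok) (L (nat_lit 558) ln13_13_4 ln13_13_4_ok))))) (B (M (nat_lit 525) (B (M (nat_lit 396) (B (L (nat_lit 364) ln13_15_7 ln13_15_7_ok) (L (nat_lit 428) ln13_16_7 ln13_16_7_ok))) (M (nat_lit 524) (B (L (nat_lit 492) ln13_12_5 ln13_12_5_ok) (L (nat_lit 556) ln13_13_5 ln13_13_5_ok))))) (M (nat_lit 365) (B (M (nat_lit 364) (B (L (nat_lit 332) ln13_14_7 ln13_14_7_ok) (L (nat_lit 396) ln13_15_7 ln13_15_7_ok))) (M (nat_lit 492) (B (L (nat_lit 460) ln13_11_5 ln13_11_5_ok) (L (nat_lit 524) ln13_12_5 ln13_12_5_ok))))))))) (B (M (nat_lit 365) (B (M (nat_lit 333) (B (M (nat_lit 334) (B (L (nat_lit 302) ln13_13_6 ln13_13_6_ok) (L (nat_lit 366) ln13_14_6 ln13_14_6_ok))) (M (nat_lit 462) (B (L (nat_lit 430) ln13_10_4 ln13_10_4_ok) (L (nat_lit 494) ln13_11_4 ln13_11_4_ok))))) (B (M (nat_lit 333) (B (M (nat_lit 332) (B (L (nat_lit 300) ln13_13_7 ln13_13_7_ok) (L (nat_lit 364) ln13_14_7 ln13_14_7_ok))) (M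 (nat_lit 462) (B (L (nat_lit 430) ln13_10_4 ln13_10_4_ok) (L (nat_lit 494) ln13_11_4 ln13_11_4_ok))))) (B (M (nat_lit 493) (B (M (nat_lit 364) (B (L (nat_lit 332) ln13_14_7 ln13_14_7_ok) (L (nat_lit 396) ln13_15_7 ln13_15_7_ok))) (M (nat_lit 494) (B (L (nat_lit 462) ln13_11_4 ln13_11_4_ok) (L (nat_lit 526) ln13_12_4 ln13_12_4_ok))))) (M (nat_lit 333) (B (M (nat_lit 332) (B (L (nat_lit 300) ln13_13_7 ln13_13_7_ok) (L (nat_lit 364) ln13_14_7 ln13_14_7_ok))) (M (nat_lit 334) (B (L (nat_lit 302) ln13_13_6 ln13_13_6_ok) (L (nat_lit 366) ln13_14_6 ln13_14_6_ok))))))))) (B c20_n3599 (M (nat_lit 365) (B (M (nat_lit 333) (B (M (nat_lit 334) (B (L (nat_lit 302) ln13_13_6 ln13_13_6_ok) (L (nat_lit 366) ln13_14_6 ln13_14_6_ok))) (M (nat_lit 460) (B (L (nat_lit 428) ln13_10_5 ln13_10_5_ok) (L (nat_lit 492) ln13_11_5 ln13_11_5_ok))))) (B (M (nat_lit 333) (B (M (nat_lit 332) (B (L (nat_lit 300) ln13_13_7 ln13_13_7_ok)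 (L (nat_lit 364) ln13_14_7 ln13_14_7_ok))) (M (nat_lit 460) (B (L (nat_lit 428) ln13_10_5 ln13_10_5_ok) (L (nat_lit 492) ln13_11_5 ln13_11_5_ok))))) (B (M (nat_lit 493) (B (M (nat_lit 364) (B (L (nat_lit 332) ln13_14_7 ln13_14_7_ok) (L (nat_lit 396) ln13_15_7 ln13_15_7_ok))) (M (nat_lit 492) (B (L (nat_lit 460) ln13_11_5 ln13_11_5_ok) (L (nat_lit 524) ln13_12_5 ln13_12_5_ok))))) (M (nat_lit 333) (B (M (nat_lit 332) (B (L (nat_lit 300) ln13_13_7 ln13_13_7_ok) (L (nat_lit 364) ln13_14_7 ln13_14_7_ok))) (M (nat_lit 334) (B (L (nat_lit 302) ln13_13_6 ln13_13_6_ok) (L (nat_lit 366) ln13_14_6 ln13_14_6_ok)))))))))))))))))))) (nat_lit 5954262830815946494440468064007740237496571878468728087513875999273036838532266441790969898967138332125836366047228135112217242456098340864) (nat_lit 1179363258189213925978865200245415676579214043101631204150408250936731777113393492458107300198265303745696941234550137938079110236251451015698884120196910291222385393664)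 (nat_lit 1179363258189213925978865200245415676579214043101631204150408250936731777113393492458107300198265303745696941234550137938079110236251451015698884120196910291222385393664) (by decide +kernel)
theorem c20_s3605 : Sem (nat_lit 5954262830815946494440468064007740237496571878468728087513875999273036838532266441790969898967138332125836366047228135112217242456098340864) (nat_lit 1179363258189213925365104461169620870601932748238533599005857121979023893135227593470501653725623477912799487393055287602114685077448116971613886424856325273765017550848) (nat_lit 1179363258189213925365104461169620870601932748238533599005857121979023893135227593470501653725623477912799487393055287602114685077448116971613886424856325273765017550848) :=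
  sem_of_chk (M (nat_lit 397) (B (M (nat_lit 493) (B (M (nat_lit 365) (B (M (nat_lit 364) (B (L (nat_lit 332) ln13_14_7 ln13_14_7_ok) (L (nat_lit 396) ln13_15_7 ln13_15_7_ok))) (M (nat_lit 492) (B (L (nat_lit 460) ln13_11_5 ln13_11_5_ok) (L (nat_lit 524) ln13_12_5 ln13_12_5_ok))))) (B (M (nat_lit 365) (B (M (nat_lit 366) (B (L (nat_lit 334) ln13_14_6 ln13_14_6_ok) (L (nat_lit 398) ln13_15_6 ln13_15_6_ok))) (M (nat_lit 492) (B (L (nat_lit 460) ln13_11_5 ln13_11_5_ok) (L (nat_lit 524) ln13_12_5 ln13_12_5_ok))))) (B (M (nat_lit 525) (B (M (nat_lit 398) (B (L (nat_lit 366) ln13_15_6 ln13_15_6_ok) (L (nat_lit 430) ln13_16_6 ln13_16_6_ok))) (M (nat_lit 524) (B (L (nat_lit 492) ln13_12_5 ln13_12_5_ok) (L (nat_lit 556) ln13_13_5 ln13_13_5_ok))))) (M (nat_lit 365) (B (M (nat_lit 364) (B (L (nat_lit 332) ln13_14_7 ln13_14_7_ok) (L (nat_lit 396) ln13_15_7 ln13_15_7_ok))) (M (nat_lit 366) (B (L (nat_lit 334) ln13_14_6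 ln13_14_6_ok) (L (nat_lit 398) ln13_15_6 ln13_15_6_ok))))))))) (B (M (nat_lit 493) (B (M (nat_lit 525) (B (M (nat_lit 524) (B (L (nat_lit 492) ln13_12_5 ln13_12_5_ok) (L (nat_lit 556) ln13_13_5 ln13_13_5_ok))) (M (nat_lit 526) (B (L (nat_lit 494) ln13_12_4 ln13_12_4_ok) (L (nat_lit 558) ln13_13_4 ln13_13_4_ok))))) (B (M (nat_lit 525) (B (M (nat_lit 398) (B (L (nat_lit 366) ln13_15_6 ln13_15_6_ok) (L (nat_lit 430) ln13_16_6 ln13_16_6_ok))) (M (nat_lit 526) (B (L (nat_lit 494) ln13_12_4 ln13_12_4_ok) (L (nat_lit 558) ln13_13_4 ln13_13_4_ok))))) (B (M (nat_lit 525) (B (M (nat_lit 398) (B (L (nat_lit 366) ln13_15_6 ln13_15_6_ok) (L (nat_lit 430) ln13_16_6 ln13_16_6_ok))) (M (nat_lit 524) (B (L (nat_lit 492) ln13_12_5 ln13_12_5_ok) (L (nat_lit 556) ln13_13_5 ln13_13_5_ok))))) (M (nat_lit 365) (B (M (nat_lit 366) (B (L (nat_lit 334) ln13_14_6 ln13_14_6_ok) (L (nat_lit 398) ln13_15_6 ln13_15_6_ok))) (M (nat_lit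 492) (B (L (nat_lit 460) ln13_11_5 ln13_11_5_ok) (L (nat_lit 524) ln13_12_5 ln13_12_5_ok))))))))) (B (M (nat_lit 493) (B (M (nat_lit 365) (B (M (nat_lit 364) (B (L (nat_lit 332) ln13_14_7 ln13_14_7_ok) (L (nat_lit 396) ln13_15_7 ln13_15_7_ok))) (M (nat_lit 494) (B (L (nat_lit 462) ln13_11_4 ln13_11_4_ok) (L (nat_lit 526) ln13_12_4 ln13_12_4_ok))))) (B (M (nat_lit 365) (B (M (nat_lit 492) (B (L (nat_lit 460) ln13_11_5 ln13_11_5_ok) (L (nat_lit 524) ln13_12_5 ln13_12_5_ok))) (M (nat_lit 494) (B (L (nat_lit 462) ln13_11_4 ln13_11_4_ok) (L (nat_lit 526) ln13_12_4 ln13_12_4_ok))))) (B (M (nat_lit 525) (B (M (nat_lit 524) (B (L (nat_lit 492) ln13_12_5 ln13_12_5_ok) (L (nat_lit 556) ln13_13_5 ln13_13_5_ok))) (M (nat_lit 526) (B (L (nat_lit 494) ln13_12_4 ln13_12_4_ok) (L (nat_lit 558) ln13_13_4 ln13_13_4_ok))))) (M (nat_lit 365) (B (M (nat_lit 364) (B (L (nat_lit 332) ln13_14_7 ln13_14_7_ok) (L (nat_lit 396) ln13_15_7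 ln13_15_7_ok))) (M (nat_lit 492) (B (L (nat_lit 460) ln13_11_5 ln13_11_5_ok) (L (nat_lit 524) ln13_12_5 ln13_12_5_ok))))))))) (B (M (nat_lit 493) (B (M (nat_lit 525) (B (M (nat_lit 398) (B (L (nat_lit 366) ln13_15_6 ln13_15_6_ok) (L (nat_lit 430) ln13_16_6 ln13_16_6_ok))) (M (nat_lit 524) (B (L (nat_lit 492) ln13_12_5 ln13_12_5_ok) (L (nat_lit 556) ln13_13_5 ln13_13_5_ok))))) (B (M (nat_lit 525) (B (M (nat_lit 524) (B (L (nat_lit 492) ln13_12_5 ln13_12_5_ok) (L (nat_lit 556) ln13_13_5 ln13_13_5_ok))) (M (nat_lit 526) (B (L (nat_lit 494) ln13_12_4 ln13_12_4_ok) (L (nat_lit 558) ln13_13_4 ln13_13_4_ok))))) (B (M (nat_lit 525) (B (M (nat_lit 398) (B (L (nat_lit 366) ln13_15_6 ln13_15_6_ok) (L (nat_lit 430) ln13_16_6 ln13_16_6_ok))) (M (nat_lit 526) (B (L (nat_lit 494) ln13_12_4 ln13_12_4_ok) (L (nat_lit 558) ln13_13_4 ln13_13_4_ok))))) (M (nat_lit 492) (B (L (nat_lit 524) ln13_12_5 ln13_12_5_ok) (M (nat_lit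 494) (B (L (nat_lit 526) ln13_12_4 ln13_12_4_ok) (M (nat_lit 491) (B (M (nat_lit 462) (B (L (nat_lit 490) ln10_15_2 ln10_15_2_ok) (L (nat_lit 463) ln11_15_2 ln11_15_2_ok))) (B (M (nat_lit 490) (B (M (nat_lit 458) (B (L (nat_lit 457) ln13_15_3 ln13_15_3_ok) (L (nat_lit 459) ln14_15_3 ln14_15_3_ok))) (M (nat_lit 522) (B (L (nat_lit 521) ln13_15_1 ln13_15_1_ok) (L (nat_lit 523) ln14_15_1 ln14_15_1_ok))))) (M (nat_lit 495) (B (M (nat_lit 459) (B (L (nat_lit 458) ln14_15_3 ln14_15_3_ok) (L (nat_lit 460) ln15_15_3 ln15_15_3_ok))) (M (nat_lit 463) (B (L (nat_lit 462) ln11_15_2 ln11_15_2_ok) (L (nat_lit 464) ln12_15_2 ln12_15_2_ok)))))))))))))))) (B (M (nat_lit 493) (B (M (nat_lit 365) (B (M (nat_lit 364) (B (L (nat_lit 332) ln13_14_7 ln13_14_7_ok) (L (nat_lit 396) ln13_15_7 ln13_15_7_ok))) (M (nat_lit 494) (B (L (nat_lit 462) ln13_11_4 ln13_11_4_ok) (L (nat_lit 526) ln13_12_4 ln13_12_4_ok))))) (B (M (nat_lit 365)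 (B (M (nat_lit 366) (B (L (nat_lit 334) ln13_14_6 ln13_14_6_ok) (L (nat_lit 398) ln13_15_6 ln13_15_6_ok))) (M (nat_lit 494) (B (L (nat_lit 462) ln13_11_4 ln13_11_4_ok) (L (nat_lit 526) ln13_12_4 ln13_12_4_ok))))) (B (M (nat_lit 525) (B (M (nat_lit 398) (B (L (nat_lit 366) ln13_15_6 ln13_15_6_ok) (L (nat_lit 430) ln13_16_6 ln13_16_6_ok))) (M (nat_lit 526) (B (L (nat_lit 494) ln13_12_4 ln13_12_4_ok) (L (nat_lit 558) ln13_13_4 ln13_13_4_ok))))) (M (nat_lit 365) (B (M (nat_lit 364) (B (L (nat_lit 332) ln13_14_7 ln13_14_7_ok) (L (nat_lit 396) ln13_15_7 ln13_15_7_ok))) (M (nat_lit 366) (B (L (nat_lit 334) ln13_14_6 ln13_14_6_ok) (L (nat_lit 398) ln13_15_6 ln13_15_6_ok))))))))) (M (nat_lit 365) (B (M (nat_lit 333) (B (M (nat_lit 332) (B (L (nat_lit 300) ln13_13_7 ln13_13_7_ok) (L (nat_lit 364) ln13_14_7 ln13_14_7_ok))) (M (nat_lit 334) (B (L (nat_lit 302) ln13_13_6 ln13_13_6_ok) (L (nat_lit 366) ln13_14_6 ln13_14_6_ok)))))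 (B (M (nat_lit 333) (B (M (nat_lit 334) (B (L (nat_lit 302) ln13_13_6 ln13_13_6_ok) (L (nat_lit 366) ln13_14_6 ln13_14_6_ok))) (M (nat_lit 462) (B (L (nat_lit 430) ln13_10_4 ln13_10_4_ok) (L (nat_lit 494) ln13_11_4 ln13_11_4_ok))))) (B (M (nat_lit 333) (B (M (nat_lit 332) (B (L (nat_lit 300) ln13_13_7 ln13_13_7_ok) (L (nat_lit 364) ln13_14_7 ln13_14_7_ok))) (M (nat_lit 462) (B (L (nat_lit 430) ln13_10_4 ln13_10_4_ok) (L (nat_lit 494) ln13_11_4 ln13_11_4_ok))))) (M (nat_lit 364) (B (L (nat_lit 332) ln13_14_7 ln13_14_7_ok) (M (nat_lit 366) (B (L (nat_lit 334) ln13_14_6 ln13_14_6_ok) (M (nat_lit 363) (B (M (nat_lit 398) (B (L (nat_lit 362) ln10_11_0 ln10_11_0_ok) (L (nat_lit 399) ln11_11_0 ln11_11_0_ok))) (B (M (nat_lit 367) (B (M (nat_lit 395) (B (L (nat_lit 394) ln14_11_1 ln14_11_1_ok) (L (nat_lit 396) ln15_11_1 ln15_11_1_ok))) (M (nat_lit 399) (B (L (nat_lit 398) ln11_11_0 ln11_11_0_ok) (L (nat_lit 400)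 ln12_11_0 ln12_11_0_ok))))) (M (nat_lit 362) (B (M (nat_lit 330) (B (L (nat_lit 329) ln13_11_3 ln13_11_3_ok) (L (nat_lit 331) ln14_11_3 ln14_11_3_ok))) (M (nat_lit 394) (B (L (nat_lit 393) ln13_11_1 ln13_11_1_ok) (L (nat_lit 395) ln14_11_1 ln14_11_1_ok)))))))))))))))))))))) (nat_lit 5954262830815946494440468064007740237496571878468728087513875999273036838532266441790969898967138332125836366047228135112217242456098340864) (nat_lit 1179363258189213925365104461169620870601932748238533599005857121979023893135227593470501653725623477912799487393055287602114685077448116971613886424856325273765017550848) (nat_lit 1179363258189213925365104461169620870601932748238533599005857121979023893135227593470501653725623477912799487393055287602114685077448116971613886424856325273765017550848) (by decide +kernel)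
theorem c20_s3610 : Sem (nat_lit 5954262830815946494440468064007740237496571878468728087513875999273036838532266441790969898967138332125836366047228135112217242456098340864) (nat_lit 1179363258189213925365104461169620870599853245967942987861173311340916580357650265663969791294245618227338521412201068384834704272870012288040843016635272594893286932480) (nat_lit 1179363258189213925365104461169620870599853245967942987861173311340916580357650265663969791294245618227338521412201068384834704272870012288040843016635272594893286932480) :=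
  sem_of_chk (M (nat_lit 397) (B (M (nat_lit 493) (B (M (nat_lit 365) (B (M (nat_lit 366) (B (L (nat_lit 334) ln13_14_6 ln13_14_6_ok) (L (nat_lit 398) ln13_15_6 ln13_15_6_ok))) (M (nat_lit 492) (B (L (nat_lit 460) ln13_11_5 ln13_11_5_ok) (L (nat_lit 524) ln13_12_5 ln13_12_5_ok))))) (B (M (nat_lit 365) (B (M (nat_lit 364) (B (L (nat_lit 332) ln13_14_7 ln13_14_7_ok) (L (nat_lit 396) ln13_15_7 ln13_15_7_ok))) (M (nat_lit 492) (B (L (nat_lit 460) ln13_11_5 ln13_11_5_ok) (L (nat_lit 524) ln13_12_5 ln13_12_5_ok))))) (B (M (nat_lit 525) (B (M (nat_lit 396) (B (L (nat_lit 364) ln13_15_7 ln13_15_7_ok) (L (nat_lit 428) ln13_16_7 ln13_16_7_ok))) (M (nat_lit 524) (B (L (nat_lit 492) ln13_12_5 ln13_12_5_ok) (L (nat_lit 556) ln13_13_5 ln13_13_5_ok))))) (M (nat_lit 365) (B (M (nat_lit 364) (B (L (nat_lit 332) ln13_14_7 ln13_14_7_ok) (L (nat_lit 396) ln13_15_7 ln13_15_7_ok))) (M (nat_lit 366) (B (L (nat_lit 334) ln13_14_6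 ln13_14_6_ok) (L (nat_lit 398) ln13_15_6 ln13_15_6_ok))))))))) (B (M (nat_lit 493) (B (M (nat_lit 525) (B (M (nat_lit 396) (B (L (nat_lit 364) ln13_15_7 ln13_15_7_ok) (L (nat_lit 428) ln13_16_7 ln13_16_7_ok))) (M (nat_lit 526) (B (L (nat_lit 494) ln13_12_4 ln13_12_4_ok) (L (nat_lit 558) ln13_13_4 ln13_13_4_ok))))) (M (nat_lit 365) (B (M (nat_lit 366) (B (L (nat_lit 334) ln13_14_6 ln13_14_6_ok) (L (nat_lit 398) ln13_15_6 ln13_15_6_ok))) (M (nat_lit 492) (B (L (nat_lit 460) ln13_11_5 ln13_11_5_ok) (L (nat_lit 524) ln13_12_5 ln13_12_5_ok))))))) (B (M (nat_lit 493) (B (M (nat_lit 365) (B (M (nat_lit 492) (B (L (nat_lit 460) ln13_11_5 ln13_11_5_ok) (L (nat_lit 524) ln13_12_5 ln13_12_5_ok))) (M (nat_lit 494) (B (L (nat_lit 462) ln13_11_4 ln13_11_4_ok) (L (nat_lit 526) ln13_12_4 ln13_12_4_ok))))) (B (M (nat_lit 525) (B (M (nat_lit 396) (B (L (nat_lit 364) ln13_15_7 ln13_15_7_ok) (L (nat_lit 428) ln13_16_7 ln13_16_7_ok)))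 (M (nat_lit 526) (B (L (nat_lit 494) ln13_12_4 ln13_12_4_ok) (L (nat_lit 558) ln13_13_4 ln13_13_4_ok))))) (M (nat_lit 365) (B (M (nat_lit 364) (B (L (nat_lit 332) ln13_14_7 ln13_14_7_ok) (L (nat_lit 396) ln13_15_7 ln13_15_7_ok))) (M (nat_lit 492) (B (L (nat_lit 460) ln13_11_5 ln13_11_5_ok) (L (nat_lit 524) ln13_12_5 ln13_12_5_ok)))))))) (B (M (nat_lit 493) (B (M (nat_lit 365) (B (M (nat_lit 366) (B (L (nat_lit 334) ln13_14_6 ln13_14_6_ok) (L (nat_lit 398) ln13_15_6 ln13_15_6_ok))) (M (nat_lit 492) (B (L (nat_lit 460) ln13_11_5 ln13_11_5_ok) (L (nat_lit 524) ln13_12_5 ln13_12_5_ok))))) (B (M (nat_lit 365) (B (M (nat_lit 492) (B (L (nat_lit 460) ln13_11_5 ln13_11_5_ok) (L (nat_lit 524) ln13_12_5 ln13_12_5_ok))) (M (nat_lit 494) (B (L (nat_lit 462) ln13_11_4 ln13_11_4_ok) (L (nat_lit 526) ln13_12_4 ln13_12_4_ok))))) (B (M (nat_lit 525) (B (M (nat_lit 524) (B (L (nat_lit 492) ln13_12_5 ln13_12_5_ok) (L (nat_lit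 556) ln13_13_5 ln13_13_5_ok))) (M (nat_lit 526) (B (L (nat_lit 494) ln13_12_4 ln13_12_4_ok) (L (nat_lit 558) ln13_13_4 ln13_13_4_ok))))) (M (nat_lit 365) (B (M (nat_lit 366) (B (L (nat_lit 334) ln13_14_6 ln13_14_6_ok) (L (nat_lit 398) ln13_15_6 ln13_15_6_ok))) (M (nat_lit 494) (B (L (nat_lit 462) ln13_11_4 ln13_11_4_ok) (L (nat_lit 526) ln13_12_4 ln13_12_4_ok))))))))) (B (M (nat_lit 493) (B (M (nat_lit 525) (B (M (nat_lit 396) (B (L (nat_lit 364) ln13_15_7 ln13_15_7_ok) (L (nat_lit 428) ln13_16_7 ln13_16_7_ok))) (M (nat_lit 524) (B (L (nat_lit 492) ln13_12_5 ln13_12_5_ok) (L (nat_lit 556) ln13_13_5 ln13_13_5_ok))))) (B (M (nat_lit 525) (B (M (nat_lit 524) (B (L (nat_lit 492) ln13_12_5 ln13_12_5_ok) (L (nat_lit 556) ln13_13_5 ln13_13_5_ok))) (M (nat_lit 526) (B (L (nat_lit 494) ln13_12_4 ln13_12_4_ok) (L (nat_lit 558) ln13_13_4 ln13_13_4_ok))))) (B (M (nat_lit 525) (B (M (nat_lit 396) (B (L (nat_lit 364)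 ln13_15_7 ln13_15_7_ok) (L (nat_lit 428) ln13_16_7 ln13_16_7_ok))) (M (nat_lit 526) (B (L (nat_lit 494) ln13_12_4 ln13_12_4_ok) (L (nat_lit 558) ln13_13_4 ln13_13_4_ok))))) (M (nat_lit 492) (B (L (nat_lit 524) ln13_12_5 ln13_12_5_ok) (M (nat_lit 494) (B (L (nat_lit 526) ln13_12_4 ln13_12_4_ok) (M (nat_lit 491) (B (M (nat_lit 462) (B (L (nat_lit 490) ln10_15_2 ln10_15_2_ok) (L (nat_lit 463) ln11_15_2 ln11_15_2_ok))) (B (M (nat_lit 490) (B (M (nat_lit 458) (B (L (nat_lit 457) ln13_15_3 ln13_15_3_ok) (L (nat_lit 459) ln14_15_3 ln14_15_3_ok))) (M (nat_lit 522) (B (L (nat_lit 521) ln13_15_1 ln13_15_1_ok) (L (nat_lit 523) ln14_15_1 ln14_15_1_ok))))) (M (nat_lit 495) (B (M (nat_lit 459) (B (L (nat_lit 458) ln14_15_3 ln14_15_3_ok) (L (nat_lit 460) ln15_15_3 ln15_15_3_ok))) (M (nat_lit 463) (B (L (nat_lit 462) ln11_15_2 ln11_15_2_ok) (L (nat_lit 464) ln12_15_2 ln12_15_2_ok)))))))))))))))) (B (M (nat_lit 493) (B (M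 (nat_lit 525) (B (M (nat_lit 524) (B (L (nat_lit 492) ln13_12_5 ln13_12_5_ok) (L (nat_lit 556) ln13_13_5 ln13_13_5_ok))) (M (nat_lit 526) (B (L (nat_lit 494) ln13_12_4 ln13_12_4_ok) (L (nat_lit 558) ln13_13_4 ln13_13_4_ok))))) (B (M (nat_lit 525) (B (M (nat_lit 396) (B (L (nat_lit 364) ln13_15_7 ln13_15_7_ok) (L (nat_lit 428) ln13_16_7 ln13_16_7_ok))) (M (nat_lit 526) (B (L (nat_lit 494) ln13_12_4 ln13_12_4_ok) (L (nat_lit 558) ln13_13_4 ln13_13_4_ok))))) (B (M (nat_lit 525) (B (M (nat_lit 396) (B (L (nat_lit 364) ln13_15_7 ln13_15_7_ok) (L (nat_lit 428) ln13_16_7 ln13_16_7_ok))) (M (nat_lit 524) (B (L (nat_lit 492) ln13_12_5 ln13_12_5_ok) (L (nat_lit 556) ln13_13_5 ln13_13_5_ok))))) (M (nat_lit 365) (B (M (nat_lit 364) (B (L (nat_lit 332) ln13_14_7 ln13_14_7_ok) (L (nat_lit 396) ln13_15_7 ln13_15_7_ok))) (M (nat_lit 366) (B (L (nat_lit 334) ln13_14_6 ln13_14_6_ok) (L (nat_lit 398) ln13_15_6 ln13_15_6_ok)))))))))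 (B (M (nat_lit 493) (B (M (nat_lit 365) (B (M (nat_lit 366) (B (L (nat_lit 334) ln13_14_6 ln13_14_6_ok) (L (nat_lit 398) ln13_15_6 ln13_15_6_ok))) (M (nat_lit 494) (B (L (nat_lit 462) ln13_11_4 ln13_11_4_ok) (L (nat_lit 526) ln13_12_4 ln13_12_4_ok))))) (B (M (nat_lit 365) (B (M (nat_lit 364) (B (L (nat_lit 332) ln13_14_7 ln13_14_7_ok) (L (nat_lit 396) ln13_15_7 ln13_15_7_ok))) (M (nat_lit 494) (B (L (nat_lit 462) ln13_11_4 ln13_11_4_ok) (L (nat_lit 526) ln13_12_4 ln13_12_4_ok))))) (B (M (nat_lit 525) (B (M (nat_lit 396) (B (L (nat_lit 364) ln13_15_7 ln13_15_7_ok) (L (nat_lit 428) ln13_16_7 ln13_16_7_ok))) (M (nat_lit 526) (B (L (nat_lit 494) ln13_12_4 ln13_12_4_ok) (L (nat_lit 558) ln13_13_4 ln13_13_4_ok))))) (M (nat_lit 365) (B (M (nat_lit 364) (B (L (nat_lit 332) ln13_14_7 ln13_14_7_ok) (L (nat_lit 396) ln13_15_7 ln13_15_7_ok))) (M (nat_lit 366) (B (L (nat_lit 334) ln13_14_6 ln13_14_6_ok) (L (nat_lit 398)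 ln13_15_6 ln13_15_6_ok))))))))) (M (nat_lit 365) (B (M (nat_lit 333) (B (M (nat_lit 334) (B (L (nat_lit 302) ln13_13_6 ln13_13_6_ok) (L (nat_lit 366) ln13_14_6 ln13_14_6_ok))) (M (nat_lit 460) (B (L (nat_lit 428) ln13_10_5 ln13_10_5_ok) (L (nat_lit 492) ln13_11_5 ln13_11_5_ok))))) (B (M (nat_lit 333) (B (M (nat_lit 332) (B (L (nat_lit 300) ln13_13_7 ln13_13_7_ok) (L (nat_lit 364) ln13_14_7 ln13_14_7_ok))) (M (nat_lit 460) (B (L (nat_lit 428) ln13_10_5 ln13_10_5_ok) (L (nat_lit 492) ln13_11_5 ln13_11_5_ok))))) (M (nat_lit 364) (B (L (nat_lit 332) ln13_14_7 ln13_14_7_ok) (M (nat_lit 366) (B (L (nat_lit 334) ln13_14_6 ln13_14_6_ok) (M (nat_lit 363) (B (M (nat_lit 398) (B (L (nat_lit 362) ln10_11_0 ln10_11_0_ok) (L (nat_lit 399) ln11_11_0 ln11_11_0_ok))) (B (M (nat_lit 367) (B (M (nat_lit 395) (B (L (nat_lit 394) ln14_11_1 ln14_11_1_ok) (L (nat_lit 396) ln15_11_1 ln15_11_1_ok))) (M (nat_lit 399) (B (L (nat_lit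 398) ln11_11_0 ln11_11_0_ok) (L (nat_lit 400) ln12_11_0 ln12_11_0_ok))))) (M (nat_lit 362) (B (M (nat_lit 330) (B (L (nat_lit 329) ln13_11_3 ln13_11_3_ok) (L (nat_lit 331) ln14_11_3 ln14_11_3_ok))) (M (nat_lit 394) (B (L (nat_lit 393) ln13_11_1 ln13_11_1_ok) (L (nat_lit 395) ln14_11_1 ln14_11_1_ok))))))))))))))))))))))) (nat_lit 5954262830815946494440468064007740237496571878468728087513875999273036838532266441790969898967138332125836366047228135112217242456098340864) (nat_lit 1179363258189213925365104461169620870599853245967942987861173311340916580357650265663969791294245618227338521412201068384834704272870012288040843016635272594893286932480) (nat_lit 1179363258189213925365104461169620870599853245967942987861173311340916580357650265663969791294245618227338521412201068384834704272870012288040843016635272594893286932480) (by decide +kernel)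
theorem c20_s3634 : Sem (nat_lit 5954262830815946494440468064007740237496571878468728087513875999273036838532266441790969898967138332125836366047228135112217242456098340864) (nat_lit 1179363261216589693684093588049520477672444360596421231158260846452832084497473426347415268875229884480941021655293864956169463173462287451158526146966346093415322615808) (nat_lit 1179363261216589693684093588049520477672444360596421231158260846452832084497473426347415268875229884480941021655293864956169463173462287451158526146966346093415322615808) :=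
  sem_of_chk (M (nat_lit 397) (B (M (nat_lit 493) (B (M (nat_lit 365) (B (M (nat_lit 366) (B (L (nat_lit 334) ln13_14_6 ln13_14_6_ok) (L (nat_lit 398) ln13_15_6 ln13_15_6_ok))) (M (nat_lit 492) (B (L (nat_lit 460) ln13_11_5 ln13_11_5_ok) (L (nat_lit 524) ln13_12_5 ln13_12_5_ok))))) (B (M (nat_lit 365) (B (M (nat_lit 364) (B (L (nat_lit 332) ln13_14_7 ln13_14_7_ok) (L (nat_lit 396) ln13_15_7 ln13_15_7_ok))) (M (nat_lit 492) (B (L (nat_lit 460) ln13_11_5 ln13_11_5_ok) (L (nat_lit 524) ln13_12_5 ln13_12_5_ok))))) (B (M (nat_lit 525) (B (M (nat_lit 396) (B (L (nat_lit 364) ln13_15_7 ln13_15_7_ok) (L (nat_lit 428) ln13_16_7 ln13_16_7_ok))) (M (nat_lit 524) (B (L (nat_lit 492) ln13_12_5 ln13_12_5_ok) (L (nat_lit 556) ln13_13_5 ln13_13_5_ok))))) (M (nat_lit 365) (B (M (nat_lit 364) (B (L (nat_lit 332) ln13_14_7 ln13_14_7_ok) (L (nat_lit 396) ln13_15_7 ln13_15_7_ok))) (M (nat_lit 366) (B (L (nat_lit 334) ln13_14_6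 ln13_14_6_ok) (L (nat_lit 398) ln13_15_6 ln13_15_6_ok))))))))) (B (M (nat_lit 493) (B (M (nat_lit 525) (B (M (nat_lit 396) (B (L (nat_lit 364) ln13_15_7 ln13_15_7_ok) (L (nat_lit 428) ln13_16_7 ln13_16_7_ok))) (M (nat_lit 526) (B (L (nat_lit 494) ln13_12_4 ln13_12_4_ok) (L (nat_lit 558) ln13_13_4 ln13_13_4_ok))))) (M (nat_lit 365) (B (M (nat_lit 366) (B (L (nat_lit 334) ln13_14_6 ln13_14_6_ok) (L (nat_lit 398) ln13_15_6 ln13_15_6_ok))) (M (nat_lit 492) (B (L (nat_lit 460) ln13_11_5 ln13_11_5_ok) (L (nat_lit 524) ln13_12_5 ln13_12_5_ok))))))) (B (M (nat_lit 493) (B (M (nat_lit 525) (B (M (nat_lit 398) (B (L (nat_lit 366) ln13_15_6 ln13_15_6_ok) (L (nat_lit 430) ln13_16_6 ln13_16_6_ok))) (M (nat_lit 526) (B (L (nat_lit 494) ln13_12_4 ln13_12_4_ok) (L (nat_lit 558) ln13_13_4 ln13_13_4_ok))))) (B (M (nat_lit 525) (B (M (nat_lit 396) (B (L (nat_lit 364) ln13_15_7 ln13_15_7_ok) (L (nat_lit 428) ln13_16_7 ln13_16_7_ok)))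 (M (nat_lit 526) (B (L (nat_lit 494) ln13_12_4 ln13_12_4_ok) (L (nat_lit 558) ln13_13_4 ln13_13_4_ok))))) (B (M (nat_lit 525) (B (M (nat_lit 396) (B (L (nat_lit 364) ln13_15_7 ln13_15_7_ok) (L (nat_lit 428) ln13_16_7 ln13_16_7_ok))) (M (nat_lit 398) (B (L (nat_lit 366) ln13_15_6 ln13_15_6_ok) (L (nat_lit 430) ln13_16_6 ln13_16_6_ok))))) (M (nat_lit 365) (B (M (nat_lit 364) (B (L (nat_lit 332) ln13_14_7 ln13_14_7_ok) (L (nat_lit 396) ln13_15_7 ln13_15_7_ok))) (M (nat_lit 492) (B (L (nat_lit 460) ln13_11_5 ln13_11_5_ok) (L (nat_lit 524) ln13_12_5 ln13_12_5_ok))))))))) (B (M (nat_lit 493) (B (M (nat_lit 365) (B (M (nat_lit 492) (B (L (nat_lit 460) ln13_11_5 ln13_11_5_ok) (L (nat_lit 524) ln13_12_5 ln13_12_5_ok))) (M (nat_lit 494) (B (L (nat_lit 462) ln13_11_4 ln13_11_4_ok) (L (nat_lit 526) ln13_12_4 ln13_12_4_ok))))) (B (M (nat_lit 525) (B (M (nat_lit 398) (B (L (nat_lit 366) ln13_15_6 ln13_15_6_ok) (L (nat_lit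 430) ln13_16_6 ln13_16_6_ok))) (M (nat_lit 526) (B (L (nat_lit 494) ln13_12_4 ln13_12_4_ok) (L (nat_lit 558) ln13_13_4 ln13_13_4_ok))))) (M (nat_lit 365) (B (M (nat_lit 366) (B (L (nat_lit 334) ln13_14_6 ln13_14_6_ok) (L (nat_lit 398) ln13_15_6 ln13_15_6_ok))) (M (nat_lit 492) (B (L (nat_lit 460) ln13_11_5 ln13_11_5_ok) (L (nat_lit 524) ln13_12_5 ln13_12_5_ok)))))))) (B (M (nat_lit 493) (B (M (nat_lit 525) (B (M (nat_lit 396) (B (L (nat_lit 364) ln13_15_7 ln13_15_7_ok) (L (nat_lit 428) ln13_16_7 ln13_16_7_ok))) (M (nat_lit 526) (B (L (nat_lit 494) ln13_12_4 ln13_12_4_ok) (L (nat_lit 558) ln13_13_4 ln13_13_4_ok))))) (B (M (nat_lit 525) (B (M (nat_lit 524) (B (L (nat_lit 492) ln13_12_5 ln13_12_5_ok) (L (nat_lit 556) ln13_13_5 ln13_13_5_ok))) (M (nat_lit 526) (B (L (nat_lit 494) ln13_12_4 ln13_12_4_ok) (L (nat_lit 558) ln13_13_4 ln13_13_4_ok))))) (B (M (nat_lit 525) (B (M (nat_lit 396) (B (L (nat_lit 364) ln13_15_7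 ln13_15_7_ok) (L (nat_lit 428) ln13_16_7 ln13_16_7_ok))) (M (nat_lit 524) (B (L (nat_lit 492) ln13_12_5 ln13_12_5_ok) (L (nat_lit 556) ln13_13_5 ln13_13_5_ok))))) (M (nat_lit 494) (B (L (nat_lit 526) ln13_12_4 ln13_12_4_ok) (M (nat_lit 492) (B (L (nat_lit 524) ln13_12_5 ln13_12_5_ok) (M (nat_lit 495) (B (M (nat_lit 460) (B (L (nat_lit 459) ln15_15_3 ln15_15_3_ok) (L (nat_lit 496) ln16_15_3 ln16_15_3_ok))) (B (M (nat_lit 464) (B (L (nat_lit 463) ln12_15_2 ln12_15_2_ok) (M (nat_lit 496) (B (L (nat_lit 460) ln16_15_3 ln16_15_3_ok) (L (nat_lit 465) ln13_15_2 ln13_15_2_ok))))) (B (M (nat_lit 496) (B (M (nat_lit 464) (B (L (nat_lit 463) ln12_15_2 ln12_15_2_ok) (L (nat_lit 465) ln13_15_2 ln13_15_2_ok))) (M (nat_lit 528) (B (L (nat_lit 527) ln12_15_0 ln12_15_0_ok) (L (nat_lit 529) ln13_15_0 ln13_15_0_ok))))) (M (nat_lit 491) (B (M (nat_lit 459) (B (L (nat_lit 458) ln14_15_3 ln14_15_3_ok) (L (nat_lit 460) ln15_15_3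 ln15_15_3_ok))) (M (nat_lit 463) (B (L (nat_lit 462) ln11_15_2 ln11_15_2_ok) (L (nat_lit 464) ln12_15_2 ln12_15_2_ok))))))))))))))))) (B (M (nat_lit 493) (B (M (nat_lit 365) (B (M (nat_lit 366) (B (L (nat_lit 334) ln13_14_6 ln13_14_6_ok) (L (nat_lit 398) ln13_15_6 ln13_15_6_ok))) (M (nat_lit 494) (B (L (nat_lit 462) ln13_11_4 ln13_11_4_ok) (L (nat_lit 526) ln13_12_4 ln13_12_4_ok))))) (B (M (nat_lit 365) (B (M (nat_lit 364) (B (L (nat_lit 332) ln13_14_7 ln13_14_7_ok) (L (nat_lit 396) ln13_15_7 ln13_15_7_ok))) (M (nat_lit 494) (B (L (nat_lit 462) ln13_11_4 ln13_11_4_ok) (L (nat_lit 526) ln13_12_4 ln13_12_4_ok))))) (B (M (nat_lit 525) (B (M (nat_lit 396) (B (L (nat_lit 364) ln13_15_7 ln13_15_7_ok) (L (nat_lit 428) ln13_16_7 ln13_16_7_ok))) (M (nat_lit 526) (B (L (nat_lit 494) ln13_12_4 ln13_12_4_ok) (L (nat_lit 558) ln13_13_4 ln13_13_4_ok))))) (M (nat_lit 365) (B (M (nat_lit 364) (B (L (nat_lit 332) ln13_14_7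 ln13_14_7_ok) (L (nat_lit 396) ln13_15_7 ln13_15_7_ok))) (M (nat_lit 366) (B (L (nat_lit 334) ln13_14_6 ln13_14_6_ok) (L (nat_lit 398) ln13_15_6 ln13_15_6_ok))))))))) (M (nat_lit 365) (B (M (nat_lit 333) (B (M (nat_lit 334) (B (L (nat_lit 302) ln13_13_6 ln13_13_6_ok) (L (nat_lit 366) ln13_14_6 ln13_14_6_ok))) (M (nat_lit 460) (B (L (nat_lit 428) ln13_10_5 ln13_10_5_ok) (L (nat_lit 492) ln13_11_5 ln13_11_5_ok))))) (B (M (nat_lit 333) (B (M (nat_lit 332) (B (L (nat_lit 300) ln13_13_7 ln13_13_7_ok) (L (nat_lit 364) ln13_14_7 ln13_14_7_ok))) (M (nat_lit 462) (B (L (nat_lit 430) ln13_10_4 ln13_10_4_ok) (L (nat_lit 494) ln13_11_4 ln13_11_4_ok))))) (M (nat_lit 364) (B (L (nat_lit 332) ln13_14_7 ln13_14_7_ok) (M (nat_lit 366) (B (L (nat_lit 334) ln13_14_6 ln13_14_6_ok) (M (nat_lit 363) (B (M (nat_lit 398) (B (L (nat_lit 362) ln10_11_0 ln10_11_0_ok) (L (nat_lit 399) ln11_11_0 ln11_11_0_ok))) (B (M (nat_lit 367) (B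 (M (nat_lit 395) (B (L (nat_lit 394) ln14_11_1 ln14_11_1_ok) (L (nat_lit 396) ln15_11_1 ln15_11_1_ok))) (M (nat_lit 399) (B (L (nat_lit 398) ln11_11_0 ln11_11_0_ok) (L (nat_lit 400) ln12_11_0 ln12_11_0_ok))))) (M (nat_lit 362) (B (M (nat_lit 330) (B (L (nat_lit 329) ln13_11_3 ln13_11_3_ok) (L (nat_lit 331) ln14_11_3 ln14_11_3_ok))) (M (nat_lit 394) (B (L (nat_lit 393) ln13_11_1 ln13_11_1_ok) (L (nat_lit 395) ln14_11_1 ln14_11_1_ok)))))))))))))))))))))) (nat_lit 5954262830815946494440468064007740237496571878468728087513875999273036838532266441790969898967138332125836366047228135112217242456098340864) (nat_lit 1179363261216589693684093588049520477672444360596421231158260846452832084497473426347415268875229884480941021655293864956169463173462287451158526146966346093415322615808) (nat_lit 1179363261216589693684093588049520477672444360596421231158260846452832084497473426347415268875229884480941021655293864956169463173462287451158526146966346093415322615808)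 (by decide +kernel)
theorem c20_s3659 : Sem (nat_lit 5954262830815946494440468064007740237496571878468728087513875999273036838532266441790969898967138332125836366047228135112217242456098340864) (nat_lit 1179363258168619532590897880203378244870519953458837708789037799373271562998848168871618176440265736959798349380538963085922326067127446544861277840995755292875814862848) (nat_lit 1179363258168619532590897880203378244870519953458837708789037799373271562998848168871618176440265736959798349380538963085922326067127446544861277840995755292875814862848) :=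
  sem_of_chk (M (nat_lit 397) (B (M (nat_lit 493) (B (M (nat_lit 365) (B (M (nat_lit 366) (B (L (nat_lit 334) ln13_14_6 ln13_14_6_ok) (L (nat_lit 398) ln13_15_6 ln13_15_6_ok))) (M (nat_lit 492) (B (L (nat_lit 460) ln13_11_5 ln13_11_5_ok) (L (nat_lit 524) ln13_12_5 ln13_12_5_ok))))) (B (M (nat_lit 365) (B (M (nat_lit 364) (B (L (nat_lit 332) ln13_14_7 ln13_14_7_ok) (L (nat_lit 396) ln13_15_7 ln13_15_7_ok))) (M (nat_lit 492) (B (L (nat_lit 460) ln13_11_5 ln13_11_5_ok) (L (nat_lit 524) ln13_12_5 ln13_12_5_ok))))) (B (M (nat_lit 525) (B (M (nat_lit 396) (B (L (nat_lit 364) ln13_15_7 ln13_15_7_ok) (L (nat_lit 428) ln13_16_7 ln13_16_7_ok))) (M (nat_lit 524) (B (L (nat_lit 492) ln13_12_5 ln13_12_5_ok) (L (nat_lit 556) ln13_13_5 ln13_13_5_ok))))) (M (nat_lit 365) (B (M (nat_lit 364) (B (L (nat_lit 332) ln13_14_7 ln13_14_7_ok) (L (nat_lit 396) ln13_15_7 ln13_15_7_ok))) (M (nat_lit 366) (B (L (nat_lit 334) ln13_14_6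 ln13_14_6_ok) (L (nat_lit 398) ln13_15_6 ln13_15_6_ok))))))))) (B (M (nat_lit 493) (B (M (nat_lit 525) (B (M (nat_lit 396) (B (L (nat_lit 364) ln13_15_7 ln13_15_7_ok) (L (nat_lit 428) ln13_16_7 ln13_16_7_ok))) (M (nat_lit 526) (B (L (nat_lit 494) ln13_12_4 ln13_12_4_ok) (L (nat_lit 558) ln13_13_4 ln13_13_4_ok))))) (M (nat_lit 365) (B (M (nat_lit 366) (B (L (nat_lit 334) ln13_14_6 ln13_14_6_ok) (L (nat_lit 398) ln13_15_6 ln13_15_6_ok))) (M (nat_lit 492) (B (L (nat_lit 460) ln13_11_5 ln13_11_5_ok) (L (nat_lit 524) ln13_12_5 ln13_12_5_ok))))))) (B (M (nat_lit 493) (B (M (nat_lit 525) (B (M (nat_lit 398) (B (L (nat_lit 366) ln13_15_6 ln13_15_6_ok) (L (nat_lit 430) ln13_16_6 ln13_16_6_ok))) (M (nat_lit 526) (B (L (nat_lit 494) ln13_12_4 ln13_12_4_ok) (L (nat_lit 558) ln13_13_4 ln13_13_4_ok))))) (B (M (nat_lit 525) (B (M (nat_lit 396) (B (L (nat_lit 364) ln13_15_7 ln13_15_7_ok) (L (nat_lit 428) ln13_16_7 ln13_16_7_ok)))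 (M (nat_lit 526) (B (L (nat_lit 494) ln13_12_4 ln13_12_4_ok) (L (nat_lit 558) ln13_13_4 ln13_13_4_ok))))) (B (M (nat_lit 525) (B (M (nat_lit 396) (B (L (nat_lit 364) ln13_15_7 ln13_15_7_ok) (L (nat_lit 428) ln13_16_7 ln13_16_7_ok))) (M (nat_lit 398) (B (L (nat_lit 366) ln13_15_6 ln13_15_6_ok) (L (nat_lit 430) ln13_16_6 ln13_16_6_ok))))) (M (nat_lit 365) (B (M (nat_lit 364) (B (L (nat_lit 332) ln13_14_7 ln13_14_7_ok) (L (nat_lit 396) ln13_15_7 ln13_15_7_ok))) (M (nat_lit 492) (B (L (nat_lit 460) ln13_11_5 ln13_11_5_ok) (L (nat_lit 524) ln13_12_5 ln13_12_5_ok))))))))) (B (M (nat_lit 493) (B (M (nat_lit 365) (B (M (nat_lit 492) (B (L (nat_lit 460) ln13_11_5 ln13_11_5_ok) (L (nat_lit 524) ln13_12_5 ln13_12_5_ok))) (M (nat_lit 494) (B (L (nat_lit 462) ln13_11_4 ln13_11_4_ok) (L (nat_lit 526) ln13_12_4 ln13_12_4_ok))))) (B (M (nat_lit 525) (B (M (nat_lit 398) (B (L (nat_lit 366) ln13_15_6 ln13_15_6_ok) (L (nat_lit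 430) ln13_16_6 ln13_16_6_ok))) (M (nat_lit 526) (B (L (nat_lit 494) ln13_12_4 ln13_12_4_ok) (L (nat_lit 558) ln13_13_4 ln13_13_4_ok))))) (M (nat_lit 365) (B (M (nat_lit 366) (B (L (nat_lit 334) ln13_14_6 ln13_14_6_ok) (L (nat_lit 398) ln13_15_6 ln13_15_6_ok))) (M (nat_lit 492) (B (L (nat_lit 460) ln13_11_5 ln13_11_5_ok) (L (nat_lit 524) ln13_12_5 ln13_12_5_ok)))))))) (B (M (nat_lit 493) (B (M (nat_lit 525) (B (M (nat_lit 396) (B (L (nat_lit 364) ln13_15_7 ln13_15_7_ok) (L (nat_lit 428) ln13_16_7 ln13_16_7_ok))) (M (nat_lit 524) (B (L (nat_lit 492) ln13_12_5 ln13_12_5_ok) (L (nat_lit 556) ln13_13_5 ln13_13_5_ok))))) (B (M (nat_lit 525) (B (M (nat_lit 398) (B (L (nat_lit 366) ln13_15_6 ln13_15_6_ok) (L (nat_lit 430) ln13_16_6 ln13_16_6_ok))) (M (nat_lit 526) (B (L (nat_lit 494) ln13_12_4 ln13_12_4_ok) (L (nat_lit 558) ln13_13_4 ln13_13_4_ok))))) (M (nat_lit 492) (B (L (nat_lit 524) ln13_12_5 ln13_12_5_ok)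 (M (nat_lit 428) (B (M (nat_lit 398) (B (L (nat_lit 366) ln13_15_6 ln13_15_6_ok) (M (nat_lit 427) (B (L (nat_lit 426) ln10_13_2 ln10_13_2_ok) (M (nat_lit 399) (B (L (nat_lit 400) ln16_12_1 ln16_12_1_ok) (L (nat_lit 430) ln11_13_2 ln11_13_2_ok))))))) (M (nat_lit 460) (B (M (nat_lit 494) (B (L (nat_lit 526) ln13_12_4 ln13_12_4_ok) (M (nat_lit 495) (B (L (nat_lit 459) ln15_15_3 ln15_15_3_ok) (L (nat_lit 496) ln16_15_3 ln16_15_3_ok))))) (M (nat_lit 491) (B (M (nat_lit 396) (B (L (nat_lit 364) ln13_15_7 ln13_15_7_ok) (L (nat_lit 523) ln12_12_5 ln12_12_5_ok))) (M (nat_lit 490) (B (L (nat_lit 489) ln9_15_2 ln9_15_2_ok) (L (nat_lit 462) ln10_15_2 ln10_15_2_ok)))))))))))))) (B (M (nat_lit 493) (B (M (nat_lit 365) (B (M (nat_lit 492) (B (L (nat_lit 460) ln13_11_5 ln13_11_5_ok) (L (nat_lit 524) ln13_12_5 ln13_12_5_ok))) (M (nat_lit 494) (B (L (nat_lit 462) ln13_11_4 ln13_11_4_ok) (L (nat_lit 526) ln13_12_4 ln13_12_4_ok)))))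 (B (M (nat_lit 525) (B (M (nat_lit 396) (B (L (nat_lit 364) ln13_15_7 ln13_15_7_ok) (L (nat_lit 428) ln13_16_7 ln13_16_7_ok))) (M (nat_lit 526) (B (L (nat_lit 494) ln13_12_4 ln13_12_4_ok) (L (nat_lit 558) ln13_13_4 ln13_13_4_ok))))) (M (nat_lit 365) (B (M (nat_lit 364) (B (L (nat_lit 332) ln13_14_7 ln13_14_7_ok) (L (nat_lit 396) ln13_15_7 ln13_15_7_ok))) (M (nat_lit 492) (B (L (nat_lit 460) ln13_11_5 ln13_11_5_ok) (L (nat_lit 524) ln13_12_5 ln13_12_5_ok)))))))) (B (M (nat_lit 493) (B (M (nat_lit 525) (B (M (nat_lit 398) (B (L (nat_lit 366) ln13_15_6 ln13_15_6_ok) (L (nat_lit 430) ln13_16_6 ln13_16_6_ok))) (M (nat_lit 526) (B (L (nat_lit 494) ln13_12_4 ln13_12_4_ok) (L (nat_lit 558) ln13_13_4 ln13_13_4_ok))))) (B (M (nat_lit 525) (B (M (nat_lit 396) (B (L (nat_lit 364) ln13_15_7 ln13_15_7_ok) (L (nat_lit 428) ln13_16_7 ln13_16_7_ok))) (M (nat_lit 526) (B (L (nat_lit 494) ln13_12_4 ln13_12_4_ok) (L (nat_lit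 558) ln13_13_4 ln13_13_4_ok))))) (B (M (nat_lit 525) (B (M (nat_lit 396) (B (L (nat_lit 364) ln13_15_7 ln13_15_7_ok) (L (nat_lit 428) ln13_16_7 ln13_16_7_ok))) (M (nat_lit 398) (B (L (nat_lit 366) ln13_15_6 ln13_15_6_ok) (L (nat_lit 430) ln13_16_6 ln13_16_6_ok))))) (M (nat_lit 365) (B (M (nat_lit 364) (B (L (nat_lit 332) ln13_14_7 ln13_14_7_ok) (L (nat_lit 396) ln13_15_7 ln13_15_7_ok))) (M (nat_lit 366) (B (L (nat_lit 334) ln13_14_6 ln13_14_6_ok) (L (nat_lit 398) ln13_15_6 ln13_15_6_ok))))))))) (M (nat_lit 365) (B (M (nat_lit 333) (B (M (nat_lit 334) (B (L (nat_lit 302) ln13_13_6 ln13_13_6_ok) (L (nat_lit 366) ln13_14_6 ln13_14_6_ok))) (M (nat_lit 460) (B (L (nat_lit 428) ln13_10_5 ln13_10_5_ok) (L (nat_lit 492) ln13_11_5 ln13_11_5_ok))))) (B (M (nat_lit 333) (B (M (nat_lit 332) (B (L (nat_lit 300) ln13_13_7 ln13_13_7_ok) (L (nat_lit 364) ln13_14_7 ln13_14_7_ok))) (M (nat_lit 462) (B (L (nat_lit 430) ln13_10_4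 ln13_10_4_ok) (L (nat_lit 494) ln13_11_4 ln13_11_4_ok))))) (M (nat_lit 364) (B (L (nat_lit 332) ln13_14_7 ln13_14_7_ok) (M (nat_lit 366) (B (L (nat_lit 334) ln13_14_6 ln13_14_6_ok) (M (nat_lit 363) (B (M (nat_lit 398) (B (L (nat_lit 362) ln10_11_0 ln10_11_0_ok) (L (nat_lit 399) ln11_11_0 ln11_11_0_ok))) (B (M (nat_lit 367) (B (M (nat_lit 395) (B (L (nat_lit 394) ln14_11_1 ln14_11_1_ok) (L (nat_lit 396) ln15_11_1 ln15_11_1_ok))) (M (nat_lit 399) (B (L (nat_lit 398) ln11_11_0 ln11_11_0_ok) (L (nat_lit 400) ln12_11_0 ln12_11_0_ok))))) (M (nat_lit 362) (B (M (nat_lit 330) (B (L (nat_lit 329) ln13_11_3 ln13_11_3_ok) (L (nat_lit 331) ln14_11_3 ln14_11_3_ok))) (M (nat_lit 394) (B (L (nat_lit 393) ln13_11_1 ln13_11_1_ok) (L (nat_lit 395) ln14_11_1 ln14_11_1_ok))))))))))))))))))))))) (nat_lit 5954262830815946494440468064007740237496571878468728087513875999273036838532266441790969898967138332125836366047228135112217242456098340864)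 (nat_lit 1179363258168619532590897880203378244870519953458837708789037799373271562998848168871618176440265736959798349380538963085922326067127446544861277840995755292875814862848) (nat_lit 1179363258168619532590897880203378244870519953458837708789037799373271562998848168871618176440265736959798349380538963085922326067127446544861277840995755292875814862848) (by decide +kernel)
theorem c20_s3775 : Sem (nat_lit 5954262830815946494763249298768603811203561774969104571805089223376689777636098861358550851719243481454542035207245364041705138952691777536) (nat_lit 1179363258141160341632306725035457733914690973202154512657058614144400862365027455428236139680362356631096274835112754716823869591762354601436200802661742936674824880128) (nat_lit 1179363258141160341632306725035457733914690973202154512657058614144400862365027455428236139680362356631096274835112754716823869591762354601436200802661742936674824880128) :=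
  sem_of_chk (M (nat_lit 398) (B (M (nat_lit 366) (B (L (nat_lit 493) ln13_15_6 ln13_15_6_ok) (M (nat_lit 334) (B (L (nat_lit 302) ln14_9_5 ln14_9_5_ok) (L (nat_lit 430) ln14_10_5 ln14_10_5_ok))))) (B (M (nat_lit 493) (B (L (nat_lit 366) ln13_15_6 ln13_15_6_ok) (M (nat_lit 525) (B (L (nat_lit 430) ln13_16_6 ln13_16_6_ok) (M (nat_lit 396) (B (L (nat_lit 364) ln13_15_7 ln13_15_7_ok) (L (nat_lit 428) ln13_16_7 ln13_16_7_ok))))))) (B (M (nat_lit 396) (B (M (nat_lit 493) (B (L (nat_lit 364) ln13_15_7 ln13_15_7_ok) (M (nat_lit 525) (B (L (nat_lit 428) ln13_16_7 ln13_16_7_ok) (L (nat_lit 430) ln13_16_6 ln13_16_6_ok))))) (B (M (nat_lit 428) (B (M (nat_lit 399) (B (L (nat_lit 427) ln15_12_1 ln15_12_1_ok) (L (nat_lit 400) ln16_12_1 ln16_12_1_ok))) (M (nat_lit 395) (B (M (nat_lit 394) (B (L (nat_lit 393) ln9_12_0 ln9_12_0_ok) (L (nat_lit 430) ln10_12_0 ln10_12_0_ok))) (M (nat_lit 492) (B (M (nat_lit 363) (B (L (nat_lit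 362) ln14_12_3 ln14_12_3_ok) (L (nat_lit 460) ln12_15_7 ln12_15_7_ok))) (B (M (nat_lit 460) (B (L (nat_lit 363) ln12_15_7 ln12_15_7_ok) (L (nat_lit 524) ln12_16_6 ln12_16_6_ok))) (M (nat_lit 493) (B (L (nat_lit 525) ln13_16_7 ln13_16_7_ok) (L (nat_lit 524) ln13_12_5 ln13_12_5_ok)))))))))) (B (M (nat_lit 493) (B (L (nat_lit 364) ln13_15_7 ln13_15_7_ok) (M (nat_lit 525) (B (L (nat_lit 430) ln13_16_6 ln13_16_6_ok) (M (nat_lit 524) (B (L (nat_lit 492) ln13_12_5 ln13_12_5_ok) (L (nat_lit 556) ln13_13_5 ln13_13_5_ok))))))) (B (M (nat_lit 399) (B (M (nat_lit 364) (B (L (nat_lit 363) ln15_12_3 ln15_12_3_ok) (L (nat_lit 493) ln13_15_7 ln13_15_7_ok))) (M (nat_lit 428) (B (L (nat_lit 427) ln15_12_1 ln15_12_1_ok) (L (nat_lit 400) ln16_12_1 ln16_12_1_ok))))) (M (nat_lit 399) (B (M (nat_lit 428) (B (L (nat_lit 427) ln15_12_1 ln15_12_1_ok) (L (nat_lit 400) ln16_12_1 ln16_12_1_ok))) (B (M (nat_lit 428) (B (L (nat_lit 427)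 ln15_12_1 ln15_12_1_ok) (M (nat_lit 364) (B (L (nat_lit 332) ln12_10_4 ln12_10_4_ok) (L (nat_lit 363) ln15_12_3 ln15_12_3_ok))))) (B (M (nat_lit 428) (B (L (nat_lit 400) ln16_12_1 ln16_12_1_ok) (M (nat_lit 364) (B (L (nat_lit 332) ln12_10_4 ln12_10_4_ok) (L (nat_lit 363) ln15_12_3 ln15_12_3_ok))))) (M (nat_lit 400) (B (M (nat_lit 368) (B (L (nat_lit 367) ln12_12_2 ln12_12_2_ok) (L (nat_lit 369) ln13_12_2 ln13_12_2_ok))) (M (nat_lit 401) (B (L (nat_lit 430) ln17_12_1 ln17_12_1_ok) (M (nat_lit 433) (B (L (nat_lit 432) ln13_12_0 ln13_12_0_ok) (L (nat_lit 434) ln14_12_0 ln14_12_0_ok)))))))))))))))) (B (M (nat_lit 493) (B (L (nat_lit 366) ln13_15_6 ln13_15_6_ok) (M (nat_lit 525) (B (M (nat_lit 396) (B (L (nat_lit 364) ln13_15_7 ln13_15_7_ok) (L (nat_lit 428) ln13_16_7 ln13_16_7_ok))) (M (nat_lit 526) (B (L (nat_lit 494) ln13_12_4 ln13_12_4_ok) (L (nat_lit 558) ln13_13_4 ln13_13_4_ok))))))) (M (nat_lit 399) (B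 (M (nat_lit 428) (B (L (nat_lit 400) ln16_12_1 ln16_12_1_ok) (M (nat_lit 427) (B (L (nat_lit 396) ln15_12_1 ln15_12_1_ok) (L (nat_lit 426) ln10_13_2 ln10_13_2_ok))))) (B (M (nat_lit 428) (B (L (nat_lit 400) ln16_12_1 ln16_12_1_ok) (M (nat_lit 427) (B (L (nat_lit 426) ln10_13_2 ln10_13_2_ok) (L (nat_lit 430) ln11_13_2 ln11_13_2_ok))))) (B (M (nat_lit 396) (B (M (nat_lit 428) (B (L (nat_lit 427) ln15_12_1 ln15_12_1_ok) (M (nat_lit 364) (B (L (nat_lit 332) ln12_10_4 ln12_10_4_ok) (L (nat_lit 363) ln15_12_3 ln15_12_3_ok))))) (B (M (nat_lit 395) (B (M (nat_lit 367) (B (L (nat_lit 366) ln11_12_2 ln11_12_2_ok) (L (nat_lit 368) ln12_12_2 ln12_12_2_ok))) (M (nat_lit 427) (B (L (nat_lit 426) ln14_12_1 ln14_12_1_ok) (L (nat_lit 428) ln15_12_1 ln15_12_1_ok))))) (M (nat_lit 395) (B (M (nat_lit 363) (B (L (nat_lit 362) ln14_12_3 ln14_12_3_ok) (L (nat_lit 364) ln15_12_3 ln15_12_3_ok))) (M (nat_lit 367) (B (L (nat_lit 366)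 ln11_12_2 ln11_12_2_ok) (L (nat_lit 368) ln12_12_2 ln12_12_2_ok)))))))) (B (M (nat_lit 428) (B (L (nat_lit 400) ln16_12_1 ln16_12_1_ok) (M (nat_lit 427) (B (L (nat_lit 396) ln15_12_1 ln15_12_1_ok) (L (nat_lit 430) ln11_13_2 ln11_13_2_ok))))) (B (M (nat_lit 400) (B (L (nat_lit 428) ln16_12_1 ln16_12_1_ok) (M (nat_lit 401) (B (L (nat_lit 430) ln17_12_1 ln17_12_1_ok) (M (nat_lit 433) (B (L (nat_lit 432) ln13_12_0 ln13_12_0_ok) (L (nat_lit 434) ln14_12_0 ln14_12_0_ok))))))) (M (nat_lit 396) (B (M (nat_lit 395) (B (M (nat_lit 363) (B (L (nat_lit 362) ln14_12_3 ln14_12_3_ok) (L (nat_lit 364) ln15_12_3 ln15_12_3_ok))) (M (nat_lit 367) (B (L (nat_lit 366) ln11_12_2 ln11_12_2_ok) (L (nat_lit 368) ln12_12_2 ln12_12_2_ok))))) (B (M (nat_lit 400) (B (M (nat_lit 368) (B (L (nat_lit 367) ln12_12_2 ln12_12_2_ok) (L (nat_lit 369) ln13_12_2 ln13_12_2_ok))) (M (nat_lit 401) (B (L (nat_lit 430) ln17_12_1 ln17_12_1_ok) (M (nat_lit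 433) (B (L (nat_lit 432) ln13_12_0 ln13_12_0_ok) (L (nat_lit 434) ln14_12_0 ln14_12_0_ok))))))) (M (nat_lit 395) (B (M (nat_lit 363) (B (L (nat_lit 362) ln14_12_3 ln14_12_3_ok) (L (nat_lit 364) ln15_12_3 ln15_12_3_ok))) (M (nat_lit 394) (B (L (nat_lit 430) ln10_12_0 ln10_12_0_ok) (M (nat_lit 426) (B (L (nat_lit 425) ln13_12_1 ln13_12_1_ok) (L (nat_lit 427) ln14_12_1 ln14_12_1_ok))))))))))))))))))))) (nat_lit 5954262830815946494763249298768603811203561774969104571805089223376689777636098861358550851719243481454542035207245364041705138952691777536) (nat_lit 1179363258141160341632306725035457733914690973202154512657058614144400862365027455428236139680362356631096274835112754716823869591762354601436200802661742936674824880128) (nat_lit 1179363258141160341632306725035457733914690973202154512657058614144400862365027455428236139680362356631096274835112754716823869591762354601436200802661742936674824880128) (by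 decide +kernel)
theorem c20_s3776 : Sem (nat_lit 5954262830815946494440468064007740237496571878468728087513875999273036838532266441790969898967138332125836366047228135112217242456098340864) (nat_lit 1179363258141160341632306725047366259573550196497237415160331697371631828361658356064383165374415746599605055892935606566971869986266611494724268663219408082993611276288) (nat_lit 1179363258141160341632306725047366259573550196497237415160331697371631828361658356064383165374415746599605055892935606566971869986266611494724268663219408082993611276288) :=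
  sem_of_chk (M (nat_lit 397) (B (M (nat_lit 493) (B (M (nat_lit 365) (B (M (nat_lit 366) (B (L (nat_lit 334) ln13_14_6 ln13_14_6_ok) (L (nat_lit 398) ln13_15_6 ln13_15_6_ok))) (M (nat_lit 492) (B (L (nat_lit 460) ln13_11_5 ln13_11_5_ok) (L (nat_lit 524) ln13_12_5 ln13_12_5_ok))))) (B (M (nat_lit 365) (B (M (nat_lit 364) (B (L (nat_lit 332) ln13_14_7 ln13_14_7_ok) (L (nat_lit 396) ln13_15_7 ln13_15_7_ok))) (M (nat_lit 492) (B (L (nat_lit 460) ln13_11_5 ln13_11_5_ok) (L (nat_lit 524) ln13_12_5 ln13_12_5_ok))))) (B (M (nat_lit 525) (B (M (nat_lit 396) (B (L (nat_lit 364) ln13_15_7 ln13_15_7_ok) (L (nat_lit 428) ln13_16_7 ln13_16_7_ok))) (M (nat_lit 524) (B (L (nat_lit 492) ln13_12_5 ln13_12_5_ok) (L (nat_lit 556) ln13_13_5 ln13_13_5_ok))))) (M (nat_lit 365) (B (M (nat_lit 364) (B (L (nat_lit 332) ln13_14_7 ln13_14_7_ok) (L (nat_lit 396) ln13_15_7 ln13_15_7_ok))) (M (nat_lit 366) (B (L (nat_lit 334) ln13_14_6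 ln13_14_6_ok) (L (nat_lit 398) ln13_15_6 ln13_15_6_ok))))))))) (B (M (nat_lit 493) (B (M (nat_lit 365) (B (M (nat_lit 492) (B (L (nat_lit 460) ln13_11_5 ln13_11_5_ok) (L (nat_lit 524) ln13_12_5 ln13_12_5_ok))) (M (nat_lit 494) (B (L (nat_lit 462) ln13_11_4 ln13_11_4_ok) (L (nat_lit 526) ln13_12_4 ln13_12_4_ok))))) (B (M (nat_lit 525) (B (M (nat_lit 398) (B (L (nat_lit 366) ln13_15_6 ln13_15_6_ok) (L (nat_lit 430) ln13_16_6 ln13_16_6_ok))) (M (nat_lit 526) (B (L (nat_lit 494) ln13_12_4 ln13_12_4_ok) (L (nat_lit 558) ln13_13_4 ln13_13_4_ok))))) (M (nat_lit 365) (B (M (nat_lit 366) (B (L (nat_lit 334) ln13_14_6 ln13_14_6_ok) (L (nat_lit 398) ln13_15_6 ln13_15_6_ok))) (M (nat_lit 492) (B (L (nat_lit 460) ln13_11_5 ln13_11_5_ok) (L (nat_lit 524) ln13_12_5 ln13_12_5_ok)))))))) (B (M (nat_lit 493) (B (M (nat_lit 525) (B (M (nat_lit 396) (B (L (nat_lit 364) ln13_15_7 ln13_15_7_ok) (L (nat_lit 428) ln13_16_7 ln13_16_7_ok)))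 (M (nat_lit 524) (B (L (nat_lit 492) ln13_12_5 ln13_12_5_ok) (L (nat_lit 556) ln13_13_5 ln13_13_5_ok))))) (B (M (nat_lit 525) (B (M (nat_lit 524) (B (L (nat_lit 492) ln13_12_5 ln13_12_5_ok) (L (nat_lit 556) ln13_13_5 ln13_13_5_ok))) (M (nat_lit 526) (B (L (nat_lit 494) ln13_12_4 ln13_12_4_ok) (L (nat_lit 558) ln13_13_4 ln13_13_4_ok))))) (B (M (nat_lit 525) (B (M (nat_lit 396) (B (L (nat_lit 364) ln13_15_7 ln13_15_7_ok) (L (nat_lit 428) ln13_16_7 ln13_16_7_ok))) (M (nat_lit 526) (B (L (nat_lit 494) ln13_12_4 ln13_12_4_ok) (L (nat_lit 558) ln13_13_4 ln13_13_4_ok))))) (M (nat_lit 365) (B (M (nat_lit 492) (B (L (nat_lit 460) ln13_11_5 ln13_11_5_ok) (L (nat_lit 524) ln13_12_5 ln13_12_5_ok))) (M (nat_lit 494) (B (L (nat_lit 462) ln13_11_4 ln13_11_4_ok) (L (nat_lit 526) ln13_12_4 ln13_12_4_ok))))))))) (B (K (nat_lit 5954262830815946494763249298768603811203561774969104571805089223376689777636098861358550851719243481454542035207245364041705138952691777536)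 (nat_lit 1179363258141160341632306725035457733914690973202154512657058614144400862365027455428236139680362356631096274835112754716823869591762354601436200802661742936674824880128) (nat_lit 1179363258141160341632306725035457733914690973202154512657058614144400862365027455428236139680362356631096274835112754716823869591762354601436200802661742936674824880128) c20_s3775) (B (M (nat_lit 493) (B (M (nat_lit 365) (B (M (nat_lit 366) (B (L (nat_lit 334) ln13_14_6 ln13_14_6_ok) (L (nat_lit 398) ln13_15_6 ln13_15_6_ok))) (M (nat_lit 494) (B (L (nat_lit 462) ln13_11_4 ln13_11_4_ok) (L (nat_lit 526) ln13_12_4 ln13_12_4_ok))))) (B (M (nat_lit 365) (B (M (nat_lit 364) (B (L (nat_lit 332) ln13_14_7 ln13_14_7_ok) (L (nat_lit 396) ln13_15_7 ln13_15_7_ok))) (M (nat_lit 494) (B (L (nat_lit 462) ln13_11_4 ln13_11_4_ok) (L (nat_lit 526) ln13_12_4 ln13_12_4_ok))))) (M (nat_lit 525) (B (M (nat_lit 396) (B (L (nat_lit 364) ln13_15_7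 ln13_15_7_ok) (L (nat_lit 428) ln13_16_7 ln13_16_7_ok))) (M (nat_lit 524) (B (L (nat_lit 492) ln13_12_5 ln13_12_5_ok) (L (nat_lit 556) ln13_13_5 ln13_13_5_ok)))))))) (B (M (nat_lit 493) (B (M (nat_lit 525) (B (M (nat_lit 396) (B (L (nat_lit 364) ln13_15_7 ln13_15_7_ok) (L (nat_lit 428) ln13_16_7 ln13_16_7_ok))) (M (nat_lit 398) (B (L (nat_lit 366) ln13_15_6 ln13_15_6_ok) (L (nat_lit 430) ln13_16_6 ln13_16_6_ok))))) (B (M (nat_lit 525) (B (M (nat_lit 398) (B (L (nat_lit 366) ln13_15_6 ln13_15_6_ok) (L (nat_lit 430) ln13_16_6 ln13_16_6_ok))) (M (nat_lit 526) (B (L (nat_lit 494) ln13_12_4 ln13_12_4_ok) (L (nat_lit 558) ln13_13_4 ln13_13_4_ok))))) (B (M (nat_lit 525) (B (M (nat_lit 396) (B (L (nat_lit 364) ln13_15_7 ln13_15_7_ok) (L (nat_lit 428) ln13_16_7 ln13_16_7_ok))) (M (nat_lit 526) (B (L (nat_lit 494) ln13_12_4 ln13_12_4_ok) (L (nat_lit 558) ln13_13_4 ln13_13_4_ok))))) (M (nat_lit 365) (B (M (nat_lit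 366) (B (L (nat_lit 334) ln13_14_6 ln13_14_6_ok) (L (nat_lit 398) ln13_15_6 ln13_15_6_ok))) (M (nat_lit 494) (B (L (nat_lit 462) ln13_11_4 ln13_11_4_ok) (L (nat_lit 526) ln13_12_4 ln13_12_4_ok))))))))) (M (nat_lit 365) (B (M (nat_lit 333) (B (M (nat_lit 334) (B (L (nat_lit 302) ln13_13_6 ln13_13_6_ok) (L (nat_lit 366) ln13_14_6 ln13_14_6_ok))) (M (nat_lit 460) (B (L (nat_lit 428) ln13_10_5 ln13_10_5_ok) (L (nat_lit 492) ln13_11_5 ln13_11_5_ok))))) (B (M (nat_lit 333) (B (M (nat_lit 332) (B (L (nat_lit 300) ln13_13_7 ln13_13_7_ok) (L (nat_lit 364) ln13_14_7 ln13_14_7_ok))) (M (nat_lit 462) (B (L (nat_lit 430) ln13_10_4 ln13_10_4_ok) (L (nat_lit 494) ln13_11_4 ln13_11_4_ok))))) (M (nat_lit 364) (B (L (nat_lit 332) ln13_14_7 ln13_14_7_ok) (M (nat_lit 366) (B (L (nat_lit 334) ln13_14_6 ln13_14_6_ok) (M (nat_lit 363) (B (M (nat_lit 398) (B (L (nat_lit 362) ln10_11_0 ln10_11_0_ok) (L (nat_lit 399) ln11_11_0 ln11_11_0_ok)))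 (B (M (nat_lit 367) (B (M (nat_lit 395) (B (L (nat_lit 394) ln14_11_1 ln14_11_1_ok) (L (nat_lit 396) ln15_11_1 ln15_11_1_ok))) (M (nat_lit 399) (B (L (nat_lit 398) ln11_11_0 ln11_11_0_ok) (L (nat_lit 400) ln12_11_0 ln12_11_0_ok))))) (M (nat_lit 362) (B (M (nat_lit 330) (B (L (nat_lit 329) ln13_11_3 ln13_11_3_ok) (L (nat_lit 331) ln14_11_3 ln14_11_3_ok))) (M (nat_lit 394) (B (L (nat_lit 393) ln13_11_1 ln13_11_1_ok) (L (nat_lit 395) ln14_11_1 ln14_11_1_ok)))))))))))))))))))))) (nat_lit 5954262830815946494440468064007740237496571878468728087513875999273036838532266441790969898967138332125836366047228135112217242456098340864) (nat_lit 1179363258141160341632306725047366259573550196497237415160331697371631828361658356064383165374415746599605055892935606566971869986266611494724268663219408082993611276288) (nat_lit 1179363258141160341632306725047366259573550196497237415160331697371631828361658356064383165374415746599605055892935606566971869986266611494724268663219408082993611276288)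 (by decide +kernel)
noncomputable def c20_n3788 : Cert := (M (nat_lit 398) (B (M (nat_lit 366) (B (L (nat_lit 493) ln13_15_6 ln13_15_6_ok) (M (nat_lit 334) (B (L (nat_lit 302) ln14_9_5 ln14_9_5_ok) (L (nat_lit 430) ln14_10_5 ln14_10_5_ok))))) (B (M (nat_lit 493) (B (L (nat_lit 366) ln13_15_6 ln13_15_6_ok) (M (nat_lit 525) (B (L (nat_lit 430) ln13_16_6 ln13_16_6_ok) (M (nat_lit 396) (B (L (nat_lit 364) ln13_15_7 ln13_15_7_ok) (L (nat_lit 428) ln13_16_7 ln13_16_7_ok))))))) (B (M (nat_lit 396) (B (M (nat_lit 493) (B (L (nat_lit 364) ln13_15_7 ln13_15_7_ok) (M (nat_lit 525) (B (L (nat_lit 428) ln13_16_7 ln13_16_7_ok) (L (nat_lit 430) ln13_16_6 ln13_16_6_ok))))) (B (M (nat_lit 399) (B (M (nat_lit 428) (B (L (nat_lit 427) ln15_12_1 ln15_12_1_ok) (L (nat_lit 400) ln16_12_1 ln16_12_1_ok))) (B (M (nat_lit 395) (B (M (nat_lit 427) (B (L (nat_lit 426) ln14_12_1 ln14_12_1_ok) (L (nat_lit 428) ln15_12_1 ln15_12_1_ok)))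 (M (nat_lit 362) (B (L (nat_lit 363) ln14_12_3 ln14_12_3_ok) (M (nat_lit 394) (B (L (nat_lit 361) ln13_12_3 ln13_12_3_ok) (L (nat_lit 430) ln10_12_0 ln10_12_0_ok))))))) (B (M (nat_lit 400) (B (L (nat_lit 428) ln16_12_1 ln16_12_1_ok) (M (nat_lit 368) (B (L (nat_lit 367) ln12_12_2 ln12_12_2_ok) (L (nat_lit 369) ln13_12_2 ln13_12_2_ok))))) (M (nat_lit 400) (B (M (nat_lit 368) (B (L (nat_lit 367) ln12_12_2 ln12_12_2_ok) (L (nat_lit 369) ln13_12_2 ln13_12_2_ok))) (M (nat_lit 401) (B (L (nat_lit 430) ln17_12_1 ln17_12_1_ok) (M (nat_lit 433) (B (L (nat_lit 432) ln13_12_0 ln13_12_0_ok) (L (nat_lit 434) ln14_12_0 ln14_12_0_ok))))))))))) (B (M (nat_lit 493) (B (L (nat_lit 364) ln13_15_7 ln13_15_7_ok) (M (nat_lit 525) (B (L (nat_lit 430) ln13_16_6 ln13_16_6_ok) (M (nat_lit 524) (B (L (nat_lit 492) ln13_12_5 ln13_12_5_ok) (L (nat_lit 556) ln13_13_5 ln13_13_5_ok))))))) (M (nat_lit 399) (B (M (nat_lit 364) (B (L (nat_lit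 363) ln15_12_3 ln15_12_3_ok) (L (nat_lit 493) ln13_15_7 ln13_15_7_ok))) (M (nat_lit 428) (B (L (nat_lit 427) ln15_12_1 ln15_12_1_ok) (L (nat_lit 400) ln16_12_1 ln16_12_1_ok))))))))) (B (M (nat_lit 493) (B (L (nat_lit 366) ln13_15_6 ln13_15_6_ok) (M (nat_lit 525) (B (M (nat_lit 396) (B (L (nat_lit 364) ln13_15_7 ln13_15_7_ok) (L (nat_lit 428) ln13_16_7 ln13_16_7_ok))) (M (nat_lit 526) (B (L (nat_lit 494) ln13_12_4 ln13_12_4_ok) (L (nat_lit 558) ln13_13_4 ln13_13_4_ok))))))) (M (nat_lit 399) (B (M (nat_lit 428) (B (L (nat_lit 400) ln16_12_1 ln16_12_1_ok) (M (nat_lit 427) (B (L (nat_lit 396) ln15_12_1 ln15_12_1_ok) (L (nat_lit 426) ln10_13_2 ln10_13_2_ok))))) (B (M (nat_lit 428) (B (L (nat_lit 400) ln16_12_1 ln16_12_1_ok) (M (nat_lit 427) (B (L (nat_lit 426) ln10_13_2 ln10_13_2_ok) (L (nat_lit 430) ln11_13_2 ln11_13_2_ok))))) (B (M (nat_lit 396) (B (M (nat_lit 428) (B (L (nat_lit 427) ln15_12_1 ln15_12_1_ok)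 (M (nat_lit 364) (B (L (nat_lit 332) ln12_10_4 ln12_10_4_ok) (L (nat_lit 363) ln15_12_3 ln15_12_3_ok))))) (B (M (nat_lit 395) (B (M (nat_lit 367) (B (L (nat_lit 366) ln11_12_2 ln11_12_2_ok) (L (nat_lit 368) ln12_12_2 ln12_12_2_ok))) (M (nat_lit 427) (B (L (nat_lit 426) ln14_12_1 ln14_12_1_ok) (L (nat_lit 428) ln15_12_1 ln15_12_1_ok))))) (M (nat_lit 395) (B (M (nat_lit 363) (B (L (nat_lit 362) ln14_12_3 ln14_12_3_ok) (L (nat_lit 364) ln15_12_3 ln15_12_3_ok))) (M (nat_lit 367) (B (L (nat_lit 366) ln11_12_2 ln11_12_2_ok) (L (nat_lit 368) ln12_12_2 ln12_12_2_ok)))))))) (B (M (nat_lit 428) (B (L (nat_lit 400) ln16_12_1 ln16_12_1_ok) (M (nat_lit 427) (B (L (nat_lit 396) ln15_12_1 ln15_12_1_ok) (L (nat_lit 430) ln11_13_2 ln11_13_2_ok))))) (B (M (nat_lit 400) (B (L (nat_lit 428) ln16_12_1 ln16_12_1_ok) (M (nat_lit 401) (B (L (nat_lit 430) ln17_12_1 ln17_12_1_ok) (M (nat_lit 433) (B (L (nat_lit 432) ln13_12_0 ln13_12_0_ok)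 (L (nat_lit 434) ln14_12_0 ln14_12_0_ok))))))) (M (nat_lit 396) (B (M (nat_lit 395) (B (M (nat_lit 363) (B (L (nat_lit 362) ln14_12_3 ln14_12_3_ok) (L (nat_lit 364) ln15_12_3 ln15_12_3_ok))) (M (nat_lit 367) (B (L (nat_lit 366) ln11_12_2 ln11_12_2_ok) (L (nat_lit 368) ln12_12_2 ln12_12_2_ok))))) (B (M (nat_lit 400) (B (M (nat_lit 368) (B (L (nat_lit 367) ln12_12_2 ln12_12_2_ok) (L (nat_lit 369) ln13_12_2 ln13_12_2_ok))) (M (nat_lit 401) (B (L (nat_lit 430) ln17_12_1 ln17_12_1_ok) (M (nat_lit 433) (B (L (nat_lit 432) ln13_12_0 ln13_12_0_ok) (L (nat_lit 434) ln14_12_0 ln14_12_0_ok))))))) (M (nat_lit 395) (B (M (nat_lit 363) (B (L (nat_lit 362) ln14_12_3 ln14_12_3_ok) (L (nat_lit 364) ln15_12_3 ln15_12_3_ok))) (M (nat_lit 394) (B (L (nat_lit 430) ln10_12_0 ln10_12_0_ok) (M (nat_lit 426) (B (L (nat_lit 425) ln13_12_1 ln13_12_1_ok) (L (nat_lit 427) ln14_12_1 ln14_12_1_ok)))))))))))))))))))))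
theorem c20_s3790 : Sem (nat_lit 5954262830815946494440468064007740237496571878468728087513875999273036838532266441790969898967138332125836366047228135112217242456098340864) (nat_lit 1179363258141160341632306725044389128158835390673547384843227127884084861014738880250663760192626599440590394638732942605191358839779957423111929796400419892128869515264) (nat_lit 1179363258141160341632306725044389128158835390673547384843227127884084861014738880250663760192626599440590394638732942605191358839779957423111929796400419892128869515264) :=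
  sem_of_chk (M (nat_lit 397) (B (M (nat_lit 493) (B (M (nat_lit 525) (B (M (nat_lit 396) (B (L (nat_lit 364) ln13_15_7 ln13_15_7_ok) (L (nat_lit 428) ln13_16_7 ln13_16_7_ok))) (M (nat_lit 524) (B (L (nat_lit 492) ln13_12_5 ln13_12_5_ok) (L (nat_lit 556) ln13_13_5 ln13_13_5_ok))))) (B (M (nat_lit 525) (B (M (nat_lit 524) (B (L (nat_lit 492) ln13_12_5 ln13_12_5_ok) (L (nat_lit 556) ln13_13_5 ln13_13_5_ok))) (M (nat_lit 526) (B (L (nat_lit 494) ln13_12_4 ln13_12_4_ok) (L (nat_lit 558) ln13_13_4 ln13_13_4_ok))))) (B (M (nat_lit 525) (B (M (nat_lit 396) (B (L (nat_lit 364) ln13_15_7 ln13_15_7_ok) (L (nat_lit 428) ln13_16_7 ln13_16_7_ok))) (M (nat_lit 526) (B (L (nat_lit 494) ln13_12_4 ln13_12_4_ok) (L (nat_lit 558) ln13_13_4 ln13_13_4_ok))))) (M (nat_lit 365) (B (M (nat_lit 364) (B (L (nat_lit 332) ln13_14_7 ln13_14_7_ok) (L (nat_lit 396) ln13_15_7 ln13_15_7_ok))) (M (nat_lit 494) (B (L (nat_lit 462) ln13_11_4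 ln13_11_4_ok) (L (nat_lit 526) ln13_12_4 ln13_12_4_ok))))))))) (B (M (nat_lit 493) (B (M (nat_lit 525) (B (M (nat_lit 396) (B (L (nat_lit 364) ln13_15_7 ln13_15_7_ok) (L (nat_lit 428) ln13_16_7 ln13_16_7_ok))) (M (nat_lit 398) (B (L (nat_lit 366) ln13_15_6 ln13_15_6_ok) (L (nat_lit 430) ln13_16_6 ln13_16_6_ok))))) (B (M (nat_lit 525) (B (M (nat_lit 398) (B (L (nat_lit 366) ln13_15_6 ln13_15_6_ok) (L (nat_lit 430) ln13_16_6 ln13_16_6_ok))) (M (nat_lit 526) (B (L (nat_lit 494) ln13_12_4 ln13_12_4_ok) (L (nat_lit 558) ln13_13_4 ln13_13_4_ok))))) (B (M (nat_lit 525) (B (M (nat_lit 396) (B (L (nat_lit 364) ln13_15_7 ln13_15_7_ok) (L (nat_lit 428) ln13_16_7 ln13_16_7_ok))) (M (nat_lit 526) (B (L (nat_lit 494) ln13_12_4 ln13_12_4_ok) (L (nat_lit 558) ln13_13_4 ln13_13_4_ok))))) (M (nat_lit 365) (B (M (nat_lit 366) (B (L (nat_lit 334) ln13_14_6 ln13_14_6_ok) (L (nat_lit 398) ln13_15_6 ln13_15_6_ok))) (M (nat_lit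 494) (B (L (nat_lit 462) ln13_11_4 ln13_11_4_ok) (L (nat_lit 526) ln13_12_4 ln13_12_4_ok))))))))) (B (M (nat_lit 493) (B (M (nat_lit 525) (B (M (nat_lit 524) (B (L (nat_lit 492) ln13_12_5 ln13_12_5_ok) (L (nat_lit 556) ln13_13_5 ln13_13_5_ok))) (M (nat_lit 526) (B (L (nat_lit 494) ln13_12_4 ln13_12_4_ok) (L (nat_lit 558) ln13_13_4 ln13_13_4_ok))))) (B (M (nat_lit 525) (B (M (nat_lit 398) (B (L (nat_lit 366) ln13_15_6 ln13_15_6_ok) (L (nat_lit 430) ln13_16_6 ln13_16_6_ok))) (M (nat_lit 526) (B (L (nat_lit 494) ln13_12_4 ln13_12_4_ok) (L (nat_lit 558) ln13_13_4 ln13_13_4_ok))))) (B (M (nat_lit 525) (B (M (nat_lit 398) (B (L (nat_lit 366) ln13_15_6 ln13_15_6_ok) (L (nat_lit 430) ln13_16_6 ln13_16_6_ok))) (M (nat_lit 524) (B (L (nat_lit 492) ln13_12_5 ln13_12_5_ok) (L (nat_lit 556) ln13_13_5 ln13_13_5_ok))))) (M (nat_lit 365) (B (M (nat_lit 366) (B (L (nat_lit 334) ln13_14_6 ln13_14_6_ok) (L (nat_lit 398) ln13_15_6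 ln13_15_6_ok))) (M (nat_lit 494) (B (L (nat_lit 462) ln13_11_4 ln13_11_4_ok) (L (nat_lit 526) ln13_12_4 ln13_12_4_ok))))))))) (B c20_n3788 (B (M (nat_lit 365) (B (M (nat_lit 333) (B (M (nat_lit 332) (B (L (nat_lit 300) ln13_13_7 ln13_13_7_ok) (L (nat_lit 364) ln13_14_7 ln13_14_7_ok))) (M (nat_lit 334) (B (L (nat_lit 302) ln13_13_6 ln13_13_6_ok) (L (nat_lit 366) ln13_14_6 ln13_14_6_ok))))) (B (M (nat_lit 333) (B (M (nat_lit 334) (B (L (nat_lit 302) ln13_13_6 ln13_13_6_ok) (L (nat_lit 366) ln13_14_6 ln13_14_6_ok))) (M (nat_lit 462) (B (L (nat_lit 430) ln13_10_4 ln13_10_4_ok) (L (nat_lit 494) ln13_11_4 ln13_11_4_ok))))) (B (M (nat_lit 333) (B (M (nat_lit 332) (B (L (nat_lit 300) ln13_13_7 ln13_13_7_ok) (L (nat_lit 364) ln13_14_7 ln13_14_7_ok))) (M (nat_lit 462) (B (L (nat_lit 430) ln13_10_4 ln13_10_4_ok) (L (nat_lit 494) ln13_11_4 ln13_11_4_ok))))) (M (nat_lit 364) (B (L (nat_lit 332) ln13_14_7 ln13_14_7_ok)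 (M (nat_lit 366) (B (L (nat_lit 334) ln13_14_6 ln13_14_6_ok) (M (nat_lit 363) (B (M (nat_lit 398) (B (L (nat_lit 362) ln10_11_0 ln10_11_0_ok) (L (nat_lit 399) ln11_11_0 ln11_11_0_ok))) (B (M (nat_lit 367) (B (M (nat_lit 395) (B (L (nat_lit 394) ln14_11_1 ln14_11_1_ok) (L (nat_lit 396) ln15_11_1 ln15_11_1_ok))) (M (nat_lit 399) (B (L (nat_lit 398) ln11_11_0 ln11_11_0_ok) (L (nat_lit 400) ln12_11_0 ln12_11_0_ok))))) (M (nat_lit 362) (B (M (nat_lit 330) (B (L (nat_lit 329) ln13_11_3 ln13_11_3_ok) (L (nat_lit 331) ln14_11_3 ln14_11_3_ok))) (M (nat_lit 394) (B (L (nat_lit 393) ln13_11_1 ln13_11_1_ok) (L (nat_lit 395) ln14_11_1 ln14_11_1_ok)))))))))))))))) (M (nat_lit 493) (B (M (nat_lit 525) (B (M (nat_lit 396) (B (L (nat_lit 364) ln13_15_7 ln13_15_7_ok) (L (nat_lit 428) ln13_16_7 ln13_16_7_ok))) (M (nat_lit 524) (B (L (nat_lit 492) ln13_12_5 ln13_12_5_ok) (L (nat_lit 556) ln13_13_5 ln13_13_5_ok))))) (B (M (nat_lit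 525) (B (M (nat_lit 398) (B (L (nat_lit 366) ln13_15_6 ln13_15_6_ok) (L (nat_lit 430) ln13_16_6 ln13_16_6_ok))) (M (nat_lit 524) (B (L (nat_lit 492) ln13_12_5 ln13_12_5_ok) (L (nat_lit 556) ln13_13_5 ln13_13_5_ok))))) (B (M (nat_lit 525) (B (M (nat_lit 396) (B (L (nat_lit 364) ln13_15_7 ln13_15_7_ok) (L (nat_lit 428) ln13_16_7 ln13_16_7_ok))) (M (nat_lit 398) (B (L (nat_lit 366) ln13_15_6 ln13_15_6_ok) (L (nat_lit 430) ln13_16_6 ln13_16_6_ok))))) (M (nat_lit 365) (B (M (nat_lit 364) (B (L (nat_lit 332) ln13_14_7 ln13_14_7_ok) (L (nat_lit 396) ln13_15_7 ln13_15_7_ok))) (M (nat_lit 366) (B (L (nat_lit 334) ln13_14_6 ln13_14_6_ok) (L (nat_lit 398) ln13_15_6 ln13_15_6_ok))))))))))))))) (nat_lit 5954262830815946494440468064007740237496571878468728087513875999273036838532266441790969898967138332125836366047228135112217242456098340864) (nat_lit 1179363258141160341632306725044389128158835390673547384843227127884084861014738880250663760192626599440590394638732942605191358839779957423111929796400419892128869515264)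 (nat_lit 1179363258141160341632306725044389128158835390673547384843227127884084861014738880250663760192626599440590394638732942605191358839779957423111929796400419892128869515264) (by decide +kernel)
theorem c20_s3791 : Sem (nat_lit 5954262830815946494440468064007740237496571878468728087513875999273036838532266441790969898967138332125836366047228135112217242456098340864) (nat_lit 1179363258141160341632306725035457733914690973202477293891894631080781768308157336964731229951040152503155144317159292392077567728119078340727203603956377169910388752384) (nat_lit 1179363258141160341632306725035457733914690973202477293891894631080781768308157336964731229951040152503155144317159292392077567728119078340727203603956377169910388752384) :=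
  sem_of_chk (M (nat_lit 397) (B (M (nat_lit 493) (B (M (nat_lit 365) (B (M (nat_lit 366) (B (L (nat_lit 334) ln13_14_6 ln13_14_6_ok) (L (nat_lit 398) ln13_15_6 ln13_15_6_ok))) (M (nat_lit 492) (B (L (nat_lit 460) ln13_11_5 ln13_11_5_ok) (L (nat_lit 524) ln13_12_5 ln13_12_5_ok))))) (B (M (nat_lit 365) (B (M (nat_lit 364) (B (L (nat_lit 332) ln13_14_7 ln13_14_7_ok) (L (nat_lit 396) ln13_15_7 ln13_15_7_ok))) (M (nat_lit 492) (B (L (nat_lit 460) ln13_11_5 ln13_11_5_ok) (L (nat_lit 524) ln13_12_5 ln13_12_5_ok))))) (B (M (nat_lit 525) (B (M (nat_lit 396) (B (L (nat_lit 364) ln13_15_7 ln13_15_7_ok) (L (nat_lit 428) ln13_16_7 ln13_16_7_ok))) (M (nat_lit 524) (B (L (nat_lit 492) ln13_12_5 ln13_12_5_ok) (L (nat_lit 556) ln13_13_5 ln13_13_5_ok))))) (M (nat_lit 365) (B (M (nat_lit 364) (B (L (nat_lit 332) ln13_14_7 ln13_14_7_ok) (L (nat_lit 396) ln13_15_7 ln13_15_7_ok))) (M (nat_lit 366) (B (L (nat_lit 334) ln13_14_6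 ln13_14_6_ok) (L (nat_lit 398) ln13_15_6 ln13_15_6_ok))))))))) (B (M (nat_lit 493) (B (M (nat_lit 525) (B (M (nat_lit 396) (B (L (nat_lit 364) ln13_15_7 ln13_15_7_ok) (L (nat_lit 428) ln13_16_7 ln13_16_7_ok))) (M (nat_lit 526) (B (L (nat_lit 494) ln13_12_4 ln13_12_4_ok) (L (nat_lit 558) ln13_13_4 ln13_13_4_ok))))) (M (nat_lit 365) (B (M (nat_lit 366) (B (L (nat_lit 334) ln13_14_6 ln13_14_6_ok) (L (nat_lit 398) ln13_15_6 ln13_15_6_ok))) (M (nat_lit 492) (B (L (nat_lit 460) ln13_11_5 ln13_11_5_ok) (L (nat_lit 524) ln13_12_5 ln13_12_5_ok))))))) (B (M (nat_lit 493) (B (M (nat_lit 525) (B (M (nat_lit 398) (B (L (nat_lit 366) ln13_15_6 ln13_15_6_ok) (L (nat_lit 430) ln13_16_6 ln13_16_6_ok))) (M (nat_lit 526) (B (L (nat_lit 494) ln13_12_4 ln13_12_4_ok) (L (nat_lit 558) ln13_13_4 ln13_13_4_ok))))) (B (M (nat_lit 525) (B (M (nat_lit 396) (B (L (nat_lit 364) ln13_15_7 ln13_15_7_ok) (L (nat_lit 428) ln13_16_7 ln13_16_7_ok)))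 (M (nat_lit 526) (B (L (nat_lit 494) ln13_12_4 ln13_12_4_ok) (L (nat_lit 558) ln13_13_4 ln13_13_4_ok))))) (B (M (nat_lit 525) (B (M (nat_lit 396) (B (L (nat_lit 364) ln13_15_7 ln13_15_7_ok) (L (nat_lit 428) ln13_16_7 ln13_16_7_ok))) (M (nat_lit 398) (B (L (nat_lit 366) ln13_15_6 ln13_15_6_ok) (L (nat_lit 430) ln13_16_6 ln13_16_6_ok))))) (M (nat_lit 365) (B (M (nat_lit 364) (B (L (nat_lit 332) ln13_14_7 ln13_14_7_ok) (L (nat_lit 396) ln13_15_7 ln13_15_7_ok))) (M (nat_lit 492) (B (L (nat_lit 460) ln13_11_5 ln13_11_5_ok) (L (nat_lit 524) ln13_12_5 ln13_12_5_ok))))))))) (B (M (nat_lit 493) (B (M (nat_lit 525) (B (M (nat_lit 524) (B (L (nat_lit 492) ln13_12_5 ln13_12_5_ok) (L (nat_lit 556) ln13_13_5 ln13_13_5_ok))) (M (nat_lit 526) (B (L (nat_lit 494) ln13_12_4 ln13_12_4_ok) (L (nat_lit 558) ln13_13_4 ln13_13_4_ok))))) (B (M (nat_lit 525) (B (M (nat_lit 398) (B (L (nat_lit 366) ln13_15_6 ln13_15_6_ok) (L (nat_lit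 430) ln13_16_6 ln13_16_6_ok))) (M (nat_lit 526) (B (L (nat_lit 494) ln13_12_4 ln13_12_4_ok) (L (nat_lit 558) ln13_13_4 ln13_13_4_ok))))) (B (M (nat_lit 525) (B (M (nat_lit 398) (B (L (nat_lit 366) ln13_15_6 ln13_15_6_ok) (L (nat_lit 430) ln13_16_6 ln13_16_6_ok))) (M (nat_lit 524) (B (L (nat_lit 492) ln13_12_5 ln13_12_5_ok) (L (nat_lit 556) ln13_13_5 ln13_13_5_ok))))) (M (nat_lit 365) (B (M (nat_lit 366) (B (L (nat_lit 334) ln13_14_6 ln13_14_6_ok) (L (nat_lit 398) ln13_15_6 ln13_15_6_ok))) (M (nat_lit 492) (B (L (nat_lit 460) ln13_11_5 ln13_11_5_ok) (L (nat_lit 524) ln13_12_5 ln13_12_5_ok))))))))) (B (K (nat_lit 5954262830815946494763249298768603811203561774969104571805089223376689777636098861358550851719243481454542035207245364041705138952691777536) (nat_lit 1179363258141160341632306725035457733914690973202154512657058614144400862365027455428236139680362356631096274835112754716823869591762354601436200802661742936674824880128)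 (nat_lit 1179363258141160341632306725035457733914690973202154512657058614144400862365027455428236139680362356631096274835112754716823869591762354601436200802661742936674824880128) c20_s3775) (B (M (nat_lit 493) (B (M (nat_lit 525) (B (M (nat_lit 524) (B (L (nat_lit 492) ln13_12_5 ln13_12_5_ok) (L (nat_lit 556) ln13_13_5 ln13_13_5_ok))) (M (nat_lit 526) (B (L (nat_lit 494) ln13_12_4 ln13_12_4_ok) (L (nat_lit 558) ln13_13_4 ln13_13_4_ok))))) (B (M (nat_lit 525) (B (M (nat_lit 396) (B (L (nat_lit 364) ln13_15_7 ln13_15_7_ok) (L (nat_lit 428) ln13_16_7 ln13_16_7_ok))) (M (nat_lit 526) (B (L (nat_lit 494) ln13_12_4 ln13_12_4_ok) (L (nat_lit 558) ln13_13_4 ln13_13_4_ok))))) (B (M (nat_lit 525) (B (M (nat_lit 396) (B (L (nat_lit 364) ln13_15_7 ln13_15_7_ok) (L (nat_lit 428) ln13_16_7 ln13_16_7_ok))) (M (nat_lit 524) (B (L (nat_lit 492) ln13_12_5 ln13_12_5_ok) (L (nat_lit 556) ln13_13_5 ln13_13_5_ok))))) (M (nat_lit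 365) (B (M (nat_lit 364) (B (L (nat_lit 332) ln13_14_7 ln13_14_7_ok) (L (nat_lit 396) ln13_15_7 ln13_15_7_ok))) (M (nat_lit 492) (B (L (nat_lit 460) ln13_11_5 ln13_11_5_ok) (L (nat_lit 524) ln13_12_5 ln13_12_5_ok))))))))) (B (M (nat_lit 493) (B (M (nat_lit 525) (B (M (nat_lit 398) (B (L (nat_lit 366) ln13_15_6 ln13_15_6_ok) (L (nat_lit 430) ln13_16_6 ln13_16_6_ok))) (M (nat_lit 526) (B (L (nat_lit 494) ln13_12_4 ln13_12_4_ok) (L (nat_lit 558) ln13_13_4 ln13_13_4_ok))))) (B (M (nat_lit 525) (B (M (nat_lit 396) (B (L (nat_lit 364) ln13_15_7 ln13_15_7_ok) (L (nat_lit 428) ln13_16_7 ln13_16_7_ok))) (M (nat_lit 526) (B (L (nat_lit 494) ln13_12_4 ln13_12_4_ok) (L (nat_lit 558) ln13_13_4 ln13_13_4_ok))))) (B (M (nat_lit 525) (B (M (nat_lit 396) (B (L (nat_lit 364) ln13_15_7 ln13_15_7_ok) (L (nat_lit 428) ln13_16_7 ln13_16_7_ok))) (M (nat_lit 398) (B (L (nat_lit 366) ln13_15_6 ln13_15_6_ok) (L (nat_lit 430) ln13_16_6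 ln13_16_6_ok))))) (M (nat_lit 365) (B (M (nat_lit 364) (B (L (nat_lit 332) ln13_14_7 ln13_14_7_ok) (L (nat_lit 396) ln13_15_7 ln13_15_7_ok))) (M (nat_lit 366) (B (L (nat_lit 334) ln13_14_6 ln13_14_6_ok) (L (nat_lit 398) ln13_15_6 ln13_15_6_ok))))))))) (M (nat_lit 365) (B (M (nat_lit 333) (B (M (nat_lit 334) (B (L (nat_lit 302) ln13_13_6 ln13_13_6_ok) (L (nat_lit 366) ln13_14_6 ln13_14_6_ok))) (M (nat_lit 460) (B (L (nat_lit 428) ln13_10_5 ln13_10_5_ok) (L (nat_lit 492) ln13_11_5 ln13_11_5_ok))))) (B (M (nat_lit 333) (B (M (nat_lit 332) (B (L (nat_lit 300) ln13_13_7 ln13_13_7_ok) (L (nat_lit 364) ln13_14_7 ln13_14_7_ok))) (M (nat_lit 460) (B (L (nat_lit 428) ln13_10_5 ln13_10_5_ok) (L (nat_lit 492) ln13_11_5 ln13_11_5_ok))))) (M (nat_lit 364) (B (L (nat_lit 332) ln13_14_7 ln13_14_7_ok) (M (nat_lit 366) (B (L (nat_lit 334) ln13_14_6 ln13_14_6_ok) (M (nat_lit 363) (B (M (nat_lit 398) (B (L (nat_lit 362) ln10_11_0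 ln10_11_0_ok) (L (nat_lit 399) ln11_11_0 ln11_11_0_ok))) (B (M (nat_lit 367) (B (M (nat_lit 395) (B (L (nat_lit 394) ln14_11_1 ln14_11_1_ok) (L (nat_lit 396) ln15_11_1 ln15_11_1_ok))) (M (nat_lit 399) (B (L (nat_lit 398) ln11_11_0 ln11_11_0_ok) (L (nat_lit 400) ln12_11_0 ln12_11_0_ok))))) (M (nat_lit 362) (B (M (nat_lit 330) (B (L (nat_lit 329) ln13_11_3 ln13_11_3_ok) (L (nat_lit 331) ln14_11_3 ln14_11_3_ok))) (M (nat_lit 394) (B (L (nat_lit 393) ln13_11_1 ln13_11_1_ok) (L (nat_lit 395) ln14_11_1 ln14_11_1_ok))))))))))))))))))))))) (nat_lit 5954262830815946494440468064007740237496571878468728087513875999273036838532266441790969898967138332125836366047228135112217242456098340864) (nat_lit 1179363258141160341632306725035457733914690973202477293891894631080781768308157336964731229951040152503155144317159292392077567728119078340727203603956377169910388752384) (nat_lit 1179363258141160341632306725035457733914690973202477293891894631080781768308157336964731229951040152503155144317159292392077567728119078340727203603956377169910388752384)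 (by decide +kernel)
noncomputable def c20_n3800 : Cert := (M (nat_lit 398) (B (M (nat_lit 366) (B (L (nat_lit 493) ln13_15_6 ln13_15_6_ok) (M (nat_lit 334) (B (L (nat_lit 302) ln14_9_5 ln14_9_5_ok) (L (nat_lit 430) ln14_10_5 ln14_10_5_ok))))) (B (M (nat_lit 493) (B (L (nat_lit 366) ln13_15_6 ln13_15_6_ok) (M (nat_lit 525) (B (L (nat_lit 430) ln13_16_6 ln13_16_6_ok) (M (nat_lit 396) (B (L (nat_lit 364) ln13_15_7 ln13_15_7_ok) (L (nat_lit 428) ln13_16_7 ln13_16_7_ok))))))) (B (M (nat_lit 396) (B (M (nat_lit 493) (B (L (nat_lit 364) ln13_15_7 ln13_15_7_ok) (M (nat_lit 525) (B (L (nat_lit 428) ln13_16_7 ln13_16_7_ok) (L (nat_lit 430) ln13_16_6 ln13_16_6_ok))))) (B (M (nat_lit 399) (B (M (nat_lit 428) (B (L (nat_lit 427) ln15_12_1 ln15_12_1_ok) (L (nat_lit 400) ln16_12_1 ln16_12_1_ok))) (B (M (nat_lit 395) (B (M (nat_lit 427) (B (L (nat_lit 426) ln14_12_1 ln14_12_1_ok) (L (nat_lit 428) ln15_12_1 ln15_12_1_ok)))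 (M (nat_lit 362) (B (L (nat_lit 363) ln14_12_3 ln14_12_3_ok) (M (nat_lit 394) (B (L (nat_lit 361) ln13_12_3 ln13_12_3_ok) (L (nat_lit 430) ln10_12_0 ln10_12_0_ok))))))) (B (M (nat_lit 400) (B (L (nat_lit 428) ln16_12_1 ln16_12_1_ok) (M (nat_lit 368) (B (L (nat_lit 367) ln12_12_2 ln12_12_2_ok) (L (nat_lit 369) ln13_12_2 ln13_12_2_ok))))) (M (nat_lit 400) (B (M (nat_lit 368) (B (L (nat_lit 367) ln12_12_2 ln12_12_2_ok) (L (nat_lit 369) ln13_12_2 ln13_12_2_ok))) (M (nat_lit 401) (B (L (nat_lit 430) ln17_12_1 ln17_12_1_ok) (M (nat_lit 433) (B (L (nat_lit 432) ln13_12_0 ln13_12_0_ok) (L (nat_lit 434) ln14_12_0 ln14_12_0_ok))))))))))) (B (M (nat_lit 493) (B (L (nat_lit 364) ln13_15_7 ln13_15_7_ok) (M (nat_lit 525) (B (L (nat_lit 430) ln13_16_6 ln13_16_6_ok) (M (nat_lit 526) (B (L (nat_lit 494) ln13_12_4 ln13_12_4_ok) (L (nat_lit 558) ln13_13_4 ln13_13_4_ok))))))) (M (nat_lit 399) (B (M (nat_lit 364) (B (L (nat_lit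 363) ln15_12_3 ln15_12_3_ok) (L (nat_lit 493) ln13_15_7 ln13_15_7_ok))) (M (nat_lit 428) (B (L (nat_lit 427) ln15_12_1 ln15_12_1_ok) (L (nat_lit 400) ln16_12_1 ln16_12_1_ok))))))))) (B (M (nat_lit 493) (B (L (nat_lit 366) ln13_15_6 ln13_15_6_ok) (M (nat_lit 525) (B (M (nat_lit 396) (B (L (nat_lit 364) ln13_15_7 ln13_15_7_ok) (L (nat_lit 428) ln13_16_7 ln13_16_7_ok))) (M (nat_lit 526) (B (L (nat_lit 494) ln13_12_4 ln13_12_4_ok) (L (nat_lit 558) ln13_13_4 ln13_13_4_ok))))))) (M (nat_lit 399) (B (M (nat_lit 428) (B (L (nat_lit 400) ln16_12_1 ln16_12_1_ok) (M (nat_lit 427) (B (L (nat_lit 396) ln15_12_1 ln15_12_1_ok) (L (nat_lit 426) ln10_13_2 ln10_13_2_ok))))) (B (M (nat_lit 428) (B (L (nat_lit 400) ln16_12_1 ln16_12_1_ok) (M (nat_lit 427) (B (L (nat_lit 426) ln10_13_2 ln10_13_2_ok) (L (nat_lit 430) ln11_13_2 ln11_13_2_ok))))) (B (M (nat_lit 396) (B (M (nat_lit 428) (B (L (nat_lit 427) ln15_12_1 ln15_12_1_ok)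 (M (nat_lit 364) (B (L (nat_lit 332) ln12_10_4 ln12_10_4_ok) (L (nat_lit 363) ln15_12_3 ln15_12_3_ok))))) (B (M (nat_lit 395) (B (M (nat_lit 367) (B (L (nat_lit 366) ln11_12_2 ln11_12_2_ok) (L (nat_lit 368) ln12_12_2 ln12_12_2_ok))) (M (nat_lit 427) (B (L (nat_lit 426) ln14_12_1 ln14_12_1_ok) (L (nat_lit 428) ln15_12_1 ln15_12_1_ok))))) (M (nat_lit 395) (B (M (nat_lit 363) (B (L (nat_lit 362) ln14_12_3 ln14_12_3_ok) (L (nat_lit 364) ln15_12_3 ln15_12_3_ok))) (M (nat_lit 367) (B (L (nat_lit 366) ln11_12_2 ln11_12_2_ok) (L (nat_lit 368) ln12_12_2 ln12_12_2_ok)))))))) (B (M (nat_lit 428) (B (L (nat_lit 400) ln16_12_1 ln16_12_1_ok) (M (nat_lit 427) (B (L (nat_lit 396) ln15_12_1 ln15_12_1_ok) (L (nat_lit 430) ln11_13_2 ln11_13_2_ok))))) (B (M (nat_lit 400) (B (L (nat_lit 428) ln16_12_1 ln16_12_1_ok) (M (nat_lit 401) (B (L (nat_lit 430) ln17_12_1 ln17_12_1_ok) (M (nat_lit 433) (B (L (nat_lit 432) ln13_12_0 ln13_12_0_ok)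 (L (nat_lit 434) ln14_12_0 ln14_12_0_ok))))))) (M (nat_lit 396) (B (M (nat_lit 395) (B (M (nat_lit 363) (B (L (nat_lit 362) ln14_12_3 ln14_12_3_ok) (L (nat_lit 364) ln15_12_3 ln15_12_3_ok))) (M (nat_lit 367) (B (L (nat_lit 366) ln11_12_2 ln11_12_2_ok) (L (nat_lit 368) ln12_12_2 ln12_12_2_ok))))) (B (M (nat_lit 400) (B (M (nat_lit 368) (B (L (nat_lit 367) ln12_12_2 ln12_12_2_ok) (L (nat_lit 369) ln13_12_2 ln13_12_2_ok))) (M (nat_lit 401) (B (L (nat_lit 430) ln17_12_1 ln17_12_1_ok) (M (nat_lit 433) (B (L (nat_lit 432) ln13_12_0 ln13_12_0_ok) (L (nat_lit 434) ln14_12_0 ln14_12_0_ok))))))) (M (nat_lit 395) (B (M (nat_lit 363) (B (L (nat_lit 362) ln14_12_3 ln14_12_3_ok) (L (nat_lit 364) ln15_12_3 ln15_12_3_ok))) (M (nat_lit 394) (B (L (nat_lit 430) ln10_12_0 ln10_12_0_ok) (M (nat_lit 426) (B (L (nat_lit 425) ln13_12_1 ln13_12_1_ok) (L (nat_lit 427) ln14_12_1 ln14_12_1_ok)))))))))))))))))))))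
theorem c20_s3813 : Sem (nat_lit 5954262830815946494440468064007740237496571878468728087513875999273036838532266441790969898967138332125836366047228135112217242456098340864) (nat_lit 5065326623820289418802944641132088817528295596351244808236071048301551094176917314141297602435927292412604931623560998039612497486905203025820775800687101275794533176259010101248) (nat_lit 5065326623820289418802944641132088817528295596351244808236071048301551094176917314141297602435927292412604931623560998039612497486905203025820775800687101275794533176259010101248) :=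
  sem_of_chk (M (nat_lit 397) (B (M (nat_lit 493) (B (M (nat_lit 365) (B (M (nat_lit 366) (B (L (nat_lit 334) ln13_14_6 ln13_14_6_ok) (L (nat_lit 398) ln13_15_6 ln13_15_6_ok))) (M (nat_lit 494) (B (L (nat_lit 462) ln13_11_4 ln13_11_4_ok) (L (nat_lit 526) ln13_12_4 ln13_12_4_ok))))) (B (M (nat_lit 365) (B (M (nat_lit 364) (B (L (nat_lit 332) ln13_14_7 ln13_14_7_ok) (L (nat_lit 396) ln13_15_7 ln13_15_7_ok))) (M (nat_lit 494) (B (L (nat_lit 462) ln13_11_4 ln13_11_4_ok) (L (nat_lit 526) ln13_12_4 ln13_12_4_ok))))) (M (nat_lit 525) (B (M (nat_lit 396) (B (L (nat_lit 364) ln13_15_7 ln13_15_7_ok) (L (nat_lit 428) ln13_16_7 ln13_16_7_ok))) (M (nat_lit 398) (B (L (nat_lit 366) ln13_15_6 ln13_15_6_ok) (L (nat_lit 430) ln13_16_6 ln13_16_6_ok)))))))) (B (M (nat_lit 493) (B (M (nat_lit 525) (B (M (nat_lit 396) (B (L (nat_lit 364) ln13_15_7 ln13_15_7_ok) (L (nat_lit 428) ln13_16_7 ln13_16_7_ok))) (M (nat_lit 398) (B (L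 (nat_lit 366) ln13_15_6 ln13_15_6_ok) (L (nat_lit 430) ln13_16_6 ln13_16_6_ok))))) (B (M (nat_lit 525) (B (M (nat_lit 398) (B (L (nat_lit 366) ln13_15_6 ln13_15_6_ok) (L (nat_lit 430) ln13_16_6 ln13_16_6_ok))) (M (nat_lit 526) (B (L (nat_lit 494) ln13_12_4 ln13_12_4_ok) (L (nat_lit 558) ln13_13_4 ln13_13_4_ok))))) (B (M (nat_lit 525) (B (M (nat_lit 396) (B (L (nat_lit 364) ln13_15_7 ln13_15_7_ok) (L (nat_lit 428) ln13_16_7 ln13_16_7_ok))) (M (nat_lit 526) (B (L (nat_lit 494) ln13_12_4 ln13_12_4_ok) (L (nat_lit 558) ln13_13_4 ln13_13_4_ok))))) (M (nat_lit 365) (B (M (nat_lit 366) (B (L (nat_lit 334) ln13_14_6 ln13_14_6_ok) (L (nat_lit 398) ln13_15_6 ln13_15_6_ok))) (M (nat_lit 494) (B (L (nat_lit 462) ln13_11_4 ln13_11_4_ok) (L (nat_lit 526) ln13_12_4 ln13_12_4_ok))))))))) (B (M (nat_lit 493) (B (M (nat_lit 525) (B (M (nat_lit 396) (B (L (nat_lit 364) ln13_15_7 ln13_15_7_ok) (L (nat_lit 428) ln13_16_7 ln13_16_7_ok)))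 (M (nat_lit 398) (B (L (nat_lit 366) ln13_15_6 ln13_15_6_ok) (L (nat_lit 430) ln13_16_6 ln13_16_6_ok))))) (B (M (nat_lit 525) (B (M (nat_lit 398) (B (L (nat_lit 366) ln13_15_6 ln13_15_6_ok) (L (nat_lit 430) ln13_16_6 ln13_16_6_ok))) (M (nat_lit 526) (B (L (nat_lit 494) ln13_12_4 ln13_12_4_ok) (L (nat_lit 558) ln13_13_4 ln13_13_4_ok))))) (B (M (nat_lit 525) (B (M (nat_lit 396) (B (L (nat_lit 364) ln13_15_7 ln13_15_7_ok) (L (nat_lit 428) ln13_16_7 ln13_16_7_ok))) (M (nat_lit 526) (B (L (nat_lit 494) ln13_12_4 ln13_12_4_ok) (L (nat_lit 558) ln13_13_4 ln13_13_4_ok))))) (M (nat_lit 365) (B (M (nat_lit 364) (B (L (nat_lit 332) ln13_14_7 ln13_14_7_ok) (L (nat_lit 396) ln13_15_7 ln13_15_7_ok))) (M (nat_lit 494) (B (L (nat_lit 462) ln13_11_4 ln13_11_4_ok) (L (nat_lit 526) ln13_12_4 ln13_12_4_ok))))))))) (B (M (nat_lit 493) (B (M (nat_lit 365) (B (M (nat_lit 366) (B (L (nat_lit 334) ln13_14_6 ln13_14_6_ok) (L (nat_lit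 398) ln13_15_6 ln13_15_6_ok))) (M (nat_lit 494) (B (L (nat_lit 462) ln13_11_4 ln13_11_4_ok) (L (nat_lit 526) ln13_12_4 ln13_12_4_ok))))) (B (M (nat_lit 525) (B (M (nat_lit 398) (B (L (nat_lit 366) ln13_15_6 ln13_15_6_ok) (L (nat_lit 430) ln13_16_6 ln13_16_6_ok))) (M (nat_lit 526) (B (L (nat_lit 494) ln13_12_4 ln13_12_4_ok) (L (nat_lit 558) ln13_13_4 ln13_13_4_ok))))) (B (M (nat_lit 525) (B (M (nat_lit 526) (B (L (nat_lit 494) ln13_12_4 ln13_12_4_ok) (L (nat_lit 558) ln13_13_4 ln13_13_4_ok))) (M (nat_lit 557) (B (M (nat_lit 428) (B (L (nat_lit 396) ln13_16_7 ln13_16_7_ok) (L (nat_lit 460) ln13_17_7 ln13_17_7_ok))) (M (nat_lit 556) (B (L (nat_lit 524) ln13_13_5 ln13_13_5_ok) (L (nat_lit 588) ln13_14_5 ln13_14_5_ok))))))) (B (M (nat_lit 525) (B (M (nat_lit 398) (B (L (nat_lit 366) ln13_15_6 ln13_15_6_ok) (L (nat_lit 430) ln13_16_6 ln13_16_6_ok))) (M (nat_lit 557) (B (M (nat_lit 428) (B (L (nat_lit 396) ln13_16_7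 ln13_16_7_ok) (L (nat_lit 460) ln13_17_7 ln13_17_7_ok))) (M (nat_lit 558) (B (L (nat_lit 526) ln13_13_4 ln13_13_4_ok) (L (nat_lit 590) ln13_14_4 ln13_14_4_ok))))))) (M (nat_lit 525) (B (M (nat_lit 398) (B (L (nat_lit 366) ln13_15_6 ln13_15_6_ok) (L (nat_lit 430) ln13_16_6 ln13_16_6_ok))) (M (nat_lit 557) (B (M (nat_lit 428) (B (L (nat_lit 396) ln13_16_7 ln13_16_7_ok) (L (nat_lit 460) ln13_17_7 ln13_17_7_ok))) (M (nat_lit 556) (B (L (nat_lit 524) ln13_13_5 ln13_13_5_ok) (L (nat_lit 588) ln13_14_5 ln13_14_5_ok)))))))))))) (B c20_n3800 (B (M (nat_lit 493) (B (M (nat_lit 365) (B (M (nat_lit 364) (B (L (nat_lit 332) ln13_14_7 ln13_14_7_ok) (L (nat_lit 396) ln13_15_7 ln13_15_7_ok))) (M (nat_lit 494) (B (L (nat_lit 462) ln13_11_4 ln13_11_4_ok) (L (nat_lit 526) ln13_12_4 ln13_12_4_ok))))) (B (M (nat_lit 525) (B (M (nat_lit 396) (B (L (nat_lit 364) ln13_15_7 ln13_15_7_ok) (L (nat_lit 428) ln13_16_7 ln13_16_7_ok)))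 (M (nat_lit 526) (B (L (nat_lit 494) ln13_12_4 ln13_12_4_ok) (L (nat_lit 558) ln13_13_4 ln13_13_4_ok))))) (B (M (nat_lit 525) (B (M (nat_lit 526) (B (L (nat_lit 494) ln13_12_4 ln13_12_4_ok) (L (nat_lit 558) ln13_13_4 ln13_13_4_ok))) (M (nat_lit 557) (B (M (nat_lit 430) (B (L (nat_lit 398) ln13_16_6 ln13_16_6_ok) (L (nat_lit 462) ln13_17_6 ln13_17_6_ok))) (M (nat_lit 556) (B (L (nat_lit 524) ln13_13_5 ln13_13_5_ok) (L (nat_lit 588) ln13_14_5 ln13_14_5_ok))))))) (B (M (nat_lit 525) (B (M (nat_lit 396) (B (L (nat_lit 364) ln13_15_7 ln13_15_7_ok) (L (nat_lit 428) ln13_16_7 ln13_16_7_ok))) (M (nat_lit 557) (B (M (nat_lit 430) (B (L (nat_lit 398) ln13_16_6 ln13_16_6_ok) (L (nat_lit 462) ln13_17_6 ln13_17_6_ok))) (M (nat_lit 558) (B (L (nat_lit 526) ln13_13_4 ln13_13_4_ok) (L (nat_lit 590) ln13_14_4 ln13_14_4_ok))))))) (M (nat_lit 525) (B (M (nat_lit 396) (B (L (nat_lit 364) ln13_15_7 ln13_15_7_ok) (L (nat_lit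 428) ln13_16_7 ln13_16_7_ok))) (M (nat_lit 557) (B (M (nat_lit 430) (B (L (nat_lit 398) ln13_16_6 ln13_16_6_ok) (L (nat_lit 462) ln13_17_6 ln13_17_6_ok))) (M (nat_lit 556) (B (L (nat_lit 524) ln13_13_5 ln13_13_5_ok) (L (nat_lit 588) ln13_14_5 ln13_14_5_ok)))))))))))) (B (M (nat_lit 365) (B (M (nat_lit 333) (B (M (nat_lit 332) (B (L (nat_lit 300) ln13_13_7 ln13_13_7_ok) (L (nat_lit 364) ln13_14_7 ln13_14_7_ok))) (M (nat_lit 334) (B (L (nat_lit 302) ln13_13_6 ln13_13_6_ok) (L (nat_lit 366) ln13_14_6 ln13_14_6_ok))))) (B (M (nat_lit 333) (B (M (nat_lit 334) (B (L (nat_lit 302) ln13_13_6 ln13_13_6_ok) (L (nat_lit 366) ln13_14_6 ln13_14_6_ok))) (M (nat_lit 462) (B (L (nat_lit 430) ln13_10_4 ln13_10_4_ok) (L (nat_lit 494) ln13_11_4 ln13_11_4_ok))))) (B (M (nat_lit 333) (B (M (nat_lit 332) (B (L (nat_lit 300) ln13_13_7 ln13_13_7_ok) (L (nat_lit 364) ln13_14_7 ln13_14_7_ok))) (M (nat_lit 462) (B (L (nat_lit 430)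 ln13_10_4 ln13_10_4_ok) (L (nat_lit 494) ln13_11_4 ln13_11_4_ok))))) (M (nat_lit 493) (B (M (nat_lit 366) (B (L (nat_lit 334) ln13_14_6 ln13_14_6_ok) (L (nat_lit 398) ln13_15_6 ln13_15_6_ok))) (M (nat_lit 494) (B (L (nat_lit 462) ln13_11_4 ln13_11_4_ok) (L (nat_lit 526) ln13_12_4 ln13_12_4_ok))))))))) (B (M (nat_lit 365) (B (M (nat_lit 333) (B (M (nat_lit 334) (B (L (nat_lit 302) ln13_13_6 ln13_13_6_ok) (L (nat_lit 366) ln13_14_6 ln13_14_6_ok))) (M (nat_lit 462) (B (L (nat_lit 430) ln13_10_4 ln13_10_4_ok) (L (nat_lit 494) ln13_11_4 ln13_11_4_ok))))) (B (M (nat_lit 333) (B (M (nat_lit 332) (B (L (nat_lit 300) ln13_13_7 ln13_13_7_ok) (L (nat_lit 364) ln13_14_7 ln13_14_7_ok))) (M (nat_lit 462) (B (L (nat_lit 430) ln13_10_4 ln13_10_4_ok) (L (nat_lit 494) ln13_11_4 ln13_11_4_ok))))) (B (M (nat_lit 493) (B (M (nat_lit 364) (B (L (nat_lit 332) ln13_14_7 ln13_14_7_ok) (L (nat_lit 396) ln13_15_7 ln13_15_7_ok))) (M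 (nat_lit 494) (B (L (nat_lit 462) ln13_11_4 ln13_11_4_ok) (L (nat_lit 526) ln13_12_4 ln13_12_4_ok))))) (M (nat_lit 333) (B (M (nat_lit 332) (B (L (nat_lit 300) ln13_13_7 ln13_13_7_ok) (L (nat_lit 364) ln13_14_7 ln13_14_7_ok))) (M (nat_lit 334) (B (L (nat_lit 302) ln13_13_6 ln13_13_6_ok) (L (nat_lit 366) ln13_14_6 ln13_14_6_ok))))))))) (B (M (nat_lit 365) (B (M (nat_lit 493) (B (M (nat_lit 366) (B (L (nat_lit 334) ln13_14_6 ln13_14_6_ok) (L (nat_lit 398) ln13_15_6 ln13_15_6_ok))) (M (nat_lit 494) (B (L (nat_lit 462) ln13_11_4 ln13_11_4_ok) (L (nat_lit 526) ln13_12_4 ln13_12_4_ok))))) (B (M (nat_lit 493) (B (M (nat_lit 364) (B (L (nat_lit 332) ln13_14_7 ln13_14_7_ok) (L (nat_lit 396) ln13_15_7 ln13_15_7_ok))) (M (nat_lit 494) (B (L (nat_lit 462) ln13_11_4 ln13_11_4_ok) (L (nat_lit 526) ln13_12_4 ln13_12_4_ok))))) (B (M (nat_lit 364) (B (L (nat_lit 332) ln13_14_7 ln13_14_7_ok) (M (nat_lit 366) (B (L (nat_lit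 334) ln13_14_6 ln13_14_6_ok) (M (nat_lit 493) (B (L (nat_lit 396) ln13_15_7 ln13_15_7_ok) (L (nat_lit 398) ln13_15_6 ln13_15_6_ok))))))) (M (nat_lit 333) (B (M (nat_lit 332) (B (L (nat_lit 300) ln13_13_7 ln13_13_7_ok) (L (nat_lit 364) ln13_14_7 ln13_14_7_ok))) (M (nat_lit 334) (B (L (nat_lit 302) ln13_13_6 ln13_13_6_ok) (L (nat_lit 366) ln13_14_6 ln13_14_6_ok))))))))) (B (M (nat_lit 365) (B (M (nat_lit 333) (B (M (nat_lit 332) (B (L (nat_lit 300) ln13_13_7 ln13_13_7_ok) (L (nat_lit 364) ln13_14_7 ln13_14_7_ok))) (M (nat_lit 334) (B (L (nat_lit 302) ln13_13_6 ln13_13_6_ok) (L (nat_lit 366) ln13_14_6 ln13_14_6_ok))))) (B (M (nat_lit 333) (B (M (nat_lit 334) (B (L (nat_lit 302) ln13_13_6 ln13_13_6_ok) (L (nat_lit 366) ln13_14_6 ln13_14_6_ok))) (M (nat_lit 462) (B (L (nat_lit 430) ln13_10_4 ln13_10_4_ok) (L (nat_lit 494) ln13_11_4 ln13_11_4_ok))))) (B (M (nat_lit 333) (B (M (nat_lit 332) (B (L (nat_lit 300)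 ln13_13_7 ln13_13_7_ok) (L (nat_lit 364) ln13_14_7 ln13_14_7_ok))) (M (nat_lit 462) (B (L (nat_lit 430) ln13_10_4 ln13_10_4_ok) (L (nat_lit 494) ln13_11_4 ln13_11_4_ok))))) (M (nat_lit 364) (B (L (nat_lit 332) ln13_14_7 ln13_14_7_ok) (M (nat_lit 366) (B (L (nat_lit 334) ln13_14_6 ln13_14_6_ok) (M (nat_lit 363) (B (M (nat_lit 398) (B (L (nat_lit 362) ln10_11_0 ln10_11_0_ok) (L (nat_lit 399) ln11_11_0 ln11_11_0_ok))) (B (M (nat_lit 367) (B (M (nat_lit 395) (B (L (nat_lit 394) ln14_11_1 ln14_11_1_ok) (L (nat_lit 396) ln15_11_1 ln15_11_1_ok))) (M (nat_lit 399) (B (L (nat_lit 398) ln11_11_0 ln11_11_0_ok) (L (nat_lit 400) ln12_11_0 ln12_11_0_ok))))) (M (nat_lit 362) (B (M (nat_lit 330) (B (L (nat_lit 329) ln13_11_3 ln13_11_3_ok) (L (nat_lit 331) ln14_11_3 ln14_11_3_ok))) (M (nat_lit 394) (B (L (nat_lit 393) ln13_11_1 ln13_11_1_ok) (L (nat_lit 395) ln14_11_1 ln14_11_1_ok)))))))))))))))) (M (nat_lit 365) (B (M (nat_lit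 364) (B (L (nat_lit 332) ln13_14_7 ln13_14_7_ok) (M (nat_lit 366) (B (L (nat_lit 334) ln13_14_6 ln13_14_6_ok) (M (nat_lit 493) (B (L (nat_lit 396) ln13_15_7 ln13_15_7_ok) (L (nat_lit 398) ln13_15_6 ln13_15_6_ok))))))) (B (M (nat_lit 333) (B (M (nat_lit 334) (B (L (nat_lit 302) ln13_13_6 ln13_13_6_ok) (L (nat_lit 366) ln13_14_6 ln13_14_6_ok))) (M (nat_lit 301) (B (M (nat_lit 428) (B (L (nat_lit 396) ln13_9_5 ln13_9_5_ok) (L (nat_lit 460) ln13_10_5 ln13_10_5_ok))) (M (nat_lit 430) (B (L (nat_lit 398) ln13_9_4 ln13_9_4_ok) (L (nat_lit 462) ln13_10_4 ln13_10_4_ok))))))) (B (M (nat_lit 333) (B (M (nat_lit 332) (B (L (nat_lit 300) ln13_13_7 ln13_13_7_ok) (L (nat_lit 364) ln13_14_7 ln13_14_7_ok))) (M (nat_lit 301) (B (M (nat_lit 428) (B (L (nat_lit 396) ln13_9_5 ln13_9_5_ok) (L (nat_lit 460) ln13_10_5 ln13_10_5_ok))) (M (nat_lit 430) (B (L (nat_lit 398) ln13_9_4 ln13_9_4_ok) (L (nat_lit 462) ln13_10_4 ln13_10_4_ok)))))))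 (M (nat_lit 333) (B (M (nat_lit 332) (B (L (nat_lit 300) ln13_13_7 ln13_13_7_ok) (L (nat_lit 364) ln13_14_7 ln13_14_7_ok))) (M (nat_lit 334) (B (L (nat_lit 302) ln13_13_6 ln13_13_6_ok) (L (nat_lit 366) ln13_14_6 ln13_14_6_ok)))))))))))))))))))) (nat_lit 5954262830815946494440468064007740237496571878468728087513875999273036838532266441790969898967138332125836366047228135112217242456098340864) (nat_lit 5065326623820289418802944641132088817528295596351244808236071048301551094176917314141297602435927292412604931623560998039612497486905203025820775800687101275794533176259010101248) (nat_lit 5065326623820289418802944641132088817528295596351244808236071048301551094176917314141297602435927292412604931623560998039612497486905203025820775800687101275794533176259010101248) (by decide +kernel)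
noncomputable def c20_n3918 : Cert := (M (nat_lit 427) (B (M (nat_lit 462) (B (L (nat_lit 426) ln10_13_0 ln10_13_0_ok) (M (nat_lit 463) (B (L (nat_lit 430) ln11_13_0 ln11_13_0_ok) (L (nat_lit 464) ln16_14_3 ln16_14_3_ok))))) (B (M (nat_lit 459) (B (M (nat_lit 458) (B (L (nat_lit 430) ln14_13_1 ln14_13_1_ok) (M (nat_lit 457) (B (L (nat_lit 456) ln8_14_2 ln8_14_2_ok) (L (nat_lit 460) ln9_14_2 ln9_14_2_ok))))) (B (M (nat_lit 491) (B (M (nat_lit 396) (B (L (nat_lit 523) ln11_16_6 ln11_16_6_ok) (M (nat_lit 364) (B (L (nat_lit 332) ln12_10_5 ln12_10_5_ok) (L (nat_lit 460) ln12_11_5 ln12_11_5_ok))))) (B (M (nat_lit 396) (B (L (nat_lit 523) ln11_16_6 ln11_16_6_ok) (M (nat_lit 364) (B (L (nat_lit 395) ln11_15_6 ln11_15_6_ok) (L (nat_lit 460) ln12_11_5 ln12_11_5_ok))))) (B (M (nat_lit 460) (B (M (nat_lit 523) (B (L (nat_lit 396) ln11_16_6 ln11_16_6_ok) (L (nat_lit 555) ln11_17_6 ln11_17_6_ok))) (M (nat_lit 462) (B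 (L (nat_lit 463) ln15_14_3 ln15_14_3_ok) (L (nat_lit 490) ln14_14_1 ln14_14_1_ok))))) (B (M (nat_lit 460) (B (M (nat_lit 462) (B (L (nat_lit 463) ln15_14_3 ln15_14_3_ok) (L (nat_lit 490) ln14_14_1 ln14_14_1_ok))) (M (nat_lit 524) (B (M (nat_lit 492) (B (L (nat_lit 395) ln12_16_7 ln12_16_7_ok) (L (nat_lit 397) ln12_16_6 ln12_16_6_ok))) (M (nat_lit 523) (B (L (nat_lit 556) ln11_13_4 ln11_13_4_ok) (L (nat_lit 555) ln11_17_6 ln11_17_6_ok))))))) (B (M (nat_lit 396) (B (L (nat_lit 523) ln11_16_6 ln11_16_6_ok) (M (nat_lit 364) (B (L (nat_lit 332) ln12_10_5 ln12_10_5_ok) (L (nat_lit 395) ln11_15_6 ln11_15_6_ok))))) (M (nat_lit 395) (B (M (nat_lit 396) (B (L (nat_lit 364) ln11_15_6 ln11_15_6_ok) (M (nat_lit 394) (B (L (nat_lit 362) ln11_15_7 ln11_15_7_ok) (L (nat_lit 393) ln9_12_0 ln9_12_0_ok))))) (M (nat_lit 460) (B (M (nat_lit 363) (B (L (nat_lit 331) ln11_10_4 ln11_10_4_ok) (L (nat_lit 492) ln11_11_4 ln11_11_4_ok)))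 (M (nat_lit 490) (B (L (nat_lit 522) ln11_12_5 ln11_12_5_ok) (L (nat_lit 462) ln14_14_1 ln14_14_1_ok))))))))))))) (M (nat_lit 395) (B (M (nat_lit 430) (B (L (nat_lit 394) ln14_13_3 ln14_13_3_ok) (L (nat_lit 458) ln14_13_1 ln14_13_1_ok))) (B (M (nat_lit 491) (B (M (nat_lit 396) (B (L (nat_lit 364) ln11_15_6 ln11_15_6_ok) (L (nat_lit 523) ln11_16_6 ln11_16_6_ok))) (M (nat_lit 458) (B (L (nat_lit 430) ln14_13_1 ln14_13_1_ok) (M (nat_lit 490) (B (L (nat_lit 363) ln11_11_5 ln11_11_5_ok) (L (nat_lit 522) ln11_12_5 ln11_12_5_ok))))))) (B (M (nat_lit 491) (B (M (nat_lit 396) (B (L (nat_lit 364) ln11_15_6 ln11_15_6_ok) (L (nat_lit 523) ln11_16_6 ln11_16_6_ok))) (M (nat_lit 363) (B (M (nat_lit 362) (B (L (nat_lit 330) ln11_14_7 ln11_14_7_ok) (L (nat_lit 394) ln11_15_7 ln11_15_7_ok))) (M (nat_lit 490) (B (L (nat_lit 458) ln11_11_5 ln11_11_5_ok) (L (nat_lit 522) ln11_12_5 ln11_12_5_ok))))))) (M (nat_lit 394) (B (L (nat_lit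 430) ln14_13_3 ln14_13_3_ok) (M (nat_lit 393) (B (L (nat_lit 392) ln8_12_0 ln8_12_0_ok) (L (nat_lit 396) ln9_12_0 ln9_12_0_ok)))))))))))) (B (M (nat_lit 462) (B (L (nat_lit 426) ln10_13_0 ln10_13_0_ok) (M (nat_lit 463) (B (L (nat_lit 460) ln15_14_3 ln15_14_3_ok) (L (nat_lit 464) ln16_14_3 ln16_14_3_ok))))) (M (nat_lit 426) (B (M (nat_lit 425) (B (L (nat_lit 460) ln9_13_0 ln9_13_0_ok) (M (nat_lit 393) (B (L (nat_lit 392) ln12_13_3 ln12_13_3_ok) (L (nat_lit 394) ln13_13_3 ln13_13_3_ok))))) (B (M (nat_lit 425) (B (L (nat_lit 460) ln9_13_0 ln9_13_0_ok) (M (nat_lit 457) (B (L (nat_lit 456) ln12_13_1 ln12_13_1_ok) (L (nat_lit 458) ln13_13_1 ln13_13_1_ok))))) (M (nat_lit 430) (B (M (nat_lit 394) (B (L (nat_lit 393) ln13_13_3 ln13_13_3_ok) (L (nat_lit 395) ln14_13_3 ln14_13_3_ok))) (M (nat_lit 458) (B (L (nat_lit 457) ln13_13_1 ln13_13_1_ok) (L (nat_lit 459) ln14_13_1 ln14_13_1_ok))))))))))))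
theorem c20_s4071 : Sem (nat_lit 5954262831509113917970671778902343783532342804327837356357830143065656733685921768742376304727131933651871260571575937852568135413341880320) (nat_lit 1179363258058782769798647847718537935082982131877328451421513463323575925008131561014372434104215456689146596065837517833931220203249912756080431869009840645302428631040) (nat_lit 1179363258058782769798647847718537935082982131877328451421513463323575925008131561014372434104215456689146596065837517833931220203249912756080431869009840645302428631040) :=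
  sem_of_chk (M (nat_lit 460) (B (M (nat_lit 427) (B (M (nat_lit 426) (B (L (nat_lit 425) ln9_13_0 ln9_13_0_ok) (L (nat_lit 462) ln10_13_0 ln10_13_0_ok))) (B (M (nat_lit 462) (B (L (nat_lit 426) ln10_13_0 ln10_13_0_ok) (L (nat_lit 463) ln15_14_3 ln15_14_3_ok))) (B (M (nat_lit 459) (B (M (nat_lit 458) (B (L (nat_lit 430) ln14_13_1 ln14_13_1_ok) (L (nat_lit 457) ln9_14_2 ln9_14_2_ok))) (M (nat_lit 491) (B (M (nat_lit 396) (B (L (nat_lit 364) ln12_11_5 ln12_11_5_ok) (L (nat_lit 523) ln11_16_6 ln11_16_6_ok))) (M (nat_lit 462) (B (L (nat_lit 463) ln15_14_3 ln15_14_3_ok) (L (nat_lit 490) ln14_14_1 ln14_14_1_ok))))))) (M (nat_lit 397) (B (M (nat_lit 365) (B (L (nat_lit 333) ln13_10_5 ln13_10_5_ok) (L (nat_lit 492) ln13_11_5 ln13_11_5_ok))) (M (nat_lit 426) (B (L (nat_lit 398) ln10_13_2 ln10_13_2_ok) (L (nat_lit 425) ln9_13_0 ln9_13_0_ok))))))))) (B (M (nat_lit 427) (B (M (nat_lit 426) (B (L (nat_lit 425) ln9_13_0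 ln9_13_0_ok) (L (nat_lit 462) ln10_13_0 ln10_13_0_ok))) (B (M (nat_lit 462) (B (L (nat_lit 426) ln10_13_0 ln10_13_0_ok) (L (nat_lit 463) ln15_14_3 ln15_14_3_ok))) (B (M (nat_lit 459) (B (M (nat_lit 458) (B (L (nat_lit 430) ln14_13_1 ln14_13_1_ok) (L (nat_lit 457) ln9_14_2 ln9_14_2_ok))) (M (nat_lit 491) (B (M (nat_lit 396) (B (L (nat_lit 364) ln12_11_5 ln12_11_5_ok) (L (nat_lit 523) ln11_16_6 ln11_16_6_ok))) (M (nat_lit 462) (B (L (nat_lit 463) ln15_14_3 ln15_14_3_ok) (L (nat_lit 490) ln14_14_1 ln14_14_1_ok))))))) (M (nat_lit 397) (B (M (nat_lit 426) (B (L (nat_lit 398) ln10_13_2 ln10_13_2_ok) (L (nat_lit 425) ln9_13_0 ln9_13_0_ok))) (M (nat_lit 492) (B (L (nat_lit 365) ln13_11_5 ln13_11_5_ok) (L (nat_lit 524) ln12_16_6 ln12_16_6_ok))))))))) (B (M (nat_lit 427) (B (M (nat_lit 426) (B (L (nat_lit 425) ln9_13_0 ln9_13_0_ok) (L (nat_lit 462) ln10_13_0 ln10_13_0_ok))) (B (M (nat_lit 462) (B (L (nat_lit 426)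 ln10_13_0 ln10_13_0_ok) (L (nat_lit 463) ln15_14_3 ln15_14_3_ok))) (M (nat_lit 395) (B (M (nat_lit 492) (B (L (nat_lit 524) ln12_16_7 ln12_16_7_ok) (M (nat_lit 363) (B (L (nat_lit 331) ln11_10_4 ln11_10_4_ok) (L (nat_lit 396) ln12_15_7 ln12_15_7_ok))))) (B (M (nat_lit 492) (B (L (nat_lit 524) ln12_16_7 ln12_16_7_ok) (M (nat_lit 363) (B (L (nat_lit 396) ln12_15_7 ln12_15_7_ok) (L (nat_lit 459) ln11_11_4 ln11_11_4_ok))))) (B (M (nat_lit 394) (B (L (nat_lit 430) ln14_13_3 ln14_13_3_ok) (M (nat_lit 393) (B (L (nat_lit 392) ln8_12_0 ln8_12_0_ok) (L (nat_lit 396) ln9_12_0 ln9_12_0_ok))))) (M (nat_lit 363) (B (L (nat_lit 331) ln11_10_4 ln11_10_4_ok) (M (nat_lit 492) (B (L (nat_lit 459) ln11_11_4 ln11_11_4_ok) (L (nat_lit 524) ln12_16_7 ln12_16_7_ok)))))))))))) (B (M (nat_lit 462) (B (M (nat_lit 427) (B (L (nat_lit 426) ln10_13_0 ln10_13_0_ok) (L (nat_lit 463) ln15_14_3 ln15_14_3_ok))) (B (M (nat_lit 463) (B (L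 (nat_lit 427) ln15_14_3 ln15_14_3_ok) (L (nat_lit 464) ln16_14_3 ln16_14_3_ok))) (B (M (nat_lit 492) (B (M (nat_lit 524) (B (L (nat_lit 397) ln12_16_6 ln12_16_6_ok) (L (nat_lit 556) ln12_17_6 ln12_17_6_ok))) (M (nat_lit 463) (B (L (nat_lit 464) ln16_14_3 ln16_14_3_ok) (L (nat_lit 491) ln15_14_1 ln15_14_1_ok))))) (M (nat_lit 459) (B (M (nat_lit 458) (B (L (nat_lit 457) ln9_14_2 ln9_14_2_ok) (L (nat_lit 430) ln10_14_2 ln10_14_2_ok))) (B (M (nat_lit 458) (B (L (nat_lit 457) ln9_14_2 ln9_14_2_ok) (M (nat_lit 490) (B (L (nat_lit 489) ln13_14_1 ln13_14_1_ok) (L (nat_lit 491) ln14_14_1 ln14_14_1_ok))))) (B (M (nat_lit 458) (B (L (nat_lit 430) ln10_14_2 ln10_14_2_ok) (M (nat_lit 490) (B (L (nat_lit 489) ln13_14_1 ln13_14_1_ok) (L (nat_lit 491) ln14_14_1 ln14_14_1_ok))))) (M (nat_lit 494) (B (L (nat_lit 495) ln11_14_0 ln11_14_0_ok) (M (nat_lit 397) (B (L (nat_lit 365) ln13_11_4 ln13_11_4_ok) (M (nat_lit 526) (B (L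 (nat_lit 430) ln14_16_7 ln14_16_7_ok) (L (nat_lit 558) ln14_17_7 ln14_17_7_ok))))))))))))))) (B (M (nat_lit 492) (B (M (nat_lit 524) (B (L (nat_lit 397) ln12_16_6 ln12_16_6_ok) (L (nat_lit 556) ln12_17_6 ln12_17_6_ok))) (M (nat_lit 459) (B (M (nat_lit 458) (B (L (nat_lit 457) ln9_14_2 ln9_14_2_ok) (L (nat_lit 430) ln10_14_2 ln10_14_2_ok))) (M (nat_lit 491) (B (M (nat_lit 396) (B (L (nat_lit 364) ln12_11_5 ln12_11_5_ok) (L (nat_lit 523) ln12_12_5 ln12_12_5_ok))) (M (nat_lit 462) (B (L (nat_lit 490) ln14_14_1 ln14_14_1_ok) (L (nat_lit 463) ln15_14_1 ln15_14_1_ok))))))))) (B (M (nat_lit 492) (B (M (nat_lit 397) (B (L (nat_lit 365) ln13_11_5 ln13_11_5_ok) (L (nat_lit 524) ln12_16_6 ln12_16_6_ok))) (B (M (nat_lit 524) (B (L (nat_lit 397) ln12_16_6 ln12_16_6_ok) (L (nat_lit 556) ln12_17_6 ln12_17_6_ok))) (B (M (nat_lit 427) (B (M (nat_lit 524) (B (L (nat_lit 395) ln12_16_7 ln12_16_7_ok) (L (nat_lit 556) ln12_17_6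 ln12_17_6_ok))) (M (nat_lit 462) (B (L (nat_lit 426) ln10_13_0 ln10_13_0_ok) (L (nat_lit 463) ln15_14_3 ln15_14_3_ok))))) (M (nat_lit 462) (B (M (nat_lit 427) (B (L (nat_lit 426) ln10_13_0 ln10_13_0_ok) (L (nat_lit 463) ln15_14_3 ln15_14_3_ok))) (B (M (nat_lit 463) (B (L (nat_lit 427) ln15_14_3 ln15_14_3_ok) (L (nat_lit 491) ln15_14_1 ln15_14_1_ok))) (B (M (nat_lit 463) (B (L (nat_lit 464) ln16_14_3 ln16_14_3_ok) (L (nat_lit 491) ln15_14_1 ln15_14_1_ok))) (M (nat_lit 459) (B (M (nat_lit 458) (B (L (nat_lit 457) ln9_14_2 ln9_14_2_ok) (M (nat_lit 426) (B (L (nat_lit 425) ln13_14_3 ln13_14_3_ok) (L (nat_lit 427) ln10_13_0 ln10_13_0_ok))))) (M (nat_lit 491) (B (L (nat_lit 490) ln14_14_1 ln14_14_1_ok) (M (nat_lit 396) (B (L (nat_lit 364) ln12_11_5 ln12_11_5_ok) (L (nat_lit 523) ln12_12_5 ln12_12_5_ok))))))))))))))) (B (M (nat_lit 492) (B (M (nat_lit 397) (B (L (nat_lit 365) ln13_11_5 ln13_11_5_ok) (L (nat_lit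 524) ln12_16_6 ln12_16_6_ok))) (B (M (nat_lit 524) (B (L (nat_lit 397) ln12_16_6 ln12_16_6_ok) (L (nat_lit 556) ln12_17_6 ln12_17_6_ok))) (B (M (nat_lit 427) (B (M (nat_lit 524) (B (L (nat_lit 395) ln12_16_7 ln12_16_7_ok) (L (nat_lit 556) ln12_17_6 ln12_17_6_ok))) (M (nat_lit 462) (B (L (nat_lit 426) ln10_13_0 ln10_13_0_ok) (L (nat_lit 463) ln15_14_3 ln15_14_3_ok))))) (M (nat_lit 427) (B (M (nat_lit 426) (B (L (nat_lit 425) ln9_13_0 ln9_13_0_ok) (L (nat_lit 462) ln10_13_0 ln10_13_0_ok))) (B (M (nat_lit 462) (B (L (nat_lit 426) ln10_13_0 ln10_13_0_ok) (L (nat_lit 463) ln15_14_3 ln15_14_3_ok))) (M (nat_lit 396) (B (M (nat_lit 365) (B (L (nat_lit 397) ln12_15_6 ln12_15_6_ok) (M (nat_lit 364) (B (L (nat_lit 332) ln12_10_4 ln12_10_4_ok) (L (nat_lit 333) ln12_14_6 ln12_14_6_ok))))) (M (nat_lit 395) (B (L (nat_lit 363) ln12_15_7 ln12_15_7_ok) (M (nat_lit 394) (B (L (nat_lit 393) ln9_12_0 ln9_12_0_ok) (L (nat_lit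 430) ln14_13_3 ln14_13_3_ok)))))))))))))) (B (M (nat_lit 427) (B (M (nat_lit 397) (B (M (nat_lit 365) (B (L (nat_lit 333) ln13_10_5 ln13_10_5_ok) (L (nat_lit 492) ln13_11_5 ln13_11_5_ok))) (M (nat_lit 426) (B (L (nat_lit 398) ln10_13_2 ln10_13_2_ok) (L (nat_lit 425) ln9_13_0 ln9_13_0_ok))))) (B (M (nat_lit 397) (B (M (nat_lit 426) (B (L (nat_lit 398) ln10_13_2 ln10_13_2_ok) (L (nat_lit 425) ln9_13_0 ln9_13_0_ok))) (M (nat_lit 492) (B (L (nat_lit 365) ln13_11_5 ln13_11_5_ok) (L (nat_lit 524) ln12_16_6 ln12_16_6_ok))))) (B (M (nat_lit 426) (B (L (nat_lit 425) ln9_13_0 ln9_13_0_ok) (M (nat_lit 430) (B (M (nat_lit 394) (B (L (nat_lit 393) ln13_13_3 ln13_13_3_ok) (L (nat_lit 395) ln14_13_3 ln14_13_3_ok))) (M (nat_lit 458) (B (L (nat_lit 457) ln13_13_1 ln13_13_1_ok) (L (nat_lit 459) ln14_13_1 ln14_13_1_ok))))))) (M (nat_lit 395) (B (M (nat_lit 492) (B (L (nat_lit 524) ln12_16_7 ln12_16_7_ok) (M (nat_lit 363) (B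 (L (nat_lit 331) ln11_10_4 ln11_10_4_ok) (L (nat_lit 396) ln12_15_7 ln12_15_7_ok))))) (B (M (nat_lit 492) (B (L (nat_lit 524) ln12_16_7 ln12_16_7_ok) (M (nat_lit 363) (B (L (nat_lit 396) ln12_15_7 ln12_15_7_ok) (L (nat_lit 459) ln11_11_4 ln11_11_4_ok))))) (B (M (nat_lit 394) (B (L (nat_lit 430) ln14_13_3 ln14_13_3_ok) (M (nat_lit 393) (B (L (nat_lit 392) ln8_12_0 ln8_12_0_ok) (L (nat_lit 396) ln9_12_0 ln9_12_0_ok))))) (M (nat_lit 363) (B (L (nat_lit 331) ln11_10_4 ln11_10_4_ok) (M (nat_lit 492) (B (L (nat_lit 459) ln11_11_4 ln11_11_4_ok) (L (nat_lit 524) ln12_16_7 ln12_16_7_ok))))))))))))) (M (nat_lit 427) (B (M (nat_lit 426) (B (L (nat_lit 425) ln9_13_0 ln9_13_0_ok) (L (nat_lit 462) ln10_13_0 ln10_13_0_ok))) (B (M (nat_lit 462) (B (L (nat_lit 426) ln10_13_0 ln10_13_0_ok) (L (nat_lit 463) ln15_14_3 ln15_14_3_ok))) (B (M (nat_lit 459) (B (M (nat_lit 458) (B (L (nat_lit 430) ln14_13_1 ln14_13_1_ok) (L (nat_lit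 457) ln9_14_2 ln9_14_2_ok))) (M (nat_lit 491) (B (M (nat_lit 396) (B (L (nat_lit 364) ln12_11_5 ln12_11_5_ok) (L (nat_lit 523) ln11_16_6 ln11_16_6_ok))) (M (nat_lit 462) (B (L (nat_lit 463) ln15_14_3 ln15_14_3_ok) (L (nat_lit 490) ln14_14_1 ln14_14_1_ok))))))) (M (nat_lit 426) (B (L (nat_lit 425) ln9_13_0 ln9_13_0_ok) (M (nat_lit 430) (B (M (nat_lit 394) (B (L (nat_lit 393) ln13_13_3 ln13_13_3_ok) (L (nat_lit 395) ln14_13_3 ln14_13_3_ok))) (M (nat_lit 458) (B (L (nat_lit 457) ln13_13_1 ln13_13_1_ok) (L (nat_lit 459) ln14_13_1 ln14_13_1_ok)))))))))))))))))))) (nat_lit 5954262831509113917970671778902343783532342804327837356357830143065656733685921768742376304727131933651871260571575937852568135413341880320) (nat_lit 1179363258058782769798647847718537935082982131877328451421513463323575925008131561014372434104215456689146596065837517833931220203249912756080431869009840645302428631040) (nat_lit 1179363258058782769798647847718537935082982131877328451421513463323575925008131561014372434104215456689146596065837517833931220203249912756080431869009840645302428631040)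 (by decide +kernel)
noncomputable def c20_n4082 : Cert := (M (nat_lit 427) (B (M (nat_lit 462) (B (L (nat_lit 426) ln10_13_0 ln10_13_0_ok) (M (nat_lit 463) (B (L (nat_lit 460) ln15_14_3 ln15_14_3_ok) (L (nat_lit 464) ln16_14_3 ln16_14_3_ok))))) (B (M (nat_lit 459) (B (M (nat_lit 458) (B (L (nat_lit 430) ln14_13_1 ln14_13_1_ok) (M (nat_lit 457) (B (L (nat_lit 456) ln8_14_2 ln8_14_2_ok) (L (nat_lit 460) ln9_14_2 ln9_14_2_ok))))) (B (M (nat_lit 491) (B (M (nat_lit 396) (B (L (nat_lit 523) ln11_16_6 ln11_16_6_ok) (M (nat_lit 364) (B (L (nat_lit 332) ln12_10_5 ln12_10_5_ok) (L (nat_lit 395) ln11_15_6 ln11_15_6_ok))))) (B (M (nat_lit 396) (B (L (nat_lit 523) ln11_16_6 ln11_16_6_ok) (M (nat_lit 364) (B (L (nat_lit 395) ln11_15_6 ln11_15_6_ok) (L (nat_lit 460) ln12_11_5 ln12_11_5_ok))))) (B (M (nat_lit 460) (B (M (nat_lit 523) (B (L (nat_lit 396) ln11_16_6 ln11_16_6_ok) (L (nat_lit 555) ln11_17_6 ln11_17_6_ok)))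 (M (nat_lit 462) (B (L (nat_lit 463) ln15_14_3 ln15_14_3_ok) (L (nat_lit 490) ln14_14_1 ln14_14_1_ok))))) (B (M (nat_lit 460) (B (M (nat_lit 462) (B (L (nat_lit 463) ln15_14_3 ln15_14_3_ok) (L (nat_lit 490) ln14_14_1 ln14_14_1_ok))) (M (nat_lit 524) (B (M (nat_lit 492) (B (L (nat_lit 395) ln12_16_7 ln12_16_7_ok) (L (nat_lit 397) ln12_16_6 ln12_16_6_ok))) (M (nat_lit 523) (B (L (nat_lit 556) ln11_13_4 ln11_13_4_ok) (L (nat_lit 555) ln11_17_6 ln11_17_6_ok))))))) (M (nat_lit 395) (B (M (nat_lit 396) (B (L (nat_lit 364) ln11_15_6 ln11_15_6_ok) (M (nat_lit 394) (B (L (nat_lit 362) ln11_15_7 ln11_15_7_ok) (L (nat_lit 393) ln9_12_0 ln9_12_0_ok))))) (M (nat_lit 460) (B (M (nat_lit 492) (B (L (nat_lit 363) ln11_11_4 ln11_11_4_ok) (L (nat_lit 524) ln12_16_7 ln12_16_7_ok))) (M (nat_lit 462) (B (L (nat_lit 463) ln15_14_3 ln15_14_3_ok) (L (nat_lit 490) ln14_14_1 ln14_14_1_ok)))))))))))) (M (nat_lit 395) (B (M (nat_lit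 430) (B (L (nat_lit 394) ln14_13_3 ln14_13_3_ok) (L (nat_lit 458) ln14_13_1 ln14_13_1_ok))) (B (M (nat_lit 491) (B (M (nat_lit 396) (B (L (nat_lit 364) ln11_15_6 ln11_15_6_ok) (L (nat_lit 523) ln11_16_6 ln11_16_6_ok))) (M (nat_lit 458) (B (L (nat_lit 430) ln14_13_1 ln14_13_1_ok) (M (nat_lit 490) (B (L (nat_lit 363) ln11_11_5 ln11_11_5_ok) (L (nat_lit 522) ln11_12_5 ln11_12_5_ok))))))) (B (M (nat_lit 491) (B (M (nat_lit 396) (B (L (nat_lit 364) ln11_15_6 ln11_15_6_ok) (L (nat_lit 523) ln11_16_6 ln11_16_6_ok))) (M (nat_lit 363) (B (M (nat_lit 362) (B (L (nat_lit 330) ln11_14_7 ln11_14_7_ok) (L (nat_lit 394) ln11_15_7 ln11_15_7_ok))) (M (nat_lit 490) (B (L (nat_lit 458) ln11_11_5 ln11_11_5_ok) (L (nat_lit 522) ln11_12_5 ln11_12_5_ok))))))) (M (nat_lit 394) (B (L (nat_lit 430) ln14_13_3 ln14_13_3_ok) (M (nat_lit 393) (B (L (nat_lit 392) ln8_12_0 ln8_12_0_ok) (L (nat_lit 396) ln9_12_0 ln9_12_0_ok))))))))))))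 (B (M (nat_lit 462) (B (L (nat_lit 426) ln10_13_0 ln10_13_0_ok) (M (nat_lit 463) (B (L (nat_lit 430) ln11_13_0 ln11_13_0_ok) (L (nat_lit 464) ln16_14_3 ln16_14_3_ok))))) (M (nat_lit 426) (B (M (nat_lit 425) (B (L (nat_lit 460) ln9_13_0 ln9_13_0_ok) (M (nat_lit 393) (B (L (nat_lit 392) ln12_13_3 ln12_13_3_ok) (L (nat_lit 394) ln13_13_3 ln13_13_3_ok))))) (B (M (nat_lit 425) (B (L (nat_lit 460) ln9_13_0 ln9_13_0_ok) (M (nat_lit 457) (B (L (nat_lit 456) ln12_13_1 ln12_13_1_ok) (L (nat_lit 458) ln13_13_1 ln13_13_1_ok))))) (M (nat_lit 430) (B (M (nat_lit 394) (B (L (nat_lit 393) ln13_13_3 ln13_13_3_ok) (L (nat_lit 395) ln14_13_3 ln14_13_3_ok))) (M (nat_lit 458) (B (L (nat_lit 457) ln13_13_1 ln13_13_1_ok) (L (nat_lit 459) ln14_13_1 ln14_13_1_ok))))))))))))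
noncomputable def c20_n4089 : Cert := (M (nat_lit 427) (B (M (nat_lit 462) (B (L (nat_lit 426) ln10_13_0 ln10_13_0_ok) (M (nat_lit 463) (B (L (nat_lit 430) ln11_13_0 ln11_13_0_ok) (L (nat_lit 464) ln16_14_3 ln16_14_3_ok))))) (B (M (nat_lit 459) (B (M (nat_lit 458) (B (L (nat_lit 430) ln14_13_1 ln14_13_1_ok) (M (nat_lit 457) (B (L (nat_lit 456) ln8_14_2 ln8_14_2_ok) (L (nat_lit 460) ln9_14_2 ln9_14_2_ok))))) (B (M (nat_lit 491) (B (M (nat_lit 396) (B (L (nat_lit 523) ln11_16_6 ln11_16_6_ok) (M (nat_lit 364) (B (L (nat_lit 395) ln11_15_6 ln11_15_6_ok) (L (nat_lit 460) ln12_11_5 ln12_11_5_ok))))) (B (M (nat_lit 460) (B (M (nat_lit 523) (B (L (nat_lit 396) ln11_16_6 ln11_16_6_ok) (L (nat_lit 555) ln11_17_6 ln11_17_6_ok))) (M (nat_lit 462) (B (L (nat_lit 463) ln15_14_3 ln15_14_3_ok) (L (nat_lit 490) ln14_14_1 ln14_14_1_ok))))) (B (M (nat_lit 460) (B (M (nat_lit 462) (B (L (nat_lit 463) ln15_14_3 ln15_14_3_ok)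 (L (nat_lit 490) ln14_14_1 ln14_14_1_ok))) (M (nat_lit 524) (B (M (nat_lit 492) (B (L (nat_lit 395) ln12_16_7 ln12_16_7_ok) (L (nat_lit 397) ln12_16_6 ln12_16_6_ok))) (M (nat_lit 523) (B (L (nat_lit 556) ln11_13_4 ln11_13_4_ok) (L (nat_lit 555) ln11_17_6 ln11_17_6_ok))))))) (B (M (nat_lit 396) (B (L (nat_lit 523) ln11_16_6 ln11_16_6_ok) (M (nat_lit 395) (B (L (nat_lit 364) ln11_15_6 ln11_15_6_ok) (M (nat_lit 394) (B (L (nat_lit 362) ln11_15_7 ln11_15_7_ok) (L (nat_lit 393) ln9_12_0 ln9_12_0_ok))))))) (M (nat_lit 395) (B (M (nat_lit 396) (B (L (nat_lit 364) ln11_15_6 ln11_15_6_ok) (M (nat_lit 394) (B (L (nat_lit 362) ln11_15_7 ln11_15_7_ok) (L (nat_lit 393) ln9_12_0 ln9_12_0_ok))))) (M (nat_lit 460) (B (M (nat_lit 492) (B (L (nat_lit 363) ln11_11_4 ln11_11_4_ok) (L (nat_lit 524) ln12_16_7 ln12_16_7_ok))) (M (nat_lit 462) (B (L (nat_lit 463) ln15_14_3 ln15_14_3_ok) (L (nat_lit 490) ln14_14_1 ln14_14_1_ok))))))))))))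 (M (nat_lit 395) (B (M (nat_lit 430) (B (L (nat_lit 394) ln14_13_3 ln14_13_3_ok) (L (nat_lit 458) ln14_13_1 ln14_13_1_ok))) (B (M (nat_lit 491) (B (M (nat_lit 396) (B (L (nat_lit 364) ln11_15_6 ln11_15_6_ok) (L (nat_lit 523) ln11_16_6 ln11_16_6_ok))) (M (nat_lit 458) (B (L (nat_lit 430) ln14_13_1 ln14_13_1_ok) (M (nat_lit 490) (B (L (nat_lit 363) ln11_11_5 ln11_11_5_ok) (L (nat_lit 522) ln11_12_5 ln11_12_5_ok))))))) (B (M (nat_lit 491) (B (M (nat_lit 396) (B (L (nat_lit 364) ln11_15_6 ln11_15_6_ok) (L (nat_lit 523) ln11_16_6 ln11_16_6_ok))) (M (nat_lit 363) (B (M (nat_lit 362) (B (L (nat_lit 330) ln11_14_7 ln11_14_7_ok) (L (nat_lit 394) ln11_15_7 ln11_15_7_ok))) (M (nat_lit 490) (B (L (nat_lit 458) ln11_11_5 ln11_11_5_ok) (L (nat_lit 522) ln11_12_5 ln11_12_5_ok))))))) (M (nat_lit 394) (B (L (nat_lit 430) ln14_13_3 ln14_13_3_ok) (M (nat_lit 393) (B (L (nat_lit 392) ln8_12_0 ln8_12_0_ok) (L (nat_lit 396) ln9_12_0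 ln9_12_0_ok)))))))))))) (B (M (nat_lit 462) (B (L (nat_lit 426) ln10_13_0 ln10_13_0_ok) (M (nat_lit 463) (B (L (nat_lit 460) ln15_14_3 ln15_14_3_ok) (L (nat_lit 464) ln16_14_3 ln16_14_3_ok))))) (M (nat_lit 426) (B (M (nat_lit 425) (B (L (nat_lit 460) ln9_13_0 ln9_13_0_ok) (M (nat_lit 393) (B (L (nat_lit 392) ln12_13_3 ln12_13_3_ok) (L (nat_lit 394) ln13_13_3 ln13_13_3_ok))))) (B (M (nat_lit 425) (B (L (nat_lit 460) ln9_13_0 ln9_13_0_ok) (M (nat_lit 457) (B (L (nat_lit 456) ln12_13_1 ln12_13_1_ok) (L (nat_lit 458) ln13_13_1 ln13_13_1_ok))))) (M (nat_lit 430) (B (M (nat_lit 394) (B (L (nat_lit 393) ln13_13_3 ln13_13_3_ok) (L (nat_lit 395) ln14_13_3 ln14_13_3_ok))) (M (nat_lit 458) (B (L (nat_lit 457) ln13_13_1 ln13_13_1_ok) (L (nat_lit 459) ln14_13_1 ln14_13_1_ok))))))))))))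
noncomputable def c20_n4226 : Cert := (M (nat_lit 397) (B (M (nat_lit 365) (B (M (nat_lit 333) (B (L (nat_lit 301) ln13_9_5 ln13_9_5_ok) (L (nat_lit 460) ln13_10_5 ln13_10_5_ok))) (B (M (nat_lit 460) (B (L (nat_lit 333) ln13_10_5 ln13_10_5_ok) (L (nat_lit 492) ln12_15_6 ln12_15_6_ok))) (B (M (nat_lit 460) (B (L (nat_lit 492) ln12_15_6 ln12_15_6_ok) (M (nat_lit 462) (B (L (nat_lit 494) ln13_11_4 ln13_11_4_ok) (M (nat_lit 427) (B (L (nat_lit 426) ln10_13_0 ln10_13_0_ok) (L (nat_lit 463) ln15_14_3 ln15_14_3_ok))))))) (M (nat_lit 333) (B (L (nat_lit 301) ln13_9_5 ln13_9_5_ok) (M (nat_lit 462) (B (L (nat_lit 430) ln13_10_4 ln13_10_4_ok) (L (nat_lit 494) ln13_11_4 ln13_11_4_ok))))))))) (B (M (nat_lit 365) (B (M (nat_lit 460) (B (L (nat_lit 333) ln13_10_5 ln13_10_5_ok) (L (nat_lit 492) ln12_15_6 ln12_15_6_ok))) (B (M (nat_lit 460) (B (L (nat_lit 492) ln12_15_6 ln12_15_6_ok) (M (nat_lit 462) (B (L (nat_lit 494)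 ln13_11_4 ln13_11_4_ok) (M (nat_lit 427) (B (L (nat_lit 426) ln10_13_0 ln10_13_0_ok) (L (nat_lit 463) ln15_14_3 ln15_14_3_ok))))))) (M (nat_lit 333) (B (M (nat_lit 334) (B (L (nat_lit 302) ln13_13_6 ln13_13_6_ok) (L (nat_lit 366) ln13_14_6 ln13_14_6_ok))) (M (nat_lit 462) (B (L (nat_lit 430) ln13_10_4 ln13_10_4_ok) (L (nat_lit 494) ln13_11_4 ln13_11_4_ok)))))))) (B (M (nat_lit 427) (B (M (nat_lit 398) (B (L (nat_lit 399) ln15_12_1 ln15_12_1_ok) (L (nat_lit 426) ln10_13_2 ln10_13_2_ok))) (B (M (nat_lit 426) (B (L (nat_lit 425) ln9_13_2 ln9_13_2_ok) (L (nat_lit 462) ln10_13_0 ln10_13_0_ok))) (M (nat_lit 366) (B (M (nat_lit 398) (B (L (nat_lit 399) ln15_12_1 ln15_12_1_ok) (M (nat_lit 334) (B (L (nat_lit 302) ln14_9_5 ln14_9_5_ok) (L (nat_lit 365) ln13_14_6 ln13_14_6_ok))))) (B (M (nat_lit 398) (B (L (nat_lit 399) ln15_12_1 ln15_12_1_ok) (M (nat_lit 334) (B (L (nat_lit 365) ln13_14_6 ln13_14_6_ok) (L (nat_lit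 430) ln14_10_5 ln14_10_5_ok))))) (B (M (nat_lit 395) (B (M (nat_lit 398) (B (L (nat_lit 367) ln11_12_2 ln11_12_2_ok) (L (nat_lit 399) ln15_12_1 ln15_12_1_ok))) (M (nat_lit 394) (B (L (nat_lit 365) ln10_12_2 ln10_12_2_ok) (L (nat_lit 430) ln10_12_0 ln10_12_0_ok))))) (B (M (nat_lit 398) (B (L (nat_lit 399) ln15_12_1 ln15_12_1_ok) (M (nat_lit 334) (B (L (nat_lit 302) ln14_9_5 ln14_9_5_ok) (L (nat_lit 430) ln14_10_5 ln14_10_5_ok))))) (M (nat_lit 462) (B (M (nat_lit 365) (B (L (nat_lit 334) ln13_14_6 ln13_14_6_ok) (L (nat_lit 494) ln13_11_4 ln13_11_4_ok))) (M (nat_lit 463) (B (L (nat_lit 430) ln11_13_0 ln11_13_0_ok) (L (nat_lit 460) ln15_14_3 ln15_14_3_ok))))))))))))) (B (M (nat_lit 398) (B (M (nat_lit 399) (B (L (nat_lit 427) ln15_12_1 ln15_12_1_ok) (L (nat_lit 400) ln16_12_1 ln16_12_1_ok))) (B (M (nat_lit 395) (B (M (nat_lit 394) (B (L (nat_lit 393) ln9_12_0 ln9_12_0_ok) (L (nat_lit 430) ln10_12_0 ln10_12_0_ok)))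 (B (M (nat_lit 394) (B (L (nat_lit 430) ln10_12_0 ln10_12_0_ok) (M (nat_lit 426) (B (L (nat_lit 425) ln13_12_1 ln13_12_1_ok) (L (nat_lit 427) ln14_12_1 ln14_12_1_ok))))) (B (M (nat_lit 366) (B (L (nat_lit 367) ln11_12_2 ln11_12_2_ok) (M (nat_lit 334) (B (L (nat_lit 302) ln14_9_5 ln14_9_5_ok) (L (nat_lit 430) ln14_10_5 ln14_10_5_ok))))) (M (nat_lit 394) (B (L (nat_lit 393) ln9_12_0 ln9_12_0_ok) (M (nat_lit 426) (B (L (nat_lit 425) ln13_12_1 ln13_12_1_ok) (L (nat_lit 427) ln14_12_1 ln14_12_1_ok))))))))) (M (nat_lit 399) (B (L (nat_lit 400) ln16_12_1 ln16_12_1_ok) (M (nat_lit 395) (B (M (nat_lit 367) (B (L (nat_lit 366) ln11_12_2 ln11_12_2_ok) (L (nat_lit 368) ln12_12_2 ln12_12_2_ok))) (M (nat_lit 394) (B (L (nat_lit 393) ln9_12_0 ln9_12_0_ok) (L (nat_lit 430) ln10_12_0 ln10_12_0_ok)))))))))) (M (nat_lit 365) (B (M (nat_lit 333) (B (L (nat_lit 301) ln13_9_5 ln13_9_5_ok) (L (nat_lit 460) ln13_10_5 ln13_10_5_ok)))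 (M (nat_lit 366) (B (L (nat_lit 334) ln13_14_6 ln13_14_6_ok) (M (nat_lit 395) (B (L (nat_lit 394) ln10_12_2 ln10_12_2_ok) (M (nat_lit 367) (B (L (nat_lit 368) ln16_11_1 ln16_11_1_ok) (L (nat_lit 398) ln11_12_2 ln11_12_2_ok))))))))))))))
noncomputable def c20_n4461 : Cert := (M (nat_lit 460) (B (M (nat_lit 364) (B (L (nat_lit 332) ln12_10_4 ln12_10_4_ok) (M (nat_lit 365) (B (L (nat_lit 333) ln12_14_6 ln12_14_6_ok) (M (nat_lit 492) (B (L (nat_lit 397) ln12_15_6 ln12_15_6_ok) (M (nat_lit 491) (B (L (nat_lit 459) ln12_11_5 ln12_11_5_ok) (L (nat_lit 523) ln12_12_5 ln12_12_5_ok))))))))) (B (M (nat_lit 492) (B (M (nat_lit 397) (B (L (nat_lit 365) ln12_15_6 ln12_15_6_ok) (L (nat_lit 524) ln12_16_6 ln12_16_6_ok))) (B (M (nat_lit 524) (B (L (nat_lit 397) ln12_16_6 ln12_16_6_ok) (L (nat_lit 556) ln12_17_6 ln12_17_6_ok))) (B (M (nat_lit 427) (B (M (nat_lit 524) (B (L (nat_lit 395) ln12_16_7 ln12_16_7_ok) (L (nat_lit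 556) ln12_17_6 ln12_17_6_ok))) (M (nat_lit 462) (B (L (nat_lit 426) ln10_13_0 ln10_13_0_ok) (L (nat_lit 463) ln15_14_3 ln15_14_3_ok))))) (M (nat_lit 364) (B (M (nat_lit 365) (B (L (nat_lit 333) ln12_14_6 ln12_14_6_ok) (L (nat_lit 397) ln12_15_6 ln12_15_6_ok))) (M (nat_lit 491) (B (L (nat_lit 459) ln12_11_5 ln12_11_5_ok) (L (nat_lit 523) ln12_12_5 ln12_12_5_ok))))))))) (B (M (nat_lit 364) (B (L (nat_lit 332) ln12_10_4 ln12_10_4_ok) (M (nat_lit 492) (B (M (nat_lit 491) (B (L (nat_lit 459) ln12_11_5 ln12_11_5_ok) (L (nat_lit 523) ln12_12_5 ln12_12_5_ok))) (M (nat_lit 397) (B (L (nat_lit 365) ln12_15_6 ln12_15_6_ok) (L (nat_lit 524) ln12_16_6 ln12_16_6_ok))))))) (B (M (nat_lit 492) (B (M (nat_lit 397) (B (L (nat_lit 365) ln12_15_6 ln12_15_6_ok) (L (nat_lit 524) ln12_16_6 ln12_16_6_ok))) (B (M (nat_lit 524) (B (L (nat_lit 397) ln12_16_6 ln12_16_6_ok) (L (nat_lit 556) ln12_17_6 ln12_17_6_ok))) (B (M (nat_lit 427)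 (B (M (nat_lit 524) (B (L (nat_lit 395) ln12_16_7 ln12_16_7_ok) (L (nat_lit 556) ln12_17_6 ln12_17_6_ok))) (M (nat_lit 462) (B (L (nat_lit 426) ln10_13_0 ln10_13_0_ok) (L (nat_lit 463) ln15_14_3 ln15_14_3_ok))))) (M (nat_lit 491) (B (L (nat_lit 523) ln12_12_5 ln12_12_5_ok) (M (nat_lit 462) (B (L (nat_lit 463) ln15_14_1 ln15_14_1_ok) (M (nat_lit 490) (B (L (nat_lit 459) ln14_14_1 ln14_14_1_ok) (L (nat_lit 489) ln9_15_2 ln9_15_2_ok))))))))))) (B (M (nat_lit 364) (B (L (nat_lit 332) ln12_10_4 ln12_10_4_ok) (M (nat_lit 492) (B (M (nat_lit 491) (B (L (nat_lit 459) ln12_11_5 ln12_11_5_ok) (L (nat_lit 523) ln12_12_5 ln12_12_5_ok))) (M (nat_lit 524) (B (L (nat_lit 397) ln12_16_6 ln12_16_6_ok) (L (nat_lit 556) ln12_17_6 ln12_17_6_ok))))))) (B (M (nat_lit 364) (B (L (nat_lit 332) ln12_10_4 ln12_10_4_ok) (M (nat_lit 427) (B (M (nat_lit 426) (B (L (nat_lit 425) ln9_13_0 ln9_13_0_ok) (L (nat_lit 462) ln10_13_0 ln10_13_0_ok)))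 (M (nat_lit 492) (B (M (nat_lit 491) (B (L (nat_lit 459) ln12_11_5 ln12_11_5_ok) (L (nat_lit 523) ln12_12_5 ln12_12_5_ok))) (M (nat_lit 524) (B (L (nat_lit 395) ln12_16_7 ln12_16_7_ok) (L (nat_lit 556) ln12_17_6 ln12_17_6_ok))))))))) (B (M (nat_lit 492) (B (M (nat_lit 397) (B (L (nat_lit 365) ln12_15_6 ln12_15_6_ok) (L (nat_lit 524) ln12_16_6 ln12_16_6_ok))) (B (M (nat_lit 524) (B (L (nat_lit 397) ln12_16_6 ln12_16_6_ok) (L (nat_lit 556) ln12_17_6 ln12_17_6_ok))) (B (M (nat_lit 427) (B (M (nat_lit 524) (B (L (nat_lit 395) ln12_16_7 ln12_16_7_ok) (L (nat_lit 556) ln12_17_6 ln12_17_6_ok))) (M (nat_lit 462) (B (L (nat_lit 426) ln10_13_0 ln10_13_0_ok) (L (nat_lit 463) ln15_14_3 ln15_14_3_ok))))) (M (nat_lit 365) (B (L (nat_lit 397) ln12_15_6 ln12_15_6_ok) (M (nat_lit 364) (B (L (nat_lit 332) ln12_10_4 ln12_10_4_ok) (L (nat_lit 333) ln12_14_6 ln12_14_6_ok))))))))) (M (nat_lit 459) (B (M (nat_lit 364) (B (L (nat_lit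 332) ln12_10_4 ln12_10_4_ok) (L (nat_lit 491) ln12_11_5 ln12_11_5_ok))) (B (M (nat_lit 462) (B (M (nat_lit 427) (B (L (nat_lit 426) ln10_13_0 ln10_13_0_ok) (L (nat_lit 463) ln15_14_3 ln15_14_3_ok))) (M (nat_lit 491) (B (L (nat_lit 364) ln12_11_5 ln12_11_5_ok) (L (nat_lit 490) ln14_14_1 ln14_14_1_ok))))) (B (M (nat_lit 458) (B (L (nat_lit 457) ln9_14_2 ln9_14_2_ok) (M (nat_lit 462) (B (M (nat_lit 426) (B (L (nat_lit 425) ln13_14_3 ln13_14_3_ok) (L (nat_lit 427) ln10_13_0 ln10_13_0_ok))) (M (nat_lit 490) (B (L (nat_lit 489) ln13_14_1 ln13_14_1_ok) (L (nat_lit 491) ln14_14_1 ln14_14_1_ok))))))) (M (nat_lit 462) (B (M (nat_lit 427) (B (L (nat_lit 426) ln10_13_0 ln10_13_0_ok) (L (nat_lit 463) ln15_14_3 ln15_14_3_ok))) (M (nat_lit 365) (B (M (nat_lit 364) (B (L (nat_lit 332) ln12_10_4 ln12_10_4_ok) (L (nat_lit 333) ln12_14_6 ln12_14_6_ok))) (B (M (nat_lit 333) (B (L (nat_lit 364) ln12_14_6 ln12_14_6_ok) (L (nat_lit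 397) ln13_10_5 ln13_10_5_ok))) (M (nat_lit 494) (B (L (nat_lit 397) ln13_11_4 ln13_11_4_ok) (L (nat_lit 495) ln11_14_0 ln11_14_0_ok))))))))))))))))))))
noncomputable def c20_n4519 : Cert := (M (nat_lit 397) (B (M (nat_lit 364) (B (L (nat_lit 332) ln12_10_4 ln12_10_4_ok) (M (nat_lit 365) (B (M (nat_lit 333) (B (L (nat_lit 301) ln13_9_5 ln13_9_5_ok) (M (nat_lit 462) (B (L (nat_lit 430) ln13_10_4 ln13_10_4_ok) (L (nat_lit 494) ln13_11_4 ln13_11_4_ok))))) (M (nat_lit 366) (B (L (nat_lit 334) ln13_14_6 ln13_14_6_ok) (M (nat_lit 367) (B (L (nat_lit 395) ln15_11_1 ln15_11_1_ok) (L (nat_lit 368) ln16_11_1 ln16_11_1_ok))))))))) (B (M (nat_lit 365) (B (M (nat_lit 332) (B (L (nat_lit 364) ln13_14_7 ln13_14_7_ok) (M (nat_lit 333) (B (L (nat_lit 300) ln13_13_7 ln13_13_7_ok) (M (nat_lit 334) (B (L (nat_lit 302) ln13_13_6 ln13_13_6_ok) (L (nat_lit 366) ln13_14_6 ln13_14_6_ok))))))) (B (M (nat_lit 333) (B (M (nat_lit 334)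 (B (L (nat_lit 302) ln13_13_6 ln13_13_6_ok) (L (nat_lit 366) ln13_14_6 ln13_14_6_ok))) (M (nat_lit 462) (B (L (nat_lit 430) ln13_10_4 ln13_10_4_ok) (L (nat_lit 494) ln13_11_4 ln13_11_4_ok))))) (B (M (nat_lit 333) (B (M (nat_lit 332) (B (L (nat_lit 300) ln13_13_7 ln13_13_7_ok) (L (nat_lit 364) ln13_14_7 ln13_14_7_ok))) (M (nat_lit 462) (B (L (nat_lit 430) ln13_10_4 ln13_10_4_ok) (L (nat_lit 494) ln13_11_4 ln13_11_4_ok))))) (M (nat_lit 364) (B (L (nat_lit 332) ln13_14_7 ln13_14_7_ok) (M (nat_lit 366) (B (L (nat_lit 334) ln13_14_6 ln13_14_6_ok) (M (nat_lit 367) (B (L (nat_lit 395) ln15_11_1 ln15_11_1_ok) (L (nat_lit 368) ln16_11_1 ln16_11_1_ok))))))))))) (B (M (nat_lit 398) (B (M (nat_lit 399) (B (L (nat_lit 427) ln15_12_1 ln15_12_1_ok) (L (nat_lit 400) ln16_12_1 ln16_12_1_ok))) (M (nat_lit 365) (B (M (nat_lit 366) (B (L (nat_lit 334) ln13_14_6 ln13_14_6_ok) (M (nat_lit 395) (B (L (nat_lit 394) ln10_12_2 ln10_12_2_ok)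 (L (nat_lit 367) ln11_12_2 ln11_12_2_ok))))) (M (nat_lit 333) (B (L (nat_lit 301) ln13_9_5 ln13_9_5_ok) (M (nat_lit 462) (B (L (nat_lit 430) ln13_10_4 ln13_10_4_ok) (L (nat_lit 494) ln13_11_4 ln13_11_4_ok))))))))) (B (M (nat_lit 398) (B (M (nat_lit 399) (B (L (nat_lit 427) ln15_12_1 ln15_12_1_ok) (L (nat_lit 400) ln16_12_1 ln16_12_1_ok))) (B (M (nat_lit 395) (B (M (nat_lit 394) (B (L (nat_lit 393) ln9_12_0 ln9_12_0_ok) (L (nat_lit 430) ln10_12_0 ln10_12_0_ok))) (B (M (nat_lit 394) (B (L (nat_lit 430) ln10_12_0 ln10_12_0_ok) (M (nat_lit 426) (B (L (nat_lit 425) ln13_12_1 ln13_12_1_ok) (L (nat_lit 427) ln14_12_1 ln14_12_1_ok))))) (B (M (nat_lit 366) (B (L (nat_lit 367) ln11_12_2 ln11_12_2_ok) (M (nat_lit 334) (B (L (nat_lit 302) ln14_9_5 ln14_9_5_ok) (L (nat_lit 430) ln14_10_5 ln14_10_5_ok))))) (M (nat_lit 394) (B (L (nat_lit 393) ln9_12_0 ln9_12_0_ok) (M (nat_lit 426) (B (L (nat_lit 425) ln13_12_1 ln13_12_1_ok)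 (L (nat_lit 427) ln14_12_1 ln14_12_1_ok))))))))) (M (nat_lit 399) (B (L (nat_lit 400) ln16_12_1 ln16_12_1_ok) (M (nat_lit 395) (B (M (nat_lit 367) (B (L (nat_lit 366) ln11_12_2 ln11_12_2_ok) (L (nat_lit 368) ln12_12_2 ln12_12_2_ok))) (M (nat_lit 394) (B (L (nat_lit 393) ln9_12_0 ln9_12_0_ok) (L (nat_lit 430) ln10_12_0 ln10_12_0_ok)))))))))) (B (M (nat_lit 427) (B (M (nat_lit 426) (B (L (nat_lit 425) ln9_13_2 ln9_13_2_ok) (L (nat_lit 398) ln10_13_2 ln10_13_2_ok))) (B (M (nat_lit 426) (B (L (nat_lit 425) ln9_13_2 ln9_13_2_ok) (L (nat_lit 462) ln10_13_0 ln10_13_0_ok))) (B (M (nat_lit 426) (B (L (nat_lit 398) ln10_13_2 ln10_13_2_ok) (L (nat_lit 462) ln10_13_0 ln10_13_0_ok))) (M (nat_lit 365) (B (M (nat_lit 462) (B (L (nat_lit 494) ln13_11_4 ln13_11_4_ok) (M (nat_lit 430) (B (L (nat_lit 333) ln13_10_4 ln13_10_4_ok) (L (nat_lit 463) ln11_13_0 ln11_13_0_ok))))) (B (M (nat_lit 462) (B (L (nat_lit 494) ln13_11_4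 ln13_11_4_ok) (M (nat_lit 463) (B (L (nat_lit 430) ln11_13_0 ln11_13_0_ok) (L (nat_lit 464) ln16_14_3 ln16_14_3_ok))))) (M (nat_lit 332) (B (L (nat_lit 364) ln13_14_7 ln13_14_7_ok) (M (nat_lit 333) (B (L (nat_lit 300) ln13_13_7 ln13_13_7_ok) (L (nat_lit 301) ln13_9_5 ln13_9_5_ok)))))))))))) (M (nat_lit 365) (B (M (nat_lit 333) (B (L (nat_lit 301) ln13_9_5 ln13_9_5_ok) (M (nat_lit 332) (B (L (nat_lit 300) ln13_13_7 ln13_13_7_ok) (L (nat_lit 364) ln13_14_7 ln13_14_7_ok))))) (B (M (nat_lit 333) (B (L (nat_lit 301) ln13_9_5 ln13_9_5_ok) (M (nat_lit 334) (B (L (nat_lit 302) ln13_13_6 ln13_13_6_ok) (L (nat_lit 366) ln13_14_6 ln13_14_6_ok))))) (B (M (nat_lit 332) (B (L (nat_lit 364) ln13_14_7 ln13_14_7_ok) (M (nat_lit 333) (B (L (nat_lit 300) ln13_13_7 ln13_13_7_ok) (M (nat_lit 334) (B (L (nat_lit 302) ln13_13_6 ln13_13_6_ok) (L (nat_lit 366) ln13_14_6 ln13_14_6_ok))))))) (M (nat_lit 364) (B (L (nat_lit 332) ln13_14_7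 ln13_14_7_ok) (M (nat_lit 366) (B (L (nat_lit 334) ln13_14_6 ln13_14_6_ok) (M (nat_lit 367) (B (L (nat_lit 395) ln15_11_1 ln15_11_1_ok) (L (nat_lit 368) ln16_11_1 ln16_11_1_ok)))))))))))))))))
theorem c20_s4550 : Sem (nat_lit 5954262831509113917970671778902343783532342804327837356357830143065656733685921768742376304727131933651871260571575937852568135413341880320) (nat_lit 353808977409397073871628272248119360337720707326454092909029335839273984433419045102963552365285390795666248064435698686494427638086462902765756602648326194762637901824) (nat_lit 353808977409397073871628272248119360337720707326454092909029335839273984433419045102963552365285390795666248064435698686494427638086462902765756602648326194762637901824) :=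
  sem_of_chk (M (nat_lit 396) (B (M (nat_lit 427) (B (M (nat_lit 426) (B (L (nat_lit 462) ln10_13_0 ln10_13_0_ok) (M (nat_lit 397) (B (L (nat_lit 425) ln9_13_2 ln9_13_2_ok) (L (nat_lit 398) ln10_13_2 ln10_13_2_ok))))) (B (M (nat_lit 426) (B (L (nat_lit 462) ln10_13_0 ln10_13_0_ok) (M (nat_lit 425) (B (L (nat_lit 460) ln9_13_0 ln9_13_0_ok) (M (nat_lit 457) (B (L (nat_lit 456) ln12_13_1 ln12_13_1_ok) (L (nat_lit 458) ln13_13_1 ln13_13_1_ok))))))) (M (nat_lit 459) (B (M (nat_lit 364) (B (L (nat_lit 332) ln12_10_5 ln12_10_5_ok) (M (nat_lit 491) (B (L (nat_lit 395) ln11_15_6 ln11_15_6_ok) (L (nat_lit 523) ln11_16_6 ln11_16_6_ok))))) (M (nat_lit 458) (B (L (nat_lit 430) ln14_13_1 ln14_13_1_ok) (M (nat_lit 457) (B (L (nat_lit 456) ln8_14_2 ln8_14_2_ok) (L (nat_lit 460) ln9_14_2 ln9_14_2_ok)))))))))) (B (M (nat_lit 427) (B (M (nat_lit 426) (B (L (nat_lit 462) ln10_13_0 ln10_13_0_ok) (M (nat_lit 397) (B (L (nat_lit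 425) ln9_13_2 ln9_13_2_ok) (L (nat_lit 398) ln10_13_2 ln10_13_2_ok))))) (B (M (nat_lit 426) (B (L (nat_lit 462) ln10_13_0 ln10_13_0_ok) (M (nat_lit 425) (B (L (nat_lit 460) ln9_13_0 ln9_13_0_ok) (M (nat_lit 457) (B (L (nat_lit 456) ln12_13_1 ln12_13_1_ok) (L (nat_lit 458) ln13_13_1 ln13_13_1_ok))))))) (B (M (nat_lit 426) (B (L (nat_lit 462) ln10_13_0 ln10_13_0_ok) (M (nat_lit 430) (B (M (nat_lit 394) (B (L (nat_lit 393) ln13_13_3 ln13_13_3_ok) (L (nat_lit 395) ln14_13_3 ln14_13_3_ok))) (M (nat_lit 458) (B (L (nat_lit 457) ln13_13_1 ln13_13_1_ok) (L (nat_lit 459) ln14_13_1 ln14_13_1_ok))))))) (M (nat_lit 459) (B (M (nat_lit 458) (B (L (nat_lit 430) ln14_13_1 ln14_13_1_ok) (M (nat_lit 457) (B (L (nat_lit 456) ln8_14_2 ln8_14_2_ok) (L (nat_lit 460) ln9_14_2 ln9_14_2_ok))))) (B (M (nat_lit 491) (B (L (nat_lit 523) ln11_16_6 ln11_16_6_ok) (M (nat_lit 364) (B (L (nat_lit 395) ln11_15_6 ln11_15_6_ok) (L (nat_lit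 460) ln12_11_5 ln12_11_5_ok))))) (M (nat_lit 395) (B (M (nat_lit 491) (B (L (nat_lit 364) ln11_15_6 ln11_15_6_ok) (L (nat_lit 523) ln11_16_6 ln11_16_6_ok))) (M (nat_lit 394) (B (L (nat_lit 393) ln9_12_0 ln9_12_0_ok) (L (nat_lit 430) ln14_13_3 ln14_13_3_ok)))))))))))) (B c20_n4226 (B (M (nat_lit 460) (B (M (nat_lit 364) (B (L (nat_lit 332) ln12_10_4 ln12_10_4_ok) (M (nat_lit 459) (B (L (nat_lit 491) ln12_11_5 ln12_11_5_ok) (M (nat_lit 458) (B (L (nat_lit 457) ln9_14_2 ln9_14_2_ok) (L (nat_lit 430) ln10_14_2 ln10_14_2_ok))))))) (B (M (nat_lit 427) (B (M (nat_lit 426) (B (L (nat_lit 425) ln9_13_0 ln9_13_0_ok) (L (nat_lit 462) ln10_13_0 ln10_13_0_ok))) (M (nat_lit 459) (B (M (nat_lit 491) (B (L (nat_lit 364) ln12_11_5 ln12_11_5_ok) (L (nat_lit 523) ln11_16_6 ln11_16_6_ok))) (M (nat_lit 458) (B (L (nat_lit 430) ln14_13_1 ln14_13_1_ok) (L (nat_lit 457) ln9_14_2 ln9_14_2_ok))))))) (B (M (nat_lit 427) (B (M (nat_lit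 426) (B (L (nat_lit 425) ln9_13_0 ln9_13_0_ok) (L (nat_lit 462) ln10_13_0 ln10_13_0_ok))) (B (M (nat_lit 462) (B (L (nat_lit 426) ln10_13_0 ln10_13_0_ok) (L (nat_lit 463) ln15_14_3 ln15_14_3_ok))) (B (M (nat_lit 459) (B (M (nat_lit 458) (B (L (nat_lit 430) ln14_13_1 ln14_13_1_ok) (L (nat_lit 457) ln9_14_2 ln9_14_2_ok))) (M (nat_lit 462) (B (L (nat_lit 463) ln15_14_3 ln15_14_3_ok) (M (nat_lit 491) (B (L (nat_lit 523) ln11_16_6 ln11_16_6_ok) (L (nat_lit 490) ln14_14_1 ln14_14_1_ok))))))) (M (nat_lit 397) (B (M (nat_lit 365) (B (L (nat_lit 333) ln13_10_5 ln13_10_5_ok) (L (nat_lit 492) ln12_15_6 ln12_15_6_ok))) (M (nat_lit 426) (B (L (nat_lit 425) ln9_13_2 ln9_13_2_ok) (L (nat_lit 398) ln10_13_2 ln10_13_2_ok))))))))) (M (nat_lit 365) (B (M (nat_lit 364) (B (L (nat_lit 332) ln12_10_4 ln12_10_4_ok) (L (nat_lit 333) ln12_14_6 ln12_14_6_ok))) (B (M (nat_lit 333) (B (L (nat_lit 364) ln12_14_6 ln12_14_6_ok) (L (nat_lit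 397) ln13_10_5 ln13_10_5_ok))) (M (nat_lit 462) (B (M (nat_lit 397) (B (L (nat_lit 492) ln12_15_6 ln12_15_6_ok) (L (nat_lit 494) ln13_11_4 ln13_11_4_ok))) (M (nat_lit 463) (B (L (nat_lit 427) ln15_14_3 ln15_14_3_ok) (L (nat_lit 464) ln16_14_3 ln16_14_3_ok)))))))))))) (B (M (nat_lit 427) (B (M (nat_lit 462) (B (L (nat_lit 426) ln10_13_0 ln10_13_0_ok) (M (nat_lit 463) (B (L (nat_lit 430) ln11_13_0 ln11_13_0_ok) (L (nat_lit 460) ln15_14_3 ln15_14_3_ok))))) (B (M (nat_lit 459) (B (M (nat_lit 364) (B (L (nat_lit 332) ln12_10_5 ln12_10_5_ok) (M (nat_lit 491) (B (L (nat_lit 395) ln11_15_6 ln11_15_6_ok) (L (nat_lit 523) ln11_16_6 ln11_16_6_ok))))) (M (nat_lit 458) (B (L (nat_lit 430) ln14_13_1 ln14_13_1_ok) (M (nat_lit 457) (B (L (nat_lit 456) ln8_14_2 ln8_14_2_ok) (L (nat_lit 460) ln9_14_2 ln9_14_2_ok))))))) (B (M (nat_lit 462) (B (L (nat_lit 426) ln10_13_0 ln10_13_0_ok) (M (nat_lit 463) (B (L (nat_lit 460) ln15_14_3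 ln15_14_3_ok) (L (nat_lit 464) ln16_14_3 ln16_14_3_ok))))) (M (nat_lit 462) (B (L (nat_lit 426) ln10_13_0 ln10_13_0_ok) (M (nat_lit 463) (B (L (nat_lit 430) ln11_13_0 ln11_13_0_ok) (L (nat_lit 464) ln16_14_3 ln16_14_3_ok))))))))) (B (M (nat_lit 460) (B (M (nat_lit 364) (B (L (nat_lit 332) ln12_10_4 ln12_10_4_ok) (M (nat_lit 459) (B (L (nat_lit 491) ln12_11_5 ln12_11_5_ok) (M (nat_lit 458) (B (L (nat_lit 457) ln9_14_2 ln9_14_2_ok) (L (nat_lit 430) ln10_14_2 ln10_14_2_ok))))))) (B (M (nat_lit 492) (B (M (nat_lit 397) (B (L (nat_lit 365) ln12_15_6 ln12_15_6_ok) (L (nat_lit 524) ln12_16_6 ln12_16_6_ok))) (B (M (nat_lit 524) (B (L (nat_lit 397) ln12_16_6 ln12_16_6_ok) (L (nat_lit 556) ln12_17_6 ln12_17_6_ok))) (B (M (nat_lit 523) (B (L (nat_lit 491) ln12_12_5 ln12_12_5_ok) (M (nat_lit 524) (B (L (nat_lit 555) ln12_13_5 ln12_13_5_ok) (L (nat_lit 556) ln12_17_6 ln12_17_6_ok))))) (M (nat_lit 459) (B (M (nat_lit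 491) (B (L (nat_lit 364) ln12_11_5 ln12_11_5_ok) (L (nat_lit 523) ln12_12_5 ln12_12_5_ok))) (M (nat_lit 458) (B (L (nat_lit 457) ln9_14_2 ln9_14_2_ok) (L (nat_lit 430) ln10_14_2 ln10_14_2_ok))))))))) (B (M (nat_lit 492) (B (M (nat_lit 397) (B (L (nat_lit 365) ln12_15_6 ln12_15_6_ok) (L (nat_lit 524) ln12_16_6 ln12_16_6_ok))) (B (M (nat_lit 524) (B (L (nat_lit 397) ln12_16_6 ln12_16_6_ok) (L (nat_lit 556) ln12_17_6 ln12_17_6_ok))) (B (M (nat_lit 523) (B (L (nat_lit 491) ln12_12_5 ln12_12_5_ok) (M (nat_lit 524) (B (L (nat_lit 555) ln12_13_5 ln12_13_5_ok) (L (nat_lit 556) ln12_17_6 ln12_17_6_ok))))) (M (nat_lit 491) (B (L (nat_lit 523) ln12_12_5 ln12_12_5_ok) (M (nat_lit 462) (B (L (nat_lit 463) ln15_14_1 ln15_14_1_ok) (M (nat_lit 490) (B (L (nat_lit 459) ln14_14_1 ln14_14_1_ok) (L (nat_lit 489) ln9_15_2 ln9_15_2_ok))))))))))) (B (M (nat_lit 492) (B (M (nat_lit 397) (B (L (nat_lit 365) ln12_15_6 ln12_15_6_ok)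 (L (nat_lit 524) ln12_16_6 ln12_16_6_ok))) (B (M (nat_lit 524) (B (L (nat_lit 397) ln12_16_6 ln12_16_6_ok) (L (nat_lit 556) ln12_17_6 ln12_17_6_ok))) (B (M (nat_lit 523) (B (L (nat_lit 491) ln12_12_5 ln12_12_5_ok) (M (nat_lit 524) (B (L (nat_lit 555) ln12_13_5 ln12_13_5_ok) (L (nat_lit 556) ln12_17_6 ln12_17_6_ok))))) (M (nat_lit 365) (B (L (nat_lit 397) ln12_15_6 ln12_15_6_ok) (M (nat_lit 364) (B (L (nat_lit 332) ln12_10_4 ln12_10_4_ok) (L (nat_lit 333) ln12_14_6 ln12_14_6_ok))))))))) (M (nat_lit 365) (B (M (nat_lit 364) (B (L (nat_lit 332) ln12_10_4 ln12_10_4_ok) (L (nat_lit 333) ln12_14_6 ln12_14_6_ok))) (B (M (nat_lit 333) (B (L (nat_lit 364) ln12_14_6 ln12_14_6_ok) (L (nat_lit 397) ln13_10_5 ln13_10_5_ok))) (M (nat_lit 462) (B (M (nat_lit 397) (B (L (nat_lit 492) ln12_15_6 ln12_15_6_ok) (L (nat_lit 494) ln13_11_4 ln13_11_4_ok))) (M (nat_lit 463) (B (L (nat_lit 427) ln15_14_3 ln15_14_3_ok) (L (nat_lit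 464) ln16_14_3 ln16_14_3_ok))))))))))))) (B (M (nat_lit 365) (B (M (nat_lit 364) (B (L (nat_lit 332) ln12_10_4 ln12_10_4_ok) (M (nat_lit 333) (B (L (nat_lit 460) ln12_14_6 ln12_14_6_ok) (M (nat_lit 301) (B (L (nat_lit 269) ln13_8_5 ln13_8_5_ok) (L (nat_lit 397) ln13_9_5 ln13_9_5_ok))))))) (B (M (nat_lit 460) (B (M (nat_lit 364) (B (L (nat_lit 332) ln12_10_4 ln12_10_4_ok) (L (nat_lit 333) ln12_14_6 ln12_14_6_ok))) (B (M (nat_lit 333) (B (L (nat_lit 364) ln12_14_6 ln12_14_6_ok) (L (nat_lit 397) ln13_10_5 ln13_10_5_ok))) (B (M (nat_lit 459) (B (M (nat_lit 364) (B (L (nat_lit 332) ln12_10_4 ln12_10_4_ok) (L (nat_lit 491) ln12_11_5 ln12_11_5_ok))) (M (nat_lit 458) (B (L (nat_lit 457) ln9_14_2 ln9_14_2_ok) (L (nat_lit 430) ln10_14_2 ln10_14_2_ok))))) (M (nat_lit 397) (B (L (nat_lit 333) ln13_10_5 ln13_10_5_ok) (L (nat_lit 492) ln12_15_6 ln12_15_6_ok))))))) (B (M (nat_lit 397) (B (M (nat_lit 333) (B (L (nat_lit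 301) ln13_9_5 ln13_9_5_ok) (L (nat_lit 460) ln13_10_5 ln13_10_5_ok))) (M (nat_lit 366) (B (L (nat_lit 334) ln13_14_6 ln13_14_6_ok) (M (nat_lit 395) (B (L (nat_lit 394) ln10_12_2 ln10_12_2_ok) (M (nat_lit 367) (B (L (nat_lit 368) ln16_11_1 ln16_11_1_ok) (L (nat_lit 398) ln11_12_2 ln11_12_2_ok))))))))) (B (M (nat_lit 397) (B (M (nat_lit 366) (B (L (nat_lit 334) ln13_14_6 ln13_14_6_ok) (M (nat_lit 395) (B (L (nat_lit 394) ln10_12_2 ln10_12_2_ok) (M (nat_lit 367) (B (L (nat_lit 368) ln16_11_1 ln16_11_1_ok) (L (nat_lit 398) ln11_12_2 ln11_12_2_ok))))))) (M (nat_lit 460) (B (L (nat_lit 492) ln12_15_6 ln12_15_6_ok) (M (nat_lit 459) (B (M (nat_lit 364) (B (L (nat_lit 332) ln13_14_7 ln13_14_7_ok) (L (nat_lit 491) ln12_11_5 ln12_11_5_ok))) (M (nat_lit 458) (B (L (nat_lit 457) ln9_14_2 ln9_14_2_ok) (L (nat_lit 430) ln10_14_2 ln10_14_2_ok))))))))) (B (M (nat_lit 364) (B (L (nat_lit 332) ln12_10_4 ln12_10_4_ok) (M (nat_lit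 460) (B (L (nat_lit 333) ln12_14_6 ln12_14_6_ok) (M (nat_lit 459) (B (L (nat_lit 491) ln12_11_5 ln12_11_5_ok) (M (nat_lit 458) (B (L (nat_lit 457) ln9_14_2 ln9_14_2_ok) (L (nat_lit 430) ln10_14_2 ln10_14_2_ok))))))))) (M (nat_lit 364) (B (L (nat_lit 332) ln12_10_4 ln12_10_4_ok) (M (nat_lit 397) (B (M (nat_lit 366) (B (L (nat_lit 334) ln13_14_6 ln13_14_6_ok) (M (nat_lit 367) (B (L (nat_lit 395) ln15_11_1 ln15_11_1_ok) (L (nat_lit 368) ln16_11_1 ln16_11_1_ok))))) (M (nat_lit 333) (B (L (nat_lit 301) ln13_9_5 ln13_9_5_ok) (M (nat_lit 462) (B (L (nat_lit 430) ln13_10_4 ln13_10_4_ok) (L (nat_lit 494) ln13_11_4 ln13_11_4_ok))))))))))))))) (B c20_n4461 (B c20_n4519 (M (nat_lit 364) (B (L (nat_lit 332) ln12_10_4 ln12_10_4_ok) (M (nat_lit 459) (B (M (nat_lit 460) (B (L (nat_lit 491) ln12_11_5 ln12_11_5_ok) (M (nat_lit 458) (B (L (nat_lit 457) ln9_14_2 ln9_14_2_ok) (L (nat_lit 430) ln10_14_2 ln10_14_2_ok))))) (B (M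 (nat_lit 491) (B (L (nat_lit 460) ln12_11_5 ln12_11_5_ok) (M (nat_lit 427) (B (L (nat_lit 395) ln11_15_6 ln11_15_6_ok) (L (nat_lit 523) ln11_16_6 ln11_16_6_ok))))) (B (M (nat_lit 427) (B (M (nat_lit 491) (B (L (nat_lit 395) ln11_15_6 ln11_15_6_ok) (L (nat_lit 523) ln11_16_6 ln11_16_6_ok))) (M (nat_lit 458) (B (L (nat_lit 430) ln14_13_1 ln14_13_1_ok) (M (nat_lit 457) (B (L (nat_lit 426) ln13_13_1 ln13_13_1_ok) (L (nat_lit 456) ln8_14_2 ln8_14_2_ok))))))) (M (nat_lit 458) (B (M (nat_lit 430) (B (L (nat_lit 427) ln14_13_1 ln14_13_1_ok) (L (nat_lit 460) ln10_14_2 ln10_14_2_ok))) (B (M (nat_lit 460) (B (L (nat_lit 457) ln9_14_2 ln9_14_2_ok) (L (nat_lit 430) ln10_14_2 ln10_14_2_ok))) (B (M (nat_lit 457) (B (L (nat_lit 460) ln9_14_2 ln9_14_2_ok) (M (nat_lit 427) (B (L (nat_lit 426) ln13_13_1 ln13_13_1_ok) (L (nat_lit 456) ln8_14_2 ln8_14_2_ok))))) (M (nat_lit 427) (B (L (nat_lit 430) ln14_13_1 ln14_13_1_ok) (M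 (nat_lit 457) (B (L (nat_lit 426) ln13_13_1 ln13_13_1_ok) (L (nat_lit 456) ln8_14_2 ln8_14_2_ok))))))))))))))))))))))))) (nat_lit 5954262831509113917970671778902343783532342804327837356357830143065656733685921768742376304727131933651871260571575937852568135413341880320) (nat_lit 353808977409397073871628272248119360337720707326454092909029335839273984433419045102963552365285390795666248064435698686494427638086462902765756602648326194762637901824) (nat_lit 353808977409397073871628272248119360337720707326454092909029335839273984433419045102963552365285390795666248064435698686494427638086462902765756602648326194762637901824) (by decide +kernel)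
noncomputable def c20_n4602 : Cert := (M (nat_lit 459) (B (M (nat_lit 458) (B (L (nat_lit 430) ln14_13_1 ln14_13_1_ok) (M (nat_lit 457) (B (L (nat_lit 456) ln8_14_2 ln8_14_2_ok) (L (nat_lit 460) ln9_14_2 ln9_14_2_ok))))) (B (M (nat_lit 491) (B (M (nat_lit 523) (B (L (nat_lit 396) ln11_16_6 ln11_16_6_ok) (M (nat_lit 555) (B (L (nat_lit 460) ln11_17_6 ln11_17_6_ok) (M (nat_lit 556) (B (L (nat_lit 524) ln11_13_4 ln11_13_4_ok) (L (nat_lit 588) ln11_14_4 ln11_14_4_ok))))))) (B (M (nat_lit 460) (B (M (nat_lit 462) (B (L (nat_lit 463) ln15_14_3 ln15_14_3_ok) (L (nat_lit 490) ln14_14_1 ln14_14_1_ok))) (M (nat_lit 524) (B (M (nat_lit 492) (B (L (nat_lit 395) ln12_16_7 ln12_16_7_ok) (L (nat_lit 397) ln12_16_6 ln12_16_6_ok))) (M (nat_lit 523) (B (L (nat_lit 556) ln11_13_4 ln11_13_4_ok) (L (nat_lit 555) ln11_17_6 ln11_17_6_ok))))))) (B (M (nat_lit 395) (B (M (nat_lit 394) (B (L (nat_lit 362) ln11_15_7 ln11_15_7_ok)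 (M (nat_lit 393) (B (L (nat_lit 392) ln8_12_0 ln8_12_0_ok) (L (nat_lit 396) ln9_12_0 ln9_12_0_ok))))) (B (M (nat_lit 522) (B (L (nat_lit 490) ln11_12_5 ln11_12_5_ok) (M (nat_lit 523) (B (L (nat_lit 396) ln11_16_6 ln11_16_6_ok) (L (nat_lit 554) ln11_13_5 ln11_13_5_ok))))) (M (nat_lit 363) (B (M (nat_lit 362) (B (L (nat_lit 330) ln11_14_7 ln11_14_7_ok) (L (nat_lit 394) ln11_15_7 ln11_15_7_ok))) (M (nat_lit 490) (B (L (nat_lit 458) ln11_11_5 ln11_11_5_ok) (L (nat_lit 522) ln11_12_5 ln11_12_5_ok)))))))) (M (nat_lit 395) (B (M (nat_lit 394) (B (L (nat_lit 362) ln11_15_7 ln11_15_7_ok) (M (nat_lit 393) (B (L (nat_lit 392) ln8_12_0 ln8_12_0_ok) (L (nat_lit 396) ln9_12_0 ln9_12_0_ok))))) (M (nat_lit 460) (B (M (nat_lit 363) (B (L (nat_lit 331) ln11_10_4 ln11_10_4_ok) (L (nat_lit 492) ln11_11_4 ln11_11_4_ok))) (M (nat_lit 490) (B (L (nat_lit 522) ln11_12_5 ln11_12_5_ok) (L (nat_lit 462) ln14_14_1 ln14_14_1_ok)))))))))))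 (B (M (nat_lit 460) (B (M (nat_lit 462) (B (L (nat_lit 463) ln15_14_3 ln15_14_3_ok) (M (nat_lit 491) (B (L (nat_lit 490) ln14_14_1 ln14_14_1_ok) (M (nat_lit 523) (B (L (nat_lit 396) ln11_16_6 ln11_16_6_ok) (L (nat_lit 555) ln11_17_6 ln11_17_6_ok))))))) (B (M (nat_lit 395) (B (M (nat_lit 492) (B (L (nat_lit 363) ln11_11_4 ln11_11_4_ok) (L (nat_lit 524) ln12_16_7 ln12_16_7_ok))) (M (nat_lit 491) (B (M (nat_lit 394) (B (L (nat_lit 362) ln11_15_7 ln11_15_7_ok) (L (nat_lit 430) ln14_13_3 ln14_13_3_ok))) (M (nat_lit 462) (B (L (nat_lit 463) ln15_14_3 ln15_14_3_ok) (L (nat_lit 490) ln14_14_1 ln14_14_1_ok))))))) (M (nat_lit 395) (B (M (nat_lit 492) (B (L (nat_lit 363) ln11_11_4 ln11_11_4_ok) (L (nat_lit 524) ln12_16_7 ln12_16_7_ok))) (M (nat_lit 394) (B (L (nat_lit 430) ln14_13_3 ln14_13_3_ok) (M (nat_lit 393) (B (L (nat_lit 392) ln8_12_0 ln8_12_0_ok) (L (nat_lit 396) ln9_12_0 ln9_12_0_ok)))))))))) (M (nat_lit 395)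 (B (M (nat_lit 430) (B (L (nat_lit 394) ln14_13_3 ln14_13_3_ok) (L (nat_lit 458) ln14_13_1 ln14_13_1_ok))) (B (M (nat_lit 458) (B (L (nat_lit 430) ln14_13_1 ln14_13_1_ok) (M (nat_lit 490) (B (L (nat_lit 363) ln11_11_5 ln11_11_5_ok) (M (nat_lit 522) (B (L (nat_lit 491) ln11_12_5 ln11_12_5_ok) (L (nat_lit 554) ln10_17_6 ln10_17_6_ok))))))) (B (M (nat_lit 491) (B (M (nat_lit 394) (B (L (nat_lit 362) ln11_15_7 ln11_15_7_ok) (M (nat_lit 393) (B (L (nat_lit 392) ln8_12_0 ln8_12_0_ok) (L (nat_lit 396) ln9_12_0 ln9_12_0_ok))))) (B (M (nat_lit 522) (B (L (nat_lit 490) ln11_12_5 ln11_12_5_ok) (M (nat_lit 523) (B (L (nat_lit 396) ln11_16_6 ln11_16_6_ok) (L (nat_lit 554) ln11_13_5 ln11_13_5_ok))))) (M (nat_lit 363) (B (M (nat_lit 362) (B (L (nat_lit 330) ln11_14_7 ln11_14_7_ok) (L (nat_lit 394) ln11_15_7 ln11_15_7_ok))) (M (nat_lit 490) (B (L (nat_lit 458) ln11_11_5 ln11_11_5_ok) (L (nat_lit 522) ln11_12_5 ln11_12_5_ok))))))))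 (M (nat_lit 394) (B (L (nat_lit 430) ln14_13_3 ln14_13_3_ok) (M (nat_lit 393) (B (L (nat_lit 392) ln8_12_0 ln8_12_0_ok) (L (nat_lit 396) ln9_12_0 ln9_12_0_ok)))))))))))))
noncomputable def c20_n4603 : Cert := (M (nat_lit 427) (B (M (nat_lit 462) (B (L (nat_lit 426) ln10_13_0 ln10_13_0_ok) (M (nat_lit 463) (B (L (nat_lit 460) ln15_14_3 ln15_14_3_ok) (L (nat_lit 464) ln16_14_3 ln16_14_3_ok))))) (B c20_n4602 (B (M (nat_lit 462) (B (L (nat_lit 426) ln10_13_0 ln10_13_0_ok) (M (nat_lit 463) (B (L (nat_lit 430) ln11_13_0 ln11_13_0_ok) (L (nat_lit 464) ln16_14_3 ln16_14_3_ok))))) (M (nat_lit 426) (B (M (nat_lit 425) (B (L (nat_lit 460) ln9_13_0 ln9_13_0_ok) (M (nat_lit 393) (B (L (nat_lit 392) ln12_13_3 ln12_13_3_ok) (L (nat_lit 394) ln13_13_3 ln13_13_3_ok))))) (B (M (nat_lit 425) (B (L (nat_lit 460) ln9_13_0 ln9_13_0_ok) (M (nat_lit 457) (B (L (nat_lit 456) ln12_13_1 ln12_13_1_ok) (L (nat_lit 458) ln13_13_1 ln13_13_1_ok)))))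 (M (nat_lit 430) (B (M (nat_lit 394) (B (L (nat_lit 393) ln13_13_3 ln13_13_3_ok) (L (nat_lit 395) ln14_13_3 ln14_13_3_ok))) (M (nat_lit 458) (B (L (nat_lit 457) ln13_13_1 ln13_13_1_ok) (L (nat_lit 459) ln14_13_1 ln14_13_1_ok))))))))))))
noncomputable def c20_n4675 : Cert := (M (nat_lit 427) (B (M (nat_lit 462) (B (L (nat_lit 426) ln10_13_0 ln10_13_0_ok) (M (nat_lit 463) (B (L (nat_lit 430) ln11_13_0 ln11_13_0_ok) (L (nat_lit 464) ln16_14_3 ln16_14_3_ok))))) (B (M (nat_lit 462) (B (M (nat_lit 463) (B (L (nat_lit 430) ln11_13_0 ln11_13_0_ok) (L (nat_lit 460) ln15_14_3 ln15_14_3_ok))) (B (M (nat_lit 463) (B (L (nat_lit 460) ln15_14_3 ln15_14_3_ok) (L (nat_lit 464) ln16_14_3 ln16_14_3_ok))) (B (M (nat_lit 463) (B (L (nat_lit 430) ln11_13_0 ln11_13_0_ok) (L (nat_lit 464) ln16_14_3 ln16_14_3_ok))) (M (nat_lit 459) (B (M (nat_lit 458) (B (L (nat_lit 430) ln14_13_1 ln14_13_1_ok) (M (nat_lit 457) (B (L (nat_lit 456)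 ln8_14_2 ln8_14_2_ok) (L (nat_lit 460) ln9_14_2 ln9_14_2_ok))))) (B (M (nat_lit 491) (B (M (nat_lit 396) (B (L (nat_lit 523) ln11_16_6 ln11_16_6_ok) (M (nat_lit 364) (B (L (nat_lit 332) ln12_10_5 ln12_10_5_ok) (L (nat_lit 395) ln11_15_6 ln11_15_6_ok))))) (B (M (nat_lit 460) (B (L (nat_lit 490) ln14_14_1 ln14_14_1_ok) (M (nat_lit 523) (B (L (nat_lit 396) ln11_16_6 ln11_16_6_ok) (L (nat_lit 555) ln11_17_6 ln11_17_6_ok))))) (B (M (nat_lit 460) (B (L (nat_lit 490) ln14_14_1 ln14_14_1_ok) (M (nat_lit 524) (B (M (nat_lit 492) (B (L (nat_lit 395) ln12_16_7 ln12_16_7_ok) (L (nat_lit 397) ln12_16_6 ln12_16_6_ok))) (M (nat_lit 523) (B (L (nat_lit 556) ln11_13_4 ln11_13_4_ok) (L (nat_lit 555) ln11_17_6 ln11_17_6_ok))))))) (M (nat_lit 395) (B (M (nat_lit 490) (B (L (nat_lit 522) ln11_12_5 ln11_12_5_ok) (L (nat_lit 460) ln14_14_1 ln14_14_1_ok))) (M (nat_lit 363) (B (M (nat_lit 362) (B (L (nat_lit 330) ln11_14_7 ln11_14_7_ok)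 (L (nat_lit 394) ln11_15_7 ln11_15_7_ok))) (M (nat_lit 364) (B (L (nat_lit 332) ln11_14_6 ln11_14_6_ok) (L (nat_lit 396) ln11_15_6 ln11_15_6_ok))))))))))) (M (nat_lit 395) (B (M (nat_lit 430) (B (L (nat_lit 394) ln14_13_3 ln14_13_3_ok) (L (nat_lit 458) ln14_13_1 ln14_13_1_ok))) (B (M (nat_lit 458) (B (L (nat_lit 430) ln14_13_1 ln14_13_1_ok) (M (nat_lit 490) (B (L (nat_lit 363) ln11_11_5 ln11_11_5_ok) (M (nat_lit 522) (B (L (nat_lit 491) ln11_12_5 ln11_12_5_ok) (L (nat_lit 554) ln10_17_6 ln10_17_6_ok))))))) (B (M (nat_lit 491) (B (M (nat_lit 396) (B (L (nat_lit 364) ln11_15_6 ln11_15_6_ok) (L (nat_lit 523) ln11_16_6 ln11_16_6_ok))) (M (nat_lit 363) (B (M (nat_lit 362) (B (L (nat_lit 330) ln11_14_7 ln11_14_7_ok) (L (nat_lit 394) ln11_15_7 ln11_15_7_ok))) (M (nat_lit 490) (B (L (nat_lit 458) ln11_11_5 ln11_11_5_ok) (L (nat_lit 522) ln11_12_5 ln11_12_5_ok))))))) (M (nat_lit 491) (B (M (nat_lit 394) (B (L (nat_lit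 362) ln11_15_7 ln11_15_7_ok) (L (nat_lit 430) ln14_13_3 ln14_13_3_ok))) (M (nat_lit 396) (B (L (nat_lit 364) ln11_15_6 ln11_15_6_ok) (L (nat_lit 523) ln11_16_6 ln11_16_6_ok)))))))))))))))) (B (M (nat_lit 462) (B (L (nat_lit 426) ln10_13_0 ln10_13_0_ok) (M (nat_lit 463) (B (L (nat_lit 460) ln15_14_3 ln15_14_3_ok) (L (nat_lit 464) ln16_14_3 ln16_14_3_ok))))) (M (nat_lit 426) (B (M (nat_lit 425) (B (L (nat_lit 460) ln9_13_0 ln9_13_0_ok) (M (nat_lit 457) (B (L (nat_lit 456) ln12_13_1 ln12_13_1_ok) (L (nat_lit 458) ln13_13_1 ln13_13_1_ok))))) (B (M (nat_lit 430) (B (M (nat_lit 398) (B (L (nat_lit 397) ln10_13_2 ln10_13_2_ok) (L (nat_lit 399) ln11_13_2 ln11_13_2_ok))) (M (nat_lit 458) (B (L (nat_lit 457) ln13_13_1 ln13_13_1_ok) (L (nat_lit 459) ln14_13_1 ln14_13_1_ok))))) (M (nat_lit 425) (B (L (nat_lit 460) ln9_13_0 ln9_13_0_ok) (M (nat_lit 397) (B (L (nat_lit 396) ln9_13_2 ln9_13_2_ok) (L (nat_lit 398) ln10_13_2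 ln10_13_2_ok))))))))))))
theorem c20_s4768 : Sem (nat_lit 5954262831509113917970671778902343783532342804327837356357830143065656733685921768742376304727131933651871260571575937852568135413341880320) (nat_lit 353808977409397073718188087455167536831995871741996499320119636536561034107379763664198206596586221092306963362906643348239552810622726749612319281416199285997754646528) (nat_lit 353808977409397073718188087455167536831995871741996499320119636536561034107379763664198206596586221092306963362906643348239552810622726749612319281416199285997754646528) :=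
  sem_of_chk (M (nat_lit 460) (B (M (nat_lit 492) (B (M (nat_lit 524) (B (L (nat_lit 397) ln12_16_6 ln12_16_6_ok) (L (nat_lit 556) ln12_17_6 ln12_17_6_ok))) (M (nat_lit 459) (B (M (nat_lit 458) (B (L (nat_lit 457) ln9_14_2 ln9_14_2_ok) (L (nat_lit 430) ln10_14_2 ln10_14_2_ok))) (M (nat_lit 491) (B (M (nat_lit 523) (B (L (nat_lit 396) ln12_12_5 ln12_12_5_ok) (L (nat_lit 555) ln11_17_6 ln11_17_6_ok))) (M (nat_lit 462) (B (L (nat_lit 490) ln14_14_1 ln14_14_1_ok) (L (nat_lit 463) ln15_14_1 ln15_14_1_ok))))))))) (B (M (nat_lit 427) (B (M (nat_lit 426) (B (L (nat_lit 425) ln9_13_0 ln9_13_0_ok) (L (nat_lit 462) ln10_13_0 ln10_13_0_ok))) (B (M (nat_lit 462) (B (L (nat_lit 426) ln10_13_0 ln10_13_0_ok) (L (nat_lit 463) ln15_14_3 ln15_14_3_ok))) (B (M (nat_lit 459) (B (M (nat_lit 458) (B (L (nat_lit 430) ln14_13_1 ln14_13_1_ok) (L (nat_lit 457) ln9_14_2 ln9_14_2_ok))) (B (M (nat_lit 462) (B (L (nat_lit 463) ln15_14_3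 ln15_14_3_ok) (M (nat_lit 458) (B (L (nat_lit 457) ln9_14_2 ln9_14_2_ok) (M (nat_lit 490) (B (L (nat_lit 489) ln13_14_1 ln13_14_1_ok) (L (nat_lit 491) ln14_14_1 ln14_14_1_ok))))))) (B (M (nat_lit 462) (B (L (nat_lit 463) ln15_14_3 ln15_14_3_ok) (M (nat_lit 458) (B (L (nat_lit 430) ln14_13_1 ln14_13_1_ok) (M (nat_lit 490) (B (L (nat_lit 489) ln13_14_1 ln13_14_1_ok) (L (nat_lit 491) ln14_14_1 ln14_14_1_ok))))))) (M (nat_lit 524) (B (M (nat_lit 492) (B (L (nat_lit 395) ln12_16_7 ln12_16_7_ok) (L (nat_lit 397) ln12_16_6 ln12_16_6_ok))) (B (M (nat_lit 492) (B (L (nat_lit 397) ln12_16_6 ln12_16_6_ok) (L (nat_lit 556) ln12_17_7 ln12_17_7_ok))) (B (M (nat_lit 492) (B (L (nat_lit 395) ln12_16_7 ln12_16_7_ok) (L (nat_lit 556) ln12_17_7 ln12_17_7_ok))) (M (nat_lit 491) (B (M (nat_lit 523) (B (L (nat_lit 556) ln11_13_4 ln11_13_4_ok) (L (nat_lit 555) ln11_17_6 ln11_17_6_ok))) (M (nat_lit 462) (B (L (nat_lit 463) ln15_14_3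 ln15_14_3_ok) (L (nat_lit 490) ln14_14_1 ln14_14_1_ok))))))))))))) (M (nat_lit 397) (B (M (nat_lit 426) (B (L (nat_lit 398) ln10_13_2 ln10_13_2_ok) (L (nat_lit 425) ln9_13_0 ln9_13_0_ok))) (M (nat_lit 492) (B (L (nat_lit 365) ln13_11_5 ln13_11_5_ok) (L (nat_lit 524) ln12_16_6 ln12_16_6_ok))))))))) (B (M (nat_lit 492) (B (M (nat_lit 524) (B (L (nat_lit 556) ln12_17_6 ln12_17_6_ok) (M (nat_lit 427) (B (L (nat_lit 395) ln12_16_7 ln12_16_7_ok) (M (nat_lit 426) (B (L (nat_lit 425) ln9_13_0 ln9_13_0_ok) (L (nat_lit 462) ln10_13_0 ln10_13_0_ok))))))) (B (M (nat_lit 459) (B (M (nat_lit 458) (B (L (nat_lit 457) ln9_14_2 ln9_14_2_ok) (L (nat_lit 430) ln10_14_2 ln10_14_2_ok))) (M (nat_lit 491) (B (M (nat_lit 523) (B (L (nat_lit 396) ln12_12_5 ln12_12_5_ok) (L (nat_lit 555) ln11_17_6 ln11_17_6_ok))) (M (nat_lit 462) (B (L (nat_lit 490) ln14_14_1 ln14_14_1_ok) (L (nat_lit 463) ln15_14_1 ln15_14_1_ok))))))) (M (nat_lit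 524) (B (L (nat_lit 556) ln12_17_6 ln12_17_6_ok) (M (nat_lit 396) (B (M (nat_lit 395) (B (L (nat_lit 363) ln12_15_7 ln12_15_7_ok) (L (nat_lit 427) ln12_16_7 ln12_16_7_ok))) (M (nat_lit 523) (B (L (nat_lit 491) ln12_12_5 ln12_12_5_ok) (L (nat_lit 555) ln12_13_5 ln12_13_5_ok)))))))))) (B (M (nat_lit 492) (B (M (nat_lit 397) (B (L (nat_lit 365) ln13_11_5 ln13_11_5_ok) (L (nat_lit 524) ln12_16_6 ln12_16_6_ok))) (B (M (nat_lit 524) (B (L (nat_lit 397) ln12_16_6 ln12_16_6_ok) (L (nat_lit 556) ln12_17_6 ln12_17_6_ok))) (B (M (nat_lit 427) (B (M (nat_lit 524) (B (L (nat_lit 395) ln12_16_7 ln12_16_7_ok) (L (nat_lit 556) ln12_17_6 ln12_17_6_ok))) (M (nat_lit 462) (B (L (nat_lit 426) ln10_13_0 ln10_13_0_ok) (L (nat_lit 463) ln15_14_3 ln15_14_3_ok))))) (M (nat_lit 396) (B (M (nat_lit 491) (B (L (nat_lit 523) ln12_12_5 ln12_12_5_ok) (M (nat_lit 364) (B (L (nat_lit 332) ln12_10_4 ln12_10_4_ok) (L (nat_lit 459) ln12_11_5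 ln12_11_5_ok))))) (B (M (nat_lit 364) (B (M (nat_lit 363) (B (L (nat_lit 331) ln12_14_7 ln12_14_7_ok) (L (nat_lit 395) ln12_15_7 ln12_15_7_ok))) (M (nat_lit 491) (B (L (nat_lit 459) ln12_11_5 ln12_11_5_ok) (L (nat_lit 523) ln12_12_5 ln12_12_5_ok))))) (B (M (nat_lit 491) (B (L (nat_lit 523) ln12_12_5 ln12_12_5_ok) (M (nat_lit 462) (B (L (nat_lit 463) ln15_14_1 ln15_14_1_ok) (M (nat_lit 490) (B (L (nat_lit 459) ln14_14_1 ln14_14_1_ok) (L (nat_lit 489) ln9_15_2 ln9_15_2_ok))))))) (M (nat_lit 363) (B (L (nat_lit 395) ln12_15_7 ln12_15_7_ok) (M (nat_lit 364) (B (L (nat_lit 331) ln12_14_7 ln12_14_7_ok) (L (nat_lit 332) ln12_10_4 ln12_10_4_ok))))))))))))) (B (M (nat_lit 492) (B (M (nat_lit 397) (B (L (nat_lit 365) ln13_11_5 ln13_11_5_ok) (L (nat_lit 524) ln12_16_6 ln12_16_6_ok))) (B (M (nat_lit 524) (B (L (nat_lit 397) ln12_16_6 ln12_16_6_ok) (L (nat_lit 556) ln12_17_6 ln12_17_6_ok))) (B (M (nat_lit 427) (B (M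 (nat_lit 524) (B (L (nat_lit 395) ln12_16_7 ln12_16_7_ok) (L (nat_lit 556) ln12_17_6 ln12_17_6_ok))) (M (nat_lit 462) (B (L (nat_lit 426) ln10_13_0 ln10_13_0_ok) (L (nat_lit 463) ln15_14_3 ln15_14_3_ok))))) (M (nat_lit 396) (B (M (nat_lit 365) (B (L (nat_lit 397) ln12_15_6 ln12_15_6_ok) (M (nat_lit 364) (B (L (nat_lit 332) ln12_10_4 ln12_10_4_ok) (L (nat_lit 333) ln12_14_6 ln12_14_6_ok))))) (B (M (nat_lit 364) (B (M (nat_lit 363) (B (L (nat_lit 331) ln12_14_7 ln12_14_7_ok) (L (nat_lit 395) ln12_15_7 ln12_15_7_ok))) (M (nat_lit 365) (B (L (nat_lit 333) ln12_14_6 ln12_14_6_ok) (L (nat_lit 397) ln12_15_6 ln12_15_6_ok))))) (B (M (nat_lit 363) (B (L (nat_lit 395) ln12_15_7 ln12_15_7_ok) (M (nat_lit 364) (B (L (nat_lit 331) ln12_14_7 ln12_14_7_ok) (L (nat_lit 332) ln12_10_4 ln12_10_4_ok))))) (M (nat_lit 397) (B (L (nat_lit 365) ln12_15_6 ln12_15_6_ok) (M (nat_lit 398) (B (M (nat_lit 427) (B (L (nat_lit 399) ln15_12_1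 ln15_12_1_ok) (L (nat_lit 426) ln10_13_2 ln10_13_2_ok))) (M (nat_lit 366) (B (M (nat_lit 334) (B (L (nat_lit 302) ln14_9_5 ln14_9_5_ok) (L (nat_lit 430) ln14_10_5 ln14_10_5_ok))) (M (nat_lit 395) (B (L (nat_lit 363) ln12_15_7 ln12_15_7_ok) (L (nat_lit 367) ln11_12_2 ln11_12_2_ok))))))))))))))))) (B (M (nat_lit 492) (B (M (nat_lit 397) (B (L (nat_lit 365) ln13_11_5 ln13_11_5_ok) (L (nat_lit 524) ln12_16_6 ln12_16_6_ok))) (B (M (nat_lit 524) (B (L (nat_lit 397) ln12_16_6 ln12_16_6_ok) (L (nat_lit 556) ln12_17_6 ln12_17_6_ok))) (B (M (nat_lit 524) (B (L (nat_lit 556) ln12_17_6 ln12_17_6_ok) (M (nat_lit 396) (B (M (nat_lit 395) (B (L (nat_lit 363) ln12_15_7 ln12_15_7_ok) (L (nat_lit 427) ln12_16_7 ln12_16_7_ok))) (M (nat_lit 523) (B (L (nat_lit 491) ln12_12_5 ln12_12_5_ok) (L (nat_lit 555) ln12_13_5 ln12_13_5_ok))))))) (M (nat_lit 396) (B (M (nat_lit 363) (B (L (nat_lit 395) ln12_15_7 ln12_15_7_ok) (M (nat_lit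 364) (B (L (nat_lit 331) ln12_14_7 ln12_14_7_ok) (L (nat_lit 332) ln12_10_4 ln12_10_4_ok))))) (B (M (nat_lit 491) (B (L (nat_lit 523) ln12_12_5 ln12_12_5_ok) (M (nat_lit 364) (B (L (nat_lit 332) ln12_10_4 ln12_10_4_ok) (L (nat_lit 459) ln12_11_5 ln12_11_5_ok))))) (B (M (nat_lit 364) (B (M (nat_lit 363) (B (L (nat_lit 331) ln12_14_7 ln12_14_7_ok) (L (nat_lit 395) ln12_15_7 ln12_15_7_ok))) (M (nat_lit 491) (B (L (nat_lit 459) ln12_11_5 ln12_11_5_ok) (L (nat_lit 523) ln12_12_5 ln12_12_5_ok))))) (M (nat_lit 397) (B (L (nat_lit 365) ln12_15_6 ln12_15_6_ok) (M (nat_lit 398) (B (M (nat_lit 427) (B (L (nat_lit 399) ln15_12_1 ln15_12_1_ok) (L (nat_lit 426) ln10_13_2 ln10_13_2_ok))) (M (nat_lit 366) (B (M (nat_lit 334) (B (L (nat_lit 302) ln14_9_5 ln14_9_5_ok) (L (nat_lit 430) ln14_10_5 ln14_10_5_ok))) (M (nat_lit 395) (B (L (nat_lit 363) ln12_15_7 ln12_15_7_ok) (L (nat_lit 367) ln11_12_2 ln11_12_2_ok)))))))))))))))))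 (M (nat_lit 427) (B (M (nat_lit 426) (B (L (nat_lit 425) ln9_13_0 ln9_13_0_ok) (L (nat_lit 462) ln10_13_0 ln10_13_0_ok))) (B (M (nat_lit 462) (B (L (nat_lit 426) ln10_13_0 ln10_13_0_ok) (L (nat_lit 463) ln15_14_3 ln15_14_3_ok))) (B (M (nat_lit 459) (B (M (nat_lit 458) (B (L (nat_lit 430) ln14_13_1 ln14_13_1_ok) (L (nat_lit 457) ln9_14_2 ln9_14_2_ok))) (M (nat_lit 491) (B (M (nat_lit 396) (B (L (nat_lit 364) ln12_11_5 ln12_11_5_ok) (L (nat_lit 523) ln11_16_6 ln11_16_6_ok))) (M (nat_lit 462) (B (L (nat_lit 463) ln15_14_3 ln15_14_3_ok) (L (nat_lit 490) ln14_14_1 ln14_14_1_ok))))))) (M (nat_lit 426) (B (L (nat_lit 425) ln9_13_0 ln9_13_0_ok) (M (nat_lit 430) (B (M (nat_lit 398) (B (L (nat_lit 397) ln10_13_2 ln10_13_2_ok) (L (nat_lit 399) ln11_13_2 ln11_13_2_ok))) (M (nat_lit 458) (B (L (nat_lit 457) ln13_13_1 ln13_13_1_ok) (L (nat_lit 459) ln14_13_1 ln14_13_1_ok)))))))))))))))))) (nat_lit 5954262831509113917970671778902343783532342804327837356357830143065656733685921768742376304727131933651871260571575937852568135413341880320)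 (nat_lit 353808977409397073718188087455167536831995871741996499320119636536561034107379763664198206596586221092306963362906643348239552810622726749612319281416199285997754646528) (nat_lit 353808977409397073718188087455167536831995871741996499320119636536561034107379763664198206596586221092306963362906643348239552810622726749612319281416199285997754646528) (by decide +kernel)
theorem c20_s5091 : Sem (nat_lit 8931394246223919741660702096124340400218001812641787199916702176223588020145999016480404815084253531394255754357099754590794761429680390144) (nat_lit 36842001260474913262463413967181770279271966708664364871628583991362878062497099889520422064789901311269413042572120680552214530856371355648) (nat_lit 36842001260474913262463413967181770279271966708664364871628583991362878062497099889520422064789901311269413042572120680552214530856371355648) :=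
  sem_of_chk (M (nat_lit 363) (B (M (nat_lit 366) (B (M (nat_lit 334) (B (L (nat_lit 335) ln11_11_2 ln11_11_2_ok) (M (nat_lit 398) (B (L (nat_lit 430) ln14_10_5 ln14_10_5_ok) (L (nat_lit 399) ln11_11_0 ln11_11_0_ok))))) (B (M (nat_lit 367) (B (M (nat_lit 331) (B (L (nat_lit 330) ln14_11_3 ln14_11_3_ok) (L (nat_lit 332) ln15_11_3 ln15_11_3_ok))) (M (nat_lit 399) (B (L (nat_lit 398) ln11_11_0 ln11_11_0_ok) (L (nat_lit 400) ln12_11_0 ln12_11_0_ok))))) (M (nat_lit 367) (B (M (nat_lit 331) (B (L (nat_lit 330) ln14_11_3 ln14_11_3_ok) (L (nat_lit 332) ln15_11_3 ln15_11_3_ok))) (M (nat_lit 335) (B (L (nat_lit 334) ln11_11_2 ln11_11_2_ok) (L (nat_lit 336) ln12_11_2 ln12_11_2_ok)))))))) (B (M (nat_lit 366) (B (M (nat_lit 334) (B (L (nat_lit 335) ln11_11_2 ln11_11_2_ok) (M (nat_lit 398) (B (L (nat_lit 430) ln14_10_5 ln14_10_5_ok) (L (nat_lit 399) ln11_11_0 ln11_11_0_ok))))) (B (M (nat_lit 367) (B (M (nat_lit 399) (B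 (L (nat_lit 398) ln11_11_0 ln11_11_0_ok) (L (nat_lit 400) ln12_11_0 ln12_11_0_ok))) (M (nat_lit 368) (B (M (nat_lit 332) (B (L (nat_lit 331) ln15_11_3 ln15_11_3_ok) (L (nat_lit 333) ln16_11_3 ln16_11_3_ok))) (M (nat_lit 336) (B (L (nat_lit 335) ln12_11_2 ln12_11_2_ok) (L (nat_lit 337) ln13_11_2 ln13_11_2_ok))))))) (B (M (nat_lit 331) (B (M (nat_lit 367) (B (L (nat_lit 332) ln15_11_3 ln15_11_3_ok) (M (nat_lit 399) (B (L (nat_lit 398) ln11_11_0 ln11_11_0_ok) (L (nat_lit 400) ln12_11_0 ln12_11_0_ok))))) (B (M (nat_lit 362) (B (M (nat_lit 334) (B (L (nat_lit 333) ln10_11_2 ln10_11_2_ok) (M (nat_lit 398) (B (L (nat_lit 430) ln14_10_5 ln14_10_5_ok) (L (nat_lit 399) ln11_11_0 ln11_11_0_ok))))) (M (nat_lit 426) (B (M (nat_lit 394) (B (L (nat_lit 458) ln10_14_6 ln10_14_6_ok) (L (nat_lit 393) ln13_11_1 ln13_11_1_ok))) (M (nat_lit 427) (B (L (nat_lit 425) ln9_13_0 ln9_13_0_ok) (L (nat_lit 462) ln10_13_0 ln10_13_0_ok)))))))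 (M (nat_lit 362) (B (M (nat_lit 332) (B (L (nat_lit 367) ln15_11_3 ln15_11_3_ok) (M (nat_lit 333) (B (L (nat_lit 334) ln14_10_1 ln14_10_1_ok) (L (nat_lit 361) ln9_11_2 ln9_11_2_ok))))) (M (nat_lit 426) (B (M (nat_lit 394) (B (L (nat_lit 458) ln10_14_6 ln10_14_6_ok) (L (nat_lit 393) ln13_11_1 ln13_11_1_ok))) (M (nat_lit 427) (B (L (nat_lit 425) ln9_13_0 ln9_13_0_ok) (L (nat_lit 462) ln10_13_0 ln10_13_0_ok)))))))))) (M (nat_lit 331) (B (M (nat_lit 367) (B (L (nat_lit 332) ln15_11_3 ln15_11_3_ok) (M (nat_lit 335) (B (L (nat_lit 334) ln11_11_2 ln11_11_2_ok) (L (nat_lit 336) ln12_11_2 ln12_11_2_ok))))) (B (M (nat_lit 362) (B (M (nat_lit 334) (B (L (nat_lit 333) ln10_11_2 ln10_11_2_ok) (L (nat_lit 335) ln11_11_2 ln11_11_2_ok))) (M (nat_lit 426) (B (M (nat_lit 394) (B (L (nat_lit 458) ln10_14_6 ln10_14_6_ok) (L (nat_lit 393) ln13_11_1 ln13_11_1_ok))) (M (nat_lit 427) (B (L (nat_lit 425) ln9_13_0 ln9_13_0_ok) (L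 (nat_lit 462) ln10_13_0 ln10_13_0_ok))))))) (M (nat_lit 362) (B (M (nat_lit 332) (B (L (nat_lit 367) ln15_11_3 ln15_11_3_ok) (M (nat_lit 361) (B (L (nat_lit 360) ln8_11_2 ln8_11_2_ok) (L (nat_lit 333) ln9_11_2 ln9_11_2_ok))))) (M (nat_lit 426) (B (M (nat_lit 394) (B (L (nat_lit 458) ln10_14_6 ln10_14_6_ok) (L (nat_lit 393) ln13_11_1 ln13_11_1_ok))) (M (nat_lit 427) (B (L (nat_lit 425) ln9_13_0 ln9_13_0_ok) (L (nat_lit 462) ln10_13_0 ln10_13_0_ok)))))))))))))) (B (M (nat_lit 362) (B (M (nat_lit 333) (B (L (nat_lit 334) ln10_11_2 ln10_11_2_ok) (M (nat_lit 361) (B (L (nat_lit 332) ln9_11_2 ln9_11_2_ok) (M (nat_lit 393) (B (L (nat_lit 392) ln12_11_1 ln12_11_1_ok) (L (nat_lit 394) ln13_11_1 ln13_11_1_ok))))))) (B (M (nat_lit 361) (B (M (nat_lit 329) (B (L (nat_lit 328) ln12_11_3 ln12_11_3_ok) (L (nat_lit 330) ln13_11_3 ln13_11_3_ok))) (M (nat_lit 393) (B (L (nat_lit 392) ln12_11_1 ln12_11_1_ok) (L (nat_lit 394)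 ln13_11_1 ln13_11_1_ok))))) (M (nat_lit 334) (B (L (nat_lit 333) ln10_11_2 ln10_11_2_ok) (M (nat_lit 366) (B (L (nat_lit 335) ln11_11_2 ln11_11_2_ok) (M (nat_lit 398) (B (L (nat_lit 430) ln14_10_5 ln14_10_5_ok) (L (nat_lit 399) ln11_11_0 ln11_11_0_ok)))))))))) (B (M (nat_lit 362) (B (M (nat_lit 361) (B (M (nat_lit 329) (B (L (nat_lit 328) ln12_11_3 ln12_11_3_ok) (L (nat_lit 330) ln13_11_3 ln13_11_3_ok))) (M (nat_lit 393) (B (L (nat_lit 392) ln12_11_1 ln12_11_1_ok) (L (nat_lit 394) ln13_11_1 ln13_11_1_ok))))) (M (nat_lit 334) (B (L (nat_lit 333) ln10_11_2 ln10_11_2_ok) (M (nat_lit 366) (B (L (nat_lit 335) ln11_11_2 ln11_11_2_ok) (M (nat_lit 398) (B (L (nat_lit 430) ln14_10_5 ln14_10_5_ok) (L (nat_lit 399) ln11_11_0 ln11_11_0_ok))))))))) (B (M (nat_lit 362) (B (M (nat_lit 361) (B (M (nat_lit 329) (B (L (nat_lit 328) ln12_11_3 ln12_11_3_ok) (L (nat_lit 330) ln13_11_3 ln13_11_3_ok))) (M (nat_lit 393) (B (L (nat_lit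 392) ln12_11_1 ln12_11_1_ok) (L (nat_lit 394) ln13_11_1 ln13_11_1_ok))))) (B (M (nat_lit 426) (B (M (nat_lit 427) (B (L (nat_lit 425) ln9_13_0 ln9_13_0_ok) (L (nat_lit 462) ln10_13_0 ln10_13_0_ok))) (M (nat_lit 331) (B (M (nat_lit 330) (B (L (nat_lit 329) ln13_11_3 ln13_11_3_ok) (L (nat_lit 366) ln14_11_3 ln14_11_3_ok))) (M (nat_lit 394) (B (L (nat_lit 458) ln10_14_6 ln10_14_6_ok) (L (nat_lit 393) ln13_11_1 ln13_11_1_ok))))))) (B (M (nat_lit 426) (B (M (nat_lit 427) (B (L (nat_lit 425) ln9_13_0 ln9_13_0_ok) (L (nat_lit 462) ln10_13_0 ln10_13_0_ok))) (M (nat_lit 394) (B (L (nat_lit 393) ln13_11_1 ln13_11_1_ok) (M (nat_lit 331) (B (L (nat_lit 458) ln10_14_6 ln10_14_6_ok) (M (nat_lit 330) (B (L (nat_lit 299) ln10_13_6 ln10_13_6_ok) (L (nat_lit 366) ln14_11_3 ln14_11_3_ok))))))))) (B (M (nat_lit 361) (B (M (nat_lit 393) (B (L (nat_lit 392) ln12_11_1 ln12_11_1_ok) (L (nat_lit 394) ln13_11_1 ln13_11_1_ok))) (M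 (nat_lit 360) (B (M (nat_lit 328) (B (L (nat_lit 327) ln11_11_3 ln11_11_3_ok) (L (nat_lit 329) ln12_11_3 ln12_11_3_ok))) (M (nat_lit 332) (B (L (nat_lit 331) ln8_11_2 ln8_11_2_ok) (L (nat_lit 333) ln9_11_2 ln9_11_2_ok))))))) (M (nat_lit 333) (B (M (nat_lit 361) (B (L (nat_lit 332) ln9_11_2 ln9_11_2_ok) (M (nat_lit 329) (B (L (nat_lit 328) ln12_11_3 ln12_11_3_ok) (L (nat_lit 330) ln13_11_3 ln13_11_3_ok))))) (B (M (nat_lit 366) (B (M (nat_lit 332) (B (L (nat_lit 361) ln9_11_2 ln9_11_2_ok) (M (nat_lit 367) (B (L (nat_lit 331) ln15_11_3 ln15_11_3_ok) (L (nat_lit 368) ln16_11_3 ln16_11_3_ok))))) (M (nat_lit 462) (B (M (nat_lit 398) (B (L (nat_lit 430) ln14_14_7 ln14_14_7_ok) (L (nat_lit 399) ln11_11_0 ln11_11_0_ok))) (M (nat_lit 427) (B (L (nat_lit 426) ln10_13_0 ln10_13_0_ok) (L (nat_lit 463) ln15_14_3 ln15_14_3_ok))))))) (M (nat_lit 462) (B (M (nat_lit 427) (B (L (nat_lit 426) ln10_13_0 ln10_13_0_ok) (L (nat_lit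 463) ln15_14_3 ln15_14_3_ok))) (M (nat_lit 366) (B (M (nat_lit 330) (B (L (nat_lit 329) ln13_11_3 ln13_11_3_ok) (L (nat_lit 331) ln14_11_3 ln14_11_3_ok))) (M (nat_lit 398) (B (L (nat_lit 430) ln14_14_7 ln14_14_7_ok) (L (nat_lit 399) ln11_11_0 ln11_11_0_ok))))))))))))))) (M (nat_lit 362) (B (M (nat_lit 361) (B (M (nat_lit 329) (B (L (nat_lit 328) ln12_11_3 ln12_11_3_ok) (L (nat_lit 330) ln13_11_3 ln13_11_3_ok))) (M (nat_lit 393) (B (L (nat_lit 392) ln12_11_1 ln12_11_1_ok) (L (nat_lit 394) ln13_11_1 ln13_11_1_ok))))) (B (M (nat_lit 333) (B (L (nat_lit 334) ln10_11_2 ln10_11_2_ok) (M (nat_lit 361) (B (L (nat_lit 332) ln9_11_2 ln9_11_2_ok) (M (nat_lit 393) (B (L (nat_lit 392) ln12_11_1 ln12_11_1_ok) (L (nat_lit 394) ln13_11_1 ln13_11_1_ok))))))) (B (M (nat_lit 394) (B (L (nat_lit 393) ln13_11_1 ln13_11_1_ok) (M (nat_lit 330) (B (L (nat_lit 329) ln13_11_3 ln13_11_3_ok) (M (nat_lit 426) (B (M (nat_lit 331) (B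 (L (nat_lit 299) ln10_13_6 ln10_13_6_ok) (L (nat_lit 458) ln10_14_6 ln10_14_6_ok))) (M (nat_lit 425) (B (L (nat_lit 457) ln10_10_5 ln10_10_5_ok) (L (nat_lit 427) ln9_13_0 ln9_13_0_ok))))))))) (M (nat_lit 361) (B (M (nat_lit 329) (B (L (nat_lit 328) ln12_11_3 ln12_11_3_ok) (L (nat_lit 330) ln13_11_3 ln13_11_3_ok))) (M (nat_lit 333) (B (L (nat_lit 332) ln9_11_2 ln9_11_2_ok) (L (nat_lit 334) ln10_11_2 ln10_11_2_ok))))))))))))))) (nat_lit 8931394246223919741660702096124340400218001812641787199916702176223588020145999016480404815084253531394255754357099754590794761429680390144) (nat_lit 36842001260474913262463413967181770279271966708664364871628583991362878062497099889520422064789901311269413042572120680552214530856371355648) (nat_lit 36842001260474913262463413967181770279271966708664364871628583991362878062497099889520422064789901311269413042572120680552214530856371355648) (by decide +kernel)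
noncomputable def c20_n5093 : Cert := (M (nat_lit 365) (B (M (nat_lit 397) (B (L (nat_lit 333) ln13_10_5 ln13_10_5_ok) (L (nat_lit 492) ln13_11_5 ln13_11_5_ok))) (B (M (nat_lit 462) (B (M (nat_lit 397) (B (L (nat_lit 492) ln13_11_5 ln13_11_5_ok) (L (nat_lit 494) ln13_11_4 ln13_11_4_ok))) (M (nat_lit 427) (B (L (nat_lit 426) ln10_13_0 ln10_13_0_ok) (L (nat_lit 463) ln15_14_3 ln15_14_3_ok))))) (M (nat_lit 364) (B (M (nat_lit 396) (B (L (nat_lit 332) ln12_10_4 ln12_10_4_ok) (L (nat_lit 333) ln12_14_6 ln12_14_6_ok))) (B (M (nat_lit 363) (B (M (nat_lit 396) (B (L (nat_lit 331) ln12_14_7 ln12_14_7_ok) (L (nat_lit 333) ln12_14_6 ln12_14_6_ok))) (B (M (nat_lit 362) (B (M (nat_lit 333) (B (L (nat_lit 334) ln10_11_2 ln10_11_2_ok) (L (nat_lit 396) ln12_14_6 ln12_14_6_ok))) (M (nat_lit 361) (B (M (nat_lit 329) (B (L (nat_lit 328) ln12_11_3 ln12_11_3_ok) (L (nat_lit 330) ln13_11_3 ln13_11_3_ok))) (M (nat_lit 393) (B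 (L (nat_lit 392) ln12_11_1 ln12_11_1_ok) (L (nat_lit 394) ln13_11_1 ln13_11_1_ok))))))) (B (M (nat_lit 331) (B (L (nat_lit 396) ln12_14_7 ln12_14_7_ok) (M (nat_lit 330) (B (L (nat_lit 366) ln14_11_3 ln14_11_3_ok) (M (nat_lit 329) (B (L (nat_lit 328) ln8_10_0 ln8_10_0_ok) (L (nat_lit 362) ln13_11_3 ln13_11_3_ok))))))) (M (nat_lit 362) (B (M (nat_lit 361) (B (M (nat_lit 329) (B (L (nat_lit 328) ln12_11_3 ln12_11_3_ok) (L (nat_lit 330) ln13_11_3 ln13_11_3_ok))) (M (nat_lit 393) (B (L (nat_lit 392) ln12_11_1 ln12_11_1_ok) (L (nat_lit 394) ln13_11_1 ln13_11_1_ok))))) (M (nat_lit 334) (B (L (nat_lit 333) ln10_11_2 ln10_11_2_ok) (M (nat_lit 366) (B (L (nat_lit 335) ln11_11_2 ln11_11_2_ok) (M (nat_lit 398) (B (L (nat_lit 430) ln14_10_5 ln14_10_5_ok) (L (nat_lit 399) ln11_11_0 ln11_11_0_ok))))))))))))) (B (M (nat_lit 366) (B (M (nat_lit 332) (B (L (nat_lit 396) ln12_10_4 ln12_10_4_ok) (M (nat_lit 331) (B (L (nat_lit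 367) ln15_11_3 ln15_11_3_ok) (M (nat_lit 330) (B (L (nat_lit 329) ln9_10_0 ln9_10_0_ok) (L (nat_lit 363) ln14_11_3 ln14_11_3_ok))))))) (B (M (nat_lit 363) (B (M (nat_lit 331) (B (L (nat_lit 330) ln14_11_3 ln14_11_3_ok) (L (nat_lit 396) ln12_14_7 ln12_14_7_ok))) (M (nat_lit 334) (B (L (nat_lit 335) ln11_11_2 ln11_11_2_ok) (M (nat_lit 398) (B (L (nat_lit 430) ln14_10_5 ln14_10_5_ok) (L (nat_lit 399) ln11_11_0 ln11_11_0_ok))))))) (B (M (nat_lit 367) (B (M (nat_lit 332) (B (L (nat_lit 331) ln15_11_3 ln15_11_3_ok) (L (nat_lit 396) ln12_10_4 ln12_10_4_ok))) (M (nat_lit 368) (B (M (nat_lit 336) (B (L (nat_lit 335) ln12_11_2 ln12_11_2_ok) (L (nat_lit 337) ln13_11_2 ln13_11_2_ok))) (M (nat_lit 400) (B (L (nat_lit 399) ln12_11_0 ln12_11_0_ok) (L (nat_lit 401) ln13_11_0 ln13_11_0_ok))))))) (M (nat_lit 398) (B (M (nat_lit 399) (B (L (nat_lit 363) ln11_11_0 ln11_11_0_ok) (M (nat_lit 400) (B (L (nat_lit 367) ln12_11_0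 ln12_11_0_ok) (L (nat_lit 401) ln17_12_3 ln17_12_3_ok))))) (B (M (nat_lit 399) (B (M (nat_lit 400) (B (L (nat_lit 367) ln12_11_0 ln12_11_0_ok) (L (nat_lit 401) ln17_12_3 ln17_12_3_ok))) (M (nat_lit 430) (B (L (nat_lit 334) ln14_10_5 ln14_10_5_ok) (L (nat_lit 427) ln11_13_2 ln11_13_2_ok))))) (B (M (nat_lit 399) (B (L (nat_lit 363) ln11_11_0 ln11_11_0_ok) (M (nat_lit 430) (B (L (nat_lit 334) ln14_10_5 ln14_10_5_ok) (L (nat_lit 427) ln11_13_2 ln11_13_2_ok))))) (M (nat_lit 334) (B (L (nat_lit 430) ln14_10_5 ln14_10_5_ok) (M (nat_lit 335) (B (L (nat_lit 363) ln11_11_2 ln11_11_2_ok) (M (nat_lit 336) (B (L (nat_lit 337) ln17_10_1 ln17_10_1_ok) (L (nat_lit 367) ln12_11_2 ln12_11_2_ok))))))))))))))) (K (nat_lit 8931394246223919741660702096124340400218001812641787199916702176223588020145999016480404815084253531394255754357099754590794761429680390144) (nat_lit 36842001260474913262463413967181770279271966708664364871628583991362878062497099889520422064789901311269413042572120680552214530856371355648)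 (nat_lit 36842001260474913262463413967181770279271966708664364871628583991362878062497099889520422064789901311269413042572120680552214530856371355648) c20_s5091))))))))
noncomputable def c20_n5205 : Cert := (M (nat_lit 426) (B (M (nat_lit 427) (B (L (nat_lit 398) ln10_13_2 ln10_13_2_ok) (L (nat_lit 425) ln9_13_0 ln9_13_0_ok))) (B (M (nat_lit 458) (B (M (nat_lit 425) (B (L (nat_lit 427) ln9_13_0 ln9_13_0_ok) (L (nat_lit 459) ln13_14_3 ln13_14_3_ok))) (B (M (nat_lit 457) (B (L (nat_lit 427) ln13_13_1 ln13_13_1_ok) (L (nat_lit 459) ln9_14_2 ln9_14_2_ok))) (B (M (nat_lit 459) (B (L (nat_lit 425) ln13_14_3 ln13_14_3_ok) (L (nat_lit 457) ln9_14_2 ln9_14_2_ok))) (M (nat_lit 427) (B (L (nat_lit 425) ln9_13_0 ln9_13_0_ok) (L (nat_lit 457) ln13_13_1 ln13_13_1_ok))))))) (B (M (nat_lit 427) (B (L (nat_lit 398) ln10_13_2 ln10_13_2_ok) (M (nat_lit 458) (B (L (nat_lit 457) ln13_13_1 ln13_13_1_ok) (M (nat_lit 459) (B (L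 (nat_lit 430) ln14_13_1 ln14_13_1_ok) (M (nat_lit 394) (B (L (nat_lit 393) ln13_13_3 ln13_13_3_ok) (M (nat_lit 362) (B (L (nat_lit 330) ln10_10_4 ln10_10_4_ok) (L (nat_lit 491) ln10_11_4 ln10_11_4_ok))))))))))) (M (nat_lit 458) (B (M (nat_lit 459) (B (L (nat_lit 425) ln13_14_3 ln13_14_3_ok) (L (nat_lit 457) ln9_14_2 ln9_14_2_ok))) (B (M (nat_lit 459) (B (L (nat_lit 457) ln9_14_2 ln9_14_2_ok) (L (nat_lit 430) ln10_14_2 ln10_14_2_ok))) (B (M (nat_lit 459) (B (L (nat_lit 425) ln13_14_3 ln13_14_3_ok) (L (nat_lit 430) ln10_14_2 ln10_14_2_ok))) (M (nat_lit 490) (B (M (nat_lit 492) (B (L (nat_lit 524) ln12_16_6 ln12_16_6_ok) (M (nat_lit 491) (B (L (nat_lit 489) ln9_15_2 ln9_15_2_ok) (M (nat_lit 523) (B (L (nat_lit 394) ln10_12_4 ln10_12_4_ok) (L (nat_lit 396) ln12_12_5 ln12_12_5_ok))))))) (B (M (nat_lit 492) (B (L (nat_lit 524) ln12_16_6 ln12_16_6_ok) (M (nat_lit 491) (B (L (nat_lit 489) ln9_15_2 ln9_15_2_ok) (M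 (nat_lit 523) (B (L (nat_lit 396) ln12_12_5 ln12_12_5_ok) (M (nat_lit 555) (B (L (nat_lit 522) ln10_13_4 ln10_13_4_ok) (L (nat_lit 587) ln11_18_7 ln11_18_7_ok))))))))) (B (M (nat_lit 394) (B (M (nat_lit 489) (B (L (nat_lit 521) ln10_12_5 ln10_12_5_ok) (M (nat_lit 491) (B (L (nat_lit 523) ln10_12_4 ln10_12_4_ok) (L (nat_lit 492) ln9_15_2 ln9_15_2_ok))))) (B (M (nat_lit 522) (B (M (nat_lit 393) (B (L (nat_lit 361) ln10_15_7 ln10_15_7_ok) (L (nat_lit 425) ln10_16_7 ln10_16_7_ok))) (M (nat_lit 523) (B (L (nat_lit 491) ln10_12_4 ln10_12_4_ok) (L (nat_lit 555) ln10_13_4 ln10_13_4_ok))))) (M (nat_lit 522) (B (M (nat_lit 393) (B (L (nat_lit 361) ln10_15_7 ln10_15_7_ok) (L (nat_lit 425) ln10_16_7 ln10_16_7_ok))) (M (nat_lit 521) (B (L (nat_lit 489) ln10_12_5 ln10_12_5_ok) (L (nat_lit 553) ln10_13_5 ln10_13_5_ok)))))))) (B (M (nat_lit 522) (B (M (nat_lit 425) (B (L (nat_lit 393) ln10_16_7 ln10_16_7_ok) (M (nat_lit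 554) (B (L (nat_lit 457) ln10_17_7 ln10_17_7_ok) (M (nat_lit 553) (B (L (nat_lit 521) ln10_13_5 ln10_13_5_ok) (L (nat_lit 585) ln10_14_5 ln10_14_5_ok))))))) (M (nat_lit 523) (B (L (nat_lit 555) ln10_13_4 ln10_13_4_ok) (M (nat_lit 491) (B (L (nat_lit 394) ln10_12_4 ln10_12_4_ok) (M (nat_lit 492) (B (L (nat_lit 396) ln12_12_5 ln12_12_5_ok) (L (nat_lit 524) ln12_16_6 ln12_16_6_ok))))))))) (B (M (nat_lit 522) (B (M (nat_lit 393) (B (L (nat_lit 425) ln10_16_7 ln10_16_7_ok) (M (nat_lit 394) (B (L (nat_lit 361) ln10_15_7 ln10_15_7_ok) (M (nat_lit 521) (B (L (nat_lit 489) ln10_12_5 ln10_12_5_ok) (L (nat_lit 553) ln10_13_5 ln10_13_5_ok))))))) (B (M (nat_lit 554) (B (M (nat_lit 425) (B (L (nat_lit 393) ln10_16_7 ln10_16_7_ok) (L (nat_lit 457) ln10_17_7 ln10_17_7_ok))) (M (nat_lit 555) (B (L (nat_lit 523) ln10_13_4 ln10_13_4_ok) (L (nat_lit 587) ln10_14_4 ln10_14_4_ok))))) (M (nat_lit 554) (B (M (nat_lit 553) (B (L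 (nat_lit 521) ln10_13_5 ln10_13_5_ok) (L (nat_lit 585) ln10_14_5 ln10_14_5_ok))) (M (nat_lit 555) (B (L (nat_lit 523) ln10_13_4 ln10_13_4_ok) (L (nat_lit 587) ln10_14_4 ln10_14_4_ok)))))))) (M (nat_lit 489) (B (M (nat_lit 492) (B (L (nat_lit 524) ln12_16_6 ln12_16_6_ok) (L (nat_lit 491) ln9_15_2 ln9_15_2_ok))) (M (nat_lit 521) (B (L (nat_lit 394) ln10_12_5 ln10_12_5_ok) (M (nat_lit 553) (B (L (nat_lit 457) ln9_17_6 ln9_17_6_ok) (L (nat_lit 522) ln10_13_5 ln10_13_5_ok)))))))))))))))))))))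
noncomputable def c20_n5226 : Cert := (M (nat_lit 397) (B (M (nat_lit 365) (B (L (nat_lit 333) ln13_10_5 ln13_10_5_ok) (L (nat_lit 492) ln13_11_5 ln13_11_5_ok))) (B (M (nat_lit 492) (B (L (nat_lit 365) ln13_11_5 ln13_11_5_ok) (L (nat_lit 524) ln12_16_6 ln12_16_6_ok))) (B c20_n5205 (M (nat_lit 365) (B (L (nat_lit 333) ln13_10_5 ln13_10_5_ok) (M (nat_lit 364) (B (L (nat_lit 332) ln13_14_7 ln13_14_7_ok) (M (nat_lit 363) (B (M (nat_lit 366) (B (L (nat_lit 334) ln13_14_6 ln13_14_6_ok) (M (nat_lit 398) (B (L (nat_lit 362) ln10_11_0 ln10_11_0_ok) (L (nat_lit 399) ln11_11_0 ln11_11_0_ok))))) (B (M (nat_lit 398) (B (L (nat_lit 362) ln10_11_0 ln10_11_0_ok) (M (nat_lit 396) (B (L (nat_lit 331) ln12_14_7 ln12_14_7_ok) (L (nat_lit 399) ln15_12_3 ln15_12_3_ok))))) (M (nat_lit 366) (B (L (nat_lit 334) ln13_14_6 ln13_14_6_ok) (M (nat_lit 331) (B (L (nat_lit 330) ln14_11_3 ln14_11_3_ok) (L (nat_lit 396) ln12_14_7 ln12_14_7_ok))))))))))))))))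
theorem c20_s5227 : Sem (nat_lit 5954262831509113917970671778902343783532342804327837356357830143065656733685921768742376304727131933651871260571575937852568135413341880320) (nat_lit 633165829156899435381691659290046499501215846151347750959619446112266608915223571738151888267623734252665901822129965928353809347062538955676663587106119135077229437469061021696) (nat_lit 633165829156899435381691659290046499501215846151347750959619446112266608915223571738151888267623734252665901822129965928353809347062538955676663587106119135077229437469061021696) :=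
  sem_of_chk (M (nat_lit 460) (B (M (nat_lit 492) (B (M (nat_lit 524) (B (L (nat_lit 397) ln12_16_6 ln12_16_6_ok) (L (nat_lit 556) ln12_17_6 ln12_17_6_ok))) (M (nat_lit 459) (B (M (nat_lit 458) (B (L (nat_lit 457) ln9_14_2 ln9_14_2_ok) (L (nat_lit 430) ln10_14_2 ln10_14_2_ok))) (M (nat_lit 491) (B (M (nat_lit 523) (B (L (nat_lit 396) ln12_12_5 ln12_12_5_ok) (L (nat_lit 555) ln11_17_6 ln11_17_6_ok))) (M (nat_lit 462) (B (L (nat_lit 490) ln14_14_1 ln14_14_1_ok) (L (nat_lit 463) ln15_14_1 ln15_14_1_ok))))))))) (B (M (nat_lit 462) (B (M (nat_lit 427) (B (L (nat_lit 426) ln10_13_0 ln10_13_0_ok) (L (nat_lit 463) ln15_14_3 ln15_14_3_ok))) (B (M (nat_lit 463) (B (L (nat_lit 427) ln15_14_3 ln15_14_3_ok) (L (nat_lit 464) ln16_14_3 ln16_14_3_ok))) (B (M (nat_lit 492) (B (M (nat_lit 524) (B (L (nat_lit 397) ln12_16_6 ln12_16_6_ok) (L (nat_lit 556) ln12_17_6 ln12_17_6_ok))) (M (nat_lit 463) (B (L (nat_lit 464) ln16_14_3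 ln16_14_3_ok) (L (nat_lit 491) ln15_14_1 ln15_14_1_ok))))) (M (nat_lit 459) (B (M (nat_lit 458) (B (L (nat_lit 457) ln9_14_2 ln9_14_2_ok) (L (nat_lit 430) ln10_14_2 ln10_14_2_ok))) (B (M (nat_lit 458) (B (L (nat_lit 457) ln9_14_2 ln9_14_2_ok) (M (nat_lit 490) (B (L (nat_lit 489) ln13_14_1 ln13_14_1_ok) (L (nat_lit 491) ln14_14_1 ln14_14_1_ok))))) (B (M (nat_lit 458) (B (L (nat_lit 430) ln10_14_2 ln10_14_2_ok) (M (nat_lit 490) (B (L (nat_lit 489) ln13_14_1 ln13_14_1_ok) (L (nat_lit 491) ln14_14_1 ln14_14_1_ok))))) (M (nat_lit 494) (B (L (nat_lit 495) ln11_14_0 ln11_14_0_ok) (M (nat_lit 397) (B (L (nat_lit 365) ln13_11_4 ln13_11_4_ok) (M (nat_lit 526) (B (L (nat_lit 430) ln14_16_7 ln14_16_7_ok) (L (nat_lit 558) ln14_17_7 ln14_17_7_ok))))))))))))))) (B (M (nat_lit 459) (B (M (nat_lit 458) (B (L (nat_lit 457) ln9_14_2 ln9_14_2_ok) (L (nat_lit 430) ln10_14_2 ln10_14_2_ok))) (M (nat_lit 491) (B (M (nat_lit 396)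 (B (L (nat_lit 364) ln12_11_5 ln12_11_5_ok) (M (nat_lit 523) (B (L (nat_lit 427) ln11_16_6 ln11_16_6_ok) (L (nat_lit 555) ln11_17_6 ln11_17_6_ok))))) (B (M (nat_lit 462) (B (L (nat_lit 490) ln14_14_1 ln14_14_1_ok) (M (nat_lit 427) (B (L (nat_lit 426) ln10_13_0 ln10_13_0_ok) (L (nat_lit 463) ln15_14_3 ln15_14_3_ok))))) (M (nat_lit 396) (B (L (nat_lit 364) ln12_11_5 ln12_11_5_ok) (M (nat_lit 523) (B (L (nat_lit 492) ln12_12_5 ln12_12_5_ok) (L (nat_lit 555) ln11_17_6 ln11_17_6_ok)))))))))) (B (M (nat_lit 492) (B (M (nat_lit 397) (B (L (nat_lit 365) ln13_11_5 ln13_11_5_ok) (L (nat_lit 524) ln12_16_6 ln12_16_6_ok))) (B (M (nat_lit 524) (B (L (nat_lit 397) ln12_16_6 ln12_16_6_ok) (L (nat_lit 556) ln12_17_6 ln12_17_6_ok))) (B (M (nat_lit 491) (B (M (nat_lit 462) (B (L (nat_lit 463) ln15_14_1 ln15_14_1_ok) (M (nat_lit 490) (B (L (nat_lit 459) ln14_14_1 ln14_14_1_ok) (L (nat_lit 489) ln9_15_2 ln9_15_2_ok))))) (M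 (nat_lit 523) (B (L (nat_lit 396) ln12_12_5 ln12_12_5_ok) (M (nat_lit 524) (B (L (nat_lit 555) ln12_13_5 ln12_13_5_ok) (L (nat_lit 556) ln12_17_6 ln12_17_6_ok))))))) (M (nat_lit 462) (B (M (nat_lit 427) (B (L (nat_lit 426) ln10_13_0 ln10_13_0_ok) (L (nat_lit 463) ln15_14_3 ln15_14_3_ok))) (B (M (nat_lit 463) (B (L (nat_lit 427) ln15_14_3 ln15_14_3_ok) (L (nat_lit 491) ln15_14_1 ln15_14_1_ok))) (B (M (nat_lit 491) (B (L (nat_lit 463) ln15_14_1 ln15_14_1_ok) (M (nat_lit 490) (B (L (nat_lit 459) ln14_14_1 ln14_14_1_ok) (L (nat_lit 489) ln9_15_2 ln9_15_2_ok))))) (M (nat_lit 459) (B (M (nat_lit 458) (B (L (nat_lit 457) ln9_14_2 ln9_14_2_ok) (M (nat_lit 426) (B (L (nat_lit 425) ln13_14_3 ln13_14_3_ok) (L (nat_lit 427) ln10_13_0 ln10_13_0_ok))))) (M (nat_lit 491) (B (L (nat_lit 490) ln14_14_1 ln14_14_1_ok) (M (nat_lit 396) (B (L (nat_lit 364) ln12_11_5 ln12_11_5_ok) (L (nat_lit 523) ln12_12_5 ln12_12_5_ok)))))))))))))))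 (B (M (nat_lit 397) (B (M (nat_lit 365) (B (L (nat_lit 333) ln13_10_5 ln13_10_5_ok) (L (nat_lit 492) ln13_11_5 ln13_11_5_ok))) (B (M (nat_lit 492) (B (L (nat_lit 365) ln13_11_5 ln13_11_5_ok) (L (nat_lit 524) ln12_16_6 ln12_16_6_ok))) (B (M (nat_lit 462) (B (M (nat_lit 427) (B (L (nat_lit 426) ln10_13_0 ln10_13_0_ok) (L (nat_lit 463) ln15_14_3 ln15_14_3_ok))) (B (M (nat_lit 463) (B (L (nat_lit 427) ln15_14_3 ln15_14_3_ok) (L (nat_lit 464) ln16_14_3 ln16_14_3_ok))) (B (M (nat_lit 463) (B (L (nat_lit 464) ln16_14_3 ln16_14_3_ok) (M (nat_lit 492) (B (L (nat_lit 524) ln12_16_6 ln12_16_6_ok) (L (nat_lit 491) ln15_14_1 ln15_14_1_ok))))) (M (nat_lit 459) (B (M (nat_lit 458) (B (L (nat_lit 430) ln10_14_2 ln10_14_2_ok) (M (nat_lit 490) (B (L (nat_lit 489) ln13_14_1 ln13_14_1_ok) (L (nat_lit 491) ln14_14_1 ln14_14_1_ok))))) (B (M (nat_lit 458) (B (M (nat_lit 426) (B (L (nat_lit 425) ln13_14_3 ln13_14_3_ok) (L (nat_lit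 427) ln10_13_0 ln10_13_0_ok))) (M (nat_lit 490) (B (L (nat_lit 489) ln13_14_1 ln13_14_1_ok) (L (nat_lit 491) ln14_14_1 ln14_14_1_ok))))) (M (nat_lit 494) (B (L (nat_lit 495) ln11_14_0 ln11_14_0_ok) (M (nat_lit 526) (B (L (nat_lit 430) ln14_16_7 ln14_16_7_ok) (L (nat_lit 558) ln14_17_7 ln14_17_7_ok)))))))))))) (M (nat_lit 462) (B (M (nat_lit 365) (B (L (nat_lit 333) ln13_10_5 ln13_10_5_ok) (L (nat_lit 494) ln13_11_4 ln13_11_4_ok))) (M (nat_lit 463) (B (L (nat_lit 427) ln15_14_3 ln15_14_3_ok) (L (nat_lit 464) ln16_14_3 ln16_14_3_ok))))))))) (B (M (nat_lit 462) (B (M (nat_lit 427) (B (L (nat_lit 426) ln10_13_0 ln10_13_0_ok) (L (nat_lit 463) ln15_14_3 ln15_14_3_ok))) (B (M (nat_lit 463) (B (L (nat_lit 427) ln15_14_3 ln15_14_3_ok) (L (nat_lit 464) ln16_14_3 ln16_14_3_ok))) (B (M (nat_lit 492) (B (M (nat_lit 524) (B (L (nat_lit 397) ln12_16_6 ln12_16_6_ok) (L (nat_lit 556) ln12_17_6 ln12_17_6_ok))) (M (nat_lit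 463) (B (L (nat_lit 464) ln16_14_3 ln16_14_3_ok) (L (nat_lit 491) ln15_14_1 ln15_14_1_ok))))) (M (nat_lit 492) (B (M (nat_lit 397) (B (L (nat_lit 365) ln13_11_5 ln13_11_5_ok) (L (nat_lit 524) ln12_16_6 ln12_16_6_ok))) (B (M (nat_lit 524) (B (L (nat_lit 397) ln12_16_6 ln12_16_6_ok) (L (nat_lit 556) ln12_17_6 ln12_17_6_ok))) (B (M (nat_lit 491) (B (M (nat_lit 490) (B (L (nat_lit 459) ln14_14_1 ln14_14_1_ok) (L (nat_lit 489) ln9_15_2 ln9_15_2_ok))) (M (nat_lit 523) (B (L (nat_lit 396) ln12_12_5 ln12_12_5_ok) (M (nat_lit 524) (B (L (nat_lit 555) ln12_13_5 ln12_13_5_ok) (L (nat_lit 556) ln12_17_6 ln12_17_6_ok))))))) (M (nat_lit 396) (B (M (nat_lit 365) (B (L (nat_lit 397) ln12_15_6 ln12_15_6_ok) (M (nat_lit 364) (B (L (nat_lit 332) ln12_10_4 ln12_10_4_ok) (L (nat_lit 333) ln12_14_6 ln12_14_6_ok))))) (B (M (nat_lit 491) (B (L (nat_lit 523) ln12_12_5 ln12_12_5_ok) (M (nat_lit 459) (B (L (nat_lit 364) ln12_11_5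 ln12_11_5_ok) (L (nat_lit 490) ln14_14_1 ln14_14_1_ok))))) (M (nat_lit 491) (B (L (nat_lit 523) ln12_12_5 ln12_12_5_ok) (M (nat_lit 490) (B (L (nat_lit 459) ln14_14_1 ln14_14_1_ok) (L (nat_lit 489) ln9_15_2 ln9_15_2_ok)))))))))))))))) (B c20_n5093 (B c20_n5226 (M (nat_lit 427) (B (M (nat_lit 426) (B (L (nat_lit 425) ln9_13_0 ln9_13_0_ok) (L (nat_lit 462) ln10_13_0 ln10_13_0_ok))) (B (M (nat_lit 462) (B (L (nat_lit 426) ln10_13_0 ln10_13_0_ok) (L (nat_lit 463) ln15_14_3 ln15_14_3_ok))) (B (M (nat_lit 459) (B (M (nat_lit 458) (B (L (nat_lit 430) ln14_13_1 ln14_13_1_ok) (L (nat_lit 457) ln9_14_2 ln9_14_2_ok))) (M (nat_lit 491) (B (M (nat_lit 396) (B (L (nat_lit 364) ln12_11_5 ln12_11_5_ok) (L (nat_lit 523) ln11_16_6 ln11_16_6_ok))) (M (nat_lit 462) (B (L (nat_lit 463) ln15_14_3 ln15_14_3_ok) (L (nat_lit 490) ln14_14_1 ln14_14_1_ok))))))) (M (nat_lit 426) (B (L (nat_lit 425) ln9_13_0 ln9_13_0_ok) (M (nat_lit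 430) (B (M (nat_lit 398) (B (L (nat_lit 397) ln10_13_2 ln10_13_2_ok) (L (nat_lit 399) ln11_13_2 ln11_13_2_ok))) (M (nat_lit 458) (B (L (nat_lit 457) ln13_13_1 ln13_13_1_ok) (L (nat_lit 459) ln14_13_1 ln14_13_1_ok)))))))))))))))))))) (nat_lit 5954262831509113917970671778902343783532342804327837356357830143065656733685921768742376304727131933651871260571575937852568135413341880320) (nat_lit 633165829156899435381691659290046499501215846151347750959619446112266608915223571738151888267623734252665901822129965928353809347062538955676663587106119135077229437469061021696) (nat_lit 633165829156899435381691659290046499501215846151347750959619446112266608915223571738151888267623734252665901822129965928353809347062538955676663587106119135077229437469061021696) (by decide +kernel)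
theorem c20_s5418 : Sem (nat_lit 17862788490714920924495894904786711847400288320758411090431742638337560777712661007994393682501430992562421861830814898485774494975186173952) (nat_lit 2830471819343824566332425779146423744789560460722446084637219136328402872774501576762142161958938919039098507888832736344663687321506098897296064630056701240129756332032) (nat_lit 2830471819343824566332425779146423744789560460722446084637219136328402872774501576762142161958938919039098507888832736344663687321506098897296064630056701240129756332032) :=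
  sem_of_chk (M (nat_lit 395) (B (M (nat_lit 459) (B (M (nat_lit 430) (B (L (nat_lit 394) ln14_13_3 ln14_13_3_ok) (L (nat_lit 458) ln14_13_1 ln14_13_1_ok))) (B (M (nat_lit 460) (B (M (nat_lit 363) (B (L (nat_lit 331) ln11_10_4 ln11_10_4_ok) (L (nat_lit 492) ln11_11_4 ln11_11_4_ok))) (M (nat_lit 458) (B (L (nat_lit 430) ln14_13_1 ln14_13_1_ok) (L (nat_lit 457) ln9_14_2 ln9_14_2_ok))))) (B (M (nat_lit 460) (B (M (nat_lit 363) (B (L (nat_lit 331) ln11_10_4 ln11_10_4_ok) (L (nat_lit 492) ln11_11_4 ln11_11_4_ok))) (B (M (nat_lit 363) (B (L (nat_lit 492) ln11_11_4 ln11_11_4_ok) (M (nat_lit 490) (B (L (nat_lit 458) ln11_11_5 ln11_11_5_ok) (L (nat_lit 491) ln14_14_1 ln14_14_1_ok))))) (M (nat_lit 458) (B (L (nat_lit 457) ln9_14_2 ln9_14_2_ok) (M (nat_lit 490) (B (L (nat_lit 489) ln13_14_1 ln13_14_1_ok) (L (nat_lit 491) ln14_14_1 ln14_14_1_ok)))))))) (M (nat_lit 394) (B (L (nat_lit 430) ln14_13_3 ln14_13_3_ok) (M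 (nat_lit 362) (B (L (nat_lit 491) ln11_15_7 ln11_15_7_ok) (M (nat_lit 330) (B (L (nat_lit 298) ln10_9_4 ln10_9_4_ok) (L (nat_lit 363) ln11_14_7 ln11_14_7_ok))))))))))) (B (M (nat_lit 459) (B (M (nat_lit 430) (B (L (nat_lit 394) ln14_13_3 ln14_13_3_ok) (L (nat_lit 458) ln14_13_1 ln14_13_1_ok))) (B (M (nat_lit 460) (B (M (nat_lit 363) (B (L (nat_lit 331) ln11_10_4 ln11_10_4_ok) (L (nat_lit 492) ln11_11_4 ln11_11_4_ok))) (M (nat_lit 458) (B (L (nat_lit 430) ln14_13_1 ln14_13_1_ok) (L (nat_lit 457) ln9_14_2 ln9_14_2_ok))))) (B (M (nat_lit 460) (B (M (nat_lit 363) (B (L (nat_lit 331) ln11_10_4 ln11_10_4_ok) (L (nat_lit 492) ln11_11_4 ln11_11_4_ok))) (B (M (nat_lit 363) (B (L (nat_lit 492) ln11_11_4 ln11_11_4_ok) (M (nat_lit 490) (B (L (nat_lit 458) ln11_11_5 ln11_11_5_ok) (L (nat_lit 491) ln14_14_1 ln14_14_1_ok))))) (M (nat_lit 458) (B (L (nat_lit 457) ln9_14_2 ln9_14_2_ok) (M (nat_lit 490) (B (L (nat_lit 489)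 ln13_14_1 ln13_14_1_ok) (L (nat_lit 491) ln14_14_1 ln14_14_1_ok)))))))) (M (nat_lit 394) (B (L (nat_lit 430) ln14_13_3 ln14_13_3_ok) (M (nat_lit 460) (B (M (nat_lit 363) (B (L (nat_lit 331) ln11_10_4 ln11_10_4_ok) (L (nat_lit 492) ln11_11_4 ln11_11_4_ok))) (M (nat_lit 491) (B (L (nat_lit 362) ln11_15_7 ln11_15_7_ok) (L (nat_lit 490) ln14_14_1 ln14_14_1_ok))))))))))) (B (M (nat_lit 459) (B (M (nat_lit 430) (B (L (nat_lit 394) ln14_13_3 ln14_13_3_ok) (L (nat_lit 458) ln14_13_1 ln14_13_1_ok))) (B (M (nat_lit 460) (B (M (nat_lit 492) (B (L (nat_lit 363) ln11_11_4 ln11_11_4_ok) (L (nat_lit 524) ln12_16_7 ln12_16_7_ok))) (M (nat_lit 458) (B (L (nat_lit 430) ln14_13_1 ln14_13_1_ok) (L (nat_lit 457) ln9_14_2 ln9_14_2_ok))))) (B (M (nat_lit 460) (B (M (nat_lit 492) (B (L (nat_lit 363) ln11_11_4 ln11_11_4_ok) (L (nat_lit 524) ln12_16_7 ln12_16_7_ok))) (M (nat_lit 458) (B (L (nat_lit 457) ln9_14_2 ln9_14_2_ok) (M (nat_lit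 490) (B (L (nat_lit 489) ln13_14_1 ln13_14_1_ok) (L (nat_lit 491) ln14_14_1 ln14_14_1_ok))))))) (M (nat_lit 394) (B (L (nat_lit 430) ln14_13_3 ln14_13_3_ok) (M (nat_lit 362) (B (L (nat_lit 491) ln11_15_7 ln11_15_7_ok) (M (nat_lit 330) (B (L (nat_lit 298) ln10_9_4 ln10_9_4_ok) (L (nat_lit 363) ln11_14_7 ln11_14_7_ok))))))))))) (B (M (nat_lit 365) (B (M (nat_lit 397) (B (L (nat_lit 494) ln13_11_4 ln13_11_4_ok) (M (nat_lit 460) (B (L (nat_lit 333) ln13_10_5 ln13_10_5_ok) (L (nat_lit 492) ln13_11_5 ln13_11_5_ok))))) (B (M (nat_lit 460) (B (M (nat_lit 397) (B (L (nat_lit 492) ln13_11_5 ln13_11_5_ok) (L (nat_lit 494) ln13_11_4 ln13_11_4_ok))) (B (M (nat_lit 492) (B (L (nat_lit 524) ln12_16_7 ln12_16_7_ok) (M (nat_lit 363) (B (L (nat_lit 331) ln11_10_4 ln11_10_4_ok) (L (nat_lit 459) ln11_11_4 ln11_11_4_ok))))) (M (nat_lit 459) (B (M (nat_lit 430) (B (L (nat_lit 394) ln14_13_3 ln14_13_3_ok) (L (nat_lit 458) ln14_13_1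 ln14_13_1_ok))) (M (nat_lit 494) (B (L (nat_lit 397) ln13_11_4 ln13_11_4_ok) (L (nat_lit 495) ln11_14_0 ln11_14_0_ok)))))))) (M (nat_lit 430) (B (L (nat_lit 394) ln14_13_3 ln14_13_3_ok) (M (nat_lit 398) (B (L (nat_lit 399) ln11_13_2 ln11_13_2_ok) (M (nat_lit 366) (B (L (nat_lit 333) ln14_14_7 ln14_14_7_ok) (L (nat_lit 334) ln14_10_5 ln14_10_5_ok)))))))))) (B (M (nat_lit 430) (B (L (nat_lit 394) ln14_13_3 ln14_13_3_ok) (M (nat_lit 398) (B (L (nat_lit 399) ln11_13_2 ln11_13_2_ok) (M (nat_lit 494) (B (M (nat_lit 397) (B (L (nat_lit 365) ln14_15_7 ln14_15_7_ok) (L (nat_lit 526) ln14_16_7 ln14_16_7_ok))) (B (M (nat_lit 526) (B (L (nat_lit 397) ln14_16_7 ln14_16_7_ok) (L (nat_lit 558) ln14_17_7 ln14_17_7_ok))) (B (M (nat_lit 526) (B (L (nat_lit 558) ln14_17_7 ln14_17_7_ok) (M (nat_lit 527) (B (L (nat_lit 495) ln14_12_4 ln14_12_4_ok) (L (nat_lit 559) ln14_13_4 ln14_13_4_ok))))) (M (nat_lit 365) (B (L (nat_lit 397)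 ln14_15_7 ln14_15_7_ok) (M (nat_lit 366) (B (L (nat_lit 333) ln14_14_7 ln14_14_7_ok) (L (nat_lit 334) ln14_10_5 ln14_10_5_ok))))))))))))) (B (M (nat_lit 459) (B (M (nat_lit 458) (B (L (nat_lit 430) ln14_13_1 ln14_13_1_ok) (M (nat_lit 460) (B (L (nat_lit 457) ln9_14_2 ln9_14_2_ok) (M (nat_lit 363) (B (L (nat_lit 331) ln11_10_4 ln11_10_4_ok) (L (nat_lit 490) ln11_11_5 ln11_11_5_ok))))))) (B (M (nat_lit 460) (B (M (nat_lit 492) (B (L (nat_lit 363) ln11_11_4 ln11_11_4_ok) (L (nat_lit 524) ln12_16_7 ln12_16_7_ok))) (M (nat_lit 458) (B (L (nat_lit 430) ln14_13_1 ln14_13_1_ok) (L (nat_lit 457) ln9_14_2 ln9_14_2_ok))))) (B (M (nat_lit 458) (B (L (nat_lit 430) ln14_13_1 ln14_13_1_ok) (M (nat_lit 460) (B (L (nat_lit 457) ln9_14_2 ln9_14_2_ok) (M (nat_lit 490) (B (L (nat_lit 489) ln13_14_1 ln13_14_1_ok) (L (nat_lit 491) ln14_14_1 ln14_14_1_ok))))))) (B (M (nat_lit 460) (B (M (nat_lit 363) (B (L (nat_lit 331) ln11_10_4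 ln11_10_4_ok) (L (nat_lit 492) ln11_11_4 ln11_11_4_ok))) (B (M (nat_lit 363) (B (L (nat_lit 492) ln11_11_4 ln11_11_4_ok) (M (nat_lit 490) (B (L (nat_lit 458) ln11_11_5 ln11_11_5_ok) (L (nat_lit 491) ln14_14_1 ln14_14_1_ok))))) (M (nat_lit 458) (B (L (nat_lit 457) ln9_14_2 ln9_14_2_ok) (M (nat_lit 490) (B (L (nat_lit 489) ln13_14_1 ln13_14_1_ok) (L (nat_lit 491) ln14_14_1 ln14_14_1_ok)))))))) (B (M (nat_lit 363) (B (M (nat_lit 458) (B (L (nat_lit 490) ln11_11_5 ln11_11_5_ok) (L (nat_lit 430) ln14_13_1 ln14_13_1_ok))) (M (nat_lit 460) (B (L (nat_lit 331) ln11_10_4 ln11_10_4_ok) (L (nat_lit 492) ln11_11_4 ln11_11_4_ok))))) (B (M (nat_lit 494) (B (M (nat_lit 460) (B (L (nat_lit 495) ln11_14_0 ln11_14_0_ok) (M (nat_lit 363) (B (L (nat_lit 331) ln11_10_4 ln11_10_4_ok) (L (nat_lit 492) ln11_11_4 ln11_11_4_ok))))) (M (nat_lit 397) (B (L (nat_lit 365) ln13_11_4 ln13_11_4_ok) (M (nat_lit 526) (B (L (nat_lit 430) ln14_16_7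 ln14_16_7_ok) (L (nat_lit 558) ln14_17_7 ln14_17_7_ok))))))) (M (nat_lit 363) (B (M (nat_lit 458) (B (L (nat_lit 490) ln11_11_5 ln11_11_5_ok) (L (nat_lit 430) ln14_13_1 ln14_13_1_ok))) (M (nat_lit 331) (B (M (nat_lit 330) (B (L (nat_lit 298) ln11_13_7 ln11_13_7_ok) (L (nat_lit 362) ln11_14_7 ln11_14_7_ok))) (M (nat_lit 332) (B (L (nat_lit 300) ln11_13_6 ln11_13_6_ok) (L (nat_lit 364) ln11_14_6 ln11_14_6_ok)))))))))))))) (M (nat_lit 363) (B (M (nat_lit 460) (B (L (nat_lit 331) ln11_10_4 ln11_10_4_ok) (M (nat_lit 492) (B (L (nat_lit 459) ln11_11_4 ln11_11_4_ok) (L (nat_lit 524) ln12_16_7 ln12_16_7_ok))))) (B (M (nat_lit 459) (B (M (nat_lit 458) (B (L (nat_lit 490) ln11_11_5 ln11_11_5_ok) (M (nat_lit 460) (B (L (nat_lit 492) ln11_11_4 ln11_11_4_ok) (L (nat_lit 457) ln9_14_2 ln9_14_2_ok))))) (B (M (nat_lit 460) (B (L (nat_lit 492) ln11_11_4 ln11_11_4_ok) (M (nat_lit 490) (B (L (nat_lit 458) ln11_11_5 ln11_11_5_ok)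 (L (nat_lit 491) ln14_14_1 ln14_14_1_ok))))) (B (M (nat_lit 491) (B (M (nat_lit 362) (B (L (nat_lit 330) ln11_14_7 ln11_14_7_ok) (L (nat_lit 394) ln11_15_7 ln11_15_7_ok))) (M (nat_lit 460) (B (L (nat_lit 492) ln11_11_4 ln11_11_4_ok) (L (nat_lit 490) ln14_14_1 ln14_14_1_ok))))) (B (M (nat_lit 491) (B (M (nat_lit 362) (B (L (nat_lit 330) ln11_14_7 ln11_14_7_ok) (L (nat_lit 394) ln11_15_7 ln11_15_7_ok))) (M (nat_lit 490) (B (L (nat_lit 458) ln11_11_5 ln11_11_5_ok) (L (nat_lit 522) ln11_12_5 ln11_12_5_ok))))) (M (nat_lit 491) (B (M (nat_lit 362) (B (L (nat_lit 330) ln11_14_7 ln11_14_7_ok) (L (nat_lit 394) ln11_15_7 ln11_15_7_ok))) (M (nat_lit 492) (B (L (nat_lit 460) ln11_11_4 ln11_11_4_ok) (L (nat_lit 524) ln11_12_4 ln11_12_4_ok)))))))))) (B (M (nat_lit 331) (B (L (nat_lit 460) ln11_10_4 ln11_10_4_ok) (M (nat_lit 299) (B (M (nat_lit 298) (B (L (nat_lit 266) ln11_12_7 ln11_12_7_ok) (L (nat_lit 330) ln11_13_7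 ln11_13_7_ok))) (M (nat_lit 300) (B (L (nat_lit 268) ln11_12_6 ln11_12_6_ok) (L (nat_lit 332) ln11_13_6 ln11_13_6_ok))))))) (M (nat_lit 364) (B (M (nat_lit 332) (B (L (nat_lit 459) ln11_14_6 ln11_14_6_ok) (M (nat_lit 300) (B (L (nat_lit 268) ln12_8_5 ln12_8_5_ok) (L (nat_lit 331) ln11_13_6 ln11_13_6_ok))))) (B (M (nat_lit 365) (B (M (nat_lit 397) (B (L (nat_lit 332) ln13_14_7 ln13_14_7_ok) (L (nat_lit 494) ln13_11_4 ln13_11_4_ok))) (M (nat_lit 394) (B (L (nat_lit 366) ln14_11_1 ln14_11_1_ok) (M (nat_lit 393) (B (L (nat_lit 362) ln13_11_1 ln13_11_1_ok) (L (nat_lit 392) ln8_12_2 ln8_12_2_ok))))))) (M (nat_lit 365) (B (M (nat_lit 394) (B (L (nat_lit 366) ln14_11_1 ln14_11_1_ok) (M (nat_lit 393) (B (L (nat_lit 362) ln13_11_1 ln13_11_1_ok) (L (nat_lit 392) ln8_12_2 ln8_12_2_ok))))) (B (M (nat_lit 397) (B (L (nat_lit 494) ln13_11_4 ln13_11_4_ok) (M (nat_lit 366) (B (L (nat_lit 334) ln13_14_6 ln13_14_6_ok) (L (nat_lit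 394) ln14_11_1 ln14_11_1_ok))))) (M (nat_lit 362) (B (M (nat_lit 330) (B (L (nat_lit 329) ln13_11_3 ln13_11_3_ok) (L (nat_lit 459) ln11_14_7 ln11_14_7_ok))) (M (nat_lit 397) (B (L (nat_lit 398) ln10_11_0 ln10_11_0_ok) (L (nat_lit 494) ln13_11_4 ln13_11_4_ok)))))))))))))))))))))) (nat_lit 17862788490714920924495894904786711847400288320758411090431742638337560777712661007994393682501430992562421861830814898485774494975186173952) (nat_lit 2830471819343824566332425779146423744789560460722446084637219136328402872774501576762142161958938919039098507888832736344663687321506098897296064630056701240129756332032) (nat_lit 2830471819343824566332425779146423744789560460722446084637219136328402872774501576762142161958938919039098507888832736344663687321506098897296064630056701240129756332032) (by decide +kernel)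
noncomputable def c20_n5460 : Cert := (M (nat_lit 459) (B (M (nat_lit 458) (B (L (nat_lit 430) ln14_13_1 ln14_13_1_ok) (M (nat_lit 457) (B (L (nat_lit 456) ln8_14_2 ln8_14_2_ok) (L (nat_lit 460) ln9_14_2 ln9_14_2_ok))))) (B (M (nat_lit 491) (B (M (nat_lit 396) (B (L (nat_lit 523) ln11_16_6 ln11_16_6_ok) (M (nat_lit 364) (B (L (nat_lit 332) ln12_10_5 ln12_10_5_ok) (L (nat_lit 460) ln12_11_5 ln12_11_5_ok))))) (B (M (nat_lit 396) (B (L (nat_lit 523) ln11_16_6 ln11_16_6_ok) (M (nat_lit 364) (B (L (nat_lit 395) ln11_15_6 ln11_15_6_ok) (L (nat_lit 460) ln12_11_5 ln12_11_5_ok))))) (B (M (nat_lit 460) (B (M (nat_lit 523) (B (L (nat_lit 396) ln11_16_6 ln11_16_6_ok) (L (nat_lit 555) ln11_17_6 ln11_17_6_ok))) (M (nat_lit 462) (B (L (nat_lit 463) ln15_14_3 ln15_14_3_ok) (L (nat_lit 490) ln14_14_1 ln14_14_1_ok))))) (B (M (nat_lit 490) (B (M (nat_lit 460) (B (L (nat_lit 462) ln14_14_1 ln14_14_1_ok) (M (nat_lit 489) (B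 (L (nat_lit 458) ln13_14_1 ln13_14_1_ok) (L (nat_lit 492) ln9_15_2 ln9_15_2_ok))))) (B (M (nat_lit 523) (B (M (nat_lit 522) (B (L (nat_lit 395) ln11_12_5 ln11_12_5_ok) (L (nat_lit 554) ln11_13_5 ln11_13_5_ok))) (M (nat_lit 460) (B (L (nat_lit 555) ln11_17_6 ln11_17_6_ok) (L (nat_lit 462) ln14_14_1 ln14_14_1_ok))))) (M (nat_lit 522) (B (L (nat_lit 395) ln11_12_5 ln11_12_5_ok) (M (nat_lit 554) (B (L (nat_lit 458) ln10_17_6 ln10_17_6_ok) (L (nat_lit 523) ln11_13_5 ln11_13_5_ok)))))))) (B (M (nat_lit 396) (B (L (nat_lit 523) ln11_16_6 ln11_16_6_ok) (M (nat_lit 364) (B (L (nat_lit 332) ln12_10_5 ln12_10_5_ok) (L (nat_lit 395) ln11_15_6 ln11_15_6_ok))))) (M (nat_lit 395) (B (M (nat_lit 396) (B (L (nat_lit 364) ln11_15_6 ln11_15_6_ok) (M (nat_lit 394) (B (L (nat_lit 362) ln11_15_7 ln11_15_7_ok) (L (nat_lit 393) ln9_12_0 ln9_12_0_ok))))) (M (nat_lit 460) (B (M (nat_lit 492) (B (L (nat_lit 363) ln11_11_4 ln11_11_4_ok)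 (L (nat_lit 524) ln12_16_7 ln12_16_7_ok))) (M (nat_lit 462) (B (L (nat_lit 463) ln15_14_3 ln15_14_3_ok) (L (nat_lit 490) ln14_14_1 ln14_14_1_ok))))))))))))) (B (M (nat_lit 395) (B (M (nat_lit 394) (B (L (nat_lit 430) ln14_13_3 ln14_13_3_ok) (M (nat_lit 393) (B (L (nat_lit 392) ln8_12_0 ln8_12_0_ok) (L (nat_lit 396) ln9_12_0 ln9_12_0_ok))))) (B (M (nat_lit 491) (B (M (nat_lit 394) (B (L (nat_lit 362) ln11_15_7 ln11_15_7_ok) (L (nat_lit 430) ln14_13_3 ln14_13_3_ok))) (M (nat_lit 396) (B (L (nat_lit 364) ln11_15_6 ln11_15_6_ok) (L (nat_lit 523) ln11_16_6 ln11_16_6_ok))))) (B (M (nat_lit 460) (B (M (nat_lit 492) (B (L (nat_lit 363) ln11_11_4 ln11_11_4_ok) (L (nat_lit 524) ln12_16_7 ln12_16_7_ok))) (M (nat_lit 491) (B (M (nat_lit 396) (B (L (nat_lit 364) ln11_15_6 ln11_15_6_ok) (L (nat_lit 523) ln11_16_6 ln11_16_6_ok))) (M (nat_lit 462) (B (L (nat_lit 463) ln15_14_3 ln15_14_3_ok) (L (nat_lit 490) ln14_14_1 ln14_14_1_ok)))))))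 (M (nat_lit 394) (B (L (nat_lit 430) ln14_13_3 ln14_13_3_ok) (M (nat_lit 362) (B (L (nat_lit 491) ln11_15_7 ln11_15_7_ok) (M (nat_lit 330) (B (L (nat_lit 298) ln10_9_4 ln10_9_4_ok) (L (nat_lit 363) ln11_14_7 ln11_14_7_ok))))))))))) (M (nat_lit 395) (B (M (nat_lit 430) (B (L (nat_lit 394) ln14_13_3 ln14_13_3_ok) (L (nat_lit 458) ln14_13_1 ln14_13_1_ok))) (B (M (nat_lit 458) (B (L (nat_lit 430) ln14_13_1 ln14_13_1_ok) (M (nat_lit 490) (B (L (nat_lit 363) ln11_11_5 ln11_11_5_ok) (M (nat_lit 522) (B (L (nat_lit 491) ln11_12_5 ln11_12_5_ok) (L (nat_lit 554) ln10_17_6 ln10_17_6_ok))))))) (B (M (nat_lit 491) (B (M (nat_lit 396) (B (L (nat_lit 364) ln11_15_6 ln11_15_6_ok) (L (nat_lit 523) ln11_16_6 ln11_16_6_ok))) (M (nat_lit 363) (B (M (nat_lit 362) (B (L (nat_lit 330) ln11_14_7 ln11_14_7_ok) (L (nat_lit 394) ln11_15_7 ln11_15_7_ok))) (M (nat_lit 490) (B (L (nat_lit 458) ln11_11_5 ln11_11_5_ok) (L (nat_lit 522)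 ln11_12_5 ln11_12_5_ok))))))) (M (nat_lit 491) (B (M (nat_lit 394) (B (L (nat_lit 362) ln11_15_7 ln11_15_7_ok) (L (nat_lit 430) ln14_13_3 ln14_13_3_ok))) (M (nat_lit 396) (B (L (nat_lit 364) ln11_15_6 ln11_15_6_ok) (L (nat_lit 523) ln11_16_6 ln11_16_6_ok)))))))))))))
noncomputable def c20_n5461 : Cert := (M (nat_lit 427) (B (M (nat_lit 462) (B (L (nat_lit 426) ln10_13_0 ln10_13_0_ok) (M (nat_lit 463) (B (L (nat_lit 430) ln11_13_0 ln11_13_0_ok) (L (nat_lit 464) ln16_14_3 ln16_14_3_ok))))) (B c20_n5460 (B (M (nat_lit 462) (B (L (nat_lit 426) ln10_13_0 ln10_13_0_ok) (M (nat_lit 463) (B (L (nat_lit 460) ln15_14_3 ln15_14_3_ok) (L (nat_lit 464) ln16_14_3 ln16_14_3_ok))))) (M (nat_lit 426) (B (M (nat_lit 425) (B (L (nat_lit 460) ln9_13_0 ln9_13_0_ok) (M (nat_lit 393) (B (L (nat_lit 392) ln12_13_3 ln12_13_3_ok) (L (nat_lit 394) ln13_13_3 ln13_13_3_ok))))) (B (M (nat_lit 425) (B (L (nat_lit 460) ln9_13_0 ln9_13_0_ok)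 (M (nat_lit 457) (B (L (nat_lit 456) ln12_13_1 ln12_13_1_ok) (L (nat_lit 458) ln13_13_1 ln13_13_1_ok))))) (M (nat_lit 430) (B (M (nat_lit 394) (B (L (nat_lit 393) ln13_13_3 ln13_13_3_ok) (L (nat_lit 395) ln14_13_3 ln14_13_3_ok))) (M (nat_lit 458) (B (L (nat_lit 457) ln13_13_1 ln13_13_1_ok) (L (nat_lit 459) ln14_13_1 ln14_13_1_ok))))))))))))
theorem c20_s5492 : Sem (nat_lit 5954262831509113917970671778902343783532342804327837356357830143065656733685921768742376304727131933651871260571575937852568135413341880320) (nat_lit 176904488759616918152126435949126407517197898584665169739064605450760108911823071194515119242895704915989780215250547551476247167142485686566032902994980384881919393792) (nat_lit 176904488759616918152126435949126407517197898584665169739064605450760108911823071194515119242895704915989780215250547551476247167142485686566032902994980384881919393792) :=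
  sem_of_chk (M (nat_lit 427) (B (M (nat_lit 462) (B (L (nat_lit 426) ln10_13_0 ln10_13_0_ok) (M (nat_lit 463) (B (L (nat_lit 460) ln15_14_3 ln15_14_3_ok) (L (nat_lit 464) ln16_14_3 ln16_14_3_ok))))) (B c20_n5460 (B (M (nat_lit 462) (B (L (nat_lit 426) ln10_13_0 ln10_13_0_ok) (M (nat_lit 463) (B (L (nat_lit 430) ln11_13_0 ln11_13_0_ok) (L (nat_lit 464) ln16_14_3 ln16_14_3_ok))))) (M (nat_lit 458) (B (M (nat_lit 459) (B (L (nat_lit 430) ln14_13_1 ln14_13_1_ok) (M (nat_lit 457) (B (L (nat_lit 426) ln13_13_1 ln13_13_1_ok) (L (nat_lit 456) ln8_14_2 ln8_14_2_ok))))) (B (M (nat_lit 459) (B (L (nat_lit 430) ln14_13_1 ln14_13_1_ok) (M (nat_lit 457) (B (L (nat_lit 456) ln8_14_2 ln8_14_2_ok) (L (nat_lit 460) ln9_14_2 ln9_14_2_ok))))) (B (M (nat_lit 457) (B (L (nat_lit 426) ln13_13_1 ln13_13_1_ok) (M (nat_lit 459) (B (L (nat_lit 456) ln8_14_2 ln8_14_2_ok) (L (nat_lit 460) ln9_14_2 ln9_14_2_ok))))) (B (M (nat_lit 457)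 (B (L (nat_lit 426) ln13_13_1 ln13_13_1_ok) (M (nat_lit 459) (B (L (nat_lit 430) ln14_13_1 ln14_13_1_ok) (L (nat_lit 460) ln9_14_2 ln9_14_2_ok))))) (B (M (nat_lit 430) (B (L (nat_lit 459) ln14_13_1 ln14_13_1_ok) (M (nat_lit 426) (B (M (nat_lit 394) (B (L (nat_lit 393) ln13_13_3 ln13_13_3_ok) (L (nat_lit 395) ln14_13_3 ln14_13_3_ok))) (M (nat_lit 398) (B (L (nat_lit 397) ln10_13_2 ln10_13_2_ok) (L (nat_lit 399) ln11_13_2 ln11_13_2_ok))))))) (M (nat_lit 426) (B (L (nat_lit 457) ln13_13_1 ln13_13_1_ok) (M (nat_lit 430) (B (M (nat_lit 394) (B (L (nat_lit 393) ln13_13_3 ln13_13_3_ok) (L (nat_lit 395) ln14_13_3 ln14_13_3_ok))) (M (nat_lit 398) (B (L (nat_lit 397) ln10_13_2 ln10_13_2_ok) (L (nat_lit 399) ln11_13_2 ln11_13_2_ok))))))))))))))))) (nat_lit 5954262831509113917970671778902343783532342804327837356357830143065656733685921768742376304727131933651871260571575937852568135413341880320) (nat_lit 176904488759616918152126435949126407517197898584665169739064605450760108911823071194515119242895704915989780215250547551476247167142485686566032902994980384881919393792)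 (nat_lit 176904488759616918152126435949126407517197898584665169739064605450760108911823071194515119242895704915989780215250547551476247167142485686566032902994980384881919393792) (by decide +kernel)
theorem c20_s5580 : Sem (nat_lit 5954262831509113917970671778902343783532342804327837356357830143065656733685921768742376304727131933651871260571575937852568135413341880320) (nat_lit 1297299583834455937056196428374421337923875982230862739032527349918288518738177437207114437309890646730970599850871261641145523920610870871065091474766334113030932004864) (nat_lit 1297299583834455937056196428374421337923875982230862739032527349918288518738177437207114437309890646730970599850871261641145523920610870871065091474766334113030932004864) :=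
  sem_of_chk (M (nat_lit 460) (B (M (nat_lit 492) (B (M (nat_lit 524) (B (L (nat_lit 397) ln12_16_6 ln12_16_6_ok) (L (nat_lit 556) ln12_17_6 ln12_17_6_ok))) (M (nat_lit 459) (B (M (nat_lit 458) (B (L (nat_lit 457) ln9_14_2 ln9_14_2_ok) (L (nat_lit 430) ln10_14_2 ln10_14_2_ok))) (M (nat_lit 491) (B (M (nat_lit 523) (B (L (nat_lit 396) ln12_12_5 ln12_12_5_ok) (L (nat_lit 555) ln11_17_6 ln11_17_6_ok))) (M (nat_lit 462) (B (L (nat_lit 490) ln14_14_1 ln14_14_1_ok) (L (nat_lit 463) ln15_14_1 ln15_14_1_ok))))))))) (B (M (nat_lit 459) (B (M (nat_lit 458) (B (L (nat_lit 457) ln9_14_2 ln9_14_2_ok) (L (nat_lit 430) ln10_14_2 ln10_14_2_ok))) (B (M (nat_lit 458) (B (L (nat_lit 457) ln9_14_2 ln9_14_2_ok) (M (nat_lit 462) (B (M (nat_lit 463) (B (L (nat_lit 427) ln15_14_3 ln15_14_3_ok) (L (nat_lit 464) ln16_14_3 ln16_14_3_ok))) (M (nat_lit 490) (B (L (nat_lit 489) ln13_14_1 ln13_14_1_ok) (L (nat_lit 491) ln14_14_1 ln14_14_1_ok)))))))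 (B (M (nat_lit 458) (B (L (nat_lit 430) ln10_14_2 ln10_14_2_ok) (M (nat_lit 462) (B (M (nat_lit 463) (B (L (nat_lit 427) ln15_14_3 ln15_14_3_ok) (L (nat_lit 464) ln16_14_3 ln16_14_3_ok))) (M (nat_lit 490) (B (L (nat_lit 489) ln13_14_1 ln13_14_1_ok) (L (nat_lit 491) ln14_14_1 ln14_14_1_ok))))))) (M (nat_lit 462) (B (M (nat_lit 463) (B (L (nat_lit 427) ln15_14_3 ln15_14_3_ok) (L (nat_lit 464) ln16_14_3 ln16_14_3_ok))) (M (nat_lit 494) (B (L (nat_lit 495) ln11_14_0 ln11_14_0_ok) (M (nat_lit 397) (B (L (nat_lit 365) ln13_11_4 ln13_11_4_ok) (M (nat_lit 526) (B (L (nat_lit 430) ln14_16_7 ln14_16_7_ok) (L (nat_lit 558) ln14_17_7 ln14_17_7_ok))))))))))))) (B (M (nat_lit 459) (B (M (nat_lit 458) (B (L (nat_lit 457) ln9_14_2 ln9_14_2_ok) (L (nat_lit 430) ln10_14_2 ln10_14_2_ok))) (M (nat_lit 491) (B (M (nat_lit 462) (B (L (nat_lit 490) ln14_14_1 ln14_14_1_ok) (M (nat_lit 463) (B (L (nat_lit 427) ln15_14_3 ln15_14_3_ok)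 (L (nat_lit 464) ln16_14_3 ln16_14_3_ok))))) (B (M (nat_lit 462) (B (L (nat_lit 490) ln14_14_1 ln14_14_1_ok) (M (nat_lit 463) (B (L (nat_lit 464) ln16_14_3 ln16_14_3_ok) (L (nat_lit 492) ln15_14_1 ln15_14_1_ok))))) (M (nat_lit 396) (B (L (nat_lit 364) ln12_11_5 ln12_11_5_ok) (M (nat_lit 523) (B (L (nat_lit 427) ln11_16_6 ln11_16_6_ok) (L (nat_lit 555) ln11_17_6 ln11_17_6_ok)))))))))) (B (M (nat_lit 492) (B (M (nat_lit 397) (B (L (nat_lit 365) ln13_11_5 ln13_11_5_ok) (L (nat_lit 524) ln12_16_6 ln12_16_6_ok))) (B (M (nat_lit 524) (B (L (nat_lit 397) ln12_16_6 ln12_16_6_ok) (L (nat_lit 556) ln12_17_6 ln12_17_6_ok))) (B (M (nat_lit 524) (B (L (nat_lit 556) ln12_17_6 ln12_17_6_ok) (M (nat_lit 396) (B (M (nat_lit 395) (B (L (nat_lit 363) ln12_15_7 ln12_15_7_ok) (L (nat_lit 427) ln12_16_7 ln12_16_7_ok))) (M (nat_lit 523) (B (L (nat_lit 491) ln12_12_5 ln12_12_5_ok) (L (nat_lit 555) ln12_13_5 ln12_13_5_ok)))))))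 (M (nat_lit 396) (B (M (nat_lit 365) (B (L (nat_lit 397) ln12_15_6 ln12_15_6_ok) (M (nat_lit 364) (B (L (nat_lit 332) ln12_10_4 ln12_10_4_ok) (L (nat_lit 333) ln12_14_6 ln12_14_6_ok))))) (B (M (nat_lit 364) (B (M (nat_lit 365) (B (L (nat_lit 333) ln12_14_6 ln12_14_6_ok) (L (nat_lit 397) ln12_15_6 ln12_15_6_ok))) (M (nat_lit 491) (B (L (nat_lit 459) ln12_11_5 ln12_11_5_ok) (L (nat_lit 523) ln12_12_5 ln12_12_5_ok))))) (B (M (nat_lit 491) (B (L (nat_lit 523) ln12_12_5 ln12_12_5_ok) (M (nat_lit 364) (B (L (nat_lit 332) ln12_10_4 ln12_10_4_ok) (L (nat_lit 459) ln12_11_5 ln12_11_5_ok))))) (M (nat_lit 491) (B (L (nat_lit 523) ln12_12_5 ln12_12_5_ok) (M (nat_lit 462) (B (L (nat_lit 463) ln15_14_1 ln15_14_1_ok) (M (nat_lit 490) (B (L (nat_lit 459) ln14_14_1 ln14_14_1_ok) (L (nat_lit 489) ln9_15_2 ln9_15_2_ok))))))))))))))) (B (M (nat_lit 492) (B (M (nat_lit 397) (B (L (nat_lit 365) ln13_11_5 ln13_11_5_ok) (L (nat_lit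 524) ln12_16_6 ln12_16_6_ok))) (B (M (nat_lit 524) (B (L (nat_lit 397) ln12_16_6 ln12_16_6_ok) (L (nat_lit 556) ln12_17_6 ln12_17_6_ok))) (B (M (nat_lit 524) (B (L (nat_lit 556) ln12_17_6 ln12_17_6_ok) (M (nat_lit 396) (B (M (nat_lit 395) (B (L (nat_lit 363) ln12_15_7 ln12_15_7_ok) (L (nat_lit 427) ln12_16_7 ln12_16_7_ok))) (M (nat_lit 523) (B (L (nat_lit 491) ln12_12_5 ln12_12_5_ok) (L (nat_lit 555) ln12_13_5 ln12_13_5_ok))))))) (M (nat_lit 396) (B (M (nat_lit 365) (B (L (nat_lit 397) ln12_15_6 ln12_15_6_ok) (M (nat_lit 364) (B (L (nat_lit 332) ln12_10_4 ln12_10_4_ok) (L (nat_lit 333) ln12_14_6 ln12_14_6_ok))))) (B (M (nat_lit 364) (B (M (nat_lit 363) (B (L (nat_lit 331) ln12_14_7 ln12_14_7_ok) (L (nat_lit 395) ln12_15_7 ln12_15_7_ok))) (M (nat_lit 365) (B (L (nat_lit 333) ln12_14_6 ln12_14_6_ok) (L (nat_lit 397) ln12_15_6 ln12_15_6_ok))))) (B (M (nat_lit 363) (B (L (nat_lit 395) ln12_15_7 ln12_15_7_ok)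 (M (nat_lit 364) (B (L (nat_lit 331) ln12_14_7 ln12_14_7_ok) (L (nat_lit 332) ln12_10_4 ln12_10_4_ok))))) (M (nat_lit 397) (B (L (nat_lit 365) ln12_15_6 ln12_15_6_ok) (M (nat_lit 395) (B (L (nat_lit 363) ln12_15_7 ln12_15_7_ok) (M (nat_lit 394) (B (L (nat_lit 393) ln9_12_0 ln9_12_0_ok) (L (nat_lit 430) ln10_12_0 ln10_12_0_ok))))))))))))))) (M (nat_lit 396) (B (M (nat_lit 364) (B (L (nat_lit 332) ln12_10_4 ln12_10_4_ok) (M (nat_lit 365) (B (L (nat_lit 333) ln12_14_6 ln12_14_6_ok) (M (nat_lit 492) (B (L (nat_lit 397) ln12_15_6 ln12_15_6_ok) (M (nat_lit 363) (B (L (nat_lit 331) ln12_14_7 ln12_14_7_ok) (L (nat_lit 395) ln12_15_7 ln12_15_7_ok))))))))) (B (M (nat_lit 397) (B (M (nat_lit 365) (B (L (nat_lit 333) ln13_10_5 ln13_10_5_ok) (L (nat_lit 492) ln12_15_6 ln12_15_6_ok))) (B (M (nat_lit 492) (B (L (nat_lit 365) ln12_15_6 ln12_15_6_ok) (L (nat_lit 524) ln12_16_6 ln12_16_6_ok))) (B (M (nat_lit 395) (B (M (nat_lit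 492) (B (L (nat_lit 363) ln12_15_7 ln12_15_7_ok) (L (nat_lit 524) ln12_16_6 ln12_16_6_ok))) (M (nat_lit 394) (B (L (nat_lit 393) ln9_12_0 ln9_12_0_ok) (L (nat_lit 430) ln10_12_0 ln10_12_0_ok))))) (M (nat_lit 462) (B (M (nat_lit 365) (B (L (nat_lit 333) ln13_10_5 ln13_10_5_ok) (L (nat_lit 494) ln13_11_4 ln13_11_4_ok))) (M (nat_lit 463) (B (L (nat_lit 427) ln15_14_3 ln15_14_3_ok) (L (nat_lit 464) ln16_14_3 ln16_14_3_ok))))))))) (B (M (nat_lit 364) (B (L (nat_lit 332) ln12_10_4 ln12_10_4_ok) (M (nat_lit 492) (B (M (nat_lit 363) (B (L (nat_lit 331) ln12_14_7 ln12_14_7_ok) (L (nat_lit 395) ln12_15_7 ln12_15_7_ok))) (M (nat_lit 524) (B (L (nat_lit 397) ln12_16_6 ln12_16_6_ok) (L (nat_lit 556) ln12_17_6 ln12_17_6_ok))))))) (B (M (nat_lit 365) (B (M (nat_lit 364) (B (L (nat_lit 332) ln12_10_4 ln12_10_4_ok) (L (nat_lit 333) ln12_14_6 ln12_14_6_ok))) (B (M (nat_lit 333) (B (L (nat_lit 364) ln12_14_6 ln12_14_6_ok)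 (L (nat_lit 397) ln13_10_5 ln13_10_5_ok))) (M (nat_lit 462) (B (M (nat_lit 397) (B (L (nat_lit 492) ln12_15_6 ln12_15_6_ok) (L (nat_lit 494) ln13_11_4 ln13_11_4_ok))) (M (nat_lit 463) (B (L (nat_lit 427) ln15_14_3 ln15_14_3_ok) (L (nat_lit 464) ln16_14_3 ln16_14_3_ok)))))))) (B (M (nat_lit 364) (B (L (nat_lit 332) ln12_10_4 ln12_10_4_ok) (M (nat_lit 363) (B (L (nat_lit 331) ln12_14_7 ln12_14_7_ok) (M (nat_lit 365) (B (L (nat_lit 333) ln12_14_6 ln12_14_6_ok) (M (nat_lit 395) (B (L (nat_lit 492) ln12_15_7 ln12_15_7_ok) (M (nat_lit 366) (B (L (nat_lit 394) ln14_11_1 ln14_11_1_ok) (L (nat_lit 367) ln15_11_1 ln15_11_1_ok))))))))))) (M (nat_lit 365) (B (M (nat_lit 364) (B (L (nat_lit 332) ln12_10_4 ln12_10_4_ok) (L (nat_lit 333) ln12_14_6 ln12_14_6_ok))) (B (M (nat_lit 333) (B (L (nat_lit 364) ln12_14_6 ln12_14_6_ok) (L (nat_lit 397) ln13_10_5 ln13_10_5_ok))) (M (nat_lit 462) (B (M (nat_lit 463) (B (L (nat_lit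 427) ln15_14_3 ln15_14_3_ok) (L (nat_lit 464) ln16_14_3 ln16_14_3_ok))) (M (nat_lit 459) (B (M (nat_lit 458) (B (L (nat_lit 457) ln9_14_2 ln9_14_2_ok) (L (nat_lit 430) ln10_14_2 ln10_14_2_ok))) (M (nat_lit 494) (B (L (nat_lit 397) ln13_11_4 ln13_11_4_ok) (L (nat_lit 495) ln11_14_0 ln11_14_0_ok)))))))))))))))))))))) (nat_lit 5954262831509113917970671778902343783532342804327837356357830143065656733685921768742376304727131933651871260571575937852568135413341880320) (nat_lit 1297299583834455937056196428374421337923875982230862739032527349918288518738177437207114437309890646730970599850871261641145523920610870871065091474766334113030932004864) (nat_lit 1297299583834455937056196428374421337923875982230862739032527349918288518738177437207114437309890646730970599850871261641145523920610870871065091474766334113030932004864) (by decide +kernel)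
noncomputable def c20_n5659 : Cert := (M (nat_lit 396) (B (M (nat_lit 364) (B (L (nat_lit 332) ln12_10_4 ln12_10_4_ok) (M (nat_lit 365) (B (L (nat_lit 333) ln12_14_6 ln12_14_6_ok) (M (nat_lit 492) (B (L (nat_lit 397) ln12_15_6 ln12_15_6_ok) (M (nat_lit 363) (B (L (nat_lit 331) ln12_14_7 ln12_14_7_ok) (L (nat_lit 395) ln12_15_7 ln12_15_7_ok))))))))) (B (M (nat_lit 364) (B (L (nat_lit 332) ln12_10_4 ln12_10_4_ok) (M (nat_lit 365) (B (L (nat_lit 333) ln12_14_6 ln12_14_6_ok) (M (nat_lit 397) (B (L (nat_lit 492) ln12_15_6 ln12_15_6_ok) (M (nat_lit 366) (B (L (nat_lit 334) ln13_14_6 ln13_14_6_ok) (M (nat_lit 367) (B (L (nat_lit 395) ln15_11_1 ln15_11_1_ok) (L (nat_lit 368) ln16_11_1 ln16_11_1_ok))))))))))) (B (M (nat_lit 364) (B (M (nat_lit 365) (B (L (nat_lit 333) ln12_14_6 ln12_14_6_ok) (M (nat_lit 492) (B (L (nat_lit 397) ln12_15_6 ln12_15_6_ok) (M (nat_lit 363) (B (L (nat_lit 331) ln12_14_7 ln12_14_7_ok) (L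 (nat_lit 395) ln12_15_7 ln12_15_7_ok))))))) (B (M (nat_lit 365) (B (L (nat_lit 333) ln12_14_6 ln12_14_6_ok) (M (nat_lit 397) (B (L (nat_lit 492) ln12_15_6 ln12_15_6_ok) (M (nat_lit 366) (B (L (nat_lit 334) ln13_14_6 ln13_14_6_ok) (M (nat_lit 367) (B (L (nat_lit 395) ln15_11_1 ln15_11_1_ok) (L (nat_lit 368) ln16_11_1 ln16_11_1_ok))))))))) (B (M (nat_lit 492) (B (M (nat_lit 363) (B (L (nat_lit 331) ln12_14_7 ln12_14_7_ok) (L (nat_lit 395) ln12_15_7 ln12_15_7_ok))) (M (nat_lit 524) (B (L (nat_lit 397) ln12_16_6 ln12_16_6_ok) (L (nat_lit 556) ln12_17_6 ln12_17_6_ok))))) (B (M (nat_lit 365) (B (L (nat_lit 333) ln12_14_6 ln12_14_6_ok) (M (nat_lit 397) (B (L (nat_lit 492) ln12_15_6 ln12_15_6_ok) (M (nat_lit 363) (B (L (nat_lit 331) ln12_14_7 ln12_14_7_ok) (M (nat_lit 362) (B (L (nat_lit 361) ln9_11_0 ln9_11_0_ok) (L (nat_lit 398) ln10_11_0 ln10_11_0_ok))))))))) (B (M (nat_lit 363) (B (L (nat_lit 331) ln12_14_7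 ln12_14_7_ok) (M (nat_lit 365) (B (L (nat_lit 333) ln12_14_6 ln12_14_6_ok) (M (nat_lit 395) (B (L (nat_lit 492) ln12_15_7 ln12_15_7_ok) (M (nat_lit 366) (B (L (nat_lit 394) ln14_11_1 ln14_11_1_ok) (L (nat_lit 367) ln15_11_1 ln15_11_1_ok))))))))) (M (nat_lit 365) (B (L (nat_lit 333) ln12_14_6 ln12_14_6_ok) (M (nat_lit 363) (B (L (nat_lit 331) ln12_14_7 ln12_14_7_ok) (M (nat_lit 366) (B (M (nat_lit 334) (B (L (nat_lit 335) ln11_11_2 ln11_11_2_ok) (L (nat_lit 397) ln13_14_6 ln13_14_6_ok))) (M (nat_lit 395) (B (L (nat_lit 394) ln14_11_1 ln14_11_1_ok) (L (nat_lit 367) ln15_11_1 ln15_11_1_ok))))))))))))))) (B (M (nat_lit 364) (B (L (nat_lit 332) ln12_10_4 ln12_10_4_ok) (M (nat_lit 492) (B (M (nat_lit 363) (B (L (nat_lit 331) ln12_14_7 ln12_14_7_ok) (L (nat_lit 395) ln12_15_7 ln12_15_7_ok))) (M (nat_lit 524) (B (L (nat_lit 397) ln12_16_6 ln12_16_6_ok) (L (nat_lit 556) ln12_17_6 ln12_17_6_ok))))))) (B (M (nat_lit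 397) (B (M (nat_lit 365) (B (L (nat_lit 333) ln13_10_5 ln13_10_5_ok) (L (nat_lit 492) ln12_15_6 ln12_15_6_ok))) (B (M (nat_lit 492) (B (L (nat_lit 365) ln12_15_6 ln12_15_6_ok) (L (nat_lit 524) ln12_16_6 ln12_16_6_ok))) (B (M (nat_lit 395) (B (M (nat_lit 492) (B (L (nat_lit 363) ln12_15_7 ln12_15_7_ok) (L (nat_lit 524) ln12_16_6 ln12_16_6_ok))) (M (nat_lit 394) (B (L (nat_lit 393) ln9_12_0 ln9_12_0_ok) (L (nat_lit 430) ln10_12_0 ln10_12_0_ok))))) (M (nat_lit 365) (B (L (nat_lit 333) ln13_10_5 ln13_10_5_ok) (M (nat_lit 366) (B (L (nat_lit 334) ln13_14_6 ln13_14_6_ok) (M (nat_lit 395) (B (L (nat_lit 394) ln10_12_2 ln10_12_2_ok) (M (nat_lit 367) (B (L (nat_lit 368) ln16_11_1 ln16_11_1_ok) (L (nat_lit 398) ln11_12_2 ln11_12_2_ok))))))))))))) (B (M (nat_lit 364) (B (L (nat_lit 332) ln12_10_4 ln12_10_4_ok) (M (nat_lit 365) (B (L (nat_lit 333) ln12_14_6 ln12_14_6_ok) (M (nat_lit 397) (B (L (nat_lit 492) ln12_15_6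 ln12_15_6_ok) (M (nat_lit 363) (B (L (nat_lit 331) ln12_14_7 ln12_14_7_ok) (M (nat_lit 362) (B (L (nat_lit 361) ln9_11_0 ln9_11_0_ok) (L (nat_lit 398) ln10_11_0 ln10_11_0_ok))))))))))) (B (M (nat_lit 364) (B (L (nat_lit 332) ln12_10_4 ln12_10_4_ok) (M (nat_lit 363) (B (L (nat_lit 331) ln12_14_7 ln12_14_7_ok) (M (nat_lit 365) (B (L (nat_lit 333) ln12_14_6 ln12_14_6_ok) (M (nat_lit 395) (B (L (nat_lit 492) ln12_15_7 ln12_15_7_ok) (M (nat_lit 366) (B (L (nat_lit 394) ln14_11_1 ln14_11_1_ok) (L (nat_lit 367) ln15_11_1 ln15_11_1_ok))))))))))) (M (nat_lit 364) (B (L (nat_lit 332) ln12_10_4 ln12_10_4_ok) (M (nat_lit 365) (B (L (nat_lit 333) ln12_14_6 ln12_14_6_ok) (M (nat_lit 363) (B (L (nat_lit 331) ln12_14_7 ln12_14_7_ok) (M (nat_lit 366) (B (M (nat_lit 334) (B (L (nat_lit 335) ln11_11_2 ln11_11_2_ok) (L (nat_lit 397) ln13_14_6 ln13_14_6_ok))) (M (nat_lit 395) (B (L (nat_lit 394) ln14_11_1 ln14_11_1_ok) (L (nat_lit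 367) ln15_11_1 ln15_11_1_ok)))))))))))))))))))
noncomputable def c20_n5817 : Cert := (M (nat_lit 363) (B (M (nat_lit 366) (B (M (nat_lit 334) (B (L (nat_lit 335) ln11_11_2 ln11_11_2_ok) (M (nat_lit 398) (B (L (nat_lit 430) ln14_10_5 ln14_10_5_ok) (L (nat_lit 399) ln11_11_0 ln11_11_0_ok))))) (M (nat_lit 362) (B (M (nat_lit 330) (B (L (nat_lit 329) ln13_11_3 ln13_11_3_ok) (L (nat_lit 331) ln14_11_3 ln14_11_3_ok))) (M (nat_lit 394) (B (L (nat_lit 393) ln13_11_1 ln13_11_1_ok) (L (nat_lit 395) ln14_11_1 ln14_11_1_ok))))))) (B (M (nat_lit 366) (B (M (nat_lit 334) (B (L (nat_lit 335) ln11_11_2 ln11_11_2_ok) (M (nat_lit 398) (B (L (nat_lit 430) ln14_10_5 ln14_10_5_ok) (L (nat_lit 399) ln11_11_0 ln11_11_0_ok))))) (B (M (nat_lit 367) (B (M (nat_lit 331) (B (L (nat_lit 330) ln14_11_3 ln14_11_3_ok) (L (nat_lit 332) ln15_11_3 ln15_11_3_ok))) (M (nat_lit 399) (B (L (nat_lit 398) ln11_11_0 ln11_11_0_ok) (L (nat_lit 400)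 ln12_11_0 ln12_11_0_ok))))) (M (nat_lit 367) (B (M (nat_lit 331) (B (L (nat_lit 330) ln14_11_3 ln14_11_3_ok) (L (nat_lit 332) ln15_11_3 ln15_11_3_ok))) (M (nat_lit 335) (B (L (nat_lit 334) ln11_11_2 ln11_11_2_ok) (L (nat_lit 336) ln12_11_2 ln12_11_2_ok)))))))) (B (M (nat_lit 334) (B (M (nat_lit 366) (B (L (nat_lit 335) ln11_11_2 ln11_11_2_ok) (M (nat_lit 398) (B (L (nat_lit 430) ln14_10_5 ln14_10_5_ok) (L (nat_lit 399) ln11_11_0 ln11_11_0_ok))))) (B (M (nat_lit 366) (B (M (nat_lit 398) (B (L (nat_lit 430) ln14_10_5 ln14_10_5_ok) (L (nat_lit 399) ln11_11_0 ln11_11_0_ok))) (M (nat_lit 362) (B (L (nat_lit 333) ln10_11_2 ln10_11_2_ok) (M (nat_lit 394) (B (L (nat_lit 393) ln13_11_1 ln13_11_1_ok) (L (nat_lit 395) ln14_11_1 ln14_11_1_ok))))))) (M (nat_lit 333) (B (L (nat_lit 362) ln10_11_2 ln10_11_2_ok) (M (nat_lit 335) (B (L (nat_lit 332) ln15_10_1 ln15_10_1_ok) (L (nat_lit 336) ln16_10_1 ln16_10_1_ok))))))))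 (B (M (nat_lit 394) (B (M (nat_lit 393) (B (L (nat_lit 362) ln13_11_1 ln13_11_1_ok) (M (nat_lit 395) (B (L (nat_lit 366) ln14_11_1 ln14_11_1_ok) (L (nat_lit 392) ln8_12_2 ln8_12_2_ok))))) (B (M (nat_lit 366) (B (L (nat_lit 395) ln14_11_1 ln14_11_1_ok) (M (nat_lit 367) (B (M (nat_lit 331) (B (L (nat_lit 330) ln14_11_3 ln14_11_3_ok) (L (nat_lit 332) ln15_11_3 ln15_11_3_ok))) (M (nat_lit 399) (B (L (nat_lit 398) ln11_11_0 ln11_11_0_ok) (L (nat_lit 400) ln12_11_0 ln12_11_0_ok))))))) (M (nat_lit 362) (B (L (nat_lit 393) ln13_11_1 ln13_11_1_ok) (M (nat_lit 458) (B (M (nat_lit 459) (B (L (nat_lit 457) ln9_14_2 ln9_14_2_ok) (L (nat_lit 430) ln10_14_2 ln10_14_2_ok))) (M (nat_lit 426) (B (L (nat_lit 331) ln10_14_6 ln10_14_6_ok) (M (nat_lit 329) (B (L (nat_lit 330) ln13_11_3 ln13_11_3_ok) (L (nat_lit 361) ln10_14_7 ln10_14_7_ok)))))))))))) (B (M (nat_lit 362) (B (M (nat_lit 361) (B (M (nat_lit 329) (B (L (nat_lit 328)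 ln12_11_3 ln12_11_3_ok) (L (nat_lit 330) ln13_11_3 ln13_11_3_ok))) (M (nat_lit 393) (B (L (nat_lit 392) ln12_11_1 ln12_11_1_ok) (L (nat_lit 394) ln13_11_1 ln13_11_1_ok))))) (B (M (nat_lit 333) (B (L (nat_lit 334) ln10_11_2 ln10_11_2_ok) (M (nat_lit 361) (B (L (nat_lit 332) ln9_11_2 ln9_11_2_ok) (M (nat_lit 393) (B (L (nat_lit 392) ln12_11_1 ln12_11_1_ok) (L (nat_lit 394) ln13_11_1 ln13_11_1_ok))))))) (B (M (nat_lit 330) (B (L (nat_lit 329) ln13_11_3 ln13_11_3_ok) (M (nat_lit 394) (B (L (nat_lit 393) ln13_11_1 ln13_11_1_ok) (M (nat_lit 458) (B (M (nat_lit 459) (B (L (nat_lit 457) ln9_14_2 ln9_14_2_ok) (L (nat_lit 430) ln10_14_2 ln10_14_2_ok))) (B (M (nat_lit 459) (B (L (nat_lit 457) ln9_14_2 ln9_14_2_ok) (M (nat_lit 426) (B (L (nat_lit 331) ln10_14_6 ln10_14_6_ok) (L (nat_lit 425) ln13_14_3 ln13_14_3_ok))))) (B (M (nat_lit 459) (B (L (nat_lit 430) ln10_14_2 ln10_14_2_ok) (M (nat_lit 426) (B (L (nat_lit 331)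 ln10_14_6 ln10_14_6_ok) (L (nat_lit 425) ln13_14_3 ln13_14_3_ok))))) (M (nat_lit 426) (B (L (nat_lit 331) ln10_14_6 ln10_14_6_ok) (M (nat_lit 457) (B (L (nat_lit 425) ln10_10_5 ln10_10_5_ok) (L (nat_lit 489) ln10_11_5 ln10_11_5_ok))))))))))))) (M (nat_lit 361) (B (M (nat_lit 329) (B (L (nat_lit 328) ln12_11_3 ln12_11_3_ok) (L (nat_lit 330) ln13_11_3 ln13_11_3_ok))) (M (nat_lit 333) (B (L (nat_lit 332) ln9_11_2 ln9_11_2_ok) (L (nat_lit 334) ln10_11_2 ln10_11_2_ok))))))))) (M (nat_lit 366) (B (M (nat_lit 362) (B (M (nat_lit 334) (B (L (nat_lit 333) ln10_11_2 ln10_11_2_ok) (L (nat_lit 335) ln11_11_2 ln11_11_2_ok))) (M (nat_lit 394) (B (L (nat_lit 393) ln13_11_1 ln13_11_1_ok) (L (nat_lit 395) ln14_11_1 ln14_11_1_ok))))) (B (M (nat_lit 362) (B (M (nat_lit 330) (B (L (nat_lit 329) ln13_11_3 ln13_11_3_ok) (L (nat_lit 331) ln14_11_3 ln14_11_3_ok))) (M (nat_lit 394) (B (L (nat_lit 393) ln13_11_1 ln13_11_1_ok) (L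 (nat_lit 395) ln14_11_1 ln14_11_1_ok))))) (M (nat_lit 367) (B (M (nat_lit 331) (B (L (nat_lit 330) ln14_11_3 ln14_11_3_ok) (L (nat_lit 332) ln15_11_3 ln15_11_3_ok))) (M (nat_lit 399) (B (L (nat_lit 398) ln11_11_0 ln11_11_0_ok) (L (nat_lit 400) ln12_11_0 ln12_11_0_ok))))))))))))))
theorem c20_s5818 : Sem (nat_lit 8931394246223919741660702096049187037569239149349323820819443391347566178580932780617771503995222842590588284166261386642482162932658470912) (nat_lit 359625433082366974658082626514160047307198530376744638940637891322401686461005351340730759580172907055692463369489514701527038977608444686410056728576) (nat_lit 359625433082366974658082626514160047307198530376744638940637891322401686461005351340730759580172907055692463369489514701527038977608444686410056728576) :=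
  sem_of_chk (M (nat_lit 365) (B (M (nat_lit 397) (B (L (nat_lit 332) ln13_14_7 ln13_14_7_ok) (L (nat_lit 333) ln13_10_5 ln13_10_5_ok))) (B (M (nat_lit 363) (B (M (nat_lit 397) (B (L (nat_lit 333) ln13_10_5 ln13_10_5_ok) (M (nat_lit 366) (B (L (nat_lit 334) ln13_14_6 ln13_14_6_ok) (M (nat_lit 398) (B (L (nat_lit 362) ln10_11_0 ln10_11_0_ok) (L (nat_lit 399) ln11_11_0 ln11_11_0_ok))))))) (B (M (nat_lit 366) (B (M (nat_lit 334) (B (L (nat_lit 335) ln11_11_2 ln11_11_2_ok) (L (nat_lit 397) ln13_14_6 ln13_14_6_ok))) (M (nat_lit 362) (B (M (nat_lit 330) (B (L (nat_lit 329) ln13_11_3 ln13_11_3_ok) (L (nat_lit 331) ln14_11_3 ln14_11_3_ok))) (M (nat_lit 394) (B (L (nat_lit 393) ln13_11_1 ln13_11_1_ok) (L (nat_lit 395) ln14_11_1 ln14_11_1_ok))))))) (B (M (nat_lit 397) (B (L (nat_lit 333) ln13_10_5 ln13_10_5_ok) (M (nat_lit 398) (B (L (nat_lit 362) ln10_11_0 ln10_11_0_ok) (M (nat_lit 399) (B (L (nat_lit 366) ln11_11_0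 ln11_11_0_ok) (L (nat_lit 400) ln16_12_3 ln16_12_3_ok))))))) (B (M (nat_lit 462) (B (M (nat_lit 397) (B (L (nat_lit 333) ln13_10_5 ln13_10_5_ok) (L (nat_lit 494) ln13_11_4 ln13_11_4_ok))) (B (M (nat_lit 459) (B (M (nat_lit 458) (B (L (nat_lit 457) ln9_14_2 ln9_14_2_ok) (L (nat_lit 430) ln10_14_2 ln10_14_2_ok))) (M (nat_lit 494) (B (L (nat_lit 397) ln13_11_4 ln13_11_4_ok) (L (nat_lit 495) ln11_14_0 ln11_14_0_ok))))) (B (M (nat_lit 459) (B (M (nat_lit 458) (B (L (nat_lit 457) ln9_14_2 ln9_14_2_ok) (L (nat_lit 430) ln10_14_2 ln10_14_2_ok))) (M (nat_lit 463) (B (L (nat_lit 464) ln16_14_3 ln16_14_3_ok) (M (nat_lit 495) (B (L (nat_lit 494) ln11_14_0 ln11_14_0_ok) (L (nat_lit 496) ln12_14_0 ln12_14_0_ok))))))) (M (nat_lit 366) (B (M (nat_lit 334) (B (L (nat_lit 335) ln11_11_2 ln11_11_2_ok) (L (nat_lit 397) ln13_14_6 ln13_14_6_ok))) (B (M (nat_lit 333) (B (L (nat_lit 397) ln13_10_5 ln13_10_5_ok) (M (nat_lit 398)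 (B (L (nat_lit 430) ln14_14_7 ln14_14_7_ok) (L (nat_lit 399) ln11_11_0 ln11_11_0_ok))))) (M (nat_lit 398) (B (L (nat_lit 399) ln11_11_0 ln11_11_0_ok) (M (nat_lit 334) (B (L (nat_lit 335) ln11_11_2 ln11_11_2_ok) (L (nat_lit 430) ln14_10_5 ln14_10_5_ok)))))))))))) (B (M (nat_lit 362) (B (M (nat_lit 333) (B (L (nat_lit 334) ln10_11_2 ln10_11_2_ok) (L (nat_lit 397) ln13_10_5 ln13_10_5_ok))) (M (nat_lit 361) (B (M (nat_lit 329) (B (L (nat_lit 328) ln12_11_3 ln12_11_3_ok) (L (nat_lit 330) ln13_11_3 ln13_11_3_ok))) (M (nat_lit 393) (B (L (nat_lit 392) ln12_11_1 ln12_11_1_ok) (L (nat_lit 394) ln13_11_1 ln13_11_1_ok))))))) (M (nat_lit 366) (B (M (nat_lit 334) (B (L (nat_lit 335) ln11_11_2 ln11_11_2_ok) (M (nat_lit 398) (B (L (nat_lit 430) ln14_10_5 ln14_10_5_ok) (L (nat_lit 399) ln11_11_0 ln11_11_0_ok))))) (M (nat_lit 362) (B (M (nat_lit 330) (B (L (nat_lit 329) ln13_11_3 ln13_11_3_ok) (L (nat_lit 331) ln14_11_3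 ln14_11_3_ok))) (M (nat_lit 394) (B (L (nat_lit 393) ln13_11_1 ln13_11_1_ok) (L (nat_lit 395) ln14_11_1 ln14_11_1_ok))))))))))))) (B (M (nat_lit 366) (B (M (nat_lit 397) (B (L (nat_lit 332) ln13_14_7 ln13_14_7_ok) (L (nat_lit 334) ln13_14_6 ln13_14_6_ok))) (B (M (nat_lit 334) (B (L (nat_lit 397) ln13_14_6 ln13_14_6_ok) (M (nat_lit 363) (B (L (nat_lit 335) ln11_11_2 ln11_11_2_ok) (M (nat_lit 398) (B (L (nat_lit 430) ln14_10_5 ln14_10_5_ok) (L (nat_lit 399) ln11_11_0 ln11_11_0_ok))))))) (B (M (nat_lit 332) (B (L (nat_lit 397) ln13_14_7 ln13_14_7_ok) (M (nat_lit 331) (B (L (nat_lit 367) ln15_11_3 ln15_11_3_ok) (M (nat_lit 330) (B (L (nat_lit 329) ln9_10_0 ln9_10_0_ok) (L (nat_lit 363) ln14_11_3 ln14_11_3_ok))))))) (M (nat_lit 363) (B (M (nat_lit 334) (B (L (nat_lit 335) ln11_11_2 ln11_11_2_ok) (M (nat_lit 398) (B (L (nat_lit 430) ln14_10_5 ln14_10_5_ok) (L (nat_lit 399) ln11_11_0 ln11_11_0_ok))))) (M (nat_lit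 362) (B (M (nat_lit 330) (B (L (nat_lit 329) ln13_11_3 ln13_11_3_ok) (L (nat_lit 331) ln14_11_3 ln14_11_3_ok))) (M (nat_lit 394) (B (L (nat_lit 393) ln13_11_1 ln13_11_1_ok) (L (nat_lit 395) ln14_11_1 ln14_11_1_ok))))))))))) c20_n5817)))) (nat_lit 8931394246223919741660702096049187037569239149349323820819443391347566178580932780617771503995222842590588284166261386642482162932658470912) (nat_lit 359625433082366974658082626514160047307198530376744638940637891322401686461005351340730759580172907055692463369489514701527038977608444686410056728576) (nat_lit 359625433082366974658082626514160047307198530376744638940637891322401686461005351340730759580172907055692463369489514701527038977608444686410056728576) (by decide +kernel)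
theorem c20_s5820 : Sem (nat_lit 5954262831509113917970671778902343783532342804327837356357830143065656733685921768742376304727131933651871260571575937852568135413341880320) (nat_lit 1297299583834455937260783341367930204799613692359175434782559337528237342776072778122484569297420167484204325171318379054843788025970181933573536425801988389042875531264) (nat_lit 1297299583834455937260783341367930204799613692359175434782559337528237342776072778122484569297420167484204325171318379054843788025970181933573536425801988389042875531264) :=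
  sem_of_chk (M (nat_lit 460) (B (M (nat_lit 459) (B (M (nat_lit 458) (B (L (nat_lit 457) ln9_14_2 ln9_14_2_ok) (L (nat_lit 430) ln10_14_2 ln10_14_2_ok))) (M (nat_lit 492) (B (M (nat_lit 397) (B (L (nat_lit 365) ln13_11_5 ln13_11_5_ok) (L (nat_lit 524) ln12_16_6 ln12_16_6_ok))) (M (nat_lit 491) (B (M (nat_lit 523) (B (L (nat_lit 396) ln12_12_5 ln12_12_5_ok) (L (nat_lit 555) ln11_17_6 ln11_17_6_ok))) (M (nat_lit 462) (B (L (nat_lit 490) ln14_14_1 ln14_14_1_ok) (L (nat_lit 463) ln15_14_1 ln15_14_1_ok))))))))) (B (M (nat_lit 492) (B (M (nat_lit 524) (B (L (nat_lit 397) ln12_16_6 ln12_16_6_ok) (L (nat_lit 556) ln12_17_6 ln12_17_6_ok))) (M (nat_lit 459) (B (M (nat_lit 458) (B (L (nat_lit 457) ln9_14_2 ln9_14_2_ok) (L (nat_lit 430) ln10_14_2 ln10_14_2_ok))) (M (nat_lit 491) (B (M (nat_lit 523) (B (L (nat_lit 396) ln12_12_5 ln12_12_5_ok) (L (nat_lit 555) ln11_17_6 ln11_17_6_ok))) (M (nat_lit 462) (B (L (nat_lit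 490) ln14_14_1 ln14_14_1_ok) (L (nat_lit 463) ln15_14_1 ln15_14_1_ok))))))))) (B (M (nat_lit 459) (B (M (nat_lit 458) (B (L (nat_lit 457) ln9_14_2 ln9_14_2_ok) (L (nat_lit 430) ln10_14_2 ln10_14_2_ok))) (B (M (nat_lit 462) (B (M (nat_lit 458) (B (L (nat_lit 457) ln9_14_2 ln9_14_2_ok) (M (nat_lit 490) (B (L (nat_lit 489) ln13_14_1 ln13_14_1_ok) (L (nat_lit 491) ln14_14_1 ln14_14_1_ok))))) (M (nat_lit 463) (B (L (nat_lit 464) ln16_14_3 ln16_14_3_ok) (M (nat_lit 495) (B (L (nat_lit 494) ln11_14_0 ln11_14_0_ok) (L (nat_lit 496) ln12_14_0 ln12_14_0_ok))))))) (B (M (nat_lit 462) (B (M (nat_lit 463) (B (L (nat_lit 464) ln16_14_3 ln16_14_3_ok) (M (nat_lit 495) (B (L (nat_lit 494) ln11_14_0 ln11_14_0_ok) (L (nat_lit 496) ln12_14_0 ln12_14_0_ok))))) (M (nat_lit 458) (B (L (nat_lit 430) ln10_14_2 ln10_14_2_ok) (M (nat_lit 490) (B (L (nat_lit 489) ln13_14_1 ln13_14_1_ok) (L (nat_lit 491) ln14_14_1 ln14_14_1_ok)))))))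 (M (nat_lit 462) (B (M (nat_lit 463) (B (L (nat_lit 464) ln16_14_3 ln16_14_3_ok) (M (nat_lit 491) (B (L (nat_lit 490) ln14_14_1 ln14_14_1_ok) (L (nat_lit 492) ln15_14_1 ln15_14_1_ok))))) (M (nat_lit 494) (B (L (nat_lit 495) ln11_14_0 ln11_14_0_ok) (M (nat_lit 397) (B (L (nat_lit 365) ln13_11_4 ln13_11_4_ok) (M (nat_lit 526) (B (L (nat_lit 430) ln14_16_7 ln14_16_7_ok) (L (nat_lit 558) ln14_17_7 ln14_17_7_ok))))))))))))) (B (M (nat_lit 459) (B (M (nat_lit 458) (B (L (nat_lit 457) ln9_14_2 ln9_14_2_ok) (L (nat_lit 430) ln10_14_2 ln10_14_2_ok))) (M (nat_lit 462) (B (M (nat_lit 463) (B (L (nat_lit 464) ln16_14_3 ln16_14_3_ok) (M (nat_lit 491) (B (L (nat_lit 490) ln14_14_1 ln14_14_1_ok) (L (nat_lit 492) ln15_14_1 ln15_14_1_ok))))) (B (M (nat_lit 491) (B (L (nat_lit 490) ln14_14_1 ln14_14_1_ok) (M (nat_lit 396) (B (L (nat_lit 364) ln12_11_5 ln12_11_5_ok) (M (nat_lit 523) (B (L (nat_lit 492) ln12_12_5 ln12_12_5_ok)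 (L (nat_lit 555) ln11_17_6 ln11_17_6_ok))))))) (M (nat_lit 463) (B (L (nat_lit 464) ln16_14_3 ln16_14_3_ok) (M (nat_lit 495) (B (L (nat_lit 494) ln11_14_0 ln11_14_0_ok) (L (nat_lit 496) ln12_14_0 ln12_14_0_ok)))))))))) (B (M (nat_lit 492) (B (M (nat_lit 524) (B (L (nat_lit 397) ln12_16_6 ln12_16_6_ok) (L (nat_lit 556) ln12_17_6 ln12_17_6_ok))) (M (nat_lit 396) (B (M (nat_lit 491) (B (L (nat_lit 523) ln12_12_5 ln12_12_5_ok) (M (nat_lit 364) (B (L (nat_lit 332) ln12_10_4 ln12_10_4_ok) (L (nat_lit 459) ln12_11_5 ln12_11_5_ok))))) (B (M (nat_lit 364) (B (M (nat_lit 363) (B (L (nat_lit 331) ln12_14_7 ln12_14_7_ok) (L (nat_lit 395) ln12_15_7 ln12_15_7_ok))) (M (nat_lit 491) (B (L (nat_lit 459) ln12_11_5 ln12_11_5_ok) (L (nat_lit 523) ln12_12_5 ln12_12_5_ok))))) (B (M (nat_lit 491) (B (L (nat_lit 523) ln12_12_5 ln12_12_5_ok) (M (nat_lit 462) (B (L (nat_lit 463) ln15_14_1 ln15_14_1_ok) (M (nat_lit 490) (B (L (nat_lit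 459) ln14_14_1 ln14_14_1_ok) (L (nat_lit 489) ln9_15_2 ln9_15_2_ok))))))) (M (nat_lit 363) (B (L (nat_lit 395) ln12_15_7 ln12_15_7_ok) (M (nat_lit 364) (B (L (nat_lit 331) ln12_14_7 ln12_14_7_ok) (L (nat_lit 332) ln12_10_4 ln12_10_4_ok))))))))))) (B (M (nat_lit 492) (B (M (nat_lit 397) (B (L (nat_lit 365) ln13_11_5 ln13_11_5_ok) (L (nat_lit 524) ln12_16_6 ln12_16_6_ok))) (B (M (nat_lit 524) (B (L (nat_lit 397) ln12_16_6 ln12_16_6_ok) (L (nat_lit 556) ln12_17_6 ln12_17_6_ok))) (B (M (nat_lit 396) (B (M (nat_lit 363) (B (L (nat_lit 395) ln12_15_7 ln12_15_7_ok) (M (nat_lit 364) (B (L (nat_lit 331) ln12_14_7 ln12_14_7_ok) (L (nat_lit 332) ln12_10_4 ln12_10_4_ok))))) (M (nat_lit 523) (B (L (nat_lit 491) ln12_12_5 ln12_12_5_ok) (M (nat_lit 524) (B (L (nat_lit 555) ln12_13_5 ln12_13_5_ok) (L (nat_lit 556) ln12_17_6 ln12_17_6_ok))))))) (M (nat_lit 396) (B (M (nat_lit 365) (B (L (nat_lit 397) ln12_15_6 ln12_15_6_ok)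 (M (nat_lit 364) (B (L (nat_lit 332) ln12_10_4 ln12_10_4_ok) (L (nat_lit 333) ln12_14_6 ln12_14_6_ok))))) (B (M (nat_lit 364) (B (M (nat_lit 363) (B (L (nat_lit 331) ln12_14_7 ln12_14_7_ok) (L (nat_lit 395) ln12_15_7 ln12_15_7_ok))) (M (nat_lit 365) (B (L (nat_lit 333) ln12_14_6 ln12_14_6_ok) (L (nat_lit 397) ln12_15_6 ln12_15_6_ok))))) (B (M (nat_lit 363) (B (L (nat_lit 395) ln12_15_7 ln12_15_7_ok) (M (nat_lit 364) (B (L (nat_lit 331) ln12_14_7 ln12_14_7_ok) (L (nat_lit 332) ln12_10_4 ln12_10_4_ok))))) (M (nat_lit 397) (B (L (nat_lit 365) ln12_15_6 ln12_15_6_ok) (M (nat_lit 395) (B (L (nat_lit 363) ln12_15_7 ln12_15_7_ok) (M (nat_lit 394) (B (L (nat_lit 393) ln9_12_0 ln9_12_0_ok) (L (nat_lit 430) ln10_12_0 ln10_12_0_ok))))))))))))))) (B c20_n5659 (M (nat_lit 364) (B (M (nat_lit 365) (B (M (nat_lit 332) (B (L (nat_lit 397) ln13_14_7 ln13_14_7_ok) (L (nat_lit 396) ln12_10_4 ln12_10_4_ok))) (B (M (nat_lit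 333) (B (L (nat_lit 396) ln12_14_6 ln12_14_6_ok) (L (nat_lit 397) ln13_10_5 ln13_10_5_ok))) (B (M (nat_lit 397) (B (L (nat_lit 332) ln13_14_7 ln13_14_7_ok) (L (nat_lit 333) ln13_10_5 ln13_10_5_ok))) (M (nat_lit 396) (B (L (nat_lit 332) ln12_10_4 ln12_10_4_ok) (L (nat_lit 333) ln12_14_6 ln12_14_6_ok))))))) (B (M (nat_lit 459) (B (M (nat_lit 458) (B (L (nat_lit 457) ln9_14_2 ln9_14_2_ok) (L (nat_lit 430) ln10_14_2 ln10_14_2_ok))) (M (nat_lit 462) (B (M (nat_lit 491) (B (L (nat_lit 396) ln12_11_5 ln12_11_5_ok) (L (nat_lit 490) ln14_14_1 ln14_14_1_ok))) (M (nat_lit 463) (B (L (nat_lit 464) ln16_14_3 ln16_14_3_ok) (M (nat_lit 495) (B (L (nat_lit 494) ln11_14_0 ln11_14_0_ok) (L (nat_lit 496) ln12_14_0 ln12_14_0_ok))))))))) (K (nat_lit 8931394246223919741660702096049187037569239149349323820819443391347566178580932780617771503995222842590588284166261386642482162932658470912) (nat_lit 359625433082366974658082626514160047307198530376744638940637891322401686461005351340730759580172907055692463369489514701527038977608444686410056728576)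 (nat_lit 359625433082366974658082626514160047307198530376744638940637891322401686461005351340730759580172907055692463369489514701527038977608444686410056728576) c20_s5818)))))))))))) (nat_lit 5954262831509113917970671778902343783532342804327837356357830143065656733685921768742376304727131933651871260571575937852568135413341880320) (nat_lit 1297299583834455937260783341367930204799613692359175434782559337528237342776072778122484569297420167484204325171318379054843788025970181933573536425801988389042875531264) (nat_lit 1297299583834455937260783341367930204799613692359175434782559337528237342776072778122484569297420167484204325171318379054843788025970181933573536425801988389042875531264) (by decide +kernel)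
theorem c20_s5977 : Sem (nat_lit 5954262831509113917970671778902343783532342804327837356357830143065656733685921768742376304727131933651871260571575937852568135413341880320) (nat_lit 353808977423126669396476404671405958095515504754616468768491210786982240220073993989252226932327647724510887214428200859999041929947516999772671079999444007404223594496) (nat_lit 353808977423126669396476404671405958095515504754616468768491210786982240220073993989252226932327647724510887214428200859999041929947516999772671079999444007404223594496) :=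
  sem_of_chk (M (nat_lit 460) (B (M (nat_lit 492) (B (M (nat_lit 524) (B (L (nat_lit 397) ln12_16_6 ln12_16_6_ok) (L (nat_lit 556) ln12_17_6 ln12_17_6_ok))) (M (nat_lit 396) (B (M (nat_lit 491) (B (L (nat_lit 523) ln12_12_5 ln12_12_5_ok) (M (nat_lit 364) (B (L (nat_lit 332) ln12_10_4 ln12_10_4_ok) (L (nat_lit 459) ln12_11_5 ln12_11_5_ok))))) (B (M (nat_lit 364) (B (M (nat_lit 363) (B (L (nat_lit 331) ln12_14_7 ln12_14_7_ok) (L (nat_lit 395) ln12_15_7 ln12_15_7_ok))) (M (nat_lit 491) (B (L (nat_lit 459) ln12_11_5 ln12_11_5_ok) (L (nat_lit 523) ln12_12_5 ln12_12_5_ok))))) (B (M (nat_lit 491) (B (L (nat_lit 523) ln12_12_5 ln12_12_5_ok) (M (nat_lit 462) (B (L (nat_lit 463) ln15_14_1 ln15_14_1_ok) (M (nat_lit 490) (B (L (nat_lit 459) ln14_14_1 ln14_14_1_ok) (L (nat_lit 489) ln9_15_2 ln9_15_2_ok))))))) (M (nat_lit 363) (B (L (nat_lit 395) ln12_15_7 ln12_15_7_ok) (M (nat_lit 364) (B (L (nat_lit 331) ln12_14_7 ln12_14_7_ok)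 (L (nat_lit 332) ln12_10_4 ln12_10_4_ok))))))))))) (B (M (nat_lit 492) (B (M (nat_lit 397) (B (L (nat_lit 365) ln13_11_5 ln13_11_5_ok) (L (nat_lit 524) ln12_16_6 ln12_16_6_ok))) (B (M (nat_lit 524) (B (L (nat_lit 397) ln12_16_6 ln12_16_6_ok) (L (nat_lit 556) ln12_17_6 ln12_17_6_ok))) (B (M (nat_lit 427) (B (M (nat_lit 524) (B (L (nat_lit 395) ln12_16_7 ln12_16_7_ok) (L (nat_lit 556) ln12_17_6 ln12_17_6_ok))) (M (nat_lit 462) (B (L (nat_lit 426) ln10_13_0 ln10_13_0_ok) (L (nat_lit 463) ln15_14_3 ln15_14_3_ok))))) (M (nat_lit 396) (B (M (nat_lit 365) (B (L (nat_lit 397) ln12_15_6 ln12_15_6_ok) (M (nat_lit 364) (B (L (nat_lit 332) ln12_10_4 ln12_10_4_ok) (L (nat_lit 333) ln12_14_6 ln12_14_6_ok))))) (B (M (nat_lit 364) (B (M (nat_lit 365) (B (L (nat_lit 333) ln12_14_6 ln12_14_6_ok) (L (nat_lit 397) ln12_15_6 ln12_15_6_ok))) (M (nat_lit 491) (B (L (nat_lit 459) ln12_11_5 ln12_11_5_ok) (L (nat_lit 523) ln12_12_5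 ln12_12_5_ok))))) (B (M (nat_lit 491) (B (L (nat_lit 523) ln12_12_5 ln12_12_5_ok) (M (nat_lit 364) (B (L (nat_lit 332) ln12_10_4 ln12_10_4_ok) (L (nat_lit 459) ln12_11_5 ln12_11_5_ok))))) (M (nat_lit 491) (B (L (nat_lit 523) ln12_12_5 ln12_12_5_ok) (M (nat_lit 462) (B (L (nat_lit 463) ln15_14_1 ln15_14_1_ok) (M (nat_lit 490) (B (L (nat_lit 459) ln14_14_1 ln14_14_1_ok) (L (nat_lit 489) ln9_15_2 ln9_15_2_ok))))))))))))))) (B (M (nat_lit 492) (B (M (nat_lit 397) (B (L (nat_lit 365) ln13_11_5 ln13_11_5_ok) (L (nat_lit 524) ln12_16_6 ln12_16_6_ok))) (B (M (nat_lit 524) (B (L (nat_lit 397) ln12_16_6 ln12_16_6_ok) (L (nat_lit 556) ln12_17_6 ln12_17_6_ok))) (B (M (nat_lit 427) (B (M (nat_lit 524) (B (L (nat_lit 395) ln12_16_7 ln12_16_7_ok) (L (nat_lit 556) ln12_17_6 ln12_17_6_ok))) (M (nat_lit 462) (B (L (nat_lit 426) ln10_13_0 ln10_13_0_ok) (L (nat_lit 463) ln15_14_3 ln15_14_3_ok))))) (M (nat_lit 462) (B (M (nat_lit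 427) (B (L (nat_lit 426) ln10_13_0 ln10_13_0_ok) (L (nat_lit 463) ln15_14_3 ln15_14_3_ok))) (B (M (nat_lit 463) (B (L (nat_lit 427) ln15_14_3 ln15_14_3_ok) (L (nat_lit 491) ln15_14_1 ln15_14_1_ok))) (B (M (nat_lit 463) (B (L (nat_lit 464) ln16_14_3 ln16_14_3_ok) (L (nat_lit 491) ln15_14_1 ln15_14_1_ok))) (M (nat_lit 459) (B (M (nat_lit 458) (B (L (nat_lit 457) ln9_14_2 ln9_14_2_ok) (M (nat_lit 426) (B (L (nat_lit 425) ln13_14_3 ln13_14_3_ok) (L (nat_lit 427) ln10_13_0 ln10_13_0_ok))))) (M (nat_lit 491) (B (L (nat_lit 490) ln14_14_1 ln14_14_1_ok) (M (nat_lit 396) (B (L (nat_lit 364) ln12_11_5 ln12_11_5_ok) (L (nat_lit 523) ln12_12_5 ln12_12_5_ok))))))))))))))) (B (M (nat_lit 492) (B (M (nat_lit 397) (B (L (nat_lit 365) ln13_11_5 ln13_11_5_ok) (L (nat_lit 524) ln12_16_6 ln12_16_6_ok))) (B (M (nat_lit 524) (B (L (nat_lit 397) ln12_16_6 ln12_16_6_ok) (L (nat_lit 556) ln12_17_6 ln12_17_6_ok))) (B (M (nat_lit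 427) (B (M (nat_lit 524) (B (L (nat_lit 395) ln12_16_7 ln12_16_7_ok) (L (nat_lit 556) ln12_17_6 ln12_17_6_ok))) (M (nat_lit 462) (B (L (nat_lit 426) ln10_13_0 ln10_13_0_ok) (L (nat_lit 463) ln15_14_3 ln15_14_3_ok))))) (M (nat_lit 462) (B (M (nat_lit 427) (B (L (nat_lit 426) ln10_13_0 ln10_13_0_ok) (L (nat_lit 463) ln15_14_3 ln15_14_3_ok))) (B (M (nat_lit 463) (B (L (nat_lit 427) ln15_14_3 ln15_14_3_ok) (L (nat_lit 491) ln15_14_1 ln15_14_1_ok))) (B (M (nat_lit 463) (B (L (nat_lit 464) ln16_14_3 ln16_14_3_ok) (L (nat_lit 491) ln15_14_1 ln15_14_1_ok))) (M (nat_lit 459) (B (M (nat_lit 458) (B (L (nat_lit 457) ln9_14_2 ln9_14_2_ok) (M (nat_lit 426) (B (L (nat_lit 425) ln13_14_3 ln13_14_3_ok) (L (nat_lit 427) ln10_13_0 ln10_13_0_ok))))) (M (nat_lit 491) (B (L (nat_lit 490) ln14_14_1 ln14_14_1_ok) (M (nat_lit 523) (B (L (nat_lit 396) ln12_12_5 ln12_12_5_ok) (L (nat_lit 555) ln11_17_6 ln11_17_6_ok)))))))))))))))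 (B (M (nat_lit 462) (B (M (nat_lit 427) (B (L (nat_lit 426) ln10_13_0 ln10_13_0_ok) (L (nat_lit 463) ln15_14_3 ln15_14_3_ok))) (B (M (nat_lit 463) (B (L (nat_lit 427) ln15_14_3 ln15_14_3_ok) (L (nat_lit 464) ln16_14_3 ln16_14_3_ok))) (B (M (nat_lit 492) (B (M (nat_lit 524) (B (L (nat_lit 397) ln12_16_6 ln12_16_6_ok) (L (nat_lit 556) ln12_17_6 ln12_17_6_ok))) (M (nat_lit 463) (B (L (nat_lit 464) ln16_14_3 ln16_14_3_ok) (L (nat_lit 491) ln15_14_1 ln15_14_1_ok))))) (M (nat_lit 459) (B (M (nat_lit 458) (B (L (nat_lit 457) ln9_14_2 ln9_14_2_ok) (M (nat_lit 426) (B (L (nat_lit 425) ln13_14_3 ln13_14_3_ok) (L (nat_lit 427) ln10_13_0 ln10_13_0_ok))))) (B (M (nat_lit 458) (B (L (nat_lit 457) ln9_14_2 ln9_14_2_ok) (M (nat_lit 490) (B (L (nat_lit 489) ln13_14_1 ln13_14_1_ok) (L (nat_lit 491) ln14_14_1 ln14_14_1_ok))))) (B (M (nat_lit 458) (B (M (nat_lit 426) (B (L (nat_lit 425) ln13_14_3 ln13_14_3_ok) (L (nat_lit 427)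 ln10_13_0 ln10_13_0_ok))) (M (nat_lit 490) (B (L (nat_lit 489) ln13_14_1 ln13_14_1_ok) (L (nat_lit 491) ln14_14_1 ln14_14_1_ok))))) (M (nat_lit 427) (B (L (nat_lit 426) ln10_13_0 ln10_13_0_ok) (M (nat_lit 491) (B (L (nat_lit 490) ln14_14_1 ln14_14_1_ok) (M (nat_lit 396) (B (L (nat_lit 364) ln12_11_5 ln12_11_5_ok) (L (nat_lit 523) ln11_16_6 ln11_16_6_ok))))))))))))))) (B (M (nat_lit 459) (B (M (nat_lit 458) (B (L (nat_lit 457) ln9_14_2 ln9_14_2_ok) (M (nat_lit 426) (B (L (nat_lit 425) ln13_14_3 ln13_14_3_ok) (M (nat_lit 462) (B (L (nat_lit 427) ln10_13_0 ln10_13_0_ok) (M (nat_lit 490) (B (L (nat_lit 489) ln13_14_1 ln13_14_1_ok) (L (nat_lit 491) ln14_14_1 ln14_14_1_ok))))))))) (B (M (nat_lit 458) (B (L (nat_lit 457) ln9_14_2 ln9_14_2_ok) (M (nat_lit 462) (B (M (nat_lit 463) (B (L (nat_lit 427) ln15_14_3 ln15_14_3_ok) (L (nat_lit 464) ln16_14_3 ln16_14_3_ok))) (M (nat_lit 490) (B (L (nat_lit 489) ln13_14_1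 ln13_14_1_ok) (L (nat_lit 491) ln14_14_1 ln14_14_1_ok))))))) (B (M (nat_lit 462) (B (M (nat_lit 458) (B (L (nat_lit 457) ln9_14_2 ln9_14_2_ok) (M (nat_lit 490) (B (L (nat_lit 489) ln13_14_1 ln13_14_1_ok) (L (nat_lit 491) ln14_14_1 ln14_14_1_ok))))) (M (nat_lit 463) (B (L (nat_lit 464) ln16_14_3 ln16_14_3_ok) (M (nat_lit 495) (B (L (nat_lit 494) ln11_14_0 ln11_14_0_ok) (L (nat_lit 496) ln12_14_0 ln12_14_0_ok))))))) (B (M (nat_lit 427) (B (M (nat_lit 426) (B (L (nat_lit 425) ln9_13_0 ln9_13_0_ok) (L (nat_lit 462) ln10_13_0 ln10_13_0_ok))) (B (M (nat_lit 462) (B (L (nat_lit 426) ln10_13_0 ln10_13_0_ok) (L (nat_lit 463) ln15_14_3 ln15_14_3_ok))) (B (M (nat_lit 524) (B (M (nat_lit 492) (B (L (nat_lit 395) ln12_16_7 ln12_16_7_ok) (L (nat_lit 397) ln12_16_6 ln12_16_6_ok))) (B (M (nat_lit 492) (B (L (nat_lit 397) ln12_16_6 ln12_16_6_ok) (L (nat_lit 556) ln12_17_7 ln12_17_7_ok))) (B (M (nat_lit 492) (B (L (nat_lit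 395) ln12_16_7 ln12_16_7_ok) (L (nat_lit 556) ln12_17_7 ln12_17_7_ok))) (M (nat_lit 491) (B (M (nat_lit 523) (B (L (nat_lit 556) ln11_13_4 ln11_13_4_ok) (L (nat_lit 555) ln11_17_6 ln11_17_6_ok))) (M (nat_lit 462) (B (L (nat_lit 463) ln15_14_3 ln15_14_3_ok) (L (nat_lit 490) ln14_14_1 ln14_14_1_ok))))))))) (M (nat_lit 397) (B (M (nat_lit 365) (B (L (nat_lit 333) ln13_10_5 ln13_10_5_ok) (L (nat_lit 492) ln13_11_5 ln13_11_5_ok))) (M (nat_lit 426) (B (L (nat_lit 398) ln10_13_2 ln10_13_2_ok) (L (nat_lit 425) ln9_13_0 ln9_13_0_ok))))))))) (B (M (nat_lit 458) (B (L (nat_lit 457) ln9_14_2 ln9_14_2_ok) (M (nat_lit 426) (B (L (nat_lit 425) ln13_14_3 ln13_14_3_ok) (M (nat_lit 427) (B (M (nat_lit 394) (B (L (nat_lit 393) ln13_13_3 ln13_13_3_ok) (M (nat_lit 362) (B (L (nat_lit 330) ln10_10_4 ln10_10_4_ok) (L (nat_lit 491) ln10_11_4 ln10_11_4_ok))))) (M (nat_lit 490) (B (L (nat_lit 489) ln13_14_1 ln13_14_1_ok) (M (nat_lit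 395) (B (L (nat_lit 363) ln11_11_5 ln11_11_5_ok) (L (nat_lit 522) ln10_16_6 ln10_16_6_ok))))))))))) (M (nat_lit 462) (B (M (nat_lit 427) (B (L (nat_lit 426) ln10_13_0 ln10_13_0_ok) (L (nat_lit 463) ln15_14_3 ln15_14_3_ok))) (B (M (nat_lit 463) (B (L (nat_lit 427) ln15_14_3 ln15_14_3_ok) (L (nat_lit 464) ln16_14_3 ln16_14_3_ok))) (B (M (nat_lit 463) (B (L (nat_lit 464) ln16_14_3 ln16_14_3_ok) (M (nat_lit 495) (B (L (nat_lit 494) ln11_14_0 ln11_14_0_ok) (L (nat_lit 496) ln12_14_0 ln12_14_0_ok))))) (M (nat_lit 458) (B (L (nat_lit 457) ln9_14_2 ln9_14_2_ok) (M (nat_lit 426) (B (L (nat_lit 425) ln13_14_3 ln13_14_3_ok) (L (nat_lit 427) ln10_13_0 ln10_13_0_ok))))))))))))))) (B (M (nat_lit 462) (B (M (nat_lit 427) (B (L (nat_lit 426) ln10_13_0 ln10_13_0_ok) (L (nat_lit 463) ln15_14_3 ln15_14_3_ok))) (B (M (nat_lit 463) (B (L (nat_lit 427) ln15_14_3 ln15_14_3_ok) (L (nat_lit 464) ln16_14_3 ln16_14_3_ok))) (B (M (nat_lit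 463) (B (L (nat_lit 464) ln16_14_3 ln16_14_3_ok) (M (nat_lit 459) (B (M (nat_lit 491) (B (L (nat_lit 490) ln14_14_1 ln14_14_1_ok) (L (nat_lit 492) ln15_14_1 ln15_14_1_ok))) (M (nat_lit 495) (B (L (nat_lit 494) ln11_14_0 ln11_14_0_ok) (L (nat_lit 496) ln12_14_0 ln12_14_0_ok))))))) (M (nat_lit 459) (B (M (nat_lit 458) (B (L (nat_lit 457) ln9_14_2 ln9_14_2_ok) (M (nat_lit 426) (B (L (nat_lit 425) ln13_14_3 ln13_14_3_ok) (L (nat_lit 427) ln10_13_0 ln10_13_0_ok))))) (B (M (nat_lit 458) (B (L (nat_lit 457) ln9_14_2 ln9_14_2_ok) (M (nat_lit 490) (B (L (nat_lit 489) ln13_14_1 ln13_14_1_ok) (L (nat_lit 491) ln14_14_1 ln14_14_1_ok))))) (B (M (nat_lit 458) (B (M (nat_lit 426) (B (L (nat_lit 425) ln13_14_3 ln13_14_3_ok) (L (nat_lit 427) ln10_13_0 ln10_13_0_ok))) (M (nat_lit 490) (B (L (nat_lit 489) ln13_14_1 ln13_14_1_ok) (L (nat_lit 491) ln14_14_1 ln14_14_1_ok))))) (M (nat_lit 427) (B (L (nat_lit 426) ln10_13_0 ln10_13_0_ok)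 (M (nat_lit 491) (B (L (nat_lit 490) ln14_14_1 ln14_14_1_ok) (M (nat_lit 523) (B (L (nat_lit 396) ln11_16_6 ln11_16_6_ok) (L (nat_lit 555) ln11_17_6 ln11_17_6_ok))))))))))))))) (B (M (nat_lit 492) (B (M (nat_lit 397) (B (L (nat_lit 365) ln13_11_5 ln13_11_5_ok) (L (nat_lit 524) ln12_16_6 ln12_16_6_ok))) (B (M (nat_lit 524) (B (L (nat_lit 397) ln12_16_6 ln12_16_6_ok) (L (nat_lit 556) ln12_17_6 ln12_17_6_ok))) (B (M (nat_lit 427) (B (M (nat_lit 524) (B (L (nat_lit 395) ln12_16_7 ln12_16_7_ok) (L (nat_lit 556) ln12_17_6 ln12_17_6_ok))) (M (nat_lit 462) (B (L (nat_lit 426) ln10_13_0 ln10_13_0_ok) (L (nat_lit 463) ln15_14_3 ln15_14_3_ok))))) (M (nat_lit 396) (B (M (nat_lit 365) (B (L (nat_lit 397) ln12_15_6 ln12_15_6_ok) (M (nat_lit 364) (B (L (nat_lit 332) ln12_10_4 ln12_10_4_ok) (L (nat_lit 333) ln12_14_6 ln12_14_6_ok))))) (B (M (nat_lit 364) (B (M (nat_lit 363) (B (L (nat_lit 331) ln12_14_7 ln12_14_7_ok) (L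 (nat_lit 395) ln12_15_7 ln12_15_7_ok))) (M (nat_lit 365) (B (L (nat_lit 333) ln12_14_6 ln12_14_6_ok) (L (nat_lit 397) ln12_15_6 ln12_15_6_ok))))) (B (M (nat_lit 363) (B (L (nat_lit 395) ln12_15_7 ln12_15_7_ok) (M (nat_lit 364) (B (L (nat_lit 331) ln12_14_7 ln12_14_7_ok) (L (nat_lit 332) ln12_10_4 ln12_10_4_ok))))) (M (nat_lit 397) (B (L (nat_lit 365) ln12_15_6 ln12_15_6_ok) (M (nat_lit 426) (B (M (nat_lit 427) (B (L (nat_lit 425) ln9_13_2 ln9_13_2_ok) (L (nat_lit 398) ln10_13_2 ln10_13_2_ok))) (B (M (nat_lit 427) (B (L (nat_lit 425) ln9_13_2 ln9_13_2_ok) (L (nat_lit 462) ln10_13_0 ln10_13_0_ok))) (B (M (nat_lit 427) (B (L (nat_lit 398) ln10_13_2 ln10_13_2_ok) (L (nat_lit 462) ln10_13_0 ln10_13_0_ok))) (M (nat_lit 395) (B (L (nat_lit 363) ln12_15_7 ln12_15_7_ok) (M (nat_lit 394) (B (L (nat_lit 393) ln9_12_0 ln9_12_0_ok) (L (nat_lit 425) ln13_12_1 ln13_12_1_ok))))))))))))))))))) (B (M (nat_lit 397) (B (M (nat_lit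 365) (B (L (nat_lit 333) ln13_10_5 ln13_10_5_ok) (L (nat_lit 492) ln13_11_5 ln13_11_5_ok))) (B (M (nat_lit 492) (B (L (nat_lit 365) ln13_11_5 ln13_11_5_ok) (L (nat_lit 524) ln12_16_6 ln12_16_6_ok))) (B (M (nat_lit 396) (B (M (nat_lit 364) (B (L (nat_lit 332) ln12_10_4 ln12_10_4_ok) (M (nat_lit 363) (B (L (nat_lit 331) ln12_14_7 ln12_14_7_ok) (M (nat_lit 492) (B (L (nat_lit 395) ln12_15_7 ln12_15_7_ok) (L (nat_lit 524) ln12_16_6 ln12_16_6_ok))))))) (B (M (nat_lit 364) (B (L (nat_lit 332) ln12_10_4 ln12_10_4_ok) (M (nat_lit 492) (B (L (nat_lit 524) ln12_16_6 ln12_16_6_ok) (M (nat_lit 491) (B (L (nat_lit 459) ln12_11_5 ln12_11_5_ok) (L (nat_lit 523) ln12_12_5 ln12_12_5_ok))))))) (B (M (nat_lit 492) (B (L (nat_lit 524) ln12_16_6 ln12_16_6_ok) (M (nat_lit 364) (B (M (nat_lit 363) (B (L (nat_lit 331) ln12_14_7 ln12_14_7_ok) (L (nat_lit 395) ln12_15_7 ln12_15_7_ok))) (M (nat_lit 491) (B (L (nat_lit 459) ln12_11_5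 ln12_11_5_ok) (L (nat_lit 523) ln12_12_5 ln12_12_5_ok))))))) (B (M (nat_lit 395) (B (M (nat_lit 492) (B (L (nat_lit 363) ln12_15_7 ln12_15_7_ok) (L (nat_lit 524) ln12_16_6 ln12_16_6_ok))) (M (nat_lit 398) (B (M (nat_lit 427) (B (L (nat_lit 426) ln14_12_1 ln14_12_1_ok) (L (nat_lit 399) ln15_12_1 ln15_12_1_ok))) (B (M (nat_lit 394) (B (L (nat_lit 393) ln9_12_0 ln9_12_0_ok) (M (nat_lit 426) (B (L (nat_lit 425) ln13_12_1 ln13_12_1_ok) (L (nat_lit 427) ln14_12_1 ln14_12_1_ok))))) (B (M (nat_lit 399) (B (L (nat_lit 427) ln15_12_1 ln15_12_1_ok) (L (nat_lit 400) ln16_12_1 ln16_12_1_ok))) (M (nat_lit 367) (B (L (nat_lit 366) ln11_12_2 ln11_12_2_ok) (M (nat_lit 399) (B (L (nat_lit 368) ln12_12_2 ln12_12_2_ok) (L (nat_lit 400) ln16_12_1 ln16_12_1_ok))))))))))) (M (nat_lit 364) (B (L (nat_lit 332) ln12_10_4 ln12_10_4_ok) (M (nat_lit 363) (B (L (nat_lit 331) ln12_14_7 ln12_14_7_ok) (M (nat_lit 398) (B (L (nat_lit 399)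 ln15_12_3 ln15_12_3_ok) (M (nat_lit 362) (B (L (nat_lit 361) ln9_11_0 ln9_11_0_ok) (L (nat_lit 395) ln14_12_3 ln14_12_3_ok)))))))))))))) (M (nat_lit 396) (B (M (nat_lit 365) (B (L (nat_lit 333) ln13_10_5 ln13_10_5_ok) (M (nat_lit 366) (B (L (nat_lit 334) ln13_14_6 ln13_14_6_ok) (M (nat_lit 395) (B (L (nat_lit 394) ln10_12_2 ln10_12_2_ok) (M (nat_lit 367) (B (L (nat_lit 368) ln16_11_1 ln16_11_1_ok) (L (nat_lit 398) ln11_12_2 ln11_12_2_ok))))))))) (B (M (nat_lit 364) (B (L (nat_lit 332) ln12_10_4 ln12_10_4_ok) (M (nat_lit 363) (B (L (nat_lit 331) ln12_14_7 ln12_14_7_ok) (M (nat_lit 398) (B (L (nat_lit 399) ln15_12_3 ln15_12_3_ok) (M (nat_lit 362) (B (L (nat_lit 361) ln9_11_0 ln9_11_0_ok) (L (nat_lit 395) ln14_12_3 ln14_12_3_ok))))))))) (B (M (nat_lit 365) (B (L (nat_lit 333) ln13_10_5 ln13_10_5_ok) (M (nat_lit 364) (B (L (nat_lit 332) ln13_14_7 ln13_14_7_ok) (M (nat_lit 363) (B (L (nat_lit 331) ln12_14_7 ln12_14_7_ok)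 (M (nat_lit 362) (B (L (nat_lit 361) ln9_11_0 ln9_11_0_ok) (L (nat_lit 398) ln10_11_0 ln10_11_0_ok))))))))) (M (nat_lit 365) (B (L (nat_lit 333) ln13_10_5 ln13_10_5_ok) (M (nat_lit 364) (B (L (nat_lit 332) ln13_14_7 ln13_14_7_ok) (M (nat_lit 366) (B (L (nat_lit 334) ln13_14_6 ln13_14_6_ok) (M (nat_lit 367) (B (L (nat_lit 395) ln15_11_1 ln15_11_1_ok) (L (nat_lit 368) ln16_11_1 ln16_11_1_ok))))))))))))))))) (M (nat_lit 462) (B (M (nat_lit 427) (B (L (nat_lit 426) ln10_13_0 ln10_13_0_ok) (L (nat_lit 463) ln15_14_3 ln15_14_3_ok))) (B (M (nat_lit 463) (B (L (nat_lit 427) ln15_14_3 ln15_14_3_ok) (L (nat_lit 464) ln16_14_3 ln16_14_3_ok))) (B (M (nat_lit 459) (B (M (nat_lit 458) (B (L (nat_lit 457) ln9_14_2 ln9_14_2_ok) (M (nat_lit 490) (B (L (nat_lit 489) ln13_14_1 ln13_14_1_ok) (L (nat_lit 491) ln14_14_1 ln14_14_1_ok))))) (M (nat_lit 463) (B (L (nat_lit 464) ln16_14_3 ln16_14_3_ok) (M (nat_lit 495) (B (L (nat_lit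 494) ln11_14_0 ln11_14_0_ok) (L (nat_lit 496) ln12_14_0 ln12_14_0_ok))))))) (M (nat_lit 459) (B (M (nat_lit 458) (B (L (nat_lit 457) ln9_14_2 ln9_14_2_ok) (M (nat_lit 426) (B (L (nat_lit 425) ln13_14_3 ln13_14_3_ok) (L (nat_lit 427) ln10_13_0 ln10_13_0_ok))))) (B (M (nat_lit 458) (B (L (nat_lit 457) ln9_14_2 ln9_14_2_ok) (M (nat_lit 490) (B (L (nat_lit 489) ln13_14_1 ln13_14_1_ok) (L (nat_lit 491) ln14_14_1 ln14_14_1_ok))))) (B (M (nat_lit 458) (B (M (nat_lit 426) (B (L (nat_lit 425) ln13_14_3 ln13_14_3_ok) (L (nat_lit 427) ln10_13_0 ln10_13_0_ok))) (M (nat_lit 490) (B (L (nat_lit 489) ln13_14_1 ln13_14_1_ok) (L (nat_lit 491) ln14_14_1 ln14_14_1_ok))))) (M (nat_lit 427) (B (L (nat_lit 426) ln10_13_0 ln10_13_0_ok) (M (nat_lit 491) (B (L (nat_lit 490) ln14_14_1 ln14_14_1_ok) (M (nat_lit 523) (B (L (nat_lit 396) ln11_16_6 ln11_16_6_ok) (L (nat_lit 555) ln11_17_6 ln11_17_6_ok))))))))))))))))))))))))) (nat_lit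 5954262831509113917970671778902343783532342804327837356357830143065656733685921768742376304727131933651871260571575937852568135413341880320) (nat_lit 353808977423126669396476404671405958095515504754616468768491210786982240220073993989252226932327647724510887214428200859999041929947516999772671079999444007404223594496) (nat_lit 353808977423126669396476404671405958095515504754616468768491210786982240220073993989252226932327647724510887214428200859999041929947516999772671079999444007404223594496) (by decide +kernel)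
theorem c20_s6026 : Sem (nat_lit 5954262831509113917970671778902343783532342804327837356357830143065656733685921768742376304727131933651871260571575937852568135413341880320) (nat_lit 353808977409397074076215185241070015073286037282363784419947754613646950322679784645817358183739125998627169539098957896770484884754832726569105237118390333472105299968) (nat_lit 353808977409397074076215185241070015073286037282363784419947754613646950322679784645817358183739125998627169539098957896770484884754832726569105237118390333472105299968) :=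
  sem_of_chk (M (nat_lit 460) (B (M (nat_lit 492) (B (M (nat_lit 524) (B (L (nat_lit 397) ln12_16_6 ln12_16_6_ok) (L (nat_lit 556) ln12_17_6 ln12_17_6_ok))) (M (nat_lit 396) (B (M (nat_lit 491) (B (L (nat_lit 523) ln12_12_5 ln12_12_5_ok) (M (nat_lit 364) (B (L (nat_lit 332) ln12_10_4 ln12_10_4_ok) (L (nat_lit 459) ln12_11_5 ln12_11_5_ok))))) (B (M (nat_lit 364) (B (M (nat_lit 363) (B (L (nat_lit 331) ln12_14_7 ln12_14_7_ok) (L (nat_lit 395) ln12_15_7 ln12_15_7_ok))) (M (nat_lit 491) (B (L (nat_lit 459) ln12_11_5 ln12_11_5_ok) (L (nat_lit 523) ln12_12_5 ln12_12_5_ok))))) (B (M (nat_lit 491) (B (L (nat_lit 523) ln12_12_5 ln12_12_5_ok) (M (nat_lit 462) (B (L (nat_lit 463) ln15_14_1 ln15_14_1_ok) (M (nat_lit 490) (B (L (nat_lit 459) ln14_14_1 ln14_14_1_ok) (L (nat_lit 489) ln9_15_2 ln9_15_2_ok))))))) (M (nat_lit 363) (B (L (nat_lit 395) ln12_15_7 ln12_15_7_ok) (M (nat_lit 364) (B (L (nat_lit 331) ln12_14_7 ln12_14_7_ok)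 (L (nat_lit 332) ln12_10_4 ln12_10_4_ok))))))))))) (B (M (nat_lit 459) (B (M (nat_lit 458) (B (L (nat_lit 430) ln10_14_2 ln10_14_2_ok) (M (nat_lit 426) (B (L (nat_lit 425) ln13_14_3 ln13_14_3_ok) (M (nat_lit 462) (B (L (nat_lit 427) ln10_13_0 ln10_13_0_ok) (M (nat_lit 490) (B (L (nat_lit 489) ln13_14_1 ln13_14_1_ok) (L (nat_lit 491) ln14_14_1 ln14_14_1_ok))))))))) (B (M (nat_lit 458) (B (L (nat_lit 430) ln10_14_2 ln10_14_2_ok) (M (nat_lit 462) (B (M (nat_lit 463) (B (L (nat_lit 427) ln15_14_3 ln15_14_3_ok) (L (nat_lit 464) ln16_14_3 ln16_14_3_ok))) (M (nat_lit 490) (B (L (nat_lit 489) ln13_14_1 ln13_14_1_ok) (L (nat_lit 491) ln14_14_1 ln14_14_1_ok))))))) (B (M (nat_lit 492) (B (M (nat_lit 397) (B (L (nat_lit 365) ln13_11_5 ln13_11_5_ok) (L (nat_lit 524) ln12_16_6 ln12_16_6_ok))) (M (nat_lit 491) (B (M (nat_lit 396) (B (L (nat_lit 364) ln12_11_5 ln12_11_5_ok) (L (nat_lit 523) ln12_12_5 ln12_12_5_ok))) (M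 (nat_lit 462) (B (L (nat_lit 490) ln14_14_1 ln14_14_1_ok) (L (nat_lit 463) ln15_14_1 ln15_14_1_ok))))))) (M (nat_lit 427) (B (M (nat_lit 397) (B (M (nat_lit 365) (B (L (nat_lit 333) ln13_10_5 ln13_10_5_ok) (L (nat_lit 492) ln13_11_5 ln13_11_5_ok))) (M (nat_lit 426) (B (L (nat_lit 398) ln10_13_2 ln10_13_2_ok) (L (nat_lit 425) ln9_13_0 ln9_13_0_ok))))) (B (M (nat_lit 426) (B (L (nat_lit 425) ln9_13_0 ln9_13_0_ok) (M (nat_lit 430) (B (L (nat_lit 458) ln14_13_1 ln14_13_1_ok) (M (nat_lit 394) (B (L (nat_lit 393) ln13_13_3 ln13_13_3_ok) (L (nat_lit 395) ln14_13_3 ln14_13_3_ok))))))) (M (nat_lit 430) (B (L (nat_lit 458) ln14_13_1 ln14_13_1_ok) (M (nat_lit 395) (B (L (nat_lit 394) ln14_13_3 ln14_13_3_ok) (M (nat_lit 492) (B (L (nat_lit 363) ln11_11_4 ln11_11_4_ok) (L (nat_lit 524) ln12_16_7 ln12_16_7_ok)))))))))))))) (B (M (nat_lit 462) (B (M (nat_lit 427) (B (L (nat_lit 426) ln10_13_0 ln10_13_0_ok) (L (nat_lit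 463) ln15_14_3 ln15_14_3_ok))) (B (M (nat_lit 463) (B (L (nat_lit 427) ln15_14_3 ln15_14_3_ok) (L (nat_lit 464) ln16_14_3 ln16_14_3_ok))) (B (M (nat_lit 492) (B (M (nat_lit 524) (B (L (nat_lit 397) ln12_16_6 ln12_16_6_ok) (L (nat_lit 556) ln12_17_6 ln12_17_6_ok))) (M (nat_lit 463) (B (L (nat_lit 464) ln16_14_3 ln16_14_3_ok) (L (nat_lit 491) ln15_14_1 ln15_14_1_ok))))) (M (nat_lit 459) (B (M (nat_lit 426) (B (L (nat_lit 427) ln10_13_0 ln10_13_0_ok) (M (nat_lit 458) (B (L (nat_lit 425) ln13_14_3 ln13_14_3_ok) (L (nat_lit 430) ln10_14_2 ln10_14_2_ok))))) (B (M (nat_lit 458) (B (L (nat_lit 430) ln10_14_2 ln10_14_2_ok) (M (nat_lit 490) (B (L (nat_lit 489) ln13_14_1 ln13_14_1_ok) (L (nat_lit 491) ln14_14_1 ln14_14_1_ok))))) (B (M (nat_lit 458) (B (M (nat_lit 426) (B (L (nat_lit 425) ln13_14_3 ln13_14_3_ok) (L (nat_lit 427) ln10_13_0 ln10_13_0_ok))) (M (nat_lit 490) (B (L (nat_lit 489) ln13_14_1 ln13_14_1_ok) (L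 (nat_lit 491) ln14_14_1 ln14_14_1_ok))))) (M (nat_lit 427) (B (L (nat_lit 426) ln10_13_0 ln10_13_0_ok) (M (nat_lit 491) (B (L (nat_lit 490) ln14_14_1 ln14_14_1_ok) (M (nat_lit 523) (B (L (nat_lit 396) ln11_16_6 ln11_16_6_ok) (L (nat_lit 555) ln11_17_6 ln11_17_6_ok))))))))))))))) (B (M (nat_lit 459) (B (M (nat_lit 458) (B (L (nat_lit 430) ln10_14_2 ln10_14_2_ok) (M (nat_lit 426) (B (L (nat_lit 425) ln13_14_3 ln13_14_3_ok) (M (nat_lit 462) (B (L (nat_lit 427) ln10_13_0 ln10_13_0_ok) (M (nat_lit 490) (B (L (nat_lit 489) ln13_14_1 ln13_14_1_ok) (L (nat_lit 491) ln14_14_1 ln14_14_1_ok))))))))) (B (M (nat_lit 458) (B (L (nat_lit 430) ln10_14_2 ln10_14_2_ok) (M (nat_lit 462) (B (M (nat_lit 463) (B (L (nat_lit 427) ln15_14_3 ln15_14_3_ok) (L (nat_lit 464) ln16_14_3 ln16_14_3_ok))) (M (nat_lit 490) (B (L (nat_lit 489) ln13_14_1 ln13_14_1_ok) (L (nat_lit 491) ln14_14_1 ln14_14_1_ok))))))) (B (M (nat_lit 462) (B (M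 (nat_lit 458) (B (L (nat_lit 430) ln10_14_2 ln10_14_2_ok) (M (nat_lit 490) (B (L (nat_lit 489) ln13_14_1 ln13_14_1_ok) (L (nat_lit 491) ln14_14_1 ln14_14_1_ok))))) (B (M (nat_lit 463) (B (L (nat_lit 464) ln16_14_3 ln16_14_3_ok) (M (nat_lit 491) (B (L (nat_lit 490) ln14_14_1 ln14_14_1_ok) (L (nat_lit 492) ln15_14_1 ln15_14_1_ok))))) (M (nat_lit 463) (B (L (nat_lit 464) ln16_14_3 ln16_14_3_ok) (M (nat_lit 495) (B (L (nat_lit 494) ln11_14_0 ln11_14_0_ok) (L (nat_lit 496) ln12_14_0 ln12_14_0_ok)))))))) (B (M (nat_lit 427) (B (M (nat_lit 426) (B (L (nat_lit 425) ln9_13_0 ln9_13_0_ok) (L (nat_lit 462) ln10_13_0 ln10_13_0_ok))) (B (M (nat_lit 462) (B (L (nat_lit 426) ln10_13_0 ln10_13_0_ok) (L (nat_lit 463) ln15_14_3 ln15_14_3_ok))) (B (M (nat_lit 524) (B (M (nat_lit 492) (B (L (nat_lit 395) ln12_16_7 ln12_16_7_ok) (L (nat_lit 397) ln12_16_6 ln12_16_6_ok))) (B (M (nat_lit 492) (B (L (nat_lit 397) ln12_16_6 ln12_16_6_ok)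 (L (nat_lit 556) ln12_17_7 ln12_17_7_ok))) (B (M (nat_lit 492) (B (L (nat_lit 395) ln12_16_7 ln12_16_7_ok) (L (nat_lit 556) ln12_17_7 ln12_17_7_ok))) (M (nat_lit 491) (B (M (nat_lit 523) (B (L (nat_lit 556) ln11_13_4 ln11_13_4_ok) (L (nat_lit 555) ln11_17_6 ln11_17_6_ok))) (M (nat_lit 462) (B (L (nat_lit 463) ln15_14_3 ln15_14_3_ok) (L (nat_lit 490) ln14_14_1 ln14_14_1_ok))))))))) (M (nat_lit 397) (B (M (nat_lit 365) (B (L (nat_lit 333) ln13_10_5 ln13_10_5_ok) (L (nat_lit 492) ln13_11_5 ln13_11_5_ok))) (M (nat_lit 426) (B (L (nat_lit 398) ln10_13_2 ln10_13_2_ok) (L (nat_lit 425) ln9_13_0 ln9_13_0_ok))))))))) (M (nat_lit 427) (B (M (nat_lit 397) (B (M (nat_lit 365) (B (L (nat_lit 333) ln13_10_5 ln13_10_5_ok) (L (nat_lit 492) ln13_11_5 ln13_11_5_ok))) (M (nat_lit 426) (B (L (nat_lit 398) ln10_13_2 ln10_13_2_ok) (L (nat_lit 425) ln9_13_0 ln9_13_0_ok))))) (B (M (nat_lit 395) (B (M (nat_lit 363) (B (L (nat_lit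 331) ln11_10_4 ln11_10_4_ok) (L (nat_lit 492) ln11_11_4 ln11_11_4_ok))) (M (nat_lit 430) (B (L (nat_lit 394) ln14_13_3 ln14_13_3_ok) (L (nat_lit 458) ln14_13_1 ln14_13_1_ok))))) (M (nat_lit 426) (B (L (nat_lit 425) ln9_13_0 ln9_13_0_ok) (M (nat_lit 430) (B (L (nat_lit 458) ln14_13_1 ln14_13_1_ok) (M (nat_lit 394) (B (L (nat_lit 393) ln13_13_3 ln13_13_3_ok) (L (nat_lit 395) ln14_13_3 ln14_13_3_ok))))))))))))))) (B (M (nat_lit 427) (B (M (nat_lit 426) (B (L (nat_lit 425) ln9_13_0 ln9_13_0_ok) (L (nat_lit 462) ln10_13_0 ln10_13_0_ok))) (B (M (nat_lit 462) (B (L (nat_lit 426) ln10_13_0 ln10_13_0_ok) (L (nat_lit 463) ln15_14_3 ln15_14_3_ok))) (B (M (nat_lit 459) (B (M (nat_lit 491) (B (M (nat_lit 396) (B (L (nat_lit 364) ln12_11_5 ln12_11_5_ok) (L (nat_lit 523) ln11_16_6 ln11_16_6_ok))) (M (nat_lit 462) (B (L (nat_lit 463) ln15_14_3 ln15_14_3_ok) (L (nat_lit 490) ln14_14_1 ln14_14_1_ok))))) (M (nat_lit 395) (B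 (M (nat_lit 363) (B (L (nat_lit 331) ln11_10_4 ln11_10_4_ok) (L (nat_lit 492) ln11_11_4 ln11_11_4_ok))) (M (nat_lit 430) (B (L (nat_lit 394) ln14_13_3 ln14_13_3_ok) (L (nat_lit 458) ln14_13_1 ln14_13_1_ok))))))) (M (nat_lit 395) (B (M (nat_lit 492) (B (L (nat_lit 524) ln12_16_7 ln12_16_7_ok) (M (nat_lit 363) (B (L (nat_lit 331) ln11_10_4 ln11_10_4_ok) (L (nat_lit 396) ln12_15_7 ln12_15_7_ok))))) (M (nat_lit 394) (B (L (nat_lit 430) ln14_13_3 ln14_13_3_ok) (M (nat_lit 426) (B (L (nat_lit 393) ln13_13_3 ln13_13_3_ok) (L (nat_lit 425) ln9_13_0 ln9_13_0_ok))))))))))) (B (M (nat_lit 492) (B (M (nat_lit 397) (B (L (nat_lit 365) ln13_11_5 ln13_11_5_ok) (L (nat_lit 524) ln12_16_6 ln12_16_6_ok))) (B (M (nat_lit 524) (B (L (nat_lit 397) ln12_16_6 ln12_16_6_ok) (L (nat_lit 556) ln12_17_6 ln12_17_6_ok))) (B (M (nat_lit 427) (B (M (nat_lit 524) (B (L (nat_lit 395) ln12_16_7 ln12_16_7_ok) (L (nat_lit 556) ln12_17_6 ln12_17_6_ok)))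 (M (nat_lit 462) (B (L (nat_lit 426) ln10_13_0 ln10_13_0_ok) (L (nat_lit 463) ln15_14_3 ln15_14_3_ok))))) (M (nat_lit 396) (B (M (nat_lit 365) (B (L (nat_lit 397) ln12_15_6 ln12_15_6_ok) (M (nat_lit 364) (B (L (nat_lit 332) ln12_10_4 ln12_10_4_ok) (L (nat_lit 333) ln12_14_6 ln12_14_6_ok))))) (B (M (nat_lit 364) (B (M (nat_lit 363) (B (L (nat_lit 331) ln12_14_7 ln12_14_7_ok) (L (nat_lit 395) ln12_15_7 ln12_15_7_ok))) (M (nat_lit 365) (B (L (nat_lit 333) ln12_14_6 ln12_14_6_ok) (L (nat_lit 397) ln12_15_6 ln12_15_6_ok))))) (B (M (nat_lit 363) (B (L (nat_lit 395) ln12_15_7 ln12_15_7_ok) (M (nat_lit 364) (B (L (nat_lit 331) ln12_14_7 ln12_14_7_ok) (L (nat_lit 332) ln12_10_4 ln12_10_4_ok))))) (M (nat_lit 397) (B (L (nat_lit 365) ln12_15_6 ln12_15_6_ok) (M (nat_lit 395) (B (L (nat_lit 363) ln12_15_7 ln12_15_7_ok) (M (nat_lit 394) (B (L (nat_lit 393) ln9_12_0 ln9_12_0_ok) (L (nat_lit 430) ln10_12_0 ln10_12_0_ok)))))))))))))))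 (B (M (nat_lit 492) (B (M (nat_lit 397) (B (L (nat_lit 365) ln13_11_5 ln13_11_5_ok) (L (nat_lit 524) ln12_16_6 ln12_16_6_ok))) (B (M (nat_lit 524) (B (L (nat_lit 397) ln12_16_6 ln12_16_6_ok) (L (nat_lit 556) ln12_17_6 ln12_17_6_ok))) (B (M (nat_lit 524) (B (L (nat_lit 556) ln12_17_6 ln12_17_6_ok) (M (nat_lit 396) (B (M (nat_lit 395) (B (L (nat_lit 363) ln12_15_7 ln12_15_7_ok) (L (nat_lit 427) ln12_16_7 ln12_16_7_ok))) (M (nat_lit 523) (B (L (nat_lit 491) ln12_12_5 ln12_12_5_ok) (L (nat_lit 555) ln12_13_5 ln12_13_5_ok))))))) (M (nat_lit 396) (B (M (nat_lit 365) (B (L (nat_lit 397) ln12_15_6 ln12_15_6_ok) (M (nat_lit 364) (B (L (nat_lit 332) ln12_10_4 ln12_10_4_ok) (L (nat_lit 333) ln12_14_6 ln12_14_6_ok))))) (B (M (nat_lit 364) (B (M (nat_lit 363) (B (L (nat_lit 331) ln12_14_7 ln12_14_7_ok) (L (nat_lit 395) ln12_15_7 ln12_15_7_ok))) (M (nat_lit 365) (B (L (nat_lit 333) ln12_14_6 ln12_14_6_ok) (L (nat_lit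 397) ln12_15_6 ln12_15_6_ok))))) (B (M (nat_lit 363) (B (L (nat_lit 395) ln12_15_7 ln12_15_7_ok) (M (nat_lit 364) (B (L (nat_lit 331) ln12_14_7 ln12_14_7_ok) (L (nat_lit 332) ln12_10_4 ln12_10_4_ok))))) (M (nat_lit 397) (B (L (nat_lit 365) ln12_15_6 ln12_15_6_ok) (M (nat_lit 395) (B (L (nat_lit 363) ln12_15_7 ln12_15_7_ok) (M (nat_lit 394) (B (L (nat_lit 393) ln9_12_0 ln9_12_0_ok) (L (nat_lit 430) ln10_12_0 ln10_12_0_ok))))))))))))))) (M (nat_lit 462) (B (M (nat_lit 427) (B (L (nat_lit 426) ln10_13_0 ln10_13_0_ok) (L (nat_lit 463) ln15_14_3 ln15_14_3_ok))) (B (M (nat_lit 463) (B (L (nat_lit 427) ln15_14_3 ln15_14_3_ok) (L (nat_lit 464) ln16_14_3 ln16_14_3_ok))) (B (M (nat_lit 459) (B (M (nat_lit 458) (B (L (nat_lit 430) ln10_14_2 ln10_14_2_ok) (M (nat_lit 490) (B (L (nat_lit 489) ln13_14_1 ln13_14_1_ok) (L (nat_lit 491) ln14_14_1 ln14_14_1_ok))))) (M (nat_lit 463) (B (L (nat_lit 464) ln16_14_3 ln16_14_3_ok)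 (M (nat_lit 495) (B (L (nat_lit 494) ln11_14_0 ln11_14_0_ok) (L (nat_lit 496) ln12_14_0 ln12_14_0_ok))))))) (M (nat_lit 459) (B (M (nat_lit 426) (B (L (nat_lit 427) ln10_13_0 ln10_13_0_ok) (M (nat_lit 458) (B (L (nat_lit 425) ln13_14_3 ln13_14_3_ok) (L (nat_lit 430) ln10_14_2 ln10_14_2_ok))))) (B (M (nat_lit 458) (B (L (nat_lit 430) ln10_14_2 ln10_14_2_ok) (M (nat_lit 490) (B (L (nat_lit 489) ln13_14_1 ln13_14_1_ok) (L (nat_lit 491) ln14_14_1 ln14_14_1_ok))))) (B (M (nat_lit 458) (B (M (nat_lit 426) (B (L (nat_lit 425) ln13_14_3 ln13_14_3_ok) (L (nat_lit 427) ln10_13_0 ln10_13_0_ok))) (M (nat_lit 490) (B (L (nat_lit 489) ln13_14_1 ln13_14_1_ok) (L (nat_lit 491) ln14_14_1 ln14_14_1_ok))))) (M (nat_lit 427) (B (L (nat_lit 426) ln10_13_0 ln10_13_0_ok) (M (nat_lit 491) (B (L (nat_lit 490) ln14_14_1 ln14_14_1_ok) (M (nat_lit 523) (B (L (nat_lit 396) ln11_16_6 ln11_16_6_ok) (L (nat_lit 555) ln11_17_6 ln11_17_6_ok)))))))))))))))))))))))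 (nat_lit 5954262831509113917970671778902343783532342804327837356357830143065656733685921768742376304727131933651871260571575937852568135413341880320) (nat_lit 353808977409397074076215185241070015073286037282363784419947754613646950322679784645817358183739125998627169539098957896770484884754832726569105237118390333472105299968) (nat_lit 353808977409397074076215185241070015073286037282363784419947754613646950322679784645817358183739125998627169539098957896770484884754832726569105237118390333472105299968) (by decide +kernel)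
noncomputable def c20_n6102 : Cert := (M (nat_lit 460) (B (M (nat_lit 395) (B (M (nat_lit 492) (B (L (nat_lit 524) ln12_16_7 ln12_16_7_ok) (M (nat_lit 363) (B (L (nat_lit 331) ln11_10_4 ln11_10_4_ok) (L (nat_lit 396) ln12_15_7 ln12_15_7_ok))))) (B (M (nat_lit 492) (B (L (nat_lit 524) ln12_16_7 ln12_16_7_ok) (M (nat_lit 363) (B (L (nat_lit 396) ln12_15_7 ln12_15_7_ok) (L (nat_lit 459) ln11_11_4 ln11_11_4_ok))))) (B (M (nat_lit 394) (B (L (nat_lit 430) ln14_13_3 ln14_13_3_ok) (M (nat_lit 393) (B (L (nat_lit 392) ln8_12_0 ln8_12_0_ok) (L (nat_lit 396) ln9_12_0 ln9_12_0_ok))))) (M (nat_lit 363) (B (L (nat_lit 331) ln11_10_4 ln11_10_4_ok) (M (nat_lit 492) (B (L (nat_lit 459) ln11_11_4 ln11_11_4_ok) (L (nat_lit 524) ln12_16_7 ln12_16_7_ok))))))))) (B (M (nat_lit 459) (B (M (nat_lit 491) (B (L (nat_lit 490) ln14_14_1 ln14_14_1_ok) (M (nat_lit 523) (B (L (nat_lit 396) ln11_16_6 ln11_16_6_ok) (L (nat_lit 555) ln11_17_6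 ln11_17_6_ok))))) (M (nat_lit 494) (B (L (nat_lit 495) ln11_14_0 ln11_14_0_ok) (M (nat_lit 397) (B (L (nat_lit 365) ln13_11_4 ln13_11_4_ok) (M (nat_lit 526) (B (L (nat_lit 430) ln14_16_7 ln14_16_7_ok) (L (nat_lit 558) ln14_17_7 ln14_17_7_ok))))))))) (B (M (nat_lit 459) (B (M (nat_lit 494) (B (L (nat_lit 495) ln11_14_0 ln11_14_0_ok) (M (nat_lit 397) (B (L (nat_lit 365) ln13_11_4 ln13_11_4_ok) (M (nat_lit 526) (B (L (nat_lit 430) ln14_16_7 ln14_16_7_ok) (L (nat_lit 558) ln14_17_7 ln14_17_7_ok))))))) (B (M (nat_lit 524) (B (M (nat_lit 492) (B (L (nat_lit 395) ln12_16_7 ln12_16_7_ok) (L (nat_lit 397) ln12_16_6 ln12_16_6_ok))) (B (M (nat_lit 492) (B (L (nat_lit 397) ln12_16_6 ln12_16_6_ok) (L (nat_lit 556) ln12_17_7 ln12_17_7_ok))) (B (M (nat_lit 492) (B (L (nat_lit 395) ln12_16_7 ln12_16_7_ok) (L (nat_lit 556) ln12_17_7 ln12_17_7_ok))) (M (nat_lit 491) (B (L (nat_lit 490) ln14_14_1 ln14_14_1_ok) (M (nat_lit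 523) (B (L (nat_lit 556) ln11_13_4 ln11_13_4_ok) (L (nat_lit 555) ln11_17_6 ln11_17_6_ok))))))))) (M (nat_lit 395) (B (M (nat_lit 363) (B (L (nat_lit 331) ln11_10_4 ln11_10_4_ok) (L (nat_lit 492) ln11_11_4 ln11_11_4_ok))) (M (nat_lit 394) (B (L (nat_lit 430) ln14_13_3 ln14_13_3_ok) (M (nat_lit 491) (B (L (nat_lit 362) ln11_15_7 ln11_15_7_ok) (L (nat_lit 490) ln14_14_1 ln14_14_1_ok)))))))))) (B (M (nat_lit 492) (B (M (nat_lit 397) (B (L (nat_lit 365) ln13_11_5 ln13_11_5_ok) (L (nat_lit 524) ln12_16_6 ln12_16_6_ok))) (B (M (nat_lit 524) (B (L (nat_lit 395) ln12_16_7 ln12_16_7_ok) (L (nat_lit 397) ln12_16_6 ln12_16_6_ok))) (B (M (nat_lit 524) (B (L (nat_lit 395) ln12_16_7 ln12_16_7_ok) (L (nat_lit 556) ln12_17_6 ln12_17_6_ok))) (M (nat_lit 396) (B (M (nat_lit 365) (B (L (nat_lit 397) ln12_15_6 ln12_15_6_ok) (M (nat_lit 364) (B (L (nat_lit 332) ln12_10_4 ln12_10_4_ok) (L (nat_lit 333) ln12_14_6 ln12_14_6_ok)))))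 (B (M (nat_lit 491) (B (L (nat_lit 523) ln12_12_5 ln12_12_5_ok) (M (nat_lit 459) (B (L (nat_lit 364) ln12_11_5 ln12_11_5_ok) (L (nat_lit 490) ln14_14_1 ln14_14_1_ok))))) (M (nat_lit 491) (B (L (nat_lit 523) ln12_12_5 ln12_12_5_ok) (M (nat_lit 490) (B (L (nat_lit 459) ln14_14_1 ln14_14_1_ok) (L (nat_lit 489) ln9_15_2 ln9_15_2_ok)))))))))))) (M (nat_lit 492) (B (M (nat_lit 397) (B (L (nat_lit 365) ln13_11_5 ln13_11_5_ok) (L (nat_lit 524) ln12_16_6 ln12_16_6_ok))) (B (M (nat_lit 524) (B (L (nat_lit 395) ln12_16_7 ln12_16_7_ok) (L (nat_lit 556) ln12_17_6 ln12_17_6_ok))) (M (nat_lit 396) (B (M (nat_lit 365) (B (L (nat_lit 397) ln12_15_6 ln12_15_6_ok) (M (nat_lit 364) (B (L (nat_lit 332) ln12_10_4 ln12_10_4_ok) (L (nat_lit 333) ln12_14_6 ln12_14_6_ok))))) (M (nat_lit 395) (B (L (nat_lit 363) ln12_15_7 ln12_15_7_ok) (M (nat_lit 394) (B (L (nat_lit 393) ln9_12_0 ln9_12_0_ok) (L (nat_lit 430) ln14_13_3 ln14_13_3_ok)))))))))))))))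
noncomputable def c20_n6103 : Cert := (M (nat_lit 462) (B (M (nat_lit 463) (B (L (nat_lit 430) ln11_13_0 ln11_13_0_ok) (L (nat_lit 460) ln15_14_3 ln15_14_3_ok))) (B (M (nat_lit 463) (B (L (nat_lit 460) ln15_14_3 ln15_14_3_ok) (L (nat_lit 464) ln16_14_3 ln16_14_3_ok))) (B (M (nat_lit 463) (B (L (nat_lit 430) ln11_13_0 ln11_13_0_ok) (L (nat_lit 464) ln16_14_3 ln16_14_3_ok))) c20_n6102))))
theorem c20_s6106 : Sem (nat_lit 5954262831509113917970671778902343783532342804327837356357830143065656733685921768742376304727131933651871260571575937852568135413341880320) (nat_lit 1297299583834455937056196428373304913643617867832749578378406783706643541871783555961023535564599945714886266533073011508047259569649012403074675551772693909363421609984) (nat_lit 1297299583834455937056196428373304913643617867832749578378406783706643541871783555961023535564599945714886266533073011508047259569649012403074675551772693909363421609984)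 :=
  sem_of_chk (M (nat_lit 427) (B (M (nat_lit 462) (B (L (nat_lit 426) ln10_13_0 ln10_13_0_ok) (M (nat_lit 463) (B (L (nat_lit 460) ln15_14_3 ln15_14_3_ok) (L (nat_lit 464) ln16_14_3 ln16_14_3_ok))))) (B c20_n6103 (B (M (nat_lit 462) (B (L (nat_lit 426) ln10_13_0 ln10_13_0_ok) (M (nat_lit 463) (B (L (nat_lit 430) ln11_13_0 ln11_13_0_ok) (L (nat_lit 464) ln16_14_3 ln16_14_3_ok))))) (M (nat_lit 426) (B (M (nat_lit 425) (B (L (nat_lit 460) ln9_13_0 ln9_13_0_ok) (M (nat_lit 393) (B (L (nat_lit 392) ln12_13_3 ln12_13_3_ok) (L (nat_lit 394) ln13_13_3 ln13_13_3_ok))))) (B (M (nat_lit 425) (B (L (nat_lit 460) ln9_13_0 ln9_13_0_ok) (M (nat_lit 397) (B (L (nat_lit 396) ln9_13_2 ln9_13_2_ok) (L (nat_lit 398) ln10_13_2 ln10_13_2_ok))))) (M (nat_lit 430) (B (M (nat_lit 394) (B (L (nat_lit 393) ln13_13_3 ln13_13_3_ok) (L (nat_lit 395) ln14_13_3 ln14_13_3_ok))) (M (nat_lit 398) (B (L (nat_lit 397) ln10_13_2 ln10_13_2_ok)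 (L (nat_lit 399) ln11_13_2 ln11_13_2_ok)))))))))))) (nat_lit 5954262831509113917970671778902343783532342804327837356357830143065656733685921768742376304727131933651871260571575937852568135413341880320) (nat_lit 1297299583834455937056196428373304913643617867832749578378406783706643541871783555961023535564599945714886266533073011508047259569649012403074675551772693909363421609984) (nat_lit 1297299583834455937056196428373304913643617867832749578378406783706643541871783555961023535564599945714886266533073011508047259569649012403074675551772693909363421609984) (by decide +kernel)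
theorem c20_s6204 : Sem (nat_lit 17862788490714920924495894904786711847400288320758411090431742638337560777712661007994393682501430992562421861830814898485774494975186173952) (nat_lit 2830471819330094971000976212909522437046250574723343369965426895342282609762816734194808155906517000887379804986001250381591244649530968361323805570814535061218181251072) (nat_lit 2830471819330094971000976212909522437046250574723343369965426895342282609762816734194808155906517000887379804986001250381591244649530968361323805570814535061218181251072) :=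
  sem_of_chk (M (nat_lit 395) (B (M (nat_lit 394) (B (L (nat_lit 430) ln14_13_3 ln14_13_3_ok) (M (nat_lit 393) (B (L (nat_lit 392) ln8_12_0 ln8_12_0_ok) (L (nat_lit 396) ln9_12_0 ln9_12_0_ok))))) (B (M (nat_lit 397) (B (M (nat_lit 365) (B (L (nat_lit 494) ln13_11_4 ln13_11_4_ok) (M (nat_lit 460) (B (L (nat_lit 333) ln13_10_5 ln13_10_5_ok) (L (nat_lit 492) ln13_11_5 ln13_11_5_ok))))) (B (M (nat_lit 430) (B (L (nat_lit 394) ln14_13_3 ln14_13_3_ok) (M (nat_lit 494) (B (L (nat_lit 365) ln13_11_4 ln13_11_4_ok) (L (nat_lit 526) ln14_16_7 ln14_16_7_ok))))) (M (nat_lit 396) (B (M (nat_lit 394) (B (L (nat_lit 393) ln9_12_0 ln9_12_0_ok) (L (nat_lit 430) ln10_12_0 ln10_12_0_ok))) (M (nat_lit 363) (B (M (nat_lit 331) (B (L (nat_lit 299) ln11_9_4 ln11_9_4_ok) (L (nat_lit 460) ln11_10_4 ln11_10_4_ok))) (M (nat_lit 398) (B (L (nat_lit 362) ln14_12_3 ln14_12_3_ok) (L (nat_lit 399) ln15_12_1 ln15_12_1_ok)))))))))) (B (M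 (nat_lit 365) (B (M (nat_lit 397) (B (L (nat_lit 494) ln13_11_4 ln13_11_4_ok) (M (nat_lit 460) (B (L (nat_lit 333) ln13_10_5 ln13_10_5_ok) (L (nat_lit 492) ln13_11_5 ln13_11_5_ok))))) (B (M (nat_lit 397) (B (L (nat_lit 494) ln13_11_4 ln13_11_4_ok) (M (nat_lit 394) (B (L (nat_lit 430) ln14_13_3 ln14_13_3_ok) (M (nat_lit 366) (B (L (nat_lit 334) ln13_14_6 ln13_14_6_ok) (L (nat_lit 396) ln10_12_2 ln10_12_2_ok))))))) (M (nat_lit 430) (B (L (nat_lit 394) ln14_13_3 ln14_13_3_ok) (M (nat_lit 398) (B (L (nat_lit 399) ln11_13_2 ln11_13_2_ok) (M (nat_lit 366) (B (L (nat_lit 333) ln14_14_7 ln14_14_7_ok) (L (nat_lit 334) ln14_10_5 ln14_10_5_ok)))))))))) (B (M (nat_lit 397) (B (M (nat_lit 365) (B (L (nat_lit 494) ln13_11_4 ln13_11_4_ok) (M (nat_lit 460) (B (L (nat_lit 333) ln13_10_5 ln13_10_5_ok) (L (nat_lit 492) ln13_11_5 ln13_11_5_ok))))) (B (M (nat_lit 398) (B (M (nat_lit 399) (B (L (nat_lit 396) ln15_12_1 ln15_12_1_ok)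 (L (nat_lit 400) ln16_12_1 ln16_12_1_ok))) (B (M (nat_lit 399) (B (L (nat_lit 400) ln16_12_1 ln16_12_1_ok) (L (nat_lit 430) ln11_13_2 ln11_13_2_ok))) (M (nat_lit 396) (B (M (nat_lit 363) (B (L (nat_lit 362) ln14_12_3 ln14_12_3_ok) (M (nat_lit 331) (B (L (nat_lit 299) ln11_9_4 ln11_9_4_ok) (L (nat_lit 460) ln11_10_4 ln11_10_4_ok))))) (M (nat_lit 366) (B (L (nat_lit 367) ln11_12_2 ln11_12_2_ok) (M (nat_lit 334) (B (L (nat_lit 302) ln14_9_5 ln14_9_5_ok) (L (nat_lit 430) ln14_10_5 ln14_10_5_ok)))))))))) (M (nat_lit 365) (B (L (nat_lit 494) ln13_11_4 ln13_11_4_ok) (M (nat_lit 333) (B (L (nat_lit 430) ln13_10_4 ln13_10_4_ok) (M (nat_lit 334) (B (L (nat_lit 302) ln13_13_6 ln13_13_6_ok) (L (nat_lit 366) ln13_14_6 ln13_14_6_ok)))))))))) (B (M (nat_lit 430) (B (L (nat_lit 394) ln14_13_3 ln14_13_3_ok) (M (nat_lit 398) (B (L (nat_lit 399) ln11_13_2 ln11_13_2_ok) (M (nat_lit 494) (B (M (nat_lit 397) (B (L (nat_lit 365)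 ln14_15_7 ln14_15_7_ok) (L (nat_lit 526) ln14_16_7 ln14_16_7_ok))) (B (M (nat_lit 526) (B (L (nat_lit 397) ln14_16_7 ln14_16_7_ok) (L (nat_lit 558) ln14_17_7 ln14_17_7_ok))) (B (M (nat_lit 526) (B (L (nat_lit 558) ln14_17_7 ln14_17_7_ok) (M (nat_lit 527) (B (L (nat_lit 495) ln14_12_4 ln14_12_4_ok) (L (nat_lit 559) ln14_13_4 ln14_13_4_ok))))) (M (nat_lit 365) (B (L (nat_lit 397) ln14_15_7 ln14_15_7_ok) (M (nat_lit 366) (B (L (nat_lit 333) ln14_14_7 ln14_14_7_ok) (L (nat_lit 334) ln14_10_5 ln14_10_5_ok))))))))))))) (M (nat_lit 363) (B (M (nat_lit 460) (B (L (nat_lit 331) ln11_10_4 ln11_10_4_ok) (M (nat_lit 492) (B (L (nat_lit 396) ln12_15_7 ln12_15_7_ok) (L (nat_lit 524) ln12_16_7 ln12_16_7_ok))))) (B (M (nat_lit 365) (B (M (nat_lit 397) (B (L (nat_lit 494) ln13_11_4 ln13_11_4_ok) (M (nat_lit 460) (B (L (nat_lit 333) ln13_10_5 ln13_10_5_ok) (L (nat_lit 492) ln13_11_5 ln13_11_5_ok))))) (B (M (nat_lit 397) (B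 (L (nat_lit 494) ln13_11_4 ln13_11_4_ok) (M (nat_lit 364) (B (L (nat_lit 332) ln13_14_7 ln13_14_7_ok) (M (nat_lit 366) (B (L (nat_lit 334) ln13_14_6 ln13_14_6_ok) (L (nat_lit 394) ln14_11_1 ln14_11_1_ok))))))) (M (nat_lit 364) (B (M (nat_lit 396) (B (L (nat_lit 332) ln12_10_4 ln12_10_4_ok) (M (nat_lit 394) (B (L (nat_lit 366) ln14_11_1 ln14_11_1_ok) (L (nat_lit 393) ln9_12_2 ln9_12_2_ok))))) (B (M (nat_lit 394) (B (L (nat_lit 366) ln14_11_1 ln14_11_1_ok) (M (nat_lit 393) (B (L (nat_lit 362) ln13_11_1 ln13_11_1_ok) (L (nat_lit 392) ln8_12_2 ln8_12_2_ok))))) (M (nat_lit 396) (B (L (nat_lit 332) ln12_10_4 ln12_10_4_ok) (M (nat_lit 460) (B (L (nat_lit 333) ln12_14_6 ln12_14_6_ok) (L (nat_lit 492) ln12_15_7 ln12_15_7_ok))))))))))) (B (M (nat_lit 331) (B (L (nat_lit 460) ln11_10_4 ln11_10_4_ok) (M (nat_lit 299) (B (M (nat_lit 298) (B (L (nat_lit 266) ln11_12_7 ln11_12_7_ok) (L (nat_lit 330) ln11_13_7 ln11_13_7_ok)))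 (M (nat_lit 300) (B (L (nat_lit 268) ln11_12_6 ln11_12_6_ok) (L (nat_lit 332) ln11_13_6 ln11_13_6_ok))))))) (M (nat_lit 396) (B (M (nat_lit 331) (B (L (nat_lit 299) ln11_9_4 ln11_9_4_ok) (M (nat_lit 332) (B (L (nat_lit 300) ln11_13_6 ln11_13_6_ok) (L (nat_lit 364) ln12_10_4 ln12_10_4_ok))))) (M (nat_lit 397) (B (M (nat_lit 398) (B (L (nat_lit 362) ln14_12_3 ln14_12_3_ok) (L (nat_lit 399) ln15_12_1 ln15_12_1_ok))) (M (nat_lit 365) (B (L (nat_lit 494) ln13_11_4 ln13_11_4_ok) (M (nat_lit 394) (B (L (nat_lit 366) ln10_12_2 ln10_12_2_ok) (L (nat_lit 393) ln9_12_0 ln9_12_0_ok))))))))))))))))))) (nat_lit 17862788490714920924495894904786711847400288320758411090431742638337560777712661007994393682501430992562421861830814898485774494975186173952) (nat_lit 2830471819330094971000976212909522437046250574723343369965426895342282609762816734194808155906517000887379804986001250381591244649530968361323805570814535061218181251072)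 (nat_lit 2830471819330094971000976212909522437046250574723343369965426895342282609762816734194808155906517000887379804986001250381591244649530968361323805570814535061218181251072) (by decide +kernel)
theorem c20_s6335 : Sem (nat_lit 5954262831855697629735773636349645556550228267257391990779807214961966681262749432218079507607128734414888707833749839222743581891963650048) (nat_lit 3125312633810466675115221334420674371201326639487664342731625681179286671512607125835981981363543683818447549822389460750560051391833860811643278901041965416879082176512) (nat_lit 3125312633810466675115221334420674371201326639487664342731625681179286671512607125835981981363543683818447549822389460750560051391833860811643278901041965416879082176512) :=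
  sem_of_chk (M (nat_lit 430) (B (M (nat_lit 462) (B (L (nat_lit 463) ln11_13_0 ln11_13_0_ok) (M (nat_lit 398) (B (L (nat_lit 399) ln11_13_2 ln11_13_2_ok) (M (nat_lit 366) (B (L (nat_lit 334) ln14_10_5 ln14_10_5_ok) (M (nat_lit 365) (B (L (nat_lit 333) ln14_14_7 ln14_14_7_ok) (M (nat_lit 494) (B (L (nat_lit 397) ln14_15_7 ln14_15_7_ok) (M (nat_lit 526) (B (L (nat_lit 558) ln14_17_7 ln14_17_7_ok) (M (nat_lit 527) (B (L (nat_lit 495) ln14_12_4 ln14_12_4_ok) (L (nat_lit 559) ln14_13_4 ln14_13_4_ok))))))))))))))) (B (M (nat_lit 395) (B (L (nat_lit 394) ln14_13_3 ln14_13_3_ok) (M (nat_lit 396) (B (M (nat_lit 364) (B (L (nat_lit 332) ln12_10_4 ln12_10_4_ok) (M (nat_lit 459) (B (L (nat_lit 491) ln11_15_6 ln11_15_6_ok) (L (nat_lit 458) ln14_13_1 ln14_13_1_ok))))) (M (nat_lit 397) (B (M (nat_lit 398) (B (L (nat_lit 399) ln15_12_1 ln15_12_1_ok) (M (nat_lit 366) (B (L (nat_lit 334) ln14_10_5 ln14_10_5_ok) (L (nat_lit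 367) ln11_12_2 ln11_12_2_ok))))) (M (nat_lit 462) (B (L (nat_lit 463) ln11_13_0 ln11_13_0_ok) (M (nat_lit 494) (B (L (nat_lit 365) ln13_11_4 ln13_11_4_ok) (L (nat_lit 526) ln14_16_7 ln14_16_7_ok))))))))))) (B (M (nat_lit 395) (B (L (nat_lit 394) ln14_13_3 ln14_13_3_ok) (M (nat_lit 459) (B (L (nat_lit 458) ln14_13_1 ln14_13_1_ok) (M (nat_lit 363) (B (M (nat_lit 332) (B (L (nat_lit 364) ln11_14_6 ln11_14_6_ok) (M (nat_lit 331) (B (L (nat_lit 300) ln11_13_6 ln11_13_6_ok) (M (nat_lit 330) (B (L (nat_lit 298) ln11_13_7 ln11_13_7_ok) (L (nat_lit 362) ln11_14_7 ln11_14_7_ok))))))) (B (M (nat_lit 396) (B (M (nat_lit 364) (B (L (nat_lit 332) ln11_14_6 ln11_14_6_ok) (L (nat_lit 491) ln11_15_6 ln11_15_6_ok))) (B (M (nat_lit 491) (B (L (nat_lit 364) ln11_15_6 ln11_15_6_ok) (L (nat_lit 523) ln11_16_6 ln11_16_6_ok))) (M (nat_lit 398) (B (L (nat_lit 399) ln11_13_2 ln11_13_2_ok) (M (nat_lit 362) (B (L (nat_lit 330) ln11_14_7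 ln11_14_7_ok) (L (nat_lit 397) ln14_12_3 ln14_12_3_ok)))))))) (B (M (nat_lit 331) (B (M (nat_lit 332) (B (L (nat_lit 300) ln11_13_6 ln11_13_6_ok) (L (nat_lit 364) ln11_14_6 ln11_14_6_ok))) (B (M (nat_lit 396) (B (L (nat_lit 299) ln11_9_4 ln11_9_4_ok) (M (nat_lit 364) (B (L (nat_lit 332) ln11_14_6 ln11_14_6_ok) (L (nat_lit 491) ln11_15_6 ln11_15_6_ok))))) (B (M (nat_lit 396) (B (L (nat_lit 299) ln11_9_4 ln11_9_4_ok) (M (nat_lit 491) (B (L (nat_lit 364) ln11_15_6 ln11_15_6_ok) (L (nat_lit 523) ln11_16_6 ln11_16_6_ok))))) (M (nat_lit 299) (B (L (nat_lit 396) ln11_9_4 ln11_9_4_ok) (M (nat_lit 300) (B (L (nat_lit 268) ln11_12_6 ln11_12_6_ok) (L (nat_lit 332) ln11_13_6 ln11_13_6_ok))))))))) (B (M (nat_lit 396) (B (M (nat_lit 491) (B (L (nat_lit 364) ln11_15_6 ln11_15_6_ok) (L (nat_lit 523) ln11_16_6 ln11_16_6_ok))) (M (nat_lit 398) (B (L (nat_lit 399) ln11_13_2 ln11_13_2_ok) (M (nat_lit 362) (B (L (nat_lit 330)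 ln11_14_7 ln11_14_7_ok) (L (nat_lit 397) ln14_12_3 ln14_12_3_ok))))))) (M (nat_lit 331) (B (M (nat_lit 330) (B (L (nat_lit 298) ln11_13_7 ln11_13_7_ok) (L (nat_lit 362) ln11_14_7 ln11_14_7_ok))) (M (nat_lit 299) (B (L (nat_lit 396) ln11_9_4 ln11_9_4_ok) (M (nat_lit 300) (B (L (nat_lit 268) ln11_12_6 ln11_12_6_ok) (L (nat_lit 332) ln11_13_6 ln11_13_6_ok)))))))))))))))) (B (M (nat_lit 459) (B (L (nat_lit 458) ln14_13_1 ln14_13_1_ok) (M (nat_lit 395) (B (L (nat_lit 394) ln14_13_3 ln14_13_3_ok) (M (nat_lit 364) (B (M (nat_lit 332) (B (L (nat_lit 363) ln11_14_6 ln11_14_6_ok) (L (nat_lit 396) ln12_10_5 ln12_10_5_ok))) (B (M (nat_lit 491) (B (L (nat_lit 396) ln11_15_6 ln11_15_6_ok) (M (nat_lit 523) (B (M (nat_lit 522) (B (L (nat_lit 490) ln11_12_5 ln11_12_5_ok) (L (nat_lit 554) ln11_13_5 ln11_13_5_ok))) (M (nat_lit 524) (B (L (nat_lit 492) ln11_12_4 ln11_12_4_ok) (L (nat_lit 556) ln11_13_4 ln11_13_4_ok))))))) (M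 (nat_lit 363) (B (L (nat_lit 332) ln11_14_6 ln11_14_6_ok) (M (nat_lit 330) (B (L (nat_lit 362) ln11_14_7 ln11_14_7_ok) (M (nat_lit 366) (B (M (nat_lit 331) (B (L (nat_lit 298) ln11_13_7 ln11_13_7_ok) (L (nat_lit 365) ln14_11_3 ln14_11_3_ok))) (M (nat_lit 398) (B (L (nat_lit 334) ln14_10_5 ln14_10_5_ok) (L (nat_lit 399) ln11_13_2 ln11_13_2_ok)))))))))))))))) (M (nat_lit 395) (B (L (nat_lit 394) ln14_13_3 ln14_13_3_ok) (M (nat_lit 459) (B (L (nat_lit 458) ln14_13_1 ln14_13_1_ok) (M (nat_lit 364) (B (M (nat_lit 332) (B (L (nat_lit 363) ln11_14_6 ln11_14_6_ok) (L (nat_lit 396) ln12_10_5 ln12_10_5_ok))) (B (M (nat_lit 491) (B (L (nat_lit 396) ln11_15_6 ln11_15_6_ok) (M (nat_lit 523) (B (M (nat_lit 522) (B (L (nat_lit 490) ln11_12_5 ln11_12_5_ok) (L (nat_lit 554) ln11_13_5 ln11_13_5_ok))) (M (nat_lit 524) (B (L (nat_lit 492) ln11_12_4 ln11_12_4_ok) (L (nat_lit 556) ln11_13_4 ln11_13_4_ok))))))) (M (nat_lit 363)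 (B (L (nat_lit 332) ln11_14_6 ln11_14_6_ok) (M (nat_lit 365) (B (M (nat_lit 330) (B (L (nat_lit 362) ln11_14_7 ln11_14_7_ok) (M (nat_lit 331) (B (L (nat_lit 298) ln11_13_7 ln11_13_7_ok) (L (nat_lit 366) ln14_11_3 ln14_11_3_ok))))) (M (nat_lit 462) (B (L (nat_lit 463) ln11_13_0 ln11_13_0_ok) (M (nat_lit 397) (B (L (nat_lit 333) ln13_10_4 ln13_10_4_ok) (L (nat_lit 494) ln13_11_4 ln13_11_4_ok))))))))))))))))))))) (nat_lit 5954262831855697629735773636349645556550228267257391990779807214961966681262749432218079507607128734414888707833749839222743581891963650048) (nat_lit 3125312633810466675115221334420674371201326639487664342731625681179286671512607125835981981363543683818447549822389460750560051391833860811643278901041965416879082176512) (nat_lit 3125312633810466675115221334420674371201326639487664342731625681179286671512607125835981981363543683818447549822389460750560051391833860811643278901041965416879082176512)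 (by decide +kernel)
theorem c20_s6417 : Sem (nat_lit 5954262831855697629735773636349645556550228267257391990779807214961966681262749432218079507607128734414888707833749839222743581891963650048) (nat_lit 68647976623682790764252232424139827093684712001256969528702353890756534676649187811768301145513701445407816382421416615717371002448295997404296568878158315520) (nat_lit 68647976623682790764252232424139827093684712001256969528702353890756534676649187811768301145513701445407816382421416615717371002448295997404296568878158315520) :=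
  sem_of_chk (M (nat_lit 395) (B (M (nat_lit 394) (B (L (nat_lit 430) ln14_13_3 ln14_13_3_ok) (M (nat_lit 393) (B (L (nat_lit 392) ln8_12_0 ln8_12_0_ok) (L (nat_lit 396) ln9_12_0 ln9_12_0_ok))))) (B (M (nat_lit 459) (B (M (nat_lit 430) (B (L (nat_lit 394) ln14_13_3 ln14_13_3_ok) (L (nat_lit 458) ln14_13_1 ln14_13_1_ok))) (M (nat_lit 363) (B (M (nat_lit 460) (B (L (nat_lit 331) ln11_10_4 ln11_10_4_ok) (L (nat_lit 492) ln11_11_4 ln11_11_4_ok))) (B (M (nat_lit 491) (B (M (nat_lit 364) (B (L (nat_lit 332) ln11_14_6 ln11_14_6_ok) (L (nat_lit 396) ln11_15_6 ln11_15_6_ok))) (M (nat_lit 492) (B (L (nat_lit 460) ln11_11_4 ln11_11_4_ok) (L (nat_lit 524) ln11_12_4 ln11_12_4_ok))))) (M (nat_lit 331) (B (M (nat_lit 330) (B (L (nat_lit 298) ln11_13_7 ln11_13_7_ok) (L (nat_lit 362) ln11_14_7 ln11_14_7_ok))) (M (nat_lit 332) (B (L (nat_lit 300) ln11_13_6 ln11_13_6_ok) (L (nat_lit 364) ln11_14_6 ln11_14_6_ok)))))))))) (B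 (M (nat_lit 459) (B (M (nat_lit 458) (B (L (nat_lit 430) ln14_13_1 ln14_13_1_ok) (M (nat_lit 457) (B (L (nat_lit 456) ln8_14_2 ln8_14_2_ok) (L (nat_lit 460) ln9_14_2 ln9_14_2_ok))))) (B (M (nat_lit 363) (B (M (nat_lit 460) (B (L (nat_lit 331) ln11_10_4 ln11_10_4_ok) (L (nat_lit 492) ln11_11_4 ln11_11_4_ok))) (B (M (nat_lit 491) (B (M (nat_lit 364) (B (L (nat_lit 332) ln11_14_6 ln11_14_6_ok) (L (nat_lit 396) ln11_15_6 ln11_15_6_ok))) (M (nat_lit 492) (B (L (nat_lit 460) ln11_11_4 ln11_11_4_ok) (L (nat_lit 524) ln11_12_4 ln11_12_4_ok))))) (M (nat_lit 331) (B (M (nat_lit 330) (B (L (nat_lit 298) ln11_13_7 ln11_13_7_ok) (L (nat_lit 362) ln11_14_7 ln11_14_7_ok))) (M (nat_lit 332) (B (L (nat_lit 300) ln11_13_6 ln11_13_6_ok) (L (nat_lit 364) ln11_14_6 ln11_14_6_ok)))))))) (M (nat_lit 364) (B (M (nat_lit 332) (B (L (nat_lit 363) ln11_14_6 ln11_14_6_ok) (L (nat_lit 396) ln12_10_5 ln12_10_5_ok))) (B (M (nat_lit 490)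 (B (M (nat_lit 458) (B (L (nat_lit 363) ln11_11_5 ln11_11_5_ok) (L (nat_lit 430) ln14_13_1 ln14_13_1_ok))) (M (nat_lit 491) (B (L (nat_lit 396) ln11_15_6 ln11_15_6_ok) (L (nat_lit 522) ln11_12_5 ln11_12_5_ok))))) (B (M (nat_lit 396) (B (L (nat_lit 332) ln12_10_5 ln12_10_5_ok) (L (nat_lit 491) ln11_15_6 ln11_15_6_ok))) (M (nat_lit 363) (B (L (nat_lit 332) ln11_14_6 ln11_14_6_ok) (M (nat_lit 458) (B (L (nat_lit 490) ln11_11_5 ln11_11_5_ok) (L (nat_lit 430) ln14_13_1 ln14_13_1_ok)))))))))))) (B (M (nat_lit 459) (B (M (nat_lit 430) (B (L (nat_lit 394) ln14_13_3 ln14_13_3_ok) (L (nat_lit 458) ln14_13_1 ln14_13_1_ok))) (B (M (nat_lit 363) (B (M (nat_lit 458) (B (L (nat_lit 490) ln11_11_5 ln11_11_5_ok) (L (nat_lit 430) ln14_13_1 ln14_13_1_ok))) (M (nat_lit 460) (B (L (nat_lit 331) ln11_10_4 ln11_10_4_ok) (L (nat_lit 492) ln11_11_4 ln11_11_4_ok))))) (B (M (nat_lit 363) (B (M (nat_lit 460) (B (L (nat_lit 331) ln11_10_4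 ln11_10_4_ok) (L (nat_lit 492) ln11_11_4 ln11_11_4_ok))) (B (M (nat_lit 460) (B (L (nat_lit 492) ln11_11_4 ln11_11_4_ok) (M (nat_lit 458) (B (L (nat_lit 490) ln11_11_5 ln11_11_5_ok) (L (nat_lit 457) ln9_14_2 ln9_14_2_ok))))) (M (nat_lit 331) (B (M (nat_lit 330) (B (L (nat_lit 298) ln11_13_7 ln11_13_7_ok) (L (nat_lit 362) ln11_14_7 ln11_14_7_ok))) (M (nat_lit 332) (B (L (nat_lit 300) ln11_13_6 ln11_13_6_ok) (L (nat_lit 364) ln11_14_6 ln11_14_6_ok)))))))) (M (nat_lit 394) (B (L (nat_lit 430) ln14_13_3 ln14_13_3_ok) (M (nat_lit 362) (B (L (nat_lit 491) ln11_15_7 ln11_15_7_ok) (M (nat_lit 330) (B (L (nat_lit 298) ln10_9_4 ln10_9_4_ok) (L (nat_lit 363) ln11_14_7 ln11_14_7_ok))))))))))) (M (nat_lit 363) (B (M (nat_lit 460) (B (L (nat_lit 331) ln11_10_4 ln11_10_4_ok) (M (nat_lit 492) (B (L (nat_lit 459) ln11_11_4 ln11_11_4_ok) (L (nat_lit 524) ln12_16_7 ln12_16_7_ok))))) (B (M (nat_lit 459) (B (M (nat_lit 460)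 (B (L (nat_lit 492) ln11_11_4 ln11_11_4_ok) (M (nat_lit 458) (B (L (nat_lit 490) ln11_11_5 ln11_11_5_ok) (L (nat_lit 457) ln9_14_2 ln9_14_2_ok))))) (M (nat_lit 491) (B (M (nat_lit 362) (B (L (nat_lit 330) ln11_14_7 ln11_14_7_ok) (L (nat_lit 394) ln11_15_7 ln11_15_7_ok))) (M (nat_lit 364) (B (L (nat_lit 332) ln11_14_6 ln11_14_6_ok) (L (nat_lit 396) ln11_15_6 ln11_15_6_ok))))))) (B (M (nat_lit 460) (B (L (nat_lit 331) ln11_10_4 ln11_10_4_ok) (M (nat_lit 492) (B (L (nat_lit 396) ln12_15_7 ln12_15_7_ok) (L (nat_lit 524) ln12_16_7 ln12_16_7_ok))))) (M (nat_lit 459) (B (M (nat_lit 491) (B (M (nat_lit 362) (B (L (nat_lit 330) ln11_14_7 ln11_14_7_ok) (L (nat_lit 394) ln11_15_7 ln11_15_7_ok))) (M (nat_lit 364) (B (L (nat_lit 332) ln11_14_6 ln11_14_6_ok) (L (nat_lit 396) ln11_15_6 ln11_15_6_ok))))) (B (M (nat_lit 491) (B (M (nat_lit 364) (B (L (nat_lit 332) ln11_14_6 ln11_14_6_ok) (L (nat_lit 396) ln11_15_6 ln11_15_6_ok)))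 (M (nat_lit 490) (B (L (nat_lit 458) ln11_11_5 ln11_11_5_ok) (L (nat_lit 522) ln11_12_5 ln11_12_5_ok))))) (B (M (nat_lit 491) (B (M (nat_lit 362) (B (L (nat_lit 330) ln11_14_7 ln11_14_7_ok) (L (nat_lit 394) ln11_15_7 ln11_15_7_ok))) (M (nat_lit 490) (B (L (nat_lit 458) ln11_11_5 ln11_11_5_ok) (L (nat_lit 522) ln11_12_5 ln11_12_5_ok))))) (M (nat_lit 331) (B (M (nat_lit 330) (B (L (nat_lit 298) ln11_13_7 ln11_13_7_ok) (L (nat_lit 362) ln11_14_7 ln11_14_7_ok))) (M (nat_lit 332) (B (L (nat_lit 300) ln11_13_6 ln11_13_6_ok) (L (nat_lit 364) ln11_14_6 ln11_14_6_ok)))))))))))))))))) (nat_lit 5954262831855697629735773636349645556550228267257391990779807214961966681262749432218079507607128734414888707833749839222743581891963650048) (nat_lit 68647976623682790764252232424139827093684712001256969528702353890756534676649187811768301145513701445407816382421416615717371002448295997404296568878158315520) (nat_lit 68647976623682790764252232424139827093684712001256969528702353890756534676649187811768301145513701445407816382421416615717371002448295997404296568878158315520)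 (by decide +kernel)
theorem c20_s6505 : Sem (nat_lit 5954262831855697629735773636349645556550228267257391990779807214961966681262749432218079507607128734414888707833749839222743581891963650048) (nat_lit 68647976623682790764252232421670418152200079788583358089553550422161287594237515944140775293049965410586482384924327211176298010658865510086417071906498805760) (nat_lit 68647976623682790764252232421670418152200079788583358089553550422161287594237515944140775293049965410586482384924327211176298010658865510086417071906498805760) :=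
  sem_of_chk (M (nat_lit 395) (B (M (nat_lit 394) (B (M (nat_lit 393) (B (L (nat_lit 392) ln8_12_0 ln8_12_0_ok) (L (nat_lit 396) ln9_12_0 ln9_12_0_ok))) (B (M (nat_lit 393) (B (L (nat_lit 396) ln9_12_0 ln9_12_0_ok) (L (nat_lit 426) ln13_13_3 ln13_13_3_ok))) (B (M (nat_lit 426) (B (M (nat_lit 458) (B (L (nat_lit 457) ln13_13_1 ln13_13_1_ok) (M (nat_lit 363) (B (L (nat_lit 331) ln11_10_5 ln11_10_5_ok) (L (nat_lit 490) ln10_15_6 ln10_15_6_ok))))) (M (nat_lit 397) (B (L (nat_lit 398) ln10_13_2 ln10_13_2_ok) (M (nat_lit 425) (B (L (nat_lit 396) ln13_12_1 ln13_12_1_ok) (L (nat_lit 460) ln9_13_0 ln9_13_0_ok))))))) (M (nat_lit 393) (B (L (nat_lit 392) ln8_12_0 ln8_12_0_ok) (L (nat_lit 426) ln13_13_3 ln13_13_3_ok))))))) (B (M (nat_lit 394) (B (M (nat_lit 393) (B (L (nat_lit 392) ln8_12_0 ln8_12_0_ok) (L (nat_lit 396) ln9_12_0 ln9_12_0_ok))) (B (M (nat_lit 393) (B (L (nat_lit 396) ln9_12_0 ln9_12_0_ok) (L (nat_lit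 426) ln13_13_3 ln13_13_3_ok))) (B (M (nat_lit 426) (B (M (nat_lit 397) (B (L (nat_lit 398) ln10_13_2 ln10_13_2_ok) (M (nat_lit 425) (B (L (nat_lit 396) ln13_12_1 ln13_12_1_ok) (L (nat_lit 460) ln9_13_0 ln9_13_0_ok))))) (M (nat_lit 458) (B (L (nat_lit 457) ln13_13_1 ln13_13_1_ok) (M (nat_lit 490) (B (L (nat_lit 363) ln10_15_6 ln10_15_6_ok) (L (nat_lit 522) ln10_16_6 ln10_16_6_ok))))))) (M (nat_lit 393) (B (L (nat_lit 392) ln8_12_0 ln8_12_0_ok) (L (nat_lit 426) ln13_13_3 ln13_13_3_ok))))))) (B (M (nat_lit 394) (B (M (nat_lit 393) (B (L (nat_lit 392) ln8_12_0 ln8_12_0_ok) (L (nat_lit 396) ln9_12_0 ln9_12_0_ok))) (B (M (nat_lit 393) (B (L (nat_lit 396) ln9_12_0 ln9_12_0_ok) (L (nat_lit 426) ln13_13_3 ln13_13_3_ok))) (B (M (nat_lit 397) (B (M (nat_lit 426) (B (L (nat_lit 398) ln10_13_2 ln10_13_2_ok) (M (nat_lit 425) (B (L (nat_lit 396) ln13_12_1 ln13_12_1_ok) (L (nat_lit 460) ln9_13_0 ln9_13_0_ok))))) (B (M (nat_lit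 460) (B (M (nat_lit 365) (B (L (nat_lit 333) ln13_10_5 ln13_10_5_ok) (L (nat_lit 492) ln13_11_5 ln13_11_5_ok))) (M (nat_lit 426) (B (L (nat_lit 398) ln10_13_2 ln10_13_2_ok) (L (nat_lit 425) ln9_13_0 ln9_13_0_ok))))) (B (M (nat_lit 365) (B (M (nat_lit 366) (B (L (nat_lit 334) ln13_14_6 ln13_14_6_ok) (L (nat_lit 396) ln10_12_2 ln10_12_2_ok))) (M (nat_lit 460) (B (L (nat_lit 333) ln13_10_5 ln13_10_5_ok) (L (nat_lit 492) ln13_11_5 ln13_11_5_ok))))) (M (nat_lit 398) (B (L (nat_lit 426) ln10_13_2 ln10_13_2_ok) (M (nat_lit 399) (B (L (nat_lit 396) ln15_12_1 ln15_12_1_ok) (L (nat_lit 400) ln16_12_1 ln16_12_1_ok))))))))) (M (nat_lit 393) (B (L (nat_lit 392) ln8_12_0 ln8_12_0_ok) (L (nat_lit 426) ln13_13_3 ln13_13_3_ok))))))) (B (M (nat_lit 426) (B (M (nat_lit 425) (B (L (nat_lit 460) ln9_13_0 ln9_13_0_ok) (M (nat_lit 457) (B (L (nat_lit 456) ln12_13_1 ln12_13_1_ok) (L (nat_lit 458) ln13_13_1 ln13_13_1_ok))))) (B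 (M (nat_lit 394) (B (L (nat_lit 393) ln13_13_3 ln13_13_3_ok) (M (nat_lit 458) (B (L (nat_lit 457) ln13_13_1 ln13_13_1_ok) (M (nat_lit 363) (B (L (nat_lit 331) ln11_10_5 ln11_10_5_ok) (L (nat_lit 490) ln10_15_6 ln10_15_6_ok))))))) (M (nat_lit 425) (B (L (nat_lit 460) ln9_13_0 ln9_13_0_ok) (M (nat_lit 396) (B (L (nat_lit 424) ln8_13_2 ln8_13_2_ok) (L (nat_lit 397) ln9_13_2 ln9_13_2_ok)))))))) (B (M (nat_lit 426) (B (M (nat_lit 425) (B (L (nat_lit 460) ln9_13_0 ln9_13_0_ok) (M (nat_lit 396) (B (L (nat_lit 424) ln8_13_2 ln8_13_2_ok) (L (nat_lit 397) ln9_13_2 ln9_13_2_ok))))) (B (M (nat_lit 425) (B (L (nat_lit 460) ln9_13_0 ln9_13_0_ok) (M (nat_lit 457) (B (L (nat_lit 456) ln12_13_1 ln12_13_1_ok) (L (nat_lit 458) ln13_13_1 ln13_13_1_ok))))) (M (nat_lit 458) (B (L (nat_lit 457) ln13_13_1 ln13_13_1_ok) (M (nat_lit 363) (B (L (nat_lit 331) ln11_10_5 ln11_10_5_ok) (M (nat_lit 490) (B (L (nat_lit 459) ln11_11_5 ln11_11_5_ok)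 (L (nat_lit 522) ln10_16_6 ln10_16_6_ok)))))))))) (B (M (nat_lit 426) (B (M (nat_lit 425) (B (L (nat_lit 460) ln9_13_0 ln9_13_0_ok) (M (nat_lit 457) (B (L (nat_lit 456) ln12_13_1 ln12_13_1_ok) (L (nat_lit 458) ln13_13_1 ln13_13_1_ok))))) (B (M (nat_lit 458) (B (L (nat_lit 457) ln13_13_1 ln13_13_1_ok) (M (nat_lit 363) (B (L (nat_lit 331) ln11_10_5 ln11_10_5_ok) (M (nat_lit 490) (B (L (nat_lit 459) ln11_11_5 ln11_11_5_ok) (L (nat_lit 522) ln10_16_6 ln10_16_6_ok))))))) (M (nat_lit 425) (B (L (nat_lit 460) ln9_13_0 ln9_13_0_ok) (M (nat_lit 393) (B (L (nat_lit 392) ln12_13_3 ln12_13_3_ok) (L (nat_lit 394) ln13_13_3 ln13_13_3_ok)))))))) (B (M (nat_lit 363) (B (M (nat_lit 460) (B (L (nat_lit 331) ln11_10_4 ln11_10_4_ok) (M (nat_lit 492) (B (L (nat_lit 459) ln11_11_4 ln11_11_4_ok) (L (nat_lit 524) ln12_16_7 ln12_16_7_ok))))) (B (M (nat_lit 459) (B (M (nat_lit 460) (B (L (nat_lit 492) ln11_11_4 ln11_11_4_ok) (M (nat_lit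 458) (B (L (nat_lit 490) ln11_11_5 ln11_11_5_ok) (L (nat_lit 457) ln9_14_2 ln9_14_2_ok))))) (M (nat_lit 491) (B (M (nat_lit 362) (B (L (nat_lit 330) ln11_14_7 ln11_14_7_ok) (L (nat_lit 394) ln11_15_7 ln11_15_7_ok))) (M (nat_lit 364) (B (L (nat_lit 332) ln11_14_6 ln11_14_6_ok) (L (nat_lit 396) ln11_15_6 ln11_15_6_ok))))))) (B (M (nat_lit 460) (B (L (nat_lit 331) ln11_10_4 ln11_10_4_ok) (M (nat_lit 492) (B (L (nat_lit 396) ln12_15_7 ln12_15_7_ok) (L (nat_lit 524) ln12_16_7 ln12_16_7_ok))))) (M (nat_lit 459) (B (M (nat_lit 458) (B (L (nat_lit 490) ln11_11_5 ln11_11_5_ok) (M (nat_lit 426) (B (L (nat_lit 331) ln11_10_5 ln11_10_5_ok) (L (nat_lit 457) ln13_13_1 ln13_13_1_ok))))) (B (M (nat_lit 491) (B (M (nat_lit 362) (B (L (nat_lit 330) ln11_14_7 ln11_14_7_ok) (L (nat_lit 394) ln11_15_7 ln11_15_7_ok))) (M (nat_lit 490) (B (L (nat_lit 458) ln11_11_5 ln11_11_5_ok) (L (nat_lit 522) ln11_12_5 ln11_12_5_ok))))) (M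 (nat_lit 331) (B (M (nat_lit 330) (B (L (nat_lit 298) ln11_13_7 ln11_13_7_ok) (L (nat_lit 362) ln11_14_7 ln11_14_7_ok))) (M (nat_lit 332) (B (L (nat_lit 300) ln11_13_6 ln11_13_6_ok) (L (nat_lit 364) ln11_14_6 ln11_14_6_ok)))))))))))) (B (M (nat_lit 363) (B (M (nat_lit 460) (B (L (nat_lit 331) ln11_10_4 ln11_10_4_ok) (M (nat_lit 492) (B (L (nat_lit 459) ln11_11_4 ln11_11_4_ok) (L (nat_lit 524) ln12_16_7 ln12_16_7_ok))))) (B (M (nat_lit 459) (B (M (nat_lit 460) (B (L (nat_lit 492) ln11_11_4 ln11_11_4_ok) (M (nat_lit 458) (B (L (nat_lit 490) ln11_11_5 ln11_11_5_ok) (L (nat_lit 457) ln9_14_2 ln9_14_2_ok))))) (M (nat_lit 491) (B (M (nat_lit 362) (B (L (nat_lit 330) ln11_14_7 ln11_14_7_ok) (L (nat_lit 394) ln11_15_7 ln11_15_7_ok))) (M (nat_lit 364) (B (L (nat_lit 332) ln11_14_6 ln11_14_6_ok) (L (nat_lit 396) ln11_15_6 ln11_15_6_ok))))))) (B (M (nat_lit 460) (B (L (nat_lit 331) ln11_10_4 ln11_10_4_ok) (M (nat_lit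 492) (B (L (nat_lit 396) ln12_15_7 ln12_15_7_ok) (L (nat_lit 524) ln12_16_7 ln12_16_7_ok))))) (M (nat_lit 459) (B (M (nat_lit 491) (B (M (nat_lit 362) (B (L (nat_lit 330) ln11_14_7 ln11_14_7_ok) (L (nat_lit 394) ln11_15_7 ln11_15_7_ok))) (M (nat_lit 364) (B (L (nat_lit 332) ln11_14_6 ln11_14_6_ok) (L (nat_lit 396) ln11_15_6 ln11_15_6_ok))))) (B (M (nat_lit 491) (B (M (nat_lit 364) (B (L (nat_lit 332) ln11_14_6 ln11_14_6_ok) (L (nat_lit 396) ln11_15_6 ln11_15_6_ok))) (M (nat_lit 490) (B (L (nat_lit 458) ln11_11_5 ln11_11_5_ok) (L (nat_lit 522) ln11_12_5 ln11_12_5_ok))))) (B (M (nat_lit 491) (B (M (nat_lit 362) (B (L (nat_lit 330) ln11_14_7 ln11_14_7_ok) (L (nat_lit 394) ln11_15_7 ln11_15_7_ok))) (M (nat_lit 490) (B (L (nat_lit 458) ln11_11_5 ln11_11_5_ok) (L (nat_lit 522) ln11_12_5 ln11_12_5_ok))))) (M (nat_lit 331) (B (M (nat_lit 330) (B (L (nat_lit 298) ln11_13_7 ln11_13_7_ok) (L (nat_lit 362) ln11_14_7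 ln11_14_7_ok))) (M (nat_lit 332) (B (L (nat_lit 300) ln11_13_6 ln11_13_6_ok) (L (nat_lit 364) ln11_14_6 ln11_14_6_ok))))))))))))) (M (nat_lit 426) (B (M (nat_lit 458) (B (L (nat_lit 457) ln13_13_1 ln13_13_1_ok) (M (nat_lit 363) (B (L (nat_lit 331) ln11_10_5 ln11_10_5_ok) (M (nat_lit 490) (B (L (nat_lit 459) ln11_11_5 ln11_11_5_ok) (L (nat_lit 522) ln10_16_6 ln10_16_6_ok))))))) (M (nat_lit 425) (B (M (nat_lit 393) (B (L (nat_lit 392) ln12_13_3 ln12_13_3_ok) (L (nat_lit 394) ln13_13_3 ln13_13_3_ok))) (M (nat_lit 397) (B (L (nat_lit 396) ln9_13_2 ln9_13_2_ok) (L (nat_lit 398) ln10_13_2 ln10_13_2_ok)))))))))))))))) (nat_lit 5954262831855697629735773636349645556550228267257391990779807214961966681262749432218079507607128734414888707833749839222743581891963650048) (nat_lit 68647976623682790764252232421670418152200079788583358089553550422161287594237515944140775293049965410586482384924327211176298010658865510086417071906498805760)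 (nat_lit 68647976623682790764252232421670418152200079788583358089553550422161287594237515944140775293049965410586482384924327211176298010658865510086417071906498805760) (by decide +kernel)
noncomputable def c20_n6507 : Cert := (M (nat_lit 427) (B (M (nat_lit 426) (B (M (nat_lit 425) (B (L (nat_lit 460) ln9_13_0 ln9_13_0_ok) (M (nat_lit 397) (B (L (nat_lit 396) ln9_13_2 ln9_13_2_ok) (L (nat_lit 398) ln10_13_2 ln10_13_2_ok))))) (M (nat_lit 430) (B (M (nat_lit 394) (B (L (nat_lit 393) ln13_13_3 ln13_13_3_ok) (L (nat_lit 395) ln14_13_3 ln14_13_3_ok))) (M (nat_lit 458) (B (L (nat_lit 457) ln13_13_1 ln13_13_1_ok) (L (nat_lit 459) ln14_13_1 ln14_13_1_ok))))))) (B (M (nat_lit 426) (B (M (nat_lit 425) (B (L (nat_lit 460) ln9_13_0 ln9_13_0_ok) (M (nat_lit 457) (B (L (nat_lit 456) ln12_13_1 ln12_13_1_ok) (L (nat_lit 458) ln13_13_1 ln13_13_1_ok))))) (B (M (nat_lit 430) (B (M (nat_lit 398) (B (L (nat_lit 397) ln10_13_2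 ln10_13_2_ok) (L (nat_lit 399) ln11_13_2 ln11_13_2_ok))) (M (nat_lit 458) (B (L (nat_lit 457) ln13_13_1 ln13_13_1_ok) (L (nat_lit 459) ln14_13_1 ln14_13_1_ok))))) (M (nat_lit 425) (B (L (nat_lit 460) ln9_13_0 ln9_13_0_ok) (M (nat_lit 397) (B (L (nat_lit 396) ln9_13_2 ln9_13_2_ok) (L (nat_lit 398) ln10_13_2 ln10_13_2_ok)))))))) (B (M (nat_lit 426) (B (M (nat_lit 425) (B (L (nat_lit 460) ln9_13_0 ln9_13_0_ok) (M (nat_lit 457) (B (L (nat_lit 456) ln12_13_1 ln12_13_1_ok) (L (nat_lit 458) ln13_13_1 ln13_13_1_ok))))) (B (M (nat_lit 430) (B (M (nat_lit 398) (B (L (nat_lit 397) ln10_13_2 ln10_13_2_ok) (L (nat_lit 399) ln11_13_2 ln11_13_2_ok))) (M (nat_lit 458) (B (L (nat_lit 457) ln13_13_1 ln13_13_1_ok) (L (nat_lit 459) ln14_13_1 ln14_13_1_ok))))) (M (nat_lit 425) (B (L (nat_lit 460) ln9_13_0 ln9_13_0_ok) (M (nat_lit 393) (B (L (nat_lit 392) ln12_13_3 ln12_13_3_ok) (L (nat_lit 394) ln13_13_3 ln13_13_3_ok))))))))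 (B (M (nat_lit 426) (B (M (nat_lit 425) (B (L (nat_lit 460) ln9_13_0 ln9_13_0_ok) (M (nat_lit 393) (B (L (nat_lit 392) ln12_13_3 ln12_13_3_ok) (L (nat_lit 394) ln13_13_3 ln13_13_3_ok))))) (B (M (nat_lit 425) (B (L (nat_lit 460) ln9_13_0 ln9_13_0_ok) (M (nat_lit 457) (B (L (nat_lit 456) ln12_13_1 ln12_13_1_ok) (L (nat_lit 458) ln13_13_1 ln13_13_1_ok))))) (M (nat_lit 430) (B (M (nat_lit 394) (B (L (nat_lit 393) ln13_13_3 ln13_13_3_ok) (L (nat_lit 395) ln14_13_3 ln14_13_3_ok))) (M (nat_lit 458) (B (L (nat_lit 457) ln13_13_1 ln13_13_1_ok) (L (nat_lit 459) ln14_13_1 ln14_13_1_ok)))))))) (B (M (nat_lit 458) (B (M (nat_lit 459) (B (L (nat_lit 430) ln14_13_1 ln14_13_1_ok) (M (nat_lit 457) (B (L (nat_lit 426) ln13_13_1 ln13_13_1_ok) (L (nat_lit 456) ln8_14_2 ln8_14_2_ok))))) (B (M (nat_lit 459) (B (L (nat_lit 430) ln14_13_1 ln14_13_1_ok) (M (nat_lit 457) (B (L (nat_lit 456) ln8_14_2 ln8_14_2_ok) (L (nat_lit 460)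 ln9_14_2 ln9_14_2_ok))))) (B (M (nat_lit 457) (B (L (nat_lit 426) ln13_13_1 ln13_13_1_ok) (M (nat_lit 459) (B (L (nat_lit 456) ln8_14_2 ln8_14_2_ok) (L (nat_lit 460) ln9_14_2 ln9_14_2_ok))))) (B (M (nat_lit 457) (B (L (nat_lit 426) ln13_13_1 ln13_13_1_ok) (M (nat_lit 459) (B (L (nat_lit 430) ln14_13_1 ln14_13_1_ok) (L (nat_lit 460) ln9_14_2 ln9_14_2_ok))))) (B (M (nat_lit 430) (B (L (nat_lit 459) ln14_13_1 ln14_13_1_ok) (M (nat_lit 426) (B (M (nat_lit 394) (B (L (nat_lit 393) ln13_13_3 ln13_13_3_ok) (L (nat_lit 395) ln14_13_3 ln14_13_3_ok))) (M (nat_lit 398) (B (L (nat_lit 397) ln10_13_2 ln10_13_2_ok) (L (nat_lit 399) ln11_13_2 ln11_13_2_ok))))))) (M (nat_lit 426) (B (L (nat_lit 457) ln13_13_1 ln13_13_1_ok) (M (nat_lit 430) (B (M (nat_lit 394) (B (L (nat_lit 393) ln13_13_3 ln13_13_3_ok) (L (nat_lit 395) ln14_13_3 ln14_13_3_ok))) (M (nat_lit 398) (B (L (nat_lit 397) ln10_13_2 ln10_13_2_ok) (L (nat_lit 399)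 ln11_13_2 ln11_13_2_ok))))))))))))) (B (K (nat_lit 5954262831855697629735773636349645556550228267257391990779807214961966681262749432218079507607128734414888707833749839222743581891963650048) (nat_lit 68647976623682790764252232424139827093684712001256969528702353890756534676649187811768301145513701445407816382421416615717371002448295997404296568878158315520) (nat_lit 68647976623682790764252232424139827093684712001256969528702353890756534676649187811768301145513701445407816382421416615717371002448295997404296568878158315520) c20_s6417) (B (K (nat_lit 5954262831855697629735773636349645556550228267257391990779807214961966681262749432218079507607128734414888707833749839222743581891963650048) (nat_lit 68647976623682790764252232421670418152200079788583358089553550422161287594237515944140775293049965410586482384924327211176298010658865510086417071906498805760) (nat_lit 68647976623682790764252232421670418152200079788583358089553550422161287594237515944140775293049965410586482384924327211176298010658865510086417071906498805760)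 c20_s6505) (B (M (nat_lit 426) (B (M (nat_lit 425) (B (L (nat_lit 460) ln9_13_0 ln9_13_0_ok) (M (nat_lit 393) (B (L (nat_lit 392) ln12_13_3 ln12_13_3_ok) (L (nat_lit 394) ln13_13_3 ln13_13_3_ok))))) (B (M (nat_lit 425) (B (L (nat_lit 460) ln9_13_0 ln9_13_0_ok) (M (nat_lit 397) (B (L (nat_lit 396) ln9_13_2 ln9_13_2_ok) (L (nat_lit 398) ln10_13_2 ln10_13_2_ok))))) (M (nat_lit 430) (B (M (nat_lit 394) (B (L (nat_lit 393) ln13_13_3 ln13_13_3_ok) (L (nat_lit 395) ln14_13_3 ln14_13_3_ok))) (M (nat_lit 398) (B (L (nat_lit 397) ln10_13_2 ln10_13_2_ok) (L (nat_lit 399) ln11_13_2 ln11_13_2_ok)))))))) (M (nat_lit 426) (B (M (nat_lit 425) (B (M (nat_lit 393) (B (L (nat_lit 392) ln12_13_3 ln12_13_3_ok) (L (nat_lit 394) ln13_13_3 ln13_13_3_ok))) (M (nat_lit 457) (B (L (nat_lit 456) ln12_13_1 ln12_13_1_ok) (L (nat_lit 458) ln13_13_1 ln13_13_1_ok))))) (B (M (nat_lit 425) (B (M (nat_lit 397) (B (L (nat_lit 396) ln9_13_2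 ln9_13_2_ok) (L (nat_lit 398) ln10_13_2 ln10_13_2_ok))) (M (nat_lit 457) (B (L (nat_lit 456) ln12_13_1 ln12_13_1_ok) (L (nat_lit 458) ln13_13_1 ln13_13_1_ok))))) (M (nat_lit 430) (B (M (nat_lit 394) (B (L (nat_lit 393) ln13_13_3 ln13_13_3_ok) (L (nat_lit 395) ln14_13_3 ln14_13_3_ok))) (M (nat_lit 398) (B (L (nat_lit 397) ln10_13_2 ln10_13_2_ok) (L (nat_lit 399) ln11_13_2 ln11_13_2_ok)))))))))))))))))
theorem c20_s6570 : Sem (nat_lit 5954262831855697629735773636349645556550228267257391990779807214961966681262749432218079507607128734414888707833749839222743581891963650048) (nat_lit 176904488704698536858294876167176896944287855023369756720074906507777296435974254538861969497679936004012417262120330366155535423990218446622916522696555259804577169408) (nat_lit 176904488704698536858294876167176896944287855023369756720074906507777296435974254538861969497679936004012417262120330366155535423990218446622916522696555259804577169408)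 :=
  sem_of_chk (M (nat_lit 459) (B (M (nat_lit 458) (B (L (nat_lit 430) ln14_13_1 ln14_13_1_ok) (M (nat_lit 457) (B (L (nat_lit 456) ln8_14_2 ln8_14_2_ok) (L (nat_lit 460) ln9_14_2 ln9_14_2_ok))))) (B (M (nat_lit 491) (B (M (nat_lit 396) (B (L (nat_lit 523) ln11_16_6 ln11_16_6_ok) (M (nat_lit 364) (B (L (nat_lit 332) ln12_10_5 ln12_10_5_ok) (L (nat_lit 395) ln11_15_6 ln11_15_6_ok))))) (B (M (nat_lit 396) (B (L (nat_lit 523) ln11_16_6 ln11_16_6_ok) (M (nat_lit 364) (B (L (nat_lit 395) ln11_15_6 ln11_15_6_ok) (L (nat_lit 460) ln12_11_5 ln12_11_5_ok))))) (B (M (nat_lit 490) (B (M (nat_lit 522) (B (L (nat_lit 395) ln11_12_5 ln11_12_5_ok) (M (nat_lit 554) (B (L (nat_lit 458) ln10_17_6 ln10_17_6_ok) (L (nat_lit 523) ln11_13_5 ln11_13_5_ok))))) (B (M (nat_lit 460) (B (L (nat_lit 462) ln14_14_1 ln14_14_1_ok) (M (nat_lit 458) (B (L (nat_lit 457) ln9_14_2 ln9_14_2_ok) (L (nat_lit 489) ln13_14_1 ln13_14_1_ok)))))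 (M (nat_lit 523) (B (M (nat_lit 522) (B (L (nat_lit 395) ln11_12_5 ln11_12_5_ok) (L (nat_lit 554) ln11_13_5 ln11_13_5_ok))) (M (nat_lit 460) (B (L (nat_lit 555) ln11_17_6 ln11_17_6_ok) (L (nat_lit 462) ln14_14_1 ln14_14_1_ok)))))))) (B (M (nat_lit 396) (B (L (nat_lit 523) ln11_16_6 ln11_16_6_ok) (M (nat_lit 364) (B (L (nat_lit 332) ln12_10_5 ln12_10_5_ok) (L (nat_lit 460) ln12_11_5 ln12_11_5_ok))))) (M (nat_lit 395) (B (M (nat_lit 396) (B (L (nat_lit 364) ln11_15_6 ln11_15_6_ok) (M (nat_lit 394) (B (L (nat_lit 362) ln11_15_7 ln11_15_7_ok) (L (nat_lit 393) ln9_12_0 ln9_12_0_ok))))) (B (M (nat_lit 363) (B (M (nat_lit 364) (B (L (nat_lit 332) ln11_14_6 ln11_14_6_ok) (L (nat_lit 396) ln11_15_6 ln11_15_6_ok))) (M (nat_lit 490) (B (L (nat_lit 458) ln11_11_5 ln11_11_5_ok) (L (nat_lit 522) ln11_12_5 ln11_12_5_ok))))) (M (nat_lit 363) (B (M (nat_lit 362) (B (L (nat_lit 330) ln11_14_7 ln11_14_7_ok) (L (nat_lit 394)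 ln11_15_7 ln11_15_7_ok))) (M (nat_lit 490) (B (L (nat_lit 458) ln11_11_5 ln11_11_5_ok) (L (nat_lit 522) ln11_12_5 ln11_12_5_ok))))))))))))) (B (M (nat_lit 458) (B (L (nat_lit 430) ln14_13_1 ln14_13_1_ok) (M (nat_lit 491) (B (M (nat_lit 396) (B (L (nat_lit 523) ln11_16_6 ln11_16_6_ok) (M (nat_lit 364) (B (L (nat_lit 332) ln12_10_5 ln12_10_5_ok) (L (nat_lit 395) ln11_15_6 ln11_15_6_ok))))) (B (M (nat_lit 396) (B (L (nat_lit 523) ln11_16_6 ln11_16_6_ok) (M (nat_lit 364) (B (L (nat_lit 395) ln11_15_6 ln11_15_6_ok) (L (nat_lit 460) ln12_11_5 ln12_11_5_ok))))) (B (M (nat_lit 490) (B (M (nat_lit 395) (B (L (nat_lit 363) ln11_11_5 ln11_11_5_ok) (L (nat_lit 522) ln11_12_5 ln11_12_5_ok))) (M (nat_lit 460) (B (L (nat_lit 489) ln13_14_1 ln13_14_1_ok) (L (nat_lit 462) ln14_14_1 ln14_14_1_ok))))) (M (nat_lit 396) (B (L (nat_lit 523) ln11_16_6 ln11_16_6_ok) (M (nat_lit 364) (B (L (nat_lit 332) ln12_10_5 ln12_10_5_ok) (L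 (nat_lit 460) ln12_11_5 ln12_11_5_ok))))))))))) (B (M (nat_lit 395) (B (M (nat_lit 394) (B (L (nat_lit 430) ln14_13_3 ln14_13_3_ok) (M (nat_lit 393) (B (L (nat_lit 392) ln8_12_0 ln8_12_0_ok) (L (nat_lit 396) ln9_12_0 ln9_12_0_ok))))) (B (M (nat_lit 396) (B (M (nat_lit 364) (B (L (nat_lit 332) ln12_10_5 ln12_10_5_ok) (L (nat_lit 491) ln11_15_6 ln11_15_6_ok))) (M (nat_lit 394) (B (L (nat_lit 393) ln9_12_0 ln9_12_0_ok) (L (nat_lit 430) ln14_13_3 ln14_13_3_ok))))) (B (M (nat_lit 491) (B (M (nat_lit 394) (B (L (nat_lit 362) ln11_15_7 ln11_15_7_ok) (L (nat_lit 430) ln14_13_3 ln14_13_3_ok))) (M (nat_lit 396) (B (L (nat_lit 364) ln11_15_6 ln11_15_6_ok) (L (nat_lit 523) ln11_16_6 ln11_16_6_ok))))) (B (M (nat_lit 491) (B (M (nat_lit 396) (B (L (nat_lit 364) ln11_15_6 ln11_15_6_ok) (L (nat_lit 523) ln11_16_6 ln11_16_6_ok))) (M (nat_lit 462) (B (M (nat_lit 463) (B (L (nat_lit 430) ln11_13_0 ln11_13_0_ok) (L (nat_lit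 460) ln15_14_3 ln15_14_3_ok))) (B (M (nat_lit 463) (B (L (nat_lit 460) ln15_14_3 ln15_14_3_ok) (L (nat_lit 464) ln16_14_3 ln16_14_3_ok))) (B (M (nat_lit 463) (B (L (nat_lit 430) ln11_13_0 ln11_13_0_ok) (L (nat_lit 464) ln16_14_3 ln16_14_3_ok))) (M (nat_lit 490) (B (L (nat_lit 522) ln11_12_5 ln11_12_5_ok) (L (nat_lit 460) ln14_14_1 ln14_14_1_ok))))))))) (B (M (nat_lit 394) (B (L (nat_lit 430) ln14_13_3 ln14_13_3_ok) (M (nat_lit 362) (B (L (nat_lit 491) ln11_15_7 ln11_15_7_ok) (M (nat_lit 330) (B (L (nat_lit 298) ln10_9_4 ln10_9_4_ok) (L (nat_lit 363) ln11_14_7 ln11_14_7_ok))))))) (M (nat_lit 363) (B (M (nat_lit 332) (B (L (nat_lit 364) ln11_14_6 ln11_14_6_ok) (M (nat_lit 331) (B (L (nat_lit 300) ln11_13_6 ln11_13_6_ok) (L (nat_lit 460) ln11_10_4 ln11_10_4_ok))))) (B (M (nat_lit 330) (B (L (nat_lit 362) ln11_14_7 ln11_14_7_ok) (M (nat_lit 331) (B (L (nat_lit 298) ln11_13_7 ln11_13_7_ok) (L (nat_lit 460) ln11_10_4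 ln11_10_4_ok))))) (M (nat_lit 491) (B (M (nat_lit 362) (B (L (nat_lit 330) ln11_14_7 ln11_14_7_ok) (L (nat_lit 394) ln11_15_7 ln11_15_7_ok))) (M (nat_lit 364) (B (L (nat_lit 332) ln11_14_6 ln11_14_6_ok) (L (nat_lit 396) ln11_15_6 ln11_15_6_ok)))))))))))))) (M (nat_lit 395) (B (M (nat_lit 430) (B (L (nat_lit 394) ln14_13_3 ln14_13_3_ok) (L (nat_lit 458) ln14_13_1 ln14_13_1_ok))) (B (M (nat_lit 458) (B (L (nat_lit 430) ln14_13_1 ln14_13_1_ok) (M (nat_lit 490) (B (L (nat_lit 363) ln11_11_5 ln11_11_5_ok) (M (nat_lit 522) (B (L (nat_lit 491) ln11_12_5 ln11_12_5_ok) (L (nat_lit 554) ln10_17_6 ln10_17_6_ok))))))) (B (M (nat_lit 491) (B (M (nat_lit 396) (B (L (nat_lit 364) ln11_15_6 ln11_15_6_ok) (L (nat_lit 523) ln11_16_6 ln11_16_6_ok))) (M (nat_lit 363) (B (M (nat_lit 362) (B (L (nat_lit 330) ln11_14_7 ln11_14_7_ok) (L (nat_lit 394) ln11_15_7 ln11_15_7_ok))) (M (nat_lit 490) (B (L (nat_lit 458) ln11_11_5 ln11_11_5_ok)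 (L (nat_lit 522) ln11_12_5 ln11_12_5_ok))))))) (M (nat_lit 394) (B (L (nat_lit 430) ln14_13_3 ln14_13_3_ok) (M (nat_lit 393) (B (L (nat_lit 392) ln8_12_0 ln8_12_0_ok) (L (nat_lit 396) ln9_12_0 ln9_12_0_ok)))))))))))))) (nat_lit 5954262831855697629735773636349645556550228267257391990779807214961966681262749432218079507607128734414888707833749839222743581891963650048) (nat_lit 176904488704698536858294876167176896944287855023369756720074906507777296435974254538861969497679936004012417262120330366155535423990218446622916522696555259804577169408) (nat_lit 176904488704698536858294876167176896944287855023369756720074906507777296435974254538861969497679936004012417262120330366155535423990218446622916522696555259804577169408) (by decide +kernel)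
theorem c20_s6572 : Sem (nat_lit 5954262830815946494440468064007740237496571878468728087513875999273036838532266441790969898967138332125836366047228135112217242456098340864) (nat_lit 1646231155477716819743627711960244615131784886259561745164372907930173528475211677865623886954478491253236513351931925793404224981027640628604565348441774927679150861088968409088) (nat_lit 1646231155477716819743627711960244615131784886259561745164372907930173528475211677865623886954478491253236513351931925793404224981027640628604565348441774927679150861088968409088) :=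
  sem_of_chk (M (nat_lit 428) (B c20_n3918 (B (K (nat_lit 5954262831509113917970671778902343783532342804327837356357830143065656733685921768742376304727131933651871260571575937852568135413341880320) (nat_lit 1179363258058782769798647847718537935082982131877328451421513463323575925008131561014372434104215456689146596065837517833931220203249912756080431869009840645302428631040) (nat_lit 1179363258058782769798647847718537935082982131877328451421513463323575925008131561014372434104215456689146596065837517833931220203249912756080431869009840645302428631040) c20_s4071) (B c20_n4082 (B c20_n4089 (B (K (nat_lit 5954262831509113917970671778902343783532342804327837356357830143065656733685921768742376304727131933651871260571575937852568135413341880320) (nat_lit 353808977409397073871628272248119360337720707326454092909029335839273984433419045102963552365285390795666248064435698686494427638086462902765756602648326194762637901824)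 (nat_lit 353808977409397073871628272248119360337720707326454092909029335839273984433419045102963552365285390795666248064435698686494427638086462902765756602648326194762637901824) c20_s4550) (B c20_n4603 (B c20_n4675 (B (K (nat_lit 5954262831509113917970671778902343783532342804327837356357830143065656733685921768742376304727131933651871260571575937852568135413341880320) (nat_lit 353808977409397073718188087455167536831995871741996499320119636536561034107379763664198206596586221092306963362906643348239552810622726749612319281416199285997754646528) (nat_lit 353808977409397073718188087455167536831995871741996499320119636536561034107379763664198206596586221092306963362906643348239552810622726749612319281416199285997754646528) c20_s4768) (B (K (nat_lit 5954262831509113917970671778902343783532342804327837356357830143065656733685921768742376304727131933651871260571575937852568135413341880320) (nat_lit 633165829156899435381691659290046499501215846151347750959619446112266608915223571738151888267623734252665901822129965928353809347062538955676663587106119135077229437469061021696)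 (nat_lit 633165829156899435381691659290046499501215846151347750959619446112266608915223571738151888267623734252665901822129965928353809347062538955676663587106119135077229437469061021696) c20_s5227) (B (M (nat_lit 427) (B (M (nat_lit 462) (B (L (nat_lit 426) ln10_13_0 ln10_13_0_ok) (M (nat_lit 463) (B (L (nat_lit 460) ln15_14_3 ln15_14_3_ok) (L (nat_lit 464) ln16_14_3 ln16_14_3_ok))))) (B (M (nat_lit 462) (B (M (nat_lit 463) (B (L (nat_lit 430) ln11_13_0 ln11_13_0_ok) (L (nat_lit 460) ln15_14_3 ln15_14_3_ok))) (B (M (nat_lit 463) (B (L (nat_lit 460) ln15_14_3 ln15_14_3_ok) (L (nat_lit 464) ln16_14_3 ln16_14_3_ok))) (B (M (nat_lit 463) (B (L (nat_lit 430) ln11_13_0 ln11_13_0_ok) (L (nat_lit 464) ln16_14_3 ln16_14_3_ok))) (K (nat_lit 17862788490714920924495894904786711847400288320758411090431742638337560777712661007994393682501430992562421861830814898485774494975186173952) (nat_lit 2830471819343824566332425779146423744789560460722446084637219136328402872774501576762142161958938919039098507888832736344663687321506098897296064630056701240129756332032)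 (nat_lit 2830471819343824566332425779146423744789560460722446084637219136328402872774501576762142161958938919039098507888832736344663687321506098897296064630056701240129756332032) c20_s5418))))) (B (M (nat_lit 462) (B (L (nat_lit 426) ln10_13_0 ln10_13_0_ok) (M (nat_lit 463) (B (L (nat_lit 430) ln11_13_0 ln11_13_0_ok) (L (nat_lit 464) ln16_14_3 ln16_14_3_ok))))) (M (nat_lit 426) (B (M (nat_lit 425) (B (L (nat_lit 460) ln9_13_0 ln9_13_0_ok) (M (nat_lit 457) (B (L (nat_lit 456) ln12_13_1 ln12_13_1_ok) (L (nat_lit 458) ln13_13_1 ln13_13_1_ok))))) (B (M (nat_lit 430) (B (M (nat_lit 398) (B (L (nat_lit 397) ln10_13_2 ln10_13_2_ok) (L (nat_lit 399) ln11_13_2 ln11_13_2_ok))) (M (nat_lit 458) (B (L (nat_lit 457) ln13_13_1 ln13_13_1_ok) (L (nat_lit 459) ln14_13_1 ln14_13_1_ok))))) (M (nat_lit 425) (B (L (nat_lit 460) ln9_13_0 ln9_13_0_ok) (M (nat_lit 393) (B (L (nat_lit 392) ln12_13_3 ln12_13_3_ok) (L (nat_lit 394)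 ln13_13_3 ln13_13_3_ok)))))))))))) (B c20_n5461 (B (K (nat_lit 5954262831509113917970671778902343783532342804327837356357830143065656733685921768742376304727131933651871260571575937852568135413341880320) (nat_lit 176904488759616918152126435949126407517197898584665169739064605450760108911823071194515119242895704915989780215250547551476247167142485686566032902994980384881919393792) (nat_lit 176904488759616918152126435949126407517197898584665169739064605450760108911823071194515119242895704915989780215250547551476247167142485686566032902994980384881919393792) c20_s5492) (B (K (nat_lit 5954262831509113917970671778902343783532342804327837356357830143065656733685921768742376304727131933651871260571575937852568135413341880320) (nat_lit 1297299583834455937056196428374421337923875982230862739032527349918288518738177437207114437309890646730970599850871261641145523920610870871065091474766334113030932004864) (nat_lit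 1297299583834455937056196428374421337923875982230862739032527349918288518738177437207114437309890646730970599850871261641145523920610870871065091474766334113030932004864) c20_s5580) (B (K (nat_lit 5954262831509113917970671778902343783532342804327837356357830143065656733685921768742376304727131933651871260571575937852568135413341880320) (nat_lit 1297299583834455937260783341367930204799613692359175434782559337528237342776072778122484569297420167484204325171318379054843788025970181933573536425801988389042875531264) (nat_lit 1297299583834455937260783341367930204799613692359175434782559337528237342776072778122484569297420167484204325171318379054843788025970181933573536425801988389042875531264) c20_s5820) (B (K (nat_lit 5954262831509113917970671778902343783532342804327837356357830143065656733685921768742376304727131933651871260571575937852568135413341880320) (nat_lit 353808977423126669396476404671405958095515504754616468768491210786982240220073993989252226932327647724510887214428200859999041929947516999772671079999444007404223594496)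 (nat_lit 353808977423126669396476404671405958095515504754616468768491210786982240220073993989252226932327647724510887214428200859999041929947516999772671079999444007404223594496) c20_s5977) (B (K (nat_lit 5954262831509113917970671778902343783532342804327837356357830143065656733685921768742376304727131933651871260571575937852568135413341880320) (nat_lit 353808977409397074076215185241070015073286037282363784419947754613646950322679784645817358183739125998627169539098957896770484884754832726569105237118390333472105299968) (nat_lit 353808977409397074076215185241070015073286037282363784419947754613646950322679784645817358183739125998627169539098957896770484884754832726569105237118390333472105299968) c20_s6026) (B (K (nat_lit 5954262831509113917970671778902343783532342804327837356357830143065656733685921768742376304727131933651871260571575937852568135413341880320) (nat_lit 1297299583834455937056196428373304913643617867832749578378406783706643541871783555961023535564599945714886266533073011508047259569649012403074675551772693909363421609984)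 (nat_lit 1297299583834455937056196428373304913643617867832749578378406783706643541871783555961023535564599945714886266533073011508047259569649012403074675551772693909363421609984) c20_s6106) (B (M (nat_lit 427) (B (M (nat_lit 462) (B (L (nat_lit 426) ln10_13_0 ln10_13_0_ok) (M (nat_lit 463) (B (L (nat_lit 430) ln11_13_0 ln11_13_0_ok) (L (nat_lit 464) ln16_14_3 ln16_14_3_ok))))) (B (M (nat_lit 462) (B (M (nat_lit 463) (B (L (nat_lit 430) ln11_13_0 ln11_13_0_ok) (L (nat_lit 460) ln15_14_3 ln15_14_3_ok))) (B (M (nat_lit 463) (B (L (nat_lit 460) ln15_14_3 ln15_14_3_ok) (L (nat_lit 464) ln16_14_3 ln16_14_3_ok))) (B (M (nat_lit 463) (B (L (nat_lit 430) ln11_13_0 ln11_13_0_ok) (L (nat_lit 464) ln16_14_3 ln16_14_3_ok))) (K (nat_lit 17862788490714920924495894904786711847400288320758411090431742638337560777712661007994393682501430992562421861830814898485774494975186173952) (nat_lit 2830471819330094971000976212909522437046250574723343369965426895342282609762816734194808155906517000887379804986001250381591244649530968361323805570814535061218181251072)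 (nat_lit 2830471819330094971000976212909522437046250574723343369965426895342282609762816734194808155906517000887379804986001250381591244649530968361323805570814535061218181251072) c20_s6204))))) (B (M (nat_lit 462) (B (L (nat_lit 426) ln10_13_0 ln10_13_0_ok) (M (nat_lit 463) (B (L (nat_lit 460) ln15_14_3 ln15_14_3_ok) (L (nat_lit 464) ln16_14_3 ln16_14_3_ok))))) (M (nat_lit 426) (B (M (nat_lit 425) (B (L (nat_lit 460) ln9_13_0 ln9_13_0_ok) (M (nat_lit 393) (B (L (nat_lit 392) ln12_13_3 ln12_13_3_ok) (L (nat_lit 394) ln13_13_3 ln13_13_3_ok))))) (B (M (nat_lit 425) (B (L (nat_lit 460) ln9_13_0 ln9_13_0_ok) (M (nat_lit 397) (B (L (nat_lit 396) ln9_13_2 ln9_13_2_ok) (L (nat_lit 398) ln10_13_2 ln10_13_2_ok))))) (M (nat_lit 430) (B (M (nat_lit 394) (B (L (nat_lit 393) ln13_13_3 ln13_13_3_ok) (L (nat_lit 395) ln14_13_3 ln14_13_3_ok))) (M (nat_lit 398) (B (L (nat_lit 397) ln10_13_2 ln10_13_2_ok) (L (nat_lit 399)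 ln11_13_2 ln11_13_2_ok)))))))))))) (B (M (nat_lit 427) (B (M (nat_lit 462) (B (L (nat_lit 426) ln10_13_0 ln10_13_0_ok) (M (nat_lit 463) (B (L (nat_lit 430) ln11_13_0 ln11_13_0_ok) (L (nat_lit 464) ln16_14_3 ln16_14_3_ok))))) (B (K (nat_lit 5954262831855697629735773636349645556550228267257391990779807214961966681262749432218079507607128734414888707833749839222743581891963650048) (nat_lit 3125312633810466675115221334420674371201326639487664342731625681179286671512607125835981981363543683818447549822389460750560051391833860811643278901041965416879082176512) (nat_lit 3125312633810466675115221334420674371201326639487664342731625681179286671512607125835981981363543683818447549822389460750560051391833860811643278901041965416879082176512) c20_s6335) (B (M (nat_lit 426) (B (L (nat_lit 462) ln10_13_0 ln10_13_0_ok) (M (nat_lit 425) (B (M (nat_lit 393) (B (L (nat_lit 392) ln12_13_3 ln12_13_3_ok) (L (nat_lit 394) ln13_13_3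 ln13_13_3_ok))) (M (nat_lit 457) (B (L (nat_lit 456) ln12_13_1 ln12_13_1_ok) (L (nat_lit 458) ln13_13_1 ln13_13_1_ok))))))) (M (nat_lit 426) (B (M (nat_lit 430) (B (M (nat_lit 394) (B (L (nat_lit 393) ln13_13_3 ln13_13_3_ok) (L (nat_lit 395) ln14_13_3 ln14_13_3_ok))) (M (nat_lit 458) (B (L (nat_lit 457) ln13_13_1 ln13_13_1_ok) (L (nat_lit 459) ln14_13_1 ln14_13_1_ok))))) (B (M (nat_lit 425) (B (M (nat_lit 397) (B (L (nat_lit 396) ln9_13_2 ln9_13_2_ok) (L (nat_lit 398) ln10_13_2 ln10_13_2_ok))) (M (nat_lit 457) (B (L (nat_lit 456) ln12_13_1 ln12_13_1_ok) (L (nat_lit 458) ln13_13_1 ln13_13_1_ok))))) (M (nat_lit 425) (B (M (nat_lit 393) (B (L (nat_lit 392) ln12_13_3 ln12_13_3_ok) (L (nat_lit 394) ln13_13_3 ln13_13_3_ok))) (M (nat_lit 397) (B (L (nat_lit 396) ln9_13_2 ln9_13_2_ok) (L (nat_lit 398) ln10_13_2 ln10_13_2_ok)))))))))))) (B c20_n6507 (M (nat_lit 427) (B (M (nat_lit 462) (B (L (nat_lit 426) ln10_13_0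 ln10_13_0_ok) (M (nat_lit 463) (B (L (nat_lit 430) ln11_13_0 ln11_13_0_ok) (L (nat_lit 464) ln16_14_3 ln16_14_3_ok))))) (B (K (nat_lit 5954262831855697629735773636349645556550228267257391990779807214961966681262749432218079507607128734414888707833749839222743581891963650048) (nat_lit 176904488704698536858294876167176896944287855023369756720074906507777296435974254538861969497679936004012417262120330366155535423990218446622916522696555259804577169408) (nat_lit 176904488704698536858294876167176896944287855023369756720074906507777296435974254538861969497679936004012417262120330366155535423990218446622916522696555259804577169408) c20_s6570) (B (M (nat_lit 462) (B (L (nat_lit 426) ln10_13_0 ln10_13_0_ok) (M (nat_lit 463) (B (L (nat_lit 460) ln15_14_3 ln15_14_3_ok) (L (nat_lit 464) ln16_14_3 ln16_14_3_ok))))) (M (nat_lit 426) (B (M (nat_lit 425) (B (L (nat_lit 460) ln9_13_0 ln9_13_0_ok) (M (nat_lit 393) (B (L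 (nat_lit 392) ln12_13_3 ln12_13_3_ok) (L (nat_lit 394) ln13_13_3 ln13_13_3_ok))))) (B (M (nat_lit 425) (B (L (nat_lit 460) ln9_13_0 ln9_13_0_ok) (M (nat_lit 397) (B (L (nat_lit 396) ln9_13_2 ln9_13_2_ok) (L (nat_lit 398) ln10_13_2 ln10_13_2_ok))))) (M (nat_lit 430) (B (M (nat_lit 394) (B (L (nat_lit 393) ln13_13_3 ln13_13_3_ok) (L (nat_lit 395) ln14_13_3 ln14_13_3_ok))) (M (nat_lit 398) (B (L (nat_lit 397) ln10_13_2 ln10_13_2_ok) (L (nat_lit 399) ln11_13_2 ln11_13_2_ok))))))))))))))))))))))))))))))))) (nat_lit 5954262830815946494440468064007740237496571878468728087513875999273036838532266441790969898967138332125836366047228135112217242456098340864) (nat_lit 1646231155477716819743627711960244615131784886259561745164372907930173528475211677865623886954478491253236513351931925793404224981027640628604565348441774927679150861088968409088) (nat_lit 1646231155477716819743627711960244615131784886259561745164372907930173528475211677865623886954478491253236513351931925793404224981027640628604565348441774927679150861088968409088)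 (by decide +kernel)
theorem c20_s6648 : Sem (nat_lit 5954262830815946494763249298768603811203561774969104571805089223376689777636098861358550851719243481454542035207245364041705138952691777536) (nat_lit 235872651716101478396591840660592468895899996132491239205036234012949103737376432911477374149202716324511540125556059071871231537600126717785890004271740753988535975936) (nat_lit 235872651716101478396591840660592468895899996132491239205036234012949103737376432911477374149202716324511540125556059071871231537600126717785890004271740753988535975936) :=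
  sem_of_chk (M (nat_lit 398) (B (M (nat_lit 366) (B (L (nat_lit 493) ln13_15_6 ln13_15_6_ok) (M (nat_lit 334) (B (L (nat_lit 302) ln14_9_5 ln14_9_5_ok) (L (nat_lit 430) ln14_10_5 ln14_10_5_ok))))) (B (M (nat_lit 493) (B (L (nat_lit 366) ln13_15_6 ln13_15_6_ok) (M (nat_lit 525) (B (L (nat_lit 430) ln13_16_6 ln13_16_6_ok) (M (nat_lit 396) (B (L (nat_lit 364) ln13_15_7 ln13_15_7_ok) (L (nat_lit 428) ln13_16_7 ln13_16_7_ok))))))) (B (M (nat_lit 396) (B (M (nat_lit 493) (B (L (nat_lit 364) ln13_15_7 ln13_15_7_ok) (M (nat_lit 525) (B (L (nat_lit 428) ln13_16_7 ln13_16_7_ok) (L (nat_lit 430) ln13_16_6 ln13_16_6_ok))))) (B (M (nat_lit 428) (B (M (nat_lit 399) (B (L (nat_lit 427) ln15_12_1 ln15_12_1_ok) (L (nat_lit 400) ln16_12_1 ln16_12_1_ok))) (M (nat_lit 395) (B (M (nat_lit 394) (B (L (nat_lit 393) ln9_12_0 ln9_12_0_ok) (L (nat_lit 430) ln10_12_0 ln10_12_0_ok))) (M (nat_lit 492) (B (M (nat_lit 363) (B (L (nat_lit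 362) ln14_12_3 ln14_12_3_ok) (L (nat_lit 460) ln12_15_7 ln12_15_7_ok))) (B (M (nat_lit 460) (B (L (nat_lit 363) ln12_15_7 ln12_15_7_ok) (L (nat_lit 524) ln12_16_6 ln12_16_6_ok))) (M (nat_lit 493) (B (L (nat_lit 525) ln13_16_7 ln13_16_7_ok) (L (nat_lit 524) ln13_12_5 ln13_12_5_ok)))))))))) (B (M (nat_lit 493) (B (L (nat_lit 364) ln13_15_7 ln13_15_7_ok) (M (nat_lit 525) (B (L (nat_lit 430) ln13_16_6 ln13_16_6_ok) (M (nat_lit 524) (B (L (nat_lit 492) ln13_12_5 ln13_12_5_ok) (L (nat_lit 556) ln13_13_5 ln13_13_5_ok))))))) (B (M (nat_lit 399) (B (M (nat_lit 364) (B (L (nat_lit 363) ln15_12_3 ln15_12_3_ok) (L (nat_lit 493) ln13_15_7 ln13_15_7_ok))) (M (nat_lit 428) (B (L (nat_lit 427) ln15_12_1 ln15_12_1_ok) (L (nat_lit 400) ln16_12_1 ln16_12_1_ok))))) (M (nat_lit 395) (B (M (nat_lit 394) (B (L (nat_lit 430) ln10_12_0 ln10_12_0_ok) (M (nat_lit 426) (B (L (nat_lit 425) ln13_12_1 ln13_12_1_ok) (L (nat_lit 427) ln14_12_1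 ln14_12_1_ok))))) (B (M (nat_lit 427) (B (L (nat_lit 426) ln14_12_1 ln14_12_1_ok) (M (nat_lit 399) (B (L (nat_lit 428) ln15_12_1 ln15_12_1_ok) (M (nat_lit 363) (B (L (nat_lit 362) ln14_12_3 ln14_12_3_ok) (L (nat_lit 364) ln15_12_3 ln15_12_3_ok))))))) (B (M (nat_lit 428) (B (M (nat_lit 394) (B (L (nat_lit 393) ln9_12_0 ln9_12_0_ok) (L (nat_lit 430) ln10_12_0 ln10_12_0_ok))) (M (nat_lit 399) (B (L (nat_lit 427) ln15_12_1 ln15_12_1_ok) (M (nat_lit 363) (B (L (nat_lit 362) ln14_12_3 ln14_12_3_ok) (L (nat_lit 364) ln15_12_3 ln15_12_3_ok))))))) (M (nat_lit 394) (B (L (nat_lit 430) ln10_12_0 ln10_12_0_ok) (M (nat_lit 364) (B (M (nat_lit 428) (B (L (nat_lit 332) ln12_10_4 ln12_10_4_ok) (L (nat_lit 393) ln9_12_0 ln9_12_0_ok))) (M (nat_lit 363) (B (L (nat_lit 362) ln14_12_3 ln14_12_3_ok) (L (nat_lit 399) ln15_12_3 ln15_12_3_ok)))))))))))))))) (B (M (nat_lit 493) (B (L (nat_lit 366) ln13_15_6 ln13_15_6_ok) (M (nat_lit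 525) (B (M (nat_lit 396) (B (L (nat_lit 364) ln13_15_7 ln13_15_7_ok) (L (nat_lit 428) ln13_16_7 ln13_16_7_ok))) (M (nat_lit 524) (B (L (nat_lit 492) ln13_12_5 ln13_12_5_ok) (L (nat_lit 556) ln13_13_5 ln13_13_5_ok))))))) (M (nat_lit 399) (B (M (nat_lit 428) (B (L (nat_lit 400) ln16_12_1 ln16_12_1_ok) (M (nat_lit 427) (B (L (nat_lit 396) ln15_12_1 ln15_12_1_ok) (L (nat_lit 426) ln10_13_2 ln10_13_2_ok))))) (B (M (nat_lit 428) (B (L (nat_lit 400) ln16_12_1 ln16_12_1_ok) (M (nat_lit 427) (B (L (nat_lit 426) ln10_13_2 ln10_13_2_ok) (L (nat_lit 430) ln11_13_2 ln11_13_2_ok))))) (B (M (nat_lit 396) (B (M (nat_lit 428) (B (L (nat_lit 427) ln15_12_1 ln15_12_1_ok) (M (nat_lit 364) (B (L (nat_lit 332) ln12_10_4 ln12_10_4_ok) (L (nat_lit 363) ln15_12_3 ln15_12_3_ok))))) (B (M (nat_lit 395) (B (M (nat_lit 367) (B (L (nat_lit 366) ln11_12_2 ln11_12_2_ok) (L (nat_lit 368) ln12_12_2 ln12_12_2_ok))) (M (nat_lit 427) (B (L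 (nat_lit 426) ln14_12_1 ln14_12_1_ok) (L (nat_lit 428) ln15_12_1 ln15_12_1_ok))))) (M (nat_lit 395) (B (M (nat_lit 363) (B (L (nat_lit 362) ln14_12_3 ln14_12_3_ok) (L (nat_lit 364) ln15_12_3 ln15_12_3_ok))) (M (nat_lit 367) (B (L (nat_lit 366) ln11_12_2 ln11_12_2_ok) (L (nat_lit 368) ln12_12_2 ln12_12_2_ok)))))))) (B (M (nat_lit 428) (B (L (nat_lit 400) ln16_12_1 ln16_12_1_ok) (M (nat_lit 427) (B (L (nat_lit 396) ln15_12_1 ln15_12_1_ok) (L (nat_lit 430) ln11_13_2 ln11_13_2_ok))))) (B (M (nat_lit 400) (B (L (nat_lit 428) ln16_12_1 ln16_12_1_ok) (M (nat_lit 401) (B (L (nat_lit 430) ln17_12_1 ln17_12_1_ok) (M (nat_lit 433) (B (L (nat_lit 432) ln13_12_0 ln13_12_0_ok) (L (nat_lit 434) ln14_12_0 ln14_12_0_ok))))))) (M (nat_lit 396) (B (M (nat_lit 395) (B (M (nat_lit 363) (B (L (nat_lit 362) ln14_12_3 ln14_12_3_ok) (L (nat_lit 364) ln15_12_3 ln15_12_3_ok))) (M (nat_lit 367) (B (L (nat_lit 366) ln11_12_2 ln11_12_2_ok)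 (L (nat_lit 368) ln12_12_2 ln12_12_2_ok))))) (B (M (nat_lit 400) (B (M (nat_lit 368) (B (L (nat_lit 367) ln12_12_2 ln12_12_2_ok) (L (nat_lit 369) ln13_12_2 ln13_12_2_ok))) (M (nat_lit 401) (B (L (nat_lit 430) ln17_12_1 ln17_12_1_ok) (M (nat_lit 433) (B (L (nat_lit 432) ln13_12_0 ln13_12_0_ok) (L (nat_lit 434) ln14_12_0 ln14_12_0_ok))))))) (M (nat_lit 395) (B (M (nat_lit 363) (B (L (nat_lit 362) ln14_12_3 ln14_12_3_ok) (L (nat_lit 364) ln15_12_3 ln15_12_3_ok))) (M (nat_lit 394) (B (L (nat_lit 430) ln10_12_0 ln10_12_0_ok) (M (nat_lit 426) (B (L (nat_lit 425) ln13_12_1 ln13_12_1_ok) (L (nat_lit 427) ln14_12_1 ln14_12_1_ok))))))))))))))))))))) (nat_lit 5954262830815946494763249298768603811203561774969104571805089223376689777636098861358550851719243481454542035207245364041705138952691777536) (nat_lit 235872651716101478396591840660592468895899996132491239205036234012949103737376432911477374149202716324511540125556059071871231537600126717785890004271740753988535975936)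 (nat_lit 235872651716101478396591840660592468895899996132491239205036234012949103737376432911477374149202716324511540125556059071871231537600126717785890004271740753988535975936) (by decide +kernel)
theorem c20_s6652 : Sem (nat_lit 5954262830815946494440468064007740237496571878468728087513875999273036838532266441790969898967138332125836366047228135112217242456098340864) (nat_lit 235872651716101478396591840672500994554759219427574141708309317240180069734011407619578965953018707372942959726719396201488831780034417746973889100485318222435709878272) (nat_lit 235872651716101478396591840672500994554759219427574141708309317240180069734011407619578965953018707372942959726719396201488831780034417746973889100485318222435709878272) :=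
  sem_of_chk (M (nat_lit 397) (B (M (nat_lit 365) (B (M (nat_lit 493) (B (M (nat_lit 364) (B (L (nat_lit 332) ln13_14_7 ln13_14_7_ok) (L (nat_lit 396) ln13_15_7 ln13_15_7_ok))) (M (nat_lit 492) (B (L (nat_lit 460) ln13_11_5 ln13_11_5_ok) (L (nat_lit 524) ln13_12_5 ln13_12_5_ok))))) (B (M (nat_lit 493) (B (M (nat_lit 366) (B (L (nat_lit 334) ln13_14_6 ln13_14_6_ok) (L (nat_lit 398) ln13_15_6 ln13_15_6_ok))) (M (nat_lit 492) (B (L (nat_lit 460) ln13_11_5 ln13_11_5_ok) (L (nat_lit 524) ln13_12_5 ln13_12_5_ok))))) (B (M (nat_lit 364) (B (L (nat_lit 332) ln13_14_7 ln13_14_7_ok) (M (nat_lit 366) (B (L (nat_lit 334) ln13_14_6 ln13_14_6_ok) (M (nat_lit 493) (B (L (nat_lit 396) ln13_15_7 ln13_15_7_ok) (L (nat_lit 398) ln13_15_6 ln13_15_6_ok))))))) (M (nat_lit 333) (B (M (nat_lit 332) (B (L (nat_lit 300) ln13_13_7 ln13_13_7_ok) (L (nat_lit 364) ln13_14_7 ln13_14_7_ok))) (M (nat_lit 334) (B (L (nat_lit 302) ln13_13_6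 ln13_13_6_ok) (L (nat_lit 366) ln13_14_6 ln13_14_6_ok))))))))) (B (M (nat_lit 365) (B (M (nat_lit 364) (B (L (nat_lit 332) ln13_14_7 ln13_14_7_ok) (M (nat_lit 366) (B (L (nat_lit 334) ln13_14_6 ln13_14_6_ok) (M (nat_lit 493) (B (L (nat_lit 396) ln13_15_7 ln13_15_7_ok) (L (nat_lit 398) ln13_15_6 ln13_15_6_ok))))))) (B (M (nat_lit 493) (B (M (nat_lit 366) (B (L (nat_lit 334) ln13_14_6 ln13_14_6_ok) (L (nat_lit 398) ln13_15_6 ln13_15_6_ok))) (M (nat_lit 492) (B (L (nat_lit 460) ln13_11_5 ln13_11_5_ok) (L (nat_lit 524) ln13_12_5 ln13_12_5_ok))))) (B (M (nat_lit 493) (B (M (nat_lit 364) (B (L (nat_lit 332) ln13_14_7 ln13_14_7_ok) (L (nat_lit 396) ln13_15_7 ln13_15_7_ok))) (M (nat_lit 492) (B (L (nat_lit 460) ln13_11_5 ln13_11_5_ok) (L (nat_lit 524) ln13_12_5 ln13_12_5_ok))))) (M (nat_lit 333) (B (M (nat_lit 334) (B (L (nat_lit 302) ln13_13_6 ln13_13_6_ok) (L (nat_lit 366) ln13_14_6 ln13_14_6_ok))) (M (nat_lit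 460) (B (L (nat_lit 428) ln13_10_5 ln13_10_5_ok) (L (nat_lit 492) ln13_11_5 ln13_11_5_ok))))))))) (B (M (nat_lit 365) (B (M (nat_lit 493) (B (M (nat_lit 366) (B (L (nat_lit 334) ln13_14_6 ln13_14_6_ok) (L (nat_lit 398) ln13_15_6 ln13_15_6_ok))) (M (nat_lit 492) (B (L (nat_lit 460) ln13_11_5 ln13_11_5_ok) (L (nat_lit 524) ln13_12_5 ln13_12_5_ok))))) (B (M (nat_lit 493) (B (M (nat_lit 364) (B (L (nat_lit 332) ln13_14_7 ln13_14_7_ok) (L (nat_lit 396) ln13_15_7 ln13_15_7_ok))) (M (nat_lit 492) (B (L (nat_lit 460) ln13_11_5 ln13_11_5_ok) (L (nat_lit 524) ln13_12_5 ln13_12_5_ok))))) (B (M (nat_lit 364) (B (L (nat_lit 332) ln13_14_7 ln13_14_7_ok) (M (nat_lit 366) (B (L (nat_lit 334) ln13_14_6 ln13_14_6_ok) (M (nat_lit 493) (B (L (nat_lit 396) ln13_15_7 ln13_15_7_ok) (L (nat_lit 398) ln13_15_6 ln13_15_6_ok))))))) (M (nat_lit 333) (B (M (nat_lit 332) (B (L (nat_lit 300) ln13_13_7 ln13_13_7_ok) (L (nat_lit 364) ln13_14_7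 ln13_14_7_ok))) (M (nat_lit 460) (B (L (nat_lit 428) ln13_10_5 ln13_10_5_ok) (L (nat_lit 492) ln13_11_5 ln13_11_5_ok))))))))) (B (M (nat_lit 493) (B (M (nat_lit 525) (B (M (nat_lit 396) (B (L (nat_lit 364) ln13_15_7 ln13_15_7_ok) (L (nat_lit 428) ln13_16_7 ln13_16_7_ok))) (M (nat_lit 398) (B (L (nat_lit 366) ln13_15_6 ln13_15_6_ok) (L (nat_lit 430) ln13_16_6 ln13_16_6_ok))))) (B (M (nat_lit 525) (B (M (nat_lit 398) (B (L (nat_lit 366) ln13_15_6 ln13_15_6_ok) (L (nat_lit 430) ln13_16_6 ln13_16_6_ok))) (M (nat_lit 524) (B (L (nat_lit 492) ln13_12_5 ln13_12_5_ok) (L (nat_lit 556) ln13_13_5 ln13_13_5_ok))))) (B (M (nat_lit 525) (B (M (nat_lit 396) (B (L (nat_lit 364) ln13_15_7 ln13_15_7_ok) (L (nat_lit 428) ln13_16_7 ln13_16_7_ok))) (M (nat_lit 524) (B (L (nat_lit 492) ln13_12_5 ln13_12_5_ok) (L (nat_lit 556) ln13_13_5 ln13_13_5_ok))))) (M (nat_lit 365) (B (M (nat_lit 366) (B (L (nat_lit 334) ln13_14_6 ln13_14_6_ok)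 (L (nat_lit 398) ln13_15_6 ln13_15_6_ok))) (M (nat_lit 492) (B (L (nat_lit 460) ln13_11_5 ln13_11_5_ok) (L (nat_lit 524) ln13_12_5 ln13_12_5_ok))))))))) (B (M (nat_lit 493) (B (M (nat_lit 525) (B (M (nat_lit 396) (B (L (nat_lit 364) ln13_15_7 ln13_15_7_ok) (L (nat_lit 428) ln13_16_7 ln13_16_7_ok))) (M (nat_lit 398) (B (L (nat_lit 366) ln13_15_6 ln13_15_6_ok) (L (nat_lit 430) ln13_16_6 ln13_16_6_ok))))) (B (M (nat_lit 525) (B (M (nat_lit 398) (B (L (nat_lit 366) ln13_15_6 ln13_15_6_ok) (L (nat_lit 430) ln13_16_6 ln13_16_6_ok))) (M (nat_lit 524) (B (L (nat_lit 492) ln13_12_5 ln13_12_5_ok) (L (nat_lit 556) ln13_13_5 ln13_13_5_ok))))) (B (M (nat_lit 525) (B (M (nat_lit 396) (B (L (nat_lit 364) ln13_15_7 ln13_15_7_ok) (L (nat_lit 428) ln13_16_7 ln13_16_7_ok))) (M (nat_lit 524) (B (L (nat_lit 492) ln13_12_5 ln13_12_5_ok) (L (nat_lit 556) ln13_13_5 ln13_13_5_ok))))) (M (nat_lit 365) (B (M (nat_lit 364) (B (L (nat_lit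 332) ln13_14_7 ln13_14_7_ok) (L (nat_lit 396) ln13_15_7 ln13_15_7_ok))) (M (nat_lit 492) (B (L (nat_lit 460) ln13_11_5 ln13_11_5_ok) (L (nat_lit 524) ln13_12_5 ln13_12_5_ok))))))))) (B (M (nat_lit 365) (B (M (nat_lit 493) (B (M (nat_lit 366) (B (L (nat_lit 334) ln13_14_6 ln13_14_6_ok) (L (nat_lit 398) ln13_15_6 ln13_15_6_ok))) (M (nat_lit 492) (B (L (nat_lit 460) ln13_11_5 ln13_11_5_ok) (L (nat_lit 524) ln13_12_5 ln13_12_5_ok))))) (B (M (nat_lit 398) (B (M (nat_lit 493) (B (L (nat_lit 366) ln13_15_6 ln13_15_6_ok) (M (nat_lit 492) (B (L (nat_lit 460) ln13_11_5 ln13_11_5_ok) (L (nat_lit 524) ln13_12_5 ln13_12_5_ok))))) (B (M (nat_lit 333) (B (M (nat_lit 460) (B (L (nat_lit 428) ln13_10_5 ln13_10_5_ok) (L (nat_lit 492) ln13_11_5 ln13_11_5_ok))) (M (nat_lit 430) (B (L (nat_lit 301) ln13_9_4 ln13_9_4_ok) (L (nat_lit 462) ln13_10_4 ln13_10_4_ok))))) (M (nat_lit 430) (B (M (nat_lit 333) (B (L (nat_lit 301) ln13_9_4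 ln13_9_4_ok) (L (nat_lit 462) ln13_10_4 ln13_10_4_ok))) (M (nat_lit 493) (B (L (nat_lit 366) ln13_15_6 ln13_15_6_ok) (L (nat_lit 525) ln13_16_6 ln13_16_6_ok)))))))) (B (M (nat_lit 333) (B (M (nat_lit 460) (B (L (nat_lit 428) ln13_10_5 ln13_10_5_ok) (L (nat_lit 492) ln13_11_5 ln13_11_5_ok))) (M (nat_lit 301) (B (M (nat_lit 302) (B (L (nat_lit 270) ln13_12_6 ln13_12_6_ok) (L (nat_lit 334) ln13_13_6 ln13_13_6_ok))) (M (nat_lit 430) (B (L (nat_lit 398) ln13_9_4 ln13_9_4_ok) (L (nat_lit 462) ln13_10_4 ln13_10_4_ok))))))) (B (M (nat_lit 333) (B (M (nat_lit 334) (B (L (nat_lit 302) ln13_13_6 ln13_13_6_ok) (L (nat_lit 366) ln13_14_6 ln13_14_6_ok))) (M (nat_lit 460) (B (L (nat_lit 428) ln13_10_5 ln13_10_5_ok) (L (nat_lit 492) ln13_11_5 ln13_11_5_ok))))) (M (nat_lit 333) (B (M (nat_lit 334) (B (L (nat_lit 302) ln13_13_6 ln13_13_6_ok) (L (nat_lit 366) ln13_14_6 ln13_14_6_ok))) (B (M (nat_lit 398) (B (M (nat_lit 430)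 (B (L (nat_lit 301) ln13_9_4 ln13_9_4_ok) (L (nat_lit 462) ln13_10_4 ln13_10_4_ok))) (M (nat_lit 366) (B (L (nat_lit 334) ln13_14_6 ln13_14_6_ok) (L (nat_lit 493) ln13_15_6 ln13_15_6_ok))))) (B (M (nat_lit 430) (B (L (nat_lit 462) ln13_10_4 ln13_10_4_ok) (M (nat_lit 398) (B (L (nat_lit 301) ln13_9_4 ln13_9_4_ok) (M (nat_lit 493) (B (L (nat_lit 366) ln13_15_6 ln13_15_6_ok) (L (nat_lit 525) ln13_16_6 ln13_16_6_ok))))))) (M (nat_lit 301) (B (M (nat_lit 302) (B (L (nat_lit 270) ln13_12_6 ln13_12_6_ok) (L (nat_lit 334) ln13_13_6 ln13_13_6_ok))) (M (nat_lit 430) (B (L (nat_lit 398) ln13_9_4 ln13_9_4_ok) (L (nat_lit 462) ln13_10_4 ln13_10_4_ok)))))))))))))) (B (K (nat_lit 5954262830815946494763249298768603811203561774969104571805089223376689777636098861358550851719243481454542035207245364041705138952691777536) (nat_lit 235872651716101478396591840660592468895899996132491239205036234012949103737376432911477374149202716324511540125556059071871231537600126717785890004271740753988535975936)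 (nat_lit 235872651716101478396591840660592468895899996132491239205036234012949103737376432911477374149202716324511540125556059071871231537600126717785890004271740753988535975936) c20_s6648) (B (M (nat_lit 365) (B (M (nat_lit 493) (B (M (nat_lit 364) (B (L (nat_lit 332) ln13_14_7 ln13_14_7_ok) (L (nat_lit 396) ln13_15_7 ln13_15_7_ok))) (M (nat_lit 492) (B (L (nat_lit 460) ln13_11_5 ln13_11_5_ok) (L (nat_lit 524) ln13_12_5 ln13_12_5_ok))))) (B (M (nat_lit 333) (B (M (nat_lit 460) (B (L (nat_lit 428) ln13_10_5 ln13_10_5_ok) (L (nat_lit 492) ln13_11_5 ln13_11_5_ok))) (M (nat_lit 301) (B (M (nat_lit 302) (B (L (nat_lit 270) ln13_12_6 ln13_12_6_ok) (L (nat_lit 334) ln13_13_6 ln13_13_6_ok))) (M (nat_lit 430) (B (L (nat_lit 398) ln13_9_4 ln13_9_4_ok) (L (nat_lit 462) ln13_10_4 ln13_10_4_ok))))))) (M (nat_lit 333) (B (M (nat_lit 332) (B (L (nat_lit 300) ln13_13_7 ln13_13_7_ok) (L (nat_lit 364) ln13_14_7 ln13_14_7_ok)))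 (M (nat_lit 301) (B (M (nat_lit 302) (B (L (nat_lit 270) ln13_12_6 ln13_12_6_ok) (L (nat_lit 334) ln13_13_6 ln13_13_6_ok))) (M (nat_lit 430) (B (L (nat_lit 398) ln13_9_4 ln13_9_4_ok) (L (nat_lit 462) ln13_10_4 ln13_10_4_ok)))))))))) (B (M (nat_lit 365) (B (M (nat_lit 333) (B (M (nat_lit 334) (B (L (nat_lit 302) ln13_13_6 ln13_13_6_ok) (L (nat_lit 366) ln13_14_6 ln13_14_6_ok))) (M (nat_lit 460) (B (L (nat_lit 428) ln13_10_5 ln13_10_5_ok) (L (nat_lit 492) ln13_11_5 ln13_11_5_ok))))) (B (M (nat_lit 333) (B (M (nat_lit 332) (B (L (nat_lit 300) ln13_13_7 ln13_13_7_ok) (L (nat_lit 364) ln13_14_7 ln13_14_7_ok))) (M (nat_lit 460) (B (L (nat_lit 428) ln13_10_5 ln13_10_5_ok) (L (nat_lit 492) ln13_11_5 ln13_11_5_ok))))) (B (M (nat_lit 493) (B (M (nat_lit 364) (B (L (nat_lit 332) ln13_14_7 ln13_14_7_ok) (L (nat_lit 396) ln13_15_7 ln13_15_7_ok))) (M (nat_lit 492) (B (L (nat_lit 460) ln13_11_5 ln13_11_5_ok) (L (nat_lit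 524) ln13_12_5 ln13_12_5_ok))))) (M (nat_lit 333) (B (M (nat_lit 332) (B (L (nat_lit 300) ln13_13_7 ln13_13_7_ok) (L (nat_lit 364) ln13_14_7 ln13_14_7_ok))) (M (nat_lit 334) (B (L (nat_lit 302) ln13_13_6 ln13_13_6_ok) (L (nat_lit 366) ln13_14_6 ln13_14_6_ok))))))))) (B (M (nat_lit 493) (B (M (nat_lit 525) (B (M (nat_lit 396) (B (L (nat_lit 364) ln13_15_7 ln13_15_7_ok) (L (nat_lit 428) ln13_16_7 ln13_16_7_ok))) (M (nat_lit 524) (B (L (nat_lit 492) ln13_12_5 ln13_12_5_ok) (L (nat_lit 556) ln13_13_5 ln13_13_5_ok))))) (B (M (nat_lit 525) (B (M (nat_lit 398) (B (L (nat_lit 366) ln13_15_6 ln13_15_6_ok) (L (nat_lit 430) ln13_16_6 ln13_16_6_ok))) (M (nat_lit 524) (B (L (nat_lit 492) ln13_12_5 ln13_12_5_ok) (L (nat_lit 556) ln13_13_5 ln13_13_5_ok))))) (B (M (nat_lit 525) (B (M (nat_lit 396) (B (L (nat_lit 364) ln13_15_7 ln13_15_7_ok) (L (nat_lit 428) ln13_16_7 ln13_16_7_ok))) (M (nat_lit 398) (B (L (nat_lit 366)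 ln13_15_6 ln13_15_6_ok) (L (nat_lit 430) ln13_16_6 ln13_16_6_ok))))) (M (nat_lit 365) (B (M (nat_lit 364) (B (L (nat_lit 332) ln13_14_7 ln13_14_7_ok) (L (nat_lit 396) ln13_15_7 ln13_15_7_ok))) (M (nat_lit 366) (B (L (nat_lit 334) ln13_14_6 ln13_14_6_ok) (L (nat_lit 398) ln13_15_6 ln13_15_6_ok))))))))) (B (M (nat_lit 365) (B (M (nat_lit 364) (B (L (nat_lit 332) ln13_14_7 ln13_14_7_ok) (M (nat_lit 366) (B (L (nat_lit 334) ln13_14_6 ln13_14_6_ok) (M (nat_lit 493) (B (L (nat_lit 396) ln13_15_7 ln13_15_7_ok) (L (nat_lit 398) ln13_15_6 ln13_15_6_ok))))))) (B (M (nat_lit 333) (B (M (nat_lit 334) (B (L (nat_lit 302) ln13_13_6 ln13_13_6_ok) (L (nat_lit 366) ln13_14_6 ln13_14_6_ok))) (M (nat_lit 301) (B (M (nat_lit 428) (B (L (nat_lit 396) ln13_9_5 ln13_9_5_ok) (L (nat_lit 460) ln13_10_5 ln13_10_5_ok))) (M (nat_lit 430) (B (L (nat_lit 398) ln13_9_4 ln13_9_4_ok) (L (nat_lit 462) ln13_10_4 ln13_10_4_ok))))))) (B (M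 (nat_lit 333) (B (M (nat_lit 332) (B (L (nat_lit 300) ln13_13_7 ln13_13_7_ok) (L (nat_lit 364) ln13_14_7 ln13_14_7_ok))) (M (nat_lit 301) (B (M (nat_lit 428) (B (L (nat_lit 396) ln13_9_5 ln13_9_5_ok) (L (nat_lit 460) ln13_10_5 ln13_10_5_ok))) (M (nat_lit 430) (B (L (nat_lit 398) ln13_9_4 ln13_9_4_ok) (L (nat_lit 462) ln13_10_4 ln13_10_4_ok))))))) (M (nat_lit 333) (B (M (nat_lit 332) (B (L (nat_lit 300) ln13_13_7 ln13_13_7_ok) (L (nat_lit 364) ln13_14_7 ln13_14_7_ok))) (M (nat_lit 334) (B (L (nat_lit 302) ln13_13_6 ln13_13_6_ok) (L (nat_lit 366) ln13_14_6 ln13_14_6_ok))))))))) (M (nat_lit 365) (B (M (nat_lit 333) (B (M (nat_lit 334) (B (L (nat_lit 302) ln13_13_6 ln13_13_6_ok) (L (nat_lit 366) ln13_14_6 ln13_14_6_ok))) (M (nat_lit 460) (B (L (nat_lit 428) ln13_10_5 ln13_10_5_ok) (L (nat_lit 492) ln13_11_5 ln13_11_5_ok))))) (B (M (nat_lit 333) (B (M (nat_lit 332) (B (L (nat_lit 300) ln13_13_7 ln13_13_7_ok)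 (L (nat_lit 364) ln13_14_7 ln13_14_7_ok))) (M (nat_lit 460) (B (L (nat_lit 428) ln13_10_5 ln13_10_5_ok) (L (nat_lit 492) ln13_11_5 ln13_11_5_ok))))) (M (nat_lit 364) (B (L (nat_lit 332) ln13_14_7 ln13_14_7_ok) (M (nat_lit 366) (B (L (nat_lit 334) ln13_14_6 ln13_14_6_ok) (M (nat_lit 363) (B (M (nat_lit 398) (B (L (nat_lit 362) ln10_11_0 ln10_11_0_ok) (L (nat_lit 399) ln11_11_0 ln11_11_0_ok))) (B (M (nat_lit 367) (B (M (nat_lit 395) (B (L (nat_lit 394) ln14_11_1 ln14_11_1_ok) (L (nat_lit 396) ln15_11_1 ln15_11_1_ok))) (M (nat_lit 399) (B (L (nat_lit 398) ln11_11_0 ln11_11_0_ok) (L (nat_lit 400) ln12_11_0 ln12_11_0_ok))))) (M (nat_lit 362) (B (M (nat_lit 330) (B (L (nat_lit 329) ln13_11_3 ln13_11_3_ok) (L (nat_lit 331) ln14_11_3 ln14_11_3_ok))) (M (nat_lit 394) (B (L (nat_lit 393) ln13_11_1 ln13_11_1_ok) (L (nat_lit 395) ln14_11_1 ln14_11_1_ok))))))))))))))))))))))))))) (nat_lit 5954262830815946494440468064007740237496571878468728087513875999273036838532266441790969898967138332125836366047228135112217242456098340864)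 (nat_lit 235872651716101478396591840672500994554759219427574141708309317240180069734011407619578965953018707372942959726719396201488831780034417746973889100485318222435709878272) (nat_lit 235872651716101478396591840672500994554759219427574141708309317240180069734011407619578965953018707372942959726719396201488831780034417746973889100485318222435709878272) (by decide +kernel)
noncomputable def c20_n6655 : Cert := (M (nat_lit 398) (B (M (nat_lit 366) (B (L (nat_lit 493) ln13_15_6 ln13_15_6_ok) (M (nat_lit 334) (B (L (nat_lit 302) ln14_9_5 ln14_9_5_ok) (L (nat_lit 430) ln14_10_5 ln14_10_5_ok))))) (B (M (nat_lit 493) (B (L (nat_lit 366) ln13_15_6 ln13_15_6_ok) (M (nat_lit 525) (B (L (nat_lit 430) ln13_16_6 ln13_16_6_ok) (M (nat_lit 396) (B (L (nat_lit 364) ln13_15_7 ln13_15_7_ok) (L (nat_lit 428) ln13_16_7 ln13_16_7_ok))))))) (B (M (nat_lit 396) (B (M (nat_lit 493) (B (L (nat_lit 364) ln13_15_7 ln13_15_7_ok)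 (M (nat_lit 525) (B (L (nat_lit 428) ln13_16_7 ln13_16_7_ok) (L (nat_lit 430) ln13_16_6 ln13_16_6_ok))))) (B (M (nat_lit 399) (B (M (nat_lit 428) (B (L (nat_lit 427) ln15_12_1 ln15_12_1_ok) (L (nat_lit 400) ln16_12_1 ln16_12_1_ok))) (B (M (nat_lit 395) (B (M (nat_lit 427) (B (L (nat_lit 426) ln14_12_1 ln14_12_1_ok) (L (nat_lit 428) ln15_12_1 ln15_12_1_ok))) (M (nat_lit 362) (B (L (nat_lit 363) ln14_12_3 ln14_12_3_ok) (M (nat_lit 394) (B (L (nat_lit 361) ln13_12_3 ln13_12_3_ok) (L (nat_lit 430) ln10_12_0 ln10_12_0_ok))))))) (B (M (nat_lit 400) (B (L (nat_lit 428) ln16_12_1 ln16_12_1_ok) (M (nat_lit 368) (B (L (nat_lit 367) ln12_12_2 ln12_12_2_ok) (L (nat_lit 369) ln13_12_2 ln13_12_2_ok))))) (M (nat_lit 400) (B (M (nat_lit 368) (B (L (nat_lit 367) ln12_12_2 ln12_12_2_ok) (L (nat_lit 369) ln13_12_2 ln13_12_2_ok))) (M (nat_lit 401) (B (L (nat_lit 430) ln17_12_1 ln17_12_1_ok) (M (nat_lit 433) (B (L (nat_lit 432)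 ln13_12_0 ln13_12_0_ok) (L (nat_lit 434) ln14_12_0 ln14_12_0_ok))))))))))) (B (M (nat_lit 493) (B (L (nat_lit 364) ln13_15_7 ln13_15_7_ok) (M (nat_lit 525) (B (L (nat_lit 430) ln13_16_6 ln13_16_6_ok) (M (nat_lit 526) (B (L (nat_lit 494) ln13_12_4 ln13_12_4_ok) (L (nat_lit 558) ln13_13_4 ln13_13_4_ok))))))) (M (nat_lit 399) (B (M (nat_lit 364) (B (L (nat_lit 363) ln15_12_3 ln15_12_3_ok) (L (nat_lit 493) ln13_15_7 ln13_15_7_ok))) (M (nat_lit 428) (B (L (nat_lit 427) ln15_12_1 ln15_12_1_ok) (L (nat_lit 400) ln16_12_1 ln16_12_1_ok))))))))) (B (M (nat_lit 493) (B (L (nat_lit 366) ln13_15_6 ln13_15_6_ok) (M (nat_lit 525) (B (M (nat_lit 396) (B (L (nat_lit 364) ln13_15_7 ln13_15_7_ok) (L (nat_lit 428) ln13_16_7 ln13_16_7_ok))) (M (nat_lit 526) (B (L (nat_lit 494) ln13_12_4 ln13_12_4_ok) (L (nat_lit 558) ln13_13_4 ln13_13_4_ok))))))) (M (nat_lit 399) (B (M (nat_lit 428) (B (L (nat_lit 400) ln16_12_1 ln16_12_1_ok)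 (M (nat_lit 427) (B (L (nat_lit 396) ln15_12_1 ln15_12_1_ok) (L (nat_lit 430) ln11_13_2 ln11_13_2_ok))))) (B (M (nat_lit 428) (B (L (nat_lit 400) ln16_12_1 ln16_12_1_ok) (M (nat_lit 427) (B (L (nat_lit 426) ln10_13_2 ln10_13_2_ok) (L (nat_lit 430) ln11_13_2 ln11_13_2_ok))))) (B (M (nat_lit 396) (B (M (nat_lit 428) (B (L (nat_lit 427) ln15_12_1 ln15_12_1_ok) (M (nat_lit 364) (B (L (nat_lit 332) ln12_10_4 ln12_10_4_ok) (L (nat_lit 363) ln15_12_3 ln15_12_3_ok))))) (B (M (nat_lit 395) (B (M (nat_lit 367) (B (L (nat_lit 366) ln11_12_2 ln11_12_2_ok) (L (nat_lit 368) ln12_12_2 ln12_12_2_ok))) (M (nat_lit 427) (B (L (nat_lit 426) ln14_12_1 ln14_12_1_ok) (L (nat_lit 428) ln15_12_1 ln15_12_1_ok))))) (M (nat_lit 395) (B (M (nat_lit 363) (B (L (nat_lit 362) ln14_12_3 ln14_12_3_ok) (L (nat_lit 364) ln15_12_3 ln15_12_3_ok))) (M (nat_lit 367) (B (L (nat_lit 366) ln11_12_2 ln11_12_2_ok) (L (nat_lit 368) ln12_12_2 ln12_12_2_ok))))))))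 (B (M (nat_lit 400) (B (L (nat_lit 428) ln16_12_1 ln16_12_1_ok) (M (nat_lit 401) (B (L (nat_lit 430) ln17_12_1 ln17_12_1_ok) (M (nat_lit 433) (B (L (nat_lit 432) ln13_12_0 ln13_12_0_ok) (L (nat_lit 434) ln14_12_0 ln14_12_0_ok))))))) (M (nat_lit 396) (B (M (nat_lit 395) (B (M (nat_lit 363) (B (L (nat_lit 362) ln14_12_3 ln14_12_3_ok) (L (nat_lit 364) ln15_12_3 ln15_12_3_ok))) (M (nat_lit 367) (B (L (nat_lit 366) ln11_12_2 ln11_12_2_ok) (L (nat_lit 368) ln12_12_2 ln12_12_2_ok))))) (B (M (nat_lit 400) (B (M (nat_lit 368) (B (L (nat_lit 367) ln12_12_2 ln12_12_2_ok) (L (nat_lit 369) ln13_12_2 ln13_12_2_ok))) (M (nat_lit 401) (B (L (nat_lit 430) ln17_12_1 ln17_12_1_ok) (M (nat_lit 433) (B (L (nat_lit 432) ln13_12_0 ln13_12_0_ok) (L (nat_lit 434) ln14_12_0 ln14_12_0_ok))))))) (M (nat_lit 395) (B (M (nat_lit 363) (B (L (nat_lit 362) ln14_12_3 ln14_12_3_ok) (L (nat_lit 364) ln15_12_3 ln15_12_3_ok))) (M (nat_lit 394)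 (B (L (nat_lit 430) ln10_12_0 ln10_12_0_ok) (M (nat_lit 426) (B (L (nat_lit 425) ln13_12_1 ln13_12_1_ok) (L (nat_lit 427) ln14_12_1 ln14_12_1_ok))))))))))))))))))))
theorem c20_s6659 : Sem (nat_lit 5954262830815946494440468064007740237496571878468728087513875999273036838532266441790969898967138332125836366047228135112217242456098340864) (nat_lit 4052261299150580595684861599252258570174869882537461412187118570558730981092411290222603007801184465064661942454601436468214155686100560903498440552337970214575814251683128541184) (nat_lit 4052261299150580595684861599252258570174869882537461412187118570558730981092411290222603007801184465064661942454601436468214155686100560903498440552337970214575814251683128541184) :=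
  sem_of_chk (M (nat_lit 397) (B (M (nat_lit 493) (B (M (nat_lit 525) (B (M (nat_lit 396) (B (L (nat_lit 364) ln13_15_7 ln13_15_7_ok) (L (nat_lit 428) ln13_16_7 ln13_16_7_ok))) (M (nat_lit 398) (B (L (nat_lit 366) ln13_15_6 ln13_15_6_ok) (L (nat_lit 430) ln13_16_6 ln13_16_6_ok))))) (B (M (nat_lit 525) (B (M (nat_lit 398) (B (L (nat_lit 366) ln13_15_6 ln13_15_6_ok) (L (nat_lit 430) ln13_16_6 ln13_16_6_ok))) (M (nat_lit 526) (B (L (nat_lit 494) ln13_12_4 ln13_12_4_ok) (L (nat_lit 558) ln13_13_4 ln13_13_4_ok))))) (B (M (nat_lit 525) (B (M (nat_lit 396) (B (L (nat_lit 364) ln13_15_7 ln13_15_7_ok) (L (nat_lit 428) ln13_16_7 ln13_16_7_ok))) (M (nat_lit 526) (B (L (nat_lit 494) ln13_12_4 ln13_12_4_ok) (L (nat_lit 558) ln13_13_4 ln13_13_4_ok))))) (M (nat_lit 365) (B (M (nat_lit 364) (B (L (nat_lit 332) ln13_14_7 ln13_14_7_ok) (L (nat_lit 396) ln13_15_7 ln13_15_7_ok))) (M (nat_lit 494) (B (L (nat_lit 462) ln13_11_4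 ln13_11_4_ok) (L (nat_lit 526) ln13_12_4 ln13_12_4_ok))))))))) (B (M (nat_lit 493) (B (M (nat_lit 525) (B (M (nat_lit 396) (B (L (nat_lit 364) ln13_15_7 ln13_15_7_ok) (L (nat_lit 428) ln13_16_7 ln13_16_7_ok))) (M (nat_lit 398) (B (L (nat_lit 366) ln13_15_6 ln13_15_6_ok) (L (nat_lit 430) ln13_16_6 ln13_16_6_ok))))) (B (M (nat_lit 525) (B (M (nat_lit 398) (B (L (nat_lit 366) ln13_15_6 ln13_15_6_ok) (L (nat_lit 430) ln13_16_6 ln13_16_6_ok))) (M (nat_lit 526) (B (L (nat_lit 494) ln13_12_4 ln13_12_4_ok) (L (nat_lit 558) ln13_13_4 ln13_13_4_ok))))) (B (M (nat_lit 525) (B (M (nat_lit 396) (B (L (nat_lit 364) ln13_15_7 ln13_15_7_ok) (L (nat_lit 428) ln13_16_7 ln13_16_7_ok))) (M (nat_lit 526) (B (L (nat_lit 494) ln13_12_4 ln13_12_4_ok) (L (nat_lit 558) ln13_13_4 ln13_13_4_ok))))) (M (nat_lit 365) (B (M (nat_lit 366) (B (L (nat_lit 334) ln13_14_6 ln13_14_6_ok) (L (nat_lit 398) ln13_15_6 ln13_15_6_ok))) (M (nat_lit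 494) (B (L (nat_lit 462) ln13_11_4 ln13_11_4_ok) (L (nat_lit 526) ln13_12_4 ln13_12_4_ok))))))))) (B (M (nat_lit 493) (B (M (nat_lit 365) (B (M (nat_lit 366) (B (L (nat_lit 334) ln13_14_6 ln13_14_6_ok) (L (nat_lit 398) ln13_15_6 ln13_15_6_ok))) (M (nat_lit 494) (B (L (nat_lit 462) ln13_11_4 ln13_11_4_ok) (L (nat_lit 526) ln13_12_4 ln13_12_4_ok))))) (B (M (nat_lit 525) (B (M (nat_lit 398) (B (L (nat_lit 366) ln13_15_6 ln13_15_6_ok) (L (nat_lit 430) ln13_16_6 ln13_16_6_ok))) (M (nat_lit 526) (B (L (nat_lit 494) ln13_12_4 ln13_12_4_ok) (L (nat_lit 558) ln13_13_4 ln13_13_4_ok))))) (B (M (nat_lit 525) (B (M (nat_lit 526) (B (L (nat_lit 494) ln13_12_4 ln13_12_4_ok) (L (nat_lit 558) ln13_13_4 ln13_13_4_ok))) (M (nat_lit 557) (B (M (nat_lit 428) (B (L (nat_lit 396) ln13_16_7 ln13_16_7_ok) (L (nat_lit 460) ln13_17_7 ln13_17_7_ok))) (M (nat_lit 430) (B (L (nat_lit 398) ln13_16_6 ln13_16_6_ok) (L (nat_lit 462) ln13_17_6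 ln13_17_6_ok))))))) (B (M (nat_lit 365) (B (M (nat_lit 494) (B (L (nat_lit 462) ln13_11_4 ln13_11_4_ok) (L (nat_lit 526) ln13_12_4 ln13_12_4_ok))) (M (nat_lit 333) (B (M (nat_lit 334) (B (L (nat_lit 302) ln13_13_6 ln13_13_6_ok) (L (nat_lit 366) ln13_14_6 ln13_14_6_ok))) (M (nat_lit 460) (B (L (nat_lit 428) ln13_10_5 ln13_10_5_ok) (L (nat_lit 492) ln13_11_5 ln13_11_5_ok))))))) (B (M (nat_lit 525) (B (M (nat_lit 398) (B (L (nat_lit 366) ln13_15_6 ln13_15_6_ok) (L (nat_lit 430) ln13_16_6 ln13_16_6_ok))) (M (nat_lit 557) (B (M (nat_lit 428) (B (L (nat_lit 396) ln13_16_7 ln13_16_7_ok) (L (nat_lit 460) ln13_17_7 ln13_17_7_ok))) (M (nat_lit 558) (B (L (nat_lit 526) ln13_13_4 ln13_13_4_ok) (L (nat_lit 590) ln13_14_4 ln13_14_4_ok))))))) (M (nat_lit 365) (B (M (nat_lit 366) (B (L (nat_lit 334) ln13_14_6 ln13_14_6_ok) (L (nat_lit 398) ln13_15_6 ln13_15_6_ok))) (M (nat_lit 333) (B (M (nat_lit 460) (B (L (nat_lit 428)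 ln13_10_5 ln13_10_5_ok) (L (nat_lit 492) ln13_11_5 ln13_11_5_ok))) (M (nat_lit 462) (B (L (nat_lit 430) ln13_10_4 ln13_10_4_ok) (L (nat_lit 494) ln13_11_4 ln13_11_4_ok))))))))))))) (B c20_n6655 (B (M (nat_lit 493) (B (M (nat_lit 365) (B (M (nat_lit 364) (B (L (nat_lit 332) ln13_14_7 ln13_14_7_ok) (L (nat_lit 396) ln13_15_7 ln13_15_7_ok))) (M (nat_lit 494) (B (L (nat_lit 462) ln13_11_4 ln13_11_4_ok) (L (nat_lit 526) ln13_12_4 ln13_12_4_ok))))) (B (M (nat_lit 525) (B (M (nat_lit 396) (B (L (nat_lit 364) ln13_15_7 ln13_15_7_ok) (L (nat_lit 428) ln13_16_7 ln13_16_7_ok))) (M (nat_lit 526) (B (L (nat_lit 494) ln13_12_4 ln13_12_4_ok) (L (nat_lit 558) ln13_13_4 ln13_13_4_ok))))) (B (M (nat_lit 525) (B (M (nat_lit 526) (B (L (nat_lit 494) ln13_12_4 ln13_12_4_ok) (L (nat_lit 558) ln13_13_4 ln13_13_4_ok))) (M (nat_lit 557) (B (M (nat_lit 428) (B (L (nat_lit 396) ln13_16_7 ln13_16_7_ok) (L (nat_lit 460) ln13_17_7 ln13_17_7_ok)))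 (M (nat_lit 430) (B (L (nat_lit 398) ln13_16_6 ln13_16_6_ok) (L (nat_lit 462) ln13_17_6 ln13_17_6_ok))))))) (B (M (nat_lit 365) (B (M (nat_lit 494) (B (L (nat_lit 462) ln13_11_4 ln13_11_4_ok) (L (nat_lit 526) ln13_12_4 ln13_12_4_ok))) (M (nat_lit 333) (B (M (nat_lit 332) (B (L (nat_lit 300) ln13_13_7 ln13_13_7_ok) (L (nat_lit 364) ln13_14_7 ln13_14_7_ok))) (M (nat_lit 460) (B (L (nat_lit 428) ln13_10_5 ln13_10_5_ok) (L (nat_lit 492) ln13_11_5 ln13_11_5_ok))))))) (B (M (nat_lit 525) (B (M (nat_lit 396) (B (L (nat_lit 364) ln13_15_7 ln13_15_7_ok) (L (nat_lit 428) ln13_16_7 ln13_16_7_ok))) (M (nat_lit 557) (B (M (nat_lit 430) (B (L (nat_lit 398) ln13_16_6 ln13_16_6_ok) (L (nat_lit 462) ln13_17_6 ln13_17_6_ok))) (M (nat_lit 558) (B (L (nat_lit 526) ln13_13_4 ln13_13_4_ok) (L (nat_lit 590) ln13_14_4 ln13_14_4_ok))))))) (M (nat_lit 365) (B (M (nat_lit 364) (B (L (nat_lit 332) ln13_14_7 ln13_14_7_ok) (L (nat_lit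 396) ln13_15_7 ln13_15_7_ok))) (M (nat_lit 333) (B (M (nat_lit 460) (B (L (nat_lit 428) ln13_10_5 ln13_10_5_ok) (L (nat_lit 492) ln13_11_5 ln13_11_5_ok))) (M (nat_lit 462) (B (L (nat_lit 430) ln13_10_4 ln13_10_4_ok) (L (nat_lit 494) ln13_11_4 ln13_11_4_ok))))))))))))) (B (M (nat_lit 493) (B (M (nat_lit 365) (B (M (nat_lit 366) (B (L (nat_lit 334) ln13_14_6 ln13_14_6_ok) (L (nat_lit 398) ln13_15_6 ln13_15_6_ok))) (M (nat_lit 494) (B (L (nat_lit 462) ln13_11_4 ln13_11_4_ok) (L (nat_lit 526) ln13_12_4 ln13_12_4_ok))))) (B (M (nat_lit 525) (B (M (nat_lit 398) (B (L (nat_lit 366) ln13_15_6 ln13_15_6_ok) (L (nat_lit 430) ln13_16_6 ln13_16_6_ok))) (M (nat_lit 526) (B (L (nat_lit 494) ln13_12_4 ln13_12_4_ok) (L (nat_lit 558) ln13_13_4 ln13_13_4_ok))))) (B (M (nat_lit 365) (B (M (nat_lit 494) (B (L (nat_lit 462) ln13_11_4 ln13_11_4_ok) (L (nat_lit 526) ln13_12_4 ln13_12_4_ok))) (M (nat_lit 333) (B (M (nat_lit 332)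 (B (L (nat_lit 300) ln13_13_7 ln13_13_7_ok) (L (nat_lit 364) ln13_14_7 ln13_14_7_ok))) (M (nat_lit 460) (B (L (nat_lit 428) ln13_10_5 ln13_10_5_ok) (L (nat_lit 492) ln13_11_5 ln13_11_5_ok))))))) (M (nat_lit 365) (B (M (nat_lit 366) (B (L (nat_lit 334) ln13_14_6 ln13_14_6_ok) (L (nat_lit 398) ln13_15_6 ln13_15_6_ok))) (M (nat_lit 333) (B (M (nat_lit 332) (B (L (nat_lit 300) ln13_13_7 ln13_13_7_ok) (L (nat_lit 364) ln13_14_7 ln13_14_7_ok))) (M (nat_lit 460) (B (L (nat_lit 428) ln13_10_5 ln13_10_5_ok) (L (nat_lit 492) ln13_11_5 ln13_11_5_ok))))))))))) (B (M (nat_lit 493) (B (M (nat_lit 365) (B (M (nat_lit 364) (B (L (nat_lit 332) ln13_14_7 ln13_14_7_ok) (L (nat_lit 396) ln13_15_7 ln13_15_7_ok))) (M (nat_lit 494) (B (L (nat_lit 462) ln13_11_4 ln13_11_4_ok) (L (nat_lit 526) ln13_12_4 ln13_12_4_ok))))) (B (M (nat_lit 525) (B (M (nat_lit 396) (B (L (nat_lit 364) ln13_15_7 ln13_15_7_ok) (L (nat_lit 428) ln13_16_7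 ln13_16_7_ok))) (M (nat_lit 526) (B (L (nat_lit 494) ln13_12_4 ln13_12_4_ok) (L (nat_lit 558) ln13_13_4 ln13_13_4_ok))))) (B (M (nat_lit 365) (B (M (nat_lit 494) (B (L (nat_lit 462) ln13_11_4 ln13_11_4_ok) (L (nat_lit 526) ln13_12_4 ln13_12_4_ok))) (M (nat_lit 333) (B (M (nat_lit 334) (B (L (nat_lit 302) ln13_13_6 ln13_13_6_ok) (L (nat_lit 366) ln13_14_6 ln13_14_6_ok))) (M (nat_lit 460) (B (L (nat_lit 428) ln13_10_5 ln13_10_5_ok) (L (nat_lit 492) ln13_11_5 ln13_11_5_ok))))))) (M (nat_lit 365) (B (M (nat_lit 364) (B (L (nat_lit 332) ln13_14_7 ln13_14_7_ok) (L (nat_lit 396) ln13_15_7 ln13_15_7_ok))) (M (nat_lit 333) (B (M (nat_lit 334) (B (L (nat_lit 302) ln13_13_6 ln13_13_6_ok) (L (nat_lit 366) ln13_14_6 ln13_14_6_ok))) (M (nat_lit 460) (B (L (nat_lit 428) ln13_10_5 ln13_10_5_ok) (L (nat_lit 492) ln13_11_5 ln13_11_5_ok))))))))))) (B (M (nat_lit 365) (B (M (nat_lit 364) (B (L (nat_lit 332) ln13_14_7 ln13_14_7_ok)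 (M (nat_lit 366) (B (L (nat_lit 334) ln13_14_6 ln13_14_6_ok) (M (nat_lit 493) (B (L (nat_lit 396) ln13_15_7 ln13_15_7_ok) (L (nat_lit 398) ln13_15_6 ln13_15_6_ok))))))) (B (M (nat_lit 493) (B (M (nat_lit 366) (B (L (nat_lit 334) ln13_14_6 ln13_14_6_ok) (L (nat_lit 398) ln13_15_6 ln13_15_6_ok))) (M (nat_lit 494) (B (L (nat_lit 462) ln13_11_4 ln13_11_4_ok) (L (nat_lit 526) ln13_12_4 ln13_12_4_ok))))) (B (M (nat_lit 493) (B (M (nat_lit 364) (B (L (nat_lit 332) ln13_14_7 ln13_14_7_ok) (L (nat_lit 396) ln13_15_7 ln13_15_7_ok))) (M (nat_lit 494) (B (L (nat_lit 462) ln13_11_4 ln13_11_4_ok) (L (nat_lit 526) ln13_12_4 ln13_12_4_ok))))) (M (nat_lit 333) (B (M (nat_lit 332) (B (L (nat_lit 300) ln13_13_7 ln13_13_7_ok) (L (nat_lit 364) ln13_14_7 ln13_14_7_ok))) (M (nat_lit 462) (B (L (nat_lit 430) ln13_10_4 ln13_10_4_ok) (L (nat_lit 494) ln13_11_4 ln13_11_4_ok))))))))) (B (M (nat_lit 365) (B (M (nat_lit 333) (B (M (nat_lit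 334) (B (L (nat_lit 302) ln13_13_6 ln13_13_6_ok) (L (nat_lit 366) ln13_14_6 ln13_14_6_ok))) (M (nat_lit 460) (B (L (nat_lit 428) ln13_10_5 ln13_10_5_ok) (L (nat_lit 492) ln13_11_5 ln13_11_5_ok))))) (B (M (nat_lit 333) (B (M (nat_lit 332) (B (L (nat_lit 300) ln13_13_7 ln13_13_7_ok) (L (nat_lit 364) ln13_14_7 ln13_14_7_ok))) (M (nat_lit 462) (B (L (nat_lit 430) ln13_10_4 ln13_10_4_ok) (L (nat_lit 494) ln13_11_4 ln13_11_4_ok))))) (M (nat_lit 364) (B (L (nat_lit 332) ln13_14_7 ln13_14_7_ok) (M (nat_lit 366) (B (L (nat_lit 334) ln13_14_6 ln13_14_6_ok) (M (nat_lit 363) (B (M (nat_lit 398) (B (L (nat_lit 362) ln10_11_0 ln10_11_0_ok) (L (nat_lit 399) ln11_11_0 ln11_11_0_ok))) (B (M (nat_lit 367) (B (M (nat_lit 395) (B (L (nat_lit 394) ln14_11_1 ln14_11_1_ok) (L (nat_lit 396) ln15_11_1 ln15_11_1_ok))) (M (nat_lit 399) (B (L (nat_lit 398) ln11_11_0 ln11_11_0_ok) (L (nat_lit 400) ln12_11_0 ln12_11_0_ok))))) (M (nat_lit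 362) (B (M (nat_lit 330) (B (L (nat_lit 329) ln13_11_3 ln13_11_3_ok) (L (nat_lit 331) ln14_11_3 ln14_11_3_ok))) (M (nat_lit 394) (B (L (nat_lit 393) ln13_11_1 ln13_11_1_ok) (L (nat_lit 395) ln14_11_1 ln14_11_1_ok))))))))))))))) (M (nat_lit 365) (B (M (nat_lit 333) (B (M (nat_lit 334) (B (L (nat_lit 302) ln13_13_6 ln13_13_6_ok) (L (nat_lit 366) ln13_14_6 ln13_14_6_ok))) (M (nat_lit 460) (B (L (nat_lit 428) ln13_10_5 ln13_10_5_ok) (L (nat_lit 492) ln13_11_5 ln13_11_5_ok))))) (B (M (nat_lit 333) (B (M (nat_lit 332) (B (L (nat_lit 300) ln13_13_7 ln13_13_7_ok) (L (nat_lit 364) ln13_14_7 ln13_14_7_ok))) (M (nat_lit 460) (B (L (nat_lit 428) ln13_10_5 ln13_10_5_ok) (L (nat_lit 492) ln13_11_5 ln13_11_5_ok))))) (M (nat_lit 364) (B (L (nat_lit 332) ln13_14_7 ln13_14_7_ok) (M (nat_lit 366) (B (L (nat_lit 334) ln13_14_6 ln13_14_6_ok) (M (nat_lit 493) (B (L (nat_lit 396) ln13_15_7 ln13_15_7_ok) (L (nat_lit 398) ln13_15_6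 ln13_15_6_ok)))))))))))))))))))) (nat_lit 5954262830815946494440468064007740237496571878468728087513875999273036838532266441790969898967138332125836366047228135112217242456098340864) (nat_lit 4052261299150580595684861599252258570174869882537461412187118570558730981092411290222603007801184465064661942454601436468214155686100560903498440552337970214575814251683128541184) (nat_lit 4052261299150580595684861599252258570174869882537461412187118570558730981092411290222603007801184465064661942454601436468214155686100560903498440552337970214575814251683128541184) (by decide +kernel)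
def c20_U : ℕ := 186877567765246893947526620148264562387305707257256911809028093358583115036123597727827496287972006745359642182213956994626703816386763712096992580245469083498645257274528073010852966053904102981632
noncomputable def c20_kids : Cert := (B (K (nat_lit 5954262830815946494440468064007740237496571878468728087513875999273036838532266441790969898967138332125836366047228135112217242456098340864) (nat_lit 411887859809226825465841139794363730197765515738928293129642270254290714345984444949533842518577123599028318528187284953246199445858097880756664468160877953024) (nat_lit 411887859809226825465841139794363730197765515738928293129642270254290714345984444949533842518577123599028318528187284953246199445858097880756664468160877953024) c20_s214) (B (K (nat_lit 5954262830815946494440468064007740237496571878468728087513875999273036838532266441790969898967138332125836366047228135112217242456098340864) (nat_lit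 943490606589814007219503020306410031192464195742873274741146953059203665640144387417980025567717707410600409410037995703767353409923312366015419305778005416741659738112) (nat_lit 943490606589814007219503020306410031192464195742873274741146953059203665640144387417980025567717707410600409410037995703767353409923312366015419305778005416741659738112) c20_s231) (B (K (nat_lit 5954262830815946494440468064007740237496571878468728087513875999273036838532266441790969898967138332125836366047228135112217242456098340864) (nat_lit 1179363258141160341734600181570542734239334878839860316440911581661158216451730677684712759492900875091125338166018664723899446763861185797712984629425970526783841239040) (nat_lit 1179363258141160341734600181570542734239334878839860316440911581661158216451730677684712759492900875091125338166018664723899446763861185797712984629425970526783841239040) c20_s266) (B (K (nat_lit 5954262830815946494440468064007740237496571878468728087513875999273036838532266441790969898967138332125836366047228135112217242456098340864)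 (nat_lit 235872651935775003674211536323475511510104573740914709103635050680736404288853849573942696804232240475000466867822018573934610924782012743983071064096888303326746116096) (nat_lit 235872651935775003674211536323475511510104573740914709103635050680736404288853849573942696804232240475000466867822018573934610924782012743983071064096888303326746116096) c20_s298) (B (K (nat_lit 5954262830815946494440468064007740237496571878468728087513875999273036838532266441790969898967138332125836366047228135112217242456098340864) (nat_lit 1179363258189213925980463535503177464601681420883930867768473260333181473132732964706344092481753590690256380742569183414677782904966746592495236056611024296878117224448) (nat_lit 1179363258189213925980463535503177464601681420883930867768473260333181473132732964706344092481753590690256380742569183414677782904966746592495236056611024296878117224448) c20_s436) (B (K (nat_lit 5954262830815946494440468064007740237496571878468728087513875999273036838532266441790969898967138332125836366047228135112217242456098340864)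 (nat_lit 1179363258189213925980463535503177464601681420883930867768473260333172724129825684514741264528500046422041330552201404691357416077538562218701021027719076897345291419648) (nat_lit 1179363258189213925980463535503177464601681420883930867768473260333172724129825684514741264528500046422041330552201404691357416077538562218701021027719076897345291419648) c20_s461) (B (K (nat_lit 5954262830815946494440468064007740237496571878468728087513875999273036838532266441790969898967138332125836366047228135112217242456098340864) (nat_lit 1179363258189213925978865200245415676579214043102276766619929978084110760894789569091994428666493653899305317850146802571025844460203758544234311038085256526558469816320) (nat_lit 1179363258189213925978865200245415676579214043102276766619929978084110760894789569091994428666493653899305317850146802571025844460203758544234311038085256526558469816320) c20_s503) (B (K (nat_lit 5954262830815946494440468064007740237496571878468728087513875999273036838532266441790969898967138332125836366047228135112217242456098340864)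 (nat_lit 5065326623820289418850998225493032310046201105559115054875997310097996641364332751748185233261818865123483236516967928173399303274206855419440857192956768232998061696691138985984) (nat_lit 5065326623820289418850998225493032310046201105559115054875997310097996641364332751748185233261818865123483236516967928173399303274206855419440857192956768232998061696691138985984) c20_s561) (B (K (nat_lit 5954262830815946494440468064007740237496571878468728087513875999273036838532266441790969898967138332125836366047228135112217242456098340864) (nat_lit 5065326624026677990279899817359710870245913095966958282413365709703845729174571592160096953498578703230366463517414932642958438517693403629582893453993153052133013825183769690112) (nat_lit 5065326624026677990279899817359710870245913095966958282413365709703845729174571592160096953498578703230366463517414932642958438517693403629582893453993153052133013825183769690112)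 c20_s702) (B (K (nat_lit 5954262830815946494440468064007740237496571878468728087513875999273036838532266441790969898967138332125836366047228135112217242456098340864) (nat_lit 5065326623820289418850998225491433974788439317536647677094343208949340629071288895515303142578823313130909266963669265927182972463921370941472367939409585662549825028625958699008) (nat_lit 5065326623820289418850998225491433974788439317536647677094343208949340629071288895515303142578823313130909266963669265927182972463921370941472367939409585662549825028625958699008) c20_s728) (B (K (nat_lit 5954262830815946494440468064007740237496571878468728087513875999273036838532266441790969898967138332125836366047228135112217242456098340864) (nat_lit 5065326623820289418850998225493032310046201105559115054875835919480653786258812387134482445792895712398864159899348367137431453771514687207854614045918330687500131437105628839936) (nat_lit 5065326623820289418850998225493032310046201105559115054875835919480653786258812387134482445792895712398864159899348367137431453771514687207854614045918330687500131437105628839936)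 c20_s747) (B (K (nat_lit 5954262830815946494440468064007740237496571878468728087513875999273036838532266441790969898967138332125836366047228135112217242456098340864) (nat_lit 186877567765246893947399986982710332865866729966494852447724151845013864962432147851602806906534955899857828435745144062430845191016459512667839404867184334787713774497629203334242593191867663253504) (nat_lit 186877567765246893947399986982710332865866729966494852447724151845013864962432147851602806906534955899857828435745144062430845191016459512667839404867184334787713774497629203334242593191867663253504) c20_s3596) (B (K (nat_lit 5954262830815946494440468064007740237496571878468728087513875999273036838532266441790969898967138332125836366047228135112217242456098340864) (nat_lit 1179363258189213925978865200245415676579214043101631204150408250936731777113393492458107300198265303745696941234550137938079110236251451015698884120196910291222385393664)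 (nat_lit 1179363258189213925978865200245415676579214043101631204150408250936731777113393492458107300198265303745696941234550137938079110236251451015698884120196910291222385393664) c20_s3601) (B (K (nat_lit 5954262830815946494440468064007740237496571878468728087513875999273036838532266441790969898967138332125836366047228135112217242456098340864) (nat_lit 1179363258189213925365104461169620870601932748238533599005857121979023893135227593470501653725623477912799487393055287602114685077448116971613886424856325273765017550848) (nat_lit 1179363258189213925365104461169620870601932748238533599005857121979023893135227593470501653725623477912799487393055287602114685077448116971613886424856325273765017550848) c20_s3605) (B (K (nat_lit 5954262830815946494440468064007740237496571878468728087513875999273036838532266441790969898967138332125836366047228135112217242456098340864) (nat_lit 1179363258189213925365104461169620870599853245967942987861173311340916580357650265663969791294245618227338521412201068384834704272870012288040843016635272594893286932480)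 (nat_lit 1179363258189213925365104461169620870599853245967942987861173311340916580357650265663969791294245618227338521412201068384834704272870012288040843016635272594893286932480) c20_s3610) (B (K (nat_lit 5954262830815946494440468064007740237496571878468728087513875999273036838532266441790969898967138332125836366047228135112217242456098340864) (nat_lit 1179363261216589693684093588049520477672444360596421231158260846452832084497473426347415268875229884480941021655293864956169463173462287451158526146966346093415322615808) (nat_lit 1179363261216589693684093588049520477672444360596421231158260846452832084497473426347415268875229884480941021655293864956169463173462287451158526146966346093415322615808) c20_s3634) (B (K (nat_lit 5954262830815946494440468064007740237496571878468728087513875999273036838532266441790969898967138332125836366047228135112217242456098340864) (nat_lit 1179363258168619532590897880203378244870519953458837708789037799373271562998848168871618176440265736959798349380538963085922326067127446544861277840995755292875814862848)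 (nat_lit 1179363258168619532590897880203378244870519953458837708789037799373271562998848168871618176440265736959798349380538963085922326067127446544861277840995755292875814862848) c20_s3659) (B (K (nat_lit 5954262830815946494440468064007740237496571878468728087513875999273036838532266441790969898967138332125836366047228135112217242456098340864) (nat_lit 1179363258141160341632306725047366259573550196497237415160331697371631828361658356064383165374415746599605055892935606566971869986266611494724268663219408082993611276288) (nat_lit 1179363258141160341632306725047366259573550196497237415160331697371631828361658356064383165374415746599605055892935606566971869986266611494724268663219408082993611276288) c20_s3776) (B (K (nat_lit 5954262830815946494440468064007740237496571878468728087513875999273036838532266441790969898967138332125836366047228135112217242456098340864) (nat_lit 1179363258141160341632306725044389128158835390673547384843227127884084861014738880250663760192626599440590394638732942605191358839779957423111929796400419892128869515264)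 (nat_lit 1179363258141160341632306725044389128158835390673547384843227127884084861014738880250663760192626599440590394638732942605191358839779957423111929796400419892128869515264) c20_s3790) (B (K (nat_lit 5954262830815946494440468064007740237496571878468728087513875999273036838532266441790969898967138332125836366047228135112217242456098340864) (nat_lit 1179363258141160341632306725035457733914690973202477293891894631080781768308157336964731229951040152503155144317159292392077567728119078340727203603956377169910388752384) (nat_lit 1179363258141160341632306725035457733914690973202477293891894631080781768308157336964731229951040152503155144317159292392077567728119078340727203603956377169910388752384) c20_s3791) (B (K (nat_lit 5954262830815946494440468064007740237496571878468728087513875999273036838532266441790969898967138332125836366047228135112217242456098340864) (nat_lit 5065326623820289418802944641132088817528295596351244808236071048301551094176917314141297602435927292412604931623560998039612497486905203025820775800687101275794533176259010101248)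 (nat_lit 5065326623820289418802944641132088817528295596351244808236071048301551094176917314141297602435927292412604931623560998039612497486905203025820775800687101275794533176259010101248) c20_s3813) (B (K (nat_lit 5954262830815946494440468064007740237496571878468728087513875999273036838532266441790969898967138332125836366047228135112217242456098340864) (nat_lit 1646231155477716819743627711960244615131784886259561745164372907930173528475211677865623886954478491253236513351931925793404224981027640628604565348441774927679150861088968409088) (nat_lit 1646231155477716819743627711960244615131784886259561745164372907930173528475211677865623886954478491253236513351931925793404224981027640628604565348441774927679150861088968409088) c20_s6572) (B (K (nat_lit 5954262830815946494440468064007740237496571878468728087513875999273036838532266441790969898967138332125836366047228135112217242456098340864) (nat_lit 235872651716101478396591840672500994554759219427574141708309317240180069734011407619578965953018707372942959726719396201488831780034417746973889100485318222435709878272)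 (nat_lit 235872651716101478396591840672500994554759219427574141708309317240180069734011407619578965953018707372942959726719396201488831780034417746973889100485318222435709878272) c20_s6652) (K (nat_lit 5954262830815946494440468064007740237496571878468728087513875999273036838532266441790969898967138332125836366047228135112217242456098340864) (nat_lit 4052261299150580595684861599252258570174869882537461412187118570558730981092411290222603007801184465064661942454601436468214155686100560903498440552337970214575814251683128541184) (nat_lit 4052261299150580595684861599252258570174869882537461412187118570558730981092411290222603007801184465064661942454601436468214155686100560903498440552337970214575814251683128541184) c20_s6659))))))))))))))))))))))))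
theorem c20_win : ∃ n, ∀ B : Set Cell, Avoids B c20_U → MakerForces n (cellsOf (1 <<< 429)) B :=
  forces_of_chk (1 <<< 429) (nat_lit 461) c20_kids c20_U c20_U (by decide +kernel)

end Vale.Agent.Lib.P062.Data
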