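import Vale.Agent.Lib.P062.Data.Lines

namespace Vale.Agent.Lib.P062.Data

theorem c21_s111 : Sem (nat_lit 1386334847383188664550070665778531748218595021979121511688892729411143073470393764272092352380775458208712834410189682411080515584) (nat_lit 219673525213686285334920874735247216613554369412685619135881050200531231737690528683581444585796748985679941705368930107361966979249417889582250100960826228736) (nat_lit 219673525213686285334920874735247216613554369412685619135881050200531231737690528683581444585796748985679941705368930107361966979249417889582250100960826228736) :=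
  sem_of_chk (M (nat_lit 365) (B (M (nat_lit 333) (B (M (nat_lit 332) (B (L (nat_lit 300) ln13_13_7 ln13_13_7_ok) (M (nat_lit 334) (B (L (nat_lit 302) ln13_13_6 ln13_13_6_ok) (M (nat_lit 461) (B (L (nat_lit 364) ln13_14_7 ln13_14_7_ok) (L (nat_lit 366) ln13_14_6 ln13_14_6_ok))))))) (B (M (nat_lit 301) (B (M (nat_lit 302) (B (L (nat_lit 270) ln13_12_6 ln13_12_6_ok) (L (nat_lit 334) ln13_13_6 ln13_13_6_ok))) (M (nat_lit 428) (B (L (nat_lit 396) ln13_9_5 ln13_9_5_ok) (L (nat_lit 460) ln13_10_5 ln13_10_5_ok))))) (M (nat_lit 301) (B (M (nat_lit 300) (B (L (nat_lit 268) ln13_12_7 ln13_12_7_ok) (L (nat_lit 332) ln13_13_7 ln13_13_7_ok))) (M (nat_lit 428) (B (L (nat_lit 396) ln13_9_5 ln13_9_5_ok) (L (nat_lit 460) ln13_10_5 ln13_10_5_ok)))))))) (B (M (nat_lit 333) (B (M (nat_lit 301) (B (M (nat_lit 302) (B (L (nat_lit 270) ln13_12_6 ln13_12_6_ok) (L (nat_lit 334) ln13_13_6 ln13_13_6_ok))) (M (nat_lit 428)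 (B (L (nat_lit 396) ln13_9_5 ln13_9_5_ok) (L (nat_lit 460) ln13_10_5 ln13_10_5_ok))))) (M (nat_lit 461) (B (M (nat_lit 332) (B (L (nat_lit 300) ln13_13_7 ln13_13_7_ok) (L (nat_lit 364) ln13_14_7 ln13_14_7_ok))) (M (nat_lit 462) (B (L (nat_lit 430) ln13_10_4 ln13_10_4_ok) (L (nat_lit 494) ln13_11_4 ln13_11_4_ok))))))) (B (M (nat_lit 333) (B (M (nat_lit 301) (B (M (nat_lit 428) (B (L (nat_lit 396) ln13_9_5 ln13_9_5_ok) (L (nat_lit 460) ln13_10_5 ln13_10_5_ok))) (M (nat_lit 430) (B (L (nat_lit 398) ln13_9_4 ln13_9_4_ok) (L (nat_lit 462) ln13_10_4 ln13_10_4_ok))))) (B (M (nat_lit 461) (B (M (nat_lit 332) (B (L (nat_lit 300) ln13_13_7 ln13_13_7_ok) (L (nat_lit 364) ln13_14_7 ln13_14_7_ok))) (M (nat_lit 462) (B (L (nat_lit 430) ln13_10_4 ln13_10_4_ok) (L (nat_lit 494) ln13_11_4 ln13_11_4_ok))))) (M (nat_lit 301) (B (M (nat_lit 300) (B (L (nat_lit 268) ln13_12_7 ln13_12_7_ok) (L (nat_lit 332) ln13_13_7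 ln13_13_7_ok))) (M (nat_lit 428) (B (L (nat_lit 396) ln13_9_5 ln13_9_5_ok) (L (nat_lit 460) ln13_10_5 ln13_10_5_ok)))))))) (B (M (nat_lit 333) (B (M (nat_lit 301) (B (M (nat_lit 428) (B (L (nat_lit 396) ln13_9_5 ln13_9_5_ok) (L (nat_lit 460) ln13_10_5 ln13_10_5_ok))) (M (nat_lit 430) (B (L (nat_lit 398) ln13_9_4 ln13_9_4_ok) (L (nat_lit 462) ln13_10_4 ln13_10_4_ok))))) (B (M (nat_lit 461) (B (M (nat_lit 334) (B (L (nat_lit 302) ln13_13_6 ln13_13_6_ok) (L (nat_lit 366) ln13_14_6 ln13_14_6_ok))) (M (nat_lit 462) (B (L (nat_lit 430) ln13_10_4 ln13_10_4_ok) (L (nat_lit 494) ln13_11_4 ln13_11_4_ok))))) (M (nat_lit 301) (B (M (nat_lit 302) (B (L (nat_lit 270) ln13_12_6 ln13_12_6_ok) (L (nat_lit 334) ln13_13_6 ln13_13_6_ok))) (M (nat_lit 428) (B (L (nat_lit 396) ln13_9_5 ln13_9_5_ok) (L (nat_lit 460) ln13_10_5 ln13_10_5_ok)))))))) (B (M (nat_lit 461) (B (M (nat_lit 333) (B (M (nat_lit 334) (B (L (nat_lit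 302) ln13_13_6 ln13_13_6_ok) (L (nat_lit 366) ln13_14_6 ln13_14_6_ok))) (M (nat_lit 460) (B (L (nat_lit 428) ln13_10_5 ln13_10_5_ok) (L (nat_lit 492) ln13_11_5 ln13_11_5_ok))))) (B (M (nat_lit 333) (B (M (nat_lit 332) (B (L (nat_lit 300) ln13_13_7 ln13_13_7_ok) (L (nat_lit 364) ln13_14_7 ln13_14_7_ok))) (M (nat_lit 460) (B (L (nat_lit 428) ln13_10_5 ln13_10_5_ok) (L (nat_lit 492) ln13_11_5 ln13_11_5_ok))))) (M (nat_lit 493) (B (M (nat_lit 364) (B (L (nat_lit 332) ln13_14_7 ln13_14_7_ok) (L (nat_lit 396) ln13_15_7 ln13_15_7_ok))) (M (nat_lit 494) (B (L (nat_lit 462) ln13_11_4 ln13_11_4_ok) (L (nat_lit 526) ln13_12_4 ln13_12_4_ok)))))))) (B (M (nat_lit 461) (B (M (nat_lit 364) (B (L (nat_lit 332) ln13_14_7 ln13_14_7_ok) (M (nat_lit 493) (B (L (nat_lit 396) ln13_15_7 ln13_15_7_ok) (M (nat_lit 366) (B (L (nat_lit 334) ln13_14_6 ln13_14_6_ok) (L (nat_lit 398) ln13_15_6 ln13_15_6_ok))))))) (B (M (nat_lit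 493) (B (M (nat_lit 366) (B (L (nat_lit 334) ln13_14_6 ln13_14_6_ok) (L (nat_lit 398) ln13_15_6 ln13_15_6_ok))) (M (nat_lit 494) (B (L (nat_lit 462) ln13_11_4 ln13_11_4_ok) (L (nat_lit 526) ln13_12_4 ln13_12_4_ok))))) (B (M (nat_lit 493) (B (M (nat_lit 364) (B (L (nat_lit 332) ln13_14_7 ln13_14_7_ok) (L (nat_lit 396) ln13_15_7 ln13_15_7_ok))) (M (nat_lit 494) (B (L (nat_lit 462) ln13_11_4 ln13_11_4_ok) (L (nat_lit 526) ln13_12_4 ln13_12_4_ok))))) (M (nat_lit 364) (B (L (nat_lit 332) ln13_14_7 ln13_14_7_ok) (M (nat_lit 366) (B (L (nat_lit 334) ln13_14_6 ln13_14_6_ok) (M (nat_lit 363) (B (M (nat_lit 398) (B (L (nat_lit 362) ln10_11_0 ln10_11_0_ok) (L (nat_lit 399) ln11_11_0 ln11_11_0_ok))) (B (M (nat_lit 367) (B (M (nat_lit 395) (B (L (nat_lit 394) ln14_11_1 ln14_11_1_ok) (L (nat_lit 396) ln15_11_1 ln15_11_1_ok))) (M (nat_lit 399) (B (L (nat_lit 398) ln11_11_0 ln11_11_0_ok) (L (nat_lit 400) ln12_11_0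 ln12_11_0_ok))))) (M (nat_lit 362) (B (M (nat_lit 330) (B (L (nat_lit 329) ln13_11_3 ln13_11_3_ok) (L (nat_lit 331) ln14_11_3 ln14_11_3_ok))) (M (nat_lit 394) (B (L (nat_lit 393) ln13_11_1 ln13_11_1_ok) (L (nat_lit 395) ln14_11_1 ln14_11_1_ok)))))))))))))))) (B (M (nat_lit 333) (B (M (nat_lit 301) (B (M (nat_lit 302) (B (L (nat_lit 270) ln13_12_6 ln13_12_6_ok) (L (nat_lit 334) ln13_13_6 ln13_13_6_ok))) (M (nat_lit 430) (B (L (nat_lit 398) ln13_9_4 ln13_9_4_ok) (L (nat_lit 462) ln13_10_4 ln13_10_4_ok))))) (B (M (nat_lit 301) (B (M (nat_lit 300) (B (L (nat_lit 268) ln13_12_7 ln13_12_7_ok) (L (nat_lit 332) ln13_13_7 ln13_13_7_ok))) (M (nat_lit 430) (B (L (nat_lit 398) ln13_9_4 ln13_9_4_ok) (L (nat_lit 462) ln13_10_4 ln13_10_4_ok))))) (B (M (nat_lit 461) (B (M (nat_lit 332) (B (L (nat_lit 300) ln13_13_7 ln13_13_7_ok) (L (nat_lit 364) ln13_14_7 ln13_14_7_ok))) (M (nat_lit 462) (B (L (nat_lit 430) ln13_10_4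 ln13_10_4_ok) (L (nat_lit 494) ln13_11_4 ln13_11_4_ok))))) (M (nat_lit 301) (B (M (nat_lit 300) (B (L (nat_lit 268) ln13_12_7 ln13_12_7_ok) (L (nat_lit 332) ln13_13_7 ln13_13_7_ok))) (M (nat_lit 302) (B (L (nat_lit 270) ln13_12_6 ln13_12_6_ok) (L (nat_lit 334) ln13_13_6 ln13_13_6_ok))))))))) (M (nat_lit 333) (B (M (nat_lit 301) (B (M (nat_lit 300) (B (L (nat_lit 268) ln13_12_7 ln13_12_7_ok) (L (nat_lit 332) ln13_13_7 ln13_13_7_ok))) (M (nat_lit 302) (B (L (nat_lit 270) ln13_12_6 ln13_12_6_ok) (L (nat_lit 334) ln13_13_6 ln13_13_6_ok))))) (B (M (nat_lit 301) (B (M (nat_lit 302) (B (L (nat_lit 270) ln13_12_6 ln13_12_6_ok) (L (nat_lit 334) ln13_13_6 ln13_13_6_ok))) (M (nat_lit 428) (B (L (nat_lit 396) ln13_9_5 ln13_9_5_ok) (L (nat_lit 460) ln13_10_5 ln13_10_5_ok))))) (B (M (nat_lit 301) (B (M (nat_lit 300) (B (L (nat_lit 268) ln13_12_7 ln13_12_7_ok) (L (nat_lit 332) ln13_13_7 ln13_13_7_ok))) (M (nat_lit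 428) (B (L (nat_lit 396) ln13_9_5 ln13_9_5_ok) (L (nat_lit 460) ln13_10_5 ln13_10_5_ok))))) (M (nat_lit 332) (B (L (nat_lit 300) ln13_13_7 ln13_13_7_ok) (M (nat_lit 334) (B (L (nat_lit 302) ln13_13_6 ln13_13_6_ok) (M (nat_lit 331) (B (M (nat_lit 366) (B (L (nat_lit 330) ln10_10_0 ln10_10_0_ok) (L (nat_lit 367) ln11_10_0 ln11_10_0_ok))) (B (M (nat_lit 335) (B (M (nat_lit 363) (B (L (nat_lit 362) ln14_10_1 ln14_10_1_ok) (L (nat_lit 364) ln15_10_1 ln15_10_1_ok))) (M (nat_lit 367) (B (L (nat_lit 366) ln11_10_0 ln11_10_0_ok) (L (nat_lit 368) ln12_10_0 ln12_10_0_ok))))) (M (nat_lit 330) (B (M (nat_lit 298) (B (L (nat_lit 297) ln13_10_3 ln13_10_3_ok) (L (nat_lit 299) ln14_10_3 ln14_10_3_ok))) (M (nat_lit 362) (B (L (nat_lit 361) ln13_10_1 ln13_10_1_ok) (L (nat_lit 363) ln14_10_1 ln14_10_1_ok)))))))))))))))))))))))) (nat_lit 1386334847383188664550070665778531748218595021979121511688892729411143073470393764272092352380775458208712834410189682411080515584)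 (nat_lit 219673525213686285334920874735247216613554369412685619135881050200531231737690528683581444585796748985679941705368930107361966979249417889582250100960826228736) (nat_lit 219673525213686285334920874735247216613554369412685619135881050200531231737690528683581444585796748985679941705368930107361966979249417889582250100960826228736) (by decide +kernel)
theorem c21_s143 : Sem (nat_lit 1386334847383188664550070665778531748218595021979121511688892729411143073470393764272092352380775458208712834410189682411080515584) (nat_lit 219673525213686285337525864729187886665172428444878084428391855442511460986092652331576588958566190152629236992391043463723360622742814072246296347729769529344) (nat_lit 219673525213686285337525864729187886665172428444878084428391855442511460986092652331576588958566190152629236992391043463723360622742814072246296347729769529344) :=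
  sem_of_chk (M (nat_lit 365) (B (M (nat_lit 333) (B (M (nat_lit 301) (B (M (nat_lit 428) (B (L (nat_lit 396) ln13_9_5 ln13_9_5_ok) (L (nat_lit 460) ln13_10_5 ln13_10_5_ok))) (M (nat_lit 430) (B (L (nat_lit 398) ln13_9_4 ln13_9_4_ok) (L (nat_lit 462) ln13_10_4 ln13_10_4_ok))))) (M (nat_lit 332) (B (L (nat_lit 300) ln13_13_7 ln13_13_7_ok) (M (nat_lit 334) (B (L (nat_lit 302) ln13_13_6 ln13_13_6_ok) (M (nat_lit 461) (B (L (nat_lit 364) ln13_14_7 ln13_14_7_ok) (L (nat_lit 366) ln13_14_6 ln13_14_6_ok))))))))) (B (M (nat_lit 333) (B (M (nat_lit 301) (B (M (nat_lit 428) (B (L (nat_lit 396) ln13_9_5 ln13_9_5_ok) (L (nat_lit 460) ln13_10_5 ln13_10_5_ok))) (M (nat_lit 430) (B (L (nat_lit 398) ln13_9_4 ln13_9_4_ok) (L (nat_lit 462) ln13_10_4 ln13_10_4_ok))))) (B (M (nat_lit 461) (B (M (nat_lit 334) (B (L (nat_lit 302) ln13_13_6 ln13_13_6_ok) (L (nat_lit 366) ln13_14_6 ln13_14_6_ok))) (M (nat_lit 462) (B (L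 (nat_lit 430) ln13_10_4 ln13_10_4_ok) (L (nat_lit 494) ln13_11_4 ln13_11_4_ok))))) (M (nat_lit 301) (B (M (nat_lit 302) (B (L (nat_lit 270) ln13_12_6 ln13_12_6_ok) (L (nat_lit 334) ln13_13_6 ln13_13_6_ok))) (M (nat_lit 428) (B (L (nat_lit 396) ln13_9_5 ln13_9_5_ok) (L (nat_lit 460) ln13_10_5 ln13_10_5_ok)))))))) (B (M (nat_lit 461) (B (M (nat_lit 493) (B (M (nat_lit 366) (B (L (nat_lit 334) ln13_14_6 ln13_14_6_ok) (L (nat_lit 398) ln13_15_6 ln13_15_6_ok))) (M (nat_lit 494) (B (L (nat_lit 462) ln13_11_4 ln13_11_4_ok) (L (nat_lit 526) ln13_12_4 ln13_12_4_ok))))) (B (M (nat_lit 493) (B (M (nat_lit 364) (B (L (nat_lit 332) ln13_14_7 ln13_14_7_ok) (L (nat_lit 396) ln13_15_7 ln13_15_7_ok))) (M (nat_lit 494) (B (L (nat_lit 462) ln13_11_4 ln13_11_4_ok) (L (nat_lit 526) ln13_12_4 ln13_12_4_ok))))) (B (M (nat_lit 364) (B (L (nat_lit 332) ln13_14_7 ln13_14_7_ok) (M (nat_lit 493) (B (L (nat_lit 396) ln13_15_7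 ln13_15_7_ok) (M (nat_lit 366) (B (L (nat_lit 334) ln13_14_6 ln13_14_6_ok) (L (nat_lit 398) ln13_15_6 ln13_15_6_ok))))))) (M (nat_lit 333) (B (M (nat_lit 332) (B (L (nat_lit 300) ln13_13_7 ln13_13_7_ok) (L (nat_lit 364) ln13_14_7 ln13_14_7_ok))) (M (nat_lit 460) (B (L (nat_lit 428) ln13_10_5 ln13_10_5_ok) (L (nat_lit 492) ln13_11_5 ln13_11_5_ok))))))))) (B (M (nat_lit 461) (B (M (nat_lit 364) (B (L (nat_lit 332) ln13_14_7 ln13_14_7_ok) (M (nat_lit 493) (B (L (nat_lit 396) ln13_15_7 ln13_15_7_ok) (M (nat_lit 366) (B (L (nat_lit 334) ln13_14_6 ln13_14_6_ok) (L (nat_lit 398) ln13_15_6 ln13_15_6_ok))))))) (B (M (nat_lit 493) (B (M (nat_lit 366) (B (L (nat_lit 334) ln13_14_6 ln13_14_6_ok) (L (nat_lit 398) ln13_15_6 ln13_15_6_ok))) (M (nat_lit 494) (B (L (nat_lit 462) ln13_11_4 ln13_11_4_ok) (L (nat_lit 526) ln13_12_4 ln13_12_4_ok))))) (B (M (nat_lit 493) (B (M (nat_lit 364) (B (L (nat_lit 332) ln13_14_7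 ln13_14_7_ok) (L (nat_lit 396) ln13_15_7 ln13_15_7_ok))) (M (nat_lit 494) (B (L (nat_lit 462) ln13_11_4 ln13_11_4_ok) (L (nat_lit 526) ln13_12_4 ln13_12_4_ok))))) (M (nat_lit 364) (B (L (nat_lit 332) ln13_14_7 ln13_14_7_ok) (M (nat_lit 366) (B (L (nat_lit 334) ln13_14_6 ln13_14_6_ok) (M (nat_lit 363) (B (M (nat_lit 398) (B (L (nat_lit 362) ln10_11_0 ln10_11_0_ok) (L (nat_lit 399) ln11_11_0 ln11_11_0_ok))) (B (M (nat_lit 367) (B (M (nat_lit 395) (B (L (nat_lit 394) ln14_11_1 ln14_11_1_ok) (L (nat_lit 396) ln15_11_1 ln15_11_1_ok))) (M (nat_lit 399) (B (L (nat_lit 398) ln11_11_0 ln11_11_0_ok) (L (nat_lit 400) ln12_11_0 ln12_11_0_ok))))) (M (nat_lit 362) (B (M (nat_lit 330) (B (L (nat_lit 329) ln13_11_3 ln13_11_3_ok) (L (nat_lit 331) ln14_11_3 ln14_11_3_ok))) (M (nat_lit 394) (B (L (nat_lit 393) ln13_11_1 ln13_11_1_ok) (L (nat_lit 395) ln14_11_1 ln14_11_1_ok)))))))))))))))) (B (M (nat_lit 333) (B (M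 (nat_lit 461) (B (M (nat_lit 332) (B (L (nat_lit 300) ln13_13_7 ln13_13_7_ok) (L (nat_lit 364) ln13_14_7 ln13_14_7_ok))) (M (nat_lit 460) (B (L (nat_lit 428) ln13_10_5 ln13_10_5_ok) (L (nat_lit 492) ln13_11_5 ln13_11_5_ok))))) (B (M (nat_lit 461) (B (M (nat_lit 460) (B (L (nat_lit 428) ln13_10_5 ln13_10_5_ok) (L (nat_lit 492) ln13_11_5 ln13_11_5_ok))) (M (nat_lit 462) (B (L (nat_lit 430) ln13_10_4 ln13_10_4_ok) (L (nat_lit 494) ln13_11_4 ln13_11_4_ok))))) (B (M (nat_lit 461) (B (M (nat_lit 332) (B (L (nat_lit 300) ln13_13_7 ln13_13_7_ok) (L (nat_lit 364) ln13_14_7 ln13_14_7_ok))) (M (nat_lit 462) (B (L (nat_lit 430) ln13_10_4 ln13_10_4_ok) (L (nat_lit 494) ln13_11_4 ln13_11_4_ok))))) (M (nat_lit 301) (B (M (nat_lit 428) (B (L (nat_lit 396) ln13_9_5 ln13_9_5_ok) (L (nat_lit 460) ln13_10_5 ln13_10_5_ok))) (M (nat_lit 430) (B (L (nat_lit 398) ln13_9_4 ln13_9_4_ok) (L (nat_lit 462) ln13_10_4 ln13_10_4_ok)))))))))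 (B (M (nat_lit 333) (B (M (nat_lit 461) (B (M (nat_lit 332) (B (L (nat_lit 300) ln13_13_7 ln13_13_7_ok) (L (nat_lit 364) ln13_14_7 ln13_14_7_ok))) (M (nat_lit 460) (B (L (nat_lit 428) ln13_10_5 ln13_10_5_ok) (L (nat_lit 492) ln13_11_5 ln13_11_5_ok))))) (B (M (nat_lit 461) (B (M (nat_lit 460) (B (L (nat_lit 428) ln13_10_5 ln13_10_5_ok) (L (nat_lit 492) ln13_11_5 ln13_11_5_ok))) (M (nat_lit 462) (B (L (nat_lit 430) ln13_10_4 ln13_10_4_ok) (L (nat_lit 494) ln13_11_4 ln13_11_4_ok))))) (B (M (nat_lit 461) (B (M (nat_lit 332) (B (L (nat_lit 300) ln13_13_7 ln13_13_7_ok) (L (nat_lit 364) ln13_14_7 ln13_14_7_ok))) (M (nat_lit 462) (B (L (nat_lit 430) ln13_10_4 ln13_10_4_ok) (L (nat_lit 494) ln13_11_4 ln13_11_4_ok))))) (M (nat_lit 301) (B (M (nat_lit 302) (B (L (nat_lit 270) ln13_12_6 ln13_12_6_ok) (L (nat_lit 334) ln13_13_6 ln13_13_6_ok))) (M (nat_lit 430) (B (L (nat_lit 398) ln13_9_4 ln13_9_4_ok) (L (nat_lit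 462) ln13_10_4 ln13_10_4_ok))))))))) (B (M (nat_lit 333) (B (M (nat_lit 301) (B (M (nat_lit 302) (B (L (nat_lit 270) ln13_12_6 ln13_12_6_ok) (L (nat_lit 334) ln13_13_6 ln13_13_6_ok))) (M (nat_lit 428) (B (L (nat_lit 396) ln13_9_5 ln13_9_5_ok) (L (nat_lit 460) ln13_10_5 ln13_10_5_ok))))) (M (nat_lit 461) (B (M (nat_lit 332) (B (L (nat_lit 300) ln13_13_7 ln13_13_7_ok) (L (nat_lit 364) ln13_14_7 ln13_14_7_ok))) (M (nat_lit 462) (B (L (nat_lit 430) ln13_10_4 ln13_10_4_ok) (L (nat_lit 494) ln13_11_4 ln13_11_4_ok))))))) (B (M (nat_lit 333) (B (M (nat_lit 301) (B (M (nat_lit 302) (B (L (nat_lit 270) ln13_12_6 ln13_12_6_ok) (L (nat_lit 334) ln13_13_6 ln13_13_6_ok))) (M (nat_lit 430) (B (L (nat_lit 398) ln13_9_4 ln13_9_4_ok) (L (nat_lit 462) ln13_10_4 ln13_10_4_ok))))) (B (M (nat_lit 301) (B (M (nat_lit 428) (B (L (nat_lit 396) ln13_9_5 ln13_9_5_ok) (L (nat_lit 460) ln13_10_5 ln13_10_5_ok))) (M (nat_lit 430)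 (B (L (nat_lit 398) ln13_9_4 ln13_9_4_ok) (L (nat_lit 462) ln13_10_4 ln13_10_4_ok))))) (B (M (nat_lit 428) (B (L (nat_lit 460) ln13_10_5 ln13_10_5_ok) (M (nat_lit 430) (B (L (nat_lit 462) ln13_10_4 ln13_10_4_ok) (M (nat_lit 427) (B (M (nat_lit 398) (B (L (nat_lit 426) ln10_13_2 ln10_13_2_ok) (L (nat_lit 399) ln11_13_2 ln11_13_2_ok))) (B (M (nat_lit 426) (B (M (nat_lit 394) (B (L (nat_lit 393) ln13_13_3 ln13_13_3_ok) (L (nat_lit 395) ln14_13_3 ln14_13_3_ok))) (M (nat_lit 458) (B (L (nat_lit 457) ln13_13_1 ln13_13_1_ok) (L (nat_lit 459) ln14_13_1 ln14_13_1_ok))))) (M (nat_lit 431) (B (M (nat_lit 395) (B (L (nat_lit 394) ln14_13_3 ln14_13_3_ok) (L (nat_lit 396) ln15_13_3 ln15_13_3_ok))) (M (nat_lit 399) (B (L (nat_lit 398) ln11_13_2 ln11_13_2_ok) (L (nat_lit 400) ln12_13_2 ln12_13_2_ok)))))))))))) (M (nat_lit 301) (B (M (nat_lit 302) (B (L (nat_lit 270) ln13_12_6 ln13_12_6_ok) (L (nat_lit 334) ln13_13_6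 ln13_13_6_ok))) (M (nat_lit 428) (B (L (nat_lit 396) ln13_9_5 ln13_9_5_ok) (L (nat_lit 460) ln13_10_5 ln13_10_5_ok))))))))) (M (nat_lit 333) (B (M (nat_lit 332) (B (L (nat_lit 300) ln13_13_7 ln13_13_7_ok) (M (nat_lit 334) (B (L (nat_lit 302) ln13_13_6 ln13_13_6_ok) (M (nat_lit 461) (B (L (nat_lit 364) ln13_14_7 ln13_14_7_ok) (L (nat_lit 366) ln13_14_6 ln13_14_6_ok))))))) (B (M (nat_lit 461) (B (M (nat_lit 334) (B (L (nat_lit 302) ln13_13_6 ln13_13_6_ok) (L (nat_lit 366) ln13_14_6 ln13_14_6_ok))) (M (nat_lit 460) (B (L (nat_lit 428) ln13_10_5 ln13_10_5_ok) (L (nat_lit 492) ln13_11_5 ln13_11_5_ok))))) (B (M (nat_lit 461) (B (M (nat_lit 332) (B (L (nat_lit 300) ln13_13_7 ln13_13_7_ok) (L (nat_lit 364) ln13_14_7 ln13_14_7_ok))) (M (nat_lit 460) (B (L (nat_lit 428) ln13_10_5 ln13_10_5_ok) (L (nat_lit 492) ln13_11_5 ln13_11_5_ok))))) (M (nat_lit 301) (B (M (nat_lit 302) (B (L (nat_lit 270) ln13_12_6 ln13_12_6_ok)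 (L (nat_lit 334) ln13_13_6 ln13_13_6_ok))) (M (nat_lit 428) (B (L (nat_lit 396) ln13_9_5 ln13_9_5_ok) (L (nat_lit 460) ln13_10_5 ln13_10_5_ok)))))))))))))))))) (nat_lit 1386334847383188664550070665778531748218595021979121511688892729411143073470393764272092352380775458208712834410189682411080515584) (nat_lit 219673525213686285337525864729187886665172428444878084428391855442511460986092652331576588958566190152629236992391043463723360622742814072246296347729769529344) (nat_lit 219673525213686285337525864729187886665172428444878084428391855442511460986092652331576588958566190152629236992391043463723360622742814072246296347729769529344) (by decide +kernel)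
theorem c21_s149 : Sem (nat_lit 1386334847383188664550070665778531748218595021979121511688892729411143073470393764272092352380775458208712834410189682411080515584) (nat_lit 219673525213686285337525864729187886665172428444878084428391855442511460986091229478384040817156825312365450235379342482151789231491897217454007111192753995776) (nat_lit 219673525213686285337525864729187886665172428444878084428391855442511460986091229478384040817156825312365450235379342482151789231491897217454007111192753995776) :=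
  sem_of_chk (M (nat_lit 365) (B (M (nat_lit 333) (B (M (nat_lit 301) (B (M (nat_lit 428) (B (L (nat_lit 396) ln13_9_5 ln13_9_5_ok) (L (nat_lit 460) ln13_10_5 ln13_10_5_ok))) (M (nat_lit 430) (B (L (nat_lit 398) ln13_9_4 ln13_9_4_ok) (L (nat_lit 462) ln13_10_4 ln13_10_4_ok))))) (M (nat_lit 332) (B (L (nat_lit 300) ln13_13_7 ln13_13_7_ok) (M (nat_lit 334) (B (L (nat_lit 302) ln13_13_6 ln13_13_6_ok) (M (nat_lit 461) (B (L (nat_lit 364) ln13_14_7 ln13_14_7_ok) (L (nat_lit 366) ln13_14_6 ln13_14_6_ok))))))))) (B (M (nat_lit 333) (B (M (nat_lit 461) (B (M (nat_lit 334) (B (L (nat_lit 302) ln13_13_6 ln13_13_6_ok) (L (nat_lit 366) ln13_14_6 ln13_14_6_ok))) (M (nat_lit 460) (B (L (nat_lit 428) ln13_10_5 ln13_10_5_ok) (L (nat_lit 492) ln13_11_5 ln13_11_5_ok))))) (B (M (nat_lit 461) (B (M (nat_lit 460) (B (L (nat_lit 428) ln13_10_5 ln13_10_5_ok) (L (nat_lit 492) ln13_11_5 ln13_11_5_ok))) (M (nat_lit 462) (B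 (L (nat_lit 430) ln13_10_4 ln13_10_4_ok) (L (nat_lit 494) ln13_11_4 ln13_11_4_ok))))) (B (M (nat_lit 461) (B (M (nat_lit 334) (B (L (nat_lit 302) ln13_13_6 ln13_13_6_ok) (L (nat_lit 366) ln13_14_6 ln13_14_6_ok))) (M (nat_lit 462) (B (L (nat_lit 430) ln13_10_4 ln13_10_4_ok) (L (nat_lit 494) ln13_11_4 ln13_11_4_ok))))) (M (nat_lit 301) (B (M (nat_lit 428) (B (L (nat_lit 396) ln13_9_5 ln13_9_5_ok) (L (nat_lit 460) ln13_10_5 ln13_10_5_ok))) (M (nat_lit 430) (B (L (nat_lit 398) ln13_9_4 ln13_9_4_ok) (L (nat_lit 462) ln13_10_4 ln13_10_4_ok))))))))) (B (M (nat_lit 461) (B (M (nat_lit 493) (B (M (nat_lit 366) (B (L (nat_lit 334) ln13_14_6 ln13_14_6_ok) (L (nat_lit 398) ln13_15_6 ln13_15_6_ok))) (M (nat_lit 494) (B (L (nat_lit 462) ln13_11_4 ln13_11_4_ok) (L (nat_lit 526) ln13_12_4 ln13_12_4_ok))))) (B (M (nat_lit 493) (B (M (nat_lit 364) (B (L (nat_lit 332) ln13_14_7 ln13_14_7_ok) (L (nat_lit 396) ln13_15_7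 ln13_15_7_ok))) (M (nat_lit 494) (B (L (nat_lit 462) ln13_11_4 ln13_11_4_ok) (L (nat_lit 526) ln13_12_4 ln13_12_4_ok))))) (B (M (nat_lit 364) (B (L (nat_lit 332) ln13_14_7 ln13_14_7_ok) (M (nat_lit 493) (B (L (nat_lit 396) ln13_15_7 ln13_15_7_ok) (M (nat_lit 366) (B (L (nat_lit 334) ln13_14_6 ln13_14_6_ok) (L (nat_lit 398) ln13_15_6 ln13_15_6_ok))))))) (M (nat_lit 333) (B (M (nat_lit 332) (B (L (nat_lit 300) ln13_13_7 ln13_13_7_ok) (L (nat_lit 364) ln13_14_7 ln13_14_7_ok))) (M (nat_lit 460) (B (L (nat_lit 428) ln13_10_5 ln13_10_5_ok) (L (nat_lit 492) ln13_11_5 ln13_11_5_ok))))))))) (B (M (nat_lit 461) (B (M (nat_lit 364) (B (L (nat_lit 332) ln13_14_7 ln13_14_7_ok) (M (nat_lit 493) (B (L (nat_lit 396) ln13_15_7 ln13_15_7_ok) (M (nat_lit 366) (B (L (nat_lit 334) ln13_14_6 ln13_14_6_ok) (L (nat_lit 398) ln13_15_6 ln13_15_6_ok))))))) (B (M (nat_lit 493) (B (M (nat_lit 366) (B (L (nat_lit 334) ln13_14_6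 ln13_14_6_ok) (L (nat_lit 398) ln13_15_6 ln13_15_6_ok))) (M (nat_lit 494) (B (L (nat_lit 462) ln13_11_4 ln13_11_4_ok) (L (nat_lit 526) ln13_12_4 ln13_12_4_ok))))) (B (M (nat_lit 493) (B (M (nat_lit 364) (B (L (nat_lit 332) ln13_14_7 ln13_14_7_ok) (L (nat_lit 396) ln13_15_7 ln13_15_7_ok))) (M (nat_lit 494) (B (L (nat_lit 462) ln13_11_4 ln13_11_4_ok) (L (nat_lit 526) ln13_12_4 ln13_12_4_ok))))) (M (nat_lit 364) (B (L (nat_lit 332) ln13_14_7 ln13_14_7_ok) (M (nat_lit 366) (B (L (nat_lit 334) ln13_14_6 ln13_14_6_ok) (M (nat_lit 363) (B (M (nat_lit 398) (B (L (nat_lit 362) ln10_11_0 ln10_11_0_ok) (L (nat_lit 399) ln11_11_0 ln11_11_0_ok))) (B (M (nat_lit 367) (B (M (nat_lit 395) (B (L (nat_lit 394) ln14_11_1 ln14_11_1_ok) (L (nat_lit 396) ln15_11_1 ln15_11_1_ok))) (M (nat_lit 399) (B (L (nat_lit 398) ln11_11_0 ln11_11_0_ok) (L (nat_lit 400) ln12_11_0 ln12_11_0_ok))))) (M (nat_lit 362) (B (M (nat_lit 330)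 (B (L (nat_lit 329) ln13_11_3 ln13_11_3_ok) (L (nat_lit 331) ln14_11_3 ln14_11_3_ok))) (M (nat_lit 394) (B (L (nat_lit 393) ln13_11_1 ln13_11_1_ok) (L (nat_lit 395) ln14_11_1 ln14_11_1_ok)))))))))))))))) (B (M (nat_lit 333) (B (M (nat_lit 301) (B (M (nat_lit 428) (B (L (nat_lit 396) ln13_9_5 ln13_9_5_ok) (L (nat_lit 460) ln13_10_5 ln13_10_5_ok))) (M (nat_lit 430) (B (L (nat_lit 398) ln13_9_4 ln13_9_4_ok) (L (nat_lit 462) ln13_10_4 ln13_10_4_ok))))) (B (M (nat_lit 461) (B (M (nat_lit 332) (B (L (nat_lit 300) ln13_13_7 ln13_13_7_ok) (L (nat_lit 364) ln13_14_7 ln13_14_7_ok))) (M (nat_lit 462) (B (L (nat_lit 430) ln13_10_4 ln13_10_4_ok) (L (nat_lit 494) ln13_11_4 ln13_11_4_ok))))) (M (nat_lit 301) (B (M (nat_lit 300) (B (L (nat_lit 268) ln13_12_7 ln13_12_7_ok) (L (nat_lit 332) ln13_13_7 ln13_13_7_ok))) (M (nat_lit 428) (B (L (nat_lit 396) ln13_9_5 ln13_9_5_ok) (L (nat_lit 460) ln13_10_5 ln13_10_5_ok))))))))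 (B (M (nat_lit 333) (B (M (nat_lit 461) (B (M (nat_lit 334) (B (L (nat_lit 302) ln13_13_6 ln13_13_6_ok) (L (nat_lit 366) ln13_14_6 ln13_14_6_ok))) (M (nat_lit 462) (B (L (nat_lit 430) ln13_10_4 ln13_10_4_ok) (L (nat_lit 494) ln13_11_4 ln13_11_4_ok))))) (B (M (nat_lit 461) (B (M (nat_lit 332) (B (L (nat_lit 300) ln13_13_7 ln13_13_7_ok) (L (nat_lit 364) ln13_14_7 ln13_14_7_ok))) (M (nat_lit 462) (B (L (nat_lit 430) ln13_10_4 ln13_10_4_ok) (L (nat_lit 494) ln13_11_4 ln13_11_4_ok))))) (B (M (nat_lit 461) (B (M (nat_lit 332) (B (L (nat_lit 300) ln13_13_7 ln13_13_7_ok) (L (nat_lit 364) ln13_14_7 ln13_14_7_ok))) (M (nat_lit 460) (B (L (nat_lit 428) ln13_10_5 ln13_10_5_ok) (L (nat_lit 492) ln13_11_5 ln13_11_5_ok))))) (M (nat_lit 301) (B (M (nat_lit 300) (B (L (nat_lit 268) ln13_12_7 ln13_12_7_ok) (L (nat_lit 332) ln13_13_7 ln13_13_7_ok))) (M (nat_lit 430) (B (L (nat_lit 398) ln13_9_4 ln13_9_4_ok) (L (nat_lit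 462) ln13_10_4 ln13_10_4_ok))))))))) (B (M (nat_lit 333) (B (M (nat_lit 461) (B (M (nat_lit 334) (B (L (nat_lit 302) ln13_13_6 ln13_13_6_ok) (L (nat_lit 366) ln13_14_6 ln13_14_6_ok))) (M (nat_lit 462) (B (L (nat_lit 430) ln13_10_4 ln13_10_4_ok) (L (nat_lit 494) ln13_11_4 ln13_11_4_ok))))) (B (M (nat_lit 461) (B (M (nat_lit 332) (B (L (nat_lit 300) ln13_13_7 ln13_13_7_ok) (L (nat_lit 364) ln13_14_7 ln13_14_7_ok))) (M (nat_lit 462) (B (L (nat_lit 430) ln13_10_4 ln13_10_4_ok) (L (nat_lit 494) ln13_11_4 ln13_11_4_ok))))) (B (M (nat_lit 332) (B (L (nat_lit 300) ln13_13_7 ln13_13_7_ok) (M (nat_lit 334) (B (L (nat_lit 302) ln13_13_6 ln13_13_6_ok) (M (nat_lit 461) (B (L (nat_lit 364) ln13_14_7 ln13_14_7_ok) (L (nat_lit 366) ln13_14_6 ln13_14_6_ok))))))) (M (nat_lit 301) (B (M (nat_lit 300) (B (L (nat_lit 268) ln13_12_7 ln13_12_7_ok) (L (nat_lit 332) ln13_13_7 ln13_13_7_ok))) (M (nat_lit 428) (B (L (nat_lit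 396) ln13_9_5 ln13_9_5_ok) (L (nat_lit 460) ln13_10_5 ln13_10_5_ok))))))))) (B (M (nat_lit 333) (B (M (nat_lit 301) (B (M (nat_lit 428) (B (L (nat_lit 396) ln13_9_5 ln13_9_5_ok) (L (nat_lit 460) ln13_10_5 ln13_10_5_ok))) (M (nat_lit 430) (B (L (nat_lit 398) ln13_9_4 ln13_9_4_ok) (L (nat_lit 462) ln13_10_4 ln13_10_4_ok))))) (B (M (nat_lit 428) (B (L (nat_lit 460) ln13_10_5 ln13_10_5_ok) (M (nat_lit 430) (B (L (nat_lit 462) ln13_10_4 ln13_10_4_ok) (M (nat_lit 427) (B (M (nat_lit 398) (B (L (nat_lit 426) ln10_13_2 ln10_13_2_ok) (L (nat_lit 399) ln11_13_2 ln11_13_2_ok))) (B (M (nat_lit 426) (B (M (nat_lit 394) (B (L (nat_lit 393) ln13_13_3 ln13_13_3_ok) (L (nat_lit 395) ln14_13_3 ln14_13_3_ok))) (M (nat_lit 458) (B (L (nat_lit 457) ln13_13_1 ln13_13_1_ok) (L (nat_lit 459) ln14_13_1 ln14_13_1_ok))))) (M (nat_lit 431) (B (M (nat_lit 395) (B (L (nat_lit 394) ln14_13_3 ln14_13_3_ok) (L (nat_lit 396) ln15_13_3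 ln15_13_3_ok))) (M (nat_lit 399) (B (L (nat_lit 398) ln11_13_2 ln11_13_2_ok) (L (nat_lit 400) ln12_13_2 ln12_13_2_ok)))))))))))) (B (M (nat_lit 301) (B (M (nat_lit 300) (B (L (nat_lit 268) ln13_12_7 ln13_12_7_ok) (L (nat_lit 332) ln13_13_7 ln13_13_7_ok))) (M (nat_lit 430) (B (L (nat_lit 398) ln13_9_4 ln13_9_4_ok) (L (nat_lit 462) ln13_10_4 ln13_10_4_ok))))) (M (nat_lit 301) (B (M (nat_lit 300) (B (L (nat_lit 268) ln13_12_7 ln13_12_7_ok) (L (nat_lit 332) ln13_13_7 ln13_13_7_ok))) (M (nat_lit 428) (B (L (nat_lit 396) ln13_9_5 ln13_9_5_ok) (L (nat_lit 460) ln13_10_5 ln13_10_5_ok))))))))) (M (nat_lit 333) (B (M (nat_lit 461) (B (M (nat_lit 334) (B (L (nat_lit 302) ln13_13_6 ln13_13_6_ok) (L (nat_lit 366) ln13_14_6 ln13_14_6_ok))) (M (nat_lit 460) (B (L (nat_lit 428) ln13_10_5 ln13_10_5_ok) (L (nat_lit 492) ln13_11_5 ln13_11_5_ok))))) (B (M (nat_lit 461) (B (M (nat_lit 332) (B (L (nat_lit 300) ln13_13_7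 ln13_13_7_ok) (L (nat_lit 364) ln13_14_7 ln13_14_7_ok))) (M (nat_lit 460) (B (L (nat_lit 428) ln13_10_5 ln13_10_5_ok) (L (nat_lit 492) ln13_11_5 ln13_11_5_ok))))) (B (M (nat_lit 332) (B (L (nat_lit 300) ln13_13_7 ln13_13_7_ok) (M (nat_lit 334) (B (L (nat_lit 302) ln13_13_6 ln13_13_6_ok) (M (nat_lit 461) (B (L (nat_lit 364) ln13_14_7 ln13_14_7_ok) (L (nat_lit 366) ln13_14_6 ln13_14_6_ok))))))) (M (nat_lit 301) (B (M (nat_lit 300) (B (L (nat_lit 268) ln13_12_7 ln13_12_7_ok) (L (nat_lit 332) ln13_13_7 ln13_13_7_ok))) (M (nat_lit 428) (B (L (nat_lit 396) ln13_9_5 ln13_9_5_ok) (L (nat_lit 460) ln13_10_5 ln13_10_5_ok)))))))))))))))))) (nat_lit 1386334847383188664550070665778531748218595021979121511688892729411143073470393764272092352380775458208712834410189682411080515584) (nat_lit 219673525213686285337525864729187886665172428444878084428391855442511460986091229478384040817156825312365450235379342482151789231491897217454007111192753995776)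 (nat_lit 219673525213686285337525864729187886665172428444878084428391855442511460986091229478384040817156825312365450235379342482151789231491897217454007111192753995776) (by decide +kernel)
noncomputable def c21_n244 : Cert := (M (nat_lit 364) (B (M (nat_lit 461) (B (L (nat_lit 332) ln13_14_7 ln13_14_7_ok) (M (nat_lit 493) (B (L (nat_lit 396) ln13_15_7 ln13_15_7_ok) (M (nat_lit 366) (B (L (nat_lit 334) ln13_14_6 ln13_14_6_ok) (L (nat_lit 398) ln13_15_6 ln13_15_6_ok))))))) (B (M (nat_lit 366) (B (M (nat_lit 461) (B (L (nat_lit 334) ln13_14_6 ln13_14_6_ok) (M (nat_lit 493) (B (L (nat_lit 396) ln13_15_7 ln13_15_7_ok) (L (nat_lit 398) ln13_15_6 ln13_15_6_ok))))) (B (M (nat_lit 363) (B (M (nat_lit 398) (B (L (nat_lit 362) ln10_11_0 ln10_11_0_ok) (L (nat_lit 399) ln11_11_0 ln11_11_0_ok))) (B (M (nat_lit 367) (B (M (nat_lit 395) (B (L (nat_lit 394) ln14_11_1 ln14_11_1_ok) (L (nat_lit 396) ln15_11_1 ln15_11_1_ok)))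 (M (nat_lit 399) (B (L (nat_lit 398) ln11_11_0 ln11_11_0_ok) (L (nat_lit 400) ln12_11_0 ln12_11_0_ok))))) (M (nat_lit 362) (B (M (nat_lit 330) (B (L (nat_lit 329) ln13_11_3 ln13_11_3_ok) (L (nat_lit 331) ln14_11_3 ln14_11_3_ok))) (M (nat_lit 394) (B (L (nat_lit 393) ln13_11_1 ln13_11_1_ok) (L (nat_lit 395) ln14_11_1 ln14_11_1_ok)))))))) (B (M (nat_lit 398) (B (M (nat_lit 363) (B (L (nat_lit 362) ln10_11_0 ln10_11_0_ok) (L (nat_lit 399) ln11_11_0 ln11_11_0_ok))) (M (nat_lit 461) (B (L (nat_lit 334) ln13_14_6 ln13_14_6_ok) (L (nat_lit 493) ln13_15_6 ln13_15_6_ok))))) (M (nat_lit 396) (B (M (nat_lit 461) (B (L (nat_lit 334) ln13_14_6 ln13_14_6_ok) (L (nat_lit 493) ln13_15_7 ln13_15_7_ok))) (M (nat_lit 395) (B (L (nat_lit 367) ln15_11_1 ln15_11_1_ok) (L (nat_lit 394) ln10_12_2 ln10_12_2_ok))))))))) (B (M (nat_lit 461) (B (L (nat_lit 332) ln13_14_7 ln13_14_7_ok) (M (nat_lit 493) (B (L (nat_lit 396) ln13_15_7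 ln13_15_7_ok) (M (nat_lit 492) (B (L (nat_lit 460) ln13_11_5 ln13_11_5_ok) (L (nat_lit 524) ln13_12_5 ln13_12_5_ok))))))) (B (M (nat_lit 461) (B (L (nat_lit 332) ln13_14_7 ln13_14_7_ok) (M (nat_lit 493) (B (M (nat_lit 366) (B (L (nat_lit 334) ln13_14_6 ln13_14_6_ok) (L (nat_lit 398) ln13_15_6 ln13_15_6_ok))) (M (nat_lit 494) (B (L (nat_lit 462) ln13_11_4 ln13_11_4_ok) (L (nat_lit 526) ln13_12_4 ln13_12_4_ok))))))) (M (nat_lit 363) (B (M (nat_lit 398) (B (L (nat_lit 362) ln10_11_0 ln10_11_0_ok) (M (nat_lit 399) (B (L (nat_lit 366) ln11_11_0 ln11_11_0_ok) (L (nat_lit 396) ln15_12_3 ln15_12_3_ok))))) (B (M (nat_lit 366) (B (M (nat_lit 398) (B (L (nat_lit 399) ln11_11_0 ln11_11_0_ok) (M (nat_lit 334) (B (L (nat_lit 302) ln14_9_5 ln14_9_5_ok) (L (nat_lit 335) ln11_11_2 ln11_11_2_ok))))) (M (nat_lit 367) (B (M (nat_lit 331) (B (L (nat_lit 330) ln14_11_3 ln14_11_3_ok) (L (nat_lit 332) ln15_11_3 ln15_11_3_ok)))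 (M (nat_lit 395) (B (L (nat_lit 394) ln14_11_1 ln14_11_1_ok) (L (nat_lit 396) ln15_11_1 ln15_11_1_ok))))))) (B (M (nat_lit 398) (B (L (nat_lit 362) ln10_11_0 ln10_11_0_ok) (M (nat_lit 399) (B (L (nat_lit 396) ln15_12_3 ln15_12_3_ok) (L (nat_lit 400) ln16_12_3 ln16_12_3_ok))))) (B (M (nat_lit 398) (B (L (nat_lit 362) ln10_11_0 ln10_11_0_ok) (M (nat_lit 399) (B (L (nat_lit 366) ln11_11_0 ln11_11_0_ok) (L (nat_lit 400) ln16_12_3 ln16_12_3_ok))))) (M (nat_lit 366) (B (M (nat_lit 367) (B (M (nat_lit 335) (B (L (nat_lit 334) ln11_11_2 ln11_11_2_ok) (L (nat_lit 336) ln12_11_2 ln12_11_2_ok))) (M (nat_lit 395) (B (L (nat_lit 394) ln14_11_1 ln14_11_1_ok) (L (nat_lit 396) ln15_11_1 ln15_11_1_ok))))) (B (M (nat_lit 367) (B (M (nat_lit 331) (B (L (nat_lit 330) ln14_11_3 ln14_11_3_ok) (L (nat_lit 332) ln15_11_3 ln15_11_3_ok))) (M (nat_lit 395) (B (L (nat_lit 394) ln14_11_1 ln14_11_1_ok) (L (nat_lit 396) ln15_11_1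 ln15_11_1_ok))))) (B (M (nat_lit 362) (B (M (nat_lit 330) (B (L (nat_lit 329) ln13_11_3 ln13_11_3_ok) (L (nat_lit 331) ln14_11_3 ln14_11_3_ok))) (M (nat_lit 394) (B (L (nat_lit 393) ln13_11_1 ln13_11_1_ok) (L (nat_lit 395) ln14_11_1 ln14_11_1_ok))))) (M (nat_lit 367) (B (M (nat_lit 331) (B (L (nat_lit 330) ln14_11_3 ln14_11_3_ok) (L (nat_lit 332) ln15_11_3 ln15_11_3_ok))) (M (nat_lit 335) (B (L (nat_lit 334) ln11_11_2 ln11_11_2_ok) (L (nat_lit 336) ln12_11_2 ln12_11_2_ok)))))))))))))))))))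
theorem c21_s250 : Sem (nat_lit 1386334847383188664550070665778531748218595021979121511688892729411143073470393764272092352380775458208712834410189682411080515584) (nat_lit 274591906494731163057381071121839032403327910846024527703757539185572938562037326476274089289243321479652304409026098369985055874214332930076582502346719756288) (nat_lit 274591906494731163057381071121839032403327910846024527703757539185572938562037326476274089289243321479652304409026098369985055874214332930076582502346719756288) :=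
  sem_of_chk (M (nat_lit 365) (B (M (nat_lit 333) (B (M (nat_lit 301) (B (M (nat_lit 428) (B (L (nat_lit 396) ln13_9_5 ln13_9_5_ok) (L (nat_lit 460) ln13_10_5 ln13_10_5_ok))) (M (nat_lit 430) (B (L (nat_lit 398) ln13_9_4 ln13_9_4_ok) (L (nat_lit 462) ln13_10_4 ln13_10_4_ok))))) (B (M (nat_lit 461) (B (M (nat_lit 334) (B (L (nat_lit 302) ln13_13_6 ln13_13_6_ok) (L (nat_lit 366) ln13_14_6 ln13_14_6_ok))) (M (nat_lit 462) (B (L (nat_lit 430) ln13_10_4 ln13_10_4_ok) (L (nat_lit 494) ln13_11_4 ln13_11_4_ok))))) (M (nat_lit 301) (B (M (nat_lit 302) (B (L (nat_lit 270) ln13_12_6 ln13_12_6_ok) (L (nat_lit 334) ln13_13_6 ln13_13_6_ok))) (M (nat_lit 428) (B (L (nat_lit 396) ln13_9_5 ln13_9_5_ok) (L (nat_lit 460) ln13_10_5 ln13_10_5_ok)))))))) (B (M (nat_lit 333) (B (M (nat_lit 461) (B (M (nat_lit 334) (B (L (nat_lit 302) ln13_13_6 ln13_13_6_ok) (L (nat_lit 366) ln13_14_6 ln13_14_6_ok))) (M (nat_lit 460) (B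 (L (nat_lit 428) ln13_10_5 ln13_10_5_ok) (L (nat_lit 492) ln13_11_5 ln13_11_5_ok))))) (B (M (nat_lit 461) (B (M (nat_lit 460) (B (L (nat_lit 428) ln13_10_5 ln13_10_5_ok) (L (nat_lit 492) ln13_11_5 ln13_11_5_ok))) (M (nat_lit 462) (B (L (nat_lit 430) ln13_10_4 ln13_10_4_ok) (L (nat_lit 494) ln13_11_4 ln13_11_4_ok))))) (B (M (nat_lit 461) (B (M (nat_lit 334) (B (L (nat_lit 302) ln13_13_6 ln13_13_6_ok) (L (nat_lit 366) ln13_14_6 ln13_14_6_ok))) (M (nat_lit 462) (B (L (nat_lit 430) ln13_10_4 ln13_10_4_ok) (L (nat_lit 494) ln13_11_4 ln13_11_4_ok))))) (M (nat_lit 301) (B (M (nat_lit 428) (B (L (nat_lit 396) ln13_9_5 ln13_9_5_ok) (L (nat_lit 460) ln13_10_5 ln13_10_5_ok))) (M (nat_lit 430) (B (L (nat_lit 398) ln13_9_4 ln13_9_4_ok) (L (nat_lit 462) ln13_10_4 ln13_10_4_ok))))))))) (B (M (nat_lit 461) (B (M (nat_lit 493) (B (M (nat_lit 364) (B (L (nat_lit 332) ln13_14_7 ln13_14_7_ok) (L (nat_lit 396) ln13_15_7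 ln13_15_7_ok))) (M (nat_lit 494) (B (L (nat_lit 462) ln13_11_4 ln13_11_4_ok) (L (nat_lit 526) ln13_12_4 ln13_12_4_ok))))) (M (nat_lit 333) (B (M (nat_lit 334) (B (L (nat_lit 302) ln13_13_6 ln13_13_6_ok) (L (nat_lit 366) ln13_14_6 ln13_14_6_ok))) (M (nat_lit 460) (B (L (nat_lit 428) ln13_10_5 ln13_10_5_ok) (L (nat_lit 492) ln13_11_5 ln13_11_5_ok))))))) (B (M (nat_lit 461) (B (M (nat_lit 493) (B (M (nat_lit 364) (B (L (nat_lit 332) ln13_14_7 ln13_14_7_ok) (L (nat_lit 396) ln13_15_7 ln13_15_7_ok))) (M (nat_lit 492) (B (L (nat_lit 460) ln13_11_5 ln13_11_5_ok) (L (nat_lit 524) ln13_12_5 ln13_12_5_ok))))) (B (M (nat_lit 493) (B (M (nat_lit 492) (B (L (nat_lit 460) ln13_11_5 ln13_11_5_ok) (L (nat_lit 524) ln13_12_5 ln13_12_5_ok))) (M (nat_lit 494) (B (L (nat_lit 462) ln13_11_4 ln13_11_4_ok) (L (nat_lit 526) ln13_12_4 ln13_12_4_ok))))) (B (M (nat_lit 493) (B (M (nat_lit 364) (B (L (nat_lit 332) ln13_14_7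 ln13_14_7_ok) (L (nat_lit 396) ln13_15_7 ln13_15_7_ok))) (M (nat_lit 494) (B (L (nat_lit 462) ln13_11_4 ln13_11_4_ok) (L (nat_lit 526) ln13_12_4 ln13_12_4_ok))))) (M (nat_lit 333) (B (M (nat_lit 460) (B (L (nat_lit 428) ln13_10_5 ln13_10_5_ok) (L (nat_lit 492) ln13_11_5 ln13_11_5_ok))) (M (nat_lit 462) (B (L (nat_lit 430) ln13_10_4 ln13_10_4_ok) (L (nat_lit 494) ln13_11_4 ln13_11_4_ok))))))))) (B c21_n244 (B (M (nat_lit 461) (B (M (nat_lit 333) (B (M (nat_lit 460) (B (L (nat_lit 428) ln13_10_5 ln13_10_5_ok) (L (nat_lit 492) ln13_11_5 ln13_11_5_ok))) (M (nat_lit 462) (B (L (nat_lit 430) ln13_10_4 ln13_10_4_ok) (L (nat_lit 494) ln13_11_4 ln13_11_4_ok))))) (B (M (nat_lit 493) (B (M (nat_lit 366) (B (L (nat_lit 334) ln13_14_6 ln13_14_6_ok) (L (nat_lit 398) ln13_15_6 ln13_15_6_ok))) (M (nat_lit 494) (B (L (nat_lit 462) ln13_11_4 ln13_11_4_ok) (L (nat_lit 526) ln13_12_4 ln13_12_4_ok))))) (M (nat_lit 333)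 (B (M (nat_lit 334) (B (L (nat_lit 302) ln13_13_6 ln13_13_6_ok) (L (nat_lit 366) ln13_14_6 ln13_14_6_ok))) (M (nat_lit 460) (B (L (nat_lit 428) ln13_10_5 ln13_10_5_ok) (L (nat_lit 492) ln13_11_5 ln13_11_5_ok)))))))) (B (M (nat_lit 461) (B (M (nat_lit 364) (B (L (nat_lit 332) ln13_14_7 ln13_14_7_ok) (M (nat_lit 493) (B (L (nat_lit 396) ln13_15_7 ln13_15_7_ok) (M (nat_lit 366) (B (L (nat_lit 334) ln13_14_6 ln13_14_6_ok) (L (nat_lit 398) ln13_15_6 ln13_15_6_ok))))))) (B (M (nat_lit 493) (B (M (nat_lit 366) (B (L (nat_lit 334) ln13_14_6 ln13_14_6_ok) (L (nat_lit 398) ln13_15_6 ln13_15_6_ok))) (M (nat_lit 494) (B (L (nat_lit 462) ln13_11_4 ln13_11_4_ok) (L (nat_lit 526) ln13_12_4 ln13_12_4_ok))))) (B (M (nat_lit 493) (B (M (nat_lit 364) (B (L (nat_lit 332) ln13_14_7 ln13_14_7_ok) (L (nat_lit 396) ln13_15_7 ln13_15_7_ok))) (M (nat_lit 494) (B (L (nat_lit 462) ln13_11_4 ln13_11_4_ok) (L (nat_lit 526) ln13_12_4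 ln13_12_4_ok))))) (M (nat_lit 333) (B (M (nat_lit 334) (B (L (nat_lit 302) ln13_13_6 ln13_13_6_ok) (L (nat_lit 366) ln13_14_6 ln13_14_6_ok))) (M (nat_lit 462) (B (L (nat_lit 430) ln13_10_4 ln13_10_4_ok) (L (nat_lit 494) ln13_11_4 ln13_11_4_ok))))))))) (B (M (nat_lit 333) (B (M (nat_lit 301) (B (M (nat_lit 302) (B (L (nat_lit 270) ln13_12_6 ln13_12_6_ok) (L (nat_lit 334) ln13_13_6 ln13_13_6_ok))) (M (nat_lit 430) (B (L (nat_lit 398) ln13_9_4 ln13_9_4_ok) (L (nat_lit 462) ln13_10_4 ln13_10_4_ok))))) (B (M (nat_lit 301) (B (M (nat_lit 428) (B (L (nat_lit 396) ln13_9_5 ln13_9_5_ok) (L (nat_lit 460) ln13_10_5 ln13_10_5_ok))) (M (nat_lit 430) (B (L (nat_lit 398) ln13_9_4 ln13_9_4_ok) (L (nat_lit 462) ln13_10_4 ln13_10_4_ok))))) (B (M (nat_lit 428) (B (L (nat_lit 460) ln13_10_5 ln13_10_5_ok) (M (nat_lit 430) (B (L (nat_lit 462) ln13_10_4 ln13_10_4_ok) (M (nat_lit 427) (B (M (nat_lit 398) (B (L (nat_lit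 426) ln10_13_2 ln10_13_2_ok) (L (nat_lit 399) ln11_13_2 ln11_13_2_ok))) (B (M (nat_lit 426) (B (M (nat_lit 394) (B (L (nat_lit 393) ln13_13_3 ln13_13_3_ok) (L (nat_lit 395) ln14_13_3 ln14_13_3_ok))) (M (nat_lit 458) (B (L (nat_lit 457) ln13_13_1 ln13_13_1_ok) (L (nat_lit 459) ln14_13_1 ln14_13_1_ok))))) (M (nat_lit 431) (B (M (nat_lit 395) (B (L (nat_lit 394) ln14_13_3 ln14_13_3_ok) (L (nat_lit 396) ln15_13_3 ln15_13_3_ok))) (M (nat_lit 399) (B (L (nat_lit 398) ln11_13_2 ln11_13_2_ok) (L (nat_lit 400) ln12_13_2 ln12_13_2_ok)))))))))))) (M (nat_lit 301) (B (M (nat_lit 302) (B (L (nat_lit 270) ln13_12_6 ln13_12_6_ok) (L (nat_lit 334) ln13_13_6 ln13_13_6_ok))) (M (nat_lit 428) (B (L (nat_lit 396) ln13_9_5 ln13_9_5_ok) (L (nat_lit 460) ln13_10_5 ln13_10_5_ok))))))))) (M (nat_lit 461) (B (M (nat_lit 364) (B (L (nat_lit 332) ln13_14_7 ln13_14_7_ok) (M (nat_lit 493) (B (L (nat_lit 396) ln13_15_7 ln13_15_7_ok)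 (M (nat_lit 366) (B (L (nat_lit 334) ln13_14_6 ln13_14_6_ok) (L (nat_lit 398) ln13_15_6 ln13_15_6_ok))))))) (B (M (nat_lit 493) (B (M (nat_lit 366) (B (L (nat_lit 334) ln13_14_6 ln13_14_6_ok) (L (nat_lit 398) ln13_15_6 ln13_15_6_ok))) (M (nat_lit 492) (B (L (nat_lit 460) ln13_11_5 ln13_11_5_ok) (L (nat_lit 524) ln13_12_5 ln13_12_5_ok))))) (B (M (nat_lit 493) (B (M (nat_lit 364) (B (L (nat_lit 332) ln13_14_7 ln13_14_7_ok) (L (nat_lit 396) ln13_15_7 ln13_15_7_ok))) (M (nat_lit 492) (B (L (nat_lit 460) ln13_11_5 ln13_11_5_ok) (L (nat_lit 524) ln13_12_5 ln13_12_5_ok))))) (M (nat_lit 333) (B (M (nat_lit 334) (B (L (nat_lit 302) ln13_13_6 ln13_13_6_ok) (L (nat_lit 366) ln13_14_6 ln13_14_6_ok))) (M (nat_lit 460) (B (L (nat_lit 428) ln13_10_5 ln13_10_5_ok) (L (nat_lit 492) ln13_11_5 ln13_11_5_ok)))))))))))))))))) (nat_lit 1386334847383188664550070665778531748218595021979121511688892729411143073470393764272092352380775458208712834410189682411080515584)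 (nat_lit 274591906494731163057381071121839032403327910846024527703757539185572938562037326476274089289243321479652304409026098369985055874214332930076582502346719756288) (nat_lit 274591906494731163057381071121839032403327910846024527703757539185572938562037326476274089289243321479652304409026098369985055874214332930076582502346719756288) (by decide +kernel)
theorem c21_s381 : Sem (nat_lit 1386334847383188664625224028427294411511058401076380296564914570976209309333027075361123041184442928399551202358502280908102434816) (nat_lit 54918381344978288048003445075833114588792291502919370250233515511646456766609000732334192651887925985083796626353240426465162742586717941042791321691324678144) (nat_lit 54918381344978288048003445075833114588792291502919370250233515511646456766609000732334192651887925985083796626353240426465162742586717941042791321691324678144) :=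
  sem_of_chk (M (nat_lit 428) (B (M (nat_lit 460) (B (L (nat_lit 333) ln13_10_5 ln13_10_5_ok) (M (nat_lit 492) (B (L (nat_lit 396) ln12_15_6 ln12_15_6_ok) (L (nat_lit 524) ln12_16_6 ln12_16_6_ok))))) (B (M (nat_lit 427) (B (M (nat_lit 398) (B (L (nat_lit 426) ln10_13_2 ln10_13_2_ok) (M (nat_lit 399) (B (L (nat_lit 396) ln15_12_1 ln15_12_1_ok) (L (nat_lit 400) ln16_12_1 ln16_12_1_ok))))) (B (M (nat_lit 398) (B (L (nat_lit 426) ln10_13_2 ln10_13_2_ok) (M (nat_lit 399) (B (L (nat_lit 400) ln16_12_1 ln16_12_1_ok) (L (nat_lit 430) ln11_13_2 ln11_13_2_ok))))) (B (M (nat_lit 426) (B (M (nat_lit 425) (B (L (nat_lit 396) ln9_13_2 ln9_13_2_ok) (M (nat_lit 393) (B (L (nat_lit 392) ln12_13_3 ln12_13_3_ok) (L (nat_lit 394) ln13_13_3 ln13_13_3_ok))))) (B (M (nat_lit 425) (B (L (nat_lit 396) ln9_13_2 ln9_13_2_ok) (M (nat_lit 457) (B (L (nat_lit 456) ln12_13_1 ln12_13_1_ok) (L (nat_lit 458) ln13_13_1 ln13_13_1_ok)))))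 (M (nat_lit 430) (B (M (nat_lit 394) (B (L (nat_lit 393) ln13_13_3 ln13_13_3_ok) (L (nat_lit 395) ln14_13_3 ln14_13_3_ok))) (M (nat_lit 458) (B (L (nat_lit 457) ln13_13_1 ln13_13_1_ok) (L (nat_lit 459) ln14_13_1 ln14_13_1_ok)))))))) (M (nat_lit 395) (B (M (nat_lit 394) (B (L (nat_lit 430) ln14_13_3 ln14_13_3_ok) (M (nat_lit 396) (B (L (nat_lit 366) ln10_12_2 ln10_12_2_ok) (L (nat_lit 393) ln9_12_0 ln9_12_0_ok))))) (B (M (nat_lit 430) (B (L (nat_lit 394) ln14_13_3 ln14_13_3_ok) (M (nat_lit 431) (B (L (nat_lit 396) ln15_13_3 ln15_13_3_ok) (M (nat_lit 459) (B (L (nat_lit 458) ln14_13_1 ln14_13_1_ok) (L (nat_lit 460) ln15_13_1 ln15_13_1_ok))))))) (B (M (nat_lit 363) (B (M (nat_lit 460) (B (L (nat_lit 331) ln11_10_4 ln11_10_4_ok) (M (nat_lit 492) (B (L (nat_lit 396) ln12_15_7 ln12_15_7_ok) (L (nat_lit 459) ln11_11_4 ln11_11_4_ok))))) (B (M (nat_lit 398) (B (M (nat_lit 362) (B (L (nat_lit 364) ln10_11_0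 ln10_11_0_ok) (L (nat_lit 396) ln14_12_3 ln14_12_3_ok))) (B (M (nat_lit 399) (B (L (nat_lit 396) ln15_12_1 ln15_12_1_ok) (L (nat_lit 400) ln16_12_1 ln16_12_1_ok))) (M (nat_lit 399) (B (L (nat_lit 400) ln16_12_1 ln16_12_1_ok) (L (nat_lit 430) ln11_13_2 ln11_13_2_ok)))))) (M (nat_lit 460) (B (L (nat_lit 331) ln11_10_4 ln11_10_4_ok) (M (nat_lit 492) (B (L (nat_lit 459) ln11_11_4 ln11_11_4_ok) (L (nat_lit 524) ln12_16_7 ln12_16_7_ok)))))))) (B (M (nat_lit 430) (B (L (nat_lit 394) ln14_13_3 ln14_13_3_ok) (M (nat_lit 431) (B (M (nat_lit 399) (B (L (nat_lit 398) ln11_13_2 ln11_13_2_ok) (L (nat_lit 400) ln12_13_2 ln12_13_2_ok))) (M (nat_lit 459) (B (L (nat_lit 458) ln14_13_1 ln14_13_1_ok) (L (nat_lit 460) ln15_13_1 ln15_13_1_ok))))))) (M (nat_lit 396) (B (M (nat_lit 394) (B (L (nat_lit 366) ln10_12_2 ln10_12_2_ok) (L (nat_lit 393) ln9_12_0 ln9_12_0_ok))) (M (nat_lit 363) (B (M (nat_lit 331) (B (L (nat_lit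 299) ln11_9_4 ln11_9_4_ok) (L (nat_lit 460) ln11_10_4 ln11_10_4_ok))) (M (nat_lit 398) (B (L (nat_lit 362) ln14_12_3 ln14_12_3_ok) (L (nat_lit 399) ln15_12_1 ln15_12_1_ok)))))))))))))))) (B (M (nat_lit 427) (B (M (nat_lit 398) (B (L (nat_lit 426) ln10_13_2 ln10_13_2_ok) (M (nat_lit 399) (B (L (nat_lit 400) ln16_12_1 ln16_12_1_ok) (L (nat_lit 430) ln11_13_2 ln11_13_2_ok))))) (B (M (nat_lit 430) (B (M (nat_lit 333) (B (L (nat_lit 460) ln13_10_5 ln13_10_5_ok) (L (nat_lit 462) ln13_10_4 ln13_10_4_ok))) (M (nat_lit 426) (B (M (nat_lit 394) (B (L (nat_lit 393) ln13_13_3 ln13_13_3_ok) (L (nat_lit 395) ln14_13_3 ln14_13_3_ok))) (M (nat_lit 458) (B (L (nat_lit 457) ln13_13_1 ln13_13_1_ok) (L (nat_lit 459) ln14_13_1 ln14_13_1_ok))))))) (B (M (nat_lit 430) (B (M (nat_lit 333) (B (L (nat_lit 460) ln13_10_5 ln13_10_5_ok) (L (nat_lit 462) ln13_10_4 ln13_10_4_ok))) (B (M (nat_lit 431) (B (M (nat_lit 399) (B (L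 (nat_lit 398) ln11_13_2 ln11_13_2_ok) (L (nat_lit 400) ln12_13_2 ln12_13_2_ok))) (M (nat_lit 459) (B (L (nat_lit 458) ln14_13_1 ln14_13_1_ok) (L (nat_lit 460) ln15_13_1 ln15_13_1_ok))))) (M (nat_lit 398) (B (L (nat_lit 399) ln11_13_2 ln11_13_2_ok) (M (nat_lit 462) (B (L (nat_lit 333) ln13_10_4 ln13_10_4_ok) (L (nat_lit 494) ln14_15_7 ln14_15_7_ok)))))))) (M (nat_lit 426) (B (L (nat_lit 398) ln10_13_2 ln10_13_2_ok) (M (nat_lit 425) (B (M (nat_lit 393) (B (L (nat_lit 392) ln12_13_3 ln12_13_3_ok) (L (nat_lit 394) ln13_13_3 ln13_13_3_ok))) (M (nat_lit 457) (B (L (nat_lit 456) ln12_13_1 ln12_13_1_ok) (L (nat_lit 458) ln13_13_1 ln13_13_1_ok))))))))))) (M (nat_lit 427) (B (M (nat_lit 398) (B (L (nat_lit 426) ln10_13_2 ln10_13_2_ok) (M (nat_lit 399) (B (L (nat_lit 400) ln16_12_1 ln16_12_1_ok) (L (nat_lit 430) ln11_13_2 ln11_13_2_ok))))) (B (M (nat_lit 426) (B (M (nat_lit 425) (B (L (nat_lit 396) ln9_13_2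 ln9_13_2_ok) (M (nat_lit 393) (B (L (nat_lit 392) ln12_13_3 ln12_13_3_ok) (L (nat_lit 394) ln13_13_3 ln13_13_3_ok))))) (B (M (nat_lit 425) (B (L (nat_lit 396) ln9_13_2 ln9_13_2_ok) (M (nat_lit 457) (B (L (nat_lit 456) ln12_13_1 ln12_13_1_ok) (L (nat_lit 458) ln13_13_1 ln13_13_1_ok))))) (M (nat_lit 430) (B (M (nat_lit 394) (B (L (nat_lit 393) ln13_13_3 ln13_13_3_ok) (L (nat_lit 395) ln14_13_3 ln14_13_3_ok))) (M (nat_lit 458) (B (L (nat_lit 457) ln13_13_1 ln13_13_1_ok) (L (nat_lit 459) ln14_13_1 ln14_13_1_ok)))))))) (B (M (nat_lit 430) (B (M (nat_lit 398) (B (L (nat_lit 399) ln11_13_2 ln11_13_2_ok) (M (nat_lit 462) (B (L (nat_lit 333) ln13_10_4 ln13_10_4_ok) (L (nat_lit 494) ln14_15_7 ln14_15_7_ok))))) (B (M (nat_lit 399) (B (L (nat_lit 398) ln11_13_2 ln11_13_2_ok) (M (nat_lit 395) (B (L (nat_lit 394) ln14_13_3 ln14_13_3_ok) (M (nat_lit 431) (B (L (nat_lit 396) ln15_13_3 ln15_13_3_ok) (L (nat_lit 400)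 ln12_13_2 ln12_13_2_ok))))))) (M (nat_lit 396) (B (M (nat_lit 395) (B (L (nat_lit 394) ln10_12_0 ln10_12_0_ok) (L (nat_lit 431) ln15_13_3 ln15_13_3_ok))) (M (nat_lit 332) (B (M (nat_lit 333) (B (L (nat_lit 300) ln13_13_7 ln13_13_7_ok) (L (nat_lit 462) ln13_10_4 ln13_10_4_ok))) (M (nat_lit 459) (B (L (nat_lit 364) ln12_10_5 ln12_10_5_ok) (L (nat_lit 458) ln14_13_1 ln14_13_1_ok)))))))))) (M (nat_lit 398) (B (L (nat_lit 426) ln10_13_2 ln10_13_2_ok) (M (nat_lit 399) (B (L (nat_lit 396) ln15_12_1 ln15_12_1_ok) (L (nat_lit 400) ln16_12_1 ln16_12_1_ok))))))))))))) (nat_lit 1386334847383188664625224028427294411511058401076380296564914570976209309333027075361123041184442928399551202358502280908102434816) (nat_lit 54918381344978288048003445075833114588792291502919370250233515511646456766609000732334192651887925985083796626353240426465162742586717941042791321691324678144) (nat_lit 54918381344978288048003445075833114588792291502919370250233515511646456766609000732334192651887925985083796626353240426465162742586717941042791321691324678144)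 (by decide +kernel)
theorem c21_s382 : Sem (nat_lit 1386334847383188664550070665778531748218595021979121511688892729411143073470393764272092352380775458208712834410189682411080515584) (nat_lit 274591906494731163057567141835345353695259900118791959294274910104326729746479158054055159525777624285539565552726349407106452080573291333038433136685493518336) (nat_lit 274591906494731163057567141835345353695259900118791959294274910104326729746479158054055159525777624285539565552726349407106452080573291333038433136685493518336) :=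
  sem_of_chk (M (nat_lit 365) (B (M (nat_lit 461) (B (M (nat_lit 364) (B (L (nat_lit 332) ln13_14_7 ln13_14_7_ok) (M (nat_lit 493) (B (L (nat_lit 396) ln13_15_7 ln13_15_7_ok) (M (nat_lit 366) (B (L (nat_lit 334) ln13_14_6 ln13_14_6_ok) (L (nat_lit 398) ln13_15_6 ln13_15_6_ok))))))) (B (M (nat_lit 333) (B (M (nat_lit 334) (B (L (nat_lit 302) ln13_13_6 ln13_13_6_ok) (L (nat_lit 366) ln13_14_6 ln13_14_6_ok))) (M (nat_lit 460) (B (L (nat_lit 428) ln13_10_5 ln13_10_5_ok) (L (nat_lit 492) ln13_11_5 ln13_11_5_ok))))) (M (nat_lit 333) (B (M (nat_lit 332) (B (L (nat_lit 300) ln13_13_7 ln13_13_7_ok) (L (nat_lit 364) ln13_14_7 ln13_14_7_ok))) (M (nat_lit 460) (B (L (nat_lit 428) ln13_10_5 ln13_10_5_ok) (L (nat_lit 492) ln13_11_5 ln13_11_5_ok)))))))) (B (M (nat_lit 461) (B (M (nat_lit 364) (B (L (nat_lit 332) ln13_14_7 ln13_14_7_ok) (M (nat_lit 493) (B (L (nat_lit 396) ln13_15_7 ln13_15_7_ok) (M (nat_lit 366)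 (B (L (nat_lit 334) ln13_14_6 ln13_14_6_ok) (L (nat_lit 398) ln13_15_6 ln13_15_6_ok))))))) (B (M (nat_lit 493) (B (M (nat_lit 366) (B (L (nat_lit 334) ln13_14_6 ln13_14_6_ok) (L (nat_lit 398) ln13_15_6 ln13_15_6_ok))) (M (nat_lit 492) (B (L (nat_lit 460) ln13_11_5 ln13_11_5_ok) (L (nat_lit 524) ln13_12_5 ln13_12_5_ok))))) (B (M (nat_lit 493) (B (M (nat_lit 364) (B (L (nat_lit 332) ln13_14_7 ln13_14_7_ok) (L (nat_lit 396) ln13_15_7 ln13_15_7_ok))) (M (nat_lit 492) (B (L (nat_lit 460) ln13_11_5 ln13_11_5_ok) (L (nat_lit 524) ln13_12_5 ln13_12_5_ok))))) (M (nat_lit 333) (B (M (nat_lit 334) (B (L (nat_lit 302) ln13_13_6 ln13_13_6_ok) (L (nat_lit 366) ln13_14_6 ln13_14_6_ok))) (M (nat_lit 460) (B (L (nat_lit 428) ln13_10_5 ln13_10_5_ok) (L (nat_lit 492) ln13_11_5 ln13_11_5_ok))))))))) (B (M (nat_lit 461) (B (M (nat_lit 493) (B (M (nat_lit 366) (B (L (nat_lit 334) ln13_14_6 ln13_14_6_ok) (L (nat_lit 398)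 ln13_15_6 ln13_15_6_ok))) (M (nat_lit 494) (B (L (nat_lit 462) ln13_11_4 ln13_11_4_ok) (L (nat_lit 526) ln13_12_4 ln13_12_4_ok))))) (B (M (nat_lit 493) (B (M (nat_lit 364) (B (L (nat_lit 332) ln13_14_7 ln13_14_7_ok) (L (nat_lit 396) ln13_15_7 ln13_15_7_ok))) (M (nat_lit 494) (B (L (nat_lit 462) ln13_11_4 ln13_11_4_ok) (L (nat_lit 526) ln13_12_4 ln13_12_4_ok))))) (B (M (nat_lit 364) (B (L (nat_lit 332) ln13_14_7 ln13_14_7_ok) (M (nat_lit 493) (B (L (nat_lit 396) ln13_15_7 ln13_15_7_ok) (M (nat_lit 366) (B (L (nat_lit 334) ln13_14_6 ln13_14_6_ok) (L (nat_lit 398) ln13_15_6 ln13_15_6_ok))))))) (M (nat_lit 333) (B (M (nat_lit 332) (B (L (nat_lit 300) ln13_13_7 ln13_13_7_ok) (L (nat_lit 364) ln13_14_7 ln13_14_7_ok))) (M (nat_lit 460) (B (L (nat_lit 428) ln13_10_5 ln13_10_5_ok) (L (nat_lit 492) ln13_11_5 ln13_11_5_ok))))))))) (B (M (nat_lit 461) (B (M (nat_lit 333) (B (M (nat_lit 460) (B (L (nat_lit 428)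 ln13_10_5 ln13_10_5_ok) (L (nat_lit 492) ln13_11_5 ln13_11_5_ok))) (M (nat_lit 462) (B (L (nat_lit 430) ln13_10_4 ln13_10_4_ok) (L (nat_lit 494) ln13_11_4 ln13_11_4_ok))))) (B (M (nat_lit 493) (B (M (nat_lit 366) (B (L (nat_lit 334) ln13_14_6 ln13_14_6_ok) (L (nat_lit 398) ln13_15_6 ln13_15_6_ok))) (M (nat_lit 494) (B (L (nat_lit 462) ln13_11_4 ln13_11_4_ok) (L (nat_lit 526) ln13_12_4 ln13_12_4_ok))))) (M (nat_lit 333) (B (M (nat_lit 334) (B (L (nat_lit 302) ln13_13_6 ln13_13_6_ok) (L (nat_lit 366) ln13_14_6 ln13_14_6_ok))) (M (nat_lit 460) (B (L (nat_lit 428) ln13_10_5 ln13_10_5_ok) (L (nat_lit 492) ln13_11_5 ln13_11_5_ok)))))))) (B (M (nat_lit 461) (B (M (nat_lit 364) (B (L (nat_lit 332) ln13_14_7 ln13_14_7_ok) (M (nat_lit 493) (B (L (nat_lit 396) ln13_15_7 ln13_15_7_ok) (M (nat_lit 366) (B (L (nat_lit 334) ln13_14_6 ln13_14_6_ok) (L (nat_lit 398) ln13_15_6 ln13_15_6_ok))))))) (B (M (nat_lit 493)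 (B (M (nat_lit 366) (B (L (nat_lit 334) ln13_14_6 ln13_14_6_ok) (L (nat_lit 398) ln13_15_6 ln13_15_6_ok))) (M (nat_lit 494) (B (L (nat_lit 462) ln13_11_4 ln13_11_4_ok) (L (nat_lit 526) ln13_12_4 ln13_12_4_ok))))) (B (M (nat_lit 493) (B (M (nat_lit 364) (B (L (nat_lit 332) ln13_14_7 ln13_14_7_ok) (L (nat_lit 396) ln13_15_7 ln13_15_7_ok))) (M (nat_lit 494) (B (L (nat_lit 462) ln13_11_4 ln13_11_4_ok) (L (nat_lit 526) ln13_12_4 ln13_12_4_ok))))) (M (nat_lit 364) (B (L (nat_lit 332) ln13_14_7 ln13_14_7_ok) (M (nat_lit 366) (B (L (nat_lit 334) ln13_14_6 ln13_14_6_ok) (M (nat_lit 363) (B (M (nat_lit 398) (B (L (nat_lit 362) ln10_11_0 ln10_11_0_ok) (L (nat_lit 399) ln11_11_0 ln11_11_0_ok))) (B (M (nat_lit 367) (B (M (nat_lit 395) (B (L (nat_lit 394) ln14_11_1 ln14_11_1_ok) (L (nat_lit 396) ln15_11_1 ln15_11_1_ok))) (M (nat_lit 399) (B (L (nat_lit 398) ln11_11_0 ln11_11_0_ok) (L (nat_lit 400) ln12_11_0 ln12_11_0_ok)))))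 (M (nat_lit 362) (B (M (nat_lit 330) (B (L (nat_lit 329) ln13_11_3 ln13_11_3_ok) (L (nat_lit 331) ln14_11_3 ln14_11_3_ok))) (M (nat_lit 394) (B (L (nat_lit 393) ln13_11_1 ln13_11_1_ok) (L (nat_lit 395) ln14_11_1 ln14_11_1_ok)))))))))))))))) (B (M (nat_lit 461) (B (M (nat_lit 333) (B (M (nat_lit 460) (B (L (nat_lit 428) ln13_10_5 ln13_10_5_ok) (L (nat_lit 492) ln13_11_5 ln13_11_5_ok))) (M (nat_lit 462) (B (L (nat_lit 430) ln13_10_4 ln13_10_4_ok) (L (nat_lit 494) ln13_11_4 ln13_11_4_ok))))) (B (M (nat_lit 493) (B (M (nat_lit 364) (B (L (nat_lit 332) ln13_14_7 ln13_14_7_ok) (L (nat_lit 396) ln13_15_7 ln13_15_7_ok))) (M (nat_lit 494) (B (L (nat_lit 462) ln13_11_4 ln13_11_4_ok) (L (nat_lit 526) ln13_12_4 ln13_12_4_ok))))) (M (nat_lit 333) (B (M (nat_lit 332) (B (L (nat_lit 300) ln13_13_7 ln13_13_7_ok) (L (nat_lit 364) ln13_14_7 ln13_14_7_ok))) (M (nat_lit 460) (B (L (nat_lit 428) ln13_10_5 ln13_10_5_ok)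 (L (nat_lit 492) ln13_11_5 ln13_11_5_ok)))))))) (K (nat_lit 1386334847383188664625224028427294411511058401076380296564914570976209309333027075361123041184442928399551202358502280908102434816) (nat_lit 54918381344978288048003445075833114588792291502919370250233515511646456766609000732334192651887925985083796626353240426465162742586717941042791321691324678144) (nat_lit 54918381344978288048003445075833114588792291502919370250233515511646456766609000732334192651887925985083796626353240426465162742586717941042791321691324678144) c21_s381)))))))) (nat_lit 1386334847383188664550070665778531748218595021979121511688892729411143073470393764272092352380775458208712834410189682411080515584) (nat_lit 274591906494731163057567141835345353695259900118791959294274910104326729746479158054055159525777624285539565552726349407106452080573291333038433136685493518336) (nat_lit 274591906494731163057567141835345353695259900118791959294274910104326729746479158054055159525777624285539565552726349407106452080573291333038433136685493518336)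 (by decide +kernel)
noncomputable def c21_n418 : Cert := (M (nat_lit 428) (B (M (nat_lit 460) (B (L (nat_lit 333) ln13_10_5 ln13_10_5_ok) (M (nat_lit 492) (B (L (nat_lit 396) ln12_15_6 ln12_15_6_ok) (L (nat_lit 524) ln12_16_6 ln12_16_6_ok))))) (B (M (nat_lit 427) (B (M (nat_lit 398) (B (L (nat_lit 426) ln10_13_2 ln10_13_2_ok) (M (nat_lit 399) (B (L (nat_lit 396) ln15_12_1 ln15_12_1_ok) (L (nat_lit 400) ln16_12_1 ln16_12_1_ok))))) (B (M (nat_lit 398) (B (L (nat_lit 426) ln10_13_2 ln10_13_2_ok) (M (nat_lit 399) (B (L (nat_lit 400) ln16_12_1 ln16_12_1_ok) (L (nat_lit 430) ln11_13_2 ln11_13_2_ok))))) (B (M (nat_lit 426) (B (M (nat_lit 425) (B (L (nat_lit 396) ln9_13_2 ln9_13_2_ok) (M (nat_lit 393) (B (L (nat_lit 392) ln12_13_3 ln12_13_3_ok) (L (nat_lit 394) ln13_13_3 ln13_13_3_ok))))) (B (M (nat_lit 425) (B (L (nat_lit 396) ln9_13_2 ln9_13_2_ok) (M (nat_lit 457) (B (L (nat_lit 456) ln12_13_1 ln12_13_1_ok)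 (L (nat_lit 458) ln13_13_1 ln13_13_1_ok))))) (M (nat_lit 430) (B (M (nat_lit 394) (B (L (nat_lit 393) ln13_13_3 ln13_13_3_ok) (L (nat_lit 395) ln14_13_3 ln14_13_3_ok))) (M (nat_lit 458) (B (L (nat_lit 457) ln13_13_1 ln13_13_1_ok) (L (nat_lit 459) ln14_13_1 ln14_13_1_ok)))))))) (M (nat_lit 395) (B (M (nat_lit 394) (B (L (nat_lit 430) ln14_13_3 ln14_13_3_ok) (M (nat_lit 396) (B (L (nat_lit 366) ln10_12_2 ln10_12_2_ok) (L (nat_lit 393) ln9_12_0 ln9_12_0_ok))))) (B (M (nat_lit 430) (B (L (nat_lit 394) ln14_13_3 ln14_13_3_ok) (M (nat_lit 431) (B (L (nat_lit 396) ln15_13_3 ln15_13_3_ok) (M (nat_lit 459) (B (L (nat_lit 458) ln14_13_1 ln14_13_1_ok) (L (nat_lit 460) ln15_13_1 ln15_13_1_ok))))))) (B (M (nat_lit 363) (B (M (nat_lit 460) (B (L (nat_lit 331) ln11_10_4 ln11_10_4_ok) (M (nat_lit 492) (B (L (nat_lit 396) ln12_15_7 ln12_15_7_ok) (L (nat_lit 459) ln11_11_4 ln11_11_4_ok))))) (B (M (nat_lit 398) (B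 (M (nat_lit 362) (B (L (nat_lit 364) ln10_11_0 ln10_11_0_ok) (L (nat_lit 396) ln14_12_3 ln14_12_3_ok))) (B (M (nat_lit 399) (B (L (nat_lit 396) ln15_12_1 ln15_12_1_ok) (L (nat_lit 400) ln16_12_1 ln16_12_1_ok))) (M (nat_lit 399) (B (L (nat_lit 400) ln16_12_1 ln16_12_1_ok) (L (nat_lit 430) ln11_13_2 ln11_13_2_ok)))))) (M (nat_lit 460) (B (L (nat_lit 331) ln11_10_4 ln11_10_4_ok) (M (nat_lit 492) (B (L (nat_lit 459) ln11_11_4 ln11_11_4_ok) (L (nat_lit 524) ln12_16_7 ln12_16_7_ok)))))))) (B (M (nat_lit 430) (B (L (nat_lit 394) ln14_13_3 ln14_13_3_ok) (M (nat_lit 431) (B (M (nat_lit 399) (B (L (nat_lit 398) ln11_13_2 ln11_13_2_ok) (L (nat_lit 400) ln12_13_2 ln12_13_2_ok))) (M (nat_lit 459) (B (L (nat_lit 458) ln14_13_1 ln14_13_1_ok) (L (nat_lit 460) ln15_13_1 ln15_13_1_ok))))))) (M (nat_lit 396) (B (M (nat_lit 394) (B (L (nat_lit 366) ln10_12_2 ln10_12_2_ok) (L (nat_lit 393) ln9_12_0 ln9_12_0_ok))) (M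 (nat_lit 363) (B (M (nat_lit 331) (B (L (nat_lit 299) ln11_9_4 ln11_9_4_ok) (L (nat_lit 460) ln11_10_4 ln11_10_4_ok))) (M (nat_lit 398) (B (L (nat_lit 362) ln14_12_3 ln14_12_3_ok) (L (nat_lit 399) ln15_12_1 ln15_12_1_ok)))))))))))))))) (B (M (nat_lit 333) (B (L (nat_lit 460) ln13_10_5 ln13_10_5_ok) (M (nat_lit 430) (B (L (nat_lit 462) ln13_10_4 ln13_10_4_ok) (M (nat_lit 398) (B (L (nat_lit 301) ln13_9_4 ln13_9_4_ok) (M (nat_lit 399) (B (L (nat_lit 400) ln16_12_1 ln16_12_1_ok) (L (nat_lit 427) ln11_13_2 ln11_13_2_ok))))))))) (M (nat_lit 430) (B (M (nat_lit 333) (B (L (nat_lit 462) ln13_10_4 ln13_10_4_ok) (M (nat_lit 301) (B (L (nat_lit 396) ln13_9_5 ln13_9_5_ok) (L (nat_lit 398) ln13_9_4 ln13_9_4_ok))))) (B (M (nat_lit 427) (B (M (nat_lit 398) (B (L (nat_lit 426) ln10_13_2 ln10_13_2_ok) (L (nat_lit 399) ln11_13_2 ln11_13_2_ok))) (B (M (nat_lit 426) (B (M (nat_lit 394) (B (L (nat_lit 393) ln13_13_3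 ln13_13_3_ok) (L (nat_lit 395) ln14_13_3 ln14_13_3_ok))) (M (nat_lit 458) (B (L (nat_lit 457) ln13_13_1 ln13_13_1_ok) (L (nat_lit 459) ln14_13_1 ln14_13_1_ok))))) (M (nat_lit 399) (B (L (nat_lit 398) ln11_13_2 ln11_13_2_ok) (M (nat_lit 395) (B (L (nat_lit 394) ln14_13_3 ln14_13_3_ok) (M (nat_lit 431) (B (L (nat_lit 396) ln15_13_3 ln15_13_3_ok) (L (nat_lit 400) ln12_13_2 ln12_13_2_ok)))))))))) (B (M (nat_lit 398) (B (M (nat_lit 333) (B (L (nat_lit 301) ln13_9_4 ln13_9_4_ok) (L (nat_lit 462) ln13_10_4 ln13_10_4_ok))) (M (nat_lit 427) (B (L (nat_lit 426) ln10_13_2 ln10_13_2_ok) (L (nat_lit 399) ln11_13_2 ln11_13_2_ok))))) (M (nat_lit 396) (B (M (nat_lit 333) (B (L (nat_lit 301) ln13_9_5 ln13_9_5_ok) (L (nat_lit 462) ln13_10_4 ln13_10_4_ok))) (M (nat_lit 395) (B (L (nat_lit 394) ln10_12_0 ln10_12_0_ok) (L (nat_lit 431) ln15_13_3 ln15_13_3_ok)))))))))))))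
theorem c21_s419 : Sem (nat_lit 1386334847383188664550070665778531748218595021979121511688892729411143073470393764272092352380775458208712834410189682411080515584) (nat_lit 274591906494731163057567141835345353695259900118791959294274910104322655674526489081882622634400805529217462615939017534605179799674582570438906463273126723584) (nat_lit 274591906494731163057567141835345353695259900118791959294274910104322655674526489081882622634400805529217462615939017534605179799674582570438906463273126723584) :=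
  sem_of_chk (M (nat_lit 365) (B (M (nat_lit 461) (B (M (nat_lit 364) (B (L (nat_lit 332) ln13_14_7 ln13_14_7_ok) (M (nat_lit 493) (B (L (nat_lit 396) ln13_15_7 ln13_15_7_ok) (M (nat_lit 366) (B (L (nat_lit 334) ln13_14_6 ln13_14_6_ok) (L (nat_lit 398) ln13_15_6 ln13_15_6_ok))))))) (B (M (nat_lit 493) (B (M (nat_lit 366) (B (L (nat_lit 334) ln13_14_6 ln13_14_6_ok) (L (nat_lit 398) ln13_15_6 ln13_15_6_ok))) (M (nat_lit 492) (B (L (nat_lit 460) ln13_11_5 ln13_11_5_ok) (L (nat_lit 524) ln13_12_5 ln13_12_5_ok))))) (B (M (nat_lit 493) (B (M (nat_lit 364) (B (L (nat_lit 332) ln13_14_7 ln13_14_7_ok) (L (nat_lit 396) ln13_15_7 ln13_15_7_ok))) (M (nat_lit 492) (B (L (nat_lit 460) ln13_11_5 ln13_11_5_ok) (L (nat_lit 524) ln13_12_5 ln13_12_5_ok))))) (M (nat_lit 333) (B (M (nat_lit 332) (B (L (nat_lit 300) ln13_13_7 ln13_13_7_ok) (L (nat_lit 364) ln13_14_7 ln13_14_7_ok))) (M (nat_lit 460) (B (L (nat_lit 428)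 ln13_10_5 ln13_10_5_ok) (L (nat_lit 492) ln13_11_5 ln13_11_5_ok))))))))) (B (M (nat_lit 461) (B (M (nat_lit 493) (B (M (nat_lit 364) (B (L (nat_lit 332) ln13_14_7 ln13_14_7_ok) (L (nat_lit 396) ln13_15_7 ln13_15_7_ok))) (M (nat_lit 492) (B (L (nat_lit 460) ln13_11_5 ln13_11_5_ok) (L (nat_lit 524) ln13_12_5 ln13_12_5_ok))))) (B (M (nat_lit 493) (B (M (nat_lit 492) (B (L (nat_lit 460) ln13_11_5 ln13_11_5_ok) (L (nat_lit 524) ln13_12_5 ln13_12_5_ok))) (M (nat_lit 494) (B (L (nat_lit 462) ln13_11_4 ln13_11_4_ok) (L (nat_lit 526) ln13_12_4 ln13_12_4_ok))))) (B (M (nat_lit 493) (B (M (nat_lit 364) (B (L (nat_lit 332) ln13_14_7 ln13_14_7_ok) (L (nat_lit 396) ln13_15_7 ln13_15_7_ok))) (M (nat_lit 494) (B (L (nat_lit 462) ln13_11_4 ln13_11_4_ok) (L (nat_lit 526) ln13_12_4 ln13_12_4_ok))))) (M (nat_lit 333) (B (M (nat_lit 460) (B (L (nat_lit 428) ln13_10_5 ln13_10_5_ok) (L (nat_lit 492) ln13_11_5 ln13_11_5_ok)))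 (M (nat_lit 462) (B (L (nat_lit 430) ln13_10_4 ln13_10_4_ok) (L (nat_lit 494) ln13_11_4 ln13_11_4_ok))))))))) (B (M (nat_lit 461) (B (M (nat_lit 493) (B (M (nat_lit 366) (B (L (nat_lit 334) ln13_14_6 ln13_14_6_ok) (L (nat_lit 398) ln13_15_6 ln13_15_6_ok))) (M (nat_lit 492) (B (L (nat_lit 460) ln13_11_5 ln13_11_5_ok) (L (nat_lit 524) ln13_12_5 ln13_12_5_ok))))) (B (M (nat_lit 493) (B (M (nat_lit 492) (B (L (nat_lit 460) ln13_11_5 ln13_11_5_ok) (L (nat_lit 524) ln13_12_5 ln13_12_5_ok))) (M (nat_lit 494) (B (L (nat_lit 462) ln13_11_4 ln13_11_4_ok) (L (nat_lit 526) ln13_12_4 ln13_12_4_ok))))) (B (M (nat_lit 493) (B (M (nat_lit 366) (B (L (nat_lit 334) ln13_14_6 ln13_14_6_ok) (L (nat_lit 398) ln13_15_6 ln13_15_6_ok))) (M (nat_lit 494) (B (L (nat_lit 462) ln13_11_4 ln13_11_4_ok) (L (nat_lit 526) ln13_12_4 ln13_12_4_ok))))) (M (nat_lit 333) (B (M (nat_lit 460) (B (L (nat_lit 428) ln13_10_5 ln13_10_5_ok)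 (L (nat_lit 492) ln13_11_5 ln13_11_5_ok))) (M (nat_lit 462) (B (L (nat_lit 430) ln13_10_4 ln13_10_4_ok) (L (nat_lit 494) ln13_11_4 ln13_11_4_ok))))))))) (B (M (nat_lit 461) (B (M (nat_lit 364) (B (L (nat_lit 332) ln13_14_7 ln13_14_7_ok) (M (nat_lit 493) (B (L (nat_lit 396) ln13_15_7 ln13_15_7_ok) (M (nat_lit 366) (B (L (nat_lit 334) ln13_14_6 ln13_14_6_ok) (L (nat_lit 398) ln13_15_6 ln13_15_6_ok))))))) (B (M (nat_lit 493) (B (M (nat_lit 366) (B (L (nat_lit 334) ln13_14_6 ln13_14_6_ok) (L (nat_lit 398) ln13_15_6 ln13_15_6_ok))) (M (nat_lit 494) (B (L (nat_lit 462) ln13_11_4 ln13_11_4_ok) (L (nat_lit 526) ln13_12_4 ln13_12_4_ok))))) (B (M (nat_lit 493) (B (M (nat_lit 364) (B (L (nat_lit 332) ln13_14_7 ln13_14_7_ok) (L (nat_lit 396) ln13_15_7 ln13_15_7_ok))) (M (nat_lit 494) (B (L (nat_lit 462) ln13_11_4 ln13_11_4_ok) (L (nat_lit 526) ln13_12_4 ln13_12_4_ok))))) (M (nat_lit 364) (B (L (nat_lit 332)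 ln13_14_7 ln13_14_7_ok) (M (nat_lit 366) (B (L (nat_lit 334) ln13_14_6 ln13_14_6_ok) (M (nat_lit 363) (B (M (nat_lit 398) (B (L (nat_lit 362) ln10_11_0 ln10_11_0_ok) (L (nat_lit 399) ln11_11_0 ln11_11_0_ok))) (B (M (nat_lit 367) (B (M (nat_lit 395) (B (L (nat_lit 394) ln14_11_1 ln14_11_1_ok) (L (nat_lit 396) ln15_11_1 ln15_11_1_ok))) (M (nat_lit 399) (B (L (nat_lit 398) ln11_11_0 ln11_11_0_ok) (L (nat_lit 400) ln12_11_0 ln12_11_0_ok))))) (M (nat_lit 362) (B (M (nat_lit 330) (B (L (nat_lit 329) ln13_11_3 ln13_11_3_ok) (L (nat_lit 331) ln14_11_3 ln14_11_3_ok))) (M (nat_lit 394) (B (L (nat_lit 393) ln13_11_1 ln13_11_1_ok) (L (nat_lit 395) ln14_11_1 ln14_11_1_ok)))))))))))))))) c21_n418))))) (nat_lit 1386334847383188664550070665778531748218595021979121511688892729411143073470393764272092352380775458208712834410189682411080515584) (nat_lit 274591906494731163057567141835345353695259900118791959294274910104322655674526489081882622634400805529217462615939017534605179799674582570438906463273126723584)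 (nat_lit 274591906494731163057567141835345353695259900118791959294274910104322655674526489081882622634400805529217462615939017534605179799674582570438906463273126723584) (by decide +kernel)
theorem c21_s454 : Sem (nat_lit 1386334847383188664550070665778531748218595021979121511688892729411143073470393764272092352380775458208712834410189682411080515584) (nat_lit 274591906494731163057381071132929711179811170284939411341372335881737577627399853641720011347749407039351633018833167925148918261134001223990873774895919005696) (nat_lit 274591906494731163057381071132929711179811170284939411341372335881737577627399853641720011347749407039351633018833167925148918261134001223990873774895919005696) :=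
  sem_of_chk (M (nat_lit 365) (B (M (nat_lit 461) (B (M (nat_lit 364) (B (L (nat_lit 332) ln13_14_7 ln13_14_7_ok) (M (nat_lit 493) (B (L (nat_lit 396) ln13_15_7 ln13_15_7_ok) (M (nat_lit 366) (B (L (nat_lit 334) ln13_14_6 ln13_14_6_ok) (L (nat_lit 398) ln13_15_6 ln13_15_6_ok))))))) (B (M (nat_lit 493) (B (M (nat_lit 366) (B (L (nat_lit 334) ln13_14_6 ln13_14_6_ok) (L (nat_lit 398) ln13_15_6 ln13_15_6_ok))) (M (nat_lit 492) (B (L (nat_lit 460) ln13_11_5 ln13_11_5_ok) (L (nat_lit 524) ln13_12_5 ln13_12_5_ok))))) (B (M (nat_lit 493) (B (M (nat_lit 364) (B (L (nat_lit 332) ln13_14_7 ln13_14_7_ok) (L (nat_lit 396) ln13_15_7 ln13_15_7_ok))) (M (nat_lit 492) (B (L (nat_lit 460) ln13_11_5 ln13_11_5_ok) (L (nat_lit 524) ln13_12_5 ln13_12_5_ok))))) (M (nat_lit 333) (B (M (nat_lit 332) (B (L (nat_lit 300) ln13_13_7 ln13_13_7_ok) (L (nat_lit 364) ln13_14_7 ln13_14_7_ok))) (M (nat_lit 460) (B (L (nat_lit 428)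 ln13_10_5 ln13_10_5_ok) (L (nat_lit 492) ln13_11_5 ln13_11_5_ok))))))))) (B (M (nat_lit 461) (B (M (nat_lit 493) (B (M (nat_lit 366) (B (L (nat_lit 334) ln13_14_6 ln13_14_6_ok) (L (nat_lit 398) ln13_15_6 ln13_15_6_ok))) (M (nat_lit 492) (B (L (nat_lit 460) ln13_11_5 ln13_11_5_ok) (L (nat_lit 524) ln13_12_5 ln13_12_5_ok))))) (B (M (nat_lit 493) (B (M (nat_lit 492) (B (L (nat_lit 460) ln13_11_5 ln13_11_5_ok) (L (nat_lit 524) ln13_12_5 ln13_12_5_ok))) (M (nat_lit 494) (B (L (nat_lit 462) ln13_11_4 ln13_11_4_ok) (L (nat_lit 526) ln13_12_4 ln13_12_4_ok))))) (B (M (nat_lit 493) (B (M (nat_lit 366) (B (L (nat_lit 334) ln13_14_6 ln13_14_6_ok) (L (nat_lit 398) ln13_15_6 ln13_15_6_ok))) (M (nat_lit 494) (B (L (nat_lit 462) ln13_11_4 ln13_11_4_ok) (L (nat_lit 526) ln13_12_4 ln13_12_4_ok))))) (M (nat_lit 333) (B (M (nat_lit 460) (B (L (nat_lit 428) ln13_10_5 ln13_10_5_ok) (L (nat_lit 492) ln13_11_5 ln13_11_5_ok)))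 (M (nat_lit 462) (B (L (nat_lit 430) ln13_10_4 ln13_10_4_ok) (L (nat_lit 494) ln13_11_4 ln13_11_4_ok))))))))) (B (M (nat_lit 461) (B (M (nat_lit 364) (B (L (nat_lit 332) ln13_14_7 ln13_14_7_ok) (M (nat_lit 493) (B (L (nat_lit 396) ln13_15_7 ln13_15_7_ok) (M (nat_lit 366) (B (L (nat_lit 334) ln13_14_6 ln13_14_6_ok) (L (nat_lit 398) ln13_15_6 ln13_15_6_ok))))))) (B (M (nat_lit 493) (B (M (nat_lit 366) (B (L (nat_lit 334) ln13_14_6 ln13_14_6_ok) (L (nat_lit 398) ln13_15_6 ln13_15_6_ok))) (M (nat_lit 494) (B (L (nat_lit 462) ln13_11_4 ln13_11_4_ok) (L (nat_lit 526) ln13_12_4 ln13_12_4_ok))))) (B (M (nat_lit 493) (B (M (nat_lit 364) (B (L (nat_lit 332) ln13_14_7 ln13_14_7_ok) (L (nat_lit 396) ln13_15_7 ln13_15_7_ok))) (M (nat_lit 494) (B (L (nat_lit 462) ln13_11_4 ln13_11_4_ok) (L (nat_lit 526) ln13_12_4 ln13_12_4_ok))))) (M (nat_lit 366) (B (L (nat_lit 334) ln13_14_6 ln13_14_6_ok) (M (nat_lit 430) (B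 (M (nat_lit 460) (B (L (nat_lit 492) ln13_11_5 ln13_11_5_ok) (M (nat_lit 431) (B (L (nat_lit 432) ln16_13_1 ln16_13_1_ok) (M (nat_lit 459) (B (L (nat_lit 428) ln15_13_1 ln15_13_1_ok) (L (nat_lit 458) ln10_14_2 ln10_14_2_ok))))))) (B (M (nat_lit 460) (B (L (nat_lit 492) ln13_11_5 ln13_11_5_ok) (M (nat_lit 431) (B (L (nat_lit 432) ln16_13_1 ln16_13_1_ok) (M (nat_lit 462) (B (L (nat_lit 494) ln13_11_4 ln13_11_4_ok) (L (nat_lit 459) ln11_14_2 ln11_14_2_ok))))))) (M (nat_lit 398) (B (M (nat_lit 364) (B (L (nat_lit 332) ln13_14_7 ln13_14_7_ok) (M (nat_lit 363) (B (L (nat_lit 362) ln10_11_0 ln10_11_0_ok) (L (nat_lit 399) ln11_11_0 ln11_11_0_ok))))) (M (nat_lit 367) (B (M (nat_lit 462) (B (L (nat_lit 335) ln14_14_6 ln14_14_6_ok) (L (nat_lit 494) ln14_15_7 ln14_15_7_ok))) (M (nat_lit 396) (B (L (nat_lit 368) ln16_11_1 ln16_11_1_ok) (L (nat_lit 395) ln11_12_2 ln11_12_2_ok)))))))))))))))) (B (M (nat_lit 461)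 (B (M (nat_lit 333) (B (M (nat_lit 460) (B (L (nat_lit 428) ln13_10_5 ln13_10_5_ok) (L (nat_lit 492) ln13_11_5 ln13_11_5_ok))) (M (nat_lit 462) (B (L (nat_lit 430) ln13_10_4 ln13_10_4_ok) (L (nat_lit 494) ln13_11_4 ln13_11_4_ok))))) (B (M (nat_lit 493) (B (M (nat_lit 364) (B (L (nat_lit 332) ln13_14_7 ln13_14_7_ok) (L (nat_lit 396) ln13_15_7 ln13_15_7_ok))) (M (nat_lit 494) (B (L (nat_lit 462) ln13_11_4 ln13_11_4_ok) (L (nat_lit 526) ln13_12_4 ln13_12_4_ok))))) (M (nat_lit 333) (B (M (nat_lit 332) (B (L (nat_lit 300) ln13_13_7 ln13_13_7_ok) (L (nat_lit 364) ln13_14_7 ln13_14_7_ok))) (M (nat_lit 460) (B (L (nat_lit 428) ln13_10_5 ln13_10_5_ok) (L (nat_lit 492) ln13_11_5 ln13_11_5_ok)))))))) (B (M (nat_lit 461) (B (M (nat_lit 493) (B (M (nat_lit 366) (B (L (nat_lit 334) ln13_14_6 ln13_14_6_ok) (L (nat_lit 398) ln13_15_6 ln13_15_6_ok))) (M (nat_lit 494) (B (L (nat_lit 462) ln13_11_4 ln13_11_4_ok) (L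 (nat_lit 526) ln13_12_4 ln13_12_4_ok))))) (B (M (nat_lit 493) (B (M (nat_lit 364) (B (L (nat_lit 332) ln13_14_7 ln13_14_7_ok) (L (nat_lit 396) ln13_15_7 ln13_15_7_ok))) (M (nat_lit 494) (B (L (nat_lit 462) ln13_11_4 ln13_11_4_ok) (L (nat_lit 526) ln13_12_4 ln13_12_4_ok))))) (B (M (nat_lit 364) (B (L (nat_lit 332) ln13_14_7 ln13_14_7_ok) (M (nat_lit 493) (B (L (nat_lit 396) ln13_15_7 ln13_15_7_ok) (M (nat_lit 366) (B (L (nat_lit 334) ln13_14_6 ln13_14_6_ok) (L (nat_lit 398) ln13_15_6 ln13_15_6_ok))))))) (M (nat_lit 333) (B (M (nat_lit 332) (B (L (nat_lit 300) ln13_13_7 ln13_13_7_ok) (L (nat_lit 364) ln13_14_7 ln13_14_7_ok))) (M (nat_lit 334) (B (L (nat_lit 302) ln13_13_6 ln13_13_6_ok) (L (nat_lit 366) ln13_14_6 ln13_14_6_ok))))))))) (M (nat_lit 333) (B (M (nat_lit 301) (B (M (nat_lit 428) (B (L (nat_lit 396) ln13_9_5 ln13_9_5_ok) (L (nat_lit 460) ln13_10_5 ln13_10_5_ok))) (M (nat_lit 430) (B (L (nat_lit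 398) ln13_9_4 ln13_9_4_ok) (L (nat_lit 462) ln13_10_4 ln13_10_4_ok))))) (B (M (nat_lit 428) (B (L (nat_lit 460) ln13_10_5 ln13_10_5_ok) (M (nat_lit 430) (B (L (nat_lit 462) ln13_10_4 ln13_10_4_ok) (M (nat_lit 427) (B (M (nat_lit 398) (B (L (nat_lit 426) ln10_13_2 ln10_13_2_ok) (L (nat_lit 399) ln11_13_2 ln11_13_2_ok))) (B (M (nat_lit 426) (B (M (nat_lit 394) (B (L (nat_lit 393) ln13_13_3 ln13_13_3_ok) (L (nat_lit 395) ln14_13_3 ln14_13_3_ok))) (M (nat_lit 458) (B (L (nat_lit 457) ln13_13_1 ln13_13_1_ok) (L (nat_lit 459) ln14_13_1 ln14_13_1_ok))))) (M (nat_lit 431) (B (M (nat_lit 395) (B (L (nat_lit 394) ln14_13_3 ln14_13_3_ok) (L (nat_lit 396) ln15_13_3 ln15_13_3_ok))) (M (nat_lit 399) (B (L (nat_lit 398) ln11_13_2 ln11_13_2_ok) (L (nat_lit 400) ln12_13_2 ln12_13_2_ok)))))))))))) (B (M (nat_lit 301) (B (M (nat_lit 302) (B (L (nat_lit 270) ln13_12_6 ln13_12_6_ok) (L (nat_lit 334) ln13_13_6 ln13_13_6_ok)))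 (M (nat_lit 430) (B (L (nat_lit 398) ln13_9_4 ln13_9_4_ok) (L (nat_lit 462) ln13_10_4 ln13_10_4_ok))))) (M (nat_lit 301) (B (M (nat_lit 302) (B (L (nat_lit 270) ln13_12_6 ln13_12_6_ok) (L (nat_lit 334) ln13_13_6 ln13_13_6_ok))) (M (nat_lit 428) (B (L (nat_lit 396) ln13_9_5 ln13_9_5_ok) (L (nat_lit 460) ln13_10_5 ln13_10_5_ok))))))))))))))) (nat_lit 1386334847383188664550070665778531748218595021979121511688892729411143073470393764272092352380775458208712834410189682411080515584) (nat_lit 274591906494731163057381071132929711179811170284939411341372335881737577627399853641720011347749407039351633018833167925148918261134001223990873774895919005696) (nat_lit 274591906494731163057381071132929711179811170284939411341372335881737577627399853641720011347749407039351633018833167925148918261134001223990873774895919005696) (by decide +kernel)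
noncomputable def c21_n778 : Cert := (M (nat_lit 461) (B (M (nat_lit 493) (B (L (nat_lit 364) ln13_15_7 ln13_15_7_ok) (M (nat_lit 525) (B (L (nat_lit 428) ln13_16_7 ln13_16_7_ok) (M (nat_lit 524) (B (L (nat_lit 492) ln13_12_5 ln13_12_5_ok) (L (nat_lit 556) ln13_13_5 ln13_13_5_ok))))))) (B (M (nat_lit 493) (B (M (nat_lit 525) (B (L (nat_lit 428) ln13_16_7 ln13_16_7_ok) (M (nat_lit 524) (B (L (nat_lit 492) ln13_12_5 ln13_12_5_ok) (L (nat_lit 556) ln13_13_5 ln13_13_5_ok))))) (B (M (nat_lit 525) (B (M (nat_lit 398) (B (L (nat_lit 366) ln13_15_6 ln13_15_6_ok) (L (nat_lit 430) ln13_16_6 ln13_16_6_ok))) (M (nat_lit 524) (B (L (nat_lit 492) ln13_12_5 ln13_12_5_ok) (L (nat_lit 556) ln13_13_5 ln13_13_5_ok))))) (B (M (nat_lit 525) (B (L (nat_lit 428) ln13_16_7 ln13_16_7_ok) (M (nat_lit 398) (B (L (nat_lit 366) ln13_15_6 ln13_15_6_ok) (L (nat_lit 430) ln13_16_6 ln13_16_6_ok))))) (M (nat_lit 365) (B (M (nat_lit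 366) (B (L (nat_lit 334) ln13_14_6 ln13_14_6_ok) (L (nat_lit 398) ln13_15_6 ln13_15_6_ok))) (M (nat_lit 492) (B (L (nat_lit 460) ln13_11_5 ln13_11_5_ok) (L (nat_lit 524) ln13_12_5 ln13_12_5_ok))))))))) (B (M (nat_lit 493) (B (L (nat_lit 364) ln13_15_7 ln13_15_7_ok) (M (nat_lit 365) (B (M (nat_lit 366) (B (L (nat_lit 334) ln13_14_6 ln13_14_6_ok) (L (nat_lit 398) ln13_15_6 ln13_15_6_ok))) (M (nat_lit 492) (B (L (nat_lit 460) ln13_11_5 ln13_11_5_ok) (L (nat_lit 524) ln13_12_5 ln13_12_5_ok))))))) (B (M (nat_lit 493) (B (L (nat_lit 364) ln13_15_7 ln13_15_7_ok) (M (nat_lit 525) (B (L (nat_lit 428) ln13_16_7 ln13_16_7_ok) (M (nat_lit 398) (B (L (nat_lit 366) ln13_15_6 ln13_15_6_ok) (L (nat_lit 430) ln13_16_6 ln13_16_6_ok))))))) (M (nat_lit 460) (B (M (nat_lit 492) (B (L (nat_lit 365) ln13_11_5 ln13_11_5_ok) (M (nat_lit 524) (B (L (nat_lit 428) ln12_16_6 ln12_16_6_ok) (L (nat_lit 556) ln12_17_6 ln12_17_6_ok)))))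 (B (M (nat_lit 459) (B (M (nat_lit 430) (B (L (nat_lit 458) ln10_14_2 ln10_14_2_ok) (M (nat_lit 431) (B (L (nat_lit 432) ln16_13_3 ln16_13_3_ok) (L (nat_lit 428) ln15_13_1 ln15_13_1_ok))))) (B (M (nat_lit 430) (B (L (nat_lit 458) ln10_14_2 ln10_14_2_ok) (M (nat_lit 431) (B (L (nat_lit 432) ln16_13_3 ln16_13_3_ok) (L (nat_lit 462) ln11_14_2 ln11_14_2_ok))))) (M (nat_lit 491) (B (M (nat_lit 428) (B (L (nat_lit 364) ln12_11_5 ln12_11_5_ok) (M (nat_lit 523) (B (L (nat_lit 427) ln11_16_6 ln11_16_6_ok) (L (nat_lit 555) ln11_17_6 ln11_17_6_ok))))) (M (nat_lit 490) (B (L (nat_lit 462) ln14_14_1 ln14_14_1_ok) (M (nat_lit 489) (B (L (nat_lit 488) ln8_15_2 ln8_15_2_ok) (L (nat_lit 492) ln9_15_2 ln9_15_2_ok)))))))))) (B (M (nat_lit 365) (B (L (nat_lit 492) ln13_11_5 ln13_11_5_ok) (M (nat_lit 333) (B (M (nat_lit 334) (B (L (nat_lit 302) ln13_13_6 ln13_13_6_ok) (L (nat_lit 366) ln13_14_6 ln13_14_6_ok))) (M (nat_lit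 462) (B (L (nat_lit 430) ln13_10_4 ln13_10_4_ok) (L (nat_lit 494) ln13_11_4 ln13_11_4_ok))))))) (M (nat_lit 459) (B (M (nat_lit 430) (B (L (nat_lit 458) ln10_14_2 ln10_14_2_ok) (M (nat_lit 431) (B (L (nat_lit 432) ln16_13_3 ln16_13_3_ok) (L (nat_lit 462) ln11_14_2 ln11_14_2_ok))))) (B (M (nat_lit 491) (B (M (nat_lit 428) (B (L (nat_lit 364) ln12_11_5 ln12_11_5_ok) (M (nat_lit 523) (B (L (nat_lit 427) ln11_16_6 ln11_16_6_ok) (L (nat_lit 555) ln11_17_6 ln11_17_6_ok))))) (M (nat_lit 462) (B (L (nat_lit 490) ln14_14_1 ln14_14_1_ok) (M (nat_lit 494) (B (L (nat_lit 365) ln13_11_4 ln13_11_4_ok) (L (nat_lit 495) ln11_14_0 ln11_14_0_ok))))))) (M (nat_lit 430) (B (L (nat_lit 458) ln10_14_2 ln10_14_2_ok) (M (nat_lit 431) (B (L (nat_lit 432) ln16_13_3 ln16_13_3_ok) (L (nat_lit 428) ln15_13_1 ln15_13_1_ok)))))))))))))))))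
theorem c21_s969 : Sem (nat_lit 1386334847544579281930502452632026696468783264124728123740719198963059283254184240648144927045128292788721448874933630659377233920) (nat_lit 117936326187561026966080284817235006093660966203726528544302133607739188380120571874957620762288394186642083197345852135510215665265946427370532611833191321153623293952) (nat_lit 117936326187561026966080284817235006093660966203726528544302133607739188380120571874957620762288394186642083197345852135510215665265946427370532611833191321153623293952) :=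
  sem_of_chk (M (nat_lit 428) (B (M (nat_lit 365) (B (M (nat_lit 333) (B (L (nat_lit 301) ln13_9_5 ln13_9_5_ok) (L (nat_lit 460) ln13_10_5 ln13_10_5_ok))) (B (M (nat_lit 460) (B (L (nat_lit 333) ln13_10_5 ln13_10_5_ok) (L (nat_lit 492) ln12_15_6 ln12_15_6_ok))) (M (nat_lit 398) (B (M (nat_lit 399) (B (L (nat_lit 427) ln15_12_1 ln15_12_1_ok) (L (nat_lit 400) ln16_12_1 ln16_12_1_ok))) (M (nat_lit 366) (B (M (nat_lit 334) (B (L (nat_lit 302) ln14_9_5 ln14_9_5_ok) (L (nat_lit 461) ln13_14_6 ln13_14_6_ok))) (M (nat_lit 367) (B (L (nat_lit 368) ln16_11_1 ln16_11_1_ok) (L (nat_lit 395) ln11_12_2 ln11_12_2_ok)))))))))) (B (M (nat_lit 398) (B (M (nat_lit 399) (B (L (nat_lit 427) ln15_12_1 ln15_12_1_ok) (L (nat_lit 400) ln16_12_1 ln16_12_1_ok))) (M (nat_lit 365) (B (M (nat_lit 460) (B (L (nat_lit 333) ln13_10_5 ln13_10_5_ok) (L (nat_lit 492) ln12_15_6 ln12_15_6_ok))) (M (nat_lit 366) (B (M (nat_lit 334) (B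 (L (nat_lit 302) ln14_9_5 ln14_9_5_ok) (L (nat_lit 461) ln13_14_6 ln13_14_6_ok))) (M (nat_lit 367) (B (L (nat_lit 368) ln16_11_1 ln16_11_1_ok) (L (nat_lit 395) ln11_12_2 ln11_12_2_ok))))))))) (B (M (nat_lit 398) (B (M (nat_lit 399) (B (L (nat_lit 427) ln15_12_1 ln15_12_1_ok) (L (nat_lit 400) ln16_12_1 ln16_12_1_ok))) (M (nat_lit 365) (B (M (nat_lit 460) (B (L (nat_lit 333) ln13_10_5 ln13_10_5_ok) (L (nat_lit 492) ln12_15_6 ln12_15_6_ok))) (M (nat_lit 366) (B (M (nat_lit 367) (B (L (nat_lit 368) ln16_11_1 ln16_11_1_ok) (L (nat_lit 395) ln11_12_2 ln11_12_2_ok))) (M (nat_lit 461) (B (L (nat_lit 334) ln13_14_6 ln13_14_6_ok) (L (nat_lit 493) ln13_15_6 ln13_15_6_ok))))))))) (B (M (nat_lit 398) (B (M (nat_lit 399) (B (L (nat_lit 427) ln15_12_1 ln15_12_1_ok) (L (nat_lit 400) ln16_12_1 ln16_12_1_ok))) (B (M (nat_lit 395) (B (M (nat_lit 426) (B (L (nat_lit 427) ln14_12_1 ln14_12_1_ok) (M (nat_lit 394) (B (L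 (nat_lit 393) ln9_12_0 ln9_12_0_ok) (L (nat_lit 425) ln13_12_1 ln13_12_1_ok))))) (B (M (nat_lit 427) (B (L (nat_lit 426) ln14_12_1 ln14_12_1_ok) (M (nat_lit 363) (B (L (nat_lit 362) ln14_12_3 ln14_12_3_ok) (M (nat_lit 460) (B (L (nat_lit 331) ln11_10_4 ln11_10_4_ok) (L (nat_lit 492) ln12_15_7 ln12_15_7_ok))))))) (M (nat_lit 366) (B (L (nat_lit 367) ln11_12_2 ln11_12_2_ok) (M (nat_lit 394) (B (L (nat_lit 365) ln10_12_2 ln10_12_2_ok) (L (nat_lit 393) ln9_12_0 ln9_12_0_ok)))))))) (M (nat_lit 399) (B (L (nat_lit 400) ln16_12_1 ln16_12_1_ok) (M (nat_lit 395) (B (M (nat_lit 363) (B (L (nat_lit 362) ln14_12_3 ln14_12_3_ok) (L (nat_lit 364) ln15_12_3 ln15_12_3_ok))) (M (nat_lit 367) (B (L (nat_lit 366) ln11_12_2 ln11_12_2_ok) (L (nat_lit 368) ln12_12_2 ln12_12_2_ok)))))))))) (B (M (nat_lit 398) (B (M (nat_lit 399) (B (L (nat_lit 427) ln15_12_1 ln15_12_1_ok) (L (nat_lit 400) ln16_12_1 ln16_12_1_ok))) (B (M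 (nat_lit 395) (B (M (nat_lit 426) (B (L (nat_lit 427) ln14_12_1 ln14_12_1_ok) (M (nat_lit 394) (B (L (nat_lit 393) ln9_12_0 ln9_12_0_ok) (L (nat_lit 425) ln13_12_1 ln13_12_1_ok))))) (B (M (nat_lit 394) (B (M (nat_lit 362) (B (L (nat_lit 361) ln13_12_3 ln13_12_3_ok) (L (nat_lit 363) ln14_12_3 ln14_12_3_ok))) (M (nat_lit 426) (B (L (nat_lit 425) ln13_12_1 ln13_12_1_ok) (L (nat_lit 427) ln14_12_1 ln14_12_1_ok))))) (B (M (nat_lit 427) (B (L (nat_lit 426) ln14_12_1 ln14_12_1_ok) (M (nat_lit 363) (B (L (nat_lit 362) ln14_12_3 ln14_12_3_ok) (M (nat_lit 460) (B (L (nat_lit 331) ln11_10_4 ln11_10_4_ok) (L (nat_lit 492) ln12_15_7 ln12_15_7_ok))))))) (M (nat_lit 362) (B (L (nat_lit 363) ln14_12_3 ln14_12_3_ok) (M (nat_lit 394) (B (L (nat_lit 361) ln13_12_3 ln13_12_3_ok) (L (nat_lit 393) ln9_12_0 ln9_12_0_ok))))))))) (M (nat_lit 399) (B (L (nat_lit 400) ln16_12_1 ln16_12_1_ok) (M (nat_lit 395) (B (M (nat_lit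 363) (B (L (nat_lit 362) ln14_12_3 ln14_12_3_ok) (L (nat_lit 364) ln15_12_3 ln15_12_3_ok))) (M (nat_lit 367) (B (L (nat_lit 366) ln11_12_2 ln11_12_2_ok) (L (nat_lit 368) ln12_12_2 ln12_12_2_ok)))))))))) (B (M (nat_lit 460) (B (M (nat_lit 365) (B (L (nat_lit 333) ln13_10_5 ln13_10_5_ok) (L (nat_lit 492) ln12_15_6 ln12_15_6_ok))) (B (M (nat_lit 492) (B (L (nat_lit 365) ln12_15_6 ln12_15_6_ok) (L (nat_lit 524) ln12_16_6 ln12_16_6_ok))) (B (M (nat_lit 492) (B (L (nat_lit 524) ln12_16_6 ln12_16_6_ok) (M (nat_lit 364) (B (M (nat_lit 493) (B (L (nat_lit 461) ln13_15_7 ln13_15_7_ok) (L (nat_lit 525) ln12_12_4 ln12_12_4_ok))) (M (nat_lit 491) (B (L (nat_lit 459) ln12_11_5 ln12_11_5_ok) (L (nat_lit 523) ln12_12_5 ln12_12_5_ok))))))) (M (nat_lit 461) (B (M (nat_lit 493) (B (L (nat_lit 364) ln13_15_7 ln13_15_7_ok) (L (nat_lit 525) ln13_16_7 ln13_16_7_ok))) (B (M (nat_lit 493) (B (L (nat_lit 525) ln13_16_7 ln13_16_7_ok)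 (M (nat_lit 494) (B (L (nat_lit 526) ln13_12_4 ln13_12_4_ok) (M (nat_lit 365) (B (L (nat_lit 333) ln13_10_5 ln13_10_5_ok) (L (nat_lit 462) ln13_11_4 ln13_11_4_ok))))))) (M (nat_lit 459) (B (M (nat_lit 491) (B (L (nat_lit 364) ln12_11_5 ln12_11_5_ok) (M (nat_lit 523) (B (L (nat_lit 427) ln11_16_6 ln11_16_6_ok) (L (nat_lit 555) ln11_17_6 ln11_17_6_ok))))) (B (M (nat_lit 426) (B (M (nat_lit 427) (B (L (nat_lit 425) ln9_13_2 ln9_13_2_ok) (L (nat_lit 398) ln10_13_2 ln10_13_2_ok))) (B (M (nat_lit 427) (B (L (nat_lit 425) ln9_13_2 ln9_13_2_ok) (L (nat_lit 462) ln10_13_0 ln10_13_0_ok))) (B (M (nat_lit 427) (B (L (nat_lit 398) ln10_13_2 ln10_13_2_ok) (L (nat_lit 462) ln10_13_0 ln10_13_0_ok))) (M (nat_lit 458) (B (L (nat_lit 425) ln13_14_3 ln13_14_3_ok) (L (nat_lit 457) ln9_14_2 ln9_14_2_ok))))))) (M (nat_lit 490) (B (M (nat_lit 458) (B (L (nat_lit 457) ln9_14_2 ln9_14_2_ok) (L (nat_lit 489) ln13_14_1 ln13_14_1_ok)))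 (M (nat_lit 491) (B (L (nat_lit 364) ln12_11_5 ln12_11_5_ok) (L (nat_lit 462) ln14_14_1 ln14_14_1_ok))))))))))))))) (B (M (nat_lit 365) (B (M (nat_lit 333) (B (L (nat_lit 301) ln13_9_5 ln13_9_5_ok) (L (nat_lit 460) ln13_10_5 ln13_10_5_ok))) (B (M (nat_lit 460) (B (L (nat_lit 333) ln13_10_5 ln13_10_5_ok) (L (nat_lit 492) ln12_15_6 ln12_15_6_ok))) (M (nat_lit 461) (B (M (nat_lit 493) (B (L (nat_lit 364) ln13_15_7 ln13_15_7_ok) (L (nat_lit 525) ln13_16_7 ln13_16_7_ok))) (B (M (nat_lit 493) (B (L (nat_lit 525) ln13_16_7 ln13_16_7_ok) (M (nat_lit 494) (B (L (nat_lit 462) ln13_11_4 ln13_11_4_ok) (L (nat_lit 526) ln13_12_4 ln13_12_4_ok))))) (M (nat_lit 366) (B (L (nat_lit 334) ln13_14_6 ln13_14_6_ok) (M (nat_lit 395) (B (L (nat_lit 394) ln10_12_2 ln10_12_2_ok) (M (nat_lit 367) (B (L (nat_lit 364) ln15_11_1 ln15_11_1_ok) (L (nat_lit 368) ln16_11_1 ln16_11_1_ok))))))))))))) (M (nat_lit 398) (B (M (nat_lit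 399) (B (L (nat_lit 427) ln15_12_1 ln15_12_1_ok) (L (nat_lit 400) ln16_12_1 ln16_12_1_ok))) (M (nat_lit 395) (B (M (nat_lit 362) (B (L (nat_lit 363) ln14_12_3 ln14_12_3_ok) (M (nat_lit 394) (B (L (nat_lit 361) ln13_12_3 ln13_12_3_ok) (L (nat_lit 393) ln9_12_0 ln9_12_0_ok))))) (B (M (nat_lit 366) (B (L (nat_lit 367) ln11_12_2 ln11_12_2_ok) (M (nat_lit 394) (B (L (nat_lit 365) ln10_12_2 ln10_12_2_ok) (L (nat_lit 393) ln9_12_0 ln9_12_0_ok))))) (B (M (nat_lit 366) (B (L (nat_lit 367) ln11_12_2 ln11_12_2_ok) (M (nat_lit 394) (B (L (nat_lit 365) ln10_12_2 ln10_12_2_ok) (M (nat_lit 362) (B (L (nat_lit 361) ln13_12_3 ln13_12_3_ok) (L (nat_lit 363) ln14_12_3 ln14_12_3_ok))))))) (M (nat_lit 366) (B (L (nat_lit 367) ln11_12_2 ln11_12_2_ok) (M (nat_lit 334) (B (L (nat_lit 302) ln14_9_5 ln14_9_5_ok) (M (nat_lit 461) (B (L (nat_lit 365) ln13_14_6 ln13_14_6_ok) (L (nat_lit 493) ln13_15_6 ln13_15_6_ok)))))))))))))))))))))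 (nat_lit 1386334847544579281930502452632026696468783264124728123740719198963059283254184240648144927045128292788721448874933630659377233920) (nat_lit 117936326187561026966080284817235006093660966203726528544302133607739188380120571874957620762288394186642083197345852135510215665265946427370532611833191321153623293952) (nat_lit 117936326187561026966080284817235006093660966203726528544302133607739188380120571874957620762288394186642083197345852135510215665265946427370532611833191321153623293952) (by decide +kernel)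
theorem c21_s970 : Sem (nat_lit 1386334847383188664550070665778531748218595021979121511688892729411143073470393764272092352380775458208712834410189682411080515584) (nat_lit 353808977738907361584270070254637139244566420219421311765469324776523796204003024662674740878568803368077147002664599403194507948057479877243778392951044125469725163520) (nat_lit 353808977738907361584270070254637139244566420219421311765469324776523796204003024662674740878568803368077147002664599403194507948057479877243778392951044125469725163520) :=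
  sem_of_chk (M (nat_lit 396) (B (M (nat_lit 365) (B (M (nat_lit 430) (B (M (nat_lit 333) (B (L (nat_lit 462) ln13_10_4 ln13_10_4_ok) (M (nat_lit 428) (B (L (nat_lit 301) ln13_9_5 ln13_9_5_ok) (L (nat_lit 460) ln13_10_5 ln13_10_5_ok))))) (B (M (nat_lit 395) (B (L (nat_lit 394) ln10_12_0 ln10_12_0_ok) (M (nat_lit 431) (B (L (nat_lit 398) ln11_12_0 ln11_12_0_ok) (L (nat_lit 428) ln15_13_3 ln15_13_3_ok))))) (M (nat_lit 462) (B (L (nat_lit 333) ln13_10_4 ln13_10_4_ok) (M (nat_lit 494) (B (L (nat_lit 398) ln14_15_7 ln14_15_7_ok) (L (nat_lit 526) ln14_16_7 ln14_16_7_ok)))))))) (B (M (nat_lit 366) (B (M (nat_lit 395) (B (L (nat_lit 394) ln10_12_2 ln10_12_2_ok) (M (nat_lit 367) (B (L (nat_lit 364) ln15_11_1 ln15_11_1_ok) (L (nat_lit 398) ln11_12_2 ln11_12_2_ok))))) (B (M (nat_lit 395) (B (L (nat_lit 394) ln10_12_2 ln10_12_2_ok) (M (nat_lit 367) (B (L (nat_lit 368) ln16_11_1 ln16_11_1_ok) (L (nat_lit 398)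 ln11_12_2 ln11_12_2_ok))))) (B (M (nat_lit 461) (B (L (nat_lit 334) ln13_14_6 ln13_14_6_ok) (M (nat_lit 493) (B (L (nat_lit 364) ln13_15_7 ln13_15_7_ok) (L (nat_lit 398) ln13_15_6 ln13_15_6_ok))))) (M (nat_lit 367) (B (L (nat_lit 368) ln16_11_1 ln16_11_1_ok) (M (nat_lit 395) (B (L (nat_lit 364) ln15_11_1 ln15_11_1_ok) (L (nat_lit 394) ln10_12_2 ln10_12_2_ok))))))))) (B (M (nat_lit 366) (B (M (nat_lit 367) (B (L (nat_lit 368) ln16_11_1 ln16_11_1_ok) (M (nat_lit 395) (B (L (nat_lit 364) ln15_11_1 ln15_11_1_ok) (L (nat_lit 398) ln11_12_2 ln11_12_2_ok))))) (B (M (nat_lit 334) (B (L (nat_lit 461) ln13_14_6 ln13_14_6_ok) (M (nat_lit 302) (B (L (nat_lit 333) ln13_13_6 ln13_13_6_ok) (L (nat_lit 398) ln14_9_5 ln14_9_5_ok))))) (M (nat_lit 333) (B (M (nat_lit 334) (B (L (nat_lit 302) ln13_13_6 ln13_13_6_ok) (L (nat_lit 461) ln13_14_6 ln13_14_6_ok))) (M (nat_lit 428) (B (L (nat_lit 301) ln13_9_5 ln13_9_5_ok)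 (L (nat_lit 460) ln13_10_5 ln13_10_5_ok)))))))) (M (nat_lit 333) (B (M (nat_lit 428) (B (L (nat_lit 301) ln13_9_5 ln13_9_5_ok) (L (nat_lit 460) ln13_10_5 ln13_10_5_ok))) (M (nat_lit 461) (B (M (nat_lit 334) (B (L (nat_lit 302) ln13_13_6 ln13_13_6_ok) (L (nat_lit 366) ln13_14_6 ln13_14_6_ok))) (M (nat_lit 462) (B (L (nat_lit 430) ln13_10_4 ln13_10_4_ok) (L (nat_lit 494) ln13_11_4 ln13_11_4_ok))))))))))) (B (M (nat_lit 365) (B (M (nat_lit 366) (B (M (nat_lit 395) (B (L (nat_lit 394) ln10_12_2 ln10_12_2_ok) (M (nat_lit 367) (B (L (nat_lit 364) ln15_11_1 ln15_11_1_ok) (L (nat_lit 398) ln11_12_2 ln11_12_2_ok))))) (B (M (nat_lit 395) (B (L (nat_lit 394) ln10_12_2 ln10_12_2_ok) (M (nat_lit 367) (B (L (nat_lit 368) ln16_11_1 ln16_11_1_ok) (L (nat_lit 398) ln11_12_2 ln11_12_2_ok))))) (B (M (nat_lit 461) (B (L (nat_lit 334) ln13_14_6 ln13_14_6_ok) (M (nat_lit 493) (B (L (nat_lit 364) ln13_15_7 ln13_15_7_ok)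 (L (nat_lit 398) ln13_15_6 ln13_15_6_ok))))) (M (nat_lit 367) (B (L (nat_lit 368) ln16_11_1 ln16_11_1_ok) (M (nat_lit 395) (B (L (nat_lit 364) ln15_11_1 ln15_11_1_ok) (L (nat_lit 394) ln10_12_2 ln10_12_2_ok))))))))) (B (M (nat_lit 430) (B (M (nat_lit 462) (B (L (nat_lit 333) ln13_10_4 ln13_10_4_ok) (M (nat_lit 494) (B (L (nat_lit 398) ln14_15_7 ln14_15_7_ok) (L (nat_lit 526) ln14_16_7 ln14_16_7_ok))))) (B (M (nat_lit 395) (B (L (nat_lit 394) ln10_12_0 ln10_12_0_ok) (M (nat_lit 431) (B (L (nat_lit 398) ln11_12_0 ln11_12_0_ok) (L (nat_lit 432) ln16_13_3 ln16_13_3_ok))))) (M (nat_lit 395) (B (L (nat_lit 394) ln10_12_0 ln10_12_0_ok) (M (nat_lit 431) (B (L (nat_lit 428) ln15_13_3 ln15_13_3_ok) (L (nat_lit 432) ln16_13_3 ln16_13_3_ok)))))))) (B (M (nat_lit 366) (B (M (nat_lit 461) (B (L (nat_lit 334) ln13_14_6 ln13_14_6_ok) (M (nat_lit 493) (B (L (nat_lit 364) ln13_15_7 ln13_15_7_ok) (L (nat_lit 398) ln13_15_6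 ln13_15_6_ok))))) (B (M (nat_lit 367) (B (L (nat_lit 368) ln16_11_1 ln16_11_1_ok) (M (nat_lit 395) (B (L (nat_lit 364) ln15_11_1 ln15_11_1_ok) (L (nat_lit 398) ln11_12_2 ln11_12_2_ok))))) (B (M (nat_lit 334) (B (L (nat_lit 461) ln13_14_6 ln13_14_6_ok) (M (nat_lit 302) (B (L (nat_lit 270) ln14_8_5 ln14_8_5_ok) (L (nat_lit 398) ln14_9_5 ln14_9_5_ok))))) (M (nat_lit 334) (B (L (nat_lit 461) ln13_14_6 ln13_14_6_ok) (M (nat_lit 302) (B (L (nat_lit 270) ln14_8_5 ln14_8_5_ok) (L (nat_lit 333) ln13_13_6 ln13_13_6_ok))))))))) (B (M (nat_lit 461) (B (M (nat_lit 493) (B (L (nat_lit 364) ln13_15_7 ln13_15_7_ok) (M (nat_lit 366) (B (L (nat_lit 334) ln13_14_6 ln13_14_6_ok) (L (nat_lit 398) ln13_15_6 ln13_15_6_ok))))) (B (M (nat_lit 492) (B (L (nat_lit 460) ln13_11_5 ln13_11_5_ok) (M (nat_lit 493) (B (L (nat_lit 364) ln13_15_7 ln13_15_7_ok) (L (nat_lit 524) ln13_12_5 ln13_12_5_ok))))) (M (nat_lit 333) (B (M (nat_lit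 334) (B (L (nat_lit 302) ln13_13_6 ln13_13_6_ok) (L (nat_lit 366) ln13_14_6 ln13_14_6_ok))) (M (nat_lit 460) (B (L (nat_lit 428) ln13_10_5 ln13_10_5_ok) (L (nat_lit 492) ln13_11_5 ln13_11_5_ok)))))))) (M (nat_lit 366) (B (M (nat_lit 334) (B (L (nat_lit 461) ln13_14_6 ln13_14_6_ok) (M (nat_lit 302) (B (L (nat_lit 270) ln14_8_5 ln14_8_5_ok) (L (nat_lit 333) ln13_13_6 ln13_13_6_ok))))) (M (nat_lit 367) (B (L (nat_lit 368) ln16_11_1 ln16_11_1_ok) (M (nat_lit 395) (B (L (nat_lit 364) ln15_11_1 ln15_11_1_ok) (L (nat_lit 394) ln10_12_2 ln10_12_2_ok)))))))))))) (B (M (nat_lit 365) (B (M (nat_lit 366) (B (M (nat_lit 395) (B (L (nat_lit 394) ln10_12_2 ln10_12_2_ok) (M (nat_lit 367) (B (L (nat_lit 364) ln15_11_1 ln15_11_1_ok) (L (nat_lit 398) ln11_12_2 ln11_12_2_ok))))) (B (M (nat_lit 395) (B (L (nat_lit 394) ln10_12_2 ln10_12_2_ok) (M (nat_lit 367) (B (L (nat_lit 368) ln16_11_1 ln16_11_1_ok) (L (nat_lit 398)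 ln11_12_2 ln11_12_2_ok))))) (B (M (nat_lit 461) (B (L (nat_lit 334) ln13_14_6 ln13_14_6_ok) (M (nat_lit 493) (B (L (nat_lit 364) ln13_15_7 ln13_15_7_ok) (L (nat_lit 398) ln13_15_6 ln13_15_6_ok))))) (M (nat_lit 367) (B (L (nat_lit 368) ln16_11_1 ln16_11_1_ok) (M (nat_lit 395) (B (L (nat_lit 364) ln15_11_1 ln15_11_1_ok) (L (nat_lit 394) ln10_12_2 ln10_12_2_ok))))))))) (B (M (nat_lit 430) (B (M (nat_lit 333) (B (L (nat_lit 462) ln13_10_4 ln13_10_4_ok) (M (nat_lit 428) (B (L (nat_lit 301) ln13_9_5 ln13_9_5_ok) (L (nat_lit 460) ln13_10_5 ln13_10_5_ok))))) (M (nat_lit 395) (B (L (nat_lit 394) ln10_12_0 ln10_12_0_ok) (M (nat_lit 431) (B (L (nat_lit 398) ln11_12_0 ln11_12_0_ok) (L (nat_lit 432) ln16_13_3 ln16_13_3_ok))))))) (M (nat_lit 461) (B (M (nat_lit 492) (B (L (nat_lit 460) ln13_11_5 ln13_11_5_ok) (M (nat_lit 493) (B (L (nat_lit 364) ln13_15_7 ln13_15_7_ok) (L (nat_lit 524) ln13_12_5 ln13_12_5_ok)))))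 (B (M (nat_lit 333) (B (M (nat_lit 428) (B (L (nat_lit 301) ln13_9_5 ln13_9_5_ok) (L (nat_lit 460) ln13_10_5 ln13_10_5_ok))) (M (nat_lit 462) (B (L (nat_lit 430) ln13_10_4 ln13_10_4_ok) (L (nat_lit 494) ln13_11_4 ln13_11_4_ok))))) (M (nat_lit 493) (B (L (nat_lit 364) ln13_15_7 ln13_15_7_ok) (M (nat_lit 494) (B (L (nat_lit 462) ln13_11_4 ln13_11_4_ok) (L (nat_lit 526) ln13_12_4 ln13_12_4_ok))))))))))) (B (M (nat_lit 395) (B (M (nat_lit 430) (B (L (nat_lit 394) ln10_12_0 ln10_12_0_ok) (M (nat_lit 431) (B (L (nat_lit 398) ln11_12_0 ln11_12_0_ok) (L (nat_lit 428) ln15_13_3 ln15_13_3_ok))))) (B (M (nat_lit 430) (B (M (nat_lit 431) (B (L (nat_lit 398) ln11_12_0 ln11_12_0_ok) (L (nat_lit 428) ln15_13_3 ln15_13_3_ok))) (B (M (nat_lit 431) (B (L (nat_lit 428) ln15_13_3 ln15_13_3_ok) (L (nat_lit 432) ln16_13_3 ln16_13_3_ok))) (B (M (nat_lit 431) (B (L (nat_lit 398) ln11_12_0 ln11_12_0_ok) (L (nat_lit 432)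 ln16_13_3 ln16_13_3_ok))) (M (nat_lit 398) (B (M (nat_lit 366) (B (L (nat_lit 367) ln11_12_2 ln11_12_2_ok) (M (nat_lit 461) (B (L (nat_lit 334) ln14_10_5 ln14_10_5_ok) (L (nat_lit 493) ln13_15_6 ln13_15_6_ok))))) (M (nat_lit 399) (B (M (nat_lit 363) (B (L (nat_lit 362) ln14_12_3 ln14_12_3_ok) (L (nat_lit 364) ln15_12_3 ln15_12_3_ok))) (M (nat_lit 427) (B (L (nat_lit 426) ln14_12_1 ln14_12_1_ok) (L (nat_lit 428) ln15_12_1 ln15_12_1_ok))))))))))) (B (M (nat_lit 430) (B (L (nat_lit 394) ln10_12_0 ln10_12_0_ok) (M (nat_lit 431) (B (L (nat_lit 428) ln15_13_3 ln15_13_3_ok) (L (nat_lit 432) ln16_13_3 ln16_13_3_ok))))) (B (M (nat_lit 430) (B (L (nat_lit 394) ln10_12_0 ln10_12_0_ok) (M (nat_lit 431) (B (L (nat_lit 398) ln11_12_0 ln11_12_0_ok) (L (nat_lit 432) ln16_13_3 ln16_13_3_ok))))) (M (nat_lit 394) (B (M (nat_lit 393) (B (L (nat_lit 428) ln9_12_0 ln9_12_0_ok) (M (nat_lit 425) (B (L (nat_lit 424) ln12_12_1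 ln12_12_1_ok) (L (nat_lit 426) ln13_12_1 ln13_12_1_ok))))) (B (M (nat_lit 398) (B (M (nat_lit 362) (B (L (nat_lit 361) ln13_12_3 ln13_12_3_ok) (L (nat_lit 363) ln14_12_3 ln14_12_3_ok))) (M (nat_lit 426) (B (L (nat_lit 425) ln13_12_1 ln13_12_1_ok) (L (nat_lit 427) ln14_12_1 ln14_12_1_ok))))) (M (nat_lit 393) (B (L (nat_lit 428) ln9_12_0 ln9_12_0_ok) (M (nat_lit 361) (B (L (nat_lit 360) ln12_12_3 ln12_12_3_ok) (L (nat_lit 362) ln13_12_3 ln13_12_3_ok))))))))))))) (B (M (nat_lit 395) (B (M (nat_lit 430) (B (L (nat_lit 394) ln10_12_0 ln10_12_0_ok) (M (nat_lit 431) (B (L (nat_lit 398) ln11_12_0 ln11_12_0_ok) (L (nat_lit 432) ln16_13_3 ln16_13_3_ok))))) (B (M (nat_lit 398) (B (M (nat_lit 427) (B (L (nat_lit 426) ln14_12_1 ln14_12_1_ok) (M (nat_lit 399) (B (L (nat_lit 428) ln15_12_1 ln15_12_1_ok) (M (nat_lit 367) (B (L (nat_lit 366) ln11_12_2 ln11_12_2_ok) (L (nat_lit 368) ln12_12_2 ln12_12_2_ok))))))) (B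 (M (nat_lit 399) (B (M (nat_lit 363) (B (L (nat_lit 362) ln14_12_3 ln14_12_3_ok) (L (nat_lit 364) ln15_12_3 ln15_12_3_ok))) (M (nat_lit 431) (B (L (nat_lit 430) ln11_12_0 ln11_12_0_ok) (L (nat_lit 432) ln12_12_0 ln12_12_0_ok))))) (M (nat_lit 428) (B (M (nat_lit 427) (B (L (nat_lit 426) ln14_12_1 ln14_12_1_ok) (M (nat_lit 363) (B (L (nat_lit 362) ln14_12_3 ln14_12_3_ok) (M (nat_lit 331) (B (L (nat_lit 299) ln11_9_4 ln11_9_4_ok) (L (nat_lit 460) ln11_10_4 ln11_10_4_ok))))))) (B (M (nat_lit 427) (B (L (nat_lit 426) ln14_12_1 ln14_12_1_ok) (M (nat_lit 363) (B (L (nat_lit 362) ln14_12_3 ln14_12_3_ok) (M (nat_lit 460) (B (L (nat_lit 331) ln11_10_4 ln11_10_4_ok) (L (nat_lit 492) ln12_15_7 ln12_15_7_ok))))))) (B (M (nat_lit 427) (B (L (nat_lit 426) ln14_12_1 ln14_12_1_ok) (M (nat_lit 459) (B (M (nat_lit 491) (B (L (nat_lit 364) ln11_15_6 ln11_15_6_ok) (L (nat_lit 523) ln11_16_6 ln11_16_6_ok))) (M (nat_lit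 430) (B (L (nat_lit 431) ln11_12_0 ln11_12_0_ok) (L (nat_lit 458) ln14_13_1 ln14_13_1_ok))))))) (B (M (nat_lit 363) (B (L (nat_lit 362) ln14_12_3 ln14_12_3_ok) (M (nat_lit 460) (B (L (nat_lit 492) ln12_15_7 ln12_15_7_ok) (M (nat_lit 331) (B (L (nat_lit 299) ln11_9_4 ln11_9_4_ok) (L (nat_lit 427) ln11_10_4 ln11_10_4_ok))))))) (M (nat_lit 363) (B (L (nat_lit 362) ln14_12_3 ln14_12_3_ok) (M (nat_lit 460) (B (L (nat_lit 492) ln12_15_7 ln12_15_7_ok) (M (nat_lit 331) (B (L (nat_lit 299) ln11_9_4 ln11_9_4_ok) (L (nat_lit 364) ln12_14_7 ln12_14_7_ok))))))))))))))) (B (M (nat_lit 430) (B (L (nat_lit 394) ln10_12_0 ln10_12_0_ok) (M (nat_lit 431) (B (L (nat_lit 428) ln15_13_3 ln15_13_3_ok) (L (nat_lit 432) ln16_13_3 ln16_13_3_ok))))) (M (nat_lit 394) (B (M (nat_lit 393) (B (L (nat_lit 428) ln9_12_0 ln9_12_0_ok) (M (nat_lit 425) (B (L (nat_lit 424) ln12_12_1 ln12_12_1_ok) (L (nat_lit 426) ln13_12_1 ln13_12_1_ok)))))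 (B (M (nat_lit 398) (B (M (nat_lit 362) (B (L (nat_lit 361) ln13_12_3 ln13_12_3_ok) (L (nat_lit 363) ln14_12_3 ln14_12_3_ok))) (M (nat_lit 426) (B (L (nat_lit 425) ln13_12_1 ln13_12_1_ok) (L (nat_lit 427) ln14_12_1 ln14_12_1_ok))))) (M (nat_lit 393) (B (L (nat_lit 428) ln9_12_0 ln9_12_0_ok) (M (nat_lit 361) (B (L (nat_lit 360) ln12_12_3 ln12_12_3_ok) (L (nat_lit 362) ln13_12_3 ln13_12_3_ok)))))))))))) (B (M (nat_lit 395) (B (M (nat_lit 430) (B (L (nat_lit 394) ln10_12_0 ln10_12_0_ok) (M (nat_lit 431) (B (L (nat_lit 428) ln15_13_3 ln15_13_3_ok) (L (nat_lit 432) ln16_13_3 ln16_13_3_ok))))) (B (M (nat_lit 398) (B (M (nat_lit 427) (B (L (nat_lit 426) ln14_12_1 ln14_12_1_ok) (M (nat_lit 399) (B (L (nat_lit 428) ln15_12_1 ln15_12_1_ok) (M (nat_lit 367) (B (L (nat_lit 366) ln11_12_2 ln11_12_2_ok) (L (nat_lit 368) ln12_12_2 ln12_12_2_ok))))))) (B (M (nat_lit 399) (B (M (nat_lit 427) (B (L (nat_lit 426) ln14_12_1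 ln14_12_1_ok) (L (nat_lit 428) ln15_12_1 ln15_12_1_ok))) (M (nat_lit 431) (B (L (nat_lit 430) ln11_12_0 ln11_12_0_ok) (L (nat_lit 432) ln12_12_0 ln12_12_0_ok))))) (M (nat_lit 430) (B (L (nat_lit 431) ln11_12_0 ln11_12_0_ok) (M (nat_lit 366) (B (L (nat_lit 367) ln11_12_2 ln11_12_2_ok) (M (nat_lit 461) (B (L (nat_lit 334) ln14_10_5 ln14_10_5_ok) (L (nat_lit 493) ln13_15_6 ln13_15_6_ok)))))))))) (B (M (nat_lit 430) (B (L (nat_lit 394) ln10_12_0 ln10_12_0_ok) (M (nat_lit 431) (B (L (nat_lit 398) ln11_12_0 ln11_12_0_ok) (L (nat_lit 432) ln16_13_3 ln16_13_3_ok))))) (M (nat_lit 394) (B (M (nat_lit 393) (B (L (nat_lit 428) ln9_12_0 ln9_12_0_ok) (M (nat_lit 425) (B (L (nat_lit 424) ln12_12_1 ln12_12_1_ok) (L (nat_lit 426) ln13_12_1 ln13_12_1_ok))))) (B (M (nat_lit 398) (B (M (nat_lit 362) (B (L (nat_lit 361) ln13_12_3 ln13_12_3_ok) (L (nat_lit 363) ln14_12_3 ln14_12_3_ok))) (M (nat_lit 426) (B (L (nat_lit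 425) ln13_12_1 ln13_12_1_ok) (L (nat_lit 427) ln14_12_1 ln14_12_1_ok))))) (M (nat_lit 393) (B (L (nat_lit 428) ln9_12_0 ln9_12_0_ok) (M (nat_lit 361) (B (L (nat_lit 360) ln12_12_3 ln12_12_3_ok) (L (nat_lit 362) ln13_12_3 ln13_12_3_ok)))))))))))) (B (M (nat_lit 395) (B (M (nat_lit 430) (B (L (nat_lit 394) ln10_12_0 ln10_12_0_ok) (M (nat_lit 431) (B (L (nat_lit 398) ln11_12_0 ln11_12_0_ok) (L (nat_lit 432) ln16_13_3 ln16_13_3_ok))))) (B (M (nat_lit 398) (B (M (nat_lit 427) (B (L (nat_lit 426) ln14_12_1 ln14_12_1_ok) (M (nat_lit 399) (B (L (nat_lit 428) ln15_12_1 ln15_12_1_ok) (M (nat_lit 363) (B (L (nat_lit 362) ln14_12_3 ln14_12_3_ok) (L (nat_lit 364) ln15_12_3 ln15_12_3_ok))))))) (B (M (nat_lit 399) (B (M (nat_lit 427) (B (L (nat_lit 426) ln14_12_1 ln14_12_1_ok) (L (nat_lit 428) ln15_12_1 ln15_12_1_ok))) (M (nat_lit 431) (B (L (nat_lit 430) ln11_12_0 ln11_12_0_ok) (L (nat_lit 432) ln12_12_0 ln12_12_0_ok)))))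 (B (M (nat_lit 428) (B (M (nat_lit 363) (B (L (nat_lit 362) ln14_12_3 ln14_12_3_ok) (M (nat_lit 460) (B (L (nat_lit 492) ln12_15_7 ln12_15_7_ok) (M (nat_lit 331) (B (L (nat_lit 299) ln11_9_4 ln11_9_4_ok) (L (nat_lit 364) ln12_14_7 ln12_14_7_ok))))))) (B (M (nat_lit 427) (B (L (nat_lit 426) ln14_12_1 ln14_12_1_ok) (M (nat_lit 363) (B (L (nat_lit 362) ln14_12_3 ln14_12_3_ok) (M (nat_lit 460) (B (L (nat_lit 331) ln11_10_4 ln11_10_4_ok) (L (nat_lit 492) ln12_15_7 ln12_15_7_ok))))))) (M (nat_lit 427) (B (L (nat_lit 426) ln14_12_1 ln14_12_1_ok) (M (nat_lit 459) (B (M (nat_lit 491) (B (L (nat_lit 364) ln11_15_6 ln11_15_6_ok) (L (nat_lit 523) ln11_16_6 ln11_16_6_ok))) (M (nat_lit 430) (B (L (nat_lit 431) ln11_12_0 ln11_12_0_ok) (L (nat_lit 458) ln14_13_1 ln14_13_1_ok)))))))))) (M (nat_lit 399) (B (M (nat_lit 363) (B (L (nat_lit 362) ln14_12_3 ln14_12_3_ok) (L (nat_lit 364) ln15_12_3 ln15_12_3_ok))) (M (nat_lit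 431) (B (L (nat_lit 430) ln11_12_0 ln11_12_0_ok) (L (nat_lit 432) ln12_12_0 ln12_12_0_ok))))))))) (B (M (nat_lit 430) (B (L (nat_lit 394) ln10_12_0 ln10_12_0_ok) (M (nat_lit 431) (B (L (nat_lit 428) ln15_13_3 ln15_13_3_ok) (L (nat_lit 432) ln16_13_3 ln16_13_3_ok))))) (M (nat_lit 394) (B (M (nat_lit 393) (B (L (nat_lit 428) ln9_12_0 ln9_12_0_ok) (M (nat_lit 425) (B (L (nat_lit 424) ln12_12_1 ln12_12_1_ok) (L (nat_lit 426) ln13_12_1 ln13_12_1_ok))))) (B (M (nat_lit 398) (B (M (nat_lit 362) (B (L (nat_lit 361) ln13_12_3 ln13_12_3_ok) (L (nat_lit 363) ln14_12_3 ln14_12_3_ok))) (M (nat_lit 426) (B (L (nat_lit 425) ln13_12_1 ln13_12_1_ok) (L (nat_lit 427) ln14_12_1 ln14_12_1_ok))))) (M (nat_lit 393) (B (L (nat_lit 428) ln9_12_0 ln9_12_0_ok) (M (nat_lit 361) (B (L (nat_lit 360) ln12_12_3 ln12_12_3_ok) (L (nat_lit 362) ln13_12_3 ln13_12_3_ok)))))))))))) (B (M (nat_lit 365) (B (M (nat_lit 461) (B (M (nat_lit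 493) (B (L (nat_lit 364) ln13_15_7 ln13_15_7_ok) (M (nat_lit 366) (B (L (nat_lit 334) ln13_14_6 ln13_14_6_ok) (L (nat_lit 398) ln13_15_6 ln13_15_6_ok))))) (B (M (nat_lit 492) (B (L (nat_lit 460) ln13_11_5 ln13_11_5_ok) (M (nat_lit 493) (B (L (nat_lit 364) ln13_15_7 ln13_15_7_ok) (L (nat_lit 524) ln13_12_5 ln13_12_5_ok))))) (M (nat_lit 333) (B (M (nat_lit 334) (B (L (nat_lit 302) ln13_13_6 ln13_13_6_ok) (L (nat_lit 366) ln13_14_6 ln13_14_6_ok))) (M (nat_lit 460) (B (L (nat_lit 428) ln13_10_5 ln13_10_5_ok) (L (nat_lit 492) ln13_11_5 ln13_11_5_ok)))))))) (B (M (nat_lit 461) (B (M (nat_lit 493) (B (L (nat_lit 364) ln13_15_7 ln13_15_7_ok) (M (nat_lit 494) (B (L (nat_lit 462) ln13_11_4 ln13_11_4_ok) (L (nat_lit 526) ln13_12_4 ln13_12_4_ok))))) (B (M (nat_lit 333) (B (M (nat_lit 428) (B (L (nat_lit 301) ln13_9_5 ln13_9_5_ok) (L (nat_lit 460) ln13_10_5 ln13_10_5_ok))) (M (nat_lit 462) (B (L (nat_lit 430)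 ln13_10_4 ln13_10_4_ok) (L (nat_lit 494) ln13_11_4 ln13_11_4_ok))))) (M (nat_lit 493) (B (L (nat_lit 364) ln13_15_7 ln13_15_7_ok) (M (nat_lit 366) (B (L (nat_lit 334) ln13_14_6 ln13_14_6_ok) (L (nat_lit 398) ln13_15_6 ln13_15_6_ok)))))))) (B (M (nat_lit 366) (B (M (nat_lit 367) (B (L (nat_lit 368) ln16_11_1 ln16_11_1_ok) (M (nat_lit 395) (B (L (nat_lit 364) ln15_11_1 ln15_11_1_ok) (L (nat_lit 398) ln11_12_2 ln11_12_2_ok))))) (B (M (nat_lit 334) (B (L (nat_lit 461) ln13_14_6 ln13_14_6_ok) (M (nat_lit 302) (B (L (nat_lit 270) ln14_8_5 ln14_8_5_ok) (L (nat_lit 398) ln14_9_5 ln14_9_5_ok))))) (M (nat_lit 364) (B (M (nat_lit 367) (B (L (nat_lit 395) ln15_11_1 ln15_11_1_ok) (L (nat_lit 368) ln16_11_1 ln16_11_1_ok))) (M (nat_lit 461) (B (L (nat_lit 334) ln13_14_6 ln13_14_6_ok) (L (nat_lit 493) ln13_15_7 ln13_15_7_ok)))))))) (B (M (nat_lit 430) (B (M (nat_lit 333) (B (L (nat_lit 462) ln13_10_4 ln13_10_4_ok)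 (M (nat_lit 428) (B (L (nat_lit 301) ln13_9_5 ln13_9_5_ok) (L (nat_lit 460) ln13_10_5 ln13_10_5_ok))))) (B (M (nat_lit 431) (B (L (nat_lit 432) ln16_13_3 ln16_13_3_ok) (M (nat_lit 395) (B (L (nat_lit 398) ln11_12_0 ln11_12_0_ok) (L (nat_lit 428) ln15_13_3 ln15_13_3_ok))))) (M (nat_lit 462) (B (L (nat_lit 333) ln13_10_4 ln13_10_4_ok) (M (nat_lit 494) (B (L (nat_lit 398) ln14_15_7 ln14_15_7_ok) (L (nat_lit 461) ln13_11_4 ln13_11_4_ok)))))))) (B (M (nat_lit 333) (B (M (nat_lit 428) (B (L (nat_lit 301) ln13_9_5 ln13_9_5_ok) (L (nat_lit 460) ln13_10_5 ln13_10_5_ok))) (M (nat_lit 461) (B (M (nat_lit 334) (B (L (nat_lit 302) ln13_13_6 ln13_13_6_ok) (L (nat_lit 366) ln13_14_6 ln13_14_6_ok))) (M (nat_lit 462) (B (L (nat_lit 430) ln13_10_4 ln13_10_4_ok) (L (nat_lit 494) ln13_11_4 ln13_11_4_ok))))))) (M (nat_lit 430) (B (M (nat_lit 462) (B (L (nat_lit 333) ln13_10_4 ln13_10_4_ok) (M (nat_lit 494) (B (L (nat_lit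 398) ln14_15_7 ln14_15_7_ok) (L (nat_lit 526) ln14_16_7 ln14_16_7_ok))))) (B (M (nat_lit 431) (B (L (nat_lit 432) ln16_13_3 ln16_13_3_ok) (M (nat_lit 395) (B (L (nat_lit 398) ln11_12_0 ln11_12_0_ok) (L (nat_lit 428) ln15_13_3 ln15_13_3_ok))))) (M (nat_lit 333) (B (L (nat_lit 462) ln13_10_4 ln13_10_4_ok) (M (nat_lit 428) (B (L (nat_lit 301) ln13_9_5 ln13_9_5_ok) (L (nat_lit 460) ln13_10_5 ln13_10_5_ok)))))))))))))) (B c21_n778 (B (M (nat_lit 461) (B (M (nat_lit 493) (B (L (nat_lit 364) ln13_15_7 ln13_15_7_ok) (M (nat_lit 525) (B (L (nat_lit 428) ln13_16_7 ln13_16_7_ok) (M (nat_lit 524) (B (L (nat_lit 492) ln13_12_5 ln13_12_5_ok) (L (nat_lit 556) ln13_13_5 ln13_13_5_ok))))))) (B (M (nat_lit 365) (B (M (nat_lit 460) (B (L (nat_lit 492) ln13_11_5 ln13_11_5_ok) (M (nat_lit 333) (B (L (nat_lit 428) ln13_10_5 ln13_10_5_ok) (M (nat_lit 462) (B (L (nat_lit 430) ln13_10_4 ln13_10_4_ok) (L (nat_lit 494) ln13_11_4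 ln13_11_4_ok))))))) (B (M (nat_lit 493) (B (M (nat_lit 492) (B (L (nat_lit 460) ln13_11_5 ln13_11_5_ok) (L (nat_lit 524) ln13_12_5 ln13_12_5_ok))) (M (nat_lit 494) (B (L (nat_lit 462) ln13_11_4 ln13_11_4_ok) (L (nat_lit 526) ln13_12_4 ln13_12_4_ok))))) (B (M (nat_lit 333) (B (M (nat_lit 334) (B (L (nat_lit 302) ln13_13_6 ln13_13_6_ok) (L (nat_lit 366) ln13_14_6 ln13_14_6_ok))) (M (nat_lit 462) (B (L (nat_lit 430) ln13_10_4 ln13_10_4_ok) (L (nat_lit 494) ln13_11_4 ln13_11_4_ok))))) (M (nat_lit 333) (B (M (nat_lit 334) (B (L (nat_lit 302) ln13_13_6 ln13_13_6_ok) (L (nat_lit 366) ln13_14_6 ln13_14_6_ok))) (M (nat_lit 460) (B (L (nat_lit 428) ln13_10_5 ln13_10_5_ok) (L (nat_lit 492) ln13_11_5 ln13_11_5_ok))))))))) (B (M (nat_lit 365) (B (M (nat_lit 492) (B (L (nat_lit 460) ln13_11_5 ln13_11_5_ok) (M (nat_lit 493) (B (L (nat_lit 364) ln13_15_7 ln13_15_7_ok) (L (nat_lit 524) ln13_12_5 ln13_12_5_ok)))))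 (M (nat_lit 333) (B (M (nat_lit 334) (B (L (nat_lit 302) ln13_13_6 ln13_13_6_ok) (L (nat_lit 366) ln13_14_6 ln13_14_6_ok))) (M (nat_lit 462) (B (L (nat_lit 430) ln13_10_4 ln13_10_4_ok) (L (nat_lit 494) ln13_11_4 ln13_11_4_ok))))))) (B (M (nat_lit 365) (B (M (nat_lit 493) (B (L (nat_lit 364) ln13_15_7 ln13_15_7_ok) (M (nat_lit 494) (B (L (nat_lit 462) ln13_11_4 ln13_11_4_ok) (L (nat_lit 526) ln13_12_4 ln13_12_4_ok))))) (M (nat_lit 333) (B (M (nat_lit 334) (B (L (nat_lit 302) ln13_13_6 ln13_13_6_ok) (L (nat_lit 366) ln13_14_6 ln13_14_6_ok))) (M (nat_lit 428) (B (L (nat_lit 301) ln13_9_5 ln13_9_5_ok) (L (nat_lit 460) ln13_10_5 ln13_10_5_ok))))))) (M (nat_lit 365) (B (M (nat_lit 366) (B (L (nat_lit 334) ln13_14_6 ln13_14_6_ok) (M (nat_lit 395) (B (L (nat_lit 394) ln10_12_2 ln10_12_2_ok) (M (nat_lit 367) (B (L (nat_lit 364) ln15_11_1 ln15_11_1_ok) (L (nat_lit 368) ln16_11_1 ln16_11_1_ok))))))) (M (nat_lit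 333) (B (M (nat_lit 428) (B (L (nat_lit 301) ln13_9_5 ln13_9_5_ok) (L (nat_lit 460) ln13_10_5 ln13_10_5_ok))) (M (nat_lit 462) (B (L (nat_lit 430) ln13_10_4 ln13_10_4_ok) (L (nat_lit 494) ln13_11_4 ln13_11_4_ok)))))))))))) (B (M (nat_lit 395) (B (M (nat_lit 430) (B (L (nat_lit 394) ln10_12_0 ln10_12_0_ok) (M (nat_lit 431) (B (L (nat_lit 398) ln11_12_0 ln11_12_0_ok) (L (nat_lit 432) ln16_13_3 ln16_13_3_ok))))) (B (M (nat_lit 398) (B (M (nat_lit 430) (B (L (nat_lit 431) ln11_12_0 ln11_12_0_ok) (M (nat_lit 366) (B (L (nat_lit 367) ln11_12_2 ln11_12_2_ok) (M (nat_lit 461) (B (L (nat_lit 334) ln14_10_5 ln14_10_5_ok) (L (nat_lit 493) ln13_15_6 ln13_15_6_ok))))))) (B (M (nat_lit 399) (B (M (nat_lit 363) (B (L (nat_lit 362) ln14_12_3 ln14_12_3_ok) (L (nat_lit 364) ln15_12_3 ln15_12_3_ok))) (M (nat_lit 431) (B (L (nat_lit 430) ln11_12_0 ln11_12_0_ok) (L (nat_lit 432) ln12_12_0 ln12_12_0_ok))))) (M (nat_lit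 366) (B (L (nat_lit 367) ln11_12_2 ln11_12_2_ok) (M (nat_lit 461) (B (L (nat_lit 493) ln13_15_6 ln13_15_6_ok) (M (nat_lit 334) (B (L (nat_lit 302) ln14_9_5 ln14_9_5_ok) (L (nat_lit 365) ln13_14_6 ln13_14_6_ok)))))))))) (B (M (nat_lit 394) (B (L (nat_lit 430) ln10_12_0 ln10_12_0_ok) (M (nat_lit 393) (B (M (nat_lit 361) (B (L (nat_lit 360) ln12_12_3 ln12_12_3_ok) (L (nat_lit 362) ln13_12_3 ln13_12_3_ok))) (M (nat_lit 365) (B (L (nat_lit 364) ln9_12_2 ln9_12_2_ok) (L (nat_lit 366) ln10_12_2 ln10_12_2_ok))))))) (M (nat_lit 398) (B (M (nat_lit 366) (B (L (nat_lit 367) ln11_12_2 ln11_12_2_ok) (M (nat_lit 461) (B (L (nat_lit 493) ln13_15_6 ln13_15_6_ok) (M (nat_lit 334) (B (L (nat_lit 302) ln14_9_5 ln14_9_5_ok) (L (nat_lit 365) ln13_14_6 ln13_14_6_ok))))))) (B (M (nat_lit 394) (B (M (nat_lit 362) (B (L (nat_lit 361) ln13_12_3 ln13_12_3_ok) (L (nat_lit 363) ln14_12_3 ln14_12_3_ok))) (M (nat_lit 366) (B (L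 (nat_lit 365) ln10_12_2 ln10_12_2_ok) (L (nat_lit 367) ln11_12_2 ln11_12_2_ok))))) (M (nat_lit 394) (B (M (nat_lit 362) (B (L (nat_lit 361) ln13_12_3 ln13_12_3_ok) (L (nat_lit 363) ln14_12_3 ln14_12_3_ok))) (M (nat_lit 426) (B (L (nat_lit 425) ln13_12_1 ln13_12_1_ok) (L (nat_lit 427) ln14_12_1 ln14_12_1_ok)))))))))))) (K (nat_lit 1386334847544579281930502452632026696468783264124728123740719198963059283254184240648144927045128292788721448874933630659377233920) (nat_lit 117936326187561026966080284817235006093660966203726528544302133607739188380120571874957620762288394186642083197345852135510215665265946427370532611833191321153623293952) (nat_lit 117936326187561026966080284817235006093660966203726528544302133607739188380120571874957620762288394186642083197345852135510215665265946427370532611833191321153623293952) c21_s969))))))))))))) (nat_lit 1386334847383188664550070665778531748218595021979121511688892729411143073470393764272092352380775458208712834410189682411080515584)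 (nat_lit 353808977738907361584270070254637139244566420219421311765469324776523796204003024662674740878568803368077147002664599403194507948057479877243778392951044125469725163520) (nat_lit 353808977738907361584270070254637139244566420219421311765469324776523796204003024662674740878568803368077147002664599403194507948057479877243778392951044125469725163520) (by decide +kernel)
theorem c21_s1203 : Sem (nat_lit 1386334847544579281930502452632026696468783264124728123740719198963059283254184240648144927045128292788721448874933630659377233920) (nat_lit 384428669063214259528138635997097480931452915210938805225999093418611067567746131113656508160017959757876540104481607552405195239170929541440762536232239497216) (nat_lit 384428669063214259528138635997097480931452915210938805225999093418611067567746131113656508160017959757876540104481607552405195239170929541440762536232239497216) :=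
  sem_of_chk (M (nat_lit 428) (B (M (nat_lit 395) (B (M (nat_lit 394) (B (L (nat_lit 393) ln9_12_0 ln9_12_0_ok) (L (nat_lit 430) ln10_12_0 ln10_12_0_ok))) (B (M (nat_lit 430) (B (L (nat_lit 394) ln10_12_0 ln10_12_0_ok) (L (nat_lit 431) ln15_13_3 ln15_13_3_ok))) (B (M (nat_lit 427) (B (M (nat_lit 398) (B (L (nat_lit 426) ln14_12_1 ln14_12_1_ok) (L (nat_lit 399) ln15_12_1 ln15_12_1_ok))) (M (nat_lit 459) (B (M (nat_lit 364) (B (L (nat_lit 332) ln12_10_5 ln12_10_5_ok) (L (nat_lit 491) ln11_15_6 ln11_15_6_ok))) (M (nat_lit 430) (B (L (nat_lit 431) ln15_13_3 ln15_13_3_ok) (L (nat_lit 458) ln14_13_1 ln14_13_1_ok))))))) (M (nat_lit 394) (B (L (nat_lit 393) ln9_12_0 ln9_12_0_ok) (M (nat_lit 398) (B (M (nat_lit 362) (B (L (nat_lit 361) ln13_12_3 ln13_12_3_ok) (L (nat_lit 363) ln14_12_3 ln14_12_3_ok))) (M (nat_lit 426) (B (L (nat_lit 425) ln13_12_1 ln13_12_1_ok) (L (nat_lit 427) ln14_12_1 ln14_12_1_ok)))))))))))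 (B (M (nat_lit 395) (B (M (nat_lit 394) (B (L (nat_lit 393) ln9_12_0 ln9_12_0_ok) (L (nat_lit 430) ln10_12_0 ln10_12_0_ok))) (M (nat_lit 427) (B (M (nat_lit 398) (B (L (nat_lit 426) ln14_12_1 ln14_12_1_ok) (L (nat_lit 399) ln15_12_1 ln15_12_1_ok))) (B (M (nat_lit 461) (B (M (nat_lit 493) (B (L (nat_lit 364) ln13_15_7 ln13_15_7_ok) (L (nat_lit 525) ln13_16_7 ln13_16_7_ok))) (M (nat_lit 426) (B (L (nat_lit 425) ln9_13_2 ln9_13_2_ok) (L (nat_lit 462) ln10_13_0 ln10_13_0_ok))))) (M (nat_lit 363) (B (M (nat_lit 331) (B (L (nat_lit 299) ln11_9_4 ln11_9_4_ok) (L (nat_lit 460) ln11_10_4 ln11_10_4_ok))) (M (nat_lit 398) (B (L (nat_lit 362) ln14_12_3 ln14_12_3_ok) (L (nat_lit 399) ln15_12_1 ln15_12_1_ok)))))))))) (B (M (nat_lit 427) (B (M (nat_lit 398) (B (L (nat_lit 399) ln15_12_1 ln15_12_1_ok) (L (nat_lit 426) ln10_13_2 ln10_13_2_ok))) (B (M (nat_lit 426) (B (L (nat_lit 425) ln9_13_2 ln9_13_2_ok) (M (nat_lit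 430) (B (M (nat_lit 394) (B (L (nat_lit 393) ln13_13_3 ln13_13_3_ok) (L (nat_lit 395) ln10_12_0 ln10_12_0_ok))) (M (nat_lit 458) (B (L (nat_lit 457) ln13_13_1 ln13_13_1_ok) (L (nat_lit 459) ln14_13_1 ln14_13_1_ok))))))) (M (nat_lit 460) (B (M (nat_lit 492) (B (L (nat_lit 365) ln12_15_6 ln12_15_6_ok) (L (nat_lit 524) ln12_16_6 ln12_16_6_ok))) (M (nat_lit 459) (B (M (nat_lit 364) (B (L (nat_lit 332) ln12_10_5 ln12_10_5_ok) (L (nat_lit 491) ln12_11_5 ln12_11_5_ok))) (M (nat_lit 430) (B (L (nat_lit 458) ln14_13_1 ln14_13_1_ok) (L (nat_lit 431) ln15_13_1 ln15_13_1_ok)))))))))) (B (M (nat_lit 427) (B (M (nat_lit 398) (B (L (nat_lit 399) ln15_12_1 ln15_12_1_ok) (L (nat_lit 426) ln10_13_2 ln10_13_2_ok))) (B (M (nat_lit 426) (B (L (nat_lit 425) ln9_13_2 ln9_13_2_ok) (M (nat_lit 430) (B (M (nat_lit 394) (B (L (nat_lit 393) ln13_13_3 ln13_13_3_ok) (L (nat_lit 395) ln10_12_0 ln10_12_0_ok))) (M (nat_lit 458)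 (B (L (nat_lit 457) ln13_13_1 ln13_13_1_ok) (L (nat_lit 459) ln14_13_1 ln14_13_1_ok))))))) (M (nat_lit 395) (B (M (nat_lit 394) (B (L (nat_lit 393) ln9_12_0 ln9_12_0_ok) (L (nat_lit 430) ln10_12_0 ln10_12_0_ok))) (M (nat_lit 363) (B (M (nat_lit 331) (B (L (nat_lit 299) ln11_9_4 ln11_9_4_ok) (L (nat_lit 460) ln11_10_4 ln11_10_4_ok))) (M (nat_lit 398) (B (L (nat_lit 362) ln14_12_3 ln14_12_3_ok) (L (nat_lit 399) ln15_12_1 ln15_12_1_ok)))))))))) (B (M (nat_lit 364) (B (M (nat_lit 332) (B (L (nat_lit 300) ln12_9_4 ln12_9_4_ok) (L (nat_lit 461) ln12_10_4 ln12_10_4_ok))) (M (nat_lit 395) (B (M (nat_lit 430) (B (L (nat_lit 394) ln10_12_0 ln10_12_0_ok) (L (nat_lit 431) ln15_13_3 ln15_13_3_ok))) (M (nat_lit 363) (B (M (nat_lit 331) (B (L (nat_lit 299) ln11_9_4 ln11_9_4_ok) (L (nat_lit 460) ln12_14_7 ln12_14_7_ok))) (M (nat_lit 362) (B (L (nat_lit 361) ln9_11_0 ln9_11_0_ok) (L (nat_lit 398) ln14_12_3 ln14_12_3_ok)))))))))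 (B (M (nat_lit 364) (B (M (nat_lit 332) (B (L (nat_lit 300) ln12_9_4 ln12_9_4_ok) (L (nat_lit 461) ln12_10_4 ln12_10_4_ok))) (M (nat_lit 363) (B (M (nat_lit 460) (B (L (nat_lit 331) ln12_14_7 ln12_14_7_ok) (M (nat_lit 492) (B (L (nat_lit 395) ln12_15_7 ln12_15_7_ok) (L (nat_lit 365) ln12_15_6 ln12_15_6_ok))))) (B (M (nat_lit 362) (B (L (nat_lit 361) ln9_11_0 ln9_11_0_ok) (M (nat_lit 398) (B (L (nat_lit 365) ln10_11_0 ln10_11_0_ok) (L (nat_lit 399) ln15_12_3 ln15_12_3_ok))))) (M (nat_lit 362) (B (L (nat_lit 361) ln9_11_0 ln9_11_0_ok) (M (nat_lit 398) (B (L (nat_lit 395) ln14_12_3 ln14_12_3_ok) (L (nat_lit 399) ln15_12_3 ln15_12_3_ok)))))))))) (M (nat_lit 461) (B (M (nat_lit 364) (B (L (nat_lit 332) ln12_10_4 ln12_10_4_ok) (L (nat_lit 493) ln13_15_7 ln13_15_7_ok))) (B (M (nat_lit 493) (B (L (nat_lit 364) ln13_15_7 ln13_15_7_ok) (L (nat_lit 525) ln13_16_7 ln13_16_7_ok))) (B (M (nat_lit 493) (B (L (nat_lit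 525) ln13_16_7 ln13_16_7_ok) (M (nat_lit 365) (B (M (nat_lit 492) (B (L (nat_lit 460) ln12_15_6 ln12_15_6_ok) (L (nat_lit 524) ln13_12_5 ln13_12_5_ok))) (M (nat_lit 494) (B (L (nat_lit 462) ln13_11_4 ln13_11_4_ok) (L (nat_lit 526) ln13_12_4 ln13_12_4_ok))))))) (M (nat_lit 460) (B (M (nat_lit 492) (B (L (nat_lit 365) ln12_15_6 ln12_15_6_ok) (L (nat_lit 524) ln12_16_6 ln12_16_6_ok))) (M (nat_lit 459) (B (M (nat_lit 364) (B (L (nat_lit 332) ln12_10_4 ln12_10_4_ok) (L (nat_lit 491) ln12_11_5 ln12_11_5_ok))) (M (nat_lit 458) (B (L (nat_lit 457) ln9_14_2 ln9_14_2_ok) (L (nat_lit 430) ln10_14_2 ln10_14_2_ok)))))))))))))))))) (nat_lit 1386334847544579281930502452632026696468783264124728123740719198963059283254184240648144927045128292788721448874933630659377233920) (nat_lit 384428669063214259528138635997097480931452915210938805225999093418611067567746131113656508160017959757876540104481607552405195239170929541440762536232239497216)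 (nat_lit 384428669063214259528138635997097480931452915210938805225999093418611067567746131113656508160017959757876540104481607552405195239170929541440762536232239497216) (by decide +kernel)
theorem c21_s1473 : Sem (nat_lit 1386334847544579281930502452632026696468783264124728123740719198963059283254184240648144927045128292788721448874933630659377233920) (nat_lit 235872651935775003571918079808486148195968231700287094274221873821466533774247898811327255021491919324783628205563184869902354490046957098019399532514744372969538060288) (nat_lit 235872651935775003571918079808486148195968231700287094274221873821466533774247898811327255021491919324783628205563184869902354490046957098019399532514744372969538060288) :=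
  sem_of_chk (M (nat_lit 430) (B (M (nat_lit 461) (B (M (nat_lit 493) (B (L (nat_lit 364) ln13_15_7 ln13_15_7_ok) (M (nat_lit 398) (B (L (nat_lit 366) ln13_15_6 ln13_15_6_ok) (L (nat_lit 525) ln13_16_6 ln13_16_6_ok))))) (M (nat_lit 460) (B (M (nat_lit 431) (B (L (nat_lit 432) ln16_13_3 ln16_13_3_ok) (M (nat_lit 459) (B (L (nat_lit 428) ln15_13_1 ln15_13_1_ok) (L (nat_lit 458) ln10_14_2 ln10_14_2_ok))))) (B (M (nat_lit 431) (B (L (nat_lit 432) ln16_13_3 ln16_13_3_ok) (M (nat_lit 459) (B (L (nat_lit 458) ln10_14_2 ln10_14_2_ok) (L (nat_lit 462) ln11_14_2 ln11_14_2_ok))))) (M (nat_lit 492) (B (L (nat_lit 365) ln13_11_5 ln13_11_5_ok) (M (nat_lit 524) (B (L (nat_lit 428) ln12_16_6 ln12_16_6_ok) (L (nat_lit 556) ln12_17_6 ln12_17_6_ok)))))))))) (B (M (nat_lit 431) (B (L (nat_lit 432) ln16_13_3 ln16_13_3_ok) (M (nat_lit 460) (B (M (nat_lit 428) (B (L (nat_lit 459) ln15_13_1 ln15_13_1_ok) (M (nat_lit 492)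 (B (L (nat_lit 365) ln12_15_6 ln12_15_6_ok) (L (nat_lit 524) ln12_16_6 ln12_16_6_ok))))) (B (M (nat_lit 459) (B (L (nat_lit 428) ln15_13_1 ln15_13_1_ok) (M (nat_lit 461) (B (L (nat_lit 458) ln10_14_2 ln10_14_2_ok) (L (nat_lit 462) ln11_14_2 ln11_14_2_ok))))) (B (M (nat_lit 461) (B (M (nat_lit 459) (B (L (nat_lit 458) ln10_14_2 ln10_14_2_ok) (L (nat_lit 462) ln11_14_2 ln11_14_2_ok))) (M (nat_lit 492) (B (L (nat_lit 365) ln13_11_5 ln13_11_5_ok) (M (nat_lit 524) (B (L (nat_lit 493) ln13_12_5 ln13_12_5_ok) (L (nat_lit 556) ln12_17_6 ln12_17_6_ok))))))) (M (nat_lit 492) (B (M (nat_lit 365) (B (L (nat_lit 428) ln12_15_6 ln12_15_6_ok) (L (nat_lit 461) ln13_11_5 ln13_11_5_ok))) (B (M (nat_lit 524) (B (L (nat_lit 428) ln12_16_6 ln12_16_6_ok) (M (nat_lit 461) (B (L (nat_lit 493) ln13_12_5 ln13_12_5_ok) (L (nat_lit 556) ln12_17_6 ln12_17_6_ok))))) (B (M (nat_lit 461) (B (L (nat_lit 365) ln13_11_5 ln13_11_5_ok)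 (M (nat_lit 524) (B (L (nat_lit 493) ln13_12_5 ln13_12_5_ok) (L (nat_lit 556) ln12_17_6 ln12_17_6_ok))))) (M (nat_lit 428) (B (L (nat_lit 365) ln12_15_6 ln12_15_6_ok) (L (nat_lit 524) ln12_16_6 ln12_16_6_ok))))))))))))) (B (M (nat_lit 431) (B (L (nat_lit 432) ln16_13_3 ln16_13_3_ok) (M (nat_lit 428) (B (M (nat_lit 399) (B (L (nat_lit 400) ln12_13_2 ln12_13_2_ok) (M (nat_lit 427) (B (L (nat_lit 398) ln15_12_1 ln15_12_1_ok) (M (nat_lit 459) (B (L (nat_lit 458) ln14_13_1 ln14_13_1_ok) (L (nat_lit 460) ln15_13_1 ln15_13_1_ok))))))) (B (M (nat_lit 461) (B (M (nat_lit 493) (B (L (nat_lit 364) ln13_15_7 ln13_15_7_ok) (L (nat_lit 525) ln13_16_7 ln13_16_7_ok))) (M (nat_lit 427) (B (M (nat_lit 426) (B (L (nat_lit 425) ln9_13_2 ln9_13_2_ok) (L (nat_lit 462) ln10_13_0 ln10_13_0_ok))) (M (nat_lit 459) (B (L (nat_lit 458) ln14_13_1 ln14_13_1_ok) (L (nat_lit 460) ln15_13_1 ln15_13_1_ok))))))) (B (M (nat_lit 364)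 (B (M (nat_lit 332) (B (L (nat_lit 300) ln12_9_4 ln12_9_4_ok) (L (nat_lit 461) ln12_10_4 ln12_10_4_ok))) (M (nat_lit 363) (B (M (nat_lit 460) (B (L (nat_lit 331) ln12_14_7 ln12_14_7_ok) (L (nat_lit 459) ln15_13_1 ln15_13_1_ok))) (M (nat_lit 399) (B (L (nat_lit 398) ln15_12_3 ln15_12_3_ok) (L (nat_lit 400) ln12_13_2 ln12_13_2_ok))))))) (M (nat_lit 399) (B (L (nat_lit 400) ln12_13_2 ln12_13_2_ok) (M (nat_lit 364) (B (M (nat_lit 332) (B (L (nat_lit 300) ln12_9_4 ln12_9_4_ok) (L (nat_lit 461) ln12_10_4 ln12_10_4_ok))) (M (nat_lit 398) (B (L (nat_lit 363) ln15_12_3 ln15_12_3_ok) (L (nat_lit 427) ln15_12_1 ln15_12_1_ok))))))))))))) (B (M (nat_lit 398) (B (M (nat_lit 399) (B (M (nat_lit 400) (B (L (nat_lit 401) ln17_12_1 ln17_12_1_ok) (M (nat_lit 432) (B (L (nat_lit 431) ln12_12_0 ln12_12_0_ok) (L (nat_lit 433) ln13_12_0 ln13_12_0_ok))))) (B (M (nat_lit 431) (B (L (nat_lit 432) ln12_12_0 ln12_12_0_ok) (M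 (nat_lit 367) (B (L (nat_lit 368) ln12_12_2 ln12_12_2_ok) (M (nat_lit 335) (B (L (nat_lit 303) ln15_9_5 ln15_9_5_ok) (L (nat_lit 462) ln15_10_5 ln15_10_5_ok))))))) (M (nat_lit 367) (B (L (nat_lit 368) ln12_12_2 ln12_12_2_ok) (M (nat_lit 366) (B (M (nat_lit 334) (B (L (nat_lit 302) ln14_9_5 ln14_9_5_ok) (L (nat_lit 461) ln14_10_5 ln14_10_5_ok))) (M (nat_lit 335) (B (L (nat_lit 303) ln15_9_5 ln15_9_5_ok) (L (nat_lit 462) ln14_14_6 ln14_14_6_ok)))))))))) (B (M (nat_lit 399) (B (M (nat_lit 400) (B (L (nat_lit 401) ln17_12_1 ln17_12_1_ok) (M (nat_lit 432) (B (L (nat_lit 431) ln12_12_0 ln12_12_0_ok) (L (nat_lit 433) ln13_12_0 ln13_12_0_ok))))) (M (nat_lit 364) (B (L (nat_lit 363) ln15_12_3 ln15_12_3_ok) (M (nat_lit 461) (B (L (nat_lit 493) ln13_15_7 ln13_15_7_ok) (M (nat_lit 332) (B (L (nat_lit 300) ln12_9_4 ln12_9_4_ok) (L (nat_lit 365) ln13_14_7 ln13_14_7_ok))))))))) (B (M (nat_lit 366) (B (M (nat_lit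 334) (B (L (nat_lit 302) ln14_9_5 ln14_9_5_ok) (L (nat_lit 461) ln14_10_5 ln14_10_5_ok))) (B (M (nat_lit 461) (B (L (nat_lit 334) ln14_10_5 ln14_10_5_ok) (L (nat_lit 493) ln13_15_6 ln13_15_6_ok))) (B (M (nat_lit 462) (B (M (nat_lit 494) (B (L (nat_lit 365) ln14_15_7 ln14_15_7_ok) (L (nat_lit 526) ln14_16_7 ln14_16_7_ok))) (B (M (nat_lit 493) (B (L (nat_lit 461) ln13_15_6 ln13_15_6_ok) (M (nat_lit 494) (B (L (nat_lit 526) ln14_16_7 ln14_16_7_ok) (L (nat_lit 525) ln14_12_5 ln14_12_5_ok))))) (M (nat_lit 367) (B (L (nat_lit 335) ln14_14_6 ln14_14_6_ok) (M (nat_lit 368) (B (L (nat_lit 365) ln16_11_1 ln16_11_1_ok) (L (nat_lit 369) ln17_11_1 ln17_11_1_ok)))))))) (M (nat_lit 334) (B (L (nat_lit 302) ln14_9_5 ln14_9_5_ok) (M (nat_lit 367) (B (M (nat_lit 335) (B (L (nat_lit 303) ln14_13_6 ln14_13_6_ok) (L (nat_lit 462) ln14_14_6 ln14_14_6_ok))) (M (nat_lit 368) (B (L (nat_lit 365) ln16_11_1 ln16_11_1_ok) (L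 (nat_lit 369) ln17_11_1 ln17_11_1_ok))))))))))) (M (nat_lit 399) (B (M (nat_lit 400) (B (L (nat_lit 401) ln17_12_1 ln17_12_1_ok) (M (nat_lit 432) (B (L (nat_lit 431) ln12_12_0 ln12_12_0_ok) (L (nat_lit 433) ln13_12_0 ln13_12_0_ok))))) (B (M (nat_lit 431) (B (L (nat_lit 432) ln12_12_0 ln12_12_0_ok) (M (nat_lit 367) (B (L (nat_lit 368) ln12_12_2 ln12_12_2_ok) (M (nat_lit 335) (B (L (nat_lit 303) ln15_9_5 ln15_9_5_ok) (L (nat_lit 462) ln15_10_5 ln15_10_5_ok))))))) (M (nat_lit 400) (B (L (nat_lit 401) ln17_12_1 ln17_12_1_ok) (M (nat_lit 368) (B (L (nat_lit 367) ln12_12_2 ln12_12_2_ok) (L (nat_lit 369) ln13_12_2 ln13_12_2_ok)))))))))))) (B (M (nat_lit 398) (B (M (nat_lit 364) (B (M (nat_lit 399) (B (L (nat_lit 363) ln15_12_3 ln15_12_3_ok) (M (nat_lit 400) (B (L (nat_lit 365) ln16_12_3 ln16_12_3_ok) (L (nat_lit 428) ln16_12_1 ln16_12_1_ok))))) (B (M (nat_lit 332) (B (L (nat_lit 300) ln12_9_4 ln12_9_4_ok)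 (M (nat_lit 461) (B (L (nat_lit 365) ln13_14_7 ln13_14_7_ok) (L (nat_lit 493) ln13_15_7 ln13_15_7_ok))))) (M (nat_lit 399) (B (L (nat_lit 363) ln15_12_3 ln15_12_3_ok) (M (nat_lit 428) (B (L (nat_lit 427) ln15_12_1 ln15_12_1_ok) (L (nat_lit 400) ln16_12_1 ln16_12_1_ok)))))))) (B (M (nat_lit 399) (B (M (nat_lit 428) (B (L (nat_lit 427) ln15_12_1 ln15_12_1_ok) (L (nat_lit 400) ln16_12_1 ln16_12_1_ok))) (B (M (nat_lit 428) (B (L (nat_lit 427) ln15_12_1 ln15_12_1_ok) (M (nat_lit 364) (B (L (nat_lit 363) ln15_12_3 ln15_12_3_ok) (M (nat_lit 461) (B (L (nat_lit 332) ln12_10_4 ln12_10_4_ok) (L (nat_lit 493) ln13_15_7 ln13_15_7_ok))))))) (B (M (nat_lit 400) (B (L (nat_lit 428) ln16_12_1 ln16_12_1_ok) (L (nat_lit 401) ln17_12_1 ln17_12_1_ok))) (M (nat_lit 400) (B (L (nat_lit 401) ln17_12_1 ln17_12_1_ok) (M (nat_lit 368) (B (L (nat_lit 367) ln12_12_2 ln12_12_2_ok) (L (nat_lit 369) ln13_12_2 ln13_12_2_ok)))))))))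 (B (M (nat_lit 399) (B (M (nat_lit 400) (B (L (nat_lit 428) ln16_12_1 ln16_12_1_ok) (L (nat_lit 401) ln17_12_1 ln17_12_1_ok))) (M (nat_lit 367) (B (L (nat_lit 368) ln12_12_2 ln12_12_2_ok) (M (nat_lit 366) (B (M (nat_lit 334) (B (L (nat_lit 302) ln14_9_5 ln14_9_5_ok) (L (nat_lit 461) ln14_10_5 ln14_10_5_ok))) (M (nat_lit 335) (B (L (nat_lit 303) ln15_9_5 ln15_9_5_ok) (L (nat_lit 462) ln14_14_6 ln14_14_6_ok))))))))) (B (M (nat_lit 366) (B (M (nat_lit 334) (B (L (nat_lit 302) ln14_9_5 ln14_9_5_ok) (L (nat_lit 461) ln14_10_5 ln14_10_5_ok))) (B (M (nat_lit 461) (B (L (nat_lit 334) ln14_10_5 ln14_10_5_ok) (L (nat_lit 493) ln13_15_6 ln13_15_6_ok))) (B (M (nat_lit 462) (B (M (nat_lit 494) (B (L (nat_lit 365) ln14_15_7 ln14_15_7_ok) (L (nat_lit 526) ln14_16_7 ln14_16_7_ok))) (B (M (nat_lit 493) (B (L (nat_lit 461) ln13_15_6 ln13_15_6_ok) (M (nat_lit 494) (B (L (nat_lit 526) ln14_16_7 ln14_16_7_ok) (L (nat_lit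 525) ln14_12_5 ln14_12_5_ok))))) (M (nat_lit 367) (B (L (nat_lit 335) ln14_14_6 ln14_14_6_ok) (M (nat_lit 368) (B (L (nat_lit 365) ln16_11_1 ln16_11_1_ok) (L (nat_lit 369) ln17_11_1 ln17_11_1_ok)))))))) (M (nat_lit 334) (B (L (nat_lit 302) ln14_9_5 ln14_9_5_ok) (M (nat_lit 367) (B (M (nat_lit 335) (B (L (nat_lit 303) ln14_13_6 ln14_13_6_ok) (L (nat_lit 462) ln14_14_6 ln14_14_6_ok))) (M (nat_lit 368) (B (L (nat_lit 365) ln16_11_1 ln16_11_1_ok) (L (nat_lit 369) ln17_11_1 ln17_11_1_ok))))))))))) (M (nat_lit 399) (B (M (nat_lit 400) (B (L (nat_lit 428) ln16_12_1 ln16_12_1_ok) (L (nat_lit 401) ln17_12_1 ln17_12_1_ok))) (M (nat_lit 367) (B (L (nat_lit 368) ln12_12_2 ln12_12_2_ok) (M (nat_lit 335) (B (L (nat_lit 303) ln15_9_5 ln15_9_5_ok) (M (nat_lit 462) (B (L (nat_lit 366) ln14_14_6 ln14_14_6_ok) (L (nat_lit 494) ln14_15_6 ln14_15_6_ok)))))))))))))) (B (M (nat_lit 399) (B (M (nat_lit 431) (B (L (nat_lit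 432) ln16_13_3 ln16_13_3_ok) (M (nat_lit 400) (B (L (nat_lit 428) ln12_13_2 ln12_13_2_ok) (M (nat_lit 401) (B (L (nat_lit 398) ln17_12_1 ln17_12_1_ok) (L (nat_lit 402) ln18_12_1 ln18_12_1_ok))))))) (B (M (nat_lit 431) (B (L (nat_lit 432) ln16_13_3 ln16_13_3_ok) (M (nat_lit 428) (B (L (nat_lit 400) ln12_13_2 ln12_13_2_ok) (M (nat_lit 460) (B (L (nat_lit 459) ln15_13_1 ln15_13_1_ok) (M (nat_lit 492) (B (L (nat_lit 365) ln12_15_6 ln12_15_6_ok) (L (nat_lit 524) ln12_16_6 ln12_16_6_ok))))))))) (B (M (nat_lit 398) (B (M (nat_lit 367) (B (L (nat_lit 368) ln12_12_2 ln12_12_2_ok) (M (nat_lit 335) (B (L (nat_lit 303) ln15_9_5 ln15_9_5_ok) (M (nat_lit 462) (B (L (nat_lit 366) ln14_14_6 ln14_14_6_ok) (L (nat_lit 494) ln14_15_6 ln14_15_6_ok))))))) (B (M (nat_lit 431) (B (L (nat_lit 432) ln12_12_0 ln12_12_0_ok) (M (nat_lit 367) (B (L (nat_lit 368) ln12_12_2 ln12_12_2_ok) (M (nat_lit 462) (B (L (nat_lit 335) ln15_10_5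 ln15_10_5_ok) (L (nat_lit 494) ln14_15_6 ln14_15_6_ok))))))) (M (nat_lit 428) (B (L (nat_lit 427) ln15_12_1 ln15_12_1_ok) (M (nat_lit 460) (B (M (nat_lit 492) (B (L (nat_lit 365) ln12_15_6 ln12_15_6_ok) (L (nat_lit 524) ln12_16_6 ln12_16_6_ok))) (M (nat_lit 431) (B (L (nat_lit 432) ln12_12_0 ln12_12_0_ok) (L (nat_lit 459) ln15_13_1 ln15_13_1_ok)))))))))) (B (M (nat_lit 431) (B (L (nat_lit 432) ln16_13_3 ln16_13_3_ok) (M (nat_lit 398) (B (M (nat_lit 367) (B (L (nat_lit 368) ln12_12_2 ln12_12_2_ok) (M (nat_lit 335) (B (L (nat_lit 303) ln15_9_5 ln15_9_5_ok) (L (nat_lit 462) ln15_10_5 ln15_10_5_ok))))) (M (nat_lit 364) (B (L (nat_lit 363) ln15_12_3 ln15_12_3_ok) (M (nat_lit 400) (B (L (nat_lit 365) ln16_12_3 ln16_12_3_ok) (L (nat_lit 401) ln17_12_1 ln17_12_1_ok))))))))) (M (nat_lit 398) (B (M (nat_lit 400) (B (L (nat_lit 428) ln16_12_1 ln16_12_1_ok) (L (nat_lit 401) ln17_12_1 ln17_12_1_ok))) (M (nat_lit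 367) (B (L (nat_lit 368) ln12_12_2 ln12_12_2_ok) (M (nat_lit 335) (B (L (nat_lit 303) ln15_9_5 ln15_9_5_ok) (M (nat_lit 462) (B (L (nat_lit 366) ln14_14_6 ln14_14_6_ok) (L (nat_lit 494) ln14_15_6 ln14_15_6_ok)))))))))))))) (M (nat_lit 431) (B (L (nat_lit 432) ln16_13_3 ln16_13_3_ok) (M (nat_lit 428) (B (M (nat_lit 460) (B (L (nat_lit 459) ln15_13_1 ln15_13_1_ok) (M (nat_lit 492) (B (L (nat_lit 365) ln12_15_6 ln12_15_6_ok) (L (nat_lit 524) ln12_16_6 ln12_16_6_ok))))) (M (nat_lit 399) (B (L (nat_lit 400) ln12_13_2 ln12_13_2_ok) (M (nat_lit 364) (B (M (nat_lit 332) (B (L (nat_lit 300) ln12_9_4 ln12_9_4_ok) (L (nat_lit 461) ln12_10_4 ln12_10_4_ok))) (M (nat_lit 398) (B (L (nat_lit 363) ln15_12_3 ln15_12_3_ok) (L (nat_lit 427) ln15_12_1 ln15_12_1_ok)))))))))))))))))) (nat_lit 1386334847544579281930502452632026696468783264124728123740719198963059283254184240648144927045128292788721448874933630659377233920)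 (nat_lit 235872651935775003571918079808486148195968231700287094274221873821466533774247898811327255021491919324783628205563184869902354490046957098019399532514744372969538060288) (nat_lit 235872651935775003571918079808486148195968231700287094274221873821466533774247898811327255021491919324783628205563184869902354490046957098019399532514744372969538060288) (by decide +kernel)
noncomputable def c21_n1591 : Cert := (M (nat_lit 461) (B (M (nat_lit 364) (B (L (nat_lit 493) ln13_15_7 ln13_15_7_ok) (M (nat_lit 332) (B (L (nat_lit 300) ln12_9_4 ln12_9_4_ok) (L (nat_lit 365) ln13_14_7 ln13_14_7_ok))))) (B (M (nat_lit 364) (B (L (nat_lit 493) ln13_15_7 ln13_15_7_ok) (M (nat_lit 332) (B (L (nat_lit 365) ln13_14_7 ln13_14_7_ok) (L (nat_lit 428) ln12_10_4 ln12_10_4_ok))))) (B (M (nat_lit 493) (B (L (nat_lit 364) ln13_15_7 ln13_15_7_ok) (M (nat_lit 525) (B (L (nat_lit 428) ln13_16_7 ln13_16_7_ok) (M (nat_lit 524)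 (B (L (nat_lit 492) ln13_12_5 ln13_12_5_ok) (L (nat_lit 556) ln13_13_5 ln13_13_5_ok))))))) (B (M (nat_lit 493) (B (M (nat_lit 525) (B (L (nat_lit 428) ln13_16_7 ln13_16_7_ok) (M (nat_lit 524) (B (L (nat_lit 492) ln13_12_5 ln13_12_5_ok) (L (nat_lit 556) ln13_13_5 ln13_13_5_ok))))) (B (M (nat_lit 365) (B (M (nat_lit 492) (B (L (nat_lit 460) ln13_11_5 ln13_11_5_ok) (L (nat_lit 524) ln13_12_5 ln13_12_5_ok))) (M (nat_lit 494) (B (L (nat_lit 462) ln13_11_4 ln13_11_4_ok) (L (nat_lit 526) ln13_12_4 ln13_12_4_ok))))) (M (nat_lit 525) (B (L (nat_lit 428) ln13_16_7 ln13_16_7_ok) (M (nat_lit 526) (B (L (nat_lit 494) ln13_12_4 ln13_12_4_ok) (L (nat_lit 558) ln13_13_4 ln13_13_4_ok)))))))) (M (nat_lit 398) (B (M (nat_lit 399) (B (M (nat_lit 428) (B (L (nat_lit 427) ln15_12_1 ln15_12_1_ok) (L (nat_lit 400) ln16_12_1 ln16_12_1_ok))) (M (nat_lit 364) (B (L (nat_lit 363) ln15_12_3 ln15_12_3_ok) (M (nat_lit 332) (B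 (L (nat_lit 300) ln12_9_4 ln12_9_4_ok) (L (nat_lit 365) ln13_14_7 ln13_14_7_ok))))))) (B (M (nat_lit 399) (B (M (nat_lit 428) (B (L (nat_lit 427) ln15_12_1 ln15_12_1_ok) (L (nat_lit 400) ln16_12_1 ln16_12_1_ok))) (M (nat_lit 366) (B (M (nat_lit 334) (B (L (nat_lit 302) ln14_9_5 ln14_9_5_ok) (L (nat_lit 365) ln13_14_6 ln13_14_6_ok))) (M (nat_lit 367) (B (L (nat_lit 395) ln11_12_2 ln11_12_2_ok) (L (nat_lit 368) ln12_12_2 ln12_12_2_ok))))))) (B (M (nat_lit 399) (B (M (nat_lit 428) (B (L (nat_lit 427) ln15_12_1 ln15_12_1_ok) (L (nat_lit 400) ln16_12_1 ln16_12_1_ok))) (M (nat_lit 395) (B (M (nat_lit 363) (B (L (nat_lit 362) ln14_12_3 ln14_12_3_ok) (L (nat_lit 364) ln15_12_3 ln15_12_3_ok))) (M (nat_lit 367) (B (L (nat_lit 366) ln11_12_2 ln11_12_2_ok) (L (nat_lit 368) ln12_12_2 ln12_12_2_ok))))))) (B (M (nat_lit 395) (B (M (nat_lit 366) (B (L (nat_lit 367) ln11_12_2 ln11_12_2_ok) (M (nat_lit 334) (B (L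 (nat_lit 302) ln14_9_5 ln14_9_5_ok) (L (nat_lit 365) ln13_14_6 ln13_14_6_ok))))) (B (M (nat_lit 366) (B (L (nat_lit 367) ln11_12_2 ln11_12_2_ok) (M (nat_lit 365) (B (L (nat_lit 334) ln13_14_6 ln13_14_6_ok) (L (nat_lit 394) ln10_12_2 ln10_12_2_ok))))) (M (nat_lit 394) (B (M (nat_lit 362) (B (L (nat_lit 361) ln13_12_3 ln13_12_3_ok) (L (nat_lit 363) ln14_12_3 ln14_12_3_ok))) (M (nat_lit 426) (B (L (nat_lit 425) ln13_12_1 ln13_12_1_ok) (L (nat_lit 427) ln14_12_1 ln14_12_1_ok)))))))) (M (nat_lit 364) (B (M (nat_lit 332) (B (L (nat_lit 300) ln12_9_4 ln12_9_4_ok) (L (nat_lit 365) ln13_14_7 ln13_14_7_ok))) (B (M (nat_lit 332) (B (L (nat_lit 365) ln13_14_7 ln13_14_7_ok) (L (nat_lit 428) ln12_10_4 ln12_10_4_ok))) (B (M (nat_lit 399) (B (L (nat_lit 363) ln15_12_3 ln15_12_3_ok) (M (nat_lit 400) (B (L (nat_lit 365) ln16_12_3 ln16_12_3_ok) (L (nat_lit 428) ln16_12_1 ln16_12_1_ok))))) (M (nat_lit 332) (B (L (nat_lit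 300) ln12_9_4 ln12_9_4_ok) (L (nat_lit 428) ln12_10_4 ln12_10_4_ok)))))))))))))))))
theorem c21_s1598 : Sem (nat_lit 1386334847383188664550070665778531748218595021979121511688892729411143073470393764272092352380775458208712834410189682411080515584) (nat_lit 1179363258168619532384712631959178277121123228081496521896300748395209014175922919011778458759496714287965879933156440219307224845527126058868099375502118241507337043968) (nat_lit 1179363258168619532384712631959178277121123228081496521896300748395209014175922919011778458759496714287965879933156440219307224845527126058868099375502118241507337043968) :=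
  sem_of_chk (M (nat_lit 396) (B (M (nat_lit 395) (B (M (nat_lit 430) (B (L (nat_lit 394) ln10_12_0 ln10_12_0_ok) (M (nat_lit 431) (B (L (nat_lit 428) ln15_13_3 ln15_13_3_ok) (L (nat_lit 432) ln16_13_3 ln16_13_3_ok))))) (B (M (nat_lit 398) (B (M (nat_lit 427) (B (L (nat_lit 426) ln14_12_1 ln14_12_1_ok) (M (nat_lit 399) (B (L (nat_lit 428) ln15_12_1 ln15_12_1_ok) (M (nat_lit 367) (B (L (nat_lit 366) ln11_12_2 ln11_12_2_ok) (L (nat_lit 368) ln12_12_2 ln12_12_2_ok))))))) (B (M (nat_lit 399) (B (M (nat_lit 427) (B (L (nat_lit 426) ln14_12_1 ln14_12_1_ok) (L (nat_lit 428) ln15_12_1 ln15_12_1_ok))) (M (nat_lit 431) (B (L (nat_lit 430) ln11_12_0 ln11_12_0_ok) (L (nat_lit 432) ln12_12_0 ln12_12_0_ok))))) (M (nat_lit 430) (B (L (nat_lit 431) ln11_12_0 ln11_12_0_ok) (M (nat_lit 366) (B (L (nat_lit 367) ln11_12_2 ln11_12_2_ok) (M (nat_lit 461) (B (L (nat_lit 334) ln14_10_5 ln14_10_5_ok) (L (nat_lit 493) ln13_15_6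 ln13_15_6_ok)))))))))) (B (M (nat_lit 430) (B (L (nat_lit 394) ln10_12_0 ln10_12_0_ok) (M (nat_lit 431) (B (L (nat_lit 398) ln11_12_0 ln11_12_0_ok) (L (nat_lit 432) ln16_13_3 ln16_13_3_ok))))) (M (nat_lit 394) (B (M (nat_lit 393) (B (L (nat_lit 428) ln9_12_0 ln9_12_0_ok) (M (nat_lit 425) (B (L (nat_lit 424) ln12_12_1 ln12_12_1_ok) (L (nat_lit 426) ln13_12_1 ln13_12_1_ok))))) (B (M (nat_lit 398) (B (M (nat_lit 362) (B (L (nat_lit 361) ln13_12_3 ln13_12_3_ok) (L (nat_lit 363) ln14_12_3 ln14_12_3_ok))) (M (nat_lit 426) (B (L (nat_lit 425) ln13_12_1 ln13_12_1_ok) (L (nat_lit 427) ln14_12_1 ln14_12_1_ok))))) (M (nat_lit 393) (B (L (nat_lit 428) ln9_12_0 ln9_12_0_ok) (M (nat_lit 361) (B (L (nat_lit 360) ln12_12_3 ln12_12_3_ok) (L (nat_lit 362) ln13_12_3 ln13_12_3_ok)))))))))))) (B (M (nat_lit 395) (B (M (nat_lit 430) (B (L (nat_lit 394) ln10_12_0 ln10_12_0_ok) (M (nat_lit 431) (B (L (nat_lit 398) ln11_12_0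 ln11_12_0_ok) (L (nat_lit 432) ln16_13_3 ln16_13_3_ok))))) (B (M (nat_lit 430) (B (M (nat_lit 431) (B (L (nat_lit 398) ln11_12_0 ln11_12_0_ok) (L (nat_lit 428) ln15_13_3 ln15_13_3_ok))) (B (M (nat_lit 431) (B (L (nat_lit 428) ln15_13_3 ln15_13_3_ok) (L (nat_lit 432) ln16_13_3 ln16_13_3_ok))) (B (M (nat_lit 431) (B (L (nat_lit 398) ln11_12_0 ln11_12_0_ok) (L (nat_lit 432) ln16_13_3 ln16_13_3_ok))) (M (nat_lit 427) (B (M (nat_lit 426) (B (L (nat_lit 398) ln14_12_1 ln14_12_1_ok) (M (nat_lit 425) (B (L (nat_lit 424) ln8_13_2 ln8_13_2_ok) (L (nat_lit 428) ln9_13_2 ln9_13_2_ok))))) (B (M (nat_lit 428) (B (M (nat_lit 459) (B (L (nat_lit 458) ln14_13_1 ln14_13_1_ok) (M (nat_lit 491) (B (L (nat_lit 364) ln11_15_6 ln11_15_6_ok) (L (nat_lit 523) ln11_16_6 ln11_16_6_ok))))) (B (M (nat_lit 426) (B (L (nat_lit 425) ln9_13_2 ln9_13_2_ok) (M (nat_lit 458) (B (L (nat_lit 457) ln13_13_1 ln13_13_1_ok) (L (nat_lit 459)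 ln14_13_1 ln14_13_1_ok))))) (M (nat_lit 461) (B (M (nat_lit 364) (B (L (nat_lit 332) ln12_10_4 ln12_10_4_ok) (L (nat_lit 493) ln13_15_7 ln13_15_7_ok))) (M (nat_lit 426) (B (L (nat_lit 425) ln9_13_2 ln9_13_2_ok) (L (nat_lit 462) ln10_13_0 ln10_13_0_ok)))))))) (B (M (nat_lit 398) (B (L (nat_lit 426) ln14_12_1 ln14_12_1_ok) (M (nat_lit 399) (B (L (nat_lit 428) ln15_12_1 ln15_12_1_ok) (M (nat_lit 363) (B (L (nat_lit 362) ln14_12_3 ln14_12_3_ok) (L (nat_lit 364) ln15_12_3 ln15_12_3_ok))))))) (B (M (nat_lit 428) (B (M (nat_lit 459) (B (L (nat_lit 458) ln14_13_1 ln14_13_1_ok) (M (nat_lit 364) (B (L (nat_lit 332) ln12_10_5 ln12_10_5_ok) (L (nat_lit 491) ln11_15_6 ln11_15_6_ok))))) (M (nat_lit 363) (B (M (nat_lit 331) (B (L (nat_lit 299) ln11_9_4 ln11_9_4_ok) (L (nat_lit 460) ln11_10_4 ln11_10_4_ok))) (M (nat_lit 398) (B (L (nat_lit 362) ln14_12_3 ln14_12_3_ok) (L (nat_lit 399) ln15_12_1 ln15_12_1_ok)))))))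 (M (nat_lit 398) (B (L (nat_lit 426) ln14_12_1 ln14_12_1_ok) (M (nat_lit 399) (B (M (nat_lit 363) (B (L (nat_lit 362) ln14_12_3 ln14_12_3_ok) (L (nat_lit 364) ln15_12_3 ln15_12_3_ok))) (M (nat_lit 367) (B (L (nat_lit 366) ln11_12_2 ln11_12_2_ok) (L (nat_lit 368) ln12_12_2 ln12_12_2_ok)))))))))))))))) (B (M (nat_lit 430) (B (L (nat_lit 394) ln10_12_0 ln10_12_0_ok) (M (nat_lit 431) (B (L (nat_lit 428) ln15_13_3 ln15_13_3_ok) (L (nat_lit 432) ln16_13_3 ln16_13_3_ok))))) (M (nat_lit 394) (B (M (nat_lit 393) (B (L (nat_lit 428) ln9_12_0 ln9_12_0_ok) (M (nat_lit 425) (B (L (nat_lit 424) ln12_12_1 ln12_12_1_ok) (L (nat_lit 426) ln13_12_1 ln13_12_1_ok))))) (B (M (nat_lit 398) (B (M (nat_lit 362) (B (L (nat_lit 361) ln13_12_3 ln13_12_3_ok) (L (nat_lit 363) ln14_12_3 ln14_12_3_ok))) (M (nat_lit 426) (B (L (nat_lit 425) ln13_12_1 ln13_12_1_ok) (L (nat_lit 427) ln14_12_1 ln14_12_1_ok))))) (M (nat_lit 393) (B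 (L (nat_lit 428) ln9_12_0 ln9_12_0_ok) (M (nat_lit 361) (B (L (nat_lit 360) ln12_12_3 ln12_12_3_ok) (L (nat_lit 362) ln13_12_3 ln13_12_3_ok)))))))))))) (B (M (nat_lit 398) (B (M (nat_lit 399) (B (M (nat_lit 428) (B (L (nat_lit 427) ln15_12_1 ln15_12_1_ok) (L (nat_lit 400) ln16_12_1 ln16_12_1_ok))) (M (nat_lit 395) (B (M (nat_lit 363) (B (L (nat_lit 362) ln14_12_3 ln14_12_3_ok) (L (nat_lit 364) ln15_12_3 ln15_12_3_ok))) (M (nat_lit 367) (B (L (nat_lit 366) ln11_12_2 ln11_12_2_ok) (L (nat_lit 368) ln12_12_2 ln12_12_2_ok))))))) (B (M (nat_lit 399) (B (M (nat_lit 428) (B (L (nat_lit 427) ln15_12_1 ln15_12_1_ok) (L (nat_lit 400) ln16_12_1 ln16_12_1_ok))) (M (nat_lit 395) (B (M (nat_lit 367) (B (L (nat_lit 366) ln11_12_2 ln11_12_2_ok) (L (nat_lit 368) ln12_12_2 ln12_12_2_ok))) (M (nat_lit 431) (B (L (nat_lit 430) ln11_12_0 ln11_12_0_ok) (L (nat_lit 432) ln12_12_0 ln12_12_0_ok))))))) (B (M (nat_lit 399)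 (B (M (nat_lit 428) (B (L (nat_lit 427) ln15_12_1 ln15_12_1_ok) (L (nat_lit 400) ln16_12_1 ln16_12_1_ok))) (M (nat_lit 395) (B (M (nat_lit 363) (B (L (nat_lit 362) ln14_12_3 ln14_12_3_ok) (L (nat_lit 364) ln15_12_3 ln15_12_3_ok))) (M (nat_lit 431) (B (L (nat_lit 430) ln11_12_0 ln11_12_0_ok) (L (nat_lit 432) ln12_12_0 ln12_12_0_ok))))))) (B (M (nat_lit 364) (B (M (nat_lit 399) (B (L (nat_lit 363) ln15_12_3 ln15_12_3_ok) (M (nat_lit 400) (B (L (nat_lit 365) ln16_12_3 ln16_12_3_ok) (L (nat_lit 428) ln16_12_1 ln16_12_1_ok))))) (B (M (nat_lit 332) (B (L (nat_lit 300) ln12_9_4 ln12_9_4_ok) (M (nat_lit 461) (B (L (nat_lit 365) ln13_14_7 ln13_14_7_ok) (L (nat_lit 493) ln13_15_7 ln13_15_7_ok))))) (M (nat_lit 332) (B (L (nat_lit 300) ln12_9_4 ln12_9_4_ok) (M (nat_lit 461) (B (L (nat_lit 428) ln12_10_4 ln12_10_4_ok) (L (nat_lit 493) ln13_15_7 ln13_15_7_ok)))))))) (M (nat_lit 366) (B (M (nat_lit 395) (B (L (nat_lit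 367) ln11_12_2 ln11_12_2_ok) (M (nat_lit 394) (B (L (nat_lit 365) ln10_12_2 ln10_12_2_ok) (L (nat_lit 430) ln10_12_0 ln10_12_0_ok))))) (B (M (nat_lit 395) (B (L (nat_lit 367) ln11_12_2 ln11_12_2_ok) (M (nat_lit 430) (B (L (nat_lit 394) ln10_12_0 ln10_12_0_ok) (L (nat_lit 431) ln11_12_0 ln11_12_0_ok))))) (B (M (nat_lit 461) (B (L (nat_lit 493) ln13_15_6 ln13_15_6_ok) (M (nat_lit 334) (B (L (nat_lit 365) ln13_14_6 ln13_14_6_ok) (L (nat_lit 430) ln14_10_5 ln14_10_5_ok))))) (M (nat_lit 367) (B (L (nat_lit 395) ln11_12_2 ln11_12_2_ok) (M (nat_lit 368) (B (L (nat_lit 365) ln16_11_1 ln16_11_1_ok) (L (nat_lit 369) ln17_11_1 ln17_11_1_ok)))))))))))))) (B (M (nat_lit 398) (B (M (nat_lit 366) (B (M (nat_lit 395) (B (L (nat_lit 367) ln11_12_2 ln11_12_2_ok) (M (nat_lit 394) (B (L (nat_lit 365) ln10_12_2 ln10_12_2_ok) (L (nat_lit 430) ln10_12_0 ln10_12_0_ok))))) (B (M (nat_lit 395) (B (L (nat_lit 367) ln11_12_2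 ln11_12_2_ok) (M (nat_lit 430) (B (L (nat_lit 394) ln10_12_0 ln10_12_0_ok) (L (nat_lit 431) ln11_12_0 ln11_12_0_ok))))) (B (M (nat_lit 461) (B (L (nat_lit 493) ln13_15_6 ln13_15_6_ok) (M (nat_lit 334) (B (L (nat_lit 365) ln13_14_6 ln13_14_6_ok) (L (nat_lit 430) ln14_10_5 ln14_10_5_ok))))) (M (nat_lit 367) (B (L (nat_lit 395) ln11_12_2 ln11_12_2_ok) (M (nat_lit 368) (B (L (nat_lit 365) ln16_11_1 ln16_11_1_ok) (L (nat_lit 369) ln17_11_1 ln17_11_1_ok))))))))) (B (M (nat_lit 364) (B (M (nat_lit 332) (B (L (nat_lit 300) ln12_9_4 ln12_9_4_ok) (M (nat_lit 461) (B (L (nat_lit 428) ln12_10_4 ln12_10_4_ok) (L (nat_lit 493) ln13_15_7 ln13_15_7_ok))))) (B (M (nat_lit 399) (B (L (nat_lit 363) ln15_12_3 ln15_12_3_ok) (M (nat_lit 400) (B (L (nat_lit 365) ln16_12_3 ln16_12_3_ok) (L (nat_lit 428) ln16_12_1 ln16_12_1_ok))))) (M (nat_lit 332) (B (L (nat_lit 300) ln12_9_4 ln12_9_4_ok) (M (nat_lit 461) (B (L (nat_lit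 365) ln13_14_7 ln13_14_7_ok) (L (nat_lit 493) ln13_15_7 ln13_15_7_ok)))))))) (M (nat_lit 399) (B (M (nat_lit 428) (B (L (nat_lit 427) ln15_12_1 ln15_12_1_ok) (L (nat_lit 400) ln16_12_1 ln16_12_1_ok))) (M (nat_lit 395) (B (M (nat_lit 367) (B (L (nat_lit 366) ln11_12_2 ln11_12_2_ok) (L (nat_lit 368) ln12_12_2 ln12_12_2_ok))) (M (nat_lit 431) (B (L (nat_lit 430) ln11_12_0 ln11_12_0_ok) (L (nat_lit 432) ln12_12_0 ln12_12_0_ok)))))))))) (B (M (nat_lit 395) (B (M (nat_lit 430) (B (L (nat_lit 394) ln10_12_0 ln10_12_0_ok) (M (nat_lit 431) (B (L (nat_lit 428) ln15_13_3 ln15_13_3_ok) (L (nat_lit 432) ln16_13_3 ln16_13_3_ok))))) (B (M (nat_lit 398) (B (M (nat_lit 366) (B (L (nat_lit 367) ln11_12_2 ln11_12_2_ok) (M (nat_lit 461) (B (L (nat_lit 493) ln13_15_6 ln13_15_6_ok) (M (nat_lit 334) (B (L (nat_lit 302) ln14_9_5 ln14_9_5_ok) (L (nat_lit 365) ln13_14_6 ln13_14_6_ok))))))) (B (M (nat_lit 427) (B (L (nat_lit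 426) ln14_12_1 ln14_12_1_ok) (M (nat_lit 399) (B (L (nat_lit 428) ln15_12_1 ln15_12_1_ok) (M (nat_lit 367) (B (L (nat_lit 366) ln11_12_2 ln11_12_2_ok) (L (nat_lit 368) ln12_12_2 ln12_12_2_ok))))))) (M (nat_lit 399) (B (M (nat_lit 427) (B (L (nat_lit 426) ln14_12_1 ln14_12_1_ok) (L (nat_lit 428) ln15_12_1 ln15_12_1_ok))) (M (nat_lit 431) (B (L (nat_lit 430) ln11_12_0 ln11_12_0_ok) (L (nat_lit 432) ln12_12_0 ln12_12_0_ok)))))))) (B (M (nat_lit 430) (B (L (nat_lit 394) ln10_12_0 ln10_12_0_ok) (M (nat_lit 431) (B (L (nat_lit 398) ln11_12_0 ln11_12_0_ok) (L (nat_lit 432) ln16_13_3 ln16_13_3_ok))))) (M (nat_lit 394) (B (M (nat_lit 393) (B (L (nat_lit 428) ln9_12_0 ln9_12_0_ok) (M (nat_lit 365) (B (L (nat_lit 364) ln9_12_2 ln9_12_2_ok) (L (nat_lit 366) ln10_12_2 ln10_12_2_ok))))) (B (M (nat_lit 393) (B (L (nat_lit 428) ln9_12_0 ln9_12_0_ok) (M (nat_lit 361) (B (L (nat_lit 360) ln12_12_3 ln12_12_3_ok) (L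 (nat_lit 362) ln13_12_3 ln13_12_3_ok))))) (M (nat_lit 398) (B (M (nat_lit 366) (B (L (nat_lit 365) ln10_12_2 ln10_12_2_ok) (L (nat_lit 367) ln11_12_2 ln11_12_2_ok))) (M (nat_lit 426) (B (L (nat_lit 425) ln13_12_1 ln13_12_1_ok) (L (nat_lit 427) ln14_12_1 ln14_12_1_ok)))))))))))) (B (K (nat_lit 1386334847544579281930502452632026696468783264124728123740719198963059283254184240648144927045128292788721448874933630659377233920) (nat_lit 384428669063214259528138635997097480931452915210938805225999093418611067567746131113656508160017959757876540104481607552405195239170929541440762536232239497216) (nat_lit 384428669063214259528138635997097480931452915210938805225999093418611067567746131113656508160017959757876540104481607552405195239170929541440762536232239497216) c21_s1203) (B (M (nat_lit 398) (B (M (nat_lit 364) (B (M (nat_lit 332) (B (L (nat_lit 300) ln12_9_4 ln12_9_4_ok) (M (nat_lit 461) (B (L (nat_lit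 428) ln12_10_4 ln12_10_4_ok) (L (nat_lit 493) ln13_15_7 ln13_15_7_ok))))) (B (M (nat_lit 399) (B (L (nat_lit 363) ln15_12_3 ln15_12_3_ok) (M (nat_lit 400) (B (L (nat_lit 365) ln16_12_3 ln16_12_3_ok) (L (nat_lit 428) ln16_12_1 ln16_12_1_ok))))) (M (nat_lit 332) (B (L (nat_lit 300) ln12_9_4 ln12_9_4_ok) (M (nat_lit 461) (B (L (nat_lit 365) ln13_14_7 ln13_14_7_ok) (L (nat_lit 493) ln13_15_7 ln13_15_7_ok)))))))) (B (M (nat_lit 364) (B (M (nat_lit 399) (B (L (nat_lit 363) ln15_12_3 ln15_12_3_ok) (M (nat_lit 400) (B (L (nat_lit 365) ln16_12_3 ln16_12_3_ok) (L (nat_lit 428) ln16_12_1 ln16_12_1_ok))))) (B (M (nat_lit 461) (B (L (nat_lit 493) ln13_15_7 ln13_15_7_ok) (M (nat_lit 332) (B (L (nat_lit 365) ln13_14_7 ln13_14_7_ok) (L (nat_lit 428) ln12_10_4 ln12_10_4_ok))))) (M (nat_lit 363) (B (L (nat_lit 399) ln15_12_3 ln15_12_3_ok) (M (nat_lit 362) (B (L (nat_lit 361) ln9_11_0 ln9_11_0_ok) (L (nat_lit 395)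 ln14_12_3 ln14_12_3_ok)))))))) (B (M (nat_lit 399) (B (M (nat_lit 428) (B (L (nat_lit 427) ln15_12_1 ln15_12_1_ok) (L (nat_lit 400) ln16_12_1 ln16_12_1_ok))) (M (nat_lit 395) (B (M (nat_lit 363) (B (L (nat_lit 362) ln14_12_3 ln14_12_3_ok) (L (nat_lit 364) ln15_12_3 ln15_12_3_ok))) (M (nat_lit 431) (B (L (nat_lit 430) ln11_12_0 ln11_12_0_ok) (L (nat_lit 432) ln12_12_0 ln12_12_0_ok))))))) (M (nat_lit 366) (B (M (nat_lit 367) (B (L (nat_lit 395) ln11_12_2 ln11_12_2_ok) (M (nat_lit 368) (B (L (nat_lit 365) ln16_11_1 ln16_11_1_ok) (L (nat_lit 369) ln17_11_1 ln17_11_1_ok))))) (M (nat_lit 334) (B (L (nat_lit 302) ln14_9_5 ln14_9_5_ok) (M (nat_lit 461) (B (L (nat_lit 430) ln14_10_5 ln14_10_5_ok) (L (nat_lit 493) ln13_15_6 ln13_15_6_ok))))))))))) (B (K (nat_lit 1386334847544579281930502452632026696468783264124728123740719198963059283254184240648144927045128292788721448874933630659377233920) (nat_lit 235872651935775003571918079808486148195968231700287094274221873821466533774247898811327255021491919324783628205563184869902354490046957098019399532514744372969538060288)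 (nat_lit 235872651935775003571918079808486148195968231700287094274221873821466533774247898811327255021491919324783628205563184869902354490046957098019399532514744372969538060288) c21_s1473) (B (M (nat_lit 461) (B (M (nat_lit 364) (B (L (nat_lit 493) ln13_15_7 ln13_15_7_ok) (M (nat_lit 332) (B (L (nat_lit 365) ln13_14_7 ln13_14_7_ok) (L (nat_lit 428) ln12_10_4 ln12_10_4_ok))))) (B (M (nat_lit 493) (B (L (nat_lit 364) ln13_15_7 ln13_15_7_ok) (M (nat_lit 525) (B (L (nat_lit 428) ln13_16_7 ln13_16_7_ok) (M (nat_lit 524) (B (L (nat_lit 492) ln13_12_5 ln13_12_5_ok) (L (nat_lit 556) ln13_13_5 ln13_13_5_ok))))))) (B (M (nat_lit 493) (B (M (nat_lit 525) (B (L (nat_lit 428) ln13_16_7 ln13_16_7_ok) (M (nat_lit 524) (B (L (nat_lit 492) ln13_12_5 ln13_12_5_ok) (L (nat_lit 556) ln13_13_5 ln13_13_5_ok))))) (B (M (nat_lit 365) (B (M (nat_lit 492) (B (L (nat_lit 460) ln13_11_5 ln13_11_5_ok) (L (nat_lit 524) ln13_12_5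 ln13_12_5_ok))) (M (nat_lit 494) (B (L (nat_lit 462) ln13_11_4 ln13_11_4_ok) (L (nat_lit 526) ln13_12_4 ln13_12_4_ok))))) (M (nat_lit 525) (B (L (nat_lit 428) ln13_16_7 ln13_16_7_ok) (M (nat_lit 526) (B (L (nat_lit 494) ln13_12_4 ln13_12_4_ok) (L (nat_lit 558) ln13_13_4 ln13_13_4_ok)))))))) (B (M (nat_lit 364) (B (L (nat_lit 493) ln13_15_7 ln13_15_7_ok) (M (nat_lit 332) (B (L (nat_lit 300) ln12_9_4 ln12_9_4_ok) (L (nat_lit 365) ln13_14_7 ln13_14_7_ok))))) (M (nat_lit 364) (B (M (nat_lit 332) (B (L (nat_lit 300) ln12_9_4 ln12_9_4_ok) (L (nat_lit 365) ln13_14_7 ln13_14_7_ok))) (B (M (nat_lit 332) (B (L (nat_lit 365) ln13_14_7 ln13_14_7_ok) (L (nat_lit 428) ln12_10_4 ln12_10_4_ok))) (B (M (nat_lit 460) (B (M (nat_lit 492) (B (L (nat_lit 365) ln13_11_5 ln13_11_5_ok) (M (nat_lit 524) (B (L (nat_lit 428) ln12_16_6 ln12_16_6_ok) (L (nat_lit 556) ln12_17_6 ln12_17_6_ok))))) (B (M (nat_lit 428) (B (M (nat_lit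 459) (B (L (nat_lit 491) ln12_11_5 ln12_11_5_ok) (M (nat_lit 430) (B (L (nat_lit 431) ln15_13_1 ln15_13_1_ok) (L (nat_lit 458) ln10_14_2 ln10_14_2_ok))))) (M (nat_lit 492) (B (L (nat_lit 524) ln12_16_6 ln12_16_6_ok) (M (nat_lit 363) (B (L (nat_lit 331) ln12_14_7 ln12_14_7_ok) (L (nat_lit 395) ln12_15_7 ln12_15_7_ok))))))) (B (M (nat_lit 365) (B (L (nat_lit 492) ln13_11_5 ln13_11_5_ok) (M (nat_lit 366) (B (L (nat_lit 334) ln13_14_6 ln13_14_6_ok) (M (nat_lit 367) (B (L (nat_lit 395) ln15_11_1 ln15_11_1_ok) (L (nat_lit 368) ln16_11_1 ln16_11_1_ok))))))) (M (nat_lit 459) (B (M (nat_lit 430) (B (L (nat_lit 458) ln10_14_2 ln10_14_2_ok) (M (nat_lit 428) (B (L (nat_lit 491) ln12_11_5 ln12_11_5_ok) (L (nat_lit 431) ln15_13_1 ln15_13_1_ok))))) (B (M (nat_lit 430) (B (L (nat_lit 458) ln10_14_2 ln10_14_2_ok) (M (nat_lit 431) (B (L (nat_lit 432) ln16_13_3 ln16_13_3_ok) (L (nat_lit 462) ln11_14_2 ln11_14_2_ok)))))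 (M (nat_lit 462) (B (M (nat_lit 491) (B (L (nat_lit 428) ln12_11_5 ln12_11_5_ok) (L (nat_lit 490) ln14_14_1 ln14_14_1_ok))) (M (nat_lit 494) (B (L (nat_lit 365) ln13_11_4 ln13_11_4_ok) (L (nat_lit 495) ln11_14_0 ln11_14_0_ok)))))))))))) (M (nat_lit 332) (B (L (nat_lit 300) ln12_9_4 ln12_9_4_ok) (L (nat_lit 428) ln12_10_4 ln12_10_4_ok)))))))))))) (B (M (nat_lit 395) (B (M (nat_lit 430) (B (L (nat_lit 394) ln10_12_0 ln10_12_0_ok) (M (nat_lit 431) (B (L (nat_lit 398) ln11_12_0 ln11_12_0_ok) (L (nat_lit 432) ln16_13_3 ln16_13_3_ok))))) (B (M (nat_lit 398) (B (M (nat_lit 430) (B (L (nat_lit 431) ln11_12_0 ln11_12_0_ok) (M (nat_lit 366) (B (L (nat_lit 367) ln11_12_2 ln11_12_2_ok) (M (nat_lit 461) (B (L (nat_lit 334) ln14_10_5 ln14_10_5_ok) (L (nat_lit 493) ln13_15_6 ln13_15_6_ok))))))) (B (M (nat_lit 399) (B (M (nat_lit 363) (B (L (nat_lit 362) ln14_12_3 ln14_12_3_ok) (L (nat_lit 364) ln15_12_3 ln15_12_3_ok)))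 (M (nat_lit 431) (B (L (nat_lit 430) ln11_12_0 ln11_12_0_ok) (L (nat_lit 432) ln12_12_0 ln12_12_0_ok))))) (M (nat_lit 366) (B (L (nat_lit 367) ln11_12_2 ln11_12_2_ok) (M (nat_lit 461) (B (L (nat_lit 493) ln13_15_6 ln13_15_6_ok) (M (nat_lit 334) (B (L (nat_lit 302) ln14_9_5 ln14_9_5_ok) (L (nat_lit 365) ln13_14_6 ln13_14_6_ok)))))))))) (B (M (nat_lit 394) (B (L (nat_lit 430) ln10_12_0 ln10_12_0_ok) (M (nat_lit 393) (B (M (nat_lit 361) (B (L (nat_lit 360) ln12_12_3 ln12_12_3_ok) (L (nat_lit 362) ln13_12_3 ln13_12_3_ok))) (M (nat_lit 365) (B (L (nat_lit 364) ln9_12_2 ln9_12_2_ok) (L (nat_lit 366) ln10_12_2 ln10_12_2_ok))))))) (M (nat_lit 398) (B (M (nat_lit 366) (B (L (nat_lit 367) ln11_12_2 ln11_12_2_ok) (M (nat_lit 461) (B (L (nat_lit 493) ln13_15_6 ln13_15_6_ok) (M (nat_lit 334) (B (L (nat_lit 302) ln14_9_5 ln14_9_5_ok) (L (nat_lit 365) ln13_14_6 ln13_14_6_ok))))))) (B (M (nat_lit 394) (B (M (nat_lit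 362) (B (L (nat_lit 361) ln13_12_3 ln13_12_3_ok) (L (nat_lit 363) ln14_12_3 ln14_12_3_ok))) (M (nat_lit 366) (B (L (nat_lit 365) ln10_12_2 ln10_12_2_ok) (L (nat_lit 367) ln11_12_2 ln11_12_2_ok))))) (M (nat_lit 394) (B (M (nat_lit 362) (B (L (nat_lit 361) ln13_12_3 ln13_12_3_ok) (L (nat_lit 363) ln14_12_3 ln14_12_3_ok))) (M (nat_lit 426) (B (L (nat_lit 425) ln13_12_1 ln13_12_1_ok) (L (nat_lit 427) ln14_12_1 ln14_12_1_ok)))))))))))) (B c21_n1591 (M (nat_lit 395) (B (M (nat_lit 430) (B (L (nat_lit 394) ln10_12_0 ln10_12_0_ok) (M (nat_lit 431) (B (L (nat_lit 398) ln11_12_0 ln11_12_0_ok) (L (nat_lit 432) ln16_13_3 ln16_13_3_ok))))) (B (M (nat_lit 398) (B (M (nat_lit 427) (B (L (nat_lit 426) ln14_12_1 ln14_12_1_ok) (M (nat_lit 399) (B (L (nat_lit 428) ln15_12_1 ln15_12_1_ok) (M (nat_lit 363) (B (L (nat_lit 362) ln14_12_3 ln14_12_3_ok) (L (nat_lit 364) ln15_12_3 ln15_12_3_ok))))))) (B (M (nat_lit 427) (B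 (L (nat_lit 426) ln14_12_1 ln14_12_1_ok) (M (nat_lit 399) (B (L (nat_lit 428) ln15_12_1 ln15_12_1_ok) (M (nat_lit 367) (B (L (nat_lit 366) ln11_12_2 ln11_12_2_ok) (L (nat_lit 368) ln12_12_2 ln12_12_2_ok))))))) (B (M (nat_lit 427) (B (L (nat_lit 426) ln14_12_1 ln14_12_1_ok) (M (nat_lit 428) (B (M (nat_lit 363) (B (L (nat_lit 362) ln14_12_3 ln14_12_3_ok) (M (nat_lit 460) (B (L (nat_lit 331) ln11_10_4 ln11_10_4_ok) (L (nat_lit 492) ln12_15_7 ln12_15_7_ok))))) (M (nat_lit 459) (B (M (nat_lit 491) (B (L (nat_lit 364) ln11_15_6 ln11_15_6_ok) (L (nat_lit 523) ln11_16_6 ln11_16_6_ok))) (M (nat_lit 430) (B (L (nat_lit 431) ln11_12_0 ln11_12_0_ok) (L (nat_lit 458) ln14_13_1 ln14_13_1_ok))))))))) (M (nat_lit 399) (B (M (nat_lit 363) (B (L (nat_lit 362) ln14_12_3 ln14_12_3_ok) (L (nat_lit 364) ln15_12_3 ln15_12_3_ok))) (M (nat_lit 367) (B (L (nat_lit 366) ln11_12_2 ln11_12_2_ok) (L (nat_lit 368) ln12_12_2 ln12_12_2_ok)))))))))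 (B (M (nat_lit 430) (B (L (nat_lit 394) ln10_12_0 ln10_12_0_ok) (M (nat_lit 431) (B (L (nat_lit 428) ln15_13_3 ln15_13_3_ok) (L (nat_lit 432) ln16_13_3 ln16_13_3_ok))))) (M (nat_lit 394) (B (M (nat_lit 393) (B (L (nat_lit 428) ln9_12_0 ln9_12_0_ok) (M (nat_lit 425) (B (L (nat_lit 424) ln12_12_1 ln12_12_1_ok) (L (nat_lit 426) ln13_12_1 ln13_12_1_ok))))) (B (M (nat_lit 398) (B (M (nat_lit 362) (B (L (nat_lit 361) ln13_12_3 ln13_12_3_ok) (L (nat_lit 363) ln14_12_3 ln14_12_3_ok))) (M (nat_lit 426) (B (L (nat_lit 425) ln13_12_1 ln13_12_1_ok) (L (nat_lit 427) ln14_12_1 ln14_12_1_ok))))) (M (nat_lit 393) (B (L (nat_lit 428) ln9_12_0 ln9_12_0_ok) (M (nat_lit 361) (B (L (nat_lit 360) ln12_12_3 ln12_12_3_ok) (L (nat_lit 362) ln13_12_3 ln13_12_3_ok)))))))))))))))))))))))) (nat_lit 1386334847383188664550070665778531748218595021979121511688892729411143073470393764272092352380775458208712834410189682411080515584)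 (nat_lit 1179363258168619532384712631959178277121123228081496521896300748395209014175922919011778458759496714287965879933156440219307224845527126058868099375502118241507337043968) (nat_lit 1179363258168619532384712631959178277121123228081496521896300748395209014175922919011778458759496714287965879933156440219307224845527126058868099375502118241507337043968) (by decide +kernel)
theorem c21_s1767 : Sem (nat_lit 1386334847383188664681589050413866408980405935399324385221930952150008986230002058677896057787193531042679978319736729780868874240) (nat_lit 54918381293831559793113753381556402520356208247273404649119635723251350145767299305807452793346824750956926120794173394051172912657611367444480451246041333760) (nat_lit 54918381293831559793113753381556402520356208247273404649119635723251350145767299305807452793346824750956926120794173394051172912657611367444480451246041333760) :=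
  sem_of_chk (M (nat_lit 395) (B (M (nat_lit 394) (B (L (nat_lit 366) ln14_11_1 ln14_11_1_ok) (M (nat_lit 393) (B (L (nat_lit 392) ln8_12_2 ln8_12_2_ok) (L (nat_lit 396) ln9_12_2 ln9_12_2_ok))))) (B (M (nat_lit 428) (B (M (nat_lit 460) (B (M (nat_lit 331) (B (L (nat_lit 396) ln12_14_7 ln12_14_7_ok) (L (nat_lit 427) ln11_10_4 ln11_10_4_ok))) (B (M (nat_lit 492) (B (L (nat_lit 396) ln12_15_7 ln12_15_7_ok) (L (nat_lit 461) ln13_11_5 ln13_11_5_ok))) (M (nat_lit 492) (B (L (nat_lit 461) ln13_11_5 ln13_11_5_ok) (L (nat_lit 524) ln12_16_6 ln12_16_6_ok)))))) (B (M (nat_lit 394) (B (M (nat_lit 393) (B (L (nat_lit 392) ln8_12_2 ln8_12_2_ok) (L (nat_lit 396) ln9_12_2 ln9_12_2_ok))) (B (M (nat_lit 396) (B (L (nat_lit 393) ln9_12_2 ln9_12_2_ok) (L (nat_lit 430) ln10_12_0 ln10_12_0_ok))) (B (M (nat_lit 430) (B (L (nat_lit 396) ln10_12_0 ln10_12_0_ok) (L (nat_lit 427) ln14_13_3 ln14_13_3_ok))) (M (nat_lit 393)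 (B (L (nat_lit 392) ln8_12_2 ln8_12_2_ok) (M (nat_lit 427) (B (L (nat_lit 426) ln13_13_3 ln13_13_3_ok) (L (nat_lit 430) ln14_13_3 ln14_13_3_ok))))))))) (B (M (nat_lit 427) (B (M (nat_lit 398) (B (L (nat_lit 426) ln10_13_2 ln10_13_2_ok) (M (nat_lit 399) (B (L (nat_lit 400) ln16_12_3 ln16_12_3_ok) (L (nat_lit 430) ln11_13_2 ln11_13_2_ok))))) (M (nat_lit 460) (B (L (nat_lit 331) ln11_10_4 ln11_10_4_ok) (M (nat_lit 492) (B (L (nat_lit 459) ln11_11_4 ln11_11_4_ok) (L (nat_lit 461) ln13_11_5 ln13_11_5_ok))))))) (M (nat_lit 396) (B (M (nat_lit 460) (B (L (nat_lit 331) ln12_14_7 ln12_14_7_ok) (L (nat_lit 492) ln12_15_7 ln12_15_7_ok))) (M (nat_lit 394) (B (L (nat_lit 393) ln9_12_2 ln9_12_2_ok) (L (nat_lit 430) ln10_12_0 ln10_12_0_ok))))))))) (B (M (nat_lit 394) (B (L (nat_lit 366) ln14_11_1 ln14_11_1_ok) (M (nat_lit 396) (B (L (nat_lit 393) ln9_12_2 ln9_12_2_ok) (L (nat_lit 430) ln10_12_0 ln10_12_0_ok)))))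 (B (M (nat_lit 394) (B (L (nat_lit 366) ln14_11_1 ln14_11_1_ok) (M (nat_lit 428) (B (M (nat_lit 430) (B (L (nat_lit 396) ln10_12_0 ln10_12_0_ok) (L (nat_lit 427) ln14_13_3 ln14_13_3_ok))) (B (M (nat_lit 460) (B (M (nat_lit 427) (B (L (nat_lit 331) ln11_10_4 ln11_10_4_ok) (L (nat_lit 430) ln14_13_3 ln14_13_3_ok))) (M (nat_lit 492) (B (L (nat_lit 461) ln13_11_5 ln13_11_5_ok) (L (nat_lit 524) ln12_16_6 ln12_16_6_ok))))) (B (M (nat_lit 396) (B (L (nat_lit 430) ln10_12_0 ln10_12_0_ok) (M (nat_lit 331) (B (L (nat_lit 299) ln11_9_4 ln11_9_4_ok) (L (nat_lit 460) ln12_14_7 ln12_14_7_ok))))) (M (nat_lit 460) (B (M (nat_lit 331) (B (L (nat_lit 396) ln12_14_7 ln12_14_7_ok) (L (nat_lit 427) ln11_10_4 ln11_10_4_ok))) (B (M (nat_lit 492) (B (L (nat_lit 396) ln12_15_7 ln12_15_7_ok) (L (nat_lit 461) ln13_11_5 ln13_11_5_ok))) (M (nat_lit 492) (B (L (nat_lit 461) ln13_11_5 ln13_11_5_ok) (L (nat_lit 524) ln12_16_6 ln12_16_6_ok))))))))))))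 (B (M (nat_lit 427) (B (M (nat_lit 398) (B (M (nat_lit 399) (B (L (nat_lit 366) ln11_11_0 ln11_11_0_ok) (L (nat_lit 396) ln15_12_3 ln15_12_3_ok))) (B (M (nat_lit 399) (B (L (nat_lit 396) ln15_12_3 ln15_12_3_ok) (L (nat_lit 400) ln16_12_3 ln16_12_3_ok))) (B (M (nat_lit 399) (B (L (nat_lit 366) ln11_11_0 ln11_11_0_ok) (L (nat_lit 400) ln16_12_3 ln16_12_3_ok))) (M (nat_lit 426) (B (L (nat_lit 396) ln14_12_1 ln14_12_1_ok) (L (nat_lit 428) ln10_13_2 ln10_13_2_ok))))))) (B (M (nat_lit 398) (B (M (nat_lit 399) (B (L (nat_lit 396) ln15_12_3 ln15_12_3_ok) (L (nat_lit 400) ln16_12_3 ln16_12_3_ok))) (B (M (nat_lit 399) (B (L (nat_lit 400) ln16_12_3 ln16_12_3_ok) (M (nat_lit 428) (B (L (nat_lit 426) ln10_13_2 ln10_13_2_ok) (L (nat_lit 430) ln11_13_2 ln11_13_2_ok))))) (M (nat_lit 426) (B (L (nat_lit 396) ln14_12_1 ln14_12_1_ok) (L (nat_lit 428) ln10_13_2 ln10_13_2_ok)))))) (B (M (nat_lit 398) (B (M (nat_lit 399)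 (B (L (nat_lit 366) ln11_11_0 ln11_11_0_ok) (L (nat_lit 400) ln16_12_3 ln16_12_3_ok))) (B (M (nat_lit 399) (B (L (nat_lit 400) ln16_12_3 ln16_12_3_ok) (M (nat_lit 428) (B (L (nat_lit 426) ln10_13_2 ln10_13_2_ok) (L (nat_lit 430) ln11_13_2 ln11_13_2_ok))))) (M (nat_lit 331) (B (M (nat_lit 330) (B (L (nat_lit 298) ln11_13_7 ln11_13_7_ok) (L (nat_lit 366) ln14_11_3 ln14_11_3_ok))) (M (nat_lit 428) (B (L (nat_lit 460) ln11_10_4 ln11_10_4_ok) (L (nat_lit 426) ln10_13_2 ln10_13_2_ok)))))))) (B (M (nat_lit 331) (B (M (nat_lit 330) (B (L (nat_lit 298) ln11_13_7 ln11_13_7_ok) (L (nat_lit 366) ln14_11_3 ln14_11_3_ok))) (M (nat_lit 460) (B (L (nat_lit 428) ln11_10_4 ln11_10_4_ok) (M (nat_lit 492) (B (L (nat_lit 459) ln11_11_4 ln11_11_4_ok) (L (nat_lit 461) ln13_11_5 ln13_11_5_ok))))))) (M (nat_lit 398) (B (M (nat_lit 399) (B (L (nat_lit 366) ln11_11_0 ln11_11_0_ok) (L (nat_lit 396) ln15_12_3 ln15_12_3_ok)))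 (B (M (nat_lit 396) (B (L (nat_lit 399) ln15_12_3 ln15_12_3_ok) (L (nat_lit 426) ln14_12_1 ln14_12_1_ok))) (B (M (nat_lit 399) (B (L (nat_lit 366) ln11_11_0 ln11_11_0_ok) (L (nat_lit 400) ln16_12_3 ln16_12_3_ok))) (M (nat_lit 331) (B (M (nat_lit 330) (B (L (nat_lit 298) ln11_13_7 ln11_13_7_ok) (L (nat_lit 366) ln14_11_3 ln14_11_3_ok))) (M (nat_lit 426) (B (L (nat_lit 458) ln11_10_5 ln11_10_5_ok) (L (nat_lit 396) ln14_12_1 ln14_12_1_ok)))))))))))))) (M (nat_lit 427) (B (M (nat_lit 394) (B (L (nat_lit 366) ln14_11_1 ln14_11_1_ok) (M (nat_lit 428) (B (L (nat_lit 430) ln14_13_3 ln14_13_3_ok) (M (nat_lit 393) (B (L (nat_lit 392) ln8_12_2 ln8_12_2_ok) (L (nat_lit 426) ln13_13_3 ln13_13_3_ok))))))) (B (M (nat_lit 428) (B (M (nat_lit 460) (B (L (nat_lit 331) ln11_10_4 ln11_10_4_ok) (M (nat_lit 492) (B (L (nat_lit 459) ln11_11_4 ln11_11_4_ok) (L (nat_lit 461) ln13_11_5 ln13_11_5_ok))))) (M (nat_lit 426) (B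 (L (nat_lit 398) ln10_13_2 ln10_13_2_ok) (M (nat_lit 394) (B (L (nat_lit 393) ln13_13_3 ln13_13_3_ok) (L (nat_lit 430) ln14_13_3 ln14_13_3_ok))))))) (B (M (nat_lit 331) (B (M (nat_lit 330) (B (L (nat_lit 298) ln11_13_7 ln11_13_7_ok) (L (nat_lit 366) ln14_11_3 ln14_11_3_ok))) (B (M (nat_lit 366) (B (L (nat_lit 330) ln14_11_3 ln14_11_3_ok) (L (nat_lit 394) ln14_11_1 ln14_11_1_ok))) (B (M (nat_lit 394) (B (L (nat_lit 366) ln14_11_1 ln14_11_1_ok) (M (nat_lit 426) (B (L (nat_lit 299) ln11_9_5 ln11_9_5_ok) (L (nat_lit 458) ln11_10_5 ln11_10_5_ok))))) (M (nat_lit 299) (B (M (nat_lit 298) (B (L (nat_lit 266) ln11_12_7 ln11_12_7_ok) (L (nat_lit 330) ln11_13_7 ln11_13_7_ok))) (M (nat_lit 426) (B (L (nat_lit 394) ln11_9_5 ln11_9_5_ok) (L (nat_lit 458) ln11_10_5 ln11_10_5_ok))))))))) (M (nat_lit 331) (B (M (nat_lit 330) (B (L (nat_lit 298) ln11_13_7 ln11_13_7_ok) (L (nat_lit 366) ln14_11_3 ln14_11_3_ok))) (M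 (nat_lit 460) (B (L (nat_lit 428) ln11_10_4 ln11_10_4_ok) (M (nat_lit 492) (B (L (nat_lit 459) ln11_11_4 ln11_11_4_ok) (L (nat_lit 461) ln13_11_5 ln13_11_5_ok))))))))))))))))) (nat_lit 1386334847383188664681589050413866408980405935399324385221930952150008986230002058677896057787193531042679978319736729780868874240) (nat_lit 54918381293831559793113753381556402520356208247273404649119635723251350145767299305807452793346824750956926120794173394051172912657611367444480451246041333760) (nat_lit 54918381293831559793113753381556402520356208247273404649119635723251350145767299305807452793346824750956926120794173394051172912657611367444480451246041333760) (by decide +kernel)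
noncomputable def c21_n1826 : Cert := (M (nat_lit 364) (B (M (nat_lit 332) (B (L (nat_lit 461) ln13_14_7 ln13_14_7_ok) (M (nat_lit 300) (B (L (nat_lit 268) ln12_8_4 ln12_8_4_ok) (L (nat_lit 396) ln12_9_4 ln12_9_4_ok))))) (B (M (nat_lit 461) (B (L (nat_lit 332) ln13_14_7 ln13_14_7_ok) (M (nat_lit 493) (B (L (nat_lit 396) ln13_15_7 ln13_15_7_ok) (M (nat_lit 492) (B (L (nat_lit 460) ln13_11_5 ln13_11_5_ok) (L (nat_lit 524) ln13_12_5 ln13_12_5_ok))))))) (B (M (nat_lit 363) (B (M (nat_lit 398) (B (L (nat_lit 362) ln10_11_0 ln10_11_0_ok) (M (nat_lit 399) (B (L (nat_lit 366) ln11_11_0 ln11_11_0_ok) (L (nat_lit 400) ln16_12_3 ln16_12_3_ok))))) (B (K (nat_lit 1386334847383188664681589050413866408980405935399324385221930952150008986230002058677896057787193531042679978319736729780868874240) (nat_lit 54918381293831559793113753381556402520356208247273404649119635723251350145767299305807452793346824750956926120794173394051172912657611367444480451246041333760)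 (nat_lit 54918381293831559793113753381556402520356208247273404649119635723251350145767299305807452793346824750956926120794173394051172912657611367444480451246041333760) c21_s1767) (B (M (nat_lit 398) (B (L (nat_lit 362) ln10_11_0 ln10_11_0_ok) (M (nat_lit 399) (B (L (nat_lit 396) ln15_12_3 ln15_12_3_ok) (L (nat_lit 400) ln16_12_3 ln16_12_3_ok))))) (M (nat_lit 362) (B (M (nat_lit 361) (B (L (nat_lit 396) ln9_11_0 ln9_11_0_ok) (M (nat_lit 393) (B (L (nat_lit 392) ln12_11_1 ln12_11_1_ok) (L (nat_lit 394) ln13_11_1 ln13_11_1_ok))))) (B (M (nat_lit 366) (B (M (nat_lit 330) (B (L (nat_lit 329) ln13_11_3 ln13_11_3_ok) (L (nat_lit 331) ln14_11_3 ln14_11_3_ok))) (M (nat_lit 394) (B (L (nat_lit 393) ln13_11_1 ln13_11_1_ok) (L (nat_lit 395) ln14_11_1 ln14_11_1_ok))))) (M (nat_lit 361) (B (L (nat_lit 396) ln9_11_0 ln9_11_0_ok) (M (nat_lit 329) (B (L (nat_lit 328) ln12_11_3 ln12_11_3_ok) (L (nat_lit 330) ln13_11_3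 ln13_11_3_ok)))))))))))) (B (M (nat_lit 461) (B (L (nat_lit 332) ln13_14_7 ln13_14_7_ok) (M (nat_lit 493) (B (M (nat_lit 492) (B (L (nat_lit 460) ln13_11_5 ln13_11_5_ok) (L (nat_lit 524) ln13_12_5 ln13_12_5_ok))) (M (nat_lit 494) (B (L (nat_lit 462) ln13_11_4 ln13_11_4_ok) (L (nat_lit 526) ln13_12_4 ln13_12_4_ok))))))) (M (nat_lit 363) (B (M (nat_lit 398) (B (L (nat_lit 362) ln10_11_0 ln10_11_0_ok) (M (nat_lit 399) (B (L (nat_lit 396) ln15_12_3 ln15_12_3_ok) (L (nat_lit 400) ln16_12_3 ln16_12_3_ok))))) (B (M (nat_lit 395) (B (M (nat_lit 394) (B (L (nat_lit 366) ln14_11_1 ln14_11_1_ok) (M (nat_lit 396) (B (L (nat_lit 393) ln9_12_2 ln9_12_2_ok) (L (nat_lit 430) ln10_12_0 ln10_12_0_ok))))) (B (M (nat_lit 396) (B (M (nat_lit 394) (B (L (nat_lit 393) ln9_12_2 ln9_12_2_ok) (L (nat_lit 430) ln10_12_0 ln10_12_0_ok))) (M (nat_lit 427) (B (M (nat_lit 332) (B (L (nat_lit 300) ln12_9_5 ln12_9_5_ok) (L (nat_lit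 459) ln11_14_6 ln11_14_6_ok))) (M (nat_lit 398) (B (L (nat_lit 399) ln15_12_3 ln15_12_3_ok) (L (nat_lit 426) ln14_12_1 ln14_12_1_ok))))))) (B (M (nat_lit 366) (B (L (nat_lit 394) ln14_11_1 ln14_11_1_ok) (M (nat_lit 367) (B (L (nat_lit 396) ln15_11_1 ln15_11_1_ok) (M (nat_lit 331) (B (L (nat_lit 330) ln14_11_3 ln14_11_3_ok) (L (nat_lit 332) ln15_11_3 ln15_11_3_ok))))))) (B (M (nat_lit 427) (B (M (nat_lit 332) (B (L (nat_lit 459) ln11_14_6 ln11_14_6_ok) (M (nat_lit 300) (B (L (nat_lit 268) ln12_8_5 ln12_8_5_ok) (L (nat_lit 396) ln12_9_5 ln12_9_5_ok))))) (B (M (nat_lit 332) (B (L (nat_lit 459) ln11_14_6 ln11_14_6_ok) (M (nat_lit 300) (B (L (nat_lit 331) ln11_13_6 ln11_13_6_ok) (L (nat_lit 396) ln12_9_5 ln12_9_5_ok))))) (B (M (nat_lit 398) (B (M (nat_lit 399) (B (L (nat_lit 366) ln11_11_0 ln11_11_0_ok) (L (nat_lit 396) ln15_12_3 ln15_12_3_ok))) (B (M (nat_lit 399) (B (L (nat_lit 396) ln15_12_3 ln15_12_3_ok)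 (L (nat_lit 400) ln16_12_3 ln16_12_3_ok))) (B (M (nat_lit 399) (B (L (nat_lit 366) ln11_11_0 ln11_11_0_ok) (L (nat_lit 400) ln16_12_3 ln16_12_3_ok))) (M (nat_lit 426) (B (L (nat_lit 396) ln14_12_1 ln14_12_1_ok) (L (nat_lit 428) ln10_13_2 ln10_13_2_ok))))))) (M (nat_lit 332) (B (L (nat_lit 459) ln11_14_6 ln11_14_6_ok) (M (nat_lit 300) (B (L (nat_lit 268) ln12_8_5 ln12_8_5_ok) (L (nat_lit 331) ln11_13_6 ln11_13_6_ok))))))))) (M (nat_lit 366) (B (L (nat_lit 394) ln14_11_1 ln14_11_1_ok) (M (nat_lit 367) (B (M (nat_lit 331) (B (L (nat_lit 330) ln14_11_3 ln14_11_3_ok) (L (nat_lit 332) ln15_11_3 ln15_11_3_ok))) (M (nat_lit 399) (B (L (nat_lit 398) ln11_11_0 ln11_11_0_ok) (L (nat_lit 400) ln12_11_0 ln12_11_0_ok)))))))))))) (B (M (nat_lit 398) (B (L (nat_lit 362) ln10_11_0 ln10_11_0_ok) (M (nat_lit 399) (B (L (nat_lit 366) ln11_11_0 ln11_11_0_ok) (L (nat_lit 400) ln16_12_3 ln16_12_3_ok))))) (M (nat_lit 362)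 (B (M (nat_lit 361) (B (L (nat_lit 396) ln9_11_0 ln9_11_0_ok) (M (nat_lit 393) (B (L (nat_lit 392) ln12_11_1 ln12_11_1_ok) (L (nat_lit 394) ln13_11_1 ln13_11_1_ok))))) (B (M (nat_lit 366) (B (M (nat_lit 330) (B (L (nat_lit 329) ln13_11_3 ln13_11_3_ok) (L (nat_lit 331) ln14_11_3 ln14_11_3_ok))) (M (nat_lit 394) (B (L (nat_lit 393) ln13_11_1 ln13_11_1_ok) (L (nat_lit 395) ln14_11_1 ln14_11_1_ok))))) (M (nat_lit 361) (B (L (nat_lit 396) ln9_11_0 ln9_11_0_ok) (M (nat_lit 329) (B (L (nat_lit 328) ln12_11_3 ln12_11_3_ok) (L (nat_lit 330) ln13_11_3 ln13_11_3_ok)))))))))))))))))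
theorem c21_s1848 : Sem (nat_lit 1386334847383188664550070665778531748218595021979121511688892729411143073470393764272092352380775458208712834410189682411080515584) (nat_lit 235872651935775003571918079808858289589448900155676489335421282091019930514281411708521922372209651487949352102479042241964885324753185367081618880145328474739814957056) (nat_lit 235872651935775003571918079808858289589448900155676489335421282091019930514281411708521922372209651487949352102479042241964885324753185367081618880145328474739814957056) :=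
  sem_of_chk (M (nat_lit 365) (B (M (nat_lit 461) (B (M (nat_lit 493) (B (M (nat_lit 364) (B (L (nat_lit 332) ln13_14_7 ln13_14_7_ok) (L (nat_lit 396) ln13_15_7 ln13_15_7_ok))) (M (nat_lit 492) (B (L (nat_lit 460) ln13_11_5 ln13_11_5_ok) (L (nat_lit 524) ln13_12_5 ln13_12_5_ok))))) (B (M (nat_lit 333) (B (M (nat_lit 460) (B (L (nat_lit 428) ln13_10_5 ln13_10_5_ok) (L (nat_lit 492) ln13_11_5 ln13_11_5_ok))) (M (nat_lit 462) (B (L (nat_lit 430) ln13_10_4 ln13_10_4_ok) (L (nat_lit 494) ln13_11_4 ln13_11_4_ok))))) (M (nat_lit 333) (B (M (nat_lit 332) (B (L (nat_lit 300) ln13_13_7 ln13_13_7_ok) (L (nat_lit 364) ln13_14_7 ln13_14_7_ok))) (M (nat_lit 462) (B (L (nat_lit 430) ln13_10_4 ln13_10_4_ok) (L (nat_lit 494) ln13_11_4 ln13_11_4_ok)))))))) (B (M (nat_lit 461) (B (M (nat_lit 493) (B (M (nat_lit 364) (B (L (nat_lit 332) ln13_14_7 ln13_14_7_ok) (L (nat_lit 396) ln13_15_7 ln13_15_7_ok))) (M (nat_lit 492)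 (B (L (nat_lit 460) ln13_11_5 ln13_11_5_ok) (L (nat_lit 524) ln13_12_5 ln13_12_5_ok))))) (B (M (nat_lit 493) (B (M (nat_lit 492) (B (L (nat_lit 460) ln13_11_5 ln13_11_5_ok) (L (nat_lit 524) ln13_12_5 ln13_12_5_ok))) (M (nat_lit 494) (B (L (nat_lit 462) ln13_11_4 ln13_11_4_ok) (L (nat_lit 526) ln13_12_4 ln13_12_4_ok))))) (B (M (nat_lit 493) (B (M (nat_lit 364) (B (L (nat_lit 332) ln13_14_7 ln13_14_7_ok) (L (nat_lit 396) ln13_15_7 ln13_15_7_ok))) (M (nat_lit 494) (B (L (nat_lit 462) ln13_11_4 ln13_11_4_ok) (L (nat_lit 526) ln13_12_4 ln13_12_4_ok))))) (M (nat_lit 333) (B (M (nat_lit 460) (B (L (nat_lit 428) ln13_10_5 ln13_10_5_ok) (L (nat_lit 492) ln13_11_5 ln13_11_5_ok))) (M (nat_lit 462) (B (L (nat_lit 430) ln13_10_4 ln13_10_4_ok) (L (nat_lit 494) ln13_11_4 ln13_11_4_ok))))))))) (B (M (nat_lit 461) (B (M (nat_lit 333) (B (M (nat_lit 460) (B (L (nat_lit 428) ln13_10_5 ln13_10_5_ok) (L (nat_lit 492)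 ln13_11_5 ln13_11_5_ok))) (M (nat_lit 462) (B (L (nat_lit 430) ln13_10_4 ln13_10_4_ok) (L (nat_lit 494) ln13_11_4 ln13_11_4_ok))))) (B (M (nat_lit 493) (B (M (nat_lit 492) (B (L (nat_lit 460) ln13_11_5 ln13_11_5_ok) (L (nat_lit 524) ln13_12_5 ln13_12_5_ok))) (M (nat_lit 494) (B (L (nat_lit 462) ln13_11_4 ln13_11_4_ok) (L (nat_lit 526) ln13_12_4 ln13_12_4_ok))))) (B (M (nat_lit 493) (B (M (nat_lit 494) (B (L (nat_lit 462) ln13_11_4 ln13_11_4_ok) (L (nat_lit 526) ln13_12_4 ln13_12_4_ok))) (M (nat_lit 525) (B (M (nat_lit 396) (B (L (nat_lit 364) ln13_15_7 ln13_15_7_ok) (L (nat_lit 428) ln13_16_7 ln13_16_7_ok))) (M (nat_lit 398) (B (L (nat_lit 366) ln13_15_6 ln13_15_6_ok) (L (nat_lit 430) ln13_16_6 ln13_16_6_ok))))))) (M (nat_lit 493) (B (M (nat_lit 492) (B (L (nat_lit 460) ln13_11_5 ln13_11_5_ok) (L (nat_lit 524) ln13_12_5 ln13_12_5_ok))) (M (nat_lit 525) (B (M (nat_lit 396) (B (L (nat_lit 364) ln13_15_7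 ln13_15_7_ok) (L (nat_lit 428) ln13_16_7 ln13_16_7_ok))) (M (nat_lit 398) (B (L (nat_lit 366) ln13_15_6 ln13_15_6_ok) (L (nat_lit 430) ln13_16_6 ln13_16_6_ok))))))))))) (B c21_n1826 (B (M (nat_lit 333) (B (M (nat_lit 301) (B (M (nat_lit 300) (B (L (nat_lit 268) ln13_12_7 ln13_12_7_ok) (L (nat_lit 332) ln13_13_7 ln13_13_7_ok))) (M (nat_lit 430) (B (L (nat_lit 398) ln13_9_4 ln13_9_4_ok) (L (nat_lit 462) ln13_10_4 ln13_10_4_ok))))) (B (M (nat_lit 301) (B (M (nat_lit 428) (B (L (nat_lit 396) ln13_9_5 ln13_9_5_ok) (L (nat_lit 460) ln13_10_5 ln13_10_5_ok))) (M (nat_lit 430) (B (L (nat_lit 398) ln13_9_4 ln13_9_4_ok) (L (nat_lit 462) ln13_10_4 ln13_10_4_ok))))) (B (M (nat_lit 461) (B (M (nat_lit 460) (B (L (nat_lit 428) ln13_10_5 ln13_10_5_ok) (L (nat_lit 492) ln13_11_5 ln13_11_5_ok))) (M (nat_lit 462) (B (L (nat_lit 430) ln13_10_4 ln13_10_4_ok) (L (nat_lit 494) ln13_11_4 ln13_11_4_ok))))) (M (nat_lit 301)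 (B (M (nat_lit 300) (B (L (nat_lit 268) ln13_12_7 ln13_12_7_ok) (L (nat_lit 332) ln13_13_7 ln13_13_7_ok))) (M (nat_lit 428) (B (L (nat_lit 396) ln13_9_5 ln13_9_5_ok) (L (nat_lit 460) ln13_10_5 ln13_10_5_ok))))))))) (B (M (nat_lit 333) (B (M (nat_lit 461) (B (M (nat_lit 460) (B (L (nat_lit 428) ln13_10_5 ln13_10_5_ok) (L (nat_lit 492) ln13_11_5 ln13_11_5_ok))) (M (nat_lit 462) (B (L (nat_lit 430) ln13_10_4 ln13_10_4_ok) (L (nat_lit 494) ln13_11_4 ln13_11_4_ok))))) (B (M (nat_lit 461) (B (M (nat_lit 332) (B (L (nat_lit 300) ln13_13_7 ln13_13_7_ok) (L (nat_lit 364) ln13_14_7 ln13_14_7_ok))) (M (nat_lit 462) (B (L (nat_lit 430) ln13_10_4 ln13_10_4_ok) (L (nat_lit 494) ln13_11_4 ln13_11_4_ok))))) (B (M (nat_lit 461) (B (M (nat_lit 332) (B (L (nat_lit 300) ln13_13_7 ln13_13_7_ok) (L (nat_lit 364) ln13_14_7 ln13_14_7_ok))) (M (nat_lit 460) (B (L (nat_lit 428) ln13_10_5 ln13_10_5_ok) (L (nat_lit 492) ln13_11_5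 ln13_11_5_ok))))) (M (nat_lit 301) (B (M (nat_lit 300) (B (L (nat_lit 268) ln13_12_7 ln13_12_7_ok) (L (nat_lit 332) ln13_13_7 ln13_13_7_ok))) (M (nat_lit 430) (B (L (nat_lit 398) ln13_9_4 ln13_9_4_ok) (L (nat_lit 462) ln13_10_4 ln13_10_4_ok))))))))) (B (M (nat_lit 461) (B (M (nat_lit 493) (B (M (nat_lit 364) (B (L (nat_lit 332) ln13_14_7 ln13_14_7_ok) (L (nat_lit 396) ln13_15_7 ln13_15_7_ok))) (M (nat_lit 492) (B (L (nat_lit 460) ln13_11_5 ln13_11_5_ok) (L (nat_lit 524) ln13_12_5 ln13_12_5_ok))))) (B (M (nat_lit 493) (B (M (nat_lit 492) (B (L (nat_lit 460) ln13_11_5 ln13_11_5_ok) (L (nat_lit 524) ln13_12_5 ln13_12_5_ok))) (M (nat_lit 494) (B (L (nat_lit 462) ln13_11_4 ln13_11_4_ok) (L (nat_lit 526) ln13_12_4 ln13_12_4_ok))))) (B (M (nat_lit 493) (B (M (nat_lit 364) (B (L (nat_lit 332) ln13_14_7 ln13_14_7_ok) (L (nat_lit 396) ln13_15_7 ln13_15_7_ok))) (M (nat_lit 494) (B (L (nat_lit 462) ln13_11_4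 ln13_11_4_ok) (L (nat_lit 526) ln13_12_4 ln13_12_4_ok))))) (M (nat_lit 333) (B (M (nat_lit 332) (B (L (nat_lit 300) ln13_13_7 ln13_13_7_ok) (L (nat_lit 364) ln13_14_7 ln13_14_7_ok))) (M (nat_lit 462) (B (L (nat_lit 430) ln13_10_4 ln13_10_4_ok) (L (nat_lit 494) ln13_11_4 ln13_11_4_ok))))))))) (B (M (nat_lit 461) (B (M (nat_lit 493) (B (M (nat_lit 492) (B (L (nat_lit 460) ln13_11_5 ln13_11_5_ok) (L (nat_lit 524) ln13_12_5 ln13_12_5_ok))) (M (nat_lit 494) (B (L (nat_lit 462) ln13_11_4 ln13_11_4_ok) (L (nat_lit 526) ln13_12_4 ln13_12_4_ok))))) (B (M (nat_lit 493) (B (M (nat_lit 364) (B (L (nat_lit 332) ln13_14_7 ln13_14_7_ok) (L (nat_lit 396) ln13_15_7 ln13_15_7_ok))) (M (nat_lit 494) (B (L (nat_lit 462) ln13_11_4 ln13_11_4_ok) (L (nat_lit 526) ln13_12_4 ln13_12_4_ok))))) (B (M (nat_lit 493) (B (M (nat_lit 364) (B (L (nat_lit 332) ln13_14_7 ln13_14_7_ok) (L (nat_lit 396) ln13_15_7 ln13_15_7_ok))) (M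 (nat_lit 492) (B (L (nat_lit 460) ln13_11_5 ln13_11_5_ok) (L (nat_lit 524) ln13_12_5 ln13_12_5_ok))))) (M (nat_lit 333) (B (M (nat_lit 332) (B (L (nat_lit 300) ln13_13_7 ln13_13_7_ok) (L (nat_lit 364) ln13_14_7 ln13_14_7_ok))) (M (nat_lit 460) (B (L (nat_lit 428) ln13_10_5 ln13_10_5_ok) (L (nat_lit 492) ln13_11_5 ln13_11_5_ok))))))))) (B (M (nat_lit 461) (B (M (nat_lit 493) (B (M (nat_lit 364) (B (L (nat_lit 332) ln13_14_7 ln13_14_7_ok) (L (nat_lit 396) ln13_15_7 ln13_15_7_ok))) (M (nat_lit 494) (B (L (nat_lit 462) ln13_11_4 ln13_11_4_ok) (L (nat_lit 526) ln13_12_4 ln13_12_4_ok))))) (B (M (nat_lit 493) (B (M (nat_lit 494) (B (L (nat_lit 462) ln13_11_4 ln13_11_4_ok) (L (nat_lit 526) ln13_12_4 ln13_12_4_ok))) (M (nat_lit 525) (B (M (nat_lit 398) (B (L (nat_lit 366) ln13_15_6 ln13_15_6_ok) (L (nat_lit 430) ln13_16_6 ln13_16_6_ok))) (M (nat_lit 524) (B (L (nat_lit 492) ln13_12_5 ln13_12_5_ok) (L (nat_lit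 556) ln13_13_5 ln13_13_5_ok))))))) (B (M (nat_lit 493) (B (M (nat_lit 364) (B (L (nat_lit 332) ln13_14_7 ln13_14_7_ok) (L (nat_lit 396) ln13_15_7 ln13_15_7_ok))) (M (nat_lit 525) (B (M (nat_lit 398) (B (L (nat_lit 366) ln13_15_6 ln13_15_6_ok) (L (nat_lit 430) ln13_16_6 ln13_16_6_ok))) (M (nat_lit 524) (B (L (nat_lit 492) ln13_12_5 ln13_12_5_ok) (L (nat_lit 556) ln13_13_5 ln13_13_5_ok))))))) (M (nat_lit 333) (B (M (nat_lit 332) (B (L (nat_lit 300) ln13_13_7 ln13_13_7_ok) (L (nat_lit 364) ln13_14_7 ln13_14_7_ok))) (M (nat_lit 462) (B (L (nat_lit 430) ln13_10_4 ln13_10_4_ok) (L (nat_lit 494) ln13_11_4 ln13_11_4_ok))))))))) (B (M (nat_lit 333) (B (M (nat_lit 301) (B (M (nat_lit 428) (B (L (nat_lit 396) ln13_9_5 ln13_9_5_ok) (L (nat_lit 460) ln13_10_5 ln13_10_5_ok))) (M (nat_lit 430) (B (L (nat_lit 398) ln13_9_4 ln13_9_4_ok) (L (nat_lit 462) ln13_10_4 ln13_10_4_ok))))) (B (M (nat_lit 428) (B (L (nat_lit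 460) ln13_10_5 ln13_10_5_ok) (M (nat_lit 430) (B (L (nat_lit 462) ln13_10_4 ln13_10_4_ok) (M (nat_lit 427) (B (M (nat_lit 398) (B (L (nat_lit 426) ln10_13_2 ln10_13_2_ok) (L (nat_lit 399) ln11_13_2 ln11_13_2_ok))) (B (M (nat_lit 426) (B (M (nat_lit 394) (B (L (nat_lit 393) ln13_13_3 ln13_13_3_ok) (L (nat_lit 395) ln14_13_3 ln14_13_3_ok))) (M (nat_lit 458) (B (L (nat_lit 457) ln13_13_1 ln13_13_1_ok) (L (nat_lit 459) ln14_13_1 ln14_13_1_ok))))) (M (nat_lit 431) (B (M (nat_lit 395) (B (L (nat_lit 394) ln14_13_3 ln14_13_3_ok) (L (nat_lit 396) ln15_13_3 ln15_13_3_ok))) (M (nat_lit 399) (B (L (nat_lit 398) ln11_13_2 ln11_13_2_ok) (L (nat_lit 400) ln12_13_2 ln12_13_2_ok)))))))))))) (B (M (nat_lit 301) (B (M (nat_lit 300) (B (L (nat_lit 268) ln13_12_7 ln13_12_7_ok) (L (nat_lit 332) ln13_13_7 ln13_13_7_ok))) (M (nat_lit 430) (B (L (nat_lit 398) ln13_9_4 ln13_9_4_ok) (L (nat_lit 462) ln13_10_4 ln13_10_4_ok)))))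 (M (nat_lit 301) (B (M (nat_lit 300) (B (L (nat_lit 268) ln13_12_7 ln13_12_7_ok) (L (nat_lit 332) ln13_13_7 ln13_13_7_ok))) (M (nat_lit 428) (B (L (nat_lit 396) ln13_9_5 ln13_9_5_ok) (L (nat_lit 460) ln13_10_5 ln13_10_5_ok))))))))) (M (nat_lit 333) (B (M (nat_lit 301) (B (M (nat_lit 300) (B (L (nat_lit 268) ln13_12_7 ln13_12_7_ok) (L (nat_lit 332) ln13_13_7 ln13_13_7_ok))) (M (nat_lit 428) (B (L (nat_lit 396) ln13_9_5 ln13_9_5_ok) (L (nat_lit 460) ln13_10_5 ln13_10_5_ok))))) (B (M (nat_lit 461) (B (M (nat_lit 332) (B (L (nat_lit 300) ln13_13_7 ln13_13_7_ok) (L (nat_lit 364) ln13_14_7 ln13_14_7_ok))) (M (nat_lit 460) (B (L (nat_lit 428) ln13_10_5 ln13_10_5_ok) (L (nat_lit 492) ln13_11_5 ln13_11_5_ok))))) (B (M (nat_lit 301) (B (M (nat_lit 428) (B (L (nat_lit 396) ln13_9_5 ln13_9_5_ok) (L (nat_lit 460) ln13_10_5 ln13_10_5_ok))) (M (nat_lit 269) (B (M (nat_lit 270) (B (L (nat_lit 238) ln13_11_6 ln13_11_6_ok)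 (L (nat_lit 302) ln13_12_6 ln13_12_6_ok))) (M (nat_lit 398) (B (L (nat_lit 366) ln13_8_4 ln13_8_4_ok) (L (nat_lit 430) ln13_9_4 ln13_9_4_ok))))))) (M (nat_lit 301) (B (M (nat_lit 300) (B (L (nat_lit 268) ln13_12_7 ln13_12_7_ok) (L (nat_lit 332) ln13_13_7 ln13_13_7_ok))) (M (nat_lit 269) (B (M (nat_lit 270) (B (L (nat_lit 238) ln13_11_6 ln13_11_6_ok) (L (nat_lit 302) ln13_12_6 ln13_12_6_ok))) (M (nat_lit 398) (B (L (nat_lit 366) ln13_8_4 ln13_8_4_ok) (L (nat_lit 430) ln13_9_4 ln13_9_4_ok)))))))))))))))))))))) (nat_lit 1386334847383188664550070665778531748218595021979121511688892729411143073470393764272092352380775458208712834410189682411080515584) (nat_lit 235872651935775003571918079808858289589448900155676489335421282091019930514281411708521922372209651487949352102479042241964885324753185367081618880145328474739814957056) (nat_lit 235872651935775003571918079808858289589448900155676489335421282091019930514281411708521922372209651487949352102479042241964885324753185367081618880145328474739814957056)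 (by decide +kernel)
theorem c21_s1923 : Sem (nat_lit 1386334847383188664550070665778531748218595021979121511688892729411143073470393764272092352380775458208712834410189682411080515584) (nat_lit 274591906494731163057381071121839032403327910846616360434608889781466384166667847282271569921068526531959680201706689801870567115668424788445736019560354545664) (nat_lit 274591906494731163057381071121839032403327910846616360434608889781466384166667847282271569921068526531959680201706689801870567115668424788445736019560354545664) :=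
  sem_of_chk (M (nat_lit 365) (B (M (nat_lit 461) (B (M (nat_lit 493) (B (M (nat_lit 364) (B (L (nat_lit 332) ln13_14_7 ln13_14_7_ok) (L (nat_lit 396) ln13_15_7 ln13_15_7_ok))) (M (nat_lit 492) (B (L (nat_lit 460) ln13_11_5 ln13_11_5_ok) (L (nat_lit 524) ln13_12_5 ln13_12_5_ok))))) (B (M (nat_lit 333) (B (M (nat_lit 460) (B (L (nat_lit 428) ln13_10_5 ln13_10_5_ok) (L (nat_lit 492) ln13_11_5 ln13_11_5_ok))) (M (nat_lit 462) (B (L (nat_lit 430) ln13_10_4 ln13_10_4_ok) (L (nat_lit 494) ln13_11_4 ln13_11_4_ok))))) (M (nat_lit 333) (B (M (nat_lit 332) (B (L (nat_lit 300) ln13_13_7 ln13_13_7_ok) (L (nat_lit 364) ln13_14_7 ln13_14_7_ok))) (M (nat_lit 462) (B (L (nat_lit 430) ln13_10_4 ln13_10_4_ok) (L (nat_lit 494) ln13_11_4 ln13_11_4_ok)))))))) (B (M (nat_lit 461) (B (M (nat_lit 493) (B (M (nat_lit 364) (B (L (nat_lit 332) ln13_14_7 ln13_14_7_ok) (L (nat_lit 396) ln13_15_7 ln13_15_7_ok))) (M (nat_lit 494)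 (B (L (nat_lit 462) ln13_11_4 ln13_11_4_ok) (L (nat_lit 526) ln13_12_4 ln13_12_4_ok))))) (M (nat_lit 333) (B (M (nat_lit 334) (B (L (nat_lit 302) ln13_13_6 ln13_13_6_ok) (L (nat_lit 366) ln13_14_6 ln13_14_6_ok))) (M (nat_lit 460) (B (L (nat_lit 428) ln13_10_5 ln13_10_5_ok) (L (nat_lit 492) ln13_11_5 ln13_11_5_ok))))))) (B (M (nat_lit 461) (B (M (nat_lit 493) (B (M (nat_lit 492) (B (L (nat_lit 460) ln13_11_5 ln13_11_5_ok) (L (nat_lit 524) ln13_12_5 ln13_12_5_ok))) (M (nat_lit 494) (B (L (nat_lit 462) ln13_11_4 ln13_11_4_ok) (L (nat_lit 526) ln13_12_4 ln13_12_4_ok))))) (B (M (nat_lit 493) (B (M (nat_lit 366) (B (L (nat_lit 334) ln13_14_6 ln13_14_6_ok) (L (nat_lit 398) ln13_15_6 ln13_15_6_ok))) (M (nat_lit 494) (B (L (nat_lit 462) ln13_11_4 ln13_11_4_ok) (L (nat_lit 526) ln13_12_4 ln13_12_4_ok))))) (B (M (nat_lit 493) (B (M (nat_lit 366) (B (L (nat_lit 334) ln13_14_6 ln13_14_6_ok) (L (nat_lit 398) ln13_15_6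 ln13_15_6_ok))) (M (nat_lit 492) (B (L (nat_lit 460) ln13_11_5 ln13_11_5_ok) (L (nat_lit 524) ln13_12_5 ln13_12_5_ok))))) (M (nat_lit 333) (B (M (nat_lit 334) (B (L (nat_lit 302) ln13_13_6 ln13_13_6_ok) (L (nat_lit 366) ln13_14_6 ln13_14_6_ok))) (M (nat_lit 460) (B (L (nat_lit 428) ln13_10_5 ln13_10_5_ok) (L (nat_lit 492) ln13_11_5 ln13_11_5_ok))))))))) (B (M (nat_lit 461) (B (M (nat_lit 493) (B (M (nat_lit 364) (B (L (nat_lit 332) ln13_14_7 ln13_14_7_ok) (L (nat_lit 396) ln13_15_7 ln13_15_7_ok))) (M (nat_lit 492) (B (L (nat_lit 460) ln13_11_5 ln13_11_5_ok) (L (nat_lit 524) ln13_12_5 ln13_12_5_ok))))) (B (M (nat_lit 493) (B (M (nat_lit 366) (B (L (nat_lit 334) ln13_14_6 ln13_14_6_ok) (L (nat_lit 398) ln13_15_6 ln13_15_6_ok))) (M (nat_lit 494) (B (L (nat_lit 462) ln13_11_4 ln13_11_4_ok) (L (nat_lit 526) ln13_12_4 ln13_12_4_ok))))) (M (nat_lit 398) (B (M (nat_lit 366) (B (L (nat_lit 334) ln13_14_6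 ln13_14_6_ok) (M (nat_lit 364) (B (L (nat_lit 332) ln13_14_7 ln13_14_7_ok) (M (nat_lit 399) (B (L (nat_lit 363) ln11_11_0 ln11_11_0_ok) (L (nat_lit 400) ln16_12_3 ln16_12_3_ok))))))) (B (M (nat_lit 430) (B (M (nat_lit 462) (B (L (nat_lit 494) ln14_15_7 ln14_15_7_ok) (M (nat_lit 460) (B (L (nat_lit 492) ln13_11_5 ln13_11_5_ok) (M (nat_lit 459) (B (L (nat_lit 458) ln10_14_2 ln10_14_2_ok) (L (nat_lit 431) ln11_14_2 ln11_14_2_ok))))))) (B (M (nat_lit 366) (B (L (nat_lit 334) ln13_14_6 ln13_14_6_ok) (M (nat_lit 367) (B (M (nat_lit 462) (B (L (nat_lit 335) ln14_14_6 ln14_14_6_ok) (L (nat_lit 494) ln14_15_7 ln14_15_7_ok))) (M (nat_lit 396) (B (L (nat_lit 368) ln16_11_1 ln16_11_1_ok) (L (nat_lit 395) ln11_12_2 ln11_12_2_ok))))))) (M (nat_lit 428) (B (M (nat_lit 427) (B (L (nat_lit 426) ln10_13_2 ln10_13_2_ok) (L (nat_lit 399) ln11_13_2 ln11_13_2_ok))) (M (nat_lit 460) (B (L (nat_lit 492) ln13_11_5 ln13_11_5_ok)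 (M (nat_lit 459) (B (L (nat_lit 431) ln15_13_1 ln15_13_1_ok) (L (nat_lit 458) ln10_14_2 ln10_14_2_ok)))))))))) (B (M (nat_lit 364) (B (L (nat_lit 332) ln13_14_7 ln13_14_7_ok) (M (nat_lit 399) (B (L (nat_lit 400) ln16_12_3 ln16_12_3_ok) (M (nat_lit 363) (B (L (nat_lit 366) ln11_11_0 ln11_11_0_ok) (L (nat_lit 396) ln15_12_3 ln15_12_3_ok))))))) (B (M (nat_lit 399) (B (M (nat_lit 364) (B (L (nat_lit 332) ln13_14_7 ln13_14_7_ok) (L (nat_lit 400) ln16_12_3 ln16_12_3_ok))) (B (M (nat_lit 400) (B (L (nat_lit 364) ln16_12_3 ln16_12_3_ok) (L (nat_lit 428) ln16_12_1 ln16_12_1_ok))) (B (M (nat_lit 428) (B (L (nat_lit 400) ln16_12_1 ln16_12_1_ok) (M (nat_lit 427) (B (L (nat_lit 396) ln15_12_1 ln15_12_1_ok) (L (nat_lit 426) ln10_13_2 ln10_13_2_ok))))) (M (nat_lit 396) (B (M (nat_lit 364) (B (L (nat_lit 332) ln13_14_7 ln13_14_7_ok) (L (nat_lit 363) ln15_12_3 ln15_12_3_ok))) (M (nat_lit 395) (B (M (nat_lit 427)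 (B (L (nat_lit 426) ln14_12_1 ln14_12_1_ok) (L (nat_lit 428) ln15_12_1 ln15_12_1_ok))) (M (nat_lit 430) (B (L (nat_lit 394) ln10_12_0 ln10_12_0_ok) (L (nat_lit 431) ln11_12_0 ln11_12_0_ok))))))))))) (M (nat_lit 366) (B (L (nat_lit 334) ln13_14_6 ln13_14_6_ok) (M (nat_lit 367) (B (M (nat_lit 396) (B (L (nat_lit 368) ln16_11_1 ln16_11_1_ok) (L (nat_lit 395) ln11_12_2 ln11_12_2_ok))) (M (nat_lit 335) (B (M (nat_lit 364) (B (L (nat_lit 332) ln13_14_7 ln13_14_7_ok) (L (nat_lit 336) ln12_11_2 ln12_11_2_ok))) (M (nat_lit 462) (B (L (nat_lit 430) ln14_14_6 ln14_14_6_ok) (L (nat_lit 494) ln13_11_4 ln13_11_4_ok))))))))))))))))) (B (M (nat_lit 461) (B (M (nat_lit 333) (B (M (nat_lit 332) (B (L (nat_lit 300) ln13_13_7 ln13_13_7_ok) (L (nat_lit 364) ln13_14_7 ln13_14_7_ok))) (M (nat_lit 462) (B (L (nat_lit 430) ln13_10_4 ln13_10_4_ok) (L (nat_lit 494) ln13_11_4 ln13_11_4_ok))))) (B (M (nat_lit 333) (B (M (nat_lit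 334) (B (L (nat_lit 302) ln13_13_6 ln13_13_6_ok) (L (nat_lit 366) ln13_14_6 ln13_14_6_ok))) (M (nat_lit 462) (B (L (nat_lit 430) ln13_10_4 ln13_10_4_ok) (L (nat_lit 494) ln13_11_4 ln13_11_4_ok))))) (B (M (nat_lit 493) (B (M (nat_lit 366) (B (L (nat_lit 334) ln13_14_6 ln13_14_6_ok) (L (nat_lit 398) ln13_15_6 ln13_15_6_ok))) (M (nat_lit 494) (B (L (nat_lit 462) ln13_11_4 ln13_11_4_ok) (L (nat_lit 526) ln13_12_4 ln13_12_4_ok))))) (M (nat_lit 333) (B (M (nat_lit 332) (B (L (nat_lit 300) ln13_13_7 ln13_13_7_ok) (L (nat_lit 364) ln13_14_7 ln13_14_7_ok))) (M (nat_lit 334) (B (L (nat_lit 302) ln13_13_6 ln13_13_6_ok) (L (nat_lit 366) ln13_14_6 ln13_14_6_ok))))))))) (B (M (nat_lit 333) (B (M (nat_lit 301) (B (M (nat_lit 428) (B (L (nat_lit 396) ln13_9_5 ln13_9_5_ok) (L (nat_lit 460) ln13_10_5 ln13_10_5_ok))) (M (nat_lit 430) (B (L (nat_lit 398) ln13_9_4 ln13_9_4_ok) (L (nat_lit 462) ln13_10_4 ln13_10_4_ok)))))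 (B (M (nat_lit 428) (B (L (nat_lit 460) ln13_10_5 ln13_10_5_ok) (M (nat_lit 430) (B (L (nat_lit 462) ln13_10_4 ln13_10_4_ok) (M (nat_lit 427) (B (M (nat_lit 398) (B (L (nat_lit 426) ln10_13_2 ln10_13_2_ok) (L (nat_lit 399) ln11_13_2 ln11_13_2_ok))) (B (M (nat_lit 426) (B (M (nat_lit 394) (B (L (nat_lit 393) ln13_13_3 ln13_13_3_ok) (L (nat_lit 395) ln14_13_3 ln14_13_3_ok))) (M (nat_lit 458) (B (L (nat_lit 457) ln13_13_1 ln13_13_1_ok) (L (nat_lit 459) ln14_13_1 ln14_13_1_ok))))) (M (nat_lit 431) (B (M (nat_lit 395) (B (L (nat_lit 394) ln14_13_3 ln14_13_3_ok) (L (nat_lit 396) ln15_13_3 ln15_13_3_ok))) (M (nat_lit 399) (B (L (nat_lit 398) ln11_13_2 ln11_13_2_ok) (L (nat_lit 400) ln12_13_2 ln12_13_2_ok)))))))))))) (B (M (nat_lit 301) (B (M (nat_lit 300) (B (L (nat_lit 268) ln13_12_7 ln13_12_7_ok) (L (nat_lit 332) ln13_13_7 ln13_13_7_ok))) (M (nat_lit 430) (B (L (nat_lit 398) ln13_9_4 ln13_9_4_ok) (L (nat_lit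 462) ln13_10_4 ln13_10_4_ok))))) (M (nat_lit 301) (B (M (nat_lit 300) (B (L (nat_lit 268) ln13_12_7 ln13_12_7_ok) (L (nat_lit 332) ln13_13_7 ln13_13_7_ok))) (M (nat_lit 428) (B (L (nat_lit 396) ln13_9_5 ln13_9_5_ok) (L (nat_lit 460) ln13_10_5 ln13_10_5_ok))))))))) (M (nat_lit 461) (B (M (nat_lit 493) (B (M (nat_lit 366) (B (L (nat_lit 334) ln13_14_6 ln13_14_6_ok) (L (nat_lit 398) ln13_15_6 ln13_15_6_ok))) (M (nat_lit 492) (B (L (nat_lit 460) ln13_11_5 ln13_11_5_ok) (L (nat_lit 524) ln13_12_5 ln13_12_5_ok))))) (B (M (nat_lit 493) (B (M (nat_lit 364) (B (L (nat_lit 332) ln13_14_7 ln13_14_7_ok) (L (nat_lit 396) ln13_15_7 ln13_15_7_ok))) (M (nat_lit 492) (B (L (nat_lit 460) ln13_11_5 ln13_11_5_ok) (L (nat_lit 524) ln13_12_5 ln13_12_5_ok))))) (B (M (nat_lit 364) (B (L (nat_lit 332) ln13_14_7 ln13_14_7_ok) (M (nat_lit 493) (B (L (nat_lit 396) ln13_15_7 ln13_15_7_ok) (M (nat_lit 366) (B (L (nat_lit 334)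 ln13_14_6 ln13_14_6_ok) (L (nat_lit 398) ln13_15_6 ln13_15_6_ok))))))) (M (nat_lit 333) (B (M (nat_lit 332) (B (L (nat_lit 300) ln13_13_7 ln13_13_7_ok) (L (nat_lit 364) ln13_14_7 ln13_14_7_ok))) (M (nat_lit 334) (B (L (nat_lit 302) ln13_13_6 ln13_13_6_ok) (L (nat_lit 366) ln13_14_6 ln13_14_6_ok)))))))))))))))) (nat_lit 1386334847383188664550070665778531748218595021979121511688892729411143073470393764272092352380775458208712834410189682411080515584) (nat_lit 274591906494731163057381071121839032403327910846616360434608889781466384166667847282271569921068526531959680201706689801870567115668424788445736019560354545664) (nat_lit 274591906494731163057381071121839032403327910846616360434608889781466384166667847282271569921068526531959680201706689801870567115668424788445736019560354545664) (by decide +kernel)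
theorem c21_s1952 : Sem (nat_lit 1386334847383188664550070665778531748218595021979121511688892729411143073470393764272092352380775458208712834410189682411080515584) (nat_lit 274591906494731163057381071132929711179811170284911228830519033929389016623396798886734482783135745204216524366094329754086208560510280040304272157251995697152) (nat_lit 274591906494731163057381071132929711179811170284911228830519033929389016623396798886734482783135745204216524366094329754086208560510280040304272157251995697152) :=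
  sem_of_chk (M (nat_lit 365) (B (M (nat_lit 461) (B (M (nat_lit 493) (B (M (nat_lit 364) (B (L (nat_lit 332) ln13_14_7 ln13_14_7_ok) (L (nat_lit 396) ln13_15_7 ln13_15_7_ok))) (M (nat_lit 492) (B (L (nat_lit 460) ln13_11_5 ln13_11_5_ok) (L (nat_lit 524) ln13_12_5 ln13_12_5_ok))))) (B (M (nat_lit 333) (B (M (nat_lit 460) (B (L (nat_lit 428) ln13_10_5 ln13_10_5_ok) (L (nat_lit 492) ln13_11_5 ln13_11_5_ok))) (M (nat_lit 462) (B (L (nat_lit 430) ln13_10_4 ln13_10_4_ok) (L (nat_lit 494) ln13_11_4 ln13_11_4_ok))))) (M (nat_lit 333) (B (M (nat_lit 332) (B (L (nat_lit 300) ln13_13_7 ln13_13_7_ok) (L (nat_lit 364) ln13_14_7 ln13_14_7_ok))) (M (nat_lit 462) (B (L (nat_lit 430) ln13_10_4 ln13_10_4_ok) (L (nat_lit 494) ln13_11_4 ln13_11_4_ok)))))))) (B (M (nat_lit 461) (B (M (nat_lit 493) (B (M (nat_lit 364) (B (L (nat_lit 332) ln13_14_7 ln13_14_7_ok) (L (nat_lit 396) ln13_15_7 ln13_15_7_ok))) (M (nat_lit 494)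 (B (L (nat_lit 462) ln13_11_4 ln13_11_4_ok) (L (nat_lit 526) ln13_12_4 ln13_12_4_ok))))) (M (nat_lit 333) (B (M (nat_lit 334) (B (L (nat_lit 302) ln13_13_6 ln13_13_6_ok) (L (nat_lit 366) ln13_14_6 ln13_14_6_ok))) (M (nat_lit 460) (B (L (nat_lit 428) ln13_10_5 ln13_10_5_ok) (L (nat_lit 492) ln13_11_5 ln13_11_5_ok))))))) (B (M (nat_lit 461) (B (M (nat_lit 493) (B (M (nat_lit 492) (B (L (nat_lit 460) ln13_11_5 ln13_11_5_ok) (L (nat_lit 524) ln13_12_5 ln13_12_5_ok))) (M (nat_lit 494) (B (L (nat_lit 462) ln13_11_4 ln13_11_4_ok) (L (nat_lit 526) ln13_12_4 ln13_12_4_ok))))) (B (M (nat_lit 493) (B (M (nat_lit 366) (B (L (nat_lit 334) ln13_14_6 ln13_14_6_ok) (L (nat_lit 398) ln13_15_6 ln13_15_6_ok))) (M (nat_lit 494) (B (L (nat_lit 462) ln13_11_4 ln13_11_4_ok) (L (nat_lit 526) ln13_12_4 ln13_12_4_ok))))) (B (M (nat_lit 493) (B (M (nat_lit 366) (B (L (nat_lit 334) ln13_14_6 ln13_14_6_ok) (L (nat_lit 398) ln13_15_6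 ln13_15_6_ok))) (M (nat_lit 492) (B (L (nat_lit 460) ln13_11_5 ln13_11_5_ok) (L (nat_lit 524) ln13_12_5 ln13_12_5_ok))))) (M (nat_lit 333) (B (M (nat_lit 334) (B (L (nat_lit 302) ln13_13_6 ln13_13_6_ok) (L (nat_lit 366) ln13_14_6 ln13_14_6_ok))) (M (nat_lit 460) (B (L (nat_lit 428) ln13_10_5 ln13_10_5_ok) (L (nat_lit 492) ln13_11_5 ln13_11_5_ok))))))))) (B (M (nat_lit 461) (B (M (nat_lit 493) (B (M (nat_lit 364) (B (L (nat_lit 332) ln13_14_7 ln13_14_7_ok) (L (nat_lit 396) ln13_15_7 ln13_15_7_ok))) (M (nat_lit 492) (B (L (nat_lit 460) ln13_11_5 ln13_11_5_ok) (L (nat_lit 524) ln13_12_5 ln13_12_5_ok))))) (B (M (nat_lit 493) (B (M (nat_lit 492) (B (L (nat_lit 460) ln13_11_5 ln13_11_5_ok) (L (nat_lit 524) ln13_12_5 ln13_12_5_ok))) (M (nat_lit 494) (B (L (nat_lit 462) ln13_11_4 ln13_11_4_ok) (L (nat_lit 526) ln13_12_4 ln13_12_4_ok))))) (B (M (nat_lit 493) (B (M (nat_lit 364) (B (L (nat_lit 332) ln13_14_7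 ln13_14_7_ok) (L (nat_lit 396) ln13_15_7 ln13_15_7_ok))) (M (nat_lit 494) (B (L (nat_lit 462) ln13_11_4 ln13_11_4_ok) (L (nat_lit 526) ln13_12_4 ln13_12_4_ok))))) (M (nat_lit 366) (B (L (nat_lit 334) ln13_14_6 ln13_14_6_ok) (M (nat_lit 430) (B (M (nat_lit 460) (B (L (nat_lit 492) ln13_11_5 ln13_11_5_ok) (M (nat_lit 431) (B (L (nat_lit 432) ln16_13_1 ln16_13_1_ok) (M (nat_lit 462) (B (L (nat_lit 494) ln13_11_4 ln13_11_4_ok) (L (nat_lit 459) ln11_14_2 ln11_14_2_ok))))))) (B (M (nat_lit 367) (B (M (nat_lit 396) (B (L (nat_lit 368) ln16_11_1 ln16_11_1_ok) (M (nat_lit 364) (B (L (nat_lit 332) ln13_14_7 ln13_14_7_ok) (L (nat_lit 395) ln15_11_1 ln15_11_1_ok))))) (B (M (nat_lit 396) (B (L (nat_lit 368) ln16_11_1 ln16_11_1_ok) (M (nat_lit 395) (B (L (nat_lit 364) ln15_11_1 ln15_11_1_ok) (L (nat_lit 394) ln10_12_2 ln10_12_2_ok))))) (B (M (nat_lit 396) (B (L (nat_lit 368) ln16_11_1 ln16_11_1_ok) (M (nat_lit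 395) (B (L (nat_lit 394) ln10_12_2 ln10_12_2_ok) (L (nat_lit 398) ln11_12_2 ln11_12_2_ok))))) (M (nat_lit 335) (B (M (nat_lit 364) (B (L (nat_lit 332) ln13_14_7 ln13_14_7_ok) (L (nat_lit 336) ln12_11_2 ln12_11_2_ok))) (M (nat_lit 462) (B (L (nat_lit 398) ln14_14_6 ln14_14_6_ok) (L (nat_lit 494) ln13_11_4 ln13_11_4_ok))))))))) (M (nat_lit 460) (B (L (nat_lit 492) ln13_11_5 ln13_11_5_ok) (M (nat_lit 431) (B (L (nat_lit 432) ln16_13_1 ln16_13_1_ok) (M (nat_lit 459) (B (L (nat_lit 428) ln15_13_1 ln15_13_1_ok) (L (nat_lit 458) ln10_14_2 ln10_14_2_ok)))))))))))))))) (B (M (nat_lit 461) (B (M (nat_lit 333) (B (M (nat_lit 334) (B (L (nat_lit 302) ln13_13_6 ln13_13_6_ok) (L (nat_lit 366) ln13_14_6 ln13_14_6_ok))) (M (nat_lit 462) (B (L (nat_lit 430) ln13_10_4 ln13_10_4_ok) (L (nat_lit 494) ln13_11_4 ln13_11_4_ok))))) (B (M (nat_lit 333) (B (M (nat_lit 332) (B (L (nat_lit 300) ln13_13_7 ln13_13_7_ok) (L (nat_lit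 364) ln13_14_7 ln13_14_7_ok))) (M (nat_lit 462) (B (L (nat_lit 430) ln13_10_4 ln13_10_4_ok) (L (nat_lit 494) ln13_11_4 ln13_11_4_ok))))) (B (M (nat_lit 493) (B (M (nat_lit 364) (B (L (nat_lit 332) ln13_14_7 ln13_14_7_ok) (L (nat_lit 396) ln13_15_7 ln13_15_7_ok))) (M (nat_lit 494) (B (L (nat_lit 462) ln13_11_4 ln13_11_4_ok) (L (nat_lit 526) ln13_12_4 ln13_12_4_ok))))) (M (nat_lit 333) (B (M (nat_lit 332) (B (L (nat_lit 300) ln13_13_7 ln13_13_7_ok) (L (nat_lit 364) ln13_14_7 ln13_14_7_ok))) (M (nat_lit 334) (B (L (nat_lit 302) ln13_13_6 ln13_13_6_ok) (L (nat_lit 366) ln13_14_6 ln13_14_6_ok))))))))) (B (M (nat_lit 333) (B (M (nat_lit 301) (B (M (nat_lit 428) (B (L (nat_lit 396) ln13_9_5 ln13_9_5_ok) (L (nat_lit 460) ln13_10_5 ln13_10_5_ok))) (M (nat_lit 430) (B (L (nat_lit 398) ln13_9_4 ln13_9_4_ok) (L (nat_lit 462) ln13_10_4 ln13_10_4_ok))))) (B (M (nat_lit 428) (B (L (nat_lit 460) ln13_10_5 ln13_10_5_ok)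 (M (nat_lit 430) (B (L (nat_lit 462) ln13_10_4 ln13_10_4_ok) (M (nat_lit 427) (B (M (nat_lit 398) (B (L (nat_lit 426) ln10_13_2 ln10_13_2_ok) (L (nat_lit 399) ln11_13_2 ln11_13_2_ok))) (B (M (nat_lit 426) (B (M (nat_lit 394) (B (L (nat_lit 393) ln13_13_3 ln13_13_3_ok) (L (nat_lit 395) ln14_13_3 ln14_13_3_ok))) (M (nat_lit 458) (B (L (nat_lit 457) ln13_13_1 ln13_13_1_ok) (L (nat_lit 459) ln14_13_1 ln14_13_1_ok))))) (M (nat_lit 431) (B (M (nat_lit 395) (B (L (nat_lit 394) ln14_13_3 ln14_13_3_ok) (L (nat_lit 396) ln15_13_3 ln15_13_3_ok))) (M (nat_lit 399) (B (L (nat_lit 398) ln11_13_2 ln11_13_2_ok) (L (nat_lit 400) ln12_13_2 ln12_13_2_ok)))))))))))) (B (M (nat_lit 301) (B (M (nat_lit 300) (B (L (nat_lit 268) ln13_12_7 ln13_12_7_ok) (L (nat_lit 332) ln13_13_7 ln13_13_7_ok))) (M (nat_lit 430) (B (L (nat_lit 398) ln13_9_4 ln13_9_4_ok) (L (nat_lit 462) ln13_10_4 ln13_10_4_ok))))) (M (nat_lit 301) (B (M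 (nat_lit 300) (B (L (nat_lit 268) ln13_12_7 ln13_12_7_ok) (L (nat_lit 332) ln13_13_7 ln13_13_7_ok))) (M (nat_lit 428) (B (L (nat_lit 396) ln13_9_5 ln13_9_5_ok) (L (nat_lit 460) ln13_10_5 ln13_10_5_ok))))))))) (M (nat_lit 461) (B (M (nat_lit 493) (B (M (nat_lit 366) (B (L (nat_lit 334) ln13_14_6 ln13_14_6_ok) (L (nat_lit 398) ln13_15_6 ln13_15_6_ok))) (M (nat_lit 492) (B (L (nat_lit 460) ln13_11_5 ln13_11_5_ok) (L (nat_lit 524) ln13_12_5 ln13_12_5_ok))))) (B (M (nat_lit 493) (B (M (nat_lit 364) (B (L (nat_lit 332) ln13_14_7 ln13_14_7_ok) (L (nat_lit 396) ln13_15_7 ln13_15_7_ok))) (M (nat_lit 492) (B (L (nat_lit 460) ln13_11_5 ln13_11_5_ok) (L (nat_lit 524) ln13_12_5 ln13_12_5_ok))))) (B (M (nat_lit 364) (B (L (nat_lit 332) ln13_14_7 ln13_14_7_ok) (M (nat_lit 493) (B (L (nat_lit 396) ln13_15_7 ln13_15_7_ok) (M (nat_lit 366) (B (L (nat_lit 334) ln13_14_6 ln13_14_6_ok) (L (nat_lit 398) ln13_15_6 ln13_15_6_ok)))))))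 (M (nat_lit 333) (B (M (nat_lit 332) (B (L (nat_lit 300) ln13_13_7 ln13_13_7_ok) (L (nat_lit 364) ln13_14_7 ln13_14_7_ok))) (M (nat_lit 334) (B (L (nat_lit 302) ln13_13_6 ln13_13_6_ok) (L (nat_lit 366) ln13_14_6 ln13_14_6_ok)))))))))))))))) (nat_lit 1386334847383188664550070665778531748218595021979121511688892729411143073470393764272092352380775458208712834410189682411080515584) (nat_lit 274591906494731163057381071132929711179811170284911228830519033929389016623396798886734482783135745204216524366094329754086208560510280040304272157251995697152) (nat_lit 274591906494731163057381071132929711179811170284911228830519033929389016623396798886734482783135745204216524366094329754086208560510280040304272157251995697152) (by decide +kernel)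
theorem c21_s2092 : Sem (nat_lit 5954262830815946494763249298843757173852324438261567950902348008252711619201165097221184162808274170258209505398083731990017737449713696768) (nat_lit 63933410375224129189363868801740635994816191490214741755559569660623674133782484613251046254067226004641411313237499849218567695000663712459753783296) (nat_lit 63933410375224129189363868801740635994816191490214741755559569660623674133782484613251046254067226004641411313237499849218567695000663712459753783296) :=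
  sem_of_chk (M (nat_lit 430) (B (M (nat_lit 462) (B (L (nat_lit 494) ln13_11_4 ln13_11_4_ok) (M (nat_lit 460) (B (L (nat_lit 492) ln13_11_5 ln13_11_5_ok) (M (nat_lit 459) (B (L (nat_lit 458) ln10_14_2 ln10_14_2_ok) (L (nat_lit 431) ln11_14_2 ln11_14_2_ok))))))) (B (M (nat_lit 366) (B (L (nat_lit 334) ln13_14_6 ln13_14_6_ok) (M (nat_lit 367) (B (M (nat_lit 396) (B (L (nat_lit 368) ln16_11_1 ln16_11_1_ok) (M (nat_lit 395) (B (L (nat_lit 394) ln10_12_2 ln10_12_2_ok) (L (nat_lit 398) ln11_12_2 ln11_12_2_ok))))) (B (M (nat_lit 462) (B (L (nat_lit 494) ln13_11_4 ln13_11_4_ok) (M (nat_lit 398) (B (L (nat_lit 335) ln14_14_6 ln14_14_6_ok) (M (nat_lit 427) (B (M (nat_lit 428) (B (L (nat_lit 426) ln10_13_2 ln10_13_2_ok) (L (nat_lit 399) ln11_13_2 ln11_13_2_ok))) (B (M (nat_lit 428) (B (L (nat_lit 426) ln10_13_2 ln10_13_2_ok) (M (nat_lit 395) (B (L (nat_lit 396) ln11_12_2 ln11_12_2_ok) (L (nat_lit 394) ln14_13_3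 ln14_13_3_ok))))) (B (M (nat_lit 428) (B (L (nat_lit 399) ln11_13_2 ln11_13_2_ok) (M (nat_lit 395) (B (L (nat_lit 396) ln11_12_2 ln11_12_2_ok) (L (nat_lit 394) ln14_13_3 ln14_13_3_ok))))) (M (nat_lit 460) (B (L (nat_lit 492) ln13_11_5 ln13_11_5_ok) (M (nat_lit 459) (B (L (nat_lit 426) ln14_14_3 ln14_14_3_ok) (L (nat_lit 458) ln10_14_2 ln10_14_2_ok))))))))))))) (B (M (nat_lit 398) (B (M (nat_lit 462) (B (L (nat_lit 335) ln14_14_6 ln14_14_6_ok) (L (nat_lit 494) ln14_15_7 ln14_15_7_ok))) (M (nat_lit 368) (B (L (nat_lit 396) ln16_11_1 ln16_11_1_ok) (L (nat_lit 369) ln17_11_1 ln17_11_1_ok))))) (B (M (nat_lit 368) (B (M (nat_lit 398) (B (L (nat_lit 369) ln17_11_1 ln17_11_1_ok) (M (nat_lit 462) (B (L (nat_lit 335) ln14_14_6 ln14_14_6_ok) (L (nat_lit 494) ln14_15_7 ln14_15_7_ok))))) (B (M (nat_lit 369) (B (L (nat_lit 398) ln17_11_1 ln17_11_1_ok) (M (nat_lit 337) (B (L (nat_lit 336) ln13_11_2 ln13_11_2_ok)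 (L (nat_lit 338) ln14_11_2 ln14_11_2_ok))))) (B (M (nat_lit 400) (B (L (nat_lit 401) ln13_11_0 ln13_11_0_ok) (M (nat_lit 335) (B (M (nat_lit 462) (B (L (nat_lit 398) ln14_14_6 ln14_14_6_ok) (L (nat_lit 494) ln13_11_4 ln13_11_4_ok))) (M (nat_lit 303) (B (L (nat_lit 271) ln15_8_4 ln15_8_4_ok) (M (nat_lit 432) (B (L (nat_lit 399) ln15_9_4 ln15_9_4_ok) (L (nat_lit 464) ln16_14_7 ln16_14_7_ok))))))))) (M (nat_lit 369) (B (M (nat_lit 337) (B (L (nat_lit 336) ln13_11_2 ln13_11_2_ok) (L (nat_lit 338) ln14_11_2 ln14_11_2_ok))) (M (nat_lit 401) (B (L (nat_lit 400) ln13_11_0 ln13_11_0_ok) (L (nat_lit 402) ln14_11_0 ln14_11_0_ok))))))))) (M (nat_lit 368) (B (L (nat_lit 396) ln16_11_1 ln16_11_1_ok) (M (nat_lit 369) (B (M (nat_lit 337) (B (L (nat_lit 336) ln13_11_2 ln13_11_2_ok) (L (nat_lit 338) ln14_11_2 ln14_11_2_ok))) (M (nat_lit 401) (B (L (nat_lit 400) ln13_11_0 ln13_11_0_ok) (L (nat_lit 402) ln14_11_0 ln14_11_0_ok))))))))))))))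 (B (M (nat_lit 462) (B (L (nat_lit 494) ln13_11_4 ln13_11_4_ok) (M (nat_lit 460) (B (L (nat_lit 492) ln13_11_5 ln13_11_5_ok) (M (nat_lit 431) (B (L (nat_lit 432) ln16_13_1 ln16_13_1_ok) (L (nat_lit 459) ln11_14_2 ln11_14_2_ok))))))) (B (M (nat_lit 366) (B (L (nat_lit 334) ln13_14_6 ln13_14_6_ok) (M (nat_lit 367) (B (M (nat_lit 396) (B (L (nat_lit 368) ln16_11_1 ln16_11_1_ok) (M (nat_lit 395) (B (L (nat_lit 394) ln10_12_2 ln10_12_2_ok) (L (nat_lit 398) ln11_12_2 ln11_12_2_ok))))) (B (M (nat_lit 462) (B (L (nat_lit 494) ln13_11_4 ln13_11_4_ok) (M (nat_lit 431) (B (M (nat_lit 335) (B (L (nat_lit 398) ln14_14_6 ln14_14_6_ok) (L (nat_lit 399) ln15_10_5 ln15_10_5_ok))) (M (nat_lit 460) (B (L (nat_lit 492) ln13_11_5 ln13_11_5_ok) (L (nat_lit 432) ln16_13_1 ln16_13_1_ok))))))) (M (nat_lit 396) (B (L (nat_lit 368) ln16_11_1 ln16_11_1_ok) (M (nat_lit 395) (B (L (nat_lit 394) ln10_12_2 ln10_12_2_ok) (M (nat_lit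 431) (B (L (nat_lit 428) ln15_13_3 ln15_13_3_ok) (L (nat_lit 432) ln16_13_3 ln16_13_3_ok)))))))))))) (B (M (nat_lit 396) (B (M (nat_lit 395) (B (L (nat_lit 394) ln10_12_0 ln10_12_0_ok) (M (nat_lit 431) (B (L (nat_lit 398) ln11_12_0 ln11_12_0_ok) (L (nat_lit 428) ln15_13_3 ln15_13_3_ok))))) (B (M (nat_lit 431) (B (L (nat_lit 432) ln16_13_3 ln16_13_3_ok) (M (nat_lit 395) (B (L (nat_lit 398) ln11_12_0 ln11_12_0_ok) (L (nat_lit 428) ln15_13_3 ln15_13_3_ok))))) (B (M (nat_lit 431) (B (L (nat_lit 432) ln16_13_3 ln16_13_3_ok) (M (nat_lit 399) (B (M (nat_lit 400) (B (L (nat_lit 428) ln12_13_2 ln12_13_2_ok) (M (nat_lit 401) (B (L (nat_lit 398) ln17_12_1 ln17_12_1_ok) (L (nat_lit 402) ln18_12_1 ln18_12_1_ok))))) (M (nat_lit 367) (B (M (nat_lit 462) (B (L (nat_lit 335) ln15_10_5 ln15_10_5_ok) (L (nat_lit 494) ln13_11_4 ln13_11_4_ok))) (M (nat_lit 366) (B (L (nat_lit 334) ln13_14_6 ln13_14_6_ok) (L (nat_lit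 368) ln16_11_1 ln16_11_1_ok))))))))) (B (M (nat_lit 395) (B (L (nat_lit 394) ln10_12_0 ln10_12_0_ok) (M (nat_lit 431) (B (L (nat_lit 428) ln15_13_3 ln15_13_3_ok) (L (nat_lit 432) ln16_13_3 ln16_13_3_ok))))) (B (M (nat_lit 395) (B (L (nat_lit 394) ln10_12_0 ln10_12_0_ok) (M (nat_lit 431) (B (L (nat_lit 398) ln11_12_0 ln11_12_0_ok) (L (nat_lit 432) ln16_13_3 ln16_13_3_ok))))) (M (nat_lit 366) (B (L (nat_lit 334) ln13_14_6 ln13_14_6_ok) (M (nat_lit 395) (B (L (nat_lit 394) ln10_12_2 ln10_12_2_ok) (M (nat_lit 367) (B (L (nat_lit 368) ln16_11_1 ln16_11_1_ok) (L (nat_lit 398) ln11_12_2 ln11_12_2_ok))))))))))))) (M (nat_lit 460) (B (L (nat_lit 492) ln13_11_5 ln13_11_5_ok) (M (nat_lit 431) (B (L (nat_lit 432) ln16_13_1 ln16_13_1_ok) (M (nat_lit 459) (B (L (nat_lit 428) ln15_13_1 ln15_13_1_ok) (L (nat_lit 458) ln10_14_2 ln10_14_2_ok))))))))))))) (nat_lit 5954262830815946494763249298843757173852324438261567950902348008252711619201165097221184162808274170258209505398083731990017737449713696768)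 (nat_lit 63933410375224129189363868801740635994816191490214741755559569660623674133782484613251046254067226004641411313237499849218567695000663712459753783296) (nat_lit 63933410375224129189363868801740635994816191490214741755559569660623674133782484613251046254067226004641411313237499849218567695000663712459753783296) (by decide +kernel)
theorem c21_s2127 : Sem (nat_lit 1386334847383188664550070665778531748218595021979121511688892729411143073470393764272092352380775458208712834410189682411080515584) (nat_lit 1179363258141160341632306725103559614965206777230793753298203178030819480829292526722042793111443364632910365826993477983878190385509305230099339297829654784197869436928) (nat_lit 1179363258141160341632306725103559614965206777230793753298203178030819480829292526722042793111443364632910365826993477983878190385509305230099339297829654784197869436928) :=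
  sem_of_chk (M (nat_lit 365) (B (M (nat_lit 461) (B (M (nat_lit 493) (B (M (nat_lit 366) (B (L (nat_lit 334) ln13_14_6 ln13_14_6_ok) (L (nat_lit 398) ln13_15_6 ln13_15_6_ok))) (M (nat_lit 492) (B (L (nat_lit 460) ln13_11_5 ln13_11_5_ok) (L (nat_lit 524) ln13_12_5 ln13_12_5_ok))))) (B (M (nat_lit 333) (B (M (nat_lit 460) (B (L (nat_lit 428) ln13_10_5 ln13_10_5_ok) (L (nat_lit 492) ln13_11_5 ln13_11_5_ok))) (M (nat_lit 462) (B (L (nat_lit 430) ln13_10_4 ln13_10_4_ok) (L (nat_lit 494) ln13_11_4 ln13_11_4_ok))))) (M (nat_lit 333) (B (M (nat_lit 334) (B (L (nat_lit 302) ln13_13_6 ln13_13_6_ok) (L (nat_lit 366) ln13_14_6 ln13_14_6_ok))) (M (nat_lit 462) (B (L (nat_lit 430) ln13_10_4 ln13_10_4_ok) (L (nat_lit 494) ln13_11_4 ln13_11_4_ok)))))))) (B (M (nat_lit 461) (B (M (nat_lit 493) (B (M (nat_lit 366) (B (L (nat_lit 334) ln13_14_6 ln13_14_6_ok) (L (nat_lit 398) ln13_15_6 ln13_15_6_ok))) (M (nat_lit 492)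 (B (L (nat_lit 460) ln13_11_5 ln13_11_5_ok) (L (nat_lit 524) ln13_12_5 ln13_12_5_ok))))) (B (M (nat_lit 493) (B (M (nat_lit 492) (B (L (nat_lit 460) ln13_11_5 ln13_11_5_ok) (L (nat_lit 524) ln13_12_5 ln13_12_5_ok))) (M (nat_lit 494) (B (L (nat_lit 462) ln13_11_4 ln13_11_4_ok) (L (nat_lit 526) ln13_12_4 ln13_12_4_ok))))) (B (M (nat_lit 493) (B (M (nat_lit 366) (B (L (nat_lit 334) ln13_14_6 ln13_14_6_ok) (L (nat_lit 398) ln13_15_6 ln13_15_6_ok))) (M (nat_lit 494) (B (L (nat_lit 462) ln13_11_4 ln13_11_4_ok) (L (nat_lit 526) ln13_12_4 ln13_12_4_ok))))) (M (nat_lit 333) (B (M (nat_lit 460) (B (L (nat_lit 428) ln13_10_5 ln13_10_5_ok) (L (nat_lit 492) ln13_11_5 ln13_11_5_ok))) (M (nat_lit 462) (B (L (nat_lit 430) ln13_10_4 ln13_10_4_ok) (L (nat_lit 494) ln13_11_4 ln13_11_4_ok))))))))) (B (M (nat_lit 461) (B (M (nat_lit 493) (B (M (nat_lit 366) (B (L (nat_lit 334) ln13_14_6 ln13_14_6_ok) (L (nat_lit 398)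 ln13_15_6 ln13_15_6_ok))) (M (nat_lit 492) (B (L (nat_lit 460) ln13_11_5 ln13_11_5_ok) (L (nat_lit 524) ln13_12_5 ln13_12_5_ok))))) (B (M (nat_lit 493) (B (M (nat_lit 492) (B (L (nat_lit 460) ln13_11_5 ln13_11_5_ok) (L (nat_lit 524) ln13_12_5 ln13_12_5_ok))) (M (nat_lit 494) (B (L (nat_lit 462) ln13_11_4 ln13_11_4_ok) (L (nat_lit 526) ln13_12_4 ln13_12_4_ok))))) (B (M (nat_lit 493) (B (M (nat_lit 366) (B (L (nat_lit 334) ln13_14_6 ln13_14_6_ok) (L (nat_lit 398) ln13_15_6 ln13_15_6_ok))) (M (nat_lit 494) (B (L (nat_lit 462) ln13_11_4 ln13_11_4_ok) (L (nat_lit 526) ln13_12_4 ln13_12_4_ok))))) (K (nat_lit 5954262830815946494763249298843757173852324438261567950902348008252711619201165097221184162808274170258209505398083731990017737449713696768) (nat_lit 63933410375224129189363868801740635994816191490214741755559569660623674133782484613251046254067226004641411313237499849218567695000663712459753783296)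 (nat_lit 63933410375224129189363868801740635994816191490214741755559569660623674133782484613251046254067226004641411313237499849218567695000663712459753783296) c21_s2092))))) (B (M (nat_lit 461) (B (M (nat_lit 333) (B (M (nat_lit 460) (B (L (nat_lit 428) ln13_10_5 ln13_10_5_ok) (L (nat_lit 492) ln13_11_5 ln13_11_5_ok))) (M (nat_lit 462) (B (L (nat_lit 430) ln13_10_4 ln13_10_4_ok) (L (nat_lit 494) ln13_11_4 ln13_11_4_ok))))) (B (M (nat_lit 493) (B (M (nat_lit 492) (B (L (nat_lit 460) ln13_11_5 ln13_11_5_ok) (L (nat_lit 524) ln13_12_5 ln13_12_5_ok))) (M (nat_lit 494) (B (L (nat_lit 462) ln13_11_4 ln13_11_4_ok) (L (nat_lit 526) ln13_12_4 ln13_12_4_ok))))) (B (M (nat_lit 493) (B (M (nat_lit 494) (B (L (nat_lit 462) ln13_11_4 ln13_11_4_ok) (L (nat_lit 526) ln13_12_4 ln13_12_4_ok))) (M (nat_lit 525) (B (M (nat_lit 398) (B (L (nat_lit 366) ln13_15_6 ln13_15_6_ok) (L (nat_lit 430) ln13_16_6 ln13_16_6_ok)))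 (M (nat_lit 524) (B (L (nat_lit 492) ln13_12_5 ln13_12_5_ok) (L (nat_lit 556) ln13_13_5 ln13_13_5_ok))))))) (B (M (nat_lit 493) (B (M (nat_lit 492) (B (L (nat_lit 460) ln13_11_5 ln13_11_5_ok) (L (nat_lit 524) ln13_12_5 ln13_12_5_ok))) (M (nat_lit 525) (B (M (nat_lit 398) (B (L (nat_lit 366) ln13_15_6 ln13_15_6_ok) (L (nat_lit 430) ln13_16_6 ln13_16_6_ok))) (M (nat_lit 526) (B (L (nat_lit 494) ln13_12_4 ln13_12_4_ok) (L (nat_lit 558) ln13_13_4 ln13_13_4_ok))))))) (B (M (nat_lit 333) (B (M (nat_lit 462) (B (L (nat_lit 430) ln13_10_4 ln13_10_4_ok) (L (nat_lit 494) ln13_11_4 ln13_11_4_ok))) (M (nat_lit 301) (B (M (nat_lit 300) (B (L (nat_lit 268) ln13_12_7 ln13_12_7_ok) (L (nat_lit 332) ln13_13_7 ln13_13_7_ok))) (M (nat_lit 428) (B (L (nat_lit 396) ln13_9_5 ln13_9_5_ok) (L (nat_lit 460) ln13_10_5 ln13_10_5_ok))))))) (M (nat_lit 333) (B (M (nat_lit 460) (B (L (nat_lit 428) ln13_10_5 ln13_10_5_ok) (L (nat_lit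 492) ln13_11_5 ln13_11_5_ok))) (M (nat_lit 301) (B (M (nat_lit 300) (B (L (nat_lit 268) ln13_12_7 ln13_12_7_ok) (L (nat_lit 332) ln13_13_7 ln13_13_7_ok))) (M (nat_lit 430) (B (L (nat_lit 398) ln13_9_4 ln13_9_4_ok) (L (nat_lit 462) ln13_10_4 ln13_10_4_ok))))))))))))) (B (M (nat_lit 461) (B (M (nat_lit 333) (B (M (nat_lit 460) (B (L (nat_lit 428) ln13_10_5 ln13_10_5_ok) (L (nat_lit 492) ln13_11_5 ln13_11_5_ok))) (M (nat_lit 462) (B (L (nat_lit 430) ln13_10_4 ln13_10_4_ok) (L (nat_lit 494) ln13_11_4 ln13_11_4_ok))))) (B (M (nat_lit 493) (B (M (nat_lit 492) (B (L (nat_lit 460) ln13_11_5 ln13_11_5_ok) (L (nat_lit 524) ln13_12_5 ln13_12_5_ok))) (M (nat_lit 494) (B (L (nat_lit 462) ln13_11_4 ln13_11_4_ok) (L (nat_lit 526) ln13_12_4 ln13_12_4_ok))))) (B (M (nat_lit 333) (B (M (nat_lit 462) (B (L (nat_lit 430) ln13_10_4 ln13_10_4_ok) (L (nat_lit 494) ln13_11_4 ln13_11_4_ok))) (M (nat_lit 301) (B (M (nat_lit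 300) (B (L (nat_lit 268) ln13_12_7 ln13_12_7_ok) (L (nat_lit 332) ln13_13_7 ln13_13_7_ok))) (M (nat_lit 302) (B (L (nat_lit 270) ln13_12_6 ln13_12_6_ok) (L (nat_lit 334) ln13_13_6 ln13_13_6_ok))))))) (M (nat_lit 333) (B (M (nat_lit 460) (B (L (nat_lit 428) ln13_10_5 ln13_10_5_ok) (L (nat_lit 492) ln13_11_5 ln13_11_5_ok))) (M (nat_lit 301) (B (M (nat_lit 300) (B (L (nat_lit 268) ln13_12_7 ln13_12_7_ok) (L (nat_lit 332) ln13_13_7 ln13_13_7_ok))) (M (nat_lit 302) (B (L (nat_lit 270) ln13_12_6 ln13_12_6_ok) (L (nat_lit 334) ln13_13_6 ln13_13_6_ok))))))))))) (B (M (nat_lit 461) (B (M (nat_lit 493) (B (M (nat_lit 366) (B (L (nat_lit 334) ln13_14_6 ln13_14_6_ok) (L (nat_lit 398) ln13_15_6 ln13_15_6_ok))) (M (nat_lit 492) (B (L (nat_lit 460) ln13_11_5 ln13_11_5_ok) (L (nat_lit 524) ln13_12_5 ln13_12_5_ok))))) (B (M (nat_lit 493) (B (M (nat_lit 492) (B (L (nat_lit 460) ln13_11_5 ln13_11_5_ok) (L (nat_lit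 524) ln13_12_5 ln13_12_5_ok))) (M (nat_lit 494) (B (L (nat_lit 462) ln13_11_4 ln13_11_4_ok) (L (nat_lit 526) ln13_12_4 ln13_12_4_ok))))) (B (M (nat_lit 493) (B (M (nat_lit 366) (B (L (nat_lit 334) ln13_14_6 ln13_14_6_ok) (L (nat_lit 398) ln13_15_6 ln13_15_6_ok))) (M (nat_lit 494) (B (L (nat_lit 462) ln13_11_4 ln13_11_4_ok) (L (nat_lit 526) ln13_12_4 ln13_12_4_ok))))) (M (nat_lit 333) (B (M (nat_lit 334) (B (L (nat_lit 302) ln13_13_6 ln13_13_6_ok) (L (nat_lit 366) ln13_14_6 ln13_14_6_ok))) (M (nat_lit 462) (B (L (nat_lit 430) ln13_10_4 ln13_10_4_ok) (L (nat_lit 494) ln13_11_4 ln13_11_4_ok))))))))) (B (M (nat_lit 461) (B (M (nat_lit 493) (B (M (nat_lit 492) (B (L (nat_lit 460) ln13_11_5 ln13_11_5_ok) (L (nat_lit 524) ln13_12_5 ln13_12_5_ok))) (M (nat_lit 494) (B (L (nat_lit 462) ln13_11_4 ln13_11_4_ok) (L (nat_lit 526) ln13_12_4 ln13_12_4_ok))))) (B (M (nat_lit 493) (B (M (nat_lit 366) (B (L (nat_lit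 334) ln13_14_6 ln13_14_6_ok) (L (nat_lit 398) ln13_15_6 ln13_15_6_ok))) (M (nat_lit 494) (B (L (nat_lit 462) ln13_11_4 ln13_11_4_ok) (L (nat_lit 526) ln13_12_4 ln13_12_4_ok))))) (B (M (nat_lit 493) (B (M (nat_lit 366) (B (L (nat_lit 334) ln13_14_6 ln13_14_6_ok) (L (nat_lit 398) ln13_15_6 ln13_15_6_ok))) (M (nat_lit 492) (B (L (nat_lit 460) ln13_11_5 ln13_11_5_ok) (L (nat_lit 524) ln13_12_5 ln13_12_5_ok))))) (M (nat_lit 333) (B (M (nat_lit 334) (B (L (nat_lit 302) ln13_13_6 ln13_13_6_ok) (L (nat_lit 366) ln13_14_6 ln13_14_6_ok))) (M (nat_lit 460) (B (L (nat_lit 428) ln13_10_5 ln13_10_5_ok) (L (nat_lit 492) ln13_11_5 ln13_11_5_ok))))))))) (B (M (nat_lit 461) (B (M (nat_lit 493) (B (M (nat_lit 366) (B (L (nat_lit 334) ln13_14_6 ln13_14_6_ok) (L (nat_lit 398) ln13_15_6 ln13_15_6_ok))) (M (nat_lit 494) (B (L (nat_lit 462) ln13_11_4 ln13_11_4_ok) (L (nat_lit 526) ln13_12_4 ln13_12_4_ok))))) (B (M (nat_lit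 493) (B (M (nat_lit 494) (B (L (nat_lit 462) ln13_11_4 ln13_11_4_ok) (L (nat_lit 526) ln13_12_4 ln13_12_4_ok))) (M (nat_lit 525) (B (M (nat_lit 398) (B (L (nat_lit 366) ln13_15_6 ln13_15_6_ok) (L (nat_lit 430) ln13_16_6 ln13_16_6_ok))) (M (nat_lit 524) (B (L (nat_lit 492) ln13_12_5 ln13_12_5_ok) (L (nat_lit 556) ln13_13_5 ln13_13_5_ok))))))) (B (M (nat_lit 333) (B (M (nat_lit 462) (B (L (nat_lit 430) ln13_10_4 ln13_10_4_ok) (L (nat_lit 494) ln13_11_4 ln13_11_4_ok))) (M (nat_lit 301) (B (M (nat_lit 300) (B (L (nat_lit 268) ln13_12_7 ln13_12_7_ok) (L (nat_lit 332) ln13_13_7 ln13_13_7_ok))) (M (nat_lit 302) (B (L (nat_lit 270) ln13_12_6 ln13_12_6_ok) (L (nat_lit 334) ln13_13_6 ln13_13_6_ok))))))) (B (M (nat_lit 493) (B (M (nat_lit 366) (B (L (nat_lit 334) ln13_14_6 ln13_14_6_ok) (L (nat_lit 398) ln13_15_6 ln13_15_6_ok))) (M (nat_lit 525) (B (M (nat_lit 524) (B (L (nat_lit 492) ln13_12_5 ln13_12_5_ok)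 (L (nat_lit 556) ln13_13_5 ln13_13_5_ok))) (M (nat_lit 526) (B (L (nat_lit 494) ln13_12_4 ln13_12_4_ok) (L (nat_lit 558) ln13_13_4 ln13_13_4_ok))))))) (M (nat_lit 333) (B (M (nat_lit 334) (B (L (nat_lit 302) ln13_13_6 ln13_13_6_ok) (L (nat_lit 366) ln13_14_6 ln13_14_6_ok))) (M (nat_lit 301) (B (M (nat_lit 300) (B (L (nat_lit 268) ln13_12_7 ln13_12_7_ok) (L (nat_lit 332) ln13_13_7 ln13_13_7_ok))) (M (nat_lit 430) (B (L (nat_lit 398) ln13_9_4 ln13_9_4_ok) (L (nat_lit 462) ln13_10_4 ln13_10_4_ok)))))))))))) (B (M (nat_lit 333) (B (M (nat_lit 301) (B (M (nat_lit 428) (B (L (nat_lit 396) ln13_9_5 ln13_9_5_ok) (L (nat_lit 460) ln13_10_5 ln13_10_5_ok))) (M (nat_lit 430) (B (L (nat_lit 398) ln13_9_4 ln13_9_4_ok) (L (nat_lit 462) ln13_10_4 ln13_10_4_ok))))) (B (M (nat_lit 428) (B (L (nat_lit 460) ln13_10_5 ln13_10_5_ok) (M (nat_lit 430) (B (L (nat_lit 462) ln13_10_4 ln13_10_4_ok) (M (nat_lit 427) (B (M (nat_lit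 398) (B (L (nat_lit 426) ln10_13_2 ln10_13_2_ok) (L (nat_lit 399) ln11_13_2 ln11_13_2_ok))) (B (M (nat_lit 426) (B (M (nat_lit 394) (B (L (nat_lit 393) ln13_13_3 ln13_13_3_ok) (L (nat_lit 395) ln14_13_3 ln14_13_3_ok))) (M (nat_lit 458) (B (L (nat_lit 457) ln13_13_1 ln13_13_1_ok) (L (nat_lit 459) ln14_13_1 ln14_13_1_ok))))) (M (nat_lit 431) (B (M (nat_lit 395) (B (L (nat_lit 394) ln14_13_3 ln14_13_3_ok) (L (nat_lit 396) ln15_13_3 ln15_13_3_ok))) (M (nat_lit 399) (B (L (nat_lit 398) ln11_13_2 ln11_13_2_ok) (L (nat_lit 400) ln12_13_2 ln12_13_2_ok)))))))))))) (B (M (nat_lit 301) (B (M (nat_lit 300) (B (L (nat_lit 268) ln13_12_7 ln13_12_7_ok) (L (nat_lit 332) ln13_13_7 ln13_13_7_ok))) (M (nat_lit 430) (B (L (nat_lit 398) ln13_9_4 ln13_9_4_ok) (L (nat_lit 462) ln13_10_4 ln13_10_4_ok))))) (M (nat_lit 301) (B (M (nat_lit 300) (B (L (nat_lit 268) ln13_12_7 ln13_12_7_ok) (L (nat_lit 332) ln13_13_7 ln13_13_7_ok)))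 (M (nat_lit 428) (B (L (nat_lit 396) ln13_9_5 ln13_9_5_ok) (L (nat_lit 460) ln13_10_5 ln13_10_5_ok))))))))) (M (nat_lit 461) (B (M (nat_lit 493) (B (M (nat_lit 366) (B (L (nat_lit 334) ln13_14_6 ln13_14_6_ok) (L (nat_lit 398) ln13_15_6 ln13_15_6_ok))) (M (nat_lit 492) (B (L (nat_lit 460) ln13_11_5 ln13_11_5_ok) (L (nat_lit 524) ln13_12_5 ln13_12_5_ok))))) (B (M (nat_lit 493) (B (M (nat_lit 492) (B (L (nat_lit 460) ln13_11_5 ln13_11_5_ok) (L (nat_lit 524) ln13_12_5 ln13_12_5_ok))) (M (nat_lit 525) (B (M (nat_lit 398) (B (L (nat_lit 366) ln13_15_6 ln13_15_6_ok) (L (nat_lit 430) ln13_16_6 ln13_16_6_ok))) (M (nat_lit 526) (B (L (nat_lit 494) ln13_12_4 ln13_12_4_ok) (L (nat_lit 558) ln13_13_4 ln13_13_4_ok))))))) (B (M (nat_lit 333) (B (M (nat_lit 460) (B (L (nat_lit 428) ln13_10_5 ln13_10_5_ok) (L (nat_lit 492) ln13_11_5 ln13_11_5_ok))) (M (nat_lit 301) (B (M (nat_lit 300) (B (L (nat_lit 268) ln13_12_7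 ln13_12_7_ok) (L (nat_lit 332) ln13_13_7 ln13_13_7_ok))) (M (nat_lit 302) (B (L (nat_lit 270) ln13_12_6 ln13_12_6_ok) (L (nat_lit 334) ln13_13_6 ln13_13_6_ok))))))) (B (M (nat_lit 493) (B (M (nat_lit 366) (B (L (nat_lit 334) ln13_14_6 ln13_14_6_ok) (L (nat_lit 398) ln13_15_6 ln13_15_6_ok))) (M (nat_lit 525) (B (M (nat_lit 524) (B (L (nat_lit 492) ln13_12_5 ln13_12_5_ok) (L (nat_lit 556) ln13_13_5 ln13_13_5_ok))) (M (nat_lit 526) (B (L (nat_lit 494) ln13_12_4 ln13_12_4_ok) (L (nat_lit 558) ln13_13_4 ln13_13_4_ok))))))) (M (nat_lit 333) (B (M (nat_lit 334) (B (L (nat_lit 302) ln13_13_6 ln13_13_6_ok) (L (nat_lit 366) ln13_14_6 ln13_14_6_ok))) (M (nat_lit 301) (B (M (nat_lit 300) (B (L (nat_lit 268) ln13_12_7 ln13_12_7_ok) (L (nat_lit 332) ln13_13_7 ln13_13_7_ok))) (M (nat_lit 428) (B (L (nat_lit 396) ln13_9_5 ln13_9_5_ok) (L (nat_lit 460) ln13_10_5 ln13_10_5_ok)))))))))))))))))))))) (nat_lit 1386334847383188664550070665778531748218595021979121511688892729411143073470393764272092352380775458208712834410189682411080515584)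 (nat_lit 1179363258141160341632306725103559614965206777230793753298203178030819480829292526722042793111443364632910365826993477983878190385509305230099339297829654784197869436928) (nat_lit 1179363258141160341632306725103559614965206777230793753298203178030819480829292526722042793111443364632910365826993477983878190385509305230099339297829654784197869436928) (by decide +kernel)
noncomputable def c21_n2216 : Cert := (M (nat_lit 427) (B (M (nat_lit 398) (B (L (nat_lit 426) ln10_13_2 ln10_13_2_ok) (M (nat_lit 399) (B (L (nat_lit 396) ln15_12_1 ln15_12_1_ok) (L (nat_lit 400) ln16_12_1 ln16_12_1_ok))))) (B (M (nat_lit 398) (B (L (nat_lit 426) ln10_13_2 ln10_13_2_ok) (M (nat_lit 399) (B (L (nat_lit 400) ln16_12_1 ln16_12_1_ok) (L (nat_lit 430) ln11_13_2 ln11_13_2_ok))))) (B (M (nat_lit 426) (B (M (nat_lit 425) (B (L (nat_lit 396) ln9_13_2 ln9_13_2_ok) (M (nat_lit 393) (B (L (nat_lit 392) ln12_13_3 ln12_13_3_ok)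 (L (nat_lit 394) ln13_13_3 ln13_13_3_ok))))) (B (M (nat_lit 425) (B (L (nat_lit 396) ln9_13_2 ln9_13_2_ok) (M (nat_lit 457) (B (L (nat_lit 456) ln12_13_1 ln12_13_1_ok) (L (nat_lit 458) ln13_13_1 ln13_13_1_ok))))) (B (M (nat_lit 425) (B (M (nat_lit 393) (B (L (nat_lit 392) ln12_13_3 ln12_13_3_ok) (L (nat_lit 394) ln13_13_3 ln13_13_3_ok))) (M (nat_lit 457) (B (L (nat_lit 456) ln12_13_1 ln12_13_1_ok) (L (nat_lit 458) ln13_13_1 ln13_13_1_ok))))) (M (nat_lit 430) (B (M (nat_lit 394) (B (L (nat_lit 393) ln13_13_3 ln13_13_3_ok) (L (nat_lit 395) ln14_13_3 ln14_13_3_ok))) (M (nat_lit 458) (B (L (nat_lit 457) ln13_13_1 ln13_13_1_ok) (L (nat_lit 459) ln14_13_1 ln14_13_1_ok))))))))) (M (nat_lit 395) (B (M (nat_lit 394) (B (L (nat_lit 430) ln14_13_3 ln14_13_3_ok) (M (nat_lit 393) (B (L (nat_lit 392) ln8_12_0 ln8_12_0_ok) (L (nat_lit 396) ln9_12_0 ln9_12_0_ok))))) (B (M (nat_lit 430) (B (L (nat_lit 394) ln14_13_3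 ln14_13_3_ok) (M (nat_lit 431) (B (L (nat_lit 396) ln15_13_3 ln15_13_3_ok) (M (nat_lit 459) (B (L (nat_lit 458) ln14_13_1 ln14_13_1_ok) (L (nat_lit 460) ln15_13_1 ln15_13_1_ok))))))) (B (M (nat_lit 363) (B (M (nat_lit 460) (B (L (nat_lit 331) ln11_10_4 ln11_10_4_ok) (M (nat_lit 492) (B (L (nat_lit 396) ln12_15_7 ln12_15_7_ok) (L (nat_lit 459) ln11_11_4 ln11_11_4_ok))))) (B (M (nat_lit 459) (B (M (nat_lit 460) (B (L (nat_lit 492) ln11_11_4 ln11_11_4_ok) (M (nat_lit 458) (B (L (nat_lit 490) ln11_11_5 ln11_11_5_ok) (L (nat_lit 457) ln9_14_2 ln9_14_2_ok))))) (M (nat_lit 396) (B (M (nat_lit 362) (B (L (nat_lit 330) ln11_14_7 ln11_14_7_ok) (L (nat_lit 398) ln14_12_3 ln14_12_3_ok))) (M (nat_lit 364) (B (L (nat_lit 332) ln11_14_6 ln11_14_6_ok) (L (nat_lit 491) ln11_15_6 ln11_15_6_ok))))))) (B (M (nat_lit 460) (B (L (nat_lit 331) ln11_10_4 ln11_10_4_ok) (M (nat_lit 492) (B (L (nat_lit 459) ln11_11_4 ln11_11_4_ok)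 (L (nat_lit 524) ln12_16_7 ln12_16_7_ok))))) (B (M (nat_lit 460) (B (L (nat_lit 331) ln11_10_4 ln11_10_4_ok) (M (nat_lit 492) (B (L (nat_lit 396) ln12_15_7 ln12_15_7_ok) (L (nat_lit 524) ln12_16_7 ln12_16_7_ok))))) (M (nat_lit 396) (B (M (nat_lit 398) (B (L (nat_lit 362) ln14_12_3 ln14_12_3_ok) (L (nat_lit 399) ln15_12_1 ln15_12_1_ok))) (M (nat_lit 332) (B (M (nat_lit 331) (B (L (nat_lit 299) ln11_9_4 ln11_9_4_ok) (L (nat_lit 300) ln11_13_6 ln11_13_6_ok))) (B (M (nat_lit 300) (B (L (nat_lit 331) ln11_13_6 ln11_13_6_ok) (L (nat_lit 364) ln12_9_5 ln12_9_5_ok))) (M (nat_lit 364) (B (L (nat_lit 459) ln11_14_6 ln11_14_6_ok) (L (nat_lit 461) ln12_10_4 ln12_10_4_ok))))))))))))) (M (nat_lit 430) (B (L (nat_lit 394) ln14_13_3 ln14_13_3_ok) (M (nat_lit 431) (B (M (nat_lit 399) (B (L (nat_lit 398) ln11_13_2 ln11_13_2_ok) (L (nat_lit 400) ln12_13_2 ln12_13_2_ok))) (M (nat_lit 459) (B (L (nat_lit 458) ln14_13_1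 ln14_13_1_ok) (L (nat_lit 460) ln15_13_1 ln15_13_1_ok)))))))))))))))
noncomputable def c21_n2247 : Cert := (M (nat_lit 427) (B (M (nat_lit 398) (B (L (nat_lit 426) ln10_13_2 ln10_13_2_ok) (M (nat_lit 399) (B (L (nat_lit 400) ln16_12_1 ln16_12_1_ok) (L (nat_lit 430) ln11_13_2 ln11_13_2_ok))))) (B (M (nat_lit 426) (B (M (nat_lit 425) (B (L (nat_lit 396) ln9_13_2 ln9_13_2_ok) (M (nat_lit 393) (B (L (nat_lit 392) ln12_13_3 ln12_13_3_ok) (L (nat_lit 394) ln13_13_3 ln13_13_3_ok))))) (B (M (nat_lit 425) (B (L (nat_lit 396) ln9_13_2 ln9_13_2_ok) (M (nat_lit 457) (B (L (nat_lit 456) ln12_13_1 ln12_13_1_ok) (L (nat_lit 458) ln13_13_1 ln13_13_1_ok))))) (B (M (nat_lit 425) (B (M (nat_lit 393) (B (L (nat_lit 392) ln12_13_3 ln12_13_3_ok) (L (nat_lit 394) ln13_13_3 ln13_13_3_ok))) (M (nat_lit 457) (B (L (nat_lit 456) ln12_13_1 ln12_13_1_ok) (L (nat_lit 458) ln13_13_1 ln13_13_1_ok))))) (M (nat_lit 430) (B (M (nat_lit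 394) (B (L (nat_lit 393) ln13_13_3 ln13_13_3_ok) (L (nat_lit 395) ln14_13_3 ln14_13_3_ok))) (M (nat_lit 458) (B (L (nat_lit 457) ln13_13_1 ln13_13_1_ok) (L (nat_lit 459) ln14_13_1 ln14_13_1_ok))))))))) (B (M (nat_lit 395) (B (M (nat_lit 394) (B (L (nat_lit 430) ln14_13_3 ln14_13_3_ok) (M (nat_lit 393) (B (L (nat_lit 392) ln8_12_0 ln8_12_0_ok) (L (nat_lit 396) ln9_12_0 ln9_12_0_ok))))) (B (M (nat_lit 430) (B (L (nat_lit 394) ln14_13_3 ln14_13_3_ok) (M (nat_lit 431) (B (L (nat_lit 396) ln15_13_3 ln15_13_3_ok) (M (nat_lit 459) (B (L (nat_lit 458) ln14_13_1 ln14_13_1_ok) (L (nat_lit 460) ln15_13_1 ln15_13_1_ok))))))) (B (M (nat_lit 396) (B (M (nat_lit 398) (B (L (nat_lit 399) ln15_12_1 ln15_12_1_ok) (M (nat_lit 363) (B (L (nat_lit 362) ln14_12_3 ln14_12_3_ok) (M (nat_lit 460) (B (L (nat_lit 331) ln11_10_4 ln11_10_4_ok) (L (nat_lit 492) ln12_15_7 ln12_15_7_ok))))))) (M (nat_lit 459) (B (M (nat_lit 491)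 (B (L (nat_lit 364) ln11_15_6 ln11_15_6_ok) (L (nat_lit 523) ln11_16_6 ln11_16_6_ok))) (M (nat_lit 430) (B (L (nat_lit 431) ln15_13_3 ln15_13_3_ok) (L (nat_lit 458) ln14_13_1 ln14_13_1_ok))))))) (B (M (nat_lit 430) (B (L (nat_lit 394) ln14_13_3 ln14_13_3_ok) (M (nat_lit 431) (B (M (nat_lit 399) (B (L (nat_lit 398) ln11_13_2 ln11_13_2_ok) (L (nat_lit 400) ln12_13_2 ln12_13_2_ok))) (M (nat_lit 459) (B (L (nat_lit 458) ln14_13_1 ln14_13_1_ok) (L (nat_lit 460) ln15_13_1 ln15_13_1_ok))))))) (M (nat_lit 363) (B (M (nat_lit 460) (B (L (nat_lit 331) ln11_10_4 ln11_10_4_ok) (M (nat_lit 492) (B (L (nat_lit 396) ln12_15_7 ln12_15_7_ok) (L (nat_lit 524) ln12_16_7 ln12_16_7_ok))))) (B (M (nat_lit 459) (B (M (nat_lit 460) (B (L (nat_lit 492) ln11_11_4 ln11_11_4_ok) (M (nat_lit 458) (B (L (nat_lit 490) ln11_11_5 ln11_11_5_ok) (L (nat_lit 457) ln9_14_2 ln9_14_2_ok))))) (M (nat_lit 396) (B (M (nat_lit 362) (B (L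 (nat_lit 330) ln11_14_7 ln11_14_7_ok) (L (nat_lit 398) ln14_12_3 ln14_12_3_ok))) (M (nat_lit 364) (B (L (nat_lit 332) ln11_14_6 ln11_14_6_ok) (L (nat_lit 491) ln11_15_6 ln11_15_6_ok))))))) (B (M (nat_lit 460) (B (L (nat_lit 331) ln11_10_4 ln11_10_4_ok) (M (nat_lit 492) (B (L (nat_lit 459) ln11_11_4 ln11_11_4_ok) (L (nat_lit 524) ln12_16_7 ln12_16_7_ok))))) (M (nat_lit 362) (B (M (nat_lit 330) (B (L (nat_lit 459) ln11_14_7 ln11_14_7_ok) (M (nat_lit 298) (B (L (nat_lit 266) ln10_8_4 ln10_8_4_ok) (L (nat_lit 394) ln10_9_4 ln10_9_4_ok))))) (B (M (nat_lit 330) (B (L (nat_lit 459) ln11_14_7 ln11_14_7_ok) (M (nat_lit 298) (B (L (nat_lit 331) ln11_13_7 ln11_13_7_ok) (L (nat_lit 394) ln10_9_4 ln10_9_4_ok))))) (B (M (nat_lit 396) (B (L (nat_lit 398) ln14_12_3 ln14_12_3_ok) (M (nat_lit 361) (B (L (nat_lit 360) ln8_11_0 ln8_11_0_ok) (L (nat_lit 394) ln13_12_3 ln13_12_3_ok))))) (M (nat_lit 330) (B (L (nat_lit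 459) ln11_14_7 ln11_14_7_ok) (M (nat_lit 298) (B (L (nat_lit 266) ln10_8_4 ln10_8_4_ok) (L (nat_lit 331) ln11_13_7 ln11_13_7_ok)))))))))))))))))) (M (nat_lit 398) (B (L (nat_lit 426) ln10_13_2 ln10_13_2_ok) (M (nat_lit 399) (B (L (nat_lit 396) ln15_12_1 ln15_12_1_ok) (L (nat_lit 400) ln16_12_1 ln16_12_1_ok)))))))))
noncomputable def c21_n2322 : Cert := (M (nat_lit 427) (B (M (nat_lit 398) (B (L (nat_lit 426) ln10_13_2 ln10_13_2_ok) (M (nat_lit 399) (B (L (nat_lit 396) ln15_12_1 ln15_12_1_ok) (L (nat_lit 400) ln16_12_1 ln16_12_1_ok))))) (B (M (nat_lit 398) (B (L (nat_lit 426) ln10_13_2 ln10_13_2_ok) (M (nat_lit 399) (B (L (nat_lit 400) ln16_12_1 ln16_12_1_ok) (L (nat_lit 430) ln11_13_2 ln11_13_2_ok))))) (B (M (nat_lit 426) (B (M (nat_lit 425) (B (L (nat_lit 396) ln9_13_2 ln9_13_2_ok) (M (nat_lit 393) (B (L (nat_lit 392) ln12_13_3 ln12_13_3_ok) (L (nat_lit 394) ln13_13_3 ln13_13_3_ok))))) (B (M (nat_lit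 425) (B (L (nat_lit 396) ln9_13_2 ln9_13_2_ok) (M (nat_lit 457) (B (L (nat_lit 456) ln12_13_1 ln12_13_1_ok) (L (nat_lit 458) ln13_13_1 ln13_13_1_ok))))) (B (M (nat_lit 425) (B (M (nat_lit 393) (B (L (nat_lit 392) ln12_13_3 ln12_13_3_ok) (L (nat_lit 394) ln13_13_3 ln13_13_3_ok))) (M (nat_lit 457) (B (L (nat_lit 456) ln12_13_1 ln12_13_1_ok) (L (nat_lit 458) ln13_13_1 ln13_13_1_ok))))) (M (nat_lit 430) (B (M (nat_lit 394) (B (L (nat_lit 393) ln13_13_3 ln13_13_3_ok) (L (nat_lit 395) ln14_13_3 ln14_13_3_ok))) (M (nat_lit 458) (B (L (nat_lit 457) ln13_13_1 ln13_13_1_ok) (L (nat_lit 459) ln14_13_1 ln14_13_1_ok))))))))) (M (nat_lit 395) (B (M (nat_lit 394) (B (L (nat_lit 430) ln14_13_3 ln14_13_3_ok) (M (nat_lit 393) (B (L (nat_lit 392) ln8_12_0 ln8_12_0_ok) (L (nat_lit 396) ln9_12_0 ln9_12_0_ok))))) (B (M (nat_lit 430) (B (L (nat_lit 394) ln14_13_3 ln14_13_3_ok) (M (nat_lit 431) (B (L (nat_lit 396) ln15_13_3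 ln15_13_3_ok) (M (nat_lit 459) (B (L (nat_lit 458) ln14_13_1 ln14_13_1_ok) (L (nat_lit 460) ln15_13_1 ln15_13_1_ok))))))) (B (M (nat_lit 398) (B (M (nat_lit 399) (B (L (nat_lit 396) ln15_12_1 ln15_12_1_ok) (L (nat_lit 400) ln16_12_1 ln16_12_1_ok))) (B (M (nat_lit 399) (B (L (nat_lit 400) ln16_12_1 ln16_12_1_ok) (L (nat_lit 430) ln11_13_2 ln11_13_2_ok))) (M (nat_lit 363) (B (M (nat_lit 460) (B (L (nat_lit 331) ln11_10_4 ln11_10_4_ok) (M (nat_lit 492) (B (L (nat_lit 459) ln11_11_4 ln11_11_4_ok) (L (nat_lit 524) ln12_16_7 ln12_16_7_ok))))) (B (M (nat_lit 459) (B (M (nat_lit 362) (B (L (nat_lit 330) ln11_14_7 ln11_14_7_ok) (L (nat_lit 396) ln14_12_3 ln14_12_3_ok))) (M (nat_lit 458) (B (L (nat_lit 490) ln11_11_5 ln11_11_5_ok) (L (nat_lit 430) ln14_13_1 ln14_13_1_ok))))) (M (nat_lit 460) (B (L (nat_lit 331) ln11_10_4 ln11_10_4_ok) (M (nat_lit 396) (B (L (nat_lit 362) ln14_12_3 ln14_12_3_ok) (L (nat_lit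 492) ln12_15_7 ln12_15_7_ok))))))))))) (B (M (nat_lit 430) (B (L (nat_lit 394) ln14_13_3 ln14_13_3_ok) (M (nat_lit 431) (B (M (nat_lit 399) (B (L (nat_lit 398) ln11_13_2 ln11_13_2_ok) (L (nat_lit 400) ln12_13_2 ln12_13_2_ok))) (M (nat_lit 459) (B (L (nat_lit 458) ln14_13_1 ln14_13_1_ok) (L (nat_lit 460) ln15_13_1 ln15_13_1_ok))))))) (M (nat_lit 363) (B (M (nat_lit 460) (B (L (nat_lit 331) ln11_10_4 ln11_10_4_ok) (M (nat_lit 492) (B (L (nat_lit 459) ln11_11_4 ln11_11_4_ok) (L (nat_lit 524) ln12_16_7 ln12_16_7_ok))))) (B (M (nat_lit 459) (B (M (nat_lit 460) (B (L (nat_lit 492) ln11_11_4 ln11_11_4_ok) (M (nat_lit 458) (B (L (nat_lit 490) ln11_11_5 ln11_11_5_ok) (L (nat_lit 457) ln9_14_2 ln9_14_2_ok))))) (M (nat_lit 394) (B (M (nat_lit 362) (B (L (nat_lit 330) ln11_14_7 ln11_14_7_ok) (L (nat_lit 491) ln11_15_7 ln11_15_7_ok))) (M (nat_lit 393) (B (L (nat_lit 392) ln8_12_0 ln8_12_0_ok) (L (nat_lit 396)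 ln9_12_0 ln9_12_0_ok))))))) (B (M (nat_lit 460) (B (L (nat_lit 331) ln11_10_4 ln11_10_4_ok) (M (nat_lit 492) (B (L (nat_lit 396) ln12_15_7 ln12_15_7_ok) (L (nat_lit 524) ln12_16_7 ln12_16_7_ok))))) (M (nat_lit 362) (B (M (nat_lit 330) (B (L (nat_lit 459) ln11_14_7 ln11_14_7_ok) (M (nat_lit 298) (B (L (nat_lit 266) ln10_8_4 ln10_8_4_ok) (L (nat_lit 394) ln10_9_4 ln10_9_4_ok))))) (B (M (nat_lit 330) (B (L (nat_lit 459) ln11_14_7 ln11_14_7_ok) (M (nat_lit 298) (B (L (nat_lit 331) ln11_13_7 ln11_13_7_ok) (L (nat_lit 394) ln10_9_4 ln10_9_4_ok))))) (B (M (nat_lit 396) (B (L (nat_lit 398) ln14_12_3 ln14_12_3_ok) (M (nat_lit 361) (B (L (nat_lit 360) ln8_11_0 ln8_11_0_ok) (L (nat_lit 394) ln13_12_3 ln13_12_3_ok))))) (M (nat_lit 330) (B (L (nat_lit 459) ln11_14_7 ln11_14_7_ok) (M (nat_lit 298) (B (L (nat_lit 266) ln10_8_4 ln10_8_4_ok) (L (nat_lit 331) ln11_13_7 ln11_13_7_ok))))))))))))))))))))))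
theorem c21_s2494 : Sem (nat_lit 2079502270913392379444674211814302674077704290823075655481512624564798400421800170032085953906810352733060637150540575368324055040) (nat_lit 192214334528410459259896055487420542462652411002248288833386992886020242780535232369039464134482663470856324184938745248143713269620802177937585633693882384384) (nat_lit 192214334528410459259896055487420542462652411002248288833386992886020242780535232369039464134482663470856324184938745248143713269620802177937585633693882384384) :=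
  sem_of_chk (M (nat_lit 396) (B (M (nat_lit 427) (B (M (nat_lit 426) (B (L (nat_lit 425) ln9_13_2 ln9_13_2_ok) (L (nat_lit 398) ln10_13_2 ln10_13_2_ok))) (M (nat_lit 459) (B (M (nat_lit 364) (B (L (nat_lit 332) ln12_10_5 ln12_10_5_ok) (M (nat_lit 491) (B (L (nat_lit 460) ln12_11_5 ln12_11_5_ok) (L (nat_lit 523) ln11_16_6 ln11_16_6_ok))))) (M (nat_lit 430) (B (L (nat_lit 458) ln14_13_1 ln14_13_1_ok) (M (nat_lit 431) (B (L (nat_lit 395) ln15_13_3 ln15_13_3_ok) (L (nat_lit 432) ln16_13_3 ln16_13_3_ok))))))))) (B (M (nat_lit 427) (B (M (nat_lit 398) (B (L (nat_lit 399) ln15_12_1 ln15_12_1_ok) (L (nat_lit 426) ln10_13_2 ln10_13_2_ok))) (B (M (nat_lit 461) (B (M (nat_lit 493) (B (L (nat_lit 364) ln13_15_7 ln13_15_7_ok) (L (nat_lit 525) ln13_16_7 ln13_16_7_ok))) (M (nat_lit 426) (B (L (nat_lit 425) ln9_13_2 ln9_13_2_ok) (L (nat_lit 462) ln10_13_0 ln10_13_0_ok))))) (M (nat_lit 395) (B (M (nat_lit 363) (B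 (M (nat_lit 331) (B (L (nat_lit 299) ln11_9_4 ln11_9_4_ok) (L (nat_lit 460) ln11_10_4 ln11_10_4_ok))) (M (nat_lit 398) (B (L (nat_lit 362) ln14_12_3 ln14_12_3_ok) (L (nat_lit 399) ln15_12_1 ln15_12_1_ok))))) (M (nat_lit 459) (B (M (nat_lit 491) (B (L (nat_lit 364) ln11_15_6 ln11_15_6_ok) (L (nat_lit 523) ln11_16_6 ln11_16_6_ok))) (M (nat_lit 430) (B (L (nat_lit 431) ln15_13_3 ln15_13_3_ok) (L (nat_lit 458) ln14_13_1 ln14_13_1_ok)))))))))) (B (M (nat_lit 398) (B (M (nat_lit 399) (B (L (nat_lit 427) ln15_12_1 ln15_12_1_ok) (L (nat_lit 400) ln16_12_1 ln16_12_1_ok))) (B (M (nat_lit 395) (B (M (nat_lit 430) (B (L (nat_lit 431) ln11_12_0 ln11_12_0_ok) (M (nat_lit 366) (B (L (nat_lit 367) ln11_12_2 ln11_12_2_ok) (M (nat_lit 334) (B (L (nat_lit 302) ln14_9_5 ln14_9_5_ok) (L (nat_lit 461) ln14_10_5 ln14_10_5_ok))))))) (M (nat_lit 427) (B (L (nat_lit 426) ln14_12_1 ln14_12_1_ok) (M (nat_lit 363) (B (L (nat_lit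 362) ln14_12_3 ln14_12_3_ok) (M (nat_lit 331) (B (L (nat_lit 299) ln11_9_4 ln11_9_4_ok) (L (nat_lit 460) ln11_10_4 ln11_10_4_ok))))))))) (M (nat_lit 399) (B (L (nat_lit 400) ln16_12_1 ln16_12_1_ok) (M (nat_lit 395) (B (M (nat_lit 367) (B (L (nat_lit 366) ln11_12_2 ln11_12_2_ok) (L (nat_lit 368) ln12_12_2 ln12_12_2_ok))) (M (nat_lit 431) (B (L (nat_lit 430) ln11_12_0 ln11_12_0_ok) (L (nat_lit 432) ln12_12_0 ln12_12_0_ok)))))))))) (B (M (nat_lit 427) (B (M (nat_lit 398) (B (L (nat_lit 399) ln15_12_1 ln15_12_1_ok) (L (nat_lit 426) ln10_13_2 ln10_13_2_ok))) (B (M (nat_lit 461) (B (M (nat_lit 493) (B (L (nat_lit 364) ln13_15_7 ln13_15_7_ok) (L (nat_lit 525) ln13_16_7 ln13_16_7_ok))) (M (nat_lit 426) (B (L (nat_lit 425) ln9_13_2 ln9_13_2_ok) (L (nat_lit 462) ln10_13_0 ln10_13_0_ok))))) (M (nat_lit 364) (B (M (nat_lit 332) (B (L (nat_lit 300) ln12_9_4 ln12_9_4_ok) (L (nat_lit 459) ln12_10_5 ln12_10_5_ok)))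 (B (M (nat_lit 332) (B (L (nat_lit 459) ln12_10_5 ln12_10_5_ok) (L (nat_lit 461) ln12_10_4 ln12_10_4_ok))) (B (M (nat_lit 460) (B (M (nat_lit 493) (B (L (nat_lit 461) ln13_15_7 ln13_15_7_ok) (M (nat_lit 492) (B (L (nat_lit 525) ln12_12_4 ln12_12_4_ok) (L (nat_lit 524) ln12_16_6 ln12_16_6_ok))))) (M (nat_lit 459) (B (L (nat_lit 491) ln12_11_5 ln12_11_5_ok) (M (nat_lit 430) (B (L (nat_lit 458) ln14_13_1 ln14_13_1_ok) (L (nat_lit 431) ln15_13_1 ln15_13_1_ok))))))) (M (nat_lit 461) (B (L (nat_lit 332) ln12_10_4 ln12_10_4_ok) (L (nat_lit 493) ln13_15_7 ln13_15_7_ok)))))))))) (B (M (nat_lit 364) (B (M (nat_lit 332) (B (L (nat_lit 300) ln12_9_4 ln12_9_4_ok) (L (nat_lit 461) ln12_10_4 ln12_10_4_ok))) (B (M (nat_lit 461) (B (L (nat_lit 332) ln12_10_4 ln12_10_4_ok) (L (nat_lit 493) ln13_15_7 ln13_15_7_ok))) (B (M (nat_lit 460) (B (M (nat_lit 493) (B (L (nat_lit 461) ln13_15_7 ln13_15_7_ok) (M (nat_lit 492)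 (B (L (nat_lit 525) ln12_12_4 ln12_12_4_ok) (L (nat_lit 524) ln12_16_6 ln12_16_6_ok))))) (B (M (nat_lit 492) (B (L (nat_lit 524) ln12_16_6 ln12_16_6_ok) (M (nat_lit 491) (B (L (nat_lit 459) ln12_11_5 ln12_11_5_ok) (L (nat_lit 523) ln12_12_5 ln12_12_5_ok))))) (M (nat_lit 461) (B (L (nat_lit 493) ln13_15_7 ln13_15_7_ok) (M (nat_lit 459) (B (L (nat_lit 491) ln12_11_5 ln12_11_5_ok) (M (nat_lit 430) (B (L (nat_lit 431) ln15_13_1 ln15_13_1_ok) (L (nat_lit 458) ln10_14_2 ln10_14_2_ok)))))))))) (M (nat_lit 332) (B (L (nat_lit 300) ln12_9_4 ln12_9_4_ok) (M (nat_lit 460) (B (M (nat_lit 331) (B (L (nat_lit 299) ln12_13_7 ln12_13_7_ok) (L (nat_lit 363) ln12_14_7 ln12_14_7_ok))) (M (nat_lit 459) (B (L (nat_lit 427) ln12_10_5 ln12_10_5_ok) (L (nat_lit 491) ln12_11_5 ln12_11_5_ok))))))))))) (B (M (nat_lit 364) (B (M (nat_lit 332) (B (L (nat_lit 300) ln12_9_4 ln12_9_4_ok) (L (nat_lit 461) ln12_10_4 ln12_10_4_ok)))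 (B (M (nat_lit 461) (B (L (nat_lit 332) ln12_10_4 ln12_10_4_ok) (L (nat_lit 493) ln13_15_7 ln13_15_7_ok))) (B (M (nat_lit 460) (B (M (nat_lit 493) (B (L (nat_lit 461) ln13_15_7 ln13_15_7_ok) (M (nat_lit 492) (B (L (nat_lit 525) ln12_12_4 ln12_12_4_ok) (L (nat_lit 524) ln12_16_6 ln12_16_6_ok))))) (B (M (nat_lit 492) (B (L (nat_lit 524) ln12_16_6 ln12_16_6_ok) (M (nat_lit 491) (B (L (nat_lit 459) ln12_11_5 ln12_11_5_ok) (L (nat_lit 523) ln12_12_5 ln12_12_5_ok))))) (M (nat_lit 461) (B (L (nat_lit 493) ln13_15_7 ln13_15_7_ok) (M (nat_lit 459) (B (L (nat_lit 491) ln12_11_5 ln12_11_5_ok) (M (nat_lit 430) (B (L (nat_lit 431) ln15_13_1 ln15_13_1_ok) (L (nat_lit 458) ln10_14_2 ln10_14_2_ok)))))))))) (M (nat_lit 460) (B (M (nat_lit 492) (B (L (nat_lit 524) ln12_16_6 ln12_16_6_ok) (M (nat_lit 491) (B (L (nat_lit 459) ln12_11_5 ln12_11_5_ok) (L (nat_lit 523) ln12_12_5 ln12_12_5_ok))))) (M (nat_lit 331) (B (L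 (nat_lit 363) ln12_14_7 ln12_14_7_ok) (M (nat_lit 332) (B (L (nat_lit 299) ln12_13_7 ln12_13_7_ok) (L (nat_lit 300) ln12_9_4 ln12_9_4_ok))))))))))) (B (M (nat_lit 364) (B (M (nat_lit 332) (B (L (nat_lit 300) ln12_9_4 ln12_9_4_ok) (L (nat_lit 461) ln12_10_4 ln12_10_4_ok))) (B (M (nat_lit 461) (B (L (nat_lit 332) ln12_10_4 ln12_10_4_ok) (L (nat_lit 493) ln13_15_7 ln13_15_7_ok))) (B (M (nat_lit 398) (B (M (nat_lit 399) (B (L (nat_lit 363) ln15_12_3 ln15_12_3_ok) (L (nat_lit 427) ln15_12_1 ln15_12_1_ok))) (B (M (nat_lit 399) (B (L (nat_lit 427) ln15_12_1 ln15_12_1_ok) (L (nat_lit 400) ln16_12_1 ln16_12_1_ok))) (M (nat_lit 460) (B (M (nat_lit 493) (B (L (nat_lit 461) ln13_15_7 ln13_15_7_ok) (M (nat_lit 492) (B (L (nat_lit 525) ln12_12_4 ln12_12_4_ok) (L (nat_lit 524) ln12_16_6 ln12_16_6_ok))))) (M (nat_lit 363) (B (L (nat_lit 331) ln12_14_7 ln12_14_7_ok) (M (nat_lit 362) (B (L (nat_lit 361) ln9_11_0 ln9_11_0_ok)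 (L (nat_lit 395) ln14_12_3 ln14_12_3_ok)))))))))) (M (nat_lit 427) (B (M (nat_lit 332) (B (L (nat_lit 300) ln12_9_4 ln12_9_4_ok) (L (nat_lit 459) ln12_10_5 ln12_10_5_ok))) (M (nat_lit 398) (B (L (nat_lit 399) ln15_12_1 ln15_12_1_ok) (L (nat_lit 426) ln10_13_2 ln10_13_2_ok))))))))) (M (nat_lit 427) (B (M (nat_lit 398) (B (L (nat_lit 399) ln15_12_1 ln15_12_1_ok) (L (nat_lit 426) ln10_13_2 ln10_13_2_ok))) (B (M (nat_lit 461) (B (M (nat_lit 493) (B (L (nat_lit 364) ln13_15_7 ln13_15_7_ok) (L (nat_lit 525) ln13_16_7 ln13_16_7_ok))) (M (nat_lit 426) (B (L (nat_lit 425) ln9_13_2 ln9_13_2_ok) (L (nat_lit 462) ln10_13_0 ln10_13_0_ok))))) (M (nat_lit 364) (B (M (nat_lit 332) (B (L (nat_lit 300) ln12_9_4 ln12_9_4_ok) (L (nat_lit 459) ln12_10_5 ln12_10_5_ok))) (B (M (nat_lit 332) (B (L (nat_lit 459) ln12_10_5 ln12_10_5_ok) (L (nat_lit 461) ln12_10_4 ln12_10_4_ok))) (B (M (nat_lit 430) (B (M (nat_lit 431) (B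 (L (nat_lit 395) ln15_13_3 ln15_13_3_ok) (L (nat_lit 432) ln16_13_3 ln16_13_3_ok))) (B (M (nat_lit 399) (B (L (nat_lit 398) ln15_12_1 ln15_12_1_ok) (M (nat_lit 431) (B (L (nat_lit 432) ln16_13_3 ln16_13_3_ok) (L (nat_lit 400) ln12_13_2 ln12_13_2_ok))))) (M (nat_lit 459) (B (L (nat_lit 458) ln14_13_1 ln14_13_1_ok) (M (nat_lit 491) (B (L (nat_lit 395) ln11_15_6 ln11_15_6_ok) (L (nat_lit 523) ln11_16_6 ln11_16_6_ok)))))))) (M (nat_lit 332) (B (L (nat_lit 300) ln12_9_4 ln12_9_4_ok) (L (nat_lit 461) ln12_10_4 ln12_10_4_ok)))))))))))))))))) (nat_lit 2079502270913392379444674211814302674077704290823075655481512624564798400421800170032085953906810352733060637150540575368324055040) (nat_lit 192214334528410459259896055487420542462652411002248288833386992886020242780535232369039464134482663470856324184938745248143713269620802177937585633693882384384) (nat_lit 192214334528410459259896055487420542462652411002248288833386992886020242780535232369039464134482663470856324184938745248143713269620802177937585633693882384384)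 (by decide +kernel)
theorem c21_s2671 : Sem (nat_lit 25573364124188608364676800183910489942684633301100695301282662782454341035167127990989459807134417129197569679177941771172170024105825019898235977728) (nat_lit 58968163763098285472842242617183170858782947248805428680388942365940260015536863808481509553613403854804805201125481909970286377213425248847158458011507267122157846528) (nat_lit 58968163763098285472842242617183170858782947248805428680388942365940260015536863808481509553613403854804805201125481909970286377213425248847158458011507267122157846528) :=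
  sem_of_chk (M (nat_lit 492) (B (M (nat_lit 460) (B (L (nat_lit 524) ln12_16_6 ln12_16_6_ok) (M (nat_lit 459) (B (L (nat_lit 458) ln14_13_1 ln14_13_1_ok) (M (nat_lit 396) (B (L (nat_lit 525) ln12_12_4 ln12_12_4_ok) (M (nat_lit 364) (B (L (nat_lit 332) ln12_10_5 ln12_10_5_ok) (L (nat_lit 491) ln12_11_5 ln12_11_5_ok))))))))) (B (M (nat_lit 460) (B (L (nat_lit 524) ln12_16_6 ln12_16_6_ok) (M (nat_lit 494) (B (M (nat_lit 462) (B (L (nat_lit 526) ln14_16_7 ln14_16_7_ok) (L (nat_lit 525) ln14_12_5 ln14_12_5_ok))) (M (nat_lit 459) (B (L (nat_lit 458) ln14_13_1 ln14_13_1_ok) (L (nat_lit 495) ln15_15_3 ln15_15_3_ok))))))) (B (M (nat_lit 491) (B (M (nat_lit 460) (B (L (nat_lit 524) ln12_16_6 ln12_16_6_ok) (M (nat_lit 396) (B (L (nat_lit 523) ln12_12_5 ln12_12_5_ok) (L (nat_lit 525) ln12_12_4 ln12_12_4_ok))))) (B (M (nat_lit 494) (B (M (nat_lit 462) (B (L (nat_lit 526) ln14_16_7 ln14_16_7_ok) (L (nat_lit 525)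 ln14_12_5 ln14_12_5_ok))) (B (M (nat_lit 490) (B (M (nat_lit 522) (B (L (nat_lit 521) ln13_15_1 ln13_15_1_ok) (L (nat_lit 523) ln14_15_1 ln14_15_1_ok))) (M (nat_lit 526) (B (L (nat_lit 525) ln10_15_0 ln10_15_0_ok) (L (nat_lit 527) ln11_15_0 ln11_15_0_ok))))) (B (M (nat_lit 526) (B (L (nat_lit 462) ln14_16_7 ln14_16_7_ok) (L (nat_lit 527) ln11_15_0 ln11_15_0_ok))) (M (nat_lit 495) (B (M (nat_lit 462) (B (L (nat_lit 525) ln14_12_5 ln14_12_5_ok) (L (nat_lit 527) ln14_12_4 ln14_12_4_ok))) (M (nat_lit 523) (B (L (nat_lit 522) ln14_15_1 ln14_15_1_ok) (L (nat_lit 524) ln15_15_1 ln15_15_1_ok))))))))) (B (M (nat_lit 460) (B (L (nat_lit 524) ln12_16_6 ln12_16_6_ok) (M (nat_lit 526) (B (M (nat_lit 525) (B (L (nat_lit 396) ln12_12_4 ln12_12_4_ok) (L (nat_lit 490) ln10_15_0 ln10_15_0_ok))) (M (nat_lit 494) (B (L (nat_lit 462) ln14_16_7 ln14_16_7_ok) (L (nat_lit 527) ln11_15_0 ln11_15_0_ok))))))) (M (nat_lit 494)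 (B (M (nat_lit 526) (B (L (nat_lit 462) ln14_16_7 ln14_16_7_ok) (L (nat_lit 527) ln11_15_0 ln11_15_0_ok))) (M (nat_lit 523) (B (L (nat_lit 522) ln14_15_1 ln14_15_1_ok) (M (nat_lit 396) (B (L (nat_lit 459) ln11_16_6 ln11_16_6_ok) (L (nat_lit 460) ln12_12_5 ln12_12_5_ok))))))))))) (B (M (nat_lit 494) (B (M (nat_lit 462) (B (L (nat_lit 526) ln14_16_7 ln14_16_7_ok) (L (nat_lit 525) ln14_12_5 ln14_12_5_ok))) (M (nat_lit 524) (B (L (nat_lit 460) ln12_16_6 ln12_16_6_ok) (M (nat_lit 523) (B (L (nat_lit 495) ln15_15_1 ln15_15_1_ok) (M (nat_lit 522) (B (L (nat_lit 491) ln14_15_1 ln14_15_1_ok) (L (nat_lit 521) ln9_16_2 ln9_16_2_ok))))))))) (B (M (nat_lit 491) (B (M (nat_lit 459) (B (L (nat_lit 458) ln14_13_1 ln14_13_1_ok) (M (nat_lit 523) (B (L (nat_lit 396) ln11_16_6 ln11_16_6_ok) (M (nat_lit 522) (B (L (nat_lit 554) ln11_13_5 ln11_13_5_ok) (L (nat_lit 494) ln14_15_1 ln14_15_1_ok))))))) (B (M (nat_lit 458)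 (B (L (nat_lit 459) ln14_13_1 ln14_13_1_ok) (M (nat_lit 526) (B (M (nat_lit 490) (B (L (nat_lit 457) ln13_15_3 ln13_15_3_ok) (L (nat_lit 525) ln10_15_0 ln10_15_0_ok))) (M (nat_lit 494) (B (L (nat_lit 462) ln14_16_7 ln14_16_7_ok) (L (nat_lit 527) ln11_15_0 ln11_15_0_ok))))))) (B (M (nat_lit 494) (B (M (nat_lit 462) (B (L (nat_lit 526) ln14_16_7 ln14_16_7_ok) (L (nat_lit 525) ln14_12_5 ln14_12_5_ok))) (B (M (nat_lit 490) (B (M (nat_lit 522) (B (L (nat_lit 521) ln13_15_1 ln13_15_1_ok) (L (nat_lit 523) ln14_15_1 ln14_15_1_ok))) (M (nat_lit 526) (B (L (nat_lit 525) ln10_15_0 ln10_15_0_ok) (L (nat_lit 527) ln11_15_0 ln11_15_0_ok))))) (B (M (nat_lit 526) (B (L (nat_lit 462) ln14_16_7 ln14_16_7_ok) (L (nat_lit 527) ln11_15_0 ln11_15_0_ok))) (M (nat_lit 495) (B (M (nat_lit 462) (B (L (nat_lit 525) ln14_12_5 ln14_12_5_ok) (L (nat_lit 527) ln14_12_4 ln14_12_4_ok))) (M (nat_lit 523) (B (L (nat_lit 522) ln14_15_1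 ln14_15_1_ok) (L (nat_lit 524) ln15_15_1 ln15_15_1_ok))))))))) (M (nat_lit 490) (B (M (nat_lit 458) (B (L (nat_lit 459) ln14_13_1 ln14_13_1_ok) (L (nat_lit 457) ln13_15_3 ln13_15_3_ok))) (M (nat_lit 489) (B (M (nat_lit 521) (B (L (nat_lit 520) ln12_15_1 ln12_15_1_ok) (L (nat_lit 522) ln13_15_1 ln13_15_1_ok))) (M (nat_lit 525) (B (L (nat_lit 524) ln9_15_0 ln9_15_0_ok) (L (nat_lit 526) ln10_15_0 ln10_15_0_ok))))))))))) (B (M (nat_lit 494) (B (M (nat_lit 462) (B (L (nat_lit 526) ln14_16_7 ln14_16_7_ok) (L (nat_lit 525) ln14_12_5 ln14_12_5_ok))) (B (M (nat_lit 491) (B (M (nat_lit 523) (B (L (nat_lit 522) ln14_15_1 ln14_15_1_ok) (M (nat_lit 396) (B (L (nat_lit 459) ln11_16_6 ln11_16_6_ok) (L (nat_lit 460) ln12_12_5 ln12_12_5_ok))))) (B (M (nat_lit 490) (B (M (nat_lit 522) (B (L (nat_lit 521) ln13_15_1 ln13_15_1_ok) (L (nat_lit 523) ln14_15_1 ln14_15_1_ok))) (M (nat_lit 526) (B (L (nat_lit 525) ln10_15_0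 ln10_15_0_ok) (L (nat_lit 527) ln11_15_0 ln11_15_0_ok))))) (M (nat_lit 490) (B (M (nat_lit 458) (B (L (nat_lit 459) ln14_13_1 ln14_13_1_ok) (L (nat_lit 457) ln13_15_3 ln13_15_3_ok))) (M (nat_lit 526) (B (L (nat_lit 525) ln10_15_0 ln10_15_0_ok) (L (nat_lit 527) ln11_15_0 ln11_15_0_ok)))))))) (B (M (nat_lit 495) (B (M (nat_lit 462) (B (L (nat_lit 526) ln14_16_7 ln14_16_7_ok) (L (nat_lit 527) ln14_12_4 ln14_12_4_ok))) (M (nat_lit 459) (B (L (nat_lit 458) ln14_13_1 ln14_13_1_ok) (L (nat_lit 460) ln15_15_3 ln15_15_3_ok))))) (M (nat_lit 460) (B (M (nat_lit 525) (B (L (nat_lit 396) ln12_12_4 ln12_12_4_ok) (L (nat_lit 462) ln14_12_5 ln14_12_5_ok))) (M (nat_lit 459) (B (L (nat_lit 458) ln14_13_1 ln14_13_1_ok) (L (nat_lit 495) ln15_15_3 ln15_15_3_ok))))))))) (M (nat_lit 460) (B (L (nat_lit 524) ln12_16_6 ln12_16_6_ok) (M (nat_lit 491) (B (M (nat_lit 396) (B (L (nat_lit 523) ln12_12_5 ln12_12_5_ok) (M (nat_lit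 459) (B (L (nat_lit 364) ln12_11_5 ln12_11_5_ok) (L (nat_lit 458) ln14_13_1 ln14_13_1_ok))))) (B (M (nat_lit 494) (B (M (nat_lit 523) (B (L (nat_lit 396) ln12_12_5 ln12_12_5_ok) (L (nat_lit 522) ln14_15_1 ln14_15_1_ok))) (M (nat_lit 526) (B (L (nat_lit 462) ln14_16_7 ln14_16_7_ok) (L (nat_lit 527) ln11_15_0 ln11_15_0_ok))))) (M (nat_lit 494) (B (M (nat_lit 459) (B (L (nat_lit 458) ln14_13_1 ln14_13_1_ok) (L (nat_lit 495) ln15_15_3 ln15_15_3_ok))) (M (nat_lit 526) (B (L (nat_lit 462) ln14_16_7 ln14_16_7_ok) (L (nat_lit 527) ln11_15_0 ln11_15_0_ok))))))))))))))))) (nat_lit 25573364124188608364676800183910489942684633301100695301282662782454341035167127990989459807134417129197569679177941771172170024105825019898235977728) (nat_lit 58968163763098285472842242617183170858782947248805428680388942365940260015536863808481509553613403854804805201125481909970286377213425248847158458011507267122157846528) (nat_lit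 58968163763098285472842242617183170858782947248805428680388942365940260015536863808481509553613403854804805201125481909970286377213425248847158458011507267122157846528) (by decide +kernel)
noncomputable def c21_n2695 : Cert := (M (nat_lit 427) (B (M (nat_lit 398) (B (L (nat_lit 426) ln10_13_2 ln10_13_2_ok) (M (nat_lit 399) (B (L (nat_lit 400) ln16_12_1 ln16_12_1_ok) (L (nat_lit 430) ln11_13_2 ln11_13_2_ok))))) (B (M (nat_lit 426) (B (M (nat_lit 425) (B (L (nat_lit 396) ln9_13_2 ln9_13_2_ok) (M (nat_lit 461) (B (L (nat_lit 460) ln9_13_0 ln9_13_0_ok) (L (nat_lit 462) ln10_13_0 ln10_13_0_ok))))) (M (nat_lit 458) (B (L (nat_lit 457) ln13_13_1 ln13_13_1_ok) (M (nat_lit 394) (B (L (nat_lit 393) ln13_13_3 ln13_13_3_ok) (M (nat_lit 459) (B (L (nat_lit 430) ln14_13_1 ln14_13_1_ok) (M (nat_lit 491) (B (L (nat_lit 362) ln10_11_4 ln10_11_4_ok) (L (nat_lit 523) ln11_16_7 ln11_16_7_ok))))))))))) (B (M (nat_lit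 430) (B (M (nat_lit 431) (B (M (nat_lit 399) (B (L (nat_lit 398) ln11_13_2 ln11_13_2_ok) (L (nat_lit 400) ln12_13_2 ln12_13_2_ok))) (M (nat_lit 459) (B (L (nat_lit 458) ln14_13_1 ln14_13_1_ok) (L (nat_lit 460) ln15_13_1 ln15_13_1_ok))))) (B (M (nat_lit 431) (B (M (nat_lit 459) (B (L (nat_lit 458) ln14_13_1 ln14_13_1_ok) (L (nat_lit 460) ln15_13_1 ln15_13_1_ok))) (M (nat_lit 400) (B (L (nat_lit 399) ln12_13_2 ln12_13_2_ok) (M (nat_lit 432) (B (L (nat_lit 396) ln16_13_3 ln16_13_3_ok) (L (nat_lit 401) ln13_13_2 ln13_13_2_ok))))))) (B (M (nat_lit 431) (B (M (nat_lit 459) (B (L (nat_lit 458) ln14_13_1 ln14_13_1_ok) (L (nat_lit 460) ln15_13_1 ln15_13_1_ok))) (M (nat_lit 432) (B (L (nat_lit 396) ln16_13_3 ln16_13_3_ok) (M (nat_lit 433) (B (L (nat_lit 398) ln17_13_3 ln17_13_3_ok) (M (nat_lit 465) (B (L (nat_lit 464) ln13_13_0 ln13_13_0_ok) (L (nat_lit 466) ln14_13_0 ln14_13_0_ok))))))))) (B (M (nat_lit 398)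 (B (L (nat_lit 399) ln11_13_2 ln11_13_2_ok) (M (nat_lit 493) (B (M (nat_lit 461) (B (L (nat_lit 366) ln13_15_6 ln13_15_6_ok) (L (nat_lit 525) ln13_16_6 ln13_16_6_ok))) (B (M (nat_lit 494) (B (M (nat_lit 461) (B (L (nat_lit 526) ln13_12_4 ln13_12_4_ok) (L (nat_lit 525) ln13_16_6 ln13_16_6_ok))) (B (M (nat_lit 462) (B (L (nat_lit 526) ln14_16_7 ln14_16_7_ok) (L (nat_lit 525) ln14_12_5 ln14_12_5_ok))) (B (M (nat_lit 526) (B (L (nat_lit 462) ln14_16_7 ln14_16_7_ok) (L (nat_lit 461) ln13_12_4 ln13_12_4_ok))) (M (nat_lit 525) (B (L (nat_lit 461) ln13_16_6 ln13_16_6_ok) (L (nat_lit 462) ln14_12_5 ln14_12_5_ok))))))) (B (K (nat_lit 25573364124188608364676800183910489942684633301100695301282662782454341035167127990989459807134417129197569679177941771172170024105825019898235977728) (nat_lit 58968163763098285472842242617183170858782947248805428680388942365940260015536863808481509553613403854804805201125481909970286377213425248847158458011507267122157846528)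 (nat_lit 58968163763098285472842242617183170858782947248805428680388942365940260015536863808481509553613403854804805201125481909970286377213425248847158458011507267122157846528) c21_s2671) (M (nat_lit 461) (B (L (nat_lit 366) ln13_15_6 ln13_15_6_ok) (M (nat_lit 494) (B (L (nat_lit 526) ln13_12_4 ln13_12_4_ok) (M (nat_lit 492) (B (L (nat_lit 524) ln13_12_5 ln13_12_5_ok) (M (nat_lit 495) (B (M (nat_lit 459) (B (L (nat_lit 458) ln14_13_1 ln14_13_1_ok) (L (nat_lit 460) ln15_15_3 ln15_15_3_ok))) (M (nat_lit 527) (B (L (nat_lit 462) ln14_12_4 ln14_12_4_ok) (L (nat_lit 528) ln12_15_0 ln12_15_0_ok))))))))))))))))) (B (M (nat_lit 431) (B (M (nat_lit 399) (B (L (nat_lit 398) ln11_13_2 ln11_13_2_ok) (L (nat_lit 400) ln12_13_2 ln12_13_2_ok))) (B (M (nat_lit 400) (B (L (nat_lit 399) ln12_13_2 ln12_13_2_ok) (M (nat_lit 432) (B (L (nat_lit 396) ln16_13_3 ln16_13_3_ok) (L (nat_lit 401) ln13_13_2 ln13_13_2_ok)))))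 (M (nat_lit 432) (B (L (nat_lit 396) ln16_13_3 ln16_13_3_ok) (M (nat_lit 460) (B (L (nat_lit 459) ln15_13_1 ln15_13_1_ok) (L (nat_lit 461) ln16_13_1 ln16_13_1_ok)))))))) (M (nat_lit 431) (B (M (nat_lit 399) (B (L (nat_lit 398) ln11_13_2 ln11_13_2_ok) (L (nat_lit 400) ln12_13_2 ln12_13_2_ok))) (B (M (nat_lit 400) (B (L (nat_lit 399) ln12_13_2 ln12_13_2_ok) (M (nat_lit 432) (B (L (nat_lit 396) ln16_13_3 ln16_13_3_ok) (L (nat_lit 401) ln13_13_2 ln13_13_2_ok))))) (M (nat_lit 432) (B (L (nat_lit 396) ln16_13_3 ln16_13_3_ok) (M (nat_lit 433) (B (L (nat_lit 398) ln17_13_3 ln17_13_3_ok) (M (nat_lit 465) (B (L (nat_lit 464) ln13_13_0 ln13_13_0_ok) (L (nat_lit 466) ln14_13_0 ln14_13_0_ok)))))))))))))))) (M (nat_lit 398) (B (L (nat_lit 426) ln10_13_2 ln10_13_2_ok) (M (nat_lit 399) (B (L (nat_lit 396) ln15_12_1 ln15_12_1_ok) (L (nat_lit 400) ln16_12_1 ln16_12_1_ok)))))))))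
theorem c21_s2945 : Sem (nat_lit 1488565709783488894523509395446609271188445643694886312701544655299771834197865010869542644773870536938269444244867670928594885982348640256) (nat_lit 7614394266794037444985926969603132761403110222159224395777190299275667257862366533036575069113379471566645250886571231084662374136510160743862912763016522246045961859881548968629144387584) (nat_lit 7614394266794037444985926969603132761403110222159224395777190299275667257862366533036575069113379471566645250886571231084662374136510160743862912763016522246045961859881548968629144387584) :=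
  sem_of_chk (M (nat_lit 491) (B (M (nat_lit 523) (B (M (nat_lit 555) (B (L (nat_lit 460) ln11_17_6 ln11_17_6_ok) (M (nat_lit 554) (B (L (nat_lit 522) ln11_13_5 ln11_13_5_ok) (L (nat_lit 586) ln11_14_5 ln11_14_5_ok))))) (B (M (nat_lit 555) (B (M (nat_lit 554) (B (L (nat_lit 522) ln11_13_5 ln11_13_5_ok) (L (nat_lit 586) ln11_14_5 ln11_14_5_ok))) (M (nat_lit 556) (B (L (nat_lit 524) ln11_13_4 ln11_13_4_ok) (L (nat_lit 588) ln11_14_4 ln11_14_4_ok))))) (B (M (nat_lit 555) (B (L (nat_lit 460) ln11_17_6 ln11_17_6_ok) (M (nat_lit 556) (B (L (nat_lit 524) ln11_13_4 ln11_13_4_ok) (L (nat_lit 588) ln11_14_4 ln11_14_4_ok))))) (M (nat_lit 524) (B (L (nat_lit 556) ln11_13_4 ln11_13_4_ok) (M (nat_lit 492) (B (L (nat_lit 395) ln11_12_4 ln11_12_4_ok) (L (nat_lit 460) ln12_16_6 ln12_16_6_ok))))))))) (B (M (nat_lit 523) (B (M (nat_lit 524) (B (L (nat_lit 556) ln11_13_4 ln11_13_4_ok) (M (nat_lit 460) (B (L (nat_lit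 492) ln12_16_6 ln12_16_6_ok) (L (nat_lit 555) ln11_17_6 ln11_17_6_ok))))) (B (M (nat_lit 555) (B (M (nat_lit 554) (B (L (nat_lit 522) ln11_13_5 ln11_13_5_ok) (L (nat_lit 586) ln11_14_5 ln11_14_5_ok))) (M (nat_lit 556) (B (L (nat_lit 524) ln11_13_4 ln11_13_4_ok) (L (nat_lit 588) ln11_14_4 ln11_14_4_ok))))) (B (M (nat_lit 555) (B (L (nat_lit 460) ln11_17_6 ln11_17_6_ok) (M (nat_lit 554) (B (L (nat_lit 522) ln11_13_5 ln11_13_5_ok) (L (nat_lit 586) ln11_14_5 ln11_14_5_ok))))) (M (nat_lit 524) (B (L (nat_lit 556) ln11_13_4 ln11_13_4_ok) (M (nat_lit 492) (B (L (nat_lit 460) ln12_16_6 ln12_16_6_ok) (M (nat_lit 493) (B (L (nat_lit 461) ln13_12_5 ln13_12_5_ok) (M (nat_lit 494) (B (L (nat_lit 458) ln14_15_3 ln14_15_3_ok) (L (nat_lit 522) ln14_15_1 ln14_15_1_ok))))))))))))) (B (M (nat_lit 523) (B (M (nat_lit 522) (B (L (nat_lit 554) ln11_13_5 ln11_13_5_ok) (M (nat_lit 395) (B (L (nat_lit 490) ln11_12_5 ln11_12_5_ok)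 (M (nat_lit 524) (B (L (nat_lit 492) ln11_12_4 ln11_12_4_ok) (L (nat_lit 556) ln11_13_4 ln11_13_4_ok))))))) (B (M (nat_lit 555) (B (M (nat_lit 554) (B (L (nat_lit 522) ln11_13_5 ln11_13_5_ok) (L (nat_lit 586) ln11_14_5 ln11_14_5_ok))) (M (nat_lit 556) (B (L (nat_lit 524) ln11_13_4 ln11_13_4_ok) (L (nat_lit 588) ln11_14_4 ln11_14_4_ok))))) (B (M (nat_lit 524) (B (L (nat_lit 556) ln11_13_4 ln11_13_4_ok) (M (nat_lit 492) (B (L (nat_lit 395) ln11_12_4 ln11_12_4_ok) (M (nat_lit 493) (B (L (nat_lit 461) ln13_12_5 ln13_12_5_ok) (M (nat_lit 494) (B (L (nat_lit 458) ln14_15_3 ln14_15_3_ok) (L (nat_lit 495) ln15_15_1 ln15_15_1_ok))))))))) (B (M (nat_lit 555) (B (M (nat_lit 554) (B (L (nat_lit 522) ln11_13_5 ln11_13_5_ok) (L (nat_lit 586) ln11_14_5 ln11_14_5_ok))) (B (M (nat_lit 587) (B (M (nat_lit 586) (B (L (nat_lit 554) ln11_14_5 ln11_14_5_ok) (L (nat_lit 618) ln11_15_5 ln11_15_5_ok))) (M (nat_lit 588) (B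 (L (nat_lit 556) ln11_14_4 ln11_14_4_ok) (L (nat_lit 620) ln11_15_4 ln11_15_4_ok))))) (M (nat_lit 587) (B (M (nat_lit 588) (B (L (nat_lit 556) ln11_14_4 ln11_14_4_ok) (L (nat_lit 620) ln11_15_4 ln11_15_4_ok))) (M (nat_lit 490) (B (L (nat_lit 458) ln11_18_7 ln11_18_7_ok) (M (nat_lit 522) (B (L (nat_lit 395) ln11_12_5 ln11_12_5_ok) (L (nat_lit 619) ln11_19_7 ln11_19_7_ok)))))))))) (M (nat_lit 522) (B (L (nat_lit 554) ln11_13_5 ln11_13_5_ok) (M (nat_lit 492) (B (M (nat_lit 395) (B (L (nat_lit 490) ln11_12_5 ln11_12_5_ok) (L (nat_lit 524) ln11_12_4 ln11_12_4_ok))) (B (M (nat_lit 493) (B (L (nat_lit 494) ln14_15_1 ln14_15_1_ok) (M (nat_lit 521) (B (L (nat_lit 490) ln13_15_1 ln13_15_1_ok) (L (nat_lit 520) ln8_16_2 ln8_16_2_ok))))) (M (nat_lit 493) (B (L (nat_lit 494) ln14_15_1 ln14_15_1_ok) (M (nat_lit 521) (B (L (nat_lit 520) ln8_16_2 ln8_16_2_ok) (L (nat_lit 524) ln9_16_2 ln9_16_2_ok))))))))))))))) (B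 (M (nat_lit 395) (B (M (nat_lit 490) (B (L (nat_lit 522) ln11_12_5 ln11_12_5_ok) (M (nat_lit 363) (B (L (nat_lit 458) ln11_11_5 ln11_11_5_ok) (M (nat_lit 362) (B (L (nat_lit 330) ln11_14_7 ln11_14_7_ok) (L (nat_lit 394) ln11_15_7 ln11_15_7_ok))))))) (B (M (nat_lit 523) (B (M (nat_lit 522) (B (L (nat_lit 490) ln11_12_5 ln11_12_5_ok) (L (nat_lit 554) ln11_13_5 ln11_13_5_ok))) (M (nat_lit 555) (B (L (nat_lit 460) ln11_17_6 ln11_17_6_ok) (M (nat_lit 556) (B (L (nat_lit 524) ln11_13_4 ln11_13_4_ok) (L (nat_lit 588) ln11_14_4 ln11_14_4_ok))))))) (M (nat_lit 363) (B (M (nat_lit 362) (B (L (nat_lit 330) ln11_14_7 ln11_14_7_ok) (L (nat_lit 394) ln11_15_7 ln11_15_7_ok))) (M (nat_lit 331) (B (L (nat_lit 460) ln11_10_4 ln11_10_4_ok) (M (nat_lit 332) (B (L (nat_lit 300) ln11_13_6 ln11_13_6_ok) (L (nat_lit 364) ln11_14_6 ln11_14_6_ok)))))))))) (B (M (nat_lit 458) (B (M (nat_lit 457) (B (L (nat_lit 456) ln8_14_2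 ln8_14_2_ok) (L (nat_lit 460) ln9_14_2 ln9_14_2_ok))) (B (M (nat_lit 460) (B (L (nat_lit 457) ln9_14_2 ln9_14_2_ok) (M (nat_lit 524) (B (L (nat_lit 492) ln12_16_6 ln12_16_6_ok) (M (nat_lit 523) (B (L (nat_lit 556) ln11_13_4 ln11_13_4_ok) (L (nat_lit 555) ln11_17_6 ln11_17_6_ok))))))) (B (M (nat_lit 523) (B (M (nat_lit 555) (B (L (nat_lit 460) ln11_17_6 ln11_17_6_ok) (M (nat_lit 556) (B (L (nat_lit 524) ln11_13_4 ln11_13_4_ok) (L (nat_lit 588) ln11_14_4 ln11_14_4_ok))))) (B (M (nat_lit 524) (B (L (nat_lit 556) ln11_13_4 ln11_13_4_ok) (M (nat_lit 492) (B (L (nat_lit 395) ln11_12_4 ln11_12_4_ok) (M (nat_lit 493) (B (L (nat_lit 461) ln13_12_5 ln13_12_5_ok) (L (nat_lit 494) ln14_15_3 ln14_15_3_ok))))))) (M (nat_lit 555) (B (L (nat_lit 460) ln11_17_6 ln11_17_6_ok) (M (nat_lit 586) (B (L (nat_lit 554) ln11_14_5 ln11_14_5_ok) (M (nat_lit 587) (B (L (nat_lit 490) ln11_18_7 ln11_18_7_ok) (L (nat_lit 618) ln11_15_5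 ln11_15_5_ok)))))))))) (M (nat_lit 492) (B (M (nat_lit 457) (B (L (nat_lit 456) ln8_14_2 ln8_14_2_ok) (M (nat_lit 493) (B (L (nat_lit 490) ln13_15_3 ln13_15_3_ok) (L (nat_lit 494) ln14_15_3 ln14_15_3_ok))))) (B (M (nat_lit 524) (B (L (nat_lit 395) ln11_12_4 ln11_12_4_ok) (M (nat_lit 493) (B (L (nat_lit 461) ln13_12_5 ln13_12_5_ok) (L (nat_lit 494) ln14_15_3 ln14_15_3_ok))))) (M (nat_lit 524) (B (L (nat_lit 395) ln11_12_4 ln11_12_4_ok) (M (nat_lit 556) (B (L (nat_lit 523) ln11_13_4 ln11_13_4_ok) (L (nat_lit 588) ln12_18_7 ln12_18_7_ok)))))))))))) (B (M (nat_lit 492) (B (M (nat_lit 524) (B (L (nat_lit 395) ln11_12_4 ln11_12_4_ok) (L (nat_lit 460) ln12_16_6 ln12_16_6_ok))) (B (M (nat_lit 458) (B (M (nat_lit 457) (B (L (nat_lit 456) ln8_14_2 ln8_14_2_ok) (L (nat_lit 460) ln9_14_2 ln9_14_2_ok))) (B (M (nat_lit 460) (B (L (nat_lit 524) ln12_16_6 ln12_16_6_ok) (L (nat_lit 457) ln9_14_2 ln9_14_2_ok))) (B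 (M (nat_lit 524) (B (L (nat_lit 460) ln12_16_6 ln12_16_6_ok) (M (nat_lit 493) (B (L (nat_lit 461) ln13_12_5 ln13_12_5_ok) (L (nat_lit 494) ln14_15_3 ln14_15_3_ok))))) (M (nat_lit 457) (B (L (nat_lit 456) ln8_14_2 ln8_14_2_ok) (M (nat_lit 493) (B (L (nat_lit 490) ln13_15_3 ln13_15_3_ok) (L (nat_lit 494) ln14_15_3 ln14_15_3_ok))))))))) (B (M (nat_lit 395) (B (L (nat_lit 524) ln11_12_4 ln11_12_4_ok) (M (nat_lit 363) (B (M (nat_lit 362) (B (L (nat_lit 330) ln11_14_7 ln11_14_7_ok) (L (nat_lit 394) ln11_15_7 ln11_15_7_ok))) (M (nat_lit 490) (B (L (nat_lit 458) ln11_11_5 ln11_11_5_ok) (L (nat_lit 522) ln11_12_5 ln11_12_5_ok))))))) (M (nat_lit 490) (B (M (nat_lit 395) (B (L (nat_lit 522) ln11_12_5 ln11_12_5_ok) (M (nat_lit 363) (B (L (nat_lit 458) ln11_11_5 ln11_11_5_ok) (L (nat_lit 460) ln11_11_4 ln11_11_4_ok))))) (B (M (nat_lit 457) (B (M (nat_lit 458) (B (L (nat_lit 456) ln8_14_2 ln8_14_2_ok) (L (nat_lit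 460) ln9_14_2 ln9_14_2_ok))) (B (M (nat_lit 460) (B (L (nat_lit 458) ln9_14_2 ln9_14_2_ok) (M (nat_lit 489) (B (L (nat_lit 488) ln8_15_2 ln8_15_2_ok) (L (nat_lit 461) ln9_15_2 ln9_15_2_ok))))) (B (M (nat_lit 489) (B (L (nat_lit 456) ln12_15_3 ln12_15_3_ok) (M (nat_lit 460) (B (L (nat_lit 488) ln8_15_2 ln8_15_2_ok) (L (nat_lit 461) ln9_15_2 ln9_15_2_ok))))) (M (nat_lit 456) (B (L (nat_lit 458) ln8_14_2 ln8_14_2_ok) (L (nat_lit 489) ln12_15_3 ln12_15_3_ok))))))) (B (M (nat_lit 460) (B (M (nat_lit 395) (B (L (nat_lit 363) ln11_11_4 ln11_11_4_ok) (L (nat_lit 522) ln11_12_5 ln11_12_5_ok))) (M (nat_lit 489) (B (L (nat_lit 488) ln8_15_2 ln8_15_2_ok) (L (nat_lit 461) ln9_15_2 ln9_15_2_ok))))) (M (nat_lit 458) (B (M (nat_lit 395) (B (L (nat_lit 363) ln11_11_5 ln11_11_5_ok) (L (nat_lit 522) ln11_12_5 ln11_12_5_ok))) (M (nat_lit 457) (B (L (nat_lit 456) ln8_14_2 ln8_14_2_ok) (L (nat_lit 493) ln13_15_3 ln13_15_3_ok)))))))))))))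 (M (nat_lit 395) (B (M (nat_lit 490) (B (L (nat_lit 522) ln11_12_5 ln11_12_5_ok) (M (nat_lit 363) (B (L (nat_lit 458) ln11_11_5 ln11_11_5_ok) (M (nat_lit 362) (B (L (nat_lit 330) ln11_14_7 ln11_14_7_ok) (L (nat_lit 394) ln11_15_7 ln11_15_7_ok))))))) (B (M (nat_lit 363) (B (M (nat_lit 490) (B (L (nat_lit 458) ln11_11_5 ln11_11_5_ok) (L (nat_lit 522) ln11_12_5 ln11_12_5_ok))) (M (nat_lit 460) (B (L (nat_lit 331) ln11_10_4 ln11_10_4_ok) (L (nat_lit 492) ln11_11_4 ln11_11_4_ok))))) (B (M (nat_lit 523) (B (M (nat_lit 522) (B (L (nat_lit 490) ln11_12_5 ln11_12_5_ok) (L (nat_lit 554) ln11_13_5 ln11_13_5_ok))) (B (M (nat_lit 555) (B (L (nat_lit 460) ln11_17_6 ln11_17_6_ok) (M (nat_lit 554) (B (L (nat_lit 522) ln11_13_5 ln11_13_5_ok) (L (nat_lit 586) ln11_14_5 ln11_14_5_ok))))) (B (M (nat_lit 555) (B (L (nat_lit 460) ln11_17_6 ln11_17_6_ok) (M (nat_lit 587) (B (M (nat_lit 586) (B (L (nat_lit 554) ln11_14_5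 ln11_14_5_ok) (L (nat_lit 618) ln11_15_5 ln11_15_5_ok))) (M (nat_lit 588) (B (L (nat_lit 556) ln11_14_4 ln11_14_4_ok) (L (nat_lit 620) ln11_15_4 ln11_15_4_ok))))))) (M (nat_lit 555) (B (L (nat_lit 460) ln11_17_6 ln11_17_6_ok) (M (nat_lit 587) (B (M (nat_lit 490) (B (L (nat_lit 522) ln11_12_5 ln11_12_5_ok) (L (nat_lit 458) ln11_18_7 ln11_18_7_ok))) (M (nat_lit 588) (B (L (nat_lit 556) ln11_14_4 ln11_14_4_ok) (L (nat_lit 620) ln11_15_4 ln11_15_4_ok))))))))))) (M (nat_lit 363) (B (M (nat_lit 362) (B (L (nat_lit 330) ln11_14_7 ln11_14_7_ok) (L (nat_lit 394) ln11_15_7 ln11_15_7_ok))) (M (nat_lit 460) (B (L (nat_lit 331) ln11_10_4 ln11_10_4_ok) (L (nat_lit 492) ln11_11_4 ln11_11_4_ok)))))))))))))))) (nat_lit 1488565709783488894523509395446609271188445643694886312701544655299771834197865010869542644773870536938269444244867670928594885982348640256) (nat_lit 7614394266794037444985926969603132761403110222159224395777190299275667257862366533036575069113379471566645250886571231084662374136510160743862912763016522246045961859881548968629144387584)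 (nat_lit 7614394266794037444985926969603132761403110222159224395777190299275667257862366533036575069113379471566645250886571231084662374136510160743862912763016522246045961859881548968629144387584) (by decide +kernel)
theorem c21_s3182 : Sem (nat_lit 1488565709783488894523509395446609271188445643694886312701544655299771834197865010869542644773870536938269444244867670928594885982348640256) (nat_lit 1266331655955072355040543644539404148177211258961888002790979797093899970426424453985093259990428163059886939252440772374133844187764431756732628520172313269419954322742439837696) (nat_lit 1266331655955072355040543644539404148177211258961888002790979797093899970426424453985093259990428163059886939252440772374133844187764431756732628520172313269419954322742439837696) :=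
  sem_of_chk (M (nat_lit 491) (B (M (nat_lit 430) (B (L (nat_lit 458) ln14_13_1 ln14_13_1_ok) (M (nat_lit 395) (B (L (nat_lit 394) ln14_13_3 ln14_13_3_ok) (M (nat_lit 524) (B (L (nat_lit 492) ln11_12_4 ln11_12_4_ok) (M (nat_lit 523) (B (L (nat_lit 556) ln11_13_4 ln11_13_4_ok) (M (nat_lit 522) (B (L (nat_lit 490) ln11_12_5 ln11_12_5_ok) (L (nat_lit 554) ln11_13_5 ln11_13_5_ok))))))))))) (B (M (nat_lit 458) (B (L (nat_lit 430) ln14_13_1 ln14_13_1_ok) (M (nat_lit 492) (B (M (nat_lit 457) (B (L (nat_lit 456) ln8_14_2 ln8_14_2_ok) (M (nat_lit 493) (B (L (nat_lit 490) ln13_15_3 ln13_15_3_ok) (L (nat_lit 494) ln14_15_3 ln14_15_3_ok))))) (B (M (nat_lit 524) (B (L (nat_lit 395) ln11_12_4 ln11_12_4_ok) (M (nat_lit 493) (B (L (nat_lit 461) ln13_12_5 ln13_12_5_ok) (L (nat_lit 494) ln14_15_3 ln14_15_3_ok))))) (M (nat_lit 524) (B (L (nat_lit 395) ln11_12_4 ln11_12_4_ok) (M (nat_lit 556) (B (L (nat_lit 523) ln11_13_4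 ln11_13_4_ok) (L (nat_lit 588) ln12_18_7 ln12_18_7_ok)))))))))) (B (M (nat_lit 493) (B (M (nat_lit 458) (B (L (nat_lit 430) ln14_13_1 ln14_13_1_ok) (M (nat_lit 457) (B (L (nat_lit 456) ln8_14_2 ln8_14_2_ok) (M (nat_lit 492) (B (L (nat_lit 490) ln13_15_3 ln13_15_3_ok) (L (nat_lit 494) ln14_15_3 ln14_15_3_ok))))))) (B (M (nat_lit 492) (B (M (nat_lit 524) (B (L (nat_lit 461) ln13_12_5 ln13_12_5_ok) (M (nat_lit 556) (B (L (nat_lit 523) ln11_13_4 ln11_13_4_ok) (L (nat_lit 588) ln12_18_7 ln12_18_7_ok))))) (M (nat_lit 458) (B (L (nat_lit 494) ln14_15_3 ln14_15_3_ok) (M (nat_lit 457) (B (L (nat_lit 456) ln8_14_2 ln8_14_2_ok) (L (nat_lit 490) ln13_15_3 ln13_15_3_ok))))))) (B (M (nat_lit 430) (B (L (nat_lit 458) ln14_13_1 ln14_13_1_ok) (M (nat_lit 398) (B (L (nat_lit 399) ln11_13_2 ln11_13_2_ok) (M (nat_lit 461) (B (L (nat_lit 366) ln13_15_6 ln13_15_6_ok) (L (nat_lit 525) ln13_16_6 ln13_16_6_ok))))))) (M (nat_lit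 461) (B (M (nat_lit 524) (B (L (nat_lit 492) ln13_12_5 ln13_12_5_ok) (M (nat_lit 556) (B (L (nat_lit 523) ln11_13_4 ln11_13_4_ok) (L (nat_lit 525) ln13_13_5 ln13_13_5_ok))))) (M (nat_lit 398) (B (L (nat_lit 366) ln13_15_6 ln13_15_6_ok) (M (nat_lit 399) (B (L (nat_lit 400) ln16_12_1 ln16_12_1_ok) (L (nat_lit 430) ln11_13_2 ln11_13_2_ok))))))))))) (B (M (nat_lit 522) (B (M (nat_lit 490) (B (L (nat_lit 395) ln11_12_5 ln11_12_5_ok) (M (nat_lit 554) (B (L (nat_lit 458) ln10_17_6 ln10_17_6_ok) (L (nat_lit 523) ln11_13_5 ln11_13_5_ok))))) (B (M (nat_lit 554) (B (L (nat_lit 523) ln11_13_5 ln11_13_5_ok) (M (nat_lit 490) (B (L (nat_lit 458) ln10_17_6 ln10_17_6_ok) (L (nat_lit 586) ln10_18_6 ln10_18_6_ok))))) (B (M (nat_lit 554) (B (L (nat_lit 523) ln11_13_5 ln11_13_5_ok) (M (nat_lit 490) (B (L (nat_lit 395) ln11_12_5 ln11_12_5_ok) (L (nat_lit 586) ln10_18_6 ln10_18_6_ok))))) (B (M (nat_lit 523) (B (L (nat_lit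 554) ln11_13_5 ln11_13_5_ok) (M (nat_lit 524) (B (L (nat_lit 556) ln11_13_4 ln11_13_4_ok) (M (nat_lit 492) (B (L (nat_lit 395) ln11_12_4 ln11_12_4_ok) (M (nat_lit 493) (B (L (nat_lit 461) ln13_12_5 ln13_12_5_ok) (L (nat_lit 494) ln14_15_1 ln14_15_1_ok))))))))) (B (M (nat_lit 490) (B (L (nat_lit 395) ln11_12_5 ln11_12_5_ok) (M (nat_lit 554) (B (L (nat_lit 458) ln10_17_6 ln10_17_6_ok) (L (nat_lit 586) ln10_18_6 ln10_18_6_ok))))) (M (nat_lit 492) (B (M (nat_lit 395) (B (L (nat_lit 490) ln11_12_5 ln11_12_5_ok) (L (nat_lit 524) ln11_12_4 ln11_12_4_ok))) (B (M (nat_lit 493) (B (M (nat_lit 494) (B (L (nat_lit 458) ln14_15_3 ln14_15_3_ok) (L (nat_lit 523) ln14_15_1 ln14_15_1_ok))) (B (M (nat_lit 523) (B (L (nat_lit 494) ln14_15_1 ln14_15_1_ok) (M (nat_lit 524) (B (L (nat_lit 461) ln13_12_5 ln13_12_5_ok) (L (nat_lit 521) ln9_16_2 ln9_16_2_ok))))) (B (M (nat_lit 521) (B (L (nat_lit 490) ln13_15_1 ln13_15_1_ok)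 (M (nat_lit 523) (B (L (nat_lit 520) ln8_16_2 ln8_16_2_ok) (L (nat_lit 524) ln9_16_2 ln9_16_2_ok))))) (M (nat_lit 458) (B (L (nat_lit 494) ln14_15_3 ln14_15_3_ok) (M (nat_lit 490) (B (L (nat_lit 457) ln13_15_3 ln13_15_3_ok) (L (nat_lit 521) ln13_15_1 ln13_15_1_ok))))))))) (B (M (nat_lit 524) (B (L (nat_lit 395) ln11_12_4 ln11_12_4_ok) (M (nat_lit 556) (B (L (nat_lit 523) ln11_13_4 ln11_13_4_ok) (L (nat_lit 588) ln12_18_7 ln12_18_7_ok))))) (M (nat_lit 493) (B (M (nat_lit 490) (B (L (nat_lit 395) ln11_12_5 ln11_12_5_ok) (L (nat_lit 521) ln13_15_1 ln13_15_1_ok))) (M (nat_lit 494) (B (L (nat_lit 458) ln14_15_3 ln14_15_3_ok) (L (nat_lit 523) ln14_15_1 ln14_15_1_ok))))))))))))))) (B (M (nat_lit 523) (B (M (nat_lit 522) (B (L (nat_lit 554) ln11_13_5 ln11_13_5_ok) (M (nat_lit 395) (B (L (nat_lit 490) ln11_12_5 ln11_12_5_ok) (M (nat_lit 524) (B (L (nat_lit 492) ln11_12_4 ln11_12_4_ok) (L (nat_lit 556) ln11_13_4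 ln11_13_4_ok))))))) (B (M (nat_lit 555) (B (M (nat_lit 554) (B (L (nat_lit 522) ln11_13_5 ln11_13_5_ok) (L (nat_lit 586) ln11_14_5 ln11_14_5_ok))) (M (nat_lit 556) (B (L (nat_lit 524) ln11_13_4 ln11_13_4_ok) (L (nat_lit 588) ln11_14_4 ln11_14_4_ok))))) (B (M (nat_lit 395) (B (M (nat_lit 394) (B (L (nat_lit 362) ln11_15_7 ln11_15_7_ok) (L (nat_lit 430) ln14_13_3 ln14_13_3_ok))) (M (nat_lit 524) (B (L (nat_lit 492) ln11_12_4 ln11_12_4_ok) (L (nat_lit 556) ln11_13_4 ln11_13_4_ok))))) (M (nat_lit 395) (B (M (nat_lit 394) (B (L (nat_lit 362) ln11_15_7 ln11_15_7_ok) (L (nat_lit 430) ln14_13_3 ln14_13_3_ok))) (M (nat_lit 522) (B (L (nat_lit 490) ln11_12_5 ln11_12_5_ok) (L (nat_lit 554) ln11_13_5 ln11_13_5_ok))))))))) (B (M (nat_lit 430) (B (L (nat_lit 458) ln14_13_1 ln14_13_1_ok) (M (nat_lit 398) (B (L (nat_lit 399) ln11_13_2 ln11_13_2_ok) (M (nat_lit 523) (B (M (nat_lit 395) (B (L (nat_lit 394) ln14_13_3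 ln14_13_3_ok) (M (nat_lit 524) (B (L (nat_lit 492) ln11_12_4 ln11_12_4_ok) (L (nat_lit 556) ln11_13_4 ln11_13_4_ok))))) (B (M (nat_lit 554) (B (L (nat_lit 522) ln11_13_5 ln11_13_5_ok) (M (nat_lit 555) (B (L (nat_lit 586) ln11_14_5 ln11_14_5_ok) (M (nat_lit 556) (B (L (nat_lit 524) ln11_13_4 ln11_13_4_ok) (L (nat_lit 588) ln11_14_4 ln11_14_4_ok))))))) (M (nat_lit 493) (B (M (nat_lit 461) (B (L (nat_lit 366) ln13_15_6 ln13_15_6_ok) (L (nat_lit 525) ln13_16_6 ln13_16_6_ok))) (B (M (nat_lit 494) (B (M (nat_lit 461) (B (L (nat_lit 526) ln13_12_4 ln13_12_4_ok) (L (nat_lit 525) ln13_16_6 ln13_16_6_ok))) (B (M (nat_lit 462) (B (L (nat_lit 526) ln14_16_7 ln14_16_7_ok) (L (nat_lit 525) ln14_12_5 ln14_12_5_ok))) (B (M (nat_lit 526) (B (L (nat_lit 462) ln14_16_7 ln14_16_7_ok) (L (nat_lit 461) ln13_12_4 ln13_12_4_ok))) (M (nat_lit 525) (B (L (nat_lit 461) ln13_16_6 ln13_16_6_ok) (L (nat_lit 462) ln14_12_5 ln14_12_5_ok)))))))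 (B (M (nat_lit 494) (B (M (nat_lit 462) (B (L (nat_lit 526) ln14_16_7 ln14_16_7_ok) (L (nat_lit 525) ln14_12_5 ln14_12_5_ok))) (M (nat_lit 522) (B (L (nat_lit 554) ln11_13_5 ln11_13_5_ok) (L (nat_lit 492) ln14_15_1 ln14_15_1_ok))))) (M (nat_lit 494) (B (M (nat_lit 461) (B (L (nat_lit 366) ln13_15_6 ln13_15_6_ok) (L (nat_lit 526) ln13_12_4 ln13_12_4_ok))) (M (nat_lit 522) (B (L (nat_lit 554) ln11_13_5 ln11_13_5_ok) (L (nat_lit 492) ln14_15_1 ln14_15_1_ok)))))))))))))))) (M (nat_lit 395) (B (M (nat_lit 394) (B (L (nat_lit 362) ln11_15_7 ln11_15_7_ok) (L (nat_lit 430) ln14_13_3 ln14_13_3_ok))) (B (M (nat_lit 430) (B (L (nat_lit 394) ln14_13_3 ln14_13_3_ok) (L (nat_lit 458) ln14_13_1 ln14_13_1_ok))) (B (M (nat_lit 458) (B (L (nat_lit 430) ln14_13_1 ln14_13_1_ok) (M (nat_lit 490) (B (L (nat_lit 363) ln11_11_5 ln11_11_5_ok) (L (nat_lit 522) ln11_12_5 ln11_12_5_ok))))) (M (nat_lit 490) (B (L (nat_lit 522)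 ln11_12_5 ln11_12_5_ok) (M (nat_lit 363) (B (L (nat_lit 458) ln11_11_5 ln11_11_5_ok) (M (nat_lit 362) (B (L (nat_lit 330) ln11_14_7 ln11_14_7_ok) (L (nat_lit 394) ln11_15_7 ln11_15_7_ok)))))))))))))))))) (nat_lit 1488565709783488894523509395446609271188445643694886312701544655299771834197865010869542644773870536938269444244867670928594885982348640256) (nat_lit 1266331655955072355040543644539404148177211258961888002790979797093899970426424453985093259990428163059886939252440772374133844187764431756732628520172313269419954322742439837696) (nat_lit 1266331655955072355040543644539404148177211258961888002790979797093899970426424453985093259990428163059886939252440772374133844187764431756732628520172313269419954322742439837696) (by decide +kernel)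
noncomputable def c21_n3186 : Cert := (M (nat_lit 427) (B (M (nat_lit 398) (B (L (nat_lit 426) ln10_13_2 ln10_13_2_ok) (M (nat_lit 399) (B (L (nat_lit 400) ln16_12_1 ln16_12_1_ok) (L (nat_lit 430) ln11_13_2 ln11_13_2_ok))))) (B (M (nat_lit 426) (B (M (nat_lit 425) (B (M (nat_lit 457) (B (L (nat_lit 456) ln12_13_1 ln12_13_1_ok) (L (nat_lit 458) ln13_13_1 ln13_13_1_ok))) (M (nat_lit 461) (B (L (nat_lit 460) ln9_13_0 ln9_13_0_ok) (L (nat_lit 462) ln10_13_0 ln10_13_0_ok))))) (B (M (nat_lit 430) (B (M (nat_lit 394) (B (L (nat_lit 393) ln13_13_3 ln13_13_3_ok) (L (nat_lit 395) ln14_13_3 ln14_13_3_ok))) (M (nat_lit 458) (B (L (nat_lit 457) ln13_13_1 ln13_13_1_ok) (L (nat_lit 459) ln14_13_1 ln14_13_1_ok))))) (M (nat_lit 425) (B (M (nat_lit 393) (B (L (nat_lit 392) ln12_13_3 ln12_13_3_ok) (L (nat_lit 394) ln13_13_3 ln13_13_3_ok))) (M (nat_lit 461) (B (L (nat_lit 460) ln9_13_0 ln9_13_0_ok) (L (nat_lit 462)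 ln10_13_0 ln10_13_0_ok)))))))) (B (M (nat_lit 459) (B (M (nat_lit 458) (B (L (nat_lit 430) ln14_13_1 ln14_13_1_ok) (M (nat_lit 457) (B (L (nat_lit 456) ln8_14_2 ln8_14_2_ok) (L (nat_lit 460) ln9_14_2 ln9_14_2_ok))))) (B (K (nat_lit 1488565709783488894523509395446609271188445643694886312701544655299771834197865010869542644773870536938269444244867670928594885982348640256) (nat_lit 7614394266794037444985926969603132761403110222159224395777190299275667257862366533036575069113379471566645250886571231084662374136510160743862912763016522246045961859881548968629144387584) (nat_lit 7614394266794037444985926969603132761403110222159224395777190299275667257862366533036575069113379471566645250886571231084662374136510160743862912763016522246045961859881548968629144387584) c21_s2945) (B (M (nat_lit 430) (B (L (nat_lit 458) ln14_13_1 ln14_13_1_ok) (M (nat_lit 399) (B (L (nat_lit 398) ln11_13_2 ln11_13_2_ok) (M (nat_lit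 431) (B (L (nat_lit 400) ln12_13_2 ln12_13_2_ok) (L (nat_lit 460) ln15_13_1 ln15_13_1_ok))))))) (B (M (nat_lit 395) (B (M (nat_lit 430) (B (L (nat_lit 394) ln14_13_3 ln14_13_3_ok) (M (nat_lit 460) (B (L (nat_lit 431) ln15_13_1 ln15_13_1_ok) (M (nat_lit 363) (B (L (nat_lit 331) ln11_10_4 ln11_10_4_ok) (L (nat_lit 492) ln11_11_4 ln11_11_4_ok))))))) (B (M (nat_lit 460) (B (M (nat_lit 492) (B (L (nat_lit 363) ln11_11_4 ln11_11_4_ok) (L (nat_lit 524) ln12_16_7 ln12_16_7_ok))) (M (nat_lit 430) (B (L (nat_lit 394) ln14_13_3 ln14_13_3_ok) (L (nat_lit 431) ln15_13_1 ln15_13_1_ok))))) (B (M (nat_lit 430) (B (L (nat_lit 394) ln14_13_3 ln14_13_3_ok) (M (nat_lit 399) (B (L (nat_lit 398) ln11_13_2 ln11_13_2_ok) (M (nat_lit 431) (B (L (nat_lit 400) ln12_13_2 ln12_13_2_ok) (L (nat_lit 460) ln15_13_1 ln15_13_1_ok))))))) (B (M (nat_lit 491) (B (M (nat_lit 524) (B (L (nat_lit 492) ln11_12_4 ln11_12_4_ok) (M (nat_lit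 523) (B (L (nat_lit 556) ln11_13_4 ln11_13_4_ok) (M (nat_lit 522) (B (L (nat_lit 490) ln11_12_5 ln11_12_5_ok) (L (nat_lit 554) ln11_13_5 ln11_13_5_ok))))))) (B (M (nat_lit 363) (B (M (nat_lit 460) (B (L (nat_lit 331) ln11_10_4 ln11_10_4_ok) (L (nat_lit 492) ln11_11_4 ln11_11_4_ok))) (B (M (nat_lit 492) (B (L (nat_lit 460) ln11_11_4 ln11_11_4_ok) (L (nat_lit 524) ln11_12_4 ln11_12_4_ok))) (M (nat_lit 331) (B (M (nat_lit 330) (B (L (nat_lit 298) ln11_13_7 ln11_13_7_ok) (L (nat_lit 362) ln11_14_7 ln11_14_7_ok))) (M (nat_lit 332) (B (L (nat_lit 300) ln11_13_6 ln11_13_6_ok) (L (nat_lit 364) ln11_14_6 ln11_14_6_ok)))))))) (B (M (nat_lit 523) (B (M (nat_lit 522) (B (L (nat_lit 490) ln11_12_5 ln11_12_5_ok) (L (nat_lit 554) ln11_13_5 ln11_13_5_ok))) (M (nat_lit 555) (B (L (nat_lit 460) ln11_17_6 ln11_17_6_ok) (M (nat_lit 556) (B (L (nat_lit 524) ln11_13_4 ln11_13_4_ok) (L (nat_lit 588) ln11_14_4 ln11_14_4_ok)))))))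 (M (nat_lit 460) (B (M (nat_lit 363) (B (L (nat_lit 331) ln11_10_4 ln11_10_4_ok) (L (nat_lit 492) ln11_11_4 ln11_11_4_ok))) (M (nat_lit 523) (B (L (nat_lit 555) ln11_17_6 ln11_17_6_ok) (M (nat_lit 522) (B (L (nat_lit 490) ln11_12_5 ln11_12_5_ok) (L (nat_lit 554) ln11_13_5 ln11_13_5_ok))))))))))) (M (nat_lit 394) (B (L (nat_lit 430) ln14_13_3 ln14_13_3_ok) (M (nat_lit 362) (B (L (nat_lit 491) ln11_15_7 ln11_15_7_ok) (M (nat_lit 330) (B (L (nat_lit 298) ln10_9_4 ln10_9_4_ok) (L (nat_lit 363) ln11_14_7 ln11_14_7_ok)))))))))))) (K (nat_lit 1488565709783488894523509395446609271188445643694886312701544655299771834197865010869542644773870536938269444244867670928594885982348640256) (nat_lit 1266331655955072355040543644539404148177211258961888002790979797093899970426424453985093259990428163059886939252440772374133844187764431756732628520172313269419954322742439837696) (nat_lit 1266331655955072355040543644539404148177211258961888002790979797093899970426424453985093259990428163059886939252440772374133844187764431756732628520172313269419954322742439837696)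 c21_s3182)))))) (M (nat_lit 426) (B (L (nat_lit 398) ln10_13_2 ln10_13_2_ok) (M (nat_lit 425) (B (M (nat_lit 393) (B (L (nat_lit 392) ln12_13_3 ln12_13_3_ok) (L (nat_lit 394) ln13_13_3 ln13_13_3_ok))) (M (nat_lit 461) (B (L (nat_lit 460) ln9_13_0 ln9_13_0_ok) (L (nat_lit 462) ln10_13_0 ln10_13_0_ok)))))))))))
noncomputable def c21_n3282 : Cert := (M (nat_lit 395) (B (M (nat_lit 394) (B (L (nat_lit 430) ln14_13_3 ln14_13_3_ok) (M (nat_lit 393) (B (L (nat_lit 392) ln8_12_0 ln8_12_0_ok) (L (nat_lit 396) ln9_12_0 ln9_12_0_ok))))) (B (M (nat_lit 430) (B (L (nat_lit 394) ln14_13_3 ln14_13_3_ok) (M (nat_lit 431) (B (L (nat_lit 396) ln15_13_3 ln15_13_3_ok) (M (nat_lit 459) (B (L (nat_lit 458) ln14_13_1 ln14_13_1_ok) (L (nat_lit 460) ln15_13_1 ln15_13_1_ok))))))) (B (M (nat_lit 459) (B (M (nat_lit 430) (B (L (nat_lit 458) ln14_13_1 ln14_13_1_ok) (M (nat_lit 431) (B (L (nat_lit 396) ln15_13_3 ln15_13_3_ok)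 (L (nat_lit 460) ln15_13_1 ln15_13_1_ok))))) (B (M (nat_lit 460) (B (M (nat_lit 363) (B (L (nat_lit 331) ln11_10_4 ln11_10_4_ok) (L (nat_lit 492) ln11_11_4 ln11_11_4_ok))) (M (nat_lit 430) (B (L (nat_lit 458) ln14_13_1 ln14_13_1_ok) (L (nat_lit 431) ln15_13_1 ln15_13_1_ok))))) (B (M (nat_lit 363) (B (M (nat_lit 460) (B (L (nat_lit 331) ln11_10_4 ln11_10_4_ok) (L (nat_lit 492) ln11_11_4 ln11_11_4_ok))) (B (M (nat_lit 491) (B (M (nat_lit 364) (B (L (nat_lit 332) ln11_14_6 ln11_14_6_ok) (L (nat_lit 396) ln11_15_6 ln11_15_6_ok))) (M (nat_lit 492) (B (L (nat_lit 460) ln11_11_4 ln11_11_4_ok) (L (nat_lit 524) ln11_12_4 ln11_12_4_ok))))) (M (nat_lit 331) (B (M (nat_lit 330) (B (L (nat_lit 298) ln11_13_7 ln11_13_7_ok) (L (nat_lit 362) ln11_14_7 ln11_14_7_ok))) (M (nat_lit 332) (B (L (nat_lit 300) ln11_13_6 ln11_13_6_ok) (L (nat_lit 364) ln11_14_6 ln11_14_6_ok)))))))) (M (nat_lit 396) (B (M (nat_lit 364) (B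 (L (nat_lit 332) ln12_10_5 ln12_10_5_ok) (L (nat_lit 491) ln11_15_6 ln11_15_6_ok))) (M (nat_lit 430) (B (L (nat_lit 431) ln15_13_3 ln15_13_3_ok) (L (nat_lit 458) ln14_13_1 ln14_13_1_ok))))))))) (B (M (nat_lit 430) (B (L (nat_lit 394) ln14_13_3 ln14_13_3_ok) (M (nat_lit 459) (B (L (nat_lit 458) ln14_13_1 ln14_13_1_ok) (M (nat_lit 460) (B (L (nat_lit 431) ln15_13_1 ln15_13_1_ok) (M (nat_lit 363) (B (L (nat_lit 331) ln11_10_4 ln11_10_4_ok) (L (nat_lit 492) ln11_11_4 ln11_11_4_ok))))))))) (M (nat_lit 363) (B (M (nat_lit 460) (B (L (nat_lit 331) ln11_10_4 ln11_10_4_ok) (M (nat_lit 492) (B (L (nat_lit 459) ln11_11_4 ln11_11_4_ok) (L (nat_lit 524) ln12_16_7 ln12_16_7_ok))))) (B (M (nat_lit 459) (B (M (nat_lit 460) (B (L (nat_lit 492) ln11_11_4 ln11_11_4_ok) (M (nat_lit 458) (B (L (nat_lit 490) ln11_11_5 ln11_11_5_ok) (L (nat_lit 457) ln9_14_2 ln9_14_2_ok))))) (M (nat_lit 491) (B (M (nat_lit 362) (B (L (nat_lit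 330) ln11_14_7 ln11_14_7_ok) (L (nat_lit 394) ln11_15_7 ln11_15_7_ok))) (M (nat_lit 364) (B (L (nat_lit 332) ln11_14_6 ln11_14_6_ok) (L (nat_lit 396) ln11_15_6 ln11_15_6_ok))))))) (B (M (nat_lit 460) (B (L (nat_lit 331) ln11_10_4 ln11_10_4_ok) (M (nat_lit 492) (B (L (nat_lit 396) ln12_15_7 ln12_15_7_ok) (L (nat_lit 524) ln12_16_7 ln12_16_7_ok))))) (M (nat_lit 331) (B (M (nat_lit 299) (B (L (nat_lit 396) ln11_9_4 ln11_9_4_ok) (M (nat_lit 300) (B (L (nat_lit 268) ln11_12_6 ln11_12_6_ok) (L (nat_lit 332) ln11_13_6 ln11_13_6_ok))))) (B (M (nat_lit 299) (B (L (nat_lit 396) ln11_9_4 ln11_9_4_ok) (M (nat_lit 298) (B (L (nat_lit 266) ln11_12_7 ln11_12_7_ok) (L (nat_lit 330) ln11_13_7 ln11_13_7_ok))))) (M (nat_lit 459) (B (M (nat_lit 330) (B (L (nat_lit 298) ln11_13_7 ln11_13_7_ok) (L (nat_lit 362) ln11_14_7 ln11_14_7_ok))) (M (nat_lit 332) (B (L (nat_lit 300) ln11_13_6 ln11_13_6_ok) (L (nat_lit 364) ln11_14_6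 ln11_14_6_ok)))))))))))))))))
noncomputable def c21_n3410 : Cert := (M (nat_lit 459) (B (M (nat_lit 364) (B (L (nat_lit 332) ln12_10_5 ln12_10_5_ok) (M (nat_lit 491) (B (L (nat_lit 460) ln12_11_5 ln12_11_5_ok) (L (nat_lit 523) ln11_16_6 ln11_16_6_ok))))) (B (M (nat_lit 491) (B (L (nat_lit 523) ln11_16_6 ln11_16_6_ok) (M (nat_lit 364) (B (L (nat_lit 395) ln11_15_6 ln11_15_6_ok) (L (nat_lit 460) ln12_11_5 ln12_11_5_ok))))) (B (M (nat_lit 491) (B (L (nat_lit 523) ln11_16_6 ln11_16_6_ok) (M (nat_lit 395) (B (M (nat_lit 394) (B (L (nat_lit 362) ln11_15_7 ln11_15_7_ok) (L (nat_lit 393) ln9_12_0 ln9_12_0_ok))) (M (nat_lit 363) (B (M (nat_lit 331) (B (L (nat_lit 299) ln11_9_4 ln11_9_4_ok) (L (nat_lit 460) ln11_10_4 ln11_10_4_ok))) (B (M (nat_lit 460) (B (L (nat_lit 331) ln11_10_4 ln11_10_4_ok) (L (nat_lit 492) ln12_15_7 ln12_15_7_ok))) (B (M (nat_lit 492) (B (L (nat_lit 460) ln12_15_7 ln12_15_7_ok) (L (nat_lit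 524) ln11_12_4 ln11_12_4_ok))) (M (nat_lit 490) (B (L (nat_lit 458) ln11_11_5 ln11_11_5_ok) (L (nat_lit 522) ln11_12_5 ln11_12_5_ok))))))))))) (B (M (nat_lit 491) (B (L (nat_lit 523) ln11_16_6 ln11_16_6_ok) (M (nat_lit 364) (B (L (nat_lit 332) ln12_10_5 ln12_10_5_ok) (L (nat_lit 395) ln11_15_6 ln11_15_6_ok))))) (M (nat_lit 363) (B (M (nat_lit 364) (B (L (nat_lit 332) ln12_10_5 ln12_10_5_ok) (M (nat_lit 460) (B (L (nat_lit 331) ln12_14_7 ln12_14_7_ok) (M (nat_lit 492) (B (L (nat_lit 395) ln12_15_7 ln12_15_7_ok) (L (nat_lit 524) ln12_16_6 ln12_16_6_ok))))))) (B (M (nat_lit 395) (B (M (nat_lit 364) (B (L (nat_lit 332) ln11_14_6 ln11_14_6_ok) (M (nat_lit 362) (B (L (nat_lit 330) ln11_14_7 ln11_14_7_ok) (L (nat_lit 361) ln9_11_0 ln9_11_0_ok))))) (M (nat_lit 460) (B (L (nat_lit 492) ln12_15_7 ln12_15_7_ok) (M (nat_lit 458) (B (L (nat_lit 490) ln11_11_5 ln11_11_5_ok) (L (nat_lit 457) ln9_14_2 ln9_14_2_ok)))))))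 (B (M (nat_lit 460) (B (M (nat_lit 331) (B (L (nat_lit 364) ln12_14_7 ln12_14_7_ok) (L (nat_lit 395) ln11_10_4 ln11_10_4_ok))) (B (M (nat_lit 492) (B (L (nat_lit 395) ln12_15_7 ln12_15_7_ok) (L (nat_lit 524) ln12_16_6 ln12_16_6_ok))) (M (nat_lit 493) (B (M (nat_lit 364) (B (L (nat_lit 331) ln12_14_7 ln12_14_7_ok) (L (nat_lit 461) ln13_15_7 ln13_15_7_ok))) (B (M (nat_lit 461) (B (L (nat_lit 364) ln13_15_7 ln13_15_7_ok) (L (nat_lit 525) ln13_16_7 ln13_16_7_ok))) (M (nat_lit 492) (B (L (nat_lit 525) ln12_12_4 ln12_12_4_ok) (L (nat_lit 524) ln12_16_6 ln12_16_6_ok))))))))) (B (M (nat_lit 395) (B (M (nat_lit 331) (B (L (nat_lit 299) ln11_9_4 ln11_9_4_ok) (L (nat_lit 460) ln11_10_4 ln11_10_4_ok))) (B (M (nat_lit 460) (B (L (nat_lit 331) ln11_10_4 ln11_10_4_ok) (L (nat_lit 492) ln12_15_7 ln12_15_7_ok))) (B (M (nat_lit 460) (B (L (nat_lit 492) ln12_15_7 ln12_15_7_ok) (M (nat_lit 458) (B (L (nat_lit 490) ln11_11_5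 ln11_11_5_ok) (L (nat_lit 457) ln9_14_2 ln9_14_2_ok))))) (M (nat_lit 330) (B (L (nat_lit 362) ln11_14_7 ln11_14_7_ok) (M (nat_lit 331) (B (L (nat_lit 298) ln11_13_7 ln11_13_7_ok) (L (nat_lit 299) ln11_9_4 ln11_9_4_ok))))))))) (B (M (nat_lit 493) (B (M (nat_lit 364) (B (L (nat_lit 332) ln12_10_5 ln12_10_5_ok) (L (nat_lit 461) ln13_15_7 ln13_15_7_ok))) (B (M (nat_lit 461) (B (L (nat_lit 364) ln13_15_7 ln13_15_7_ok) (L (nat_lit 525) ln13_16_7 ln13_16_7_ok))) (B (M (nat_lit 492) (B (M (nat_lit 525) (B (L (nat_lit 461) ln13_16_7 ln13_16_7_ok) (L (nat_lit 460) ln12_12_4 ln12_12_4_ok))) (B (M (nat_lit 461) (B (L (nat_lit 525) ln13_16_7 ln13_16_7_ok) (L (nat_lit 524) ln13_12_5 ln13_12_5_ok))) (B (M (nat_lit 460) (B (L (nat_lit 525) ln12_12_4 ln12_12_4_ok) (L (nat_lit 524) ln12_16_6 ln12_16_6_ok))) (M (nat_lit 524) (B (L (nat_lit 460) ln12_16_6 ln12_16_6_ok) (L (nat_lit 461) ln13_12_5 ln13_12_5_ok)))))))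 (M (nat_lit 460) (B (M (nat_lit 364) (B (L (nat_lit 331) ln12_14_7 ln12_14_7_ok) (L (nat_lit 332) ln12_10_5 ln12_10_5_ok))) (M (nat_lit 492) (B (L (nat_lit 525) ln12_12_4 ln12_12_4_ok) (L (nat_lit 524) ln12_16_6 ln12_16_6_ok))))))))) (M (nat_lit 395) (B (M (nat_lit 330) (B (L (nat_lit 362) ln11_14_7 ln11_14_7_ok) (M (nat_lit 331) (B (L (nat_lit 298) ln11_13_7 ln11_13_7_ok) (L (nat_lit 299) ln11_9_4 ln11_9_4_ok))))) (B (M (nat_lit 332) (B (L (nat_lit 364) ln11_14_6 ln11_14_6_ok) (M (nat_lit 331) (B (L (nat_lit 299) ln11_9_4 ln11_9_4_ok) (L (nat_lit 300) ln11_13_6 ln11_13_6_ok))))) (M (nat_lit 364) (B (L (nat_lit 332) ln11_14_6 ln11_14_6_ok) (M (nat_lit 362) (B (L (nat_lit 330) ln11_14_7 ln11_14_7_ok) (L (nat_lit 361) ln9_11_0 ln9_11_0_ok)))))))))))))))))))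
theorem c21_s3411 : Sem (nat_lit 2426085982678494236891975984832188137007258925245052727377822572141626063897503372912082754669827799995234538520716021846945824768) (nat_lit 205943929851868349205755574537602163613391516008577346220891159260173076998387507515300560719349203642054440381837483205371267084966125403072901001561126207488) (nat_lit 205943929851868349205755574537602163613391516008577346220891159260173076998387507515300560719349203642054440381837483205371267084966125403072901001561126207488) :=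
  sem_of_chk (M (nat_lit 396) (B (M (nat_lit 426) (B (L (nat_lit 425) ln9_13_2 ln9_13_2_ok) (M (nat_lit 461) (B (L (nat_lit 462) ln10_13_0 ln10_13_0_ok) (M (nat_lit 364) (B (L (nat_lit 332) ln12_10_4 ln12_10_4_ok) (L (nat_lit 493) ln13_15_7 ln13_15_7_ok))))))) (B (M (nat_lit 461) (B (M (nat_lit 493) (B (L (nat_lit 364) ln13_15_7 ln13_15_7_ok) (L (nat_lit 525) ln13_16_7 ln13_16_7_ok))) (M (nat_lit 426) (B (L (nat_lit 425) ln9_13_2 ln9_13_2_ok) (L (nat_lit 462) ln10_13_0 ln10_13_0_ok))))) (B (M (nat_lit 426) (B (L (nat_lit 425) ln9_13_2 ln9_13_2_ok) (M (nat_lit 395) (B (M (nat_lit 394) (B (L (nat_lit 393) ln9_12_0 ln9_12_0_ok) (M (nat_lit 362) (B (L (nat_lit 361) ln13_12_3 ln13_12_3_ok) (M (nat_lit 330) (B (L (nat_lit 298) ln10_9_4 ln10_9_4_ok) (L (nat_lit 459) ln10_10_4 ln10_10_4_ok))))))) (B (M (nat_lit 394) (B (L (nat_lit 393) ln9_12_0 ln9_12_0_ok) (M (nat_lit 458) (B (L (nat_lit 457) ln13_13_1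 ln13_13_1_ok) (M (nat_lit 363) (B (L (nat_lit 331) ln11_10_5 ln11_10_5_ok) (L (nat_lit 490) ln10_15_6 ln10_15_6_ok))))))) (M (nat_lit 458) (B (L (nat_lit 457) ln13_13_1 ln13_13_1_ok) (M (nat_lit 363) (B (L (nat_lit 331) ln11_10_5 ln11_10_5_ok) (M (nat_lit 490) (B (L (nat_lit 459) ln11_11_5 ln11_11_5_ok) (L (nat_lit 522) ln10_16_6 ln10_16_6_ok)))))))))))) (B (M (nat_lit 426) (B (M (nat_lit 461) (B (L (nat_lit 462) ln10_13_0 ln10_13_0_ok) (M (nat_lit 364) (B (L (nat_lit 332) ln12_10_4 ln12_10_4_ok) (L (nat_lit 493) ln13_15_7 ln13_15_7_ok))))) (M (nat_lit 395) (B (M (nat_lit 394) (B (L (nat_lit 393) ln9_12_0 ln9_12_0_ok) (M (nat_lit 362) (B (L (nat_lit 361) ln13_12_3 ln13_12_3_ok) (M (nat_lit 330) (B (L (nat_lit 298) ln10_9_4 ln10_9_4_ok) (L (nat_lit 459) ln10_10_4 ln10_10_4_ok))))))) (B (M (nat_lit 394) (B (L (nat_lit 393) ln9_12_0 ln9_12_0_ok) (M (nat_lit 458) (B (L (nat_lit 457) ln13_13_1 ln13_13_1_ok)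 (M (nat_lit 363) (B (L (nat_lit 331) ln11_10_5 ln11_10_5_ok) (L (nat_lit 490) ln10_15_6 ln10_15_6_ok))))))) (M (nat_lit 458) (B (L (nat_lit 457) ln13_13_1 ln13_13_1_ok) (M (nat_lit 363) (B (L (nat_lit 331) ln11_10_5 ln11_10_5_ok) (M (nat_lit 490) (B (L (nat_lit 459) ln11_11_5 ln11_11_5_ok) (L (nat_lit 522) ln10_16_6 ln10_16_6_ok)))))))))))) c21_n3410))))) (nat_lit 2426085982678494236891975984832188137007258925245052727377822572141626063897503372912082754669827799995234538520716021846945824768) (nat_lit 205943929851868349205755574537602163613391516008577346220891159260173076998387507515300560719349203642054440381837483205371267084966125403072901001561126207488) (nat_lit 205943929851868349205755574537602163613391516008577346220891159260173076998387507515300560719349203642054440381837483205371267084966125403072901001561126207488) (by decide +kernel)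
theorem c21_s3468 : Sem (nat_lit 2079502270913392379444674211814302674077704290823075655481512624564798400421800170032085953906810352733060637150540575368324055040) (nat_lit 205943929851868349205941645270777110547993035691479153430383506269759281349006955373130605602252973775095759241841736349884826916290374483958053320848767451136) (nat_lit 205943929851868349205941645270777110547993035691479153430383506269759281349006955373130605602252973775095759241841736349884826916290374483958053320848767451136) :=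
  sem_of_chk (M (nat_lit 427) (B (M (nat_lit 426) (B (M (nat_lit 425) (B (L (nat_lit 396) ln9_13_2 ln9_13_2_ok) (M (nat_lit 393) (B (L (nat_lit 392) ln12_13_3 ln12_13_3_ok) (L (nat_lit 394) ln13_13_3 ln13_13_3_ok))))) (B (M (nat_lit 425) (B (L (nat_lit 396) ln9_13_2 ln9_13_2_ok) (M (nat_lit 457) (B (L (nat_lit 456) ln12_13_1 ln12_13_1_ok) (L (nat_lit 458) ln13_13_1 ln13_13_1_ok))))) (B (M (nat_lit 425) (B (M (nat_lit 393) (B (L (nat_lit 392) ln12_13_3 ln12_13_3_ok) (L (nat_lit 394) ln13_13_3 ln13_13_3_ok))) (M (nat_lit 457) (B (L (nat_lit 456) ln12_13_1 ln12_13_1_ok) (L (nat_lit 458) ln13_13_1 ln13_13_1_ok))))) (M (nat_lit 430) (B (M (nat_lit 394) (B (L (nat_lit 393) ln13_13_3 ln13_13_3_ok) (L (nat_lit 395) ln14_13_3 ln14_13_3_ok))) (M (nat_lit 458) (B (L (nat_lit 457) ln13_13_1 ln13_13_1_ok) (L (nat_lit 459) ln14_13_1 ln14_13_1_ok))))))))) (B (M (nat_lit 426) (B (M (nat_lit 425) (B (L (nat_lit 396)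 ln9_13_2 ln9_13_2_ok) (M (nat_lit 461) (B (L (nat_lit 460) ln9_13_0 ln9_13_0_ok) (L (nat_lit 462) ln10_13_0 ln10_13_0_ok))))) (M (nat_lit 430) (B (M (nat_lit 394) (B (L (nat_lit 393) ln13_13_3 ln13_13_3_ok) (L (nat_lit 395) ln14_13_3 ln14_13_3_ok))) (M (nat_lit 458) (B (L (nat_lit 457) ln13_13_1 ln13_13_1_ok) (L (nat_lit 459) ln14_13_1 ln14_13_1_ok))))))) (B (M (nat_lit 396) (B (M (nat_lit 426) (B (L (nat_lit 425) ln9_13_2 ln9_13_2_ok) (M (nat_lit 461) (B (L (nat_lit 462) ln10_13_0 ln10_13_0_ok) (M (nat_lit 364) (B (L (nat_lit 332) ln12_10_4 ln12_10_4_ok) (L (nat_lit 493) ln13_15_7 ln13_15_7_ok))))))) (B (M (nat_lit 426) (B (L (nat_lit 425) ln9_13_2 ln9_13_2_ok) (M (nat_lit 430) (B (M (nat_lit 431) (B (L (nat_lit 395) ln15_13_3 ln15_13_3_ok) (L (nat_lit 432) ln16_13_3 ln16_13_3_ok))) (M (nat_lit 458) (B (L (nat_lit 457) ln13_13_1 ln13_13_1_ok) (L (nat_lit 459) ln14_13_1 ln14_13_1_ok))))))) (M (nat_lit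 459) (B (M (nat_lit 364) (B (L (nat_lit 332) ln12_10_5 ln12_10_5_ok) (M (nat_lit 491) (B (L (nat_lit 460) ln12_11_5 ln12_11_5_ok) (L (nat_lit 523) ln11_16_6 ln11_16_6_ok))))) (M (nat_lit 430) (B (L (nat_lit 458) ln14_13_1 ln14_13_1_ok) (M (nat_lit 431) (B (L (nat_lit 395) ln15_13_3 ln15_13_3_ok) (L (nat_lit 432) ln16_13_3 ln16_13_3_ok)))))))))) (B (M (nat_lit 426) (B (M (nat_lit 425) (B (L (nat_lit 396) ln9_13_2 ln9_13_2_ok) (M (nat_lit 461) (B (L (nat_lit 460) ln9_13_0 ln9_13_0_ok) (L (nat_lit 462) ln10_13_0 ln10_13_0_ok))))) (M (nat_lit 458) (B (L (nat_lit 457) ln13_13_1 ln13_13_1_ok) (M (nat_lit 459) (B (L (nat_lit 430) ln14_13_1 ln14_13_1_ok) (M (nat_lit 394) (B (L (nat_lit 393) ln13_13_3 ln13_13_3_ok) (M (nat_lit 362) (B (L (nat_lit 330) ln10_10_4 ln10_10_4_ok) (L (nat_lit 491) ln10_11_4 ln10_11_4_ok))))))))))) (B (M (nat_lit 426) (B (M (nat_lit 425) (B (M (nat_lit 457) (B (L (nat_lit 456) ln12_13_1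 ln12_13_1_ok) (L (nat_lit 458) ln13_13_1 ln13_13_1_ok))) (M (nat_lit 461) (B (L (nat_lit 460) ln9_13_0 ln9_13_0_ok) (L (nat_lit 462) ln10_13_0 ln10_13_0_ok))))) (B (M (nat_lit 430) (B (M (nat_lit 394) (B (L (nat_lit 393) ln13_13_3 ln13_13_3_ok) (L (nat_lit 395) ln14_13_3 ln14_13_3_ok))) (M (nat_lit 458) (B (L (nat_lit 457) ln13_13_1 ln13_13_1_ok) (L (nat_lit 459) ln14_13_1 ln14_13_1_ok))))) (M (nat_lit 425) (B (M (nat_lit 393) (B (L (nat_lit 392) ln12_13_3 ln12_13_3_ok) (L (nat_lit 394) ln13_13_3 ln13_13_3_ok))) (M (nat_lit 461) (B (L (nat_lit 460) ln9_13_0 ln9_13_0_ok) (L (nat_lit 462) ln10_13_0 ln10_13_0_ok)))))))) (B (M (nat_lit 395) (B (M (nat_lit 394) (B (L (nat_lit 430) ln14_13_3 ln14_13_3_ok) (M (nat_lit 393) (B (L (nat_lit 392) ln8_12_0 ln8_12_0_ok) (L (nat_lit 426) ln13_13_3 ln13_13_3_ok))))) (B (M (nat_lit 394) (B (L (nat_lit 430) ln14_13_3 ln14_13_3_ok) (M (nat_lit 393) (B (L (nat_lit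 396) ln9_12_0 ln9_12_0_ok) (L (nat_lit 426) ln13_13_3 ln13_13_3_ok))))) (B (M (nat_lit 430) (B (L (nat_lit 394) ln14_13_3 ln14_13_3_ok) (M (nat_lit 431) (B (L (nat_lit 396) ln15_13_3 ln15_13_3_ok) (M (nat_lit 459) (B (L (nat_lit 458) ln14_13_1 ln14_13_1_ok) (L (nat_lit 460) ln15_13_1 ln15_13_1_ok))))))) (B (M (nat_lit 459) (B (M (nat_lit 430) (B (L (nat_lit 458) ln14_13_1 ln14_13_1_ok) (M (nat_lit 431) (B (L (nat_lit 396) ln15_13_3 ln15_13_3_ok) (L (nat_lit 460) ln15_13_1 ln15_13_1_ok))))) (B (M (nat_lit 458) (B (L (nat_lit 430) ln14_13_1 ln14_13_1_ok) (M (nat_lit 457) (B (L (nat_lit 426) ln13_13_1 ln13_13_1_ok) (L (nat_lit 456) ln8_14_2 ln8_14_2_ok))))) (M (nat_lit 363) (B (M (nat_lit 460) (B (L (nat_lit 331) ln11_10_4 ln11_10_4_ok) (L (nat_lit 492) ln11_11_4 ln11_11_4_ok))) (B (M (nat_lit 491) (B (M (nat_lit 364) (B (L (nat_lit 332) ln11_14_6 ln11_14_6_ok) (L (nat_lit 396) ln11_15_6 ln11_15_6_ok)))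 (M (nat_lit 492) (B (L (nat_lit 460) ln11_11_4 ln11_11_4_ok) (L (nat_lit 524) ln11_12_4 ln11_12_4_ok))))) (M (nat_lit 331) (B (M (nat_lit 330) (B (L (nat_lit 298) ln11_13_7 ln11_13_7_ok) (L (nat_lit 362) ln11_14_7 ln11_14_7_ok))) (M (nat_lit 332) (B (L (nat_lit 300) ln11_13_6 ln11_13_6_ok) (L (nat_lit 364) ln11_14_6 ln11_14_6_ok))))))))))) (M (nat_lit 363) (B (M (nat_lit 460) (B (L (nat_lit 331) ln11_10_4 ln11_10_4_ok) (M (nat_lit 492) (B (L (nat_lit 396) ln12_15_7 ln12_15_7_ok) (L (nat_lit 524) ln12_16_7 ln12_16_7_ok))))) (B (M (nat_lit 459) (B (M (nat_lit 460) (B (L (nat_lit 492) ln11_11_4 ln11_11_4_ok) (M (nat_lit 458) (B (L (nat_lit 490) ln11_11_5 ln11_11_5_ok) (L (nat_lit 457) ln9_14_2 ln9_14_2_ok))))) (M (nat_lit 394) (B (M (nat_lit 362) (B (L (nat_lit 330) ln11_14_7 ln11_14_7_ok) (L (nat_lit 491) ln11_15_7 ln11_15_7_ok))) (M (nat_lit 393) (B (L (nat_lit 396) ln9_12_0 ln9_12_0_ok) (L (nat_lit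 426) ln13_13_3 ln13_13_3_ok))))))) (B (M (nat_lit 460) (B (L (nat_lit 331) ln11_10_4 ln11_10_4_ok) (M (nat_lit 492) (B (L (nat_lit 459) ln11_11_4 ln11_11_4_ok) (L (nat_lit 524) ln12_16_7 ln12_16_7_ok))))) (M (nat_lit 459) (B (M (nat_lit 458) (B (L (nat_lit 490) ln11_11_5 ln11_11_5_ok) (M (nat_lit 426) (B (L (nat_lit 331) ln11_10_5 ln11_10_5_ok) (L (nat_lit 457) ln13_13_1 ln13_13_1_ok))))) (M (nat_lit 491) (B (M (nat_lit 362) (B (L (nat_lit 330) ln11_14_7 ln11_14_7_ok) (L (nat_lit 394) ln11_15_7 ln11_15_7_ok))) (M (nat_lit 364) (B (L (nat_lit 332) ln11_14_6 ln11_14_6_ok) (L (nat_lit 396) ln11_15_6 ln11_15_6_ok)))))))))))))))) (B c21_n3282 (B (K (nat_lit 2426085982678494236891975984832188137007258925245052727377822572141626063897503372912082754669827799995234538520716021846945824768) (nat_lit 205943929851868349205755574537602163613391516008577346220891159260173076998387507515300560719349203642054440381837483205371267084966125403072901001561126207488)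 (nat_lit 205943929851868349205755574537602163613391516008577346220891159260173076998387507515300560719349203642054440381837483205371267084966125403072901001561126207488) c21_s3411) (B (M (nat_lit 396) (B (M (nat_lit 426) (B (L (nat_lit 425) ln9_13_2 ln9_13_2_ok) (M (nat_lit 461) (B (L (nat_lit 462) ln10_13_0 ln10_13_0_ok) (M (nat_lit 364) (B (L (nat_lit 332) ln12_10_4 ln12_10_4_ok) (L (nat_lit 493) ln13_15_7 ln13_15_7_ok))))))) (B (M (nat_lit 430) (B (M (nat_lit 395) (B (L (nat_lit 394) ln10_12_0 ln10_12_0_ok) (L (nat_lit 431) ln15_13_3 ln15_13_3_ok))) (B (M (nat_lit 431) (B (L (nat_lit 395) ln15_13_3 ln15_13_3_ok) (L (nat_lit 432) ln16_13_3 ln16_13_3_ok))) (B (M (nat_lit 459) (B (L (nat_lit 458) ln14_13_1 ln14_13_1_ok) (M (nat_lit 431) (B (L (nat_lit 432) ln16_13_3 ln16_13_3_ok) (L (nat_lit 460) ln15_13_1 ln15_13_1_ok))))) (M (nat_lit 394) (B (L (nat_lit 395) ln10_12_0 ln10_12_0_ok) (M (nat_lit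 426) (B (L (nat_lit 393) ln13_13_3 ln13_13_3_ok) (L (nat_lit 425) ln9_13_2 ln9_13_2_ok))))))))) (M (nat_lit 459) (B (M (nat_lit 491) (B (L (nat_lit 523) ln11_16_6 ln11_16_6_ok) (M (nat_lit 364) (B (L (nat_lit 395) ln11_15_6 ln11_15_6_ok) (L (nat_lit 460) ln12_11_5 ln12_11_5_ok))))) (B (M (nat_lit 430) (B (L (nat_lit 458) ln14_13_1 ln14_13_1_ok) (M (nat_lit 395) (B (L (nat_lit 394) ln10_12_0 ln10_12_0_ok) (L (nat_lit 431) ln15_13_3 ln15_13_3_ok))))) (M (nat_lit 364) (B (L (nat_lit 332) ln12_10_5 ln12_10_5_ok) (M (nat_lit 491) (B (L (nat_lit 460) ln12_11_5 ln12_11_5_ok) (L (nat_lit 523) ln11_16_6 ln11_16_6_ok))))))))))) (B (M (nat_lit 396) (B (M (nat_lit 426) (B (L (nat_lit 425) ln9_13_2 ln9_13_2_ok) (M (nat_lit 461) (B (L (nat_lit 462) ln10_13_0 ln10_13_0_ok) (M (nat_lit 364) (B (L (nat_lit 332) ln12_10_4 ln12_10_4_ok) (L (nat_lit 493) ln13_15_7 ln13_15_7_ok))))))) (B (M (nat_lit 426) (B (L (nat_lit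 425) ln9_13_2 ln9_13_2_ok) (M (nat_lit 394) (B (L (nat_lit 393) ln13_13_3 ln13_13_3_ok) (M (nat_lit 395) (B (L (nat_lit 430) ln10_12_0 ln10_12_0_ok) (M (nat_lit 362) (B (L (nat_lit 361) ln13_12_3 ln13_12_3_ok) (M (nat_lit 330) (B (L (nat_lit 298) ln10_9_4 ln10_9_4_ok) (L (nat_lit 459) ln10_10_4 ln10_10_4_ok))))))))))) (B (M (nat_lit 426) (B (M (nat_lit 461) (B (L (nat_lit 462) ln10_13_0 ln10_13_0_ok) (M (nat_lit 364) (B (L (nat_lit 332) ln12_10_4 ln12_10_4_ok) (L (nat_lit 493) ln13_15_7 ln13_15_7_ok))))) (M (nat_lit 394) (B (L (nat_lit 393) ln13_13_3 ln13_13_3_ok) (M (nat_lit 395) (B (L (nat_lit 430) ln10_12_0 ln10_12_0_ok) (M (nat_lit 362) (B (L (nat_lit 361) ln13_12_3 ln13_12_3_ok) (M (nat_lit 330) (B (L (nat_lit 298) ln10_9_4 ln10_9_4_ok) (L (nat_lit 459) ln10_10_4 ln10_10_4_ok))))))))))) (M (nat_lit 395) (B (M (nat_lit 430) (B (L (nat_lit 394) ln10_12_0 ln10_12_0_ok) (L (nat_lit 431) ln15_13_3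 ln15_13_3_ok))) (M (nat_lit 364) (B (M (nat_lit 332) (B (L (nat_lit 300) ln12_9_5 ln12_9_5_ok) (L (nat_lit 459) ln12_10_5 ln12_10_5_ok))) (B (M (nat_lit 459) (B (L (nat_lit 332) ln12_10_5 ln12_10_5_ok) (L (nat_lit 491) ln11_15_6 ln11_15_6_ok))) (B (M (nat_lit 363) (B (M (nat_lit 331) (B (L (nat_lit 299) ln11_9_4 ln11_9_4_ok) (L (nat_lit 460) ln12_14_7 ln12_14_7_ok))) (M (nat_lit 459) (B (L (nat_lit 491) ln11_15_6 ln11_15_6_ok) (M (nat_lit 362) (B (L (nat_lit 330) ln11_14_7 ln11_14_7_ok) (L (nat_lit 361) ln9_11_0 ln9_11_0_ok))))))) (M (nat_lit 332) (B (L (nat_lit 300) ln12_9_5 ln12_9_5_ok) (L (nat_lit 461) ln12_10_4 ln12_10_4_ok))))))))))))) (M (nat_lit 426) (B (M (nat_lit 425) (B (L (nat_lit 396) ln9_13_2 ln9_13_2_ok) (M (nat_lit 461) (B (L (nat_lit 460) ln9_13_0 ln9_13_0_ok) (L (nat_lit 462) ln10_13_0 ln10_13_0_ok))))) (M (nat_lit 394) (B (L (nat_lit 393) ln13_13_3 ln13_13_3_ok) (M (nat_lit 395)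 (B (L (nat_lit 430) ln14_13_3 ln14_13_3_ok) (M (nat_lit 458) (B (L (nat_lit 457) ln13_13_1 ln13_13_1_ok) (M (nat_lit 363) (B (L (nat_lit 331) ln11_10_5 ln11_10_5_ok) (L (nat_lit 490) ln10_15_6 ln10_15_6_ok)))))))))))))))))))))) (nat_lit 2079502270913392379444674211814302674077704290823075655481512624564798400421800170032085953906810352733060637150540575368324055040) (nat_lit 205943929851868349205941645270777110547993035691479153430383506269759281349006955373130605602252973775095759241841736349884826916290374483958053320848767451136) (nat_lit 205943929851868349205941645270777110547993035691479153430383506269759281349006955373130605602252973775095759241841736349884826916290374483958053320848767451136) (by decide +kernel)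
theorem c21_s3472 : Sem (nat_lit 2079502270913392379444674211814302674077704290823075655481512624564798400421800170032085953906810352733060637150540575368324055040) (nat_lit 54918381303421571340242693661471867266934121827168762915049311151409453260129594557890678365308090797192845970211855100796896369000356909051446501518820245504) (nat_lit 54918381303421571340242693661471867266934121827168762915049311151409453260129594557890678365308090797192845970211855100796896369000356909051446501518820245504) :=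
  sem_of_chk (M (nat_lit 427) (B (M (nat_lit 398) (B (L (nat_lit 426) ln10_13_2 ln10_13_2_ok) (M (nat_lit 399) (B (L (nat_lit 400) ln16_12_1 ln16_12_1_ok) (L (nat_lit 430) ln11_13_2 ln11_13_2_ok))))) (B (M (nat_lit 395) (B (M (nat_lit 394) (B (L (nat_lit 430) ln14_13_3 ln14_13_3_ok) (M (nat_lit 393) (B (L (nat_lit 392) ln8_12_0 ln8_12_0_ok) (L (nat_lit 396) ln9_12_0 ln9_12_0_ok))))) (B (M (nat_lit 394) (B (L (nat_lit 430) ln14_13_3 ln14_13_3_ok) (M (nat_lit 393) (B (L (nat_lit 396) ln9_12_0 ln9_12_0_ok) (L (nat_lit 426) ln13_13_3 ln13_13_3_ok))))) (B (M (nat_lit 430) (B (L (nat_lit 394) ln14_13_3 ln14_13_3_ok) (M (nat_lit 431) (B (L (nat_lit 396) ln15_13_3 ln15_13_3_ok) (M (nat_lit 459) (B (L (nat_lit 458) ln14_13_1 ln14_13_1_ok) (L (nat_lit 460) ln15_13_1 ln15_13_1_ok))))))) (B (M (nat_lit 459) (B (M (nat_lit 430) (B (L (nat_lit 458) ln14_13_1 ln14_13_1_ok) (M (nat_lit 431) (B (L (nat_lit 396) ln15_13_3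 ln15_13_3_ok) (L (nat_lit 460) ln15_13_1 ln15_13_1_ok))))) (B (M (nat_lit 458) (B (L (nat_lit 430) ln14_13_1 ln14_13_1_ok) (M (nat_lit 457) (B (L (nat_lit 426) ln13_13_1 ln13_13_1_ok) (L (nat_lit 456) ln8_14_2 ln8_14_2_ok))))) (M (nat_lit 363) (B (M (nat_lit 460) (B (L (nat_lit 331) ln11_10_4 ln11_10_4_ok) (L (nat_lit 492) ln11_11_4 ln11_11_4_ok))) (B (M (nat_lit 491) (B (M (nat_lit 364) (B (L (nat_lit 332) ln11_14_6 ln11_14_6_ok) (L (nat_lit 396) ln11_15_6 ln11_15_6_ok))) (M (nat_lit 492) (B (L (nat_lit 460) ln11_11_4 ln11_11_4_ok) (L (nat_lit 524) ln11_12_4 ln11_12_4_ok))))) (M (nat_lit 331) (B (M (nat_lit 330) (B (L (nat_lit 298) ln11_13_7 ln11_13_7_ok) (L (nat_lit 362) ln11_14_7 ln11_14_7_ok))) (M (nat_lit 332) (B (L (nat_lit 300) ln11_13_6 ln11_13_6_ok) (L (nat_lit 364) ln11_14_6 ln11_14_6_ok))))))))))) (B (M (nat_lit 394) (B (L (nat_lit 430) ln14_13_3 ln14_13_3_ok) (M (nat_lit 393) (B (L (nat_lit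 392) ln8_12_0 ln8_12_0_ok) (L (nat_lit 426) ln13_13_3 ln13_13_3_ok))))) (M (nat_lit 363) (B (M (nat_lit 460) (B (L (nat_lit 331) ln11_10_4 ln11_10_4_ok) (M (nat_lit 492) (B (L (nat_lit 396) ln12_15_7 ln12_15_7_ok) (L (nat_lit 524) ln12_16_7 ln12_16_7_ok))))) (B (M (nat_lit 459) (B (M (nat_lit 460) (B (L (nat_lit 492) ln11_11_4 ln11_11_4_ok) (M (nat_lit 458) (B (L (nat_lit 490) ln11_11_5 ln11_11_5_ok) (L (nat_lit 457) ln9_14_2 ln9_14_2_ok))))) (M (nat_lit 491) (B (M (nat_lit 362) (B (L (nat_lit 330) ln11_14_7 ln11_14_7_ok) (L (nat_lit 394) ln11_15_7 ln11_15_7_ok))) (M (nat_lit 364) (B (L (nat_lit 332) ln11_14_6 ln11_14_6_ok) (L (nat_lit 396) ln11_15_6 ln11_15_6_ok))))))) (B (M (nat_lit 460) (B (L (nat_lit 331) ln11_10_4 ln11_10_4_ok) (M (nat_lit 492) (B (L (nat_lit 459) ln11_11_4 ln11_11_4_ok) (L (nat_lit 524) ln12_16_7 ln12_16_7_ok))))) (M (nat_lit 459) (B (M (nat_lit 458) (B (L (nat_lit 490) ln11_11_5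 ln11_11_5_ok) (M (nat_lit 426) (B (L (nat_lit 331) ln11_10_5 ln11_10_5_ok) (L (nat_lit 457) ln13_13_1 ln13_13_1_ok))))) (M (nat_lit 491) (B (M (nat_lit 362) (B (L (nat_lit 330) ln11_14_7 ln11_14_7_ok) (L (nat_lit 394) ln11_15_7 ln11_15_7_ok))) (M (nat_lit 364) (B (L (nat_lit 332) ln11_14_6 ln11_14_6_ok) (L (nat_lit 396) ln11_15_6 ln11_15_6_ok))))))))))))))))) (B (M (nat_lit 395) (B (M (nat_lit 394) (B (L (nat_lit 430) ln14_13_3 ln14_13_3_ok) (M (nat_lit 393) (B (L (nat_lit 392) ln8_12_0 ln8_12_0_ok) (L (nat_lit 396) ln9_12_0 ln9_12_0_ok))))) (B (M (nat_lit 430) (B (L (nat_lit 394) ln14_13_3 ln14_13_3_ok) (M (nat_lit 431) (B (L (nat_lit 396) ln15_13_3 ln15_13_3_ok) (M (nat_lit 459) (B (L (nat_lit 458) ln14_13_1 ln14_13_1_ok) (L (nat_lit 460) ln15_13_1 ln15_13_1_ok))))))) (B (M (nat_lit 363) (B (M (nat_lit 460) (B (L (nat_lit 331) ln11_10_4 ln11_10_4_ok) (M (nat_lit 492) (B (L (nat_lit 396) ln12_15_7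 ln12_15_7_ok) (L (nat_lit 459) ln11_11_4 ln11_11_4_ok))))) (B (M (nat_lit 459) (B (M (nat_lit 460) (B (L (nat_lit 492) ln11_11_4 ln11_11_4_ok) (M (nat_lit 458) (B (L (nat_lit 490) ln11_11_5 ln11_11_5_ok) (L (nat_lit 457) ln9_14_2 ln9_14_2_ok))))) (M (nat_lit 396) (B (M (nat_lit 362) (B (L (nat_lit 330) ln11_14_7 ln11_14_7_ok) (L (nat_lit 398) ln14_12_3 ln14_12_3_ok))) (M (nat_lit 364) (B (L (nat_lit 332) ln11_14_6 ln11_14_6_ok) (L (nat_lit 491) ln11_15_6 ln11_15_6_ok))))))) (B (M (nat_lit 460) (B (L (nat_lit 331) ln11_10_4 ln11_10_4_ok) (M (nat_lit 492) (B (L (nat_lit 459) ln11_11_4 ln11_11_4_ok) (L (nat_lit 524) ln12_16_7 ln12_16_7_ok))))) (B (M (nat_lit 460) (B (L (nat_lit 331) ln11_10_4 ln11_10_4_ok) (M (nat_lit 492) (B (L (nat_lit 396) ln12_15_7 ln12_15_7_ok) (L (nat_lit 524) ln12_16_7 ln12_16_7_ok))))) (M (nat_lit 396) (B (M (nat_lit 398) (B (L (nat_lit 362) ln14_12_3 ln14_12_3_ok) (L (nat_lit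 399) ln15_12_1 ln15_12_1_ok))) (M (nat_lit 332) (B (M (nat_lit 331) (B (L (nat_lit 299) ln11_9_4 ln11_9_4_ok) (L (nat_lit 300) ln11_13_6 ln11_13_6_ok))) (B (M (nat_lit 300) (B (L (nat_lit 331) ln11_13_6 ln11_13_6_ok) (L (nat_lit 364) ln12_9_5 ln12_9_5_ok))) (M (nat_lit 364) (B (L (nat_lit 459) ln11_14_6 ln11_14_6_ok) (L (nat_lit 461) ln12_10_4 ln12_10_4_ok))))))))))))) (M (nat_lit 430) (B (L (nat_lit 394) ln14_13_3 ln14_13_3_ok) (M (nat_lit 431) (B (M (nat_lit 399) (B (L (nat_lit 398) ln11_13_2 ln11_13_2_ok) (L (nat_lit 400) ln12_13_2 ln12_13_2_ok))) (M (nat_lit 459) (B (L (nat_lit 458) ln14_13_1 ln14_13_1_ok) (L (nat_lit 460) ln15_13_1 ln15_13_1_ok))))))))))) (M (nat_lit 398) (B (L (nat_lit 426) ln10_13_2 ln10_13_2_ok) (M (nat_lit 399) (B (L (nat_lit 396) ln15_12_1 ln15_12_1_ok) (L (nat_lit 400) ln16_12_1 ln16_12_1_ok))))))))) (nat_lit 2079502270913392379444674211814302674077704290823075655481512624564798400421800170032085953906810352733060637150540575368324055040)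 (nat_lit 54918381303421571340242693661471867266934121827168762915049311151409453260129594557890678365308090797192845970211855100796896369000356909051446501518820245504) (nat_lit 54918381303421571340242693661471867266934121827168762915049311151409453260129594557890678365308090797192845970211855100796896369000356909051446501518820245504) (by decide +kernel)
theorem c21_s3556 : Sem (nat_lit 2079502270913392379444674211814302674077704290823075655481512624564798400421800170032085953906810352733060637150540575368324055040) (nat_lit 192214334528410459247987529828301381384128984821642181231653478034576171263093346342252897770911569839241087547813219594493709581617902979484701328368629448704) (nat_lit 192214334528410459247987529828301381384128984821642181231653478034576171263093346342252897770911569839241087547813219594493709581617902979484701328368629448704) :=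
  sem_of_chk (M (nat_lit 396) (B (M (nat_lit 364) (B (M (nat_lit 332) (B (L (nat_lit 300) ln12_9_4 ln12_9_4_ok) (L (nat_lit 461) ln12_10_4 ln12_10_4_ok))) (M (nat_lit 395) (B (M (nat_lit 430) (B (L (nat_lit 394) ln10_12_0 ln10_12_0_ok) (L (nat_lit 431) ln15_13_3 ln15_13_3_ok))) (M (nat_lit 363) (B (M (nat_lit 331) (B (L (nat_lit 299) ln11_9_4 ln11_9_4_ok) (L (nat_lit 460) ln12_14_7 ln12_14_7_ok))) (M (nat_lit 362) (B (L (nat_lit 361) ln9_11_0 ln9_11_0_ok) (L (nat_lit 398) ln14_12_3 ln14_12_3_ok))))))))) (B (M (nat_lit 395) (B (M (nat_lit 430) (B (L (nat_lit 394) ln10_12_0 ln10_12_0_ok) (L (nat_lit 431) ln15_13_3 ln15_13_3_ok))) (M (nat_lit 364) (B (M (nat_lit 332) (B (L (nat_lit 300) ln12_9_4 ln12_9_4_ok) (L (nat_lit 461) ln12_10_4 ln12_10_4_ok))) (M (nat_lit 363) (B (M (nat_lit 362) (B (L (nat_lit 361) ln9_11_0 ln9_11_0_ok) (L (nat_lit 398) ln14_12_3 ln14_12_3_ok))) (M (nat_lit 460) (B (L (nat_lit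 331) ln12_14_7 ln12_14_7_ok) (L (nat_lit 492) ln12_15_7 ln12_15_7_ok))))))))) (B (M (nat_lit 395) (B (M (nat_lit 394) (B (L (nat_lit 393) ln9_12_0 ln9_12_0_ok) (L (nat_lit 430) ln10_12_0 ln10_12_0_ok))) (B (M (nat_lit 430) (B (L (nat_lit 394) ln10_12_0 ln10_12_0_ok) (L (nat_lit 431) ln15_13_3 ln15_13_3_ok))) (M (nat_lit 364) (B (M (nat_lit 461) (B (L (nat_lit 332) ln12_10_4 ln12_10_4_ok) (L (nat_lit 493) ln13_15_7 ln13_15_7_ok))) (M (nat_lit 363) (B (M (nat_lit 362) (B (L (nat_lit 361) ln9_11_0 ln9_11_0_ok) (L (nat_lit 398) ln14_12_3 ln14_12_3_ok))) (M (nat_lit 460) (B (L (nat_lit 331) ln12_14_7 ln12_14_7_ok) (L (nat_lit 492) ln12_15_7 ln12_15_7_ok)))))))))) (B (M (nat_lit 430) (B (M (nat_lit 395) (B (L (nat_lit 394) ln10_12_0 ln10_12_0_ok) (L (nat_lit 431) ln15_13_3 ln15_13_3_ok))) (B (M (nat_lit 431) (B (L (nat_lit 395) ln15_13_3 ln15_13_3_ok) (L (nat_lit 432) ln16_13_3 ln16_13_3_ok))) (B (M (nat_lit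 431) (B (L (nat_lit 432) ln16_13_3 ln16_13_3_ok) (M (nat_lit 399) (B (L (nat_lit 400) ln12_13_2 ln12_13_2_ok) (M (nat_lit 427) (B (L (nat_lit 398) ln15_12_1 ln15_12_1_ok) (M (nat_lit 459) (B (L (nat_lit 458) ln14_13_1 ln14_13_1_ok) (L (nat_lit 460) ln15_13_1 ln15_13_1_ok))))))))) (M (nat_lit 398) (B (M (nat_lit 399) (B (L (nat_lit 427) ln15_12_1 ln15_12_1_ok) (L (nat_lit 400) ln16_12_1 ln16_12_1_ok))) (M (nat_lit 366) (B (M (nat_lit 334) (B (L (nat_lit 302) ln14_9_5 ln14_9_5_ok) (L (nat_lit 461) ln14_10_5 ln14_10_5_ok))) (M (nat_lit 395) (B (L (nat_lit 367) ln11_12_2 ln11_12_2_ok) (L (nat_lit 394) ln10_12_0 ln10_12_0_ok))))))))))) (B (M (nat_lit 364) (B (M (nat_lit 332) (B (L (nat_lit 300) ln12_9_4 ln12_9_4_ok) (L (nat_lit 461) ln12_10_4 ln12_10_4_ok))) (B (M (nat_lit 461) (B (L (nat_lit 332) ln12_10_4 ln12_10_4_ok) (L (nat_lit 493) ln13_15_7 ln13_15_7_ok))) (B (M (nat_lit 461) (B (L (nat_lit 493)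 ln13_15_7 ln13_15_7_ok) (M (nat_lit 460) (B (M (nat_lit 459) (B (L (nat_lit 491) ln12_11_5 ln12_11_5_ok) (M (nat_lit 430) (B (L (nat_lit 431) ln15_13_1 ln15_13_1_ok) (L (nat_lit 458) ln10_14_2 ln10_14_2_ok))))) (M (nat_lit 492) (B (L (nat_lit 524) ln12_16_6 ln12_16_6_ok) (M (nat_lit 363) (B (L (nat_lit 331) ln12_14_7 ln12_14_7_ok) (L (nat_lit 395) ln12_15_7 ln12_15_7_ok))))))))) (M (nat_lit 332) (B (L (nat_lit 300) ln12_9_4 ln12_9_4_ok) (M (nat_lit 460) (B (M (nat_lit 331) (B (L (nat_lit 299) ln12_13_7 ln12_13_7_ok) (L (nat_lit 363) ln12_14_7 ln12_14_7_ok))) (M (nat_lit 459) (B (L (nat_lit 427) ln12_10_5 ln12_10_5_ok) (L (nat_lit 491) ln12_11_5 ln12_11_5_ok))))))))))) (B (M (nat_lit 364) (B (M (nat_lit 332) (B (L (nat_lit 300) ln12_9_4 ln12_9_4_ok) (L (nat_lit 461) ln12_10_4 ln12_10_4_ok))) (B (M (nat_lit 461) (B (L (nat_lit 332) ln12_10_4 ln12_10_4_ok) (L (nat_lit 493) ln13_15_7 ln13_15_7_ok)))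 (B (M (nat_lit 460) (B (M (nat_lit 493) (B (L (nat_lit 461) ln13_15_7 ln13_15_7_ok) (M (nat_lit 492) (B (L (nat_lit 525) ln12_12_4 ln12_12_4_ok) (L (nat_lit 524) ln12_16_6 ln12_16_6_ok))))) (B (M (nat_lit 492) (B (L (nat_lit 524) ln12_16_6 ln12_16_6_ok) (M (nat_lit 491) (B (L (nat_lit 459) ln12_11_5 ln12_11_5_ok) (L (nat_lit 523) ln12_12_5 ln12_12_5_ok))))) (M (nat_lit 461) (B (L (nat_lit 493) ln13_15_7 ln13_15_7_ok) (M (nat_lit 459) (B (L (nat_lit 491) ln12_11_5 ln12_11_5_ok) (M (nat_lit 430) (B (L (nat_lit 431) ln15_13_1 ln15_13_1_ok) (L (nat_lit 458) ln10_14_2 ln10_14_2_ok)))))))))) (M (nat_lit 332) (B (L (nat_lit 300) ln12_9_4 ln12_9_4_ok) (M (nat_lit 460) (B (M (nat_lit 331) (B (L (nat_lit 299) ln12_13_7 ln12_13_7_ok) (L (nat_lit 363) ln12_14_7 ln12_14_7_ok))) (M (nat_lit 459) (B (L (nat_lit 427) ln12_10_5 ln12_10_5_ok) (L (nat_lit 491) ln12_11_5 ln12_11_5_ok))))))))))) (B (M (nat_lit 364) (B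 (M (nat_lit 332) (B (L (nat_lit 300) ln12_9_4 ln12_9_4_ok) (L (nat_lit 461) ln12_10_4 ln12_10_4_ok))) (B (M (nat_lit 461) (B (L (nat_lit 332) ln12_10_4 ln12_10_4_ok) (L (nat_lit 493) ln13_15_7 ln13_15_7_ok))) (M (nat_lit 398) (B (M (nat_lit 399) (B (L (nat_lit 363) ln15_12_3 ln15_12_3_ok) (L (nat_lit 427) ln15_12_1 ln15_12_1_ok))) (B (M (nat_lit 399) (B (L (nat_lit 427) ln15_12_1 ln15_12_1_ok) (L (nat_lit 400) ln16_12_1 ln16_12_1_ok))) (M (nat_lit 460) (B (M (nat_lit 492) (B (L (nat_lit 524) ln12_16_6 ln12_16_6_ok) (M (nat_lit 491) (B (L (nat_lit 459) ln12_11_5 ln12_11_5_ok) (L (nat_lit 523) ln12_12_5 ln12_12_5_ok))))) (M (nat_lit 363) (B (L (nat_lit 331) ln12_14_7 ln12_14_7_ok) (M (nat_lit 362) (B (L (nat_lit 361) ln9_11_0 ln9_11_0_ok) (L (nat_lit 395) ln14_12_3 ln14_12_3_ok))))))))))))) (B (M (nat_lit 430) (B (M (nat_lit 395) (B (L (nat_lit 394) ln10_12_0 ln10_12_0_ok) (L (nat_lit 431) ln15_13_3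 ln15_13_3_ok))) (B (M (nat_lit 431) (B (L (nat_lit 395) ln15_13_3 ln15_13_3_ok) (L (nat_lit 432) ln16_13_3 ln16_13_3_ok))) (B (M (nat_lit 399) (B (M (nat_lit 398) (B (L (nat_lit 427) ln15_12_1 ln15_12_1_ok) (L (nat_lit 400) ln16_12_1 ln16_12_1_ok))) (B (M (nat_lit 431) (B (L (nat_lit 432) ln16_13_3 ln16_13_3_ok) (L (nat_lit 400) ln12_13_2 ln12_13_2_ok))) (M (nat_lit 364) (B (M (nat_lit 332) (B (L (nat_lit 300) ln12_9_4 ln12_9_4_ok) (L (nat_lit 461) ln12_10_4 ln12_10_4_ok))) (M (nat_lit 398) (B (L (nat_lit 363) ln15_12_3 ln15_12_3_ok) (L (nat_lit 427) ln15_12_1 ln15_12_1_ok)))))))) (M (nat_lit 398) (B (M (nat_lit 399) (B (L (nat_lit 427) ln15_12_1 ln15_12_1_ok) (L (nat_lit 400) ln16_12_1 ln16_12_1_ok))) (M (nat_lit 366) (B (M (nat_lit 334) (B (L (nat_lit 302) ln14_9_5 ln14_9_5_ok) (L (nat_lit 461) ln14_10_5 ln14_10_5_ok))) (M (nat_lit 395) (B (L (nat_lit 367) ln11_12_2 ln11_12_2_ok) (L (nat_lit 394)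 ln10_12_0 ln10_12_0_ok))))))))))) (M (nat_lit 395) (B (M (nat_lit 394) (B (L (nat_lit 393) ln9_12_0 ln9_12_0_ok) (L (nat_lit 430) ln10_12_0 ln10_12_0_ok))) (B (M (nat_lit 430) (B (L (nat_lit 394) ln10_12_0 ln10_12_0_ok) (L (nat_lit 431) ln15_13_3 ln15_13_3_ok))) (M (nat_lit 363) (B (M (nat_lit 460) (B (L (nat_lit 492) ln12_15_7 ln12_15_7_ok) (M (nat_lit 331) (B (L (nat_lit 299) ln11_9_4 ln11_9_4_ok) (L (nat_lit 427) ln11_10_4 ln11_10_4_ok))))) (B (M (nat_lit 460) (B (L (nat_lit 492) ln12_15_7 ln12_15_7_ok) (M (nat_lit 331) (B (L (nat_lit 364) ln12_14_7 ln12_14_7_ok) (L (nat_lit 427) ln11_10_4 ln11_10_4_ok))))) (B (M (nat_lit 398) (B (L (nat_lit 362) ln14_12_3 ln14_12_3_ok) (M (nat_lit 399) (B (L (nat_lit 364) ln15_12_3 ln15_12_3_ok) (L (nat_lit 427) ln15_12_1 ln15_12_1_ok))))) (M (nat_lit 331) (B (L (nat_lit 299) ln11_9_4 ln11_9_4_ok) (M (nat_lit 460) (B (L (nat_lit 364) ln12_14_7 ln12_14_7_ok) (L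 (nat_lit 492) ln12_15_7 ln12_15_7_ok))))))))))))))))))))) (nat_lit 2079502270913392379444674211814302674077704290823075655481512624564798400421800170032085953906810352733060637150540575368324055040) (nat_lit 192214334528410459247987529828301381384128984821642181231653478034576171263093346342252897770911569839241087547813219594493709581617902979484701328368629448704) (nat_lit 192214334528410459247987529828301381384128984821642181231653478034576171263093346342252897770911569839241087547813219594493709581617902979484701328368629448704) (by decide +kernel)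
noncomputable def c21_n3696 : Cert := (M (nat_lit 460) (B (M (nat_lit 492) (B (L (nat_lit 524) ln12_16_6 ln12_16_6_ok) (M (nat_lit 364) (B (M (nat_lit 493) (B (L (nat_lit 461) ln13_15_7 ln13_15_7_ok) (L (nat_lit 525) ln12_12_4 ln12_12_4_ok))) (M (nat_lit 491) (B (L (nat_lit 459) ln12_11_5 ln12_11_5_ok) (L (nat_lit 523) ln12_12_5 ln12_12_5_ok))))))) (B (M (nat_lit 492) (B (L (nat_lit 524) ln12_16_6 ln12_16_6_ok) (M (nat_lit 493) (B (L (nat_lit 525) ln12_12_4 ln12_12_4_ok) (M (nat_lit 461) (B (M (nat_lit 491) (B (L (nat_lit 523) ln12_12_5 ln12_12_5_ok) (M (nat_lit 490) (B (L (nat_lit 489) ln9_15_2 ln9_15_2_ok) (L (nat_lit 462) ln10_15_2 ln10_15_2_ok))))) (M (nat_lit 494) (B (L (nat_lit 526) ln13_12_4 ln13_12_4_ok) (M (nat_lit 459) (B (L (nat_lit 458) ln10_14_0 ln10_14_0_ok) (L (nat_lit 495) ln15_15_3 ln15_15_3_ok))))))))))) (B (M (nat_lit 492) (B (L (nat_lit 524) ln12_16_6 ln12_16_6_ok) (M (nat_lit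 493) (B (L (nat_lit 525) ln12_12_4 ln12_12_4_ok) (M (nat_lit 461) (B (L (nat_lit 364) ln13_15_7 ln13_15_7_ok) (M (nat_lit 491) (B (L (nat_lit 523) ln12_12_5 ln12_12_5_ok) (M (nat_lit 490) (B (L (nat_lit 489) ln9_15_2 ln9_15_2_ok) (L (nat_lit 462) ln10_15_2 ln10_15_2_ok))))))))))) (B (M (nat_lit 492) (B (L (nat_lit 524) ln12_16_6 ln12_16_6_ok) (M (nat_lit 491) (B (L (nat_lit 523) ln12_12_5 ln12_12_5_ok) (M (nat_lit 459) (B (L (nat_lit 364) ln12_11_5 ln12_11_5_ok) (M (nat_lit 493) (B (L (nat_lit 525) ln12_12_4 ln12_12_4_ok) (M (nat_lit 458) (B (L (nat_lit 457) ln9_14_2 ln9_14_2_ok) (L (nat_lit 494) ln14_15_3 ln14_15_3_ok))))))))))) (B (M (nat_lit 493) (B (M (nat_lit 461) (B (L (nat_lit 364) ln13_15_7 ln13_15_7_ok) (L (nat_lit 525) ln13_16_7 ln13_16_7_ok))) (B (M (nat_lit 492) (B (L (nat_lit 525) ln12_12_4 ln12_12_4_ok) (L (nat_lit 524) ln12_16_6 ln12_16_6_ok))) (M (nat_lit 431) (B (M (nat_lit 430)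 (B (L (nat_lit 395) ln15_13_3 ln15_13_3_ok) (L (nat_lit 432) ln16_13_3 ln16_13_3_ok))) (B (M (nat_lit 430) (B (L (nat_lit 432) ln16_13_3 ln16_13_3_ok) (L (nat_lit 459) ln15_13_1 ln15_13_1_ok))) (B (M (nat_lit 398) (B (M (nat_lit 461) (B (L (nat_lit 364) ln13_15_7 ln13_15_7_ok) (L (nat_lit 366) ln13_15_6 ln13_15_6_ok))) (M (nat_lit 399) (B (L (nat_lit 432) ln12_12_0 ln12_12_0_ok) (L (nat_lit 400) ln16_12_1 ln16_12_1_ok))))) (M (nat_lit 430) (B (L (nat_lit 395) ln15_13_3 ln15_13_3_ok) (L (nat_lit 459) ln15_13_1 ln15_13_1_ok)))))))))) (B (M (nat_lit 461) (B (M (nat_lit 364) (B (L (nat_lit 332) ln12_10_4 ln12_10_4_ok) (L (nat_lit 493) ln13_15_7 ln13_15_7_ok))) (B (M (nat_lit 493) (B (L (nat_lit 364) ln13_15_7 ln13_15_7_ok) (L (nat_lit 525) ln13_16_7 ln13_16_7_ok))) (B (M (nat_lit 431) (B (M (nat_lit 430) (B (L (nat_lit 395) ln15_13_3 ln15_13_3_ok) (L (nat_lit 432) ln16_13_3 ln16_13_3_ok))) (B (M (nat_lit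 430) (B (L (nat_lit 432) ln16_13_3 ln16_13_3_ok) (L (nat_lit 459) ln15_13_1 ln15_13_1_ok))) (B (M (nat_lit 398) (B (M (nat_lit 493) (B (L (nat_lit 366) ln13_15_6 ln13_15_6_ok) (L (nat_lit 525) ln13_16_7 ln13_16_7_ok))) (M (nat_lit 399) (B (L (nat_lit 432) ln12_12_0 ln12_12_0_ok) (L (nat_lit 400) ln16_12_1 ln16_12_1_ok))))) (M (nat_lit 430) (B (L (nat_lit 395) ln15_13_3 ln15_13_3_ok) (L (nat_lit 459) ln15_13_1 ln15_13_1_ok))))))) (M (nat_lit 459) (B (M (nat_lit 364) (B (L (nat_lit 332) ln12_10_4 ln12_10_4_ok) (L (nat_lit 491) ln12_11_5 ln12_11_5_ok))) (M (nat_lit 458) (B (L (nat_lit 457) ln9_14_2 ln9_14_2_ok) (L (nat_lit 430) ln10_14_2 ln10_14_2_ok))))))))) (M (nat_lit 492) (B (L (nat_lit 524) ln12_16_6 ln12_16_6_ok) (M (nat_lit 364) (B (M (nat_lit 332) (B (L (nat_lit 300) ln12_9_4 ln12_9_4_ok) (L (nat_lit 461) ln12_10_4 ln12_10_4_ok))) (M (nat_lit 491) (B (L (nat_lit 459) ln12_11_5 ln12_11_5_ok)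 (L (nat_lit 523) ln12_12_5 ln12_12_5_ok))))))))))))))
theorem c21_s3726 : Sem (nat_lit 2079502270913392379444674211814302674077704290823075655481512624564798400421800170032085953906810352733060637150540575368324055040) (nat_lit 411887859810825160658106036708528355031463201333242546728289706696845579446181334319939032221643864886541537825181912449744437978257308957300160809904174530560) (nat_lit 411887859810825160658106036708528355031463201333242546728289706696845579446181334319939032221643864886541537825181912449744437978257308957300160809904174530560) :=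
  sem_of_chk (M (nat_lit 396) (B (M (nat_lit 395) (B (M (nat_lit 430) (B (L (nat_lit 394) ln10_12_0 ln10_12_0_ok) (L (nat_lit 431) ln15_13_3 ln15_13_3_ok))) (M (nat_lit 364) (B (M (nat_lit 332) (B (L (nat_lit 300) ln12_9_4 ln12_9_4_ok) (L (nat_lit 461) ln12_10_4 ln12_10_4_ok))) (M (nat_lit 363) (B (M (nat_lit 362) (B (L (nat_lit 361) ln9_11_0 ln9_11_0_ok) (L (nat_lit 398) ln14_12_3 ln14_12_3_ok))) (M (nat_lit 460) (B (L (nat_lit 331) ln12_14_7 ln12_14_7_ok) (L (nat_lit 492) ln12_15_7 ln12_15_7_ok))))))))) (B (M (nat_lit 395) (B (M (nat_lit 394) (B (L (nat_lit 393) ln9_12_0 ln9_12_0_ok) (L (nat_lit 430) ln10_12_0 ln10_12_0_ok))) (B (M (nat_lit 430) (B (L (nat_lit 394) ln10_12_0 ln10_12_0_ok) (L (nat_lit 431) ln15_13_3 ln15_13_3_ok))) (M (nat_lit 364) (B (M (nat_lit 461) (B (L (nat_lit 332) ln12_10_4 ln12_10_4_ok) (L (nat_lit 493) ln13_15_7 ln13_15_7_ok))) (M (nat_lit 363) (B (M (nat_lit 362) (B (L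 (nat_lit 361) ln9_11_0 ln9_11_0_ok) (L (nat_lit 398) ln14_12_3 ln14_12_3_ok))) (M (nat_lit 460) (B (L (nat_lit 331) ln12_14_7 ln12_14_7_ok) (L (nat_lit 492) ln12_15_7 ln12_15_7_ok)))))))))) (B (M (nat_lit 395) (B (M (nat_lit 394) (B (L (nat_lit 393) ln9_12_0 ln9_12_0_ok) (L (nat_lit 430) ln10_12_0 ln10_12_0_ok))) (B (M (nat_lit 430) (B (L (nat_lit 394) ln10_12_0 ln10_12_0_ok) (L (nat_lit 431) ln15_13_3 ln15_13_3_ok))) (B (M (nat_lit 430) (B (L (nat_lit 431) ln15_13_3 ln15_13_3_ok) (M (nat_lit 398) (B (M (nat_lit 366) (B (L (nat_lit 367) ln11_12_2 ln11_12_2_ok) (M (nat_lit 334) (B (L (nat_lit 302) ln14_9_5 ln14_9_5_ok) (L (nat_lit 461) ln14_10_5 ln14_10_5_ok))))) (M (nat_lit 399) (B (L (nat_lit 400) ln16_12_1 ln16_12_1_ok) (M (nat_lit 363) (B (L (nat_lit 362) ln14_12_3 ln14_12_3_ok) (L (nat_lit 364) ln15_12_3 ln15_12_3_ok))))))))) (M (nat_lit 398) (B (M (nat_lit 363) (B (L (nat_lit 362) ln14_12_3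 ln14_12_3_ok) (M (nat_lit 399) (B (L (nat_lit 364) ln15_12_3 ln15_12_3_ok) (L (nat_lit 400) ln16_12_1 ln16_12_1_ok))))) (B (M (nat_lit 399) (B (L (nat_lit 400) ln16_12_1 ln16_12_1_ok) (M (nat_lit 367) (B (L (nat_lit 366) ln11_12_2 ln11_12_2_ok) (L (nat_lit 368) ln12_12_2 ln12_12_2_ok))))) (M (nat_lit 362) (B (L (nat_lit 363) ln14_12_3 ln14_12_3_ok) (M (nat_lit 394) (B (L (nat_lit 361) ln13_12_3 ln13_12_3_ok) (L (nat_lit 393) ln9_12_0 ln9_12_0_ok)))))))))))) (B (M (nat_lit 395) (B (M (nat_lit 430) (B (L (nat_lit 394) ln10_12_0 ln10_12_0_ok) (L (nat_lit 431) ln15_13_3 ln15_13_3_ok))) (M (nat_lit 364) (B (M (nat_lit 461) (B (L (nat_lit 332) ln12_10_4 ln12_10_4_ok) (L (nat_lit 493) ln13_15_7 ln13_15_7_ok))) (M (nat_lit 363) (B (M (nat_lit 331) (B (L (nat_lit 299) ln11_9_4 ln11_9_4_ok) (L (nat_lit 460) ln12_14_7 ln12_14_7_ok))) (M (nat_lit 398) (B (L (nat_lit 362) ln14_12_3 ln14_12_3_ok) (L (nat_lit 399)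 ln15_12_3 ln15_12_3_ok))))))))) (B (M (nat_lit 430) (B (M (nat_lit 431) (B (L (nat_lit 395) ln15_13_3 ln15_13_3_ok) (L (nat_lit 432) ln16_13_3 ln16_13_3_ok))) (B (M (nat_lit 431) (B (L (nat_lit 432) ln16_13_3 ln16_13_3_ok) (M (nat_lit 364) (B (M (nat_lit 332) (B (L (nat_lit 300) ln12_9_4 ln12_9_4_ok) (L (nat_lit 461) ln12_10_4 ln12_10_4_ok))) (M (nat_lit 363) (B (M (nat_lit 460) (B (L (nat_lit 331) ln12_14_7 ln12_14_7_ok) (L (nat_lit 459) ln15_13_1 ln15_13_1_ok))) (M (nat_lit 399) (B (L (nat_lit 398) ln15_12_3 ln15_12_3_ok) (L (nat_lit 400) ln12_13_2 ln12_13_2_ok))))))))) (M (nat_lit 364) (B (M (nat_lit 332) (B (L (nat_lit 300) ln12_9_4 ln12_9_4_ok) (L (nat_lit 461) ln12_10_4 ln12_10_4_ok))) (B (M (nat_lit 461) (B (L (nat_lit 332) ln12_10_4 ln12_10_4_ok) (L (nat_lit 493) ln13_15_7 ln13_15_7_ok))) (B (M (nat_lit 460) (B (M (nat_lit 492) (B (L (nat_lit 524) ln12_16_6 ln12_16_6_ok) (M (nat_lit 363)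 (B (L (nat_lit 331) ln12_14_7 ln12_14_7_ok) (L (nat_lit 395) ln12_15_7 ln12_15_7_ok))))) (M (nat_lit 461) (B (L (nat_lit 493) ln13_15_7 ln13_15_7_ok) (M (nat_lit 459) (B (L (nat_lit 491) ln12_11_5 ln12_11_5_ok) (L (nat_lit 458) ln10_14_2 ln10_14_2_ok))))))) (M (nat_lit 460) (B (M (nat_lit 492) (B (L (nat_lit 524) ln12_16_6 ln12_16_6_ok) (M (nat_lit 491) (B (L (nat_lit 459) ln12_11_5 ln12_11_5_ok) (L (nat_lit 523) ln12_12_5 ln12_12_5_ok))))) (M (nat_lit 331) (B (L (nat_lit 363) ln12_14_7 ln12_14_7_ok) (M (nat_lit 332) (B (L (nat_lit 299) ln12_13_7 ln12_13_7_ok) (L (nat_lit 300) ln12_9_4 ln12_9_4_ok)))))))))))))) (B c21_n3696 (B (M (nat_lit 395) (B (M (nat_lit 394) (B (L (nat_lit 393) ln9_12_0 ln9_12_0_ok) (L (nat_lit 430) ln10_12_0 ln10_12_0_ok))) (B (M (nat_lit 430) (B (L (nat_lit 394) ln10_12_0 ln10_12_0_ok) (L (nat_lit 431) ln15_13_3 ln15_13_3_ok))) (B (M (nat_lit 398) (B (M (nat_lit 399) (B (L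 (nat_lit 400) ln16_12_1 ln16_12_1_ok) (M (nat_lit 367) (B (L (nat_lit 366) ln11_12_2 ln11_12_2_ok) (L (nat_lit 368) ln12_12_2 ln12_12_2_ok))))) (B (M (nat_lit 431) (B (L (nat_lit 430) ln11_12_0 ln11_12_0_ok) (M (nat_lit 399) (B (L (nat_lit 432) ln12_12_0 ln12_12_0_ok) (L (nat_lit 400) ln16_12_1 ln16_12_1_ok))))) (M (nat_lit 430) (B (L (nat_lit 431) ln11_12_0 ln11_12_0_ok) (M (nat_lit 366) (B (L (nat_lit 367) ln11_12_2 ln11_12_2_ok) (M (nat_lit 334) (B (L (nat_lit 302) ln14_9_5 ln14_9_5_ok) (L (nat_lit 461) ln14_10_5 ln14_10_5_ok)))))))))) (M (nat_lit 398) (B (M (nat_lit 399) (B (L (nat_lit 400) ln16_12_1 ln16_12_1_ok) (M (nat_lit 367) (B (L (nat_lit 366) ln11_12_2 ln11_12_2_ok) (L (nat_lit 368) ln12_12_2 ln12_12_2_ok))))) (M (nat_lit 362) (B (L (nat_lit 363) ln14_12_3 ln14_12_3_ok) (M (nat_lit 394) (B (L (nat_lit 361) ln13_12_3 ln13_12_3_ok) (L (nat_lit 393) ln9_12_0 ln9_12_0_ok))))))))))) (B (M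 (nat_lit 364) (B (M (nat_lit 332) (B (L (nat_lit 300) ln12_9_4 ln12_9_4_ok) (L (nat_lit 461) ln12_10_4 ln12_10_4_ok))) (B (M (nat_lit 461) (B (L (nat_lit 332) ln12_10_4 ln12_10_4_ok) (L (nat_lit 493) ln13_15_7 ln13_15_7_ok))) (B (M (nat_lit 460) (B (M (nat_lit 493) (B (L (nat_lit 461) ln13_15_7 ln13_15_7_ok) (M (nat_lit 492) (B (L (nat_lit 525) ln12_12_4 ln12_12_4_ok) (L (nat_lit 524) ln12_16_6 ln12_16_6_ok))))) (B (M (nat_lit 492) (B (L (nat_lit 524) ln12_16_6 ln12_16_6_ok) (M (nat_lit 491) (B (L (nat_lit 459) ln12_11_5 ln12_11_5_ok) (L (nat_lit 523) ln12_12_5 ln12_12_5_ok))))) (M (nat_lit 461) (B (L (nat_lit 493) ln13_15_7 ln13_15_7_ok) (M (nat_lit 459) (B (L (nat_lit 491) ln12_11_5 ln12_11_5_ok) (M (nat_lit 430) (B (L (nat_lit 431) ln15_13_1 ln15_13_1_ok) (L (nat_lit 458) ln10_14_2 ln10_14_2_ok)))))))))) (M (nat_lit 460) (B (M (nat_lit 492) (B (L (nat_lit 524) ln12_16_6 ln12_16_6_ok) (M (nat_lit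 491) (B (L (nat_lit 459) ln12_11_5 ln12_11_5_ok) (L (nat_lit 523) ln12_12_5 ln12_12_5_ok))))) (M (nat_lit 331) (B (L (nat_lit 363) ln12_14_7 ln12_14_7_ok) (M (nat_lit 332) (B (L (nat_lit 299) ln12_13_7 ln12_13_7_ok) (L (nat_lit 300) ln12_9_4 ln12_9_4_ok))))))))))) (B (M (nat_lit 364) (B (M (nat_lit 332) (B (L (nat_lit 300) ln12_9_4 ln12_9_4_ok) (L (nat_lit 461) ln12_10_4 ln12_10_4_ok))) (B (M (nat_lit 461) (B (L (nat_lit 332) ln12_10_4 ln12_10_4_ok) (L (nat_lit 493) ln13_15_7 ln13_15_7_ok))) (M (nat_lit 460) (B (M (nat_lit 363) (B (L (nat_lit 331) ln12_14_7 ln12_14_7_ok) (M (nat_lit 492) (B (L (nat_lit 395) ln12_15_7 ln12_15_7_ok) (L (nat_lit 524) ln12_16_6 ln12_16_6_ok))))) (B (M (nat_lit 492) (B (L (nat_lit 524) ln12_16_6 ln12_16_6_ok) (M (nat_lit 491) (B (L (nat_lit 459) ln12_11_5 ln12_11_5_ok) (L (nat_lit 523) ln12_12_5 ln12_12_5_ok))))) (M (nat_lit 363) (B (L (nat_lit 331) ln12_14_7 ln12_14_7_ok)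 (M (nat_lit 398) (B (L (nat_lit 399) ln15_12_3 ln15_12_3_ok) (M (nat_lit 362) (B (L (nat_lit 361) ln9_11_0 ln9_11_0_ok) (L (nat_lit 395) ln14_12_3 ln14_12_3_ok))))))))))))) (M (nat_lit 395) (B (M (nat_lit 394) (B (L (nat_lit 393) ln9_12_0 ln9_12_0_ok) (L (nat_lit 430) ln10_12_0 ln10_12_0_ok))) (B (M (nat_lit 430) (B (L (nat_lit 394) ln10_12_0 ln10_12_0_ok) (L (nat_lit 431) ln15_13_3 ln15_13_3_ok))) (B (M (nat_lit 398) (B (M (nat_lit 431) (B (L (nat_lit 430) ln11_12_0 ln11_12_0_ok) (M (nat_lit 399) (B (L (nat_lit 432) ln12_12_0 ln12_12_0_ok) (L (nat_lit 400) ln16_12_1 ln16_12_1_ok))))) (M (nat_lit 363) (B (L (nat_lit 362) ln14_12_3 ln14_12_3_ok) (M (nat_lit 460) (B (L (nat_lit 492) ln12_15_7 ln12_15_7_ok) (M (nat_lit 331) (B (L (nat_lit 299) ln11_9_4 ln11_9_4_ok) (L (nat_lit 364) ln12_14_7 ln12_14_7_ok))))))))) (M (nat_lit 363) (B (M (nat_lit 398) (B (L (nat_lit 362) ln14_12_3 ln14_12_3_ok) (M (nat_lit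 399) (B (L (nat_lit 364) ln15_12_3 ln15_12_3_ok) (L (nat_lit 400) ln16_12_1 ln16_12_1_ok))))) (B (M (nat_lit 331) (B (L (nat_lit 299) ln11_9_4 ln11_9_4_ok) (M (nat_lit 460) (B (L (nat_lit 364) ln12_14_7 ln12_14_7_ok) (L (nat_lit 492) ln12_15_7 ln12_15_7_ok))))) (M (nat_lit 362) (B (L (nat_lit 398) ln14_12_3 ln14_12_3_ok) (M (nat_lit 394) (B (L (nat_lit 361) ln13_12_3 ln13_12_3_ok) (L (nat_lit 393) ln9_12_0 ln9_12_0_ok)))))))))))))))))))))) (nat_lit 2079502270913392379444674211814302674077704290823075655481512624564798400421800170032085953906810352733060637150540575368324055040) (nat_lit 411887859810825160658106036708528355031463201333242546728289706696845579446181334319939032221643864886541537825181912449744437978257308957300160809904174530560) (nat_lit 411887859810825160658106036708528355031463201333242546728289706696845579446181334319939032221643864886541537825181912449744437978257308957300160809904174530560)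 (by decide +kernel)
theorem c21_s3847 : Sem (nat_lit 2079502271074782996825105998667797622327892532968682267533339094116714610205590646408138528571163187313069251615284523616620773376) (nat_lit 205943929851868349205755574537948747324995227248644216207056643400214834896626064226258603008056791680461799714559640316773136674147890377939944256379962785792) (nat_lit 205943929851868349205755574537948747324995227248644216207056643400214834896626064226258603008056791680461799714559640316773136674147890377939944256379962785792) :=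
  sem_of_chk (M (nat_lit 427) (B (M (nat_lit 426) (B (L (nat_lit 425) ln9_13_2 ln9_13_2_ok) (M (nat_lit 461) (B (L (nat_lit 462) ln10_13_0 ln10_13_0_ok) (M (nat_lit 364) (B (L (nat_lit 332) ln12_10_4 ln12_10_4_ok) (L (nat_lit 493) ln13_15_7 ln13_15_7_ok))))))) (B (M (nat_lit 461) (B (M (nat_lit 493) (B (L (nat_lit 364) ln13_15_7 ln13_15_7_ok) (L (nat_lit 525) ln13_16_7 ln13_16_7_ok))) (M (nat_lit 426) (B (L (nat_lit 425) ln9_13_2 ln9_13_2_ok) (L (nat_lit 462) ln10_13_0 ln10_13_0_ok))))) (B (M (nat_lit 426) (B (L (nat_lit 425) ln9_13_2 ln9_13_2_ok) (M (nat_lit 394) (B (L (nat_lit 393) ln13_13_3 ln13_13_3_ok) (M (nat_lit 458) (B (L (nat_lit 457) ln13_13_1 ln13_13_1_ok) (M (nat_lit 362) (B (M (nat_lit 361) (B (L (nat_lit 329) ln10_14_7 ln10_14_7_ok) (L (nat_lit 395) ln13_12_3 ln13_12_3_ok))) (M (nat_lit 459) (B (L (nat_lit 330) ln10_10_4 ln10_10_4_ok) (L (nat_lit 491) ln10_11_4 ln10_11_4_ok)))))))))))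 (B (M (nat_lit 395) (B (M (nat_lit 394) (B (L (nat_lit 393) ln9_12_0 ln9_12_0_ok) (M (nat_lit 362) (B (L (nat_lit 361) ln13_12_3 ln13_12_3_ok) (M (nat_lit 459) (B (L (nat_lit 491) ln11_15_7 ln11_15_7_ok) (M (nat_lit 330) (B (L (nat_lit 298) ln10_9_4 ln10_9_4_ok) (L (nat_lit 363) ln11_14_7 ln11_14_7_ok))))))))) (B (M (nat_lit 394) (B (L (nat_lit 393) ln9_12_0 ln9_12_0_ok) (M (nat_lit 362) (B (L (nat_lit 361) ln13_12_3 ln13_12_3_ok) (M (nat_lit 459) (B (L (nat_lit 491) ln11_15_7 ln11_15_7_ok) (M (nat_lit 330) (B (L (nat_lit 363) ln11_14_7 ln11_14_7_ok) (L (nat_lit 426) ln10_10_4 ln10_10_4_ok))))))))) (B (M (nat_lit 426) (B (M (nat_lit 461) (B (L (nat_lit 462) ln10_13_0 ln10_13_0_ok) (M (nat_lit 493) (B (L (nat_lit 364) ln13_15_7 ln13_15_7_ok) (L (nat_lit 525) ln13_16_7 ln13_16_7_ok))))) (M (nat_lit 458) (B (L (nat_lit 457) ln13_13_1 ln13_13_1_ok) (M (nat_lit 363) (B (L (nat_lit 331) ln11_10_5 ln11_10_5_ok)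 (M (nat_lit 490) (B (L (nat_lit 459) ln11_11_5 ln11_11_5_ok) (L (nat_lit 522) ln10_16_6 ln10_16_6_ok))))))))) (B (M (nat_lit 394) (B (L (nat_lit 393) ln9_12_0 ln9_12_0_ok) (M (nat_lit 362) (B (L (nat_lit 361) ln13_12_3 ln13_12_3_ok) (M (nat_lit 459) (B (L (nat_lit 491) ln11_15_7 ln11_15_7_ok) (M (nat_lit 330) (B (L (nat_lit 298) ln10_9_4 ln10_9_4_ok) (L (nat_lit 426) ln10_10_4 ln10_10_4_ok))))))))) (M (nat_lit 426) (B (M (nat_lit 461) (B (L (nat_lit 462) ln10_13_0 ln10_13_0_ok) (M (nat_lit 493) (B (L (nat_lit 364) ln13_15_7 ln13_15_7_ok) (L (nat_lit 525) ln13_16_7 ln13_16_7_ok))))) (M (nat_lit 394) (B (L (nat_lit 393) ln9_12_0 ln9_12_0_ok) (M (nat_lit 458) (B (L (nat_lit 457) ln13_13_1 ln13_13_1_ok) (M (nat_lit 363) (B (L (nat_lit 331) ln11_10_5 ln11_10_5_ok) (L (nat_lit 490) ln10_15_6 ln10_15_6_ok)))))))))))))) c21_n3410))))) (nat_lit 2079502271074782996825105998667797622327892532968682267533339094116714610205590646408138528571163187313069251615284523616620773376)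 (nat_lit 205943929851868349205755574537948747324995227248644216207056643400214834896626064226258603008056791680461799714559640316773136674147890377939944256379962785792) (nat_lit 205943929851868349205755574537948747324995227248644216207056643400214834896626064226258603008056791680461799714559640316773136674147890377939944256379962785792) (by decide +kernel)
noncomputable def c21_n3885 : Cert := (M (nat_lit 395) (B (M (nat_lit 394) (B (L (nat_lit 393) ln9_12_0 ln9_12_0_ok) (M (nat_lit 398) (B (M (nat_lit 362) (B (L (nat_lit 361) ln13_12_3 ln13_12_3_ok) (L (nat_lit 363) ln14_12_3 ln14_12_3_ok))) (M (nat_lit 426) (B (L (nat_lit 425) ln13_12_1 ln13_12_1_ok) (L (nat_lit 427) ln14_12_1 ln14_12_1_ok))))))) (B (M (nat_lit 398) (B (M (nat_lit 427) (B (L (nat_lit 426) ln14_12_1 ln14_12_1_ok) (L (nat_lit 399) ln15_12_1 ln15_12_1_ok))) (B (M (nat_lit 426) (B (L (nat_lit 427) ln14_12_1 ln14_12_1_ok) (M (nat_lit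 394) (B (L (nat_lit 393) ln9_12_0 ln9_12_0_ok) (L (nat_lit 425) ln13_12_1 ln13_12_1_ok))))) (B (M (nat_lit 399) (B (L (nat_lit 427) ln15_12_1 ln15_12_1_ok) (L (nat_lit 400) ln16_12_1 ln16_12_1_ok))) (M (nat_lit 363) (B (L (nat_lit 362) ln14_12_3 ln14_12_3_ok) (M (nat_lit 399) (B (L (nat_lit 364) ln15_12_3 ln15_12_3_ok) (L (nat_lit 400) ln16_12_1 ln16_12_1_ok))))))))) (B (M (nat_lit 398) (B (M (nat_lit 427) (B (L (nat_lit 426) ln14_12_1 ln14_12_1_ok) (L (nat_lit 399) ln15_12_1 ln15_12_1_ok))) (B (M (nat_lit 426) (B (L (nat_lit 427) ln14_12_1 ln14_12_1_ok) (M (nat_lit 394) (B (L (nat_lit 393) ln9_12_0 ln9_12_0_ok) (L (nat_lit 425) ln13_12_1 ln13_12_1_ok))))) (B (M (nat_lit 399) (B (L (nat_lit 427) ln15_12_1 ln15_12_1_ok) (L (nat_lit 400) ln16_12_1 ln16_12_1_ok))) (M (nat_lit 364) (B (M (nat_lit 332) (B (L (nat_lit 300) ln12_9_4 ln12_9_4_ok) (L (nat_lit 461) ln12_10_4 ln12_10_4_ok))) (M (nat_lit 399)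 (B (L (nat_lit 363) ln15_12_3 ln15_12_3_ok) (L (nat_lit 400) ln16_12_1 ln16_12_1_ok))))))))) (B (M (nat_lit 398) (B (M (nat_lit 427) (B (L (nat_lit 426) ln14_12_1 ln14_12_1_ok) (L (nat_lit 399) ln15_12_1 ln15_12_1_ok))) (B (M (nat_lit 426) (B (L (nat_lit 427) ln14_12_1 ln14_12_1_ok) (M (nat_lit 394) (B (L (nat_lit 393) ln9_12_0 ln9_12_0_ok) (L (nat_lit 425) ln13_12_1 ln13_12_1_ok))))) (B (M (nat_lit 399) (B (L (nat_lit 427) ln15_12_1 ln15_12_1_ok) (L (nat_lit 400) ln16_12_1 ln16_12_1_ok))) (M (nat_lit 399) (B (L (nat_lit 400) ln16_12_1 ln16_12_1_ok) (M (nat_lit 367) (B (L (nat_lit 366) ln11_12_2 ln11_12_2_ok) (L (nat_lit 368) ln12_12_2 ln12_12_2_ok))))))))) (B (M (nat_lit 427) (B (M (nat_lit 398) (B (L (nat_lit 426) ln14_12_1 ln14_12_1_ok) (L (nat_lit 399) ln15_12_1 ln15_12_1_ok))) (B (M (nat_lit 461) (B (M (nat_lit 364) (B (L (nat_lit 332) ln12_10_4 ln12_10_4_ok) (L (nat_lit 493) ln13_15_7 ln13_15_7_ok)))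 (M (nat_lit 426) (B (L (nat_lit 425) ln9_13_2 ln9_13_2_ok) (L (nat_lit 462) ln10_13_0 ln10_13_0_ok))))) (M (nat_lit 332) (B (M (nat_lit 364) (B (L (nat_lit 300) ln12_9_5 ln12_9_5_ok) (L (nat_lit 459) ln12_10_5 ln12_10_5_ok))) (B (M (nat_lit 364) (B (L (nat_lit 459) ln12_10_5 ln12_10_5_ok) (L (nat_lit 461) ln12_10_4 ln12_10_4_ok))) (M (nat_lit 363) (B (M (nat_lit 331) (B (L (nat_lit 299) ln11_9_4 ln11_9_4_ok) (L (nat_lit 300) ln11_13_6 ln11_13_6_ok))) (M (nat_lit 398) (B (L (nat_lit 362) ln14_12_3 ln14_12_3_ok) (L (nat_lit 399) ln15_12_1 ln15_12_1_ok))))))))))) (B (M (nat_lit 427) (B (M (nat_lit 461) (B (M (nat_lit 493) (B (L (nat_lit 364) ln13_15_7 ln13_15_7_ok) (L (nat_lit 525) ln13_16_7 ln13_16_7_ok))) (M (nat_lit 426) (B (L (nat_lit 425) ln9_13_2 ln9_13_2_ok) (L (nat_lit 462) ln10_13_0 ln10_13_0_ok))))) (B (M (nat_lit 426) (B (L (nat_lit 425) ln9_13_2 ln9_13_2_ok) (M (nat_lit 394) (B (L (nat_lit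 393) ln9_12_0 ln9_12_0_ok) (M (nat_lit 458) (B (L (nat_lit 457) ln13_13_1 ln13_13_1_ok) (M (nat_lit 363) (B (L (nat_lit 331) ln11_10_5 ln11_10_5_ok) (L (nat_lit 490) ln10_15_6 ln10_15_6_ok))))))))) (B (M (nat_lit 394) (B (L (nat_lit 393) ln9_12_0 ln9_12_0_ok) (M (nat_lit 362) (B (L (nat_lit 361) ln13_12_3 ln13_12_3_ok) (M (nat_lit 459) (B (L (nat_lit 491) ln11_15_7 ln11_15_7_ok) (M (nat_lit 330) (B (L (nat_lit 298) ln10_9_4 ln10_9_4_ok) (L (nat_lit 426) ln10_10_4 ln10_10_4_ok))))))))) (M (nat_lit 394) (B (L (nat_lit 393) ln9_12_0 ln9_12_0_ok) (M (nat_lit 362) (B (L (nat_lit 361) ln13_12_3 ln13_12_3_ok) (M (nat_lit 459) (B (L (nat_lit 491) ln11_15_7 ln11_15_7_ok) (M (nat_lit 330) (B (L (nat_lit 298) ln10_9_4 ln10_9_4_ok) (L (nat_lit 363) ln11_14_7 ln11_14_7_ok))))))))))))) (B (M (nat_lit 398) (B (M (nat_lit 399) (B (L (nat_lit 427) ln15_12_1 ln15_12_1_ok) (L (nat_lit 400) ln16_12_1 ln16_12_1_ok)))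 (M (nat_lit 362) (B (L (nat_lit 363) ln14_12_3 ln14_12_3_ok) (M (nat_lit 394) (B (L (nat_lit 361) ln13_12_3 ln13_12_3_ok) (L (nat_lit 393) ln9_12_0 ln9_12_0_ok))))))) (M (nat_lit 398) (B (M (nat_lit 399) (B (L (nat_lit 400) ln16_12_1 ln16_12_1_ok) (M (nat_lit 367) (B (L (nat_lit 366) ln11_12_2 ln11_12_2_ok) (L (nat_lit 368) ln12_12_2 ln12_12_2_ok))))) (M (nat_lit 362) (B (L (nat_lit 363) ln14_12_3 ln14_12_3_ok) (M (nat_lit 394) (B (L (nat_lit 361) ln13_12_3 ln13_12_3_ok) (L (nat_lit 393) ln9_12_0 ln9_12_0_ok)))))))))))))))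
theorem c21_s3886 : Sem (nat_lit 2079502270913392379444674211814302674077704290823075655481512624564798400421800170032085953906810352733060637150540575368324055040) (nat_lit 205943929851868349205755574537948747329675555153728885102890674185564781226210278964025876406973289066268589884711594625290713459639877348693895134538874486784) (nat_lit 205943929851868349205755574537948747329675555153728885102890674185564781226210278964025876406973289066268589884711594625290713459639877348693895134538874486784) :=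
  sem_of_chk (M (nat_lit 396) (B (M (nat_lit 364) (B (M (nat_lit 332) (B (L (nat_lit 300) ln12_9_4 ln12_9_4_ok) (L (nat_lit 461) ln12_10_4 ln12_10_4_ok))) (B (M (nat_lit 461) (B (L (nat_lit 332) ln12_10_4 ln12_10_4_ok) (L (nat_lit 493) ln13_15_7 ln13_15_7_ok))) (B (M (nat_lit 460) (B (M (nat_lit 493) (B (L (nat_lit 461) ln13_15_7 ln13_15_7_ok) (M (nat_lit 492) (B (L (nat_lit 525) ln12_12_4 ln12_12_4_ok) (L (nat_lit 524) ln12_16_6 ln12_16_6_ok))))) (B (M (nat_lit 363) (B (L (nat_lit 331) ln12_14_7 ln12_14_7_ok) (M (nat_lit 492) (B (L (nat_lit 395) ln12_15_7 ln12_15_7_ok) (L (nat_lit 524) ln12_16_6 ln12_16_6_ok))))) (M (nat_lit 363) (B (L (nat_lit 331) ln12_14_7 ln12_14_7_ok) (M (nat_lit 398) (B (L (nat_lit 399) ln15_12_3 ln15_12_3_ok) (M (nat_lit 362) (B (L (nat_lit 361) ln9_11_0 ln9_11_0_ok) (L (nat_lit 395) ln14_12_3 ln14_12_3_ok)))))))))) (M (nat_lit 427) (B (M (nat_lit 332) (B (L (nat_lit 300)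 ln12_9_4 ln12_9_4_ok) (L (nat_lit 459) ln12_10_5 ln12_10_5_ok))) (M (nat_lit 398) (B (L (nat_lit 399) ln15_12_1 ln15_12_1_ok) (L (nat_lit 426) ln10_13_2 ln10_13_2_ok))))))))) (B (M (nat_lit 398) (B (M (nat_lit 399) (B (L (nat_lit 427) ln15_12_1 ln15_12_1_ok) (L (nat_lit 400) ln16_12_1 ln16_12_1_ok))) (B (M (nat_lit 395) (B (M (nat_lit 426) (B (L (nat_lit 427) ln14_12_1 ln14_12_1_ok) (M (nat_lit 394) (B (L (nat_lit 393) ln9_12_0 ln9_12_0_ok) (L (nat_lit 425) ln13_12_1 ln13_12_1_ok))))) (B (M (nat_lit 394) (B (M (nat_lit 362) (B (L (nat_lit 361) ln13_12_3 ln13_12_3_ok) (L (nat_lit 363) ln14_12_3 ln14_12_3_ok))) (M (nat_lit 426) (B (L (nat_lit 425) ln13_12_1 ln13_12_1_ok) (L (nat_lit 427) ln14_12_1 ln14_12_1_ok))))) (M (nat_lit 363) (B (L (nat_lit 362) ln14_12_3 ln14_12_3_ok) (M (nat_lit 460) (B (L (nat_lit 492) ln12_15_7 ln12_15_7_ok) (M (nat_lit 331) (B (L (nat_lit 299) ln11_9_4 ln11_9_4_ok) (L (nat_lit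 364) ln12_14_7 ln12_14_7_ok)))))))))) (M (nat_lit 364) (B (M (nat_lit 399) (B (L (nat_lit 363) ln15_12_3 ln15_12_3_ok) (L (nat_lit 400) ln16_12_1 ln16_12_1_ok))) (M (nat_lit 461) (B (L (nat_lit 332) ln12_10_4 ln12_10_4_ok) (L (nat_lit 493) ln13_15_7 ln13_15_7_ok)))))))) (B (M (nat_lit 461) (B (M (nat_lit 364) (B (L (nat_lit 332) ln12_10_4 ln12_10_4_ok) (L (nat_lit 493) ln13_15_7 ln13_15_7_ok))) (B (M (nat_lit 493) (B (L (nat_lit 364) ln13_15_7 ln13_15_7_ok) (L (nat_lit 525) ln13_16_7 ln13_16_7_ok))) (B (M (nat_lit 398) (B (M (nat_lit 493) (B (L (nat_lit 366) ln13_15_6 ln13_15_6_ok) (L (nat_lit 525) ln13_16_7 ln13_16_7_ok))) (M (nat_lit 399) (B (L (nat_lit 427) ln15_12_1 ln15_12_1_ok) (L (nat_lit 400) ln16_12_1 ln16_12_1_ok))))) (M (nat_lit 460) (B (M (nat_lit 492) (B (L (nat_lit 524) ln12_16_6 ln12_16_6_ok) (M (nat_lit 364) (B (L (nat_lit 332) ln12_10_4 ln12_10_4_ok) (M (nat_lit 491) (B (L (nat_lit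 459) ln12_11_5 ln12_11_5_ok) (L (nat_lit 523) ln12_12_5 ln12_12_5_ok))))))) (B (M (nat_lit 426) (B (M (nat_lit 427) (B (L (nat_lit 425) ln9_13_2 ln9_13_2_ok) (L (nat_lit 398) ln10_13_2 ln10_13_2_ok))) (B (M (nat_lit 427) (B (L (nat_lit 425) ln9_13_2 ln9_13_2_ok) (L (nat_lit 462) ln10_13_0 ln10_13_0_ok))) (B (M (nat_lit 427) (B (L (nat_lit 398) ln10_13_2 ln10_13_2_ok) (L (nat_lit 462) ln10_13_0 ln10_13_0_ok))) (M (nat_lit 395) (B (M (nat_lit 492) (B (L (nat_lit 363) ln12_15_7 ln12_15_7_ok) (L (nat_lit 524) ln12_16_6 ln12_16_6_ok))) (M (nat_lit 394) (B (L (nat_lit 393) ln9_12_0 ln9_12_0_ok) (L (nat_lit 425) ln13_12_1 ln13_12_1_ok))))))))) (M (nat_lit 426) (B (M (nat_lit 427) (B (L (nat_lit 425) ln9_13_2 ln9_13_2_ok) (L (nat_lit 398) ln10_13_2 ln10_13_2_ok))) (B (M (nat_lit 427) (B (L (nat_lit 425) ln9_13_2 ln9_13_2_ok) (L (nat_lit 462) ln10_13_0 ln10_13_0_ok))) (B (M (nat_lit 427) (B (L (nat_lit 398)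 ln10_13_2 ln10_13_2_ok) (L (nat_lit 462) ln10_13_0 ln10_13_0_ok))) (M (nat_lit 459) (B (M (nat_lit 364) (B (L (nat_lit 332) ln12_10_4 ln12_10_4_ok) (L (nat_lit 491) ln12_11_5 ln12_11_5_ok))) (M (nat_lit 458) (B (L (nat_lit 425) ln13_14_3 ln13_14_3_ok) (L (nat_lit 457) ln9_14_2 ln9_14_2_ok)))))))))))))))) (B (M (nat_lit 398) (B (M (nat_lit 399) (B (L (nat_lit 427) ln15_12_1 ln15_12_1_ok) (L (nat_lit 400) ln16_12_1 ln16_12_1_ok))) (B (M (nat_lit 395) (B (M (nat_lit 426) (B (L (nat_lit 427) ln14_12_1 ln14_12_1_ok) (M (nat_lit 394) (B (L (nat_lit 393) ln9_12_0 ln9_12_0_ok) (L (nat_lit 425) ln13_12_1 ln13_12_1_ok))))) (B (M (nat_lit 394) (B (M (nat_lit 362) (B (L (nat_lit 361) ln13_12_3 ln13_12_3_ok) (L (nat_lit 363) ln14_12_3 ln14_12_3_ok))) (M (nat_lit 426) (B (L (nat_lit 425) ln13_12_1 ln13_12_1_ok) (L (nat_lit 427) ln14_12_1 ln14_12_1_ok))))) (M (nat_lit 363) (B (L (nat_lit 362) ln14_12_3 ln14_12_3_ok)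 (M (nat_lit 460) (B (L (nat_lit 492) ln12_15_7 ln12_15_7_ok) (M (nat_lit 331) (B (L (nat_lit 299) ln11_9_4 ln11_9_4_ok) (L (nat_lit 364) ln12_14_7 ln12_14_7_ok)))))))))) (M (nat_lit 399) (B (L (nat_lit 400) ln16_12_1 ln16_12_1_ok) (M (nat_lit 395) (B (M (nat_lit 363) (B (L (nat_lit 362) ln14_12_3 ln14_12_3_ok) (L (nat_lit 364) ln15_12_3 ln15_12_3_ok))) (M (nat_lit 367) (B (L (nat_lit 366) ln11_12_2 ln11_12_2_ok) (L (nat_lit 368) ln12_12_2 ln12_12_2_ok)))))))))) (B (M (nat_lit 364) (B (M (nat_lit 332) (B (L (nat_lit 300) ln12_9_4 ln12_9_4_ok) (L (nat_lit 461) ln12_10_4 ln12_10_4_ok))) (B (M (nat_lit 461) (B (L (nat_lit 332) ln12_10_4 ln12_10_4_ok) (L (nat_lit 493) ln13_15_7 ln13_15_7_ok))) (B (M (nat_lit 460) (B (M (nat_lit 493) (B (L (nat_lit 461) ln13_15_7 ln13_15_7_ok) (M (nat_lit 492) (B (L (nat_lit 525) ln12_12_4 ln12_12_4_ok) (L (nat_lit 524) ln12_16_6 ln12_16_6_ok))))) (B (M (nat_lit 492) (B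 (L (nat_lit 524) ln12_16_6 ln12_16_6_ok) (M (nat_lit 491) (B (L (nat_lit 459) ln12_11_5 ln12_11_5_ok) (L (nat_lit 523) ln12_12_5 ln12_12_5_ok))))) (M (nat_lit 461) (B (L (nat_lit 493) ln13_15_7 ln13_15_7_ok) (M (nat_lit 426) (B (M (nat_lit 427) (B (L (nat_lit 425) ln9_13_2 ln9_13_2_ok) (L (nat_lit 398) ln10_13_2 ln10_13_2_ok))) (B (M (nat_lit 427) (B (L (nat_lit 425) ln9_13_2 ln9_13_2_ok) (L (nat_lit 462) ln10_13_0 ln10_13_0_ok))) (B (M (nat_lit 427) (B (L (nat_lit 398) ln10_13_2 ln10_13_2_ok) (L (nat_lit 462) ln10_13_0 ln10_13_0_ok))) (M (nat_lit 459) (B (L (nat_lit 491) ln12_11_5 ln12_11_5_ok) (M (nat_lit 458) (B (L (nat_lit 425) ln13_14_3 ln13_14_3_ok) (L (nat_lit 457) ln9_14_2 ln9_14_2_ok)))))))))))))) (M (nat_lit 427) (B (M (nat_lit 332) (B (L (nat_lit 300) ln12_9_4 ln12_9_4_ok) (L (nat_lit 459) ln12_10_5 ln12_10_5_ok))) (M (nat_lit 398) (B (L (nat_lit 399) ln15_12_1 ln15_12_1_ok) (L (nat_lit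 426) ln10_13_2 ln10_13_2_ok))))))))) (B (M (nat_lit 398) (B (M (nat_lit 399) (B (L (nat_lit 427) ln15_12_1 ln15_12_1_ok) (L (nat_lit 400) ln16_12_1 ln16_12_1_ok))) (B (M (nat_lit 395) (B (M (nat_lit 426) (B (L (nat_lit 427) ln14_12_1 ln14_12_1_ok) (M (nat_lit 394) (B (L (nat_lit 393) ln9_12_0 ln9_12_0_ok) (L (nat_lit 425) ln13_12_1 ln13_12_1_ok))))) (B (M (nat_lit 394) (B (M (nat_lit 362) (B (L (nat_lit 361) ln13_12_3 ln13_12_3_ok) (L (nat_lit 363) ln14_12_3 ln14_12_3_ok))) (M (nat_lit 426) (B (L (nat_lit 425) ln13_12_1 ln13_12_1_ok) (L (nat_lit 427) ln14_12_1 ln14_12_1_ok))))) (B (M (nat_lit 427) (B (L (nat_lit 426) ln14_12_1 ln14_12_1_ok) (M (nat_lit 363) (B (L (nat_lit 362) ln14_12_3 ln14_12_3_ok) (M (nat_lit 331) (B (L (nat_lit 299) ln11_9_4 ln11_9_4_ok) (L (nat_lit 460) ln11_10_4 ln11_10_4_ok))))))) (M (nat_lit 362) (B (L (nat_lit 363) ln14_12_3 ln14_12_3_ok) (M (nat_lit 394) (B (L (nat_lit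 361) ln13_12_3 ln13_12_3_ok) (L (nat_lit 393) ln9_12_0 ln9_12_0_ok))))))))) (M (nat_lit 395) (B (M (nat_lit 362) (B (L (nat_lit 363) ln14_12_3 ln14_12_3_ok) (M (nat_lit 394) (B (L (nat_lit 361) ln13_12_3 ln13_12_3_ok) (L (nat_lit 393) ln9_12_0 ln9_12_0_ok))))) (M (nat_lit 399) (B (L (nat_lit 400) ln16_12_1 ln16_12_1_ok) (M (nat_lit 367) (B (L (nat_lit 366) ln11_12_2 ln11_12_2_ok) (L (nat_lit 368) ln12_12_2 ln12_12_2_ok)))))))))) (B (K (nat_lit 2079502271074782996825105998667797622327892532968682267533339094116714610205590646408138528571163187313069251615284523616620773376) (nat_lit 205943929851868349205755574537948747324995227248644216207056643400214834896626064226258603008056791680461799714559640316773136674147890377939944256379962785792) (nat_lit 205943929851868349205755574537948747324995227248644216207056643400214834896626064226258603008056791680461799714559640316773136674147890377939944256379962785792)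 c21_s3847) (B (M (nat_lit 364) (B (M (nat_lit 332) (B (L (nat_lit 300) ln12_9_4 ln12_9_4_ok) (L (nat_lit 461) ln12_10_4 ln12_10_4_ok))) (B (M (nat_lit 461) (B (L (nat_lit 332) ln12_10_4 ln12_10_4_ok) (L (nat_lit 493) ln13_15_7 ln13_15_7_ok))) (M (nat_lit 460) (B (M (nat_lit 363) (B (L (nat_lit 331) ln12_14_7 ln12_14_7_ok) (M (nat_lit 492) (B (L (nat_lit 395) ln12_15_7 ln12_15_7_ok) (L (nat_lit 524) ln12_16_6 ln12_16_6_ok))))) (B (M (nat_lit 492) (B (L (nat_lit 524) ln12_16_6 ln12_16_6_ok) (M (nat_lit 491) (B (L (nat_lit 459) ln12_11_5 ln12_11_5_ok) (L (nat_lit 523) ln12_12_5 ln12_12_5_ok))))) (M (nat_lit 363) (B (L (nat_lit 331) ln12_14_7 ln12_14_7_ok) (M (nat_lit 398) (B (L (nat_lit 399) ln15_12_3 ln15_12_3_ok) (M (nat_lit 362) (B (L (nat_lit 361) ln9_11_0 ln9_11_0_ok) (L (nat_lit 395) ln14_12_3 ln14_12_3_ok))))))))))))) c21_n3885))))))))) (nat_lit 2079502270913392379444674211814302674077704290823075655481512624564798400421800170032085953906810352733060637150540575368324055040)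 (nat_lit 205943929851868349205755574537948747329675555153728885102890674185564781226210278964025876406973289066268589884711594625290713459639877348693895134538874486784) (nat_lit 205943929851868349205755574537948747329675555153728885102890674185564781226210278964025876406973289066268589884711594625290713459639877348693895134538874486784) (by decide +kernel)
noncomputable def c21_n3940 : Cert := (M (nat_lit 395) (B (M (nat_lit 394) (B (L (nat_lit 430) ln14_13_3 ln14_13_3_ok) (M (nat_lit 393) (B (L (nat_lit 392) ln8_12_0 ln8_12_0_ok) (L (nat_lit 396) ln9_12_0 ln9_12_0_ok))))) (B (M (nat_lit 430) (B (L (nat_lit 394) ln14_13_3 ln14_13_3_ok) (M (nat_lit 431) (B (L (nat_lit 396) ln15_13_3 ln15_13_3_ok) (M (nat_lit 399) (B (L (nat_lit 398) ln11_13_2 ln11_13_2_ok) (L (nat_lit 400) ln12_13_2 ln12_13_2_ok))))))) (B (M (nat_lit 396) (B (M (nat_lit 363) (B (M (nat_lit 331) (B (L (nat_lit 299) ln11_9_4 ln11_9_4_ok)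 (L (nat_lit 460) ln11_10_4 ln11_10_4_ok))) (M (nat_lit 398) (B (L (nat_lit 362) ln14_12_3 ln14_12_3_ok) (L (nat_lit 399) ln15_12_1 ln15_12_1_ok))))) (B (M (nat_lit 332) (B (M (nat_lit 364) (B (L (nat_lit 300) ln12_9_5 ln12_9_5_ok) (L (nat_lit 459) ln12_10_5 ln12_10_5_ok))) (B (M (nat_lit 364) (B (L (nat_lit 459) ln12_10_5 ln12_10_5_ok) (L (nat_lit 461) ln12_10_4 ln12_10_4_ok))) (M (nat_lit 363) (B (M (nat_lit 331) (B (L (nat_lit 300) ln11_13_6 ln11_13_6_ok) (L (nat_lit 460) ln11_10_4 ln11_10_4_ok))) (M (nat_lit 398) (B (L (nat_lit 362) ln14_12_3 ln14_12_3_ok) (L (nat_lit 399) ln15_12_1 ln15_12_1_ok)))))))) (B (M (nat_lit 398) (B (L (nat_lit 399) ln15_12_1 ln15_12_1_ok) (M (nat_lit 430) (B (L (nat_lit 431) ln11_12_0 ln11_12_0_ok) (M (nat_lit 366) (B (L (nat_lit 367) ln11_12_2 ln11_12_2_ok) (M (nat_lit 461) (B (L (nat_lit 334) ln14_10_5 ln14_10_5_ok) (L (nat_lit 493) ln13_15_6 ln13_15_6_ok)))))))))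 (M (nat_lit 364) (B (M (nat_lit 332) (B (L (nat_lit 300) ln12_9_5 ln12_9_5_ok) (L (nat_lit 459) ln12_10_5 ln12_10_5_ok))) (B (M (nat_lit 459) (B (L (nat_lit 332) ln12_10_5 ln12_10_5_ok) (L (nat_lit 491) ln11_15_6 ln11_15_6_ok))) (B (M (nat_lit 363) (B (M (nat_lit 331) (B (L (nat_lit 299) ln11_9_4 ln11_9_4_ok) (L (nat_lit 460) ln12_14_7 ln12_14_7_ok))) (M (nat_lit 459) (B (L (nat_lit 491) ln11_15_6 ln11_15_6_ok) (M (nat_lit 362) (B (L (nat_lit 330) ln11_14_7 ln11_14_7_ok) (L (nat_lit 361) ln9_11_0 ln9_11_0_ok))))))) (M (nat_lit 332) (B (L (nat_lit 300) ln12_9_5 ln12_9_5_ok) (L (nat_lit 461) ln12_10_4 ln12_10_4_ok))))))))))) (B (M (nat_lit 430) (B (L (nat_lit 394) ln14_13_3 ln14_13_3_ok) (M (nat_lit 431) (B (M (nat_lit 399) (B (L (nat_lit 398) ln11_13_2 ln11_13_2_ok) (L (nat_lit 400) ln12_13_2 ln12_13_2_ok))) (B (M (nat_lit 432) (B (M (nat_lit 400) (B (L (nat_lit 399) ln12_13_2 ln12_13_2_ok) (L (nat_lit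 401) ln13_13_2 ln13_13_2_ok))) (M (nat_lit 460) (B (L (nat_lit 459) ln15_13_1 ln15_13_1_ok) (L (nat_lit 461) ln16_13_1 ln16_13_1_ok))))) (M (nat_lit 432) (B (M (nat_lit 460) (B (L (nat_lit 459) ln15_13_1 ln15_13_1_ok) (L (nat_lit 461) ln16_13_1 ln16_13_1_ok))) (B (M (nat_lit 433) (B (L (nat_lit 398) ln17_13_3 ln17_13_3_ok) (M (nat_lit 461) (B (L (nat_lit 460) ln16_13_1 ln16_13_1_ok) (L (nat_lit 462) ln17_13_1 ln17_13_1_ok))))) (M (nat_lit 433) (B (L (nat_lit 398) ln17_13_3 ln17_13_3_ok) (M (nat_lit 465) (B (L (nat_lit 464) ln13_13_0 ln13_13_0_ok) (L (nat_lit 466) ln14_13_0 ln14_13_0_ok))))))))))))) (M (nat_lit 363) (B (M (nat_lit 460) (B (L (nat_lit 331) ln11_10_4 ln11_10_4_ok) (M (nat_lit 492) (B (L (nat_lit 459) ln11_11_4 ln11_11_4_ok) (L (nat_lit 524) ln12_16_7 ln12_16_7_ok))))) (B (M (nat_lit 362) (B (M (nat_lit 330) (B (L (nat_lit 459) ln11_14_7 ln11_14_7_ok) (M (nat_lit 298) (B (L (nat_lit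 266) ln10_8_4 ln10_8_4_ok) (L (nat_lit 394) ln10_9_4 ln10_9_4_ok))))) (B (M (nat_lit 396) (B (L (nat_lit 398) ln14_12_3 ln14_12_3_ok) (M (nat_lit 361) (B (L (nat_lit 360) ln8_11_0 ln8_11_0_ok) (L (nat_lit 394) ln13_12_3 ln13_12_3_ok))))) (M (nat_lit 396) (B (L (nat_lit 398) ln14_12_3 ln14_12_3_ok) (M (nat_lit 361) (B (L (nat_lit 360) ln8_11_0 ln8_11_0_ok) (L (nat_lit 364) ln9_11_0 ln9_11_0_ok)))))))) (M (nat_lit 460) (B (L (nat_lit 331) ln11_10_4 ln11_10_4_ok) (M (nat_lit 492) (B (L (nat_lit 396) ln12_15_7 ln12_15_7_ok) (L (nat_lit 524) ln12_16_7 ln12_16_7_ok)))))))))))))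
theorem c21_s3941 : Sem (nat_lit 2079502270913392379444674211814302674077704290823075655481512624564798400421800170032085953906810352733060637150540575368324055040) (nat_lit 54918381325798265292952475122353586472826219963648911346721048235956404491544660105461080053676539707853123684623805020632639585056087120265410682370471755776) (nat_lit 54918381325798265292952475122353586472826219963648911346721048235956404491544660105461080053676539707853123684623805020632639585056087120265410682370471755776) :=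
  sem_of_chk (M (nat_lit 427) (B (M (nat_lit 398) (B (L (nat_lit 426) ln10_13_2 ln10_13_2_ok) (M (nat_lit 399) (B (L (nat_lit 396) ln15_12_1 ln15_12_1_ok) (L (nat_lit 400) ln16_12_1 ln16_12_1_ok))))) (B (M (nat_lit 398) (B (L (nat_lit 426) ln10_13_2 ln10_13_2_ok) (M (nat_lit 399) (B (L (nat_lit 400) ln16_12_1 ln16_12_1_ok) (L (nat_lit 430) ln11_13_2 ln11_13_2_ok))))) (B (M (nat_lit 396) (B (M (nat_lit 426) (B (L (nat_lit 425) ln9_13_2 ln9_13_2_ok) (M (nat_lit 461) (B (L (nat_lit 462) ln10_13_0 ln10_13_0_ok) (M (nat_lit 364) (B (L (nat_lit 332) ln12_10_4 ln12_10_4_ok) (L (nat_lit 493) ln13_15_7 ln13_15_7_ok))))))) (B (M (nat_lit 426) (B (L (nat_lit 425) ln9_13_2 ln9_13_2_ok) (M (nat_lit 394) (B (L (nat_lit 393) ln13_13_3 ln13_13_3_ok) (M (nat_lit 395) (B (L (nat_lit 430) ln10_12_0 ln10_12_0_ok) (M (nat_lit 362) (B (L (nat_lit 361) ln13_12_3 ln13_12_3_ok) (M (nat_lit 330) (B (L (nat_lit 298) ln10_9_4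 ln10_9_4_ok) (L (nat_lit 459) ln10_10_4 ln10_10_4_ok))))))))))) (M (nat_lit 364) (B (M (nat_lit 332) (B (L (nat_lit 300) ln12_9_4 ln12_9_4_ok) (L (nat_lit 459) ln12_10_5 ln12_10_5_ok))) (B (M (nat_lit 332) (B (L (nat_lit 459) ln12_10_5 ln12_10_5_ok) (L (nat_lit 461) ln12_10_4 ln12_10_4_ok))) (B (M (nat_lit 395) (B (M (nat_lit 394) (B (L (nat_lit 393) ln9_12_0 ln9_12_0_ok) (L (nat_lit 430) ln10_12_0 ln10_12_0_ok))) (M (nat_lit 363) (B (M (nat_lit 331) (B (L (nat_lit 299) ln11_9_4 ln11_9_4_ok) (L (nat_lit 460) ln12_14_7 ln12_14_7_ok))) (M (nat_lit 459) (B (L (nat_lit 491) ln11_15_6 ln11_15_6_ok) (M (nat_lit 362) (B (L (nat_lit 330) ln11_14_7 ln11_14_7_ok) (L (nat_lit 361) ln9_11_0 ln9_11_0_ok))))))))) (M (nat_lit 461) (B (L (nat_lit 332) ln12_10_4 ln12_10_4_ok) (L (nat_lit 493) ln13_15_7 ln13_15_7_ok)))))))))) c21_n3940)))) (nat_lit 2079502270913392379444674211814302674077704290823075655481512624564798400421800170032085953906810352733060637150540575368324055040)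 (nat_lit 54918381325798265292952475122353586472826219963648911346721048235956404491544660105461080053676539707853123684623805020632639585056087120265410682370471755776) (nat_lit 54918381325798265292952475122353586472826219963648911346721048235956404491544660105461080053676539707853123684623805020632639585056087120265410682370471755776) (by decide +kernel)
theorem c21_s4180 : Sem (nat_lit 5954262831509113918293453013663207357239332700828213840649043367169309672789754188309957257479237082980576929731593166782056031909935316992) (nat_lit 14885657115770596035847434094277193980152384028333294336145732428672354114652589169227975303277594983896924449121292012909945155075795058688) (nat_lit 14885657115770596035847434094277193980152384028333294336145732428672354114652589169227975303277594983896924449121292012909945155075795058688) :=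
  sem_of_chk (M (nat_lit 395) (B (M (nat_lit 427) (B (M (nat_lit 426) (B (L (nat_lit 398) ln10_13_2 ln10_13_2_ok) (L (nat_lit 462) ln10_13_0 ln10_13_0_ok))) (M (nat_lit 394) (B (L (nat_lit 430) ln14_13_3 ln14_13_3_ok) (M (nat_lit 393) (B (L (nat_lit 392) ln8_12_0 ln8_12_0_ok) (L (nat_lit 396) ln9_12_0 ln9_12_0_ok))))))) (B (M (nat_lit 394) (B (M (nat_lit 396) (B (L (nat_lit 393) ln9_12_0 ln9_12_0_ok) (L (nat_lit 430) ln10_12_0 ln10_12_0_ok))) (B (M (nat_lit 430) (B (L (nat_lit 396) ln10_12_0 ln10_12_0_ok) (L (nat_lit 427) ln14_13_3 ln14_13_3_ok))) (B (M (nat_lit 427) (B (L (nat_lit 430) ln14_13_3 ln14_13_3_ok) (M (nat_lit 426) (B (L (nat_lit 393) ln13_13_3 ln13_13_3_ok) (L (nat_lit 398) ln10_13_2 ln10_13_2_ok))))) (M (nat_lit 426) (B (M (nat_lit 393) (B (L (nat_lit 396) ln9_12_0 ln9_12_0_ok) (L (nat_lit 427) ln13_13_3 ln13_13_3_ok))) (B (M (nat_lit 427) (B (L (nat_lit 398) ln10_13_2 ln10_13_2_ok)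 (L (nat_lit 462) ln10_13_0 ln10_13_0_ok))) (M (nat_lit 396) (B (L (nat_lit 393) ln9_12_0 ln9_12_0_ok) (L (nat_lit 425) ln13_12_1 ln13_12_1_ok)))))))))) (B (M (nat_lit 396) (B (M (nat_lit 430) (B (L (nat_lit 394) ln10_12_0 ln10_12_0_ok) (L (nat_lit 431) ln15_13_3 ln15_13_3_ok))) (M (nat_lit 427) (B (M (nat_lit 398) (B (L (nat_lit 426) ln14_12_1 ln14_12_1_ok) (L (nat_lit 399) ln15_12_1 ln15_12_1_ok))) (B (M (nat_lit 426) (B (L (nat_lit 425) ln9_13_2 ln9_13_2_ok) (L (nat_lit 462) ln10_13_0 ln10_13_0_ok))) (M (nat_lit 363) (B (M (nat_lit 331) (B (L (nat_lit 299) ln11_9_4 ln11_9_4_ok) (L (nat_lit 460) ln11_10_4 ln11_10_4_ok))) (M (nat_lit 398) (B (L (nat_lit 362) ln14_12_3 ln14_12_3_ok) (L (nat_lit 399) ln15_12_1 ln15_12_1_ok)))))))))) (B (M (nat_lit 398) (B (M (nat_lit 427) (B (L (nat_lit 426) ln10_13_2 ln10_13_2_ok) (M (nat_lit 399) (B (L (nat_lit 396) ln15_12_1 ln15_12_1_ok) (L (nat_lit 400) ln16_12_1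 ln16_12_1_ok))))) (B (M (nat_lit 427) (B (L (nat_lit 426) ln10_13_2 ln10_13_2_ok) (M (nat_lit 399) (B (L (nat_lit 400) ln16_12_1 ln16_12_1_ok) (L (nat_lit 430) ln11_13_2 ln11_13_2_ok))))) (B (M (nat_lit 427) (B (L (nat_lit 426) ln10_13_2 ln10_13_2_ok) (M (nat_lit 396) (B (M (nat_lit 363) (B (L (nat_lit 362) ln14_12_3 ln14_12_3_ok) (M (nat_lit 331) (B (L (nat_lit 299) ln11_9_4 ln11_9_4_ok) (L (nat_lit 460) ln11_10_4 ln11_10_4_ok))))) (M (nat_lit 430) (B (L (nat_lit 431) ln11_12_0 ln11_12_0_ok) (M (nat_lit 366) (B (L (nat_lit 334) ln14_10_5 ln14_10_5_ok) (L (nat_lit 367) ln11_12_2 ln11_12_2_ok))))))))) (B (M (nat_lit 399) (B (L (nat_lit 400) ln16_12_1 ln16_12_1_ok) (M (nat_lit 427) (B (L (nat_lit 396) ln15_12_1 ln15_12_1_ok) (L (nat_lit 430) ln11_13_2 ln11_13_2_ok))))) (M (nat_lit 396) (B (M (nat_lit 430) (B (L (nat_lit 431) ln11_12_0 ln11_12_0_ok) (M (nat_lit 366) (B (L (nat_lit 334) ln14_10_5 ln14_10_5_ok)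 (L (nat_lit 367) ln11_12_2 ln11_12_2_ok))))) (M (nat_lit 363) (B (L (nat_lit 362) ln14_12_3 ln14_12_3_ok) (M (nat_lit 364) (B (L (nat_lit 332) ln12_10_4 ln12_10_4_ok) (L (nat_lit 399) ln15_12_3 ln15_12_3_ok)))))))))))) (B (M (nat_lit 427) (B (M (nat_lit 426) (B (L (nat_lit 398) ln10_13_2 ln10_13_2_ok) (L (nat_lit 462) ln10_13_0 ln10_13_0_ok))) (B (M (nat_lit 426) (B (L (nat_lit 462) ln10_13_0 ln10_13_0_ok) (M (nat_lit 394) (B (L (nat_lit 393) ln13_13_3 ln13_13_3_ok) (L (nat_lit 430) ln14_13_3 ln14_13_3_ok))))) (B (M (nat_lit 430) (B (L (nat_lit 394) ln14_13_3 ln14_13_3_ok) (M (nat_lit 431) (B (M (nat_lit 399) (B (L (nat_lit 398) ln11_13_2 ln11_13_2_ok) (L (nat_lit 400) ln12_13_2 ln12_13_2_ok))) (B (M (nat_lit 432) (B (L (nat_lit 460) ln16_13_1 ln16_13_1_ok) (M (nat_lit 400) (B (L (nat_lit 399) ln12_13_2 ln12_13_2_ok) (L (nat_lit 401) ln13_13_2 ln13_13_2_ok))))) (M (nat_lit 432) (B (L (nat_lit 460)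 ln16_13_1 ln16_13_1_ok) (M (nat_lit 433) (B (L (nat_lit 398) ln17_13_3 ln17_13_3_ok) (L (nat_lit 462) ln17_13_1 ln17_13_1_ok)))))))))) (M (nat_lit 426) (B (L (nat_lit 398) ln10_13_2 ln10_13_2_ok) (M (nat_lit 394) (B (L (nat_lit 393) ln13_13_3 ln13_13_3_ok) (L (nat_lit 430) ln14_13_3 ln14_13_3_ok))))))))) (B (M (nat_lit 394) (B (M (nat_lit 396) (B (L (nat_lit 393) ln9_12_0 ln9_12_0_ok) (L (nat_lit 430) ln10_12_0 ln10_12_0_ok))) (B (M (nat_lit 430) (B (L (nat_lit 396) ln10_12_0 ln10_12_0_ok) (L (nat_lit 427) ln14_13_3 ln14_13_3_ok))) (B (M (nat_lit 427) (B (L (nat_lit 430) ln14_13_3 ln14_13_3_ok) (M (nat_lit 393) (B (L (nat_lit 392) ln8_12_0 ln8_12_0_ok) (L (nat_lit 426) ln13_13_3 ln13_13_3_ok))))) (M (nat_lit 393) (B (L (nat_lit 396) ln9_12_0 ln9_12_0_ok) (M (nat_lit 427) (B (L (nat_lit 392) ln8_12_0 ln8_12_0_ok) (L (nat_lit 426) ln13_13_3 ln13_13_3_ok))))))))) (B (M (nat_lit 396) (B (M (nat_lit 394)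 (B (L (nat_lit 393) ln9_12_0 ln9_12_0_ok) (L (nat_lit 430) ln10_12_0 ln10_12_0_ok))) (B (M (nat_lit 430) (B (L (nat_lit 394) ln10_12_0 ln10_12_0_ok) (L (nat_lit 431) ln15_13_3 ln15_13_3_ok))) (B (M (nat_lit 430) (B (L (nat_lit 431) ln15_13_3 ln15_13_3_ok) (M (nat_lit 398) (B (M (nat_lit 366) (B (L (nat_lit 334) ln14_10_5 ln14_10_5_ok) (L (nat_lit 367) ln11_12_2 ln11_12_2_ok))) (M (nat_lit 399) (B (L (nat_lit 427) ln15_12_1 ln15_12_1_ok) (L (nat_lit 400) ln16_12_1 ln16_12_1_ok))))))) (M (nat_lit 398) (B (M (nat_lit 399) (B (L (nat_lit 427) ln15_12_1 ln15_12_1_ok) (L (nat_lit 400) ln16_12_1 ln16_12_1_ok))) (M (nat_lit 362) (B (L (nat_lit 363) ln14_12_3 ln14_12_3_ok) (M (nat_lit 394) (B (L (nat_lit 361) ln13_12_3 ln13_12_3_ok) (L (nat_lit 393) ln9_12_0 ln9_12_0_ok))))))))))) (B (M (nat_lit 396) (B (M (nat_lit 430) (B (L (nat_lit 394) ln10_12_0 ln10_12_0_ok) (L (nat_lit 431) ln15_13_3 ln15_13_3_ok)))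 (M (nat_lit 364) (B (L (nat_lit 332) ln12_10_4 ln12_10_4_ok) (M (nat_lit 363) (B (M (nat_lit 331) (B (L (nat_lit 299) ln11_9_4 ln11_9_4_ok) (L (nat_lit 460) ln12_14_7 ln12_14_7_ok))) (M (nat_lit 398) (B (L (nat_lit 362) ln14_12_3 ln14_12_3_ok) (L (nat_lit 399) ln15_12_3 ln15_12_3_ok))))))))) (M (nat_lit 426) (B (M (nat_lit 427) (B (L (nat_lit 398) ln10_13_2 ln10_13_2_ok) (L (nat_lit 462) ln10_13_0 ln10_13_0_ok))) (B (M (nat_lit 427) (B (L (nat_lit 462) ln10_13_0 ln10_13_0_ok) (M (nat_lit 425) (B (L (nat_lit 396) ln9_13_2 ln9_13_2_ok) (L (nat_lit 460) ln9_13_0 ln9_13_0_ok))))) (M (nat_lit 396) (B (M (nat_lit 394) (B (L (nat_lit 393) ln9_12_0 ln9_12_0_ok) (L (nat_lit 425) ln13_12_1 ln13_12_1_ok))) (M (nat_lit 364) (B (L (nat_lit 332) ln12_10_4 ln12_10_4_ok) (M (nat_lit 363) (B (M (nat_lit 331) (B (L (nat_lit 299) ln11_9_4 ln11_9_4_ok) (L (nat_lit 460) ln12_14_7 ln12_14_7_ok))) (M (nat_lit 362) (B (L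 (nat_lit 361) ln9_11_0 ln9_11_0_ok) (L (nat_lit 398) ln14_12_3 ln14_12_3_ok))))))))))))))))))))) (nat_lit 5954262831509113918293453013663207357239332700828213840649043367169309672789754188309957257479237082980576929731593166782056031909935316992) (nat_lit 14885657115770596035847434094277193980152384028333294336145732428672354114652589169227975303277594983896924449121292012909945155075795058688) (nat_lit 14885657115770596035847434094277193980152384028333294336145732428672354114652589169227975303277594983896924449121292012909945155075795058688) (by decide +kernel)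
noncomputable def c21_n4181 : Cert := (M (nat_lit 461) (B (M (nat_lit 398) (B (M (nat_lit 493) (B (L (nat_lit 366) ln13_15_6 ln13_15_6_ok) (M (nat_lit 525) (B (L (nat_lit 396) ln13_16_7 ln13_16_7_ok) (L (nat_lit 430) ln13_16_6 ln13_16_6_ok))))) (B (M (nat_lit 399) (B (L (nat_lit 400) ln16_12_1 ln16_12_1_ok) (M (nat_lit 427) (B (L (nat_lit 396) ln15_12_1 ln15_12_1_ok) (L (nat_lit 426) ln10_13_2 ln10_13_2_ok))))) (M (nat_lit 399) (B (L (nat_lit 400) ln16_12_1 ln16_12_1_ok) (M (nat_lit 427) (B (L (nat_lit 426) ln10_13_2 ln10_13_2_ok) (L (nat_lit 430) ln11_13_2 ln11_13_2_ok)))))))) (B (M (nat_lit 396) (B (M (nat_lit 364) (B (L (nat_lit 332) ln12_10_4 ln12_10_4_ok) (L (nat_lit 493) ln13_15_7 ln13_15_7_ok))) (B (M (nat_lit 493) (B (L (nat_lit 364) ln13_15_7 ln13_15_7_ok) (L (nat_lit 525) ln13_16_7 ln13_16_7_ok))) (M (nat_lit 427) (B (M (nat_lit 398) (B (L (nat_lit 399) ln15_12_1 ln15_12_1_ok) (L (nat_lit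 426) ln10_13_2 ln10_13_2_ok))) (B (M (nat_lit 426) (B (L (nat_lit 425) ln9_13_2 ln9_13_2_ok) (L (nat_lit 462) ln10_13_0 ln10_13_0_ok))) (M (nat_lit 395) (B (M (nat_lit 430) (B (L (nat_lit 394) ln10_12_0 ln10_12_0_ok) (L (nat_lit 431) ln15_13_3 ln15_13_3_ok))) (M (nat_lit 363) (B (M (nat_lit 331) (B (L (nat_lit 299) ln11_9_4 ln11_9_4_ok) (L (nat_lit 460) ln11_10_4 ln11_10_4_ok))) (M (nat_lit 398) (B (L (nat_lit 362) ln14_12_3 ln14_12_3_ok) (L (nat_lit 399) ln15_12_1 ln15_12_1_ok))))))))))))) (B (M (nat_lit 398) (B (M (nat_lit 399) (B (L (nat_lit 400) ln16_12_1 ln16_12_1_ok) (M (nat_lit 427) (B (L (nat_lit 426) ln10_13_2 ln10_13_2_ok) (L (nat_lit 430) ln11_13_2 ln11_13_2_ok))))) (B (M (nat_lit 493) (B (L (nat_lit 366) ln13_15_6 ln13_15_6_ok) (M (nat_lit 525) (B (L (nat_lit 430) ln13_16_6 ln13_16_6_ok) (M (nat_lit 524) (B (L (nat_lit 492) ln13_12_5 ln13_12_5_ok) (L (nat_lit 556) ln13_13_5 ln13_13_5_ok)))))))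 (M (nat_lit 493) (B (L (nat_lit 366) ln13_15_6 ln13_15_6_ok) (M (nat_lit 525) (B (M (nat_lit 524) (B (L (nat_lit 492) ln13_12_5 ln13_12_5_ok) (L (nat_lit 556) ln13_13_5 ln13_13_5_ok))) (M (nat_lit 526) (B (L (nat_lit 494) ln13_12_4 ln13_12_4_ok) (L (nat_lit 558) ln13_13_4 ln13_13_4_ok)))))))))) (B (M (nat_lit 493) (B (M (nat_lit 396) (B (L (nat_lit 364) ln13_15_7 ln13_15_7_ok) (L (nat_lit 525) ln13_16_7 ln13_16_7_ok))) (B (M (nat_lit 524) (B (L (nat_lit 492) ln13_12_5 ln13_12_5_ok) (M (nat_lit 525) (B (L (nat_lit 396) ln13_16_7 ln13_16_7_ok) (L (nat_lit 556) ln13_13_5 ln13_13_5_ok))))) (B (M (nat_lit 525) (B (M (nat_lit 524) (B (L (nat_lit 492) ln13_12_5 ln13_12_5_ok) (L (nat_lit 556) ln13_13_5 ln13_13_5_ok))) (M (nat_lit 526) (B (L (nat_lit 494) ln13_12_4 ln13_12_4_ok) (L (nat_lit 558) ln13_13_4 ln13_13_4_ok))))) (M (nat_lit 396) (B (L (nat_lit 364) ln13_15_7 ln13_15_7_ok) (M (nat_lit 492) (B (L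 (nat_lit 524) ln13_12_5 ln13_12_5_ok) (M (nat_lit 460) (B (M (nat_lit 491) (B (L (nat_lit 523) ln12_12_5 ln12_12_5_ok) (M (nat_lit 490) (B (L (nat_lit 489) ln9_15_2 ln9_15_2_ok) (L (nat_lit 462) ln10_15_2 ln10_15_2_ok))))) (M (nat_lit 395) (B (L (nat_lit 363) ln12_15_7 ln12_15_7_ok) (M (nat_lit 394) (B (L (nat_lit 393) ln9_12_0 ln9_12_0_ok) (L (nat_lit 430) ln10_12_0 ln10_12_0_ok))))))))))))))) (B (M (nat_lit 398) (B (M (nat_lit 399) (B (L (nat_lit 400) ln16_12_1 ln16_12_1_ok) (M (nat_lit 427) (B (L (nat_lit 396) ln15_12_1 ln15_12_1_ok) (L (nat_lit 426) ln10_13_2 ln10_13_2_ok))))) (M (nat_lit 493) (B (L (nat_lit 366) ln13_15_6 ln13_15_6_ok) (M (nat_lit 525) (B (M (nat_lit 524) (B (L (nat_lit 492) ln13_12_5 ln13_12_5_ok) (L (nat_lit 556) ln13_13_5 ln13_13_5_ok))) (M (nat_lit 526) (B (L (nat_lit 494) ln13_12_4 ln13_12_4_ok) (L (nat_lit 558) ln13_13_4 ln13_13_4_ok))))))))) (K (nat_lit 5954262831509113918293453013663207357239332700828213840649043367169309672789754188309957257479237082980576929731593166782056031909935316992)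 (nat_lit 14885657115770596035847434094277193980152384028333294336145732428672354114652589169227975303277594983896924449121292012909945155075795058688) (nat_lit 14885657115770596035847434094277193980152384028333294336145732428672354114652589169227975303277594983896924449121292012909945155075795058688) c21_s4180)))))))
noncomputable def c21_n4423 : Cert := (M (nat_lit 491) (B (M (nat_lit 396) (B (L (nat_lit 523) ln11_16_6 ln11_16_6_ok) (M (nat_lit 364) (B (L (nat_lit 332) ln12_10_5 ln12_10_5_ok) (L (nat_lit 395) ln11_15_6 ln11_15_6_ok))))) (B (M (nat_lit 396) (B (L (nat_lit 523) ln11_16_6 ln11_16_6_ok) (M (nat_lit 395) (B (L (nat_lit 364) ln11_15_6 ln11_15_6_ok) (M (nat_lit 362) (B (L (nat_lit 363) ln14_12_3 ln14_12_3_ok) (L (nat_lit 394) ln11_15_7 ln11_15_7_ok))))))) (B (M (nat_lit 395) (B (M (nat_lit 394) (B (L (nat_lit 362) ln11_15_7 ln11_15_7_ok) (M (nat_lit 396) (B (L (nat_lit 393) ln9_12_0 ln9_12_0_ok)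 (L (nat_lit 523) ln11_16_6 ln11_16_6_ok))))) (B (M (nat_lit 522) (B (L (nat_lit 490) ln11_12_5 ln11_12_5_ok) (M (nat_lit 523) (B (L (nat_lit 396) ln11_16_6 ln11_16_6_ok) (L (nat_lit 554) ln11_13_5 ln11_13_5_ok))))) (M (nat_lit 363) (B (M (nat_lit 362) (B (L (nat_lit 330) ln11_14_7 ln11_14_7_ok) (L (nat_lit 394) ln11_15_7 ln11_15_7_ok))) (M (nat_lit 490) (B (L (nat_lit 458) ln11_11_5 ln11_11_5_ok) (L (nat_lit 522) ln11_12_5 ln11_12_5_ok)))))))) (B (M (nat_lit 523) (B (L (nat_lit 396) ln11_16_6 ln11_16_6_ok) (M (nat_lit 555) (B (M (nat_lit 554) (B (L (nat_lit 522) ln11_13_5 ln11_13_5_ok) (L (nat_lit 586) ln11_14_5 ln11_14_5_ok))) (M (nat_lit 556) (B (L (nat_lit 524) ln11_13_4 ln11_13_4_ok) (L (nat_lit 588) ln11_14_4 ln11_14_4_ok))))))) (B (M (nat_lit 492) (B (M (nat_lit 524) (B (L (nat_lit 395) ln11_12_4 ln11_12_4_ok) (M (nat_lit 556) (B (L (nat_lit 523) ln11_13_4 ln11_13_4_ok) (L (nat_lit 588) ln12_18_7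 ln12_18_7_ok))))) (B (M (nat_lit 493) (B (M (nat_lit 461) (B (L (nat_lit 366) ln13_15_6 ln13_15_6_ok) (L (nat_lit 524) ln13_12_5 ln13_12_5_ok))) (M (nat_lit 458) (B (L (nat_lit 494) ln14_15_3 ln14_15_3_ok) (M (nat_lit 457) (B (L (nat_lit 456) ln8_14_2 ln8_14_2_ok) (L (nat_lit 490) ln13_15_3 ln13_15_3_ok))))))) (M (nat_lit 490) (B (M (nat_lit 522) (B (L (nat_lit 395) ln11_12_5 ln11_12_5_ok) (M (nat_lit 554) (B (L (nat_lit 458) ln10_17_6 ln10_17_6_ok) (L (nat_lit 523) ln11_13_5 ln11_13_5_ok))))) (B (M (nat_lit 493) (B (M (nat_lit 458) (B (L (nat_lit 457) ln13_15_3 ln13_15_3_ok) (L (nat_lit 494) ln14_15_3 ln14_15_3_ok))) (M (nat_lit 461) (B (L (nat_lit 366) ln13_15_6 ln13_15_6_ok) (L (nat_lit 462) ln10_15_2 ln10_15_2_ok))))) (M (nat_lit 522) (B (L (nat_lit 395) ln11_12_5 ln11_12_5_ok) (M (nat_lit 554) (B (L (nat_lit 523) ln11_13_5 ln11_13_5_ok) (L (nat_lit 586) ln10_18_6 ln10_18_6_ok))))))))))) (M (nat_lit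 395) (B (M (nat_lit 396) (B (L (nat_lit 364) ln11_15_6 ln11_15_6_ok) (M (nat_lit 362) (B (L (nat_lit 363) ln14_12_3 ln14_12_3_ok) (L (nat_lit 394) ln11_15_7 ln11_15_7_ok))))) (B (M (nat_lit 363) (B (M (nat_lit 364) (B (L (nat_lit 332) ln11_14_6 ln11_14_6_ok) (L (nat_lit 396) ln11_15_6 ln11_15_6_ok))) (M (nat_lit 490) (B (L (nat_lit 458) ln11_11_5 ln11_11_5_ok) (L (nat_lit 522) ln11_12_5 ln11_12_5_ok))))) (B (M (nat_lit 396) (B (L (nat_lit 364) ln11_15_6 ln11_15_6_ok) (M (nat_lit 394) (B (L (nat_lit 362) ln11_15_7 ln11_15_7_ok) (L (nat_lit 393) ln9_12_0 ln9_12_0_ok))))) (B (M (nat_lit 362) (B (L (nat_lit 394) ln11_15_7 ln11_15_7_ok) (M (nat_lit 363) (B (L (nat_lit 330) ln11_14_7 ln11_14_7_ok) (L (nat_lit 396) ln14_12_3 ln14_12_3_ok))))) (M (nat_lit 363) (B (M (nat_lit 362) (B (L (nat_lit 330) ln11_14_7 ln11_14_7_ok) (L (nat_lit 394) ln11_15_7 ln11_15_7_ok))) (M (nat_lit 490) (B (L (nat_lit 458) ln11_11_5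 ln11_11_5_ok) (L (nat_lit 522) ln11_12_5 ln11_12_5_ok))))))))))))))))
theorem c21_s4465 : Sem (nat_lit 2426085983324056706413703132246167930008011893827479175585128450349290903032665278416293053327239138315268996379691814840132698112) (nat_lit 1266331656898562961235631786109596878853294196205398960364935023273691831973826646740917144894745585583955777504358053732491480642565412397916632638619316328373751562259671285760) (nat_lit 1266331656898562961235631786109596878853294196205398960364935023273691831973826646740917144894745585583955777504358053732491480642565412397916632638619316328373751562259671285760) :=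
  sem_of_chk (M (nat_lit 459) (B (M (nat_lit 430) (B (L (nat_lit 458) ln14_13_1 ln14_13_1_ok) (M (nat_lit 395) (B (L (nat_lit 394) ln14_13_3 ln14_13_3_ok) (M (nat_lit 396) (B (L (nat_lit 431) ln11_12_0 ln11_12_0_ok) (M (nat_lit 364) (B (L (nat_lit 332) ln12_10_5 ln12_10_5_ok) (L (nat_lit 491) ln11_15_6 ln11_15_6_ok))))))))) (B (M (nat_lit 430) (B (L (nat_lit 458) ln14_13_1 ln14_13_1_ok) (M (nat_lit 395) (B (L (nat_lit 394) ln14_13_3 ln14_13_3_ok) (M (nat_lit 396) (B (L (nat_lit 431) ln11_12_0 ln11_12_0_ok) (M (nat_lit 491) (B (L (nat_lit 364) ln11_15_6 ln11_15_6_ok) (L (nat_lit 523) ln11_16_6 ln11_16_6_ok))))))))) (B (M (nat_lit 395) (B (M (nat_lit 430) (B (L (nat_lit 394) ln14_13_3 ln14_13_3_ok) (L (nat_lit 458) ln14_13_1 ln14_13_1_ok))) (B (M (nat_lit 363) (B (M (nat_lit 362) (B (L (nat_lit 330) ln11_14_7 ln11_14_7_ok) (L (nat_lit 396) ln14_12_3 ln14_12_3_ok))) (M (nat_lit 458) (B (L (nat_lit 490)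 ln11_11_5 ln11_11_5_ok) (L (nat_lit 430) ln14_13_1 ln14_13_1_ok))))) (B (M (nat_lit 491) (B (M (nat_lit 394) (B (L (nat_lit 362) ln11_15_7 ln11_15_7_ok) (M (nat_lit 396) (B (L (nat_lit 393) ln9_12_0 ln9_12_0_ok) (L (nat_lit 523) ln11_16_6 ln11_16_6_ok))))) (B (M (nat_lit 522) (B (L (nat_lit 490) ln11_12_5 ln11_12_5_ok) (M (nat_lit 523) (B (L (nat_lit 396) ln11_16_6 ln11_16_6_ok) (L (nat_lit 554) ln11_13_5 ln11_13_5_ok))))) (M (nat_lit 363) (B (M (nat_lit 362) (B (L (nat_lit 330) ln11_14_7 ln11_14_7_ok) (L (nat_lit 394) ln11_15_7 ln11_15_7_ok))) (M (nat_lit 490) (B (L (nat_lit 458) ln11_11_5 ln11_11_5_ok) (L (nat_lit 522) ln11_12_5 ln11_12_5_ok)))))))) (M (nat_lit 362) (B (M (nat_lit 363) (B (L (nat_lit 330) ln11_14_7 ln11_14_7_ok) (L (nat_lit 396) ln14_12_3 ln14_12_3_ok))) (M (nat_lit 394) (B (L (nat_lit 491) ln11_15_7 ln11_15_7_ok) (L (nat_lit 430) ln14_13_3 ln14_13_3_ok))))))))) (B (M (nat_lit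 395) (B (M (nat_lit 430) (B (L (nat_lit 458) ln14_13_1 ln14_13_1_ok) (M (nat_lit 396) (B (L (nat_lit 431) ln11_12_0 ln11_12_0_ok) (M (nat_lit 491) (B (L (nat_lit 364) ln11_15_6 ln11_15_6_ok) (L (nat_lit 523) ln11_16_6 ln11_16_6_ok))))))) (B (M (nat_lit 458) (B (L (nat_lit 430) ln14_13_1 ln14_13_1_ok) (M (nat_lit 490) (B (L (nat_lit 363) ln11_11_5 ln11_11_5_ok) (M (nat_lit 522) (B (L (nat_lit 491) ln11_12_5 ln11_12_5_ok) (L (nat_lit 554) ln10_17_6 ln10_17_6_ok))))))) (B (M (nat_lit 396) (B (M (nat_lit 364) (B (L (nat_lit 332) ln12_10_5 ln12_10_5_ok) (L (nat_lit 491) ln11_15_6 ln11_15_6_ok))) (B (M (nat_lit 491) (B (L (nat_lit 364) ln11_15_6 ln11_15_6_ok) (L (nat_lit 523) ln11_16_6 ln11_16_6_ok))) (B (M (nat_lit 490) (B (M (nat_lit 363) (B (L (nat_lit 362) ln14_12_3 ln14_12_3_ok) (L (nat_lit 458) ln11_11_5 ln11_11_5_ok))) (M (nat_lit 491) (B (L (nat_lit 522) ln11_12_5 ln11_12_5_ok) (L (nat_lit 523)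 ln11_16_6 ln11_16_6_ok))))) (M (nat_lit 332) (B (L (nat_lit 364) ln12_10_5 ln12_10_5_ok) (M (nat_lit 363) (B (L (nat_lit 362) ln14_12_3 ln14_12_3_ok) (M (nat_lit 331) (B (L (nat_lit 299) ln11_9_4 ln11_9_4_ok) (L (nat_lit 300) ln11_13_6 ln11_13_6_ok))))))))))) (B (M (nat_lit 396) (B (M (nat_lit 364) (B (L (nat_lit 332) ln12_10_5 ln12_10_5_ok) (L (nat_lit 491) ln11_15_6 ln11_15_6_ok))) (B (M (nat_lit 491) (B (L (nat_lit 364) ln11_15_6 ln11_15_6_ok) (L (nat_lit 523) ln11_16_6 ln11_16_6_ok))) (M (nat_lit 430) (B (L (nat_lit 431) ln11_12_0 ln11_12_0_ok) (M (nat_lit 366) (B (L (nat_lit 367) ln11_12_2 ln11_12_2_ok) (M (nat_lit 334) (B (L (nat_lit 302) ln14_9_5 ln14_9_5_ok) (L (nat_lit 461) ln14_10_5 ln14_10_5_ok)))))))))) (M (nat_lit 430) (B (L (nat_lit 458) ln14_13_1 ln14_13_1_ok) (M (nat_lit 366) (B (M (nat_lit 334) (B (L (nat_lit 302) ln14_9_5 ln14_9_5_ok) (L (nat_lit 461) ln14_10_5 ln14_10_5_ok))) (M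 (nat_lit 396) (B (L (nat_lit 367) ln11_12_2 ln11_12_2_ok) (L (nat_lit 431) ln11_12_0 ln11_12_0_ok)))))))))))) (B (M (nat_lit 493) (B (M (nat_lit 461) (B (L (nat_lit 366) ln13_15_6 ln13_15_6_ok) (M (nat_lit 396) (B (L (nat_lit 364) ln13_15_7 ln13_15_7_ok) (L (nat_lit 525) ln13_16_7 ln13_16_7_ok))))) (B (M (nat_lit 461) (B (L (nat_lit 366) ln13_15_6 ln13_15_6_ok) (M (nat_lit 430) (B (L (nat_lit 525) ln13_16_6 ln13_16_6_ok) (L (nat_lit 458) ln14_13_1 ln14_13_1_ok))))) (M (nat_lit 491) (B (M (nat_lit 458) (B (L (nat_lit 430) ln14_13_1 ln14_13_1_ok) (M (nat_lit 457) (B (L (nat_lit 456) ln8_14_2 ln8_14_2_ok) (M (nat_lit 492) (B (L (nat_lit 490) ln13_15_3 ln13_15_3_ok) (L (nat_lit 494) ln14_15_3 ln14_15_3_ok))))))) (M (nat_lit 523) (B (L (nat_lit 396) ln11_16_6 ln11_16_6_ok) (M (nat_lit 555) (B (M (nat_lit 554) (B (L (nat_lit 522) ln11_13_5 ln11_13_5_ok) (L (nat_lit 586) ln11_14_5 ln11_14_5_ok))) (M (nat_lit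 556) (B (L (nat_lit 524) ln11_13_4 ln11_13_4_ok) (L (nat_lit 588) ln11_14_4 ln11_14_4_ok)))))))))))) (B (M (nat_lit 493) (B (M (nat_lit 461) (B (L (nat_lit 366) ln13_15_6 ln13_15_6_ok) (M (nat_lit 430) (B (L (nat_lit 525) ln13_16_6 ln13_16_6_ok) (L (nat_lit 458) ln14_13_1 ln14_13_1_ok))))) (B (M (nat_lit 491) (B (M (nat_lit 458) (B (L (nat_lit 430) ln14_13_1 ln14_13_1_ok) (M (nat_lit 457) (B (L (nat_lit 456) ln8_14_2 ln8_14_2_ok) (M (nat_lit 492) (B (L (nat_lit 490) ln13_15_3 ln13_15_3_ok) (L (nat_lit 494) ln14_15_3 ln14_15_3_ok))))))) (B (M (nat_lit 492) (B (M (nat_lit 458) (B (L (nat_lit 494) ln14_15_3 ln14_15_3_ok) (M (nat_lit 457) (B (L (nat_lit 456) ln8_14_2 ln8_14_2_ok) (L (nat_lit 490) ln13_15_3 ln13_15_3_ok))))) (M (nat_lit 524) (B (L (nat_lit 395) ln11_12_4 ln11_12_4_ok) (M (nat_lit 556) (B (L (nat_lit 523) ln11_13_4 ln11_13_4_ok) (L (nat_lit 588) ln12_18_7 ln12_18_7_ok))))))) (B (M (nat_lit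 395) (B (M (nat_lit 394) (B (L (nat_lit 362) ln11_15_7 ln11_15_7_ok) (L (nat_lit 430) ln14_13_3 ln14_13_3_ok))) (B (M (nat_lit 430) (B (L (nat_lit 394) ln14_13_3 ln14_13_3_ok) (L (nat_lit 458) ln14_13_1 ln14_13_1_ok))) (B (M (nat_lit 458) (B (L (nat_lit 430) ln14_13_1 ln14_13_1_ok) (M (nat_lit 490) (B (L (nat_lit 363) ln11_11_5 ln11_11_5_ok) (L (nat_lit 522) ln11_12_5 ln11_12_5_ok))))) (M (nat_lit 363) (B (M (nat_lit 362) (B (L (nat_lit 330) ln11_14_7 ln11_14_7_ok) (L (nat_lit 394) ln11_15_7 ln11_15_7_ok))) (M (nat_lit 490) (B (L (nat_lit 458) ln11_11_5 ln11_11_5_ok) (L (nat_lit 522) ln11_12_5 ln11_12_5_ok))))))))) (B (M (nat_lit 395) (B (M (nat_lit 394) (B (L (nat_lit 362) ln11_15_7 ln11_15_7_ok) (L (nat_lit 430) ln14_13_3 ln14_13_3_ok))) (M (nat_lit 523) (B (M (nat_lit 522) (B (L (nat_lit 490) ln11_12_5 ln11_12_5_ok) (L (nat_lit 554) ln11_13_5 ln11_13_5_ok))) (M (nat_lit 524) (B (L (nat_lit 492)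 ln11_12_4 ln11_12_4_ok) (L (nat_lit 556) ln11_13_4 ln11_13_4_ok))))))) (M (nat_lit 492) (B (M (nat_lit 458) (B (L (nat_lit 430) ln14_13_1 ln14_13_1_ok) (L (nat_lit 494) ln14_15_3 ln14_15_3_ok))) (M (nat_lit 524) (B (L (nat_lit 395) ln11_12_4 ln11_12_4_ok) (M (nat_lit 556) (B (L (nat_lit 523) ln11_13_4 ln11_13_4_ok) (L (nat_lit 588) ln12_18_7 ln12_18_7_ok)))))))))))) (M (nat_lit 461) (B (L (nat_lit 366) ln13_15_6 ln13_15_6_ok) (M (nat_lit 525) (B (M (nat_lit 524) (B (L (nat_lit 492) ln13_12_5 ln13_12_5_ok) (L (nat_lit 556) ln13_13_5 ln13_13_5_ok))) (M (nat_lit 526) (B (L (nat_lit 494) ln13_12_4 ln13_12_4_ok) (L (nat_lit 558) ln13_13_4 ln13_13_4_ok)))))))))) (B c21_n4423 (B (M (nat_lit 395) (B (M (nat_lit 430) (B (L (nat_lit 394) ln14_13_3 ln14_13_3_ok) (M (nat_lit 396) (B (L (nat_lit 431) ln11_12_0 ln11_12_0_ok) (M (nat_lit 491) (B (L (nat_lit 364) ln11_15_6 ln11_15_6_ok) (L (nat_lit 523) ln11_16_6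 ln11_16_6_ok))))))) (B (M (nat_lit 394) (B (L (nat_lit 430) ln14_13_3 ln14_13_3_ok) (M (nat_lit 396) (B (L (nat_lit 393) ln9_12_0 ln9_12_0_ok) (M (nat_lit 362) (B (L (nat_lit 361) ln13_12_3 ln13_12_3_ok) (L (nat_lit 491) ln11_15_7 ln11_15_7_ok))))))) (B (M (nat_lit 396) (B (M (nat_lit 491) (B (L (nat_lit 364) ln11_15_6 ln11_15_6_ok) (L (nat_lit 523) ln11_16_6 ln11_16_6_ok))) (M (nat_lit 430) (B (L (nat_lit 431) ln11_12_0 ln11_12_0_ok) (M (nat_lit 366) (B (L (nat_lit 367) ln11_12_2 ln11_12_2_ok) (M (nat_lit 334) (B (L (nat_lit 302) ln14_9_5 ln14_9_5_ok) (L (nat_lit 461) ln14_10_5 ln14_10_5_ok))))))))) (B (M (nat_lit 491) (B (M (nat_lit 394) (B (L (nat_lit 362) ln11_15_7 ln11_15_7_ok) (L (nat_lit 430) ln14_13_3 ln14_13_3_ok))) (M (nat_lit 523) (B (M (nat_lit 522) (B (L (nat_lit 490) ln11_12_5 ln11_12_5_ok) (L (nat_lit 554) ln11_13_5 ln11_13_5_ok))) (M (nat_lit 524) (B (L (nat_lit 492) ln11_12_4 ln11_12_4_ok)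 (L (nat_lit 556) ln11_13_4 ln11_13_4_ok))))))) (B (M (nat_lit 396) (B (M (nat_lit 491) (B (L (nat_lit 364) ln11_15_6 ln11_15_6_ok) (L (nat_lit 523) ln11_16_6 ln11_16_6_ok))) (B (M (nat_lit 491) (B (L (nat_lit 523) ln11_16_6 ln11_16_6_ok) (M (nat_lit 362) (B (L (nat_lit 363) ln14_12_3 ln14_12_3_ok) (L (nat_lit 394) ln11_15_7 ln11_15_7_ok))))) (M (nat_lit 362) (B (L (nat_lit 363) ln14_12_3 ln14_12_3_ok) (M (nat_lit 394) (B (L (nat_lit 361) ln13_12_3 ln13_12_3_ok) (L (nat_lit 393) ln9_12_0 ln9_12_0_ok)))))))) (M (nat_lit 394) (B (L (nat_lit 430) ln14_13_3 ln14_13_3_ok) (M (nat_lit 396) (B (L (nat_lit 393) ln9_12_0 ln9_12_0_ok) (M (nat_lit 362) (B (L (nat_lit 361) ln13_12_3 ln13_12_3_ok) (L (nat_lit 363) ln14_12_3 ln14_12_3_ok))))))))))))) (M (nat_lit 430) (B (L (nat_lit 458) ln14_13_1 ln14_13_1_ok) (M (nat_lit 395) (B (L (nat_lit 394) ln14_13_3 ln14_13_3_ok) (M (nat_lit 366) (B (M (nat_lit 334) (B (L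 (nat_lit 302) ln14_9_5 ln14_9_5_ok) (L (nat_lit 461) ln14_10_5 ln14_10_5_ok))) (M (nat_lit 396) (B (L (nat_lit 367) ln11_12_2 ln11_12_2_ok) (L (nat_lit 431) ln11_12_0 ln11_12_0_ok)))))))))))))))))) (nat_lit 2426085983324056706413703132246167930008011893827479175585128450349290903032665278416293053327239138315268996379691814840132698112) (nat_lit 1266331656898562961235631786109596878853294196205398960364935023273691831973826646740917144894745585583955777504358053732491480642565412397916632638619316328373751562259671285760) (nat_lit 1266331656898562961235631786109596878853294196205398960364935023273691831973826646740917144894745585583955777504358053732491480642565412397916632638619316328373751562259671285760) (by decide +kernel)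
noncomputable def c21_n4481 : Cert := (M (nat_lit 427) (B (M (nat_lit 398) (B (L (nat_lit 426) ln10_13_2 ln10_13_2_ok) (M (nat_lit 399) (B (L (nat_lit 396) ln15_12_1 ln15_12_1_ok) (L (nat_lit 400) ln16_12_1 ln16_12_1_ok))))) (B (M (nat_lit 398) (B (L (nat_lit 426) ln10_13_2 ln10_13_2_ok) (M (nat_lit 399) (B (L (nat_lit 400) ln16_12_1 ln16_12_1_ok) (L (nat_lit 430) ln11_13_2 ln11_13_2_ok))))) (B (M (nat_lit 426) (B (M (nat_lit 425) (B (L (nat_lit 396) ln9_13_2 ln9_13_2_ok) (M (nat_lit 393) (B (L (nat_lit 392) ln12_13_3 ln12_13_3_ok) (L (nat_lit 394) ln13_13_3 ln13_13_3_ok))))) (B (M (nat_lit 425) (B (L (nat_lit 396) ln9_13_2 ln9_13_2_ok) (M (nat_lit 457) (B (L (nat_lit 456) ln12_13_1 ln12_13_1_ok) (L (nat_lit 458) ln13_13_1 ln13_13_1_ok))))) (B (M (nat_lit 425) (B (M (nat_lit 393) (B (L (nat_lit 392) ln12_13_3 ln12_13_3_ok) (L (nat_lit 394) ln13_13_3 ln13_13_3_ok))) (M (nat_lit 457) (B (L (nat_lit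 456) ln12_13_1 ln12_13_1_ok) (L (nat_lit 458) ln13_13_1 ln13_13_1_ok))))) (M (nat_lit 430) (B (M (nat_lit 394) (B (L (nat_lit 393) ln13_13_3 ln13_13_3_ok) (L (nat_lit 395) ln14_13_3 ln14_13_3_ok))) (M (nat_lit 458) (B (L (nat_lit 457) ln13_13_1 ln13_13_1_ok) (L (nat_lit 459) ln14_13_1 ln14_13_1_ok))))))))) (M (nat_lit 395) (B (M (nat_lit 394) (B (L (nat_lit 430) ln14_13_3 ln14_13_3_ok) (M (nat_lit 393) (B (L (nat_lit 392) ln8_12_0 ln8_12_0_ok) (L (nat_lit 396) ln9_12_0 ln9_12_0_ok))))) (B (M (nat_lit 430) (B (L (nat_lit 394) ln14_13_3 ln14_13_3_ok) (M (nat_lit 431) (B (L (nat_lit 396) ln15_13_3 ln15_13_3_ok) (M (nat_lit 399) (B (L (nat_lit 398) ln11_13_2 ln11_13_2_ok) (L (nat_lit 400) ln12_13_2 ln12_13_2_ok))))))) (B (M (nat_lit 363) (B (M (nat_lit 460) (B (L (nat_lit 331) ln11_10_4 ln11_10_4_ok) (M (nat_lit 492) (B (L (nat_lit 396) ln12_15_7 ln12_15_7_ok) (L (nat_lit 459) ln11_11_4 ln11_11_4_ok)))))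 (B (M (nat_lit 398) (B (M (nat_lit 396) (B (L (nat_lit 362) ln14_12_3 ln14_12_3_ok) (L (nat_lit 399) ln15_12_1 ln15_12_1_ok))) (B (M (nat_lit 399) (B (L (nat_lit 396) ln15_12_1 ln15_12_1_ok) (L (nat_lit 400) ln16_12_1 ln16_12_1_ok))) (B (M (nat_lit 399) (B (L (nat_lit 400) ln16_12_1 ln16_12_1_ok) (L (nat_lit 430) ln11_13_2 ln11_13_2_ok))) (M (nat_lit 459) (B (M (nat_lit 362) (B (L (nat_lit 330) ln11_14_7 ln11_14_7_ok) (L (nat_lit 396) ln14_12_3 ln14_12_3_ok))) (M (nat_lit 458) (B (L (nat_lit 490) ln11_11_5 ln11_11_5_ok) (L (nat_lit 430) ln14_13_1 ln14_13_1_ok))))))))) (B (M (nat_lit 460) (B (L (nat_lit 331) ln11_10_4 ln11_10_4_ok) (M (nat_lit 492) (B (L (nat_lit 459) ln11_11_4 ln11_11_4_ok) (L (nat_lit 524) ln12_16_7 ln12_16_7_ok))))) (M (nat_lit 460) (B (L (nat_lit 331) ln11_10_4 ln11_10_4_ok) (M (nat_lit 492) (B (L (nat_lit 396) ln12_15_7 ln12_15_7_ok) (L (nat_lit 524) ln12_16_7 ln12_16_7_ok)))))))))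 (B (M (nat_lit 430) (B (L (nat_lit 394) ln14_13_3 ln14_13_3_ok) (M (nat_lit 431) (B (M (nat_lit 399) (B (L (nat_lit 398) ln11_13_2 ln11_13_2_ok) (L (nat_lit 400) ln12_13_2 ln12_13_2_ok))) (M (nat_lit 459) (B (L (nat_lit 458) ln14_13_1 ln14_13_1_ok) (L (nat_lit 460) ln15_13_1 ln15_13_1_ok))))))) (M (nat_lit 363) (B (M (nat_lit 460) (B (L (nat_lit 331) ln11_10_4 ln11_10_4_ok) (M (nat_lit 492) (B (L (nat_lit 396) ln12_15_7 ln12_15_7_ok) (L (nat_lit 459) ln11_11_4 ln11_11_4_ok))))) (B (M (nat_lit 362) (B (M (nat_lit 330) (B (L (nat_lit 459) ln11_14_7 ln11_14_7_ok) (M (nat_lit 298) (B (L (nat_lit 266) ln10_8_4 ln10_8_4_ok) (L (nat_lit 394) ln10_9_4 ln10_9_4_ok))))) (B (M (nat_lit 396) (B (L (nat_lit 398) ln14_12_3 ln14_12_3_ok) (M (nat_lit 361) (B (L (nat_lit 360) ln8_11_0 ln8_11_0_ok) (L (nat_lit 394) ln13_12_3 ln13_12_3_ok))))) (M (nat_lit 396) (B (L (nat_lit 398) ln14_12_3 ln14_12_3_ok) (M (nat_lit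 361) (B (L (nat_lit 360) ln8_11_0 ln8_11_0_ok) (L (nat_lit 364) ln9_11_0 ln9_11_0_ok)))))))) (B (M (nat_lit 460) (B (L (nat_lit 331) ln11_10_4 ln11_10_4_ok) (M (nat_lit 492) (B (L (nat_lit 459) ln11_11_4 ln11_11_4_ok) (L (nat_lit 524) ln12_16_7 ln12_16_7_ok))))) (M (nat_lit 460) (B (L (nat_lit 331) ln11_10_4 ln11_10_4_ok) (M (nat_lit 492) (B (L (nat_lit 396) ln12_15_7 ln12_15_7_ok) (L (nat_lit 524) ln12_16_7 ln12_16_7_ok))))))))))))))))))
theorem c21_s4482 : Sem (nat_lit 1386334847383188664550070665778531748218595021979121511688892729411143073470393764272092352380775458208712834410189682411080515584) (nat_lit 7614394266794037445929417577456069537894845199348783620143119589325136812195168919147588975580501760323773290068804446664249024961508303366537012549496861178152365465922711965196473073664) (nat_lit 7614394266794037445929417577456069537894845199348783620143119589325136812195168919147588975580501760323773290068804446664249024961508303366537012549496861178152365465922711965196473073664)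 :=
  sem_of_chk (M (nat_lit 428) (B c21_n2216 (B c21_n2247 (B (M (nat_lit 427) (B (M (nat_lit 398) (B (L (nat_lit 426) ln10_13_2 ln10_13_2_ok) (M (nat_lit 399) (B (L (nat_lit 396) ln15_12_1 ln15_12_1_ok) (L (nat_lit 400) ln16_12_1 ln16_12_1_ok))))) (B (M (nat_lit 398) (B (L (nat_lit 426) ln10_13_2 ln10_13_2_ok) (M (nat_lit 399) (B (L (nat_lit 400) ln16_12_1 ln16_12_1_ok) (L (nat_lit 430) ln11_13_2 ln11_13_2_ok))))) (B (M (nat_lit 426) (B (M (nat_lit 425) (B (L (nat_lit 396) ln9_13_2 ln9_13_2_ok) (M (nat_lit 393) (B (L (nat_lit 392) ln12_13_3 ln12_13_3_ok) (L (nat_lit 394) ln13_13_3 ln13_13_3_ok))))) (B (M (nat_lit 425) (B (L (nat_lit 396) ln9_13_2 ln9_13_2_ok) (M (nat_lit 457) (B (L (nat_lit 456) ln12_13_1 ln12_13_1_ok) (L (nat_lit 458) ln13_13_1 ln13_13_1_ok))))) (B (M (nat_lit 425) (B (M (nat_lit 393) (B (L (nat_lit 392) ln12_13_3 ln12_13_3_ok) (L (nat_lit 394) ln13_13_3 ln13_13_3_ok))) (M (nat_lit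 457) (B (L (nat_lit 456) ln12_13_1 ln12_13_1_ok) (L (nat_lit 458) ln13_13_1 ln13_13_1_ok))))) (M (nat_lit 430) (B (M (nat_lit 394) (B (L (nat_lit 393) ln13_13_3 ln13_13_3_ok) (L (nat_lit 395) ln14_13_3 ln14_13_3_ok))) (M (nat_lit 458) (B (L (nat_lit 457) ln13_13_1 ln13_13_1_ok) (L (nat_lit 459) ln14_13_1 ln14_13_1_ok))))))))) (M (nat_lit 430) (B (M (nat_lit 395) (B (L (nat_lit 394) ln14_13_3 ln14_13_3_ok) (M (nat_lit 431) (B (L (nat_lit 396) ln15_13_3 ln15_13_3_ok) (M (nat_lit 459) (B (L (nat_lit 458) ln14_13_1 ln14_13_1_ok) (L (nat_lit 460) ln15_13_1 ln15_13_1_ok))))))) (B (M (nat_lit 431) (B (M (nat_lit 399) (B (L (nat_lit 398) ln11_13_2 ln11_13_2_ok) (L (nat_lit 400) ln12_13_2 ln12_13_2_ok))) (M (nat_lit 459) (B (L (nat_lit 458) ln14_13_1 ln14_13_1_ok) (L (nat_lit 460) ln15_13_1 ln15_13_1_ok))))) (B (M (nat_lit 396) (B (M (nat_lit 459) (B (L (nat_lit 458) ln14_13_1 ln14_13_1_ok) (M (nat_lit 364)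 (B (L (nat_lit 332) ln12_10_5 ln12_10_5_ok) (M (nat_lit 491) (B (L (nat_lit 460) ln12_11_5 ln12_11_5_ok) (L (nat_lit 523) ln11_16_6 ln11_16_6_ok))))))) (B (M (nat_lit 395) (B (L (nat_lit 394) ln10_12_0 ln10_12_0_ok) (M (nat_lit 459) (B (L (nat_lit 458) ln14_13_1 ln14_13_1_ok) (M (nat_lit 491) (B (L (nat_lit 364) ln11_15_6 ln11_15_6_ok) (L (nat_lit 523) ln11_16_6 ln11_16_6_ok))))))) (M (nat_lit 398) (B (L (nat_lit 399) ln15_12_1 ln15_12_1_ok) (M (nat_lit 366) (B (M (nat_lit 334) (B (L (nat_lit 302) ln14_9_5 ln14_9_5_ok) (L (nat_lit 461) ln14_10_5 ln14_10_5_ok))) (M (nat_lit 395) (B (L (nat_lit 367) ln11_12_2 ln11_12_2_ok) (L (nat_lit 394) ln10_12_0 ln10_12_0_ok)))))))))) (M (nat_lit 431) (B (M (nat_lit 395) (B (L (nat_lit 394) ln14_13_3 ln14_13_3_ok) (L (nat_lit 396) ln15_13_3 ln15_13_3_ok))) (M (nat_lit 399) (B (L (nat_lit 398) ln11_13_2 ln11_13_2_ok) (L (nat_lit 400) ln12_13_2 ln12_13_2_ok)))))))))))))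 (B (M (nat_lit 427) (B (M (nat_lit 398) (B (L (nat_lit 426) ln10_13_2 ln10_13_2_ok) (M (nat_lit 399) (B (L (nat_lit 400) ln16_12_1 ln16_12_1_ok) (L (nat_lit 430) ln11_13_2 ln11_13_2_ok))))) (B (M (nat_lit 426) (B (M (nat_lit 425) (B (L (nat_lit 396) ln9_13_2 ln9_13_2_ok) (M (nat_lit 393) (B (L (nat_lit 392) ln12_13_3 ln12_13_3_ok) (L (nat_lit 394) ln13_13_3 ln13_13_3_ok))))) (B (M (nat_lit 425) (B (L (nat_lit 396) ln9_13_2 ln9_13_2_ok) (M (nat_lit 457) (B (L (nat_lit 456) ln12_13_1 ln12_13_1_ok) (L (nat_lit 458) ln13_13_1 ln13_13_1_ok))))) (B (M (nat_lit 425) (B (M (nat_lit 393) (B (L (nat_lit 392) ln12_13_3 ln12_13_3_ok) (L (nat_lit 394) ln13_13_3 ln13_13_3_ok))) (M (nat_lit 457) (B (L (nat_lit 456) ln12_13_1 ln12_13_1_ok) (L (nat_lit 458) ln13_13_1 ln13_13_1_ok))))) (M (nat_lit 430) (B (M (nat_lit 394) (B (L (nat_lit 393) ln13_13_3 ln13_13_3_ok) (L (nat_lit 395) ln14_13_3 ln14_13_3_ok))) (M (nat_lit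 458) (B (L (nat_lit 457) ln13_13_1 ln13_13_1_ok) (L (nat_lit 459) ln14_13_1 ln14_13_1_ok))))))))) (B (M (nat_lit 430) (B (M (nat_lit 395) (B (L (nat_lit 394) ln14_13_3 ln14_13_3_ok) (M (nat_lit 431) (B (L (nat_lit 396) ln15_13_3 ln15_13_3_ok) (M (nat_lit 459) (B (L (nat_lit 458) ln14_13_1 ln14_13_1_ok) (L (nat_lit 460) ln15_13_1 ln15_13_1_ok))))))) (B (M (nat_lit 431) (B (M (nat_lit 399) (B (L (nat_lit 398) ln11_13_2 ln11_13_2_ok) (L (nat_lit 400) ln12_13_2 ln12_13_2_ok))) (M (nat_lit 459) (B (L (nat_lit 458) ln14_13_1 ln14_13_1_ok) (L (nat_lit 460) ln15_13_1 ln15_13_1_ok))))) (B (M (nat_lit 395) (B (L (nat_lit 394) ln14_13_3 ln14_13_3_ok) (M (nat_lit 396) (B (M (nat_lit 459) (B (L (nat_lit 458) ln14_13_1 ln14_13_1_ok) (M (nat_lit 491) (B (L (nat_lit 364) ln11_15_6 ln11_15_6_ok) (L (nat_lit 523) ln11_16_6 ln11_16_6_ok))))) (M (nat_lit 363) (B (M (nat_lit 331) (B (L (nat_lit 299) ln11_9_4 ln11_9_4_ok)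 (L (nat_lit 460) ln11_10_4 ln11_10_4_ok))) (M (nat_lit 398) (B (L (nat_lit 362) ln14_12_3 ln14_12_3_ok) (L (nat_lit 399) ln15_12_1 ln15_12_1_ok))))))))) (M (nat_lit 431) (B (M (nat_lit 395) (B (L (nat_lit 394) ln14_13_3 ln14_13_3_ok) (L (nat_lit 396) ln15_13_3 ln15_13_3_ok))) (M (nat_lit 399) (B (L (nat_lit 398) ln11_13_2 ln11_13_2_ok) (L (nat_lit 400) ln12_13_2 ln12_13_2_ok))))))))) (M (nat_lit 398) (B (L (nat_lit 426) ln10_13_2 ln10_13_2_ok) (M (nat_lit 399) (B (L (nat_lit 396) ln15_12_1 ln15_12_1_ok) (L (nat_lit 400) ln16_12_1 ln16_12_1_ok))))))))) (B c21_n2322 (B (M (nat_lit 427) (B (M (nat_lit 398) (B (L (nat_lit 426) ln10_13_2 ln10_13_2_ok) (M (nat_lit 399) (B (L (nat_lit 400) ln16_12_1 ln16_12_1_ok) (L (nat_lit 430) ln11_13_2 ln11_13_2_ok))))) (B (M (nat_lit 426) (B (M (nat_lit 425) (B (L (nat_lit 396) ln9_13_2 ln9_13_2_ok) (M (nat_lit 457) (B (L (nat_lit 456) ln12_13_1 ln12_13_1_ok) (L (nat_lit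 458) ln13_13_1 ln13_13_1_ok))))) (B (M (nat_lit 430) (B (M (nat_lit 394) (B (L (nat_lit 393) ln13_13_3 ln13_13_3_ok) (L (nat_lit 395) ln14_13_3 ln14_13_3_ok))) (M (nat_lit 458) (B (L (nat_lit 457) ln13_13_1 ln13_13_1_ok) (L (nat_lit 459) ln14_13_1 ln14_13_1_ok))))) (M (nat_lit 425) (B (L (nat_lit 396) ln9_13_2 ln9_13_2_ok) (M (nat_lit 461) (B (L (nat_lit 460) ln9_13_0 ln9_13_0_ok) (L (nat_lit 462) ln10_13_0 ln10_13_0_ok)))))))) (B (M (nat_lit 430) (B (M (nat_lit 395) (B (L (nat_lit 394) ln14_13_3 ln14_13_3_ok) (M (nat_lit 431) (B (L (nat_lit 396) ln15_13_3 ln15_13_3_ok) (M (nat_lit 459) (B (L (nat_lit 458) ln14_13_1 ln14_13_1_ok) (L (nat_lit 460) ln15_13_1 ln15_13_1_ok))))))) (B (M (nat_lit 431) (B (M (nat_lit 399) (B (L (nat_lit 398) ln11_13_2 ln11_13_2_ok) (L (nat_lit 400) ln12_13_2 ln12_13_2_ok))) (M (nat_lit 459) (B (L (nat_lit 458) ln14_13_1 ln14_13_1_ok) (L (nat_lit 460) ln15_13_1 ln15_13_1_ok)))))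 (B (M (nat_lit 396) (B (M (nat_lit 459) (B (L (nat_lit 458) ln14_13_1 ln14_13_1_ok) (M (nat_lit 364) (B (L (nat_lit 332) ln12_10_5 ln12_10_5_ok) (M (nat_lit 491) (B (L (nat_lit 460) ln12_11_5 ln12_11_5_ok) (L (nat_lit 523) ln11_16_6 ln11_16_6_ok))))))) (B (M (nat_lit 395) (B (L (nat_lit 394) ln10_12_0 ln10_12_0_ok) (M (nat_lit 459) (B (L (nat_lit 458) ln14_13_1 ln14_13_1_ok) (M (nat_lit 491) (B (L (nat_lit 364) ln11_15_6 ln11_15_6_ok) (L (nat_lit 523) ln11_16_6 ln11_16_6_ok))))))) (M (nat_lit 398) (B (L (nat_lit 399) ln15_12_1 ln15_12_1_ok) (M (nat_lit 366) (B (M (nat_lit 334) (B (L (nat_lit 302) ln14_9_5 ln14_9_5_ok) (L (nat_lit 461) ln14_10_5 ln14_10_5_ok))) (M (nat_lit 395) (B (L (nat_lit 367) ln11_12_2 ln11_12_2_ok) (L (nat_lit 394) ln10_12_0 ln10_12_0_ok)))))))))) (M (nat_lit 431) (B (M (nat_lit 395) (B (L (nat_lit 394) ln14_13_3 ln14_13_3_ok) (L (nat_lit 396) ln15_13_3 ln15_13_3_ok))) (M (nat_lit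 399) (B (L (nat_lit 398) ln11_13_2 ln11_13_2_ok) (L (nat_lit 400) ln12_13_2 ln12_13_2_ok))))))))) (M (nat_lit 398) (B (L (nat_lit 426) ln10_13_2 ln10_13_2_ok) (M (nat_lit 399) (B (L (nat_lit 396) ln15_12_1 ln15_12_1_ok) (L (nat_lit 400) ln16_12_1 ln16_12_1_ok))))))))) (B (M (nat_lit 427) (B (M (nat_lit 398) (B (L (nat_lit 426) ln10_13_2 ln10_13_2_ok) (M (nat_lit 399) (B (L (nat_lit 396) ln15_12_1 ln15_12_1_ok) (L (nat_lit 400) ln16_12_1 ln16_12_1_ok))))) (B (M (nat_lit 398) (B (L (nat_lit 426) ln10_13_2 ln10_13_2_ok) (M (nat_lit 399) (B (L (nat_lit 400) ln16_12_1 ln16_12_1_ok) (L (nat_lit 430) ln11_13_2 ln11_13_2_ok))))) (B (M (nat_lit 396) (B (M (nat_lit 426) (B (L (nat_lit 425) ln9_13_2 ln9_13_2_ok) (M (nat_lit 461) (B (L (nat_lit 462) ln10_13_0 ln10_13_0_ok) (M (nat_lit 364) (B (L (nat_lit 332) ln12_10_4 ln12_10_4_ok) (L (nat_lit 493) ln13_15_7 ln13_15_7_ok))))))) (B (M (nat_lit 426) (B (L (nat_lit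 425) ln9_13_2 ln9_13_2_ok) (M (nat_lit 430) (B (M (nat_lit 395) (B (L (nat_lit 394) ln10_12_0 ln10_12_0_ok) (L (nat_lit 431) ln15_13_3 ln15_13_3_ok))) (M (nat_lit 458) (B (L (nat_lit 457) ln13_13_1 ln13_13_1_ok) (L (nat_lit 459) ln14_13_1 ln14_13_1_ok))))))) (M (nat_lit 459) (B (M (nat_lit 491) (B (L (nat_lit 523) ln11_16_6 ln11_16_6_ok) (M (nat_lit 364) (B (L (nat_lit 395) ln11_15_6 ln11_15_6_ok) (L (nat_lit 460) ln12_11_5 ln12_11_5_ok))))) (B (M (nat_lit 430) (B (L (nat_lit 458) ln14_13_1 ln14_13_1_ok) (M (nat_lit 395) (B (L (nat_lit 394) ln10_12_0 ln10_12_0_ok) (L (nat_lit 431) ln15_13_3 ln15_13_3_ok))))) (M (nat_lit 364) (B (L (nat_lit 332) ln12_10_5 ln12_10_5_ok) (M (nat_lit 491) (B (L (nat_lit 460) ln12_11_5 ln12_11_5_ok) (L (nat_lit 523) ln11_16_6 ln11_16_6_ok))))))))))) (M (nat_lit 430) (B (M (nat_lit 395) (B (L (nat_lit 394) ln14_13_3 ln14_13_3_ok) (M (nat_lit 431) (B (L (nat_lit 396) ln15_13_3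 ln15_13_3_ok) (M (nat_lit 459) (B (L (nat_lit 458) ln14_13_1 ln14_13_1_ok) (L (nat_lit 460) ln15_13_1 ln15_13_1_ok))))))) (B (M (nat_lit 431) (B (M (nat_lit 399) (B (L (nat_lit 398) ln11_13_2 ln11_13_2_ok) (L (nat_lit 400) ln12_13_2 ln12_13_2_ok))) (M (nat_lit 459) (B (L (nat_lit 458) ln14_13_1 ln14_13_1_ok) (L (nat_lit 460) ln15_13_1 ln15_13_1_ok))))) (B (M (nat_lit 396) (B (M (nat_lit 395) (B (L (nat_lit 394) ln10_12_0 ln10_12_0_ok) (M (nat_lit 459) (B (L (nat_lit 458) ln14_13_1 ln14_13_1_ok) (M (nat_lit 491) (B (L (nat_lit 364) ln11_15_6 ln11_15_6_ok) (L (nat_lit 523) ln11_16_6 ln11_16_6_ok))))))) (B (M (nat_lit 395) (B (L (nat_lit 394) ln10_12_0 ln10_12_0_ok) (M (nat_lit 363) (B (M (nat_lit 331) (B (L (nat_lit 299) ln11_9_4 ln11_9_4_ok) (L (nat_lit 460) ln11_10_4 ln11_10_4_ok))) (M (nat_lit 398) (B (L (nat_lit 362) ln14_12_3 ln14_12_3_ok) (L (nat_lit 399) ln15_12_1 ln15_12_1_ok))))))) (M (nat_lit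 459) (B (L (nat_lit 458) ln14_13_1 ln14_13_1_ok) (M (nat_lit 364) (B (L (nat_lit 332) ln12_10_5 ln12_10_5_ok) (M (nat_lit 491) (B (L (nat_lit 460) ln12_11_5 ln12_11_5_ok) (L (nat_lit 523) ln11_16_6 ln11_16_6_ok)))))))))) (M (nat_lit 431) (B (M (nat_lit 395) (B (L (nat_lit 394) ln14_13_3 ln14_13_3_ok) (L (nat_lit 396) ln15_13_3 ln15_13_3_ok))) (M (nat_lit 399) (B (L (nat_lit 398) ln11_13_2 ln11_13_2_ok) (L (nat_lit 400) ln12_13_2 ln12_13_2_ok))))))))))))) (B (K (nat_lit 2079502270913392379444674211814302674077704290823075655481512624564798400421800170032085953906810352733060637150540575368324055040) (nat_lit 192214334528410459259896055487420542462652411002248288833386992886020242780535232369039464134482663470856324184938745248143713269620802177937585633693882384384) (nat_lit 192214334528410459259896055487420542462652411002248288833386992886020242780535232369039464134482663470856324184938745248143713269620802177937585633693882384384)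 c21_s2494) (B c21_n2695 (B c21_n3186 (B (K (nat_lit 2079502270913392379444674211814302674077704290823075655481512624564798400421800170032085953906810352733060637150540575368324055040) (nat_lit 205943929851868349205941645270777110547993035691479153430383506269759281349006955373130605602252973775095759241841736349884826916290374483958053320848767451136) (nat_lit 205943929851868349205941645270777110547993035691479153430383506269759281349006955373130605602252973775095759241841736349884826916290374483958053320848767451136) c21_s3468) (B (K (nat_lit 2079502270913392379444674211814302674077704290823075655481512624564798400421800170032085953906810352733060637150540575368324055040) (nat_lit 54918381303421571340242693661471867266934121827168762915049311151409453260129594557890678365308090797192845970211855100796896369000356909051446501518820245504) (nat_lit 54918381303421571340242693661471867266934121827168762915049311151409453260129594557890678365308090797192845970211855100796896369000356909051446501518820245504)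 c21_s3472) (B (K (nat_lit 2079502270913392379444674211814302674077704290823075655481512624564798400421800170032085953906810352733060637150540575368324055040) (nat_lit 192214334528410459247987529828301381384128984821642181231653478034576171263093346342252897770911569839241087547813219594493709581617902979484701328368629448704) (nat_lit 192214334528410459247987529828301381384128984821642181231653478034576171263093346342252897770911569839241087547813219594493709581617902979484701328368629448704) c21_s3556) (B (K (nat_lit 2079502270913392379444674211814302674077704290823075655481512624564798400421800170032085953906810352733060637150540575368324055040) (nat_lit 411887859810825160658106036708528355031463201333242546728289706696845579446181334319939032221643864886541537825181912449744437978257308957300160809904174530560) (nat_lit 411887859810825160658106036708528355031463201333242546728289706696845579446181334319939032221643864886541537825181912449744437978257308957300160809904174530560)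 c21_s3726) (B (K (nat_lit 2079502270913392379444674211814302674077704290823075655481512624564798400421800170032085953906810352733060637150540575368324055040) (nat_lit 205943929851868349205755574537948747329675555153728885102890674185564781226210278964025876406973289066268589884711594625290713459639877348693895134538874486784) (nat_lit 205943929851868349205755574537948747329675555153728885102890674185564781226210278964025876406973289066268589884711594625290713459639877348693895134538874486784) c21_s3886) (B (K (nat_lit 2079502270913392379444674211814302674077704290823075655481512624564798400421800170032085953906810352733060637150540575368324055040) (nat_lit 54918381325798265292952475122353586472826219963648911346721048235956404491544660105461080053676539707853123684623805020632639585056087120265410682370471755776) (nat_lit 54918381325798265292952475122353586472826219963648911346721048235956404491544660105461080053676539707853123684623805020632639585056087120265410682370471755776)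 c21_s3941) (B c21_n4181 (B (M (nat_lit 427) (B (M (nat_lit 398) (B (L (nat_lit 426) ln10_13_2 ln10_13_2_ok) (M (nat_lit 399) (B (L (nat_lit 400) ln16_12_1 ln16_12_1_ok) (L (nat_lit 430) ln11_13_2 ln11_13_2_ok))))) (B (M (nat_lit 426) (B (M (nat_lit 425) (B (L (nat_lit 396) ln9_13_2 ln9_13_2_ok) (M (nat_lit 393) (B (L (nat_lit 392) ln12_13_3 ln12_13_3_ok) (L (nat_lit 394) ln13_13_3 ln13_13_3_ok))))) (B (M (nat_lit 425) (B (L (nat_lit 396) ln9_13_2 ln9_13_2_ok) (M (nat_lit 457) (B (L (nat_lit 456) ln12_13_1 ln12_13_1_ok) (L (nat_lit 458) ln13_13_1 ln13_13_1_ok))))) (B (M (nat_lit 425) (B (M (nat_lit 393) (B (L (nat_lit 392) ln12_13_3 ln12_13_3_ok) (L (nat_lit 394) ln13_13_3 ln13_13_3_ok))) (M (nat_lit 457) (B (L (nat_lit 456) ln12_13_1 ln12_13_1_ok) (L (nat_lit 458) ln13_13_1 ln13_13_1_ok))))) (M (nat_lit 430) (B (M (nat_lit 394) (B (L (nat_lit 393) ln13_13_3 ln13_13_3_ok) (L (nat_lit 395) ln14_13_3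 ln14_13_3_ok))) (M (nat_lit 458) (B (L (nat_lit 457) ln13_13_1 ln13_13_1_ok) (L (nat_lit 459) ln14_13_1 ln14_13_1_ok))))))))) (B (M (nat_lit 398) (B (M (nat_lit 399) (B (L (nat_lit 396) ln15_12_1 ln15_12_1_ok) (L (nat_lit 400) ln16_12_1 ln16_12_1_ok))) (B (M (nat_lit 399) (B (L (nat_lit 400) ln16_12_1 ln16_12_1_ok) (L (nat_lit 430) ln11_13_2 ln11_13_2_ok))) (K (nat_lit 2426085983324056706413703132246167930008011893827479175585128450349290903032665278416293053327239138315268996379691814840132698112) (nat_lit 1266331656898562961235631786109596878853294196205398960364935023273691831973826646740917144894745585583955777504358053732491480642565412397916632638619316328373751562259671285760) (nat_lit 1266331656898562961235631786109596878853294196205398960364935023273691831973826646740917144894745585583955777504358053732491480642565412397916632638619316328373751562259671285760) c21_s4465)))) (M (nat_lit 398)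 (B (L (nat_lit 426) ln10_13_2 ln10_13_2_ok) (M (nat_lit 399) (B (L (nat_lit 396) ln15_12_1 ln15_12_1_ok) (L (nat_lit 400) ln16_12_1 ln16_12_1_ok))))))))) c21_n4481))))))))))))))))))) (nat_lit 1386334847383188664550070665778531748218595021979121511688892729411143073470393764272092352380775458208712834410189682411080515584) (nat_lit 7614394266794037445929417577456069537894845199348783620143119589325136812195168919147588975580501760323773290068804446664249024961508303366537012549496861178152365465922711965196473073664) (nat_lit 7614394266794037445929417577456069537894845199348783620143119589325136812195168919147588975580501760323773290068804446664249024961508303366537012549496861178152365465922711965196473073664) (by decide +kernel)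
noncomputable def c21_n4561 : Cert := (M (nat_lit 364) (B (M (nat_lit 332) (B (L (nat_lit 300) ln12_9_4 ln12_9_4_ok) (M (nat_lit 461) (B (L (nat_lit 428) ln12_10_4 ln12_10_4_ok) (L (nat_lit 493) ln13_15_7 ln13_15_7_ok))))) (B (M (nat_lit 461) (B (L (nat_lit 493) ln13_15_7 ln13_15_7_ok) (M (nat_lit 332) (B (L (nat_lit 365) ln13_14_7 ln13_14_7_ok) (L (nat_lit 428) ln12_10_4 ln12_10_4_ok))))) (B (M (nat_lit 395) (B (M (nat_lit 394) (B (L (nat_lit 430) ln10_12_0 ln10_12_0_ok) (M (nat_lit 393) (B (L (nat_lit 365) ln9_12_2 ln9_12_2_ok) (L (nat_lit 428) ln9_12_0 ln9_12_0_ok))))) (B (M (nat_lit 430) (B (L (nat_lit 394) ln10_12_0 ln10_12_0_ok) (M (nat_lit 431) (B (L (nat_lit 398) ln11_12_0 ln11_12_0_ok) (L (nat_lit 428) ln15_13_3 ln15_13_3_ok))))) (B (M (nat_lit 427) (B (M (nat_lit 398) (B (L (nat_lit 426) ln14_12_1 ln14_12_1_ok) (M (nat_lit 363) (B (L (nat_lit 362) ln14_12_3 ln14_12_3_ok) (L (nat_lit 399)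 ln15_12_3 ln15_12_3_ok))))) (B (M (nat_lit 398) (B (L (nat_lit 426) ln14_12_1 ln14_12_1_ok) (M (nat_lit 399) (B (L (nat_lit 363) ln15_12_3 ln15_12_3_ok) (L (nat_lit 428) ln15_12_1 ln15_12_1_ok))))) (B (M (nat_lit 426) (B (L (nat_lit 398) ln14_12_1 ln14_12_1_ok) (M (nat_lit 428) (B (L (nat_lit 425) ln9_13_2 ln9_13_2_ok) (M (nat_lit 461) (B (L (nat_lit 493) ln13_15_7 ln13_15_7_ok) (L (nat_lit 462) ln10_13_0 ln10_13_0_ok))))))) (B (M (nat_lit 428) (B (M (nat_lit 426) (B (L (nat_lit 425) ln9_13_2 ln9_13_2_ok) (M (nat_lit 461) (B (L (nat_lit 493) ln13_15_7 ln13_15_7_ok) (L (nat_lit 462) ln10_13_0 ln10_13_0_ok))))) (M (nat_lit 430) (B (L (nat_lit 431) ln15_13_3 ln15_13_3_ok) (M (nat_lit 459) (B (L (nat_lit 491) ln11_15_6 ln11_15_6_ok) (L (nat_lit 458) ln14_13_1 ln14_13_1_ok))))))) (M (nat_lit 428) (B (M (nat_lit 430) (B (L (nat_lit 431) ln15_13_3 ln15_13_3_ok) (M (nat_lit 459) (B (L (nat_lit 491) ln11_15_6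 ln11_15_6_ok) (L (nat_lit 458) ln14_13_1 ln14_13_1_ok))))) (M (nat_lit 363) (B (M (nat_lit 331) (B (L (nat_lit 299) ln11_9_4 ln11_9_4_ok) (L (nat_lit 460) ln12_14_7 ln12_14_7_ok))) (M (nat_lit 398) (B (L (nat_lit 362) ln14_12_3 ln14_12_3_ok) (L (nat_lit 399) ln15_12_3 ln15_12_3_ok)))))))))))) (B (M (nat_lit 398) (B (M (nat_lit 363) (B (L (nat_lit 362) ln14_12_3 ln14_12_3_ok) (L (nat_lit 399) ln15_12_3 ln15_12_3_ok))) (M (nat_lit 430) (B (L (nat_lit 394) ln10_12_0 ln10_12_0_ok) (L (nat_lit 431) ln11_12_0 ln11_12_0_ok))))) (M (nat_lit 394) (B (M (nat_lit 393) (B (L (nat_lit 365) ln9_12_2 ln9_12_2_ok) (L (nat_lit 428) ln9_12_0 ln9_12_0_ok))) (M (nat_lit 398) (B (M (nat_lit 362) (B (L (nat_lit 361) ln13_12_3 ln13_12_3_ok) (L (nat_lit 363) ln14_12_3 ln14_12_3_ok))) (M (nat_lit 426) (B (L (nat_lit 425) ln13_12_1 ln13_12_1_ok) (L (nat_lit 427) ln14_12_1 ln14_12_1_ok)))))))))))) (B (M (nat_lit 461) (B (L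 (nat_lit 493) ln13_15_7 ln13_15_7_ok) (M (nat_lit 332) (B (L (nat_lit 300) ln12_9_4 ln12_9_4_ok) (L (nat_lit 365) ln13_14_7 ln13_14_7_ok))))) (M (nat_lit 332) (B (L (nat_lit 300) ln12_9_4 ln12_9_4_ok) (M (nat_lit 428) (B (M (nat_lit 427) (B (L (nat_lit 459) ln12_10_5 ln12_10_5_ok) (M (nat_lit 398) (B (L (nat_lit 399) ln15_12_1 ln15_12_1_ok) (L (nat_lit 426) ln10_13_2 ln10_13_2_ok))))) (M (nat_lit 460) (B (M (nat_lit 331) (B (L (nat_lit 299) ln12_13_7 ln12_13_7_ok) (L (nat_lit 363) ln12_14_7 ln12_14_7_ok))) (M (nat_lit 492) (B (L (nat_lit 365) ln12_15_6 ln12_15_6_ok) (L (nat_lit 524) ln12_16_6 ln12_16_6_ok))))))))))))))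
noncomputable def c21_n4601 : Cert := (M (nat_lit 364) (B (M (nat_lit 461) (B (L (nat_lit 493) ln13_15_7 ln13_15_7_ok) (M (nat_lit 332) (B (L (nat_lit 300) ln12_9_4 ln12_9_4_ok) (L (nat_lit 365) ln13_14_7 ln13_14_7_ok))))) (B (M (nat_lit 461) (B (L (nat_lit 493) ln13_15_7 ln13_15_7_ok) (M (nat_lit 332) (B (L (nat_lit 365) ln13_14_7 ln13_14_7_ok) (L (nat_lit 428) ln12_10_4 ln12_10_4_ok))))) (B (M (nat_lit 395) (B (M (nat_lit 394) (B (L (nat_lit 430) ln10_12_0 ln10_12_0_ok) (M (nat_lit 393) (B (L (nat_lit 365) ln9_12_2 ln9_12_2_ok) (L (nat_lit 428) ln9_12_0 ln9_12_0_ok))))) (B (M (nat_lit 430) (B (L (nat_lit 394) ln10_12_0 ln10_12_0_ok) (M (nat_lit 431) (B (L (nat_lit 398) ln11_12_0 ln11_12_0_ok) (L (nat_lit 428) ln15_13_3 ln15_13_3_ok))))) (B (M (nat_lit 427) (B (M (nat_lit 398) (B (L (nat_lit 426) ln14_12_1 ln14_12_1_ok) (M (nat_lit 363) (B (L (nat_lit 362) ln14_12_3 ln14_12_3_ok) (L (nat_lit 399)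 ln15_12_3 ln15_12_3_ok))))) (B (M (nat_lit 398) (B (L (nat_lit 426) ln14_12_1 ln14_12_1_ok) (M (nat_lit 399) (B (L (nat_lit 363) ln15_12_3 ln15_12_3_ok) (L (nat_lit 428) ln15_12_1 ln15_12_1_ok))))) (B (M (nat_lit 426) (B (L (nat_lit 398) ln14_12_1 ln14_12_1_ok) (M (nat_lit 428) (B (L (nat_lit 425) ln9_13_2 ln9_13_2_ok) (M (nat_lit 461) (B (L (nat_lit 493) ln13_15_7 ln13_15_7_ok) (L (nat_lit 462) ln10_13_0 ln10_13_0_ok))))))) (B (M (nat_lit 428) (B (M (nat_lit 426) (B (L (nat_lit 425) ln9_13_2 ln9_13_2_ok) (M (nat_lit 461) (B (L (nat_lit 493) ln13_15_7 ln13_15_7_ok) (L (nat_lit 462) ln10_13_0 ln10_13_0_ok))))) (M (nat_lit 430) (B (L (nat_lit 431) ln15_13_3 ln15_13_3_ok) (M (nat_lit 459) (B (L (nat_lit 491) ln11_15_6 ln11_15_6_ok) (L (nat_lit 458) ln14_13_1 ln14_13_1_ok))))))) (M (nat_lit 428) (B (M (nat_lit 430) (B (L (nat_lit 431) ln15_13_3 ln15_13_3_ok) (M (nat_lit 459) (B (L (nat_lit 491) ln11_15_6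 ln11_15_6_ok) (L (nat_lit 458) ln14_13_1 ln14_13_1_ok))))) (M (nat_lit 363) (B (M (nat_lit 362) (B (L (nat_lit 361) ln9_11_0 ln9_11_0_ok) (L (nat_lit 398) ln14_12_3 ln14_12_3_ok))) (M (nat_lit 460) (B (L (nat_lit 331) ln12_14_7 ln12_14_7_ok) (L (nat_lit 492) ln12_15_7 ln12_15_7_ok)))))))))))) (B (M (nat_lit 430) (B (L (nat_lit 394) ln10_12_0 ln10_12_0_ok) (M (nat_lit 431) (B (L (nat_lit 398) ln11_12_0 ln11_12_0_ok) (L (nat_lit 432) ln16_13_3 ln16_13_3_ok))))) (M (nat_lit 398) (B (M (nat_lit 363) (B (L (nat_lit 362) ln14_12_3 ln14_12_3_ok) (L (nat_lit 399) ln15_12_3 ln15_12_3_ok))) (B (M (nat_lit 427) (B (L (nat_lit 426) ln14_12_1 ln14_12_1_ok) (M (nat_lit 399) (B (L (nat_lit 363) ln15_12_3 ln15_12_3_ok) (L (nat_lit 428) ln15_12_1 ln15_12_1_ok))))) (M (nat_lit 394) (B (M (nat_lit 393) (B (L (nat_lit 365) ln9_12_2 ln9_12_2_ok) (L (nat_lit 428) ln9_12_0 ln9_12_0_ok))) (M (nat_lit 426) (B (L (nat_lit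 425) ln13_12_1 ln13_12_1_ok) (L (nat_lit 427) ln14_12_1 ln14_12_1_ok))))))))))))) (B (M (nat_lit 332) (B (L (nat_lit 300) ln12_9_4 ln12_9_4_ok) (M (nat_lit 461) (B (L (nat_lit 428) ln12_10_4 ln12_10_4_ok) (L (nat_lit 493) ln13_15_7 ln13_15_7_ok))))) (M (nat_lit 428) (B (M (nat_lit 427) (B (M (nat_lit 332) (B (L (nat_lit 300) ln12_9_4 ln12_9_4_ok) (L (nat_lit 459) ln12_10_5 ln12_10_5_ok))) (M (nat_lit 398) (B (L (nat_lit 399) ln15_12_1 ln15_12_1_ok) (L (nat_lit 426) ln10_13_2 ln10_13_2_ok))))) (B (M (nat_lit 395) (B (M (nat_lit 394) (B (L (nat_lit 393) ln9_12_0 ln9_12_0_ok) (L (nat_lit 430) ln10_12_0 ln10_12_0_ok))) (M (nat_lit 363) (B (M (nat_lit 362) (B (L (nat_lit 361) ln9_11_0 ln9_11_0_ok) (L (nat_lit 398) ln14_12_3 ln14_12_3_ok))) (M (nat_lit 460) (B (L (nat_lit 331) ln12_14_7 ln12_14_7_ok) (L (nat_lit 492) ln12_15_7 ln12_15_7_ok))))))) (M (nat_lit 460) (B (M (nat_lit 365) (B (L (nat_lit 333)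 ln12_14_6 ln12_14_6_ok) (L (nat_lit 492) ln12_15_6 ln12_15_6_ok))) (B (M (nat_lit 492) (B (L (nat_lit 365) ln12_15_6 ln12_15_6_ok) (L (nat_lit 524) ln12_16_6 ln12_16_6_ok))) (B (M (nat_lit 363) (B (L (nat_lit 331) ln12_14_7 ln12_14_7_ok) (M (nat_lit 492) (B (L (nat_lit 395) ln12_15_7 ln12_15_7_ok) (L (nat_lit 524) ln12_16_6 ln12_16_6_ok))))) (M (nat_lit 333) (B (L (nat_lit 365) ln12_14_6 ln12_14_6_ok) (M (nat_lit 332) (B (L (nat_lit 300) ln12_9_4 ln12_9_4_ok) (L (nat_lit 301) ln12_13_6 ln12_13_6_ok)))))))))))))))))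
theorem c21_s4625 : Sem (nat_lit 1386334847544579281930502452632026696468783264124728123740719198963059283254184240648144927045128292788721448874933630659377233920) (nat_lit 384428669063214259528138635997097480934035165089025713815672510596410306501494482438216404198083035091703281957596188975635484075995307998962690476914988023808) (nat_lit 384428669063214259528138635997097480934035165089025713815672510596410306501494482438216404198083035091703281957596188975635484075995307998962690476914988023808) :=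
  sem_of_chk (M (nat_lit 428) (B (M (nat_lit 395) (B (M (nat_lit 430) (B (L (nat_lit 394) ln10_12_0 ln10_12_0_ok) (L (nat_lit 431) ln15_13_3 ln15_13_3_ok))) (M (nat_lit 364) (B (M (nat_lit 461) (B (L (nat_lit 332) ln12_10_4 ln12_10_4_ok) (L (nat_lit 493) ln13_15_7 ln13_15_7_ok))) (M (nat_lit 363) (B (M (nat_lit 331) (B (L (nat_lit 299) ln11_9_4 ln11_9_4_ok) (L (nat_lit 460) ln12_14_7 ln12_14_7_ok))) (M (nat_lit 398) (B (L (nat_lit 362) ln14_12_3 ln14_12_3_ok) (L (nat_lit 399) ln15_12_3 ln15_12_3_ok))))))))) (B (M (nat_lit 395) (B (M (nat_lit 394) (B (L (nat_lit 393) ln9_12_0 ln9_12_0_ok) (L (nat_lit 430) ln10_12_0 ln10_12_0_ok))) (B (M (nat_lit 430) (B (L (nat_lit 394) ln10_12_0 ln10_12_0_ok) (L (nat_lit 431) ln15_13_3 ln15_13_3_ok))) (M (nat_lit 364) (B (M (nat_lit 461) (B (L (nat_lit 332) ln12_10_4 ln12_10_4_ok) (L (nat_lit 493) ln13_15_7 ln13_15_7_ok))) (M (nat_lit 363) (B (M (nat_lit 362) (B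 (L (nat_lit 361) ln9_11_0 ln9_11_0_ok) (L (nat_lit 398) ln14_12_3 ln14_12_3_ok))) (M (nat_lit 460) (B (L (nat_lit 331) ln12_14_7 ln12_14_7_ok) (L (nat_lit 492) ln12_15_7 ln12_15_7_ok)))))))))) (B (M (nat_lit 427) (B (M (nat_lit 398) (B (L (nat_lit 399) ln15_12_1 ln15_12_1_ok) (L (nat_lit 426) ln10_13_2 ln10_13_2_ok))) (B (M (nat_lit 461) (B (M (nat_lit 493) (B (L (nat_lit 364) ln13_15_7 ln13_15_7_ok) (L (nat_lit 525) ln13_16_7 ln13_16_7_ok))) (M (nat_lit 426) (B (L (nat_lit 425) ln9_13_2 ln9_13_2_ok) (L (nat_lit 462) ln10_13_0 ln10_13_0_ok))))) (M (nat_lit 460) (B (M (nat_lit 492) (B (L (nat_lit 365) ln12_15_6 ln12_15_6_ok) (L (nat_lit 524) ln12_16_6 ln12_16_6_ok))) (M (nat_lit 459) (B (M (nat_lit 364) (B (L (nat_lit 332) ln12_10_5 ln12_10_5_ok) (L (nat_lit 491) ln12_11_5 ln12_11_5_ok))) (M (nat_lit 430) (B (L (nat_lit 458) ln14_13_1 ln14_13_1_ok) (L (nat_lit 431) ln15_13_1 ln15_13_1_ok))))))))))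 (B (M (nat_lit 395) (B (M (nat_lit 394) (B (L (nat_lit 393) ln9_12_0 ln9_12_0_ok) (L (nat_lit 430) ln10_12_0 ln10_12_0_ok))) (B (M (nat_lit 430) (B (L (nat_lit 394) ln10_12_0 ln10_12_0_ok) (L (nat_lit 431) ln15_13_3 ln15_13_3_ok))) (M (nat_lit 363) (B (M (nat_lit 460) (B (L (nat_lit 492) ln12_15_7 ln12_15_7_ok) (M (nat_lit 331) (B (L (nat_lit 299) ln11_9_4 ln11_9_4_ok) (L (nat_lit 427) ln11_10_4 ln11_10_4_ok))))) (B (M (nat_lit 460) (B (L (nat_lit 492) ln12_15_7 ln12_15_7_ok) (M (nat_lit 331) (B (L (nat_lit 364) ln12_14_7 ln12_14_7_ok) (L (nat_lit 427) ln11_10_4 ln11_10_4_ok))))) (B (M (nat_lit 398) (B (L (nat_lit 362) ln14_12_3 ln14_12_3_ok) (M (nat_lit 399) (B (L (nat_lit 364) ln15_12_3 ln15_12_3_ok) (L (nat_lit 427) ln15_12_1 ln15_12_1_ok))))) (M (nat_lit 331) (B (L (nat_lit 299) ln11_9_4 ln11_9_4_ok) (M (nat_lit 460) (B (L (nat_lit 364) ln12_14_7 ln12_14_7_ok) (L (nat_lit 492) ln12_15_7 ln12_15_7_ok))))))))))))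 (B (M (nat_lit 395) (B (M (nat_lit 394) (B (L (nat_lit 393) ln9_12_0 ln9_12_0_ok) (L (nat_lit 430) ln10_12_0 ln10_12_0_ok))) (B (M (nat_lit 430) (B (L (nat_lit 394) ln10_12_0 ln10_12_0_ok) (L (nat_lit 431) ln15_13_3 ln15_13_3_ok))) (B (M (nat_lit 427) (B (M (nat_lit 398) (B (L (nat_lit 426) ln14_12_1 ln14_12_1_ok) (L (nat_lit 399) ln15_12_1 ln15_12_1_ok))) (B (M (nat_lit 458) (B (M (nat_lit 426) (B (L (nat_lit 425) ln9_13_2 ln9_13_2_ok) (L (nat_lit 457) ln13_13_1 ln13_13_1_ok))) (M (nat_lit 430) (B (L (nat_lit 431) ln15_13_3 ln15_13_3_ok) (L (nat_lit 459) ln14_13_1 ln14_13_1_ok))))) (M (nat_lit 363) (B (M (nat_lit 331) (B (L (nat_lit 299) ln11_9_4 ln11_9_4_ok) (L (nat_lit 460) ln11_10_4 ln11_10_4_ok))) (M (nat_lit 398) (B (L (nat_lit 362) ln14_12_3 ln14_12_3_ok) (L (nat_lit 399) ln15_12_1 ln15_12_1_ok)))))))) (M (nat_lit 398) (B (M (nat_lit 399) (B (L (nat_lit 427) ln15_12_1 ln15_12_1_ok) (L (nat_lit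 400) ln16_12_1 ln16_12_1_ok))) (M (nat_lit 362) (B (L (nat_lit 363) ln14_12_3 ln14_12_3_ok) (M (nat_lit 394) (B (L (nat_lit 361) ln13_12_3 ln13_12_3_ok) (L (nat_lit 393) ln9_12_0 ln9_12_0_ok))))))))))) (B (M (nat_lit 461) (B (M (nat_lit 364) (B (L (nat_lit 332) ln12_10_4 ln12_10_4_ok) (L (nat_lit 493) ln13_15_7 ln13_15_7_ok))) (B (M (nat_lit 493) (B (L (nat_lit 364) ln13_15_7 ln13_15_7_ok) (L (nat_lit 525) ln13_16_7 ln13_16_7_ok))) (B (M (nat_lit 493) (B (L (nat_lit 525) ln13_16_7 ln13_16_7_ok) (M (nat_lit 365) (B (M (nat_lit 492) (B (L (nat_lit 460) ln12_15_6 ln12_15_6_ok) (L (nat_lit 524) ln13_12_5 ln13_12_5_ok))) (M (nat_lit 494) (B (L (nat_lit 462) ln13_11_4 ln13_11_4_ok) (L (nat_lit 526) ln13_12_4 ln13_12_4_ok))))))) (M (nat_lit 460) (B (M (nat_lit 365) (B (L (nat_lit 333) ln13_10_5 ln13_10_5_ok) (L (nat_lit 492) ln12_15_6 ln12_15_6_ok))) (B (M (nat_lit 492) (B (L (nat_lit 365) ln12_15_6 ln12_15_6_ok)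 (L (nat_lit 524) ln12_16_6 ln12_16_6_ok))) (M (nat_lit 459) (B (M (nat_lit 364) (B (L (nat_lit 332) ln12_10_4 ln12_10_4_ok) (L (nat_lit 491) ln12_11_5 ln12_11_5_ok))) (M (nat_lit 458) (B (L (nat_lit 457) ln9_14_2 ln9_14_2_ok) (L (nat_lit 430) ln10_14_2 ln10_14_2_ok)))))))))))) (B (M (nat_lit 364) (B (M (nat_lit 461) (B (L (nat_lit 332) ln12_10_4 ln12_10_4_ok) (L (nat_lit 493) ln13_15_7 ln13_15_7_ok))) (M (nat_lit 363) (B (M (nat_lit 460) (B (L (nat_lit 331) ln12_14_7 ln12_14_7_ok) (M (nat_lit 492) (B (L (nat_lit 395) ln12_15_7 ln12_15_7_ok) (L (nat_lit 524) ln12_16_6 ln12_16_6_ok))))) (M (nat_lit 362) (B (L (nat_lit 361) ln9_11_0 ln9_11_0_ok) (M (nat_lit 398) (B (L (nat_lit 365) ln10_11_0 ln10_11_0_ok) (L (nat_lit 399) ln15_12_3 ln15_12_3_ok))))))))) (M (nat_lit 395) (B (M (nat_lit 394) (B (L (nat_lit 393) ln9_12_0 ln9_12_0_ok) (L (nat_lit 430) ln10_12_0 ln10_12_0_ok))) (B (M (nat_lit 430) (B (L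 (nat_lit 394) ln10_12_0 ln10_12_0_ok) (L (nat_lit 431) ln15_13_3 ln15_13_3_ok))) (B (M (nat_lit 427) (B (M (nat_lit 398) (B (L (nat_lit 426) ln14_12_1 ln14_12_1_ok) (L (nat_lit 399) ln15_12_1 ln15_12_1_ok))) (M (nat_lit 459) (B (M (nat_lit 364) (B (L (nat_lit 332) ln12_10_5 ln12_10_5_ok) (L (nat_lit 491) ln11_15_6 ln11_15_6_ok))) (M (nat_lit 430) (B (L (nat_lit 431) ln15_13_3 ln15_13_3_ok) (L (nat_lit 458) ln14_13_1 ln14_13_1_ok))))))) (M (nat_lit 398) (B (M (nat_lit 399) (B (L (nat_lit 427) ln15_12_1 ln15_12_1_ok) (L (nat_lit 400) ln16_12_1 ln16_12_1_ok))) (M (nat_lit 362) (B (L (nat_lit 363) ln14_12_3 ln14_12_3_ok) (M (nat_lit 394) (B (L (nat_lit 361) ln13_12_3 ln13_12_3_ok) (L (nat_lit 393) ln9_12_0 ln9_12_0_ok))))))))))))))))))) (nat_lit 1386334847544579281930502452632026696468783264124728123740719198963059283254184240648144927045128292788721448874933630659377233920) (nat_lit 384428669063214259528138635997097480934035165089025713815672510596410306501494482438216404198083035091703281957596188975635484075995307998962690476914988023808)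 (nat_lit 384428669063214259528138635997097480934035165089025713815672510596410306501494482438216404198083035091703281957596188975635484075995307998962690476914988023808) (by decide +kernel)
noncomputable def c21_n4703 : Cert := (M (nat_lit 427) (B (M (nat_lit 395) (B (L (nat_lit 394) ln10_12_0 ln10_12_0_ok) (M (nat_lit 426) (B (L (nat_lit 398) ln14_12_1 ln14_12_1_ok) (M (nat_lit 425) (B (L (nat_lit 424) ln8_13_2 ln8_13_2_ok) (L (nat_lit 428) ln9_13_2 ln9_13_2_ok))))))) (B (M (nat_lit 395) (B (M (nat_lit 426) (B (L (nat_lit 398) ln14_12_1 ln14_12_1_ok) (M (nat_lit 425) (B (L (nat_lit 424) ln8_13_2 ln8_13_2_ok) (L (nat_lit 428) ln9_13_2 ln9_13_2_ok))))) (B (M (nat_lit 428) (B (M (nat_lit 459) (B (L (nat_lit 458) ln14_13_1 ln14_13_1_ok) (M (nat_lit 491) (B (L (nat_lit 364) ln11_15_6 ln11_15_6_ok) (L (nat_lit 523) ln11_16_6 ln11_16_6_ok))))) (B (M (nat_lit 426) (B (L (nat_lit 425) ln9_13_2 ln9_13_2_ok)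 (M (nat_lit 458) (B (L (nat_lit 457) ln13_13_1 ln13_13_1_ok) (L (nat_lit 459) ln14_13_1 ln14_13_1_ok))))) (M (nat_lit 461) (B (M (nat_lit 364) (B (L (nat_lit 332) ln12_10_4 ln12_10_4_ok) (L (nat_lit 493) ln13_15_7 ln13_15_7_ok))) (M (nat_lit 426) (B (L (nat_lit 425) ln9_13_2 ln9_13_2_ok) (L (nat_lit 462) ln10_13_0 ln10_13_0_ok)))))))) (B (M (nat_lit 398) (B (L (nat_lit 426) ln14_12_1 ln14_12_1_ok) (M (nat_lit 399) (B (L (nat_lit 428) ln15_12_1 ln15_12_1_ok) (M (nat_lit 363) (B (L (nat_lit 362) ln14_12_3 ln14_12_3_ok) (L (nat_lit 364) ln15_12_3 ln15_12_3_ok))))))) (B (M (nat_lit 459) (B (M (nat_lit 428) (B (L (nat_lit 458) ln14_13_1 ln14_13_1_ok) (M (nat_lit 491) (B (L (nat_lit 364) ln11_15_6 ln11_15_6_ok) (L (nat_lit 523) ln11_16_6 ln11_16_6_ok))))) (B (M (nat_lit 363) (B (M (nat_lit 362) (B (L (nat_lit 330) ln11_14_7 ln11_14_7_ok) (L (nat_lit 398) ln14_12_3 ln14_12_3_ok))) (M (nat_lit 458) (B (L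 (nat_lit 490) ln11_11_5 ln11_11_5_ok) (L (nat_lit 428) ln14_13_1 ln14_13_1_ok))))) (M (nat_lit 364) (B (L (nat_lit 491) ln11_15_6 ln11_15_6_ok) (M (nat_lit 332) (B (L (nat_lit 300) ln12_9_5 ln12_9_5_ok) (L (nat_lit 363) ln11_14_6 ln11_14_6_ok)))))))) (M (nat_lit 364) (B (M (nat_lit 332) (B (L (nat_lit 300) ln12_9_5 ln12_9_5_ok) (M (nat_lit 459) (B (L (nat_lit 363) ln11_14_6 ln11_14_6_ok) (L (nat_lit 491) ln11_15_6 ln11_15_6_ok))))) (B (M (nat_lit 398) (B (L (nat_lit 426) ln14_12_1 ln14_12_1_ok) (M (nat_lit 363) (B (L (nat_lit 362) ln14_12_3 ln14_12_3_ok) (L (nat_lit 399) ln15_12_3 ln15_12_3_ok))))) (M (nat_lit 332) (B (L (nat_lit 300) ln12_9_5 ln12_9_5_ok) (M (nat_lit 461) (B (L (nat_lit 365) ln13_14_7 ln13_14_7_ok) (L (nat_lit 493) ln13_15_7 ln13_15_7_ok))))))))))))) (B (M (nat_lit 428) (B (M (nat_lit 398) (B (L (nat_lit 399) ln15_12_1 ln15_12_1_ok) (L (nat_lit 426) ln10_13_2 ln10_13_2_ok))) (M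 (nat_lit 459) (B (L (nat_lit 458) ln14_13_1 ln14_13_1_ok) (M (nat_lit 364) (B (L (nat_lit 332) ln12_10_5 ln12_10_5_ok) (M (nat_lit 491) (B (L (nat_lit 460) ln12_11_5 ln12_11_5_ok) (L (nat_lit 523) ln11_16_6 ln11_16_6_ok))))))))) (B (M (nat_lit 395) (B (L (nat_lit 394) ln10_12_0 ln10_12_0_ok) (M (nat_lit 428) (B (M (nat_lit 459) (B (L (nat_lit 458) ln14_13_1 ln14_13_1_ok) (M (nat_lit 491) (B (L (nat_lit 364) ln11_15_6 ln11_15_6_ok) (L (nat_lit 523) ln11_16_6 ln11_16_6_ok))))) (B (M (nat_lit 426) (B (L (nat_lit 425) ln9_13_2 ln9_13_2_ok) (M (nat_lit 458) (B (L (nat_lit 457) ln13_13_1 ln13_13_1_ok) (L (nat_lit 459) ln14_13_1 ln14_13_1_ok))))) (M (nat_lit 461) (B (M (nat_lit 364) (B (L (nat_lit 332) ln12_10_4 ln12_10_4_ok) (L (nat_lit 493) ln13_15_7 ln13_15_7_ok))) (M (nat_lit 426) (B (L (nat_lit 425) ln9_13_2 ln9_13_2_ok) (L (nat_lit 462) ln10_13_0 ln10_13_0_ok)))))))))) (B (M (nat_lit 395) (B (L (nat_lit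 394) ln10_12_0 ln10_12_0_ok) (M (nat_lit 459) (B (M (nat_lit 364) (B (L (nat_lit 491) ln11_15_6 ln11_15_6_ok) (M (nat_lit 332) (B (L (nat_lit 300) ln12_9_5 ln12_9_5_ok) (L (nat_lit 363) ln11_14_6 ln11_14_6_ok))))) (B (M (nat_lit 364) (B (L (nat_lit 491) ln11_15_6 ln11_15_6_ok) (M (nat_lit 428) (B (L (nat_lit 332) ln12_10_5 ln12_10_5_ok) (L (nat_lit 458) ln14_13_1 ln14_13_1_ok))))) (M (nat_lit 363) (B (M (nat_lit 362) (B (L (nat_lit 330) ln11_14_7 ln11_14_7_ok) (L (nat_lit 398) ln14_12_3 ln14_12_3_ok))) (M (nat_lit 458) (B (L (nat_lit 490) ln11_11_5 ln11_11_5_ok) (L (nat_lit 428) ln14_13_1 ln14_13_1_ok)))))))))) (M (nat_lit 395) (B (L (nat_lit 394) ln10_12_0 ln10_12_0_ok) (M (nat_lit 364) (B (M (nat_lit 332) (B (L (nat_lit 300) ln12_9_5 ln12_9_5_ok) (M (nat_lit 461) (B (L (nat_lit 365) ln13_14_7 ln13_14_7_ok) (L (nat_lit 493) ln13_15_7 ln13_15_7_ok))))) (M (nat_lit 398) (B (L (nat_lit 426) ln14_12_1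 ln14_12_1_ok) (M (nat_lit 363) (B (L (nat_lit 362) ln14_12_3 ln14_12_3_ok) (L (nat_lit 399) ln15_12_3 ln15_12_3_ok)))))))))))))))
theorem c21_s4704 : Sem (nat_lit 1386334847544579281930502452632026696468783264124728123740719198963059283254184240648144927045128292788721448874933630659377233920) (nat_lit 235872651633723906484614535647848165856936423938435977665165111906335403197658908463218169424433432565112055699924164086873737172014255727908437488107099237505155727360) (nat_lit 235872651633723906484614535647848165856936423938435977665165111906335403197658908463218169424433432565112055699924164086873737172014255727908437488107099237505155727360) :=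
  sem_of_chk (M (nat_lit 430) (B (M (nat_lit 431) (B (L (nat_lit 432) ln16_13_3 ln16_13_3_ok) (M (nat_lit 395) (B (L (nat_lit 394) ln10_12_0 ln10_12_0_ok) (L (nat_lit 398) ln11_12_0 ln11_12_0_ok))))) (B (M (nat_lit 431) (B (L (nat_lit 432) ln16_13_3 ln16_13_3_ok) (M (nat_lit 395) (B (L (nat_lit 398) ln11_12_0 ln11_12_0_ok) (L (nat_lit 428) ln15_13_3 ln15_13_3_ok))))) (B (M (nat_lit 461) (B (M (nat_lit 364) (B (L (nat_lit 493) ln13_15_7 ln13_15_7_ok) (M (nat_lit 332) (B (L (nat_lit 300) ln12_9_4 ln12_9_4_ok) (L (nat_lit 428) ln12_10_4 ln12_10_4_ok))))) (B (M (nat_lit 364) (B (L (nat_lit 493) ln13_15_7 ln13_15_7_ok) (M (nat_lit 332) (B (L (nat_lit 365) ln13_14_7 ln13_14_7_ok) (L (nat_lit 428) ln12_10_4 ln12_10_4_ok))))) (B (M (nat_lit 460) (B (M (nat_lit 431) (B (L (nat_lit 432) ln16_13_3 ln16_13_3_ok) (M (nat_lit 459) (B (L (nat_lit 428) ln15_13_1 ln15_13_1_ok) (L (nat_lit 458) ln10_14_2 ln10_14_2_ok)))))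 (B (M (nat_lit 431) (B (L (nat_lit 432) ln16_13_3 ln16_13_3_ok) (M (nat_lit 459) (B (L (nat_lit 458) ln10_14_2 ln10_14_2_ok) (L (nat_lit 462) ln11_14_2 ln11_14_2_ok))))) (M (nat_lit 492) (B (L (nat_lit 365) ln13_11_5 ln13_11_5_ok) (M (nat_lit 524) (B (L (nat_lit 428) ln12_16_6 ln12_16_6_ok) (L (nat_lit 556) ln12_17_6 ln12_17_6_ok)))))))) (M (nat_lit 364) (B (L (nat_lit 493) ln13_15_7 ln13_15_7_ok) (M (nat_lit 332) (B (L (nat_lit 300) ln12_9_4 ln12_9_4_ok) (L (nat_lit 365) ln13_14_7 ln13_14_7_ok))))))))) c21_n4703)))) (nat_lit 1386334847544579281930502452632026696468783264124728123740719198963059283254184240648144927045128292788721448874933630659377233920) (nat_lit 235872651633723906484614535647848165856936423938435977665165111906335403197658908463218169424433432565112055699924164086873737172014255727908437488107099237505155727360) (nat_lit 235872651633723906484614535647848165856936423938435977665165111906335403197658908463218169424433432565112055699924164086873737172014255727908437488107099237505155727360)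 (by decide +kernel)
noncomputable def c21_n4795 : Cert := (M (nat_lit 364) (B (M (nat_lit 332) (B (L (nat_lit 300) ln12_9_4 ln12_9_4_ok) (M (nat_lit 461) (B (L (nat_lit 428) ln12_10_4 ln12_10_4_ok) (L (nat_lit 493) ln13_15_7 ln13_15_7_ok))))) (B (M (nat_lit 461) (B (L (nat_lit 493) ln13_15_7 ln13_15_7_ok) (M (nat_lit 332) (B (L (nat_lit 365) ln13_14_7 ln13_14_7_ok) (L (nat_lit 428) ln12_10_4 ln12_10_4_ok))))) (B (M (nat_lit 430) (B (M (nat_lit 395) (B (L (nat_lit 394) ln10_12_0 ln10_12_0_ok) (M (nat_lit 431) (B (L (nat_lit 398) ln11_12_0 ln11_12_0_ok) (L (nat_lit 432) ln16_13_3 ln16_13_3_ok))))) (B (M (nat_lit 431) (B (L (nat_lit 432) ln16_13_3 ln16_13_3_ok) (M (nat_lit 395) (B (L (nat_lit 398) ln11_12_0 ln11_12_0_ok) (L (nat_lit 428) ln15_13_3 ln15_13_3_ok))))) (B (M (nat_lit 431) (B (L (nat_lit 432) ln16_13_3 ln16_13_3_ok) (M (nat_lit 460) (B (M (nat_lit 428) (B (L (nat_lit 459) ln15_13_1 ln15_13_1_ok)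 (M (nat_lit 365) (B (L (nat_lit 333) ln12_14_6 ln12_14_6_ok) (L (nat_lit 492) ln12_15_6 ln12_15_6_ok))))) (B (M (nat_lit 461) (B (L (nat_lit 493) ln13_15_7 ln13_15_7_ok) (M (nat_lit 459) (B (L (nat_lit 428) ln15_13_1 ln15_13_1_ok) (L (nat_lit 462) ln11_14_2 ln11_14_2_ok))))) (B (M (nat_lit 461) (B (L (nat_lit 493) ln13_15_7 ln13_15_7_ok) (M (nat_lit 459) (B (L (nat_lit 458) ln10_14_2 ln10_14_2_ok) (L (nat_lit 462) ln11_14_2 ln11_14_2_ok))))) (M (nat_lit 365) (B (M (nat_lit 333) (B (L (nat_lit 428) ln12_14_6 ln12_14_6_ok) (L (nat_lit 462) ln13_10_4 ln13_10_4_ok))) (B (M (nat_lit 492) (B (L (nat_lit 428) ln12_15_6 ln12_15_6_ok) (L (nat_lit 461) ln13_11_5 ln13_11_5_ok))) (M (nat_lit 461) (B (L (nat_lit 493) ln13_15_7 ln13_15_7_ok) (L (nat_lit 492) ln13_11_5 ln13_11_5_ok)))))))))))) (M (nat_lit 460) (B (M (nat_lit 461) (B (L (nat_lit 493) ln13_15_7 ln13_15_7_ok) (M (nat_lit 365) (B (L (nat_lit 492) ln13_11_5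 ln13_11_5_ok) (M (nat_lit 333) (B (L (nat_lit 428) ln12_14_6 ln12_14_6_ok) (L (nat_lit 462) ln13_10_4 ln13_10_4_ok))))))) (B (M (nat_lit 395) (B (L (nat_lit 394) ln10_12_0 ln10_12_0_ok) (M (nat_lit 459) (B (M (nat_lit 491) (B (L (nat_lit 427) ln11_15_6 ln11_15_6_ok) (L (nat_lit 428) ln12_11_5 ln12_11_5_ok))) (M (nat_lit 461) (B (L (nat_lit 493) ln13_15_7 ln13_15_7_ok) (L (nat_lit 458) ln10_14_2 ln10_14_2_ok))))))) (B (M (nat_lit 461) (B (L (nat_lit 493) ln13_15_7 ln13_15_7_ok) (M (nat_lit 365) (B (L (nat_lit 492) ln13_11_5 ln13_11_5_ok) (M (nat_lit 462) (B (L (nat_lit 333) ln13_10_4 ln13_10_4_ok) (L (nat_lit 494) ln13_11_4 ln13_11_4_ok))))))) (M (nat_lit 428) (B (M (nat_lit 365) (B (L (nat_lit 333) ln12_14_6 ln12_14_6_ok) (L (nat_lit 492) ln12_15_6 ln12_15_6_ok))) (M (nat_lit 427) (B (M (nat_lit 398) (B (L (nat_lit 399) ln15_12_1 ln15_12_1_ok) (L (nat_lit 426) ln10_13_2 ln10_13_2_ok))) (M (nat_lit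 459) (B (L (nat_lit 491) ln12_11_5 ln12_11_5_ok) (L (nat_lit 458) ln14_13_1 ln14_13_1_ok))))))))))))))) (B (M (nat_lit 461) (B (L (nat_lit 493) ln13_15_7 ln13_15_7_ok) (M (nat_lit 332) (B (L (nat_lit 300) ln12_9_4 ln12_9_4_ok) (L (nat_lit 365) ln13_14_7 ln13_14_7_ok))))) (M (nat_lit 395) (B (M (nat_lit 430) (B (L (nat_lit 394) ln10_12_0 ln10_12_0_ok) (M (nat_lit 431) (B (L (nat_lit 398) ln11_12_0 ln11_12_0_ok) (L (nat_lit 432) ln16_13_3 ln16_13_3_ok))))) (B (M (nat_lit 427) (B (M (nat_lit 332) (B (L (nat_lit 300) ln12_9_5 ln12_9_5_ok) (M (nat_lit 459) (B (L (nat_lit 363) ln11_14_6 ln11_14_6_ok) (L (nat_lit 491) ln11_15_6 ln11_15_6_ok))))) (B (M (nat_lit 398) (B (L (nat_lit 426) ln14_12_1 ln14_12_1_ok) (M (nat_lit 399) (B (L (nat_lit 363) ln15_12_3 ln15_12_3_ok) (L (nat_lit 428) ln15_12_1 ln15_12_1_ok))))) (M (nat_lit 332) (B (L (nat_lit 300) ln12_9_5 ln12_9_5_ok) (M (nat_lit 459) (B (L (nat_lit 428)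 ln12_10_5 ln12_10_5_ok) (L (nat_lit 491) ln11_15_6 ln11_15_6_ok)))))))) (M (nat_lit 430) (B (L (nat_lit 394) ln10_12_0 ln10_12_0_ok) (M (nat_lit 431) (B (L (nat_lit 428) ln15_13_3 ln15_13_3_ok) (L (nat_lit 432) ln16_13_3 ln16_13_3_ok)))))))))))))
noncomputable def c21_n4923 : Cert := (M (nat_lit 427) (B (M (nat_lit 426) (B (L (nat_lit 398) ln14_12_1 ln14_12_1_ok) (M (nat_lit 425) (B (L (nat_lit 424) ln8_13_2 ln8_13_2_ok) (L (nat_lit 428) ln9_13_2 ln9_13_2_ok))))) (B (M (nat_lit 428) (B (M (nat_lit 458) (B (M (nat_lit 426) (B (L (nat_lit 425) ln9_13_2 ln9_13_2_ok) (L (nat_lit 457) ln13_13_1 ln13_13_1_ok))) (M (nat_lit 430) (B (L (nat_lit 431) ln15_13_3 ln15_13_3_ok) (L (nat_lit 459) ln14_13_1 ln14_13_1_ok))))) (B (M (nat_lit 492) (B (M (nat_lit 460) (B (L (nat_lit 363) ln12_15_7 ln12_15_7_ok) (L (nat_lit 365) ln12_15_6 ln12_15_6_ok))) (B (M (nat_lit 460) (B (L (nat_lit 365) ln12_15_6 ln12_15_6_ok)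 (L (nat_lit 524) ln12_16_7 ln12_16_7_ok))) (B (M (nat_lit 460) (B (L (nat_lit 363) ln12_15_7 ln12_15_7_ok) (L (nat_lit 524) ln12_16_7 ln12_16_7_ok))) (M (nat_lit 459) (B (M (nat_lit 491) (B (L (nat_lit 524) ln11_12_4 ln11_12_4_ok) (L (nat_lit 523) ln11_16_6 ln11_16_6_ok))) (M (nat_lit 430) (B (L (nat_lit 431) ln15_13_3 ln15_13_3_ok) (L (nat_lit 458) ln14_13_1 ln14_13_1_ok))))))))) (M (nat_lit 492) (B (M (nat_lit 460) (B (L (nat_lit 363) ln12_15_7 ln12_15_7_ok) (L (nat_lit 365) ln12_15_6 ln12_15_6_ok))) (B (M (nat_lit 460) (B (L (nat_lit 365) ln12_15_6 ln12_15_6_ok) (L (nat_lit 524) ln12_16_7 ln12_16_7_ok))) (B (M (nat_lit 460) (B (L (nat_lit 363) ln12_15_7 ln12_15_7_ok) (L (nat_lit 524) ln12_16_7 ln12_16_7_ok))) (M (nat_lit 461) (B (M (nat_lit 493) (B (L (nat_lit 525) ln13_16_7 ln13_16_7_ok) (L (nat_lit 524) ln13_12_5 ln13_12_5_ok))) (M (nat_lit 426) (B (L (nat_lit 425) ln9_13_2 ln9_13_2_ok) (L (nat_lit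 462) ln10_13_0 ln10_13_0_ok)))))))))))) (B (M (nat_lit 398) (B (L (nat_lit 426) ln14_12_1 ln14_12_1_ok) (M (nat_lit 399) (B (L (nat_lit 428) ln15_12_1 ln15_12_1_ok) (M (nat_lit 431) (B (L (nat_lit 430) ln11_12_0 ln11_12_0_ok) (L (nat_lit 432) ln12_12_0 ln12_12_0_ok))))))) (B (M (nat_lit 363) (B (M (nat_lit 398) (B (L (nat_lit 362) ln14_12_3 ln14_12_3_ok) (M (nat_lit 399) (B (L (nat_lit 428) ln15_12_1 ln15_12_1_ok) (M (nat_lit 431) (B (L (nat_lit 430) ln11_12_0 ln11_12_0_ok) (L (nat_lit 432) ln12_12_0 ln12_12_0_ok))))))) (B (M (nat_lit 460) (B (M (nat_lit 428) (B (L (nat_lit 331) ln11_10_4 ln11_10_4_ok) (L (nat_lit 492) ln12_15_7 ln12_15_7_ok))) (B (M (nat_lit 492) (B (L (nat_lit 428) ln12_15_7 ln12_15_7_ok) (L (nat_lit 459) ln11_11_4 ln11_11_4_ok))) (B (M (nat_lit 492) (B (L (nat_lit 459) ln11_11_4 ln11_11_4_ok) (M (nat_lit 461) (B (L (nat_lit 365) ln13_11_5 ln13_11_5_ok) (M (nat_lit 524) (B (L (nat_lit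 493) ln13_12_5 ln13_12_5_ok) (L (nat_lit 556) ln12_17_6 ln12_17_6_ok))))))) (M (nat_lit 331) (B (L (nat_lit 428) ln11_10_4 ln11_10_4_ok) (M (nat_lit 299) (B (M (nat_lit 298) (B (L (nat_lit 266) ln11_12_7 ln11_12_7_ok) (L (nat_lit 330) ln11_13_7 ln11_13_7_ok))) (M (nat_lit 300) (B (L (nat_lit 268) ln11_12_6 ln11_12_6_ok) (L (nat_lit 332) ln11_13_6 ln11_13_6_ok))))))))))) (M (nat_lit 362) (B (L (nat_lit 398) ln14_12_3 ln14_12_3_ok) (M (nat_lit 330) (B (L (nat_lit 459) ln11_14_7 ln11_14_7_ok) (M (nat_lit 298) (B (L (nat_lit 266) ln10_8_4 ln10_8_4_ok) (L (nat_lit 331) ln11_13_7 ln11_13_7_ok)))))))))) (M (nat_lit 398) (B (L (nat_lit 426) ln14_12_1 ln14_12_1_ok) (M (nat_lit 399) (B (M (nat_lit 431) (B (L (nat_lit 430) ln11_12_0 ln11_12_0_ok) (L (nat_lit 432) ln12_12_0 ln12_12_0_ok))) (B (M (nat_lit 400) (B (M (nat_lit 368) (B (L (nat_lit 367) ln12_12_2 ln12_12_2_ok) (L (nat_lit 369) ln13_12_2 ln13_12_2_ok)))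 (M (nat_lit 432) (B (L (nat_lit 431) ln12_12_0 ln12_12_0_ok) (L (nat_lit 433) ln13_12_0 ln13_12_0_ok))))) (B (M (nat_lit 400) (B (M (nat_lit 368) (B (L (nat_lit 367) ln12_12_2 ln12_12_2_ok) (L (nat_lit 369) ln13_12_2 ln13_12_2_ok))) (M (nat_lit 401) (B (L (nat_lit 430) ln17_12_1 ln17_12_1_ok) (M (nat_lit 433) (B (L (nat_lit 432) ln13_12_0 ln13_12_0_ok) (L (nat_lit 434) ln14_12_0 ln14_12_0_ok))))))) (M (nat_lit 400) (B (M (nat_lit 368) (B (L (nat_lit 367) ln12_12_2 ln12_12_2_ok) (L (nat_lit 369) ln13_12_2 ln13_12_2_ok))) (M (nat_lit 430) (B (L (nat_lit 431) ln11_12_0 ln11_12_0_ok) (L (nat_lit 401) ln17_12_1 ln17_12_1_ok))))))))))))))))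
theorem c21_s4924 : Sem (nat_lit 1386334847544579281930502452632026696468783264124728123740719198963059283254184240648144927045128292788721448874933630659377233920) (nat_lit 235872651743560669043507620572035002663848032518105220263760417220910010594840126800997774926617164929232642614964178355345934330259701539161011472427321528238653571072) (nat_lit 235872651743560669043507620572035002663848032518105220263760417220910010594840126800997774926617164929232642614964178355345934330259701539161011472427321528238653571072) :=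
  sem_of_chk (M (nat_lit 395) (B (M (nat_lit 430) (B (L (nat_lit 394) ln10_12_0 ln10_12_0_ok) (M (nat_lit 431) (B (L (nat_lit 398) ln11_12_0 ln11_12_0_ok) (L (nat_lit 432) ln16_13_3 ln16_13_3_ok))))) (B c21_n4923 (B (M (nat_lit 430) (B (L (nat_lit 394) ln10_12_0 ln10_12_0_ok) (M (nat_lit 431) (B (L (nat_lit 428) ln15_13_3 ln15_13_3_ok) (L (nat_lit 432) ln16_13_3 ln16_13_3_ok))))) (M (nat_lit 394) (B (M (nat_lit 393) (B (L (nat_lit 428) ln9_12_0 ln9_12_0_ok) (M (nat_lit 425) (B (L (nat_lit 424) ln12_12_1 ln12_12_1_ok) (L (nat_lit 426) ln13_12_1 ln13_12_1_ok))))) (B (M (nat_lit 398) (B (M (nat_lit 362) (B (L (nat_lit 361) ln13_12_3 ln13_12_3_ok) (L (nat_lit 363) ln14_12_3 ln14_12_3_ok))) (M (nat_lit 426) (B (L (nat_lit 425) ln13_12_1 ln13_12_1_ok) (L (nat_lit 427) ln14_12_1 ln14_12_1_ok))))) (M (nat_lit 393) (B (L (nat_lit 428) ln9_12_0 ln9_12_0_ok) (M (nat_lit 361) (B (L (nat_lit 360) ln12_12_3 ln12_12_3_ok)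 (L (nat_lit 362) ln13_12_3 ln13_12_3_ok)))))))))))) (nat_lit 1386334847544579281930502452632026696468783264124728123740719198963059283254184240648144927045128292788721448874933630659377233920) (nat_lit 235872651743560669043507620572035002663848032518105220263760417220910010594840126800997774926617164929232642614964178355345934330259701539161011472427321528238653571072) (nat_lit 235872651743560669043507620572035002663848032518105220263760417220910010594840126800997774926617164929232642614964178355345934330259701539161011472427321528238653571072) (by decide +kernel)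
noncomputable def c21_n4984 : Cert := (M (nat_lit 364) (B (M (nat_lit 461) (B (L (nat_lit 493) ln13_15_7 ln13_15_7_ok) (M (nat_lit 332) (B (L (nat_lit 300) ln12_9_4 ln12_9_4_ok) (L (nat_lit 365) ln13_14_7 ln13_14_7_ok))))) (B (M (nat_lit 461) (B (L (nat_lit 493) ln13_15_7 ln13_15_7_ok) (M (nat_lit 332) (B (L (nat_lit 365) ln13_14_7 ln13_14_7_ok) (L (nat_lit 428) ln12_10_4 ln12_10_4_ok))))) (B (M (nat_lit 460) (B (M (nat_lit 461) (B (L (nat_lit 493) ln13_15_7 ln13_15_7_ok) (M (nat_lit 492) (B (L (nat_lit 365) ln13_11_5 ln13_11_5_ok) (M (nat_lit 524) (B (L (nat_lit 428) ln12_16_6 ln12_16_6_ok) (L (nat_lit 556) ln12_17_6 ln12_17_6_ok))))))) (B (M (nat_lit 461) (B (L (nat_lit 493) ln13_15_7 ln13_15_7_ok) (M (nat_lit 428) (B (M (nat_lit 459) (B (L (nat_lit 491) ln12_11_5 ln12_11_5_ok) (M (nat_lit 430) (B (L (nat_lit 431) ln15_13_1 ln15_13_1_ok) (L (nat_lit 458) ln10_14_2 ln10_14_2_ok))))) (M (nat_lit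 492) (B (L (nat_lit 524) ln12_16_6 ln12_16_6_ok) (M (nat_lit 363) (B (L (nat_lit 331) ln12_14_7 ln12_14_7_ok) (L (nat_lit 395) ln12_15_7 ln12_15_7_ok))))))))) (B (M (nat_lit 430) (B (M (nat_lit 431) (B (L (nat_lit 432) ln16_13_3 ln16_13_3_ok) (M (nat_lit 461) (B (L (nat_lit 493) ln13_15_7 ln13_15_7_ok) (M (nat_lit 459) (B (L (nat_lit 458) ln10_14_2 ln10_14_2_ok) (L (nat_lit 462) ln11_14_2 ln11_14_2_ok))))))) (B (M (nat_lit 365) (B (M (nat_lit 461) (B (L (nat_lit 493) ln13_15_7 ln13_15_7_ok) (L (nat_lit 492) ln13_11_5 ln13_11_5_ok))) (M (nat_lit 398) (B (M (nat_lit 333) (B (L (nat_lit 301) ln13_9_4 ln13_9_4_ok) (L (nat_lit 462) ln13_10_4 ln13_10_4_ok))) (M (nat_lit 363) (B (L (nat_lit 362) ln10_11_0 ln10_11_0_ok) (L (nat_lit 399) ln15_12_3 ln15_12_3_ok))))))) (M (nat_lit 398) (B (M (nat_lit 431) (B (L (nat_lit 395) ln11_12_0 ln11_12_0_ok) (L (nat_lit 432) ln16_13_3 ln16_13_3_ok))) (M (nat_lit 363)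 (B (L (nat_lit 399) ln15_12_3 ln15_12_3_ok) (M (nat_lit 362) (B (L (nat_lit 361) ln9_11_0 ln9_11_0_ok) (L (nat_lit 365) ln10_11_0 ln10_11_0_ok)))))))))) (B (M (nat_lit 363) (B (M (nat_lit 362) (B (L (nat_lit 361) ln9_11_0 ln9_11_0_ok) (M (nat_lit 398) (B (L (nat_lit 365) ln10_11_0 ln10_11_0_ok) (L (nat_lit 399) ln15_12_3 ln15_12_3_ok))))) (B (M (nat_lit 428) (B (L (nat_lit 331) ln12_14_7 ln12_14_7_ok) (M (nat_lit 492) (B (L (nat_lit 395) ln12_15_7 ln12_15_7_ok) (L (nat_lit 365) ln12_15_6 ln12_15_6_ok))))) (M (nat_lit 428) (B (L (nat_lit 331) ln12_14_7 ln12_14_7_ok) (M (nat_lit 492) (B (L (nat_lit 395) ln12_15_7 ln12_15_7_ok) (L (nat_lit 524) ln12_16_6 ln12_16_6_ok)))))))) (M (nat_lit 428) (B (M (nat_lit 365) (B (L (nat_lit 333) ln12_14_6 ln12_14_6_ok) (M (nat_lit 363) (B (L (nat_lit 331) ln12_14_7 ln12_14_7_ok) (M (nat_lit 362) (B (L (nat_lit 361) ln9_11_0 ln9_11_0_ok) (L (nat_lit 398) ln10_11_0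 ln10_11_0_ok))))))) (M (nat_lit 461) (B (L (nat_lit 493) ln13_15_7 ln13_15_7_ok) (M (nat_lit 459) (B (L (nat_lit 491) ln12_11_5 ln12_11_5_ok) (M (nat_lit 430) (B (L (nat_lit 431) ln15_13_1 ln15_13_1_ok) (L (nat_lit 458) ln10_14_2 ln10_14_2_ok)))))))))))))) (B (M (nat_lit 332) (B (L (nat_lit 300) ln12_9_4 ln12_9_4_ok) (M (nat_lit 461) (B (L (nat_lit 428) ln12_10_4 ln12_10_4_ok) (L (nat_lit 493) ln13_15_7 ln13_15_7_ok))))) (M (nat_lit 428) (B (M (nat_lit 427) (B (M (nat_lit 332) (B (L (nat_lit 300) ln12_9_4 ln12_9_4_ok) (L (nat_lit 459) ln12_10_5 ln12_10_5_ok))) (M (nat_lit 398) (B (L (nat_lit 399) ln15_12_1 ln15_12_1_ok) (L (nat_lit 426) ln10_13_2 ln10_13_2_ok))))) (B (M (nat_lit 427) (B (M (nat_lit 398) (B (L (nat_lit 399) ln15_12_1 ln15_12_1_ok) (L (nat_lit 426) ln10_13_2 ln10_13_2_ok))) (M (nat_lit 459) (B (L (nat_lit 332) ln12_10_5 ln12_10_5_ok) (M (nat_lit 491) (B (L (nat_lit 395) ln11_15_6 ln11_15_6_ok)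 (L (nat_lit 460) ln12_11_5 ln12_11_5_ok))))))) (B (M (nat_lit 363) (B (M (nat_lit 460) (B (L (nat_lit 331) ln12_14_7 ln12_14_7_ok) (M (nat_lit 365) (B (L (nat_lit 333) ln12_14_6 ln12_14_6_ok) (L (nat_lit 492) ln12_15_6 ln12_15_6_ok))))) (B (M (nat_lit 362) (B (L (nat_lit 361) ln9_11_0 ln9_11_0_ok) (M (nat_lit 398) (B (L (nat_lit 365) ln10_11_0 ln10_11_0_ok) (L (nat_lit 399) ln15_12_3 ln15_12_3_ok))))) (M (nat_lit 362) (B (L (nat_lit 361) ln9_11_0 ln9_11_0_ok) (M (nat_lit 398) (B (L (nat_lit 395) ln14_12_3 ln14_12_3_ok) (L (nat_lit 399) ln15_12_3 ln15_12_3_ok)))))))) (M (nat_lit 460) (B (M (nat_lit 365) (B (L (nat_lit 333) ln12_14_6 ln12_14_6_ok) (L (nat_lit 492) ln12_15_6 ln12_15_6_ok))) (B (M (nat_lit 492) (B (L (nat_lit 365) ln12_15_6 ln12_15_6_ok) (L (nat_lit 524) ln12_16_6 ln12_16_6_ok))) (B (M (nat_lit 363) (B (L (nat_lit 331) ln12_14_7 ln12_14_7_ok) (M (nat_lit 492) (B (L (nat_lit 395) ln12_15_7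 ln12_15_7_ok) (L (nat_lit 524) ln12_16_6 ln12_16_6_ok))))) (M (nat_lit 333) (B (L (nat_lit 365) ln12_14_6 ln12_14_6_ok) (M (nat_lit 332) (B (L (nat_lit 300) ln12_9_4 ln12_9_4_ok) (L (nat_lit 301) ln12_13_6 ln12_13_6_ok))))))))))))))))))
noncomputable def c21_n5122 : Cert := (M (nat_lit 333) (B (M (nat_lit 332) (B (L (nat_lit 300) ln12_9_4 ln12_9_4_ok) (M (nat_lit 301) (B (L (nat_lit 428) ln12_13_6 ln12_13_6_ok) (M (nat_lit 365) (B (L (nat_lit 269) ln13_8_5 ln13_8_5_ok) (M (nat_lit 302) (B (L (nat_lit 270) ln13_12_6 ln13_12_6_ok) (L (nat_lit 334) ln13_13_6 ln13_13_6_ok))))))))) (B (M (nat_lit 428) (B (M (nat_lit 332) (B (L (nat_lit 300) ln12_9_4 ln12_9_4_ok) (L (nat_lit 301) ln12_13_6 ln12_13_6_ok))) (B (M (nat_lit 301) (B (L (nat_lit 332) ln12_13_6 ln12_13_6_ok) (L (nat_lit 365) ln13_9_5 ln13_9_5_ok))) (M (nat_lit 430) (B (M (nat_lit 365) (B (L (nat_lit 460) ln12_14_6 ln12_14_6_ok) (L (nat_lit 462)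 ln13_10_4 ln13_10_4_ok))) (M (nat_lit 395) (B (L (nat_lit 394) ln10_12_0 ln10_12_0_ok) (L (nat_lit 431) ln15_13_3 ln15_13_3_ok)))))))) (B (M (nat_lit 428) (B (M (nat_lit 301) (B (L (nat_lit 332) ln12_13_6 ln12_13_6_ok) (L (nat_lit 365) ln13_9_5 ln13_9_5_ok))) (B (M (nat_lit 430) (B (M (nat_lit 365) (B (L (nat_lit 460) ln12_14_6 ln12_14_6_ok) (L (nat_lit 462) ln13_10_4 ln13_10_4_ok))) (M (nat_lit 395) (B (L (nat_lit 394) ln10_12_0 ln10_12_0_ok) (L (nat_lit 431) ln15_13_3 ln15_13_3_ok))))) (M (nat_lit 332) (B (L (nat_lit 301) ln12_13_6 ln12_13_6_ok) (M (nat_lit 460) (B (M (nat_lit 331) (B (L (nat_lit 299) ln12_13_7 ln12_13_7_ok) (L (nat_lit 363) ln12_14_7 ln12_14_7_ok))) (M (nat_lit 459) (B (L (nat_lit 427) ln12_10_5 ln12_10_5_ok) (L (nat_lit 491) ln12_11_5 ln12_11_5_ok)))))))))) (B (M (nat_lit 365) (B (M (nat_lit 428) (B (L (nat_lit 460) ln12_14_6 ln12_14_6_ok) (M (nat_lit 430) (B (L (nat_lit 462)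 ln13_10_4 ln13_10_4_ok) (M (nat_lit 395) (B (L (nat_lit 394) ln10_12_0 ln10_12_0_ok) (L (nat_lit 431) ln15_13_3 ln15_13_3_ok))))))) (M (nat_lit 332) (B (L (nat_lit 300) ln13_13_7 ln13_13_7_ok) (M (nat_lit 334) (B (L (nat_lit 302) ln13_13_6 ln13_13_6_ok) (M (nat_lit 335) (B (L (nat_lit 363) ln15_10_1 ln15_10_1_ok) (L (nat_lit 336) ln16_10_1 ln16_10_1_ok))))))))) (B (M (nat_lit 365) (B (M (nat_lit 301) (B (L (nat_lit 269) ln13_8_5 ln13_8_5_ok) (L (nat_lit 428) ln13_9_5 ln13_9_5_ok))) (B (M (nat_lit 428) (B (L (nat_lit 301) ln13_9_5 ln13_9_5_ok) (L (nat_lit 460) ln12_14_6 ln12_14_6_ok))) (B (M (nat_lit 428) (B (L (nat_lit 460) ln12_14_6 ln12_14_6_ok) (M (nat_lit 430) (B (L (nat_lit 462) ln13_10_4 ln13_10_4_ok) (M (nat_lit 395) (B (L (nat_lit 394) ln10_12_0 ln10_12_0_ok) (L (nat_lit 431) ln15_13_3 ln15_13_3_ok))))))) (M (nat_lit 301) (B (L (nat_lit 269) ln13_8_5 ln13_8_5_ok) (M (nat_lit 302) (B (L (nat_lit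 270) ln13_12_6 ln13_12_6_ok) (L (nat_lit 334) ln13_13_6 ln13_13_6_ok))))))))) (B (M (nat_lit 332) (B (L (nat_lit 300) ln12_9_4 ln12_9_4_ok) (M (nat_lit 428) (B (L (nat_lit 301) ln12_13_6 ln12_13_6_ok) (M (nat_lit 460) (B (M (nat_lit 331) (B (L (nat_lit 299) ln12_13_7 ln12_13_7_ok) (L (nat_lit 363) ln12_14_7 ln12_14_7_ok))) (M (nat_lit 459) (B (L (nat_lit 427) ln12_10_5 ln12_10_5_ok) (L (nat_lit 491) ln12_11_5 ln12_11_5_ok))))))))) (M (nat_lit 365) (B (M (nat_lit 301) (B (L (nat_lit 269) ln13_8_5 ln13_8_5_ok) (M (nat_lit 302) (B (L (nat_lit 270) ln13_12_6 ln13_12_6_ok) (L (nat_lit 334) ln13_13_6 ln13_13_6_ok))))) (B (M (nat_lit 301) (B (M (nat_lit 300) (B (L (nat_lit 268) ln13_12_7 ln13_12_7_ok) (L (nat_lit 332) ln13_13_7 ln13_13_7_ok))) (M (nat_lit 302) (B (L (nat_lit 270) ln13_12_6 ln13_12_6_ok) (L (nat_lit 334) ln13_13_6 ln13_13_6_ok))))) (B (M (nat_lit 300) (B (L (nat_lit 332) ln13_13_7 ln13_13_7_ok)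 (M (nat_lit 301) (B (L (nat_lit 268) ln13_12_7 ln13_12_7_ok) (L (nat_lit 269) ln13_8_5 ln13_8_5_ok))))) (M (nat_lit 332) (B (L (nat_lit 300) ln13_13_7 ln13_13_7_ok) (M (nat_lit 334) (B (L (nat_lit 302) ln13_13_6 ln13_13_6_ok) (M (nat_lit 335) (B (L (nat_lit 363) ln15_10_1 ln15_10_1_ok) (L (nat_lit 336) ln16_10_1 ln16_10_1_ok))))))))))))))))))
theorem c21_s5123 : Sem (nat_lit 1386334847544579281930502452632026696468783264124728123740719198963059283254184240648144927045128292788721448874933630659377233920) (nat_lit 235872651606264715892042154520402061907489573041288865597410734754803414707176287826054032431418204455189306570364732866498867309588202849508950495926513169413997330432) (nat_lit 235872651606264715892042154520402061907489573041288865597410734754803414707176287826054032431418204455189306570364732866498867309588202849508950495926513169413997330432) :=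
  sem_of_chk (M (nat_lit 364) (B (M (nat_lit 461) (B (L (nat_lit 493) ln13_15_7 ln13_15_7_ok) (M (nat_lit 332) (B (L (nat_lit 300) ln12_9_4 ln12_9_4_ok) (L (nat_lit 365) ln13_14_7 ln13_14_7_ok))))) (B (M (nat_lit 461) (B (L (nat_lit 493) ln13_15_7 ln13_15_7_ok) (M (nat_lit 332) (B (L (nat_lit 365) ln13_14_7 ln13_14_7_ok) (L (nat_lit 428) ln12_10_4 ln12_10_4_ok))))) (B (M (nat_lit 461) (B (L (nat_lit 493) ln13_15_7 ln13_15_7_ok) (M (nat_lit 460) (B (M (nat_lit 492) (B (L (nat_lit 365) ln13_11_5 ln13_11_5_ok) (M (nat_lit 524) (B (L (nat_lit 428) ln12_16_6 ln12_16_6_ok) (L (nat_lit 556) ln12_17_6 ln12_17_6_ok))))) (B (M (nat_lit 428) (B (M (nat_lit 459) (B (L (nat_lit 491) ln12_11_5 ln12_11_5_ok) (M (nat_lit 430) (B (L (nat_lit 431) ln15_13_1 ln15_13_1_ok) (L (nat_lit 458) ln10_14_2 ln10_14_2_ok))))) (M (nat_lit 492) (B (L (nat_lit 524) ln12_16_6 ln12_16_6_ok) (M (nat_lit 363) (B (L (nat_lit 331) ln12_14_7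 ln12_14_7_ok) (L (nat_lit 395) ln12_15_7 ln12_15_7_ok))))))) (B (M (nat_lit 365) (B (L (nat_lit 492) ln13_11_5 ln13_11_5_ok) (M (nat_lit 462) (B (L (nat_lit 494) ln13_11_4 ln13_11_4_ok) (M (nat_lit 430) (B (L (nat_lit 333) ln13_10_4 ln13_10_4_ok) (M (nat_lit 431) (B (L (nat_lit 432) ln16_13_3 ln16_13_3_ok) (L (nat_lit 459) ln11_14_2 ln11_14_2_ok))))))))) (M (nat_lit 430) (B (M (nat_lit 431) (B (L (nat_lit 432) ln16_13_3 ln16_13_3_ok) (M (nat_lit 459) (B (L (nat_lit 458) ln10_14_2 ln10_14_2_ok) (L (nat_lit 462) ln11_14_2 ln11_14_2_ok))))) (B (M (nat_lit 459) (B (L (nat_lit 458) ln10_14_2 ln10_14_2_ok) (M (nat_lit 395) (B (L (nat_lit 394) ln10_12_0 ln10_12_0_ok) (M (nat_lit 491) (B (L (nat_lit 427) ln11_15_6 ln11_15_6_ok) (L (nat_lit 428) ln12_11_5 ln12_11_5_ok))))))) (M (nat_lit 431) (B (L (nat_lit 432) ln16_13_3 ln16_13_3_ok) (M (nat_lit 395) (B (L (nat_lit 394) ln10_12_0 ln10_12_0_ok) (L (nat_lit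 428) ln15_13_3 ln15_13_3_ok)))))))))))))) (B (M (nat_lit 332) (B (L (nat_lit 300) ln12_9_4 ln12_9_4_ok) (M (nat_lit 461) (B (L (nat_lit 428) ln12_10_4 ln12_10_4_ok) (L (nat_lit 493) ln13_15_7 ln13_15_7_ok))))) c21_n5122))))) (nat_lit 1386334847544579281930502452632026696468783264124728123740719198963059283254184240648144927045128292788721448874933630659377233920) (nat_lit 235872651606264715892042154520402061907489573041288865597410734754803414707176287826054032431418204455189306570364732866498867309588202849508950495926513169413997330432) (nat_lit 235872651606264715892042154520402061907489573041288865597410734754803414707176287826054032431418204455189306570364732866498867309588202849508950495926513169413997330432) (by decide +kernel)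
theorem c21_s5206 : Sem (nat_lit 1386334847544579281930502452632026696468783264124728123740719198963059283254184240648144927045128292788721448874933630659377233920) (nat_lit 54918381376944993208635256224835413055432924375029811914032617426720912962416835975771349451668092113764257638123216806910380072633506844058628955896559960064) (nat_lit 54918381376944993208635256224835413055432924375029811914032617426720912962416835975771349451668092113764257638123216806910380072633506844058628955896559960064) :=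
  sem_of_chk (M (nat_lit 364) (B (M (nat_lit 332) (B (L (nat_lit 300) ln12_9_4 ln12_9_4_ok) (M (nat_lit 461) (B (L (nat_lit 428) ln12_10_4 ln12_10_4_ok) (L (nat_lit 493) ln13_15_7 ln13_15_7_ok))))) (B (M (nat_lit 461) (B (L (nat_lit 493) ln13_15_7 ln13_15_7_ok) (M (nat_lit 332) (B (L (nat_lit 365) ln13_14_7 ln13_14_7_ok) (L (nat_lit 428) ln12_10_4 ln12_10_4_ok))))) (B (M (nat_lit 460) (B (M (nat_lit 461) (B (L (nat_lit 493) ln13_15_7 ln13_15_7_ok) (M (nat_lit 365) (B (L (nat_lit 492) ln13_11_5 ln13_11_5_ok) (M (nat_lit 333) (B (L (nat_lit 428) ln12_14_6 ln12_14_6_ok) (M (nat_lit 462) (B (L (nat_lit 430) ln13_10_4 ln13_10_4_ok) (L (nat_lit 494) ln13_11_4 ln13_11_4_ok))))))))) (B (M (nat_lit 363) (B (M (nat_lit 362) (B (L (nat_lit 361) ln9_11_0 ln9_11_0_ok) (M (nat_lit 398) (B (L (nat_lit 365) ln10_11_0 ln10_11_0_ok) (L (nat_lit 399) ln15_12_3 ln15_12_3_ok))))) (B (M (nat_lit 428) (B (L (nat_lit 331)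 ln12_14_7 ln12_14_7_ok) (M (nat_lit 492) (B (L (nat_lit 395) ln12_15_7 ln12_15_7_ok) (L (nat_lit 365) ln12_15_6 ln12_15_6_ok))))) (M (nat_lit 428) (B (L (nat_lit 331) ln12_14_7 ln12_14_7_ok) (M (nat_lit 492) (B (L (nat_lit 395) ln12_15_7 ln12_15_7_ok) (L (nat_lit 524) ln12_16_6 ln12_16_6_ok)))))))) (B (M (nat_lit 395) (B (M (nat_lit 430) (B (L (nat_lit 394) ln10_12_0 ln10_12_0_ok) (M (nat_lit 431) (B (L (nat_lit 428) ln15_13_3 ln15_13_3_ok) (L (nat_lit 432) ln16_13_3 ln16_13_3_ok))))) (B (M (nat_lit 363) (B (M (nat_lit 362) (B (L (nat_lit 361) ln9_11_0 ln9_11_0_ok) (L (nat_lit 398) ln14_12_3 ln14_12_3_ok))) (M (nat_lit 428) (B (L (nat_lit 331) ln12_14_7 ln12_14_7_ok) (L (nat_lit 492) ln12_15_7 ln12_15_7_ok))))) (M (nat_lit 430) (B (L (nat_lit 394) ln10_12_0 ln10_12_0_ok) (M (nat_lit 431) (B (L (nat_lit 398) ln11_12_0 ln11_12_0_ok) (L (nat_lit 432) ln16_13_3 ln16_13_3_ok)))))))) (B (M (nat_lit 461)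 (B (L (nat_lit 493) ln13_15_7 ln13_15_7_ok) (M (nat_lit 430) (B (M (nat_lit 431) (B (L (nat_lit 432) ln16_13_3 ln16_13_3_ok) (M (nat_lit 395) (B (L (nat_lit 394) ln10_12_0 ln10_12_0_ok) (L (nat_lit 398) ln11_12_0 ln11_12_0_ok))))) (M (nat_lit 365) (B (L (nat_lit 492) ln13_11_5 ln13_11_5_ok) (M (nat_lit 462) (B (L (nat_lit 333) ln13_10_4 ln13_10_4_ok) (L (nat_lit 494) ln13_11_4 ln13_11_4_ok))))))))) (M (nat_lit 428) (B (M (nat_lit 365) (B (L (nat_lit 333) ln12_14_6 ln12_14_6_ok) (M (nat_lit 363) (B (L (nat_lit 331) ln12_14_7 ln12_14_7_ok) (M (nat_lit 362) (B (L (nat_lit 361) ln9_11_0 ln9_11_0_ok) (L (nat_lit 398) ln10_11_0 ln10_11_0_ok))))))) (M (nat_lit 461) (B (L (nat_lit 493) ln13_15_7 ln13_15_7_ok) (M (nat_lit 459) (B (L (nat_lit 491) ln12_11_5 ln12_11_5_ok) (M (nat_lit 430) (B (L (nat_lit 431) ln15_13_1 ln15_13_1_ok) (L (nat_lit 458) ln10_14_2 ln10_14_2_ok)))))))))))))) (B (M (nat_lit 461) (B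 (L (nat_lit 493) ln13_15_7 ln13_15_7_ok) (M (nat_lit 332) (B (L (nat_lit 300) ln12_9_4 ln12_9_4_ok) (L (nat_lit 365) ln13_14_7 ln13_14_7_ok))))) (M (nat_lit 333) (B (M (nat_lit 332) (B (L (nat_lit 300) ln12_9_4 ln12_9_4_ok) (M (nat_lit 301) (B (L (nat_lit 428) ln12_13_6 ln12_13_6_ok) (M (nat_lit 365) (B (L (nat_lit 269) ln13_8_5 ln13_8_5_ok) (M (nat_lit 302) (B (L (nat_lit 270) ln13_12_6 ln13_12_6_ok) (L (nat_lit 334) ln13_13_6 ln13_13_6_ok))))))))) (B (M (nat_lit 428) (B (M (nat_lit 332) (B (L (nat_lit 300) ln12_9_4 ln12_9_4_ok) (L (nat_lit 301) ln12_13_6 ln12_13_6_ok))) (B (M (nat_lit 301) (B (L (nat_lit 332) ln12_13_6 ln12_13_6_ok) (L (nat_lit 365) ln13_9_5 ln13_9_5_ok))) (M (nat_lit 430) (B (M (nat_lit 365) (B (L (nat_lit 460) ln12_14_6 ln12_14_6_ok) (L (nat_lit 462) ln13_10_4 ln13_10_4_ok))) (M (nat_lit 395) (B (L (nat_lit 394) ln10_12_0 ln10_12_0_ok) (L (nat_lit 431) ln15_13_3 ln15_13_3_ok))))))))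 (B (M (nat_lit 365) (B (M (nat_lit 301) (B (L (nat_lit 269) ln13_8_5 ln13_8_5_ok) (L (nat_lit 428) ln13_9_5 ln13_9_5_ok))) (B (M (nat_lit 428) (B (L (nat_lit 301) ln13_9_5 ln13_9_5_ok) (L (nat_lit 460) ln12_14_6 ln12_14_6_ok))) (B (M (nat_lit 428) (B (L (nat_lit 460) ln12_14_6 ln12_14_6_ok) (M (nat_lit 430) (B (L (nat_lit 462) ln13_10_4 ln13_10_4_ok) (M (nat_lit 395) (B (L (nat_lit 394) ln10_12_0 ln10_12_0_ok) (L (nat_lit 431) ln15_13_3 ln15_13_3_ok))))))) (M (nat_lit 301) (B (L (nat_lit 269) ln13_8_5 ln13_8_5_ok) (M (nat_lit 302) (B (L (nat_lit 270) ln13_12_6 ln13_12_6_ok) (L (nat_lit 334) ln13_13_6 ln13_13_6_ok))))))))) (B (M (nat_lit 365) (B (M (nat_lit 428) (B (L (nat_lit 460) ln12_14_6 ln12_14_6_ok) (M (nat_lit 430) (B (L (nat_lit 462) ln13_10_4 ln13_10_4_ok) (M (nat_lit 395) (B (L (nat_lit 394) ln10_12_0 ln10_12_0_ok) (L (nat_lit 431) ln15_13_3 ln15_13_3_ok))))))) (M (nat_lit 332) (B (L (nat_lit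 300) ln13_13_7 ln13_13_7_ok) (M (nat_lit 334) (B (L (nat_lit 302) ln13_13_6 ln13_13_6_ok) (M (nat_lit 363) (B (L (nat_lit 335) ln15_10_1 ln15_10_1_ok) (L (nat_lit 362) ln10_11_2 ln10_11_2_ok))))))))) (B (M (nat_lit 332) (B (L (nat_lit 300) ln12_9_4 ln12_9_4_ok) (M (nat_lit 363) (B (M (nat_lit 362) (B (L (nat_lit 361) ln9_11_2 ln9_11_2_ok) (M (nat_lit 334) (B (L (nat_lit 331) ln14_10_1 ln14_10_1_ok) (L (nat_lit 335) ln15_10_1 ln15_10_1_ok))))) (B (M (nat_lit 362) (B (L (nat_lit 361) ln9_11_2 ln9_11_2_ok) (M (nat_lit 398) (B (L (nat_lit 395) ln14_12_3 ln14_12_3_ok) (L (nat_lit 399) ln15_12_3 ln15_12_3_ok))))) (M (nat_lit 428) (B (L (nat_lit 301) ln12_13_6 ln12_13_6_ok) (M (nat_lit 331) (B (L (nat_lit 299) ln12_13_7 ln12_13_7_ok) (L (nat_lit 460) ln12_14_7 ln12_14_7_ok)))))))))) (M (nat_lit 398) (B (M (nat_lit 363) (B (L (nat_lit 399) ln15_12_3 ln15_12_3_ok) (M (nat_lit 362) (B (L (nat_lit 361) ln9_11_0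 ln9_11_0_ok) (L (nat_lit 395) ln14_12_3 ln14_12_3_ok))))) (B (M (nat_lit 363) (B (L (nat_lit 399) ln15_12_3 ln15_12_3_ok) (M (nat_lit 362) (B (L (nat_lit 365) ln10_11_0 ln10_11_0_ok) (L (nat_lit 395) ln14_12_3 ln14_12_3_ok))))) (B (M (nat_lit 430) (B (M (nat_lit 365) (B (L (nat_lit 301) ln13_9_4 ln13_9_4_ok) (L (nat_lit 462) ln13_10_4 ln13_10_4_ok))) (M (nat_lit 395) (B (L (nat_lit 394) ln10_12_0 ln10_12_0_ok) (L (nat_lit 431) ln11_12_0 ln11_12_0_ok))))) (M (nat_lit 363) (B (L (nat_lit 399) ln15_12_3 ln15_12_3_ok) (M (nat_lit 362) (B (L (nat_lit 361) ln9_11_0 ln9_11_0_ok) (L (nat_lit 365) ln10_11_0 ln10_11_0_ok)))))))))))))))))))) (nat_lit 1386334847544579281930502452632026696468783264124728123740719198963059283254184240648144927045128292788721448874933630659377233920) (nat_lit 54918381376944993208635256224835413055432924375029811914032617426720912962416835975771349451668092113764257638123216806910380072633506844058628955896559960064)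 (nat_lit 54918381376944993208635256224835413055432924375029811914032617426720912962416835975771349451668092113764257638123216806910380072633506844058628955896559960064) (by decide +kernel)
noncomputable def c21_n5325 : Cert := (M (nat_lit 461) (B (M (nat_lit 364) (B (L (nat_lit 493) ln13_15_7 ln13_15_7_ok) (M (nat_lit 332) (B (L (nat_lit 300) ln12_9_4 ln12_9_4_ok) (L (nat_lit 365) ln13_14_7 ln13_14_7_ok))))) (B (M (nat_lit 493) (B (L (nat_lit 364) ln13_15_7 ln13_15_7_ok) (M (nat_lit 365) (B (M (nat_lit 492) (B (L (nat_lit 460) ln13_11_5 ln13_11_5_ok) (L (nat_lit 524) ln13_12_5 ln13_12_5_ok))) (M (nat_lit 494) (B (L (nat_lit 462) ln13_11_4 ln13_11_4_ok) (L (nat_lit 526) ln13_12_4 ln13_12_4_ok))))))) (B (M (nat_lit 430) (B (M (nat_lit 431) (B (L (nat_lit 398) ln11_12_0 ln11_12_0_ok) (L (nat_lit 432) ln16_13_3 ln16_13_3_ok))) (B (M (nat_lit 460) (B (M (nat_lit 431) (B (L (nat_lit 432) ln16_13_3 ln16_13_3_ok)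 (M (nat_lit 459) (B (L (nat_lit 458) ln10_14_2 ln10_14_2_ok) (L (nat_lit 462) ln11_14_2 ln11_14_2_ok))))) (M (nat_lit 492) (B (L (nat_lit 365) ln13_11_5 ln13_11_5_ok) (M (nat_lit 524) (B (L (nat_lit 493) ln13_12_5 ln13_12_5_ok) (L (nat_lit 556) ln12_17_6 ln12_17_6_ok))))))) (M (nat_lit 493) (B (M (nat_lit 525) (B (L (nat_lit 398) ln13_16_6 ln13_16_6_ok) (M (nat_lit 524) (B (L (nat_lit 492) ln13_12_5 ln13_12_5_ok) (L (nat_lit 556) ln13_13_5 ln13_13_5_ok))))) (B (M (nat_lit 365) (B (M (nat_lit 492) (B (L (nat_lit 460) ln13_11_5 ln13_11_5_ok) (L (nat_lit 524) ln13_12_5 ln13_12_5_ok))) (M (nat_lit 494) (B (L (nat_lit 462) ln13_11_4 ln13_11_4_ok) (L (nat_lit 526) ln13_12_4 ln13_12_4_ok))))) (M (nat_lit 462) (B (M (nat_lit 365) (B (L (nat_lit 333) ln13_10_4 ln13_10_4_ok) (L (nat_lit 494) ln13_11_4 ln13_11_4_ok))) (M (nat_lit 525) (B (L (nat_lit 398) ln13_16_6 ln13_16_6_ok) (L (nat_lit 557) ln13_17_6 ln13_17_6_ok)))))))))))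 (B (M (nat_lit 430) (B (M (nat_lit 431) (B (L (nat_lit 398) ln11_12_0 ln11_12_0_ok) (L (nat_lit 432) ln16_13_3 ln16_13_3_ok))) (B (M (nat_lit 364) (B (L (nat_lit 493) ln13_15_7 ln13_15_7_ok) (M (nat_lit 459) (B (M (nat_lit 332) (B (L (nat_lit 300) ln12_9_4 ln12_9_4_ok) (M (nat_lit 427) (B (L (nat_lit 363) ln11_14_6 ln11_14_6_ok) (L (nat_lit 491) ln11_15_6 ln11_15_6_ok))))) (M (nat_lit 431) (B (L (nat_lit 432) ln16_13_3 ln16_13_3_ok) (M (nat_lit 460) (B (L (nat_lit 458) ln10_14_2 ln10_14_2_ok) (L (nat_lit 462) ln11_14_2 ln11_14_2_ok))))))))) (M (nat_lit 493) (B (L (nat_lit 364) ln13_15_7 ln13_15_7_ok) (M (nat_lit 525) (B (L (nat_lit 398) ln13_16_6 ln13_16_6_ok) (M (nat_lit 524) (B (L (nat_lit 492) ln13_12_5 ln13_12_5_ok) (L (nat_lit 556) ln13_13_5 ln13_13_5_ok)))))))))) (M (nat_lit 365) (B (M (nat_lit 332) (B (L (nat_lit 364) ln13_14_7 ln13_14_7_ok) (M (nat_lit 333) (B (L (nat_lit 300) ln13_13_7 ln13_13_7_ok)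 (M (nat_lit 462) (B (L (nat_lit 430) ln13_10_4 ln13_10_4_ok) (L (nat_lit 494) ln13_11_4 ln13_11_4_ok))))))) (B (M (nat_lit 430) (B (M (nat_lit 462) (B (L (nat_lit 333) ln13_10_4 ln13_10_4_ok) (L (nat_lit 494) ln13_11_4 ln13_11_4_ok))) (M (nat_lit 431) (B (L (nat_lit 398) ln11_12_0 ln11_12_0_ok) (L (nat_lit 432) ln16_13_3 ln16_13_3_ok))))) (B (M (nat_lit 460) (B (L (nat_lit 492) ln13_11_5 ln13_11_5_ok) (M (nat_lit 459) (B (M (nat_lit 430) (B (L (nat_lit 458) ln10_14_2 ln10_14_2_ok) (M (nat_lit 431) (B (L (nat_lit 398) ln11_12_0 ln11_12_0_ok) (L (nat_lit 432) ln16_13_3 ln16_13_3_ok))))) (B (M (nat_lit 430) (B (L (nat_lit 458) ln10_14_2 ln10_14_2_ok) (M (nat_lit 431) (B (L (nat_lit 432) ln16_13_3 ln16_13_3_ok) (L (nat_lit 462) ln11_14_2 ln11_14_2_ok))))) (M (nat_lit 427) (B (M (nat_lit 364) (B (L (nat_lit 332) ln13_14_7 ln13_14_7_ok) (L (nat_lit 491) ln11_15_6 ln11_15_6_ok))) (M (nat_lit 462) (B (L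 (nat_lit 494) ln13_11_4 ln13_11_4_ok) (L (nat_lit 426) ln14_14_3 ln14_14_3_ok)))))))))) (M (nat_lit 333) (B (M (nat_lit 332) (B (L (nat_lit 300) ln13_13_7 ln13_13_7_ok) (L (nat_lit 364) ln13_14_7 ln13_14_7_ok))) (B (M (nat_lit 301) (B (M (nat_lit 364) (B (L (nat_lit 269) ln13_8_5 ln13_8_5_ok) (L (nat_lit 332) ln13_14_7 ln13_14_7_ok))) (M (nat_lit 302) (B (L (nat_lit 270) ln13_12_6 ln13_12_6_ok) (L (nat_lit 334) ln13_13_6 ln13_13_6_ok))))) (B (M (nat_lit 301) (B (M (nat_lit 302) (B (L (nat_lit 270) ln13_12_6 ln13_12_6_ok) (L (nat_lit 334) ln13_13_6 ln13_13_6_ok))) (M (nat_lit 268) (B (L (nat_lit 300) ln13_12_7 ln13_12_7_ok) (M (nat_lit 269) (B (L (nat_lit 236) ln13_11_7 ln13_11_7_ok) (L (nat_lit 364) ln13_8_5 ln13_8_5_ok))))))) (M (nat_lit 301) (B (M (nat_lit 300) (B (L (nat_lit 268) ln13_12_7 ln13_12_7_ok) (L (nat_lit 332) ln13_13_7 ln13_13_7_ok))) (M (nat_lit 302) (B (L (nat_lit 270) ln13_12_6 ln13_12_6_ok)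 (L (nat_lit 334) ln13_13_6 ln13_13_6_ok))))))))))))))))))
theorem c21_s5352 : Sem (nat_lit 1386334847544579281930502452632026696468783264124728123740719198963059283254184240648144927045128292788721448874933630659377233920) (nat_lit 707617955038467672608505743463066911627621693348497935197441142655259252410404223289798972443644539491050816605146219288508876049087088856379772079750516549673296068608) (nat_lit 707617955038467672608505743463066911627621693348497935197441142655259252410404223289798972443644539491050816605146219288508876049087088856379772079750516549673296068608) :=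
  sem_of_chk (M (nat_lit 395) (B (M (nat_lit 430) (B (L (nat_lit 394) ln10_12_0 ln10_12_0_ok) (M (nat_lit 431) (B (L (nat_lit 398) ln11_12_0 ln11_12_0_ok) (L (nat_lit 432) ln16_13_3 ln16_13_3_ok))))) (B c21_n5325 (B (M (nat_lit 394) (B (L (nat_lit 430) ln10_12_0 ln10_12_0_ok) (M (nat_lit 393) (B (M (nat_lit 361) (B (L (nat_lit 360) ln12_12_3 ln12_12_3_ok) (L (nat_lit 362) ln13_12_3 ln13_12_3_ok))) (M (nat_lit 425) (B (L (nat_lit 424) ln12_12_1 ln12_12_1_ok) (L (nat_lit 426) ln13_12_1 ln13_12_1_ok))))))) (M (nat_lit 364) (B (M (nat_lit 332) (B (L (nat_lit 300) ln12_9_4 ln12_9_4_ok) (M (nat_lit 461) (B (L (nat_lit 365) ln13_14_7 ln13_14_7_ok) (L (nat_lit 493) ln13_15_7 ln13_15_7_ok))))) (B (M (nat_lit 394) (B (M (nat_lit 393) (B (L (nat_lit 365) ln9_12_2 ln9_12_2_ok) (M (nat_lit 361) (B (L (nat_lit 360) ln12_12_3 ln12_12_3_ok) (L (nat_lit 362) ln13_12_3 ln13_12_3_ok))))) (B (M (nat_lit 393) (B (L (nat_lit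 365) ln9_12_2 ln9_12_2_ok) (M (nat_lit 425) (B (L (nat_lit 424) ln12_12_1 ln12_12_1_ok) (L (nat_lit 426) ln13_12_1 ln13_12_1_ok))))) (M (nat_lit 398) (B (M (nat_lit 362) (B (L (nat_lit 361) ln13_12_3 ln13_12_3_ok) (L (nat_lit 363) ln14_12_3 ln14_12_3_ok))) (M (nat_lit 426) (B (L (nat_lit 425) ln13_12_1 ln13_12_1_ok) (L (nat_lit 427) ln14_12_1 ln14_12_1_ok)))))))) (M (nat_lit 427) (B (M (nat_lit 398) (B (L (nat_lit 426) ln14_12_1 ln14_12_1_ok) (M (nat_lit 363) (B (L (nat_lit 362) ln14_12_3 ln14_12_3_ok) (L (nat_lit 399) ln15_12_3 ln15_12_3_ok))))) (B (M (nat_lit 332) (B (L (nat_lit 300) ln12_9_5 ln12_9_5_ok) (M (nat_lit 459) (B (L (nat_lit 363) ln11_14_6 ln11_14_6_ok) (L (nat_lit 491) ln11_15_6 ln11_15_6_ok))))) (M (nat_lit 426) (B (L (nat_lit 398) ln14_12_1 ln14_12_1_ok) (M (nat_lit 425) (B (L (nat_lit 394) ln13_12_1 ln13_12_1_ok) (L (nat_lit 424) ln8_13_2 ln8_13_2_ok))))))))))))))) (nat_lit 1386334847544579281930502452632026696468783264124728123740719198963059283254184240648144927045128292788721448874933630659377233920)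 (nat_lit 707617955038467672608505743463066911627621693348497935197441142655259252410404223289798972443644539491050816605146219288508876049087088856379772079750516549673296068608) (nat_lit 707617955038467672608505743463066911627621693348497935197441142655259252410404223289798972443644539491050816605146219288508876049087088856379772079750516549673296068608) (by decide +kernel)
noncomputable def c21_n5415 : Cert := (M (nat_lit 460) (B (M (nat_lit 492) (B (L (nat_lit 365) ln13_11_5 ln13_11_5_ok) (M (nat_lit 524) (B (L (nat_lit 428) ln12_16_6 ln12_16_6_ok) (L (nat_lit 556) ln12_17_6 ln12_17_6_ok))))) (B (M (nat_lit 428) (B (M (nat_lit 492) (B (L (nat_lit 524) ln12_16_6 ln12_16_6_ok) (M (nat_lit 364) (B (L (nat_lit 332) ln12_10_4 ln12_10_4_ok) (M (nat_lit 491) (B (L (nat_lit 459) ln12_11_5 ln12_11_5_ok) (L (nat_lit 523) ln12_12_5 ln12_12_5_ok))))))) (B (M (nat_lit 426) (B (M (nat_lit 427) (B (L (nat_lit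 425) ln9_13_2 ln9_13_2_ok) (L (nat_lit 398) ln10_13_2 ln10_13_2_ok))) (B (M (nat_lit 427) (B (L (nat_lit 425) ln9_13_2 ln9_13_2_ok) (L (nat_lit 462) ln10_13_0 ln10_13_0_ok))) (B (M (nat_lit 427) (B (L (nat_lit 398) ln10_13_2 ln10_13_2_ok) (L (nat_lit 462) ln10_13_0 ln10_13_0_ok))) (M (nat_lit 395) (B (M (nat_lit 492) (B (L (nat_lit 363) ln12_15_7 ln12_15_7_ok) (L (nat_lit 524) ln12_16_6 ln12_16_6_ok))) (M (nat_lit 394) (B (L (nat_lit 393) ln9_12_0 ln9_12_0_ok) (L (nat_lit 425) ln13_12_1 ln13_12_1_ok))))))))) (M (nat_lit 426) (B (M (nat_lit 427) (B (L (nat_lit 425) ln9_13_2 ln9_13_2_ok) (L (nat_lit 398) ln10_13_2 ln10_13_2_ok))) (B (M (nat_lit 427) (B (L (nat_lit 425) ln9_13_2 ln9_13_2_ok) (L (nat_lit 462) ln10_13_0 ln10_13_0_ok))) (B (M (nat_lit 427) (B (L (nat_lit 398) ln10_13_2 ln10_13_2_ok) (L (nat_lit 462) ln10_13_0 ln10_13_0_ok))) (M (nat_lit 459) (B (M (nat_lit 364) (B (L (nat_lit 332) ln12_10_4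 ln12_10_4_ok) (L (nat_lit 491) ln12_11_5 ln12_11_5_ok))) (M (nat_lit 458) (B (L (nat_lit 425) ln13_14_3 ln13_14_3_ok) (L (nat_lit 457) ln9_14_2 ln9_14_2_ok)))))))))))) (B (M (nat_lit 365) (B (L (nat_lit 492) ln13_11_5 ln13_11_5_ok) (M (nat_lit 333) (B (M (nat_lit 332) (B (L (nat_lit 300) ln13_13_7 ln13_13_7_ok) (L (nat_lit 364) ln13_14_7 ln13_14_7_ok))) (B (M (nat_lit 301) (B (M (nat_lit 364) (B (L (nat_lit 269) ln13_8_5 ln13_8_5_ok) (L (nat_lit 332) ln13_14_7 ln13_14_7_ok))) (M (nat_lit 302) (B (L (nat_lit 270) ln13_12_6 ln13_12_6_ok) (L (nat_lit 334) ln13_13_6 ln13_13_6_ok))))) (B (M (nat_lit 301) (B (M (nat_lit 302) (B (L (nat_lit 270) ln13_12_6 ln13_12_6_ok) (L (nat_lit 334) ln13_13_6 ln13_13_6_ok))) (M (nat_lit 268) (B (L (nat_lit 300) ln13_12_7 ln13_12_7_ok) (M (nat_lit 269) (B (L (nat_lit 236) ln13_11_7 ln13_11_7_ok) (L (nat_lit 364) ln13_8_5 ln13_8_5_ok))))))) (M (nat_lit 301) (B (M (nat_lit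 300) (B (L (nat_lit 268) ln13_12_7 ln13_12_7_ok) (L (nat_lit 332) ln13_13_7 ln13_13_7_ok))) (M (nat_lit 302) (B (L (nat_lit 270) ln13_12_6 ln13_12_6_ok) (L (nat_lit 334) ln13_13_6 ln13_13_6_ok))))))))))) (M (nat_lit 364) (B (M (nat_lit 332) (B (L (nat_lit 300) ln12_9_4 ln12_9_4_ok) (L (nat_lit 365) ln13_14_7 ln13_14_7_ok))) (B (M (nat_lit 332) (B (L (nat_lit 365) ln13_14_7 ln13_14_7_ok) (L (nat_lit 428) ln12_10_4 ln12_10_4_ok))) (B (M (nat_lit 428) (B (M (nat_lit 365) (B (L (nat_lit 333) ln12_14_6 ln12_14_6_ok) (M (nat_lit 363) (B (L (nat_lit 331) ln12_14_7 ln12_14_7_ok) (M (nat_lit 362) (B (L (nat_lit 361) ln9_11_0 ln9_11_0_ok) (L (nat_lit 398) ln10_11_0 ln10_11_0_ok))))))) (B (M (nat_lit 426) (B (M (nat_lit 427) (B (L (nat_lit 425) ln9_13_2 ln9_13_2_ok) (L (nat_lit 398) ln10_13_2 ln10_13_2_ok))) (B (M (nat_lit 427) (B (L (nat_lit 425) ln9_13_2 ln9_13_2_ok) (L (nat_lit 462) ln10_13_0 ln10_13_0_ok)))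 (B (M (nat_lit 427) (B (L (nat_lit 398) ln10_13_2 ln10_13_2_ok) (L (nat_lit 462) ln10_13_0 ln10_13_0_ok))) (M (nat_lit 459) (B (L (nat_lit 491) ln12_11_5 ln12_11_5_ok) (M (nat_lit 458) (B (L (nat_lit 425) ln13_14_3 ln13_14_3_ok) (L (nat_lit 457) ln9_14_2 ln9_14_2_ok))))))))) (M (nat_lit 426) (B (M (nat_lit 427) (B (L (nat_lit 425) ln9_13_2 ln9_13_2_ok) (L (nat_lit 462) ln10_13_0 ln10_13_0_ok))) (B (M (nat_lit 365) (B (L (nat_lit 333) ln12_14_6 ln12_14_6_ok) (M (nat_lit 462) (B (L (nat_lit 494) ln13_11_4 ln13_11_4_ok) (L (nat_lit 427) ln10_13_0 ln10_13_0_ok))))) (M (nat_lit 459) (B (L (nat_lit 491) ln12_11_5 ln12_11_5_ok) (M (nat_lit 458) (B (L (nat_lit 425) ln13_14_3 ln13_14_3_ok) (L (nat_lit 457) ln9_14_2 ln9_14_2_ok))))))))))) (M (nat_lit 332) (B (L (nat_lit 300) ln12_9_4 ln12_9_4_ok) (L (nat_lit 428) ln12_10_4 ln12_10_4_ok)))))))))))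
theorem c21_s5416 : Sem (nat_lit 1386334847544579281930502452632026696468783264124728123740719198963059283254184240648144927045128292788721448874933630659377233920) (nat_lit 235872651963234194218833859699833044867412620992904613667246223781723740725957722377485472741532391317697818738051253206581995241636651428220571382143060004424669724672) (nat_lit 235872651963234194218833859699833044867412620992904613667246223781723740725957722377485472741532391317697818738051253206581995241636651428220571382143060004424669724672) :=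
  sem_of_chk (M (nat_lit 461) (B (M (nat_lit 364) (B (L (nat_lit 493) ln13_15_7 ln13_15_7_ok) (M (nat_lit 332) (B (L (nat_lit 300) ln12_9_4 ln12_9_4_ok) (L (nat_lit 365) ln13_14_7 ln13_14_7_ok))))) (B (M (nat_lit 364) (B (L (nat_lit 493) ln13_15_7 ln13_15_7_ok) (M (nat_lit 332) (B (L (nat_lit 365) ln13_14_7 ln13_14_7_ok) (L (nat_lit 428) ln12_10_4 ln12_10_4_ok))))) (B (M (nat_lit 493) (B (L (nat_lit 364) ln13_15_7 ln13_15_7_ok) (M (nat_lit 525) (B (L (nat_lit 428) ln13_16_7 ln13_16_7_ok) (M (nat_lit 524) (B (L (nat_lit 492) ln13_12_5 ln13_12_5_ok) (L (nat_lit 556) ln13_13_5 ln13_13_5_ok))))))) (B (M (nat_lit 365) (B (M (nat_lit 493) (B (M (nat_lit 492) (B (L (nat_lit 460) ln13_11_5 ln13_11_5_ok) (L (nat_lit 524) ln13_12_5 ln13_12_5_ok))) (M (nat_lit 494) (B (L (nat_lit 462) ln13_11_4 ln13_11_4_ok) (L (nat_lit 526) ln13_12_4 ln13_12_4_ok))))) (B (M (nat_lit 493) (B (M (nat_lit 494) (B (L (nat_lit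 462) ln13_11_4 ln13_11_4_ok) (L (nat_lit 526) ln13_12_4 ln13_12_4_ok))) (M (nat_lit 524) (B (L (nat_lit 492) ln13_12_5 ln13_12_5_ok) (M (nat_lit 525) (B (L (nat_lit 428) ln13_16_7 ln13_16_7_ok) (L (nat_lit 556) ln13_13_5 ln13_13_5_ok))))))) (B (M (nat_lit 333) (B (M (nat_lit 428) (B (L (nat_lit 301) ln13_9_5 ln13_9_5_ok) (L (nat_lit 460) ln13_10_5 ln13_10_5_ok))) (B (M (nat_lit 460) (B (L (nat_lit 428) ln13_10_5 ln13_10_5_ok) (L (nat_lit 492) ln13_11_5 ln13_11_5_ok))) (M (nat_lit 301) (B (M (nat_lit 300) (B (L (nat_lit 268) ln13_12_7 ln13_12_7_ok) (L (nat_lit 332) ln13_13_7 ln13_13_7_ok))) (M (nat_lit 302) (B (L (nat_lit 270) ln13_12_6 ln13_12_6_ok) (L (nat_lit 334) ln13_13_6 ln13_13_6_ok)))))))) (M (nat_lit 428) (B (M (nat_lit 333) (B (L (nat_lit 301) ln13_9_5 ln13_9_5_ok) (L (nat_lit 460) ln13_10_5 ln13_10_5_ok))) (M (nat_lit 493) (B (L (nat_lit 525) ln13_16_7 ln13_16_7_ok) (M (nat_lit 494) (B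 (L (nat_lit 462) ln13_11_4 ln13_11_4_ok) (L (nat_lit 526) ln13_12_4 ln13_12_4_ok))))))))))) c21_n5415))))) (nat_lit 1386334847544579281930502452632026696468783264124728123740719198963059283254184240648144927045128292788721448874933630659377233920) (nat_lit 235872651963234194218833859699833044867412620992904613667246223781723740725957722377485472741532391317697818738051253206581995241636651428220571382143060004424669724672) (nat_lit 235872651963234194218833859699833044867412620992904613667246223781723740725957722377485472741532391317697818738051253206581995241636651428220571382143060004424669724672) (by decide +kernel)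
noncomputable def c21_n5558 : Cert := (M (nat_lit 395) (B (M (nat_lit 394) (B (L (nat_lit 430) ln10_12_0 ln10_12_0_ok) (M (nat_lit 393) (B (L (nat_lit 364) ln9_12_2 ln9_12_2_ok) (L (nat_lit 428) ln9_12_0 ln9_12_0_ok))))) (B (M (nat_lit 430) (B (L (nat_lit 394) ln10_12_0 ln10_12_0_ok) (M (nat_lit 431) (B (L (nat_lit 398) ln11_12_0 ln11_12_0_ok) (L (nat_lit 428) ln15_13_3 ln15_13_3_ok))))) (B (M (nat_lit 363) (B (M (nat_lit 362) (B (L (nat_lit 398) ln14_12_3 ln14_12_3_ok) (M (nat_lit 361) (B (L (nat_lit 360) ln8_11_0 ln8_11_0_ok) (L (nat_lit 364) ln9_11_0 ln9_11_0_ok))))) (B (M (nat_lit 364) (B (M (nat_lit 332) (B (L (nat_lit 300) ln12_9_4 ln12_9_4_ok) (L (nat_lit 461) ln13_14_7 ln13_14_7_ok))) (M (nat_lit 398) (B (L (nat_lit 362) ln10_11_0 ln10_11_0_ok) (L (nat_lit 399) ln15_12_3 ln15_12_3_ok))))) (B (M (nat_lit 331) (B (M (nat_lit 428) (B (L (nat_lit 299) ln11_9_4 ln11_9_4_ok) (M (nat_lit 460) (B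 (L (nat_lit 364) ln12_14_7 ln12_14_7_ok) (L (nat_lit 427) ln11_10_4 ln11_10_4_ok))))) (B (M (nat_lit 460) (B (M (nat_lit 428) (B (L (nat_lit 364) ln12_14_7 ln12_14_7_ok) (L (nat_lit 427) ln11_10_4 ln11_10_4_ok))) (B (M (nat_lit 428) (B (L (nat_lit 427) ln11_10_4 ln11_10_4_ok) (L (nat_lit 492) ln12_15_7 ln12_15_7_ok))) (B (M (nat_lit 428) (B (L (nat_lit 364) ln12_14_7 ln12_14_7_ok) (L (nat_lit 492) ln12_15_7 ln12_15_7_ok))) (M (nat_lit 461) (B (L (nat_lit 492) ln13_11_5 ln13_11_5_ok) (M (nat_lit 364) (B (L (nat_lit 332) ln13_14_7 ln13_14_7_ok) (L (nat_lit 493) ln13_15_7 ln13_15_7_ok))))))))) (B (M (nat_lit 428) (B (L (nat_lit 299) ln11_9_4 ln11_9_4_ok) (M (nat_lit 460) (B (L (nat_lit 427) ln11_10_4 ln11_10_4_ok) (L (nat_lit 492) ln12_15_7 ln12_15_7_ok))))) (B (M (nat_lit 428) (B (L (nat_lit 299) ln11_9_4 ln11_9_4_ok) (M (nat_lit 460) (B (L (nat_lit 364) ln12_14_7 ln12_14_7_ok) (L (nat_lit 492) ln12_15_7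 ln12_15_7_ok))))) (M (nat_lit 299) (B (M (nat_lit 364) (B (L (nat_lit 267) ln11_8_4 ln11_8_4_ok) (M (nat_lit 300) (B (L (nat_lit 268) ln11_12_6 ln11_12_6_ok) (L (nat_lit 332) ln12_9_4 ln12_9_4_ok))))) (B (M (nat_lit 300) (B (L (nat_lit 268) ln11_12_6 ln11_12_6_ok) (M (nat_lit 332) (B (L (nat_lit 427) ln11_13_6 ln11_13_6_ok) (L (nat_lit 364) ln12_9_4 ln12_9_4_ok))))) (B (M (nat_lit 364) (B (L (nat_lit 267) ln11_8_4 ln11_8_4_ok) (M (nat_lit 332) (B (L (nat_lit 300) ln12_9_4 ln12_9_4_ok) (L (nat_lit 461) ln13_14_7 ln13_14_7_ok))))) (B (M (nat_lit 364) (B (L (nat_lit 267) ln11_8_4 ln11_8_4_ok) (M (nat_lit 461) (B (L (nat_lit 332) ln13_14_7 ln13_14_7_ok) (L (nat_lit 493) ln13_15_7 ln13_15_7_ok))))) (B (M (nat_lit 267) (B (L (nat_lit 364) ln11_8_4 ln11_8_4_ok) (M (nat_lit 268) (B (L (nat_lit 236) ln11_11_6 ln11_11_6_ok) (L (nat_lit 300) ln11_12_6 ln11_12_6_ok))))) (M (nat_lit 267) (B (M (nat_lit 266) (B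 (L (nat_lit 234) ln11_11_7 ln11_11_7_ok) (L (nat_lit 298) ln11_12_7 ln11_12_7_ok))) (M (nat_lit 268) (B (L (nat_lit 236) ln11_11_6 ln11_11_6_ok) (L (nat_lit 300) ln11_12_6 ln11_12_6_ok)))))))))))))))) (M (nat_lit 398) (B (L (nat_lit 362) ln14_12_3 ln14_12_3_ok) (M (nat_lit 427) (B (L (nat_lit 426) ln14_12_1 ln14_12_1_ok) (M (nat_lit 428) (B (L (nat_lit 399) ln15_12_1 ln15_12_1_ok) (M (nat_lit 331) (B (L (nat_lit 299) ln11_9_4 ln11_9_4_ok) (L (nat_lit 460) ln11_10_4 ln11_10_4_ok))))))))))))) (M (nat_lit 430) (B (L (nat_lit 394) ln10_12_0 ln10_12_0_ok) (M (nat_lit 431) (B (L (nat_lit 398) ln11_12_0 ln11_12_0_ok) (L (nat_lit 432) ln16_13_3 ln16_13_3_ok)))))))))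
theorem c21_s5573 : Sem (nat_lit 1386334847544579281930502452632026696468783264124728123740719198963059283254184240648144927045128292788721448874933630659377233920) (nat_lit 219673525213686285334920874752403110343183270859809917989183790143143902669375082764259858107934018452333294419461679770166981383601430339566013422276469325824) (nat_lit 219673525213686285334920874752403110343183270859809917989183790143143902669375082764259858107934018452333294419461679770166981383601430339566013422276469325824) :=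
  sem_of_chk (M (nat_lit 365) (B (M (nat_lit 430) (B (M (nat_lit 462) (B (L (nat_lit 333) ln13_10_4 ln13_10_4_ok) (M (nat_lit 494) (B (L (nat_lit 398) ln14_15_7 ln14_15_7_ok) (L (nat_lit 461) ln13_11_4 ln13_11_4_ok))))) (B (M (nat_lit 395) (B (L (nat_lit 394) ln10_12_0 ln10_12_0_ok) (M (nat_lit 431) (B (L (nat_lit 398) ln11_12_0 ln11_12_0_ok) (L (nat_lit 432) ln16_13_3 ln16_13_3_ok))))) (M (nat_lit 462) (B (L (nat_lit 333) ln13_10_4 ln13_10_4_ok) (M (nat_lit 494) (B (L (nat_lit 461) ln13_11_4 ln13_11_4_ok) (L (nat_lit 526) ln14_16_7 ln14_16_7_ok)))))))) (B c21_n5558 (B (M (nat_lit 333) (B (M (nat_lit 428) (B (L (nat_lit 301) ln13_9_5 ln13_9_5_ok) (L (nat_lit 460) ln13_10_5 ln13_10_5_ok))) (M (nat_lit 461) (B (M (nat_lit 332) (B (L (nat_lit 300) ln13_13_7 ln13_13_7_ok) (L (nat_lit 364) ln13_14_7 ln13_14_7_ok))) (M (nat_lit 462) (B (L (nat_lit 430) ln13_10_4 ln13_10_4_ok) (L (nat_lit 494) ln13_11_4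 ln13_11_4_ok))))))) (B (M (nat_lit 333) (B (M (nat_lit 428) (B (L (nat_lit 301) ln13_9_5 ln13_9_5_ok) (L (nat_lit 460) ln13_10_5 ln13_10_5_ok))) (B (M (nat_lit 461) (B (M (nat_lit 332) (B (L (nat_lit 300) ln13_13_7 ln13_13_7_ok) (L (nat_lit 364) ln13_14_7 ln13_14_7_ok))) (M (nat_lit 460) (B (L (nat_lit 428) ln13_10_5 ln13_10_5_ok) (L (nat_lit 492) ln13_11_5 ln13_11_5_ok))))) (M (nat_lit 301) (B (M (nat_lit 300) (B (L (nat_lit 268) ln13_12_7 ln13_12_7_ok) (L (nat_lit 332) ln13_13_7 ln13_13_7_ok))) (M (nat_lit 302) (B (L (nat_lit 270) ln13_12_6 ln13_12_6_ok) (L (nat_lit 334) ln13_13_6 ln13_13_6_ok)))))))) (M (nat_lit 430) (B (M (nat_lit 333) (B (L (nat_lit 462) ln13_10_4 ln13_10_4_ok) (M (nat_lit 428) (B (L (nat_lit 301) ln13_9_5 ln13_9_5_ok) (L (nat_lit 460) ln13_10_5 ln13_10_5_ok))))) (M (nat_lit 395) (B (L (nat_lit 394) ln10_12_0 ln10_12_0_ok) (M (nat_lit 431) (B (L (nat_lit 398) ln11_12_0 ln11_12_0_ok)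 (L (nat_lit 432) ln16_13_3 ln16_13_3_ok)))))))))))) (nat_lit 1386334847544579281930502452632026696468783264124728123740719198963059283254184240648144927045128292788721448874933630659377233920) (nat_lit 219673525213686285334920874752403110343183270859809917989183790143143902669375082764259858107934018452333294419461679770166981383601430339566013422276469325824) (nat_lit 219673525213686285334920874752403110343183270859809917989183790143143902669375082764259858107934018452333294419461679770166981383601430339566013422276469325824) (by decide +kernel)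
theorem c21_s5577 : Sem (nat_lit 1386334847383188664550070665778531748218595021979121511688892729411143073470393764272092352380775458208712834410189682411080515584) (nat_lit 707617955065926863252224852838890232362958612599183033083261582788188025748834923112127106507966454257758202788781630602924499093069635534417990839955859688247093362688) (nat_lit 707617955065926863252224852838890232362958612599183033083261582788188025748834923112127106507966454257758202788781630602924499093069635534417990839955859688247093362688) :=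
  sem_of_chk (M (nat_lit 396) (B c21_n4561 (B c21_n4601 (B (K (nat_lit 1386334847544579281930502452632026696468783264124728123740719198963059283254184240648144927045128292788721448874933630659377233920) (nat_lit 384428669063214259528138635997097480934035165089025713815672510596410306501494482438216404198083035091703281957596188975635484075995307998962690476914988023808) (nat_lit 384428669063214259528138635997097480934035165089025713815672510596410306501494482438216404198083035091703281957596188975635484075995307998962690476914988023808) c21_s4625) (B (K (nat_lit 1386334847544579281930502452632026696468783264124728123740719198963059283254184240648144927045128292788721448874933630659377233920) (nat_lit 235872651633723906484614535647848165856936423938435977665165111906335403197658908463218169424433432565112055699924164086873737172014255727908437488107099237505155727360) (nat_lit 235872651633723906484614535647848165856936423938435977665165111906335403197658908463218169424433432565112055699924164086873737172014255727908437488107099237505155727360)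 c21_s4704) (B (M (nat_lit 395) (B (M (nat_lit 430) (B (L (nat_lit 394) ln10_12_0 ln10_12_0_ok) (M (nat_lit 431) (B (L (nat_lit 428) ln15_13_3 ln15_13_3_ok) (L (nat_lit 432) ln16_13_3 ln16_13_3_ok))))) (B (M (nat_lit 398) (B (M (nat_lit 427) (B (L (nat_lit 426) ln14_12_1 ln14_12_1_ok) (M (nat_lit 399) (B (L (nat_lit 428) ln15_12_1 ln15_12_1_ok) (M (nat_lit 363) (B (L (nat_lit 362) ln14_12_3 ln14_12_3_ok) (L (nat_lit 364) ln15_12_3 ln15_12_3_ok))))))) (B (M (nat_lit 399) (B (M (nat_lit 427) (B (L (nat_lit 426) ln14_12_1 ln14_12_1_ok) (L (nat_lit 428) ln15_12_1 ln15_12_1_ok))) (M (nat_lit 431) (B (L (nat_lit 430) ln11_12_0 ln11_12_0_ok) (L (nat_lit 432) ln12_12_0 ln12_12_0_ok))))) (B (M (nat_lit 428) (B (M (nat_lit 363) (B (L (nat_lit 362) ln14_12_3 ln14_12_3_ok) (M (nat_lit 460) (B (L (nat_lit 492) ln12_15_7 ln12_15_7_ok) (M (nat_lit 331) (B (L (nat_lit 299) ln11_9_4 ln11_9_4_ok) (L (nat_lit 364) ln12_14_7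 ln12_14_7_ok))))))) (B (M (nat_lit 427) (B (L (nat_lit 426) ln14_12_1 ln14_12_1_ok) (M (nat_lit 363) (B (L (nat_lit 362) ln14_12_3 ln14_12_3_ok) (M (nat_lit 460) (B (L (nat_lit 331) ln11_10_4 ln11_10_4_ok) (L (nat_lit 492) ln12_15_7 ln12_15_7_ok))))))) (M (nat_lit 427) (B (L (nat_lit 426) ln14_12_1 ln14_12_1_ok) (M (nat_lit 459) (B (M (nat_lit 491) (B (L (nat_lit 364) ln11_15_6 ln11_15_6_ok) (L (nat_lit 523) ln11_16_6 ln11_16_6_ok))) (M (nat_lit 430) (B (L (nat_lit 431) ln11_12_0 ln11_12_0_ok) (L (nat_lit 458) ln14_13_1 ln14_13_1_ok)))))))))) (M (nat_lit 399) (B (M (nat_lit 363) (B (L (nat_lit 362) ln14_12_3 ln14_12_3_ok) (L (nat_lit 364) ln15_12_3 ln15_12_3_ok))) (M (nat_lit 431) (B (L (nat_lit 430) ln11_12_0 ln11_12_0_ok) (L (nat_lit 432) ln12_12_0 ln12_12_0_ok))))))))) (B (M (nat_lit 430) (B (L (nat_lit 394) ln10_12_0 ln10_12_0_ok) (M (nat_lit 431) (B (L (nat_lit 398) ln11_12_0 ln11_12_0_ok) (L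 (nat_lit 432) ln16_13_3 ln16_13_3_ok))))) (M (nat_lit 394) (B (M (nat_lit 393) (B (L (nat_lit 428) ln9_12_0 ln9_12_0_ok) (M (nat_lit 425) (B (L (nat_lit 424) ln12_12_1 ln12_12_1_ok) (L (nat_lit 426) ln13_12_1 ln13_12_1_ok))))) (B (M (nat_lit 398) (B (M (nat_lit 362) (B (L (nat_lit 361) ln13_12_3 ln13_12_3_ok) (L (nat_lit 363) ln14_12_3 ln14_12_3_ok))) (M (nat_lit 426) (B (L (nat_lit 425) ln13_12_1 ln13_12_1_ok) (L (nat_lit 427) ln14_12_1 ln14_12_1_ok))))) (M (nat_lit 393) (B (L (nat_lit 428) ln9_12_0 ln9_12_0_ok) (M (nat_lit 361) (B (L (nat_lit 360) ln12_12_3 ln12_12_3_ok) (L (nat_lit 362) ln13_12_3 ln13_12_3_ok)))))))))))) (B c21_n4795 (B (M (nat_lit 430) (B (M (nat_lit 431) (B (L (nat_lit 432) ln16_13_3 ln16_13_3_ok) (M (nat_lit 395) (B (L (nat_lit 398) ln11_12_0 ln11_12_0_ok) (L (nat_lit 428) ln15_13_3 ln15_13_3_ok))))) (B (M (nat_lit 461) (B (M (nat_lit 364) (B (L (nat_lit 493) ln13_15_7 ln13_15_7_ok)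 (M (nat_lit 332) (B (L (nat_lit 300) ln12_9_4 ln12_9_4_ok) (L (nat_lit 428) ln12_10_4 ln12_10_4_ok))))) (B (M (nat_lit 364) (B (L (nat_lit 493) ln13_15_7 ln13_15_7_ok) (M (nat_lit 332) (B (L (nat_lit 365) ln13_14_7 ln13_14_7_ok) (L (nat_lit 428) ln12_10_4 ln12_10_4_ok))))) (B (M (nat_lit 460) (B (M (nat_lit 431) (B (L (nat_lit 432) ln16_13_3 ln16_13_3_ok) (M (nat_lit 459) (B (L (nat_lit 428) ln15_13_1 ln15_13_1_ok) (L (nat_lit 458) ln10_14_2 ln10_14_2_ok))))) (B (M (nat_lit 431) (B (L (nat_lit 432) ln16_13_3 ln16_13_3_ok) (M (nat_lit 459) (B (L (nat_lit 458) ln10_14_2 ln10_14_2_ok) (L (nat_lit 462) ln11_14_2 ln11_14_2_ok))))) (M (nat_lit 365) (B (L (nat_lit 492) ln13_11_5 ln13_11_5_ok) (M (nat_lit 333) (B (L (nat_lit 428) ln13_10_5 ln13_10_5_ok) (L (nat_lit 462) ln13_10_4 ln13_10_4_ok)))))))) (M (nat_lit 364) (B (L (nat_lit 493) ln13_15_7 ln13_15_7_ok) (M (nat_lit 332) (B (L (nat_lit 300) ln12_9_4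 ln12_9_4_ok) (L (nat_lit 365) ln13_14_7 ln13_14_7_ok))))))))) (B (M (nat_lit 431) (B (L (nat_lit 432) ln16_13_3 ln16_13_3_ok) (M (nat_lit 395) (B (L (nat_lit 394) ln10_12_0 ln10_12_0_ok) (L (nat_lit 398) ln11_12_0 ln11_12_0_ok))))) (M (nat_lit 461) (B (M (nat_lit 364) (B (L (nat_lit 493) ln13_15_7 ln13_15_7_ok) (M (nat_lit 332) (B (L (nat_lit 300) ln12_9_4 ln12_9_4_ok) (L (nat_lit 365) ln13_14_7 ln13_14_7_ok))))) (B (M (nat_lit 364) (B (L (nat_lit 493) ln13_15_7 ln13_15_7_ok) (M (nat_lit 332) (B (L (nat_lit 365) ln13_14_7 ln13_14_7_ok) (L (nat_lit 428) ln12_10_4 ln12_10_4_ok))))) (B (M (nat_lit 493) (B (L (nat_lit 364) ln13_15_7 ln13_15_7_ok) (M (nat_lit 525) (B (L (nat_lit 428) ln13_16_7 ln13_16_7_ok) (L (nat_lit 398) ln13_16_6 ln13_16_6_ok))))) (B (M (nat_lit 493) (B (M (nat_lit 525) (B (L (nat_lit 428) ln13_16_7 ln13_16_7_ok) (L (nat_lit 398) ln13_16_6 ln13_16_6_ok))) (M (nat_lit 365) (B (M (nat_lit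 492) (B (L (nat_lit 460) ln13_11_5 ln13_11_5_ok) (L (nat_lit 524) ln13_12_5 ln13_12_5_ok))) (M (nat_lit 462) (B (L (nat_lit 333) ln13_10_4 ln13_10_4_ok) (L (nat_lit 494) ln13_11_4 ln13_11_4_ok))))))) (M (nat_lit 364) (B (M (nat_lit 332) (B (L (nat_lit 300) ln12_9_4 ln12_9_4_ok) (L (nat_lit 365) ln13_14_7 ln13_14_7_ok))) (B (M (nat_lit 332) (B (L (nat_lit 365) ln13_14_7 ln13_14_7_ok) (L (nat_lit 428) ln12_10_4 ln12_10_4_ok))) (B (M (nat_lit 460) (B (M (nat_lit 365) (B (L (nat_lit 492) ln13_11_5 ln13_11_5_ok) (M (nat_lit 333) (B (L (nat_lit 428) ln12_14_6 ln12_14_6_ok) (L (nat_lit 462) ln13_10_4 ln13_10_4_ok))))) (B (M (nat_lit 459) (B (L (nat_lit 458) ln10_14_2 ln10_14_2_ok) (M (nat_lit 395) (B (L (nat_lit 394) ln10_12_0 ln10_12_0_ok) (M (nat_lit 491) (B (L (nat_lit 427) ln11_15_6 ln11_15_6_ok) (L (nat_lit 428) ln12_11_5 ln12_11_5_ok))))))) (M (nat_lit 365) (B (L (nat_lit 492) ln13_11_5 ln13_11_5_ok)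 (M (nat_lit 462) (B (L (nat_lit 333) ln13_10_4 ln13_10_4_ok) (L (nat_lit 494) ln13_11_4 ln13_11_4_ok)))))))) (M (nat_lit 332) (B (L (nat_lit 300) ln12_9_4 ln12_9_4_ok) (L (nat_lit 428) ln12_10_4 ln12_10_4_ok)))))))))))))))) (B (K (nat_lit 1386334847544579281930502452632026696468783264124728123740719198963059283254184240648144927045128292788721448874933630659377233920) (nat_lit 235872651743560669043507620572035002663848032518105220263760417220910010594840126800997774926617164929232642614964178355345934330259701539161011472427321528238653571072) (nat_lit 235872651743560669043507620572035002663848032518105220263760417220910010594840126800997774926617164929232642614964178355345934330259701539161011472427321528238653571072) c21_s4924) (B c21_n4984 (B (M (nat_lit 364) (B (M (nat_lit 332) (B (L (nat_lit 300) ln12_9_4 ln12_9_4_ok) (M (nat_lit 461) (B (L (nat_lit 428) ln12_10_4 ln12_10_4_ok) (L (nat_lit 493)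 ln13_15_7 ln13_15_7_ok))))) (B (M (nat_lit 461) (B (L (nat_lit 493) ln13_15_7 ln13_15_7_ok) (M (nat_lit 332) (B (L (nat_lit 365) ln13_14_7 ln13_14_7_ok) (L (nat_lit 428) ln12_10_4 ln12_10_4_ok))))) (B (M (nat_lit 461) (B (L (nat_lit 493) ln13_15_7 ln13_15_7_ok) (M (nat_lit 365) (B (M (nat_lit 460) (B (L (nat_lit 492) ln13_11_5 ln13_11_5_ok) (M (nat_lit 333) (B (L (nat_lit 428) ln12_14_6 ln12_14_6_ok) (M (nat_lit 462) (B (L (nat_lit 430) ln13_10_4 ln13_10_4_ok) (L (nat_lit 494) ln13_11_4 ln13_11_4_ok))))))) (B (M (nat_lit 460) (B (L (nat_lit 492) ln13_11_5 ln13_11_5_ok) (M (nat_lit 428) (B (M (nat_lit 459) (B (L (nat_lit 491) ln12_11_5 ln12_11_5_ok) (M (nat_lit 430) (B (L (nat_lit 431) ln15_13_1 ln15_13_1_ok) (L (nat_lit 458) ln10_14_2 ln10_14_2_ok))))) (M (nat_lit 363) (B (L (nat_lit 331) ln12_14_7 ln12_14_7_ok) (M (nat_lit 362) (B (L (nat_lit 361) ln9_11_0 ln9_11_0_ok) (L (nat_lit 398) ln10_11_0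 ln10_11_0_ok))))))))) (B (M (nat_lit 333) (B (M (nat_lit 462) (B (L (nat_lit 430) ln13_10_4 ln13_10_4_ok) (L (nat_lit 494) ln13_11_4 ln13_11_4_ok))) (M (nat_lit 301) (B (L (nat_lit 269) ln13_8_5 ln13_8_5_ok) (M (nat_lit 302) (B (L (nat_lit 270) ln13_12_6 ln13_12_6_ok) (L (nat_lit 334) ln13_13_6 ln13_13_6_ok))))))) (M (nat_lit 333) (B (M (nat_lit 301) (B (L (nat_lit 269) ln13_8_5 ln13_8_5_ok) (L (nat_lit 428) ln13_9_5 ln13_9_5_ok))) (B (M (nat_lit 428) (B (L (nat_lit 301) ln13_9_5 ln13_9_5_ok) (L (nat_lit 460) ln12_14_6 ln12_14_6_ok))) (B (M (nat_lit 460) (B (L (nat_lit 428) ln12_14_6 ln12_14_6_ok) (L (nat_lit 492) ln13_11_5 ln13_11_5_ok))) (M (nat_lit 301) (B (L (nat_lit 269) ln13_8_5 ln13_8_5_ok) (M (nat_lit 302) (B (L (nat_lit 270) ln13_12_6 ln13_12_6_ok) (L (nat_lit 334) ln13_13_6 ln13_13_6_ok))))))))))))))) (B (M (nat_lit 461) (B (L (nat_lit 493) ln13_15_7 ln13_15_7_ok) (M (nat_lit 332) (B (L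 (nat_lit 300) ln12_9_4 ln12_9_4_ok) (L (nat_lit 365) ln13_14_7 ln13_14_7_ok))))) (M (nat_lit 332) (B (L (nat_lit 300) ln12_9_4 ln12_9_4_ok) (M (nat_lit 428) (B (M (nat_lit 427) (B (L (nat_lit 459) ln12_10_5 ln12_10_5_ok) (M (nat_lit 398) (B (L (nat_lit 399) ln15_12_1 ln15_12_1_ok) (L (nat_lit 426) ln10_13_2 ln10_13_2_ok))))) (M (nat_lit 460) (B (M (nat_lit 331) (B (L (nat_lit 299) ln12_13_7 ln12_13_7_ok) (L (nat_lit 363) ln12_14_7 ln12_14_7_ok))) (M (nat_lit 492) (B (L (nat_lit 365) ln12_15_6 ln12_15_6_ok) (L (nat_lit 524) ln12_16_6 ln12_16_6_ok)))))))))))))) (B (K (nat_lit 1386334847544579281930502452632026696468783264124728123740719198963059283254184240648144927045128292788721448874933630659377233920) (nat_lit 235872651606264715892042154520402061907489573041288865597410734754803414707176287826054032431418204455189306570364732866498867309588202849508950495926513169413997330432) (nat_lit 235872651606264715892042154520402061907489573041288865597410734754803414707176287826054032431418204455189306570364732866498867309588202849508950495926513169413997330432)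 c21_s5123) (B (K (nat_lit 1386334847544579281930502452632026696468783264124728123740719198963059283254184240648144927045128292788721448874933630659377233920) (nat_lit 54918381376944993208635256224835413055432924375029811914032617426720912962416835975771349451668092113764257638123216806910380072633506844058628955896559960064) (nat_lit 54918381376944993208635256224835413055432924375029811914032617426720912962416835975771349451668092113764257638123216806910380072633506844058628955896559960064) c21_s5206) (B (K (nat_lit 1386334847544579281930502452632026696468783264124728123740719198963059283254184240648144927045128292788721448874933630659377233920) (nat_lit 707617955038467672608505743463066911627621693348497935197441142655259252410404223289798972443644539491050816605146219288508876049087088856379772079750516549673296068608) (nat_lit 707617955038467672608505743463066911627621693348497935197441142655259252410404223289798972443644539491050816605146219288508876049087088856379772079750516549673296068608)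 c21_s5352) (B (K (nat_lit 1386334847544579281930502452632026696468783264124728123740719198963059283254184240648144927045128292788721448874933630659377233920) (nat_lit 235872651963234194218833859699833044867412620992904613667246223781723740725957722377485472741532391317697818738051253206581995241636651428220571382143060004424669724672) (nat_lit 235872651963234194218833859699833044867412620992904613667246223781723740725957722377485472741532391317697818738051253206581995241636651428220571382143060004424669724672) c21_s5416) (B (M (nat_lit 364) (B (M (nat_lit 461) (B (L (nat_lit 493) ln13_15_7 ln13_15_7_ok) (M (nat_lit 332) (B (L (nat_lit 300) ln12_9_4 ln12_9_4_ok) (L (nat_lit 365) ln13_14_7 ln13_14_7_ok))))) (B (M (nat_lit 461) (B (L (nat_lit 493) ln13_15_7 ln13_15_7_ok) (M (nat_lit 332) (B (L (nat_lit 365) ln13_14_7 ln13_14_7_ok) (L (nat_lit 428) ln12_10_4 ln12_10_4_ok))))) (B (M (nat_lit 395) (B (M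 (nat_lit 394) (B (L (nat_lit 430) ln10_12_0 ln10_12_0_ok) (M (nat_lit 393) (B (L (nat_lit 365) ln9_12_2 ln9_12_2_ok) (L (nat_lit 428) ln9_12_0 ln9_12_0_ok))))) (B (M (nat_lit 394) (B (L (nat_lit 430) ln10_12_0 ln10_12_0_ok) (M (nat_lit 393) (B (L (nat_lit 428) ln9_12_0 ln9_12_0_ok) (M (nat_lit 361) (B (L (nat_lit 360) ln12_12_3 ln12_12_3_ok) (L (nat_lit 362) ln13_12_3 ln13_12_3_ok))))))) (B (M (nat_lit 394) (B (L (nat_lit 430) ln10_12_0 ln10_12_0_ok) (M (nat_lit 398) (B (M (nat_lit 362) (B (L (nat_lit 361) ln13_12_3 ln13_12_3_ok) (L (nat_lit 363) ln14_12_3 ln14_12_3_ok))) (M (nat_lit 426) (B (L (nat_lit 425) ln13_12_1 ln13_12_1_ok) (L (nat_lit 427) ln14_12_1 ln14_12_1_ok))))))) (M (nat_lit 363) (B (M (nat_lit 362) (B (L (nat_lit 361) ln9_11_0 ln9_11_0_ok) (L (nat_lit 398) ln14_12_3 ln14_12_3_ok))) (B (M (nat_lit 398) (B (L (nat_lit 362) ln14_12_3 ln14_12_3_ok) (L (nat_lit 399) ln15_12_3 ln15_12_3_ok)))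 (B (M (nat_lit 427) (B (M (nat_lit 398) (B (L (nat_lit 399) ln15_12_3 ln15_12_3_ok) (L (nat_lit 426) ln14_12_1 ln14_12_1_ok))) (M (nat_lit 331) (B (M (nat_lit 299) (B (L (nat_lit 267) ln11_8_4 ln11_8_4_ok) (L (nat_lit 428) ln11_9_4 ln11_9_4_ok))) (B (M (nat_lit 428) (B (L (nat_lit 299) ln11_9_4 ln11_9_4_ok) (L (nat_lit 460) ln12_14_7 ln12_14_7_ok))) (B (M (nat_lit 459) (B (L (nat_lit 491) ln11_15_6 ln11_15_6_ok) (M (nat_lit 460) (B (L (nat_lit 428) ln12_14_7 ln12_14_7_ok) (L (nat_lit 492) ln11_11_4 ln11_11_4_ok))))) (M (nat_lit 298) (B (L (nat_lit 330) ln11_13_7 ln11_13_7_ok) (M (nat_lit 299) (B (L (nat_lit 266) ln11_12_7 ln11_12_7_ok) (L (nat_lit 267) ln11_8_4 ln11_8_4_ok))))))))))) (M (nat_lit 428) (B (M (nat_lit 460) (B (L (nat_lit 331) ln12_14_7 ln12_14_7_ok) (L (nat_lit 492) ln12_15_7 ln12_15_7_ok))) (M (nat_lit 427) (B (M (nat_lit 426) (B (L (nat_lit 425) ln9_13_2 ln9_13_2_ok) (M (nat_lit 461)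 (B (L (nat_lit 493) ln13_15_7 ln13_15_7_ok) (L (nat_lit 462) ln10_13_0 ln10_13_0_ok))))) (M (nat_lit 459) (B (L (nat_lit 491) ln11_15_6 ln11_15_6_ok) (M (nat_lit 362) (B (L (nat_lit 330) ln11_14_7 ln11_14_7_ok) (L (nat_lit 361) ln9_11_0 ln9_11_0_ok))))))))))))))))) (B (M (nat_lit 332) (B (L (nat_lit 300) ln12_9_4 ln12_9_4_ok) (M (nat_lit 461) (B (L (nat_lit 428) ln12_10_4 ln12_10_4_ok) (L (nat_lit 493) ln13_15_7 ln13_15_7_ok))))) (M (nat_lit 332) (B (L (nat_lit 300) ln12_9_4 ln12_9_4_ok) (M (nat_lit 428) (B (M (nat_lit 427) (B (L (nat_lit 459) ln12_10_5 ln12_10_5_ok) (M (nat_lit 398) (B (L (nat_lit 399) ln15_12_1 ln15_12_1_ok) (L (nat_lit 426) ln10_13_2 ln10_13_2_ok))))) (M (nat_lit 460) (B (M (nat_lit 331) (B (L (nat_lit 299) ln12_13_7 ln12_13_7_ok) (L (nat_lit 363) ln12_14_7 ln12_14_7_ok))) (M (nat_lit 492) (B (L (nat_lit 365) ln12_15_6 ln12_15_6_ok) (L (nat_lit 524) ln12_16_6 ln12_16_6_ok))))))))))))))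 (B (K (nat_lit 1386334847544579281930502452632026696468783264124728123740719198963059283254184240648144927045128292788721448874933630659377233920) (nat_lit 219673525213686285334920874752403110343183270859809917989183790143143902669375082764259858107934018452333294419461679770166981383601430339566013422276469325824) (nat_lit 219673525213686285334920874752403110343183270859809917989183790143143902669375082764259858107934018452333294419461679770166981383601430339566013422276469325824) c21_s5573) (M (nat_lit 395) (B (M (nat_lit 430) (B (L (nat_lit 394) ln10_12_0 ln10_12_0_ok) (M (nat_lit 431) (B (L (nat_lit 398) ln11_12_0 ln11_12_0_ok) (L (nat_lit 432) ln16_13_3 ln16_13_3_ok))))) (B (M (nat_lit 430) (B (M (nat_lit 431) (B (L (nat_lit 398) ln11_12_0 ln11_12_0_ok) (L (nat_lit 428) ln15_13_3 ln15_13_3_ok))) (B (M (nat_lit 431) (B (L (nat_lit 428) ln15_13_3 ln15_13_3_ok) (L (nat_lit 432) ln16_13_3 ln16_13_3_ok)))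 (B (M (nat_lit 431) (B (L (nat_lit 398) ln11_12_0 ln11_12_0_ok) (L (nat_lit 432) ln16_13_3 ln16_13_3_ok))) (M (nat_lit 427) (B (M (nat_lit 426) (B (L (nat_lit 398) ln14_12_1 ln14_12_1_ok) (M (nat_lit 425) (B (L (nat_lit 424) ln8_13_2 ln8_13_2_ok) (L (nat_lit 428) ln9_13_2 ln9_13_2_ok))))) (B (M (nat_lit 428) (B (M (nat_lit 459) (B (L (nat_lit 458) ln14_13_1 ln14_13_1_ok) (M (nat_lit 491) (B (L (nat_lit 364) ln11_15_6 ln11_15_6_ok) (L (nat_lit 523) ln11_16_6 ln11_16_6_ok))))) (B (M (nat_lit 426) (B (L (nat_lit 425) ln9_13_2 ln9_13_2_ok) (M (nat_lit 458) (B (L (nat_lit 457) ln13_13_1 ln13_13_1_ok) (L (nat_lit 459) ln14_13_1 ln14_13_1_ok))))) (M (nat_lit 461) (B (M (nat_lit 364) (B (L (nat_lit 332) ln12_10_4 ln12_10_4_ok) (L (nat_lit 493) ln13_15_7 ln13_15_7_ok))) (M (nat_lit 426) (B (L (nat_lit 425) ln9_13_2 ln9_13_2_ok) (L (nat_lit 462) ln10_13_0 ln10_13_0_ok)))))))) (B (M (nat_lit 398) (B (L (nat_lit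 426) ln14_12_1 ln14_12_1_ok) (M (nat_lit 399) (B (L (nat_lit 428) ln15_12_1 ln15_12_1_ok) (M (nat_lit 363) (B (L (nat_lit 362) ln14_12_3 ln14_12_3_ok) (L (nat_lit 364) ln15_12_3 ln15_12_3_ok))))))) (B (M (nat_lit 459) (B (M (nat_lit 364) (B (L (nat_lit 491) ln11_15_6 ln11_15_6_ok) (M (nat_lit 332) (B (L (nat_lit 300) ln12_9_5 ln12_9_5_ok) (L (nat_lit 363) ln11_14_6 ln11_14_6_ok))))) (B (M (nat_lit 364) (B (L (nat_lit 491) ln11_15_6 ln11_15_6_ok) (M (nat_lit 428) (B (L (nat_lit 332) ln12_10_5 ln12_10_5_ok) (L (nat_lit 458) ln14_13_1 ln14_13_1_ok))))) (M (nat_lit 363) (B (M (nat_lit 362) (B (L (nat_lit 330) ln11_14_7 ln11_14_7_ok) (L (nat_lit 398) ln14_12_3 ln14_12_3_ok))) (M (nat_lit 458) (B (L (nat_lit 490) ln11_11_5 ln11_11_5_ok) (L (nat_lit 428) ln14_13_1 ln14_13_1_ok)))))))) (M (nat_lit 364) (B (M (nat_lit 332) (B (L (nat_lit 300) ln12_9_5 ln12_9_5_ok) (M (nat_lit 461) (B (L (nat_lit 365) ln13_14_7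 ln13_14_7_ok) (L (nat_lit 493) ln13_15_7 ln13_15_7_ok))))) (M (nat_lit 398) (B (L (nat_lit 426) ln14_12_1 ln14_12_1_ok) (M (nat_lit 363) (B (L (nat_lit 362) ln14_12_3 ln14_12_3_ok) (L (nat_lit 399) ln15_12_3 ln15_12_3_ok)))))))))))))))) (B (M (nat_lit 430) (B (L (nat_lit 394) ln10_12_0 ln10_12_0_ok) (M (nat_lit 431) (B (L (nat_lit 428) ln15_13_3 ln15_13_3_ok) (L (nat_lit 432) ln16_13_3 ln16_13_3_ok))))) (M (nat_lit 394) (B (M (nat_lit 393) (B (L (nat_lit 428) ln9_12_0 ln9_12_0_ok) (M (nat_lit 425) (B (L (nat_lit 424) ln12_12_1 ln12_12_1_ok) (L (nat_lit 426) ln13_12_1 ln13_12_1_ok))))) (B (M (nat_lit 398) (B (M (nat_lit 362) (B (L (nat_lit 361) ln13_12_3 ln13_12_3_ok) (L (nat_lit 363) ln14_12_3 ln14_12_3_ok))) (M (nat_lit 426) (B (L (nat_lit 425) ln13_12_1 ln13_12_1_ok) (L (nat_lit 427) ln14_12_1 ln14_12_1_ok))))) (M (nat_lit 393) (B (L (nat_lit 428) ln9_12_0 ln9_12_0_ok) (M (nat_lit 361) (B (L (nat_lit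 360) ln12_12_3 ln12_12_3_ok) (L (nat_lit 362) ln13_12_3 ln13_12_3_ok))))))))))))))))))))))))))))) (nat_lit 1386334847383188664550070665778531748218595021979121511688892729411143073470393764272092352380775458208712834410189682411080515584) (nat_lit 707617955065926863252224852838890232362958612599183033083261582788188025748834923112127106507966454257758202788781630602924499093069635534417990839955859688247093362688) (nat_lit 707617955065926863252224852838890232362958612599183033083261582788188025748834923112127106507966454257758202788781630602924499093069635534417990839955859688247093362688) (by decide +kernel)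
noncomputable def c21_n5875 : Cert := (M (nat_lit 427) (B (M (nat_lit 426) (B (L (nat_lit 398) ln14_12_1 ln14_12_1_ok) (M (nat_lit 425) (B (L (nat_lit 424) ln8_13_2 ln8_13_2_ok) (L (nat_lit 428) ln9_13_2 ln9_13_2_ok))))) (B (M (nat_lit 428) (B (M (nat_lit 426) (B (L (nat_lit 425) ln9_13_2 ln9_13_2_ok) (M (nat_lit 430) (B (L (nat_lit 431) ln15_13_3 ln15_13_3_ok) (M (nat_lit 458) (B (L (nat_lit 457) ln13_13_1 ln13_13_1_ok) (L (nat_lit 459) ln14_13_1 ln14_13_1_ok))))))) (B (M (nat_lit 492) (B (L (nat_lit 460) ln12_15_6 ln12_15_6_ok) (M (nat_lit 459) (B (M (nat_lit 491) (B (L (nat_lit 524) ln11_12_4 ln11_12_4_ok) (L (nat_lit 523) ln11_16_6 ln11_16_6_ok))) (M (nat_lit 430) (B (L (nat_lit 431) ln15_13_3 ln15_13_3_ok) (L (nat_lit 458) ln14_13_1 ln14_13_1_ok))))))) (M (nat_lit 492) (B (L (nat_lit 460) ln12_15_6 ln12_15_6_ok) (M (nat_lit 461) (B (M (nat_lit 493) (B (L (nat_lit 525) ln13_16_7 ln13_16_7_ok)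 (L (nat_lit 524) ln13_12_5 ln13_12_5_ok))) (M (nat_lit 426) (B (L (nat_lit 425) ln9_13_2 ln9_13_2_ok) (L (nat_lit 462) ln10_13_0 ln10_13_0_ok)))))))))) (B (M (nat_lit 398) (B (L (nat_lit 426) ln14_12_1 ln14_12_1_ok) (M (nat_lit 399) (B (L (nat_lit 428) ln15_12_1 ln15_12_1_ok) (M (nat_lit 431) (B (L (nat_lit 430) ln11_12_0 ln11_12_0_ok) (L (nat_lit 432) ln12_12_0 ln12_12_0_ok))))))) (B (M (nat_lit 363) (B (M (nat_lit 398) (B (L (nat_lit 362) ln14_12_3 ln14_12_3_ok) (M (nat_lit 428) (B (L (nat_lit 399) ln15_12_1 ln15_12_1_ok) (M (nat_lit 331) (B (L (nat_lit 299) ln11_9_4 ln11_9_4_ok) (L (nat_lit 460) ln11_10_4 ln11_10_4_ok))))))) (B (M (nat_lit 428) (B (M (nat_lit 460) (B (L (nat_lit 331) ln11_10_4 ln11_10_4_ok) (L (nat_lit 492) ln12_15_7 ln12_15_7_ok))) (M (nat_lit 398) (B (L (nat_lit 362) ln14_12_3 ln14_12_3_ok) (L (nat_lit 399) ln15_12_1 ln15_12_1_ok))))) (B (M (nat_lit 398) (B (L (nat_lit 362)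 ln14_12_3 ln14_12_3_ok) (M (nat_lit 431) (B (L (nat_lit 430) ln11_12_0 ln11_12_0_ok) (M (nat_lit 399) (B (L (nat_lit 428) ln15_12_1 ln15_12_1_ok) (L (nat_lit 432) ln12_12_0 ln12_12_0_ok))))))) (B (M (nat_lit 331) (B (M (nat_lit 428) (B (L (nat_lit 299) ln11_9_4 ln11_9_4_ok) (L (nat_lit 460) ln11_10_4 ln11_10_4_ok))) (B (M (nat_lit 460) (B (L (nat_lit 428) ln11_10_4 ln11_10_4_ok) (M (nat_lit 492) (B (L (nat_lit 459) ln11_11_4 ln11_11_4_ok) (L (nat_lit 461) ln13_11_5 ln13_11_5_ok))))) (M (nat_lit 299) (B (M (nat_lit 298) (B (L (nat_lit 266) ln11_12_7 ln11_12_7_ok) (L (nat_lit 330) ln11_13_7 ln11_13_7_ok))) (M (nat_lit 300) (B (L (nat_lit 268) ln11_12_6 ln11_12_6_ok) (L (nat_lit 332) ln11_13_6 ln11_13_6_ok)))))))) (M (nat_lit 362) (B (L (nat_lit 398) ln14_12_3 ln14_12_3_ok) (M (nat_lit 330) (B (L (nat_lit 459) ln11_14_7 ln11_14_7_ok) (M (nat_lit 298) (B (L (nat_lit 266) ln10_8_4 ln10_8_4_ok) (L (nat_lit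 331) ln11_13_7 ln11_13_7_ok)))))))))))) (M (nat_lit 461) (B (M (nat_lit 398) (B (L (nat_lit 426) ln14_12_1 ln14_12_1_ok) (M (nat_lit 366) (B (L (nat_lit 334) ln13_14_6 ln13_14_6_ok) (L (nat_lit 493) ln13_15_6 ln13_15_6_ok))))) (B (M (nat_lit 493) (B (M (nat_lit 398) (B (L (nat_lit 366) ln13_15_6 ln13_15_6_ok) (L (nat_lit 426) ln14_12_1 ln14_12_1_ok))) (M (nat_lit 492) (B (L (nat_lit 460) ln13_11_5 ln13_11_5_ok) (L (nat_lit 524) ln13_12_5 ln13_12_5_ok))))) (B (M (nat_lit 492) (B (L (nat_lit 460) ln13_11_5 ln13_11_5_ok) (M (nat_lit 493) (B (L (nat_lit 524) ln13_12_5 ln13_12_5_ok) (M (nat_lit 494) (B (L (nat_lit 462) ln13_11_4 ln13_11_4_ok) (L (nat_lit 526) ln13_12_4 ln13_12_4_ok))))))) (M (nat_lit 426) (B (L (nat_lit 398) ln14_12_1 ln14_12_1_ok) (M (nat_lit 462) (B (L (nat_lit 494) ln13_11_4 ln13_11_4_ok) (M (nat_lit 460) (B (L (nat_lit 492) ln13_11_5 ln13_11_5_ok) (L (nat_lit 459) ln14_14_3 ln14_14_3_ok))))))))))))))))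
noncomputable def c21_n5885 : Cert := (M (nat_lit 395) (B (M (nat_lit 394) (B (L (nat_lit 366) ln10_12_2 ln10_12_2_ok) (L (nat_lit 430) ln10_12_0 ln10_12_0_ok))) (B (M (nat_lit 430) (B (L (nat_lit 394) ln10_12_0 ln10_12_0_ok) (M (nat_lit 431) (B (L (nat_lit 398) ln11_12_0 ln11_12_0_ok) (L (nat_lit 428) ln15_13_3 ln15_13_3_ok))))) (B c21_n5875 (M (nat_lit 394) (B (L (nat_lit 366) ln10_12_2 ln10_12_2_ok) (M (nat_lit 398) (B (M (nat_lit 362) (B (L (nat_lit 361) ln13_12_3 ln13_12_3_ok) (L (nat_lit 363) ln14_12_3 ln14_12_3_ok))) (M (nat_lit 426) (B (L (nat_lit 425) ln13_12_1 ln13_12_1_ok) (L (nat_lit 427) ln14_12_1 ln14_12_1_ok)))))))))))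
theorem c21_s5986 : Sem (nat_lit 1386334847383188664625224028427294411511058401076380296564914570976209309333027075361123041184442928399551202358502280908102434816) (nat_lit 411887859703736698388066239204557055543728194077549090060971877797832666889424586103650995369638910850815751905490499490784995890179880330038813865739687034880) (nat_lit 411887859703736698388066239204557055543728194077549090060971877797832666889424586103650995369638910850815751905490499490784995890179880330038813865739687034880) :=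
  sem_of_chk (M (nat_lit 396) (B (M (nat_lit 364) (B (M (nat_lit 332) (B (L (nat_lit 300) ln12_9_4 ln12_9_4_ok) (L (nat_lit 461) ln13_14_7 ln13_14_7_ok))) (B (M (nat_lit 461) (B (L (nat_lit 332) ln13_14_7 ln13_14_7_ok) (L (nat_lit 493) ln13_15_7 ln13_15_7_ok))) (B (M (nat_lit 461) (B (L (nat_lit 493) ln13_15_7 ln13_15_7_ok) (M (nat_lit 363) (B (M (nat_lit 398) (B (L (nat_lit 362) ln10_11_0 ln10_11_0_ok) (L (nat_lit 399) ln15_12_3 ln15_12_3_ok))) (M (nat_lit 331) (B (M (nat_lit 366) (B (L (nat_lit 330) ln14_11_3 ln14_11_3_ok) (L (nat_lit 334) ln13_14_6 ln13_14_6_ok))) (M (nat_lit 460) (B (L (nat_lit 428) ln12_14_7 ln12_14_7_ok) (L (nat_lit 492) ln13_11_5 ln13_11_5_ok))))))))) (M (nat_lit 398) (B (M (nat_lit 363) (B (L (nat_lit 362) ln10_11_0 ln10_11_0_ok) (L (nat_lit 399) ln15_12_3 ln15_12_3_ok))) (B (M (nat_lit 399) (B (L (nat_lit 363) ln15_12_3 ln15_12_3_ok) (L (nat_lit 400) ln16_12_3 ln16_12_3_ok)))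 (B (M (nat_lit 395) (B (M (nat_lit 394) (B (L (nat_lit 393) ln9_12_2 ln9_12_2_ok) (L (nat_lit 366) ln10_12_2 ln10_12_2_ok))) (M (nat_lit 399) (B (L (nat_lit 400) ln16_12_3 ln16_12_3_ok) (M (nat_lit 427) (B (L (nat_lit 426) ln14_12_1 ln14_12_1_ok) (L (nat_lit 428) ln15_12_1 ln15_12_1_ok))))))) (M (nat_lit 428) (B (M (nat_lit 332) (B (L (nat_lit 300) ln12_9_4 ln12_9_4_ok) (M (nat_lit 427) (B (L (nat_lit 459) ln12_10_5 ln12_10_5_ok) (L (nat_lit 426) ln10_13_2 ln10_13_2_ok))))) (M (nat_lit 363) (B (L (nat_lit 362) ln10_11_0 ln10_11_0_ok) (M (nat_lit 460) (B (L (nat_lit 331) ln12_14_7 ln12_14_7_ok) (L (nat_lit 492) ln12_15_6 ln12_15_6_ok))))))))))))))) (B (M (nat_lit 461) (B (M (nat_lit 364) (B (L (nat_lit 332) ln13_14_7 ln13_14_7_ok) (L (nat_lit 493) ln13_15_7 ln13_15_7_ok))) (B (M (nat_lit 493) (B (L (nat_lit 364) ln13_15_7 ln13_15_7_ok) (M (nat_lit 494) (B (L (nat_lit 462) ln13_11_4 ln13_11_4_ok) (L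 (nat_lit 526) ln13_12_4 ln13_12_4_ok))))) (B (M (nat_lit 366) (B (L (nat_lit 334) ln13_14_6 ln13_14_6_ok) (M (nat_lit 493) (B (L (nat_lit 398) ln13_15_6 ln13_15_6_ok) (M (nat_lit 494) (B (L (nat_lit 462) ln13_11_4 ln13_11_4_ok) (L (nat_lit 526) ln13_12_4 ln13_12_4_ok))))))) (M (nat_lit 364) (B (L (nat_lit 332) ln13_14_7 ln13_14_7_ok) (M (nat_lit 363) (B (M (nat_lit 398) (B (L (nat_lit 362) ln10_11_0 ln10_11_0_ok) (L (nat_lit 399) ln15_12_3 ln15_12_3_ok))) (M (nat_lit 331) (B (M (nat_lit 366) (B (L (nat_lit 330) ln14_11_3 ln14_11_3_ok) (L (nat_lit 334) ln13_14_6 ln13_14_6_ok))) (M (nat_lit 460) (B (L (nat_lit 428) ln12_14_7 ln12_14_7_ok) (L (nat_lit 492) ln13_11_5 ln13_11_5_ok))))))))))))) (B (M (nat_lit 364) (B (M (nat_lit 461) (B (L (nat_lit 332) ln13_14_7 ln13_14_7_ok) (L (nat_lit 493) ln13_15_7 ln13_15_7_ok))) (B (M (nat_lit 461) (B (L (nat_lit 493) ln13_15_7 ln13_15_7_ok) (M (nat_lit 460) (B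 (L (nat_lit 492) ln13_11_5 ln13_11_5_ok) (M (nat_lit 428) (B (M (nat_lit 363) (B (L (nat_lit 331) ln12_14_7 ln12_14_7_ok) (M (nat_lit 362) (B (L (nat_lit 361) ln9_11_0 ln9_11_0_ok) (L (nat_lit 398) ln10_11_0 ln10_11_0_ok))))) (M (nat_lit 459) (B (L (nat_lit 491) ln12_11_5 ln12_11_5_ok) (M (nat_lit 430) (B (L (nat_lit 431) ln15_13_1 ln15_13_1_ok) (L (nat_lit 458) ln10_14_2 ln10_14_2_ok))))))))))) (M (nat_lit 428) (B (M (nat_lit 460) (B (L (nat_lit 492) ln12_15_6 ln12_15_6_ok) (M (nat_lit 363) (B (L (nat_lit 331) ln12_14_7 ln12_14_7_ok) (M (nat_lit 362) (B (L (nat_lit 361) ln9_11_0 ln9_11_0_ok) (L (nat_lit 398) ln10_11_0 ln10_11_0_ok))))))) (B (M (nat_lit 460) (B (L (nat_lit 492) ln12_15_6 ln12_15_6_ok) (M (nat_lit 427) (B (M (nat_lit 459) (B (L (nat_lit 332) ln12_10_5 ln12_10_5_ok) (L (nat_lit 491) ln12_11_5 ln12_11_5_ok))) (M (nat_lit 426) (B (L (nat_lit 425) ln9_13_2 ln9_13_2_ok) (L (nat_lit 398)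 ln10_13_2 ln10_13_2_ok))))))) (B (M (nat_lit 394) (B (M (nat_lit 395) (B (L (nat_lit 393) ln9_12_2 ln9_12_2_ok) (L (nat_lit 366) ln10_12_2 ln10_12_2_ok))) (B (M (nat_lit 395) (B (L (nat_lit 393) ln9_12_2 ln9_12_2_ok) (L (nat_lit 430) ln10_12_0 ln10_12_0_ok))) (B (M (nat_lit 395) (B (L (nat_lit 366) ln10_12_2 ln10_12_2_ok) (L (nat_lit 430) ln10_12_0 ln10_12_0_ok))) (M (nat_lit 363) (B (M (nat_lit 460) (B (L (nat_lit 331) ln12_14_7 ln12_14_7_ok) (L (nat_lit 492) ln12_15_6 ln12_15_6_ok))) (M (nat_lit 362) (B (L (nat_lit 361) ln9_11_0 ln9_11_0_ok) (L (nat_lit 393) ln13_11_1 ln13_11_1_ok))))))))) (M (nat_lit 395) (B (M (nat_lit 394) (B (L (nat_lit 393) ln9_12_2 ln9_12_2_ok) (L (nat_lit 366) ln10_12_2 ln10_12_2_ok))) (M (nat_lit 427) (B (M (nat_lit 459) (B (L (nat_lit 332) ln12_10_5 ln12_10_5_ok) (L (nat_lit 491) ln11_15_6 ln11_15_6_ok))) (M (nat_lit 426) (B (L (nat_lit 398) ln14_12_1 ln14_12_1_ok) (L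 (nat_lit 425) ln9_13_2 ln9_13_2_ok)))))))))))))) (B (M (nat_lit 461) (B (M (nat_lit 364) (B (L (nat_lit 332) ln13_14_7 ln13_14_7_ok) (L (nat_lit 493) ln13_15_7 ln13_15_7_ok))) (B (M (nat_lit 493) (B (L (nat_lit 364) ln13_15_7 ln13_15_7_ok) (M (nat_lit 494) (B (L (nat_lit 462) ln13_11_4 ln13_11_4_ok) (L (nat_lit 526) ln13_12_4 ln13_12_4_ok))))) (B (M (nat_lit 366) (B (L (nat_lit 334) ln13_14_6 ln13_14_6_ok) (M (nat_lit 493) (B (L (nat_lit 398) ln13_15_6 ln13_15_6_ok) (M (nat_lit 494) (B (L (nat_lit 462) ln13_11_4 ln13_11_4_ok) (L (nat_lit 526) ln13_12_4 ln13_12_4_ok))))))) (M (nat_lit 364) (B (L (nat_lit 332) ln13_14_7 ln13_14_7_ok) (M (nat_lit 460) (B (L (nat_lit 492) ln13_11_5 ln13_11_5_ok) (M (nat_lit 459) (B (M (nat_lit 430) (B (L (nat_lit 458) ln10_14_2 ln10_14_2_ok) (M (nat_lit 428) (B (L (nat_lit 491) ln12_11_5 ln12_11_5_ok) (L (nat_lit 431) ln15_13_1 ln15_13_1_ok))))) (B (M (nat_lit 430) (B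 (L (nat_lit 458) ln10_14_2 ln10_14_2_ok) (M (nat_lit 431) (B (L (nat_lit 432) ln16_13_3 ln16_13_3_ok) (L (nat_lit 462) ln11_14_2 ln11_14_2_ok))))) (M (nat_lit 395) (B (M (nat_lit 491) (B (L (nat_lit 427) ln11_15_6 ln11_15_6_ok) (L (nat_lit 428) ln12_11_5 ln12_11_5_ok))) (M (nat_lit 366) (B (L (nat_lit 334) ln13_14_6 ln13_14_6_ok) (L (nat_lit 394) ln10_12_2 ln10_12_2_ok)))))))))))))))) (B (M (nat_lit 395) (B (M (nat_lit 394) (B (L (nat_lit 366) ln10_12_2 ln10_12_2_ok) (L (nat_lit 430) ln10_12_0 ln10_12_0_ok))) (B (M (nat_lit 430) (B (L (nat_lit 394) ln10_12_0 ln10_12_0_ok) (M (nat_lit 431) (B (L (nat_lit 398) ln11_12_0 ln11_12_0_ok) (L (nat_lit 432) ln16_13_3 ln16_13_3_ok))))) (B (M (nat_lit 398) (B (M (nat_lit 363) (B (L (nat_lit 362) ln14_12_3 ln14_12_3_ok) (M (nat_lit 399) (B (L (nat_lit 364) ln15_12_3 ln15_12_3_ok) (M (nat_lit 431) (B (L (nat_lit 430) ln11_12_0 ln11_12_0_ok) (L (nat_lit 432) ln12_12_0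 ln12_12_0_ok))))))) (B (M (nat_lit 399) (B (M (nat_lit 364) (B (L (nat_lit 363) ln15_12_3 ln15_12_3_ok) (L (nat_lit 400) ln16_12_3 ln16_12_3_ok))) (M (nat_lit 431) (B (L (nat_lit 430) ln11_12_0 ln11_12_0_ok) (L (nat_lit 432) ln12_12_0 ln12_12_0_ok))))) (B (M (nat_lit 399) (B (M (nat_lit 427) (B (L (nat_lit 426) ln14_12_1 ln14_12_1_ok) (L (nat_lit 428) ln15_12_1 ln15_12_1_ok))) (M (nat_lit 431) (B (L (nat_lit 430) ln11_12_0 ln11_12_0_ok) (L (nat_lit 432) ln12_12_0 ln12_12_0_ok))))) (B (M (nat_lit 428) (B (M (nat_lit 363) (B (L (nat_lit 362) ln14_12_3 ln14_12_3_ok) (M (nat_lit 460) (B (L (nat_lit 492) ln12_15_7 ln12_15_7_ok) (M (nat_lit 331) (B (L (nat_lit 299) ln11_9_4 ln11_9_4_ok) (L (nat_lit 427) ln11_10_4 ln11_10_4_ok))))))) (B (M (nat_lit 427) (B (L (nat_lit 426) ln14_12_1 ln14_12_1_ok) (M (nat_lit 460) (B (L (nat_lit 492) ln12_15_6 ln12_15_6_ok) (M (nat_lit 363) (B (L (nat_lit 331) ln11_10_4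 ln11_10_4_ok) (L (nat_lit 362) ln14_12_3 ln14_12_3_ok))))))) (B (M (nat_lit 427) (B (L (nat_lit 426) ln14_12_1 ln14_12_1_ok) (M (nat_lit 459) (B (M (nat_lit 491) (B (L (nat_lit 364) ln11_15_6 ln11_15_6_ok) (L (nat_lit 523) ln11_16_6 ln11_16_6_ok))) (M (nat_lit 430) (B (L (nat_lit 431) ln11_12_0 ln11_12_0_ok) (L (nat_lit 458) ln14_13_1 ln14_13_1_ok))))))) (M (nat_lit 363) (B (L (nat_lit 362) ln14_12_3 ln14_12_3_ok) (M (nat_lit 460) (B (L (nat_lit 492) ln12_15_7 ln12_15_7_ok) (M (nat_lit 331) (B (L (nat_lit 299) ln11_9_4 ln11_9_4_ok) (L (nat_lit 364) ln12_14_7 ln12_14_7_ok))))))))))) (M (nat_lit 399) (B (M (nat_lit 363) (B (L (nat_lit 362) ln14_12_3 ln14_12_3_ok) (L (nat_lit 364) ln15_12_3 ln15_12_3_ok))) (B (M (nat_lit 364) (B (L (nat_lit 363) ln15_12_3 ln15_12_3_ok) (L (nat_lit 400) ln16_12_3 ln16_12_3_ok))) (B (M (nat_lit 400) (B (L (nat_lit 364) ln16_12_3 ln16_12_3_ok) (L (nat_lit 428) ln16_12_1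 ln16_12_1_ok))) (M (nat_lit 428) (B (L (nat_lit 427) ln15_12_1 ln15_12_1_ok) (L (nat_lit 400) ln16_12_1 ln16_12_1_ok)))))))))))) (M (nat_lit 394) (B (L (nat_lit 366) ln10_12_2 ln10_12_2_ok) (M (nat_lit 393) (B (L (nat_lit 364) ln9_12_2 ln9_12_2_ok) (L (nat_lit 428) ln9_12_0 ln9_12_0_ok))))))))) (B c21_n5885 (B (M (nat_lit 364) (B (M (nat_lit 332) (B (L (nat_lit 300) ln12_9_4 ln12_9_4_ok) (L (nat_lit 461) ln13_14_7 ln13_14_7_ok))) (B (M (nat_lit 461) (B (L (nat_lit 332) ln13_14_7 ln13_14_7_ok) (L (nat_lit 493) ln13_15_7 ln13_15_7_ok))) (B (M (nat_lit 461) (B (L (nat_lit 493) ln13_15_7 ln13_15_7_ok) (M (nat_lit 460) (B (L (nat_lit 492) ln13_11_5 ln13_11_5_ok) (M (nat_lit 428) (B (M (nat_lit 459) (B (L (nat_lit 491) ln12_11_5 ln12_11_5_ok) (M (nat_lit 430) (B (L (nat_lit 431) ln15_13_1 ln15_13_1_ok) (L (nat_lit 458) ln10_14_2 ln10_14_2_ok))))) (M (nat_lit 363) (B (L (nat_lit 331) ln12_14_7 ln12_14_7_ok)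 (M (nat_lit 362) (B (L (nat_lit 361) ln9_11_0 ln9_11_0_ok) (L (nat_lit 398) ln10_11_0 ln10_11_0_ok))))))))))) (M (nat_lit 428) (B (M (nat_lit 460) (B (L (nat_lit 492) ln12_15_6 ln12_15_6_ok) (M (nat_lit 363) (B (L (nat_lit 331) ln12_14_7 ln12_14_7_ok) (M (nat_lit 362) (B (L (nat_lit 361) ln9_11_0 ln9_11_0_ok) (L (nat_lit 398) ln10_11_0 ln10_11_0_ok))))))) (B (M (nat_lit 427) (B (M (nat_lit 332) (B (L (nat_lit 300) ln12_9_4 ln12_9_4_ok) (L (nat_lit 459) ln12_10_5 ln12_10_5_ok))) (M (nat_lit 426) (B (L (nat_lit 425) ln9_13_2 ln9_13_2_ok) (L (nat_lit 398) ln10_13_2 ln10_13_2_ok))))) (M (nat_lit 331) (B (M (nat_lit 332) (B (L (nat_lit 299) ln12_13_7 ln12_13_7_ok) (L (nat_lit 300) ln12_9_4 ln12_9_4_ok))) (M (nat_lit 460) (B (L (nat_lit 363) ln12_14_7 ln12_14_7_ok) (L (nat_lit 492) ln12_15_6 ln12_15_6_ok)))))))))))) (B (M (nat_lit 364) (B (M (nat_lit 332) (B (L (nat_lit 300) ln12_9_4 ln12_9_4_ok) (L (nat_lit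 461) ln13_14_7 ln13_14_7_ok))) (B (M (nat_lit 461) (B (L (nat_lit 332) ln13_14_7 ln13_14_7_ok) (L (nat_lit 493) ln13_15_7 ln13_15_7_ok))) (B (M (nat_lit 461) (B (L (nat_lit 493) ln13_15_7 ln13_15_7_ok) (M (nat_lit 366) (B (L (nat_lit 334) ln13_14_6 ln13_14_6_ok) (M (nat_lit 363) (B (M (nat_lit 331) (B (L (nat_lit 330) ln14_11_3 ln14_11_3_ok) (M (nat_lit 460) (B (L (nat_lit 428) ln12_14_7 ln12_14_7_ok) (L (nat_lit 492) ln13_11_5 ln13_11_5_ok))))) (M (nat_lit 394) (B (L (nat_lit 395) ln14_11_1 ln14_11_1_ok) (M (nat_lit 362) (B (L (nat_lit 361) ln9_11_0 ln9_11_0_ok) (L (nat_lit 393) ln13_11_1 ln13_11_1_ok))))))))))) (M (nat_lit 428) (B (M (nat_lit 331) (B (M (nat_lit 332) (B (L (nat_lit 299) ln12_13_7 ln12_13_7_ok) (L (nat_lit 300) ln12_9_4 ln12_9_4_ok))) (M (nat_lit 460) (B (L (nat_lit 363) ln12_14_7 ln12_14_7_ok) (L (nat_lit 492) ln12_15_6 ln12_15_6_ok))))) (B (M (nat_lit 394) (B (M (nat_lit 395)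 (B (L (nat_lit 393) ln9_12_2 ln9_12_2_ok) (L (nat_lit 366) ln10_12_2 ln10_12_2_ok))) (B (M (nat_lit 395) (B (L (nat_lit 393) ln9_12_2 ln9_12_2_ok) (L (nat_lit 430) ln10_12_0 ln10_12_0_ok))) (B (M (nat_lit 395) (B (L (nat_lit 366) ln10_12_2 ln10_12_2_ok) (L (nat_lit 430) ln10_12_0 ln10_12_0_ok))) (M (nat_lit 363) (B (M (nat_lit 460) (B (L (nat_lit 331) ln12_14_7 ln12_14_7_ok) (L (nat_lit 492) ln12_15_6 ln12_15_6_ok))) (M (nat_lit 362) (B (L (nat_lit 361) ln9_11_0 ln9_11_0_ok) (L (nat_lit 393) ln13_11_1 ln13_11_1_ok))))))))) (M (nat_lit 394) (B (M (nat_lit 395) (B (L (nat_lit 393) ln9_12_2 ln9_12_2_ok) (L (nat_lit 366) ln10_12_2 ln10_12_2_ok))) (B (M (nat_lit 395) (B (L (nat_lit 393) ln9_12_2 ln9_12_2_ok) (L (nat_lit 430) ln10_12_0 ln10_12_0_ok))) (B (M (nat_lit 395) (B (L (nat_lit 366) ln10_12_2 ln10_12_2_ok) (L (nat_lit 430) ln10_12_0 ln10_12_0_ok))) (M (nat_lit 427) (B (M (nat_lit 332) (B (L (nat_lit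 300) ln12_9_4 ln12_9_4_ok) (L (nat_lit 459) ln12_10_5 ln12_10_5_ok))) (M (nat_lit 426) (B (L (nat_lit 393) ln13_13_3 ln13_13_3_ok) (L (nat_lit 425) ln9_13_2 ln9_13_2_ok)))))))))))))))) (B (M (nat_lit 461) (B (M (nat_lit 364) (B (L (nat_lit 332) ln13_14_7 ln13_14_7_ok) (L (nat_lit 493) ln13_15_7 ln13_15_7_ok))) (B (M (nat_lit 493) (B (L (nat_lit 364) ln13_15_7 ln13_15_7_ok) (M (nat_lit 494) (B (L (nat_lit 462) ln13_11_4 ln13_11_4_ok) (L (nat_lit 526) ln13_12_4 ln13_12_4_ok))))) (B (M (nat_lit 493) (B (M (nat_lit 492) (B (L (nat_lit 460) ln13_11_5 ln13_11_5_ok) (L (nat_lit 524) ln13_12_5 ln13_12_5_ok))) (M (nat_lit 494) (B (L (nat_lit 462) ln13_11_4 ln13_11_4_ok) (L (nat_lit 526) ln13_12_4 ln13_12_4_ok))))) (M (nat_lit 395) (B (M (nat_lit 394) (B (L (nat_lit 366) ln10_12_2 ln10_12_2_ok) (L (nat_lit 430) ln10_12_0 ln10_12_0_ok))) (B (M (nat_lit 364) (B (L (nat_lit 332) ln13_14_7 ln13_14_7_ok) (M (nat_lit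 394) (B (L (nat_lit 393) ln9_12_2 ln9_12_2_ok) (L (nat_lit 430) ln10_12_0 ln10_12_0_ok))))) (B (M (nat_lit 460) (B (L (nat_lit 492) ln13_11_5 ln13_11_5_ok) (M (nat_lit 459) (B (M (nat_lit 430) (B (L (nat_lit 458) ln10_14_2 ln10_14_2_ok) (M (nat_lit 431) (B (L (nat_lit 398) ln11_12_0 ln11_12_0_ok) (L (nat_lit 432) ln16_13_3 ln16_13_3_ok))))) (B (M (nat_lit 430) (B (L (nat_lit 458) ln10_14_2 ln10_14_2_ok) (M (nat_lit 431) (B (L (nat_lit 432) ln16_13_3 ln16_13_3_ok) (L (nat_lit 462) ln11_14_2 ln11_14_2_ok))))) (M (nat_lit 427) (B (M (nat_lit 364) (B (L (nat_lit 332) ln13_14_7 ln13_14_7_ok) (L (nat_lit 491) ln11_15_6 ln11_15_6_ok))) (M (nat_lit 462) (B (L (nat_lit 494) ln13_11_4 ln13_11_4_ok) (L (nat_lit 426) ln14_14_3 ln14_14_3_ok)))))))))) (M (nat_lit 364) (B (L (nat_lit 332) ln13_14_7 ln13_14_7_ok) (M (nat_lit 394) (B (L (nat_lit 393) ln9_12_2 ln9_12_2_ok) (L (nat_lit 366) ln10_12_2 ln10_12_2_ok)))))))))))))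 (M (nat_lit 364) (B (M (nat_lit 461) (B (L (nat_lit 332) ln13_14_7 ln13_14_7_ok) (L (nat_lit 493) ln13_15_7 ln13_15_7_ok))) (B (M (nat_lit 461) (B (L (nat_lit 493) ln13_15_7 ln13_15_7_ok) (M (nat_lit 395) (B (M (nat_lit 366) (B (L (nat_lit 334) ln13_14_6 ln13_14_6_ok) (L (nat_lit 394) ln10_12_2 ln10_12_2_ok))) (B (M (nat_lit 394) (B (L (nat_lit 393) ln9_12_2 ln9_12_2_ok) (L (nat_lit 366) ln10_12_2 ln10_12_2_ok))) (B (M (nat_lit 394) (B (L (nat_lit 393) ln9_12_2 ln9_12_2_ok) (L (nat_lit 430) ln10_12_0 ln10_12_0_ok))) (M (nat_lit 363) (B (M (nat_lit 398) (B (L (nat_lit 362) ln10_11_0 ln10_11_0_ok) (L (nat_lit 399) ln15_12_3 ln15_12_3_ok))) (M (nat_lit 331) (B (M (nat_lit 299) (B (L (nat_lit 267) ln11_8_4 ln11_8_4_ok) (L (nat_lit 428) ln11_9_4 ln11_9_4_ok))) (M (nat_lit 366) (B (L (nat_lit 330) ln14_11_3 ln14_11_3_ok) (L (nat_lit 334) ln13_14_6 ln13_14_6_ok))))))))))))) (M (nat_lit 395) (B (M (nat_lit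 394) (B (L (nat_lit 393) ln9_12_2 ln9_12_2_ok) (L (nat_lit 366) ln10_12_2 ln10_12_2_ok))) (M (nat_lit 427) (B (M (nat_lit 398) (B (L (nat_lit 426) ln14_12_1 ln14_12_1_ok) (M (nat_lit 363) (B (L (nat_lit 362) ln10_11_0 ln10_11_0_ok) (L (nat_lit 399) ln15_12_3 ln15_12_3_ok))))) (B (M (nat_lit 398) (B (L (nat_lit 426) ln14_12_1 ln14_12_1_ok) (M (nat_lit 399) (B (L (nat_lit 363) ln15_12_3 ln15_12_3_ok) (L (nat_lit 428) ln15_12_1 ln15_12_1_ok))))) (B (M (nat_lit 428) (B (M (nat_lit 459) (B (L (nat_lit 332) ln12_10_5 ln12_10_5_ok) (L (nat_lit 491) ln11_15_6 ln11_15_6_ok))) (M (nat_lit 398) (B (L (nat_lit 426) ln14_12_1 ln14_12_1_ok) (L (nat_lit 399) ln15_12_1 ln15_12_1_ok))))) (M (nat_lit 459) (B (L (nat_lit 491) ln11_15_6 ln11_15_6_ok) (M (nat_lit 332) (B (L (nat_lit 363) ln11_14_6 ln11_14_6_ok) (L (nat_lit 428) ln12_10_5 ln12_10_5_ok)))))))))))))))))))))))) (nat_lit 1386334847383188664625224028427294411511058401076380296564914570976209309333027075361123041184442928399551202358502280908102434816)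 (nat_lit 411887859703736698388066239204557055543728194077549090060971877797832666889424586103650995369638910850815751905490499490784995890179880330038813865739687034880) (nat_lit 411887859703736698388066239204557055543728194077549090060971877797832666889424586103650995369638910850815751905490499490784995890179880330038813865739687034880) (by decide +kernel)
theorem c21_s5987 : Sem (nat_lit 1386334847383188664550070665778531748218595021979121511688892729411143073470393764272092352380775458208712834410189682411080515584) (nat_lit 411887859703736698388066239204557055543728194077624243423638138466935616579774831822861568856257258711091839726432931961943759827060439993171494589889993768960) (nat_lit 411887859703736698388066239204557055543728194077624243423638138466935616579774831822861568856257258711091839726432931961943759827060439993171494589889993768960) :=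
  sem_of_chk (M (nat_lit 365) (B (M (nat_lit 461) (B (M (nat_lit 493) (B (M (nat_lit 366) (B (L (nat_lit 334) ln13_14_6 ln13_14_6_ok) (L (nat_lit 398) ln13_15_6 ln13_15_6_ok))) (M (nat_lit 492) (B (L (nat_lit 460) ln13_11_5 ln13_11_5_ok) (L (nat_lit 524) ln13_12_5 ln13_12_5_ok))))) (B (M (nat_lit 333) (B (M (nat_lit 460) (B (L (nat_lit 428) ln13_10_5 ln13_10_5_ok) (L (nat_lit 492) ln13_11_5 ln13_11_5_ok))) (M (nat_lit 462) (B (L (nat_lit 430) ln13_10_4 ln13_10_4_ok) (L (nat_lit 494) ln13_11_4 ln13_11_4_ok))))) (M (nat_lit 333) (B (M (nat_lit 334) (B (L (nat_lit 302) ln13_13_6 ln13_13_6_ok) (L (nat_lit 366) ln13_14_6 ln13_14_6_ok))) (M (nat_lit 462) (B (L (nat_lit 430) ln13_10_4 ln13_10_4_ok) (L (nat_lit 494) ln13_11_4 ln13_11_4_ok)))))))) (B (M (nat_lit 461) (B (M (nat_lit 493) (B (M (nat_lit 492) (B (L (nat_lit 460) ln13_11_5 ln13_11_5_ok) (L (nat_lit 524) ln13_12_5 ln13_12_5_ok))) (M (nat_lit 494)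 (B (L (nat_lit 462) ln13_11_4 ln13_11_4_ok) (L (nat_lit 526) ln13_12_4 ln13_12_4_ok))))) (B (M (nat_lit 493) (B (M (nat_lit 364) (B (L (nat_lit 332) ln13_14_7 ln13_14_7_ok) (L (nat_lit 396) ln13_15_7 ln13_15_7_ok))) (M (nat_lit 494) (B (L (nat_lit 462) ln13_11_4 ln13_11_4_ok) (L (nat_lit 526) ln13_12_4 ln13_12_4_ok))))) (B (M (nat_lit 493) (B (M (nat_lit 364) (B (L (nat_lit 332) ln13_14_7 ln13_14_7_ok) (L (nat_lit 396) ln13_15_7 ln13_15_7_ok))) (M (nat_lit 492) (B (L (nat_lit 460) ln13_11_5 ln13_11_5_ok) (L (nat_lit 524) ln13_12_5 ln13_12_5_ok))))) (M (nat_lit 333) (B (M (nat_lit 332) (B (L (nat_lit 300) ln13_13_7 ln13_13_7_ok) (L (nat_lit 364) ln13_14_7 ln13_14_7_ok))) (M (nat_lit 460) (B (L (nat_lit 428) ln13_10_5 ln13_10_5_ok) (L (nat_lit 492) ln13_11_5 ln13_11_5_ok))))))))) (B (K (nat_lit 1386334847383188664625224028427294411511058401076380296564914570976209309333027075361123041184442928399551202358502280908102434816)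 (nat_lit 411887859703736698388066239204557055543728194077549090060971877797832666889424586103650995369638910850815751905490499490784995890179880330038813865739687034880) (nat_lit 411887859703736698388066239204557055543728194077549090060971877797832666889424586103650995369638910850815751905490499490784995890179880330038813865739687034880) c21_s5986) (B (M (nat_lit 461) (B (M (nat_lit 333) (B (M (nat_lit 334) (B (L (nat_lit 302) ln13_13_6 ln13_13_6_ok) (L (nat_lit 366) ln13_14_6 ln13_14_6_ok))) (M (nat_lit 462) (B (L (nat_lit 430) ln13_10_4 ln13_10_4_ok) (L (nat_lit 494) ln13_11_4 ln13_11_4_ok))))) (B (M (nat_lit 333) (B (M (nat_lit 332) (B (L (nat_lit 300) ln13_13_7 ln13_13_7_ok) (L (nat_lit 364) ln13_14_7 ln13_14_7_ok))) (M (nat_lit 462) (B (L (nat_lit 430) ln13_10_4 ln13_10_4_ok) (L (nat_lit 494) ln13_11_4 ln13_11_4_ok))))) (B (M (nat_lit 493) (B (M (nat_lit 364) (B (L (nat_lit 332) ln13_14_7 ln13_14_7_ok)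 (L (nat_lit 396) ln13_15_7 ln13_15_7_ok))) (M (nat_lit 494) (B (L (nat_lit 462) ln13_11_4 ln13_11_4_ok) (L (nat_lit 526) ln13_12_4 ln13_12_4_ok))))) (M (nat_lit 333) (B (M (nat_lit 332) (B (L (nat_lit 300) ln13_13_7 ln13_13_7_ok) (L (nat_lit 364) ln13_14_7 ln13_14_7_ok))) (M (nat_lit 334) (B (L (nat_lit 302) ln13_13_6 ln13_13_6_ok) (L (nat_lit 366) ln13_14_6 ln13_14_6_ok))))))))) (B (M (nat_lit 333) (B (M (nat_lit 301) (B (M (nat_lit 428) (B (L (nat_lit 396) ln13_9_5 ln13_9_5_ok) (L (nat_lit 460) ln13_10_5 ln13_10_5_ok))) (M (nat_lit 430) (B (L (nat_lit 398) ln13_9_4 ln13_9_4_ok) (L (nat_lit 462) ln13_10_4 ln13_10_4_ok))))) (B (M (nat_lit 428) (B (L (nat_lit 460) ln13_10_5 ln13_10_5_ok) (M (nat_lit 430) (B (L (nat_lit 462) ln13_10_4 ln13_10_4_ok) (M (nat_lit 427) (B (M (nat_lit 398) (B (L (nat_lit 426) ln10_13_2 ln10_13_2_ok) (L (nat_lit 399) ln11_13_2 ln11_13_2_ok))) (B (M (nat_lit 426) (B (M (nat_lit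 394) (B (L (nat_lit 393) ln13_13_3 ln13_13_3_ok) (L (nat_lit 395) ln14_13_3 ln14_13_3_ok))) (M (nat_lit 458) (B (L (nat_lit 457) ln13_13_1 ln13_13_1_ok) (L (nat_lit 459) ln14_13_1 ln14_13_1_ok))))) (M (nat_lit 431) (B (M (nat_lit 395) (B (L (nat_lit 394) ln14_13_3 ln14_13_3_ok) (L (nat_lit 396) ln15_13_3 ln15_13_3_ok))) (M (nat_lit 399) (B (L (nat_lit 398) ln11_13_2 ln11_13_2_ok) (L (nat_lit 400) ln12_13_2 ln12_13_2_ok)))))))))))) (B (M (nat_lit 301) (B (M (nat_lit 300) (B (L (nat_lit 268) ln13_12_7 ln13_12_7_ok) (L (nat_lit 332) ln13_13_7 ln13_13_7_ok))) (M (nat_lit 430) (B (L (nat_lit 398) ln13_9_4 ln13_9_4_ok) (L (nat_lit 462) ln13_10_4 ln13_10_4_ok))))) (M (nat_lit 301) (B (M (nat_lit 300) (B (L (nat_lit 268) ln13_12_7 ln13_12_7_ok) (L (nat_lit 332) ln13_13_7 ln13_13_7_ok))) (M (nat_lit 428) (B (L (nat_lit 396) ln13_9_5 ln13_9_5_ok) (L (nat_lit 460) ln13_10_5 ln13_10_5_ok))))))))) (M (nat_lit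 461) (B (M (nat_lit 493) (B (M (nat_lit 366) (B (L (nat_lit 334) ln13_14_6 ln13_14_6_ok) (L (nat_lit 398) ln13_15_6 ln13_15_6_ok))) (M (nat_lit 492) (B (L (nat_lit 460) ln13_11_5 ln13_11_5_ok) (L (nat_lit 524) ln13_12_5 ln13_12_5_ok))))) (B (M (nat_lit 493) (B (M (nat_lit 364) (B (L (nat_lit 332) ln13_14_7 ln13_14_7_ok) (L (nat_lit 396) ln13_15_7 ln13_15_7_ok))) (M (nat_lit 492) (B (L (nat_lit 460) ln13_11_5 ln13_11_5_ok) (L (nat_lit 524) ln13_12_5 ln13_12_5_ok))))) (B (M (nat_lit 364) (B (L (nat_lit 332) ln13_14_7 ln13_14_7_ok) (M (nat_lit 493) (B (L (nat_lit 396) ln13_15_7 ln13_15_7_ok) (M (nat_lit 366) (B (L (nat_lit 334) ln13_14_6 ln13_14_6_ok) (L (nat_lit 398) ln13_15_6 ln13_15_6_ok))))))) (M (nat_lit 333) (B (M (nat_lit 332) (B (L (nat_lit 300) ln13_13_7 ln13_13_7_ok) (L (nat_lit 364) ln13_14_7 ln13_14_7_ok))) (M (nat_lit 334) (B (L (nat_lit 302) ln13_13_6 ln13_13_6_ok) (L (nat_lit 366) ln13_14_6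 ln13_14_6_ok))))))))))))))) (nat_lit 1386334847383188664550070665778531748218595021979121511688892729411143073470393764272092352380775458208712834410189682411080515584) (nat_lit 411887859703736698388066239204557055543728194077624243423638138466935616579774831822861568856257258711091839726432931961943759827060439993171494589889993768960) (nat_lit 411887859703736698388066239204557055543728194077624243423638138466935616579774831822861568856257258711091839726432931961943759827060439993171494589889993768960) (by decide +kernel)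
theorem c21_s6026 : Sem (nat_lit 1386334847383188664550070665778531748218595021979121511688892729411143073470393764272092352380775458208712834410189682411080515584) (nat_lit 274591906494731163054776081127898362356854177742833325617410767863286274206780322036206914919520846558372683812562987860212695484831606115443858451104119390208) (nat_lit 274591906494731163054776081127898362356854177742833325617410767863286274206780322036206914919520846558372683812562987860212695484831606115443858451104119390208) :=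
  sem_of_chk (M (nat_lit 365) (B (M (nat_lit 461) (B (M (nat_lit 493) (B (M (nat_lit 366) (B (L (nat_lit 334) ln13_14_6 ln13_14_6_ok) (L (nat_lit 398) ln13_15_6 ln13_15_6_ok))) (M (nat_lit 492) (B (L (nat_lit 460) ln13_11_5 ln13_11_5_ok) (L (nat_lit 524) ln13_12_5 ln13_12_5_ok))))) (B (M (nat_lit 333) (B (M (nat_lit 460) (B (L (nat_lit 428) ln13_10_5 ln13_10_5_ok) (L (nat_lit 492) ln13_11_5 ln13_11_5_ok))) (M (nat_lit 462) (B (L (nat_lit 430) ln13_10_4 ln13_10_4_ok) (L (nat_lit 494) ln13_11_4 ln13_11_4_ok))))) (M (nat_lit 333) (B (M (nat_lit 334) (B (L (nat_lit 302) ln13_13_6 ln13_13_6_ok) (L (nat_lit 366) ln13_14_6 ln13_14_6_ok))) (M (nat_lit 462) (B (L (nat_lit 430) ln13_10_4 ln13_10_4_ok) (L (nat_lit 494) ln13_11_4 ln13_11_4_ok)))))))) (B (M (nat_lit 461) (B (M (nat_lit 333) (B (M (nat_lit 460) (B (L (nat_lit 428) ln13_10_5 ln13_10_5_ok) (L (nat_lit 492) ln13_11_5 ln13_11_5_ok))) (M (nat_lit 462)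 (B (L (nat_lit 430) ln13_10_4 ln13_10_4_ok) (L (nat_lit 494) ln13_11_4 ln13_11_4_ok))))) (B (M (nat_lit 493) (B (M (nat_lit 364) (B (L (nat_lit 332) ln13_14_7 ln13_14_7_ok) (L (nat_lit 396) ln13_15_7 ln13_15_7_ok))) (M (nat_lit 494) (B (L (nat_lit 462) ln13_11_4 ln13_11_4_ok) (L (nat_lit 526) ln13_12_4 ln13_12_4_ok))))) (M (nat_lit 333) (B (M (nat_lit 332) (B (L (nat_lit 300) ln13_13_7 ln13_13_7_ok) (L (nat_lit 364) ln13_14_7 ln13_14_7_ok))) (M (nat_lit 460) (B (L (nat_lit 428) ln13_10_5 ln13_10_5_ok) (L (nat_lit 492) ln13_11_5 ln13_11_5_ok)))))))) (B (M (nat_lit 461) (B (M (nat_lit 493) (B (M (nat_lit 364) (B (L (nat_lit 332) ln13_14_7 ln13_14_7_ok) (L (nat_lit 396) ln13_15_7 ln13_15_7_ok))) (M (nat_lit 492) (B (L (nat_lit 460) ln13_11_5 ln13_11_5_ok) (L (nat_lit 524) ln13_12_5 ln13_12_5_ok))))) (B (M (nat_lit 493) (B (M (nat_lit 366) (B (L (nat_lit 334) ln13_14_6 ln13_14_6_ok) (L (nat_lit 398)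 ln13_15_6 ln13_15_6_ok))) (M (nat_lit 494) (B (L (nat_lit 462) ln13_11_4 ln13_11_4_ok) (L (nat_lit 526) ln13_12_4 ln13_12_4_ok))))) (M (nat_lit 366) (B (L (nat_lit 334) ln13_14_6 ln13_14_6_ok) (M (nat_lit 367) (B (M (nat_lit 364) (B (L (nat_lit 332) ln13_14_7 ln13_14_7_ok) (M (nat_lit 396) (B (L (nat_lit 395) ln15_11_1 ln15_11_1_ok) (L (nat_lit 368) ln16_11_1 ln16_11_1_ok))))) (B (M (nat_lit 396) (B (L (nat_lit 368) ln16_11_1 ln16_11_1_ok) (M (nat_lit 395) (B (L (nat_lit 364) ln15_11_1 ln15_11_1_ok) (L (nat_lit 394) ln10_12_2 ln10_12_2_ok))))) (B (M (nat_lit 396) (B (L (nat_lit 368) ln16_11_1 ln16_11_1_ok) (M (nat_lit 395) (B (L (nat_lit 394) ln10_12_2 ln10_12_2_ok) (L (nat_lit 398) ln11_12_2 ln11_12_2_ok))))) (B (M (nat_lit 364) (B (L (nat_lit 332) ln13_14_7 ln13_14_7_ok) (M (nat_lit 363) (B (M (nat_lit 395) (B (L (nat_lit 394) ln14_11_1 ln14_11_1_ok) (L (nat_lit 396) ln15_11_1 ln15_11_1_ok))) (M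 (nat_lit 399) (B (L (nat_lit 398) ln11_11_0 ln11_11_0_ok) (L (nat_lit 400) ln12_11_0 ln12_11_0_ok))))))) (B (M (nat_lit 336) (B (M (nat_lit 364) (B (L (nat_lit 332) ln13_14_7 ln13_14_7_ok) (L (nat_lit 335) ln12_11_2 ln12_11_2_ok))) (M (nat_lit 368) (B (L (nat_lit 337) ln13_11_2 ln13_11_2_ok) (L (nat_lit 396) ln16_11_1 ln16_11_1_ok))))) (M (nat_lit 364) (B (L (nat_lit 332) ln13_14_7 ln13_14_7_ok) (M (nat_lit 368) (B (M (nat_lit 336) (B (L (nat_lit 335) ln12_11_2 ln12_11_2_ok) (L (nat_lit 337) ln13_11_2 ln13_11_2_ok))) (M (nat_lit 400) (B (L (nat_lit 399) ln12_11_0 ln12_11_0_ok) (L (nat_lit 401) ln13_11_0 ln13_11_0_ok)))))))))))))))))) (B (M (nat_lit 461) (B (M (nat_lit 333) (B (M (nat_lit 334) (B (L (nat_lit 302) ln13_13_6 ln13_13_6_ok) (L (nat_lit 366) ln13_14_6 ln13_14_6_ok))) (M (nat_lit 462) (B (L (nat_lit 430) ln13_10_4 ln13_10_4_ok) (L (nat_lit 494) ln13_11_4 ln13_11_4_ok))))) (B (M (nat_lit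 333) (B (M (nat_lit 332) (B (L (nat_lit 300) ln13_13_7 ln13_13_7_ok) (L (nat_lit 364) ln13_14_7 ln13_14_7_ok))) (M (nat_lit 462) (B (L (nat_lit 430) ln13_10_4 ln13_10_4_ok) (L (nat_lit 494) ln13_11_4 ln13_11_4_ok))))) (B (M (nat_lit 493) (B (M (nat_lit 364) (B (L (nat_lit 332) ln13_14_7 ln13_14_7_ok) (L (nat_lit 396) ln13_15_7 ln13_15_7_ok))) (M (nat_lit 494) (B (L (nat_lit 462) ln13_11_4 ln13_11_4_ok) (L (nat_lit 526) ln13_12_4 ln13_12_4_ok))))) (M (nat_lit 333) (B (M (nat_lit 332) (B (L (nat_lit 300) ln13_13_7 ln13_13_7_ok) (L (nat_lit 364) ln13_14_7 ln13_14_7_ok))) (M (nat_lit 334) (B (L (nat_lit 302) ln13_13_6 ln13_13_6_ok) (L (nat_lit 366) ln13_14_6 ln13_14_6_ok))))))))) (M (nat_lit 333) (B (M (nat_lit 301) (B (M (nat_lit 300) (B (L (nat_lit 268) ln13_12_7 ln13_12_7_ok) (L (nat_lit 332) ln13_13_7 ln13_13_7_ok))) (M (nat_lit 302) (B (L (nat_lit 270) ln13_12_6 ln13_12_6_ok) (L (nat_lit 334) ln13_13_6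 ln13_13_6_ok))))) (B (M (nat_lit 301) (B (M (nat_lit 302) (B (L (nat_lit 270) ln13_12_6 ln13_12_6_ok) (L (nat_lit 334) ln13_13_6 ln13_13_6_ok))) (M (nat_lit 428) (B (L (nat_lit 396) ln13_9_5 ln13_9_5_ok) (L (nat_lit 460) ln13_10_5 ln13_10_5_ok))))) (B (M (nat_lit 301) (B (M (nat_lit 300) (B (L (nat_lit 268) ln13_12_7 ln13_12_7_ok) (L (nat_lit 332) ln13_13_7 ln13_13_7_ok))) (M (nat_lit 428) (B (L (nat_lit 396) ln13_9_5 ln13_9_5_ok) (L (nat_lit 460) ln13_10_5 ln13_10_5_ok))))) (M (nat_lit 332) (B (L (nat_lit 300) ln13_13_7 ln13_13_7_ok) (M (nat_lit 334) (B (L (nat_lit 302) ln13_13_6 ln13_13_6_ok) (M (nat_lit 331) (B (M (nat_lit 366) (B (L (nat_lit 330) ln10_10_0 ln10_10_0_ok) (L (nat_lit 367) ln11_10_0 ln11_10_0_ok))) (B (M (nat_lit 335) (B (M (nat_lit 363) (B (L (nat_lit 362) ln14_10_1 ln14_10_1_ok) (L (nat_lit 364) ln15_10_1 ln15_10_1_ok))) (M (nat_lit 367) (B (L (nat_lit 366) ln11_10_0 ln11_10_0_ok)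 (L (nat_lit 368) ln12_10_0 ln12_10_0_ok))))) (M (nat_lit 330) (B (M (nat_lit 298) (B (L (nat_lit 297) ln13_10_3 ln13_10_3_ok) (L (nat_lit 299) ln14_10_3 ln14_10_3_ok))) (M (nat_lit 362) (B (L (nat_lit 361) ln13_10_1 ln13_10_1_ok) (L (nat_lit 363) ln14_10_1 ln14_10_1_ok))))))))))))))))))))) (nat_lit 1386334847383188664550070665778531748218595021979121511688892729411143073470393764272092352380775458208712834410189682411080515584) (nat_lit 274591906494731163054776081127898362356854177742833325617410767863286274206780322036206914919520846558372683812562987860212695484831606115443858451104119390208) (nat_lit 274591906494731163054776081127898362356854177742833325617410767863286274206780322036206914919520846558372683812562987860212695484831606115443858451104119390208) (by decide +kernel)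
theorem c21_s6061 : Sem (nat_lit 1386334847383188664550070665778531748218595021979121511688892729411143073470393764272092352380775458208712834410189682411080515584) (nat_lit 274591906494731163056264646874419724692950855383616587930863105119852193013960870122685778544985167799219743932298710979014935293657506055193962325609612836864) (nat_lit 274591906494731163056264646874419724692950855383616587930863105119852193013960870122685778544985167799219743932298710979014935293657506055193962325609612836864) :=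
  sem_of_chk (M (nat_lit 365) (B (M (nat_lit 461) (B (M (nat_lit 493) (B (M (nat_lit 366) (B (L (nat_lit 334) ln13_14_6 ln13_14_6_ok) (L (nat_lit 398) ln13_15_6 ln13_15_6_ok))) (M (nat_lit 492) (B (L (nat_lit 460) ln13_11_5 ln13_11_5_ok) (L (nat_lit 524) ln13_12_5 ln13_12_5_ok))))) (B (M (nat_lit 333) (B (M (nat_lit 460) (B (L (nat_lit 428) ln13_10_5 ln13_10_5_ok) (L (nat_lit 492) ln13_11_5 ln13_11_5_ok))) (M (nat_lit 462) (B (L (nat_lit 430) ln13_10_4 ln13_10_4_ok) (L (nat_lit 494) ln13_11_4 ln13_11_4_ok))))) (M (nat_lit 333) (B (M (nat_lit 334) (B (L (nat_lit 302) ln13_13_6 ln13_13_6_ok) (L (nat_lit 366) ln13_14_6 ln13_14_6_ok))) (M (nat_lit 462) (B (L (nat_lit 430) ln13_10_4 ln13_10_4_ok) (L (nat_lit 494) ln13_11_4 ln13_11_4_ok)))))))) (B (M (nat_lit 461) (B (M (nat_lit 333) (B (M (nat_lit 460) (B (L (nat_lit 428) ln13_10_5 ln13_10_5_ok) (L (nat_lit 492) ln13_11_5 ln13_11_5_ok))) (M (nat_lit 462)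 (B (L (nat_lit 430) ln13_10_4 ln13_10_4_ok) (L (nat_lit 494) ln13_11_4 ln13_11_4_ok))))) (B (M (nat_lit 493) (B (M (nat_lit 364) (B (L (nat_lit 332) ln13_14_7 ln13_14_7_ok) (L (nat_lit 396) ln13_15_7 ln13_15_7_ok))) (M (nat_lit 494) (B (L (nat_lit 462) ln13_11_4 ln13_11_4_ok) (L (nat_lit 526) ln13_12_4 ln13_12_4_ok))))) (M (nat_lit 333) (B (M (nat_lit 332) (B (L (nat_lit 300) ln13_13_7 ln13_13_7_ok) (L (nat_lit 364) ln13_14_7 ln13_14_7_ok))) (M (nat_lit 460) (B (L (nat_lit 428) ln13_10_5 ln13_10_5_ok) (L (nat_lit 492) ln13_11_5 ln13_11_5_ok)))))))) (B (M (nat_lit 461) (B (M (nat_lit 493) (B (M (nat_lit 364) (B (L (nat_lit 332) ln13_14_7 ln13_14_7_ok) (L (nat_lit 396) ln13_15_7 ln13_15_7_ok))) (M (nat_lit 492) (B (L (nat_lit 460) ln13_11_5 ln13_11_5_ok) (L (nat_lit 524) ln13_12_5 ln13_12_5_ok))))) (B (M (nat_lit 493) (B (M (nat_lit 366) (B (L (nat_lit 334) ln13_14_6 ln13_14_6_ok) (L (nat_lit 398)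 ln13_15_6 ln13_15_6_ok))) (M (nat_lit 494) (B (L (nat_lit 462) ln13_11_4 ln13_11_4_ok) (L (nat_lit 526) ln13_12_4 ln13_12_4_ok))))) (M (nat_lit 398) (B (M (nat_lit 366) (B (L (nat_lit 334) ln13_14_6 ln13_14_6_ok) (M (nat_lit 364) (B (L (nat_lit 332) ln13_14_7 ln13_14_7_ok) (M (nat_lit 399) (B (L (nat_lit 363) ln11_11_0 ln11_11_0_ok) (L (nat_lit 400) ln16_12_3 ln16_12_3_ok))))))) (B (M (nat_lit 430) (B (M (nat_lit 462) (B (L (nat_lit 494) ln14_15_7 ln14_15_7_ok) (M (nat_lit 460) (B (L (nat_lit 492) ln13_11_5 ln13_11_5_ok) (M (nat_lit 431) (B (L (nat_lit 432) ln16_13_1 ln16_13_1_ok) (L (nat_lit 459) ln11_14_2 ln11_14_2_ok))))))) (B (M (nat_lit 366) (B (L (nat_lit 334) ln13_14_6 ln13_14_6_ok) (M (nat_lit 367) (B (M (nat_lit 462) (B (L (nat_lit 335) ln14_14_6 ln14_14_6_ok) (L (nat_lit 494) ln14_15_7 ln14_15_7_ok))) (M (nat_lit 368) (B (L (nat_lit 396) ln16_11_1 ln16_11_1_ok) (L (nat_lit 369) ln17_11_1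 ln17_11_1_ok))))))) (M (nat_lit 431) (B (M (nat_lit 432) (B (L (nat_lit 396) ln16_13_3 ln16_13_3_ok) (L (nat_lit 433) ln17_13_3 ln17_13_3_ok))) (B (M (nat_lit 432) (B (L (nat_lit 433) ln17_13_3 ln17_13_3_ok) (L (nat_lit 460) ln16_13_1 ln16_13_1_ok))) (M (nat_lit 428) (B (M (nat_lit 399) (B (L (nat_lit 400) ln16_12_1 ln16_12_1_ok) (L (nat_lit 427) ln11_13_2 ln11_13_2_ok))) (M (nat_lit 460) (B (L (nat_lit 492) ln13_11_5 ln13_11_5_ok) (L (nat_lit 459) ln15_13_1 ln15_13_1_ok))))))))))) (B (M (nat_lit 364) (B (L (nat_lit 332) ln13_14_7 ln13_14_7_ok) (M (nat_lit 399) (B (L (nat_lit 400) ln16_12_3 ln16_12_3_ok) (M (nat_lit 363) (B (L (nat_lit 366) ln11_11_0 ln11_11_0_ok) (L (nat_lit 396) ln15_12_3 ln15_12_3_ok))))))) (B (M (nat_lit 364) (B (L (nat_lit 332) ln13_14_7 ln13_14_7_ok) (M (nat_lit 399) (B (L (nat_lit 400) ln16_12_3 ln16_12_3_ok) (M (nat_lit 363) (B (L (nat_lit 362) ln10_11_0 ln10_11_0_ok) (L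 (nat_lit 396) ln15_12_3 ln15_12_3_ok))))))) (M (nat_lit 366) (B (L (nat_lit 334) ln13_14_6 ln13_14_6_ok) (M (nat_lit 367) (B (M (nat_lit 396) (B (L (nat_lit 368) ln16_11_1 ln16_11_1_ok) (L (nat_lit 395) ln11_12_2 ln11_12_2_ok))) (M (nat_lit 335) (B (M (nat_lit 364) (B (L (nat_lit 332) ln13_14_7 ln13_14_7_ok) (L (nat_lit 336) ln12_11_2 ln12_11_2_ok))) (M (nat_lit 462) (B (L (nat_lit 430) ln14_14_6 ln14_14_6_ok) (L (nat_lit 494) ln13_11_4 ln13_11_4_ok))))))))))))))))) (B (M (nat_lit 461) (B (M (nat_lit 333) (B (M (nat_lit 334) (B (L (nat_lit 302) ln13_13_6 ln13_13_6_ok) (L (nat_lit 366) ln13_14_6 ln13_14_6_ok))) (M (nat_lit 462) (B (L (nat_lit 430) ln13_10_4 ln13_10_4_ok) (L (nat_lit 494) ln13_11_4 ln13_11_4_ok))))) (B (M (nat_lit 333) (B (M (nat_lit 332) (B (L (nat_lit 300) ln13_13_7 ln13_13_7_ok) (L (nat_lit 364) ln13_14_7 ln13_14_7_ok))) (M (nat_lit 462) (B (L (nat_lit 430) ln13_10_4 ln13_10_4_ok)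 (L (nat_lit 494) ln13_11_4 ln13_11_4_ok))))) (B (M (nat_lit 493) (B (M (nat_lit 364) (B (L (nat_lit 332) ln13_14_7 ln13_14_7_ok) (L (nat_lit 396) ln13_15_7 ln13_15_7_ok))) (M (nat_lit 494) (B (L (nat_lit 462) ln13_11_4 ln13_11_4_ok) (L (nat_lit 526) ln13_12_4 ln13_12_4_ok))))) (M (nat_lit 333) (B (M (nat_lit 332) (B (L (nat_lit 300) ln13_13_7 ln13_13_7_ok) (L (nat_lit 364) ln13_14_7 ln13_14_7_ok))) (M (nat_lit 334) (B (L (nat_lit 302) ln13_13_6 ln13_13_6_ok) (L (nat_lit 366) ln13_14_6 ln13_14_6_ok))))))))) (B (M (nat_lit 461) (B (M (nat_lit 493) (B (M (nat_lit 366) (B (L (nat_lit 334) ln13_14_6 ln13_14_6_ok) (L (nat_lit 398) ln13_15_6 ln13_15_6_ok))) (M (nat_lit 494) (B (L (nat_lit 462) ln13_11_4 ln13_11_4_ok) (L (nat_lit 526) ln13_12_4 ln13_12_4_ok))))) (B (M (nat_lit 493) (B (M (nat_lit 364) (B (L (nat_lit 332) ln13_14_7 ln13_14_7_ok) (L (nat_lit 396) ln13_15_7 ln13_15_7_ok))) (M (nat_lit 494)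 (B (L (nat_lit 462) ln13_11_4 ln13_11_4_ok) (L (nat_lit 526) ln13_12_4 ln13_12_4_ok))))) (B (M (nat_lit 364) (B (L (nat_lit 332) ln13_14_7 ln13_14_7_ok) (M (nat_lit 493) (B (L (nat_lit 396) ln13_15_7 ln13_15_7_ok) (M (nat_lit 366) (B (L (nat_lit 334) ln13_14_6 ln13_14_6_ok) (L (nat_lit 398) ln13_15_6 ln13_15_6_ok))))))) (M (nat_lit 333) (B (M (nat_lit 332) (B (L (nat_lit 300) ln13_13_7 ln13_13_7_ok) (L (nat_lit 364) ln13_14_7 ln13_14_7_ok))) (M (nat_lit 334) (B (L (nat_lit 302) ln13_13_6 ln13_13_6_ok) (L (nat_lit 366) ln13_14_6 ln13_14_6_ok))))))))) (M (nat_lit 333) (B (M (nat_lit 301) (B (M (nat_lit 300) (B (L (nat_lit 268) ln13_12_7 ln13_12_7_ok) (L (nat_lit 332) ln13_13_7 ln13_13_7_ok))) (M (nat_lit 302) (B (L (nat_lit 270) ln13_12_6 ln13_12_6_ok) (L (nat_lit 334) ln13_13_6 ln13_13_6_ok))))) (B (M (nat_lit 301) (B (M (nat_lit 302) (B (L (nat_lit 270) ln13_12_6 ln13_12_6_ok) (L (nat_lit 334) ln13_13_6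 ln13_13_6_ok))) (M (nat_lit 428) (B (L (nat_lit 396) ln13_9_5 ln13_9_5_ok) (L (nat_lit 460) ln13_10_5 ln13_10_5_ok))))) (B (M (nat_lit 301) (B (M (nat_lit 300) (B (L (nat_lit 268) ln13_12_7 ln13_12_7_ok) (L (nat_lit 332) ln13_13_7 ln13_13_7_ok))) (M (nat_lit 428) (B (L (nat_lit 396) ln13_9_5 ln13_9_5_ok) (L (nat_lit 460) ln13_10_5 ln13_10_5_ok))))) (M (nat_lit 332) (B (L (nat_lit 300) ln13_13_7 ln13_13_7_ok) (M (nat_lit 334) (B (L (nat_lit 302) ln13_13_6 ln13_13_6_ok) (M (nat_lit 331) (B (M (nat_lit 366) (B (L (nat_lit 330) ln10_10_0 ln10_10_0_ok) (L (nat_lit 367) ln11_10_0 ln11_10_0_ok))) (B (M (nat_lit 335) (B (M (nat_lit 363) (B (L (nat_lit 362) ln14_10_1 ln14_10_1_ok) (L (nat_lit 364) ln15_10_1 ln15_10_1_ok))) (M (nat_lit 367) (B (L (nat_lit 366) ln11_10_0 ln11_10_0_ok) (L (nat_lit 368) ln12_10_0 ln12_10_0_ok))))) (M (nat_lit 330) (B (M (nat_lit 298) (B (L (nat_lit 297) ln13_10_3 ln13_10_3_ok)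 (L (nat_lit 299) ln14_10_3 ln14_10_3_ok))) (M (nat_lit 362) (B (L (nat_lit 361) ln13_10_1 ln13_10_1_ok) (L (nat_lit 363) ln14_10_1 ln14_10_1_ok)))))))))))))))))))))) (nat_lit 1386334847383188664550070665778531748218595021979121511688892729411143073470393764272092352380775458208712834410189682411080515584) (nat_lit 274591906494731163056264646874419724692950855383616587930863105119852193013960870122685778544985167799219743932298710979014935293657506055193962325609612836864) (nat_lit 274591906494731163056264646874419724692950855383616587930863105119852193013960870122685778544985167799219743932298710979014935293657506055193962325609612836864) (by decide +kernel)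
theorem c21_s6080 : Sem (nat_lit 1386334847383188664550070665778531748218595021979121511688892729411143073470393764272092352380775458208712834410189682411080515584) (nat_lit 274591906494731163056264646852238367139903641198299058564291688018235602289881534215296028665292239231882843709790889442849642251588372060270361776853671215104) (nat_lit 274591906494731163056264646852238367139903641198299058564291688018235602289881534215296028665292239231882843709790889442849642251588372060270361776853671215104) :=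
  sem_of_chk (M (nat_lit 365) (B (M (nat_lit 461) (B (M (nat_lit 493) (B (M (nat_lit 366) (B (L (nat_lit 334) ln13_14_6 ln13_14_6_ok) (L (nat_lit 398) ln13_15_6 ln13_15_6_ok))) (M (nat_lit 492) (B (L (nat_lit 460) ln13_11_5 ln13_11_5_ok) (L (nat_lit 524) ln13_12_5 ln13_12_5_ok))))) (B (M (nat_lit 333) (B (M (nat_lit 460) (B (L (nat_lit 428) ln13_10_5 ln13_10_5_ok) (L (nat_lit 492) ln13_11_5 ln13_11_5_ok))) (M (nat_lit 462) (B (L (nat_lit 430) ln13_10_4 ln13_10_4_ok) (L (nat_lit 494) ln13_11_4 ln13_11_4_ok))))) (M (nat_lit 333) (B (M (nat_lit 334) (B (L (nat_lit 302) ln13_13_6 ln13_13_6_ok) (L (nat_lit 366) ln13_14_6 ln13_14_6_ok))) (M (nat_lit 462) (B (L (nat_lit 430) ln13_10_4 ln13_10_4_ok) (L (nat_lit 494) ln13_11_4 ln13_11_4_ok)))))))) (B (M (nat_lit 461) (B (M (nat_lit 333) (B (M (nat_lit 460) (B (L (nat_lit 428) ln13_10_5 ln13_10_5_ok) (L (nat_lit 492) ln13_11_5 ln13_11_5_ok))) (M (nat_lit 462)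 (B (L (nat_lit 430) ln13_10_4 ln13_10_4_ok) (L (nat_lit 494) ln13_11_4 ln13_11_4_ok))))) (B (M (nat_lit 493) (B (M (nat_lit 364) (B (L (nat_lit 332) ln13_14_7 ln13_14_7_ok) (L (nat_lit 396) ln13_15_7 ln13_15_7_ok))) (M (nat_lit 494) (B (L (nat_lit 462) ln13_11_4 ln13_11_4_ok) (L (nat_lit 526) ln13_12_4 ln13_12_4_ok))))) (M (nat_lit 333) (B (M (nat_lit 332) (B (L (nat_lit 300) ln13_13_7 ln13_13_7_ok) (L (nat_lit 364) ln13_14_7 ln13_14_7_ok))) (M (nat_lit 460) (B (L (nat_lit 428) ln13_10_5 ln13_10_5_ok) (L (nat_lit 492) ln13_11_5 ln13_11_5_ok)))))))) (B (M (nat_lit 461) (B (M (nat_lit 493) (B (M (nat_lit 364) (B (L (nat_lit 332) ln13_14_7 ln13_14_7_ok) (L (nat_lit 396) ln13_15_7 ln13_15_7_ok))) (M (nat_lit 492) (B (L (nat_lit 460) ln13_11_5 ln13_11_5_ok) (L (nat_lit 524) ln13_12_5 ln13_12_5_ok))))) (B (M (nat_lit 493) (B (M (nat_lit 366) (B (L (nat_lit 334) ln13_14_6 ln13_14_6_ok) (L (nat_lit 398)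 ln13_15_6 ln13_15_6_ok))) (M (nat_lit 494) (B (L (nat_lit 462) ln13_11_4 ln13_11_4_ok) (L (nat_lit 526) ln13_12_4 ln13_12_4_ok))))) (M (nat_lit 398) (B (M (nat_lit 366) (B (L (nat_lit 334) ln13_14_6 ln13_14_6_ok) (M (nat_lit 364) (B (L (nat_lit 332) ln13_14_7 ln13_14_7_ok) (M (nat_lit 399) (B (L (nat_lit 363) ln11_11_0 ln11_11_0_ok) (L (nat_lit 400) ln16_12_3 ln16_12_3_ok))))))) (B (M (nat_lit 430) (B (M (nat_lit 462) (B (L (nat_lit 494) ln14_15_7 ln14_15_7_ok) (M (nat_lit 460) (B (L (nat_lit 492) ln13_11_5 ln13_11_5_ok) (M (nat_lit 431) (B (L (nat_lit 432) ln16_13_1 ln16_13_1_ok) (L (nat_lit 459) ln11_14_2 ln11_14_2_ok))))))) (B (M (nat_lit 366) (B (L (nat_lit 334) ln13_14_6 ln13_14_6_ok) (M (nat_lit 367) (B (M (nat_lit 462) (B (L (nat_lit 335) ln14_14_6 ln14_14_6_ok) (L (nat_lit 494) ln14_15_7 ln14_15_7_ok))) (M (nat_lit 368) (B (L (nat_lit 396) ln16_11_1 ln16_11_1_ok) (L (nat_lit 369) ln17_11_1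 ln17_11_1_ok))))))) (M (nat_lit 428) (B (M (nat_lit 399) (B (L (nat_lit 400) ln16_12_1 ln16_12_1_ok) (L (nat_lit 427) ln11_13_2 ln11_13_2_ok))) (M (nat_lit 460) (B (L (nat_lit 492) ln13_11_5 ln13_11_5_ok) (M (nat_lit 431) (B (L (nat_lit 459) ln15_13_1 ln15_13_1_ok) (L (nat_lit 432) ln16_13_1 ln16_13_1_ok)))))))))) (B (M (nat_lit 364) (B (L (nat_lit 332) ln13_14_7 ln13_14_7_ok) (M (nat_lit 399) (B (L (nat_lit 400) ln16_12_3 ln16_12_3_ok) (M (nat_lit 363) (B (L (nat_lit 362) ln10_11_0 ln10_11_0_ok) (L (nat_lit 396) ln15_12_3 ln15_12_3_ok))))))) (M (nat_lit 366) (B (L (nat_lit 334) ln13_14_6 ln13_14_6_ok) (M (nat_lit 367) (B (M (nat_lit 368) (B (L (nat_lit 396) ln16_11_1 ln16_11_1_ok) (L (nat_lit 369) ln17_11_1 ln17_11_1_ok))) (M (nat_lit 335) (B (M (nat_lit 364) (B (L (nat_lit 332) ln13_14_7 ln13_14_7_ok) (L (nat_lit 336) ln12_11_2 ln12_11_2_ok))) (M (nat_lit 462) (B (L (nat_lit 430) ln14_14_6 ln14_14_6_ok)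 (L (nat_lit 494) ln13_11_4 ln13_11_4_ok)))))))))))))))) (B (M (nat_lit 461) (B (M (nat_lit 333) (B (M (nat_lit 334) (B (L (nat_lit 302) ln13_13_6 ln13_13_6_ok) (L (nat_lit 366) ln13_14_6 ln13_14_6_ok))) (M (nat_lit 462) (B (L (nat_lit 430) ln13_10_4 ln13_10_4_ok) (L (nat_lit 494) ln13_11_4 ln13_11_4_ok))))) (B (M (nat_lit 333) (B (M (nat_lit 332) (B (L (nat_lit 300) ln13_13_7 ln13_13_7_ok) (L (nat_lit 364) ln13_14_7 ln13_14_7_ok))) (M (nat_lit 462) (B (L (nat_lit 430) ln13_10_4 ln13_10_4_ok) (L (nat_lit 494) ln13_11_4 ln13_11_4_ok))))) (B (M (nat_lit 493) (B (M (nat_lit 364) (B (L (nat_lit 332) ln13_14_7 ln13_14_7_ok) (L (nat_lit 396) ln13_15_7 ln13_15_7_ok))) (M (nat_lit 494) (B (L (nat_lit 462) ln13_11_4 ln13_11_4_ok) (L (nat_lit 526) ln13_12_4 ln13_12_4_ok))))) (M (nat_lit 333) (B (M (nat_lit 332) (B (L (nat_lit 300) ln13_13_7 ln13_13_7_ok) (L (nat_lit 364) ln13_14_7 ln13_14_7_ok))) (M (nat_lit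 334) (B (L (nat_lit 302) ln13_13_6 ln13_13_6_ok) (L (nat_lit 366) ln13_14_6 ln13_14_6_ok))))))))) (B (M (nat_lit 461) (B (M (nat_lit 493) (B (M (nat_lit 366) (B (L (nat_lit 334) ln13_14_6 ln13_14_6_ok) (L (nat_lit 398) ln13_15_6 ln13_15_6_ok))) (M (nat_lit 494) (B (L (nat_lit 462) ln13_11_4 ln13_11_4_ok) (L (nat_lit 526) ln13_12_4 ln13_12_4_ok))))) (B (M (nat_lit 493) (B (M (nat_lit 364) (B (L (nat_lit 332) ln13_14_7 ln13_14_7_ok) (L (nat_lit 396) ln13_15_7 ln13_15_7_ok))) (M (nat_lit 494) (B (L (nat_lit 462) ln13_11_4 ln13_11_4_ok) (L (nat_lit 526) ln13_12_4 ln13_12_4_ok))))) (B (M (nat_lit 364) (B (L (nat_lit 332) ln13_14_7 ln13_14_7_ok) (M (nat_lit 493) (B (L (nat_lit 396) ln13_15_7 ln13_15_7_ok) (M (nat_lit 366) (B (L (nat_lit 334) ln13_14_6 ln13_14_6_ok) (L (nat_lit 398) ln13_15_6 ln13_15_6_ok))))))) (M (nat_lit 333) (B (M (nat_lit 332) (B (L (nat_lit 300) ln13_13_7 ln13_13_7_ok) (L (nat_lit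 364) ln13_14_7 ln13_14_7_ok))) (M (nat_lit 334) (B (L (nat_lit 302) ln13_13_6 ln13_13_6_ok) (L (nat_lit 366) ln13_14_6 ln13_14_6_ok))))))))) (M (nat_lit 333) (B (M (nat_lit 301) (B (M (nat_lit 300) (B (L (nat_lit 268) ln13_12_7 ln13_12_7_ok) (L (nat_lit 332) ln13_13_7 ln13_13_7_ok))) (M (nat_lit 302) (B (L (nat_lit 270) ln13_12_6 ln13_12_6_ok) (L (nat_lit 334) ln13_13_6 ln13_13_6_ok))))) (B (M (nat_lit 301) (B (M (nat_lit 302) (B (L (nat_lit 270) ln13_12_6 ln13_12_6_ok) (L (nat_lit 334) ln13_13_6 ln13_13_6_ok))) (M (nat_lit 428) (B (L (nat_lit 396) ln13_9_5 ln13_9_5_ok) (L (nat_lit 460) ln13_10_5 ln13_10_5_ok))))) (B (M (nat_lit 301) (B (M (nat_lit 300) (B (L (nat_lit 268) ln13_12_7 ln13_12_7_ok) (L (nat_lit 332) ln13_13_7 ln13_13_7_ok))) (M (nat_lit 428) (B (L (nat_lit 396) ln13_9_5 ln13_9_5_ok) (L (nat_lit 460) ln13_10_5 ln13_10_5_ok))))) (M (nat_lit 332) (B (L (nat_lit 300) ln13_13_7 ln13_13_7_ok)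 (M (nat_lit 334) (B (L (nat_lit 302) ln13_13_6 ln13_13_6_ok) (M (nat_lit 331) (B (M (nat_lit 366) (B (L (nat_lit 330) ln10_10_0 ln10_10_0_ok) (L (nat_lit 367) ln11_10_0 ln11_10_0_ok))) (B (M (nat_lit 335) (B (M (nat_lit 363) (B (L (nat_lit 362) ln14_10_1 ln14_10_1_ok) (L (nat_lit 364) ln15_10_1 ln15_10_1_ok))) (M (nat_lit 367) (B (L (nat_lit 366) ln11_10_0 ln11_10_0_ok) (L (nat_lit 368) ln12_10_0 ln12_10_0_ok))))) (M (nat_lit 330) (B (M (nat_lit 298) (B (L (nat_lit 297) ln13_10_3 ln13_10_3_ok) (L (nat_lit 299) ln14_10_3 ln14_10_3_ok))) (M (nat_lit 362) (B (L (nat_lit 361) ln13_10_1 ln13_10_1_ok) (L (nat_lit 363) ln14_10_1 ln14_10_1_ok)))))))))))))))))))))) (nat_lit 1386334847383188664550070665778531748218595021979121511688892729411143073470393764272092352380775458208712834410189682411080515584) (nat_lit 274591906494731163056264646852238367139903641198299058564291688018235602289881534215296028665292239231882843709790889442849642251588372060270361776853671215104)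 (nat_lit 274591906494731163056264646852238367139903641198299058564291688018235602289881534215296028665292239231882843709790889442849642251588372060270361776853671215104) (by decide +kernel)
theorem c21_s6116 : Sem (nat_lit 1386334847383188664550070665778531748218595021979121511688892729411143073470393764272092352380775458208712834410189682411080515584) (nat_lit 274591906494731163054776081127898362367041960466175535964918932709621212563740066231108369085709293659492037217444010542061852667247663478665433516818711969792) (nat_lit 274591906494731163054776081127898362367041960466175535964918932709621212563740066231108369085709293659492037217444010542061852667247663478665433516818711969792) :=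
  sem_of_chk (M (nat_lit 365) (B (M (nat_lit 461) (B (M (nat_lit 493) (B (M (nat_lit 366) (B (L (nat_lit 334) ln13_14_6 ln13_14_6_ok) (L (nat_lit 398) ln13_15_6 ln13_15_6_ok))) (M (nat_lit 492) (B (L (nat_lit 460) ln13_11_5 ln13_11_5_ok) (L (nat_lit 524) ln13_12_5 ln13_12_5_ok))))) (B (M (nat_lit 333) (B (M (nat_lit 460) (B (L (nat_lit 428) ln13_10_5 ln13_10_5_ok) (L (nat_lit 492) ln13_11_5 ln13_11_5_ok))) (M (nat_lit 462) (B (L (nat_lit 430) ln13_10_4 ln13_10_4_ok) (L (nat_lit 494) ln13_11_4 ln13_11_4_ok))))) (M (nat_lit 333) (B (M (nat_lit 334) (B (L (nat_lit 302) ln13_13_6 ln13_13_6_ok) (L (nat_lit 366) ln13_14_6 ln13_14_6_ok))) (M (nat_lit 462) (B (L (nat_lit 430) ln13_10_4 ln13_10_4_ok) (L (nat_lit 494) ln13_11_4 ln13_11_4_ok)))))))) (B (M (nat_lit 461) (B (M (nat_lit 493) (B (M (nat_lit 366) (B (L (nat_lit 334) ln13_14_6 ln13_14_6_ok) (L (nat_lit 398) ln13_15_6 ln13_15_6_ok))) (M (nat_lit 494)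 (B (L (nat_lit 462) ln13_11_4 ln13_11_4_ok) (L (nat_lit 526) ln13_12_4 ln13_12_4_ok))))) (M (nat_lit 333) (B (M (nat_lit 332) (B (L (nat_lit 300) ln13_13_7 ln13_13_7_ok) (L (nat_lit 364) ln13_14_7 ln13_14_7_ok))) (M (nat_lit 460) (B (L (nat_lit 428) ln13_10_5 ln13_10_5_ok) (L (nat_lit 492) ln13_11_5 ln13_11_5_ok))))))) (B (M (nat_lit 461) (B (M (nat_lit 493) (B (M (nat_lit 366) (B (L (nat_lit 334) ln13_14_6 ln13_14_6_ok) (L (nat_lit 398) ln13_15_6 ln13_15_6_ok))) (M (nat_lit 492) (B (L (nat_lit 460) ln13_11_5 ln13_11_5_ok) (L (nat_lit 524) ln13_12_5 ln13_12_5_ok))))) (B (M (nat_lit 493) (B (M (nat_lit 492) (B (L (nat_lit 460) ln13_11_5 ln13_11_5_ok) (L (nat_lit 524) ln13_12_5 ln13_12_5_ok))) (M (nat_lit 494) (B (L (nat_lit 462) ln13_11_4 ln13_11_4_ok) (L (nat_lit 526) ln13_12_4 ln13_12_4_ok))))) (B (M (nat_lit 493) (B (M (nat_lit 366) (B (L (nat_lit 334) ln13_14_6 ln13_14_6_ok) (L (nat_lit 398) ln13_15_6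 ln13_15_6_ok))) (M (nat_lit 494) (B (L (nat_lit 462) ln13_11_4 ln13_11_4_ok) (L (nat_lit 526) ln13_12_4 ln13_12_4_ok))))) (M (nat_lit 364) (B (L (nat_lit 332) ln13_14_7 ln13_14_7_ok) (M (nat_lit 366) (B (L (nat_lit 334) ln13_14_6 ln13_14_6_ok) (M (nat_lit 367) (B (M (nat_lit 368) (B (M (nat_lit 336) (B (L (nat_lit 335) ln12_11_2 ln12_11_2_ok) (L (nat_lit 337) ln13_11_2 ln13_11_2_ok))) (M (nat_lit 400) (B (L (nat_lit 399) ln12_11_0 ln12_11_0_ok) (L (nat_lit 401) ln13_11_0 ln13_11_0_ok))))) (B (M (nat_lit 363) (B (M (nat_lit 398) (B (L (nat_lit 362) ln10_11_0 ln10_11_0_ok) (L (nat_lit 399) ln11_11_0 ln11_11_0_ok))) (B (M (nat_lit 399) (B (L (nat_lit 398) ln11_11_0 ln11_11_0_ok) (L (nat_lit 400) ln12_11_0 ln12_11_0_ok))) (M (nat_lit 362) (B (M (nat_lit 330) (B (L (nat_lit 329) ln13_11_3 ln13_11_3_ok) (L (nat_lit 331) ln14_11_3 ln14_11_3_ok))) (M (nat_lit 394) (B (L (nat_lit 393) ln13_11_1 ln13_11_1_ok)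 (L (nat_lit 395) ln14_11_1 ln14_11_1_ok)))))))) (B (M (nat_lit 368) (B (M (nat_lit 336) (B (L (nat_lit 335) ln12_11_2 ln12_11_2_ok) (L (nat_lit 337) ln13_11_2 ln13_11_2_ok))) (M (nat_lit 369) (B (L (nat_lit 398) ln17_11_1 ln17_11_1_ok) (M (nat_lit 401) (B (L (nat_lit 400) ln13_11_0 ln13_11_0_ok) (L (nat_lit 402) ln14_11_0 ln14_11_0_ok))))))) (M (nat_lit 363) (B (M (nat_lit 398) (B (L (nat_lit 362) ln10_11_0 ln10_11_0_ok) (L (nat_lit 399) ln11_11_0 ln11_11_0_ok))) (B (M (nat_lit 368) (B (M (nat_lit 336) (B (L (nat_lit 335) ln12_11_2 ln12_11_2_ok) (L (nat_lit 337) ln13_11_2 ln13_11_2_ok))) (M (nat_lit 398) (B (L (nat_lit 399) ln11_11_0 ln11_11_0_ok) (L (nat_lit 369) ln17_11_1 ln17_11_1_ok))))) (M (nat_lit 362) (B (M (nat_lit 330) (B (L (nat_lit 329) ln13_11_3 ln13_11_3_ok) (L (nat_lit 331) ln14_11_3 ln14_11_3_ok))) (M (nat_lit 394) (B (L (nat_lit 393) ln13_11_1 ln13_11_1_ok) (L (nat_lit 395) ln14_11_1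 ln14_11_1_ok)))))))))))))))))))) (B (M (nat_lit 461) (B (M (nat_lit 333) (B (M (nat_lit 332) (B (L (nat_lit 300) ln13_13_7 ln13_13_7_ok) (L (nat_lit 364) ln13_14_7 ln13_14_7_ok))) (M (nat_lit 462) (B (L (nat_lit 430) ln13_10_4 ln13_10_4_ok) (L (nat_lit 494) ln13_11_4 ln13_11_4_ok))))) (B (M (nat_lit 333) (B (M (nat_lit 460) (B (L (nat_lit 428) ln13_10_5 ln13_10_5_ok) (L (nat_lit 492) ln13_11_5 ln13_11_5_ok))) (M (nat_lit 462) (B (L (nat_lit 430) ln13_10_4 ln13_10_4_ok) (L (nat_lit 494) ln13_11_4 ln13_11_4_ok))))) (B (M (nat_lit 493) (B (M (nat_lit 492) (B (L (nat_lit 460) ln13_11_5 ln13_11_5_ok) (L (nat_lit 524) ln13_12_5 ln13_12_5_ok))) (M (nat_lit 494) (B (L (nat_lit 462) ln13_11_4 ln13_11_4_ok) (L (nat_lit 526) ln13_12_4 ln13_12_4_ok))))) (M (nat_lit 333) (B (M (nat_lit 332) (B (L (nat_lit 300) ln13_13_7 ln13_13_7_ok) (L (nat_lit 364) ln13_14_7 ln13_14_7_ok))) (M (nat_lit 460) (B (L (nat_lit 428)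 ln13_10_5 ln13_10_5_ok) (L (nat_lit 492) ln13_11_5 ln13_11_5_ok))))))))) (B (M (nat_lit 461) (B (M (nat_lit 333) (B (M (nat_lit 332) (B (L (nat_lit 300) ln13_13_7 ln13_13_7_ok) (L (nat_lit 364) ln13_14_7 ln13_14_7_ok))) (M (nat_lit 462) (B (L (nat_lit 430) ln13_10_4 ln13_10_4_ok) (L (nat_lit 494) ln13_11_4 ln13_11_4_ok))))) (B (M (nat_lit 333) (B (M (nat_lit 334) (B (L (nat_lit 302) ln13_13_6 ln13_13_6_ok) (L (nat_lit 366) ln13_14_6 ln13_14_6_ok))) (M (nat_lit 462) (B (L (nat_lit 430) ln13_10_4 ln13_10_4_ok) (L (nat_lit 494) ln13_11_4 ln13_11_4_ok))))) (B (M (nat_lit 493) (B (M (nat_lit 366) (B (L (nat_lit 334) ln13_14_6 ln13_14_6_ok) (L (nat_lit 398) ln13_15_6 ln13_15_6_ok))) (M (nat_lit 494) (B (L (nat_lit 462) ln13_11_4 ln13_11_4_ok) (L (nat_lit 526) ln13_12_4 ln13_12_4_ok))))) (M (nat_lit 333) (B (M (nat_lit 332) (B (L (nat_lit 300) ln13_13_7 ln13_13_7_ok) (L (nat_lit 364) ln13_14_7 ln13_14_7_ok)))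 (M (nat_lit 334) (B (L (nat_lit 302) ln13_13_6 ln13_13_6_ok) (L (nat_lit 366) ln13_14_6 ln13_14_6_ok))))))))) (B (M (nat_lit 333) (B (M (nat_lit 301) (B (M (nat_lit 302) (B (L (nat_lit 270) ln13_12_6 ln13_12_6_ok) (L (nat_lit 334) ln13_13_6 ln13_13_6_ok))) (M (nat_lit 430) (B (L (nat_lit 398) ln13_9_4 ln13_9_4_ok) (L (nat_lit 462) ln13_10_4 ln13_10_4_ok))))) (B (M (nat_lit 301) (B (M (nat_lit 300) (B (L (nat_lit 268) ln13_12_7 ln13_12_7_ok) (L (nat_lit 332) ln13_13_7 ln13_13_7_ok))) (M (nat_lit 430) (B (L (nat_lit 398) ln13_9_4 ln13_9_4_ok) (L (nat_lit 462) ln13_10_4 ln13_10_4_ok))))) (M (nat_lit 332) (B (L (nat_lit 300) ln13_13_7 ln13_13_7_ok) (M (nat_lit 334) (B (L (nat_lit 302) ln13_13_6 ln13_13_6_ok) (M (nat_lit 331) (B (M (nat_lit 366) (B (L (nat_lit 330) ln10_10_0 ln10_10_0_ok) (L (nat_lit 367) ln11_10_0 ln11_10_0_ok))) (B (M (nat_lit 335) (B (M (nat_lit 363) (B (L (nat_lit 362) ln14_10_1 ln14_10_1_ok)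 (L (nat_lit 364) ln15_10_1 ln15_10_1_ok))) (M (nat_lit 367) (B (L (nat_lit 366) ln11_10_0 ln11_10_0_ok) (L (nat_lit 368) ln12_10_0 ln12_10_0_ok))))) (M (nat_lit 330) (B (M (nat_lit 298) (B (L (nat_lit 297) ln13_10_3 ln13_10_3_ok) (L (nat_lit 299) ln14_10_3 ln14_10_3_ok))) (M (nat_lit 362) (B (L (nat_lit 361) ln13_10_1 ln13_10_1_ok) (L (nat_lit 363) ln14_10_1 ln14_10_1_ok))))))))))))))) (M (nat_lit 461) (B (M (nat_lit 333) (B (M (nat_lit 332) (B (L (nat_lit 300) ln13_13_7 ln13_13_7_ok) (L (nat_lit 364) ln13_14_7 ln13_14_7_ok))) (M (nat_lit 460) (B (L (nat_lit 428) ln13_10_5 ln13_10_5_ok) (L (nat_lit 492) ln13_11_5 ln13_11_5_ok))))) (B (M (nat_lit 333) (B (M (nat_lit 334) (B (L (nat_lit 302) ln13_13_6 ln13_13_6_ok) (L (nat_lit 366) ln13_14_6 ln13_14_6_ok))) (M (nat_lit 460) (B (L (nat_lit 428) ln13_10_5 ln13_10_5_ok) (L (nat_lit 492) ln13_11_5 ln13_11_5_ok))))) (B (M (nat_lit 493) (B (M (nat_lit 366)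 (B (L (nat_lit 334) ln13_14_6 ln13_14_6_ok) (L (nat_lit 398) ln13_15_6 ln13_15_6_ok))) (M (nat_lit 492) (B (L (nat_lit 460) ln13_11_5 ln13_11_5_ok) (L (nat_lit 524) ln13_12_5 ln13_12_5_ok))))) (M (nat_lit 333) (B (M (nat_lit 332) (B (L (nat_lit 300) ln13_13_7 ln13_13_7_ok) (L (nat_lit 364) ln13_14_7 ln13_14_7_ok))) (M (nat_lit 334) (B (L (nat_lit 302) ln13_13_6 ln13_13_6_ok) (L (nat_lit 366) ln13_14_6 ln13_14_6_ok)))))))))))))))) (nat_lit 1386334847383188664550070665778531748218595021979121511688892729411143073470393764272092352380775458208712834410189682411080515584) (nat_lit 274591906494731163054776081127898362367041960466175535964918932709621212563740066231108369085709293659492037217444010542061852667247663478665433516818711969792) (nat_lit 274591906494731163054776081127898362367041960466175535964918932709621212563740066231108369085709293659492037217444010542061852667247663478665433516818711969792)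 (by decide +kernel)
theorem c21_s6132 : Sem (nat_lit 1386334847383188664550070665778531748218595021979121511688892729411143073470393764272092352380775458208712834410189682411080515584) (nat_lit 274591906504321174603579657840374751569547411832224438987727424948143488041436782557037908188651753004070670804547588722687187306033420062351134378793688367104) (nat_lit 274591906504321174603579657840374751569547411832224438987727424948143488041436782557037908188651753004070670804547588722687187306033420062351134378793688367104) :=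
  sem_of_chk (M (nat_lit 365) (B (M (nat_lit 461) (B (M (nat_lit 333) (B (M (nat_lit 460) (B (L (nat_lit 428) ln13_10_5 ln13_10_5_ok) (L (nat_lit 492) ln13_11_5 ln13_11_5_ok))) (M (nat_lit 462) (B (L (nat_lit 430) ln13_10_4 ln13_10_4_ok) (L (nat_lit 494) ln13_11_4 ln13_11_4_ok))))) (B (M (nat_lit 493) (B (M (nat_lit 364) (B (L (nat_lit 332) ln13_14_7 ln13_14_7_ok) (L (nat_lit 396) ln13_15_7 ln13_15_7_ok))) (M (nat_lit 492) (B (L (nat_lit 460) ln13_11_5 ln13_11_5_ok) (L (nat_lit 524) ln13_12_5 ln13_12_5_ok))))) (M (nat_lit 333) (B (M (nat_lit 334) (B (L (nat_lit 302) ln13_13_6 ln13_13_6_ok) (L (nat_lit 366) ln13_14_6 ln13_14_6_ok))) (M (nat_lit 462) (B (L (nat_lit 430) ln13_10_4 ln13_10_4_ok) (L (nat_lit 494) ln13_11_4 ln13_11_4_ok)))))))) (B (M (nat_lit 461) (B (M (nat_lit 333) (B (M (nat_lit 460) (B (L (nat_lit 428) ln13_10_5 ln13_10_5_ok) (L (nat_lit 492) ln13_11_5 ln13_11_5_ok))) (M (nat_lit 462)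 (B (L (nat_lit 430) ln13_10_4 ln13_10_4_ok) (L (nat_lit 494) ln13_11_4 ln13_11_4_ok))))) (B (M (nat_lit 493) (B (M (nat_lit 364) (B (L (nat_lit 332) ln13_14_7 ln13_14_7_ok) (L (nat_lit 396) ln13_15_7 ln13_15_7_ok))) (M (nat_lit 494) (B (L (nat_lit 462) ln13_11_4 ln13_11_4_ok) (L (nat_lit 526) ln13_12_4 ln13_12_4_ok))))) (M (nat_lit 333) (B (M (nat_lit 332) (B (L (nat_lit 300) ln13_13_7 ln13_13_7_ok) (L (nat_lit 364) ln13_14_7 ln13_14_7_ok))) (M (nat_lit 460) (B (L (nat_lit 428) ln13_10_5 ln13_10_5_ok) (L (nat_lit 492) ln13_11_5 ln13_11_5_ok)))))))) (B (M (nat_lit 461) (B (M (nat_lit 333) (B (M (nat_lit 334) (B (L (nat_lit 302) ln13_13_6 ln13_13_6_ok) (L (nat_lit 366) ln13_14_6 ln13_14_6_ok))) (M (nat_lit 460) (B (L (nat_lit 428) ln13_10_5 ln13_10_5_ok) (L (nat_lit 492) ln13_11_5 ln13_11_5_ok))))) (B (M (nat_lit 333) (B (M (nat_lit 460) (B (L (nat_lit 428) ln13_10_5 ln13_10_5_ok) (L (nat_lit 492)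 ln13_11_5 ln13_11_5_ok))) (M (nat_lit 462) (B (L (nat_lit 430) ln13_10_4 ln13_10_4_ok) (L (nat_lit 494) ln13_11_4 ln13_11_4_ok))))) (B (M (nat_lit 493) (B (M (nat_lit 492) (B (L (nat_lit 460) ln13_11_5 ln13_11_5_ok) (L (nat_lit 524) ln13_12_5 ln13_12_5_ok))) (M (nat_lit 494) (B (L (nat_lit 462) ln13_11_4 ln13_11_4_ok) (L (nat_lit 526) ln13_12_4 ln13_12_4_ok))))) (M (nat_lit 333) (B (M (nat_lit 334) (B (L (nat_lit 302) ln13_13_6 ln13_13_6_ok) (L (nat_lit 366) ln13_14_6 ln13_14_6_ok))) (M (nat_lit 462) (B (L (nat_lit 430) ln13_10_4 ln13_10_4_ok) (L (nat_lit 494) ln13_11_4 ln13_11_4_ok))))))))) (B (M (nat_lit 461) (B (M (nat_lit 493) (B (M (nat_lit 364) (B (L (nat_lit 332) ln13_14_7 ln13_14_7_ok) (L (nat_lit 396) ln13_15_7 ln13_15_7_ok))) (M (nat_lit 492) (B (L (nat_lit 460) ln13_11_5 ln13_11_5_ok) (L (nat_lit 524) ln13_12_5 ln13_12_5_ok))))) (B (M (nat_lit 493) (B (M (nat_lit 492) (B (L (nat_lit 460)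 ln13_11_5 ln13_11_5_ok) (L (nat_lit 524) ln13_12_5 ln13_12_5_ok))) (M (nat_lit 494) (B (L (nat_lit 462) ln13_11_4 ln13_11_4_ok) (L (nat_lit 526) ln13_12_4 ln13_12_4_ok))))) (B (M (nat_lit 493) (B (M (nat_lit 364) (B (L (nat_lit 332) ln13_14_7 ln13_14_7_ok) (L (nat_lit 396) ln13_15_7 ln13_15_7_ok))) (M (nat_lit 494) (B (L (nat_lit 462) ln13_11_4 ln13_11_4_ok) (L (nat_lit 526) ln13_12_4 ln13_12_4_ok))))) (M (nat_lit 460) (B (L (nat_lit 492) ln13_11_5 ln13_11_5_ok) (M (nat_lit 364) (B (L (nat_lit 332) ln13_14_7 ln13_14_7_ok) (M (nat_lit 396) (B (M (nat_lit 366) (B (L (nat_lit 334) ln13_14_6 ln13_14_6_ok) (M (nat_lit 367) (B (L (nat_lit 395) ln15_11_1 ln15_11_1_ok) (L (nat_lit 368) ln16_11_1 ln16_11_1_ok))))) (M (nat_lit 459) (B (M (nat_lit 430) (B (L (nat_lit 458) ln10_14_2 ln10_14_2_ok) (M (nat_lit 431) (B (L (nat_lit 432) ln16_13_3 ln16_13_3_ok) (L (nat_lit 462) ln11_14_2 ln11_14_2_ok))))) (B (M (nat_lit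 462) (B (L (nat_lit 494) ln13_11_4 ln13_11_4_ok) (M (nat_lit 491) (B (L (nat_lit 428) ln12_11_5 ln12_11_5_ok) (L (nat_lit 490) ln14_14_1 ln14_14_1_ok))))) (M (nat_lit 430) (B (L (nat_lit 458) ln10_14_2 ln10_14_2_ok) (M (nat_lit 428) (B (L (nat_lit 491) ln12_11_5 ln12_11_5_ok) (L (nat_lit 431) ln15_13_1 ln15_13_1_ok)))))))))))))))))) (B (M (nat_lit 461) (B (M (nat_lit 333) (B (M (nat_lit 334) (B (L (nat_lit 302) ln13_13_6 ln13_13_6_ok) (L (nat_lit 366) ln13_14_6 ln13_14_6_ok))) (M (nat_lit 462) (B (L (nat_lit 430) ln13_10_4 ln13_10_4_ok) (L (nat_lit 494) ln13_11_4 ln13_11_4_ok))))) (B (M (nat_lit 333) (B (M (nat_lit 332) (B (L (nat_lit 300) ln13_13_7 ln13_13_7_ok) (L (nat_lit 364) ln13_14_7 ln13_14_7_ok))) (M (nat_lit 462) (B (L (nat_lit 430) ln13_10_4 ln13_10_4_ok) (L (nat_lit 494) ln13_11_4 ln13_11_4_ok))))) (B (M (nat_lit 493) (B (M (nat_lit 364) (B (L (nat_lit 332) ln13_14_7 ln13_14_7_ok) (L (nat_lit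 396) ln13_15_7 ln13_15_7_ok))) (M (nat_lit 494) (B (L (nat_lit 462) ln13_11_4 ln13_11_4_ok) (L (nat_lit 526) ln13_12_4 ln13_12_4_ok))))) (M (nat_lit 333) (B (M (nat_lit 332) (B (L (nat_lit 300) ln13_13_7 ln13_13_7_ok) (L (nat_lit 364) ln13_14_7 ln13_14_7_ok))) (M (nat_lit 334) (B (L (nat_lit 302) ln13_13_6 ln13_13_6_ok) (L (nat_lit 366) ln13_14_6 ln13_14_6_ok))))))))) (B (M (nat_lit 461) (B (M (nat_lit 333) (B (M (nat_lit 334) (B (L (nat_lit 302) ln13_13_6 ln13_13_6_ok) (L (nat_lit 366) ln13_14_6 ln13_14_6_ok))) (M (nat_lit 460) (B (L (nat_lit 428) ln13_10_5 ln13_10_5_ok) (L (nat_lit 492) ln13_11_5 ln13_11_5_ok))))) (B (M (nat_lit 333) (B (M (nat_lit 332) (B (L (nat_lit 300) ln13_13_7 ln13_13_7_ok) (L (nat_lit 364) ln13_14_7 ln13_14_7_ok))) (M (nat_lit 460) (B (L (nat_lit 428) ln13_10_5 ln13_10_5_ok) (L (nat_lit 492) ln13_11_5 ln13_11_5_ok))))) (M (nat_lit 493) (B (M (nat_lit 364) (B (L (nat_lit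 332) ln13_14_7 ln13_14_7_ok) (L (nat_lit 396) ln13_15_7 ln13_15_7_ok))) (M (nat_lit 494) (B (L (nat_lit 462) ln13_11_4 ln13_11_4_ok) (L (nat_lit 526) ln13_12_4 ln13_12_4_ok)))))))) (M (nat_lit 333) (B (M (nat_lit 301) (B (M (nat_lit 300) (B (L (nat_lit 268) ln13_12_7 ln13_12_7_ok) (L (nat_lit 332) ln13_13_7 ln13_13_7_ok))) (M (nat_lit 428) (B (L (nat_lit 396) ln13_9_5 ln13_9_5_ok) (L (nat_lit 460) ln13_10_5 ln13_10_5_ok))))) (B (M (nat_lit 301) (B (M (nat_lit 302) (B (L (nat_lit 270) ln13_12_6 ln13_12_6_ok) (L (nat_lit 334) ln13_13_6 ln13_13_6_ok))) (M (nat_lit 428) (B (L (nat_lit 396) ln13_9_5 ln13_9_5_ok) (L (nat_lit 460) ln13_10_5 ln13_10_5_ok))))) (M (nat_lit 332) (B (L (nat_lit 300) ln13_13_7 ln13_13_7_ok) (M (nat_lit 334) (B (L (nat_lit 302) ln13_13_6 ln13_13_6_ok) (M (nat_lit 331) (B (M (nat_lit 366) (B (L (nat_lit 330) ln10_10_0 ln10_10_0_ok) (L (nat_lit 367) ln11_10_0 ln11_10_0_ok))) (B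 (M (nat_lit 335) (B (M (nat_lit 363) (B (L (nat_lit 362) ln14_10_1 ln14_10_1_ok) (L (nat_lit 364) ln15_10_1 ln15_10_1_ok))) (M (nat_lit 367) (B (L (nat_lit 366) ln11_10_0 ln11_10_0_ok) (L (nat_lit 368) ln12_10_0 ln12_10_0_ok))))) (M (nat_lit 330) (B (M (nat_lit 298) (B (L (nat_lit 297) ln13_10_3 ln13_10_3_ok) (L (nat_lit 299) ln14_10_3 ln14_10_3_ok))) (M (nat_lit 362) (B (L (nat_lit 361) ln13_10_1 ln13_10_1_ok) (L (nat_lit 363) ln14_10_1 ln14_10_1_ok)))))))))))))))))))))) (nat_lit 1386334847383188664550070665778531748218595021979121511688892729411143073470393764272092352380775458208712834410189682411080515584) (nat_lit 274591906504321174603579657840374751569547411832224438987727424948143488041436782557037908188651753004070670804547588722687187306033420062351134378793688367104) (nat_lit 274591906504321174603579657840374751569547411832224438987727424948143488041436782557037908188651753004070670804547588722687187306033420062351134378793688367104)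 (by decide +kernel)
noncomputable def c21_n6141 : Cert := (M (nat_lit 364) (B (M (nat_lit 332) (B (L (nat_lit 461) ln13_14_7 ln13_14_7_ok) (M (nat_lit 300) (B (L (nat_lit 268) ln12_8_4 ln12_8_4_ok) (L (nat_lit 396) ln12_9_4 ln12_9_4_ok))))) (B (M (nat_lit 461) (B (L (nat_lit 332) ln13_14_7 ln13_14_7_ok) (M (nat_lit 493) (B (L (nat_lit 396) ln13_15_7 ln13_15_7_ok) (M (nat_lit 492) (B (L (nat_lit 460) ln13_11_5 ln13_11_5_ok) (L (nat_lit 524) ln13_12_5 ln13_12_5_ok))))))) (B (M (nat_lit 363) (B (M (nat_lit 398) (B (L (nat_lit 362) ln10_11_0 ln10_11_0_ok) (M (nat_lit 399) (B (L (nat_lit 366) ln11_11_0 ln11_11_0_ok) (L (nat_lit 400) ln16_12_3 ln16_12_3_ok))))) (B (M (nat_lit 366) (B (M (nat_lit 334) (B (L (nat_lit 335) ln11_11_2 ln11_11_2_ok) (L (nat_lit 461) ln13_14_6 ln13_14_6_ok))) (M (nat_lit 367) (B (M (nat_lit 395) (B (L (nat_lit 394) ln14_11_1 ln14_11_1_ok) (L (nat_lit 396) ln15_11_1 ln15_11_1_ok)))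 (M (nat_lit 399) (B (L (nat_lit 398) ln11_11_0 ln11_11_0_ok) (L (nat_lit 400) ln12_11_0 ln12_11_0_ok))))))) (B (M (nat_lit 398) (B (L (nat_lit 362) ln10_11_0 ln10_11_0_ok) (M (nat_lit 399) (B (L (nat_lit 396) ln15_12_3 ln15_12_3_ok) (L (nat_lit 400) ln16_12_3 ln16_12_3_ok))))) (M (nat_lit 366) (B (M (nat_lit 334) (B (L (nat_lit 335) ln11_11_2 ln11_11_2_ok) (L (nat_lit 461) ln13_14_6 ln13_14_6_ok))) (M (nat_lit 362) (B (M (nat_lit 330) (B (L (nat_lit 329) ln13_11_3 ln13_11_3_ok) (L (nat_lit 331) ln14_11_3 ln14_11_3_ok))) (M (nat_lit 394) (B (L (nat_lit 393) ln13_11_1 ln13_11_1_ok) (L (nat_lit 395) ln14_11_1 ln14_11_1_ok))))))))))) (B (M (nat_lit 461) (B (L (nat_lit 332) ln13_14_7 ln13_14_7_ok) (M (nat_lit 493) (B (M (nat_lit 366) (B (L (nat_lit 334) ln13_14_6 ln13_14_6_ok) (L (nat_lit 398) ln13_15_6 ln13_15_6_ok))) (M (nat_lit 494) (B (L (nat_lit 462) ln13_11_4 ln13_11_4_ok) (L (nat_lit 526) ln13_12_4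 ln13_12_4_ok))))))) (M (nat_lit 363) (B (M (nat_lit 398) (B (L (nat_lit 362) ln10_11_0 ln10_11_0_ok) (M (nat_lit 399) (B (L (nat_lit 366) ln11_11_0 ln11_11_0_ok) (L (nat_lit 396) ln15_12_3 ln15_12_3_ok))))) (B (M (nat_lit 366) (B (M (nat_lit 398) (B (L (nat_lit 399) ln11_11_0 ln11_11_0_ok) (M (nat_lit 334) (B (L (nat_lit 302) ln14_9_5 ln14_9_5_ok) (L (nat_lit 335) ln11_11_2 ln11_11_2_ok))))) (M (nat_lit 367) (B (M (nat_lit 331) (B (L (nat_lit 330) ln14_11_3 ln14_11_3_ok) (L (nat_lit 332) ln15_11_3 ln15_11_3_ok))) (M (nat_lit 395) (B (L (nat_lit 394) ln14_11_1 ln14_11_1_ok) (L (nat_lit 396) ln15_11_1 ln15_11_1_ok))))))) (B (M (nat_lit 398) (B (L (nat_lit 362) ln10_11_0 ln10_11_0_ok) (M (nat_lit 399) (B (L (nat_lit 396) ln15_12_3 ln15_12_3_ok) (L (nat_lit 400) ln16_12_3 ln16_12_3_ok))))) (B (M (nat_lit 398) (B (L (nat_lit 362) ln10_11_0 ln10_11_0_ok) (M (nat_lit 399) (B (L (nat_lit 366) ln11_11_0 ln11_11_0_ok)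 (L (nat_lit 400) ln16_12_3 ln16_12_3_ok))))) (M (nat_lit 366) (B (M (nat_lit 367) (B (M (nat_lit 335) (B (L (nat_lit 334) ln11_11_2 ln11_11_2_ok) (L (nat_lit 336) ln12_11_2 ln12_11_2_ok))) (M (nat_lit 395) (B (L (nat_lit 394) ln14_11_1 ln14_11_1_ok) (L (nat_lit 396) ln15_11_1 ln15_11_1_ok))))) (B (M (nat_lit 367) (B (M (nat_lit 331) (B (L (nat_lit 330) ln14_11_3 ln14_11_3_ok) (L (nat_lit 332) ln15_11_3 ln15_11_3_ok))) (M (nat_lit 395) (B (L (nat_lit 394) ln14_11_1 ln14_11_1_ok) (L (nat_lit 396) ln15_11_1 ln15_11_1_ok))))) (B (M (nat_lit 362) (B (M (nat_lit 330) (B (L (nat_lit 329) ln13_11_3 ln13_11_3_ok) (L (nat_lit 331) ln14_11_3 ln14_11_3_ok))) (M (nat_lit 394) (B (L (nat_lit 393) ln13_11_1 ln13_11_1_ok) (L (nat_lit 395) ln14_11_1 ln14_11_1_ok))))) (M (nat_lit 367) (B (M (nat_lit 331) (B (L (nat_lit 330) ln14_11_3 ln14_11_3_ok) (L (nat_lit 332) ln15_11_3 ln15_11_3_ok))) (M (nat_lit 335) (B (L (nat_lit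 334) ln11_11_2 ln11_11_2_ok) (L (nat_lit 336) ln12_11_2 ln12_11_2_ok)))))))))))))))))))
theorem c21_s6142 : Sem (nat_lit 1386334847383188664550070665778531748218595021979121511688892729411143073470393764272092352380775458208712834410189682411080515584) (nat_lit 274591906494731163054776081127205194928179648098937458865140970994542580699187663099304829583317332942124071386672032688943144980671563296428796277661978591232) (nat_lit 274591906494731163054776081127205194928179648098937458865140970994542580699187663099304829583317332942124071386672032688943144980671563296428796277661978591232) :=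
  sem_of_chk (M (nat_lit 365) (B (M (nat_lit 461) (B (M (nat_lit 493) (B (M (nat_lit 366) (B (L (nat_lit 334) ln13_14_6 ln13_14_6_ok) (L (nat_lit 398) ln13_15_6 ln13_15_6_ok))) (M (nat_lit 492) (B (L (nat_lit 460) ln13_11_5 ln13_11_5_ok) (L (nat_lit 524) ln13_12_5 ln13_12_5_ok))))) (B (M (nat_lit 493) (B (M (nat_lit 364) (B (L (nat_lit 332) ln13_14_7 ln13_14_7_ok) (L (nat_lit 396) ln13_15_7 ln13_15_7_ok))) (M (nat_lit 494) (B (L (nat_lit 462) ln13_11_4 ln13_11_4_ok) (L (nat_lit 526) ln13_12_4 ln13_12_4_ok))))) (M (nat_lit 333) (B (M (nat_lit 332) (B (L (nat_lit 300) ln13_13_7 ln13_13_7_ok) (L (nat_lit 364) ln13_14_7 ln13_14_7_ok))) (M (nat_lit 462) (B (L (nat_lit 430) ln13_10_4 ln13_10_4_ok) (L (nat_lit 494) ln13_11_4 ln13_11_4_ok)))))))) (B (M (nat_lit 461) (B (M (nat_lit 493) (B (M (nat_lit 364) (B (L (nat_lit 332) ln13_14_7 ln13_14_7_ok) (L (nat_lit 396) ln13_15_7 ln13_15_7_ok))) (M (nat_lit 492)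 (B (L (nat_lit 460) ln13_11_5 ln13_11_5_ok) (L (nat_lit 524) ln13_12_5 ln13_12_5_ok))))) (B (M (nat_lit 493) (B (M (nat_lit 492) (B (L (nat_lit 460) ln13_11_5 ln13_11_5_ok) (L (nat_lit 524) ln13_12_5 ln13_12_5_ok))) (M (nat_lit 494) (B (L (nat_lit 462) ln13_11_4 ln13_11_4_ok) (L (nat_lit 526) ln13_12_4 ln13_12_4_ok))))) (B (M (nat_lit 493) (B (M (nat_lit 364) (B (L (nat_lit 332) ln13_14_7 ln13_14_7_ok) (L (nat_lit 396) ln13_15_7 ln13_15_7_ok))) (M (nat_lit 494) (B (L (nat_lit 462) ln13_11_4 ln13_11_4_ok) (L (nat_lit 526) ln13_12_4 ln13_12_4_ok))))) (M (nat_lit 333) (B (M (nat_lit 334) (B (L (nat_lit 302) ln13_13_6 ln13_13_6_ok) (L (nat_lit 366) ln13_14_6 ln13_14_6_ok))) (M (nat_lit 462) (B (L (nat_lit 430) ln13_10_4 ln13_10_4_ok) (L (nat_lit 494) ln13_11_4 ln13_11_4_ok))))))))) (B (M (nat_lit 461) (B (M (nat_lit 493) (B (M (nat_lit 366) (B (L (nat_lit 334) ln13_14_6 ln13_14_6_ok) (L (nat_lit 398)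 ln13_15_6 ln13_15_6_ok))) (M (nat_lit 492) (B (L (nat_lit 460) ln13_11_5 ln13_11_5_ok) (L (nat_lit 524) ln13_12_5 ln13_12_5_ok))))) (B (M (nat_lit 493) (B (M (nat_lit 492) (B (L (nat_lit 460) ln13_11_5 ln13_11_5_ok) (L (nat_lit 524) ln13_12_5 ln13_12_5_ok))) (M (nat_lit 494) (B (L (nat_lit 462) ln13_11_4 ln13_11_4_ok) (L (nat_lit 526) ln13_12_4 ln13_12_4_ok))))) (B (M (nat_lit 493) (B (M (nat_lit 366) (B (L (nat_lit 334) ln13_14_6 ln13_14_6_ok) (L (nat_lit 398) ln13_15_6 ln13_15_6_ok))) (M (nat_lit 494) (B (L (nat_lit 462) ln13_11_4 ln13_11_4_ok) (L (nat_lit 526) ln13_12_4 ln13_12_4_ok))))) (M (nat_lit 333) (B (M (nat_lit 334) (B (L (nat_lit 302) ln13_13_6 ln13_13_6_ok) (L (nat_lit 366) ln13_14_6 ln13_14_6_ok))) (M (nat_lit 462) (B (L (nat_lit 430) ln13_10_4 ln13_10_4_ok) (L (nat_lit 494) ln13_11_4 ln13_11_4_ok))))))))) (B c21_n6141 (B (M (nat_lit 461) (B (M (nat_lit 493) (B (M (nat_lit 364) (B (L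 (nat_lit 332) ln13_14_7 ln13_14_7_ok) (L (nat_lit 396) ln13_15_7 ln13_15_7_ok))) (M (nat_lit 492) (B (L (nat_lit 460) ln13_11_5 ln13_11_5_ok) (L (nat_lit 524) ln13_12_5 ln13_12_5_ok))))) (B (M (nat_lit 493) (B (M (nat_lit 492) (B (L (nat_lit 460) ln13_11_5 ln13_11_5_ok) (L (nat_lit 524) ln13_12_5 ln13_12_5_ok))) (M (nat_lit 494) (B (L (nat_lit 462) ln13_11_4 ln13_11_4_ok) (L (nat_lit 526) ln13_12_4 ln13_12_4_ok))))) (B (M (nat_lit 493) (B (M (nat_lit 364) (B (L (nat_lit 332) ln13_14_7 ln13_14_7_ok) (L (nat_lit 396) ln13_15_7 ln13_15_7_ok))) (M (nat_lit 494) (B (L (nat_lit 462) ln13_11_4 ln13_11_4_ok) (L (nat_lit 526) ln13_12_4 ln13_12_4_ok))))) (M (nat_lit 333) (B (M (nat_lit 332) (B (L (nat_lit 300) ln13_13_7 ln13_13_7_ok) (L (nat_lit 364) ln13_14_7 ln13_14_7_ok))) (M (nat_lit 462) (B (L (nat_lit 430) ln13_10_4 ln13_10_4_ok) (L (nat_lit 494) ln13_11_4 ln13_11_4_ok))))))))) (B (M (nat_lit 461) (B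 (M (nat_lit 333) (B (M (nat_lit 334) (B (L (nat_lit 302) ln13_13_6 ln13_13_6_ok) (L (nat_lit 366) ln13_14_6 ln13_14_6_ok))) (M (nat_lit 462) (B (L (nat_lit 430) ln13_10_4 ln13_10_4_ok) (L (nat_lit 494) ln13_11_4 ln13_11_4_ok))))) (B (M (nat_lit 333) (B (M (nat_lit 332) (B (L (nat_lit 300) ln13_13_7 ln13_13_7_ok) (L (nat_lit 364) ln13_14_7 ln13_14_7_ok))) (M (nat_lit 462) (B (L (nat_lit 430) ln13_10_4 ln13_10_4_ok) (L (nat_lit 494) ln13_11_4 ln13_11_4_ok))))) (B (M (nat_lit 493) (B (M (nat_lit 364) (B (L (nat_lit 332) ln13_14_7 ln13_14_7_ok) (L (nat_lit 396) ln13_15_7 ln13_15_7_ok))) (M (nat_lit 494) (B (L (nat_lit 462) ln13_11_4 ln13_11_4_ok) (L (nat_lit 526) ln13_12_4 ln13_12_4_ok))))) (M (nat_lit 333) (B (M (nat_lit 332) (B (L (nat_lit 300) ln13_13_7 ln13_13_7_ok) (L (nat_lit 364) ln13_14_7 ln13_14_7_ok))) (M (nat_lit 334) (B (L (nat_lit 302) ln13_13_6 ln13_13_6_ok) (L (nat_lit 366) ln13_14_6 ln13_14_6_ok)))))))))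 (B (M (nat_lit 333) (B (M (nat_lit 301) (B (M (nat_lit 302) (B (L (nat_lit 270) ln13_12_6 ln13_12_6_ok) (L (nat_lit 334) ln13_13_6 ln13_13_6_ok))) (M (nat_lit 430) (B (L (nat_lit 398) ln13_9_4 ln13_9_4_ok) (L (nat_lit 462) ln13_10_4 ln13_10_4_ok))))) (B (M (nat_lit 301) (B (M (nat_lit 300) (B (L (nat_lit 268) ln13_12_7 ln13_12_7_ok) (L (nat_lit 332) ln13_13_7 ln13_13_7_ok))) (M (nat_lit 430) (B (L (nat_lit 398) ln13_9_4 ln13_9_4_ok) (L (nat_lit 462) ln13_10_4 ln13_10_4_ok))))) (M (nat_lit 332) (B (L (nat_lit 300) ln13_13_7 ln13_13_7_ok) (M (nat_lit 334) (B (L (nat_lit 302) ln13_13_6 ln13_13_6_ok) (M (nat_lit 331) (B (M (nat_lit 366) (B (L (nat_lit 330) ln10_10_0 ln10_10_0_ok) (L (nat_lit 367) ln11_10_0 ln11_10_0_ok))) (B (M (nat_lit 335) (B (M (nat_lit 363) (B (L (nat_lit 362) ln14_10_1 ln14_10_1_ok) (L (nat_lit 364) ln15_10_1 ln15_10_1_ok))) (M (nat_lit 367) (B (L (nat_lit 366) ln11_10_0 ln11_10_0_ok)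 (L (nat_lit 368) ln12_10_0 ln12_10_0_ok))))) (M (nat_lit 330) (B (M (nat_lit 298) (B (L (nat_lit 297) ln13_10_3 ln13_10_3_ok) (L (nat_lit 299) ln14_10_3 ln14_10_3_ok))) (M (nat_lit 362) (B (L (nat_lit 361) ln13_10_1 ln13_10_1_ok) (L (nat_lit 363) ln14_10_1 ln14_10_1_ok))))))))))))))) (M (nat_lit 461) (B (M (nat_lit 493) (B (M (nat_lit 366) (B (L (nat_lit 334) ln13_14_6 ln13_14_6_ok) (L (nat_lit 398) ln13_15_6 ln13_15_6_ok))) (M (nat_lit 492) (B (L (nat_lit 460) ln13_11_5 ln13_11_5_ok) (L (nat_lit 524) ln13_12_5 ln13_12_5_ok))))) (B (M (nat_lit 493) (B (M (nat_lit 364) (B (L (nat_lit 332) ln13_14_7 ln13_14_7_ok) (L (nat_lit 396) ln13_15_7 ln13_15_7_ok))) (M (nat_lit 492) (B (L (nat_lit 460) ln13_11_5 ln13_11_5_ok) (L (nat_lit 524) ln13_12_5 ln13_12_5_ok))))) (B (M (nat_lit 364) (B (L (nat_lit 332) ln13_14_7 ln13_14_7_ok) (M (nat_lit 493) (B (L (nat_lit 396) ln13_15_7 ln13_15_7_ok) (M (nat_lit 366)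 (B (L (nat_lit 334) ln13_14_6 ln13_14_6_ok) (L (nat_lit 398) ln13_15_6 ln13_15_6_ok))))))) (M (nat_lit 333) (B (M (nat_lit 332) (B (L (nat_lit 300) ln13_13_7 ln13_13_7_ok) (L (nat_lit 364) ln13_14_7 ln13_14_7_ok))) (M (nat_lit 334) (B (L (nat_lit 302) ln13_13_6 ln13_13_6_ok) (L (nat_lit 366) ln13_14_6 ln13_14_6_ok))))))))))))))))) (nat_lit 1386334847383188664550070665778531748218595021979121511688892729411143073470393764272092352380775458208712834410189682411080515584) (nat_lit 274591906494731163054776081127205194928179648098937458865140970994542580699187663099304829583317332942124071386672032688943144980671563296428796277661978591232) (nat_lit 274591906494731163054776081127205194928179648098937458865140970994542580699187663099304829583317332942124071386672032688943144980671563296428796277661978591232) (by decide +kernel)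
theorem c21_s6144 : Sem (nat_lit 1386334847383188664550070665778531748218595021979121511688892729411143073470393764272092352380775458208712834410189682411080515584) (nat_lit 274591906494731163054776081125125692657589036954253648226893674170579140129495960525391442130473764117692686573460802565554803305149759829121438755460772528128) (nat_lit 274591906494731163054776081125125692657589036954253648226893674170579140129495960525391442130473764117692686573460802565554803305149759829121438755460772528128) :=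
  sem_of_chk (M (nat_lit 365) (B (M (nat_lit 461) (B (M (nat_lit 493) (B (M (nat_lit 366) (B (L (nat_lit 334) ln13_14_6 ln13_14_6_ok) (L (nat_lit 398) ln13_15_6 ln13_15_6_ok))) (M (nat_lit 492) (B (L (nat_lit 460) ln13_11_5 ln13_11_5_ok) (L (nat_lit 524) ln13_12_5 ln13_12_5_ok))))) (B (M (nat_lit 493) (B (M (nat_lit 364) (B (L (nat_lit 332) ln13_14_7 ln13_14_7_ok) (L (nat_lit 396) ln13_15_7 ln13_15_7_ok))) (M (nat_lit 494) (B (L (nat_lit 462) ln13_11_4 ln13_11_4_ok) (L (nat_lit 526) ln13_12_4 ln13_12_4_ok))))) (M (nat_lit 333) (B (M (nat_lit 332) (B (L (nat_lit 300) ln13_13_7 ln13_13_7_ok) (L (nat_lit 364) ln13_14_7 ln13_14_7_ok))) (M (nat_lit 460) (B (L (nat_lit 428) ln13_10_5 ln13_10_5_ok) (L (nat_lit 492) ln13_11_5 ln13_11_5_ok)))))))) (B (M (nat_lit 461) (B (M (nat_lit 493) (B (M (nat_lit 364) (B (L (nat_lit 332) ln13_14_7 ln13_14_7_ok) (L (nat_lit 396) ln13_15_7 ln13_15_7_ok))) (M (nat_lit 494)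 (B (L (nat_lit 462) ln13_11_4 ln13_11_4_ok) (L (nat_lit 526) ln13_12_4 ln13_12_4_ok))))) (M (nat_lit 333) (B (M (nat_lit 334) (B (L (nat_lit 302) ln13_13_6 ln13_13_6_ok) (L (nat_lit 366) ln13_14_6 ln13_14_6_ok))) (M (nat_lit 460) (B (L (nat_lit 428) ln13_10_5 ln13_10_5_ok) (L (nat_lit 492) ln13_11_5 ln13_11_5_ok))))))) (B (M (nat_lit 461) (B (M (nat_lit 493) (B (M (nat_lit 492) (B (L (nat_lit 460) ln13_11_5 ln13_11_5_ok) (L (nat_lit 524) ln13_12_5 ln13_12_5_ok))) (M (nat_lit 494) (B (L (nat_lit 462) ln13_11_4 ln13_11_4_ok) (L (nat_lit 526) ln13_12_4 ln13_12_4_ok))))) (B (M (nat_lit 493) (B (M (nat_lit 366) (B (L (nat_lit 334) ln13_14_6 ln13_14_6_ok) (L (nat_lit 398) ln13_15_6 ln13_15_6_ok))) (M (nat_lit 494) (B (L (nat_lit 462) ln13_11_4 ln13_11_4_ok) (L (nat_lit 526) ln13_12_4 ln13_12_4_ok))))) (B (M (nat_lit 493) (B (M (nat_lit 366) (B (L (nat_lit 334) ln13_14_6 ln13_14_6_ok) (L (nat_lit 398) ln13_15_6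 ln13_15_6_ok))) (M (nat_lit 492) (B (L (nat_lit 460) ln13_11_5 ln13_11_5_ok) (L (nat_lit 524) ln13_12_5 ln13_12_5_ok))))) (M (nat_lit 333) (B (M (nat_lit 334) (B (L (nat_lit 302) ln13_13_6 ln13_13_6_ok) (L (nat_lit 366) ln13_14_6 ln13_14_6_ok))) (M (nat_lit 460) (B (L (nat_lit 428) ln13_10_5 ln13_10_5_ok) (L (nat_lit 492) ln13_11_5 ln13_11_5_ok))))))))) (B (M (nat_lit 461) (B (M (nat_lit 364) (B (L (nat_lit 332) ln13_14_7 ln13_14_7_ok) (M (nat_lit 493) (B (L (nat_lit 396) ln13_15_7 ln13_15_7_ok) (M (nat_lit 366) (B (L (nat_lit 334) ln13_14_6 ln13_14_6_ok) (L (nat_lit 398) ln13_15_6 ln13_15_6_ok))))))) (B (M (nat_lit 493) (B (M (nat_lit 366) (B (L (nat_lit 334) ln13_14_6 ln13_14_6_ok) (L (nat_lit 398) ln13_15_6 ln13_15_6_ok))) (M (nat_lit 494) (B (L (nat_lit 462) ln13_11_4 ln13_11_4_ok) (L (nat_lit 526) ln13_12_4 ln13_12_4_ok))))) (B (M (nat_lit 493) (B (M (nat_lit 364) (B (L (nat_lit 332) ln13_14_7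 ln13_14_7_ok) (L (nat_lit 396) ln13_15_7 ln13_15_7_ok))) (M (nat_lit 494) (B (L (nat_lit 462) ln13_11_4 ln13_11_4_ok) (L (nat_lit 526) ln13_12_4 ln13_12_4_ok))))) (M (nat_lit 364) (B (L (nat_lit 332) ln13_14_7 ln13_14_7_ok) (M (nat_lit 366) (B (L (nat_lit 334) ln13_14_6 ln13_14_6_ok) (M (nat_lit 363) (B (M (nat_lit 398) (B (L (nat_lit 362) ln10_11_0 ln10_11_0_ok) (L (nat_lit 399) ln11_11_0 ln11_11_0_ok))) (B (M (nat_lit 367) (B (M (nat_lit 395) (B (L (nat_lit 394) ln14_11_1 ln14_11_1_ok) (L (nat_lit 396) ln15_11_1 ln15_11_1_ok))) (M (nat_lit 399) (B (L (nat_lit 398) ln11_11_0 ln11_11_0_ok) (L (nat_lit 400) ln12_11_0 ln12_11_0_ok))))) (M (nat_lit 362) (B (M (nat_lit 330) (B (L (nat_lit 329) ln13_11_3 ln13_11_3_ok) (L (nat_lit 331) ln14_11_3 ln14_11_3_ok))) (M (nat_lit 394) (B (L (nat_lit 393) ln13_11_1 ln13_11_1_ok) (L (nat_lit 395) ln14_11_1 ln14_11_1_ok)))))))))))))))) (B (M (nat_lit 461) (B (M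 (nat_lit 493) (B (M (nat_lit 492) (B (L (nat_lit 460) ln13_11_5 ln13_11_5_ok) (L (nat_lit 524) ln13_12_5 ln13_12_5_ok))) (M (nat_lit 494) (B (L (nat_lit 462) ln13_11_4 ln13_11_4_ok) (L (nat_lit 526) ln13_12_4 ln13_12_4_ok))))) (B (M (nat_lit 493) (B (M (nat_lit 364) (B (L (nat_lit 332) ln13_14_7 ln13_14_7_ok) (L (nat_lit 396) ln13_15_7 ln13_15_7_ok))) (M (nat_lit 494) (B (L (nat_lit 462) ln13_11_4 ln13_11_4_ok) (L (nat_lit 526) ln13_12_4 ln13_12_4_ok))))) (B (M (nat_lit 493) (B (M (nat_lit 364) (B (L (nat_lit 332) ln13_14_7 ln13_14_7_ok) (L (nat_lit 396) ln13_15_7 ln13_15_7_ok))) (M (nat_lit 492) (B (L (nat_lit 460) ln13_11_5 ln13_11_5_ok) (L (nat_lit 524) ln13_12_5 ln13_12_5_ok))))) (M (nat_lit 333) (B (M (nat_lit 332) (B (L (nat_lit 300) ln13_13_7 ln13_13_7_ok) (L (nat_lit 364) ln13_14_7 ln13_14_7_ok))) (M (nat_lit 460) (B (L (nat_lit 428) ln13_10_5 ln13_10_5_ok) (L (nat_lit 492) ln13_11_5 ln13_11_5_ok)))))))))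 (M (nat_lit 333) (B (M (nat_lit 301) (B (M (nat_lit 300) (B (L (nat_lit 268) ln13_12_7 ln13_12_7_ok) (L (nat_lit 332) ln13_13_7 ln13_13_7_ok))) (M (nat_lit 428) (B (L (nat_lit 396) ln13_9_5 ln13_9_5_ok) (L (nat_lit 460) ln13_10_5 ln13_10_5_ok))))) (B (M (nat_lit 301) (B (M (nat_lit 302) (B (L (nat_lit 270) ln13_12_6 ln13_12_6_ok) (L (nat_lit 334) ln13_13_6 ln13_13_6_ok))) (M (nat_lit 428) (B (L (nat_lit 396) ln13_9_5 ln13_9_5_ok) (L (nat_lit 460) ln13_10_5 ln13_10_5_ok))))) (M (nat_lit 332) (B (L (nat_lit 300) ln13_13_7 ln13_13_7_ok) (M (nat_lit 334) (B (L (nat_lit 302) ln13_13_6 ln13_13_6_ok) (M (nat_lit 331) (B (M (nat_lit 366) (B (L (nat_lit 330) ln10_10_0 ln10_10_0_ok) (L (nat_lit 367) ln11_10_0 ln11_10_0_ok))) (B (M (nat_lit 335) (B (M (nat_lit 363) (B (L (nat_lit 362) ln14_10_1 ln14_10_1_ok) (L (nat_lit 364) ln15_10_1 ln15_10_1_ok))) (M (nat_lit 367) (B (L (nat_lit 366) ln11_10_0 ln11_10_0_ok)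 (L (nat_lit 368) ln12_10_0 ln12_10_0_ok))))) (M (nat_lit 330) (B (M (nat_lit 298) (B (L (nat_lit 297) ln13_10_3 ln13_10_3_ok) (L (nat_lit 299) ln14_10_3 ln14_10_3_ok))) (M (nat_lit 362) (B (L (nat_lit 361) ln13_10_1 ln13_10_1_ok) (L (nat_lit 363) ln14_10_1 ln14_10_1_ok))))))))))))))))))))) (nat_lit 1386334847383188664550070665778531748218595021979121511688892729411143073470393764272092352380775458208712834410189682411080515584) (nat_lit 274591906494731163054776081125125692657589036954253648226893674170579140129495960525391442130473764117692686573460802565554803305149759829121438755460772528128) (nat_lit 274591906494731163054776081125125692657589036954253648226893674170579140129495960525391442130473764117692686573460802565554803305149759829121438755460772528128) (by decide +kernel)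
noncomputable def c21_n6160 : Cert := (M (nat_lit 364) (B (M (nat_lit 332) (B (L (nat_lit 461) ln13_14_7 ln13_14_7_ok) (M (nat_lit 300) (B (L (nat_lit 268) ln12_8_4 ln12_8_4_ok) (L (nat_lit 396) ln12_9_4 ln12_9_4_ok))))) (B (M (nat_lit 461) (B (L (nat_lit 332) ln13_14_7 ln13_14_7_ok) (M (nat_lit 493) (B (L (nat_lit 396) ln13_15_7 ln13_15_7_ok) (M (nat_lit 366) (B (L (nat_lit 334) ln13_14_6 ln13_14_6_ok) (L (nat_lit 398) ln13_15_6 ln13_15_6_ok))))))) (B (M (nat_lit 366) (B (M (nat_lit 461) (B (L (nat_lit 334) ln13_14_6 ln13_14_6_ok) (M (nat_lit 493) (B (L (nat_lit 396) ln13_15_7 ln13_15_7_ok) (L (nat_lit 398) ln13_15_6 ln13_15_6_ok))))) (B (M (nat_lit 363) (B (M (nat_lit 398) (B (L (nat_lit 362) ln10_11_0 ln10_11_0_ok) (L (nat_lit 399) ln11_11_0 ln11_11_0_ok))) (B (M (nat_lit 367) (B (M (nat_lit 395) (B (L (nat_lit 394) ln14_11_1 ln14_11_1_ok) (L (nat_lit 396) ln15_11_1 ln15_11_1_ok))) (M (nat_lit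 399) (B (L (nat_lit 398) ln11_11_0 ln11_11_0_ok) (L (nat_lit 400) ln12_11_0 ln12_11_0_ok))))) (M (nat_lit 362) (B (M (nat_lit 330) (B (L (nat_lit 329) ln13_11_3 ln13_11_3_ok) (L (nat_lit 331) ln14_11_3 ln14_11_3_ok))) (M (nat_lit 394) (B (L (nat_lit 393) ln13_11_1 ln13_11_1_ok) (L (nat_lit 395) ln14_11_1 ln14_11_1_ok)))))))) (B (M (nat_lit 398) (B (M (nat_lit 363) (B (L (nat_lit 362) ln10_11_0 ln10_11_0_ok) (L (nat_lit 399) ln11_11_0 ln11_11_0_ok))) (M (nat_lit 461) (B (L (nat_lit 334) ln13_14_6 ln13_14_6_ok) (L (nat_lit 493) ln13_15_6 ln13_15_6_ok))))) (M (nat_lit 396) (B (M (nat_lit 461) (B (L (nat_lit 334) ln13_14_6 ln13_14_6_ok) (L (nat_lit 493) ln13_15_7 ln13_15_7_ok))) (M (nat_lit 395) (B (L (nat_lit 367) ln15_11_1 ln15_11_1_ok) (L (nat_lit 394) ln10_12_2 ln10_12_2_ok))))))))) (B (M (nat_lit 461) (B (L (nat_lit 332) ln13_14_7 ln13_14_7_ok) (M (nat_lit 493) (B (M (nat_lit 366) (B (L (nat_lit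 334) ln13_14_6 ln13_14_6_ok) (L (nat_lit 398) ln13_15_6 ln13_15_6_ok))) (M (nat_lit 494) (B (L (nat_lit 462) ln13_11_4 ln13_11_4_ok) (L (nat_lit 526) ln13_12_4 ln13_12_4_ok))))))) (M (nat_lit 363) (B (M (nat_lit 398) (B (L (nat_lit 362) ln10_11_0 ln10_11_0_ok) (M (nat_lit 399) (B (L (nat_lit 396) ln15_12_3 ln15_12_3_ok) (L (nat_lit 400) ln16_12_3 ln16_12_3_ok))))) (B (M (nat_lit 366) (B (M (nat_lit 398) (B (L (nat_lit 399) ln11_11_0 ln11_11_0_ok) (M (nat_lit 334) (B (L (nat_lit 302) ln14_9_5 ln14_9_5_ok) (L (nat_lit 335) ln11_11_2 ln11_11_2_ok))))) (M (nat_lit 367) (B (M (nat_lit 331) (B (L (nat_lit 330) ln14_11_3 ln14_11_3_ok) (L (nat_lit 332) ln15_11_3 ln15_11_3_ok))) (M (nat_lit 395) (B (L (nat_lit 394) ln14_11_1 ln14_11_1_ok) (L (nat_lit 396) ln15_11_1 ln15_11_1_ok))))))) (B (M (nat_lit 398) (B (L (nat_lit 362) ln10_11_0 ln10_11_0_ok) (M (nat_lit 399) (B (L (nat_lit 366) ln11_11_0 ln11_11_0_ok)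 (L (nat_lit 400) ln16_12_3 ln16_12_3_ok))))) (M (nat_lit 366) (B (M (nat_lit 367) (B (M (nat_lit 335) (B (L (nat_lit 334) ln11_11_2 ln11_11_2_ok) (L (nat_lit 336) ln12_11_2 ln12_11_2_ok))) (M (nat_lit 395) (B (L (nat_lit 394) ln14_11_1 ln14_11_1_ok) (L (nat_lit 396) ln15_11_1 ln15_11_1_ok))))) (B (M (nat_lit 332) (B (M (nat_lit 300) (B (L (nat_lit 268) ln12_8_4 ln12_8_4_ok) (L (nat_lit 396) ln12_9_4 ln12_9_4_ok))) (M (nat_lit 331) (B (L (nat_lit 330) ln14_11_3 ln14_11_3_ok) (L (nat_lit 367) ln15_11_3 ln15_11_3_ok))))) (M (nat_lit 362) (B (M (nat_lit 330) (B (L (nat_lit 329) ln13_11_3 ln13_11_3_ok) (L (nat_lit 331) ln14_11_3 ln14_11_3_ok))) (M (nat_lit 394) (B (L (nat_lit 393) ln13_11_1 ln13_11_1_ok) (L (nat_lit 395) ln14_11_1 ln14_11_1_ok)))))))))))))))))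
theorem c21_s6168 : Sem (nat_lit 1386334847383188664550070665778531748218595021979121511688892729411143073470393764272092352380775458208712834410189682411080515584) (nat_lit 1179363258141160341632306725050343390910023729384468420166580151215533193001541642404395731839232870061650650451881841762150452151377746092367559338927291408646693453824) (nat_lit 1179363258141160341632306725050343390910023729384468420166580151215533193001541642404395731839232870061650650451881841762150452151377746092367559338927291408646693453824) :=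
  sem_of_chk (M (nat_lit 365) (B (M (nat_lit 461) (B (M (nat_lit 364) (B (L (nat_lit 332) ln13_14_7 ln13_14_7_ok) (M (nat_lit 493) (B (L (nat_lit 396) ln13_15_7 ln13_15_7_ok) (M (nat_lit 366) (B (L (nat_lit 334) ln13_14_6 ln13_14_6_ok) (L (nat_lit 398) ln13_15_6 ln13_15_6_ok))))))) (B (M (nat_lit 493) (B (M (nat_lit 366) (B (L (nat_lit 334) ln13_14_6 ln13_14_6_ok) (L (nat_lit 398) ln13_15_6 ln13_15_6_ok))) (M (nat_lit 494) (B (L (nat_lit 462) ln13_11_4 ln13_11_4_ok) (L (nat_lit 526) ln13_12_4 ln13_12_4_ok))))) (B (M (nat_lit 493) (B (M (nat_lit 364) (B (L (nat_lit 332) ln13_14_7 ln13_14_7_ok) (L (nat_lit 396) ln13_15_7 ln13_15_7_ok))) (M (nat_lit 494) (B (L (nat_lit 462) ln13_11_4 ln13_11_4_ok) (L (nat_lit 526) ln13_12_4 ln13_12_4_ok))))) (M (nat_lit 333) (B (M (nat_lit 334) (B (L (nat_lit 302) ln13_13_6 ln13_13_6_ok) (L (nat_lit 366) ln13_14_6 ln13_14_6_ok))) (M (nat_lit 462) (B (L (nat_lit 430)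 ln13_10_4 ln13_10_4_ok) (L (nat_lit 494) ln13_11_4 ln13_11_4_ok))))))))) (B (M (nat_lit 461) (B (M (nat_lit 364) (B (L (nat_lit 332) ln13_14_7 ln13_14_7_ok) (M (nat_lit 493) (B (L (nat_lit 396) ln13_15_7 ln13_15_7_ok) (M (nat_lit 366) (B (L (nat_lit 334) ln13_14_6 ln13_14_6_ok) (L (nat_lit 398) ln13_15_6 ln13_15_6_ok))))))) (B (M (nat_lit 493) (B (M (nat_lit 366) (B (L (nat_lit 334) ln13_14_6 ln13_14_6_ok) (L (nat_lit 398) ln13_15_6 ln13_15_6_ok))) (M (nat_lit 494) (B (L (nat_lit 462) ln13_11_4 ln13_11_4_ok) (L (nat_lit 526) ln13_12_4 ln13_12_4_ok))))) (B (M (nat_lit 493) (B (M (nat_lit 364) (B (L (nat_lit 332) ln13_14_7 ln13_14_7_ok) (L (nat_lit 396) ln13_15_7 ln13_15_7_ok))) (M (nat_lit 494) (B (L (nat_lit 462) ln13_11_4 ln13_11_4_ok) (L (nat_lit 526) ln13_12_4 ln13_12_4_ok))))) (M (nat_lit 333) (B (M (nat_lit 332) (B (L (nat_lit 300) ln13_13_7 ln13_13_7_ok) (L (nat_lit 364) ln13_14_7 ln13_14_7_ok)))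 (M (nat_lit 462) (B (L (nat_lit 430) ln13_10_4 ln13_10_4_ok) (L (nat_lit 494) ln13_11_4 ln13_11_4_ok))))))))) (B (M (nat_lit 461) (B (M (nat_lit 493) (B (M (nat_lit 366) (B (L (nat_lit 334) ln13_14_6 ln13_14_6_ok) (L (nat_lit 398) ln13_15_6 ln13_15_6_ok))) (M (nat_lit 494) (B (L (nat_lit 462) ln13_11_4 ln13_11_4_ok) (L (nat_lit 526) ln13_12_4 ln13_12_4_ok))))) (B (M (nat_lit 493) (B (M (nat_lit 494) (B (L (nat_lit 462) ln13_11_4 ln13_11_4_ok) (L (nat_lit 526) ln13_12_4 ln13_12_4_ok))) (M (nat_lit 525) (B (M (nat_lit 396) (B (L (nat_lit 364) ln13_15_7 ln13_15_7_ok) (L (nat_lit 428) ln13_16_7 ln13_16_7_ok))) (M (nat_lit 524) (B (L (nat_lit 492) ln13_12_5 ln13_12_5_ok) (L (nat_lit 556) ln13_13_5 ln13_13_5_ok))))))) (B (M (nat_lit 493) (B (M (nat_lit 366) (B (L (nat_lit 334) ln13_14_6 ln13_14_6_ok) (L (nat_lit 398) ln13_15_6 ln13_15_6_ok))) (M (nat_lit 525) (B (M (nat_lit 396) (B (L (nat_lit 364) ln13_15_7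 ln13_15_7_ok) (L (nat_lit 428) ln13_16_7 ln13_16_7_ok))) (M (nat_lit 524) (B (L (nat_lit 492) ln13_12_5 ln13_12_5_ok) (L (nat_lit 556) ln13_13_5 ln13_13_5_ok))))))) (M (nat_lit 333) (B (M (nat_lit 334) (B (L (nat_lit 302) ln13_13_6 ln13_13_6_ok) (L (nat_lit 366) ln13_14_6 ln13_14_6_ok))) (M (nat_lit 462) (B (L (nat_lit 430) ln13_10_4 ln13_10_4_ok) (L (nat_lit 494) ln13_11_4 ln13_11_4_ok))))))))) (B c21_n6160 (B (M (nat_lit 461) (B (M (nat_lit 493) (B (M (nat_lit 364) (B (L (nat_lit 332) ln13_14_7 ln13_14_7_ok) (L (nat_lit 396) ln13_15_7 ln13_15_7_ok))) (M (nat_lit 494) (B (L (nat_lit 462) ln13_11_4 ln13_11_4_ok) (L (nat_lit 526) ln13_12_4 ln13_12_4_ok))))) (B (M (nat_lit 493) (B (M (nat_lit 494) (B (L (nat_lit 462) ln13_11_4 ln13_11_4_ok) (L (nat_lit 526) ln13_12_4 ln13_12_4_ok))) (M (nat_lit 525) (B (M (nat_lit 398) (B (L (nat_lit 366) ln13_15_6 ln13_15_6_ok) (L (nat_lit 430) ln13_16_6 ln13_16_6_ok)))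 (M (nat_lit 524) (B (L (nat_lit 492) ln13_12_5 ln13_12_5_ok) (L (nat_lit 556) ln13_13_5 ln13_13_5_ok))))))) (B (M (nat_lit 493) (B (M (nat_lit 364) (B (L (nat_lit 332) ln13_14_7 ln13_14_7_ok) (L (nat_lit 396) ln13_15_7 ln13_15_7_ok))) (M (nat_lit 525) (B (M (nat_lit 398) (B (L (nat_lit 366) ln13_15_6 ln13_15_6_ok) (L (nat_lit 430) ln13_16_6 ln13_16_6_ok))) (M (nat_lit 524) (B (L (nat_lit 492) ln13_12_5 ln13_12_5_ok) (L (nat_lit 556) ln13_13_5 ln13_13_5_ok))))))) (M (nat_lit 333) (B (M (nat_lit 332) (B (L (nat_lit 300) ln13_13_7 ln13_13_7_ok) (L (nat_lit 364) ln13_14_7 ln13_14_7_ok))) (M (nat_lit 462) (B (L (nat_lit 430) ln13_10_4 ln13_10_4_ok) (L (nat_lit 494) ln13_11_4 ln13_11_4_ok))))))))) (B (M (nat_lit 461) (B (M (nat_lit 493) (B (M (nat_lit 366) (B (L (nat_lit 334) ln13_14_6 ln13_14_6_ok) (L (nat_lit 398) ln13_15_6 ln13_15_6_ok))) (M (nat_lit 494) (B (L (nat_lit 462) ln13_11_4 ln13_11_4_ok)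 (L (nat_lit 526) ln13_12_4 ln13_12_4_ok))))) (B (M (nat_lit 493) (B (M (nat_lit 494) (B (L (nat_lit 462) ln13_11_4 ln13_11_4_ok) (L (nat_lit 526) ln13_12_4 ln13_12_4_ok))) (M (nat_lit 525) (B (M (nat_lit 398) (B (L (nat_lit 366) ln13_15_6 ln13_15_6_ok) (L (nat_lit 430) ln13_16_6 ln13_16_6_ok))) (M (nat_lit 524) (B (L (nat_lit 492) ln13_12_5 ln13_12_5_ok) (L (nat_lit 556) ln13_13_5 ln13_13_5_ok))))))) (B (M (nat_lit 333) (B (M (nat_lit 462) (B (L (nat_lit 430) ln13_10_4 ln13_10_4_ok) (L (nat_lit 494) ln13_11_4 ln13_11_4_ok))) (M (nat_lit 301) (B (M (nat_lit 300) (B (L (nat_lit 268) ln13_12_7 ln13_12_7_ok) (L (nat_lit 332) ln13_13_7 ln13_13_7_ok))) (M (nat_lit 302) (B (L (nat_lit 270) ln13_12_6 ln13_12_6_ok) (L (nat_lit 334) ln13_13_6 ln13_13_6_ok))))))) (B (M (nat_lit 493) (B (M (nat_lit 366) (B (L (nat_lit 334) ln13_14_6 ln13_14_6_ok) (L (nat_lit 398) ln13_15_6 ln13_15_6_ok))) (M (nat_lit 525) (B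 (M (nat_lit 524) (B (L (nat_lit 492) ln13_12_5 ln13_12_5_ok) (L (nat_lit 556) ln13_13_5 ln13_13_5_ok))) (M (nat_lit 526) (B (L (nat_lit 494) ln13_12_4 ln13_12_4_ok) (L (nat_lit 558) ln13_13_4 ln13_13_4_ok))))))) (M (nat_lit 333) (B (M (nat_lit 334) (B (L (nat_lit 302) ln13_13_6 ln13_13_6_ok) (L (nat_lit 366) ln13_14_6 ln13_14_6_ok))) (M (nat_lit 301) (B (M (nat_lit 300) (B (L (nat_lit 268) ln13_12_7 ln13_12_7_ok) (L (nat_lit 332) ln13_13_7 ln13_13_7_ok))) (M (nat_lit 430) (B (L (nat_lit 398) ln13_9_4 ln13_9_4_ok) (L (nat_lit 462) ln13_10_4 ln13_10_4_ok)))))))))))) (B (M (nat_lit 461) (B (M (nat_lit 493) (B (M (nat_lit 364) (B (L (nat_lit 332) ln13_14_7 ln13_14_7_ok) (L (nat_lit 396) ln13_15_7 ln13_15_7_ok))) (M (nat_lit 494) (B (L (nat_lit 462) ln13_11_4 ln13_11_4_ok) (L (nat_lit 526) ln13_12_4 ln13_12_4_ok))))) (B (M (nat_lit 493) (B (M (nat_lit 494) (B (L (nat_lit 462) ln13_11_4 ln13_11_4_ok) (L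 (nat_lit 526) ln13_12_4 ln13_12_4_ok))) (M (nat_lit 525) (B (M (nat_lit 396) (B (L (nat_lit 364) ln13_15_7 ln13_15_7_ok) (L (nat_lit 428) ln13_16_7 ln13_16_7_ok))) (M (nat_lit 524) (B (L (nat_lit 492) ln13_12_5 ln13_12_5_ok) (L (nat_lit 556) ln13_13_5 ln13_13_5_ok))))))) (B (M (nat_lit 333) (B (M (nat_lit 462) (B (L (nat_lit 430) ln13_10_4 ln13_10_4_ok) (L (nat_lit 494) ln13_11_4 ln13_11_4_ok))) (M (nat_lit 301) (B (M (nat_lit 300) (B (L (nat_lit 268) ln13_12_7 ln13_12_7_ok) (L (nat_lit 332) ln13_13_7 ln13_13_7_ok))) (M (nat_lit 302) (B (L (nat_lit 270) ln13_12_6 ln13_12_6_ok) (L (nat_lit 334) ln13_13_6 ln13_13_6_ok))))))) (B (M (nat_lit 493) (B (M (nat_lit 364) (B (L (nat_lit 332) ln13_14_7 ln13_14_7_ok) (L (nat_lit 396) ln13_15_7 ln13_15_7_ok))) (M (nat_lit 525) (B (M (nat_lit 524) (B (L (nat_lit 492) ln13_12_5 ln13_12_5_ok) (L (nat_lit 556) ln13_13_5 ln13_13_5_ok))) (M (nat_lit 526) (B (L (nat_lit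 494) ln13_12_4 ln13_12_4_ok) (L (nat_lit 558) ln13_13_4 ln13_13_4_ok))))))) (M (nat_lit 333) (B (M (nat_lit 332) (B (L (nat_lit 300) ln13_13_7 ln13_13_7_ok) (L (nat_lit 364) ln13_14_7 ln13_14_7_ok))) (M (nat_lit 301) (B (M (nat_lit 302) (B (L (nat_lit 270) ln13_12_6 ln13_12_6_ok) (L (nat_lit 334) ln13_13_6 ln13_13_6_ok))) (M (nat_lit 430) (B (L (nat_lit 398) ln13_9_4 ln13_9_4_ok) (L (nat_lit 462) ln13_10_4 ln13_10_4_ok)))))))))))) (B (M (nat_lit 461) (B (M (nat_lit 333) (B (M (nat_lit 334) (B (L (nat_lit 302) ln13_13_6 ln13_13_6_ok) (L (nat_lit 366) ln13_14_6 ln13_14_6_ok))) (M (nat_lit 462) (B (L (nat_lit 430) ln13_10_4 ln13_10_4_ok) (L (nat_lit 494) ln13_11_4 ln13_11_4_ok))))) (B (M (nat_lit 333) (B (M (nat_lit 332) (B (L (nat_lit 300) ln13_13_7 ln13_13_7_ok) (L (nat_lit 364) ln13_14_7 ln13_14_7_ok))) (M (nat_lit 462) (B (L (nat_lit 430) ln13_10_4 ln13_10_4_ok) (L (nat_lit 494) ln13_11_4 ln13_11_4_ok)))))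 (B (M (nat_lit 493) (B (M (nat_lit 364) (B (L (nat_lit 332) ln13_14_7 ln13_14_7_ok) (L (nat_lit 396) ln13_15_7 ln13_15_7_ok))) (M (nat_lit 494) (B (L (nat_lit 462) ln13_11_4 ln13_11_4_ok) (L (nat_lit 526) ln13_12_4 ln13_12_4_ok))))) (M (nat_lit 333) (B (M (nat_lit 332) (B (L (nat_lit 300) ln13_13_7 ln13_13_7_ok) (L (nat_lit 364) ln13_14_7 ln13_14_7_ok))) (M (nat_lit 334) (B (L (nat_lit 302) ln13_13_6 ln13_13_6_ok) (L (nat_lit 366) ln13_14_6 ln13_14_6_ok))))))))) (B (M (nat_lit 333) (B (M (nat_lit 301) (B (M (nat_lit 302) (B (L (nat_lit 270) ln13_12_6 ln13_12_6_ok) (L (nat_lit 334) ln13_13_6 ln13_13_6_ok))) (M (nat_lit 430) (B (L (nat_lit 398) ln13_9_4 ln13_9_4_ok) (L (nat_lit 462) ln13_10_4 ln13_10_4_ok))))) (B (M (nat_lit 301) (B (M (nat_lit 300) (B (L (nat_lit 268) ln13_12_7 ln13_12_7_ok) (L (nat_lit 332) ln13_13_7 ln13_13_7_ok))) (M (nat_lit 430) (B (L (nat_lit 398) ln13_9_4 ln13_9_4_ok) (L (nat_lit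 462) ln13_10_4 ln13_10_4_ok))))) (M (nat_lit 332) (B (L (nat_lit 300) ln13_13_7 ln13_13_7_ok) (M (nat_lit 334) (B (L (nat_lit 302) ln13_13_6 ln13_13_6_ok) (M (nat_lit 331) (B (M (nat_lit 366) (B (L (nat_lit 330) ln10_10_0 ln10_10_0_ok) (L (nat_lit 367) ln11_10_0 ln11_10_0_ok))) (B (M (nat_lit 335) (B (M (nat_lit 363) (B (L (nat_lit 362) ln14_10_1 ln14_10_1_ok) (L (nat_lit 364) ln15_10_1 ln15_10_1_ok))) (M (nat_lit 367) (B (L (nat_lit 366) ln11_10_0 ln11_10_0_ok) (L (nat_lit 368) ln12_10_0 ln12_10_0_ok))))) (M (nat_lit 330) (B (M (nat_lit 298) (B (L (nat_lit 297) ln13_10_3 ln13_10_3_ok) (L (nat_lit 299) ln14_10_3 ln14_10_3_ok))) (M (nat_lit 362) (B (L (nat_lit 361) ln13_10_1 ln13_10_1_ok) (L (nat_lit 363) ln14_10_1 ln14_10_1_ok))))))))))))))) (M (nat_lit 461) (B (M (nat_lit 364) (B (L (nat_lit 332) ln13_14_7 ln13_14_7_ok) (M (nat_lit 493) (B (L (nat_lit 396) ln13_15_7 ln13_15_7_ok) (M (nat_lit 366)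 (B (L (nat_lit 334) ln13_14_6 ln13_14_6_ok) (L (nat_lit 398) ln13_15_6 ln13_15_6_ok))))))) (B (M (nat_lit 493) (B (M (nat_lit 366) (B (L (nat_lit 334) ln13_14_6 ln13_14_6_ok) (L (nat_lit 398) ln13_15_6 ln13_15_6_ok))) (M (nat_lit 525) (B (M (nat_lit 524) (B (L (nat_lit 492) ln13_12_5 ln13_12_5_ok) (L (nat_lit 556) ln13_13_5 ln13_13_5_ok))) (M (nat_lit 526) (B (L (nat_lit 494) ln13_12_4 ln13_12_4_ok) (L (nat_lit 558) ln13_13_4 ln13_13_4_ok))))))) (B (M (nat_lit 493) (B (M (nat_lit 364) (B (L (nat_lit 332) ln13_14_7 ln13_14_7_ok) (L (nat_lit 396) ln13_15_7 ln13_15_7_ok))) (M (nat_lit 525) (B (M (nat_lit 524) (B (L (nat_lit 492) ln13_12_5 ln13_12_5_ok) (L (nat_lit 556) ln13_13_5 ln13_13_5_ok))) (M (nat_lit 526) (B (L (nat_lit 494) ln13_12_4 ln13_12_4_ok) (L (nat_lit 558) ln13_13_4 ln13_13_4_ok))))))) (M (nat_lit 333) (B (M (nat_lit 332) (B (L (nat_lit 300) ln13_13_7 ln13_13_7_ok) (L (nat_lit 364) ln13_14_7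 ln13_14_7_ok))) (M (nat_lit 334) (B (L (nat_lit 302) ln13_13_6 ln13_13_6_ok) (L (nat_lit 366) ln13_14_6 ln13_14_6_ok))))))))))))))))))) (nat_lit 1386334847383188664550070665778531748218595021979121511688892729411143073470393764272092352380775458208712834410189682411080515584) (nat_lit 1179363258141160341632306725050343390910023729384468420166580151215533193001541642404395731839232870061650650451881841762150452151377746092367559338927291408646693453824) (nat_lit 1179363258141160341632306725050343390910023729384468420166580151215533193001541642404395731839232870061650650451881841762150452151377746092367559338927291408646693453824) (by decide +kernel)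
theorem c21_s6250 : Sem (nat_lit 1386334847544579281930502452632026696468783264124728123740719198963059283254184240648144927045128292788721448874933630659377233920) (nat_lit 82377571940747339690414912940743112983886355557184074530086741999186207958099142106525112683518107432661935781119780146995869034287976086196040089837405995008) (nat_lit 82377571940747339690414912940743112983886355557184074530086741999186207958099142106525112683518107432661935781119780146995869034287976086196040089837405995008) :=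
  sem_of_chk (M (nat_lit 430) (B (M (nat_lit 431) (B (L (nat_lit 432) ln16_13_3 ln16_13_3_ok) (M (nat_lit 395) (B (L (nat_lit 394) ln10_12_0 ln10_12_0_ok) (L (nat_lit 398) ln11_12_0 ln11_12_0_ok))))) (B (M (nat_lit 431) (B (L (nat_lit 432) ln16_13_3 ln16_13_3_ok) (M (nat_lit 395) (B (L (nat_lit 398) ln11_12_0 ln11_12_0_ok) (L (nat_lit 428) ln15_13_3 ln15_13_3_ok))))) (B (M (nat_lit 428) (B (M (nat_lit 431) (B (L (nat_lit 432) ln16_13_3 ln16_13_3_ok) (M (nat_lit 460) (B (L (nat_lit 459) ln15_13_1 ln15_13_1_ok) (M (nat_lit 492) (B (L (nat_lit 365) ln12_15_6 ln12_15_6_ok) (L (nat_lit 524) ln12_16_6 ln12_16_6_ok))))))) (B (M (nat_lit 427) (B (M (nat_lit 398) (B (L (nat_lit 399) ln15_12_1 ln15_12_1_ok) (L (nat_lit 426) ln10_13_2 ln10_13_2_ok))) (M (nat_lit 459) (B (L (nat_lit 458) ln14_13_1 ln14_13_1_ok) (M (nat_lit 431) (B (L (nat_lit 432) ln16_13_3 ln16_13_3_ok) (L (nat_lit 460) ln15_13_1 ln15_13_1_ok)))))))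 (B (M (nat_lit 427) (B (M (nat_lit 398) (B (L (nat_lit 399) ln15_12_1 ln15_12_1_ok) (L (nat_lit 426) ln10_13_2 ln10_13_2_ok))) (B (M (nat_lit 426) (B (L (nat_lit 425) ln9_13_2 ln9_13_2_ok) (M (nat_lit 458) (B (L (nat_lit 457) ln13_13_1 ln13_13_1_ok) (L (nat_lit 459) ln14_13_1 ln14_13_1_ok))))) (M (nat_lit 459) (B (L (nat_lit 458) ln14_13_1 ln14_13_1_ok) (M (nat_lit 364) (B (L (nat_lit 332) ln12_10_5 ln12_10_5_ok) (M (nat_lit 491) (B (L (nat_lit 460) ln12_11_5 ln12_11_5_ok) (L (nat_lit 523) ln11_16_6 ln11_16_6_ok)))))))))) (B (M (nat_lit 399) (B (M (nat_lit 398) (B (L (nat_lit 427) ln15_12_1 ln15_12_1_ok) (L (nat_lit 400) ln16_12_1 ln16_12_1_ok))) (B (M (nat_lit 431) (B (L (nat_lit 432) ln16_13_3 ln16_13_3_ok) (L (nat_lit 400) ln12_13_2 ln12_13_2_ok))) (M (nat_lit 333) (B (M (nat_lit 365) (B (L (nat_lit 301) ln13_9_5 ln13_9_5_ok) (L (nat_lit 460) ln13_10_5 ln13_10_5_ok))) (B (M (nat_lit 365) (B (L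 (nat_lit 460) ln13_10_5 ln13_10_5_ok) (L (nat_lit 462) ln13_10_4 ln13_10_4_ok))) (M (nat_lit 364) (B (M (nat_lit 332) (B (L (nat_lit 300) ln12_9_4 ln12_9_4_ok) (L (nat_lit 301) ln12_13_6 ln12_13_6_ok))) (M (nat_lit 398) (B (L (nat_lit 363) ln15_12_3 ln15_12_3_ok) (L (nat_lit 427) ln15_12_1 ln15_12_1_ok))))))))))) (M (nat_lit 427) (B (M (nat_lit 398) (B (L (nat_lit 399) ln15_12_1 ln15_12_1_ok) (L (nat_lit 426) ln10_13_2 ln10_13_2_ok))) (B (M (nat_lit 426) (B (L (nat_lit 425) ln9_13_2 ln9_13_2_ok) (M (nat_lit 458) (B (L (nat_lit 457) ln13_13_1 ln13_13_1_ok) (L (nat_lit 459) ln14_13_1 ln14_13_1_ok))))) (M (nat_lit 399) (B (L (nat_lit 398) ln15_12_1 ln15_12_1_ok) (M (nat_lit 431) (B (L (nat_lit 432) ln16_13_3 ln16_13_3_ok) (L (nat_lit 400) ln12_13_2 ln12_13_2_ok))))))))))))) (B (M (nat_lit 431) (B (L (nat_lit 432) ln16_13_3 ln16_13_3_ok) (M (nat_lit 395) (B (L (nat_lit 394) ln10_12_0 ln10_12_0_ok) (L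 (nat_lit 428) ln15_13_3 ln15_13_3_ok))))) (M (nat_lit 428) (B (M (nat_lit 395) (B (L (nat_lit 394) ln10_12_0 ln10_12_0_ok) (M (nat_lit 427) (B (M (nat_lit 426) (B (L (nat_lit 398) ln14_12_1 ln14_12_1_ok) (L (nat_lit 425) ln9_13_2 ln9_13_2_ok))) (M (nat_lit 459) (B (L (nat_lit 458) ln14_13_1 ln14_13_1_ok) (M (nat_lit 491) (B (L (nat_lit 364) ln11_15_6 ln11_15_6_ok) (L (nat_lit 523) ln11_16_6 ln11_16_6_ok))))))))) (B (M (nat_lit 398) (B (M (nat_lit 399) (B (L (nat_lit 427) ln15_12_1 ln15_12_1_ok) (L (nat_lit 400) ln16_12_1 ln16_12_1_ok))) (M (nat_lit 333) (B (M (nat_lit 365) (B (L (nat_lit 301) ln13_9_5 ln13_9_5_ok) (L (nat_lit 460) ln13_10_5 ln13_10_5_ok))) (B (M (nat_lit 365) (B (L (nat_lit 460) ln13_10_5 ln13_10_5_ok) (L (nat_lit 462) ln13_10_4 ln13_10_4_ok))) (M (nat_lit 366) (B (M (nat_lit 334) (B (L (nat_lit 301) ln14_13_7 ln14_13_7_ok) (L (nat_lit 302) ln14_9_5 ln14_9_5_ok))) (M (nat_lit 395)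 (B (L (nat_lit 367) ln11_12_2 ln11_12_2_ok) (L (nat_lit 394) ln10_12_0 ln10_12_0_ok)))))))))) (B (M (nat_lit 427) (B (M (nat_lit 398) (B (L (nat_lit 399) ln15_12_1 ln15_12_1_ok) (L (nat_lit 426) ln10_13_2 ln10_13_2_ok))) (M (nat_lit 459) (B (L (nat_lit 458) ln14_13_1 ln14_13_1_ok) (M (nat_lit 364) (B (L (nat_lit 332) ln12_10_5 ln12_10_5_ok) (M (nat_lit 491) (B (L (nat_lit 460) ln12_11_5 ln12_11_5_ok) (L (nat_lit 523) ln11_16_6 ln11_16_6_ok))))))))) (B (M (nat_lit 427) (B (M (nat_lit 394) (B (L (nat_lit 395) ln10_12_0 ln10_12_0_ok) (M (nat_lit 426) (B (L (nat_lit 393) ln13_13_3 ln13_13_3_ok) (L (nat_lit 425) ln9_13_2 ln9_13_2_ok))))) (B (M (nat_lit 395) (B (L (nat_lit 394) ln10_12_0 ln10_12_0_ok) (M (nat_lit 459) (B (L (nat_lit 458) ln14_13_1 ln14_13_1_ok) (M (nat_lit 491) (B (L (nat_lit 364) ln11_15_6 ln11_15_6_ok) (L (nat_lit 523) ln11_16_6 ln11_16_6_ok))))))) (M (nat_lit 459) (B (L (nat_lit 458)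 ln14_13_1 ln14_13_1_ok) (M (nat_lit 364) (B (L (nat_lit 332) ln12_10_5 ln12_10_5_ok) (M (nat_lit 491) (B (L (nat_lit 460) ln12_11_5 ln12_11_5_ok) (L (nat_lit 523) ln11_16_6 ln11_16_6_ok)))))))))) (M (nat_lit 398) (B (M (nat_lit 399) (B (L (nat_lit 400) ln16_12_1 ln16_12_1_ok) (M (nat_lit 395) (B (L (nat_lit 394) ln10_12_0 ln10_12_0_ok) (M (nat_lit 363) (B (L (nat_lit 362) ln14_12_3 ln14_12_3_ok) (L (nat_lit 364) ln15_12_3 ln15_12_3_ok))))))) (B (M (nat_lit 333) (B (M (nat_lit 365) (B (L (nat_lit 301) ln13_9_5 ln13_9_5_ok) (L (nat_lit 460) ln13_10_5 ln13_10_5_ok))) (B (M (nat_lit 365) (B (L (nat_lit 460) ln13_10_5 ln13_10_5_ok) (L (nat_lit 462) ln13_10_4 ln13_10_4_ok))) (M (nat_lit 364) (B (M (nat_lit 332) (B (L (nat_lit 300) ln12_9_4 ln12_9_4_ok) (L (nat_lit 301) ln12_13_6 ln12_13_6_ok))) (M (nat_lit 399) (B (L (nat_lit 363) ln15_12_3 ln15_12_3_ok) (L (nat_lit 400) ln16_12_1 ln16_12_1_ok))))))))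 (M (nat_lit 333) (B (M (nat_lit 365) (B (L (nat_lit 301) ln13_9_5 ln13_9_5_ok) (L (nat_lit 460) ln13_10_5 ln13_10_5_ok))) (B (M (nat_lit 365) (B (L (nat_lit 460) ln13_10_5 ln13_10_5_ok) (L (nat_lit 462) ln13_10_4 ln13_10_4_ok))) (M (nat_lit 366) (B (M (nat_lit 334) (B (L (nat_lit 301) ln14_13_7 ln14_13_7_ok) (L (nat_lit 302) ln14_9_5 ln14_9_5_ok))) (M (nat_lit 395) (B (L (nat_lit 367) ln11_12_2 ln11_12_2_ok) (L (nat_lit 394) ln10_12_0 ln10_12_0_ok))))))))))))))))))))) (nat_lit 1386334847544579281930502452632026696468783264124728123740719198963059283254184240648144927045128292788721448874933630659377233920) (nat_lit 82377571940747339690414912940743112983886355557184074530086741999186207958099142106525112683518107432661935781119780146995869034287976086196040089837405995008) (nat_lit 82377571940747339690414912940743112983886355557184074530086741999186207958099142106525112683518107432661935781119780146995869034287976086196040089837405995008)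 (by decide +kernel)
theorem c21_s6261 : Sem (nat_lit 1386334847544579281930502452632026696468783264124728123740719198963059283254184240648144927045128292788721448874933630659377233920) (nat_lit 82377571940747339690414912940743112983886355557775907260945747972614357068490055037423784685843004040080173105945896821324750362040828233789001803001453608960) (nat_lit 82377571940747339690414912940743112983886355557775907260945747972614357068490055037423784685843004040080173105945896821324750362040828233789001803001453608960) :=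
  sem_of_chk (M (nat_lit 430) (B (M (nat_lit 431) (B (L (nat_lit 432) ln16_13_3 ln16_13_3_ok) (M (nat_lit 395) (B (L (nat_lit 394) ln10_12_0 ln10_12_0_ok) (L (nat_lit 428) ln15_13_3 ln15_13_3_ok))))) (B (M (nat_lit 431) (B (L (nat_lit 432) ln16_13_3 ln16_13_3_ok) (M (nat_lit 395) (B (L (nat_lit 398) ln11_12_0 ln11_12_0_ok) (L (nat_lit 428) ln15_13_3 ln15_13_3_ok))))) (B (M (nat_lit 428) (B (M (nat_lit 431) (B (L (nat_lit 432) ln16_13_3 ln16_13_3_ok) (M (nat_lit 460) (B (L (nat_lit 459) ln15_13_1 ln15_13_1_ok) (M (nat_lit 492) (B (L (nat_lit 365) ln12_15_6 ln12_15_6_ok) (L (nat_lit 524) ln12_16_6 ln12_16_6_ok))))))) (B (M (nat_lit 427) (B (M (nat_lit 398) (B (L (nat_lit 399) ln15_12_1 ln15_12_1_ok) (L (nat_lit 426) ln10_13_2 ln10_13_2_ok))) (M (nat_lit 459) (B (L (nat_lit 458) ln14_13_1 ln14_13_1_ok) (M (nat_lit 431) (B (L (nat_lit 432) ln16_13_3 ln16_13_3_ok) (L (nat_lit 460) ln15_13_1 ln15_13_1_ok)))))))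 (B (M (nat_lit 427) (B (M (nat_lit 398) (B (L (nat_lit 399) ln15_12_1 ln15_12_1_ok) (L (nat_lit 426) ln10_13_2 ln10_13_2_ok))) (B (M (nat_lit 426) (B (L (nat_lit 425) ln9_13_2 ln9_13_2_ok) (M (nat_lit 458) (B (L (nat_lit 457) ln13_13_1 ln13_13_1_ok) (L (nat_lit 459) ln14_13_1 ln14_13_1_ok))))) (M (nat_lit 459) (B (L (nat_lit 458) ln14_13_1 ln14_13_1_ok) (M (nat_lit 364) (B (L (nat_lit 332) ln12_10_5 ln12_10_5_ok) (M (nat_lit 491) (B (L (nat_lit 460) ln12_11_5 ln12_11_5_ok) (L (nat_lit 523) ln11_16_6 ln11_16_6_ok)))))))))) (B (M (nat_lit 399) (B (M (nat_lit 398) (B (L (nat_lit 427) ln15_12_1 ln15_12_1_ok) (L (nat_lit 400) ln16_12_1 ln16_12_1_ok))) (B (M (nat_lit 431) (B (L (nat_lit 432) ln16_13_3 ln16_13_3_ok) (L (nat_lit 400) ln12_13_2 ln12_13_2_ok))) (M (nat_lit 333) (B (M (nat_lit 365) (B (L (nat_lit 301) ln13_9_5 ln13_9_5_ok) (L (nat_lit 460) ln13_10_5 ln13_10_5_ok))) (B (M (nat_lit 365) (B (L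 (nat_lit 460) ln13_10_5 ln13_10_5_ok) (L (nat_lit 462) ln13_10_4 ln13_10_4_ok))) (M (nat_lit 364) (B (M (nat_lit 332) (B (L (nat_lit 300) ln12_9_4 ln12_9_4_ok) (L (nat_lit 301) ln12_13_6 ln12_13_6_ok))) (M (nat_lit 398) (B (L (nat_lit 363) ln15_12_3 ln15_12_3_ok) (L (nat_lit 427) ln15_12_1 ln15_12_1_ok))))))))))) (M (nat_lit 427) (B (M (nat_lit 398) (B (L (nat_lit 399) ln15_12_1 ln15_12_1_ok) (L (nat_lit 426) ln10_13_2 ln10_13_2_ok))) (B (M (nat_lit 426) (B (L (nat_lit 425) ln9_13_2 ln9_13_2_ok) (M (nat_lit 458) (B (L (nat_lit 457) ln13_13_1 ln13_13_1_ok) (L (nat_lit 459) ln14_13_1 ln14_13_1_ok))))) (M (nat_lit 399) (B (L (nat_lit 398) ln15_12_1 ln15_12_1_ok) (M (nat_lit 431) (B (L (nat_lit 432) ln16_13_3 ln16_13_3_ok) (L (nat_lit 400) ln12_13_2 ln12_13_2_ok))))))))))))) (B (M (nat_lit 431) (B (L (nat_lit 432) ln16_13_3 ln16_13_3_ok) (M (nat_lit 395) (B (L (nat_lit 394) ln10_12_0 ln10_12_0_ok) (L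 (nat_lit 398) ln11_12_0 ln11_12_0_ok))))) (M (nat_lit 428) (B (M (nat_lit 395) (B (L (nat_lit 394) ln10_12_0 ln10_12_0_ok) (M (nat_lit 427) (B (M (nat_lit 426) (B (L (nat_lit 398) ln14_12_1 ln14_12_1_ok) (L (nat_lit 425) ln9_13_2 ln9_13_2_ok))) (M (nat_lit 459) (B (L (nat_lit 458) ln14_13_1 ln14_13_1_ok) (M (nat_lit 491) (B (L (nat_lit 364) ln11_15_6 ln11_15_6_ok) (L (nat_lit 523) ln11_16_6 ln11_16_6_ok))))))))) (B (M (nat_lit 398) (B (M (nat_lit 399) (B (L (nat_lit 427) ln15_12_1 ln15_12_1_ok) (L (nat_lit 400) ln16_12_1 ln16_12_1_ok))) (M (nat_lit 333) (B (M (nat_lit 365) (B (L (nat_lit 301) ln13_9_5 ln13_9_5_ok) (L (nat_lit 460) ln13_10_5 ln13_10_5_ok))) (B (M (nat_lit 365) (B (L (nat_lit 460) ln13_10_5 ln13_10_5_ok) (L (nat_lit 462) ln13_10_4 ln13_10_4_ok))) (M (nat_lit 366) (B (M (nat_lit 334) (B (L (nat_lit 301) ln14_13_7 ln14_13_7_ok) (L (nat_lit 302) ln14_9_5 ln14_9_5_ok))) (M (nat_lit 395)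 (B (L (nat_lit 367) ln11_12_2 ln11_12_2_ok) (L (nat_lit 394) ln10_12_0 ln10_12_0_ok)))))))))) (B (M (nat_lit 427) (B (M (nat_lit 398) (B (L (nat_lit 399) ln15_12_1 ln15_12_1_ok) (L (nat_lit 426) ln10_13_2 ln10_13_2_ok))) (M (nat_lit 459) (B (L (nat_lit 458) ln14_13_1 ln14_13_1_ok) (M (nat_lit 364) (B (L (nat_lit 332) ln12_10_5 ln12_10_5_ok) (M (nat_lit 491) (B (L (nat_lit 460) ln12_11_5 ln12_11_5_ok) (L (nat_lit 523) ln11_16_6 ln11_16_6_ok))))))))) (B (M (nat_lit 427) (B (M (nat_lit 394) (B (L (nat_lit 395) ln10_12_0 ln10_12_0_ok) (M (nat_lit 426) (B (L (nat_lit 393) ln13_13_3 ln13_13_3_ok) (L (nat_lit 425) ln9_13_2 ln9_13_2_ok))))) (B (M (nat_lit 395) (B (L (nat_lit 394) ln10_12_0 ln10_12_0_ok) (M (nat_lit 459) (B (L (nat_lit 458) ln14_13_1 ln14_13_1_ok) (M (nat_lit 491) (B (L (nat_lit 364) ln11_15_6 ln11_15_6_ok) (L (nat_lit 523) ln11_16_6 ln11_16_6_ok))))))) (M (nat_lit 459) (B (L (nat_lit 458)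 ln14_13_1 ln14_13_1_ok) (M (nat_lit 364) (B (L (nat_lit 332) ln12_10_5 ln12_10_5_ok) (M (nat_lit 491) (B (L (nat_lit 460) ln12_11_5 ln12_11_5_ok) (L (nat_lit 523) ln11_16_6 ln11_16_6_ok)))))))))) (M (nat_lit 398) (B (M (nat_lit 399) (B (L (nat_lit 400) ln16_12_1 ln16_12_1_ok) (M (nat_lit 395) (B (L (nat_lit 394) ln10_12_0 ln10_12_0_ok) (M (nat_lit 367) (B (L (nat_lit 366) ln11_12_2 ln11_12_2_ok) (L (nat_lit 368) ln12_12_2 ln12_12_2_ok))))))) (B (M (nat_lit 333) (B (M (nat_lit 365) (B (L (nat_lit 301) ln13_9_5 ln13_9_5_ok) (L (nat_lit 460) ln13_10_5 ln13_10_5_ok))) (B (M (nat_lit 365) (B (L (nat_lit 460) ln13_10_5 ln13_10_5_ok) (L (nat_lit 462) ln13_10_4 ln13_10_4_ok))) (M (nat_lit 364) (B (M (nat_lit 332) (B (L (nat_lit 300) ln12_9_4 ln12_9_4_ok) (L (nat_lit 301) ln12_13_6 ln12_13_6_ok))) (M (nat_lit 399) (B (L (nat_lit 363) ln15_12_3 ln15_12_3_ok) (L (nat_lit 400) ln16_12_1 ln16_12_1_ok))))))))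 (M (nat_lit 333) (B (M (nat_lit 365) (B (L (nat_lit 301) ln13_9_5 ln13_9_5_ok) (L (nat_lit 460) ln13_10_5 ln13_10_5_ok))) (B (M (nat_lit 365) (B (L (nat_lit 460) ln13_10_5 ln13_10_5_ok) (L (nat_lit 462) ln13_10_4 ln13_10_4_ok))) (M (nat_lit 366) (B (M (nat_lit 334) (B (L (nat_lit 301) ln14_13_7 ln14_13_7_ok) (L (nat_lit 302) ln14_9_5 ln14_9_5_ok))) (M (nat_lit 395) (B (L (nat_lit 367) ln11_12_2 ln11_12_2_ok) (L (nat_lit 394) ln10_12_0 ln10_12_0_ok))))))))))))))))))))) (nat_lit 1386334847544579281930502452632026696468783264124728123740719198963059283254184240648144927045128292788721448874933630659377233920) (nat_lit 82377571940747339690414912940743112983886355557775907260945747972614357068490055037423784685843004040080173105945896821324750362040828233789001803001453608960) (nat_lit 82377571940747339690414912940743112983886355557775907260945747972614357068490055037423784685843004040080173105945896821324750362040828233789001803001453608960)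 (by decide +kernel)
noncomputable def c21_n6318 : Cert := (M (nat_lit 395) (B (M (nat_lit 430) (B (L (nat_lit 394) ln10_12_0 ln10_12_0_ok) (M (nat_lit 431) (B (L (nat_lit 398) ln11_12_0 ln11_12_0_ok) (L (nat_lit 432) ln16_13_3 ln16_13_3_ok))))) (B (M (nat_lit 430) (B (M (nat_lit 431) (B (L (nat_lit 398) ln11_12_0 ln11_12_0_ok) (L (nat_lit 428) ln15_13_3 ln15_13_3_ok))) (B (M (nat_lit 431) (B (L (nat_lit 428) ln15_13_3 ln15_13_3_ok) (L (nat_lit 432) ln16_13_3 ln16_13_3_ok))) (B (M (nat_lit 431) (B (L (nat_lit 398) ln11_12_0 ln11_12_0_ok) (L (nat_lit 432) ln16_13_3 ln16_13_3_ok))) (M (nat_lit 398) (B (M (nat_lit 427) (B (L (nat_lit 426) ln14_12_1 ln14_12_1_ok) (M (nat_lit 399) (B (L (nat_lit 428) ln15_12_1 ln15_12_1_ok) (M (nat_lit 367) (B (L (nat_lit 366) ln11_12_2 ln11_12_2_ok) (L (nat_lit 368) ln12_12_2 ln12_12_2_ok))))))) (B (M (nat_lit 399) (B (M (nat_lit 427) (B (L (nat_lit 426) ln14_12_1 ln14_12_1_ok)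 (L (nat_lit 428) ln15_12_1 ln15_12_1_ok))) (B (M (nat_lit 428) (B (L (nat_lit 427) ln15_12_1 ln15_12_1_ok) (L (nat_lit 400) ln16_12_1 ln16_12_1_ok))) (B (M (nat_lit 400) (B (L (nat_lit 428) ln16_12_1 ln16_12_1_ok) (L (nat_lit 401) ln17_12_1 ln17_12_1_ok))) (M (nat_lit 400) (B (L (nat_lit 401) ln17_12_1 ln17_12_1_ok) (M (nat_lit 368) (B (L (nat_lit 367) ln12_12_2 ln12_12_2_ok) (L (nat_lit 369) ln13_12_2 ln13_12_2_ok))))))))) (B (M (nat_lit 399) (B (M (nat_lit 427) (B (L (nat_lit 426) ln14_12_1 ln14_12_1_ok) (L (nat_lit 428) ln15_12_1 ln15_12_1_ok))) (B (M (nat_lit 428) (B (L (nat_lit 427) ln15_12_1 ln15_12_1_ok) (L (nat_lit 400) ln16_12_1 ln16_12_1_ok))) (B (M (nat_lit 400) (B (L (nat_lit 428) ln16_12_1 ln16_12_1_ok) (L (nat_lit 401) ln17_12_1 ln17_12_1_ok))) (M (nat_lit 365) (B (M (nat_lit 333) (B (L (nat_lit 301) ln13_9_4 ln13_9_4_ok) (L (nat_lit 462) ln13_10_4 ln13_10_4_ok))) (M (nat_lit 400) (B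 (L (nat_lit 364) ln16_12_3 ln16_12_3_ok) (L (nat_lit 401) ln17_12_1 ln17_12_1_ok))))))))) (B (M (nat_lit 428) (B (M (nat_lit 427) (B (L (nat_lit 426) ln14_12_1 ln14_12_1_ok) (M (nat_lit 459) (B (L (nat_lit 458) ln14_13_1 ln14_13_1_ok) (M (nat_lit 364) (B (L (nat_lit 332) ln12_10_5 ln12_10_5_ok) (L (nat_lit 491) ln11_15_6 ln11_15_6_ok))))))) (M (nat_lit 333) (B (M (nat_lit 365) (B (L (nat_lit 301) ln13_9_5 ln13_9_5_ok) (L (nat_lit 460) ln13_10_5 ln13_10_5_ok))) (B (M (nat_lit 365) (B (L (nat_lit 460) ln13_10_5 ln13_10_5_ok) (L (nat_lit 462) ln13_10_4 ln13_10_4_ok))) (M (nat_lit 366) (B (L (nat_lit 367) ln11_12_2 ln11_12_2_ok) (M (nat_lit 334) (B (L (nat_lit 301) ln14_13_7 ln14_13_7_ok) (L (nat_lit 302) ln14_9_5 ln14_9_5_ok)))))))))) (B (M (nat_lit 399) (B (M (nat_lit 367) (B (L (nat_lit 366) ln11_12_2 ln11_12_2_ok) (L (nat_lit 368) ln12_12_2 ln12_12_2_ok))) (M (nat_lit 400) (B (L (nat_lit 428) ln16_12_1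 ln16_12_1_ok) (L (nat_lit 401) ln17_12_1 ln17_12_1_ok))))) (M (nat_lit 365) (B (M (nat_lit 333) (B (L (nat_lit 301) ln13_9_4 ln13_9_4_ok) (L (nat_lit 462) ln13_10_4 ln13_10_4_ok))) (M (nat_lit 399) (B (M (nat_lit 367) (B (L (nat_lit 366) ln11_12_2 ln11_12_2_ok) (L (nat_lit 368) ln12_12_2 ln12_12_2_ok))) (M (nat_lit 400) (B (L (nat_lit 364) ln16_12_3 ln16_12_3_ok) (L (nat_lit 401) ln17_12_1 ln17_12_1_ok))))))))))))))))) (B (M (nat_lit 430) (B (L (nat_lit 394) ln10_12_0 ln10_12_0_ok) (M (nat_lit 431) (B (L (nat_lit 428) ln15_13_3 ln15_13_3_ok) (L (nat_lit 432) ln16_13_3 ln16_13_3_ok))))) (M (nat_lit 394) (B (M (nat_lit 393) (B (L (nat_lit 428) ln9_12_0 ln9_12_0_ok) (M (nat_lit 425) (B (L (nat_lit 424) ln12_12_1 ln12_12_1_ok) (L (nat_lit 426) ln13_12_1 ln13_12_1_ok))))) (B (M (nat_lit 398) (B (M (nat_lit 366) (B (L (nat_lit 365) ln10_12_2 ln10_12_2_ok) (L (nat_lit 367) ln11_12_2 ln11_12_2_ok))) (M (nat_lit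 426) (B (L (nat_lit 425) ln13_12_1 ln13_12_1_ok) (L (nat_lit 427) ln14_12_1 ln14_12_1_ok))))) (M (nat_lit 393) (B (L (nat_lit 428) ln9_12_0 ln9_12_0_ok) (M (nat_lit 365) (B (L (nat_lit 364) ln9_12_2 ln9_12_2_ok) (L (nat_lit 366) ln10_12_2 ln10_12_2_ok))))))))))))
theorem c21_s6479 : Sem (nat_lit 4159004541746089450199132530201857874030314460573348004937112014353638695951705101876145620481444288176116967068709176612499750912) (nat_lit 68647976674829519024351904087062483271764502956856796103243680441756650680886640082929134848624401250579472956488700770482595146668471115389007116075966398464) (nat_lit 68647976674829519024351904087062483271764502956856796103243680441756650680886640082929134848624401250579472956488700770482595146668471115389007116075966398464) :=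
  sem_of_chk (M (nat_lit 363) (B (M (nat_lit 398) (B (L (nat_lit 362) ln14_12_3 ln14_12_3_ok) (M (nat_lit 427) (B (L (nat_lit 426) ln14_12_1 ln14_12_1_ok) (M (nat_lit 428) (B (L (nat_lit 399) ln15_12_1 ln15_12_1_ok) (M (nat_lit 331) (B (L (nat_lit 299) ln11_9_4 ln11_9_4_ok) (L (nat_lit 460) ln11_10_4 ln11_10_4_ok))))))))) (B (M (nat_lit 398) (B (L (nat_lit 362) ln14_12_3 ln14_12_3_ok) (M (nat_lit 399) (B (M (nat_lit 367) (B (L (nat_lit 366) ln11_12_2 ln11_12_2_ok) (L (nat_lit 368) ln12_12_2 ln12_12_2_ok))) (M (nat_lit 427) (B (L (nat_lit 426) ln14_12_1 ln14_12_1_ok) (L (nat_lit 428) ln15_12_1 ln15_12_1_ok))))))) (B (M (nat_lit 427) (B (M (nat_lit 398) (B (L (nat_lit 426) ln14_12_1 ln14_12_1_ok) (M (nat_lit 428) (B (L (nat_lit 399) ln15_12_1 ln15_12_1_ok) (M (nat_lit 331) (B (L (nat_lit 299) ln11_9_4 ln11_9_4_ok) (L (nat_lit 460) ln11_10_4 ln11_10_4_ok))))))) (B (M (nat_lit 428) (B (M (nat_lit 460)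 (B (L (nat_lit 331) ln11_10_4 ln11_10_4_ok) (L (nat_lit 492) ln12_15_7 ln12_15_7_ok))) (M (nat_lit 398) (B (L (nat_lit 426) ln14_12_1 ln14_12_1_ok) (L (nat_lit 399) ln15_12_1 ln15_12_1_ok))))) (B (M (nat_lit 398) (B (L (nat_lit 426) ln14_12_1 ln14_12_1_ok) (M (nat_lit 399) (B (L (nat_lit 428) ln15_12_1 ln15_12_1_ok) (M (nat_lit 367) (B (L (nat_lit 366) ln11_12_2 ln11_12_2_ok) (L (nat_lit 368) ln12_12_2 ln12_12_2_ok))))))) (B (M (nat_lit 428) (B (M (nat_lit 331) (B (L (nat_lit 299) ln11_9_4 ln11_9_4_ok) (L (nat_lit 460) ln11_10_4 ln11_10_4_ok))) (B (M (nat_lit 460) (B (L (nat_lit 331) ln11_10_4 ln11_10_4_ok) (L (nat_lit 492) ln12_15_7 ln12_15_7_ok))) (M (nat_lit 426) (B (L (nat_lit 425) ln9_13_2 ln9_13_2_ok) (M (nat_lit 458) (B (L (nat_lit 457) ln13_13_1 ln13_13_1_ok) (L (nat_lit 459) ln14_13_1 ln14_13_1_ok)))))))) (B (M (nat_lit 459) (B (M (nat_lit 458) (B (L (nat_lit 490) ln11_11_5 ln11_11_5_ok)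 (L (nat_lit 428) ln14_13_1 ln14_13_1_ok))) (B (M (nat_lit 491) (B (M (nat_lit 490) (B (L (nat_lit 458) ln11_11_5 ln11_11_5_ok) (L (nat_lit 522) ln11_12_5 ln11_12_5_ok))) (M (nat_lit 492) (B (L (nat_lit 460) ln11_11_4 ln11_11_4_ok) (L (nat_lit 524) ln11_12_4 ln11_12_4_ok))))) (M (nat_lit 331) (B (M (nat_lit 428) (B (L (nat_lit 299) ln11_9_4 ln11_9_4_ok) (L (nat_lit 460) ln11_10_4 ln11_10_4_ok))) (B (M (nat_lit 460) (B (L (nat_lit 428) ln11_10_4 ln11_10_4_ok) (L (nat_lit 492) ln11_11_4 ln11_11_4_ok))) (M (nat_lit 299) (B (M (nat_lit 298) (B (L (nat_lit 266) ln11_12_7 ln11_12_7_ok) (L (nat_lit 330) ln11_13_7 ln11_13_7_ok))) (M (nat_lit 300) (B (L (nat_lit 268) ln11_12_6 ln11_12_6_ok) (L (nat_lit 332) ln11_13_6 ln11_13_6_ok))))))))))) (M (nat_lit 426) (B (L (nat_lit 398) ln14_12_1 ln14_12_1_ok) (M (nat_lit 458) (B (L (nat_lit 331) ln11_10_5 ln11_10_5_ok) (M (nat_lit 490) (B (L (nat_lit 459) ln11_11_5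 ln11_11_5_ok) (L (nat_lit 522) ln10_16_6 ln10_16_6_ok))))))))))))) (B (M (nat_lit 331) (B (M (nat_lit 428) (B (L (nat_lit 299) ln11_9_4 ln11_9_4_ok) (M (nat_lit 460) (B (L (nat_lit 427) ln11_10_4 ln11_10_4_ok) (L (nat_lit 492) ln12_15_7 ln12_15_7_ok))))) (B (M (nat_lit 427) (B (M (nat_lit 428) (B (L (nat_lit 460) ln11_10_4 ln11_10_4_ok) (M (nat_lit 458) (B (L (nat_lit 426) ln11_10_5 ln11_10_5_ok) (L (nat_lit 459) ln14_13_1 ln14_13_1_ok))))) (B (M (nat_lit 459) (B (M (nat_lit 330) (B (L (nat_lit 298) ln11_13_7 ln11_13_7_ok) (L (nat_lit 362) ln11_14_7 ln11_14_7_ok))) (M (nat_lit 428) (B (L (nat_lit 460) ln11_10_4 ln11_10_4_ok) (L (nat_lit 458) ln14_13_1 ln14_13_1_ok))))) (B (M (nat_lit 459) (B (M (nat_lit 330) (B (L (nat_lit 298) ln11_13_7 ln11_13_7_ok) (L (nat_lit 362) ln11_14_7 ln11_14_7_ok))) (M (nat_lit 458) (B (L (nat_lit 426) ln11_10_5 ln11_10_5_ok) (L (nat_lit 490) ln11_11_5 ln11_11_5_ok)))))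 (B (M (nat_lit 459) (B (M (nat_lit 330) (B (L (nat_lit 298) ln11_13_7 ln11_13_7_ok) (L (nat_lit 362) ln11_14_7 ln11_14_7_ok))) (M (nat_lit 460) (B (L (nat_lit 428) ln11_10_4 ln11_10_4_ok) (L (nat_lit 492) ln11_11_4 ln11_11_4_ok))))) (M (nat_lit 428) (B (L (nat_lit 460) ln11_10_4 ln11_10_4_ok) (M (nat_lit 426) (B (L (nat_lit 458) ln11_10_5 ln11_10_5_ok) (L (nat_lit 425) ln9_13_2 ln9_13_2_ok)))))))))) (B (M (nat_lit 299) (B (L (nat_lit 428) ln11_9_4 ln11_9_4_ok) (M (nat_lit 267) (B (M (nat_lit 266) (B (L (nat_lit 234) ln11_11_7 ln11_11_7_ok) (L (nat_lit 298) ln11_12_7 ln11_12_7_ok))) (M (nat_lit 268) (B (L (nat_lit 236) ln11_11_6 ln11_11_6_ok) (L (nat_lit 300) ln11_12_6 ln11_12_6_ok))))))) (M (nat_lit 332) (B (M (nat_lit 300) (B (L (nat_lit 427) ln11_13_6 ln11_13_6_ok) (M (nat_lit 268) (B (L (nat_lit 236) ln12_7_5 ln12_7_5_ok) (L (nat_lit 299) ln11_12_6 ln11_12_6_ok))))) (B (M (nat_lit 333) (B (M (nat_lit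 365) (B (L (nat_lit 300) ln13_13_7 ln13_13_7_ok) (L (nat_lit 462) ln13_10_4 ln13_10_4_ok))) (B (M (nat_lit 365) (B (L (nat_lit 462) ln13_10_4 ln13_10_4_ok) (M (nat_lit 334) (B (L (nat_lit 302) ln13_13_6 ln13_13_6_ok) (L (nat_lit 362) ln14_10_1 ln14_10_1_ok))))) (M (nat_lit 362) (B (L (nat_lit 334) ln14_10_1 ln14_10_1_ok) (M (nat_lit 361) (B (L (nat_lit 330) ln13_10_1 ln13_10_1_ok) (L (nat_lit 360) ln8_11_2 ln8_11_2_ok)))))))) (M (nat_lit 333) (B (M (nat_lit 362) (B (L (nat_lit 334) ln14_10_1 ln14_10_1_ok) (M (nat_lit 361) (B (L (nat_lit 330) ln13_10_1 ln13_10_1_ok) (L (nat_lit 360) ln8_11_2 ln8_11_2_ok))))) (B (M (nat_lit 365) (B (L (nat_lit 462) ln13_10_4 ln13_10_4_ok) (M (nat_lit 334) (B (L (nat_lit 302) ln13_13_6 ln13_13_6_ok) (L (nat_lit 362) ln14_10_1 ln14_10_1_ok))))) (M (nat_lit 330) (B (M (nat_lit 298) (B (L (nat_lit 297) ln13_10_3 ln13_10_3_ok) (L (nat_lit 427) ln11_13_7 ln11_13_7_ok)))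 (M (nat_lit 365) (B (L (nat_lit 366) ln10_10_0 ln10_10_0_ok) (L (nat_lit 462) ln13_10_4 ln13_10_4_ok))))))))))))))) (B (M (nat_lit 398) (B (L (nat_lit 362) ln14_12_3 ln14_12_3_ok) (M (nat_lit 399) (B (M (nat_lit 367) (B (L (nat_lit 366) ln11_12_2 ln11_12_2_ok) (L (nat_lit 368) ln12_12_2 ln12_12_2_ok))) (M (nat_lit 400) (B (L (nat_lit 428) ln16_12_1 ln16_12_1_ok) (L (nat_lit 401) ln17_12_1 ln17_12_1_ok))))))) (M (nat_lit 398) (B (L (nat_lit 362) ln14_12_3 ln14_12_3_ok) (M (nat_lit 333) (B (M (nat_lit 365) (B (L (nat_lit 301) ln13_9_4 ln13_9_4_ok) (L (nat_lit 462) ln13_10_4 ln13_10_4_ok))) (B (M (nat_lit 462) (B (L (nat_lit 365) ln13_10_4 ln13_10_4_ok) (M (nat_lit 367) (B (L (nat_lit 366) ln11_12_2 ln11_12_2_ok) (M (nat_lit 399) (B (L (nat_lit 368) ln12_12_2 ln12_12_2_ok) (L (nat_lit 494) ln14_15_6 ln14_15_6_ok))))))) (M (nat_lit 366) (B (L (nat_lit 367) ln11_12_2 ln11_12_2_ok) (M (nat_lit 334) (B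 (L (nat_lit 301) ln14_13_7 ln14_13_7_ok) (L (nat_lit 302) ln14_9_5 ln14_9_5_ok)))))))))))))))) (nat_lit 4159004541746089450199132530201857874030314460573348004937112014353638695951705101876145620481444288176116967068709176612499750912) (nat_lit 68647976674829519024351904087062483271764502956856796103243680441756650680886640082929134848624401250579472956488700770482595146668471115389007116075966398464) (nat_lit 68647976674829519024351904087062483271764502956856796103243680441756650680886640082929134848624401250579472956488700770482595146668471115389007116075966398464) (by decide +kernel)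
theorem c21_s6700 : Sem (nat_lit 1386334847544579281930502452632026696468783264124728123740719198963059283254184240648144927045128292788721448874933630659377233920) (nat_lit 82377571940747339690042771513817116327923304822271852831746426071100506060263122535538209787181345700801327187951383179496361002240419314139579172468111179776) (nat_lit 82377571940747339690042771513817116327923304822271852831746426071100506060263122535538209787181345700801327187951383179496361002240419314139579172468111179776) :=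
  sem_of_chk (M (nat_lit 364) (B (M (nat_lit 332) (B (L (nat_lit 300) ln12_9_4 ln12_9_4_ok) (M (nat_lit 428) (B (M (nat_lit 427) (B (L (nat_lit 459) ln12_10_5 ln12_10_5_ok) (M (nat_lit 398) (B (L (nat_lit 399) ln15_12_1 ln15_12_1_ok) (L (nat_lit 426) ln10_13_2 ln10_13_2_ok))))) (M (nat_lit 460) (B (M (nat_lit 331) (B (L (nat_lit 299) ln12_13_7 ln12_13_7_ok) (L (nat_lit 363) ln12_14_7 ln12_14_7_ok))) (M (nat_lit 492) (B (L (nat_lit 365) ln12_15_6 ln12_15_6_ok) (L (nat_lit 524) ln12_16_6 ln12_16_6_ok))))))))) (B (M (nat_lit 428) (B (M (nat_lit 427) (B (M (nat_lit 332) (B (L (nat_lit 300) ln12_9_4 ln12_9_4_ok) (L (nat_lit 459) ln12_10_5 ln12_10_5_ok))) (M (nat_lit 398) (B (L (nat_lit 399) ln15_12_1 ln15_12_1_ok) (L (nat_lit 426) ln10_13_2 ln10_13_2_ok))))) (B (M (nat_lit 365) (B (M (nat_lit 333) (B (L (nat_lit 301) ln13_9_5 ln13_9_5_ok) (L (nat_lit 460) ln12_14_6 ln12_14_6_ok))) (B (M (nat_lit 460)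 (B (L (nat_lit 333) ln12_14_6 ln12_14_6_ok) (L (nat_lit 492) ln12_15_6 ln12_15_6_ok))) (B (M (nat_lit 363) (B (M (nat_lit 460) (B (L (nat_lit 331) ln12_14_7 ln12_14_7_ok) (L (nat_lit 492) ln12_15_6 ln12_15_6_ok))) (M (nat_lit 398) (B (L (nat_lit 362) ln10_11_0 ln10_11_0_ok) (L (nat_lit 399) ln15_12_3 ln15_12_3_ok))))) (M (nat_lit 430) (B (M (nat_lit 333) (B (L (nat_lit 301) ln13_9_5 ln13_9_5_ok) (L (nat_lit 462) ln13_10_4 ln13_10_4_ok))) (M (nat_lit 431) (B (L (nat_lit 395) ln15_13_3 ln15_13_3_ok) (L (nat_lit 432) ln16_13_3 ln16_13_3_ok))))))))) (M (nat_lit 460) (B (M (nat_lit 365) (B (L (nat_lit 333) ln12_14_6 ln12_14_6_ok) (L (nat_lit 492) ln12_15_6 ln12_15_6_ok))) (M (nat_lit 332) (B (L (nat_lit 300) ln12_9_4 ln12_9_4_ok) (M (nat_lit 459) (B (L (nat_lit 427) ln12_10_5 ln12_10_5_ok) (L (nat_lit 491) ln12_11_5 ln12_11_5_ok)))))))))) (B (M (nat_lit 428) (B (M (nat_lit 460) (B (M (nat_lit 365) (B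 (L (nat_lit 333) ln12_14_6 ln12_14_6_ok) (L (nat_lit 492) ln12_15_6 ln12_15_6_ok))) (B (M (nat_lit 492) (B (L (nat_lit 365) ln12_15_6 ln12_15_6_ok) (L (nat_lit 524) ln12_16_6 ln12_16_6_ok))) (B (M (nat_lit 492) (B (L (nat_lit 524) ln12_16_6 ln12_16_6_ok) (M (nat_lit 491) (B (L (nat_lit 459) ln12_11_5 ln12_11_5_ok) (L (nat_lit 523) ln12_12_5 ln12_12_5_ok))))) (M (nat_lit 332) (B (M (nat_lit 331) (B (L (nat_lit 299) ln12_13_7 ln12_13_7_ok) (L (nat_lit 363) ln12_14_7 ln12_14_7_ok))) (M (nat_lit 333) (B (L (nat_lit 301) ln12_13_6 ln12_13_6_ok) (L (nat_lit 365) ln12_14_6 ln12_14_6_ok))))))))) (B (M (nat_lit 460) (B (M (nat_lit 365) (B (L (nat_lit 333) ln12_14_6 ln12_14_6_ok) (L (nat_lit 492) ln12_15_6 ln12_15_6_ok))) (B (M (nat_lit 492) (B (L (nat_lit 365) ln12_15_6 ln12_15_6_ok) (L (nat_lit 524) ln12_16_6 ln12_16_6_ok))) (B (M (nat_lit 492) (B (L (nat_lit 524) ln12_16_6 ln12_16_6_ok) (M (nat_lit 491)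 (B (L (nat_lit 459) ln12_11_5 ln12_11_5_ok) (L (nat_lit 523) ln12_12_5 ln12_12_5_ok))))) (M (nat_lit 427) (B (M (nat_lit 459) (B (L (nat_lit 332) ln12_10_5 ln12_10_5_ok) (L (nat_lit 491) ln12_11_5 ln12_11_5_ok))) (M (nat_lit 398) (B (L (nat_lit 399) ln15_12_1 ln15_12_1_ok) (L (nat_lit 426) ln10_13_2 ln10_13_2_ok))))))))) (B (M (nat_lit 365) (B (M (nat_lit 333) (B (L (nat_lit 301) ln13_9_5 ln13_9_5_ok) (L (nat_lit 460) ln12_14_6 ln12_14_6_ok))) (B (M (nat_lit 460) (B (L (nat_lit 333) ln12_14_6 ln12_14_6_ok) (L (nat_lit 492) ln12_15_6 ln12_15_6_ok))) (B (M (nat_lit 363) (B (M (nat_lit 460) (B (L (nat_lit 331) ln12_14_7 ln12_14_7_ok) (L (nat_lit 492) ln12_15_6 ln12_15_6_ok))) (M (nat_lit 398) (B (L (nat_lit 362) ln10_11_0 ln10_11_0_ok) (L (nat_lit 399) ln15_12_3 ln15_12_3_ok))))) (M (nat_lit 430) (B (M (nat_lit 333) (B (L (nat_lit 301) ln13_9_5 ln13_9_5_ok) (L (nat_lit 462) ln13_10_4 ln13_10_4_ok)))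 (M (nat_lit 431) (B (L (nat_lit 395) ln15_13_3 ln15_13_3_ok) (L (nat_lit 432) ln16_13_3 ln16_13_3_ok))))))))) (B (M (nat_lit 460) (B (M (nat_lit 492) (B (L (nat_lit 365) ln12_15_6 ln12_15_6_ok) (L (nat_lit 524) ln12_16_6 ln12_16_6_ok))) (M (nat_lit 427) (B (M (nat_lit 459) (B (L (nat_lit 332) ln12_10_5 ln12_10_5_ok) (L (nat_lit 491) ln12_11_5 ln12_11_5_ok))) (M (nat_lit 398) (B (L (nat_lit 399) ln15_12_1 ln15_12_1_ok) (L (nat_lit 426) ln10_13_2 ln10_13_2_ok))))))) (M (nat_lit 427) (B (M (nat_lit 398) (B (L (nat_lit 399) ln15_12_1 ln15_12_1_ok) (L (nat_lit 426) ln10_13_2 ln10_13_2_ok))) (M (nat_lit 459) (B (L (nat_lit 332) ln12_10_5 ln12_10_5_ok) (M (nat_lit 491) (B (L (nat_lit 395) ln11_15_6 ln11_15_6_ok) (L (nat_lit 523) ln11_16_6 ln11_16_6_ok)))))))))))) (B (M (nat_lit 398) (B (M (nat_lit 399) (B (L (nat_lit 363) ln15_12_3 ln15_12_3_ok) (M (nat_lit 400) (B (L (nat_lit 365) ln16_12_3 ln16_12_3_ok)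 (L (nat_lit 428) ln16_12_1 ln16_12_1_ok))))) (B (M (nat_lit 399) (B (M (nat_lit 400) (B (L (nat_lit 365) ln16_12_3 ln16_12_3_ok) (L (nat_lit 428) ln16_12_1 ln16_12_1_ok))) (B (M (nat_lit 428) (B (L (nat_lit 427) ln15_12_1 ln15_12_1_ok) (L (nat_lit 400) ln16_12_1 ln16_12_1_ok))) (M (nat_lit 395) (B (M (nat_lit 367) (B (L (nat_lit 366) ln11_12_2 ln11_12_2_ok) (L (nat_lit 368) ln12_12_2 ln12_12_2_ok))) (M (nat_lit 431) (B (L (nat_lit 430) ln11_12_0 ln11_12_0_ok) (L (nat_lit 432) ln12_12_0 ln12_12_0_ok)))))))) (B (M (nat_lit 399) (B (L (nat_lit 363) ln15_12_3 ln15_12_3_ok) (M (nat_lit 428) (B (L (nat_lit 427) ln15_12_1 ln15_12_1_ok) (L (nat_lit 400) ln16_12_1 ln16_12_1_ok))))) (B (M (nat_lit 332) (B (L (nat_lit 300) ln12_9_4 ln12_9_4_ok) (M (nat_lit 363) (B (M (nat_lit 362) (B (L (nat_lit 361) ln9_11_0 ln9_11_0_ok) (L (nat_lit 365) ln10_11_0 ln10_11_0_ok))) (B (M (nat_lit 362) (B (L (nat_lit 365) ln10_11_0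 ln10_11_0_ok) (L (nat_lit 395) ln14_12_3 ln14_12_3_ok))) (M (nat_lit 427) (B (M (nat_lit 459) (B (L (nat_lit 395) ln11_14_6 ln11_14_6_ok) (L (nat_lit 428) ln12_10_5 ln12_10_5_ok))) (B (M (nat_lit 428) (B (L (nat_lit 459) ln12_10_5 ln12_10_5_ok) (L (nat_lit 426) ln10_13_2 ln10_13_2_ok))) (B (M (nat_lit 395) (B (L (nat_lit 459) ln11_14_6 ln11_14_6_ok) (L (nat_lit 426) ln14_12_1 ln14_12_1_ok))) (M (nat_lit 426) (B (L (nat_lit 395) ln14_12_1 ln14_12_1_ok) (L (nat_lit 428) ln10_13_2 ln10_13_2_ok)))))))))))) (M (nat_lit 363) (B (L (nat_lit 399) ln15_12_3 ln15_12_3_ok) (M (nat_lit 362) (B (L (nat_lit 361) ln9_11_0 ln9_11_0_ok) (L (nat_lit 395) ln14_12_3 ln14_12_3_ok)))))))))) (B (M (nat_lit 365) (B (M (nat_lit 398) (B (M (nat_lit 399) (B (L (nat_lit 363) ln15_12_3 ln15_12_3_ok) (L (nat_lit 400) ln16_12_3 ln16_12_3_ok))) (M (nat_lit 430) (B (M (nat_lit 333) (B (L (nat_lit 301) ln13_9_4 ln13_9_4_ok) (L (nat_lit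 462) ln13_10_4 ln13_10_4_ok))) (M (nat_lit 431) (B (L (nat_lit 395) ln11_12_0 ln11_12_0_ok) (L (nat_lit 432) ln16_13_3 ln16_13_3_ok))))))) (B (M (nat_lit 398) (B (M (nat_lit 363) (B (L (nat_lit 362) ln10_11_0 ln10_11_0_ok) (L (nat_lit 399) ln15_12_3 ln15_12_3_ok))) (B (M (nat_lit 399) (B (L (nat_lit 363) ln15_12_3 ln15_12_3_ok) (L (nat_lit 400) ln16_12_3 ln16_12_3_ok))) (B (M (nat_lit 399) (B (L (nat_lit 400) ln16_12_3 ln16_12_3_ok) (M (nat_lit 395) (B (M (nat_lit 367) (B (L (nat_lit 366) ln15_11_1 ln15_11_1_ok) (L (nat_lit 368) ln12_12_2 ln12_12_2_ok))) (M (nat_lit 431) (B (L (nat_lit 430) ln11_12_0 ln11_12_0_ok) (L (nat_lit 432) ln12_12_0 ln12_12_0_ok))))))) (M (nat_lit 366) (B (M (nat_lit 367) (B (L (nat_lit 395) ln15_11_1 ln15_11_1_ok) (L (nat_lit 368) ln16_11_1 ln16_11_1_ok))) (M (nat_lit 363) (B (L (nat_lit 362) ln10_11_0 ln10_11_0_ok) (M (nat_lit 334) (B (L (nat_lit 302) ln14_9_5 ln14_9_5_ok)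 (L (nat_lit 335) ln11_11_2 ln11_11_2_ok))))))))))) (B (M (nat_lit 430) (B (M (nat_lit 333) (B (L (nat_lit 462) ln13_10_4 ln13_10_4_ok) (M (nat_lit 301) (B (L (nat_lit 269) ln13_8_5 ln13_8_5_ok) (L (nat_lit 428) ln13_9_5 ln13_9_5_ok))))) (B (M (nat_lit 333) (B (L (nat_lit 462) ln13_10_4 ln13_10_4_ok) (M (nat_lit 301) (B (L (nat_lit 428) ln13_9_5 ln13_9_5_ok) (L (nat_lit 398) ln13_9_4 ln13_9_4_ok))))) (B (M (nat_lit 431) (B (L (nat_lit 432) ln16_13_3 ln16_13_3_ok) (M (nat_lit 395) (B (L (nat_lit 398) ln11_12_0 ln11_12_0_ok) (L (nat_lit 428) ln15_13_3 ln15_13_3_ok))))) (M (nat_lit 333) (B (L (nat_lit 462) ln13_10_4 ln13_10_4_ok) (M (nat_lit 301) (B (L (nat_lit 269) ln13_8_5 ln13_8_5_ok) (L (nat_lit 398) ln13_9_4 ln13_9_4_ok))))))))) (M (nat_lit 333) (B (M (nat_lit 301) (B (L (nat_lit 269) ln13_8_5 ln13_8_5_ok) (L (nat_lit 428) ln13_9_5 ln13_9_5_ok))) (B (M (nat_lit 428) (B (L (nat_lit 301) ln13_9_5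 ln13_9_5_ok) (L (nat_lit 460) ln12_14_6 ln12_14_6_ok))) (M (nat_lit 334) (B (L (nat_lit 302) ln13_13_6 ln13_13_6_ok) (M (nat_lit 363) (B (L (nat_lit 362) ln10_11_2 ln10_11_2_ok) (M (nat_lit 335) (B (L (nat_lit 336) ln16_10_1 ln16_10_1_ok) (L (nat_lit 366) ln11_11_2 ln11_11_2_ok)))))))))))))) (B (M (nat_lit 428) (B (M (nat_lit 427) (B (M (nat_lit 332) (B (L (nat_lit 300) ln12_9_4 ln12_9_4_ok) (L (nat_lit 459) ln12_10_5 ln12_10_5_ok))) (M (nat_lit 398) (B (L (nat_lit 399) ln15_12_1 ln15_12_1_ok) (L (nat_lit 426) ln10_13_2 ln10_13_2_ok))))) (B (M (nat_lit 427) (B (M (nat_lit 398) (B (L (nat_lit 399) ln15_12_1 ln15_12_1_ok) (L (nat_lit 426) ln10_13_2 ln10_13_2_ok))) (M (nat_lit 459) (B (L (nat_lit 332) ln12_10_5 ln12_10_5_ok) (M (nat_lit 491) (B (L (nat_lit 395) ln11_15_6 ln11_15_6_ok) (L (nat_lit 523) ln11_16_6 ln11_16_6_ok))))))) (B (M (nat_lit 460) (B (M (nat_lit 365) (B (L (nat_lit 333) ln12_14_6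 ln12_14_6_ok) (L (nat_lit 492) ln12_15_6 ln12_15_6_ok))) (B (M (nat_lit 492) (B (L (nat_lit 365) ln12_15_6 ln12_15_6_ok) (L (nat_lit 524) ln12_16_6 ln12_16_6_ok))) (B (M (nat_lit 492) (B (L (nat_lit 524) ln12_16_6 ln12_16_6_ok) (M (nat_lit 491) (B (L (nat_lit 459) ln12_11_5 ln12_11_5_ok) (L (nat_lit 523) ln12_12_5 ln12_12_5_ok))))) (M (nat_lit 427) (B (M (nat_lit 398) (B (L (nat_lit 399) ln15_12_1 ln15_12_1_ok) (L (nat_lit 426) ln10_13_2 ln10_13_2_ok))) (M (nat_lit 459) (B (L (nat_lit 491) ln12_11_5 ln12_11_5_ok) (M (nat_lit 430) (B (L (nat_lit 458) ln14_13_1 ln14_13_1_ok) (L (nat_lit 431) ln15_13_1 ln15_13_1_ok))))))))))) (B (M (nat_lit 460) (B (M (nat_lit 365) (B (L (nat_lit 333) ln12_14_6 ln12_14_6_ok) (L (nat_lit 492) ln12_15_6 ln12_15_6_ok))) (B (M (nat_lit 492) (B (L (nat_lit 365) ln12_15_6 ln12_15_6_ok) (L (nat_lit 524) ln12_16_6 ln12_16_6_ok))) (B (M (nat_lit 492) (B (L (nat_lit 524) ln12_16_6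 ln12_16_6_ok) (M (nat_lit 491) (B (L (nat_lit 459) ln12_11_5 ln12_11_5_ok) (L (nat_lit 523) ln12_12_5 ln12_12_5_ok))))) (M (nat_lit 333) (B (L (nat_lit 365) ln12_14_6 ln12_14_6_ok) (M (nat_lit 332) (B (L (nat_lit 300) ln12_9_4 ln12_9_4_ok) (L (nat_lit 301) ln12_13_6 ln12_13_6_ok))))))))) (M (nat_lit 333) (B (M (nat_lit 332) (B (L (nat_lit 300) ln12_9_4 ln12_9_4_ok) (L (nat_lit 301) ln12_13_6 ln12_13_6_ok))) (B (M (nat_lit 301) (B (L (nat_lit 332) ln12_13_6 ln12_13_6_ok) (L (nat_lit 365) ln13_9_5 ln13_9_5_ok))) (M (nat_lit 430) (B (M (nat_lit 365) (B (L (nat_lit 460) ln12_14_6 ln12_14_6_ok) (L (nat_lit 462) ln13_10_4 ln13_10_4_ok))) (M (nat_lit 431) (B (L (nat_lit 395) ln15_13_3 ln15_13_3_ok) (L (nat_lit 432) ln16_13_3 ln16_13_3_ok))))))))))))) (B (M (nat_lit 428) (B (M (nat_lit 427) (B (M (nat_lit 332) (B (L (nat_lit 300) ln12_9_4 ln12_9_4_ok) (L (nat_lit 459) ln12_10_5 ln12_10_5_ok))) (M (nat_lit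 398) (B (L (nat_lit 399) ln15_12_1 ln15_12_1_ok) (L (nat_lit 426) ln10_13_2 ln10_13_2_ok))))) (B (M (nat_lit 427) (B (M (nat_lit 398) (B (L (nat_lit 399) ln15_12_1 ln15_12_1_ok) (L (nat_lit 426) ln10_13_2 ln10_13_2_ok))) (M (nat_lit 459) (B (L (nat_lit 332) ln12_10_5 ln12_10_5_ok) (M (nat_lit 491) (B (L (nat_lit 395) ln11_15_6 ln11_15_6_ok) (L (nat_lit 523) ln11_16_6 ln11_16_6_ok))))))) (B (M (nat_lit 398) (B (M (nat_lit 399) (B (L (nat_lit 363) ln15_12_3 ln15_12_3_ok) (L (nat_lit 427) ln15_12_1 ln15_12_1_ok))) (B (M (nat_lit 427) (B (L (nat_lit 399) ln15_12_1 ln15_12_1_ok) (L (nat_lit 426) ln10_13_2 ln10_13_2_ok))) (M (nat_lit 460) (B (M (nat_lit 492) (B (L (nat_lit 524) ln12_16_6 ln12_16_6_ok) (M (nat_lit 491) (B (L (nat_lit 459) ln12_11_5 ln12_11_5_ok) (L (nat_lit 523) ln12_12_5 ln12_12_5_ok))))) (M (nat_lit 363) (B (L (nat_lit 331) ln12_14_7 ln12_14_7_ok) (M (nat_lit 362) (B (L (nat_lit 361)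 ln9_11_0 ln9_11_0_ok) (L (nat_lit 395) ln14_12_3 ln14_12_3_ok)))))))))) (B (M (nat_lit 332) (B (L (nat_lit 300) ln12_9_4 ln12_9_4_ok) (M (nat_lit 460) (B (M (nat_lit 331) (B (L (nat_lit 299) ln12_13_7 ln12_13_7_ok) (L (nat_lit 363) ln12_14_7 ln12_14_7_ok))) (M (nat_lit 459) (B (L (nat_lit 427) ln12_10_5 ln12_10_5_ok) (L (nat_lit 491) ln12_11_5 ln12_11_5_ok))))))) (M (nat_lit 363) (B (M (nat_lit 460) (B (L (nat_lit 331) ln12_14_7 ln12_14_7_ok) (M (nat_lit 492) (B (L (nat_lit 395) ln12_15_7 ln12_15_7_ok) (L (nat_lit 524) ln12_16_6 ln12_16_6_ok))))) (B (M (nat_lit 362) (B (L (nat_lit 361) ln9_11_0 ln9_11_0_ok) (M (nat_lit 398) (B (L (nat_lit 395) ln14_12_3 ln14_12_3_ok) (L (nat_lit 399) ln15_12_3 ln15_12_3_ok))))) (M (nat_lit 331) (B (L (nat_lit 460) ln12_14_7 ln12_14_7_ok) (M (nat_lit 332) (B (L (nat_lit 299) ln12_13_7 ln12_13_7_ok) (L (nat_lit 300) ln12_9_4 ln12_9_4_ok))))))))))))) (B (M (nat_lit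 333) (B (M (nat_lit 332) (B (L (nat_lit 300) ln12_9_4 ln12_9_4_ok) (M (nat_lit 301) (B (L (nat_lit 428) ln12_13_6 ln12_13_6_ok) (M (nat_lit 269) (B (L (nat_lit 237) ln13_7_5 ln13_7_5_ok) (L (nat_lit 365) ln13_8_5 ln13_8_5_ok))))))) (B (M (nat_lit 428) (B (M (nat_lit 332) (B (L (nat_lit 300) ln12_9_4 ln12_9_4_ok) (L (nat_lit 301) ln12_13_6 ln12_13_6_ok))) (B (M (nat_lit 301) (B (L (nat_lit 332) ln12_13_6 ln12_13_6_ok) (L (nat_lit 365) ln13_9_5 ln13_9_5_ok))) (B (M (nat_lit 331) (B (M (nat_lit 332) (B (L (nat_lit 299) ln12_13_7 ln12_13_7_ok) (L (nat_lit 300) ln12_9_4 ln12_9_4_ok))) (M (nat_lit 460) (B (L (nat_lit 363) ln12_14_7 ln12_14_7_ok) (L (nat_lit 365) ln12_14_6 ln12_14_6_ok))))) (M (nat_lit 365) (B (L (nat_lit 301) ln13_9_5 ln13_9_5_ok) (L (nat_lit 460) ln12_14_6 ln12_14_6_ok))))))) (B (M (nat_lit 365) (B (M (nat_lit 301) (B (L (nat_lit 269) ln13_8_5 ln13_8_5_ok) (L (nat_lit 428) ln13_9_5 ln13_9_5_ok)))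 (B (M (nat_lit 428) (B (L (nat_lit 301) ln13_9_5 ln13_9_5_ok) (L (nat_lit 460) ln12_14_6 ln12_14_6_ok))) (M (nat_lit 334) (B (L (nat_lit 302) ln13_13_6 ln13_13_6_ok) (M (nat_lit 363) (B (L (nat_lit 362) ln10_11_2 ln10_11_2_ok) (M (nat_lit 335) (B (L (nat_lit 336) ln16_10_1 ln16_10_1_ok) (L (nat_lit 366) ln11_11_2 ln11_11_2_ok)))))))))) (B (M (nat_lit 332) (B (L (nat_lit 300) ln12_9_4 ln12_9_4_ok) (M (nat_lit 365) (B (M (nat_lit 334) (B (L (nat_lit 302) ln13_13_6 ln13_13_6_ok) (M (nat_lit 363) (B (L (nat_lit 335) ln15_10_1 ln15_10_1_ok) (L (nat_lit 362) ln10_11_2 ln10_11_2_ok))))) (M (nat_lit 331) (B (M (nat_lit 428) (B (L (nat_lit 299) ln12_13_7 ln12_13_7_ok) (L (nat_lit 460) ln12_14_6 ln12_14_6_ok))) (M (nat_lit 330) (B (L (nat_lit 329) ln9_10_0 ln9_10_0_ok) (L (nat_lit 366) ln10_10_0 ln10_10_0_ok))))))))) (B (M (nat_lit 332) (B (L (nat_lit 300) ln12_9_4 ln12_9_4_ok) (M (nat_lit 428) (B (L (nat_lit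 301) ln12_13_6 ln12_13_6_ok) (M (nat_lit 460) (B (M (nat_lit 331) (B (L (nat_lit 299) ln12_13_7 ln12_13_7_ok) (L (nat_lit 363) ln12_14_7 ln12_14_7_ok))) (M (nat_lit 459) (B (L (nat_lit 427) ln12_10_5 ln12_10_5_ok) (L (nat_lit 491) ln12_11_5 ln12_11_5_ok))))))))) (M (nat_lit 365) (B (M (nat_lit 301) (B (L (nat_lit 269) ln13_8_5 ln13_8_5_ok) (M (nat_lit 302) (B (L (nat_lit 270) ln13_12_6 ln13_12_6_ok) (L (nat_lit 334) ln13_13_6 ln13_13_6_ok))))) (B (M (nat_lit 301) (B (M (nat_lit 300) (B (L (nat_lit 268) ln13_12_7 ln13_12_7_ok) (L (nat_lit 332) ln13_13_7 ln13_13_7_ok))) (M (nat_lit 302) (B (L (nat_lit 270) ln13_12_6 ln13_12_6_ok) (L (nat_lit 334) ln13_13_6 ln13_13_6_ok))))) (B (M (nat_lit 300) (B (L (nat_lit 332) ln13_13_7 ln13_13_7_ok) (M (nat_lit 301) (B (L (nat_lit 268) ln13_12_7 ln13_12_7_ok) (L (nat_lit 269) ln13_8_5 ln13_8_5_ok))))) (M (nat_lit 332) (B (L (nat_lit 300) ln13_13_7 ln13_13_7_ok)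 (M (nat_lit 334) (B (L (nat_lit 302) ln13_13_6 ln13_13_6_ok) (M (nat_lit 363) (B (L (nat_lit 335) ln15_10_1 ln15_10_1_ok) (L (nat_lit 362) ln10_11_2 ln10_11_2_ok))))))))))))))))) (M (nat_lit 365) (B (M (nat_lit 398) (B (M (nat_lit 399) (B (L (nat_lit 363) ln15_12_3 ln15_12_3_ok) (L (nat_lit 400) ln16_12_3 ln16_12_3_ok))) (M (nat_lit 430) (B (M (nat_lit 333) (B (L (nat_lit 301) ln13_9_4 ln13_9_4_ok) (L (nat_lit 462) ln13_10_4 ln13_10_4_ok))) (M (nat_lit 431) (B (L (nat_lit 395) ln11_12_0 ln11_12_0_ok) (L (nat_lit 432) ln16_13_3 ln16_13_3_ok))))))) (B (M (nat_lit 398) (B (M (nat_lit 363) (B (L (nat_lit 362) ln10_11_0 ln10_11_0_ok) (L (nat_lit 399) ln15_12_3 ln15_12_3_ok))) (B (M (nat_lit 399) (B (L (nat_lit 363) ln15_12_3 ln15_12_3_ok) (L (nat_lit 400) ln16_12_3 ln16_12_3_ok))) (B (M (nat_lit 399) (B (L (nat_lit 400) ln16_12_3 ln16_12_3_ok) (M (nat_lit 395) (B (M (nat_lit 367) (B (L (nat_lit 366) ln15_11_1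 ln15_11_1_ok) (L (nat_lit 368) ln12_12_2 ln12_12_2_ok))) (M (nat_lit 431) (B (L (nat_lit 430) ln11_12_0 ln11_12_0_ok) (L (nat_lit 432) ln12_12_0 ln12_12_0_ok))))))) (M (nat_lit 366) (B (M (nat_lit 367) (B (L (nat_lit 395) ln15_11_1 ln15_11_1_ok) (L (nat_lit 368) ln16_11_1 ln16_11_1_ok))) (M (nat_lit 363) (B (L (nat_lit 362) ln10_11_0 ln10_11_0_ok) (M (nat_lit 334) (B (L (nat_lit 302) ln14_9_5 ln14_9_5_ok) (L (nat_lit 335) ln11_11_2 ln11_11_2_ok))))))))))) (B (M (nat_lit 367) (B (M (nat_lit 366) (B (L (nat_lit 395) ln15_11_1 ln15_11_1_ok) (L (nat_lit 368) ln16_11_1 ln16_11_1_ok))) (B (M (nat_lit 398) (B (M (nat_lit 399) (B (L (nat_lit 400) ln16_12_3 ln16_12_3_ok) (L (nat_lit 368) ln12_12_2 ln12_12_2_ok))) (M (nat_lit 430) (B (M (nat_lit 333) (B (L (nat_lit 301) ln13_9_4 ln13_9_4_ok) (L (nat_lit 462) ln13_10_4 ln13_10_4_ok))) (M (nat_lit 431) (B (L (nat_lit 395) ln11_12_0 ln11_12_0_ok) (L (nat_lit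 432) ln16_13_3 ln16_13_3_ok))))))) (B (M (nat_lit 366) (B (L (nat_lit 395) ln15_11_1 ln15_11_1_ok) (M (nat_lit 332) (B (L (nat_lit 300) ln12_9_4 ln12_9_4_ok) (L (nat_lit 331) ln15_11_3 ln15_11_3_ok))))) (M (nat_lit 366) (B (L (nat_lit 368) ln16_11_1 ln16_11_1_ok) (M (nat_lit 332) (B (L (nat_lit 300) ln12_9_4 ln12_9_4_ok) (L (nat_lit 331) ln15_11_3 ln15_11_3_ok))))))))) (M (nat_lit 333) (B (M (nat_lit 300) (B (L (nat_lit 332) ln13_13_7 ln13_13_7_ok) (M (nat_lit 301) (B (L (nat_lit 268) ln13_12_7 ln13_12_7_ok) (L (nat_lit 269) ln13_8_5 ln13_8_5_ok))))) (B (M (nat_lit 301) (B (L (nat_lit 269) ln13_8_5 ln13_8_5_ok) (M (nat_lit 302) (B (L (nat_lit 270) ln13_12_6 ln13_12_6_ok) (L (nat_lit 334) ln13_13_6 ln13_13_6_ok))))) (B (M (nat_lit 301) (B (M (nat_lit 300) (B (L (nat_lit 268) ln13_12_7 ln13_12_7_ok) (L (nat_lit 332) ln13_13_7 ln13_13_7_ok))) (M (nat_lit 302) (B (L (nat_lit 270) ln13_12_6 ln13_12_6_ok)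 (L (nat_lit 334) ln13_13_6 ln13_13_6_ok))))) (M (nat_lit 332) (B (L (nat_lit 300) ln13_13_7 ln13_13_7_ok) (M (nat_lit 334) (B (L (nat_lit 302) ln13_13_6 ln13_13_6_ok) (M (nat_lit 363) (B (L (nat_lit 335) ln15_10_1 ln15_10_1_ok) (L (nat_lit 362) ln10_11_2 ln10_11_2_ok)))))))))))))))))))))))) (nat_lit 1386334847544579281930502452632026696468783264124728123740719198963059283254184240648144927045128292788721448874933630659377233920) (nat_lit 82377571940747339690042771513817116327923304822271852831746426071100506060263122535538209787181345700801327187951383179496361002240419314139579172468111179776) (nat_lit 82377571940747339690042771513817116327923304822271852831746426071100506060263122535538209787181345700801327187951383179496361002240419314139579172468111179776) (by decide +kernel)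
noncomputable def c21_n6757 : Cert := (M (nat_lit 428) (B (M (nat_lit 460) (B (M (nat_lit 492) (B (L (nat_lit 365) ln12_15_6 ln12_15_6_ok) (L (nat_lit 524) ln12_16_6 ln12_16_6_ok))) (M (nat_lit 427) (B (M (nat_lit 459) (B (L (nat_lit 332) ln12_10_5 ln12_10_5_ok) (L (nat_lit 491) ln12_11_5 ln12_11_5_ok))) (M (nat_lit 426) (B (L (nat_lit 425) ln9_13_2 ln9_13_2_ok) (L (nat_lit 398) ln10_13_2 ln10_13_2_ok))))))) (B (M (nat_lit 460) (B (M (nat_lit 365) (B (L (nat_lit 333) ln12_14_6 ln12_14_6_ok) (L (nat_lit 492) ln12_15_6 ln12_15_6_ok))) (B (M (nat_lit 492) (B (L (nat_lit 365) ln12_15_6 ln12_15_6_ok) (L (nat_lit 524) ln12_16_6 ln12_16_6_ok))) (B (M (nat_lit 492) (B (L (nat_lit 524) ln12_16_6 ln12_16_6_ok) (M (nat_lit 491) (B (L (nat_lit 459) ln12_11_5 ln12_11_5_ok) (L (nat_lit 523) ln12_12_5 ln12_12_5_ok))))) (M (nat_lit 365) (B (L (nat_lit 333) ln12_14_6 ln12_14_6_ok) (M (nat_lit 363) (B (L (nat_lit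 331) ln12_14_7 ln12_14_7_ok) (M (nat_lit 398) (B (L (nat_lit 362) ln10_11_0 ln10_11_0_ok) (L (nat_lit 399) ln15_12_3 ln15_12_3_ok))))))))))) (B (M (nat_lit 427) (B (M (nat_lit 398) (B (L (nat_lit 399) ln15_12_1 ln15_12_1_ok) (L (nat_lit 426) ln10_13_2 ln10_13_2_ok))) (M (nat_lit 459) (B (L (nat_lit 332) ln12_10_5 ln12_10_5_ok) (M (nat_lit 491) (B (L (nat_lit 460) ln12_11_5 ln12_11_5_ok) (L (nat_lit 523) ln11_16_6 ln11_16_6_ok))))))) (B (M (nat_lit 460) (B (M (nat_lit 365) (B (L (nat_lit 333) ln12_14_6 ln12_14_6_ok) (L (nat_lit 492) ln12_15_6 ln12_15_6_ok))) (B (M (nat_lit 492) (B (L (nat_lit 365) ln12_15_6 ln12_15_6_ok) (L (nat_lit 524) ln12_16_6 ln12_16_6_ok))) (B (M (nat_lit 492) (B (L (nat_lit 524) ln12_16_6 ln12_16_6_ok) (M (nat_lit 491) (B (L (nat_lit 459) ln12_11_5 ln12_11_5_ok) (L (nat_lit 523) ln12_12_5 ln12_12_5_ok))))) (M (nat_lit 332) (B (M (nat_lit 331) (B (L (nat_lit 299) ln12_13_7 ln12_13_7_ok)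 (L (nat_lit 363) ln12_14_7 ln12_14_7_ok))) (M (nat_lit 333) (B (L (nat_lit 301) ln12_13_6 ln12_13_6_ok) (L (nat_lit 365) ln12_14_6 ln12_14_6_ok))))))))) (B (M (nat_lit 365) (B (M (nat_lit 333) (B (L (nat_lit 301) ln13_9_5 ln13_9_5_ok) (L (nat_lit 460) ln12_14_6 ln12_14_6_ok))) (B (M (nat_lit 460) (B (L (nat_lit 333) ln12_14_6 ln12_14_6_ok) (L (nat_lit 492) ln12_15_6 ln12_15_6_ok))) (B (M (nat_lit 363) (B (M (nat_lit 460) (B (L (nat_lit 331) ln12_14_7 ln12_14_7_ok) (L (nat_lit 492) ln12_15_6 ln12_15_6_ok))) (M (nat_lit 398) (B (L (nat_lit 362) ln10_11_0 ln10_11_0_ok) (L (nat_lit 399) ln15_12_3 ln15_12_3_ok))))) (M (nat_lit 399) (B (M (nat_lit 398) (B (L (nat_lit 363) ln15_12_3 ln15_12_3_ok) (L (nat_lit 400) ln16_12_3 ln16_12_3_ok))) (B (M (nat_lit 398) (B (L (nat_lit 400) ln16_12_3 ln16_12_3_ok) (L (nat_lit 427) ln15_12_1 ln15_12_1_ok))) (B (M (nat_lit 430) (B (M (nat_lit 333) (B (L (nat_lit 301)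 ln13_9_5 ln13_9_5_ok) (L (nat_lit 462) ln13_10_4 ln13_10_4_ok))) (M (nat_lit 431) (B (L (nat_lit 432) ln16_13_3 ln16_13_3_ok) (L (nat_lit 400) ln12_13_2 ln12_13_2_ok))))) (M (nat_lit 398) (B (L (nat_lit 363) ln15_12_3 ln15_12_3_ok) (L (nat_lit 427) ln15_12_1 ln15_12_1_ok))))))))))) (M (nat_lit 427) (B (M (nat_lit 398) (B (L (nat_lit 399) ln15_12_1 ln15_12_1_ok) (L (nat_lit 426) ln10_13_2 ln10_13_2_ok))) (B (M (nat_lit 458) (B (M (nat_lit 426) (B (L (nat_lit 425) ln9_13_2 ln9_13_2_ok) (L (nat_lit 457) ln13_13_1 ln13_13_1_ok))) (M (nat_lit 459) (B (L (nat_lit 332) ln12_10_5 ln12_10_5_ok) (L (nat_lit 430) ln14_13_1 ln14_13_1_ok))))) (M (nat_lit 399) (B (L (nat_lit 398) ln15_12_1 ln15_12_1_ok) (M (nat_lit 430) (B (M (nat_lit 431) (B (L (nat_lit 432) ln16_13_3 ln16_13_3_ok) (L (nat_lit 400) ln12_13_2 ln12_13_2_ok))) (M (nat_lit 459) (B (L (nat_lit 332) ln12_10_5 ln12_10_5_ok) (L (nat_lit 458) ln14_13_1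 ln14_13_1_ok))))))))))))))))
theorem c21_s6863 : Sem (nat_lit 1386334847544579281968079133956408028115014953673357516178730119745592401185500896192660271446962027884140632849089929907888193536) (nat_lit 19180023110632103351766394376511915165824879109096522494604769952676968439122524689080087481101551626012155551601488844828103709350275466534043254784) (nat_lit 19180023110632103351766394376511915165824879109096522494604769952676968439122524689080087481101551626012155551601488844828103709350275466534043254784) :=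
  sem_of_chk (M (nat_lit 365) (B (M (nat_lit 333) (B (M (nat_lit 301) (B (L (nat_lit 269) ln13_8_5 ln13_8_5_ok) (L (nat_lit 428) ln13_9_5 ln13_9_5_ok))) (B (M (nat_lit 428) (B (L (nat_lit 301) ln13_9_5 ln13_9_5_ok) (L (nat_lit 460) ln12_14_6 ln12_14_6_ok))) (M (nat_lit 334) (B (L (nat_lit 302) ln13_13_6 ln13_13_6_ok) (M (nat_lit 363) (B (L (nat_lit 362) ln10_11_2 ln10_11_2_ok) (M (nat_lit 335) (B (L (nat_lit 336) ln16_10_1 ln16_10_1_ok) (L (nat_lit 366) ln11_11_2 ln11_11_2_ok)))))))))) (B (M (nat_lit 428) (B (M (nat_lit 333) (B (L (nat_lit 301) ln13_9_5 ln13_9_5_ok) (L (nat_lit 460) ln12_14_6 ln12_14_6_ok))) (B (M (nat_lit 460) (B (L (nat_lit 333) ln12_14_6 ln12_14_6_ok) (L (nat_lit 492) ln12_15_6 ln12_15_6_ok))) (B (M (nat_lit 363) (B (M (nat_lit 460) (B (L (nat_lit 331) ln12_14_7 ln12_14_7_ok) (L (nat_lit 492) ln12_15_6 ln12_15_6_ok))) (M (nat_lit 398) (B (L (nat_lit 362) ln10_11_0 ln10_11_0_ok)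 (L (nat_lit 399) ln15_12_3 ln15_12_3_ok))))) (M (nat_lit 399) (B (M (nat_lit 398) (B (L (nat_lit 363) ln15_12_3 ln15_12_3_ok) (L (nat_lit 400) ln16_12_3 ln16_12_3_ok))) (B (M (nat_lit 398) (B (L (nat_lit 400) ln16_12_3 ln16_12_3_ok) (L (nat_lit 427) ln15_12_1 ln15_12_1_ok))) (B (M (nat_lit 430) (B (M (nat_lit 333) (B (L (nat_lit 301) ln13_9_5 ln13_9_5_ok) (L (nat_lit 462) ln13_10_4 ln13_10_4_ok))) (M (nat_lit 431) (B (L (nat_lit 432) ln16_13_3 ln16_13_3_ok) (L (nat_lit 400) ln12_13_2 ln12_13_2_ok))))) (M (nat_lit 398) (B (L (nat_lit 363) ln15_12_3 ln15_12_3_ok) (L (nat_lit 427) ln15_12_1 ln15_12_1_ok))))))))))) (B (M (nat_lit 363) (B (M (nat_lit 362) (B (L (nat_lit 361) ln9_11_0 ln9_11_0_ok) (L (nat_lit 398) ln10_11_0 ln10_11_0_ok))) (B (M (nat_lit 398) (B (L (nat_lit 362) ln10_11_0 ln10_11_0_ok) (L (nat_lit 399) ln15_12_3 ln15_12_3_ok))) (B (M (nat_lit 366) (B (M (nat_lit 398) (B (L (nat_lit 399)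 ln11_11_0 ln11_11_0_ok) (M (nat_lit 334) (B (L (nat_lit 302) ln14_9_5 ln14_9_5_ok) (L (nat_lit 335) ln11_11_2 ln11_11_2_ok))))) (B (M (nat_lit 399) (B (L (nat_lit 398) ln11_11_0 ln11_11_0_ok) (M (nat_lit 367) (B (L (nat_lit 400) ln12_11_0 ln12_11_0_ok) (L (nat_lit 368) ln16_11_1 ln16_11_1_ok))))) (M (nat_lit 334) (B (L (nat_lit 335) ln11_11_2 ln11_11_2_ok) (M (nat_lit 302) (B (L (nat_lit 270) ln14_8_5 ln14_8_5_ok) (L (nat_lit 333) ln13_13_6 ln13_13_6_ok)))))))) (M (nat_lit 362) (B (L (nat_lit 361) ln9_11_0 ln9_11_0_ok) (M (nat_lit 366) (B (M (nat_lit 330) (B (L (nat_lit 329) ln13_11_3 ln13_11_3_ok) (L (nat_lit 331) ln14_11_3 ln14_11_3_ok))) (M (nat_lit 334) (B (L (nat_lit 333) ln10_11_2 ln10_11_2_ok) (L (nat_lit 335) ln11_11_2 ln11_11_2_ok))))))))))) (B (M (nat_lit 363) (B (M (nat_lit 362) (B (L (nat_lit 361) ln9_11_0 ln9_11_0_ok) (L (nat_lit 398) ln10_11_0 ln10_11_0_ok))) (B (M (nat_lit 398) (B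 (L (nat_lit 362) ln10_11_0 ln10_11_0_ok) (L (nat_lit 399) ln15_12_3 ln15_12_3_ok))) (B (M (nat_lit 366) (B (M (nat_lit 367) (B (L (nat_lit 368) ln16_11_1 ln16_11_1_ok) (M (nat_lit 335) (B (L (nat_lit 334) ln11_11_2 ln11_11_2_ok) (L (nat_lit 336) ln12_11_2 ln12_11_2_ok))))) (B (M (nat_lit 399) (B (L (nat_lit 398) ln11_11_0 ln11_11_0_ok) (M (nat_lit 367) (B (L (nat_lit 400) ln12_11_0 ln12_11_0_ok) (L (nat_lit 368) ln16_11_1 ln16_11_1_ok))))) (M (nat_lit 398) (B (L (nat_lit 399) ln11_11_0 ln11_11_0_ok) (M (nat_lit 334) (B (L (nat_lit 302) ln14_9_5 ln14_9_5_ok) (L (nat_lit 335) ln11_11_2 ln11_11_2_ok)))))))) (M (nat_lit 366) (B (M (nat_lit 367) (B (L (nat_lit 368) ln16_11_1 ln16_11_1_ok) (M (nat_lit 335) (B (L (nat_lit 334) ln11_11_2 ln11_11_2_ok) (L (nat_lit 336) ln12_11_2 ln12_11_2_ok))))) (M (nat_lit 330) (B (L (nat_lit 331) ln14_11_3 ln14_11_3_ok) (M (nat_lit 362) (B (L (nat_lit 329) ln13_11_3 ln13_11_3_ok)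 (L (nat_lit 361) ln9_11_0 ln9_11_0_ok))))))))))) (B (M (nat_lit 428) (B (M (nat_lit 333) (B (L (nat_lit 301) ln13_9_5 ln13_9_5_ok) (L (nat_lit 460) ln12_14_6 ln12_14_6_ok))) (B (M (nat_lit 460) (B (L (nat_lit 333) ln12_14_6 ln12_14_6_ok) (L (nat_lit 492) ln12_15_6 ln12_15_6_ok))) (B (M (nat_lit 460) (B (L (nat_lit 492) ln12_15_6 ln12_15_6_ok) (M (nat_lit 427) (B (M (nat_lit 398) (B (L (nat_lit 399) ln15_12_1 ln15_12_1_ok) (L (nat_lit 426) ln10_13_2 ln10_13_2_ok))) (M (nat_lit 459) (B (L (nat_lit 491) ln12_11_5 ln12_11_5_ok) (M (nat_lit 430) (B (L (nat_lit 458) ln14_13_1 ln14_13_1_ok) (L (nat_lit 431) ln15_13_1 ln15_13_1_ok))))))))) (M (nat_lit 399) (B (M (nat_lit 398) (B (L (nat_lit 363) ln15_12_3 ln15_12_3_ok) (L (nat_lit 400) ln16_12_3 ln16_12_3_ok))) (B (M (nat_lit 398) (B (L (nat_lit 400) ln16_12_3 ln16_12_3_ok) (L (nat_lit 427) ln15_12_1 ln15_12_1_ok))) (B (M (nat_lit 430) (B (M (nat_lit 333)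 (B (L (nat_lit 301) ln13_9_5 ln13_9_5_ok) (L (nat_lit 462) ln13_10_4 ln13_10_4_ok))) (M (nat_lit 431) (B (L (nat_lit 432) ln16_13_3 ln16_13_3_ok) (L (nat_lit 400) ln12_13_2 ln12_13_2_ok))))) (M (nat_lit 398) (B (L (nat_lit 363) ln15_12_3 ln15_12_3_ok) (L (nat_lit 427) ln15_12_1 ln15_12_1_ok))))))))))) (M (nat_lit 428) (B (M (nat_lit 333) (B (L (nat_lit 301) ln13_9_5 ln13_9_5_ok) (L (nat_lit 460) ln12_14_6 ln12_14_6_ok))) (B (M (nat_lit 460) (B (L (nat_lit 333) ln12_14_6 ln12_14_6_ok) (L (nat_lit 492) ln12_15_6 ln12_15_6_ok))) (B (M (nat_lit 460) (B (L (nat_lit 492) ln12_15_6 ln12_15_6_ok) (M (nat_lit 459) (B (L (nat_lit 491) ln12_11_5 ln12_11_5_ok) (M (nat_lit 430) (B (L (nat_lit 431) ln15_13_1 ln15_13_1_ok) (M (nat_lit 458) (B (L (nat_lit 427) ln14_13_1 ln14_13_1_ok) (L (nat_lit 457) ln9_14_2 ln9_14_2_ok))))))))) (M (nat_lit 427) (B (M (nat_lit 398) (B (L (nat_lit 399) ln15_12_1 ln15_12_1_ok) (L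 (nat_lit 426) ln10_13_2 ln10_13_2_ok))) (B (M (nat_lit 430) (B (M (nat_lit 333) (B (L (nat_lit 301) ln13_9_5 ln13_9_5_ok) (L (nat_lit 462) ln13_10_4 ln13_10_4_ok))) (M (nat_lit 426) (B (L (nat_lit 425) ln9_13_2 ln9_13_2_ok) (M (nat_lit 458) (B (L (nat_lit 457) ln13_13_1 ln13_13_1_ok) (L (nat_lit 459) ln14_13_1 ln14_13_1_ok))))))) (M (nat_lit 399) (B (L (nat_lit 398) ln15_12_1 ln15_12_1_ok) (M (nat_lit 430) (B (M (nat_lit 333) (B (L (nat_lit 301) ln13_9_5 ln13_9_5_ok) (L (nat_lit 462) ln13_10_4 ln13_10_4_ok))) (M (nat_lit 431) (B (L (nat_lit 432) ln16_13_3 ln16_13_3_ok) (L (nat_lit 400) ln12_13_2 ln12_13_2_ok)))))))))))))))))))) (nat_lit 1386334847544579281968079133956408028115014953673357516178730119745592401185500896192660271446962027884140632849089929907888193536) (nat_lit 19180023110632103351766394376511915165824879109096522494604769952676968439122524689080087481101551626012155551601488844828103709350275466534043254784)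 (nat_lit 19180023110632103351766394376511915165824879109096522494604769952676968439122524689080087481101551626012155551601488844828103709350275466534043254784) (by decide +kernel)
theorem c21_s7192 : Sem (nat_lit 1386334847544579281968079133965157031014147001370847525087200605207005078909073745938363353872601839880938136541983982615980408832) (nat_lit 11908525700449268711091281451128002923434775847948444100411359924230874664991468087234660694393806591298916828353921790529342708647431503872) (nat_lit 11908525700449268711091281451128002923434775847948444100411359924230874664991468087234660694393806591298916828353921790529342708647431503872) :=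
  sem_of_chk (M (nat_lit 334) (B (M (nat_lit 365) (B (M (nat_lit 333) (B (L (nat_lit 302) ln13_13_6 ln13_13_6_ok) (M (nat_lit 335) (B (L (nat_lit 363) ln15_10_1 ln15_10_1_ok) (L (nat_lit 336) ln16_10_1 ln16_10_1_ok))))) (B (M (nat_lit 363) (B (M (nat_lit 333) (B (L (nat_lit 335) ln15_10_1 ln15_10_1_ok) (L (nat_lit 362) ln10_11_2 ln10_11_2_ok))) (B (M (nat_lit 398) (B (L (nat_lit 362) ln10_11_0 ln10_11_0_ok) (L (nat_lit 399) ln15_12_3 ln15_12_3_ok))) (M (nat_lit 335) (B (L (nat_lit 333) ln15_10_1 ln15_10_1_ok) (L (nat_lit 366) ln11_11_2 ln11_11_2_ok)))))) (M (nat_lit 366) (B (M (nat_lit 302) (B (L (nat_lit 270) ln14_8_5 ln14_8_5_ok) (L (nat_lit 398) ln14_9_5 ln14_9_5_ok))) (M (nat_lit 367) (B (L (nat_lit 331) ln15_11_3 ln15_11_3_ok) (L (nat_lit 368) ln16_11_1 ln16_11_1_ok)))))))) (B (M (nat_lit 363) (B (M (nat_lit 333) (B (L (nat_lit 335) ln15_10_1 ln15_10_1_ok) (M (nat_lit 362) (B (L (nat_lit 331)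 ln14_10_1 ln14_10_1_ok) (L (nat_lit 361) ln9_11_2 ln9_11_2_ok))))) (B (M (nat_lit 333) (B (L (nat_lit 335) ln15_10_1 ln15_10_1_ok) (M (nat_lit 362) (B (L (nat_lit 361) ln9_11_2 ln9_11_2_ok) (L (nat_lit 365) ln10_11_2 ln10_11_2_ok))))) (B (M (nat_lit 398) (B (L (nat_lit 399) ln15_12_3 ln15_12_3_ok) (M (nat_lit 362) (B (L (nat_lit 361) ln9_11_0 ln9_11_0_ok) (L (nat_lit 365) ln10_11_0 ln10_11_0_ok))))) (B (M (nat_lit 333) (B (L (nat_lit 335) ln15_10_1 ln15_10_1_ok) (M (nat_lit 362) (B (L (nat_lit 331) ln14_10_1 ln14_10_1_ok) (L (nat_lit 365) ln10_11_2 ln10_11_2_ok))))) (M (nat_lit 302) (B (M (nat_lit 333) (B (L (nat_lit 365) ln13_13_6 ln13_13_6_ok) (L (nat_lit 335) ln15_10_1 ln15_10_1_ok))) (M (nat_lit 398) (B (L (nat_lit 366) ln14_9_5 ln14_9_5_ok) (L (nat_lit 399) ln15_12_3 ln15_12_3_ok)))))))))) (B (M (nat_lit 363) (B (M (nat_lit 333) (B (L (nat_lit 335) ln15_10_1 ln15_10_1_ok) (M (nat_lit 362) (B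 (L (nat_lit 331) ln14_10_1 ln14_10_1_ok) (L (nat_lit 365) ln10_11_2 ln10_11_2_ok))))) (B (M (nat_lit 333) (B (L (nat_lit 335) ln15_10_1 ln15_10_1_ok) (M (nat_lit 362) (B (L (nat_lit 361) ln9_11_2 ln9_11_2_ok) (L (nat_lit 365) ln10_11_2 ln10_11_2_ok))))) (B (M (nat_lit 398) (B (L (nat_lit 399) ln15_12_3 ln15_12_3_ok) (M (nat_lit 362) (B (L (nat_lit 361) ln9_11_0 ln9_11_0_ok) (L (nat_lit 365) ln10_11_0 ln10_11_0_ok))))) (B (M (nat_lit 333) (B (L (nat_lit 335) ln15_10_1 ln15_10_1_ok) (M (nat_lit 365) (B (M (nat_lit 398) (B (L (nat_lit 399) ln15_12_3 ln15_12_3_ok) (M (nat_lit 301) (B (L (nat_lit 269) ln13_8_5 ln13_8_5_ok) (L (nat_lit 430) ln13_9_4 ln13_9_4_ok))))) (M (nat_lit 331) (B (M (nat_lit 299) (B (L (nat_lit 267) ln11_8_4 ln11_8_4_ok) (L (nat_lit 298) ln14_10_3 ln14_10_3_ok))) (M (nat_lit 330) (B (L (nat_lit 329) ln9_10_0 ln9_10_0_ok) (L (nat_lit 366) ln10_10_0 ln10_10_0_ok))))))))) (M (nat_lit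 333) (B (L (nat_lit 335) ln15_10_1 ln15_10_1_ok) (M (nat_lit 362) (B (L (nat_lit 331) ln14_10_1 ln14_10_1_ok) (L (nat_lit 361) ln9_11_2 ln9_11_2_ok)))))))))) (B (M (nat_lit 333) (B (M (nat_lit 363) (B (L (nat_lit 335) ln15_10_1 ln15_10_1_ok) (M (nat_lit 362) (B (L (nat_lit 361) ln9_11_2 ln9_11_2_ok) (L (nat_lit 365) ln10_11_2 ln10_11_2_ok))))) (B (M (nat_lit 365) (B (L (nat_lit 302) ln13_13_6 ln13_13_6_ok) (M (nat_lit 430) (B (L (nat_lit 462) ln13_10_4 ln13_10_4_ok) (M (nat_lit 301) (B (L (nat_lit 269) ln13_8_5 ln13_8_5_ok) (L (nat_lit 398) ln13_9_4 ln13_9_4_ok))))))) (M (nat_lit 335) (B (L (nat_lit 363) ln15_10_1 ln15_10_1_ok) (M (nat_lit 336) (B (M (nat_lit 304) (B (L (nat_lit 303) ln12_10_2 ln12_10_2_ok) (L (nat_lit 305) ln13_10_2 ln13_10_2_ok))) (M (nat_lit 368) (B (L (nat_lit 367) ln12_10_0 ln12_10_0_ok) (L (nat_lit 369) ln13_10_0 ln13_10_0_ok)))))))))) (B (M (nat_lit 398) (B (M (nat_lit 363)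 (B (L (nat_lit 399) ln15_12_3 ln15_12_3_ok) (M (nat_lit 362) (B (L (nat_lit 361) ln9_11_0 ln9_11_0_ok) (L (nat_lit 365) ln10_11_0 ln10_11_0_ok))))) (B (M (nat_lit 363) (B (L (nat_lit 399) ln15_12_3 ln15_12_3_ok) (M (nat_lit 365) (B (L (nat_lit 362) ln10_11_0 ln10_11_0_ok) (M (nat_lit 366) (B (L (nat_lit 302) ln14_9_5 ln14_9_5_ok) (L (nat_lit 335) ln11_11_2 ln11_11_2_ok))))))) (B (M (nat_lit 399) (B (L (nat_lit 363) ln15_12_3 ln15_12_3_ok) (M (nat_lit 400) (B (L (nat_lit 365) ln16_12_3 ln16_12_3_ok) (M (nat_lit 368) (B (L (nat_lit 367) ln12_12_2 ln12_12_2_ok) (L (nat_lit 369) ln13_12_2 ln13_12_2_ok))))))) (B (M (nat_lit 366) (B (L (nat_lit 302) ln14_9_5 ln14_9_5_ok) (M (nat_lit 367) (B (M (nat_lit 365) (B (L (nat_lit 331) ln15_11_3 ln15_11_3_ok) (L (nat_lit 368) ln16_11_1 ln16_11_1_ok))) (B (M (nat_lit 368) (B (L (nat_lit 365) ln16_11_1 ln16_11_1_ok) (L (nat_lit 369) ln17_11_1 ln17_11_1_ok))) (B (M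 (nat_lit 368) (B (L (nat_lit 369) ln17_11_1 ln17_11_1_ok) (L (nat_lit 399) ln12_12_2 ln12_12_2_ok))) (M (nat_lit 335) (B (M (nat_lit 365) (B (L (nat_lit 331) ln15_11_3 ln15_11_3_ok) (L (nat_lit 336) ln12_11_2 ln12_11_2_ok))) (M (nat_lit 430) (B (L (nat_lit 303) ln14_13_6 ln14_13_6_ok) (L (nat_lit 462) ln14_14_6 ln14_14_6_ok))))))))))) (B (M (nat_lit 399) (B (L (nat_lit 363) ln15_12_3 ln15_12_3_ok) (M (nat_lit 431) (B (L (nat_lit 432) ln12_12_0 ln12_12_0_ok) (M (nat_lit 302) (B (L (nat_lit 366) ln14_9_5 ln14_9_5_ok) (M (nat_lit 367) (B (L (nat_lit 335) ln15_13_7 ln15_13_7_ok) (L (nat_lit 368) ln12_12_2 ln12_12_2_ok))))))))) (M (nat_lit 366) (B (L (nat_lit 302) ln14_9_5 ln14_9_5_ok) (M (nat_lit 365) (B (M (nat_lit 363) (B (L (nat_lit 335) ln11_11_2 ln11_11_2_ok) (L (nat_lit 362) ln10_11_0 ln10_11_0_ok))) (M (nat_lit 367) (B (L (nat_lit 331) ln15_11_3 ln15_11_3_ok) (L (nat_lit 368) ln16_11_1 ln16_11_1_ok)))))))))))))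 (B (M (nat_lit 333) (B (M (nat_lit 365) (B (L (nat_lit 302) ln13_13_6 ln13_13_6_ok) (M (nat_lit 430) (B (L (nat_lit 462) ln13_10_4 ln13_10_4_ok) (M (nat_lit 301) (B (L (nat_lit 269) ln13_8_5 ln13_8_5_ok) (L (nat_lit 398) ln13_9_4 ln13_9_4_ok))))))) (B (M (nat_lit 302) (B (L (nat_lit 365) ln13_13_6 ln13_13_6_ok) (M (nat_lit 331) (B (L (nat_lit 303) ln11_10_2 ln11_10_2_ok) (M (nat_lit 366) (B (L (nat_lit 398) ln14_9_5 ln14_9_5_ok) (L (nat_lit 367) ln11_10_0 ln11_10_0_ok))))))) (B (M (nat_lit 331) (B (M (nat_lit 363) (B (L (nat_lit 362) ln14_10_1 ln14_10_1_ok) (M (nat_lit 299) (B (L (nat_lit 267) ln11_8_4 ln11_8_4_ok) (L (nat_lit 298) ln14_10_3 ln14_10_3_ok))))) (B (M (nat_lit 330) (B (M (nat_lit 362) (B (L (nat_lit 361) ln13_10_1 ln13_10_1_ok) (L (nat_lit 363) ln14_10_1 ln14_10_1_ok))) (M (nat_lit 366) (B (L (nat_lit 365) ln10_10_0 ln10_10_0_ok) (L (nat_lit 367) ln11_10_0 ln11_10_0_ok))))) (M (nat_lit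 330) (B (M (nat_lit 298) (B (L (nat_lit 297) ln13_10_3 ln13_10_3_ok) (L (nat_lit 299) ln14_10_3 ln14_10_3_ok))) (M (nat_lit 366) (B (L (nat_lit 365) ln10_10_0 ln10_10_0_ok) (L (nat_lit 367) ln11_10_0 ln11_10_0_ok)))))))) (M (nat_lit 331) (B (M (nat_lit 363) (B (L (nat_lit 362) ln14_10_1 ln14_10_1_ok) (M (nat_lit 299) (B (L (nat_lit 267) ln11_8_4 ln11_8_4_ok) (L (nat_lit 298) ln14_10_3 ln14_10_3_ok))))) (M (nat_lit 302) (B (L (nat_lit 303) ln11_10_2 ln11_10_2_ok) (M (nat_lit 366) (B (L (nat_lit 398) ln14_9_5 ln14_9_5_ok) (L (nat_lit 367) ln11_10_0 ln11_10_0_ok))))))))))) (B (M (nat_lit 333) (B (M (nat_lit 335) (B (L (nat_lit 363) ln15_10_1 ln15_10_1_ok) (M (nat_lit 365) (B (L (nat_lit 302) ln13_13_6 ln13_13_6_ok) (L (nat_lit 336) ln16_10_1 ln16_10_1_ok))))) (B (M (nat_lit 335) (B (L (nat_lit 363) ln15_10_1 ln15_10_1_ok) (M (nat_lit 336) (B (L (nat_lit 365) ln16_10_1 ln16_10_1_ok) (M (nat_lit 304)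 (B (L (nat_lit 303) ln12_10_2 ln12_10_2_ok) (L (nat_lit 305) ln13_10_2 ln13_10_2_ok))))))) (B (M (nat_lit 302) (B (L (nat_lit 365) ln13_13_6 ln13_13_6_ok) (M (nat_lit 331) (B (L (nat_lit 303) ln11_10_2 ln11_10_2_ok) (M (nat_lit 366) (B (L (nat_lit 398) ln14_9_5 ln14_9_5_ok) (L (nat_lit 367) ln11_10_0 ln11_10_0_ok))))))) (M (nat_lit 335) (B (L (nat_lit 363) ln15_10_1 ln15_10_1_ok) (M (nat_lit 336) (B (M (nat_lit 304) (B (L (nat_lit 303) ln12_10_2 ln12_10_2_ok) (L (nat_lit 305) ln13_10_2 ln13_10_2_ok))) (M (nat_lit 368) (B (L (nat_lit 367) ln12_10_0 ln12_10_0_ok) (L (nat_lit 369) ln13_10_0 ln13_10_0_ok))))))))))) (B (M (nat_lit 365) (B (M (nat_lit 302) (B (L (nat_lit 333) ln13_13_6 ln13_13_6_ok) (M (nat_lit 366) (B (L (nat_lit 270) ln14_8_5 ln14_8_5_ok) (L (nat_lit 398) ln14_9_5 ln14_9_5_ok))))) (B (M (nat_lit 366) (B (M (nat_lit 302) (B (L (nat_lit 333) ln13_13_6 ln13_13_6_ok) (L (nat_lit 398) ln14_9_5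 ln14_9_5_ok))) (M (nat_lit 367) (B (L (nat_lit 331) ln15_11_3 ln15_11_3_ok) (L (nat_lit 368) ln16_11_1 ln16_11_1_ok))))) (B (M (nat_lit 333) (B (M (nat_lit 430) (B (L (nat_lit 462) ln13_10_4 ln13_10_4_ok) (M (nat_lit 301) (B (L (nat_lit 269) ln13_8_5 ln13_8_5_ok) (L (nat_lit 398) ln13_9_4 ln13_9_4_ok))))) (M (nat_lit 331) (B (M (nat_lit 330) (B (L (nat_lit 329) ln9_10_0 ln9_10_0_ok) (L (nat_lit 366) ln10_10_0 ln10_10_0_ok))) (B (M (nat_lit 366) (B (L (nat_lit 330) ln10_10_0 ln10_10_0_ok) (L (nat_lit 367) ln11_10_0 ln11_10_0_ok))) (B (M (nat_lit 367) (B (L (nat_lit 366) ln11_10_0 ln11_10_0_ok) (M (nat_lit 335) (B (L (nat_lit 368) ln12_10_0 ln12_10_0_ok) (L (nat_lit 336) ln16_10_1 ln16_10_1_ok))))) (M (nat_lit 298) (B (L (nat_lit 299) ln14_10_3 ln14_10_3_ok) (M (nat_lit 330) (B (L (nat_lit 297) ln13_10_3 ln13_10_3_ok) (L (nat_lit 329) ln9_10_0 ln9_10_0_ok))))))))))) (B (M (nat_lit 366) (B (M (nat_lit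 302) (B (L (nat_lit 270) ln14_8_5 ln14_8_5_ok) (L (nat_lit 398) ln14_9_5 ln14_9_5_ok))) (M (nat_lit 367) (B (L (nat_lit 331) ln15_11_3 ln15_11_3_ok) (L (nat_lit 368) ln16_11_1 ln16_11_1_ok))))) (B (M (nat_lit 333) (B (L (nat_lit 302) ln13_13_6 ln13_13_6_ok) (M (nat_lit 430) (B (L (nat_lit 462) ln13_10_4 ln13_10_4_ok) (M (nat_lit 301) (B (L (nat_lit 269) ln13_8_5 ln13_8_5_ok) (L (nat_lit 398) ln13_9_4 ln13_9_4_ok))))))) (M (nat_lit 366) (B (M (nat_lit 302) (B (L (nat_lit 270) ln14_8_5 ln14_8_5_ok) (L (nat_lit 333) ln13_13_6 ln13_13_6_ok))) (M (nat_lit 367) (B (L (nat_lit 331) ln15_11_3 ln15_11_3_ok) (L (nat_lit 368) ln16_11_1 ln16_11_1_ok))))))))))) (B (M (nat_lit 398) (B (M (nat_lit 363) (B (L (nat_lit 399) ln15_12_3 ln15_12_3_ok) (M (nat_lit 362) (B (L (nat_lit 361) ln9_11_0 ln9_11_0_ok) (M (nat_lit 333) (B (L (nat_lit 331) ln14_10_1 ln14_10_1_ok) (L (nat_lit 335) ln15_10_1 ln15_10_1_ok))))))) (B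 (M (nat_lit 399) (B (L (nat_lit 363) ln15_12_3 ln15_12_3_ok) (M (nat_lit 431) (B (L (nat_lit 432) ln12_12_0 ln12_12_0_ok) (M (nat_lit 302) (B (L (nat_lit 366) ln14_9_5 ln14_9_5_ok) (M (nat_lit 367) (B (L (nat_lit 335) ln15_13_7 ln15_13_7_ok) (L (nat_lit 368) ln12_12_2 ln12_12_2_ok))))))))) (B (M (nat_lit 399) (B (L (nat_lit 363) ln15_12_3 ln15_12_3_ok) (M (nat_lit 432) (B (L (nat_lit 431) ln12_12_0 ln12_12_0_ok) (M (nat_lit 368) (B (L (nat_lit 367) ln12_12_2 ln12_12_2_ok) (M (nat_lit 400) (B (L (nat_lit 369) ln13_12_2 ln13_12_2_ok) (L (nat_lit 433) ln13_12_0 ln13_12_0_ok))))))))) (B (M (nat_lit 366) (B (L (nat_lit 302) ln14_9_5 ln14_9_5_ok) (M (nat_lit 367) (B (M (nat_lit 368) (B (L (nat_lit 369) ln17_11_1 ln17_11_1_ok) (L (nat_lit 399) ln12_12_2 ln12_12_2_ok))) (M (nat_lit 430) (B (M (nat_lit 333) (B (L (nat_lit 301) ln14_13_7 ln14_13_7_ok) (L (nat_lit 331) ln11_10_0 ln11_10_0_ok))) (M (nat_lit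 335) (B (L (nat_lit 303) ln14_13_6 ln14_13_6_ok) (L (nat_lit 462) ln14_14_6 ln14_14_6_ok))))))))) (M (nat_lit 333) (B (M (nat_lit 363) (B (L (nat_lit 335) ln15_10_1 ln15_10_1_ok) (M (nat_lit 362) (B (L (nat_lit 331) ln14_10_1 ln14_10_1_ok) (L (nat_lit 361) ln9_11_2 ln9_11_2_ok))))) (B (M (nat_lit 335) (B (L (nat_lit 363) ln15_10_1 ln15_10_1_ok) (M (nat_lit 336) (B (M (nat_lit 304) (B (L (nat_lit 303) ln12_10_2 ln12_10_2_ok) (L (nat_lit 305) ln13_10_2 ln13_10_2_ok))) (M (nat_lit 368) (B (L (nat_lit 367) ln12_10_0 ln12_10_0_ok) (L (nat_lit 369) ln13_10_0 ln13_10_0_ok))))))) (M (nat_lit 302) (B (L (nat_lit 366) ln14_9_5 ln14_9_5_ok) (M (nat_lit 303) (B (L (nat_lit 331) ln11_10_2 ln11_10_2_ok) (M (nat_lit 304) (B (L (nat_lit 301) ln16_9_1 ln16_9_1_ok) (L (nat_lit 305) ln17_9_1 ln17_9_1_ok))))))))))))))) (M (nat_lit 333) (B (M (nat_lit 363) (B (L (nat_lit 335) ln15_10_1 ln15_10_1_ok) (M (nat_lit 362)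 (B (L (nat_lit 331) ln14_10_1 ln14_10_1_ok) (L (nat_lit 361) ln9_11_2 ln9_11_2_ok))))) (B (M (nat_lit 363) (B (L (nat_lit 335) ln15_10_1 ln15_10_1_ok) (M (nat_lit 362) (B (L (nat_lit 361) ln9_11_2 ln9_11_2_ok) (L (nat_lit 365) ln10_11_2 ln10_11_2_ok))))) (M (nat_lit 331) (B (M (nat_lit 302) (B (L (nat_lit 303) ln11_10_2 ln11_10_2_ok) (L (nat_lit 365) ln13_13_6 ln13_13_6_ok))) (B (M (nat_lit 330) (B (M (nat_lit 298) (B (L (nat_lit 297) ln13_10_3 ln13_10_3_ok) (L (nat_lit 299) ln14_10_3 ln14_10_3_ok))) (M (nat_lit 366) (B (L (nat_lit 365) ln10_10_0 ln10_10_0_ok) (L (nat_lit 367) ln11_10_0 ln11_10_0_ok))))) (M (nat_lit 330) (B (M (nat_lit 298) (B (L (nat_lit 297) ln13_10_3 ln13_10_3_ok) (L (nat_lit 299) ln14_10_3 ln14_10_3_ok))) (M (nat_lit 302) (B (L (nat_lit 301) ln10_10_2 ln10_10_2_ok) (L (nat_lit 303) ln11_10_2 ln11_10_2_ok))))))))))))))))))))) (nat_lit 1386334847544579281968079133965157031014147001370847525087200605207005078909073745938363353872601839880938136541983982615980408832)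 (nat_lit 11908525700449268711091281451128002923434775847948444100411359924230874664991468087234660694393806591298916828353921790529342708647431503872) (nat_lit 11908525700449268711091281451128002923434775847948444100411359924230874664991468087234660694393806591298916828353921790529342708647431503872) (by decide +kernel)
theorem c21_s7194 : Sem (nat_lit 1386334847544579281930502452632026696468783264124728123740719198963059283254184240648144927045128292788721448874933630659377233920) (nat_lit 82377571940747339690414912962924470536711657645411887978688086579665456016388703434158968258140893353933881941533697095857574719881306942752392038707042975744) (nat_lit 82377571940747339690414912962924470536711657645411887978688086579665456016388703434158968258140893353933881941533697095857574719881306942752392038707042975744) :=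
  sem_of_chk (M (nat_lit 364) (B (M (nat_lit 332) (B (L (nat_lit 300) ln12_9_4 ln12_9_4_ok) (M (nat_lit 428) (B (M (nat_lit 427) (B (L (nat_lit 459) ln12_10_5 ln12_10_5_ok) (M (nat_lit 398) (B (L (nat_lit 399) ln15_12_1 ln15_12_1_ok) (L (nat_lit 426) ln10_13_2 ln10_13_2_ok))))) (M (nat_lit 460) (B (M (nat_lit 331) (B (L (nat_lit 299) ln12_13_7 ln12_13_7_ok) (L (nat_lit 363) ln12_14_7 ln12_14_7_ok))) (M (nat_lit 492) (B (L (nat_lit 365) ln12_15_6 ln12_15_6_ok) (L (nat_lit 524) ln12_16_6 ln12_16_6_ok))))))))) (B (M (nat_lit 428) (B (M (nat_lit 427) (B (M (nat_lit 332) (B (L (nat_lit 300) ln12_9_4 ln12_9_4_ok) (L (nat_lit 459) ln12_10_5 ln12_10_5_ok))) (M (nat_lit 398) (B (L (nat_lit 399) ln15_12_1 ln15_12_1_ok) (L (nat_lit 426) ln10_13_2 ln10_13_2_ok))))) (B (M (nat_lit 427) (B (M (nat_lit 398) (B (L (nat_lit 399) ln15_12_1 ln15_12_1_ok) (L (nat_lit 426) ln10_13_2 ln10_13_2_ok))) (M (nat_lit 460) (B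 (M (nat_lit 459) (B (L (nat_lit 332) ln12_10_5 ln12_10_5_ok) (L (nat_lit 491) ln12_11_5 ln12_11_5_ok))) (M (nat_lit 365) (B (L (nat_lit 333) ln12_14_6 ln12_14_6_ok) (L (nat_lit 492) ln12_15_6 ln12_15_6_ok))))))) (B (M (nat_lit 460) (B (M (nat_lit 365) (B (L (nat_lit 333) ln12_14_6 ln12_14_6_ok) (L (nat_lit 492) ln12_15_6 ln12_15_6_ok))) (B (M (nat_lit 492) (B (L (nat_lit 365) ln12_15_6 ln12_15_6_ok) (L (nat_lit 524) ln12_16_6 ln12_16_6_ok))) (B (M (nat_lit 492) (B (L (nat_lit 524) ln12_16_6 ln12_16_6_ok) (M (nat_lit 491) (B (L (nat_lit 459) ln12_11_5 ln12_11_5_ok) (L (nat_lit 523) ln12_12_5 ln12_12_5_ok))))) (M (nat_lit 365) (B (L (nat_lit 333) ln12_14_6 ln12_14_6_ok) (M (nat_lit 363) (B (L (nat_lit 331) ln12_14_7 ln12_14_7_ok) (M (nat_lit 398) (B (L (nat_lit 362) ln10_11_0 ln10_11_0_ok) (L (nat_lit 399) ln15_12_3 ln15_12_3_ok))))))))))) (B (M (nat_lit 460) (B (M (nat_lit 492) (B (L (nat_lit 365)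 ln12_15_6 ln12_15_6_ok) (L (nat_lit 524) ln12_16_6 ln12_16_6_ok))) (M (nat_lit 332) (B (L (nat_lit 300) ln12_9_4 ln12_9_4_ok) (M (nat_lit 459) (B (L (nat_lit 427) ln12_10_5 ln12_10_5_ok) (L (nat_lit 491) ln12_11_5 ln12_11_5_ok))))))) (M (nat_lit 365) (B (M (nat_lit 333) (B (L (nat_lit 301) ln13_9_5 ln13_9_5_ok) (L (nat_lit 460) ln12_14_6 ln12_14_6_ok))) (B (M (nat_lit 460) (B (L (nat_lit 333) ln12_14_6 ln12_14_6_ok) (L (nat_lit 492) ln12_15_6 ln12_15_6_ok))) (B (M (nat_lit 363) (B (M (nat_lit 460) (B (L (nat_lit 331) ln12_14_7 ln12_14_7_ok) (L (nat_lit 492) ln12_15_6 ln12_15_6_ok))) (M (nat_lit 398) (B (L (nat_lit 362) ln10_11_0 ln10_11_0_ok) (L (nat_lit 399) ln15_12_3 ln15_12_3_ok))))) (M (nat_lit 399) (B (M (nat_lit 398) (B (L (nat_lit 363) ln15_12_3 ln15_12_3_ok) (L (nat_lit 400) ln16_12_3 ln16_12_3_ok))) (B (M (nat_lit 398) (B (L (nat_lit 400) ln16_12_3 ln16_12_3_ok) (L (nat_lit 427) ln15_12_1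 ln15_12_1_ok))) (B (M (nat_lit 430) (B (M (nat_lit 333) (B (L (nat_lit 301) ln13_9_5 ln13_9_5_ok) (L (nat_lit 462) ln13_10_4 ln13_10_4_ok))) (M (nat_lit 431) (B (L (nat_lit 432) ln16_13_3 ln16_13_3_ok) (L (nat_lit 400) ln12_13_2 ln12_13_2_ok))))) (M (nat_lit 398) (B (L (nat_lit 363) ln15_12_3 ln15_12_3_ok) (L (nat_lit 427) ln15_12_1 ln15_12_1_ok)))))))))))))))) (B c21_n6757 (B (M (nat_lit 428) (B (M (nat_lit 427) (B (M (nat_lit 332) (B (L (nat_lit 300) ln12_9_4 ln12_9_4_ok) (L (nat_lit 459) ln12_10_5 ln12_10_5_ok))) (M (nat_lit 398) (B (L (nat_lit 399) ln15_12_1 ln15_12_1_ok) (L (nat_lit 426) ln10_13_2 ln10_13_2_ok))))) (B (M (nat_lit 460) (B (M (nat_lit 492) (B (L (nat_lit 365) ln12_15_6 ln12_15_6_ok) (L (nat_lit 524) ln12_16_6 ln12_16_6_ok))) (M (nat_lit 427) (B (M (nat_lit 459) (B (L (nat_lit 332) ln12_10_5 ln12_10_5_ok) (L (nat_lit 491) ln12_11_5 ln12_11_5_ok))) (M (nat_lit 398) (B (L (nat_lit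 399) ln15_12_1 ln15_12_1_ok) (L (nat_lit 426) ln10_13_2 ln10_13_2_ok))))))) (B (M (nat_lit 460) (B (M (nat_lit 365) (B (L (nat_lit 333) ln12_14_6 ln12_14_6_ok) (L (nat_lit 492) ln12_15_6 ln12_15_6_ok))) (B (M (nat_lit 492) (B (L (nat_lit 365) ln12_15_6 ln12_15_6_ok) (L (nat_lit 524) ln12_16_6 ln12_16_6_ok))) (B (M (nat_lit 492) (B (L (nat_lit 524) ln12_16_6 ln12_16_6_ok) (M (nat_lit 491) (B (L (nat_lit 459) ln12_11_5 ln12_11_5_ok) (L (nat_lit 523) ln12_12_5 ln12_12_5_ok))))) (M (nat_lit 427) (B (M (nat_lit 398) (B (L (nat_lit 399) ln15_12_1 ln15_12_1_ok) (L (nat_lit 426) ln10_13_2 ln10_13_2_ok))) (M (nat_lit 459) (B (L (nat_lit 491) ln12_11_5 ln12_11_5_ok) (M (nat_lit 430) (B (L (nat_lit 458) ln14_13_1 ln14_13_1_ok) (L (nat_lit 431) ln15_13_1 ln15_13_1_ok))))))))))) (B (M (nat_lit 460) (B (M (nat_lit 365) (B (L (nat_lit 333) ln12_14_6 ln12_14_6_ok) (L (nat_lit 492) ln12_15_6 ln12_15_6_ok))) (B (M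 (nat_lit 492) (B (L (nat_lit 365) ln12_15_6 ln12_15_6_ok) (L (nat_lit 524) ln12_16_6 ln12_16_6_ok))) (B (M (nat_lit 492) (B (L (nat_lit 524) ln12_16_6 ln12_16_6_ok) (M (nat_lit 491) (B (L (nat_lit 459) ln12_11_5 ln12_11_5_ok) (L (nat_lit 523) ln12_12_5 ln12_12_5_ok))))) (M (nat_lit 333) (B (L (nat_lit 365) ln12_14_6 ln12_14_6_ok) (M (nat_lit 332) (B (L (nat_lit 300) ln12_9_4 ln12_9_4_ok) (L (nat_lit 301) ln12_13_6 ln12_13_6_ok))))))))) (M (nat_lit 333) (B (M (nat_lit 332) (B (L (nat_lit 300) ln12_9_4 ln12_9_4_ok) (L (nat_lit 301) ln12_13_6 ln12_13_6_ok))) (B (M (nat_lit 301) (B (L (nat_lit 332) ln12_13_6 ln12_13_6_ok) (L (nat_lit 365) ln13_9_5 ln13_9_5_ok))) (M (nat_lit 399) (B (M (nat_lit 398) (B (L (nat_lit 363) ln15_12_3 ln15_12_3_ok) (L (nat_lit 427) ln15_12_1 ln15_12_1_ok))) (B (M (nat_lit 398) (B (L (nat_lit 427) ln15_12_1 ln15_12_1_ok) (L (nat_lit 400) ln16_12_1 ln16_12_1_ok))) (M (nat_lit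 430) (B (M (nat_lit 365) (B (L (nat_lit 460) ln12_14_6 ln12_14_6_ok) (L (nat_lit 462) ln13_10_4 ln13_10_4_ok))) (M (nat_lit 431) (B (L (nat_lit 432) ln16_13_3 ln16_13_3_ok) (L (nat_lit 400) ln12_13_2 ln12_13_2_ok)))))))))))))))) (B (K (nat_lit 1386334847544579281968079133956408028115014953673357516178730119745592401185500896192660271446962027884140632849089929907888193536) (nat_lit 19180023110632103351766394376511915165824879109096522494604769952676968439122524689080087481101551626012155551601488844828103709350275466534043254784) (nat_lit 19180023110632103351766394376511915165824879109096522494604769952676968439122524689080087481101551626012155551601488844828103709350275466534043254784) c21_s6863) (B (M (nat_lit 428) (B (M (nat_lit 427) (B (M (nat_lit 332) (B (L (nat_lit 300) ln12_9_4 ln12_9_4_ok) (L (nat_lit 459) ln12_10_5 ln12_10_5_ok))) (M (nat_lit 398) (B (L (nat_lit 399) ln15_12_1 ln15_12_1_ok)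 (L (nat_lit 426) ln10_13_2 ln10_13_2_ok))))) (B (M (nat_lit 460) (B (M (nat_lit 492) (B (L (nat_lit 365) ln12_15_6 ln12_15_6_ok) (L (nat_lit 524) ln12_16_6 ln12_16_6_ok))) (M (nat_lit 427) (B (M (nat_lit 459) (B (L (nat_lit 332) ln12_10_5 ln12_10_5_ok) (L (nat_lit 491) ln12_11_5 ln12_11_5_ok))) (M (nat_lit 426) (B (L (nat_lit 425) ln9_13_2 ln9_13_2_ok) (L (nat_lit 398) ln10_13_2 ln10_13_2_ok))))))) (B (M (nat_lit 460) (B (M (nat_lit 492) (B (L (nat_lit 365) ln12_15_6 ln12_15_6_ok) (L (nat_lit 524) ln12_16_6 ln12_16_6_ok))) (M (nat_lit 427) (B (M (nat_lit 398) (B (L (nat_lit 399) ln15_12_1 ln15_12_1_ok) (L (nat_lit 426) ln10_13_2 ln10_13_2_ok))) (M (nat_lit 459) (B (L (nat_lit 491) ln12_11_5 ln12_11_5_ok) (M (nat_lit 430) (B (L (nat_lit 458) ln14_13_1 ln14_13_1_ok) (L (nat_lit 431) ln15_13_1 ln15_13_1_ok))))))))) (B (M (nat_lit 460) (B (M (nat_lit 365) (B (L (nat_lit 333) ln12_14_6 ln12_14_6_ok) (L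 (nat_lit 492) ln12_15_6 ln12_15_6_ok))) (B (M (nat_lit 492) (B (L (nat_lit 365) ln12_15_6 ln12_15_6_ok) (L (nat_lit 524) ln12_16_6 ln12_16_6_ok))) (B (M (nat_lit 492) (B (L (nat_lit 524) ln12_16_6 ln12_16_6_ok) (M (nat_lit 491) (B (L (nat_lit 459) ln12_11_5 ln12_11_5_ok) (L (nat_lit 523) ln12_12_5 ln12_12_5_ok))))) (M (nat_lit 333) (B (L (nat_lit 365) ln12_14_6 ln12_14_6_ok) (M (nat_lit 332) (B (L (nat_lit 300) ln12_9_4 ln12_9_4_ok) (L (nat_lit 301) ln12_13_6 ln12_13_6_ok))))))))) (M (nat_lit 332) (B (L (nat_lit 300) ln12_9_4 ln12_9_4_ok) (M (nat_lit 333) (B (L (nat_lit 301) ln12_13_6 ln12_13_6_ok) (M (nat_lit 365) (B (L (nat_lit 460) ln12_14_6 ln12_14_6_ok) (M (nat_lit 331) (B (L (nat_lit 299) ln12_13_7 ln12_13_7_ok) (M (nat_lit 330) (B (L (nat_lit 329) ln9_10_0 ln9_10_0_ok) (L (nat_lit 366) ln10_10_0 ln10_10_0_ok)))))))))))))))) (B (M (nat_lit 428) (B (M (nat_lit 427) (B (M (nat_lit 332) (B (L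 (nat_lit 300) ln12_9_4 ln12_9_4_ok) (L (nat_lit 459) ln12_10_5 ln12_10_5_ok))) (M (nat_lit 398) (B (L (nat_lit 399) ln15_12_1 ln15_12_1_ok) (L (nat_lit 426) ln10_13_2 ln10_13_2_ok))))) (B (M (nat_lit 427) (B (M (nat_lit 398) (B (L (nat_lit 399) ln15_12_1 ln15_12_1_ok) (L (nat_lit 426) ln10_13_2 ln10_13_2_ok))) (M (nat_lit 459) (B (L (nat_lit 332) ln12_10_5 ln12_10_5_ok) (M (nat_lit 491) (B (L (nat_lit 460) ln12_11_5 ln12_11_5_ok) (L (nat_lit 523) ln11_16_6 ln11_16_6_ok))))))) (B (M (nat_lit 427) (B (M (nat_lit 398) (B (L (nat_lit 399) ln15_12_1 ln15_12_1_ok) (L (nat_lit 426) ln10_13_2 ln10_13_2_ok))) (B (M (nat_lit 459) (B (M (nat_lit 491) (B (L (nat_lit 460) ln12_11_5 ln12_11_5_ok) (L (nat_lit 523) ln11_16_6 ln11_16_6_ok))) (M (nat_lit 426) (B (L (nat_lit 425) ln9_13_2 ln9_13_2_ok) (M (nat_lit 458) (B (L (nat_lit 457) ln13_13_1 ln13_13_1_ok) (L (nat_lit 430) ln14_13_1 ln14_13_1_ok))))))) (M (nat_lit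 430) (B (M (nat_lit 399) (B (L (nat_lit 398) ln15_12_1 ln15_12_1_ok) (M (nat_lit 431) (B (L (nat_lit 432) ln16_13_3 ln16_13_3_ok) (L (nat_lit 400) ln12_13_2 ln12_13_2_ok))))) (M (nat_lit 459) (B (L (nat_lit 458) ln14_13_1 ln14_13_1_ok) (M (nat_lit 491) (B (L (nat_lit 460) ln12_11_5 ln12_11_5_ok) (L (nat_lit 523) ln11_16_6 ln11_16_6_ok)))))))))) (B (M (nat_lit 332) (B (L (nat_lit 300) ln12_9_4 ln12_9_4_ok) (M (nat_lit 460) (B (M (nat_lit 331) (B (L (nat_lit 299) ln12_13_7 ln12_13_7_ok) (L (nat_lit 363) ln12_14_7 ln12_14_7_ok))) (M (nat_lit 459) (B (L (nat_lit 427) ln12_10_5 ln12_10_5_ok) (L (nat_lit 491) ln12_11_5 ln12_11_5_ok))))))) (B (M (nat_lit 460) (B (M (nat_lit 492) (B (L (nat_lit 524) ln12_16_6 ln12_16_6_ok) (M (nat_lit 491) (B (L (nat_lit 459) ln12_11_5 ln12_11_5_ok) (L (nat_lit 523) ln12_12_5 ln12_12_5_ok))))) (M (nat_lit 331) (B (L (nat_lit 363) ln12_14_7 ln12_14_7_ok) (M (nat_lit 332)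 (B (L (nat_lit 299) ln12_13_7 ln12_13_7_ok) (L (nat_lit 300) ln12_9_4 ln12_9_4_ok))))))) (M (nat_lit 332) (B (L (nat_lit 300) ln12_9_4 ln12_9_4_ok) (M (nat_lit 331) (B (L (nat_lit 299) ln12_13_7 ln12_13_7_ok) (M (nat_lit 363) (B (L (nat_lit 460) ln12_14_7 ln12_14_7_ok) (M (nat_lit 333) (B (L (nat_lit 301) ln12_13_6 ln12_13_6_ok) (M (nat_lit 334) (B (L (nat_lit 362) ln14_10_1 ln14_10_1_ok) (L (nat_lit 335) ln15_10_1 ln15_10_1_ok))))))))))))))))) (B (M (nat_lit 333) (B (M (nat_lit 332) (B (L (nat_lit 300) ln12_9_4 ln12_9_4_ok) (M (nat_lit 301) (B (L (nat_lit 428) ln12_13_6 ln12_13_6_ok) (M (nat_lit 365) (B (L (nat_lit 269) ln13_8_5 ln13_8_5_ok) (M (nat_lit 302) (B (L (nat_lit 270) ln13_12_6 ln13_12_6_ok) (L (nat_lit 334) ln13_13_6 ln13_13_6_ok))))))))) (B (M (nat_lit 428) (B (M (nat_lit 332) (B (L (nat_lit 300) ln12_9_4 ln12_9_4_ok) (L (nat_lit 301) ln12_13_6 ln12_13_6_ok))) (B (M (nat_lit 301) (B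 (L (nat_lit 332) ln12_13_6 ln12_13_6_ok) (L (nat_lit 365) ln13_9_5 ln13_9_5_ok))) (B (M (nat_lit 331) (B (M (nat_lit 332) (B (L (nat_lit 299) ln12_13_7 ln12_13_7_ok) (L (nat_lit 300) ln12_9_4 ln12_9_4_ok))) (M (nat_lit 460) (B (L (nat_lit 363) ln12_14_7 ln12_14_7_ok) (L (nat_lit 365) ln12_14_6 ln12_14_6_ok))))) (M (nat_lit 365) (B (L (nat_lit 301) ln13_9_5 ln13_9_5_ok) (L (nat_lit 460) ln12_14_6 ln12_14_6_ok))))))) (B (M (nat_lit 365) (B (M (nat_lit 301) (B (L (nat_lit 269) ln13_8_5 ln13_8_5_ok) (L (nat_lit 428) ln13_9_5 ln13_9_5_ok))) (B (M (nat_lit 428) (B (L (nat_lit 301) ln13_9_5 ln13_9_5_ok) (L (nat_lit 460) ln12_14_6 ln12_14_6_ok))) (M (nat_lit 334) (B (L (nat_lit 302) ln13_13_6 ln13_13_6_ok) (M (nat_lit 363) (B (L (nat_lit 362) ln10_11_2 ln10_11_2_ok) (M (nat_lit 335) (B (L (nat_lit 336) ln16_10_1 ln16_10_1_ok) (L (nat_lit 366) ln11_11_2 ln11_11_2_ok)))))))))) (B (M (nat_lit 332) (B (L (nat_lit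 300) ln12_9_4 ln12_9_4_ok) (M (nat_lit 365) (B (M (nat_lit 334) (B (L (nat_lit 302) ln13_13_6 ln13_13_6_ok) (M (nat_lit 363) (B (L (nat_lit 335) ln15_10_1 ln15_10_1_ok) (L (nat_lit 362) ln10_11_2 ln10_11_2_ok))))) (M (nat_lit 331) (B (M (nat_lit 428) (B (L (nat_lit 299) ln12_13_7 ln12_13_7_ok) (L (nat_lit 460) ln12_14_6 ln12_14_6_ok))) (M (nat_lit 330) (B (L (nat_lit 329) ln9_10_0 ln9_10_0_ok) (L (nat_lit 366) ln10_10_0 ln10_10_0_ok))))))))) (B (M (nat_lit 332) (B (L (nat_lit 300) ln12_9_4 ln12_9_4_ok) (M (nat_lit 428) (B (L (nat_lit 301) ln12_13_6 ln12_13_6_ok) (M (nat_lit 460) (B (M (nat_lit 331) (B (L (nat_lit 299) ln12_13_7 ln12_13_7_ok) (L (nat_lit 363) ln12_14_7 ln12_14_7_ok))) (M (nat_lit 459) (B (L (nat_lit 427) ln12_10_5 ln12_10_5_ok) (L (nat_lit 491) ln12_11_5 ln12_11_5_ok))))))))) (M (nat_lit 365) (B (M (nat_lit 301) (B (L (nat_lit 269) ln13_8_5 ln13_8_5_ok) (M (nat_lit 302) (B (L (nat_lit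 270) ln13_12_6 ln13_12_6_ok) (L (nat_lit 334) ln13_13_6 ln13_13_6_ok))))) (B (M (nat_lit 301) (B (M (nat_lit 300) (B (L (nat_lit 268) ln13_12_7 ln13_12_7_ok) (L (nat_lit 332) ln13_13_7 ln13_13_7_ok))) (M (nat_lit 302) (B (L (nat_lit 270) ln13_12_6 ln13_12_6_ok) (L (nat_lit 334) ln13_13_6 ln13_13_6_ok))))) (B (M (nat_lit 300) (B (L (nat_lit 332) ln13_13_7 ln13_13_7_ok) (M (nat_lit 301) (B (L (nat_lit 268) ln13_12_7 ln13_12_7_ok) (L (nat_lit 269) ln13_8_5 ln13_8_5_ok))))) (M (nat_lit 332) (B (L (nat_lit 300) ln13_13_7 ln13_13_7_ok) (M (nat_lit 334) (B (L (nat_lit 302) ln13_13_6 ln13_13_6_ok) (M (nat_lit 335) (B (L (nat_lit 363) ln15_10_1 ln15_10_1_ok) (L (nat_lit 336) ln16_10_1 ln16_10_1_ok))))))))))))))))) (B (M (nat_lit 365) (B (M (nat_lit 333) (B (M (nat_lit 301) (B (L (nat_lit 269) ln13_8_5 ln13_8_5_ok) (L (nat_lit 428) ln13_9_5 ln13_9_5_ok))) (B (M (nat_lit 428) (B (L (nat_lit 301) ln13_9_5 ln13_9_5_ok)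 (L (nat_lit 460) ln12_14_6 ln12_14_6_ok))) (M (nat_lit 332) (B (L (nat_lit 300) ln13_13_7 ln13_13_7_ok) (M (nat_lit 334) (B (L (nat_lit 302) ln13_13_6 ln13_13_6_ok) (M (nat_lit 335) (B (L (nat_lit 363) ln15_10_1 ln15_10_1_ok) (L (nat_lit 336) ln16_10_1 ln16_10_1_ok)))))))))) (B (M (nat_lit 333) (B (M (nat_lit 428) (B (L (nat_lit 301) ln13_9_5 ln13_9_5_ok) (L (nat_lit 460) ln12_14_6 ln12_14_6_ok))) (M (nat_lit 332) (B (L (nat_lit 300) ln13_13_7 ln13_13_7_ok) (M (nat_lit 334) (B (L (nat_lit 302) ln13_13_6 ln13_13_6_ok) (M (nat_lit 335) (B (L (nat_lit 363) ln15_10_1 ln15_10_1_ok) (L (nat_lit 336) ln16_10_1 ln16_10_1_ok))))))))) (B (M (nat_lit 333) (B (M (nat_lit 301) (B (L (nat_lit 269) ln13_8_5 ln13_8_5_ok) (L (nat_lit 428) ln13_9_5 ln13_9_5_ok))) (B (M (nat_lit 428) (B (L (nat_lit 301) ln13_9_5 ln13_9_5_ok) (L (nat_lit 460) ln12_14_6 ln12_14_6_ok))) (M (nat_lit 334) (B (L (nat_lit 302) ln13_13_6 ln13_13_6_ok)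 (M (nat_lit 363) (B (L (nat_lit 362) ln10_11_2 ln10_11_2_ok) (M (nat_lit 335) (B (L (nat_lit 336) ln16_10_1 ln16_10_1_ok) (L (nat_lit 366) ln11_11_2 ln11_11_2_ok)))))))))) (B (M (nat_lit 332) (B (L (nat_lit 300) ln12_9_4 ln12_9_4_ok) (M (nat_lit 363) (B (M (nat_lit 398) (B (L (nat_lit 362) ln10_11_0 ln10_11_0_ok) (L (nat_lit 399) ln15_12_3 ln15_12_3_ok))) (M (nat_lit 331) (B (M (nat_lit 330) (B (L (nat_lit 329) ln9_10_0 ln9_10_0_ok) (L (nat_lit 366) ln14_11_3 ln14_11_3_ok))) (M (nat_lit 428) (B (L (nat_lit 299) ln12_13_7 ln12_13_7_ok) (L (nat_lit 460) ln12_14_7 ln12_14_7_ok))))))))) (B (M (nat_lit 333) (B (M (nat_lit 301) (B (L (nat_lit 269) ln13_8_5 ln13_8_5_ok) (L (nat_lit 428) ln13_9_5 ln13_9_5_ok))) (B (M (nat_lit 428) (B (L (nat_lit 301) ln13_9_5 ln13_9_5_ok) (L (nat_lit 460) ln12_14_6 ln12_14_6_ok))) (B (M (nat_lit 332) (B (L (nat_lit 300) ln13_13_7 ln13_13_7_ok) (M (nat_lit 331) (B (M (nat_lit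 428) (B (L (nat_lit 299) ln12_13_7 ln12_13_7_ok) (L (nat_lit 460) ln12_14_6 ln12_14_6_ok))) (M (nat_lit 330) (B (L (nat_lit 329) ln9_10_0 ln9_10_0_ok) (L (nat_lit 366) ln10_10_0 ln10_10_0_ok))))))) (M (nat_lit 301) (B (L (nat_lit 269) ln13_8_5 ln13_8_5_ok) (M (nat_lit 302) (B (L (nat_lit 270) ln13_12_6 ln13_12_6_ok) (L (nat_lit 334) ln13_13_6 ln13_13_6_ok))))))))) (M (nat_lit 332) (B (L (nat_lit 300) ln12_9_4 ln12_9_4_ok) (M (nat_lit 334) (B (M (nat_lit 333) (B (L (nat_lit 302) ln13_13_6 ln13_13_6_ok) (M (nat_lit 335) (B (L (nat_lit 363) ln15_10_1 ln15_10_1_ok) (L (nat_lit 336) ln16_10_1 ln16_10_1_ok))))) (B (M (nat_lit 363) (B (M (nat_lit 333) (B (L (nat_lit 335) ln15_10_1 ln15_10_1_ok) (L (nat_lit 362) ln10_11_2 ln10_11_2_ok))) (B (M (nat_lit 398) (B (L (nat_lit 362) ln10_11_0 ln10_11_0_ok) (L (nat_lit 399) ln15_12_3 ln15_12_3_ok))) (M (nat_lit 335) (B (L (nat_lit 333) ln15_10_1 ln15_10_1_ok) (L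 (nat_lit 366) ln11_11_2 ln11_11_2_ok)))))) (M (nat_lit 366) (B (M (nat_lit 302) (B (L (nat_lit 270) ln14_8_5 ln14_8_5_ok) (L (nat_lit 398) ln14_9_5 ln14_9_5_ok))) (M (nat_lit 367) (B (L (nat_lit 331) ln15_11_3 ln15_11_3_ok) (L (nat_lit 368) ln16_11_1 ln16_11_1_ok)))))))))))))))) (M (nat_lit 332) (B (L (nat_lit 300) ln12_9_4 ln12_9_4_ok) (K (nat_lit 1386334847544579281968079133965157031014147001370847525087200605207005078909073745938363353872601839880938136541983982615980408832) (nat_lit 11908525700449268711091281451128002923434775847948444100411359924230874664991468087234660694393806591298916828353921790529342708647431503872) (nat_lit 11908525700449268711091281451128002923434775847948444100411359924230874664991468087234660694393806591298916828353921790529342708647431503872) c21_s7192))))))))))))) (nat_lit 1386334847544579281930502452632026696468783264124728123740719198963059283254184240648144927045128292788721448874933630659377233920)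 (nat_lit 82377571940747339690414912962924470536711657645411887978688086579665456016388703434158968258140893353933881941533697095857574719881306942752392038707042975744) (nat_lit 82377571940747339690414912962924470536711657645411887978688086579665456016388703434158968258140893353933881941533697095857574719881306942752392038707042975744) (by decide +kernel)
noncomputable def c21_n7374 : Cert := (M (nat_lit 365) (B (M (nat_lit 333) (B (L (nat_lit 301) ln13_9_5 ln13_9_5_ok) (L (nat_lit 460) ln13_10_5 ln13_10_5_ok))) (B (M (nat_lit 460) (B (L (nat_lit 333) ln13_10_5 ln13_10_5_ok) (L (nat_lit 492) ln12_15_6 ln12_15_6_ok))) (B (M (nat_lit 364) (B (M (nat_lit 332) (B (L (nat_lit 300) ln12_9_4 ln12_9_4_ok) (M (nat_lit 460) (B (L (nat_lit 492) ln12_15_6 ln12_15_6_ok) (M (nat_lit 459) (B (L (nat_lit 427) ln12_10_5 ln12_10_5_ok) (L (nat_lit 491) ln12_11_5 ln12_11_5_ok))))))) (B (M (nat_lit 460) (B (L (nat_lit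 492) ln12_15_6 ln12_15_6_ok) (M (nat_lit 332) (B (M (nat_lit 331) (B (L (nat_lit 299) ln12_13_7 ln12_13_7_ok) (L (nat_lit 363) ln12_14_7 ln12_14_7_ok))) (M (nat_lit 459) (B (L (nat_lit 427) ln12_10_5 ln12_10_5_ok) (L (nat_lit 491) ln12_11_5 ln12_11_5_ok))))))) (B (M (nat_lit 363) (B (M (nat_lit 460) (B (L (nat_lit 331) ln12_14_7 ln12_14_7_ok) (L (nat_lit 492) ln12_15_6 ln12_15_6_ok))) (M (nat_lit 366) (B (M (nat_lit 395) (B (L (nat_lit 394) ln14_11_1 ln14_11_1_ok) (L (nat_lit 367) ln15_11_1 ln15_11_1_ok))) (B (M (nat_lit 394) (B (L (nat_lit 395) ln14_11_1 ln14_11_1_ok) (M (nat_lit 362) (B (L (nat_lit 361) ln9_11_0 ln9_11_0_ok) (L (nat_lit 393) ln13_11_1 ln13_11_1_ok))))) (B (M (nat_lit 367) (B (L (nat_lit 395) ln15_11_1 ln15_11_1_ok) (L (nat_lit 368) ln16_11_1 ln16_11_1_ok))) (M (nat_lit 335) (B (L (nat_lit 334) ln11_11_2 ln11_11_2_ok) (M (nat_lit 367) (B (L (nat_lit 336) ln12_11_2 ln12_11_2_ok)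 (L (nat_lit 368) ln16_11_1 ln16_11_1_ok))))))))))) (M (nat_lit 332) (B (L (nat_lit 300) ln12_9_4 ln12_9_4_ok) (M (nat_lit 331) (B (L (nat_lit 299) ln12_13_7 ln12_13_7_ok) (M (nat_lit 366) (B (L (nat_lit 367) ln15_11_3 ln15_11_3_ok) (M (nat_lit 330) (B (L (nat_lit 329) ln9_10_0 ln9_10_0_ok) (L (nat_lit 363) ln14_11_3 ln14_11_3_ok))))))))))))) (M (nat_lit 364) (B (M (nat_lit 333) (B (L (nat_lit 301) ln13_9_5 ln13_9_5_ok) (M (nat_lit 332) (B (L (nat_lit 300) ln13_13_7 ln13_13_7_ok) (M (nat_lit 331) (B (L (nat_lit 299) ln12_13_7 ln12_13_7_ok) (M (nat_lit 330) (B (L (nat_lit 329) ln9_10_0 ln9_10_0_ok) (L (nat_lit 366) ln10_10_0 ln10_10_0_ok))))))))) (B (M (nat_lit 333) (B (L (nat_lit 301) ln13_9_5 ln13_9_5_ok) (M (nat_lit 332) (B (L (nat_lit 300) ln13_13_7 ln13_13_7_ok) (M (nat_lit 334) (B (L (nat_lit 302) ln13_13_6 ln13_13_6_ok) (M (nat_lit 335) (B (L (nat_lit 363) ln15_10_1 ln15_10_1_ok) (L (nat_lit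 336) ln16_10_1 ln16_10_1_ok))))))))) (B (M (nat_lit 333) (B (L (nat_lit 301) ln13_9_5 ln13_9_5_ok) (M (nat_lit 334) (B (L (nat_lit 302) ln13_13_6 ln13_13_6_ok) (M (nat_lit 335) (B (L (nat_lit 336) ln16_10_1 ln16_10_1_ok) (M (nat_lit 363) (B (L (nat_lit 332) ln15_10_1 ln15_10_1_ok) (L (nat_lit 366) ln11_11_2 ln11_11_2_ok))))))))) (B (M (nat_lit 332) (B (L (nat_lit 300) ln12_9_4 ln12_9_4_ok) (M (nat_lit 331) (B (L (nat_lit 299) ln12_13_7 ln12_13_7_ok) (M (nat_lit 366) (B (L (nat_lit 367) ln15_11_3 ln15_11_3_ok) (M (nat_lit 330) (B (L (nat_lit 329) ln9_10_0 ln9_10_0_ok) (L (nat_lit 363) ln14_11_3 ln14_11_3_ok))))))))) (M (nat_lit 333) (B (L (nat_lit 301) ln13_9_5 ln13_9_5_ok) (M (nat_lit 334) (B (L (nat_lit 302) ln13_13_6 ln13_13_6_ok) (M (nat_lit 366) (B (M (nat_lit 335) (B (L (nat_lit 336) ln16_10_1 ln16_10_1_ok) (L (nat_lit 363) ln11_11_2 ln11_11_2_ok))) (M (nat_lit 367) (B (L (nat_lit 395) ln15_11_1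 ln15_11_1_ok) (L (nat_lit 368) ln16_11_1 ln16_11_1_ok))))))))))))))))))
noncomputable def c21_n7414 : Cert := (M (nat_lit 427) (B (M (nat_lit 426) (B (L (nat_lit 425) ln9_13_2 ln9_13_2_ok) (M (nat_lit 430) (B (M (nat_lit 394) (B (L (nat_lit 393) ln13_13_3 ln13_13_3_ok) (L (nat_lit 395) ln10_12_0 ln10_12_0_ok))) (M (nat_lit 458) (B (L (nat_lit 457) ln13_13_1 ln13_13_1_ok) (L (nat_lit 459) ln14_13_1 ln14_13_1_ok))))))) (B (M (nat_lit 426) (B (L (nat_lit 425) ln9_13_2 ln9_13_2_ok) (M (nat_lit 430) (B (M (nat_lit 395) (B (L (nat_lit 394) ln10_12_0 ln10_12_0_ok) (L (nat_lit 431) ln15_13_3 ln15_13_3_ok))) (M (nat_lit 458) (B (L (nat_lit 457) ln13_13_1 ln13_13_1_ok) (L (nat_lit 459) ln14_13_1 ln14_13_1_ok))))))) (B (M (nat_lit 426) (B (L (nat_lit 425) ln9_13_2 ln9_13_2_ok) (M (nat_lit 430) (B (M (nat_lit 431) (B (L (nat_lit 395) ln15_13_3 ln15_13_3_ok) (L (nat_lit 432) ln16_13_3 ln16_13_3_ok))) (M (nat_lit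 458) (B (L (nat_lit 457) ln13_13_1 ln13_13_1_ok) (L (nat_lit 459) ln14_13_1 ln14_13_1_ok))))))) (B (M (nat_lit 426) (B (L (nat_lit 425) ln9_13_2 ln9_13_2_ok) (M (nat_lit 394) (B (L (nat_lit 393) ln13_13_3 ln13_13_3_ok) (M (nat_lit 458) (B (L (nat_lit 457) ln13_13_1 ln13_13_1_ok) (M (nat_lit 459) (B (L (nat_lit 430) ln14_13_1 ln14_13_1_ok) (M (nat_lit 362) (B (L (nat_lit 330) ln10_10_4 ln10_10_4_ok) (L (nat_lit 491) ln10_11_4 ln10_11_4_ok))))))))))) (B (M (nat_lit 395) (B (M (nat_lit 394) (B (L (nat_lit 393) ln9_12_0 ln9_12_0_ok) (L (nat_lit 430) ln10_12_0 ln10_12_0_ok))) (B (M (nat_lit 430) (B (L (nat_lit 394) ln10_12_0 ln10_12_0_ok) (L (nat_lit 431) ln15_13_3 ln15_13_3_ok))) (B (M (nat_lit 459) (B (M (nat_lit 364) (B (L (nat_lit 332) ln12_10_5 ln12_10_5_ok) (L (nat_lit 491) ln11_15_6 ln11_15_6_ok))) (M (nat_lit 430) (B (L (nat_lit 431) ln15_13_3 ln15_13_3_ok) (L (nat_lit 458) ln14_13_1 ln14_13_1_ok)))))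 (M (nat_lit 394) (B (L (nat_lit 393) ln9_12_0 ln9_12_0_ok) (M (nat_lit 362) (B (L (nat_lit 361) ln13_12_3 ln13_12_3_ok) (M (nat_lit 459) (B (L (nat_lit 491) ln11_15_7 ln11_15_7_ok) (M (nat_lit 330) (B (L (nat_lit 298) ln10_9_4 ln10_9_4_ok) (L (nat_lit 363) ln11_14_7 ln11_14_7_ok))))))))))))) (B (M (nat_lit 395) (B (M (nat_lit 394) (B (L (nat_lit 393) ln9_12_0 ln9_12_0_ok) (M (nat_lit 362) (B (L (nat_lit 361) ln13_12_3 ln13_12_3_ok) (M (nat_lit 459) (B (L (nat_lit 491) ln11_15_7 ln11_15_7_ok) (M (nat_lit 330) (B (L (nat_lit 298) ln10_9_4 ln10_9_4_ok) (L (nat_lit 363) ln11_14_7 ln11_14_7_ok))))))))) (B (M (nat_lit 426) (B (L (nat_lit 425) ln9_13_2 ln9_13_2_ok) (M (nat_lit 394) (B (L (nat_lit 393) ln9_12_0 ln9_12_0_ok) (M (nat_lit 458) (B (L (nat_lit 457) ln13_13_1 ln13_13_1_ok) (M (nat_lit 363) (B (L (nat_lit 331) ln11_10_5 ln11_10_5_ok) (L (nat_lit 490) ln10_15_6 ln10_15_6_ok))))))))) (B (M (nat_lit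 394) (B (L (nat_lit 393) ln9_12_0 ln9_12_0_ok) (M (nat_lit 426) (B (L (nat_lit 425) ln13_12_1 ln13_12_1_ok) (M (nat_lit 362) (B (L (nat_lit 361) ln13_12_3 ln13_12_3_ok) (M (nat_lit 330) (B (L (nat_lit 298) ln10_9_4 ln10_9_4_ok) (L (nat_lit 459) ln10_10_4 ln10_10_4_ok))))))))) (M (nat_lit 364) (B (M (nat_lit 332) (B (L (nat_lit 300) ln12_9_5 ln12_9_5_ok) (L (nat_lit 459) ln12_10_5 ln12_10_5_ok))) (B (M (nat_lit 459) (B (L (nat_lit 332) ln12_10_5 ln12_10_5_ok) (L (nat_lit 491) ln11_15_6 ln11_15_6_ok))) (B (M (nat_lit 363) (B (M (nat_lit 459) (B (L (nat_lit 491) ln11_15_6 ln11_15_6_ok) (M (nat_lit 362) (B (L (nat_lit 330) ln11_14_7 ln11_14_7_ok) (L (nat_lit 361) ln9_11_0 ln9_11_0_ok))))) (M (nat_lit 331) (B (L (nat_lit 299) ln11_9_4 ln11_9_4_ok) (M (nat_lit 426) (B (L (nat_lit 458) ln11_10_5 ln11_10_5_ok) (L (nat_lit 425) ln9_13_2 ln9_13_2_ok))))))) (M (nat_lit 426) (B (L (nat_lit 425) ln9_13_2 ln9_13_2_ok)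 (M (nat_lit 331) (B (M (nat_lit 332) (B (L (nat_lit 299) ln12_13_7 ln12_13_7_ok) (L (nat_lit 300) ln12_9_5 ln12_9_5_ok))) (M (nat_lit 458) (B (L (nat_lit 363) ln11_10_5 ln11_10_5_ok) (L (nat_lit 457) ln13_13_1 ln13_13_1_ok))))))))))))))) (B (M (nat_lit 426) (B (L (nat_lit 425) ln9_13_2 ln9_13_2_ok) (M (nat_lit 394) (B (L (nat_lit 393) ln13_13_3 ln13_13_3_ok) (M (nat_lit 395) (B (L (nat_lit 430) ln10_12_0 ln10_12_0_ok) (M (nat_lit 362) (B (L (nat_lit 361) ln13_12_3 ln13_12_3_ok) (M (nat_lit 330) (B (L (nat_lit 298) ln10_9_4 ln10_9_4_ok) (L (nat_lit 459) ln10_10_4 ln10_10_4_ok))))))))))) (M (nat_lit 426) (B (L (nat_lit 425) ln9_13_2 ln9_13_2_ok) (M (nat_lit 394) (B (L (nat_lit 393) ln13_13_3 ln13_13_3_ok) (M (nat_lit 395) (B (L (nat_lit 430) ln10_12_0 ln10_12_0_ok) (M (nat_lit 458) (B (L (nat_lit 457) ln13_13_1 ln13_13_1_ok) (M (nat_lit 363) (B (L (nat_lit 331) ln11_10_5 ln11_10_5_ok) (L (nat_lit 490)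 ln10_15_6 ln10_15_6_ok)))))))))))))))))))
theorem c21_s7415 : Sem (nat_lit 1386334847544579281930502452632026696468783264124728123740719198963059283254184240648144927045128292788721448874933630659377233920) (nat_lit 82377571943944010194029963326818645247915499299787406692001034273072618262455565995475648192355029351113648355538592131720113301066596580934602218981187125248) (nat_lit 82377571943944010194029963326818645247915499299787406692001034273072618262455565995475648192355029351113648355538592131720113301066596580934602218981187125248) :=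
  sem_of_chk (M (nat_lit 428) (B (M (nat_lit 460) (B (M (nat_lit 365) (B (L (nat_lit 333) ln13_10_5 ln13_10_5_ok) (L (nat_lit 492) ln12_15_6 ln12_15_6_ok))) (B (M (nat_lit 492) (B (L (nat_lit 365) ln12_15_6 ln12_15_6_ok) (L (nat_lit 524) ln12_16_6 ln12_16_6_ok))) (B (M (nat_lit 395) (B (M (nat_lit 492) (B (L (nat_lit 363) ln12_15_7 ln12_15_7_ok) (L (nat_lit 524) ln12_16_6 ln12_16_6_ok))) (M (nat_lit 430) (B (L (nat_lit 394) ln10_12_0 ln10_12_0_ok) (L (nat_lit 431) ln15_13_3 ln15_13_3_ok))))) (M (nat_lit 364) (B (M (nat_lit 333) (B (L (nat_lit 365) ln12_14_6 ln12_14_6_ok) (M (nat_lit 332) (B (L (nat_lit 300) ln12_9_4 ln12_9_4_ok) (L (nat_lit 301) ln12_13_6 ln12_13_6_ok))))) (B (M (nat_lit 332) (B (M (nat_lit 331) (B (L (nat_lit 299) ln12_13_7 ln12_13_7_ok) (L (nat_lit 363) ln12_14_7 ln12_14_7_ok))) (M (nat_lit 333) (B (L (nat_lit 301) ln12_13_6 ln12_13_6_ok) (L (nat_lit 365) ln12_14_6 ln12_14_6_ok)))))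 (B (M (nat_lit 332) (B (L (nat_lit 300) ln12_9_4 ln12_9_4_ok) (M (nat_lit 459) (B (L (nat_lit 427) ln12_10_5 ln12_10_5_ok) (L (nat_lit 491) ln12_11_5 ln12_11_5_ok))))) (M (nat_lit 459) (B (L (nat_lit 491) ln12_11_5 ln12_11_5_ok) (M (nat_lit 430) (B (L (nat_lit 431) ln15_13_1 ln15_13_1_ok) (M (nat_lit 458) (B (L (nat_lit 427) ln14_13_1 ln14_13_1_ok) (L (nat_lit 457) ln9_14_2 ln9_14_2_ok))))))))))))))) (B (M (nat_lit 460) (B (M (nat_lit 365) (B (L (nat_lit 333) ln13_10_5 ln13_10_5_ok) (L (nat_lit 492) ln12_15_6 ln12_15_6_ok))) (B (M (nat_lit 492) (B (L (nat_lit 365) ln12_15_6 ln12_15_6_ok) (L (nat_lit 524) ln12_16_6 ln12_16_6_ok))) (B (M (nat_lit 395) (B (M (nat_lit 492) (B (L (nat_lit 363) ln12_15_7 ln12_15_7_ok) (L (nat_lit 524) ln12_16_6 ln12_16_6_ok))) (M (nat_lit 430) (B (L (nat_lit 394) ln10_12_0 ln10_12_0_ok) (L (nat_lit 431) ln15_13_3 ln15_13_3_ok))))) (M (nat_lit 364) (B (M (nat_lit 333) (B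 (L (nat_lit 365) ln12_14_6 ln12_14_6_ok) (M (nat_lit 332) (B (L (nat_lit 300) ln12_9_4 ln12_9_4_ok) (L (nat_lit 301) ln12_13_6 ln12_13_6_ok))))) (B (M (nat_lit 333) (B (L (nat_lit 365) ln12_14_6 ln12_14_6_ok) (M (nat_lit 332) (B (L (nat_lit 301) ln12_13_6 ln12_13_6_ok) (M (nat_lit 459) (B (L (nat_lit 427) ln12_10_5 ln12_10_5_ok) (L (nat_lit 491) ln12_11_5 ln12_11_5_ok))))))) (B (M (nat_lit 332) (B (L (nat_lit 300) ln12_9_4 ln12_9_4_ok) (M (nat_lit 459) (B (L (nat_lit 427) ln12_10_5 ln12_10_5_ok) (L (nat_lit 491) ln12_11_5 ln12_11_5_ok))))) (M (nat_lit 459) (B (L (nat_lit 491) ln12_11_5 ln12_11_5_ok) (M (nat_lit 430) (B (L (nat_lit 431) ln15_13_1 ln15_13_1_ok) (M (nat_lit 458) (B (L (nat_lit 427) ln14_13_1 ln14_13_1_ok) (L (nat_lit 457) ln9_14_2 ln9_14_2_ok))))))))))))))) (B (M (nat_lit 460) (B (M (nat_lit 365) (B (L (nat_lit 333) ln13_10_5 ln13_10_5_ok) (L (nat_lit 492) ln12_15_6 ln12_15_6_ok)))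 (B (M (nat_lit 492) (B (L (nat_lit 365) ln12_15_6 ln12_15_6_ok) (L (nat_lit 524) ln12_16_6 ln12_16_6_ok))) (B (M (nat_lit 395) (B (M (nat_lit 492) (B (L (nat_lit 363) ln12_15_7 ln12_15_7_ok) (L (nat_lit 524) ln12_16_6 ln12_16_6_ok))) (M (nat_lit 430) (B (L (nat_lit 394) ln10_12_0 ln10_12_0_ok) (L (nat_lit 431) ln15_13_3 ln15_13_3_ok))))) (M (nat_lit 364) (B (M (nat_lit 333) (B (L (nat_lit 365) ln12_14_6 ln12_14_6_ok) (M (nat_lit 332) (B (L (nat_lit 301) ln12_13_6 ln12_13_6_ok) (M (nat_lit 459) (B (L (nat_lit 427) ln12_10_5 ln12_10_5_ok) (L (nat_lit 491) ln12_11_5 ln12_11_5_ok))))))) (B (M (nat_lit 332) (B (M (nat_lit 331) (B (L (nat_lit 299) ln12_13_7 ln12_13_7_ok) (L (nat_lit 363) ln12_14_7 ln12_14_7_ok))) (M (nat_lit 459) (B (L (nat_lit 427) ln12_10_5 ln12_10_5_ok) (L (nat_lit 491) ln12_11_5 ln12_11_5_ok))))) (B (M (nat_lit 459) (B (L (nat_lit 491) ln12_11_5 ln12_11_5_ok) (M (nat_lit 430) (B (L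 (nat_lit 431) ln15_13_1 ln15_13_1_ok) (M (nat_lit 458) (B (L (nat_lit 427) ln14_13_1 ln14_13_1_ok) (L (nat_lit 457) ln9_14_2 ln9_14_2_ok))))))) (M (nat_lit 332) (B (M (nat_lit 331) (B (L (nat_lit 299) ln12_13_7 ln12_13_7_ok) (L (nat_lit 363) ln12_14_7 ln12_14_7_ok))) (M (nat_lit 333) (B (L (nat_lit 301) ln12_13_6 ln12_13_6_ok) (L (nat_lit 365) ln12_14_6 ln12_14_6_ok))))))))))))) (B (M (nat_lit 460) (B (M (nat_lit 365) (B (L (nat_lit 333) ln13_10_5 ln13_10_5_ok) (L (nat_lit 492) ln12_15_6 ln12_15_6_ok))) (B (M (nat_lit 492) (B (L (nat_lit 365) ln12_15_6 ln12_15_6_ok) (L (nat_lit 524) ln12_16_6 ln12_16_6_ok))) (B (M (nat_lit 395) (B (M (nat_lit 492) (B (L (nat_lit 363) ln12_15_7 ln12_15_7_ok) (L (nat_lit 524) ln12_16_6 ln12_16_6_ok))) (M (nat_lit 430) (B (L (nat_lit 394) ln10_12_0 ln10_12_0_ok) (L (nat_lit 431) ln15_13_3 ln15_13_3_ok))))) (M (nat_lit 364) (B (M (nat_lit 332) (B (L (nat_lit 300) ln12_9_4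 ln12_9_4_ok) (M (nat_lit 459) (B (L (nat_lit 427) ln12_10_5 ln12_10_5_ok) (L (nat_lit 491) ln12_11_5 ln12_11_5_ok))))) (B (M (nat_lit 459) (B (L (nat_lit 491) ln12_11_5 ln12_11_5_ok) (M (nat_lit 430) (B (L (nat_lit 431) ln15_13_1 ln15_13_1_ok) (M (nat_lit 458) (B (L (nat_lit 427) ln14_13_1 ln14_13_1_ok) (L (nat_lit 457) ln9_14_2 ln9_14_2_ok))))))) (M (nat_lit 331) (B (L (nat_lit 363) ln12_14_7 ln12_14_7_ok) (M (nat_lit 332) (B (L (nat_lit 299) ln12_13_7 ln12_13_7_ok) (L (nat_lit 300) ln12_9_4 ln12_9_4_ok)))))))))))) (B (M (nat_lit 460) (B (M (nat_lit 492) (B (L (nat_lit 365) ln12_15_6 ln12_15_6_ok) (L (nat_lit 524) ln12_16_6 ln12_16_6_ok))) (M (nat_lit 430) (B (M (nat_lit 395) (B (L (nat_lit 394) ln10_12_0 ln10_12_0_ok) (L (nat_lit 431) ln15_13_3 ln15_13_3_ok))) (B (M (nat_lit 431) (B (L (nat_lit 395) ln15_13_3 ln15_13_3_ok) (L (nat_lit 432) ln16_13_3 ln16_13_3_ok))) (B (M (nat_lit 431) (B (L (nat_lit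 432) ln16_13_3 ln16_13_3_ok) (L (nat_lit 459) ln15_13_1 ln15_13_1_ok))) (M (nat_lit 427) (B (M (nat_lit 394) (B (L (nat_lit 395) ln10_12_0 ln10_12_0_ok) (M (nat_lit 426) (B (L (nat_lit 393) ln13_13_3 ln13_13_3_ok) (L (nat_lit 425) ln9_13_2 ln9_13_2_ok))))) (M (nat_lit 459) (B (L (nat_lit 458) ln14_13_1 ln14_13_1_ok) (M (nat_lit 491) (B (L (nat_lit 364) ln12_11_5 ln12_11_5_ok) (L (nat_lit 523) ln11_16_6 ln11_16_6_ok))))))))))))) (B (M (nat_lit 430) (B (M (nat_lit 395) (B (L (nat_lit 394) ln10_12_0 ln10_12_0_ok) (L (nat_lit 431) ln15_13_3 ln15_13_3_ok))) (B (M (nat_lit 431) (B (L (nat_lit 395) ln15_13_3 ln15_13_3_ok) (L (nat_lit 432) ln16_13_3 ln16_13_3_ok))) (B (M (nat_lit 431) (B (L (nat_lit 432) ln16_13_3 ln16_13_3_ok) (M (nat_lit 460) (B (L (nat_lit 459) ln15_13_1 ln15_13_1_ok) (M (nat_lit 492) (B (L (nat_lit 365) ln12_15_6 ln12_15_6_ok) (L (nat_lit 524) ln12_16_6 ln12_16_6_ok))))))) (M (nat_lit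 427) (B (M (nat_lit 394) (B (L (nat_lit 395) ln10_12_0 ln10_12_0_ok) (M (nat_lit 426) (B (L (nat_lit 393) ln13_13_3 ln13_13_3_ok) (L (nat_lit 425) ln9_13_2 ln9_13_2_ok))))) (B (M (nat_lit 426) (B (L (nat_lit 425) ln9_13_2 ln9_13_2_ok) (M (nat_lit 458) (B (L (nat_lit 457) ln13_13_1 ln13_13_1_ok) (L (nat_lit 459) ln14_13_1 ln14_13_1_ok))))) (B (M (nat_lit 426) (B (M (nat_lit 394) (B (L (nat_lit 393) ln13_13_3 ln13_13_3_ok) (L (nat_lit 395) ln10_12_0 ln10_12_0_ok))) (M (nat_lit 458) (B (L (nat_lit 457) ln13_13_1 ln13_13_1_ok) (L (nat_lit 459) ln14_13_1 ln14_13_1_ok))))) (M (nat_lit 395) (B (L (nat_lit 394) ln10_12_0 ln10_12_0_ok) (M (nat_lit 492) (B (M (nat_lit 460) (B (L (nat_lit 363) ln12_15_7 ln12_15_7_ok) (L (nat_lit 365) ln12_15_6 ln12_15_6_ok))) (B (M (nat_lit 460) (B (L (nat_lit 365) ln12_15_6 ln12_15_6_ok) (L (nat_lit 524) ln12_16_7 ln12_16_7_ok))) (B (M (nat_lit 460) (B (L (nat_lit 363) ln12_15_7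 ln12_15_7_ok) (L (nat_lit 524) ln12_16_7 ln12_16_7_ok))) (M (nat_lit 459) (B (L (nat_lit 458) ln14_13_1 ln14_13_1_ok) (M (nat_lit 491) (B (L (nat_lit 524) ln11_12_4 ln11_12_4_ok) (L (nat_lit 523) ln11_16_6 ln11_16_6_ok))))))))))))))))))) (B (M (nat_lit 460) (B (M (nat_lit 395) (B (M (nat_lit 492) (B (L (nat_lit 363) ln12_15_7 ln12_15_7_ok) (L (nat_lit 524) ln12_16_6 ln12_16_6_ok))) (M (nat_lit 430) (B (L (nat_lit 394) ln10_12_0 ln10_12_0_ok) (L (nat_lit 431) ln15_13_3 ln15_13_3_ok))))) (B (M (nat_lit 430) (B (M (nat_lit 395) (B (L (nat_lit 394) ln10_12_0 ln10_12_0_ok) (L (nat_lit 431) ln15_13_3 ln15_13_3_ok))) (B (M (nat_lit 431) (B (L (nat_lit 395) ln15_13_3 ln15_13_3_ok) (L (nat_lit 459) ln15_13_1 ln15_13_1_ok))) (B (M (nat_lit 431) (B (L (nat_lit 432) ln16_13_3 ln16_13_3_ok) (L (nat_lit 459) ln15_13_1 ln15_13_1_ok))) (M (nat_lit 427) (B (M (nat_lit 394) (B (L (nat_lit 395) ln10_12_0 ln10_12_0_ok)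 (M (nat_lit 426) (B (L (nat_lit 393) ln13_13_3 ln13_13_3_ok) (L (nat_lit 425) ln9_13_2 ln9_13_2_ok))))) (M (nat_lit 459) (B (L (nat_lit 458) ln14_13_1 ln14_13_1_ok) (M (nat_lit 364) (B (L (nat_lit 332) ln12_10_5 ln12_10_5_ok) (L (nat_lit 491) ln12_11_5 ln12_11_5_ok))))))))))) (B (M (nat_lit 492) (B (L (nat_lit 524) ln12_16_6 ln12_16_6_ok) (M (nat_lit 364) (B (M (nat_lit 363) (B (L (nat_lit 331) ln12_14_7 ln12_14_7_ok) (L (nat_lit 395) ln12_15_7 ln12_15_7_ok))) (M (nat_lit 491) (B (L (nat_lit 459) ln12_11_5 ln12_11_5_ok) (L (nat_lit 523) ln12_12_5 ln12_12_5_ok))))))) (M (nat_lit 364) (B (M (nat_lit 492) (B (L (nat_lit 524) ln12_16_6 ln12_16_6_ok) (M (nat_lit 491) (B (L (nat_lit 459) ln12_11_5 ln12_11_5_ok) (L (nat_lit 523) ln12_12_5 ln12_12_5_ok))))) (M (nat_lit 331) (B (L (nat_lit 363) ln12_14_7 ln12_14_7_ok) (M (nat_lit 332) (B (L (nat_lit 299) ln12_13_7 ln12_13_7_ok) (L (nat_lit 300) ln12_9_4 ln12_9_4_ok)))))))))))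 (B (M (nat_lit 460) (B (M (nat_lit 365) (B (L (nat_lit 333) ln13_10_5 ln13_10_5_ok) (L (nat_lit 492) ln12_15_6 ln12_15_6_ok))) (B (M (nat_lit 492) (B (L (nat_lit 365) ln12_15_6 ln12_15_6_ok) (L (nat_lit 524) ln12_16_6 ln12_16_6_ok))) (B (M (nat_lit 492) (B (L (nat_lit 524) ln12_16_6 ln12_16_6_ok) (M (nat_lit 364) (B (M (nat_lit 363) (B (L (nat_lit 331) ln12_14_7 ln12_14_7_ok) (L (nat_lit 395) ln12_15_7 ln12_15_7_ok))) (M (nat_lit 491) (B (L (nat_lit 459) ln12_11_5 ln12_11_5_ok) (L (nat_lit 523) ln12_12_5 ln12_12_5_ok))))))) (M (nat_lit 364) (B (M (nat_lit 333) (B (L (nat_lit 365) ln12_14_6 ln12_14_6_ok) (M (nat_lit 332) (B (L (nat_lit 300) ln12_9_4 ln12_9_4_ok) (L (nat_lit 301) ln12_13_6 ln12_13_6_ok))))) (B (M (nat_lit 333) (B (L (nat_lit 365) ln12_14_6 ln12_14_6_ok) (M (nat_lit 332) (B (L (nat_lit 301) ln12_13_6 ln12_13_6_ok) (M (nat_lit 459) (B (L (nat_lit 427) ln12_10_5 ln12_10_5_ok) (L (nat_lit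 491) ln12_11_5 ln12_11_5_ok))))))) (B (M (nat_lit 332) (B (L (nat_lit 300) ln12_9_4 ln12_9_4_ok) (M (nat_lit 459) (B (L (nat_lit 427) ln12_10_5 ln12_10_5_ok) (L (nat_lit 491) ln12_11_5 ln12_11_5_ok))))) (M (nat_lit 459) (B (L (nat_lit 491) ln12_11_5 ln12_11_5_ok) (M (nat_lit 430) (B (L (nat_lit 431) ln15_13_1 ln15_13_1_ok) (M (nat_lit 458) (B (L (nat_lit 427) ln14_13_1 ln14_13_1_ok) (L (nat_lit 457) ln9_14_2 ln9_14_2_ok))))))))))))))) (B (M (nat_lit 460) (B (M (nat_lit 365) (B (L (nat_lit 333) ln13_10_5 ln13_10_5_ok) (L (nat_lit 492) ln12_15_6 ln12_15_6_ok))) (B (M (nat_lit 492) (B (L (nat_lit 365) ln12_15_6 ln12_15_6_ok) (L (nat_lit 524) ln12_16_6 ln12_16_6_ok))) (B (M (nat_lit 364) (B (M (nat_lit 492) (B (L (nat_lit 524) ln12_16_6 ln12_16_6_ok) (M (nat_lit 491) (B (L (nat_lit 459) ln12_11_5 ln12_11_5_ok) (L (nat_lit 523) ln12_12_5 ln12_12_5_ok))))) (M (nat_lit 331) (B (L (nat_lit 363) ln12_14_7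 ln12_14_7_ok) (M (nat_lit 332) (B (L (nat_lit 299) ln12_13_7 ln12_13_7_ok) (L (nat_lit 300) ln12_9_4 ln12_9_4_ok))))))) (M (nat_lit 364) (B (M (nat_lit 333) (B (L (nat_lit 365) ln12_14_6 ln12_14_6_ok) (M (nat_lit 332) (B (L (nat_lit 300) ln12_9_4 ln12_9_4_ok) (L (nat_lit 301) ln12_13_6 ln12_13_6_ok))))) (B (M (nat_lit 332) (B (M (nat_lit 331) (B (L (nat_lit 299) ln12_13_7 ln12_13_7_ok) (L (nat_lit 363) ln12_14_7 ln12_14_7_ok))) (M (nat_lit 333) (B (L (nat_lit 301) ln12_13_6 ln12_13_6_ok) (L (nat_lit 365) ln12_14_6 ln12_14_6_ok))))) (B (M (nat_lit 332) (B (L (nat_lit 300) ln12_9_4 ln12_9_4_ok) (M (nat_lit 459) (B (L (nat_lit 427) ln12_10_5 ln12_10_5_ok) (L (nat_lit 491) ln12_11_5 ln12_11_5_ok))))) (M (nat_lit 459) (B (L (nat_lit 491) ln12_11_5 ln12_11_5_ok) (M (nat_lit 430) (B (L (nat_lit 431) ln15_13_1 ln15_13_1_ok) (M (nat_lit 458) (B (L (nat_lit 427) ln14_13_1 ln14_13_1_ok) (L (nat_lit 457) ln9_14_2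 ln9_14_2_ok))))))))))))))) (B (M (nat_lit 460) (B (M (nat_lit 365) (B (L (nat_lit 333) ln13_10_5 ln13_10_5_ok) (L (nat_lit 492) ln12_15_6 ln12_15_6_ok))) (B (M (nat_lit 492) (B (L (nat_lit 365) ln12_15_6 ln12_15_6_ok) (L (nat_lit 524) ln12_16_6 ln12_16_6_ok))) (B (M (nat_lit 395) (B (M (nat_lit 492) (B (L (nat_lit 363) ln12_15_7 ln12_15_7_ok) (L (nat_lit 524) ln12_16_6 ln12_16_6_ok))) (M (nat_lit 430) (B (L (nat_lit 394) ln10_12_0 ln10_12_0_ok) (L (nat_lit 431) ln15_13_3 ln15_13_3_ok))))) (M (nat_lit 364) (B (M (nat_lit 333) (B (L (nat_lit 365) ln12_14_6 ln12_14_6_ok) (M (nat_lit 332) (B (L (nat_lit 300) ln12_9_4 ln12_9_4_ok) (L (nat_lit 301) ln12_13_6 ln12_13_6_ok))))) (B (M (nat_lit 332) (B (M (nat_lit 331) (B (L (nat_lit 299) ln12_13_7 ln12_13_7_ok) (L (nat_lit 363) ln12_14_7 ln12_14_7_ok))) (M (nat_lit 333) (B (L (nat_lit 301) ln12_13_6 ln12_13_6_ok) (L (nat_lit 365) ln12_14_6 ln12_14_6_ok)))))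 (B (M (nat_lit 331) (B (L (nat_lit 363) ln12_14_7 ln12_14_7_ok) (M (nat_lit 332) (B (L (nat_lit 299) ln12_13_7 ln12_13_7_ok) (L (nat_lit 300) ln12_9_4 ln12_9_4_ok))))) (M (nat_lit 365) (B (L (nat_lit 333) ln12_14_6 ln12_14_6_ok) (M (nat_lit 363) (B (L (nat_lit 331) ln12_14_7 ln12_14_7_ok) (M (nat_lit 394) (B (M (nat_lit 362) (B (L (nat_lit 361) ln9_11_0 ln9_11_0_ok) (L (nat_lit 393) ln13_11_1 ln13_11_1_ok))) (M (nat_lit 395) (B (L (nat_lit 366) ln14_11_1 ln14_11_1_ok) (L (nat_lit 430) ln10_12_0 ln10_12_0_ok))))))))))))))))) (B c21_n7374 c21_n7414)))))))))))) (nat_lit 1386334847544579281930502452632026696468783264124728123740719198963059283254184240648144927045128292788721448874933630659377233920) (nat_lit 82377571943944010194029963326818645247915499299787406692001034273072618262455565995475648192355029351113648355538592131720113301066596580934602218981187125248) (nat_lit 82377571943944010194029963326818645247915499299787406692001034273072618262455565995475648192355029351113648355538592131720113301066596580934602218981187125248)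 (by decide +kernel)
theorem c21_s7491 : Sem (nat_lit 1386334847544579281930502452632026696468783264124728123740719198963059283254184240648144927045128292788721448874933630659377233920) (nat_lit 54918381344978288046700950092726128038560184683423794678429803156070663718175047899014655611228811013386922728219301620719790140371941139549295966153965830144) (nat_lit 54918381344978288046700950092726128038560184683423794678429803156070663718175047899014655611228811013386922728219301620719790140371941139549295966153965830144) :=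
  sem_of_chk (M (nat_lit 430) (B (M (nat_lit 431) (B (L (nat_lit 432) ln16_13_3 ln16_13_3_ok) (M (nat_lit 395) (B (L (nat_lit 394) ln10_12_0 ln10_12_0_ok) (L (nat_lit 428) ln15_13_3 ln15_13_3_ok))))) (B (M (nat_lit 431) (B (L (nat_lit 432) ln16_13_3 ln16_13_3_ok) (M (nat_lit 395) (B (L (nat_lit 398) ln11_12_0 ln11_12_0_ok) (L (nat_lit 428) ln15_13_3 ln15_13_3_ok))))) (B (M (nat_lit 399) (B (M (nat_lit 431) (B (L (nat_lit 432) ln16_13_3 ln16_13_3_ok) (M (nat_lit 428) (B (L (nat_lit 400) ln12_13_2 ln12_13_2_ok) (M (nat_lit 460) (B (L (nat_lit 459) ln15_13_1 ln15_13_1_ok) (M (nat_lit 492) (B (L (nat_lit 365) ln12_15_6 ln12_15_6_ok) (L (nat_lit 524) ln12_16_6 ln12_16_6_ok))))))))) (B (M (nat_lit 398) (B (M (nat_lit 400) (B (L (nat_lit 428) ln16_12_1 ln16_12_1_ok) (L (nat_lit 401) ln17_12_1 ln17_12_1_ok))) (M (nat_lit 367) (B (L (nat_lit 368) ln12_12_2 ln12_12_2_ok) (M (nat_lit 335) (B (L (nat_lit 303)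 ln15_9_5 ln15_9_5_ok) (M (nat_lit 462) (B (L (nat_lit 366) ln14_14_6 ln14_14_6_ok) (L (nat_lit 494) ln14_15_6 ln14_15_6_ok))))))))) (B (M (nat_lit 398) (B (M (nat_lit 367) (B (L (nat_lit 368) ln12_12_2 ln12_12_2_ok) (M (nat_lit 335) (B (L (nat_lit 303) ln15_9_5 ln15_9_5_ok) (M (nat_lit 462) (B (L (nat_lit 366) ln14_14_6 ln14_14_6_ok) (L (nat_lit 494) ln14_15_6 ln14_15_6_ok))))))) (B (M (nat_lit 431) (B (L (nat_lit 432) ln12_12_0 ln12_12_0_ok) (M (nat_lit 367) (B (L (nat_lit 368) ln12_12_2 ln12_12_2_ok) (M (nat_lit 462) (B (L (nat_lit 335) ln15_10_5 ln15_10_5_ok) (L (nat_lit 494) ln14_15_6 ln14_15_6_ok))))))) (M (nat_lit 428) (B (L (nat_lit 427) ln15_12_1 ln15_12_1_ok) (M (nat_lit 460) (B (M (nat_lit 492) (B (L (nat_lit 365) ln12_15_6 ln12_15_6_ok) (L (nat_lit 524) ln12_16_6 ln12_16_6_ok))) (M (nat_lit 431) (B (L (nat_lit 432) ln12_12_0 ln12_12_0_ok) (L (nat_lit 459) ln15_13_1 ln15_13_1_ok))))))))))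 (M (nat_lit 431) (B (L (nat_lit 432) ln16_13_3 ln16_13_3_ok) (M (nat_lit 398) (B (M (nat_lit 367) (B (L (nat_lit 368) ln12_12_2 ln12_12_2_ok) (M (nat_lit 335) (B (L (nat_lit 303) ln15_9_5 ln15_9_5_ok) (L (nat_lit 462) ln15_10_5 ln15_10_5_ok))))) (M (nat_lit 364) (B (L (nat_lit 363) ln15_12_3 ln15_12_3_ok) (M (nat_lit 400) (B (L (nat_lit 365) ln16_12_3 ln16_12_3_ok) (L (nat_lit 401) ln17_12_1 ln17_12_1_ok))))))))))))) (B (M (nat_lit 431) (B (L (nat_lit 432) ln16_13_3 ln16_13_3_ok) (M (nat_lit 395) (B (L (nat_lit 394) ln10_12_0 ln10_12_0_ok) (L (nat_lit 398) ln11_12_0 ln11_12_0_ok))))) (M (nat_lit 398) (B (M (nat_lit 395) (B (L (nat_lit 394) ln10_12_0 ln10_12_0_ok) (M (nat_lit 367) (B (L (nat_lit 366) ln11_12_2 ln11_12_2_ok) (M (nat_lit 399) (B (L (nat_lit 368) ln12_12_2 ln12_12_2_ok) (M (nat_lit 363) (B (L (nat_lit 362) ln14_12_3 ln14_12_3_ok) (L (nat_lit 364) ln15_12_3 ln15_12_3_ok))))))))) (B (M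 (nat_lit 399) (B (M (nat_lit 400) (B (L (nat_lit 428) ln16_12_1 ln16_12_1_ok) (L (nat_lit 401) ln17_12_1 ln17_12_1_ok))) (M (nat_lit 367) (B (L (nat_lit 368) ln12_12_2 ln12_12_2_ok) (M (nat_lit 395) (B (L (nat_lit 366) ln11_12_2 ln11_12_2_ok) (L (nat_lit 394) ln10_12_0 ln10_12_0_ok))))))) (B (M (nat_lit 399) (B (M (nat_lit 400) (B (L (nat_lit 428) ln16_12_1 ln16_12_1_ok) (L (nat_lit 401) ln17_12_1 ln17_12_1_ok))) (M (nat_lit 363) (B (L (nat_lit 364) ln15_12_3 ln15_12_3_ok) (M (nat_lit 395) (B (L (nat_lit 362) ln14_12_3 ln14_12_3_ok) (L (nat_lit 394) ln10_12_0 ln10_12_0_ok))))))) (B (M (nat_lit 367) (B (M (nat_lit 399) (B (L (nat_lit 368) ln12_12_2 ln12_12_2_ok) (M (nat_lit 428) (B (L (nat_lit 427) ln15_12_1 ln15_12_1_ok) (L (nat_lit 400) ln16_12_1 ln16_12_1_ok))))) (M (nat_lit 462) (B (M (nat_lit 366) (B (L (nat_lit 335) ln14_14_6 ln14_14_6_ok) (L (nat_lit 395) ln11_12_2 ln11_12_2_ok))) (M (nat_lit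 365) (B (L (nat_lit 333) ln13_10_4 ln13_10_4_ok) (L (nat_lit 494) ln14_15_7 ln14_15_7_ok))))))) (B (M (nat_lit 399) (B (M (nat_lit 400) (B (L (nat_lit 428) ln16_12_1 ln16_12_1_ok) (L (nat_lit 401) ln17_12_1 ln17_12_1_ok))) (M (nat_lit 367) (B (L (nat_lit 368) ln12_12_2 ln12_12_2_ok) (M (nat_lit 335) (B (L (nat_lit 303) ln15_9_5 ln15_9_5_ok) (M (nat_lit 462) (B (L (nat_lit 366) ln14_14_6 ln14_14_6_ok) (L (nat_lit 494) ln14_15_6 ln14_15_6_ok))))))))) (M (nat_lit 366) (B (M (nat_lit 395) (B (L (nat_lit 367) ln11_12_2 ln11_12_2_ok) (L (nat_lit 394) ln10_12_0 ln10_12_0_ok))) (B (M (nat_lit 334) (B (L (nat_lit 302) ln14_9_5 ln14_9_5_ok) (M (nat_lit 365) (B (M (nat_lit 333) (B (L (nat_lit 301) ln14_13_7 ln14_13_7_ok) (L (nat_lit 462) ln14_14_7 ln14_14_7_ok))) (M (nat_lit 363) (B (M (nat_lit 335) (B (L (nat_lit 303) ln14_13_6 ln14_13_6_ok) (L (nat_lit 364) ln11_11_2 ln11_11_2_ok))) (B (M (nat_lit 364) (B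 (L (nat_lit 335) ln11_11_2 ln11_11_2_ok) (L (nat_lit 362) ln10_11_0 ln10_11_0_ok))) (B (M (nat_lit 362) (B (L (nat_lit 364) ln10_11_0 ln10_11_0_ok) (L (nat_lit 395) ln14_12_3 ln14_12_3_ok))) (M (nat_lit 395) (B (L (nat_lit 362) ln14_12_3 ln14_12_3_ok) (L (nat_lit 394) ln10_12_2 ln10_12_2_ok))))))))))) (B (M (nat_lit 334) (B (L (nat_lit 302) ln14_9_5 ln14_9_5_ok) (M (nat_lit 335) (B (L (nat_lit 303) ln14_13_6 ln14_13_6_ok) (M (nat_lit 367) (B (L (nat_lit 462) ln14_14_6 ln14_14_6_ok) (L (nat_lit 395) ln11_12_2 ln11_12_2_ok))))))) (M (nat_lit 334) (B (L (nat_lit 302) ln14_9_5 ln14_9_5_ok) (M (nat_lit 462) (B (M (nat_lit 333) (B (L (nat_lit 301) ln14_13_7 ln14_13_7_ok) (L (nat_lit 365) ln14_14_7 ln14_14_7_ok))) (M (nat_lit 335) (B (L (nat_lit 303) ln14_13_6 ln14_13_6_ok) (L (nat_lit 367) ln14_14_6 ln14_14_6_ok)))))))))))))))))))))) (nat_lit 1386334847544579281930502452632026696468783264124728123740719198963059283254184240648144927045128292788721448874933630659377233920)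 (nat_lit 54918381344978288046700950092726128038560184683423794678429803156070663718175047899014655611228811013386922728219301620719790140371941139549295966153965830144) (nat_lit 54918381344978288046700950092726128038560184683423794678429803156070663718175047899014655611228811013386922728219301620719790140371941139549295966153965830144) (by decide +kernel)
theorem c21_s7548 : Sem (nat_lit 1386334847544579281930502452632026696468783264124728123740719198963059283254184240648144927045128292788721448874933630659377233920) (nat_lit 219673525175326239142683699383236556376183705682514931452323449799812452097774308568287960629295520339569648433150182992726195402341893690671261776023587389440) (nat_lit 219673525175326239142683699383236556376183705682514931452323449799812452097774308568287960629295520339569648433150182992726195402341893690671261776023587389440) :=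
  sem_of_chk (M (nat_lit 365) (B (M (nat_lit 430) (B (M (nat_lit 462) (B (L (nat_lit 333) ln13_10_4 ln13_10_4_ok) (M (nat_lit 494) (B (L (nat_lit 398) ln14_15_7 ln14_15_7_ok) (L (nat_lit 526) ln14_16_7 ln14_16_7_ok))))) (B (M (nat_lit 395) (B (L (nat_lit 394) ln10_12_0 ln10_12_0_ok) (M (nat_lit 431) (B (L (nat_lit 398) ln11_12_0 ln11_12_0_ok) (L (nat_lit 432) ln16_13_3 ln16_13_3_ok))))) (M (nat_lit 395) (B (L (nat_lit 394) ln10_12_0 ln10_12_0_ok) (M (nat_lit 431) (B (L (nat_lit 428) ln15_13_3 ln15_13_3_ok) (L (nat_lit 432) ln16_13_3 ln16_13_3_ok)))))))) (B (M (nat_lit 366) (B (M (nat_lit 367) (B (L (nat_lit 368) ln16_11_1 ln16_11_1_ok) (M (nat_lit 395) (B (L (nat_lit 364) ln15_11_1 ln15_11_1_ok) (L (nat_lit 394) ln10_12_2 ln10_12_2_ok))))) (B (M (nat_lit 395) (B (L (nat_lit 394) ln10_12_2 ln10_12_2_ok) (M (nat_lit 367) (B (L (nat_lit 368) ln16_11_1 ln16_11_1_ok) (L (nat_lit 398) ln11_12_2 ln11_12_2_ok)))))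 (B (M (nat_lit 395) (B (L (nat_lit 394) ln10_12_2 ln10_12_2_ok) (M (nat_lit 398) (B (M (nat_lit 363) (B (L (nat_lit 362) ln14_12_3 ln14_12_3_ok) (M (nat_lit 364) (B (L (nat_lit 399) ln11_11_0 ln11_11_0_ok) (M (nat_lit 334) (B (L (nat_lit 302) ln14_9_5 ln14_9_5_ok) (L (nat_lit 335) ln11_11_2 ln11_11_2_ok))))))) (B (M (nat_lit 399) (B (M (nat_lit 363) (B (L (nat_lit 362) ln14_12_3 ln14_12_3_ok) (L (nat_lit 364) ln11_11_0 ln11_11_0_ok))) (M (nat_lit 431) (B (L (nat_lit 430) ln11_12_0 ln11_12_0_ok) (L (nat_lit 432) ln12_12_0 ln12_12_0_ok))))) (B (M (nat_lit 399) (B (M (nat_lit 364) (B (L (nat_lit 363) ln11_11_0 ln11_11_0_ok) (L (nat_lit 400) ln16_12_3 ln16_12_3_ok))) (M (nat_lit 431) (B (L (nat_lit 430) ln11_12_0 ln11_12_0_ok) (L (nat_lit 432) ln12_12_0 ln12_12_0_ok))))) (B (M (nat_lit 399) (B (M (nat_lit 400) (B (L (nat_lit 364) ln16_12_3 ln16_12_3_ok) (L (nat_lit 401) ln17_12_3 ln17_12_3_ok))) (M (nat_lit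 431) (B (L (nat_lit 430) ln11_12_0 ln11_12_0_ok) (L (nat_lit 432) ln12_12_0 ln12_12_0_ok))))) (B (M (nat_lit 399) (B (M (nat_lit 431) (B (L (nat_lit 430) ln11_12_0 ln11_12_0_ok) (L (nat_lit 432) ln12_12_0 ln12_12_0_ok))) (M (nat_lit 400) (B (L (nat_lit 401) ln17_12_3 ln17_12_3_ok) (L (nat_lit 428) ln16_12_1 ln16_12_1_ok))))) (M (nat_lit 334) (B (L (nat_lit 302) ln14_9_5 ln14_9_5_ok) (M (nat_lit 335) (B (M (nat_lit 430) (B (L (nat_lit 303) ln14_13_6 ln14_13_6_ok) (L (nat_lit 431) ln11_12_0 ln11_12_0_ok))) (M (nat_lit 363) (B (L (nat_lit 364) ln11_11_2 ln11_11_2_ok) (L (nat_lit 362) ln14_12_3 ln14_12_3_ok))))))))))))))) (B (M (nat_lit 367) (B (L (nat_lit 368) ln16_11_1 ln16_11_1_ok) (M (nat_lit 395) (B (L (nat_lit 364) ln15_11_1 ln15_11_1_ok) (L (nat_lit 398) ln11_12_2 ln11_12_2_ok))))) (M (nat_lit 367) (B (L (nat_lit 368) ln16_11_1 ln16_11_1_ok) (M (nat_lit 364) (B (M (nat_lit 332) (B (L (nat_lit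 300) ln12_9_4 ln12_9_4_ok) (L (nat_lit 331) ln15_11_3 ln15_11_3_ok))) (M (nat_lit 363) (B (M (nat_lit 335) (B (L (nat_lit 334) ln11_11_2 ln11_11_2_ok) (L (nat_lit 336) ln12_11_2 ln12_11_2_ok))) (M (nat_lit 399) (B (L (nat_lit 398) ln11_11_0 ln11_11_0_ok) (L (nat_lit 400) ln12_11_0 ln12_11_0_ok)))))))))))))) (B (M (nat_lit 430) (B (M (nat_lit 462) (B (L (nat_lit 333) ln13_10_4 ln13_10_4_ok) (M (nat_lit 494) (B (L (nat_lit 398) ln14_15_7 ln14_15_7_ok) (L (nat_lit 526) ln14_16_7 ln14_16_7_ok))))) (B (M (nat_lit 431) (B (L (nat_lit 432) ln16_13_3 ln16_13_3_ok) (M (nat_lit 395) (B (L (nat_lit 398) ln11_12_0 ln11_12_0_ok) (L (nat_lit 428) ln15_13_3 ln15_13_3_ok))))) (M (nat_lit 333) (B (L (nat_lit 462) ln13_10_4 ln13_10_4_ok) (M (nat_lit 428) (B (L (nat_lit 301) ln13_9_5 ln13_9_5_ok) (L (nat_lit 460) ln13_10_5 ln13_10_5_ok)))))))) (B (M (nat_lit 333) (B (M (nat_lit 428) (B (L (nat_lit 301) ln13_9_5 ln13_9_5_ok)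 (L (nat_lit 460) ln13_10_5 ln13_10_5_ok))) (B (M (nat_lit 364) (B (M (nat_lit 332) (B (L (nat_lit 300) ln13_13_7 ln13_13_7_ok) (M (nat_lit 334) (B (L (nat_lit 302) ln13_13_6 ln13_13_6_ok) (M (nat_lit 335) (B (L (nat_lit 363) ln15_10_1 ln15_10_1_ok) (L (nat_lit 336) ln16_10_1 ln16_10_1_ok))))))) (B (M (nat_lit 334) (B (L (nat_lit 302) ln13_13_6 ln13_13_6_ok) (M (nat_lit 363) (B (L (nat_lit 362) ln10_11_2 ln10_11_2_ok) (M (nat_lit 335) (B (L (nat_lit 336) ln16_10_1 ln16_10_1_ok) (L (nat_lit 366) ln11_11_2 ln11_11_2_ok))))))) (M (nat_lit 332) (B (L (nat_lit 300) ln13_13_7 ln13_13_7_ok) (M (nat_lit 331) (B (M (nat_lit 428) (B (L (nat_lit 299) ln12_13_7 ln12_13_7_ok) (L (nat_lit 460) ln12_14_6 ln12_14_6_ok))) (M (nat_lit 330) (B (L (nat_lit 329) ln9_10_0 ln9_10_0_ok) (L (nat_lit 366) ln10_10_0 ln10_10_0_ok)))))))))) (M (nat_lit 301) (B (M (nat_lit 300) (B (L (nat_lit 268) ln13_12_7 ln13_12_7_ok) (L (nat_lit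 332) ln13_13_7 ln13_13_7_ok))) (M (nat_lit 302) (B (L (nat_lit 270) ln13_12_6 ln13_12_6_ok) (L (nat_lit 334) ln13_13_6 ln13_13_6_ok)))))))) (M (nat_lit 333) (B (M (nat_lit 430) (B (L (nat_lit 462) ln13_10_4 ln13_10_4_ok) (M (nat_lit 395) (B (L (nat_lit 394) ln10_12_0 ln10_12_0_ok) (M (nat_lit 431) (B (L (nat_lit 398) ln11_12_0 ln11_12_0_ok) (L (nat_lit 432) ln16_13_3 ln16_13_3_ok))))))) (M (nat_lit 301) (B (M (nat_lit 300) (B (L (nat_lit 268) ln13_12_7 ln13_12_7_ok) (L (nat_lit 332) ln13_13_7 ln13_13_7_ok))) (M (nat_lit 302) (B (L (nat_lit 270) ln13_12_6 ln13_12_6_ok) (L (nat_lit 334) ln13_13_6 ln13_13_6_ok)))))))))))) (nat_lit 1386334847544579281930502452632026696468783264124728123740719198963059283254184240648144927045128292788721448874933630659377233920) (nat_lit 219673525175326239142683699383236556376183705682514931452323449799812452097774308568287960629295520339569648433150182992726195402341893690671261776023587389440)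 (nat_lit 219673525175326239142683699383236556376183705682514931452323449799812452097774308568287960629295520339569648433150182992726195402341893690671261776023587389440) (by decide +kernel)
noncomputable def c21_n7637 : Cert := (M (nat_lit 363) (B (M (nat_lit 362) (B (L (nat_lit 398) ln14_12_3 ln14_12_3_ok) (M (nat_lit 361) (B (L (nat_lit 360) ln8_11_0 ln8_11_0_ok) (L (nat_lit 364) ln9_11_0 ln9_11_0_ok))))) (B (M (nat_lit 398) (B (L (nat_lit 362) ln14_12_3 ln14_12_3_ok) (M (nat_lit 399) (B (L (nat_lit 364) ln15_12_3 ln15_12_3_ok) (M (nat_lit 367) (B (L (nat_lit 366) ln11_12_2 ln11_12_2_ok) (L (nat_lit 368) ln12_12_2 ln12_12_2_ok))))))) (B (M (nat_lit 331) (B (M (nat_lit 428) (B (L (nat_lit 299) ln11_9_4 ln11_9_4_ok) (M (nat_lit 460) (B (L (nat_lit 364) ln12_14_7 ln12_14_7_ok) (L (nat_lit 492) ln12_15_7 ln12_15_7_ok))))) (B (M (nat_lit 427) (B (M (nat_lit 426) (B (L (nat_lit 458) ln11_10_5 ln11_10_5_ok)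 (L (nat_lit 398) ln14_12_1 ln14_12_1_ok))) (B (M (nat_lit 428) (B (L (nat_lit 460) ln11_10_4 ln11_10_4_ok) (M (nat_lit 426) (B (L (nat_lit 458) ln11_10_5 ln11_10_5_ok) (L (nat_lit 425) ln9_13_2 ln9_13_2_ok))))) (M (nat_lit 459) (B (M (nat_lit 332) (B (L (nat_lit 300) ln11_13_6 ln11_13_6_ok) (L (nat_lit 364) ln11_14_6 ln11_14_6_ok))) (M (nat_lit 460) (B (L (nat_lit 428) ln11_10_4 ln11_10_4_ok) (L (nat_lit 492) ln11_11_4 ln11_11_4_ok)))))))) (B (M (nat_lit 428) (B (L (nat_lit 299) ln11_9_4 ln11_9_4_ok) (M (nat_lit 460) (B (L (nat_lit 427) ln11_10_4 ln11_10_4_ok) (L (nat_lit 492) ln12_15_7 ln12_15_7_ok))))) (M (nat_lit 299) (B (M (nat_lit 267) (B (L (nat_lit 364) ln11_8_4 ln11_8_4_ok) (M (nat_lit 268) (B (L (nat_lit 236) ln11_11_6 ln11_11_6_ok) (L (nat_lit 300) ln11_12_6 ln11_12_6_ok))))) (B (M (nat_lit 267) (B (L (nat_lit 364) ln11_8_4 ln11_8_4_ok) (M (nat_lit 266) (B (L (nat_lit 234) ln11_11_7 ln11_11_7_ok)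 (L (nat_lit 298) ln11_12_7 ln11_12_7_ok))))) (B (M (nat_lit 300) (B (L (nat_lit 268) ln11_12_6 ln11_12_6_ok) (M (nat_lit 332) (B (L (nat_lit 427) ln11_13_6 ln11_13_6_ok) (L (nat_lit 364) ln12_9_4 ln12_9_4_ok))))) (M (nat_lit 267) (B (M (nat_lit 266) (B (L (nat_lit 234) ln11_11_7 ln11_11_7_ok) (L (nat_lit 298) ln11_12_7 ln11_12_7_ok))) (M (nat_lit 268) (B (L (nat_lit 236) ln11_11_6 ln11_11_6_ok) (L (nat_lit 300) ln11_12_6 ln11_12_6_ok))))))))))))) (B (M (nat_lit 398) (B (L (nat_lit 362) ln14_12_3 ln14_12_3_ok) (M (nat_lit 399) (B (M (nat_lit 367) (B (L (nat_lit 366) ln11_12_2 ln11_12_2_ok) (L (nat_lit 368) ln12_12_2 ln12_12_2_ok))) (M (nat_lit 427) (B (L (nat_lit 426) ln14_12_1 ln14_12_1_ok) (L (nat_lit 428) ln15_12_1 ln15_12_1_ok))))))) (M (nat_lit 331) (B (M (nat_lit 428) (B (L (nat_lit 299) ln11_9_4 ln11_9_4_ok) (M (nat_lit 460) (B (L (nat_lit 427) ln11_10_4 ln11_10_4_ok) (L (nat_lit 492) ln12_15_7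 ln12_15_7_ok))))) (B (M (nat_lit 427) (B (M (nat_lit 428) (B (L (nat_lit 460) ln11_10_4 ln11_10_4_ok) (M (nat_lit 426) (B (L (nat_lit 458) ln11_10_5 ln11_10_5_ok) (L (nat_lit 425) ln9_13_2 ln9_13_2_ok))))) (M (nat_lit 362) (B (M (nat_lit 330) (B (L (nat_lit 298) ln11_13_7 ln11_13_7_ok) (L (nat_lit 459) ln11_14_7 ln11_14_7_ok))) (M (nat_lit 361) (B (L (nat_lit 360) ln8_11_0 ln8_11_0_ok) (L (nat_lit 364) ln9_11_0 ln9_11_0_ok))))))) (B (M (nat_lit 428) (B (L (nat_lit 299) ln11_9_4 ln11_9_4_ok) (M (nat_lit 460) (B (L (nat_lit 364) ln12_14_7 ln12_14_7_ok) (L (nat_lit 492) ln12_15_7 ln12_15_7_ok))))) (M (nat_lit 299) (B (M (nat_lit 267) (B (L (nat_lit 364) ln11_8_4 ln11_8_4_ok) (M (nat_lit 268) (B (L (nat_lit 236) ln11_11_6 ln11_11_6_ok) (L (nat_lit 300) ln11_12_6 ln11_12_6_ok))))) (B (M (nat_lit 267) (B (L (nat_lit 364) ln11_8_4 ln11_8_4_ok) (M (nat_lit 266) (B (L (nat_lit 234) ln11_11_7 ln11_11_7_ok)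 (L (nat_lit 298) ln11_12_7 ln11_12_7_ok))))) (B (M (nat_lit 300) (B (L (nat_lit 268) ln11_12_6 ln11_12_6_ok) (M (nat_lit 332) (B (L (nat_lit 427) ln11_13_6 ln11_13_6_ok) (L (nat_lit 364) ln12_9_4 ln12_9_4_ok))))) (M (nat_lit 267) (B (M (nat_lit 266) (B (L (nat_lit 234) ln11_11_7 ln11_11_7_ok) (L (nat_lit 298) ln11_12_7 ln11_12_7_ok))) (M (nat_lit 268) (B (L (nat_lit 236) ln11_11_6 ln11_11_6_ok) (L (nat_lit 300) ln11_12_6 ln11_12_6_ok))))))))))))))))))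
theorem c21_s7728 : Sem (nat_lit 1386334847625274590620718346058774170593877385197531429766632433739017388146079478836171214377304710078725756107305604783525593088) (nat_lit 15983352582827860201767699891148855720700100543071153892187009272001709738495649981473983691858042805729384930070808465016942233700224427947576000512) (nat_lit 15983352582827860201767699891148855720700100543071153892187009272001709738495649981473983691858042805729384930070808465016942233700224427947576000512) :=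
  sem_of_chk (M (nat_lit 363) (B (M (nat_lit 362) (B (M (nat_lit 361) (B (L (nat_lit 360) ln8_11_0 ln8_11_0_ok) (L (nat_lit 364) ln9_11_0 ln9_11_0_ok))) (B (M (nat_lit 361) (B (L (nat_lit 364) ln9_11_0 ln9_11_0_ok) (L (nat_lit 394) ln13_12_3 ln13_12_3_ok))) (B (M (nat_lit 394) (B (M (nat_lit 426) (B (L (nat_lit 425) ln13_12_1 ln13_12_1_ok) (M (nat_lit 331) (B (L (nat_lit 299) ln11_9_5 ln11_9_5_ok) (L (nat_lit 458) ln10_14_6 ln10_14_6_ok))))) (M (nat_lit 365) (B (L (nat_lit 366) ln10_12_2 ln10_12_2_ok) (M (nat_lit 393) (B (L (nat_lit 364) ln13_11_1 ln13_11_1_ok) (L (nat_lit 428) ln9_12_0 ln9_12_0_ok))))))) (M (nat_lit 361) (B (L (nat_lit 360) ln8_11_0 ln8_11_0_ok) (L (nat_lit 394) ln13_12_3 ln13_12_3_ok))))))) (B (M (nat_lit 362) (B (M (nat_lit 361) (B (L (nat_lit 360) ln8_11_0 ln8_11_0_ok) (L (nat_lit 364) ln9_11_0 ln9_11_0_ok))) (B (M (nat_lit 361) (B (L (nat_lit 364) ln9_11_0 ln9_11_0_ok) (L (nat_lit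 394) ln13_12_3 ln13_12_3_ok))) (B (M (nat_lit 365) (B (M (nat_lit 394) (B (L (nat_lit 366) ln10_12_2 ln10_12_2_ok) (M (nat_lit 393) (B (L (nat_lit 364) ln13_11_1 ln13_11_1_ok) (L (nat_lit 428) ln9_12_0 ln9_12_0_ok))))) (B (M (nat_lit 428) (B (M (nat_lit 333) (B (L (nat_lit 301) ln13_9_5 ln13_9_5_ok) (L (nat_lit 460) ln13_10_5 ln13_10_5_ok))) (M (nat_lit 394) (B (L (nat_lit 366) ln10_12_2 ln10_12_2_ok) (L (nat_lit 393) ln9_12_0 ln9_12_0_ok))))) (B (M (nat_lit 333) (B (M (nat_lit 334) (B (L (nat_lit 302) ln13_13_6 ln13_13_6_ok) (L (nat_lit 364) ln10_11_2 ln10_11_2_ok))) (M (nat_lit 428) (B (L (nat_lit 301) ln13_9_5 ln13_9_5_ok) (L (nat_lit 460) ln13_10_5 ln13_10_5_ok))))) (M (nat_lit 366) (B (L (nat_lit 394) ln10_12_2 ln10_12_2_ok) (M (nat_lit 367) (B (L (nat_lit 364) ln15_11_1 ln15_11_1_ok) (L (nat_lit 368) ln16_11_1 ln16_11_1_ok))))))))) (M (nat_lit 361) (B (L (nat_lit 360) ln8_11_0 ln8_11_0_ok)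 (L (nat_lit 394) ln13_12_3 ln13_12_3_ok))))))) (B (M (nat_lit 331) (B (M (nat_lit 428) (B (L (nat_lit 299) ln11_9_4 ln11_9_4_ok) (M (nat_lit 460) (B (L (nat_lit 364) ln12_14_7 ln12_14_7_ok) (L (nat_lit 492) ln12_15_7 ln12_15_7_ok))))) (B (M (nat_lit 427) (B (M (nat_lit 428) (B (L (nat_lit 460) ln11_10_4 ln11_10_4_ok) (M (nat_lit 426) (B (L (nat_lit 458) ln11_10_5 ln11_10_5_ok) (L (nat_lit 425) ln9_13_2 ln9_13_2_ok))))) (B (M (nat_lit 459) (B (M (nat_lit 330) (B (L (nat_lit 298) ln11_13_7 ln11_13_7_ok) (L (nat_lit 362) ln11_14_7 ln11_14_7_ok))) (M (nat_lit 460) (B (L (nat_lit 428) ln11_10_4 ln11_10_4_ok) (L (nat_lit 492) ln11_11_4 ln11_11_4_ok))))) (M (nat_lit 426) (B (L (nat_lit 458) ln11_10_5 ln11_10_5_ok) (M (nat_lit 425) (B (L (nat_lit 394) ln13_12_1 ln13_12_1_ok) (L (nat_lit 424) ln8_13_2 ln8_13_2_ok)))))))) (M (nat_lit 299) (B (M (nat_lit 267) (B (L (nat_lit 364) ln11_8_4 ln11_8_4_ok) (M (nat_lit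 268) (B (L (nat_lit 236) ln11_11_6 ln11_11_6_ok) (L (nat_lit 300) ln11_12_6 ln11_12_6_ok))))) (B (M (nat_lit 267) (B (L (nat_lit 364) ln11_8_4 ln11_8_4_ok) (M (nat_lit 266) (B (L (nat_lit 234) ln11_11_7 ln11_11_7_ok) (L (nat_lit 298) ln11_12_7 ln11_12_7_ok))))) (B (M (nat_lit 300) (B (L (nat_lit 268) ln11_12_6 ln11_12_6_ok) (M (nat_lit 332) (B (L (nat_lit 427) ln11_13_6 ln11_13_6_ok) (L (nat_lit 364) ln12_9_4 ln12_9_4_ok))))) (M (nat_lit 267) (B (M (nat_lit 266) (B (L (nat_lit 234) ln11_11_7 ln11_11_7_ok) (L (nat_lit 298) ln11_12_7 ln11_12_7_ok))) (M (nat_lit 268) (B (L (nat_lit 236) ln11_11_6 ln11_11_6_ok) (L (nat_lit 300) ln11_12_6 ln11_12_6_ok)))))))))))) (B (M (nat_lit 331) (B (M (nat_lit 428) (B (L (nat_lit 299) ln11_9_4 ln11_9_4_ok) (M (nat_lit 460) (B (L (nat_lit 364) ln12_14_7 ln12_14_7_ok) (L (nat_lit 492) ln12_15_7 ln12_15_7_ok))))) (B (M (nat_lit 427) (B (M (nat_lit 426) (B (L (nat_lit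 458) ln11_10_5 ln11_10_5_ok) (M (nat_lit 425) (B (L (nat_lit 394) ln13_12_1 ln13_12_1_ok) (L (nat_lit 424) ln8_13_2 ln8_13_2_ok))))) (B (M (nat_lit 428) (B (L (nat_lit 460) ln11_10_4 ln11_10_4_ok) (M (nat_lit 426) (B (L (nat_lit 458) ln11_10_5 ln11_10_5_ok) (L (nat_lit 425) ln9_13_2 ln9_13_2_ok))))) (M (nat_lit 459) (B (M (nat_lit 332) (B (L (nat_lit 300) ln11_13_6 ln11_13_6_ok) (L (nat_lit 364) ln11_14_6 ln11_14_6_ok))) (M (nat_lit 460) (B (L (nat_lit 428) ln11_10_4 ln11_10_4_ok) (L (nat_lit 492) ln11_11_4 ln11_11_4_ok)))))))) (B (M (nat_lit 428) (B (L (nat_lit 299) ln11_9_4 ln11_9_4_ok) (M (nat_lit 460) (B (L (nat_lit 427) ln11_10_4 ln11_10_4_ok) (L (nat_lit 492) ln12_15_7 ln12_15_7_ok))))) (M (nat_lit 299) (B (M (nat_lit 267) (B (L (nat_lit 364) ln11_8_4 ln11_8_4_ok) (M (nat_lit 268) (B (L (nat_lit 236) ln11_11_6 ln11_11_6_ok) (L (nat_lit 300) ln11_12_6 ln11_12_6_ok))))) (B (M (nat_lit 267) (B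 (L (nat_lit 364) ln11_8_4 ln11_8_4_ok) (M (nat_lit 266) (B (L (nat_lit 234) ln11_11_7 ln11_11_7_ok) (L (nat_lit 298) ln11_12_7 ln11_12_7_ok))))) (B (M (nat_lit 300) (B (L (nat_lit 268) ln11_12_6 ln11_12_6_ok) (M (nat_lit 332) (B (L (nat_lit 427) ln11_13_6 ln11_13_6_ok) (L (nat_lit 364) ln12_9_4 ln12_9_4_ok))))) (M (nat_lit 267) (B (M (nat_lit 266) (B (L (nat_lit 234) ln11_11_7 ln11_11_7_ok) (L (nat_lit 298) ln11_12_7 ln11_12_7_ok))) (M (nat_lit 268) (B (L (nat_lit 236) ln11_11_6 ln11_11_6_ok) (L (nat_lit 300) ln11_12_6 ln11_12_6_ok))))))))))))) (B (M (nat_lit 394) (B (M (nat_lit 393) (B (L (nat_lit 428) ln9_12_0 ln9_12_0_ok) (M (nat_lit 425) (B (L (nat_lit 424) ln12_12_1 ln12_12_1_ok) (L (nat_lit 426) ln13_12_1 ln13_12_1_ok))))) (B (M (nat_lit 362) (B (L (nat_lit 361) ln13_12_3 ln13_12_3_ok) (M (nat_lit 426) (B (L (nat_lit 425) ln13_12_1 ln13_12_1_ok) (M (nat_lit 331) (B (L (nat_lit 299) ln11_9_5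 ln11_9_5_ok) (L (nat_lit 458) ln10_14_6 ln10_14_6_ok))))))) (M (nat_lit 428) (B (L (nat_lit 393) ln9_12_0 ln9_12_0_ok) (M (nat_lit 365) (B (L (nat_lit 366) ln10_12_2 ln10_12_2_ok) (M (nat_lit 460) (B (L (nat_lit 333) ln13_10_5 ln13_10_5_ok) (L (nat_lit 492) ln12_15_7 ln12_15_7_ok)))))))))) (B (M (nat_lit 331) (B (M (nat_lit 428) (B (L (nat_lit 299) ln11_9_4 ln11_9_4_ok) (M (nat_lit 460) (B (L (nat_lit 427) ln11_10_4 ln11_10_4_ok) (L (nat_lit 492) ln12_15_7 ln12_15_7_ok))))) (B (M (nat_lit 427) (B (M (nat_lit 428) (B (L (nat_lit 460) ln11_10_4 ln11_10_4_ok) (M (nat_lit 426) (B (L (nat_lit 458) ln11_10_5 ln11_10_5_ok) (L (nat_lit 425) ln9_13_2 ln9_13_2_ok))))) (B (M (nat_lit 459) (B (M (nat_lit 330) (B (L (nat_lit 298) ln11_13_7 ln11_13_7_ok) (L (nat_lit 362) ln11_14_7 ln11_14_7_ok))) (M (nat_lit 460) (B (L (nat_lit 428) ln11_10_4 ln11_10_4_ok) (L (nat_lit 492) ln11_11_4 ln11_11_4_ok))))) (M (nat_lit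 459) (B (M (nat_lit 330) (B (L (nat_lit 298) ln11_13_7 ln11_13_7_ok) (L (nat_lit 362) ln11_14_7 ln11_14_7_ok))) (M (nat_lit 458) (B (L (nat_lit 426) ln11_10_5 ln11_10_5_ok) (L (nat_lit 490) ln11_11_5 ln11_11_5_ok)))))))) (B (M (nat_lit 428) (B (L (nat_lit 299) ln11_9_4 ln11_9_4_ok) (M (nat_lit 460) (B (L (nat_lit 364) ln12_14_7 ln12_14_7_ok) (L (nat_lit 492) ln12_15_7 ln12_15_7_ok))))) (M (nat_lit 299) (B (M (nat_lit 267) (B (L (nat_lit 364) ln11_8_4 ln11_8_4_ok) (M (nat_lit 268) (B (L (nat_lit 236) ln11_11_6 ln11_11_6_ok) (L (nat_lit 300) ln11_12_6 ln11_12_6_ok))))) (B (M (nat_lit 267) (B (L (nat_lit 364) ln11_8_4 ln11_8_4_ok) (M (nat_lit 266) (B (L (nat_lit 234) ln11_11_7 ln11_11_7_ok) (L (nat_lit 298) ln11_12_7 ln11_12_7_ok))))) (B (M (nat_lit 300) (B (L (nat_lit 268) ln11_12_6 ln11_12_6_ok) (M (nat_lit 332) (B (L (nat_lit 427) ln11_13_6 ln11_13_6_ok) (L (nat_lit 364) ln12_9_4 ln12_9_4_ok)))))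 (M (nat_lit 267) (B (M (nat_lit 266) (B (L (nat_lit 234) ln11_11_7 ln11_11_7_ok) (L (nat_lit 298) ln11_12_7 ln11_12_7_ok))) (M (nat_lit 268) (B (L (nat_lit 236) ln11_11_6 ln11_11_6_ok) (L (nat_lit 300) ln11_12_6 ln11_12_6_ok))))))))))))) (M (nat_lit 394) (B (M (nat_lit 362) (B (L (nat_lit 361) ln13_12_3 ln13_12_3_ok) (M (nat_lit 426) (B (L (nat_lit 425) ln13_12_1 ln13_12_1_ok) (M (nat_lit 331) (B (L (nat_lit 299) ln11_9_5 ln11_9_5_ok) (L (nat_lit 458) ln10_14_6 ln10_14_6_ok))))))) (B (M (nat_lit 393) (B (M (nat_lit 361) (B (L (nat_lit 360) ln12_12_3 ln12_12_3_ok) (L (nat_lit 362) ln13_12_3 ln13_12_3_ok))) (M (nat_lit 365) (B (L (nat_lit 364) ln9_12_2 ln9_12_2_ok) (L (nat_lit 366) ln10_12_2 ln10_12_2_ok))))) (M (nat_lit 365) (B (L (nat_lit 366) ln10_12_2 ln10_12_2_ok) (M (nat_lit 393) (B (L (nat_lit 364) ln9_12_2 ln9_12_2_ok) (M (nat_lit 425) (B (L (nat_lit 424) ln12_12_1 ln12_12_1_ok) (L (nat_lit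 426) ln13_12_1 ln13_12_1_ok))))))))))))))))) (nat_lit 1386334847625274590620718346058774170593877385197531429766632433739017388146079478836171214377304710078725756107305604783525593088) (nat_lit 15983352582827860201767699891148855720700100543071153892187009272001709738495649981473983691858042805729384930070808465016942233700224427947576000512) (nat_lit 15983352582827860201767699891148855720700100543071153892187009272001709738495649981473983691858042805729384930070808465016942233700224427947576000512) (by decide +kernel)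
theorem c21_s7731 : Sem (nat_lit 1386334847544579281930502452632026696468783264124728123740719198963059283254184240648144927045128292788721448874933630659377233920) (nat_lit 15983352582827860201767699893166238437955497878739840745314362298821792389143480850872936314155423760430042113375218897267049914509523781051284979712) (nat_lit 15983352582827860201767699893166238437955497878739840745314362298821792389143480850872936314155423760430042113375218897267049914509523781051284979712) :=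
  sem_of_chk (M (nat_lit 395) (B (M (nat_lit 394) (B (M (nat_lit 393) (B (L (nat_lit 428) ln9_12_0 ln9_12_0_ok) (M (nat_lit 361) (B (L (nat_lit 360) ln12_12_3 ln12_12_3_ok) (L (nat_lit 362) ln13_12_3 ln13_12_3_ok))))) (B (M (nat_lit 393) (B (L (nat_lit 428) ln9_12_0 ln9_12_0_ok) (M (nat_lit 365) (B (L (nat_lit 364) ln9_12_2 ln9_12_2_ok) (L (nat_lit 366) ln10_12_2 ln10_12_2_ok))))) (M (nat_lit 398) (B (M (nat_lit 362) (B (L (nat_lit 361) ln13_12_3 ln13_12_3_ok) (L (nat_lit 363) ln14_12_3 ln14_12_3_ok))) (M (nat_lit 426) (B (L (nat_lit 425) ln13_12_1 ln13_12_1_ok) (L (nat_lit 427) ln14_12_1 ln14_12_1_ok)))))))) (B (M (nat_lit 394) (B (M (nat_lit 393) (B (L (nat_lit 428) ln9_12_0 ln9_12_0_ok) (M (nat_lit 365) (B (L (nat_lit 364) ln9_12_2 ln9_12_2_ok) (L (nat_lit 366) ln10_12_2 ln10_12_2_ok))))) (M (nat_lit 398) (B (M (nat_lit 362) (B (L (nat_lit 361) ln13_12_3 ln13_12_3_ok) (L (nat_lit 363) ln14_12_3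 ln14_12_3_ok))) (M (nat_lit 426) (B (L (nat_lit 425) ln13_12_1 ln13_12_1_ok) (L (nat_lit 427) ln14_12_1 ln14_12_1_ok))))))) (B (M (nat_lit 394) (B (M (nat_lit 393) (B (L (nat_lit 428) ln9_12_0 ln9_12_0_ok) (M (nat_lit 425) (B (L (nat_lit 424) ln12_12_1 ln12_12_1_ok) (L (nat_lit 426) ln13_12_1 ln13_12_1_ok))))) (B (M (nat_lit 398) (B (M (nat_lit 366) (B (L (nat_lit 365) ln10_12_2 ln10_12_2_ok) (L (nat_lit 367) ln11_12_2 ln11_12_2_ok))) (M (nat_lit 426) (B (L (nat_lit 425) ln13_12_1 ln13_12_1_ok) (L (nat_lit 427) ln14_12_1 ln14_12_1_ok))))) (M (nat_lit 393) (B (L (nat_lit 428) ln9_12_0 ln9_12_0_ok) (M (nat_lit 365) (B (L (nat_lit 364) ln9_12_2 ln9_12_2_ok) (L (nat_lit 366) ln10_12_2 ln10_12_2_ok)))))))) (B (M (nat_lit 394) (B (M (nat_lit 393) (B (L (nat_lit 428) ln9_12_0 ln9_12_0_ok) (M (nat_lit 425) (B (L (nat_lit 424) ln12_12_1 ln12_12_1_ok) (L (nat_lit 426) ln13_12_1 ln13_12_1_ok))))) (B (M (nat_lit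 398) (B (M (nat_lit 366) (B (L (nat_lit 365) ln10_12_2 ln10_12_2_ok) (L (nat_lit 367) ln11_12_2 ln11_12_2_ok))) (M (nat_lit 426) (B (L (nat_lit 425) ln13_12_1 ln13_12_1_ok) (L (nat_lit 427) ln14_12_1 ln14_12_1_ok))))) (M (nat_lit 393) (B (L (nat_lit 428) ln9_12_0 ln9_12_0_ok) (M (nat_lit 361) (B (L (nat_lit 360) ln12_12_3 ln12_12_3_ok) (L (nat_lit 362) ln13_12_3 ln13_12_3_ok)))))))) (B (M (nat_lit 394) (B (M (nat_lit 393) (B (L (nat_lit 428) ln9_12_0 ln9_12_0_ok) (M (nat_lit 425) (B (L (nat_lit 424) ln12_12_1 ln12_12_1_ok) (L (nat_lit 426) ln13_12_1 ln13_12_1_ok))))) (B (M (nat_lit 398) (B (M (nat_lit 362) (B (L (nat_lit 361) ln13_12_3 ln13_12_3_ok) (L (nat_lit 363) ln14_12_3 ln14_12_3_ok))) (M (nat_lit 426) (B (L (nat_lit 425) ln13_12_1 ln13_12_1_ok) (L (nat_lit 427) ln14_12_1 ln14_12_1_ok))))) (M (nat_lit 393) (B (L (nat_lit 428) ln9_12_0 ln9_12_0_ok) (M (nat_lit 361) (B (L (nat_lit 360) ln12_12_3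 ln12_12_3_ok) (L (nat_lit 362) ln13_12_3 ln13_12_3_ok)))))))) (B (M (nat_lit 398) (B (M (nat_lit 427) (B (L (nat_lit 426) ln14_12_1 ln14_12_1_ok) (M (nat_lit 399) (B (L (nat_lit 428) ln15_12_1 ln15_12_1_ok) (M (nat_lit 367) (B (L (nat_lit 366) ln11_12_2 ln11_12_2_ok) (L (nat_lit 368) ln12_12_2 ln12_12_2_ok))))))) (B (M (nat_lit 427) (B (L (nat_lit 426) ln14_12_1 ln14_12_1_ok) (M (nat_lit 399) (B (L (nat_lit 428) ln15_12_1 ln15_12_1_ok) (M (nat_lit 363) (B (L (nat_lit 362) ln14_12_3 ln14_12_3_ok) (L (nat_lit 364) ln15_12_3 ln15_12_3_ok))))))) (M (nat_lit 394) (B (M (nat_lit 362) (B (L (nat_lit 361) ln13_12_3 ln13_12_3_ok) (L (nat_lit 363) ln14_12_3 ln14_12_3_ok))) (M (nat_lit 366) (B (L (nat_lit 365) ln10_12_2 ln10_12_2_ok) (L (nat_lit 367) ln11_12_2 ln11_12_2_ok)))))))) (B c21_n7637 (B (K (nat_lit 1386334847625274590620718346058774170593877385197531429766632433739017388146079478836171214377304710078725756107305604783525593088)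 (nat_lit 15983352582827860201767699891148855720700100543071153892187009272001709738495649981473983691858042805729384930070808465016942233700224427947576000512) (nat_lit 15983352582827860201767699891148855720700100543071153892187009272001709738495649981473983691858042805729384930070808465016942233700224427947576000512) c21_s7728) (B (M (nat_lit 394) (B (M (nat_lit 393) (B (L (nat_lit 428) ln9_12_0 ln9_12_0_ok) (M (nat_lit 361) (B (L (nat_lit 360) ln12_12_3 ln12_12_3_ok) (L (nat_lit 362) ln13_12_3 ln13_12_3_ok))))) (B (M (nat_lit 393) (B (L (nat_lit 428) ln9_12_0 ln9_12_0_ok) (M (nat_lit 365) (B (L (nat_lit 364) ln9_12_2 ln9_12_2_ok) (L (nat_lit 366) ln10_12_2 ln10_12_2_ok))))) (M (nat_lit 398) (B (M (nat_lit 362) (B (L (nat_lit 361) ln13_12_3 ln13_12_3_ok) (L (nat_lit 363) ln14_12_3 ln14_12_3_ok))) (M (nat_lit 366) (B (L (nat_lit 365) ln10_12_2 ln10_12_2_ok) (L (nat_lit 367) ln11_12_2 ln11_12_2_ok))))))))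 (M (nat_lit 398) (B (M (nat_lit 399) (B (M (nat_lit 363) (B (L (nat_lit 362) ln14_12_3 ln14_12_3_ok) (L (nat_lit 364) ln15_12_3 ln15_12_3_ok))) (M (nat_lit 367) (B (L (nat_lit 366) ln11_12_2 ln11_12_2_ok) (L (nat_lit 368) ln12_12_2 ln12_12_2_ok))))) (B (M (nat_lit 394) (B (M (nat_lit 366) (B (L (nat_lit 365) ln10_12_2 ln10_12_2_ok) (L (nat_lit 367) ln11_12_2 ln11_12_2_ok))) (M (nat_lit 426) (B (L (nat_lit 425) ln13_12_1 ln13_12_1_ok) (L (nat_lit 427) ln14_12_1 ln14_12_1_ok))))) (M (nat_lit 394) (B (M (nat_lit 362) (B (L (nat_lit 361) ln13_12_3 ln13_12_3_ok) (L (nat_lit 363) ln14_12_3 ln14_12_3_ok))) (M (nat_lit 426) (B (L (nat_lit 425) ln13_12_1 ln13_12_1_ok) (L (nat_lit 427) ln14_12_1 ln14_12_1_ok)))))))))))))))))) (nat_lit 1386334847544579281930502452632026696468783264124728123740719198963059283254184240648144927045128292788721448874933630659377233920) (nat_lit 15983352582827860201767699893166238437955497878739840745314362298821792389143480850872936314155423760430042113375218897267049914509523781051284979712)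 (nat_lit 15983352582827860201767699893166238437955497878739840745314362298821792389143480850872936314155423760430042113375218897267049914509523781051284979712) (by decide +kernel)
theorem c21_s7732 : Sem (nat_lit 1386334847383188664550070665778531748218595021979121511688892729411143073470393764272092352380775458208712834410189682411080515584) (nat_lit 315780692439531468763700332895626007469549641796701256409483812874199339117649559461070249940345957095527892845087106415744437937588787709334709971945154150400) (nat_lit 315780692439531468763700332895626007469549641796701256409483812874199339117649559461070249940345957095527892845087106415744437937588787709334709971945154150400) :=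
  sem_of_chk (M (nat_lit 396) (B (M (nat_lit 395) (B (M (nat_lit 430) (B (L (nat_lit 394) ln10_12_0 ln10_12_0_ok) (M (nat_lit 431) (B (L (nat_lit 398) ln11_12_0 ln11_12_0_ok) (L (nat_lit 432) ln16_13_3 ln16_13_3_ok))))) (B (M (nat_lit 398) (B (M (nat_lit 399) (B (M (nat_lit 427) (B (L (nat_lit 426) ln14_12_1 ln14_12_1_ok) (L (nat_lit 428) ln15_12_1 ln15_12_1_ok))) (M (nat_lit 431) (B (L (nat_lit 430) ln11_12_0 ln11_12_0_ok) (L (nat_lit 432) ln12_12_0 ln12_12_0_ok))))) (B (M (nat_lit 428) (B (M (nat_lit 427) (B (L (nat_lit 426) ln14_12_1 ln14_12_1_ok) (M (nat_lit 363) (B (L (nat_lit 362) ln14_12_3 ln14_12_3_ok) (M (nat_lit 331) (B (L (nat_lit 299) ln11_9_4 ln11_9_4_ok) (L (nat_lit 460) ln11_10_4 ln11_10_4_ok))))))) (B (M (nat_lit 427) (B (L (nat_lit 426) ln14_12_1 ln14_12_1_ok) (M (nat_lit 363) (B (L (nat_lit 362) ln14_12_3 ln14_12_3_ok) (M (nat_lit 460) (B (L (nat_lit 331) ln11_10_4 ln11_10_4_ok)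 (L (nat_lit 492) ln12_15_7 ln12_15_7_ok))))))) (B (M (nat_lit 427) (B (L (nat_lit 426) ln14_12_1 ln14_12_1_ok) (M (nat_lit 459) (B (M (nat_lit 364) (B (L (nat_lit 332) ln12_10_5 ln12_10_5_ok) (L (nat_lit 491) ln11_15_6 ln11_15_6_ok))) (M (nat_lit 430) (B (L (nat_lit 431) ln11_12_0 ln11_12_0_ok) (L (nat_lit 458) ln14_13_1 ln14_13_1_ok))))))) (M (nat_lit 363) (B (L (nat_lit 362) ln14_12_3 ln14_12_3_ok) (M (nat_lit 460) (B (L (nat_lit 492) ln12_15_7 ln12_15_7_ok) (M (nat_lit 331) (B (L (nat_lit 299) ln11_9_4 ln11_9_4_ok) (L (nat_lit 364) ln12_14_7 ln12_14_7_ok))))))))))) (B (M (nat_lit 399) (B (M (nat_lit 363) (B (L (nat_lit 362) ln14_12_3 ln14_12_3_ok) (L (nat_lit 364) ln15_12_3 ln15_12_3_ok))) (M (nat_lit 431) (B (L (nat_lit 430) ln11_12_0 ln11_12_0_ok) (L (nat_lit 432) ln12_12_0 ln12_12_0_ok))))) (M (nat_lit 399) (B (M (nat_lit 363) (B (L (nat_lit 362) ln14_12_3 ln14_12_3_ok) (L (nat_lit 364) ln15_12_3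 ln15_12_3_ok))) (M (nat_lit 367) (B (L (nat_lit 366) ln11_12_2 ln11_12_2_ok) (L (nat_lit 368) ln12_12_2 ln12_12_2_ok))))))))) (B (M (nat_lit 430) (B (L (nat_lit 394) ln10_12_0 ln10_12_0_ok) (M (nat_lit 431) (B (L (nat_lit 428) ln15_13_3 ln15_13_3_ok) (L (nat_lit 432) ln16_13_3 ln16_13_3_ok))))) (M (nat_lit 394) (B (M (nat_lit 393) (B (L (nat_lit 428) ln9_12_0 ln9_12_0_ok) (M (nat_lit 425) (B (L (nat_lit 424) ln12_12_1 ln12_12_1_ok) (L (nat_lit 426) ln13_12_1 ln13_12_1_ok))))) (B (M (nat_lit 398) (B (M (nat_lit 362) (B (L (nat_lit 361) ln13_12_3 ln13_12_3_ok) (L (nat_lit 363) ln14_12_3 ln14_12_3_ok))) (M (nat_lit 426) (B (L (nat_lit 425) ln13_12_1 ln13_12_1_ok) (L (nat_lit 427) ln14_12_1 ln14_12_1_ok))))) (M (nat_lit 393) (B (L (nat_lit 428) ln9_12_0 ln9_12_0_ok) (M (nat_lit 361) (B (L (nat_lit 360) ln12_12_3 ln12_12_3_ok) (L (nat_lit 362) ln13_12_3 ln13_12_3_ok)))))))))))) (B (M (nat_lit 395) (B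 (M (nat_lit 430) (B (L (nat_lit 394) ln10_12_0 ln10_12_0_ok) (M (nat_lit 431) (B (L (nat_lit 428) ln15_13_3 ln15_13_3_ok) (L (nat_lit 432) ln16_13_3 ln16_13_3_ok))))) (B (M (nat_lit 398) (B (M (nat_lit 399) (B (M (nat_lit 427) (B (L (nat_lit 426) ln14_12_1 ln14_12_1_ok) (L (nat_lit 428) ln15_12_1 ln15_12_1_ok))) (M (nat_lit 431) (B (L (nat_lit 430) ln11_12_0 ln11_12_0_ok) (L (nat_lit 432) ln12_12_0 ln12_12_0_ok))))) (B (M (nat_lit 427) (B (L (nat_lit 426) ln14_12_1 ln14_12_1_ok) (M (nat_lit 428) (B (M (nat_lit 363) (B (L (nat_lit 362) ln14_12_3 ln14_12_3_ok) (M (nat_lit 460) (B (L (nat_lit 331) ln11_10_4 ln11_10_4_ok) (L (nat_lit 492) ln12_15_7 ln12_15_7_ok))))) (M (nat_lit 459) (B (M (nat_lit 364) (B (L (nat_lit 332) ln12_10_5 ln12_10_5_ok) (L (nat_lit 491) ln11_15_6 ln11_15_6_ok))) (M (nat_lit 430) (B (L (nat_lit 431) ln11_12_0 ln11_12_0_ok) (L (nat_lit 458) ln14_13_1 ln14_13_1_ok))))))))) (B (M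 (nat_lit 399) (B (M (nat_lit 363) (B (L (nat_lit 362) ln14_12_3 ln14_12_3_ok) (L (nat_lit 364) ln15_12_3 ln15_12_3_ok))) (M (nat_lit 431) (B (L (nat_lit 430) ln11_12_0 ln11_12_0_ok) (L (nat_lit 432) ln12_12_0 ln12_12_0_ok))))) (M (nat_lit 427) (B (L (nat_lit 426) ln14_12_1 ln14_12_1_ok) (M (nat_lit 399) (B (L (nat_lit 428) ln15_12_1 ln15_12_1_ok) (M (nat_lit 363) (B (L (nat_lit 362) ln14_12_3 ln14_12_3_ok) (L (nat_lit 364) ln15_12_3 ln15_12_3_ok))))))))))) (B (M (nat_lit 430) (B (L (nat_lit 394) ln10_12_0 ln10_12_0_ok) (M (nat_lit 431) (B (L (nat_lit 398) ln11_12_0 ln11_12_0_ok) (L (nat_lit 432) ln16_13_3 ln16_13_3_ok))))) (M (nat_lit 394) (B (M (nat_lit 393) (B (L (nat_lit 428) ln9_12_0 ln9_12_0_ok) (M (nat_lit 425) (B (L (nat_lit 424) ln12_12_1 ln12_12_1_ok) (L (nat_lit 426) ln13_12_1 ln13_12_1_ok))))) (B (M (nat_lit 398) (B (M (nat_lit 362) (B (L (nat_lit 361) ln13_12_3 ln13_12_3_ok) (L (nat_lit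 363) ln14_12_3 ln14_12_3_ok))) (M (nat_lit 426) (B (L (nat_lit 425) ln13_12_1 ln13_12_1_ok) (L (nat_lit 427) ln14_12_1 ln14_12_1_ok))))) (M (nat_lit 393) (B (L (nat_lit 428) ln9_12_0 ln9_12_0_ok) (M (nat_lit 361) (B (L (nat_lit 360) ln12_12_3 ln12_12_3_ok) (L (nat_lit 362) ln13_12_3 ln13_12_3_ok)))))))))))) (B (K (nat_lit 1386334847544579281930502452632026696468783264124728123740719198963059283254184240648144927045128292788721448874933630659377233920) (nat_lit 82377571940747339690414912940743112983886355557184074530086741999186207958099142106525112683518107432661935781119780146995869034287976086196040089837405995008) (nat_lit 82377571940747339690414912940743112983886355557184074530086741999186207958099142106525112683518107432661935781119780146995869034287976086196040089837405995008) c21_s6250) (B (M (nat_lit 395) (B (M (nat_lit 430) (B (L (nat_lit 394) ln10_12_0 ln10_12_0_ok) (M (nat_lit 431) (B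 (L (nat_lit 398) ln11_12_0 ln11_12_0_ok) (L (nat_lit 432) ln16_13_3 ln16_13_3_ok))))) (B (M (nat_lit 398) (B (M (nat_lit 427) (B (L (nat_lit 426) ln14_12_1 ln14_12_1_ok) (M (nat_lit 399) (B (L (nat_lit 428) ln15_12_1 ln15_12_1_ok) (M (nat_lit 367) (B (L (nat_lit 366) ln11_12_2 ln11_12_2_ok) (L (nat_lit 368) ln12_12_2 ln12_12_2_ok))))))) (B (M (nat_lit 399) (B (M (nat_lit 363) (B (L (nat_lit 362) ln14_12_3 ln14_12_3_ok) (L (nat_lit 364) ln15_12_3 ln15_12_3_ok))) (M (nat_lit 431) (B (L (nat_lit 430) ln11_12_0 ln11_12_0_ok) (L (nat_lit 432) ln12_12_0 ln12_12_0_ok))))) (M (nat_lit 428) (B (M (nat_lit 427) (B (L (nat_lit 426) ln14_12_1 ln14_12_1_ok) (M (nat_lit 363) (B (L (nat_lit 362) ln14_12_3 ln14_12_3_ok) (M (nat_lit 331) (B (L (nat_lit 299) ln11_9_4 ln11_9_4_ok) (L (nat_lit 460) ln11_10_4 ln11_10_4_ok))))))) (B (M (nat_lit 427) (B (L (nat_lit 426) ln14_12_1 ln14_12_1_ok) (M (nat_lit 363) (B (L (nat_lit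 362) ln14_12_3 ln14_12_3_ok) (M (nat_lit 460) (B (L (nat_lit 331) ln11_10_4 ln11_10_4_ok) (L (nat_lit 492) ln12_15_7 ln12_15_7_ok))))))) (B (M (nat_lit 427) (B (L (nat_lit 426) ln14_12_1 ln14_12_1_ok) (M (nat_lit 459) (B (M (nat_lit 491) (B (L (nat_lit 364) ln11_15_6 ln11_15_6_ok) (L (nat_lit 523) ln11_16_6 ln11_16_6_ok))) (M (nat_lit 430) (B (L (nat_lit 431) ln11_12_0 ln11_12_0_ok) (L (nat_lit 458) ln14_13_1 ln14_13_1_ok))))))) (B (M (nat_lit 363) (B (L (nat_lit 362) ln14_12_3 ln14_12_3_ok) (M (nat_lit 460) (B (L (nat_lit 492) ln12_15_7 ln12_15_7_ok) (M (nat_lit 331) (B (L (nat_lit 299) ln11_9_4 ln11_9_4_ok) (L (nat_lit 427) ln11_10_4 ln11_10_4_ok))))))) (M (nat_lit 363) (B (L (nat_lit 362) ln14_12_3 ln14_12_3_ok) (M (nat_lit 460) (B (L (nat_lit 492) ln12_15_7 ln12_15_7_ok) (M (nat_lit 331) (B (L (nat_lit 299) ln11_9_4 ln11_9_4_ok) (L (nat_lit 364) ln12_14_7 ln12_14_7_ok))))))))))))))) (B (M (nat_lit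 430) (B (L (nat_lit 394) ln10_12_0 ln10_12_0_ok) (M (nat_lit 431) (B (L (nat_lit 428) ln15_13_3 ln15_13_3_ok) (L (nat_lit 432) ln16_13_3 ln16_13_3_ok))))) (M (nat_lit 394) (B (M (nat_lit 393) (B (L (nat_lit 428) ln9_12_0 ln9_12_0_ok) (M (nat_lit 425) (B (L (nat_lit 424) ln12_12_1 ln12_12_1_ok) (L (nat_lit 426) ln13_12_1 ln13_12_1_ok))))) (B (M (nat_lit 398) (B (M (nat_lit 362) (B (L (nat_lit 361) ln13_12_3 ln13_12_3_ok) (L (nat_lit 363) ln14_12_3 ln14_12_3_ok))) (M (nat_lit 426) (B (L (nat_lit 425) ln13_12_1 ln13_12_1_ok) (L (nat_lit 427) ln14_12_1 ln14_12_1_ok))))) (M (nat_lit 393) (B (L (nat_lit 428) ln9_12_0 ln9_12_0_ok) (M (nat_lit 361) (B (L (nat_lit 360) ln12_12_3 ln12_12_3_ok) (L (nat_lit 362) ln13_12_3 ln13_12_3_ok)))))))))))) (B (K (nat_lit 1386334847544579281930502452632026696468783264124728123740719198963059283254184240648144927045128292788721448874933630659377233920) (nat_lit 82377571940747339690414912940743112983886355557775907260945747972614357068490055037423784685843004040080173105945896821324750362040828233789001803001453608960)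 (nat_lit 82377571940747339690414912940743112983886355557775907260945747972614357068490055037423784685843004040080173105945896821324750362040828233789001803001453608960) c21_s6261) (B c21_n6318 (B (M (nat_lit 395) (B (M (nat_lit 430) (B (L (nat_lit 394) ln10_12_0 ln10_12_0_ok) (M (nat_lit 431) (B (L (nat_lit 428) ln15_13_3 ln15_13_3_ok) (L (nat_lit 432) ln16_13_3 ln16_13_3_ok))))) (B (M (nat_lit 430) (B (M (nat_lit 431) (B (L (nat_lit 398) ln11_12_0 ln11_12_0_ok) (L (nat_lit 428) ln15_13_3 ln15_13_3_ok))) (B (M (nat_lit 431) (B (L (nat_lit 428) ln15_13_3 ln15_13_3_ok) (L (nat_lit 432) ln16_13_3 ln16_13_3_ok))) (B (M (nat_lit 431) (B (L (nat_lit 398) ln11_12_0 ln11_12_0_ok) (L (nat_lit 432) ln16_13_3 ln16_13_3_ok))) (K (nat_lit 4159004541746089450199132530201857874030314460573348004937112014353638695951705101876145620481444288176116967068709176612499750912) (nat_lit 68647976674829519024351904087062483271764502956856796103243680441756650680886640082929134848624401250579472956488700770482595146668471115389007116075966398464)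 (nat_lit 68647976674829519024351904087062483271764502956856796103243680441756650680886640082929134848624401250579472956488700770482595146668471115389007116075966398464) c21_s6479))))) (B (M (nat_lit 430) (B (L (nat_lit 394) ln10_12_0 ln10_12_0_ok) (M (nat_lit 431) (B (L (nat_lit 398) ln11_12_0 ln11_12_0_ok) (L (nat_lit 432) ln16_13_3 ln16_13_3_ok))))) (M (nat_lit 394) (B (M (nat_lit 393) (B (L (nat_lit 428) ln9_12_0 ln9_12_0_ok) (M (nat_lit 425) (B (L (nat_lit 424) ln12_12_1 ln12_12_1_ok) (L (nat_lit 426) ln13_12_1 ln13_12_1_ok))))) (B (M (nat_lit 398) (B (M (nat_lit 366) (B (L (nat_lit 365) ln10_12_2 ln10_12_2_ok) (L (nat_lit 367) ln11_12_2 ln11_12_2_ok))) (M (nat_lit 426) (B (L (nat_lit 425) ln13_12_1 ln13_12_1_ok) (L (nat_lit 427) ln14_12_1 ln14_12_1_ok))))) (M (nat_lit 393) (B (L (nat_lit 428) ln9_12_0 ln9_12_0_ok) (M (nat_lit 361) (B (L (nat_lit 360) ln12_12_3 ln12_12_3_ok) (L (nat_lit 362)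 ln13_12_3 ln13_12_3_ok)))))))))))) (B (M (nat_lit 395) (B (M (nat_lit 430) (B (L (nat_lit 394) ln10_12_0 ln10_12_0_ok) (M (nat_lit 431) (B (L (nat_lit 398) ln11_12_0 ln11_12_0_ok) (L (nat_lit 432) ln16_13_3 ln16_13_3_ok))))) (B (M (nat_lit 398) (B (M (nat_lit 427) (B (L (nat_lit 426) ln14_12_1 ln14_12_1_ok) (M (nat_lit 399) (B (L (nat_lit 428) ln15_12_1 ln15_12_1_ok) (M (nat_lit 367) (B (L (nat_lit 366) ln11_12_2 ln11_12_2_ok) (L (nat_lit 368) ln12_12_2 ln12_12_2_ok))))))) (B (M (nat_lit 399) (B (M (nat_lit 363) (B (L (nat_lit 362) ln14_12_3 ln14_12_3_ok) (L (nat_lit 364) ln15_12_3 ln15_12_3_ok))) (M (nat_lit 431) (B (L (nat_lit 430) ln11_12_0 ln11_12_0_ok) (L (nat_lit 432) ln12_12_0 ln12_12_0_ok))))) (M (nat_lit 428) (B (M (nat_lit 427) (B (L (nat_lit 426) ln14_12_1 ln14_12_1_ok) (M (nat_lit 363) (B (L (nat_lit 362) ln14_12_3 ln14_12_3_ok) (M (nat_lit 331) (B (L (nat_lit 299) ln11_9_4 ln11_9_4_ok)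 (L (nat_lit 460) ln11_10_4 ln11_10_4_ok))))))) (B (M (nat_lit 427) (B (L (nat_lit 426) ln14_12_1 ln14_12_1_ok) (M (nat_lit 363) (B (L (nat_lit 362) ln14_12_3 ln14_12_3_ok) (M (nat_lit 460) (B (L (nat_lit 331) ln11_10_4 ln11_10_4_ok) (L (nat_lit 492) ln12_15_7 ln12_15_7_ok))))))) (B (M (nat_lit 427) (B (L (nat_lit 426) ln14_12_1 ln14_12_1_ok) (M (nat_lit 459) (B (M (nat_lit 364) (B (L (nat_lit 332) ln12_10_5 ln12_10_5_ok) (L (nat_lit 491) ln11_15_6 ln11_15_6_ok))) (M (nat_lit 430) (B (L (nat_lit 431) ln11_12_0 ln11_12_0_ok) (L (nat_lit 458) ln14_13_1 ln14_13_1_ok))))))) (M (nat_lit 363) (B (L (nat_lit 362) ln14_12_3 ln14_12_3_ok) (M (nat_lit 460) (B (L (nat_lit 492) ln12_15_7 ln12_15_7_ok) (M (nat_lit 331) (B (L (nat_lit 299) ln11_9_4 ln11_9_4_ok) (L (nat_lit 364) ln12_14_7 ln12_14_7_ok)))))))))))))) (B (M (nat_lit 430) (B (L (nat_lit 394) ln10_12_0 ln10_12_0_ok) (M (nat_lit 431) (B (L (nat_lit 428)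 ln15_13_3 ln15_13_3_ok) (L (nat_lit 432) ln16_13_3 ln16_13_3_ok))))) (M (nat_lit 398) (B (M (nat_lit 427) (B (L (nat_lit 426) ln14_12_1 ln14_12_1_ok) (M (nat_lit 399) (B (L (nat_lit 428) ln15_12_1 ln15_12_1_ok) (M (nat_lit 367) (B (L (nat_lit 366) ln11_12_2 ln11_12_2_ok) (L (nat_lit 368) ln12_12_2 ln12_12_2_ok))))))) (B (M (nat_lit 427) (B (L (nat_lit 426) ln14_12_1 ln14_12_1_ok) (M (nat_lit 399) (B (L (nat_lit 428) ln15_12_1 ln15_12_1_ok) (M (nat_lit 363) (B (L (nat_lit 362) ln14_12_3 ln14_12_3_ok) (L (nat_lit 364) ln15_12_3 ln15_12_3_ok))))))) (M (nat_lit 394) (B (M (nat_lit 362) (B (L (nat_lit 361) ln13_12_3 ln13_12_3_ok) (L (nat_lit 363) ln14_12_3 ln14_12_3_ok))) (M (nat_lit 366) (B (L (nat_lit 365) ln10_12_2 ln10_12_2_ok) (L (nat_lit 367) ln11_12_2 ln11_12_2_ok)))))))))))) (B (K (nat_lit 1386334847544579281930502452632026696468783264124728123740719198963059283254184240648144927045128292788721448874933630659377233920)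 (nat_lit 82377571940747339690042771513817116327923304822271852831746426071100506060263122535538209787181345700801327187951383179496361002240419314139579172468111179776) (nat_lit 82377571940747339690042771513817116327923304822271852831746426071100506060263122535538209787181345700801327187951383179496361002240419314139579172468111179776) c21_s6700) (B (K (nat_lit 1386334847544579281930502452632026696468783264124728123740719198963059283254184240648144927045128292788721448874933630659377233920) (nat_lit 82377571940747339690414912962924470536711657645411887978688086579665456016388703434158968258140893353933881941533697095857574719881306942752392038707042975744) (nat_lit 82377571940747339690414912962924470536711657645411887978688086579665456016388703434158968258140893353933881941533697095857574719881306942752392038707042975744) c21_s7194) (B (K (nat_lit 1386334847544579281930502452632026696468783264124728123740719198963059283254184240648144927045128292788721448874933630659377233920)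 (nat_lit 82377571943944010194029963326818645247915499299787406692001034273072618262455565995475648192355029351113648355538592131720113301066596580934602218981187125248) (nat_lit 82377571943944010194029963326818645247915499299787406692001034273072618262455565995475648192355029351113648355538592131720113301066596580934602218981187125248) c21_s7415) (B (K (nat_lit 1386334847544579281930502452632026696468783264124728123740719198963059283254184240648144927045128292788721448874933630659377233920) (nat_lit 54918381344978288046700950092726128038560184683423794678429803156070663718175047899014655611228811013386922728219301620719790140371941139549295966153965830144) (nat_lit 54918381344978288046700950092726128038560184683423794678429803156070663718175047899014655611228811013386922728219301620719790140371941139549295966153965830144) c21_s7491) (B (K (nat_lit 1386334847544579281930502452632026696468783264124728123740719198963059283254184240648144927045128292788721448874933630659377233920)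 (nat_lit 219673525175326239142683699383236556376183705682514931452323449799812452097774308568287960629295520339569648433150182992726195402341893690671261776023587389440) (nat_lit 219673525175326239142683699383236556376183705682514931452323449799812452097774308568287960629295520339569648433150182992726195402341893690671261776023587389440) c21_s7548) (B (M (nat_lit 395) (B (M (nat_lit 430) (B (L (nat_lit 394) ln10_12_0 ln10_12_0_ok) (M (nat_lit 431) (B (L (nat_lit 398) ln11_12_0 ln11_12_0_ok) (L (nat_lit 432) ln16_13_3 ln16_13_3_ok))))) (B (M (nat_lit 398) (B (M (nat_lit 399) (B (M (nat_lit 363) (B (L (nat_lit 362) ln14_12_3 ln14_12_3_ok) (L (nat_lit 364) ln15_12_3 ln15_12_3_ok))) (M (nat_lit 367) (B (L (nat_lit 366) ln11_12_2 ln11_12_2_ok) (L (nat_lit 368) ln12_12_2 ln12_12_2_ok))))) (B (M (nat_lit 399) (B (M (nat_lit 367) (B (L (nat_lit 366) ln11_12_2 ln11_12_2_ok) (L (nat_lit 368) ln12_12_2 ln12_12_2_ok)))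 (M (nat_lit 431) (B (L (nat_lit 430) ln11_12_0 ln11_12_0_ok) (L (nat_lit 432) ln12_12_0 ln12_12_0_ok))))) (B (M (nat_lit 399) (B (M (nat_lit 363) (B (L (nat_lit 362) ln14_12_3 ln14_12_3_ok) (L (nat_lit 364) ln15_12_3 ln15_12_3_ok))) (M (nat_lit 431) (B (L (nat_lit 430) ln11_12_0 ln11_12_0_ok) (L (nat_lit 432) ln12_12_0 ln12_12_0_ok))))) (M (nat_lit 365) (B (M (nat_lit 430) (B (L (nat_lit 431) ln11_12_0 ln11_12_0_ok) (M (nat_lit 333) (B (L (nat_lit 301) ln13_9_4 ln13_9_4_ok) (L (nat_lit 462) ln13_10_4 ln13_10_4_ok))))) (M (nat_lit 363) (B (L (nat_lit 362) ln14_12_3 ln14_12_3_ok) (M (nat_lit 364) (B (M (nat_lit 366) (B (L (nat_lit 367) ln15_11_1 ln15_11_1_ok) (M (nat_lit 334) (B (L (nat_lit 302) ln14_9_5 ln14_9_5_ok) (L (nat_lit 335) ln11_11_2 ln11_11_2_ok))))) (M (nat_lit 332) (B (L (nat_lit 300) ln12_9_4 ln12_9_4_ok) (M (nat_lit 427) (B (L (nat_lit 459) ln11_14_6 ln11_14_6_ok) (L (nat_lit 426) ln14_12_1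 ln14_12_1_ok))))))))))))))) (B (M (nat_lit 394) (B (L (nat_lit 430) ln10_12_0 ln10_12_0_ok) (M (nat_lit 393) (B (M (nat_lit 361) (B (L (nat_lit 360) ln12_12_3 ln12_12_3_ok) (L (nat_lit 362) ln13_12_3 ln13_12_3_ok))) (M (nat_lit 365) (B (L (nat_lit 364) ln9_12_2 ln9_12_2_ok) (L (nat_lit 366) ln10_12_2 ln10_12_2_ok))))))) (M (nat_lit 398) (B (M (nat_lit 399) (B (M (nat_lit 363) (B (L (nat_lit 362) ln14_12_3 ln14_12_3_ok) (L (nat_lit 364) ln15_12_3 ln15_12_3_ok))) (M (nat_lit 367) (B (L (nat_lit 366) ln11_12_2 ln11_12_2_ok) (L (nat_lit 368) ln12_12_2 ln12_12_2_ok))))) (B (M (nat_lit 394) (B (M (nat_lit 366) (B (L (nat_lit 365) ln10_12_2 ln10_12_2_ok) (L (nat_lit 367) ln11_12_2 ln11_12_2_ok))) (M (nat_lit 426) (B (L (nat_lit 425) ln13_12_1 ln13_12_1_ok) (L (nat_lit 427) ln14_12_1 ln14_12_1_ok))))) (M (nat_lit 394) (B (M (nat_lit 362) (B (L (nat_lit 361) ln13_12_3 ln13_12_3_ok) (L (nat_lit 363) ln14_12_3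 ln14_12_3_ok))) (M (nat_lit 426) (B (L (nat_lit 425) ln13_12_1 ln13_12_1_ok) (L (nat_lit 427) ln14_12_1 ln14_12_1_ok)))))))))))) (K (nat_lit 1386334847544579281930502452632026696468783264124728123740719198963059283254184240648144927045128292788721448874933630659377233920) (nat_lit 15983352582827860201767699893166238437955497878739840745314362298821792389143480850872936314155423760430042113375218897267049914509523781051284979712) (nat_lit 15983352582827860201767699893166238437955497878739840745314362298821792389143480850872936314155423760430042113375218897267049914509523781051284979712) c21_s7731)))))))))))))))) (nat_lit 1386334847383188664550070665778531748218595021979121511688892729411143073470393764272092352380775458208712834410189682411080515584) (nat_lit 315780692439531468763700332895626007469549641796701256409483812874199339117649559461070249940345957095527892845087106415744437937588787709334709971945154150400)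 (nat_lit 315780692439531468763700332895626007469549641796701256409483812874199339117649559461070249940345957095527892845087106415744437937588787709334709971945154150400) (by decide +kernel)
theorem c21_s7751 : Sem (nat_lit 1386334847383188664550070665778531748218595021979121511688892729411143073470393764272092352380775458208712834410189682411080515584) (nat_lit 943490606589814007117209563729645190983571735637370802441739457731904153765520462061114968374357005844861750380558891400153948587300940622886522081207362702134724263936) (nat_lit 943490606589814007117209563729645190983571735637370802441739457731904153765520462061114968374357005844861750380558891400153948587300940622886522081207362702134724263936) :=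
  sem_of_chk (M (nat_lit 365) (B (M (nat_lit 461) (B (M (nat_lit 364) (B (L (nat_lit 332) ln13_14_7 ln13_14_7_ok) (M (nat_lit 493) (B (L (nat_lit 396) ln13_15_7 ln13_15_7_ok) (M (nat_lit 366) (B (L (nat_lit 334) ln13_14_6 ln13_14_6_ok) (L (nat_lit 398) ln13_15_6 ln13_15_6_ok))))))) (B (M (nat_lit 493) (B (M (nat_lit 366) (B (L (nat_lit 334) ln13_14_6 ln13_14_6_ok) (L (nat_lit 398) ln13_15_6 ln13_15_6_ok))) (M (nat_lit 492) (B (L (nat_lit 460) ln13_11_5 ln13_11_5_ok) (L (nat_lit 524) ln13_12_5 ln13_12_5_ok))))) (B (M (nat_lit 493) (B (M (nat_lit 364) (B (L (nat_lit 332) ln13_14_7 ln13_14_7_ok) (L (nat_lit 396) ln13_15_7 ln13_15_7_ok))) (M (nat_lit 492) (B (L (nat_lit 460) ln13_11_5 ln13_11_5_ok) (L (nat_lit 524) ln13_12_5 ln13_12_5_ok))))) (M (nat_lit 333) (B (M (nat_lit 334) (B (L (nat_lit 302) ln13_13_6 ln13_13_6_ok) (L (nat_lit 366) ln13_14_6 ln13_14_6_ok))) (M (nat_lit 460) (B (L (nat_lit 428)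 ln13_10_5 ln13_10_5_ok) (L (nat_lit 492) ln13_11_5 ln13_11_5_ok))))))))) (B (M (nat_lit 461) (B (M (nat_lit 364) (B (L (nat_lit 332) ln13_14_7 ln13_14_7_ok) (M (nat_lit 493) (B (L (nat_lit 396) ln13_15_7 ln13_15_7_ok) (M (nat_lit 366) (B (L (nat_lit 334) ln13_14_6 ln13_14_6_ok) (L (nat_lit 398) ln13_15_6 ln13_15_6_ok))))))) (B (M (nat_lit 493) (B (M (nat_lit 366) (B (L (nat_lit 334) ln13_14_6 ln13_14_6_ok) (L (nat_lit 398) ln13_15_6 ln13_15_6_ok))) (M (nat_lit 492) (B (L (nat_lit 460) ln13_11_5 ln13_11_5_ok) (L (nat_lit 524) ln13_12_5 ln13_12_5_ok))))) (B (M (nat_lit 493) (B (M (nat_lit 364) (B (L (nat_lit 332) ln13_14_7 ln13_14_7_ok) (L (nat_lit 396) ln13_15_7 ln13_15_7_ok))) (M (nat_lit 492) (B (L (nat_lit 460) ln13_11_5 ln13_11_5_ok) (L (nat_lit 524) ln13_12_5 ln13_12_5_ok))))) (M (nat_lit 333) (B (M (nat_lit 332) (B (L (nat_lit 300) ln13_13_7 ln13_13_7_ok) (L (nat_lit 364) ln13_14_7 ln13_14_7_ok)))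 (M (nat_lit 460) (B (L (nat_lit 428) ln13_10_5 ln13_10_5_ok) (L (nat_lit 492) ln13_11_5 ln13_11_5_ok))))))))) (B (M (nat_lit 461) (B (M (nat_lit 493) (B (M (nat_lit 366) (B (L (nat_lit 334) ln13_14_6 ln13_14_6_ok) (L (nat_lit 398) ln13_15_6 ln13_15_6_ok))) (M (nat_lit 492) (B (L (nat_lit 460) ln13_11_5 ln13_11_5_ok) (L (nat_lit 524) ln13_12_5 ln13_12_5_ok))))) (B (M (nat_lit 493) (B (M (nat_lit 492) (B (L (nat_lit 460) ln13_11_5 ln13_11_5_ok) (L (nat_lit 524) ln13_12_5 ln13_12_5_ok))) (M (nat_lit 525) (B (M (nat_lit 396) (B (L (nat_lit 364) ln13_15_7 ln13_15_7_ok) (L (nat_lit 428) ln13_16_7 ln13_16_7_ok))) (M (nat_lit 526) (B (L (nat_lit 494) ln13_12_4 ln13_12_4_ok) (L (nat_lit 558) ln13_13_4 ln13_13_4_ok))))))) (B (M (nat_lit 493) (B (M (nat_lit 366) (B (L (nat_lit 334) ln13_14_6 ln13_14_6_ok) (L (nat_lit 398) ln13_15_6 ln13_15_6_ok))) (M (nat_lit 525) (B (M (nat_lit 396) (B (L (nat_lit 364) ln13_15_7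 ln13_15_7_ok) (L (nat_lit 428) ln13_16_7 ln13_16_7_ok))) (M (nat_lit 526) (B (L (nat_lit 494) ln13_12_4 ln13_12_4_ok) (L (nat_lit 558) ln13_13_4 ln13_13_4_ok))))))) (M (nat_lit 333) (B (M (nat_lit 334) (B (L (nat_lit 302) ln13_13_6 ln13_13_6_ok) (L (nat_lit 366) ln13_14_6 ln13_14_6_ok))) (M (nat_lit 460) (B (L (nat_lit 428) ln13_10_5 ln13_10_5_ok) (L (nat_lit 492) ln13_11_5 ln13_11_5_ok))))))))) (B (M (nat_lit 461) (B (M (nat_lit 493) (B (M (nat_lit 366) (B (L (nat_lit 334) ln13_14_6 ln13_14_6_ok) (L (nat_lit 398) ln13_15_6 ln13_15_6_ok))) (M (nat_lit 492) (B (L (nat_lit 460) ln13_11_5 ln13_11_5_ok) (L (nat_lit 524) ln13_12_5 ln13_12_5_ok))))) (B (M (nat_lit 493) (B (M (nat_lit 364) (B (L (nat_lit 332) ln13_14_7 ln13_14_7_ok) (L (nat_lit 396) ln13_15_7 ln13_15_7_ok))) (M (nat_lit 492) (B (L (nat_lit 460) ln13_11_5 ln13_11_5_ok) (L (nat_lit 524) ln13_12_5 ln13_12_5_ok))))) (B (M (nat_lit 364) (B (L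 (nat_lit 332) ln13_14_7 ln13_14_7_ok) (M (nat_lit 493) (B (L (nat_lit 396) ln13_15_7 ln13_15_7_ok) (M (nat_lit 366) (B (L (nat_lit 334) ln13_14_6 ln13_14_6_ok) (L (nat_lit 398) ln13_15_6 ln13_15_6_ok))))))) (M (nat_lit 364) (B (L (nat_lit 332) ln13_14_7 ln13_14_7_ok) (M (nat_lit 366) (B (L (nat_lit 334) ln13_14_6 ln13_14_6_ok) (M (nat_lit 363) (B (M (nat_lit 398) (B (L (nat_lit 362) ln10_11_0 ln10_11_0_ok) (L (nat_lit 399) ln11_11_0 ln11_11_0_ok))) (B (M (nat_lit 367) (B (M (nat_lit 395) (B (L (nat_lit 394) ln14_11_1 ln14_11_1_ok) (L (nat_lit 396) ln15_11_1 ln15_11_1_ok))) (M (nat_lit 399) (B (L (nat_lit 398) ln11_11_0 ln11_11_0_ok) (L (nat_lit 400) ln12_11_0 ln12_11_0_ok))))) (M (nat_lit 362) (B (M (nat_lit 330) (B (L (nat_lit 329) ln13_11_3 ln13_11_3_ok) (L (nat_lit 331) ln14_11_3 ln14_11_3_ok))) (M (nat_lit 394) (B (L (nat_lit 393) ln13_11_1 ln13_11_1_ok) (L (nat_lit 395) ln14_11_1 ln14_11_1_ok))))))))))))))))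 (B (M (nat_lit 461) (B (M (nat_lit 493) (B (M (nat_lit 364) (B (L (nat_lit 332) ln13_14_7 ln13_14_7_ok) (L (nat_lit 396) ln13_15_7 ln13_15_7_ok))) (M (nat_lit 492) (B (L (nat_lit 460) ln13_11_5 ln13_11_5_ok) (L (nat_lit 524) ln13_12_5 ln13_12_5_ok))))) (B (M (nat_lit 493) (B (M (nat_lit 492) (B (L (nat_lit 460) ln13_11_5 ln13_11_5_ok) (L (nat_lit 524) ln13_12_5 ln13_12_5_ok))) (M (nat_lit 525) (B (M (nat_lit 398) (B (L (nat_lit 366) ln13_15_6 ln13_15_6_ok) (L (nat_lit 430) ln13_16_6 ln13_16_6_ok))) (M (nat_lit 526) (B (L (nat_lit 494) ln13_12_4 ln13_12_4_ok) (L (nat_lit 558) ln13_13_4 ln13_13_4_ok))))))) (B (M (nat_lit 493) (B (M (nat_lit 364) (B (L (nat_lit 332) ln13_14_7 ln13_14_7_ok) (L (nat_lit 396) ln13_15_7 ln13_15_7_ok))) (M (nat_lit 525) (B (M (nat_lit 398) (B (L (nat_lit 366) ln13_15_6 ln13_15_6_ok) (L (nat_lit 430) ln13_16_6 ln13_16_6_ok))) (M (nat_lit 526) (B (L (nat_lit 494) ln13_12_4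 ln13_12_4_ok) (L (nat_lit 558) ln13_13_4 ln13_13_4_ok))))))) (M (nat_lit 333) (B (M (nat_lit 332) (B (L (nat_lit 300) ln13_13_7 ln13_13_7_ok) (L (nat_lit 364) ln13_14_7 ln13_14_7_ok))) (M (nat_lit 460) (B (L (nat_lit 428) ln13_10_5 ln13_10_5_ok) (L (nat_lit 492) ln13_11_5 ln13_11_5_ok))))))))) (B (M (nat_lit 333) (B (M (nat_lit 301) (B (M (nat_lit 300) (B (L (nat_lit 268) ln13_12_7 ln13_12_7_ok) (L (nat_lit 332) ln13_13_7 ln13_13_7_ok))) (M (nat_lit 302) (B (L (nat_lit 270) ln13_12_6 ln13_12_6_ok) (L (nat_lit 334) ln13_13_6 ln13_13_6_ok))))) (B (M (nat_lit 301) (B (M (nat_lit 302) (B (L (nat_lit 270) ln13_12_6 ln13_12_6_ok) (L (nat_lit 334) ln13_13_6 ln13_13_6_ok))) (M (nat_lit 428) (B (L (nat_lit 396) ln13_9_5 ln13_9_5_ok) (L (nat_lit 460) ln13_10_5 ln13_10_5_ok))))) (B (M (nat_lit 301) (B (M (nat_lit 300) (B (L (nat_lit 268) ln13_12_7 ln13_12_7_ok) (L (nat_lit 332) ln13_13_7 ln13_13_7_ok))) (M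 (nat_lit 428) (B (L (nat_lit 396) ln13_9_5 ln13_9_5_ok) (L (nat_lit 460) ln13_10_5 ln13_10_5_ok))))) (M (nat_lit 461) (B (M (nat_lit 334) (B (L (nat_lit 302) ln13_13_6 ln13_13_6_ok) (L (nat_lit 366) ln13_14_6 ln13_14_6_ok))) (M (nat_lit 460) (B (L (nat_lit 428) ln13_10_5 ln13_10_5_ok) (L (nat_lit 492) ln13_11_5 ln13_11_5_ok))))))))) (B (M (nat_lit 333) (B (M (nat_lit 301) (B (M (nat_lit 302) (B (L (nat_lit 270) ln13_12_6 ln13_12_6_ok) (L (nat_lit 334) ln13_13_6 ln13_13_6_ok))) (M (nat_lit 428) (B (L (nat_lit 396) ln13_9_5 ln13_9_5_ok) (L (nat_lit 460) ln13_10_5 ln13_10_5_ok))))) (B (M (nat_lit 301) (B (M (nat_lit 300) (B (L (nat_lit 268) ln13_12_7 ln13_12_7_ok) (L (nat_lit 332) ln13_13_7 ln13_13_7_ok))) (M (nat_lit 428) (B (L (nat_lit 396) ln13_9_5 ln13_9_5_ok) (L (nat_lit 460) ln13_10_5 ln13_10_5_ok))))) (B (M (nat_lit 461) (B (M (nat_lit 332) (B (L (nat_lit 300) ln13_13_7 ln13_13_7_ok) (L (nat_lit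 364) ln13_14_7 ln13_14_7_ok))) (M (nat_lit 460) (B (L (nat_lit 428) ln13_10_5 ln13_10_5_ok) (L (nat_lit 492) ln13_11_5 ln13_11_5_ok))))) (M (nat_lit 301) (B (M (nat_lit 300) (B (L (nat_lit 268) ln13_12_7 ln13_12_7_ok) (L (nat_lit 332) ln13_13_7 ln13_13_7_ok))) (M (nat_lit 302) (B (L (nat_lit 270) ln13_12_6 ln13_12_6_ok) (L (nat_lit 334) ln13_13_6 ln13_13_6_ok))))))))) (B (M (nat_lit 333) (B (M (nat_lit 461) (B (M (nat_lit 334) (B (L (nat_lit 302) ln13_13_6 ln13_13_6_ok) (L (nat_lit 366) ln13_14_6 ln13_14_6_ok))) (M (nat_lit 460) (B (L (nat_lit 428) ln13_10_5 ln13_10_5_ok) (L (nat_lit 492) ln13_11_5 ln13_11_5_ok))))) (B (M (nat_lit 461) (B (M (nat_lit 332) (B (L (nat_lit 300) ln13_13_7 ln13_13_7_ok) (L (nat_lit 364) ln13_14_7 ln13_14_7_ok))) (M (nat_lit 460) (B (L (nat_lit 428) ln13_10_5 ln13_10_5_ok) (L (nat_lit 492) ln13_11_5 ln13_11_5_ok))))) (B (M (nat_lit 332) (B (L (nat_lit 300) ln13_13_7 ln13_13_7_ok)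 (M (nat_lit 334) (B (L (nat_lit 302) ln13_13_6 ln13_13_6_ok) (M (nat_lit 461) (B (L (nat_lit 364) ln13_14_7 ln13_14_7_ok) (L (nat_lit 366) ln13_14_6 ln13_14_6_ok))))))) (M (nat_lit 301) (B (M (nat_lit 300) (B (L (nat_lit 268) ln13_12_7 ln13_12_7_ok) (L (nat_lit 332) ln13_13_7 ln13_13_7_ok))) (M (nat_lit 302) (B (L (nat_lit 270) ln13_12_6 ln13_12_6_ok) (L (nat_lit 334) ln13_13_6 ln13_13_6_ok))))))))) (B (M (nat_lit 333) (B (M (nat_lit 332) (B (L (nat_lit 300) ln13_13_7 ln13_13_7_ok) (M (nat_lit 334) (B (L (nat_lit 302) ln13_13_6 ln13_13_6_ok) (M (nat_lit 461) (B (L (nat_lit 364) ln13_14_7 ln13_14_7_ok) (L (nat_lit 366) ln13_14_6 ln13_14_6_ok))))))) (B (M (nat_lit 301) (B (M (nat_lit 302) (B (L (nat_lit 270) ln13_12_6 ln13_12_6_ok) (L (nat_lit 334) ln13_13_6 ln13_13_6_ok))) (M (nat_lit 269) (B (M (nat_lit 396) (B (L (nat_lit 364) ln13_8_5 ln13_8_5_ok) (L (nat_lit 428) ln13_9_5 ln13_9_5_ok))) (M (nat_lit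 398) (B (L (nat_lit 366) ln13_8_4 ln13_8_4_ok) (L (nat_lit 430) ln13_9_4 ln13_9_4_ok))))))) (B (M (nat_lit 301) (B (M (nat_lit 300) (B (L (nat_lit 268) ln13_12_7 ln13_12_7_ok) (L (nat_lit 332) ln13_13_7 ln13_13_7_ok))) (M (nat_lit 269) (B (M (nat_lit 396) (B (L (nat_lit 364) ln13_8_5 ln13_8_5_ok) (L (nat_lit 428) ln13_9_5 ln13_9_5_ok))) (M (nat_lit 398) (B (L (nat_lit 366) ln13_8_4 ln13_8_4_ok) (L (nat_lit 430) ln13_9_4 ln13_9_4_ok))))))) (M (nat_lit 301) (B (M (nat_lit 300) (B (L (nat_lit 268) ln13_12_7 ln13_12_7_ok) (L (nat_lit 332) ln13_13_7 ln13_13_7_ok))) (M (nat_lit 302) (B (L (nat_lit 270) ln13_12_6 ln13_12_6_ok) (L (nat_lit 334) ln13_13_6 ln13_13_6_ok))))))))) (M (nat_lit 333) (B (M (nat_lit 301) (B (M (nat_lit 300) (B (L (nat_lit 268) ln13_12_7 ln13_12_7_ok) (L (nat_lit 332) ln13_13_7 ln13_13_7_ok))) (M (nat_lit 428) (B (L (nat_lit 396) ln13_9_5 ln13_9_5_ok) (L (nat_lit 460) ln13_10_5 ln13_10_5_ok)))))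 (B (M (nat_lit 301) (B (M (nat_lit 302) (B (L (nat_lit 270) ln13_12_6 ln13_12_6_ok) (L (nat_lit 334) ln13_13_6 ln13_13_6_ok))) (M (nat_lit 428) (B (L (nat_lit 396) ln13_9_5 ln13_9_5_ok) (L (nat_lit 460) ln13_10_5 ln13_10_5_ok))))) (M (nat_lit 332) (B (L (nat_lit 300) ln13_13_7 ln13_13_7_ok) (M (nat_lit 334) (B (L (nat_lit 302) ln13_13_6 ln13_13_6_ok) (M (nat_lit 331) (B (M (nat_lit 366) (B (L (nat_lit 330) ln10_10_0 ln10_10_0_ok) (L (nat_lit 367) ln11_10_0 ln11_10_0_ok))) (B (M (nat_lit 335) (B (M (nat_lit 363) (B (L (nat_lit 362) ln14_10_1 ln14_10_1_ok) (L (nat_lit 364) ln15_10_1 ln15_10_1_ok))) (M (nat_lit 367) (B (L (nat_lit 366) ln11_10_0 ln11_10_0_ok) (L (nat_lit 368) ln12_10_0 ln12_10_0_ok))))) (M (nat_lit 330) (B (M (nat_lit 298) (B (L (nat_lit 297) ln13_10_3 ln13_10_3_ok) (L (nat_lit 299) ln14_10_3 ln14_10_3_ok))) (M (nat_lit 362) (B (L (nat_lit 361) ln13_10_1 ln13_10_1_ok) (L (nat_lit 363)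 ln14_10_1 ln14_10_1_ok))))))))))))))))))))))))) (nat_lit 1386334847383188664550070665778531748218595021979121511688892729411143073470393764272092352380775458208712834410189682411080515584) (nat_lit 943490606589814007117209563729645190983571735637370802441739457731904153765520462061114968374357005844861750380558891400153948587300940622886522081207362702134724263936) (nat_lit 943490606589814007117209563729645190983571735637370802441739457731904153765520462061114968374357005844861750380558891400153948587300940622886522081207362702134724263936) (by decide +kernel)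
theorem c21_s7777 : Sem (nat_lit 1386334847383188664550070665778531748218595021979121511688892729411143073470393764272092352380775458208712834410189682411080515584) (nat_lit 219673525200899603274315136280108136932490479703882307723150160641036551123032528023150940464360438198674541486897063460446960245352366121021356121588261453824) (nat_lit 219673525200899603274315136280108136932490479703882307723150160641036551123032528023150940464360438198674541486897063460446960245352366121021356121588261453824) :=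
  sem_of_chk (M (nat_lit 365) (B (M (nat_lit 333) (B (M (nat_lit 301) (B (M (nat_lit 300) (B (L (nat_lit 268) ln13_12_7 ln13_12_7_ok) (L (nat_lit 332) ln13_13_7 ln13_13_7_ok))) (M (nat_lit 428) (B (L (nat_lit 396) ln13_9_5 ln13_9_5_ok) (L (nat_lit 460) ln13_10_5 ln13_10_5_ok))))) (B (M (nat_lit 301) (B (M (nat_lit 302) (B (L (nat_lit 270) ln13_12_6 ln13_12_6_ok) (L (nat_lit 334) ln13_13_6 ln13_13_6_ok))) (M (nat_lit 428) (B (L (nat_lit 396) ln13_9_5 ln13_9_5_ok) (L (nat_lit 460) ln13_10_5 ln13_10_5_ok))))) (M (nat_lit 461) (B (M (nat_lit 332) (B (L (nat_lit 300) ln13_13_7 ln13_13_7_ok) (L (nat_lit 364) ln13_14_7 ln13_14_7_ok))) (M (nat_lit 462) (B (L (nat_lit 430) ln13_10_4 ln13_10_4_ok) (L (nat_lit 494) ln13_11_4 ln13_11_4_ok)))))))) (B (M (nat_lit 333) (B (M (nat_lit 301) (B (M (nat_lit 302) (B (L (nat_lit 270) ln13_12_6 ln13_12_6_ok) (L (nat_lit 334) ln13_13_6 ln13_13_6_ok))) (M (nat_lit 428)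 (B (L (nat_lit 396) ln13_9_5 ln13_9_5_ok) (L (nat_lit 460) ln13_10_5 ln13_10_5_ok))))) (M (nat_lit 461) (B (M (nat_lit 332) (B (L (nat_lit 300) ln13_13_7 ln13_13_7_ok) (L (nat_lit 364) ln13_14_7 ln13_14_7_ok))) (M (nat_lit 462) (B (L (nat_lit 430) ln13_10_4 ln13_10_4_ok) (L (nat_lit 494) ln13_11_4 ln13_11_4_ok))))))) (B (M (nat_lit 333) (B (M (nat_lit 461) (B (M (nat_lit 334) (B (L (nat_lit 302) ln13_13_6 ln13_13_6_ok) (L (nat_lit 366) ln13_14_6 ln13_14_6_ok))) (M (nat_lit 462) (B (L (nat_lit 430) ln13_10_4 ln13_10_4_ok) (L (nat_lit 494) ln13_11_4 ln13_11_4_ok))))) (B (M (nat_lit 461) (B (M (nat_lit 332) (B (L (nat_lit 300) ln13_13_7 ln13_13_7_ok) (L (nat_lit 364) ln13_14_7 ln13_14_7_ok))) (M (nat_lit 462) (B (L (nat_lit 430) ln13_10_4 ln13_10_4_ok) (L (nat_lit 494) ln13_11_4 ln13_11_4_ok))))) (B (M (nat_lit 332) (B (L (nat_lit 300) ln13_13_7 ln13_13_7_ok) (M (nat_lit 334) (B (L (nat_lit 302) ln13_13_6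 ln13_13_6_ok) (M (nat_lit 461) (B (L (nat_lit 364) ln13_14_7 ln13_14_7_ok) (L (nat_lit 366) ln13_14_6 ln13_14_6_ok))))))) (M (nat_lit 301) (B (M (nat_lit 300) (B (L (nat_lit 268) ln13_12_7 ln13_12_7_ok) (L (nat_lit 332) ln13_13_7 ln13_13_7_ok))) (M (nat_lit 428) (B (L (nat_lit 396) ln13_9_5 ln13_9_5_ok) (L (nat_lit 460) ln13_10_5 ln13_10_5_ok))))))))) (B (M (nat_lit 333) (B (M (nat_lit 301) (B (M (nat_lit 428) (B (L (nat_lit 396) ln13_9_5 ln13_9_5_ok) (L (nat_lit 460) ln13_10_5 ln13_10_5_ok))) (M (nat_lit 430) (B (L (nat_lit 398) ln13_9_4 ln13_9_4_ok) (L (nat_lit 462) ln13_10_4 ln13_10_4_ok))))) (B (M (nat_lit 461) (B (M (nat_lit 334) (B (L (nat_lit 302) ln13_13_6 ln13_13_6_ok) (L (nat_lit 366) ln13_14_6 ln13_14_6_ok))) (M (nat_lit 462) (B (L (nat_lit 430) ln13_10_4 ln13_10_4_ok) (L (nat_lit 494) ln13_11_4 ln13_11_4_ok))))) (M (nat_lit 301) (B (M (nat_lit 302) (B (L (nat_lit 270) ln13_12_6 ln13_12_6_ok)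 (L (nat_lit 334) ln13_13_6 ln13_13_6_ok))) (M (nat_lit 428) (B (L (nat_lit 396) ln13_9_5 ln13_9_5_ok) (L (nat_lit 460) ln13_10_5 ln13_10_5_ok)))))))) (B (M (nat_lit 461) (B (M (nat_lit 333) (B (M (nat_lit 334) (B (L (nat_lit 302) ln13_13_6 ln13_13_6_ok) (L (nat_lit 366) ln13_14_6 ln13_14_6_ok))) (M (nat_lit 462) (B (L (nat_lit 430) ln13_10_4 ln13_10_4_ok) (L (nat_lit 494) ln13_11_4 ln13_11_4_ok))))) (B (M (nat_lit 333) (B (M (nat_lit 332) (B (L (nat_lit 300) ln13_13_7 ln13_13_7_ok) (L (nat_lit 364) ln13_14_7 ln13_14_7_ok))) (M (nat_lit 462) (B (L (nat_lit 430) ln13_10_4 ln13_10_4_ok) (L (nat_lit 494) ln13_11_4 ln13_11_4_ok))))) (B (M (nat_lit 493) (B (M (nat_lit 364) (B (L (nat_lit 332) ln13_14_7 ln13_14_7_ok) (L (nat_lit 396) ln13_15_7 ln13_15_7_ok))) (M (nat_lit 494) (B (L (nat_lit 462) ln13_11_4 ln13_11_4_ok) (L (nat_lit 526) ln13_12_4 ln13_12_4_ok))))) (M (nat_lit 333) (B (M (nat_lit 332) (B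 (L (nat_lit 300) ln13_13_7 ln13_13_7_ok) (L (nat_lit 364) ln13_14_7 ln13_14_7_ok))) (M (nat_lit 334) (B (L (nat_lit 302) ln13_13_6 ln13_13_6_ok) (L (nat_lit 366) ln13_14_6 ln13_14_6_ok))))))))) (B (M (nat_lit 461) (B (M (nat_lit 364) (B (L (nat_lit 332) ln13_14_7 ln13_14_7_ok) (M (nat_lit 493) (B (L (nat_lit 396) ln13_15_7 ln13_15_7_ok) (M (nat_lit 366) (B (L (nat_lit 334) ln13_14_6 ln13_14_6_ok) (L (nat_lit 398) ln13_15_6 ln13_15_6_ok))))))) (B (M (nat_lit 493) (B (M (nat_lit 366) (B (L (nat_lit 334) ln13_14_6 ln13_14_6_ok) (L (nat_lit 398) ln13_15_6 ln13_15_6_ok))) (M (nat_lit 494) (B (L (nat_lit 462) ln13_11_4 ln13_11_4_ok) (L (nat_lit 526) ln13_12_4 ln13_12_4_ok))))) (B (M (nat_lit 493) (B (M (nat_lit 364) (B (L (nat_lit 332) ln13_14_7 ln13_14_7_ok) (L (nat_lit 396) ln13_15_7 ln13_15_7_ok))) (M (nat_lit 494) (B (L (nat_lit 462) ln13_11_4 ln13_11_4_ok) (L (nat_lit 526) ln13_12_4 ln13_12_4_ok)))))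 (M (nat_lit 333) (B (M (nat_lit 332) (B (L (nat_lit 300) ln13_13_7 ln13_13_7_ok) (L (nat_lit 364) ln13_14_7 ln13_14_7_ok))) (M (nat_lit 462) (B (L (nat_lit 430) ln13_10_4 ln13_10_4_ok) (L (nat_lit 494) ln13_11_4 ln13_11_4_ok))))))))) (B (M (nat_lit 364) (B (M (nat_lit 332) (B (L (nat_lit 461) ln13_14_7 ln13_14_7_ok) (M (nat_lit 300) (B (L (nat_lit 268) ln12_8_4 ln12_8_4_ok) (L (nat_lit 396) ln12_9_4 ln12_9_4_ok))))) (B (M (nat_lit 461) (B (L (nat_lit 332) ln13_14_7 ln13_14_7_ok) (M (nat_lit 493) (B (L (nat_lit 396) ln13_15_7 ln13_15_7_ok) (M (nat_lit 366) (B (L (nat_lit 334) ln13_14_6 ln13_14_6_ok) (L (nat_lit 398) ln13_15_6 ln13_15_6_ok))))))) (B (M (nat_lit 363) (B (M (nat_lit 398) (B (L (nat_lit 362) ln10_11_0 ln10_11_0_ok) (M (nat_lit 399) (B (L (nat_lit 366) ln11_11_0 ln11_11_0_ok) (L (nat_lit 400) ln16_12_3 ln16_12_3_ok))))) (B (M (nat_lit 366) (B (M (nat_lit 398) (B (L (nat_lit 399) ln11_11_0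 ln11_11_0_ok) (M (nat_lit 334) (B (L (nat_lit 302) ln14_9_5 ln14_9_5_ok) (L (nat_lit 335) ln11_11_2 ln11_11_2_ok))))) (B (M (nat_lit 367) (B (M (nat_lit 395) (B (L (nat_lit 394) ln14_11_1 ln14_11_1_ok) (L (nat_lit 396) ln15_11_1 ln15_11_1_ok))) (M (nat_lit 399) (B (L (nat_lit 398) ln11_11_0 ln11_11_0_ok) (L (nat_lit 400) ln12_11_0 ln12_11_0_ok))))) (M (nat_lit 367) (B (M (nat_lit 335) (B (L (nat_lit 334) ln11_11_2 ln11_11_2_ok) (L (nat_lit 336) ln12_11_2 ln12_11_2_ok))) (M (nat_lit 395) (B (L (nat_lit 394) ln14_11_1 ln14_11_1_ok) (L (nat_lit 396) ln15_11_1 ln15_11_1_ok)))))))) (B (M (nat_lit 398) (B (L (nat_lit 362) ln10_11_0 ln10_11_0_ok) (M (nat_lit 399) (B (L (nat_lit 396) ln15_12_3 ln15_12_3_ok) (L (nat_lit 400) ln16_12_3 ln16_12_3_ok))))) (M (nat_lit 362) (B (M (nat_lit 361) (B (L (nat_lit 396) ln9_11_0 ln9_11_0_ok) (M (nat_lit 393) (B (L (nat_lit 392) ln12_11_1 ln12_11_1_ok) (L (nat_lit 394)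 ln13_11_1 ln13_11_1_ok))))) (B (M (nat_lit 366) (B (M (nat_lit 330) (B (L (nat_lit 329) ln13_11_3 ln13_11_3_ok) (L (nat_lit 331) ln14_11_3 ln14_11_3_ok))) (M (nat_lit 394) (B (L (nat_lit 393) ln13_11_1 ln13_11_1_ok) (L (nat_lit 395) ln14_11_1 ln14_11_1_ok))))) (M (nat_lit 361) (B (L (nat_lit 396) ln9_11_0 ln9_11_0_ok) (M (nat_lit 329) (B (L (nat_lit 328) ln12_11_3 ln12_11_3_ok) (L (nat_lit 330) ln13_11_3 ln13_11_3_ok)))))))))))) (M (nat_lit 461) (B (L (nat_lit 332) ln13_14_7 ln13_14_7_ok) (M (nat_lit 493) (B (M (nat_lit 366) (B (L (nat_lit 334) ln13_14_6 ln13_14_6_ok) (L (nat_lit 398) ln13_15_6 ln13_15_6_ok))) (M (nat_lit 494) (B (L (nat_lit 462) ln13_11_4 ln13_11_4_ok) (L (nat_lit 526) ln13_12_4 ln13_12_4_ok))))))))))) (B (M (nat_lit 333) (B (M (nat_lit 301) (B (M (nat_lit 428) (B (L (nat_lit 396) ln13_9_5 ln13_9_5_ok) (L (nat_lit 460) ln13_10_5 ln13_10_5_ok))) (M (nat_lit 430) (B (L (nat_lit 398)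 ln13_9_4 ln13_9_4_ok) (L (nat_lit 462) ln13_10_4 ln13_10_4_ok))))) (B (M (nat_lit 461) (B (M (nat_lit 332) (B (L (nat_lit 300) ln13_13_7 ln13_13_7_ok) (L (nat_lit 364) ln13_14_7 ln13_14_7_ok))) (M (nat_lit 462) (B (L (nat_lit 430) ln13_10_4 ln13_10_4_ok) (L (nat_lit 494) ln13_11_4 ln13_11_4_ok))))) (M (nat_lit 301) (B (M (nat_lit 300) (B (L (nat_lit 268) ln13_12_7 ln13_12_7_ok) (L (nat_lit 332) ln13_13_7 ln13_13_7_ok))) (M (nat_lit 428) (B (L (nat_lit 396) ln13_9_5 ln13_9_5_ok) (L (nat_lit 460) ln13_10_5 ln13_10_5_ok)))))))) (B (M (nat_lit 333) (B (M (nat_lit 461) (B (M (nat_lit 334) (B (L (nat_lit 302) ln13_13_6 ln13_13_6_ok) (L (nat_lit 366) ln13_14_6 ln13_14_6_ok))) (M (nat_lit 462) (B (L (nat_lit 430) ln13_10_4 ln13_10_4_ok) (L (nat_lit 494) ln13_11_4 ln13_11_4_ok))))) (B (M (nat_lit 461) (B (M (nat_lit 332) (B (L (nat_lit 300) ln13_13_7 ln13_13_7_ok) (L (nat_lit 364) ln13_14_7 ln13_14_7_ok)))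 (M (nat_lit 462) (B (L (nat_lit 430) ln13_10_4 ln13_10_4_ok) (L (nat_lit 494) ln13_11_4 ln13_11_4_ok))))) (B (M (nat_lit 332) (B (L (nat_lit 300) ln13_13_7 ln13_13_7_ok) (M (nat_lit 334) (B (L (nat_lit 302) ln13_13_6 ln13_13_6_ok) (M (nat_lit 461) (B (L (nat_lit 364) ln13_14_7 ln13_14_7_ok) (L (nat_lit 366) ln13_14_6 ln13_14_6_ok))))))) (M (nat_lit 301) (B (M (nat_lit 300) (B (L (nat_lit 268) ln13_12_7 ln13_12_7_ok) (L (nat_lit 332) ln13_13_7 ln13_13_7_ok))) (M (nat_lit 302) (B (L (nat_lit 270) ln13_12_6 ln13_12_6_ok) (L (nat_lit 334) ln13_13_6 ln13_13_6_ok))))))))) (B (M (nat_lit 333) (B (M (nat_lit 301) (B (M (nat_lit 300) (B (L (nat_lit 268) ln13_12_7 ln13_12_7_ok) (L (nat_lit 332) ln13_13_7 ln13_13_7_ok))) (M (nat_lit 428) (B (L (nat_lit 396) ln13_9_5 ln13_9_5_ok) (L (nat_lit 460) ln13_10_5 ln13_10_5_ok))))) (B (M (nat_lit 301) (B (M (nat_lit 302) (B (L (nat_lit 270) ln13_12_6 ln13_12_6_ok) (L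 (nat_lit 334) ln13_13_6 ln13_13_6_ok))) (M (nat_lit 428) (B (L (nat_lit 396) ln13_9_5 ln13_9_5_ok) (L (nat_lit 460) ln13_10_5 ln13_10_5_ok))))) (B (M (nat_lit 396) (B (M (nat_lit 430) (B (L (nat_lit 462) ln13_10_4 ln13_10_4_ok) (M (nat_lit 395) (B (L (nat_lit 394) ln10_12_0 ln10_12_0_ok) (M (nat_lit 431) (B (L (nat_lit 398) ln11_12_0 ln11_12_0_ok) (L (nat_lit 432) ln16_13_3 ln16_13_3_ok))))))) (B (M (nat_lit 428) (B (L (nat_lit 460) ln13_10_5 ln13_10_5_ok) (M (nat_lit 430) (B (L (nat_lit 462) ln13_10_4 ln13_10_4_ok) (M (nat_lit 431) (B (L (nat_lit 395) ln15_13_3 ln15_13_3_ok) (L (nat_lit 432) ln16_13_3 ln16_13_3_ok))))))) (M (nat_lit 364) (B (M (nat_lit 334) (B (L (nat_lit 302) ln13_13_6 ln13_13_6_ok) (M (nat_lit 363) (B (L (nat_lit 362) ln10_11_2 ln10_11_2_ok) (M (nat_lit 335) (B (L (nat_lit 336) ln16_10_1 ln16_10_1_ok) (L (nat_lit 366) ln11_11_2 ln11_11_2_ok))))))) (M (nat_lit 428) (B (L (nat_lit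 460) ln12_14_6 ln12_14_6_ok) (M (nat_lit 427) (B (M (nat_lit 332) (B (L (nat_lit 300) ln13_13_7 ln13_13_7_ok) (L (nat_lit 459) ln12_10_5 ln12_10_5_ok))) (M (nat_lit 426) (B (L (nat_lit 425) ln9_13_2 ln9_13_2_ok) (L (nat_lit 398) ln10_13_2 ln10_13_2_ok)))))))))))) (M (nat_lit 301) (B (M (nat_lit 300) (B (L (nat_lit 268) ln13_12_7 ln13_12_7_ok) (L (nat_lit 332) ln13_13_7 ln13_13_7_ok))) (M (nat_lit 302) (B (L (nat_lit 270) ln13_12_6 ln13_12_6_ok) (L (nat_lit 334) ln13_13_6 ln13_13_6_ok))))))))) (M (nat_lit 333) (B (M (nat_lit 301) (B (M (nat_lit 300) (B (L (nat_lit 268) ln13_12_7 ln13_12_7_ok) (L (nat_lit 332) ln13_13_7 ln13_13_7_ok))) (M (nat_lit 428) (B (L (nat_lit 396) ln13_9_5 ln13_9_5_ok) (L (nat_lit 460) ln13_10_5 ln13_10_5_ok))))) (B (M (nat_lit 301) (B (M (nat_lit 302) (B (L (nat_lit 270) ln13_12_6 ln13_12_6_ok) (L (nat_lit 334) ln13_13_6 ln13_13_6_ok))) (M (nat_lit 428) (B (L (nat_lit 396)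 ln13_9_5 ln13_9_5_ok) (L (nat_lit 460) ln13_10_5 ln13_10_5_ok))))) (M (nat_lit 332) (B (L (nat_lit 300) ln13_13_7 ln13_13_7_ok) (M (nat_lit 334) (B (L (nat_lit 302) ln13_13_6 ln13_13_6_ok) (M (nat_lit 461) (B (L (nat_lit 364) ln13_14_7 ln13_14_7_ok) (L (nat_lit 366) ln13_14_6 ln13_14_6_ok))))))))))))))))))))) (nat_lit 1386334847383188664550070665778531748218595021979121511688892729411143073470393764272092352380775458208712834410189682411080515584) (nat_lit 219673525200899603274315136280108136932490479703882307723150160641036551123032528023150940464360438198674541486897063460446960245352366121021356121588261453824) (nat_lit 219673525200899603274315136280108136932490479703882307723150160641036551123032528023150940464360438198674541486897063460446960245352366121021356121588261453824) (by decide +kernel)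
noncomputable def c21_n7801 : Cert := (M (nat_lit 364) (B (M (nat_lit 332) (B (L (nat_lit 461) ln13_14_7 ln13_14_7_ok) (M (nat_lit 300) (B (L (nat_lit 268) ln12_8_4 ln12_8_4_ok) (L (nat_lit 396) ln12_9_4 ln12_9_4_ok))))) (B (M (nat_lit 461) (B (L (nat_lit 332) ln13_14_7 ln13_14_7_ok) (M (nat_lit 493) (B (L (nat_lit 396) ln13_15_7 ln13_15_7_ok) (M (nat_lit 366) (B (L (nat_lit 334) ln13_14_6 ln13_14_6_ok) (L (nat_lit 398) ln13_15_6 ln13_15_6_ok))))))) (B (M (nat_lit 366) (B (M (nat_lit 461) (B (L (nat_lit 334) ln13_14_6 ln13_14_6_ok) (M (nat_lit 493) (B (L (nat_lit 396) ln13_15_7 ln13_15_7_ok) (L (nat_lit 398) ln13_15_6 ln13_15_6_ok))))) (B (M (nat_lit 363) (B (M (nat_lit 398) (B (L (nat_lit 362) ln10_11_0 ln10_11_0_ok) (L (nat_lit 399) ln11_11_0 ln11_11_0_ok))) (B (M (nat_lit 367) (B (M (nat_lit 395) (B (L (nat_lit 394) ln14_11_1 ln14_11_1_ok) (L (nat_lit 396) ln15_11_1 ln15_11_1_ok))) (M (nat_lit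 399) (B (L (nat_lit 398) ln11_11_0 ln11_11_0_ok) (L (nat_lit 400) ln12_11_0 ln12_11_0_ok))))) (M (nat_lit 362) (B (M (nat_lit 330) (B (L (nat_lit 329) ln13_11_3 ln13_11_3_ok) (L (nat_lit 331) ln14_11_3 ln14_11_3_ok))) (M (nat_lit 394) (B (L (nat_lit 393) ln13_11_1 ln13_11_1_ok) (L (nat_lit 395) ln14_11_1 ln14_11_1_ok)))))))) (B (M (nat_lit 398) (B (M (nat_lit 363) (B (L (nat_lit 362) ln10_11_0 ln10_11_0_ok) (L (nat_lit 399) ln11_11_0 ln11_11_0_ok))) (M (nat_lit 461) (B (L (nat_lit 334) ln13_14_6 ln13_14_6_ok) (L (nat_lit 493) ln13_15_6 ln13_15_6_ok))))) (M (nat_lit 396) (B (M (nat_lit 461) (B (L (nat_lit 334) ln13_14_6 ln13_14_6_ok) (L (nat_lit 493) ln13_15_7 ln13_15_7_ok))) (M (nat_lit 395) (B (L (nat_lit 367) ln15_11_1 ln15_11_1_ok) (L (nat_lit 394) ln10_12_2 ln10_12_2_ok))))))))) (B (M (nat_lit 461) (B (L (nat_lit 332) ln13_14_7 ln13_14_7_ok) (M (nat_lit 493) (B (M (nat_lit 366) (B (L (nat_lit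 334) ln13_14_6 ln13_14_6_ok) (L (nat_lit 398) ln13_15_6 ln13_15_6_ok))) (M (nat_lit 492) (B (L (nat_lit 460) ln13_11_5 ln13_11_5_ok) (L (nat_lit 524) ln13_12_5 ln13_12_5_ok))))))) (M (nat_lit 363) (B (M (nat_lit 398) (B (L (nat_lit 362) ln10_11_0 ln10_11_0_ok) (M (nat_lit 399) (B (L (nat_lit 396) ln15_12_3 ln15_12_3_ok) (L (nat_lit 400) ln16_12_3 ln16_12_3_ok))))) (B (M (nat_lit 366) (B (M (nat_lit 398) (B (L (nat_lit 399) ln11_11_0 ln11_11_0_ok) (M (nat_lit 334) (B (L (nat_lit 302) ln14_9_5 ln14_9_5_ok) (L (nat_lit 335) ln11_11_2 ln11_11_2_ok))))) (M (nat_lit 367) (B (M (nat_lit 331) (B (L (nat_lit 330) ln14_11_3 ln14_11_3_ok) (L (nat_lit 332) ln15_11_3 ln15_11_3_ok))) (M (nat_lit 395) (B (L (nat_lit 394) ln14_11_1 ln14_11_1_ok) (L (nat_lit 396) ln15_11_1 ln15_11_1_ok))))))) (B (M (nat_lit 398) (B (L (nat_lit 362) ln10_11_0 ln10_11_0_ok) (M (nat_lit 399) (B (L (nat_lit 366) ln11_11_0 ln11_11_0_ok)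 (L (nat_lit 400) ln16_12_3 ln16_12_3_ok))))) (M (nat_lit 366) (B (M (nat_lit 367) (B (M (nat_lit 331) (B (L (nat_lit 330) ln14_11_3 ln14_11_3_ok) (L (nat_lit 332) ln15_11_3 ln15_11_3_ok))) (M (nat_lit 395) (B (L (nat_lit 394) ln14_11_1 ln14_11_1_ok) (L (nat_lit 396) ln15_11_1 ln15_11_1_ok))))) (B (M (nat_lit 362) (B (M (nat_lit 394) (B (L (nat_lit 393) ln13_11_1 ln13_11_1_ok) (L (nat_lit 395) ln14_11_1 ln14_11_1_ok))) (B (M (nat_lit 396) (B (L (nat_lit 361) ln9_11_0 ln9_11_0_ok) (M (nat_lit 395) (B (L (nat_lit 394) ln14_11_1 ln14_11_1_ok) (L (nat_lit 367) ln15_11_1 ln15_11_1_ok))))) (B (M (nat_lit 396) (B (L (nat_lit 361) ln9_11_0 ln9_11_0_ok) (M (nat_lit 367) (B (L (nat_lit 395) ln15_11_1 ln15_11_1_ok) (L (nat_lit 368) ln16_11_1 ln16_11_1_ok))))) (M (nat_lit 361) (B (L (nat_lit 396) ln9_11_0 ln9_11_0_ok) (M (nat_lit 393) (B (L (nat_lit 392) ln12_11_1 ln12_11_1_ok) (L (nat_lit 394) ln13_11_1 ln13_11_1_ok)))))))))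 (B (M (nat_lit 362) (B (M (nat_lit 330) (B (L (nat_lit 329) ln13_11_3 ln13_11_3_ok) (L (nat_lit 331) ln14_11_3 ln14_11_3_ok))) (M (nat_lit 394) (B (L (nat_lit 393) ln13_11_1 ln13_11_1_ok) (L (nat_lit 395) ln14_11_1 ln14_11_1_ok))))) (M (nat_lit 332) (B (M (nat_lit 300) (B (L (nat_lit 268) ln12_8_4 ln12_8_4_ok) (L (nat_lit 396) ln12_9_4 ln12_9_4_ok))) (M (nat_lit 331) (B (L (nat_lit 330) ln14_11_3 ln14_11_3_ok) (L (nat_lit 367) ln15_11_3 ln15_11_3_ok))))))))))))))))))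
theorem c21_s7836 : Sem (nat_lit 1386334847383188664550070665778531748218595021979121511688892729411143073470393764272092352380775458208712834410189682411080515584) (nat_lit 54918381319404923929210887416616334414248112515282747464843571319442406211977597820469071339271915709227437897492353178037909054672865551095814491177951952896) (nat_lit 54918381319404923929210887416616334414248112515282747464843571319442406211977597820469071339271915709227437897492353178037909054672865551095814491177951952896) :=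
  sem_of_chk (M (nat_lit 365) (B (M (nat_lit 461) (B (M (nat_lit 364) (B (L (nat_lit 332) ln13_14_7 ln13_14_7_ok) (M (nat_lit 493) (B (L (nat_lit 396) ln13_15_7 ln13_15_7_ok) (M (nat_lit 366) (B (L (nat_lit 334) ln13_14_6 ln13_14_6_ok) (L (nat_lit 398) ln13_15_6 ln13_15_6_ok))))))) (B (M (nat_lit 493) (B (M (nat_lit 366) (B (L (nat_lit 334) ln13_14_6 ln13_14_6_ok) (L (nat_lit 398) ln13_15_6 ln13_15_6_ok))) (M (nat_lit 492) (B (L (nat_lit 460) ln13_11_5 ln13_11_5_ok) (L (nat_lit 524) ln13_12_5 ln13_12_5_ok))))) (B (M (nat_lit 493) (B (M (nat_lit 364) (B (L (nat_lit 332) ln13_14_7 ln13_14_7_ok) (L (nat_lit 396) ln13_15_7 ln13_15_7_ok))) (M (nat_lit 492) (B (L (nat_lit 460) ln13_11_5 ln13_11_5_ok) (L (nat_lit 524) ln13_12_5 ln13_12_5_ok))))) (M (nat_lit 333) (B (M (nat_lit 334) (B (L (nat_lit 302) ln13_13_6 ln13_13_6_ok) (L (nat_lit 366) ln13_14_6 ln13_14_6_ok))) (M (nat_lit 460) (B (L (nat_lit 428)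 ln13_10_5 ln13_10_5_ok) (L (nat_lit 492) ln13_11_5 ln13_11_5_ok))))))))) (B (M (nat_lit 461) (B (M (nat_lit 364) (B (L (nat_lit 332) ln13_14_7 ln13_14_7_ok) (M (nat_lit 493) (B (L (nat_lit 396) ln13_15_7 ln13_15_7_ok) (M (nat_lit 366) (B (L (nat_lit 334) ln13_14_6 ln13_14_6_ok) (L (nat_lit 398) ln13_15_6 ln13_15_6_ok))))))) (B (M (nat_lit 493) (B (M (nat_lit 366) (B (L (nat_lit 334) ln13_14_6 ln13_14_6_ok) (L (nat_lit 398) ln13_15_6 ln13_15_6_ok))) (M (nat_lit 492) (B (L (nat_lit 460) ln13_11_5 ln13_11_5_ok) (L (nat_lit 524) ln13_12_5 ln13_12_5_ok))))) (B (M (nat_lit 493) (B (M (nat_lit 364) (B (L (nat_lit 332) ln13_14_7 ln13_14_7_ok) (L (nat_lit 396) ln13_15_7 ln13_15_7_ok))) (M (nat_lit 492) (B (L (nat_lit 460) ln13_11_5 ln13_11_5_ok) (L (nat_lit 524) ln13_12_5 ln13_12_5_ok))))) (M (nat_lit 333) (B (M (nat_lit 332) (B (L (nat_lit 300) ln13_13_7 ln13_13_7_ok) (L (nat_lit 364) ln13_14_7 ln13_14_7_ok)))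 (M (nat_lit 460) (B (L (nat_lit 428) ln13_10_5 ln13_10_5_ok) (L (nat_lit 492) ln13_11_5 ln13_11_5_ok))))))))) (B (M (nat_lit 333) (B (M (nat_lit 301) (B (M (nat_lit 428) (B (L (nat_lit 396) ln13_9_5 ln13_9_5_ok) (L (nat_lit 460) ln13_10_5 ln13_10_5_ok))) (M (nat_lit 430) (B (L (nat_lit 398) ln13_9_4 ln13_9_4_ok) (L (nat_lit 462) ln13_10_4 ln13_10_4_ok))))) (B (M (nat_lit 461) (B (M (nat_lit 334) (B (L (nat_lit 302) ln13_13_6 ln13_13_6_ok) (L (nat_lit 366) ln13_14_6 ln13_14_6_ok))) (M (nat_lit 460) (B (L (nat_lit 428) ln13_10_5 ln13_10_5_ok) (L (nat_lit 492) ln13_11_5 ln13_11_5_ok))))) (M (nat_lit 301) (B (M (nat_lit 302) (B (L (nat_lit 270) ln13_12_6 ln13_12_6_ok) (L (nat_lit 334) ln13_13_6 ln13_13_6_ok))) (M (nat_lit 430) (B (L (nat_lit 398) ln13_9_4 ln13_9_4_ok) (L (nat_lit 462) ln13_10_4 ln13_10_4_ok)))))))) (B c21_n7801 (B (M (nat_lit 333) (B (M (nat_lit 301) (B (M (nat_lit 428) (B (L (nat_lit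 396) ln13_9_5 ln13_9_5_ok) (L (nat_lit 460) ln13_10_5 ln13_10_5_ok))) (M (nat_lit 430) (B (L (nat_lit 398) ln13_9_4 ln13_9_4_ok) (L (nat_lit 462) ln13_10_4 ln13_10_4_ok))))) (B (M (nat_lit 461) (B (M (nat_lit 332) (B (L (nat_lit 300) ln13_13_7 ln13_13_7_ok) (L (nat_lit 364) ln13_14_7 ln13_14_7_ok))) (M (nat_lit 460) (B (L (nat_lit 428) ln13_10_5 ln13_10_5_ok) (L (nat_lit 492) ln13_11_5 ln13_11_5_ok))))) (M (nat_lit 301) (B (M (nat_lit 300) (B (L (nat_lit 268) ln13_12_7 ln13_12_7_ok) (L (nat_lit 332) ln13_13_7 ln13_13_7_ok))) (M (nat_lit 430) (B (L (nat_lit 398) ln13_9_4 ln13_9_4_ok) (L (nat_lit 462) ln13_10_4 ln13_10_4_ok)))))))) (B (M (nat_lit 461) (B (M (nat_lit 333) (B (M (nat_lit 332) (B (L (nat_lit 300) ln13_13_7 ln13_13_7_ok) (L (nat_lit 364) ln13_14_7 ln13_14_7_ok))) (M (nat_lit 460) (B (L (nat_lit 428) ln13_10_5 ln13_10_5_ok) (L (nat_lit 492) ln13_11_5 ln13_11_5_ok))))) (B (M (nat_lit 333)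 (B (M (nat_lit 334) (B (L (nat_lit 302) ln13_13_6 ln13_13_6_ok) (L (nat_lit 366) ln13_14_6 ln13_14_6_ok))) (M (nat_lit 460) (B (L (nat_lit 428) ln13_10_5 ln13_10_5_ok) (L (nat_lit 492) ln13_11_5 ln13_11_5_ok))))) (B (M (nat_lit 493) (B (M (nat_lit 366) (B (L (nat_lit 334) ln13_14_6 ln13_14_6_ok) (L (nat_lit 398) ln13_15_6 ln13_15_6_ok))) (M (nat_lit 492) (B (L (nat_lit 460) ln13_11_5 ln13_11_5_ok) (L (nat_lit 524) ln13_12_5 ln13_12_5_ok))))) (M (nat_lit 333) (B (M (nat_lit 332) (B (L (nat_lit 300) ln13_13_7 ln13_13_7_ok) (L (nat_lit 364) ln13_14_7 ln13_14_7_ok))) (M (nat_lit 334) (B (L (nat_lit 302) ln13_13_6 ln13_13_6_ok) (L (nat_lit 366) ln13_14_6 ln13_14_6_ok))))))))) (B (M (nat_lit 333) (B (M (nat_lit 461) (B (M (nat_lit 334) (B (L (nat_lit 302) ln13_13_6 ln13_13_6_ok) (L (nat_lit 366) ln13_14_6 ln13_14_6_ok))) (M (nat_lit 460) (B (L (nat_lit 428) ln13_10_5 ln13_10_5_ok) (L (nat_lit 492) ln13_11_5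 ln13_11_5_ok))))) (B (M (nat_lit 461) (B (M (nat_lit 332) (B (L (nat_lit 300) ln13_13_7 ln13_13_7_ok) (L (nat_lit 364) ln13_14_7 ln13_14_7_ok))) (M (nat_lit 460) (B (L (nat_lit 428) ln13_10_5 ln13_10_5_ok) (L (nat_lit 492) ln13_11_5 ln13_11_5_ok))))) (B (M (nat_lit 332) (B (L (nat_lit 300) ln13_13_7 ln13_13_7_ok) (M (nat_lit 334) (B (L (nat_lit 302) ln13_13_6 ln13_13_6_ok) (M (nat_lit 461) (B (L (nat_lit 364) ln13_14_7 ln13_14_7_ok) (L (nat_lit 366) ln13_14_6 ln13_14_6_ok))))))) (M (nat_lit 301) (B (M (nat_lit 300) (B (L (nat_lit 268) ln13_12_7 ln13_12_7_ok) (L (nat_lit 332) ln13_13_7 ln13_13_7_ok))) (M (nat_lit 428) (B (L (nat_lit 396) ln13_9_5 ln13_9_5_ok) (L (nat_lit 460) ln13_10_5 ln13_10_5_ok))))))))) (B (M (nat_lit 333) (B (M (nat_lit 301) (B (M (nat_lit 302) (B (L (nat_lit 270) ln13_12_6 ln13_12_6_ok) (L (nat_lit 334) ln13_13_6 ln13_13_6_ok))) (M (nat_lit 430) (B (L (nat_lit 398) ln13_9_4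 ln13_9_4_ok) (L (nat_lit 462) ln13_10_4 ln13_10_4_ok))))) (B (M (nat_lit 301) (B (M (nat_lit 300) (B (L (nat_lit 268) ln13_12_7 ln13_12_7_ok) (L (nat_lit 332) ln13_13_7 ln13_13_7_ok))) (M (nat_lit 430) (B (L (nat_lit 398) ln13_9_4 ln13_9_4_ok) (L (nat_lit 462) ln13_10_4 ln13_10_4_ok))))) (M (nat_lit 332) (B (L (nat_lit 300) ln13_13_7 ln13_13_7_ok) (M (nat_lit 334) (B (L (nat_lit 302) ln13_13_6 ln13_13_6_ok) (M (nat_lit 461) (B (L (nat_lit 364) ln13_14_7 ln13_14_7_ok) (L (nat_lit 366) ln13_14_6 ln13_14_6_ok)))))))))) (M (nat_lit 333) (B (M (nat_lit 301) (B (M (nat_lit 300) (B (L (nat_lit 268) ln13_12_7 ln13_12_7_ok) (L (nat_lit 332) ln13_13_7 ln13_13_7_ok))) (M (nat_lit 428) (B (L (nat_lit 396) ln13_9_5 ln13_9_5_ok) (L (nat_lit 460) ln13_10_5 ln13_10_5_ok))))) (B (M (nat_lit 301) (B (M (nat_lit 302) (B (L (nat_lit 270) ln13_12_6 ln13_12_6_ok) (L (nat_lit 334) ln13_13_6 ln13_13_6_ok))) (M (nat_lit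 428) (B (L (nat_lit 396) ln13_9_5 ln13_9_5_ok) (L (nat_lit 460) ln13_10_5 ln13_10_5_ok))))) (B (M (nat_lit 396) (B (M (nat_lit 428) (B (L (nat_lit 460) ln13_10_5 ln13_10_5_ok) (M (nat_lit 430) (B (L (nat_lit 462) ln13_10_4 ln13_10_4_ok) (M (nat_lit 431) (B (L (nat_lit 395) ln15_13_3 ln15_13_3_ok) (L (nat_lit 432) ln16_13_3 ln16_13_3_ok))))))) (B (M (nat_lit 428) (B (L (nat_lit 460) ln13_10_5 ln13_10_5_ok) (M (nat_lit 427) (B (M (nat_lit 398) (B (L (nat_lit 399) ln15_12_1 ln15_12_1_ok) (L (nat_lit 426) ln10_13_2 ln10_13_2_ok))) (M (nat_lit 459) (B (M (nat_lit 332) (B (L (nat_lit 300) ln13_13_7 ln13_13_7_ok) (L (nat_lit 364) ln12_10_5 ln12_10_5_ok))) (M (nat_lit 430) (B (L (nat_lit 462) ln13_10_4 ln13_10_4_ok) (L (nat_lit 458) ln14_13_1 ln14_13_1_ok))))))))) (B (M (nat_lit 430) (B (L (nat_lit 462) ln13_10_4 ln13_10_4_ok) (M (nat_lit 395) (B (L (nat_lit 394) ln10_12_0 ln10_12_0_ok) (M (nat_lit 431)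 (B (L (nat_lit 398) ln11_12_0 ln11_12_0_ok) (L (nat_lit 432) ln16_13_3 ln16_13_3_ok))))))) (M (nat_lit 364) (B (M (nat_lit 332) (B (L (nat_lit 300) ln13_13_7 ln13_13_7_ok) (M (nat_lit 334) (B (L (nat_lit 302) ln13_13_6 ln13_13_6_ok) (M (nat_lit 363) (B (L (nat_lit 335) ln15_10_1 ln15_10_1_ok) (L (nat_lit 362) ln10_11_2 ln10_11_2_ok))))))) (B (M (nat_lit 334) (B (L (nat_lit 302) ln13_13_6 ln13_13_6_ok) (M (nat_lit 363) (B (L (nat_lit 362) ln10_11_2 ln10_11_2_ok) (M (nat_lit 335) (B (L (nat_lit 332) ln15_10_1 ln15_10_1_ok) (L (nat_lit 366) ln11_11_2 ln11_11_2_ok))))))) (B (M (nat_lit 428) (B (L (nat_lit 460) ln12_14_6 ln12_14_6_ok) (M (nat_lit 427) (B (M (nat_lit 332) (B (L (nat_lit 300) ln13_13_7 ln13_13_7_ok) (L (nat_lit 459) ln12_10_5 ln12_10_5_ok))) (M (nat_lit 426) (B (L (nat_lit 425) ln9_13_2 ln9_13_2_ok) (L (nat_lit 398) ln10_13_2 ln10_13_2_ok))))))) (M (nat_lit 334) (B (L (nat_lit 302) ln13_13_6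 ln13_13_6_ok) (M (nat_lit 366) (B (M (nat_lit 363) (B (L (nat_lit 362) ln10_11_2 ln10_11_2_ok) (L (nat_lit 335) ln11_11_2 ln11_11_2_ok))) (M (nat_lit 367) (B (L (nat_lit 395) ln15_11_1 ln15_11_1_ok) (L (nat_lit 368) ln16_11_1 ln16_11_1_ok))))))))))))))) (M (nat_lit 301) (B (M (nat_lit 300) (B (L (nat_lit 268) ln13_12_7 ln13_12_7_ok) (L (nat_lit 332) ln13_13_7 ln13_13_7_ok))) (M (nat_lit 302) (B (L (nat_lit 270) ln13_12_6 ln13_12_6_ok) (L (nat_lit 334) ln13_13_6 ln13_13_6_ok)))))))))))))))))) (nat_lit 1386334847383188664550070665778531748218595021979121511688892729411143073470393764272092352380775458208712834410189682411080515584) (nat_lit 54918381319404923929210887416616334414248112515282747464843571319442406211977597820469071339271915709227437897492353178037909054672865551095814491177951952896) (nat_lit 54918381319404923929210887416616334414248112515282747464843571319442406211977597820469071339271915709227437897492353178037909054672865551095814491177951952896)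 (by decide +kernel)
def c21_U : ℕ := 7614394266794037446401162880558762206925039521972317231552140779957747321976016351444636127844347564084324572130958738260573516592158900573710877952538336031711418607432363893696969572352
noncomputable def c21_kids : Cert := (B (K (nat_lit 1386334847383188664550070665778531748218595021979121511688892729411143073470393764272092352380775458208712834410189682411080515584) (nat_lit 219673525213686285334920874735247216613554369412685619135881050200531231737690528683581444585796748985679941705368930107361966979249417889582250100960826228736) (nat_lit 219673525213686285334920874735247216613554369412685619135881050200531231737690528683581444585796748985679941705368930107361966979249417889582250100960826228736) c21_s111) (B (K (nat_lit 1386334847383188664550070665778531748218595021979121511688892729411143073470393764272092352380775458208712834410189682411080515584) (nat_lit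 219673525213686285337525864729187886665172428444878084428391855442511460986092652331576588958566190152629236992391043463723360622742814072246296347729769529344) (nat_lit 219673525213686285337525864729187886665172428444878084428391855442511460986092652331576588958566190152629236992391043463723360622742814072246296347729769529344) c21_s143) (B (K (nat_lit 1386334847383188664550070665778531748218595021979121511688892729411143073470393764272092352380775458208712834410189682411080515584) (nat_lit 219673525213686285337525864729187886665172428444878084428391855442511460986091229478384040817156825312365450235379342482151789231491897217454007111192753995776) (nat_lit 219673525213686285337525864729187886665172428444878084428391855442511460986091229478384040817156825312365450235379342482151789231491897217454007111192753995776) c21_s149) (B (K (nat_lit 1386334847383188664550070665778531748218595021979121511688892729411143073470393764272092352380775458208712834410189682411080515584)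 (nat_lit 274591906494731163057381071121839032403327910846024527703757539185572938562037326476274089289243321479652304409026098369985055874214332930076582502346719756288) (nat_lit 274591906494731163057381071121839032403327910846024527703757539185572938562037326476274089289243321479652304409026098369985055874214332930076582502346719756288) c21_s250) (B (K (nat_lit 1386334847383188664550070665778531748218595021979121511688892729411143073470393764272092352380775458208712834410189682411080515584) (nat_lit 274591906494731163057567141835345353695259900118791959294274910104326729746479158054055159525777624285539565552726349407106452080573291333038433136685493518336) (nat_lit 274591906494731163057567141835345353695259900118791959294274910104326729746479158054055159525777624285539565552726349407106452080573291333038433136685493518336) c21_s382) (B (K (nat_lit 1386334847383188664550070665778531748218595021979121511688892729411143073470393764272092352380775458208712834410189682411080515584)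 (nat_lit 274591906494731163057567141835345353695259900118791959294274910104322655674526489081882622634400805529217462615939017534605179799674582570438906463273126723584) (nat_lit 274591906494731163057567141835345353695259900118791959294274910104322655674526489081882622634400805529217462615939017534605179799674582570438906463273126723584) c21_s419) (B (K (nat_lit 1386334847383188664550070665778531748218595021979121511688892729411143073470393764272092352380775458208712834410189682411080515584) (nat_lit 274591906494731163057381071132929711179811170284939411341372335881737577627399853641720011347749407039351633018833167925148918261134001223990873774895919005696) (nat_lit 274591906494731163057381071132929711179811170284939411341372335881737577627399853641720011347749407039351633018833167925148918261134001223990873774895919005696) c21_s454) (B (K (nat_lit 1386334847383188664550070665778531748218595021979121511688892729411143073470393764272092352380775458208712834410189682411080515584)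 (nat_lit 353808977738907361584270070254637139244566420219421311765469324776523796204003024662674740878568803368077147002664599403194507948057479877243778392951044125469725163520) (nat_lit 353808977738907361584270070254637139244566420219421311765469324776523796204003024662674740878568803368077147002664599403194507948057479877243778392951044125469725163520) c21_s970) (B (K (nat_lit 1386334847383188664550070665778531748218595021979121511688892729411143073470393764272092352380775458208712834410189682411080515584) (nat_lit 1179363258168619532384712631959178277121123228081496521896300748395209014175922919011778458759496714287965879933156440219307224845527126058868099375502118241507337043968) (nat_lit 1179363258168619532384712631959178277121123228081496521896300748395209014175922919011778458759496714287965879933156440219307224845527126058868099375502118241507337043968) c21_s1598) (B (K (nat_lit 1386334847383188664550070665778531748218595021979121511688892729411143073470393764272092352380775458208712834410189682411080515584)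 (nat_lit 235872651935775003571918079808858289589448900155676489335421282091019930514281411708521922372209651487949352102479042241964885324753185367081618880145328474739814957056) (nat_lit 235872651935775003571918079808858289589448900155676489335421282091019930514281411708521922372209651487949352102479042241964885324753185367081618880145328474739814957056) c21_s1848) (B (K (nat_lit 1386334847383188664550070665778531748218595021979121511688892729411143073470393764272092352380775458208712834410189682411080515584) (nat_lit 274591906494731163057381071121839032403327910846616360434608889781466384166667847282271569921068526531959680201706689801870567115668424788445736019560354545664) (nat_lit 274591906494731163057381071121839032403327910846616360434608889781466384166667847282271569921068526531959680201706689801870567115668424788445736019560354545664) c21_s1923) (B (K (nat_lit 1386334847383188664550070665778531748218595021979121511688892729411143073470393764272092352380775458208712834410189682411080515584)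 (nat_lit 274591906494731163057381071132929711179811170284911228830519033929389016623396798886734482783135745204216524366094329754086208560510280040304272157251995697152) (nat_lit 274591906494731163057381071132929711179811170284911228830519033929389016623396798886734482783135745204216524366094329754086208560510280040304272157251995697152) c21_s1952) (B (K (nat_lit 1386334847383188664550070665778531748218595021979121511688892729411143073470393764272092352380775458208712834410189682411080515584) (nat_lit 1179363258141160341632306725103559614965206777230793753298203178030819480829292526722042793111443364632910365826993477983878190385509305230099339297829654784197869436928) (nat_lit 1179363258141160341632306725103559614965206777230793753298203178030819480829292526722042793111443364632910365826993477983878190385509305230099339297829654784197869436928) c21_s2127) (B (K (nat_lit 1386334847383188664550070665778531748218595021979121511688892729411143073470393764272092352380775458208712834410189682411080515584)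 (nat_lit 7614394266794037445929417577456069537894845199348783620143119589325136812195168919147588975580501760323773290068804446664249024961508303366537012549496861178152365465922711965196473073664) (nat_lit 7614394266794037445929417577456069537894845199348783620143119589325136812195168919147588975580501760323773290068804446664249024961508303366537012549496861178152365465922711965196473073664) c21_s4482) (B (K (nat_lit 1386334847383188664550070665778531748218595021979121511688892729411143073470393764272092352380775458208712834410189682411080515584) (nat_lit 707617955065926863252224852838890232362958612599183033083261582788188025748834923112127106507966454257758202788781630602924499093069635534417990839955859688247093362688) (nat_lit 707617955065926863252224852838890232362958612599183033083261582788188025748834923112127106507966454257758202788781630602924499093069635534417990839955859688247093362688)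 c21_s5577) (B (K (nat_lit 1386334847383188664550070665778531748218595021979121511688892729411143073470393764272092352380775458208712834410189682411080515584) (nat_lit 411887859703736698388066239204557055543728194077624243423638138466935616579774831822861568856257258711091839726432931961943759827060439993171494589889993768960) (nat_lit 411887859703736698388066239204557055543728194077624243423638138466935616579774831822861568856257258711091839726432931961943759827060439993171494589889993768960) c21_s5987) (B (K (nat_lit 1386334847383188664550070665778531748218595021979121511688892729411143073470393764272092352380775458208712834410189682411080515584) (nat_lit 274591906494731163054776081127898362356854177742833325617410767863286274206780322036206914919520846558372683812562987860212695484831606115443858451104119390208) (nat_lit 274591906494731163054776081127898362356854177742833325617410767863286274206780322036206914919520846558372683812562987860212695484831606115443858451104119390208)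 c21_s6026) (B (K (nat_lit 1386334847383188664550070665778531748218595021979121511688892729411143073470393764272092352380775458208712834410189682411080515584) (nat_lit 274591906494731163056264646874419724692950855383616587930863105119852193013960870122685778544985167799219743932298710979014935293657506055193962325609612836864) (nat_lit 274591906494731163056264646874419724692950855383616587930863105119852193013960870122685778544985167799219743932298710979014935293657506055193962325609612836864) c21_s6061) (B (K (nat_lit 1386334847383188664550070665778531748218595021979121511688892729411143073470393764272092352380775458208712834410189682411080515584) (nat_lit 274591906494731163056264646852238367139903641198299058564291688018235602289881534215296028665292239231882843709790889442849642251588372060270361776853671215104) (nat_lit 274591906494731163056264646852238367139903641198299058564291688018235602289881534215296028665292239231882843709790889442849642251588372060270361776853671215104)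 c21_s6080) (B (K (nat_lit 1386334847383188664550070665778531748218595021979121511688892729411143073470393764272092352380775458208712834410189682411080515584) (nat_lit 274591906494731163054776081127898362367041960466175535964918932709621212563740066231108369085709293659492037217444010542061852667247663478665433516818711969792) (nat_lit 274591906494731163054776081127898362367041960466175535964918932709621212563740066231108369085709293659492037217444010542061852667247663478665433516818711969792) c21_s6116) (B (K (nat_lit 1386334847383188664550070665778531748218595021979121511688892729411143073470393764272092352380775458208712834410189682411080515584) (nat_lit 274591906504321174603579657840374751569547411832224438987727424948143488041436782557037908188651753004070670804547588722687187306033420062351134378793688367104) (nat_lit 274591906504321174603579657840374751569547411832224438987727424948143488041436782557037908188651753004070670804547588722687187306033420062351134378793688367104)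 c21_s6132) (B (K (nat_lit 1386334847383188664550070665778531748218595021979121511688892729411143073470393764272092352380775458208712834410189682411080515584) (nat_lit 274591906494731163054776081127205194928179648098937458865140970994542580699187663099304829583317332942124071386672032688943144980671563296428796277661978591232) (nat_lit 274591906494731163054776081127205194928179648098937458865140970994542580699187663099304829583317332942124071386672032688943144980671563296428796277661978591232) c21_s6142) (B (K (nat_lit 1386334847383188664550070665778531748218595021979121511688892729411143073470393764272092352380775458208712834410189682411080515584) (nat_lit 274591906494731163054776081125125692657589036954253648226893674170579140129495960525391442130473764117692686573460802565554803305149759829121438755460772528128) (nat_lit 274591906494731163054776081125125692657589036954253648226893674170579140129495960525391442130473764117692686573460802565554803305149759829121438755460772528128)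 c21_s6144) (B (K (nat_lit 1386334847383188664550070665778531748218595021979121511688892729411143073470393764272092352380775458208712834410189682411080515584) (nat_lit 1179363258141160341632306725050343390910023729384468420166580151215533193001541642404395731839232870061650650451881841762150452151377746092367559338927291408646693453824) (nat_lit 1179363258141160341632306725050343390910023729384468420166580151215533193001541642404395731839232870061650650451881841762150452151377746092367559338927291408646693453824) c21_s6168) (B (K (nat_lit 1386334847383188664550070665778531748218595021979121511688892729411143073470393764272092352380775458208712834410189682411080515584) (nat_lit 315780692439531468763700332895626007469549641796701256409483812874199339117649559461070249940345957095527892845087106415744437937588787709334709971945154150400) (nat_lit 315780692439531468763700332895626007469549641796701256409483812874199339117649559461070249940345957095527892845087106415744437937588787709334709971945154150400)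 c21_s7732) (B (K (nat_lit 1386334847383188664550070665778531748218595021979121511688892729411143073470393764272092352380775458208712834410189682411080515584) (nat_lit 943490606589814007117209563729645190983571735637370802441739457731904153765520462061114968374357005844861750380558891400153948587300940622886522081207362702134724263936) (nat_lit 943490606589814007117209563729645190983571735637370802441739457731904153765520462061114968374357005844861750380558891400153948587300940622886522081207362702134724263936) c21_s7751) (B (K (nat_lit 1386334847383188664550070665778531748218595021979121511688892729411143073470393764272092352380775458208712834410189682411080515584) (nat_lit 219673525200899603274315136280108136932490479703882307723150160641036551123032528023150940464360438198674541486897063460446960245352366121021356121588261453824) (nat_lit 219673525200899603274315136280108136932490479703882307723150160641036551123032528023150940464360438198674541486897063460446960245352366121021356121588261453824)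 c21_s7777) (K (nat_lit 1386334847383188664550070665778531748218595021979121511688892729411143073470393764272092352380775458208712834410189682411080515584) (nat_lit 54918381319404923929210887416616334414248112515282747464843571319442406211977597820469071339271915709227437897492353178037909054672865551095814491177951952896) (nat_lit 54918381319404923929210887416616334414248112515282747464843571319442406211977597820469071339271915709227437897492353178037909054672865551095814491177951952896) c21_s7836))))))))))))))))))))))))))))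
theorem c21_win : ∃ n, ∀ B : Set Cell, Avoids B c21_U → MakerForces n (cellsOf (1 <<< 429)) B :=
  forces_of_chk (1 <<< 429) (nat_lit 397) c21_kids c21_U c21_U (by decide +kernel)

end Vale.Agent.Lib.P062.Data
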