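import Vale.Agent.Lib.P062.Data.Lines

namespace Vale.Agent.Lib.P062.Data

noncomputable def c31_n137 : Cert := (M (nat_lit 396) (B (M (nat_lit 364) (B (L (nat_lit 493) ln13_15_7 ln13_15_7_ok) (M (nat_lit 332) (B (L (nat_lit 300) ln12_9_4 ln12_9_4_ok) (L (nat_lit 428) ln12_10_4 ln12_10_4_ok))))) (B (M (nat_lit 493) (B (L (nat_lit 364) ln13_15_7 ln13_15_7_ok) (M (nat_lit 525) (B (L (nat_lit 428) ln13_16_7 ln13_16_7_ok) (M (nat_lit 398) (B (L (nat_lit 366) ln13_15_6 ln13_15_6_ok) (L (nat_lit 430) ln13_16_6 ln13_16_6_ok))))))) (B (M (nat_lit 398) (B (M (nat_lit 493) (B (L (nat_lit 366) ln13_15_6 ln13_15_6_ok) (M (nat_lit 525) (B (L (nat_lit 428) ln13_16_7 ln13_16_7_ok) (L (nat_lit 430) ln13_16_6 ln13_16_6_ok))))) (B (M (nat_lit 395) (B (M (nat_lit 430) (B (L (nat_lit 394) ln10_12_0 ln10_12_0_ok) (L (nat_lit 431) ln11_12_0 ln11_12_0_ok))) (B (M (nat_lit 399) (B (M (nat_lit 427) (B (L (nat_lit 426) ln14_12_1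 ln14_12_1_ok) (L (nat_lit 428) ln15_12_1 ln15_12_1_ok))) (M (nat_lit 431) (B (L (nat_lit 430) ln11_12_0 ln11_12_0_ok) (L (nat_lit 432) ln12_12_0 ln12_12_0_ok))))) (M (nat_lit 394) (B (M (nat_lit 362) (B (L (nat_lit 361) ln13_12_3 ln13_12_3_ok) (L (nat_lit 363) ln14_12_3 ln14_12_3_ok))) (M (nat_lit 426) (B (L (nat_lit 425) ln13_12_1 ln13_12_1_ok) (L (nat_lit 427) ln14_12_1 ln14_12_1_ok)))))))) (B (M (nat_lit 430) (B (M (nat_lit 395) (B (L (nat_lit 394) ln10_12_0 ln10_12_0_ok) (L (nat_lit 431) ln11_12_0 ln11_12_0_ok))) (M (nat_lit 493) (B (L (nat_lit 366) ln13_15_6 ln13_15_6_ok) (L (nat_lit 525) ln13_16_6 ln13_16_6_ok))))) (M (nat_lit 428) (B (M (nat_lit 493) (B (L (nat_lit 366) ln13_15_6 ln13_15_6_ok) (L (nat_lit 525) ln13_16_7 ln13_16_7_ok))) (M (nat_lit 427) (B (L (nat_lit 399) ln15_12_1 ln15_12_1_ok) (L (nat_lit 426) ln10_13_2 ln10_13_2_ok))))))))) (B (M (nat_lit 493) (B (L (nat_lit 364) ln13_15_7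 ln13_15_7_ok) (M (nat_lit 525) (B (M (nat_lit 398) (B (L (nat_lit 366) ln13_15_6 ln13_15_6_ok) (L (nat_lit 430) ln13_16_6 ln13_16_6_ok))) (M (nat_lit 524) (B (L (nat_lit 492) ln13_12_5 ln13_12_5_ok) (L (nat_lit 556) ln13_13_5 ln13_13_5_ok))))))) (M (nat_lit 395) (B (M (nat_lit 430) (B (L (nat_lit 394) ln10_12_0 ln10_12_0_ok) (M (nat_lit 431) (B (L (nat_lit 398) ln11_12_0 ln11_12_0_ok) (L (nat_lit 428) ln15_13_3 ln15_13_3_ok))))) (B (M (nat_lit 398) (B (M (nat_lit 430) (B (L (nat_lit 431) ln11_12_0 ln11_12_0_ok) (M (nat_lit 366) (B (L (nat_lit 334) ln14_10_5 ln14_10_5_ok) (L (nat_lit 367) ln11_12_2 ln11_12_2_ok))))) (M (nat_lit 399) (B (M (nat_lit 363) (B (L (nat_lit 362) ln14_12_3 ln14_12_3_ok) (L (nat_lit 364) ln15_12_3 ln15_12_3_ok))) (M (nat_lit 427) (B (L (nat_lit 426) ln14_12_1 ln14_12_1_ok) (L (nat_lit 428) ln15_12_1 ln15_12_1_ok))))))) (B (M (nat_lit 430) (B (L (nat_lit 394) ln10_12_0 ln10_12_0_ok)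 (M (nat_lit 431) (B (L (nat_lit 428) ln15_13_3 ln15_13_3_ok) (L (nat_lit 432) ln16_13_3 ln16_13_3_ok))))) (B (M (nat_lit 430) (B (L (nat_lit 394) ln10_12_0 ln10_12_0_ok) (M (nat_lit 431) (B (L (nat_lit 398) ln11_12_0 ln11_12_0_ok) (L (nat_lit 432) ln16_13_3 ln16_13_3_ok))))) (M (nat_lit 398) (B (M (nat_lit 399) (B (M (nat_lit 367) (B (L (nat_lit 366) ln11_12_2 ln11_12_2_ok) (L (nat_lit 368) ln12_12_2 ln12_12_2_ok))) (M (nat_lit 427) (B (L (nat_lit 426) ln14_12_1 ln14_12_1_ok) (L (nat_lit 428) ln15_12_1 ln15_12_1_ok))))) (B (M (nat_lit 399) (B (M (nat_lit 363) (B (L (nat_lit 362) ln14_12_3 ln14_12_3_ok) (L (nat_lit 364) ln15_12_3 ln15_12_3_ok))) (M (nat_lit 427) (B (L (nat_lit 426) ln14_12_1 ln14_12_1_ok) (L (nat_lit 428) ln15_12_1 ln15_12_1_ok))))) (B (M (nat_lit 394) (B (M (nat_lit 362) (B (L (nat_lit 361) ln13_12_3 ln13_12_3_ok) (L (nat_lit 363) ln14_12_3 ln14_12_3_ok))) (M (nat_lit 426) (B (L (nat_lit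 425) ln13_12_1 ln13_12_1_ok) (L (nat_lit 427) ln14_12_1 ln14_12_1_ok))))) (M (nat_lit 399) (B (M (nat_lit 363) (B (L (nat_lit 362) ln14_12_3 ln14_12_3_ok) (L (nat_lit 364) ln15_12_3 ln15_12_3_ok))) (M (nat_lit 367) (B (L (nat_lit 366) ln11_12_2 ln11_12_2_ok) (L (nat_lit 368) ln12_12_2 ln12_12_2_ok)))))))))))))))))))
noncomputable def c31_n219 : Cert := (M (nat_lit 460) (B (M (nat_lit 492) (B (L (nat_lit 365) ln13_11_5 ln13_11_5_ok) (M (nat_lit 524) (B (L (nat_lit 428) ln12_16_6 ln12_16_6_ok) (L (nat_lit 556) ln12_17_6 ln12_17_6_ok))))) (B (M (nat_lit 459) (B (M (nat_lit 430) (B (L (nat_lit 458) ln10_14_2 ln10_14_2_ok) (M (nat_lit 431) (B (L (nat_lit 428) ln15_13_1 ln15_13_1_ok) (L (nat_lit 432) ln16_13_1 ln16_13_1_ok))))) (B (M (nat_lit 430) (B (L (nat_lit 458) ln10_14_2 ln10_14_2_ok) (M (nat_lit 431) (B (L (nat_lit 432) ln16_13_1 ln16_13_1_ok) (L (nat_lit 462) ln11_14_2 ln11_14_2_ok))))) (B (M (nat_lit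 462) (B (M (nat_lit 458) (B (M (nat_lit 426) (B (L (nat_lit 425) ln13_14_3 ln13_14_3_ok) (L (nat_lit 427) ln14_14_3 ln14_14_3_ok))) (M (nat_lit 490) (B (L (nat_lit 489) ln13_14_1 ln13_14_1_ok) (L (nat_lit 491) ln14_14_1 ln14_14_1_ok))))) (B (M (nat_lit 492) (B (M (nat_lit 524) (B (L (nat_lit 428) ln12_16_6 ln12_16_6_ok) (L (nat_lit 556) ln12_17_6 ln12_17_6_ok))) (M (nat_lit 491) (B (L (nat_lit 490) ln14_14_1 ln14_14_1_ok) (L (nat_lit 463) ln15_14_1 ln15_14_1_ok))))) (M (nat_lit 463) (B (M (nat_lit 427) (B (L (nat_lit 426) ln14_14_3 ln14_14_3_ok) (L (nat_lit 428) ln15_14_3 ln15_14_3_ok))) (M (nat_lit 495) (B (L (nat_lit 494) ln11_14_0 ln11_14_0_ok) (L (nat_lit 496) ln12_14_0 ln12_14_0_ok)))))))) (M (nat_lit 462) (B (M (nat_lit 430) (B (L (nat_lit 431) ln11_14_2 ln11_14_2_ok) (M (nat_lit 494) (B (L (nat_lit 526) ln14_16_7 ln14_16_7_ok) (L (nat_lit 495) ln11_14_0 ln11_14_0_ok))))) (M (nat_lit 492) (B (M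 (nat_lit 524) (B (L (nat_lit 428) ln12_16_6 ln12_16_6_ok) (L (nat_lit 556) ln12_17_6 ln12_17_6_ok))) (M (nat_lit 491) (B (L (nat_lit 490) ln14_14_1 ln14_14_1_ok) (L (nat_lit 463) ln15_14_1 ln15_14_1_ok))))))))))) (B (M (nat_lit 365) (B (L (nat_lit 492) ln13_11_5 ln13_11_5_ok) (M (nat_lit 333) (B (M (nat_lit 334) (B (L (nat_lit 302) ln13_13_6 ln13_13_6_ok) (L (nat_lit 366) ln13_14_6 ln13_14_6_ok))) (M (nat_lit 462) (B (L (nat_lit 430) ln13_10_4 ln13_10_4_ok) (L (nat_lit 494) ln13_11_4 ln13_11_4_ok))))))) (M (nat_lit 462) (B (M (nat_lit 365) (B (L (nat_lit 494) ln13_11_4 ln13_11_4_ok) (M (nat_lit 333) (B (L (nat_lit 428) ln13_10_5 ln13_10_5_ok) (L (nat_lit 430) ln13_10_4 ln13_10_4_ok))))) (B (M (nat_lit 459) (B (M (nat_lit 430) (B (L (nat_lit 458) ln10_14_2 ln10_14_2_ok) (L (nat_lit 431) ln11_14_2 ln11_14_2_ok))) (M (nat_lit 494) (B (L (nat_lit 365) ln13_11_4 ln13_11_4_ok) (L (nat_lit 495) ln11_14_0 ln11_14_0_ok)))))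 (B (M (nat_lit 459) (B (M (nat_lit 430) (B (L (nat_lit 458) ln10_14_2 ln10_14_2_ok) (L (nat_lit 431) ln11_14_2 ln11_14_2_ok))) (M (nat_lit 463) (B (M (nat_lit 427) (B (L (nat_lit 426) ln14_14_3 ln14_14_3_ok) (L (nat_lit 428) ln15_14_3 ln15_14_3_ok))) (M (nat_lit 495) (B (L (nat_lit 494) ln11_14_0 ln11_14_0_ok) (L (nat_lit 496) ln12_14_0 ln12_14_0_ok))))))) (B (M (nat_lit 428) (B (M (nat_lit 365) (B (L (nat_lit 333) ln13_10_5 ln13_10_5_ok) (L (nat_lit 494) ln13_11_4 ln13_11_4_ok))) (M (nat_lit 427) (B (L (nat_lit 426) ln10_13_0 ln10_13_0_ok) (L (nat_lit 463) ln15_14_3 ln15_14_3_ok))))) (M (nat_lit 459) (B (M (nat_lit 430) (B (L (nat_lit 458) ln10_14_2 ln10_14_2_ok) (L (nat_lit 431) ln11_14_2 ln11_14_2_ok))) (B (M (nat_lit 458) (B (M (nat_lit 426) (B (L (nat_lit 425) ln13_14_3 ln13_14_3_ok) (L (nat_lit 427) ln14_14_3 ln14_14_3_ok))) (M (nat_lit 490) (B (L (nat_lit 489) ln13_14_1 ln13_14_1_ok) (L (nat_lit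 491) ln14_14_1 ln14_14_1_ok))))) (M (nat_lit 463) (B (M (nat_lit 427) (B (L (nat_lit 426) ln14_14_3 ln14_14_3_ok) (L (nat_lit 428) ln15_14_3 ln15_14_3_ok))) (M (nat_lit 431) (B (L (nat_lit 430) ln11_14_2 ln11_14_2_ok) (L (nat_lit 432) ln12_14_2 ln12_14_2_ok)))))))))))))))))
theorem c31_s220 : Sem (nat_lit 1386334847383188664550070665778531748218595021979121511688892729411143073470393764272092352380775458208712834410189682411080515584) (nat_lit 235872651935775003889986796126899015962513499268213630927200893442332318695740239233561574530586381016731399709871453670352118466382144988393203047038271143430544424960) (nat_lit 235872651935775003889986796126899015962513499268213630927200893442332318695740239233561574530586381016731399709871453670352118466382144988393203047038271143430544424960) :=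
  sem_of_chk (M (nat_lit 461) (B (M (nat_lit 365) (B (M (nat_lit 332) (B (L (nat_lit 364) ln13_14_7 ln13_14_7_ok) (M (nat_lit 334) (B (L (nat_lit 366) ln13_14_6 ln13_14_6_ok) (M (nat_lit 333) (B (L (nat_lit 300) ln13_13_7 ln13_13_7_ok) (L (nat_lit 302) ln13_13_6 ln13_13_6_ok))))))) (B (M (nat_lit 493) (B (M (nat_lit 366) (B (L (nat_lit 334) ln13_14_6 ln13_14_6_ok) (L (nat_lit 398) ln13_15_6 ln13_15_6_ok))) (M (nat_lit 494) (B (L (nat_lit 462) ln13_11_4 ln13_11_4_ok) (L (nat_lit 526) ln13_12_4 ln13_12_4_ok))))) (M (nat_lit 333) (B (M (nat_lit 332) (B (L (nat_lit 300) ln13_13_7 ln13_13_7_ok) (L (nat_lit 364) ln13_14_7 ln13_14_7_ok))) (M (nat_lit 460) (B (L (nat_lit 428) ln13_10_5 ln13_10_5_ok) (L (nat_lit 492) ln13_11_5 ln13_11_5_ok)))))))) (B (M (nat_lit 493) (B (M (nat_lit 365) (B (M (nat_lit 364) (B (L (nat_lit 332) ln13_14_7 ln13_14_7_ok) (L (nat_lit 396) ln13_15_7 ln13_15_7_ok))) (M (nat_lit 366)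 (B (L (nat_lit 334) ln13_14_6 ln13_14_6_ok) (L (nat_lit 398) ln13_15_6 ln13_15_6_ok))))) (B (M (nat_lit 365) (B (M (nat_lit 366) (B (L (nat_lit 334) ln13_14_6 ln13_14_6_ok) (L (nat_lit 398) ln13_15_6 ln13_15_6_ok))) (M (nat_lit 492) (B (L (nat_lit 460) ln13_11_5 ln13_11_5_ok) (L (nat_lit 524) ln13_12_5 ln13_12_5_ok))))) (B (M (nat_lit 365) (B (M (nat_lit 364) (B (L (nat_lit 332) ln13_14_7 ln13_14_7_ok) (L (nat_lit 396) ln13_15_7 ln13_15_7_ok))) (M (nat_lit 492) (B (L (nat_lit 460) ln13_11_5 ln13_11_5_ok) (L (nat_lit 524) ln13_12_5 ln13_12_5_ok))))) (M (nat_lit 525) (B (M (nat_lit 396) (B (L (nat_lit 364) ln13_15_7 ln13_15_7_ok) (L (nat_lit 428) ln13_16_7 ln13_16_7_ok))) (M (nat_lit 524) (B (L (nat_lit 492) ln13_12_5 ln13_12_5_ok) (L (nat_lit 556) ln13_13_5 ln13_13_5_ok))))))))) (B (M (nat_lit 493) (B (M (nat_lit 365) (B (M (nat_lit 366) (B (L (nat_lit 334) ln13_14_6 ln13_14_6_ok) (L (nat_lit 398) ln13_15_6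 ln13_15_6_ok))) (M (nat_lit 494) (B (L (nat_lit 462) ln13_11_4 ln13_11_4_ok) (L (nat_lit 526) ln13_12_4 ln13_12_4_ok))))) (B (M (nat_lit 365) (B (M (nat_lit 492) (B (L (nat_lit 460) ln13_11_5 ln13_11_5_ok) (L (nat_lit 524) ln13_12_5 ln13_12_5_ok))) (M (nat_lit 494) (B (L (nat_lit 462) ln13_11_4 ln13_11_4_ok) (L (nat_lit 526) ln13_12_4 ln13_12_4_ok))))) (M (nat_lit 525) (B (M (nat_lit 396) (B (L (nat_lit 364) ln13_15_7 ln13_15_7_ok) (L (nat_lit 428) ln13_16_7 ln13_16_7_ok))) (M (nat_lit 524) (B (L (nat_lit 492) ln13_12_5 ln13_12_5_ok) (L (nat_lit 556) ln13_13_5 ln13_13_5_ok)))))))) (B (M (nat_lit 493) (B (M (nat_lit 365) (B (M (nat_lit 364) (B (L (nat_lit 332) ln13_14_7 ln13_14_7_ok) (L (nat_lit 396) ln13_15_7 ln13_15_7_ok))) (M (nat_lit 494) (B (L (nat_lit 462) ln13_11_4 ln13_11_4_ok) (L (nat_lit 526) ln13_12_4 ln13_12_4_ok))))) (B (M (nat_lit 365) (B (M (nat_lit 492) (B (L (nat_lit 460) ln13_11_5 ln13_11_5_ok)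 (L (nat_lit 524) ln13_12_5 ln13_12_5_ok))) (M (nat_lit 494) (B (L (nat_lit 462) ln13_11_4 ln13_11_4_ok) (L (nat_lit 526) ln13_12_4 ln13_12_4_ok))))) (M (nat_lit 525) (B (M (nat_lit 396) (B (L (nat_lit 364) ln13_15_7 ln13_15_7_ok) (L (nat_lit 428) ln13_16_7 ln13_16_7_ok))) (M (nat_lit 524) (B (L (nat_lit 492) ln13_12_5 ln13_12_5_ok) (L (nat_lit 556) ln13_13_5 ln13_13_5_ok)))))))) (B (M (nat_lit 493) (B (M (nat_lit 365) (B (M (nat_lit 366) (B (L (nat_lit 334) ln13_14_6 ln13_14_6_ok) (L (nat_lit 398) ln13_15_6 ln13_15_6_ok))) (M (nat_lit 494) (B (L (nat_lit 462) ln13_11_4 ln13_11_4_ok) (L (nat_lit 526) ln13_12_4 ln13_12_4_ok))))) (B (M (nat_lit 365) (B (M (nat_lit 492) (B (L (nat_lit 460) ln13_11_5 ln13_11_5_ok) (L (nat_lit 524) ln13_12_5 ln13_12_5_ok))) (M (nat_lit 494) (B (L (nat_lit 462) ln13_11_4 ln13_11_4_ok) (L (nat_lit 526) ln13_12_4 ln13_12_4_ok))))) (M (nat_lit 525) (B (M (nat_lit 398) (B (L (nat_lit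 366) ln13_15_6 ln13_15_6_ok) (L (nat_lit 430) ln13_16_6 ln13_16_6_ok))) (M (nat_lit 524) (B (L (nat_lit 492) ln13_12_5 ln13_12_5_ok) (L (nat_lit 556) ln13_13_5 ln13_13_5_ok)))))))) (B c31_n137 (B (M (nat_lit 493) (B (M (nat_lit 365) (B (M (nat_lit 364) (B (L (nat_lit 332) ln13_14_7 ln13_14_7_ok) (L (nat_lit 396) ln13_15_7 ln13_15_7_ok))) (M (nat_lit 494) (B (L (nat_lit 462) ln13_11_4 ln13_11_4_ok) (L (nat_lit 526) ln13_12_4 ln13_12_4_ok))))) (B (M (nat_lit 365) (B (M (nat_lit 366) (B (L (nat_lit 334) ln13_14_6 ln13_14_6_ok) (L (nat_lit 398) ln13_15_6 ln13_15_6_ok))) (M (nat_lit 494) (B (L (nat_lit 462) ln13_11_4 ln13_11_4_ok) (L (nat_lit 526) ln13_12_4 ln13_12_4_ok))))) (M (nat_lit 525) (B (M (nat_lit 396) (B (L (nat_lit 364) ln13_15_7 ln13_15_7_ok) (L (nat_lit 428) ln13_16_7 ln13_16_7_ok))) (M (nat_lit 398) (B (L (nat_lit 366) ln13_15_6 ln13_15_6_ok) (L (nat_lit 430) ln13_16_6 ln13_16_6_ok)))))))) c31_n219))))))))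 (nat_lit 1386334847383188664550070665778531748218595021979121511688892729411143073470393764272092352380775458208712834410189682411080515584) (nat_lit 235872651935775003889986796126899015962513499268213630927200893442332318695740239233561574530586381016731399709871453670352118466382144988393203047038271143430544424960) (nat_lit 235872651935775003889986796126899015962513499268213630927200893442332318695740239233561574530586381016731399709871453670352118466382144988393203047038271143430544424960) (by decide +kernel)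
noncomputable def c31_n289 : Cert := (M (nat_lit 398) (B (M (nat_lit 366) (B (L (nat_lit 493) ln13_15_6 ln13_15_6_ok) (M (nat_lit 334) (B (L (nat_lit 302) ln14_9_5 ln14_9_5_ok) (L (nat_lit 430) ln14_10_5 ln14_10_5_ok))))) (B (M (nat_lit 493) (B (L (nat_lit 366) ln13_15_6 ln13_15_6_ok) (M (nat_lit 525) (B (L (nat_lit 430) ln13_16_6 ln13_16_6_ok) (M (nat_lit 396) (B (L (nat_lit 364) ln13_15_7 ln13_15_7_ok) (L (nat_lit 428) ln13_16_7 ln13_16_7_ok))))))) (B (M (nat_lit 396) (B (M (nat_lit 493) (B (L (nat_lit 364) ln13_15_7 ln13_15_7_ok) (M (nat_lit 525) (B (L (nat_lit 428) ln13_16_7 ln13_16_7_ok) (L (nat_lit 430) ln13_16_6 ln13_16_6_ok))))) (B (M (nat_lit 399) (B (M (nat_lit 428) (B (L (nat_lit 427) ln15_12_1 ln15_12_1_ok) (L (nat_lit 400) ln16_12_1 ln16_12_1_ok))) (B (M (nat_lit 395) (B (M (nat_lit 427) (B (L (nat_lit 426) ln14_12_1 ln14_12_1_ok) (L (nat_lit 428) ln15_12_1 ln15_12_1_ok))) (M (nat_lit 431)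 (B (L (nat_lit 430) ln11_12_0 ln11_12_0_ok) (L (nat_lit 432) ln12_12_0 ln12_12_0_ok))))) (B (M (nat_lit 400) (B (L (nat_lit 428) ln16_12_1 ln16_12_1_ok) (M (nat_lit 368) (B (L (nat_lit 367) ln12_12_2 ln12_12_2_ok) (L (nat_lit 369) ln13_12_2 ln13_12_2_ok))))) (M (nat_lit 400) (B (M (nat_lit 368) (B (L (nat_lit 367) ln12_12_2 ln12_12_2_ok) (L (nat_lit 369) ln13_12_2 ln13_12_2_ok))) (M (nat_lit 432) (B (L (nat_lit 431) ln12_12_0 ln12_12_0_ok) (L (nat_lit 433) ln13_12_0 ln13_12_0_ok))))))))) (B (M (nat_lit 430) (B (M (nat_lit 431) (B (L (nat_lit 395) ln11_12_0 ln11_12_0_ok) (L (nat_lit 432) ln16_13_3 ln16_13_3_ok))) (M (nat_lit 493) (B (L (nat_lit 364) ln13_15_7 ln13_15_7_ok) (L (nat_lit 525) ln13_16_6 ln13_16_6_ok))))) (M (nat_lit 428) (B (M (nat_lit 493) (B (L (nat_lit 364) ln13_15_7 ln13_15_7_ok) (L (nat_lit 525) ln13_16_7 ln13_16_7_ok))) (M (nat_lit 427) (B (L (nat_lit 399) ln15_12_1 ln15_12_1_ok) (L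 (nat_lit 426) ln10_13_2 ln10_13_2_ok))))))))) (B (M (nat_lit 493) (B (L (nat_lit 366) ln13_15_6 ln13_15_6_ok) (M (nat_lit 525) (B (M (nat_lit 396) (B (L (nat_lit 364) ln13_15_7 ln13_15_7_ok) (L (nat_lit 428) ln13_16_7 ln13_16_7_ok))) (M (nat_lit 526) (B (L (nat_lit 494) ln13_12_4 ln13_12_4_ok) (L (nat_lit 558) ln13_13_4 ln13_13_4_ok))))))) (M (nat_lit 396) (B (M (nat_lit 399) (B (M (nat_lit 428) (B (L (nat_lit 427) ln15_12_1 ln15_12_1_ok) (L (nat_lit 400) ln16_12_1 ln16_12_1_ok))) (M (nat_lit 395) (B (M (nat_lit 363) (B (L (nat_lit 362) ln14_12_3 ln14_12_3_ok) (L (nat_lit 364) ln15_12_3 ln15_12_3_ok))) (M (nat_lit 431) (B (L (nat_lit 430) ln11_12_0 ln11_12_0_ok) (L (nat_lit 432) ln12_12_0 ln12_12_0_ok))))))) (B (M (nat_lit 399) (B (M (nat_lit 428) (B (L (nat_lit 427) ln15_12_1 ln15_12_1_ok) (L (nat_lit 400) ln16_12_1 ln16_12_1_ok))) (M (nat_lit 366) (B (M (nat_lit 334) (B (L (nat_lit 302) ln14_9_5 ln14_9_5_ok)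 (L (nat_lit 430) ln14_10_5 ln14_10_5_ok))) (M (nat_lit 367) (B (L (nat_lit 395) ln11_12_2 ln11_12_2_ok) (L (nat_lit 368) ln12_12_2 ln12_12_2_ok))))))) (B (M (nat_lit 399) (B (M (nat_lit 428) (B (L (nat_lit 427) ln15_12_1 ln15_12_1_ok) (L (nat_lit 400) ln16_12_1 ln16_12_1_ok))) (B (M (nat_lit 428) (B (L (nat_lit 427) ln15_12_1 ln15_12_1_ok) (M (nat_lit 364) (B (L (nat_lit 332) ln12_10_4 ln12_10_4_ok) (L (nat_lit 363) ln15_12_3 ln15_12_3_ok))))) (B (M (nat_lit 428) (B (L (nat_lit 400) ln16_12_1 ln16_12_1_ok) (M (nat_lit 364) (B (L (nat_lit 332) ln12_10_4 ln12_10_4_ok) (L (nat_lit 363) ln15_12_3 ln15_12_3_ok))))) (M (nat_lit 400) (B (M (nat_lit 368) (B (L (nat_lit 367) ln12_12_2 ln12_12_2_ok) (L (nat_lit 369) ln13_12_2 ln13_12_2_ok))) (M (nat_lit 432) (B (L (nat_lit 431) ln12_12_0 ln12_12_0_ok) (L (nat_lit 433) ln13_12_0 ln13_12_0_ok))))))))) (B (M (nat_lit 395) (B (M (nat_lit 430) (B (L (nat_lit 394) ln10_12_0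 ln10_12_0_ok) (L (nat_lit 431) ln11_12_0 ln11_12_0_ok))) (B (M (nat_lit 430) (B (L (nat_lit 431) ln11_12_0 ln11_12_0_ok) (M (nat_lit 366) (B (L (nat_lit 334) ln14_10_5 ln14_10_5_ok) (L (nat_lit 367) ln11_12_2 ln11_12_2_ok))))) (M (nat_lit 394) (B (M (nat_lit 362) (B (L (nat_lit 361) ln13_12_3 ln13_12_3_ok) (L (nat_lit 363) ln14_12_3 ln14_12_3_ok))) (M (nat_lit 426) (B (L (nat_lit 425) ln13_12_1 ln13_12_1_ok) (L (nat_lit 427) ln14_12_1 ln14_12_1_ok)))))))) (M (nat_lit 399) (B (M (nat_lit 428) (B (L (nat_lit 400) ln16_12_1 ln16_12_1_ok) (M (nat_lit 364) (B (L (nat_lit 332) ln12_10_4 ln12_10_4_ok) (L (nat_lit 363) ln15_12_3 ln15_12_3_ok))))) (B (M (nat_lit 400) (B (L (nat_lit 428) ln16_12_1 ln16_12_1_ok) (M (nat_lit 368) (B (L (nat_lit 367) ln12_12_2 ln12_12_2_ok) (L (nat_lit 369) ln13_12_2 ln13_12_2_ok))))) (M (nat_lit 366) (B (M (nat_lit 334) (B (L (nat_lit 302) ln14_9_5 ln14_9_5_ok) (L (nat_lit 430)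 ln14_10_5 ln14_10_5_ok))) (M (nat_lit 367) (B (L (nat_lit 395) ln11_12_2 ln11_12_2_ok) (L (nat_lit 368) ln12_12_2 ln12_12_2_ok))))))))))))))))))
theorem c31_s290 : Sem (nat_lit 1386334847383188664550070665778531748218595021979121511688892729411143073470393764272092352380775458208712834410189682411080515584) (nat_lit 1179363258141160341950375441373966238713925161927872506777169144368919150705949337762009300291124214079198773682189149010662226151934148507196888634896815140193601323008) (nat_lit 1179363258141160341950375441373966238713925161927872506777169144368919150705949337762009300291124214079198773682189149010662226151934148507196888634896815140193601323008) :=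
  sem_of_chk (M (nat_lit 461) (B (M (nat_lit 493) (B (M (nat_lit 525) (B (M (nat_lit 396) (B (L (nat_lit 364) ln13_15_7 ln13_15_7_ok) (L (nat_lit 428) ln13_16_7 ln13_16_7_ok))) (M (nat_lit 398) (B (L (nat_lit 366) ln13_15_6 ln13_15_6_ok) (L (nat_lit 430) ln13_16_6 ln13_16_6_ok))))) (B (M (nat_lit 365) (B (M (nat_lit 366) (B (L (nat_lit 334) ln13_14_6 ln13_14_6_ok) (L (nat_lit 398) ln13_15_6 ln13_15_6_ok))) (M (nat_lit 492) (B (L (nat_lit 460) ln13_11_5 ln13_11_5_ok) (L (nat_lit 524) ln13_12_5 ln13_12_5_ok))))) (M (nat_lit 525) (B (M (nat_lit 396) (B (L (nat_lit 364) ln13_15_7 ln13_15_7_ok) (L (nat_lit 428) ln13_16_7 ln13_16_7_ok))) (M (nat_lit 524) (B (L (nat_lit 492) ln13_12_5 ln13_12_5_ok) (L (nat_lit 556) ln13_13_5 ln13_13_5_ok)))))))) (B (M (nat_lit 493) (B (M (nat_lit 365) (B (M (nat_lit 364) (B (L (nat_lit 332) ln13_14_7 ln13_14_7_ok) (L (nat_lit 396) ln13_15_7 ln13_15_7_ok))) (M (nat_lit 494)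 (B (L (nat_lit 462) ln13_11_4 ln13_11_4_ok) (L (nat_lit 526) ln13_12_4 ln13_12_4_ok))))) (B (M (nat_lit 365) (B (M (nat_lit 492) (B (L (nat_lit 460) ln13_11_5 ln13_11_5_ok) (L (nat_lit 524) ln13_12_5 ln13_12_5_ok))) (M (nat_lit 494) (B (L (nat_lit 462) ln13_11_4 ln13_11_4_ok) (L (nat_lit 526) ln13_12_4 ln13_12_4_ok))))) (M (nat_lit 525) (B (M (nat_lit 396) (B (L (nat_lit 364) ln13_15_7 ln13_15_7_ok) (L (nat_lit 428) ln13_16_7 ln13_16_7_ok))) (M (nat_lit 524) (B (L (nat_lit 492) ln13_12_5 ln13_12_5_ok) (L (nat_lit 556) ln13_13_5 ln13_13_5_ok)))))))) (B (M (nat_lit 493) (B (M (nat_lit 365) (B (M (nat_lit 366) (B (L (nat_lit 334) ln13_14_6 ln13_14_6_ok) (L (nat_lit 398) ln13_15_6 ln13_15_6_ok))) (M (nat_lit 494) (B (L (nat_lit 462) ln13_11_4 ln13_11_4_ok) (L (nat_lit 526) ln13_12_4 ln13_12_4_ok))))) (B (M (nat_lit 365) (B (M (nat_lit 492) (B (L (nat_lit 460) ln13_11_5 ln13_11_5_ok) (L (nat_lit 524) ln13_12_5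 ln13_12_5_ok))) (M (nat_lit 494) (B (L (nat_lit 462) ln13_11_4 ln13_11_4_ok) (L (nat_lit 526) ln13_12_4 ln13_12_4_ok))))) (M (nat_lit 525) (B (M (nat_lit 398) (B (L (nat_lit 366) ln13_15_6 ln13_15_6_ok) (L (nat_lit 430) ln13_16_6 ln13_16_6_ok))) (M (nat_lit 524) (B (L (nat_lit 492) ln13_12_5 ln13_12_5_ok) (L (nat_lit 556) ln13_13_5 ln13_13_5_ok)))))))) (B c31_n289 c31_n219))))) (nat_lit 1386334847383188664550070665778531748218595021979121511688892729411143073470393764272092352380775458208712834410189682411080515584) (nat_lit 1179363258141160341950375441373966238713925161927872506777169144368919150705949337762009300291124214079198773682189149010662226151934148507196888634896815140193601323008) (nat_lit 1179363258141160341950375441373966238713925161927872506777169144368919150705949337762009300291124214079198773682189149010662226151934148507196888634896815140193601323008) (by decide +kernel)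
theorem c31_s310 : Sem (nat_lit 5954262830815946494763249298768603811203561774969104571805089223376689777636098861358550851719243481454542035207245364041705138952691777536) (nat_lit 1179363258141160341632306725032480602461158791655588400722509874926182197957454452172398686575762764672056378897843908573722029989973503204229545098803915392609362640896) (nat_lit 1179363258141160341632306725032480602461158791655588400722509874926182197957454452172398686575762764672056378897843908573722029989973503204229545098803915392609362640896) :=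
  sem_of_chk (M (nat_lit 398) (B (M (nat_lit 493) (B (L (nat_lit 366) ln13_15_6 ln13_15_6_ok) (M (nat_lit 525) (B (L (nat_lit 430) ln13_16_6 ln13_16_6_ok) (M (nat_lit 396) (B (L (nat_lit 364) ln13_15_7 ln13_15_7_ok) (L (nat_lit 428) ln13_16_7 ln13_16_7_ok))))))) (B (M (nat_lit 493) (B (L (nat_lit 366) ln13_15_6 ln13_15_6_ok) (M (nat_lit 525) (B (L (nat_lit 430) ln13_16_6 ln13_16_6_ok) (M (nat_lit 524) (B (L (nat_lit 492) ln13_12_5 ln13_12_5_ok) (L (nat_lit 556) ln13_13_5 ln13_13_5_ok))))))) (B (M (nat_lit 396) (B (M (nat_lit 493) (B (L (nat_lit 364) ln13_15_7 ln13_15_7_ok) (M (nat_lit 525) (B (L (nat_lit 428) ln13_16_7 ln13_16_7_ok) (L (nat_lit 430) ln13_16_6 ln13_16_6_ok))))) (B (M (nat_lit 399) (B (M (nat_lit 428) (B (L (nat_lit 427) ln15_12_1 ln15_12_1_ok) (L (nat_lit 400) ln16_12_1 ln16_12_1_ok))) (B (M (nat_lit 395) (B (M (nat_lit 427) (B (L (nat_lit 426) ln14_12_1 ln14_12_1_ok) (L (nat_lit 428)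 ln15_12_1 ln15_12_1_ok))) (M (nat_lit 431) (B (L (nat_lit 430) ln11_12_0 ln11_12_0_ok) (L (nat_lit 432) ln12_12_0 ln12_12_0_ok))))) (B (M (nat_lit 400) (B (L (nat_lit 428) ln16_12_1 ln16_12_1_ok) (M (nat_lit 368) (B (L (nat_lit 367) ln12_12_2 ln12_12_2_ok) (L (nat_lit 369) ln13_12_2 ln13_12_2_ok))))) (M (nat_lit 400) (B (M (nat_lit 368) (B (L (nat_lit 367) ln12_12_2 ln12_12_2_ok) (L (nat_lit 369) ln13_12_2 ln13_12_2_ok))) (M (nat_lit 432) (B (L (nat_lit 431) ln12_12_0 ln12_12_0_ok) (L (nat_lit 433) ln13_12_0 ln13_12_0_ok))))))))) (B (M (nat_lit 430) (B (M (nat_lit 431) (B (L (nat_lit 395) ln11_12_0 ln11_12_0_ok) (L (nat_lit 432) ln16_13_3 ln16_13_3_ok))) (M (nat_lit 493) (B (L (nat_lit 364) ln13_15_7 ln13_15_7_ok) (L (nat_lit 525) ln13_16_6 ln13_16_6_ok))))) (M (nat_lit 428) (B (M (nat_lit 493) (B (L (nat_lit 364) ln13_15_7 ln13_15_7_ok) (L (nat_lit 525) ln13_16_7 ln13_16_7_ok))) (M (nat_lit 427) (B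 (L (nat_lit 399) ln15_12_1 ln15_12_1_ok) (L (nat_lit 426) ln10_13_2 ln10_13_2_ok))))))))) (B (M (nat_lit 493) (B (L (nat_lit 366) ln13_15_6 ln13_15_6_ok) (M (nat_lit 525) (B (M (nat_lit 396) (B (L (nat_lit 364) ln13_15_7 ln13_15_7_ok) (L (nat_lit 428) ln13_16_7 ln13_16_7_ok))) (M (nat_lit 526) (B (L (nat_lit 494) ln13_12_4 ln13_12_4_ok) (L (nat_lit 558) ln13_13_4 ln13_13_4_ok))))))) (M (nat_lit 396) (B (M (nat_lit 399) (B (M (nat_lit 428) (B (L (nat_lit 427) ln15_12_1 ln15_12_1_ok) (L (nat_lit 400) ln16_12_1 ln16_12_1_ok))) (M (nat_lit 395) (B (M (nat_lit 367) (B (L (nat_lit 366) ln11_12_2 ln11_12_2_ok) (L (nat_lit 368) ln12_12_2 ln12_12_2_ok))) (M (nat_lit 431) (B (L (nat_lit 430) ln11_12_0 ln11_12_0_ok) (L (nat_lit 432) ln12_12_0 ln12_12_0_ok))))))) (B (M (nat_lit 399) (B (M (nat_lit 428) (B (L (nat_lit 427) ln15_12_1 ln15_12_1_ok) (L (nat_lit 400) ln16_12_1 ln16_12_1_ok))) (M (nat_lit 395) (B (M (nat_lit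 363) (B (L (nat_lit 362) ln14_12_3 ln14_12_3_ok) (L (nat_lit 364) ln15_12_3 ln15_12_3_ok))) (M (nat_lit 431) (B (L (nat_lit 430) ln11_12_0 ln11_12_0_ok) (L (nat_lit 432) ln12_12_0 ln12_12_0_ok))))))) (B (M (nat_lit 399) (B (M (nat_lit 428) (B (L (nat_lit 427) ln15_12_1 ln15_12_1_ok) (L (nat_lit 400) ln16_12_1 ln16_12_1_ok))) (B (M (nat_lit 428) (B (L (nat_lit 427) ln15_12_1 ln15_12_1_ok) (M (nat_lit 364) (B (L (nat_lit 332) ln12_10_4 ln12_10_4_ok) (L (nat_lit 363) ln15_12_3 ln15_12_3_ok))))) (B (M (nat_lit 428) (B (L (nat_lit 400) ln16_12_1 ln16_12_1_ok) (M (nat_lit 364) (B (L (nat_lit 332) ln12_10_4 ln12_10_4_ok) (L (nat_lit 363) ln15_12_3 ln15_12_3_ok))))) (M (nat_lit 400) (B (M (nat_lit 368) (B (L (nat_lit 367) ln12_12_2 ln12_12_2_ok) (L (nat_lit 369) ln13_12_2 ln13_12_2_ok))) (M (nat_lit 432) (B (L (nat_lit 431) ln12_12_0 ln12_12_0_ok) (L (nat_lit 433) ln13_12_0 ln13_12_0_ok))))))))) (B (M (nat_lit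 395) (B (M (nat_lit 430) (B (L (nat_lit 394) ln10_12_0 ln10_12_0_ok) (L (nat_lit 431) ln11_12_0 ln11_12_0_ok))) (B (M (nat_lit 430) (B (L (nat_lit 431) ln11_12_0 ln11_12_0_ok) (M (nat_lit 366) (B (L (nat_lit 334) ln14_10_5 ln14_10_5_ok) (L (nat_lit 367) ln11_12_2 ln11_12_2_ok))))) (M (nat_lit 394) (B (M (nat_lit 362) (B (L (nat_lit 361) ln13_12_3 ln13_12_3_ok) (L (nat_lit 363) ln14_12_3 ln14_12_3_ok))) (M (nat_lit 426) (B (L (nat_lit 425) ln13_12_1 ln13_12_1_ok) (L (nat_lit 427) ln14_12_1 ln14_12_1_ok)))))))) (B (M (nat_lit 399) (B (M (nat_lit 428) (B (L (nat_lit 400) ln16_12_1 ln16_12_1_ok) (M (nat_lit 364) (B (L (nat_lit 332) ln12_10_4 ln12_10_4_ok) (L (nat_lit 363) ln15_12_3 ln15_12_3_ok))))) (B (M (nat_lit 400) (B (L (nat_lit 428) ln16_12_1 ln16_12_1_ok) (M (nat_lit 368) (B (L (nat_lit 367) ln12_12_2 ln12_12_2_ok) (L (nat_lit 369) ln13_12_2 ln13_12_2_ok))))) (B (M (nat_lit 364) (B (L (nat_lit 363)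 ln15_12_3 ln15_12_3_ok) (M (nat_lit 332) (B (L (nat_lit 300) ln12_9_4 ln12_9_4_ok) (L (nat_lit 428) ln12_10_4 ln12_10_4_ok))))) (M (nat_lit 400) (B (M (nat_lit 368) (B (L (nat_lit 367) ln12_12_2 ln12_12_2_ok) (L (nat_lit 369) ln13_12_2 ln13_12_2_ok))) (M (nat_lit 432) (B (L (nat_lit 431) ln12_12_0 ln12_12_0_ok) (L (nat_lit 433) ln13_12_0 ln13_12_0_ok))))))))) (M (nat_lit 399) (B (M (nat_lit 428) (B (L (nat_lit 427) ln15_12_1 ln15_12_1_ok) (L (nat_lit 400) ln16_12_1 ln16_12_1_ok))) (M (nat_lit 395) (B (M (nat_lit 363) (B (L (nat_lit 362) ln14_12_3 ln14_12_3_ok) (L (nat_lit 364) ln15_12_3 ln15_12_3_ok))) (M (nat_lit 367) (B (L (nat_lit 366) ln11_12_2 ln11_12_2_ok) (L (nat_lit 368) ln12_12_2 ln12_12_2_ok)))))))))))))))))) (nat_lit 5954262830815946494763249298768603811203561774969104571805089223376689777636098861358550851719243481454542035207245364041705138952691777536) (nat_lit 1179363258141160341632306725032480602461158791655588400722509874926182197957454452172398686575762764672056378897843908573722029989973503204229545098803915392609362640896)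 (nat_lit 1179363258141160341632306725032480602461158791655588400722509874926182197957454452172398686575762764672056378897843908573722029989973503204229545098803915392609362640896) (by decide +kernel)
theorem c31_s331 : Sem (nat_lit 1386334847383188664550070665778531748218595021979121511688892729411143073470393764272092352380775458208712834410189682411080515584) (nat_lit 1179363258141160341950375441373966238713925161927872506777169144368919150705943226654080296832865408742133545547705994605481228343182240085848825490997525130075051130880) (nat_lit 1179363258141160341950375441373966238713925161927872506777169144368919150705943226654080296832865408742133545547705994605481228343182240085848825490997525130075051130880) :=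
  sem_of_chk (M (nat_lit 461) (B (M (nat_lit 493) (B (M (nat_lit 525) (B (M (nat_lit 396) (B (L (nat_lit 364) ln13_15_7 ln13_15_7_ok) (L (nat_lit 428) ln13_16_7 ln13_16_7_ok))) (M (nat_lit 398) (B (L (nat_lit 366) ln13_15_6 ln13_15_6_ok) (L (nat_lit 430) ln13_16_6 ln13_16_6_ok))))) (B (M (nat_lit 365) (B (M (nat_lit 366) (B (L (nat_lit 334) ln13_14_6 ln13_14_6_ok) (L (nat_lit 398) ln13_15_6 ln13_15_6_ok))) (M (nat_lit 492) (B (L (nat_lit 460) ln13_11_5 ln13_11_5_ok) (L (nat_lit 524) ln13_12_5 ln13_12_5_ok))))) (M (nat_lit 525) (B (M (nat_lit 396) (B (L (nat_lit 364) ln13_15_7 ln13_15_7_ok) (L (nat_lit 428) ln13_16_7 ln13_16_7_ok))) (M (nat_lit 524) (B (L (nat_lit 492) ln13_12_5 ln13_12_5_ok) (L (nat_lit 556) ln13_13_5 ln13_13_5_ok)))))))) (B (M (nat_lit 493) (B (M (nat_lit 365) (B (M (nat_lit 364) (B (L (nat_lit 332) ln13_14_7 ln13_14_7_ok) (L (nat_lit 396) ln13_15_7 ln13_15_7_ok))) (M (nat_lit 494)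 (B (L (nat_lit 462) ln13_11_4 ln13_11_4_ok) (L (nat_lit 526) ln13_12_4 ln13_12_4_ok))))) (B (M (nat_lit 365) (B (M (nat_lit 492) (B (L (nat_lit 460) ln13_11_5 ln13_11_5_ok) (L (nat_lit 524) ln13_12_5 ln13_12_5_ok))) (M (nat_lit 494) (B (L (nat_lit 462) ln13_11_4 ln13_11_4_ok) (L (nat_lit 526) ln13_12_4 ln13_12_4_ok))))) (M (nat_lit 525) (B (M (nat_lit 396) (B (L (nat_lit 364) ln13_15_7 ln13_15_7_ok) (L (nat_lit 428) ln13_16_7 ln13_16_7_ok))) (M (nat_lit 524) (B (L (nat_lit 492) ln13_12_5 ln13_12_5_ok) (L (nat_lit 556) ln13_13_5 ln13_13_5_ok)))))))) (B (M (nat_lit 493) (B (M (nat_lit 365) (B (M (nat_lit 366) (B (L (nat_lit 334) ln13_14_6 ln13_14_6_ok) (L (nat_lit 398) ln13_15_6 ln13_15_6_ok))) (M (nat_lit 494) (B (L (nat_lit 462) ln13_11_4 ln13_11_4_ok) (L (nat_lit 526) ln13_12_4 ln13_12_4_ok))))) (B (M (nat_lit 365) (B (M (nat_lit 492) (B (L (nat_lit 460) ln13_11_5 ln13_11_5_ok) (L (nat_lit 524) ln13_12_5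 ln13_12_5_ok))) (M (nat_lit 494) (B (L (nat_lit 462) ln13_11_4 ln13_11_4_ok) (L (nat_lit 526) ln13_12_4 ln13_12_4_ok))))) (M (nat_lit 525) (B (M (nat_lit 398) (B (L (nat_lit 366) ln13_15_6 ln13_15_6_ok) (L (nat_lit 430) ln13_16_6 ln13_16_6_ok))) (M (nat_lit 524) (B (L (nat_lit 492) ln13_12_5 ln13_12_5_ok) (L (nat_lit 556) ln13_13_5 ln13_13_5_ok)))))))) (B (K (nat_lit 5954262830815946494763249298768603811203561774969104571805089223376689777636098861358550851719243481454542035207245364041705138952691777536) (nat_lit 1179363258141160341632306725032480602461158791655588400722509874926182197957454452172398686575762764672056378897843908573722029989973503204229545098803915392609362640896) (nat_lit 1179363258141160341632306725032480602461158791655588400722509874926182197957454452172398686575762764672056378897843908573722029989973503204229545098803915392609362640896) c31_s310) (B (M (nat_lit 493) (B (M (nat_lit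 365) (B (M (nat_lit 366) (B (L (nat_lit 334) ln13_14_6 ln13_14_6_ok) (L (nat_lit 398) ln13_15_6 ln13_15_6_ok))) (M (nat_lit 494) (B (L (nat_lit 462) ln13_11_4 ln13_11_4_ok) (L (nat_lit 526) ln13_12_4 ln13_12_4_ok))))) (B (M (nat_lit 365) (B (M (nat_lit 364) (B (L (nat_lit 332) ln13_14_7 ln13_14_7_ok) (L (nat_lit 396) ln13_15_7 ln13_15_7_ok))) (M (nat_lit 494) (B (L (nat_lit 462) ln13_11_4 ln13_11_4_ok) (L (nat_lit 526) ln13_12_4 ln13_12_4_ok))))) (B (M (nat_lit 525) (B (M (nat_lit 396) (B (L (nat_lit 364) ln13_15_7 ln13_15_7_ok) (L (nat_lit 428) ln13_16_7 ln13_16_7_ok))) (M (nat_lit 526) (B (L (nat_lit 494) ln13_12_4 ln13_12_4_ok) (L (nat_lit 558) ln13_13_4 ln13_13_4_ok))))) (M (nat_lit 365) (B (M (nat_lit 364) (B (L (nat_lit 332) ln13_14_7 ln13_14_7_ok) (L (nat_lit 396) ln13_15_7 ln13_15_7_ok))) (M (nat_lit 366) (B (L (nat_lit 334) ln13_14_6 ln13_14_6_ok) (L (nat_lit 398) ln13_15_6 ln13_15_6_ok)))))))))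 (M (nat_lit 460) (B (M (nat_lit 492) (B (L (nat_lit 365) ln13_11_5 ln13_11_5_ok) (M (nat_lit 524) (B (L (nat_lit 428) ln12_16_6 ln12_16_6_ok) (L (nat_lit 556) ln12_17_6 ln12_17_6_ok))))) (B (M (nat_lit 459) (B (M (nat_lit 430) (B (L (nat_lit 458) ln10_14_2 ln10_14_2_ok) (M (nat_lit 431) (B (L (nat_lit 428) ln15_13_1 ln15_13_1_ok) (L (nat_lit 432) ln16_13_1 ln16_13_1_ok))))) (B (M (nat_lit 430) (B (L (nat_lit 458) ln10_14_2 ln10_14_2_ok) (M (nat_lit 431) (B (L (nat_lit 432) ln16_13_1 ln16_13_1_ok) (L (nat_lit 462) ln11_14_2 ln11_14_2_ok))))) (B (M (nat_lit 462) (B (M (nat_lit 458) (B (M (nat_lit 426) (B (L (nat_lit 425) ln13_14_3 ln13_14_3_ok) (L (nat_lit 427) ln14_14_3 ln14_14_3_ok))) (M (nat_lit 490) (B (L (nat_lit 489) ln13_14_1 ln13_14_1_ok) (L (nat_lit 491) ln14_14_1 ln14_14_1_ok))))) (B (M (nat_lit 492) (B (M (nat_lit 524) (B (L (nat_lit 428) ln12_16_6 ln12_16_6_ok) (L (nat_lit 556) ln12_17_6 ln12_17_6_ok)))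 (M (nat_lit 491) (B (L (nat_lit 490) ln14_14_1 ln14_14_1_ok) (L (nat_lit 463) ln15_14_1 ln15_14_1_ok))))) (M (nat_lit 463) (B (M (nat_lit 427) (B (L (nat_lit 426) ln14_14_3 ln14_14_3_ok) (L (nat_lit 428) ln15_14_3 ln15_14_3_ok))) (M (nat_lit 495) (B (L (nat_lit 494) ln11_14_0 ln11_14_0_ok) (L (nat_lit 496) ln12_14_0 ln12_14_0_ok)))))))) (M (nat_lit 462) (B (M (nat_lit 430) (B (L (nat_lit 431) ln11_14_2 ln11_14_2_ok) (M (nat_lit 494) (B (L (nat_lit 526) ln14_16_7 ln14_16_7_ok) (L (nat_lit 495) ln11_14_0 ln11_14_0_ok))))) (M (nat_lit 492) (B (M (nat_lit 524) (B (L (nat_lit 428) ln12_16_6 ln12_16_6_ok) (L (nat_lit 556) ln12_17_6 ln12_17_6_ok))) (M (nat_lit 491) (B (L (nat_lit 490) ln14_14_1 ln14_14_1_ok) (L (nat_lit 463) ln15_14_1 ln15_14_1_ok))))))))))) (B (M (nat_lit 365) (B (L (nat_lit 492) ln13_11_5 ln13_11_5_ok) (M (nat_lit 333) (B (M (nat_lit 332) (B (L (nat_lit 300) ln13_13_7 ln13_13_7_ok) (L (nat_lit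 364) ln13_14_7 ln13_14_7_ok))) (M (nat_lit 462) (B (L (nat_lit 430) ln13_10_4 ln13_10_4_ok) (L (nat_lit 494) ln13_11_4 ln13_11_4_ok))))))) (M (nat_lit 462) (B (M (nat_lit 365) (B (L (nat_lit 494) ln13_11_4 ln13_11_4_ok) (M (nat_lit 333) (B (L (nat_lit 428) ln13_10_5 ln13_10_5_ok) (L (nat_lit 430) ln13_10_4 ln13_10_4_ok))))) (B (M (nat_lit 459) (B (M (nat_lit 430) (B (L (nat_lit 458) ln10_14_2 ln10_14_2_ok) (L (nat_lit 431) ln11_14_2 ln11_14_2_ok))) (B (M (nat_lit 458) (B (M (nat_lit 426) (B (L (nat_lit 425) ln13_14_3 ln13_14_3_ok) (L (nat_lit 427) ln14_14_3 ln14_14_3_ok))) (M (nat_lit 490) (B (L (nat_lit 489) ln13_14_1 ln13_14_1_ok) (L (nat_lit 491) ln14_14_1 ln14_14_1_ok))))) (M (nat_lit 463) (B (M (nat_lit 427) (B (L (nat_lit 426) ln14_14_3 ln14_14_3_ok) (L (nat_lit 428) ln15_14_3 ln15_14_3_ok))) (M (nat_lit 431) (B (L (nat_lit 430) ln11_14_2 ln11_14_2_ok) (L (nat_lit 432) ln12_14_2 ln12_14_2_ok))))))))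 (B (M (nat_lit 430) (B (M (nat_lit 365) (B (L (nat_lit 333) ln13_10_4 ln13_10_4_ok) (L (nat_lit 494) ln13_11_4 ln13_11_4_ok))) (M (nat_lit 459) (B (L (nat_lit 458) ln10_14_2 ln10_14_2_ok) (L (nat_lit 431) ln11_14_2 ln11_14_2_ok))))) (M (nat_lit 428) (B (M (nat_lit 365) (B (L (nat_lit 333) ln13_10_5 ln13_10_5_ok) (L (nat_lit 494) ln13_11_4 ln13_11_4_ok))) (M (nat_lit 427) (B (L (nat_lit 426) ln10_13_0 ln10_13_0_ok) (L (nat_lit 463) ln15_14_3 ln15_14_3_ok))))))))))))))))))) (nat_lit 1386334847383188664550070665778531748218595021979121511688892729411143073470393764272092352380775458208712834410189682411080515584) (nat_lit 1179363258141160341950375441373966238713925161927872506777169144368919150705943226654080296832865408742133545547705994605481228343182240085848825490997525130075051130880) (nat_lit 1179363258141160341950375441373966238713925161927872506777169144368919150705943226654080296832865408742133545547705994605481228343182240085848825490997525130075051130880)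 (by decide +kernel)
noncomputable def c31_n339 : Cert := (M (nat_lit 396) (B (M (nat_lit 493) (B (L (nat_lit 364) ln13_15_7 ln13_15_7_ok) (M (nat_lit 525) (B (L (nat_lit 428) ln13_16_7 ln13_16_7_ok) (M (nat_lit 398) (B (L (nat_lit 366) ln13_15_6 ln13_15_6_ok) (L (nat_lit 430) ln13_16_6 ln13_16_6_ok))))))) (B (M (nat_lit 398) (B (M (nat_lit 493) (B (L (nat_lit 366) ln13_15_6 ln13_15_6_ok) (M (nat_lit 525) (B (L (nat_lit 428) ln13_16_7 ln13_16_7_ok) (L (nat_lit 430) ln13_16_6 ln13_16_6_ok))))) (B (M (nat_lit 399) (B (M (nat_lit 428) (B (L (nat_lit 427) ln15_12_1 ln15_12_1_ok) (L (nat_lit 400) ln16_12_1 ln16_12_1_ok))) (B (M (nat_lit 395) (B (M (nat_lit 427) (B (L (nat_lit 426) ln14_12_1 ln14_12_1_ok) (L (nat_lit 428) ln15_12_1 ln15_12_1_ok))) (M (nat_lit 431) (B (L (nat_lit 430) ln11_12_0 ln11_12_0_ok) (L (nat_lit 432) ln12_12_0 ln12_12_0_ok))))) (B (M (nat_lit 400) (B (L (nat_lit 428) ln16_12_1 ln16_12_1_ok)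 (M (nat_lit 368) (B (L (nat_lit 367) ln12_12_2 ln12_12_2_ok) (L (nat_lit 369) ln13_12_2 ln13_12_2_ok))))) (M (nat_lit 400) (B (M (nat_lit 368) (B (L (nat_lit 367) ln12_12_2 ln12_12_2_ok) (L (nat_lit 369) ln13_12_2 ln13_12_2_ok))) (M (nat_lit 432) (B (L (nat_lit 431) ln12_12_0 ln12_12_0_ok) (L (nat_lit 433) ln13_12_0 ln13_12_0_ok))))))))) (B (M (nat_lit 430) (B (M (nat_lit 431) (B (L (nat_lit 395) ln11_12_0 ln11_12_0_ok) (L (nat_lit 432) ln16_13_3 ln16_13_3_ok))) (M (nat_lit 493) (B (L (nat_lit 366) ln13_15_6 ln13_15_6_ok) (L (nat_lit 525) ln13_16_6 ln13_16_6_ok))))) (M (nat_lit 428) (B (M (nat_lit 493) (B (L (nat_lit 366) ln13_15_6 ln13_15_6_ok) (L (nat_lit 525) ln13_16_7 ln13_16_7_ok))) (M (nat_lit 427) (B (L (nat_lit 399) ln15_12_1 ln15_12_1_ok) (L (nat_lit 426) ln10_13_2 ln10_13_2_ok))))))))) (B (M (nat_lit 493) (B (L (nat_lit 364) ln13_15_7 ln13_15_7_ok) (M (nat_lit 525) (B (L (nat_lit 428) ln13_16_7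 ln13_16_7_ok) (M (nat_lit 524) (B (L (nat_lit 492) ln13_12_5 ln13_12_5_ok) (L (nat_lit 556) ln13_13_5 ln13_13_5_ok))))))) (B (M (nat_lit 493) (B (L (nat_lit 364) ln13_15_7 ln13_15_7_ok) (M (nat_lit 525) (B (M (nat_lit 398) (B (L (nat_lit 366) ln13_15_6 ln13_15_6_ok) (L (nat_lit 430) ln13_16_6 ln13_16_6_ok))) (M (nat_lit 524) (B (L (nat_lit 492) ln13_12_5 ln13_12_5_ok) (L (nat_lit 556) ln13_13_5 ln13_13_5_ok))))))) (M (nat_lit 395) (B (M (nat_lit 430) (B (L (nat_lit 394) ln10_12_0 ln10_12_0_ok) (M (nat_lit 431) (B (L (nat_lit 398) ln11_12_0 ln11_12_0_ok) (L (nat_lit 428) ln15_13_3 ln15_13_3_ok))))) (B (M (nat_lit 398) (B (M (nat_lit 430) (B (L (nat_lit 431) ln11_12_0 ln11_12_0_ok) (M (nat_lit 366) (B (L (nat_lit 334) ln14_10_5 ln14_10_5_ok) (L (nat_lit 367) ln11_12_2 ln11_12_2_ok))))) (M (nat_lit 399) (B (M (nat_lit 363) (B (L (nat_lit 362) ln14_12_3 ln14_12_3_ok) (L (nat_lit 364) ln15_12_3 ln15_12_3_ok)))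 (M (nat_lit 427) (B (L (nat_lit 426) ln14_12_1 ln14_12_1_ok) (L (nat_lit 428) ln15_12_1 ln15_12_1_ok))))))) (B (M (nat_lit 430) (B (L (nat_lit 394) ln10_12_0 ln10_12_0_ok) (M (nat_lit 431) (B (L (nat_lit 428) ln15_13_3 ln15_13_3_ok) (L (nat_lit 432) ln16_13_3 ln16_13_3_ok))))) (B (M (nat_lit 430) (B (L (nat_lit 394) ln10_12_0 ln10_12_0_ok) (M (nat_lit 431) (B (L (nat_lit 398) ln11_12_0 ln11_12_0_ok) (L (nat_lit 432) ln16_13_3 ln16_13_3_ok))))) (M (nat_lit 398) (B (M (nat_lit 399) (B (M (nat_lit 367) (B (L (nat_lit 366) ln11_12_2 ln11_12_2_ok) (L (nat_lit 368) ln12_12_2 ln12_12_2_ok))) (M (nat_lit 427) (B (L (nat_lit 426) ln14_12_1 ln14_12_1_ok) (L (nat_lit 428) ln15_12_1 ln15_12_1_ok))))) (B (M (nat_lit 399) (B (M (nat_lit 363) (B (L (nat_lit 362) ln14_12_3 ln14_12_3_ok) (L (nat_lit 364) ln15_12_3 ln15_12_3_ok))) (M (nat_lit 427) (B (L (nat_lit 426) ln14_12_1 ln14_12_1_ok) (L (nat_lit 428) ln15_12_1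 ln15_12_1_ok))))) (B (M (nat_lit 394) (B (M (nat_lit 362) (B (L (nat_lit 361) ln13_12_3 ln13_12_3_ok) (L (nat_lit 363) ln14_12_3 ln14_12_3_ok))) (M (nat_lit 426) (B (L (nat_lit 425) ln13_12_1 ln13_12_1_ok) (L (nat_lit 427) ln14_12_1 ln14_12_1_ok))))) (M (nat_lit 399) (B (M (nat_lit 363) (B (L (nat_lit 362) ln14_12_3 ln14_12_3_ok) (L (nat_lit 364) ln15_12_3 ln15_12_3_ok))) (M (nat_lit 367) (B (L (nat_lit 366) ln11_12_2 ln11_12_2_ok) (L (nat_lit 368) ln12_12_2 ln12_12_2_ok)))))))))))))))))))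
theorem c31_s341 : Sem (nat_lit 1386334847383188664550070665778531748218595021979121511688892729411143073470393764272092352380775458208712834410189682411080515584) (nat_lit 1179363258141160341950375441373966238713925161927872506777169144368910401703050205714311810282215743593737361004465576160916523069508508695200091131203921087485509107712) (nat_lit 1179363258141160341950375441373966238713925161927872506777169144368910401703050205714311810282215743593737361004465576160916523069508508695200091131203921087485509107712) :=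
  sem_of_chk (M (nat_lit 461) (B (M (nat_lit 493) (B (M (nat_lit 525) (B (M (nat_lit 396) (B (L (nat_lit 364) ln13_15_7 ln13_15_7_ok) (L (nat_lit 428) ln13_16_7 ln13_16_7_ok))) (M (nat_lit 398) (B (L (nat_lit 366) ln13_15_6 ln13_15_6_ok) (L (nat_lit 430) ln13_16_6 ln13_16_6_ok))))) (B (M (nat_lit 365) (B (M (nat_lit 366) (B (L (nat_lit 334) ln13_14_6 ln13_14_6_ok) (L (nat_lit 398) ln13_15_6 ln13_15_6_ok))) (M (nat_lit 492) (B (L (nat_lit 460) ln13_11_5 ln13_11_5_ok) (L (nat_lit 524) ln13_12_5 ln13_12_5_ok))))) (M (nat_lit 525) (B (M (nat_lit 396) (B (L (nat_lit 364) ln13_15_7 ln13_15_7_ok) (L (nat_lit 428) ln13_16_7 ln13_16_7_ok))) (M (nat_lit 524) (B (L (nat_lit 492) ln13_12_5 ln13_12_5_ok) (L (nat_lit 556) ln13_13_5 ln13_13_5_ok)))))))) (B (M (nat_lit 493) (B (M (nat_lit 525) (B (M (nat_lit 396) (B (L (nat_lit 364) ln13_15_7 ln13_15_7_ok) (L (nat_lit 428) ln13_16_7 ln13_16_7_ok))) (M (nat_lit 524)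 (B (L (nat_lit 492) ln13_12_5 ln13_12_5_ok) (L (nat_lit 556) ln13_13_5 ln13_13_5_ok))))) (B (M (nat_lit 365) (B (M (nat_lit 492) (B (L (nat_lit 460) ln13_11_5 ln13_11_5_ok) (L (nat_lit 524) ln13_12_5 ln13_12_5_ok))) (M (nat_lit 494) (B (L (nat_lit 462) ln13_11_4 ln13_11_4_ok) (L (nat_lit 526) ln13_12_4 ln13_12_4_ok))))) (M (nat_lit 525) (B (M (nat_lit 396) (B (L (nat_lit 364) ln13_15_7 ln13_15_7_ok) (L (nat_lit 428) ln13_16_7 ln13_16_7_ok))) (M (nat_lit 526) (B (L (nat_lit 494) ln13_12_4 ln13_12_4_ok) (L (nat_lit 558) ln13_13_4 ln13_13_4_ok)))))))) (B (M (nat_lit 493) (B (M (nat_lit 365) (B (M (nat_lit 366) (B (L (nat_lit 334) ln13_14_6 ln13_14_6_ok) (L (nat_lit 398) ln13_15_6 ln13_15_6_ok))) (M (nat_lit 494) (B (L (nat_lit 462) ln13_11_4 ln13_11_4_ok) (L (nat_lit 526) ln13_12_4 ln13_12_4_ok))))) (B (M (nat_lit 365) (B (M (nat_lit 492) (B (L (nat_lit 460) ln13_11_5 ln13_11_5_ok) (L (nat_lit 524) ln13_12_5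 ln13_12_5_ok))) (M (nat_lit 494) (B (L (nat_lit 462) ln13_11_4 ln13_11_4_ok) (L (nat_lit 526) ln13_12_4 ln13_12_4_ok))))) (M (nat_lit 525) (B (M (nat_lit 398) (B (L (nat_lit 366) ln13_15_6 ln13_15_6_ok) (L (nat_lit 430) ln13_16_6 ln13_16_6_ok))) (M (nat_lit 524) (B (L (nat_lit 492) ln13_12_5 ln13_12_5_ok) (L (nat_lit 556) ln13_13_5 ln13_13_5_ok)))))))) (B c31_n339 (B (M (nat_lit 493) (B (M (nat_lit 525) (B (M (nat_lit 396) (B (L (nat_lit 364) ln13_15_7 ln13_15_7_ok) (L (nat_lit 428) ln13_16_7 ln13_16_7_ok))) (M (nat_lit 398) (B (L (nat_lit 366) ln13_15_6 ln13_15_6_ok) (L (nat_lit 430) ln13_16_6 ln13_16_6_ok))))) (B (M (nat_lit 365) (B (M (nat_lit 366) (B (L (nat_lit 334) ln13_14_6 ln13_14_6_ok) (L (nat_lit 398) ln13_15_6 ln13_15_6_ok))) (M (nat_lit 494) (B (L (nat_lit 462) ln13_11_4 ln13_11_4_ok) (L (nat_lit 526) ln13_12_4 ln13_12_4_ok))))) (M (nat_lit 525) (B (M (nat_lit 396) (B (L (nat_lit 364) ln13_15_7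 ln13_15_7_ok) (L (nat_lit 428) ln13_16_7 ln13_16_7_ok))) (M (nat_lit 526) (B (L (nat_lit 494) ln13_12_4 ln13_12_4_ok) (L (nat_lit 558) ln13_13_4 ln13_13_4_ok)))))))) c31_n219)))))) (nat_lit 1386334847383188664550070665778531748218595021979121511688892729411143073470393764272092352380775458208712834410189682411080515584) (nat_lit 1179363258141160341950375441373966238713925161927872506777169144368910401703050205714311810282215743593737361004465576160916523069508508695200091131203921087485509107712) (nat_lit 1179363258141160341950375441373966238713925161927872506777169144368910401703050205714311810282215743593737361004465576160916523069508508695200091131203921087485509107712) (by decide +kernel)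
noncomputable def c31_n344 : Cert := (M (nat_lit 398) (B (M (nat_lit 366) (B (L (nat_lit 493) ln13_15_6 ln13_15_6_ok) (M (nat_lit 334) (B (L (nat_lit 302) ln14_9_5 ln14_9_5_ok) (L (nat_lit 430) ln14_10_5 ln14_10_5_ok))))) (B (M (nat_lit 493) (B (L (nat_lit 366) ln13_15_6 ln13_15_6_ok) (M (nat_lit 525) (B (L (nat_lit 430) ln13_16_6 ln13_16_6_ok) (M (nat_lit 524) (B (L (nat_lit 492) ln13_12_5 ln13_12_5_ok) (L (nat_lit 556) ln13_13_5 ln13_13_5_ok))))))) (B (M (nat_lit 396) (B (M (nat_lit 493) (B (L (nat_lit 364) ln13_15_7 ln13_15_7_ok) (M (nat_lit 525) (B (L (nat_lit 428) ln13_16_7 ln13_16_7_ok) (L (nat_lit 430) ln13_16_6 ln13_16_6_ok))))) (B (M (nat_lit 399) (B (M (nat_lit 428) (B (L (nat_lit 427) ln15_12_1 ln15_12_1_ok) (L (nat_lit 400) ln16_12_1 ln16_12_1_ok))) (B (M (nat_lit 395) (B (M (nat_lit 427) (B (L (nat_lit 426) ln14_12_1 ln14_12_1_ok) (L (nat_lit 428) ln15_12_1 ln15_12_1_ok))) (M (nat_lit 431)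 (B (L (nat_lit 430) ln11_12_0 ln11_12_0_ok) (L (nat_lit 432) ln12_12_0 ln12_12_0_ok))))) (B (M (nat_lit 400) (B (L (nat_lit 428) ln16_12_1 ln16_12_1_ok) (M (nat_lit 368) (B (L (nat_lit 367) ln12_12_2 ln12_12_2_ok) (L (nat_lit 369) ln13_12_2 ln13_12_2_ok))))) (M (nat_lit 400) (B (M (nat_lit 368) (B (L (nat_lit 367) ln12_12_2 ln12_12_2_ok) (L (nat_lit 369) ln13_12_2 ln13_12_2_ok))) (M (nat_lit 432) (B (L (nat_lit 431) ln12_12_0 ln12_12_0_ok) (L (nat_lit 433) ln13_12_0 ln13_12_0_ok))))))))) (B (M (nat_lit 430) (B (M (nat_lit 431) (B (L (nat_lit 395) ln11_12_0 ln11_12_0_ok) (L (nat_lit 432) ln16_13_3 ln16_13_3_ok))) (M (nat_lit 493) (B (L (nat_lit 364) ln13_15_7 ln13_15_7_ok) (L (nat_lit 525) ln13_16_6 ln13_16_6_ok))))) (M (nat_lit 428) (B (M (nat_lit 493) (B (L (nat_lit 364) ln13_15_7 ln13_15_7_ok) (L (nat_lit 525) ln13_16_7 ln13_16_7_ok))) (M (nat_lit 427) (B (L (nat_lit 399) ln15_12_1 ln15_12_1_ok) (L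 (nat_lit 426) ln10_13_2 ln10_13_2_ok))))))))) (B (M (nat_lit 493) (B (L (nat_lit 366) ln13_15_6 ln13_15_6_ok) (M (nat_lit 525) (B (M (nat_lit 396) (B (L (nat_lit 364) ln13_15_7 ln13_15_7_ok) (L (nat_lit 428) ln13_16_7 ln13_16_7_ok))) (M (nat_lit 526) (B (L (nat_lit 494) ln13_12_4 ln13_12_4_ok) (L (nat_lit 558) ln13_13_4 ln13_13_4_ok))))))) (M (nat_lit 396) (B (M (nat_lit 399) (B (M (nat_lit 428) (B (L (nat_lit 427) ln15_12_1 ln15_12_1_ok) (L (nat_lit 400) ln16_12_1 ln16_12_1_ok))) (M (nat_lit 366) (B (M (nat_lit 334) (B (L (nat_lit 302) ln14_9_5 ln14_9_5_ok) (L (nat_lit 430) ln14_10_5 ln14_10_5_ok))) (M (nat_lit 367) (B (L (nat_lit 395) ln11_12_2 ln11_12_2_ok) (L (nat_lit 368) ln12_12_2 ln12_12_2_ok))))))) (B (M (nat_lit 399) (B (M (nat_lit 428) (B (L (nat_lit 427) ln15_12_1 ln15_12_1_ok) (L (nat_lit 400) ln16_12_1 ln16_12_1_ok))) (M (nat_lit 395) (B (M (nat_lit 363) (B (L (nat_lit 362) ln14_12_3 ln14_12_3_ok)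 (L (nat_lit 364) ln15_12_3 ln15_12_3_ok))) (M (nat_lit 431) (B (L (nat_lit 430) ln11_12_0 ln11_12_0_ok) (L (nat_lit 432) ln12_12_0 ln12_12_0_ok))))))) (B (M (nat_lit 399) (B (M (nat_lit 428) (B (L (nat_lit 427) ln15_12_1 ln15_12_1_ok) (L (nat_lit 400) ln16_12_1 ln16_12_1_ok))) (B (M (nat_lit 428) (B (L (nat_lit 427) ln15_12_1 ln15_12_1_ok) (M (nat_lit 364) (B (L (nat_lit 332) ln12_10_4 ln12_10_4_ok) (L (nat_lit 363) ln15_12_3 ln15_12_3_ok))))) (B (M (nat_lit 428) (B (L (nat_lit 400) ln16_12_1 ln16_12_1_ok) (M (nat_lit 364) (B (L (nat_lit 332) ln12_10_4 ln12_10_4_ok) (L (nat_lit 363) ln15_12_3 ln15_12_3_ok))))) (M (nat_lit 400) (B (M (nat_lit 368) (B (L (nat_lit 367) ln12_12_2 ln12_12_2_ok) (L (nat_lit 369) ln13_12_2 ln13_12_2_ok))) (M (nat_lit 432) (B (L (nat_lit 431) ln12_12_0 ln12_12_0_ok) (L (nat_lit 433) ln13_12_0 ln13_12_0_ok))))))))) (B (M (nat_lit 395) (B (M (nat_lit 430) (B (L (nat_lit 394) ln10_12_0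 ln10_12_0_ok) (L (nat_lit 431) ln11_12_0 ln11_12_0_ok))) (B (M (nat_lit 430) (B (L (nat_lit 431) ln11_12_0 ln11_12_0_ok) (M (nat_lit 366) (B (L (nat_lit 334) ln14_10_5 ln14_10_5_ok) (L (nat_lit 367) ln11_12_2 ln11_12_2_ok))))) (M (nat_lit 394) (B (M (nat_lit 362) (B (L (nat_lit 361) ln13_12_3 ln13_12_3_ok) (L (nat_lit 363) ln14_12_3 ln14_12_3_ok))) (M (nat_lit 426) (B (L (nat_lit 425) ln13_12_1 ln13_12_1_ok) (L (nat_lit 427) ln14_12_1 ln14_12_1_ok)))))))) (M (nat_lit 399) (B (M (nat_lit 428) (B (L (nat_lit 400) ln16_12_1 ln16_12_1_ok) (M (nat_lit 364) (B (L (nat_lit 332) ln12_10_4 ln12_10_4_ok) (L (nat_lit 363) ln15_12_3 ln15_12_3_ok))))) (B (M (nat_lit 400) (B (L (nat_lit 428) ln16_12_1 ln16_12_1_ok) (M (nat_lit 368) (B (L (nat_lit 367) ln12_12_2 ln12_12_2_ok) (L (nat_lit 369) ln13_12_2 ln13_12_2_ok))))) (B (M (nat_lit 364) (B (L (nat_lit 363) ln15_12_3 ln15_12_3_ok) (M (nat_lit 332) (B (L (nat_lit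 300) ln12_9_4 ln12_9_4_ok) (L (nat_lit 428) ln12_10_4 ln12_10_4_ok))))) (M (nat_lit 400) (B (M (nat_lit 368) (B (L (nat_lit 367) ln12_12_2 ln12_12_2_ok) (L (nat_lit 369) ln13_12_2 ln13_12_2_ok))) (M (nat_lit 432) (B (L (nat_lit 431) ln12_12_0 ln12_12_0_ok) (L (nat_lit 433) ln13_12_0 ln13_12_0_ok)))))))))))))))))))
noncomputable def c31_n378 : Cert := (M (nat_lit 460) (B (M (nat_lit 492) (B (L (nat_lit 365) ln13_11_5 ln13_11_5_ok) (M (nat_lit 524) (B (L (nat_lit 428) ln12_16_6 ln12_16_6_ok) (L (nat_lit 556) ln12_17_6 ln12_17_6_ok))))) (B (M (nat_lit 459) (B (M (nat_lit 430) (B (L (nat_lit 458) ln10_14_2 ln10_14_2_ok) (M (nat_lit 431) (B (L (nat_lit 428) ln15_13_1 ln15_13_1_ok) (L (nat_lit 432) ln16_13_1 ln16_13_1_ok))))) (B (M (nat_lit 430) (B (L (nat_lit 458) ln10_14_2 ln10_14_2_ok) (M (nat_lit 431) (B (L (nat_lit 432) ln16_13_1 ln16_13_1_ok) (L (nat_lit 462) ln11_14_2 ln11_14_2_ok))))) (B (M (nat_lit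 462) (B (M (nat_lit 458) (B (M (nat_lit 426) (B (L (nat_lit 425) ln13_14_3 ln13_14_3_ok) (L (nat_lit 427) ln14_14_3 ln14_14_3_ok))) (M (nat_lit 490) (B (L (nat_lit 489) ln13_14_1 ln13_14_1_ok) (L (nat_lit 491) ln14_14_1 ln14_14_1_ok))))) (B (M (nat_lit 492) (B (M (nat_lit 524) (B (L (nat_lit 428) ln12_16_6 ln12_16_6_ok) (L (nat_lit 556) ln12_17_6 ln12_17_6_ok))) (M (nat_lit 491) (B (L (nat_lit 490) ln14_14_1 ln14_14_1_ok) (L (nat_lit 463) ln15_14_1 ln15_14_1_ok))))) (M (nat_lit 463) (B (M (nat_lit 427) (B (L (nat_lit 426) ln14_14_3 ln14_14_3_ok) (L (nat_lit 428) ln15_14_3 ln15_14_3_ok))) (M (nat_lit 495) (B (L (nat_lit 494) ln11_14_0 ln11_14_0_ok) (L (nat_lit 496) ln12_14_0 ln12_14_0_ok)))))))) (M (nat_lit 462) (B (M (nat_lit 430) (B (L (nat_lit 431) ln11_14_2 ln11_14_2_ok) (M (nat_lit 494) (B (L (nat_lit 526) ln14_16_7 ln14_16_7_ok) (L (nat_lit 495) ln11_14_0 ln11_14_0_ok))))) (M (nat_lit 492) (B (M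 (nat_lit 524) (B (L (nat_lit 428) ln12_16_6 ln12_16_6_ok) (L (nat_lit 556) ln12_17_6 ln12_17_6_ok))) (M (nat_lit 491) (B (L (nat_lit 490) ln14_14_1 ln14_14_1_ok) (L (nat_lit 463) ln15_14_1 ln15_14_1_ok))))))))))) (B (M (nat_lit 462) (B (M (nat_lit 365) (B (L (nat_lit 492) ln13_11_5 ln13_11_5_ok) (L (nat_lit 494) ln13_11_4 ln13_11_4_ok))) (B (M (nat_lit 459) (B (M (nat_lit 430) (B (L (nat_lit 458) ln10_14_2 ln10_14_2_ok) (L (nat_lit 431) ln11_14_2 ln11_14_2_ok))) (M (nat_lit 463) (B (M (nat_lit 491) (B (L (nat_lit 490) ln14_14_1 ln14_14_1_ok) (L (nat_lit 492) ln15_14_1 ln15_14_1_ok))) (M (nat_lit 495) (B (L (nat_lit 494) ln11_14_0 ln11_14_0_ok) (L (nat_lit 496) ln12_14_0 ln12_14_0_ok))))))) (B (M (nat_lit 430) (B (M (nat_lit 494) (B (L (nat_lit 365) ln13_11_4 ln13_11_4_ok) (L (nat_lit 526) ln14_16_7 ln14_16_7_ok))) (M (nat_lit 459) (B (L (nat_lit 458) ln10_14_2 ln10_14_2_ok) (L (nat_lit 431) ln11_14_2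 ln11_14_2_ok))))) (M (nat_lit 492) (B (L (nat_lit 365) ln13_11_5 ln13_11_5_ok) (M (nat_lit 491) (B (L (nat_lit 463) ln15_14_1 ln15_14_1_ok) (M (nat_lit 490) (B (L (nat_lit 459) ln14_14_1 ln14_14_1_ok) (L (nat_lit 489) ln9_15_2 ln9_15_2_ok))))))))))) (M (nat_lit 462) (B (M (nat_lit 494) (B (L (nat_lit 365) ln13_11_4 ln13_11_4_ok) (M (nat_lit 526) (B (L (nat_lit 430) ln14_16_7 ln14_16_7_ok) (L (nat_lit 558) ln14_17_7 ln14_17_7_ok))))) (B (M (nat_lit 459) (B (M (nat_lit 430) (B (L (nat_lit 458) ln10_14_2 ln10_14_2_ok) (L (nat_lit 431) ln11_14_2 ln11_14_2_ok))) (B (M (nat_lit 458) (B (M (nat_lit 426) (B (L (nat_lit 425) ln13_14_3 ln13_14_3_ok) (L (nat_lit 427) ln14_14_3 ln14_14_3_ok))) (M (nat_lit 490) (B (L (nat_lit 489) ln13_14_1 ln13_14_1_ok) (L (nat_lit 491) ln14_14_1 ln14_14_1_ok))))) (M (nat_lit 463) (B (M (nat_lit 427) (B (L (nat_lit 426) ln14_14_3 ln14_14_3_ok) (L (nat_lit 428) ln15_14_3 ln15_14_3_ok)))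 (M (nat_lit 431) (B (L (nat_lit 430) ln11_14_2 ln11_14_2_ok) (L (nat_lit 432) ln12_14_2 ln12_14_2_ok)))))))) (M (nat_lit 494) (B (L (nat_lit 365) ln13_11_4 ln13_11_4_ok) (M (nat_lit 495) (B (L (nat_lit 459) ln11_14_0 ln11_14_0_ok) (M (nat_lit 496) (B (L (nat_lit 463) ln12_14_0 ln12_14_0_ok) (L (nat_lit 497) ln17_15_3 ln17_15_3_ok))))))))))))))
theorem c31_s379 : Sem (nat_lit 1386334847383188664550070665778531748218595021979121511688892729411143073470393764272092352380775458208712834410189682411080515584) (nat_lit 1179363258141160342359549267360983972465573874031322400804249400124284751385564531714607379309977860914373119245641074423425321439278513899804805077046464503149666238464) (nat_lit 1179363258141160342359549267360983972465573874031322400804249400124284751385564531714607379309977860914373119245641074423425321439278513899804805077046464503149666238464) :=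
  sem_of_chk (M (nat_lit 461) (B (M (nat_lit 493) (B (M (nat_lit 525) (B (M (nat_lit 396) (B (L (nat_lit 364) ln13_15_7 ln13_15_7_ok) (L (nat_lit 428) ln13_16_7 ln13_16_7_ok))) (M (nat_lit 398) (B (L (nat_lit 366) ln13_15_6 ln13_15_6_ok) (L (nat_lit 430) ln13_16_6 ln13_16_6_ok))))) (B (M (nat_lit 365) (B (M (nat_lit 366) (B (L (nat_lit 334) ln13_14_6 ln13_14_6_ok) (L (nat_lit 398) ln13_15_6 ln13_15_6_ok))) (M (nat_lit 492) (B (L (nat_lit 460) ln13_11_5 ln13_11_5_ok) (L (nat_lit 524) ln13_12_5 ln13_12_5_ok))))) (M (nat_lit 525) (B (M (nat_lit 396) (B (L (nat_lit 364) ln13_15_7 ln13_15_7_ok) (L (nat_lit 428) ln13_16_7 ln13_16_7_ok))) (M (nat_lit 524) (B (L (nat_lit 492) ln13_12_5 ln13_12_5_ok) (L (nat_lit 556) ln13_13_5 ln13_13_5_ok)))))))) (B (M (nat_lit 493) (B (M (nat_lit 365) (B (M (nat_lit 492) (B (L (nat_lit 460) ln13_11_5 ln13_11_5_ok) (L (nat_lit 524) ln13_12_5 ln13_12_5_ok))) (M (nat_lit 494)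 (B (L (nat_lit 462) ln13_11_4 ln13_11_4_ok) (L (nat_lit 526) ln13_12_4 ln13_12_4_ok))))) (B (M (nat_lit 525) (B (M (nat_lit 396) (B (L (nat_lit 364) ln13_15_7 ln13_15_7_ok) (L (nat_lit 428) ln13_16_7 ln13_16_7_ok))) (M (nat_lit 526) (B (L (nat_lit 494) ln13_12_4 ln13_12_4_ok) (L (nat_lit 558) ln13_13_4 ln13_13_4_ok))))) (M (nat_lit 365) (B (M (nat_lit 364) (B (L (nat_lit 332) ln13_14_7 ln13_14_7_ok) (L (nat_lit 396) ln13_15_7 ln13_15_7_ok))) (M (nat_lit 492) (B (L (nat_lit 460) ln13_11_5 ln13_11_5_ok) (L (nat_lit 524) ln13_12_5 ln13_12_5_ok)))))))) (B (M (nat_lit 493) (B (M (nat_lit 365) (B (M (nat_lit 366) (B (L (nat_lit 334) ln13_14_6 ln13_14_6_ok) (L (nat_lit 398) ln13_15_6 ln13_15_6_ok))) (M (nat_lit 494) (B (L (nat_lit 462) ln13_11_4 ln13_11_4_ok) (L (nat_lit 526) ln13_12_4 ln13_12_4_ok))))) (B (M (nat_lit 365) (B (M (nat_lit 492) (B (L (nat_lit 460) ln13_11_5 ln13_11_5_ok) (L (nat_lit 524) ln13_12_5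 ln13_12_5_ok))) (M (nat_lit 494) (B (L (nat_lit 462) ln13_11_4 ln13_11_4_ok) (L (nat_lit 526) ln13_12_4 ln13_12_4_ok))))) (M (nat_lit 525) (B (M (nat_lit 398) (B (L (nat_lit 366) ln13_15_6 ln13_15_6_ok) (L (nat_lit 430) ln13_16_6 ln13_16_6_ok))) (M (nat_lit 524) (B (L (nat_lit 492) ln13_12_5 ln13_12_5_ok) (L (nat_lit 556) ln13_13_5 ln13_13_5_ok)))))))) (B c31_n344 (B (M (nat_lit 493) (B (M (nat_lit 365) (B (M (nat_lit 366) (B (L (nat_lit 334) ln13_14_6 ln13_14_6_ok) (L (nat_lit 398) ln13_15_6 ln13_15_6_ok))) (M (nat_lit 494) (B (L (nat_lit 462) ln13_11_4 ln13_11_4_ok) (L (nat_lit 526) ln13_12_4 ln13_12_4_ok))))) (B (M (nat_lit 365) (B (M (nat_lit 364) (B (L (nat_lit 332) ln13_14_7 ln13_14_7_ok) (L (nat_lit 396) ln13_15_7 ln13_15_7_ok))) (M (nat_lit 494) (B (L (nat_lit 462) ln13_11_4 ln13_11_4_ok) (L (nat_lit 526) ln13_12_4 ln13_12_4_ok))))) (B (M (nat_lit 525) (B (M (nat_lit 396) (B (L (nat_lit 364)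 ln13_15_7 ln13_15_7_ok) (L (nat_lit 428) ln13_16_7 ln13_16_7_ok))) (M (nat_lit 526) (B (L (nat_lit 494) ln13_12_4 ln13_12_4_ok) (L (nat_lit 558) ln13_13_4 ln13_13_4_ok))))) (M (nat_lit 365) (B (M (nat_lit 364) (B (L (nat_lit 332) ln13_14_7 ln13_14_7_ok) (L (nat_lit 396) ln13_15_7 ln13_15_7_ok))) (M (nat_lit 366) (B (L (nat_lit 334) ln13_14_6 ln13_14_6_ok) (L (nat_lit 398) ln13_15_6 ln13_15_6_ok))))))))) c31_n378)))))) (nat_lit 1386334847383188664550070665778531748218595021979121511688892729411143073470393764272092352380775458208712834410189682411080515584) (nat_lit 1179363258141160342359549267360983972465573874031322400804249400124284751385564531714607379309977860914373119245641074423425321439278513899804805077046464503149666238464) (nat_lit 1179363258141160342359549267360983972465573874031322400804249400124284751385564531714607379309977860914373119245641074423425321439278513899804805077046464503149666238464)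 (by decide +kernel)
noncomputable def c31_n403 : Cert := (M (nat_lit 398) (B (M (nat_lit 493) (B (L (nat_lit 366) ln13_15_6 ln13_15_6_ok) (M (nat_lit 525) (B (L (nat_lit 430) ln13_16_6 ln13_16_6_ok) (M (nat_lit 524) (B (L (nat_lit 492) ln13_12_5 ln13_12_5_ok) (L (nat_lit 556) ln13_13_5 ln13_13_5_ok))))))) (B (M (nat_lit 396) (B (M (nat_lit 493) (B (L (nat_lit 364) ln13_15_7 ln13_15_7_ok) (M (nat_lit 525) (B (L (nat_lit 428) ln13_16_7 ln13_16_7_ok) (L (nat_lit 430) ln13_16_6 ln13_16_6_ok))))) (B (M (nat_lit 399) (B (M (nat_lit 428) (B (L (nat_lit 427) ln15_12_1 ln15_12_1_ok) (L (nat_lit 400) ln16_12_1 ln16_12_1_ok))) (B (M (nat_lit 395) (B (M (nat_lit 427) (B (L (nat_lit 426) ln14_12_1 ln14_12_1_ok) (L (nat_lit 428) ln15_12_1 ln15_12_1_ok))) (M (nat_lit 431) (B (L (nat_lit 430) ln11_12_0 ln11_12_0_ok) (L (nat_lit 432) ln12_12_0 ln12_12_0_ok))))) (B (M (nat_lit 400) (B (L (nat_lit 428) ln16_12_1 ln16_12_1_ok)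 (M (nat_lit 368) (B (L (nat_lit 367) ln12_12_2 ln12_12_2_ok) (L (nat_lit 369) ln13_12_2 ln13_12_2_ok))))) (M (nat_lit 400) (B (M (nat_lit 368) (B (L (nat_lit 367) ln12_12_2 ln12_12_2_ok) (L (nat_lit 369) ln13_12_2 ln13_12_2_ok))) (M (nat_lit 432) (B (L (nat_lit 431) ln12_12_0 ln12_12_0_ok) (L (nat_lit 433) ln13_12_0 ln13_12_0_ok))))))))) (B (M (nat_lit 430) (B (M (nat_lit 431) (B (L (nat_lit 395) ln11_12_0 ln11_12_0_ok) (L (nat_lit 432) ln16_13_3 ln16_13_3_ok))) (M (nat_lit 493) (B (L (nat_lit 364) ln13_15_7 ln13_15_7_ok) (L (nat_lit 525) ln13_16_6 ln13_16_6_ok))))) (M (nat_lit 428) (B (M (nat_lit 493) (B (L (nat_lit 364) ln13_15_7 ln13_15_7_ok) (L (nat_lit 525) ln13_16_7 ln13_16_7_ok))) (M (nat_lit 427) (B (L (nat_lit 399) ln15_12_1 ln15_12_1_ok) (L (nat_lit 426) ln10_13_2 ln10_13_2_ok))))))))) (B (M (nat_lit 493) (B (L (nat_lit 366) ln13_15_6 ln13_15_6_ok) (M (nat_lit 525) (B (M (nat_lit 396) (B (L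 (nat_lit 364) ln13_15_7 ln13_15_7_ok) (L (nat_lit 428) ln13_16_7 ln13_16_7_ok))) (M (nat_lit 526) (B (L (nat_lit 494) ln13_12_4 ln13_12_4_ok) (L (nat_lit 558) ln13_13_4 ln13_13_4_ok))))))) (M (nat_lit 399) (B (M (nat_lit 428) (B (L (nat_lit 400) ln16_12_1 ln16_12_1_ok) (M (nat_lit 427) (B (L (nat_lit 396) ln15_12_1 ln15_12_1_ok) (L (nat_lit 426) ln10_13_2 ln10_13_2_ok))))) (B (M (nat_lit 428) (B (L (nat_lit 400) ln16_12_1 ln16_12_1_ok) (M (nat_lit 427) (B (L (nat_lit 426) ln10_13_2 ln10_13_2_ok) (L (nat_lit 430) ln11_13_2 ln11_13_2_ok))))) (B (M (nat_lit 396) (B (M (nat_lit 428) (B (L (nat_lit 427) ln15_12_1 ln15_12_1_ok) (M (nat_lit 364) (B (L (nat_lit 332) ln12_10_4 ln12_10_4_ok) (L (nat_lit 363) ln15_12_3 ln15_12_3_ok))))) (B (M (nat_lit 395) (B (M (nat_lit 367) (B (L (nat_lit 366) ln11_12_2 ln11_12_2_ok) (L (nat_lit 368) ln12_12_2 ln12_12_2_ok))) (M (nat_lit 427) (B (L (nat_lit 426) ln14_12_1 ln14_12_1_ok)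 (L (nat_lit 428) ln15_12_1 ln15_12_1_ok))))) (M (nat_lit 395) (B (M (nat_lit 363) (B (L (nat_lit 362) ln14_12_3 ln14_12_3_ok) (L (nat_lit 364) ln15_12_3 ln15_12_3_ok))) (M (nat_lit 367) (B (L (nat_lit 366) ln11_12_2 ln11_12_2_ok) (L (nat_lit 368) ln12_12_2 ln12_12_2_ok)))))))) (B (M (nat_lit 428) (B (L (nat_lit 400) ln16_12_1 ln16_12_1_ok) (M (nat_lit 427) (B (L (nat_lit 396) ln15_12_1 ln15_12_1_ok) (L (nat_lit 430) ln11_13_2 ln11_13_2_ok))))) (B (M (nat_lit 396) (B (M (nat_lit 428) (B (L (nat_lit 400) ln16_12_1 ln16_12_1_ok) (M (nat_lit 364) (B (L (nat_lit 332) ln12_10_4 ln12_10_4_ok) (L (nat_lit 363) ln15_12_3 ln15_12_3_ok))))) (B (M (nat_lit 400) (B (L (nat_lit 428) ln16_12_1 ln16_12_1_ok) (M (nat_lit 368) (B (L (nat_lit 367) ln12_12_2 ln12_12_2_ok) (L (nat_lit 369) ln13_12_2 ln13_12_2_ok))))) (M (nat_lit 395) (B (M (nat_lit 363) (B (L (nat_lit 362) ln14_12_3 ln14_12_3_ok) (L (nat_lit 364) ln15_12_3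 ln15_12_3_ok))) (M (nat_lit 367) (B (L (nat_lit 366) ln11_12_2 ln11_12_2_ok) (L (nat_lit 368) ln12_12_2 ln12_12_2_ok)))))))) (M (nat_lit 396) (B (M (nat_lit 395) (B (M (nat_lit 363) (B (L (nat_lit 362) ln14_12_3 ln14_12_3_ok) (L (nat_lit 364) ln15_12_3 ln15_12_3_ok))) (M (nat_lit 431) (B (L (nat_lit 430) ln11_12_0 ln11_12_0_ok) (L (nat_lit 432) ln12_12_0 ln12_12_0_ok))))) (B (M (nat_lit 395) (B (M (nat_lit 367) (B (L (nat_lit 366) ln11_12_2 ln11_12_2_ok) (L (nat_lit 368) ln12_12_2 ln12_12_2_ok))) (M (nat_lit 431) (B (L (nat_lit 430) ln11_12_0 ln11_12_0_ok) (L (nat_lit 432) ln12_12_0 ln12_12_0_ok))))) (B (M (nat_lit 400) (B (M (nat_lit 368) (B (L (nat_lit 367) ln12_12_2 ln12_12_2_ok) (L (nat_lit 369) ln13_12_2 ln13_12_2_ok))) (M (nat_lit 432) (B (L (nat_lit 431) ln12_12_0 ln12_12_0_ok) (L (nat_lit 433) ln13_12_0 ln13_12_0_ok))))) (M (nat_lit 395) (B (M (nat_lit 363) (B (L (nat_lit 362) ln14_12_3 ln14_12_3_ok)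 (L (nat_lit 364) ln15_12_3 ln15_12_3_ok))) (M (nat_lit 367) (B (L (nat_lit 366) ln11_12_2 ln11_12_2_ok) (L (nat_lit 368) ln12_12_2 ln12_12_2_ok)))))))))))))))))))
theorem c31_s408 : Sem (nat_lit 1386334847383188664550070665778531748218595021979121511688892729411143073470393764272092352380775458208712834410189682411080515584) (nat_lit 1179363258141160341950375441373966238713925161927832159122819339337005233290828372441560356470163818817802099144624341005461338451763363412329705924612993394774544220160) (nat_lit 1179363258141160341950375441373966238713925161927832159122819339337005233290828372441560356470163818817802099144624341005461338451763363412329705924612993394774544220160) :=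
  sem_of_chk (M (nat_lit 461) (B (M (nat_lit 493) (B (M (nat_lit 525) (B (M (nat_lit 396) (B (L (nat_lit 364) ln13_15_7 ln13_15_7_ok) (L (nat_lit 428) ln13_16_7 ln13_16_7_ok))) (M (nat_lit 398) (B (L (nat_lit 366) ln13_15_6 ln13_15_6_ok) (L (nat_lit 430) ln13_16_6 ln13_16_6_ok))))) (M (nat_lit 365) (B (M (nat_lit 492) (B (L (nat_lit 460) ln13_11_5 ln13_11_5_ok) (L (nat_lit 524) ln13_12_5 ln13_12_5_ok))) (M (nat_lit 494) (B (L (nat_lit 462) ln13_11_4 ln13_11_4_ok) (L (nat_lit 526) ln13_12_4 ln13_12_4_ok))))))) (B (M (nat_lit 493) (B (M (nat_lit 525) (B (M (nat_lit 398) (B (L (nat_lit 366) ln13_15_6 ln13_15_6_ok) (L (nat_lit 430) ln13_16_6 ln13_16_6_ok))) (M (nat_lit 524) (B (L (nat_lit 492) ln13_12_5 ln13_12_5_ok) (L (nat_lit 556) ln13_13_5 ln13_13_5_ok))))) (B (M (nat_lit 365) (B (M (nat_lit 492) (B (L (nat_lit 460) ln13_11_5 ln13_11_5_ok) (L (nat_lit 524) ln13_12_5 ln13_12_5_ok))) (M (nat_lit 494) (B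 (L (nat_lit 462) ln13_11_4 ln13_11_4_ok) (L (nat_lit 526) ln13_12_4 ln13_12_4_ok))))) (M (nat_lit 525) (B (M (nat_lit 398) (B (L (nat_lit 366) ln13_15_6 ln13_15_6_ok) (L (nat_lit 430) ln13_16_6 ln13_16_6_ok))) (M (nat_lit 526) (B (L (nat_lit 494) ln13_12_4 ln13_12_4_ok) (L (nat_lit 558) ln13_13_4 ln13_13_4_ok)))))))) (B c31_n403 (B (M (nat_lit 493) (B (M (nat_lit 365) (B (M (nat_lit 492) (B (L (nat_lit 460) ln13_11_5 ln13_11_5_ok) (L (nat_lit 524) ln13_12_5 ln13_12_5_ok))) (M (nat_lit 494) (B (L (nat_lit 462) ln13_11_4 ln13_11_4_ok) (L (nat_lit 526) ln13_12_4 ln13_12_4_ok))))) (B (M (nat_lit 525) (B (M (nat_lit 396) (B (L (nat_lit 364) ln13_15_7 ln13_15_7_ok) (L (nat_lit 428) ln13_16_7 ln13_16_7_ok))) (M (nat_lit 526) (B (L (nat_lit 494) ln13_12_4 ln13_12_4_ok) (L (nat_lit 558) ln13_13_4 ln13_13_4_ok))))) (M (nat_lit 365) (B (M (nat_lit 364) (B (L (nat_lit 332) ln13_14_7 ln13_14_7_ok) (L (nat_lit 396)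 ln13_15_7 ln13_15_7_ok))) (M (nat_lit 492) (B (L (nat_lit 460) ln13_11_5 ln13_11_5_ok) (L (nat_lit 524) ln13_12_5 ln13_12_5_ok)))))))) (B (M (nat_lit 493) (B (M (nat_lit 525) (B (M (nat_lit 396) (B (L (nat_lit 364) ln13_15_7 ln13_15_7_ok) (L (nat_lit 428) ln13_16_7 ln13_16_7_ok))) (M (nat_lit 398) (B (L (nat_lit 366) ln13_15_6 ln13_15_6_ok) (L (nat_lit 430) ln13_16_6 ln13_16_6_ok))))) (B (M (nat_lit 525) (B (M (nat_lit 398) (B (L (nat_lit 366) ln13_15_6 ln13_15_6_ok) (L (nat_lit 430) ln13_16_6 ln13_16_6_ok))) (M (nat_lit 526) (B (L (nat_lit 494) ln13_12_4 ln13_12_4_ok) (L (nat_lit 558) ln13_13_4 ln13_13_4_ok))))) (M (nat_lit 365) (B (M (nat_lit 364) (B (L (nat_lit 332) ln13_14_7 ln13_14_7_ok) (L (nat_lit 396) ln13_15_7 ln13_15_7_ok))) (M (nat_lit 494) (B (L (nat_lit 462) ln13_11_4 ln13_11_4_ok) (L (nat_lit 526) ln13_12_4 ln13_12_4_ok)))))))) (B (M (nat_lit 460) (B (M (nat_lit 492) (B (L (nat_lit 365)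 ln13_11_5 ln13_11_5_ok) (M (nat_lit 524) (B (L (nat_lit 428) ln12_16_6 ln12_16_6_ok) (L (nat_lit 556) ln12_17_6 ln12_17_6_ok))))) (B (M (nat_lit 459) (B (M (nat_lit 430) (B (L (nat_lit 458) ln10_14_2 ln10_14_2_ok) (M (nat_lit 431) (B (L (nat_lit 428) ln15_13_1 ln15_13_1_ok) (L (nat_lit 432) ln16_13_1 ln16_13_1_ok))))) (B (M (nat_lit 430) (B (L (nat_lit 458) ln10_14_2 ln10_14_2_ok) (M (nat_lit 431) (B (L (nat_lit 432) ln16_13_1 ln16_13_1_ok) (L (nat_lit 462) ln11_14_2 ln11_14_2_ok))))) (B (M (nat_lit 462) (B (M (nat_lit 458) (B (M (nat_lit 426) (B (L (nat_lit 425) ln13_14_3 ln13_14_3_ok) (L (nat_lit 427) ln14_14_3 ln14_14_3_ok))) (M (nat_lit 490) (B (L (nat_lit 489) ln13_14_1 ln13_14_1_ok) (L (nat_lit 491) ln14_14_1 ln14_14_1_ok))))) (B (M (nat_lit 492) (B (M (nat_lit 524) (B (L (nat_lit 428) ln12_16_6 ln12_16_6_ok) (L (nat_lit 556) ln12_17_6 ln12_17_6_ok))) (M (nat_lit 491) (B (L (nat_lit 490) ln14_14_1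 ln14_14_1_ok) (L (nat_lit 463) ln15_14_1 ln15_14_1_ok))))) (M (nat_lit 463) (B (M (nat_lit 427) (B (L (nat_lit 426) ln14_14_3 ln14_14_3_ok) (L (nat_lit 428) ln15_14_3 ln15_14_3_ok))) (M (nat_lit 495) (B (L (nat_lit 494) ln11_14_0 ln11_14_0_ok) (L (nat_lit 496) ln12_14_0 ln12_14_0_ok)))))))) (M (nat_lit 462) (B (M (nat_lit 430) (B (L (nat_lit 431) ln11_14_2 ln11_14_2_ok) (M (nat_lit 494) (B (L (nat_lit 526) ln14_16_7 ln14_16_7_ok) (L (nat_lit 495) ln11_14_0 ln11_14_0_ok))))) (M (nat_lit 492) (B (M (nat_lit 524) (B (L (nat_lit 428) ln12_16_6 ln12_16_6_ok) (L (nat_lit 556) ln12_17_6 ln12_17_6_ok))) (M (nat_lit 491) (B (L (nat_lit 490) ln14_14_1 ln14_14_1_ok) (L (nat_lit 463) ln15_14_1 ln15_14_1_ok))))))))))) (B (M (nat_lit 365) (B (L (nat_lit 492) ln13_11_5 ln13_11_5_ok) (M (nat_lit 333) (B (M (nat_lit 332) (B (L (nat_lit 300) ln13_13_7 ln13_13_7_ok) (L (nat_lit 364) ln13_14_7 ln13_14_7_ok))) (M (nat_lit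 462) (B (L (nat_lit 430) ln13_10_4 ln13_10_4_ok) (L (nat_lit 494) ln13_11_4 ln13_11_4_ok))))))) (M (nat_lit 462) (B (M (nat_lit 365) (B (L (nat_lit 494) ln13_11_4 ln13_11_4_ok) (M (nat_lit 333) (B (L (nat_lit 428) ln13_10_5 ln13_10_5_ok) (L (nat_lit 430) ln13_10_4 ln13_10_4_ok))))) (B (M (nat_lit 459) (B (M (nat_lit 430) (B (L (nat_lit 458) ln10_14_2 ln10_14_2_ok) (L (nat_lit 431) ln11_14_2 ln11_14_2_ok))) (M (nat_lit 494) (B (L (nat_lit 365) ln13_11_4 ln13_11_4_ok) (L (nat_lit 495) ln11_14_0 ln11_14_0_ok))))) (B (M (nat_lit 459) (B (M (nat_lit 430) (B (L (nat_lit 458) ln10_14_2 ln10_14_2_ok) (L (nat_lit 431) ln11_14_2 ln11_14_2_ok))) (B (M (nat_lit 458) (B (M (nat_lit 426) (B (L (nat_lit 425) ln13_14_3 ln13_14_3_ok) (L (nat_lit 427) ln14_14_3 ln14_14_3_ok))) (M (nat_lit 490) (B (L (nat_lit 489) ln13_14_1 ln13_14_1_ok) (L (nat_lit 491) ln14_14_1 ln14_14_1_ok))))) (M (nat_lit 463) (B (M (nat_lit 427)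 (B (L (nat_lit 426) ln14_14_3 ln14_14_3_ok) (L (nat_lit 428) ln15_14_3 ln15_14_3_ok))) (M (nat_lit 431) (B (L (nat_lit 430) ln11_14_2 ln11_14_2_ok) (L (nat_lit 432) ln12_14_2 ln12_14_2_ok)))))))) (M (nat_lit 428) (B (M (nat_lit 365) (B (L (nat_lit 333) ln13_10_5 ln13_10_5_ok) (L (nat_lit 494) ln13_11_4 ln13_11_4_ok))) (M (nat_lit 427) (B (L (nat_lit 426) ln10_13_0 ln10_13_0_ok) (L (nat_lit 463) ln15_14_3 ln15_14_3_ok))))))))))))) (M (nat_lit 493) (B (M (nat_lit 525) (B (M (nat_lit 396) (B (L (nat_lit 364) ln13_15_7 ln13_15_7_ok) (L (nat_lit 428) ln13_16_7 ln13_16_7_ok))) (M (nat_lit 398) (B (L (nat_lit 366) ln13_15_6 ln13_15_6_ok) (L (nat_lit 430) ln13_16_6 ln13_16_6_ok))))) (B (M (nat_lit 525) (B (M (nat_lit 398) (B (L (nat_lit 366) ln13_15_6 ln13_15_6_ok) (L (nat_lit 430) ln13_16_6 ln13_16_6_ok))) (M (nat_lit 524) (B (L (nat_lit 492) ln13_12_5 ln13_12_5_ok) (L (nat_lit 556) ln13_13_5 ln13_13_5_ok)))))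 (M (nat_lit 365) (B (M (nat_lit 364) (B (L (nat_lit 332) ln13_14_7 ln13_14_7_ok) (L (nat_lit 396) ln13_15_7 ln13_15_7_ok))) (M (nat_lit 492) (B (L (nat_lit 460) ln13_11_5 ln13_11_5_ok) (L (nat_lit 524) ln13_12_5 ln13_12_5_ok))))))))))))))) (nat_lit 1386334847383188664550070665778531748218595021979121511688892729411143073470393764272092352380775458208712834410189682411080515584) (nat_lit 1179363258141160341950375441373966238713925161927832159122819339337005233290828372441560356470163818817802099144624341005461338451763363412329705924612993394774544220160) (nat_lit 1179363258141160341950375441373966238713925161927832159122819339337005233290828372441560356470163818817802099144624341005461338451763363412329705924612993394774544220160) (by decide +kernel)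
noncomputable def c31_n433 : Cert := (M (nat_lit 398) (B (M (nat_lit 366) (B (L (nat_lit 493) ln13_15_6 ln13_15_6_ok) (M (nat_lit 334) (B (L (nat_lit 302) ln14_9_5 ln14_9_5_ok) (L (nat_lit 430) ln14_10_5 ln14_10_5_ok))))) (B (M (nat_lit 493) (B (L (nat_lit 366) ln13_15_6 ln13_15_6_ok) (M (nat_lit 525) (B (L (nat_lit 430) ln13_16_6 ln13_16_6_ok) (M (nat_lit 524) (B (L (nat_lit 492) ln13_12_5 ln13_12_5_ok) (L (nat_lit 556) ln13_13_5 ln13_13_5_ok))))))) (B (M (nat_lit 396) (B (M (nat_lit 493) (B (L (nat_lit 364) ln13_15_7 ln13_15_7_ok) (M (nat_lit 525) (B (L (nat_lit 428) ln13_16_7 ln13_16_7_ok) (L (nat_lit 430) ln13_16_6 ln13_16_6_ok))))) (B (M (nat_lit 399) (B (M (nat_lit 428) (B (L (nat_lit 427) ln15_12_1 ln15_12_1_ok) (L (nat_lit 400) ln16_12_1 ln16_12_1_ok))) (B (M (nat_lit 395) (B (M (nat_lit 427) (B (L (nat_lit 426) ln14_12_1 ln14_12_1_ok) (L (nat_lit 428) ln15_12_1 ln15_12_1_ok))) (M (nat_lit 431)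 (B (L (nat_lit 430) ln11_12_0 ln11_12_0_ok) (L (nat_lit 432) ln12_12_0 ln12_12_0_ok))))) (B (M (nat_lit 400) (B (L (nat_lit 428) ln16_12_1 ln16_12_1_ok) (M (nat_lit 368) (B (L (nat_lit 367) ln12_12_2 ln12_12_2_ok) (L (nat_lit 369) ln13_12_2 ln13_12_2_ok))))) (M (nat_lit 400) (B (M (nat_lit 368) (B (L (nat_lit 367) ln12_12_2 ln12_12_2_ok) (L (nat_lit 369) ln13_12_2 ln13_12_2_ok))) (M (nat_lit 432) (B (L (nat_lit 431) ln12_12_0 ln12_12_0_ok) (L (nat_lit 433) ln13_12_0 ln13_12_0_ok))))))))) (B (M (nat_lit 430) (B (M (nat_lit 431) (B (L (nat_lit 395) ln11_12_0 ln11_12_0_ok) (L (nat_lit 432) ln16_13_3 ln16_13_3_ok))) (M (nat_lit 493) (B (L (nat_lit 364) ln13_15_7 ln13_15_7_ok) (L (nat_lit 525) ln13_16_6 ln13_16_6_ok))))) (M (nat_lit 428) (B (M (nat_lit 364) (B (L (nat_lit 332) ln12_10_4 ln12_10_4_ok) (L (nat_lit 493) ln13_15_7 ln13_15_7_ok))) (M (nat_lit 399) (B (L (nat_lit 427) ln15_12_1 ln15_12_1_ok) (L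 (nat_lit 400) ln16_12_1 ln16_12_1_ok))))))))) (B (M (nat_lit 493) (B (L (nat_lit 366) ln13_15_6 ln13_15_6_ok) (M (nat_lit 525) (B (M (nat_lit 396) (B (L (nat_lit 364) ln13_15_7 ln13_15_7_ok) (L (nat_lit 428) ln13_16_7 ln13_16_7_ok))) (M (nat_lit 526) (B (L (nat_lit 494) ln13_12_4 ln13_12_4_ok) (L (nat_lit 558) ln13_13_4 ln13_13_4_ok))))))) (M (nat_lit 399) (B (M (nat_lit 428) (B (L (nat_lit 400) ln16_12_1 ln16_12_1_ok) (M (nat_lit 427) (B (L (nat_lit 396) ln15_12_1 ln15_12_1_ok) (L (nat_lit 426) ln10_13_2 ln10_13_2_ok))))) (B (M (nat_lit 428) (B (L (nat_lit 400) ln16_12_1 ln16_12_1_ok) (M (nat_lit 427) (B (L (nat_lit 426) ln10_13_2 ln10_13_2_ok) (L (nat_lit 430) ln11_13_2 ln11_13_2_ok))))) (B (M (nat_lit 396) (B (M (nat_lit 428) (B (L (nat_lit 427) ln15_12_1 ln15_12_1_ok) (M (nat_lit 364) (B (L (nat_lit 332) ln12_10_4 ln12_10_4_ok) (L (nat_lit 363) ln15_12_3 ln15_12_3_ok))))) (M (nat_lit 366) (B (M (nat_lit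 334) (B (L (nat_lit 302) ln14_9_5 ln14_9_5_ok) (L (nat_lit 430) ln14_10_5 ln14_10_5_ok))) (M (nat_lit 367) (B (L (nat_lit 395) ln11_12_2 ln11_12_2_ok) (L (nat_lit 368) ln12_12_2 ln12_12_2_ok))))))) (B (M (nat_lit 400) (B (L (nat_lit 428) ln16_12_1 ln16_12_1_ok) (M (nat_lit 401) (B (L (nat_lit 430) ln17_12_1 ln17_12_1_ok) (M (nat_lit 369) (B (L (nat_lit 368) ln13_12_2 ln13_12_2_ok) (L (nat_lit 370) ln14_12_2 ln14_12_2_ok))))))) (M (nat_lit 400) (B (M (nat_lit 401) (B (L (nat_lit 430) ln17_12_1 ln17_12_1_ok) (M (nat_lit 369) (B (L (nat_lit 368) ln13_12_2 ln13_12_2_ok) (L (nat_lit 370) ln14_12_2 ln14_12_2_ok))))) (B (M (nat_lit 401) (B (L (nat_lit 430) ln17_12_1 ln17_12_1_ok) (M (nat_lit 433) (B (L (nat_lit 432) ln13_12_0 ln13_12_0_ok) (L (nat_lit 434) ln14_12_0 ln14_12_0_ok))))) (M (nat_lit 396) (B (M (nat_lit 368) (B (L (nat_lit 367) ln12_12_2 ln12_12_2_ok) (L (nat_lit 369) ln13_12_2 ln13_12_2_ok))) (M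 (nat_lit 432) (B (L (nat_lit 431) ln12_12_0 ln12_12_0_ok) (L (nat_lit 433) ln13_12_0 ln13_12_0_ok))))))))))))))))))
theorem c31_s434 : Sem (nat_lit 1386334847383188664550070665778531748218595021979121511688892729411143073470393764272092352380775458208712834410189682411080515584) (nat_lit 1179363258141160341950375441373966238758287877038929696634643296897070716793869335939653255006452091057783133274255580281654940619010891790565821481190350522733301858304) (nat_lit 1179363258141160341950375441373966238758287877038929696634643296897070716793869335939653255006452091057783133274255580281654940619010891790565821481190350522733301858304) :=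
  sem_of_chk (M (nat_lit 461) (B (M (nat_lit 493) (B (M (nat_lit 525) (B (M (nat_lit 396) (B (L (nat_lit 364) ln13_15_7 ln13_15_7_ok) (L (nat_lit 428) ln13_16_7 ln13_16_7_ok))) (M (nat_lit 398) (B (L (nat_lit 366) ln13_15_6 ln13_15_6_ok) (L (nat_lit 430) ln13_16_6 ln13_16_6_ok))))) (B (M (nat_lit 365) (B (M (nat_lit 366) (B (L (nat_lit 334) ln13_14_6 ln13_14_6_ok) (L (nat_lit 398) ln13_15_6 ln13_15_6_ok))) (M (nat_lit 492) (B (L (nat_lit 460) ln13_11_5 ln13_11_5_ok) (L (nat_lit 524) ln13_12_5 ln13_12_5_ok))))) (M (nat_lit 525) (B (M (nat_lit 396) (B (L (nat_lit 364) ln13_15_7 ln13_15_7_ok) (L (nat_lit 428) ln13_16_7 ln13_16_7_ok))) (M (nat_lit 524) (B (L (nat_lit 492) ln13_12_5 ln13_12_5_ok) (L (nat_lit 556) ln13_13_5 ln13_13_5_ok)))))))) (B (M (nat_lit 493) (B (M (nat_lit 525) (B (M (nat_lit 396) (B (L (nat_lit 364) ln13_15_7 ln13_15_7_ok) (L (nat_lit 428) ln13_16_7 ln13_16_7_ok))) (M (nat_lit 398)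 (B (L (nat_lit 366) ln13_15_6 ln13_15_6_ok) (L (nat_lit 430) ln13_16_6 ln13_16_6_ok))))) (B (M (nat_lit 525) (B (M (nat_lit 398) (B (L (nat_lit 366) ln13_15_6 ln13_15_6_ok) (L (nat_lit 430) ln13_16_6 ln13_16_6_ok))) (M (nat_lit 524) (B (L (nat_lit 492) ln13_12_5 ln13_12_5_ok) (L (nat_lit 556) ln13_13_5 ln13_13_5_ok))))) (M (nat_lit 365) (B (M (nat_lit 364) (B (L (nat_lit 332) ln13_14_7 ln13_14_7_ok) (L (nat_lit 396) ln13_15_7 ln13_15_7_ok))) (M (nat_lit 492) (B (L (nat_lit 460) ln13_11_5 ln13_11_5_ok) (L (nat_lit 524) ln13_12_5 ln13_12_5_ok)))))))) (B (M (nat_lit 493) (B (M (nat_lit 365) (B (M (nat_lit 366) (B (L (nat_lit 334) ln13_14_6 ln13_14_6_ok) (L (nat_lit 398) ln13_15_6 ln13_15_6_ok))) (M (nat_lit 494) (B (L (nat_lit 462) ln13_11_4 ln13_11_4_ok) (L (nat_lit 526) ln13_12_4 ln13_12_4_ok))))) (B (M (nat_lit 365) (B (M (nat_lit 492) (B (L (nat_lit 460) ln13_11_5 ln13_11_5_ok) (L (nat_lit 524) ln13_12_5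 ln13_12_5_ok))) (M (nat_lit 494) (B (L (nat_lit 462) ln13_11_4 ln13_11_4_ok) (L (nat_lit 526) ln13_12_4 ln13_12_4_ok))))) (M (nat_lit 525) (B (M (nat_lit 398) (B (L (nat_lit 366) ln13_15_6 ln13_15_6_ok) (L (nat_lit 430) ln13_16_6 ln13_16_6_ok))) (M (nat_lit 524) (B (L (nat_lit 492) ln13_12_5 ln13_12_5_ok) (L (nat_lit 556) ln13_13_5 ln13_13_5_ok)))))))) (B c31_n433 (B (M (nat_lit 493) (B (M (nat_lit 365) (B (M (nat_lit 492) (B (L (nat_lit 460) ln13_11_5 ln13_11_5_ok) (L (nat_lit 524) ln13_12_5 ln13_12_5_ok))) (M (nat_lit 494) (B (L (nat_lit 462) ln13_11_4 ln13_11_4_ok) (L (nat_lit 526) ln13_12_4 ln13_12_4_ok))))) (B (M (nat_lit 525) (B (M (nat_lit 396) (B (L (nat_lit 364) ln13_15_7 ln13_15_7_ok) (L (nat_lit 428) ln13_16_7 ln13_16_7_ok))) (M (nat_lit 526) (B (L (nat_lit 494) ln13_12_4 ln13_12_4_ok) (L (nat_lit 558) ln13_13_4 ln13_13_4_ok))))) (M (nat_lit 365) (B (M (nat_lit 364) (B (L (nat_lit 332) ln13_14_7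 ln13_14_7_ok) (L (nat_lit 396) ln13_15_7 ln13_15_7_ok))) (M (nat_lit 492) (B (L (nat_lit 460) ln13_11_5 ln13_11_5_ok) (L (nat_lit 524) ln13_12_5 ln13_12_5_ok)))))))) (B (M (nat_lit 493) (B (M (nat_lit 365) (B (M (nat_lit 366) (B (L (nat_lit 334) ln13_14_6 ln13_14_6_ok) (L (nat_lit 398) ln13_15_6 ln13_15_6_ok))) (M (nat_lit 494) (B (L (nat_lit 462) ln13_11_4 ln13_11_4_ok) (L (nat_lit 526) ln13_12_4 ln13_12_4_ok))))) (B (M (nat_lit 365) (B (M (nat_lit 364) (B (L (nat_lit 332) ln13_14_7 ln13_14_7_ok) (L (nat_lit 396) ln13_15_7 ln13_15_7_ok))) (M (nat_lit 494) (B (L (nat_lit 462) ln13_11_4 ln13_11_4_ok) (L (nat_lit 526) ln13_12_4 ln13_12_4_ok))))) (B (M (nat_lit 525) (B (M (nat_lit 396) (B (L (nat_lit 364) ln13_15_7 ln13_15_7_ok) (L (nat_lit 428) ln13_16_7 ln13_16_7_ok))) (M (nat_lit 526) (B (L (nat_lit 494) ln13_12_4 ln13_12_4_ok) (L (nat_lit 558) ln13_13_4 ln13_13_4_ok))))) (M (nat_lit 365) (B (M (nat_lit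 364) (B (L (nat_lit 332) ln13_14_7 ln13_14_7_ok) (L (nat_lit 396) ln13_15_7 ln13_15_7_ok))) (M (nat_lit 366) (B (L (nat_lit 334) ln13_14_6 ln13_14_6_ok) (L (nat_lit 398) ln13_15_6 ln13_15_6_ok))))))))) (M (nat_lit 460) (B (M (nat_lit 492) (B (L (nat_lit 365) ln13_11_5 ln13_11_5_ok) (M (nat_lit 524) (B (L (nat_lit 428) ln12_16_6 ln12_16_6_ok) (L (nat_lit 556) ln12_17_6 ln12_17_6_ok))))) (B (M (nat_lit 459) (B (M (nat_lit 430) (B (L (nat_lit 458) ln10_14_2 ln10_14_2_ok) (M (nat_lit 431) (B (L (nat_lit 428) ln15_13_1 ln15_13_1_ok) (L (nat_lit 432) ln16_13_1 ln16_13_1_ok))))) (B (M (nat_lit 430) (B (L (nat_lit 458) ln10_14_2 ln10_14_2_ok) (M (nat_lit 431) (B (L (nat_lit 432) ln16_13_1 ln16_13_1_ok) (L (nat_lit 462) ln11_14_2 ln11_14_2_ok))))) (B (M (nat_lit 462) (B (M (nat_lit 458) (B (M (nat_lit 426) (B (L (nat_lit 425) ln13_14_3 ln13_14_3_ok) (L (nat_lit 427) ln14_14_3 ln14_14_3_ok))) (M (nat_lit 490)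 (B (L (nat_lit 489) ln13_14_1 ln13_14_1_ok) (L (nat_lit 491) ln14_14_1 ln14_14_1_ok))))) (B (M (nat_lit 492) (B (M (nat_lit 524) (B (L (nat_lit 428) ln12_16_6 ln12_16_6_ok) (L (nat_lit 556) ln12_17_6 ln12_17_6_ok))) (M (nat_lit 491) (B (L (nat_lit 490) ln14_14_1 ln14_14_1_ok) (L (nat_lit 463) ln15_14_1 ln15_14_1_ok))))) (M (nat_lit 463) (B (M (nat_lit 427) (B (L (nat_lit 426) ln14_14_3 ln14_14_3_ok) (L (nat_lit 428) ln15_14_3 ln15_14_3_ok))) (M (nat_lit 495) (B (L (nat_lit 494) ln11_14_0 ln11_14_0_ok) (L (nat_lit 496) ln12_14_0 ln12_14_0_ok)))))))) (M (nat_lit 462) (B (M (nat_lit 430) (B (L (nat_lit 431) ln11_14_2 ln11_14_2_ok) (M (nat_lit 494) (B (L (nat_lit 526) ln14_16_7 ln14_16_7_ok) (L (nat_lit 495) ln11_14_0 ln11_14_0_ok))))) (M (nat_lit 492) (B (M (nat_lit 524) (B (L (nat_lit 428) ln12_16_6 ln12_16_6_ok) (L (nat_lit 556) ln12_17_6 ln12_17_6_ok))) (M (nat_lit 491) (B (L (nat_lit 490) ln14_14_1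 ln14_14_1_ok) (L (nat_lit 463) ln15_14_1 ln15_14_1_ok))))))))))) (B (M (nat_lit 365) (B (L (nat_lit 492) ln13_11_5 ln13_11_5_ok) (M (nat_lit 333) (B (M (nat_lit 332) (B (L (nat_lit 300) ln13_13_7 ln13_13_7_ok) (L (nat_lit 364) ln13_14_7 ln13_14_7_ok))) (M (nat_lit 462) (B (L (nat_lit 430) ln13_10_4 ln13_10_4_ok) (L (nat_lit 494) ln13_11_4 ln13_11_4_ok))))))) (M (nat_lit 462) (B (M (nat_lit 365) (B (L (nat_lit 494) ln13_11_4 ln13_11_4_ok) (M (nat_lit 333) (B (L (nat_lit 428) ln13_10_5 ln13_10_5_ok) (L (nat_lit 430) ln13_10_4 ln13_10_4_ok))))) (B (M (nat_lit 459) (B (M (nat_lit 430) (B (L (nat_lit 458) ln10_14_2 ln10_14_2_ok) (L (nat_lit 431) ln11_14_2 ln11_14_2_ok))) (M (nat_lit 494) (B (L (nat_lit 365) ln13_11_4 ln13_11_4_ok) (L (nat_lit 495) ln11_14_0 ln11_14_0_ok))))) (B (M (nat_lit 459) (B (M (nat_lit 430) (B (L (nat_lit 458) ln10_14_2 ln10_14_2_ok) (L (nat_lit 431) ln11_14_2 ln11_14_2_ok))) (B (M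 (nat_lit 458) (B (M (nat_lit 426) (B (L (nat_lit 425) ln13_14_3 ln13_14_3_ok) (L (nat_lit 427) ln14_14_3 ln14_14_3_ok))) (M (nat_lit 490) (B (L (nat_lit 489) ln13_14_1 ln13_14_1_ok) (L (nat_lit 491) ln14_14_1 ln14_14_1_ok))))) (M (nat_lit 463) (B (M (nat_lit 427) (B (L (nat_lit 426) ln14_14_3 ln14_14_3_ok) (L (nat_lit 428) ln15_14_3 ln15_14_3_ok))) (M (nat_lit 431) (B (L (nat_lit 430) ln11_14_2 ln11_14_2_ok) (L (nat_lit 432) ln12_14_2 ln12_14_2_ok)))))))) (M (nat_lit 428) (B (M (nat_lit 365) (B (L (nat_lit 333) ln13_10_5 ln13_10_5_ok) (L (nat_lit 494) ln13_11_4 ln13_11_4_ok))) (M (nat_lit 427) (B (L (nat_lit 426) ln10_13_0 ln10_13_0_ok) (L (nat_lit 463) ln15_14_3 ln15_14_3_ok)))))))))))))))))))) (nat_lit 1386334847383188664550070665778531748218595021979121511688892729411143073470393764272092352380775458208712834410189682411080515584) (nat_lit 1179363258141160341950375441373966238758287877038929696634643296897070716793869335939653255006452091057783133274255580281654940619010891790565821481190350522733301858304)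 (nat_lit 1179363258141160341950375441373966238758287877038929696634643296897070716793869335939653255006452091057783133274255580281654940619010891790565821481190350522733301858304) (by decide +kernel)
theorem c31_s532 : Sem (nat_lit 1386334847383188664550070665778531748218595021979121511688892729411143073470393764272092352380775458208712834410189682411080515584) (nat_lit 1179363258141160341638700066110417574332699848577341159692489292819121752236179607357586235789729715569355281771342180711468644269812555767298262184241266114570863247360) (nat_lit 1179363258141160341638700066110417574332699848577341159692489292819121752236179607357586235789729715569355281771342180711468644269812555767298262184241266114570863247360) :=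
  sem_of_chk (M (nat_lit 461) (B (M (nat_lit 493) (B (M (nat_lit 525) (B (M (nat_lit 396) (B (L (nat_lit 364) ln13_15_7 ln13_15_7_ok) (L (nat_lit 428) ln13_16_7 ln13_16_7_ok))) (M (nat_lit 398) (B (L (nat_lit 366) ln13_15_6 ln13_15_6_ok) (L (nat_lit 430) ln13_16_6 ln13_16_6_ok))))) (B (M (nat_lit 365) (B (M (nat_lit 366) (B (L (nat_lit 334) ln13_14_6 ln13_14_6_ok) (L (nat_lit 398) ln13_15_6 ln13_15_6_ok))) (M (nat_lit 492) (B (L (nat_lit 460) ln13_11_5 ln13_11_5_ok) (L (nat_lit 524) ln13_12_5 ln13_12_5_ok))))) (M (nat_lit 525) (B (M (nat_lit 396) (B (L (nat_lit 364) ln13_15_7 ln13_15_7_ok) (L (nat_lit 428) ln13_16_7 ln13_16_7_ok))) (M (nat_lit 524) (B (L (nat_lit 492) ln13_12_5 ln13_12_5_ok) (L (nat_lit 556) ln13_13_5 ln13_13_5_ok)))))))) (B (M (nat_lit 493) (B (M (nat_lit 365) (B (M (nat_lit 492) (B (L (nat_lit 460) ln13_11_5 ln13_11_5_ok) (L (nat_lit 524) ln13_12_5 ln13_12_5_ok))) (M (nat_lit 494)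 (B (L (nat_lit 462) ln13_11_4 ln13_11_4_ok) (L (nat_lit 526) ln13_12_4 ln13_12_4_ok))))) (B (M (nat_lit 525) (B (M (nat_lit 396) (B (L (nat_lit 364) ln13_15_7 ln13_15_7_ok) (L (nat_lit 428) ln13_16_7 ln13_16_7_ok))) (M (nat_lit 526) (B (L (nat_lit 494) ln13_12_4 ln13_12_4_ok) (L (nat_lit 558) ln13_13_4 ln13_13_4_ok))))) (M (nat_lit 365) (B (M (nat_lit 364) (B (L (nat_lit 332) ln13_14_7 ln13_14_7_ok) (L (nat_lit 396) ln13_15_7 ln13_15_7_ok))) (M (nat_lit 492) (B (L (nat_lit 460) ln13_11_5 ln13_11_5_ok) (L (nat_lit 524) ln13_12_5 ln13_12_5_ok)))))))) (B (M (nat_lit 493) (B (M (nat_lit 365) (B (M (nat_lit 366) (B (L (nat_lit 334) ln13_14_6 ln13_14_6_ok) (L (nat_lit 398) ln13_15_6 ln13_15_6_ok))) (M (nat_lit 494) (B (L (nat_lit 462) ln13_11_4 ln13_11_4_ok) (L (nat_lit 526) ln13_12_4 ln13_12_4_ok))))) (B (M (nat_lit 365) (B (M (nat_lit 492) (B (L (nat_lit 460) ln13_11_5 ln13_11_5_ok) (L (nat_lit 524) ln13_12_5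 ln13_12_5_ok))) (M (nat_lit 494) (B (L (nat_lit 462) ln13_11_4 ln13_11_4_ok) (L (nat_lit 526) ln13_12_4 ln13_12_4_ok))))) (M (nat_lit 525) (B (M (nat_lit 398) (B (L (nat_lit 366) ln13_15_6 ln13_15_6_ok) (L (nat_lit 430) ln13_16_6 ln13_16_6_ok))) (M (nat_lit 524) (B (L (nat_lit 492) ln13_12_5 ln13_12_5_ok) (L (nat_lit 556) ln13_13_5 ln13_13_5_ok)))))))) (B (M (nat_lit 493) (B (M (nat_lit 525) (B (M (nat_lit 396) (B (L (nat_lit 364) ln13_15_7 ln13_15_7_ok) (L (nat_lit 428) ln13_16_7 ln13_16_7_ok))) (M (nat_lit 398) (B (L (nat_lit 366) ln13_15_6 ln13_15_6_ok) (L (nat_lit 430) ln13_16_6 ln13_16_6_ok))))) (B (M (nat_lit 525) (B (M (nat_lit 398) (B (L (nat_lit 366) ln13_15_6 ln13_15_6_ok) (L (nat_lit 430) ln13_16_6 ln13_16_6_ok))) (M (nat_lit 526) (B (L (nat_lit 494) ln13_12_4 ln13_12_4_ok) (L (nat_lit 558) ln13_13_4 ln13_13_4_ok))))) (B (M (nat_lit 525) (B (M (nat_lit 396) (B (L (nat_lit 364) ln13_15_7 ln13_15_7_ok)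 (L (nat_lit 428) ln13_16_7 ln13_16_7_ok))) (M (nat_lit 526) (B (L (nat_lit 494) ln13_12_4 ln13_12_4_ok) (L (nat_lit 558) ln13_13_4 ln13_13_4_ok))))) (M (nat_lit 396) (B (L (nat_lit 364) ln13_15_7 ln13_15_7_ok) (M (nat_lit 398) (B (L (nat_lit 366) ln13_15_6 ln13_15_6_ok) (M (nat_lit 399) (B (M (nat_lit 428) (B (L (nat_lit 427) ln15_12_1 ln15_12_1_ok) (L (nat_lit 400) ln16_12_1 ln16_12_1_ok))) (B (M (nat_lit 395) (B (M (nat_lit 427) (B (L (nat_lit 426) ln14_12_1 ln14_12_1_ok) (L (nat_lit 428) ln15_12_1 ln15_12_1_ok))) (M (nat_lit 431) (B (L (nat_lit 430) ln11_12_0 ln11_12_0_ok) (L (nat_lit 432) ln12_12_0 ln12_12_0_ok))))) (B (M (nat_lit 400) (B (L (nat_lit 428) ln16_12_1 ln16_12_1_ok) (M (nat_lit 368) (B (L (nat_lit 367) ln12_12_2 ln12_12_2_ok) (L (nat_lit 369) ln13_12_2 ln13_12_2_ok))))) (M (nat_lit 400) (B (M (nat_lit 368) (B (L (nat_lit 367) ln12_12_2 ln12_12_2_ok) (L (nat_lit 369) ln13_12_2 ln13_12_2_ok)))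 (M (nat_lit 432) (B (L (nat_lit 431) ln12_12_0 ln12_12_0_ok) (L (nat_lit 433) ln13_12_0 ln13_12_0_ok))))))))))))))))) (M (nat_lit 365) (B (M (nat_lit 333) (B (M (nat_lit 332) (B (L (nat_lit 300) ln13_13_7 ln13_13_7_ok) (L (nat_lit 364) ln13_14_7 ln13_14_7_ok))) (M (nat_lit 460) (B (L (nat_lit 428) ln13_10_5 ln13_10_5_ok) (L (nat_lit 492) ln13_11_5 ln13_11_5_ok))))) (B (M (nat_lit 333) (B (M (nat_lit 460) (B (L (nat_lit 428) ln13_10_5 ln13_10_5_ok) (L (nat_lit 492) ln13_11_5 ln13_11_5_ok))) (M (nat_lit 462) (B (L (nat_lit 430) ln13_10_4 ln13_10_4_ok) (L (nat_lit 494) ln13_11_4 ln13_11_4_ok))))) (B (M (nat_lit 396) (B (M (nat_lit 364) (B (L (nat_lit 332) ln13_14_7 ln13_14_7_ok) (M (nat_lit 366) (B (L (nat_lit 334) ln13_14_6 ln13_14_6_ok) (M (nat_lit 367) (B (L (nat_lit 395) ln15_11_1 ln15_11_1_ok) (L (nat_lit 368) ln16_11_1 ln16_11_1_ok))))))) (B (M (nat_lit 366) (B (L (nat_lit 334) ln13_14_6 ln13_14_6_ok)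 (M (nat_lit 367) (B (L (nat_lit 368) ln16_11_1 ln16_11_1_ok) (M (nat_lit 395) (B (L (nat_lit 364) ln15_11_1 ln15_11_1_ok) (L (nat_lit 398) ln11_12_2 ln11_12_2_ok))))))) (B (M (nat_lit 460) (B (L (nat_lit 492) ln13_11_5 ln13_11_5_ok) (M (nat_lit 428) (B (M (nat_lit 462) (B (L (nat_lit 494) ln13_11_4 ln13_11_4_ok) (M (nat_lit 427) (B (L (nat_lit 426) ln10_13_0 ln10_13_0_ok) (L (nat_lit 463) ln15_14_3 ln15_14_3_ok))))) (M (nat_lit 459) (B (M (nat_lit 364) (B (L (nat_lit 332) ln13_14_7 ln13_14_7_ok) (L (nat_lit 491) ln12_11_5 ln12_11_5_ok))) (M (nat_lit 430) (B (L (nat_lit 431) ln15_13_1 ln15_13_1_ok) (L (nat_lit 458) ln10_14_2 ln10_14_2_ok))))))))) (M (nat_lit 431) (B (M (nat_lit 430) (B (L (nat_lit 432) ln16_13_3 ln16_13_3_ok) (M (nat_lit 395) (B (L (nat_lit 398) ln11_12_0 ln11_12_0_ok) (L (nat_lit 428) ln15_13_3 ln15_13_3_ok))))) (B (M (nat_lit 430) (B (L (nat_lit 432) ln16_13_3 ln16_13_3_ok) (M (nat_lit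 462) (B (L (nat_lit 494) ln13_11_4 ln13_11_4_ok) (M (nat_lit 460) (B (L (nat_lit 492) ln13_11_5 ln13_11_5_ok) (L (nat_lit 459) ln11_14_2 ln11_14_2_ok))))))) (B (M (nat_lit 398) (B (M (nat_lit 366) (B (L (nat_lit 334) ln13_14_6 ln13_14_6_ok) (M (nat_lit 367) (B (L (nat_lit 368) ln16_11_1 ln16_11_1_ok) (L (nat_lit 395) ln11_12_2 ln11_12_2_ok))))) (M (nat_lit 399) (B (L (nat_lit 432) ln12_12_0 ln12_12_0_ok) (M (nat_lit 428) (B (L (nat_lit 427) ln15_12_1 ln15_12_1_ok) (L (nat_lit 400) ln16_12_1 ln16_12_1_ok))))))) (M (nat_lit 460) (B (L (nat_lit 492) ln13_11_5 ln13_11_5_ok) (M (nat_lit 430) (B (M (nat_lit 395) (B (L (nat_lit 398) ln11_12_0 ln11_12_0_ok) (L (nat_lit 428) ln15_13_3 ln15_13_3_ok))) (B (M (nat_lit 459) (B (L (nat_lit 428) ln15_13_1 ln15_13_1_ok) (L (nat_lit 462) ln11_14_2 ln11_14_2_ok))) (M (nat_lit 462) (B (L (nat_lit 494) ln13_11_4 ln13_11_4_ok) (L (nat_lit 459) ln11_14_2 ln11_14_2_ok))))))))))))))))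 (M (nat_lit 333) (B (M (nat_lit 332) (B (L (nat_lit 300) ln13_13_7 ln13_13_7_ok) (L (nat_lit 364) ln13_14_7 ln13_14_7_ok))) (M (nat_lit 462) (B (L (nat_lit 430) ln13_10_4 ln13_10_4_ok) (L (nat_lit 494) ln13_11_4 ln13_11_4_ok)))))))))))))) (nat_lit 1386334847383188664550070665778531748218595021979121511688892729411143073470393764272092352380775458208712834410189682411080515584) (nat_lit 1179363258141160341638700066110417574332699848577341159692489292819121752236179607357586235789729715569355281771342180711468644269812555767298262184241266114570863247360) (nat_lit 1179363258141160341638700066110417574332699848577341159692489292819121752236179607357586235789729715569355281771342180711468644269812555767298262184241266114570863247360) (by decide +kernel)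
theorem c31_s681 : Sem (nat_lit 1386334847383188664550070665778531748218595021979121511688892729411143073470393764272092352380775458208712834410189682411080515584) (nat_lit 274591906505919509885716709321426123532842110133416351712938248268669290829716060330469770775453564549870343115168490337578790814162296644035499316867317628928) (nat_lit 274591906505919509885716709321426123532842110133416351712938248268669290829716060330469770775453564549870343115168490337578790814162296644035499316867317628928) :=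
  sem_of_chk (M (nat_lit 365) (B (M (nat_lit 461) (B (M (nat_lit 460) (B (L (nat_lit 492) ln13_11_5 ln13_11_5_ok) (M (nat_lit 333) (B (L (nat_lit 428) ln13_10_5 ln13_10_5_ok) (M (nat_lit 334) (B (L (nat_lit 302) ln13_13_6 ln13_13_6_ok) (L (nat_lit 366) ln13_14_6 ln13_14_6_ok))))))) (B (M (nat_lit 333) (B (M (nat_lit 460) (B (L (nat_lit 428) ln13_10_5 ln13_10_5_ok) (L (nat_lit 492) ln13_11_5 ln13_11_5_ok))) (M (nat_lit 462) (B (L (nat_lit 430) ln13_10_4 ln13_10_4_ok) (L (nat_lit 494) ln13_11_4 ln13_11_4_ok))))) (M (nat_lit 493) (B (M (nat_lit 366) (B (L (nat_lit 334) ln13_14_6 ln13_14_6_ok) (L (nat_lit 398) ln13_15_6 ln13_15_6_ok))) (M (nat_lit 494) (B (L (nat_lit 462) ln13_11_4 ln13_11_4_ok) (L (nat_lit 526) ln13_12_4 ln13_12_4_ok)))))))) (B (M (nat_lit 461) (B (M (nat_lit 493) (B (M (nat_lit 366) (B (L (nat_lit 334) ln13_14_6 ln13_14_6_ok) (L (nat_lit 398) ln13_15_6 ln13_15_6_ok))) (M (nat_lit 492)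 (B (L (nat_lit 460) ln13_11_5 ln13_11_5_ok) (L (nat_lit 524) ln13_12_5 ln13_12_5_ok))))) (B (M (nat_lit 493) (B (M (nat_lit 492) (B (L (nat_lit 460) ln13_11_5 ln13_11_5_ok) (L (nat_lit 524) ln13_12_5 ln13_12_5_ok))) (M (nat_lit 494) (B (L (nat_lit 462) ln13_11_4 ln13_11_4_ok) (L (nat_lit 526) ln13_12_4 ln13_12_4_ok))))) (B (M (nat_lit 493) (B (M (nat_lit 366) (B (L (nat_lit 334) ln13_14_6 ln13_14_6_ok) (L (nat_lit 398) ln13_15_6 ln13_15_6_ok))) (M (nat_lit 494) (B (L (nat_lit 462) ln13_11_4 ln13_11_4_ok) (L (nat_lit 526) ln13_12_4 ln13_12_4_ok))))) (M (nat_lit 333) (B (M (nat_lit 460) (B (L (nat_lit 428) ln13_10_5 ln13_10_5_ok) (L (nat_lit 492) ln13_11_5 ln13_11_5_ok))) (M (nat_lit 462) (B (L (nat_lit 430) ln13_10_4 ln13_10_4_ok) (L (nat_lit 494) ln13_11_4 ln13_11_4_ok))))))))) (B (M (nat_lit 461) (B (M (nat_lit 493) (B (M (nat_lit 366) (B (L (nat_lit 334) ln13_14_6 ln13_14_6_ok) (L (nat_lit 398) ln13_15_6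 ln13_15_6_ok))) (M (nat_lit 492) (B (L (nat_lit 460) ln13_11_5 ln13_11_5_ok) (L (nat_lit 524) ln13_12_5 ln13_12_5_ok))))) (B (M (nat_lit 493) (B (M (nat_lit 492) (B (L (nat_lit 460) ln13_11_5 ln13_11_5_ok) (L (nat_lit 524) ln13_12_5 ln13_12_5_ok))) (M (nat_lit 494) (B (L (nat_lit 462) ln13_11_4 ln13_11_4_ok) (L (nat_lit 526) ln13_12_4 ln13_12_4_ok))))) (B (M (nat_lit 493) (B (M (nat_lit 366) (B (L (nat_lit 334) ln13_14_6 ln13_14_6_ok) (L (nat_lit 398) ln13_15_6 ln13_15_6_ok))) (M (nat_lit 494) (B (L (nat_lit 462) ln13_11_4 ln13_11_4_ok) (L (nat_lit 526) ln13_12_4 ln13_12_4_ok))))) (M (nat_lit 460) (B (L (nat_lit 492) ln13_11_5 ln13_11_5_ok) (M (nat_lit 462) (B (L (nat_lit 494) ln13_11_4 ln13_11_4_ok) (M (nat_lit 459) (B (M (nat_lit 430) (B (L (nat_lit 458) ln10_14_2 ln10_14_2_ok) (L (nat_lit 431) ln11_14_2 ln11_14_2_ok))) (B (M (nat_lit 458) (B (M (nat_lit 426) (B (L (nat_lit 425) ln13_14_3 ln13_14_3_ok)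 (L (nat_lit 427) ln14_14_3 ln14_14_3_ok))) (M (nat_lit 490) (B (L (nat_lit 489) ln13_14_1 ln13_14_1_ok) (L (nat_lit 491) ln14_14_1 ln14_14_1_ok))))) (M (nat_lit 463) (B (M (nat_lit 427) (B (L (nat_lit 426) ln14_14_3 ln14_14_3_ok) (L (nat_lit 428) ln15_14_3 ln15_14_3_ok))) (M (nat_lit 431) (B (L (nat_lit 430) ln11_14_2 ln11_14_2_ok) (L (nat_lit 432) ln12_14_2 ln12_14_2_ok)))))))))))))))) (B (M (nat_lit 333) (B (M (nat_lit 301) (B (M (nat_lit 300) (B (L (nat_lit 268) ln13_12_7 ln13_12_7_ok) (L (nat_lit 332) ln13_13_7 ln13_13_7_ok))) (M (nat_lit 430) (B (L (nat_lit 398) ln13_9_4 ln13_9_4_ok) (L (nat_lit 462) ln13_10_4 ln13_10_4_ok))))) (B (M (nat_lit 461) (B (M (nat_lit 460) (B (L (nat_lit 428) ln13_10_5 ln13_10_5_ok) (L (nat_lit 492) ln13_11_5 ln13_11_5_ok))) (M (nat_lit 462) (B (L (nat_lit 430) ln13_10_4 ln13_10_4_ok) (L (nat_lit 494) ln13_11_4 ln13_11_4_ok))))) (M (nat_lit 301) (B (M (nat_lit 300) (B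 (L (nat_lit 268) ln13_12_7 ln13_12_7_ok) (L (nat_lit 332) ln13_13_7 ln13_13_7_ok))) (M (nat_lit 428) (B (L (nat_lit 396) ln13_9_5 ln13_9_5_ok) (L (nat_lit 460) ln13_10_5 ln13_10_5_ok)))))))) (B (M (nat_lit 461) (B (M (nat_lit 460) (B (L (nat_lit 492) ln13_11_5 ln13_11_5_ok) (M (nat_lit 333) (B (L (nat_lit 428) ln13_10_5 ln13_10_5_ok) (M (nat_lit 334) (B (L (nat_lit 302) ln13_13_6 ln13_13_6_ok) (L (nat_lit 366) ln13_14_6 ln13_14_6_ok))))))) (B (M (nat_lit 493) (B (M (nat_lit 492) (B (L (nat_lit 460) ln13_11_5 ln13_11_5_ok) (L (nat_lit 524) ln13_12_5 ln13_12_5_ok))) (M (nat_lit 494) (B (L (nat_lit 462) ln13_11_4 ln13_11_4_ok) (L (nat_lit 526) ln13_12_4 ln13_12_4_ok))))) (M (nat_lit 333) (B (M (nat_lit 334) (B (L (nat_lit 302) ln13_13_6 ln13_13_6_ok) (L (nat_lit 366) ln13_14_6 ln13_14_6_ok))) (M (nat_lit 462) (B (L (nat_lit 430) ln13_10_4 ln13_10_4_ok) (L (nat_lit 494) ln13_11_4 ln13_11_4_ok)))))))) (B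 (M (nat_lit 461) (B (M (nat_lit 493) (B (M (nat_lit 366) (B (L (nat_lit 334) ln13_14_6 ln13_14_6_ok) (L (nat_lit 398) ln13_15_6 ln13_15_6_ok))) (M (nat_lit 492) (B (L (nat_lit 460) ln13_11_5 ln13_11_5_ok) (L (nat_lit 524) ln13_12_5 ln13_12_5_ok))))) (B (M (nat_lit 493) (B (M (nat_lit 492) (B (L (nat_lit 460) ln13_11_5 ln13_11_5_ok) (L (nat_lit 524) ln13_12_5 ln13_12_5_ok))) (M (nat_lit 494) (B (L (nat_lit 462) ln13_11_4 ln13_11_4_ok) (L (nat_lit 526) ln13_12_4 ln13_12_4_ok))))) (B (M (nat_lit 493) (B (M (nat_lit 366) (B (L (nat_lit 334) ln13_14_6 ln13_14_6_ok) (L (nat_lit 398) ln13_15_6 ln13_15_6_ok))) (M (nat_lit 494) (B (L (nat_lit 462) ln13_11_4 ln13_11_4_ok) (L (nat_lit 526) ln13_12_4 ln13_12_4_ok))))) (M (nat_lit 333) (B (M (nat_lit 334) (B (L (nat_lit 302) ln13_13_6 ln13_13_6_ok) (L (nat_lit 366) ln13_14_6 ln13_14_6_ok))) (M (nat_lit 462) (B (L (nat_lit 430) ln13_10_4 ln13_10_4_ok) (L (nat_lit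 494) ln13_11_4 ln13_11_4_ok))))))))) (B (M (nat_lit 461) (B (M (nat_lit 493) (B (M (nat_lit 492) (B (L (nat_lit 460) ln13_11_5 ln13_11_5_ok) (L (nat_lit 524) ln13_12_5 ln13_12_5_ok))) (M (nat_lit 494) (B (L (nat_lit 462) ln13_11_4 ln13_11_4_ok) (L (nat_lit 526) ln13_12_4 ln13_12_4_ok))))) (B (M (nat_lit 493) (B (M (nat_lit 366) (B (L (nat_lit 334) ln13_14_6 ln13_14_6_ok) (L (nat_lit 398) ln13_15_6 ln13_15_6_ok))) (M (nat_lit 494) (B (L (nat_lit 462) ln13_11_4 ln13_11_4_ok) (L (nat_lit 526) ln13_12_4 ln13_12_4_ok))))) (B (M (nat_lit 493) (B (M (nat_lit 366) (B (L (nat_lit 334) ln13_14_6 ln13_14_6_ok) (L (nat_lit 398) ln13_15_6 ln13_15_6_ok))) (M (nat_lit 492) (B (L (nat_lit 460) ln13_11_5 ln13_11_5_ok) (L (nat_lit 524) ln13_12_5 ln13_12_5_ok))))) (M (nat_lit 460) (B (L (nat_lit 492) ln13_11_5 ln13_11_5_ok) (M (nat_lit 333) (B (L (nat_lit 428) ln13_10_5 ln13_10_5_ok) (M (nat_lit 334) (B (L (nat_lit 302)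 ln13_13_6 ln13_13_6_ok) (L (nat_lit 366) ln13_14_6 ln13_14_6_ok))))))))))) (B (M (nat_lit 333) (B (M (nat_lit 301) (B (M (nat_lit 300) (B (L (nat_lit 268) ln13_12_7 ln13_12_7_ok) (L (nat_lit 332) ln13_13_7 ln13_13_7_ok))) (M (nat_lit 302) (B (L (nat_lit 270) ln13_12_6 ln13_12_6_ok) (L (nat_lit 334) ln13_13_6 ln13_13_6_ok))))) (B (M (nat_lit 461) (B (M (nat_lit 334) (B (L (nat_lit 302) ln13_13_6 ln13_13_6_ok) (L (nat_lit 366) ln13_14_6 ln13_14_6_ok))) (M (nat_lit 462) (B (L (nat_lit 430) ln13_10_4 ln13_10_4_ok) (L (nat_lit 494) ln13_11_4 ln13_11_4_ok))))) (M (nat_lit 301) (B (M (nat_lit 300) (B (L (nat_lit 268) ln13_12_7 ln13_12_7_ok) (L (nat_lit 332) ln13_13_7 ln13_13_7_ok))) (M (nat_lit 430) (B (L (nat_lit 398) ln13_9_4 ln13_9_4_ok) (L (nat_lit 462) ln13_10_4 ln13_10_4_ok)))))))) (B (M (nat_lit 428) (B (M (nat_lit 460) (B (L (nat_lit 333) ln13_10_5 ln13_10_5_ok) (M (nat_lit 492) (B (L (nat_lit 396)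 ln12_15_6 ln12_15_6_ok) (L (nat_lit 524) ln12_16_6 ln12_16_6_ok))))) (B (M (nat_lit 427) (B (M (nat_lit 398) (B (L (nat_lit 426) ln10_13_2 ln10_13_2_ok) (M (nat_lit 399) (B (L (nat_lit 396) ln15_12_1 ln15_12_1_ok) (L (nat_lit 400) ln16_12_1 ln16_12_1_ok))))) (B (M (nat_lit 398) (B (L (nat_lit 426) ln10_13_2 ln10_13_2_ok) (M (nat_lit 399) (B (L (nat_lit 400) ln16_12_1 ln16_12_1_ok) (L (nat_lit 430) ln11_13_2 ln11_13_2_ok))))) (B (M (nat_lit 426) (B (M (nat_lit 425) (B (L (nat_lit 396) ln9_13_2 ln9_13_2_ok) (M (nat_lit 393) (B (L (nat_lit 392) ln12_13_3 ln12_13_3_ok) (L (nat_lit 394) ln13_13_3 ln13_13_3_ok))))) (B (M (nat_lit 425) (B (L (nat_lit 396) ln9_13_2 ln9_13_2_ok) (M (nat_lit 457) (B (L (nat_lit 456) ln12_13_1 ln12_13_1_ok) (L (nat_lit 458) ln13_13_1 ln13_13_1_ok))))) (M (nat_lit 430) (B (M (nat_lit 394) (B (L (nat_lit 393) ln13_13_3 ln13_13_3_ok) (L (nat_lit 395) ln14_13_3 ln14_13_3_ok))) (M (nat_lit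 458) (B (L (nat_lit 457) ln13_13_1 ln13_13_1_ok) (L (nat_lit 459) ln14_13_1 ln14_13_1_ok)))))))) (M (nat_lit 430) (B (M (nat_lit 398) (B (L (nat_lit 399) ln11_13_2 ln11_13_2_ok) (M (nat_lit 462) (B (L (nat_lit 494) ln14_15_7 ln14_15_7_ok) (L (nat_lit 463) ln11_13_0 ln11_13_0_ok))))) (M (nat_lit 460) (B (M (nat_lit 492) (B (L (nat_lit 396) ln12_15_6 ln12_15_6_ok) (L (nat_lit 524) ln12_16_6 ln12_16_6_ok))) (M (nat_lit 459) (B (L (nat_lit 458) ln14_13_1 ln14_13_1_ok) (L (nat_lit 431) ln15_13_1 ln15_13_1_ok))))))))))) (B (M (nat_lit 333) (B (L (nat_lit 460) ln13_10_5 ln13_10_5_ok) (M (nat_lit 301) (B (M (nat_lit 302) (B (L (nat_lit 270) ln13_12_6 ln13_12_6_ok) (L (nat_lit 334) ln13_13_6 ln13_13_6_ok))) (M (nat_lit 430) (B (L (nat_lit 398) ln13_9_4 ln13_9_4_ok) (L (nat_lit 462) ln13_10_4 ln13_10_4_ok))))))) (M (nat_lit 430) (B (M (nat_lit 333) (B (L (nat_lit 462) ln13_10_4 ln13_10_4_ok) (M (nat_lit 301) (B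 (L (nat_lit 396) ln13_9_5 ln13_9_5_ok) (L (nat_lit 398) ln13_9_4 ln13_9_4_ok))))) (B (M (nat_lit 398) (B (M (nat_lit 462) (B (L (nat_lit 333) ln13_10_4 ln13_10_4_ok) (L (nat_lit 494) ln14_15_7 ln14_15_7_ok))) (M (nat_lit 427) (B (L (nat_lit 426) ln10_13_2 ln10_13_2_ok) (L (nat_lit 399) ln11_13_2 ln11_13_2_ok))))) (B (M (nat_lit 427) (B (M (nat_lit 398) (B (L (nat_lit 426) ln10_13_2 ln10_13_2_ok) (L (nat_lit 399) ln11_13_2 ln11_13_2_ok))) (B (M (nat_lit 426) (B (M (nat_lit 394) (B (L (nat_lit 393) ln13_13_3 ln13_13_3_ok) (L (nat_lit 395) ln14_13_3 ln14_13_3_ok))) (M (nat_lit 458) (B (L (nat_lit 457) ln13_13_1 ln13_13_1_ok) (L (nat_lit 459) ln14_13_1 ln14_13_1_ok))))) (M (nat_lit 431) (B (M (nat_lit 395) (B (L (nat_lit 394) ln14_13_3 ln14_13_3_ok) (L (nat_lit 396) ln15_13_3 ln15_13_3_ok))) (M (nat_lit 399) (B (L (nat_lit 398) ln11_13_2 ln11_13_2_ok) (L (nat_lit 400) ln12_13_2 ln12_13_2_ok)))))))) (M (nat_lit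 396) (B (M (nat_lit 333) (B (L (nat_lit 301) ln13_9_5 ln13_9_5_ok) (L (nat_lit 462) ln13_10_4 ln13_10_4_ok))) (M (nat_lit 395) (B (L (nat_lit 394) ln10_12_0 ln10_12_0_ok) (L (nat_lit 431) ln15_13_3 ln15_13_3_ok))))))))))))) (M (nat_lit 333) (B (M (nat_lit 301) (B (M (nat_lit 300) (B (L (nat_lit 268) ln13_12_7 ln13_12_7_ok) (L (nat_lit 332) ln13_13_7 ln13_13_7_ok))) (M (nat_lit 302) (B (L (nat_lit 270) ln13_12_6 ln13_12_6_ok) (L (nat_lit 334) ln13_13_6 ln13_13_6_ok))))) (B (M (nat_lit 461) (B (M (nat_lit 334) (B (L (nat_lit 302) ln13_13_6 ln13_13_6_ok) (L (nat_lit 366) ln13_14_6 ln13_14_6_ok))) (M (nat_lit 460) (B (L (nat_lit 428) ln13_10_5 ln13_10_5_ok) (L (nat_lit 492) ln13_11_5 ln13_11_5_ok))))) (M (nat_lit 301) (B (M (nat_lit 300) (B (L (nat_lit 268) ln13_12_7 ln13_12_7_ok) (L (nat_lit 332) ln13_13_7 ln13_13_7_ok))) (M (nat_lit 428) (B (L (nat_lit 396) ln13_9_5 ln13_9_5_ok) (L (nat_lit 460) ln13_10_5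 ln13_10_5_ok)))))))))))))))))) (nat_lit 1386334847383188664550070665778531748218595021979121511688892729411143073470393764272092352380775458208712834410189682411080515584) (nat_lit 274591906505919509885716709321426123532842110133416351712938248268669290829716060330469770775453564549870343115168490337578790814162296644035499316867317628928) (nat_lit 274591906505919509885716709321426123532842110133416351712938248268669290829716060330469770775453564549870343115168490337578790814162296644035499316867317628928) (by decide +kernel)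
noncomputable def c31_n801 : Cert := (M (nat_lit 398) (B (M (nat_lit 399) (B (L (nat_lit 400) ln16_12_1 ln16_12_1_ok) (M (nat_lit 427) (B (L (nat_lit 396) ln15_12_1 ln15_12_1_ok) (L (nat_lit 426) ln10_13_2 ln10_13_2_ok))))) (B (M (nat_lit 399) (B (L (nat_lit 400) ln16_12_1 ln16_12_1_ok) (M (nat_lit 427) (B (L (nat_lit 426) ln10_13_2 ln10_13_2_ok) (L (nat_lit 430) ln11_13_2 ln11_13_2_ok))))) (B (M (nat_lit 430) (B (M (nat_lit 427) (B (L (nat_lit 426) ln10_13_2 ln10_13_2_ok) (M (nat_lit 395) (B (L (nat_lit 394) ln14_13_3 ln14_13_3_ok) (M (nat_lit 431) (B (L (nat_lit 396) ln11_12_0 ln11_12_0_ok) (M (nat_lit 459) (B (L (nat_lit 458) ln14_13_1 ln14_13_1_ok) (L (nat_lit 460) ln15_13_1 ln15_13_1_ok))))))))) (B (M (nat_lit 427) (B (L (nat_lit 426) ln10_13_2 ln10_13_2_ok) (M (nat_lit 431) (B (M (nat_lit 396) (B (L (nat_lit 395) ln11_12_0 ln11_12_0_ok) (L (nat_lit 432) ln16_13_3 ln16_13_3_ok))) (M (nat_lit 459)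 (B (L (nat_lit 458) ln14_13_1 ln14_13_1_ok) (L (nat_lit 460) ln15_13_1 ln15_13_1_ok))))))) (B (M (nat_lit 366) (B (M (nat_lit 334) (B (L (nat_lit 302) ln14_9_5 ln14_9_5_ok) (L (nat_lit 461) ln14_10_5 ln14_10_5_ok))) (B (M (nat_lit 461) (B (L (nat_lit 334) ln14_10_5 ln14_10_5_ok) (L (nat_lit 493) ln13_15_6 ln13_15_6_ok))) (B (M (nat_lit 493) (B (L (nat_lit 461) ln13_15_6 ln13_15_6_ok) (M (nat_lit 462) (B (M (nat_lit 494) (B (L (nat_lit 526) ln14_16_7 ln14_16_7_ok) (L (nat_lit 525) ln14_12_5 ln14_12_5_ok))) (M (nat_lit 427) (B (L (nat_lit 426) ln10_13_2 ln10_13_2_ok) (L (nat_lit 463) ln11_13_0 ln11_13_0_ok))))))) (M (nat_lit 427) (B (L (nat_lit 426) ln10_13_2 ln10_13_2_ok) (M (nat_lit 335) (B (M (nat_lit 334) (B (L (nat_lit 302) ln14_9_5 ln14_9_5_ok) (L (nat_lit 303) ln14_13_6 ln14_13_6_ok))) (M (nat_lit 462) (B (L (nat_lit 367) ln14_14_6 ln14_14_6_ok) (L (nat_lit 463) ln11_13_0 ln11_13_0_ok)))))))))))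 (B (M (nat_lit 431) (B (M (nat_lit 396) (B (L (nat_lit 395) ln11_12_0 ln11_12_0_ok) (L (nat_lit 432) ln16_13_3 ln16_13_3_ok))) (B (M (nat_lit 460) (B (L (nat_lit 459) ln15_13_1 ln15_13_1_ok) (M (nat_lit 432) (B (L (nat_lit 396) ln16_13_3 ln16_13_3_ok) (L (nat_lit 461) ln16_13_1 ln16_13_1_ok))))) (B (M (nat_lit 461) (B (M (nat_lit 366) (B (L (nat_lit 334) ln14_10_5 ln14_10_5_ok) (L (nat_lit 493) ln13_15_6 ln13_15_6_ok))) (M (nat_lit 460) (B (L (nat_lit 459) ln15_13_1 ln15_13_1_ok) (L (nat_lit 432) ln16_13_1 ln16_13_1_ok))))) (M (nat_lit 427) (B (M (nat_lit 395) (B (L (nat_lit 394) ln14_13_3 ln14_13_3_ok) (L (nat_lit 396) ln11_12_0 ln11_12_0_ok))) (M (nat_lit 459) (B (L (nat_lit 458) ln14_13_1 ln14_13_1_ok) (L (nat_lit 460) ln15_13_1 ln15_13_1_ok))))))))) (M (nat_lit 396) (B (M (nat_lit 395) (B (L (nat_lit 394) ln10_12_0 ln10_12_0_ok) (L (nat_lit 431) ln11_12_0 ln11_12_0_ok))) (B (M (nat_lit 431) (B (L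 (nat_lit 395) ln11_12_0 ln11_12_0_ok) (L (nat_lit 432) ln16_13_3 ln16_13_3_ok))) (B (M (nat_lit 460) (B (M (nat_lit 431) (B (L (nat_lit 432) ln16_13_3 ln16_13_3_ok) (L (nat_lit 459) ln15_13_1 ln15_13_1_ok))) (M (nat_lit 493) (B (M (nat_lit 461) (B (L (nat_lit 364) ln13_15_7 ln13_15_7_ok) (L (nat_lit 366) ln13_15_6 ln13_15_6_ok))) (M (nat_lit 492) (B (L (nat_lit 525) ln12_12_4 ln12_12_4_ok) (L (nat_lit 524) ln12_16_6 ln12_16_6_ok))))))) (M (nat_lit 366) (B (M (nat_lit 334) (B (L (nat_lit 302) ln14_9_5 ln14_9_5_ok) (L (nat_lit 461) ln14_10_5 ln14_10_5_ok))) (M (nat_lit 395) (B (L (nat_lit 367) ln11_12_2 ln11_12_2_ok) (L (nat_lit 394) ln10_12_0 ln10_12_0_ok)))))))))))))) (B (M (nat_lit 399) (B (L (nat_lit 400) ln16_12_1 ln16_12_1_ok) (M (nat_lit 427) (B (L (nat_lit 396) ln15_12_1 ln15_12_1_ok) (L (nat_lit 430) ln11_13_2 ln11_13_2_ok))))) (M (nat_lit 399) (B (L (nat_lit 400) ln16_12_1 ln16_12_1_ok) (M (nat_lit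 396) (B (M (nat_lit 364) (B (L (nat_lit 363) ln15_12_3 ln15_12_3_ok) (M (nat_lit 332) (B (L (nat_lit 300) ln12_9_4 ln12_9_4_ok) (L (nat_lit 461) ln12_10_4 ln12_10_4_ok))))) (M (nat_lit 395) (B (M (nat_lit 367) (B (L (nat_lit 366) ln11_12_2 ln11_12_2_ok) (L (nat_lit 368) ln12_12_2 ln12_12_2_ok))) (M (nat_lit 431) (B (L (nat_lit 430) ln11_12_0 ln11_12_0_ok) (L (nat_lit 432) ln12_12_0 ln12_12_0_ok))))))))))))))
noncomputable def c31_n810 : Cert := (M (nat_lit 398) (B (M (nat_lit 399) (B (L (nat_lit 400) ln16_12_1 ln16_12_1_ok) (M (nat_lit 427) (B (L (nat_lit 396) ln15_12_1 ln15_12_1_ok) (L (nat_lit 430) ln11_13_2 ln11_13_2_ok))))) (B (M (nat_lit 399) (B (L (nat_lit 400) ln16_12_1 ln16_12_1_ok) (M (nat_lit 427) (B (L (nat_lit 426) ln10_13_2 ln10_13_2_ok) (L (nat_lit 430) ln11_13_2 ln11_13_2_ok))))) (B (M (nat_lit 430) (B (M (nat_lit 427) (B (L (nat_lit 426) ln10_13_2 ln10_13_2_ok) (M (nat_lit 395) (B (L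 (nat_lit 394) ln14_13_3 ln14_13_3_ok) (M (nat_lit 431) (B (L (nat_lit 396) ln11_12_0 ln11_12_0_ok) (M (nat_lit 459) (B (L (nat_lit 458) ln14_13_1 ln14_13_1_ok) (L (nat_lit 460) ln15_13_1 ln15_13_1_ok))))))))) (B (M (nat_lit 427) (B (L (nat_lit 426) ln10_13_2 ln10_13_2_ok) (M (nat_lit 431) (B (M (nat_lit 396) (B (L (nat_lit 395) ln11_12_0 ln11_12_0_ok) (L (nat_lit 432) ln16_13_3 ln16_13_3_ok))) (M (nat_lit 459) (B (L (nat_lit 458) ln14_13_1 ln14_13_1_ok) (L (nat_lit 460) ln15_13_1 ln15_13_1_ok))))))) (B (M (nat_lit 366) (B (M (nat_lit 334) (B (L (nat_lit 302) ln14_9_5 ln14_9_5_ok) (L (nat_lit 461) ln14_10_5 ln14_10_5_ok))) (B (M (nat_lit 461) (B (L (nat_lit 334) ln14_10_5 ln14_10_5_ok) (L (nat_lit 493) ln13_15_6 ln13_15_6_ok))) (B (M (nat_lit 493) (B (L (nat_lit 461) ln13_15_6 ln13_15_6_ok) (M (nat_lit 462) (B (M (nat_lit 494) (B (L (nat_lit 526) ln14_16_7 ln14_16_7_ok) (L (nat_lit 525) ln14_12_5 ln14_12_5_ok)))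 (M (nat_lit 427) (B (L (nat_lit 426) ln10_13_2 ln10_13_2_ok) (L (nat_lit 463) ln11_13_0 ln11_13_0_ok))))))) (M (nat_lit 427) (B (L (nat_lit 426) ln10_13_2 ln10_13_2_ok) (M (nat_lit 335) (B (M (nat_lit 334) (B (L (nat_lit 302) ln14_9_5 ln14_9_5_ok) (L (nat_lit 303) ln14_13_6 ln14_13_6_ok))) (M (nat_lit 462) (B (L (nat_lit 367) ln14_14_6 ln14_14_6_ok) (L (nat_lit 463) ln11_13_0 ln11_13_0_ok))))))))))) (B (M (nat_lit 431) (B (M (nat_lit 396) (B (L (nat_lit 395) ln11_12_0 ln11_12_0_ok) (L (nat_lit 432) ln16_13_3 ln16_13_3_ok))) (B (M (nat_lit 460) (B (L (nat_lit 459) ln15_13_1 ln15_13_1_ok) (M (nat_lit 432) (B (L (nat_lit 396) ln16_13_3 ln16_13_3_ok) (L (nat_lit 461) ln16_13_1 ln16_13_1_ok))))) (B (M (nat_lit 461) (B (M (nat_lit 366) (B (L (nat_lit 334) ln14_10_5 ln14_10_5_ok) (L (nat_lit 493) ln13_15_6 ln13_15_6_ok))) (M (nat_lit 460) (B (L (nat_lit 459) ln15_13_1 ln15_13_1_ok) (L (nat_lit 432) ln16_13_1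 ln16_13_1_ok))))) (M (nat_lit 427) (B (M (nat_lit 395) (B (L (nat_lit 394) ln14_13_3 ln14_13_3_ok) (L (nat_lit 396) ln11_12_0 ln11_12_0_ok))) (M (nat_lit 459) (B (L (nat_lit 458) ln14_13_1 ln14_13_1_ok) (L (nat_lit 460) ln15_13_1 ln15_13_1_ok))))))))) (M (nat_lit 396) (B (M (nat_lit 395) (B (L (nat_lit 394) ln10_12_0 ln10_12_0_ok) (L (nat_lit 431) ln11_12_0 ln11_12_0_ok))) (B (M (nat_lit 431) (B (L (nat_lit 395) ln11_12_0 ln11_12_0_ok) (L (nat_lit 432) ln16_13_3 ln16_13_3_ok))) (B (M (nat_lit 460) (B (M (nat_lit 431) (B (L (nat_lit 432) ln16_13_3 ln16_13_3_ok) (L (nat_lit 459) ln15_13_1 ln15_13_1_ok))) (M (nat_lit 493) (B (M (nat_lit 461) (B (L (nat_lit 364) ln13_15_7 ln13_15_7_ok) (L (nat_lit 366) ln13_15_6 ln13_15_6_ok))) (M (nat_lit 492) (B (L (nat_lit 525) ln12_12_4 ln12_12_4_ok) (L (nat_lit 524) ln12_16_6 ln12_16_6_ok))))))) (M (nat_lit 366) (B (M (nat_lit 334) (B (L (nat_lit 302) ln14_9_5 ln14_9_5_ok)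 (L (nat_lit 461) ln14_10_5 ln14_10_5_ok))) (M (nat_lit 395) (B (L (nat_lit 367) ln11_12_2 ln11_12_2_ok) (L (nat_lit 394) ln10_12_0 ln10_12_0_ok)))))))))))))) (B (M (nat_lit 399) (B (L (nat_lit 400) ln16_12_1 ln16_12_1_ok) (M (nat_lit 396) (B (M (nat_lit 364) (B (L (nat_lit 363) ln15_12_3 ln15_12_3_ok) (M (nat_lit 461) (B (L (nat_lit 332) ln12_10_4 ln12_10_4_ok) (L (nat_lit 493) ln13_15_7 ln13_15_7_ok))))) (M (nat_lit 395) (B (M (nat_lit 367) (B (L (nat_lit 366) ln11_12_2 ln11_12_2_ok) (L (nat_lit 368) ln12_12_2 ln12_12_2_ok))) (M (nat_lit 431) (B (L (nat_lit 430) ln11_12_0 ln11_12_0_ok) (L (nat_lit 432) ln12_12_0 ln12_12_0_ok))))))))) (M (nat_lit 399) (B (L (nat_lit 400) ln16_12_1 ln16_12_1_ok) (M (nat_lit 427) (B (L (nat_lit 396) ln15_12_1 ln15_12_1_ok) (L (nat_lit 426) ln10_13_2 ln10_13_2_ok))))))))))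
noncomputable def c31_n839 : Cert := (M (nat_lit 430) (B (M (nat_lit 427) (B (L (nat_lit 426) ln10_13_2 ln10_13_2_ok) (M (nat_lit 395) (B (L (nat_lit 394) ln14_13_3 ln14_13_3_ok) (M (nat_lit 431) (B (L (nat_lit 396) ln11_12_0 ln11_12_0_ok) (M (nat_lit 459) (B (L (nat_lit 458) ln14_13_1 ln14_13_1_ok) (L (nat_lit 460) ln15_13_1 ln15_13_1_ok))))))))) (B (M (nat_lit 427) (B (L (nat_lit 426) ln10_13_2 ln10_13_2_ok) (M (nat_lit 431) (B (M (nat_lit 396) (B (L (nat_lit 395) ln11_12_0 ln11_12_0_ok) (L (nat_lit 432) ln16_13_3 ln16_13_3_ok))) (M (nat_lit 459) (B (L (nat_lit 458) ln14_13_1 ln14_13_1_ok) (L (nat_lit 460) ln15_13_1 ln15_13_1_ok))))))) (B (M (nat_lit 366) (B (M (nat_lit 461) (B (L (nat_lit 334) ln14_10_5 ln14_10_5_ok) (L (nat_lit 493) ln13_15_6 ln13_15_6_ok))) (B (M (nat_lit 493) (B (L (nat_lit 461) ln13_15_6 ln13_15_6_ok) (M (nat_lit 462) (B (M (nat_lit 494) (B (L (nat_lit 526) ln14_16_7 ln14_16_7_ok)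 (L (nat_lit 525) ln14_12_5 ln14_12_5_ok))) (M (nat_lit 427) (B (L (nat_lit 426) ln10_13_2 ln10_13_2_ok) (L (nat_lit 463) ln11_13_0 ln11_13_0_ok))))))) (M (nat_lit 427) (B (L (nat_lit 426) ln10_13_2 ln10_13_2_ok) (M (nat_lit 431) (B (M (nat_lit 463) (B (L (nat_lit 334) ln14_10_4 ln14_10_4_ok) (L (nat_lit 462) ln11_13_0 ln11_13_0_ok))) (M (nat_lit 459) (B (L (nat_lit 458) ln14_13_1 ln14_13_1_ok) (L (nat_lit 460) ln15_13_1 ln15_13_1_ok)))))))))) (B (M (nat_lit 431) (B (M (nat_lit 396) (B (L (nat_lit 395) ln11_12_0 ln11_12_0_ok) (L (nat_lit 432) ln16_13_3 ln16_13_3_ok))) (B (M (nat_lit 460) (B (L (nat_lit 459) ln15_13_1 ln15_13_1_ok) (M (nat_lit 432) (B (L (nat_lit 396) ln16_13_3 ln16_13_3_ok) (L (nat_lit 461) ln16_13_1 ln16_13_1_ok))))) (B (M (nat_lit 461) (B (M (nat_lit 366) (B (L (nat_lit 334) ln14_10_5 ln14_10_5_ok) (L (nat_lit 493) ln13_15_6 ln13_15_6_ok))) (M (nat_lit 460) (B (L (nat_lit 459) ln15_13_1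 ln15_13_1_ok) (L (nat_lit 432) ln16_13_1 ln16_13_1_ok))))) (M (nat_lit 427) (B (M (nat_lit 395) (B (L (nat_lit 394) ln14_13_3 ln14_13_3_ok) (L (nat_lit 396) ln11_12_0 ln11_12_0_ok))) (M (nat_lit 459) (B (L (nat_lit 458) ln14_13_1 ln14_13_1_ok) (L (nat_lit 460) ln15_13_1 ln15_13_1_ok))))))))) (B (M (nat_lit 396) (B (M (nat_lit 395) (B (L (nat_lit 394) ln10_12_0 ln10_12_0_ok) (L (nat_lit 431) ln11_12_0 ln11_12_0_ok))) (B (M (nat_lit 431) (B (L (nat_lit 395) ln11_12_0 ln11_12_0_ok) (L (nat_lit 432) ln16_13_3 ln16_13_3_ok))) (B (M (nat_lit 460) (B (M (nat_lit 431) (B (L (nat_lit 432) ln16_13_3 ln16_13_3_ok) (L (nat_lit 459) ln15_13_1 ln15_13_1_ok))) (M (nat_lit 493) (B (M (nat_lit 461) (B (L (nat_lit 364) ln13_15_7 ln13_15_7_ok) (L (nat_lit 366) ln13_15_6 ln13_15_6_ok))) (M (nat_lit 492) (B (L (nat_lit 525) ln12_12_4 ln12_12_4_ok) (L (nat_lit 524) ln12_16_6 ln12_16_6_ok))))))) (M (nat_lit 366) (B (M (nat_lit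 395) (B (L (nat_lit 367) ln11_12_2 ln11_12_2_ok) (L (nat_lit 394) ln10_12_0 ln10_12_0_ok))) (M (nat_lit 461) (B (L (nat_lit 334) ln14_10_5 ln14_10_5_ok) (L (nat_lit 493) ln13_15_6 ln13_15_6_ok))))))))) (M (nat_lit 427) (B (L (nat_lit 426) ln10_13_2 ln10_13_2_ok) (M (nat_lit 366) (B (M (nat_lit 461) (B (L (nat_lit 334) ln14_10_5 ln14_10_5_ok) (L (nat_lit 493) ln13_15_6 ln13_15_6_ok))) (M (nat_lit 367) (B (M (nat_lit 462) (B (L (nat_lit 335) ln14_14_6 ln14_14_6_ok) (L (nat_lit 463) ln11_13_0 ln11_13_0_ok))) (M (nat_lit 395) (B (L (nat_lit 396) ln11_12_2 ln11_12_2_ok) (L (nat_lit 394) ln14_13_3 ln14_13_3_ok)))))))))))))))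
noncomputable def c31_n840 : Cert := (M (nat_lit 398) (B (M (nat_lit 399) (B (L (nat_lit 400) ln16_12_1 ln16_12_1_ok) (M (nat_lit 427) (B (L (nat_lit 396) ln15_12_1 ln15_12_1_ok) (L (nat_lit 426) ln10_13_2 ln10_13_2_ok))))) (B (M (nat_lit 399) (B (L (nat_lit 400) ln16_12_1 ln16_12_1_ok) (M (nat_lit 427) (B (L (nat_lit 426) ln10_13_2 ln10_13_2_ok) (L (nat_lit 430) ln11_13_2 ln11_13_2_ok))))) (B c31_n839 (B (M (nat_lit 399) (B (L (nat_lit 400) ln16_12_1 ln16_12_1_ok) (M (nat_lit 427) (B (L (nat_lit 396) ln15_12_1 ln15_12_1_ok) (L (nat_lit 430) ln11_13_2 ln11_13_2_ok))))) (M (nat_lit 399) (B (L (nat_lit 400) ln16_12_1 ln16_12_1_ok) (M (nat_lit 396) (B (M (nat_lit 364) (B (L (nat_lit 363) ln15_12_3 ln15_12_3_ok) (M (nat_lit 461) (B (L (nat_lit 332) ln12_10_4 ln12_10_4_ok) (L (nat_lit 493) ln13_15_7 ln13_15_7_ok))))) (M (nat_lit 395) (B (M (nat_lit 367) (B (L (nat_lit 366) ln11_12_2 ln11_12_2_ok) (L (nat_lit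 368) ln12_12_2 ln12_12_2_ok))) (M (nat_lit 431) (B (L (nat_lit 430) ln11_12_0 ln11_12_0_ok) (L (nat_lit 432) ln12_12_0 ln12_12_0_ok))))))))))))))
theorem c31_s1060 : Sem (nat_lit 2079502271558954848966401359228282467078457259405502103688818502772463239556962075536296252564221691053095095009516368361510928384) (nat_lit 411887859703736698411883290521452365813226860935116742430449456199421650196073346335264190135248688677929102474313030528619428578129826839398959232078533623808) (nat_lit 411887859703736698411883290521452365813226860935116742430449456199421650196073346335264190135248688677929102474313030528619428578129826839398959232078533623808) :=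
  sem_of_chk (M (nat_lit 396) (B (M (nat_lit 427) (B (L (nat_lit 426) ln10_13_2 ln10_13_2_ok) (M (nat_lit 395) (B (M (nat_lit 363) (B (L (nat_lit 362) ln14_12_3 ln14_12_3_ok) (M (nat_lit 331) (B (L (nat_lit 299) ln11_9_4 ln11_9_4_ok) (L (nat_lit 460) ln11_10_4 ln11_10_4_ok))))) (M (nat_lit 459) (B (M (nat_lit 491) (B (L (nat_lit 364) ln11_15_6 ln11_15_6_ok) (L (nat_lit 523) ln11_16_6 ln11_16_6_ok))) (M (nat_lit 430) (B (L (nat_lit 431) ln11_12_0 ln11_12_0_ok) (L (nat_lit 458) ln14_13_1 ln14_13_1_ok))))))))) (B (M (nat_lit 427) (B (L (nat_lit 426) ln10_13_2 ln10_13_2_ok) (M (nat_lit 395) (B (M (nat_lit 363) (B (L (nat_lit 362) ln14_12_3 ln14_12_3_ok) (M (nat_lit 460) (B (L (nat_lit 331) ln11_10_4 ln11_10_4_ok) (L (nat_lit 492) ln12_15_7 ln12_15_7_ok))))) (M (nat_lit 459) (B (M (nat_lit 491) (B (L (nat_lit 364) ln11_15_6 ln11_15_6_ok) (L (nat_lit 523) ln11_16_6 ln11_16_6_ok))) (M (nat_lit 430) (B (L (nat_lit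 431) ln11_12_0 ln11_12_0_ok) (L (nat_lit 458) ln14_13_1 ln14_13_1_ok))))))))) (B (M (nat_lit 427) (B (L (nat_lit 426) ln10_13_2 ln10_13_2_ok) (M (nat_lit 459) (B (M (nat_lit 491) (B (L (nat_lit 523) ln11_16_6 ln11_16_6_ok) (M (nat_lit 364) (B (L (nat_lit 395) ln11_15_6 ln11_15_6_ok) (L (nat_lit 460) ln12_11_5 ln12_11_5_ok))))) (B (M (nat_lit 430) (B (L (nat_lit 458) ln14_13_1 ln14_13_1_ok) (M (nat_lit 431) (B (L (nat_lit 395) ln11_12_0 ln11_12_0_ok) (L (nat_lit 432) ln16_13_3 ln16_13_3_ok))))) (M (nat_lit 430) (B (L (nat_lit 458) ln14_13_1 ln14_13_1_ok) (M (nat_lit 431) (B (L (nat_lit 432) ln16_13_3 ln16_13_3_ok) (L (nat_lit 460) ln15_13_1 ln15_13_1_ok)))))))))) (B (M (nat_lit 430) (B (M (nat_lit 431) (B (L (nat_lit 395) ln11_12_0 ln11_12_0_ok) (L (nat_lit 432) ln16_13_3 ln16_13_3_ok))) (B (M (nat_lit 459) (B (M (nat_lit 427) (B (L (nat_lit 426) ln10_13_2 ln10_13_2_ok) (L (nat_lit 458) ln14_13_1 ln14_13_1_ok)))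 (M (nat_lit 431) (B (L (nat_lit 432) ln16_13_3 ln16_13_3_ok) (L (nat_lit 460) ln15_13_1 ln15_13_1_ok))))) (M (nat_lit 366) (B (M (nat_lit 334) (B (L (nat_lit 302) ln14_9_5 ln14_9_5_ok) (L (nat_lit 461) ln14_10_5 ln14_10_5_ok))) (B (M (nat_lit 461) (B (L (nat_lit 334) ln14_10_5 ln14_10_5_ok) (L (nat_lit 493) ln13_15_6 ln13_15_6_ok))) (M (nat_lit 462) (B (M (nat_lit 367) (B (L (nat_lit 335) ln14_14_6 ln14_14_6_ok) (L (nat_lit 395) ln11_12_2 ln11_12_2_ok))) (M (nat_lit 427) (B (L (nat_lit 426) ln10_13_2 ln10_13_2_ok) (L (nat_lit 463) ln11_13_0 ln11_13_0_ok))))))))))) (B (M (nat_lit 430) (B (M (nat_lit 459) (B (M (nat_lit 427) (B (L (nat_lit 426) ln10_13_2 ln10_13_2_ok) (L (nat_lit 458) ln14_13_1 ln14_13_1_ok))) (M (nat_lit 431) (B (L (nat_lit 432) ln16_13_3 ln16_13_3_ok) (L (nat_lit 460) ln15_13_1 ln15_13_1_ok))))) (B (M (nat_lit 460) (B (M (nat_lit 431) (B (L (nat_lit 432) ln16_13_3 ln16_13_3_ok) (L (nat_lit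 459) ln15_13_1 ln15_13_1_ok))) (M (nat_lit 493) (B (M (nat_lit 461) (B (L (nat_lit 364) ln13_15_7 ln13_15_7_ok) (L (nat_lit 366) ln13_15_6 ln13_15_6_ok))) (M (nat_lit 492) (B (L (nat_lit 525) ln12_12_4 ln12_12_4_ok) (L (nat_lit 524) ln12_16_6 ln12_16_6_ok))))))) (M (nat_lit 493) (B (M (nat_lit 461) (B (L (nat_lit 364) ln13_15_7 ln13_15_7_ok) (L (nat_lit 366) ln13_15_6 ln13_15_6_ok))) (B (M (nat_lit 461) (B (L (nat_lit 366) ln13_15_6 ln13_15_6_ok) (L (nat_lit 525) ln13_16_7 ln13_16_7_ok))) (B (M (nat_lit 461) (B (L (nat_lit 364) ln13_15_7 ln13_15_7_ok) (L (nat_lit 525) ln13_16_7 ln13_16_7_ok))) (M (nat_lit 462) (B (M (nat_lit 494) (B (L (nat_lit 526) ln14_16_7 ln14_16_7_ok) (L (nat_lit 525) ln14_12_5 ln14_12_5_ok))) (M (nat_lit 427) (B (L (nat_lit 426) ln10_13_2 ln10_13_2_ok) (L (nat_lit 463) ln11_13_0 ln11_13_0_ok)))))))))))) (B (M (nat_lit 460) (B (M (nat_lit 492) (B (L (nat_lit 524) ln12_16_6 ln12_16_6_ok)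 (M (nat_lit 493) (B (L (nat_lit 525) ln12_12_4 ln12_12_4_ok) (M (nat_lit 461) (B (L (nat_lit 364) ln13_15_7 ln13_15_7_ok) (L (nat_lit 366) ln13_15_6 ln13_15_6_ok))))))) (B (M (nat_lit 492) (B (L (nat_lit 524) ln12_16_6 ln12_16_6_ok) (M (nat_lit 366) (B (M (nat_lit 395) (B (L (nat_lit 363) ln12_15_7 ln12_15_7_ok) (L (nat_lit 367) ln11_12_2 ln11_12_2_ok))) (M (nat_lit 493) (B (L (nat_lit 461) ln13_15_6 ln13_15_6_ok) (L (nat_lit 525) ln12_12_4 ln12_12_4_ok))))))) (B (M (nat_lit 492) (B (L (nat_lit 524) ln12_16_6 ln12_16_6_ok) (M (nat_lit 364) (B (M (nat_lit 363) (B (L (nat_lit 331) ln12_14_7 ln12_14_7_ok) (L (nat_lit 395) ln12_15_7 ln12_15_7_ok))) (M (nat_lit 491) (B (L (nat_lit 459) ln12_11_5 ln12_11_5_ok) (L (nat_lit 523) ln12_12_5 ln12_12_5_ok))))))) (M (nat_lit 461) (B (M (nat_lit 364) (B (L (nat_lit 332) ln12_10_4 ln12_10_4_ok) (L (nat_lit 493) ln13_15_7 ln13_15_7_ok))) (B (M (nat_lit 493) (B (L (nat_lit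 364) ln13_15_7 ln13_15_7_ok) (L (nat_lit 366) ln13_15_6 ln13_15_6_ok))) (B (M (nat_lit 493) (B (L (nat_lit 366) ln13_15_6 ln13_15_6_ok) (L (nat_lit 525) ln13_16_7 ln13_16_7_ok))) (M (nat_lit 459) (B (M (nat_lit 364) (B (L (nat_lit 332) ln12_10_4 ln12_10_4_ok) (L (nat_lit 491) ln12_11_5 ln12_11_5_ok))) (M (nat_lit 458) (B (L (nat_lit 457) ln9_14_2 ln9_14_2_ok) (L (nat_lit 430) ln10_14_2 ln10_14_2_ok))))))))))))) (B (M (nat_lit 460) (B (M (nat_lit 492) (B (L (nat_lit 524) ln12_16_6 ln12_16_6_ok) (M (nat_lit 493) (B (L (nat_lit 525) ln12_12_4 ln12_12_4_ok) (M (nat_lit 461) (B (L (nat_lit 364) ln13_15_7 ln13_15_7_ok) (L (nat_lit 366) ln13_15_6 ln13_15_6_ok))))))) (B (M (nat_lit 492) (B (L (nat_lit 524) ln12_16_6 ln12_16_6_ok) (M (nat_lit 366) (B (M (nat_lit 395) (B (L (nat_lit 363) ln12_15_7 ln12_15_7_ok) (L (nat_lit 367) ln11_12_2 ln11_12_2_ok))) (M (nat_lit 493) (B (L (nat_lit 461) ln13_15_6 ln13_15_6_ok)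 (L (nat_lit 525) ln12_12_4 ln12_12_4_ok))))))) (B (M (nat_lit 492) (B (L (nat_lit 524) ln12_16_6 ln12_16_6_ok) (M (nat_lit 364) (B (M (nat_lit 363) (B (L (nat_lit 331) ln12_14_7 ln12_14_7_ok) (L (nat_lit 395) ln12_15_7 ln12_15_7_ok))) (M (nat_lit 491) (B (L (nat_lit 459) ln12_11_5 ln12_11_5_ok) (L (nat_lit 523) ln12_12_5 ln12_12_5_ok))))))) (M (nat_lit 364) (B (M (nat_lit 461) (B (L (nat_lit 332) ln12_10_4 ln12_10_4_ok) (L (nat_lit 493) ln13_15_7 ln13_15_7_ok))) (M (nat_lit 363) (B (L (nat_lit 331) ln12_14_7 ln12_14_7_ok) (M (nat_lit 362) (B (L (nat_lit 361) ln9_11_0 ln9_11_0_ok) (L (nat_lit 395) ln14_12_3 ln14_12_3_ok))))))))))) (M (nat_lit 430) (B (M (nat_lit 431) (B (L (nat_lit 395) ln11_12_0 ln11_12_0_ok) (L (nat_lit 432) ln16_13_3 ln16_13_3_ok))) (M (nat_lit 493) (B (M (nat_lit 461) (B (L (nat_lit 364) ln13_15_7 ln13_15_7_ok) (L (nat_lit 366) ln13_15_6 ln13_15_6_ok))) (B (M (nat_lit 461) (B (L (nat_lit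 366) ln13_15_6 ln13_15_6_ok) (L (nat_lit 525) ln13_16_7 ln13_16_7_ok))) (B (M (nat_lit 461) (B (L (nat_lit 364) ln13_15_7 ln13_15_7_ok) (L (nat_lit 525) ln13_16_7 ln13_16_7_ok))) (M (nat_lit 462) (B (M (nat_lit 494) (B (L (nat_lit 526) ln14_16_7 ln14_16_7_ok) (L (nat_lit 525) ln14_12_5 ln14_12_5_ok))) (M (nat_lit 427) (B (L (nat_lit 426) ln10_13_2 ln10_13_2_ok) (L (nat_lit 463) ln11_13_0 ln11_13_0_ok))))))))))))))))))) (nat_lit 2079502271558954848966401359228282467078457259405502103688818502772463239556962075536296252564221691053095095009516368361510928384) (nat_lit 411887859703736698411883290521452365813226860935116742430449456199421650196073346335264190135248688677929102474313030528619428578129826839398959232078533623808) (nat_lit 411887859703736698411883290521452365813226860935116742430449456199421650196073346335264190135248688677929102474313030528619428578129826839398959232078533623808) (by decide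 +kernel)
theorem c31_s1373 : Sem (nat_lit 4852171965034207239023088395957386377514141366198892230651992205179419708227425793072060360010949930830451848111944147197298212864) (nat_lit 219673525175326239172455013549706656543534526294019760443007320879087661961701772299133230149384667850975628670822554910763244409288210090513156450067767361536) (nat_lit 219673525175326239172455013549706656543534526294019760443007320879087661961701772299133230149384667850975628670822554910763244409288210090513156450067767361536) :=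
  sem_of_chk (M (nat_lit 462) (B (M (nat_lit 427) (B (L (nat_lit 463) ln11_13_0 ln11_13_0_ok) (M (nat_lit 426) (B (L (nat_lit 461) ln10_13_0 ln10_13_0_ok) (M (nat_lit 394) (B (L (nat_lit 393) ln13_13_3 ln13_13_3_ok) (L (nat_lit 395) ln14_13_3 ln14_13_3_ok))))))) (B (M (nat_lit 427) (B (L (nat_lit 463) ln11_13_0 ln11_13_0_ok) (M (nat_lit 396) (B (M (nat_lit 395) (B (L (nat_lit 394) ln10_12_0 ln10_12_0_ok) (L (nat_lit 431) ln15_13_3 ln15_13_3_ok))) (M (nat_lit 426) (B (L (nat_lit 425) ln9_13_2 ln9_13_2_ok) (L (nat_lit 461) ln10_13_0 ln10_13_0_ok))))))) (B (M (nat_lit 427) (B (L (nat_lit 463) ln11_13_0 ln11_13_0_ok) (M (nat_lit 396) (B (M (nat_lit 426) (B (L (nat_lit 425) ln9_13_2 ln9_13_2_ok) (L (nat_lit 461) ln10_13_0 ln10_13_0_ok))) (M (nat_lit 431) (B (L (nat_lit 395) ln15_13_3 ln15_13_3_ok) (L (nat_lit 432) ln16_13_3 ln16_13_3_ok))))))) (B (M (nat_lit 427) (B (L (nat_lit 463) ln11_13_0 ln11_13_0_ok)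 (M (nat_lit 426) (B (L (nat_lit 461) ln10_13_0 ln10_13_0_ok) (M (nat_lit 425) (B (L (nat_lit 396) ln9_13_2 ln9_13_2_ok) (M (nat_lit 393) (B (L (nat_lit 392) ln12_13_3 ln12_13_3_ok) (L (nat_lit 394) ln13_13_3 ln13_13_3_ok))))))))) (B (M (nat_lit 431) (B (M (nat_lit 396) (B (L (nat_lit 395) ln15_13_3 ln15_13_3_ok) (L (nat_lit 432) ln16_13_3 ln16_13_3_ok))) (B (M (nat_lit 432) (B (L (nat_lit 396) ln16_13_3 ln16_13_3_ok) (M (nat_lit 400) (B (L (nat_lit 399) ln12_13_2 ln12_13_2_ok) (L (nat_lit 401) ln13_13_2 ln13_13_2_ok))))) (B (M (nat_lit 432) (B (M (nat_lit 400) (B (L (nat_lit 399) ln12_13_2 ln12_13_2_ok) (L (nat_lit 401) ln13_13_2 ln13_13_2_ok))) (M (nat_lit 461) (B (L (nat_lit 460) ln16_13_1 ln16_13_1_ok) (L (nat_lit 433) ln17_13_1 ln17_13_1_ok))))) (M (nat_lit 427) (B (L (nat_lit 463) ln11_13_0 ln11_13_0_ok) (M (nat_lit 395) (B (L (nat_lit 394) ln14_13_3 ln14_13_3_ok) (L (nat_lit 396) ln15_13_3 ln15_13_3_ok)))))))))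 (B (M (nat_lit 431) (B (M (nat_lit 396) (B (L (nat_lit 395) ln15_13_3 ln15_13_3_ok) (L (nat_lit 432) ln16_13_3 ln16_13_3_ok))) (B (M (nat_lit 432) (B (L (nat_lit 396) ln16_13_3 ln16_13_3_ok) (M (nat_lit 400) (B (L (nat_lit 399) ln12_13_2 ln12_13_2_ok) (L (nat_lit 401) ln13_13_2 ln13_13_2_ok))))) (B (M (nat_lit 432) (B (M (nat_lit 400) (B (L (nat_lit 399) ln12_13_2 ln12_13_2_ok) (L (nat_lit 401) ln13_13_2 ln13_13_2_ok))) (M (nat_lit 461) (B (L (nat_lit 460) ln16_13_1 ln16_13_1_ok) (L (nat_lit 433) ln17_13_1 ln17_13_1_ok))))) (M (nat_lit 399) (B (L (nat_lit 400) ln12_13_2 ln12_13_2_ok) (M (nat_lit 494) (B (L (nat_lit 526) ln14_16_7 ln14_16_7_ok) (M (nat_lit 367) (B (L (nat_lit 335) ln15_10_5 ln15_10_5_ok) (L (nat_lit 463) ln15_11_5 ln15_11_5_ok))))))))))) (B (M (nat_lit 427) (B (L (nat_lit 463) ln11_13_0 ln11_13_0_ok) (M (nat_lit 426) (B (M (nat_lit 394) (B (L (nat_lit 393) ln13_13_3 ln13_13_3_ok) (L (nat_lit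 395) ln14_13_3 ln14_13_3_ok))) (B (M (nat_lit 396) (B (L (nat_lit 425) ln9_13_2 ln9_13_2_ok) (M (nat_lit 395) (B (L (nat_lit 394) ln10_12_0 ln10_12_0_ok) (L (nat_lit 431) ln15_13_3 ln15_13_3_ok))))) (B (M (nat_lit 396) (B (L (nat_lit 425) ln9_13_2 ln9_13_2_ok) (M (nat_lit 431) (B (L (nat_lit 395) ln15_13_3 ln15_13_3_ok) (L (nat_lit 432) ln16_13_3 ln16_13_3_ok))))) (M (nat_lit 425) (B (L (nat_lit 396) ln9_13_2 ln9_13_2_ok) (M (nat_lit 393) (B (L (nat_lit 392) ln12_13_3 ln12_13_3_ok) (L (nat_lit 394) ln13_13_3 ln13_13_3_ok))))))))))) (M (nat_lit 427) (B (M (nat_lit 426) (B (L (nat_lit 461) ln10_13_0 ln10_13_0_ok) (M (nat_lit 394) (B (L (nat_lit 393) ln13_13_3 ln13_13_3_ok) (L (nat_lit 395) ln14_13_3 ln14_13_3_ok))))) (B (M (nat_lit 396) (B (M (nat_lit 395) (B (L (nat_lit 394) ln10_12_0 ln10_12_0_ok) (L (nat_lit 431) ln15_13_3 ln15_13_3_ok))) (M (nat_lit 426) (B (L (nat_lit 425) ln9_13_2 ln9_13_2_ok) (L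 (nat_lit 461) ln10_13_0 ln10_13_0_ok))))) (B (M (nat_lit 396) (B (M (nat_lit 426) (B (L (nat_lit 425) ln9_13_2 ln9_13_2_ok) (L (nat_lit 461) ln10_13_0 ln10_13_0_ok))) (M (nat_lit 431) (B (L (nat_lit 395) ln15_13_3 ln15_13_3_ok) (L (nat_lit 432) ln16_13_3 ln16_13_3_ok))))) (B (M (nat_lit 426) (B (L (nat_lit 461) ln10_13_0 ln10_13_0_ok) (M (nat_lit 425) (B (L (nat_lit 396) ln9_13_2 ln9_13_2_ok) (M (nat_lit 393) (B (L (nat_lit 392) ln12_13_3 ln12_13_3_ok) (L (nat_lit 394) ln13_13_3 ln13_13_3_ok))))))) (B (M (nat_lit 431) (B (M (nat_lit 395) (B (L (nat_lit 394) ln14_13_3 ln14_13_3_ok) (L (nat_lit 396) ln15_13_3 ln15_13_3_ok))) (B (M (nat_lit 396) (B (L (nat_lit 395) ln15_13_3 ln15_13_3_ok) (L (nat_lit 432) ln16_13_3 ln16_13_3_ok))) (B (M (nat_lit 432) (B (L (nat_lit 396) ln16_13_3 ln16_13_3_ok) (M (nat_lit 400) (B (L (nat_lit 399) ln12_13_2 ln12_13_2_ok) (L (nat_lit 401) ln13_13_2 ln13_13_2_ok))))) (M (nat_lit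 432) (B (M (nat_lit 400) (B (L (nat_lit 399) ln12_13_2 ln12_13_2_ok) (L (nat_lit 401) ln13_13_2 ln13_13_2_ok))) (M (nat_lit 461) (B (L (nat_lit 460) ln16_13_1 ln16_13_1_ok) (L (nat_lit 433) ln17_13_1 ln17_13_1_ok))))))))) (M (nat_lit 426) (B (M (nat_lit 394) (B (L (nat_lit 393) ln13_13_3 ln13_13_3_ok) (L (nat_lit 395) ln14_13_3 ln14_13_3_ok))) (B (M (nat_lit 396) (B (L (nat_lit 425) ln9_13_2 ln9_13_2_ok) (M (nat_lit 395) (B (L (nat_lit 394) ln10_12_0 ln10_12_0_ok) (L (nat_lit 431) ln15_13_3 ln15_13_3_ok))))) (B (M (nat_lit 396) (B (L (nat_lit 425) ln9_13_2 ln9_13_2_ok) (M (nat_lit 431) (B (L (nat_lit 395) ln15_13_3 ln15_13_3_ok) (L (nat_lit 432) ln16_13_3 ln16_13_3_ok))))) (M (nat_lit 425) (B (L (nat_lit 396) ln9_13_2 ln9_13_2_ok) (M (nat_lit 393) (B (L (nat_lit 392) ln12_13_3 ln12_13_3_ok) (L (nat_lit 394) ln13_13_3 ln13_13_3_ok))))))))))))))))))))))) (nat_lit 4852171965034207239023088395957386377514141366198892230651992205179419708227425793072060360010949930830451848111944147197298212864)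 (nat_lit 219673525175326239172455013549706656543534526294019760443007320879087661961701772299133230149384667850975628670822554910763244409288210090513156450067767361536) (nat_lit 219673525175326239172455013549706656543534526294019760443007320879087661961701772299133230149384667850975628670822554910763244409288210090513156450067767361536) (by decide +kernel)
theorem c31_s1388 : Sem (nat_lit 2079502270913392379444674211814302674077704290823075655481512624564798400421800170032085953906810352733060637150540575368324055040) (nat_lit 411887859703736698411883290543720369303243138244358996506896836580597481626589442758326263048044764703042737341076198480819749827841416859970621639595770511360) (nat_lit 411887859703736698411883290543720369303243138244358996506896836580597481626589442758326263048044764703042737341076198480819749827841416859970621639595770511360) :=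
  sem_of_chk (M (nat_lit 430) (B (M (nat_lit 431) (B (M (nat_lit 396) (B (L (nat_lit 395) ln15_13_3 ln15_13_3_ok) (L (nat_lit 432) ln16_13_3 ln16_13_3_ok))) (B (M (nat_lit 460) (B (L (nat_lit 459) ln15_13_1 ln15_13_1_ok) (M (nat_lit 432) (B (L (nat_lit 396) ln16_13_3 ln16_13_3_ok) (L (nat_lit 461) ln16_13_1 ln16_13_1_ok))))) (B (M (nat_lit 432) (B (M (nat_lit 400) (B (L (nat_lit 399) ln12_13_2 ln12_13_2_ok) (L (nat_lit 401) ln13_13_2 ln13_13_2_ok))) (M (nat_lit 460) (B (L (nat_lit 459) ln15_13_1 ln15_13_1_ok) (L (nat_lit 461) ln16_13_1 ln16_13_1_ok))))) (M (nat_lit 427) (B (M (nat_lit 395) (B (L (nat_lit 394) ln14_13_3 ln14_13_3_ok) (L (nat_lit 396) ln15_13_3 ln15_13_3_ok))) (M (nat_lit 459) (B (L (nat_lit 458) ln14_13_1 ln14_13_1_ok) (L (nat_lit 460) ln15_13_1 ln15_13_1_ok))))))))) (B (M (nat_lit 431) (B (M (nat_lit 396) (B (L (nat_lit 395) ln15_13_3 ln15_13_3_ok) (L (nat_lit 432) ln16_13_3 ln16_13_3_ok)))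 (B (M (nat_lit 460) (B (L (nat_lit 459) ln15_13_1 ln15_13_1_ok) (M (nat_lit 432) (B (L (nat_lit 396) ln16_13_3 ln16_13_3_ok) (L (nat_lit 461) ln16_13_1 ln16_13_1_ok))))) (B (M (nat_lit 432) (B (M (nat_lit 400) (B (L (nat_lit 399) ln12_13_2 ln12_13_2_ok) (L (nat_lit 401) ln13_13_2 ln13_13_2_ok))) (M (nat_lit 460) (B (L (nat_lit 459) ln15_13_1 ln15_13_1_ok) (L (nat_lit 461) ln16_13_1 ln16_13_1_ok))))) (M (nat_lit 427) (B (M (nat_lit 459) (B (L (nat_lit 458) ln14_13_1 ln14_13_1_ok) (L (nat_lit 460) ln15_13_1 ln15_13_1_ok))) (M (nat_lit 426) (B (M (nat_lit 396) (B (L (nat_lit 395) ln15_13_3 ln15_13_3_ok) (L (nat_lit 425) ln9_13_2 ln9_13_2_ok))) (M (nat_lit 462) (B (L (nat_lit 461) ln10_13_0 ln10_13_0_ok) (L (nat_lit 463) ln11_13_0 ln11_13_0_ok))))))))))) (B (M (nat_lit 427) (B (M (nat_lit 462) (B (L (nat_lit 463) ln11_13_0 ln11_13_0_ok) (M (nat_lit 426) (B (L (nat_lit 461) ln10_13_0 ln10_13_0_ok) (M (nat_lit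 458) (B (L (nat_lit 457) ln13_13_1 ln13_13_1_ok) (L (nat_lit 459) ln14_13_1 ln14_13_1_ok))))))) (B (M (nat_lit 431) (B (M (nat_lit 459) (B (L (nat_lit 458) ln14_13_1 ln14_13_1_ok) (L (nat_lit 460) ln15_13_1 ln15_13_1_ok))) (M (nat_lit 400) (B (L (nat_lit 399) ln12_13_2 ln12_13_2_ok) (M (nat_lit 432) (B (L (nat_lit 396) ln16_13_3 ln16_13_3_ok) (L (nat_lit 401) ln13_13_2 ln13_13_2_ok))))))) (M (nat_lit 426) (B (M (nat_lit 462) (B (L (nat_lit 461) ln10_13_0 ln10_13_0_ok) (L (nat_lit 463) ln11_13_0 ln11_13_0_ok))) (M (nat_lit 425) (B (L (nat_lit 396) ln9_13_2 ln9_13_2_ok) (M (nat_lit 393) (B (L (nat_lit 392) ln12_13_3 ln12_13_3_ok) (L (nat_lit 394) ln13_13_3 ln13_13_3_ok)))))))))) (B (M (nat_lit 427) (B (M (nat_lit 462) (B (L (nat_lit 463) ln11_13_0 ln11_13_0_ok) (M (nat_lit 426) (B (L (nat_lit 461) ln10_13_0 ln10_13_0_ok) (M (nat_lit 458) (B (L (nat_lit 457) ln13_13_1 ln13_13_1_ok) (L (nat_lit 459) ln14_13_1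 ln14_13_1_ok))))))) (B (M (nat_lit 395) (B (L (nat_lit 394) ln14_13_3 ln14_13_3_ok) (M (nat_lit 459) (B (L (nat_lit 458) ln14_13_1 ln14_13_1_ok) (M (nat_lit 460) (B (L (nat_lit 431) ln15_13_1 ln15_13_1_ok) (M (nat_lit 363) (B (L (nat_lit 331) ln11_10_4 ln11_10_4_ok) (L (nat_lit 492) ln11_11_4 ln11_11_4_ok))))))))) (M (nat_lit 426) (B (M (nat_lit 394) (B (L (nat_lit 393) ln13_13_3 ln13_13_3_ok) (L (nat_lit 395) ln14_13_3 ln14_13_3_ok))) (M (nat_lit 462) (B (L (nat_lit 461) ln10_13_0 ln10_13_0_ok) (L (nat_lit 463) ln11_13_0 ln11_13_0_ok)))))))) (B (M (nat_lit 396) (B (M (nat_lit 395) (B (L (nat_lit 394) ln10_12_0 ln10_12_0_ok) (L (nat_lit 431) ln15_13_3 ln15_13_3_ok))) (B (M (nat_lit 431) (B (L (nat_lit 395) ln15_13_3 ln15_13_3_ok) (L (nat_lit 432) ln16_13_3 ln16_13_3_ok))) (B (M (nat_lit 460) (B (M (nat_lit 431) (B (L (nat_lit 432) ln16_13_3 ln16_13_3_ok) (L (nat_lit 459) ln15_13_1 ln15_13_1_ok))) (B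 (M (nat_lit 364) (B (M (nat_lit 332) (B (L (nat_lit 300) ln12_9_4 ln12_9_4_ok) (L (nat_lit 461) ln12_10_4 ln12_10_4_ok))) (B (M (nat_lit 461) (B (L (nat_lit 332) ln12_10_4 ln12_10_4_ok) (L (nat_lit 493) ln13_15_7 ln13_15_7_ok))) (B (M (nat_lit 461) (B (L (nat_lit 493) ln13_15_7 ln13_15_7_ok) (M (nat_lit 459) (B (L (nat_lit 491) ln12_11_5 ln12_11_5_ok) (L (nat_lit 458) ln10_14_2 ln10_14_2_ok))))) (M (nat_lit 332) (B (L (nat_lit 300) ln12_9_4 ln12_9_4_ok) (M (nat_lit 331) (B (L (nat_lit 299) ln12_13_7 ln12_13_7_ok) (L (nat_lit 363) ln12_14_7 ln12_14_7_ok))))))))) (M (nat_lit 364) (B (M (nat_lit 332) (B (L (nat_lit 300) ln12_9_4 ln12_9_4_ok) (L (nat_lit 461) ln12_10_4 ln12_10_4_ok))) (B (M (nat_lit 461) (B (L (nat_lit 332) ln12_10_4 ln12_10_4_ok) (L (nat_lit 493) ln13_15_7 ln13_15_7_ok))) (B (M (nat_lit 493) (B (L (nat_lit 461) ln13_15_7 ln13_15_7_ok) (M (nat_lit 492) (B (L (nat_lit 525) ln12_12_4 ln12_12_4_ok)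 (L (nat_lit 524) ln12_16_6 ln12_16_6_ok))))) (M (nat_lit 332) (B (L (nat_lit 300) ln12_9_4 ln12_9_4_ok) (M (nat_lit 331) (B (L (nat_lit 299) ln12_13_7 ln12_13_7_ok) (L (nat_lit 363) ln12_14_7 ln12_14_7_ok)))))))))))) (M (nat_lit 460) (B (M (nat_lit 395) (B (L (nat_lit 394) ln10_12_0 ln10_12_0_ok) (M (nat_lit 492) (B (L (nat_lit 363) ln12_15_7 ln12_15_7_ok) (L (nat_lit 524) ln12_16_6 ln12_16_6_ok))))) (B (M (nat_lit 492) (B (L (nat_lit 524) ln12_16_6 ln12_16_6_ok) (M (nat_lit 364) (B (M (nat_lit 332) (B (L (nat_lit 300) ln12_9_4 ln12_9_4_ok) (L (nat_lit 461) ln12_10_4 ln12_10_4_ok))) (B (M (nat_lit 461) (B (L (nat_lit 332) ln12_10_4 ln12_10_4_ok) (L (nat_lit 493) ln13_15_7 ln13_15_7_ok))) (B (M (nat_lit 493) (B (L (nat_lit 461) ln13_15_7 ln13_15_7_ok) (L (nat_lit 525) ln12_12_4 ln12_12_4_ok))) (M (nat_lit 491) (B (L (nat_lit 459) ln12_11_5 ln12_11_5_ok) (L (nat_lit 523) ln12_12_5 ln12_12_5_ok)))))))))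 (M (nat_lit 364) (B (M (nat_lit 332) (B (L (nat_lit 300) ln12_9_4 ln12_9_4_ok) (L (nat_lit 461) ln12_10_4 ln12_10_4_ok))) (B (M (nat_lit 461) (B (L (nat_lit 332) ln12_10_4 ln12_10_4_ok) (L (nat_lit 493) ln13_15_7 ln13_15_7_ok))) (B (M (nat_lit 461) (B (L (nat_lit 493) ln13_15_7 ln13_15_7_ok) (M (nat_lit 459) (B (L (nat_lit 491) ln12_11_5 ln12_11_5_ok) (L (nat_lit 458) ln10_14_2 ln10_14_2_ok))))) (M (nat_lit 332) (B (L (nat_lit 300) ln12_9_4 ln12_9_4_ok) (M (nat_lit 331) (B (L (nat_lit 299) ln12_13_7 ln12_13_7_ok) (L (nat_lit 363) ln12_14_7 ln12_14_7_ok)))))))))))))))) (B (M (nat_lit 427) (B (M (nat_lit 426) (B (M (nat_lit 394) (B (L (nat_lit 393) ln13_13_3 ln13_13_3_ok) (L (nat_lit 395) ln14_13_3 ln14_13_3_ok))) (M (nat_lit 462) (B (L (nat_lit 461) ln10_13_0 ln10_13_0_ok) (L (nat_lit 463) ln11_13_0 ln11_13_0_ok))))) (B (M (nat_lit 462) (B (L (nat_lit 463) ln11_13_0 ln11_13_0_ok) (M (nat_lit 426) (B (L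 (nat_lit 461) ln10_13_0 ln10_13_0_ok) (M (nat_lit 458) (B (L (nat_lit 457) ln13_13_1 ln13_13_1_ok) (L (nat_lit 459) ln14_13_1 ln14_13_1_ok))))))) (M (nat_lit 395) (B (L (nat_lit 394) ln14_13_3 ln14_13_3_ok) (M (nat_lit 459) (B (L (nat_lit 458) ln14_13_1 ln14_13_1_ok) (M (nat_lit 363) (B (M (nat_lit 460) (B (L (nat_lit 331) ln11_10_4 ln11_10_4_ok) (L (nat_lit 492) ln11_11_4 ln11_11_4_ok))) (B (M (nat_lit 491) (B (M (nat_lit 364) (B (L (nat_lit 332) ln11_14_6 ln11_14_6_ok) (L (nat_lit 396) ln11_15_6 ln11_15_6_ok))) (M (nat_lit 492) (B (L (nat_lit 460) ln11_11_4 ln11_11_4_ok) (L (nat_lit 524) ln11_12_4 ln11_12_4_ok))))) (M (nat_lit 331) (B (M (nat_lit 330) (B (L (nat_lit 298) ln11_13_7 ln11_13_7_ok) (L (nat_lit 362) ln11_14_7 ln11_14_7_ok))) (M (nat_lit 332) (B (L (nat_lit 300) ln11_13_6 ln11_13_6_ok) (L (nat_lit 364) ln11_14_6 ln11_14_6_ok))))))))))))))) (B (M (nat_lit 427) (B (M (nat_lit 426) (B (M (nat_lit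 394) (B (L (nat_lit 393) ln13_13_3 ln13_13_3_ok) (L (nat_lit 395) ln14_13_3 ln14_13_3_ok))) (M (nat_lit 462) (B (L (nat_lit 461) ln10_13_0 ln10_13_0_ok) (L (nat_lit 463) ln11_13_0 ln11_13_0_ok))))) (B (M (nat_lit 396) (B (M (nat_lit 395) (B (L (nat_lit 394) ln10_12_0 ln10_12_0_ok) (L (nat_lit 431) ln15_13_3 ln15_13_3_ok))) (M (nat_lit 462) (B (L (nat_lit 463) ln11_13_0 ln11_13_0_ok) (M (nat_lit 426) (B (L (nat_lit 425) ln9_13_2 ln9_13_2_ok) (L (nat_lit 461) ln10_13_0 ln10_13_0_ok))))))) (B (M (nat_lit 396) (B (M (nat_lit 431) (B (L (nat_lit 395) ln15_13_3 ln15_13_3_ok) (L (nat_lit 432) ln16_13_3 ln16_13_3_ok))) (M (nat_lit 462) (B (L (nat_lit 463) ln11_13_0 ln11_13_0_ok) (M (nat_lit 426) (B (L (nat_lit 425) ln9_13_2 ln9_13_2_ok) (L (nat_lit 461) ln10_13_0 ln10_13_0_ok))))))) (B (M (nat_lit 426) (B (M (nat_lit 462) (B (L (nat_lit 461) ln10_13_0 ln10_13_0_ok) (L (nat_lit 463) ln11_13_0 ln11_13_0_ok)))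 (M (nat_lit 425) (B (L (nat_lit 396) ln9_13_2 ln9_13_2_ok) (M (nat_lit 393) (B (L (nat_lit 392) ln12_13_3 ln12_13_3_ok) (L (nat_lit 394) ln13_13_3 ln13_13_3_ok))))))) (B (M (nat_lit 431) (B (M (nat_lit 395) (B (L (nat_lit 394) ln14_13_3 ln14_13_3_ok) (L (nat_lit 396) ln15_13_3 ln15_13_3_ok))) (B (M (nat_lit 396) (B (L (nat_lit 395) ln15_13_3 ln15_13_3_ok) (L (nat_lit 432) ln16_13_3 ln16_13_3_ok))) (B (M (nat_lit 460) (B (L (nat_lit 459) ln15_13_1 ln15_13_1_ok) (M (nat_lit 432) (B (L (nat_lit 396) ln16_13_3 ln16_13_3_ok) (L (nat_lit 461) ln16_13_1 ln16_13_1_ok))))) (M (nat_lit 432) (B (M (nat_lit 400) (B (L (nat_lit 399) ln12_13_2 ln12_13_2_ok) (L (nat_lit 401) ln13_13_2 ln13_13_2_ok))) (M (nat_lit 460) (B (L (nat_lit 459) ln15_13_1 ln15_13_1_ok) (L (nat_lit 461) ln16_13_1 ln16_13_1_ok))))))))) (M (nat_lit 426) (B (M (nat_lit 394) (B (L (nat_lit 393) ln13_13_3 ln13_13_3_ok) (L (nat_lit 395) ln14_13_3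 ln14_13_3_ok))) (B (M (nat_lit 396) (B (L (nat_lit 425) ln9_13_2 ln9_13_2_ok) (M (nat_lit 395) (B (L (nat_lit 394) ln10_12_0 ln10_12_0_ok) (L (nat_lit 431) ln15_13_3 ln15_13_3_ok))))) (B (M (nat_lit 396) (B (L (nat_lit 425) ln9_13_2 ln9_13_2_ok) (M (nat_lit 431) (B (L (nat_lit 395) ln15_13_3 ln15_13_3_ok) (L (nat_lit 432) ln16_13_3 ln16_13_3_ok))))) (M (nat_lit 425) (B (L (nat_lit 396) ln9_13_2 ln9_13_2_ok) (M (nat_lit 393) (B (L (nat_lit 392) ln12_13_3 ln12_13_3_ok) (L (nat_lit 394) ln13_13_3 ln13_13_3_ok))))))))))))))) (B (K (nat_lit 4852171965034207239023088395957386377514141366198892230651992205179419708227425793072060360010949930830451848111944147197298212864) (nat_lit 219673525175326239172455013549706656543534526294019760443007320879087661961701772299133230149384667850975628670822554910763244409288210090513156450067767361536) (nat_lit 219673525175326239172455013549706656543534526294019760443007320879087661961701772299133230149384667850975628670822554910763244409288210090513156450067767361536)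 c31_s1373) (B (M (nat_lit 427) (B (M (nat_lit 462) (B (L (nat_lit 463) ln11_13_0 ln11_13_0_ok) (M (nat_lit 426) (B (L (nat_lit 461) ln10_13_0 ln10_13_0_ok) (M (nat_lit 458) (B (L (nat_lit 457) ln13_13_1 ln13_13_1_ok) (L (nat_lit 459) ln14_13_1 ln14_13_1_ok))))))) (B (M (nat_lit 395) (B (L (nat_lit 394) ln14_13_3 ln14_13_3_ok) (M (nat_lit 396) (B (L (nat_lit 431) ln15_13_3 ln15_13_3_ok) (M (nat_lit 459) (B (L (nat_lit 458) ln14_13_1 ln14_13_1_ok) (M (nat_lit 364) (B (L (nat_lit 332) ln12_10_5 ln12_10_5_ok) (L (nat_lit 491) ln11_15_6 ln11_15_6_ok))))))))) (M (nat_lit 426) (B (M (nat_lit 394) (B (L (nat_lit 393) ln13_13_3 ln13_13_3_ok) (L (nat_lit 395) ln14_13_3 ln14_13_3_ok))) (M (nat_lit 462) (B (L (nat_lit 461) ln10_13_0 ln10_13_0_ok) (L (nat_lit 463) ln11_13_0 ln11_13_0_ok)))))))) (M (nat_lit 427) (B (M (nat_lit 395) (B (L (nat_lit 394) ln14_13_3 ln14_13_3_ok) (M (nat_lit 431) (B (L (nat_lit 396) ln15_13_3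 ln15_13_3_ok) (M (nat_lit 459) (B (L (nat_lit 458) ln14_13_1 ln14_13_1_ok) (L (nat_lit 460) ln15_13_1 ln15_13_1_ok))))))) (B (M (nat_lit 431) (B (M (nat_lit 396) (B (L (nat_lit 395) ln15_13_3 ln15_13_3_ok) (L (nat_lit 432) ln16_13_3 ln16_13_3_ok))) (M (nat_lit 459) (B (L (nat_lit 458) ln14_13_1 ln14_13_1_ok) (L (nat_lit 460) ln15_13_1 ln15_13_1_ok))))) (B (M (nat_lit 431) (B (M (nat_lit 459) (B (L (nat_lit 458) ln14_13_1 ln14_13_1_ok) (L (nat_lit 460) ln15_13_1 ln15_13_1_ok))) (M (nat_lit 400) (B (L (nat_lit 399) ln12_13_2 ln12_13_2_ok) (M (nat_lit 432) (B (L (nat_lit 396) ln16_13_3 ln16_13_3_ok) (L (nat_lit 401) ln13_13_2 ln13_13_2_ok))))))) (B (M (nat_lit 426) (B (M (nat_lit 394) (B (L (nat_lit 393) ln13_13_3 ln13_13_3_ok) (L (nat_lit 395) ln14_13_3 ln14_13_3_ok))) (M (nat_lit 458) (B (L (nat_lit 457) ln13_13_1 ln13_13_1_ok) (L (nat_lit 459) ln14_13_1 ln14_13_1_ok))))) (M (nat_lit 426) (B (M (nat_lit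 394) (B (L (nat_lit 393) ln13_13_3 ln13_13_3_ok) (L (nat_lit 395) ln14_13_3 ln14_13_3_ok))) (B (M (nat_lit 396) (B (L (nat_lit 425) ln9_13_2 ln9_13_2_ok) (M (nat_lit 395) (B (L (nat_lit 394) ln10_12_0 ln10_12_0_ok) (L (nat_lit 431) ln15_13_3 ln15_13_3_ok))))) (B (M (nat_lit 396) (B (L (nat_lit 425) ln9_13_2 ln9_13_2_ok) (M (nat_lit 431) (B (L (nat_lit 395) ln15_13_3 ln15_13_3_ok) (L (nat_lit 432) ln16_13_3 ln16_13_3_ok))))) (M (nat_lit 425) (B (L (nat_lit 396) ln9_13_2 ln9_13_2_ok) (M (nat_lit 393) (B (L (nat_lit 392) ln12_13_3 ln12_13_3_ok) (L (nat_lit 394) ln13_13_3 ln13_13_3_ok)))))))))))))))))))))))) (nat_lit 2079502270913392379444674211814302674077704290823075655481512624564798400421800170032085953906810352733060637150540575368324055040) (nat_lit 411887859703736698411883290543720369303243138244358996506896836580597481626589442758326263048044764703042737341076198480819749827841416859970621639595770511360)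 (nat_lit 411887859703736698411883290543720369303243138244358996506896836580597481626589442758326263048044764703042737341076198480819749827841416859970621639595770511360) (by decide +kernel)
theorem c31_s1620 : Sem (nat_lit 2079502270913392379444674211814302674077704290823075655481512624564798400421800170032085953906810352733060637150540575368324055040) (nat_lit 192214334528410459260268196914259893186800811455222099113446753063307071776576850675279407221687840395272813583152470169915449524273361628986197148923336851456) (nat_lit 192214334528410459260268196914259893186800811455222099113446753063307071776576850675279407221687840395272813583152470169915449524273361628986197148923336851456) :=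
  sem_of_chk (M (nat_lit 396) (B (M (nat_lit 427) (B (M (nat_lit 426) (B (L (nat_lit 425) ln9_13_2 ln9_13_2_ok) (L (nat_lit 398) ln10_13_2 ln10_13_2_ok))) (M (nat_lit 459) (B (M (nat_lit 364) (B (L (nat_lit 332) ln12_10_5 ln12_10_5_ok) (M (nat_lit 491) (B (L (nat_lit 460) ln12_11_5 ln12_11_5_ok) (L (nat_lit 523) ln11_16_6 ln11_16_6_ok))))) (M (nat_lit 430) (B (L (nat_lit 458) ln14_13_1 ln14_13_1_ok) (M (nat_lit 395) (B (L (nat_lit 394) ln10_12_0 ln10_12_0_ok) (L (nat_lit 431) ln15_13_3 ln15_13_3_ok))))))))) (B (M (nat_lit 460) (B (M (nat_lit 492) (B (L (nat_lit 524) ln12_16_6 ln12_16_6_ok) (M (nat_lit 395) (B (L (nat_lit 363) ln12_15_7 ln12_15_7_ok) (M (nat_lit 394) (B (L (nat_lit 393) ln9_12_0 ln9_12_0_ok) (L (nat_lit 430) ln10_12_0 ln10_12_0_ok))))))) (B (M (nat_lit 492) (B (L (nat_lit 524) ln12_16_6 ln12_16_6_ok) (M (nat_lit 364) (B (M (nat_lit 493) (B (L (nat_lit 461) ln13_15_7 ln13_15_7_ok) (L (nat_lit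 525) ln12_12_4 ln12_12_4_ok))) (M (nat_lit 491) (B (L (nat_lit 459) ln12_11_5 ln12_11_5_ok) (L (nat_lit 523) ln12_12_5 ln12_12_5_ok))))))) (M (nat_lit 427) (B (M (nat_lit 426) (B (L (nat_lit 425) ln9_13_2 ln9_13_2_ok) (L (nat_lit 398) ln10_13_2 ln10_13_2_ok))) (M (nat_lit 459) (B (M (nat_lit 491) (B (L (nat_lit 364) ln12_11_5 ln12_11_5_ok) (L (nat_lit 523) ln11_16_6 ln11_16_6_ok))) (M (nat_lit 430) (B (L (nat_lit 458) ln14_13_1 ln14_13_1_ok) (L (nat_lit 431) ln15_13_1 ln15_13_1_ok)))))))))) (B (M (nat_lit 427) (B (M (nat_lit 426) (B (L (nat_lit 425) ln9_13_2 ln9_13_2_ok) (L (nat_lit 398) ln10_13_2 ln10_13_2_ok))) (B (M (nat_lit 426) (B (L (nat_lit 425) ln9_13_2 ln9_13_2_ok) (M (nat_lit 430) (B (M (nat_lit 394) (B (L (nat_lit 393) ln13_13_3 ln13_13_3_ok) (L (nat_lit 395) ln10_12_0 ln10_12_0_ok))) (M (nat_lit 458) (B (L (nat_lit 457) ln13_13_1 ln13_13_1_ok) (L (nat_lit 459) ln14_13_1 ln14_13_1_ok)))))))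 (B (M (nat_lit 426) (B (L (nat_lit 398) ln10_13_2 ln10_13_2_ok) (M (nat_lit 430) (B (M (nat_lit 394) (B (L (nat_lit 393) ln13_13_3 ln13_13_3_ok) (L (nat_lit 395) ln10_12_0 ln10_12_0_ok))) (M (nat_lit 458) (B (L (nat_lit 457) ln13_13_1 ln13_13_1_ok) (L (nat_lit 459) ln14_13_1 ln14_13_1_ok))))))) (M (nat_lit 395) (B (M (nat_lit 394) (B (L (nat_lit 393) ln9_12_0 ln9_12_0_ok) (L (nat_lit 430) ln10_12_0 ln10_12_0_ok))) (B (M (nat_lit 430) (B (L (nat_lit 394) ln10_12_0 ln10_12_0_ok) (L (nat_lit 431) ln15_13_3 ln15_13_3_ok))) (B (M (nat_lit 459) (B (M (nat_lit 430) (B (L (nat_lit 431) ln15_13_3 ln15_13_3_ok) (L (nat_lit 458) ln14_13_1 ln14_13_1_ok))) (M (nat_lit 363) (B (M (nat_lit 331) (B (L (nat_lit 299) ln11_9_4 ln11_9_4_ok) (L (nat_lit 460) ln11_10_4 ln11_10_4_ok))) (M (nat_lit 362) (B (L (nat_lit 330) ln11_14_7 ln11_14_7_ok) (L (nat_lit 398) ln14_12_3 ln14_12_3_ok))))))) (M (nat_lit 394) (B (L (nat_lit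 393) ln9_12_0 ln9_12_0_ok) (M (nat_lit 363) (B (M (nat_lit 331) (B (L (nat_lit 299) ln11_9_4 ln11_9_4_ok) (L (nat_lit 460) ln11_10_4 ln11_10_4_ok))) (M (nat_lit 362) (B (L (nat_lit 361) ln13_12_3 ln13_12_3_ok) (L (nat_lit 398) ln14_12_3 ln14_12_3_ok))))))))))))))) (B (M (nat_lit 427) (B (M (nat_lit 426) (B (L (nat_lit 425) ln9_13_2 ln9_13_2_ok) (L (nat_lit 398) ln10_13_2 ln10_13_2_ok))) (M (nat_lit 459) (B (M (nat_lit 430) (B (L (nat_lit 458) ln14_13_1 ln14_13_1_ok) (M (nat_lit 431) (B (L (nat_lit 395) ln15_13_3 ln15_13_3_ok) (L (nat_lit 432) ln16_13_3 ln16_13_3_ok))))) (B (M (nat_lit 430) (B (L (nat_lit 458) ln14_13_1 ln14_13_1_ok) (M (nat_lit 431) (B (L (nat_lit 432) ln16_13_3 ln16_13_3_ok) (L (nat_lit 460) ln15_13_1 ln15_13_1_ok))))) (M (nat_lit 364) (B (L (nat_lit 332) ln12_10_5 ln12_10_5_ok) (M (nat_lit 491) (B (L (nat_lit 395) ln11_15_6 ln11_15_6_ok) (L (nat_lit 523) ln11_16_6 ln11_16_6_ok))))))))))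 (B (M (nat_lit 427) (B (M (nat_lit 426) (B (L (nat_lit 425) ln9_13_2 ln9_13_2_ok) (L (nat_lit 398) ln10_13_2 ln10_13_2_ok))) (M (nat_lit 364) (B (M (nat_lit 332) (B (L (nat_lit 300) ln12_9_4 ln12_9_4_ok) (L (nat_lit 459) ln12_10_5 ln12_10_5_ok))) (B (M (nat_lit 332) (B (L (nat_lit 459) ln12_10_5 ln12_10_5_ok) (L (nat_lit 461) ln12_10_4 ln12_10_4_ok))) (B (M (nat_lit 460) (B (M (nat_lit 493) (B (L (nat_lit 461) ln13_15_7 ln13_15_7_ok) (M (nat_lit 492) (B (L (nat_lit 525) ln12_12_4 ln12_12_4_ok) (L (nat_lit 524) ln12_16_6 ln12_16_6_ok))))) (M (nat_lit 459) (B (L (nat_lit 491) ln12_11_5 ln12_11_5_ok) (M (nat_lit 458) (B (L (nat_lit 430) ln14_13_1 ln14_13_1_ok) (L (nat_lit 457) ln9_14_2 ln9_14_2_ok))))))) (M (nat_lit 461) (B (L (nat_lit 332) ln12_10_4 ln12_10_4_ok) (L (nat_lit 493) ln13_15_7 ln13_15_7_ok))))))))) (B (M (nat_lit 427) (B (M (nat_lit 426) (B (L (nat_lit 425) ln9_13_2 ln9_13_2_ok) (M (nat_lit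 461) (B (L (nat_lit 462) ln10_13_0 ln10_13_0_ok) (M (nat_lit 364) (B (L (nat_lit 332) ln12_10_4 ln12_10_4_ok) (L (nat_lit 493) ln13_15_7 ln13_15_7_ok))))))) (B (M (nat_lit 426) (B (L (nat_lit 425) ln9_13_2 ln9_13_2_ok) (M (nat_lit 430) (B (M (nat_lit 394) (B (L (nat_lit 393) ln13_13_3 ln13_13_3_ok) (L (nat_lit 395) ln10_12_0 ln10_12_0_ok))) (M (nat_lit 458) (B (L (nat_lit 457) ln13_13_1 ln13_13_1_ok) (L (nat_lit 459) ln14_13_1 ln14_13_1_ok))))))) (B (M (nat_lit 426) (B (M (nat_lit 461) (B (L (nat_lit 462) ln10_13_0 ln10_13_0_ok) (M (nat_lit 364) (B (L (nat_lit 332) ln12_10_4 ln12_10_4_ok) (L (nat_lit 493) ln13_15_7 ln13_15_7_ok))))) (M (nat_lit 430) (B (M (nat_lit 394) (B (L (nat_lit 393) ln13_13_3 ln13_13_3_ok) (L (nat_lit 395) ln10_12_0 ln10_12_0_ok))) (M (nat_lit 458) (B (L (nat_lit 457) ln13_13_1 ln13_13_1_ok) (L (nat_lit 459) ln14_13_1 ln14_13_1_ok))))))) (M (nat_lit 459) (B (M (nat_lit 430) (B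 (L (nat_lit 458) ln14_13_1 ln14_13_1_ok) (M (nat_lit 395) (B (L (nat_lit 394) ln10_12_0 ln10_12_0_ok) (L (nat_lit 431) ln15_13_3 ln15_13_3_ok))))) (B (M (nat_lit 430) (B (L (nat_lit 458) ln14_13_1 ln14_13_1_ok) (M (nat_lit 431) (B (L (nat_lit 395) ln15_13_3 ln15_13_3_ok) (L (nat_lit 460) ln15_13_1 ln15_13_1_ok))))) (M (nat_lit 364) (B (L (nat_lit 332) ln12_10_5 ln12_10_5_ok) (M (nat_lit 491) (B (L (nat_lit 460) ln12_11_5 ln12_11_5_ok) (L (nat_lit 523) ln11_16_6 ln11_16_6_ok)))))))))))) (B (M (nat_lit 427) (B (M (nat_lit 426) (B (L (nat_lit 398) ln10_13_2 ln10_13_2_ok) (M (nat_lit 461) (B (L (nat_lit 462) ln10_13_0 ln10_13_0_ok) (M (nat_lit 364) (B (L (nat_lit 332) ln12_10_4 ln12_10_4_ok) (L (nat_lit 493) ln13_15_7 ln13_15_7_ok))))))) (B (M (nat_lit 426) (B (L (nat_lit 398) ln10_13_2 ln10_13_2_ok) (M (nat_lit 430) (B (M (nat_lit 394) (B (L (nat_lit 393) ln13_13_3 ln13_13_3_ok) (L (nat_lit 395) ln10_12_0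 ln10_12_0_ok))) (M (nat_lit 458) (B (L (nat_lit 457) ln13_13_1 ln13_13_1_ok) (L (nat_lit 459) ln14_13_1 ln14_13_1_ok))))))) (M (nat_lit 459) (B (M (nat_lit 430) (B (L (nat_lit 458) ln14_13_1 ln14_13_1_ok) (M (nat_lit 395) (B (L (nat_lit 394) ln10_12_0 ln10_12_0_ok) (L (nat_lit 431) ln15_13_3 ln15_13_3_ok))))) (B (M (nat_lit 430) (B (L (nat_lit 458) ln14_13_1 ln14_13_1_ok) (M (nat_lit 431) (B (L (nat_lit 395) ln15_13_3 ln15_13_3_ok) (L (nat_lit 460) ln15_13_1 ln15_13_1_ok))))) (M (nat_lit 364) (B (L (nat_lit 332) ln12_10_5 ln12_10_5_ok) (M (nat_lit 491) (B (L (nat_lit 460) ln12_11_5 ln12_11_5_ok) (L (nat_lit 523) ln11_16_6 ln11_16_6_ok))))))))))) (B (M (nat_lit 460) (B (M (nat_lit 492) (B (L (nat_lit 524) ln12_16_6 ln12_16_6_ok) (M (nat_lit 395) (B (L (nat_lit 363) ln12_15_7 ln12_15_7_ok) (M (nat_lit 394) (B (L (nat_lit 393) ln9_12_0 ln9_12_0_ok) (L (nat_lit 430) ln10_12_0 ln10_12_0_ok))))))) (B (M (nat_lit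 492) (B (L (nat_lit 524) ln12_16_6 ln12_16_6_ok) (M (nat_lit 364) (B (M (nat_lit 493) (B (L (nat_lit 461) ln13_15_7 ln13_15_7_ok) (L (nat_lit 525) ln12_12_4 ln12_12_4_ok))) (M (nat_lit 491) (B (L (nat_lit 459) ln12_11_5 ln12_11_5_ok) (L (nat_lit 523) ln12_12_5 ln12_12_5_ok))))))) (M (nat_lit 459) (B (M (nat_lit 430) (B (L (nat_lit 431) ln15_13_1 ln15_13_1_ok) (M (nat_lit 458) (B (L (nat_lit 457) ln9_14_2 ln9_14_2_ok) (L (nat_lit 461) ln10_14_2 ln10_14_2_ok))))) (B (M (nat_lit 364) (B (L (nat_lit 491) ln12_11_5 ln12_11_5_ok) (M (nat_lit 332) (B (L (nat_lit 300) ln12_9_4 ln12_9_4_ok) (L (nat_lit 461) ln12_10_4 ln12_10_4_ok))))) (M (nat_lit 430) (B (L (nat_lit 431) ln15_13_1 ln15_13_1_ok) (M (nat_lit 458) (B (L (nat_lit 427) ln14_13_1 ln14_13_1_ok) (L (nat_lit 457) ln9_14_2 ln9_14_2_ok))))))))))) (B (M (nat_lit 364) (B (M (nat_lit 332) (B (L (nat_lit 300) ln12_9_4 ln12_9_4_ok) (L (nat_lit 461) ln12_10_4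 ln12_10_4_ok))) (B (M (nat_lit 461) (B (L (nat_lit 332) ln12_10_4 ln12_10_4_ok) (L (nat_lit 493) ln13_15_7 ln13_15_7_ok))) (M (nat_lit 395) (B (M (nat_lit 394) (B (L (nat_lit 393) ln9_12_0 ln9_12_0_ok) (L (nat_lit 430) ln10_12_0 ln10_12_0_ok))) (B (M (nat_lit 430) (B (L (nat_lit 394) ln10_12_0 ln10_12_0_ok) (L (nat_lit 431) ln15_13_3 ln15_13_3_ok))) (M (nat_lit 363) (B (M (nat_lit 331) (B (L (nat_lit 299) ln11_9_4 ln11_9_4_ok) (L (nat_lit 460) ln12_14_7 ln12_14_7_ok))) (M (nat_lit 362) (B (L (nat_lit 361) ln9_11_0 ln9_11_0_ok) (L (nat_lit 398) ln14_12_3 ln14_12_3_ok))))))))))) (B (M (nat_lit 364) (B (M (nat_lit 332) (B (L (nat_lit 300) ln12_9_4 ln12_9_4_ok) (L (nat_lit 461) ln12_10_4 ln12_10_4_ok))) (B (M (nat_lit 461) (B (L (nat_lit 332) ln12_10_4 ln12_10_4_ok) (L (nat_lit 493) ln13_15_7 ln13_15_7_ok))) (B (M (nat_lit 426) (B (M (nat_lit 427) (B (L (nat_lit 425) ln9_13_2 ln9_13_2_ok) (L (nat_lit 398)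 ln10_13_2 ln10_13_2_ok))) (B (M (nat_lit 461) (B (L (nat_lit 493) ln13_15_7 ln13_15_7_ok) (M (nat_lit 427) (B (L (nat_lit 425) ln9_13_2 ln9_13_2_ok) (L (nat_lit 462) ln10_13_0 ln10_13_0_ok))))) (B (M (nat_lit 461) (B (L (nat_lit 493) ln13_15_7 ln13_15_7_ok) (M (nat_lit 427) (B (L (nat_lit 398) ln10_13_2 ln10_13_2_ok) (L (nat_lit 462) ln10_13_0 ln10_13_0_ok))))) (M (nat_lit 395) (B (M (nat_lit 394) (B (L (nat_lit 393) ln9_12_0 ln9_12_0_ok) (L (nat_lit 425) ln13_12_1 ln13_12_1_ok))) (M (nat_lit 363) (B (M (nat_lit 331) (B (L (nat_lit 299) ln11_9_4 ln11_9_4_ok) (L (nat_lit 460) ln12_14_7 ln12_14_7_ok))) (M (nat_lit 362) (B (L (nat_lit 361) ln9_11_0 ln9_11_0_ok) (L (nat_lit 398) ln14_12_3 ln14_12_3_ok))))))))))) (M (nat_lit 427) (B (M (nat_lit 332) (B (L (nat_lit 300) ln12_9_4 ln12_9_4_ok) (L (nat_lit 459) ln12_10_5 ln12_10_5_ok))) (M (nat_lit 426) (B (L (nat_lit 425) ln9_13_2 ln9_13_2_ok) (L (nat_lit 398)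 ln10_13_2 ln10_13_2_ok))))))))) (M (nat_lit 395) (B (M (nat_lit 394) (B (L (nat_lit 393) ln9_12_0 ln9_12_0_ok) (L (nat_lit 430) ln10_12_0 ln10_12_0_ok))) (B (M (nat_lit 430) (B (L (nat_lit 394) ln10_12_0 ln10_12_0_ok) (L (nat_lit 431) ln15_13_3 ln15_13_3_ok))) (B (M (nat_lit 427) (B (M (nat_lit 426) (B (L (nat_lit 398) ln14_12_1 ln14_12_1_ok) (L (nat_lit 425) ln9_13_2 ln9_13_2_ok))) (M (nat_lit 459) (B (M (nat_lit 364) (B (L (nat_lit 332) ln12_10_5 ln12_10_5_ok) (L (nat_lit 491) ln11_15_6 ln11_15_6_ok))) (M (nat_lit 430) (B (L (nat_lit 431) ln15_13_3 ln15_13_3_ok) (L (nat_lit 458) ln14_13_1 ln14_13_1_ok))))))) (M (nat_lit 394) (B (L (nat_lit 393) ln9_12_0 ln9_12_0_ok) (M (nat_lit 398) (B (M (nat_lit 362) (B (L (nat_lit 361) ln13_12_3 ln13_12_3_ok) (L (nat_lit 363) ln14_12_3 ln14_12_3_ok))) (M (nat_lit 426) (B (L (nat_lit 425) ln13_12_1 ln13_12_1_ok) (L (nat_lit 427) ln14_12_1 ln14_12_1_ok))))))))))))))))))))))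 (nat_lit 2079502270913392379444674211814302674077704290823075655481512624564798400421800170032085953906810352733060637150540575368324055040) (nat_lit 192214334528410459260268196914259893186800811455222099113446753063307071776576850675279407221687840395272813583152470169915449524273361628986197148923336851456) (nat_lit 192214334528410459260268196914259893186800811455222099113446753063307071776576850675279407221687840395272813583152470169915449524273361628986197148923336851456) (by decide +kernel)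
theorem c31_s1719 : Sem (nat_lit 2079502270913392379444674211814302674077704290823075655481512624564798400421800170032085953906810352733060637150540575368324055040) (nat_lit 192214334528410459248359671255140732112070064784108285579885855542716804579689268497726906777731640049761123556231659968227775888357810185778578050871443062784) (nat_lit 192214334528410459248359671255140732112070064784108285579885855542716804579689268497726906777731640049761123556231659968227775888357810185778578050871443062784) :=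
  sem_of_chk (M (nat_lit 396) (B (M (nat_lit 430) (B (M (nat_lit 395) (B (L (nat_lit 394) ln10_12_0 ln10_12_0_ok) (L (nat_lit 431) ln15_13_3 ln15_13_3_ok))) (B (M (nat_lit 431) (B (L (nat_lit 395) ln15_13_3 ln15_13_3_ok) (L (nat_lit 432) ln16_13_3 ln16_13_3_ok))) (B (M (nat_lit 431) (B (L (nat_lit 432) ln16_13_3 ln16_13_3_ok) (M (nat_lit 427) (B (M (nat_lit 399) (B (L (nat_lit 398) ln15_12_1 ln15_12_1_ok) (L (nat_lit 400) ln12_13_2 ln12_13_2_ok))) (M (nat_lit 459) (B (L (nat_lit 458) ln14_13_1 ln14_13_1_ok) (L (nat_lit 460) ln15_13_1 ln15_13_1_ok))))))) (M (nat_lit 398) (B (M (nat_lit 399) (B (L (nat_lit 427) ln15_12_1 ln15_12_1_ok) (L (nat_lit 400) ln16_12_1 ln16_12_1_ok))) (M (nat_lit 366) (B (M (nat_lit 334) (B (L (nat_lit 302) ln14_9_5 ln14_9_5_ok) (L (nat_lit 461) ln14_10_5 ln14_10_5_ok))) (M (nat_lit 395) (B (L (nat_lit 367) ln11_12_2 ln11_12_2_ok) (L (nat_lit 394) ln10_12_0 ln10_12_0_ok)))))))))))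 (B (M (nat_lit 430) (B (M (nat_lit 395) (B (L (nat_lit 394) ln10_12_0 ln10_12_0_ok) (L (nat_lit 431) ln15_13_3 ln15_13_3_ok))) (B (M (nat_lit 431) (B (L (nat_lit 395) ln15_13_3 ln15_13_3_ok) (L (nat_lit 432) ln16_13_3 ln16_13_3_ok))) (B (M (nat_lit 431) (B (L (nat_lit 432) ln16_13_3 ln16_13_3_ok) (M (nat_lit 427) (B (M (nat_lit 399) (B (L (nat_lit 398) ln15_12_1 ln15_12_1_ok) (L (nat_lit 400) ln12_13_2 ln12_13_2_ok))) (M (nat_lit 459) (B (L (nat_lit 458) ln14_13_1 ln14_13_1_ok) (L (nat_lit 460) ln15_13_1 ln15_13_1_ok))))))) (M (nat_lit 398) (B (M (nat_lit 399) (B (L (nat_lit 427) ln15_12_1 ln15_12_1_ok) (L (nat_lit 400) ln16_12_1 ln16_12_1_ok))) (M (nat_lit 366) (B (M (nat_lit 395) (B (L (nat_lit 367) ln11_12_2 ln11_12_2_ok) (L (nat_lit 394) ln10_12_0 ln10_12_0_ok))) (M (nat_lit 461) (B (L (nat_lit 334) ln14_10_5 ln14_10_5_ok) (L (nat_lit 493) ln13_15_6 ln13_15_6_ok))))))))))) (B (M (nat_lit 460) (B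 (M (nat_lit 492) (B (L (nat_lit 524) ln12_16_6 ln12_16_6_ok) (M (nat_lit 395) (B (L (nat_lit 363) ln12_15_7 ln12_15_7_ok) (M (nat_lit 430) (B (L (nat_lit 394) ln10_12_0 ln10_12_0_ok) (L (nat_lit 431) ln15_13_3 ln15_13_3_ok))))))) (B (M (nat_lit 492) (B (L (nat_lit 524) ln12_16_6 ln12_16_6_ok) (M (nat_lit 364) (B (M (nat_lit 493) (B (L (nat_lit 461) ln13_15_7 ln13_15_7_ok) (L (nat_lit 525) ln12_12_4 ln12_12_4_ok))) (M (nat_lit 491) (B (L (nat_lit 459) ln12_11_5 ln12_11_5_ok) (L (nat_lit 523) ln12_12_5 ln12_12_5_ok))))))) (M (nat_lit 459) (B (M (nat_lit 430) (B (L (nat_lit 431) ln15_13_1 ln15_13_1_ok) (M (nat_lit 458) (B (L (nat_lit 457) ln9_14_2 ln9_14_2_ok) (L (nat_lit 461) ln10_14_2 ln10_14_2_ok))))) (B (M (nat_lit 364) (B (L (nat_lit 491) ln12_11_5 ln12_11_5_ok) (M (nat_lit 332) (B (L (nat_lit 300) ln12_9_4 ln12_9_4_ok) (L (nat_lit 461) ln12_10_4 ln12_10_4_ok))))) (M (nat_lit 430) (B (L (nat_lit 431)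 ln15_13_1 ln15_13_1_ok) (M (nat_lit 458) (B (L (nat_lit 427) ln14_13_1 ln14_13_1_ok) (L (nat_lit 457) ln9_14_2 ln9_14_2_ok))))))))))) (B (M (nat_lit 430) (B (M (nat_lit 431) (B (L (nat_lit 395) ln15_13_3 ln15_13_3_ok) (L (nat_lit 432) ln16_13_3 ln16_13_3_ok))) (B (M (nat_lit 431) (B (L (nat_lit 432) ln16_13_3 ln16_13_3_ok) (M (nat_lit 427) (B (M (nat_lit 399) (B (L (nat_lit 398) ln15_12_1 ln15_12_1_ok) (L (nat_lit 400) ln12_13_2 ln12_13_2_ok))) (M (nat_lit 459) (B (L (nat_lit 458) ln14_13_1 ln14_13_1_ok) (L (nat_lit 460) ln15_13_1 ln15_13_1_ok))))))) (M (nat_lit 364) (B (M (nat_lit 332) (B (L (nat_lit 300) ln12_9_4 ln12_9_4_ok) (L (nat_lit 461) ln12_10_4 ln12_10_4_ok))) (B (M (nat_lit 461) (B (L (nat_lit 332) ln12_10_4 ln12_10_4_ok) (L (nat_lit 493) ln13_15_7 ln13_15_7_ok))) (B (M (nat_lit 460) (B (M (nat_lit 461) (B (L (nat_lit 493) ln13_15_7 ln13_15_7_ok) (M (nat_lit 459) (B (L (nat_lit 491) ln12_11_5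 ln12_11_5_ok) (L (nat_lit 458) ln10_14_2 ln10_14_2_ok))))) (M (nat_lit 492) (B (L (nat_lit 524) ln12_16_6 ln12_16_6_ok) (M (nat_lit 363) (B (L (nat_lit 331) ln12_14_7 ln12_14_7_ok) (L (nat_lit 395) ln12_15_7 ln12_15_7_ok))))))) (M (nat_lit 460) (B (M (nat_lit 492) (B (L (nat_lit 524) ln12_16_6 ln12_16_6_ok) (M (nat_lit 363) (B (L (nat_lit 331) ln12_14_7 ln12_14_7_ok) (L (nat_lit 395) ln12_15_7 ln12_15_7_ok))))) (M (nat_lit 459) (B (L (nat_lit 491) ln12_11_5 ln12_11_5_ok) (M (nat_lit 332) (B (L (nat_lit 300) ln12_9_4 ln12_9_4_ok) (L (nat_lit 427) ln12_10_5 ln12_10_5_ok)))))))))))))) (B (M (nat_lit 430) (B (M (nat_lit 431) (B (L (nat_lit 432) ln16_13_3 ln16_13_3_ok) (M (nat_lit 427) (B (M (nat_lit 399) (B (L (nat_lit 398) ln15_12_1 ln15_12_1_ok) (L (nat_lit 400) ln12_13_2 ln12_13_2_ok))) (M (nat_lit 459) (B (L (nat_lit 458) ln14_13_1 ln14_13_1_ok) (L (nat_lit 460) ln15_13_1 ln15_13_1_ok))))))) (B (M (nat_lit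 460) (B (M (nat_lit 431) (B (L (nat_lit 432) ln16_13_3 ln16_13_3_ok) (L (nat_lit 459) ln15_13_1 ln15_13_1_ok))) (M (nat_lit 364) (B (M (nat_lit 332) (B (L (nat_lit 300) ln12_9_4 ln12_9_4_ok) (L (nat_lit 461) ln12_10_4 ln12_10_4_ok))) (B (M (nat_lit 461) (B (L (nat_lit 332) ln12_10_4 ln12_10_4_ok) (L (nat_lit 493) ln13_15_7 ln13_15_7_ok))) (B (M (nat_lit 493) (B (L (nat_lit 461) ln13_15_7 ln13_15_7_ok) (M (nat_lit 492) (B (L (nat_lit 525) ln12_12_4 ln12_12_4_ok) (L (nat_lit 524) ln12_16_6 ln12_16_6_ok))))) (M (nat_lit 332) (B (L (nat_lit 300) ln12_9_4 ln12_9_4_ok) (M (nat_lit 331) (B (L (nat_lit 299) ln12_13_7 ln12_13_7_ok) (L (nat_lit 363) ln12_14_7 ln12_14_7_ok))))))))))) (B (M (nat_lit 364) (B (M (nat_lit 332) (B (L (nat_lit 300) ln12_9_4 ln12_9_4_ok) (L (nat_lit 461) ln12_10_4 ln12_10_4_ok))) (B (M (nat_lit 461) (B (L (nat_lit 332) ln12_10_4 ln12_10_4_ok) (L (nat_lit 493) ln13_15_7 ln13_15_7_ok)))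 (B (M (nat_lit 460) (B (M (nat_lit 461) (B (L (nat_lit 493) ln13_15_7 ln13_15_7_ok) (M (nat_lit 459) (B (L (nat_lit 491) ln12_11_5 ln12_11_5_ok) (L (nat_lit 458) ln10_14_2 ln10_14_2_ok))))) (B (M (nat_lit 493) (B (L (nat_lit 461) ln13_15_7 ln13_15_7_ok) (M (nat_lit 492) (B (L (nat_lit 525) ln12_12_4 ln12_12_4_ok) (L (nat_lit 524) ln12_16_6 ln12_16_6_ok))))) (M (nat_lit 459) (B (L (nat_lit 491) ln12_11_5 ln12_11_5_ok) (M (nat_lit 458) (B (L (nat_lit 427) ln14_13_1 ln14_13_1_ok) (L (nat_lit 457) ln9_14_2 ln9_14_2_ok)))))))) (M (nat_lit 460) (B (M (nat_lit 459) (B (L (nat_lit 491) ln12_11_5 ln12_11_5_ok) (M (nat_lit 458) (B (L (nat_lit 427) ln14_13_1 ln14_13_1_ok) (L (nat_lit 457) ln9_14_2 ln9_14_2_ok))))) (M (nat_lit 332) (B (L (nat_lit 300) ln12_9_4 ln12_9_4_ok) (M (nat_lit 331) (B (L (nat_lit 299) ln12_13_7 ln12_13_7_ok) (L (nat_lit 363) ln12_14_7 ln12_14_7_ok))))))))))) (M (nat_lit 399) (B (M (nat_lit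 398) (B (L (nat_lit 427) ln15_12_1 ln15_12_1_ok) (L (nat_lit 400) ln16_12_1 ln16_12_1_ok))) (B (M (nat_lit 431) (B (L (nat_lit 432) ln16_13_3 ln16_13_3_ok) (L (nat_lit 400) ln12_13_2 ln12_13_2_ok))) (M (nat_lit 364) (B (M (nat_lit 332) (B (L (nat_lit 300) ln12_9_4 ln12_9_4_ok) (L (nat_lit 461) ln12_10_4 ln12_10_4_ok))) (M (nat_lit 398) (B (L (nat_lit 363) ln15_12_3 ln15_12_3_ok) (L (nat_lit 427) ln15_12_1 ln15_12_1_ok)))))))))))) (B (M (nat_lit 364) (B (M (nat_lit 332) (B (L (nat_lit 300) ln12_9_4 ln12_9_4_ok) (L (nat_lit 461) ln12_10_4 ln12_10_4_ok))) (B (M (nat_lit 461) (B (L (nat_lit 332) ln12_10_4 ln12_10_4_ok) (L (nat_lit 493) ln13_15_7 ln13_15_7_ok))) (M (nat_lit 395) (B (M (nat_lit 430) (B (L (nat_lit 394) ln10_12_0 ln10_12_0_ok) (L (nat_lit 431) ln15_13_3 ln15_13_3_ok))) (M (nat_lit 363) (B (M (nat_lit 331) (B (L (nat_lit 299) ln11_9_4 ln11_9_4_ok) (L (nat_lit 460) ln12_14_7 ln12_14_7_ok))) (M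 (nat_lit 362) (B (L (nat_lit 361) ln9_11_0 ln9_11_0_ok) (L (nat_lit 398) ln14_12_3 ln14_12_3_ok)))))))))) (B (M (nat_lit 398) (B (M (nat_lit 399) (B (L (nat_lit 427) ln15_12_1 ln15_12_1_ok) (L (nat_lit 400) ln16_12_1 ln16_12_1_ok))) (M (nat_lit 460) (B (M (nat_lit 492) (B (L (nat_lit 524) ln12_16_6 ln12_16_6_ok) (M (nat_lit 493) (B (L (nat_lit 525) ln12_12_4 ln12_12_4_ok) (M (nat_lit 461) (B (L (nat_lit 364) ln13_15_7 ln13_15_7_ok) (L (nat_lit 366) ln13_15_6 ln13_15_6_ok))))))) (B (M (nat_lit 492) (B (L (nat_lit 524) ln12_16_6 ln12_16_6_ok) (M (nat_lit 366) (B (M (nat_lit 395) (B (L (nat_lit 363) ln12_15_7 ln12_15_7_ok) (L (nat_lit 367) ln11_12_2 ln11_12_2_ok))) (M (nat_lit 493) (B (L (nat_lit 461) ln13_15_6 ln13_15_6_ok) (L (nat_lit 525) ln12_12_4 ln12_12_4_ok))))))) (B (M (nat_lit 492) (B (L (nat_lit 524) ln12_16_6 ln12_16_6_ok) (M (nat_lit 364) (B (M (nat_lit 363) (B (L (nat_lit 331) ln12_14_7 ln12_14_7_ok)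 (L (nat_lit 395) ln12_15_7 ln12_15_7_ok))) (M (nat_lit 491) (B (L (nat_lit 459) ln12_11_5 ln12_11_5_ok) (L (nat_lit 523) ln12_12_5 ln12_12_5_ok))))))) (M (nat_lit 364) (B (M (nat_lit 461) (B (L (nat_lit 332) ln12_10_4 ln12_10_4_ok) (L (nat_lit 493) ln13_15_7 ln13_15_7_ok))) (M (nat_lit 363) (B (L (nat_lit 331) ln12_14_7 ln12_14_7_ok) (M (nat_lit 362) (B (L (nat_lit 361) ln9_11_0 ln9_11_0_ok) (L (nat_lit 395) ln14_12_3 ln14_12_3_ok))))))))))))) (B (M (nat_lit 430) (B (M (nat_lit 395) (B (L (nat_lit 394) ln10_12_0 ln10_12_0_ok) (L (nat_lit 431) ln15_13_3 ln15_13_3_ok))) (B (M (nat_lit 431) (B (L (nat_lit 395) ln15_13_3 ln15_13_3_ok) (L (nat_lit 432) ln16_13_3 ln16_13_3_ok))) (B (M (nat_lit 399) (B (M (nat_lit 398) (B (L (nat_lit 427) ln15_12_1 ln15_12_1_ok) (L (nat_lit 400) ln16_12_1 ln16_12_1_ok))) (B (M (nat_lit 431) (B (L (nat_lit 432) ln16_13_3 ln16_13_3_ok) (L (nat_lit 400) ln12_13_2 ln12_13_2_ok)))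 (M (nat_lit 364) (B (M (nat_lit 332) (B (L (nat_lit 300) ln12_9_4 ln12_9_4_ok) (L (nat_lit 461) ln12_10_4 ln12_10_4_ok))) (M (nat_lit 398) (B (L (nat_lit 363) ln15_12_3 ln15_12_3_ok) (L (nat_lit 427) ln15_12_1 ln15_12_1_ok)))))))) (M (nat_lit 398) (B (M (nat_lit 399) (B (L (nat_lit 427) ln15_12_1 ln15_12_1_ok) (L (nat_lit 400) ln16_12_1 ln16_12_1_ok))) (M (nat_lit 366) (B (M (nat_lit 395) (B (L (nat_lit 367) ln11_12_2 ln11_12_2_ok) (L (nat_lit 394) ln10_12_0 ln10_12_0_ok))) (M (nat_lit 461) (B (L (nat_lit 334) ln14_10_5 ln14_10_5_ok) (L (nat_lit 493) ln13_15_6 ln13_15_6_ok))))))))))) (M (nat_lit 395) (B (M (nat_lit 430) (B (L (nat_lit 394) ln10_12_0 ln10_12_0_ok) (L (nat_lit 431) ln15_13_3 ln15_13_3_ok))) (M (nat_lit 363) (B (M (nat_lit 460) (B (L (nat_lit 492) ln12_15_7 ln12_15_7_ok) (M (nat_lit 331) (B (L (nat_lit 299) ln11_9_4 ln11_9_4_ok) (L (nat_lit 427) ln11_10_4 ln11_10_4_ok))))) (B (M (nat_lit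 460) (B (L (nat_lit 492) ln12_15_7 ln12_15_7_ok) (M (nat_lit 331) (B (L (nat_lit 364) ln12_14_7 ln12_14_7_ok) (L (nat_lit 427) ln11_10_4 ln11_10_4_ok))))) (B (M (nat_lit 398) (B (L (nat_lit 362) ln14_12_3 ln14_12_3_ok) (M (nat_lit 399) (B (L (nat_lit 364) ln15_12_3 ln15_12_3_ok) (L (nat_lit 427) ln15_12_1 ln15_12_1_ok))))) (M (nat_lit 398) (B (L (nat_lit 362) ln14_12_3 ln14_12_3_ok) (M (nat_lit 399) (B (L (nat_lit 364) ln15_12_3 ln15_12_3_ok) (L (nat_lit 400) ln16_12_1 ln16_12_1_ok)))))))))))))))))))) (nat_lit 2079502270913392379444674211814302674077704290823075655481512624564798400421800170032085953906810352733060637150540575368324055040) (nat_lit 192214334528410459248359671255140732112070064784108285579885855542716804579689268497726906777731640049761123556231659968227775888357810185778578050871443062784) (nat_lit 192214334528410459248359671255140732112070064784108285579885855542716804579689268497726906777731640049761123556231659968227775888357810185778578050871443062784)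 (by decide +kernel)
noncomputable def c31_n1866 : Cert := (M (nat_lit 398) (B (M (nat_lit 399) (B (L (nat_lit 400) ln16_12_1 ln16_12_1_ok) (M (nat_lit 395) (B (M (nat_lit 367) (B (L (nat_lit 366) ln11_12_2 ln11_12_2_ok) (L (nat_lit 368) ln12_12_2 ln12_12_2_ok))) (M (nat_lit 431) (B (L (nat_lit 430) ln11_12_0 ln11_12_0_ok) (L (nat_lit 432) ln12_12_0 ln12_12_0_ok))))))) (B (M (nat_lit 399) (B (L (nat_lit 400) ln16_12_1 ln16_12_1_ok) (M (nat_lit 431) (B (L (nat_lit 432) ln12_12_0 ln12_12_0_ok) (M (nat_lit 430) (B (L (nat_lit 395) ln11_12_0 ln11_12_0_ok) (M (nat_lit 367) (B (L (nat_lit 368) ln12_12_2 ln12_12_2_ok) (M (nat_lit 335) (B (L (nat_lit 303) ln15_9_5 ln15_9_5_ok) (L (nat_lit 462) ln15_10_5 ln15_10_5_ok))))))))))) (B (M (nat_lit 399) (B (L (nat_lit 400) ln16_12_1 ln16_12_1_ok) (M (nat_lit 460) (B (M (nat_lit 431) (B (L (nat_lit 432) ln12_12_0 ln12_12_0_ok) (M (nat_lit 430) (B (L (nat_lit 395) ln11_12_0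 ln11_12_0_ok) (L (nat_lit 459) ln15_13_1 ln15_13_1_ok))))) (M (nat_lit 493) (B (M (nat_lit 461) (B (L (nat_lit 364) ln13_15_7 ln13_15_7_ok) (L (nat_lit 366) ln13_15_6 ln13_15_6_ok))) (M (nat_lit 492) (B (L (nat_lit 525) ln12_12_4 ln12_12_4_ok) (L (nat_lit 524) ln12_16_6 ln12_16_6_ok))))))))) (B (M (nat_lit 399) (B (L (nat_lit 400) ln16_12_1 ln16_12_1_ok) (M (nat_lit 430) (B (M (nat_lit 431) (B (L (nat_lit 432) ln12_12_0 ln12_12_0_ok) (M (nat_lit 367) (B (L (nat_lit 368) ln12_12_2 ln12_12_2_ok) (M (nat_lit 335) (B (L (nat_lit 303) ln15_9_5 ln15_9_5_ok) (L (nat_lit 462) ln15_10_5 ln15_10_5_ok))))))) (B (M (nat_lit 431) (B (L (nat_lit 432) ln12_12_0 ln12_12_0_ok) (M (nat_lit 367) (B (L (nat_lit 368) ln12_12_2 ln12_12_2_ok) (M (nat_lit 462) (B (L (nat_lit 335) ln15_10_5 ln15_10_5_ok) (L (nat_lit 494) ln14_15_6 ln14_15_6_ok))))))) (B (M (nat_lit 460) (B (M (nat_lit 431) (B (L (nat_lit 432) ln12_12_0 ln12_12_0_ok)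 (L (nat_lit 459) ln15_13_1 ln15_13_1_ok))) (M (nat_lit 493) (B (M (nat_lit 461) (B (L (nat_lit 364) ln13_15_7 ln13_15_7_ok) (L (nat_lit 366) ln13_15_6 ln13_15_6_ok))) (M (nat_lit 492) (B (L (nat_lit 525) ln12_12_4 ln12_12_4_ok) (L (nat_lit 524) ln12_16_6 ln12_16_6_ok))))))) (M (nat_lit 367) (B (L (nat_lit 368) ln12_12_2 ln12_12_2_ok) (M (nat_lit 462) (B (L (nat_lit 494) ln14_15_6 ln14_15_6_ok) (M (nat_lit 335) (B (L (nat_lit 303) ln15_9_5 ln15_9_5_ok) (L (nat_lit 366) ln14_14_6 ln14_14_6_ok))))))))))))) (B (M (nat_lit 430) (B (M (nat_lit 395) (B (L (nat_lit 394) ln10_12_0 ln10_12_0_ok) (L (nat_lit 431) ln11_12_0 ln11_12_0_ok))) (B (M (nat_lit 431) (B (L (nat_lit 395) ln11_12_0 ln11_12_0_ok) (L (nat_lit 432) ln16_13_3 ln16_13_3_ok))) (B (M (nat_lit 460) (B (M (nat_lit 431) (B (L (nat_lit 432) ln16_13_3 ln16_13_3_ok) (L (nat_lit 459) ln15_13_1 ln15_13_1_ok))) (M (nat_lit 493) (B (M (nat_lit 461) (B (L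 (nat_lit 364) ln13_15_7 ln13_15_7_ok) (L (nat_lit 366) ln13_15_6 ln13_15_6_ok))) (M (nat_lit 492) (B (L (nat_lit 525) ln12_12_4 ln12_12_4_ok) (L (nat_lit 524) ln12_16_6 ln12_16_6_ok))))))) (M (nat_lit 366) (B (M (nat_lit 334) (B (L (nat_lit 302) ln14_9_5 ln14_9_5_ok) (L (nat_lit 461) ln14_10_5 ln14_10_5_ok))) (M (nat_lit 395) (B (L (nat_lit 367) ln11_12_2 ln11_12_2_ok) (L (nat_lit 394) ln10_12_0 ln10_12_0_ok))))))))) (B (M (nat_lit 399) (B (L (nat_lit 400) ln16_12_1 ln16_12_1_ok) (M (nat_lit 431) (B (L (nat_lit 432) ln12_12_0 ln12_12_0_ok) (M (nat_lit 367) (B (L (nat_lit 368) ln12_12_2 ln12_12_2_ok) (M (nat_lit 366) (B (L (nat_lit 395) ln11_12_2 ln11_12_2_ok) (M (nat_lit 334) (B (L (nat_lit 302) ln14_9_5 ln14_9_5_ok) (L (nat_lit 463) ln15_14_7 ln15_14_7_ok))))))))))) (M (nat_lit 399) (B (L (nat_lit 400) ln16_12_1 ln16_12_1_ok) (M (nat_lit 395) (B (M (nat_lit 367) (B (L (nat_lit 366) ln11_12_2 ln11_12_2_ok)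 (L (nat_lit 368) ln12_12_2 ln12_12_2_ok))) (M (nat_lit 394) (B (L (nat_lit 393) ln9_12_0 ln9_12_0_ok) (L (nat_lit 430) ln10_12_0 ln10_12_0_ok))))))))))))))
theorem c31_s1930 : Sem (nat_lit 2079502270913392379444674211814302674077704290823075655481512624564798400421800170032085953906810352733060637150540575368324055040) (nat_lit 192214334579557187532090323523488556569575483523492337201868753397375161256297932348272496214454678429664640358925931667505965086961865912960837790888313749504) (nat_lit 192214334579557187532090323523488556569575483523492337201868753397375161256297932348272496214454678429664640358925931667505965086961865912960837790888313749504) :=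
  sem_of_chk (M (nat_lit 396) (B (M (nat_lit 395) (B (M (nat_lit 394) (B (L (nat_lit 393) ln9_12_0 ln9_12_0_ok) (L (nat_lit 430) ln10_12_0 ln10_12_0_ok))) (B (M (nat_lit 430) (B (L (nat_lit 394) ln10_12_0 ln10_12_0_ok) (L (nat_lit 431) ln15_13_3 ln15_13_3_ok))) (M (nat_lit 364) (B (M (nat_lit 461) (B (L (nat_lit 332) ln12_10_4 ln12_10_4_ok) (L (nat_lit 493) ln13_15_7 ln13_15_7_ok))) (M (nat_lit 363) (B (M (nat_lit 331) (B (L (nat_lit 299) ln11_9_4 ln11_9_4_ok) (L (nat_lit 460) ln12_14_7 ln12_14_7_ok))) (M (nat_lit 362) (B (L (nat_lit 361) ln9_11_0 ln9_11_0_ok) (L (nat_lit 398) ln14_12_3 ln14_12_3_ok)))))))))) (B (M (nat_lit 395) (B (M (nat_lit 394) (B (L (nat_lit 393) ln9_12_0 ln9_12_0_ok) (L (nat_lit 430) ln10_12_0 ln10_12_0_ok))) (B (M (nat_lit 430) (B (L (nat_lit 394) ln10_12_0 ln10_12_0_ok) (L (nat_lit 431) ln15_13_3 ln15_13_3_ok))) (M (nat_lit 364) (B (M (nat_lit 461) (B (L (nat_lit 332) ln12_10_4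 ln12_10_4_ok) (L (nat_lit 493) ln13_15_7 ln13_15_7_ok))) (M (nat_lit 363) (B (M (nat_lit 362) (B (L (nat_lit 361) ln9_11_0 ln9_11_0_ok) (L (nat_lit 398) ln14_12_3 ln14_12_3_ok))) (M (nat_lit 460) (B (L (nat_lit 331) ln12_14_7 ln12_14_7_ok) (L (nat_lit 492) ln12_15_7 ln12_15_7_ok)))))))))) (B (M (nat_lit 395) (B (M (nat_lit 394) (B (L (nat_lit 393) ln9_12_0 ln9_12_0_ok) (L (nat_lit 430) ln10_12_0 ln10_12_0_ok))) (B (M (nat_lit 430) (B (L (nat_lit 394) ln10_12_0 ln10_12_0_ok) (L (nat_lit 431) ln15_13_3 ln15_13_3_ok))) (B (M (nat_lit 430) (B (L (nat_lit 431) ln15_13_3 ln15_13_3_ok) (M (nat_lit 398) (B (M (nat_lit 366) (B (L (nat_lit 367) ln11_12_2 ln11_12_2_ok) (M (nat_lit 334) (B (L (nat_lit 302) ln14_9_5 ln14_9_5_ok) (L (nat_lit 461) ln14_10_5 ln14_10_5_ok))))) (M (nat_lit 399) (B (L (nat_lit 400) ln16_12_1 ln16_12_1_ok) (M (nat_lit 363) (B (L (nat_lit 362) ln14_12_3 ln14_12_3_ok) (L (nat_lit 364) ln15_12_3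 ln15_12_3_ok))))))))) (M (nat_lit 398) (B (M (nat_lit 399) (B (L (nat_lit 400) ln16_12_1 ln16_12_1_ok) (M (nat_lit 363) (B (L (nat_lit 362) ln14_12_3 ln14_12_3_ok) (L (nat_lit 364) ln15_12_3 ln15_12_3_ok))))) (B (M (nat_lit 399) (B (L (nat_lit 400) ln16_12_1 ln16_12_1_ok) (M (nat_lit 367) (B (L (nat_lit 366) ln11_12_2 ln11_12_2_ok) (L (nat_lit 368) ln12_12_2 ln12_12_2_ok))))) (M (nat_lit 394) (B (L (nat_lit 393) ln9_12_0 ln9_12_0_ok) (M (nat_lit 362) (B (L (nat_lit 361) ln13_12_3 ln13_12_3_ok) (L (nat_lit 363) ln14_12_3 ln14_12_3_ok)))))))))))) (B (M (nat_lit 395) (B (M (nat_lit 430) (B (L (nat_lit 394) ln10_12_0 ln10_12_0_ok) (L (nat_lit 431) ln15_13_3 ln15_13_3_ok))) (M (nat_lit 364) (B (M (nat_lit 461) (B (L (nat_lit 332) ln12_10_4 ln12_10_4_ok) (L (nat_lit 493) ln13_15_7 ln13_15_7_ok))) (M (nat_lit 363) (B (M (nat_lit 331) (B (L (nat_lit 299) ln11_9_4 ln11_9_4_ok) (L (nat_lit 460) ln12_14_7 ln12_14_7_ok)))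 (M (nat_lit 398) (B (L (nat_lit 362) ln14_12_3 ln14_12_3_ok) (L (nat_lit 399) ln15_12_3 ln15_12_3_ok))))))))) (B (M (nat_lit 430) (B (M (nat_lit 395) (B (L (nat_lit 394) ln10_12_0 ln10_12_0_ok) (L (nat_lit 431) ln15_13_3 ln15_13_3_ok))) (B (M (nat_lit 431) (B (L (nat_lit 395) ln15_13_3 ln15_13_3_ok) (L (nat_lit 432) ln16_13_3 ln16_13_3_ok))) (B (M (nat_lit 431) (B (L (nat_lit 432) ln16_13_3 ln16_13_3_ok) (M (nat_lit 364) (B (M (nat_lit 461) (B (L (nat_lit 332) ln12_10_4 ln12_10_4_ok) (L (nat_lit 493) ln13_15_7 ln13_15_7_ok))) (M (nat_lit 363) (B (M (nat_lit 460) (B (L (nat_lit 331) ln12_14_7 ln12_14_7_ok) (L (nat_lit 459) ln15_13_1 ln15_13_1_ok))) (M (nat_lit 399) (B (L (nat_lit 398) ln15_12_3 ln15_12_3_ok) (L (nat_lit 400) ln12_13_2 ln12_13_2_ok))))))))) (M (nat_lit 398) (B (M (nat_lit 399) (B (L (nat_lit 400) ln16_12_1 ln16_12_1_ok) (M (nat_lit 364) (B (L (nat_lit 363) ln15_12_3 ln15_12_3_ok) (M (nat_lit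 332) (B (L (nat_lit 300) ln12_9_4 ln12_9_4_ok) (L (nat_lit 461) ln12_10_4 ln12_10_4_ok))))))) (B (M (nat_lit 366) (B (M (nat_lit 395) (B (L (nat_lit 367) ln11_12_2 ln11_12_2_ok) (L (nat_lit 394) ln10_12_0 ln10_12_0_ok))) (M (nat_lit 461) (B (L (nat_lit 334) ln14_10_5 ln14_10_5_ok) (L (nat_lit 493) ln13_15_6 ln13_15_6_ok))))) (M (nat_lit 367) (B (M (nat_lit 395) (B (L (nat_lit 366) ln11_12_2 ln11_12_2_ok) (L (nat_lit 394) ln10_12_0 ln10_12_0_ok))) (M (nat_lit 399) (B (L (nat_lit 368) ln12_12_2 ln12_12_2_ok) (L (nat_lit 400) ln16_12_1 ln16_12_1_ok)))))))))))) (B c31_n1866 (B (M (nat_lit 395) (B (M (nat_lit 394) (B (L (nat_lit 393) ln9_12_0 ln9_12_0_ok) (L (nat_lit 430) ln10_12_0 ln10_12_0_ok))) (B (M (nat_lit 430) (B (L (nat_lit 394) ln10_12_0 ln10_12_0_ok) (L (nat_lit 431) ln15_13_3 ln15_13_3_ok))) (B (M (nat_lit 398) (B (M (nat_lit 431) (B (L (nat_lit 430) ln11_12_0 ln11_12_0_ok) (M (nat_lit 399) (B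 (L (nat_lit 432) ln12_12_0 ln12_12_0_ok) (L (nat_lit 400) ln16_12_1 ln16_12_1_ok))))) (B (M (nat_lit 430) (B (L (nat_lit 431) ln11_12_0 ln11_12_0_ok) (M (nat_lit 366) (B (L (nat_lit 367) ln11_12_2 ln11_12_2_ok) (M (nat_lit 334) (B (L (nat_lit 302) ln14_9_5 ln14_9_5_ok) (L (nat_lit 461) ln14_10_5 ln14_10_5_ok))))))) (M (nat_lit 399) (B (L (nat_lit 400) ln16_12_1 ln16_12_1_ok) (M (nat_lit 367) (B (L (nat_lit 366) ln11_12_2 ln11_12_2_ok) (L (nat_lit 368) ln12_12_2 ln12_12_2_ok)))))))) (M (nat_lit 398) (B (M (nat_lit 399) (B (L (nat_lit 400) ln16_12_1 ln16_12_1_ok) (M (nat_lit 367) (B (L (nat_lit 366) ln11_12_2 ln11_12_2_ok) (L (nat_lit 368) ln12_12_2 ln12_12_2_ok))))) (M (nat_lit 394) (B (L (nat_lit 393) ln9_12_0 ln9_12_0_ok) (M (nat_lit 362) (B (L (nat_lit 361) ln13_12_3 ln13_12_3_ok) (L (nat_lit 363) ln14_12_3 ln14_12_3_ok))))))))))) (B (M (nat_lit 430) (B (M (nat_lit 431) (B (L (nat_lit 395) ln15_13_3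 ln15_13_3_ok) (L (nat_lit 432) ln16_13_3 ln16_13_3_ok))) (M (nat_lit 364) (B (M (nat_lit 332) (B (L (nat_lit 300) ln12_9_4 ln12_9_4_ok) (L (nat_lit 461) ln12_10_4 ln12_10_4_ok))) (B (M (nat_lit 461) (B (L (nat_lit 332) ln12_10_4 ln12_10_4_ok) (L (nat_lit 493) ln13_15_7 ln13_15_7_ok))) (B (M (nat_lit 460) (B (M (nat_lit 492) (B (L (nat_lit 524) ln12_16_6 ln12_16_6_ok) (M (nat_lit 491) (B (L (nat_lit 459) ln12_11_5 ln12_11_5_ok) (L (nat_lit 523) ln12_12_5 ln12_12_5_ok))))) (B (M (nat_lit 493) (B (L (nat_lit 461) ln13_15_7 ln13_15_7_ok) (M (nat_lit 492) (B (L (nat_lit 525) ln12_12_4 ln12_12_4_ok) (L (nat_lit 524) ln12_16_6 ln12_16_6_ok))))) (M (nat_lit 461) (B (L (nat_lit 493) ln13_15_7 ln13_15_7_ok) (M (nat_lit 459) (B (L (nat_lit 491) ln12_11_5 ln12_11_5_ok) (L (nat_lit 458) ln10_14_2 ln10_14_2_ok)))))))) (M (nat_lit 460) (B (M (nat_lit 492) (B (L (nat_lit 524) ln12_16_6 ln12_16_6_ok) (M (nat_lit 491)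 (B (L (nat_lit 459) ln12_11_5 ln12_11_5_ok) (L (nat_lit 523) ln12_12_5 ln12_12_5_ok))))) (M (nat_lit 332) (B (L (nat_lit 300) ln12_9_4 ln12_9_4_ok) (M (nat_lit 331) (B (L (nat_lit 299) ln12_13_7 ln12_13_7_ok) (L (nat_lit 363) ln12_14_7 ln12_14_7_ok))))))))))))) (B (M (nat_lit 364) (B (M (nat_lit 332) (B (L (nat_lit 300) ln12_9_4 ln12_9_4_ok) (L (nat_lit 461) ln12_10_4 ln12_10_4_ok))) (B (M (nat_lit 461) (B (L (nat_lit 332) ln12_10_4 ln12_10_4_ok) (L (nat_lit 493) ln13_15_7 ln13_15_7_ok))) (B (M (nat_lit 460) (B (M (nat_lit 493) (B (L (nat_lit 461) ln13_15_7 ln13_15_7_ok) (M (nat_lit 492) (B (L (nat_lit 525) ln12_12_4 ln12_12_4_ok) (L (nat_lit 524) ln12_16_6 ln12_16_6_ok))))) (B (M (nat_lit 492) (B (L (nat_lit 524) ln12_16_6 ln12_16_6_ok) (M (nat_lit 491) (B (L (nat_lit 459) ln12_11_5 ln12_11_5_ok) (L (nat_lit 523) ln12_12_5 ln12_12_5_ok))))) (M (nat_lit 461) (B (L (nat_lit 493) ln13_15_7 ln13_15_7_ok)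 (M (nat_lit 459) (B (L (nat_lit 491) ln12_11_5 ln12_11_5_ok) (M (nat_lit 430) (B (L (nat_lit 431) ln15_13_1 ln15_13_1_ok) (L (nat_lit 458) ln10_14_2 ln10_14_2_ok)))))))))) (M (nat_lit 460) (B (M (nat_lit 492) (B (L (nat_lit 524) ln12_16_6 ln12_16_6_ok) (M (nat_lit 491) (B (L (nat_lit 459) ln12_11_5 ln12_11_5_ok) (L (nat_lit 523) ln12_12_5 ln12_12_5_ok))))) (M (nat_lit 332) (B (L (nat_lit 300) ln12_9_4 ln12_9_4_ok) (M (nat_lit 331) (B (L (nat_lit 299) ln12_13_7 ln12_13_7_ok) (L (nat_lit 363) ln12_14_7 ln12_14_7_ok))))))))))) (B (M (nat_lit 364) (B (M (nat_lit 332) (B (L (nat_lit 300) ln12_9_4 ln12_9_4_ok) (L (nat_lit 461) ln12_10_4 ln12_10_4_ok))) (B (M (nat_lit 461) (B (L (nat_lit 332) ln12_10_4 ln12_10_4_ok) (L (nat_lit 493) ln13_15_7 ln13_15_7_ok))) (M (nat_lit 460) (B (M (nat_lit 492) (B (L (nat_lit 524) ln12_16_6 ln12_16_6_ok) (M (nat_lit 491) (B (L (nat_lit 459) ln12_11_5 ln12_11_5_ok) (L (nat_lit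 523) ln12_12_5 ln12_12_5_ok))))) (B (M (nat_lit 492) (B (L (nat_lit 524) ln12_16_6 ln12_16_6_ok) (M (nat_lit 363) (B (L (nat_lit 331) ln12_14_7 ln12_14_7_ok) (L (nat_lit 395) ln12_15_7 ln12_15_7_ok))))) (M (nat_lit 363) (B (L (nat_lit 331) ln12_14_7 ln12_14_7_ok) (M (nat_lit 398) (B (L (nat_lit 399) ln15_12_3 ln15_12_3_ok) (M (nat_lit 362) (B (L (nat_lit 361) ln9_11_0 ln9_11_0_ok) (L (nat_lit 395) ln14_12_3 ln14_12_3_ok))))))))))))) (M (nat_lit 395) (B (M (nat_lit 394) (B (L (nat_lit 393) ln9_12_0 ln9_12_0_ok) (L (nat_lit 430) ln10_12_0 ln10_12_0_ok))) (B (M (nat_lit 430) (B (L (nat_lit 394) ln10_12_0 ln10_12_0_ok) (L (nat_lit 431) ln15_13_3 ln15_13_3_ok))) (B (M (nat_lit 431) (B (L (nat_lit 430) ln15_13_3 ln15_13_3_ok) (M (nat_lit 363) (B (M (nat_lit 398) (B (L (nat_lit 362) ln14_12_3 ln14_12_3_ok) (M (nat_lit 399) (B (L (nat_lit 432) ln12_12_0 ln12_12_0_ok) (L (nat_lit 400) ln16_12_1 ln16_12_1_ok)))))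 (M (nat_lit 460) (B (L (nat_lit 492) ln12_15_7 ln12_15_7_ok) (M (nat_lit 331) (B (L (nat_lit 299) ln11_9_4 ln11_9_4_ok) (L (nat_lit 364) ln12_14_7 ln12_14_7_ok))))))))) (M (nat_lit 398) (B (M (nat_lit 399) (B (L (nat_lit 400) ln16_12_1 ln16_12_1_ok) (M (nat_lit 363) (B (L (nat_lit 362) ln14_12_3 ln14_12_3_ok) (L (nat_lit 364) ln15_12_3 ln15_12_3_ok))))) (B (M (nat_lit 399) (B (L (nat_lit 400) ln16_12_1 ln16_12_1_ok) (M (nat_lit 367) (B (L (nat_lit 366) ln11_12_2 ln11_12_2_ok) (L (nat_lit 368) ln12_12_2 ln12_12_2_ok))))) (M (nat_lit 394) (B (L (nat_lit 393) ln9_12_0 ln9_12_0_ok) (M (nat_lit 362) (B (L (nat_lit 361) ln13_12_3 ln13_12_3_ok) (L (nat_lit 363) ln14_12_3 ln14_12_3_ok))))))))))))))))))))))) (nat_lit 2079502270913392379444674211814302674077704290823075655481512624564798400421800170032085953906810352733060637150540575368324055040) (nat_lit 192214334579557187532090323523488556569575483523492337201868753397375161256297932348272496214454678429664640358925931667505965086961865912960837790888313749504)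 (nat_lit 192214334579557187532090323523488556569575483523492337201868753397375161256297932348272496214454678429664640358925931667505965086961865912960837790888313749504) (by decide +kernel)
noncomputable def c31_n2232 : Cert := (M (nat_lit 395) (B (M (nat_lit 394) (B (L (nat_lit 393) ln9_12_0 ln9_12_0_ok) (M (nat_lit 398) (B (M (nat_lit 362) (B (L (nat_lit 361) ln13_12_3 ln13_12_3_ok) (L (nat_lit 363) ln14_12_3 ln14_12_3_ok))) (M (nat_lit 426) (B (L (nat_lit 425) ln13_12_1 ln13_12_1_ok) (L (nat_lit 427) ln14_12_1 ln14_12_1_ok))))))) (B (M (nat_lit 398) (B (M (nat_lit 427) (B (L (nat_lit 426) ln14_12_1 ln14_12_1_ok) (L (nat_lit 399) ln15_12_1 ln15_12_1_ok))) (B (M (nat_lit 426) (B (L (nat_lit 427) ln14_12_1 ln14_12_1_ok) (M (nat_lit 394) (B (L (nat_lit 393) ln9_12_0 ln9_12_0_ok) (L (nat_lit 425) ln13_12_1 ln13_12_1_ok))))) (B (M (nat_lit 399) (B (L (nat_lit 427) ln15_12_1 ln15_12_1_ok) (L (nat_lit 400)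 ln16_12_1 ln16_12_1_ok))) (M (nat_lit 399) (B (L (nat_lit 400) ln16_12_1 ln16_12_1_ok) (M (nat_lit 367) (B (L (nat_lit 366) ln11_12_2 ln11_12_2_ok) (L (nat_lit 368) ln12_12_2 ln12_12_2_ok))))))))) (B (M (nat_lit 398) (B (M (nat_lit 427) (B (L (nat_lit 426) ln14_12_1 ln14_12_1_ok) (L (nat_lit 399) ln15_12_1 ln15_12_1_ok))) (B (M (nat_lit 394) (B (M (nat_lit 362) (B (L (nat_lit 361) ln13_12_3 ln13_12_3_ok) (L (nat_lit 363) ln14_12_3 ln14_12_3_ok))) (M (nat_lit 426) (B (L (nat_lit 425) ln13_12_1 ln13_12_1_ok) (L (nat_lit 427) ln14_12_1 ln14_12_1_ok))))) (B (M (nat_lit 399) (B (L (nat_lit 427) ln15_12_1 ln15_12_1_ok) (L (nat_lit 400) ln16_12_1 ln16_12_1_ok))) (M (nat_lit 399) (B (L (nat_lit 400) ln16_12_1 ln16_12_1_ok) (M (nat_lit 367) (B (L (nat_lit 366) ln11_12_2 ln11_12_2_ok) (L (nat_lit 368) ln12_12_2 ln12_12_2_ok))))))))) (B (M (nat_lit 427) (B (M (nat_lit 398) (B (L (nat_lit 426) ln14_12_1 ln14_12_1_ok)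 (L (nat_lit 399) ln15_12_1 ln15_12_1_ok))) (B (M (nat_lit 461) (B (M (nat_lit 364) (B (L (nat_lit 332) ln12_10_4 ln12_10_4_ok) (L (nat_lit 493) ln13_15_7 ln13_15_7_ok))) (M (nat_lit 426) (B (L (nat_lit 425) ln9_13_2 ln9_13_2_ok) (L (nat_lit 462) ln10_13_0 ln10_13_0_ok))))) (M (nat_lit 332) (B (M (nat_lit 364) (B (L (nat_lit 300) ln12_9_5 ln12_9_5_ok) (L (nat_lit 459) ln12_10_5 ln12_10_5_ok))) (B (M (nat_lit 364) (B (L (nat_lit 459) ln12_10_5 ln12_10_5_ok) (L (nat_lit 461) ln12_10_4 ln12_10_4_ok))) (M (nat_lit 363) (B (M (nat_lit 331) (B (L (nat_lit 299) ln11_9_4 ln11_9_4_ok) (L (nat_lit 300) ln11_13_6 ln11_13_6_ok))) (M (nat_lit 398) (B (L (nat_lit 362) ln14_12_3 ln14_12_3_ok) (L (nat_lit 399) ln15_12_1 ln15_12_1_ok))))))))))) (B (M (nat_lit 427) (B (M (nat_lit 426) (B (L (nat_lit 425) ln9_13_2 ln9_13_2_ok) (M (nat_lit 461) (B (L (nat_lit 462) ln10_13_0 ln10_13_0_ok) (M (nat_lit 493) (B (L (nat_lit 364)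 ln13_15_7 ln13_15_7_ok) (L (nat_lit 525) ln13_16_7 ln13_16_7_ok))))))) (B (M (nat_lit 426) (B (L (nat_lit 425) ln9_13_2 ln9_13_2_ok) (M (nat_lit 394) (B (L (nat_lit 393) ln9_12_0 ln9_12_0_ok) (M (nat_lit 362) (B (L (nat_lit 361) ln13_12_3 ln13_12_3_ok) (M (nat_lit 330) (B (L (nat_lit 298) ln10_9_4 ln10_9_4_ok) (L (nat_lit 459) ln10_10_4 ln10_10_4_ok))))))))) (M (nat_lit 394) (B (L (nat_lit 393) ln9_12_0 ln9_12_0_ok) (M (nat_lit 362) (B (L (nat_lit 361) ln13_12_3 ln13_12_3_ok) (M (nat_lit 459) (B (L (nat_lit 491) ln11_15_7 ln11_15_7_ok) (M (nat_lit 330) (B (L (nat_lit 298) ln10_9_4 ln10_9_4_ok) (L (nat_lit 363) ln11_14_7 ln11_14_7_ok)))))))))))) (B (M (nat_lit 394) (B (L (nat_lit 393) ln9_12_0 ln9_12_0_ok) (M (nat_lit 398) (B (M (nat_lit 362) (B (L (nat_lit 361) ln13_12_3 ln13_12_3_ok) (L (nat_lit 363) ln14_12_3 ln14_12_3_ok))) (M (nat_lit 399) (B (L (nat_lit 427) ln15_12_1 ln15_12_1_ok) (L (nat_lit 400)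 ln16_12_1 ln16_12_1_ok))))))) (M (nat_lit 398) (B (M (nat_lit 399) (B (L (nat_lit 400) ln16_12_1 ln16_12_1_ok) (M (nat_lit 367) (B (L (nat_lit 366) ln11_12_2 ln11_12_2_ok) (L (nat_lit 368) ln12_12_2 ln12_12_2_ok))))) (M (nat_lit 394) (B (L (nat_lit 393) ln9_12_0 ln9_12_0_ok) (M (nat_lit 362) (B (L (nat_lit 361) ln13_12_3 ln13_12_3_ok) (L (nat_lit 363) ln14_12_3 ln14_12_3_ok))))))))))))))
theorem c31_s2233 : Sem (nat_lit 2079502270913392379444674211814302674077704290823075655481512624564798400421800170032085953906810352733060637150540575368324055040) (nat_lit 192214334582753858047986040976460496497588163843701438835223661084509769179258742024241426427918621715743431460981628979701456924653994125162656413992836136960) (nat_lit 192214334582753858047986040976460496497588163843701438835223661084509769179258742024241426427918621715743431460981628979701456924653994125162656413992836136960) :=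
  sem_of_chk (M (nat_lit 396) (B (M (nat_lit 398) (B (M (nat_lit 399) (B (L (nat_lit 427) ln15_12_1 ln15_12_1_ok) (L (nat_lit 400) ln16_12_1 ln16_12_1_ok))) (M (nat_lit 460) (B (M (nat_lit 492) (B (L (nat_lit 524) ln12_16_6 ln12_16_6_ok) (M (nat_lit 493) (B (L (nat_lit 525) ln12_12_4 ln12_12_4_ok) (M (nat_lit 461) (B (L (nat_lit 364) ln13_15_7 ln13_15_7_ok) (L (nat_lit 366) ln13_15_6 ln13_15_6_ok))))))) (B (M (nat_lit 492) (B (L (nat_lit 524) ln12_16_6 ln12_16_6_ok) (M (nat_lit 366) (B (M (nat_lit 395) (B (L (nat_lit 363) ln12_15_7 ln12_15_7_ok) (L (nat_lit 367) ln11_12_2 ln11_12_2_ok))) (M (nat_lit 493) (B (L (nat_lit 461) ln13_15_6 ln13_15_6_ok) (L (nat_lit 525) ln12_12_4 ln12_12_4_ok))))))) (B (M (nat_lit 492) (B (L (nat_lit 524) ln12_16_6 ln12_16_6_ok) (M (nat_lit 364) (B (M (nat_lit 363) (B (L (nat_lit 331) ln12_14_7 ln12_14_7_ok) (L (nat_lit 395) ln12_15_7 ln12_15_7_ok))) (M (nat_lit 491) (B (L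 (nat_lit 459) ln12_11_5 ln12_11_5_ok) (L (nat_lit 523) ln12_12_5 ln12_12_5_ok))))))) (M (nat_lit 364) (B (M (nat_lit 461) (B (L (nat_lit 332) ln12_10_4 ln12_10_4_ok) (L (nat_lit 493) ln13_15_7 ln13_15_7_ok))) (M (nat_lit 363) (B (L (nat_lit 331) ln12_14_7 ln12_14_7_ok) (M (nat_lit 362) (B (L (nat_lit 361) ln9_11_0 ln9_11_0_ok) (L (nat_lit 395) ln14_12_3 ln14_12_3_ok))))))))))))) (B (M (nat_lit 460) (B (M (nat_lit 492) (B (L (nat_lit 524) ln12_16_6 ln12_16_6_ok) (M (nat_lit 364) (B (M (nat_lit 493) (B (L (nat_lit 461) ln13_15_7 ln13_15_7_ok) (L (nat_lit 525) ln12_12_4 ln12_12_4_ok))) (M (nat_lit 491) (B (L (nat_lit 459) ln12_11_5 ln12_11_5_ok) (L (nat_lit 523) ln12_12_5 ln12_12_5_ok))))))) (B (M (nat_lit 492) (B (L (nat_lit 524) ln12_16_6 ln12_16_6_ok) (M (nat_lit 398) (B (M (nat_lit 399) (B (L (nat_lit 427) ln15_12_1 ln15_12_1_ok) (L (nat_lit 400) ln16_12_1 ln16_12_1_ok))) (M (nat_lit 366) (B (M (nat_lit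 395) (B (L (nat_lit 363) ln12_15_7 ln12_15_7_ok) (L (nat_lit 367) ln11_12_2 ln11_12_2_ok))) (M (nat_lit 493) (B (L (nat_lit 461) ln13_15_6 ln13_15_6_ok) (L (nat_lit 525) ln12_12_4 ln12_12_4_ok))))))))) (B (M (nat_lit 398) (B (M (nat_lit 399) (B (L (nat_lit 427) ln15_12_1 ln15_12_1_ok) (L (nat_lit 400) ln16_12_1 ln16_12_1_ok))) (B (M (nat_lit 426) (B (L (nat_lit 427) ln10_13_2 ln10_13_2_ok) (M (nat_lit 395) (B (M (nat_lit 363) (B (L (nat_lit 362) ln14_12_3 ln14_12_3_ok) (L (nat_lit 492) ln12_15_7 ln12_15_7_ok))) (M (nat_lit 394) (B (L (nat_lit 393) ln9_12_0 ln9_12_0_ok) (L (nat_lit 425) ln13_12_1 ln13_12_1_ok))))))) (M (nat_lit 363) (B (M (nat_lit 399) (B (L (nat_lit 364) ln15_12_3 ln15_12_3_ok) (L (nat_lit 400) ln16_12_1 ln16_12_1_ok))) (M (nat_lit 492) (B (L (nat_lit 395) ln12_15_7 ln12_15_7_ok) (L (nat_lit 524) ln12_16_6 ln12_16_6_ok)))))))) (M (nat_lit 461) (B (M (nat_lit 364) (B (L (nat_lit 332)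 ln12_10_4 ln12_10_4_ok) (L (nat_lit 493) ln13_15_7 ln13_15_7_ok))) (B (M (nat_lit 493) (B (L (nat_lit 364) ln13_15_7 ln13_15_7_ok) (L (nat_lit 525) ln13_16_7 ln13_16_7_ok))) (B (M (nat_lit 398) (B (M (nat_lit 493) (B (L (nat_lit 366) ln13_15_6 ln13_15_6_ok) (L (nat_lit 525) ln13_16_7 ln13_16_7_ok))) (M (nat_lit 399) (B (L (nat_lit 427) ln15_12_1 ln15_12_1_ok) (L (nat_lit 400) ln16_12_1 ln16_12_1_ok))))) (M (nat_lit 426) (B (M (nat_lit 427) (B (L (nat_lit 425) ln9_13_2 ln9_13_2_ok) (L (nat_lit 398) ln10_13_2 ln10_13_2_ok))) (B (M (nat_lit 427) (B (L (nat_lit 425) ln9_13_2 ln9_13_2_ok) (L (nat_lit 462) ln10_13_0 ln10_13_0_ok))) (B (M (nat_lit 427) (B (L (nat_lit 398) ln10_13_2 ln10_13_2_ok) (L (nat_lit 462) ln10_13_0 ln10_13_0_ok))) (M (nat_lit 459) (B (M (nat_lit 364) (B (L (nat_lit 332) ln12_10_4 ln12_10_4_ok) (L (nat_lit 491) ln12_11_5 ln12_11_5_ok))) (M (nat_lit 458) (B (L (nat_lit 425) ln13_14_3 ln13_14_3_ok)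 (L (nat_lit 457) ln9_14_2 ln9_14_2_ok))))))))))))))))) (B (M (nat_lit 398) (B (M (nat_lit 399) (B (L (nat_lit 427) ln15_12_1 ln15_12_1_ok) (L (nat_lit 400) ln16_12_1 ln16_12_1_ok))) (B (M (nat_lit 460) (B (M (nat_lit 492) (B (L (nat_lit 524) ln12_16_6 ln12_16_6_ok) (M (nat_lit 493) (B (L (nat_lit 525) ln12_12_4 ln12_12_4_ok) (M (nat_lit 461) (B (L (nat_lit 364) ln13_15_7 ln13_15_7_ok) (L (nat_lit 366) ln13_15_6 ln13_15_6_ok))))))) (M (nat_lit 395) (B (M (nat_lit 426) (B (L (nat_lit 427) ln14_12_1 ln14_12_1_ok) (M (nat_lit 394) (B (L (nat_lit 393) ln9_12_0 ln9_12_0_ok) (L (nat_lit 425) ln13_12_1 ln13_12_1_ok))))) (B (M (nat_lit 427) (B (L (nat_lit 426) ln14_12_1 ln14_12_1_ok) (M (nat_lit 363) (B (L (nat_lit 331) ln11_10_4 ln11_10_4_ok) (L (nat_lit 362) ln14_12_3 ln14_12_3_ok))))) (M (nat_lit 394) (B (L (nat_lit 393) ln9_12_0 ln9_12_0_ok) (M (nat_lit 362) (B (L (nat_lit 361) ln13_12_3 ln13_12_3_ok) (L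 (nat_lit 363) ln14_12_3 ln14_12_3_ok)))))))))) (M (nat_lit 399) (B (L (nat_lit 400) ln16_12_1 ln16_12_1_ok) (M (nat_lit 395) (B (M (nat_lit 363) (B (L (nat_lit 362) ln14_12_3 ln14_12_3_ok) (L (nat_lit 364) ln15_12_3 ln15_12_3_ok))) (M (nat_lit 367) (B (L (nat_lit 366) ln11_12_2 ln11_12_2_ok) (L (nat_lit 368) ln12_12_2 ln12_12_2_ok)))))))))) (B (M (nat_lit 460) (B (M (nat_lit 492) (B (L (nat_lit 524) ln12_16_6 ln12_16_6_ok) (M (nat_lit 364) (B (M (nat_lit 493) (B (L (nat_lit 461) ln13_15_7 ln13_15_7_ok) (L (nat_lit 525) ln12_12_4 ln12_12_4_ok))) (M (nat_lit 491) (B (L (nat_lit 459) ln12_11_5 ln12_11_5_ok) (L (nat_lit 523) ln12_12_5 ln12_12_5_ok))))))) (B (M (nat_lit 492) (B (L (nat_lit 524) ln12_16_6 ln12_16_6_ok) (M (nat_lit 398) (B (M (nat_lit 399) (B (L (nat_lit 427) ln15_12_1 ln15_12_1_ok) (L (nat_lit 400) ln16_12_1 ln16_12_1_ok))) (M (nat_lit 366) (B (M (nat_lit 395) (B (L (nat_lit 363) ln12_15_7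 ln12_15_7_ok) (L (nat_lit 367) ln11_12_2 ln11_12_2_ok))) (M (nat_lit 493) (B (L (nat_lit 461) ln13_15_6 ln13_15_6_ok) (L (nat_lit 525) ln12_12_4 ln12_12_4_ok))))))))) (B (M (nat_lit 492) (B (L (nat_lit 524) ln12_16_6 ln12_16_6_ok) (M (nat_lit 364) (B (M (nat_lit 363) (B (L (nat_lit 331) ln12_14_7 ln12_14_7_ok) (L (nat_lit 395) ln12_15_7 ln12_15_7_ok))) (M (nat_lit 491) (B (L (nat_lit 459) ln12_11_5 ln12_11_5_ok) (L (nat_lit 523) ln12_12_5 ln12_12_5_ok))))))) (M (nat_lit 461) (B (M (nat_lit 364) (B (L (nat_lit 332) ln12_10_4 ln12_10_4_ok) (L (nat_lit 493) ln13_15_7 ln13_15_7_ok))) (B (M (nat_lit 493) (B (L (nat_lit 364) ln13_15_7 ln13_15_7_ok) (L (nat_lit 525) ln13_16_7 ln13_16_7_ok))) (B (M (nat_lit 398) (B (M (nat_lit 493) (B (L (nat_lit 366) ln13_15_6 ln13_15_6_ok) (L (nat_lit 525) ln13_16_7 ln13_16_7_ok))) (M (nat_lit 399) (B (L (nat_lit 427) ln15_12_1 ln15_12_1_ok) (L (nat_lit 400) ln16_12_1 ln16_12_1_ok)))))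 (M (nat_lit 426) (B (M (nat_lit 427) (B (L (nat_lit 425) ln9_13_2 ln9_13_2_ok) (L (nat_lit 398) ln10_13_2 ln10_13_2_ok))) (B (M (nat_lit 427) (B (L (nat_lit 425) ln9_13_2 ln9_13_2_ok) (L (nat_lit 462) ln10_13_0 ln10_13_0_ok))) (B (M (nat_lit 427) (B (L (nat_lit 398) ln10_13_2 ln10_13_2_ok) (L (nat_lit 462) ln10_13_0 ln10_13_0_ok))) (M (nat_lit 459) (B (M (nat_lit 364) (B (L (nat_lit 332) ln12_10_4 ln12_10_4_ok) (L (nat_lit 491) ln12_11_5 ln12_11_5_ok))) (M (nat_lit 458) (B (L (nat_lit 425) ln13_14_3 ln13_14_3_ok) (L (nat_lit 457) ln9_14_2 ln9_14_2_ok))))))))))))))))) (B (M (nat_lit 460) (B (M (nat_lit 492) (B (L (nat_lit 524) ln12_16_6 ln12_16_6_ok) (M (nat_lit 364) (B (M (nat_lit 493) (B (L (nat_lit 461) ln13_15_7 ln13_15_7_ok) (L (nat_lit 525) ln12_12_4 ln12_12_4_ok))) (M (nat_lit 491) (B (L (nat_lit 459) ln12_11_5 ln12_11_5_ok) (L (nat_lit 523) ln12_12_5 ln12_12_5_ok))))))) (B (M (nat_lit 398) (B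 (M (nat_lit 399) (B (L (nat_lit 427) ln15_12_1 ln15_12_1_ok) (L (nat_lit 400) ln16_12_1 ln16_12_1_ok))) (B (M (nat_lit 395) (B (M (nat_lit 426) (B (L (nat_lit 427) ln14_12_1 ln14_12_1_ok) (M (nat_lit 394) (B (L (nat_lit 393) ln9_12_0 ln9_12_0_ok) (L (nat_lit 425) ln13_12_1 ln13_12_1_ok))))) (M (nat_lit 493) (B (M (nat_lit 366) (B (L (nat_lit 367) ln11_12_2 ln11_12_2_ok) (L (nat_lit 461) ln13_15_6 ln13_15_6_ok))) (M (nat_lit 492) (B (L (nat_lit 525) ln12_12_4 ln12_12_4_ok) (L (nat_lit 524) ln12_16_6 ln12_16_6_ok))))))) (M (nat_lit 366) (B (M (nat_lit 493) (B (L (nat_lit 461) ln13_15_6 ln13_15_6_ok) (M (nat_lit 492) (B (L (nat_lit 525) ln12_12_4 ln12_12_4_ok) (L (nat_lit 524) ln12_16_6 ln12_16_6_ok))))) (M (nat_lit 399) (B (L (nat_lit 400) ln16_12_1 ln16_12_1_ok) (M (nat_lit 367) (B (L (nat_lit 395) ln11_12_2 ln11_12_2_ok) (L (nat_lit 368) ln12_12_2 ln12_12_2_ok)))))))))) (B (M (nat_lit 492) (B (L (nat_lit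 524) ln12_16_6 ln12_16_6_ok) (M (nat_lit 493) (B (L (nat_lit 525) ln12_12_4 ln12_12_4_ok) (M (nat_lit 491) (B (L (nat_lit 523) ln12_12_5 ln12_12_5_ok) (M (nat_lit 459) (B (L (nat_lit 364) ln12_11_5 ln12_11_5_ok) (M (nat_lit 458) (B (L (nat_lit 457) ln9_14_2 ln9_14_2_ok) (L (nat_lit 494) ln14_15_3 ln14_15_3_ok))))))))))) (B (M (nat_lit 461) (B (M (nat_lit 364) (B (L (nat_lit 332) ln12_10_4 ln12_10_4_ok) (L (nat_lit 493) ln13_15_7 ln13_15_7_ok))) (B (M (nat_lit 493) (B (L (nat_lit 364) ln13_15_7 ln13_15_7_ok) (L (nat_lit 525) ln13_16_7 ln13_16_7_ok))) (B (M (nat_lit 398) (B (M (nat_lit 493) (B (L (nat_lit 366) ln13_15_6 ln13_15_6_ok) (L (nat_lit 525) ln13_16_7 ln13_16_7_ok))) (M (nat_lit 399) (B (L (nat_lit 427) ln15_12_1 ln15_12_1_ok) (L (nat_lit 400) ln16_12_1 ln16_12_1_ok))))) (M (nat_lit 426) (B (M (nat_lit 427) (B (L (nat_lit 425) ln9_13_2 ln9_13_2_ok) (L (nat_lit 398) ln10_13_2 ln10_13_2_ok))) (B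 (M (nat_lit 427) (B (L (nat_lit 425) ln9_13_2 ln9_13_2_ok) (L (nat_lit 462) ln10_13_0 ln10_13_0_ok))) (B (M (nat_lit 427) (B (L (nat_lit 398) ln10_13_2 ln10_13_2_ok) (L (nat_lit 462) ln10_13_0 ln10_13_0_ok))) (M (nat_lit 459) (B (M (nat_lit 364) (B (L (nat_lit 332) ln12_10_4 ln12_10_4_ok) (L (nat_lit 491) ln12_11_5 ln12_11_5_ok))) (M (nat_lit 458) (B (L (nat_lit 425) ln13_14_3 ln13_14_3_ok) (L (nat_lit 457) ln9_14_2 ln9_14_2_ok))))))))))))) (M (nat_lit 492) (B (L (nat_lit 524) ln12_16_6 ln12_16_6_ok) (M (nat_lit 364) (B (M (nat_lit 332) (B (L (nat_lit 300) ln12_9_4 ln12_9_4_ok) (L (nat_lit 461) ln12_10_4 ln12_10_4_ok))) (M (nat_lit 491) (B (L (nat_lit 459) ln12_11_5 ln12_11_5_ok) (L (nat_lit 523) ln12_12_5 ln12_12_5_ok)))))))))))) (B (M (nat_lit 398) (B (M (nat_lit 399) (B (L (nat_lit 427) ln15_12_1 ln15_12_1_ok) (L (nat_lit 400) ln16_12_1 ln16_12_1_ok))) (B (M (nat_lit 395) (B (M (nat_lit 426) (B (L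 (nat_lit 427) ln14_12_1 ln14_12_1_ok) (M (nat_lit 394) (B (L (nat_lit 393) ln9_12_0 ln9_12_0_ok) (L (nat_lit 425) ln13_12_1 ln13_12_1_ok))))) (B (M (nat_lit 394) (B (M (nat_lit 362) (B (L (nat_lit 361) ln13_12_3 ln13_12_3_ok) (L (nat_lit 363) ln14_12_3 ln14_12_3_ok))) (M (nat_lit 426) (B (L (nat_lit 425) ln13_12_1 ln13_12_1_ok) (L (nat_lit 427) ln14_12_1 ln14_12_1_ok))))) (B (M (nat_lit 427) (B (L (nat_lit 426) ln14_12_1 ln14_12_1_ok) (M (nat_lit 363) (B (L (nat_lit 362) ln14_12_3 ln14_12_3_ok) (M (nat_lit 460) (B (L (nat_lit 331) ln11_10_4 ln11_10_4_ok) (L (nat_lit 492) ln12_15_7 ln12_15_7_ok))))))) (M (nat_lit 394) (B (L (nat_lit 393) ln9_12_0 ln9_12_0_ok) (M (nat_lit 362) (B (L (nat_lit 361) ln13_12_3 ln13_12_3_ok) (L (nat_lit 363) ln14_12_3 ln14_12_3_ok))))))))) (M (nat_lit 395) (B (M (nat_lit 394) (B (L (nat_lit 393) ln9_12_0 ln9_12_0_ok) (M (nat_lit 362) (B (L (nat_lit 361) ln13_12_3 ln13_12_3_ok)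 (L (nat_lit 363) ln14_12_3 ln14_12_3_ok))))) (M (nat_lit 399) (B (L (nat_lit 400) ln16_12_1 ln16_12_1_ok) (M (nat_lit 367) (B (L (nat_lit 366) ln11_12_2 ln11_12_2_ok) (L (nat_lit 368) ln12_12_2 ln12_12_2_ok)))))))))) (B (M (nat_lit 398) (B (M (nat_lit 399) (B (L (nat_lit 427) ln15_12_1 ln15_12_1_ok) (L (nat_lit 400) ln16_12_1 ln16_12_1_ok))) (B (M (nat_lit 364) (B (M (nat_lit 332) (B (L (nat_lit 300) ln12_9_4 ln12_9_4_ok) (L (nat_lit 461) ln12_10_4 ln12_10_4_ok))) (B (M (nat_lit 461) (B (L (nat_lit 332) ln12_10_4 ln12_10_4_ok) (L (nat_lit 493) ln13_15_7 ln13_15_7_ok))) (B (M (nat_lit 460) (B (M (nat_lit 493) (B (L (nat_lit 461) ln13_15_7 ln13_15_7_ok) (M (nat_lit 492) (B (L (nat_lit 525) ln12_12_4 ln12_12_4_ok) (L (nat_lit 524) ln12_16_6 ln12_16_6_ok))))) (B (M (nat_lit 492) (B (L (nat_lit 524) ln12_16_6 ln12_16_6_ok) (M (nat_lit 363) (B (L (nat_lit 331) ln12_14_7 ln12_14_7_ok) (L (nat_lit 395) ln12_15_7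 ln12_15_7_ok))))) (M (nat_lit 363) (B (L (nat_lit 331) ln12_14_7 ln12_14_7_ok) (M (nat_lit 362) (B (L (nat_lit 361) ln9_11_0 ln9_11_0_ok) (L (nat_lit 395) ln14_12_3 ln14_12_3_ok)))))))) (M (nat_lit 427) (B (L (nat_lit 426) ln10_13_2 ln10_13_2_ok) (M (nat_lit 332) (B (L (nat_lit 300) ln12_9_4 ln12_9_4_ok) (L (nat_lit 459) ln12_10_5 ln12_10_5_ok))))))))) (M (nat_lit 364) (B (M (nat_lit 332) (B (L (nat_lit 300) ln12_9_4 ln12_9_4_ok) (L (nat_lit 461) ln12_10_4 ln12_10_4_ok))) (M (nat_lit 399) (B (L (nat_lit 363) ln15_12_3 ln15_12_3_ok) (L (nat_lit 400) ln16_12_1 ln16_12_1_ok)))))))) (B (M (nat_lit 460) (B (M (nat_lit 492) (B (L (nat_lit 524) ln12_16_6 ln12_16_6_ok) (M (nat_lit 364) (B (M (nat_lit 493) (B (L (nat_lit 461) ln13_15_7 ln13_15_7_ok) (L (nat_lit 525) ln12_12_4 ln12_12_4_ok))) (M (nat_lit 491) (B (L (nat_lit 459) ln12_11_5 ln12_11_5_ok) (L (nat_lit 523) ln12_12_5 ln12_12_5_ok))))))) (B (M (nat_lit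 492) (B (L (nat_lit 524) ln12_16_6 ln12_16_6_ok) (M (nat_lit 493) (B (L (nat_lit 525) ln12_12_4 ln12_12_4_ok) (M (nat_lit 461) (B (M (nat_lit 491) (B (L (nat_lit 523) ln12_12_5 ln12_12_5_ok) (M (nat_lit 462) (B (L (nat_lit 463) ln15_14_1 ln15_14_1_ok) (L (nat_lit 490) ln10_15_2 ln10_15_2_ok))))) (M (nat_lit 398) (B (L (nat_lit 366) ln13_15_6 ln13_15_6_ok) (M (nat_lit 399) (B (L (nat_lit 427) ln15_12_1 ln15_12_1_ok) (L (nat_lit 400) ln16_12_1 ln16_12_1_ok))))))))))) (B (M (nat_lit 364) (B (M (nat_lit 459) (B (L (nat_lit 491) ln12_11_5 ln12_11_5_ok) (M (nat_lit 332) (B (L (nat_lit 300) ln12_9_4 ln12_9_4_ok) (L (nat_lit 427) ln12_10_5 ln12_10_5_ok))))) (B (M (nat_lit 492) (B (L (nat_lit 524) ln12_16_6 ln12_16_6_ok) (M (nat_lit 491) (B (L (nat_lit 459) ln12_11_5 ln12_11_5_ok) (L (nat_lit 523) ln12_12_5 ln12_12_5_ok))))) (M (nat_lit 332) (B (L (nat_lit 300) ln12_9_4 ln12_9_4_ok) (M (nat_lit 331) (B (L (nat_lit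 299) ln12_13_7 ln12_13_7_ok) (L (nat_lit 363) ln12_14_7 ln12_14_7_ok)))))))) (B (M (nat_lit 398) (B (M (nat_lit 399) (B (L (nat_lit 427) ln15_12_1 ln15_12_1_ok) (L (nat_lit 400) ln16_12_1 ln16_12_1_ok))) (M (nat_lit 492) (B (L (nat_lit 524) ln12_16_6 ln12_16_6_ok) (M (nat_lit 493) (B (L (nat_lit 525) ln12_12_4 ln12_12_4_ok) (M (nat_lit 461) (B (L (nat_lit 364) ln13_15_7 ln13_15_7_ok) (L (nat_lit 366) ln13_15_6 ln13_15_6_ok))))))))) (M (nat_lit 461) (B (M (nat_lit 364) (B (L (nat_lit 332) ln12_10_4 ln12_10_4_ok) (L (nat_lit 493) ln13_15_7 ln13_15_7_ok))) (B (M (nat_lit 493) (B (L (nat_lit 364) ln13_15_7 ln13_15_7_ok) (L (nat_lit 525) ln13_16_7 ln13_16_7_ok))) (B (M (nat_lit 398) (B (M (nat_lit 493) (B (L (nat_lit 366) ln13_15_6 ln13_15_6_ok) (L (nat_lit 525) ln13_16_7 ln13_16_7_ok))) (M (nat_lit 399) (B (L (nat_lit 427) ln15_12_1 ln15_12_1_ok) (L (nat_lit 400) ln16_12_1 ln16_12_1_ok))))) (M (nat_lit 426)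 (B (M (nat_lit 427) (B (L (nat_lit 425) ln9_13_2 ln9_13_2_ok) (L (nat_lit 398) ln10_13_2 ln10_13_2_ok))) (B (M (nat_lit 427) (B (L (nat_lit 425) ln9_13_2 ln9_13_2_ok) (L (nat_lit 462) ln10_13_0 ln10_13_0_ok))) (B (M (nat_lit 427) (B (L (nat_lit 398) ln10_13_2 ln10_13_2_ok) (L (nat_lit 462) ln10_13_0 ln10_13_0_ok))) (M (nat_lit 459) (B (M (nat_lit 364) (B (L (nat_lit 332) ln12_10_4 ln12_10_4_ok) (L (nat_lit 491) ln12_11_5 ln12_11_5_ok))) (M (nat_lit 458) (B (L (nat_lit 425) ln13_14_3 ln13_14_3_ok) (L (nat_lit 457) ln9_14_2 ln9_14_2_ok)))))))))))))))))) (B (M (nat_lit 426) (B (M (nat_lit 427) (B (L (nat_lit 425) ln9_13_2 ln9_13_2_ok) (M (nat_lit 461) (B (L (nat_lit 462) ln10_13_0 ln10_13_0_ok) (M (nat_lit 364) (B (L (nat_lit 332) ln12_10_4 ln12_10_4_ok) (L (nat_lit 493) ln13_15_7 ln13_15_7_ok))))))) (B (M (nat_lit 394) (B (M (nat_lit 393) (B (L (nat_lit 395) ln9_12_0 ln9_12_0_ok) (L (nat_lit 427) ln13_13_3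 ln13_13_3_ok))) (B (M (nat_lit 425) (B (L (nat_lit 395) ln13_12_1 ln13_12_1_ok) (L (nat_lit 427) ln9_13_2 ln9_13_2_ok))) (B (M (nat_lit 427) (B (L (nat_lit 393) ln13_13_3 ln13_13_3_ok) (L (nat_lit 425) ln9_13_2 ln9_13_2_ok))) (M (nat_lit 395) (B (L (nat_lit 393) ln9_12_0 ln9_12_0_ok) (L (nat_lit 425) ln13_12_1 ln13_12_1_ok))))))) (B (M (nat_lit 427) (B (M (nat_lit 461) (B (L (nat_lit 462) ln10_13_0 ln10_13_0_ok) (M (nat_lit 364) (B (L (nat_lit 332) ln12_10_4 ln12_10_4_ok) (L (nat_lit 493) ln13_15_7 ln13_15_7_ok))))) (M (nat_lit 394) (B (L (nat_lit 393) ln13_13_3 ln13_13_3_ok) (M (nat_lit 395) (B (M (nat_lit 458) (B (L (nat_lit 457) ln13_13_1 ln13_13_1_ok) (M (nat_lit 363) (B (L (nat_lit 331) ln11_10_5 ln11_10_5_ok) (L (nat_lit 490) ln10_15_6 ln10_15_6_ok))))) (M (nat_lit 362) (B (L (nat_lit 361) ln13_12_3 ln13_12_3_ok) (M (nat_lit 330) (B (L (nat_lit 298) ln10_9_4 ln10_9_4_ok) (L (nat_lit 459) ln10_10_4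 ln10_10_4_ok))))))))))) (M (nat_lit 460) (B (M (nat_lit 492) (B (L (nat_lit 524) ln12_16_6 ln12_16_6_ok) (M (nat_lit 395) (B (L (nat_lit 363) ln12_15_7 ln12_15_7_ok) (M (nat_lit 394) (B (L (nat_lit 393) ln9_12_0 ln9_12_0_ok) (L (nat_lit 425) ln13_12_1 ln13_12_1_ok))))))) (B (M (nat_lit 492) (B (L (nat_lit 524) ln12_16_6 ln12_16_6_ok) (M (nat_lit 364) (B (M (nat_lit 332) (B (L (nat_lit 300) ln12_9_4 ln12_9_4_ok) (L (nat_lit 461) ln12_10_4 ln12_10_4_ok))) (M (nat_lit 491) (B (L (nat_lit 459) ln12_11_5 ln12_11_5_ok) (L (nat_lit 523) ln12_12_5 ln12_12_5_ok))))))) (M (nat_lit 364) (B (M (nat_lit 332) (B (L (nat_lit 300) ln12_9_4 ln12_9_4_ok) (L (nat_lit 461) ln12_10_4 ln12_10_4_ok))) (B (M (nat_lit 461) (B (L (nat_lit 332) ln12_10_4 ln12_10_4_ok) (L (nat_lit 493) ln13_15_7 ln13_15_7_ok))) (B (M (nat_lit 461) (B (L (nat_lit 493) ln13_15_7 ln13_15_7_ok) (M (nat_lit 459) (B (L (nat_lit 491) ln12_11_5 ln12_11_5_ok)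 (M (nat_lit 458) (B (L (nat_lit 425) ln13_14_3 ln13_14_3_ok) (L (nat_lit 457) ln9_14_2 ln9_14_2_ok))))))) (M (nat_lit 332) (B (L (nat_lit 300) ln12_9_4 ln12_9_4_ok) (M (nat_lit 331) (B (L (nat_lit 299) ln12_13_7 ln12_13_7_ok) (L (nat_lit 363) ln12_14_7 ln12_14_7_ok)))))))))))))))) (B (M (nat_lit 364) (B (M (nat_lit 332) (B (L (nat_lit 300) ln12_9_4 ln12_9_4_ok) (L (nat_lit 461) ln12_10_4 ln12_10_4_ok))) (B (M (nat_lit 461) (B (L (nat_lit 332) ln12_10_4 ln12_10_4_ok) (L (nat_lit 493) ln13_15_7 ln13_15_7_ok))) (M (nat_lit 460) (B (M (nat_lit 492) (B (L (nat_lit 524) ln12_16_6 ln12_16_6_ok) (M (nat_lit 491) (B (L (nat_lit 459) ln12_11_5 ln12_11_5_ok) (L (nat_lit 523) ln12_12_5 ln12_12_5_ok))))) (B (M (nat_lit 492) (B (L (nat_lit 524) ln12_16_6 ln12_16_6_ok) (M (nat_lit 363) (B (L (nat_lit 331) ln12_14_7 ln12_14_7_ok) (L (nat_lit 395) ln12_15_7 ln12_15_7_ok))))) (M (nat_lit 363) (B (L (nat_lit 331) ln12_14_7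 ln12_14_7_ok) (M (nat_lit 398) (B (L (nat_lit 399) ln15_12_3 ln15_12_3_ok) (M (nat_lit 362) (B (L (nat_lit 361) ln9_11_0 ln9_11_0_ok) (L (nat_lit 395) ln14_12_3 ln14_12_3_ok))))))))))))) c31_n2232))))))))))) (nat_lit 2079502270913392379444674211814302674077704290823075655481512624564798400421800170032085953906810352733060637150540575368324055040) (nat_lit 192214334582753858047986040976460496497588163843701438835223661084509769179258742024241426427918621715743431460981628979701456924653994125162656413992836136960) (nat_lit 192214334582753858047986040976460496497588163843701438835223661084509769179258742024241426427918621715743431460981628979701456924653994125162656413992836136960) (by decide +kernel)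
noncomputable def c31_n2302 : Cert := (M (nat_lit 430) (B (M (nat_lit 431) (B (M (nat_lit 396) (B (L (nat_lit 395) ln11_12_0 ln11_12_0_ok) (L (nat_lit 432) ln16_13_3 ln16_13_3_ok))) (B (M (nat_lit 432) (B (L (nat_lit 396) ln16_13_3 ln16_13_3_ok) (L (nat_lit 433) ln17_13_3 ln17_13_3_ok))) (B (M (nat_lit 460) (B (L (nat_lit 459) ln15_13_1 ln15_13_1_ok) (M (nat_lit 432) (B (L (nat_lit 433) ln17_13_3 ln17_13_3_ok) (L (nat_lit 461) ln16_13_1 ln16_13_1_ok))))) (M (nat_lit 395) (B (L (nat_lit 396) ln11_12_0 ln11_12_0_ok) (M (nat_lit 427) (B (L (nat_lit 394) ln14_13_3 ln14_13_3_ok) (L (nat_lit 426) ln10_13_2 ln10_13_2_ok))))))))) (B (M (nat_lit 493) (B (M (nat_lit 461) (B (L (nat_lit 366) ln13_15_6 ln13_15_6_ok) (L (nat_lit 525) ln13_16_6 ln13_16_6_ok))) (B (M (nat_lit 396) (B (M (nat_lit 461) (B (L (nat_lit 364) ln13_15_7 ln13_15_7_ok) (L (nat_lit 525) ln13_16_7 ln13_16_7_ok))) (M (nat_lit 431) (B (L (nat_lit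 395) ln11_12_0 ln11_12_0_ok) (L (nat_lit 432) ln16_13_3 ln16_13_3_ok))))) (B (M (nat_lit 462) (B (M (nat_lit 494) (B (L (nat_lit 526) ln14_16_7 ln14_16_7_ok) (L (nat_lit 525) ln14_12_5 ln14_12_5_ok))) (M (nat_lit 427) (B (L (nat_lit 426) ln10_13_2 ln10_13_2_ok) (L (nat_lit 463) ln11_13_0 ln11_13_0_ok))))) (M (nat_lit 396) (B (M (nat_lit 461) (B (L (nat_lit 364) ln13_15_7 ln13_15_7_ok) (L (nat_lit 366) ln13_15_6 ln13_15_6_ok))) (M (nat_lit 431) (B (L (nat_lit 395) ln11_12_0 ln11_12_0_ok) (L (nat_lit 432) ln16_13_3 ln16_13_3_ok))))))))) (B (M (nat_lit 431) (B (M (nat_lit 432) (B (L (nat_lit 396) ln16_13_3 ln16_13_3_ok) (L (nat_lit 433) ln17_13_3 ln17_13_3_ok))) (B (M (nat_lit 460) (B (L (nat_lit 459) ln15_13_1 ln15_13_1_ok) (M (nat_lit 432) (B (L (nat_lit 433) ln17_13_3 ln17_13_3_ok) (L (nat_lit 461) ln16_13_1 ln16_13_1_ok))))) (M (nat_lit 493) (B (M (nat_lit 461) (B (L (nat_lit 366) ln13_15_6 ln13_15_6_ok)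 (L (nat_lit 525) ln13_16_6 ln13_16_6_ok))) (B (M (nat_lit 462) (B (M (nat_lit 494) (B (L (nat_lit 526) ln14_16_7 ln14_16_7_ok) (L (nat_lit 525) ln14_12_5 ln14_12_5_ok))) (M (nat_lit 427) (B (L (nat_lit 426) ln10_13_2 ln10_13_2_ok) (L (nat_lit 463) ln11_13_0 ln11_13_0_ok))))) (M (nat_lit 366) (B (L (nat_lit 461) ln13_15_6 ln13_15_6_ok) (M (nat_lit 334) (B (L (nat_lit 302) ln14_9_5 ln14_9_5_ok) (L (nat_lit 463) ln14_10_4 ln14_10_4_ok))))))))))) (B (M (nat_lit 366) (B (M (nat_lit 334) (B (L (nat_lit 302) ln14_9_5 ln14_9_5_ok) (L (nat_lit 461) ln14_10_5 ln14_10_5_ok))) (B (M (nat_lit 461) (B (L (nat_lit 334) ln14_10_5 ln14_10_5_ok) (L (nat_lit 493) ln13_15_6 ln13_15_6_ok))) (B (M (nat_lit 493) (B (L (nat_lit 461) ln13_15_6 ln13_15_6_ok) (M (nat_lit 462) (B (M (nat_lit 494) (B (L (nat_lit 526) ln14_16_7 ln14_16_7_ok) (L (nat_lit 525) ln14_12_5 ln14_12_5_ok))) (M (nat_lit 427) (B (L (nat_lit 426) ln10_13_2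 ln10_13_2_ok) (L (nat_lit 463) ln11_13_0 ln11_13_0_ok))))))) (M (nat_lit 463) (B (M (nat_lit 334) (B (L (nat_lit 302) ln14_9_5 ln14_9_5_ok) (L (nat_lit 431) ln14_10_4 ln14_10_4_ok))) (M (nat_lit 427) (B (L (nat_lit 426) ln10_13_2 ln10_13_2_ok) (L (nat_lit 462) ln11_13_0 ln11_13_0_ok))))))))) (B (M (nat_lit 396) (B (M (nat_lit 395) (B (L (nat_lit 394) ln10_12_0 ln10_12_0_ok) (L (nat_lit 431) ln11_12_0 ln11_12_0_ok))) (B (M (nat_lit 431) (B (L (nat_lit 395) ln11_12_0 ln11_12_0_ok) (L (nat_lit 432) ln16_13_3 ln16_13_3_ok))) (B (M (nat_lit 460) (B (M (nat_lit 431) (B (L (nat_lit 432) ln16_13_3 ln16_13_3_ok) (L (nat_lit 459) ln15_13_1 ln15_13_1_ok))) (M (nat_lit 493) (B (M (nat_lit 461) (B (L (nat_lit 364) ln13_15_7 ln13_15_7_ok) (L (nat_lit 366) ln13_15_6 ln13_15_6_ok))) (M (nat_lit 492) (B (L (nat_lit 525) ln12_12_4 ln12_12_4_ok) (L (nat_lit 524) ln12_16_6 ln12_16_6_ok))))))) (M (nat_lit 366) (B (M (nat_lit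 334) (B (L (nat_lit 302) ln14_9_5 ln14_9_5_ok) (L (nat_lit 461) ln14_10_5 ln14_10_5_ok))) (M (nat_lit 395) (B (L (nat_lit 367) ln11_12_2 ln11_12_2_ok) (L (nat_lit 394) ln10_12_0 ln10_12_0_ok))))))))) (B (M (nat_lit 427) (B (L (nat_lit 426) ln10_13_2 ln10_13_2_ok) (M (nat_lit 366) (B (M (nat_lit 461) (B (L (nat_lit 334) ln14_10_5 ln14_10_5_ok) (L (nat_lit 493) ln13_15_6 ln13_15_6_ok))) (M (nat_lit 367) (B (M (nat_lit 462) (B (L (nat_lit 335) ln14_14_6 ln14_14_6_ok) (L (nat_lit 463) ln11_13_0 ln11_13_0_ok))) (M (nat_lit 395) (B (L (nat_lit 396) ln11_12_2 ln11_12_2_ok) (L (nat_lit 394) ln14_13_3 ln14_13_3_ok))))))))) (M (nat_lit 427) (B (L (nat_lit 426) ln10_13_2 ln10_13_2_ok) (M (nat_lit 366) (B (M (nat_lit 395) (B (L (nat_lit 394) ln14_13_3 ln14_13_3_ok) (M (nat_lit 396) (B (L (nat_lit 367) ln11_12_2 ln11_12_2_ok) (L (nat_lit 431) ln11_12_0 ln11_12_0_ok))))) (B (M (nat_lit 334) (B (L (nat_lit 302) ln14_9_5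 ln14_9_5_ok) (M (nat_lit 463) (B (L (nat_lit 431) ln14_10_4 ln14_10_4_ok) (L (nat_lit 462) ln11_13_0 ln11_13_0_ok))))) (M (nat_lit 367) (B (M (nat_lit 462) (B (L (nat_lit 335) ln14_14_6 ln14_14_6_ok) (L (nat_lit 463) ln11_13_0 ln11_13_0_ok))) (M (nat_lit 395) (B (L (nat_lit 396) ln11_12_2 ln11_12_2_ok) (L (nat_lit 394) ln14_13_3 ln14_13_3_ok)))))))))))))))))
theorem c31_s2303 : Sem (nat_lit 2079502270913392379444674211814302674077704290823075655481512624564798400421800170032085953906810352733060637150540575368324055040) (nat_lit 384428669056820918519792110976920587191174757589666063929371534036785303519557933260904095217465076677288452743672088934874566965561079814071680156202260496384) (nat_lit 384428669056820918519792110976920587191174757589666063929371534036785303519557933260904095217465076677288452743672088934874566965561079814071680156202260496384) :=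
  sem_of_chk (M (nat_lit 398) (B (M (nat_lit 399) (B (L (nat_lit 400) ln16_12_1 ln16_12_1_ok) (M (nat_lit 427) (B (L (nat_lit 396) ln15_12_1 ln15_12_1_ok) (L (nat_lit 426) ln10_13_2 ln10_13_2_ok))))) (B (M (nat_lit 399) (B (L (nat_lit 400) ln16_12_1 ln16_12_1_ok) (M (nat_lit 427) (B (L (nat_lit 426) ln10_13_2 ln10_13_2_ok) (L (nat_lit 430) ln11_13_2 ln11_13_2_ok))))) (B c31_n2302 (B (M (nat_lit 399) (B (L (nat_lit 400) ln16_12_1 ln16_12_1_ok) (M (nat_lit 427) (B (L (nat_lit 396) ln15_12_1 ln15_12_1_ok) (L (nat_lit 430) ln11_13_2 ln11_13_2_ok))))) (M (nat_lit 399) (B (L (nat_lit 400) ln16_12_1 ln16_12_1_ok) (M (nat_lit 396) (B (M (nat_lit 364) (B (L (nat_lit 363) ln15_12_3 ln15_12_3_ok) (M (nat_lit 461) (B (L (nat_lit 332) ln12_10_4 ln12_10_4_ok) (L (nat_lit 493) ln13_15_7 ln13_15_7_ok))))) (M (nat_lit 395) (B (M (nat_lit 367) (B (L (nat_lit 366) ln11_12_2 ln11_12_2_ok) (L (nat_lit 368) ln12_12_2 ln12_12_2_ok)))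 (M (nat_lit 431) (B (L (nat_lit 430) ln11_12_0 ln11_12_0_ok) (L (nat_lit 432) ln12_12_0 ln12_12_0_ok)))))))))))))) (nat_lit 2079502270913392379444674211814302674077704290823075655481512624564798400421800170032085953906810352733060637150540575368324055040) (nat_lit 384428669056820918519792110976920587191174757589666063929371534036785303519557933260904095217465076677288452743672088934874566965561079814071680156202260496384) (nat_lit 384428669056820918519792110976920587191174757589666063929371534036785303519557933260904095217465076677288452743672088934874566965561079814071680156202260496384) (by decide +kernel)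
theorem c31_s2365 : Sem (nat_lit 1386334847383188664550070665778531748218595021979121511688892729411143073470393764272092352380775458208712834410189682411080515584) (nat_lit 411887859706933368927592937302767967654707733621437451570918220257274459388776405893351945545021350434232483052330963502052168500236695657065156161399620108288) (nat_lit 411887859706933368927592937302767967654707733621437451570918220257274459388776405893351945545021350434232483052330963502052168500236695657065156161399620108288) :=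
  sem_of_chk (M (nat_lit 428) (B c31_n801 (B c31_n810 (B c31_n840 (B (M (nat_lit 427) (B (M (nat_lit 398) (B (L (nat_lit 426) ln10_13_2 ln10_13_2_ok) (M (nat_lit 399) (B (L (nat_lit 396) ln15_12_1 ln15_12_1_ok) (L (nat_lit 400) ln16_12_1 ln16_12_1_ok))))) (B (M (nat_lit 398) (B (L (nat_lit 426) ln10_13_2 ln10_13_2_ok) (M (nat_lit 399) (B (L (nat_lit 400) ln16_12_1 ln16_12_1_ok) (L (nat_lit 430) ln11_13_2 ln11_13_2_ok))))) (B (M (nat_lit 426) (B (M (nat_lit 461) (B (L (nat_lit 462) ln10_13_0 ln10_13_0_ok) (M (nat_lit 425) (B (L (nat_lit 396) ln9_13_2 ln9_13_2_ok) (L (nat_lit 460) ln9_13_0 ln9_13_0_ok))))) (B (M (nat_lit 430) (B (M (nat_lit 394) (B (L (nat_lit 393) ln13_13_3 ln13_13_3_ok) (L (nat_lit 395) ln14_13_3 ln14_13_3_ok))) (M (nat_lit 462) (B (L (nat_lit 461) ln10_13_0 ln10_13_0_ok) (L (nat_lit 463) ln11_13_0 ln11_13_0_ok))))) (M (nat_lit 425) (B (L (nat_lit 396) ln9_13_2 ln9_13_2_ok) (M (nat_lit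 393) (B (L (nat_lit 392) ln12_13_3 ln12_13_3_ok) (L (nat_lit 394) ln13_13_3 ln13_13_3_ok)))))))) (M (nat_lit 430) (B (M (nat_lit 399) (B (L (nat_lit 398) ln11_13_2 ln11_13_2_ok) (M (nat_lit 395) (B (L (nat_lit 394) ln14_13_3 ln14_13_3_ok) (M (nat_lit 431) (B (L (nat_lit 396) ln15_13_3 ln15_13_3_ok) (L (nat_lit 400) ln12_13_2 ln12_13_2_ok))))))) (B (M (nat_lit 431) (B (M (nat_lit 396) (B (L (nat_lit 395) ln15_13_3 ln15_13_3_ok) (L (nat_lit 432) ln16_13_3 ln16_13_3_ok))) (M (nat_lit 459) (B (L (nat_lit 458) ln14_13_1 ln14_13_1_ok) (L (nat_lit 460) ln15_13_1 ln15_13_1_ok))))) (B (M (nat_lit 431) (B (M (nat_lit 399) (B (L (nat_lit 398) ln11_13_2 ln11_13_2_ok) (L (nat_lit 400) ln12_13_2 ln12_13_2_ok))) (M (nat_lit 459) (B (L (nat_lit 458) ln14_13_1 ln14_13_1_ok) (L (nat_lit 460) ln15_13_1 ln15_13_1_ok))))) (M (nat_lit 398) (B (L (nat_lit 399) ln11_13_2 ln11_13_2_ok) (M (nat_lit 366) (B (M (nat_lit 461) (B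 (L (nat_lit 334) ln14_10_5 ln14_10_5_ok) (L (nat_lit 493) ln13_15_6 ln13_15_6_ok))) (M (nat_lit 367) (B (M (nat_lit 462) (B (L (nat_lit 335) ln14_14_6 ln14_14_6_ok) (L (nat_lit 463) ln11_13_0 ln11_13_0_ok))) (M (nat_lit 395) (B (L (nat_lit 396) ln11_12_2 ln11_12_2_ok) (L (nat_lit 394) ln14_13_3 ln14_13_3_ok))))))))))))))))) (B (M (nat_lit 427) (B (M (nat_lit 398) (B (L (nat_lit 426) ln10_13_2 ln10_13_2_ok) (M (nat_lit 399) (B (L (nat_lit 400) ln16_12_1 ln16_12_1_ok) (L (nat_lit 430) ln11_13_2 ln11_13_2_ok))))) (B (M (nat_lit 426) (B (M (nat_lit 461) (B (L (nat_lit 462) ln10_13_0 ln10_13_0_ok) (M (nat_lit 425) (B (L (nat_lit 396) ln9_13_2 ln9_13_2_ok) (L (nat_lit 460) ln9_13_0 ln9_13_0_ok))))) (B (M (nat_lit 430) (B (M (nat_lit 394) (B (L (nat_lit 393) ln13_13_3 ln13_13_3_ok) (L (nat_lit 395) ln14_13_3 ln14_13_3_ok))) (M (nat_lit 462) (B (L (nat_lit 461) ln10_13_0 ln10_13_0_ok) (L (nat_lit 463) ln11_13_0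 ln11_13_0_ok))))) (M (nat_lit 425) (B (L (nat_lit 396) ln9_13_2 ln9_13_2_ok) (M (nat_lit 393) (B (L (nat_lit 392) ln12_13_3 ln12_13_3_ok) (L (nat_lit 394) ln13_13_3 ln13_13_3_ok)))))))) (B (M (nat_lit 430) (B (M (nat_lit 399) (B (L (nat_lit 398) ln11_13_2 ln11_13_2_ok) (M (nat_lit 395) (B (L (nat_lit 394) ln14_13_3 ln14_13_3_ok) (M (nat_lit 431) (B (L (nat_lit 396) ln15_13_3 ln15_13_3_ok) (L (nat_lit 400) ln12_13_2 ln12_13_2_ok))))))) (B (M (nat_lit 431) (B (M (nat_lit 396) (B (L (nat_lit 395) ln15_13_3 ln15_13_3_ok) (L (nat_lit 432) ln16_13_3 ln16_13_3_ok))) (M (nat_lit 459) (B (L (nat_lit 458) ln14_13_1 ln14_13_1_ok) (L (nat_lit 460) ln15_13_1 ln15_13_1_ok))))) (B (M (nat_lit 431) (B (M (nat_lit 399) (B (L (nat_lit 398) ln11_13_2 ln11_13_2_ok) (L (nat_lit 400) ln12_13_2 ln12_13_2_ok))) (M (nat_lit 459) (B (L (nat_lit 458) ln14_13_1 ln14_13_1_ok) (L (nat_lit 460) ln15_13_1 ln15_13_1_ok))))) (M (nat_lit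 396) (B (M (nat_lit 395) (B (L (nat_lit 394) ln10_12_0 ln10_12_0_ok) (M (nat_lit 459) (B (L (nat_lit 458) ln14_13_1 ln14_13_1_ok) (M (nat_lit 364) (B (L (nat_lit 332) ln12_10_5 ln12_10_5_ok) (L (nat_lit 491) ln11_15_6 ln11_15_6_ok))))))) (B (M (nat_lit 395) (B (L (nat_lit 394) ln10_12_0 ln10_12_0_ok) (M (nat_lit 459) (B (L (nat_lit 458) ln14_13_1 ln14_13_1_ok) (M (nat_lit 491) (B (L (nat_lit 364) ln11_15_6 ln11_15_6_ok) (L (nat_lit 523) ln11_16_6 ln11_16_6_ok))))))) (B (M (nat_lit 395) (B (L (nat_lit 394) ln10_12_0 ln10_12_0_ok) (M (nat_lit 363) (B (M (nat_lit 331) (B (L (nat_lit 299) ln11_9_4 ln11_9_4_ok) (L (nat_lit 460) ln11_10_4 ln11_10_4_ok))) (M (nat_lit 398) (B (L (nat_lit 362) ln14_12_3 ln14_12_3_ok) (L (nat_lit 399) ln15_12_1 ln15_12_1_ok))))))) (B (M (nat_lit 459) (B (L (nat_lit 458) ln14_13_1 ln14_13_1_ok) (M (nat_lit 364) (B (L (nat_lit 332) ln12_10_5 ln12_10_5_ok) (M (nat_lit 491) (B (L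 (nat_lit 395) ln11_15_6 ln11_15_6_ok) (L (nat_lit 523) ln11_16_6 ln11_16_6_ok))))))) (M (nat_lit 459) (B (L (nat_lit 458) ln14_13_1 ln14_13_1_ok) (M (nat_lit 364) (B (L (nat_lit 332) ln12_10_5 ln12_10_5_ok) (M (nat_lit 491) (B (L (nat_lit 460) ln12_11_5 ln12_11_5_ok) (L (nat_lit 523) ln11_16_6 ln11_16_6_ok)))))))))))))))) (M (nat_lit 398) (B (L (nat_lit 426) ln10_13_2 ln10_13_2_ok) (M (nat_lit 399) (B (L (nat_lit 396) ln15_12_1 ln15_12_1_ok) (L (nat_lit 400) ln16_12_1 ln16_12_1_ok))))))))) (B (M (nat_lit 398) (B (M (nat_lit 399) (B (L (nat_lit 400) ln16_12_1 ln16_12_1_ok) (M (nat_lit 427) (B (L (nat_lit 396) ln15_12_1 ln15_12_1_ok) (L (nat_lit 430) ln11_13_2 ln11_13_2_ok))))) (B (M (nat_lit 399) (B (L (nat_lit 400) ln16_12_1 ln16_12_1_ok) (M (nat_lit 427) (B (L (nat_lit 426) ln10_13_2 ln10_13_2_ok) (L (nat_lit 430) ln11_13_2 ln11_13_2_ok))))) (B (K (nat_lit 2079502271558954848966401359228282467078457259405502103688818502772463239556962075536296252564221691053095095009516368361510928384)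 (nat_lit 411887859703736698411883290521452365813226860935116742430449456199421650196073346335264190135248688677929102474313030528619428578129826839398959232078533623808) (nat_lit 411887859703736698411883290521452365813226860935116742430449456199421650196073346335264190135248688677929102474313030528619428578129826839398959232078533623808) c31_s1060) (B (M (nat_lit 399) (B (L (nat_lit 400) ln16_12_1 ln16_12_1_ok) (M (nat_lit 396) (B (M (nat_lit 364) (B (L (nat_lit 363) ln15_12_3 ln15_12_3_ok) (M (nat_lit 461) (B (L (nat_lit 332) ln12_10_4 ln12_10_4_ok) (L (nat_lit 493) ln13_15_7 ln13_15_7_ok))))) (M (nat_lit 395) (B (M (nat_lit 367) (B (L (nat_lit 366) ln11_12_2 ln11_12_2_ok) (L (nat_lit 368) ln12_12_2 ln12_12_2_ok))) (M (nat_lit 431) (B (L (nat_lit 430) ln11_12_0 ln11_12_0_ok) (L (nat_lit 432) ln12_12_0 ln12_12_0_ok))))))))) (M (nat_lit 399) (B (L (nat_lit 400) ln16_12_1 ln16_12_1_ok) (M (nat_lit 427)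 (B (L (nat_lit 396) ln15_12_1 ln15_12_1_ok) (L (nat_lit 426) ln10_13_2 ln10_13_2_ok)))))))))) (B (M (nat_lit 427) (B (M (nat_lit 398) (B (L (nat_lit 426) ln10_13_2 ln10_13_2_ok) (M (nat_lit 399) (B (L (nat_lit 396) ln15_12_1 ln15_12_1_ok) (L (nat_lit 400) ln16_12_1 ln16_12_1_ok))))) (B (M (nat_lit 398) (B (L (nat_lit 426) ln10_13_2 ln10_13_2_ok) (M (nat_lit 399) (B (L (nat_lit 400) ln16_12_1 ln16_12_1_ok) (L (nat_lit 430) ln11_13_2 ln11_13_2_ok))))) (B (M (nat_lit 426) (B (M (nat_lit 425) (B (L (nat_lit 396) ln9_13_2 ln9_13_2_ok) (M (nat_lit 457) (B (L (nat_lit 456) ln12_13_1 ln12_13_1_ok) (L (nat_lit 458) ln13_13_1 ln13_13_1_ok))))) (B (M (nat_lit 430) (B (M (nat_lit 458) (B (L (nat_lit 457) ln13_13_1 ln13_13_1_ok) (L (nat_lit 459) ln14_13_1 ln14_13_1_ok))) (M (nat_lit 462) (B (L (nat_lit 461) ln10_13_0 ln10_13_0_ok) (L (nat_lit 463) ln11_13_0 ln11_13_0_ok))))) (M (nat_lit 461) (B (L (nat_lit 462) ln10_13_0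 ln10_13_0_ok) (M (nat_lit 425) (B (L (nat_lit 396) ln9_13_2 ln9_13_2_ok) (L (nat_lit 460) ln9_13_0 ln9_13_0_ok)))))))) (M (nat_lit 398) (B (M (nat_lit 399) (B (L (nat_lit 396) ln15_12_1 ln15_12_1_ok) (L (nat_lit 400) ln16_12_1 ln16_12_1_ok))) (B (M (nat_lit 399) (B (L (nat_lit 400) ln16_12_1 ln16_12_1_ok) (L (nat_lit 430) ln11_13_2 ln11_13_2_ok))) (M (nat_lit 430) (B (M (nat_lit 459) (B (L (nat_lit 458) ln14_13_1 ln14_13_1_ok) (M (nat_lit 431) (B (L (nat_lit 460) ln15_13_1 ln15_13_1_ok) (M (nat_lit 432) (B (L (nat_lit 396) ln16_13_3 ln16_13_3_ok) (L (nat_lit 433) ln17_13_3 ln17_13_3_ok))))))) (M (nat_lit 462) (B (L (nat_lit 463) ln11_13_0 ln11_13_0_ok) (M (nat_lit 366) (B (M (nat_lit 334) (B (L (nat_lit 302) ln14_9_5 ln14_9_5_ok) (L (nat_lit 461) ln14_10_5 ln14_10_5_ok))) (B (M (nat_lit 461) (B (L (nat_lit 334) ln14_10_5 ln14_10_5_ok) (L (nat_lit 493) ln13_15_6 ln13_15_6_ok))) (B (M (nat_lit 493) (B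 (L (nat_lit 461) ln13_15_6 ln13_15_6_ok) (M (nat_lit 494) (B (L (nat_lit 526) ln14_16_7 ln14_16_7_ok) (L (nat_lit 525) ln14_12_5 ln14_12_5_ok))))) (M (nat_lit 334) (B (L (nat_lit 302) ln14_9_5 ln14_9_5_ok) (M (nat_lit 335) (B (L (nat_lit 303) ln14_13_6 ln14_13_6_ok) (L (nat_lit 367) ln14_14_6 ln14_14_6_ok)))))))))))))))))))) (B (M (nat_lit 427) (B (M (nat_lit 398) (B (L (nat_lit 426) ln10_13_2 ln10_13_2_ok) (M (nat_lit 399) (B (L (nat_lit 400) ln16_12_1 ln16_12_1_ok) (L (nat_lit 430) ln11_13_2 ln11_13_2_ok))))) (B (M (nat_lit 426) (B (M (nat_lit 461) (B (L (nat_lit 462) ln10_13_0 ln10_13_0_ok) (M (nat_lit 425) (B (L (nat_lit 460) ln9_13_0 ln9_13_0_ok) (M (nat_lit 457) (B (L (nat_lit 456) ln12_13_1 ln12_13_1_ok) (L (nat_lit 458) ln13_13_1 ln13_13_1_ok))))))) (B (M (nat_lit 430) (B (M (nat_lit 394) (B (L (nat_lit 393) ln13_13_3 ln13_13_3_ok) (L (nat_lit 395) ln14_13_3 ln14_13_3_ok))) (M (nat_lit 462) (B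 (L (nat_lit 461) ln10_13_0 ln10_13_0_ok) (L (nat_lit 463) ln11_13_0 ln11_13_0_ok))))) (M (nat_lit 425) (B (M (nat_lit 393) (B (L (nat_lit 392) ln12_13_3 ln12_13_3_ok) (L (nat_lit 394) ln13_13_3 ln13_13_3_ok))) (M (nat_lit 457) (B (L (nat_lit 456) ln12_13_1 ln12_13_1_ok) (L (nat_lit 458) ln13_13_1 ln13_13_1_ok)))))))) (B (M (nat_lit 430) (B (M (nat_lit 431) (B (M (nat_lit 399) (B (L (nat_lit 398) ln11_13_2 ln11_13_2_ok) (L (nat_lit 400) ln12_13_2 ln12_13_2_ok))) (M (nat_lit 459) (B (L (nat_lit 458) ln14_13_1 ln14_13_1_ok) (L (nat_lit 460) ln15_13_1 ln15_13_1_ok))))) (B (M (nat_lit 395) (B (L (nat_lit 394) ln14_13_3 ln14_13_3_ok) (M (nat_lit 459) (B (L (nat_lit 458) ln14_13_1 ln14_13_1_ok) (M (nat_lit 460) (B (L (nat_lit 431) ln15_13_1 ln15_13_1_ok) (M (nat_lit 363) (B (L (nat_lit 331) ln11_10_4 ln11_10_4_ok) (L (nat_lit 492) ln11_11_4 ln11_11_4_ok))))))))) (M (nat_lit 398) (B (L (nat_lit 399) ln11_13_2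 ln11_13_2_ok) (M (nat_lit 462) (B (L (nat_lit 463) ln11_13_0 ln11_13_0_ok) (M (nat_lit 366) (B (M (nat_lit 334) (B (L (nat_lit 302) ln14_9_5 ln14_9_5_ok) (L (nat_lit 461) ln14_10_5 ln14_10_5_ok))) (B (M (nat_lit 461) (B (L (nat_lit 334) ln14_10_5 ln14_10_5_ok) (L (nat_lit 493) ln13_15_6 ln13_15_6_ok))) (B (M (nat_lit 493) (B (L (nat_lit 461) ln13_15_6 ln13_15_6_ok) (M (nat_lit 494) (B (L (nat_lit 526) ln14_16_7 ln14_16_7_ok) (L (nat_lit 525) ln14_12_5 ln14_12_5_ok))))) (M (nat_lit 334) (B (L (nat_lit 302) ln14_9_5 ln14_9_5_ok) (M (nat_lit 335) (B (L (nat_lit 303) ln14_13_6 ln14_13_6_ok) (L (nat_lit 367) ln14_14_6 ln14_14_6_ok)))))))))))))))) (M (nat_lit 426) (B (L (nat_lit 398) ln10_13_2 ln10_13_2_ok) (M (nat_lit 425) (B (M (nat_lit 393) (B (L (nat_lit 392) ln12_13_3 ln12_13_3_ok) (L (nat_lit 394) ln13_13_3 ln13_13_3_ok))) (M (nat_lit 457) (B (L (nat_lit 456) ln12_13_1 ln12_13_1_ok) (L (nat_lit 458)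 ln13_13_1 ln13_13_1_ok))))))))))) (B (K (nat_lit 2079502270913392379444674211814302674077704290823075655481512624564798400421800170032085953906810352733060637150540575368324055040) (nat_lit 411887859703736698411883290543720369303243138244358996506896836580597481626589442758326263048044764703042737341076198480819749827841416859970621639595770511360) (nat_lit 411887859703736698411883290543720369303243138244358996506896836580597481626589442758326263048044764703042737341076198480819749827841416859970621639595770511360) c31_s1388) (B (K (nat_lit 2079502270913392379444674211814302674077704290823075655481512624564798400421800170032085953906810352733060637150540575368324055040) (nat_lit 192214334528410459260268196914259893186800811455222099113446753063307071776576850675279407221687840395272813583152470169915449524273361628986197148923336851456) (nat_lit 192214334528410459260268196914259893186800811455222099113446753063307071776576850675279407221687840395272813583152470169915449524273361628986197148923336851456)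 c31_s1620) (B (K (nat_lit 2079502270913392379444674211814302674077704290823075655481512624564798400421800170032085953906810352733060637150540575368324055040) (nat_lit 192214334528410459248359671255140732112070064784108285579885855542716804579689268497726906777731640049761123556231659968227775888357810185778578050871443062784) (nat_lit 192214334528410459248359671255140732112070064784108285579885855542716804579689268497726906777731640049761123556231659968227775888357810185778578050871443062784) c31_s1719) (B (K (nat_lit 2079502270913392379444674211814302674077704290823075655481512624564798400421800170032085953906810352733060637150540575368324055040) (nat_lit 192214334579557187532090323523488556569575483523492337201868753397375161256297932348272496214454678429664640358925931667505965086961865912960837790888313749504) (nat_lit 192214334579557187532090323523488556569575483523492337201868753397375161256297932348272496214454678429664640358925931667505965086961865912960837790888313749504)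 c31_s1930) (B (K (nat_lit 2079502270913392379444674211814302674077704290823075655481512624564798400421800170032085953906810352733060637150540575368324055040) (nat_lit 192214334582753858047986040976460496497588163843701438835223661084509769179258742024241426427918621715743431460981628979701456924653994125162656413992836136960) (nat_lit 192214334582753858047986040976460496497588163843701438835223661084509769179258742024241426427918621715743431460981628979701456924653994125162656413992836136960) c31_s2233) (B (K (nat_lit 2079502270913392379444674211814302674077704290823075655481512624564798400421800170032085953906810352733060637150540575368324055040) (nat_lit 384428669056820918519792110976920587191174757589666063929371534036785303519557933260904095217465076677288452743672088934874566965561079814071680156202260496384) (nat_lit 384428669056820918519792110976920587191174757589666063929371534036785303519557933260904095217465076677288452743672088934874566965561079814071680156202260496384)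 c31_s2303) (B (M (nat_lit 398) (B (M (nat_lit 399) (B (L (nat_lit 400) ln16_12_1 ln16_12_1_ok) (M (nat_lit 427) (B (L (nat_lit 396) ln15_12_1 ln15_12_1_ok) (L (nat_lit 430) ln11_13_2 ln11_13_2_ok))))) (B (M (nat_lit 399) (B (L (nat_lit 400) ln16_12_1 ln16_12_1_ok) (M (nat_lit 427) (B (L (nat_lit 426) ln10_13_2 ln10_13_2_ok) (L (nat_lit 430) ln11_13_2 ln11_13_2_ok))))) (B (M (nat_lit 427) (B (L (nat_lit 426) ln10_13_2 ln10_13_2_ok) (M (nat_lit 430) (B (M (nat_lit 395) (B (L (nat_lit 394) ln14_13_3 ln14_13_3_ok) (M (nat_lit 396) (B (L (nat_lit 431) ln11_12_0 ln11_12_0_ok) (M (nat_lit 363) (B (L (nat_lit 362) ln14_12_3 ln14_12_3_ok) (M (nat_lit 331) (B (L (nat_lit 299) ln11_9_4 ln11_9_4_ok) (L (nat_lit 460) ln11_10_4 ln11_10_4_ok))))))))) (B (M (nat_lit 395) (B (L (nat_lit 394) ln14_13_3 ln14_13_3_ok) (M (nat_lit 366) (B (M (nat_lit 396) (B (L (nat_lit 367) ln11_12_2 ln11_12_2_ok) (L (nat_lit 431) ln11_12_0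 ln11_12_0_ok))) (M (nat_lit 461) (B (L (nat_lit 334) ln14_10_5 ln14_10_5_ok) (L (nat_lit 493) ln13_15_6 ln13_15_6_ok))))))) (M (nat_lit 462) (B (L (nat_lit 463) ln11_13_0 ln11_13_0_ok) (M (nat_lit 366) (B (M (nat_lit 334) (B (L (nat_lit 302) ln14_9_5 ln14_9_5_ok) (L (nat_lit 461) ln14_10_5 ln14_10_5_ok))) (B (M (nat_lit 461) (B (L (nat_lit 334) ln14_10_5 ln14_10_5_ok) (L (nat_lit 493) ln13_15_6 ln13_15_6_ok))) (B (M (nat_lit 493) (B (L (nat_lit 461) ln13_15_6 ln13_15_6_ok) (M (nat_lit 494) (B (L (nat_lit 526) ln14_16_7 ln14_16_7_ok) (L (nat_lit 525) ln14_12_5 ln14_12_5_ok))))) (M (nat_lit 334) (B (L (nat_lit 302) ln14_9_5 ln14_9_5_ok) (M (nat_lit 335) (B (L (nat_lit 303) ln14_13_6 ln14_13_6_ok) (L (nat_lit 367) ln14_14_6 ln14_14_6_ok)))))))))))))))) (B (M (nat_lit 399) (B (L (nat_lit 400) ln16_12_1 ln16_12_1_ok) (M (nat_lit 396) (B (M (nat_lit 364) (B (L (nat_lit 363) ln15_12_3 ln15_12_3_ok) (M (nat_lit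 461) (B (L (nat_lit 332) ln12_10_4 ln12_10_4_ok) (L (nat_lit 493) ln13_15_7 ln13_15_7_ok))))) (M (nat_lit 395) (B (M (nat_lit 367) (B (L (nat_lit 366) ln11_12_2 ln11_12_2_ok) (L (nat_lit 368) ln12_12_2 ln12_12_2_ok))) (M (nat_lit 431) (B (L (nat_lit 430) ln11_12_0 ln11_12_0_ok) (L (nat_lit 432) ln12_12_0 ln12_12_0_ok))))))))) (M (nat_lit 399) (B (L (nat_lit 400) ln16_12_1 ln16_12_1_ok) (M (nat_lit 427) (B (L (nat_lit 396) ln15_12_1 ln15_12_1_ok) (L (nat_lit 426) ln10_13_2 ln10_13_2_ok)))))))))) (B (M (nat_lit 398) (B (M (nat_lit 399) (B (L (nat_lit 400) ln16_12_1 ln16_12_1_ok) (M (nat_lit 427) (B (L (nat_lit 396) ln15_12_1 ln15_12_1_ok) (L (nat_lit 426) ln10_13_2 ln10_13_2_ok))))) (B (M (nat_lit 399) (B (L (nat_lit 400) ln16_12_1 ln16_12_1_ok) (M (nat_lit 427) (B (L (nat_lit 426) ln10_13_2 ln10_13_2_ok) (L (nat_lit 430) ln11_13_2 ln11_13_2_ok))))) (B (M (nat_lit 427) (B (L (nat_lit 426) ln10_13_2 ln10_13_2_ok)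 (M (nat_lit 430) (B (M (nat_lit 395) (B (L (nat_lit 394) ln14_13_3 ln14_13_3_ok) (M (nat_lit 396) (B (L (nat_lit 431) ln11_12_0 ln11_12_0_ok) (M (nat_lit 366) (B (L (nat_lit 367) ln11_12_2 ln11_12_2_ok) (M (nat_lit 334) (B (L (nat_lit 302) ln14_9_5 ln14_9_5_ok) (L (nat_lit 461) ln14_10_5 ln14_10_5_ok))))))))) (B (M (nat_lit 395) (B (L (nat_lit 394) ln14_13_3 ln14_13_3_ok) (M (nat_lit 366) (B (M (nat_lit 396) (B (L (nat_lit 367) ln11_12_2 ln11_12_2_ok) (L (nat_lit 431) ln11_12_0 ln11_12_0_ok))) (M (nat_lit 461) (B (L (nat_lit 334) ln14_10_5 ln14_10_5_ok) (L (nat_lit 493) ln13_15_6 ln13_15_6_ok))))))) (B (M (nat_lit 493) (B (M (nat_lit 461) (B (L (nat_lit 366) ln13_15_6 ln13_15_6_ok) (L (nat_lit 525) ln13_16_6 ln13_16_6_ok))) (B (M (nat_lit 462) (B (L (nat_lit 463) ln11_13_0 ln11_13_0_ok) (M (nat_lit 494) (B (L (nat_lit 526) ln14_16_7 ln14_16_7_ok) (L (nat_lit 525) ln14_12_5 ln14_12_5_ok))))) (M (nat_lit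 396) (B (M (nat_lit 461) (B (L (nat_lit 364) ln13_15_7 ln13_15_7_ok) (L (nat_lit 366) ln13_15_6 ln13_15_6_ok))) (M (nat_lit 395) (B (L (nat_lit 394) ln10_12_0 ln10_12_0_ok) (L (nat_lit 431) ln11_12_0 ln11_12_0_ok)))))))) (B (M (nat_lit 395) (B (L (nat_lit 394) ln14_13_3 ln14_13_3_ok) (M (nat_lit 396) (B (L (nat_lit 431) ln11_12_0 ln11_12_0_ok) (M (nat_lit 459) (B (L (nat_lit 458) ln14_13_1 ln14_13_1_ok) (M (nat_lit 364) (B (L (nat_lit 332) ln12_10_5 ln12_10_5_ok) (L (nat_lit 491) ln11_15_6 ln11_15_6_ok))))))))) (M (nat_lit 462) (B (L (nat_lit 463) ln11_13_0 ln11_13_0_ok) (M (nat_lit 366) (B (M (nat_lit 334) (B (L (nat_lit 302) ln14_9_5 ln14_9_5_ok) (L (nat_lit 461) ln14_10_5 ln14_10_5_ok))) (B (M (nat_lit 461) (B (L (nat_lit 334) ln14_10_5 ln14_10_5_ok) (L (nat_lit 493) ln13_15_6 ln13_15_6_ok))) (B (M (nat_lit 493) (B (L (nat_lit 461) ln13_15_6 ln13_15_6_ok) (M (nat_lit 494) (B (L (nat_lit 526) ln14_16_7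 ln14_16_7_ok) (L (nat_lit 525) ln14_12_5 ln14_12_5_ok))))) (M (nat_lit 334) (B (L (nat_lit 302) ln14_9_5 ln14_9_5_ok) (M (nat_lit 335) (B (L (nat_lit 303) ln14_13_6 ln14_13_6_ok) (L (nat_lit 367) ln14_14_6 ln14_14_6_ok)))))))))))))))))) (B (M (nat_lit 399) (B (L (nat_lit 400) ln16_12_1 ln16_12_1_ok) (M (nat_lit 427) (B (L (nat_lit 396) ln15_12_1 ln15_12_1_ok) (L (nat_lit 430) ln11_13_2 ln11_13_2_ok))))) (M (nat_lit 399) (B (L (nat_lit 400) ln16_12_1 ln16_12_1_ok) (M (nat_lit 396) (B (M (nat_lit 364) (B (L (nat_lit 363) ln15_12_3 ln15_12_3_ok) (M (nat_lit 461) (B (L (nat_lit 332) ln12_10_4 ln12_10_4_ok) (L (nat_lit 493) ln13_15_7 ln13_15_7_ok))))) (M (nat_lit 395) (B (M (nat_lit 367) (B (L (nat_lit 366) ln11_12_2 ln11_12_2_ok) (L (nat_lit 368) ln12_12_2 ln12_12_2_ok))) (M (nat_lit 431) (B (L (nat_lit 430) ln11_12_0 ln11_12_0_ok) (L (nat_lit 432) ln12_12_0 ln12_12_0_ok)))))))))))))) (M (nat_lit 427) (B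 (M (nat_lit 398) (B (L (nat_lit 426) ln10_13_2 ln10_13_2_ok) (M (nat_lit 399) (B (L (nat_lit 396) ln15_12_1 ln15_12_1_ok) (L (nat_lit 400) ln16_12_1 ln16_12_1_ok))))) (B (M (nat_lit 398) (B (L (nat_lit 426) ln10_13_2 ln10_13_2_ok) (M (nat_lit 399) (B (L (nat_lit 400) ln16_12_1 ln16_12_1_ok) (L (nat_lit 430) ln11_13_2 ln11_13_2_ok))))) (B (M (nat_lit 426) (B (M (nat_lit 425) (B (L (nat_lit 396) ln9_13_2 ln9_13_2_ok) (M (nat_lit 393) (B (L (nat_lit 392) ln12_13_3 ln12_13_3_ok) (L (nat_lit 394) ln13_13_3 ln13_13_3_ok))))) (B (M (nat_lit 425) (B (L (nat_lit 396) ln9_13_2 ln9_13_2_ok) (M (nat_lit 457) (B (L (nat_lit 456) ln12_13_1 ln12_13_1_ok) (L (nat_lit 458) ln13_13_1 ln13_13_1_ok))))) (M (nat_lit 430) (B (M (nat_lit 394) (B (L (nat_lit 393) ln13_13_3 ln13_13_3_ok) (L (nat_lit 395) ln14_13_3 ln14_13_3_ok))) (M (nat_lit 458) (B (L (nat_lit 457) ln13_13_1 ln13_13_1_ok) (L (nat_lit 459) ln14_13_1 ln14_13_1_ok))))))))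 (M (nat_lit 430) (B (M (nat_lit 399) (B (L (nat_lit 398) ln11_13_2 ln11_13_2_ok) (M (nat_lit 395) (B (L (nat_lit 394) ln14_13_3 ln14_13_3_ok) (M (nat_lit 431) (B (L (nat_lit 396) ln15_13_3 ln15_13_3_ok) (L (nat_lit 400) ln12_13_2 ln12_13_2_ok))))))) (B (M (nat_lit 431) (B (M (nat_lit 396) (B (L (nat_lit 395) ln15_13_3 ln15_13_3_ok) (L (nat_lit 432) ln16_13_3 ln16_13_3_ok))) (M (nat_lit 459) (B (L (nat_lit 458) ln14_13_1 ln14_13_1_ok) (L (nat_lit 460) ln15_13_1 ln15_13_1_ok))))) (B (M (nat_lit 431) (B (M (nat_lit 399) (B (L (nat_lit 398) ln11_13_2 ln11_13_2_ok) (L (nat_lit 400) ln12_13_2 ln12_13_2_ok))) (M (nat_lit 459) (B (L (nat_lit 458) ln14_13_1 ln14_13_1_ok) (L (nat_lit 460) ln15_13_1 ln15_13_1_ok))))) (M (nat_lit 396) (B (M (nat_lit 395) (B (L (nat_lit 394) ln10_12_0 ln10_12_0_ok) (M (nat_lit 459) (B (L (nat_lit 458) ln14_13_1 ln14_13_1_ok) (M (nat_lit 364) (B (L (nat_lit 332) ln12_10_5 ln12_10_5_ok)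 (L (nat_lit 491) ln11_15_6 ln11_15_6_ok))))))) (B (M (nat_lit 395) (B (L (nat_lit 394) ln10_12_0 ln10_12_0_ok) (M (nat_lit 459) (B (L (nat_lit 458) ln14_13_1 ln14_13_1_ok) (M (nat_lit 491) (B (L (nat_lit 364) ln11_15_6 ln11_15_6_ok) (L (nat_lit 523) ln11_16_6 ln11_16_6_ok))))))) (B (M (nat_lit 395) (B (L (nat_lit 394) ln10_12_0 ln10_12_0_ok) (M (nat_lit 363) (B (M (nat_lit 331) (B (L (nat_lit 299) ln11_9_4 ln11_9_4_ok) (L (nat_lit 460) ln11_10_4 ln11_10_4_ok))) (M (nat_lit 398) (B (L (nat_lit 362) ln14_12_3 ln14_12_3_ok) (L (nat_lit 399) ln15_12_1 ln15_12_1_ok))))))) (B (M (nat_lit 459) (B (L (nat_lit 458) ln14_13_1 ln14_13_1_ok) (M (nat_lit 364) (B (L (nat_lit 332) ln12_10_5 ln12_10_5_ok) (M (nat_lit 491) (B (L (nat_lit 395) ln11_15_6 ln11_15_6_ok) (L (nat_lit 523) ln11_16_6 ln11_16_6_ok))))))) (M (nat_lit 459) (B (L (nat_lit 458) ln14_13_1 ln14_13_1_ok) (M (nat_lit 364) (B (L (nat_lit 332) ln12_10_5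 ln12_10_5_ok) (M (nat_lit 491) (B (L (nat_lit 460) ln12_11_5 ln12_11_5_ok) (L (nat_lit 523) ln11_16_6 ln11_16_6_ok))))))))))))))))))))))))))))))))))))) (nat_lit 1386334847383188664550070665778531748218595021979121511688892729411143073470393764272092352380775458208712834410189682411080515584) (nat_lit 411887859706933368927592937302767967654707733621437451570918220257274459388776405893351945545021350434232483052330963502052168500236695657065156161399620108288) (nat_lit 411887859706933368927592937302767967654707733621437451570918220257274459388776405893351945545021350434232483052330963502052168500236695657065156161399620108288) (by decide +kernel)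
noncomputable def c31_n2500 : Cert := (M (nat_lit 365) (B (M (nat_lit 460) (B (L (nat_lit 333) ln13_10_5 ln13_10_5_ok) (M (nat_lit 492) (B (L (nat_lit 461) ln13_11_5 ln13_11_5_ok) (L (nat_lit 524) ln12_16_6 ln12_16_6_ok))))) (B (M (nat_lit 427) (B (M (nat_lit 398) (B (L (nat_lit 426) ln10_13_2 ln10_13_2_ok) (M (nat_lit 399) (B (L (nat_lit 400) ln16_12_1 ln16_12_1_ok) (L (nat_lit 430) ln11_13_2 ln11_13_2_ok))))) (B (M (nat_lit 430) (B (M (nat_lit 462) (B (L (nat_lit 463) ln11_13_0 ln11_13_0_ok) (M (nat_lit 461) (B (L (nat_lit 494) ln13_11_4 ln13_11_4_ok) (L (nat_lit 426) ln10_13_0 ln10_13_0_ok))))) (B (M (nat_lit 460) (B (M (nat_lit 492) (B (L (nat_lit 461) ln13_11_5 ln13_11_5_ok) (L (nat_lit 524) ln12_16_6 ln12_16_6_ok))) (M (nat_lit 459) (B (L (nat_lit 458) ln14_13_1 ln14_13_1_ok) (L (nat_lit 431) ln15_13_1 ln15_13_1_ok))))) (M (nat_lit 426) (B (M (nat_lit 394) (B (L (nat_lit 393) ln13_13_3 ln13_13_3_ok)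 (L (nat_lit 395) ln14_13_3 ln14_13_3_ok))) (M (nat_lit 458) (B (L (nat_lit 457) ln13_13_1 ln13_13_1_ok) (L (nat_lit 459) ln14_13_1 ln14_13_1_ok)))))))) (B (M (nat_lit 430) (B (M (nat_lit 398) (B (L (nat_lit 399) ln11_13_2 ln11_13_2_ok) (M (nat_lit 462) (B (L (nat_lit 494) ln14_15_7 ln14_15_7_ok) (L (nat_lit 463) ln11_13_0 ln11_13_0_ok))))) (B (M (nat_lit 462) (B (L (nat_lit 463) ln11_13_0 ln11_13_0_ok) (M (nat_lit 494) (B (L (nat_lit 461) ln13_11_4 ln13_11_4_ok) (L (nat_lit 526) ln14_16_7 ln14_16_7_ok))))) (M (nat_lit 460) (B (M (nat_lit 492) (B (L (nat_lit 461) ln13_11_5 ln13_11_5_ok) (L (nat_lit 524) ln12_16_6 ln12_16_6_ok))) (M (nat_lit 459) (B (L (nat_lit 458) ln14_13_1 ln14_13_1_ok) (L (nat_lit 431) ln15_13_1 ln15_13_1_ok)))))))) (M (nat_lit 426) (B (L (nat_lit 398) ln10_13_2 ln10_13_2_ok) (M (nat_lit 461) (B (L (nat_lit 462) ln10_13_0 ln10_13_0_ok) (M (nat_lit 460) (B (L (nat_lit 492) ln13_11_5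 ln13_11_5_ok) (L (nat_lit 425) ln9_13_0 ln9_13_0_ok))))))))))) (B (M (nat_lit 427) (B (M (nat_lit 398) (B (L (nat_lit 426) ln10_13_2 ln10_13_2_ok) (M (nat_lit 399) (B (L (nat_lit 400) ln16_12_1 ln16_12_1_ok) (L (nat_lit 430) ln11_13_2 ln11_13_2_ok))))) (B (M (nat_lit 462) (B (M (nat_lit 461) (B (L (nat_lit 494) ln13_11_4 ln13_11_4_ok) (L (nat_lit 426) ln10_13_0 ln10_13_0_ok))) (M (nat_lit 430) (B (L (nat_lit 333) ln13_10_4 ln13_10_4_ok) (L (nat_lit 463) ln11_13_0 ln11_13_0_ok))))) (B (M (nat_lit 333) (B (M (nat_lit 430) (B (L (nat_lit 462) ln13_10_4 ln13_10_4_ok) (M (nat_lit 398) (B (L (nat_lit 301) ln13_9_4 ln13_9_4_ok) (L (nat_lit 399) ln11_13_2 ln11_13_2_ok))))) (B (M (nat_lit 461) (B (M (nat_lit 332) (B (L (nat_lit 300) ln13_13_7 ln13_13_7_ok) (L (nat_lit 364) ln13_14_7 ln13_14_7_ok))) (M (nat_lit 462) (B (L (nat_lit 430) ln13_10_4 ln13_10_4_ok) (L (nat_lit 494) ln13_11_4 ln13_11_4_ok))))) (M (nat_lit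 301) (B (M (nat_lit 300) (B (L (nat_lit 268) ln13_12_7 ln13_12_7_ok) (L (nat_lit 332) ln13_13_7 ln13_13_7_ok))) (M (nat_lit 302) (B (L (nat_lit 270) ln13_12_6 ln13_12_6_ok) (L (nat_lit 334) ln13_13_6 ln13_13_6_ok)))))))) (M (nat_lit 426) (B (L (nat_lit 398) ln10_13_2 ln10_13_2_ok) (M (nat_lit 425) (B (M (nat_lit 393) (B (L (nat_lit 392) ln12_13_3 ln12_13_3_ok) (L (nat_lit 394) ln13_13_3 ln13_13_3_ok))) (M (nat_lit 457) (B (L (nat_lit 456) ln12_13_1 ln12_13_1_ok) (L (nat_lit 458) ln13_13_1 ln13_13_1_ok))))))))))) (M (nat_lit 333) (B (L (nat_lit 460) ln13_10_5 ln13_10_5_ok) (M (nat_lit 301) (B (M (nat_lit 302) (B (L (nat_lit 270) ln13_12_6 ln13_12_6_ok) (L (nat_lit 334) ln13_13_6 ln13_13_6_ok))) (M (nat_lit 430) (B (L (nat_lit 398) ln13_9_4 ln13_9_4_ok) (L (nat_lit 462) ln13_10_4 ln13_10_4_ok)))))))))))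
theorem c31_s2591 : Sem (nat_lit 1386334847383188664550070665778531748218595021979121511688892729411143073470393764272092352380775458208712834410189682411080515584) (nat_lit 707617955065926863252224852862893354327509338924659295308193311414862099176914739140842248127968107399020590755512832056565785712131981074097811857437291810195047972864) (nat_lit 707617955065926863252224852862893354327509338924659295308193311414862099176914739140842248127968107399020590755512832056565785712131981074097811857437291810195047972864) :=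
  sem_of_chk (M (nat_lit 428) (B (M (nat_lit 365) (B (M (nat_lit 460) (B (L (nat_lit 333) ln13_10_5 ln13_10_5_ok) (M (nat_lit 492) (B (L (nat_lit 396) ln12_15_6 ln12_15_6_ok) (L (nat_lit 524) ln12_16_6 ln12_16_6_ok))))) (B (M (nat_lit 461) (B (M (nat_lit 460) (B (L (nat_lit 492) ln13_11_5 ln13_11_5_ok) (M (nat_lit 462) (B (L (nat_lit 494) ln13_11_4 ln13_11_4_ok) (M (nat_lit 427) (B (L (nat_lit 426) ln10_13_0 ln10_13_0_ok) (L (nat_lit 463) ln15_14_3 ln15_14_3_ok))))))) (B (M (nat_lit 493) (B (M (nat_lit 364) (B (L (nat_lit 332) ln13_14_7 ln13_14_7_ok) (L (nat_lit 396) ln13_15_7 ln13_15_7_ok))) (M (nat_lit 494) (B (L (nat_lit 462) ln13_11_4 ln13_11_4_ok) (L (nat_lit 526) ln13_12_4 ln13_12_4_ok))))) (M (nat_lit 493) (B (M (nat_lit 364) (B (L (nat_lit 332) ln13_14_7 ln13_14_7_ok) (L (nat_lit 396) ln13_15_7 ln13_15_7_ok))) (M (nat_lit 492) (B (L (nat_lit 460) ln13_11_5 ln13_11_5_ok) (L (nat_lit 524) ln13_12_5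 ln13_12_5_ok)))))))) (B (M (nat_lit 460) (B (L (nat_lit 333) ln13_10_5 ln13_10_5_ok) (M (nat_lit 492) (B (L (nat_lit 461) ln13_11_5 ln13_11_5_ok) (L (nat_lit 524) ln12_16_6 ln12_16_6_ok))))) (M (nat_lit 333) (B (M (nat_lit 301) (B (L (nat_lit 396) ln13_9_5 ln13_9_5_ok) (M (nat_lit 302) (B (L (nat_lit 270) ln13_12_6 ln13_12_6_ok) (L (nat_lit 334) ln13_13_6 ln13_13_6_ok))))) (M (nat_lit 461) (B (M (nat_lit 332) (B (L (nat_lit 300) ln13_13_7 ln13_13_7_ok) (L (nat_lit 364) ln13_14_7 ln13_14_7_ok))) (M (nat_lit 462) (B (L (nat_lit 430) ln13_10_4 ln13_10_4_ok) (L (nat_lit 494) ln13_11_4 ln13_11_4_ok))))))))))) (B (M (nat_lit 430) (B (M (nat_lit 427) (B (M (nat_lit 398) (B (L (nat_lit 426) ln10_13_2 ln10_13_2_ok) (L (nat_lit 399) ln11_13_2 ln11_13_2_ok))) (M (nat_lit 431) (B (M (nat_lit 396) (B (L (nat_lit 395) ln15_13_3 ln15_13_3_ok) (L (nat_lit 432) ln16_13_3 ln16_13_3_ok))) (M (nat_lit 459) (B (L (nat_lit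 458) ln14_13_1 ln14_13_1_ok) (L (nat_lit 460) ln15_13_1 ln15_13_1_ok))))))) (B (M (nat_lit 462) (B (M (nat_lit 427) (B (L (nat_lit 463) ln11_13_0 ln11_13_0_ok) (M (nat_lit 398) (B (L (nat_lit 426) ln10_13_2 ln10_13_2_ok) (L (nat_lit 399) ln11_13_2 ln11_13_2_ok))))) (B (M (nat_lit 461) (B (M (nat_lit 494) (B (L (nat_lit 365) ln13_11_4 ln13_11_4_ok) (L (nat_lit 526) ln14_16_7 ln14_16_7_ok))) (M (nat_lit 427) (B (L (nat_lit 426) ln10_13_0 ln10_13_0_ok) (L (nat_lit 463) ln11_13_0 ln11_13_0_ok))))) (M (nat_lit 494) (B (L (nat_lit 526) ln14_16_7 ln14_16_7_ok) (M (nat_lit 365) (B (L (nat_lit 398) ln14_15_7 ln14_15_7_ok) (L (nat_lit 461) ln13_11_4 ln13_11_4_ok)))))))) (M (nat_lit 460) (B (M (nat_lit 431) (B (L (nat_lit 459) ln15_13_1 ln15_13_1_ok) (M (nat_lit 396) (B (L (nat_lit 395) ln15_13_3 ln15_13_3_ok) (L (nat_lit 432) ln16_13_3 ln16_13_3_ok))))) (B (M (nat_lit 431) (B (L (nat_lit 459) ln15_13_1 ln15_13_1_ok)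 (M (nat_lit 432) (B (L (nat_lit 396) ln16_13_3 ln16_13_3_ok) (L (nat_lit 461) ln16_13_1 ln16_13_1_ok))))) (B (M (nat_lit 461) (B (M (nat_lit 492) (B (L (nat_lit 365) ln13_11_5 ln13_11_5_ok) (L (nat_lit 524) ln12_16_6 ln12_16_6_ok))) (M (nat_lit 431) (B (L (nat_lit 459) ln15_13_1 ln15_13_1_ok) (L (nat_lit 432) ln16_13_1 ln16_13_1_ok))))) (M (nat_lit 492) (B (L (nat_lit 524) ln12_16_6 ln12_16_6_ok) (M (nat_lit 365) (B (L (nat_lit 396) ln12_15_6 ln12_15_6_ok) (L (nat_lit 461) ln13_11_5 ln13_11_5_ok)))))))))))) (B (M (nat_lit 427) (B (M (nat_lit 398) (B (L (nat_lit 426) ln10_13_2 ln10_13_2_ok) (M (nat_lit 399) (B (L (nat_lit 400) ln16_12_1 ln16_12_1_ok) (L (nat_lit 430) ln11_13_2 ln11_13_2_ok))))) (B (M (nat_lit 426) (B (M (nat_lit 425) (B (L (nat_lit 396) ln9_13_2 ln9_13_2_ok) (M (nat_lit 393) (B (L (nat_lit 392) ln12_13_3 ln12_13_3_ok) (L (nat_lit 394) ln13_13_3 ln13_13_3_ok))))) (B (M (nat_lit 425) (B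 (L (nat_lit 396) ln9_13_2 ln9_13_2_ok) (M (nat_lit 457) (B (L (nat_lit 456) ln12_13_1 ln12_13_1_ok) (L (nat_lit 458) ln13_13_1 ln13_13_1_ok))))) (M (nat_lit 430) (B (M (nat_lit 394) (B (L (nat_lit 393) ln13_13_3 ln13_13_3_ok) (L (nat_lit 395) ln14_13_3 ln14_13_3_ok))) (M (nat_lit 458) (B (L (nat_lit 457) ln13_13_1 ln13_13_1_ok) (L (nat_lit 459) ln14_13_1 ln14_13_1_ok)))))))) (B (M (nat_lit 430) (B (M (nat_lit 399) (B (L (nat_lit 398) ln11_13_2 ln11_13_2_ok) (M (nat_lit 395) (B (L (nat_lit 394) ln14_13_3 ln14_13_3_ok) (M (nat_lit 431) (B (L (nat_lit 396) ln15_13_3 ln15_13_3_ok) (L (nat_lit 400) ln12_13_2 ln12_13_2_ok))))))) (B (M (nat_lit 431) (B (M (nat_lit 396) (B (L (nat_lit 395) ln15_13_3 ln15_13_3_ok) (L (nat_lit 432) ln16_13_3 ln16_13_3_ok))) (M (nat_lit 459) (B (L (nat_lit 458) ln14_13_1 ln14_13_1_ok) (L (nat_lit 460) ln15_13_1 ln15_13_1_ok))))) (B (M (nat_lit 431) (B (M (nat_lit 399) (B (L (nat_lit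 398) ln11_13_2 ln11_13_2_ok) (L (nat_lit 400) ln12_13_2 ln12_13_2_ok))) (M (nat_lit 459) (B (L (nat_lit 458) ln14_13_1 ln14_13_1_ok) (L (nat_lit 460) ln15_13_1 ln15_13_1_ok))))) (M (nat_lit 396) (B (M (nat_lit 395) (B (L (nat_lit 394) ln10_12_0 ln10_12_0_ok) (M (nat_lit 459) (B (L (nat_lit 458) ln14_13_1 ln14_13_1_ok) (M (nat_lit 364) (B (L (nat_lit 332) ln12_10_5 ln12_10_5_ok) (L (nat_lit 491) ln11_15_6 ln11_15_6_ok))))))) (B (M (nat_lit 395) (B (L (nat_lit 394) ln10_12_0 ln10_12_0_ok) (M (nat_lit 459) (B (L (nat_lit 458) ln14_13_1 ln14_13_1_ok) (M (nat_lit 491) (B (L (nat_lit 364) ln11_15_6 ln11_15_6_ok) (L (nat_lit 523) ln11_16_6 ln11_16_6_ok))))))) (B (M (nat_lit 395) (B (L (nat_lit 394) ln10_12_0 ln10_12_0_ok) (M (nat_lit 363) (B (M (nat_lit 331) (B (L (nat_lit 299) ln11_9_4 ln11_9_4_ok) (L (nat_lit 460) ln11_10_4 ln11_10_4_ok))) (M (nat_lit 398) (B (L (nat_lit 362) ln14_12_3 ln14_12_3_ok) (L (nat_lit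 399) ln15_12_1 ln15_12_1_ok))))))) (B (M (nat_lit 459) (B (L (nat_lit 458) ln14_13_1 ln14_13_1_ok) (M (nat_lit 364) (B (L (nat_lit 332) ln12_10_5 ln12_10_5_ok) (M (nat_lit 491) (B (L (nat_lit 395) ln11_15_6 ln11_15_6_ok) (L (nat_lit 523) ln11_16_6 ln11_16_6_ok))))))) (M (nat_lit 459) (B (L (nat_lit 458) ln14_13_1 ln14_13_1_ok) (M (nat_lit 364) (B (L (nat_lit 332) ln12_10_5 ln12_10_5_ok) (M (nat_lit 491) (B (L (nat_lit 460) ln12_11_5 ln12_11_5_ok) (L (nat_lit 523) ln11_16_6 ln11_16_6_ok)))))))))))))))) (M (nat_lit 398) (B (L (nat_lit 426) ln10_13_2 ln10_13_2_ok) (M (nat_lit 399) (B (L (nat_lit 396) ln15_12_1 ln15_12_1_ok) (L (nat_lit 400) ln16_12_1 ln16_12_1_ok))))))))) (B c31_n2500 (B (M (nat_lit 365) (B (M (nat_lit 460) (B (L (nat_lit 333) ln13_10_5 ln13_10_5_ok) (M (nat_lit 492) (B (L (nat_lit 461) ln13_11_5 ln13_11_5_ok) (L (nat_lit 524) ln12_16_6 ln12_16_6_ok))))) (B (M (nat_lit 460) (B (M (nat_lit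 492) (B (L (nat_lit 396) ln12_15_6 ln12_15_6_ok) (L (nat_lit 461) ln13_11_5 ln13_11_5_ok))) (B (M (nat_lit 492) (B (L (nat_lit 461) ln13_11_5 ln13_11_5_ok) (L (nat_lit 524) ln12_16_6 ln12_16_6_ok))) (B (M (nat_lit 492) (B (L (nat_lit 396) ln12_15_6 ln12_15_6_ok) (L (nat_lit 524) ln12_16_6 ln12_16_6_ok))) (M (nat_lit 461) (B (M (nat_lit 364) (B (L (nat_lit 332) ln13_14_7 ln13_14_7_ok) (M (nat_lit 493) (B (L (nat_lit 396) ln13_15_7 ln13_15_7_ok) (M (nat_lit 494) (B (L (nat_lit 462) ln13_11_4 ln13_11_4_ok) (L (nat_lit 526) ln13_12_4 ln13_12_4_ok))))))) (B (M (nat_lit 493) (B (M (nat_lit 494) (B (L (nat_lit 462) ln13_11_4 ln13_11_4_ok) (L (nat_lit 526) ln13_12_4 ln13_12_4_ok))) (M (nat_lit 525) (B (L (nat_lit 396) ln13_16_7 ln13_16_7_ok) (L (nat_lit 557) ln13_17_7 ln13_17_7_ok))))) (B (M (nat_lit 430) (B (M (nat_lit 431) (B (L (nat_lit 459) ln15_13_1 ln15_13_1_ok) (L (nat_lit 432) ln16_13_1 ln16_13_1_ok)))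 (M (nat_lit 493) (B (M (nat_lit 494) (B (L (nat_lit 462) ln13_11_4 ln13_11_4_ok) (L (nat_lit 526) ln13_12_4 ln13_12_4_ok))) (M (nat_lit 525) (B (L (nat_lit 398) ln13_16_6 ln13_16_6_ok) (L (nat_lit 557) ln13_17_7 ln13_17_7_ok))))))) (B (M (nat_lit 430) (B (M (nat_lit 431) (B (L (nat_lit 459) ln15_13_1 ln15_13_1_ok) (L (nat_lit 432) ln16_13_1 ln16_13_1_ok))) (M (nat_lit 493) (B (M (nat_lit 364) (B (L (nat_lit 332) ln13_14_7 ln13_14_7_ok) (L (nat_lit 396) ln13_15_7 ln13_15_7_ok))) (M (nat_lit 525) (B (L (nat_lit 398) ln13_16_6 ln13_16_6_ok) (L (nat_lit 557) ln13_17_7 ln13_17_7_ok))))))) (M (nat_lit 459) (B (M (nat_lit 430) (B (L (nat_lit 431) ln15_13_1 ln15_13_1_ok) (L (nat_lit 458) ln10_14_2 ln10_14_2_ok))) (M (nat_lit 491) (B (M (nat_lit 364) (B (L (nat_lit 332) ln13_14_7 ln13_14_7_ok) (L (nat_lit 396) ln12_11_5 ln12_11_5_ok))) (M (nat_lit 462) (B (L (nat_lit 494) ln13_11_4 ln13_11_4_ok) (L (nat_lit 490)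 ln14_14_1 ln14_14_1_ok)))))))))))))))) (B (M (nat_lit 333) (B (M (nat_lit 301) (B (L (nat_lit 396) ln13_9_5 ln13_9_5_ok) (M (nat_lit 300) (B (L (nat_lit 268) ln13_12_7 ln13_12_7_ok) (L (nat_lit 332) ln13_13_7 ln13_13_7_ok))))) (B (M (nat_lit 301) (B (L (nat_lit 396) ln13_9_5 ln13_9_5_ok) (M (nat_lit 430) (B (L (nat_lit 398) ln13_9_4 ln13_9_4_ok) (L (nat_lit 462) ln13_10_4 ln13_10_4_ok))))) (M (nat_lit 461) (B (M (nat_lit 332) (B (L (nat_lit 300) ln13_13_7 ln13_13_7_ok) (L (nat_lit 364) ln13_14_7 ln13_14_7_ok))) (M (nat_lit 462) (B (L (nat_lit 430) ln13_10_4 ln13_10_4_ok) (L (nat_lit 494) ln13_11_4 ln13_11_4_ok)))))))) (M (nat_lit 460) (B (L (nat_lit 333) ln13_10_5 ln13_10_5_ok) (M (nat_lit 492) (B (L (nat_lit 396) ln12_15_6 ln12_15_6_ok) (L (nat_lit 524) ln12_16_6 ln12_16_6_ok))))))))) (B (M (nat_lit 365) (B (M (nat_lit 460) (B (L (nat_lit 333) ln13_10_5 ln13_10_5_ok) (M (nat_lit 492) (B (L (nat_lit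 396) ln12_15_6 ln12_15_6_ok) (L (nat_lit 524) ln12_16_6 ln12_16_6_ok))))) (B (M (nat_lit 461) (B (M (nat_lit 493) (B (M (nat_lit 364) (B (L (nat_lit 332) ln13_14_7 ln13_14_7_ok) (L (nat_lit 396) ln13_15_7 ln13_15_7_ok))) (M (nat_lit 494) (B (L (nat_lit 462) ln13_11_4 ln13_11_4_ok) (L (nat_lit 526) ln13_12_4 ln13_12_4_ok))))) (B (M (nat_lit 493) (B (M (nat_lit 492) (B (L (nat_lit 460) ln13_11_5 ln13_11_5_ok) (L (nat_lit 524) ln13_12_5 ln13_12_5_ok))) (M (nat_lit 494) (B (L (nat_lit 462) ln13_11_4 ln13_11_4_ok) (L (nat_lit 526) ln13_12_4 ln13_12_4_ok))))) (B (M (nat_lit 493) (B (M (nat_lit 364) (B (L (nat_lit 332) ln13_14_7 ln13_14_7_ok) (L (nat_lit 396) ln13_15_7 ln13_15_7_ok))) (M (nat_lit 492) (B (L (nat_lit 460) ln13_11_5 ln13_11_5_ok) (L (nat_lit 524) ln13_12_5 ln13_12_5_ok))))) (M (nat_lit 460) (B (L (nat_lit 492) ln13_11_5 ln13_11_5_ok) (M (nat_lit 462) (B (L (nat_lit 494) ln13_11_4 ln13_11_4_ok)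 (M (nat_lit 427) (B (L (nat_lit 426) ln10_13_0 ln10_13_0_ok) (L (nat_lit 463) ln15_14_3 ln15_14_3_ok))))))))))) (B (M (nat_lit 460) (B (L (nat_lit 333) ln13_10_5 ln13_10_5_ok) (M (nat_lit 492) (B (L (nat_lit 461) ln13_11_5 ln13_11_5_ok) (L (nat_lit 524) ln12_16_6 ln12_16_6_ok))))) (B (M (nat_lit 333) (B (M (nat_lit 301) (B (L (nat_lit 396) ln13_9_5 ln13_9_5_ok) (M (nat_lit 302) (B (L (nat_lit 270) ln13_12_6 ln13_12_6_ok) (L (nat_lit 334) ln13_13_6 ln13_13_6_ok))))) (B (M (nat_lit 301) (B (L (nat_lit 396) ln13_9_5 ln13_9_5_ok) (M (nat_lit 300) (B (L (nat_lit 268) ln13_12_7 ln13_12_7_ok) (L (nat_lit 332) ln13_13_7 ln13_13_7_ok))))) (B (M (nat_lit 461) (B (M (nat_lit 332) (B (L (nat_lit 300) ln13_13_7 ln13_13_7_ok) (L (nat_lit 364) ln13_14_7 ln13_14_7_ok))) (B (M (nat_lit 493) (B (M (nat_lit 396) (B (L (nat_lit 364) ln13_15_7 ln13_15_7_ok) (L (nat_lit 525) ln13_16_7 ln13_16_7_ok))) (M (nat_lit 494) (B (L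 (nat_lit 462) ln13_11_4 ln13_11_4_ok) (L (nat_lit 526) ln13_12_4 ln13_12_4_ok))))) (M (nat_lit 493) (B (M (nat_lit 494) (B (L (nat_lit 462) ln13_11_4 ln13_11_4_ok) (L (nat_lit 526) ln13_12_4 ln13_12_4_ok))) (M (nat_lit 525) (B (L (nat_lit 396) ln13_16_7 ln13_16_7_ok) (M (nat_lit 524) (B (L (nat_lit 492) ln13_12_5 ln13_12_5_ok) (L (nat_lit 556) ln13_13_5 ln13_13_5_ok)))))))))) (M (nat_lit 301) (B (M (nat_lit 300) (B (L (nat_lit 268) ln13_12_7 ln13_12_7_ok) (L (nat_lit 332) ln13_13_7 ln13_13_7_ok))) (M (nat_lit 302) (B (L (nat_lit 270) ln13_12_6 ln13_12_6_ok) (L (nat_lit 334) ln13_13_6 ln13_13_6_ok))))))))) (M (nat_lit 333) (B (L (nat_lit 460) ln13_10_5 ln13_10_5_ok) (M (nat_lit 301) (B (L (nat_lit 396) ln13_9_5 ln13_9_5_ok) (M (nat_lit 300) (B (L (nat_lit 268) ln13_12_7 ln13_12_7_ok) (L (nat_lit 332) ln13_13_7 ln13_13_7_ok)))))))))))) (M (nat_lit 427) (B (M (nat_lit 398) (B (L (nat_lit 426) ln10_13_2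 ln10_13_2_ok) (M (nat_lit 399) (B (L (nat_lit 396) ln15_12_1 ln15_12_1_ok) (L (nat_lit 400) ln16_12_1 ln16_12_1_ok))))) (B (M (nat_lit 398) (B (L (nat_lit 426) ln10_13_2 ln10_13_2_ok) (M (nat_lit 399) (B (L (nat_lit 400) ln16_12_1 ln16_12_1_ok) (L (nat_lit 430) ln11_13_2 ln11_13_2_ok))))) (B (M (nat_lit 426) (B (M (nat_lit 425) (B (L (nat_lit 396) ln9_13_2 ln9_13_2_ok) (M (nat_lit 457) (B (L (nat_lit 456) ln12_13_1 ln12_13_1_ok) (L (nat_lit 458) ln13_13_1 ln13_13_1_ok))))) (M (nat_lit 430) (B (M (nat_lit 394) (B (L (nat_lit 393) ln13_13_3 ln13_13_3_ok) (L (nat_lit 395) ln14_13_3 ln14_13_3_ok))) (M (nat_lit 462) (B (L (nat_lit 461) ln10_13_0 ln10_13_0_ok) (L (nat_lit 463) ln11_13_0 ln11_13_0_ok))))))) (M (nat_lit 430) (B (M (nat_lit 399) (B (L (nat_lit 398) ln11_13_2 ln11_13_2_ok) (M (nat_lit 395) (B (L (nat_lit 394) ln14_13_3 ln14_13_3_ok) (M (nat_lit 431) (B (L (nat_lit 396) ln15_13_3 ln15_13_3_ok)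 (L (nat_lit 400) ln12_13_2 ln12_13_2_ok))))))) (B (M (nat_lit 398) (B (L (nat_lit 399) ln11_13_2 ln11_13_2_ok) (M (nat_lit 462) (B (L (nat_lit 463) ln11_13_0 ln11_13_0_ok) (M (nat_lit 365) (B (L (nat_lit 333) ln13_10_4 ln13_10_4_ok) (L (nat_lit 494) ln14_15_7 ln14_15_7_ok))))))) (M (nat_lit 462) (B (L (nat_lit 463) ln11_13_0 ln11_13_0_ok) (M (nat_lit 365) (B (L (nat_lit 333) ln13_10_4 ln13_10_4_ok) (M (nat_lit 494) (B (L (nat_lit 461) ln13_11_4 ln13_11_4_ok) (L (nat_lit 526) ln14_16_7 ln14_16_7_ok))))))))))))))))))))) (nat_lit 1386334847383188664550070665778531748218595021979121511688892729411143073470393764272092352380775458208712834410189682411080515584) (nat_lit 707617955065926863252224852862893354327509338924659295308193311414862099176914739140842248127968107399020590755512832056565785712131981074097811857437291810195047972864) (nat_lit 707617955065926863252224852862893354327509338924659295308193311414862099176914739140842248127968107399020590755512832056565785712131981074097811857437291810195047972864)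 (by decide +kernel)
theorem c31_s2652 : Sem (nat_lit 1386334847383188664550070665778531748218595021979121511688892729411143073470393764272092352380775458208712834410189682411080515584) (nat_lit 1179363258168619532590897880233893841888069377243862686135942554942888025466634982403882224730386143470945522578132903098925670627647597665379007354376948534487168319488) (nat_lit 1179363258168619532590897880233893841888069377243862686135942554942888025466634982403882224730386143470945522578132903098925670627647597665379007354376948534487168319488) :=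
  sem_of_chk (M (nat_lit 461) (B (M (nat_lit 493) (B (M (nat_lit 525) (B (M (nat_lit 396) (B (L (nat_lit 364) ln13_15_7 ln13_15_7_ok) (L (nat_lit 428) ln13_16_7 ln13_16_7_ok))) (M (nat_lit 398) (B (L (nat_lit 366) ln13_15_6 ln13_15_6_ok) (L (nat_lit 430) ln13_16_6 ln13_16_6_ok))))) (B (M (nat_lit 365) (B (M (nat_lit 366) (B (L (nat_lit 334) ln13_14_6 ln13_14_6_ok) (L (nat_lit 398) ln13_15_6 ln13_15_6_ok))) (M (nat_lit 492) (B (L (nat_lit 460) ln13_11_5 ln13_11_5_ok) (L (nat_lit 524) ln13_12_5 ln13_12_5_ok))))) (M (nat_lit 525) (B (M (nat_lit 396) (B (L (nat_lit 364) ln13_15_7 ln13_15_7_ok) (L (nat_lit 428) ln13_16_7 ln13_16_7_ok))) (M (nat_lit 524) (B (L (nat_lit 492) ln13_12_5 ln13_12_5_ok) (L (nat_lit 556) ln13_13_5 ln13_13_5_ok)))))))) (B (M (nat_lit 493) (B (M (nat_lit 365) (B (M (nat_lit 492) (B (L (nat_lit 460) ln13_11_5 ln13_11_5_ok) (L (nat_lit 524) ln13_12_5 ln13_12_5_ok))) (M (nat_lit 494)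 (B (L (nat_lit 462) ln13_11_4 ln13_11_4_ok) (L (nat_lit 526) ln13_12_4 ln13_12_4_ok))))) (B (M (nat_lit 525) (B (M (nat_lit 396) (B (L (nat_lit 364) ln13_15_7 ln13_15_7_ok) (L (nat_lit 428) ln13_16_7 ln13_16_7_ok))) (M (nat_lit 526) (B (L (nat_lit 494) ln13_12_4 ln13_12_4_ok) (L (nat_lit 558) ln13_13_4 ln13_13_4_ok))))) (M (nat_lit 365) (B (M (nat_lit 364) (B (L (nat_lit 332) ln13_14_7 ln13_14_7_ok) (L (nat_lit 396) ln13_15_7 ln13_15_7_ok))) (M (nat_lit 492) (B (L (nat_lit 460) ln13_11_5 ln13_11_5_ok) (L (nat_lit 524) ln13_12_5 ln13_12_5_ok)))))))) (B (M (nat_lit 493) (B (M (nat_lit 365) (B (M (nat_lit 366) (B (L (nat_lit 334) ln13_14_6 ln13_14_6_ok) (L (nat_lit 398) ln13_15_6 ln13_15_6_ok))) (M (nat_lit 494) (B (L (nat_lit 462) ln13_11_4 ln13_11_4_ok) (L (nat_lit 526) ln13_12_4 ln13_12_4_ok))))) (B (M (nat_lit 365) (B (M (nat_lit 492) (B (L (nat_lit 460) ln13_11_5 ln13_11_5_ok) (L (nat_lit 524) ln13_12_5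 ln13_12_5_ok))) (M (nat_lit 494) (B (L (nat_lit 462) ln13_11_4 ln13_11_4_ok) (L (nat_lit 526) ln13_12_4 ln13_12_4_ok))))) (M (nat_lit 525) (B (M (nat_lit 398) (B (L (nat_lit 366) ln13_15_6 ln13_15_6_ok) (L (nat_lit 430) ln13_16_6 ln13_16_6_ok))) (M (nat_lit 524) (B (L (nat_lit 492) ln13_12_5 ln13_12_5_ok) (L (nat_lit 556) ln13_13_5 ln13_13_5_ok)))))))) (B (M (nat_lit 493) (B (M (nat_lit 525) (B (M (nat_lit 396) (B (L (nat_lit 364) ln13_15_7 ln13_15_7_ok) (L (nat_lit 428) ln13_16_7 ln13_16_7_ok))) (M (nat_lit 524) (B (L (nat_lit 492) ln13_12_5 ln13_12_5_ok) (L (nat_lit 556) ln13_13_5 ln13_13_5_ok))))) (B (M (nat_lit 525) (B (M (nat_lit 398) (B (L (nat_lit 366) ln13_15_6 ln13_15_6_ok) (L (nat_lit 430) ln13_16_6 ln13_16_6_ok))) (M (nat_lit 526) (B (L (nat_lit 494) ln13_12_4 ln13_12_4_ok) (L (nat_lit 558) ln13_13_4 ln13_13_4_ok))))) (M (nat_lit 428) (B (M (nat_lit 396) (B (L (nat_lit 364) ln13_15_7 ln13_15_7_ok)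 (M (nat_lit 398) (B (L (nat_lit 366) ln13_15_6 ln13_15_6_ok) (M (nat_lit 427) (B (L (nat_lit 399) ln15_12_1 ln15_12_1_ok) (L (nat_lit 426) ln10_13_2 ln10_13_2_ok))))))) (B (M (nat_lit 398) (B (L (nat_lit 366) ln13_15_6 ln13_15_6_ok) (M (nat_lit 427) (B (L (nat_lit 426) ln10_13_2 ln10_13_2_ok) (M (nat_lit 399) (B (L (nat_lit 396) ln15_12_1 ln15_12_1_ok) (L (nat_lit 400) ln16_12_1 ln16_12_1_ok))))))) (B (M (nat_lit 460) (B (M (nat_lit 492) (B (L (nat_lit 524) ln12_16_6 ln12_16_6_ok) (M (nat_lit 494) (B (L (nat_lit 526) ln13_12_4 ln13_12_4_ok) (M (nat_lit 459) (B (L (nat_lit 458) ln10_14_0 ln10_14_0_ok) (L (nat_lit 495) ln15_15_3 ln15_15_3_ok))))))) (B (M (nat_lit 492) (B (L (nat_lit 524) ln12_16_6 ln12_16_6_ok) (M (nat_lit 494) (B (L (nat_lit 526) ln13_12_4 ln13_12_4_ok) (M (nat_lit 495) (B (L (nat_lit 459) ln15_15_3 ln15_15_3_ok) (L (nat_lit 496) ln16_15_3 ln16_15_3_ok))))))) (B (M (nat_lit 492) (B (L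 (nat_lit 524) ln12_16_6 ln12_16_6_ok) (M (nat_lit 491) (B (M (nat_lit 396) (B (L (nat_lit 364) ln13_15_7 ln13_15_7_ok) (L (nat_lit 523) ln12_12_5 ln12_12_5_ok))) (M (nat_lit 490) (B (L (nat_lit 489) ln9_15_2 ln9_15_2_ok) (L (nat_lit 462) ln10_15_2 ln10_15_2_ok))))))) (M (nat_lit 494) (B (L (nat_lit 526) ln13_12_4 ln13_12_4_ok) (M (nat_lit 459) (B (L (nat_lit 458) ln10_14_0 ln10_14_0_ok) (M (nat_lit 495) (B (L (nat_lit 462) ln11_14_0 ln11_14_0_ok) (L (nat_lit 496) ln16_15_3 ln16_15_3_ok))))))))))) (M (nat_lit 398) (B (L (nat_lit 366) ln13_15_6 ln13_15_6_ok) (M (nat_lit 427) (B (L (nat_lit 426) ln10_13_2 ln10_13_2_ok) (M (nat_lit 399) (B (L (nat_lit 400) ln16_12_1 ln16_12_1_ok) (L (nat_lit 430) ln11_13_2 ln11_13_2_ok)))))))))))))) (B (M (nat_lit 493) (B (M (nat_lit 365) (B (M (nat_lit 364) (B (L (nat_lit 332) ln13_14_7 ln13_14_7_ok) (L (nat_lit 396) ln13_15_7 ln13_15_7_ok))) (M (nat_lit 494) (B (L (nat_lit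 462) ln13_11_4 ln13_11_4_ok) (L (nat_lit 526) ln13_12_4 ln13_12_4_ok))))) (B (M (nat_lit 365) (B (M (nat_lit 366) (B (L (nat_lit 334) ln13_14_6 ln13_14_6_ok) (L (nat_lit 398) ln13_15_6 ln13_15_6_ok))) (M (nat_lit 494) (B (L (nat_lit 462) ln13_11_4 ln13_11_4_ok) (L (nat_lit 526) ln13_12_4 ln13_12_4_ok))))) (B (M (nat_lit 525) (B (M (nat_lit 398) (B (L (nat_lit 366) ln13_15_6 ln13_15_6_ok) (L (nat_lit 430) ln13_16_6 ln13_16_6_ok))) (M (nat_lit 526) (B (L (nat_lit 494) ln13_12_4 ln13_12_4_ok) (L (nat_lit 558) ln13_13_4 ln13_13_4_ok))))) (M (nat_lit 365) (B (M (nat_lit 364) (B (L (nat_lit 332) ln13_14_7 ln13_14_7_ok) (L (nat_lit 396) ln13_15_7 ln13_15_7_ok))) (M (nat_lit 366) (B (L (nat_lit 334) ln13_14_6 ln13_14_6_ok) (L (nat_lit 398) ln13_15_6 ln13_15_6_ok))))))))) (M (nat_lit 460) (B (M (nat_lit 492) (B (L (nat_lit 365) ln13_11_5 ln13_11_5_ok) (M (nat_lit 524) (B (L (nat_lit 428) ln12_16_6 ln12_16_6_ok)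 (L (nat_lit 556) ln12_17_6 ln12_17_6_ok))))) (B (M (nat_lit 459) (B (M (nat_lit 430) (B (L (nat_lit 458) ln10_14_2 ln10_14_2_ok) (M (nat_lit 431) (B (L (nat_lit 428) ln15_13_1 ln15_13_1_ok) (L (nat_lit 432) ln16_13_1 ln16_13_1_ok))))) (B (M (nat_lit 430) (B (L (nat_lit 458) ln10_14_2 ln10_14_2_ok) (M (nat_lit 431) (B (L (nat_lit 432) ln16_13_1 ln16_13_1_ok) (L (nat_lit 462) ln11_14_2 ln11_14_2_ok))))) (B (M (nat_lit 462) (B (M (nat_lit 458) (B (M (nat_lit 426) (B (L (nat_lit 425) ln13_14_3 ln13_14_3_ok) (L (nat_lit 427) ln14_14_3 ln14_14_3_ok))) (M (nat_lit 490) (B (L (nat_lit 489) ln13_14_1 ln13_14_1_ok) (L (nat_lit 491) ln14_14_1 ln14_14_1_ok))))) (B (M (nat_lit 492) (B (M (nat_lit 524) (B (L (nat_lit 428) ln12_16_6 ln12_16_6_ok) (L (nat_lit 556) ln12_17_6 ln12_17_6_ok))) (M (nat_lit 491) (B (L (nat_lit 490) ln14_14_1 ln14_14_1_ok) (L (nat_lit 463) ln15_14_1 ln15_14_1_ok))))) (M (nat_lit 463) (B (M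 (nat_lit 427) (B (L (nat_lit 426) ln14_14_3 ln14_14_3_ok) (L (nat_lit 428) ln15_14_3 ln15_14_3_ok))) (M (nat_lit 495) (B (L (nat_lit 494) ln11_14_0 ln11_14_0_ok) (L (nat_lit 496) ln12_14_0 ln12_14_0_ok)))))))) (M (nat_lit 462) (B (M (nat_lit 430) (B (L (nat_lit 431) ln11_14_2 ln11_14_2_ok) (M (nat_lit 494) (B (L (nat_lit 526) ln14_16_7 ln14_16_7_ok) (L (nat_lit 495) ln11_14_0 ln11_14_0_ok))))) (M (nat_lit 492) (B (M (nat_lit 524) (B (L (nat_lit 428) ln12_16_6 ln12_16_6_ok) (L (nat_lit 556) ln12_17_6 ln12_17_6_ok))) (M (nat_lit 491) (B (L (nat_lit 490) ln14_14_1 ln14_14_1_ok) (L (nat_lit 463) ln15_14_1 ln15_14_1_ok))))))))))) (B (M (nat_lit 365) (B (L (nat_lit 492) ln13_11_5 ln13_11_5_ok) (M (nat_lit 333) (B (M (nat_lit 332) (B (L (nat_lit 300) ln13_13_7 ln13_13_7_ok) (L (nat_lit 364) ln13_14_7 ln13_14_7_ok))) (M (nat_lit 462) (B (L (nat_lit 430) ln13_10_4 ln13_10_4_ok) (L (nat_lit 494) ln13_11_4 ln13_11_4_ok)))))))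 (M (nat_lit 365) (B (M (nat_lit 333) (B (L (nat_lit 428) ln13_10_5 ln13_10_5_ok) (M (nat_lit 332) (B (L (nat_lit 300) ln13_13_7 ln13_13_7_ok) (L (nat_lit 364) ln13_14_7 ln13_14_7_ok))))) (B (M (nat_lit 333) (B (L (nat_lit 428) ln13_10_5 ln13_10_5_ok) (M (nat_lit 334) (B (L (nat_lit 302) ln13_13_6 ln13_13_6_ok) (L (nat_lit 366) ln13_14_6 ln13_14_6_ok))))) (B (M (nat_lit 462) (B (L (nat_lit 494) ln13_11_4 ln13_11_4_ok) (M (nat_lit 459) (B (M (nat_lit 430) (B (L (nat_lit 458) ln10_14_2 ln10_14_2_ok) (L (nat_lit 431) ln11_14_2 ln11_14_2_ok))) (B (M (nat_lit 458) (B (M (nat_lit 426) (B (L (nat_lit 425) ln13_14_3 ln13_14_3_ok) (L (nat_lit 427) ln14_14_3 ln14_14_3_ok))) (M (nat_lit 490) (B (L (nat_lit 489) ln13_14_1 ln13_14_1_ok) (L (nat_lit 491) ln14_14_1 ln14_14_1_ok))))) (M (nat_lit 463) (B (M (nat_lit 427) (B (L (nat_lit 426) ln14_14_3 ln14_14_3_ok) (L (nat_lit 428) ln15_14_3 ln15_14_3_ok))) (M (nat_lit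 431) (B (L (nat_lit 430) ln11_14_2 ln11_14_2_ok) (L (nat_lit 432) ln12_14_2 ln12_14_2_ok)))))))))) (M (nat_lit 333) (B (M (nat_lit 332) (B (L (nat_lit 300) ln13_13_7 ln13_13_7_ok) (L (nat_lit 364) ln13_14_7 ln13_14_7_ok))) (M (nat_lit 334) (B (L (nat_lit 302) ln13_13_6 ln13_13_6_ok) (L (nat_lit 366) ln13_14_6 ln13_14_6_ok))))))))))))))))))) (nat_lit 1386334847383188664550070665778531748218595021979121511688892729411143073470393764272092352380775458208712834410189682411080515584) (nat_lit 1179363258168619532590897880233893841888069377243862686135942554942888025466634982403882224730386143470945522578132903098925670627647597665379007354376948534487168319488) (nat_lit 1179363258168619532590897880233893841888069377243862686135942554942888025466634982403882224730386143470945522578132903098925670627647597665379007354376948534487168319488) (by decide +kernel)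
theorem c31_s2677 : Sem (nat_lit 1386334847383188664550070665778531748218595021979121511688892729411143073470393764272092352380775458208712834410189682411080515584) (nat_lit 1179363259459201492695452506650491192115371302086481757128373177237709782087262394829001397228131694176501073669269847731122757572017710544825521029522267147009381105664) (nat_lit 1179363259459201492695452506650491192115371302086481757128373177237709782087262394829001397228131694176501073669269847731122757572017710544825521029522267147009381105664) :=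
  sem_of_chk (M (nat_lit 461) (B (M (nat_lit 493) (B (M (nat_lit 525) (B (M (nat_lit 398) (B (L (nat_lit 366) ln13_15_6 ln13_15_6_ok) (L (nat_lit 430) ln13_16_6 ln13_16_6_ok))) (M (nat_lit 524) (B (L (nat_lit 492) ln13_12_5 ln13_12_5_ok) (L (nat_lit 556) ln13_13_5 ln13_13_5_ok))))) (B (M (nat_lit 365) (B (M (nat_lit 492) (B (L (nat_lit 460) ln13_11_5 ln13_11_5_ok) (L (nat_lit 524) ln13_12_5 ln13_12_5_ok))) (M (nat_lit 494) (B (L (nat_lit 462) ln13_11_4 ln13_11_4_ok) (L (nat_lit 526) ln13_12_4 ln13_12_4_ok))))) (M (nat_lit 525) (B (M (nat_lit 398) (B (L (nat_lit 366) ln13_15_6 ln13_15_6_ok) (L (nat_lit 430) ln13_16_6 ln13_16_6_ok))) (M (nat_lit 526) (B (L (nat_lit 494) ln13_12_4 ln13_12_4_ok) (L (nat_lit 558) ln13_13_4 ln13_13_4_ok)))))))) (B (M (nat_lit 493) (B (M (nat_lit 525) (B (M (nat_lit 398) (B (L (nat_lit 366) ln13_15_6 ln13_15_6_ok) (L (nat_lit 430) ln13_16_6 ln13_16_6_ok))) (M (nat_lit 524)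 (B (L (nat_lit 492) ln13_12_5 ln13_12_5_ok) (L (nat_lit 556) ln13_13_5 ln13_13_5_ok))))) (B (M (nat_lit 525) (B (M (nat_lit 524) (B (L (nat_lit 492) ln13_12_5 ln13_12_5_ok) (L (nat_lit 556) ln13_13_5 ln13_13_5_ok))) (M (nat_lit 526) (B (L (nat_lit 494) ln13_12_4 ln13_12_4_ok) (L (nat_lit 558) ln13_13_4 ln13_13_4_ok))))) (B (M (nat_lit 525) (B (M (nat_lit 398) (B (L (nat_lit 366) ln13_15_6 ln13_15_6_ok) (L (nat_lit 430) ln13_16_6 ln13_16_6_ok))) (M (nat_lit 526) (B (L (nat_lit 494) ln13_12_4 ln13_12_4_ok) (L (nat_lit 558) ln13_13_4 ln13_13_4_ok))))) (M (nat_lit 398) (B (L (nat_lit 366) ln13_15_6 ln13_15_6_ok) (M (nat_lit 492) (B (L (nat_lit 524) ln13_12_5 ln13_12_5_ok) (M (nat_lit 494) (B (L (nat_lit 526) ln13_12_4 ln13_12_4_ok) (M (nat_lit 462) (B (M (nat_lit 491) (B (L (nat_lit 490) ln10_15_2 ln10_15_2_ok) (L (nat_lit 463) ln11_15_2 ln11_15_2_ok))) (M (nat_lit 495) (B (M (nat_lit 460) (B (L (nat_lit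 459) ln11_14_0 ln11_14_0_ok) (L (nat_lit 496) ln16_15_3 ln16_15_3_ok))) (M (nat_lit 527) (B (L (nat_lit 430) ln14_12_4 ln14_12_4_ok) (L (nat_lit 528) ln12_15_0 ln12_15_0_ok))))))))))))))))) (B (M (nat_lit 365) (B (M (nat_lit 333) (B (M (nat_lit 332) (B (L (nat_lit 300) ln13_13_7 ln13_13_7_ok) (L (nat_lit 364) ln13_14_7 ln13_14_7_ok))) (M (nat_lit 462) (B (L (nat_lit 430) ln13_10_4 ln13_10_4_ok) (L (nat_lit 494) ln13_11_4 ln13_11_4_ok))))) (B (M (nat_lit 493) (B (M (nat_lit 492) (B (L (nat_lit 460) ln13_11_5 ln13_11_5_ok) (L (nat_lit 524) ln13_12_5 ln13_12_5_ok))) (M (nat_lit 494) (B (L (nat_lit 462) ln13_11_4 ln13_11_4_ok) (L (nat_lit 526) ln13_12_4 ln13_12_4_ok))))) (M (nat_lit 333) (B (M (nat_lit 332) (B (L (nat_lit 300) ln13_13_7 ln13_13_7_ok) (L (nat_lit 364) ln13_14_7 ln13_14_7_ok))) (M (nat_lit 460) (B (L (nat_lit 428) ln13_10_5 ln13_10_5_ok) (L (nat_lit 492) ln13_11_5 ln13_11_5_ok)))))))) (B (M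 (nat_lit 365) (B (M (nat_lit 493) (B (M (nat_lit 366) (B (L (nat_lit 334) ln13_14_6 ln13_14_6_ok) (L (nat_lit 398) ln13_15_6 ln13_15_6_ok))) (M (nat_lit 494) (B (L (nat_lit 462) ln13_11_4 ln13_11_4_ok) (L (nat_lit 526) ln13_12_4 ln13_12_4_ok))))) (M (nat_lit 333) (B (M (nat_lit 332) (B (L (nat_lit 300) ln13_13_7 ln13_13_7_ok) (L (nat_lit 364) ln13_14_7 ln13_14_7_ok))) (M (nat_lit 460) (B (L (nat_lit 428) ln13_10_5 ln13_10_5_ok) (L (nat_lit 492) ln13_11_5 ln13_11_5_ok))))))) (B (M (nat_lit 365) (B (M (nat_lit 333) (B (M (nat_lit 332) (B (L (nat_lit 300) ln13_13_7 ln13_13_7_ok) (L (nat_lit 364) ln13_14_7 ln13_14_7_ok))) (M (nat_lit 462) (B (L (nat_lit 430) ln13_10_4 ln13_10_4_ok) (L (nat_lit 494) ln13_11_4 ln13_11_4_ok))))) (B (M (nat_lit 493) (B (M (nat_lit 366) (B (L (nat_lit 334) ln13_14_6 ln13_14_6_ok) (L (nat_lit 398) ln13_15_6 ln13_15_6_ok))) (M (nat_lit 494) (B (L (nat_lit 462) ln13_11_4 ln13_11_4_ok)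 (L (nat_lit 526) ln13_12_4 ln13_12_4_ok))))) (M (nat_lit 332) (B (L (nat_lit 364) ln13_14_7 ln13_14_7_ok) (M (nat_lit 334) (B (L (nat_lit 366) ln13_14_6 ln13_14_6_ok) (M (nat_lit 333) (B (L (nat_lit 300) ln13_13_7 ln13_13_7_ok) (L (nat_lit 302) ln13_13_6 ln13_13_6_ok)))))))))) (B (M (nat_lit 365) (B (M (nat_lit 333) (B (M (nat_lit 332) (B (L (nat_lit 300) ln13_13_7 ln13_13_7_ok) (L (nat_lit 364) ln13_14_7 ln13_14_7_ok))) (M (nat_lit 460) (B (L (nat_lit 428) ln13_10_5 ln13_10_5_ok) (L (nat_lit 492) ln13_11_5 ln13_11_5_ok))))) (B (M (nat_lit 493) (B (M (nat_lit 366) (B (L (nat_lit 334) ln13_14_6 ln13_14_6_ok) (L (nat_lit 398) ln13_15_6 ln13_15_6_ok))) (M (nat_lit 492) (B (L (nat_lit 460) ln13_11_5 ln13_11_5_ok) (L (nat_lit 524) ln13_12_5 ln13_12_5_ok))))) (M (nat_lit 332) (B (L (nat_lit 364) ln13_14_7 ln13_14_7_ok) (M (nat_lit 334) (B (L (nat_lit 366) ln13_14_6 ln13_14_6_ok) (M (nat_lit 333) (B (L (nat_lit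 300) ln13_13_7 ln13_13_7_ok) (L (nat_lit 302) ln13_13_6 ln13_13_6_ok)))))))))) (M (nat_lit 365) (B (M (nat_lit 333) (B (M (nat_lit 332) (B (L (nat_lit 300) ln13_13_7 ln13_13_7_ok) (L (nat_lit 364) ln13_14_7 ln13_14_7_ok))) (M (nat_lit 460) (B (L (nat_lit 428) ln13_10_5 ln13_10_5_ok) (L (nat_lit 492) ln13_11_5 ln13_11_5_ok))))) (B (M (nat_lit 460) (B (L (nat_lit 492) ln13_11_5 ln13_11_5_ok) (M (nat_lit 333) (B (L (nat_lit 428) ln13_10_5 ln13_10_5_ok) (M (nat_lit 334) (B (L (nat_lit 302) ln13_13_6 ln13_13_6_ok) (L (nat_lit 366) ln13_14_6 ln13_14_6_ok))))))) (B (M (nat_lit 460) (B (L (nat_lit 492) ln13_11_5 ln13_11_5_ok) (M (nat_lit 462) (B (L (nat_lit 494) ln13_11_4 ln13_11_4_ok) (M (nat_lit 459) (B (M (nat_lit 430) (B (L (nat_lit 458) ln10_14_2 ln10_14_2_ok) (L (nat_lit 431) ln11_14_2 ln11_14_2_ok))) (B (M (nat_lit 458) (B (M (nat_lit 426) (B (L (nat_lit 425) ln13_14_3 ln13_14_3_ok) (L (nat_lit 427) ln14_14_3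 ln14_14_3_ok))) (M (nat_lit 490) (B (L (nat_lit 489) ln13_14_1 ln13_14_1_ok) (L (nat_lit 491) ln14_14_1 ln14_14_1_ok))))) (M (nat_lit 463) (B (M (nat_lit 427) (B (L (nat_lit 426) ln14_14_3 ln14_14_3_ok) (L (nat_lit 428) ln15_14_3 ln15_14_3_ok))) (M (nat_lit 431) (B (L (nat_lit 430) ln11_14_2 ln11_14_2_ok) (L (nat_lit 432) ln12_14_2 ln12_14_2_ok)))))))))))) (M (nat_lit 332) (B (L (nat_lit 364) ln13_14_7 ln13_14_7_ok) (M (nat_lit 334) (B (L (nat_lit 366) ln13_14_6 ln13_14_6_ok) (M (nat_lit 333) (B (L (nat_lit 300) ln13_13_7 ln13_13_7_ok) (L (nat_lit 302) ln13_13_6 ln13_13_6_ok)))))))))))))))))) (nat_lit 1386334847383188664550070665778531748218595021979121511688892729411143073470393764272092352380775458208712834410189682411080515584) (nat_lit 1179363259459201492695452506650491192115371302086481757128373177237709782087262394829001397228131694176501073669269847731122757572017710544825521029522267147009381105664)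 (nat_lit 1179363259459201492695452506650491192115371302086481757128373177237709782087262394829001397228131694176501073669269847731122757572017710544825521029522267147009381105664) (by decide +kernel)
theorem c31_s2722 : Sem (nat_lit 1386334847383188664550070665778531748218595021979121511688892729411143073470393764272092352380775458208712834410189682411080515584) (nat_lit 1179363258168619532590897880233893841888069377239484965639517131065149165661171742180456960074699355944741061946713244754997502212077943894943983279007847087876375314432) (nat_lit 1179363258168619532590897880233893841888069377239484965639517131065149165661171742180456960074699355944741061946713244754997502212077943894943983279007847087876375314432) :=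
  sem_of_chk (M (nat_lit 461) (B (M (nat_lit 365) (B (M (nat_lit 460) (B (L (nat_lit 492) ln13_11_5 ln13_11_5_ok) (M (nat_lit 333) (B (L (nat_lit 428) ln13_10_5 ln13_10_5_ok) (M (nat_lit 334) (B (L (nat_lit 302) ln13_13_6 ln13_13_6_ok) (L (nat_lit 366) ln13_14_6 ln13_14_6_ok))))))) (B (M (nat_lit 493) (B (M (nat_lit 492) (B (L (nat_lit 460) ln13_11_5 ln13_11_5_ok) (L (nat_lit 524) ln13_12_5 ln13_12_5_ok))) (M (nat_lit 494) (B (L (nat_lit 462) ln13_11_4 ln13_11_4_ok) (L (nat_lit 526) ln13_12_4 ln13_12_4_ok))))) (M (nat_lit 493) (B (M (nat_lit 364) (B (L (nat_lit 332) ln13_14_7 ln13_14_7_ok) (L (nat_lit 396) ln13_15_7 ln13_15_7_ok))) (M (nat_lit 494) (B (L (nat_lit 462) ln13_11_4 ln13_11_4_ok) (L (nat_lit 526) ln13_12_4 ln13_12_4_ok)))))))) (B (M (nat_lit 365) (B (M (nat_lit 493) (B (M (nat_lit 492) (B (L (nat_lit 460) ln13_11_5 ln13_11_5_ok) (L (nat_lit 524) ln13_12_5 ln13_12_5_ok))) (M (nat_lit 494)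 (B (L (nat_lit 462) ln13_11_4 ln13_11_4_ok) (L (nat_lit 526) ln13_12_4 ln13_12_4_ok))))) (B (M (nat_lit 493) (B (M (nat_lit 364) (B (L (nat_lit 332) ln13_14_7 ln13_14_7_ok) (L (nat_lit 396) ln13_15_7 ln13_15_7_ok))) (M (nat_lit 494) (B (L (nat_lit 462) ln13_11_4 ln13_11_4_ok) (L (nat_lit 526) ln13_12_4 ln13_12_4_ok))))) (B (M (nat_lit 493) (B (M (nat_lit 364) (B (L (nat_lit 332) ln13_14_7 ln13_14_7_ok) (L (nat_lit 396) ln13_15_7 ln13_15_7_ok))) (M (nat_lit 492) (B (L (nat_lit 460) ln13_11_5 ln13_11_5_ok) (L (nat_lit 524) ln13_12_5 ln13_12_5_ok))))) (M (nat_lit 333) (B (M (nat_lit 332) (B (L (nat_lit 300) ln13_13_7 ln13_13_7_ok) (L (nat_lit 364) ln13_14_7 ln13_14_7_ok))) (M (nat_lit 460) (B (L (nat_lit 428) ln13_10_5 ln13_10_5_ok) (L (nat_lit 492) ln13_11_5 ln13_11_5_ok))))))))) (B (M (nat_lit 365) (B (M (nat_lit 333) (B (M (nat_lit 334) (B (L (nat_lit 302) ln13_13_6 ln13_13_6_ok) (L (nat_lit 366) ln13_14_6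 ln13_14_6_ok))) (M (nat_lit 462) (B (L (nat_lit 430) ln13_10_4 ln13_10_4_ok) (L (nat_lit 494) ln13_11_4 ln13_11_4_ok))))) (B (M (nat_lit 493) (B (M (nat_lit 492) (B (L (nat_lit 460) ln13_11_5 ln13_11_5_ok) (L (nat_lit 524) ln13_12_5 ln13_12_5_ok))) (M (nat_lit 494) (B (L (nat_lit 462) ln13_11_4 ln13_11_4_ok) (L (nat_lit 526) ln13_12_4 ln13_12_4_ok))))) (M (nat_lit 460) (B (L (nat_lit 492) ln13_11_5 ln13_11_5_ok) (M (nat_lit 333) (B (L (nat_lit 428) ln13_10_5 ln13_10_5_ok) (M (nat_lit 334) (B (L (nat_lit 302) ln13_13_6 ln13_13_6_ok) (L (nat_lit 366) ln13_14_6 ln13_14_6_ok)))))))))) (B (M (nat_lit 493) (B (M (nat_lit 365) (B (M (nat_lit 364) (B (L (nat_lit 332) ln13_14_7 ln13_14_7_ok) (L (nat_lit 396) ln13_15_7 ln13_15_7_ok))) (M (nat_lit 494) (B (L (nat_lit 462) ln13_11_4 ln13_11_4_ok) (L (nat_lit 526) ln13_12_4 ln13_12_4_ok))))) (B (M (nat_lit 365) (B (M (nat_lit 492) (B (L (nat_lit 460) ln13_11_5 ln13_11_5_ok)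 (L (nat_lit 524) ln13_12_5 ln13_12_5_ok))) (M (nat_lit 494) (B (L (nat_lit 462) ln13_11_4 ln13_11_4_ok) (L (nat_lit 526) ln13_12_4 ln13_12_4_ok))))) (B (M (nat_lit 525) (B (M (nat_lit 524) (B (L (nat_lit 492) ln13_12_5 ln13_12_5_ok) (L (nat_lit 556) ln13_13_5 ln13_13_5_ok))) (M (nat_lit 526) (B (L (nat_lit 494) ln13_12_4 ln13_12_4_ok) (L (nat_lit 558) ln13_13_4 ln13_13_4_ok))))) (M (nat_lit 365) (B (M (nat_lit 364) (B (L (nat_lit 332) ln13_14_7 ln13_14_7_ok) (L (nat_lit 396) ln13_15_7 ln13_15_7_ok))) (M (nat_lit 492) (B (L (nat_lit 460) ln13_11_5 ln13_11_5_ok) (L (nat_lit 524) ln13_12_5 ln13_12_5_ok))))))))) (B (M (nat_lit 493) (B (M (nat_lit 525) (B (M (nat_lit 396) (B (L (nat_lit 364) ln13_15_7 ln13_15_7_ok) (L (nat_lit 428) ln13_16_7 ln13_16_7_ok))) (M (nat_lit 524) (B (L (nat_lit 492) ln13_12_5 ln13_12_5_ok) (L (nat_lit 556) ln13_13_5 ln13_13_5_ok))))) (B (M (nat_lit 525) (B (M (nat_lit 524) (B (L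 (nat_lit 492) ln13_12_5 ln13_12_5_ok) (L (nat_lit 556) ln13_13_5 ln13_13_5_ok))) (M (nat_lit 526) (B (L (nat_lit 494) ln13_12_4 ln13_12_4_ok) (L (nat_lit 558) ln13_13_4 ln13_13_4_ok))))) (B (M (nat_lit 525) (B (M (nat_lit 396) (B (L (nat_lit 364) ln13_15_7 ln13_15_7_ok) (L (nat_lit 428) ln13_16_7 ln13_16_7_ok))) (M (nat_lit 526) (B (L (nat_lit 494) ln13_12_4 ln13_12_4_ok) (L (nat_lit 558) ln13_13_4 ln13_13_4_ok))))) (M (nat_lit 396) (B (L (nat_lit 364) ln13_15_7 ln13_15_7_ok) (M (nat_lit 460) (B (M (nat_lit 492) (B (L (nat_lit 524) ln13_12_5 ln13_12_5_ok) (M (nat_lit 494) (B (L (nat_lit 526) ln13_12_4 ln13_12_4_ok) (M (nat_lit 459) (B (L (nat_lit 458) ln10_14_0 ln10_14_0_ok) (L (nat_lit 495) ln15_15_3 ln15_15_3_ok))))))) (B (M (nat_lit 492) (B (L (nat_lit 524) ln13_12_5 ln13_12_5_ok) (M (nat_lit 494) (B (L (nat_lit 526) ln13_12_4 ln13_12_4_ok) (M (nat_lit 495) (B (L (nat_lit 459) ln15_15_3 ln15_15_3_ok)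 (L (nat_lit 496) ln16_15_3 ln16_15_3_ok))))))) (B (M (nat_lit 492) (B (L (nat_lit 524) ln13_12_5 ln13_12_5_ok) (M (nat_lit 428) (B (M (nat_lit 395) (B (L (nat_lit 363) ln12_15_7 ln12_15_7_ok) (M (nat_lit 394) (B (L (nat_lit 393) ln9_12_0 ln9_12_0_ok) (L (nat_lit 430) ln10_12_0 ln10_12_0_ok))))) (M (nat_lit 491) (B (L (nat_lit 523) ln12_12_5 ln12_12_5_ok) (M (nat_lit 462) (B (L (nat_lit 463) ln15_14_1 ln15_14_1_ok) (L (nat_lit 490) ln10_15_2 ln10_15_2_ok))))))))) (M (nat_lit 494) (B (L (nat_lit 526) ln13_12_4 ln13_12_4_ok) (M (nat_lit 459) (B (L (nat_lit 458) ln10_14_0 ln10_14_0_ok) (M (nat_lit 495) (B (L (nat_lit 462) ln11_14_0 ln11_14_0_ok) (L (nat_lit 496) ln16_15_3 ln16_15_3_ok))))))))))))))))) (B (M (nat_lit 493) (B (M (nat_lit 525) (B (M (nat_lit 396) (B (L (nat_lit 364) ln13_15_7 ln13_15_7_ok) (L (nat_lit 428) ln13_16_7 ln13_16_7_ok))) (M (nat_lit 524) (B (L (nat_lit 492) ln13_12_5 ln13_12_5_ok)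 (L (nat_lit 556) ln13_13_5 ln13_13_5_ok))))) (B (M (nat_lit 525) (B (M (nat_lit 524) (B (L (nat_lit 492) ln13_12_5 ln13_12_5_ok) (L (nat_lit 556) ln13_13_5 ln13_13_5_ok))) (M (nat_lit 526) (B (L (nat_lit 494) ln13_12_4 ln13_12_4_ok) (L (nat_lit 558) ln13_13_4 ln13_13_4_ok))))) (M (nat_lit 365) (B (M (nat_lit 364) (B (L (nat_lit 332) ln13_14_7 ln13_14_7_ok) (L (nat_lit 396) ln13_15_7 ln13_15_7_ok))) (M (nat_lit 494) (B (L (nat_lit 462) ln13_11_4 ln13_11_4_ok) (L (nat_lit 526) ln13_12_4 ln13_12_4_ok)))))))) (B (M (nat_lit 493) (B (M (nat_lit 525) (B (M (nat_lit 524) (B (L (nat_lit 492) ln13_12_5 ln13_12_5_ok) (L (nat_lit 556) ln13_13_5 ln13_13_5_ok))) (M (nat_lit 526) (B (L (nat_lit 494) ln13_12_4 ln13_12_4_ok) (L (nat_lit 558) ln13_13_4 ln13_13_4_ok))))) (B (M (nat_lit 525) (B (M (nat_lit 396) (B (L (nat_lit 364) ln13_15_7 ln13_15_7_ok) (L (nat_lit 428) ln13_16_7 ln13_16_7_ok))) (M (nat_lit 526) (B (L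 (nat_lit 494) ln13_12_4 ln13_12_4_ok) (L (nat_lit 558) ln13_13_4 ln13_13_4_ok))))) (M (nat_lit 365) (B (M (nat_lit 364) (B (L (nat_lit 332) ln13_14_7 ln13_14_7_ok) (L (nat_lit 396) ln13_15_7 ln13_15_7_ok))) (M (nat_lit 492) (B (L (nat_lit 460) ln13_11_5 ln13_11_5_ok) (L (nat_lit 524) ln13_12_5 ln13_12_5_ok)))))))) (B (M (nat_lit 365) (B (M (nat_lit 332) (B (L (nat_lit 364) ln13_14_7 ln13_14_7_ok) (M (nat_lit 334) (B (L (nat_lit 366) ln13_14_6 ln13_14_6_ok) (M (nat_lit 333) (B (L (nat_lit 300) ln13_13_7 ln13_13_7_ok) (L (nat_lit 302) ln13_13_6 ln13_13_6_ok))))))) (B (M (nat_lit 493) (B (M (nat_lit 364) (B (L (nat_lit 332) ln13_14_7 ln13_14_7_ok) (L (nat_lit 396) ln13_15_7 ln13_15_7_ok))) (M (nat_lit 494) (B (L (nat_lit 462) ln13_11_4 ln13_11_4_ok) (L (nat_lit 526) ln13_12_4 ln13_12_4_ok))))) (M (nat_lit 333) (B (M (nat_lit 334) (B (L (nat_lit 302) ln13_13_6 ln13_13_6_ok) (L (nat_lit 366) ln13_14_6 ln13_14_6_ok)))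 (M (nat_lit 462) (B (L (nat_lit 430) ln13_10_4 ln13_10_4_ok) (L (nat_lit 494) ln13_11_4 ln13_11_4_ok)))))))) (B (M (nat_lit 365) (B (M (nat_lit 460) (B (L (nat_lit 492) ln13_11_5 ln13_11_5_ok) (M (nat_lit 333) (B (L (nat_lit 428) ln13_10_5 ln13_10_5_ok) (M (nat_lit 334) (B (L (nat_lit 302) ln13_13_6 ln13_13_6_ok) (L (nat_lit 366) ln13_14_6 ln13_14_6_ok))))))) (B (M (nat_lit 333) (B (M (nat_lit 460) (B (L (nat_lit 428) ln13_10_5 ln13_10_5_ok) (L (nat_lit 492) ln13_11_5 ln13_11_5_ok))) (M (nat_lit 462) (B (L (nat_lit 430) ln13_10_4 ln13_10_4_ok) (L (nat_lit 494) ln13_11_4 ln13_11_4_ok))))) (B (M (nat_lit 460) (B (L (nat_lit 492) ln13_11_5 ln13_11_5_ok) (M (nat_lit 462) (B (L (nat_lit 494) ln13_11_4 ln13_11_4_ok) (M (nat_lit 459) (B (M (nat_lit 430) (B (L (nat_lit 458) ln10_14_2 ln10_14_2_ok) (L (nat_lit 431) ln11_14_2 ln11_14_2_ok))) (B (M (nat_lit 458) (B (M (nat_lit 426) (B (L (nat_lit 425) ln13_14_3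 ln13_14_3_ok) (L (nat_lit 427) ln14_14_3 ln14_14_3_ok))) (M (nat_lit 490) (B (L (nat_lit 489) ln13_14_1 ln13_14_1_ok) (L (nat_lit 491) ln14_14_1 ln14_14_1_ok))))) (M (nat_lit 463) (B (M (nat_lit 427) (B (L (nat_lit 426) ln14_14_3 ln14_14_3_ok) (L (nat_lit 428) ln15_14_3 ln15_14_3_ok))) (M (nat_lit 431) (B (L (nat_lit 430) ln11_14_2 ln11_14_2_ok) (L (nat_lit 432) ln12_14_2 ln12_14_2_ok)))))))))))) (M (nat_lit 333) (B (M (nat_lit 334) (B (L (nat_lit 302) ln13_13_6 ln13_13_6_ok) (L (nat_lit 366) ln13_14_6 ln13_14_6_ok))) (M (nat_lit 462) (B (L (nat_lit 430) ln13_10_4 ln13_10_4_ok) (L (nat_lit 494) ln13_11_4 ln13_11_4_ok))))))))) (M (nat_lit 365) (B (M (nat_lit 460) (B (L (nat_lit 492) ln13_11_5 ln13_11_5_ok) (M (nat_lit 333) (B (L (nat_lit 428) ln13_10_5 ln13_10_5_ok) (M (nat_lit 334) (B (L (nat_lit 302) ln13_13_6 ln13_13_6_ok) (L (nat_lit 366) ln13_14_6 ln13_14_6_ok))))))) (B (M (nat_lit 333) (B (M (nat_lit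 332) (B (L (nat_lit 300) ln13_13_7 ln13_13_7_ok) (L (nat_lit 364) ln13_14_7 ln13_14_7_ok))) (M (nat_lit 460) (B (L (nat_lit 428) ln13_10_5 ln13_10_5_ok) (L (nat_lit 492) ln13_11_5 ln13_11_5_ok))))) (B (M (nat_lit 493) (B (M (nat_lit 364) (B (L (nat_lit 332) ln13_14_7 ln13_14_7_ok) (L (nat_lit 396) ln13_15_7 ln13_15_7_ok))) (M (nat_lit 492) (B (L (nat_lit 460) ln13_11_5 ln13_11_5_ok) (L (nat_lit 524) ln13_12_5 ln13_12_5_ok))))) (M (nat_lit 332) (B (L (nat_lit 364) ln13_14_7 ln13_14_7_ok) (M (nat_lit 334) (B (L (nat_lit 366) ln13_14_6 ln13_14_6_ok) (M (nat_lit 333) (B (L (nat_lit 300) ln13_13_7 ln13_13_7_ok) (L (nat_lit 302) ln13_13_6 ln13_13_6_ok))))))))))))))))))))) (nat_lit 1386334847383188664550070665778531748218595021979121511688892729411143073470393764272092352380775458208712834410189682411080515584) (nat_lit 1179363258168619532590897880233893841888069377239484965639517131065149165661171742180456960074699355944741061946713244754997502212077943894943983279007847087876375314432)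 (nat_lit 1179363258168619532590897880233893841888069377239484965639517131065149165661171742180456960074699355944741061946713244754997502212077943894943983279007847087876375314432) (by decide +kernel)
noncomputable def c31_n2748 : Cert := (M (nat_lit 398) (B (M (nat_lit 366) (B (L (nat_lit 493) ln13_15_6 ln13_15_6_ok) (M (nat_lit 334) (B (L (nat_lit 302) ln14_9_5 ln14_9_5_ok) (L (nat_lit 430) ln14_10_5 ln14_10_5_ok))))) (B (M (nat_lit 493) (B (L (nat_lit 366) ln13_15_6 ln13_15_6_ok) (M (nat_lit 525) (B (L (nat_lit 430) ln13_16_6 ln13_16_6_ok) (M (nat_lit 396) (B (L (nat_lit 364) ln13_15_7 ln13_15_7_ok) (L (nat_lit 428) ln13_16_7 ln13_16_7_ok))))))) (B (M (nat_lit 396) (B (M (nat_lit 493) (B (L (nat_lit 364) ln13_15_7 ln13_15_7_ok) (M (nat_lit 525) (B (L (nat_lit 428) ln13_16_7 ln13_16_7_ok) (L (nat_lit 430) ln13_16_6 ln13_16_6_ok))))) (B (M (nat_lit 430) (B (M (nat_lit 395) (B (L (nat_lit 394) ln10_12_0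 ln10_12_0_ok) (L (nat_lit 431) ln11_12_0 ln11_12_0_ok))) (B (M (nat_lit 431) (B (L (nat_lit 395) ln11_12_0 ln11_12_0_ok) (L (nat_lit 432) ln16_13_3 ln16_13_3_ok))) (M (nat_lit 399) (B (M (nat_lit 428) (B (L (nat_lit 427) ln15_12_1 ln15_12_1_ok) (L (nat_lit 400) ln16_12_1 ln16_12_1_ok))) (M (nat_lit 494) (B (M (nat_lit 367) (B (L (nat_lit 368) ln12_12_2 ln12_12_2_ok) (L (nat_lit 462) ln14_15_6 ln14_15_6_ok))) (M (nat_lit 493) (B (L (nat_lit 526) ln13_12_4 ln13_12_4_ok) (L (nat_lit 525) ln13_16_6 ln13_16_6_ok)))))))))) (B (M (nat_lit 430) (B (M (nat_lit 395) (B (L (nat_lit 394) ln10_12_0 ln10_12_0_ok) (L (nat_lit 431) ln11_12_0 ln11_12_0_ok))) (M (nat_lit 493) (B (L (nat_lit 364) ln13_15_7 ln13_15_7_ok) (L (nat_lit 525) ln13_16_6 ln13_16_6_ok))))) (B (M (nat_lit 428) (B (M (nat_lit 493) (B (L (nat_lit 364) ln13_15_7 ln13_15_7_ok) (L (nat_lit 525) ln13_16_7 ln13_16_7_ok))) (M (nat_lit 399) (B (L (nat_lit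 427) ln15_12_1 ln15_12_1_ok) (L (nat_lit 400) ln16_12_1 ln16_12_1_ok))))) (M (nat_lit 399) (B (M (nat_lit 428) (B (L (nat_lit 427) ln15_12_1 ln15_12_1_ok) (L (nat_lit 400) ln16_12_1 ln16_12_1_ok))) (M (nat_lit 395) (B (M (nat_lit 363) (B (L (nat_lit 362) ln14_12_3 ln14_12_3_ok) (L (nat_lit 364) ln15_12_3 ln15_12_3_ok))) (M (nat_lit 430) (B (L (nat_lit 394) ln10_12_0 ln10_12_0_ok) (L (nat_lit 431) ln11_12_0 ln11_12_0_ok)))))))))))) (B (M (nat_lit 493) (B (L (nat_lit 366) ln13_15_6 ln13_15_6_ok) (M (nat_lit 525) (B (M (nat_lit 396) (B (L (nat_lit 364) ln13_15_7 ln13_15_7_ok) (L (nat_lit 428) ln13_16_7 ln13_16_7_ok))) (M (nat_lit 526) (B (L (nat_lit 494) ln13_12_4 ln13_12_4_ok) (L (nat_lit 558) ln13_13_4 ln13_13_4_ok))))))) (M (nat_lit 399) (B (M (nat_lit 428) (B (L (nat_lit 400) ln16_12_1 ln16_12_1_ok) (M (nat_lit 427) (B (L (nat_lit 396) ln15_12_1 ln15_12_1_ok) (L (nat_lit 430) ln11_13_2 ln11_13_2_ok)))))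 (B (M (nat_lit 400) (B (L (nat_lit 428) ln16_12_1 ln16_12_1_ok) (M (nat_lit 401) (B (L (nat_lit 430) ln17_12_1 ln17_12_1_ok) (M (nat_lit 369) (B (L (nat_lit 368) ln13_12_2 ln13_12_2_ok) (L (nat_lit 370) ln14_12_2 ln14_12_2_ok))))))) (B (M (nat_lit 396) (B (M (nat_lit 428) (B (L (nat_lit 427) ln15_12_1 ln15_12_1_ok) (M (nat_lit 364) (B (L (nat_lit 332) ln12_10_4 ln12_10_4_ok) (L (nat_lit 363) ln15_12_3 ln15_12_3_ok))))) (M (nat_lit 366) (B (M (nat_lit 334) (B (L (nat_lit 302) ln14_9_5 ln14_9_5_ok) (L (nat_lit 430) ln14_10_5 ln14_10_5_ok))) (M (nat_lit 367) (B (L (nat_lit 395) ln11_12_2 ln11_12_2_ok) (L (nat_lit 368) ln12_12_2 ln12_12_2_ok))))))) (B (M (nat_lit 400) (B (M (nat_lit 401) (B (L (nat_lit 430) ln17_12_1 ln17_12_1_ok) (M (nat_lit 369) (B (L (nat_lit 368) ln13_12_2 ln13_12_2_ok) (L (nat_lit 370) ln14_12_2 ln14_12_2_ok))))) (B (M (nat_lit 401) (B (L (nat_lit 430) ln17_12_1 ln17_12_1_ok) (M (nat_lit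 433) (B (L (nat_lit 432) ln13_12_0 ln13_12_0_ok) (L (nat_lit 434) ln14_12_0 ln14_12_0_ok))))) (M (nat_lit 396) (B (M (nat_lit 368) (B (L (nat_lit 367) ln12_12_2 ln12_12_2_ok) (L (nat_lit 369) ln13_12_2 ln13_12_2_ok))) (M (nat_lit 432) (B (L (nat_lit 431) ln12_12_0 ln12_12_0_ok) (L (nat_lit 433) ln13_12_0 ln13_12_0_ok)))))))) (M (nat_lit 428) (B (L (nat_lit 400) ln16_12_1 ln16_12_1_ok) (M (nat_lit 396) (B (L (nat_lit 427) ln15_12_1 ln15_12_1_ok) (M (nat_lit 364) (B (L (nat_lit 332) ln12_10_4 ln12_10_4_ok) (L (nat_lit 363) ln15_12_3 ln15_12_3_ok)))))))))))))))))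
theorem c31_s2793 : Sem (nat_lit 1386334847383188664550070665778531748218595021979121511688892729411143073470393764272092352380775458208712834410189682411080515584) (nat_lit 1179363258141160341641896736602124099104105580806384453690184716037069862416345782625115726613687170233976133826702928690557022456217192191507330721521830972755722371072) (nat_lit 1179363258141160341641896736602124099104105580806384453690184716037069862416345782625115726613687170233976133826702928690557022456217192191507330721521830972755722371072) :=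
  sem_of_chk (M (nat_lit 461) (B (M (nat_lit 493) (B (M (nat_lit 525) (B (M (nat_lit 398) (B (L (nat_lit 366) ln13_15_6 ln13_15_6_ok) (L (nat_lit 430) ln13_16_6 ln13_16_6_ok))) (M (nat_lit 524) (B (L (nat_lit 492) ln13_12_5 ln13_12_5_ok) (L (nat_lit 556) ln13_13_5 ln13_13_5_ok))))) (B (M (nat_lit 365) (B (M (nat_lit 492) (B (L (nat_lit 460) ln13_11_5 ln13_11_5_ok) (L (nat_lit 524) ln13_12_5 ln13_12_5_ok))) (M (nat_lit 494) (B (L (nat_lit 462) ln13_11_4 ln13_11_4_ok) (L (nat_lit 526) ln13_12_4 ln13_12_4_ok))))) (M (nat_lit 525) (B (M (nat_lit 398) (B (L (nat_lit 366) ln13_15_6 ln13_15_6_ok) (L (nat_lit 430) ln13_16_6 ln13_16_6_ok))) (M (nat_lit 526) (B (L (nat_lit 494) ln13_12_4 ln13_12_4_ok) (L (nat_lit 558) ln13_13_4 ln13_13_4_ok)))))))) (B c31_n2748 (B (M (nat_lit 365) (B (M (nat_lit 493) (B (M (nat_lit 364) (B (L (nat_lit 332) ln13_14_7 ln13_14_7_ok) (L (nat_lit 396) ln13_15_7 ln13_15_7_ok))) (M (nat_lit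 492) (B (L (nat_lit 460) ln13_11_5 ln13_11_5_ok) (L (nat_lit 524) ln13_12_5 ln13_12_5_ok))))) (B (M (nat_lit 333) (B (M (nat_lit 460) (B (L (nat_lit 428) ln13_10_5 ln13_10_5_ok) (L (nat_lit 492) ln13_11_5 ln13_11_5_ok))) (M (nat_lit 462) (B (L (nat_lit 430) ln13_10_4 ln13_10_4_ok) (L (nat_lit 494) ln13_11_4 ln13_11_4_ok))))) (M (nat_lit 493) (B (M (nat_lit 364) (B (L (nat_lit 332) ln13_14_7 ln13_14_7_ok) (L (nat_lit 396) ln13_15_7 ln13_15_7_ok))) (M (nat_lit 494) (B (L (nat_lit 462) ln13_11_4 ln13_11_4_ok) (L (nat_lit 526) ln13_12_4 ln13_12_4_ok)))))))) (B (M (nat_lit 365) (B (M (nat_lit 493) (B (M (nat_lit 366) (B (L (nat_lit 334) ln13_14_6 ln13_14_6_ok) (L (nat_lit 398) ln13_15_6 ln13_15_6_ok))) (M (nat_lit 494) (B (L (nat_lit 462) ln13_11_4 ln13_11_4_ok) (L (nat_lit 526) ln13_12_4 ln13_12_4_ok))))) (M (nat_lit 333) (B (M (nat_lit 332) (B (L (nat_lit 300) ln13_13_7 ln13_13_7_ok) (L (nat_lit 364) ln13_14_7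 ln13_14_7_ok))) (M (nat_lit 460) (B (L (nat_lit 428) ln13_10_5 ln13_10_5_ok) (L (nat_lit 492) ln13_11_5 ln13_11_5_ok))))))) (B (M (nat_lit 365) (B (M (nat_lit 460) (B (L (nat_lit 492) ln13_11_5 ln13_11_5_ok) (M (nat_lit 333) (B (L (nat_lit 428) ln13_10_5 ln13_10_5_ok) (M (nat_lit 334) (B (L (nat_lit 302) ln13_13_6 ln13_13_6_ok) (L (nat_lit 366) ln13_14_6 ln13_14_6_ok))))))) (B (M (nat_lit 333) (B (M (nat_lit 332) (B (L (nat_lit 300) ln13_13_7 ln13_13_7_ok) (L (nat_lit 364) ln13_14_7 ln13_14_7_ok))) (M (nat_lit 460) (B (L (nat_lit 428) ln13_10_5 ln13_10_5_ok) (L (nat_lit 492) ln13_11_5 ln13_11_5_ok))))) (B (M (nat_lit 493) (B (M (nat_lit 364) (B (L (nat_lit 332) ln13_14_7 ln13_14_7_ok) (L (nat_lit 396) ln13_15_7 ln13_15_7_ok))) (M (nat_lit 492) (B (L (nat_lit 460) ln13_11_5 ln13_11_5_ok) (L (nat_lit 524) ln13_12_5 ln13_12_5_ok))))) (M (nat_lit 332) (B (L (nat_lit 364) ln13_14_7 ln13_14_7_ok) (M (nat_lit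 334) (B (L (nat_lit 366) ln13_14_6 ln13_14_6_ok) (M (nat_lit 333) (B (L (nat_lit 300) ln13_13_7 ln13_13_7_ok) (L (nat_lit 302) ln13_13_6 ln13_13_6_ok))))))))))) (M (nat_lit 365) (B (M (nat_lit 460) (B (L (nat_lit 492) ln13_11_5 ln13_11_5_ok) (M (nat_lit 333) (B (L (nat_lit 428) ln13_10_5 ln13_10_5_ok) (M (nat_lit 334) (B (L (nat_lit 302) ln13_13_6 ln13_13_6_ok) (L (nat_lit 366) ln13_14_6 ln13_14_6_ok))))))) (B (M (nat_lit 333) (B (M (nat_lit 460) (B (L (nat_lit 428) ln13_10_5 ln13_10_5_ok) (L (nat_lit 492) ln13_11_5 ln13_11_5_ok))) (M (nat_lit 462) (B (L (nat_lit 430) ln13_10_4 ln13_10_4_ok) (L (nat_lit 494) ln13_11_4 ln13_11_4_ok))))) (B (M (nat_lit 460) (B (L (nat_lit 492) ln13_11_5 ln13_11_5_ok) (M (nat_lit 396) (B (M (nat_lit 364) (B (L (nat_lit 332) ln13_14_7 ln13_14_7_ok) (M (nat_lit 366) (B (L (nat_lit 334) ln13_14_6 ln13_14_6_ok) (M (nat_lit 367) (B (L (nat_lit 395) ln15_11_1 ln15_11_1_ok) (L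 (nat_lit 368) ln16_11_1 ln16_11_1_ok))))))) (B (M (nat_lit 366) (B (L (nat_lit 334) ln13_14_6 ln13_14_6_ok) (M (nat_lit 395) (B (L (nat_lit 394) ln10_12_2 ln10_12_2_ok) (M (nat_lit 367) (B (L (nat_lit 364) ln15_11_1 ln15_11_1_ok) (L (nat_lit 368) ln16_11_1 ln16_11_1_ok))))))) (B (M (nat_lit 459) (B (M (nat_lit 430) (B (L (nat_lit 458) ln10_14_2 ln10_14_2_ok) (M (nat_lit 431) (B (L (nat_lit 432) ln16_13_3 ln16_13_3_ok) (L (nat_lit 428) ln15_13_1 ln15_13_1_ok))))) (B (M (nat_lit 430) (B (L (nat_lit 458) ln10_14_2 ln10_14_2_ok) (M (nat_lit 431) (B (L (nat_lit 432) ln16_13_3 ln16_13_3_ok) (L (nat_lit 462) ln11_14_2 ln11_14_2_ok))))) (M (nat_lit 491) (B (M (nat_lit 364) (B (L (nat_lit 332) ln13_14_7 ln13_14_7_ok) (L (nat_lit 428) ln12_11_5 ln12_11_5_ok))) (M (nat_lit 462) (B (L (nat_lit 494) ln13_11_4 ln13_11_4_ok) (L (nat_lit 490) ln14_14_1 ln14_14_1_ok)))))))) (M (nat_lit 366) (B (L (nat_lit 334) ln13_14_6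 ln13_14_6_ok) (M (nat_lit 395) (B (L (nat_lit 394) ln10_12_2 ln10_12_2_ok) (M (nat_lit 367) (B (L (nat_lit 368) ln16_11_1 ln16_11_1_ok) (L (nat_lit 398) ln11_12_2 ln11_12_2_ok))))))))))))) (M (nat_lit 332) (B (L (nat_lit 364) ln13_14_7 ln13_14_7_ok) (M (nat_lit 334) (B (L (nat_lit 366) ln13_14_6 ln13_14_6_ok) (M (nat_lit 333) (B (L (nat_lit 300) ln13_13_7 ln13_13_7_ok) (L (nat_lit 302) ln13_13_6 ln13_13_6_ok))))))))))))))))) (nat_lit 1386334847383188664550070665778531748218595021979121511688892729411143073470393764272092352380775458208712834410189682411080515584) (nat_lit 1179363258141160341641896736602124099104105580806384453690184716037069862416345782625115726613687170233976133826702928690557022456217192191507330721521830972755722371072) (nat_lit 1179363258141160341641896736602124099104105580806384453690184716037069862416345782625115726613687170233976133826702928690557022456217192191507330721521830972755722371072)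 (by decide +kernel)
noncomputable def c31_n2813 : Cert := (M (nat_lit 398) (B (M (nat_lit 366) (B (L (nat_lit 493) ln13_15_6 ln13_15_6_ok) (M (nat_lit 334) (B (L (nat_lit 302) ln14_9_5 ln14_9_5_ok) (L (nat_lit 430) ln14_10_5 ln14_10_5_ok))))) (B (M (nat_lit 493) (B (L (nat_lit 366) ln13_15_6 ln13_15_6_ok) (M (nat_lit 525) (B (L (nat_lit 430) ln13_16_6 ln13_16_6_ok) (M (nat_lit 396) (B (L (nat_lit 364) ln13_15_7 ln13_15_7_ok) (L (nat_lit 428) ln13_16_7 ln13_16_7_ok))))))) (B (M (nat_lit 396) (B (M (nat_lit 493) (B (L (nat_lit 364) ln13_15_7 ln13_15_7_ok) (M (nat_lit 525) (B (L (nat_lit 428) ln13_16_7 ln13_16_7_ok) (L (nat_lit 430) ln13_16_6 ln13_16_6_ok))))) (B (M (nat_lit 430) (B (M (nat_lit 431) (B (L (nat_lit 395) ln11_12_0 ln11_12_0_ok) (L (nat_lit 432) ln16_13_3 ln16_13_3_ok))) (M (nat_lit 399) (B (M (nat_lit 400) (B (L (nat_lit 428) ln16_12_1 ln16_12_1_ok) (L (nat_lit 401) ln17_12_1 ln17_12_1_ok)))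 (M (nat_lit 494) (B (M (nat_lit 367) (B (L (nat_lit 368) ln12_12_2 ln12_12_2_ok) (L (nat_lit 462) ln14_15_6 ln14_15_6_ok))) (M (nat_lit 493) (B (L (nat_lit 526) ln13_12_4 ln13_12_4_ok) (L (nat_lit 525) ln13_16_6 ln13_16_6_ok))))))))) (B (M (nat_lit 430) (B (M (nat_lit 395) (B (L (nat_lit 394) ln10_12_0 ln10_12_0_ok) (L (nat_lit 431) ln11_12_0 ln11_12_0_ok))) (M (nat_lit 493) (B (L (nat_lit 364) ln13_15_7 ln13_15_7_ok) (L (nat_lit 525) ln13_16_6 ln13_16_6_ok))))) (B (M (nat_lit 364) (B (L (nat_lit 493) ln13_15_7 ln13_15_7_ok) (M (nat_lit 332) (B (L (nat_lit 300) ln12_9_4 ln12_9_4_ok) (L (nat_lit 428) ln12_10_4 ln12_10_4_ok))))) (M (nat_lit 399) (B (M (nat_lit 400) (B (L (nat_lit 428) ln16_12_1 ln16_12_1_ok) (M (nat_lit 432) (B (L (nat_lit 431) ln12_12_0 ln12_12_0_ok) (L (nat_lit 433) ln13_12_0 ln13_12_0_ok))))) (B (M (nat_lit 364) (B (L (nat_lit 363) ln15_12_3 ln15_12_3_ok) (M (nat_lit 332) (B (L (nat_lit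 300) ln12_9_4 ln12_9_4_ok) (L (nat_lit 428) ln12_10_4 ln12_10_4_ok))))) (M (nat_lit 395) (B (M (nat_lit 363) (B (L (nat_lit 362) ln14_12_3 ln14_12_3_ok) (L (nat_lit 364) ln15_12_3 ln15_12_3_ok))) (M (nat_lit 430) (B (L (nat_lit 394) ln10_12_0 ln10_12_0_ok) (L (nat_lit 431) ln11_12_0 ln11_12_0_ok))))))))))))) (B (M (nat_lit 493) (B (L (nat_lit 366) ln13_15_6 ln13_15_6_ok) (M (nat_lit 525) (B (M (nat_lit 396) (B (L (nat_lit 364) ln13_15_7 ln13_15_7_ok) (L (nat_lit 428) ln13_16_7 ln13_16_7_ok))) (M (nat_lit 526) (B (L (nat_lit 494) ln13_12_4 ln13_12_4_ok) (L (nat_lit 558) ln13_13_4 ln13_13_4_ok))))))) (M (nat_lit 399) (B (M (nat_lit 400) (B (L (nat_lit 428) ln16_12_1 ln16_12_1_ok) (M (nat_lit 401) (B (L (nat_lit 430) ln17_12_1 ln17_12_1_ok) (M (nat_lit 369) (B (L (nat_lit 368) ln13_12_2 ln13_12_2_ok) (L (nat_lit 370) ln14_12_2 ln14_12_2_ok))))))) (B (M (nat_lit 400) (B (L (nat_lit 428) ln16_12_1 ln16_12_1_ok)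 (M (nat_lit 401) (B (L (nat_lit 430) ln17_12_1 ln17_12_1_ok) (M (nat_lit 433) (B (L (nat_lit 432) ln13_12_0 ln13_12_0_ok) (L (nat_lit 434) ln14_12_0 ln14_12_0_ok))))))) (B (M (nat_lit 396) (B (M (nat_lit 364) (B (L (nat_lit 363) ln15_12_3 ln15_12_3_ok) (M (nat_lit 332) (B (L (nat_lit 300) ln12_9_4 ln12_9_4_ok) (L (nat_lit 428) ln12_10_4 ln12_10_4_ok))))) (M (nat_lit 366) (B (M (nat_lit 334) (B (L (nat_lit 302) ln14_9_5 ln14_9_5_ok) (L (nat_lit 430) ln14_10_5 ln14_10_5_ok))) (M (nat_lit 367) (B (L (nat_lit 395) ln11_12_2 ln11_12_2_ok) (L (nat_lit 368) ln12_12_2 ln12_12_2_ok))))))) (B (M (nat_lit 400) (B (M (nat_lit 401) (B (L (nat_lit 430) ln17_12_1 ln17_12_1_ok) (M (nat_lit 369) (B (L (nat_lit 368) ln13_12_2 ln13_12_2_ok) (L (nat_lit 370) ln14_12_2 ln14_12_2_ok))))) (B (M (nat_lit 401) (B (L (nat_lit 430) ln17_12_1 ln17_12_1_ok) (M (nat_lit 433) (B (L (nat_lit 432) ln13_12_0 ln13_12_0_ok) (L (nat_lit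 434) ln14_12_0 ln14_12_0_ok))))) (M (nat_lit 396) (B (M (nat_lit 368) (B (L (nat_lit 367) ln12_12_2 ln12_12_2_ok) (L (nat_lit 369) ln13_12_2 ln13_12_2_ok))) (M (nat_lit 432) (B (L (nat_lit 431) ln12_12_0 ln12_12_0_ok) (L (nat_lit 433) ln13_12_0 ln13_12_0_ok)))))))) (M (nat_lit 396) (B (M (nat_lit 364) (B (L (nat_lit 363) ln15_12_3 ln15_12_3_ok) (M (nat_lit 332) (B (L (nat_lit 300) ln12_9_4 ln12_9_4_ok) (L (nat_lit 428) ln12_10_4 ln12_10_4_ok))))) (B (M (nat_lit 428) (B (L (nat_lit 400) ln16_12_1 ln16_12_1_ok) (M (nat_lit 364) (B (L (nat_lit 332) ln12_10_4 ln12_10_4_ok) (L (nat_lit 363) ln15_12_3 ln15_12_3_ok))))) (B (M (nat_lit 400) (B (L (nat_lit 428) ln16_12_1 ln16_12_1_ok) (M (nat_lit 368) (B (L (nat_lit 367) ln12_12_2 ln12_12_2_ok) (L (nat_lit 369) ln13_12_2 ln13_12_2_ok))))) (M (nat_lit 395) (B (M (nat_lit 363) (B (L (nat_lit 362) ln14_12_3 ln14_12_3_ok) (L (nat_lit 364) ln15_12_3 ln15_12_3_ok)))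 (M (nat_lit 367) (B (L (nat_lit 366) ln11_12_2 ln11_12_2_ok) (L (nat_lit 368) ln12_12_2 ln12_12_2_ok)))))))))))))))))))
theorem c31_s2814 : Sem (nat_lit 1386334847383188664550070665778531748218595021979121511688892729411143073470393764272092352380775458208712834410189682411080515584) (nat_lit 1179363258141160341641896736602124099103758997094619351832737414264051976953416227990693749541790860286399306163227225487677025655454174744245156820151655526277100601344) (nat_lit 1179363258141160341641896736602124099103758997094619351832737414264051976953416227990693749541790860286399306163227225487677025655454174744245156820151655526277100601344) :=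
  sem_of_chk (M (nat_lit 461) (B (M (nat_lit 493) (B (M (nat_lit 525) (B (M (nat_lit 398) (B (L (nat_lit 366) ln13_15_6 ln13_15_6_ok) (L (nat_lit 430) ln13_16_6 ln13_16_6_ok))) (M (nat_lit 524) (B (L (nat_lit 492) ln13_12_5 ln13_12_5_ok) (L (nat_lit 556) ln13_13_5 ln13_13_5_ok))))) (B (M (nat_lit 365) (B (M (nat_lit 492) (B (L (nat_lit 460) ln13_11_5 ln13_11_5_ok) (L (nat_lit 524) ln13_12_5 ln13_12_5_ok))) (M (nat_lit 494) (B (L (nat_lit 462) ln13_11_4 ln13_11_4_ok) (L (nat_lit 526) ln13_12_4 ln13_12_4_ok))))) (M (nat_lit 525) (B (M (nat_lit 398) (B (L (nat_lit 366) ln13_15_6 ln13_15_6_ok) (L (nat_lit 430) ln13_16_6 ln13_16_6_ok))) (M (nat_lit 526) (B (L (nat_lit 494) ln13_12_4 ln13_12_4_ok) (L (nat_lit 558) ln13_13_4 ln13_13_4_ok)))))))) (B c31_n2813 (B (M (nat_lit 365) (B (M (nat_lit 493) (B (M (nat_lit 364) (B (L (nat_lit 332) ln13_14_7 ln13_14_7_ok) (L (nat_lit 396) ln13_15_7 ln13_15_7_ok))) (M (nat_lit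 492) (B (L (nat_lit 460) ln13_11_5 ln13_11_5_ok) (L (nat_lit 524) ln13_12_5 ln13_12_5_ok))))) (B (M (nat_lit 333) (B (M (nat_lit 460) (B (L (nat_lit 428) ln13_10_5 ln13_10_5_ok) (L (nat_lit 492) ln13_11_5 ln13_11_5_ok))) (M (nat_lit 462) (B (L (nat_lit 430) ln13_10_4 ln13_10_4_ok) (L (nat_lit 494) ln13_11_4 ln13_11_4_ok))))) (M (nat_lit 493) (B (M (nat_lit 364) (B (L (nat_lit 332) ln13_14_7 ln13_14_7_ok) (L (nat_lit 396) ln13_15_7 ln13_15_7_ok))) (M (nat_lit 494) (B (L (nat_lit 462) ln13_11_4 ln13_11_4_ok) (L (nat_lit 526) ln13_12_4 ln13_12_4_ok)))))))) (B (M (nat_lit 365) (B (M (nat_lit 493) (B (M (nat_lit 366) (B (L (nat_lit 334) ln13_14_6 ln13_14_6_ok) (L (nat_lit 398) ln13_15_6 ln13_15_6_ok))) (M (nat_lit 494) (B (L (nat_lit 462) ln13_11_4 ln13_11_4_ok) (L (nat_lit 526) ln13_12_4 ln13_12_4_ok))))) (M (nat_lit 333) (B (M (nat_lit 332) (B (L (nat_lit 300) ln13_13_7 ln13_13_7_ok) (L (nat_lit 364) ln13_14_7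 ln13_14_7_ok))) (M (nat_lit 460) (B (L (nat_lit 428) ln13_10_5 ln13_10_5_ok) (L (nat_lit 492) ln13_11_5 ln13_11_5_ok))))))) (B (M (nat_lit 365) (B (M (nat_lit 460) (B (L (nat_lit 492) ln13_11_5 ln13_11_5_ok) (M (nat_lit 333) (B (L (nat_lit 428) ln13_10_5 ln13_10_5_ok) (M (nat_lit 334) (B (L (nat_lit 302) ln13_13_6 ln13_13_6_ok) (L (nat_lit 366) ln13_14_6 ln13_14_6_ok))))))) (B (M (nat_lit 333) (B (M (nat_lit 332) (B (L (nat_lit 300) ln13_13_7 ln13_13_7_ok) (L (nat_lit 364) ln13_14_7 ln13_14_7_ok))) (M (nat_lit 460) (B (L (nat_lit 428) ln13_10_5 ln13_10_5_ok) (L (nat_lit 492) ln13_11_5 ln13_11_5_ok))))) (B (M (nat_lit 493) (B (M (nat_lit 364) (B (L (nat_lit 332) ln13_14_7 ln13_14_7_ok) (L (nat_lit 396) ln13_15_7 ln13_15_7_ok))) (M (nat_lit 492) (B (L (nat_lit 460) ln13_11_5 ln13_11_5_ok) (L (nat_lit 524) ln13_12_5 ln13_12_5_ok))))) (M (nat_lit 332) (B (L (nat_lit 364) ln13_14_7 ln13_14_7_ok) (M (nat_lit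 334) (B (L (nat_lit 366) ln13_14_6 ln13_14_6_ok) (M (nat_lit 333) (B (L (nat_lit 300) ln13_13_7 ln13_13_7_ok) (L (nat_lit 302) ln13_13_6 ln13_13_6_ok))))))))))) (M (nat_lit 365) (B (M (nat_lit 460) (B (L (nat_lit 492) ln13_11_5 ln13_11_5_ok) (M (nat_lit 333) (B (L (nat_lit 428) ln13_10_5 ln13_10_5_ok) (M (nat_lit 334) (B (L (nat_lit 302) ln13_13_6 ln13_13_6_ok) (L (nat_lit 366) ln13_14_6 ln13_14_6_ok))))))) (B (M (nat_lit 333) (B (M (nat_lit 460) (B (L (nat_lit 428) ln13_10_5 ln13_10_5_ok) (L (nat_lit 492) ln13_11_5 ln13_11_5_ok))) (M (nat_lit 462) (B (L (nat_lit 430) ln13_10_4 ln13_10_4_ok) (L (nat_lit 494) ln13_11_4 ln13_11_4_ok))))) (B (M (nat_lit 460) (B (L (nat_lit 492) ln13_11_5 ln13_11_5_ok) (M (nat_lit 396) (B (M (nat_lit 364) (B (L (nat_lit 332) ln13_14_7 ln13_14_7_ok) (M (nat_lit 366) (B (L (nat_lit 334) ln13_14_6 ln13_14_6_ok) (M (nat_lit 367) (B (L (nat_lit 395) ln15_11_1 ln15_11_1_ok) (L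 (nat_lit 368) ln16_11_1 ln16_11_1_ok))))))) (B (M (nat_lit 366) (B (L (nat_lit 334) ln13_14_6 ln13_14_6_ok) (M (nat_lit 395) (B (L (nat_lit 394) ln10_12_2 ln10_12_2_ok) (M (nat_lit 367) (B (L (nat_lit 364) ln15_11_1 ln15_11_1_ok) (L (nat_lit 368) ln16_11_1 ln16_11_1_ok))))))) (B (M (nat_lit 459) (B (M (nat_lit 430) (B (L (nat_lit 458) ln10_14_2 ln10_14_2_ok) (M (nat_lit 431) (B (L (nat_lit 432) ln16_13_3 ln16_13_3_ok) (L (nat_lit 428) ln15_13_1 ln15_13_1_ok))))) (B (M (nat_lit 430) (B (L (nat_lit 458) ln10_14_2 ln10_14_2_ok) (M (nat_lit 431) (B (L (nat_lit 432) ln16_13_3 ln16_13_3_ok) (L (nat_lit 462) ln11_14_2 ln11_14_2_ok))))) (M (nat_lit 491) (B (M (nat_lit 364) (B (L (nat_lit 332) ln13_14_7 ln13_14_7_ok) (L (nat_lit 428) ln12_11_5 ln12_11_5_ok))) (M (nat_lit 462) (B (L (nat_lit 494) ln13_11_4 ln13_11_4_ok) (L (nat_lit 490) ln14_14_1 ln14_14_1_ok)))))))) (M (nat_lit 366) (B (L (nat_lit 334) ln13_14_6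 ln13_14_6_ok) (M (nat_lit 395) (B (L (nat_lit 394) ln10_12_2 ln10_12_2_ok) (M (nat_lit 367) (B (L (nat_lit 368) ln16_11_1 ln16_11_1_ok) (L (nat_lit 398) ln11_12_2 ln11_12_2_ok))))))))))))) (M (nat_lit 332) (B (L (nat_lit 364) ln13_14_7 ln13_14_7_ok) (M (nat_lit 334) (B (L (nat_lit 366) ln13_14_6 ln13_14_6_ok) (M (nat_lit 333) (B (L (nat_lit 300) ln13_13_7 ln13_13_7_ok) (L (nat_lit 302) ln13_13_6 ln13_13_6_ok))))))))))))))))) (nat_lit 1386334847383188664550070665778531748218595021979121511688892729411143073470393764272092352380775458208712834410189682411080515584) (nat_lit 1179363258141160341641896736602124099103758997094619351832737414264051976953416227990693749541790860286399306163227225487677025655454174744245156820151655526277100601344) (nat_lit 1179363258141160341641896736602124099103758997094619351832737414264051976953416227990693749541790860286399306163227225487677025655454174744245156820151655526277100601344)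 (by decide +kernel)
noncomputable def c31_n2922 : Cert := (M (nat_lit 395) (B (M (nat_lit 430) (B (L (nat_lit 394) ln10_12_0 ln10_12_0_ok) (M (nat_lit 431) (B (L (nat_lit 398) ln11_12_0 ln11_12_0_ok) (L (nat_lit 432) ln16_13_3 ln16_13_3_ok))))) (B (M (nat_lit 398) (B (M (nat_lit 430) (B (L (nat_lit 431) ln11_12_0 ln11_12_0_ok) (M (nat_lit 366) (B (L (nat_lit 334) ln14_10_5 ln14_10_5_ok) (L (nat_lit 367) ln11_12_2 ln11_12_2_ok))))) (B (M (nat_lit 399) (B (M (nat_lit 363) (B (L (nat_lit 362) ln14_12_3 ln14_12_3_ok) (L (nat_lit 364) ln15_12_3 ln15_12_3_ok))) (M (nat_lit 431) (B (L (nat_lit 430) ln11_12_0 ln11_12_0_ok) (L (nat_lit 432) ln12_12_0 ln12_12_0_ok))))) (M (nat_lit 399) (B (M (nat_lit 363) (B (L (nat_lit 362) ln14_12_3 ln14_12_3_ok) (L (nat_lit 364) ln15_12_3 ln15_12_3_ok))) (M (nat_lit 367) (B (L (nat_lit 366) ln11_12_2 ln11_12_2_ok) (L (nat_lit 368) ln12_12_2 ln12_12_2_ok)))))))) (B (M (nat_lit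 394) (B (L (nat_lit 430) ln10_12_0 ln10_12_0_ok) (M (nat_lit 393) (B (M (nat_lit 361) (B (L (nat_lit 360) ln12_12_3 ln12_12_3_ok) (L (nat_lit 362) ln13_12_3 ln13_12_3_ok))) (M (nat_lit 425) (B (L (nat_lit 424) ln12_12_1 ln12_12_1_ok) (L (nat_lit 426) ln13_12_1 ln13_12_1_ok))))))) (M (nat_lit 426) (B (M (nat_lit 427) (B (L (nat_lit 398) ln14_12_1 ln14_12_1_ok) (M (nat_lit 425) (B (L (nat_lit 394) ln13_12_1 ln13_12_1_ok) (L (nat_lit 424) ln8_13_2 ln8_13_2_ok))))) (B (M (nat_lit 427) (B (L (nat_lit 398) ln14_12_1 ln14_12_1_ok) (M (nat_lit 459) (B (M (nat_lit 364) (B (L (nat_lit 491) ln11_15_6 ln11_15_6_ok) (M (nat_lit 332) (B (L (nat_lit 300) ln12_9_5 ln12_9_5_ok) (L (nat_lit 363) ln11_14_6 ln11_14_6_ok))))) (M (nat_lit 425) (B (L (nat_lit 424) ln8_13_2 ln8_13_2_ok) (M (nat_lit 460) (B (L (nat_lit 458) ln13_14_3 ln13_14_3_ok) (L (nat_lit 462) ln14_14_3 ln14_14_3_ok))))))))) (B (M (nat_lit 427) (B (M (nat_lit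 425) (B (L (nat_lit 394) ln13_12_1 ln13_12_1_ok) (L (nat_lit 424) ln8_13_2 ln8_13_2_ok))) (B (M (nat_lit 459) (B (M (nat_lit 364) (B (L (nat_lit 491) ln11_15_6 ln11_15_6_ok) (M (nat_lit 332) (B (L (nat_lit 300) ln12_9_5 ln12_9_5_ok) (L (nat_lit 363) ln11_14_6 ln11_14_6_ok))))) (M (nat_lit 425) (B (L (nat_lit 424) ln8_13_2 ln8_13_2_ok) (M (nat_lit 460) (B (L (nat_lit 458) ln13_14_3 ln13_14_3_ok) (L (nat_lit 462) ln14_14_3 ln14_14_3_ok))))))) (B (M (nat_lit 459) (B (M (nat_lit 364) (B (L (nat_lit 491) ln11_15_6 ln11_15_6_ok) (M (nat_lit 332) (B (L (nat_lit 300) ln12_9_5 ln12_9_5_ok) (L (nat_lit 363) ln11_14_6 ln11_14_6_ok))))) (M (nat_lit 425) (B (L (nat_lit 394) ln13_12_1 ln13_12_1_ok) (M (nat_lit 460) (B (L (nat_lit 458) ln13_14_3 ln13_14_3_ok) (L (nat_lit 462) ln14_14_3 ln14_14_3_ok))))))) (M (nat_lit 459) (B (M (nat_lit 364) (B (L (nat_lit 491) ln11_15_6 ln11_15_6_ok) (M (nat_lit 332) (B (L (nat_lit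 300) ln12_9_5 ln12_9_5_ok) (L (nat_lit 363) ln11_14_6 ln11_14_6_ok))))) (B (M (nat_lit 491) (B (L (nat_lit 364) ln11_15_6 ln11_15_6_ok) (M (nat_lit 394) (B (L (nat_lit 362) ln11_15_7 ln11_15_7_ok) (L (nat_lit 523) ln11_16_7 ln11_16_7_ok))))) (M (nat_lit 363) (B (M (nat_lit 458) (B (L (nat_lit 331) ln11_10_5 ln11_10_5_ok) (L (nat_lit 490) ln11_11_5 ln11_11_5_ok))) (M (nat_lit 460) (B (L (nat_lit 492) ln11_11_4 ln11_11_4_ok) (L (nat_lit 462) ln14_14_3 ln14_14_3_ok)))))))))))) (B (M (nat_lit 362) (B (M (nat_lit 394) (B (L (nat_lit 361) ln13_12_3 ln13_12_3_ok) (L (nat_lit 425) ln13_12_1 ln13_12_1_ok))) (M (nat_lit 398) (B (L (nat_lit 363) ln14_12_3 ln14_12_3_ok) (L (nat_lit 427) ln14_12_1 ln14_12_1_ok))))) (B (M (nat_lit 427) (B (L (nat_lit 398) ln14_12_1 ln14_12_1_ok) (M (nat_lit 459) (B (M (nat_lit 364) (B (L (nat_lit 491) ln11_15_6 ln11_15_6_ok) (M (nat_lit 332) (B (L (nat_lit 300) ln12_9_5 ln12_9_5_ok)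 (L (nat_lit 363) ln11_14_6 ln11_14_6_ok))))) (B (M (nat_lit 491) (B (L (nat_lit 364) ln11_15_6 ln11_15_6_ok) (M (nat_lit 394) (B (L (nat_lit 362) ln11_15_7 ln11_15_7_ok) (L (nat_lit 523) ln11_16_7 ln11_16_7_ok))))) (M (nat_lit 363) (B (M (nat_lit 458) (B (L (nat_lit 331) ln11_10_5 ln11_10_5_ok) (L (nat_lit 490) ln11_11_5 ln11_11_5_ok))) (M (nat_lit 460) (B (L (nat_lit 492) ln11_11_4 ln11_11_4_ok) (L (nat_lit 462) ln14_14_3 ln14_14_3_ok)))))))))) (M (nat_lit 394) (B (L (nat_lit 425) ln13_12_1 ln13_12_1_ok) (M (nat_lit 362) (B (L (nat_lit 361) ln13_12_3 ln13_12_3_ok) (M (nat_lit 363) (B (L (nat_lit 398) ln14_12_3 ln14_12_3_ok) (M (nat_lit 331) (B (L (nat_lit 299) ln11_9_5 ln11_9_5_ok) (L (nat_lit 458) ln10_14_6 ln10_14_6_ok)))))))))))))))))))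
theorem c31_s2923 : Sem (nat_lit 5954262830815946494763249298768603811203561774969104571805089223376689777636098861358550851719243481454542035207245364041705138952691777536) (nat_lit 1179363258168619532282419175456097439470611635352366568491610728668260282055757667753446620070966576136718679512177153621537667171307738703922426094718636390619484782592) (nat_lit 1179363258168619532282419175456097439470611635352366568491610728668260282055757667753446620070966576136718679512177153621537667171307738703922426094718636390619484782592) :=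
  sem_of_chk (M (nat_lit 396) (B (M (nat_lit 493) (B (L (nat_lit 364) ln13_15_7 ln13_15_7_ok) (M (nat_lit 525) (B (M (nat_lit 398) (B (L (nat_lit 366) ln13_15_6 ln13_15_6_ok) (L (nat_lit 430) ln13_16_6 ln13_16_6_ok))) (M (nat_lit 524) (B (L (nat_lit 492) ln13_12_5 ln13_12_5_ok) (L (nat_lit 556) ln13_13_5 ln13_13_5_ok))))))) (B (M (nat_lit 398) (B (M (nat_lit 366) (B (L (nat_lit 493) ln13_15_6 ln13_15_6_ok) (M (nat_lit 334) (B (L (nat_lit 302) ln14_9_5 ln14_9_5_ok) (L (nat_lit 430) ln14_10_5 ln14_10_5_ok))))) (B (M (nat_lit 430) (B (M (nat_lit 366) (B (L (nat_lit 334) ln14_10_5 ln14_10_5_ok) (L (nat_lit 493) ln13_15_6 ln13_15_6_ok))) (M (nat_lit 395) (B (L (nat_lit 394) ln10_12_0 ln10_12_0_ok) (L (nat_lit 431) ln11_12_0 ln11_12_0_ok))))) (B (M (nat_lit 430) (B (M (nat_lit 395) (B (L (nat_lit 394) ln10_12_0 ln10_12_0_ok) (L (nat_lit 431) ln11_12_0 ln11_12_0_ok))) (M (nat_lit 493) (B (L (nat_lit 366) ln13_15_6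 ln13_15_6_ok) (L (nat_lit 525) ln13_16_6 ln13_16_6_ok))))) (B (M (nat_lit 399) (B (M (nat_lit 400) (B (M (nat_lit 368) (B (L (nat_lit 367) ln12_12_2 ln12_12_2_ok) (L (nat_lit 369) ln13_12_2 ln13_12_2_ok))) (M (nat_lit 432) (B (L (nat_lit 431) ln12_12_0 ln12_12_0_ok) (L (nat_lit 433) ln13_12_0 ln13_12_0_ok))))) (B (M (nat_lit 395) (B (M (nat_lit 430) (B (L (nat_lit 394) ln10_12_0 ln10_12_0_ok) (L (nat_lit 431) ln11_12_0 ln11_12_0_ok))) (B (M (nat_lit 431) (B (L (nat_lit 430) ln11_12_0 ln11_12_0_ok) (L (nat_lit 432) ln12_12_0 ln12_12_0_ok))) (M (nat_lit 394) (B (M (nat_lit 362) (B (L (nat_lit 361) ln13_12_3 ln13_12_3_ok) (L (nat_lit 363) ln14_12_3 ln14_12_3_ok))) (M (nat_lit 426) (B (L (nat_lit 425) ln13_12_1 ln13_12_1_ok) (L (nat_lit 427) ln14_12_1 ln14_12_1_ok)))))))) (B (M (nat_lit 400) (B (M (nat_lit 368) (B (L (nat_lit 367) ln12_12_2 ln12_12_2_ok) (L (nat_lit 369) ln13_12_2 ln13_12_2_ok))) (M (nat_lit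 401) (B (L (nat_lit 430) ln17_12_1 ln17_12_1_ok) (M (nat_lit 433) (B (L (nat_lit 432) ln13_12_0 ln13_12_0_ok) (L (nat_lit 434) ln14_12_0 ln14_12_0_ok))))))) (M (nat_lit 430) (B (M (nat_lit 395) (B (L (nat_lit 394) ln10_12_0 ln10_12_0_ok) (L (nat_lit 431) ln11_12_0 ln11_12_0_ok))) (M (nat_lit 494) (B (M (nat_lit 367) (B (L (nat_lit 368) ln12_12_2 ln12_12_2_ok) (L (nat_lit 462) ln14_15_6 ln14_15_6_ok))) (M (nat_lit 493) (B (L (nat_lit 526) ln13_12_4 ln13_12_4_ok) (L (nat_lit 525) ln13_16_6 ln13_16_6_ok))))))))))) (B (M (nat_lit 366) (B (L (nat_lit 493) ln13_15_6 ln13_15_6_ok) (M (nat_lit 367) (B (L (nat_lit 395) ln11_12_2 ln11_12_2_ok) (M (nat_lit 368) (B (L (nat_lit 369) ln17_11_1 ln17_11_1_ok) (L (nat_lit 399) ln12_12_2 ln12_12_2_ok))))))) (M (nat_lit 395) (B (M (nat_lit 430) (B (L (nat_lit 394) ln10_12_0 ln10_12_0_ok) (L (nat_lit 431) ln11_12_0 ln11_12_0_ok))) (B (M (nat_lit 430) (B (L (nat_lit 431)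 ln11_12_0 ln11_12_0_ok) (M (nat_lit 366) (B (L (nat_lit 334) ln14_10_5 ln14_10_5_ok) (L (nat_lit 367) ln11_12_2 ln11_12_2_ok))))) (M (nat_lit 394) (B (M (nat_lit 362) (B (L (nat_lit 361) ln13_12_3 ln13_12_3_ok) (L (nat_lit 363) ln14_12_3 ln14_12_3_ok))) (M (nat_lit 426) (B (L (nat_lit 425) ln13_12_1 ln13_12_1_ok) (L (nat_lit 427) ln14_12_1 ln14_12_1_ok)))))))))))))) (B (M (nat_lit 493) (B (L (nat_lit 364) ln13_15_7 ln13_15_7_ok) (M (nat_lit 525) (B (M (nat_lit 524) (B (L (nat_lit 492) ln13_12_5 ln13_12_5_ok) (L (nat_lit 556) ln13_13_5 ln13_13_5_ok))) (M (nat_lit 526) (B (L (nat_lit 494) ln13_12_4 ln13_12_4_ok) (L (nat_lit 558) ln13_13_4 ln13_13_4_ok))))))) c31_n2922)))) (nat_lit 5954262830815946494763249298768603811203561774969104571805089223376689777636098861358550851719243481454542035207245364041705138952691777536) (nat_lit 1179363258168619532282419175456097439470611635352366568491610728668260282055757667753446620070966576136718679512177153621537667171307738703922426094718636390619484782592)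 (nat_lit 1179363258168619532282419175456097439470611635352366568491610728668260282055757667753446620070966576136718679512177153621537667171307738703922426094718636390619484782592) (by decide +kernel)
theorem c31_s2951 : Sem (nat_lit 1386334847383188664550070665778531748218595021979121511688892729411143073470393764272092352380775458208712834410189682411080515584) (nat_lit 1179363258168619532282419175462051702300041246999746629125904415176354853627686079295651385338688012429479556645521429538219893809946067304604191063569087820839836975104) (nat_lit 1179363258168619532282419175462051702300041246999746629125904415176354853627686079295651385338688012429479556645521429538219893809946067304604191063569087820839836975104) :=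
  sem_of_chk (M (nat_lit 461) (B (M (nat_lit 493) (B (M (nat_lit 525) (B (M (nat_lit 398) (B (L (nat_lit 366) ln13_15_6 ln13_15_6_ok) (L (nat_lit 430) ln13_16_6 ln13_16_6_ok))) (M (nat_lit 524) (B (L (nat_lit 492) ln13_12_5 ln13_12_5_ok) (L (nat_lit 556) ln13_13_5 ln13_13_5_ok))))) (B (M (nat_lit 365) (B (M (nat_lit 492) (B (L (nat_lit 460) ln13_11_5 ln13_11_5_ok) (L (nat_lit 524) ln13_12_5 ln13_12_5_ok))) (M (nat_lit 494) (B (L (nat_lit 462) ln13_11_4 ln13_11_4_ok) (L (nat_lit 526) ln13_12_4 ln13_12_4_ok))))) (M (nat_lit 525) (B (M (nat_lit 398) (B (L (nat_lit 366) ln13_15_6 ln13_15_6_ok) (L (nat_lit 430) ln13_16_6 ln13_16_6_ok))) (M (nat_lit 526) (B (L (nat_lit 494) ln13_12_4 ln13_12_4_ok) (L (nat_lit 558) ln13_13_4 ln13_13_4_ok)))))))) (B (K (nat_lit 5954262830815946494763249298768603811203561774969104571805089223376689777636098861358550851719243481454542035207245364041705138952691777536) (nat_lit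 1179363258168619532282419175456097439470611635352366568491610728668260282055757667753446620070966576136718679512177153621537667171307738703922426094718636390619484782592) (nat_lit 1179363258168619532282419175456097439470611635352366568491610728668260282055757667753446620070966576136718679512177153621537667171307738703922426094718636390619484782592) c31_s2923) (B (M (nat_lit 365) (B (M (nat_lit 493) (B (M (nat_lit 364) (B (L (nat_lit 332) ln13_14_7 ln13_14_7_ok) (L (nat_lit 396) ln13_15_7 ln13_15_7_ok))) (M (nat_lit 492) (B (L (nat_lit 460) ln13_11_5 ln13_11_5_ok) (L (nat_lit 524) ln13_12_5 ln13_12_5_ok))))) (B (M (nat_lit 493) (B (M (nat_lit 492) (B (L (nat_lit 460) ln13_11_5 ln13_11_5_ok) (L (nat_lit 524) ln13_12_5 ln13_12_5_ok))) (M (nat_lit 494) (B (L (nat_lit 462) ln13_11_4 ln13_11_4_ok) (L (nat_lit 526) ln13_12_4 ln13_12_4_ok))))) (B (M (nat_lit 493) (B (M (nat_lit 364) (B (L (nat_lit 332) ln13_14_7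 ln13_14_7_ok) (L (nat_lit 396) ln13_15_7 ln13_15_7_ok))) (M (nat_lit 494) (B (L (nat_lit 462) ln13_11_4 ln13_11_4_ok) (L (nat_lit 526) ln13_12_4 ln13_12_4_ok))))) (M (nat_lit 333) (B (M (nat_lit 332) (B (L (nat_lit 300) ln13_13_7 ln13_13_7_ok) (L (nat_lit 364) ln13_14_7 ln13_14_7_ok))) (M (nat_lit 462) (B (L (nat_lit 430) ln13_10_4 ln13_10_4_ok) (L (nat_lit 494) ln13_11_4 ln13_11_4_ok))))))))) (B (M (nat_lit 365) (B (M (nat_lit 493) (B (M (nat_lit 366) (B (L (nat_lit 334) ln13_14_6 ln13_14_6_ok) (L (nat_lit 398) ln13_15_6 ln13_15_6_ok))) (M (nat_lit 494) (B (L (nat_lit 462) ln13_11_4 ln13_11_4_ok) (L (nat_lit 526) ln13_12_4 ln13_12_4_ok))))) (B (M (nat_lit 493) (B (M (nat_lit 364) (B (L (nat_lit 332) ln13_14_7 ln13_14_7_ok) (L (nat_lit 396) ln13_15_7 ln13_15_7_ok))) (M (nat_lit 494) (B (L (nat_lit 462) ln13_11_4 ln13_11_4_ok) (L (nat_lit 526) ln13_12_4 ln13_12_4_ok))))) (B (M (nat_lit 493) (B (M (nat_lit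 364) (B (L (nat_lit 332) ln13_14_7 ln13_14_7_ok) (L (nat_lit 396) ln13_15_7 ln13_15_7_ok))) (M (nat_lit 366) (B (L (nat_lit 334) ln13_14_6 ln13_14_6_ok) (L (nat_lit 398) ln13_15_6 ln13_15_6_ok))))) (M (nat_lit 332) (B (L (nat_lit 364) ln13_14_7 ln13_14_7_ok) (M (nat_lit 334) (B (L (nat_lit 366) ln13_14_6 ln13_14_6_ok) (M (nat_lit 333) (B (L (nat_lit 300) ln13_13_7 ln13_13_7_ok) (L (nat_lit 302) ln13_13_6 ln13_13_6_ok))))))))))) (B (M (nat_lit 365) (B (M (nat_lit 493) (B (M (nat_lit 366) (B (L (nat_lit 334) ln13_14_6 ln13_14_6_ok) (L (nat_lit 398) ln13_15_6 ln13_15_6_ok))) (M (nat_lit 492) (B (L (nat_lit 460) ln13_11_5 ln13_11_5_ok) (L (nat_lit 524) ln13_12_5 ln13_12_5_ok))))) (B (M (nat_lit 493) (B (M (nat_lit 364) (B (L (nat_lit 332) ln13_14_7 ln13_14_7_ok) (L (nat_lit 396) ln13_15_7 ln13_15_7_ok))) (M (nat_lit 492) (B (L (nat_lit 460) ln13_11_5 ln13_11_5_ok) (L (nat_lit 524) ln13_12_5 ln13_12_5_ok)))))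 (B (M (nat_lit 493) (B (M (nat_lit 364) (B (L (nat_lit 332) ln13_14_7 ln13_14_7_ok) (L (nat_lit 396) ln13_15_7 ln13_15_7_ok))) (M (nat_lit 366) (B (L (nat_lit 334) ln13_14_6 ln13_14_6_ok) (L (nat_lit 398) ln13_15_6 ln13_15_6_ok))))) (M (nat_lit 332) (B (L (nat_lit 364) ln13_14_7 ln13_14_7_ok) (M (nat_lit 334) (B (L (nat_lit 366) ln13_14_6 ln13_14_6_ok) (M (nat_lit 333) (B (L (nat_lit 300) ln13_13_7 ln13_13_7_ok) (L (nat_lit 302) ln13_13_6 ln13_13_6_ok))))))))))) (M (nat_lit 365) (B (M (nat_lit 332) (B (L (nat_lit 364) ln13_14_7 ln13_14_7_ok) (M (nat_lit 334) (B (L (nat_lit 366) ln13_14_6 ln13_14_6_ok) (M (nat_lit 333) (B (L (nat_lit 300) ln13_13_7 ln13_13_7_ok) (L (nat_lit 302) ln13_13_6 ln13_13_6_ok))))))) (B (M (nat_lit 333) (B (M (nat_lit 334) (B (L (nat_lit 302) ln13_13_6 ln13_13_6_ok) (L (nat_lit 366) ln13_14_6 ln13_14_6_ok))) (M (nat_lit 462) (B (L (nat_lit 430) ln13_10_4 ln13_10_4_ok) (L (nat_lit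 494) ln13_11_4 ln13_11_4_ok))))) (B (M (nat_lit 333) (B (M (nat_lit 332) (B (L (nat_lit 300) ln13_13_7 ln13_13_7_ok) (L (nat_lit 364) ln13_14_7 ln13_14_7_ok))) (M (nat_lit 462) (B (L (nat_lit 430) ln13_10_4 ln13_10_4_ok) (L (nat_lit 494) ln13_11_4 ln13_11_4_ok))))) (M (nat_lit 364) (B (L (nat_lit 332) ln13_14_7 ln13_14_7_ok) (M (nat_lit 366) (B (L (nat_lit 334) ln13_14_6 ln13_14_6_ok) (M (nat_lit 363) (B (M (nat_lit 398) (B (L (nat_lit 362) ln10_11_0 ln10_11_0_ok) (L (nat_lit 399) ln11_11_0 ln11_11_0_ok))) (B (M (nat_lit 367) (B (M (nat_lit 395) (B (L (nat_lit 394) ln14_11_1 ln14_11_1_ok) (L (nat_lit 396) ln15_11_1 ln15_11_1_ok))) (M (nat_lit 399) (B (L (nat_lit 398) ln11_11_0 ln11_11_0_ok) (L (nat_lit 400) ln12_11_0 ln12_11_0_ok))))) (M (nat_lit 362) (B (M (nat_lit 330) (B (L (nat_lit 329) ln13_11_3 ln13_11_3_ok) (L (nat_lit 331) ln14_11_3 ln14_11_3_ok))) (M (nat_lit 394) (B (L (nat_lit 393) ln13_11_1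 ln13_11_1_ok) (L (nat_lit 395) ln14_11_1 ln14_11_1_ok)))))))))))))))))))))) (nat_lit 1386334847383188664550070665778531748218595021979121511688892729411143073470393764272092352380775458208712834410189682411080515584) (nat_lit 1179363258168619532282419175462051702300041246999746629125904415176354853627686079295651385338688012429479556645521429538219893809946067304604191063569087820839836975104) (nat_lit 1179363258168619532282419175462051702300041246999746629125904415176354853627686079295651385338688012429479556645521429538219893809946067304604191063569087820839836975104) (by decide +kernel)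
theorem c31_s3006 : Sem (nat_lit 1386334847383188664550070665778531748218595021979121511688892729411143073470393764272092352380775458208712834410189682411080515584) (nat_lit 1179363258168619532589299544976132053846106665675542648469958591749675984284944866337297930206331615671607524587597221136516729360200404758391213452808926999334851969024) (nat_lit 1179363258168619532589299544976132053846106665675542648469958591749675984284944866337297930206331615671607524587597221136516729360200404758391213452808926999334851969024) :=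
  sem_of_chk (M (nat_lit 461) (B (M (nat_lit 365) (B (M (nat_lit 460) (B (L (nat_lit 492) ln13_11_5 ln13_11_5_ok) (M (nat_lit 333) (B (L (nat_lit 428) ln13_10_5 ln13_10_5_ok) (M (nat_lit 334) (B (L (nat_lit 302) ln13_13_6 ln13_13_6_ok) (L (nat_lit 366) ln13_14_6 ln13_14_6_ok))))))) (M (nat_lit 493) (B (M (nat_lit 364) (B (L (nat_lit 332) ln13_14_7 ln13_14_7_ok) (L (nat_lit 396) ln13_15_7 ln13_15_7_ok))) (M (nat_lit 494) (B (L (nat_lit 462) ln13_11_4 ln13_11_4_ok) (L (nat_lit 526) ln13_12_4 ln13_12_4_ok))))))) (B (M (nat_lit 365) (B (M (nat_lit 493) (B (M (nat_lit 366) (B (L (nat_lit 334) ln13_14_6 ln13_14_6_ok) (L (nat_lit 398) ln13_15_6 ln13_15_6_ok))) (M (nat_lit 494) (B (L (nat_lit 462) ln13_11_4 ln13_11_4_ok) (L (nat_lit 526) ln13_12_4 ln13_12_4_ok))))) (M (nat_lit 333) (B (M (nat_lit 332) (B (L (nat_lit 300) ln13_13_7 ln13_13_7_ok) (L (nat_lit 364) ln13_14_7 ln13_14_7_ok))) (M (nat_lit 460) (B (L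 (nat_lit 428) ln13_10_5 ln13_10_5_ok) (L (nat_lit 492) ln13_11_5 ln13_11_5_ok))))))) (B (M (nat_lit 365) (B (M (nat_lit 493) (B (M (nat_lit 492) (B (L (nat_lit 460) ln13_11_5 ln13_11_5_ok) (L (nat_lit 524) ln13_12_5 ln13_12_5_ok))) (M (nat_lit 494) (B (L (nat_lit 462) ln13_11_4 ln13_11_4_ok) (L (nat_lit 526) ln13_12_4 ln13_12_4_ok))))) (B (M (nat_lit 493) (B (M (nat_lit 366) (B (L (nat_lit 334) ln13_14_6 ln13_14_6_ok) (L (nat_lit 398) ln13_15_6 ln13_15_6_ok))) (M (nat_lit 494) (B (L (nat_lit 462) ln13_11_4 ln13_11_4_ok) (L (nat_lit 526) ln13_12_4 ln13_12_4_ok))))) (B (M (nat_lit 493) (B (M (nat_lit 366) (B (L (nat_lit 334) ln13_14_6 ln13_14_6_ok) (L (nat_lit 398) ln13_15_6 ln13_15_6_ok))) (M (nat_lit 492) (B (L (nat_lit 460) ln13_11_5 ln13_11_5_ok) (L (nat_lit 524) ln13_12_5 ln13_12_5_ok))))) (M (nat_lit 460) (B (L (nat_lit 492) ln13_11_5 ln13_11_5_ok) (M (nat_lit 333) (B (L (nat_lit 428) ln13_10_5 ln13_10_5_ok)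 (M (nat_lit 334) (B (L (nat_lit 302) ln13_13_6 ln13_13_6_ok) (L (nat_lit 366) ln13_14_6 ln13_14_6_ok))))))))))) (B (M (nat_lit 493) (B (M (nat_lit 525) (B (M (nat_lit 396) (B (L (nat_lit 364) ln13_15_7 ln13_15_7_ok) (L (nat_lit 428) ln13_16_7 ln13_16_7_ok))) (M (nat_lit 526) (B (L (nat_lit 494) ln13_12_4 ln13_12_4_ok) (L (nat_lit 558) ln13_13_4 ln13_13_4_ok))))) (M (nat_lit 365) (B (M (nat_lit 366) (B (L (nat_lit 334) ln13_14_6 ln13_14_6_ok) (L (nat_lit 398) ln13_15_6 ln13_15_6_ok))) (M (nat_lit 492) (B (L (nat_lit 460) ln13_11_5 ln13_11_5_ok) (L (nat_lit 524) ln13_12_5 ln13_12_5_ok))))))) (B (M (nat_lit 365) (B (M (nat_lit 493) (B (M (nat_lit 492) (B (L (nat_lit 460) ln13_11_5 ln13_11_5_ok) (L (nat_lit 524) ln13_12_5 ln13_12_5_ok))) (M (nat_lit 494) (B (L (nat_lit 462) ln13_11_4 ln13_11_4_ok) (L (nat_lit 526) ln13_12_4 ln13_12_4_ok))))) (B (M (nat_lit 493) (B (M (nat_lit 364) (B (L (nat_lit 332) ln13_14_7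 ln13_14_7_ok) (L (nat_lit 396) ln13_15_7 ln13_15_7_ok))) (M (nat_lit 494) (B (L (nat_lit 462) ln13_11_4 ln13_11_4_ok) (L (nat_lit 526) ln13_12_4 ln13_12_4_ok))))) (B (M (nat_lit 493) (B (M (nat_lit 364) (B (L (nat_lit 332) ln13_14_7 ln13_14_7_ok) (L (nat_lit 396) ln13_15_7 ln13_15_7_ok))) (M (nat_lit 492) (B (L (nat_lit 460) ln13_11_5 ln13_11_5_ok) (L (nat_lit 524) ln13_12_5 ln13_12_5_ok))))) (M (nat_lit 333) (B (M (nat_lit 332) (B (L (nat_lit 300) ln13_13_7 ln13_13_7_ok) (L (nat_lit 364) ln13_14_7 ln13_14_7_ok))) (M (nat_lit 460) (B (L (nat_lit 428) ln13_10_5 ln13_10_5_ok) (L (nat_lit 492) ln13_11_5 ln13_11_5_ok))))))))) (B (M (nat_lit 493) (B (M (nat_lit 525) (B (M (nat_lit 396) (B (L (nat_lit 364) ln13_15_7 ln13_15_7_ok) (L (nat_lit 428) ln13_16_7 ln13_16_7_ok))) (M (nat_lit 524) (B (L (nat_lit 492) ln13_12_5 ln13_12_5_ok) (L (nat_lit 556) ln13_13_5 ln13_13_5_ok))))) (B (M (nat_lit 525) (B (M (nat_lit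 524) (B (L (nat_lit 492) ln13_12_5 ln13_12_5_ok) (L (nat_lit 556) ln13_13_5 ln13_13_5_ok))) (M (nat_lit 526) (B (L (nat_lit 494) ln13_12_4 ln13_12_4_ok) (L (nat_lit 558) ln13_13_4 ln13_13_4_ok))))) (B (M (nat_lit 525) (B (M (nat_lit 396) (B (L (nat_lit 364) ln13_15_7 ln13_15_7_ok) (L (nat_lit 428) ln13_16_7 ln13_16_7_ok))) (M (nat_lit 526) (B (L (nat_lit 494) ln13_12_4 ln13_12_4_ok) (L (nat_lit 558) ln13_13_4 ln13_13_4_ok))))) (M (nat_lit 396) (B (L (nat_lit 364) ln13_15_7 ln13_15_7_ok) (M (nat_lit 428) (B (M (nat_lit 398) (B (L (nat_lit 366) ln13_15_6 ln13_15_6_ok) (M (nat_lit 399) (B (L (nat_lit 427) ln15_12_1 ln15_12_1_ok) (L (nat_lit 400) ln16_12_1 ln16_12_1_ok))))) (M (nat_lit 460) (B (M (nat_lit 492) (B (L (nat_lit 524) ln12_16_6 ln12_16_6_ok) (M (nat_lit 491) (B (L (nat_lit 523) ln12_12_5 ln12_12_5_ok) (M (nat_lit 462) (B (L (nat_lit 463) ln15_14_1 ln15_14_1_ok) (L (nat_lit 490) ln10_15_2 ln10_15_2_ok)))))))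 (B (M (nat_lit 492) (B (L (nat_lit 524) ln12_16_6 ln12_16_6_ok) (M (nat_lit 494) (B (L (nat_lit 526) ln13_12_4 ln13_12_4_ok) (M (nat_lit 459) (B (L (nat_lit 458) ln10_14_0 ln10_14_0_ok) (L (nat_lit 495) ln15_15_3 ln15_15_3_ok))))))) (M (nat_lit 494) (B (L (nat_lit 526) ln13_12_4 ln13_12_4_ok) (M (nat_lit 459) (B (L (nat_lit 458) ln10_14_0 ln10_14_0_ok) (M (nat_lit 495) (B (L (nat_lit 462) ln11_14_0 ln11_14_0_ok) (L (nat_lit 496) ln16_15_3 ln16_15_3_ok)))))))))))))))))) (B (M (nat_lit 365) (B (M (nat_lit 332) (B (L (nat_lit 364) ln13_14_7 ln13_14_7_ok) (M (nat_lit 334) (B (L (nat_lit 366) ln13_14_6 ln13_14_6_ok) (M (nat_lit 333) (B (L (nat_lit 300) ln13_13_7 ln13_13_7_ok) (L (nat_lit 302) ln13_13_6 ln13_13_6_ok))))))) (M (nat_lit 493) (B (M (nat_lit 492) (B (L (nat_lit 460) ln13_11_5 ln13_11_5_ok) (L (nat_lit 524) ln13_12_5 ln13_12_5_ok))) (M (nat_lit 494) (B (L (nat_lit 462) ln13_11_4 ln13_11_4_ok) (L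 (nat_lit 526) ln13_12_4 ln13_12_4_ok))))))) (B (M (nat_lit 365) (B (M (nat_lit 493) (B (M (nat_lit 366) (B (L (nat_lit 334) ln13_14_6 ln13_14_6_ok) (L (nat_lit 398) ln13_15_6 ln13_15_6_ok))) (M (nat_lit 494) (B (L (nat_lit 462) ln13_11_4 ln13_11_4_ok) (L (nat_lit 526) ln13_12_4 ln13_12_4_ok))))) (B (M (nat_lit 493) (B (M (nat_lit 364) (B (L (nat_lit 332) ln13_14_7 ln13_14_7_ok) (L (nat_lit 396) ln13_15_7 ln13_15_7_ok))) (M (nat_lit 494) (B (L (nat_lit 462) ln13_11_4 ln13_11_4_ok) (L (nat_lit 526) ln13_12_4 ln13_12_4_ok))))) (B (M (nat_lit 493) (B (M (nat_lit 364) (B (L (nat_lit 332) ln13_14_7 ln13_14_7_ok) (L (nat_lit 396) ln13_15_7 ln13_15_7_ok))) (M (nat_lit 366) (B (L (nat_lit 334) ln13_14_6 ln13_14_6_ok) (L (nat_lit 398) ln13_15_6 ln13_15_6_ok))))) (M (nat_lit 332) (B (L (nat_lit 364) ln13_14_7 ln13_14_7_ok) (M (nat_lit 334) (B (L (nat_lit 366) ln13_14_6 ln13_14_6_ok) (M (nat_lit 333) (B (L (nat_lit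 300) ln13_13_7 ln13_13_7_ok) (L (nat_lit 302) ln13_13_6 ln13_13_6_ok))))))))))) (B (M (nat_lit 365) (B (M (nat_lit 460) (B (L (nat_lit 492) ln13_11_5 ln13_11_5_ok) (M (nat_lit 333) (B (L (nat_lit 428) ln13_10_5 ln13_10_5_ok) (M (nat_lit 334) (B (L (nat_lit 302) ln13_13_6 ln13_13_6_ok) (L (nat_lit 366) ln13_14_6 ln13_14_6_ok))))))) (B (M (nat_lit 333) (B (M (nat_lit 332) (B (L (nat_lit 300) ln13_13_7 ln13_13_7_ok) (L (nat_lit 364) ln13_14_7 ln13_14_7_ok))) (M (nat_lit 460) (B (L (nat_lit 428) ln13_10_5 ln13_10_5_ok) (L (nat_lit 492) ln13_11_5 ln13_11_5_ok))))) (B (M (nat_lit 460) (B (L (nat_lit 492) ln13_11_5 ln13_11_5_ok) (M (nat_lit 396) (B (M (nat_lit 364) (B (L (nat_lit 332) ln13_14_7 ln13_14_7_ok) (M (nat_lit 366) (B (L (nat_lit 334) ln13_14_6 ln13_14_6_ok) (M (nat_lit 395) (B (L (nat_lit 367) ln15_11_1 ln15_11_1_ok) (L (nat_lit 394) ln10_12_2 ln10_12_2_ok))))))) (B (M (nat_lit 366) (B (L (nat_lit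 334) ln13_14_6 ln13_14_6_ok) (M (nat_lit 395) (B (L (nat_lit 394) ln10_12_2 ln10_12_2_ok) (M (nat_lit 367) (B (L (nat_lit 364) ln15_11_1 ln15_11_1_ok) (L (nat_lit 368) ln16_11_1 ln16_11_1_ok))))))) (B (M (nat_lit 364) (B (L (nat_lit 332) ln13_14_7 ln13_14_7_ok) (M (nat_lit 428) (B (M (nat_lit 363) (B (L (nat_lit 331) ln12_14_7 ln12_14_7_ok) (M (nat_lit 362) (B (L (nat_lit 361) ln9_11_0 ln9_11_0_ok) (L (nat_lit 398) ln10_11_0 ln10_11_0_ok))))) (M (nat_lit 462) (B (L (nat_lit 494) ln13_11_4 ln13_11_4_ok) (M (nat_lit 427) (B (L (nat_lit 426) ln10_13_0 ln10_13_0_ok) (L (nat_lit 463) ln15_14_3 ln15_14_3_ok))))))))) (M (nat_lit 366) (B (L (nat_lit 334) ln13_14_6 ln13_14_6_ok) (M (nat_lit 395) (B (L (nat_lit 394) ln10_12_2 ln10_12_2_ok) (M (nat_lit 367) (B (L (nat_lit 368) ln16_11_1 ln16_11_1_ok) (L (nat_lit 398) ln11_12_2 ln11_12_2_ok))))))))))))) (M (nat_lit 332) (B (L (nat_lit 364) ln13_14_7 ln13_14_7_ok)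 (M (nat_lit 334) (B (L (nat_lit 366) ln13_14_6 ln13_14_6_ok) (M (nat_lit 333) (B (L (nat_lit 300) ln13_13_7 ln13_13_7_ok) (L (nat_lit 302) ln13_13_6 ln13_13_6_ok))))))))))) (M (nat_lit 365) (B (M (nat_lit 493) (B (M (nat_lit 366) (B (L (nat_lit 334) ln13_14_6 ln13_14_6_ok) (L (nat_lit 398) ln13_15_6 ln13_15_6_ok))) (M (nat_lit 492) (B (L (nat_lit 460) ln13_11_5 ln13_11_5_ok) (L (nat_lit 524) ln13_12_5 ln13_12_5_ok))))) (B (M (nat_lit 493) (B (M (nat_lit 364) (B (L (nat_lit 332) ln13_14_7 ln13_14_7_ok) (L (nat_lit 396) ln13_15_7 ln13_15_7_ok))) (M (nat_lit 492) (B (L (nat_lit 460) ln13_11_5 ln13_11_5_ok) (L (nat_lit 524) ln13_12_5 ln13_12_5_ok))))) (B (M (nat_lit 493) (B (M (nat_lit 364) (B (L (nat_lit 332) ln13_14_7 ln13_14_7_ok) (L (nat_lit 396) ln13_15_7 ln13_15_7_ok))) (M (nat_lit 366) (B (L (nat_lit 334) ln13_14_6 ln13_14_6_ok) (L (nat_lit 398) ln13_15_6 ln13_15_6_ok))))) (M (nat_lit 332) (B (L (nat_lit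 364) ln13_14_7 ln13_14_7_ok) (M (nat_lit 334) (B (L (nat_lit 366) ln13_14_6 ln13_14_6_ok) (M (nat_lit 333) (B (L (nat_lit 300) ln13_13_7 ln13_13_7_ok) (L (nat_lit 302) ln13_13_6 ln13_13_6_ok))))))))))))))))))))) (nat_lit 1386334847383188664550070665778531748218595021979121511688892729411143073470393764272092352380775458208712834410189682411080515584) (nat_lit 1179363258168619532589299544976132053846106665675542648469958591749675984284944866337297930206331615671607524587597221136516729360200404758391213452808926999334851969024) (nat_lit 1179363258168619532589299544976132053846106665675542648469958591749675984284944866337297930206331615671607524587597221136516729360200404758391213452808926999334851969024) (by decide +kernel)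
theorem c31_s3064 : Sem (nat_lit 1386334847383188664550070665778531748218595021979121511688892729411143073470393764272092352380775458208712834410189682411080515584) (nat_lit 1179363258141160341632306725054809088071519835333263628100904527584262313250060794984223562312897804081832793628167065333769571982062738019930273014998404827043082534912) (nat_lit 1179363258141160341632306725054809088071519835333263628100904527584262313250060794984223562312897804081832793628167065333769571982062738019930273014998404827043082534912) :=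
  sem_of_chk (M (nat_lit 461) (B (M (nat_lit 493) (B (M (nat_lit 525) (B (M (nat_lit 398) (B (L (nat_lit 366) ln13_15_6 ln13_15_6_ok) (L (nat_lit 430) ln13_16_6 ln13_16_6_ok))) (M (nat_lit 524) (B (L (nat_lit 492) ln13_12_5 ln13_12_5_ok) (L (nat_lit 556) ln13_13_5 ln13_13_5_ok))))) (B (M (nat_lit 365) (B (M (nat_lit 492) (B (L (nat_lit 460) ln13_11_5 ln13_11_5_ok) (L (nat_lit 524) ln13_12_5 ln13_12_5_ok))) (M (nat_lit 494) (B (L (nat_lit 462) ln13_11_4 ln13_11_4_ok) (L (nat_lit 526) ln13_12_4 ln13_12_4_ok))))) (M (nat_lit 525) (B (M (nat_lit 398) (B (L (nat_lit 366) ln13_15_6 ln13_15_6_ok) (L (nat_lit 430) ln13_16_6 ln13_16_6_ok))) (M (nat_lit 526) (B (L (nat_lit 494) ln13_12_4 ln13_12_4_ok) (L (nat_lit 558) ln13_13_4 ln13_13_4_ok)))))))) (B c31_n344 (B (M (nat_lit 365) (B (M (nat_lit 493) (B (M (nat_lit 492) (B (L (nat_lit 460) ln13_11_5 ln13_11_5_ok) (L (nat_lit 524) ln13_12_5 ln13_12_5_ok))) (M (nat_lit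 494) (B (L (nat_lit 462) ln13_11_4 ln13_11_4_ok) (L (nat_lit 526) ln13_12_4 ln13_12_4_ok))))) (B (M (nat_lit 493) (B (M (nat_lit 364) (B (L (nat_lit 332) ln13_14_7 ln13_14_7_ok) (L (nat_lit 396) ln13_15_7 ln13_15_7_ok))) (M (nat_lit 494) (B (L (nat_lit 462) ln13_11_4 ln13_11_4_ok) (L (nat_lit 526) ln13_12_4 ln13_12_4_ok))))) (B (M (nat_lit 493) (B (M (nat_lit 364) (B (L (nat_lit 332) ln13_14_7 ln13_14_7_ok) (L (nat_lit 396) ln13_15_7 ln13_15_7_ok))) (M (nat_lit 492) (B (L (nat_lit 460) ln13_11_5 ln13_11_5_ok) (L (nat_lit 524) ln13_12_5 ln13_12_5_ok))))) (M (nat_lit 333) (B (M (nat_lit 332) (B (L (nat_lit 300) ln13_13_7 ln13_13_7_ok) (L (nat_lit 364) ln13_14_7 ln13_14_7_ok))) (M (nat_lit 460) (B (L (nat_lit 428) ln13_10_5 ln13_10_5_ok) (L (nat_lit 492) ln13_11_5 ln13_11_5_ok))))))))) (B (M (nat_lit 365) (B (M (nat_lit 332) (B (L (nat_lit 364) ln13_14_7 ln13_14_7_ok) (M (nat_lit 334) (B (L (nat_lit 366)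 ln13_14_6 ln13_14_6_ok) (M (nat_lit 333) (B (L (nat_lit 300) ln13_13_7 ln13_13_7_ok) (L (nat_lit 302) ln13_13_6 ln13_13_6_ok))))))) (B (M (nat_lit 493) (B (M (nat_lit 364) (B (L (nat_lit 332) ln13_14_7 ln13_14_7_ok) (L (nat_lit 396) ln13_15_7 ln13_15_7_ok))) (M (nat_lit 494) (B (L (nat_lit 462) ln13_11_4 ln13_11_4_ok) (L (nat_lit 526) ln13_12_4 ln13_12_4_ok))))) (M (nat_lit 333) (B (M (nat_lit 334) (B (L (nat_lit 302) ln13_13_6 ln13_13_6_ok) (L (nat_lit 366) ln13_14_6 ln13_14_6_ok))) (M (nat_lit 462) (B (L (nat_lit 430) ln13_10_4 ln13_10_4_ok) (L (nat_lit 494) ln13_11_4 ln13_11_4_ok)))))))) (B (M (nat_lit 365) (B (M (nat_lit 333) (B (M (nat_lit 334) (B (L (nat_lit 302) ln13_13_6 ln13_13_6_ok) (L (nat_lit 366) ln13_14_6 ln13_14_6_ok))) (M (nat_lit 462) (B (L (nat_lit 430) ln13_10_4 ln13_10_4_ok) (L (nat_lit 494) ln13_11_4 ln13_11_4_ok))))) (B (M (nat_lit 333) (B (M (nat_lit 332) (B (L (nat_lit 300) ln13_13_7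 ln13_13_7_ok) (L (nat_lit 364) ln13_14_7 ln13_14_7_ok))) (M (nat_lit 460) (B (L (nat_lit 428) ln13_10_5 ln13_10_5_ok) (L (nat_lit 492) ln13_11_5 ln13_11_5_ok))))) (M (nat_lit 430) (B (M (nat_lit 462) (B (L (nat_lit 494) ln13_11_4 ln13_11_4_ok) (M (nat_lit 460) (B (L (nat_lit 492) ln13_11_5 ln13_11_5_ok) (M (nat_lit 431) (B (L (nat_lit 432) ln16_13_1 ln16_13_1_ok) (L (nat_lit 459) ln11_14_2 ln11_14_2_ok))))))) (B (M (nat_lit 398) (B (M (nat_lit 366) (B (L (nat_lit 334) ln13_14_6 ln13_14_6_ok) (M (nat_lit 364) (B (L (nat_lit 332) ln13_14_7 ln13_14_7_ok) (M (nat_lit 363) (B (L (nat_lit 362) ln10_11_0 ln10_11_0_ok) (L (nat_lit 399) ln11_11_0 ln11_11_0_ok))))))) (B (M (nat_lit 366) (B (L (nat_lit 334) ln13_14_6 ln13_14_6_ok) (M (nat_lit 367) (B (M (nat_lit 462) (B (L (nat_lit 335) ln14_14_6 ln14_14_6_ok) (L (nat_lit 494) ln14_15_7 ln14_15_7_ok))) (M (nat_lit 368) (B (L (nat_lit 396) ln16_11_1 ln16_11_1_ok)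 (L (nat_lit 369) ln17_11_1 ln17_11_1_ok))))))) (M (nat_lit 364) (B (L (nat_lit 332) ln13_14_7 ln13_14_7_ok) (M (nat_lit 399) (B (L (nat_lit 400) ln16_12_3 ln16_12_3_ok) (M (nat_lit 363) (B (L (nat_lit 362) ln10_11_0 ln10_11_0_ok) (L (nat_lit 396) ln15_12_3 ln15_12_3_ok)))))))))) (M (nat_lit 431) (B (M (nat_lit 432) (B (L (nat_lit 396) ln16_13_3 ln16_13_3_ok) (L (nat_lit 460) ln16_13_1 ln16_13_1_ok))) (B (M (nat_lit 460) (B (L (nat_lit 492) ln13_11_5 ln13_11_5_ok) (L (nat_lit 432) ln16_13_1 ln16_13_1_ok))) (B (M (nat_lit 428) (B (M (nat_lit 460) (B (L (nat_lit 492) ln13_11_5 ln13_11_5_ok) (L (nat_lit 459) ln15_13_1 ln15_13_1_ok))) (M (nat_lit 427) (B (M (nat_lit 395) (B (L (nat_lit 394) ln14_13_3 ln14_13_3_ok) (L (nat_lit 396) ln15_13_3 ln15_13_3_ok))) (M (nat_lit 398) (B (L (nat_lit 426) ln10_13_2 ln10_13_2_ok) (L (nat_lit 399) ln11_13_2 ln11_13_2_ok))))))) (M (nat_lit 396) (B (L (nat_lit 432) ln16_13_3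 ln16_13_3_ok) (M (nat_lit 395) (B (L (nat_lit 394) ln10_12_0 ln10_12_0_ok) (L (nat_lit 428) ln15_13_3 ln15_13_3_ok))))))))))))))) (M (nat_lit 365) (B (M (nat_lit 493) (B (M (nat_lit 364) (B (L (nat_lit 332) ln13_14_7 ln13_14_7_ok) (L (nat_lit 396) ln13_15_7 ln13_15_7_ok))) (M (nat_lit 366) (B (L (nat_lit 334) ln13_14_6 ln13_14_6_ok) (L (nat_lit 398) ln13_15_6 ln13_15_6_ok))))) (B (M (nat_lit 493) (B (M (nat_lit 366) (B (L (nat_lit 334) ln13_14_6 ln13_14_6_ok) (L (nat_lit 398) ln13_15_6 ln13_15_6_ok))) (M (nat_lit 492) (B (L (nat_lit 460) ln13_11_5 ln13_11_5_ok) (L (nat_lit 524) ln13_12_5 ln13_12_5_ok))))) (M (nat_lit 333) (B (M (nat_lit 332) (B (L (nat_lit 300) ln13_13_7 ln13_13_7_ok) (L (nat_lit 364) ln13_14_7 ln13_14_7_ok))) (M (nat_lit 460) (B (L (nat_lit 428) ln13_10_5 ln13_10_5_ok) (L (nat_lit 492) ln13_11_5 ln13_11_5_ok)))))))))))))) (nat_lit 1386334847383188664550070665778531748218595021979121511688892729411143073470393764272092352380775458208712834410189682411080515584)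 (nat_lit 1179363258141160341632306725054809088071519835333263628100904527584262313250060794984223562312897804081832793628167065333769571982062738019930273014998404827043082534912) (nat_lit 1179363258141160341632306725054809088071519835333263628100904527584262313250060794984223562312897804081832793628167065333769571982062738019930273014998404827043082534912) (by decide +kernel)
theorem c31_s3118 : Sem (nat_lit 1386334847383188664550070665778531748218595021979121511688892729411143073470393764272092352380775458208712834410189682411080515584) (nat_lit 1179363258141160341632306725077137573681880879010938855479224026879540558328631715438339766164913514371715782749820858038603615597897064093698788723419882393763433152512) (nat_lit 1179363258141160341632306725077137573681880879010938855479224026879540558328631715438339766164913514371715782749820858038603615597897064093698788723419882393763433152512) :=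
  sem_of_chk (M (nat_lit 461) (B (M (nat_lit 493) (B (M (nat_lit 525) (B (M (nat_lit 398) (B (L (nat_lit 366) ln13_15_6 ln13_15_6_ok) (L (nat_lit 430) ln13_16_6 ln13_16_6_ok))) (M (nat_lit 524) (B (L (nat_lit 492) ln13_12_5 ln13_12_5_ok) (L (nat_lit 556) ln13_13_5 ln13_13_5_ok))))) (B (M (nat_lit 365) (B (M (nat_lit 492) (B (L (nat_lit 460) ln13_11_5 ln13_11_5_ok) (L (nat_lit 524) ln13_12_5 ln13_12_5_ok))) (M (nat_lit 494) (B (L (nat_lit 462) ln13_11_4 ln13_11_4_ok) (L (nat_lit 526) ln13_12_4 ln13_12_4_ok))))) (M (nat_lit 525) (B (M (nat_lit 398) (B (L (nat_lit 366) ln13_15_6 ln13_15_6_ok) (L (nat_lit 430) ln13_16_6 ln13_16_6_ok))) (M (nat_lit 526) (B (L (nat_lit 494) ln13_12_4 ln13_12_4_ok) (L (nat_lit 558) ln13_13_4 ln13_13_4_ok)))))))) (B c31_n289 (B (M (nat_lit 365) (B (M (nat_lit 493) (B (M (nat_lit 492) (B (L (nat_lit 460) ln13_11_5 ln13_11_5_ok) (L (nat_lit 524) ln13_12_5 ln13_12_5_ok))) (M (nat_lit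 494) (B (L (nat_lit 462) ln13_11_4 ln13_11_4_ok) (L (nat_lit 526) ln13_12_4 ln13_12_4_ok))))) (B (M (nat_lit 493) (B (M (nat_lit 364) (B (L (nat_lit 332) ln13_14_7 ln13_14_7_ok) (L (nat_lit 396) ln13_15_7 ln13_15_7_ok))) (M (nat_lit 494) (B (L (nat_lit 462) ln13_11_4 ln13_11_4_ok) (L (nat_lit 526) ln13_12_4 ln13_12_4_ok))))) (B (M (nat_lit 493) (B (M (nat_lit 364) (B (L (nat_lit 332) ln13_14_7 ln13_14_7_ok) (L (nat_lit 396) ln13_15_7 ln13_15_7_ok))) (M (nat_lit 492) (B (L (nat_lit 460) ln13_11_5 ln13_11_5_ok) (L (nat_lit 524) ln13_12_5 ln13_12_5_ok))))) (M (nat_lit 333) (B (M (nat_lit 332) (B (L (nat_lit 300) ln13_13_7 ln13_13_7_ok) (L (nat_lit 364) ln13_14_7 ln13_14_7_ok))) (M (nat_lit 460) (B (L (nat_lit 428) ln13_10_5 ln13_10_5_ok) (L (nat_lit 492) ln13_11_5 ln13_11_5_ok))))))))) (B (M (nat_lit 365) (B (M (nat_lit 333) (B (M (nat_lit 334) (B (L (nat_lit 302) ln13_13_6 ln13_13_6_ok) (L (nat_lit 366)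 ln13_14_6 ln13_14_6_ok))) (M (nat_lit 462) (B (L (nat_lit 430) ln13_10_4 ln13_10_4_ok) (L (nat_lit 494) ln13_11_4 ln13_11_4_ok))))) (B (M (nat_lit 333) (B (M (nat_lit 332) (B (L (nat_lit 300) ln13_13_7 ln13_13_7_ok) (L (nat_lit 364) ln13_14_7 ln13_14_7_ok))) (M (nat_lit 460) (B (L (nat_lit 428) ln13_10_5 ln13_10_5_ok) (L (nat_lit 492) ln13_11_5 ln13_11_5_ok))))) (M (nat_lit 428) (B (M (nat_lit 460) (B (L (nat_lit 492) ln13_11_5 ln13_11_5_ok) (M (nat_lit 462) (B (L (nat_lit 494) ln13_11_4 ln13_11_4_ok) (M (nat_lit 427) (B (L (nat_lit 426) ln10_13_0 ln10_13_0_ok) (L (nat_lit 463) ln15_14_3 ln15_14_3_ok))))))) (B (M (nat_lit 396) (B (M (nat_lit 364) (B (L (nat_lit 332) ln13_14_7 ln13_14_7_ok) (M (nat_lit 366) (B (L (nat_lit 334) ln13_14_6 ln13_14_6_ok) (M (nat_lit 367) (B (L (nat_lit 395) ln15_11_1 ln15_11_1_ok) (L (nat_lit 368) ln16_11_1 ln16_11_1_ok))))))) (B (M (nat_lit 366) (B (L (nat_lit 334) ln13_14_6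 ln13_14_6_ok) (M (nat_lit 395) (B (L (nat_lit 394) ln10_12_2 ln10_12_2_ok) (M (nat_lit 367) (B (L (nat_lit 364) ln15_11_1 ln15_11_1_ok) (L (nat_lit 368) ln16_11_1 ln16_11_1_ok))))))) (B (M (nat_lit 364) (B (L (nat_lit 332) ln13_14_7 ln13_14_7_ok) (M (nat_lit 363) (B (M (nat_lit 460) (B (L (nat_lit 331) ln12_14_7 ln12_14_7_ok) (L (nat_lit 492) ln12_15_6 ln12_15_6_ok))) (M (nat_lit 362) (B (L (nat_lit 361) ln9_11_0 ln9_11_0_ok) (L (nat_lit 398) ln10_11_0 ln10_11_0_ok))))))) (M (nat_lit 366) (B (L (nat_lit 334) ln13_14_6 ln13_14_6_ok) (M (nat_lit 395) (B (L (nat_lit 394) ln10_12_2 ln10_12_2_ok) (M (nat_lit 367) (B (L (nat_lit 368) ln16_11_1 ln16_11_1_ok) (L (nat_lit 398) ln11_12_2 ln11_12_2_ok))))))))))) (M (nat_lit 427) (B (M (nat_lit 426) (B (L (nat_lit 398) ln10_13_2 ln10_13_2_ok) (L (nat_lit 462) ln10_13_0 ln10_13_0_ok))) (B (M (nat_lit 462) (B (L (nat_lit 494) ln13_11_4 ln13_11_4_ok) (L (nat_lit 426)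 ln10_13_0 ln10_13_0_ok))) (B (M (nat_lit 430) (B (M (nat_lit 462) (B (L (nat_lit 494) ln13_11_4 ln13_11_4_ok) (L (nat_lit 463) ln11_13_0 ln11_13_0_ok))) (M (nat_lit 431) (B (M (nat_lit 395) (B (L (nat_lit 394) ln14_13_3 ln14_13_3_ok) (L (nat_lit 396) ln15_13_3 ln15_13_3_ok))) (M (nat_lit 399) (B (L (nat_lit 398) ln11_13_2 ln11_13_2_ok) (L (nat_lit 400) ln12_13_2 ln12_13_2_ok))))))) (M (nat_lit 398) (B (L (nat_lit 426) ln10_13_2 ln10_13_2_ok) (M (nat_lit 399) (B (L (nat_lit 396) ln15_12_1 ln15_12_1_ok) (L (nat_lit 400) ln16_12_1 ln16_12_1_ok))))))))))))))) (M (nat_lit 365) (B (M (nat_lit 493) (B (M (nat_lit 364) (B (L (nat_lit 332) ln13_14_7 ln13_14_7_ok) (L (nat_lit 396) ln13_15_7 ln13_15_7_ok))) (M (nat_lit 366) (B (L (nat_lit 334) ln13_14_6 ln13_14_6_ok) (L (nat_lit 398) ln13_15_6 ln13_15_6_ok))))) (B (M (nat_lit 493) (B (M (nat_lit 366) (B (L (nat_lit 334) ln13_14_6 ln13_14_6_ok) (L (nat_lit 398)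 ln13_15_6 ln13_15_6_ok))) (M (nat_lit 492) (B (L (nat_lit 460) ln13_11_5 ln13_11_5_ok) (L (nat_lit 524) ln13_12_5 ln13_12_5_ok))))) (M (nat_lit 333) (B (M (nat_lit 332) (B (L (nat_lit 300) ln13_13_7 ln13_13_7_ok) (L (nat_lit 364) ln13_14_7 ln13_14_7_ok))) (M (nat_lit 460) (B (L (nat_lit 428) ln13_10_5 ln13_10_5_ok) (L (nat_lit 492) ln13_11_5 ln13_11_5_ok))))))))))))) (nat_lit 1386334847383188664550070665778531748218595021979121511688892729411143073470393764272092352380775458208712834410189682411080515584) (nat_lit 1179363258141160341632306725077137573681880879010938855479224026879540558328631715438339766164913514371715782749820858038603615597897064093698788723419882393763433152512) (nat_lit 1179363258141160341632306725077137573681880879010938855479224026879540558328631715438339766164913514371715782749820858038603615597897064093698788723419882393763433152512) (by decide +kernel)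
theorem c31_s3126 : Sem (nat_lit 1386334847383188664550070665778531748218595021979121511688892729411143073470393764272092352380775458208712834410189682411080515584) (nat_lit 1179363258141160341632306725050343390949447626597748756452413181698487890952872870512277671042165582395445500984693464773293080744807773531026692480770991102622754144256) (nat_lit 1179363258141160341632306725050343390949447626597748756452413181698487890952872870512277671042165582395445500984693464773293080744807773531026692480770991102622754144256) :=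
  sem_of_chk (M (nat_lit 461) (B (M (nat_lit 365) (B (M (nat_lit 332) (B (L (nat_lit 364) ln13_14_7 ln13_14_7_ok) (M (nat_lit 334) (B (L (nat_lit 366) ln13_14_6 ln13_14_6_ok) (M (nat_lit 333) (B (L (nat_lit 300) ln13_13_7 ln13_13_7_ok) (L (nat_lit 302) ln13_13_6 ln13_13_6_ok))))))) (B (M (nat_lit 493) (B (M (nat_lit 364) (B (L (nat_lit 332) ln13_14_7 ln13_14_7_ok) (L (nat_lit 396) ln13_15_7 ln13_15_7_ok))) (M (nat_lit 494) (B (L (nat_lit 462) ln13_11_4 ln13_11_4_ok) (L (nat_lit 526) ln13_12_4 ln13_12_4_ok))))) (M (nat_lit 333) (B (M (nat_lit 334) (B (L (nat_lit 302) ln13_13_6 ln13_13_6_ok) (L (nat_lit 366) ln13_14_6 ln13_14_6_ok))) (M (nat_lit 462) (B (L (nat_lit 430) ln13_10_4 ln13_10_4_ok) (L (nat_lit 494) ln13_11_4 ln13_11_4_ok)))))))) (B (M (nat_lit 365) (B (M (nat_lit 493) (B (M (nat_lit 364) (B (L (nat_lit 332) ln13_14_7 ln13_14_7_ok) (L (nat_lit 396) ln13_15_7 ln13_15_7_ok))) (M (nat_lit 366)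 (B (L (nat_lit 334) ln13_14_6 ln13_14_6_ok) (L (nat_lit 398) ln13_15_6 ln13_15_6_ok))))) (B (M (nat_lit 493) (B (M (nat_lit 366) (B (L (nat_lit 334) ln13_14_6 ln13_14_6_ok) (L (nat_lit 398) ln13_15_6 ln13_15_6_ok))) (M (nat_lit 494) (B (L (nat_lit 462) ln13_11_4 ln13_11_4_ok) (L (nat_lit 526) ln13_12_4 ln13_12_4_ok))))) (B (M (nat_lit 493) (B (M (nat_lit 364) (B (L (nat_lit 332) ln13_14_7 ln13_14_7_ok) (L (nat_lit 396) ln13_15_7 ln13_15_7_ok))) (M (nat_lit 494) (B (L (nat_lit 462) ln13_11_4 ln13_11_4_ok) (L (nat_lit 526) ln13_12_4 ln13_12_4_ok))))) (M (nat_lit 333) (B (M (nat_lit 334) (B (L (nat_lit 302) ln13_13_6 ln13_13_6_ok) (L (nat_lit 366) ln13_14_6 ln13_14_6_ok))) (M (nat_lit 462) (B (L (nat_lit 430) ln13_10_4 ln13_10_4_ok) (L (nat_lit 494) ln13_11_4 ln13_11_4_ok))))))))) (B (M (nat_lit 365) (B (M (nat_lit 493) (B (M (nat_lit 364) (B (L (nat_lit 332) ln13_14_7 ln13_14_7_ok) (L (nat_lit 396) ln13_15_7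 ln13_15_7_ok))) (M (nat_lit 366) (B (L (nat_lit 334) ln13_14_6 ln13_14_6_ok) (L (nat_lit 398) ln13_15_6 ln13_15_6_ok))))) (B (M (nat_lit 493) (B (M (nat_lit 366) (B (L (nat_lit 334) ln13_14_6 ln13_14_6_ok) (L (nat_lit 398) ln13_15_6 ln13_15_6_ok))) (M (nat_lit 494) (B (L (nat_lit 462) ln13_11_4 ln13_11_4_ok) (L (nat_lit 526) ln13_12_4 ln13_12_4_ok))))) (B (M (nat_lit 493) (B (M (nat_lit 364) (B (L (nat_lit 332) ln13_14_7 ln13_14_7_ok) (L (nat_lit 396) ln13_15_7 ln13_15_7_ok))) (M (nat_lit 494) (B (L (nat_lit 462) ln13_11_4 ln13_11_4_ok) (L (nat_lit 526) ln13_12_4 ln13_12_4_ok))))) (M (nat_lit 333) (B (M (nat_lit 332) (B (L (nat_lit 300) ln13_13_7 ln13_13_7_ok) (L (nat_lit 364) ln13_14_7 ln13_14_7_ok))) (M (nat_lit 462) (B (L (nat_lit 430) ln13_10_4 ln13_10_4_ok) (L (nat_lit 494) ln13_11_4 ln13_11_4_ok))))))))) (B (M (nat_lit 493) (B (M (nat_lit 525) (B (M (nat_lit 396) (B (L (nat_lit 364) ln13_15_7 ln13_15_7_ok)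 (L (nat_lit 428) ln13_16_7 ln13_16_7_ok))) (M (nat_lit 524) (B (L (nat_lit 492) ln13_12_5 ln13_12_5_ok) (L (nat_lit 556) ln13_13_5 ln13_13_5_ok))))) (M (nat_lit 365) (B (M (nat_lit 366) (B (L (nat_lit 334) ln13_14_6 ln13_14_6_ok) (L (nat_lit 398) ln13_15_6 ln13_15_6_ok))) (M (nat_lit 494) (B (L (nat_lit 462) ln13_11_4 ln13_11_4_ok) (L (nat_lit 526) ln13_12_4 ln13_12_4_ok))))))) (B (M (nat_lit 493) (B (M (nat_lit 525) (B (M (nat_lit 396) (B (L (nat_lit 364) ln13_15_7 ln13_15_7_ok) (L (nat_lit 428) ln13_16_7 ln13_16_7_ok))) (M (nat_lit 524) (B (L (nat_lit 492) ln13_12_5 ln13_12_5_ok) (L (nat_lit 556) ln13_13_5 ln13_13_5_ok))))) (B (M (nat_lit 525) (B (M (nat_lit 398) (B (L (nat_lit 366) ln13_15_6 ln13_15_6_ok) (L (nat_lit 430) ln13_16_6 ln13_16_6_ok))) (M (nat_lit 526) (B (L (nat_lit 494) ln13_12_4 ln13_12_4_ok) (L (nat_lit 558) ln13_13_4 ln13_13_4_ok))))) (M (nat_lit 365) (B (M (nat_lit 364) (B (L (nat_lit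 332) ln13_14_7 ln13_14_7_ok) (L (nat_lit 396) ln13_15_7 ln13_15_7_ok))) (M (nat_lit 494) (B (L (nat_lit 462) ln13_11_4 ln13_11_4_ok) (L (nat_lit 526) ln13_12_4 ln13_12_4_ok)))))))) (B (M (nat_lit 493) (B (M (nat_lit 525) (B (M (nat_lit 398) (B (L (nat_lit 366) ln13_15_6 ln13_15_6_ok) (L (nat_lit 430) ln13_16_6 ln13_16_6_ok))) (M (nat_lit 524) (B (L (nat_lit 492) ln13_12_5 ln13_12_5_ok) (L (nat_lit 556) ln13_13_5 ln13_13_5_ok))))) (B (M (nat_lit 525) (B (M (nat_lit 524) (B (L (nat_lit 492) ln13_12_5 ln13_12_5_ok) (L (nat_lit 556) ln13_13_5 ln13_13_5_ok))) (M (nat_lit 526) (B (L (nat_lit 494) ln13_12_4 ln13_12_4_ok) (L (nat_lit 558) ln13_13_4 ln13_13_4_ok))))) (M (nat_lit 365) (B (M (nat_lit 366) (B (L (nat_lit 334) ln13_14_6 ln13_14_6_ok) (L (nat_lit 398) ln13_15_6 ln13_15_6_ok))) (M (nat_lit 494) (B (L (nat_lit 462) ln13_11_4 ln13_11_4_ok) (L (nat_lit 526) ln13_12_4 ln13_12_4_ok)))))))) (B c31_n344 (B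 (M (nat_lit 493) (B (M (nat_lit 525) (B (M (nat_lit 396) (B (L (nat_lit 364) ln13_15_7 ln13_15_7_ok) (L (nat_lit 428) ln13_16_7 ln13_16_7_ok))) (M (nat_lit 524) (B (L (nat_lit 492) ln13_12_5 ln13_12_5_ok) (L (nat_lit 556) ln13_13_5 ln13_13_5_ok))))) (B (M (nat_lit 525) (B (M (nat_lit 524) (B (L (nat_lit 492) ln13_12_5 ln13_12_5_ok) (L (nat_lit 556) ln13_13_5 ln13_13_5_ok))) (M (nat_lit 526) (B (L (nat_lit 494) ln13_12_4 ln13_12_4_ok) (L (nat_lit 558) ln13_13_4 ln13_13_4_ok))))) (M (nat_lit 365) (B (M (nat_lit 364) (B (L (nat_lit 332) ln13_14_7 ln13_14_7_ok) (L (nat_lit 396) ln13_15_7 ln13_15_7_ok))) (M (nat_lit 494) (B (L (nat_lit 462) ln13_11_4 ln13_11_4_ok) (L (nat_lit 526) ln13_12_4 ln13_12_4_ok)))))))) (B (M (nat_lit 365) (B (M (nat_lit 333) (B (M (nat_lit 334) (B (L (nat_lit 302) ln13_13_6 ln13_13_6_ok) (L (nat_lit 366) ln13_14_6 ln13_14_6_ok))) (M (nat_lit 462) (B (L (nat_lit 430) ln13_10_4 ln13_10_4_ok)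 (L (nat_lit 494) ln13_11_4 ln13_11_4_ok))))) (B (M (nat_lit 333) (B (M (nat_lit 332) (B (L (nat_lit 300) ln13_13_7 ln13_13_7_ok) (L (nat_lit 364) ln13_14_7 ln13_14_7_ok))) (M (nat_lit 462) (B (L (nat_lit 430) ln13_10_4 ln13_10_4_ok) (L (nat_lit 494) ln13_11_4 ln13_11_4_ok))))) (M (nat_lit 364) (B (L (nat_lit 332) ln13_14_7 ln13_14_7_ok) (M (nat_lit 366) (B (L (nat_lit 334) ln13_14_6 ln13_14_6_ok) (M (nat_lit 363) (B (M (nat_lit 398) (B (L (nat_lit 362) ln10_11_0 ln10_11_0_ok) (L (nat_lit 399) ln11_11_0 ln11_11_0_ok))) (B (M (nat_lit 367) (B (M (nat_lit 395) (B (L (nat_lit 394) ln14_11_1 ln14_11_1_ok) (L (nat_lit 396) ln15_11_1 ln15_11_1_ok))) (M (nat_lit 399) (B (L (nat_lit 398) ln11_11_0 ln11_11_0_ok) (L (nat_lit 400) ln12_11_0 ln12_11_0_ok))))) (M (nat_lit 362) (B (M (nat_lit 330) (B (L (nat_lit 329) ln13_11_3 ln13_11_3_ok) (L (nat_lit 331) ln14_11_3 ln14_11_3_ok))) (M (nat_lit 394) (B (L (nat_lit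 393) ln13_11_1 ln13_11_1_ok) (L (nat_lit 395) ln14_11_1 ln14_11_1_ok))))))))))))))) (M (nat_lit 493) (B (M (nat_lit 525) (B (M (nat_lit 398) (B (L (nat_lit 366) ln13_15_6 ln13_15_6_ok) (L (nat_lit 430) ln13_16_6 ln13_16_6_ok))) (M (nat_lit 524) (B (L (nat_lit 492) ln13_12_5 ln13_12_5_ok) (L (nat_lit 556) ln13_13_5 ln13_13_5_ok))))) (B (M (nat_lit 525) (B (M (nat_lit 396) (B (L (nat_lit 364) ln13_15_7 ln13_15_7_ok) (L (nat_lit 428) ln13_16_7 ln13_16_7_ok))) (M (nat_lit 524) (B (L (nat_lit 492) ln13_12_5 ln13_12_5_ok) (L (nat_lit 556) ln13_13_5 ln13_13_5_ok))))) (M (nat_lit 365) (B (M (nat_lit 364) (B (L (nat_lit 332) ln13_14_7 ln13_14_7_ok) (L (nat_lit 396) ln13_15_7 ln13_15_7_ok))) (M (nat_lit 366) (B (L (nat_lit 334) ln13_14_6 ln13_14_6_ok) (L (nat_lit 398) ln13_15_6 ln13_15_6_ok)))))))))))))))))) (nat_lit 1386334847383188664550070665778531748218595021979121511688892729411143073470393764272092352380775458208712834410189682411080515584)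 (nat_lit 1179363258141160341632306725050343390949447626597748756452413181698487890952872870512277671042165582395445500984693464773293080744807773531026692480770991102622754144256) (nat_lit 1179363258141160341632306725050343390949447626597748756452413181698487890952872870512277671042165582395445500984693464773293080744807773531026692480770991102622754144256) (by decide +kernel)
noncomputable def c31_n3215 : Cert := (M (nat_lit 430) (B (M (nat_lit 395) (B (L (nat_lit 394) ln10_12_0 ln10_12_0_ok) (M (nat_lit 431) (B (L (nat_lit 398) ln11_12_0 ln11_12_0_ok) (L (nat_lit 432) ln16_13_3 ln16_13_3_ok))))) (B (M (nat_lit 431) (B (L (nat_lit 432) ln16_13_3 ln16_13_3_ok) (M (nat_lit 395) (B (L (nat_lit 398) ln11_12_0 ln11_12_0_ok) (L (nat_lit 428) ln15_13_3 ln15_13_3_ok))))) (B (M (nat_lit 428) (B (M (nat_lit 431) (B (L (nat_lit 432) ln16_13_3 ln16_13_3_ok) (M (nat_lit 460) (B (L (nat_lit 459) ln15_13_1 ln15_13_1_ok)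 (M (nat_lit 365) (B (L (nat_lit 333) ln13_10_5 ln13_10_5_ok) (L (nat_lit 492) ln12_15_6 ln12_15_6_ok))))))) (B (M (nat_lit 431) (B (L (nat_lit 432) ln16_13_3 ln16_13_3_ok) (M (nat_lit 427) (B (M (nat_lit 399) (B (L (nat_lit 398) ln15_12_1 ln15_12_1_ok) (L (nat_lit 400) ln12_13_2 ln12_13_2_ok))) (M (nat_lit 459) (B (L (nat_lit 458) ln14_13_1 ln14_13_1_ok) (L (nat_lit 460) ln15_13_1 ln15_13_1_ok))))))) (B (M (nat_lit 398) (B (M (nat_lit 399) (B (L (nat_lit 427) ln15_12_1 ln15_12_1_ok) (L (nat_lit 400) ln16_12_1 ln16_12_1_ok))) (B (M (nat_lit 462) (B (M (nat_lit 365) (B (L (nat_lit 333) ln13_10_4 ln13_10_4_ok) (L (nat_lit 494) ln14_15_7 ln14_15_7_ok))) (M (nat_lit 427) (B (L (nat_lit 426) ln10_13_2 ln10_13_2_ok) (L (nat_lit 463) ln11_13_0 ln11_13_0_ok))))) (M (nat_lit 333) (B (M (nat_lit 365) (B (L (nat_lit 301) ln13_9_5 ln13_9_5_ok) (L (nat_lit 460) ln13_10_5 ln13_10_5_ok))) (B (M (nat_lit 365) (B (L (nat_lit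 460) ln13_10_5 ln13_10_5_ok) (L (nat_lit 462) ln13_10_4 ln13_10_4_ok))) (M (nat_lit 364) (B (M (nat_lit 332) (B (L (nat_lit 300) ln12_9_4 ln12_9_4_ok) (L (nat_lit 301) ln12_13_6 ln12_13_6_ok))) (M (nat_lit 399) (B (L (nat_lit 363) ln15_12_3 ln15_12_3_ok) (L (nat_lit 400) ln16_12_1 ln16_12_1_ok))))))))))) (M (nat_lit 427) (B (M (nat_lit 398) (B (L (nat_lit 399) ln15_12_1 ln15_12_1_ok) (L (nat_lit 426) ln10_13_2 ln10_13_2_ok))) (B (M (nat_lit 426) (B (L (nat_lit 425) ln9_13_2 ln9_13_2_ok) (M (nat_lit 458) (B (L (nat_lit 457) ln13_13_1 ln13_13_1_ok) (L (nat_lit 459) ln14_13_1 ln14_13_1_ok))))) (M (nat_lit 399) (B (L (nat_lit 398) ln15_12_1 ln15_12_1_ok) (M (nat_lit 431) (B (L (nat_lit 432) ln16_13_3 ln16_13_3_ok) (L (nat_lit 400) ln12_13_2 ln12_13_2_ok)))))))))))) (B (M (nat_lit 431) (B (L (nat_lit 432) ln16_13_3 ln16_13_3_ok) (M (nat_lit 395) (B (L (nat_lit 394) ln10_12_0 ln10_12_0_ok) (L (nat_lit 428)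 ln15_13_3 ln15_13_3_ok))))) (M (nat_lit 395) (B (L (nat_lit 394) ln10_12_0 ln10_12_0_ok) (M (nat_lit 398) (B (M (nat_lit 427) (B (L (nat_lit 426) ln14_12_1 ln14_12_1_ok) (M (nat_lit 399) (B (L (nat_lit 428) ln15_12_1 ln15_12_1_ok) (M (nat_lit 363) (B (L (nat_lit 362) ln14_12_3 ln14_12_3_ok) (L (nat_lit 364) ln15_12_3 ln15_12_3_ok))))))) (B (M (nat_lit 399) (B (M (nat_lit 367) (B (L (nat_lit 366) ln11_12_2 ln11_12_2_ok) (L (nat_lit 368) ln12_12_2 ln12_12_2_ok))) (M (nat_lit 427) (B (L (nat_lit 426) ln14_12_1 ln14_12_1_ok) (L (nat_lit 428) ln15_12_1 ln15_12_1_ok))))) (B (M (nat_lit 462) (B (M (nat_lit 365) (B (L (nat_lit 333) ln13_10_4 ln13_10_4_ok) (L (nat_lit 494) ln14_15_7 ln14_15_7_ok))) (M (nat_lit 463) (B (M (nat_lit 366) (B (L (nat_lit 367) ln11_12_2 ln11_12_2_ok) (L (nat_lit 495) ln14_11_4 ln14_11_4_ok))) (M (nat_lit 427) (B (L (nat_lit 426) ln14_12_1 ln14_12_1_ok) (L (nat_lit 428) ln11_13_0 ln11_13_0_ok)))))))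 (M (nat_lit 399) (B (M (nat_lit 363) (B (L (nat_lit 362) ln14_12_3 ln14_12_3_ok) (L (nat_lit 364) ln15_12_3 ln15_12_3_ok))) (M (nat_lit 367) (B (L (nat_lit 366) ln11_12_2 ln11_12_2_ok) (L (nat_lit 368) ln12_12_2 ln12_12_2_ok))))))))))))))))
theorem c31_s3291 : Sem (nat_lit 1386334847544579281930502452632026696468783264124728123740719198963059283254184240648144927045128292788721448874933630659377233920) (nat_lit 166226866848161511309557600227592476835124969255852268346820466373149259572205432972820674209471089503291843516872165741532378476125556599097900662784) (nat_lit 166226866848161511309557600227592476835124969255852268346820466373149259572205432972820674209471089503291843516872165741532378476125556599097900662784) :=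
  sem_of_chk (M (nat_lit 430) (B (M (nat_lit 431) (B (L (nat_lit 432) ln16_13_3 ln16_13_3_ok) (M (nat_lit 395) (B (L (nat_lit 394) ln10_12_0 ln10_12_0_ok) (L (nat_lit 428) ln15_13_3 ln15_13_3_ok))))) (B (M (nat_lit 431) (B (L (nat_lit 432) ln16_13_3 ln16_13_3_ok) (M (nat_lit 395) (B (L (nat_lit 398) ln11_12_0 ln11_12_0_ok) (L (nat_lit 428) ln15_13_3 ln15_13_3_ok))))) (B (M (nat_lit 399) (B (M (nat_lit 431) (B (L (nat_lit 432) ln16_13_3 ln16_13_3_ok) (M (nat_lit 428) (B (L (nat_lit 400) ln12_13_2 ln12_13_2_ok) (M (nat_lit 427) (B (L (nat_lit 398) ln15_12_1 ln15_12_1_ok) (M (nat_lit 459) (B (L (nat_lit 458) ln14_13_1 ln14_13_1_ok) (L (nat_lit 460) ln15_13_1 ln15_13_1_ok))))))))) (B (M (nat_lit 431) (B (L (nat_lit 432) ln16_13_3 ln16_13_3_ok) (M (nat_lit 428) (B (L (nat_lit 400) ln12_13_2 ln12_13_2_ok) (M (nat_lit 460) (B (L (nat_lit 459) ln15_13_1 ln15_13_1_ok) (M (nat_lit 365) (B (L (nat_lit 333) ln13_10_5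 ln13_10_5_ok) (L (nat_lit 492) ln12_15_6 ln12_15_6_ok))))))))) (B (M (nat_lit 398) (B (M (nat_lit 431) (B (L (nat_lit 432) ln12_12_0 ln12_12_0_ok) (M (nat_lit 367) (B (L (nat_lit 368) ln12_12_2 ln12_12_2_ok) (M (nat_lit 335) (B (L (nat_lit 303) ln15_9_5 ln15_9_5_ok) (L (nat_lit 462) ln15_10_5 ln15_10_5_ok))))))) (B (M (nat_lit 431) (B (L (nat_lit 432) ln12_12_0 ln12_12_0_ok) (M (nat_lit 367) (B (L (nat_lit 368) ln12_12_2 ln12_12_2_ok) (M (nat_lit 462) (B (L (nat_lit 335) ln15_10_5 ln15_10_5_ok) (L (nat_lit 494) ln14_15_6 ln14_15_6_ok))))))) (B (M (nat_lit 428) (B (L (nat_lit 427) ln15_12_1 ln15_12_1_ok) (M (nat_lit 460) (B (M (nat_lit 365) (B (L (nat_lit 333) ln13_10_5 ln13_10_5_ok) (L (nat_lit 492) ln12_15_6 ln12_15_6_ok))) (M (nat_lit 431) (B (L (nat_lit 432) ln12_12_0 ln12_12_0_ok) (L (nat_lit 459) ln15_13_1 ln15_13_1_ok))))))) (M (nat_lit 367) (B (L (nat_lit 368) ln12_12_2 ln12_12_2_ok) (M (nat_lit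 462) (B (L (nat_lit 494) ln14_15_6 ln14_15_6_ok) (M (nat_lit 335) (B (L (nat_lit 303) ln15_9_5 ln15_9_5_ok) (L (nat_lit 366) ln14_14_6 ln14_14_6_ok))))))))))) (B (M (nat_lit 431) (B (L (nat_lit 432) ln16_13_3 ln16_13_3_ok) (M (nat_lit 398) (B (M (nat_lit 364) (B (L (nat_lit 363) ln15_12_3 ln15_12_3_ok) (M (nat_lit 400) (B (L (nat_lit 365) ln16_12_3 ln16_12_3_ok) (L (nat_lit 401) ln17_12_1 ln17_12_1_ok))))) (B (M (nat_lit 400) (B (L (nat_lit 401) ln17_12_1 ln17_12_1_ok) (M (nat_lit 368) (B (L (nat_lit 367) ln12_12_2 ln12_12_2_ok) (L (nat_lit 369) ln13_12_2 ln13_12_2_ok))))) (M (nat_lit 367) (B (L (nat_lit 368) ln12_12_2 ln12_12_2_ok) (M (nat_lit 335) (B (L (nat_lit 303) ln15_9_5 ln15_9_5_ok) (L (nat_lit 462) ln15_10_5 ln15_10_5_ok)))))))))) (M (nat_lit 398) (B (M (nat_lit 428) (B (L (nat_lit 427) ln15_12_1 ln15_12_1_ok) (L (nat_lit 400) ln16_12_1 ln16_12_1_ok))) (M (nat_lit 367) (B (L (nat_lit 368) ln12_12_2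 ln12_12_2_ok) (M (nat_lit 462) (B (L (nat_lit 494) ln14_15_6 ln14_15_6_ok) (M (nat_lit 335) (B (L (nat_lit 303) ln15_9_5 ln15_9_5_ok) (L (nat_lit 366) ln14_14_6 ln14_14_6_ok)))))))))))))) (B (M (nat_lit 395) (B (L (nat_lit 394) ln10_12_0 ln10_12_0_ok) (M (nat_lit 431) (B (L (nat_lit 398) ln11_12_0 ln11_12_0_ok) (L (nat_lit 432) ln16_13_3 ln16_13_3_ok))))) (M (nat_lit 398) (B (M (nat_lit 395) (B (L (nat_lit 394) ln10_12_0 ln10_12_0_ok) (M (nat_lit 427) (B (L (nat_lit 426) ln14_12_1 ln14_12_1_ok) (M (nat_lit 399) (B (L (nat_lit 428) ln15_12_1 ln15_12_1_ok) (M (nat_lit 363) (B (L (nat_lit 362) ln14_12_3 ln14_12_3_ok) (L (nat_lit 364) ln15_12_3 ln15_12_3_ok))))))))) (B (M (nat_lit 428) (B (M (nat_lit 399) (B (L (nat_lit 427) ln15_12_1 ln15_12_1_ok) (L (nat_lit 400) ln16_12_1 ln16_12_1_ok))) (B (M (nat_lit 462) (B (M (nat_lit 365) (B (L (nat_lit 333) ln13_10_4 ln13_10_4_ok) (L (nat_lit 494) ln14_15_7 ln14_15_7_ok)))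 (M (nat_lit 427) (B (L (nat_lit 426) ln10_13_2 ln10_13_2_ok) (L (nat_lit 463) ln11_13_0 ln11_13_0_ok))))) (M (nat_lit 367) (B (M (nat_lit 395) (B (L (nat_lit 366) ln11_12_2 ln11_12_2_ok) (L (nat_lit 394) ln10_12_0 ln10_12_0_ok))) (M (nat_lit 399) (B (L (nat_lit 368) ln12_12_2 ln12_12_2_ok) (L (nat_lit 400) ln16_12_1 ln16_12_1_ok)))))))) (B (M (nat_lit 399) (B (M (nat_lit 428) (B (L (nat_lit 427) ln15_12_1 ln15_12_1_ok) (L (nat_lit 400) ln16_12_1 ln16_12_1_ok))) (M (nat_lit 395) (B (M (nat_lit 363) (B (L (nat_lit 362) ln14_12_3 ln14_12_3_ok) (L (nat_lit 364) ln15_12_3 ln15_12_3_ok))) (M (nat_lit 367) (B (L (nat_lit 366) ln11_12_2 ln11_12_2_ok) (L (nat_lit 368) ln12_12_2 ln12_12_2_ok))))))) (B (M (nat_lit 399) (B (M (nat_lit 428) (B (L (nat_lit 427) ln15_12_1 ln15_12_1_ok) (L (nat_lit 400) ln16_12_1 ln16_12_1_ok))) (M (nat_lit 367) (B (L (nat_lit 368) ln12_12_2 ln12_12_2_ok) (M (nat_lit 462) (B (L (nat_lit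 494) ln14_15_6 ln14_15_6_ok) (M (nat_lit 335) (B (L (nat_lit 303) ln15_9_5 ln15_9_5_ok) (L (nat_lit 366) ln14_14_6 ln14_14_6_ok))))))))) (B (M (nat_lit 395) (B (L (nat_lit 394) ln10_12_0 ln10_12_0_ok) (M (nat_lit 462) (B (M (nat_lit 365) (B (L (nat_lit 333) ln13_10_4 ln13_10_4_ok) (L (nat_lit 494) ln14_15_7 ln14_15_7_ok))) (M (nat_lit 463) (B (M (nat_lit 366) (B (L (nat_lit 367) ln11_12_2 ln11_12_2_ok) (L (nat_lit 495) ln14_11_4 ln14_11_4_ok))) (M (nat_lit 427) (B (L (nat_lit 426) ln14_12_1 ln14_12_1_ok) (L (nat_lit 428) ln11_13_0 ln11_13_0_ok))))))))) (M (nat_lit 395) (B (L (nat_lit 394) ln10_12_0 ln10_12_0_ok) (M (nat_lit 399) (B (M (nat_lit 363) (B (L (nat_lit 362) ln14_12_3 ln14_12_3_ok) (L (nat_lit 364) ln15_12_3 ln15_12_3_ok))) (M (nat_lit 367) (B (L (nat_lit 366) ln11_12_2 ln11_12_2_ok) (L (nat_lit 368) ln12_12_2 ln12_12_2_ok)))))))))))))))))) (nat_lit 1386334847544579281930502452632026696468783264124728123740719198963059283254184240648144927045128292788721448874933630659377233920)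 (nat_lit 166226866848161511309557600227592476835124969255852268346820466373149259572205432972820674209471089503291843516872165741532378476125556599097900662784) (nat_lit 166226866848161511309557600227592476835124969255852268346820466373149259572205432972820674209471089503291843516872165741532378476125556599097900662784) (by decide +kernel)
theorem c31_s3327 : Sem (nat_lit 1386334847544579281930502452632026696468783264124728123740719198963059283254184240648144927045128292788721448874933630659377233920) (nat_lit 274591906571451255447437543272813328918369888839654731829233106095764515548104381081274528163314971279313663282035180652647086114474035334069728049373967810560) (nat_lit 274591906571451255447437543272813328918369888839654731829233106095764515548104381081274528163314971279313663282035180652647086114474035334069728049373967810560) :=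
  sem_of_chk (M (nat_lit 430) (B (M (nat_lit 395) (B (L (nat_lit 394) ln10_12_0 ln10_12_0_ok) (M (nat_lit 431) (B (L (nat_lit 398) ln11_12_0 ln11_12_0_ok) (L (nat_lit 432) ln16_13_3 ln16_13_3_ok))))) (B (M (nat_lit 431) (B (L (nat_lit 432) ln16_13_3 ln16_13_3_ok) (M (nat_lit 395) (B (L (nat_lit 398) ln11_12_0 ln11_12_0_ok) (L (nat_lit 428) ln15_13_3 ln15_13_3_ok))))) (B (M (nat_lit 399) (B (M (nat_lit 431) (B (L (nat_lit 432) ln16_13_3 ln16_13_3_ok) (M (nat_lit 428) (B (L (nat_lit 400) ln12_13_2 ln12_13_2_ok) (M (nat_lit 427) (B (L (nat_lit 398) ln15_12_1 ln15_12_1_ok) (M (nat_lit 459) (B (L (nat_lit 458) ln14_13_1 ln14_13_1_ok) (L (nat_lit 460) ln15_13_1 ln15_13_1_ok))))))))) (B (M (nat_lit 431) (B (L (nat_lit 432) ln16_13_3 ln16_13_3_ok) (M (nat_lit 428) (B (L (nat_lit 400) ln12_13_2 ln12_13_2_ok) (M (nat_lit 460) (B (L (nat_lit 459) ln15_13_1 ln15_13_1_ok) (M (nat_lit 492) (B (L (nat_lit 365) ln12_15_6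 ln12_15_6_ok) (L (nat_lit 524) ln12_16_6 ln12_16_6_ok))))))))) (B (M (nat_lit 398) (B (M (nat_lit 431) (B (L (nat_lit 432) ln12_12_0 ln12_12_0_ok) (M (nat_lit 367) (B (L (nat_lit 368) ln12_12_2 ln12_12_2_ok) (M (nat_lit 335) (B (L (nat_lit 303) ln15_9_5 ln15_9_5_ok) (L (nat_lit 462) ln15_10_5 ln15_10_5_ok))))))) (B (M (nat_lit 431) (B (L (nat_lit 432) ln12_12_0 ln12_12_0_ok) (M (nat_lit 367) (B (L (nat_lit 368) ln12_12_2 ln12_12_2_ok) (M (nat_lit 462) (B (L (nat_lit 335) ln15_10_5 ln15_10_5_ok) (L (nat_lit 494) ln14_15_6 ln14_15_6_ok))))))) (B (M (nat_lit 428) (B (L (nat_lit 427) ln15_12_1 ln15_12_1_ok) (M (nat_lit 460) (B (M (nat_lit 492) (B (L (nat_lit 365) ln12_15_6 ln12_15_6_ok) (L (nat_lit 524) ln12_16_6 ln12_16_6_ok))) (M (nat_lit 431) (B (L (nat_lit 432) ln12_12_0 ln12_12_0_ok) (L (nat_lit 459) ln15_13_1 ln15_13_1_ok))))))) (M (nat_lit 367) (B (L (nat_lit 368) ln12_12_2 ln12_12_2_ok) (M (nat_lit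 462) (B (L (nat_lit 494) ln14_15_6 ln14_15_6_ok) (M (nat_lit 335) (B (L (nat_lit 303) ln15_9_5 ln15_9_5_ok) (L (nat_lit 366) ln14_14_6 ln14_14_6_ok))))))))))) (B (M (nat_lit 431) (B (L (nat_lit 432) ln16_13_3 ln16_13_3_ok) (M (nat_lit 398) (B (M (nat_lit 364) (B (L (nat_lit 363) ln15_12_3 ln15_12_3_ok) (M (nat_lit 400) (B (L (nat_lit 365) ln16_12_3 ln16_12_3_ok) (L (nat_lit 401) ln17_12_1 ln17_12_1_ok))))) (M (nat_lit 367) (B (L (nat_lit 368) ln12_12_2 ln12_12_2_ok) (M (nat_lit 335) (B (L (nat_lit 303) ln15_9_5 ln15_9_5_ok) (L (nat_lit 462) ln15_10_5 ln15_10_5_ok))))))))) (M (nat_lit 398) (B (M (nat_lit 428) (B (L (nat_lit 427) ln15_12_1 ln15_12_1_ok) (L (nat_lit 400) ln16_12_1 ln16_12_1_ok))) (M (nat_lit 367) (B (L (nat_lit 368) ln12_12_2 ln12_12_2_ok) (M (nat_lit 462) (B (L (nat_lit 494) ln14_15_6 ln14_15_6_ok) (M (nat_lit 335) (B (L (nat_lit 303) ln15_9_5 ln15_9_5_ok) (L (nat_lit 366) ln14_14_6 ln14_14_6_ok))))))))))))))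 (B (M (nat_lit 431) (B (L (nat_lit 432) ln16_13_3 ln16_13_3_ok) (M (nat_lit 395) (B (L (nat_lit 394) ln10_12_0 ln10_12_0_ok) (L (nat_lit 428) ln15_13_3 ln15_13_3_ok))))) (M (nat_lit 398) (B (M (nat_lit 395) (B (L (nat_lit 394) ln10_12_0 ln10_12_0_ok) (M (nat_lit 427) (B (L (nat_lit 426) ln14_12_1 ln14_12_1_ok) (M (nat_lit 399) (B (L (nat_lit 428) ln15_12_1 ln15_12_1_ok) (M (nat_lit 363) (B (L (nat_lit 362) ln14_12_3 ln14_12_3_ok) (L (nat_lit 364) ln15_12_3 ln15_12_3_ok))))))))) (B (M (nat_lit 428) (B (M (nat_lit 399) (B (L (nat_lit 427) ln15_12_1 ln15_12_1_ok) (L (nat_lit 400) ln16_12_1 ln16_12_1_ok))) (B (M (nat_lit 462) (B (M (nat_lit 494) (B (L (nat_lit 365) ln14_15_7 ln14_15_7_ok) (L (nat_lit 526) ln14_16_7 ln14_16_7_ok))) (M (nat_lit 427) (B (L (nat_lit 426) ln10_13_2 ln10_13_2_ok) (L (nat_lit 463) ln11_13_0 ln11_13_0_ok))))) (M (nat_lit 367) (B (M (nat_lit 395) (B (L (nat_lit 366) ln11_12_2 ln11_12_2_ok)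 (L (nat_lit 394) ln10_12_0 ln10_12_0_ok))) (M (nat_lit 399) (B (L (nat_lit 368) ln12_12_2 ln12_12_2_ok) (L (nat_lit 400) ln16_12_1 ln16_12_1_ok)))))))) (B (M (nat_lit 399) (B (M (nat_lit 428) (B (L (nat_lit 427) ln15_12_1 ln15_12_1_ok) (L (nat_lit 400) ln16_12_1 ln16_12_1_ok))) (M (nat_lit 395) (B (M (nat_lit 363) (B (L (nat_lit 362) ln14_12_3 ln14_12_3_ok) (L (nat_lit 364) ln15_12_3 ln15_12_3_ok))) (M (nat_lit 367) (B (L (nat_lit 366) ln11_12_2 ln11_12_2_ok) (L (nat_lit 368) ln12_12_2 ln12_12_2_ok))))))) (B (M (nat_lit 399) (B (M (nat_lit 428) (B (L (nat_lit 427) ln15_12_1 ln15_12_1_ok) (L (nat_lit 400) ln16_12_1 ln16_12_1_ok))) (M (nat_lit 367) (B (L (nat_lit 368) ln12_12_2 ln12_12_2_ok) (M (nat_lit 462) (B (L (nat_lit 494) ln14_15_6 ln14_15_6_ok) (M (nat_lit 335) (B (L (nat_lit 303) ln15_9_5 ln15_9_5_ok) (L (nat_lit 366) ln14_14_6 ln14_14_6_ok))))))))) (B (M (nat_lit 395) (B (L (nat_lit 394) ln10_12_0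 ln10_12_0_ok) (M (nat_lit 462) (B (M (nat_lit 494) (B (L (nat_lit 365) ln14_15_7 ln14_15_7_ok) (L (nat_lit 526) ln14_16_7 ln14_16_7_ok))) (M (nat_lit 463) (B (M (nat_lit 366) (B (L (nat_lit 367) ln11_12_2 ln11_12_2_ok) (L (nat_lit 495) ln14_11_4 ln14_11_4_ok))) (M (nat_lit 427) (B (L (nat_lit 426) ln14_12_1 ln14_12_1_ok) (L (nat_lit 428) ln11_13_0 ln11_13_0_ok))))))))) (M (nat_lit 395) (B (L (nat_lit 394) ln10_12_0 ln10_12_0_ok) (M (nat_lit 399) (B (M (nat_lit 363) (B (L (nat_lit 362) ln14_12_3 ln14_12_3_ok) (L (nat_lit 364) ln15_12_3 ln15_12_3_ok))) (M (nat_lit 367) (B (L (nat_lit 366) ln11_12_2 ln11_12_2_ok) (L (nat_lit 368) ln12_12_2 ln12_12_2_ok)))))))))))))))))) (nat_lit 1386334847544579281930502452632026696468783264124728123740719198963059283254184240648144927045128292788721448874933630659377233920) (nat_lit 274591906571451255447437543272813328918369888839654731829233106095764515548104381081274528163314971279313663282035180652647086114474035334069728049373967810560)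 (nat_lit 274591906571451255447437543272813328918369888839654731829233106095764515548104381081274528163314971279313663282035180652647086114474035334069728049373967810560) (by decide +kernel)
noncomputable def c31_n3380 : Cert := (M (nat_lit 398) (B (M (nat_lit 395) (B (L (nat_lit 394) ln10_12_0 ln10_12_0_ok) (M (nat_lit 399) (B (M (nat_lit 367) (B (L (nat_lit 366) ln11_12_2 ln11_12_2_ok) (L (nat_lit 368) ln12_12_2 ln12_12_2_ok))) (M (nat_lit 427) (B (L (nat_lit 426) ln14_12_1 ln14_12_1_ok) (L (nat_lit 428) ln15_12_1 ln15_12_1_ok))))))) (B (M (nat_lit 399) (B (M (nat_lit 428) (B (L (nat_lit 427) ln15_12_1 ln15_12_1_ok) (L (nat_lit 400) ln16_12_1 ln16_12_1_ok))) (B (M (nat_lit 427) (B (L (nat_lit 428) ln15_12_1 ln15_12_1_ok) (M (nat_lit 395) (B (L (nat_lit 394) ln10_12_0 ln10_12_0_ok) (L (nat_lit 426) ln14_12_1 ln14_12_1_ok))))) (B (M (nat_lit 364) (B (L (nat_lit 363) ln15_12_3 ln15_12_3_ok) (M (nat_lit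 400) (B (L (nat_lit 365) ln16_12_3 ln16_12_3_ok) (L (nat_lit 428) ln16_12_1 ln16_12_1_ok))))) (M (nat_lit 365) (B (M (nat_lit 333) (B (L (nat_lit 301) ln13_9_4 ln13_9_4_ok) (L (nat_lit 462) ln13_10_4 ln13_10_4_ok))) (M (nat_lit 364) (B (L (nat_lit 363) ln15_12_3 ln15_12_3_ok) (L (nat_lit 400) ln16_12_3 ln16_12_3_ok))))))))) (B (M (nat_lit 399) (B (M (nat_lit 428) (B (L (nat_lit 427) ln15_12_1 ln15_12_1_ok) (L (nat_lit 400) ln16_12_1 ln16_12_1_ok))) (B (M (nat_lit 395) (B (M (nat_lit 367) (B (L (nat_lit 366) ln11_12_2 ln11_12_2_ok) (L (nat_lit 368) ln12_12_2 ln12_12_2_ok))) (M (nat_lit 427) (B (L (nat_lit 426) ln14_12_1 ln14_12_1_ok) (L (nat_lit 428) ln15_12_1 ln15_12_1_ok))))) (B (M (nat_lit 364) (B (L (nat_lit 363) ln15_12_3 ln15_12_3_ok) (M (nat_lit 400) (B (L (nat_lit 365) ln16_12_3 ln16_12_3_ok) (L (nat_lit 428) ln16_12_1 ln16_12_1_ok))))) (M (nat_lit 365) (B (M (nat_lit 333) (B (L (nat_lit 301)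 ln13_9_4 ln13_9_4_ok) (L (nat_lit 462) ln13_10_4 ln13_10_4_ok))) (M (nat_lit 364) (B (L (nat_lit 363) ln15_12_3 ln15_12_3_ok) (L (nat_lit 400) ln16_12_3 ln16_12_3_ok))))))))) (B (M (nat_lit 428) (B (M (nat_lit 399) (B (L (nat_lit 427) ln15_12_1 ln15_12_1_ok) (L (nat_lit 400) ln16_12_1 ln16_12_1_ok))) (B (M (nat_lit 462) (B (M (nat_lit 365) (B (L (nat_lit 333) ln13_10_4 ln13_10_4_ok) (L (nat_lit 494) ln14_15_7 ln14_15_7_ok))) (M (nat_lit 427) (B (L (nat_lit 426) ln10_13_2 ln10_13_2_ok) (L (nat_lit 463) ln11_13_0 ln11_13_0_ok))))) (M (nat_lit 333) (B (M (nat_lit 365) (B (L (nat_lit 301) ln13_9_5 ln13_9_5_ok) (L (nat_lit 460) ln13_10_5 ln13_10_5_ok))) (B (M (nat_lit 365) (B (L (nat_lit 460) ln13_10_5 ln13_10_5_ok) (L (nat_lit 462) ln13_10_4 ln13_10_4_ok))) (M (nat_lit 364) (B (M (nat_lit 332) (B (L (nat_lit 300) ln12_9_4 ln12_9_4_ok) (L (nat_lit 301) ln12_13_6 ln12_13_6_ok))) (M (nat_lit 399) (B (L (nat_lit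 363) ln15_12_3 ln15_12_3_ok) (L (nat_lit 400) ln16_12_1 ln16_12_1_ok))))))))))) (B (M (nat_lit 395) (B (L (nat_lit 394) ln10_12_0 ln10_12_0_ok) (M (nat_lit 462) (B (M (nat_lit 494) (B (L (nat_lit 365) ln14_15_7 ln14_15_7_ok) (L (nat_lit 526) ln14_16_7 ln14_16_7_ok))) (M (nat_lit 463) (B (M (nat_lit 366) (B (L (nat_lit 367) ln11_12_2 ln11_12_2_ok) (L (nat_lit 495) ln14_11_4 ln14_11_4_ok))) (M (nat_lit 427) (B (L (nat_lit 426) ln14_12_1 ln14_12_1_ok) (L (nat_lit 428) ln11_13_0 ln11_13_0_ok))))))))) (B (M (nat_lit 399) (B (M (nat_lit 428) (B (L (nat_lit 427) ln15_12_1 ln15_12_1_ok) (L (nat_lit 400) ln16_12_1 ln16_12_1_ok))) (M (nat_lit 395) (B (L (nat_lit 394) ln10_12_0 ln10_12_0_ok) (M (nat_lit 367) (B (L (nat_lit 366) ln11_12_2 ln11_12_2_ok) (L (nat_lit 368) ln12_12_2 ln12_12_2_ok))))))) (M (nat_lit 399) (B (M (nat_lit 395) (B (L (nat_lit 394) ln10_12_0 ln10_12_0_ok) (M (nat_lit 367) (B (L (nat_lit 366)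 ln11_12_2 ln11_12_2_ok) (L (nat_lit 368) ln12_12_2 ln12_12_2_ok))))) (M (nat_lit 365) (B (M (nat_lit 333) (B (L (nat_lit 301) ln13_9_4 ln13_9_4_ok) (L (nat_lit 462) ln13_10_4 ln13_10_4_ok))) (M (nat_lit 364) (B (L (nat_lit 363) ln15_12_3 ln15_12_3_ok) (L (nat_lit 400) ln16_12_3 ln16_12_3_ok))))))))))))))
theorem c31_s3381 : Sem (nat_lit 1386334847544579281930502452632026696468783264124728123740719198963059283254184240648144927045128292788721448874933630659377233920) (nat_lit 219673525290406377727954478307088179830952435936325560969234255473261038496977058505506971428825539220119982410972123615366846080789364058185017034869552709632) (nat_lit 219673525290406377727954478307088179830952435936325560969234255473261038496977058505506971428825539220119982410972123615366846080789364058185017034869552709632) :=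
  sem_of_chk (M (nat_lit 430) (B (M (nat_lit 431) (B (L (nat_lit 432) ln16_13_3 ln16_13_3_ok) (M (nat_lit 395) (B (L (nat_lit 394) ln10_12_0 ln10_12_0_ok) (L (nat_lit 428) ln15_13_3 ln15_13_3_ok))))) (B (M (nat_lit 431) (B (L (nat_lit 432) ln16_13_3 ln16_13_3_ok) (M (nat_lit 395) (B (L (nat_lit 398) ln11_12_0 ln11_12_0_ok) (L (nat_lit 428) ln15_13_3 ln15_13_3_ok))))) (B (M (nat_lit 431) (B (L (nat_lit 432) ln16_13_3 ln16_13_3_ok) (M (nat_lit 428) (B (M (nat_lit 460) (B (L (nat_lit 459) ln15_13_1 ln15_13_1_ok) (M (nat_lit 365) (B (L (nat_lit 333) ln13_10_5 ln13_10_5_ok) (L (nat_lit 492) ln12_15_6 ln12_15_6_ok))))) (B (M (nat_lit 427) (B (M (nat_lit 399) (B (L (nat_lit 398) ln15_12_1 ln15_12_1_ok) (L (nat_lit 400) ln12_13_2 ln12_13_2_ok))) (M (nat_lit 459) (B (L (nat_lit 458) ln14_13_1 ln14_13_1_ok) (L (nat_lit 460) ln15_13_1 ln15_13_1_ok))))) (B (M (nat_lit 364) (B (M (nat_lit 399) (B (L (nat_lit 400)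 ln12_13_2 ln12_13_2_ok) (M (nat_lit 398) (B (L (nat_lit 363) ln15_12_3 ln15_12_3_ok) (L (nat_lit 427) ln15_12_1 ln15_12_1_ok))))) (M (nat_lit 333) (B (M (nat_lit 332) (B (L (nat_lit 300) ln12_9_4 ln12_9_4_ok) (L (nat_lit 301) ln12_13_6 ln12_13_6_ok))) (B (M (nat_lit 301) (B (L (nat_lit 332) ln12_13_6 ln12_13_6_ok) (L (nat_lit 365) ln13_9_5 ln13_9_5_ok))) (M (nat_lit 365) (B (L (nat_lit 460) ln12_14_6 ln12_14_6_ok) (L (nat_lit 462) ln13_10_4 ln13_10_4_ok)))))))) (M (nat_lit 427) (B (M (nat_lit 399) (B (L (nat_lit 398) ln15_12_1 ln15_12_1_ok) (L (nat_lit 400) ln12_13_2 ln12_13_2_ok))) (M (nat_lit 426) (B (L (nat_lit 425) ln9_13_2 ln9_13_2_ok) (M (nat_lit 458) (B (L (nat_lit 457) ln13_13_1 ln13_13_1_ok) (L (nat_lit 459) ln14_13_1 ln14_13_1_ok))))))))))))) (B (M (nat_lit 395) (B (L (nat_lit 394) ln10_12_0 ln10_12_0_ok) (M (nat_lit 431) (B (L (nat_lit 398) ln11_12_0 ln11_12_0_ok) (L (nat_lit 432) ln16_13_3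 ln16_13_3_ok))))) c31_n3380))))) (nat_lit 1386334847544579281930502452632026696468783264124728123740719198963059283254184240648144927045128292788721448874933630659377233920) (nat_lit 219673525290406377727954478307088179830952435936325560969234255473261038496977058505506971428825539220119982410972123615366846080789364058185017034869552709632) (nat_lit 219673525290406377727954478307088179830952435936325560969234255473261038496977058505506971428825539220119982410972123615366846080789364058185017034869552709632) (by decide +kernel)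
theorem c31_s3408 : Sem (nat_lit 1386334847544579281930502452632026696468783264124728123740719198963059283254184240648144927045128292788721448874933630659377233920) (nat_lit 274591906571451255447437543272813328918369888840829003120637520715511594013846698584951847300068775326436557404080023202556942241098188603247427179718486523904) (nat_lit 274591906571451255447437543272813328918369888840829003120637520715511594013846698584951847300068775326436557404080023202556942241098188603247427179718486523904) :=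
  sem_of_chk (M (nat_lit 430) (B (M (nat_lit 395) (B (L (nat_lit 394) ln10_12_0 ln10_12_0_ok) (M (nat_lit 431) (B (L (nat_lit 398) ln11_12_0 ln11_12_0_ok) (L (nat_lit 432) ln16_13_3 ln16_13_3_ok))))) (B (M (nat_lit 431) (B (L (nat_lit 432) ln16_13_3 ln16_13_3_ok) (M (nat_lit 395) (B (L (nat_lit 398) ln11_12_0 ln11_12_0_ok) (L (nat_lit 428) ln15_13_3 ln15_13_3_ok))))) (B (M (nat_lit 399) (B (M (nat_lit 431) (B (L (nat_lit 432) ln16_13_3 ln16_13_3_ok) (M (nat_lit 428) (B (L (nat_lit 400) ln12_13_2 ln12_13_2_ok) (M (nat_lit 427) (B (L (nat_lit 398) ln15_12_1 ln15_12_1_ok) (M (nat_lit 459) (B (L (nat_lit 458) ln14_13_1 ln14_13_1_ok) (L (nat_lit 460) ln15_13_1 ln15_13_1_ok))))))))) (B (M (nat_lit 431) (B (L (nat_lit 432) ln16_13_3 ln16_13_3_ok) (M (nat_lit 428) (B (L (nat_lit 400) ln12_13_2 ln12_13_2_ok) (M (nat_lit 460) (B (L (nat_lit 459) ln15_13_1 ln15_13_1_ok) (M (nat_lit 492) (B (L (nat_lit 365) ln12_15_6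 ln12_15_6_ok) (L (nat_lit 524) ln12_16_6 ln12_16_6_ok))))))))) (B (M (nat_lit 398) (B (M (nat_lit 431) (B (L (nat_lit 432) ln12_12_0 ln12_12_0_ok) (M (nat_lit 367) (B (L (nat_lit 368) ln12_12_2 ln12_12_2_ok) (M (nat_lit 335) (B (L (nat_lit 303) ln15_9_5 ln15_9_5_ok) (L (nat_lit 462) ln15_10_5 ln15_10_5_ok))))))) (B (M (nat_lit 431) (B (L (nat_lit 432) ln12_12_0 ln12_12_0_ok) (M (nat_lit 367) (B (L (nat_lit 368) ln12_12_2 ln12_12_2_ok) (M (nat_lit 462) (B (L (nat_lit 335) ln15_10_5 ln15_10_5_ok) (L (nat_lit 494) ln14_15_6 ln14_15_6_ok))))))) (B (M (nat_lit 428) (B (L (nat_lit 427) ln15_12_1 ln15_12_1_ok) (M (nat_lit 460) (B (M (nat_lit 492) (B (L (nat_lit 365) ln12_15_6 ln12_15_6_ok) (L (nat_lit 524) ln12_16_6 ln12_16_6_ok))) (M (nat_lit 431) (B (L (nat_lit 432) ln12_12_0 ln12_12_0_ok) (L (nat_lit 459) ln15_13_1 ln15_13_1_ok))))))) (M (nat_lit 367) (B (L (nat_lit 368) ln12_12_2 ln12_12_2_ok) (M (nat_lit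 462) (B (L (nat_lit 494) ln14_15_6 ln14_15_6_ok) (M (nat_lit 335) (B (L (nat_lit 303) ln15_9_5 ln15_9_5_ok) (L (nat_lit 366) ln14_14_6 ln14_14_6_ok))))))))))) (B (M (nat_lit 431) (B (L (nat_lit 432) ln16_13_3 ln16_13_3_ok) (M (nat_lit 398) (B (M (nat_lit 400) (B (L (nat_lit 401) ln17_12_1 ln17_12_1_ok) (M (nat_lit 368) (B (L (nat_lit 367) ln12_12_2 ln12_12_2_ok) (L (nat_lit 369) ln13_12_2 ln13_12_2_ok))))) (B (M (nat_lit 365) (B (M (nat_lit 333) (B (L (nat_lit 301) ln13_9_4 ln13_9_4_ok) (L (nat_lit 462) ln13_10_4 ln13_10_4_ok))) (M (nat_lit 400) (B (L (nat_lit 364) ln16_12_3 ln16_12_3_ok) (L (nat_lit 401) ln17_12_1 ln17_12_1_ok))))) (M (nat_lit 367) (B (L (nat_lit 368) ln12_12_2 ln12_12_2_ok) (M (nat_lit 335) (B (L (nat_lit 303) ln15_9_5 ln15_9_5_ok) (L (nat_lit 462) ln15_10_5 ln15_10_5_ok)))))))))) (M (nat_lit 398) (B (M (nat_lit 428) (B (L (nat_lit 427) ln15_12_1 ln15_12_1_ok) (L (nat_lit 400) ln16_12_1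 ln16_12_1_ok))) (M (nat_lit 367) (B (L (nat_lit 368) ln12_12_2 ln12_12_2_ok) (M (nat_lit 462) (B (L (nat_lit 494) ln14_15_6 ln14_15_6_ok) (M (nat_lit 335) (B (L (nat_lit 303) ln15_9_5 ln15_9_5_ok) (L (nat_lit 366) ln14_14_6 ln14_14_6_ok)))))))))))))) (B (M (nat_lit 431) (B (L (nat_lit 432) ln16_13_3 ln16_13_3_ok) (M (nat_lit 395) (B (L (nat_lit 394) ln10_12_0 ln10_12_0_ok) (L (nat_lit 428) ln15_13_3 ln15_13_3_ok))))) (M (nat_lit 398) (B (M (nat_lit 395) (B (L (nat_lit 394) ln10_12_0 ln10_12_0_ok) (M (nat_lit 399) (B (M (nat_lit 367) (B (L (nat_lit 366) ln11_12_2 ln11_12_2_ok) (L (nat_lit 368) ln12_12_2 ln12_12_2_ok))) (M (nat_lit 427) (B (L (nat_lit 426) ln14_12_1 ln14_12_1_ok) (L (nat_lit 428) ln15_12_1 ln15_12_1_ok))))))) (B (M (nat_lit 399) (B (M (nat_lit 428) (B (L (nat_lit 427) ln15_12_1 ln15_12_1_ok) (L (nat_lit 400) ln16_12_1 ln16_12_1_ok))) (B (M (nat_lit 427) (B (L (nat_lit 428) ln15_12_1 ln15_12_1_ok)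 (M (nat_lit 395) (B (L (nat_lit 394) ln10_12_0 ln10_12_0_ok) (L (nat_lit 426) ln14_12_1 ln14_12_1_ok))))) (B (M (nat_lit 400) (B (L (nat_lit 428) ln16_12_1 ln16_12_1_ok) (L (nat_lit 401) ln17_12_1 ln17_12_1_ok))) (M (nat_lit 365) (B (M (nat_lit 333) (B (L (nat_lit 301) ln13_9_4 ln13_9_4_ok) (L (nat_lit 462) ln13_10_4 ln13_10_4_ok))) (M (nat_lit 400) (B (L (nat_lit 364) ln16_12_3 ln16_12_3_ok) (L (nat_lit 401) ln17_12_1 ln17_12_1_ok))))))))) (B (M (nat_lit 399) (B (M (nat_lit 428) (B (L (nat_lit 427) ln15_12_1 ln15_12_1_ok) (L (nat_lit 400) ln16_12_1 ln16_12_1_ok))) (B (M (nat_lit 395) (B (M (nat_lit 367) (B (L (nat_lit 366) ln11_12_2 ln11_12_2_ok) (L (nat_lit 368) ln12_12_2 ln12_12_2_ok))) (M (nat_lit 427) (B (L (nat_lit 426) ln14_12_1 ln14_12_1_ok) (L (nat_lit 428) ln15_12_1 ln15_12_1_ok))))) (B (M (nat_lit 400) (B (L (nat_lit 428) ln16_12_1 ln16_12_1_ok) (L (nat_lit 401) ln17_12_1 ln17_12_1_ok))) (M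 (nat_lit 365) (B (M (nat_lit 333) (B (L (nat_lit 301) ln13_9_4 ln13_9_4_ok) (L (nat_lit 462) ln13_10_4 ln13_10_4_ok))) (M (nat_lit 400) (B (L (nat_lit 364) ln16_12_3 ln16_12_3_ok) (L (nat_lit 401) ln17_12_1 ln17_12_1_ok))))))))) (B (M (nat_lit 399) (B (M (nat_lit 428) (B (L (nat_lit 427) ln15_12_1 ln15_12_1_ok) (L (nat_lit 400) ln16_12_1 ln16_12_1_ok))) (M (nat_lit 367) (B (L (nat_lit 368) ln12_12_2 ln12_12_2_ok) (M (nat_lit 462) (B (L (nat_lit 494) ln14_15_6 ln14_15_6_ok) (M (nat_lit 335) (B (L (nat_lit 303) ln15_9_5 ln15_9_5_ok) (L (nat_lit 366) ln14_14_6 ln14_14_6_ok))))))))) (B (M (nat_lit 395) (B (L (nat_lit 394) ln10_12_0 ln10_12_0_ok) (M (nat_lit 462) (B (M (nat_lit 494) (B (L (nat_lit 365) ln14_15_7 ln14_15_7_ok) (L (nat_lit 526) ln14_16_7 ln14_16_7_ok))) (M (nat_lit 463) (B (M (nat_lit 366) (B (L (nat_lit 367) ln11_12_2 ln11_12_2_ok) (L (nat_lit 495) ln14_11_4 ln14_11_4_ok))) (M (nat_lit 427)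 (B (L (nat_lit 426) ln14_12_1 ln14_12_1_ok) (L (nat_lit 428) ln11_13_0 ln11_13_0_ok))))))))) (B (M (nat_lit 399) (B (M (nat_lit 400) (B (L (nat_lit 428) ln16_12_1 ln16_12_1_ok) (L (nat_lit 401) ln17_12_1 ln17_12_1_ok))) (M (nat_lit 395) (B (L (nat_lit 394) ln10_12_0 ln10_12_0_ok) (M (nat_lit 367) (B (L (nat_lit 366) ln11_12_2 ln11_12_2_ok) (L (nat_lit 368) ln12_12_2 ln12_12_2_ok))))))) (M (nat_lit 399) (B (M (nat_lit 395) (B (L (nat_lit 394) ln10_12_0 ln10_12_0_ok) (M (nat_lit 367) (B (L (nat_lit 366) ln11_12_2 ln11_12_2_ok) (L (nat_lit 368) ln12_12_2 ln12_12_2_ok))))) (M (nat_lit 365) (B (M (nat_lit 333) (B (L (nat_lit 301) ln13_9_4 ln13_9_4_ok) (L (nat_lit 462) ln13_10_4 ln13_10_4_ok))) (M (nat_lit 400) (B (L (nat_lit 364) ln16_12_3 ln16_12_3_ok) (L (nat_lit 401) ln17_12_1 ln17_12_1_ok))))))))))))))))))) (nat_lit 1386334847544579281930502452632026696468783264124728123740719198963059283254184240648144927045128292788721448874933630659377233920)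 (nat_lit 274591906571451255447437543272813328918369888840829003120637520715511594013846698584951847300068775326436557404080023202556942241098188603247427179718486523904) (nat_lit 274591906571451255447437543272813328918369888840829003120637520715511594013846698584951847300068775326436557404080023202556942241098188603247427179718486523904) (by decide +kernel)
theorem c31_s3488 : Sem (nat_lit 1386334847544579281930502452632026696468783264124728123740719198963059283254184240648144927045128292788721448874933630659377233920) (nat_lit 274591906571451255447437543294994686471336407717418739912492805022961535261999899773856628748802500894488743005412779181693328940566506646935129012758871277568) (nat_lit 274591906571451255447437543294994686471336407717418739912492805022961535261999899773856628748802500894488743005412779181693328940566506646935129012758871277568) :=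
  sem_of_chk (M (nat_lit 430) (B (M (nat_lit 431) (B (L (nat_lit 432) ln16_13_3 ln16_13_3_ok) (M (nat_lit 395) (B (L (nat_lit 394) ln10_12_0 ln10_12_0_ok) (L (nat_lit 428) ln15_13_3 ln15_13_3_ok))))) (B (M (nat_lit 431) (B (L (nat_lit 432) ln16_13_3 ln16_13_3_ok) (M (nat_lit 395) (B (L (nat_lit 398) ln11_12_0 ln11_12_0_ok) (L (nat_lit 428) ln15_13_3 ln15_13_3_ok))))) (B (M (nat_lit 399) (B (M (nat_lit 431) (B (L (nat_lit 432) ln16_13_3 ln16_13_3_ok) (M (nat_lit 428) (B (L (nat_lit 400) ln12_13_2 ln12_13_2_ok) (M (nat_lit 427) (B (L (nat_lit 398) ln15_12_1 ln15_12_1_ok) (M (nat_lit 459) (B (L (nat_lit 458) ln14_13_1 ln14_13_1_ok) (L (nat_lit 460) ln15_13_1 ln15_13_1_ok))))))))) (B (M (nat_lit 431) (B (L (nat_lit 432) ln16_13_3 ln16_13_3_ok) (M (nat_lit 428) (B (L (nat_lit 400) ln12_13_2 ln12_13_2_ok) (M (nat_lit 460) (B (L (nat_lit 459) ln15_13_1 ln15_13_1_ok) (M (nat_lit 492) (B (L (nat_lit 365) ln12_15_6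 ln12_15_6_ok) (L (nat_lit 524) ln12_16_6 ln12_16_6_ok))))))))) (B (M (nat_lit 398) (B (M (nat_lit 431) (B (L (nat_lit 432) ln12_12_0 ln12_12_0_ok) (M (nat_lit 367) (B (L (nat_lit 368) ln12_12_2 ln12_12_2_ok) (M (nat_lit 335) (B (L (nat_lit 303) ln15_9_5 ln15_9_5_ok) (L (nat_lit 462) ln15_10_5 ln15_10_5_ok))))))) (B (M (nat_lit 431) (B (L (nat_lit 432) ln12_12_0 ln12_12_0_ok) (M (nat_lit 367) (B (L (nat_lit 368) ln12_12_2 ln12_12_2_ok) (M (nat_lit 462) (B (L (nat_lit 335) ln15_10_5 ln15_10_5_ok) (L (nat_lit 494) ln14_15_6 ln14_15_6_ok))))))) (B (M (nat_lit 428) (B (L (nat_lit 427) ln15_12_1 ln15_12_1_ok) (M (nat_lit 460) (B (M (nat_lit 492) (B (L (nat_lit 365) ln12_15_6 ln12_15_6_ok) (L (nat_lit 524) ln12_16_6 ln12_16_6_ok))) (M (nat_lit 431) (B (L (nat_lit 432) ln12_12_0 ln12_12_0_ok) (L (nat_lit 459) ln15_13_1 ln15_13_1_ok))))))) (M (nat_lit 367) (B (L (nat_lit 368) ln12_12_2 ln12_12_2_ok) (M (nat_lit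 462) (B (L (nat_lit 494) ln14_15_6 ln14_15_6_ok) (M (nat_lit 335) (B (L (nat_lit 303) ln15_9_5 ln15_9_5_ok) (L (nat_lit 366) ln14_14_6 ln14_14_6_ok))))))))))) (B (M (nat_lit 398) (B (M (nat_lit 400) (B (L (nat_lit 401) ln17_12_1 ln17_12_1_ok) (M (nat_lit 432) (B (L (nat_lit 431) ln12_12_0 ln12_12_0_ok) (L (nat_lit 433) ln13_12_0 ln13_12_0_ok))))) (B (M (nat_lit 431) (B (L (nat_lit 432) ln12_12_0 ln12_12_0_ok) (M (nat_lit 367) (B (L (nat_lit 368) ln12_12_2 ln12_12_2_ok) (M (nat_lit 335) (B (L (nat_lit 303) ln15_9_5 ln15_9_5_ok) (L (nat_lit 462) ln15_10_5 ln15_10_5_ok))))))) (M (nat_lit 400) (B (L (nat_lit 401) ln17_12_1 ln17_12_1_ok) (M (nat_lit 368) (B (L (nat_lit 367) ln12_12_2 ln12_12_2_ok) (L (nat_lit 369) ln13_12_2 ln13_12_2_ok)))))))) (M (nat_lit 398) (B (M (nat_lit 428) (B (L (nat_lit 427) ln15_12_1 ln15_12_1_ok) (L (nat_lit 400) ln16_12_1 ln16_12_1_ok))) (M (nat_lit 367) (B (L (nat_lit 368) ln12_12_2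 ln12_12_2_ok) (M (nat_lit 462) (B (L (nat_lit 494) ln14_15_6 ln14_15_6_ok) (M (nat_lit 335) (B (L (nat_lit 303) ln15_9_5 ln15_9_5_ok) (L (nat_lit 366) ln14_14_6 ln14_14_6_ok)))))))))))))) (B (M (nat_lit 395) (B (L (nat_lit 394) ln10_12_0 ln10_12_0_ok) (M (nat_lit 431) (B (L (nat_lit 398) ln11_12_0 ln11_12_0_ok) (L (nat_lit 432) ln16_13_3 ln16_13_3_ok))))) (M (nat_lit 398) (B (M (nat_lit 395) (B (L (nat_lit 394) ln10_12_0 ln10_12_0_ok) (M (nat_lit 399) (B (M (nat_lit 367) (B (L (nat_lit 366) ln11_12_2 ln11_12_2_ok) (L (nat_lit 368) ln12_12_2 ln12_12_2_ok))) (M (nat_lit 427) (B (L (nat_lit 426) ln14_12_1 ln14_12_1_ok) (L (nat_lit 428) ln15_12_1 ln15_12_1_ok))))))) (B (M (nat_lit 427) (B (M (nat_lit 395) (B (L (nat_lit 394) ln10_12_0 ln10_12_0_ok) (L (nat_lit 426) ln14_12_1 ln14_12_1_ok))) (B (M (nat_lit 426) (B (L (nat_lit 395) ln14_12_1 ln14_12_1_ok) (L (nat_lit 428) ln10_13_2 ln10_13_2_ok))) (B (M (nat_lit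 428) (B (L (nat_lit 399) ln15_12_1 ln15_12_1_ok) (L (nat_lit 426) ln10_13_2 ln10_13_2_ok))) (M (nat_lit 462) (B (M (nat_lit 365) (B (L (nat_lit 333) ln13_10_4 ln13_10_4_ok) (L (nat_lit 494) ln14_15_7 ln14_15_7_ok))) (M (nat_lit 428) (B (L (nat_lit 399) ln15_12_1 ln15_12_1_ok) (L (nat_lit 463) ln11_13_0 ln11_13_0_ok))))))))) (B (M (nat_lit 365) (B (M (nat_lit 333) (B (L (nat_lit 301) ln13_9_4 ln13_9_4_ok) (L (nat_lit 462) ln13_10_4 ln13_10_4_ok))) (B (M (nat_lit 462) (B (L (nat_lit 333) ln13_10_4 ln13_10_4_ok) (L (nat_lit 494) ln14_15_7 ln14_15_7_ok))) (B (M (nat_lit 367) (B (M (nat_lit 366) (B (L (nat_lit 368) ln16_11_1 ln16_11_1_ok) (L (nat_lit 395) ln11_12_2 ln11_12_2_ok))) (B (M (nat_lit 399) (B (L (nat_lit 368) ln12_12_2 ln12_12_2_ok) (M (nat_lit 428) (B (L (nat_lit 427) ln15_12_1 ln15_12_1_ok) (L (nat_lit 400) ln16_12_1 ln16_12_1_ok))))) (M (nat_lit 366) (B (L (nat_lit 395) ln11_12_2 ln11_12_2_ok)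 (M (nat_lit 462) (B (L (nat_lit 335) ln14_14_6 ln14_14_6_ok) (L (nat_lit 494) ln14_15_7 ln14_15_7_ok)))))))) (M (nat_lit 428) (B (M (nat_lit 333) (B (L (nat_lit 301) ln13_9_5 ln13_9_5_ok) (L (nat_lit 460) ln13_10_5 ln13_10_5_ok))) (M (nat_lit 427) (B (L (nat_lit 399) ln15_12_1 ln15_12_1_ok) (L (nat_lit 426) ln10_13_2 ln10_13_2_ok))))))))) (B (M (nat_lit 399) (B (M (nat_lit 428) (B (L (nat_lit 427) ln15_12_1 ln15_12_1_ok) (L (nat_lit 400) ln16_12_1 ln16_12_1_ok))) (M (nat_lit 367) (B (L (nat_lit 368) ln12_12_2 ln12_12_2_ok) (M (nat_lit 462) (B (L (nat_lit 494) ln14_15_6 ln14_15_6_ok) (M (nat_lit 335) (B (L (nat_lit 303) ln15_9_5 ln15_9_5_ok) (L (nat_lit 366) ln14_14_6 ln14_14_6_ok))))))))) (B (M (nat_lit 395) (B (L (nat_lit 394) ln10_12_0 ln10_12_0_ok) (M (nat_lit 462) (B (M (nat_lit 494) (B (L (nat_lit 365) ln14_15_7 ln14_15_7_ok) (L (nat_lit 526) ln14_16_7 ln14_16_7_ok))) (M (nat_lit 463) (B (M (nat_lit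 366) (B (L (nat_lit 367) ln11_12_2 ln11_12_2_ok) (L (nat_lit 495) ln14_11_4 ln14_11_4_ok))) (M (nat_lit 427) (B (L (nat_lit 426) ln14_12_1 ln14_12_1_ok) (L (nat_lit 428) ln11_13_0 ln11_13_0_ok))))))))) (M (nat_lit 333) (B (M (nat_lit 365) (B (L (nat_lit 301) ln13_9_4 ln13_9_4_ok) (L (nat_lit 462) ln13_10_4 ln13_10_4_ok))) (B (M (nat_lit 462) (B (L (nat_lit 365) ln13_10_4 ln13_10_4_ok) (M (nat_lit 367) (B (M (nat_lit 366) (B (L (nat_lit 335) ln14_14_6 ln14_14_6_ok) (L (nat_lit 395) ln11_12_2 ln11_12_2_ok))) (M (nat_lit 494) (B (L (nat_lit 399) ln14_15_6 ln14_15_6_ok) (L (nat_lit 526) ln14_16_7 ln14_16_7_ok))))))) (M (nat_lit 366) (B (M (nat_lit 334) (B (L (nat_lit 301) ln14_13_7 ln14_13_7_ok) (L (nat_lit 302) ln14_9_5 ln14_9_5_ok))) (M (nat_lit 395) (B (L (nat_lit 367) ln11_12_2 ln11_12_2_ok) (L (nat_lit 394) ln10_12_0 ln10_12_0_ok))))))))))))))))))) (nat_lit 1386334847544579281930502452632026696468783264124728123740719198963059283254184240648144927045128292788721448874933630659377233920)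 (nat_lit 274591906571451255447437543294994686471336407717418739912492805022961535261999899773856628748802500894488743005412779181693328940566506646935129012758871277568) (nat_lit 274591906571451255447437543294994686471336407717418739912492805022961535261999899773856628748802500894488743005412779181693328940566506646935129012758871277568) (by decide +kernel)
noncomputable def c31_n3596 : Cert := (M (nat_lit 395) (B (M (nat_lit 430) (B (L (nat_lit 394) ln10_12_0 ln10_12_0_ok) (M (nat_lit 431) (B (L (nat_lit 398) ln11_12_0 ln11_12_0_ok) (L (nat_lit 432) ln16_13_3 ln16_13_3_ok))))) (B (M (nat_lit 398) (B (M (nat_lit 399) (B (M (nat_lit 363) (B (L (nat_lit 362) ln14_12_3 ln14_12_3_ok) (L (nat_lit 364) ln15_12_3 ln15_12_3_ok))) (M (nat_lit 427) (B (L (nat_lit 426) ln14_12_1 ln14_12_1_ok) (L (nat_lit 428) ln15_12_1 ln15_12_1_ok))))) (B (M (nat_lit 365) (B (M (nat_lit 430) (B (L (nat_lit 431) ln11_12_0 ln11_12_0_ok)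 (M (nat_lit 462) (B (L (nat_lit 333) ln13_10_4 ln13_10_4_ok) (L (nat_lit 494) ln14_15_7 ln14_15_7_ok))))) (M (nat_lit 399) (B (M (nat_lit 364) (B (L (nat_lit 363) ln15_12_3 ln15_12_3_ok) (L (nat_lit 400) ln16_12_3 ln16_12_3_ok))) (B (M (nat_lit 400) (B (L (nat_lit 364) ln16_12_3 ln16_12_3_ok) (L (nat_lit 428) ln16_12_1 ln16_12_1_ok))) (M (nat_lit 427) (B (L (nat_lit 426) ln14_12_1 ln14_12_1_ok) (L (nat_lit 428) ln15_12_1 ln15_12_1_ok)))))))) (B (M (nat_lit 399) (B (M (nat_lit 427) (B (L (nat_lit 426) ln14_12_1 ln14_12_1_ok) (L (nat_lit 428) ln15_12_1 ln15_12_1_ok))) (B (M (nat_lit 428) (B (L (nat_lit 427) ln15_12_1 ln15_12_1_ok) (L (nat_lit 400) ln16_12_1 ln16_12_1_ok))) (B (M (nat_lit 430) (B (L (nat_lit 431) ln11_12_0 ln11_12_0_ok) (M (nat_lit 400) (B (L (nat_lit 428) ln16_12_1 ln16_12_1_ok) (L (nat_lit 401) ln17_12_1 ln17_12_1_ok))))) (M (nat_lit 400) (B (M (nat_lit 368) (B (L (nat_lit 367) ln12_12_2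 ln12_12_2_ok) (L (nat_lit 369) ln13_12_2 ln13_12_2_ok))) (M (nat_lit 430) (B (L (nat_lit 431) ln11_12_0 ln11_12_0_ok) (L (nat_lit 401) ln17_12_1 ln17_12_1_ok))))))))) (B (M (nat_lit 428) (B (M (nat_lit 427) (B (L (nat_lit 426) ln14_12_1 ln14_12_1_ok) (M (nat_lit 363) (B (L (nat_lit 362) ln14_12_3 ln14_12_3_ok) (M (nat_lit 460) (B (L (nat_lit 331) ln11_10_4 ln11_10_4_ok) (L (nat_lit 492) ln12_15_7 ln12_15_7_ok))))))) (B (M (nat_lit 427) (B (L (nat_lit 426) ln14_12_1 ln14_12_1_ok) (M (nat_lit 459) (B (M (nat_lit 364) (B (L (nat_lit 332) ln12_10_5 ln12_10_5_ok) (L (nat_lit 491) ln11_15_6 ln11_15_6_ok))) (M (nat_lit 430) (B (L (nat_lit 431) ln11_12_0 ln11_12_0_ok) (L (nat_lit 458) ln14_13_1 ln14_13_1_ok))))))) (M (nat_lit 363) (B (L (nat_lit 362) ln14_12_3 ln14_12_3_ok) (M (nat_lit 460) (B (L (nat_lit 492) ln12_15_7 ln12_15_7_ok) (M (nat_lit 331) (B (L (nat_lit 299) ln11_9_4 ln11_9_4_ok) (L (nat_lit 364)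 ln12_14_7 ln12_14_7_ok)))))))))) (B (M (nat_lit 399) (B (M (nat_lit 363) (B (L (nat_lit 362) ln14_12_3 ln14_12_3_ok) (L (nat_lit 364) ln15_12_3 ln15_12_3_ok))) (M (nat_lit 428) (B (L (nat_lit 427) ln15_12_1 ln15_12_1_ok) (L (nat_lit 400) ln16_12_1 ln16_12_1_ok))))) (B (M (nat_lit 430) (B (L (nat_lit 431) ln11_12_0 ln11_12_0_ok) (M (nat_lit 399) (B (M (nat_lit 363) (B (L (nat_lit 362) ln14_12_3 ln14_12_3_ok) (L (nat_lit 364) ln15_12_3 ln15_12_3_ok))) (M (nat_lit 400) (B (L (nat_lit 428) ln16_12_1 ln16_12_1_ok) (L (nat_lit 401) ln17_12_1 ln17_12_1_ok))))))) (M (nat_lit 399) (B (M (nat_lit 363) (B (L (nat_lit 362) ln14_12_3 ln14_12_3_ok) (L (nat_lit 364) ln15_12_3 ln15_12_3_ok))) (M (nat_lit 400) (B (M (nat_lit 368) (B (L (nat_lit 367) ln12_12_2 ln12_12_2_ok) (L (nat_lit 369) ln13_12_2 ln13_12_2_ok))) (M (nat_lit 430) (B (L (nat_lit 431) ln11_12_0 ln11_12_0_ok) (L (nat_lit 401) ln17_12_1 ln17_12_1_ok))))))))))))))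 (B (M (nat_lit 430) (B (L (nat_lit 394) ln10_12_0 ln10_12_0_ok) (M (nat_lit 431) (B (L (nat_lit 428) ln15_13_3 ln15_13_3_ok) (L (nat_lit 432) ln16_13_3 ln16_13_3_ok))))) (M (nat_lit 394) (B (M (nat_lit 393) (B (L (nat_lit 428) ln9_12_0 ln9_12_0_ok) (M (nat_lit 425) (B (L (nat_lit 424) ln12_12_1 ln12_12_1_ok) (L (nat_lit 426) ln13_12_1 ln13_12_1_ok))))) (B (M (nat_lit 398) (B (M (nat_lit 362) (B (L (nat_lit 361) ln13_12_3 ln13_12_3_ok) (L (nat_lit 363) ln14_12_3 ln14_12_3_ok))) (M (nat_lit 426) (B (L (nat_lit 425) ln13_12_1 ln13_12_1_ok) (L (nat_lit 427) ln14_12_1 ln14_12_1_ok))))) (M (nat_lit 393) (B (L (nat_lit 428) ln9_12_0 ln9_12_0_ok) (M (nat_lit 361) (B (L (nat_lit 360) ln12_12_3 ln12_12_3_ok) (L (nat_lit 362) ln13_12_3 ln13_12_3_ok))))))))))))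
noncomputable def c31_n3680 : Cert := (M (nat_lit 398) (B (M (nat_lit 399) (B (M (nat_lit 428) (B (L (nat_lit 427) ln15_12_1 ln15_12_1_ok) (L (nat_lit 400) ln16_12_1 ln16_12_1_ok))) (M (nat_lit 395) (B (M (nat_lit 363) (B (L (nat_lit 362) ln14_12_3 ln14_12_3_ok) (L (nat_lit 364) ln15_12_3 ln15_12_3_ok))) (M (nat_lit 431) (B (L (nat_lit 430) ln11_12_0 ln11_12_0_ok) (L (nat_lit 432) ln12_12_0 ln12_12_0_ok))))))) (B (M (nat_lit 399) (B (M (nat_lit 428) (B (L (nat_lit 427) ln15_12_1 ln15_12_1_ok) (L (nat_lit 400) ln16_12_1 ln16_12_1_ok))) (M (nat_lit 395) (B (M (nat_lit 367) (B (L (nat_lit 366) ln11_12_2 ln11_12_2_ok) (L (nat_lit 368) ln12_12_2 ln12_12_2_ok))) (M (nat_lit 431) (B (L (nat_lit 430) ln11_12_0 ln11_12_0_ok) (L (nat_lit 432) ln12_12_0 ln12_12_0_ok))))))) (B (M (nat_lit 399) (B (M (nat_lit 428) (B (L (nat_lit 427) ln15_12_1 ln15_12_1_ok) (L (nat_lit 400) ln16_12_1 ln16_12_1_ok))) (B (M (nat_lit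 430) (B (M (nat_lit 431) (B (L (nat_lit 432) ln12_12_0 ln12_12_0_ok) (M (nat_lit 367) (B (L (nat_lit 368) ln12_12_2 ln12_12_2_ok) (M (nat_lit 335) (B (L (nat_lit 303) ln15_9_5 ln15_9_5_ok) (L (nat_lit 462) ln15_10_5 ln15_10_5_ok))))))) (B (M (nat_lit 431) (B (L (nat_lit 432) ln12_12_0 ln12_12_0_ok) (M (nat_lit 367) (B (L (nat_lit 368) ln12_12_2 ln12_12_2_ok) (M (nat_lit 462) (B (L (nat_lit 335) ln15_10_5 ln15_10_5_ok) (L (nat_lit 494) ln14_15_6 ln14_15_6_ok))))))) (B (M (nat_lit 428) (B (L (nat_lit 427) ln15_12_1 ln15_12_1_ok) (M (nat_lit 460) (B (M (nat_lit 365) (B (L (nat_lit 333) ln13_10_5 ln13_10_5_ok) (L (nat_lit 492) ln12_15_6 ln12_15_6_ok))) (M (nat_lit 431) (B (L (nat_lit 432) ln12_12_0 ln12_12_0_ok) (L (nat_lit 459) ln15_13_1 ln15_13_1_ok))))))) (M (nat_lit 367) (B (L (nat_lit 368) ln12_12_2 ln12_12_2_ok) (M (nat_lit 462) (B (L (nat_lit 494) ln14_15_6 ln14_15_6_ok) (M (nat_lit 335) (B (L (nat_lit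 303) ln15_9_5 ln15_9_5_ok) (L (nat_lit 366) ln14_14_6 ln14_14_6_ok))))))))))) (B (M (nat_lit 364) (B (L (nat_lit 363) ln15_12_3 ln15_12_3_ok) (M (nat_lit 400) (B (L (nat_lit 365) ln16_12_3 ln16_12_3_ok) (L (nat_lit 428) ln16_12_1 ln16_12_1_ok))))) (M (nat_lit 400) (B (M (nat_lit 364) (B (L (nat_lit 363) ln15_12_3 ln15_12_3_ok) (L (nat_lit 365) ln16_12_3 ln16_12_3_ok))) (M (nat_lit 432) (B (L (nat_lit 431) ln12_12_0 ln12_12_0_ok) (L (nat_lit 433) ln13_12_0 ln13_12_0_ok))))))))) (B (M (nat_lit 366) (B (M (nat_lit 367) (B (L (nat_lit 395) ln11_12_2 ln11_12_2_ok) (M (nat_lit 368) (B (L (nat_lit 365) ln16_11_1 ln16_11_1_ok) (L (nat_lit 369) ln17_11_1 ln17_11_1_ok))))) (B (M (nat_lit 430) (B (M (nat_lit 395) (B (L (nat_lit 367) ln11_12_2 ln11_12_2_ok) (L (nat_lit 431) ln11_12_0 ln11_12_0_ok))) (B (M (nat_lit 431) (B (L (nat_lit 395) ln11_12_0 ln11_12_0_ok) (L (nat_lit 432) ln16_13_3 ln16_13_3_ok))) (B (M (nat_lit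 431) (B (L (nat_lit 432) ln16_13_3 ln16_13_3_ok) (M (nat_lit 334) (B (L (nat_lit 302) ln14_9_5 ln14_9_5_ok) (L (nat_lit 463) ln14_10_4 ln14_10_4_ok))))) (M (nat_lit 335) (B (M (nat_lit 334) (B (L (nat_lit 302) ln14_9_5 ln14_9_5_ok) (L (nat_lit 303) ln14_13_6 ln14_13_6_ok))) (M (nat_lit 367) (B (L (nat_lit 462) ln14_14_6 ln14_14_6_ok) (L (nat_lit 395) ln11_12_2 ln11_12_2_ok))))))))) (B (M (nat_lit 430) (B (M (nat_lit 431) (B (L (nat_lit 395) ln11_12_0 ln11_12_0_ok) (L (nat_lit 432) ln16_13_3 ln16_13_3_ok))) (B (M (nat_lit 431) (B (L (nat_lit 432) ln16_13_3 ln16_13_3_ok) (M (nat_lit 334) (B (L (nat_lit 302) ln14_9_5 ln14_9_5_ok) (L (nat_lit 463) ln14_10_4 ln14_10_4_ok))))) (M (nat_lit 462) (B (M (nat_lit 365) (B (L (nat_lit 333) ln14_14_7 ln14_14_7_ok) (L (nat_lit 494) ln14_15_7 ln14_15_7_ok))) (B (M (nat_lit 494) (B (L (nat_lit 365) ln14_15_7 ln14_15_7_ok) (L (nat_lit 526) ln14_16_7 ln14_16_7_ok))) (B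 (M (nat_lit 494) (B (L (nat_lit 526) ln14_16_7 ln14_16_7_ok) (M (nat_lit 495) (B (L (nat_lit 463) ln14_11_4 ln14_11_4_ok) (L (nat_lit 527) ln14_12_4 ln14_12_4_ok))))) (M (nat_lit 333) (B (L (nat_lit 365) ln14_14_7 ln14_14_7_ok) (M (nat_lit 334) (B (L (nat_lit 301) ln14_13_7 ln14_13_7_ok) (L (nat_lit 302) ln14_9_5 ln14_9_5_ok)))))))))))) (M (nat_lit 367) (B (M (nat_lit 368) (B (L (nat_lit 365) ln16_11_1 ln16_11_1_ok) (L (nat_lit 369) ln17_11_1 ln17_11_1_ok))) (M (nat_lit 334) (B (L (nat_lit 302) ln14_9_5 ln14_9_5_ok) (M (nat_lit 430) (B (M (nat_lit 335) (B (L (nat_lit 303) ln14_13_6 ln14_13_6_ok) (L (nat_lit 462) ln14_14_6 ln14_14_6_ok))) (M (nat_lit 431) (B (L (nat_lit 463) ln14_10_4 ln14_10_4_ok) (L (nat_lit 432) ln16_13_3 ln16_13_3_ok))))))))))))) (M (nat_lit 399) (B (M (nat_lit 428) (B (L (nat_lit 427) ln15_12_1 ln15_12_1_ok) (L (nat_lit 400) ln16_12_1 ln16_12_1_ok))) (M (nat_lit 395) (B (M (nat_lit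 363) (B (L (nat_lit 362) ln14_12_3 ln14_12_3_ok) (L (nat_lit 364) ln15_12_3 ln15_12_3_ok))) (M (nat_lit 367) (B (L (nat_lit 366) ln11_12_2 ln11_12_2_ok) (L (nat_lit 368) ln12_12_2 ln12_12_2_ok))))))))))))
theorem c31_s3893 : Sem (nat_lit 1386334848190141751452229600081002501066064423497114607581907019016374833283637545135167555405098879095945921505485634484932968448) (nat_lit 102293456537689990433043846508463844581219668322882297964040135305748694330436087550430952526568773862092037259060837944636765469812709020621697187840) (nat_lit 102293456537689990433043846508463844581219668322882297964040135305748694330436087550430952526568773862092037259060837944636765469812709020621697187840) :=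
  sem_of_chk (M (nat_lit 333) (B (M (nat_lit 430) (B (M (nat_lit 366) (B (L (nat_lit 301) ln14_13_7 ln14_13_7_ok) (M (nat_lit 431) (B (L (nat_lit 463) ln14_10_4 ln14_10_4_ok) (L (nat_lit 432) ln16_13_3 ln16_13_3_ok))))) (B (M (nat_lit 366) (B (M (nat_lit 431) (B (L (nat_lit 463) ln14_10_4 ln14_10_4_ok) (L (nat_lit 432) ln16_13_3 ln16_13_3_ok))) (M (nat_lit 367) (B (M (nat_lit 335) (B (L (nat_lit 303) ln14_13_6 ln14_13_6_ok) (L (nat_lit 462) ln14_14_6 ln14_14_6_ok))) (M (nat_lit 368) (B (L (nat_lit 369) ln17_11_3 ln17_11_3_ok) (L (nat_lit 399) ln12_12_2 ln12_12_2_ok))))))) (B (M (nat_lit 428) (B (M (nat_lit 399) (B (L (nat_lit 427) ln15_12_1 ln15_12_1_ok) (L (nat_lit 400) ln16_12_1 ln16_12_1_ok))) (B (M (nat_lit 459) (B (M (nat_lit 427) (B (L (nat_lit 426) ln10_13_2 ln10_13_2_ok) (L (nat_lit 458) ln14_13_1 ln14_13_1_ok))) (M (nat_lit 431) (B (L (nat_lit 432) ln16_13_3 ln16_13_3_ok) (L (nat_lit 460) ln15_13_1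 ln15_13_1_ok))))) (M (nat_lit 364) (B (M (nat_lit 332) (B (L (nat_lit 300) ln12_9_4 ln12_9_4_ok) (L (nat_lit 301) ln12_13_6 ln12_13_6_ok))) (M (nat_lit 399) (B (L (nat_lit 363) ln15_12_3 ln15_12_3_ok) (L (nat_lit 400) ln16_12_1 ln16_12_1_ok)))))))) (M (nat_lit 366) (B (L (nat_lit 301) ln14_13_7 ln14_13_7_ok) (M (nat_lit 367) (B (M (nat_lit 335) (B (L (nat_lit 303) ln14_13_6 ln14_13_6_ok) (L (nat_lit 462) ln14_14_6 ln14_14_6_ok))) (M (nat_lit 368) (B (L (nat_lit 369) ln17_11_3 ln17_11_3_ok) (L (nat_lit 399) ln12_12_2 ln12_12_2_ok))))))))))) (B (M (nat_lit 366) (B (M (nat_lit 430) (B (L (nat_lit 301) ln14_13_7 ln14_13_7_ok) (M (nat_lit 431) (B (L (nat_lit 463) ln14_10_4 ln14_10_4_ok) (L (nat_lit 432) ln16_13_3 ln16_13_3_ok))))) (B (M (nat_lit 430) (B (M (nat_lit 431) (B (L (nat_lit 463) ln14_10_4 ln14_10_4_ok) (L (nat_lit 432) ln16_13_3 ln16_13_3_ok))) (M (nat_lit 367) (B (M (nat_lit 335) (B (L (nat_lit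 303) ln14_13_6 ln14_13_6_ok) (L (nat_lit 462) ln14_14_6 ln14_14_6_ok))) (M (nat_lit 368) (B (L (nat_lit 369) ln17_11_3 ln17_11_3_ok) (L (nat_lit 399) ln12_12_2 ln12_12_2_ok))))))) (B (M (nat_lit 399) (B (M (nat_lit 428) (B (L (nat_lit 427) ln15_12_1 ln15_12_1_ok) (L (nat_lit 400) ln16_12_1 ln16_12_1_ok))) (M (nat_lit 431) (B (L (nat_lit 432) ln12_12_0 ln12_12_0_ok) (M (nat_lit 367) (B (L (nat_lit 463) ln15_14_7 ln15_14_7_ok) (L (nat_lit 368) ln12_12_2 ln12_12_2_ok))))))) (M (nat_lit 430) (B (L (nat_lit 301) ln14_13_7 ln14_13_7_ok) (M (nat_lit 367) (B (M (nat_lit 335) (B (L (nat_lit 303) ln14_13_6 ln14_13_6_ok) (L (nat_lit 462) ln14_14_6 ln14_14_6_ok))) (M (nat_lit 368) (B (L (nat_lit 369) ln17_11_3 ln17_11_3_ok) (L (nat_lit 399) ln12_12_2 ln12_12_2_ok))))))))))) (B (M (nat_lit 399) (B (M (nat_lit 428) (B (L (nat_lit 427) ln15_12_1 ln15_12_1_ok) (L (nat_lit 400) ln16_12_1 ln16_12_1_ok))) (M (nat_lit 366)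 (B (M (nat_lit 431) (B (L (nat_lit 432) ln12_12_0 ln12_12_0_ok) (M (nat_lit 367) (B (L (nat_lit 463) ln15_14_7 ln15_14_7_ok) (L (nat_lit 368) ln12_12_2 ln12_12_2_ok))))) (B (M (nat_lit 431) (B (L (nat_lit 432) ln12_12_0 ln12_12_0_ok) (M (nat_lit 463) (B (L (nat_lit 430) ln14_10_4 ln14_10_4_ok) (L (nat_lit 495) ln15_15_7 ln15_15_7_ok))))) (M (nat_lit 332) (B (M (nat_lit 364) (B (L (nat_lit 300) ln12_9_4 ln12_9_4_ok) (L (nat_lit 363) ln15_12_3 ln15_12_3_ok))) (M (nat_lit 367) (B (L (nat_lit 331) ln11_10_0 ln11_10_0_ok) (L (nat_lit 368) ln12_12_2 ln12_12_2_ok)))))))))) (B (M (nat_lit 399) (B (M (nat_lit 428) (B (L (nat_lit 427) ln15_12_1 ln15_12_1_ok) (L (nat_lit 400) ln16_12_1 ln16_12_1_ok))) (B (M (nat_lit 428) (B (L (nat_lit 427) ln15_12_1 ln15_12_1_ok) (M (nat_lit 364) (B (L (nat_lit 363) ln15_12_3 ln15_12_3_ok) (M (nat_lit 332) (B (L (nat_lit 300) ln12_9_4 ln12_9_4_ok) (L (nat_lit 301) ln12_13_6 ln12_13_6_ok)))))))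 (B (M (nat_lit 400) (B (L (nat_lit 428) ln16_12_1 ln16_12_1_ok) (M (nat_lit 368) (B (L (nat_lit 367) ln12_12_2 ln12_12_2_ok) (L (nat_lit 369) ln13_12_2 ln13_12_2_ok))))) (M (nat_lit 400) (B (M (nat_lit 368) (B (L (nat_lit 367) ln12_12_2 ln12_12_2_ok) (L (nat_lit 369) ln13_12_2 ln13_12_2_ok))) (M (nat_lit 432) (B (L (nat_lit 431) ln12_12_0 ln12_12_0_ok) (L (nat_lit 433) ln13_12_0 ln13_12_0_ok))))))))) (B (M (nat_lit 364) (B (M (nat_lit 399) (B (L (nat_lit 363) ln15_12_3 ln15_12_3_ok) (M (nat_lit 428) (B (L (nat_lit 427) ln15_12_1 ln15_12_1_ok) (L (nat_lit 400) ln16_12_1 ln16_12_1_ok))))) (B (M (nat_lit 428) (B (M (nat_lit 332) (B (L (nat_lit 300) ln12_9_4 ln12_9_4_ok) (L (nat_lit 301) ln12_13_6 ln12_13_6_ok))) (M (nat_lit 399) (B (L (nat_lit 427) ln15_12_1 ln15_12_1_ok) (L (nat_lit 400) ln16_12_1 ln16_12_1_ok))))) (M (nat_lit 332) (B (L (nat_lit 300) ln12_9_4 ln12_9_4_ok) (M (nat_lit 363) (B (L (nat_lit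 335) ln15_10_1 ln15_10_1_ok) (M (nat_lit 362) (B (L (nat_lit 331) ln14_10_1 ln14_10_1_ok) (L (nat_lit 361) ln9_11_2 ln9_11_2_ok)))))))))) (B (M (nat_lit 332) (B (M (nat_lit 364) (B (L (nat_lit 300) ln12_9_4 ln12_9_4_ok) (M (nat_lit 363) (B (L (nat_lit 335) ln15_10_1 ln15_10_1_ok) (M (nat_lit 362) (B (L (nat_lit 331) ln14_10_1 ln14_10_1_ok) (L (nat_lit 361) ln9_11_2 ln9_11_2_ok))))))) (B (M (nat_lit 364) (B (M (nat_lit 363) (B (L (nat_lit 335) ln15_10_1 ln15_10_1_ok) (M (nat_lit 362) (B (L (nat_lit 331) ln14_10_1 ln14_10_1_ok) (L (nat_lit 361) ln9_11_2 ln9_11_2_ok))))) (M (nat_lit 428) (B (L (nat_lit 301) ln12_13_6 ln12_13_6_ok) (M (nat_lit 427) (B (L (nat_lit 459) ln12_10_5 ln12_10_5_ok) (L (nat_lit 426) ln10_13_2 ln10_13_2_ok))))))) (B (M (nat_lit 364) (B (L (nat_lit 300) ln12_9_4 ln12_9_4_ok) (M (nat_lit 428) (B (L (nat_lit 301) ln12_13_6 ln12_13_6_ok) (M (nat_lit 427) (B (L (nat_lit 459) ln12_10_5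 ln12_10_5_ok) (L (nat_lit 426) ln10_13_2 ln10_13_2_ok))))))) (M (nat_lit 366) (B (M (nat_lit 367) (B (L (nat_lit 331) ln11_10_0 ln11_10_0_ok) (M (nat_lit 368) (B (L (nat_lit 335) ln12_10_0 ln12_10_0_ok) (L (nat_lit 369) ln17_11_3 ln17_11_3_ok))))) (M (nat_lit 430) (B (L (nat_lit 301) ln14_13_7 ln14_13_7_ok) (M (nat_lit 431) (B (L (nat_lit 463) ln14_10_4 ln14_10_4_ok) (L (nat_lit 432) ln16_13_3 ln16_13_3_ok))))))))))) (B (M (nat_lit 399) (B (M (nat_lit 400) (B (L (nat_lit 428) ln16_12_1 ln16_12_1_ok) (M (nat_lit 368) (B (L (nat_lit 367) ln12_12_2 ln12_12_2_ok) (L (nat_lit 369) ln13_12_2 ln13_12_2_ok))))) (B (M (nat_lit 428) (B (L (nat_lit 400) ln16_12_1 ln16_12_1_ok) (M (nat_lit 364) (B (L (nat_lit 363) ln15_12_3 ln15_12_3_ok) (M (nat_lit 332) (B (L (nat_lit 300) ln12_9_4 ln12_9_4_ok) (L (nat_lit 301) ln12_13_6 ln12_13_6_ok))))))) (M (nat_lit 366) (B (M (nat_lit 431) (B (L (nat_lit 432) ln12_12_0 ln12_12_0_ok)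 (M (nat_lit 367) (B (L (nat_lit 463) ln15_14_7 ln15_14_7_ok) (L (nat_lit 368) ln12_12_2 ln12_12_2_ok))))) (B (M (nat_lit 431) (B (L (nat_lit 432) ln12_12_0 ln12_12_0_ok) (M (nat_lit 463) (B (L (nat_lit 430) ln14_10_4 ln14_10_4_ok) (L (nat_lit 495) ln15_15_7 ln15_15_7_ok))))) (M (nat_lit 332) (B (M (nat_lit 364) (B (L (nat_lit 300) ln12_9_4 ln12_9_4_ok) (L (nat_lit 363) ln15_12_3 ln15_12_3_ok))) (M (nat_lit 367) (B (L (nat_lit 331) ln11_10_0 ln11_10_0_ok) (L (nat_lit 368) ln12_12_2 ln12_12_2_ok))))))))))) (M (nat_lit 364) (B (M (nat_lit 332) (B (L (nat_lit 300) ln12_9_4 ln12_9_4_ok) (M (nat_lit 363) (B (L (nat_lit 335) ln15_10_1 ln15_10_1_ok) (L (nat_lit 399) ln15_12_3 ln15_12_3_ok))))) (B (M (nat_lit 363) (B (L (nat_lit 399) ln15_12_3 ln15_12_3_ok) (M (nat_lit 362) (B (L (nat_lit 361) ln9_11_0 ln9_11_0_ok) (M (nat_lit 332) (B (L (nat_lit 331) ln14_10_1 ln14_10_1_ok) (L (nat_lit 335) ln15_10_1 ln15_10_1_ok)))))))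 (B (M (nat_lit 399) (B (L (nat_lit 363) ln15_12_3 ln15_12_3_ok) (M (nat_lit 400) (B (M (nat_lit 368) (B (L (nat_lit 367) ln12_12_2 ln12_12_2_ok) (L (nat_lit 369) ln13_12_2 ln13_12_2_ok))) (M (nat_lit 432) (B (L (nat_lit 431) ln12_12_0 ln12_12_0_ok) (L (nat_lit 433) ln13_12_0 ln13_12_0_ok))))))) (B (M (nat_lit 366) (B (M (nat_lit 430) (B (L (nat_lit 301) ln14_13_7 ln14_13_7_ok) (M (nat_lit 431) (B (L (nat_lit 463) ln14_10_4 ln14_10_4_ok) (L (nat_lit 432) ln16_13_3 ln16_13_3_ok))))) (M (nat_lit 367) (B (M (nat_lit 332) (B (L (nat_lit 300) ln12_9_4 ln12_9_4_ok) (L (nat_lit 331) ln11_10_0 ln11_10_0_ok))) (M (nat_lit 368) (B (L (nat_lit 369) ln17_11_3 ln17_11_3_ok) (L (nat_lit 399) ln12_12_2 ln12_12_2_ok))))))) (M (nat_lit 332) (B (L (nat_lit 300) ln12_9_4 ln12_9_4_ok) (M (nat_lit 363) (B (L (nat_lit 335) ln15_10_1 ln15_10_1_ok) (M (nat_lit 362) (B (L (nat_lit 331) ln14_10_1 ln14_10_1_ok) (L (nat_lit 361)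 ln9_11_2 ln9_11_2_ok)))))))))))))))))))) (nat_lit 1386334848190141751452229600081002501066064423497114607581907019016374833283637545135167555405098879095945921505485634484932968448) (nat_lit 102293456537689990433043846508463844581219668322882297964040135305748694330436087550430952526568773862092037259060837944636765469812709020621697187840) (nat_lit 102293456537689990433043846508463844581219668322882297964040135305748694330436087550430952526568773862092037259060837944636765469812709020621697187840) (by decide +kernel)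
noncomputable def c31_n3952 : Cert := (M (nat_lit 333) (B (M (nat_lit 366) (B (L (nat_lit 302) ln14_9_5 ln14_9_5_ok) (M (nat_lit 430) (B (L (nat_lit 301) ln14_13_7 ln14_13_7_ok) (M (nat_lit 431) (B (L (nat_lit 463) ln14_10_4 ln14_10_4_ok) (L (nat_lit 432) ln16_13_3 ln16_13_3_ok))))))) (B (M (nat_lit 366) (B (L (nat_lit 302) ln14_9_5 ln14_9_5_ok) (M (nat_lit 335) (B (M (nat_lit 430) (B (L (nat_lit 303) ln14_13_6 ln14_13_6_ok) (M (nat_lit 431) (B (L (nat_lit 463) ln14_10_4 ln14_10_4_ok) (L (nat_lit 432) ln16_13_3 ln16_13_3_ok))))) (M (nat_lit 332) (B (M (nat_lit 300) (B (L (nat_lit 299) ln15_10_3 ln15_10_3_ok) (L (nat_lit 364) ln12_9_4 ln12_9_4_ok))) (M (nat_lit 367) (B (L (nat_lit 331) ln11_10_0 ln11_10_0_ok) (L (nat_lit 368) ln12_10_0 ln12_10_0_ok))))))))) (B (M (nat_lit 332) (B (M (nat_lit 364) (B (L (nat_lit 300) ln12_9_4 ln12_9_4_ok) (M (nat_lit 363) (B (L (nat_lit 335) ln15_10_1 ln15_10_1_ok) (M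 (nat_lit 362) (B (L (nat_lit 331) ln14_10_1 ln14_10_1_ok) (L (nat_lit 361) ln9_11_2 ln9_11_2_ok))))))) (B (M (nat_lit 364) (B (M (nat_lit 363) (B (L (nat_lit 335) ln15_10_1 ln15_10_1_ok) (M (nat_lit 362) (B (L (nat_lit 331) ln14_10_1 ln14_10_1_ok) (L (nat_lit 361) ln9_11_2 ln9_11_2_ok))))) (M (nat_lit 428) (B (L (nat_lit 301) ln12_13_6 ln12_13_6_ok) (M (nat_lit 427) (B (L (nat_lit 459) ln12_10_5 ln12_10_5_ok) (L (nat_lit 426) ln10_13_2 ln10_13_2_ok))))))) (B (M (nat_lit 364) (B (L (nat_lit 300) ln12_9_4 ln12_9_4_ok) (M (nat_lit 428) (B (L (nat_lit 301) ln12_13_6 ln12_13_6_ok) (M (nat_lit 427) (B (L (nat_lit 459) ln12_10_5 ln12_10_5_ok) (L (nat_lit 426) ln10_13_2 ln10_13_2_ok))))))) (M (nat_lit 366) (B (M (nat_lit 367) (B (L (nat_lit 331) ln11_10_0 ln11_10_0_ok) (M (nat_lit 368) (B (L (nat_lit 335) ln12_10_0 ln12_10_0_ok) (L (nat_lit 369) ln17_11_3 ln17_11_3_ok))))) (M (nat_lit 430) (B (L (nat_lit 301)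 ln14_13_7 ln14_13_7_ok) (M (nat_lit 431) (B (L (nat_lit 463) ln14_10_4 ln14_10_4_ok) (L (nat_lit 432) ln16_13_3 ln16_13_3_ok))))))))))) (M (nat_lit 332) (B (M (nat_lit 364) (B (L (nat_lit 300) ln12_9_4 ln12_9_4_ok) (M (nat_lit 363) (B (L (nat_lit 335) ln15_10_1 ln15_10_1_ok) (M (nat_lit 362) (B (L (nat_lit 331) ln14_10_1 ln14_10_1_ok) (L (nat_lit 361) ln9_11_2 ln9_11_2_ok))))))) (B (M (nat_lit 364) (B (M (nat_lit 363) (B (L (nat_lit 335) ln15_10_1 ln15_10_1_ok) (M (nat_lit 362) (B (L (nat_lit 331) ln14_10_1 ln14_10_1_ok) (L (nat_lit 361) ln9_11_2 ln9_11_2_ok))))) (M (nat_lit 428) (B (L (nat_lit 301) ln12_13_6 ln12_13_6_ok) (M (nat_lit 427) (B (L (nat_lit 459) ln12_10_5 ln12_10_5_ok) (L (nat_lit 426) ln10_13_2 ln10_13_2_ok))))))) (B (M (nat_lit 364) (B (L (nat_lit 300) ln12_9_4 ln12_9_4_ok) (M (nat_lit 428) (B (L (nat_lit 301) ln12_13_6 ln12_13_6_ok) (M (nat_lit 427) (B (L (nat_lit 459) ln12_10_5 ln12_10_5_ok)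 (L (nat_lit 426) ln10_13_2 ln10_13_2_ok))))))) (M (nat_lit 331) (B (M (nat_lit 330) (B (M (nat_lit 302) (B (L (nat_lit 301) ln10_10_2 ln10_10_2_ok) (L (nat_lit 303) ln11_10_2 ln11_10_2_ok))) (M (nat_lit 362) (B (L (nat_lit 361) ln13_10_1 ln13_10_1_ok) (L (nat_lit 363) ln14_10_1 ln14_10_1_ok))))) (B (M (nat_lit 335) (B (M (nat_lit 299) (B (L (nat_lit 298) ln14_10_3 ln14_10_3_ok) (L (nat_lit 300) ln15_10_3 ln15_10_3_ok))) (M (nat_lit 303) (B (L (nat_lit 302) ln11_10_2 ln11_10_2_ok) (L (nat_lit 304) ln12_10_2 ln12_10_2_ok))))) (M (nat_lit 330) (B (M (nat_lit 298) (B (L (nat_lit 297) ln13_10_3 ln13_10_3_ok) (L (nat_lit 299) ln14_10_3 ln14_10_3_ok))) (M (nat_lit 362) (B (L (nat_lit 361) ln13_10_1 ln13_10_1_ok) (L (nat_lit 363) ln14_10_1 ln14_10_1_ok))))))))))))))))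
theorem c31_s3990 : Sem (nat_lit 1386334848190141751452229600046006489469536232707154571948025077170724122389346146152355225702539631108755906733909423652564107264) (nat_lit 102293456537689990433043846508463844581219668322919481226403969634469009265347940917387502176005907876229051778601836577503427570140068398372667523072) (nat_lit 102293456537689990433043846508463844581219668322919481226403969634469009265347940917387502176005907876229051778601836577503427570140068398372667523072) :=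
  sem_of_chk (M (nat_lit 334) (B (M (nat_lit 366) (B (L (nat_lit 302) ln14_9_5 ln14_9_5_ok) (M (nat_lit 399) (B (M (nat_lit 428) (B (L (nat_lit 427) ln15_12_1 ln15_12_1_ok) (L (nat_lit 400) ln16_12_1 ln16_12_1_ok))) (M (nat_lit 431) (B (L (nat_lit 432) ln12_12_0 ln12_12_0_ok) (M (nat_lit 367) (B (L (nat_lit 463) ln15_14_7 ln15_14_7_ok) (L (nat_lit 368) ln12_12_2 ln12_12_2_ok))))))))) (B (K (nat_lit 1386334848190141751452229600081002501066064423497114607581907019016374833283637545135167555405098879095945921505485634484932968448) (nat_lit 102293456537689990433043846508463844581219668322882297964040135305748694330436087550430952526568773862092037259060837944636765469812709020621697187840) (nat_lit 102293456537689990433043846508463844581219668322882297964040135305748694330436087550430952526568773862092037259060837944636765469812709020621697187840) c31_s3893) (B (M (nat_lit 399) (B (M (nat_lit 428) (B (L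 (nat_lit 427) ln15_12_1 ln15_12_1_ok) (L (nat_lit 400) ln16_12_1 ln16_12_1_ok))) (M (nat_lit 431) (B (L (nat_lit 432) ln12_12_0 ln12_12_0_ok) (M (nat_lit 367) (B (L (nat_lit 368) ln12_12_2 ln12_12_2_ok) (M (nat_lit 335) (B (L (nat_lit 302) ln15_13_7 ln15_13_7_ok) (M (nat_lit 430) (B (L (nat_lit 303) ln15_9_5 ln15_9_5_ok) (L (nat_lit 462) ln15_10_5 ln15_10_5_ok))))))))))) (B (M (nat_lit 366) (B (L (nat_lit 302) ln14_9_5 ln14_9_5_ok) (M (nat_lit 399) (B (M (nat_lit 428) (B (L (nat_lit 427) ln15_12_1 ln15_12_1_ok) (L (nat_lit 400) ln16_12_1 ln16_12_1_ok))) (M (nat_lit 431) (B (L (nat_lit 432) ln12_12_0 ln12_12_0_ok) (M (nat_lit 463) (B (L (nat_lit 430) ln14_10_4 ln14_10_4_ok) (L (nat_lit 495) ln15_15_7 ln15_15_7_ok))))))))) (B c31_n3952 (B (M (nat_lit 366) (B (L (nat_lit 302) ln14_9_5 ln14_9_5_ok) (M (nat_lit 430) (B (M (nat_lit 431) (B (L (nat_lit 463) ln14_10_4 ln14_10_4_ok) (L (nat_lit 432) ln16_13_3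 ln16_13_3_ok))) (M (nat_lit 367) (B (M (nat_lit 335) (B (L (nat_lit 303) ln14_13_6 ln14_13_6_ok) (L (nat_lit 462) ln14_14_6 ln14_14_6_ok))) (M (nat_lit 368) (B (L (nat_lit 369) ln17_11_1 ln17_11_1_ok) (L (nat_lit 399) ln12_12_2 ln12_12_2_ok))))))))) (M (nat_lit 366) (B (L (nat_lit 302) ln14_9_5 ln14_9_5_ok) (M (nat_lit 332) (B (M (nat_lit 364) (B (L (nat_lit 300) ln12_9_4 ln12_9_4_ok) (M (nat_lit 399) (B (L (nat_lit 363) ln15_12_3 ln15_12_3_ok) (M (nat_lit 428) (B (L (nat_lit 427) ln15_12_1 ln15_12_1_ok) (L (nat_lit 400) ln16_12_1 ln16_12_1_ok))))))) (B (M (nat_lit 367) (B (M (nat_lit 368) (B (L (nat_lit 369) ln17_11_1 ln17_11_1_ok) (L (nat_lit 399) ln12_12_2 ln12_12_2_ok))) (M (nat_lit 430) (B (M (nat_lit 333) (B (L (nat_lit 301) ln14_13_7 ln14_13_7_ok) (L (nat_lit 331) ln11_10_0 ln11_10_0_ok))) (M (nat_lit 335) (B (L (nat_lit 303) ln14_13_6 ln14_13_6_ok) (L (nat_lit 462) ln14_14_6 ln14_14_6_ok)))))))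 (M (nat_lit 333) (B (M (nat_lit 367) (B (L (nat_lit 331) ln11_10_0 ln11_10_0_ok) (M (nat_lit 368) (B (L (nat_lit 335) ln12_10_0 ln12_10_0_ok) (L (nat_lit 369) ln17_11_3 ln17_11_3_ok))))) (M (nat_lit 364) (B (L (nat_lit 300) ln12_9_4 ln12_9_4_ok) (M (nat_lit 301) (B (L (nat_lit 428) ln12_13_6 ln12_13_6_ok) (L (nat_lit 430) ln14_13_7 ln14_13_7_ok))))))))))))))))))) (nat_lit 1386334848190141751452229600046006489469536232707154571948025077170724122389346146152355225702539631108755906733909423652564107264) (nat_lit 102293456537689990433043846508463844581219668322919481226403969634469009265347940917387502176005907876229051778601836577503427570140068398372667523072) (nat_lit 102293456537689990433043846508463844581219668322919481226403969634469009265347940917387502176005907876229051778601836577503427570140068398372667523072) (by decide +kernel)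
noncomputable def c31_n4110 : Cert := (M (nat_lit 332) (B (M (nat_lit 364) (B (L (nat_lit 300) ln12_9_4 ln12_9_4_ok) (M (nat_lit 428) (B (L (nat_lit 301) ln12_13_6 ln12_13_6_ok) (M (nat_lit 427) (B (L (nat_lit 459) ln12_10_5 ln12_10_5_ok) (L (nat_lit 426) ln10_13_2 ln10_13_2_ok))))))) (B (M (nat_lit 334) (B (M (nat_lit 302) (B (L (nat_lit 366) ln14_9_5 ln14_9_5_ok) (M (nat_lit 303) (B (L (nat_lit 331) ln11_10_2 ln11_10_2_ok) (M (nat_lit 304) (B (L (nat_lit 301) ln16_9_1 ln16_9_1_ok) (L (nat_lit 335) ln12_10_2 ln12_10_2_ok))))))) (B (M (nat_lit 366) (B (L (nat_lit 302) ln14_9_5 ln14_9_5_ok) (M (nat_lit 367) (B (L (nat_lit 331) ln11_10_0 ln11_10_0_ok) (M (nat_lit 368) (B (L (nat_lit 335) ln12_10_0 ln12_10_0_ok) (L (nat_lit 369) ln17_11_3 ln17_11_3_ok))))))) (B (M (nat_lit 364) (B (M (nat_lit 363) (B (L (nat_lit 335) ln15_10_1 ln15_10_1_ok) (M (nat_lit 362) (B (L (nat_lit 331) ln14_10_1 ln14_10_1_ok) (L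 (nat_lit 361) ln9_11_2 ln9_11_2_ok))))) (M (nat_lit 428) (B (L (nat_lit 301) ln12_13_6 ln12_13_6_ok) (M (nat_lit 427) (B (L (nat_lit 459) ln12_10_5 ln12_10_5_ok) (L (nat_lit 426) ln10_13_2 ln10_13_2_ok))))))) (M (nat_lit 366) (B (L (nat_lit 302) ln14_9_5 ln14_9_5_ok) (M (nat_lit 430) (B (L (nat_lit 301) ln14_13_7 ln14_13_7_ok) (M (nat_lit 431) (B (L (nat_lit 463) ln14_10_4 ln14_10_4_ok) (L (nat_lit 432) ln16_13_3 ln16_13_3_ok))))))))))) (B (M (nat_lit 364) (B (L (nat_lit 300) ln12_9_4 ln12_9_4_ok) (M (nat_lit 331) (B (M (nat_lit 428) (B (L (nat_lit 299) ln12_13_7 ln12_13_7_ok) (M (nat_lit 427) (B (L (nat_lit 459) ln12_10_5 ln12_10_5_ok) (L (nat_lit 426) ln10_13_2 ln10_13_2_ok))))) (M (nat_lit 334) (B (M (nat_lit 302) (B (L (nat_lit 303) ln11_10_2 ln11_10_2_ok) (L (nat_lit 366) ln14_9_5 ln14_9_5_ok))) (M (nat_lit 363) (B (L (nat_lit 362) ln14_10_1 ln14_10_1_ok) (L (nat_lit 335) ln15_10_1 ln15_10_1_ok)))))))))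 (M (nat_lit 334) (B (M (nat_lit 302) (B (L (nat_lit 366) ln14_9_5 ln14_9_5_ok) (M (nat_lit 303) (B (L (nat_lit 331) ln11_10_2 ln11_10_2_ok) (M (nat_lit 304) (B (L (nat_lit 301) ln16_9_1 ln16_9_1_ok) (L (nat_lit 335) ln12_10_2 ln12_10_2_ok))))))) (B (M (nat_lit 366) (B (L (nat_lit 302) ln14_9_5 ln14_9_5_ok) (M (nat_lit 367) (B (L (nat_lit 331) ln11_10_0 ln11_10_0_ok) (M (nat_lit 368) (B (L (nat_lit 335) ln12_10_0 ln12_10_0_ok) (L (nat_lit 369) ln17_11_3 ln17_11_3_ok))))))) (B (M (nat_lit 366) (B (M (nat_lit 367) (B (L (nat_lit 331) ln11_10_0 ln11_10_0_ok) (M (nat_lit 368) (B (L (nat_lit 335) ln12_10_0 ln12_10_0_ok) (L (nat_lit 369) ln17_11_3 ln17_11_3_ok))))) (M (nat_lit 430) (B (L (nat_lit 301) ln14_13_7 ln14_13_7_ok) (M (nat_lit 431) (B (L (nat_lit 463) ln14_10_4 ln14_10_4_ok) (L (nat_lit 432) ln16_13_3 ln16_13_3_ok))))))) (B (M (nat_lit 366) (B (L (nat_lit 302) ln14_9_5 ln14_9_5_ok) (M (nat_lit 430)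 (B (L (nat_lit 301) ln14_13_7 ln14_13_7_ok) (M (nat_lit 431) (B (L (nat_lit 463) ln14_10_4 ln14_10_4_ok) (L (nat_lit 432) ln16_13_3 ln16_13_3_ok))))))) (M (nat_lit 331) (B (M (nat_lit 330) (B (M (nat_lit 302) (B (L (nat_lit 301) ln10_10_2 ln10_10_2_ok) (L (nat_lit 303) ln11_10_2 ln11_10_2_ok))) (M (nat_lit 362) (B (L (nat_lit 361) ln13_10_1 ln13_10_1_ok) (L (nat_lit 363) ln14_10_1 ln14_10_1_ok))))) (B (M (nat_lit 335) (B (M (nat_lit 299) (B (L (nat_lit 298) ln14_10_3 ln14_10_3_ok) (L (nat_lit 300) ln15_10_3 ln15_10_3_ok))) (M (nat_lit 303) (B (L (nat_lit 302) ln11_10_2 ln11_10_2_ok) (L (nat_lit 304) ln12_10_2 ln12_10_2_ok))))) (M (nat_lit 330) (B (M (nat_lit 298) (B (L (nat_lit 297) ln13_10_3 ln13_10_3_ok) (L (nat_lit 299) ln14_10_3 ln14_10_3_ok))) (M (nat_lit 362) (B (L (nat_lit 361) ln13_10_1 ln13_10_1_ok) (L (nat_lit 363) ln14_10_1 ln14_10_1_ok)))))))))))))))))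
theorem c31_s4141 : Sem (nat_lit 1386334848190141751452229600046006489469536232707154571948025077170724122389346146152355225702539631108755906733909423652564107264) (nat_lit 40935556972950310925761477380767081389093920832847563346063367043957791240369693263201037787360651516927619492708418327504861192257284341760) (nat_lit 40935556972950310925761477380767081389093920832847563346063367043957791240369693263201037787360651516927619492708418327504861192257284341760) :=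
  sem_of_chk (M (nat_lit 333) (B (M (nat_lit 365) (B (M (nat_lit 301) (B (L (nat_lit 428) ln13_9_5 ln13_9_5_ok) (L (nat_lit 430) ln13_9_4 ln13_9_4_ok))) (B (M (nat_lit 428) (B (L (nat_lit 460) ln13_10_5 ln13_10_5_ok) (M (nat_lit 427) (B (L (nat_lit 426) ln10_13_2 ln10_13_2_ok) (M (nat_lit 459) (B (M (nat_lit 332) (B (L (nat_lit 300) ln13_13_7 ln13_13_7_ok) (L (nat_lit 364) ln12_10_5 ln12_10_5_ok))) (M (nat_lit 430) (B (L (nat_lit 462) ln13_10_4 ln13_10_4_ok) (L (nat_lit 458) ln14_13_1 ln14_13_1_ok))))))))) (B (M (nat_lit 430) (B (L (nat_lit 301) ln13_9_4 ln13_9_4_ok) (L (nat_lit 462) ln13_10_4 ln13_10_4_ok))) (M (nat_lit 428) (B (L (nat_lit 301) ln13_9_5 ln13_9_5_ok) (L (nat_lit 460) ln13_10_5 ln13_10_5_ok))))))) (B (M (nat_lit 334) (B (M (nat_lit 302) (B (L (nat_lit 365) ln13_13_6 ln13_13_6_ok) (L (nat_lit 366) ln14_9_5 ln14_9_5_ok))) (B (M (nat_lit 430) (B (M (nat_lit 301) (B (L (nat_lit 366) ln14_13_7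 ln14_13_7_ok) (L (nat_lit 365) ln13_9_4 ln13_9_4_ok))) (B (M (nat_lit 366) (B (M (nat_lit 431) (B (L (nat_lit 463) ln14_10_4 ln14_10_4_ok) (L (nat_lit 432) ln16_13_3 ln16_13_3_ok))) (M (nat_lit 462) (B (L (nat_lit 365) ln14_14_7 ln14_14_7_ok) (M (nat_lit 335) (B (L (nat_lit 303) ln14_13_6 ln14_13_6_ok) (L (nat_lit 367) ln14_14_6 ln14_14_6_ok))))))) (B (M (nat_lit 366) (B (L (nat_lit 301) ln14_13_7 ln14_13_7_ok) (M (nat_lit 431) (B (L (nat_lit 463) ln14_10_4 ln14_10_4_ok) (L (nat_lit 432) ln16_13_3 ln16_13_3_ok))))) (M (nat_lit 365) (B (L (nat_lit 301) ln13_9_4 ln13_9_4_ok) (L (nat_lit 462) ln13_10_4 ln13_10_4_ok))))))) (B (M (nat_lit 366) (B (L (nat_lit 302) ln14_9_5 ln14_9_5_ok) (M (nat_lit 430) (B (L (nat_lit 301) ln14_13_7 ln14_13_7_ok) (M (nat_lit 431) (B (L (nat_lit 463) ln14_10_4 ln14_10_4_ok) (L (nat_lit 432) ln16_13_3 ln16_13_3_ok))))))) (M (nat_lit 365) (B (L (nat_lit 302) ln13_13_6 ln13_13_6_ok)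 (M (nat_lit 428) (B (L (nat_lit 301) ln13_9_5 ln13_9_5_ok) (L (nat_lit 460) ln13_10_5 ln13_10_5_ok))))))))) (B (M (nat_lit 332) (B (M (nat_lit 300) (B (L (nat_lit 365) ln13_13_7 ln13_13_7_ok) (L (nat_lit 364) ln12_9_4 ln12_9_4_ok))) (B (M (nat_lit 334) (B (M (nat_lit 302) (B (L (nat_lit 365) ln13_13_6 ln13_13_6_ok) (L (nat_lit 366) ln14_9_5 ln14_9_5_ok))) (B (M (nat_lit 331) (B (M (nat_lit 330) (B (M (nat_lit 298) (B (L (nat_lit 297) ln13_10_3 ln13_10_3_ok) (L (nat_lit 299) ln14_10_3 ln14_10_3_ok))) (M (nat_lit 366) (B (L (nat_lit 365) ln10_10_0 ln10_10_0_ok) (L (nat_lit 367) ln11_10_0 ln11_10_0_ok))))) (B (M (nat_lit 335) (B (M (nat_lit 363) (B (L (nat_lit 362) ln14_10_1 ln14_10_1_ok) (L (nat_lit 364) ln15_10_1 ln15_10_1_ok))) (M (nat_lit 367) (B (L (nat_lit 366) ln11_10_0 ln11_10_0_ok) (L (nat_lit 368) ln12_10_0 ln12_10_0_ok))))) (M (nat_lit 330) (B (M (nat_lit 298) (B (L (nat_lit 297) ln13_10_3 ln13_10_3_ok)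 (L (nat_lit 299) ln14_10_3 ln14_10_3_ok))) (M (nat_lit 362) (B (L (nat_lit 361) ln13_10_1 ln13_10_1_ok) (L (nat_lit 363) ln14_10_1 ln14_10_1_ok)))))))) (B (M (nat_lit 366) (B (L (nat_lit 302) ln14_9_5 ln14_9_5_ok) (M (nat_lit 367) (B (L (nat_lit 331) ln11_10_0 ln11_10_0_ok) (M (nat_lit 368) (B (L (nat_lit 335) ln12_10_0 ln12_10_0_ok) (L (nat_lit 369) ln17_11_3 ln17_11_3_ok))))))) (M (nat_lit 364) (B (M (nat_lit 365) (B (L (nat_lit 302) ln13_13_6 ln13_13_6_ok) (M (nat_lit 363) (B (L (nat_lit 335) ln15_10_1 ln15_10_1_ok) (L (nat_lit 362) ln10_11_2 ln10_11_2_ok))))) (B (M (nat_lit 363) (B (L (nat_lit 335) ln15_10_1 ln15_10_1_ok) (M (nat_lit 362) (B (L (nat_lit 331) ln14_10_1 ln14_10_1_ok) (L (nat_lit 361) ln9_11_2 ln9_11_2_ok))))) (M (nat_lit 428) (B (M (nat_lit 365) (B (L (nat_lit 302) ln13_13_6 ln13_13_6_ok) (L (nat_lit 460) ln12_14_6 ln12_14_6_ok))) (M (nat_lit 427) (B (L (nat_lit 459) ln12_10_5 ln12_10_5_ok)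 (L (nat_lit 426) ln10_13_2 ln10_13_2_ok)))))))))))) (B (M (nat_lit 334) (B (M (nat_lit 365) (B (L (nat_lit 300) ln13_13_7 ln13_13_7_ok) (L (nat_lit 302) ln13_13_6 ln13_13_6_ok))) (B (M (nat_lit 302) (B (L (nat_lit 365) ln13_13_6 ln13_13_6_ok) (L (nat_lit 366) ln14_9_5 ln14_9_5_ok))) (B (M (nat_lit 300) (B (L (nat_lit 365) ln13_13_7 ln13_13_7_ok) (M (nat_lit 299) (B (L (nat_lit 335) ln15_10_3 ln15_10_3_ok) (M (nat_lit 298) (B (L (nat_lit 297) ln9_9_0 ln9_9_0_ok) (L (nat_lit 331) ln14_10_3 ln14_10_3_ok))))))) (M (nat_lit 366) (B (L (nat_lit 302) ln14_9_5 ln14_9_5_ok) (M (nat_lit 367) (B (L (nat_lit 331) ln11_10_0 ln11_10_0_ok) (M (nat_lit 368) (B (L (nat_lit 335) ln12_10_0 ln12_10_0_ok) (L (nat_lit 369) ln17_11_3 ln17_11_3_ok))))))))))) (M (nat_lit 364) (B (L (nat_lit 300) ln12_9_4 ln12_9_4_ok) (M (nat_lit 331) (B (M (nat_lit 428) (B (L (nat_lit 299) ln12_13_7 ln12_13_7_ok) (M (nat_lit 427) (B (L (nat_lit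 459) ln12_10_5 ln12_10_5_ok) (L (nat_lit 426) ln10_13_2 ln10_13_2_ok))))) (M (nat_lit 334) (B (M (nat_lit 302) (B (L (nat_lit 303) ln11_10_2 ln11_10_2_ok) (L (nat_lit 366) ln14_9_5 ln14_9_5_ok))) (M (nat_lit 363) (B (L (nat_lit 362) ln14_10_1 ln14_10_1_ok) (L (nat_lit 335) ln15_10_1 ln15_10_1_ok))))))))))))) (B c31_n4110 (M (nat_lit 365) (B (M (nat_lit 430) (B (L (nat_lit 301) ln13_9_4 ln13_9_4_ok) (L (nat_lit 462) ln13_10_4 ln13_10_4_ok))) (B (M (nat_lit 366) (B (M (nat_lit 430) (B (L (nat_lit 462) ln14_14_7 ln14_14_7_ok) (M (nat_lit 431) (B (L (nat_lit 432) ln16_13_3 ln16_13_3_ok) (M (nat_lit 334) (B (L (nat_lit 302) ln13_13_6 ln13_13_6_ok) (L (nat_lit 463) ln14_10_4 ln14_10_4_ok))))))) (B (M (nat_lit 332) (B (L (nat_lit 300) ln13_13_7 ln13_13_7_ok) (M (nat_lit 367) (B (L (nat_lit 368) ln16_11_3 ln16_11_3_ok) (M (nat_lit 331) (B (L (nat_lit 330) ln10_10_0 ln10_10_0_ok) (L (nat_lit 334) ln11_10_0 ln11_10_0_ok)))))))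 (M (nat_lit 332) (B (L (nat_lit 300) ln13_13_7 ln13_13_7_ok) (M (nat_lit 367) (B (L (nat_lit 368) ln16_11_3 ln16_11_3_ok) (M (nat_lit 331) (B (L (nat_lit 330) ln10_10_0 ln10_10_0_ok) (L (nat_lit 364) ln15_11_3 ln15_11_3_ok)))))))))) (M (nat_lit 301) (B (M (nat_lit 300) (B (L (nat_lit 268) ln13_12_7 ln13_12_7_ok) (L (nat_lit 332) ln13_13_7 ln13_13_7_ok))) (M (nat_lit 302) (B (L (nat_lit 270) ln13_12_6 ln13_12_6_ok) (L (nat_lit 334) ln13_13_6 ln13_13_6_ok))))))))))))) (nat_lit 1386334848190141751452229600046006489469536232707154571948025077170724122389346146152355225702539631108755906733909423652564107264) (nat_lit 40935556972950310925761477380767081389093920832847563346063367043957791240369693263201037787360651516927619492708418327504861192257284341760) (nat_lit 40935556972950310925761477380767081389093920832847563346063367043957791240369693263201037787360651516927619492708418327504861192257284341760)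 (by decide +kernel)
noncomputable def c31_n4288 : Cert := (M (nat_lit 364) (B (M (nat_lit 399) (B (L (nat_lit 363) ln15_12_3 ln15_12_3_ok) (M (nat_lit 400) (B (L (nat_lit 365) ln16_12_3 ln16_12_3_ok) (M (nat_lit 368) (B (L (nat_lit 367) ln12_12_2 ln12_12_2_ok) (L (nat_lit 369) ln13_12_2 ln13_12_2_ok))))))) (B (M (nat_lit 367) (B (M (nat_lit 368) (B (L (nat_lit 399) ln12_12_2 ln12_12_2_ok) (M (nat_lit 366) (B (L (nat_lit 365) ln16_11_1 ln16_11_1_ok) (L (nat_lit 369) ln17_11_1 ln17_11_1_ok))))) (B (M (nat_lit 366) (B (M (nat_lit 368) (B (L (nat_lit 369) ln17_11_1 ln17_11_1_ok) (L (nat_lit 399) ln12_12_2 ln12_12_2_ok))) (M (nat_lit 430) (B (M (nat_lit 335) (B (L (nat_lit 303) ln14_13_6 ln14_13_6_ok) (L (nat_lit 462) ln14_14_6 ln14_14_6_ok))) (M (nat_lit 431) (B (L (nat_lit 463) ln14_10_4 ln14_10_4_ok) (L (nat_lit 432) ln16_13_3 ln16_13_3_ok))))))) (B (M (nat_lit 399) (B (L (nat_lit 368) ln12_12_2 ln12_12_2_ok)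 (M (nat_lit 400) (B (L (nat_lit 365) ln16_12_3 ln16_12_3_ok) (M (nat_lit 432) (B (L (nat_lit 431) ln12_12_0 ln12_12_0_ok) (L (nat_lit 433) ln13_12_0 ln13_12_0_ok))))))) (M (nat_lit 366) (B (M (nat_lit 332) (B (L (nat_lit 300) ln12_9_4 ln12_9_4_ok) (M (nat_lit 331) (B (L (nat_lit 333) ln11_10_0 ln11_10_0_ok) (L (nat_lit 365) ln15_11_3 ln15_11_3_ok))))) (M (nat_lit 430) (B (M (nat_lit 335) (B (L (nat_lit 303) ln14_13_6 ln14_13_6_ok) (L (nat_lit 462) ln14_14_6 ln14_14_6_ok))) (M (nat_lit 431) (B (L (nat_lit 463) ln14_10_4 ln14_10_4_ok) (L (nat_lit 432) ln16_13_3 ln16_13_3_ok))))))))))) (B (M (nat_lit 399) (B (L (nat_lit 363) ln15_12_3 ln15_12_3_ok) (M (nat_lit 400) (B (M (nat_lit 368) (B (L (nat_lit 367) ln12_12_2 ln12_12_2_ok) (L (nat_lit 369) ln13_12_2 ln13_12_2_ok))) (M (nat_lit 432) (B (L (nat_lit 431) ln12_12_0 ln12_12_0_ok) (L (nat_lit 433) ln13_12_0 ln13_12_0_ok))))))) (B (M (nat_lit 399) (B (L (nat_lit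 363) ln15_12_3 ln15_12_3_ok) (M (nat_lit 400) (B (L (nat_lit 365) ln16_12_3 ln16_12_3_ok) (M (nat_lit 432) (B (L (nat_lit 431) ln12_12_0 ln12_12_0_ok) (L (nat_lit 433) ln13_12_0 ln13_12_0_ok))))))) (M (nat_lit 365) (B (M (nat_lit 332) (B (L (nat_lit 300) ln12_9_4 ln12_9_4_ok) (M (nat_lit 363) (B (L (nat_lit 362) ln10_11_0 ln10_11_0_ok) (M (nat_lit 335) (B (L (nat_lit 333) ln15_10_1 ln15_10_1_ok) (L (nat_lit 366) ln11_11_2 ln11_11_2_ok))))))) (B (M (nat_lit 363) (B (L (nat_lit 362) ln10_11_0 ln10_11_0_ok) (M (nat_lit 335) (B (L (nat_lit 366) ln11_11_2 ln11_11_2_ok) (M (nat_lit 333) (B (L (nat_lit 332) ln15_10_1 ln15_10_1_ok) (L (nat_lit 336) ln16_10_1 ln16_10_1_ok))))))) (B (M (nat_lit 430) (B (M (nat_lit 333) (B (L (nat_lit 301) ln13_9_4 ln13_9_4_ok) (L (nat_lit 462) ln13_10_4 ln13_10_4_ok))) (M (nat_lit 366) (B (M (nat_lit 335) (B (L (nat_lit 303) ln14_13_6 ln14_13_6_ok) (L (nat_lit 363) ln11_11_2 ln11_11_2_ok)))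 (M (nat_lit 431) (B (L (nat_lit 463) ln14_10_4 ln14_10_4_ok) (L (nat_lit 432) ln16_13_3 ln16_13_3_ok))))))) (B (M (nat_lit 366) (B (M (nat_lit 363) (B (L (nat_lit 335) ln11_11_2 ln11_11_2_ok) (L (nat_lit 362) ln10_11_0 ln10_11_0_ok))) (M (nat_lit 332) (B (L (nat_lit 300) ln12_9_4 ln12_9_4_ok) (M (nat_lit 367) (B (L (nat_lit 331) ln15_11_3 ln15_11_3_ok) (L (nat_lit 368) ln16_11_1 ln16_11_1_ok))))))) (B (M (nat_lit 366) (B (M (nat_lit 332) (B (L (nat_lit 300) ln12_9_4 ln12_9_4_ok) (M (nat_lit 367) (B (L (nat_lit 331) ln15_11_3 ln15_11_3_ok) (L (nat_lit 368) ln16_11_1 ln16_11_1_ok))))) (M (nat_lit 430) (B (M (nat_lit 333) (B (L (nat_lit 301) ln14_13_7 ln14_13_7_ok) (L (nat_lit 462) ln14_14_7 ln14_14_7_ok))) (M (nat_lit 431) (B (L (nat_lit 463) ln14_10_4 ln14_10_4_ok) (L (nat_lit 432) ln16_13_3 ln16_13_3_ok))))))) (M (nat_lit 333) (B (M (nat_lit 301) (B (L (nat_lit 269) ln13_8_5 ln13_8_5_ok) (L (nat_lit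 430) ln13_9_4 ln13_9_4_ok))) (B (M (nat_lit 430) (B (L (nat_lit 301) ln13_9_4 ln13_9_4_ok) (L (nat_lit 462) ln13_10_4 ln13_10_4_ok))) (M (nat_lit 332) (B (L (nat_lit 300) ln13_13_7 ln13_13_7_ok) (M (nat_lit 335) (B (L (nat_lit 363) ln15_10_1 ln15_10_1_ok) (L (nat_lit 336) ln16_10_1 ln16_10_1_ok)))))))))))))))))))
theorem c31_s4380 : Sem (nat_lit 1386334848190141751452229600046006489469536232707154571948025077170724122389346146152355225702539631108755906733909423652564107264) (nat_lit 219673525277619695660278052745640565296546101139427974142370704342324313527064842527302051029583243415034597623484782558458285939600583667889753347642571620352) (nat_lit 219673525277619695660278052745640565296546101139427974142370704342324313527064842527302051029583243415034597623484782558458285939600583667889753347642571620352) :=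
  sem_of_chk (M (nat_lit 334) (B (M (nat_lit 366) (B (L (nat_lit 302) ln14_9_5 ln14_9_5_ok) (M (nat_lit 430) (B (M (nat_lit 431) (B (L (nat_lit 463) ln14_10_4 ln14_10_4_ok) (L (nat_lit 432) ln16_13_3 ln16_13_3_ok))) (M (nat_lit 462) (B (M (nat_lit 335) (B (L (nat_lit 303) ln14_13_6 ln14_13_6_ok) (L (nat_lit 367) ln14_14_6 ln14_14_6_ok))) (M (nat_lit 494) (B (L (nat_lit 365) ln14_15_7 ln14_15_7_ok) (L (nat_lit 526) ln14_16_7 ln14_16_7_ok))))))))) (B c31_n4288 (B (M (nat_lit 366) (B (L (nat_lit 302) ln14_9_5 ln14_9_5_ok) (M (nat_lit 399) (B (M (nat_lit 431) (B (L (nat_lit 432) ln12_12_0 ln12_12_0_ok) (M (nat_lit 367) (B (L (nat_lit 463) ln15_14_7 ln15_14_7_ok) (L (nat_lit 368) ln12_12_2 ln12_12_2_ok))))) (B (M (nat_lit 431) (B (L (nat_lit 432) ln12_12_0 ln12_12_0_ok) (M (nat_lit 463) (B (L (nat_lit 430) ln14_10_4 ln14_10_4_ok) (L (nat_lit 495) ln15_15_7 ln15_15_7_ok))))) (M (nat_lit 400) (B (M (nat_lit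 364) (B (L (nat_lit 363) ln15_12_3 ln15_12_3_ok) (L (nat_lit 365) ln16_12_3 ln16_12_3_ok))) (B (M (nat_lit 365) (B (L (nat_lit 364) ln16_12_3 ln16_12_3_ok) (L (nat_lit 401) ln17_12_3 ln17_12_3_ok))) (B (M (nat_lit 401) (B (L (nat_lit 365) ln17_12_3 ln17_12_3_ok) (L (nat_lit 430) ln17_12_1 ln17_12_1_ok))) (M (nat_lit 368) (B (L (nat_lit 367) ln12_12_2 ln12_12_2_ok) (L (nat_lit 369) ln13_12_2 ln13_12_2_ok)))))))))))) (B (M (nat_lit 366) (B (L (nat_lit 302) ln14_9_5 ln14_9_5_ok) (M (nat_lit 430) (B (M (nat_lit 431) (B (L (nat_lit 463) ln14_10_4 ln14_10_4_ok) (L (nat_lit 432) ln16_13_3 ln16_13_3_ok))) (M (nat_lit 367) (B (M (nat_lit 335) (B (L (nat_lit 303) ln14_13_6 ln14_13_6_ok) (L (nat_lit 462) ln14_14_6 ln14_14_6_ok))) (M (nat_lit 368) (B (L (nat_lit 369) ln17_11_1 ln17_11_1_ok) (L (nat_lit 399) ln12_12_2 ln12_12_2_ok))))))))) (B (M (nat_lit 399) (B (M (nat_lit 364) (B (L (nat_lit 363) ln15_12_3 ln15_12_3_ok)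 (M (nat_lit 400) (B (L (nat_lit 365) ln16_12_3 ln16_12_3_ok) (M (nat_lit 368) (B (L (nat_lit 367) ln12_12_2 ln12_12_2_ok) (L (nat_lit 369) ln13_12_2 ln13_12_2_ok))))))) (B (M (nat_lit 400) (B (M (nat_lit 368) (B (L (nat_lit 367) ln12_12_2 ln12_12_2_ok) (L (nat_lit 369) ln13_12_2 ln13_12_2_ok))) (M (nat_lit 432) (B (L (nat_lit 431) ln12_12_0 ln12_12_0_ok) (L (nat_lit 433) ln13_12_0 ln13_12_0_ok))))) (B (M (nat_lit 400) (B (M (nat_lit 364) (B (L (nat_lit 363) ln15_12_3 ln15_12_3_ok) (L (nat_lit 365) ln16_12_3 ln16_12_3_ok))) (M (nat_lit 432) (B (L (nat_lit 431) ln12_12_0 ln12_12_0_ok) (L (nat_lit 433) ln13_12_0 ln13_12_0_ok))))) (M (nat_lit 431) (B (L (nat_lit 432) ln12_12_0 ln12_12_0_ok) (M (nat_lit 367) (B (L (nat_lit 368) ln12_12_2 ln12_12_2_ok) (M (nat_lit 335) (B (L (nat_lit 302) ln15_13_7 ln15_13_7_ok) (M (nat_lit 430) (B (L (nat_lit 303) ln15_9_5 ln15_9_5_ok) (L (nat_lit 462) ln15_10_5 ln15_10_5_ok)))))))))))))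 (B (M (nat_lit 399) (B (M (nat_lit 431) (B (L (nat_lit 432) ln12_12_0 ln12_12_0_ok) (M (nat_lit 366) (B (L (nat_lit 302) ln14_9_5 ln14_9_5_ok) (M (nat_lit 463) (B (L (nat_lit 430) ln14_10_4 ln14_10_4_ok) (L (nat_lit 495) ln15_15_7 ln15_15_7_ok))))))) (B (M (nat_lit 400) (B (M (nat_lit 364) (B (L (nat_lit 363) ln15_12_3 ln15_12_3_ok) (L (nat_lit 365) ln16_12_3 ln16_12_3_ok))) (M (nat_lit 432) (B (L (nat_lit 431) ln12_12_0 ln12_12_0_ok) (L (nat_lit 433) ln13_12_0 ln13_12_0_ok))))) (M (nat_lit 365) (B (M (nat_lit 302) (B (L (nat_lit 333) ln13_13_6 ln13_13_6_ok) (L (nat_lit 366) ln14_9_5 ln14_9_5_ok))) (M (nat_lit 364) (B (L (nat_lit 363) ln15_12_3 ln15_12_3_ok) (L (nat_lit 400) ln16_12_3 ln16_12_3_ok)))))))) (B (M (nat_lit 366) (B (L (nat_lit 302) ln14_9_5 ln14_9_5_ok) (M (nat_lit 399) (B (M (nat_lit 431) (B (L (nat_lit 432) ln12_12_0 ln12_12_0_ok) (M (nat_lit 367) (B (L (nat_lit 463) ln15_14_7 ln15_14_7_ok)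 (L (nat_lit 368) ln12_12_2 ln12_12_2_ok))))) (B (M (nat_lit 400) (B (M (nat_lit 364) (B (L (nat_lit 363) ln15_12_3 ln15_12_3_ok) (L (nat_lit 365) ln16_12_3 ln16_12_3_ok))) (M (nat_lit 432) (B (L (nat_lit 431) ln12_12_0 ln12_12_0_ok) (L (nat_lit 433) ln13_12_0 ln13_12_0_ok))))) (M (nat_lit 400) (B (M (nat_lit 364) (B (L (nat_lit 363) ln15_12_3 ln15_12_3_ok) (L (nat_lit 365) ln16_12_3 ln16_12_3_ok))) (M (nat_lit 368) (B (L (nat_lit 367) ln12_12_2 ln12_12_2_ok) (L (nat_lit 369) ln13_12_2 ln13_12_2_ok)))))))))) (M (nat_lit 366) (B (L (nat_lit 302) ln14_9_5 ln14_9_5_ok) (M (nat_lit 333) (B (M (nat_lit 430) (B (L (nat_lit 301) ln14_13_7 ln14_13_7_ok) (M (nat_lit 462) (B (L (nat_lit 365) ln14_14_7 ln14_14_7_ok) (M (nat_lit 335) (B (L (nat_lit 303) ln14_13_6 ln14_13_6_ok) (L (nat_lit 367) ln14_14_6 ln14_14_6_ok))))))) (B (M (nat_lit 365) (B (M (nat_lit 332) (B (L (nat_lit 300) ln13_13_7 ln13_13_7_ok) (M (nat_lit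 331) (B (L (nat_lit 330) ln10_10_0 ln10_10_0_ok) (L (nat_lit 367) ln11_10_0 ln11_10_0_ok))))) (M (nat_lit 335) (B (M (nat_lit 430) (B (L (nat_lit 303) ln14_13_6 ln14_13_6_ok) (L (nat_lit 462) ln14_14_7 ln14_14_7_ok))) (M (nat_lit 336) (B (L (nat_lit 364) ln16_10_1 ln16_10_1_ok) (L (nat_lit 337) ln17_10_1 ln17_10_1_ok))))))) (B (M (nat_lit 301) (B (L (nat_lit 430) ln14_13_7 ln14_13_7_ok) (M (nat_lit 365) (B (L (nat_lit 269) ln13_8_4 ln13_8_4_ok) (M (nat_lit 300) (B (L (nat_lit 268) ln13_12_7 ln13_12_7_ok) (L (nat_lit 332) ln13_13_7 ln13_13_7_ok))))))) (B (M (nat_lit 430) (B (L (nat_lit 301) ln14_13_7 ln14_13_7_ok) (M (nat_lit 367) (B (M (nat_lit 335) (B (L (nat_lit 303) ln14_13_6 ln14_13_6_ok) (L (nat_lit 462) ln14_14_6 ln14_14_6_ok))) (M (nat_lit 368) (B (L (nat_lit 369) ln17_11_3 ln17_11_3_ok) (L (nat_lit 399) ln12_12_2 ln12_12_2_ok))))))) (M (nat_lit 364) (B (M (nat_lit 332) (B (L (nat_lit 300) ln12_9_4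 ln12_9_4_ok) (M (nat_lit 363) (B (L (nat_lit 335) ln15_10_1 ln15_10_1_ok) (L (nat_lit 399) ln15_12_3 ln15_12_3_ok))))) (B (M (nat_lit 363) (B (L (nat_lit 399) ln15_12_3 ln15_12_3_ok) (M (nat_lit 335) (B (L (nat_lit 332) ln15_10_1 ln15_10_1_ok) (L (nat_lit 365) ln11_11_2 ln11_11_2_ok))))) (B (M (nat_lit 363) (B (L (nat_lit 399) ln15_12_3 ln15_12_3_ok) (M (nat_lit 365) (B (L (nat_lit 362) ln10_11_2 ln10_11_2_ok) (L (nat_lit 335) ln11_11_2 ln11_11_2_ok))))) (M (nat_lit 367) (B (M (nat_lit 332) (B (L (nat_lit 300) ln12_9_4 ln12_9_4_ok) (L (nat_lit 331) ln11_10_0 ln11_10_0_ok))) (M (nat_lit 368) (B (L (nat_lit 369) ln17_11_3 ln17_11_3_ok) (L (nat_lit 365) ln16_11_1 ln16_11_1_ok)))))))))))))))))))))))) (nat_lit 1386334848190141751452229600046006489469536232707154571948025077170724122389346146152355225702539631108755906733909423652564107264) (nat_lit 219673525277619695660278052745640565296546101139427974142370704342324313527064842527302051029583243415034597623484782558458285939600583667889753347642571620352)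 (nat_lit 219673525277619695660278052745640565296546101139427974142370704342324313527064842527302051029583243415034597623484782558458285939600583667889753347642571620352) (by decide +kernel)
theorem c31_s4432 : Sem (nat_lit 1386334847544579281930502452632026696468783264124728123740719198963059283254184240648144927045128292788721448874933630659377233920) (nat_lit 302051097218367035338412298581189770466909510549200222984026876456580536076228187328003215374098801430914049051857430926689666187249179887783016285239001481216) (nat_lit 302051097218367035338412298581189770466909510549200222984026876456580536076228187328003215374098801430914049051857430926689666187249179887783016285239001481216) :=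
  sem_of_chk (M (nat_lit 398) (B (M (nat_lit 428) (B (M (nat_lit 399) (B (L (nat_lit 427) ln15_12_1 ln15_12_1_ok) (L (nat_lit 400) ln16_12_1 ln16_12_1_ok))) (B (M (nat_lit 430) (B (M (nat_lit 462) (B (M (nat_lit 494) (B (L (nat_lit 365) ln14_15_7 ln14_15_7_ok) (L (nat_lit 526) ln14_16_7 ln14_16_7_ok))) (M (nat_lit 427) (B (L (nat_lit 426) ln10_13_2 ln10_13_2_ok) (L (nat_lit 463) ln11_13_0 ln11_13_0_ok))))) (B (M (nat_lit 459) (B (M (nat_lit 427) (B (L (nat_lit 426) ln10_13_2 ln10_13_2_ok) (L (nat_lit 458) ln14_13_1 ln14_13_1_ok))) (M (nat_lit 431) (B (L (nat_lit 432) ln16_13_3 ln16_13_3_ok) (L (nat_lit 460) ln15_13_1 ln15_13_1_ok))))) (M (nat_lit 460) (B (M (nat_lit 365) (B (L (nat_lit 333) ln13_10_5 ln13_10_5_ok) (L (nat_lit 492) ln12_15_6 ln12_15_6_ok))) (M (nat_lit 431) (B (L (nat_lit 432) ln16_13_3 ln16_13_3_ok) (L (nat_lit 459) ln15_13_1 ln15_13_1_ok)))))))) (M (nat_lit 399) (B (L (nat_lit 400)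 ln16_12_1 ln16_12_1_ok) (M (nat_lit 460) (B (M (nat_lit 365) (B (L (nat_lit 333) ln13_10_5 ln13_10_5_ok) (L (nat_lit 492) ln12_15_6 ln12_15_6_ok))) (B (M (nat_lit 492) (B (L (nat_lit 365) ln12_15_6 ln12_15_6_ok) (L (nat_lit 524) ln12_16_6 ln12_16_6_ok))) (M (nat_lit 459) (B (M (nat_lit 364) (B (L (nat_lit 363) ln15_12_3 ln15_12_3_ok) (L (nat_lit 491) ln12_11_5 ln12_11_5_ok))) (M (nat_lit 431) (B (L (nat_lit 432) ln12_12_0 ln12_12_0_ok) (L (nat_lit 430) ln15_13_1 ln15_13_1_ok))))))))))))) (B (M (nat_lit 428) (B (M (nat_lit 399) (B (L (nat_lit 427) ln15_12_1 ln15_12_1_ok) (L (nat_lit 400) ln16_12_1 ln16_12_1_ok))) (B (M (nat_lit 430) (B (M (nat_lit 462) (B (M (nat_lit 494) (B (L (nat_lit 365) ln14_15_7 ln14_15_7_ok) (L (nat_lit 526) ln14_16_7 ln14_16_7_ok))) (M (nat_lit 427) (B (L (nat_lit 426) ln10_13_2 ln10_13_2_ok) (L (nat_lit 463) ln11_13_0 ln11_13_0_ok))))) (B (M (nat_lit 459) (B (M (nat_lit 427)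 (B (L (nat_lit 426) ln10_13_2 ln10_13_2_ok) (L (nat_lit 458) ln14_13_1 ln14_13_1_ok))) (M (nat_lit 431) (B (L (nat_lit 432) ln16_13_3 ln16_13_3_ok) (L (nat_lit 460) ln15_13_1 ln15_13_1_ok))))) (M (nat_lit 460) (B (M (nat_lit 492) (B (L (nat_lit 365) ln12_15_6 ln12_15_6_ok) (L (nat_lit 524) ln12_16_6 ln12_16_6_ok))) (M (nat_lit 431) (B (L (nat_lit 432) ln16_13_3 ln16_13_3_ok) (L (nat_lit 459) ln15_13_1 ln15_13_1_ok)))))))) (M (nat_lit 399) (B (L (nat_lit 400) ln16_12_1 ln16_12_1_ok) (M (nat_lit 460) (B (M (nat_lit 492) (B (L (nat_lit 365) ln12_15_6 ln12_15_6_ok) (L (nat_lit 524) ln12_16_6 ln12_16_6_ok))) (M (nat_lit 459) (B (M (nat_lit 364) (B (L (nat_lit 363) ln15_12_3 ln15_12_3_ok) (L (nat_lit 491) ln12_11_5 ln12_11_5_ok))) (M (nat_lit 431) (B (L (nat_lit 432) ln12_12_0 ln12_12_0_ok) (L (nat_lit 430) ln15_13_1 ln15_13_1_ok)))))))))))) (B (M (nat_lit 399) (B (M (nat_lit 428) (B (L (nat_lit 427) ln15_12_1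 ln15_12_1_ok) (L (nat_lit 400) ln16_12_1 ln16_12_1_ok))) (B (M (nat_lit 430) (B (M (nat_lit 431) (B (L (nat_lit 432) ln12_12_0 ln12_12_0_ok) (M (nat_lit 367) (B (L (nat_lit 368) ln12_12_2 ln12_12_2_ok) (M (nat_lit 335) (B (L (nat_lit 303) ln15_9_5 ln15_9_5_ok) (L (nat_lit 462) ln15_10_5 ln15_10_5_ok))))))) (B (M (nat_lit 431) (B (L (nat_lit 432) ln12_12_0 ln12_12_0_ok) (M (nat_lit 367) (B (L (nat_lit 368) ln12_12_2 ln12_12_2_ok) (M (nat_lit 462) (B (L (nat_lit 335) ln15_10_5 ln15_10_5_ok) (L (nat_lit 494) ln14_15_6 ln14_15_6_ok))))))) (B (M (nat_lit 428) (B (L (nat_lit 427) ln15_12_1 ln15_12_1_ok) (M (nat_lit 460) (B (M (nat_lit 365) (B (L (nat_lit 333) ln13_10_5 ln13_10_5_ok) (L (nat_lit 492) ln12_15_6 ln12_15_6_ok))) (M (nat_lit 431) (B (L (nat_lit 432) ln12_12_0 ln12_12_0_ok) (L (nat_lit 459) ln15_13_1 ln15_13_1_ok))))))) (M (nat_lit 367) (B (L (nat_lit 368) ln12_12_2 ln12_12_2_ok) (M (nat_lit 462)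 (B (L (nat_lit 494) ln14_15_6 ln14_15_6_ok) (M (nat_lit 335) (B (L (nat_lit 303) ln15_9_5 ln15_9_5_ok) (L (nat_lit 366) ln14_14_6 ln14_14_6_ok))))))))))) (B (M (nat_lit 400) (B (L (nat_lit 428) ln16_12_1 ln16_12_1_ok) (M (nat_lit 368) (B (L (nat_lit 367) ln12_12_2 ln12_12_2_ok) (L (nat_lit 369) ln13_12_2 ln13_12_2_ok))))) (M (nat_lit 400) (B (M (nat_lit 368) (B (L (nat_lit 367) ln12_12_2 ln12_12_2_ok) (L (nat_lit 369) ln13_12_2 ln13_12_2_ok))) (M (nat_lit 432) (B (L (nat_lit 431) ln12_12_0 ln12_12_0_ok) (L (nat_lit 433) ln13_12_0 ln13_12_0_ok))))))))) (B (K (nat_lit 1386334848190141751452229600046006489469536232707154571948025077170724122389346146152355225702539631108755906733909423652564107264) (nat_lit 102293456537689990433043846508463844581219668322919481226403969634469009265347940917387502176005907876229051778601836577503427570140068398372667523072) (nat_lit 102293456537689990433043846508463844581219668322919481226403969634469009265347940917387502176005907876229051778601836577503427570140068398372667523072)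 c31_s3990) (B (K (nat_lit 1386334848190141751452229600046006489469536232707154571948025077170724122389346146152355225702539631108755906733909423652564107264) (nat_lit 40935556972950310925761477380767081389093920832847563346063367043957791240369693263201037787360651516927619492708418327504861192257284341760) (nat_lit 40935556972950310925761477380767081389093920832847563346063367043957791240369693263201037787360651516927619492708418327504861192257284341760) c31_s4141) (B (M (nat_lit 399) (B (M (nat_lit 400) (B (L (nat_lit 428) ln16_12_1 ln16_12_1_ok) (M (nat_lit 368) (B (L (nat_lit 367) ln12_12_2 ln12_12_2_ok) (L (nat_lit 369) ln13_12_2 ln13_12_2_ok))))) (B (M (nat_lit 364) (B (L (nat_lit 363) ln15_12_3 ln15_12_3_ok) (M (nat_lit 400) (B (L (nat_lit 365) ln16_12_3 ln16_12_3_ok) (L (nat_lit 428) ln16_12_1 ln16_12_1_ok))))) (B (M (nat_lit 334) (B (M (nat_lit 431) (B (L (nat_lit 432) ln12_12_0 ln12_12_0_ok)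 (M (nat_lit 366) (B (L (nat_lit 302) ln14_9_5 ln14_9_5_ok) (M (nat_lit 367) (B (L (nat_lit 463) ln15_14_7 ln15_14_7_ok) (L (nat_lit 368) ln12_12_2 ln12_12_2_ok))))))) (B (M (nat_lit 366) (B (M (nat_lit 431) (B (L (nat_lit 432) ln12_12_0 ln12_12_0_ok) (M (nat_lit 463) (B (L (nat_lit 430) ln14_10_4 ln14_10_4_ok) (L (nat_lit 495) ln15_15_7 ln15_15_7_ok))))) (B (M (nat_lit 431) (B (L (nat_lit 432) ln12_12_0 ln12_12_0_ok) (M (nat_lit 367) (B (L (nat_lit 463) ln15_14_7 ln15_14_7_ok) (L (nat_lit 368) ln12_12_2 ln12_12_2_ok))))) (M (nat_lit 333) (B (M (nat_lit 301) (B (L (nat_lit 430) ln14_13_7 ln14_13_7_ok) (M (nat_lit 365) (B (L (nat_lit 269) ln13_8_4 ln13_8_4_ok) (L (nat_lit 428) ln13_9_5 ln13_9_5_ok))))) (M (nat_lit 332) (B (M (nat_lit 364) (B (L (nat_lit 300) ln12_9_4 ln12_9_4_ok) (L (nat_lit 363) ln15_12_3 ln15_12_3_ok))) (M (nat_lit 367) (B (L (nat_lit 331) ln11_10_0 ln11_10_0_ok) (L (nat_lit 368) ln12_12_2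 ln12_12_2_ok)))))))))) (B (M (nat_lit 431) (B (L (nat_lit 432) ln12_12_0 ln12_12_0_ok) (M (nat_lit 367) (B (L (nat_lit 368) ln12_12_2 ln12_12_2_ok) (M (nat_lit 335) (B (L (nat_lit 302) ln15_13_7 ln15_13_7_ok) (M (nat_lit 430) (B (L (nat_lit 303) ln15_9_5 ln15_9_5_ok) (L (nat_lit 462) ln15_10_5 ln15_10_5_ok))))))))) (B (M (nat_lit 431) (B (L (nat_lit 432) ln12_12_0 ln12_12_0_ok) (M (nat_lit 366) (B (L (nat_lit 302) ln14_9_5 ln14_9_5_ok) (M (nat_lit 463) (B (L (nat_lit 430) ln14_10_4 ln14_10_4_ok) (L (nat_lit 495) ln15_15_7 ln15_15_7_ok))))))) (M (nat_lit 333) (B (M (nat_lit 302) (B (L (nat_lit 365) ln13_13_6 ln13_13_6_ok) (L (nat_lit 366) ln14_9_5 ln14_9_5_ok))) (B (M (nat_lit 364) (B (L (nat_lit 363) ln15_12_3 ln15_12_3_ok) (M (nat_lit 301) (B (M (nat_lit 332) (B (L (nat_lit 300) ln12_9_4 ln12_9_4_ok) (L (nat_lit 428) ln12_13_6 ln12_13_6_ok))) (M (nat_lit 365) (B (L (nat_lit 269) ln13_8_5 ln13_8_5_ok)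 (L (nat_lit 430) ln13_9_4 ln13_9_4_ok))))))) (M (nat_lit 364) (B (L (nat_lit 363) ln15_12_3 ln15_12_3_ok) (M (nat_lit 301) (B (M (nat_lit 332) (B (L (nat_lit 300) ln12_9_4 ln12_9_4_ok) (L (nat_lit 428) ln12_13_6 ln12_13_6_ok))) (M (nat_lit 366) (B (L (nat_lit 430) ln14_13_7 ln14_13_7_ok) (L (nat_lit 302) ln14_9_5 ln14_9_5_ok))))))))))))))) (M (nat_lit 400) (B (M (nat_lit 364) (B (L (nat_lit 363) ln15_12_3 ln15_12_3_ok) (L (nat_lit 365) ln16_12_3 ln16_12_3_ok))) (M (nat_lit 368) (B (L (nat_lit 367) ln12_12_2 ln12_12_2_ok) (L (nat_lit 369) ln13_12_2 ln13_12_2_ok))))))))) (B (K (nat_lit 1386334848190141751452229600046006489469536232707154571948025077170724122389346146152355225702539631108755906733909423652564107264) (nat_lit 219673525277619695660278052745640565296546101139427974142370704342324313527064842527302051029583243415034597623484782558458285939600583667889753347642571620352) (nat_lit 219673525277619695660278052745640565296546101139427974142370704342324313527064842527302051029583243415034597623484782558458285939600583667889753347642571620352)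 c31_s4380) (M (nat_lit 428) (B (M (nat_lit 399) (B (L (nat_lit 427) ln15_12_1 ln15_12_1_ok) (L (nat_lit 400) ln16_12_1 ln16_12_1_ok))) (B (M (nat_lit 460) (B (M (nat_lit 365) (B (L (nat_lit 333) ln13_10_5 ln13_10_5_ok) (L (nat_lit 492) ln12_15_6 ln12_15_6_ok))) (B (M (nat_lit 492) (B (L (nat_lit 365) ln12_15_6 ln12_15_6_ok) (L (nat_lit 524) ln12_16_6 ln12_16_6_ok))) (B (M (nat_lit 364) (B (M (nat_lit 427) (B (L (nat_lit 426) ln10_13_2 ln10_13_2_ok) (M (nat_lit 332) (B (L (nat_lit 300) ln12_9_4 ln12_9_4_ok) (L (nat_lit 459) ln12_10_5 ln12_10_5_ok))))) (B (M (nat_lit 427) (B (L (nat_lit 426) ln10_13_2 ln10_13_2_ok) (M (nat_lit 459) (B (L (nat_lit 332) ln12_10_5 ln12_10_5_ok) (L (nat_lit 491) ln12_11_5 ln12_11_5_ok))))) (B (M (nat_lit 492) (B (L (nat_lit 524) ln12_16_6 ln12_16_6_ok) (M (nat_lit 491) (B (L (nat_lit 459) ln12_11_5 ln12_11_5_ok) (L (nat_lit 523) ln12_12_5 ln12_12_5_ok))))) (M (nat_lit 332)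 (B (L (nat_lit 300) ln12_9_4 ln12_9_4_ok) (M (nat_lit 331) (B (L (nat_lit 299) ln12_13_7 ln12_13_7_ok) (L (nat_lit 363) ln12_14_7 ln12_14_7_ok))))))))) (M (nat_lit 364) (B (M (nat_lit 365) (B (L (nat_lit 333) ln12_14_6 ln12_14_6_ok) (M (nat_lit 363) (B (L (nat_lit 331) ln12_14_7 ln12_14_7_ok) (L (nat_lit 362) ln10_11_0 ln10_11_0_ok))))) (M (nat_lit 427) (B (L (nat_lit 426) ln10_13_2 ln10_13_2_ok) (M (nat_lit 332) (B (L (nat_lit 300) ln12_9_4 ln12_9_4_ok) (L (nat_lit 459) ln12_10_5 ln12_10_5_ok))))))))))) (M (nat_lit 460) (B (M (nat_lit 365) (B (L (nat_lit 333) ln13_10_5 ln13_10_5_ok) (L (nat_lit 492) ln12_15_6 ln12_15_6_ok))) (B (M (nat_lit 492) (B (L (nat_lit 365) ln12_15_6 ln12_15_6_ok) (L (nat_lit 524) ln12_16_6 ln12_16_6_ok))) (B (M (nat_lit 399) (B (L (nat_lit 400) ln16_12_1 ln16_12_1_ok) (M (nat_lit 491) (B (M (nat_lit 364) (B (L (nat_lit 363) ln15_12_3 ln15_12_3_ok) (L (nat_lit 459) ln12_11_5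 ln12_11_5_ok))) (M (nat_lit 492) (B (L (nat_lit 523) ln12_12_5 ln12_12_5_ok) (L (nat_lit 524) ln12_16_6 ln12_16_6_ok))))))) (M (nat_lit 333) (B (L (nat_lit 365) ln13_10_5 ln13_10_5_ok) (M (nat_lit 364) (B (M (nat_lit 332) (B (L (nat_lit 300) ln12_9_4 ln12_9_4_ok) (L (nat_lit 301) ln12_13_6 ln12_13_6_ok))) (M (nat_lit 399) (B (L (nat_lit 363) ln15_12_3 ln15_12_3_ok) (L (nat_lit 400) ln16_12_1 ln16_12_1_ok)))))))))))))))))))))) (nat_lit 1386334847544579281930502452632026696468783264124728123740719198963059283254184240648144927045128292788721448874933630659377233920) (nat_lit 302051097218367035338412298581189770466909510549200222984026876456580536076228187328003215374098801430914049051857430926689666187249179887783016285239001481216) (nat_lit 302051097218367035338412298581189770466909510549200222984026876456580536076228187328003215374098801430914049051857430926689666187249179887783016285239001481216) (by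 decide +kernel)
noncomputable def c31_n4642 : Cert := (M (nat_lit 394) (B (M (nat_lit 395) (B (L (nat_lit 393) ln9_12_0 ln9_12_0_ok) (M (nat_lit 365) (B (L (nat_lit 366) ln10_12_2 ln10_12_2_ok) (M (nat_lit 333) (B (L (nat_lit 301) ln13_9_5 ln13_9_5_ok) (L (nat_lit 460) ln13_10_5 ln13_10_5_ok))))))) (B (M (nat_lit 426) (B (M (nat_lit 393) (B (L (nat_lit 395) ln9_12_0 ln9_12_0_ok) (L (nat_lit 427) ln13_13_3 ln13_13_3_ok))) (B (M (nat_lit 425) (B (L (nat_lit 395) ln13_12_1 ln13_12_1_ok) (L (nat_lit 427) ln9_13_2 ln9_13_2_ok))) (B (M (nat_lit 427) (B (L (nat_lit 393) ln13_13_3 ln13_13_3_ok) (L (nat_lit 425) ln9_13_2 ln9_13_2_ok))) (M (nat_lit 395) (B (L (nat_lit 393) ln9_12_0 ln9_12_0_ok) (L (nat_lit 425) ln13_12_1 ln13_12_1_ok))))))) (B (M (nat_lit 395) (B (M (nat_lit 365) (B (L (nat_lit 366) ln10_12_2 ln10_12_2_ok) (M (nat_lit 333) (B (L (nat_lit 301) ln13_9_5 ln13_9_5_ok) (L (nat_lit 460) ln13_10_5 ln13_10_5_ok)))))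 (B (M (nat_lit 365) (B (L (nat_lit 366) ln10_12_2 ln10_12_2_ok) (M (nat_lit 460) (B (L (nat_lit 333) ln13_10_5 ln13_10_5_ok) (L (nat_lit 492) ln12_15_6 ln12_15_6_ok))))) (B (M (nat_lit 427) (B (M (nat_lit 426) (B (L (nat_lit 425) ln13_12_1 ln13_12_1_ok) (M (nat_lit 362) (B (L (nat_lit 361) ln13_12_3 ln13_12_3_ok) (M (nat_lit 459) (B (L (nat_lit 330) ln10_10_4 ln10_10_4_ok) (L (nat_lit 491) ln11_15_7 ln11_15_7_ok))))))) (B (M (nat_lit 426) (B (L (nat_lit 425) ln13_12_1 ln13_12_1_ok) (M (nat_lit 458) (B (L (nat_lit 457) ln13_13_1 ln13_13_1_ok) (M (nat_lit 363) (B (L (nat_lit 331) ln11_10_5 ln11_10_5_ok) (L (nat_lit 490) ln10_15_6 ln10_15_6_ok))))))) (B (M (nat_lit 362) (B (L (nat_lit 361) ln13_12_3 ln13_12_3_ok) (M (nat_lit 459) (B (L (nat_lit 491) ln11_15_7 ln11_15_7_ok) (M (nat_lit 330) (B (L (nat_lit 363) ln11_14_7 ln11_14_7_ok) (L (nat_lit 426) ln10_10_4 ln10_10_4_ok))))))) (M (nat_lit 363) (B (M (nat_lit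 460) (B (L (nat_lit 331) ln11_10_4 ln11_10_4_ok) (L (nat_lit 492) ln12_15_7 ln12_15_7_ok))) (M (nat_lit 362) (B (L (nat_lit 361) ln13_12_3 ln13_12_3_ok) (M (nat_lit 459) (B (L (nat_lit 330) ln11_14_7 ln11_14_7_ok) (L (nat_lit 491) ln11_15_7 ln11_15_7_ok))))))))))) (M (nat_lit 427) (B (M (nat_lit 426) (B (L (nat_lit 425) ln13_12_1 ln13_12_1_ok) (M (nat_lit 458) (B (L (nat_lit 457) ln13_13_1 ln13_13_1_ok) (M (nat_lit 363) (B (L (nat_lit 331) ln11_10_5 ln11_10_5_ok) (L (nat_lit 490) ln10_15_6 ln10_15_6_ok))))))) (M (nat_lit 332) (B (M (nat_lit 364) (B (L (nat_lit 300) ln12_9_5 ln12_9_5_ok) (L (nat_lit 459) ln12_10_5 ln12_10_5_ok))) (B (M (nat_lit 459) (B (L (nat_lit 364) ln12_10_5 ln12_10_5_ok) (M (nat_lit 362) (B (L (nat_lit 361) ln13_12_3 ln13_12_3_ok) (L (nat_lit 491) ln11_15_7 ln11_15_7_ok))))) (M (nat_lit 365) (B (L (nat_lit 366) ln10_12_2 ln10_12_2_ok) (M (nat_lit 333) (B (L (nat_lit 300) ln13_13_7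 ln13_13_7_ok) (L (nat_lit 301) ln13_9_5 ln13_9_5_ok)))))))))))))) (M (nat_lit 460) (B (M (nat_lit 365) (B (L (nat_lit 333) ln13_10_5 ln13_10_5_ok) (L (nat_lit 492) ln12_15_6 ln12_15_6_ok))) (B (M (nat_lit 492) (B (L (nat_lit 365) ln12_15_6 ln12_15_6_ok) (L (nat_lit 524) ln12_16_6 ln12_16_6_ok))) (B (M (nat_lit 364) (B (M (nat_lit 332) (B (L (nat_lit 300) ln12_9_4 ln12_9_4_ok) (M (nat_lit 331) (B (L (nat_lit 299) ln12_13_7 ln12_13_7_ok) (L (nat_lit 363) ln12_14_7 ln12_14_7_ok))))) (M (nat_lit 492) (B (L (nat_lit 524) ln12_16_6 ln12_16_6_ok) (M (nat_lit 491) (B (L (nat_lit 459) ln12_11_5 ln12_11_5_ok) (L (nat_lit 523) ln12_12_5 ln12_12_5_ok))))))) (M (nat_lit 365) (B (L (nat_lit 333) ln13_10_5 ln13_10_5_ok) (M (nat_lit 364) (B (M (nat_lit 332) (B (L (nat_lit 300) ln12_9_4 ln12_9_4_ok) (M (nat_lit 331) (B (L (nat_lit 299) ln12_13_7 ln12_13_7_ok) (L (nat_lit 363) ln12_14_7 ln12_14_7_ok))))) (B (M (nat_lit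 363) (B (L (nat_lit 331) ln12_14_7 ln12_14_7_ok) (M (nat_lit 362) (B (L (nat_lit 361) ln9_11_0 ln9_11_0_ok) (L (nat_lit 393) ln13_11_1 ln13_11_1_ok))))) (M (nat_lit 427) (B (M (nat_lit 332) (B (L (nat_lit 300) ln12_9_4 ln12_9_4_ok) (L (nat_lit 459) ln12_10_5 ln12_10_5_ok))) (M (nat_lit 426) (B (L (nat_lit 393) ln13_13_3 ln13_13_3_ok) (L (nat_lit 425) ln9_13_2 ln9_13_2_ok))))))))))))))))))
theorem c31_s4747 : Sem (nat_lit 2079502271074782996825105998667797622327892532968682267533339094116714610205590646408138528571163187313069251615284523616620773376) (nat_lit 9590011584901295119272601024509596282126972188682427484139379616698605513359800997929636151159932207330160645850716245048076729767942585514224254976) (nat_lit 9590011584901295119272601024509596282126972188682427484139379616698605513359800997929636151159932207330160645850716245048076729767942585514224254976) :=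
  sem_of_chk (M (nat_lit 427) (B (M (nat_lit 426) (B (L (nat_lit 425) ln9_13_2 ln9_13_2_ok) (M (nat_lit 430) (B (M (nat_lit 394) (B (L (nat_lit 393) ln13_13_3 ln13_13_3_ok) (L (nat_lit 395) ln10_12_0 ln10_12_0_ok))) (M (nat_lit 458) (B (L (nat_lit 457) ln13_13_1 ln13_13_1_ok) (L (nat_lit 459) ln14_13_1 ln14_13_1_ok))))))) (B (M (nat_lit 430) (B (M (nat_lit 431) (B (L (nat_lit 395) ln15_13_3 ln15_13_3_ok) (L (nat_lit 432) ln16_13_3 ln16_13_3_ok))) (M (nat_lit 426) (B (L (nat_lit 425) ln9_13_2 ln9_13_2_ok) (M (nat_lit 458) (B (L (nat_lit 457) ln13_13_1 ln13_13_1_ok) (L (nat_lit 459) ln14_13_1 ln14_13_1_ok))))))) (B (M (nat_lit 426) (B (L (nat_lit 425) ln9_13_2 ln9_13_2_ok) (M (nat_lit 394) (B (L (nat_lit 393) ln13_13_3 ln13_13_3_ok) (M (nat_lit 458) (B (L (nat_lit 457) ln13_13_1 ln13_13_1_ok) (M (nat_lit 459) (B (L (nat_lit 430) ln14_13_1 ln14_13_1_ok) (M (nat_lit 362) (B (L (nat_lit 330) ln10_10_4 ln10_10_4_ok)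 (L (nat_lit 491) ln10_11_4 ln10_11_4_ok))))))))))) (B (M (nat_lit 395) (B (M (nat_lit 394) (B (L (nat_lit 393) ln9_12_0 ln9_12_0_ok) (L (nat_lit 430) ln10_12_0 ln10_12_0_ok))) (B (M (nat_lit 430) (B (L (nat_lit 394) ln10_12_0 ln10_12_0_ok) (L (nat_lit 431) ln15_13_3 ln15_13_3_ok))) (B (M (nat_lit 459) (B (M (nat_lit 364) (B (L (nat_lit 332) ln12_10_5 ln12_10_5_ok) (L (nat_lit 491) ln11_15_6 ln11_15_6_ok))) (M (nat_lit 430) (B (L (nat_lit 431) ln15_13_3 ln15_13_3_ok) (L (nat_lit 458) ln14_13_1 ln14_13_1_ok))))) (M (nat_lit 332) (B (M (nat_lit 364) (B (L (nat_lit 300) ln12_9_5 ln12_9_5_ok) (L (nat_lit 459) ln12_10_5 ln12_10_5_ok))) (B (M (nat_lit 394) (B (L (nat_lit 393) ln9_12_0 ln9_12_0_ok) (M (nat_lit 459) (B (L (nat_lit 364) ln12_10_5 ln12_10_5_ok) (M (nat_lit 362) (B (L (nat_lit 361) ln13_12_3 ln13_12_3_ok) (L (nat_lit 491) ln11_15_7 ln11_15_7_ok))))))) (M (nat_lit 365) (B (M (nat_lit 333) (B (L (nat_lit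 300) ln13_13_7 ln13_13_7_ok) (L (nat_lit 301) ln13_9_5 ln13_9_5_ok))) (M (nat_lit 394) (B (L (nat_lit 366) ln10_12_2 ln10_12_2_ok) (L (nat_lit 393) ln9_12_0 ln9_12_0_ok)))))))))))) (B (M (nat_lit 395) (B (M (nat_lit 394) (B (L (nat_lit 393) ln9_12_0 ln9_12_0_ok) (M (nat_lit 426) (B (L (nat_lit 425) ln13_12_1 ln13_12_1_ok) (M (nat_lit 458) (B (L (nat_lit 457) ln13_13_1 ln13_13_1_ok) (M (nat_lit 363) (B (L (nat_lit 331) ln11_10_5 ln11_10_5_ok) (L (nat_lit 490) ln10_15_6 ln10_15_6_ok))))))))) (B (M (nat_lit 394) (B (L (nat_lit 393) ln9_12_0 ln9_12_0_ok) (M (nat_lit 426) (B (L (nat_lit 425) ln13_12_1 ln13_12_1_ok) (M (nat_lit 362) (B (L (nat_lit 361) ln13_12_3 ln13_12_3_ok) (M (nat_lit 459) (B (L (nat_lit 330) ln10_10_4 ln10_10_4_ok) (L (nat_lit 491) ln11_15_7 ln11_15_7_ok))))))))) (B (M (nat_lit 426) (B (L (nat_lit 425) ln9_13_2 ln9_13_2_ok) (M (nat_lit 458) (B (L (nat_lit 457) ln13_13_1 ln13_13_1_ok) (M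 (nat_lit 363) (B (L (nat_lit 331) ln11_10_5 ln11_10_5_ok) (M (nat_lit 490) (B (L (nat_lit 394) ln10_15_6 ln10_15_6_ok) (L (nat_lit 459) ln11_11_5 ln11_11_5_ok))))))))) (B (M (nat_lit 364) (B (M (nat_lit 332) (B (L (nat_lit 300) ln12_9_5 ln12_9_5_ok) (L (nat_lit 459) ln12_10_5 ln12_10_5_ok))) (B (M (nat_lit 459) (B (L (nat_lit 332) ln12_10_5 ln12_10_5_ok) (L (nat_lit 491) ln11_15_6 ln11_15_6_ok))) (B (M (nat_lit 363) (B (M (nat_lit 459) (B (L (nat_lit 491) ln11_15_6 ln11_15_6_ok) (M (nat_lit 362) (B (L (nat_lit 330) ln11_14_7 ln11_14_7_ok) (L (nat_lit 361) ln9_11_0 ln9_11_0_ok))))) (M (nat_lit 426) (B (L (nat_lit 425) ln9_13_2 ln9_13_2_ok) (M (nat_lit 331) (B (L (nat_lit 299) ln11_9_4 ln11_9_4_ok) (L (nat_lit 458) ln11_10_5 ln11_10_5_ok))))))) (M (nat_lit 426) (B (L (nat_lit 425) ln9_13_2 ln9_13_2_ok) (M (nat_lit 331) (B (M (nat_lit 332) (B (L (nat_lit 299) ln12_13_7 ln12_13_7_ok) (L (nat_lit 300) ln12_9_5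 ln12_9_5_ok))) (M (nat_lit 458) (B (L (nat_lit 363) ln11_10_5 ln11_10_5_ok) (L (nat_lit 457) ln13_13_1 ln13_13_1_ok))))))))))) (B (M (nat_lit 394) (B (L (nat_lit 393) ln9_12_0 ln9_12_0_ok) (M (nat_lit 362) (B (L (nat_lit 361) ln13_12_3 ln13_12_3_ok) (M (nat_lit 459) (B (L (nat_lit 491) ln11_15_7 ln11_15_7_ok) (M (nat_lit 330) (B (L (nat_lit 363) ln11_14_7 ln11_14_7_ok) (L (nat_lit 426) ln10_10_4 ln10_10_4_ok))))))))) (M (nat_lit 332) (B (M (nat_lit 364) (B (L (nat_lit 300) ln12_9_5 ln12_9_5_ok) (L (nat_lit 459) ln12_10_5 ln12_10_5_ok))) (B (M (nat_lit 394) (B (L (nat_lit 393) ln9_12_0 ln9_12_0_ok) (M (nat_lit 459) (B (L (nat_lit 364) ln12_10_5 ln12_10_5_ok) (M (nat_lit 362) (B (L (nat_lit 361) ln13_12_3 ln13_12_3_ok) (L (nat_lit 491) ln11_15_7 ln11_15_7_ok))))))) (M (nat_lit 365) (B (M (nat_lit 333) (B (L (nat_lit 300) ln13_13_7 ln13_13_7_ok) (L (nat_lit 301) ln13_9_5 ln13_9_5_ok))) (M (nat_lit 394)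 (B (L (nat_lit 366) ln10_12_2 ln10_12_2_ok) (L (nat_lit 393) ln9_12_0 ln9_12_0_ok)))))))))))))) (B (M (nat_lit 332) (B (M (nat_lit 364) (B (L (nat_lit 300) ln12_9_4 ln12_9_4_ok) (L (nat_lit 459) ln12_10_5 ln12_10_5_ok))) (B (M (nat_lit 430) (B (M (nat_lit 395) (B (L (nat_lit 394) ln10_12_0 ln10_12_0_ok) (L (nat_lit 431) ln15_13_3 ln15_13_3_ok))) (M (nat_lit 333) (B (M (nat_lit 364) (B (L (nat_lit 301) ln12_13_6 ln12_13_6_ok) (L (nat_lit 459) ln12_10_5 ln12_10_5_ok))) (M (nat_lit 462) (B (L (nat_lit 365) ln13_10_4 ln13_10_4_ok) (L (nat_lit 463) ln11_13_0 ln11_13_0_ok))))))) (M (nat_lit 365) (B (M (nat_lit 333) (B (L (nat_lit 300) ln13_13_7 ln13_13_7_ok) (L (nat_lit 301) ln13_9_5 ln13_9_5_ok))) (M (nat_lit 394) (B (M (nat_lit 395) (B (L (nat_lit 366) ln10_12_2 ln10_12_2_ok) (L (nat_lit 393) ln9_12_0 ln9_12_0_ok))) (B (M (nat_lit 395) (B (L (nat_lit 393) ln9_12_0 ln9_12_0_ok) (L (nat_lit 430) ln10_12_0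 ln10_12_0_ok))) (B (M (nat_lit 395) (B (L (nat_lit 366) ln10_12_2 ln10_12_2_ok) (L (nat_lit 430) ln10_12_0 ln10_12_0_ok))) (M (nat_lit 426) (B (L (nat_lit 393) ln13_13_3 ln13_13_3_ok) (L (nat_lit 425) ln9_13_2 ln9_13_2_ok)))))))))))) (M (nat_lit 426) (B (L (nat_lit 425) ln9_13_2 ln9_13_2_ok) (M (nat_lit 394) (B (L (nat_lit 393) ln13_13_3 ln13_13_3_ok) (M (nat_lit 395) (B (L (nat_lit 430) ln10_12_0 ln10_12_0_ok) (M (nat_lit 458) (B (L (nat_lit 457) ln13_13_1 ln13_13_1_ok) (M (nat_lit 363) (B (L (nat_lit 331) ln11_10_5 ln11_10_5_ok) (L (nat_lit 490) ln10_15_6 ln10_15_6_ok)))))))))))))))))) (nat_lit 2079502271074782996825105998667797622327892532968682267533339094116714610205590646408138528571163187313069251615284523616620773376) (nat_lit 9590011584901295119272601024509596282126972188682427484139379616698605513359800997929636151159932207330160645850716245048076729767942585514224254976) (nat_lit 9590011584901295119272601024509596282126972188682427484139379616698605513359800997929636151159932207330160645850716245048076729767942585514224254976)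 (by decide +kernel)
theorem c31_s4748 : Sem (nat_lit 1386334847544579281930502452632026696468783264124728123740719198963059283254184240648144927045128292788721448874933630659377233920) (nat_lit 82377571943944010229755540303396315132195863104196765212519996767519368767852938780672795085145997829931036007382151218232379811448045431457304362850218672128) (nat_lit 82377571943944010229755540303396315132195863104196765212519996767519368767852938780672795085145997829931036007382151218232379811448045431457304362850218672128) :=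
  sem_of_chk (M (nat_lit 428) (B (M (nat_lit 460) (B (M (nat_lit 365) (B (L (nat_lit 333) ln13_10_5 ln13_10_5_ok) (L (nat_lit 492) ln12_15_6 ln12_15_6_ok))) (B (M (nat_lit 492) (B (L (nat_lit 365) ln12_15_6 ln12_15_6_ok) (L (nat_lit 524) ln12_16_6 ln12_16_6_ok))) (B (M (nat_lit 492) (B (L (nat_lit 524) ln12_16_6 ln12_16_6_ok) (M (nat_lit 395) (B (L (nat_lit 363) ln12_15_7 ln12_15_7_ok) (M (nat_lit 430) (B (L (nat_lit 394) ln10_12_0 ln10_12_0_ok) (L (nat_lit 431) ln15_13_3 ln15_13_3_ok))))))) (M (nat_lit 430) (B (M (nat_lit 395) (B (L (nat_lit 394) ln10_12_0 ln10_12_0_ok) (L (nat_lit 431) ln15_13_3 ln15_13_3_ok))) (B (M (nat_lit 431) (B (L (nat_lit 395) ln15_13_3 ln15_13_3_ok) (L (nat_lit 459) ln15_13_1 ln15_13_1_ok))) (B (M (nat_lit 431) (B (L (nat_lit 432) ln16_13_3 ln16_13_3_ok) (L (nat_lit 459) ln15_13_1 ln15_13_1_ok))) (M (nat_lit 427) (B (M (nat_lit 394) (B (L (nat_lit 395) ln10_12_0 ln10_12_0_ok)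 (M (nat_lit 426) (B (L (nat_lit 393) ln13_13_3 ln13_13_3_ok) (L (nat_lit 425) ln9_13_2 ln9_13_2_ok))))) (B (M (nat_lit 426) (B (L (nat_lit 425) ln9_13_2 ln9_13_2_ok) (M (nat_lit 458) (B (L (nat_lit 457) ln13_13_1 ln13_13_1_ok) (L (nat_lit 459) ln14_13_1 ln14_13_1_ok))))) (M (nat_lit 459) (B (L (nat_lit 458) ln14_13_1 ln14_13_1_ok) (M (nat_lit 364) (B (L (nat_lit 332) ln12_10_5 ln12_10_5_ok) (L (nat_lit 491) ln12_11_5 ln12_11_5_ok)))))))))))))))) (B (M (nat_lit 460) (B (M (nat_lit 365) (B (L (nat_lit 333) ln13_10_5 ln13_10_5_ok) (L (nat_lit 492) ln12_15_6 ln12_15_6_ok))) (B (M (nat_lit 492) (B (L (nat_lit 365) ln12_15_6 ln12_15_6_ok) (L (nat_lit 524) ln12_16_6 ln12_16_6_ok))) (B (M (nat_lit 492) (B (L (nat_lit 524) ln12_16_6 ln12_16_6_ok) (M (nat_lit 395) (B (L (nat_lit 363) ln12_15_7 ln12_15_7_ok) (M (nat_lit 430) (B (L (nat_lit 394) ln10_12_0 ln10_12_0_ok) (L (nat_lit 431) ln15_13_3 ln15_13_3_ok)))))))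 (M (nat_lit 430) (B (M (nat_lit 395) (B (L (nat_lit 394) ln10_12_0 ln10_12_0_ok) (L (nat_lit 431) ln15_13_3 ln15_13_3_ok))) (B (M (nat_lit 431) (B (L (nat_lit 395) ln15_13_3 ln15_13_3_ok) (L (nat_lit 459) ln15_13_1 ln15_13_1_ok))) (B (M (nat_lit 431) (B (L (nat_lit 432) ln16_13_3 ln16_13_3_ok) (L (nat_lit 459) ln15_13_1 ln15_13_1_ok))) (M (nat_lit 427) (B (M (nat_lit 394) (B (L (nat_lit 395) ln10_12_0 ln10_12_0_ok) (M (nat_lit 426) (B (L (nat_lit 393) ln13_13_3 ln13_13_3_ok) (L (nat_lit 425) ln9_13_2 ln9_13_2_ok))))) (B (M (nat_lit 426) (B (L (nat_lit 425) ln9_13_2 ln9_13_2_ok) (M (nat_lit 458) (B (L (nat_lit 457) ln13_13_1 ln13_13_1_ok) (L (nat_lit 459) ln14_13_1 ln14_13_1_ok))))) (M (nat_lit 459) (B (L (nat_lit 458) ln14_13_1 ln14_13_1_ok) (M (nat_lit 491) (B (L (nat_lit 364) ln12_11_5 ln12_11_5_ok) (L (nat_lit 523) ln11_16_6 ln11_16_6_ok)))))))))))))))) (B (M (nat_lit 460) (B (M (nat_lit 492) (B (L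 (nat_lit 365) ln12_15_6 ln12_15_6_ok) (L (nat_lit 524) ln12_16_6 ln12_16_6_ok))) (B (M (nat_lit 459) (B (M (nat_lit 430) (B (L (nat_lit 431) ln15_13_1 ln15_13_1_ok) (M (nat_lit 458) (B (L (nat_lit 427) ln14_13_1 ln14_13_1_ok) (L (nat_lit 457) ln9_14_2 ln9_14_2_ok))))) (M (nat_lit 492) (B (L (nat_lit 524) ln12_16_6 ln12_16_6_ok) (M (nat_lit 491) (B (L (nat_lit 364) ln12_11_5 ln12_11_5_ok) (L (nat_lit 523) ln12_12_5 ln12_12_5_ok))))))) (M (nat_lit 430) (B (M (nat_lit 395) (B (L (nat_lit 394) ln10_12_0 ln10_12_0_ok) (L (nat_lit 431) ln15_13_3 ln15_13_3_ok))) (B (M (nat_lit 431) (B (L (nat_lit 395) ln15_13_3 ln15_13_3_ok) (L (nat_lit 459) ln15_13_1 ln15_13_1_ok))) (B (M (nat_lit 431) (B (L (nat_lit 432) ln16_13_3 ln16_13_3_ok) (L (nat_lit 459) ln15_13_1 ln15_13_1_ok))) (M (nat_lit 427) (B (M (nat_lit 394) (B (L (nat_lit 395) ln10_12_0 ln10_12_0_ok) (M (nat_lit 426) (B (L (nat_lit 393) ln13_13_3 ln13_13_3_ok)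 (L (nat_lit 425) ln9_13_2 ln9_13_2_ok))))) (B (M (nat_lit 426) (B (L (nat_lit 425) ln9_13_2 ln9_13_2_ok) (M (nat_lit 458) (B (L (nat_lit 457) ln13_13_1 ln13_13_1_ok) (L (nat_lit 459) ln14_13_1 ln14_13_1_ok))))) (M (nat_lit 459) (B (L (nat_lit 458) ln14_13_1 ln14_13_1_ok) (M (nat_lit 491) (B (L (nat_lit 364) ln12_11_5 ln12_11_5_ok) (L (nat_lit 523) ln11_16_6 ln11_16_6_ok))))))))))))))) (B (M (nat_lit 430) (B (M (nat_lit 395) (B (L (nat_lit 394) ln10_12_0 ln10_12_0_ok) (L (nat_lit 431) ln15_13_3 ln15_13_3_ok))) (B (M (nat_lit 431) (B (L (nat_lit 395) ln15_13_3 ln15_13_3_ok) (L (nat_lit 432) ln16_13_3 ln16_13_3_ok))) (B (M (nat_lit 460) (B (M (nat_lit 492) (B (L (nat_lit 365) ln12_15_6 ln12_15_6_ok) (L (nat_lit 524) ln12_16_6 ln12_16_6_ok))) (M (nat_lit 431) (B (L (nat_lit 432) ln16_13_3 ln16_13_3_ok) (L (nat_lit 459) ln15_13_1 ln15_13_1_ok))))) (M (nat_lit 427) (B (M (nat_lit 394) (B (L (nat_lit 395) ln10_12_0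 ln10_12_0_ok) (M (nat_lit 426) (B (L (nat_lit 393) ln13_13_3 ln13_13_3_ok) (L (nat_lit 425) ln9_13_2 ln9_13_2_ok))))) (B (M (nat_lit 426) (B (L (nat_lit 425) ln9_13_2 ln9_13_2_ok) (M (nat_lit 458) (B (L (nat_lit 457) ln13_13_1 ln13_13_1_ok) (L (nat_lit 459) ln14_13_1 ln14_13_1_ok))))) (B (M (nat_lit 426) (B (M (nat_lit 394) (B (L (nat_lit 393) ln13_13_3 ln13_13_3_ok) (L (nat_lit 395) ln10_12_0 ln10_12_0_ok))) (M (nat_lit 458) (B (L (nat_lit 457) ln13_13_1 ln13_13_1_ok) (L (nat_lit 459) ln14_13_1 ln14_13_1_ok))))) (M (nat_lit 395) (B (L (nat_lit 394) ln10_12_0 ln10_12_0_ok) (M (nat_lit 459) (B (L (nat_lit 458) ln14_13_1 ln14_13_1_ok) (M (nat_lit 492) (B (M (nat_lit 460) (B (L (nat_lit 363) ln12_15_7 ln12_15_7_ok) (L (nat_lit 365) ln12_15_6 ln12_15_6_ok))) (M (nat_lit 491) (B (L (nat_lit 524) ln11_12_4 ln11_12_4_ok) (L (nat_lit 523) ln11_16_6 ln11_16_6_ok))))))))))))))))) (B (M (nat_lit 460) (B (M (nat_lit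 492) (B (L (nat_lit 524) ln12_16_6 ln12_16_6_ok) (M (nat_lit 395) (B (L (nat_lit 363) ln12_15_7 ln12_15_7_ok) (M (nat_lit 430) (B (L (nat_lit 394) ln10_12_0 ln10_12_0_ok) (L (nat_lit 431) ln15_13_3 ln15_13_3_ok))))))) (B (M (nat_lit 459) (B (M (nat_lit 430) (B (L (nat_lit 431) ln15_13_1 ln15_13_1_ok) (M (nat_lit 458) (B (L (nat_lit 427) ln14_13_1 ln14_13_1_ok) (L (nat_lit 457) ln9_14_2 ln9_14_2_ok))))) (M (nat_lit 492) (B (L (nat_lit 524) ln12_16_6 ln12_16_6_ok) (M (nat_lit 491) (B (L (nat_lit 364) ln12_11_5 ln12_11_5_ok) (L (nat_lit 523) ln12_12_5 ln12_12_5_ok))))))) (B (M (nat_lit 492) (B (L (nat_lit 524) ln12_16_6 ln12_16_6_ok) (M (nat_lit 364) (B (M (nat_lit 363) (B (L (nat_lit 331) ln12_14_7 ln12_14_7_ok) (L (nat_lit 395) ln12_15_7 ln12_15_7_ok))) (M (nat_lit 491) (B (L (nat_lit 459) ln12_11_5 ln12_11_5_ok) (L (nat_lit 523) ln12_12_5 ln12_12_5_ok))))))) (M (nat_lit 430) (B (M (nat_lit 395) (B (L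 (nat_lit 394) ln10_12_0 ln10_12_0_ok) (L (nat_lit 431) ln15_13_3 ln15_13_3_ok))) (B (M (nat_lit 431) (B (L (nat_lit 395) ln15_13_3 ln15_13_3_ok) (L (nat_lit 459) ln15_13_1 ln15_13_1_ok))) (B (M (nat_lit 431) (B (L (nat_lit 432) ln16_13_3 ln16_13_3_ok) (L (nat_lit 459) ln15_13_1 ln15_13_1_ok))) (M (nat_lit 427) (B (M (nat_lit 394) (B (L (nat_lit 395) ln10_12_0 ln10_12_0_ok) (M (nat_lit 426) (B (L (nat_lit 393) ln13_13_3 ln13_13_3_ok) (L (nat_lit 425) ln9_13_2 ln9_13_2_ok))))) (B (M (nat_lit 426) (B (L (nat_lit 425) ln9_13_2 ln9_13_2_ok) (M (nat_lit 458) (B (L (nat_lit 457) ln13_13_1 ln13_13_1_ok) (L (nat_lit 459) ln14_13_1 ln14_13_1_ok))))) (M (nat_lit 459) (B (L (nat_lit 458) ln14_13_1 ln14_13_1_ok) (M (nat_lit 491) (B (L (nat_lit 364) ln12_11_5 ln12_11_5_ok) (L (nat_lit 523) ln11_16_6 ln11_16_6_ok)))))))))))))))) (B (M (nat_lit 460) (B (M (nat_lit 492) (B (L (nat_lit 365) ln12_15_6 ln12_15_6_ok) (L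 (nat_lit 524) ln12_16_6 ln12_16_6_ok))) (B (M (nat_lit 364) (B (M (nat_lit 332) (B (L (nat_lit 300) ln12_9_4 ln12_9_4_ok) (M (nat_lit 331) (B (L (nat_lit 299) ln12_13_7 ln12_13_7_ok) (L (nat_lit 363) ln12_14_7 ln12_14_7_ok))))) (B (M (nat_lit 492) (B (L (nat_lit 524) ln12_16_6 ln12_16_6_ok) (M (nat_lit 363) (B (L (nat_lit 331) ln12_14_7 ln12_14_7_ok) (L (nat_lit 395) ln12_15_7 ln12_15_7_ok))))) (M (nat_lit 459) (B (L (nat_lit 491) ln12_11_5 ln12_11_5_ok) (M (nat_lit 332) (B (L (nat_lit 300) ln12_9_4 ln12_9_4_ok) (L (nat_lit 427) ln12_10_5 ln12_10_5_ok)))))))) (M (nat_lit 430) (B (M (nat_lit 431) (B (L (nat_lit 395) ln15_13_3 ln15_13_3_ok) (L (nat_lit 432) ln16_13_3 ln16_13_3_ok))) (B (M (nat_lit 431) (B (L (nat_lit 432) ln16_13_3 ln16_13_3_ok) (L (nat_lit 459) ln15_13_1 ln15_13_1_ok))) (M (nat_lit 364) (B (M (nat_lit 332) (B (L (nat_lit 300) ln12_9_4 ln12_9_4_ok) (M (nat_lit 331) (B (L (nat_lit 299)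 ln12_13_7 ln12_13_7_ok) (L (nat_lit 363) ln12_14_7 ln12_14_7_ok))))) (B (M (nat_lit 459) (B (L (nat_lit 491) ln12_11_5 ln12_11_5_ok) (M (nat_lit 332) (B (L (nat_lit 300) ln12_9_4 ln12_9_4_ok) (L (nat_lit 427) ln12_10_5 ln12_10_5_ok))))) (B (M (nat_lit 459) (B (L (nat_lit 491) ln12_11_5 ln12_11_5_ok) (M (nat_lit 427) (B (L (nat_lit 332) ln12_10_5 ln12_10_5_ok) (L (nat_lit 458) ln14_13_1 ln14_13_1_ok))))) (M (nat_lit 459) (B (L (nat_lit 491) ln12_11_5 ln12_11_5_ok) (M (nat_lit 458) (B (L (nat_lit 427) ln14_13_1 ln14_13_1_ok) (L (nat_lit 457) ln9_14_2 ln9_14_2_ok))))))))))))))) (B (M (nat_lit 460) (B (M (nat_lit 365) (B (L (nat_lit 333) ln13_10_5 ln13_10_5_ok) (L (nat_lit 492) ln12_15_6 ln12_15_6_ok))) (B (M (nat_lit 492) (B (L (nat_lit 365) ln12_15_6 ln12_15_6_ok) (L (nat_lit 524) ln12_16_6 ln12_16_6_ok))) (B (M (nat_lit 364) (B (M (nat_lit 459) (B (L (nat_lit 491) ln12_11_5 ln12_11_5_ok) (M (nat_lit 332)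 (B (L (nat_lit 300) ln12_9_4 ln12_9_4_ok) (L (nat_lit 427) ln12_10_5 ln12_10_5_ok))))) (B (M (nat_lit 492) (B (L (nat_lit 524) ln12_16_6 ln12_16_6_ok) (M (nat_lit 491) (B (L (nat_lit 459) ln12_11_5 ln12_11_5_ok) (L (nat_lit 523) ln12_12_5 ln12_12_5_ok))))) (M (nat_lit 332) (B (L (nat_lit 300) ln12_9_4 ln12_9_4_ok) (M (nat_lit 331) (B (L (nat_lit 299) ln12_13_7 ln12_13_7_ok) (L (nat_lit 363) ln12_14_7 ln12_14_7_ok)))))))) (M (nat_lit 333) (B (L (nat_lit 365) ln13_10_5 ln13_10_5_ok) (M (nat_lit 459) (B (M (nat_lit 430) (B (L (nat_lit 431) ln15_13_1 ln15_13_1_ok) (M (nat_lit 458) (B (L (nat_lit 427) ln14_13_1 ln14_13_1_ok) (L (nat_lit 457) ln9_14_2 ln9_14_2_ok))))) (M (nat_lit 364) (B (L (nat_lit 491) ln12_11_5 ln12_11_5_ok) (M (nat_lit 332) (B (L (nat_lit 300) ln12_9_4 ln12_9_4_ok) (L (nat_lit 301) ln12_13_6 ln12_13_6_ok))))))))))))) (B (M (nat_lit 460) (B (M (nat_lit 365) (B (L (nat_lit 333) ln13_10_5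 ln13_10_5_ok) (L (nat_lit 492) ln12_15_6 ln12_15_6_ok))) (B (M (nat_lit 492) (B (L (nat_lit 365) ln12_15_6 ln12_15_6_ok) (L (nat_lit 524) ln12_16_6 ln12_16_6_ok))) (B (M (nat_lit 492) (B (L (nat_lit 524) ln12_16_6 ln12_16_6_ok) (M (nat_lit 395) (B (L (nat_lit 363) ln12_15_7 ln12_15_7_ok) (M (nat_lit 430) (B (L (nat_lit 394) ln10_12_0 ln10_12_0_ok) (L (nat_lit 431) ln15_13_3 ln15_13_3_ok))))))) (M (nat_lit 364) (B (M (nat_lit 333) (B (L (nat_lit 365) ln12_14_6 ln12_14_6_ok) (M (nat_lit 332) (B (L (nat_lit 300) ln12_9_4 ln12_9_4_ok) (L (nat_lit 301) ln12_13_6 ln12_13_6_ok))))) (B (M (nat_lit 332) (B (M (nat_lit 331) (B (L (nat_lit 299) ln12_13_7 ln12_13_7_ok) (L (nat_lit 363) ln12_14_7 ln12_14_7_ok))) (M (nat_lit 333) (B (L (nat_lit 301) ln12_13_6 ln12_13_6_ok) (L (nat_lit 365) ln12_14_6 ln12_14_6_ok))))) (B (M (nat_lit 332) (B (L (nat_lit 300) ln12_9_4 ln12_9_4_ok) (M (nat_lit 331) (B (L (nat_lit 299)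 ln12_13_7 ln12_13_7_ok) (L (nat_lit 363) ln12_14_7 ln12_14_7_ok))))) (M (nat_lit 365) (B (L (nat_lit 333) ln12_14_6 ln12_14_6_ok) (M (nat_lit 363) (B (L (nat_lit 331) ln12_14_7 ln12_14_7_ok) (M (nat_lit 394) (B (M (nat_lit 362) (B (L (nat_lit 361) ln9_11_0 ln9_11_0_ok) (L (nat_lit 393) ln13_11_1 ln13_11_1_ok))) (M (nat_lit 395) (B (L (nat_lit 366) ln14_11_1 ln14_11_1_ok) (L (nat_lit 430) ln10_12_0 ln10_12_0_ok))))))))))))))))) (B c31_n4642 (K (nat_lit 2079502271074782996825105998667797622327892532968682267533339094116714610205590646408138528571163187313069251615284523616620773376) (nat_lit 9590011584901295119272601024509596282126972188682427484139379616698605513359800997929636151159932207330160645850716245048076729767942585514224254976) (nat_lit 9590011584901295119272601024509596282126972188682427484139379616698605513359800997929636151159932207330160645850716245048076729767942585514224254976) c31_s4747)))))))))))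 (nat_lit 1386334847544579281930502452632026696468783264124728123740719198963059283254184240648144927045128292788721448874933630659377233920) (nat_lit 82377571943944010229755540303396315132195863104196765212519996767519368767852938780672795085145997829931036007382151218232379811448045431457304362850218672128) (nat_lit 82377571943944010229755540303396315132195863104196765212519996767519368767852938780672795085145997829931036007382151218232379811448045431457304362850218672128) (by decide +kernel)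
theorem c31_s4813 : Sem (nat_lit 1386334847544579281930502452632026696468783264124728123740719198963059283254184240648144927045128292788721448874933630659377233920) (nat_lit 659020575538765399485679705167172772061888105282231565452670596879823802675054855398300862074861997724650428188543433722504826164117001279270615368376430624768) (nat_lit 659020575538765399485679705167172772061888105282231565452670596879823802675054855398300862074861997724650428188543433722504826164117001279270615368376430624768) :=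
  sem_of_chk (M (nat_lit 430) (B (M (nat_lit 431) (B (L (nat_lit 432) ln16_13_3 ln16_13_3_ok) (M (nat_lit 395) (B (L (nat_lit 394) ln10_12_0 ln10_12_0_ok) (L (nat_lit 428) ln15_13_3 ln15_13_3_ok))))) (B (M (nat_lit 431) (B (L (nat_lit 432) ln16_13_3 ln16_13_3_ok) (M (nat_lit 395) (B (L (nat_lit 398) ln11_12_0 ln11_12_0_ok) (L (nat_lit 428) ln15_13_3 ln15_13_3_ok))))) (B (M (nat_lit 399) (B (M (nat_lit 431) (B (L (nat_lit 432) ln16_13_3 ln16_13_3_ok) (M (nat_lit 428) (B (L (nat_lit 400) ln12_13_2 ln12_13_2_ok) (M (nat_lit 460) (B (L (nat_lit 459) ln15_13_1 ln15_13_1_ok) (M (nat_lit 365) (B (L (nat_lit 333) ln13_10_5 ln13_10_5_ok) (L (nat_lit 492) ln12_15_6 ln12_15_6_ok))))))))) (B (M (nat_lit 400) (B (M (nat_lit 398) (B (L (nat_lit 428) ln16_12_1 ln16_12_1_ok) (L (nat_lit 401) ln17_12_1 ln17_12_1_ok))) (B (M (nat_lit 431) (B (L (nat_lit 432) ln16_13_3 ln16_13_3_ok) (L (nat_lit 428) ln12_13_2 ln12_13_2_ok)))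 (M (nat_lit 398) (B (L (nat_lit 401) ln17_12_1 ln17_12_1_ok) (M (nat_lit 364) (B (L (nat_lit 363) ln15_12_3 ln15_12_3_ok) (L (nat_lit 365) ln16_12_3 ln16_12_3_ok)))))))) (B (M (nat_lit 431) (B (L (nat_lit 432) ln16_13_3 ln16_13_3_ok) (M (nat_lit 398) (B (M (nat_lit 400) (B (L (nat_lit 428) ln16_12_1 ln16_12_1_ok) (L (nat_lit 401) ln17_12_1 ln17_12_1_ok))) (M (nat_lit 367) (B (L (nat_lit 368) ln12_12_2 ln12_12_2_ok) (M (nat_lit 335) (B (L (nat_lit 303) ln15_9_5 ln15_9_5_ok) (L (nat_lit 462) ln15_10_5 ln15_10_5_ok))))))))) (B (M (nat_lit 462) (B (M (nat_lit 494) (B (L (nat_lit 526) ln14_16_7 ln14_16_7_ok) (M (nat_lit 398) (B (L (nat_lit 365) ln14_15_7 ln14_15_7_ok) (L (nat_lit 367) ln14_15_6 ln14_15_6_ok))))) (B (M (nat_lit 367) (B (M (nat_lit 431) (B (L (nat_lit 335) ln15_10_5 ln15_10_5_ok) (L (nat_lit 432) ln16_13_3 ln16_13_3_ok))) (M (nat_lit 398) (B (L (nat_lit 368) ln12_12_2 ln12_12_2_ok) (L (nat_lit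 494) ln14_15_6 ln14_15_6_ok))))) (B (M (nat_lit 494) (B (L (nat_lit 526) ln14_16_7 ln14_16_7_ok) (M (nat_lit 365) (B (L (nat_lit 333) ln13_10_4 ln13_10_4_ok) (L (nat_lit 398) ln14_15_7 ln14_15_7_ok))))) (B (M (nat_lit 431) (B (L (nat_lit 432) ln16_13_3 ln16_13_3_ok) (M (nat_lit 494) (B (L (nat_lit 526) ln14_16_7 ln14_16_7_ok) (M (nat_lit 367) (B (L (nat_lit 335) ln15_10_5 ln15_10_5_ok) (L (nat_lit 463) ln15_11_5 ln15_11_5_ok))))))) (M (nat_lit 365) (B (L (nat_lit 333) ln13_10_4 ln13_10_4_ok) (M (nat_lit 367) (B (M (nat_lit 431) (B (L (nat_lit 335) ln15_10_5 ln15_10_5_ok) (L (nat_lit 432) ln16_13_3 ln16_13_3_ok))) (M (nat_lit 368) (B (L (nat_lit 366) ln16_11_1 ln16_11_1_ok) (L (nat_lit 398) ln12_12_2 ln12_12_2_ok)))))))))))) (M (nat_lit 398) (B (M (nat_lit 400) (B (L (nat_lit 428) ln16_12_1 ln16_12_1_ok) (L (nat_lit 401) ln17_12_1 ln17_12_1_ok))) (M (nat_lit 367) (B (L (nat_lit 368) ln12_12_2 ln12_12_2_ok)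 (M (nat_lit 462) (B (L (nat_lit 494) ln14_15_6 ln14_15_6_ok) (M (nat_lit 335) (B (L (nat_lit 303) ln15_9_5 ln15_9_5_ok) (L (nat_lit 366) ln14_14_6 ln14_14_6_ok)))))))))))))) (B (M (nat_lit 395) (B (L (nat_lit 394) ln10_12_0 ln10_12_0_ok) (M (nat_lit 431) (B (L (nat_lit 398) ln11_12_0 ln11_12_0_ok) (L (nat_lit 432) ln16_13_3 ln16_13_3_ok))))) (M (nat_lit 398) (B (M (nat_lit 395) (B (L (nat_lit 394) ln10_12_0 ln10_12_0_ok) (M (nat_lit 399) (B (M (nat_lit 363) (B (L (nat_lit 362) ln14_12_3 ln14_12_3_ok) (L (nat_lit 364) ln15_12_3 ln15_12_3_ok))) (M (nat_lit 367) (B (L (nat_lit 366) ln11_12_2 ln11_12_2_ok) (L (nat_lit 368) ln12_12_2 ln12_12_2_ok))))))) (B (M (nat_lit 399) (B (M (nat_lit 400) (B (L (nat_lit 428) ln16_12_1 ln16_12_1_ok) (L (nat_lit 401) ln17_12_1 ln17_12_1_ok))) (M (nat_lit 395) (B (L (nat_lit 394) ln10_12_0 ln10_12_0_ok) (M (nat_lit 367) (B (L (nat_lit 366) ln11_12_2 ln11_12_2_ok) (L (nat_lit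 368) ln12_12_2 ln12_12_2_ok))))))) (B (M (nat_lit 399) (B (M (nat_lit 400) (B (L (nat_lit 428) ln16_12_1 ln16_12_1_ok) (L (nat_lit 401) ln17_12_1 ln17_12_1_ok))) (M (nat_lit 395) (B (L (nat_lit 394) ln10_12_0 ln10_12_0_ok) (M (nat_lit 363) (B (L (nat_lit 362) ln14_12_3 ln14_12_3_ok) (L (nat_lit 364) ln15_12_3 ln15_12_3_ok))))))) (B (M (nat_lit 399) (B (M (nat_lit 400) (B (L (nat_lit 428) ln16_12_1 ln16_12_1_ok) (L (nat_lit 401) ln17_12_1 ln17_12_1_ok))) (M (nat_lit 395) (B (M (nat_lit 363) (B (L (nat_lit 362) ln14_12_3 ln14_12_3_ok) (L (nat_lit 364) ln15_12_3 ln15_12_3_ok))) (M (nat_lit 367) (B (L (nat_lit 366) ln11_12_2 ln11_12_2_ok) (L (nat_lit 368) ln12_12_2 ln12_12_2_ok))))))) (B (M (nat_lit 399) (B (M (nat_lit 400) (B (L (nat_lit 428) ln16_12_1 ln16_12_1_ok) (L (nat_lit 401) ln17_12_1 ln17_12_1_ok))) (M (nat_lit 367) (B (L (nat_lit 368) ln12_12_2 ln12_12_2_ok) (M (nat_lit 462) (B (L (nat_lit 494)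 ln14_15_6 ln14_15_6_ok) (M (nat_lit 335) (B (L (nat_lit 303) ln15_9_5 ln15_9_5_ok) (L (nat_lit 366) ln14_14_6 ln14_14_6_ok))))))))) (M (nat_lit 366) (B (M (nat_lit 395) (B (L (nat_lit 367) ln11_12_2 ln11_12_2_ok) (L (nat_lit 394) ln10_12_0 ln10_12_0_ok))) (M (nat_lit 462) (B (M (nat_lit 365) (B (L (nat_lit 333) ln14_14_7 ln14_14_7_ok) (L (nat_lit 494) ln14_15_7 ln14_15_7_ok))) (B (M (nat_lit 494) (B (L (nat_lit 365) ln14_15_7 ln14_15_7_ok) (L (nat_lit 526) ln14_16_7 ln14_16_7_ok))) (B (M (nat_lit 494) (B (L (nat_lit 526) ln14_16_7 ln14_16_7_ok) (M (nat_lit 495) (B (L (nat_lit 463) ln14_11_4 ln14_11_4_ok) (L (nat_lit 527) ln14_12_4 ln14_12_4_ok))))) (M (nat_lit 333) (B (L (nat_lit 365) ln14_14_7 ln14_14_7_ok) (M (nat_lit 334) (B (L (nat_lit 301) ln14_13_7 ln14_13_7_ok) (L (nat_lit 302) ln14_9_5 ln14_9_5_ok)))))))))))))))))))))) (nat_lit 1386334847544579281930502452632026696468783264124728123740719198963059283254184240648144927045128292788721448874933630659377233920)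 (nat_lit 659020575538765399485679705167172772061888105282231565452670596879823802675054855398300862074861997724650428188543433722504826164117001279270615368376430624768) (nat_lit 659020575538765399485679705167172772061888105282231565452670596879823802675054855398300862074861997724650428188543433722504826164117001279270615368376430624768) (by decide +kernel)
noncomputable def c31_n5014 : Cert := (M (nat_lit 366) (B (M (nat_lit 395) (B (L (nat_lit 367) ln11_12_2 ln11_12_2_ok) (M (nat_lit 394) (B (L (nat_lit 365) ln10_12_2 ln10_12_2_ok) (M (nat_lit 362) (B (L (nat_lit 361) ln13_12_3 ln13_12_3_ok) (L (nat_lit 363) ln14_12_3 ln14_12_3_ok))))))) (B (M (nat_lit 395) (B (L (nat_lit 367) ln11_12_2 ln11_12_2_ok) (M (nat_lit 394) (B (L (nat_lit 365) ln10_12_2 ln10_12_2_ok) (M (nat_lit 426) (B (L (nat_lit 425) ln13_12_1 ln13_12_1_ok) (L (nat_lit 427) ln14_12_1 ln14_12_1_ok))))))) (B (M (nat_lit 395) (B (L (nat_lit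 367) ln11_12_2 ln11_12_2_ok) (M (nat_lit 394) (B (M (nat_lit 362) (B (L (nat_lit 361) ln13_12_3 ln13_12_3_ok) (L (nat_lit 363) ln14_12_3 ln14_12_3_ok))) (M (nat_lit 426) (B (L (nat_lit 425) ln13_12_1 ln13_12_1_ok) (L (nat_lit 427) ln14_12_1 ln14_12_1_ok))))))) (B (M (nat_lit 363) (B (M (nat_lit 362) (B (L (nat_lit 395) ln14_12_3 ln14_12_3_ok) (M (nat_lit 364) (B (L (nat_lit 361) ln9_11_0 ln9_11_0_ok) (L (nat_lit 365) ln10_11_0 ln10_11_0_ok))))) (B (M (nat_lit 395) (B (L (nat_lit 362) ln14_12_3 ln14_12_3_ok) (M (nat_lit 394) (B (L (nat_lit 365) ln10_12_2 ln10_12_2_ok) (M (nat_lit 426) (B (L (nat_lit 425) ln13_12_1 ln13_12_1_ok) (L (nat_lit 427) ln14_12_1 ln14_12_1_ok))))))) (B (M (nat_lit 364) (B (M (nat_lit 334) (B (L (nat_lit 302) ln14_9_5 ln14_9_5_ok) (M (nat_lit 335) (B (L (nat_lit 333) ln15_10_1 ln15_10_1_ok) (L (nat_lit 365) ln11_11_2 ln11_11_2_ok))))) (M (nat_lit 428) (B (M (nat_lit 331) (B (L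 (nat_lit 299) ln12_13_7 ln12_13_7_ok) (L (nat_lit 460) ln12_14_7 ln12_14_7_ok))) (M (nat_lit 427) (B (L (nat_lit 459) ln12_10_5 ln12_10_5_ok) (L (nat_lit 426) ln10_13_2 ln10_13_2_ok))))))) (M (nat_lit 364) (B (M (nat_lit 362) (B (L (nat_lit 361) ln9_11_0 ln9_11_0_ok) (L (nat_lit 395) ln14_12_3 ln14_12_3_ok))) (B (M (nat_lit 395) (B (L (nat_lit 362) ln14_12_3 ln14_12_3_ok) (M (nat_lit 427) (B (L (nat_lit 459) ln11_14_6 ln11_14_6_ok) (L (nat_lit 426) ln14_12_1 ln14_12_1_ok))))) (M (nat_lit 428) (B (M (nat_lit 331) (B (L (nat_lit 299) ln12_13_7 ln12_13_7_ok) (L (nat_lit 460) ln12_14_7 ln12_14_7_ok))) (M (nat_lit 427) (B (L (nat_lit 459) ln12_10_5 ln12_10_5_ok) (L (nat_lit 426) ln10_13_2 ln10_13_2_ok)))))))))))) (B (M (nat_lit 367) (B (L (nat_lit 395) ln11_12_2 ln11_12_2_ok) (M (nat_lit 331) (B (M (nat_lit 334) (B (L (nat_lit 302) ln14_9_5 ln14_9_5_ok) (L (nat_lit 333) ln11_10_0 ln11_10_0_ok))) (M (nat_lit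 365) (B (L (nat_lit 364) ln15_11_3 ln15_11_3_ok) (L (nat_lit 368) ln16_11_1 ln16_11_1_ok))))))) (M (nat_lit 365) (B (M (nat_lit 334) (B (L (nat_lit 302) ln14_9_5 ln14_9_5_ok) (M (nat_lit 367) (B (L (nat_lit 368) ln16_11_1 ln16_11_1_ok) (M (nat_lit 331) (B (L (nat_lit 333) ln11_10_0 ln11_10_0_ok) (L (nat_lit 364) ln15_11_3 ln15_11_3_ok))))))) (B (M (nat_lit 367) (B (L (nat_lit 368) ln16_11_1 ln16_11_1_ok) (M (nat_lit 331) (B (L (nat_lit 364) ln15_11_3 ln15_11_3_ok) (M (nat_lit 333) (B (L (nat_lit 330) ln10_10_0 ln10_10_0_ok) (L (nat_lit 334) ln11_10_0 ln11_10_0_ok))))))) (B (M (nat_lit 364) (B (M (nat_lit 334) (B (L (nat_lit 302) ln14_9_5 ln14_9_5_ok) (M (nat_lit 363) (B (L (nat_lit 335) ln11_11_2 ln11_11_2_ok) (L (nat_lit 362) ln10_11_0 ln10_11_0_ok))))) (M (nat_lit 428) (B (M (nat_lit 333) (B (L (nat_lit 301) ln12_13_6 ln12_13_6_ok) (L (nat_lit 460) ln12_14_6 ln12_14_6_ok))) (M (nat_lit 427) (B (L (nat_lit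 459) ln12_10_5 ln12_10_5_ok) (L (nat_lit 426) ln10_13_2 ln10_13_2_ok))))))) (B (M (nat_lit 364) (B (M (nat_lit 367) (B (L (nat_lit 331) ln15_11_3 ln15_11_3_ok) (L (nat_lit 368) ln16_11_1 ln16_11_1_ok))) (M (nat_lit 334) (B (L (nat_lit 302) ln14_9_5 ln14_9_5_ok) (M (nat_lit 363) (B (L (nat_lit 335) ln11_11_2 ln11_11_2_ok) (L (nat_lit 362) ln10_11_0 ln10_11_0_ok))))))) (B (M (nat_lit 428) (B (M (nat_lit 333) (B (L (nat_lit 301) ln13_9_5 ln13_9_5_ok) (L (nat_lit 460) ln13_10_5 ln13_10_5_ok))) (M (nat_lit 364) (B (M (nat_lit 331) (B (L (nat_lit 299) ln12_13_7 ln12_13_7_ok) (L (nat_lit 367) ln15_11_3 ln15_11_3_ok))) (M (nat_lit 427) (B (L (nat_lit 459) ln12_10_5 ln12_10_5_ok) (L (nat_lit 426) ln10_13_2 ln10_13_2_ok))))))) (M (nat_lit 333) (B (M (nat_lit 301) (B (L (nat_lit 269) ln13_8_4 ln13_8_4_ok) (L (nat_lit 428) ln13_9_5 ln13_9_5_ok))) (B (M (nat_lit 428) (B (L (nat_lit 301) ln13_9_5 ln13_9_5_ok) (L (nat_lit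 460) ln13_10_5 ln13_10_5_ok))) (M (nat_lit 334) (B (L (nat_lit 302) ln13_13_6 ln13_13_6_ok) (M (nat_lit 331) (B (L (nat_lit 330) ln10_10_0 ln10_10_0_ok) (L (nat_lit 367) ln11_10_0 ln11_10_0_ok))))))))))))))))))))
noncomputable def c31_n5156 : Cert := (M (nat_lit 428) (B (M (nat_lit 364) (B (L (nat_lit 300) ln12_9_4 ln12_9_4_ok) (M (nat_lit 333) (B (L (nat_lit 301) ln12_13_6 ln12_13_6_ok) (M (nat_lit 460) (B (L (nat_lit 365) ln12_14_6 ln12_14_6_ok) (M (nat_lit 331) (B (L (nat_lit 299) ln12_13_7 ln12_13_7_ok) (L (nat_lit 363) ln12_14_7 ln12_14_7_ok))))))))) (B (M (nat_lit 333) (B (M (nat_lit 300) (B (L (nat_lit 365) ln13_13_7 ln13_13_7_ok) (L (nat_lit 364) ln12_9_4 ln12_9_4_ok))) (B (M (nat_lit 301) (B (L (nat_lit 364) ln12_13_6 ln12_13_6_ok) (L (nat_lit 365) ln13_9_5 ln13_9_5_ok))) (B (M (nat_lit 365) (B (L (nat_lit 300) ln13_13_7 ln13_13_7_ok) (L (nat_lit 301) ln13_9_5 ln13_9_5_ok))) (M (nat_lit 364)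 (B (L (nat_lit 300) ln12_9_4 ln12_9_4_ok) (L (nat_lit 301) ln12_13_6 ln12_13_6_ok))))))) (B (M (nat_lit 333) (B (M (nat_lit 301) (B (L (nat_lit 364) ln12_13_6 ln12_13_6_ok) (L (nat_lit 365) ln13_9_5 ln13_9_5_ok))) (B (M (nat_lit 395) (B (M (nat_lit 394) (B (L (nat_lit 393) ln9_12_0 ln9_12_0_ok) (M (nat_lit 362) (B (L (nat_lit 361) ln13_12_3 ln13_12_3_ok) (L (nat_lit 363) ln14_12_3 ln14_12_3_ok))))) (B (M (nat_lit 365) (B (L (nat_lit 460) ln13_10_5 ln13_10_5_ok) (M (nat_lit 366) (B (L (nat_lit 394) ln10_12_2 ln10_12_2_ok) (L (nat_lit 367) ln11_12_2 ln11_12_2_ok))))) (M (nat_lit 460) (B (L (nat_lit 365) ln13_10_5 ln13_10_5_ok) (M (nat_lit 363) (B (L (nat_lit 362) ln14_12_3 ln14_12_3_ok) (L (nat_lit 492) ln12_15_7 ln12_15_7_ok)))))))) (M (nat_lit 364) (B (L (nat_lit 301) ln12_13_6 ln12_13_6_ok) (M (nat_lit 363) (B (M (nat_lit 331) (B (L (nat_lit 299) ln12_13_7 ln12_13_7_ok) (L (nat_lit 460) ln12_14_7 ln12_14_7_ok)))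 (M (nat_lit 362) (B (L (nat_lit 361) ln9_11_2 ln9_11_2_ok) (L (nat_lit 395) ln14_12_3 ln14_12_3_ok)))))))))) (B (M (nat_lit 364) (B (L (nat_lit 300) ln12_9_4 ln12_9_4_ok) (M (nat_lit 460) (B (M (nat_lit 331) (B (L (nat_lit 299) ln12_13_7 ln12_13_7_ok) (L (nat_lit 363) ln12_14_7 ln12_14_7_ok))) (M (nat_lit 365) (B (L (nat_lit 333) ln12_14_6 ln12_14_6_ok) (L (nat_lit 492) ln12_15_6 ln12_15_6_ok))))))) (B (M (nat_lit 364) (B (L (nat_lit 300) ln12_9_4 ln12_9_4_ok) (M (nat_lit 363) (B (M (nat_lit 331) (B (L (nat_lit 299) ln12_13_7 ln12_13_7_ok) (L (nat_lit 460) ln12_14_7 ln12_14_7_ok))) (M (nat_lit 362) (B (L (nat_lit 365) ln10_11_0 ln10_11_0_ok) (L (nat_lit 395) ln14_12_3 ln14_12_3_ok))))))) (B (M (nat_lit 395) (B (M (nat_lit 366) (B (L (nat_lit 367) ln11_12_2 ln11_12_2_ok) (M (nat_lit 394) (B (L (nat_lit 365) ln10_12_2 ln10_12_2_ok) (L (nat_lit 393) ln9_12_0 ln9_12_0_ok))))) (B (M (nat_lit 394) (B (L (nat_lit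 393) ln9_12_0 ln9_12_0_ok) (M (nat_lit 362) (B (L (nat_lit 361) ln13_12_3 ln13_12_3_ok) (L (nat_lit 363) ln14_12_3 ln14_12_3_ok))))) (B (M (nat_lit 365) (B (M (nat_lit 366) (B (L (nat_lit 394) ln10_12_2 ln10_12_2_ok) (L (nat_lit 367) ln11_12_2 ln11_12_2_ok))) (M (nat_lit 460) (B (L (nat_lit 333) ln13_10_5 ln13_10_5_ok) (L (nat_lit 492) ln12_15_6 ln12_15_6_ok))))) (M (nat_lit 363) (B (L (nat_lit 362) ln14_12_3 ln14_12_3_ok) (M (nat_lit 460) (B (L (nat_lit 492) ln12_15_7 ln12_15_7_ok) (M (nat_lit 331) (B (L (nat_lit 299) ln11_9_4 ln11_9_4_ok) (L (nat_lit 427) ln11_10_4 ln11_10_4_ok))))))))))) (M (nat_lit 364) (B (L (nat_lit 300) ln12_9_4 ln12_9_4_ok) (M (nat_lit 363) (B (M (nat_lit 331) (B (L (nat_lit 299) ln12_13_7 ln12_13_7_ok) (L (nat_lit 460) ln12_14_7 ln12_14_7_ok))) (M (nat_lit 362) (B (L (nat_lit 361) ln9_11_0 ln9_11_0_ok) (L (nat_lit 395) ln14_12_3 ln14_12_3_ok))))))))))))))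
theorem c31_s5195 : Sem (nat_lit 1386334848190141751452229600046006489469536232707154571948025077170724122389346146152355225702539631108755906733909423652564107264) (nat_lit 19180023097607153392980431034644608015016303027268685578546529738690963428533116091901200784675366469972520653343062562297230169264109563409292328960) (nat_lit 19180023097607153392980431034644608015016303027268685578546529738690963428533116091901200784675366469972520653343062562297230169264109563409292328960) :=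
  sem_of_chk (M (nat_lit 332) (B (M (nat_lit 427) (B (M (nat_lit 426) (B (L (nat_lit 395) ln14_12_1 ln14_12_1_ok) (L (nat_lit 428) ln10_13_2 ln10_13_2_ok))) (B (M (nat_lit 428) (B (L (nat_lit 426) ln10_13_2 ln10_13_2_ok) (M (nat_lit 364) (B (L (nat_lit 300) ln12_9_4 ln12_9_4_ok) (L (nat_lit 459) ln12_10_5 ln12_10_5_ok))))) (B (M (nat_lit 364) (B (L (nat_lit 300) ln12_9_4 ln12_9_4_ok) (M (nat_lit 459) (B (L (nat_lit 428) ln12_10_5 ln12_10_5_ok) (M (nat_lit 395) (B (L (nat_lit 363) ln11_14_6 ln11_14_6_ok) (L (nat_lit 491) ln11_15_6 ln11_15_6_ok))))))) (M (nat_lit 395) (B (L (nat_lit 426) ln14_12_1 ln14_12_1_ok) (M (nat_lit 364) (B (L (nat_lit 300) ln12_9_5 ln12_9_5_ok) (M (nat_lit 459) (B (L (nat_lit 363) ln11_14_6 ln11_14_6_ok) (L (nat_lit 491) ln11_15_6 ln11_15_6_ok))))))))))) (B c31_n5014 (B (M (nat_lit 395) (B (M (nat_lit 427) (B (L (nat_lit 426) ln14_12_1 ln14_12_1_ok) (M (nat_lit 364) (B (L (nat_lit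 300) ln12_9_5 ln12_9_5_ok) (M (nat_lit 459) (B (L (nat_lit 428) ln12_10_5 ln12_10_5_ok) (L (nat_lit 491) ln11_15_6 ln11_15_6_ok))))))) (B (M (nat_lit 394) (B (M (nat_lit 366) (B (L (nat_lit 365) ln10_12_2 ln10_12_2_ok) (L (nat_lit 367) ln11_12_2 ln11_12_2_ok))) (M (nat_lit 426) (B (L (nat_lit 425) ln13_12_1 ln13_12_1_ok) (L (nat_lit 427) ln14_12_1 ln14_12_1_ok))))) (M (nat_lit 365) (B (M (nat_lit 300) (B (L (nat_lit 333) ln13_13_7 ln13_13_7_ok) (L (nat_lit 364) ln12_9_4 ln12_9_4_ok))) (M (nat_lit 366) (B (L (nat_lit 394) ln10_12_2 ln10_12_2_ok) (L (nat_lit 367) ln11_12_2 ln11_12_2_ok)))))))) (B (M (nat_lit 395) (B (M (nat_lit 394) (B (M (nat_lit 366) (B (L (nat_lit 365) ln10_12_2 ln10_12_2_ok) (L (nat_lit 367) ln11_12_2 ln11_12_2_ok))) (M (nat_lit 426) (B (L (nat_lit 425) ln13_12_1 ln13_12_1_ok) (L (nat_lit 427) ln14_12_1 ln14_12_1_ok))))) (B (M (nat_lit 394) (B (M (nat_lit 362) (B (L (nat_lit 361) ln13_12_3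 ln13_12_3_ok) (L (nat_lit 363) ln14_12_3 ln14_12_3_ok))) (M (nat_lit 426) (B (L (nat_lit 425) ln13_12_1 ln13_12_1_ok) (L (nat_lit 427) ln14_12_1 ln14_12_1_ok))))) (B (M (nat_lit 427) (B (L (nat_lit 426) ln14_12_1 ln14_12_1_ok) (M (nat_lit 363) (B (L (nat_lit 362) ln14_12_3 ln14_12_3_ok) (M (nat_lit 331) (B (L (nat_lit 300) ln11_13_6 ln11_13_6_ok) (M (nat_lit 428) (B (L (nat_lit 299) ln11_9_4 ln11_9_4_ok) (L (nat_lit 460) ln11_10_4 ln11_10_4_ok))))))))) (M (nat_lit 394) (B (M (nat_lit 362) (B (L (nat_lit 361) ln13_12_3 ln13_12_3_ok) (L (nat_lit 363) ln14_12_3 ln14_12_3_ok))) (M (nat_lit 366) (B (L (nat_lit 365) ln10_12_2 ln10_12_2_ok) (L (nat_lit 367) ln11_12_2 ln11_12_2_ok))))))))) (B (M (nat_lit 364) (B (L (nat_lit 300) ln12_9_4 ln12_9_4_ok) (M (nat_lit 363) (B (M (nat_lit 362) (B (L (nat_lit 361) ln9_11_0 ln9_11_0_ok) (L (nat_lit 365) ln10_11_0 ln10_11_0_ok))) (M (nat_lit 428) (B (M (nat_lit 331) (B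 (L (nat_lit 299) ln12_13_7 ln12_13_7_ok) (L (nat_lit 460) ln12_14_7 ln12_14_7_ok))) (M (nat_lit 427) (B (L (nat_lit 459) ln12_10_5 ln12_10_5_ok) (L (nat_lit 426) ln10_13_2 ln10_13_2_ok))))))))) (B c31_n5156 (B (M (nat_lit 365) (B (M (nat_lit 300) (B (L (nat_lit 333) ln13_13_7 ln13_13_7_ok) (L (nat_lit 364) ln12_9_4 ln12_9_4_ok))) (B (M (nat_lit 333) (B (M (nat_lit 428) (B (L (nat_lit 301) ln13_9_5 ln13_9_5_ok) (L (nat_lit 460) ln13_10_5 ln13_10_5_ok))) (B (M (nat_lit 364) (B (M (nat_lit 334) (B (L (nat_lit 302) ln13_13_6 ln13_13_6_ok) (M (nat_lit 363) (B (L (nat_lit 335) ln15_10_1 ln15_10_1_ok) (L (nat_lit 362) ln10_11_2 ln10_11_2_ok))))) (M (nat_lit 331) (B (M (nat_lit 428) (B (L (nat_lit 299) ln12_13_7 ln12_13_7_ok) (L (nat_lit 460) ln12_14_6 ln12_14_6_ok))) (M (nat_lit 366) (B (L (nat_lit 330) ln10_10_0 ln10_10_0_ok) (L (nat_lit 367) ln15_11_3 ln15_11_3_ok))))))) (M (nat_lit 301) (B (M (nat_lit 269)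 (B (L (nat_lit 364) ln13_8_5 ln13_8_5_ok) (L (nat_lit 366) ln13_8_4 ln13_8_4_ok))) (M (nat_lit 302) (B (L (nat_lit 270) ln13_12_6 ln13_12_6_ok) (L (nat_lit 334) ln13_13_6 ln13_13_6_ok)))))))) (B (M (nat_lit 364) (B (L (nat_lit 300) ln12_9_4 ln12_9_4_ok) (M (nat_lit 366) (B (M (nat_lit 367) (B (L (nat_lit 331) ln15_11_3 ln15_11_3_ok) (L (nat_lit 368) ln16_11_1 ln16_11_1_ok))) (M (nat_lit 334) (B (L (nat_lit 302) ln14_9_5 ln14_9_5_ok) (M (nat_lit 363) (B (L (nat_lit 335) ln11_11_2 ln11_11_2_ok) (L (nat_lit 362) ln10_11_0 ln10_11_0_ok))))))))) (M (nat_lit 333) (B (L (nat_lit 300) ln13_13_7 ln13_13_7_ok) (M (nat_lit 428) (B (L (nat_lit 301) ln13_9_5 ln13_9_5_ok) (L (nat_lit 460) ln13_10_5 ln13_10_5_ok))))))))) (M (nat_lit 395) (B (M (nat_lit 427) (B (L (nat_lit 426) ln14_12_1 ln14_12_1_ok) (M (nat_lit 364) (B (L (nat_lit 300) ln12_9_5 ln12_9_5_ok) (M (nat_lit 363) (B (L (nat_lit 459) ln11_14_6 ln11_14_6_ok)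 (L (nat_lit 362) ln14_12_3 ln14_12_3_ok))))))) (B (M (nat_lit 394) (B (M (nat_lit 362) (B (L (nat_lit 361) ln13_12_3 ln13_12_3_ok) (L (nat_lit 363) ln14_12_3 ln14_12_3_ok))) (M (nat_lit 366) (B (L (nat_lit 365) ln10_12_2 ln10_12_2_ok) (L (nat_lit 367) ln11_12_2 ln11_12_2_ok))))) (M (nat_lit 365) (B (M (nat_lit 300) (B (L (nat_lit 333) ln13_13_7 ln13_13_7_ok) (L (nat_lit 364) ln12_9_4 ln12_9_4_ok))) (M (nat_lit 366) (B (L (nat_lit 394) ln10_12_2 ln10_12_2_ok) (L (nat_lit 367) ln11_12_2 ln11_12_2_ok)))))))))))))))) (nat_lit 1386334848190141751452229600046006489469536232707154571948025077170724122389346146152355225702539631108755906733909423652564107264) (nat_lit 19180023097607153392980431034644608015016303027268685578546529738690963428533116091901200784675366469972520653343062562297230169264109563409292328960) (nat_lit 19180023097607153392980431034644608015016303027268685578546529738690963428533116091901200784675366469972520653343062562297230169264109563409292328960)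 (by decide +kernel)
theorem c31_s5198 : Sem (nat_lit 1386334847544579281930502452632026696468783264124728123740719198963059283254184240648144927045128292788721448874933630659377233920) (nat_lit 82377571940747339677389963020774525364088176938688310352283480100567851840357393801858036520938067401429947245183895746707039402950961940660480035412970045440) (nat_lit 82377571940747339677389963020774525364088176938688310352283480100567851840357393801858036520938067401429947245183895746707039402950961940660480035412970045440) :=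
  sem_of_chk (M (nat_lit 398) (B (M (nat_lit 399) (B (M (nat_lit 428) (B (L (nat_lit 427) ln15_12_1 ln15_12_1_ok) (L (nat_lit 400) ln16_12_1 ln16_12_1_ok))) (M (nat_lit 395) (B (M (nat_lit 363) (B (L (nat_lit 362) ln14_12_3 ln14_12_3_ok) (L (nat_lit 364) ln15_12_3 ln15_12_3_ok))) (M (nat_lit 367) (B (L (nat_lit 366) ln11_12_2 ln11_12_2_ok) (L (nat_lit 368) ln12_12_2 ln12_12_2_ok))))))) (B (M (nat_lit 399) (B (M (nat_lit 428) (B (L (nat_lit 427) ln15_12_1 ln15_12_1_ok) (L (nat_lit 400) ln16_12_1 ln16_12_1_ok))) (B (M (nat_lit 395) (B (M (nat_lit 367) (B (L (nat_lit 366) ln11_12_2 ln11_12_2_ok) (L (nat_lit 368) ln12_12_2 ln12_12_2_ok))) (M (nat_lit 427) (B (L (nat_lit 426) ln14_12_1 ln14_12_1_ok) (L (nat_lit 428) ln15_12_1 ln15_12_1_ok))))) (B (M (nat_lit 364) (B (L (nat_lit 363) ln15_12_3 ln15_12_3_ok) (M (nat_lit 400) (B (L (nat_lit 365) ln16_12_3 ln16_12_3_ok) (L (nat_lit 428) ln16_12_1 ln16_12_1_ok)))))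 (M (nat_lit 400) (B (M (nat_lit 364) (B (L (nat_lit 363) ln15_12_3 ln15_12_3_ok) (L (nat_lit 365) ln16_12_3 ln16_12_3_ok))) (M (nat_lit 432) (B (L (nat_lit 431) ln12_12_0 ln12_12_0_ok) (L (nat_lit 433) ln13_12_0 ln13_12_0_ok))))))))) (B (M (nat_lit 399) (B (M (nat_lit 428) (B (L (nat_lit 427) ln15_12_1 ln15_12_1_ok) (L (nat_lit 400) ln16_12_1 ln16_12_1_ok))) (B (M (nat_lit 395) (B (M (nat_lit 367) (B (L (nat_lit 366) ln11_12_2 ln11_12_2_ok) (L (nat_lit 368) ln12_12_2 ln12_12_2_ok))) (M (nat_lit 427) (B (L (nat_lit 426) ln14_12_1 ln14_12_1_ok) (L (nat_lit 428) ln15_12_1 ln15_12_1_ok))))) (B (M (nat_lit 400) (B (L (nat_lit 428) ln16_12_1 ln16_12_1_ok) (M (nat_lit 368) (B (L (nat_lit 367) ln12_12_2 ln12_12_2_ok) (L (nat_lit 369) ln13_12_2 ln13_12_2_ok))))) (M (nat_lit 400) (B (M (nat_lit 368) (B (L (nat_lit 367) ln12_12_2 ln12_12_2_ok) (L (nat_lit 369) ln13_12_2 ln13_12_2_ok))) (M (nat_lit 432) (B (L (nat_lit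 431) ln12_12_0 ln12_12_0_ok) (L (nat_lit 433) ln13_12_0 ln13_12_0_ok))))))))) (B (M (nat_lit 399) (B (M (nat_lit 428) (B (L (nat_lit 427) ln15_12_1 ln15_12_1_ok) (L (nat_lit 400) ln16_12_1 ln16_12_1_ok))) (B (M (nat_lit 395) (B (M (nat_lit 363) (B (L (nat_lit 362) ln14_12_3 ln14_12_3_ok) (L (nat_lit 364) ln15_12_3 ln15_12_3_ok))) (M (nat_lit 427) (B (L (nat_lit 426) ln14_12_1 ln14_12_1_ok) (L (nat_lit 428) ln15_12_1 ln15_12_1_ok))))) (B (M (nat_lit 400) (B (L (nat_lit 428) ln16_12_1 ln16_12_1_ok) (M (nat_lit 368) (B (L (nat_lit 367) ln12_12_2 ln12_12_2_ok) (L (nat_lit 369) ln13_12_2 ln13_12_2_ok))))) (M (nat_lit 400) (B (M (nat_lit 368) (B (L (nat_lit 367) ln12_12_2 ln12_12_2_ok) (L (nat_lit 369) ln13_12_2 ln13_12_2_ok))) (M (nat_lit 432) (B (L (nat_lit 431) ln12_12_0 ln12_12_0_ok) (L (nat_lit 433) ln13_12_0 ln13_12_0_ok))))))))) (B (M (nat_lit 399) (B (M (nat_lit 428) (B (L (nat_lit 427) ln15_12_1 ln15_12_1_ok)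 (L (nat_lit 400) ln16_12_1 ln16_12_1_ok))) (B (M (nat_lit 395) (B (M (nat_lit 363) (B (L (nat_lit 362) ln14_12_3 ln14_12_3_ok) (L (nat_lit 364) ln15_12_3 ln15_12_3_ok))) (M (nat_lit 427) (B (L (nat_lit 426) ln14_12_1 ln14_12_1_ok) (L (nat_lit 428) ln15_12_1 ln15_12_1_ok))))) (B (M (nat_lit 364) (B (L (nat_lit 363) ln15_12_3 ln15_12_3_ok) (M (nat_lit 400) (B (L (nat_lit 365) ln16_12_3 ln16_12_3_ok) (L (nat_lit 428) ln16_12_1 ln16_12_1_ok))))) (M (nat_lit 400) (B (M (nat_lit 364) (B (L (nat_lit 363) ln15_12_3 ln15_12_3_ok) (L (nat_lit 365) ln16_12_3 ln16_12_3_ok))) (M (nat_lit 432) (B (L (nat_lit 431) ln12_12_0 ln12_12_0_ok) (L (nat_lit 433) ln13_12_0 ln13_12_0_ok))))))))) (B (M (nat_lit 428) (B (M (nat_lit 399) (B (L (nat_lit 427) ln15_12_1 ln15_12_1_ok) (L (nat_lit 400) ln16_12_1 ln16_12_1_ok))) (B (M (nat_lit 460) (B (M (nat_lit 365) (B (L (nat_lit 333) ln13_10_5 ln13_10_5_ok) (L (nat_lit 492) ln12_15_6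 ln12_15_6_ok))) (B (M (nat_lit 492) (B (L (nat_lit 365) ln12_15_6 ln12_15_6_ok) (L (nat_lit 524) ln12_16_6 ln12_16_6_ok))) (B (M (nat_lit 364) (B (M (nat_lit 427) (B (L (nat_lit 426) ln10_13_2 ln10_13_2_ok) (M (nat_lit 332) (B (L (nat_lit 300) ln12_9_4 ln12_9_4_ok) (L (nat_lit 459) ln12_10_5 ln12_10_5_ok))))) (B (M (nat_lit 427) (B (L (nat_lit 426) ln10_13_2 ln10_13_2_ok) (M (nat_lit 459) (B (L (nat_lit 332) ln12_10_5 ln12_10_5_ok) (L (nat_lit 491) ln12_11_5 ln12_11_5_ok))))) (B (M (nat_lit 492) (B (L (nat_lit 524) ln12_16_6 ln12_16_6_ok) (M (nat_lit 491) (B (L (nat_lit 459) ln12_11_5 ln12_11_5_ok) (L (nat_lit 523) ln12_12_5 ln12_12_5_ok))))) (M (nat_lit 332) (B (L (nat_lit 300) ln12_9_4 ln12_9_4_ok) (M (nat_lit 331) (B (L (nat_lit 299) ln12_13_7 ln12_13_7_ok) (L (nat_lit 363) ln12_14_7 ln12_14_7_ok))))))))) (M (nat_lit 364) (B (M (nat_lit 365) (B (L (nat_lit 333) ln12_14_6 ln12_14_6_ok) (M (nat_lit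 363) (B (L (nat_lit 331) ln12_14_7 ln12_14_7_ok) (L (nat_lit 362) ln10_11_0 ln10_11_0_ok))))) (M (nat_lit 427) (B (L (nat_lit 426) ln10_13_2 ln10_13_2_ok) (M (nat_lit 332) (B (L (nat_lit 300) ln12_9_4 ln12_9_4_ok) (L (nat_lit 459) ln12_10_5 ln12_10_5_ok))))))))))) (M (nat_lit 460) (B (M (nat_lit 365) (B (L (nat_lit 333) ln13_10_5 ln13_10_5_ok) (L (nat_lit 492) ln12_15_6 ln12_15_6_ok))) (B (M (nat_lit 492) (B (L (nat_lit 365) ln12_15_6 ln12_15_6_ok) (L (nat_lit 524) ln12_16_6 ln12_16_6_ok))) (B (M (nat_lit 399) (B (L (nat_lit 400) ln16_12_1 ln16_12_1_ok) (M (nat_lit 491) (B (M (nat_lit 364) (B (L (nat_lit 363) ln15_12_3 ln15_12_3_ok) (L (nat_lit 459) ln12_11_5 ln12_11_5_ok))) (M (nat_lit 492) (B (L (nat_lit 523) ln12_12_5 ln12_12_5_ok) (L (nat_lit 524) ln12_16_6 ln12_16_6_ok))))))) (M (nat_lit 333) (B (L (nat_lit 365) ln13_10_5 ln13_10_5_ok) (M (nat_lit 364) (B (M (nat_lit 332) (B (L (nat_lit 300) ln12_9_4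 ln12_9_4_ok) (L (nat_lit 301) ln12_13_6 ln12_13_6_ok))) (M (nat_lit 399) (B (L (nat_lit 363) ln15_12_3 ln15_12_3_ok) (L (nat_lit 400) ln16_12_1 ln16_12_1_ok)))))))))))))) (B (K (nat_lit 1386334848190141751452229600046006489469536232707154571948025077170724122389346146152355225702539631108755906733909423652564107264) (nat_lit 19180023097607153392980431034644608015016303027268685578546529738690963428533116091901200784675366469972520653343062562297230169264109563409292328960) (nat_lit 19180023097607153392980431034644608015016303027268685578546529738690963428533116091901200784675366469972520653343062562297230169264109563409292328960) c31_s5195) (B (M (nat_lit 399) (B (M (nat_lit 364) (B (L (nat_lit 363) ln15_12_3 ln15_12_3_ok) (M (nat_lit 400) (B (L (nat_lit 365) ln16_12_3 ln16_12_3_ok) (L (nat_lit 428) ln16_12_1 ln16_12_1_ok))))) (B (M (nat_lit 400) (B (L (nat_lit 428) ln16_12_1 ln16_12_1_ok) (M (nat_lit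 368) (B (L (nat_lit 367) ln12_12_2 ln12_12_2_ok) (L (nat_lit 369) ln13_12_2 ln13_12_2_ok))))) (M (nat_lit 395) (B (M (nat_lit 363) (B (L (nat_lit 362) ln14_12_3 ln14_12_3_ok) (L (nat_lit 364) ln15_12_3 ln15_12_3_ok))) (M (nat_lit 367) (B (L (nat_lit 366) ln11_12_2 ln11_12_2_ok) (L (nat_lit 368) ln12_12_2 ln12_12_2_ok)))))))) (M (nat_lit 399) (B (M (nat_lit 400) (B (M (nat_lit 368) (B (L (nat_lit 367) ln12_12_2 ln12_12_2_ok) (L (nat_lit 369) ln13_12_2 ln13_12_2_ok))) (M (nat_lit 432) (B (L (nat_lit 431) ln12_12_0 ln12_12_0_ok) (L (nat_lit 433) ln13_12_0 ln13_12_0_ok))))) (B (M (nat_lit 400) (B (M (nat_lit 364) (B (L (nat_lit 363) ln15_12_3 ln15_12_3_ok) (L (nat_lit 365) ln16_12_3 ln16_12_3_ok))) (M (nat_lit 432) (B (L (nat_lit 431) ln12_12_0 ln12_12_0_ok) (L (nat_lit 433) ln13_12_0 ln13_12_0_ok))))) (M (nat_lit 395) (B (M (nat_lit 363) (B (L (nat_lit 362) ln14_12_3 ln14_12_3_ok) (L (nat_lit 364) ln15_12_3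 ln15_12_3_ok))) (M (nat_lit 367) (B (L (nat_lit 366) ln11_12_2 ln11_12_2_ok) (L (nat_lit 368) ln12_12_2 ln12_12_2_ok))))))))))))))))) (nat_lit 1386334847544579281930502452632026696468783264124728123740719198963059283254184240648144927045128292788721448874933630659377233920) (nat_lit 82377571940747339677389963020774525364088176938688310352283480100567851840357393801858036520938067401429947245183895746707039402950961940660480035412970045440) (nat_lit 82377571940747339677389963020774525364088176938688310352283480100567851840357393801858036520938067401429947245183895746707039402950961940660480035412970045440) (by decide +kernel)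
theorem c31_s5351 : Sem (nat_lit 1386334847544579281930502452632026696468783264124728123740719198963059283254184240648144927045128292788721448874933630659377233920) (nat_lit 82377571991894067962609180960781630421612945690573980877510727017431666571569888617603051786277450621277944223375596611221597911181953918595339676514475048960) (nat_lit 82377571991894067962609180960781630421612945690573980877510727017431666571569888617603051786277450621277944223375596611221597911181953918595339676514475048960) :=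
  sem_of_chk (M (nat_lit 428) (B (M (nat_lit 460) (B (M (nat_lit 365) (B (L (nat_lit 333) ln13_10_5 ln13_10_5_ok) (L (nat_lit 492) ln12_15_6 ln12_15_6_ok))) (B (M (nat_lit 492) (B (L (nat_lit 365) ln12_15_6 ln12_15_6_ok) (L (nat_lit 524) ln12_16_6 ln12_16_6_ok))) (B (M (nat_lit 492) (B (L (nat_lit 524) ln12_16_6 ln12_16_6_ok) (M (nat_lit 364) (B (M (nat_lit 363) (B (L (nat_lit 331) ln12_14_7 ln12_14_7_ok) (L (nat_lit 395) ln12_15_7 ln12_15_7_ok))) (M (nat_lit 491) (B (L (nat_lit 459) ln12_11_5 ln12_11_5_ok) (L (nat_lit 523) ln12_12_5 ln12_12_5_ok))))))) (M (nat_lit 427) (B (M (nat_lit 398) (B (L (nat_lit 399) ln15_12_1 ln15_12_1_ok) (L (nat_lit 426) ln10_13_2 ln10_13_2_ok))) (M (nat_lit 459) (B (M (nat_lit 364) (B (L (nat_lit 332) ln12_10_5 ln12_10_5_ok) (L (nat_lit 491) ln12_11_5 ln12_11_5_ok))) (M (nat_lit 458) (B (L (nat_lit 430) ln14_13_1 ln14_13_1_ok) (L (nat_lit 457) ln9_14_2 ln9_14_2_ok)))))))))))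 (B (M (nat_lit 460) (B (M (nat_lit 365) (B (L (nat_lit 333) ln13_10_5 ln13_10_5_ok) (L (nat_lit 492) ln12_15_6 ln12_15_6_ok))) (B (M (nat_lit 492) (B (L (nat_lit 365) ln12_15_6 ln12_15_6_ok) (L (nat_lit 524) ln12_16_6 ln12_16_6_ok))) (B (M (nat_lit 492) (B (L (nat_lit 524) ln12_16_6 ln12_16_6_ok) (M (nat_lit 395) (B (L (nat_lit 363) ln12_15_7 ln12_15_7_ok) (M (nat_lit 394) (B (L (nat_lit 393) ln9_12_0 ln9_12_0_ok) (L (nat_lit 430) ln10_12_0 ln10_12_0_ok))))))) (M (nat_lit 427) (B (M (nat_lit 398) (B (L (nat_lit 399) ln15_12_1 ln15_12_1_ok) (L (nat_lit 426) ln10_13_2 ln10_13_2_ok))) (M (nat_lit 459) (B (M (nat_lit 364) (B (L (nat_lit 332) ln12_10_5 ln12_10_5_ok) (L (nat_lit 491) ln12_11_5 ln12_11_5_ok))) (M (nat_lit 458) (B (L (nat_lit 430) ln14_13_1 ln14_13_1_ok) (L (nat_lit 457) ln9_14_2 ln9_14_2_ok))))))))))) (B (M (nat_lit 460) (B (M (nat_lit 365) (B (L (nat_lit 333) ln13_10_5 ln13_10_5_ok) (L (nat_lit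 492) ln12_15_6 ln12_15_6_ok))) (B (M (nat_lit 492) (B (L (nat_lit 365) ln12_15_6 ln12_15_6_ok) (L (nat_lit 524) ln12_16_6 ln12_16_6_ok))) (B (M (nat_lit 492) (B (L (nat_lit 524) ln12_16_6 ln12_16_6_ok) (M (nat_lit 395) (B (L (nat_lit 363) ln12_15_7 ln12_15_7_ok) (M (nat_lit 394) (B (L (nat_lit 393) ln9_12_0 ln9_12_0_ok) (L (nat_lit 430) ln10_12_0 ln10_12_0_ok))))))) (M (nat_lit 427) (B (M (nat_lit 398) (B (L (nat_lit 399) ln15_12_1 ln15_12_1_ok) (L (nat_lit 426) ln10_13_2 ln10_13_2_ok))) (M (nat_lit 459) (B (M (nat_lit 491) (B (L (nat_lit 364) ln12_11_5 ln12_11_5_ok) (L (nat_lit 523) ln11_16_6 ln11_16_6_ok))) (M (nat_lit 458) (B (L (nat_lit 430) ln14_13_1 ln14_13_1_ok) (L (nat_lit 457) ln9_14_2 ln9_14_2_ok))))))))))) (B (M (nat_lit 460) (B (M (nat_lit 492) (B (L (nat_lit 365) ln12_15_6 ln12_15_6_ok) (L (nat_lit 524) ln12_16_6 ln12_16_6_ok))) (M (nat_lit 427) (B (M (nat_lit 398) (B (L (nat_lit 399) ln15_12_1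 ln15_12_1_ok) (L (nat_lit 426) ln10_13_2 ln10_13_2_ok))) (M (nat_lit 459) (B (M (nat_lit 491) (B (L (nat_lit 364) ln12_11_5 ln12_11_5_ok) (L (nat_lit 523) ln11_16_6 ln11_16_6_ok))) (M (nat_lit 458) (B (L (nat_lit 430) ln14_13_1 ln14_13_1_ok) (L (nat_lit 457) ln9_14_2 ln9_14_2_ok))))))))) (B (M (nat_lit 427) (B (M (nat_lit 398) (B (L (nat_lit 399) ln15_12_1 ln15_12_1_ok) (L (nat_lit 426) ln10_13_2 ln10_13_2_ok))) (B (M (nat_lit 365) (B (M (nat_lit 333) (B (L (nat_lit 301) ln13_9_5 ln13_9_5_ok) (L (nat_lit 460) ln13_10_5 ln13_10_5_ok))) (M (nat_lit 394) (B (M (nat_lit 395) (B (L (nat_lit 366) ln10_12_2 ln10_12_2_ok) (L (nat_lit 393) ln9_12_0 ln9_12_0_ok))) (B (M (nat_lit 395) (B (L (nat_lit 393) ln9_12_0 ln9_12_0_ok) (L (nat_lit 430) ln10_12_0 ln10_12_0_ok))) (B (M (nat_lit 395) (B (L (nat_lit 366) ln10_12_2 ln10_12_2_ok) (L (nat_lit 430) ln10_12_0 ln10_12_0_ok))) (M (nat_lit 426) (B (L (nat_lit 393) ln13_13_3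 ln13_13_3_ok) (L (nat_lit 425) ln9_13_2 ln9_13_2_ok))))))))) (M (nat_lit 395) (B (M (nat_lit 394) (B (L (nat_lit 393) ln9_12_0 ln9_12_0_ok) (L (nat_lit 430) ln10_12_0 ln10_12_0_ok))) (M (nat_lit 363) (B (M (nat_lit 331) (B (L (nat_lit 299) ln11_9_4 ln11_9_4_ok) (L (nat_lit 460) ln11_10_4 ln11_10_4_ok))) (M (nat_lit 398) (B (L (nat_lit 362) ln14_12_3 ln14_12_3_ok) (L (nat_lit 399) ln15_12_1 ln15_12_1_ok)))))))))) (B (M (nat_lit 460) (B (M (nat_lit 492) (B (L (nat_lit 524) ln12_16_6 ln12_16_6_ok) (M (nat_lit 395) (B (L (nat_lit 363) ln12_15_7 ln12_15_7_ok) (M (nat_lit 394) (B (L (nat_lit 393) ln9_12_0 ln9_12_0_ok) (L (nat_lit 430) ln10_12_0 ln10_12_0_ok))))))) (B (M (nat_lit 427) (B (M (nat_lit 398) (B (L (nat_lit 399) ln15_12_1 ln15_12_1_ok) (L (nat_lit 426) ln10_13_2 ln10_13_2_ok))) (M (nat_lit 459) (B (M (nat_lit 491) (B (L (nat_lit 364) ln12_11_5 ln12_11_5_ok) (L (nat_lit 523) ln11_16_6 ln11_16_6_ok)))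 (M (nat_lit 458) (B (L (nat_lit 430) ln14_13_1 ln14_13_1_ok) (L (nat_lit 457) ln9_14_2 ln9_14_2_ok))))))) (M (nat_lit 492) (B (L (nat_lit 524) ln12_16_6 ln12_16_6_ok) (M (nat_lit 364) (B (M (nat_lit 363) (B (L (nat_lit 331) ln12_14_7 ln12_14_7_ok) (L (nat_lit 395) ln12_15_7 ln12_15_7_ok))) (M (nat_lit 491) (B (L (nat_lit 459) ln12_11_5 ln12_11_5_ok) (L (nat_lit 523) ln12_12_5 ln12_12_5_ok)))))))))) (B (M (nat_lit 460) (B (M (nat_lit 365) (B (L (nat_lit 333) ln13_10_5 ln13_10_5_ok) (L (nat_lit 492) ln12_15_6 ln12_15_6_ok))) (B (M (nat_lit 492) (B (L (nat_lit 365) ln12_15_6 ln12_15_6_ok) (L (nat_lit 524) ln12_16_6 ln12_16_6_ok))) (B (M (nat_lit 492) (B (L (nat_lit 524) ln12_16_6 ln12_16_6_ok) (M (nat_lit 395) (B (L (nat_lit 363) ln12_15_7 ln12_15_7_ok) (M (nat_lit 394) (B (L (nat_lit 393) ln9_12_0 ln9_12_0_ok) (L (nat_lit 430) ln10_12_0 ln10_12_0_ok))))))) (M (nat_lit 394) (B (M (nat_lit 395) (B (L (nat_lit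 393) ln9_12_0 ln9_12_0_ok) (L (nat_lit 430) ln10_12_0 ln10_12_0_ok))) (B (M (nat_lit 365) (B (L (nat_lit 333) ln13_10_5 ln13_10_5_ok) (M (nat_lit 395) (B (L (nat_lit 366) ln10_12_2 ln10_12_2_ok) (L (nat_lit 430) ln10_12_0 ln10_12_0_ok))))) (B (M (nat_lit 427) (B (M (nat_lit 426) (B (L (nat_lit 393) ln13_13_3 ln13_13_3_ok) (L (nat_lit 425) ln9_13_2 ln9_13_2_ok))) (M (nat_lit 459) (B (M (nat_lit 364) (B (L (nat_lit 332) ln12_10_5 ln12_10_5_ok) (L (nat_lit 491) ln12_11_5 ln12_11_5_ok))) (M (nat_lit 458) (B (L (nat_lit 430) ln14_13_1 ln14_13_1_ok) (L (nat_lit 457) ln9_14_2 ln9_14_2_ok))))))) (M (nat_lit 365) (B (L (nat_lit 333) ln13_10_5 ln13_10_5_ok) (M (nat_lit 395) (B (L (nat_lit 366) ln10_12_2 ln10_12_2_ok) (L (nat_lit 393) ln9_12_0 ln9_12_0_ok))))))))))))) (B (M (nat_lit 460) (B (M (nat_lit 365) (B (L (nat_lit 333) ln13_10_5 ln13_10_5_ok) (L (nat_lit 492) ln12_15_6 ln12_15_6_ok))) (B (M (nat_lit 492)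 (B (L (nat_lit 365) ln12_15_6 ln12_15_6_ok) (L (nat_lit 524) ln12_16_6 ln12_16_6_ok))) (B (M (nat_lit 492) (B (L (nat_lit 524) ln12_16_6 ln12_16_6_ok) (M (nat_lit 395) (B (L (nat_lit 363) ln12_15_7 ln12_15_7_ok) (M (nat_lit 394) (B (L (nat_lit 393) ln9_12_0 ln9_12_0_ok) (L (nat_lit 430) ln10_12_0 ln10_12_0_ok))))))) (M (nat_lit 365) (B (L (nat_lit 333) ln13_10_5 ln13_10_5_ok) (M (nat_lit 364) (B (M (nat_lit 332) (B (L (nat_lit 300) ln12_9_4 ln12_9_4_ok) (M (nat_lit 331) (B (L (nat_lit 299) ln12_13_7 ln12_13_7_ok) (L (nat_lit 363) ln12_14_7 ln12_14_7_ok))))) (B (M (nat_lit 332) (B (L (nat_lit 300) ln12_9_4 ln12_9_4_ok) (M (nat_lit 459) (B (L (nat_lit 427) ln12_10_5 ln12_10_5_ok) (L (nat_lit 491) ln12_11_5 ln12_11_5_ok))))) (M (nat_lit 363) (B (L (nat_lit 331) ln12_14_7 ln12_14_7_ok) (M (nat_lit 398) (B (L (nat_lit 362) ln10_11_0 ln10_11_0_ok) (L (nat_lit 399) ln15_12_3 ln15_12_3_ok)))))))))))))) (B (M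 (nat_lit 460) (B (M (nat_lit 365) (B (L (nat_lit 333) ln13_10_5 ln13_10_5_ok) (L (nat_lit 492) ln12_15_6 ln12_15_6_ok))) (B (M (nat_lit 492) (B (L (nat_lit 365) ln12_15_6 ln12_15_6_ok) (L (nat_lit 524) ln12_16_6 ln12_16_6_ok))) (B (M (nat_lit 492) (B (L (nat_lit 524) ln12_16_6 ln12_16_6_ok) (M (nat_lit 395) (B (L (nat_lit 363) ln12_15_7 ln12_15_7_ok) (M (nat_lit 394) (B (L (nat_lit 393) ln9_12_0 ln9_12_0_ok) (L (nat_lit 430) ln10_12_0 ln10_12_0_ok))))))) (M (nat_lit 395) (B (M (nat_lit 394) (B (L (nat_lit 393) ln9_12_0 ln9_12_0_ok) (L (nat_lit 430) ln10_12_0 ln10_12_0_ok))) (B (M (nat_lit 365) (B (L (nat_lit 333) ln13_10_5 ln13_10_5_ok) (M (nat_lit 394) (B (L (nat_lit 366) ln10_12_2 ln10_12_2_ok) (L (nat_lit 430) ln10_12_0 ln10_12_0_ok))))) (M (nat_lit 398) (B (M (nat_lit 399) (B (L (nat_lit 400) ln16_12_1 ln16_12_1_ok) (M (nat_lit 367) (B (L (nat_lit 366) ln11_12_2 ln11_12_2_ok) (L (nat_lit 368) ln12_12_2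 ln12_12_2_ok))))) (B (M (nat_lit 399) (B (L (nat_lit 400) ln16_12_1 ln16_12_1_ok) (M (nat_lit 363) (B (L (nat_lit 362) ln14_12_3 ln14_12_3_ok) (L (nat_lit 364) ln15_12_3 ln15_12_3_ok))))) (M (nat_lit 363) (B (L (nat_lit 362) ln14_12_3 ln14_12_3_ok) (M (nat_lit 331) (B (L (nat_lit 299) ln11_9_4 ln11_9_4_ok) (L (nat_lit 364) ln12_14_7 ln12_14_7_ok))))))))))))))) (B (M (nat_lit 395) (B (M (nat_lit 394) (B (L (nat_lit 393) ln9_12_0 ln9_12_0_ok) (M (nat_lit 365) (B (L (nat_lit 366) ln10_12_2 ln10_12_2_ok) (M (nat_lit 333) (B (L (nat_lit 301) ln13_9_5 ln13_9_5_ok) (L (nat_lit 460) ln13_10_5 ln13_10_5_ok))))))) (B (M (nat_lit 365) (B (M (nat_lit 394) (B (L (nat_lit 366) ln10_12_2 ln10_12_2_ok) (L (nat_lit 393) ln9_12_0 ln9_12_0_ok))) (M (nat_lit 460) (B (L (nat_lit 333) ln13_10_5 ln13_10_5_ok) (L (nat_lit 492) ln12_15_6 ln12_15_6_ok))))) (B (M (nat_lit 394) (B (L (nat_lit 393) ln9_12_0 ln9_12_0_ok) (M (nat_lit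 398) (B (M (nat_lit 366) (B (L (nat_lit 365) ln10_12_2 ln10_12_2_ok) (L (nat_lit 367) ln11_12_2 ln11_12_2_ok))) (M (nat_lit 426) (B (L (nat_lit 425) ln13_12_1 ln13_12_1_ok) (L (nat_lit 427) ln14_12_1 ln14_12_1_ok))))))) (M (nat_lit 363) (B (M (nat_lit 460) (B (L (nat_lit 492) ln12_15_7 ln12_15_7_ok) (M (nat_lit 331) (B (L (nat_lit 299) ln11_9_4 ln11_9_4_ok) (L (nat_lit 364) ln12_14_7 ln12_14_7_ok))))) (B (M (nat_lit 398) (B (L (nat_lit 362) ln14_12_3 ln14_12_3_ok) (M (nat_lit 399) (B (L (nat_lit 364) ln15_12_3 ln15_12_3_ok) (L (nat_lit 427) ln15_12_1 ln15_12_1_ok))))) (M (nat_lit 398) (B (L (nat_lit 362) ln14_12_3 ln14_12_3_ok) (M (nat_lit 427) (B (L (nat_lit 426) ln14_12_1 ln14_12_1_ok) (L (nat_lit 399) ln15_12_1 ln15_12_1_ok)))))))))))) (M (nat_lit 427) (B (M (nat_lit 398) (B (L (nat_lit 399) ln15_12_1 ln15_12_1_ok) (L (nat_lit 426) ln10_13_2 ln10_13_2_ok))) (B (M (nat_lit 426) (B (L (nat_lit 425)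 ln9_13_2 ln9_13_2_ok) (M (nat_lit 430) (B (M (nat_lit 394) (B (L (nat_lit 393) ln13_13_3 ln13_13_3_ok) (L (nat_lit 395) ln10_12_0 ln10_12_0_ok))) (M (nat_lit 458) (B (L (nat_lit 457) ln13_13_1 ln13_13_1_ok) (L (nat_lit 459) ln14_13_1 ln14_13_1_ok))))))) (M (nat_lit 430) (B (M (nat_lit 398) (B (L (nat_lit 399) ln15_12_1 ln15_12_1_ok) (M (nat_lit 462) (B (L (nat_lit 463) ln11_13_0 ln11_13_0_ok) (M (nat_lit 365) (B (L (nat_lit 333) ln13_10_4 ln13_10_4_ok) (L (nat_lit 494) ln14_15_7 ln14_15_7_ok))))))) (M (nat_lit 395) (B (L (nat_lit 394) ln10_12_0 ln10_12_0_ok) (M (nat_lit 459) (B (L (nat_lit 458) ln14_13_1 ln14_13_1_ok) (M (nat_lit 364) (B (L (nat_lit 332) ln12_10_5 ln12_10_5_ok) (L (nat_lit 491) ln11_15_6 ln11_15_6_ok))))))))))))))))))))))) (nat_lit 1386334847544579281930502452632026696468783264124728123740719198963059283254184240648144927045128292788721448874933630659377233920) (nat_lit 82377571991894067962609180960781630421612945690573980877510727017431666571569888617603051786277450621277944223375596611221597911181953918595339676514475048960)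 (nat_lit 82377571991894067962609180960781630421612945690573980877510727017431666571569888617603051786277450621277944223375596611221597911181953918595339676514475048960) (by decide +kernel)
theorem c31_s5352 : Sem (nat_lit 1386334847383188664550070665778531748218595021979121511688892729411143073470393764272092352380775458208712834410189682411080515584) (nat_lit 741398147469922727613149667194303011555637346449230388312765316589402558809726721442964626230249207722759741712601945150907811928142687166118910480155928428544) (nat_lit 741398147469922727613149667194303011555637346449230388312765316589402558809726721442964626230249207722759741712601945150907811928142687166118910480155928428544) :=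
  sem_of_chk (M (nat_lit 396) (B c31_n3215 (B (K (nat_lit 1386334847544579281930502452632026696468783264124728123740719198963059283254184240648144927045128292788721448874933630659377233920) (nat_lit 166226866848161511309557600227592476835124969255852268346820466373149259572205432972820674209471089503291843516872165741532378476125556599097900662784) (nat_lit 166226866848161511309557600227592476835124969255852268346820466373149259572205432972820674209471089503291843516872165741532378476125556599097900662784) c31_s3291) (B (K (nat_lit 1386334847544579281930502452632026696468783264124728123740719198963059283254184240648144927045128292788721448874933630659377233920) (nat_lit 274591906571451255447437543272813328918369888839654731829233106095764515548104381081274528163314971279313663282035180652647086114474035334069728049373967810560) (nat_lit 274591906571451255447437543272813328918369888839654731829233106095764515548104381081274528163314971279313663282035180652647086114474035334069728049373967810560)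 c31_s3327) (B (K (nat_lit 1386334847544579281930502452632026696468783264124728123740719198963059283254184240648144927045128292788721448874933630659377233920) (nat_lit 219673525290406377727954478307088179830952435936325560969234255473261038496977058505506971428825539220119982410972123615366846080789364058185017034869552709632) (nat_lit 219673525290406377727954478307088179830952435936325560969234255473261038496977058505506971428825539220119982410972123615366846080789364058185017034869552709632) c31_s3381) (B (K (nat_lit 1386334847544579281930502452632026696468783264124728123740719198963059283254184240648144927045128292788721448874933630659377233920) (nat_lit 274591906571451255447437543272813328918369888840829003120637520715511594013846698584951847300068775326436557404080023202556942241098188603247427179718486523904) (nat_lit 274591906571451255447437543272813328918369888840829003120637520715511594013846698584951847300068775326436557404080023202556942241098188603247427179718486523904)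 c31_s3408) (B (K (nat_lit 1386334847544579281930502452632026696468783264124728123740719198963059283254184240648144927045128292788721448874933630659377233920) (nat_lit 274591906571451255447437543294994686471336407717418739912492805022961535261999899773856628748802500894488743005412779181693328940566506646935129012758871277568) (nat_lit 274591906571451255447437543294994686471336407717418739912492805022961535261999899773856628748802500894488743005412779181693328940566506646935129012758871277568) c31_s3488) (B (M (nat_lit 395) (B (M (nat_lit 430) (B (L (nat_lit 394) ln10_12_0 ln10_12_0_ok) (M (nat_lit 431) (B (L (nat_lit 428) ln15_13_3 ln15_13_3_ok) (L (nat_lit 432) ln16_13_3 ln16_13_3_ok))))) (B (M (nat_lit 398) (B (M (nat_lit 427) (B (L (nat_lit 426) ln14_12_1 ln14_12_1_ok) (M (nat_lit 399) (B (L (nat_lit 428) ln15_12_1 ln15_12_1_ok) (M (nat_lit 367) (B (L (nat_lit 366) ln11_12_2 ln11_12_2_ok) (L (nat_lit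 368) ln12_12_2 ln12_12_2_ok))))))) (B (M (nat_lit 399) (B (M (nat_lit 363) (B (L (nat_lit 362) ln14_12_3 ln14_12_3_ok) (L (nat_lit 364) ln15_12_3 ln15_12_3_ok))) (M (nat_lit 427) (B (L (nat_lit 426) ln14_12_1 ln14_12_1_ok) (L (nat_lit 428) ln15_12_1 ln15_12_1_ok))))) (B (M (nat_lit 428) (B (M (nat_lit 427) (B (L (nat_lit 426) ln14_12_1 ln14_12_1_ok) (M (nat_lit 363) (B (L (nat_lit 362) ln14_12_3 ln14_12_3_ok) (M (nat_lit 331) (B (L (nat_lit 299) ln11_9_4 ln11_9_4_ok) (L (nat_lit 460) ln11_10_4 ln11_10_4_ok))))))) (B (M (nat_lit 427) (B (L (nat_lit 426) ln14_12_1 ln14_12_1_ok) (M (nat_lit 363) (B (L (nat_lit 362) ln14_12_3 ln14_12_3_ok) (M (nat_lit 460) (B (L (nat_lit 331) ln11_10_4 ln11_10_4_ok) (L (nat_lit 492) ln12_15_7 ln12_15_7_ok))))))) (B (M (nat_lit 427) (B (L (nat_lit 426) ln14_12_1 ln14_12_1_ok) (M (nat_lit 459) (B (M (nat_lit 364) (B (L (nat_lit 332) ln12_10_5 ln12_10_5_ok) (L (nat_lit 491)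 ln11_15_6 ln11_15_6_ok))) (M (nat_lit 430) (B (L (nat_lit 431) ln11_12_0 ln11_12_0_ok) (L (nat_lit 458) ln14_13_1 ln14_13_1_ok))))))) (B (M (nat_lit 363) (B (L (nat_lit 362) ln14_12_3 ln14_12_3_ok) (M (nat_lit 460) (B (L (nat_lit 492) ln12_15_7 ln12_15_7_ok) (M (nat_lit 331) (B (L (nat_lit 299) ln11_9_4 ln11_9_4_ok) (L (nat_lit 427) ln11_10_4 ln11_10_4_ok))))))) (M (nat_lit 363) (B (L (nat_lit 362) ln14_12_3 ln14_12_3_ok) (M (nat_lit 460) (B (L (nat_lit 492) ln12_15_7 ln12_15_7_ok) (M (nat_lit 331) (B (L (nat_lit 299) ln11_9_4 ln11_9_4_ok) (L (nat_lit 364) ln12_14_7 ln12_14_7_ok)))))))))))) (B (M (nat_lit 399) (B (M (nat_lit 363) (B (L (nat_lit 362) ln14_12_3 ln14_12_3_ok) (L (nat_lit 364) ln15_12_3 ln15_12_3_ok))) (M (nat_lit 428) (B (L (nat_lit 427) ln15_12_1 ln15_12_1_ok) (L (nat_lit 400) ln16_12_1 ln16_12_1_ok))))) (M (nat_lit 399) (B (M (nat_lit 363) (B (L (nat_lit 362) ln14_12_3 ln14_12_3_ok) (L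 (nat_lit 364) ln15_12_3 ln15_12_3_ok))) (M (nat_lit 367) (B (L (nat_lit 366) ln11_12_2 ln11_12_2_ok) (L (nat_lit 368) ln12_12_2 ln12_12_2_ok)))))))))) (B (M (nat_lit 430) (B (L (nat_lit 394) ln10_12_0 ln10_12_0_ok) (M (nat_lit 431) (B (L (nat_lit 398) ln11_12_0 ln11_12_0_ok) (L (nat_lit 432) ln16_13_3 ln16_13_3_ok))))) (M (nat_lit 394) (B (M (nat_lit 393) (B (L (nat_lit 428) ln9_12_0 ln9_12_0_ok) (M (nat_lit 425) (B (L (nat_lit 424) ln12_12_1 ln12_12_1_ok) (L (nat_lit 426) ln13_12_1 ln13_12_1_ok))))) (B (M (nat_lit 398) (B (M (nat_lit 362) (B (L (nat_lit 361) ln13_12_3 ln13_12_3_ok) (L (nat_lit 363) ln14_12_3 ln14_12_3_ok))) (M (nat_lit 426) (B (L (nat_lit 425) ln13_12_1 ln13_12_1_ok) (L (nat_lit 427) ln14_12_1 ln14_12_1_ok))))) (M (nat_lit 393) (B (L (nat_lit 428) ln9_12_0 ln9_12_0_ok) (M (nat_lit 361) (B (L (nat_lit 360) ln12_12_3 ln12_12_3_ok) (L (nat_lit 362) ln13_12_3 ln13_12_3_ok)))))))))))) (B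 c31_n3596 (B (M (nat_lit 395) (B (M (nat_lit 430) (B (L (nat_lit 394) ln10_12_0 ln10_12_0_ok) (M (nat_lit 431) (B (L (nat_lit 428) ln15_13_3 ln15_13_3_ok) (L (nat_lit 432) ln16_13_3 ln16_13_3_ok))))) (B (M (nat_lit 398) (B (M (nat_lit 399) (B (M (nat_lit 363) (B (L (nat_lit 362) ln14_12_3 ln14_12_3_ok) (L (nat_lit 364) ln15_12_3 ln15_12_3_ok))) (M (nat_lit 427) (B (L (nat_lit 426) ln14_12_1 ln14_12_1_ok) (L (nat_lit 428) ln15_12_1 ln15_12_1_ok))))) (B (M (nat_lit 399) (B (M (nat_lit 427) (B (L (nat_lit 426) ln14_12_1 ln14_12_1_ok) (L (nat_lit 428) ln15_12_1 ln15_12_1_ok))) (M (nat_lit 431) (B (L (nat_lit 430) ln11_12_0 ln11_12_0_ok) (L (nat_lit 432) ln12_12_0 ln12_12_0_ok))))) (B (M (nat_lit 428) (B (M (nat_lit 427) (B (L (nat_lit 426) ln14_12_1 ln14_12_1_ok) (M (nat_lit 363) (B (L (nat_lit 362) ln14_12_3 ln14_12_3_ok) (M (nat_lit 460) (B (L (nat_lit 331) ln11_10_4 ln11_10_4_ok) (L (nat_lit 492) ln12_15_7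 ln12_15_7_ok))))))) (B (M (nat_lit 427) (B (L (nat_lit 426) ln14_12_1 ln14_12_1_ok) (M (nat_lit 459) (B (M (nat_lit 364) (B (L (nat_lit 332) ln12_10_5 ln12_10_5_ok) (L (nat_lit 491) ln11_15_6 ln11_15_6_ok))) (M (nat_lit 430) (B (L (nat_lit 431) ln11_12_0 ln11_12_0_ok) (L (nat_lit 458) ln14_13_1 ln14_13_1_ok))))))) (M (nat_lit 363) (B (L (nat_lit 362) ln14_12_3 ln14_12_3_ok) (M (nat_lit 460) (B (L (nat_lit 492) ln12_15_7 ln12_15_7_ok) (M (nat_lit 331) (B (L (nat_lit 299) ln11_9_4 ln11_9_4_ok) (L (nat_lit 364) ln12_14_7 ln12_14_7_ok)))))))))) (M (nat_lit 399) (B (M (nat_lit 363) (B (L (nat_lit 362) ln14_12_3 ln14_12_3_ok) (L (nat_lit 364) ln15_12_3 ln15_12_3_ok))) (M (nat_lit 431) (B (L (nat_lit 430) ln11_12_0 ln11_12_0_ok) (L (nat_lit 432) ln12_12_0 ln12_12_0_ok))))))))) (B (M (nat_lit 430) (B (L (nat_lit 394) ln10_12_0 ln10_12_0_ok) (M (nat_lit 431) (B (L (nat_lit 398) ln11_12_0 ln11_12_0_ok) (L (nat_lit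 432) ln16_13_3 ln16_13_3_ok))))) (M (nat_lit 394) (B (M (nat_lit 393) (B (L (nat_lit 428) ln9_12_0 ln9_12_0_ok) (M (nat_lit 425) (B (L (nat_lit 424) ln12_12_1 ln12_12_1_ok) (L (nat_lit 426) ln13_12_1 ln13_12_1_ok))))) (B (M (nat_lit 398) (B (M (nat_lit 362) (B (L (nat_lit 361) ln13_12_3 ln13_12_3_ok) (L (nat_lit 363) ln14_12_3 ln14_12_3_ok))) (M (nat_lit 426) (B (L (nat_lit 425) ln13_12_1 ln13_12_1_ok) (L (nat_lit 427) ln14_12_1 ln14_12_1_ok))))) (M (nat_lit 393) (B (L (nat_lit 428) ln9_12_0 ln9_12_0_ok) (M (nat_lit 361) (B (L (nat_lit 360) ln12_12_3 ln12_12_3_ok) (L (nat_lit 362) ln13_12_3 ln13_12_3_ok)))))))))))) (B c31_n3680 (B (K (nat_lit 1386334847544579281930502452632026696468783264124728123740719198963059283254184240648144927045128292788721448874933630659377233920) (nat_lit 302051097218367035338412298581189770466909510549200222984026876456580536076228187328003215374098801430914049051857430926689666187249179887783016285239001481216)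 (nat_lit 302051097218367035338412298581189770466909510549200222984026876456580536076228187328003215374098801430914049051857430926689666187249179887783016285239001481216) c31_s4432) (B (K (nat_lit 1386334847544579281930502452632026696468783264124728123740719198963059283254184240648144927045128292788721448874933630659377233920) (nat_lit 82377571943944010229755540303396315132195863104196765212519996767519368767852938780672795085145997829931036007382151218232379811448045431457304362850218672128) (nat_lit 82377571943944010229755540303396315132195863104196765212519996767519368767852938780672795085145997829931036007382151218232379811448045431457304362850218672128) c31_s4748) (B (K (nat_lit 1386334847544579281930502452632026696468783264124728123740719198963059283254184240648144927045128292788721448874933630659377233920) (nat_lit 659020575538765399485679705167172772061888105282231565452670596879823802675054855398300862074861997724650428188543433722504826164117001279270615368376430624768)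 (nat_lit 659020575538765399485679705167172772061888105282231565452670596879823802675054855398300862074861997724650428188543433722504826164117001279270615368376430624768) c31_s4813) (B (M (nat_lit 395) (B (M (nat_lit 430) (B (L (nat_lit 394) ln10_12_0 ln10_12_0_ok) (M (nat_lit 431) (B (L (nat_lit 398) ln11_12_0 ln11_12_0_ok) (L (nat_lit 432) ln16_13_3 ln16_13_3_ok))))) (B (M (nat_lit 398) (B (M (nat_lit 431) (B (L (nat_lit 430) ln11_12_0 ln11_12_0_ok) (M (nat_lit 399) (B (L (nat_lit 432) ln12_12_0 ln12_12_0_ok) (M (nat_lit 367) (B (L (nat_lit 366) ln11_12_2 ln11_12_2_ok) (L (nat_lit 368) ln12_12_2 ln12_12_2_ok))))))) (B (M (nat_lit 399) (B (M (nat_lit 363) (B (L (nat_lit 362) ln14_12_3 ln14_12_3_ok) (L (nat_lit 364) ln15_12_3 ln15_12_3_ok))) (M (nat_lit 431) (B (L (nat_lit 430) ln11_12_0 ln11_12_0_ok) (L (nat_lit 432) ln12_12_0 ln12_12_0_ok))))) (B (M (nat_lit 430) (B (L (nat_lit 431) ln11_12_0 ln11_12_0_ok)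 (M (nat_lit 366) (B (L (nat_lit 367) ln11_12_2 ln11_12_2_ok) (M (nat_lit 462) (B (M (nat_lit 365) (B (L (nat_lit 333) ln14_14_7 ln14_14_7_ok) (L (nat_lit 494) ln14_15_7 ln14_15_7_ok))) (B (M (nat_lit 494) (B (L (nat_lit 365) ln14_15_7 ln14_15_7_ok) (L (nat_lit 526) ln14_16_7 ln14_16_7_ok))) (B (M (nat_lit 494) (B (L (nat_lit 526) ln14_16_7 ln14_16_7_ok) (M (nat_lit 495) (B (L (nat_lit 463) ln14_11_4 ln14_11_4_ok) (L (nat_lit 527) ln14_12_4 ln14_12_4_ok))))) (M (nat_lit 333) (B (L (nat_lit 365) ln14_14_7 ln14_14_7_ok) (M (nat_lit 334) (B (L (nat_lit 301) ln14_13_7 ln14_13_7_ok) (L (nat_lit 302) ln14_9_5 ln14_9_5_ok))))))))))))) (M (nat_lit 399) (B (M (nat_lit 363) (B (L (nat_lit 362) ln14_12_3 ln14_12_3_ok) (L (nat_lit 364) ln15_12_3 ln15_12_3_ok))) (M (nat_lit 367) (B (L (nat_lit 366) ln11_12_2 ln11_12_2_ok) (L (nat_lit 368) ln12_12_2 ln12_12_2_ok))))))))) (B (M (nat_lit 394) (B (L (nat_lit 430) ln10_12_0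 ln10_12_0_ok) (M (nat_lit 393) (B (M (nat_lit 361) (B (L (nat_lit 360) ln12_12_3 ln12_12_3_ok) (L (nat_lit 362) ln13_12_3 ln13_12_3_ok))) (M (nat_lit 365) (B (L (nat_lit 364) ln9_12_2 ln9_12_2_ok) (L (nat_lit 366) ln10_12_2 ln10_12_2_ok))))))) (M (nat_lit 398) (B (M (nat_lit 366) (B (L (nat_lit 367) ln11_12_2 ln11_12_2_ok) (M (nat_lit 426) (B (L (nat_lit 427) ln14_12_1 ln14_12_1_ok) (M (nat_lit 394) (B (L (nat_lit 365) ln10_12_2 ln10_12_2_ok) (L (nat_lit 425) ln13_12_1 ln13_12_1_ok))))))) (B (M (nat_lit 399) (B (M (nat_lit 363) (B (L (nat_lit 362) ln14_12_3 ln14_12_3_ok) (L (nat_lit 364) ln15_12_3 ln15_12_3_ok))) (M (nat_lit 367) (B (L (nat_lit 366) ln11_12_2 ln11_12_2_ok) (L (nat_lit 368) ln12_12_2 ln12_12_2_ok))))) (B (M (nat_lit 399) (B (M (nat_lit 363) (B (L (nat_lit 362) ln14_12_3 ln14_12_3_ok) (L (nat_lit 364) ln15_12_3 ln15_12_3_ok))) (M (nat_lit 400) (B (M (nat_lit 368) (B (L (nat_lit 367) ln12_12_2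 ln12_12_2_ok) (L (nat_lit 369) ln13_12_2 ln13_12_2_ok))) (M (nat_lit 432) (B (L (nat_lit 431) ln12_12_0 ln12_12_0_ok) (L (nat_lit 433) ln13_12_0 ln13_12_0_ok))))))) (M (nat_lit 364) (B (M (nat_lit 363) (B (L (nat_lit 362) ln14_12_3 ln14_12_3_ok) (L (nat_lit 399) ln15_12_3 ln15_12_3_ok))) (M (nat_lit 394) (B (M (nat_lit 365) (B (L (nat_lit 393) ln9_12_2 ln9_12_2_ok) (L (nat_lit 366) ln10_12_2 ln10_12_2_ok))) (M (nat_lit 426) (B (L (nat_lit 425) ln13_12_1 ln13_12_1_ok) (L (nat_lit 427) ln14_12_1 ln14_12_1_ok))))))))))))))) (B (K (nat_lit 1386334847544579281930502452632026696468783264124728123740719198963059283254184240648144927045128292788721448874933630659377233920) (nat_lit 82377571940747339677389963020774525364088176938688310352283480100567851840357393801858036520938067401429947245183895746707039402950961940660480035412970045440) (nat_lit 82377571940747339677389963020774525364088176938688310352283480100567851840357393801858036520938067401429947245183895746707039402950961940660480035412970045440)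 c31_s5198) (K (nat_lit 1386334847544579281930502452632026696468783264124728123740719198963059283254184240648144927045128292788721448874933630659377233920) (nat_lit 82377571991894067962609180960781630421612945690573980877510727017431666571569888617603051786277450621277944223375596611221597911181953918595339676514475048960) (nat_lit 82377571991894067962609180960781630421612945690573980877510727017431666571569888617603051786277450621277944223375596611221597911181953918595339676514475048960) c31_s5351))))))))))))))))) (nat_lit 1386334847383188664550070665778531748218595021979121511688892729411143073470393764272092352380775458208712834410189682411080515584) (nat_lit 741398147469922727613149667194303011555637346449230388312765316589402558809726721442964626230249207722759741712601945150907811928142687166118910480155928428544) (nat_lit 741398147469922727613149667194303011555637346449230388312765316589402558809726721442964626230249207722759741712601945150907811928142687166118910480155928428544)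 (by decide +kernel)
noncomputable def c31_n5365 : Cert := (M (nat_lit 396) (B (M (nat_lit 364) (B (L (nat_lit 493) ln13_15_7 ln13_15_7_ok) (M (nat_lit 332) (B (L (nat_lit 300) ln12_9_4 ln12_9_4_ok) (L (nat_lit 428) ln12_10_4 ln12_10_4_ok))))) (B (M (nat_lit 493) (B (L (nat_lit 364) ln13_15_7 ln13_15_7_ok) (M (nat_lit 525) (B (L (nat_lit 428) ln13_16_7 ln13_16_7_ok) (M (nat_lit 524) (B (L (nat_lit 492) ln13_12_5 ln13_12_5_ok) (L (nat_lit 556) ln13_13_5 ln13_13_5_ok))))))) (B (M (nat_lit 398) (B (M (nat_lit 493) (B (L (nat_lit 366) ln13_15_6 ln13_15_6_ok) (M (nat_lit 525) (B (L (nat_lit 428) ln13_16_7 ln13_16_7_ok) (L (nat_lit 430) ln13_16_6 ln13_16_6_ok))))) (B (M (nat_lit 399) (B (M (nat_lit 428) (B (L (nat_lit 427) ln15_12_1 ln15_12_1_ok) (L (nat_lit 400) ln16_12_1 ln16_12_1_ok))) (B (M (nat_lit 395) (B (M (nat_lit 427) (B (L (nat_lit 426) ln14_12_1 ln14_12_1_ok) (L (nat_lit 428) ln15_12_1 ln15_12_1_ok)))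 (M (nat_lit 431) (B (L (nat_lit 430) ln11_12_0 ln11_12_0_ok) (L (nat_lit 432) ln12_12_0 ln12_12_0_ok))))) (B (M (nat_lit 400) (B (L (nat_lit 428) ln16_12_1 ln16_12_1_ok) (M (nat_lit 368) (B (L (nat_lit 367) ln12_12_2 ln12_12_2_ok) (L (nat_lit 369) ln13_12_2 ln13_12_2_ok))))) (M (nat_lit 400) (B (M (nat_lit 368) (B (L (nat_lit 367) ln12_12_2 ln12_12_2_ok) (L (nat_lit 369) ln13_12_2 ln13_12_2_ok))) (M (nat_lit 432) (B (L (nat_lit 431) ln12_12_0 ln12_12_0_ok) (L (nat_lit 433) ln13_12_0 ln13_12_0_ok))))))))) (B (M (nat_lit 430) (B (M (nat_lit 431) (B (L (nat_lit 395) ln11_12_0 ln11_12_0_ok) (L (nat_lit 432) ln16_13_3 ln16_13_3_ok))) (M (nat_lit 493) (B (L (nat_lit 366) ln13_15_6 ln13_15_6_ok) (L (nat_lit 525) ln13_16_6 ln13_16_6_ok))))) (M (nat_lit 428) (B (M (nat_lit 493) (B (L (nat_lit 366) ln13_15_6 ln13_15_6_ok) (L (nat_lit 525) ln13_16_7 ln13_16_7_ok))) (M (nat_lit 427) (B (L (nat_lit 399) ln15_12_1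 ln15_12_1_ok) (L (nat_lit 426) ln10_13_2 ln10_13_2_ok))))))))) (B (M (nat_lit 493) (B (L (nat_lit 364) ln13_15_7 ln13_15_7_ok) (M (nat_lit 525) (B (M (nat_lit 398) (B (L (nat_lit 366) ln13_15_6 ln13_15_6_ok) (L (nat_lit 430) ln13_16_6 ln13_16_6_ok))) (M (nat_lit 524) (B (L (nat_lit 492) ln13_12_5 ln13_12_5_ok) (L (nat_lit 556) ln13_13_5 ln13_13_5_ok))))))) (M (nat_lit 395) (B (M (nat_lit 430) (B (L (nat_lit 394) ln10_12_0 ln10_12_0_ok) (M (nat_lit 431) (B (L (nat_lit 398) ln11_12_0 ln11_12_0_ok) (L (nat_lit 432) ln16_13_3 ln16_13_3_ok))))) (B (M (nat_lit 398) (B (M (nat_lit 430) (B (L (nat_lit 431) ln11_12_0 ln11_12_0_ok) (M (nat_lit 366) (B (L (nat_lit 334) ln14_10_5 ln14_10_5_ok) (L (nat_lit 367) ln11_12_2 ln11_12_2_ok))))) (B (M (nat_lit 399) (B (M (nat_lit 363) (B (L (nat_lit 362) ln14_12_3 ln14_12_3_ok) (L (nat_lit 364) ln15_12_3 ln15_12_3_ok))) (M (nat_lit 431) (B (L (nat_lit 430) ln11_12_0 ln11_12_0_ok)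 (L (nat_lit 432) ln12_12_0 ln12_12_0_ok))))) (M (nat_lit 399) (B (M (nat_lit 363) (B (L (nat_lit 362) ln14_12_3 ln14_12_3_ok) (L (nat_lit 364) ln15_12_3 ln15_12_3_ok))) (M (nat_lit 367) (B (L (nat_lit 366) ln11_12_2 ln11_12_2_ok) (L (nat_lit 368) ln12_12_2 ln12_12_2_ok)))))))) (B (M (nat_lit 430) (B (L (nat_lit 394) ln10_12_0 ln10_12_0_ok) (M (nat_lit 431) (B (L (nat_lit 428) ln15_13_3 ln15_13_3_ok) (L (nat_lit 432) ln16_13_3 ln16_13_3_ok))))) (M (nat_lit 394) (B (M (nat_lit 425) (B (L (nat_lit 426) ln13_12_1 ln13_12_1_ok) (M (nat_lit 393) (B (L (nat_lit 424) ln12_12_1 ln12_12_1_ok) (L (nat_lit 428) ln9_12_0 ln9_12_0_ok))))) (B (M (nat_lit 398) (B (M (nat_lit 362) (B (L (nat_lit 361) ln13_12_3 ln13_12_3_ok) (L (nat_lit 363) ln14_12_3 ln14_12_3_ok))) (M (nat_lit 426) (B (L (nat_lit 425) ln13_12_1 ln13_12_1_ok) (L (nat_lit 427) ln14_12_1 ln14_12_1_ok))))) (M (nat_lit 393) (B (L (nat_lit 428) ln9_12_0 ln9_12_0_ok)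 (M (nat_lit 361) (B (L (nat_lit 360) ln12_12_3 ln12_12_3_ok) (L (nat_lit 362) ln13_12_3 ln13_12_3_ok)))))))))))))))))
theorem c31_s5368 : Sem (nat_lit 1386334847383188664550070665778531748218595021979121511688892729411143073470393764272092352380775458208712834410189682411080515584) (nat_lit 1179363258141160341632306725041411996705346532090649303233268643244560355428841189997438255945648301249104079080666399333453885860317615454880129122993374617323196907520) (nat_lit 1179363258141160341632306725041411996705346532090649303233268643244560355428841189997438255945648301249104079080666399333453885860317615454880129122993374617323196907520) :=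
  sem_of_chk (M (nat_lit 461) (B (M (nat_lit 493) (B (M (nat_lit 525) (B (M (nat_lit 398) (B (L (nat_lit 366) ln13_15_6 ln13_15_6_ok) (L (nat_lit 430) ln13_16_6 ln13_16_6_ok))) (M (nat_lit 524) (B (L (nat_lit 492) ln13_12_5 ln13_12_5_ok) (L (nat_lit 556) ln13_13_5 ln13_13_5_ok))))) (B (M (nat_lit 525) (B (M (nat_lit 396) (B (L (nat_lit 364) ln13_15_7 ln13_15_7_ok) (L (nat_lit 428) ln13_16_7 ln13_16_7_ok))) (M (nat_lit 524) (B (L (nat_lit 492) ln13_12_5 ln13_12_5_ok) (L (nat_lit 556) ln13_13_5 ln13_13_5_ok))))) (M (nat_lit 365) (B (M (nat_lit 364) (B (L (nat_lit 332) ln13_14_7 ln13_14_7_ok) (L (nat_lit 396) ln13_15_7 ln13_15_7_ok))) (M (nat_lit 366) (B (L (nat_lit 334) ln13_14_6 ln13_14_6_ok) (L (nat_lit 398) ln13_15_6 ln13_15_6_ok)))))))) (B (M (nat_lit 493) (B (M (nat_lit 525) (B (M (nat_lit 396) (B (L (nat_lit 364) ln13_15_7 ln13_15_7_ok) (L (nat_lit 428) ln13_16_7 ln13_16_7_ok))) (M (nat_lit 526)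 (B (L (nat_lit 494) ln13_12_4 ln13_12_4_ok) (L (nat_lit 558) ln13_13_4 ln13_13_4_ok))))) (M (nat_lit 365) (B (M (nat_lit 366) (B (L (nat_lit 334) ln13_14_6 ln13_14_6_ok) (L (nat_lit 398) ln13_15_6 ln13_15_6_ok))) (M (nat_lit 492) (B (L (nat_lit 460) ln13_11_5 ln13_11_5_ok) (L (nat_lit 524) ln13_12_5 ln13_12_5_ok))))))) (B (M (nat_lit 493) (B (M (nat_lit 525) (B (M (nat_lit 398) (B (L (nat_lit 366) ln13_15_6 ln13_15_6_ok) (L (nat_lit 430) ln13_16_6 ln13_16_6_ok))) (M (nat_lit 526) (B (L (nat_lit 494) ln13_12_4 ln13_12_4_ok) (L (nat_lit 558) ln13_13_4 ln13_13_4_ok))))) (B (M (nat_lit 525) (B (M (nat_lit 396) (B (L (nat_lit 364) ln13_15_7 ln13_15_7_ok) (L (nat_lit 428) ln13_16_7 ln13_16_7_ok))) (M (nat_lit 526) (B (L (nat_lit 494) ln13_12_4 ln13_12_4_ok) (L (nat_lit 558) ln13_13_4 ln13_13_4_ok))))) (B (M (nat_lit 525) (B (M (nat_lit 396) (B (L (nat_lit 364) ln13_15_7 ln13_15_7_ok) (L (nat_lit 428) ln13_16_7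 ln13_16_7_ok))) (M (nat_lit 398) (B (L (nat_lit 366) ln13_15_6 ln13_15_6_ok) (L (nat_lit 430) ln13_16_6 ln13_16_6_ok))))) (M (nat_lit 365) (B (M (nat_lit 364) (B (L (nat_lit 332) ln13_14_7 ln13_14_7_ok) (L (nat_lit 396) ln13_15_7 ln13_15_7_ok))) (M (nat_lit 492) (B (L (nat_lit 460) ln13_11_5 ln13_11_5_ok) (L (nat_lit 524) ln13_12_5 ln13_12_5_ok))))))))) (B (M (nat_lit 493) (B (M (nat_lit 525) (B (M (nat_lit 524) (B (L (nat_lit 492) ln13_12_5 ln13_12_5_ok) (L (nat_lit 556) ln13_13_5 ln13_13_5_ok))) (M (nat_lit 526) (B (L (nat_lit 494) ln13_12_4 ln13_12_4_ok) (L (nat_lit 558) ln13_13_4 ln13_13_4_ok))))) (B (M (nat_lit 525) (B (M (nat_lit 398) (B (L (nat_lit 366) ln13_15_6 ln13_15_6_ok) (L (nat_lit 430) ln13_16_6 ln13_16_6_ok))) (M (nat_lit 526) (B (L (nat_lit 494) ln13_12_4 ln13_12_4_ok) (L (nat_lit 558) ln13_13_4 ln13_13_4_ok))))) (B (M (nat_lit 525) (B (M (nat_lit 398) (B (L (nat_lit 366) ln13_15_6 ln13_15_6_ok)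 (L (nat_lit 430) ln13_16_6 ln13_16_6_ok))) (M (nat_lit 524) (B (L (nat_lit 492) ln13_12_5 ln13_12_5_ok) (L (nat_lit 556) ln13_13_5 ln13_13_5_ok))))) (M (nat_lit 365) (B (M (nat_lit 366) (B (L (nat_lit 334) ln13_14_6 ln13_14_6_ok) (L (nat_lit 398) ln13_15_6 ln13_15_6_ok))) (M (nat_lit 492) (B (L (nat_lit 460) ln13_11_5 ln13_11_5_ok) (L (nat_lit 524) ln13_12_5 ln13_12_5_ok))))))))) (B c31_n5365 (B (M (nat_lit 493) (B (M (nat_lit 525) (B (M (nat_lit 524) (B (L (nat_lit 492) ln13_12_5 ln13_12_5_ok) (L (nat_lit 556) ln13_13_5 ln13_13_5_ok))) (M (nat_lit 526) (B (L (nat_lit 494) ln13_12_4 ln13_12_4_ok) (L (nat_lit 558) ln13_13_4 ln13_13_4_ok))))) (B (M (nat_lit 525) (B (M (nat_lit 396) (B (L (nat_lit 364) ln13_15_7 ln13_15_7_ok) (L (nat_lit 428) ln13_16_7 ln13_16_7_ok))) (M (nat_lit 526) (B (L (nat_lit 494) ln13_12_4 ln13_12_4_ok) (L (nat_lit 558) ln13_13_4 ln13_13_4_ok))))) (M (nat_lit 365) (B (M (nat_lit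 364) (B (L (nat_lit 332) ln13_14_7 ln13_14_7_ok) (L (nat_lit 396) ln13_15_7 ln13_15_7_ok))) (M (nat_lit 492) (B (L (nat_lit 460) ln13_11_5 ln13_11_5_ok) (L (nat_lit 524) ln13_12_5 ln13_12_5_ok)))))))) (B (M (nat_lit 493) (B (M (nat_lit 525) (B (M (nat_lit 398) (B (L (nat_lit 366) ln13_15_6 ln13_15_6_ok) (L (nat_lit 430) ln13_16_6 ln13_16_6_ok))) (M (nat_lit 526) (B (L (nat_lit 494) ln13_12_4 ln13_12_4_ok) (L (nat_lit 558) ln13_13_4 ln13_13_4_ok))))) (B (M (nat_lit 525) (B (M (nat_lit 396) (B (L (nat_lit 364) ln13_15_7 ln13_15_7_ok) (L (nat_lit 428) ln13_16_7 ln13_16_7_ok))) (M (nat_lit 526) (B (L (nat_lit 494) ln13_12_4 ln13_12_4_ok) (L (nat_lit 558) ln13_13_4 ln13_13_4_ok))))) (M (nat_lit 365) (B (M (nat_lit 364) (B (L (nat_lit 332) ln13_14_7 ln13_14_7_ok) (L (nat_lit 396) ln13_15_7 ln13_15_7_ok))) (M (nat_lit 366) (B (L (nat_lit 334) ln13_14_6 ln13_14_6_ok) (L (nat_lit 398) ln13_15_6 ln13_15_6_ok))))))))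 (M (nat_lit 365) (B (M (nat_lit 460) (B (L (nat_lit 492) ln13_11_5 ln13_11_5_ok) (M (nat_lit 333) (B (L (nat_lit 428) ln13_10_5 ln13_10_5_ok) (M (nat_lit 334) (B (L (nat_lit 302) ln13_13_6 ln13_13_6_ok) (L (nat_lit 366) ln13_14_6 ln13_14_6_ok))))))) (B (M (nat_lit 333) (B (M (nat_lit 332) (B (L (nat_lit 300) ln13_13_7 ln13_13_7_ok) (L (nat_lit 364) ln13_14_7 ln13_14_7_ok))) (M (nat_lit 460) (B (L (nat_lit 428) ln13_10_5 ln13_10_5_ok) (L (nat_lit 492) ln13_11_5 ln13_11_5_ok))))) (M (nat_lit 364) (B (L (nat_lit 332) ln13_14_7 ln13_14_7_ok) (M (nat_lit 366) (B (L (nat_lit 334) ln13_14_6 ln13_14_6_ok) (M (nat_lit 363) (B (M (nat_lit 398) (B (L (nat_lit 362) ln10_11_0 ln10_11_0_ok) (L (nat_lit 399) ln11_11_0 ln11_11_0_ok))) (B (M (nat_lit 367) (B (M (nat_lit 395) (B (L (nat_lit 394) ln14_11_1 ln14_11_1_ok) (L (nat_lit 396) ln15_11_1 ln15_11_1_ok))) (M (nat_lit 399) (B (L (nat_lit 398) ln11_11_0 ln11_11_0_ok)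 (L (nat_lit 400) ln12_11_0 ln12_11_0_ok))))) (M (nat_lit 362) (B (M (nat_lit 330) (B (L (nat_lit 329) ln13_11_3 ln13_11_3_ok) (L (nat_lit 331) ln14_11_3 ln14_11_3_ok))) (M (nat_lit 394) (B (L (nat_lit 393) ln13_11_1 ln13_11_1_ok) (L (nat_lit 395) ln14_11_1 ln14_11_1_ok))))))))))))))))))))))) (nat_lit 1386334847383188664550070665778531748218595021979121511688892729411143073470393764272092352380775458208712834410189682411080515584) (nat_lit 1179363258141160341632306725041411996705346532090649303233268643244560355428841189997438255945648301249104079080666399333453885860317615454880129122993374617323196907520) (nat_lit 1179363258141160341632306725041411996705346532090649303233268643244560355428841189997438255945648301249104079080666399333453885860317615454880129122993374617323196907520) (by decide +kernel)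
theorem c31_s5382 : Sem (nat_lit 5954262830815946494763249298768603811203561774969104571805089223376689777636098861358550851719243481454542035207245364041705138952691777536) (nat_lit 943490606534895625823378003938764286206374401460190959240792649418185865531297092970802524056189874463095420746881601065907791523277782867317557516150205470968547115008) (nat_lit 943490606534895625823378003938764286206374401460190959240792649418185865531297092970802524056189874463095420746881601065907791523277782867317557516150205470968547115008) :=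
  sem_of_chk (M (nat_lit 398) (B (M (nat_lit 366) (B (L (nat_lit 493) ln13_15_6 ln13_15_6_ok) (M (nat_lit 334) (B (L (nat_lit 302) ln14_9_5 ln14_9_5_ok) (L (nat_lit 430) ln14_10_5 ln14_10_5_ok))))) (B (M (nat_lit 493) (B (L (nat_lit 366) ln13_15_6 ln13_15_6_ok) (M (nat_lit 525) (B (L (nat_lit 430) ln13_16_6 ln13_16_6_ok) (M (nat_lit 396) (B (L (nat_lit 364) ln13_15_7 ln13_15_7_ok) (L (nat_lit 428) ln13_16_7 ln13_16_7_ok))))))) (B (M (nat_lit 396) (B (M (nat_lit 493) (B (L (nat_lit 364) ln13_15_7 ln13_15_7_ok) (M (nat_lit 525) (B (L (nat_lit 428) ln13_16_7 ln13_16_7_ok) (L (nat_lit 430) ln13_16_6 ln13_16_6_ok))))) (B (M (nat_lit 399) (B (M (nat_lit 428) (B (L (nat_lit 427) ln15_12_1 ln15_12_1_ok) (L (nat_lit 400) ln16_12_1 ln16_12_1_ok))) (B (M (nat_lit 395) (B (M (nat_lit 427) (B (L (nat_lit 426) ln14_12_1 ln14_12_1_ok) (L (nat_lit 428) ln15_12_1 ln15_12_1_ok))) (M (nat_lit 431) (B (L (nat_lit 430) ln11_12_0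 ln11_12_0_ok) (L (nat_lit 432) ln12_12_0 ln12_12_0_ok))))) (B (M (nat_lit 400) (B (L (nat_lit 428) ln16_12_1 ln16_12_1_ok) (M (nat_lit 368) (B (L (nat_lit 367) ln12_12_2 ln12_12_2_ok) (L (nat_lit 369) ln13_12_2 ln13_12_2_ok))))) (M (nat_lit 400) (B (M (nat_lit 368) (B (L (nat_lit 367) ln12_12_2 ln12_12_2_ok) (L (nat_lit 369) ln13_12_2 ln13_12_2_ok))) (M (nat_lit 432) (B (L (nat_lit 431) ln12_12_0 ln12_12_0_ok) (L (nat_lit 433) ln13_12_0 ln13_12_0_ok))))))))) (B (M (nat_lit 430) (B (M (nat_lit 431) (B (L (nat_lit 395) ln11_12_0 ln11_12_0_ok) (L (nat_lit 432) ln16_13_3 ln16_13_3_ok))) (M (nat_lit 493) (B (L (nat_lit 364) ln13_15_7 ln13_15_7_ok) (L (nat_lit 525) ln13_16_6 ln13_16_6_ok))))) (M (nat_lit 428) (B (M (nat_lit 493) (B (L (nat_lit 364) ln13_15_7 ln13_15_7_ok) (L (nat_lit 525) ln13_16_7 ln13_16_7_ok))) (M (nat_lit 427) (B (L (nat_lit 399) ln15_12_1 ln15_12_1_ok) (L (nat_lit 426) ln10_13_2 ln10_13_2_ok)))))))))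 (B (M (nat_lit 493) (B (L (nat_lit 366) ln13_15_6 ln13_15_6_ok) (M (nat_lit 525) (B (M (nat_lit 396) (B (L (nat_lit 364) ln13_15_7 ln13_15_7_ok) (L (nat_lit 428) ln13_16_7 ln13_16_7_ok))) (M (nat_lit 526) (B (L (nat_lit 494) ln13_12_4 ln13_12_4_ok) (L (nat_lit 558) ln13_13_4 ln13_13_4_ok))))))) (M (nat_lit 399) (B (M (nat_lit 428) (B (L (nat_lit 400) ln16_12_1 ln16_12_1_ok) (M (nat_lit 427) (B (L (nat_lit 396) ln15_12_1 ln15_12_1_ok) (L (nat_lit 426) ln10_13_2 ln10_13_2_ok))))) (B (M (nat_lit 428) (B (L (nat_lit 400) ln16_12_1 ln16_12_1_ok) (M (nat_lit 427) (B (L (nat_lit 426) ln10_13_2 ln10_13_2_ok) (L (nat_lit 430) ln11_13_2 ln11_13_2_ok))))) (B (M (nat_lit 396) (B (M (nat_lit 428) (B (L (nat_lit 427) ln15_12_1 ln15_12_1_ok) (M (nat_lit 364) (B (L (nat_lit 332) ln12_10_4 ln12_10_4_ok) (L (nat_lit 363) ln15_12_3 ln15_12_3_ok))))) (B (M (nat_lit 395) (B (M (nat_lit 367) (B (L (nat_lit 366) ln11_12_2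 ln11_12_2_ok) (L (nat_lit 368) ln12_12_2 ln12_12_2_ok))) (M (nat_lit 427) (B (L (nat_lit 426) ln14_12_1 ln14_12_1_ok) (L (nat_lit 428) ln15_12_1 ln15_12_1_ok))))) (M (nat_lit 395) (B (M (nat_lit 363) (B (L (nat_lit 362) ln14_12_3 ln14_12_3_ok) (L (nat_lit 364) ln15_12_3 ln15_12_3_ok))) (M (nat_lit 367) (B (L (nat_lit 366) ln11_12_2 ln11_12_2_ok) (L (nat_lit 368) ln12_12_2 ln12_12_2_ok)))))))) (B (M (nat_lit 428) (B (L (nat_lit 400) ln16_12_1 ln16_12_1_ok) (M (nat_lit 427) (B (L (nat_lit 396) ln15_12_1 ln15_12_1_ok) (L (nat_lit 430) ln11_13_2 ln11_13_2_ok))))) (B (M (nat_lit 396) (B (M (nat_lit 428) (B (L (nat_lit 400) ln16_12_1 ln16_12_1_ok) (M (nat_lit 364) (B (L (nat_lit 332) ln12_10_4 ln12_10_4_ok) (L (nat_lit 363) ln15_12_3 ln15_12_3_ok))))) (B (M (nat_lit 395) (B (M (nat_lit 363) (B (L (nat_lit 362) ln14_12_3 ln14_12_3_ok) (L (nat_lit 364) ln15_12_3 ln15_12_3_ok))) (M (nat_lit 367) (B (L (nat_lit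 366) ln11_12_2 ln11_12_2_ok) (L (nat_lit 368) ln12_12_2 ln12_12_2_ok))))) (M (nat_lit 395) (B (M (nat_lit 367) (B (L (nat_lit 366) ln11_12_2 ln11_12_2_ok) (L (nat_lit 368) ln12_12_2 ln12_12_2_ok))) (M (nat_lit 431) (B (L (nat_lit 430) ln11_12_0 ln11_12_0_ok) (L (nat_lit 432) ln12_12_0 ln12_12_0_ok)))))))) (M (nat_lit 396) (B (M (nat_lit 395) (B (M (nat_lit 363) (B (L (nat_lit 362) ln14_12_3 ln14_12_3_ok) (L (nat_lit 364) ln15_12_3 ln15_12_3_ok))) (M (nat_lit 431) (B (L (nat_lit 430) ln11_12_0 ln11_12_0_ok) (L (nat_lit 432) ln12_12_0 ln12_12_0_ok))))) (B (M (nat_lit 395) (B (M (nat_lit 367) (B (L (nat_lit 366) ln11_12_2 ln11_12_2_ok) (L (nat_lit 368) ln12_12_2 ln12_12_2_ok))) (M (nat_lit 431) (B (L (nat_lit 430) ln11_12_0 ln11_12_0_ok) (L (nat_lit 432) ln12_12_0 ln12_12_0_ok))))) (B (M (nat_lit 400) (B (M (nat_lit 368) (B (L (nat_lit 367) ln12_12_2 ln12_12_2_ok) (L (nat_lit 369) ln13_12_2 ln13_12_2_ok)))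 (M (nat_lit 432) (B (L (nat_lit 431) ln12_12_0 ln12_12_0_ok) (L (nat_lit 433) ln13_12_0 ln13_12_0_ok))))) (M (nat_lit 395) (B (M (nat_lit 363) (B (L (nat_lit 362) ln14_12_3 ln14_12_3_ok) (L (nat_lit 364) ln15_12_3 ln15_12_3_ok))) (M (nat_lit 367) (B (L (nat_lit 366) ln11_12_2 ln11_12_2_ok) (L (nat_lit 368) ln12_12_2 ln12_12_2_ok)))))))))))))))))))) (nat_lit 5954262830815946494763249298768603811203561774969104571805089223376689777636098861358550851719243481454542035207245364041705138952691777536) (nat_lit 943490606534895625823378003938764286206374401460190959240792649418185865531297092970802524056189874463095420746881601065907791523277782867317557516150205470968547115008) (nat_lit 943490606534895625823378003938764286206374401460190959240792649418185865531297092970802524056189874463095420746881601065907791523277782867317557516150205470968547115008) (by decide +kernel)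
theorem c31_s5438 : Sem (nat_lit 1386334847383188664550070665778531748218595021979121511688892729411143073470393764272092352380775458208712834410189682411080515584) (nat_lit 943490606534895625823378003959604206109378042226081692942150330709917447277151276110156930967350859117978865135733109888255600019350340869561147026569943620503660920832) (nat_lit 943490606534895625823378003959604206109378042226081692942150330709917447277151276110156930967350859117978865135733109888255600019350340869561147026569943620503660920832) :=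
  sem_of_chk (M (nat_lit 461) (B (M (nat_lit 493) (B (M (nat_lit 525) (B (M (nat_lit 398) (B (L (nat_lit 366) ln13_15_6 ln13_15_6_ok) (L (nat_lit 430) ln13_16_6 ln13_16_6_ok))) (M (nat_lit 526) (B (L (nat_lit 494) ln13_12_4 ln13_12_4_ok) (L (nat_lit 558) ln13_13_4 ln13_13_4_ok))))) (B (M (nat_lit 525) (B (M (nat_lit 396) (B (L (nat_lit 364) ln13_15_7 ln13_15_7_ok) (L (nat_lit 428) ln13_16_7 ln13_16_7_ok))) (M (nat_lit 526) (B (L (nat_lit 494) ln13_12_4 ln13_12_4_ok) (L (nat_lit 558) ln13_13_4 ln13_13_4_ok))))) (M (nat_lit 365) (B (M (nat_lit 364) (B (L (nat_lit 332) ln13_14_7 ln13_14_7_ok) (L (nat_lit 396) ln13_15_7 ln13_15_7_ok))) (M (nat_lit 366) (B (L (nat_lit 334) ln13_14_6 ln13_14_6_ok) (L (nat_lit 398) ln13_15_6 ln13_15_6_ok)))))))) (B (M (nat_lit 493) (B (M (nat_lit 525) (B (M (nat_lit 396) (B (L (nat_lit 364) ln13_15_7 ln13_15_7_ok) (L (nat_lit 428) ln13_16_7 ln13_16_7_ok))) (M (nat_lit 398)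 (B (L (nat_lit 366) ln13_15_6 ln13_15_6_ok) (L (nat_lit 430) ln13_16_6 ln13_16_6_ok))))) (B (M (nat_lit 365) (B (M (nat_lit 366) (B (L (nat_lit 334) ln13_14_6 ln13_14_6_ok) (L (nat_lit 398) ln13_15_6 ln13_15_6_ok))) (M (nat_lit 494) (B (L (nat_lit 462) ln13_11_4 ln13_11_4_ok) (L (nat_lit 526) ln13_12_4 ln13_12_4_ok))))) (M (nat_lit 525) (B (M (nat_lit 396) (B (L (nat_lit 364) ln13_15_7 ln13_15_7_ok) (L (nat_lit 428) ln13_16_7 ln13_16_7_ok))) (M (nat_lit 526) (B (L (nat_lit 494) ln13_12_4 ln13_12_4_ok) (L (nat_lit 558) ln13_13_4 ln13_13_4_ok)))))))) (B (M (nat_lit 493) (B (M (nat_lit 525) (B (M (nat_lit 396) (B (L (nat_lit 364) ln13_15_7 ln13_15_7_ok) (L (nat_lit 428) ln13_16_7 ln13_16_7_ok))) (M (nat_lit 398) (B (L (nat_lit 366) ln13_15_6 ln13_15_6_ok) (L (nat_lit 430) ln13_16_6 ln13_16_6_ok))))) (B (M (nat_lit 525) (B (M (nat_lit 398) (B (L (nat_lit 366) ln13_15_6 ln13_15_6_ok) (L (nat_lit 430) ln13_16_6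 ln13_16_6_ok))) (M (nat_lit 526) (B (L (nat_lit 494) ln13_12_4 ln13_12_4_ok) (L (nat_lit 558) ln13_13_4 ln13_13_4_ok))))) (M (nat_lit 365) (B (M (nat_lit 364) (B (L (nat_lit 332) ln13_14_7 ln13_14_7_ok) (L (nat_lit 396) ln13_15_7 ln13_15_7_ok))) (M (nat_lit 494) (B (L (nat_lit 462) ln13_11_4 ln13_11_4_ok) (L (nat_lit 526) ln13_12_4 ln13_12_4_ok)))))))) (B (M (nat_lit 365) (B (M (nat_lit 493) (B (M (nat_lit 366) (B (L (nat_lit 334) ln13_14_6 ln13_14_6_ok) (L (nat_lit 398) ln13_15_6 ln13_15_6_ok))) (M (nat_lit 494) (B (L (nat_lit 462) ln13_11_4 ln13_11_4_ok) (L (nat_lit 526) ln13_12_4 ln13_12_4_ok))))) (B (M (nat_lit 333) (B (M (nat_lit 462) (B (L (nat_lit 430) ln13_10_4 ln13_10_4_ok) (L (nat_lit 494) ln13_11_4 ln13_11_4_ok))) (M (nat_lit 301) (B (M (nat_lit 300) (B (L (nat_lit 268) ln13_12_7 ln13_12_7_ok) (L (nat_lit 332) ln13_13_7 ln13_13_7_ok))) (M (nat_lit 428) (B (L (nat_lit 396) ln13_9_5 ln13_9_5_ok)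 (L (nat_lit 460) ln13_10_5 ln13_10_5_ok))))))) (M (nat_lit 333) (B (M (nat_lit 334) (B (L (nat_lit 302) ln13_13_6 ln13_13_6_ok) (L (nat_lit 366) ln13_14_6 ln13_14_6_ok))) (M (nat_lit 301) (B (M (nat_lit 300) (B (L (nat_lit 268) ln13_12_7 ln13_12_7_ok) (L (nat_lit 332) ln13_13_7 ln13_13_7_ok))) (M (nat_lit 428) (B (L (nat_lit 396) ln13_9_5 ln13_9_5_ok) (L (nat_lit 460) ln13_10_5 ln13_10_5_ok)))))))))) (B (K (nat_lit 5954262830815946494763249298768603811203561774969104571805089223376689777636098861358550851719243481454542035207245364041705138952691777536) (nat_lit 943490606534895625823378003938764286206374401460190959240792649418185865531297092970802524056189874463095420746881601065907791523277782867317557516150205470968547115008) (nat_lit 943490606534895625823378003938764286206374401460190959240792649418185865531297092970802524056189874463095420746881601065907791523277782867317557516150205470968547115008)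 c31_s5382) (B (M (nat_lit 365) (B (M (nat_lit 493) (B (M (nat_lit 364) (B (L (nat_lit 332) ln13_14_7 ln13_14_7_ok) (L (nat_lit 396) ln13_15_7 ln13_15_7_ok))) (M (nat_lit 494) (B (L (nat_lit 462) ln13_11_4 ln13_11_4_ok) (L (nat_lit 526) ln13_12_4 ln13_12_4_ok))))) (B (M (nat_lit 428) (B (M (nat_lit 333) (B (L (nat_lit 460) ln13_10_5 ln13_10_5_ok) (M (nat_lit 462) (B (L (nat_lit 430) ln13_10_4 ln13_10_4_ok) (L (nat_lit 494) ln13_11_4 ln13_11_4_ok))))) (B (M (nat_lit 493) (B (M (nat_lit 396) (B (L (nat_lit 364) ln13_15_7 ln13_15_7_ok) (L (nat_lit 525) ln13_16_7 ln13_16_7_ok))) (M (nat_lit 494) (B (L (nat_lit 462) ln13_11_4 ln13_11_4_ok) (L (nat_lit 526) ln13_12_4 ln13_12_4_ok))))) (M (nat_lit 396) (B (M (nat_lit 333) (B (L (nat_lit 301) ln13_9_5 ln13_9_5_ok) (L (nat_lit 460) ln13_10_5 ln13_10_5_ok))) (M (nat_lit 493) (B (L (nat_lit 364) ln13_15_7 ln13_15_7_ok) (L (nat_lit 525) ln13_16_7 ln13_16_7_ok))))))))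 (B (M (nat_lit 333) (B (M (nat_lit 462) (B (L (nat_lit 430) ln13_10_4 ln13_10_4_ok) (L (nat_lit 494) ln13_11_4 ln13_11_4_ok))) (M (nat_lit 301) (B (M (nat_lit 300) (B (L (nat_lit 268) ln13_12_7 ln13_12_7_ok) (L (nat_lit 332) ln13_13_7 ln13_13_7_ok))) (M (nat_lit 302) (B (L (nat_lit 270) ln13_12_6 ln13_12_6_ok) (L (nat_lit 334) ln13_13_6 ln13_13_6_ok))))))) (M (nat_lit 333) (B (M (nat_lit 332) (B (L (nat_lit 300) ln13_13_7 ln13_13_7_ok) (L (nat_lit 364) ln13_14_7 ln13_14_7_ok))) (M (nat_lit 301) (B (M (nat_lit 302) (B (L (nat_lit 270) ln13_12_6 ln13_12_6_ok) (L (nat_lit 334) ln13_13_6 ln13_13_6_ok))) (M (nat_lit 428) (B (L (nat_lit 396) ln13_9_5 ln13_9_5_ok) (L (nat_lit 460) ln13_10_5 ln13_10_5_ok))))))))))) (B (M (nat_lit 365) (B (M (nat_lit 333) (B (M (nat_lit 332) (B (L (nat_lit 300) ln13_13_7 ln13_13_7_ok) (L (nat_lit 364) ln13_14_7 ln13_14_7_ok))) (M (nat_lit 462) (B (L (nat_lit 430) ln13_10_4 ln13_10_4_ok)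 (L (nat_lit 494) ln13_11_4 ln13_11_4_ok))))) (B (M (nat_lit 493) (B (M (nat_lit 366) (B (L (nat_lit 334) ln13_14_6 ln13_14_6_ok) (L (nat_lit 398) ln13_15_6 ln13_15_6_ok))) (M (nat_lit 494) (B (L (nat_lit 462) ln13_11_4 ln13_11_4_ok) (L (nat_lit 526) ln13_12_4 ln13_12_4_ok))))) (M (nat_lit 332) (B (L (nat_lit 364) ln13_14_7 ln13_14_7_ok) (M (nat_lit 334) (B (L (nat_lit 366) ln13_14_6 ln13_14_6_ok) (M (nat_lit 333) (B (L (nat_lit 300) ln13_13_7 ln13_13_7_ok) (L (nat_lit 302) ln13_13_6 ln13_13_6_ok)))))))))) (B (M (nat_lit 365) (B (M (nat_lit 493) (B (M (nat_lit 366) (B (L (nat_lit 334) ln13_14_6 ln13_14_6_ok) (L (nat_lit 398) ln13_15_6 ln13_15_6_ok))) (M (nat_lit 494) (B (L (nat_lit 462) ln13_11_4 ln13_11_4_ok) (L (nat_lit 526) ln13_12_4 ln13_12_4_ok))))) (B (M (nat_lit 493) (B (M (nat_lit 364) (B (L (nat_lit 332) ln13_14_7 ln13_14_7_ok) (L (nat_lit 396) ln13_15_7 ln13_15_7_ok))) (M (nat_lit 494) (B (L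 (nat_lit 462) ln13_11_4 ln13_11_4_ok) (L (nat_lit 526) ln13_12_4 ln13_12_4_ok))))) (B (M (nat_lit 493) (B (M (nat_lit 364) (B (L (nat_lit 332) ln13_14_7 ln13_14_7_ok) (L (nat_lit 396) ln13_15_7 ln13_15_7_ok))) (M (nat_lit 366) (B (L (nat_lit 334) ln13_14_6 ln13_14_6_ok) (L (nat_lit 398) ln13_15_6 ln13_15_6_ok))))) (M (nat_lit 332) (B (L (nat_lit 364) ln13_14_7 ln13_14_7_ok) (M (nat_lit 334) (B (L (nat_lit 366) ln13_14_6 ln13_14_6_ok) (M (nat_lit 333) (B (L (nat_lit 300) ln13_13_7 ln13_13_7_ok) (L (nat_lit 302) ln13_13_6 ln13_13_6_ok))))))))))) (B (M (nat_lit 365) (B (M (nat_lit 333) (B (M (nat_lit 332) (B (L (nat_lit 300) ln13_13_7 ln13_13_7_ok) (L (nat_lit 364) ln13_14_7 ln13_14_7_ok))) (M (nat_lit 462) (B (L (nat_lit 430) ln13_10_4 ln13_10_4_ok) (L (nat_lit 494) ln13_11_4 ln13_11_4_ok))))) (B (M (nat_lit 333) (B (M (nat_lit 334) (B (L (nat_lit 302) ln13_13_6 ln13_13_6_ok) (L (nat_lit 366) ln13_14_6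 ln13_14_6_ok))) (M (nat_lit 462) (B (L (nat_lit 430) ln13_10_4 ln13_10_4_ok) (L (nat_lit 494) ln13_11_4 ln13_11_4_ok))))) (M (nat_lit 364) (B (L (nat_lit 332) ln13_14_7 ln13_14_7_ok) (M (nat_lit 366) (B (L (nat_lit 334) ln13_14_6 ln13_14_6_ok) (M (nat_lit 363) (B (M (nat_lit 398) (B (L (nat_lit 362) ln10_11_0 ln10_11_0_ok) (L (nat_lit 399) ln11_11_0 ln11_11_0_ok))) (B (M (nat_lit 367) (B (M (nat_lit 395) (B (L (nat_lit 394) ln14_11_1 ln14_11_1_ok) (L (nat_lit 396) ln15_11_1 ln15_11_1_ok))) (M (nat_lit 399) (B (L (nat_lit 398) ln11_11_0 ln11_11_0_ok) (L (nat_lit 400) ln12_11_0 ln12_11_0_ok))))) (M (nat_lit 362) (B (M (nat_lit 330) (B (L (nat_lit 329) ln13_11_3 ln13_11_3_ok) (L (nat_lit 331) ln14_11_3 ln14_11_3_ok))) (M (nat_lit 394) (B (L (nat_lit 393) ln13_11_1 ln13_11_1_ok) (L (nat_lit 395) ln14_11_1 ln14_11_1_ok))))))))))))))) (M (nat_lit 365) (B (M (nat_lit 493) (B (M (nat_lit 364) (B (L (nat_lit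 332) ln13_14_7 ln13_14_7_ok) (L (nat_lit 396) ln13_15_7 ln13_15_7_ok))) (M (nat_lit 366) (B (L (nat_lit 334) ln13_14_6 ln13_14_6_ok) (L (nat_lit 398) ln13_15_6 ln13_15_6_ok))))) (B (M (nat_lit 428) (B (M (nat_lit 333) (B (L (nat_lit 460) ln13_10_5 ln13_10_5_ok) (M (nat_lit 334) (B (L (nat_lit 302) ln13_13_6 ln13_13_6_ok) (L (nat_lit 366) ln13_14_6 ln13_14_6_ok))))) (B (M (nat_lit 396) (B (M (nat_lit 333) (B (L (nat_lit 301) ln13_9_5 ln13_9_5_ok) (L (nat_lit 460) ln13_10_5 ln13_10_5_ok))) (M (nat_lit 493) (B (L (nat_lit 364) ln13_15_7 ln13_15_7_ok) (L (nat_lit 525) ln13_16_7 ln13_16_7_ok))))) (M (nat_lit 493) (B (M (nat_lit 366) (B (L (nat_lit 334) ln13_14_6 ln13_14_6_ok) (L (nat_lit 398) ln13_15_6 ln13_15_6_ok))) (M (nat_lit 396) (B (L (nat_lit 364) ln13_15_7 ln13_15_7_ok) (L (nat_lit 525) ln13_16_7 ln13_16_7_ok)))))))) (B (M (nat_lit 398) (B (M (nat_lit 364) (B (L (nat_lit 332) ln13_14_7 ln13_14_7_ok)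 (M (nat_lit 493) (B (L (nat_lit 396) ln13_15_7 ln13_15_7_ok) (L (nat_lit 366) ln13_15_6 ln13_15_6_ok))))) (B (M (nat_lit 430) (B (M (nat_lit 333) (B (L (nat_lit 301) ln13_9_4 ln13_9_4_ok) (L (nat_lit 462) ln13_10_4 ln13_10_4_ok))) (M (nat_lit 493) (B (L (nat_lit 366) ln13_15_6 ln13_15_6_ok) (L (nat_lit 525) ln13_16_6 ln13_16_6_ok))))) (M (nat_lit 333) (B (M (nat_lit 332) (B (L (nat_lit 300) ln13_13_7 ln13_13_7_ok) (L (nat_lit 364) ln13_14_7 ln13_14_7_ok))) (M (nat_lit 430) (B (L (nat_lit 301) ln13_9_4 ln13_9_4_ok) (L (nat_lit 462) ln13_10_4 ln13_10_4_ok)))))))) (B (M (nat_lit 333) (B (M (nat_lit 334) (B (L (nat_lit 302) ln13_13_6 ln13_13_6_ok) (L (nat_lit 366) ln13_14_6 ln13_14_6_ok))) (M (nat_lit 301) (B (M (nat_lit 300) (B (L (nat_lit 268) ln13_12_7 ln13_12_7_ok) (L (nat_lit 332) ln13_13_7 ln13_13_7_ok))) (M (nat_lit 428) (B (L (nat_lit 396) ln13_9_5 ln13_9_5_ok) (L (nat_lit 460) ln13_10_5 ln13_10_5_ok)))))))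 (B (M (nat_lit 333) (B (M (nat_lit 332) (B (L (nat_lit 300) ln13_13_7 ln13_13_7_ok) (L (nat_lit 364) ln13_14_7 ln13_14_7_ok))) (M (nat_lit 301) (B (M (nat_lit 302) (B (L (nat_lit 270) ln13_12_6 ln13_12_6_ok) (L (nat_lit 334) ln13_13_6 ln13_13_6_ok))) (M (nat_lit 428) (B (L (nat_lit 396) ln13_9_5 ln13_9_5_ok) (L (nat_lit 460) ln13_10_5 ln13_10_5_ok))))))) (M (nat_lit 332) (B (L (nat_lit 364) ln13_14_7 ln13_14_7_ok) (M (nat_lit 334) (B (L (nat_lit 366) ln13_14_6 ln13_14_6_ok) (M (nat_lit 333) (B (L (nat_lit 300) ln13_13_7 ln13_13_7_ok) (L (nat_lit 302) ln13_13_6 ln13_13_6_ok))))))))))))))))))))))) (nat_lit 1386334847383188664550070665778531748218595021979121511688892729411143073470393764272092352380775458208712834410189682411080515584) (nat_lit 943490606534895625823378003959604206109378042226081692942150330709917447277151276110156930967350859117978865135733109888255600019350340869561147026569943620503660920832)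 (nat_lit 943490606534895625823378003959604206109378042226081692942150330709917447277151276110156930967350859117978865135733109888255600019350340869561147026569943620503660920832) (by decide +kernel)
theorem c31_s5554 : Sem (nat_lit 5954262830815946494763249298768603811203561774969104571805089223376689777636098861358550851719243481454542035207245364041705138952691777536) (nat_lit 235872651716101478396591840657615337442367814585925127270487494794730439329811577799545258988948198148225281700931418802344055680813819882376651825612966556747807326208) (nat_lit 235872651716101478396591840657615337442367814585925127270487494794730439329811577799545258988948198148225281700931418802344055680813819882376651825612966556747807326208) :=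
  sem_of_chk (M (nat_lit 398) (B (M (nat_lit 366) (B (L (nat_lit 493) ln13_15_6 ln13_15_6_ok) (M (nat_lit 334) (B (L (nat_lit 302) ln14_9_5 ln14_9_5_ok) (L (nat_lit 430) ln14_10_5 ln14_10_5_ok))))) (B (M (nat_lit 493) (B (L (nat_lit 366) ln13_15_6 ln13_15_6_ok) (M (nat_lit 525) (B (L (nat_lit 430) ln13_16_6 ln13_16_6_ok) (M (nat_lit 396) (B (L (nat_lit 364) ln13_15_7 ln13_15_7_ok) (L (nat_lit 428) ln13_16_7 ln13_16_7_ok))))))) (B (M (nat_lit 396) (B (M (nat_lit 493) (B (L (nat_lit 364) ln13_15_7 ln13_15_7_ok) (M (nat_lit 525) (B (L (nat_lit 428) ln13_16_7 ln13_16_7_ok) (L (nat_lit 430) ln13_16_6 ln13_16_6_ok))))) (B (M (nat_lit 399) (B (M (nat_lit 428) (B (L (nat_lit 427) ln15_12_1 ln15_12_1_ok) (L (nat_lit 400) ln16_12_1 ln16_12_1_ok))) (B (M (nat_lit 395) (B (M (nat_lit 427) (B (L (nat_lit 426) ln14_12_1 ln14_12_1_ok) (L (nat_lit 428) ln15_12_1 ln15_12_1_ok))) (M (nat_lit 431) (B (L (nat_lit 430) ln11_12_0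 ln11_12_0_ok) (L (nat_lit 432) ln12_12_0 ln12_12_0_ok))))) (B (M (nat_lit 400) (B (L (nat_lit 428) ln16_12_1 ln16_12_1_ok) (M (nat_lit 368) (B (L (nat_lit 367) ln12_12_2 ln12_12_2_ok) (L (nat_lit 369) ln13_12_2 ln13_12_2_ok))))) (M (nat_lit 400) (B (M (nat_lit 368) (B (L (nat_lit 367) ln12_12_2 ln12_12_2_ok) (L (nat_lit 369) ln13_12_2 ln13_12_2_ok))) (M (nat_lit 432) (B (L (nat_lit 431) ln12_12_0 ln12_12_0_ok) (L (nat_lit 433) ln13_12_0 ln13_12_0_ok))))))))) (B (M (nat_lit 430) (B (M (nat_lit 431) (B (L (nat_lit 395) ln11_12_0 ln11_12_0_ok) (L (nat_lit 432) ln16_13_3 ln16_13_3_ok))) (M (nat_lit 493) (B (L (nat_lit 364) ln13_15_7 ln13_15_7_ok) (L (nat_lit 525) ln13_16_6 ln13_16_6_ok))))) (M (nat_lit 428) (B (M (nat_lit 493) (B (L (nat_lit 364) ln13_15_7 ln13_15_7_ok) (L (nat_lit 525) ln13_16_7 ln13_16_7_ok))) (M (nat_lit 427) (B (L (nat_lit 399) ln15_12_1 ln15_12_1_ok) (L (nat_lit 426) ln10_13_2 ln10_13_2_ok)))))))))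 (B (M (nat_lit 493) (B (L (nat_lit 366) ln13_15_6 ln13_15_6_ok) (M (nat_lit 525) (B (M (nat_lit 396) (B (L (nat_lit 364) ln13_15_7 ln13_15_7_ok) (L (nat_lit 428) ln13_16_7 ln13_16_7_ok))) (M (nat_lit 524) (B (L (nat_lit 492) ln13_12_5 ln13_12_5_ok) (L (nat_lit 556) ln13_13_5 ln13_13_5_ok))))))) (M (nat_lit 396) (B (M (nat_lit 399) (B (M (nat_lit 428) (B (L (nat_lit 427) ln15_12_1 ln15_12_1_ok) (L (nat_lit 400) ln16_12_1 ln16_12_1_ok))) (M (nat_lit 395) (B (M (nat_lit 367) (B (L (nat_lit 366) ln11_12_2 ln11_12_2_ok) (L (nat_lit 368) ln12_12_2 ln12_12_2_ok))) (M (nat_lit 431) (B (L (nat_lit 430) ln11_12_0 ln11_12_0_ok) (L (nat_lit 432) ln12_12_0 ln12_12_0_ok))))))) (B (M (nat_lit 399) (B (M (nat_lit 428) (B (L (nat_lit 427) ln15_12_1 ln15_12_1_ok) (L (nat_lit 400) ln16_12_1 ln16_12_1_ok))) (M (nat_lit 395) (B (M (nat_lit 363) (B (L (nat_lit 362) ln14_12_3 ln14_12_3_ok) (L (nat_lit 364) ln15_12_3 ln15_12_3_ok)))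 (M (nat_lit 431) (B (L (nat_lit 430) ln11_12_0 ln11_12_0_ok) (L (nat_lit 432) ln12_12_0 ln12_12_0_ok))))))) (B (M (nat_lit 399) (B (M (nat_lit 428) (B (L (nat_lit 427) ln15_12_1 ln15_12_1_ok) (L (nat_lit 400) ln16_12_1 ln16_12_1_ok))) (B (M (nat_lit 428) (B (L (nat_lit 427) ln15_12_1 ln15_12_1_ok) (M (nat_lit 364) (B (L (nat_lit 332) ln12_10_4 ln12_10_4_ok) (L (nat_lit 363) ln15_12_3 ln15_12_3_ok))))) (B (M (nat_lit 428) (B (L (nat_lit 400) ln16_12_1 ln16_12_1_ok) (M (nat_lit 364) (B (L (nat_lit 332) ln12_10_4 ln12_10_4_ok) (L (nat_lit 363) ln15_12_3 ln15_12_3_ok))))) (M (nat_lit 400) (B (M (nat_lit 368) (B (L (nat_lit 367) ln12_12_2 ln12_12_2_ok) (L (nat_lit 369) ln13_12_2 ln13_12_2_ok))) (M (nat_lit 432) (B (L (nat_lit 431) ln12_12_0 ln12_12_0_ok) (L (nat_lit 433) ln13_12_0 ln13_12_0_ok))))))))) (B (M (nat_lit 395) (B (M (nat_lit 430) (B (L (nat_lit 394) ln10_12_0 ln10_12_0_ok) (L (nat_lit 431) ln11_12_0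 ln11_12_0_ok))) (B (M (nat_lit 430) (B (L (nat_lit 431) ln11_12_0 ln11_12_0_ok) (M (nat_lit 366) (B (L (nat_lit 334) ln14_10_5 ln14_10_5_ok) (L (nat_lit 367) ln11_12_2 ln11_12_2_ok))))) (M (nat_lit 394) (B (M (nat_lit 362) (B (L (nat_lit 361) ln13_12_3 ln13_12_3_ok) (L (nat_lit 363) ln14_12_3 ln14_12_3_ok))) (M (nat_lit 426) (B (L (nat_lit 425) ln13_12_1 ln13_12_1_ok) (L (nat_lit 427) ln14_12_1 ln14_12_1_ok)))))))) (B (M (nat_lit 399) (B (M (nat_lit 428) (B (L (nat_lit 400) ln16_12_1 ln16_12_1_ok) (M (nat_lit 364) (B (L (nat_lit 332) ln12_10_4 ln12_10_4_ok) (L (nat_lit 363) ln15_12_3 ln15_12_3_ok))))) (B (M (nat_lit 400) (B (L (nat_lit 428) ln16_12_1 ln16_12_1_ok) (M (nat_lit 368) (B (L (nat_lit 367) ln12_12_2 ln12_12_2_ok) (L (nat_lit 369) ln13_12_2 ln13_12_2_ok))))) (B (M (nat_lit 364) (B (L (nat_lit 363) ln15_12_3 ln15_12_3_ok) (M (nat_lit 332) (B (L (nat_lit 300) ln12_9_4 ln12_9_4_ok) (L (nat_lit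 428) ln12_10_4 ln12_10_4_ok))))) (M (nat_lit 400) (B (M (nat_lit 368) (B (L (nat_lit 367) ln12_12_2 ln12_12_2_ok) (L (nat_lit 369) ln13_12_2 ln13_12_2_ok))) (M (nat_lit 432) (B (L (nat_lit 431) ln12_12_0 ln12_12_0_ok) (L (nat_lit 433) ln13_12_0 ln13_12_0_ok))))))))) (M (nat_lit 399) (B (M (nat_lit 428) (B (L (nat_lit 427) ln15_12_1 ln15_12_1_ok) (L (nat_lit 400) ln16_12_1 ln16_12_1_ok))) (M (nat_lit 395) (B (M (nat_lit 363) (B (L (nat_lit 362) ln14_12_3 ln14_12_3_ok) (L (nat_lit 364) ln15_12_3 ln15_12_3_ok))) (M (nat_lit 367) (B (L (nat_lit 366) ln11_12_2 ln11_12_2_ok) (L (nat_lit 368) ln12_12_2 ln12_12_2_ok)))))))))))))))))) (nat_lit 5954262830815946494763249298768603811203561774969104571805089223376689777636098861358550851719243481454542035207245364041705138952691777536) (nat_lit 235872651716101478396591840657615337442367814585925127270487494794730439329811577799545258988948198148225281700931418802344055680813819882376651825612966556747807326208)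 (nat_lit 235872651716101478396591840657615337442367814585925127270487494794730439329811577799545258988948198148225281700931418802344055680813819882376651825612966556747807326208) (by decide +kernel)
theorem c31_s5561 : Sem (nat_lit 1386334847383188664550070665778531748218595021979121511688892729411143073470393764272092352380775458208712834410189682411080515584) (nat_lit 235872651716101478396591840678455257345371455351775513317500068139748647338601176842386455476612441692895882712421332951533618103112463071775579182852658970335658377216) (nat_lit 235872651716101478396591840678455257345371455351775513317500068139748647338601176842386455476612441692895882712421332951533618103112463071775579182852658970335658377216) :=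
  sem_of_chk (M (nat_lit 461) (B (M (nat_lit 365) (B (M (nat_lit 493) (B (M (nat_lit 364) (B (L (nat_lit 332) ln13_14_7 ln13_14_7_ok) (L (nat_lit 396) ln13_15_7 ln13_15_7_ok))) (M (nat_lit 366) (B (L (nat_lit 334) ln13_14_6 ln13_14_6_ok) (L (nat_lit 398) ln13_15_6 ln13_15_6_ok))))) (B (M (nat_lit 398) (B (M (nat_lit 366) (B (L (nat_lit 334) ln13_14_6 ln13_14_6_ok) (L (nat_lit 493) ln13_15_6 ln13_15_6_ok))) (M (nat_lit 333) (B (M (nat_lit 460) (B (L (nat_lit 428) ln13_10_5 ln13_10_5_ok) (L (nat_lit 492) ln13_11_5 ln13_11_5_ok))) (M (nat_lit 430) (B (L (nat_lit 301) ln13_9_4 ln13_9_4_ok) (L (nat_lit 462) ln13_10_4 ln13_10_4_ok))))))) (M (nat_lit 333) (B (M (nat_lit 332) (B (L (nat_lit 300) ln13_13_7 ln13_13_7_ok) (L (nat_lit 364) ln13_14_7 ln13_14_7_ok))) (M (nat_lit 460) (B (L (nat_lit 428) ln13_10_5 ln13_10_5_ok) (L (nat_lit 492) ln13_11_5 ln13_11_5_ok)))))))) (B (M (nat_lit 365) (B (M (nat_lit 493)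 (B (M (nat_lit 364) (B (L (nat_lit 332) ln13_14_7 ln13_14_7_ok) (L (nat_lit 396) ln13_15_7 ln13_15_7_ok))) (M (nat_lit 366) (B (L (nat_lit 334) ln13_14_6 ln13_14_6_ok) (L (nat_lit 398) ln13_15_6 ln13_15_6_ok))))) (B (M (nat_lit 493) (B (M (nat_lit 366) (B (L (nat_lit 334) ln13_14_6 ln13_14_6_ok) (L (nat_lit 398) ln13_15_6 ln13_15_6_ok))) (M (nat_lit 492) (B (L (nat_lit 460) ln13_11_5 ln13_11_5_ok) (L (nat_lit 524) ln13_12_5 ln13_12_5_ok))))) (B (M (nat_lit 493) (B (M (nat_lit 364) (B (L (nat_lit 332) ln13_14_7 ln13_14_7_ok) (L (nat_lit 396) ln13_15_7 ln13_15_7_ok))) (M (nat_lit 492) (B (L (nat_lit 460) ln13_11_5 ln13_11_5_ok) (L (nat_lit 524) ln13_12_5 ln13_12_5_ok))))) (M (nat_lit 460) (B (L (nat_lit 492) ln13_11_5 ln13_11_5_ok) (M (nat_lit 333) (B (L (nat_lit 428) ln13_10_5 ln13_10_5_ok) (M (nat_lit 334) (B (L (nat_lit 302) ln13_13_6 ln13_13_6_ok) (L (nat_lit 366) ln13_14_6 ln13_14_6_ok)))))))))))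 (B (M (nat_lit 365) (B (M (nat_lit 460) (B (L (nat_lit 492) ln13_11_5 ln13_11_5_ok) (M (nat_lit 333) (B (L (nat_lit 428) ln13_10_5 ln13_10_5_ok) (M (nat_lit 334) (B (L (nat_lit 302) ln13_13_6 ln13_13_6_ok) (L (nat_lit 366) ln13_14_6 ln13_14_6_ok))))))) (B (M (nat_lit 493) (B (M (nat_lit 366) (B (L (nat_lit 334) ln13_14_6 ln13_14_6_ok) (L (nat_lit 398) ln13_15_6 ln13_15_6_ok))) (M (nat_lit 492) (B (L (nat_lit 460) ln13_11_5 ln13_11_5_ok) (L (nat_lit 524) ln13_12_5 ln13_12_5_ok))))) (B (M (nat_lit 493) (B (M (nat_lit 492) (B (L (nat_lit 460) ln13_11_5 ln13_11_5_ok) (L (nat_lit 524) ln13_12_5 ln13_12_5_ok))) (M (nat_lit 525) (B (M (nat_lit 396) (B (L (nat_lit 364) ln13_15_7 ln13_15_7_ok) (L (nat_lit 428) ln13_16_7 ln13_16_7_ok))) (M (nat_lit 398) (B (L (nat_lit 366) ln13_15_6 ln13_15_6_ok) (L (nat_lit 430) ln13_16_6 ln13_16_6_ok))))))) (B (M (nat_lit 333) (B (M (nat_lit 460) (B (L (nat_lit 428) ln13_10_5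 ln13_10_5_ok) (L (nat_lit 492) ln13_11_5 ln13_11_5_ok))) (M (nat_lit 301) (B (M (nat_lit 302) (B (L (nat_lit 270) ln13_12_6 ln13_12_6_ok) (L (nat_lit 334) ln13_13_6 ln13_13_6_ok))) (M (nat_lit 430) (B (L (nat_lit 398) ln13_9_4 ln13_9_4_ok) (L (nat_lit 462) ln13_10_4 ln13_10_4_ok))))))) (B (M (nat_lit 493) (B (M (nat_lit 366) (B (L (nat_lit 334) ln13_14_6 ln13_14_6_ok) (L (nat_lit 398) ln13_15_6 ln13_15_6_ok))) (M (nat_lit 525) (B (M (nat_lit 396) (B (L (nat_lit 364) ln13_15_7 ln13_15_7_ok) (L (nat_lit 428) ln13_16_7 ln13_16_7_ok))) (M (nat_lit 524) (B (L (nat_lit 492) ln13_12_5 ln13_12_5_ok) (L (nat_lit 556) ln13_13_5 ln13_13_5_ok))))))) (M (nat_lit 428) (B (M (nat_lit 333) (B (L (nat_lit 460) ln13_10_5 ln13_10_5_ok) (M (nat_lit 334) (B (L (nat_lit 302) ln13_13_6 ln13_13_6_ok) (L (nat_lit 366) ln13_14_6 ln13_14_6_ok))))) (B (M (nat_lit 396) (B (M (nat_lit 333) (B (L (nat_lit 301) ln13_9_5 ln13_9_5_ok)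 (L (nat_lit 460) ln13_10_5 ln13_10_5_ok))) (M (nat_lit 493) (B (L (nat_lit 364) ln13_15_7 ln13_15_7_ok) (L (nat_lit 525) ln13_16_7 ln13_16_7_ok))))) (M (nat_lit 493) (B (M (nat_lit 366) (B (L (nat_lit 334) ln13_14_6 ln13_14_6_ok) (L (nat_lit 398) ln13_15_6 ln13_15_6_ok))) (M (nat_lit 396) (B (L (nat_lit 364) ln13_15_7 ln13_15_7_ok) (L (nat_lit 525) ln13_16_7 ln13_16_7_ok)))))))))))))) (B (M (nat_lit 364) (B (M (nat_lit 332) (B (L (nat_lit 365) ln13_14_7 ln13_14_7_ok) (M (nat_lit 396) (B (L (nat_lit 428) ln12_10_4 ln12_10_4_ok) (L (nat_lit 493) ln13_15_7 ln13_15_7_ok))))) (B (M (nat_lit 366) (B (M (nat_lit 493) (B (L (nat_lit 396) ln13_15_7 ln13_15_7_ok) (L (nat_lit 398) ln13_15_6 ln13_15_6_ok))) (B (M (nat_lit 334) (B (L (nat_lit 365) ln13_14_6 ln13_14_6_ok) (M (nat_lit 398) (B (L (nat_lit 302) ln14_9_5 ln14_9_5_ok) (L (nat_lit 430) ln14_10_5 ln14_10_5_ok))))) (M (nat_lit 492) (B (M (nat_lit 365) (B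 (L (nat_lit 334) ln13_14_6 ln13_14_6_ok) (L (nat_lit 460) ln13_11_5 ln13_11_5_ok))) (M (nat_lit 493) (B (L (nat_lit 396) ln13_15_7 ln13_15_7_ok) (L (nat_lit 524) ln13_12_5 ln13_12_5_ok)))))))) (B (M (nat_lit 396) (B (L (nat_lit 493) ln13_15_7 ln13_15_7_ok) (M (nat_lit 332) (B (L (nat_lit 300) ln12_9_4 ln12_9_4_ok) (L (nat_lit 428) ln12_10_4 ln12_10_4_ok))))) (B (M (nat_lit 365) (B (L (nat_lit 332) ln13_14_7 ln13_14_7_ok) (M (nat_lit 493) (B (M (nat_lit 366) (B (L (nat_lit 334) ln13_14_6 ln13_14_6_ok) (L (nat_lit 398) ln13_15_6 ln13_15_6_ok))) (M (nat_lit 492) (B (L (nat_lit 460) ln13_11_5 ln13_11_5_ok) (L (nat_lit 524) ln13_12_5 ln13_12_5_ok))))))) (M (nat_lit 332) (B (L (nat_lit 365) ln13_14_7 ln13_14_7_ok) (M (nat_lit 396) (B (L (nat_lit 300) ln12_9_4 ln12_9_4_ok) (L (nat_lit 428) ln12_10_4 ln12_10_4_ok)))))))))) (B (M (nat_lit 365) (B (M (nat_lit 333) (B (M (nat_lit 332) (B (L (nat_lit 300) ln13_13_7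 ln13_13_7_ok) (L (nat_lit 364) ln13_14_7 ln13_14_7_ok))) (M (nat_lit 460) (B (L (nat_lit 428) ln13_10_5 ln13_10_5_ok) (L (nat_lit 492) ln13_11_5 ln13_11_5_ok))))) (B (M (nat_lit 493) (B (M (nat_lit 364) (B (L (nat_lit 332) ln13_14_7 ln13_14_7_ok) (L (nat_lit 396) ln13_15_7 ln13_15_7_ok))) (M (nat_lit 492) (B (L (nat_lit 460) ln13_11_5 ln13_11_5_ok) (L (nat_lit 524) ln13_12_5 ln13_12_5_ok))))) (B (M (nat_lit 493) (B (M (nat_lit 492) (B (L (nat_lit 460) ln13_11_5 ln13_11_5_ok) (L (nat_lit 524) ln13_12_5 ln13_12_5_ok))) (M (nat_lit 525) (B (M (nat_lit 396) (B (L (nat_lit 364) ln13_15_7 ln13_15_7_ok) (L (nat_lit 428) ln13_16_7 ln13_16_7_ok))) (M (nat_lit 398) (B (L (nat_lit 366) ln13_15_6 ln13_15_6_ok) (L (nat_lit 430) ln13_16_6 ln13_16_6_ok))))))) (B (M (nat_lit 398) (B (M (nat_lit 492) (B (L (nat_lit 460) ln13_11_5 ln13_11_5_ok) (M (nat_lit 493) (B (L (nat_lit 366) ln13_15_6 ln13_15_6_ok) (L (nat_lit 524)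 ln13_12_5 ln13_12_5_ok))))) (B (M (nat_lit 333) (B (M (nat_lit 460) (B (L (nat_lit 428) ln13_10_5 ln13_10_5_ok) (L (nat_lit 492) ln13_11_5 ln13_11_5_ok))) (M (nat_lit 430) (B (L (nat_lit 301) ln13_9_4 ln13_9_4_ok) (L (nat_lit 462) ln13_10_4 ln13_10_4_ok))))) (M (nat_lit 430) (B (M (nat_lit 333) (B (L (nat_lit 301) ln13_9_4 ln13_9_4_ok) (L (nat_lit 462) ln13_10_4 ln13_10_4_ok))) (M (nat_lit 493) (B (L (nat_lit 366) ln13_15_6 ln13_15_6_ok) (L (nat_lit 525) ln13_16_6 ln13_16_6_ok)))))))) (M (nat_lit 398) (B (M (nat_lit 364) (B (L (nat_lit 332) ln13_14_7 ln13_14_7_ok) (M (nat_lit 493) (B (L (nat_lit 396) ln13_15_7 ln13_15_7_ok) (L (nat_lit 366) ln13_15_6 ln13_15_6_ok))))) (B (M (nat_lit 430) (B (M (nat_lit 333) (B (L (nat_lit 301) ln13_9_4 ln13_9_4_ok) (L (nat_lit 462) ln13_10_4 ln13_10_4_ok))) (M (nat_lit 493) (B (L (nat_lit 366) ln13_15_6 ln13_15_6_ok) (L (nat_lit 525) ln13_16_6 ln13_16_6_ok))))) (M (nat_lit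 333) (B (M (nat_lit 332) (B (L (nat_lit 300) ln13_13_7 ln13_13_7_ok) (L (nat_lit 364) ln13_14_7 ln13_14_7_ok))) (M (nat_lit 430) (B (L (nat_lit 301) ln13_9_4 ln13_9_4_ok) (L (nat_lit 462) ln13_10_4 ln13_10_4_ok))))))))))))) (B (M (nat_lit 365) (B (M (nat_lit 460) (B (L (nat_lit 492) ln13_11_5 ln13_11_5_ok) (M (nat_lit 333) (B (L (nat_lit 428) ln13_10_5 ln13_10_5_ok) (M (nat_lit 334) (B (L (nat_lit 302) ln13_13_6 ln13_13_6_ok) (L (nat_lit 366) ln13_14_6 ln13_14_6_ok))))))) (B (M (nat_lit 493) (B (M (nat_lit 366) (B (L (nat_lit 334) ln13_14_6 ln13_14_6_ok) (L (nat_lit 398) ln13_15_6 ln13_15_6_ok))) (M (nat_lit 492) (B (L (nat_lit 460) ln13_11_5 ln13_11_5_ok) (L (nat_lit 524) ln13_12_5 ln13_12_5_ok))))) (B (M (nat_lit 398) (B (M (nat_lit 492) (B (L (nat_lit 460) ln13_11_5 ln13_11_5_ok) (M (nat_lit 493) (B (L (nat_lit 366) ln13_15_6 ln13_15_6_ok) (L (nat_lit 524) ln13_12_5 ln13_12_5_ok))))) (B (M (nat_lit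 333) (B (M (nat_lit 460) (B (L (nat_lit 428) ln13_10_5 ln13_10_5_ok) (L (nat_lit 492) ln13_11_5 ln13_11_5_ok))) (M (nat_lit 430) (B (L (nat_lit 301) ln13_9_4 ln13_9_4_ok) (L (nat_lit 462) ln13_10_4 ln13_10_4_ok))))) (M (nat_lit 430) (B (M (nat_lit 333) (B (L (nat_lit 301) ln13_9_4 ln13_9_4_ok) (L (nat_lit 462) ln13_10_4 ln13_10_4_ok))) (M (nat_lit 493) (B (L (nat_lit 366) ln13_15_6 ln13_15_6_ok) (L (nat_lit 525) ln13_16_6 ln13_16_6_ok)))))))) (B (M (nat_lit 333) (B (M (nat_lit 460) (B (L (nat_lit 428) ln13_10_5 ln13_10_5_ok) (L (nat_lit 492) ln13_11_5 ln13_11_5_ok))) (M (nat_lit 301) (B (M (nat_lit 302) (B (L (nat_lit 270) ln13_12_6 ln13_12_6_ok) (L (nat_lit 334) ln13_13_6 ln13_13_6_ok))) (M (nat_lit 430) (B (L (nat_lit 398) ln13_9_4 ln13_9_4_ok) (L (nat_lit 462) ln13_10_4 ln13_10_4_ok))))))) (M (nat_lit 396) (B (M (nat_lit 366) (B (L (nat_lit 334) ln13_14_6 ln13_14_6_ok) (M (nat_lit 398) (B (L (nat_lit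 493) ln13_15_6 ln13_15_6_ok) (M (nat_lit 367) (B (L (nat_lit 368) ln16_11_1 ln16_11_1_ok) (L (nat_lit 395) ln11_12_2 ln11_12_2_ok))))))) (B (M (nat_lit 430) (B (M (nat_lit 333) (B (L (nat_lit 462) ln13_10_4 ln13_10_4_ok) (M (nat_lit 301) (B (L (nat_lit 428) ln13_9_5 ln13_9_5_ok) (L (nat_lit 398) ln13_9_4 ln13_9_4_ok))))) (B (M (nat_lit 395) (B (L (nat_lit 394) ln10_12_0 ln10_12_0_ok) (M (nat_lit 431) (B (L (nat_lit 398) ln11_12_0 ln11_12_0_ok) (L (nat_lit 432) ln16_13_3 ln16_13_3_ok))))) (M (nat_lit 395) (B (L (nat_lit 394) ln10_12_0 ln10_12_0_ok) (M (nat_lit 431) (B (L (nat_lit 428) ln15_13_3 ln15_13_3_ok) (L (nat_lit 432) ln16_13_3 ln16_13_3_ok)))))))) (B (M (nat_lit 333) (B (M (nat_lit 334) (B (L (nat_lit 302) ln13_13_6 ln13_13_6_ok) (L (nat_lit 366) ln13_14_6 ln13_14_6_ok))) (M (nat_lit 430) (B (L (nat_lit 462) ln13_10_4 ln13_10_4_ok) (M (nat_lit 301) (B (L (nat_lit 428) ln13_9_5 ln13_9_5_ok) (L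 (nat_lit 398) ln13_9_4 ln13_9_4_ok))))))) (M (nat_lit 430) (B (M (nat_lit 333) (B (L (nat_lit 462) ln13_10_4 ln13_10_4_ok) (M (nat_lit 334) (B (L (nat_lit 302) ln13_13_6 ln13_13_6_ok) (L (nat_lit 366) ln13_14_6 ln13_14_6_ok))))) (M (nat_lit 395) (B (L (nat_lit 394) ln10_12_0 ln10_12_0_ok) (M (nat_lit 431) (B (L (nat_lit 428) ln15_13_3 ln15_13_3_ok) (L (nat_lit 432) ln16_13_3 ln16_13_3_ok)))))))))))))))) (B (K (nat_lit 5954262830815946494763249298768603811203561774969104571805089223376689777636098861358550851719243481454542035207245364041705138952691777536) (nat_lit 235872651716101478396591840657615337442367814585925127270487494794730439329811577799545258988948198148225281700931418802344055680813819882376651825612966556747807326208) (nat_lit 235872651716101478396591840657615337442367814585925127270487494794730439329811577799545258988948198148225281700931418802344055680813819882376651825612966556747807326208)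 c31_s5554) (B (M (nat_lit 365) (B (M (nat_lit 333) (B (M (nat_lit 332) (B (L (nat_lit 300) ln13_13_7 ln13_13_7_ok) (L (nat_lit 364) ln13_14_7 ln13_14_7_ok))) (M (nat_lit 460) (B (L (nat_lit 428) ln13_10_5 ln13_10_5_ok) (L (nat_lit 492) ln13_11_5 ln13_11_5_ok))))) (B (M (nat_lit 493) (B (M (nat_lit 364) (B (L (nat_lit 332) ln13_14_7 ln13_14_7_ok) (L (nat_lit 396) ln13_15_7 ln13_15_7_ok))) (M (nat_lit 492) (B (L (nat_lit 460) ln13_11_5 ln13_11_5_ok) (L (nat_lit 524) ln13_12_5 ln13_12_5_ok))))) (B (M (nat_lit 333) (B (M (nat_lit 460) (B (L (nat_lit 428) ln13_10_5 ln13_10_5_ok) (L (nat_lit 492) ln13_11_5 ln13_11_5_ok))) (M (nat_lit 301) (B (M (nat_lit 302) (B (L (nat_lit 270) ln13_12_6 ln13_12_6_ok) (L (nat_lit 334) ln13_13_6 ln13_13_6_ok))) (M (nat_lit 430) (B (L (nat_lit 398) ln13_9_4 ln13_9_4_ok) (L (nat_lit 462) ln13_10_4 ln13_10_4_ok))))))) (M (nat_lit 333) (B (M (nat_lit 332) (B (L (nat_lit 300) ln13_13_7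 ln13_13_7_ok) (L (nat_lit 364) ln13_14_7 ln13_14_7_ok))) (M (nat_lit 301) (B (M (nat_lit 302) (B (L (nat_lit 270) ln13_12_6 ln13_12_6_ok) (L (nat_lit 334) ln13_13_6 ln13_13_6_ok))) (M (nat_lit 430) (B (L (nat_lit 398) ln13_9_4 ln13_9_4_ok) (L (nat_lit 462) ln13_10_4 ln13_10_4_ok))))))))))) (B (M (nat_lit 365) (B (M (nat_lit 333) (B (M (nat_lit 332) (B (L (nat_lit 300) ln13_13_7 ln13_13_7_ok) (L (nat_lit 364) ln13_14_7 ln13_14_7_ok))) (M (nat_lit 460) (B (L (nat_lit 428) ln13_10_5 ln13_10_5_ok) (L (nat_lit 492) ln13_11_5 ln13_11_5_ok))))) (B (M (nat_lit 493) (B (M (nat_lit 366) (B (L (nat_lit 334) ln13_14_6 ln13_14_6_ok) (L (nat_lit 398) ln13_15_6 ln13_15_6_ok))) (M (nat_lit 492) (B (L (nat_lit 460) ln13_11_5 ln13_11_5_ok) (L (nat_lit 524) ln13_12_5 ln13_12_5_ok))))) (M (nat_lit 332) (B (L (nat_lit 364) ln13_14_7 ln13_14_7_ok) (M (nat_lit 334) (B (L (nat_lit 366) ln13_14_6 ln13_14_6_ok) (M (nat_lit 333)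 (B (L (nat_lit 300) ln13_13_7 ln13_13_7_ok) (L (nat_lit 302) ln13_13_6 ln13_13_6_ok)))))))))) (B (M (nat_lit 365) (B (M (nat_lit 460) (B (L (nat_lit 492) ln13_11_5 ln13_11_5_ok) (M (nat_lit 333) (B (L (nat_lit 428) ln13_10_5 ln13_10_5_ok) (M (nat_lit 334) (B (L (nat_lit 302) ln13_13_6 ln13_13_6_ok) (L (nat_lit 366) ln13_14_6 ln13_14_6_ok))))))) (B (M (nat_lit 333) (B (M (nat_lit 332) (B (L (nat_lit 300) ln13_13_7 ln13_13_7_ok) (L (nat_lit 364) ln13_14_7 ln13_14_7_ok))) (M (nat_lit 460) (B (L (nat_lit 428) ln13_10_5 ln13_10_5_ok) (L (nat_lit 492) ln13_11_5 ln13_11_5_ok))))) (B (M (nat_lit 493) (B (M (nat_lit 364) (B (L (nat_lit 332) ln13_14_7 ln13_14_7_ok) (L (nat_lit 396) ln13_15_7 ln13_15_7_ok))) (M (nat_lit 492) (B (L (nat_lit 460) ln13_11_5 ln13_11_5_ok) (L (nat_lit 524) ln13_12_5 ln13_12_5_ok))))) (M (nat_lit 332) (B (L (nat_lit 364) ln13_14_7 ln13_14_7_ok) (M (nat_lit 334) (B (L (nat_lit 366) ln13_14_6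 ln13_14_6_ok) (M (nat_lit 333) (B (L (nat_lit 300) ln13_13_7 ln13_13_7_ok) (L (nat_lit 302) ln13_13_6 ln13_13_6_ok))))))))))) (B (M (nat_lit 365) (B (M (nat_lit 493) (B (M (nat_lit 366) (B (L (nat_lit 334) ln13_14_6 ln13_14_6_ok) (L (nat_lit 398) ln13_15_6 ln13_15_6_ok))) (M (nat_lit 492) (B (L (nat_lit 460) ln13_11_5 ln13_11_5_ok) (L (nat_lit 524) ln13_12_5 ln13_12_5_ok))))) (B (M (nat_lit 493) (B (M (nat_lit 364) (B (L (nat_lit 332) ln13_14_7 ln13_14_7_ok) (L (nat_lit 396) ln13_15_7 ln13_15_7_ok))) (M (nat_lit 492) (B (L (nat_lit 460) ln13_11_5 ln13_11_5_ok) (L (nat_lit 524) ln13_12_5 ln13_12_5_ok))))) (B (M (nat_lit 493) (B (M (nat_lit 364) (B (L (nat_lit 332) ln13_14_7 ln13_14_7_ok) (L (nat_lit 396) ln13_15_7 ln13_15_7_ok))) (M (nat_lit 366) (B (L (nat_lit 334) ln13_14_6 ln13_14_6_ok) (L (nat_lit 398) ln13_15_6 ln13_15_6_ok))))) (M (nat_lit 332) (B (L (nat_lit 364) ln13_14_7 ln13_14_7_ok) (M (nat_lit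 334) (B (L (nat_lit 366) ln13_14_6 ln13_14_6_ok) (M (nat_lit 333) (B (L (nat_lit 300) ln13_13_7 ln13_13_7_ok) (L (nat_lit 302) ln13_13_6 ln13_13_6_ok))))))))))) (B (M (nat_lit 365) (B (M (nat_lit 493) (B (M (nat_lit 364) (B (L (nat_lit 332) ln13_14_7 ln13_14_7_ok) (L (nat_lit 396) ln13_15_7 ln13_15_7_ok))) (M (nat_lit 366) (B (L (nat_lit 334) ln13_14_6 ln13_14_6_ok) (L (nat_lit 398) ln13_15_6 ln13_15_6_ok))))) (B (M (nat_lit 428) (B (M (nat_lit 333) (B (L (nat_lit 460) ln13_10_5 ln13_10_5_ok) (M (nat_lit 334) (B (L (nat_lit 302) ln13_13_6 ln13_13_6_ok) (L (nat_lit 366) ln13_14_6 ln13_14_6_ok))))) (B (M (nat_lit 396) (B (M (nat_lit 333) (B (L (nat_lit 301) ln13_9_5 ln13_9_5_ok) (L (nat_lit 460) ln13_10_5 ln13_10_5_ok))) (M (nat_lit 493) (B (L (nat_lit 364) ln13_15_7 ln13_15_7_ok) (L (nat_lit 525) ln13_16_7 ln13_16_7_ok))))) (M (nat_lit 493) (B (M (nat_lit 366) (B (L (nat_lit 334) ln13_14_6 ln13_14_6_ok)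 (L (nat_lit 398) ln13_15_6 ln13_15_6_ok))) (M (nat_lit 396) (B (L (nat_lit 364) ln13_15_7 ln13_15_7_ok) (L (nat_lit 525) ln13_16_7 ln13_16_7_ok)))))))) (B (M (nat_lit 398) (B (M (nat_lit 364) (B (L (nat_lit 332) ln13_14_7 ln13_14_7_ok) (M (nat_lit 493) (B (L (nat_lit 396) ln13_15_7 ln13_15_7_ok) (L (nat_lit 366) ln13_15_6 ln13_15_6_ok))))) (B (M (nat_lit 430) (B (M (nat_lit 333) (B (L (nat_lit 301) ln13_9_4 ln13_9_4_ok) (L (nat_lit 462) ln13_10_4 ln13_10_4_ok))) (M (nat_lit 493) (B (L (nat_lit 366) ln13_15_6 ln13_15_6_ok) (L (nat_lit 525) ln13_16_6 ln13_16_6_ok))))) (M (nat_lit 333) (B (M (nat_lit 332) (B (L (nat_lit 300) ln13_13_7 ln13_13_7_ok) (L (nat_lit 364) ln13_14_7 ln13_14_7_ok))) (M (nat_lit 430) (B (L (nat_lit 301) ln13_9_4 ln13_9_4_ok) (L (nat_lit 462) ln13_10_4 ln13_10_4_ok)))))))) (B (M (nat_lit 333) (B (M (nat_lit 334) (B (L (nat_lit 302) ln13_13_6 ln13_13_6_ok) (L (nat_lit 366) ln13_14_6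 ln13_14_6_ok))) (M (nat_lit 301) (B (M (nat_lit 428) (B (L (nat_lit 396) ln13_9_5 ln13_9_5_ok) (L (nat_lit 460) ln13_10_5 ln13_10_5_ok))) (M (nat_lit 430) (B (L (nat_lit 398) ln13_9_4 ln13_9_4_ok) (L (nat_lit 462) ln13_10_4 ln13_10_4_ok))))))) (B (M (nat_lit 333) (B (M (nat_lit 332) (B (L (nat_lit 300) ln13_13_7 ln13_13_7_ok) (L (nat_lit 364) ln13_14_7 ln13_14_7_ok))) (M (nat_lit 301) (B (M (nat_lit 302) (B (L (nat_lit 270) ln13_12_6 ln13_12_6_ok) (L (nat_lit 334) ln13_13_6 ln13_13_6_ok))) (M (nat_lit 428) (B (L (nat_lit 396) ln13_9_5 ln13_9_5_ok) (L (nat_lit 460) ln13_10_5 ln13_10_5_ok))))))) (M (nat_lit 332) (B (L (nat_lit 364) ln13_14_7 ln13_14_7_ok) (M (nat_lit 334) (B (L (nat_lit 366) ln13_14_6 ln13_14_6_ok) (M (nat_lit 333) (B (L (nat_lit 300) ln13_13_7 ln13_13_7_ok) (L (nat_lit 302) ln13_13_6 ln13_13_6_ok))))))))))))) (M (nat_lit 365) (B (M (nat_lit 333) (B (M (nat_lit 332) (B (L (nat_lit 300)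 ln13_13_7 ln13_13_7_ok) (L (nat_lit 364) ln13_14_7 ln13_14_7_ok))) (M (nat_lit 460) (B (L (nat_lit 428) ln13_10_5 ln13_10_5_ok) (L (nat_lit 492) ln13_11_5 ln13_11_5_ok))))) (B (M (nat_lit 460) (B (L (nat_lit 492) ln13_11_5 ln13_11_5_ok) (M (nat_lit 333) (B (L (nat_lit 428) ln13_10_5 ln13_10_5_ok) (M (nat_lit 334) (B (L (nat_lit 302) ln13_13_6 ln13_13_6_ok) (L (nat_lit 366) ln13_14_6 ln13_14_6_ok))))))) (M (nat_lit 364) (B (L (nat_lit 332) ln13_14_7 ln13_14_7_ok) (M (nat_lit 366) (B (L (nat_lit 334) ln13_14_6 ln13_14_6_ok) (M (nat_lit 363) (B (M (nat_lit 398) (B (L (nat_lit 362) ln10_11_0 ln10_11_0_ok) (L (nat_lit 399) ln11_11_0 ln11_11_0_ok))) (B (M (nat_lit 367) (B (M (nat_lit 395) (B (L (nat_lit 394) ln14_11_1 ln14_11_1_ok) (L (nat_lit 396) ln15_11_1 ln15_11_1_ok))) (M (nat_lit 399) (B (L (nat_lit 398) ln11_11_0 ln11_11_0_ok) (L (nat_lit 400) ln12_11_0 ln12_11_0_ok))))) (M (nat_lit 362) (B (M (nat_lit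 330) (B (L (nat_lit 329) ln13_11_3 ln13_11_3_ok) (L (nat_lit 331) ln14_11_3 ln14_11_3_ok))) (M (nat_lit 394) (B (L (nat_lit 393) ln13_11_1 ln13_11_1_ok) (L (nat_lit 395) ln14_11_1 ln14_11_1_ok)))))))))))))))))))))))))))) (nat_lit 1386334847383188664550070665778531748218595021979121511688892729411143073470393764272092352380775458208712834410189682411080515584) (nat_lit 235872651716101478396591840678455257345371455351775513317500068139748647338601176842386455476612441692895882712421332951533618103112463071775579182852658970335658377216) (nat_lit 235872651716101478396591840678455257345371455351775513317500068139748647338601176842386455476612441692895882712421332951533618103112463071775579182852658970335658377216) (by decide +kernel)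
def c31_U : ℕ := 1651108562589353352775343094121528352634807161335549871083357342907514916335437822767044833064311508113062914243769708663053474828033058312773417419003518271555603791872
noncomputable def c31_kids : Cert := (B (K (nat_lit 1386334847383188664550070665778531748218595021979121511688892729411143073470393764272092352380775458208712834410189682411080515584) (nat_lit 235872651935775003889986796126899015962513499268213630927200893442332318695740239233561574530586381016731399709871453670352118466382144988393203047038271143430544424960) (nat_lit 235872651935775003889986796126899015962513499268213630927200893442332318695740239233561574530586381016731399709871453670352118466382144988393203047038271143430544424960) c31_s220) (B (K (nat_lit 1386334847383188664550070665778531748218595021979121511688892729411143073470393764272092352380775458208712834410189682411080515584) (nat_lit 1179363258141160341950375441373966238713925161927872506777169144368919150705949337762009300291124214079198773682189149010662226151934148507196888634896815140193601323008)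 (nat_lit 1179363258141160341950375441373966238713925161927872506777169144368919150705949337762009300291124214079198773682189149010662226151934148507196888634896815140193601323008) c31_s290) (B (K (nat_lit 1386334847383188664550070665778531748218595021979121511688892729411143073470393764272092352380775458208712834410189682411080515584) (nat_lit 1179363258141160341950375441373966238713925161927872506777169144368919150705943226654080296832865408742133545547705994605481228343182240085848825490997525130075051130880) (nat_lit 1179363258141160341950375441373966238713925161927872506777169144368919150705943226654080296832865408742133545547705994605481228343182240085848825490997525130075051130880) c31_s331) (B (K (nat_lit 1386334847383188664550070665778531748218595021979121511688892729411143073470393764272092352380775458208712834410189682411080515584) (nat_lit 1179363258141160341950375441373966238713925161927872506777169144368910401703050205714311810282215743593737361004465576160916523069508508695200091131203921087485509107712)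 (nat_lit 1179363258141160341950375441373966238713925161927872506777169144368910401703050205714311810282215743593737361004465576160916523069508508695200091131203921087485509107712) c31_s341) (B (K (nat_lit 1386334847383188664550070665778531748218595021979121511688892729411143073470393764272092352380775458208712834410189682411080515584) (nat_lit 1179363258141160342359549267360983972465573874031322400804249400124284751385564531714607379309977860914373119245641074423425321439278513899804805077046464503149666238464) (nat_lit 1179363258141160342359549267360983972465573874031322400804249400124284751385564531714607379309977860914373119245641074423425321439278513899804805077046464503149666238464) c31_s379) (B (K (nat_lit 1386334847383188664550070665778531748218595021979121511688892729411143073470393764272092352380775458208712834410189682411080515584) (nat_lit 1179363258141160341950375441373966238713925161927832159122819339337005233290828372441560356470163818817802099144624341005461338451763363412329705924612993394774544220160)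 (nat_lit 1179363258141160341950375441373966238713925161927832159122819339337005233290828372441560356470163818817802099144624341005461338451763363412329705924612993394774544220160) c31_s408) (B (K (nat_lit 1386334847383188664550070665778531748218595021979121511688892729411143073470393764272092352380775458208712834410189682411080515584) (nat_lit 1179363258141160341950375441373966238758287877038929696634643296897070716793869335939653255006452091057783133274255580281654940619010891790565821481190350522733301858304) (nat_lit 1179363258141160341950375441373966238758287877038929696634643296897070716793869335939653255006452091057783133274255580281654940619010891790565821481190350522733301858304) c31_s434) (B (K (nat_lit 1386334847383188664550070665778531748218595021979121511688892729411143073470393764272092352380775458208712834410189682411080515584) (nat_lit 1179363258141160341638700066110417574332699848577341159692489292819121752236179607357586235789729715569355281771342180711468644269812555767298262184241266114570863247360)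 (nat_lit 1179363258141160341638700066110417574332699848577341159692489292819121752236179607357586235789729715569355281771342180711468644269812555767298262184241266114570863247360) c31_s532) (B (K (nat_lit 1386334847383188664550070665778531748218595021979121511688892729411143073470393764272092352380775458208712834410189682411080515584) (nat_lit 274591906505919509885716709321426123532842110133416351712938248268669290829716060330469770775453564549870343115168490337578790814162296644035499316867317628928) (nat_lit 274591906505919509885716709321426123532842110133416351712938248268669290829716060330469770775453564549870343115168490337578790814162296644035499316867317628928) c31_s681) (B (K (nat_lit 1386334847383188664550070665778531748218595021979121511688892729411143073470393764272092352380775458208712834410189682411080515584) (nat_lit 411887859706933368927592937302767967654707733621437451570918220257274459388776405893351945545021350434232483052330963502052168500236695657065156161399620108288)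 (nat_lit 411887859706933368927592937302767967654707733621437451570918220257274459388776405893351945545021350434232483052330963502052168500236695657065156161399620108288) c31_s2365) (B (K (nat_lit 1386334847383188664550070665778531748218595021979121511688892729411143073470393764272092352380775458208712834410189682411080515584) (nat_lit 707617955065926863252224852862893354327509338924659295308193311414862099176914739140842248127968107399020590755512832056565785712131981074097811857437291810195047972864) (nat_lit 707617955065926863252224852862893354327509338924659295308193311414862099176914739140842248127968107399020590755512832056565785712131981074097811857437291810195047972864) c31_s2591) (B (K (nat_lit 1386334847383188664550070665778531748218595021979121511688892729411143073470393764272092352380775458208712834410189682411080515584) (nat_lit 1179363258168619532590897880233893841888069377243862686135942554942888025466634982403882224730386143470945522578132903098925670627647597665379007354376948534487168319488)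 (nat_lit 1179363258168619532590897880233893841888069377243862686135942554942888025466634982403882224730386143470945522578132903098925670627647597665379007354376948534487168319488) c31_s2652) (B (K (nat_lit 1386334847383188664550070665778531748218595021979121511688892729411143073470393764272092352380775458208712834410189682411080515584) (nat_lit 1179363259459201492695452506650491192115371302086481757128373177237709782087262394829001397228131694176501073669269847731122757572017710544825521029522267147009381105664) (nat_lit 1179363259459201492695452506650491192115371302086481757128373177237709782087262394829001397228131694176501073669269847731122757572017710544825521029522267147009381105664) c31_s2677) (B (K (nat_lit 1386334847383188664550070665778531748218595021979121511688892729411143073470393764272092352380775458208712834410189682411080515584) (nat_lit 1179363258168619532590897880233893841888069377239484965639517131065149165661171742180456960074699355944741061946713244754997502212077943894943983279007847087876375314432)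 (nat_lit 1179363258168619532590897880233893841888069377239484965639517131065149165661171742180456960074699355944741061946713244754997502212077943894943983279007847087876375314432) c31_s2722) (B (K (nat_lit 1386334847383188664550070665778531748218595021979121511688892729411143073470393764272092352380775458208712834410189682411080515584) (nat_lit 1179363258141160341641896736602124099104105580806384453690184716037069862416345782625115726613687170233976133826702928690557022456217192191507330721521830972755722371072) (nat_lit 1179363258141160341641896736602124099104105580806384453690184716037069862416345782625115726613687170233976133826702928690557022456217192191507330721521830972755722371072) c31_s2793) (B (K (nat_lit 1386334847383188664550070665778531748218595021979121511688892729411143073470393764272092352380775458208712834410189682411080515584) (nat_lit 1179363258141160341641896736602124099103758997094619351832737414264051976953416227990693749541790860286399306163227225487677025655454174744245156820151655526277100601344)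 (nat_lit 1179363258141160341641896736602124099103758997094619351832737414264051976953416227990693749541790860286399306163227225487677025655454174744245156820151655526277100601344) c31_s2814) (B (K (nat_lit 1386334847383188664550070665778531748218595021979121511688892729411143073470393764272092352380775458208712834410189682411080515584) (nat_lit 1179363258168619532282419175462051702300041246999746629125904415176354853627686079295651385338688012429479556645521429538219893809946067304604191063569087820839836975104) (nat_lit 1179363258168619532282419175462051702300041246999746629125904415176354853627686079295651385338688012429479556645521429538219893809946067304604191063569087820839836975104) c31_s2951) (B (K (nat_lit 1386334847383188664550070665778531748218595021979121511688892729411143073470393764272092352380775458208712834410189682411080515584) (nat_lit 1179363258168619532589299544976132053846106665675542648469958591749675984284944866337297930206331615671607524587597221136516729360200404758391213452808926999334851969024)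 (nat_lit 1179363258168619532589299544976132053846106665675542648469958591749675984284944866337297930206331615671607524587597221136516729360200404758391213452808926999334851969024) c31_s3006) (B (K (nat_lit 1386334847383188664550070665778531748218595021979121511688892729411143073470393764272092352380775458208712834410189682411080515584) (nat_lit 1179363258141160341632306725054809088071519835333263628100904527584262313250060794984223562312897804081832793628167065333769571982062738019930273014998404827043082534912) (nat_lit 1179363258141160341632306725054809088071519835333263628100904527584262313250060794984223562312897804081832793628167065333769571982062738019930273014998404827043082534912) c31_s3064) (B (K (nat_lit 1386334847383188664550070665778531748218595021979121511688892729411143073470393764272092352380775458208712834410189682411080515584) (nat_lit 1179363258141160341632306725077137573681880879010938855479224026879540558328631715438339766164913514371715782749820858038603615597897064093698788723419882393763433152512)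 (nat_lit 1179363258141160341632306725077137573681880879010938855479224026879540558328631715438339766164913514371715782749820858038603615597897064093698788723419882393763433152512) c31_s3118) (B (K (nat_lit 1386334847383188664550070665778531748218595021979121511688892729411143073470393764272092352380775458208712834410189682411080515584) (nat_lit 1179363258141160341632306725050343390949447626597748756452413181698487890952872870512277671042165582395445500984693464773293080744807773531026692480770991102622754144256) (nat_lit 1179363258141160341632306725050343390949447626597748756452413181698487890952872870512277671042165582395445500984693464773293080744807773531026692480770991102622754144256) c31_s3126) (B (K (nat_lit 1386334847383188664550070665778531748218595021979121511688892729411143073470393764272092352380775458208712834410189682411080515584) (nat_lit 741398147469922727613149667194303011555637346449230388312765316589402558809726721442964626230249207722759741712601945150907811928142687166118910480155928428544)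 (nat_lit 741398147469922727613149667194303011555637346449230388312765316589402558809726721442964626230249207722759741712601945150907811928142687166118910480155928428544) c31_s5352) (B (K (nat_lit 1386334847383188664550070665778531748218595021979121511688892729411143073470393764272092352380775458208712834410189682411080515584) (nat_lit 1179363258141160341632306725041411996705346532090649303233268643244560355428841189997438255945648301249104079080666399333453885860317615454880129122993374617323196907520) (nat_lit 1179363258141160341632306725041411996705346532090649303233268643244560355428841189997438255945648301249104079080666399333453885860317615454880129122993374617323196907520) c31_s5368) (B (K (nat_lit 1386334847383188664550070665778531748218595021979121511688892729411143073470393764272092352380775458208712834410189682411080515584) (nat_lit 943490606534895625823378003959604206109378042226081692942150330709917447277151276110156930967350859117978865135733109888255600019350340869561147026569943620503660920832)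 (nat_lit 943490606534895625823378003959604206109378042226081692942150330709917447277151276110156930967350859117978865135733109888255600019350340869561147026569943620503660920832) c31_s5438) (K (nat_lit 1386334847383188664550070665778531748218595021979121511688892729411143073470393764272092352380775458208712834410189682411080515584) (nat_lit 235872651716101478396591840678455257345371455351775513317500068139748647338601176842386455476612441692895882712421332951533618103112463071775579182852658970335658377216) (nat_lit 235872651716101478396591840678455257345371455351775513317500068139748647338601176842386455476612441692895882712421332951533618103112463071775579182852658970335658377216) c31_s5561)))))))))))))))))))))))))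
theorem c31_win : ∃ n, ∀ B : Set Cell, Avoids B c31_U → MakerForces n (cellsOf (1 <<< 429)) B :=
  forces_of_chk (1 <<< 429) (nat_lit 397) c31_kids c31_U c31_U (by decide +kernel)

end Vale.Agent.Lib.P062.Data
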