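import Vale.Agent.Lib.P062.Data.Lines

namespace Vale.Agent.Lib.P062.Data

noncomputable def c32_n133 : Cert := (M (nat_lit 396) (B (M (nat_lit 395) (B (L (nat_lit 431) ln15_13_3 ln15_13_3_ok) (M (nat_lit 394) (B (L (nat_lit 393) ln9_12_0 ln9_12_0_ok) (L (nat_lit 397) ln10_12_0 ln10_12_0_ok))))) (B (M (nat_lit 431) (B (L (nat_lit 395) ln15_13_3 ln15_13_3_ok) (M (nat_lit 432) (B (L (nat_lit 397) ln16_13_3 ln16_13_3_ok) (M (nat_lit 400) (B (L (nat_lit 399) ln12_13_2 ln12_13_2_ok) (L (nat_lit 401) ln13_13_2 ln13_13_2_ok))))))) (B (M (nat_lit 460) (B (M (nat_lit 431) (B (L (nat_lit 459) ln15_13_1 ln15_13_1_ok) (M (nat_lit 432) (B (L (nat_lit 397) ln16_13_3 ln16_13_3_ok) (L (nat_lit 461) ln16_13_1 ln16_13_1_ok))))) (B (M (nat_lit 461) (B (M (nat_lit 364) (B (L (nat_lit 332) ln12_10_4 ln12_10_4_ok) (L (nat_lit 493) ln12_11_4 ln12_11_4_ok))) (M (nat_lit 431) (B (L (nat_lit 459) ln15_13_1 ln15_13_1_ok) (L (nat_lit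 432) ln16_13_1 ln16_13_1_ok))))) (B (M (nat_lit 364) (B (M (nat_lit 461) (B (L (nat_lit 332) ln12_10_4 ln12_10_4_ok) (L (nat_lit 493) ln12_11_4 ln12_11_4_ok))) (B (M (nat_lit 492) (B (M (nat_lit 365) (B (L (nat_lit 333) ln12_14_6 ln12_14_6_ok) (L (nat_lit 397) ln12_15_6 ln12_15_6_ok))) (M (nat_lit 493) (B (L (nat_lit 461) ln12_11_4 ln12_11_4_ok) (L (nat_lit 525) ln12_12_4 ln12_12_4_ok))))) (M (nat_lit 332) (B (M (nat_lit 331) (B (L (nat_lit 299) ln12_13_7 ln12_13_7_ok) (L (nat_lit 363) ln12_14_7 ln12_14_7_ok))) (M (nat_lit 333) (B (L (nat_lit 301) ln12_13_6 ln12_13_6_ok) (L (nat_lit 365) ln12_14_6 ln12_14_6_ok)))))))) (M (nat_lit 397) (B (M (nat_lit 365) (B (L (nat_lit 333) ln13_10_5 ln13_10_5_ok) (L (nat_lit 492) ln12_15_6 ln12_15_6_ok))) (M (nat_lit 431) (B (L (nat_lit 432) ln16_13_3 ln16_13_3_ok) (L (nat_lit 459) ln15_13_1 ln15_13_1_ok))))))))) (B (M (nat_lit 431) (B (L (nat_lit 395) ln15_13_3 ln15_13_3_ok)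 (M (nat_lit 432) (B (M (nat_lit 400) (B (L (nat_lit 399) ln12_13_2 ln12_13_2_ok) (L (nat_lit 401) ln13_13_2 ln13_13_2_ok))) (M (nat_lit 460) (B (L (nat_lit 459) ln15_13_1 ln15_13_1_ok) (L (nat_lit 461) ln16_13_1 ln16_13_1_ok))))))) (M (nat_lit 364) (B (M (nat_lit 461) (B (L (nat_lit 332) ln12_10_4 ln12_10_4_ok) (M (nat_lit 493) (B (L (nat_lit 397) ln13_15_7 ln13_15_7_ok) (L (nat_lit 460) ln12_11_4 ln12_11_4_ok))))) (B (M (nat_lit 460) (B (M (nat_lit 461) (B (L (nat_lit 493) ln12_11_4 ln12_11_4_ok) (M (nat_lit 459) (B (L (nat_lit 491) ln12_11_5 ln12_11_5_ok) (L (nat_lit 458) ln10_14_2 ln10_14_2_ok))))) (B (M (nat_lit 492) (B (M (nat_lit 363) (B (L (nat_lit 331) ln12_14_7 ln12_14_7_ok) (L (nat_lit 395) ln12_15_7 ln12_15_7_ok))) (M (nat_lit 493) (B (L (nat_lit 461) ln12_11_4 ln12_11_4_ok) (L (nat_lit 525) ln12_12_4 ln12_12_4_ok))))) (M (nat_lit 492) (B (M (nat_lit 363) (B (L (nat_lit 331) ln12_14_7 ln12_14_7_ok)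 (L (nat_lit 395) ln12_15_7 ln12_15_7_ok))) (M (nat_lit 491) (B (L (nat_lit 459) ln12_11_5 ln12_11_5_ok) (L (nat_lit 523) ln12_12_5 ln12_12_5_ok)))))))) (B (M (nat_lit 461) (B (L (nat_lit 332) ln12_10_4 ln12_10_4_ok) (M (nat_lit 493) (B (L (nat_lit 397) ln13_15_7 ln13_15_7_ok) (L (nat_lit 525) ln13_16_7 ln13_16_7_ok))))) (M (nat_lit 460) (B (M (nat_lit 492) (B (M (nat_lit 365) (B (L (nat_lit 333) ln12_14_6 ln12_14_6_ok) (L (nat_lit 397) ln12_15_6 ln12_15_6_ok))) (M (nat_lit 491) (B (L (nat_lit 459) ln12_11_5 ln12_11_5_ok) (L (nat_lit 523) ln12_12_5 ln12_12_5_ok))))) (B (M (nat_lit 492) (B (M (nat_lit 363) (B (L (nat_lit 331) ln12_14_7 ln12_14_7_ok) (L (nat_lit 395) ln12_15_7 ln12_15_7_ok))) (M (nat_lit 491) (B (L (nat_lit 459) ln12_11_5 ln12_11_5_ok) (L (nat_lit 523) ln12_12_5 ln12_12_5_ok))))) (B (M (nat_lit 492) (B (M (nat_lit 363) (B (L (nat_lit 331) ln12_14_7 ln12_14_7_ok) (L (nat_lit 395) ln12_15_7 ln12_15_7_ok)))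 (M (nat_lit 365) (B (L (nat_lit 333) ln12_14_6 ln12_14_6_ok) (L (nat_lit 397) ln12_15_6 ln12_15_6_ok))))) (M (nat_lit 332) (B (M (nat_lit 331) (B (L (nat_lit 299) ln12_13_7 ln12_13_7_ok) (L (nat_lit 363) ln12_14_7 ln12_14_7_ok))) (M (nat_lit 333) (B (L (nat_lit 301) ln12_13_6 ln12_13_6_ok) (L (nat_lit 365) ln12_14_6 ln12_14_6_ok))))))))))))))))))
noncomputable def c32_n226 : Cert := (M (nat_lit 462) (B (M (nat_lit 463) (B (L (nat_lit 427) ln11_13_0 ln11_13_0_ok) (M (nat_lit 464) (B (L (nat_lit 461) ln16_14_3 ln16_14_3_ok) (L (nat_lit 465) ln17_14_3 ln17_14_3_ok))))) (B (M (nat_lit 494) (B (M (nat_lit 397) (B (L (nat_lit 526) ln14_16_7 ln14_16_7_ok) (M (nat_lit 365) (B (L (nat_lit 333) ln13_10_4 ln13_10_4_ok) (L (nat_lit 461) ln13_11_4 ln13_11_4_ok))))) (B (M (nat_lit 397) (B (L (nat_lit 526) ln14_16_7 ln14_16_7_ok) (M (nat_lit 365) (B (L (nat_lit 398) ln14_15_7 ln14_15_7_ok) (L (nat_lit 461) ln13_11_4 ln13_11_4_ok)))))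 (B (M (nat_lit 398) (B (M (nat_lit 397) (B (L (nat_lit 526) ln14_16_7 ln14_16_7_ok) (M (nat_lit 399) (B (L (nat_lit 367) ln14_15_6 ln14_15_6_ok) (L (nat_lit 400) ln16_12_1 ln16_12_1_ok))))) (B (M (nat_lit 525) (B (L (nat_lit 493) ln14_12_5 ln14_12_5_ok) (M (nat_lit 526) (B (L (nat_lit 397) ln14_16_7 ln14_16_7_ok) (L (nat_lit 557) ln14_13_5 ln14_13_5_ok))))) (M (nat_lit 366) (B (M (nat_lit 367) (B (L (nat_lit 335) ln14_14_6 ln14_14_6_ok) (L (nat_lit 399) ln14_15_6 ln14_15_6_ok))) (M (nat_lit 493) (B (L (nat_lit 461) ln14_11_5 ln14_11_5_ok) (L (nat_lit 525) ln14_12_5 ln14_12_5_ok)))))))) (B (M (nat_lit 398) (B (M (nat_lit 366) (B (M (nat_lit 367) (B (L (nat_lit 335) ln14_14_6 ln14_14_6_ok) (L (nat_lit 399) ln14_15_6 ln14_15_6_ok))) (M (nat_lit 495) (B (L (nat_lit 463) ln14_11_4 ln14_11_4_ok) (L (nat_lit 527) ln14_12_4 ln14_12_4_ok))))) (B (M (nat_lit 366) (B (M (nat_lit 493) (B (L (nat_lit 461) ln14_11_5 ln14_11_5_ok)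 (L (nat_lit 525) ln14_12_5 ln14_12_5_ok))) (M (nat_lit 495) (B (L (nat_lit 463) ln14_11_4 ln14_11_4_ok) (L (nat_lit 527) ln14_12_4 ln14_12_4_ok))))) (B (M (nat_lit 526) (B (M (nat_lit 525) (B (L (nat_lit 493) ln14_12_5 ln14_12_5_ok) (L (nat_lit 557) ln14_13_5 ln14_13_5_ok))) (M (nat_lit 527) (B (L (nat_lit 495) ln14_12_4 ln14_12_4_ok) (L (nat_lit 559) ln14_13_4 ln14_13_4_ok))))) (M (nat_lit 366) (B (M (nat_lit 367) (B (L (nat_lit 335) ln14_14_6 ln14_14_6_ok) (L (nat_lit 399) ln14_15_6 ln14_15_6_ok))) (M (nat_lit 493) (B (L (nat_lit 461) ln14_11_5 ln14_11_5_ok) (L (nat_lit 525) ln14_12_5 ln14_12_5_ok))))))))) (B (M (nat_lit 397) (B (L (nat_lit 526) ln14_16_7 ln14_16_7_ok) (M (nat_lit 365) (B (L (nat_lit 333) ln13_10_4 ln13_10_4_ok) (L (nat_lit 398) ln14_15_7 ln14_15_7_ok))))) (M (nat_lit 398) (B (M (nat_lit 397) (B (L (nat_lit 365) ln14_15_7 ln14_15_7_ok) (M (nat_lit 399) (B (L (nat_lit 367) ln14_15_6 ln14_15_6_ok)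 (L (nat_lit 400) ln16_12_1 ln16_12_1_ok))))) (B (M (nat_lit 366) (B (M (nat_lit 367) (B (L (nat_lit 335) ln14_14_6 ln14_14_6_ok) (L (nat_lit 399) ln14_15_6 ln14_15_6_ok))) (M (nat_lit 493) (B (L (nat_lit 461) ln14_11_5 ln14_11_5_ok) (L (nat_lit 525) ln14_12_5 ln14_12_5_ok))))) (M (nat_lit 366) (B (M (nat_lit 365) (B (L (nat_lit 333) ln14_14_7 ln14_14_7_ok) (L (nat_lit 397) ln14_15_7 ln14_15_7_ok))) (M (nat_lit 493) (B (L (nat_lit 461) ln14_11_5 ln14_11_5_ok) (L (nat_lit 525) ln14_12_5 ln14_12_5_ok)))))))))))))) (B (M (nat_lit 427) (B (L (nat_lit 463) ln11_13_0 ln11_13_0_ok) (M (nat_lit 426) (B (M (nat_lit 394) (B (L (nat_lit 393) ln13_13_3 ln13_13_3_ok) (L (nat_lit 395) ln14_13_3 ln14_13_3_ok))) (M (nat_lit 398) (B (L (nat_lit 397) ln10_13_2 ln10_13_2_ok) (L (nat_lit 399) ln11_13_2 ln11_13_2_ok))))))) (M (nat_lit 398) (B (M (nat_lit 427) (B (L (nat_lit 399) ln11_13_2 ln11_13_2_ok) (M (nat_lit 426) (B (L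 (nat_lit 397) ln10_13_2 ln10_13_2_ok) (L (nat_lit 461) ln10_13_0 ln10_13_0_ok))))) (B (M (nat_lit 461) (B (M (nat_lit 493) (B (L (nat_lit 366) ln14_11_5 ln14_11_5_ok) (L (nat_lit 525) ln13_16_6 ln13_16_6_ok))) (M (nat_lit 427) (B (L (nat_lit 399) ln11_13_2 ln11_13_2_ok) (L (nat_lit 426) ln10_13_0 ln10_13_0_ok))))) (B (M (nat_lit 494) (B (M (nat_lit 397) (B (L (nat_lit 365) ln14_15_7 ln14_15_7_ok) (L (nat_lit 526) ln14_16_7 ln14_16_7_ok))) (B (M (nat_lit 525) (B (L (nat_lit 493) ln14_12_5 ln14_12_5_ok) (M (nat_lit 526) (B (L (nat_lit 397) ln14_16_7 ln14_16_7_ok) (L (nat_lit 557) ln14_13_5 ln14_13_5_ok))))) (B (M (nat_lit 526) (B (M (nat_lit 525) (B (L (nat_lit 493) ln14_12_5 ln14_12_5_ok) (L (nat_lit 557) ln14_13_5 ln14_13_5_ok))) (M (nat_lit 527) (B (L (nat_lit 495) ln14_12_4 ln14_12_4_ok) (L (nat_lit 559) ln14_13_4 ln14_13_4_ok))))) (M (nat_lit 366) (B (M (nat_lit 365) (B (L (nat_lit 333) ln14_14_7 ln14_14_7_ok)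 (L (nat_lit 397) ln14_15_7 ln14_15_7_ok))) (M (nat_lit 493) (B (L (nat_lit 461) ln14_11_5 ln14_11_5_ok) (L (nat_lit 525) ln14_12_5 ln14_12_5_ok))))))))) (M (nat_lit 397) (B (M (nat_lit 365) (B (L (nat_lit 333) ln13_10_4 ln13_10_4_ok) (L (nat_lit 494) ln14_15_7 ln14_15_7_ok))) (M (nat_lit 427) (B (L (nat_lit 426) ln10_13_2 ln10_13_2_ok) (L (nat_lit 399) ln11_13_2 ln11_13_2_ok)))))))))))))
theorem c32_s227 : Sem (nat_lit 2079502270590611144683810638107312777577327806531862431377859685460965980854219217279980804578104683573043408221052678871730618368) (nat_lit 2358726516309779873924315912208194533437309006313641173965451137251222375777498465400999780907772434645481753235518445877226788691147341340033465009474922313014822567936) (nat_lit 2358726516309779873924315912208194533437309006313641173965451137251222375777498465400999780907772434645481753235518445877226788691147341340033465009474922313014822567936) :=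
  sem_of_chk (M (nat_lit 430) (B (M (nat_lit 427) (B (M (nat_lit 398) (B (L (nat_lit 399) ln11_13_2 ln11_13_2_ok) (M (nat_lit 394) (B (L (nat_lit 395) ln14_13_3 ln14_13_3_ok) (M (nat_lit 426) (B (L (nat_lit 393) ln13_13_3 ln13_13_3_ok) (L (nat_lit 397) ln10_13_2 ln10_13_2_ok))))))) (B (M (nat_lit 431) (B (M (nat_lit 395) (B (L (nat_lit 394) ln14_13_3 ln14_13_3_ok) (L (nat_lit 396) ln15_13_3 ln15_13_3_ok))) (M (nat_lit 459) (B (L (nat_lit 458) ln14_13_1 ln14_13_1_ok) (L (nat_lit 460) ln15_13_1 ln15_13_1_ok))))) (M (nat_lit 426) (B (M (nat_lit 398) (B (L (nat_lit 397) ln10_13_2 ln10_13_2_ok) (L (nat_lit 399) ln11_13_2 ln11_13_2_ok))) (M (nat_lit 458) (B (L (nat_lit 457) ln13_13_1 ln13_13_1_ok) (L (nat_lit 459) ln14_13_1 ln14_13_1_ok)))))))) (B (M (nat_lit 427) (B (M (nat_lit 431) (B (M (nat_lit 395) (B (L (nat_lit 394) ln14_13_3 ln14_13_3_ok) (L (nat_lit 396) ln15_13_3 ln15_13_3_ok))) (M (nat_lit 463) (B (L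 (nat_lit 462) ln11_13_0 ln11_13_0_ok) (L (nat_lit 464) ln12_13_0 ln12_13_0_ok))))) (M (nat_lit 426) (B (M (nat_lit 398) (B (L (nat_lit 397) ln10_13_2 ln10_13_2_ok) (L (nat_lit 399) ln11_13_2 ln11_13_2_ok))) (M (nat_lit 458) (B (L (nat_lit 457) ln13_13_1 ln13_13_1_ok) (L (nat_lit 459) ln14_13_1 ln14_13_1_ok))))))) (B (M (nat_lit 427) (B (M (nat_lit 431) (B (M (nat_lit 459) (B (L (nat_lit 458) ln14_13_1 ln14_13_1_ok) (L (nat_lit 460) ln15_13_1 ln15_13_1_ok))) (M (nat_lit 463) (B (L (nat_lit 462) ln11_13_0 ln11_13_0_ok) (L (nat_lit 464) ln12_13_0 ln12_13_0_ok))))) (B (M (nat_lit 426) (B (M (nat_lit 398) (B (L (nat_lit 397) ln10_13_2 ln10_13_2_ok) (L (nat_lit 399) ln11_13_2 ln11_13_2_ok))) (M (nat_lit 458) (B (L (nat_lit 457) ln13_13_1 ln13_13_1_ok) (L (nat_lit 459) ln14_13_1 ln14_13_1_ok))))) (M (nat_lit 431) (B (M (nat_lit 399) (B (L (nat_lit 398) ln11_13_2 ln11_13_2_ok) (L (nat_lit 400) ln12_13_2 ln12_13_2_ok)))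 (M (nat_lit 463) (B (L (nat_lit 462) ln11_13_0 ln11_13_0_ok) (L (nat_lit 464) ln12_13_0 ln12_13_0_ok)))))))) (B (M (nat_lit 427) (B (M (nat_lit 426) (B (M (nat_lit 394) (B (L (nat_lit 393) ln13_13_3 ln13_13_3_ok) (L (nat_lit 395) ln14_13_3 ln14_13_3_ok))) (M (nat_lit 458) (B (L (nat_lit 457) ln13_13_1 ln13_13_1_ok) (L (nat_lit 459) ln14_13_1 ln14_13_1_ok))))) (M (nat_lit 431) (B (M (nat_lit 399) (B (L (nat_lit 398) ln11_13_2 ln11_13_2_ok) (L (nat_lit 400) ln12_13_2 ln12_13_2_ok))) (M (nat_lit 463) (B (L (nat_lit 462) ln11_13_0 ln11_13_0_ok) (L (nat_lit 464) ln12_13_0 ln12_13_0_ok))))))) (B (M (nat_lit 427) (B (M (nat_lit 431) (B (M (nat_lit 459) (B (L (nat_lit 458) ln14_13_1 ln14_13_1_ok) (L (nat_lit 460) ln15_13_1 ln15_13_1_ok))) (M (nat_lit 463) (B (L (nat_lit 462) ln11_13_0 ln11_13_0_ok) (L (nat_lit 464) ln12_13_0 ln12_13_0_ok))))) (B (M (nat_lit 426) (B (M (nat_lit 394) (B (L (nat_lit 393) ln13_13_3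 ln13_13_3_ok) (L (nat_lit 395) ln14_13_3 ln14_13_3_ok))) (M (nat_lit 458) (B (L (nat_lit 457) ln13_13_1 ln13_13_1_ok) (L (nat_lit 459) ln14_13_1 ln14_13_1_ok))))) (M (nat_lit 431) (B (M (nat_lit 395) (B (L (nat_lit 394) ln14_13_3 ln14_13_3_ok) (L (nat_lit 396) ln15_13_3 ln15_13_3_ok))) (M (nat_lit 463) (B (L (nat_lit 462) ln11_13_0 ln11_13_0_ok) (L (nat_lit 464) ln12_13_0 ln12_13_0_ok)))))))) (B (M (nat_lit 431) (B (M (nat_lit 427) (B (M (nat_lit 399) (B (L (nat_lit 398) ln11_13_2 ln11_13_2_ok) (L (nat_lit 400) ln12_13_2 ln12_13_2_ok))) (M (nat_lit 459) (B (L (nat_lit 458) ln14_13_1 ln14_13_1_ok) (L (nat_lit 460) ln15_13_1 ln15_13_1_ok))))) (B (M (nat_lit 427) (B (M (nat_lit 395) (B (L (nat_lit 394) ln14_13_3 ln14_13_3_ok) (L (nat_lit 396) ln15_13_3 ln15_13_3_ok))) (M (nat_lit 459) (B (L (nat_lit 458) ln14_13_1 ln14_13_1_ok) (L (nat_lit 460) ln15_13_1 ln15_13_1_ok))))) (M (nat_lit 432) (B (M (nat_lit 396)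 (B (L (nat_lit 395) ln15_13_3 ln15_13_3_ok) (L (nat_lit 397) ln16_13_3 ln16_13_3_ok))) (M (nat_lit 464) (B (L (nat_lit 463) ln12_13_0 ln12_13_0_ok) (L (nat_lit 465) ln13_13_0 ln13_13_0_ok)))))))) (B c32_n133 c32_n226)))))))) (nat_lit 2079502270590611144683810638107312777577327806531862431377859685460965980854219217279980804578104683573043408221052678871730618368) (nat_lit 2358726516309779873924315912208194533437309006313641173965451137251222375777498465400999780907772434645481753235518445877226788691147341340033465009474922313014822567936) (nat_lit 2358726516309779873924315912208194533437309006313641173965451137251222375777498465400999780907772434645481753235518445877226788691147341340033465009474922313014822567936) (by decide +kernel)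
noncomputable def c32_n298 : Cert := (M (nat_lit 460) (B (M (nat_lit 459) (B (L (nat_lit 431) ln15_13_1 ln15_13_1_ok) (M (nat_lit 458) (B (L (nat_lit 457) ln9_14_2 ln9_14_2_ok) (L (nat_lit 461) ln10_14_2 ln10_14_2_ok))))) (B (M (nat_lit 492) (B (M (nat_lit 397) (B (L (nat_lit 524) ln12_16_6 ln12_16_6_ok) (M (nat_lit 365) (B (L (nat_lit 333) ln13_10_5 ln13_10_5_ok) (L (nat_lit 461) ln13_11_5 ln13_11_5_ok))))) (B (M (nat_lit 397) (B (L (nat_lit 524) ln12_16_6 ln12_16_6_ok) (M (nat_lit 365) (B (L (nat_lit 396) ln12_15_6 ln12_15_6_ok) (L (nat_lit 461) ln13_11_5 ln13_11_5_ok))))) (B (M (nat_lit 396) (B (M (nat_lit 397) (B (L (nat_lit 524) ln12_16_6 ln12_16_6_ok) (M (nat_lit 395) (B (L (nat_lit 363) ln12_15_7 ln12_15_7_ok) (L (nat_lit 394) ln10_12_0 ln10_12_0_ok))))) (B (M (nat_lit 525) (B (L (nat_lit 493) ln12_12_4 ln12_12_4_ok) (M (nat_lit 524) (B (L (nat_lit 397) ln12_16_6 ln12_16_6_ok) (L (nat_lit 557) ln12_13_4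 ln12_13_4_ok))))) (M (nat_lit 364) (B (M (nat_lit 363) (B (L (nat_lit 331) ln12_14_7 ln12_14_7_ok) (L (nat_lit 395) ln12_15_7 ln12_15_7_ok))) (M (nat_lit 491) (B (L (nat_lit 459) ln12_11_5 ln12_11_5_ok) (L (nat_lit 523) ln12_12_5 ln12_12_5_ok)))))))) (B (M (nat_lit 396) (B (M (nat_lit 364) (B (M (nat_lit 363) (B (L (nat_lit 331) ln12_14_7 ln12_14_7_ok) (L (nat_lit 395) ln12_15_7 ln12_15_7_ok))) (M (nat_lit 493) (B (L (nat_lit 461) ln12_11_4 ln12_11_4_ok) (L (nat_lit 525) ln12_12_4 ln12_12_4_ok))))) (B (M (nat_lit 364) (B (M (nat_lit 491) (B (L (nat_lit 459) ln12_11_5 ln12_11_5_ok) (L (nat_lit 523) ln12_12_5 ln12_12_5_ok))) (M (nat_lit 493) (B (L (nat_lit 461) ln12_11_4 ln12_11_4_ok) (L (nat_lit 525) ln12_12_4 ln12_12_4_ok))))) (B (M (nat_lit 524) (B (M (nat_lit 523) (B (L (nat_lit 491) ln12_12_5 ln12_12_5_ok) (L (nat_lit 555) ln12_13_5 ln12_13_5_ok))) (M (nat_lit 525) (B (L (nat_lit 493) ln12_12_4 ln12_12_4_ok)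 (L (nat_lit 557) ln12_13_4 ln12_13_4_ok))))) (M (nat_lit 364) (B (M (nat_lit 363) (B (L (nat_lit 331) ln12_14_7 ln12_14_7_ok) (L (nat_lit 395) ln12_15_7 ln12_15_7_ok))) (M (nat_lit 491) (B (L (nat_lit 459) ln12_11_5 ln12_11_5_ok) (L (nat_lit 523) ln12_12_5 ln12_12_5_ok))))))))) (M (nat_lit 396) (B (M (nat_lit 397) (B (L (nat_lit 365) ln12_15_6 ln12_15_6_ok) (M (nat_lit 395) (B (L (nat_lit 363) ln12_15_7 ln12_15_7_ok) (L (nat_lit 394) ln10_12_0 ln10_12_0_ok))))) (B (M (nat_lit 364) (B (M (nat_lit 365) (B (L (nat_lit 333) ln12_14_6 ln12_14_6_ok) (L (nat_lit 397) ln12_15_6 ln12_15_6_ok))) (M (nat_lit 491) (B (L (nat_lit 459) ln12_11_5 ln12_11_5_ok) (L (nat_lit 523) ln12_12_5 ln12_12_5_ok))))) (M (nat_lit 364) (B (M (nat_lit 363) (B (L (nat_lit 331) ln12_14_7 ln12_14_7_ok) (L (nat_lit 395) ln12_15_7 ln12_15_7_ok))) (M (nat_lit 491) (B (L (nat_lit 459) ln12_11_5 ln12_11_5_ok) (L (nat_lit 523) ln12_12_5 ln12_12_5_ok)))))))))))))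 (B (M (nat_lit 396) (B (M (nat_lit 431) (B (L (nat_lit 395) ln15_13_3 ln15_13_3_ok) (M (nat_lit 432) (B (L (nat_lit 397) ln16_13_3 ln16_13_3_ok) (L (nat_lit 461) ln16_13_1 ln16_13_1_ok))))) (B (M (nat_lit 492) (B (M (nat_lit 397) (B (L (nat_lit 365) ln12_15_6 ln12_15_6_ok) (L (nat_lit 524) ln12_16_6 ln12_16_6_ok))) (B (M (nat_lit 525) (B (L (nat_lit 493) ln12_12_4 ln12_12_4_ok) (M (nat_lit 524) (B (L (nat_lit 397) ln12_16_6 ln12_16_6_ok) (L (nat_lit 557) ln12_13_4 ln12_13_4_ok))))) (B (M (nat_lit 524) (B (M (nat_lit 523) (B (L (nat_lit 491) ln12_12_5 ln12_12_5_ok) (L (nat_lit 555) ln12_13_5 ln12_13_5_ok))) (M (nat_lit 525) (B (L (nat_lit 493) ln12_12_4 ln12_12_4_ok) (L (nat_lit 557) ln12_13_4 ln12_13_4_ok))))) (M (nat_lit 364) (B (M (nat_lit 365) (B (L (nat_lit 333) ln12_14_6 ln12_14_6_ok) (L (nat_lit 397) ln12_15_6 ln12_15_6_ok))) (M (nat_lit 493) (B (L (nat_lit 461) ln12_11_4 ln12_11_4_ok) (L (nat_lit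 525) ln12_12_4 ln12_12_4_ok))))))))) (B (M (nat_lit 461) (B (M (nat_lit 493) (B (L (nat_lit 364) ln12_11_4 ln12_11_4_ok) (L (nat_lit 525) ln13_16_7 ln13_16_7_ok))) (M (nat_lit 431) (B (L (nat_lit 395) ln15_13_3 ln15_13_3_ok) (L (nat_lit 432) ln16_13_1 ln16_13_1_ok))))) (M (nat_lit 397) (B (M (nat_lit 365) (B (L (nat_lit 333) ln13_10_5 ln13_10_5_ok) (L (nat_lit 492) ln12_15_6 ln12_15_6_ok))) (M (nat_lit 431) (B (L (nat_lit 395) ln15_13_3 ln15_13_3_ok) (L (nat_lit 432) ln16_13_3 ln16_13_3_ok))))))))) (M (nat_lit 431) (B (L (nat_lit 459) ln15_13_1 ln15_13_1_ok) (M (nat_lit 432) (B (M (nat_lit 396) (B (L (nat_lit 395) ln15_13_3 ln15_13_3_ok) (L (nat_lit 397) ln16_13_3 ln16_13_3_ok))) (M (nat_lit 464) (B (L (nat_lit 463) ln12_13_0 ln12_13_0_ok) (L (nat_lit 465) ln13_13_0 ln13_13_0_ok)))))))))))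
noncomputable def c32_n363 : Cert := (M (nat_lit 462) (B (M (nat_lit 366) (B (M (nat_lit 461) (B (L (nat_lit 334) ln14_10_5 ln14_10_5_ok) (L (nat_lit 493) ln14_11_5 ln14_11_5_ok))) (M (nat_lit 494) (B (M (nat_lit 365) (B (L (nat_lit 333) ln14_14_7 ln14_14_7_ok) (L (nat_lit 397) ln14_15_7 ln14_15_7_ok))) (M (nat_lit 495) (B (L (nat_lit 463) ln14_11_4 ln14_11_4_ok) (L (nat_lit 527) ln14_12_4 ln14_12_4_ok))))))) (B (M (nat_lit 366) (B (M (nat_lit 461) (B (L (nat_lit 334) ln14_10_5 ln14_10_5_ok) (L (nat_lit 493) ln14_11_5 ln14_11_5_ok))) (M (nat_lit 494) (B (M (nat_lit 367) (B (L (nat_lit 335) ln14_14_6 ln14_14_6_ok) (L (nat_lit 399) ln14_15_6 ln14_15_6_ok))) (M (nat_lit 495) (B (L (nat_lit 463) ln14_11_4 ln14_11_4_ok) (L (nat_lit 527) ln14_12_4 ln14_12_4_ok))))))) (B (M (nat_lit 366) (B (M (nat_lit 461) (B (L (nat_lit 493) ln14_11_5 ln14_11_5_ok) (M (nat_lit 463) (B (L (nat_lit 495) ln14_11_4 ln14_11_4_ok)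 (L (nat_lit 464) ln16_14_3 ln16_14_3_ok))))) (B (M (nat_lit 494) (B (M (nat_lit 365) (B (L (nat_lit 333) ln14_14_7 ln14_14_7_ok) (L (nat_lit 397) ln14_15_7 ln14_15_7_ok))) (M (nat_lit 495) (B (L (nat_lit 463) ln14_11_4 ln14_11_4_ok) (L (nat_lit 527) ln14_12_4 ln14_12_4_ok))))) (M (nat_lit 494) (B (M (nat_lit 365) (B (L (nat_lit 333) ln14_14_7 ln14_14_7_ok) (L (nat_lit 397) ln14_15_7 ln14_15_7_ok))) (M (nat_lit 493) (B (L (nat_lit 461) ln14_11_5 ln14_11_5_ok) (L (nat_lit 525) ln14_12_5 ln14_12_5_ok)))))))) (B (M (nat_lit 494) (B (M (nat_lit 397) (B (L (nat_lit 365) ln14_15_7 ln14_15_7_ok) (L (nat_lit 526) ln14_16_7 ln14_16_7_ok))) (B (M (nat_lit 525) (B (L (nat_lit 493) ln14_12_5 ln14_12_5_ok) (M (nat_lit 526) (B (L (nat_lit 397) ln14_16_7 ln14_16_7_ok) (L (nat_lit 557) ln14_13_5 ln14_13_5_ok))))) (B (M (nat_lit 526) (B (M (nat_lit 525) (B (L (nat_lit 493) ln14_12_5 ln14_12_5_ok) (L (nat_lit 557) ln14_13_5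 ln14_13_5_ok))) (M (nat_lit 527) (B (L (nat_lit 495) ln14_12_4 ln14_12_4_ok) (L (nat_lit 559) ln14_13_4 ln14_13_4_ok))))) (M (nat_lit 397) (B (L (nat_lit 365) ln14_15_7 ln14_15_7_ok) (M (nat_lit 399) (B (L (nat_lit 367) ln14_15_6 ln14_15_6_ok) (L (nat_lit 400) ln16_12_1 ln16_12_1_ok))))))))) (B (M (nat_lit 366) (B (M (nat_lit 461) (B (L (nat_lit 334) ln14_10_5 ln14_10_5_ok) (M (nat_lit 463) (B (L (nat_lit 495) ln14_11_4 ln14_11_4_ok) (L (nat_lit 464) ln16_14_3 ln16_14_3_ok))))) (B (M (nat_lit 494) (B (M (nat_lit 365) (B (L (nat_lit 333) ln14_14_7 ln14_14_7_ok) (L (nat_lit 397) ln14_15_7 ln14_15_7_ok))) (M (nat_lit 495) (B (L (nat_lit 463) ln14_11_4 ln14_11_4_ok) (L (nat_lit 527) ln14_12_4 ln14_12_4_ok))))) (M (nat_lit 333) (B (L (nat_lit 365) ln14_14_7 ln14_14_7_ok) (M (nat_lit 334) (B (L (nat_lit 301) ln14_13_7 ln14_13_7_ok) (L (nat_lit 461) ln14_10_5 ln14_10_5_ok)))))))) (B (M (nat_lit 366) (B (M (nat_lit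 461) (B (L (nat_lit 334) ln14_10_5 ln14_10_5_ok) (L (nat_lit 493) ln14_11_5 ln14_11_5_ok))) (B (M (nat_lit 461) (B (L (nat_lit 493) ln14_11_5 ln14_11_5_ok) (M (nat_lit 463) (B (L (nat_lit 495) ln14_11_4 ln14_11_4_ok) (L (nat_lit 464) ln16_14_3 ln16_14_3_ok))))) (M (nat_lit 334) (B (M (nat_lit 333) (B (L (nat_lit 301) ln14_13_7 ln14_13_7_ok) (L (nat_lit 365) ln14_14_7 ln14_14_7_ok))) (M (nat_lit 335) (B (L (nat_lit 303) ln14_13_6 ln14_13_6_ok) (L (nat_lit 367) ln14_14_6 ln14_14_6_ok)))))))) (M (nat_lit 366) (B (M (nat_lit 461) (B (L (nat_lit 334) ln14_10_5 ln14_10_5_ok) (L (nat_lit 493) ln14_11_5 ln14_11_5_ok))) (B (M (nat_lit 494) (B (M (nat_lit 365) (B (L (nat_lit 333) ln14_14_7 ln14_14_7_ok) (L (nat_lit 397) ln14_15_7 ln14_15_7_ok))) (M (nat_lit 493) (B (L (nat_lit 461) ln14_11_5 ln14_11_5_ok) (L (nat_lit 525) ln14_12_5 ln14_12_5_ok))))) (M (nat_lit 334) (B (M (nat_lit 333) (B (L (nat_lit 301) ln14_13_7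 ln14_13_7_ok) (L (nat_lit 365) ln14_14_7 ln14_14_7_ok))) (M (nat_lit 335) (B (L (nat_lit 303) ln14_13_6 ln14_13_6_ok) (L (nat_lit 367) ln14_14_6 ln14_14_6_ok)))))))))))))))
theorem c32_s364 : Sem (nat_lit 4852171964711426004262224822250396481013764881907679006548339266075587288659844840319955210682244261670434619182456250700704776192) (nat_lit 2358726516282320683264613450156880137266377620023936123883267035627778163385982737320309372434140894458393540807429247334321000758419572675946455084555730699134653431808) (nat_lit 2358726516282320683264613450156880137266377620023936123883267035627778163385982737320309372434140894458393540807429247334321000758419572675946455084555730699134653431808) :=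
  sem_of_chk (M (nat_lit 398) (B (M (nat_lit 399) (B (L (nat_lit 427) ln11_13_2 ln11_13_2_ok) (M (nat_lit 400) (B (L (nat_lit 397) ln16_12_1 ln16_12_1_ok) (L (nat_lit 401) ln17_12_1 ln17_12_1_ok))))) (B (M (nat_lit 427) (B (L (nat_lit 399) ln11_13_2 ln11_13_2_ok) (M (nat_lit 426) (B (M (nat_lit 394) (B (L (nat_lit 393) ln13_13_3 ln13_13_3_ok) (L (nat_lit 395) ln14_13_3 ln14_13_3_ok))) (M (nat_lit 458) (B (L (nat_lit 457) ln13_13_1 ln13_13_1_ok) (L (nat_lit 459) ln14_13_1 ln14_13_1_ok))))))) (B (M (nat_lit 462) (B (M (nat_lit 427) (B (L (nat_lit 463) ln11_13_0 ln11_13_0_ok) (M (nat_lit 426) (B (L (nat_lit 397) ln10_13_2 ln10_13_2_ok) (L (nat_lit 461) ln10_13_0 ln10_13_0_ok))))) (B (M (nat_lit 461) (B (M (nat_lit 366) (B (L (nat_lit 334) ln14_10_5 ln14_10_5_ok) (L (nat_lit 493) ln14_11_5 ln14_11_5_ok))) (M (nat_lit 427) (B (L (nat_lit 426) ln10_13_0 ln10_13_0_ok) (L (nat_lit 463) ln11_13_0 ln11_13_0_ok)))))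 (B (M (nat_lit 366) (B (M (nat_lit 461) (B (L (nat_lit 334) ln14_10_5 ln14_10_5_ok) (L (nat_lit 493) ln14_11_5 ln14_11_5_ok))) (M (nat_lit 463) (B (L (nat_lit 495) ln14_11_4 ln14_11_4_ok) (L (nat_lit 427) ln11_13_0 ln11_13_0_ok))))) (B (M (nat_lit 366) (B (M (nat_lit 461) (B (L (nat_lit 334) ln14_10_5 ln14_10_5_ok) (L (nat_lit 493) ln14_11_5 ln14_11_5_ok))) (B (M (nat_lit 494) (B (M (nat_lit 365) (B (L (nat_lit 333) ln14_14_7 ln14_14_7_ok) (L (nat_lit 397) ln14_15_7 ln14_15_7_ok))) (M (nat_lit 493) (B (L (nat_lit 461) ln14_11_5 ln14_11_5_ok) (L (nat_lit 525) ln14_12_5 ln14_12_5_ok))))) (M (nat_lit 334) (B (M (nat_lit 333) (B (L (nat_lit 301) ln14_13_7 ln14_13_7_ok) (L (nat_lit 365) ln14_14_7 ln14_14_7_ok))) (M (nat_lit 335) (B (L (nat_lit 303) ln14_13_6 ln14_13_6_ok) (L (nat_lit 367) ln14_14_6 ln14_14_6_ok)))))))) (M (nat_lit 397) (B (M (nat_lit 365) (B (L (nat_lit 333) ln13_10_4 ln13_10_4_ok) (L (nat_lit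 494) ln14_15_7 ln14_15_7_ok))) (M (nat_lit 427) (B (L (nat_lit 426) ln10_13_2 ln10_13_2_ok) (L (nat_lit 463) ln11_13_0 ln11_13_0_ok)))))))))) c32_n363)))) (nat_lit 4852171964711426004262224822250396481013764881907679006548339266075587288659844840319955210682244261670434619182456250700704776192) (nat_lit 2358726516282320683264613450156880137266377620023936123883267035627778163385982737320309372434140894458393540807429247334321000758419572675946455084555730699134653431808) (nat_lit 2358726516282320683264613450156880137266377620023936123883267035627778163385982737320309372434140894458393540807429247334321000758419572675946455084555730699134653431808) (by decide +kernel)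
theorem c32_s366 : Sem (nat_lit 2079502270590611144683810638107312777577327806531862431377859685460965980854219217279980804578104683573043408221052678871730618368) (nat_lit 2476662842140371422462909370583933142671113940189810419753354027409080085534450136408787468158927173055491584764426791083666070094286157503159293351159693474128438755328) (nat_lit 2476662842140371422462909370583933142671113940189810419753354027409080085534450136408787468158927173055491584764426791083666070094286157503159293351159693474128438755328) :=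
  sem_of_chk (M (nat_lit 430) (B (M (nat_lit 427) (B (M (nat_lit 398) (B (L (nat_lit 399) ln11_13_2 ln11_13_2_ok) (M (nat_lit 394) (B (L (nat_lit 395) ln14_13_3 ln14_13_3_ok) (M (nat_lit 426) (B (L (nat_lit 393) ln13_13_3 ln13_13_3_ok) (L (nat_lit 397) ln10_13_2 ln10_13_2_ok))))))) (B (M (nat_lit 431) (B (M (nat_lit 395) (B (L (nat_lit 394) ln14_13_3 ln14_13_3_ok) (L (nat_lit 396) ln15_13_3 ln15_13_3_ok))) (M (nat_lit 459) (B (L (nat_lit 458) ln14_13_1 ln14_13_1_ok) (L (nat_lit 460) ln15_13_1 ln15_13_1_ok))))) (M (nat_lit 426) (B (M (nat_lit 398) (B (L (nat_lit 397) ln10_13_2 ln10_13_2_ok) (L (nat_lit 399) ln11_13_2 ln11_13_2_ok))) (M (nat_lit 458) (B (L (nat_lit 457) ln13_13_1 ln13_13_1_ok) (L (nat_lit 459) ln14_13_1 ln14_13_1_ok)))))))) (B (M (nat_lit 431) (B (M (nat_lit 427) (B (M (nat_lit 399) (B (L (nat_lit 398) ln11_13_2 ln11_13_2_ok) (L (nat_lit 400) ln12_13_2 ln12_13_2_ok))) (M (nat_lit 459) (B (L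 (nat_lit 458) ln14_13_1 ln14_13_1_ok) (L (nat_lit 460) ln15_13_1 ln15_13_1_ok))))) (B (M (nat_lit 427) (B (M (nat_lit 395) (B (L (nat_lit 394) ln14_13_3 ln14_13_3_ok) (L (nat_lit 396) ln15_13_3 ln15_13_3_ok))) (M (nat_lit 459) (B (L (nat_lit 458) ln14_13_1 ln14_13_1_ok) (L (nat_lit 460) ln15_13_1 ln15_13_1_ok))))) (M (nat_lit 432) (B (M (nat_lit 396) (B (L (nat_lit 395) ln15_13_3 ln15_13_3_ok) (L (nat_lit 397) ln16_13_3 ln16_13_3_ok))) (M (nat_lit 464) (B (L (nat_lit 463) ln12_13_0 ln12_13_0_ok) (L (nat_lit 465) ln13_13_0 ln13_13_0_ok)))))))) (B (M (nat_lit 427) (B (M (nat_lit 431) (B (M (nat_lit 459) (B (L (nat_lit 458) ln14_13_1 ln14_13_1_ok) (L (nat_lit 460) ln15_13_1 ln15_13_1_ok))) (M (nat_lit 463) (B (L (nat_lit 462) ln11_13_0 ln11_13_0_ok) (L (nat_lit 464) ln12_13_0 ln12_13_0_ok))))) (B (M (nat_lit 426) (B (M (nat_lit 398) (B (L (nat_lit 397) ln10_13_2 ln10_13_2_ok) (L (nat_lit 399) ln11_13_2 ln11_13_2_ok)))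 (M (nat_lit 458) (B (L (nat_lit 457) ln13_13_1 ln13_13_1_ok) (L (nat_lit 459) ln14_13_1 ln14_13_1_ok))))) (M (nat_lit 431) (B (M (nat_lit 399) (B (L (nat_lit 398) ln11_13_2 ln11_13_2_ok) (L (nat_lit 400) ln12_13_2 ln12_13_2_ok))) (M (nat_lit 463) (B (L (nat_lit 462) ln11_13_0 ln11_13_0_ok) (L (nat_lit 464) ln12_13_0 ln12_13_0_ok)))))))) (B (M (nat_lit 427) (B (M (nat_lit 426) (B (M (nat_lit 394) (B (L (nat_lit 393) ln13_13_3 ln13_13_3_ok) (L (nat_lit 395) ln14_13_3 ln14_13_3_ok))) (M (nat_lit 458) (B (L (nat_lit 457) ln13_13_1 ln13_13_1_ok) (L (nat_lit 459) ln14_13_1 ln14_13_1_ok))))) (M (nat_lit 431) (B (M (nat_lit 399) (B (L (nat_lit 398) ln11_13_2 ln11_13_2_ok) (L (nat_lit 400) ln12_13_2 ln12_13_2_ok))) (M (nat_lit 463) (B (L (nat_lit 462) ln11_13_0 ln11_13_0_ok) (L (nat_lit 464) ln12_13_0 ln12_13_0_ok))))))) (B (M (nat_lit 427) (B (M (nat_lit 431) (B (M (nat_lit 459) (B (L (nat_lit 458) ln14_13_1 ln14_13_1_ok)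 (L (nat_lit 460) ln15_13_1 ln15_13_1_ok))) (M (nat_lit 463) (B (L (nat_lit 462) ln11_13_0 ln11_13_0_ok) (L (nat_lit 464) ln12_13_0 ln12_13_0_ok))))) (B (M (nat_lit 426) (B (M (nat_lit 394) (B (L (nat_lit 393) ln13_13_3 ln13_13_3_ok) (L (nat_lit 395) ln14_13_3 ln14_13_3_ok))) (M (nat_lit 458) (B (L (nat_lit 457) ln13_13_1 ln13_13_1_ok) (L (nat_lit 459) ln14_13_1 ln14_13_1_ok))))) (M (nat_lit 431) (B (M (nat_lit 395) (B (L (nat_lit 394) ln14_13_3 ln14_13_3_ok) (L (nat_lit 396) ln15_13_3 ln15_13_3_ok))) (M (nat_lit 463) (B (L (nat_lit 462) ln11_13_0 ln11_13_0_ok) (L (nat_lit 464) ln12_13_0 ln12_13_0_ok)))))))) (B c32_n298 (B (K (nat_lit 4852171964711426004262224822250396481013764881907679006548339266075587288659844840319955210682244261670434619182456250700704776192) (nat_lit 2358726516282320683264613450156880137266377620023936123883267035627778163385982737320309372434140894458393540807429247334321000758419572675946455084555730699134653431808)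 (nat_lit 2358726516282320683264613450156880137266377620023936123883267035627778163385982737320309372434140894458393540807429247334321000758419572675946455084555730699134653431808) c32_s364) (M (nat_lit 427) (B (M (nat_lit 431) (B (M (nat_lit 399) (B (L (nat_lit 398) ln11_13_2 ln11_13_2_ok) (L (nat_lit 400) ln12_13_2 ln12_13_2_ok))) (M (nat_lit 463) (B (L (nat_lit 462) ln11_13_0 ln11_13_0_ok) (L (nat_lit 464) ln12_13_0 ln12_13_0_ok))))) (B (M (nat_lit 431) (B (M (nat_lit 395) (B (L (nat_lit 394) ln14_13_3 ln14_13_3_ok) (L (nat_lit 396) ln15_13_3 ln15_13_3_ok))) (M (nat_lit 463) (B (L (nat_lit 462) ln11_13_0 ln11_13_0_ok) (L (nat_lit 464) ln12_13_0 ln12_13_0_ok))))) (M (nat_lit 398) (B (L (nat_lit 399) ln11_13_2 ln11_13_2_ok) (M (nat_lit 394) (B (L (nat_lit 395) ln14_13_3 ln14_13_3_ok) (M (nat_lit 426) (B (L (nat_lit 393) ln13_13_3 ln13_13_3_ok) (L (nat_lit 397) ln10_13_2 ln10_13_2_ok)))))))))))))))))) (nat_lit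 2079502270590611144683810638107312777577327806531862431377859685460965980854219217279980804578104683573043408221052678871730618368) (nat_lit 2476662842140371422462909370583933142671113940189810419753354027409080085534450136408787468158927173055491584764426791083666070094286157503159293351159693474128438755328) (nat_lit 2476662842140371422462909370583933142671113940189810419753354027409080085534450136408787468158927173055491584764426791083666070094286157503159293351159693474128438755328) (by decide +kernel)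
theorem c32_s412 : Sem (nat_lit 2079502270590611144683810638107312777577327806531862431377859685460965980854219217279980804578104683573043408221052678871730618368) (nat_lit 589681629290253696093773058330957046071444164071181846599604900455010465918515114431092446541327107608081676159672687335451101368859954219117968029461188904179854213120) (nat_lit 589681629290253696093773058330957046071444164071181846599604900455010465918515114431092446541327107608081676159672687335451101368859954219117968029461188904179854213120) :=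
  sem_of_chk (M (nat_lit 430) (B (M (nat_lit 427) (B (M (nat_lit 398) (B (L (nat_lit 399) ln11_13_2 ln11_13_2_ok) (M (nat_lit 394) (B (L (nat_lit 395) ln14_13_3 ln14_13_3_ok) (M (nat_lit 426) (B (L (nat_lit 393) ln13_13_3 ln13_13_3_ok) (L (nat_lit 397) ln10_13_2 ln10_13_2_ok))))))) (B (M (nat_lit 431) (B (M (nat_lit 395) (B (L (nat_lit 394) ln14_13_3 ln14_13_3_ok) (L (nat_lit 396) ln15_13_3 ln15_13_3_ok))) (M (nat_lit 459) (B (L (nat_lit 458) ln14_13_1 ln14_13_1_ok) (L (nat_lit 460) ln15_13_1 ln15_13_1_ok))))) (M (nat_lit 426) (B (M (nat_lit 398) (B (L (nat_lit 397) ln10_13_2 ln10_13_2_ok) (L (nat_lit 399) ln11_13_2 ln11_13_2_ok))) (M (nat_lit 458) (B (L (nat_lit 457) ln13_13_1 ln13_13_1_ok) (L (nat_lit 459) ln14_13_1 ln14_13_1_ok)))))))) (B (M (nat_lit 431) (B (M (nat_lit 427) (B (M (nat_lit 399) (B (L (nat_lit 398) ln11_13_2 ln11_13_2_ok) (L (nat_lit 400) ln12_13_2 ln12_13_2_ok))) (M (nat_lit 459) (B (L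 (nat_lit 458) ln14_13_1 ln14_13_1_ok) (L (nat_lit 460) ln15_13_1 ln15_13_1_ok))))) (B (M (nat_lit 427) (B (M (nat_lit 395) (B (L (nat_lit 394) ln14_13_3 ln14_13_3_ok) (L (nat_lit 396) ln15_13_3 ln15_13_3_ok))) (M (nat_lit 459) (B (L (nat_lit 458) ln14_13_1 ln14_13_1_ok) (L (nat_lit 460) ln15_13_1 ln15_13_1_ok))))) (M (nat_lit 432) (B (M (nat_lit 396) (B (L (nat_lit 395) ln15_13_3 ln15_13_3_ok) (L (nat_lit 397) ln16_13_3 ln16_13_3_ok))) (M (nat_lit 464) (B (L (nat_lit 463) ln12_13_0 ln12_13_0_ok) (L (nat_lit 465) ln13_13_0 ln13_13_0_ok)))))))) (B (M (nat_lit 427) (B (M (nat_lit 431) (B (M (nat_lit 459) (B (L (nat_lit 458) ln14_13_1 ln14_13_1_ok) (L (nat_lit 460) ln15_13_1 ln15_13_1_ok))) (M (nat_lit 463) (B (L (nat_lit 462) ln11_13_0 ln11_13_0_ok) (L (nat_lit 464) ln12_13_0 ln12_13_0_ok))))) (B (M (nat_lit 426) (B (M (nat_lit 398) (B (L (nat_lit 397) ln10_13_2 ln10_13_2_ok) (L (nat_lit 399) ln11_13_2 ln11_13_2_ok)))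 (M (nat_lit 458) (B (L (nat_lit 457) ln13_13_1 ln13_13_1_ok) (L (nat_lit 459) ln14_13_1 ln14_13_1_ok))))) (M (nat_lit 431) (B (M (nat_lit 399) (B (L (nat_lit 398) ln11_13_2 ln11_13_2_ok) (L (nat_lit 400) ln12_13_2 ln12_13_2_ok))) (M (nat_lit 463) (B (L (nat_lit 462) ln11_13_0 ln11_13_0_ok) (L (nat_lit 464) ln12_13_0 ln12_13_0_ok)))))))) (B (M (nat_lit 427) (B (M (nat_lit 426) (B (M (nat_lit 394) (B (L (nat_lit 393) ln13_13_3 ln13_13_3_ok) (L (nat_lit 395) ln14_13_3 ln14_13_3_ok))) (M (nat_lit 458) (B (L (nat_lit 457) ln13_13_1 ln13_13_1_ok) (L (nat_lit 459) ln14_13_1 ln14_13_1_ok))))) (M (nat_lit 431) (B (M (nat_lit 399) (B (L (nat_lit 398) ln11_13_2 ln11_13_2_ok) (L (nat_lit 400) ln12_13_2 ln12_13_2_ok))) (M (nat_lit 463) (B (L (nat_lit 462) ln11_13_0 ln11_13_0_ok) (L (nat_lit 464) ln12_13_0 ln12_13_0_ok))))))) (B (M (nat_lit 427) (B (M (nat_lit 431) (B (M (nat_lit 459) (B (L (nat_lit 458) ln14_13_1 ln14_13_1_ok)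 (L (nat_lit 460) ln15_13_1 ln15_13_1_ok))) (M (nat_lit 463) (B (L (nat_lit 462) ln11_13_0 ln11_13_0_ok) (L (nat_lit 464) ln12_13_0 ln12_13_0_ok))))) (B (M (nat_lit 426) (B (M (nat_lit 394) (B (L (nat_lit 393) ln13_13_3 ln13_13_3_ok) (L (nat_lit 395) ln14_13_3 ln14_13_3_ok))) (M (nat_lit 458) (B (L (nat_lit 457) ln13_13_1 ln13_13_1_ok) (L (nat_lit 459) ln14_13_1 ln14_13_1_ok))))) (M (nat_lit 431) (B (M (nat_lit 395) (B (L (nat_lit 394) ln14_13_3 ln14_13_3_ok) (L (nat_lit 396) ln15_13_3 ln15_13_3_ok))) (M (nat_lit 463) (B (L (nat_lit 462) ln11_13_0 ln11_13_0_ok) (L (nat_lit 464) ln12_13_0 ln12_13_0_ok)))))))) (B c32_n298 (B (M (nat_lit 427) (B (M (nat_lit 398) (B (L (nat_lit 399) ln11_13_2 ln11_13_2_ok) (M (nat_lit 394) (B (L (nat_lit 395) ln14_13_3 ln14_13_3_ok) (M (nat_lit 426) (B (L (nat_lit 393) ln13_13_3 ln13_13_3_ok) (L (nat_lit 397) ln10_13_2 ln10_13_2_ok))))))) (B (M (nat_lit 426) (B (M (nat_lit 398)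 (B (L (nat_lit 397) ln10_13_2 ln10_13_2_ok) (L (nat_lit 399) ln11_13_2 ln11_13_2_ok))) (M (nat_lit 458) (B (L (nat_lit 457) ln13_13_1 ln13_13_1_ok) (L (nat_lit 459) ln14_13_1 ln14_13_1_ok))))) (B (M (nat_lit 426) (B (M (nat_lit 394) (B (L (nat_lit 393) ln13_13_3 ln13_13_3_ok) (L (nat_lit 395) ln14_13_3 ln14_13_3_ok))) (M (nat_lit 458) (B (L (nat_lit 457) ln13_13_1 ln13_13_1_ok) (L (nat_lit 459) ln14_13_1 ln14_13_1_ok))))) (M (nat_lit 462) (B (L (nat_lit 463) ln11_13_0 ln11_13_0_ok) (M (nat_lit 460) (B (M (nat_lit 459) (B (L (nat_lit 458) ln14_13_1 ln14_13_1_ok) (M (nat_lit 395) (B (L (nat_lit 394) ln14_13_3 ln14_13_3_ok) (M (nat_lit 363) (B (L (nat_lit 331) ln11_10_4 ln11_10_4_ok) (L (nat_lit 492) ln11_11_4 ln11_11_4_ok))))))) (B (M (nat_lit 459) (B (L (nat_lit 458) ln14_13_1 ln14_13_1_ok) (M (nat_lit 395) (B (L (nat_lit 394) ln14_13_3 ln14_13_3_ok) (M (nat_lit 492) (B (L (nat_lit 363) ln11_11_4 ln11_11_4_ok)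 (L (nat_lit 524) ln12_16_7 ln12_16_7_ok))))))) (B (M (nat_lit 461) (B (M (nat_lit 398) (B (L (nat_lit 399) ln11_13_2 ln11_13_2_ok) (M (nat_lit 493) (B (L (nat_lit 366) ln14_11_5 ln14_11_5_ok) (L (nat_lit 525) ln13_16_6 ln13_16_6_ok))))) (M (nat_lit 494) (B (M (nat_lit 397) (B (L (nat_lit 365) ln13_11_4 ln13_11_4_ok) (L (nat_lit 526) ln14_16_7 ln14_16_7_ok))) (M (nat_lit 459) (B (L (nat_lit 458) ln14_13_1 ln14_13_1_ok) (L (nat_lit 495) ln11_14_0 ln11_14_0_ok))))))) (B (M (nat_lit 395) (B (L (nat_lit 394) ln14_13_3 ln14_13_3_ok) (M (nat_lit 492) (B (L (nat_lit 524) ln12_16_7 ln12_16_7_ok) (M (nat_lit 363) (B (L (nat_lit 331) ln11_10_4 ln11_10_4_ok) (L (nat_lit 459) ln11_11_4 ln11_11_4_ok))))))) (M (nat_lit 395) (B (L (nat_lit 394) ln14_13_3 ln14_13_3_ok) (M (nat_lit 492) (B (L (nat_lit 524) ln12_16_7 ln12_16_7_ok) (M (nat_lit 363) (B (L (nat_lit 331) ln11_10_4 ln11_10_4_ok) (L (nat_lit 396) ln12_15_7 ln12_15_7_ok))))))))))))))))))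 (M (nat_lit 427) (B (M (nat_lit 431) (B (M (nat_lit 399) (B (L (nat_lit 398) ln11_13_2 ln11_13_2_ok) (L (nat_lit 400) ln12_13_2 ln12_13_2_ok))) (M (nat_lit 463) (B (L (nat_lit 462) ln11_13_0 ln11_13_0_ok) (L (nat_lit 464) ln12_13_0 ln12_13_0_ok))))) (B (M (nat_lit 431) (B (M (nat_lit 395) (B (L (nat_lit 394) ln14_13_3 ln14_13_3_ok) (L (nat_lit 396) ln15_13_3 ln15_13_3_ok))) (M (nat_lit 463) (B (L (nat_lit 462) ln11_13_0 ln11_13_0_ok) (L (nat_lit 464) ln12_13_0 ln12_13_0_ok))))) (M (nat_lit 398) (B (L (nat_lit 399) ln11_13_2 ln11_13_2_ok) (M (nat_lit 394) (B (L (nat_lit 395) ln14_13_3 ln14_13_3_ok) (M (nat_lit 426) (B (L (nat_lit 393) ln13_13_3 ln13_13_3_ok) (L (nat_lit 397) ln10_13_2 ln10_13_2_ok)))))))))))))))))) (nat_lit 2079502270590611144683810638107312777577327806531862431377859685460965980854219217279980804578104683573043408221052678871730618368) (nat_lit 589681629290253696093773058330957046071444164071181846599604900455010465918515114431092446541327107608081676159672687335451101368859954219117968029461188904179854213120)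 (nat_lit 589681629290253696093773058330957046071444164071181846599604900455010465918515114431092446541327107608081676159672687335451101368859954219117968029461188904179854213120) (by decide +kernel)
theorem c32_s478 : Sem (nat_lit 2079502270590611144683810638107312777577327806531862431377859685460965980854219217279980804578104683573043408221052678871730618368) (nat_lit 2476662842140371422462909370583933142671113940189810419753034625617713481679197646091642148350985514703688301008855424205779741774043711700394717678220555904603108933632) (nat_lit 2476662842140371422462909370583933142671113940189810419753034625617713481679197646091642148350985514703688301008855424205779741774043711700394717678220555904603108933632) :=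
  sem_of_chk (M (nat_lit 430) (B (M (nat_lit 427) (B (M (nat_lit 398) (B (L (nat_lit 399) ln11_13_2 ln11_13_2_ok) (M (nat_lit 394) (B (L (nat_lit 395) ln14_13_3 ln14_13_3_ok) (M (nat_lit 426) (B (L (nat_lit 393) ln13_13_3 ln13_13_3_ok) (L (nat_lit 397) ln10_13_2 ln10_13_2_ok))))))) (B (M (nat_lit 431) (B (M (nat_lit 395) (B (L (nat_lit 394) ln14_13_3 ln14_13_3_ok) (L (nat_lit 396) ln15_13_3 ln15_13_3_ok))) (M (nat_lit 459) (B (L (nat_lit 458) ln14_13_1 ln14_13_1_ok) (L (nat_lit 460) ln15_13_1 ln15_13_1_ok))))) (M (nat_lit 426) (B (M (nat_lit 398) (B (L (nat_lit 397) ln10_13_2 ln10_13_2_ok) (L (nat_lit 399) ln11_13_2 ln11_13_2_ok))) (M (nat_lit 458) (B (L (nat_lit 457) ln13_13_1 ln13_13_1_ok) (L (nat_lit 459) ln14_13_1 ln14_13_1_ok)))))))) (B (M (nat_lit 431) (B (M (nat_lit 427) (B (M (nat_lit 399) (B (L (nat_lit 398) ln11_13_2 ln11_13_2_ok) (L (nat_lit 400) ln12_13_2 ln12_13_2_ok))) (M (nat_lit 459) (B (L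 (nat_lit 458) ln14_13_1 ln14_13_1_ok) (L (nat_lit 460) ln15_13_1 ln15_13_1_ok))))) (B (M (nat_lit 427) (B (M (nat_lit 395) (B (L (nat_lit 394) ln14_13_3 ln14_13_3_ok) (L (nat_lit 396) ln15_13_3 ln15_13_3_ok))) (M (nat_lit 459) (B (L (nat_lit 458) ln14_13_1 ln14_13_1_ok) (L (nat_lit 460) ln15_13_1 ln15_13_1_ok))))) (M (nat_lit 432) (B (M (nat_lit 396) (B (L (nat_lit 395) ln15_13_3 ln15_13_3_ok) (L (nat_lit 397) ln16_13_3 ln16_13_3_ok))) (M (nat_lit 464) (B (L (nat_lit 463) ln12_13_0 ln12_13_0_ok) (L (nat_lit 465) ln13_13_0 ln13_13_0_ok)))))))) (B (M (nat_lit 427) (B (M (nat_lit 431) (B (M (nat_lit 459) (B (L (nat_lit 458) ln14_13_1 ln14_13_1_ok) (L (nat_lit 460) ln15_13_1 ln15_13_1_ok))) (M (nat_lit 463) (B (L (nat_lit 462) ln11_13_0 ln11_13_0_ok) (L (nat_lit 464) ln12_13_0 ln12_13_0_ok))))) (B (M (nat_lit 426) (B (M (nat_lit 398) (B (L (nat_lit 397) ln10_13_2 ln10_13_2_ok) (L (nat_lit 399) ln11_13_2 ln11_13_2_ok)))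 (M (nat_lit 458) (B (L (nat_lit 457) ln13_13_1 ln13_13_1_ok) (L (nat_lit 459) ln14_13_1 ln14_13_1_ok))))) (M (nat_lit 431) (B (M (nat_lit 399) (B (L (nat_lit 398) ln11_13_2 ln11_13_2_ok) (L (nat_lit 400) ln12_13_2 ln12_13_2_ok))) (M (nat_lit 463) (B (L (nat_lit 462) ln11_13_0 ln11_13_0_ok) (L (nat_lit 464) ln12_13_0 ln12_13_0_ok)))))))) (B (M (nat_lit 427) (B (M (nat_lit 426) (B (M (nat_lit 394) (B (L (nat_lit 393) ln13_13_3 ln13_13_3_ok) (L (nat_lit 395) ln14_13_3 ln14_13_3_ok))) (M (nat_lit 458) (B (L (nat_lit 457) ln13_13_1 ln13_13_1_ok) (L (nat_lit 459) ln14_13_1 ln14_13_1_ok))))) (M (nat_lit 431) (B (M (nat_lit 399) (B (L (nat_lit 398) ln11_13_2 ln11_13_2_ok) (L (nat_lit 400) ln12_13_2 ln12_13_2_ok))) (M (nat_lit 463) (B (L (nat_lit 462) ln11_13_0 ln11_13_0_ok) (L (nat_lit 464) ln12_13_0 ln12_13_0_ok))))))) (B (M (nat_lit 427) (B (M (nat_lit 431) (B (M (nat_lit 459) (B (L (nat_lit 458) ln14_13_1 ln14_13_1_ok)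 (L (nat_lit 460) ln15_13_1 ln15_13_1_ok))) (M (nat_lit 463) (B (L (nat_lit 462) ln11_13_0 ln11_13_0_ok) (L (nat_lit 464) ln12_13_0 ln12_13_0_ok))))) (B (M (nat_lit 426) (B (M (nat_lit 394) (B (L (nat_lit 393) ln13_13_3 ln13_13_3_ok) (L (nat_lit 395) ln14_13_3 ln14_13_3_ok))) (M (nat_lit 458) (B (L (nat_lit 457) ln13_13_1 ln13_13_1_ok) (L (nat_lit 459) ln14_13_1 ln14_13_1_ok))))) (M (nat_lit 431) (B (M (nat_lit 395) (B (L (nat_lit 394) ln14_13_3 ln14_13_3_ok) (L (nat_lit 396) ln15_13_3 ln15_13_3_ok))) (M (nat_lit 463) (B (L (nat_lit 462) ln11_13_0 ln11_13_0_ok) (L (nat_lit 464) ln12_13_0 ln12_13_0_ok)))))))) (B (M (nat_lit 431) (B (M (nat_lit 396) (B (L (nat_lit 395) ln15_13_3 ln15_13_3_ok) (M (nat_lit 432) (B (L (nat_lit 397) ln16_13_3 ln16_13_3_ok) (M (nat_lit 400) (B (L (nat_lit 399) ln12_13_2 ln12_13_2_ok) (L (nat_lit 401) ln13_13_2 ln13_13_2_ok))))))) (B (M (nat_lit 432) (B (M (nat_lit 400) (B (L (nat_lit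 399) ln12_13_2 ln12_13_2_ok) (L (nat_lit 401) ln13_13_2 ln13_13_2_ok))) (M (nat_lit 464) (B (L (nat_lit 463) ln12_13_0 ln12_13_0_ok) (L (nat_lit 465) ln13_13_0 ln13_13_0_ok))))) (B (M (nat_lit 432) (B (M (nat_lit 396) (B (L (nat_lit 395) ln15_13_3 ln15_13_3_ok) (L (nat_lit 397) ln16_13_3 ln16_13_3_ok))) (M (nat_lit 464) (B (L (nat_lit 463) ln12_13_0 ln12_13_0_ok) (L (nat_lit 465) ln13_13_0 ln13_13_0_ok))))) (M (nat_lit 396) (B (L (nat_lit 395) ln15_13_3 ln15_13_3_ok) (M (nat_lit 460) (B (L (nat_lit 459) ln15_13_1 ln15_13_1_ok) (M (nat_lit 492) (B (M (nat_lit 397) (B (L (nat_lit 365) ln12_15_6 ln12_15_6_ok) (L (nat_lit 524) ln12_16_6 ln12_16_6_ok))) (B (M (nat_lit 524) (B (L (nat_lit 397) ln12_16_6 ln12_16_6_ok) (M (nat_lit 525) (B (L (nat_lit 493) ln12_12_4 ln12_12_4_ok) (L (nat_lit 557) ln12_13_4 ln12_13_4_ok))))) (B (M (nat_lit 524) (B (M (nat_lit 523) (B (L (nat_lit 491) ln12_12_5 ln12_12_5_ok) (L (nat_lit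 555) ln12_13_5 ln12_13_5_ok))) (M (nat_lit 525) (B (L (nat_lit 493) ln12_12_4 ln12_12_4_ok) (L (nat_lit 557) ln12_13_4 ln12_13_4_ok))))) (M (nat_lit 364) (B (M (nat_lit 365) (B (L (nat_lit 333) ln12_14_6 ln12_14_6_ok) (L (nat_lit 397) ln12_15_6 ln12_15_6_ok))) (M (nat_lit 493) (B (L (nat_lit 461) ln12_11_4 ln12_11_4_ok) (L (nat_lit 525) ln12_12_4 ln12_12_4_ok))))))))))))))))) (B (M (nat_lit 427) (B (M (nat_lit 426) (B (M (nat_lit 394) (B (L (nat_lit 393) ln13_13_3 ln13_13_3_ok) (L (nat_lit 395) ln14_13_3 ln14_13_3_ok))) (M (nat_lit 458) (B (L (nat_lit 457) ln13_13_1 ln13_13_1_ok) (L (nat_lit 459) ln14_13_1 ln14_13_1_ok))))) (B (M (nat_lit 426) (B (M (nat_lit 398) (B (L (nat_lit 397) ln10_13_2 ln10_13_2_ok) (L (nat_lit 399) ln11_13_2 ln11_13_2_ok))) (M (nat_lit 458) (B (L (nat_lit 457) ln13_13_1 ln13_13_1_ok) (L (nat_lit 459) ln14_13_1 ln14_13_1_ok))))) (M (nat_lit 398) (B (L (nat_lit 399) ln11_13_2 ln11_13_2_ok)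 (M (nat_lit 462) (B (L (nat_lit 463) ln11_13_0 ln11_13_0_ok) (M (nat_lit 494) (B (M (nat_lit 397) (B (L (nat_lit 365) ln14_15_7 ln14_15_7_ok) (L (nat_lit 526) ln14_16_7 ln14_16_7_ok))) (B (M (nat_lit 525) (B (L (nat_lit 493) ln14_12_5 ln14_12_5_ok) (M (nat_lit 526) (B (L (nat_lit 397) ln14_16_7 ln14_16_7_ok) (L (nat_lit 557) ln14_13_5 ln14_13_5_ok))))) (B (M (nat_lit 526) (B (M (nat_lit 525) (B (L (nat_lit 493) ln14_12_5 ln14_12_5_ok) (L (nat_lit 557) ln14_13_5 ln14_13_5_ok))) (M (nat_lit 527) (B (L (nat_lit 495) ln14_12_4 ln14_12_4_ok) (L (nat_lit 559) ln14_13_4 ln14_13_4_ok))))) (M (nat_lit 366) (B (M (nat_lit 365) (B (L (nat_lit 333) ln14_14_7 ln14_14_7_ok) (L (nat_lit 397) ln14_15_7 ln14_15_7_ok))) (M (nat_lit 493) (B (L (nat_lit 461) ln14_11_5 ln14_11_5_ok) (L (nat_lit 525) ln14_12_5 ln14_12_5_ok)))))))))))))))) (M (nat_lit 427) (B (M (nat_lit 431) (B (M (nat_lit 399) (B (L (nat_lit 398) ln11_13_2 ln11_13_2_ok)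 (L (nat_lit 400) ln12_13_2 ln12_13_2_ok))) (M (nat_lit 463) (B (L (nat_lit 462) ln11_13_0 ln11_13_0_ok) (L (nat_lit 464) ln12_13_0 ln12_13_0_ok))))) (B (M (nat_lit 431) (B (M (nat_lit 395) (B (L (nat_lit 394) ln14_13_3 ln14_13_3_ok) (L (nat_lit 396) ln15_13_3 ln15_13_3_ok))) (M (nat_lit 463) (B (L (nat_lit 462) ln11_13_0 ln11_13_0_ok) (L (nat_lit 464) ln12_13_0 ln12_13_0_ok))))) (B (M (nat_lit 426) (B (M (nat_lit 394) (B (L (nat_lit 393) ln13_13_3 ln13_13_3_ok) (L (nat_lit 395) ln14_13_3 ln14_13_3_ok))) (M (nat_lit 462) (B (L (nat_lit 461) ln10_13_0 ln10_13_0_ok) (L (nat_lit 463) ln11_13_0 ln11_13_0_ok))))) (M (nat_lit 431) (B (M (nat_lit 395) (B (L (nat_lit 394) ln14_13_3 ln14_13_3_ok) (L (nat_lit 396) ln15_13_3 ln15_13_3_ok))) (M (nat_lit 399) (B (L (nat_lit 398) ln11_13_2 ln11_13_2_ok) (L (nat_lit 400) ln12_13_2 ln12_13_2_ok))))))))))))))))) (nat_lit 2079502270590611144683810638107312777577327806531862431377859685460965980854219217279980804578104683573043408221052678871730618368)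 (nat_lit 2476662842140371422462909370583933142671113940189810419753034625617713481679197646091642148350985514703688301008855424205779741774043711700394717678220555904603108933632) (nat_lit 2476662842140371422462909370583933142671113940189810419753034625617713481679197646091642148350985514703688301008855424205779741774043711700394717678220555904603108933632) (by decide +kernel)
noncomputable def c32_n526 : Cert := (M (nat_lit 460) (B (M (nat_lit 459) (B (L (nat_lit 431) ln15_13_1 ln15_13_1_ok) (M (nat_lit 458) (B (L (nat_lit 457) ln9_14_2 ln9_14_2_ok) (L (nat_lit 461) ln10_14_2 ln10_14_2_ok))))) (B (M (nat_lit 492) (B (M (nat_lit 397) (B (L (nat_lit 524) ln12_16_6 ln12_16_6_ok) (M (nat_lit 365) (B (L (nat_lit 396) ln12_15_6 ln12_15_6_ok) (L (nat_lit 461) ln13_11_5 ln13_11_5_ok))))) (B (M (nat_lit 524) (B (L (nat_lit 397) ln12_16_6 ln12_16_6_ok) (M (nat_lit 556) (B (L (nat_lit 461) ln12_17_6 ln12_17_6_ok)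 (M (nat_lit 557) (B (L (nat_lit 525) ln12_13_4 ln12_13_4_ok) (L (nat_lit 589) ln12_14_4 ln12_14_4_ok))))))) (B (M (nat_lit 396) (B (M (nat_lit 364) (B (M (nat_lit 491) (B (L (nat_lit 459) ln12_11_5 ln12_11_5_ok) (L (nat_lit 523) ln12_12_5 ln12_12_5_ok))) (M (nat_lit 493) (B (L (nat_lit 461) ln12_11_4 ln12_11_4_ok) (L (nat_lit 525) ln12_12_4 ln12_12_4_ok))))) (B (M (nat_lit 524) (B (M (nat_lit 523) (B (L (nat_lit 491) ln12_12_5 ln12_12_5_ok) (L (nat_lit 555) ln12_13_5 ln12_13_5_ok))) (M (nat_lit 525) (B (L (nat_lit 493) ln12_12_4 ln12_12_4_ok) (L (nat_lit 557) ln12_13_4 ln12_13_4_ok))))) (B (M (nat_lit 364) (B (M (nat_lit 363) (B (L (nat_lit 331) ln12_14_7 ln12_14_7_ok) (L (nat_lit 395) ln12_15_7 ln12_15_7_ok))) (M (nat_lit 461) (B (L (nat_lit 332) ln12_10_4 ln12_10_4_ok) (L (nat_lit 493) ln12_11_4 ln12_11_4_ok))))) (M (nat_lit 364) (B (M (nat_lit 363) (B (L (nat_lit 331) ln12_14_7 ln12_14_7_ok) (L (nat_lit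 395) ln12_15_7 ln12_15_7_ok))) (M (nat_lit 491) (B (L (nat_lit 459) ln12_11_5 ln12_11_5_ok) (L (nat_lit 523) ln12_12_5 ln12_12_5_ok))))))))) (B (M (nat_lit 397) (B (L (nat_lit 524) ln12_16_6 ln12_16_6_ok) (M (nat_lit 396) (B (L (nat_lit 365) ln12_15_6 ln12_15_6_ok) (M (nat_lit 395) (B (L (nat_lit 363) ln12_15_7 ln12_15_7_ok) (L (nat_lit 394) ln10_12_0 ln10_12_0_ok))))))) (M (nat_lit 396) (B (M (nat_lit 397) (B (L (nat_lit 365) ln12_15_6 ln12_15_6_ok) (M (nat_lit 395) (B (L (nat_lit 363) ln12_15_7 ln12_15_7_ok) (L (nat_lit 394) ln10_12_0 ln10_12_0_ok))))) (M (nat_lit 364) (B (M (nat_lit 491) (B (L (nat_lit 459) ln12_11_5 ln12_11_5_ok) (L (nat_lit 523) ln12_12_5 ln12_12_5_ok))) (M (nat_lit 493) (B (L (nat_lit 461) ln12_11_4 ln12_11_4_ok) (L (nat_lit 525) ln12_12_4 ln12_12_4_ok)))))))))))) (B (M (nat_lit 396) (B (M (nat_lit 431) (B (L (nat_lit 395) ln15_13_3 ln15_13_3_ok) (M (nat_lit 432) (B (L (nat_lit 397)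 ln16_13_3 ln16_13_3_ok) (L (nat_lit 461) ln16_13_1 ln16_13_1_ok))))) (B (M (nat_lit 461) (B (M (nat_lit 493) (B (L (nat_lit 364) ln12_11_4 ln12_11_4_ok) (L (nat_lit 525) ln13_16_7 ln13_16_7_ok))) (M (nat_lit 492) (B (M (nat_lit 397) (B (L (nat_lit 365) ln12_15_6 ln12_15_6_ok) (L (nat_lit 524) ln12_16_6 ln12_16_6_ok))) (M (nat_lit 463) (B (M (nat_lit 431) (B (L (nat_lit 464) ln12_13_0 ln12_13_0_ok) (L (nat_lit 432) ln16_13_1 ln16_13_1_ok))) (B (M (nat_lit 462) (B (L (nat_lit 464) ln16_14_3 ln16_14_3_ok) (L (nat_lit 491) ln15_14_1 ln15_14_1_ok))) (M (nat_lit 491) (B (L (nat_lit 523) ln12_12_5 ln12_12_5_ok) (L (nat_lit 462) ln15_14_1 ln15_14_1_ok)))))))))) (B (M (nat_lit 461) (B (M (nat_lit 364) (B (L (nat_lit 332) ln12_10_4 ln12_10_4_ok) (L (nat_lit 493) ln12_11_4 ln12_11_4_ok))) (M (nat_lit 431) (B (L (nat_lit 395) ln15_13_3 ln15_13_3_ok) (L (nat_lit 432) ln16_13_1 ln16_13_1_ok))))) (B (M (nat_lit 364) (B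 (M (nat_lit 461) (B (L (nat_lit 332) ln12_10_4 ln12_10_4_ok) (L (nat_lit 493) ln12_11_4 ln12_11_4_ok))) (M (nat_lit 492) (B (M (nat_lit 363) (B (L (nat_lit 331) ln12_14_7 ln12_14_7_ok) (L (nat_lit 395) ln12_15_7 ln12_15_7_ok))) (M (nat_lit 397) (B (L (nat_lit 365) ln12_15_6 ln12_15_6_ok) (L (nat_lit 524) ln12_16_6 ln12_16_6_ok))))))) (M (nat_lit 397) (B (M (nat_lit 395) (B (L (nat_lit 394) ln10_12_0 ln10_12_0_ok) (L (nat_lit 431) ln15_13_3 ln15_13_3_ok))) (M (nat_lit 492) (B (L (nat_lit 365) ln12_15_6 ln12_15_6_ok) (L (nat_lit 524) ln12_16_6 ln12_16_6_ok)))))))))) (M (nat_lit 431) (B (L (nat_lit 459) ln15_13_1 ln15_13_1_ok) (M (nat_lit 432) (B (M (nat_lit 396) (B (L (nat_lit 395) ln15_13_3 ln15_13_3_ok) (L (nat_lit 397) ln16_13_3 ln16_13_3_ok))) (M (nat_lit 464) (B (L (nat_lit 463) ln12_13_0 ln12_13_0_ok) (L (nat_lit 465) ln13_13_0 ln13_13_0_ok)))))))))))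
theorem c32_s558 : Sem (nat_lit 2079502270590611144683810638107312777577327806531862431377859685460965980854219217279980804578104683573043408221052678871730618368) (nat_lit 2026130649693226623865236682699526543913765430152966954897351455379662411804846554917778917730561053392643397666643613171142762758930355688792273520760890742760642450370666168320) (nat_lit 2026130649693226623865236682699526543913765430152966954897351455379662411804846554917778917730561053392643397666643613171142762758930355688792273520760890742760642450370666168320) :=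
  sem_of_chk (M (nat_lit 430) (B (M (nat_lit 427) (B (M (nat_lit 398) (B (L (nat_lit 399) ln11_13_2 ln11_13_2_ok) (M (nat_lit 394) (B (L (nat_lit 395) ln14_13_3 ln14_13_3_ok) (M (nat_lit 426) (B (L (nat_lit 393) ln13_13_3 ln13_13_3_ok) (L (nat_lit 397) ln10_13_2 ln10_13_2_ok))))))) (B (M (nat_lit 431) (B (M (nat_lit 395) (B (L (nat_lit 394) ln14_13_3 ln14_13_3_ok) (L (nat_lit 396) ln15_13_3 ln15_13_3_ok))) (M (nat_lit 459) (B (L (nat_lit 458) ln14_13_1 ln14_13_1_ok) (L (nat_lit 460) ln15_13_1 ln15_13_1_ok))))) (M (nat_lit 426) (B (M (nat_lit 398) (B (L (nat_lit 397) ln10_13_2 ln10_13_2_ok) (L (nat_lit 399) ln11_13_2 ln11_13_2_ok))) (M (nat_lit 458) (B (L (nat_lit 457) ln13_13_1 ln13_13_1_ok) (L (nat_lit 459) ln14_13_1 ln14_13_1_ok)))))))) (B (M (nat_lit 431) (B (M (nat_lit 427) (B (M (nat_lit 399) (B (L (nat_lit 398) ln11_13_2 ln11_13_2_ok) (L (nat_lit 400) ln12_13_2 ln12_13_2_ok))) (M (nat_lit 459) (B (L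 (nat_lit 458) ln14_13_1 ln14_13_1_ok) (L (nat_lit 460) ln15_13_1 ln15_13_1_ok))))) (B (M (nat_lit 427) (B (M (nat_lit 395) (B (L (nat_lit 394) ln14_13_3 ln14_13_3_ok) (L (nat_lit 396) ln15_13_3 ln15_13_3_ok))) (M (nat_lit 459) (B (L (nat_lit 458) ln14_13_1 ln14_13_1_ok) (L (nat_lit 460) ln15_13_1 ln15_13_1_ok))))) (M (nat_lit 432) (B (M (nat_lit 396) (B (L (nat_lit 395) ln15_13_3 ln15_13_3_ok) (L (nat_lit 397) ln16_13_3 ln16_13_3_ok))) (M (nat_lit 464) (B (L (nat_lit 463) ln12_13_0 ln12_13_0_ok) (L (nat_lit 465) ln13_13_0 ln13_13_0_ok)))))))) (B (M (nat_lit 427) (B (M (nat_lit 431) (B (M (nat_lit 459) (B (L (nat_lit 458) ln14_13_1 ln14_13_1_ok) (L (nat_lit 460) ln15_13_1 ln15_13_1_ok))) (M (nat_lit 463) (B (L (nat_lit 462) ln11_13_0 ln11_13_0_ok) (L (nat_lit 464) ln12_13_0 ln12_13_0_ok))))) (B (M (nat_lit 426) (B (M (nat_lit 398) (B (L (nat_lit 397) ln10_13_2 ln10_13_2_ok) (L (nat_lit 399) ln11_13_2 ln11_13_2_ok)))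 (M (nat_lit 458) (B (L (nat_lit 457) ln13_13_1 ln13_13_1_ok) (L (nat_lit 459) ln14_13_1 ln14_13_1_ok))))) (M (nat_lit 431) (B (M (nat_lit 399) (B (L (nat_lit 398) ln11_13_2 ln11_13_2_ok) (L (nat_lit 400) ln12_13_2 ln12_13_2_ok))) (M (nat_lit 463) (B (L (nat_lit 462) ln11_13_0 ln11_13_0_ok) (L (nat_lit 464) ln12_13_0 ln12_13_0_ok)))))))) (B (M (nat_lit 427) (B (M (nat_lit 426) (B (M (nat_lit 394) (B (L (nat_lit 393) ln13_13_3 ln13_13_3_ok) (L (nat_lit 395) ln14_13_3 ln14_13_3_ok))) (M (nat_lit 458) (B (L (nat_lit 457) ln13_13_1 ln13_13_1_ok) (L (nat_lit 459) ln14_13_1 ln14_13_1_ok))))) (M (nat_lit 431) (B (M (nat_lit 399) (B (L (nat_lit 398) ln11_13_2 ln11_13_2_ok) (L (nat_lit 400) ln12_13_2 ln12_13_2_ok))) (M (nat_lit 463) (B (L (nat_lit 462) ln11_13_0 ln11_13_0_ok) (L (nat_lit 464) ln12_13_0 ln12_13_0_ok))))))) (B (M (nat_lit 427) (B (M (nat_lit 431) (B (M (nat_lit 459) (B (L (nat_lit 458) ln14_13_1 ln14_13_1_ok)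 (L (nat_lit 460) ln15_13_1 ln15_13_1_ok))) (M (nat_lit 463) (B (L (nat_lit 462) ln11_13_0 ln11_13_0_ok) (L (nat_lit 464) ln12_13_0 ln12_13_0_ok))))) (B (M (nat_lit 426) (B (M (nat_lit 394) (B (L (nat_lit 393) ln13_13_3 ln13_13_3_ok) (L (nat_lit 395) ln14_13_3 ln14_13_3_ok))) (M (nat_lit 458) (B (L (nat_lit 457) ln13_13_1 ln13_13_1_ok) (L (nat_lit 459) ln14_13_1 ln14_13_1_ok))))) (M (nat_lit 431) (B (M (nat_lit 395) (B (L (nat_lit 394) ln14_13_3 ln14_13_3_ok) (L (nat_lit 396) ln15_13_3 ln15_13_3_ok))) (M (nat_lit 463) (B (L (nat_lit 462) ln11_13_0 ln11_13_0_ok) (L (nat_lit 464) ln12_13_0 ln12_13_0_ok)))))))) (B c32_n526 (B (M (nat_lit 427) (B (M (nat_lit 398) (B (L (nat_lit 399) ln11_13_2 ln11_13_2_ok) (M (nat_lit 394) (B (L (nat_lit 395) ln14_13_3 ln14_13_3_ok) (M (nat_lit 426) (B (L (nat_lit 393) ln13_13_3 ln13_13_3_ok) (L (nat_lit 397) ln10_13_2 ln10_13_2_ok))))))) (B (M (nat_lit 426) (B (M (nat_lit 398)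 (B (L (nat_lit 397) ln10_13_2 ln10_13_2_ok) (L (nat_lit 399) ln11_13_2 ln11_13_2_ok))) (M (nat_lit 458) (B (L (nat_lit 457) ln13_13_1 ln13_13_1_ok) (L (nat_lit 459) ln14_13_1 ln14_13_1_ok))))) (B (M (nat_lit 426) (B (M (nat_lit 394) (B (L (nat_lit 393) ln13_13_3 ln13_13_3_ok) (L (nat_lit 395) ln14_13_3 ln14_13_3_ok))) (M (nat_lit 458) (B (L (nat_lit 457) ln13_13_1 ln13_13_1_ok) (L (nat_lit 459) ln14_13_1 ln14_13_1_ok))))) (M (nat_lit 398) (B (L (nat_lit 399) ln11_13_2 ln11_13_2_ok) (M (nat_lit 396) (B (M (nat_lit 395) (B (L (nat_lit 394) ln14_13_3 ln14_13_3_ok) (M (nat_lit 459) (B (L (nat_lit 458) ln14_13_1 ln14_13_1_ok) (M (nat_lit 491) (B (L (nat_lit 364) ln11_15_6 ln11_15_6_ok) (L (nat_lit 523) ln11_16_6 ln11_16_6_ok))))))) (B (M (nat_lit 397) (B (M (nat_lit 462) (B (L (nat_lit 463) ln11_13_0 ln11_13_0_ok) (M (nat_lit 494) (B (L (nat_lit 365) ln14_15_7 ln14_15_7_ok) (L (nat_lit 526) ln14_16_7 ln14_16_7_ok)))))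 (M (nat_lit 366) (B (M (nat_lit 334) (B (L (nat_lit 302) ln14_9_5 ln14_9_5_ok) (L (nat_lit 461) ln14_10_5 ln14_10_5_ok))) (M (nat_lit 395) (B (L (nat_lit 367) ln11_12_2 ln11_12_2_ok) (L (nat_lit 394) ln10_12_0 ln10_12_0_ok))))))) (M (nat_lit 459) (B (L (nat_lit 458) ln14_13_1 ln14_13_1_ok) (M (nat_lit 364) (B (L (nat_lit 332) ln12_10_5 ln12_10_5_ok) (M (nat_lit 491) (B (L (nat_lit 460) ln12_11_5 ln12_11_5_ok) (L (nat_lit 523) ln11_16_6 ln11_16_6_ok)))))))))))))))) (M (nat_lit 427) (B (M (nat_lit 431) (B (M (nat_lit 399) (B (L (nat_lit 398) ln11_13_2 ln11_13_2_ok) (L (nat_lit 400) ln12_13_2 ln12_13_2_ok))) (M (nat_lit 463) (B (L (nat_lit 462) ln11_13_0 ln11_13_0_ok) (L (nat_lit 464) ln12_13_0 ln12_13_0_ok))))) (B (M (nat_lit 431) (B (M (nat_lit 395) (B (L (nat_lit 394) ln14_13_3 ln14_13_3_ok) (L (nat_lit 396) ln15_13_3 ln15_13_3_ok))) (M (nat_lit 463) (B (L (nat_lit 462) ln11_13_0 ln11_13_0_ok) (L (nat_lit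 464) ln12_13_0 ln12_13_0_ok))))) (M (nat_lit 398) (B (L (nat_lit 399) ln11_13_2 ln11_13_2_ok) (M (nat_lit 394) (B (L (nat_lit 395) ln14_13_3 ln14_13_3_ok) (M (nat_lit 426) (B (L (nat_lit 393) ln13_13_3 ln13_13_3_ok) (L (nat_lit 397) ln10_13_2 ln10_13_2_ok)))))))))))))))))) (nat_lit 2079502270590611144683810638107312777577327806531862431377859685460965980854219217279980804578104683573043408221052678871730618368) (nat_lit 2026130649693226623865236682699526543913765430152966954897351455379662411804846554917778917730561053392643397666643613171142762758930355688792273520760890742760642450370666168320) (nat_lit 2026130649693226623865236682699526543913765430152966954897351455379662411804846554917778917730561053392643397666643613171142762758930355688792273520760890742760642450370666168320) (by decide +kernel)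
theorem c32_s602 : Sem (nat_lit 2079502270590611144683810638107312777577327806531862431377859685460965980854219217279980804578104683573043408221052678871730618368) (nat_lit 2358726516364698255205360789928049739829960152051796656366541215504378387949159672672371014007517518547186447536451853439439143074576516572269487175225530669643379769344) (nat_lit 2358726516364698255205360789928049739829960152051796656366541215504378387949159672672371014007517518547186447536451853439439143074576516572269487175225530669643379769344) :=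
  sem_of_chk (M (nat_lit 430) (B (M (nat_lit 427) (B (M (nat_lit 398) (B (L (nat_lit 399) ln11_13_2 ln11_13_2_ok) (M (nat_lit 394) (B (L (nat_lit 395) ln14_13_3 ln14_13_3_ok) (M (nat_lit 426) (B (L (nat_lit 393) ln13_13_3 ln13_13_3_ok) (L (nat_lit 397) ln10_13_2 ln10_13_2_ok))))))) (B (M (nat_lit 431) (B (M (nat_lit 395) (B (L (nat_lit 394) ln14_13_3 ln14_13_3_ok) (L (nat_lit 396) ln15_13_3 ln15_13_3_ok))) (M (nat_lit 459) (B (L (nat_lit 458) ln14_13_1 ln14_13_1_ok) (L (nat_lit 460) ln15_13_1 ln15_13_1_ok))))) (M (nat_lit 426) (B (M (nat_lit 398) (B (L (nat_lit 397) ln10_13_2 ln10_13_2_ok) (L (nat_lit 399) ln11_13_2 ln11_13_2_ok))) (M (nat_lit 458) (B (L (nat_lit 457) ln13_13_1 ln13_13_1_ok) (L (nat_lit 459) ln14_13_1 ln14_13_1_ok)))))))) (B (M (nat_lit 431) (B (M (nat_lit 427) (B (M (nat_lit 399) (B (L (nat_lit 398) ln11_13_2 ln11_13_2_ok) (L (nat_lit 400) ln12_13_2 ln12_13_2_ok))) (M (nat_lit 459) (B (L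 (nat_lit 458) ln14_13_1 ln14_13_1_ok) (L (nat_lit 460) ln15_13_1 ln15_13_1_ok))))) (B (M (nat_lit 427) (B (M (nat_lit 395) (B (L (nat_lit 394) ln14_13_3 ln14_13_3_ok) (L (nat_lit 396) ln15_13_3 ln15_13_3_ok))) (M (nat_lit 459) (B (L (nat_lit 458) ln14_13_1 ln14_13_1_ok) (L (nat_lit 460) ln15_13_1 ln15_13_1_ok))))) (M (nat_lit 432) (B (M (nat_lit 396) (B (L (nat_lit 395) ln15_13_3 ln15_13_3_ok) (L (nat_lit 397) ln16_13_3 ln16_13_3_ok))) (M (nat_lit 464) (B (L (nat_lit 463) ln12_13_0 ln12_13_0_ok) (L (nat_lit 465) ln13_13_0 ln13_13_0_ok)))))))) (B (M (nat_lit 427) (B (M (nat_lit 431) (B (M (nat_lit 459) (B (L (nat_lit 458) ln14_13_1 ln14_13_1_ok) (L (nat_lit 460) ln15_13_1 ln15_13_1_ok))) (M (nat_lit 463) (B (L (nat_lit 462) ln11_13_0 ln11_13_0_ok) (L (nat_lit 464) ln12_13_0 ln12_13_0_ok))))) (B (M (nat_lit 426) (B (M (nat_lit 398) (B (L (nat_lit 397) ln10_13_2 ln10_13_2_ok) (L (nat_lit 399) ln11_13_2 ln11_13_2_ok)))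 (M (nat_lit 458) (B (L (nat_lit 457) ln13_13_1 ln13_13_1_ok) (L (nat_lit 459) ln14_13_1 ln14_13_1_ok))))) (M (nat_lit 431) (B (M (nat_lit 399) (B (L (nat_lit 398) ln11_13_2 ln11_13_2_ok) (L (nat_lit 400) ln12_13_2 ln12_13_2_ok))) (M (nat_lit 463) (B (L (nat_lit 462) ln11_13_0 ln11_13_0_ok) (L (nat_lit 464) ln12_13_0 ln12_13_0_ok)))))))) (B (M (nat_lit 427) (B (M (nat_lit 426) (B (M (nat_lit 394) (B (L (nat_lit 393) ln13_13_3 ln13_13_3_ok) (L (nat_lit 395) ln14_13_3 ln14_13_3_ok))) (M (nat_lit 458) (B (L (nat_lit 457) ln13_13_1 ln13_13_1_ok) (L (nat_lit 459) ln14_13_1 ln14_13_1_ok))))) (M (nat_lit 431) (B (M (nat_lit 399) (B (L (nat_lit 398) ln11_13_2 ln11_13_2_ok) (L (nat_lit 400) ln12_13_2 ln12_13_2_ok))) (M (nat_lit 463) (B (L (nat_lit 462) ln11_13_0 ln11_13_0_ok) (L (nat_lit 464) ln12_13_0 ln12_13_0_ok))))))) (B (M (nat_lit 427) (B (M (nat_lit 431) (B (M (nat_lit 459) (B (L (nat_lit 458) ln14_13_1 ln14_13_1_ok)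 (L (nat_lit 460) ln15_13_1 ln15_13_1_ok))) (M (nat_lit 463) (B (L (nat_lit 462) ln11_13_0 ln11_13_0_ok) (L (nat_lit 464) ln12_13_0 ln12_13_0_ok))))) (B (M (nat_lit 426) (B (M (nat_lit 394) (B (L (nat_lit 393) ln13_13_3 ln13_13_3_ok) (L (nat_lit 395) ln14_13_3 ln14_13_3_ok))) (M (nat_lit 458) (B (L (nat_lit 457) ln13_13_1 ln13_13_1_ok) (L (nat_lit 459) ln14_13_1 ln14_13_1_ok))))) (M (nat_lit 431) (B (M (nat_lit 395) (B (L (nat_lit 394) ln14_13_3 ln14_13_3_ok) (L (nat_lit 396) ln15_13_3 ln15_13_3_ok))) (M (nat_lit 463) (B (L (nat_lit 462) ln11_13_0 ln11_13_0_ok) (L (nat_lit 464) ln12_13_0 ln12_13_0_ok)))))))) (B (M (nat_lit 431) (B (M (nat_lit 396) (B (L (nat_lit 395) ln15_13_3 ln15_13_3_ok) (M (nat_lit 432) (B (L (nat_lit 397) ln16_13_3 ln16_13_3_ok) (M (nat_lit 400) (B (L (nat_lit 399) ln12_13_2 ln12_13_2_ok) (L (nat_lit 401) ln13_13_2 ln13_13_2_ok))))))) (B (M (nat_lit 432) (B (M (nat_lit 400) (B (L (nat_lit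 399) ln12_13_2 ln12_13_2_ok) (L (nat_lit 401) ln13_13_2 ln13_13_2_ok))) (M (nat_lit 464) (B (L (nat_lit 463) ln12_13_0 ln12_13_0_ok) (L (nat_lit 465) ln13_13_0 ln13_13_0_ok))))) (B (M (nat_lit 432) (B (M (nat_lit 396) (B (L (nat_lit 395) ln15_13_3 ln15_13_3_ok) (L (nat_lit 397) ln16_13_3 ln16_13_3_ok))) (M (nat_lit 464) (B (L (nat_lit 463) ln12_13_0 ln12_13_0_ok) (L (nat_lit 465) ln13_13_0 ln13_13_0_ok))))) (M (nat_lit 460) (B (L (nat_lit 459) ln15_13_1 ln15_13_1_ok) (M (nat_lit 462) (B (M (nat_lit 463) (B (L (nat_lit 464) ln12_13_0 ln12_13_0_ok) (M (nat_lit 399) (B (L (nat_lit 400) ln12_13_2 ln12_13_2_ok) (M (nat_lit 367) (B (L (nat_lit 335) ln15_10_5 ln15_10_5_ok) (L (nat_lit 494) ln15_11_5 ln15_11_5_ok))))))) (B (M (nat_lit 463) (B (L (nat_lit 464) ln12_13_0 ln12_13_0_ok) (M (nat_lit 399) (B (L (nat_lit 400) ln12_13_2 ln12_13_2_ok) (M (nat_lit 494) (B (L (nat_lit 367) ln15_11_5 ln15_11_5_ok) (L (nat_lit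 526) ln14_16_6 ln14_16_6_ok))))))) (B (M (nat_lit 492) (B (M (nat_lit 396) (B (L (nat_lit 395) ln15_13_3 ln15_13_3_ok) (M (nat_lit 397) (B (L (nat_lit 365) ln12_15_6 ln12_15_6_ok) (L (nat_lit 524) ln12_16_6 ln12_16_6_ok))))) (B (M (nat_lit 491) (B (M (nat_lit 396) (B (L (nat_lit 395) ln15_13_3 ln15_13_3_ok) (L (nat_lit 523) ln12_12_5 ln12_12_5_ok))) (M (nat_lit 463) (B (L (nat_lit 464) ln12_13_0 ln12_13_0_ok) (L (nat_lit 461) ln15_14_1 ln15_14_1_ok))))) (M (nat_lit 397) (B (L (nat_lit 524) ln12_16_6 ln12_16_6_ok) (M (nat_lit 365) (B (L (nat_lit 333) ln13_10_5 ln13_10_5_ok) (L (nat_lit 461) ln13_11_5 ln13_11_5_ok)))))))) (M (nat_lit 399) (B (L (nat_lit 400) ln12_13_2 ln12_13_2_ok) (M (nat_lit 494) (B (L (nat_lit 526) ln14_16_6 ln14_16_6_ok) (M (nat_lit 367) (B (L (nat_lit 335) ln15_10_5 ln15_10_5_ok) (L (nat_lit 398) ln14_15_6 ln14_15_6_ok))))))))))))))))) (B (M (nat_lit 427) (B (M (nat_lit 426) (B (M (nat_lit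 394) (B (L (nat_lit 393) ln13_13_3 ln13_13_3_ok) (L (nat_lit 395) ln14_13_3 ln14_13_3_ok))) (M (nat_lit 458) (B (L (nat_lit 457) ln13_13_1 ln13_13_1_ok) (L (nat_lit 459) ln14_13_1 ln14_13_1_ok))))) (B (M (nat_lit 426) (B (M (nat_lit 398) (B (L (nat_lit 397) ln10_13_2 ln10_13_2_ok) (L (nat_lit 399) ln11_13_2 ln11_13_2_ok))) (M (nat_lit 458) (B (L (nat_lit 457) ln13_13_1 ln13_13_1_ok) (L (nat_lit 459) ln14_13_1 ln14_13_1_ok))))) (M (nat_lit 398) (B (L (nat_lit 399) ln11_13_2 ln11_13_2_ok) (M (nat_lit 462) (B (L (nat_lit 463) ln11_13_0 ln11_13_0_ok) (M (nat_lit 494) (B (M (nat_lit 397) (B (L (nat_lit 365) ln14_15_7 ln14_15_7_ok) (L (nat_lit 526) ln14_16_7 ln14_16_7_ok))) (B (M (nat_lit 525) (B (L (nat_lit 493) ln14_12_5 ln14_12_5_ok) (M (nat_lit 526) (B (L (nat_lit 397) ln14_16_7 ln14_16_7_ok) (L (nat_lit 557) ln14_13_5 ln14_13_5_ok))))) (B (M (nat_lit 526) (B (M (nat_lit 525) (B (L (nat_lit 493) ln14_12_5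 ln14_12_5_ok) (L (nat_lit 557) ln14_13_5 ln14_13_5_ok))) (M (nat_lit 527) (B (L (nat_lit 495) ln14_12_4 ln14_12_4_ok) (L (nat_lit 559) ln14_13_4 ln14_13_4_ok))))) (M (nat_lit 366) (B (M (nat_lit 365) (B (L (nat_lit 333) ln14_14_7 ln14_14_7_ok) (L (nat_lit 397) ln14_15_7 ln14_15_7_ok))) (M (nat_lit 493) (B (L (nat_lit 461) ln14_11_5 ln14_11_5_ok) (L (nat_lit 525) ln14_12_5 ln14_12_5_ok)))))))))))))))) (M (nat_lit 427) (B (M (nat_lit 431) (B (M (nat_lit 399) (B (L (nat_lit 398) ln11_13_2 ln11_13_2_ok) (L (nat_lit 400) ln12_13_2 ln12_13_2_ok))) (M (nat_lit 463) (B (L (nat_lit 462) ln11_13_0 ln11_13_0_ok) (L (nat_lit 464) ln12_13_0 ln12_13_0_ok))))) (B (M (nat_lit 431) (B (M (nat_lit 395) (B (L (nat_lit 394) ln14_13_3 ln14_13_3_ok) (L (nat_lit 396) ln15_13_3 ln15_13_3_ok))) (M (nat_lit 463) (B (L (nat_lit 462) ln11_13_0 ln11_13_0_ok) (L (nat_lit 464) ln12_13_0 ln12_13_0_ok))))) (B (M (nat_lit 426) (B (M (nat_lit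 394) (B (L (nat_lit 393) ln13_13_3 ln13_13_3_ok) (L (nat_lit 395) ln14_13_3 ln14_13_3_ok))) (M (nat_lit 462) (B (L (nat_lit 461) ln10_13_0 ln10_13_0_ok) (L (nat_lit 463) ln11_13_0 ln11_13_0_ok))))) (M (nat_lit 431) (B (M (nat_lit 395) (B (L (nat_lit 394) ln14_13_3 ln14_13_3_ok) (L (nat_lit 396) ln15_13_3 ln15_13_3_ok))) (M (nat_lit 399) (B (L (nat_lit 398) ln11_13_2 ln11_13_2_ok) (L (nat_lit 400) ln12_13_2 ln12_13_2_ok))))))))))))))))) (nat_lit 2079502270590611144683810638107312777577327806531862431377859685460965980854219217279980804578104683573043408221052678871730618368) (nat_lit 2358726516364698255205360789928049739829960152051796656366541215504378387949159672672371014007517518547186447536451853439439143074576516572269487175225530669643379769344) (nat_lit 2358726516364698255205360789928049739829960152051796656366541215504378387949159672672371014007517518547186447536451853439439143074576516572269487175225530669643379769344)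 (by decide +kernel)
theorem c32_s666 : Sem (nat_lit 4852171964711426004262224822250396481013764881907679006548339266075587288659844840319955210682244261670434619182456250700704776192) (nat_lit 707617954846253338073701943362287973181832556960530439762297741429085135958506474599944677207551489092855079300469315295960809626837280484084744460149198520305521262592) (nat_lit 707617954846253338073701943362287973181832556960530439762297741429085135958506474599944677207551489092855079300469315295960809626837280484084744460149198520305521262592) :=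
  sem_of_chk (M (nat_lit 396) (B (M (nat_lit 395) (B (L (nat_lit 431) ln15_13_3 ln15_13_3_ok) (M (nat_lit 394) (B (L (nat_lit 393) ln9_12_0 ln9_12_0_ok) (L (nat_lit 397) ln10_12_0 ln10_12_0_ok))))) (B (M (nat_lit 431) (B (L (nat_lit 395) ln15_13_3 ln15_13_3_ok) (M (nat_lit 432) (B (L (nat_lit 397) ln16_13_3 ln16_13_3_ok) (M (nat_lit 400) (B (L (nat_lit 399) ln12_13_2 ln12_13_2_ok) (L (nat_lit 401) ln13_13_2 ln13_13_2_ok))))))) (B (M (nat_lit 460) (B (M (nat_lit 431) (B (L (nat_lit 459) ln15_13_1 ln15_13_1_ok) (M (nat_lit 432) (B (L (nat_lit 397) ln16_13_3 ln16_13_3_ok) (L (nat_lit 461) ln16_13_1 ln16_13_1_ok))))) (B (M (nat_lit 459) (B (L (nat_lit 431) ln15_13_1 ln15_13_1_ok) (M (nat_lit 458) (B (L (nat_lit 457) ln9_14_2 ln9_14_2_ok) (L (nat_lit 461) ln10_14_2 ln10_14_2_ok))))) (B (M (nat_lit 492) (B (M (nat_lit 525) (B (L (nat_lit 493) ln12_12_4 ln12_12_4_ok) (M (nat_lit 524) (B (L (nat_lit 397) ln12_16_6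 ln12_16_6_ok) (L (nat_lit 557) ln12_13_4 ln12_13_4_ok))))) (M (nat_lit 459) (B (M (nat_lit 491) (B (L (nat_lit 364) ln12_11_5 ln12_11_5_ok) (L (nat_lit 523) ln12_12_5 ln12_12_5_ok))) (M (nat_lit 458) (B (L (nat_lit 457) ln9_14_2 ln9_14_2_ok) (L (nat_lit 461) ln10_14_2 ln10_14_2_ok))))))) (B (M (nat_lit 461) (B (M (nat_lit 364) (B (L (nat_lit 332) ln12_10_4 ln12_10_4_ok) (L (nat_lit 493) ln12_11_4 ln12_11_4_ok))) (M (nat_lit 492) (B (M (nat_lit 524) (B (L (nat_lit 397) ln12_16_6 ln12_16_6_ok) (L (nat_lit 556) ln12_17_6 ln12_17_6_ok))) (M (nat_lit 463) (B (M (nat_lit 431) (B (L (nat_lit 464) ln12_13_0 ln12_13_0_ok) (L (nat_lit 432) ln16_13_1 ln16_13_1_ok))) (B (M (nat_lit 462) (B (L (nat_lit 464) ln16_14_3 ln16_14_3_ok) (L (nat_lit 491) ln15_14_1 ln15_14_1_ok))) (M (nat_lit 491) (B (L (nat_lit 523) ln12_12_5 ln12_12_5_ok) (L (nat_lit 462) ln15_14_1 ln15_14_1_ok)))))))))) (M (nat_lit 431) (B (L (nat_lit 459)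 ln15_13_1 ln15_13_1_ok) (M (nat_lit 432) (B (L (nat_lit 397) ln16_13_3 ln16_13_3_ok) (M (nat_lit 464) (B (L (nat_lit 463) ln12_13_0 ln12_13_0_ok) (L (nat_lit 465) ln13_13_0 ln13_13_0_ok)))))))))))) (B (M (nat_lit 431) (B (L (nat_lit 395) ln15_13_3 ln15_13_3_ok) (M (nat_lit 432) (B (M (nat_lit 400) (B (L (nat_lit 399) ln12_13_2 ln12_13_2_ok) (L (nat_lit 401) ln13_13_2 ln13_13_2_ok))) (M (nat_lit 460) (B (L (nat_lit 459) ln15_13_1 ln15_13_1_ok) (L (nat_lit 461) ln16_13_1 ln16_13_1_ok))))))) (M (nat_lit 364) (B (M (nat_lit 461) (B (L (nat_lit 332) ln12_10_4 ln12_10_4_ok) (M (nat_lit 493) (B (L (nat_lit 397) ln13_15_7 ln13_15_7_ok) (L (nat_lit 460) ln12_11_4 ln12_11_4_ok))))) (B (M (nat_lit 460) (B (M (nat_lit 461) (B (L (nat_lit 493) ln12_11_4 ln12_11_4_ok) (M (nat_lit 459) (B (L (nat_lit 491) ln12_11_5 ln12_11_5_ok) (L (nat_lit 458) ln10_14_2 ln10_14_2_ok))))) (B (M (nat_lit 492) (B (M (nat_lit 363) (B (L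 (nat_lit 331) ln12_14_7 ln12_14_7_ok) (L (nat_lit 395) ln12_15_7 ln12_15_7_ok))) (M (nat_lit 493) (B (L (nat_lit 461) ln12_11_4 ln12_11_4_ok) (L (nat_lit 525) ln12_12_4 ln12_12_4_ok))))) (M (nat_lit 492) (B (M (nat_lit 363) (B (L (nat_lit 331) ln12_14_7 ln12_14_7_ok) (L (nat_lit 395) ln12_15_7 ln12_15_7_ok))) (M (nat_lit 491) (B (L (nat_lit 459) ln12_11_5 ln12_11_5_ok) (L (nat_lit 523) ln12_12_5 ln12_12_5_ok)))))))) (B (M (nat_lit 461) (B (L (nat_lit 332) ln12_10_4 ln12_10_4_ok) (M (nat_lit 493) (B (L (nat_lit 397) ln13_15_7 ln13_15_7_ok) (L (nat_lit 525) ln13_16_7 ln13_16_7_ok))))) (B (M (nat_lit 460) (B (M (nat_lit 492) (B (M (nat_lit 363) (B (L (nat_lit 331) ln12_14_7 ln12_14_7_ok) (L (nat_lit 395) ln12_15_7 ln12_15_7_ok))) (M (nat_lit 491) (B (L (nat_lit 459) ln12_11_5 ln12_11_5_ok) (L (nat_lit 523) ln12_12_5 ln12_12_5_ok))))) (B (M (nat_lit 491) (B (L (nat_lit 459) ln12_11_5 ln12_11_5_ok) (M (nat_lit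 395) (B (M (nat_lit 492) (B (L (nat_lit 363) ln12_15_7 ln12_15_7_ok) (L (nat_lit 523) ln12_12_5 ln12_12_5_ok))) (M (nat_lit 394) (B (L (nat_lit 393) ln9_12_0 ln9_12_0_ok) (L (nat_lit 397) ln10_12_0 ln10_12_0_ok))))))) (B (M (nat_lit 492) (B (M (nat_lit 491) (B (L (nat_lit 459) ln12_11_5 ln12_11_5_ok) (L (nat_lit 523) ln12_12_5 ln12_12_5_ok))) (M (nat_lit 525) (B (L (nat_lit 493) ln12_12_4 ln12_12_4_ok) (M (nat_lit 524) (B (L (nat_lit 397) ln12_16_6 ln12_16_6_ok) (L (nat_lit 557) ln12_13_4 ln12_13_4_ok))))))) (B (M (nat_lit 395) (B (M (nat_lit 363) (B (L (nat_lit 331) ln12_14_7 ln12_14_7_ok) (L (nat_lit 492) ln12_15_7 ln12_15_7_ok))) (M (nat_lit 394) (B (L (nat_lit 393) ln9_12_0 ln9_12_0_ok) (L (nat_lit 397) ln10_12_0 ln10_12_0_ok))))) (M (nat_lit 332) (B (M (nat_lit 331) (B (L (nat_lit 299) ln12_13_7 ln12_13_7_ok) (L (nat_lit 363) ln12_14_7 ln12_14_7_ok))) (M (nat_lit 300) (B (L (nat_lit 397) ln12_9_4 ln12_9_4_ok)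 (M (nat_lit 301) (B (L (nat_lit 269) ln12_12_6 ln12_12_6_ok) (L (nat_lit 333) ln12_13_6 ln12_13_6_ok)))))))))))) (M (nat_lit 332) (B (L (nat_lit 461) ln12_10_4 ln12_10_4_ok) (M (nat_lit 300) (B (L (nat_lit 397) ln12_9_4 ln12_9_4_ok) (M (nat_lit 301) (B (L (nat_lit 269) ln12_12_6 ln12_12_6_ok) (L (nat_lit 333) ln12_13_6 ln12_13_6_ok))))))))))))))))) (nat_lit 4852171964711426004262224822250396481013764881907679006548339266075587288659844840319955210682244261670434619182456250700704776192) (nat_lit 707617954846253338073701943362287973181832556960530439762297741429085135958506474599944677207551489092855079300469315295960809626837280484084744460149198520305521262592) (nat_lit 707617954846253338073701943362287973181832556960530439762297741429085135958506474599944677207551489092855079300469315295960809626837280484084744460149198520305521262592) (by decide +kernel)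
theorem c32_s689 : Sem (nat_lit 2079502270590611144683810638107312777577327806531862431377859685460965980854219217279980804578104683573043408221052678871730618368) (nat_lit 707617954846253338073701943362287973185125102222944469878019755596166591663882361442489318654931516347969956490482331692307610654673040136502031233029445278324853047296) (nat_lit 707617954846253338073701943362287973185125102222944469878019755596166591663882361442489318654931516347969956490482331692307610654673040136502031233029445278324853047296) :=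
  sem_of_chk (M (nat_lit 430) (B (M (nat_lit 427) (B (M (nat_lit 398) (B (L (nat_lit 399) ln11_13_2 ln11_13_2_ok) (M (nat_lit 394) (B (L (nat_lit 395) ln14_13_3 ln14_13_3_ok) (M (nat_lit 426) (B (L (nat_lit 393) ln13_13_3 ln13_13_3_ok) (L (nat_lit 397) ln10_13_2 ln10_13_2_ok))))))) (B (M (nat_lit 431) (B (M (nat_lit 395) (B (L (nat_lit 394) ln14_13_3 ln14_13_3_ok) (L (nat_lit 396) ln15_13_3 ln15_13_3_ok))) (M (nat_lit 459) (B (L (nat_lit 458) ln14_13_1 ln14_13_1_ok) (L (nat_lit 460) ln15_13_1 ln15_13_1_ok))))) (M (nat_lit 426) (B (M (nat_lit 398) (B (L (nat_lit 397) ln10_13_2 ln10_13_2_ok) (L (nat_lit 399) ln11_13_2 ln11_13_2_ok))) (M (nat_lit 458) (B (L (nat_lit 457) ln13_13_1 ln13_13_1_ok) (L (nat_lit 459) ln14_13_1 ln14_13_1_ok)))))))) (B (M (nat_lit 431) (B (M (nat_lit 427) (B (M (nat_lit 399) (B (L (nat_lit 398) ln11_13_2 ln11_13_2_ok) (L (nat_lit 400) ln12_13_2 ln12_13_2_ok))) (M (nat_lit 459) (B (L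 (nat_lit 458) ln14_13_1 ln14_13_1_ok) (L (nat_lit 460) ln15_13_1 ln15_13_1_ok))))) (B (M (nat_lit 427) (B (M (nat_lit 395) (B (L (nat_lit 394) ln14_13_3 ln14_13_3_ok) (L (nat_lit 396) ln15_13_3 ln15_13_3_ok))) (M (nat_lit 459) (B (L (nat_lit 458) ln14_13_1 ln14_13_1_ok) (L (nat_lit 460) ln15_13_1 ln15_13_1_ok))))) (M (nat_lit 432) (B (M (nat_lit 396) (B (L (nat_lit 395) ln15_13_3 ln15_13_3_ok) (L (nat_lit 397) ln16_13_3 ln16_13_3_ok))) (M (nat_lit 464) (B (L (nat_lit 463) ln12_13_0 ln12_13_0_ok) (L (nat_lit 465) ln13_13_0 ln13_13_0_ok)))))))) (B (M (nat_lit 427) (B (M (nat_lit 431) (B (M (nat_lit 459) (B (L (nat_lit 458) ln14_13_1 ln14_13_1_ok) (L (nat_lit 460) ln15_13_1 ln15_13_1_ok))) (M (nat_lit 463) (B (L (nat_lit 462) ln11_13_0 ln11_13_0_ok) (L (nat_lit 464) ln12_13_0 ln12_13_0_ok))))) (B (M (nat_lit 426) (B (M (nat_lit 398) (B (L (nat_lit 397) ln10_13_2 ln10_13_2_ok) (L (nat_lit 399) ln11_13_2 ln11_13_2_ok)))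 (M (nat_lit 458) (B (L (nat_lit 457) ln13_13_1 ln13_13_1_ok) (L (nat_lit 459) ln14_13_1 ln14_13_1_ok))))) (M (nat_lit 431) (B (M (nat_lit 399) (B (L (nat_lit 398) ln11_13_2 ln11_13_2_ok) (L (nat_lit 400) ln12_13_2 ln12_13_2_ok))) (M (nat_lit 463) (B (L (nat_lit 462) ln11_13_0 ln11_13_0_ok) (L (nat_lit 464) ln12_13_0 ln12_13_0_ok)))))))) (B (M (nat_lit 427) (B (M (nat_lit 426) (B (M (nat_lit 394) (B (L (nat_lit 393) ln13_13_3 ln13_13_3_ok) (L (nat_lit 395) ln14_13_3 ln14_13_3_ok))) (M (nat_lit 458) (B (L (nat_lit 457) ln13_13_1 ln13_13_1_ok) (L (nat_lit 459) ln14_13_1 ln14_13_1_ok))))) (M (nat_lit 431) (B (M (nat_lit 399) (B (L (nat_lit 398) ln11_13_2 ln11_13_2_ok) (L (nat_lit 400) ln12_13_2 ln12_13_2_ok))) (M (nat_lit 463) (B (L (nat_lit 462) ln11_13_0 ln11_13_0_ok) (L (nat_lit 464) ln12_13_0 ln12_13_0_ok))))))) (B (M (nat_lit 427) (B (M (nat_lit 431) (B (M (nat_lit 459) (B (L (nat_lit 458) ln14_13_1 ln14_13_1_ok)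 (L (nat_lit 460) ln15_13_1 ln15_13_1_ok))) (M (nat_lit 463) (B (L (nat_lit 462) ln11_13_0 ln11_13_0_ok) (L (nat_lit 464) ln12_13_0 ln12_13_0_ok))))) (B (M (nat_lit 426) (B (M (nat_lit 394) (B (L (nat_lit 393) ln13_13_3 ln13_13_3_ok) (L (nat_lit 395) ln14_13_3 ln14_13_3_ok))) (M (nat_lit 458) (B (L (nat_lit 457) ln13_13_1 ln13_13_1_ok) (L (nat_lit 459) ln14_13_1 ln14_13_1_ok))))) (M (nat_lit 431) (B (M (nat_lit 395) (B (L (nat_lit 394) ln14_13_3 ln14_13_3_ok) (L (nat_lit 396) ln15_13_3 ln15_13_3_ok))) (M (nat_lit 463) (B (L (nat_lit 462) ln11_13_0 ln11_13_0_ok) (L (nat_lit 464) ln12_13_0 ln12_13_0_ok)))))))) (B (K (nat_lit 4852171964711426004262224822250396481013764881907679006548339266075587288659844840319955210682244261670434619182456250700704776192) (nat_lit 707617954846253338073701943362287973181832556960530439762297741429085135958506474599944677207551489092855079300469315295960809626837280484084744460149198520305521262592)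 (nat_lit 707617954846253338073701943362287973181832556960530439762297741429085135958506474599944677207551489092855079300469315295960809626837280484084744460149198520305521262592) c32_s666) (B (M (nat_lit 427) (B (M (nat_lit 398) (B (L (nat_lit 399) ln11_13_2 ln11_13_2_ok) (M (nat_lit 394) (B (L (nat_lit 395) ln14_13_3 ln14_13_3_ok) (M (nat_lit 426) (B (L (nat_lit 393) ln13_13_3 ln13_13_3_ok) (L (nat_lit 397) ln10_13_2 ln10_13_2_ok))))))) (B (M (nat_lit 426) (B (M (nat_lit 398) (B (L (nat_lit 397) ln10_13_2 ln10_13_2_ok) (L (nat_lit 399) ln11_13_2 ln11_13_2_ok))) (M (nat_lit 458) (B (L (nat_lit 457) ln13_13_1 ln13_13_1_ok) (L (nat_lit 459) ln14_13_1 ln14_13_1_ok))))) (B (M (nat_lit 426) (B (M (nat_lit 394) (B (L (nat_lit 393) ln13_13_3 ln13_13_3_ok) (L (nat_lit 395) ln14_13_3 ln14_13_3_ok))) (M (nat_lit 458) (B (L (nat_lit 457) ln13_13_1 ln13_13_1_ok) (L (nat_lit 459) ln14_13_1 ln14_13_1_ok))))) (M (nat_lit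 398) (B (L (nat_lit 399) ln11_13_2 ln11_13_2_ok) (M (nat_lit 396) (B (M (nat_lit 459) (B (L (nat_lit 458) ln14_13_1 ln14_13_1_ok) (M (nat_lit 364) (B (L (nat_lit 332) ln12_10_5 ln12_10_5_ok) (M (nat_lit 491) (B (L (nat_lit 460) ln12_11_5 ln12_11_5_ok) (L (nat_lit 523) ln11_16_6 ln11_16_6_ok))))))) (B (M (nat_lit 395) (B (L (nat_lit 394) ln14_13_3 ln14_13_3_ok) (M (nat_lit 459) (B (L (nat_lit 458) ln14_13_1 ln14_13_1_ok) (M (nat_lit 491) (B (L (nat_lit 364) ln11_15_6 ln11_15_6_ok) (L (nat_lit 523) ln11_16_6 ln11_16_6_ok))))))) (M (nat_lit 366) (B (M (nat_lit 461) (B (L (nat_lit 334) ln14_10_5 ln14_10_5_ok) (M (nat_lit 462) (B (L (nat_lit 493) ln14_11_5 ln14_11_5_ok) (L (nat_lit 463) ln11_13_0 ln11_13_0_ok))))) (B (M (nat_lit 367) (B (M (nat_lit 462) (B (L (nat_lit 335) ln14_14_6 ln14_14_6_ok) (L (nat_lit 463) ln11_13_0 ln11_13_0_ok))) (M (nat_lit 395) (B (L (nat_lit 397) ln11_12_2 ln11_12_2_ok) (L (nat_lit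 394) ln14_13_3 ln14_13_3_ok))))) (M (nat_lit 461) (B (L (nat_lit 334) ln14_10_5 ln14_10_5_ok) (M (nat_lit 493) (B (L (nat_lit 397) ln13_15_6 ln13_15_6_ok) (L (nat_lit 525) ln13_16_7 ln13_16_7_ok))))))))))))))))) (M (nat_lit 427) (B (M (nat_lit 431) (B (M (nat_lit 399) (B (L (nat_lit 398) ln11_13_2 ln11_13_2_ok) (L (nat_lit 400) ln12_13_2 ln12_13_2_ok))) (M (nat_lit 463) (B (L (nat_lit 462) ln11_13_0 ln11_13_0_ok) (L (nat_lit 464) ln12_13_0 ln12_13_0_ok))))) (B (M (nat_lit 431) (B (M (nat_lit 395) (B (L (nat_lit 394) ln14_13_3 ln14_13_3_ok) (L (nat_lit 396) ln15_13_3 ln15_13_3_ok))) (M (nat_lit 463) (B (L (nat_lit 462) ln11_13_0 ln11_13_0_ok) (L (nat_lit 464) ln12_13_0 ln12_13_0_ok))))) (M (nat_lit 398) (B (L (nat_lit 399) ln11_13_2 ln11_13_2_ok) (M (nat_lit 394) (B (L (nat_lit 395) ln14_13_3 ln14_13_3_ok) (M (nat_lit 426) (B (L (nat_lit 393) ln13_13_3 ln13_13_3_ok) (L (nat_lit 397) ln10_13_2 ln10_13_2_ok))))))))))))))))))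 (nat_lit 2079502270590611144683810638107312777577327806531862431377859685460965980854219217279980804578104683573043408221052678871730618368) (nat_lit 707617954846253338073701943362287973185125102222944469878019755596166591663882361442489318654931516347969956490482331692307610654673040136502031233029445278324853047296) (nat_lit 707617954846253338073701943362287973185125102222944469878019755596166591663882361442489318654931516347969956490482331692307610654673040136502031233029445278324853047296) (by decide +kernel)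
noncomputable def c32_n709 : Cert := (M (nat_lit 460) (B (M (nat_lit 364) (B (M (nat_lit 461) (B (L (nat_lit 332) ln12_10_4 ln12_10_4_ok) (L (nat_lit 493) ln12_11_4 ln12_11_4_ok))) (M (nat_lit 492) (B (M (nat_lit 365) (B (L (nat_lit 333) ln12_14_6 ln12_14_6_ok) (L (nat_lit 397) ln12_15_6 ln12_15_6_ok))) (M (nat_lit 491) (B (L (nat_lit 459) ln12_11_5 ln12_11_5_ok) (L (nat_lit 523) ln12_12_5 ln12_12_5_ok))))))) (B (M (nat_lit 364) (B (M (nat_lit 461) (B (L (nat_lit 493) ln12_11_4 ln12_11_4_ok) (M (nat_lit 459) (B (L (nat_lit 491) ln12_11_5 ln12_11_5_ok) (L (nat_lit 458) ln10_14_2 ln10_14_2_ok))))) (B (M (nat_lit 492) (B (M (nat_lit 363) (B (L (nat_lit 331) ln12_14_7 ln12_14_7_ok) (L (nat_lit 395) ln12_15_7 ln12_15_7_ok))) (M (nat_lit 493) (B (L (nat_lit 461) ln12_11_4 ln12_11_4_ok) (L (nat_lit 525) ln12_12_4 ln12_12_4_ok))))) (M (nat_lit 492) (B (M (nat_lit 363) (B (L (nat_lit 331) ln12_14_7 ln12_14_7_ok)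 (L (nat_lit 395) ln12_15_7 ln12_15_7_ok))) (M (nat_lit 491) (B (L (nat_lit 459) ln12_11_5 ln12_11_5_ok) (L (nat_lit 523) ln12_12_5 ln12_12_5_ok)))))))) (B (M (nat_lit 492) (B (M (nat_lit 397) (B (L (nat_lit 365) ln12_15_6 ln12_15_6_ok) (L (nat_lit 524) ln12_16_6 ln12_16_6_ok))) (B (M (nat_lit 525) (B (L (nat_lit 493) ln12_12_4 ln12_12_4_ok) (M (nat_lit 524) (B (L (nat_lit 397) ln12_16_6 ln12_16_6_ok) (L (nat_lit 557) ln12_13_4 ln12_13_4_ok))))) (B (M (nat_lit 524) (B (M (nat_lit 523) (B (L (nat_lit 491) ln12_12_5 ln12_12_5_ok) (L (nat_lit 555) ln12_13_5 ln12_13_5_ok))) (M (nat_lit 525) (B (L (nat_lit 493) ln12_12_4 ln12_12_4_ok) (L (nat_lit 557) ln12_13_4 ln12_13_4_ok))))) (M (nat_lit 397) (B (L (nat_lit 365) ln12_15_6 ln12_15_6_ok) (M (nat_lit 395) (B (L (nat_lit 363) ln12_15_7 ln12_15_7_ok) (L (nat_lit 394) ln10_12_0 ln10_12_0_ok))))))))) (B (M (nat_lit 364) (B (M (nat_lit 461) (B (L (nat_lit 332) ln12_10_4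 ln12_10_4_ok) (L (nat_lit 493) ln12_11_4 ln12_11_4_ok))) (M (nat_lit 492) (B (M (nat_lit 363) (B (L (nat_lit 331) ln12_14_7 ln12_14_7_ok) (L (nat_lit 395) ln12_15_7 ln12_15_7_ok))) (M (nat_lit 365) (B (L (nat_lit 333) ln12_14_6 ln12_14_6_ok) (L (nat_lit 397) ln12_15_6 ln12_15_6_ok))))))) (B (M (nat_lit 364) (B (M (nat_lit 461) (B (L (nat_lit 332) ln12_10_4 ln12_10_4_ok) (L (nat_lit 493) ln12_11_4 ln12_11_4_ok))) (B (M (nat_lit 461) (B (L (nat_lit 493) ln12_11_4 ln12_11_4_ok) (M (nat_lit 459) (B (L (nat_lit 491) ln12_11_5 ln12_11_5_ok) (L (nat_lit 458) ln10_14_2 ln10_14_2_ok))))) (M (nat_lit 332) (B (M (nat_lit 331) (B (L (nat_lit 299) ln12_13_7 ln12_13_7_ok) (L (nat_lit 363) ln12_14_7 ln12_14_7_ok))) (M (nat_lit 333) (B (L (nat_lit 301) ln12_13_6 ln12_13_6_ok) (L (nat_lit 365) ln12_14_6 ln12_14_6_ok)))))))) (M (nat_lit 364) (B (M (nat_lit 461) (B (L (nat_lit 332) ln12_10_4 ln12_10_4_ok) (M (nat_lit 459)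 (B (L (nat_lit 491) ln12_11_5 ln12_11_5_ok) (L (nat_lit 458) ln10_14_2 ln10_14_2_ok))))) (B (M (nat_lit 459) (B (L (nat_lit 491) ln12_11_5 ln12_11_5_ok) (M (nat_lit 458) (B (L (nat_lit 457) ln9_14_2 ln9_14_2_ok) (L (nat_lit 461) ln10_14_2 ln10_14_2_ok))))) (B (M (nat_lit 333) (B (L (nat_lit 365) ln12_14_6 ln12_14_6_ok) (M (nat_lit 332) (B (L (nat_lit 301) ln12_13_6 ln12_13_6_ok) (L (nat_lit 461) ln12_10_4 ln12_10_4_ok))))) (M (nat_lit 332) (B (M (nat_lit 331) (B (L (nat_lit 299) ln12_13_7 ln12_13_7_ok) (L (nat_lit 363) ln12_14_7 ln12_14_7_ok))) (M (nat_lit 333) (B (L (nat_lit 301) ln12_13_6 ln12_13_6_ok) (L (nat_lit 365) ln12_14_6 ln12_14_6_ok)))))))))))))))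
theorem c32_s710 : Sem (nat_lit 4852171964711426004262224822250396481013764881907679006548339266075587288659844840319955210682244261670434619182456250700704776192) (nat_lit 589681629070580170816153362527776685457790419401114857349060453546307242744526962820594161425110462462039265908305623190782675749777783806602096500966819510125967966208) (nat_lit 589681629070580170816153362527776685457790419401114857349060453546307242744526962820594161425110462462039265908305623190782675749777783806602096500966819510125967966208) :=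
  sem_of_chk (M (nat_lit 396) (B (M (nat_lit 395) (B (L (nat_lit 431) ln15_13_3 ln15_13_3_ok) (M (nat_lit 394) (B (L (nat_lit 393) ln9_12_0 ln9_12_0_ok) (L (nat_lit 397) ln10_12_0 ln10_12_0_ok))))) (B (M (nat_lit 431) (B (L (nat_lit 395) ln15_13_3 ln15_13_3_ok) (M (nat_lit 432) (B (L (nat_lit 397) ln16_13_3 ln16_13_3_ok) (M (nat_lit 400) (B (L (nat_lit 399) ln12_13_2 ln12_13_2_ok) (L (nat_lit 401) ln13_13_2 ln13_13_2_ok))))))) (B (M (nat_lit 460) (B (M (nat_lit 431) (B (L (nat_lit 459) ln15_13_1 ln15_13_1_ok) (M (nat_lit 432) (B (L (nat_lit 397) ln16_13_3 ln16_13_3_ok) (L (nat_lit 461) ln16_13_1 ln16_13_1_ok))))) (B (M (nat_lit 461) (B (M (nat_lit 364) (B (L (nat_lit 332) ln12_10_4 ln12_10_4_ok) (L (nat_lit 493) ln12_11_4 ln12_11_4_ok))) (M (nat_lit 431) (B (L (nat_lit 459) ln15_13_1 ln15_13_1_ok) (L (nat_lit 432) ln16_13_1 ln16_13_1_ok))))) (B (M (nat_lit 364) (B (M (nat_lit 461) (B (L (nat_lit 332) ln12_10_4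 ln12_10_4_ok) (L (nat_lit 493) ln12_11_4 ln12_11_4_ok))) (M (nat_lit 492) (B (M (nat_lit 365) (B (L (nat_lit 333) ln12_14_6 ln12_14_6_ok) (L (nat_lit 397) ln12_15_6 ln12_15_6_ok))) (M (nat_lit 491) (B (L (nat_lit 459) ln12_11_5 ln12_11_5_ok) (L (nat_lit 523) ln12_12_5 ln12_12_5_ok))))))) (B (M (nat_lit 364) (B (M (nat_lit 461) (B (L (nat_lit 332) ln12_10_4 ln12_10_4_ok) (L (nat_lit 493) ln12_11_4 ln12_11_4_ok))) (B (M (nat_lit 492) (B (M (nat_lit 365) (B (L (nat_lit 333) ln12_14_6 ln12_14_6_ok) (L (nat_lit 397) ln12_15_6 ln12_15_6_ok))) (M (nat_lit 493) (B (L (nat_lit 461) ln12_11_4 ln12_11_4_ok) (L (nat_lit 525) ln12_12_4 ln12_12_4_ok))))) (M (nat_lit 332) (B (M (nat_lit 331) (B (L (nat_lit 299) ln12_13_7 ln12_13_7_ok) (L (nat_lit 363) ln12_14_7 ln12_14_7_ok))) (M (nat_lit 333) (B (L (nat_lit 301) ln12_13_6 ln12_13_6_ok) (L (nat_lit 365) ln12_14_6 ln12_14_6_ok)))))))) (M (nat_lit 397) (B (M (nat_lit 365)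 (B (L (nat_lit 333) ln13_10_5 ln13_10_5_ok) (L (nat_lit 492) ln12_15_6 ln12_15_6_ok))) (M (nat_lit 431) (B (L (nat_lit 432) ln16_13_3 ln16_13_3_ok) (L (nat_lit 459) ln15_13_1 ln15_13_1_ok)))))))))) (B (M (nat_lit 431) (B (L (nat_lit 395) ln15_13_3 ln15_13_3_ok) (M (nat_lit 432) (B (M (nat_lit 400) (B (L (nat_lit 399) ln12_13_2 ln12_13_2_ok) (L (nat_lit 401) ln13_13_2 ln13_13_2_ok))) (M (nat_lit 460) (B (L (nat_lit 459) ln15_13_1 ln15_13_1_ok) (L (nat_lit 461) ln16_13_1 ln16_13_1_ok))))))) c32_n709))))) (nat_lit 4852171964711426004262224822250396481013764881907679006548339266075587288659844840319955210682244261670434619182456250700704776192) (nat_lit 589681629070580170816153362527776685457790419401114857349060453546307242744526962820594161425110462462039265908305623190782675749777783806602096500966819510125967966208) (nat_lit 589681629070580170816153362527776685457790419401114857349060453546307242744526962820594161425110462462039265908305623190782675749777783806602096500966819510125967966208)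 (by decide +kernel)
theorem c32_s738 : Sem (nat_lit 2079502270590611144683810638107312777577327806531862431377859685460965980854219217279980804578104683573043408221052678871730618368) (nat_lit 589681629729600746342132080089798697212653329981590205564799957110279189326715199796645654117201469552628390042701881407091365217939947380398615617383410256236219727872) (nat_lit 589681629729600746342132080089798697212653329981590205564799957110279189326715199796645654117201469552628390042701881407091365217939947380398615617383410256236219727872) :=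
  sem_of_chk (M (nat_lit 430) (B (M (nat_lit 427) (B (M (nat_lit 398) (B (L (nat_lit 399) ln11_13_2 ln11_13_2_ok) (M (nat_lit 394) (B (L (nat_lit 395) ln14_13_3 ln14_13_3_ok) (M (nat_lit 426) (B (L (nat_lit 393) ln13_13_3 ln13_13_3_ok) (L (nat_lit 397) ln10_13_2 ln10_13_2_ok))))))) (B (M (nat_lit 431) (B (M (nat_lit 395) (B (L (nat_lit 394) ln14_13_3 ln14_13_3_ok) (L (nat_lit 396) ln15_13_3 ln15_13_3_ok))) (M (nat_lit 459) (B (L (nat_lit 458) ln14_13_1 ln14_13_1_ok) (L (nat_lit 460) ln15_13_1 ln15_13_1_ok))))) (M (nat_lit 426) (B (M (nat_lit 398) (B (L (nat_lit 397) ln10_13_2 ln10_13_2_ok) (L (nat_lit 399) ln11_13_2 ln11_13_2_ok))) (M (nat_lit 458) (B (L (nat_lit 457) ln13_13_1 ln13_13_1_ok) (L (nat_lit 459) ln14_13_1 ln14_13_1_ok)))))))) (B (M (nat_lit 431) (B (M (nat_lit 427) (B (M (nat_lit 399) (B (L (nat_lit 398) ln11_13_2 ln11_13_2_ok) (L (nat_lit 400) ln12_13_2 ln12_13_2_ok))) (M (nat_lit 459) (B (L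 (nat_lit 458) ln14_13_1 ln14_13_1_ok) (L (nat_lit 460) ln15_13_1 ln15_13_1_ok))))) (B (M (nat_lit 427) (B (M (nat_lit 395) (B (L (nat_lit 394) ln14_13_3 ln14_13_3_ok) (L (nat_lit 396) ln15_13_3 ln15_13_3_ok))) (M (nat_lit 459) (B (L (nat_lit 458) ln14_13_1 ln14_13_1_ok) (L (nat_lit 460) ln15_13_1 ln15_13_1_ok))))) (M (nat_lit 432) (B (M (nat_lit 396) (B (L (nat_lit 395) ln15_13_3 ln15_13_3_ok) (L (nat_lit 397) ln16_13_3 ln16_13_3_ok))) (M (nat_lit 464) (B (L (nat_lit 463) ln12_13_0 ln12_13_0_ok) (L (nat_lit 465) ln13_13_0 ln13_13_0_ok)))))))) (B (M (nat_lit 427) (B (M (nat_lit 431) (B (M (nat_lit 459) (B (L (nat_lit 458) ln14_13_1 ln14_13_1_ok) (L (nat_lit 460) ln15_13_1 ln15_13_1_ok))) (M (nat_lit 463) (B (L (nat_lit 462) ln11_13_0 ln11_13_0_ok) (L (nat_lit 464) ln12_13_0 ln12_13_0_ok))))) (B (M (nat_lit 426) (B (M (nat_lit 398) (B (L (nat_lit 397) ln10_13_2 ln10_13_2_ok) (L (nat_lit 399) ln11_13_2 ln11_13_2_ok)))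 (M (nat_lit 458) (B (L (nat_lit 457) ln13_13_1 ln13_13_1_ok) (L (nat_lit 459) ln14_13_1 ln14_13_1_ok))))) (M (nat_lit 431) (B (M (nat_lit 399) (B (L (nat_lit 398) ln11_13_2 ln11_13_2_ok) (L (nat_lit 400) ln12_13_2 ln12_13_2_ok))) (M (nat_lit 463) (B (L (nat_lit 462) ln11_13_0 ln11_13_0_ok) (L (nat_lit 464) ln12_13_0 ln12_13_0_ok)))))))) (B (M (nat_lit 427) (B (M (nat_lit 426) (B (M (nat_lit 394) (B (L (nat_lit 393) ln13_13_3 ln13_13_3_ok) (L (nat_lit 395) ln14_13_3 ln14_13_3_ok))) (M (nat_lit 458) (B (L (nat_lit 457) ln13_13_1 ln13_13_1_ok) (L (nat_lit 459) ln14_13_1 ln14_13_1_ok))))) (M (nat_lit 431) (B (M (nat_lit 399) (B (L (nat_lit 398) ln11_13_2 ln11_13_2_ok) (L (nat_lit 400) ln12_13_2 ln12_13_2_ok))) (M (nat_lit 463) (B (L (nat_lit 462) ln11_13_0 ln11_13_0_ok) (L (nat_lit 464) ln12_13_0 ln12_13_0_ok))))))) (B (M (nat_lit 427) (B (M (nat_lit 431) (B (M (nat_lit 459) (B (L (nat_lit 458) ln14_13_1 ln14_13_1_ok)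 (L (nat_lit 460) ln15_13_1 ln15_13_1_ok))) (M (nat_lit 463) (B (L (nat_lit 462) ln11_13_0 ln11_13_0_ok) (L (nat_lit 464) ln12_13_0 ln12_13_0_ok))))) (B (M (nat_lit 426) (B (M (nat_lit 394) (B (L (nat_lit 393) ln13_13_3 ln13_13_3_ok) (L (nat_lit 395) ln14_13_3 ln14_13_3_ok))) (M (nat_lit 458) (B (L (nat_lit 457) ln13_13_1 ln13_13_1_ok) (L (nat_lit 459) ln14_13_1 ln14_13_1_ok))))) (M (nat_lit 431) (B (M (nat_lit 395) (B (L (nat_lit 394) ln14_13_3 ln14_13_3_ok) (L (nat_lit 396) ln15_13_3 ln15_13_3_ok))) (M (nat_lit 463) (B (L (nat_lit 462) ln11_13_0 ln11_13_0_ok) (L (nat_lit 464) ln12_13_0 ln12_13_0_ok)))))))) (B (K (nat_lit 4852171964711426004262224822250396481013764881907679006548339266075587288659844840319955210682244261670434619182456250700704776192) (nat_lit 589681629070580170816153362527776685457790419401114857349060453546307242744526962820594161425110462462039265908305623190782675749777783806602096500966819510125967966208)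 (nat_lit 589681629070580170816153362527776685457790419401114857349060453546307242744526962820594161425110462462039265908305623190782675749777783806602096500966819510125967966208) c32_s710) (B (M (nat_lit 427) (B (M (nat_lit 398) (B (L (nat_lit 399) ln11_13_2 ln11_13_2_ok) (M (nat_lit 394) (B (L (nat_lit 395) ln14_13_3 ln14_13_3_ok) (M (nat_lit 426) (B (L (nat_lit 393) ln13_13_3 ln13_13_3_ok) (L (nat_lit 397) ln10_13_2 ln10_13_2_ok))))))) (B (M (nat_lit 426) (B (M (nat_lit 398) (B (L (nat_lit 397) ln10_13_2 ln10_13_2_ok) (L (nat_lit 399) ln11_13_2 ln11_13_2_ok))) (M (nat_lit 458) (B (L (nat_lit 457) ln13_13_1 ln13_13_1_ok) (L (nat_lit 459) ln14_13_1 ln14_13_1_ok))))) (B (M (nat_lit 426) (B (M (nat_lit 394) (B (L (nat_lit 393) ln13_13_3 ln13_13_3_ok) (L (nat_lit 395) ln14_13_3 ln14_13_3_ok))) (M (nat_lit 458) (B (L (nat_lit 457) ln13_13_1 ln13_13_1_ok) (L (nat_lit 459) ln14_13_1 ln14_13_1_ok))))) (M (nat_lit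 462) (B (L (nat_lit 463) ln11_13_0 ln11_13_0_ok) (M (nat_lit 460) (B (M (nat_lit 395) (B (L (nat_lit 394) ln14_13_3 ln14_13_3_ok) (M (nat_lit 492) (B (L (nat_lit 524) ln12_16_7 ln12_16_7_ok) (M (nat_lit 363) (B (L (nat_lit 331) ln11_10_4 ln11_10_4_ok) (L (nat_lit 396) ln12_15_7 ln12_15_7_ok))))))) (B (M (nat_lit 459) (B (L (nat_lit 458) ln14_13_1 ln14_13_1_ok) (M (nat_lit 395) (B (L (nat_lit 394) ln14_13_3 ln14_13_3_ok) (M (nat_lit 492) (B (L (nat_lit 363) ln11_11_4 ln11_11_4_ok) (L (nat_lit 524) ln12_16_7 ln12_16_7_ok))))))) (M (nat_lit 494) (B (M (nat_lit 397) (B (L (nat_lit 526) ln14_16_7 ln14_16_7_ok) (M (nat_lit 365) (B (L (nat_lit 333) ln13_10_5 ln13_10_5_ok) (L (nat_lit 398) ln14_15_7 ln14_15_7_ok))))) (B (M (nat_lit 397) (B (L (nat_lit 526) ln14_16_7 ln14_16_7_ok) (M (nat_lit 365) (B (L (nat_lit 398) ln14_15_7 ln14_15_7_ok) (L (nat_lit 461) ln13_11_4 ln13_11_4_ok))))) (B (M (nat_lit 495) (B (M (nat_lit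 398) (B (L (nat_lit 399) ln11_13_2 ln11_13_2_ok) (L (nat_lit 527) ln14_12_4 ln14_12_4_ok))) (M (nat_lit 459) (B (L (nat_lit 458) ln14_13_1 ln14_13_1_ok) (L (nat_lit 461) ln11_14_0 ln11_14_0_ok))))) (M (nat_lit 397) (B (L (nat_lit 526) ln14_16_7 ln14_16_7_ok) (M (nat_lit 365) (B (L (nat_lit 333) ln13_10_5 ln13_10_5_ok) (L (nat_lit 461) ln13_11_4 ln13_11_4_ok)))))))))))))))))) (M (nat_lit 427) (B (M (nat_lit 431) (B (M (nat_lit 399) (B (L (nat_lit 398) ln11_13_2 ln11_13_2_ok) (L (nat_lit 400) ln12_13_2 ln12_13_2_ok))) (M (nat_lit 463) (B (L (nat_lit 462) ln11_13_0 ln11_13_0_ok) (L (nat_lit 464) ln12_13_0 ln12_13_0_ok))))) (B (M (nat_lit 431) (B (M (nat_lit 395) (B (L (nat_lit 394) ln14_13_3 ln14_13_3_ok) (L (nat_lit 396) ln15_13_3 ln15_13_3_ok))) (M (nat_lit 463) (B (L (nat_lit 462) ln11_13_0 ln11_13_0_ok) (L (nat_lit 464) ln12_13_0 ln12_13_0_ok))))) (M (nat_lit 398) (B (L (nat_lit 399) ln11_13_2 ln11_13_2_ok)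 (M (nat_lit 394) (B (L (nat_lit 395) ln14_13_3 ln14_13_3_ok) (M (nat_lit 426) (B (L (nat_lit 393) ln13_13_3 ln13_13_3_ok) (L (nat_lit 397) ln10_13_2 ln10_13_2_ok)))))))))))))))))) (nat_lit 2079502270590611144683810638107312777577327806531862431377859685460965980854219217279980804578104683573043408221052678871730618368) (nat_lit 589681629729600746342132080089798697212653329981590205564799957110279189326715199796645654117201469552628390042701881407091365217939947380398615617383410256236219727872) (nat_lit 589681629729600746342132080089798697212653329981590205564799957110279189326715199796645654117201469552628390042701881407091365217939947380398615617383410256236219727872) (by decide +kernel)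
theorem c32_s749 : Sem (nat_lit 4852171964711426004262224822250396481013764881907679006548339266075587288659844840319955210682244261670434619182456250700704776192) (nat_lit 589681629070580170816153362527404544030951068673133429732249241251361491499323782443461837616623496837831216645339639563270222232377629291217187141056756800561080172544) (nat_lit 589681629070580170816153362527404544030951068673133429732249241251361491499323782443461837616623496837831216645339639563270222232377629291217187141056756800561080172544) :=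
  sem_of_chk (M (nat_lit 396) (B (M (nat_lit 431) (B (L (nat_lit 395) ln15_13_3 ln15_13_3_ok) (M (nat_lit 432) (B (L (nat_lit 397) ln16_13_3 ln16_13_3_ok) (M (nat_lit 400) (B (L (nat_lit 399) ln12_13_2 ln12_13_2_ok) (L (nat_lit 401) ln13_13_2 ln13_13_2_ok))))))) (B (M (nat_lit 460) (B (M (nat_lit 431) (B (L (nat_lit 459) ln15_13_1 ln15_13_1_ok) (M (nat_lit 432) (B (L (nat_lit 397) ln16_13_3 ln16_13_3_ok) (L (nat_lit 461) ln16_13_1 ln16_13_1_ok))))) (B (M (nat_lit 461) (B (M (nat_lit 364) (B (L (nat_lit 332) ln12_10_4 ln12_10_4_ok) (L (nat_lit 493) ln12_11_4 ln12_11_4_ok))) (M (nat_lit 431) (B (L (nat_lit 459) ln15_13_1 ln15_13_1_ok) (L (nat_lit 432) ln16_13_1 ln16_13_1_ok))))) (B (M (nat_lit 364) (B (M (nat_lit 461) (B (L (nat_lit 332) ln12_10_4 ln12_10_4_ok) (L (nat_lit 493) ln12_11_4 ln12_11_4_ok))) (M (nat_lit 492) (B (M (nat_lit 365) (B (L (nat_lit 333) ln12_14_6 ln12_14_6_ok) (L (nat_lit 397) ln12_15_6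 ln12_15_6_ok))) (M (nat_lit 491) (B (L (nat_lit 459) ln12_11_5 ln12_11_5_ok) (L (nat_lit 523) ln12_12_5 ln12_12_5_ok))))))) (B (M (nat_lit 364) (B (M (nat_lit 461) (B (L (nat_lit 332) ln12_10_4 ln12_10_4_ok) (L (nat_lit 493) ln12_11_4 ln12_11_4_ok))) (B (M (nat_lit 492) (B (M (nat_lit 365) (B (L (nat_lit 333) ln12_14_6 ln12_14_6_ok) (L (nat_lit 397) ln12_15_6 ln12_15_6_ok))) (M (nat_lit 493) (B (L (nat_lit 461) ln12_11_4 ln12_11_4_ok) (L (nat_lit 525) ln12_12_4 ln12_12_4_ok))))) (M (nat_lit 332) (B (M (nat_lit 331) (B (L (nat_lit 299) ln12_13_7 ln12_13_7_ok) (L (nat_lit 363) ln12_14_7 ln12_14_7_ok))) (M (nat_lit 333) (B (L (nat_lit 301) ln12_13_6 ln12_13_6_ok) (L (nat_lit 365) ln12_14_6 ln12_14_6_ok)))))))) (M (nat_lit 397) (B (M (nat_lit 365) (B (L (nat_lit 333) ln13_10_5 ln13_10_5_ok) (L (nat_lit 492) ln12_15_6 ln12_15_6_ok))) (M (nat_lit 431) (B (L (nat_lit 432) ln16_13_3 ln16_13_3_ok) (L (nat_lit 459)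 ln15_13_1 ln15_13_1_ok)))))))))) (B (M (nat_lit 431) (B (L (nat_lit 395) ln15_13_3 ln15_13_3_ok) (M (nat_lit 432) (B (M (nat_lit 400) (B (L (nat_lit 399) ln12_13_2 ln12_13_2_ok) (L (nat_lit 401) ln13_13_2 ln13_13_2_ok))) (M (nat_lit 460) (B (L (nat_lit 459) ln15_13_1 ln15_13_1_ok) (L (nat_lit 461) ln16_13_1 ln16_13_1_ok))))))) (M (nat_lit 460) (B (M (nat_lit 364) (B (M (nat_lit 461) (B (L (nat_lit 332) ln12_10_4 ln12_10_4_ok) (L (nat_lit 493) ln12_11_4 ln12_11_4_ok))) (M (nat_lit 492) (B (M (nat_lit 365) (B (L (nat_lit 333) ln12_14_6 ln12_14_6_ok) (L (nat_lit 397) ln12_15_6 ln12_15_6_ok))) (M (nat_lit 491) (B (L (nat_lit 459) ln12_11_5 ln12_11_5_ok) (L (nat_lit 523) ln12_12_5 ln12_12_5_ok))))))) (B (M (nat_lit 364) (B (M (nat_lit 461) (B (L (nat_lit 493) ln12_11_4 ln12_11_4_ok) (M (nat_lit 459) (B (L (nat_lit 491) ln12_11_5 ln12_11_5_ok) (L (nat_lit 458) ln10_14_2 ln10_14_2_ok))))) (B (M (nat_lit 492) (B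 (M (nat_lit 363) (B (L (nat_lit 331) ln12_14_7 ln12_14_7_ok) (L (nat_lit 395) ln12_15_7 ln12_15_7_ok))) (M (nat_lit 493) (B (L (nat_lit 461) ln12_11_4 ln12_11_4_ok) (L (nat_lit 525) ln12_12_4 ln12_12_4_ok))))) (M (nat_lit 492) (B (M (nat_lit 363) (B (L (nat_lit 331) ln12_14_7 ln12_14_7_ok) (L (nat_lit 395) ln12_15_7 ln12_15_7_ok))) (M (nat_lit 491) (B (L (nat_lit 459) ln12_11_5 ln12_11_5_ok) (L (nat_lit 523) ln12_12_5 ln12_12_5_ok)))))))) (B (M (nat_lit 492) (B (M (nat_lit 397) (B (L (nat_lit 365) ln12_15_6 ln12_15_6_ok) (L (nat_lit 524) ln12_16_6 ln12_16_6_ok))) (B (M (nat_lit 397) (B (L (nat_lit 524) ln12_16_6 ln12_16_6_ok) (M (nat_lit 395) (B (L (nat_lit 363) ln12_15_7 ln12_15_7_ok) (L (nat_lit 394) ln10_12_0 ln10_12_0_ok))))) (B (M (nat_lit 524) (B (M (nat_lit 523) (B (L (nat_lit 491) ln12_12_5 ln12_12_5_ok) (L (nat_lit 555) ln12_13_5 ln12_13_5_ok))) (M (nat_lit 525) (B (L (nat_lit 493) ln12_12_4 ln12_12_4_ok)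 (L (nat_lit 557) ln12_13_4 ln12_13_4_ok))))) (M (nat_lit 397) (B (L (nat_lit 365) ln12_15_6 ln12_15_6_ok) (M (nat_lit 395) (B (L (nat_lit 363) ln12_15_7 ln12_15_7_ok) (L (nat_lit 394) ln10_12_0 ln10_12_0_ok))))))))) (B (M (nat_lit 364) (B (M (nat_lit 461) (B (L (nat_lit 332) ln12_10_4 ln12_10_4_ok) (L (nat_lit 493) ln12_11_4 ln12_11_4_ok))) (M (nat_lit 492) (B (M (nat_lit 363) (B (L (nat_lit 331) ln12_14_7 ln12_14_7_ok) (L (nat_lit 395) ln12_15_7 ln12_15_7_ok))) (M (nat_lit 365) (B (L (nat_lit 333) ln12_14_6 ln12_14_6_ok) (L (nat_lit 397) ln12_15_6 ln12_15_6_ok))))))) (B (M (nat_lit 364) (B (M (nat_lit 461) (B (L (nat_lit 332) ln12_10_4 ln12_10_4_ok) (L (nat_lit 493) ln12_11_4 ln12_11_4_ok))) (B (M (nat_lit 461) (B (L (nat_lit 493) ln12_11_4 ln12_11_4_ok) (M (nat_lit 459) (B (L (nat_lit 491) ln12_11_5 ln12_11_5_ok) (L (nat_lit 458) ln10_14_2 ln10_14_2_ok))))) (M (nat_lit 332) (B (M (nat_lit 331) (B (L (nat_lit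 299) ln12_13_7 ln12_13_7_ok) (L (nat_lit 363) ln12_14_7 ln12_14_7_ok))) (M (nat_lit 333) (B (L (nat_lit 301) ln12_13_6 ln12_13_6_ok) (L (nat_lit 365) ln12_14_6 ln12_14_6_ok)))))))) (M (nat_lit 364) (B (M (nat_lit 461) (B (L (nat_lit 332) ln12_10_4 ln12_10_4_ok) (M (nat_lit 459) (B (L (nat_lit 491) ln12_11_5 ln12_11_5_ok) (L (nat_lit 458) ln10_14_2 ln10_14_2_ok))))) (B (M (nat_lit 492) (B (M (nat_lit 363) (B (L (nat_lit 331) ln12_14_7 ln12_14_7_ok) (L (nat_lit 395) ln12_15_7 ln12_15_7_ok))) (M (nat_lit 491) (B (L (nat_lit 459) ln12_11_5 ln12_11_5_ok) (L (nat_lit 523) ln12_12_5 ln12_12_5_ok))))) (M (nat_lit 333) (B (L (nat_lit 365) ln12_14_6 ln12_14_6_ok) (M (nat_lit 332) (B (L (nat_lit 301) ln12_13_6 ln12_13_6_ok) (L (nat_lit 461) ln12_10_4 ln12_10_4_ok)))))))))))))))))) (nat_lit 4852171964711426004262224822250396481013764881907679006548339266075587288659844840319955210682244261670434619182456250700704776192)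 (nat_lit 589681629070580170816153362527404544030951068673133429732249241251361491499323782443461837616623496837831216645339639563270222232377629291217187141056756800561080172544) (nat_lit 589681629070580170816153362527404544030951068673133429732249241251361491499323782443461837616623496837831216645339639563270222232377629291217187141056756800561080172544) (by decide +kernel)
noncomputable def c32_n773 : Cert := (M (nat_lit 462) (B (M (nat_lit 366) (B (M (nat_lit 461) (B (L (nat_lit 334) ln14_10_5 ln14_10_5_ok) (L (nat_lit 493) ln14_11_5 ln14_11_5_ok))) (M (nat_lit 399) (B (M (nat_lit 367) (B (L (nat_lit 335) ln14_14_6 ln14_14_6_ok) (L (nat_lit 494) ln14_15_6 ln14_15_6_ok))) (M (nat_lit 400) (B (L (nat_lit 397) ln16_12_1 ln16_12_1_ok) (L (nat_lit 401) ln17_12_1 ln17_12_1_ok))))))) (B (M (nat_lit 366) (B (M (nat_lit 461) (B (L (nat_lit 493) ln14_11_5 ln14_11_5_ok) (M (nat_lit 463) (B (L (nat_lit 495) ln14_11_4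 ln14_11_4_ok) (L (nat_lit 464) ln16_14_3 ln16_14_3_ok))))) (M (nat_lit 399) (B (M (nat_lit 367) (B (L (nat_lit 335) ln14_14_6 ln14_14_6_ok) (L (nat_lit 494) ln14_15_6 ln14_15_6_ok))) (M (nat_lit 400) (B (L (nat_lit 397) ln16_12_1 ln16_12_1_ok) (L (nat_lit 401) ln17_12_1 ln17_12_1_ok))))))) (B (M (nat_lit 366) (B (M (nat_lit 461) (B (L (nat_lit 334) ln14_10_5 ln14_10_5_ok) (L (nat_lit 493) ln14_11_5 ln14_11_5_ok))) (M (nat_lit 494) (B (M (nat_lit 365) (B (L (nat_lit 333) ln14_14_7 ln14_14_7_ok) (L (nat_lit 397) ln14_15_7 ln14_15_7_ok))) (M (nat_lit 495) (B (L (nat_lit 463) ln14_11_4 ln14_11_4_ok) (L (nat_lit 527) ln14_12_4 ln14_12_4_ok))))))) (B (M (nat_lit 494) (B (M (nat_lit 397) (B (L (nat_lit 365) ln14_15_7 ln14_15_7_ok) (L (nat_lit 526) ln14_16_7 ln14_16_7_ok))) (B (M (nat_lit 525) (B (L (nat_lit 493) ln14_12_5 ln14_12_5_ok) (M (nat_lit 526) (B (L (nat_lit 397) ln14_16_7 ln14_16_7_ok) (L (nat_lit 557)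 ln14_13_5 ln14_13_5_ok))))) (B (M (nat_lit 526) (B (M (nat_lit 525) (B (L (nat_lit 493) ln14_12_5 ln14_12_5_ok) (L (nat_lit 557) ln14_13_5 ln14_13_5_ok))) (M (nat_lit 527) (B (L (nat_lit 495) ln14_12_4 ln14_12_4_ok) (L (nat_lit 559) ln14_13_4 ln14_13_4_ok))))) (M (nat_lit 397) (B (L (nat_lit 365) ln14_15_7 ln14_15_7_ok) (M (nat_lit 399) (B (L (nat_lit 367) ln14_15_6 ln14_15_6_ok) (L (nat_lit 400) ln16_12_1 ln16_12_1_ok))))))))) (B (M (nat_lit 366) (B (M (nat_lit 461) (B (L (nat_lit 334) ln14_10_5 ln14_10_5_ok) (L (nat_lit 493) ln14_11_5 ln14_11_5_ok))) (M (nat_lit 494) (B (M (nat_lit 367) (B (L (nat_lit 335) ln14_14_6 ln14_14_6_ok) (L (nat_lit 399) ln14_15_6 ln14_15_6_ok))) (M (nat_lit 495) (B (L (nat_lit 463) ln14_11_4 ln14_11_4_ok) (L (nat_lit 527) ln14_12_4 ln14_12_4_ok))))))) (B (M (nat_lit 366) (B (M (nat_lit 461) (B (L (nat_lit 334) ln14_10_5 ln14_10_5_ok) (M (nat_lit 463) (B (L (nat_lit 495) ln14_11_4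 ln14_11_4_ok) (L (nat_lit 464) ln16_14_3 ln16_14_3_ok))))) (B (M (nat_lit 494) (B (M (nat_lit 367) (B (L (nat_lit 335) ln14_14_6 ln14_14_6_ok) (L (nat_lit 399) ln14_15_6 ln14_15_6_ok))) (M (nat_lit 495) (B (L (nat_lit 463) ln14_11_4 ln14_11_4_ok) (L (nat_lit 527) ln14_12_4 ln14_12_4_ok))))) (M (nat_lit 333) (B (L (nat_lit 365) ln14_14_7 ln14_14_7_ok) (M (nat_lit 334) (B (L (nat_lit 301) ln14_13_7 ln14_13_7_ok) (L (nat_lit 461) ln14_10_5 ln14_10_5_ok)))))))) (M (nat_lit 366) (B (M (nat_lit 461) (B (L (nat_lit 334) ln14_10_5 ln14_10_5_ok) (L (nat_lit 493) ln14_11_5 ln14_11_5_ok))) (B (M (nat_lit 461) (B (L (nat_lit 493) ln14_11_5 ln14_11_5_ok) (M (nat_lit 463) (B (L (nat_lit 495) ln14_11_4 ln14_11_4_ok) (L (nat_lit 464) ln16_14_3 ln16_14_3_ok))))) (M (nat_lit 334) (B (M (nat_lit 333) (B (L (nat_lit 301) ln14_13_7 ln14_13_7_ok) (L (nat_lit 365) ln14_14_7 ln14_14_7_ok))) (M (nat_lit 335) (B (L (nat_lit 303)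 ln14_13_6 ln14_13_6_ok) (L (nat_lit 367) ln14_14_6 ln14_14_6_ok)))))))))))))))
theorem c32_s774 : Sem (nat_lit 4852171964711426004262224822250396481013764881907679006548339266075587288659844840319955210682244261670434619182456250700704776192) (nat_lit 2358726516282320683264613450156880137266377620023794907093059157814281355306263822608431966648595546297535614123868430667491954755588263945688947546899079744417393803264) (nat_lit 2358726516282320683264613450156880137266377620023794907093059157814281355306263822608431966648595546297535614123868430667491954755588263945688947546899079744417393803264) :=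
  sem_of_chk (M (nat_lit 398) (B (M (nat_lit 399) (B (L (nat_lit 427) ln11_13_2 ln11_13_2_ok) (M (nat_lit 400) (B (L (nat_lit 397) ln16_12_1 ln16_12_1_ok) (L (nat_lit 401) ln17_12_1 ln17_12_1_ok))))) (B (M (nat_lit 427) (B (L (nat_lit 399) ln11_13_2 ln11_13_2_ok) (M (nat_lit 426) (B (M (nat_lit 458) (B (L (nat_lit 457) ln13_13_1 ln13_13_1_ok) (L (nat_lit 459) ln14_13_1 ln14_13_1_ok))) (M (nat_lit 462) (B (L (nat_lit 461) ln10_13_0 ln10_13_0_ok) (L (nat_lit 463) ln11_13_0 ln11_13_0_ok))))))) (B (M (nat_lit 462) (B (M (nat_lit 427) (B (L (nat_lit 463) ln11_13_0 ln11_13_0_ok) (M (nat_lit 426) (B (L (nat_lit 397) ln10_13_2 ln10_13_2_ok) (L (nat_lit 461) ln10_13_0 ln10_13_0_ok))))) (B (M (nat_lit 461) (B (M (nat_lit 366) (B (L (nat_lit 334) ln14_10_5 ln14_10_5_ok) (L (nat_lit 493) ln14_11_5 ln14_11_5_ok))) (M (nat_lit 427) (B (L (nat_lit 426) ln10_13_0 ln10_13_0_ok) (L (nat_lit 463) ln11_13_0 ln11_13_0_ok)))))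 (B (M (nat_lit 366) (B (M (nat_lit 461) (B (L (nat_lit 334) ln14_10_5 ln14_10_5_ok) (L (nat_lit 493) ln14_11_5 ln14_11_5_ok))) (M (nat_lit 463) (B (L (nat_lit 495) ln14_11_4 ln14_11_4_ok) (L (nat_lit 427) ln11_13_0 ln11_13_0_ok))))) (B (M (nat_lit 366) (B (M (nat_lit 461) (B (L (nat_lit 334) ln14_10_5 ln14_10_5_ok) (L (nat_lit 493) ln14_11_5 ln14_11_5_ok))) (M (nat_lit 494) (B (M (nat_lit 365) (B (L (nat_lit 333) ln14_14_7 ln14_14_7_ok) (L (nat_lit 397) ln14_15_7 ln14_15_7_ok))) (M (nat_lit 495) (B (L (nat_lit 463) ln14_11_4 ln14_11_4_ok) (L (nat_lit 527) ln14_12_4 ln14_12_4_ok))))))) (B (M (nat_lit 397) (B (M (nat_lit 365) (B (L (nat_lit 333) ln13_10_4 ln13_10_4_ok) (L (nat_lit 494) ln14_15_7 ln14_15_7_ok))) (M (nat_lit 427) (B (L (nat_lit 426) ln10_13_2 ln10_13_2_ok) (L (nat_lit 463) ln11_13_0 ln11_13_0_ok))))) (M (nat_lit 494) (B (M (nat_lit 397) (B (L (nat_lit 365) ln14_15_7 ln14_15_7_ok) (L (nat_lit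 526) ln14_16_7 ln14_16_7_ok))) (B (M (nat_lit 525) (B (L (nat_lit 493) ln14_12_5 ln14_12_5_ok) (M (nat_lit 526) (B (L (nat_lit 397) ln14_16_7 ln14_16_7_ok) (L (nat_lit 557) ln14_13_5 ln14_13_5_ok))))) (B (M (nat_lit 526) (B (M (nat_lit 525) (B (L (nat_lit 493) ln14_12_5 ln14_12_5_ok) (L (nat_lit 557) ln14_13_5 ln14_13_5_ok))) (M (nat_lit 527) (B (L (nat_lit 495) ln14_12_4 ln14_12_4_ok) (L (nat_lit 559) ln14_13_4 ln14_13_4_ok))))) (M (nat_lit 366) (B (M (nat_lit 365) (B (L (nat_lit 333) ln14_14_7 ln14_14_7_ok) (L (nat_lit 397) ln14_15_7 ln14_15_7_ok))) (M (nat_lit 461) (B (L (nat_lit 334) ln14_10_5 ln14_10_5_ok) (L (nat_lit 493) ln14_11_5 ln14_11_5_ok))))))))))))))) c32_n773)))) (nat_lit 4852171964711426004262224822250396481013764881907679006548339266075587288659844840319955210682244261670434619182456250700704776192) (nat_lit 2358726516282320683264613450156880137266377620023794907093059157814281355306263822608431966648595546297535614123868430667491954755588263945688947546899079744417393803264)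 (nat_lit 2358726516282320683264613450156880137266377620023794907093059157814281355306263822608431966648595546297535614123868430667491954755588263945688947546899079744417393803264) (by decide +kernel)
noncomputable def c32_n776 : Cert := (M (nat_lit 430) (B (M (nat_lit 427) (B (M (nat_lit 398) (B (L (nat_lit 399) ln11_13_2 ln11_13_2_ok) (M (nat_lit 462) (B (L (nat_lit 463) ln11_13_0 ln11_13_0_ok) (M (nat_lit 426) (B (L (nat_lit 397) ln10_13_2 ln10_13_2_ok) (L (nat_lit 461) ln10_13_0 ln10_13_0_ok))))))) (B (M (nat_lit 431) (B (M (nat_lit 395) (B (L (nat_lit 394) ln14_13_3 ln14_13_3_ok) (L (nat_lit 396) ln15_13_3 ln15_13_3_ok))) (M (nat_lit 463) (B (L (nat_lit 462) ln11_13_0 ln11_13_0_ok) (L (nat_lit 464) ln12_13_0 ln12_13_0_ok))))) (M (nat_lit 426) (B (M (nat_lit 398) (B (L (nat_lit 397) ln10_13_2 ln10_13_2_ok) (L (nat_lit 399) ln11_13_2 ln11_13_2_ok))) (M (nat_lit 458) (B (L (nat_lit 457) ln13_13_1 ln13_13_1_ok)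 (L (nat_lit 459) ln14_13_1 ln14_13_1_ok)))))))) (B (M (nat_lit 427) (B (M (nat_lit 431) (B (M (nat_lit 459) (B (L (nat_lit 458) ln14_13_1 ln14_13_1_ok) (L (nat_lit 460) ln15_13_1 ln15_13_1_ok))) (M (nat_lit 463) (B (L (nat_lit 462) ln11_13_0 ln11_13_0_ok) (L (nat_lit 464) ln12_13_0 ln12_13_0_ok))))) (B (M (nat_lit 426) (B (M (nat_lit 398) (B (L (nat_lit 397) ln10_13_2 ln10_13_2_ok) (L (nat_lit 399) ln11_13_2 ln11_13_2_ok))) (M (nat_lit 458) (B (L (nat_lit 457) ln13_13_1 ln13_13_1_ok) (L (nat_lit 459) ln14_13_1 ln14_13_1_ok))))) (M (nat_lit 431) (B (M (nat_lit 399) (B (L (nat_lit 398) ln11_13_2 ln11_13_2_ok) (L (nat_lit 400) ln12_13_2 ln12_13_2_ok))) (M (nat_lit 463) (B (L (nat_lit 462) ln11_13_0 ln11_13_0_ok) (L (nat_lit 464) ln12_13_0 ln12_13_0_ok)))))))) (B (M (nat_lit 427) (B (M (nat_lit 431) (B (M (nat_lit 395) (B (L (nat_lit 394) ln14_13_3 ln14_13_3_ok) (L (nat_lit 396) ln15_13_3 ln15_13_3_ok))) (M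 (nat_lit 459) (B (L (nat_lit 458) ln14_13_1 ln14_13_1_ok) (L (nat_lit 460) ln15_13_1 ln15_13_1_ok))))) (B (M (nat_lit 431) (B (M (nat_lit 459) (B (L (nat_lit 458) ln14_13_1 ln14_13_1_ok) (L (nat_lit 460) ln15_13_1 ln15_13_1_ok))) (M (nat_lit 463) (B (L (nat_lit 462) ln11_13_0 ln11_13_0_ok) (L (nat_lit 464) ln12_13_0 ln12_13_0_ok))))) (B (M (nat_lit 426) (B (M (nat_lit 458) (B (L (nat_lit 457) ln13_13_1 ln13_13_1_ok) (L (nat_lit 459) ln14_13_1 ln14_13_1_ok))) (M (nat_lit 462) (B (L (nat_lit 461) ln10_13_0 ln10_13_0_ok) (L (nat_lit 463) ln11_13_0 ln11_13_0_ok))))) (M (nat_lit 431) (B (M (nat_lit 395) (B (L (nat_lit 394) ln14_13_3 ln14_13_3_ok) (L (nat_lit 396) ln15_13_3 ln15_13_3_ok))) (M (nat_lit 463) (B (L (nat_lit 462) ln11_13_0 ln11_13_0_ok) (L (nat_lit 464) ln12_13_0 ln12_13_0_ok))))))))) (B (M (nat_lit 431) (B (M (nat_lit 427) (B (M (nat_lit 399) (B (L (nat_lit 398) ln11_13_2 ln11_13_2_ok) (L (nat_lit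 400) ln12_13_2 ln12_13_2_ok))) (M (nat_lit 459) (B (L (nat_lit 458) ln14_13_1 ln14_13_1_ok) (L (nat_lit 460) ln15_13_1 ln15_13_1_ok))))) (B (M (nat_lit 427) (B (M (nat_lit 395) (B (L (nat_lit 394) ln14_13_3 ln14_13_3_ok) (L (nat_lit 396) ln15_13_3 ln15_13_3_ok))) (M (nat_lit 459) (B (L (nat_lit 458) ln14_13_1 ln14_13_1_ok) (L (nat_lit 460) ln15_13_1 ln15_13_1_ok))))) (M (nat_lit 432) (B (M (nat_lit 396) (B (L (nat_lit 395) ln15_13_3 ln15_13_3_ok) (L (nat_lit 397) ln16_13_3 ln16_13_3_ok))) (M (nat_lit 464) (B (L (nat_lit 463) ln12_13_0 ln12_13_0_ok) (L (nat_lit 465) ln13_13_0 ln13_13_0_ok)))))))) (B (K (nat_lit 4852171964711426004262224822250396481013764881907679006548339266075587288659844840319955210682244261670434619182456250700704776192) (nat_lit 589681629070580170816153362527404544030951068673133429732249241251361491499323782443461837616623496837831216645339639563270222232377629291217187141056756800561080172544)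 (nat_lit 589681629070580170816153362527404544030951068673133429732249241251361491499323782443461837616623496837831216645339639563270222232377629291217187141056756800561080172544) c32_s749) (B (K (nat_lit 4852171964711426004262224822250396481013764881907679006548339266075587288659844840319955210682244261670434619182456250700704776192) (nat_lit 2358726516282320683264613450156880137266377620023794907093059157814281355306263822608431966648595546297535614123868430667491954755588263945688947546899079744417393803264) (nat_lit 2358726516282320683264613450156880137266377620023794907093059157814281355306263822608431966648595546297535614123868430667491954755588263945688947546899079744417393803264) c32_s774) (M (nat_lit 427) (B (M (nat_lit 431) (B (M (nat_lit 395) (B (L (nat_lit 394) ln14_13_3 ln14_13_3_ok) (L (nat_lit 396) ln15_13_3 ln15_13_3_ok))) (M (nat_lit 399) (B (L (nat_lit 398) ln11_13_2 ln11_13_2_ok) (L (nat_lit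 400) ln12_13_2 ln12_13_2_ok))))) (B (M (nat_lit 431) (B (M (nat_lit 399) (B (L (nat_lit 398) ln11_13_2 ln11_13_2_ok) (L (nat_lit 400) ln12_13_2 ln12_13_2_ok))) (M (nat_lit 463) (B (L (nat_lit 462) ln11_13_0 ln11_13_0_ok) (L (nat_lit 464) ln12_13_0 ln12_13_0_ok))))) (B (M (nat_lit 431) (B (M (nat_lit 395) (B (L (nat_lit 394) ln14_13_3 ln14_13_3_ok) (L (nat_lit 396) ln15_13_3 ln15_13_3_ok))) (M (nat_lit 463) (B (L (nat_lit 462) ln11_13_0 ln11_13_0_ok) (L (nat_lit 464) ln12_13_0 ln12_13_0_ok))))) (M (nat_lit 398) (B (L (nat_lit 399) ln11_13_2 ln11_13_2_ok) (M (nat_lit 462) (B (L (nat_lit 463) ln11_13_0 ln11_13_0_ok) (M (nat_lit 426) (B (L (nat_lit 397) ln10_13_2 ln10_13_2_ok) (L (nat_lit 461) ln10_13_0 ln10_13_0_ok))))))))))))))))))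
noncomputable def c32_n787 : Cert := (M (nat_lit 396) (B (M (nat_lit 431) (B (L (nat_lit 395) ln15_13_3 ln15_13_3_ok) (M (nat_lit 432) (B (L (nat_lit 397) ln16_13_3 ln16_13_3_ok) (M (nat_lit 400) (B (L (nat_lit 399) ln12_13_2 ln12_13_2_ok) (L (nat_lit 401) ln13_13_2 ln13_13_2_ok))))))) (B (M (nat_lit 460) (B (M (nat_lit 431) (B (L (nat_lit 459) ln15_13_1 ln15_13_1_ok) (M (nat_lit 432) (B (L (nat_lit 397) ln16_13_3 ln16_13_3_ok) (L (nat_lit 461) ln16_13_1 ln16_13_1_ok))))) (B (M (nat_lit 461) (B (M (nat_lit 364) (B (L (nat_lit 332) ln12_10_4 ln12_10_4_ok) (L (nat_lit 493) ln12_11_4 ln12_11_4_ok))) (M (nat_lit 431) (B (L (nat_lit 459) ln15_13_1 ln15_13_1_ok) (L (nat_lit 432) ln16_13_1 ln16_13_1_ok))))) (B (M (nat_lit 364) (B (M (nat_lit 461) (B (L (nat_lit 332) ln12_10_4 ln12_10_4_ok) (L (nat_lit 493) ln12_11_4 ln12_11_4_ok))) (M (nat_lit 492) (B (M (nat_lit 365) (B (L (nat_lit 333) ln12_14_6 ln12_14_6_ok)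 (L (nat_lit 397) ln12_15_6 ln12_15_6_ok))) (M (nat_lit 491) (B (L (nat_lit 459) ln12_11_5 ln12_11_5_ok) (L (nat_lit 523) ln12_12_5 ln12_12_5_ok))))))) (B (M (nat_lit 364) (B (M (nat_lit 461) (B (L (nat_lit 332) ln12_10_4 ln12_10_4_ok) (L (nat_lit 493) ln12_11_4 ln12_11_4_ok))) (B (M (nat_lit 492) (B (M (nat_lit 365) (B (L (nat_lit 333) ln12_14_6 ln12_14_6_ok) (L (nat_lit 397) ln12_15_6 ln12_15_6_ok))) (M (nat_lit 493) (B (L (nat_lit 461) ln12_11_4 ln12_11_4_ok) (L (nat_lit 525) ln12_12_4 ln12_12_4_ok))))) (M (nat_lit 332) (B (M (nat_lit 331) (B (L (nat_lit 299) ln12_13_7 ln12_13_7_ok) (L (nat_lit 363) ln12_14_7 ln12_14_7_ok))) (M (nat_lit 333) (B (L (nat_lit 301) ln12_13_6 ln12_13_6_ok) (L (nat_lit 365) ln12_14_6 ln12_14_6_ok)))))))) (M (nat_lit 397) (B (M (nat_lit 365) (B (L (nat_lit 333) ln13_10_5 ln13_10_5_ok) (L (nat_lit 492) ln12_15_6 ln12_15_6_ok))) (M (nat_lit 431) (B (L (nat_lit 432) ln16_13_3 ln16_13_3_ok)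 (L (nat_lit 459) ln15_13_1 ln15_13_1_ok)))))))))) (B (M (nat_lit 431) (B (L (nat_lit 395) ln15_13_3 ln15_13_3_ok) (M (nat_lit 432) (B (M (nat_lit 400) (B (L (nat_lit 399) ln12_13_2 ln12_13_2_ok) (L (nat_lit 401) ln13_13_2 ln13_13_2_ok))) (M (nat_lit 460) (B (L (nat_lit 459) ln15_13_1 ln15_13_1_ok) (L (nat_lit 461) ln16_13_1 ln16_13_1_ok))))))) (M (nat_lit 364) (B (M (nat_lit 461) (B (L (nat_lit 332) ln12_10_4 ln12_10_4_ok) (M (nat_lit 493) (B (L (nat_lit 397) ln13_15_7 ln13_15_7_ok) (L (nat_lit 460) ln12_11_4 ln12_11_4_ok))))) (B (M (nat_lit 460) (B (M (nat_lit 461) (B (L (nat_lit 493) ln12_11_4 ln12_11_4_ok) (M (nat_lit 459) (B (L (nat_lit 491) ln12_11_5 ln12_11_5_ok) (L (nat_lit 458) ln10_14_2 ln10_14_2_ok))))) (B (M (nat_lit 492) (B (M (nat_lit 363) (B (L (nat_lit 331) ln12_14_7 ln12_14_7_ok) (L (nat_lit 395) ln12_15_7 ln12_15_7_ok))) (M (nat_lit 493) (B (L (nat_lit 461) ln12_11_4 ln12_11_4_ok) (L (nat_lit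 525) ln12_12_4 ln12_12_4_ok))))) (M (nat_lit 492) (B (M (nat_lit 363) (B (L (nat_lit 331) ln12_14_7 ln12_14_7_ok) (L (nat_lit 395) ln12_15_7 ln12_15_7_ok))) (M (nat_lit 491) (B (L (nat_lit 459) ln12_11_5 ln12_11_5_ok) (L (nat_lit 523) ln12_12_5 ln12_12_5_ok)))))))) (B (M (nat_lit 461) (B (L (nat_lit 332) ln12_10_4 ln12_10_4_ok) (M (nat_lit 493) (B (L (nat_lit 397) ln13_15_7 ln13_15_7_ok) (L (nat_lit 525) ln13_16_7 ln13_16_7_ok))))) (M (nat_lit 460) (B (M (nat_lit 492) (B (M (nat_lit 365) (B (L (nat_lit 333) ln12_14_6 ln12_14_6_ok) (L (nat_lit 397) ln12_15_6 ln12_15_6_ok))) (M (nat_lit 491) (B (L (nat_lit 459) ln12_11_5 ln12_11_5_ok) (L (nat_lit 523) ln12_12_5 ln12_12_5_ok))))) (B (M (nat_lit 492) (B (M (nat_lit 363) (B (L (nat_lit 331) ln12_14_7 ln12_14_7_ok) (L (nat_lit 395) ln12_15_7 ln12_15_7_ok))) (M (nat_lit 491) (B (L (nat_lit 459) ln12_11_5 ln12_11_5_ok) (L (nat_lit 523) ln12_12_5 ln12_12_5_ok)))))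 (B (M (nat_lit 492) (B (M (nat_lit 363) (B (L (nat_lit 331) ln12_14_7 ln12_14_7_ok) (L (nat_lit 395) ln12_15_7 ln12_15_7_ok))) (M (nat_lit 365) (B (L (nat_lit 333) ln12_14_6 ln12_14_6_ok) (L (nat_lit 397) ln12_15_6 ln12_15_6_ok))))) (M (nat_lit 332) (B (M (nat_lit 331) (B (L (nat_lit 299) ln12_13_7 ln12_13_7_ok) (L (nat_lit 363) ln12_14_7 ln12_14_7_ok))) (M (nat_lit 333) (B (L (nat_lit 301) ln12_13_6 ln12_13_6_ok) (L (nat_lit 365) ln12_14_6 ln12_14_6_ok)))))))))))))))))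
theorem c32_s791 : Sem (nat_lit 2079502270590611144683810638107312777577327806531862431377859685460965980854219217279980804578104683573043408221052678871730618368) (nat_lit 2358726516309779873924315912208194533437309006313580652483933475331187311183517469288795814352577029226752710393032227594717908795355857398647986844220326236903547338752) (nat_lit 2358726516309779873924315912208194533437309006313580652483933475331187311183517469288795814352577029226752710393032227594717908795355857398647986844220326236903547338752) :=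
  sem_of_chk (M (nat_lit 430) (B (M (nat_lit 427) (B (M (nat_lit 398) (B (L (nat_lit 399) ln11_13_2 ln11_13_2_ok) (M (nat_lit 462) (B (L (nat_lit 463) ln11_13_0 ln11_13_0_ok) (M (nat_lit 426) (B (L (nat_lit 397) ln10_13_2 ln10_13_2_ok) (L (nat_lit 461) ln10_13_0 ln10_13_0_ok))))))) (B (M (nat_lit 431) (B (M (nat_lit 399) (B (L (nat_lit 398) ln11_13_2 ln11_13_2_ok) (L (nat_lit 400) ln12_13_2 ln12_13_2_ok))) (M (nat_lit 463) (B (L (nat_lit 462) ln11_13_0 ln11_13_0_ok) (L (nat_lit 464) ln12_13_0 ln12_13_0_ok))))) (B (M (nat_lit 426) (B (M (nat_lit 458) (B (L (nat_lit 457) ln13_13_1 ln13_13_1_ok) (L (nat_lit 459) ln14_13_1 ln14_13_1_ok))) (M (nat_lit 462) (B (L (nat_lit 461) ln10_13_0 ln10_13_0_ok) (L (nat_lit 463) ln11_13_0 ln11_13_0_ok))))) (M (nat_lit 426) (B (M (nat_lit 398) (B (L (nat_lit 397) ln10_13_2 ln10_13_2_ok) (L (nat_lit 399) ln11_13_2 ln11_13_2_ok))) (M (nat_lit 458) (B (L (nat_lit 457) ln13_13_1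 ln13_13_1_ok) (L (nat_lit 459) ln14_13_1 ln14_13_1_ok))))))))) (B (M (nat_lit 427) (B (M (nat_lit 431) (B (M (nat_lit 399) (B (L (nat_lit 398) ln11_13_2 ln11_13_2_ok) (L (nat_lit 400) ln12_13_2 ln12_13_2_ok))) (M (nat_lit 459) (B (L (nat_lit 458) ln14_13_1 ln14_13_1_ok) (L (nat_lit 460) ln15_13_1 ln15_13_1_ok))))) (B (M (nat_lit 431) (B (M (nat_lit 459) (B (L (nat_lit 458) ln14_13_1 ln14_13_1_ok) (L (nat_lit 460) ln15_13_1 ln15_13_1_ok))) (M (nat_lit 463) (B (L (nat_lit 462) ln11_13_0 ln11_13_0_ok) (L (nat_lit 464) ln12_13_0 ln12_13_0_ok))))) (B (M (nat_lit 426) (B (M (nat_lit 458) (B (L (nat_lit 457) ln13_13_1 ln13_13_1_ok) (L (nat_lit 459) ln14_13_1 ln14_13_1_ok))) (M (nat_lit 462) (B (L (nat_lit 461) ln10_13_0 ln10_13_0_ok) (L (nat_lit 463) ln11_13_0 ln11_13_0_ok))))) (M (nat_lit 431) (B (M (nat_lit 399) (B (L (nat_lit 398) ln11_13_2 ln11_13_2_ok) (L (nat_lit 400) ln12_13_2 ln12_13_2_ok))) (M (nat_lit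 463) (B (L (nat_lit 462) ln11_13_0 ln11_13_0_ok) (L (nat_lit 464) ln12_13_0 ln12_13_0_ok))))))))) (B (M (nat_lit 431) (B (M (nat_lit 432) (B (M (nat_lit 396) (B (L (nat_lit 395) ln15_13_3 ln15_13_3_ok) (L (nat_lit 397) ln16_13_3 ln16_13_3_ok))) (M (nat_lit 460) (B (L (nat_lit 459) ln15_13_1 ln15_13_1_ok) (L (nat_lit 461) ln16_13_1 ln16_13_1_ok))))) (B (M (nat_lit 427) (B (M (nat_lit 459) (B (L (nat_lit 458) ln14_13_1 ln14_13_1_ok) (L (nat_lit 460) ln15_13_1 ln15_13_1_ok))) (M (nat_lit 463) (B (L (nat_lit 462) ln11_13_0 ln11_13_0_ok) (L (nat_lit 464) ln12_13_0 ln12_13_0_ok))))) (M (nat_lit 432) (B (M (nat_lit 396) (B (L (nat_lit 395) ln15_13_3 ln15_13_3_ok) (L (nat_lit 397) ln16_13_3 ln16_13_3_ok))) (M (nat_lit 464) (B (L (nat_lit 463) ln12_13_0 ln12_13_0_ok) (L (nat_lit 465) ln13_13_0 ln13_13_0_ok)))))))) (B c32_n787 (B (K (nat_lit 4852171964711426004262224822250396481013764881907679006548339266075587288659844840319955210682244261670434619182456250700704776192)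 (nat_lit 2358726516282320683264613450156880137266377620023794907093059157814281355306263822608431966648595546297535614123868430667491954755588263945688947546899079744417393803264) (nat_lit 2358726516282320683264613450156880137266377620023794907093059157814281355306263822608431966648595546297535614123868430667491954755588263945688947546899079744417393803264) c32_s774) (B (M (nat_lit 431) (B (M (nat_lit 432) (B (M (nat_lit 396) (B (L (nat_lit 395) ln15_13_3 ln15_13_3_ok) (L (nat_lit 397) ln16_13_3 ln16_13_3_ok))) (M (nat_lit 460) (B (L (nat_lit 459) ln15_13_1 ln15_13_1_ok) (L (nat_lit 461) ln16_13_1 ln16_13_1_ok))))) (M (nat_lit 427) (B (M (nat_lit 399) (B (L (nat_lit 398) ln11_13_2 ln11_13_2_ok) (L (nat_lit 400) ln12_13_2 ln12_13_2_ok))) (M (nat_lit 463) (B (L (nat_lit 462) ln11_13_0 ln11_13_0_ok) (L (nat_lit 464) ln12_13_0 ln12_13_0_ok))))))) (M (nat_lit 431) (B (M (nat_lit 396) (B (L (nat_lit 395) ln15_13_3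 ln15_13_3_ok) (M (nat_lit 432) (B (L (nat_lit 397) ln16_13_3 ln16_13_3_ok) (M (nat_lit 400) (B (L (nat_lit 399) ln12_13_2 ln12_13_2_ok) (L (nat_lit 401) ln13_13_2 ln13_13_2_ok))))))) (B (M (nat_lit 427) (B (M (nat_lit 399) (B (L (nat_lit 398) ln11_13_2 ln11_13_2_ok) (L (nat_lit 400) ln12_13_2 ln12_13_2_ok))) (M (nat_lit 463) (B (L (nat_lit 462) ln11_13_0 ln11_13_0_ok) (L (nat_lit 464) ln12_13_0 ln12_13_0_ok))))) (M (nat_lit 432) (B (M (nat_lit 396) (B (L (nat_lit 395) ln15_13_3 ln15_13_3_ok) (L (nat_lit 397) ln16_13_3 ln16_13_3_ok))) (M (nat_lit 464) (B (L (nat_lit 463) ln12_13_0 ln12_13_0_ok) (L (nat_lit 465) ln13_13_0 ln13_13_0_ok))))))))))))))) (nat_lit 2079502270590611144683810638107312777577327806531862431377859685460965980854219217279980804578104683573043408221052678871730618368) (nat_lit 2358726516309779873924315912208194533437309006313580652483933475331187311183517469288795814352577029226752710393032227594717908795355857398647986844220326236903547338752)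 (nat_lit 2358726516309779873924315912208194533437309006313580652483933475331187311183517469288795814352577029226752710393032227594717908795355857398647986844220326236903547338752) (by decide +kernel)
theorem c32_s1104 : Sem (nat_lit 5954262831509113917970671778902343783532342804327837356357830143065656733685921768742376304727131933651871260571575937852568135413341880320) (nat_lit 1769044887046985368674053870561853970450167426718620811805069005120451976685380234675465699245666586606332434644301494107305710479146994974222427170511484891357226467328) (nat_lit 1769044887046985368674053870561853970450167426718620811805069005120451976685380234675465699245666586606332434644301494107305710479146994974222427170511484891357226467328) :=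
  sem_of_chk (M (nat_lit 460) (B (M (nat_lit 462) (B (M (nat_lit 463) (B (L (nat_lit 427) ln15_14_3 ln15_14_3_ok) (L (nat_lit 464) ln16_14_3 ln16_14_3_ok))) (M (nat_lit 493) (B (M (nat_lit 525) (B (L (nat_lit 396) ln13_16_7 ln13_16_7_ok) (L (nat_lit 557) ln13_17_7 ln13_17_7_ok))) (M (nat_lit 494) (B (M (nat_lit 526) (B (L (nat_lit 397) ln13_12_4 ln13_12_4_ok) (L (nat_lit 558) ln14_17_7 ln14_17_7_ok))) (M (nat_lit 459) (B (L (nat_lit 458) ln10_14_0 ln10_14_0_ok) (L (nat_lit 495) ln11_14_0 ln11_14_0_ok))))))))) (B (M (nat_lit 462) (B (M (nat_lit 427) (B (L (nat_lit 426) ln10_13_0 ln10_13_0_ok) (L (nat_lit 463) ln15_14_3 ln15_14_3_ok))) (B (M (nat_lit 463) (B (L (nat_lit 427) ln15_14_3 ln15_14_3_ok) (L (nat_lit 464) ln16_14_3 ln16_14_3_ok))) (B (M (nat_lit 463) (B (L (nat_lit 464) ln16_14_3 ln16_14_3_ok) (M (nat_lit 492) (B (L (nat_lit 491) ln15_14_1 ln15_14_1_ok) (M (nat_lit 397) (B (L (nat_lit 365) ln13_11_5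 ln13_11_5_ok) (L (nat_lit 524) ln12_16_6 ln12_16_6_ok))))))) (M (nat_lit 430) (B (M (nat_lit 431) (B (L (nat_lit 459) ln15_13_1 ln15_13_1_ok) (L (nat_lit 432) ln16_13_1 ln16_13_1_ok))) (B (M (nat_lit 494) (B (M (nat_lit 397) (B (L (nat_lit 365) ln13_11_4 ln13_11_4_ok) (L (nat_lit 526) ln14_16_7 ln14_16_7_ok))) (M (nat_lit 459) (B (L (nat_lit 458) ln10_14_2 ln10_14_2_ok) (L (nat_lit 495) ln11_14_0 ln11_14_0_ok))))) (M (nat_lit 399) (B (M (nat_lit 427) (B (L (nat_lit 398) ln11_13_2 ln11_13_2_ok) (L (nat_lit 426) ln10_13_0 ln10_13_0_ok))) (M (nat_lit 431) (B (L (nat_lit 400) ln12_13_2 ln12_13_2_ok) (L (nat_lit 432) ln16_13_1 ln16_13_1_ok)))))))))))) (B (M (nat_lit 427) (B (M (nat_lit 426) (B (L (nat_lit 425) ln9_13_0 ln9_13_0_ok) (L (nat_lit 462) ln10_13_0 ln10_13_0_ok))) (B (M (nat_lit 462) (B (L (nat_lit 426) ln10_13_0 ln10_13_0_ok) (L (nat_lit 463) ln15_14_3 ln15_14_3_ok))) (B (M (nat_lit 459) (B (M (nat_lit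 430) (B (L (nat_lit 458) ln14_13_1 ln14_13_1_ok) (L (nat_lit 431) ln15_13_1 ln15_13_1_ok))) (M (nat_lit 491) (B (M (nat_lit 396) (B (L (nat_lit 364) ln12_11_5 ln12_11_5_ok) (L (nat_lit 523) ln11_16_6 ln11_16_6_ok))) (M (nat_lit 462) (B (L (nat_lit 463) ln15_14_3 ln15_14_3_ok) (L (nat_lit 490) ln14_14_1 ln14_14_1_ok))))))) (M (nat_lit 430) (B (M (nat_lit 459) (B (L (nat_lit 458) ln14_13_1 ln14_13_1_ok) (L (nat_lit 431) ln15_13_1 ln15_13_1_ok))) (B (M (nat_lit 458) (B (L (nat_lit 459) ln14_13_1 ln14_13_1_ok) (M (nat_lit 426) (B (L (nat_lit 425) ln9_13_0 ln9_13_0_ok) (L (nat_lit 457) ln13_13_1 ln13_13_1_ok))))) (B (M (nat_lit 431) (B (L (nat_lit 459) ln15_13_1 ln15_13_1_ok) (L (nat_lit 432) ln16_13_1 ln16_13_1_ok))) (M (nat_lit 431) (B (L (nat_lit 432) ln16_13_1 ln16_13_1_ok) (M (nat_lit 399) (B (L (nat_lit 398) ln11_13_2 ln11_13_2_ok) (L (nat_lit 400) ln12_13_2 ln12_13_2_ok))))))))))))) (B (M (nat_lit 462)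 (B (M (nat_lit 463) (B (L (nat_lit 464) ln16_14_3 ln16_14_3_ok) (M (nat_lit 492) (B (L (nat_lit 491) ln15_14_1 ln15_14_1_ok) (M (nat_lit 397) (B (L (nat_lit 365) ln13_11_5 ln13_11_5_ok) (L (nat_lit 524) ln12_16_6 ln12_16_6_ok))))))) (B (M (nat_lit 463) (B (L (nat_lit 464) ln16_14_3 ln16_14_3_ok) (M (nat_lit 459) (B (M (nat_lit 431) (B (L (nat_lit 430) ln15_13_1 ln15_13_1_ok) (L (nat_lit 432) ln12_14_2 ln12_14_2_ok))) (M (nat_lit 491) (B (L (nat_lit 490) ln14_14_1 ln14_14_1_ok) (L (nat_lit 492) ln15_14_1 ln15_14_1_ok))))))) (M (nat_lit 493) (B (M (nat_lit 525) (B (L (nat_lit 396) ln13_16_7 ln13_16_7_ok) (L (nat_lit 557) ln13_17_7 ln13_17_7_ok))) (M (nat_lit 494) (B (M (nat_lit 526) (B (L (nat_lit 397) ln13_12_4 ln13_12_4_ok) (L (nat_lit 558) ln14_17_7 ln14_17_7_ok))) (M (nat_lit 459) (B (L (nat_lit 458) ln10_14_0 ln10_14_0_ok) (L (nat_lit 495) ln11_14_0 ln11_14_0_ok)))))))))) (B (M (nat_lit 493) (B (M (nat_lit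 396) (B (L (nat_lit 364) ln12_11_4 ln12_11_4_ok) (L (nat_lit 525) ln13_16_7 ln13_16_7_ok))) (B (M (nat_lit 525) (B (L (nat_lit 396) ln13_16_7 ln13_16_7_ok) (L (nat_lit 557) ln13_17_7 ln13_17_7_ok))) (B (M (nat_lit 430) (B (M (nat_lit 525) (B (L (nat_lit 398) ln13_16_6 ln13_16_6_ok) (L (nat_lit 557) ln13_17_7 ln13_17_7_ok))) (M (nat_lit 431) (B (L (nat_lit 459) ln15_13_1 ln15_13_1_ok) (L (nat_lit 432) ln16_13_1 ln16_13_1_ok))))) (M (nat_lit 492) (B (M (nat_lit 524) (B (L (nat_lit 397) ln12_16_6 ln12_16_6_ok) (L (nat_lit 556) ln12_17_6 ln12_17_6_ok))) (M (nat_lit 491) (B (M (nat_lit 396) (B (L (nat_lit 364) ln12_11_4 ln12_11_4_ok) (L (nat_lit 523) ln12_12_5 ln12_12_5_ok))) (M (nat_lit 490) (B (L (nat_lit 489) ln9_15_2 ln9_15_2_ok) (L (nat_lit 462) ln10_15_2 ln10_15_2_ok))))))))))) (B (M (nat_lit 493) (B (M (nat_lit 396) (B (L (nat_lit 364) ln12_11_4 ln12_11_4_ok) (L (nat_lit 525) ln13_16_7 ln13_16_7_ok)))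 (B (M (nat_lit 525) (B (L (nat_lit 396) ln13_16_7 ln13_16_7_ok) (L (nat_lit 557) ln13_17_7 ln13_17_7_ok))) (B (M (nat_lit 525) (B (L (nat_lit 557) ln13_17_7 ln13_17_7_ok) (M (nat_lit 397) (B (M (nat_lit 524) (B (L (nat_lit 492) ln12_16_6 ln12_16_6_ok) (L (nat_lit 556) ln13_13_5 ln13_13_5_ok))) (M (nat_lit 526) (B (L (nat_lit 494) ln13_12_4 ln13_12_4_ok) (L (nat_lit 558) ln13_13_4 ln13_13_4_ok))))))) (M (nat_lit 492) (B (M (nat_lit 524) (B (L (nat_lit 397) ln12_16_6 ln12_16_6_ok) (L (nat_lit 556) ln12_17_6 ln12_17_6_ok))) (M (nat_lit 491) (B (M (nat_lit 396) (B (L (nat_lit 364) ln12_11_4 ln12_11_4_ok) (L (nat_lit 523) ln12_12_5 ln12_12_5_ok))) (M (nat_lit 490) (B (L (nat_lit 489) ln9_15_2 ln9_15_2_ok) (L (nat_lit 462) ln10_15_2 ln10_15_2_ok))))))))))) (M (nat_lit 492) (B (M (nat_lit 397) (B (L (nat_lit 365) ln13_11_5 ln13_11_5_ok) (L (nat_lit 524) ln12_16_6 ln12_16_6_ok))) (B (M (nat_lit 524) (B (L (nat_lit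 397) ln12_16_6 ln12_16_6_ok) (L (nat_lit 556) ln12_17_6 ln12_17_6_ok))) (B (M (nat_lit 524) (B (L (nat_lit 556) ln12_17_6 ln12_17_6_ok) (M (nat_lit 396) (B (M (nat_lit 525) (B (L (nat_lit 493) ln13_16_7 ln13_16_7_ok) (L (nat_lit 557) ln12_13_4 ln12_13_4_ok))) (M (nat_lit 523) (B (L (nat_lit 491) ln12_12_5 ln12_12_5_ok) (L (nat_lit 555) ln12_13_5 ln12_13_5_ok))))))) (M (nat_lit 493) (B (M (nat_lit 396) (B (L (nat_lit 364) ln12_11_4 ln12_11_4_ok) (L (nat_lit 525) ln13_16_7 ln13_16_7_ok))) (M (nat_lit 494) (B (M (nat_lit 397) (B (L (nat_lit 365) ln13_11_5 ln13_11_5_ok) (L (nat_lit 526) ln13_12_4 ln13_12_4_ok))) (M (nat_lit 459) (B (L (nat_lit 458) ln10_14_0 ln10_14_0_ok) (L (nat_lit 495) ln15_15_3 ln15_15_3_ok)))))))))))))))))) (nat_lit 5954262831509113917970671778902343783532342804327837356357830143065656733685921768742376304727131933651871260571575937852568135413341880320) (nat_lit 1769044887046985368674053870561853970450167426718620811805069005120451976685380234675465699245666586606332434644301494107305710479146994974222427170511484891357226467328)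 (nat_lit 1769044887046985368674053870561853970450167426718620811805069005120451976685380234675465699245666586606332434644301494107305710479146994974222427170511484891357226467328) (by decide +kernel)
theorem c32_s1207 : Sem (nat_lit 5954262831509113917970671778902343783532342804327837356357830143065656733685921768742376304727131933651871260571575937852568135413341880320) (nat_lit 1769044887046985368674053870561853970450167426714101874518416915088554118134374963895388714108215445458878780770355360768776238388545115605982185965498654340404918353920) (nat_lit 1769044887046985368674053870561853970450167426714101874518416915088554118134374963895388714108215445458878780770355360768776238388545115605982185965498654340404918353920) :=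
  sem_of_chk (M (nat_lit 460) (B (M (nat_lit 462) (B (M (nat_lit 463) (B (L (nat_lit 427) ln15_14_3 ln15_14_3_ok) (L (nat_lit 464) ln16_14_3 ln16_14_3_ok))) (M (nat_lit 493) (B (M (nat_lit 525) (B (L (nat_lit 396) ln13_16_7 ln13_16_7_ok) (L (nat_lit 557) ln13_17_7 ln13_17_7_ok))) (M (nat_lit 494) (B (M (nat_lit 526) (B (L (nat_lit 397) ln13_12_4 ln13_12_4_ok) (L (nat_lit 558) ln14_17_7 ln14_17_7_ok))) (M (nat_lit 459) (B (L (nat_lit 458) ln10_14_0 ln10_14_0_ok) (L (nat_lit 495) ln11_14_0 ln11_14_0_ok))))))))) (B (M (nat_lit 462) (B (M (nat_lit 463) (B (L (nat_lit 427) ln15_14_3 ln15_14_3_ok) (L (nat_lit 464) ln16_14_3 ln16_14_3_ok))) (M (nat_lit 494) (B (M (nat_lit 397) (B (L (nat_lit 365) ln13_11_4 ln13_11_4_ok) (M (nat_lit 526) (B (L (nat_lit 493) ln13_12_4 ln13_12_4_ok) (L (nat_lit 558) ln14_17_7 ln14_17_7_ok))))) (M (nat_lit 459) (B (L (nat_lit 495) ln11_14_0 ln11_14_0_ok) (M (nat_lit 430) (B (L (nat_lit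 431) ln15_13_1 ln15_13_1_ok) (L (nat_lit 458) ln10_14_2 ln10_14_2_ok))))))))) (B (M (nat_lit 427) (B (M (nat_lit 426) (B (L (nat_lit 425) ln9_13_0 ln9_13_0_ok) (L (nat_lit 462) ln10_13_0 ln10_13_0_ok))) (B (M (nat_lit 462) (B (L (nat_lit 426) ln10_13_0 ln10_13_0_ok) (L (nat_lit 463) ln15_14_3 ln15_14_3_ok))) (B (M (nat_lit 459) (B (M (nat_lit 430) (B (L (nat_lit 458) ln14_13_1 ln14_13_1_ok) (L (nat_lit 431) ln15_13_1 ln15_13_1_ok))) (M (nat_lit 491) (B (M (nat_lit 396) (B (L (nat_lit 364) ln12_11_5 ln12_11_5_ok) (L (nat_lit 523) ln11_16_6 ln11_16_6_ok))) (M (nat_lit 462) (B (L (nat_lit 463) ln15_14_3 ln15_14_3_ok) (L (nat_lit 490) ln14_14_1 ln14_14_1_ok))))))) (M (nat_lit 493) (B (M (nat_lit 396) (B (L (nat_lit 364) ln12_11_4 ln12_11_4_ok) (L (nat_lit 525) ln13_16_7 ln13_16_7_ok))) (M (nat_lit 458) (B (M (nat_lit 426) (B (L (nat_lit 425) ln9_13_0 ln9_13_0_ok) (L (nat_lit 457) ln13_13_1 ln13_13_1_ok))) (M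 (nat_lit 459) (B (L (nat_lit 430) ln14_13_1 ln14_13_1_ok) (L (nat_lit 494) ln10_14_0 ln10_14_0_ok))))))))))) (B (M (nat_lit 462) (B (M (nat_lit 463) (B (L (nat_lit 464) ln16_14_3 ln16_14_3_ok) (M (nat_lit 492) (B (L (nat_lit 491) ln15_14_1 ln15_14_1_ok) (M (nat_lit 397) (B (L (nat_lit 365) ln13_11_5 ln13_11_5_ok) (L (nat_lit 524) ln12_16_6 ln12_16_6_ok))))))) (B (M (nat_lit 463) (B (L (nat_lit 464) ln16_14_3 ln16_14_3_ok) (M (nat_lit 459) (B (M (nat_lit 431) (B (L (nat_lit 430) ln15_13_1 ln15_13_1_ok) (L (nat_lit 432) ln12_14_2 ln12_14_2_ok))) (M (nat_lit 491) (B (L (nat_lit 490) ln14_14_1 ln14_14_1_ok) (L (nat_lit 492) ln15_14_1 ln15_14_1_ok))))))) (M (nat_lit 494) (B (M (nat_lit 397) (B (L (nat_lit 365) ln13_11_4 ln13_11_4_ok) (M (nat_lit 526) (B (L (nat_lit 493) ln13_12_4 ln13_12_4_ok) (L (nat_lit 558) ln14_17_7 ln14_17_7_ok))))) (M (nat_lit 459) (B (L (nat_lit 495) ln11_14_0 ln11_14_0_ok) (M (nat_lit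 430) (B (L (nat_lit 431) ln15_13_1 ln15_13_1_ok) (L (nat_lit 458) ln10_14_2 ln10_14_2_ok)))))))))) (B (M (nat_lit 493) (B (M (nat_lit 396) (B (L (nat_lit 364) ln12_11_4 ln12_11_4_ok) (L (nat_lit 525) ln13_16_7 ln13_16_7_ok))) (B (M (nat_lit 525) (B (L (nat_lit 396) ln13_16_7 ln13_16_7_ok) (L (nat_lit 557) ln13_17_7 ln13_17_7_ok))) (B (M (nat_lit 525) (B (L (nat_lit 557) ln13_17_7 ln13_17_7_ok) (M (nat_lit 397) (B (M (nat_lit 524) (B (L (nat_lit 492) ln12_16_6 ln12_16_6_ok) (L (nat_lit 556) ln13_13_5 ln13_13_5_ok))) (M (nat_lit 526) (B (L (nat_lit 494) ln13_12_4 ln13_12_4_ok) (L (nat_lit 558) ln13_13_4 ln13_13_4_ok))))))) (M (nat_lit 492) (B (M (nat_lit 524) (B (L (nat_lit 397) ln12_16_6 ln12_16_6_ok) (L (nat_lit 556) ln12_17_6 ln12_17_6_ok))) (M (nat_lit 491) (B (M (nat_lit 396) (B (L (nat_lit 364) ln12_11_4 ln12_11_4_ok) (L (nat_lit 523) ln12_12_5 ln12_12_5_ok))) (M (nat_lit 490) (B (L (nat_lit 489) ln9_15_2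 ln9_15_2_ok) (L (nat_lit 462) ln10_15_2 ln10_15_2_ok))))))))))) (B (M (nat_lit 492) (B (M (nat_lit 397) (B (L (nat_lit 365) ln13_11_5 ln13_11_5_ok) (L (nat_lit 524) ln12_16_6 ln12_16_6_ok))) (B (M (nat_lit 524) (B (L (nat_lit 397) ln12_16_6 ln12_16_6_ok) (L (nat_lit 556) ln12_17_6 ln12_17_6_ok))) (B (M (nat_lit 524) (B (L (nat_lit 556) ln12_17_6 ln12_17_6_ok) (M (nat_lit 396) (B (M (nat_lit 525) (B (L (nat_lit 493) ln13_16_7 ln13_16_7_ok) (L (nat_lit 557) ln12_13_4 ln12_13_4_ok))) (M (nat_lit 523) (B (L (nat_lit 491) ln12_12_5 ln12_12_5_ok) (L (nat_lit 555) ln12_13_5 ln12_13_5_ok))))))) (M (nat_lit 493) (B (M (nat_lit 396) (B (L (nat_lit 364) ln12_11_4 ln12_11_4_ok) (L (nat_lit 525) ln13_16_7 ln13_16_7_ok))) (M (nat_lit 494) (B (M (nat_lit 397) (B (L (nat_lit 365) ln13_11_5 ln13_11_5_ok) (L (nat_lit 526) ln13_12_4 ln13_12_4_ok))) (M (nat_lit 459) (B (L (nat_lit 458) ln10_14_0 ln10_14_0_ok) (L (nat_lit 495)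 ln15_15_3 ln15_15_3_ok))))))))))) (B (M (nat_lit 430) (B (M (nat_lit 431) (B (L (nat_lit 459) ln15_13_1 ln15_13_1_ok) (L (nat_lit 432) ln16_13_1 ln16_13_1_ok))) (B (M (nat_lit 462) (B (M (nat_lit 427) (B (L (nat_lit 426) ln10_13_0 ln10_13_0_ok) (L (nat_lit 463) ln11_13_0 ln11_13_0_ok))) (B (M (nat_lit 463) (B (L (nat_lit 427) ln11_13_0 ln11_13_0_ok) (L (nat_lit 464) ln16_14_3 ln16_14_3_ok))) (B (M (nat_lit 492) (B (M (nat_lit 397) (B (L (nat_lit 365) ln13_11_5 ln13_11_5_ok) (L (nat_lit 524) ln12_16_6 ln12_16_6_ok))) (M (nat_lit 463) (B (L (nat_lit 464) ln16_14_3 ln16_14_3_ok) (L (nat_lit 491) ln15_14_1 ln15_14_1_ok))))) (M (nat_lit 494) (B (M (nat_lit 397) (B (L (nat_lit 365) ln13_11_4 ln13_11_4_ok) (L (nat_lit 526) ln14_16_7 ln14_16_7_ok))) (M (nat_lit 459) (B (L (nat_lit 458) ln10_14_2 ln10_14_2_ok) (L (nat_lit 495) ln11_14_0 ln11_14_0_ok))))))))) (M (nat_lit 492) (B (M (nat_lit 397) (B (L (nat_lit 365)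 ln13_11_5 ln13_11_5_ok) (L (nat_lit 524) ln12_16_6 ln12_16_6_ok))) (M (nat_lit 463) (B (M (nat_lit 431) (B (L (nat_lit 464) ln12_13_0 ln12_13_0_ok) (L (nat_lit 432) ln16_13_1 ln16_13_1_ok))) (M (nat_lit 462) (B (L (nat_lit 427) ln11_13_0 ln11_13_0_ok) (L (nat_lit 491) ln15_14_1 ln15_14_1_ok)))))))))) (M (nat_lit 459) (B (M (nat_lit 458) (B (L (nat_lit 457) ln9_14_2 ln9_14_2_ok) (L (nat_lit 430) ln10_14_2 ln10_14_2_ok))) (M (nat_lit 492) (B (M (nat_lit 524) (B (L (nat_lit 397) ln12_16_6 ln12_16_6_ok) (L (nat_lit 556) ln12_17_6 ln12_17_6_ok))) (M (nat_lit 491) (B (M (nat_lit 396) (B (L (nat_lit 364) ln12_11_5 ln12_11_5_ok) (L (nat_lit 523) ln12_12_5 ln12_12_5_ok))) (M (nat_lit 462) (B (L (nat_lit 490) ln14_14_1 ln14_14_1_ok) (L (nat_lit 463) ln15_14_1 ln15_14_1_ok))))))))))))))))) (nat_lit 5954262831509113917970671778902343783532342804327837356357830143065656733685921768742376304727131933651871260571575937852568135413341880320)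 (nat_lit 1769044887046985368674053870561853970450167426714101874518416915088554118134374963895388714108215445458878780770355360768776238388545115605982185965498654340404918353920) (nat_lit 1769044887046985368674053870561853970450167426714101874518416915088554118134374963895388714108215445458878780770355360768776238388545115605982185965498654340404918353920) (by decide +kernel)
noncomputable def c32_n1525 : Cert := (M (nat_lit 430) (B (M (nat_lit 427) (B (L (nat_lit 426) ln10_13_0 ln10_13_0_ok) (M (nat_lit 459) (B (L (nat_lit 458) ln14_13_1 ln14_13_1_ok) (M (nat_lit 431) (B (L (nat_lit 460) ln15_13_1 ln15_13_1_ok) (M (nat_lit 399) (B (L (nat_lit 398) ln11_13_2 ln11_13_2_ok) (L (nat_lit 400) ln12_13_2 ln12_13_2_ok))))))))) (B (M (nat_lit 431) (B (M (nat_lit 460) (B (L (nat_lit 459) ln15_13_1 ln15_13_1_ok) (L (nat_lit 432) ln16_13_1 ln16_13_1_ok))) (B (M (nat_lit 459) (B (L (nat_lit 460) ln15_13_1 ln15_13_1_ok)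 (M (nat_lit 427) (B (L (nat_lit 426) ln10_13_0 ln10_13_0_ok) (L (nat_lit 458) ln14_13_1 ln14_13_1_ok))))) (B (M (nat_lit 432) (B (L (nat_lit 460) ln16_13_1 ln16_13_1_ok) (L (nat_lit 433) ln17_13_1 ln17_13_1_ok))) (M (nat_lit 400) (B (L (nat_lit 399) ln12_13_2 ln12_13_2_ok) (M (nat_lit 432) (B (L (nat_lit 401) ln13_13_2 ln13_13_2_ok) (L (nat_lit 433) ln17_13_1 ln17_13_1_ok))))))))) (B (M (nat_lit 431) (B (M (nat_lit 460) (B (L (nat_lit 459) ln15_13_1 ln15_13_1_ok) (L (nat_lit 432) ln16_13_1 ln16_13_1_ok))) (B (M (nat_lit 459) (B (L (nat_lit 460) ln15_13_1 ln15_13_1_ok) (M (nat_lit 427) (B (L (nat_lit 426) ln10_13_0 ln10_13_0_ok) (L (nat_lit 458) ln14_13_1 ln14_13_1_ok))))) (B (M (nat_lit 432) (B (L (nat_lit 460) ln16_13_1 ln16_13_1_ok) (L (nat_lit 433) ln17_13_1 ln17_13_1_ok))) (M (nat_lit 397) (B (M (nat_lit 365) (B (L (nat_lit 333) ln13_10_4 ln13_10_4_ok) (L (nat_lit 494) ln13_11_4 ln13_11_4_ok))) (M (nat_lit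 432) (B (L (nat_lit 396) ln16_13_3 ln16_13_3_ok) (L (nat_lit 433) ln17_13_1 ln17_13_1_ok))))))))) (B (M (nat_lit 431) (B (M (nat_lit 460) (B (L (nat_lit 459) ln15_13_1 ln15_13_1_ok) (L (nat_lit 432) ln16_13_1 ln16_13_1_ok))) (B (M (nat_lit 427) (B (M (nat_lit 399) (B (L (nat_lit 398) ln11_13_2 ln11_13_2_ok) (L (nat_lit 400) ln12_13_2 ln12_13_2_ok))) (M (nat_lit 459) (B (L (nat_lit 458) ln14_13_1 ln14_13_1_ok) (L (nat_lit 460) ln15_13_1 ln15_13_1_ok))))) (B (M (nat_lit 432) (B (L (nat_lit 460) ln16_13_1 ln16_13_1_ok) (L (nat_lit 433) ln17_13_1 ln17_13_1_ok))) (M (nat_lit 397) (B (M (nat_lit 365) (B (L (nat_lit 333) ln13_10_4 ln13_10_4_ok) (L (nat_lit 494) ln13_11_4 ln13_11_4_ok))) (M (nat_lit 432) (B (L (nat_lit 396) ln16_13_3 ln16_13_3_ok) (L (nat_lit 433) ln17_13_1 ln17_13_1_ok))))))))) (B (M (nat_lit 431) (B (M (nat_lit 460) (B (L (nat_lit 459) ln15_13_1 ln15_13_1_ok) (L (nat_lit 432) ln16_13_1 ln16_13_1_ok)))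 (M (nat_lit 399) (B (L (nat_lit 400) ln12_13_2 ln12_13_2_ok) (M (nat_lit 494) (B (L (nat_lit 526) ln14_16_6 ln14_16_6_ok) (M (nat_lit 367) (B (L (nat_lit 335) ln15_10_5 ln15_10_5_ok) (L (nat_lit 398) ln14_15_6 ln14_15_6_ok))))))))) (B (M (nat_lit 427) (B (L (nat_lit 426) ln10_13_0 ln10_13_0_ok) (M (nat_lit 494) (B (M (nat_lit 397) (B (L (nat_lit 365) ln13_11_4 ln13_11_4_ok) (L (nat_lit 526) ln14_16_7 ln14_16_7_ok))) (M (nat_lit 495) (B (M (nat_lit 398) (B (L (nat_lit 399) ln11_13_2 ln11_13_2_ok) (L (nat_lit 527) ln14_12_4 ln14_12_4_ok))) (M (nat_lit 459) (B (L (nat_lit 458) ln14_13_1 ln14_13_1_ok) (L (nat_lit 460) ln11_14_0 ln11_14_0_ok))))))))) (B (M (nat_lit 427) (B (L (nat_lit 426) ln10_13_0 ln10_13_0_ok) (M (nat_lit 431) (B (M (nat_lit 399) (B (L (nat_lit 398) ln11_13_2 ln11_13_2_ok) (L (nat_lit 400) ln12_13_2 ln12_13_2_ok))) (M (nat_lit 432) (B (L (nat_lit 460) ln16_13_1 ln16_13_1_ok) (L (nat_lit 433)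 ln17_13_1 ln17_13_1_ok))))))) (M (nat_lit 431) (B (M (nat_lit 427) (B (L (nat_lit 426) ln10_13_0 ln10_13_0_ok) (M (nat_lit 399) (B (L (nat_lit 398) ln11_13_2 ln11_13_2_ok) (L (nat_lit 400) ln12_13_2 ln12_13_2_ok))))) (M (nat_lit 397) (B (M (nat_lit 365) (B (L (nat_lit 333) ln13_10_4 ln13_10_4_ok) (L (nat_lit 494) ln13_11_4 ln13_11_4_ok))) (M (nat_lit 432) (B (L (nat_lit 396) ln16_13_3 ln16_13_3_ok) (L (nat_lit 433) ln17_13_1 ln17_13_1_ok)))))))))))))))
theorem c32_s1526 : Sem (nat_lit 5954262831509113917970671778902343783532342804327837356357830143065656733685921768742376304727131933651871260571575937852568135413341880320) (nat_lit 713938956829400288895752230476625631180459254211352155643687745878762578100238543657567676492707163678447168489879360871606434710088691403563943897809746395136) (nat_lit 713938956829400288895752230476625631180459254211352155643687745878762578100238543657567676492707163678447168489879360871606434710088691403563943897809746395136)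 :=
  sem_of_chk (M (nat_lit 462) (B (M (nat_lit 427) (B (L (nat_lit 426) ln10_13_0 ln10_13_0_ok) (M (nat_lit 463) (B (L (nat_lit 430) ln11_13_0 ln11_13_0_ok) (L (nat_lit 464) ln16_14_3 ln16_14_3_ok))))) (B (M (nat_lit 463) (B (L (nat_lit 464) ln16_14_3 ln16_14_3_ok) (M (nat_lit 427) (B (L (nat_lit 430) ln11_13_0 ln11_13_0_ok) (L (nat_lit 460) ln15_14_3 ln15_14_3_ok))))) (B (M (nat_lit 431) (B (M (nat_lit 463) (B (L (nat_lit 464) ln16_14_3 ln16_14_3_ok) (M (nat_lit 460) (B (L (nat_lit 432) ln12_14_2 ln12_14_2_ok) (M (nat_lit 459) (B (L (nat_lit 430) ln15_13_1 ln15_13_1_ok) (M (nat_lit 491) (B (L (nat_lit 490) ln14_14_1 ln14_14_1_ok) (L (nat_lit 492) ln15_14_1 ln15_14_1_ok))))))))) (B (M (nat_lit 463) (B (L (nat_lit 464) ln16_14_3 ln16_14_3_ok) (M (nat_lit 460) (B (L (nat_lit 432) ln12_14_2 ln12_14_2_ok) (M (nat_lit 492) (B (L (nat_lit 491) ln15_14_1 ln15_14_1_ok) (M (nat_lit 397) (B (L (nat_lit 365) ln13_11_5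 ln13_11_5_ok) (L (nat_lit 524) ln12_16_6 ln12_16_6_ok))))))))) (B (M (nat_lit 430) (B (M (nat_lit 463) (B (L (nat_lit 464) ln12_13_0 ln12_13_0_ok) (M (nat_lit 399) (B (L (nat_lit 400) ln12_13_2 ln12_13_2_ok) (M (nat_lit 367) (B (L (nat_lit 335) ln15_10_5 ln15_10_5_ok) (L (nat_lit 494) ln15_11_5 ln15_11_5_ok))))))) (B (M (nat_lit 463) (B (L (nat_lit 464) ln12_13_0 ln12_13_0_ok) (M (nat_lit 399) (B (L (nat_lit 400) ln12_13_2 ln12_13_2_ok) (M (nat_lit 494) (B (L (nat_lit 367) ln15_11_5 ln15_11_5_ok) (L (nat_lit 526) ln14_16_6 ln14_16_6_ok))))))) (B (M (nat_lit 460) (B (L (nat_lit 459) ln15_13_1 ln15_13_1_ok) (M (nat_lit 492) (B (M (nat_lit 397) (B (L (nat_lit 365) ln13_11_5 ln13_11_5_ok) (L (nat_lit 524) ln12_16_6 ln12_16_6_ok))) (M (nat_lit 463) (B (L (nat_lit 464) ln12_13_0 ln12_13_0_ok) (L (nat_lit 491) ln15_14_1 ln15_14_1_ok))))))) (M (nat_lit 399) (B (L (nat_lit 400) ln12_13_2 ln12_13_2_ok) (M (nat_lit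 494) (B (L (nat_lit 526) ln14_16_6 ln14_16_6_ok) (M (nat_lit 367) (B (L (nat_lit 335) ln15_10_5 ln15_10_5_ok) (L (nat_lit 398) ln14_15_6 ln14_15_6_ok))))))))))) (B (M (nat_lit 430) (B (M (nat_lit 464) (B (L (nat_lit 463) ln12_13_0 ln12_13_0_ok) (M (nat_lit 432) (B (L (nat_lit 465) ln13_13_0 ln13_13_0_ok) (L (nat_lit 433) ln17_13_1 ln17_13_1_ok))))) (M (nat_lit 399) (B (L (nat_lit 400) ln12_13_2 ln12_13_2_ok) (M (nat_lit 494) (B (L (nat_lit 526) ln14_16_6 ln14_16_6_ok) (M (nat_lit 367) (B (L (nat_lit 335) ln15_10_5 ln15_10_5_ok) (L (nat_lit 398) ln14_15_6 ln14_15_6_ok))))))))) (M (nat_lit 430) (B (M (nat_lit 460) (B (L (nat_lit 459) ln15_13_1 ln15_13_1_ok) (L (nat_lit 432) ln16_13_1 ln16_13_1_ok))) (M (nat_lit 399) (B (L (nat_lit 400) ln12_13_2 ln12_13_2_ok) (M (nat_lit 494) (B (L (nat_lit 526) ln14_16_6 ln14_16_6_ok) (M (nat_lit 367) (B (L (nat_lit 335) ln15_10_5 ln15_10_5_ok) (L (nat_lit 398) ln14_15_6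 ln14_15_6_ok)))))))))))))) (B (M (nat_lit 463) (B (L (nat_lit 464) ln16_14_3 ln16_14_3_ok) (M (nat_lit 427) (B (L (nat_lit 426) ln10_13_0 ln10_13_0_ok) (L (nat_lit 460) ln15_14_3 ln15_14_3_ok))))) c32_n1525))))) (nat_lit 5954262831509113917970671778902343783532342804327837356357830143065656733685921768742376304727131933651871260571575937852568135413341880320) (nat_lit 713938956829400288895752230476625631180459254211352155643687745878762578100238543657567676492707163678447168489879360871606434710088691403563943897809746395136) (nat_lit 713938956829400288895752230476625631180459254211352155643687745878762578100238543657567676492707163678447168489879360871606434710088691403563943897809746395136) (by decide +kernel)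
theorem c32_s1527 : Sem (nat_lit 2079502270590611144683810638107312777577327806531862431377859685460965980854219217279980804578104683573043408221052678871730618368) (nat_lit 1769044887486332418922412892422104160427281023551507955719130933689946403750956501024945087038216416951319282036298940480007172814277597480073118927476670445577073328128) (nat_lit 1769044887486332418922412892422104160427281023551507955719130933689946403750956501024945087038216416951319282036298940480007172814277597480073118927476670445577073328128) :=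
  sem_of_chk (M (nat_lit 461) (B (M (nat_lit 462) (B (M (nat_lit 427) (B (L (nat_lit 426) ln10_13_0 ln10_13_0_ok) (M (nat_lit 463) (B (L (nat_lit 430) ln11_13_0 ln11_13_0_ok) (L (nat_lit 464) ln16_14_3 ln16_14_3_ok))))) (B (M (nat_lit 463) (B (L (nat_lit 464) ln16_14_3 ln16_14_3_ok) (M (nat_lit 427) (B (L (nat_lit 430) ln11_13_0 ln11_13_0_ok) (L (nat_lit 460) ln15_14_3 ln15_14_3_ok))))) (B (M (nat_lit 460) (B (M (nat_lit 463) (B (L (nat_lit 464) ln16_14_3 ln16_14_3_ok) (M (nat_lit 492) (B (L (nat_lit 491) ln15_14_1 ln15_14_1_ok) (M (nat_lit 397) (B (L (nat_lit 365) ln13_11_5 ln13_11_5_ok) (L (nat_lit 524) ln12_16_6 ln12_16_6_ok))))))) (B (M (nat_lit 463) (B (L (nat_lit 464) ln16_14_3 ln16_14_3_ok) (M (nat_lit 459) (B (M (nat_lit 431) (B (L (nat_lit 430) ln15_13_1 ln15_13_1_ok) (L (nat_lit 432) ln12_14_2 ln12_14_2_ok))) (M (nat_lit 491) (B (L (nat_lit 490) ln14_14_1 ln14_14_1_ok) (L (nat_lit 492) ln15_14_1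 ln15_14_1_ok))))))) (M (nat_lit 493) (B (M (nat_lit 525) (B (L (nat_lit 396) ln13_16_7 ln13_16_7_ok) (L (nat_lit 557) ln13_17_7 ln13_17_7_ok))) (M (nat_lit 494) (B (M (nat_lit 397) (B (L (nat_lit 365) ln13_11_4 ln13_11_4_ok) (L (nat_lit 526) ln13_12_4 ln13_12_4_ok))) (M (nat_lit 459) (B (L (nat_lit 458) ln10_14_0 ln10_14_0_ok) (L (nat_lit 495) ln11_14_0 ln11_14_0_ok)))))))))) (B (M (nat_lit 463) (B (L (nat_lit 464) ln16_14_3 ln16_14_3_ok) (M (nat_lit 427) (B (L (nat_lit 426) ln10_13_0 ln10_13_0_ok) (L (nat_lit 460) ln15_14_3 ln15_14_3_ok))))) (M (nat_lit 397) (B (M (nat_lit 494) (B (L (nat_lit 365) ln13_11_4 ln13_11_4_ok) (M (nat_lit 526) (B (L (nat_lit 430) ln14_16_7 ln14_16_7_ok) (L (nat_lit 493) ln13_12_4 ln13_12_4_ok))))) (B (M (nat_lit 398) (B (M (nat_lit 493) (B (L (nat_lit 366) ln13_15_6 ln13_15_6_ok) (M (nat_lit 396) (B (L (nat_lit 364) ln13_15_7 ln13_15_7_ok) (L (nat_lit 525) ln13_16_7 ln13_16_7_ok)))))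 (B (M (nat_lit 493) (B (L (nat_lit 366) ln13_15_6 ln13_15_6_ok) (M (nat_lit 525) (B (L (nat_lit 396) ln13_16_7 ln13_16_7_ok) (L (nat_lit 430) ln13_16_6 ln13_16_6_ok))))) (M (nat_lit 427) (B (L (nat_lit 426) ln10_13_2 ln10_13_2_ok) (M (nat_lit 399) (B (L (nat_lit 400) ln16_12_1 ln16_12_1_ok) (L (nat_lit 430) ln11_13_2 ln11_13_2_ok)))))))) (B (M (nat_lit 494) (B (L (nat_lit 365) ln13_11_4 ln13_11_4_ok) (M (nat_lit 526) (B (L (nat_lit 493) ln13_12_4 ln13_12_4_ok) (L (nat_lit 558) ln14_17_7 ln14_17_7_ok))))) (M (nat_lit 494) (B (L (nat_lit 365) ln13_11_4 ln13_11_4_ok) (M (nat_lit 526) (B (L (nat_lit 430) ln14_16_7 ln14_16_7_ok) (L (nat_lit 558) ln14_17_7 ln14_17_7_ok)))))))))))))) (B (M (nat_lit 397) (B (M (nat_lit 398) (B (M (nat_lit 493) (B (L (nat_lit 366) ln13_15_6 ln13_15_6_ok) (M (nat_lit 525) (B (L (nat_lit 396) ln13_16_7 ln13_16_7_ok) (L (nat_lit 430) ln13_16_6 ln13_16_6_ok))))) (B (M (nat_lit 427) (B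 (L (nat_lit 426) ln10_13_2 ln10_13_2_ok) (M (nat_lit 399) (B (L (nat_lit 396) ln15_12_1 ln15_12_1_ok) (L (nat_lit 400) ln16_12_1 ln16_12_1_ok))))) (M (nat_lit 427) (B (L (nat_lit 426) ln10_13_2 ln10_13_2_ok) (M (nat_lit 399) (B (L (nat_lit 400) ln16_12_1 ln16_12_1_ok) (L (nat_lit 430) ln11_13_2 ln11_13_2_ok)))))))) (B (M (nat_lit 462) (B (M (nat_lit 494) (B (L (nat_lit 365) ln13_11_4 ln13_11_4_ok) (M (nat_lit 526) (B (L (nat_lit 430) ln14_16_7 ln14_16_7_ok) (L (nat_lit 558) ln14_17_7 ln14_17_7_ok))))) (B (M (nat_lit 427) (B (L (nat_lit 426) ln10_13_0 ln10_13_0_ok) (M (nat_lit 463) (B (L (nat_lit 430) ln11_13_0 ln11_13_0_ok) (L (nat_lit 464) ln16_14_3 ln16_14_3_ok))))) (M (nat_lit 427) (B (L (nat_lit 426) ln10_13_0 ln10_13_0_ok) (M (nat_lit 463) (B (L (nat_lit 460) ln15_14_3 ln15_14_3_ok) (L (nat_lit 464) ln16_14_3 ln16_14_3_ok)))))))) (B (M (nat_lit 398) (B (M (nat_lit 493) (B (L (nat_lit 366) ln13_15_6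 ln13_15_6_ok) (M (nat_lit 525) (B (L (nat_lit 396) ln13_16_7 ln13_16_7_ok) (L (nat_lit 430) ln13_16_6 ln13_16_6_ok))))) (B (M (nat_lit 399) (B (L (nat_lit 400) ln16_12_1 ln16_12_1_ok) (M (nat_lit 427) (B (L (nat_lit 396) ln15_12_1 ln15_12_1_ok) (L (nat_lit 430) ln11_13_2 ln11_13_2_ok))))) (B (M (nat_lit 366) (B (L (nat_lit 493) ln13_15_6 ln13_15_6_ok) (M (nat_lit 334) (B (L (nat_lit 302) ln14_9_5 ln14_9_5_ok) (L (nat_lit 430) ln14_10_5 ln14_10_5_ok))))) (M (nat_lit 396) (B (M (nat_lit 399) (B (L (nat_lit 427) ln15_12_1 ln15_12_1_ok) (L (nat_lit 400) ln16_12_1 ln16_12_1_ok))) (M (nat_lit 493) (B (L (nat_lit 366) ln13_15_6 ln13_15_6_ok) (L (nat_lit 525) ln13_16_7 ln13_16_7_ok))))))))) (M (nat_lit 365) (B (M (nat_lit 460) (B (L (nat_lit 333) ln13_10_5 ln13_10_5_ok) (L (nat_lit 492) ln13_11_5 ln13_11_5_ok))) (M (nat_lit 493) (B (M (nat_lit 366) (B (L (nat_lit 334) ln13_14_6 ln13_14_6_ok) (L (nat_lit 398) ln13_15_6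 ln13_15_6_ok))) (M (nat_lit 494) (B (L (nat_lit 462) ln13_11_4 ln13_11_4_ok) (L (nat_lit 526) ln13_12_4 ln13_12_4_ok))))))))))) (B (M (nat_lit 427) (B (M (nat_lit 462) (B (L (nat_lit 426) ln10_13_0 ln10_13_0_ok) (M (nat_lit 463) (B (L (nat_lit 430) ln11_13_0 ln11_13_0_ok) (L (nat_lit 460) ln15_14_3 ln15_14_3_ok))))) (B (M (nat_lit 430) (B (M (nat_lit 462) (B (L (nat_lit 463) ln11_13_0 ln11_13_0_ok) (M (nat_lit 398) (B (L (nat_lit 399) ln11_13_2 ln11_13_2_ok) (M (nat_lit 493) (B (L (nat_lit 366) ln14_11_5 ln14_11_5_ok) (L (nat_lit 525) ln13_16_6 ln13_16_6_ok))))))) (B (M (nat_lit 431) (B (M (nat_lit 399) (B (L (nat_lit 398) ln11_13_2 ln11_13_2_ok) (L (nat_lit 400) ln12_13_2 ln12_13_2_ok))) (M (nat_lit 459) (B (L (nat_lit 458) ln14_13_1 ln14_13_1_ok) (L (nat_lit 460) ln15_13_1 ln15_13_1_ok))))) (M (nat_lit 431) (B (M (nat_lit 459) (B (L (nat_lit 458) ln14_13_1 ln14_13_1_ok) (L (nat_lit 460) ln15_13_1 ln15_13_1_ok)))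 (M (nat_lit 463) (B (L (nat_lit 462) ln11_13_0 ln11_13_0_ok) (L (nat_lit 464) ln12_13_0 ln12_13_0_ok)))))))) (B (M (nat_lit 462) (B (L (nat_lit 426) ln10_13_0 ln10_13_0_ok) (M (nat_lit 463) (B (L (nat_lit 460) ln15_14_3 ln15_14_3_ok) (L (nat_lit 464) ln16_14_3 ln16_14_3_ok))))) (B (M (nat_lit 462) (B (L (nat_lit 426) ln10_13_0 ln10_13_0_ok) (M (nat_lit 463) (B (L (nat_lit 430) ln11_13_0 ln11_13_0_ok) (L (nat_lit 464) ln16_14_3 ln16_14_3_ok))))) (M (nat_lit 426) (B (M (nat_lit 397) (B (L (nat_lit 398) ln10_13_2 ln10_13_2_ok) (M (nat_lit 425) (B (L (nat_lit 396) ln9_13_2 ln9_13_2_ok) (L (nat_lit 460) ln9_13_0 ln9_13_0_ok))))) (B (M (nat_lit 457) (B (L (nat_lit 458) ln13_13_1 ln13_13_1_ok) (M (nat_lit 425) (B (L (nat_lit 456) ln12_13_1 ln12_13_1_ok) (L (nat_lit 460) ln9_13_0 ln9_13_0_ok))))) (M (nat_lit 430) (B (M (nat_lit 398) (B (L (nat_lit 397) ln10_13_2 ln10_13_2_ok) (L (nat_lit 399) ln11_13_2 ln11_13_2_ok)))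 (M (nat_lit 458) (B (L (nat_lit 457) ln13_13_1 ln13_13_1_ok) (L (nat_lit 459) ln14_13_1 ln14_13_1_ok))))))))))))) (B (K (nat_lit 5954262831509113917970671778902343783532342804327837356357830143065656733685921768742376304727131933651871260571575937852568135413341880320) (nat_lit 1769044887046985368674053870561853970450167426718620811805069005120451976685380234675465699245666586606332434644301494107305710479146994974222427170511484891357226467328) (nat_lit 1769044887046985368674053870561853970450167426718620811805069005120451976685380234675465699245666586606332434644301494107305710479146994974222427170511484891357226467328) c32_s1104) (B (M (nat_lit 427) (B (M (nat_lit 462) (B (L (nat_lit 426) ln10_13_0 ln10_13_0_ok) (M (nat_lit 463) (B (L (nat_lit 430) ln11_13_0 ln11_13_0_ok) (L (nat_lit 464) ln16_14_3 ln16_14_3_ok))))) (B (M (nat_lit 430) (B (M (nat_lit 462) (B (L (nat_lit 463) ln11_13_0 ln11_13_0_ok) (M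 (nat_lit 398) (B (L (nat_lit 399) ln11_13_2 ln11_13_2_ok) (M (nat_lit 493) (B (L (nat_lit 366) ln14_11_5 ln14_11_5_ok) (L (nat_lit 525) ln13_16_6 ln13_16_6_ok))))))) (B (M (nat_lit 431) (B (M (nat_lit 399) (B (L (nat_lit 398) ln11_13_2 ln11_13_2_ok) (L (nat_lit 400) ln12_13_2 ln12_13_2_ok))) (M (nat_lit 459) (B (L (nat_lit 458) ln14_13_1 ln14_13_1_ok) (L (nat_lit 460) ln15_13_1 ln15_13_1_ok))))) (M (nat_lit 431) (B (M (nat_lit 459) (B (L (nat_lit 458) ln14_13_1 ln14_13_1_ok) (L (nat_lit 460) ln15_13_1 ln15_13_1_ok))) (M (nat_lit 463) (B (L (nat_lit 462) ln11_13_0 ln11_13_0_ok) (L (nat_lit 464) ln12_13_0 ln12_13_0_ok)))))))) (B (M (nat_lit 462) (B (L (nat_lit 426) ln10_13_0 ln10_13_0_ok) (M (nat_lit 463) (B (L (nat_lit 460) ln15_14_3 ln15_14_3_ok) (L (nat_lit 464) ln16_14_3 ln16_14_3_ok))))) (M (nat_lit 426) (B (M (nat_lit 457) (B (L (nat_lit 458) ln13_13_1 ln13_13_1_ok) (M (nat_lit 425) (B (L (nat_lit 456)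 ln12_13_1 ln12_13_1_ok) (L (nat_lit 460) ln9_13_0 ln9_13_0_ok))))) (B (M (nat_lit 430) (B (M (nat_lit 398) (B (L (nat_lit 397) ln10_13_2 ln10_13_2_ok) (L (nat_lit 399) ln11_13_2 ln11_13_2_ok))) (M (nat_lit 458) (B (L (nat_lit 457) ln13_13_1 ln13_13_1_ok) (L (nat_lit 459) ln14_13_1 ln14_13_1_ok))))) (M (nat_lit 393) (B (L (nat_lit 394) ln13_13_3 ln13_13_3_ok) (M (nat_lit 425) (B (L (nat_lit 392) ln12_13_3 ln12_13_3_ok) (L (nat_lit 460) ln9_13_0 ln9_13_0_ok)))))))))))) (B (M (nat_lit 427) (B (M (nat_lit 462) (B (L (nat_lit 426) ln10_13_0 ln10_13_0_ok) (M (nat_lit 463) (B (L (nat_lit 460) ln15_14_3 ln15_14_3_ok) (L (nat_lit 464) ln16_14_3 ln16_14_3_ok))))) (B (M (nat_lit 430) (B (M (nat_lit 462) (B (L (nat_lit 463) ln11_13_0 ln11_13_0_ok) (M (nat_lit 398) (B (L (nat_lit 399) ln11_13_2 ln11_13_2_ok) (M (nat_lit 493) (B (L (nat_lit 366) ln14_11_5 ln14_11_5_ok) (L (nat_lit 525) ln13_16_6 ln13_16_6_ok))))))) (B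 (M (nat_lit 431) (B (M (nat_lit 399) (B (L (nat_lit 398) ln11_13_2 ln11_13_2_ok) (L (nat_lit 400) ln12_13_2 ln12_13_2_ok))) (M (nat_lit 459) (B (L (nat_lit 458) ln14_13_1 ln14_13_1_ok) (L (nat_lit 460) ln15_13_1 ln15_13_1_ok))))) (M (nat_lit 431) (B (M (nat_lit 459) (B (L (nat_lit 458) ln14_13_1 ln14_13_1_ok) (L (nat_lit 460) ln15_13_1 ln15_13_1_ok))) (M (nat_lit 463) (B (L (nat_lit 462) ln11_13_0 ln11_13_0_ok) (L (nat_lit 464) ln12_13_0 ln12_13_0_ok)))))))) (B (M (nat_lit 462) (B (L (nat_lit 426) ln10_13_0 ln10_13_0_ok) (M (nat_lit 463) (B (L (nat_lit 430) ln11_13_0 ln11_13_0_ok) (L (nat_lit 464) ln16_14_3 ln16_14_3_ok))))) (B (M (nat_lit 426) (B (M (nat_lit 393) (B (L (nat_lit 394) ln13_13_3 ln13_13_3_ok) (M (nat_lit 425) (B (L (nat_lit 392) ln12_13_3 ln12_13_3_ok) (L (nat_lit 460) ln9_13_0 ln9_13_0_ok))))) (B (M (nat_lit 457) (B (L (nat_lit 458) ln13_13_1 ln13_13_1_ok) (M (nat_lit 425) (B (L (nat_lit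 456) ln12_13_1 ln12_13_1_ok) (L (nat_lit 460) ln9_13_0 ln9_13_0_ok))))) (B (M (nat_lit 430) (B (M (nat_lit 458) (B (L (nat_lit 457) ln13_13_1 ln13_13_1_ok) (L (nat_lit 459) ln14_13_1 ln14_13_1_ok))) (B (M (nat_lit 431) (B (M (nat_lit 399) (B (L (nat_lit 398) ln11_13_2 ln11_13_2_ok) (L (nat_lit 400) ln12_13_2 ln12_13_2_ok))) (M (nat_lit 460) (B (L (nat_lit 459) ln15_13_1 ln15_13_1_ok) (L (nat_lit 432) ln16_13_1 ln16_13_1_ok))))) (M (nat_lit 431) (B (M (nat_lit 399) (B (L (nat_lit 398) ln11_13_2 ln11_13_2_ok) (L (nat_lit 400) ln12_13_2 ln12_13_2_ok))) (M (nat_lit 432) (B (L (nat_lit 460) ln16_13_1 ln16_13_1_ok) (M (nat_lit 464) (B (L (nat_lit 463) ln12_13_0 ln12_13_0_ok) (L (nat_lit 465) ln13_13_0 ln13_13_0_ok)))))))))) (M (nat_lit 425) (B (M (nat_lit 393) (B (L (nat_lit 392) ln12_13_3 ln12_13_3_ok) (L (nat_lit 394) ln13_13_3 ln13_13_3_ok))) (M (nat_lit 457) (B (L (nat_lit 456) ln12_13_1 ln12_13_1_ok) (L (nat_lit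 458) ln13_13_1 ln13_13_1_ok))))))))) (M (nat_lit 426) (B (L (nat_lit 462) ln10_13_0 ln10_13_0_ok) (M (nat_lit 457) (B (L (nat_lit 458) ln13_13_1 ln13_13_1_ok) (M (nat_lit 425) (B (L (nat_lit 456) ln12_13_1 ln12_13_1_ok) (L (nat_lit 460) ln9_13_0 ln9_13_0_ok)))))))))))) (B (K (nat_lit 5954262831509113917970671778902343783532342804327837356357830143065656733685921768742376304727131933651871260571575937852568135413341880320) (nat_lit 1769044887046985368674053870561853970450167426714101874518416915088554118134374963895388714108215445458878780770355360768776238388545115605982185965498654340404918353920) (nat_lit 1769044887046985368674053870561853970450167426714101874518416915088554118134374963895388714108215445458878780770355360768776238388545115605982185965498654340404918353920) c32_s1207) (B (M (nat_lit 397) (B (M (nat_lit 365) (B (M (nat_lit 460) (B (L (nat_lit 333) ln13_10_5 ln13_10_5_ok) (L (nat_lit 492)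 ln13_11_5 ln13_11_5_ok))) (M (nat_lit 493) (B (M (nat_lit 364) (B (L (nat_lit 332) ln13_14_7 ln13_14_7_ok) (L (nat_lit 396) ln13_15_7 ln13_15_7_ok))) (M (nat_lit 494) (B (L (nat_lit 462) ln13_11_4 ln13_11_4_ok) (L (nat_lit 526) ln13_12_4 ln13_12_4_ok))))))) (B (M (nat_lit 398) (B (M (nat_lit 493) (B (L (nat_lit 366) ln13_15_6 ln13_15_6_ok) (M (nat_lit 396) (B (L (nat_lit 364) ln13_15_7 ln13_15_7_ok) (L (nat_lit 525) ln13_16_7 ln13_16_7_ok))))) (B (M (nat_lit 493) (B (L (nat_lit 366) ln13_15_6 ln13_15_6_ok) (M (nat_lit 525) (B (L (nat_lit 396) ln13_16_7 ln13_16_7_ok) (L (nat_lit 430) ln13_16_6 ln13_16_6_ok))))) (B (M (nat_lit 399) (B (L (nat_lit 400) ln16_12_1 ln16_12_1_ok) (M (nat_lit 427) (B (L (nat_lit 396) ln15_12_1 ln15_12_1_ok) (L (nat_lit 430) ln11_13_2 ln11_13_2_ok))))) (M (nat_lit 430) (B (M (nat_lit 366) (B (L (nat_lit 334) ln14_10_5 ln14_10_5_ok) (L (nat_lit 493) ln13_15_6 ln13_15_6_ok))) (M (nat_lit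 399) (B (L (nat_lit 400) ln16_12_1 ln16_12_1_ok) (L (nat_lit 427) ln11_13_2 ln11_13_2_ok))))))))) (B (M (nat_lit 398) (B (M (nat_lit 399) (B (L (nat_lit 400) ln16_12_1 ln16_12_1_ok) (M (nat_lit 427) (B (L (nat_lit 396) ln15_12_1 ln15_12_1_ok) (L (nat_lit 430) ln11_13_2 ln11_13_2_ok))))) (B (M (nat_lit 430) (B (M (nat_lit 366) (B (L (nat_lit 334) ln14_10_5 ln14_10_5_ok) (L (nat_lit 493) ln13_15_6 ln13_15_6_ok))) (M (nat_lit 399) (B (L (nat_lit 400) ln16_12_1 ln16_12_1_ok) (L (nat_lit 427) ln11_13_2 ln11_13_2_ok))))) (B (M (nat_lit 493) (B (L (nat_lit 366) ln13_15_6 ln13_15_6_ok) (M (nat_lit 525) (B (L (nat_lit 396) ln13_16_7 ln13_16_7_ok) (L (nat_lit 430) ln13_16_6 ln13_16_6_ok))))) (M (nat_lit 396) (B (M (nat_lit 399) (B (L (nat_lit 427) ln15_12_1 ln15_12_1_ok) (L (nat_lit 400) ln16_12_1 ln16_12_1_ok))) (M (nat_lit 493) (B (L (nat_lit 366) ln13_15_6 ln13_15_6_ok) (L (nat_lit 525) ln13_16_7 ln13_16_7_ok)))))))))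 (B (M (nat_lit 365) (B (M (nat_lit 460) (B (L (nat_lit 333) ln13_10_5 ln13_10_5_ok) (L (nat_lit 492) ln13_11_5 ln13_11_5_ok))) (M (nat_lit 493) (B (M (nat_lit 366) (B (L (nat_lit 334) ln13_14_6 ln13_14_6_ok) (L (nat_lit 398) ln13_15_6 ln13_15_6_ok))) (M (nat_lit 494) (B (L (nat_lit 462) ln13_11_4 ln13_11_4_ok) (L (nat_lit 526) ln13_12_4 ln13_12_4_ok))))))) (M (nat_lit 462) (B (M (nat_lit 365) (B (L (nat_lit 494) ln13_11_4 ln13_11_4_ok) (M (nat_lit 460) (B (L (nat_lit 333) ln13_10_5 ln13_10_5_ok) (L (nat_lit 492) ln13_11_5 ln13_11_5_ok))))) (B (M (nat_lit 463) (B (L (nat_lit 464) ln16_14_3 ln16_14_3_ok) (M (nat_lit 427) (B (L (nat_lit 430) ln11_13_0 ln11_13_0_ok) (L (nat_lit 460) ln15_14_3 ln15_14_3_ok))))) (M (nat_lit 430) (B (M (nat_lit 365) (B (L (nat_lit 333) ln13_10_4 ln13_10_4_ok) (L (nat_lit 494) ln13_11_4 ln13_11_4_ok))) (M (nat_lit 463) (B (L (nat_lit 427) ln11_13_0 ln11_13_0_ok) (L (nat_lit 464)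 ln16_14_3 ln16_14_3_ok))))))))))))) (B (M (nat_lit 493) (B (M (nat_lit 396) (B (L (nat_lit 525) ln13_16_7 ln13_16_7_ok) (M (nat_lit 364) (B (L (nat_lit 332) ln12_10_4 ln12_10_4_ok) (L (nat_lit 460) ln12_11_4 ln12_11_4_ok))))) (B (M (nat_lit 396) (B (L (nat_lit 525) ln13_16_7 ln13_16_7_ok) (M (nat_lit 364) (B (L (nat_lit 397) ln13_15_7 ln13_15_7_ok) (L (nat_lit 460) ln12_11_4 ln12_11_4_ok))))) (B (M (nat_lit 525) (B (L (nat_lit 396) ln13_16_7 ln13_16_7_ok) (M (nat_lit 557) (B (L (nat_lit 460) ln13_17_7 ln13_17_7_ok) (M (nat_lit 430) (B (L (nat_lit 398) ln13_16_6 ln13_16_6_ok) (L (nat_lit 462) ln13_17_6 ln13_17_6_ok))))))) (B (M (nat_lit 525) (B (M (nat_lit 557) (B (L (nat_lit 460) ln13_17_7 ln13_17_7_ok) (M (nat_lit 430) (B (L (nat_lit 398) ln13_16_6 ln13_16_6_ok) (L (nat_lit 462) ln13_17_6 ln13_17_6_ok))))) (M (nat_lit 397) (B (M (nat_lit 524) (B (L (nat_lit 492) ln13_12_5 ln13_12_5_ok) (L (nat_lit 556)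 ln13_13_5 ln13_13_5_ok))) (M (nat_lit 526) (B (L (nat_lit 494) ln13_12_4 ln13_12_4_ok) (L (nat_lit 558) ln13_13_4 ln13_13_4_ok))))))) (B (M (nat_lit 396) (B (L (nat_lit 525) ln13_16_7 ln13_16_7_ok) (M (nat_lit 364) (B (L (nat_lit 332) ln12_10_4 ln12_10_4_ok) (L (nat_lit 397) ln13_15_7 ln13_15_7_ok))))) (M (nat_lit 397) (B (M (nat_lit 492) (B (L (nat_lit 524) ln13_12_5 ln13_12_5_ok) (M (nat_lit 365) (B (L (nat_lit 460) ln13_11_5 ln13_11_5_ok) (M (nat_lit 494) (B (L (nat_lit 462) ln13_11_4 ln13_11_4_ok) (L (nat_lit 526) ln13_12_4 ln13_12_4_ok))))))) (B (M (nat_lit 492) (B (L (nat_lit 524) ln13_12_5 ln13_12_5_ok) (M (nat_lit 460) (B (M (nat_lit 494) (B (L (nat_lit 526) ln13_12_4 ln13_12_4_ok) (M (nat_lit 459) (B (L (nat_lit 458) ln10_14_0 ln10_14_0_ok) (L (nat_lit 495) ln15_15_3 ln15_15_3_ok))))) (M (nat_lit 491) (B (M (nat_lit 396) (B (L (nat_lit 364) ln13_15_7 ln13_15_7_ok) (L (nat_lit 523) ln12_12_5 ln12_12_5_ok)))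 (M (nat_lit 490) (B (L (nat_lit 489) ln9_15_2 ln9_15_2_ok) (L (nat_lit 462) ln10_15_2 ln10_15_2_ok))))))))) (B (M (nat_lit 365) (B (M (nat_lit 364) (B (L (nat_lit 332) ln13_14_7 ln13_14_7_ok) (L (nat_lit 396) ln13_15_7 ln13_15_7_ok))) (M (nat_lit 494) (B (L (nat_lit 462) ln13_11_4 ln13_11_4_ok) (L (nat_lit 526) ln13_12_4 ln13_12_4_ok))))) (M (nat_lit 365) (B (M (nat_lit 364) (B (L (nat_lit 332) ln13_14_7 ln13_14_7_ok) (L (nat_lit 396) ln13_15_7 ln13_15_7_ok))) (M (nat_lit 492) (B (L (nat_lit 460) ln13_11_5 ln13_11_5_ok) (L (nat_lit 524) ln13_12_5 ln13_12_5_ok))))))))))))))) (B (M (nat_lit 493) (B (M (nat_lit 396) (B (L (nat_lit 525) ln13_16_7 ln13_16_7_ok) (M (nat_lit 364) (B (L (nat_lit 332) ln12_10_4 ln12_10_4_ok) (L (nat_lit 397) ln13_15_7 ln13_15_7_ok))))) (B (M (nat_lit 396) (B (L (nat_lit 525) ln13_16_7 ln13_16_7_ok) (M (nat_lit 364) (B (L (nat_lit 397) ln13_15_7 ln13_15_7_ok) (L (nat_lit 460) ln12_11_4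 ln12_11_4_ok))))) (B (M (nat_lit 397) (B (M (nat_lit 525) (B (L (nat_lit 396) ln13_16_7 ln13_16_7_ok) (M (nat_lit 524) (B (L (nat_lit 492) ln13_12_5 ln13_12_5_ok) (L (nat_lit 556) ln13_13_5 ln13_13_5_ok))))) (M (nat_lit 365) (B (M (nat_lit 366) (B (L (nat_lit 334) ln13_14_6 ln13_14_6_ok) (L (nat_lit 398) ln13_15_6 ln13_15_6_ok))) (M (nat_lit 494) (B (L (nat_lit 462) ln13_11_4 ln13_11_4_ok) (L (nat_lit 526) ln13_12_4 ln13_12_4_ok))))))) (B (M (nat_lit 397) (B (M (nat_lit 492) (B (L (nat_lit 524) ln13_12_5 ln13_12_5_ok) (M (nat_lit 365) (B (L (nat_lit 460) ln13_11_5 ln13_11_5_ok) (M (nat_lit 494) (B (L (nat_lit 462) ln13_11_4 ln13_11_4_ok) (L (nat_lit 526) ln13_12_4 ln13_12_4_ok))))))) (B (M (nat_lit 525) (B (M (nat_lit 524) (B (L (nat_lit 492) ln13_12_5 ln13_12_5_ok) (L (nat_lit 556) ln13_13_5 ln13_13_5_ok))) (M (nat_lit 526) (B (L (nat_lit 494) ln13_12_4 ln13_12_4_ok) (L (nat_lit 558) ln13_13_4 ln13_13_4_ok)))))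 (B (M (nat_lit 365) (B (M (nat_lit 366) (B (L (nat_lit 334) ln13_14_6 ln13_14_6_ok) (L (nat_lit 398) ln13_15_6 ln13_15_6_ok))) (M (nat_lit 494) (B (L (nat_lit 462) ln13_11_4 ln13_11_4_ok) (L (nat_lit 526) ln13_12_4 ln13_12_4_ok))))) (M (nat_lit 365) (B (M (nat_lit 366) (B (L (nat_lit 334) ln13_14_6 ln13_14_6_ok) (L (nat_lit 398) ln13_15_6 ln13_15_6_ok))) (M (nat_lit 492) (B (L (nat_lit 460) ln13_11_5 ln13_11_5_ok) (L (nat_lit 524) ln13_12_5 ln13_12_5_ok))))))))) (B (M (nat_lit 396) (B (L (nat_lit 525) ln13_16_7 ln13_16_7_ok) (M (nat_lit 364) (B (L (nat_lit 332) ln12_10_4 ln12_10_4_ok) (L (nat_lit 460) ln12_11_4 ln12_11_4_ok))))) (M (nat_lit 396) (B (M (nat_lit 364) (B (L (nat_lit 332) ln12_10_4 ln12_10_4_ok) (L (nat_lit 397) ln13_15_7 ln13_15_7_ok))) (B (M (nat_lit 364) (B (L (nat_lit 397) ln13_15_7 ln13_15_7_ok) (L (nat_lit 460) ln12_11_4 ln12_11_4_ok))) (B (M (nat_lit 397) (B (M (nat_lit 398) (B (L (nat_lit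 366) ln13_15_6 ln13_15_6_ok) (M (nat_lit 399) (B (L (nat_lit 427) ln15_12_1 ln15_12_1_ok) (L (nat_lit 400) ln16_12_1 ln16_12_1_ok))))) (M (nat_lit 365) (B (M (nat_lit 492) (B (L (nat_lit 460) ln12_15_6 ln12_15_6_ok) (L (nat_lit 524) ln13_12_5 ln13_12_5_ok))) (M (nat_lit 494) (B (L (nat_lit 462) ln13_11_4 ln13_11_4_ok) (L (nat_lit 526) ln13_12_4 ln13_12_4_ok))))))) (M (nat_lit 364) (B (L (nat_lit 332) ln12_10_4 ln12_10_4_ok) (L (nat_lit 460) ln12_11_4 ln12_11_4_ok))))))))))))) (B (M (nat_lit 398) (B (M (nat_lit 427) (B (M (nat_lit 426) (B (L (nat_lit 397) ln10_13_2 ln10_13_2_ok) (L (nat_lit 462) ln10_13_0 ln10_13_0_ok))) (B (M (nat_lit 430) (B (L (nat_lit 399) ln11_13_2 ln11_13_2_ok) (M (nat_lit 462) (B (L (nat_lit 426) ln10_13_0 ln10_13_0_ok) (L (nat_lit 463) ln11_13_0 ln11_13_0_ok))))) (M (nat_lit 399) (B (L (nat_lit 430) ln11_13_2 ln11_13_2_ok) (M (nat_lit 397) (B (L (nat_lit 396) ln15_12_1 ln15_12_1_ok)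 (L (nat_lit 400) ln16_12_1 ln16_12_1_ok)))))))) (B (M (nat_lit 397) (B (M (nat_lit 427) (B (L (nat_lit 426) ln10_13_2 ln10_13_2_ok) (M (nat_lit 399) (B (L (nat_lit 400) ln16_12_1 ln16_12_1_ok) (L (nat_lit 430) ln11_13_2 ln11_13_2_ok))))) (B (M (nat_lit 366) (B (L (nat_lit 493) ln13_15_6 ln13_15_6_ok) (M (nat_lit 334) (B (L (nat_lit 302) ln14_9_5 ln14_9_5_ok) (L (nat_lit 430) ln14_10_5 ln14_10_5_ok))))) (M (nat_lit 366) (B (L (nat_lit 493) ln13_15_6 ln13_15_6_ok) (M (nat_lit 334) (B (L (nat_lit 302) ln14_9_5 ln14_9_5_ok) (L (nat_lit 365) ln13_14_6 ln13_14_6_ok)))))))) (B (M (nat_lit 430) (B (M (nat_lit 493) (B (L (nat_lit 525) ln13_16_6 ln13_16_6_ok) (M (nat_lit 366) (B (L (nat_lit 334) ln14_10_5 ln14_10_5_ok) (L (nat_lit 462) ln14_11_5 ln14_11_5_ok))))) (M (nat_lit 399) (B (L (nat_lit 427) ln11_13_2 ln11_13_2_ok) (M (nat_lit 400) (B (L (nat_lit 401) ln17_12_1 ln17_12_1_ok) (L (nat_lit 431) ln12_13_2 ln12_13_2_ok)))))))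 (B (M (nat_lit 493) (B (M (nat_lit 525) (B (L (nat_lit 396) ln13_16_7 ln13_16_7_ok) (L (nat_lit 430) ln13_16_6 ln13_16_6_ok))) (B (M (nat_lit 366) (B (L (nat_lit 397) ln13_15_6 ln13_15_6_ok) (M (nat_lit 430) (B (L (nat_lit 334) ln14_10_5 ln14_10_5_ok) (L (nat_lit 462) ln14_11_5 ln14_11_5_ok))))) (M (nat_lit 396) (B (L (nat_lit 525) ln13_16_7 ln13_16_7_ok) (M (nat_lit 397) (B (L (nat_lit 364) ln13_15_7 ln13_15_7_ok) (L (nat_lit 366) ln13_15_6 ln13_15_6_ok)))))))) (M (nat_lit 397) (B (M (nat_lit 366) (B (L (nat_lit 493) ln13_15_6 ln13_15_6_ok) (M (nat_lit 334) (B (L (nat_lit 302) ln14_9_5 ln14_9_5_ok) (L (nat_lit 365) ln13_14_6 ln13_14_6_ok))))) (M (nat_lit 427) (B (L (nat_lit 426) ln10_13_2 ln10_13_2_ok) (M (nat_lit 399) (B (L (nat_lit 396) ln15_12_1 ln15_12_1_ok) (L (nat_lit 400) ln16_12_1 ln16_12_1_ok)))))))))))) (B (M (nat_lit 493) (B (M (nat_lit 396) (B (L (nat_lit 525) ln13_16_7 ln13_16_7_ok) (M (nat_lit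 364) (B (L (nat_lit 332) ln12_10_4 ln12_10_4_ok) (L (nat_lit 397) ln13_15_7 ln13_15_7_ok))))) (B (M (nat_lit 396) (B (L (nat_lit 525) ln13_16_7 ln13_16_7_ok) (M (nat_lit 364) (B (L (nat_lit 397) ln13_15_7 ln13_15_7_ok) (L (nat_lit 460) ln12_11_4 ln12_11_4_ok))))) (B (M (nat_lit 525) (B (L (nat_lit 396) ln13_16_7 ln13_16_7_ok) (M (nat_lit 397) (B (M (nat_lit 398) (B (L (nat_lit 366) ln13_15_6 ln13_15_6_ok) (L (nat_lit 430) ln13_16_6 ln13_16_6_ok))) (M (nat_lit 526) (B (L (nat_lit 494) ln13_12_4 ln13_12_4_ok) (L (nat_lit 558) ln13_13_4 ln13_13_4_ok))))))) (B (M (nat_lit 397) (B (M (nat_lit 398) (B (L (nat_lit 366) ln13_15_6 ln13_15_6_ok) (M (nat_lit 430) (B (L (nat_lit 525) ln13_16_6 ln13_16_6_ok) (M (nat_lit 399) (B (L (nat_lit 400) ln16_12_1 ln16_12_1_ok) (L (nat_lit 427) ln11_13_2 ln11_13_2_ok))))))) (B (M (nat_lit 460) (B (M (nat_lit 492) (B (L (nat_lit 365) ln13_11_5 ln13_11_5_ok) (L (nat_lit 524) ln12_16_6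 ln12_16_6_ok))) (M (nat_lit 525) (B (L (nat_lit 557) ln13_17_7 ln13_17_7_ok) (M (nat_lit 526) (B (L (nat_lit 494) ln13_12_4 ln13_12_4_ok) (L (nat_lit 558) ln13_13_4 ln13_13_4_ok))))))) (M (nat_lit 398) (B (L (nat_lit 366) ln13_15_6 ln13_15_6_ok) (M (nat_lit 427) (B (L (nat_lit 426) ln10_13_2 ln10_13_2_ok) (M (nat_lit 399) (B (L (nat_lit 400) ln16_12_1 ln16_12_1_ok) (L (nat_lit 430) ln11_13_2 ln11_13_2_ok)))))))))) (B (M (nat_lit 396) (B (L (nat_lit 525) ln13_16_7 ln13_16_7_ok) (M (nat_lit 364) (B (L (nat_lit 332) ln12_10_4 ln12_10_4_ok) (L (nat_lit 460) ln12_11_4 ln12_11_4_ok))))) (M (nat_lit 397) (B (M (nat_lit 398) (B (L (nat_lit 366) ln13_15_6 ln13_15_6_ok) (M (nat_lit 427) (B (L (nat_lit 426) ln10_13_2 ln10_13_2_ok) (M (nat_lit 399) (B (L (nat_lit 400) ln16_12_1 ln16_12_1_ok) (L (nat_lit 430) ln11_13_2 ln11_13_2_ok))))))) (M (nat_lit 365) (B (M (nat_lit 364) (B (L (nat_lit 332) ln13_14_7 ln13_14_7_ok)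 (L (nat_lit 396) ln13_15_7 ln13_15_7_ok))) (M (nat_lit 492) (B (L (nat_lit 460) ln13_11_5 ln13_11_5_ok) (L (nat_lit 524) ln13_12_5 ln13_12_5_ok))))))))))))) (K (nat_lit 5954262831509113917970671778902343783532342804327837356357830143065656733685921768742376304727131933651871260571575937852568135413341880320) (nat_lit 713938956829400288895752230476625631180459254211352155643687745878762578100238543657567676492707163678447168489879360871606434710088691403563943897809746395136) (nat_lit 713938956829400288895752230476625631180459254211352155643687745878762578100238543657567676492707163678447168489879360871606434710088691403563943897809746395136) c32_s1526)))))))))))))) (nat_lit 2079502270590611144683810638107312777577327806531862431377859685460965980854219217279980804578104683573043408221052678871730618368) (nat_lit 1769044887486332418922412892422104160427281023551507955719130933689946403750956501024945087038216416951319282036298940480007172814277597480073118927476670445577073328128)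 (nat_lit 1769044887486332418922412892422104160427281023551507955719130933689946403750956501024945087038216416951319282036298940480007172814277597480073118927476670445577073328128) (by decide +kernel)
theorem c32_s1563 : Sem (nat_lit 2079502270590611144683810638107312777577327806531862431377859685460965980854219217279980804578104683573043408221052678871730618368) (nat_lit 2358726516282320683264613450255125473971374900064552828365522958717622830104167394575769810985589289775194886974311965407058969422611636401072991115875999733241543131136) (nat_lit 2358726516282320683264613450255125473971374900064552828365522958717622830104167394575769810985589289775194886974311965407058969422611636401072991115875999733241543131136) :=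
  sem_of_chk (M (nat_lit 430) (B (M (nat_lit 427) (B (M (nat_lit 398) (B (L (nat_lit 399) ln11_13_2 ln11_13_2_ok) (M (nat_lit 462) (B (L (nat_lit 463) ln11_13_0 ln11_13_0_ok) (M (nat_lit 426) (B (L (nat_lit 397) ln10_13_2 ln10_13_2_ok) (L (nat_lit 461) ln10_13_0 ln10_13_0_ok))))))) (B (M (nat_lit 431) (B (M (nat_lit 399) (B (L (nat_lit 398) ln11_13_2 ln11_13_2_ok) (L (nat_lit 400) ln12_13_2 ln12_13_2_ok))) (M (nat_lit 463) (B (L (nat_lit 462) ln11_13_0 ln11_13_0_ok) (L (nat_lit 464) ln12_13_0 ln12_13_0_ok))))) (B (M (nat_lit 426) (B (M (nat_lit 458) (B (L (nat_lit 457) ln13_13_1 ln13_13_1_ok) (L (nat_lit 459) ln14_13_1 ln14_13_1_ok))) (M (nat_lit 462) (B (L (nat_lit 461) ln10_13_0 ln10_13_0_ok) (L (nat_lit 463) ln11_13_0 ln11_13_0_ok))))) (M (nat_lit 426) (B (M (nat_lit 398) (B (L (nat_lit 397) ln10_13_2 ln10_13_2_ok) (L (nat_lit 399) ln11_13_2 ln11_13_2_ok))) (M (nat_lit 458) (B (L (nat_lit 457) ln13_13_1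 ln13_13_1_ok) (L (nat_lit 459) ln14_13_1 ln14_13_1_ok))))))))) (B (M (nat_lit 427) (B (M (nat_lit 426) (B (M (nat_lit 394) (B (L (nat_lit 393) ln13_13_3 ln13_13_3_ok) (L (nat_lit 395) ln14_13_3 ln14_13_3_ok))) (M (nat_lit 458) (B (L (nat_lit 457) ln13_13_1 ln13_13_1_ok) (L (nat_lit 459) ln14_13_1 ln14_13_1_ok))))) (M (nat_lit 431) (B (M (nat_lit 399) (B (L (nat_lit 398) ln11_13_2 ln11_13_2_ok) (L (nat_lit 400) ln12_13_2 ln12_13_2_ok))) (M (nat_lit 463) (B (L (nat_lit 462) ln11_13_0 ln11_13_0_ok) (L (nat_lit 464) ln12_13_0 ln12_13_0_ok))))))) (B (M (nat_lit 427) (B (M (nat_lit 426) (B (M (nat_lit 394) (B (L (nat_lit 393) ln13_13_3 ln13_13_3_ok) (L (nat_lit 395) ln14_13_3 ln14_13_3_ok))) (M (nat_lit 462) (B (L (nat_lit 461) ln10_13_0 ln10_13_0_ok) (L (nat_lit 463) ln11_13_0 ln11_13_0_ok))))) (B (M (nat_lit 431) (B (M (nat_lit 459) (B (L (nat_lit 458) ln14_13_1 ln14_13_1_ok) (L (nat_lit 460) ln15_13_1 ln15_13_1_ok)))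 (M (nat_lit 463) (B (L (nat_lit 462) ln11_13_0 ln11_13_0_ok) (L (nat_lit 464) ln12_13_0 ln12_13_0_ok))))) (M (nat_lit 426) (B (M (nat_lit 394) (B (L (nat_lit 393) ln13_13_3 ln13_13_3_ok) (L (nat_lit 395) ln14_13_3 ln14_13_3_ok))) (M (nat_lit 458) (B (L (nat_lit 457) ln13_13_1 ln13_13_1_ok) (L (nat_lit 459) ln14_13_1 ln14_13_1_ok)))))))) (B (M (nat_lit 431) (B (M (nat_lit 427) (B (M (nat_lit 459) (B (L (nat_lit 458) ln14_13_1 ln14_13_1_ok) (L (nat_lit 460) ln15_13_1 ln15_13_1_ok))) (M (nat_lit 463) (B (L (nat_lit 462) ln11_13_0 ln11_13_0_ok) (L (nat_lit 464) ln12_13_0 ln12_13_0_ok))))) (B (M (nat_lit 432) (B (M (nat_lit 400) (B (L (nat_lit 399) ln12_13_2 ln12_13_2_ok) (L (nat_lit 401) ln13_13_2 ln13_13_2_ok))) (M (nat_lit 464) (B (L (nat_lit 463) ln12_13_0 ln12_13_0_ok) (L (nat_lit 465) ln13_13_0 ln13_13_0_ok))))) (M (nat_lit 427) (B (M (nat_lit 399) (B (L (nat_lit 398) ln11_13_2 ln11_13_2_ok) (L (nat_lit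 400) ln12_13_2 ln12_13_2_ok))) (M (nat_lit 459) (B (L (nat_lit 458) ln14_13_1 ln14_13_1_ok) (L (nat_lit 460) ln15_13_1 ln15_13_1_ok)))))))) (B (M (nat_lit 431) (B (M (nat_lit 460) (B (L (nat_lit 459) ln15_13_1 ln15_13_1_ok) (M (nat_lit 432) (B (L (nat_lit 461) ln16_13_1 ln16_13_1_ok) (M (nat_lit 400) (B (L (nat_lit 399) ln12_13_2 ln12_13_2_ok) (L (nat_lit 401) ln13_13_2 ln13_13_2_ok))))))) (B (M (nat_lit 432) (B (M (nat_lit 460) (B (L (nat_lit 459) ln15_13_1 ln15_13_1_ok) (L (nat_lit 461) ln16_13_1 ln16_13_1_ok))) (M (nat_lit 464) (B (L (nat_lit 463) ln12_13_0 ln12_13_0_ok) (L (nat_lit 465) ln13_13_0 ln13_13_0_ok))))) (M (nat_lit 399) (B (L (nat_lit 400) ln12_13_2 ln12_13_2_ok) (M (nat_lit 463) (B (L (nat_lit 464) ln12_13_0 ln12_13_0_ok) (M (nat_lit 367) (B (M (nat_lit 462) (B (L (nat_lit 335) ln15_10_5 ln15_10_5_ok) (L (nat_lit 494) ln15_11_5 ln15_11_5_ok))) (B (M (nat_lit 495) (B (M (nat_lit 366) (B (L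 (nat_lit 334) ln15_14_7 ln15_14_7_ok) (L (nat_lit 398) ln15_15_7 ln15_15_7_ok))) (M (nat_lit 494) (B (L (nat_lit 462) ln15_11_5 ln15_11_5_ok) (L (nat_lit 526) ln15_12_5 ln15_12_5_ok))))) (M (nat_lit 335) (B (M (nat_lit 334) (B (L (nat_lit 302) ln15_13_7 ln15_13_7_ok) (L (nat_lit 366) ln15_14_7 ln15_14_7_ok))) (M (nat_lit 336) (B (L (nat_lit 304) ln15_13_6 ln15_13_6_ok) (L (nat_lit 368) ln15_14_6 ln15_14_6_ok))))))))))))))) (B (M (nat_lit 427) (B (M (nat_lit 426) (B (M (nat_lit 394) (B (L (nat_lit 393) ln13_13_3 ln13_13_3_ok) (L (nat_lit 395) ln14_13_3 ln14_13_3_ok))) (M (nat_lit 458) (B (L (nat_lit 457) ln13_13_1 ln13_13_1_ok) (L (nat_lit 459) ln14_13_1 ln14_13_1_ok))))) (B (M (nat_lit 426) (B (M (nat_lit 398) (B (L (nat_lit 397) ln10_13_2 ln10_13_2_ok) (L (nat_lit 399) ln11_13_2 ln11_13_2_ok))) (M (nat_lit 458) (B (L (nat_lit 457) ln13_13_1 ln13_13_1_ok) (L (nat_lit 459) ln14_13_1 ln14_13_1_ok))))) (M (nat_lit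 398) (B (L (nat_lit 399) ln11_13_2 ln11_13_2_ok) (M (nat_lit 462) (B (L (nat_lit 463) ln11_13_0 ln11_13_0_ok) (M (nat_lit 494) (B (M (nat_lit 397) (B (L (nat_lit 365) ln14_15_7 ln14_15_7_ok) (L (nat_lit 526) ln14_16_7 ln14_16_7_ok))) (B (M (nat_lit 525) (B (L (nat_lit 493) ln14_12_5 ln14_12_5_ok) (M (nat_lit 526) (B (L (nat_lit 397) ln14_16_7 ln14_16_7_ok) (L (nat_lit 557) ln14_13_5 ln14_13_5_ok))))) (B (M (nat_lit 526) (B (M (nat_lit 525) (B (L (nat_lit 493) ln14_12_5 ln14_12_5_ok) (L (nat_lit 557) ln14_13_5 ln14_13_5_ok))) (M (nat_lit 527) (B (L (nat_lit 495) ln14_12_4 ln14_12_4_ok) (L (nat_lit 559) ln14_13_4 ln14_13_4_ok))))) (M (nat_lit 366) (B (M (nat_lit 365) (B (L (nat_lit 333) ln14_14_7 ln14_14_7_ok) (L (nat_lit 397) ln14_15_7 ln14_15_7_ok))) (M (nat_lit 493) (B (L (nat_lit 461) ln14_11_5 ln14_11_5_ok) (L (nat_lit 525) ln14_12_5 ln14_12_5_ok)))))))))))))))) (B (M (nat_lit 427) (B (M (nat_lit 398)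 (B (L (nat_lit 399) ln11_13_2 ln11_13_2_ok) (M (nat_lit 394) (B (L (nat_lit 395) ln14_13_3 ln14_13_3_ok) (M (nat_lit 426) (B (L (nat_lit 393) ln13_13_3 ln13_13_3_ok) (L (nat_lit 397) ln10_13_2 ln10_13_2_ok))))))) (B (M (nat_lit 431) (B (M (nat_lit 399) (B (L (nat_lit 398) ln11_13_2 ln11_13_2_ok) (L (nat_lit 400) ln12_13_2 ln12_13_2_ok))) (M (nat_lit 463) (B (L (nat_lit 462) ln11_13_0 ln11_13_0_ok) (L (nat_lit 464) ln12_13_0 ln12_13_0_ok))))) (M (nat_lit 426) (B (M (nat_lit 394) (B (L (nat_lit 393) ln13_13_3 ln13_13_3_ok) (L (nat_lit 395) ln14_13_3 ln14_13_3_ok))) (M (nat_lit 462) (B (L (nat_lit 461) ln10_13_0 ln10_13_0_ok) (L (nat_lit 463) ln11_13_0 ln11_13_0_ok)))))))) (M (nat_lit 427) (B (M (nat_lit 426) (B (M (nat_lit 394) (B (L (nat_lit 393) ln13_13_3 ln13_13_3_ok) (L (nat_lit 395) ln14_13_3 ln14_13_3_ok))) (M (nat_lit 458) (B (L (nat_lit 457) ln13_13_1 ln13_13_1_ok) (L (nat_lit 459) ln14_13_1 ln14_13_1_ok)))))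 (B (M (nat_lit 431) (B (M (nat_lit 399) (B (L (nat_lit 398) ln11_13_2 ln11_13_2_ok) (L (nat_lit 400) ln12_13_2 ln12_13_2_ok))) (M (nat_lit 459) (B (L (nat_lit 458) ln14_13_1 ln14_13_1_ok) (L (nat_lit 460) ln15_13_1 ln15_13_1_ok))))) (M (nat_lit 398) (B (L (nat_lit 399) ln11_13_2 ln11_13_2_ok) (M (nat_lit 394) (B (L (nat_lit 395) ln14_13_3 ln14_13_3_ok) (M (nat_lit 426) (B (L (nat_lit 393) ln13_13_3 ln13_13_3_ok) (L (nat_lit 397) ln10_13_2 ln10_13_2_ok)))))))))))))))))) (nat_lit 2079502270590611144683810638107312777577327806531862431377859685460965980854219217279980804578104683573043408221052678871730618368) (nat_lit 2358726516282320683264613450255125473971374900064552828365522958717622830104167394575769810985589289775194886974311965407058969422611636401072991115875999733241543131136) (nat_lit 2358726516282320683264613450255125473971374900064552828365522958717622830104167394575769810985589289775194886974311965407058969422611636401072991115875999733241543131136)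 (by decide +kernel)
theorem c32_s1592 : Sem (nat_lit 2079502270590611144683810638107312777577327806531862431377859685460965980854219217279980804578104683573043408221052678871730618368) (nat_lit 274591906577844596627713407524569314534100423808513076634341721098871716482509892320844774680143646786648997850373881934241291060261249090277249895338386391040) (nat_lit 274591906577844596627713407524569314534100423808513076634341721098871716482509892320844774680143646786648997850373881934241291060261249090277249895338386391040) :=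
  sem_of_chk (M (nat_lit 430) (B (M (nat_lit 427) (B (M (nat_lit 426) (B (M (nat_lit 394) (B (L (nat_lit 393) ln13_13_3 ln13_13_3_ok) (L (nat_lit 395) ln14_13_3 ln14_13_3_ok))) (M (nat_lit 458) (B (L (nat_lit 457) ln13_13_1 ln13_13_1_ok) (L (nat_lit 459) ln14_13_1 ln14_13_1_ok))))) (M (nat_lit 431) (B (M (nat_lit 399) (B (L (nat_lit 398) ln11_13_2 ln11_13_2_ok) (L (nat_lit 400) ln12_13_2 ln12_13_2_ok))) (M (nat_lit 463) (B (L (nat_lit 462) ln11_13_0 ln11_13_0_ok) (L (nat_lit 464) ln12_13_0 ln12_13_0_ok))))))) (B (M (nat_lit 427) (B (M (nat_lit 431) (B (M (nat_lit 395) (B (L (nat_lit 394) ln14_13_3 ln14_13_3_ok) (L (nat_lit 396) ln15_13_3 ln15_13_3_ok))) (M (nat_lit 459) (B (L (nat_lit 458) ln14_13_1 ln14_13_1_ok) (L (nat_lit 460) ln15_13_1 ln15_13_1_ok))))) (B (M (nat_lit 431) (B (M (nat_lit 399) (B (L (nat_lit 398) ln11_13_2 ln11_13_2_ok) (L (nat_lit 400) ln12_13_2 ln12_13_2_ok))) (M (nat_lit 463) (B (L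 (nat_lit 462) ln11_13_0 ln11_13_0_ok) (L (nat_lit 464) ln12_13_0 ln12_13_0_ok))))) (M (nat_lit 426) (B (M (nat_lit 458) (B (L (nat_lit 457) ln13_13_1 ln13_13_1_ok) (L (nat_lit 459) ln14_13_1 ln14_13_1_ok))) (M (nat_lit 462) (B (L (nat_lit 461) ln10_13_0 ln10_13_0_ok) (L (nat_lit 463) ln11_13_0 ln11_13_0_ok)))))))) (B (M (nat_lit 427) (B (M (nat_lit 431) (B (M (nat_lit 399) (B (L (nat_lit 398) ln11_13_2 ln11_13_2_ok) (L (nat_lit 400) ln12_13_2 ln12_13_2_ok))) (M (nat_lit 459) (B (L (nat_lit 458) ln14_13_1 ln14_13_1_ok) (L (nat_lit 460) ln15_13_1 ln15_13_1_ok))))) (B (M (nat_lit 431) (B (M (nat_lit 459) (B (L (nat_lit 458) ln14_13_1 ln14_13_1_ok) (L (nat_lit 460) ln15_13_1 ln15_13_1_ok))) (M (nat_lit 463) (B (L (nat_lit 462) ln11_13_0 ln11_13_0_ok) (L (nat_lit 464) ln12_13_0 ln12_13_0_ok))))) (B (M (nat_lit 426) (B (M (nat_lit 458) (B (L (nat_lit 457) ln13_13_1 ln13_13_1_ok) (L (nat_lit 459) ln14_13_1 ln14_13_1_ok)))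 (M (nat_lit 462) (B (L (nat_lit 461) ln10_13_0 ln10_13_0_ok) (L (nat_lit 463) ln11_13_0 ln11_13_0_ok))))) (M (nat_lit 431) (B (M (nat_lit 399) (B (L (nat_lit 398) ln11_13_2 ln11_13_2_ok) (L (nat_lit 400) ln12_13_2 ln12_13_2_ok))) (M (nat_lit 463) (B (L (nat_lit 462) ln11_13_0 ln11_13_0_ok) (L (nat_lit 464) ln12_13_0 ln12_13_0_ok))))))))) (B (M (nat_lit 427) (B (M (nat_lit 431) (B (M (nat_lit 459) (B (L (nat_lit 458) ln14_13_1 ln14_13_1_ok) (L (nat_lit 460) ln15_13_1 ln15_13_1_ok))) (M (nat_lit 463) (B (L (nat_lit 462) ln11_13_0 ln11_13_0_ok) (L (nat_lit 464) ln12_13_0 ln12_13_0_ok))))) (B (M (nat_lit 426) (B (M (nat_lit 394) (B (L (nat_lit 393) ln13_13_3 ln13_13_3_ok) (L (nat_lit 395) ln14_13_3 ln14_13_3_ok))) (M (nat_lit 458) (B (L (nat_lit 457) ln13_13_1 ln13_13_1_ok) (L (nat_lit 459) ln14_13_1 ln14_13_1_ok))))) (M (nat_lit 431) (B (M (nat_lit 395) (B (L (nat_lit 394) ln14_13_3 ln14_13_3_ok) (L (nat_lit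 396) ln15_13_3 ln15_13_3_ok))) (M (nat_lit 463) (B (L (nat_lit 462) ln11_13_0 ln11_13_0_ok) (L (nat_lit 464) ln12_13_0 ln12_13_0_ok)))))))) (B (M (nat_lit 431) (B (M (nat_lit 427) (B (M (nat_lit 395) (B (L (nat_lit 394) ln14_13_3 ln14_13_3_ok) (L (nat_lit 396) ln15_13_3 ln15_13_3_ok))) (M (nat_lit 463) (B (L (nat_lit 462) ln11_13_0 ln11_13_0_ok) (L (nat_lit 464) ln12_13_0 ln12_13_0_ok))))) (B (M (nat_lit 427) (B (M (nat_lit 459) (B (L (nat_lit 458) ln14_13_1 ln14_13_1_ok) (L (nat_lit 460) ln15_13_1 ln15_13_1_ok))) (M (nat_lit 463) (B (L (nat_lit 462) ln11_13_0 ln11_13_0_ok) (L (nat_lit 464) ln12_13_0 ln12_13_0_ok))))) (B (M (nat_lit 432) (B (M (nat_lit 460) (B (L (nat_lit 459) ln15_13_1 ln15_13_1_ok) (L (nat_lit 461) ln16_13_1 ln16_13_1_ok))) (M (nat_lit 464) (B (L (nat_lit 463) ln12_13_0 ln12_13_0_ok) (L (nat_lit 465) ln13_13_0 ln13_13_0_ok))))) (M (nat_lit 427) (B (M (nat_lit 395) (B (L (nat_lit 394) ln14_13_3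 ln14_13_3_ok) (L (nat_lit 396) ln15_13_3 ln15_13_3_ok))) (M (nat_lit 459) (B (L (nat_lit 458) ln14_13_1 ln14_13_1_ok) (L (nat_lit 460) ln15_13_1 ln15_13_1_ok))))))))) (B (M (nat_lit 431) (B (M (nat_lit 460) (B (L (nat_lit 459) ln15_13_1 ln15_13_1_ok) (M (nat_lit 432) (B (L (nat_lit 461) ln16_13_1 ln16_13_1_ok) (M (nat_lit 400) (B (L (nat_lit 399) ln12_13_2 ln12_13_2_ok) (L (nat_lit 401) ln13_13_2 ln13_13_2_ok))))))) (B (M (nat_lit 432) (B (M (nat_lit 460) (B (L (nat_lit 459) ln15_13_1 ln15_13_1_ok) (L (nat_lit 461) ln16_13_1 ln16_13_1_ok))) (M (nat_lit 464) (B (L (nat_lit 463) ln12_13_0 ln12_13_0_ok) (L (nat_lit 465) ln13_13_0 ln13_13_0_ok))))) (M (nat_lit 399) (B (L (nat_lit 400) ln12_13_2 ln12_13_2_ok) (M (nat_lit 463) (B (L (nat_lit 464) ln12_13_0 ln12_13_0_ok) (M (nat_lit 367) (B (M (nat_lit 462) (B (L (nat_lit 335) ln15_10_5 ln15_10_5_ok) (L (nat_lit 494) ln15_11_5 ln15_11_5_ok))) (B (M (nat_lit 495)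 (B (M (nat_lit 366) (B (L (nat_lit 334) ln15_14_7 ln15_14_7_ok) (L (nat_lit 398) ln15_15_7 ln15_15_7_ok))) (M (nat_lit 494) (B (L (nat_lit 462) ln15_11_5 ln15_11_5_ok) (L (nat_lit 526) ln15_12_5 ln15_12_5_ok))))) (M (nat_lit 335) (B (M (nat_lit 334) (B (L (nat_lit 302) ln15_13_7 ln15_13_7_ok) (L (nat_lit 366) ln15_14_7 ln15_14_7_ok))) (M (nat_lit 336) (B (L (nat_lit 304) ln15_13_6 ln15_13_6_ok) (L (nat_lit 368) ln15_14_6 ln15_14_6_ok))))))))))))))) (B (M (nat_lit 427) (B (M (nat_lit 426) (B (M (nat_lit 394) (B (L (nat_lit 393) ln13_13_3 ln13_13_3_ok) (L (nat_lit 395) ln14_13_3 ln14_13_3_ok))) (M (nat_lit 458) (B (L (nat_lit 457) ln13_13_1 ln13_13_1_ok) (L (nat_lit 459) ln14_13_1 ln14_13_1_ok))))) (B (M (nat_lit 426) (B (M (nat_lit 458) (B (L (nat_lit 457) ln13_13_1 ln13_13_1_ok) (L (nat_lit 459) ln14_13_1 ln14_13_1_ok))) (M (nat_lit 462) (B (L (nat_lit 461) ln10_13_0 ln10_13_0_ok) (L (nat_lit 463) ln11_13_0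 ln11_13_0_ok))))) (B (M (nat_lit 459) (B (L (nat_lit 458) ln14_13_1 ln14_13_1_ok) (M (nat_lit 395) (B (L (nat_lit 394) ln14_13_3 ln14_13_3_ok) (M (nat_lit 363) (B (M (nat_lit 460) (B (L (nat_lit 331) ln11_10_4 ln11_10_4_ok) (L (nat_lit 492) ln11_11_4 ln11_11_4_ok))) (B (M (nat_lit 491) (B (M (nat_lit 364) (B (L (nat_lit 332) ln11_14_6 ln11_14_6_ok) (L (nat_lit 396) ln11_15_6 ln11_15_6_ok))) (M (nat_lit 492) (B (L (nat_lit 460) ln11_11_4 ln11_11_4_ok) (L (nat_lit 524) ln11_12_4 ln11_12_4_ok))))) (M (nat_lit 331) (B (M (nat_lit 330) (B (L (nat_lit 298) ln11_13_7 ln11_13_7_ok) (L (nat_lit 362) ln11_14_7 ln11_14_7_ok))) (M (nat_lit 332) (B (L (nat_lit 300) ln11_13_6 ln11_13_6_ok) (L (nat_lit 364) ln11_14_6 ln11_14_6_ok)))))))))))) (M (nat_lit 426) (B (M (nat_lit 394) (B (L (nat_lit 393) ln13_13_3 ln13_13_3_ok) (L (nat_lit 395) ln14_13_3 ln14_13_3_ok))) (M (nat_lit 462) (B (L (nat_lit 461) ln10_13_0 ln10_13_0_ok)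 (L (nat_lit 463) ln11_13_0 ln11_13_0_ok))))))))) (B (M (nat_lit 427) (B (M (nat_lit 431) (B (M (nat_lit 399) (B (L (nat_lit 398) ln11_13_2 ln11_13_2_ok) (L (nat_lit 400) ln12_13_2 ln12_13_2_ok))) (M (nat_lit 463) (B (L (nat_lit 462) ln11_13_0 ln11_13_0_ok) (L (nat_lit 464) ln12_13_0 ln12_13_0_ok))))) (B (M (nat_lit 431) (B (M (nat_lit 395) (B (L (nat_lit 394) ln14_13_3 ln14_13_3_ok) (L (nat_lit 396) ln15_13_3 ln15_13_3_ok))) (M (nat_lit 463) (B (L (nat_lit 462) ln11_13_0 ln11_13_0_ok) (L (nat_lit 464) ln12_13_0 ln12_13_0_ok))))) (B (M (nat_lit 426) (B (M (nat_lit 394) (B (L (nat_lit 393) ln13_13_3 ln13_13_3_ok) (L (nat_lit 395) ln14_13_3 ln14_13_3_ok))) (M (nat_lit 462) (B (L (nat_lit 461) ln10_13_0 ln10_13_0_ok) (L (nat_lit 463) ln11_13_0 ln11_13_0_ok))))) (M (nat_lit 431) (B (M (nat_lit 395) (B (L (nat_lit 394) ln14_13_3 ln14_13_3_ok) (L (nat_lit 396) ln15_13_3 ln15_13_3_ok))) (M (nat_lit 399) (B (L (nat_lit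 398) ln11_13_2 ln11_13_2_ok) (L (nat_lit 400) ln12_13_2 ln12_13_2_ok))))))))) (M (nat_lit 427) (B (M (nat_lit 431) (B (M (nat_lit 399) (B (L (nat_lit 398) ln11_13_2 ln11_13_2_ok) (L (nat_lit 400) ln12_13_2 ln12_13_2_ok))) (M (nat_lit 459) (B (L (nat_lit 458) ln14_13_1 ln14_13_1_ok) (L (nat_lit 460) ln15_13_1 ln15_13_1_ok))))) (B (M (nat_lit 431) (B (M (nat_lit 395) (B (L (nat_lit 394) ln14_13_3 ln14_13_3_ok) (L (nat_lit 396) ln15_13_3 ln15_13_3_ok))) (M (nat_lit 459) (B (L (nat_lit 458) ln14_13_1 ln14_13_1_ok) (L (nat_lit 460) ln15_13_1 ln15_13_1_ok))))) (B (M (nat_lit 426) (B (M (nat_lit 394) (B (L (nat_lit 393) ln13_13_3 ln13_13_3_ok) (L (nat_lit 395) ln14_13_3 ln14_13_3_ok))) (M (nat_lit 458) (B (L (nat_lit 457) ln13_13_1 ln13_13_1_ok) (L (nat_lit 459) ln14_13_1 ln14_13_1_ok))))) (M (nat_lit 431) (B (M (nat_lit 395) (B (L (nat_lit 394) ln14_13_3 ln14_13_3_ok) (L (nat_lit 396) ln15_13_3 ln15_13_3_ok)))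 (M (nat_lit 399) (B (L (nat_lit 398) ln11_13_2 ln11_13_2_ok) (L (nat_lit 400) ln12_13_2 ln12_13_2_ok)))))))))))))))))) (nat_lit 2079502270590611144683810638107312777577327806531862431377859685460965980854219217279980804578104683573043408221052678871730618368) (nat_lit 274591906577844596627713407524569314534100423808513076634341721098871716482509892320844774680143646786648997850373881934241291060261249090277249895338386391040) (nat_lit 274591906577844596627713407524569314534100423808513076634341721098871716482509892320844774680143646786648997850373881934241291060261249090277249895338386391040) (by decide +kernel)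
theorem c32_s1596 : Sem (nat_lit 4852171964711426004262224822250396481013764881907679006548339266075587288659844840319955210682244261670434619182456250700704776192) (nat_lit 589681629070580170816153362527404544030951068673153603559421795224718178367855055973730038443129975146525206171562613372817228804210673395539688217864849794092117262336) (nat_lit 589681629070580170816153362527404544030951068673153603559421795224718178367855055973730038443129975146525206171562613372817228804210673395539688217864849794092117262336) :=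
  sem_of_chk (M (nat_lit 396) (B (M (nat_lit 395) (B (L (nat_lit 431) ln15_13_3 ln15_13_3_ok) (M (nat_lit 394) (B (L (nat_lit 393) ln9_12_0 ln9_12_0_ok) (L (nat_lit 397) ln10_12_0 ln10_12_0_ok))))) (B (M (nat_lit 431) (B (L (nat_lit 395) ln15_13_3 ln15_13_3_ok) (M (nat_lit 432) (B (L (nat_lit 397) ln16_13_3 ln16_13_3_ok) (M (nat_lit 400) (B (L (nat_lit 399) ln12_13_2 ln12_13_2_ok) (L (nat_lit 401) ln13_13_2 ln13_13_2_ok))))))) (B (M (nat_lit 460) (B (M (nat_lit 431) (B (L (nat_lit 459) ln15_13_1 ln15_13_1_ok) (M (nat_lit 432) (B (L (nat_lit 397) ln16_13_3 ln16_13_3_ok) (L (nat_lit 461) ln16_13_1 ln16_13_1_ok))))) (B (M (nat_lit 461) (B (M (nat_lit 364) (B (L (nat_lit 332) ln12_10_4 ln12_10_4_ok) (L (nat_lit 493) ln12_11_4 ln12_11_4_ok))) (M (nat_lit 431) (B (L (nat_lit 459) ln15_13_1 ln15_13_1_ok) (L (nat_lit 432) ln16_13_1 ln16_13_1_ok))))) (B (M (nat_lit 364) (B (M (nat_lit 461) (B (L (nat_lit 332) ln12_10_4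 ln12_10_4_ok) (L (nat_lit 493) ln12_11_4 ln12_11_4_ok))) (M (nat_lit 492) (B (M (nat_lit 365) (B (L (nat_lit 333) ln12_14_6 ln12_14_6_ok) (L (nat_lit 397) ln12_15_6 ln12_15_6_ok))) (M (nat_lit 491) (B (L (nat_lit 459) ln12_11_5 ln12_11_5_ok) (L (nat_lit 523) ln12_12_5 ln12_12_5_ok))))))) (B (M (nat_lit 364) (B (M (nat_lit 461) (B (L (nat_lit 332) ln12_10_4 ln12_10_4_ok) (L (nat_lit 493) ln12_11_4 ln12_11_4_ok))) (B (M (nat_lit 492) (B (M (nat_lit 365) (B (L (nat_lit 333) ln12_14_6 ln12_14_6_ok) (L (nat_lit 397) ln12_15_6 ln12_15_6_ok))) (M (nat_lit 493) (B (L (nat_lit 461) ln12_11_4 ln12_11_4_ok) (L (nat_lit 525) ln12_12_4 ln12_12_4_ok))))) (M (nat_lit 332) (B (M (nat_lit 331) (B (L (nat_lit 299) ln12_13_7 ln12_13_7_ok) (L (nat_lit 363) ln12_14_7 ln12_14_7_ok))) (M (nat_lit 333) (B (L (nat_lit 301) ln12_13_6 ln12_13_6_ok) (L (nat_lit 365) ln12_14_6 ln12_14_6_ok)))))))) (M (nat_lit 397) (B (M (nat_lit 365)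 (B (L (nat_lit 333) ln13_10_5 ln13_10_5_ok) (L (nat_lit 492) ln12_15_6 ln12_15_6_ok))) (M (nat_lit 431) (B (L (nat_lit 432) ln16_13_3 ln16_13_3_ok) (L (nat_lit 459) ln15_13_1 ln15_13_1_ok)))))))))) (B (M (nat_lit 431) (B (L (nat_lit 395) ln15_13_3 ln15_13_3_ok) (M (nat_lit 432) (B (M (nat_lit 400) (B (L (nat_lit 399) ln12_13_2 ln12_13_2_ok) (L (nat_lit 401) ln13_13_2 ln13_13_2_ok))) (M (nat_lit 460) (B (L (nat_lit 459) ln15_13_1 ln15_13_1_ok) (L (nat_lit 461) ln16_13_1 ln16_13_1_ok))))))) (M (nat_lit 460) (B (M (nat_lit 364) (B (M (nat_lit 461) (B (L (nat_lit 332) ln12_10_4 ln12_10_4_ok) (L (nat_lit 493) ln12_11_4 ln12_11_4_ok))) (M (nat_lit 492) (B (M (nat_lit 365) (B (L (nat_lit 333) ln12_14_6 ln12_14_6_ok) (L (nat_lit 397) ln12_15_6 ln12_15_6_ok))) (M (nat_lit 491) (B (L (nat_lit 459) ln12_11_5 ln12_11_5_ok) (L (nat_lit 523) ln12_12_5 ln12_12_5_ok))))))) (B (M (nat_lit 364) (B (M (nat_lit 461) (B (L (nat_lit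 493) ln12_11_4 ln12_11_4_ok) (M (nat_lit 459) (B (L (nat_lit 491) ln12_11_5 ln12_11_5_ok) (L (nat_lit 458) ln10_14_2 ln10_14_2_ok))))) (B (M (nat_lit 492) (B (M (nat_lit 363) (B (L (nat_lit 331) ln12_14_7 ln12_14_7_ok) (L (nat_lit 395) ln12_15_7 ln12_15_7_ok))) (M (nat_lit 493) (B (L (nat_lit 461) ln12_11_4 ln12_11_4_ok) (L (nat_lit 525) ln12_12_4 ln12_12_4_ok))))) (M (nat_lit 492) (B (M (nat_lit 363) (B (L (nat_lit 331) ln12_14_7 ln12_14_7_ok) (L (nat_lit 395) ln12_15_7 ln12_15_7_ok))) (M (nat_lit 491) (B (L (nat_lit 459) ln12_11_5 ln12_11_5_ok) (L (nat_lit 523) ln12_12_5 ln12_12_5_ok)))))))) (B (M (nat_lit 492) (B (M (nat_lit 397) (B (L (nat_lit 365) ln12_15_6 ln12_15_6_ok) (L (nat_lit 524) ln12_16_6 ln12_16_6_ok))) (B (M (nat_lit 525) (B (L (nat_lit 493) ln12_12_4 ln12_12_4_ok) (M (nat_lit 524) (B (L (nat_lit 397) ln12_16_6 ln12_16_6_ok) (L (nat_lit 557) ln12_13_4 ln12_13_4_ok))))) (B (M (nat_lit 524)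 (B (M (nat_lit 523) (B (L (nat_lit 491) ln12_12_5 ln12_12_5_ok) (L (nat_lit 555) ln12_13_5 ln12_13_5_ok))) (M (nat_lit 525) (B (L (nat_lit 493) ln12_12_4 ln12_12_4_ok) (L (nat_lit 557) ln12_13_4 ln12_13_4_ok))))) (M (nat_lit 397) (B (L (nat_lit 365) ln12_15_6 ln12_15_6_ok) (M (nat_lit 395) (B (L (nat_lit 363) ln12_15_7 ln12_15_7_ok) (L (nat_lit 394) ln10_12_0 ln10_12_0_ok))))))))) (B (M (nat_lit 364) (B (M (nat_lit 461) (B (L (nat_lit 332) ln12_10_4 ln12_10_4_ok) (L (nat_lit 493) ln12_11_4 ln12_11_4_ok))) (M (nat_lit 492) (B (M (nat_lit 363) (B (L (nat_lit 331) ln12_14_7 ln12_14_7_ok) (L (nat_lit 395) ln12_15_7 ln12_15_7_ok))) (M (nat_lit 365) (B (L (nat_lit 333) ln12_14_6 ln12_14_6_ok) (L (nat_lit 397) ln12_15_6 ln12_15_6_ok))))))) (B (M (nat_lit 364) (B (M (nat_lit 461) (B (L (nat_lit 332) ln12_10_4 ln12_10_4_ok) (L (nat_lit 493) ln12_11_4 ln12_11_4_ok))) (B (M (nat_lit 461) (B (L (nat_lit 493) ln12_11_4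 ln12_11_4_ok) (M (nat_lit 459) (B (L (nat_lit 491) ln12_11_5 ln12_11_5_ok) (L (nat_lit 458) ln10_14_2 ln10_14_2_ok))))) (M (nat_lit 332) (B (M (nat_lit 331) (B (L (nat_lit 299) ln12_13_7 ln12_13_7_ok) (L (nat_lit 363) ln12_14_7 ln12_14_7_ok))) (M (nat_lit 333) (B (L (nat_lit 301) ln12_13_6 ln12_13_6_ok) (L (nat_lit 365) ln12_14_6 ln12_14_6_ok)))))))) (M (nat_lit 364) (B (M (nat_lit 461) (B (L (nat_lit 332) ln12_10_4 ln12_10_4_ok) (M (nat_lit 459) (B (L (nat_lit 491) ln12_11_5 ln12_11_5_ok) (L (nat_lit 458) ln10_14_2 ln10_14_2_ok))))) (B (M (nat_lit 492) (B (M (nat_lit 363) (B (L (nat_lit 331) ln12_14_7 ln12_14_7_ok) (L (nat_lit 395) ln12_15_7 ln12_15_7_ok))) (M (nat_lit 491) (B (L (nat_lit 459) ln12_11_5 ln12_11_5_ok) (L (nat_lit 523) ln12_12_5 ln12_12_5_ok))))) (M (nat_lit 333) (B (L (nat_lit 365) ln12_14_6 ln12_14_6_ok) (M (nat_lit 332) (B (L (nat_lit 301) ln12_13_6 ln12_13_6_ok) (L (nat_lit 461) ln12_10_4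 ln12_10_4_ok))))))))))))))))))) (nat_lit 4852171964711426004262224822250396481013764881907679006548339266075587288659844840319955210682244261670434619182456250700704776192) (nat_lit 589681629070580170816153362527404544030951068673153603559421795224718178367855055973730038443129975146525206171562613372817228804210673395539688217864849794092117262336) (nat_lit 589681629070580170816153362527404544030951068673153603559421795224718178367855055973730038443129975146525206171562613372817228804210673395539688217864849794092117262336) (by decide +kernel)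
theorem c32_s1599 : Sem (nat_lit 2079502270590611144683810638107312777577327806531862431377859685460965980854219217279980804578104683573043408221052678871730618368) (nat_lit 589681629070580170816153362706404570343971314084285144021375208923061338028511905571663922916703774319439300519584552953371816256259610427883471601470416706793092677632) (nat_lit 589681629070580170816153362706404570343971314084285144021375208923061338028511905571663922916703774319439300519584552953371816256259610427883471601470416706793092677632) :=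
  sem_of_chk (M (nat_lit 430) (B (M (nat_lit 427) (B (M (nat_lit 431) (B (M (nat_lit 395) (B (L (nat_lit 394) ln14_13_3 ln14_13_3_ok) (L (nat_lit 396) ln15_13_3 ln15_13_3_ok))) (M (nat_lit 459) (B (L (nat_lit 458) ln14_13_1 ln14_13_1_ok) (L (nat_lit 460) ln15_13_1 ln15_13_1_ok))))) (B (M (nat_lit 431) (B (M (nat_lit 459) (B (L (nat_lit 458) ln14_13_1 ln14_13_1_ok) (L (nat_lit 460) ln15_13_1 ln15_13_1_ok))) (M (nat_lit 463) (B (L (nat_lit 462) ln11_13_0 ln11_13_0_ok) (L (nat_lit 464) ln12_13_0 ln12_13_0_ok))))) (B (M (nat_lit 426) (B (M (nat_lit 458) (B (L (nat_lit 457) ln13_13_1 ln13_13_1_ok) (L (nat_lit 459) ln14_13_1 ln14_13_1_ok))) (M (nat_lit 462) (B (L (nat_lit 461) ln10_13_0 ln10_13_0_ok) (L (nat_lit 463) ln11_13_0 ln11_13_0_ok))))) (M (nat_lit 431) (B (M (nat_lit 395) (B (L (nat_lit 394) ln14_13_3 ln14_13_3_ok) (L (nat_lit 396) ln15_13_3 ln15_13_3_ok))) (M (nat_lit 463) (B (L (nat_lit 462) ln11_13_0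 ln11_13_0_ok) (L (nat_lit 464) ln12_13_0 ln12_13_0_ok))))))))) (B (M (nat_lit 431) (B (M (nat_lit 432) (B (M (nat_lit 396) (B (L (nat_lit 395) ln15_13_3 ln15_13_3_ok) (L (nat_lit 397) ln16_13_3 ln16_13_3_ok))) (M (nat_lit 460) (B (L (nat_lit 459) ln15_13_1 ln15_13_1_ok) (L (nat_lit 461) ln16_13_1 ln16_13_1_ok))))) (B (M (nat_lit 427) (B (M (nat_lit 459) (B (L (nat_lit 458) ln14_13_1 ln14_13_1_ok) (L (nat_lit 460) ln15_13_1 ln15_13_1_ok))) (M (nat_lit 463) (B (L (nat_lit 462) ln11_13_0 ln11_13_0_ok) (L (nat_lit 464) ln12_13_0 ln12_13_0_ok))))) (M (nat_lit 432) (B (M (nat_lit 396) (B (L (nat_lit 395) ln15_13_3 ln15_13_3_ok) (L (nat_lit 397) ln16_13_3 ln16_13_3_ok))) (M (nat_lit 464) (B (L (nat_lit 463) ln12_13_0 ln12_13_0_ok) (L (nat_lit 465) ln13_13_0 ln13_13_0_ok)))))))) (B (M (nat_lit 431) (B (M (nat_lit 460) (B (L (nat_lit 459) ln15_13_1 ln15_13_1_ok) (M (nat_lit 432) (B (L (nat_lit 461) ln16_13_1 ln16_13_1_ok)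 (M (nat_lit 400) (B (L (nat_lit 399) ln12_13_2 ln12_13_2_ok) (L (nat_lit 401) ln13_13_2 ln13_13_2_ok))))))) (B (M (nat_lit 427) (B (M (nat_lit 459) (B (L (nat_lit 458) ln14_13_1 ln14_13_1_ok) (L (nat_lit 460) ln15_13_1 ln15_13_1_ok))) (M (nat_lit 463) (B (L (nat_lit 462) ln11_13_0 ln11_13_0_ok) (L (nat_lit 464) ln12_13_0 ln12_13_0_ok))))) (M (nat_lit 432) (B (M (nat_lit 400) (B (L (nat_lit 399) ln12_13_2 ln12_13_2_ok) (L (nat_lit 401) ln13_13_2 ln13_13_2_ok))) (M (nat_lit 464) (B (L (nat_lit 463) ln12_13_0 ln12_13_0_ok) (L (nat_lit 465) ln13_13_0 ln13_13_0_ok)))))))) (B (K (nat_lit 4852171964711426004262224822250396481013764881907679006548339266075587288659844840319955210682244261670434619182456250700704776192) (nat_lit 589681629070580170816153362527404544030951068673153603559421795224718178367855055973730038443129975146525206171562613372817228804210673395539688217864849794092117262336) (nat_lit 589681629070580170816153362527404544030951068673153603559421795224718178367855055973730038443129975146525206171562613372817228804210673395539688217864849794092117262336)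 c32_s1596) (B (M (nat_lit 427) (B (M (nat_lit 426) (B (M (nat_lit 394) (B (L (nat_lit 393) ln13_13_3 ln13_13_3_ok) (L (nat_lit 395) ln14_13_3 ln14_13_3_ok))) (M (nat_lit 458) (B (L (nat_lit 457) ln13_13_1 ln13_13_1_ok) (L (nat_lit 459) ln14_13_1 ln14_13_1_ok))))) (B (M (nat_lit 426) (B (M (nat_lit 458) (B (L (nat_lit 457) ln13_13_1 ln13_13_1_ok) (L (nat_lit 459) ln14_13_1 ln14_13_1_ok))) (M (nat_lit 462) (B (L (nat_lit 461) ln10_13_0 ln10_13_0_ok) (L (nat_lit 463) ln11_13_0 ln11_13_0_ok))))) (B (M (nat_lit 459) (B (L (nat_lit 458) ln14_13_1 ln14_13_1_ok) (M (nat_lit 395) (B (L (nat_lit 394) ln14_13_3 ln14_13_3_ok) (M (nat_lit 363) (B (M (nat_lit 460) (B (L (nat_lit 331) ln11_10_4 ln11_10_4_ok) (L (nat_lit 492) ln11_11_4 ln11_11_4_ok))) (B (M (nat_lit 491) (B (M (nat_lit 364) (B (L (nat_lit 332) ln11_14_6 ln11_14_6_ok) (L (nat_lit 396) ln11_15_6 ln11_15_6_ok))) (M (nat_lit 492) (B (L (nat_lit 460) ln11_11_4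 ln11_11_4_ok) (L (nat_lit 524) ln11_12_4 ln11_12_4_ok))))) (M (nat_lit 331) (B (M (nat_lit 330) (B (L (nat_lit 298) ln11_13_7 ln11_13_7_ok) (L (nat_lit 362) ln11_14_7 ln11_14_7_ok))) (M (nat_lit 332) (B (L (nat_lit 300) ln11_13_6 ln11_13_6_ok) (L (nat_lit 364) ln11_14_6 ln11_14_6_ok)))))))))))) (M (nat_lit 426) (B (M (nat_lit 394) (B (L (nat_lit 393) ln13_13_3 ln13_13_3_ok) (L (nat_lit 395) ln14_13_3 ln14_13_3_ok))) (M (nat_lit 462) (B (L (nat_lit 461) ln10_13_0 ln10_13_0_ok) (L (nat_lit 463) ln11_13_0 ln11_13_0_ok))))))))) (B (M (nat_lit 431) (B (M (nat_lit 432) (B (M (nat_lit 396) (B (L (nat_lit 395) ln15_13_3 ln15_13_3_ok) (L (nat_lit 397) ln16_13_3 ln16_13_3_ok))) (M (nat_lit 460) (B (L (nat_lit 459) ln15_13_1 ln15_13_1_ok) (L (nat_lit 461) ln16_13_1 ln16_13_1_ok))))) (B (M (nat_lit 432) (B (M (nat_lit 400) (B (L (nat_lit 399) ln12_13_2 ln12_13_2_ok) (L (nat_lit 401) ln13_13_2 ln13_13_2_ok))) (M (nat_lit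 464) (B (L (nat_lit 463) ln12_13_0 ln12_13_0_ok) (L (nat_lit 465) ln13_13_0 ln13_13_0_ok))))) (M (nat_lit 427) (B (M (nat_lit 395) (B (L (nat_lit 394) ln14_13_3 ln14_13_3_ok) (L (nat_lit 396) ln15_13_3 ln15_13_3_ok))) (M (nat_lit 463) (B (L (nat_lit 462) ln11_13_0 ln11_13_0_ok) (L (nat_lit 464) ln12_13_0 ln12_13_0_ok)))))))) (M (nat_lit 431) (B (M (nat_lit 396) (B (L (nat_lit 395) ln15_13_3 ln15_13_3_ok) (M (nat_lit 432) (B (L (nat_lit 397) ln16_13_3 ln16_13_3_ok) (M (nat_lit 400) (B (L (nat_lit 399) ln12_13_2 ln12_13_2_ok) (L (nat_lit 401) ln13_13_2 ln13_13_2_ok))))))) (B (M (nat_lit 432) (B (M (nat_lit 400) (B (L (nat_lit 399) ln12_13_2 ln12_13_2_ok) (L (nat_lit 401) ln13_13_2 ln13_13_2_ok))) (M (nat_lit 464) (B (L (nat_lit 463) ln12_13_0 ln12_13_0_ok) (L (nat_lit 465) ln13_13_0 ln13_13_0_ok))))) (M (nat_lit 427) (B (M (nat_lit 395) (B (L (nat_lit 394) ln14_13_3 ln14_13_3_ok) (L (nat_lit 396) ln15_13_3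 ln15_13_3_ok))) (M (nat_lit 463) (B (L (nat_lit 462) ln11_13_0 ln11_13_0_ok) (L (nat_lit 464) ln12_13_0 ln12_13_0_ok))))))))))))))) (nat_lit 2079502270590611144683810638107312777577327806531862431377859685460965980854219217279980804578104683573043408221052678871730618368) (nat_lit 589681629070580170816153362706404570343971314084285144021375208923061338028511905571663922916703774319439300519584552953371816256259610427883471601470416706793092677632) (nat_lit 589681629070580170816153362706404570343971314084285144021375208923061338028511905571663922916703774319439300519584552953371816256259610427883471601470416706793092677632) (by decide +kernel)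
theorem c32_s1673 : Sem (nat_lit 4852171964711426004262224822250396481013764881907679006548339266075587288659844840319955210682244261670434619182456250700704776192) (nat_lit 589681629070580170816153362694123903254980194790757426744236543232823302014858781808703164095486010201916660484538745144278516237072378815018116637521621475352616370176) (nat_lit 589681629070580170816153362694123903254980194790757426744236543232823302014858781808703164095486010201916660484538745144278516237072378815018116637521621475352616370176) :=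
  sem_of_chk (M (nat_lit 396) (B (M (nat_lit 395) (B (L (nat_lit 431) ln15_13_3 ln15_13_3_ok) (M (nat_lit 394) (B (L (nat_lit 393) ln9_12_0 ln9_12_0_ok) (L (nat_lit 397) ln10_12_0 ln10_12_0_ok))))) (B (M (nat_lit 431) (B (L (nat_lit 395) ln15_13_3 ln15_13_3_ok) (M (nat_lit 432) (B (L (nat_lit 397) ln16_13_3 ln16_13_3_ok) (M (nat_lit 464) (B (L (nat_lit 463) ln12_13_0 ln12_13_0_ok) (L (nat_lit 465) ln13_13_0 ln13_13_0_ok))))))) (B (M (nat_lit 460) (B (M (nat_lit 431) (B (L (nat_lit 459) ln15_13_1 ln15_13_1_ok) (M (nat_lit 432) (B (L (nat_lit 397) ln16_13_3 ln16_13_3_ok) (L (nat_lit 461) ln16_13_1 ln16_13_1_ok))))) (B (M (nat_lit 461) (B (M (nat_lit 364) (B (L (nat_lit 332) ln12_10_4 ln12_10_4_ok) (L (nat_lit 493) ln12_11_4 ln12_11_4_ok))) (M (nat_lit 431) (B (L (nat_lit 459) ln15_13_1 ln15_13_1_ok) (L (nat_lit 432) ln16_13_1 ln16_13_1_ok))))) (B (M (nat_lit 364) (B (M (nat_lit 461) (B (L (nat_lit 332) ln12_10_4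 ln12_10_4_ok) (L (nat_lit 493) ln12_11_4 ln12_11_4_ok))) (M (nat_lit 492) (B (M (nat_lit 365) (B (L (nat_lit 333) ln12_14_6 ln12_14_6_ok) (L (nat_lit 397) ln12_15_6 ln12_15_6_ok))) (M (nat_lit 491) (B (L (nat_lit 459) ln12_11_5 ln12_11_5_ok) (L (nat_lit 523) ln12_12_5 ln12_12_5_ok))))))) (B (M (nat_lit 364) (B (M (nat_lit 461) (B (L (nat_lit 332) ln12_10_4 ln12_10_4_ok) (L (nat_lit 493) ln12_11_4 ln12_11_4_ok))) (B (M (nat_lit 492) (B (M (nat_lit 365) (B (L (nat_lit 333) ln12_14_6 ln12_14_6_ok) (L (nat_lit 397) ln12_15_6 ln12_15_6_ok))) (M (nat_lit 493) (B (L (nat_lit 461) ln12_11_4 ln12_11_4_ok) (L (nat_lit 525) ln12_12_4 ln12_12_4_ok))))) (M (nat_lit 332) (B (M (nat_lit 331) (B (L (nat_lit 299) ln12_13_7 ln12_13_7_ok) (L (nat_lit 363) ln12_14_7 ln12_14_7_ok))) (M (nat_lit 333) (B (L (nat_lit 301) ln12_13_6 ln12_13_6_ok) (L (nat_lit 365) ln12_14_6 ln12_14_6_ok)))))))) (M (nat_lit 397) (B (M (nat_lit 365)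 (B (L (nat_lit 333) ln13_10_5 ln13_10_5_ok) (L (nat_lit 492) ln12_15_6 ln12_15_6_ok))) (M (nat_lit 431) (B (L (nat_lit 432) ln16_13_3 ln16_13_3_ok) (L (nat_lit 459) ln15_13_1 ln15_13_1_ok)))))))))) (B (M (nat_lit 431) (B (L (nat_lit 395) ln15_13_3 ln15_13_3_ok) (M (nat_lit 432) (B (M (nat_lit 460) (B (L (nat_lit 459) ln15_13_1 ln15_13_1_ok) (L (nat_lit 461) ln16_13_1 ln16_13_1_ok))) (M (nat_lit 464) (B (L (nat_lit 463) ln12_13_0 ln12_13_0_ok) (L (nat_lit 465) ln13_13_0 ln13_13_0_ok))))))) (M (nat_lit 460) (B (M (nat_lit 364) (B (M (nat_lit 461) (B (L (nat_lit 332) ln12_10_4 ln12_10_4_ok) (L (nat_lit 493) ln12_11_4 ln12_11_4_ok))) (M (nat_lit 492) (B (M (nat_lit 365) (B (L (nat_lit 333) ln12_14_6 ln12_14_6_ok) (L (nat_lit 397) ln12_15_6 ln12_15_6_ok))) (M (nat_lit 491) (B (L (nat_lit 459) ln12_11_5 ln12_11_5_ok) (L (nat_lit 523) ln12_12_5 ln12_12_5_ok))))))) (B (M (nat_lit 364) (B (M (nat_lit 461) (B (L (nat_lit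 493) ln12_11_4 ln12_11_4_ok) (M (nat_lit 459) (B (L (nat_lit 491) ln12_11_5 ln12_11_5_ok) (L (nat_lit 458) ln10_14_2 ln10_14_2_ok))))) (B (M (nat_lit 492) (B (M (nat_lit 363) (B (L (nat_lit 331) ln12_14_7 ln12_14_7_ok) (L (nat_lit 395) ln12_15_7 ln12_15_7_ok))) (M (nat_lit 493) (B (L (nat_lit 461) ln12_11_4 ln12_11_4_ok) (L (nat_lit 525) ln12_12_4 ln12_12_4_ok))))) (M (nat_lit 492) (B (M (nat_lit 363) (B (L (nat_lit 331) ln12_14_7 ln12_14_7_ok) (L (nat_lit 395) ln12_15_7 ln12_15_7_ok))) (M (nat_lit 491) (B (L (nat_lit 459) ln12_11_5 ln12_11_5_ok) (L (nat_lit 523) ln12_12_5 ln12_12_5_ok)))))))) (B (M (nat_lit 492) (B (M (nat_lit 397) (B (L (nat_lit 365) ln12_15_6 ln12_15_6_ok) (L (nat_lit 524) ln12_16_6 ln12_16_6_ok))) (B (M (nat_lit 525) (B (L (nat_lit 493) ln12_12_4 ln12_12_4_ok) (M (nat_lit 524) (B (L (nat_lit 397) ln12_16_6 ln12_16_6_ok) (L (nat_lit 557) ln12_13_4 ln12_13_4_ok))))) (B (M (nat_lit 524)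 (B (M (nat_lit 523) (B (L (nat_lit 491) ln12_12_5 ln12_12_5_ok) (L (nat_lit 555) ln12_13_5 ln12_13_5_ok))) (M (nat_lit 525) (B (L (nat_lit 493) ln12_12_4 ln12_12_4_ok) (L (nat_lit 557) ln12_13_4 ln12_13_4_ok))))) (M (nat_lit 397) (B (L (nat_lit 365) ln12_15_6 ln12_15_6_ok) (M (nat_lit 395) (B (L (nat_lit 363) ln12_15_7 ln12_15_7_ok) (L (nat_lit 394) ln10_12_0 ln10_12_0_ok))))))))) (B (M (nat_lit 364) (B (M (nat_lit 461) (B (L (nat_lit 332) ln12_10_4 ln12_10_4_ok) (L (nat_lit 493) ln12_11_4 ln12_11_4_ok))) (M (nat_lit 492) (B (M (nat_lit 363) (B (L (nat_lit 331) ln12_14_7 ln12_14_7_ok) (L (nat_lit 395) ln12_15_7 ln12_15_7_ok))) (M (nat_lit 365) (B (L (nat_lit 333) ln12_14_6 ln12_14_6_ok) (L (nat_lit 397) ln12_15_6 ln12_15_6_ok))))))) (B (M (nat_lit 364) (B (M (nat_lit 461) (B (L (nat_lit 332) ln12_10_4 ln12_10_4_ok) (L (nat_lit 493) ln12_11_4 ln12_11_4_ok))) (B (M (nat_lit 461) (B (L (nat_lit 493) ln12_11_4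 ln12_11_4_ok) (M (nat_lit 459) (B (L (nat_lit 491) ln12_11_5 ln12_11_5_ok) (L (nat_lit 458) ln10_14_2 ln10_14_2_ok))))) (M (nat_lit 332) (B (M (nat_lit 331) (B (L (nat_lit 299) ln12_13_7 ln12_13_7_ok) (L (nat_lit 363) ln12_14_7 ln12_14_7_ok))) (M (nat_lit 333) (B (L (nat_lit 301) ln12_13_6 ln12_13_6_ok) (L (nat_lit 365) ln12_14_6 ln12_14_6_ok)))))))) (M (nat_lit 364) (B (M (nat_lit 461) (B (L (nat_lit 332) ln12_10_4 ln12_10_4_ok) (M (nat_lit 459) (B (L (nat_lit 491) ln12_11_5 ln12_11_5_ok) (L (nat_lit 458) ln10_14_2 ln10_14_2_ok))))) (B (M (nat_lit 492) (B (M (nat_lit 363) (B (L (nat_lit 331) ln12_14_7 ln12_14_7_ok) (L (nat_lit 395) ln12_15_7 ln12_15_7_ok))) (M (nat_lit 491) (B (L (nat_lit 459) ln12_11_5 ln12_11_5_ok) (L (nat_lit 523) ln12_12_5 ln12_12_5_ok))))) (M (nat_lit 333) (B (L (nat_lit 365) ln12_14_6 ln12_14_6_ok) (M (nat_lit 332) (B (L (nat_lit 301) ln12_13_6 ln12_13_6_ok) (L (nat_lit 461) ln12_10_4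 ln12_10_4_ok))))))))))))))))))) (nat_lit 4852171964711426004262224822250396481013764881907679006548339266075587288659844840319955210682244261670434619182456250700704776192) (nat_lit 589681629070580170816153362694123903254980194790757426744236543232823302014858781808703164095486010201916660484538745144278516237072378815018116637521621475352616370176) (nat_lit 589681629070580170816153362694123903254980194790757426744236543232823302014858781808703164095486010201916660484538745144278516237072378815018116637521621475352616370176) (by decide +kernel)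
noncomputable def c32_n1773 : Cert := (M (nat_lit 427) (B (M (nat_lit 431) (B (M (nat_lit 395) (B (L (nat_lit 394) ln14_13_3 ln14_13_3_ok) (L (nat_lit 396) ln15_13_3 ln15_13_3_ok))) (M (nat_lit 459) (B (L (nat_lit 458) ln14_13_1 ln14_13_1_ok) (L (nat_lit 460) ln15_13_1 ln15_13_1_ok))))) (B (M (nat_lit 396) (B (M (nat_lit 431) (B (L (nat_lit 395) ln15_13_3 ln15_13_3_ok) (M (nat_lit 459) (B (L (nat_lit 458) ln14_13_1 ln14_13_1_ok) (L (nat_lit 460) ln15_13_1 ln15_13_1_ok))))) (B (M (nat_lit 426) (B (M (nat_lit 397) (B (L (nat_lit 425) ln9_13_2 ln9_13_2_ok) (L (nat_lit 398) ln10_13_2 ln10_13_2_ok))) (M (nat_lit 458) (B (L (nat_lit 457) ln13_13_1 ln13_13_1_ok) (L (nat_lit 459) ln14_13_1 ln14_13_1_ok))))) (M (nat_lit 397) (B (M (nat_lit 431) (B (L (nat_lit 395) ln15_13_3 ln15_13_3_ok) (L (nat_lit 432) ln16_13_3 ln16_13_3_ok))) (M (nat_lit 426) (B (L (nat_lit 425) ln9_13_2 ln9_13_2_ok) (L (nat_lit 398) ln10_13_2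 ln10_13_2_ok)))))))) (B (M (nat_lit 397) (B (M (nat_lit 426) (B (L (nat_lit 398) ln10_13_2 ln10_13_2_ok) (M (nat_lit 458) (B (L (nat_lit 457) ln13_13_1 ln13_13_1_ok) (L (nat_lit 459) ln14_13_1 ln14_13_1_ok))))) (B (M (nat_lit 460) (B (M (nat_lit 459) (B (L (nat_lit 458) ln14_13_1 ln14_13_1_ok) (L (nat_lit 431) ln15_13_1 ln15_13_1_ok))) (M (nat_lit 365) (B (L (nat_lit 333) ln13_10_5 ln13_10_5_ok) (M (nat_lit 492) (B (L (nat_lit 461) ln13_11_5 ln13_11_5_ok) (L (nat_lit 524) ln12_16_6 ln12_16_6_ok))))))) (M (nat_lit 460) (B (M (nat_lit 365) (B (L (nat_lit 333) ln13_10_5 ln13_10_5_ok) (M (nat_lit 492) (B (L (nat_lit 461) ln13_11_5 ln13_11_5_ok) (L (nat_lit 524) ln12_16_6 ln12_16_6_ok))))) (B (M (nat_lit 492) (B (L (nat_lit 524) ln12_16_6 ln12_16_6_ok) (M (nat_lit 365) (B (L (nat_lit 396) ln12_15_6 ln12_15_6_ok) (L (nat_lit 461) ln13_11_5 ln13_11_5_ok))))) (B (M (nat_lit 426) (B (L (nat_lit 398) ln10_13_2 ln10_13_2_ok)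 (M (nat_lit 425) (B (L (nat_lit 396) ln9_13_2 ln9_13_2_ok) (L (nat_lit 461) ln9_13_0 ln9_13_0_ok))))) (M (nat_lit 365) (B (L (nat_lit 333) ln13_10_5 ln13_10_5_ok) (M (nat_lit 492) (B (L (nat_lit 396) ln12_15_6 ln12_15_6_ok) (L (nat_lit 524) ln12_16_6 ln12_16_6_ok)))))))))))) (B (M (nat_lit 426) (B (M (nat_lit 394) (B (L (nat_lit 393) ln13_13_3 ln13_13_3_ok) (L (nat_lit 395) ln14_13_3 ln14_13_3_ok))) (M (nat_lit 458) (B (L (nat_lit 457) ln13_13_1 ln13_13_1_ok) (L (nat_lit 459) ln14_13_1 ln14_13_1_ok))))) (B (M (nat_lit 461) (B (M (nat_lit 426) (B (L (nat_lit 462) ln10_13_0 ln10_13_0_ok) (M (nat_lit 394) (B (L (nat_lit 393) ln13_13_3 ln13_13_3_ok) (L (nat_lit 395) ln14_13_3 ln14_13_3_ok))))) (B (M (nat_lit 460) (B (M (nat_lit 426) (B (L (nat_lit 425) ln9_13_0 ln9_13_0_ok) (L (nat_lit 462) ln10_13_0 ln10_13_0_ok))) (M (nat_lit 431) (B (L (nat_lit 459) ln15_13_1 ln15_13_1_ok) (L (nat_lit 432) ln16_13_1 ln16_13_1_ok)))))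 (M (nat_lit 431) (B (M (nat_lit 395) (B (L (nat_lit 394) ln14_13_3 ln14_13_3_ok) (L (nat_lit 396) ln15_13_3 ln15_13_3_ok))) (M (nat_lit 460) (B (L (nat_lit 459) ln15_13_1 ln15_13_1_ok) (L (nat_lit 432) ln16_13_1 ln16_13_1_ok)))))))) (M (nat_lit 396) (B (M (nat_lit 395) (B (L (nat_lit 394) ln14_13_3 ln14_13_3_ok) (L (nat_lit 431) ln15_13_3 ln15_13_3_ok))) (M (nat_lit 461) (B (M (nat_lit 364) (B (L (nat_lit 332) ln12_10_4 ln12_10_4_ok) (M (nat_lit 493) (B (L (nat_lit 460) ln12_11_4 ln12_11_4_ok) (L (nat_lit 525) ln13_16_7 ln13_16_7_ok))))) (B (M (nat_lit 493) (B (L (nat_lit 525) ln13_16_7 ln13_16_7_ok) (M (nat_lit 364) (B (L (nat_lit 397) ln13_15_7 ln13_15_7_ok) (L (nat_lit 460) ln12_11_4 ln12_11_4_ok))))) (B (M (nat_lit 426) (B (L (nat_lit 462) ln10_13_0 ln10_13_0_ok) (M (nat_lit 425) (B (L (nat_lit 397) ln9_13_2 ln9_13_2_ok) (L (nat_lit 460) ln9_13_0 ln9_13_0_ok))))) (M (nat_lit 493) (B (L (nat_lit 525)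 ln13_16_7 ln13_16_7_ok) (M (nat_lit 364) (B (L (nat_lit 332) ln12_10_4 ln12_10_4_ok) (L (nat_lit 397) ln13_15_7 ln13_15_7_ok)))))))))))))))))
theorem c32_s1774 : Sem (nat_lit 2079502270590611144683810638107312777577327806531862431377859685460965980854219217279980804578104683573043408221052678871730618368) (nat_lit 589681629290253695991479601834388683347038307333367900634744715680774322303184268557357019085718067468608535346933613311529796943368602322579723501729088289292184190976) (nat_lit 589681629290253695991479601834388683347038307333367900634744715680774322303184268557357019085718067468608535346933613311529796943368602322579723501729088289292184190976) :=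
  sem_of_chk (M (nat_lit 430) (B (M (nat_lit 427) (B (M (nat_lit 431) (B (M (nat_lit 395) (B (L (nat_lit 394) ln14_13_3 ln14_13_3_ok) (L (nat_lit 396) ln15_13_3 ln15_13_3_ok))) (M (nat_lit 459) (B (L (nat_lit 458) ln14_13_1 ln14_13_1_ok) (L (nat_lit 460) ln15_13_1 ln15_13_1_ok))))) (B (M (nat_lit 431) (B (M (nat_lit 459) (B (L (nat_lit 458) ln14_13_1 ln14_13_1_ok) (L (nat_lit 460) ln15_13_1 ln15_13_1_ok))) (M (nat_lit 463) (B (L (nat_lit 462) ln11_13_0 ln11_13_0_ok) (L (nat_lit 464) ln12_13_0 ln12_13_0_ok))))) (B (M (nat_lit 426) (B (M (nat_lit 458) (B (L (nat_lit 457) ln13_13_1 ln13_13_1_ok) (L (nat_lit 459) ln14_13_1 ln14_13_1_ok))) (M (nat_lit 462) (B (L (nat_lit 461) ln10_13_0 ln10_13_0_ok) (L (nat_lit 463) ln11_13_0 ln11_13_0_ok))))) (M (nat_lit 431) (B (M (nat_lit 395) (B (L (nat_lit 394) ln14_13_3 ln14_13_3_ok) (L (nat_lit 396) ln15_13_3 ln15_13_3_ok))) (M (nat_lit 463) (B (L (nat_lit 462) ln11_13_0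 ln11_13_0_ok) (L (nat_lit 464) ln12_13_0 ln12_13_0_ok))))))))) (B (M (nat_lit 431) (B (M (nat_lit 432) (B (M (nat_lit 396) (B (L (nat_lit 395) ln15_13_3 ln15_13_3_ok) (L (nat_lit 397) ln16_13_3 ln16_13_3_ok))) (M (nat_lit 460) (B (L (nat_lit 459) ln15_13_1 ln15_13_1_ok) (L (nat_lit 461) ln16_13_1 ln16_13_1_ok))))) (B (M (nat_lit 427) (B (M (nat_lit 459) (B (L (nat_lit 458) ln14_13_1 ln14_13_1_ok) (L (nat_lit 460) ln15_13_1 ln15_13_1_ok))) (M (nat_lit 463) (B (L (nat_lit 462) ln11_13_0 ln11_13_0_ok) (L (nat_lit 464) ln12_13_0 ln12_13_0_ok))))) (M (nat_lit 432) (B (M (nat_lit 396) (B (L (nat_lit 395) ln15_13_3 ln15_13_3_ok) (L (nat_lit 397) ln16_13_3 ln16_13_3_ok))) (M (nat_lit 464) (B (L (nat_lit 463) ln12_13_0 ln12_13_0_ok) (L (nat_lit 465) ln13_13_0 ln13_13_0_ok)))))))) (B (M (nat_lit 397) (B (M (nat_lit 460) (B (M (nat_lit 365) (B (L (nat_lit 333) ln13_10_5 ln13_10_5_ok) (M (nat_lit 492) (B (L (nat_lit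 461) ln13_11_5 ln13_11_5_ok) (L (nat_lit 524) ln12_16_6 ln12_16_6_ok))))) (B (M (nat_lit 431) (B (L (nat_lit 459) ln15_13_1 ln15_13_1_ok) (M (nat_lit 432) (B (L (nat_lit 396) ln16_13_3 ln16_13_3_ok) (L (nat_lit 461) ln16_13_1 ln16_13_1_ok))))) (M (nat_lit 365) (B (L (nat_lit 333) ln13_10_5 ln13_10_5_ok) (M (nat_lit 492) (B (L (nat_lit 396) ln12_15_6 ln12_15_6_ok) (L (nat_lit 524) ln12_16_6 ln12_16_6_ok)))))))) (B (M (nat_lit 462) (B (M (nat_lit 427) (B (L (nat_lit 463) ln11_13_0 ln11_13_0_ok) (M (nat_lit 426) (B (L (nat_lit 398) ln10_13_2 ln10_13_2_ok) (L (nat_lit 461) ln10_13_0 ln10_13_0_ok))))) (B (M (nat_lit 461) (B (M (nat_lit 494) (B (L (nat_lit 365) ln13_11_4 ln13_11_4_ok) (L (nat_lit 526) ln14_16_7 ln14_16_7_ok))) (M (nat_lit 427) (B (L (nat_lit 426) ln10_13_0 ln10_13_0_ok) (L (nat_lit 463) ln11_13_0 ln11_13_0_ok))))) (B (M (nat_lit 494) (B (L (nat_lit 526) ln14_16_7 ln14_16_7_ok) (M (nat_lit 365)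 (B (L (nat_lit 398) ln14_15_7 ln14_15_7_ok) (L (nat_lit 461) ln13_11_4 ln13_11_4_ok))))) (M (nat_lit 398) (B (M (nat_lit 494) (B (L (nat_lit 365) ln14_15_7 ln14_15_7_ok) (L (nat_lit 526) ln14_16_7 ln14_16_7_ok))) (M (nat_lit 427) (B (L (nat_lit 426) ln10_13_2 ln10_13_2_ok) (L (nat_lit 463) ln11_13_0 ln11_13_0_ok))))))))) (B (M (nat_lit 427) (B (M (nat_lit 462) (B (L (nat_lit 463) ln11_13_0 ln11_13_0_ok) (M (nat_lit 426) (B (L (nat_lit 398) ln10_13_2 ln10_13_2_ok) (L (nat_lit 461) ln10_13_0 ln10_13_0_ok))))) (B (M (nat_lit 431) (B (M (nat_lit 459) (B (L (nat_lit 458) ln14_13_1 ln14_13_1_ok) (L (nat_lit 460) ln15_13_1 ln15_13_1_ok))) (M (nat_lit 463) (B (L (nat_lit 462) ln11_13_0 ln11_13_0_ok) (L (nat_lit 464) ln12_13_0 ln12_13_0_ok))))) (M (nat_lit 426) (B (L (nat_lit 398) ln10_13_2 ln10_13_2_ok) (M (nat_lit 458) (B (L (nat_lit 457) ln13_13_1 ln13_13_1_ok) (L (nat_lit 459) ln14_13_1 ln14_13_1_ok)))))))) (M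 (nat_lit 462) (B (M (nat_lit 365) (B (L (nat_lit 333) ln13_10_4 ln13_10_4_ok) (M (nat_lit 494) (B (L (nat_lit 398) ln14_15_7 ln14_15_7_ok) (L (nat_lit 526) ln14_16_7 ln14_16_7_ok))))) (M (nat_lit 463) (B (L (nat_lit 427) ln11_13_0 ln11_13_0_ok) (M (nat_lit 464) (B (L (nat_lit 431) ln12_13_0 ln12_13_0_ok) (L (nat_lit 465) ln17_14_3 ln17_14_3_ok))))))))))) (B (M (nat_lit 427) (B (M (nat_lit 426) (B (M (nat_lit 394) (B (L (nat_lit 393) ln13_13_3 ln13_13_3_ok) (L (nat_lit 395) ln14_13_3 ln14_13_3_ok))) (M (nat_lit 462) (B (L (nat_lit 461) ln10_13_0 ln10_13_0_ok) (L (nat_lit 463) ln11_13_0 ln11_13_0_ok))))) (B (M (nat_lit 431) (B (M (nat_lit 459) (B (L (nat_lit 458) ln14_13_1 ln14_13_1_ok) (L (nat_lit 460) ln15_13_1 ln15_13_1_ok))) (M (nat_lit 463) (B (L (nat_lit 462) ln11_13_0 ln11_13_0_ok) (L (nat_lit 464) ln12_13_0 ln12_13_0_ok))))) (M (nat_lit 426) (B (M (nat_lit 394) (B (L (nat_lit 393) ln13_13_3 ln13_13_3_ok)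 (L (nat_lit 395) ln14_13_3 ln14_13_3_ok))) (M (nat_lit 458) (B (L (nat_lit 457) ln13_13_1 ln13_13_1_ok) (L (nat_lit 459) ln14_13_1 ln14_13_1_ok)))))))) (B (K (nat_lit 4852171964711426004262224822250396481013764881907679006548339266075587288659844840319955210682244261670434619182456250700704776192) (nat_lit 589681629070580170816153362694123903254980194790757426744236543232823302014858781808703164095486010201916660484538745144278516237072378815018116637521621475352616370176) (nat_lit 589681629070580170816153362694123903254980194790757426744236543232823302014858781808703164095486010201916660484538745144278516237072378815018116637521621475352616370176) c32_s1673) (B (M (nat_lit 427) (B (M (nat_lit 426) (B (M (nat_lit 394) (B (L (nat_lit 393) ln13_13_3 ln13_13_3_ok) (L (nat_lit 395) ln14_13_3 ln14_13_3_ok))) (M (nat_lit 458) (B (L (nat_lit 457) ln13_13_1 ln13_13_1_ok) (L (nat_lit 459) ln14_13_1 ln14_13_1_ok)))))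 (B (M (nat_lit 426) (B (M (nat_lit 458) (B (L (nat_lit 457) ln13_13_1 ln13_13_1_ok) (L (nat_lit 459) ln14_13_1 ln14_13_1_ok))) (M (nat_lit 462) (B (L (nat_lit 461) ln10_13_0 ln10_13_0_ok) (L (nat_lit 463) ln11_13_0 ln11_13_0_ok))))) (B (M (nat_lit 459) (B (L (nat_lit 458) ln14_13_1 ln14_13_1_ok) (M (nat_lit 395) (B (L (nat_lit 394) ln14_13_3 ln14_13_3_ok) (M (nat_lit 363) (B (M (nat_lit 460) (B (L (nat_lit 331) ln11_10_4 ln11_10_4_ok) (L (nat_lit 492) ln11_11_4 ln11_11_4_ok))) (B (M (nat_lit 491) (B (M (nat_lit 364) (B (L (nat_lit 332) ln11_14_6 ln11_14_6_ok) (L (nat_lit 396) ln11_15_6 ln11_15_6_ok))) (M (nat_lit 492) (B (L (nat_lit 460) ln11_11_4 ln11_11_4_ok) (L (nat_lit 524) ln11_12_4 ln11_12_4_ok))))) (M (nat_lit 331) (B (M (nat_lit 330) (B (L (nat_lit 298) ln11_13_7 ln11_13_7_ok) (L (nat_lit 362) ln11_14_7 ln11_14_7_ok))) (M (nat_lit 332) (B (L (nat_lit 300) ln11_13_6 ln11_13_6_ok) (L (nat_lit 364)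 ln11_14_6 ln11_14_6_ok)))))))))))) (M (nat_lit 426) (B (M (nat_lit 394) (B (L (nat_lit 393) ln13_13_3 ln13_13_3_ok) (L (nat_lit 395) ln14_13_3 ln14_13_3_ok))) (M (nat_lit 462) (B (L (nat_lit 461) ln10_13_0 ln10_13_0_ok) (L (nat_lit 463) ln11_13_0 ln11_13_0_ok))))))))) (B (M (nat_lit 431) (B (M (nat_lit 432) (B (M (nat_lit 396) (B (L (nat_lit 395) ln15_13_3 ln15_13_3_ok) (L (nat_lit 397) ln16_13_3 ln16_13_3_ok))) (M (nat_lit 460) (B (L (nat_lit 459) ln15_13_1 ln15_13_1_ok) (L (nat_lit 461) ln16_13_1 ln16_13_1_ok))))) (B (M (nat_lit 432) (B (M (nat_lit 460) (B (L (nat_lit 459) ln15_13_1 ln15_13_1_ok) (L (nat_lit 461) ln16_13_1 ln16_13_1_ok))) (M (nat_lit 464) (B (L (nat_lit 463) ln12_13_0 ln12_13_0_ok) (L (nat_lit 465) ln13_13_0 ln13_13_0_ok))))) (M (nat_lit 427) (B (M (nat_lit 395) (B (L (nat_lit 394) ln14_13_3 ln14_13_3_ok) (L (nat_lit 396) ln15_13_3 ln15_13_3_ok))) (M (nat_lit 463) (B (L (nat_lit 462) ln11_13_0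 ln11_13_0_ok) (L (nat_lit 464) ln12_13_0 ln12_13_0_ok)))))))) (B (M (nat_lit 427) (B (M (nat_lit 426) (B (M (nat_lit 394) (B (L (nat_lit 393) ln13_13_3 ln13_13_3_ok) (L (nat_lit 395) ln14_13_3 ln14_13_3_ok))) (M (nat_lit 462) (B (L (nat_lit 461) ln10_13_0 ln10_13_0_ok) (L (nat_lit 463) ln11_13_0 ln11_13_0_ok))))) (B (M (nat_lit 431) (B (M (nat_lit 395) (B (L (nat_lit 394) ln14_13_3 ln14_13_3_ok) (L (nat_lit 396) ln15_13_3 ln15_13_3_ok))) (M (nat_lit 463) (B (L (nat_lit 462) ln11_13_0 ln11_13_0_ok) (L (nat_lit 464) ln12_13_0 ln12_13_0_ok))))) (B (M (nat_lit 426) (B (M (nat_lit 462) (B (L (nat_lit 461) ln10_13_0 ln10_13_0_ok) (L (nat_lit 463) ln11_13_0 ln11_13_0_ok))) (M (nat_lit 425) (B (M (nat_lit 397) (B (L (nat_lit 396) ln9_13_2 ln9_13_2_ok) (L (nat_lit 398) ln10_13_2 ln10_13_2_ok))) (M (nat_lit 457) (B (L (nat_lit 456) ln12_13_1 ln12_13_1_ok) (L (nat_lit 458) ln13_13_1 ln13_13_1_ok))))))) (M (nat_lit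 426) (B (M (nat_lit 394) (B (L (nat_lit 393) ln13_13_3 ln13_13_3_ok) (L (nat_lit 395) ln14_13_3 ln14_13_3_ok))) (M (nat_lit 425) (B (M (nat_lit 397) (B (L (nat_lit 396) ln9_13_2 ln9_13_2_ok) (L (nat_lit 398) ln10_13_2 ln10_13_2_ok))) (M (nat_lit 457) (B (L (nat_lit 456) ln12_13_1 ln12_13_1_ok) (L (nat_lit 458) ln13_13_1 ln13_13_1_ok))))))))))) (B (M (nat_lit 427) (B (M (nat_lit 431) (B (M (nat_lit 459) (B (L (nat_lit 458) ln14_13_1 ln14_13_1_ok) (L (nat_lit 460) ln15_13_1 ln15_13_1_ok))) (M (nat_lit 463) (B (L (nat_lit 462) ln11_13_0 ln11_13_0_ok) (L (nat_lit 464) ln12_13_0 ln12_13_0_ok))))) (B (M (nat_lit 426) (B (M (nat_lit 394) (B (L (nat_lit 393) ln13_13_3 ln13_13_3_ok) (L (nat_lit 395) ln14_13_3 ln14_13_3_ok))) (M (nat_lit 458) (B (L (nat_lit 457) ln13_13_1 ln13_13_1_ok) (L (nat_lit 459) ln14_13_1 ln14_13_1_ok))))) (M (nat_lit 431) (B (M (nat_lit 395) (B (L (nat_lit 394) ln14_13_3 ln14_13_3_ok) (L (nat_lit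 396) ln15_13_3 ln15_13_3_ok))) (M (nat_lit 463) (B (L (nat_lit 462) ln11_13_0 ln11_13_0_ok) (L (nat_lit 464) ln12_13_0 ln12_13_0_ok)))))))) c32_n1773)))))))))) (nat_lit 2079502270590611144683810638107312777577327806531862431377859685460965980854219217279980804578104683573043408221052678871730618368) (nat_lit 589681629290253695991479601834388683347038307333367900634744715680774322303184268557357019085718067468608535346933613311529796943368602322579723501729088289292184190976) (nat_lit 589681629290253695991479601834388683347038307333367900634744715680774322303184268557357019085718067468608535346933613311529796943368602322579723501729088289292184190976) (by decide +kernel)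
theorem c32_s1781 : Sem (nat_lit 4852171964711426004262224822250396481013764881907679006548339266075587288659844840319955210682244261670434619182456250700704776192) (nat_lit 589681629070580170816153362694123903254980194799795301317540723296619019116869323368857134370388292496823968232431011821337460418276137551498599047547282577257232596992) (nat_lit 589681629070580170816153362694123903254980194799795301317540723296619019116869323368857134370388292496823968232431011821337460418276137551498599047547282577257232596992) :=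
  sem_of_chk (M (nat_lit 396) (B (M (nat_lit 395) (B (L (nat_lit 431) ln15_13_3 ln15_13_3_ok) (M (nat_lit 394) (B (L (nat_lit 393) ln9_12_0 ln9_12_0_ok) (L (nat_lit 397) ln10_12_0 ln10_12_0_ok))))) (B (M (nat_lit 431) (B (L (nat_lit 395) ln15_13_3 ln15_13_3_ok) (M (nat_lit 432) (B (L (nat_lit 397) ln16_13_3 ln16_13_3_ok) (M (nat_lit 464) (B (L (nat_lit 463) ln12_13_0 ln12_13_0_ok) (L (nat_lit 465) ln13_13_0 ln13_13_0_ok))))))) (B (M (nat_lit 460) (B (M (nat_lit 431) (B (L (nat_lit 459) ln15_13_1 ln15_13_1_ok) (M (nat_lit 432) (B (L (nat_lit 397) ln16_13_3 ln16_13_3_ok) (L (nat_lit 461) ln16_13_1 ln16_13_1_ok))))) (B (M (nat_lit 461) (B (M (nat_lit 364) (B (L (nat_lit 332) ln12_10_4 ln12_10_4_ok) (L (nat_lit 493) ln12_11_4 ln12_11_4_ok))) (M (nat_lit 431) (B (L (nat_lit 459) ln15_13_1 ln15_13_1_ok) (L (nat_lit 432) ln16_13_1 ln16_13_1_ok))))) (B (M (nat_lit 364) (B (M (nat_lit 461) (B (L (nat_lit 332) ln12_10_4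 ln12_10_4_ok) (L (nat_lit 493) ln12_11_4 ln12_11_4_ok))) (M (nat_lit 492) (B (M (nat_lit 365) (B (L (nat_lit 333) ln12_14_6 ln12_14_6_ok) (L (nat_lit 397) ln12_15_6 ln12_15_6_ok))) (M (nat_lit 491) (B (L (nat_lit 459) ln12_11_5 ln12_11_5_ok) (L (nat_lit 523) ln12_12_5 ln12_12_5_ok))))))) (B (M (nat_lit 364) (B (M (nat_lit 461) (B (L (nat_lit 332) ln12_10_4 ln12_10_4_ok) (L (nat_lit 493) ln12_11_4 ln12_11_4_ok))) (B (M (nat_lit 492) (B (M (nat_lit 365) (B (L (nat_lit 333) ln12_14_6 ln12_14_6_ok) (L (nat_lit 397) ln12_15_6 ln12_15_6_ok))) (M (nat_lit 493) (B (L (nat_lit 461) ln12_11_4 ln12_11_4_ok) (L (nat_lit 525) ln12_12_4 ln12_12_4_ok))))) (M (nat_lit 332) (B (M (nat_lit 331) (B (L (nat_lit 299) ln12_13_7 ln12_13_7_ok) (L (nat_lit 363) ln12_14_7 ln12_14_7_ok))) (M (nat_lit 333) (B (L (nat_lit 301) ln12_13_6 ln12_13_6_ok) (L (nat_lit 365) ln12_14_6 ln12_14_6_ok)))))))) (M (nat_lit 397) (B (M (nat_lit 365)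 (B (L (nat_lit 333) ln13_10_5 ln13_10_5_ok) (L (nat_lit 492) ln12_15_6 ln12_15_6_ok))) (M (nat_lit 431) (B (L (nat_lit 432) ln16_13_3 ln16_13_3_ok) (L (nat_lit 459) ln15_13_1 ln15_13_1_ok)))))))))) (B (M (nat_lit 431) (B (L (nat_lit 395) ln15_13_3 ln15_13_3_ok) (M (nat_lit 432) (B (M (nat_lit 400) (B (L (nat_lit 399) ln12_13_2 ln12_13_2_ok) (L (nat_lit 401) ln13_13_2 ln13_13_2_ok))) (M (nat_lit 464) (B (L (nat_lit 463) ln12_13_0 ln12_13_0_ok) (L (nat_lit 465) ln13_13_0 ln13_13_0_ok))))))) (M (nat_lit 460) (B (M (nat_lit 364) (B (M (nat_lit 461) (B (L (nat_lit 332) ln12_10_4 ln12_10_4_ok) (L (nat_lit 493) ln12_11_4 ln12_11_4_ok))) (M (nat_lit 492) (B (M (nat_lit 365) (B (L (nat_lit 333) ln12_14_6 ln12_14_6_ok) (L (nat_lit 397) ln12_15_6 ln12_15_6_ok))) (M (nat_lit 491) (B (L (nat_lit 459) ln12_11_5 ln12_11_5_ok) (L (nat_lit 523) ln12_12_5 ln12_12_5_ok))))))) (B (M (nat_lit 364) (B (M (nat_lit 461) (B (L (nat_lit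 493) ln12_11_4 ln12_11_4_ok) (M (nat_lit 459) (B (L (nat_lit 491) ln12_11_5 ln12_11_5_ok) (L (nat_lit 458) ln10_14_2 ln10_14_2_ok))))) (B (M (nat_lit 492) (B (M (nat_lit 363) (B (L (nat_lit 331) ln12_14_7 ln12_14_7_ok) (L (nat_lit 395) ln12_15_7 ln12_15_7_ok))) (M (nat_lit 493) (B (L (nat_lit 461) ln12_11_4 ln12_11_4_ok) (L (nat_lit 525) ln12_12_4 ln12_12_4_ok))))) (M (nat_lit 492) (B (M (nat_lit 363) (B (L (nat_lit 331) ln12_14_7 ln12_14_7_ok) (L (nat_lit 395) ln12_15_7 ln12_15_7_ok))) (M (nat_lit 491) (B (L (nat_lit 459) ln12_11_5 ln12_11_5_ok) (L (nat_lit 523) ln12_12_5 ln12_12_5_ok)))))))) (B (M (nat_lit 492) (B (M (nat_lit 397) (B (L (nat_lit 365) ln12_15_6 ln12_15_6_ok) (L (nat_lit 524) ln12_16_6 ln12_16_6_ok))) (B (M (nat_lit 525) (B (L (nat_lit 493) ln12_12_4 ln12_12_4_ok) (M (nat_lit 524) (B (L (nat_lit 397) ln12_16_6 ln12_16_6_ok) (L (nat_lit 557) ln12_13_4 ln12_13_4_ok))))) (B (M (nat_lit 524)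 (B (M (nat_lit 523) (B (L (nat_lit 491) ln12_12_5 ln12_12_5_ok) (L (nat_lit 555) ln12_13_5 ln12_13_5_ok))) (M (nat_lit 525) (B (L (nat_lit 493) ln12_12_4 ln12_12_4_ok) (L (nat_lit 557) ln12_13_4 ln12_13_4_ok))))) (M (nat_lit 397) (B (L (nat_lit 365) ln12_15_6 ln12_15_6_ok) (M (nat_lit 395) (B (L (nat_lit 363) ln12_15_7 ln12_15_7_ok) (L (nat_lit 394) ln10_12_0 ln10_12_0_ok))))))))) (B (M (nat_lit 364) (B (M (nat_lit 461) (B (L (nat_lit 332) ln12_10_4 ln12_10_4_ok) (L (nat_lit 493) ln12_11_4 ln12_11_4_ok))) (M (nat_lit 492) (B (M (nat_lit 363) (B (L (nat_lit 331) ln12_14_7 ln12_14_7_ok) (L (nat_lit 395) ln12_15_7 ln12_15_7_ok))) (M (nat_lit 365) (B (L (nat_lit 333) ln12_14_6 ln12_14_6_ok) (L (nat_lit 397) ln12_15_6 ln12_15_6_ok))))))) (B (M (nat_lit 364) (B (M (nat_lit 461) (B (L (nat_lit 332) ln12_10_4 ln12_10_4_ok) (L (nat_lit 493) ln12_11_4 ln12_11_4_ok))) (B (M (nat_lit 461) (B (L (nat_lit 493) ln12_11_4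 ln12_11_4_ok) (M (nat_lit 459) (B (L (nat_lit 491) ln12_11_5 ln12_11_5_ok) (L (nat_lit 458) ln10_14_2 ln10_14_2_ok))))) (M (nat_lit 332) (B (M (nat_lit 331) (B (L (nat_lit 299) ln12_13_7 ln12_13_7_ok) (L (nat_lit 363) ln12_14_7 ln12_14_7_ok))) (M (nat_lit 333) (B (L (nat_lit 301) ln12_13_6 ln12_13_6_ok) (L (nat_lit 365) ln12_14_6 ln12_14_6_ok)))))))) (M (nat_lit 364) (B (M (nat_lit 461) (B (L (nat_lit 332) ln12_10_4 ln12_10_4_ok) (M (nat_lit 459) (B (L (nat_lit 491) ln12_11_5 ln12_11_5_ok) (L (nat_lit 458) ln10_14_2 ln10_14_2_ok))))) (B (M (nat_lit 492) (B (M (nat_lit 363) (B (L (nat_lit 331) ln12_14_7 ln12_14_7_ok) (L (nat_lit 395) ln12_15_7 ln12_15_7_ok))) (M (nat_lit 491) (B (L (nat_lit 459) ln12_11_5 ln12_11_5_ok) (L (nat_lit 523) ln12_12_5 ln12_12_5_ok))))) (M (nat_lit 333) (B (L (nat_lit 365) ln12_14_6 ln12_14_6_ok) (M (nat_lit 332) (B (L (nat_lit 301) ln12_13_6 ln12_13_6_ok) (L (nat_lit 461) ln12_10_4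 ln12_10_4_ok))))))))))))))))))) (nat_lit 4852171964711426004262224822250396481013764881907679006548339266075587288659844840319955210682244261670434619182456250700704776192) (nat_lit 589681629070580170816153362694123903254980194799795301317540723296619019116869323368857134370388292496823968232431011821337460418276137551498599047547282577257232596992) (nat_lit 589681629070580170816153362694123903254980194799795301317540723296619019116869323368857134370388292496823968232431011821337460418276137551498599047547282577257232596992) (by decide +kernel)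
theorem c32_s1810 : Sem (nat_lit 4852171964711426004262224822250396481013764881907679006548339266075587288659844840319955210682244261670434619182456250700704776192) (nat_lit 2358726516282320683264613450249543352549202659430264549784361429003449442366103850160387600625788732886748074741140023739448245801417247576597523088604451313606908182528) (nat_lit 2358726516282320683264613450249543352549202659430264549784361429003449442366103850160387600625788732886748074741140023739448245801417247576597523088604451313606908182528) :=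
  sem_of_chk (M (nat_lit 398) (B (M (nat_lit 399) (B (L (nat_lit 427) ln11_13_2 ln11_13_2_ok) (M (nat_lit 400) (B (L (nat_lit 397) ln16_12_1 ln16_12_1_ok) (L (nat_lit 401) ln17_12_1 ln17_12_1_ok))))) (B (M (nat_lit 462) (B (M (nat_lit 427) (B (L (nat_lit 399) ln11_13_2 ln11_13_2_ok) (L (nat_lit 463) ln11_13_0 ln11_13_0_ok))) (B (M (nat_lit 461) (B (M (nat_lit 366) (B (L (nat_lit 334) ln14_10_5 ln14_10_5_ok) (L (nat_lit 493) ln14_11_5 ln14_11_5_ok))) (M (nat_lit 463) (B (L (nat_lit 427) ln11_13_0 ln11_13_0_ok) (L (nat_lit 464) ln16_14_3 ln16_14_3_ok))))) (B (M (nat_lit 366) (B (M (nat_lit 461) (B (L (nat_lit 334) ln14_10_5 ln14_10_5_ok) (L (nat_lit 493) ln14_11_5 ln14_11_5_ok))) (B (M (nat_lit 461) (B (L (nat_lit 493) ln14_11_5 ln14_11_5_ok) (M (nat_lit 463) (B (L (nat_lit 495) ln14_11_4 ln14_11_4_ok) (L (nat_lit 464) ln16_14_3 ln16_14_3_ok))))) (M (nat_lit 334) (B (M (nat_lit 333) (B (L (nat_lit 301) ln14_13_7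 ln14_13_7_ok) (L (nat_lit 365) ln14_14_7 ln14_14_7_ok))) (M (nat_lit 335) (B (L (nat_lit 303) ln14_13_6 ln14_13_6_ok) (L (nat_lit 367) ln14_14_6 ln14_14_6_ok)))))))) (M (nat_lit 399) (B (L (nat_lit 427) ln11_13_2 ln11_13_2_ok) (M (nat_lit 367) (B (L (nat_lit 494) ln14_15_6 ln14_15_6_ok) (M (nat_lit 335) (B (L (nat_lit 303) ln15_9_5 ln15_9_5_ok) (L (nat_lit 366) ln14_14_6 ln14_14_6_ok))))))))))) (B (M (nat_lit 462) (B (M (nat_lit 463) (B (L (nat_lit 427) ln11_13_0 ln11_13_0_ok) (M (nat_lit 464) (B (L (nat_lit 461) ln16_14_3 ln16_14_3_ok) (L (nat_lit 465) ln17_14_3 ln17_14_3_ok))))) (B (M (nat_lit 366) (B (M (nat_lit 461) (B (L (nat_lit 334) ln14_10_5 ln14_10_5_ok) (L (nat_lit 493) ln14_11_5 ln14_11_5_ok))) (M (nat_lit 494) (B (M (nat_lit 365) (B (L (nat_lit 333) ln14_14_7 ln14_14_7_ok) (L (nat_lit 397) ln14_15_7 ln14_15_7_ok))) (M (nat_lit 495) (B (L (nat_lit 463) ln14_11_4 ln14_11_4_ok) (L (nat_lit 527)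 ln14_12_4 ln14_12_4_ok))))))) (B (M (nat_lit 463) (B (L (nat_lit 427) ln11_13_0 ln11_13_0_ok) (M (nat_lit 495) (B (L (nat_lit 366) ln14_11_4 ln14_11_4_ok) (M (nat_lit 527) (B (L (nat_lit 494) ln14_12_4 ln14_12_4_ok) (L (nat_lit 559) ln15_17_7 ln15_17_7_ok))))))) (M (nat_lit 366) (B (M (nat_lit 461) (B (L (nat_lit 334) ln14_10_5 ln14_10_5_ok) (L (nat_lit 493) ln14_11_5 ln14_11_5_ok))) (B (M (nat_lit 494) (B (M (nat_lit 365) (B (L (nat_lit 333) ln14_14_7 ln14_14_7_ok) (L (nat_lit 397) ln14_15_7 ln14_15_7_ok))) (M (nat_lit 493) (B (L (nat_lit 461) ln14_11_5 ln14_11_5_ok) (L (nat_lit 525) ln14_12_5 ln14_12_5_ok))))) (M (nat_lit 334) (B (M (nat_lit 333) (B (L (nat_lit 301) ln14_13_7 ln14_13_7_ok) (L (nat_lit 365) ln14_14_7 ln14_14_7_ok))) (M (nat_lit 335) (B (L (nat_lit 303) ln14_13_6 ln14_13_6_ok) (L (nat_lit 367) ln14_14_6 ln14_14_6_ok)))))))))))) c32_n773)))) (nat_lit 4852171964711426004262224822250396481013764881907679006548339266075587288659844840319955210682244261670434619182456250700704776192)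 (nat_lit 2358726516282320683264613450249543352549202659430264549784361429003449442366103850160387600625788732886748074741140023739448245801417247576597523088604451313606908182528) (nat_lit 2358726516282320683264613450249543352549202659430264549784361429003449442366103850160387600625788732886748074741140023739448245801417247576597523088604451313606908182528) (by decide +kernel)
noncomputable def c32_n1813 : Cert := (M (nat_lit 430) (B (M (nat_lit 431) (B (M (nat_lit 432) (B (M (nat_lit 396) (B (L (nat_lit 395) ln15_13_3 ln15_13_3_ok) (L (nat_lit 397) ln16_13_3 ln16_13_3_ok))) (M (nat_lit 460) (B (L (nat_lit 459) ln15_13_1 ln15_13_1_ok) (L (nat_lit 461) ln16_13_1 ln16_13_1_ok))))) (B (M (nat_lit 460) (B (L (nat_lit 459) ln15_13_1 ln15_13_1_ok) (M (nat_lit 432) (B (L (nat_lit 461) ln16_13_1 ln16_13_1_ok) (M (nat_lit 400) (B (L (nat_lit 399) ln12_13_2 ln12_13_2_ok) (L (nat_lit 401) ln13_13_2 ln13_13_2_ok)))))))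 (M (nat_lit 427) (B (M (nat_lit 395) (B (L (nat_lit 394) ln14_13_3 ln14_13_3_ok) (L (nat_lit 396) ln15_13_3 ln15_13_3_ok))) (M (nat_lit 463) (B (L (nat_lit 462) ln11_13_0 ln11_13_0_ok) (L (nat_lit 464) ln12_13_0 ln12_13_0_ok)))))))) (B (M (nat_lit 431) (B (M (nat_lit 432) (B (M (nat_lit 396) (B (L (nat_lit 395) ln15_13_3 ln15_13_3_ok) (L (nat_lit 397) ln16_13_3 ln16_13_3_ok))) (M (nat_lit 464) (B (L (nat_lit 463) ln12_13_0 ln12_13_0_ok) (L (nat_lit 465) ln13_13_0 ln13_13_0_ok))))) (M (nat_lit 427) (B (M (nat_lit 399) (B (L (nat_lit 398) ln11_13_2 ln11_13_2_ok) (L (nat_lit 400) ln12_13_2 ln12_13_2_ok))) (M (nat_lit 459) (B (L (nat_lit 458) ln14_13_1 ln14_13_1_ok) (L (nat_lit 460) ln15_13_1 ln15_13_1_ok))))))) (B (M (nat_lit 431) (B (M (nat_lit 427) (B (M (nat_lit 459) (B (L (nat_lit 458) ln14_13_1 ln14_13_1_ok) (L (nat_lit 460) ln15_13_1 ln15_13_1_ok))) (M (nat_lit 463) (B (L (nat_lit 462) ln11_13_0 ln11_13_0_ok)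 (L (nat_lit 464) ln12_13_0 ln12_13_0_ok))))) (B (M (nat_lit 432) (B (M (nat_lit 400) (B (L (nat_lit 399) ln12_13_2 ln12_13_2_ok) (L (nat_lit 401) ln13_13_2 ln13_13_2_ok))) (M (nat_lit 464) (B (L (nat_lit 463) ln12_13_0 ln12_13_0_ok) (L (nat_lit 465) ln13_13_0 ln13_13_0_ok))))) (M (nat_lit 427) (B (M (nat_lit 399) (B (L (nat_lit 398) ln11_13_2 ln11_13_2_ok) (L (nat_lit 400) ln12_13_2 ln12_13_2_ok))) (M (nat_lit 459) (B (L (nat_lit 458) ln14_13_1 ln14_13_1_ok) (L (nat_lit 460) ln15_13_1 ln15_13_1_ok)))))))) (B (M (nat_lit 431) (B (M (nat_lit 427) (B (M (nat_lit 395) (B (L (nat_lit 394) ln14_13_3 ln14_13_3_ok) (L (nat_lit 396) ln15_13_3 ln15_13_3_ok))) (M (nat_lit 459) (B (L (nat_lit 458) ln14_13_1 ln14_13_1_ok) (L (nat_lit 460) ln15_13_1 ln15_13_1_ok))))) (B (M (nat_lit 427) (B (M (nat_lit 459) (B (L (nat_lit 458) ln14_13_1 ln14_13_1_ok) (L (nat_lit 460) ln15_13_1 ln15_13_1_ok))) (M (nat_lit 463) (B (L (nat_lit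 462) ln11_13_0 ln11_13_0_ok) (L (nat_lit 464) ln12_13_0 ln12_13_0_ok))))) (M (nat_lit 432) (B (M (nat_lit 396) (B (L (nat_lit 395) ln15_13_3 ln15_13_3_ok) (L (nat_lit 397) ln16_13_3 ln16_13_3_ok))) (M (nat_lit 464) (B (L (nat_lit 463) ln12_13_0 ln12_13_0_ok) (L (nat_lit 465) ln13_13_0 ln13_13_0_ok)))))))) (B (K (nat_lit 4852171964711426004262224822250396481013764881907679006548339266075587288659844840319955210682244261670434619182456250700704776192) (nat_lit 589681629070580170816153362694123903254980194799795301317540723296619019116869323368857134370388292496823968232431011821337460418276137551498599047547282577257232596992) (nat_lit 589681629070580170816153362694123903254980194799795301317540723296619019116869323368857134370388292496823968232431011821337460418276137551498599047547282577257232596992) c32_s1781) (B (K (nat_lit 4852171964711426004262224822250396481013764881907679006548339266075587288659844840319955210682244261670434619182456250700704776192)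 (nat_lit 2358726516282320683264613450249543352549202659430264549784361429003449442366103850160387600625788732886748074741140023739448245801417247576597523088604451313606908182528) (nat_lit 2358726516282320683264613450249543352549202659430264549784361429003449442366103850160387600625788732886748074741140023739448245801417247576597523088604451313606908182528) c32_s1810) (M (nat_lit 431) (B (M (nat_lit 427) (B (M (nat_lit 399) (B (L (nat_lit 398) ln11_13_2 ln11_13_2_ok) (L (nat_lit 400) ln12_13_2 ln12_13_2_ok))) (M (nat_lit 459) (B (L (nat_lit 458) ln14_13_1 ln14_13_1_ok) (L (nat_lit 460) ln15_13_1 ln15_13_1_ok))))) (B (M (nat_lit 427) (B (M (nat_lit 395) (B (L (nat_lit 394) ln14_13_3 ln14_13_3_ok) (L (nat_lit 396) ln15_13_3 ln15_13_3_ok))) (M (nat_lit 459) (B (L (nat_lit 458) ln14_13_1 ln14_13_1_ok) (L (nat_lit 460) ln15_13_1 ln15_13_1_ok))))) (B (M (nat_lit 432) (B (M (nat_lit 396) (B (L (nat_lit 395) ln15_13_3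 ln15_13_3_ok) (L (nat_lit 397) ln16_13_3 ln16_13_3_ok))) (M (nat_lit 460) (B (L (nat_lit 459) ln15_13_1 ln15_13_1_ok) (L (nat_lit 461) ln16_13_1 ln16_13_1_ok))))) (M (nat_lit 427) (B (M (nat_lit 395) (B (L (nat_lit 394) ln14_13_3 ln14_13_3_ok) (L (nat_lit 396) ln15_13_3 ln15_13_3_ok))) (M (nat_lit 399) (B (L (nat_lit 398) ln11_13_2 ln11_13_2_ok) (L (nat_lit 400) ln12_13_2 ln12_13_2_ok))))))))))))))))
noncomputable def c32_n1973 : Cert := (M (nat_lit 461) (B (M (nat_lit 493) (B (L (nat_lit 525) ln13_16_7 ln13_16_7_ok) (M (nat_lit 364) (B (L (nat_lit 332) ln12_10_4 ln12_10_4_ok) (L (nat_lit 397) ln13_15_7 ln13_15_7_ok))))) (B (M (nat_lit 493) (B (L (nat_lit 525) ln13_16_7 ln13_16_7_ok) (M (nat_lit 364) (B (L (nat_lit 397) ln13_15_7 ln13_15_7_ok) (L (nat_lit 460) ln12_11_4 ln12_11_4_ok))))) (B (M (nat_lit 493) (B (L (nat_lit 525) ln13_16_7 ln13_16_7_ok) (M (nat_lit 397) (B (M (nat_lit 492) (B (L (nat_lit 524)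 ln13_12_5 ln13_12_5_ok) (M (nat_lit 365) (B (L (nat_lit 460) ln12_15_6 ln12_15_6_ok) (M (nat_lit 366) (B (L (nat_lit 334) ln13_14_6 ln13_14_6_ok) (L (nat_lit 398) ln13_15_6 ln13_15_6_ok))))))) (B (M (nat_lit 430) (B (M (nat_lit 431) (B (L (nat_lit 395) ln15_13_3 ln15_13_3_ok) (L (nat_lit 432) ln16_13_3 ln16_13_3_ok))) (M (nat_lit 365) (B (M (nat_lit 333) (B (L (nat_lit 460) ln13_10_5 ln13_10_5_ok) (L (nat_lit 462) ln13_10_4 ln13_10_4_ok))) (B (M (nat_lit 492) (B (L (nat_lit 460) ln12_15_6 ln12_15_6_ok) (L (nat_lit 524) ln13_12_5 ln13_12_5_ok))) (M (nat_lit 462) (B (L (nat_lit 333) ln13_10_4 ln13_10_4_ok) (L (nat_lit 494) ln13_11_4 ln13_11_4_ok)))))))) (B (M (nat_lit 395) (B (M (nat_lit 394) (B (L (nat_lit 393) ln9_12_0 ln9_12_0_ok) (L (nat_lit 430) ln10_12_0 ln10_12_0_ok))) (M (nat_lit 363) (B (M (nat_lit 398) (B (L (nat_lit 362) ln14_12_3 ln14_12_3_ok) (L (nat_lit 366) ln13_15_6 ln13_15_6_ok))) (M (nat_lit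 492) (B (L (nat_lit 460) ln12_15_7 ln12_15_7_ok) (L (nat_lit 524) ln13_12_5 ln13_12_5_ok))))))) (M (nat_lit 430) (B (M (nat_lit 431) (B (L (nat_lit 395) ln15_13_3 ln15_13_3_ok) (L (nat_lit 432) ln16_13_3 ln16_13_3_ok))) (M (nat_lit 365) (B (M (nat_lit 366) (B (L (nat_lit 334) ln13_14_6 ln13_14_6_ok) (L (nat_lit 398) ln13_15_6 ln13_15_6_ok))) (M (nat_lit 462) (B (L (nat_lit 333) ln13_10_4 ln13_10_4_ok) (L (nat_lit 494) ln13_11_4 ln13_11_4_ok))))))))))))) (B (M (nat_lit 364) (B (L (nat_lit 332) ln12_10_4 ln12_10_4_ok) (M (nat_lit 493) (B (L (nat_lit 460) ln12_11_4 ln12_11_4_ok) (L (nat_lit 525) ln13_16_7 ln13_16_7_ok))))) (M (nat_lit 460) (B (M (nat_lit 364) (B (L (nat_lit 332) ln12_10_4 ln12_10_4_ok) (M (nat_lit 459) (B (L (nat_lit 491) ln12_11_5 ln12_11_5_ok) (M (nat_lit 430) (B (L (nat_lit 431) ln15_13_1 ln15_13_1_ok) (L (nat_lit 458) ln10_14_2 ln10_14_2_ok))))))) (B (M (nat_lit 492) (B (M (nat_lit 397)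 (B (L (nat_lit 365) ln12_15_6 ln12_15_6_ok) (L (nat_lit 524) ln12_16_6 ln12_16_6_ok))) (B (M (nat_lit 524) (B (L (nat_lit 397) ln12_16_6 ln12_16_6_ok) (L (nat_lit 556) ln12_17_6 ln12_17_6_ok))) (B (M (nat_lit 524) (B (L (nat_lit 556) ln12_17_6 ln12_17_6_ok) (M (nat_lit 523) (B (L (nat_lit 491) ln12_12_5 ln12_12_5_ok) (L (nat_lit 555) ln12_13_5 ln12_13_5_ok))))) (M (nat_lit 364) (B (M (nat_lit 365) (B (L (nat_lit 333) ln12_14_6 ln12_14_6_ok) (L (nat_lit 397) ln12_15_6 ln12_15_6_ok))) (M (nat_lit 491) (B (L (nat_lit 459) ln12_11_5 ln12_11_5_ok) (L (nat_lit 523) ln12_12_5 ln12_12_5_ok))))))))) (B (M (nat_lit 397) (B (M (nat_lit 365) (B (L (nat_lit 333) ln13_10_5 ln13_10_5_ok) (L (nat_lit 492) ln12_15_6 ln12_15_6_ok))) (B (M (nat_lit 492) (B (L (nat_lit 365) ln12_15_6 ln12_15_6_ok) (L (nat_lit 524) ln12_16_6 ln12_16_6_ok))) (B (M (nat_lit 395) (B (M (nat_lit 492) (B (L (nat_lit 363) ln12_15_7 ln12_15_7_ok) (L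 (nat_lit 524) ln12_16_6 ln12_16_6_ok))) (M (nat_lit 430) (B (L (nat_lit 394) ln10_12_0 ln10_12_0_ok) (L (nat_lit 431) ln15_13_3 ln15_13_3_ok))))) (M (nat_lit 431) (B (M (nat_lit 430) (B (L (nat_lit 395) ln15_13_3 ln15_13_3_ok) (L (nat_lit 432) ln16_13_3 ln16_13_3_ok))) (B (M (nat_lit 430) (B (L (nat_lit 432) ln16_13_3 ln16_13_3_ok) (L (nat_lit 459) ln15_13_1 ln15_13_1_ok))) (B (M (nat_lit 462) (B (M (nat_lit 365) (B (L (nat_lit 333) ln13_10_5 ln13_10_5_ok) (L (nat_lit 494) ln13_11_4 ln13_11_4_ok))) (M (nat_lit 463) (B (L (nat_lit 464) ln16_14_3 ln16_14_3_ok) (L (nat_lit 432) ln12_14_2 ln12_14_2_ok))))) (M (nat_lit 430) (B (L (nat_lit 395) ln15_13_3 ln15_13_3_ok) (L (nat_lit 459) ln15_13_1 ln15_13_1_ok))))))))))) (M (nat_lit 492) (B (M (nat_lit 397) (B (L (nat_lit 365) ln12_15_6 ln12_15_6_ok) (L (nat_lit 524) ln12_16_6 ln12_16_6_ok))) (B (M (nat_lit 524) (B (L (nat_lit 397) ln12_16_6 ln12_16_6_ok) (L (nat_lit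 556) ln12_17_6 ln12_17_6_ok))) (B (M (nat_lit 524) (B (L (nat_lit 556) ln12_17_6 ln12_17_6_ok) (M (nat_lit 523) (B (L (nat_lit 491) ln12_12_5 ln12_12_5_ok) (L (nat_lit 555) ln12_13_5 ln12_13_5_ok))))) (M (nat_lit 365) (B (L (nat_lit 397) ln12_15_6 ln12_15_6_ok) (M (nat_lit 364) (B (L (nat_lit 332) ln12_10_4 ln12_10_4_ok) (L (nat_lit 333) ln12_14_6 ln12_14_6_ok))))))))))))))))))
theorem c32_s2057 : Sem (nat_lit 2079502270752001762064242424960807725827516048677469043429686155012882190638009693656033379242457518153052022685796627120027336704) (nat_lit 825554280841600030612066890062607081100453483252792933512396816909563251165683182876956127631100238499191427956247724052182192273000869143826636237156360000081097654272) (nat_lit 825554280841600030612066890062607081100453483252792933512396816909563251165683182876956127631100238499191427956247724052182192273000869143826636237156360000081097654272) :=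
  sem_of_chk (M (nat_lit 461) (B (M (nat_lit 493) (B (L (nat_lit 525) ln13_16_7 ln13_16_7_ok) (M (nat_lit 364) (B (L (nat_lit 397) ln13_15_7 ln13_15_7_ok) (L (nat_lit 460) ln12_11_4 ln12_11_4_ok))))) (B (M (nat_lit 493) (B (L (nat_lit 525) ln13_16_7 ln13_16_7_ok) (M (nat_lit 397) (B (M (nat_lit 492) (B (L (nat_lit 524) ln13_12_5 ln13_12_5_ok) (M (nat_lit 365) (B (L (nat_lit 460) ln12_15_6 ln12_15_6_ok) (M (nat_lit 366) (B (L (nat_lit 334) ln13_14_6 ln13_14_6_ok) (L (nat_lit 398) ln13_15_6 ln13_15_6_ok))))))) (B (M (nat_lit 430) (B (M (nat_lit 431) (B (L (nat_lit 395) ln15_13_3 ln15_13_3_ok) (L (nat_lit 432) ln16_13_3 ln16_13_3_ok))) (M (nat_lit 365) (B (M (nat_lit 333) (B (L (nat_lit 460) ln13_10_5 ln13_10_5_ok) (L (nat_lit 462) ln13_10_4 ln13_10_4_ok))) (B (M (nat_lit 492) (B (L (nat_lit 460) ln12_15_6 ln12_15_6_ok) (L (nat_lit 524) ln13_12_5 ln13_12_5_ok))) (M (nat_lit 462) (B (L (nat_lit 333) ln13_10_4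 ln13_10_4_ok) (L (nat_lit 494) ln13_11_4 ln13_11_4_ok)))))))) (B (M (nat_lit 395) (B (M (nat_lit 394) (B (L (nat_lit 393) ln9_12_0 ln9_12_0_ok) (L (nat_lit 430) ln10_12_0 ln10_12_0_ok))) (M (nat_lit 363) (B (M (nat_lit 398) (B (L (nat_lit 362) ln14_12_3 ln14_12_3_ok) (L (nat_lit 366) ln13_15_6 ln13_15_6_ok))) (M (nat_lit 492) (B (L (nat_lit 460) ln12_15_7 ln12_15_7_ok) (L (nat_lit 524) ln13_12_5 ln13_12_5_ok))))))) (M (nat_lit 430) (B (M (nat_lit 431) (B (L (nat_lit 395) ln15_13_3 ln15_13_3_ok) (L (nat_lit 432) ln16_13_3 ln16_13_3_ok))) (M (nat_lit 365) (B (M (nat_lit 366) (B (L (nat_lit 334) ln13_14_6 ln13_14_6_ok) (L (nat_lit 398) ln13_15_6 ln13_15_6_ok))) (M (nat_lit 462) (B (L (nat_lit 333) ln13_10_4 ln13_10_4_ok) (L (nat_lit 494) ln13_11_4 ln13_11_4_ok))))))))))))) (B (M (nat_lit 460) (B (M (nat_lit 493) (B (L (nat_lit 364) ln12_11_4 ln12_11_4_ok) (L (nat_lit 525) ln13_16_7 ln13_16_7_ok))) (B (M (nat_lit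 462) (B (M (nat_lit 463) (B (L (nat_lit 464) ln16_14_3 ln16_14_3_ok) (M (nat_lit 431) (B (L (nat_lit 432) ln12_14_2 ln12_14_2_ok) (M (nat_lit 430) (B (L (nat_lit 395) ln15_13_3 ln15_13_3_ok) (L (nat_lit 459) ln15_13_1 ln15_13_1_ok))))))) (B (M (nat_lit 525) (B (L (nat_lit 493) ln13_16_7 ln13_16_7_ok) (M (nat_lit 492) (B (M (nat_lit 524) (B (L (nat_lit 557) ln12_13_4 ln12_13_4_ok) (L (nat_lit 556) ln12_17_6 ln12_17_6_ok))) (M (nat_lit 463) (B (L (nat_lit 464) ln16_14_3 ln16_14_3_ok) (L (nat_lit 491) ln15_14_1 ln15_14_1_ok))))))) (M (nat_lit 459) (B (M (nat_lit 430) (B (L (nat_lit 431) ln15_13_1 ln15_13_1_ok) (L (nat_lit 458) ln10_14_2 ln10_14_2_ok))) (M (nat_lit 491) (B (L (nat_lit 490) ln14_14_1 ln14_14_1_ok) (M (nat_lit 523) (B (L (nat_lit 492) ln12_12_5 ln12_12_5_ok) (L (nat_lit 555) ln11_17_6 ln11_17_6_ok)))))))))) (M (nat_lit 459) (B (M (nat_lit 430) (B (L (nat_lit 431) ln15_13_1 ln15_13_1_ok) (L (nat_lit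 458) ln10_14_2 ln10_14_2_ok))) (M (nat_lit 491) (B (L (nat_lit 364) ln12_11_5 ln12_11_5_ok) (M (nat_lit 523) (B (L (nat_lit 492) ln12_12_5 ln12_12_5_ok) (L (nat_lit 555) ln11_17_6 ln11_17_6_ok)))))))))) (B (M (nat_lit 493) (B (L (nat_lit 525) ln13_16_7 ln13_16_7_ok) (M (nat_lit 397) (B (L (nat_lit 364) ln13_15_7 ln13_15_7_ok) (M (nat_lit 365) (B (M (nat_lit 366) (B (L (nat_lit 334) ln13_14_6 ln13_14_6_ok) (L (nat_lit 398) ln13_15_6 ln13_15_6_ok))) (M (nat_lit 494) (B (L (nat_lit 462) ln13_11_4 ln13_11_4_ok) (L (nat_lit 526) ln13_12_4 ln13_12_4_ok))))))))) (M (nat_lit 460) (B (M (nat_lit 459) (B (M (nat_lit 430) (B (L (nat_lit 431) ln15_13_1 ln15_13_1_ok) (L (nat_lit 458) ln10_14_2 ln10_14_2_ok))) (M (nat_lit 491) (B (L (nat_lit 364) ln12_11_5 ln12_11_5_ok) (M (nat_lit 523) (B (L (nat_lit 492) ln12_12_5 ln12_12_5_ok) (L (nat_lit 555) ln11_17_6 ln11_17_6_ok))))))) (B (M (nat_lit 397) (B (M (nat_lit 365) (B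 (L (nat_lit 333) ln13_10_5 ln13_10_5_ok) (L (nat_lit 492) ln12_15_6 ln12_15_6_ok))) (B (M (nat_lit 492) (B (L (nat_lit 365) ln12_15_6 ln12_15_6_ok) (L (nat_lit 524) ln12_16_6 ln12_16_6_ok))) (B (M (nat_lit 395) (B (M (nat_lit 492) (B (L (nat_lit 363) ln12_15_7 ln12_15_7_ok) (L (nat_lit 524) ln12_16_6 ln12_16_6_ok))) (M (nat_lit 430) (B (L (nat_lit 394) ln10_12_0 ln10_12_0_ok) (L (nat_lit 431) ln15_13_3 ln15_13_3_ok))))) (M (nat_lit 431) (B (M (nat_lit 430) (B (L (nat_lit 395) ln15_13_3 ln15_13_3_ok) (L (nat_lit 432) ln16_13_3 ln16_13_3_ok))) (B (M (nat_lit 430) (B (L (nat_lit 432) ln16_13_3 ln16_13_3_ok) (L (nat_lit 459) ln15_13_1 ln15_13_1_ok))) (B (M (nat_lit 462) (B (M (nat_lit 365) (B (L (nat_lit 333) ln13_10_5 ln13_10_5_ok) (L (nat_lit 494) ln13_11_4 ln13_11_4_ok))) (M (nat_lit 463) (B (L (nat_lit 464) ln16_14_3 ln16_14_3_ok) (L (nat_lit 432) ln12_14_2 ln12_14_2_ok))))) (M (nat_lit 430) (B (L (nat_lit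 395) ln15_13_3 ln15_13_3_ok) (L (nat_lit 459) ln15_13_1 ln15_13_1_ok))))))))))) (B (M (nat_lit 492) (B (M (nat_lit 397) (B (L (nat_lit 365) ln12_15_6 ln12_15_6_ok) (L (nat_lit 524) ln12_16_6 ln12_16_6_ok))) (B (M (nat_lit 524) (B (L (nat_lit 397) ln12_16_6 ln12_16_6_ok) (L (nat_lit 556) ln12_17_6 ln12_17_6_ok))) (B (M (nat_lit 524) (B (L (nat_lit 556) ln12_17_6 ln12_17_6_ok) (M (nat_lit 523) (B (L (nat_lit 491) ln12_12_5 ln12_12_5_ok) (L (nat_lit 555) ln12_13_5 ln12_13_5_ok))))) (M (nat_lit 364) (B (M (nat_lit 363) (B (L (nat_lit 331) ln12_14_7 ln12_14_7_ok) (L (nat_lit 395) ln12_15_7 ln12_15_7_ok))) (M (nat_lit 365) (B (L (nat_lit 333) ln12_14_6 ln12_14_6_ok) (L (nat_lit 397) ln12_15_6 ln12_15_6_ok))))))))) (M (nat_lit 365) (B (M (nat_lit 333) (B (L (nat_lit 364) ln12_14_6 ln12_14_6_ok) (L (nat_lit 397) ln13_10_5 ln13_10_5_ok))) (B (M (nat_lit 459) (B (M (nat_lit 430) (B (L (nat_lit 431) ln15_13_1 ln15_13_1_ok)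 (L (nat_lit 458) ln10_14_2 ln10_14_2_ok))) (M (nat_lit 462) (B (M (nat_lit 491) (B (L (nat_lit 364) ln12_11_5 ln12_11_5_ok) (L (nat_lit 490) ln14_14_1 ln14_14_1_ok))) (M (nat_lit 494) (B (L (nat_lit 397) ln13_11_4 ln13_11_4_ok) (L (nat_lit 495) ln11_14_0 ln11_14_0_ok))))))) (B (M (nat_lit 462) (B (M (nat_lit 397) (B (L (nat_lit 333) ln13_10_5 ln13_10_5_ok) (L (nat_lit 494) ln13_11_4 ln13_11_4_ok))) (M (nat_lit 431) (B (M (nat_lit 430) (B (L (nat_lit 395) ln15_13_3 ln15_13_3_ok) (L (nat_lit 459) ln15_13_1 ln15_13_1_ok))) (B (M (nat_lit 430) (B (L (nat_lit 459) ln15_13_1 ln15_13_1_ok) (L (nat_lit 432) ln16_13_1 ln16_13_1_ok))) (M (nat_lit 463) (B (L (nat_lit 464) ln16_14_3 ln16_14_3_ok) (L (nat_lit 432) ln12_14_2 ln12_14_2_ok)))))))) (M (nat_lit 459) (B (M (nat_lit 364) (B (L (nat_lit 333) ln12_14_6 ln12_14_6_ok) (L (nat_lit 491) ln12_11_5 ln12_11_5_ok))) (M (nat_lit 430) (B (L (nat_lit 431) ln15_13_1 ln15_13_1_ok)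 (L (nat_lit 458) ln10_14_2 ln10_14_2_ok)))))))))))))))))) (nat_lit 2079502270752001762064242424960807725827516048677469043429686155012882190638009693656033379242457518153052022685796627120027336704) (nat_lit 825554280841600030612066890062607081100453483252792933512396816909563251165683182876956127631100238499191427956247724052182192273000869143826636237156360000081097654272) (nat_lit 825554280841600030612066890062607081100453483252792933512396816909563251165683182876956127631100238499191427956247724052182192273000869143826636237156360000081097654272) (by decide +kernel)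
noncomputable def c32_n2145 : Cert := (M (nat_lit 492) (B (M (nat_lit 493) (B (L (nat_lit 525) ln13_16_7 ln13_16_7_ok) (M (nat_lit 397) (B (L (nat_lit 524) ln13_12_5 ln13_12_5_ok) (M (nat_lit 365) (B (L (nat_lit 460) ln12_15_6 ln12_15_6_ok) (M (nat_lit 366) (B (L (nat_lit 334) ln13_14_6 ln13_14_6_ok) (L (nat_lit 398) ln13_15_6 ln13_15_6_ok))))))))) (B (M (nat_lit 397) (B (M (nat_lit 460) (B (L (nat_lit 365) ln12_15_6 ln12_15_6_ok) (L (nat_lit 524) ln12_16_6 ln12_16_6_ok))) (B (M (nat_lit 524) (B (L (nat_lit 460) ln12_16_6 ln12_16_6_ok) (L (nat_lit 493) ln13_12_5 ln13_12_5_ok))) (B (M (nat_lit 493) (B (L (nat_lit 525) ln13_16_7 ln13_16_7_ok) (L (nat_lit 524) ln13_12_5 ln13_12_5_ok))) (M (nat_lit 494) (B (M (nat_lit 365) (B (L (nat_lit 460) ln12_15_6 ln12_15_6_ok) (L (nat_lit 462) ln13_11_4 ln13_11_4_ok))) (M (nat_lit 493) (B (L (nat_lit 525) ln13_16_7 ln13_16_7_ok) (L (nat_lit 526) ln13_12_4 ln13_12_4_ok)))))))))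 (B (M (nat_lit 493) (B (L (nat_lit 525) ln13_16_7 ln13_16_7_ok) (M (nat_lit 524) (B (L (nat_lit 397) ln13_12_5 ln13_12_5_ok) (M (nat_lit 460) (B (L (nat_lit 556) ln12_17_6 ln12_17_6_ok) (M (nat_lit 523) (B (L (nat_lit 491) ln12_12_5 ln12_12_5_ok) (L (nat_lit 555) ln12_13_5 ln12_13_5_ok))))))))) (B (M (nat_lit 460) (B (M (nat_lit 524) (B (L (nat_lit 556) ln12_17_6 ln12_17_6_ok) (M (nat_lit 523) (B (L (nat_lit 491) ln12_12_5 ln12_12_5_ok) (L (nat_lit 555) ln12_13_5 ln12_13_5_ok))))) (B (M (nat_lit 525) (B (L (nat_lit 493) ln13_16_7 ln13_16_7_ok) (M (nat_lit 524) (B (L (nat_lit 557) ln12_13_4 ln12_13_4_ok) (L (nat_lit 556) ln12_17_6 ln12_17_6_ok))))) (M (nat_lit 493) (B (L (nat_lit 525) ln13_16_7 ln13_16_7_ok) (M (nat_lit 491) (B (L (nat_lit 523) ln12_12_5 ln12_12_5_ok) (M (nat_lit 462) (B (L (nat_lit 463) ln15_14_1 ln15_14_1_ok) (L (nat_lit 490) ln10_15_2 ln10_15_2_ok)))))))))) (B (M (nat_lit 493) (B (L (nat_lit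 525) ln13_16_7 ln13_16_7_ok) (M (nat_lit 397) (B (L (nat_lit 524) ln13_12_5 ln13_12_5_ok) (M (nat_lit 365) (B (M (nat_lit 366) (B (L (nat_lit 334) ln13_14_6 ln13_14_6_ok) (L (nat_lit 398) ln13_15_6 ln13_15_6_ok))) (M (nat_lit 494) (B (L (nat_lit 462) ln13_11_4 ln13_11_4_ok) (L (nat_lit 526) ln13_12_4 ln13_12_4_ok))))))))) (B (M (nat_lit 460) (B (M (nat_lit 397) (B (L (nat_lit 365) ln12_15_6 ln12_15_6_ok) (L (nat_lit 524) ln12_16_6 ln12_16_6_ok))) (B (M (nat_lit 524) (B (L (nat_lit 397) ln12_16_6 ln12_16_6_ok) (L (nat_lit 556) ln12_17_6 ln12_17_6_ok))) (B (M (nat_lit 524) (B (L (nat_lit 556) ln12_17_6 ln12_17_6_ok) (M (nat_lit 523) (B (L (nat_lit 491) ln12_12_5 ln12_12_5_ok) (L (nat_lit 555) ln12_13_5 ln12_13_5_ok))))) (M (nat_lit 462) (B (M (nat_lit 463) (B (L (nat_lit 464) ln16_14_3 ln16_14_3_ok) (L (nat_lit 491) ln15_14_1 ln15_14_1_ok))) (B (M (nat_lit 459) (B (M (nat_lit 430) (B (L (nat_lit 431) ln15_13_1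 ln15_13_1_ok) (L (nat_lit 458) ln10_14_2 ln10_14_2_ok))) (M (nat_lit 491) (B (L (nat_lit 523) ln12_12_5 ln12_12_5_ok) (L (nat_lit 490) ln14_14_1 ln14_14_1_ok))))) (M (nat_lit 431) (B (M (nat_lit 430) (B (L (nat_lit 395) ln15_13_3 ln15_13_3_ok) (L (nat_lit 459) ln15_13_1 ln15_13_1_ok))) (B (M (nat_lit 430) (B (L (nat_lit 459) ln15_13_1 ln15_13_1_ok) (L (nat_lit 432) ln16_13_1 ln16_13_1_ok))) (M (nat_lit 463) (B (L (nat_lit 464) ln16_14_3 ln16_14_3_ok) (L (nat_lit 432) ln12_14_2 ln12_14_2_ok))))))))))))) (M (nat_lit 493) (B (L (nat_lit 525) ln13_16_7 ln13_16_7_ok) (M (nat_lit 460) (B (M (nat_lit 491) (B (L (nat_lit 523) ln12_12_5 ln12_12_5_ok) (M (nat_lit 462) (B (L (nat_lit 463) ln15_14_1 ln15_14_1_ok) (L (nat_lit 490) ln10_15_2 ln10_15_2_ok))))) (M (nat_lit 494) (B (M (nat_lit 397) (B (L (nat_lit 365) ln12_15_6 ln12_15_6_ok) (L (nat_lit 526) ln13_12_4 ln13_12_4_ok))) (M (nat_lit 459) (B (L (nat_lit 458)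 ln10_14_0 ln10_14_0_ok) (L (nat_lit 495) ln15_15_3 ln15_15_3_ok))))))))))))))))
theorem c32_s2190 : Sem (nat_lit 2079502270752001762064242424960807725827516048677469043429686155012882190638009693656033379242457518153052022685796627120027336704) (nat_lit 825554280841600030612066890062607081100453483252732412030850972478504279062804254542838798111706530625253265877992101556755637590413181435535967370597910821405649272832) (nat_lit 825554280841600030612066890062607081100453483252732412030850972478504279062804254542838798111706530625253265877992101556755637590413181435535967370597910821405649272832) :=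
  sem_of_chk (M (nat_lit 461) (B (M (nat_lit 493) (B (L (nat_lit 525) ln13_16_7 ln13_16_7_ok) (M (nat_lit 364) (B (L (nat_lit 332) ln12_10_4 ln12_10_4_ok) (L (nat_lit 397) ln13_15_7 ln13_15_7_ok))))) (B (M (nat_lit 493) (B (L (nat_lit 525) ln13_16_7 ln13_16_7_ok) (M (nat_lit 364) (B (L (nat_lit 397) ln13_15_7 ln13_15_7_ok) (L (nat_lit 460) ln12_11_4 ln12_11_4_ok))))) (B c32_n2145 (B (M (nat_lit 364) (B (L (nat_lit 332) ln12_10_4 ln12_10_4_ok) (M (nat_lit 493) (B (L (nat_lit 460) ln12_11_4 ln12_11_4_ok) (L (nat_lit 525) ln13_16_7 ln13_16_7_ok))))) (M (nat_lit 460) (B (M (nat_lit 364) (B (L (nat_lit 332) ln12_10_4 ln12_10_4_ok) (M (nat_lit 459) (B (L (nat_lit 491) ln12_11_5 ln12_11_5_ok) (M (nat_lit 430) (B (L (nat_lit 431) ln15_13_1 ln15_13_1_ok) (L (nat_lit 458) ln10_14_2 ln10_14_2_ok))))))) (B (M (nat_lit 459) (B (M (nat_lit 430) (B (L (nat_lit 431) ln15_13_1 ln15_13_1_ok) (L (nat_lit 458) ln10_14_2 ln10_14_2_ok)))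 (M (nat_lit 491) (B (L (nat_lit 364) ln12_11_5 ln12_11_5_ok) (M (nat_lit 523) (B (L (nat_lit 492) ln12_12_5 ln12_12_5_ok) (L (nat_lit 555) ln11_17_6 ln11_17_6_ok))))))) (B (M (nat_lit 462) (B (M (nat_lit 463) (B (L (nat_lit 464) ln16_14_3 ln16_14_3_ok) (M (nat_lit 431) (B (L (nat_lit 432) ln12_14_2 ln12_14_2_ok) (M (nat_lit 430) (B (L (nat_lit 395) ln15_13_3 ln15_13_3_ok) (L (nat_lit 459) ln15_13_1 ln15_13_1_ok))))))) (B (M (nat_lit 492) (B (M (nat_lit 397) (B (L (nat_lit 365) ln12_15_6 ln12_15_6_ok) (L (nat_lit 524) ln12_16_6 ln12_16_6_ok))) (M (nat_lit 463) (B (L (nat_lit 464) ln16_14_3 ln16_14_3_ok) (L (nat_lit 491) ln15_14_1 ln15_14_1_ok))))) (M (nat_lit 430) (B (M (nat_lit 431) (B (L (nat_lit 395) ln15_13_3 ln15_13_3_ok) (L (nat_lit 459) ln15_13_1 ln15_13_1_ok))) (B (M (nat_lit 431) (B (L (nat_lit 459) ln15_13_1 ln15_13_1_ok) (L (nat_lit 432) ln16_13_1 ln16_13_1_ok))) (B (M (nat_lit 494) (B (M (nat_lit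 397) (B (L (nat_lit 365) ln13_11_4 ln13_11_4_ok) (L (nat_lit 526) ln14_16_7 ln14_16_7_ok))) (M (nat_lit 459) (B (L (nat_lit 458) ln10_14_2 ln10_14_2_ok) (L (nat_lit 495) ln11_14_0 ln11_14_0_ok))))) (M (nat_lit 431) (B (L (nat_lit 395) ln15_13_3 ln15_13_3_ok) (L (nat_lit 432) ln16_13_1 ln16_13_1_ok)))))))))) (B (M (nat_lit 364) (B (L (nat_lit 332) ln12_10_4 ln12_10_4_ok) (M (nat_lit 492) (B (M (nat_lit 365) (B (L (nat_lit 333) ln12_14_6 ln12_14_6_ok) (L (nat_lit 397) ln12_15_6 ln12_15_6_ok))) (M (nat_lit 491) (B (L (nat_lit 459) ln12_11_5 ln12_11_5_ok) (L (nat_lit 523) ln12_12_5 ln12_12_5_ok))))))) (B (M (nat_lit 492) (B (M (nat_lit 397) (B (L (nat_lit 365) ln12_15_6 ln12_15_6_ok) (L (nat_lit 524) ln12_16_6 ln12_16_6_ok))) (B (M (nat_lit 524) (B (L (nat_lit 397) ln12_16_6 ln12_16_6_ok) (L (nat_lit 556) ln12_17_6 ln12_17_6_ok))) (B (M (nat_lit 524) (B (L (nat_lit 556) ln12_17_6 ln12_17_6_ok) (M (nat_lit 523)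 (B (L (nat_lit 491) ln12_12_5 ln12_12_5_ok) (L (nat_lit 555) ln12_13_5 ln12_13_5_ok))))) (M (nat_lit 365) (B (L (nat_lit 397) ln12_15_6 ln12_15_6_ok) (M (nat_lit 364) (B (L (nat_lit 332) ln12_10_4 ln12_10_4_ok) (L (nat_lit 333) ln12_14_6 ln12_14_6_ok))))))))) (M (nat_lit 364) (B (L (nat_lit 332) ln12_10_4 ln12_10_4_ok) (M (nat_lit 462) (B (M (nat_lit 365) (B (L (nat_lit 333) ln12_14_6 ln12_14_6_ok) (M (nat_lit 397) (B (L (nat_lit 492) ln12_15_6 ln12_15_6_ok) (L (nat_lit 494) ln13_11_4 ln13_11_4_ok))))) (M (nat_lit 431) (B (M (nat_lit 430) (B (L (nat_lit 395) ln15_13_3 ln15_13_3_ok) (L (nat_lit 459) ln15_13_1 ln15_13_1_ok))) (B (M (nat_lit 430) (B (L (nat_lit 459) ln15_13_1 ln15_13_1_ok) (L (nat_lit 432) ln16_13_1 ln16_13_1_ok))) (M (nat_lit 463) (B (L (nat_lit 464) ln16_14_3 ln16_14_3_ok) (L (nat_lit 432) ln12_14_2 ln12_14_2_ok))))))))))))))))))))) (nat_lit 2079502270752001762064242424960807725827516048677469043429686155012882190638009693656033379242457518153052022685796627120027336704)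 (nat_lit 825554280841600030612066890062607081100453483252732412030850972478504279062804254542838798111706530625253265877992101556755637590413181435535967370597910821405649272832) (nat_lit 825554280841600030612066890062607081100453483252732412030850972478504279062804254542838798111706530625253265877992101556755637590413181435535967370597910821405649272832) (by decide +kernel)
noncomputable def c32_n2574 : Cert := (M (nat_lit 462) (B (M (nat_lit 365) (B (L (nat_lit 333) ln13_10_4 ln13_10_4_ok) (M (nat_lit 494) (B (L (nat_lit 398) ln14_15_7 ln14_15_7_ok) (L (nat_lit 526) ln14_16_7 ln14_16_7_ok))))) (B (M (nat_lit 494) (B (L (nat_lit 526) ln14_16_7 ln14_16_7_ok) (M (nat_lit 365) (B (L (nat_lit 398) ln14_15_7 ln14_15_7_ok) (L (nat_lit 461) ln13_11_4 ln13_11_4_ok))))) (B (M (nat_lit 398) (B (M (nat_lit 399) (B (L (nat_lit 400) ln16_12_1 ln16_12_1_ok) (M (nat_lit 367) (B (L (nat_lit 368) ln12_12_2 ln12_12_2_ok)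 (L (nat_lit 494) ln14_15_6 ln14_15_6_ok))))) (B (M (nat_lit 493) (B (M (nat_lit 461) (B (L (nat_lit 366) ln13_15_6 ln13_15_6_ok) (L (nat_lit 525) ln13_16_7 ln13_16_7_ok))) (B (M (nat_lit 525) (B (L (nat_lit 461) ln13_16_7 ln13_16_7_ok) (L (nat_lit 494) ln14_12_5 ln14_12_5_ok))) (B (M (nat_lit 494) (B (L (nat_lit 526) ln14_16_7 ln14_16_7_ok) (L (nat_lit 525) ln14_12_5 ln14_12_5_ok))) (M (nat_lit 495) (B (M (nat_lit 366) (B (L (nat_lit 461) ln13_15_6 ln13_15_6_ok) (L (nat_lit 463) ln14_11_4 ln14_11_4_ok))) (M (nat_lit 494) (B (L (nat_lit 526) ln14_16_7 ln14_16_7_ok) (L (nat_lit 527) ln14_12_4 ln14_12_4_ok))))))))) (M (nat_lit 399) (B (L (nat_lit 400) ln16_12_1 ln16_12_1_ok) (M (nat_lit 367) (B (L (nat_lit 368) ln12_12_2 ln12_12_2_ok) (M (nat_lit 335) (B (L (nat_lit 303) ln15_9_5 ln15_9_5_ok) (L (nat_lit 366) ln14_14_6 ln14_14_6_ok)))))))))) (B (M (nat_lit 365) (B (L (nat_lit 333) ln13_10_4 ln13_10_4_ok) (M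 (nat_lit 494) (B (L (nat_lit 461) ln13_11_4 ln13_11_4_ok) (L (nat_lit 526) ln14_16_7 ln14_16_7_ok))))) (M (nat_lit 366) (B (M (nat_lit 365) (B (L (nat_lit 333) ln13_10_4 ln13_10_4_ok) (M (nat_lit 461) (B (L (nat_lit 334) ln13_14_6 ln13_14_6_ok) (M (nat_lit 493) (B (L (nat_lit 398) ln13_15_6 ln13_15_6_ok) (L (nat_lit 525) ln13_16_7 ln13_16_7_ok))))))) (B (M (nat_lit 461) (B (M (nat_lit 334) (B (L (nat_lit 365) ln13_14_6 ln13_14_6_ok) (L (nat_lit 398) ln14_10_5 ln14_10_5_ok))) (B (M (nat_lit 493) (B (L (nat_lit 398) ln13_15_6 ln13_15_6_ok) (L (nat_lit 525) ln13_16_7 ln13_16_7_ok))) (M (nat_lit 492) (B (M (nat_lit 365) (B (L (nat_lit 334) ln13_14_6 ln13_14_6_ok) (L (nat_lit 460) ln12_15_6 ln12_15_6_ok))) (B (M (nat_lit 460) (B (L (nat_lit 365) ln12_15_6 ln12_15_6_ok) (L (nat_lit 524) ln12_16_6 ln12_16_6_ok))) (B (M (nat_lit 524) (B (L (nat_lit 460) ln12_16_6 ln12_16_6_ok) (L (nat_lit 493) ln13_12_5 ln13_12_5_ok)))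 (M (nat_lit 493) (B (L (nat_lit 525) ln13_16_7 ln13_16_7_ok) (L (nat_lit 524) ln13_12_5 ln13_12_5_ok)))))))))) (B (M (nat_lit 398) (B (M (nat_lit 365) (B (L (nat_lit 333) ln14_14_7 ln14_14_7_ok) (M (nat_lit 367) (B (L (nat_lit 335) ln14_14_6 ln14_14_6_ok) (L (nat_lit 368) ln16_11_1 ln16_11_1_ok))))) (M (nat_lit 461) (B (L (nat_lit 493) ln13_15_6 ln13_15_6_ok) (M (nat_lit 463) (B (L (nat_lit 495) ln14_11_4 ln14_11_4_ok) (L (nat_lit 464) ln16_14_3 ln16_14_3_ok))))))) (B (M (nat_lit 398) (B (M (nat_lit 461) (B (L (nat_lit 334) ln14_10_5 ln14_10_5_ok) (L (nat_lit 493) ln13_15_6 ln13_15_6_ok))) (M (nat_lit 399) (B (L (nat_lit 400) ln16_12_1 ln16_12_1_ok) (M (nat_lit 367) (B (L (nat_lit 335) ln14_14_6 ln14_14_6_ok) (L (nat_lit 368) ln12_12_2 ln12_12_2_ok))))))) (B (M (nat_lit 492) (B (M (nat_lit 365) (B (L (nat_lit 333) ln13_10_4 ln13_10_4_ok) (L (nat_lit 460) ln12_15_6 ln12_15_6_ok))) (B (M (nat_lit 460) (B (L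 (nat_lit 365) ln12_15_6 ln12_15_6_ok) (L (nat_lit 524) ln12_16_6 ln12_16_6_ok))) (B (M (nat_lit 493) (B (M (nat_lit 460) (B (L (nat_lit 525) ln12_12_4 ln12_12_4_ok) (L (nat_lit 524) ln12_16_6 ln12_16_6_ok))) (B (M (nat_lit 461) (B (L (nat_lit 525) ln13_16_7 ln13_16_7_ok) (L (nat_lit 524) ln13_12_5 ln13_12_5_ok))) (B (M (nat_lit 525) (B (L (nat_lit 461) ln13_16_7 ln13_16_7_ok) (L (nat_lit 460) ln12_12_4 ln12_12_4_ok))) (M (nat_lit 524) (B (L (nat_lit 460) ln12_16_6 ln12_16_6_ok) (L (nat_lit 461) ln13_12_5 ln13_12_5_ok))))))) (M (nat_lit 461) (B (M (nat_lit 365) (B (L (nat_lit 333) ln13_10_4 ln13_10_4_ok) (L (nat_lit 334) ln13_14_6 ln13_14_6_ok))) (M (nat_lit 493) (B (L (nat_lit 525) ln13_16_7 ln13_16_7_ok) (L (nat_lit 524) ln13_12_5 ln13_12_5_ok))))))))) (M (nat_lit 398) (B (M (nat_lit 399) (B (L (nat_lit 400) ln16_12_1 ln16_12_1_ok) (M (nat_lit 367) (B (L (nat_lit 335) ln14_14_6 ln14_14_6_ok) (L (nat_lit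 368) ln12_12_2 ln12_12_2_ok))))) (M (nat_lit 333) (B (L (nat_lit 365) ln14_14_7 ln14_14_7_ok) (M (nat_lit 334) (B (L (nat_lit 301) ln14_13_7 ln14_13_7_ok) (L (nat_lit 302) ln14_9_5 ln14_9_5_ok))))))))))))))))))
theorem c32_s2575 : Sem (nat_lit 2079502271074782996825105998667797622327892532968682267533339094116714610205590646408138528571163187313069251615284523616620773376) (nat_lit 823775719407473396823022298168777591180424970136160705813869035997435959182460683213587530960438712577644731022426019422319416860419889815805272067692967231488) (nat_lit 823775719407473396823022298168777591180424970136160705813869035997435959182460683213587530960438712577644731022426019422319416860419889815805272067692967231488) :=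
  sem_of_chk (M (nat_lit 430) (B (M (nat_lit 431) (B (L (nat_lit 432) ln16_13_3 ln16_13_3_ok) (M (nat_lit 460) (B (L (nat_lit 459) ln15_13_1 ln15_13_1_ok) (M (nat_lit 492) (B (L (nat_lit 365) ln12_15_6 ln12_15_6_ok) (L (nat_lit 524) ln12_16_6 ln12_16_6_ok))))))) (B (M (nat_lit 431) (B (L (nat_lit 432) ln16_13_3 ln16_13_3_ok) (M (nat_lit 398) (B (M (nat_lit 399) (B (L (nat_lit 400) ln16_12_1 ln16_12_1_ok) (M (nat_lit 463) (B (L (nat_lit 464) ln12_13_0 ln12_13_0_ok) (M (nat_lit 366) (B (L (nat_lit 334) ln14_10_4 ln14_10_4_ok) (L (nat_lit 495) ln15_15_7 ln15_15_7_ok))))))) (B (M (nat_lit 399) (B (L (nat_lit 400) ln16_12_1 ln16_12_1_ok) (M (nat_lit 463) (B (L (nat_lit 464) ln12_13_0 ln12_13_0_ok) (M (nat_lit 495) (B (L (nat_lit 366) ln15_15_7 ln15_15_7_ok) (L (nat_lit 527) ln15_16_7 ln15_16_7_ok))))))) (B (M (nat_lit 399) (B (L (nat_lit 400) ln16_12_1 ln16_12_1_ok) (M (nat_lit 367) (B (L (nat_lit 368) ln12_12_2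 ln12_12_2_ok) (M (nat_lit 335) (B (L (nat_lit 303) ln15_9_5 ln15_9_5_ok) (L (nat_lit 462) ln15_10_5 ln15_10_5_ok))))))) (M (nat_lit 463) (B (L (nat_lit 464) ln12_13_0 ln12_13_0_ok) (M (nat_lit 366) (B (L (nat_lit 334) ln14_10_4 ln14_10_4_ok) (M (nat_lit 495) (B (L (nat_lit 462) ln14_11_4 ln14_11_4_ok) (L (nat_lit 527) ln15_16_7 ln15_16_7_ok))))))))))))) c32_n2574))) (nat_lit 2079502271074782996825105998667797622327892532968682267533339094116714610205590646408138528571163187313069251615284523616620773376) (nat_lit 823775719407473396823022298168777591180424970136160705813869035997435959182460683213587530960438712577644731022426019422319416860419889815805272067692967231488) (nat_lit 823775719407473396823022298168777591180424970136160705813869035997435959182460683213587530960438712577644731022426019422319416860419889815805272067692967231488) (by decide +kernel)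
theorem c32_s2637 : Sem (nat_lit 2079502270752001762064242424960807725827516048677469043429686155012882190638009693656033379242457518153052022685796627120027336704) (nat_lit 823775719413866737854813733112325803763427880334612772436587657309149070254025360226683646237119694531523081908474840946901897363860600388763919521124251074560) (nat_lit 823775719413866737854813733112325803763427880334612772436587657309149070254025360226683646237119694531523081908474840946901897363860600388763919521124251074560) :=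
  sem_of_chk (M (nat_lit 397) (B (M (nat_lit 460) (B (M (nat_lit 365) (B (L (nat_lit 333) ln13_10_5 ln13_10_5_ok) (L (nat_lit 492) ln12_15_6 ln12_15_6_ok))) (B (M (nat_lit 492) (B (L (nat_lit 365) ln12_15_6 ln12_15_6_ok) (L (nat_lit 524) ln12_16_6 ln12_16_6_ok))) (B (M (nat_lit 395) (B (M (nat_lit 492) (B (L (nat_lit 363) ln12_15_7 ln12_15_7_ok) (L (nat_lit 524) ln12_16_6 ln12_16_6_ok))) (M (nat_lit 430) (B (L (nat_lit 394) ln10_12_0 ln10_12_0_ok) (L (nat_lit 431) ln15_13_3 ln15_13_3_ok))))) (M (nat_lit 461) (B (M (nat_lit 365) (B (L (nat_lit 333) ln13_10_5 ln13_10_5_ok) (M (nat_lit 493) (B (L (nat_lit 525) ln13_16_7 ln13_16_7_ok) (M (nat_lit 366) (B (L (nat_lit 334) ln13_14_6 ln13_14_6_ok) (L (nat_lit 398) ln13_15_6 ln13_15_6_ok))))))) (B (M (nat_lit 398) (B (M (nat_lit 493) (B (L (nat_lit 366) ln13_15_6 ln13_15_6_ok) (L (nat_lit 525) ln13_16_7 ln13_16_7_ok))) (M (nat_lit 431) (B (M (nat_lit 399) (B (L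 (nat_lit 432) ln12_12_0 ln12_12_0_ok) (L (nat_lit 400) ln16_12_1 ln16_12_1_ok))) (B (M (nat_lit 430) (B (L (nat_lit 395) ln11_12_0 ln11_12_0_ok) (L (nat_lit 432) ln16_13_3 ln16_13_3_ok))) (M (nat_lit 430) (B (L (nat_lit 395) ln11_12_0 ln11_12_0_ok) (L (nat_lit 459) ln15_13_1 ln15_13_1_ok)))))))) (M (nat_lit 431) (B (M (nat_lit 430) (B (L (nat_lit 395) ln15_13_3 ln15_13_3_ok) (L (nat_lit 432) ln16_13_3 ln16_13_3_ok))) (B (M (nat_lit 430) (B (L (nat_lit 432) ln16_13_3 ln16_13_3_ok) (L (nat_lit 459) ln15_13_1 ln15_13_1_ok))) (B (M (nat_lit 462) (B (M (nat_lit 365) (B (L (nat_lit 333) ln13_10_5 ln13_10_5_ok) (L (nat_lit 494) ln13_11_4 ln13_11_4_ok))) (M (nat_lit 463) (B (L (nat_lit 464) ln16_14_3 ln16_14_3_ok) (L (nat_lit 432) ln12_14_2 ln12_14_2_ok))))) (M (nat_lit 430) (B (L (nat_lit 395) ln15_13_3 ln15_13_3_ok) (L (nat_lit 459) ln15_13_1 ln15_13_1_ok)))))))))))))) (B (M (nat_lit 461) (B (M (nat_lit 493) (B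 (L (nat_lit 525) ln13_16_7 ln13_16_7_ok) (M (nat_lit 492) (B (L (nat_lit 524) ln13_12_5 ln13_12_5_ok) (M (nat_lit 365) (B (L (nat_lit 460) ln12_15_6 ln12_15_6_ok) (M (nat_lit 366) (B (L (nat_lit 334) ln13_14_6 ln13_14_6_ok) (L (nat_lit 398) ln13_15_6 ln13_15_6_ok))))))))) (B (M (nat_lit 493) (B (L (nat_lit 525) ln13_16_7 ln13_16_7_ok) (M (nat_lit 365) (B (M (nat_lit 492) (B (L (nat_lit 460) ln12_15_6 ln12_15_6_ok) (L (nat_lit 524) ln13_12_5 ln13_12_5_ok))) (M (nat_lit 494) (B (L (nat_lit 462) ln13_11_4 ln13_11_4_ok) (L (nat_lit 526) ln13_12_4 ln13_12_4_ok))))))) (B (M (nat_lit 493) (B (L (nat_lit 525) ln13_16_7 ln13_16_7_ok) (M (nat_lit 395) (B (M (nat_lit 394) (B (L (nat_lit 393) ln9_12_0 ln9_12_0_ok) (L (nat_lit 430) ln10_12_0 ln10_12_0_ok))) (M (nat_lit 363) (B (M (nat_lit 398) (B (L (nat_lit 362) ln14_12_3 ln14_12_3_ok) (L (nat_lit 366) ln13_15_6 ln13_15_6_ok))) (M (nat_lit 492) (B (L (nat_lit 460) ln12_15_7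 ln12_15_7_ok) (L (nat_lit 524) ln13_12_5 ln13_12_5_ok))))))))) (B (M (nat_lit 493) (B (L (nat_lit 525) ln13_16_7 ln13_16_7_ok) (M (nat_lit 365) (B (M (nat_lit 366) (B (L (nat_lit 334) ln13_14_6 ln13_14_6_ok) (L (nat_lit 398) ln13_15_6 ln13_15_6_ok))) (M (nat_lit 494) (B (L (nat_lit 462) ln13_11_4 ln13_11_4_ok) (L (nat_lit 526) ln13_12_4 ln13_12_4_ok))))))) (M (nat_lit 395) (B (M (nat_lit 394) (B (L (nat_lit 393) ln9_12_0 ln9_12_0_ok) (L (nat_lit 430) ln10_12_0 ln10_12_0_ok))) (B (M (nat_lit 430) (B (L (nat_lit 394) ln10_12_0 ln10_12_0_ok) (L (nat_lit 431) ln15_13_3 ln15_13_3_ok))) (B (M (nat_lit 398) (B (M (nat_lit 430) (B (L (nat_lit 431) ln11_12_0 ln11_12_0_ok) (M (nat_lit 366) (B (L (nat_lit 334) ln14_10_5 ln14_10_5_ok) (L (nat_lit 367) ln11_12_2 ln11_12_2_ok))))) (B (M (nat_lit 431) (B (L (nat_lit 430) ln11_12_0 ln11_12_0_ok) (M (nat_lit 399) (B (L (nat_lit 432) ln12_12_0 ln12_12_0_ok) (L (nat_lit 400)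 ln16_12_1 ln16_12_1_ok))))) (M (nat_lit 366) (B (L (nat_lit 367) ln11_12_2 ln11_12_2_ok) (M (nat_lit 334) (B (L (nat_lit 302) ln14_9_5 ln14_9_5_ok) (L (nat_lit 365) ln13_14_6 ln13_14_6_ok)))))))) (M (nat_lit 398) (B (M (nat_lit 366) (B (L (nat_lit 367) ln11_12_2 ln11_12_2_ok) (M (nat_lit 334) (B (L (nat_lit 302) ln14_9_5 ln14_9_5_ok) (L (nat_lit 365) ln13_14_6 ln13_14_6_ok))))) (B (M (nat_lit 366) (B (L (nat_lit 367) ln11_12_2 ln11_12_2_ok) (M (nat_lit 394) (B (L (nat_lit 365) ln10_12_2 ln10_12_2_ok) (L (nat_lit 393) ln9_12_0 ln9_12_0_ok))))) (M (nat_lit 394) (B (L (nat_lit 393) ln9_12_0 ln9_12_0_ok) (M (nat_lit 362) (B (L (nat_lit 361) ln13_12_3 ln13_12_3_ok) (L (nat_lit 363) ln14_12_3 ln14_12_3_ok))))))))))))))))) (B (M (nat_lit 460) (B (M (nat_lit 365) (B (L (nat_lit 333) ln13_10_5 ln13_10_5_ok) (L (nat_lit 492) ln12_15_6 ln12_15_6_ok))) (B (M (nat_lit 492) (B (L (nat_lit 365) ln12_15_6 ln12_15_6_ok)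 (L (nat_lit 524) ln12_16_6 ln12_16_6_ok))) (B (M (nat_lit 395) (B (M (nat_lit 492) (B (L (nat_lit 363) ln12_15_7 ln12_15_7_ok) (L (nat_lit 524) ln12_16_6 ln12_16_6_ok))) (M (nat_lit 430) (B (L (nat_lit 394) ln10_12_0 ln10_12_0_ok) (L (nat_lit 431) ln15_13_3 ln15_13_3_ok))))) (M (nat_lit 461) (B (M (nat_lit 365) (B (L (nat_lit 333) ln13_10_5 ln13_10_5_ok) (M (nat_lit 493) (B (L (nat_lit 525) ln13_16_7 ln13_16_7_ok) (M (nat_lit 494) (B (L (nat_lit 462) ln13_11_4 ln13_11_4_ok) (L (nat_lit 526) ln13_12_4 ln13_12_4_ok))))))) (B (M (nat_lit 398) (B (M (nat_lit 493) (B (L (nat_lit 366) ln13_15_6 ln13_15_6_ok) (L (nat_lit 525) ln13_16_7 ln13_16_7_ok))) (M (nat_lit 431) (B (M (nat_lit 399) (B (L (nat_lit 432) ln12_12_0 ln12_12_0_ok) (L (nat_lit 400) ln16_12_1 ln16_12_1_ok))) (B (M (nat_lit 430) (B (L (nat_lit 395) ln11_12_0 ln11_12_0_ok) (L (nat_lit 432) ln16_13_3 ln16_13_3_ok))) (M (nat_lit 430) (B (L (nat_lit 395)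 ln11_12_0 ln11_12_0_ok) (L (nat_lit 459) ln15_13_1 ln15_13_1_ok)))))))) (M (nat_lit 431) (B (M (nat_lit 430) (B (L (nat_lit 395) ln15_13_3 ln15_13_3_ok) (L (nat_lit 432) ln16_13_3 ln16_13_3_ok))) (B (M (nat_lit 430) (B (L (nat_lit 432) ln16_13_3 ln16_13_3_ok) (L (nat_lit 459) ln15_13_1 ln15_13_1_ok))) (B (M (nat_lit 462) (B (M (nat_lit 365) (B (L (nat_lit 333) ln13_10_5 ln13_10_5_ok) (L (nat_lit 494) ln13_11_4 ln13_11_4_ok))) (M (nat_lit 463) (B (L (nat_lit 464) ln16_14_3 ln16_14_3_ok) (L (nat_lit 432) ln12_14_2 ln12_14_2_ok))))) (M (nat_lit 430) (B (L (nat_lit 395) ln15_13_3 ln15_13_3_ok) (L (nat_lit 459) ln15_13_1 ln15_13_1_ok)))))))))))))) (B (M (nat_lit 365) (B (M (nat_lit 333) (B (L (nat_lit 301) ln13_9_5 ln13_9_5_ok) (L (nat_lit 460) ln13_10_5 ln13_10_5_ok))) (B (M (nat_lit 460) (B (L (nat_lit 333) ln13_10_5 ln13_10_5_ok) (L (nat_lit 492) ln12_15_6 ln12_15_6_ok))) (B (M (nat_lit 461) (B (M (nat_lit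 492) (B (L (nat_lit 460) ln12_15_6 ln12_15_6_ok) (M (nat_lit 493) (B (L (nat_lit 525) ln13_16_7 ln13_16_7_ok) (L (nat_lit 524) ln13_12_5 ln13_12_5_ok))))) (B (M (nat_lit 493) (B (L (nat_lit 525) ln13_16_7 ln13_16_7_ok) (M (nat_lit 366) (B (L (nat_lit 334) ln13_14_6 ln13_14_6_ok) (L (nat_lit 398) ln13_15_6 ln13_15_6_ok))))) (M (nat_lit 366) (B (L (nat_lit 334) ln13_14_6 ln13_14_6_ok) (M (nat_lit 395) (B (L (nat_lit 394) ln10_12_2 ln10_12_2_ok) (M (nat_lit 367) (B (L (nat_lit 368) ln16_11_1 ln16_11_1_ok) (L (nat_lit 398) ln11_12_2 ln11_12_2_ok)))))))))) (M (nat_lit 430) (B (M (nat_lit 333) (B (L (nat_lit 301) ln13_9_5 ln13_9_5_ok) (L (nat_lit 462) ln13_10_4 ln13_10_4_ok))) (M (nat_lit 431) (B (L (nat_lit 395) ln15_13_3 ln15_13_3_ok) (L (nat_lit 432) ln16_13_3 ln16_13_3_ok))))))))) (B (M (nat_lit 395) (B (M (nat_lit 394) (B (L (nat_lit 393) ln9_12_0 ln9_12_0_ok) (L (nat_lit 430) ln10_12_0 ln10_12_0_ok))) (B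 (M (nat_lit 430) (B (L (nat_lit 394) ln10_12_0 ln10_12_0_ok) (L (nat_lit 431) ln15_13_3 ln15_13_3_ok))) (B (M (nat_lit 398) (B (M (nat_lit 399) (B (L (nat_lit 400) ln16_12_1 ln16_12_1_ok) (M (nat_lit 367) (B (L (nat_lit 366) ln11_12_2 ln11_12_2_ok) (L (nat_lit 368) ln12_12_2 ln12_12_2_ok))))) (B (M (nat_lit 431) (B (L (nat_lit 430) ln11_12_0 ln11_12_0_ok) (M (nat_lit 399) (B (L (nat_lit 432) ln12_12_0 ln12_12_0_ok) (L (nat_lit 400) ln16_12_1 ln16_12_1_ok))))) (M (nat_lit 430) (B (L (nat_lit 431) ln11_12_0 ln11_12_0_ok) (M (nat_lit 366) (B (L (nat_lit 367) ln11_12_2 ln11_12_2_ok) (M (nat_lit 334) (B (L (nat_lit 302) ln14_9_5 ln14_9_5_ok) (L (nat_lit 461) ln14_10_5 ln14_10_5_ok)))))))))) (M (nat_lit 398) (B (M (nat_lit 399) (B (L (nat_lit 400) ln16_12_1 ln16_12_1_ok) (M (nat_lit 367) (B (L (nat_lit 366) ln11_12_2 ln11_12_2_ok) (L (nat_lit 368) ln12_12_2 ln12_12_2_ok))))) (M (nat_lit 394) (B (L (nat_lit 393)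 ln9_12_0 ln9_12_0_ok) (M (nat_lit 362) (B (L (nat_lit 361) ln13_12_3 ln13_12_3_ok) (L (nat_lit 363) ln14_12_3 ln14_12_3_ok))))))))))) (B (M (nat_lit 461) (B (M (nat_lit 493) (B (L (nat_lit 525) ln13_16_7 ln13_16_7_ok) (M (nat_lit 365) (B (M (nat_lit 492) (B (L (nat_lit 460) ln12_15_6 ln12_15_6_ok) (L (nat_lit 524) ln13_12_5 ln13_12_5_ok))) (M (nat_lit 494) (B (L (nat_lit 462) ln13_11_4 ln13_11_4_ok) (L (nat_lit 526) ln13_12_4 ln13_12_4_ok))))))) (B (M (nat_lit 493) (B (L (nat_lit 525) ln13_16_7 ln13_16_7_ok) (M (nat_lit 492) (B (L (nat_lit 524) ln13_12_5 ln13_12_5_ok) (M (nat_lit 460) (B (M (nat_lit 494) (B (L (nat_lit 526) ln13_12_4 ln13_12_4_ok) (M (nat_lit 459) (B (L (nat_lit 458) ln10_14_0 ln10_14_0_ok) (L (nat_lit 495) ln15_15_3 ln15_15_3_ok))))) (M (nat_lit 395) (B (L (nat_lit 363) ln12_15_7 ln12_15_7_ok) (M (nat_lit 394) (B (L (nat_lit 393) ln9_12_0 ln9_12_0_ok) (L (nat_lit 430) ln10_12_0 ln10_12_0_ok)))))))))))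 (B (M (nat_lit 493) (B (L (nat_lit 525) ln13_16_7 ln13_16_7_ok) (M (nat_lit 492) (B (L (nat_lit 524) ln13_12_5 ln13_12_5_ok) (M (nat_lit 494) (B (L (nat_lit 526) ln13_12_4 ln13_12_4_ok) (M (nat_lit 462) (B (L (nat_lit 365) ln13_11_4 ln13_11_4_ok) (M (nat_lit 463) (B (L (nat_lit 464) ln16_14_3 ln16_14_3_ok) (L (nat_lit 491) ln11_15_2 ln11_15_2_ok))))))))))) (B (M (nat_lit 493) (B (L (nat_lit 525) ln13_16_7 ln13_16_7_ok) (M (nat_lit 365) (B (M (nat_lit 333) (B (L (nat_lit 301) ln13_9_5 ln13_9_5_ok) (L (nat_lit 460) ln13_10_5 ln13_10_5_ok))) (M (nat_lit 494) (B (L (nat_lit 462) ln13_11_4 ln13_11_4_ok) (L (nat_lit 526) ln13_12_4 ln13_12_4_ok))))))) (B (M (nat_lit 460) (B (M (nat_lit 365) (B (L (nat_lit 333) ln13_10_5 ln13_10_5_ok) (L (nat_lit 492) ln12_15_6 ln12_15_6_ok))) (B (M (nat_lit 492) (B (L (nat_lit 365) ln12_15_6 ln12_15_6_ok) (L (nat_lit 524) ln12_16_6 ln12_16_6_ok))) (B (M (nat_lit 395) (B (M (nat_lit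 492) (B (L (nat_lit 363) ln12_15_7 ln12_15_7_ok) (L (nat_lit 524) ln12_16_6 ln12_16_6_ok))) (M (nat_lit 430) (B (L (nat_lit 394) ln10_12_0 ln10_12_0_ok) (L (nat_lit 431) ln15_13_3 ln15_13_3_ok))))) (M (nat_lit 431) (B (M (nat_lit 430) (B (L (nat_lit 395) ln15_13_3 ln15_13_3_ok) (L (nat_lit 432) ln16_13_3 ln16_13_3_ok))) (B (M (nat_lit 430) (B (L (nat_lit 432) ln16_13_3 ln16_13_3_ok) (L (nat_lit 459) ln15_13_1 ln15_13_1_ok))) (B (M (nat_lit 462) (B (M (nat_lit 365) (B (L (nat_lit 333) ln13_10_5 ln13_10_5_ok) (L (nat_lit 494) ln13_11_4 ln13_11_4_ok))) (M (nat_lit 463) (B (L (nat_lit 464) ln16_14_3 ln16_14_3_ok) (L (nat_lit 432) ln12_14_2 ln12_14_2_ok))))) (M (nat_lit 430) (B (L (nat_lit 395) ln15_13_3 ln15_13_3_ok) (L (nat_lit 459) ln15_13_1 ln15_13_1_ok))))))))))) (M (nat_lit 365) (B (M (nat_lit 333) (B (L (nat_lit 301) ln13_9_5 ln13_9_5_ok) (L (nat_lit 460) ln13_10_5 ln13_10_5_ok))) (B (M (nat_lit 460) (B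 (L (nat_lit 333) ln13_10_5 ln13_10_5_ok) (L (nat_lit 492) ln12_15_6 ln12_15_6_ok))) (B (M (nat_lit 492) (B (L (nat_lit 460) ln12_15_6 ln12_15_6_ok) (M (nat_lit 493) (B (L (nat_lit 525) ln13_16_7 ln13_16_7_ok) (L (nat_lit 524) ln13_12_5 ln13_12_5_ok))))) (M (nat_lit 430) (B (M (nat_lit 333) (B (L (nat_lit 301) ln13_9_5 ln13_9_5_ok) (L (nat_lit 462) ln13_10_4 ln13_10_4_ok))) (M (nat_lit 431) (B (L (nat_lit 395) ln15_13_3 ln15_13_3_ok) (L (nat_lit 432) ln16_13_3 ln16_13_3_ok))))))))))))))) (B (M (nat_lit 365) (B (M (nat_lit 333) (B (L (nat_lit 301) ln13_9_5 ln13_9_5_ok) (L (nat_lit 460) ln13_10_5 ln13_10_5_ok))) (B (M (nat_lit 460) (B (L (nat_lit 333) ln13_10_5 ln13_10_5_ok) (L (nat_lit 492) ln12_15_6 ln12_15_6_ok))) (B (M (nat_lit 431) (B (M (nat_lit 430) (B (L (nat_lit 395) ln15_13_3 ln15_13_3_ok) (L (nat_lit 432) ln16_13_3 ln16_13_3_ok))) (B (M (nat_lit 460) (B (L (nat_lit 492) ln12_15_6 ln12_15_6_ok) (M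 (nat_lit 430) (B (L (nat_lit 432) ln16_13_3 ln16_13_3_ok) (L (nat_lit 459) ln15_13_1 ln15_13_1_ok))))) (B (M (nat_lit 398) (B (M (nat_lit 399) (B (L (nat_lit 432) ln12_12_0 ln12_12_0_ok) (L (nat_lit 400) ln16_12_1 ln16_12_1_ok))) (M (nat_lit 366) (B (M (nat_lit 334) (B (L (nat_lit 302) ln14_9_5 ln14_9_5_ok) (L (nat_lit 461) ln13_14_6 ln13_14_6_ok))) (M (nat_lit 367) (B (L (nat_lit 368) ln16_11_1 ln16_11_1_ok) (L (nat_lit 395) ln11_12_2 ln11_12_2_ok))))))) (M (nat_lit 460) (B (L (nat_lit 492) ln12_15_6 ln12_15_6_ok) (M (nat_lit 430) (B (L (nat_lit 395) ln15_13_3 ln15_13_3_ok) (L (nat_lit 459) ln15_13_1 ln15_13_1_ok))))))))) (M (nat_lit 430) (B (M (nat_lit 333) (B (L (nat_lit 301) ln13_9_5 ln13_9_5_ok) (L (nat_lit 462) ln13_10_4 ln13_10_4_ok))) (M (nat_lit 431) (B (L (nat_lit 395) ln15_13_3 ln15_13_3_ok) (L (nat_lit 432) ln16_13_3 ln16_13_3_ok))))))))) (B (K (nat_lit 2079502271074782996825105998667797622327892532968682267533339094116714610205590646408138528571163187313069251615284523616620773376)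 (nat_lit 823775719407473396823022298168777591180424970136160705813869035997435959182460683213587530960438712577644731022426019422319416860419889815805272067692967231488) (nat_lit 823775719407473396823022298168777591180424970136160705813869035997435959182460683213587530960438712577644731022426019422319416860419889815805272067692967231488) c32_s2575) (B (M (nat_lit 365) (B (M (nat_lit 333) (B (L (nat_lit 301) ln13_9_5 ln13_9_5_ok) (L (nat_lit 460) ln13_10_5 ln13_10_5_ok))) (B (M (nat_lit 460) (B (L (nat_lit 333) ln13_10_5 ln13_10_5_ok) (L (nat_lit 492) ln12_15_6 ln12_15_6_ok))) (M (nat_lit 461) (B (M (nat_lit 493) (B (L (nat_lit 525) ln13_16_7 ln13_16_7_ok) (M (nat_lit 366) (B (L (nat_lit 334) ln13_14_6 ln13_14_6_ok) (L (nat_lit 398) ln13_15_6 ln13_15_6_ok))))) (B (M (nat_lit 493) (B (L (nat_lit 525) ln13_16_7 ln13_16_7_ok) (M (nat_lit 494) (B (L (nat_lit 462) ln13_11_4 ln13_11_4_ok) (L (nat_lit 526) ln13_12_4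 ln13_12_4_ok))))) (M (nat_lit 366) (B (L (nat_lit 334) ln13_14_6 ln13_14_6_ok) (M (nat_lit 395) (B (L (nat_lit 394) ln10_12_2 ln10_12_2_ok) (M (nat_lit 367) (B (L (nat_lit 368) ln16_11_1 ln16_11_1_ok) (L (nat_lit 398) ln11_12_2 ln11_12_2_ok))))))))))))) (M (nat_lit 398) (B (M (nat_lit 399) (B (L (nat_lit 400) ln16_12_1 ln16_12_1_ok) (M (nat_lit 431) (B (L (nat_lit 432) ln12_12_0 ln12_12_0_ok) (M (nat_lit 395) (B (L (nat_lit 430) ln11_12_0 ln11_12_0_ok) (M (nat_lit 367) (B (L (nat_lit 366) ln11_12_2 ln11_12_2_ok) (L (nat_lit 368) ln12_12_2 ln12_12_2_ok))))))))) (B (M (nat_lit 460) (B (M (nat_lit 365) (B (L (nat_lit 333) ln13_10_5 ln13_10_5_ok) (L (nat_lit 492) ln12_15_6 ln12_15_6_ok))) (M (nat_lit 431) (B (M (nat_lit 399) (B (L (nat_lit 432) ln12_12_0 ln12_12_0_ok) (L (nat_lit 400) ln16_12_1 ln16_12_1_ok))) (M (nat_lit 430) (B (L (nat_lit 395) ln11_12_0 ln11_12_0_ok) (L (nat_lit 459) ln15_13_1 ln15_13_1_ok)))))))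 (B (M (nat_lit 399) (B (L (nat_lit 400) ln16_12_1 ln16_12_1_ok) (M (nat_lit 431) (B (L (nat_lit 432) ln12_12_0 ln12_12_0_ok) (M (nat_lit 430) (B (M (nat_lit 367) (B (L (nat_lit 368) ln12_12_2 ln12_12_2_ok) (M (nat_lit 335) (B (L (nat_lit 303) ln15_9_5 ln15_9_5_ok) (L (nat_lit 462) ln15_10_5 ln15_10_5_ok))))) (M (nat_lit 460) (B (L (nat_lit 459) ln15_13_1 ln15_13_1_ok) (M (nat_lit 365) (B (L (nat_lit 333) ln13_10_5 ln13_10_5_ok) (L (nat_lit 492) ln12_15_6 ln12_15_6_ok))))))))))) (B (M (nat_lit 430) (B (M (nat_lit 395) (B (L (nat_lit 394) ln10_12_0 ln10_12_0_ok) (L (nat_lit 431) ln11_12_0 ln11_12_0_ok))) (B (M (nat_lit 431) (B (L (nat_lit 395) ln11_12_0 ln11_12_0_ok) (L (nat_lit 432) ln16_13_3 ln16_13_3_ok))) (B (M (nat_lit 460) (B (M (nat_lit 365) (B (L (nat_lit 333) ln13_10_5 ln13_10_5_ok) (L (nat_lit 492) ln12_15_6 ln12_15_6_ok))) (M (nat_lit 431) (B (L (nat_lit 432) ln16_13_3 ln16_13_3_ok) (L (nat_lit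 459) ln15_13_1 ln15_13_1_ok))))) (M (nat_lit 366) (B (M (nat_lit 395) (B (L (nat_lit 367) ln11_12_2 ln11_12_2_ok) (L (nat_lit 394) ln10_12_0 ln10_12_0_ok))) (M (nat_lit 333) (B (M (nat_lit 334) (B (L (nat_lit 301) ln14_13_7 ln14_13_7_ok) (L (nat_lit 302) ln14_9_5 ln14_9_5_ok))) (M (nat_lit 365) (B (L (nat_lit 462) ln14_14_7 ln14_14_7_ok) (L (nat_lit 460) ln13_10_5 ln13_10_5_ok))))))))))) (M (nat_lit 395) (B (M (nat_lit 399) (B (L (nat_lit 400) ln16_12_1 ln16_12_1_ok) (M (nat_lit 367) (B (L (nat_lit 366) ln11_12_2 ln11_12_2_ok) (L (nat_lit 368) ln12_12_2 ln12_12_2_ok))))) (M (nat_lit 394) (B (L (nat_lit 393) ln9_12_0 ln9_12_0_ok) (M (nat_lit 362) (B (L (nat_lit 361) ln13_12_3 ln13_12_3_ok) (L (nat_lit 363) ln14_12_3 ln14_12_3_ok)))))))))))))))))))))) (nat_lit 2079502270752001762064242424960807725827516048677469043429686155012882190638009693656033379242457518153052022685796627120027336704) (nat_lit 823775719413866737854813733112325803763427880334612772436587657309149070254025360226683646237119694531523081908474840946901897363860600388763919521124251074560)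 (nat_lit 823775719413866737854813733112325803763427880334612772436587657309149070254025360226683646237119694531523081908474840946901897363860600388763919521124251074560) (by decide +kernel)
noncomputable def c32_n2792 : Cert := (M (nat_lit 364) (B (M (nat_lit 461) (B (L (nat_lit 332) ln12_10_4 ln12_10_4_ok) (M (nat_lit 493) (B (L (nat_lit 460) ln12_11_4 ln12_11_4_ok) (L (nat_lit 525) ln13_16_7 ln13_16_7_ok))))) (B (M (nat_lit 460) (B (M (nat_lit 459) (B (L (nat_lit 491) ln12_11_5 ln12_11_5_ok) (M (nat_lit 458) (B (L (nat_lit 457) ln9_14_2 ln9_14_2_ok) (L (nat_lit 461) ln10_14_2 ln10_14_2_ok))))) (B (M (nat_lit 461) (B (L (nat_lit 493) ln12_11_4 ln12_11_4_ok) (M (nat_lit 459) (B (L (nat_lit 491) ln12_11_5 ln12_11_5_ok) (L (nat_lit 458) ln10_14_2 ln10_14_2_ok))))) (B (M (nat_lit 492) (B (M (nat_lit 363) (B (L (nat_lit 331) ln12_14_7 ln12_14_7_ok) (L (nat_lit 395) ln12_15_7 ln12_15_7_ok))) (M (nat_lit 491)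 (B (L (nat_lit 459) ln12_11_5 ln12_11_5_ok) (L (nat_lit 523) ln12_12_5 ln12_12_5_ok))))) (M (nat_lit 492) (B (M (nat_lit 363) (B (L (nat_lit 331) ln12_14_7 ln12_14_7_ok) (L (nat_lit 395) ln12_15_7 ln12_15_7_ok))) (M (nat_lit 493) (B (L (nat_lit 461) ln12_11_4 ln12_11_4_ok) (L (nat_lit 525) ln12_12_4 ln12_12_4_ok))))))))) (B (M (nat_lit 332) (B (L (nat_lit 461) ln12_10_4 ln12_10_4_ok) (M (nat_lit 300) (B (M (nat_lit 299) (B (L (nat_lit 267) ln12_12_7 ln12_12_7_ok) (L (nat_lit 331) ln12_13_7 ln12_13_7_ok))) (M (nat_lit 301) (B (L (nat_lit 269) ln12_12_6 ln12_12_6_ok) (L (nat_lit 333) ln12_13_6 ln12_13_6_ok))))))) (M (nat_lit 333) (B (M (nat_lit 365) (B (L (nat_lit 460) ln12_14_6 ln12_14_6_ok) (M (nat_lit 301) (B (L (nat_lit 269) ln13_8_5 ln13_8_5_ok) (L (nat_lit 332) ln12_13_6 ln12_13_6_ok))))) (B (M (nat_lit 331) (B (M (nat_lit 332) (B (L (nat_lit 299) ln12_13_7 ln12_13_7_ok) (L (nat_lit 301) ln12_13_6 ln12_13_6_ok)))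 (M (nat_lit 460) (B (L (nat_lit 363) ln12_14_7 ln12_14_7_ok) (L (nat_lit 365) ln12_14_6 ln12_14_6_ok))))) (B (M (nat_lit 365) (B (L (nat_lit 460) ln12_14_6 ln12_14_6_ok) (M (nat_lit 366) (B (M (nat_lit 395) (B (L (nat_lit 367) ln15_11_1 ln15_11_1_ok) (M (nat_lit 394) (B (L (nat_lit 363) ln14_11_1 ln14_11_1_ok) (L (nat_lit 393) ln9_12_2 ln9_12_2_ok))))) (B (M (nat_lit 367) (B (L (nat_lit 395) ln15_11_1 ln15_11_1_ok) (M (nat_lit 332) (B (L (nat_lit 331) ln15_11_3 ln15_11_3_ok) (L (nat_lit 368) ln16_11_3 ln16_11_3_ok))))) (M (nat_lit 363) (B (M (nat_lit 334) (B (L (nat_lit 362) ln10_11_2 ln10_11_2_ok) (L (nat_lit 335) ln11_11_2 ln11_11_2_ok))) (M (nat_lit 398) (B (L (nat_lit 462) ln14_14_7 ln14_14_7_ok) (L (nat_lit 399) ln11_11_0 ln11_11_0_ok)))))))))) (B (M (nat_lit 365) (B (L (nat_lit 460) ln12_14_6 ln12_14_6_ok) (M (nat_lit 366) (B (M (nat_lit 301) (B (L (nat_lit 269) ln13_8_5 ln13_8_5_ok) (M (nat_lit 398)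 (B (L (nat_lit 334) ln14_13_7 ln14_13_7_ok) (L (nat_lit 462) ln14_14_7 ln14_14_7_ok))))) (M (nat_lit 395) (B (L (nat_lit 367) ln15_11_1 ln15_11_1_ok) (M (nat_lit 394) (B (L (nat_lit 363) ln14_11_1 ln14_11_1_ok) (L (nat_lit 393) ln9_12_2 ln9_12_2_ok))))))))) (B (M (nat_lit 332) (B (L (nat_lit 301) ln12_13_6 ln12_13_6_ok) (M (nat_lit 331) (B (L (nat_lit 299) ln12_13_7 ln12_13_7_ok) (M (nat_lit 363) (B (L (nat_lit 460) ln12_14_7 ln12_14_7_ok) (M (nat_lit 334) (B (L (nat_lit 362) ln14_10_1 ln14_10_1_ok) (L (nat_lit 335) ln15_10_1 ln15_10_1_ok))))))))) (M (nat_lit 365) (B (M (nat_lit 301) (B (L (nat_lit 269) ln13_8_5 ln13_8_5_ok) (L (nat_lit 332) ln12_13_6 ln12_13_6_ok))) (B (M (nat_lit 332) (B (L (nat_lit 301) ln12_13_6 ln12_13_6_ok) (M (nat_lit 331) (B (L (nat_lit 299) ln12_13_7 ln12_13_7_ok) (M (nat_lit 366) (B (L (nat_lit 330) ln10_10_0 ln10_10_0_ok) (L (nat_lit 367) ln15_11_3 ln15_11_3_ok))))))) (B (M (nat_lit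 366) (B (M (nat_lit 395) (B (L (nat_lit 367) ln15_11_1 ln15_11_1_ok) (M (nat_lit 394) (B (L (nat_lit 363) ln14_11_1 ln14_11_1_ok) (L (nat_lit 393) ln9_12_2 ln9_12_2_ok))))) (B (M (nat_lit 367) (B (L (nat_lit 395) ln15_11_1 ln15_11_1_ok) (M (nat_lit 332) (B (L (nat_lit 331) ln15_11_3 ln15_11_3_ok) (L (nat_lit 368) ln16_11_3 ln16_11_3_ok))))) (M (nat_lit 363) (B (M (nat_lit 334) (B (L (nat_lit 362) ln10_11_2 ln10_11_2_ok) (L (nat_lit 335) ln11_11_2 ln11_11_2_ok))) (M (nat_lit 398) (B (L (nat_lit 462) ln14_14_7 ln14_14_7_ok) (L (nat_lit 399) ln11_11_0 ln11_11_0_ok)))))))) (M (nat_lit 366) (B (M (nat_lit 301) (B (L (nat_lit 269) ln13_8_5 ln13_8_5_ok) (M (nat_lit 398) (B (L (nat_lit 334) ln14_13_7 ln14_13_7_ok) (L (nat_lit 462) ln14_14_7 ln14_14_7_ok))))) (M (nat_lit 395) (B (L (nat_lit 367) ln15_11_1 ln15_11_1_ok) (M (nat_lit 394) (B (L (nat_lit 363) ln14_11_1 ln14_11_1_ok) (L (nat_lit 393) ln9_12_2 ln9_12_2_ok)))))))))))))))))))))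
theorem c32_s2793 : Sem (nat_lit 2079502270752001762064242424960807725827516048677469043429686155012882190638009693656033379242457518153052022685796627120027336704) (nat_lit 2026130649693226623645563157524200304785967387862886407368830964140163796965636236111992585232001113983937107774758876598649877941977308714143214184596750482093688873220067819520) (nat_lit 2026130649693226623645563157524200304785967387862886407368830964140163796965636236111992585232001113983937107774758876598649877941977308714143214184596750482093688873220067819520) :=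
  sem_of_chk (M (nat_lit 430) (B (M (nat_lit 431) (B (L (nat_lit 395) ln15_13_3 ln15_13_3_ok) (M (nat_lit 432) (B (M (nat_lit 400) (B (L (nat_lit 399) ln12_13_2 ln12_13_2_ok) (L (nat_lit 401) ln13_13_2 ln13_13_2_ok))) (M (nat_lit 460) (B (L (nat_lit 459) ln15_13_1 ln15_13_1_ok) (L (nat_lit 461) ln16_13_1 ln16_13_1_ok))))))) (B (M (nat_lit 460) (B (M (nat_lit 459) (B (L (nat_lit 431) ln15_13_1 ln15_13_1_ok) (M (nat_lit 458) (B (L (nat_lit 457) ln9_14_2 ln9_14_2_ok) (L (nat_lit 461) ln10_14_2 ln10_14_2_ok))))) (B (M (nat_lit 364) (B (M (nat_lit 461) (B (L (nat_lit 332) ln12_10_4 ln12_10_4_ok) (L (nat_lit 493) ln12_11_4 ln12_11_4_ok))) (B (M (nat_lit 459) (B (L (nat_lit 491) ln12_11_5 ln12_11_5_ok) (M (nat_lit 458) (B (L (nat_lit 457) ln9_14_2 ln9_14_2_ok) (L (nat_lit 461) ln10_14_2 ln10_14_2_ok))))) (M (nat_lit 332) (B (M (nat_lit 331) (B (L (nat_lit 299) ln12_13_7 ln12_13_7_ok) (L (nat_lit 363) ln12_14_7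 ln12_14_7_ok))) (M (nat_lit 333) (B (L (nat_lit 301) ln12_13_6 ln12_13_6_ok) (L (nat_lit 365) ln12_14_6 ln12_14_6_ok)))))))) (B (M (nat_lit 461) (B (M (nat_lit 364) (B (L (nat_lit 332) ln12_10_4 ln12_10_4_ok) (L (nat_lit 493) ln12_11_4 ln12_11_4_ok))) (M (nat_lit 459) (B (L (nat_lit 431) ln15_13_1 ln15_13_1_ok) (L (nat_lit 458) ln10_14_2 ln10_14_2_ok))))) (B (M (nat_lit 461) (B (M (nat_lit 364) (B (L (nat_lit 332) ln12_10_4 ln12_10_4_ok) (L (nat_lit 493) ln12_11_4 ln12_11_4_ok))) (M (nat_lit 431) (B (L (nat_lit 459) ln15_13_1 ln15_13_1_ok) (L (nat_lit 432) ln16_13_1 ln16_13_1_ok))))) (B (M (nat_lit 492) (B (M (nat_lit 524) (B (M (nat_lit 523) (B (L (nat_lit 491) ln12_12_5 ln12_12_5_ok) (L (nat_lit 555) ln12_13_5 ln12_13_5_ok))) (M (nat_lit 525) (B (L (nat_lit 493) ln12_12_4 ln12_12_4_ok) (L (nat_lit 557) ln12_13_4 ln12_13_4_ok))))) (B (M (nat_lit 364) (B (M (nat_lit 461) (B (L (nat_lit 332) ln12_10_4 ln12_10_4_ok)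 (L (nat_lit 493) ln12_11_4 ln12_11_4_ok))) (B (M (nat_lit 493) (B (L (nat_lit 461) ln12_11_4 ln12_11_4_ok) (L (nat_lit 525) ln12_12_4 ln12_12_4_ok))) (M (nat_lit 332) (B (M (nat_lit 331) (B (L (nat_lit 299) ln12_13_7 ln12_13_7_ok) (L (nat_lit 363) ln12_14_7 ln12_14_7_ok))) (M (nat_lit 333) (B (L (nat_lit 301) ln12_13_6 ln12_13_6_ok) (L (nat_lit 365) ln12_14_6 ln12_14_6_ok)))))))) (B (M (nat_lit 524) (B (M (nat_lit 523) (B (L (nat_lit 491) ln12_12_5 ln12_12_5_ok) (L (nat_lit 555) ln12_13_5 ln12_13_5_ok))) (M (nat_lit 556) (B (L (nat_lit 461) ln12_17_6 ln12_17_6_ok) (M (nat_lit 557) (B (L (nat_lit 525) ln12_13_4 ln12_13_4_ok) (L (nat_lit 589) ln12_14_4 ln12_14_4_ok))))))) (M (nat_lit 461) (B (M (nat_lit 364) (B (L (nat_lit 332) ln12_10_4 ln12_10_4_ok) (L (nat_lit 493) ln12_11_4 ln12_11_4_ok))) (M (nat_lit 524) (B (L (nat_lit 556) ln12_17_6 ln12_17_6_ok) (M (nat_lit 523) (B (L (nat_lit 491) ln12_12_5 ln12_12_5_ok)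 (L (nat_lit 555) ln12_13_5 ln12_13_5_ok))))))))))) (M (nat_lit 459) (B (L (nat_lit 431) ln15_13_1 ln15_13_1_ok) (M (nat_lit 491) (B (L (nat_lit 364) ln12_11_5 ln12_11_5_ok) (M (nat_lit 523) (B (L (nat_lit 492) ln12_12_5 ln12_12_5_ok) (L (nat_lit 555) ln11_17_6 ln11_17_6_ok))))))))))))) (B c32_n2792 (M (nat_lit 431) (B (L (nat_lit 395) ln15_13_3 ln15_13_3_ok) (M (nat_lit 432) (B (M (nat_lit 400) (B (L (nat_lit 399) ln12_13_2 ln12_13_2_ok) (L (nat_lit 401) ln13_13_2 ln13_13_2_ok))) (M (nat_lit 464) (B (L (nat_lit 463) ln12_13_0 ln12_13_0_ok) (L (nat_lit 465) ln13_13_0 ln13_13_0_ok))))))))))) (nat_lit 2079502270752001762064242424960807725827516048677469043429686155012882190638009693656033379242457518153052022685796627120027336704) (nat_lit 2026130649693226623645563157524200304785967387862886407368830964140163796965636236111992585232001113983937107774758876598649877941977308714143214184596750482093688873220067819520)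 (nat_lit 2026130649693226623645563157524200304785967387862886407368830964140163796965636236111992585232001113983937107774758876598649877941977308714143214184596750482093688873220067819520) (by decide +kernel)
theorem c32_s2870 : Sem (nat_lit 2079502270752001762064242424960807725827516048677469043429686155012882190638009693656033379242457518153052022685796627120027336704) (nat_lit 825554280841600030613665225272734766468075279996540671743876918169808652017211392593671123488048141901328839385501760685865918522171588149576483032810064906870885187584) (nat_lit 825554280841600030613665225272734766468075279996540671743876918169808652017211392593671123488048141901328839385501760685865918522171588149576483032810064906870885187584) :=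
  sem_of_chk (M (nat_lit 461) (B (M (nat_lit 364) (B (L (nat_lit 332) ln12_10_4 ln12_10_4_ok) (M (nat_lit 493) (B (L (nat_lit 460) ln12_11_4 ln12_11_4_ok) (L (nat_lit 525) ln13_16_7 ln13_16_7_ok))))) (B (M (nat_lit 493) (B (L (nat_lit 525) ln13_16_7 ln13_16_7_ok) (M (nat_lit 364) (B (L (nat_lit 397) ln13_15_7 ln13_15_7_ok) (L (nat_lit 460) ln12_11_4 ln12_11_4_ok))))) (B (M (nat_lit 492) (B (M (nat_lit 493) (B (L (nat_lit 525) ln13_16_7 ln13_16_7_ok) (M (nat_lit 524) (B (L (nat_lit 397) ln13_12_5 ln13_12_5_ok) (M (nat_lit 460) (B (L (nat_lit 556) ln12_17_6 ln12_17_6_ok) (M (nat_lit 523) (B (L (nat_lit 491) ln12_12_5 ln12_12_5_ok) (L (nat_lit 555) ln12_13_5 ln12_13_5_ok))))))))) (B (M (nat_lit 460) (B (M (nat_lit 524) (B (L (nat_lit 556) ln12_17_6 ln12_17_6_ok) (M (nat_lit 523) (B (L (nat_lit 491) ln12_12_5 ln12_12_5_ok) (L (nat_lit 555) ln12_13_5 ln12_13_5_ok))))) (B (M (nat_lit 525) (B (L (nat_lit 493) ln13_16_7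 ln13_16_7_ok) (M (nat_lit 524) (B (L (nat_lit 557) ln12_13_4 ln12_13_4_ok) (L (nat_lit 556) ln12_17_6 ln12_17_6_ok))))) (M (nat_lit 493) (B (L (nat_lit 525) ln13_16_7 ln13_16_7_ok) (M (nat_lit 491) (B (L (nat_lit 523) ln12_12_5 ln12_12_5_ok) (M (nat_lit 462) (B (L (nat_lit 463) ln15_14_1 ln15_14_1_ok) (L (nat_lit 490) ln10_15_2 ln10_15_2_ok)))))))))) (B (M (nat_lit 493) (B (L (nat_lit 525) ln13_16_7 ln13_16_7_ok) (M (nat_lit 397) (B (L (nat_lit 524) ln13_12_5 ln13_12_5_ok) (M (nat_lit 365) (B (M (nat_lit 366) (B (L (nat_lit 334) ln13_14_6 ln13_14_6_ok) (L (nat_lit 398) ln13_15_6 ln13_15_6_ok))) (M (nat_lit 494) (B (L (nat_lit 462) ln13_11_4 ln13_11_4_ok) (L (nat_lit 526) ln13_12_4 ln13_12_4_ok))))))))) (B (M (nat_lit 460) (B (M (nat_lit 397) (B (L (nat_lit 365) ln12_15_6 ln12_15_6_ok) (L (nat_lit 524) ln12_16_6 ln12_16_6_ok))) (B (M (nat_lit 524) (B (L (nat_lit 397) ln12_16_6 ln12_16_6_ok) (L (nat_lit 556)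 ln12_17_6 ln12_17_6_ok))) (B (M (nat_lit 524) (B (L (nat_lit 556) ln12_17_6 ln12_17_6_ok) (M (nat_lit 523) (B (L (nat_lit 491) ln12_12_5 ln12_12_5_ok) (L (nat_lit 555) ln12_13_5 ln12_13_5_ok))))) (M (nat_lit 491) (B (L (nat_lit 523) ln12_12_5 ln12_12_5_ok) (M (nat_lit 462) (B (L (nat_lit 463) ln15_14_1 ln15_14_1_ok) (M (nat_lit 490) (B (L (nat_lit 459) ln14_14_1 ln14_14_1_ok) (L (nat_lit 489) ln9_15_2 ln9_15_2_ok))))))))))) (M (nat_lit 493) (B (L (nat_lit 525) ln13_16_7 ln13_16_7_ok) (M (nat_lit 460) (B (M (nat_lit 491) (B (L (nat_lit 523) ln12_12_5 ln12_12_5_ok) (M (nat_lit 462) (B (L (nat_lit 463) ln15_14_1 ln15_14_1_ok) (L (nat_lit 490) ln10_15_2 ln10_15_2_ok))))) (M (nat_lit 494) (B (M (nat_lit 397) (B (L (nat_lit 365) ln12_15_6 ln12_15_6_ok) (L (nat_lit 526) ln13_12_4 ln13_12_4_ok))) (M (nat_lit 459) (B (L (nat_lit 458) ln10_14_0 ln10_14_0_ok) (L (nat_lit 495) ln15_15_3 ln15_15_3_ok)))))))))))))) (B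 (M (nat_lit 493) (B (L (nat_lit 525) ln13_16_7 ln13_16_7_ok) (M (nat_lit 364) (B (L (nat_lit 332) ln12_10_4 ln12_10_4_ok) (L (nat_lit 397) ln13_15_7 ln13_15_7_ok))))) (M (nat_lit 365) (B (M (nat_lit 364) (B (L (nat_lit 332) ln12_10_4 ln12_10_4_ok) (M (nat_lit 333) (B (L (nat_lit 460) ln12_14_6 ln12_14_6_ok) (M (nat_lit 301) (B (L (nat_lit 269) ln13_8_5 ln13_8_5_ok) (L (nat_lit 397) ln13_9_5 ln13_9_5_ok))))))) (B (M (nat_lit 460) (B (M (nat_lit 364) (B (L (nat_lit 332) ln12_10_4 ln12_10_4_ok) (L (nat_lit 333) ln12_14_6 ln12_14_6_ok))) (B (M (nat_lit 333) (B (L (nat_lit 364) ln12_14_6 ln12_14_6_ok) (L (nat_lit 397) ln13_10_5 ln13_10_5_ok))) (B (M (nat_lit 363) (B (M (nat_lit 364) (B (L (nat_lit 331) ln12_14_7 ln12_14_7_ok) (L (nat_lit 332) ln12_10_4 ln12_10_4_ok))) (M (nat_lit 492) (B (L (nat_lit 395) ln12_15_7 ln12_15_7_ok) (L (nat_lit 397) ln12_15_6 ln12_15_6_ok))))) (M (nat_lit 397) (B (L (nat_lit 333)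 ln13_10_5 ln13_10_5_ok) (L (nat_lit 492) ln12_15_6 ln12_15_6_ok))))))) (B (M (nat_lit 397) (B (M (nat_lit 333) (B (L (nat_lit 301) ln13_9_5 ln13_9_5_ok) (L (nat_lit 460) ln13_10_5 ln13_10_5_ok))) (B (M (nat_lit 460) (B (L (nat_lit 333) ln13_10_5 ln13_10_5_ok) (L (nat_lit 492) ln12_15_6 ln12_15_6_ok))) (M (nat_lit 366) (B (L (nat_lit 334) ln13_14_6 ln13_14_6_ok) (M (nat_lit 395) (B (L (nat_lit 394) ln10_12_2 ln10_12_2_ok) (M (nat_lit 367) (B (L (nat_lit 368) ln16_11_1 ln16_11_1_ok) (L (nat_lit 398) ln11_12_2 ln11_12_2_ok)))))))))) (B (M (nat_lit 397) (B (M (nat_lit 366) (B (L (nat_lit 334) ln13_14_6 ln13_14_6_ok) (M (nat_lit 395) (B (L (nat_lit 394) ln10_12_2 ln10_12_2_ok) (M (nat_lit 367) (B (L (nat_lit 368) ln16_11_1 ln16_11_1_ok) (L (nat_lit 398) ln11_12_2 ln11_12_2_ok))))))) (B (M (nat_lit 364) (B (L (nat_lit 332) ln13_14_7 ln13_14_7_ok) (M (nat_lit 363) (B (M (nat_lit 460) (B (L (nat_lit 331) ln12_14_7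 ln12_14_7_ok) (L (nat_lit 492) ln12_15_6 ln12_15_6_ok))) (M (nat_lit 362) (B (L (nat_lit 361) ln9_11_0 ln9_11_0_ok) (L (nat_lit 398) ln10_11_0 ln10_11_0_ok))))))) (M (nat_lit 364) (B (L (nat_lit 332) ln13_14_7 ln13_14_7_ok) (M (nat_lit 366) (B (L (nat_lit 334) ln13_14_6 ln13_14_6_ok) (M (nat_lit 367) (B (L (nat_lit 395) ln15_11_1 ln15_11_1_ok) (L (nat_lit 368) ln16_11_1 ln16_11_1_ok)))))))))) (B (M (nat_lit 364) (B (L (nat_lit 332) ln12_10_4 ln12_10_4_ok) (M (nat_lit 460) (B (L (nat_lit 333) ln12_14_6 ln12_14_6_ok) (M (nat_lit 492) (B (M (nat_lit 363) (B (L (nat_lit 331) ln12_14_7 ln12_14_7_ok) (L (nat_lit 395) ln12_15_7 ln12_15_7_ok))) (M (nat_lit 491) (B (L (nat_lit 459) ln12_11_5 ln12_11_5_ok) (L (nat_lit 523) ln12_12_5 ln12_12_5_ok))))))))) (M (nat_lit 397) (B (M (nat_lit 332) (B (L (nat_lit 364) ln13_14_7 ln13_14_7_ok) (M (nat_lit 333) (B (L (nat_lit 300) ln13_13_7 ln13_13_7_ok) (L (nat_lit 301) ln13_9_5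 ln13_9_5_ok))))) (B (M (nat_lit 333) (B (L (nat_lit 301) ln13_9_5 ln13_9_5_ok) (M (nat_lit 334) (B (L (nat_lit 302) ln13_13_6 ln13_13_6_ok) (L (nat_lit 366) ln13_14_6 ln13_14_6_ok))))) (B (M (nat_lit 333) (B (M (nat_lit 332) (B (L (nat_lit 300) ln13_13_7 ln13_13_7_ok) (L (nat_lit 364) ln13_14_7 ln13_14_7_ok))) (M (nat_lit 334) (B (L (nat_lit 302) ln13_13_6 ln13_13_6_ok) (L (nat_lit 366) ln13_14_6 ln13_14_6_ok))))) (M (nat_lit 364) (B (L (nat_lit 332) ln13_14_7 ln13_14_7_ok) (M (nat_lit 366) (B (L (nat_lit 334) ln13_14_6 ln13_14_6_ok) (M (nat_lit 367) (B (L (nat_lit 395) ln15_11_1 ln15_11_1_ok) (L (nat_lit 368) ln16_11_1 ln16_11_1_ok)))))))))))))))))))))) (nat_lit 2079502270752001762064242424960807725827516048677469043429686155012882190638009693656033379242457518153052022685796627120027336704) (nat_lit 825554280841600030613665225272734766468075279996540671743876918169808652017211392593671123488048141901328839385501760685865918522171588149576483032810064906870885187584)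 (nat_lit 825554280841600030613665225272734766468075279996540671743876918169808652017211392593671123488048141901328839385501760685865918522171588149576483032810064906870885187584) (by decide +kernel)
theorem c32_s3091 : Sem (nat_lit 4852171964872816621680233290428272760910184813601915011038176656410036616374951972240523129748430831345862417621356498197512454144) (nat_lit 109836762741103304398344613743092777742418638020758006102406481643811143269307757197169802826021963022122594906356690528813933451140825337461233392190889132032) (nat_lit 109836762741103304398344613743092777742418638020758006102406481643811143269307757197169802826021963022122594906356690528813933451140825337461233392190889132032) :=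
  sem_of_chk (M (nat_lit 366) (B (M (nat_lit 397) (B (M (nat_lit 395) (B (L (nat_lit 394) ln10_12_0 ln10_12_0_ok) (M (nat_lit 367) (B (L (nat_lit 365) ln15_11_1 ln15_11_1_ok) (L (nat_lit 398) ln11_12_2 ln11_12_2_ok))))) (B (M (nat_lit 398) (B (M (nat_lit 334) (B (L (nat_lit 302) ln14_9_5 ln14_9_5_ok) (L (nat_lit 461) ln14_10_5 ln14_10_5_ok))) (M (nat_lit 399) (B (L (nat_lit 363) ln15_12_3 ln15_12_3_ok) (L (nat_lit 400) ln16_12_1 ln16_12_1_ok))))) (M (nat_lit 365) (B (M (nat_lit 333) (B (L (nat_lit 301) ln13_9_5 ln13_9_5_ok) (L (nat_lit 462) ln13_10_4 ln13_10_4_ok))) (M (nat_lit 395) (B (L (nat_lit 367) ln15_11_1 ln15_11_1_ok) (L (nat_lit 394) ln10_12_2 ln10_12_2_ok)))))))) (B (M (nat_lit 397) (B (M (nat_lit 395) (B (L (nat_lit 394) ln10_12_0 ln10_12_0_ok) (M (nat_lit 367) (B (L (nat_lit 365) ln15_11_1 ln15_11_1_ok) (L (nat_lit 398) ln11_12_2 ln11_12_2_ok))))) (B (M (nat_lit 398) (B (M (nat_lit 334) (B (L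 (nat_lit 302) ln14_9_5 ln14_9_5_ok) (L (nat_lit 461) ln14_10_5 ln14_10_5_ok))) (M (nat_lit 399) (B (L (nat_lit 363) ln15_12_3 ln15_12_3_ok) (L (nat_lit 400) ln16_12_1 ln16_12_1_ok))))) (M (nat_lit 365) (B (M (nat_lit 461) (B (L (nat_lit 334) ln13_14_6 ln13_14_6_ok) (L (nat_lit 493) ln13_15_7 ln13_15_7_ok))) (M (nat_lit 395) (B (L (nat_lit 367) ln15_11_1 ln15_11_1_ok) (L (nat_lit 394) ln10_12_2 ln10_12_2_ok)))))))) (B (M (nat_lit 397) (B (M (nat_lit 395) (B (L (nat_lit 394) ln10_12_0 ln10_12_0_ok) (M (nat_lit 367) (B (L (nat_lit 365) ln15_11_1 ln15_11_1_ok) (L (nat_lit 398) ln11_12_2 ln11_12_2_ok))))) (B (M (nat_lit 398) (B (M (nat_lit 461) (B (L (nat_lit 334) ln14_10_5 ln14_10_5_ok) (L (nat_lit 493) ln13_15_7 ln13_15_7_ok))) (M (nat_lit 395) (B (L (nat_lit 367) ln11_12_2 ln11_12_2_ok) (L (nat_lit 394) ln10_12_0 ln10_12_0_ok))))) (B (M (nat_lit 461) (B (L (nat_lit 493) ln13_15_7 ln13_15_7_ok) (M (nat_lit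 334) (B (L (nat_lit 365) ln13_14_6 ln13_14_6_ok) (L (nat_lit 398) ln14_10_5 ln14_10_5_ok))))) (M (nat_lit 365) (B (M (nat_lit 461) (B (L (nat_lit 334) ln13_14_6 ln13_14_6_ok) (L (nat_lit 493) ln13_15_7 ln13_15_7_ok))) (M (nat_lit 395) (B (L (nat_lit 367) ln15_11_1 ln15_11_1_ok) (L (nat_lit 394) ln10_12_2 ln10_12_2_ok))))))))) (B (M (nat_lit 398) (B (M (nat_lit 397) (B (M (nat_lit 395) (B (L (nat_lit 367) ln11_12_2 ln11_12_2_ok) (L (nat_lit 394) ln10_12_0 ln10_12_0_ok))) (M (nat_lit 399) (B (L (nat_lit 363) ln15_12_3 ln15_12_3_ok) (L (nat_lit 400) ln16_12_1 ln16_12_1_ok))))) (B (M (nat_lit 462) (B (M (nat_lit 365) (B (L (nat_lit 333) ln14_14_7 ln14_14_7_ok) (M (nat_lit 367) (B (L (nat_lit 335) ln14_14_6 ln14_14_6_ok) (L (nat_lit 395) ln15_11_1 ln15_11_1_ok))))) (M (nat_lit 461) (B (L (nat_lit 493) ln14_11_5 ln14_11_5_ok) (M (nat_lit 463) (B (L (nat_lit 495) ln14_11_4 ln14_11_4_ok) (L (nat_lit 464) ln16_14_3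 ln16_14_3_ok))))))) (M (nat_lit 462) (B (M (nat_lit 461) (B (L (nat_lit 493) ln14_11_5 ln14_11_5_ok) (M (nat_lit 463) (B (L (nat_lit 495) ln14_11_4 ln14_11_4_ok) (L (nat_lit 464) ln16_14_3 ln16_14_3_ok))))) (M (nat_lit 397) (B (M (nat_lit 365) (B (L (nat_lit 333) ln14_14_7 ln14_14_7_ok) (L (nat_lit 494) ln14_15_7 ln14_15_7_ok))) (M (nat_lit 399) (B (L (nat_lit 363) ln15_12_3 ln15_12_3_ok) (L (nat_lit 400) ln16_12_1 ln16_12_1_ok)))))))))) (B (M (nat_lit 398) (B (M (nat_lit 461) (B (L (nat_lit 334) ln14_10_5 ln14_10_5_ok) (M (nat_lit 493) (B (L (nat_lit 397) ln13_15_7 ln13_15_7_ok) (L (nat_lit 462) ln14_11_5 ln14_11_5_ok))))) (B (M (nat_lit 397) (B (M (nat_lit 395) (B (L (nat_lit 367) ln11_12_2 ln11_12_2_ok) (L (nat_lit 394) ln10_12_0 ln10_12_0_ok))) (M (nat_lit 399) (B (L (nat_lit 363) ln15_12_3 ln15_12_3_ok) (L (nat_lit 400) ln16_12_1 ln16_12_1_ok))))) (M (nat_lit 461) (B (L (nat_lit 334) ln14_10_5 ln14_10_5_ok)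 (M (nat_lit 493) (B (L (nat_lit 462) ln14_11_5 ln14_11_5_ok) (L (nat_lit 525) ln13_16_7 ln13_16_7_ok)))))))) (B (M (nat_lit 398) (B (M (nat_lit 461) (B (L (nat_lit 334) ln14_10_5 ln14_10_5_ok) (M (nat_lit 493) (B (L (nat_lit 462) ln14_11_5 ln14_11_5_ok) (L (nat_lit 525) ln13_16_7 ln13_16_7_ok))))) (B (M (nat_lit 462) (B (M (nat_lit 461) (B (L (nat_lit 493) ln14_11_5 ln14_11_5_ok) (M (nat_lit 463) (B (L (nat_lit 495) ln14_11_4 ln14_11_4_ok) (L (nat_lit 464) ln16_14_3 ln16_14_3_ok))))) (M (nat_lit 397) (B (M (nat_lit 365) (B (L (nat_lit 333) ln14_14_7 ln14_14_7_ok) (L (nat_lit 494) ln14_15_7 ln14_15_7_ok))) (M (nat_lit 399) (B (L (nat_lit 363) ln15_12_3 ln15_12_3_ok) (L (nat_lit 400) ln16_12_1 ln16_12_1_ok))))))) (B (M (nat_lit 365) (B (M (nat_lit 399) (B (L (nat_lit 363) ln11_11_0 ln11_11_0_ok) (M (nat_lit 400) (B (L (nat_lit 397) ln16_12_3 ln16_12_3_ok) (L (nat_lit 401) ln17_12_3 ln17_12_3_ok))))) (B (M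 (nat_lit 333) (B (L (nat_lit 462) ln14_14_7 ln14_14_7_ok) (M (nat_lit 301) (B (L (nat_lit 269) ln13_8_5 ln13_8_5_ok) (L (nat_lit 397) ln13_9_5 ln13_9_5_ok))))) (M (nat_lit 333) (B (L (nat_lit 462) ln14_14_7 ln14_14_7_ok) (M (nat_lit 301) (B (L (nat_lit 269) ln13_8_5 ln13_8_5_ok) (L (nat_lit 334) ln14_13_7 ln14_13_7_ok)))))))) (M (nat_lit 461) (B (L (nat_lit 334) ln14_10_5 ln14_10_5_ok) (M (nat_lit 493) (B (L (nat_lit 397) ln13_15_7 ln13_15_7_ok) (L (nat_lit 525) ln13_16_7 ln13_16_7_ok))))))))) (B (M (nat_lit 398) (B (M (nat_lit 461) (B (L (nat_lit 334) ln14_10_5 ln14_10_5_ok) (M (nat_lit 493) (B (L (nat_lit 462) ln14_11_5 ln14_11_5_ok) (L (nat_lit 525) ln13_16_7 ln13_16_7_ok))))) (B (M (nat_lit 462) (B (M (nat_lit 365) (B (L (nat_lit 333) ln14_14_7 ln14_14_7_ok) (M (nat_lit 367) (B (L (nat_lit 335) ln14_14_6 ln14_14_6_ok) (L (nat_lit 395) ln15_11_1 ln15_11_1_ok))))) (M (nat_lit 461) (B (L (nat_lit 493) ln14_11_5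 ln14_11_5_ok) (M (nat_lit 463) (B (L (nat_lit 495) ln14_11_4 ln14_11_4_ok) (L (nat_lit 464) ln16_14_3 ln16_14_3_ok))))))) (B (M (nat_lit 365) (B (M (nat_lit 395) (B (L (nat_lit 367) ln15_11_1 ln15_11_1_ok) (M (nat_lit 363) (B (L (nat_lit 394) ln14_11_1 ln14_11_1_ok) (L (nat_lit 399) ln11_11_0 ln11_11_0_ok))))) (B (M (nat_lit 462) (B (L (nat_lit 333) ln14_14_7 ln14_14_7_ok) (M (nat_lit 367) (B (L (nat_lit 335) ln14_14_6 ln14_14_6_ok) (L (nat_lit 395) ln15_11_1 ln15_11_1_ok))))) (M (nat_lit 333) (B (L (nat_lit 462) ln14_14_7 ln14_14_7_ok) (M (nat_lit 301) (B (L (nat_lit 269) ln13_8_5 ln13_8_5_ok) (L (nat_lit 334) ln14_13_7 ln14_13_7_ok)))))))) (M (nat_lit 334) (B (L (nat_lit 461) ln14_10_5 ln14_10_5_ok) (M (nat_lit 302) (B (M (nat_lit 301) (B (L (nat_lit 269) ln14_12_7 ln14_12_7_ok) (L (nat_lit 333) ln14_13_7 ln14_13_7_ok))) (M (nat_lit 303) (B (L (nat_lit 271) ln14_12_6 ln14_12_6_ok) (L (nat_lit 335) ln14_13_6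 ln14_13_6_ok))))))))))) (B (M (nat_lit 365) (B (M (nat_lit 395) (B (L (nat_lit 367) ln15_11_1 ln15_11_1_ok) (M (nat_lit 394) (B (L (nat_lit 363) ln14_11_1 ln14_11_1_ok) (L (nat_lit 393) ln9_12_2 ln9_12_2_ok))))) (B (M (nat_lit 395) (B (L (nat_lit 367) ln15_11_1 ln15_11_1_ok) (M (nat_lit 394) (B (L (nat_lit 393) ln9_12_2 ln9_12_2_ok) (L (nat_lit 397) ln10_12_2 ln10_12_2_ok))))) (M (nat_lit 397) (B (M (nat_lit 333) (B (L (nat_lit 301) ln13_9_5 ln13_9_5_ok) (L (nat_lit 462) ln13_10_4 ln13_10_4_ok))) (M (nat_lit 461) (B (L (nat_lit 334) ln13_14_6 ln13_14_6_ok) (L (nat_lit 493) ln13_15_7 ln13_15_7_ok)))))))) (M (nat_lit 365) (B (M (nat_lit 395) (B (L (nat_lit 367) ln15_11_1 ln15_11_1_ok) (M (nat_lit 394) (B (L (nat_lit 393) ln9_12_2 ln9_12_2_ok) (L (nat_lit 397) ln10_12_2 ln10_12_2_ok))))) (B (M (nat_lit 398) (B (M (nat_lit 333) (B (L (nat_lit 462) ln14_14_7 ln14_14_7_ok) (M (nat_lit 301) (B (L (nat_lit 269)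 ln13_8_5 ln13_8_5_ok) (L (nat_lit 334) ln14_13_7 ln14_13_7_ok))))) (M (nat_lit 399) (B (L (nat_lit 363) ln11_11_0 ln11_11_0_ok) (M (nat_lit 400) (B (L (nat_lit 397) ln16_12_3 ln16_12_3_ok) (L (nat_lit 401) ln17_12_3 ln17_12_3_ok))))))) (M (nat_lit 395) (B (L (nat_lit 367) ln15_11_1 ln15_11_1_ok) (M (nat_lit 394) (B (L (nat_lit 363) ln14_11_1 ln14_11_1_ok) (L (nat_lit 393) ln9_12_2 ln9_12_2_ok))))))))))))))))) (nat_lit 4852171964872816621680233290428272760910184813601915011038176656410036616374951972240523129748430831345862417621356498197512454144) (nat_lit 109836762741103304398344613743092777742418638020758006102406481643811143269307757197169802826021963022122594906356690528813933451140825337461233392190889132032) (nat_lit 109836762741103304398344613743092777742418638020758006102406481643811143269307757197169802826021963022122594906356690528813933451140825337461233392190889132032) (by decide +kernel)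
noncomputable def c32_n3106 : Cert := (M (nat_lit 430) (B (M (nat_lit 395) (B (L (nat_lit 431) ln15_13_3 ln15_13_3_ok) (M (nat_lit 394) (B (L (nat_lit 393) ln9_12_0 ln9_12_0_ok) (L (nat_lit 397) ln10_12_0 ln10_12_0_ok))))) (B (M (nat_lit 431) (B (L (nat_lit 395) ln15_13_3 ln15_13_3_ok) (M (nat_lit 432) (B (L (nat_lit 397) ln16_13_3 ln16_13_3_ok) (M (nat_lit 464) (B (L (nat_lit 463) ln12_13_0 ln12_13_0_ok) (L (nat_lit 465) ln13_13_0 ln13_13_0_ok))))))) (B (M (nat_lit 431) (B (M (nat_lit 432) (B (L (nat_lit 397) ln16_13_3 ln16_13_3_ok) (M (nat_lit 400) (B (L (nat_lit 399) ln12_13_2 ln12_13_2_ok) (L (nat_lit 401) ln13_13_2 ln13_13_2_ok))))) (B (M (nat_lit 432) (B (M (nat_lit 400) (B (L (nat_lit 399) ln12_13_2 ln12_13_2_ok) (L (nat_lit 401) ln13_13_2 ln13_13_2_ok))) (M (nat_lit 464) (B (L (nat_lit 463) ln12_13_0 ln12_13_0_ok) (L (nat_lit 465) ln13_13_0 ln13_13_0_ok))))) (B (M (nat_lit 432) (B (L (nat_lit 397)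 ln16_13_3 ln16_13_3_ok) (M (nat_lit 464) (B (L (nat_lit 463) ln12_13_0 ln12_13_0_ok) (L (nat_lit 465) ln13_13_0 ln13_13_0_ok))))) (M (nat_lit 398) (B (M (nat_lit 399) (B (L (nat_lit 400) ln12_13_2 ln12_13_2_ok) (M (nat_lit 463) (B (L (nat_lit 464) ln12_13_0 ln12_13_0_ok) (M (nat_lit 366) (B (L (nat_lit 334) ln14_10_4 ln14_10_4_ok) (L (nat_lit 495) ln15_15_7 ln15_15_7_ok))))))) (B (M (nat_lit 399) (B (L (nat_lit 400) ln12_13_2 ln12_13_2_ok) (M (nat_lit 463) (B (L (nat_lit 464) ln12_13_0 ln12_13_0_ok) (M (nat_lit 495) (B (L (nat_lit 366) ln15_15_7 ln15_15_7_ok) (L (nat_lit 527) ln15_16_7 ln15_16_7_ok))))))) (B (M (nat_lit 399) (B (L (nat_lit 400) ln12_13_2 ln12_13_2_ok) (M (nat_lit 397) (B (M (nat_lit 364) (B (L (nat_lit 363) ln15_12_3 ln15_12_3_ok) (M (nat_lit 332) (B (L (nat_lit 300) ln12_9_4 ln12_9_4_ok) (L (nat_lit 461) ln12_10_4 ln12_10_4_ok))))) (M (nat_lit 367) (B (L (nat_lit 368) ln12_12_2 ln12_12_2_ok)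 (M (nat_lit 462) (B (L (nat_lit 335) ln15_10_5 ln15_10_5_ok) (L (nat_lit 494) ln14_15_6 ln14_15_6_ok))))))))) (M (nat_lit 463) (B (L (nat_lit 464) ln12_13_0 ln12_13_0_ok) (M (nat_lit 366) (B (L (nat_lit 334) ln14_10_4 ln14_10_4_ok) (M (nat_lit 495) (B (L (nat_lit 462) ln14_11_4 ln14_11_4_ok) (L (nat_lit 527) ln15_16_7 ln15_16_7_ok))))))))))))))) (B (M (nat_lit 431) (B (L (nat_lit 395) ln15_13_3 ln15_13_3_ok) (M (nat_lit 432) (B (M (nat_lit 400) (B (L (nat_lit 399) ln12_13_2 ln12_13_2_ok) (L (nat_lit 401) ln13_13_2 ln13_13_2_ok))) (M (nat_lit 464) (B (L (nat_lit 463) ln12_13_0 ln12_13_0_ok) (L (nat_lit 465) ln13_13_0 ln13_13_0_ok))))))) (M (nat_lit 364) (B (M (nat_lit 461) (B (L (nat_lit 332) ln12_10_4 ln12_10_4_ok) (M (nat_lit 493) (B (L (nat_lit 397) ln13_15_7 ln13_15_7_ok) (L (nat_lit 525) ln13_16_7 ln13_16_7_ok))))) (B (K (nat_lit 4852171964872816621680233290428272760910184813601915011038176656410036616374951972240523129748430831345862417621356498197512454144)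 (nat_lit 109836762741103304398344613743092777742418638020758006102406481643811143269307757197169802826021963022122594906356690528813933451140825337461233392190889132032) (nat_lit 109836762741103304398344613743092777742418638020758006102406481643811143269307757197169802826021963022122594906356690528813933451140825337461233392190889132032) c32_s3091) (B (M (nat_lit 332) (B (L (nat_lit 461) ln12_10_4 ln12_10_4_ok) (M (nat_lit 300) (B (M (nat_lit 299) (B (L (nat_lit 267) ln12_12_7 ln12_12_7_ok) (L (nat_lit 331) ln12_13_7 ln12_13_7_ok))) (M (nat_lit 301) (B (L (nat_lit 269) ln12_12_6 ln12_12_6_ok) (L (nat_lit 333) ln12_13_6 ln12_13_6_ok))))))) (M (nat_lit 332) (B (M (nat_lit 300) (B (L (nat_lit 397) ln12_9_4 ln12_9_4_ok) (M (nat_lit 301) (B (L (nat_lit 269) ln12_12_6 ln12_12_6_ok) (L (nat_lit 333) ln12_13_6 ln12_13_6_ok))))) (B (M (nat_lit 300) (B (L (nat_lit 397) ln12_9_4 ln12_9_4_ok) (M (nat_lit 299) (B (L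 (nat_lit 267) ln12_12_7 ln12_12_7_ok) (L (nat_lit 331) ln12_13_7 ln12_13_7_ok))))) (B (M (nat_lit 333) (B (L (nat_lit 301) ln12_13_6 ln12_13_6_ok) (M (nat_lit 365) (B (M (nat_lit 331) (B (L (nat_lit 299) ln12_13_7 ln12_13_7_ok) (M (nat_lit 366) (B (L (nat_lit 330) ln10_10_0 ln10_10_0_ok) (L (nat_lit 367) ln15_11_3 ln15_11_3_ok))))) (M (nat_lit 334) (B (M (nat_lit 397) (B (L (nat_lit 302) ln13_13_6 ln13_13_6_ok) (L (nat_lit 462) ln13_10_4 ln13_10_4_ok))) (M (nat_lit 335) (B (L (nat_lit 363) ln15_10_1 ln15_10_1_ok) (L (nat_lit 336) ln16_10_1 ln16_10_1_ok))))))))) (M (nat_lit 300) (B (M (nat_lit 299) (B (L (nat_lit 267) ln12_12_7 ln12_12_7_ok) (L (nat_lit 331) ln12_13_7 ln12_13_7_ok))) (M (nat_lit 301) (B (L (nat_lit 269) ln12_12_6 ln12_12_6_ok) (L (nat_lit 333) ln12_13_6 ln12_13_6_ok))))))))))))))))))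
noncomputable def c32_n3217 : Cert := (M (nat_lit 398) (B (M (nat_lit 399) (B (L (nat_lit 400) ln16_12_1 ln16_12_1_ok) (M (nat_lit 431) (B (L (nat_lit 432) ln12_12_0 ln12_12_0_ok) (M (nat_lit 395) (B (L (nat_lit 430) ln11_12_0 ln11_12_0_ok) (M (nat_lit 367) (B (L (nat_lit 366) ln11_12_2 ln11_12_2_ok) (L (nat_lit 368) ln12_12_2 ln12_12_2_ok))))))))) (B (M (nat_lit 460) (B (M (nat_lit 365) (B (L (nat_lit 333) ln13_10_5 ln13_10_5_ok) (L (nat_lit 492) ln12_15_6 ln12_15_6_ok))) (M (nat_lit 431) (B (M (nat_lit 399) (B (L (nat_lit 432) ln12_12_0 ln12_12_0_ok) (L (nat_lit 400) ln16_12_1 ln16_12_1_ok))) (M (nat_lit 430) (B (L (nat_lit 395) ln11_12_0 ln11_12_0_ok) (L (nat_lit 459) ln15_13_1 ln15_13_1_ok))))))) (B (M (nat_lit 460) (B (M (nat_lit 365) (B (L (nat_lit 333) ln13_10_5 ln13_10_5_ok) (L (nat_lit 492) ln12_15_6 ln12_15_6_ok))) (B (M (nat_lit 492) (B (L (nat_lit 365) ln12_15_6 ln12_15_6_ok) (L (nat_lit 524)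 ln12_16_6 ln12_16_6_ok))) (B (M (nat_lit 431) (B (M (nat_lit 399) (B (L (nat_lit 432) ln12_12_0 ln12_12_0_ok) (L (nat_lit 400) ln16_12_1 ln16_12_1_ok))) (B (M (nat_lit 430) (B (L (nat_lit 432) ln16_13_3 ln16_13_3_ok) (L (nat_lit 459) ln15_13_1 ln15_13_1_ok))) (M (nat_lit 491) (B (M (nat_lit 459) (B (L (nat_lit 364) ln12_11_5 ln12_11_5_ok) (L (nat_lit 430) ln15_13_1 ln15_13_1_ok))) (M (nat_lit 492) (B (L (nat_lit 523) ln12_12_5 ln12_12_5_ok) (L (nat_lit 524) ln12_16_6 ln12_16_6_ok)))))))) (M (nat_lit 364) (B (M (nat_lit 333) (B (L (nat_lit 365) ln12_14_6 ln12_14_6_ok) (M (nat_lit 332) (B (L (nat_lit 300) ln12_9_4 ln12_9_4_ok) (L (nat_lit 301) ln12_13_6 ln12_13_6_ok))))) (M (nat_lit 431) (B (M (nat_lit 399) (B (L (nat_lit 432) ln12_12_0 ln12_12_0_ok) (L (nat_lit 400) ln16_12_1 ln16_12_1_ok))) (B (M (nat_lit 430) (B (L (nat_lit 432) ln16_13_3 ln16_13_3_ok) (L (nat_lit 459) ln15_13_1 ln15_13_1_ok))) (M (nat_lit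 459) (B (L (nat_lit 491) ln12_11_5 ln12_11_5_ok) (L (nat_lit 430) ln15_13_1 ln15_13_1_ok)))))))))))) (B (M (nat_lit 430) (B (M (nat_lit 395) (B (L (nat_lit 394) ln10_12_0 ln10_12_0_ok) (L (nat_lit 431) ln11_12_0 ln11_12_0_ok))) (B (M (nat_lit 431) (B (L (nat_lit 395) ln11_12_0 ln11_12_0_ok) (L (nat_lit 432) ln16_13_3 ln16_13_3_ok))) (B (M (nat_lit 460) (B (M (nat_lit 365) (B (L (nat_lit 333) ln13_10_5 ln13_10_5_ok) (L (nat_lit 492) ln12_15_6 ln12_15_6_ok))) (M (nat_lit 431) (B (L (nat_lit 432) ln16_13_3 ln16_13_3_ok) (L (nat_lit 459) ln15_13_1 ln15_13_1_ok))))) (M (nat_lit 366) (B (M (nat_lit 395) (B (L (nat_lit 367) ln11_12_2 ln11_12_2_ok) (L (nat_lit 394) ln10_12_0 ln10_12_0_ok))) (M (nat_lit 333) (B (M (nat_lit 334) (B (L (nat_lit 301) ln14_13_7 ln14_13_7_ok) (L (nat_lit 302) ln14_9_5 ln14_9_5_ok))) (M (nat_lit 365) (B (L (nat_lit 462) ln14_14_7 ln14_14_7_ok) (L (nat_lit 460) ln13_10_5 ln13_10_5_ok)))))))))))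 (B (M (nat_lit 399) (B (L (nat_lit 400) ln16_12_1 ln16_12_1_ok) (M (nat_lit 431) (B (L (nat_lit 432) ln12_12_0 ln12_12_0_ok) (M (nat_lit 367) (B (L (nat_lit 368) ln12_12_2 ln12_12_2_ok) (M (nat_lit 366) (B (L (nat_lit 395) ln11_12_2 ln11_12_2_ok) (M (nat_lit 334) (B (L (nat_lit 302) ln14_9_5 ln14_9_5_ok) (L (nat_lit 463) ln15_14_7 ln15_14_7_ok))))))))))) (M (nat_lit 399) (B (L (nat_lit 400) ln16_12_1 ln16_12_1_ok) (M (nat_lit 395) (B (M (nat_lit 367) (B (L (nat_lit 366) ln11_12_2 ln11_12_2_ok) (L (nat_lit 368) ln12_12_2 ln12_12_2_ok))) (M (nat_lit 394) (B (L (nat_lit 393) ln9_12_0 ln9_12_0_ok) (L (nat_lit 430) ln10_12_0 ln10_12_0_ok)))))))))))))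
noncomputable def c32_n3344 : Cert := (M (nat_lit 430) (B (M (nat_lit 395) (B (L (nat_lit 394) ln10_12_0 ln10_12_0_ok) (L (nat_lit 431) ln15_13_3 ln15_13_3_ok))) (B (M (nat_lit 431) (B (L (nat_lit 395) ln15_13_3 ln15_13_3_ok) (L (nat_lit 432) ln16_13_3 ln16_13_3_ok))) (B (M (nat_lit 431) (B (L (nat_lit 432) ln16_13_3 ln16_13_3_ok) (M (nat_lit 398) (B (M (nat_lit 399) (B (L (nat_lit 400) ln16_12_1 ln16_12_1_ok) (M (nat_lit 463) (B (L (nat_lit 464) ln12_13_0 ln12_13_0_ok) (M (nat_lit 366) (B (L (nat_lit 334) ln14_10_4 ln14_10_4_ok) (L (nat_lit 495) ln15_15_7 ln15_15_7_ok))))))) (B (M (nat_lit 399) (B (L (nat_lit 400) ln16_12_1 ln16_12_1_ok) (M (nat_lit 463) (B (L (nat_lit 464) ln12_13_0 ln12_13_0_ok) (M (nat_lit 495) (B (L (nat_lit 366) ln15_15_7 ln15_15_7_ok) (L (nat_lit 527) ln15_16_7 ln15_16_7_ok))))))) (B (M (nat_lit 399) (B (L (nat_lit 400) ln16_12_1 ln16_12_1_ok) (M (nat_lit 367) (B (L (nat_lit 368)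 ln12_12_2 ln12_12_2_ok) (M (nat_lit 335) (B (L (nat_lit 303) ln15_9_5 ln15_9_5_ok) (L (nat_lit 462) ln15_10_5 ln15_10_5_ok))))))) (M (nat_lit 463) (B (L (nat_lit 464) ln12_13_0 ln12_13_0_ok) (M (nat_lit 366) (B (L (nat_lit 334) ln14_10_4 ln14_10_4_ok) (M (nat_lit 495) (B (L (nat_lit 462) ln14_11_4 ln14_11_4_ok) (L (nat_lit 527) ln15_16_7 ln15_16_7_ok))))))))))))) (M (nat_lit 398) (B (M (nat_lit 395) (B (L (nat_lit 394) ln10_12_0 ln10_12_0_ok) (M (nat_lit 399) (B (L (nat_lit 400) ln16_12_1 ln16_12_1_ok) (M (nat_lit 363) (B (L (nat_lit 362) ln14_12_3 ln14_12_3_ok) (L (nat_lit 364) ln15_12_3 ln15_12_3_ok))))))) (B (M (nat_lit 395) (B (L (nat_lit 394) ln10_12_0 ln10_12_0_ok) (M (nat_lit 399) (B (L (nat_lit 400) ln16_12_1 ln16_12_1_ok) (M (nat_lit 367) (B (L (nat_lit 366) ln11_12_2 ln11_12_2_ok) (L (nat_lit 368) ln12_12_2 ln12_12_2_ok))))))) (B (M (nat_lit 462) (B (M (nat_lit 365) (B (L (nat_lit 333) ln13_10_4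 ln13_10_4_ok) (L (nat_lit 494) ln14_15_7 ln14_15_7_ok))) (B (M (nat_lit 399) (B (L (nat_lit 400) ln16_12_1 ln16_12_1_ok) (M (nat_lit 367) (B (L (nat_lit 368) ln12_12_2 ln12_12_2_ok) (L (nat_lit 494) ln14_15_6 ln14_15_6_ok))))) (M (nat_lit 367) (B (M (nat_lit 366) (B (L (nat_lit 335) ln14_14_6 ln14_14_6_ok) (L (nat_lit 395) ln11_12_2 ln11_12_2_ok))) (M (nat_lit 399) (B (L (nat_lit 368) ln12_12_2 ln12_12_2_ok) (L (nat_lit 400) ln16_12_1 ln16_12_1_ok)))))))) (B (M (nat_lit 399) (B (L (nat_lit 400) ln16_12_1 ln16_12_1_ok) (M (nat_lit 367) (B (L (nat_lit 368) ln12_12_2 ln12_12_2_ok) (M (nat_lit 462) (B (L (nat_lit 494) ln14_15_6 ln14_15_6_ok) (M (nat_lit 335) (B (L (nat_lit 303) ln15_9_5 ln15_9_5_ok) (L (nat_lit 366) ln14_14_6 ln14_14_6_ok))))))))) (M (nat_lit 462) (B (M (nat_lit 365) (B (L (nat_lit 333) ln13_10_4 ln13_10_4_ok) (L (nat_lit 494) ln14_15_7 ln14_15_7_ok))) (B (M (nat_lit 494) (B (L (nat_lit 365)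 ln14_15_7 ln14_15_7_ok) (L (nat_lit 526) ln14_16_7 ln14_16_7_ok))) (B (M (nat_lit 395) (B (L (nat_lit 394) ln10_12_0 ln10_12_0_ok) (M (nat_lit 495) (B (M (nat_lit 366) (B (L (nat_lit 367) ln11_12_2 ln11_12_2_ok) (L (nat_lit 463) ln14_11_4 ln14_11_4_ok))) (M (nat_lit 494) (B (L (nat_lit 526) ln14_16_7 ln14_16_7_ok) (L (nat_lit 527) ln14_12_4 ln14_12_4_ok))))))) (M (nat_lit 333) (B (L (nat_lit 365) ln13_10_4 ln13_10_4_ok) (M (nat_lit 366) (B (M (nat_lit 334) (B (L (nat_lit 301) ln14_13_7 ln14_13_7_ok) (L (nat_lit 302) ln14_9_5 ln14_9_5_ok))) (M (nat_lit 395) (B (L (nat_lit 367) ln11_12_2 ln11_12_2_ok) (L (nat_lit 394) ln10_12_0 ln10_12_0_ok))))))))))))))))))))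
theorem c32_s3345 : Sem (nat_lit 2079502270752001762064242424960807725827516048677469043429686155012882190638009693656033379242457518153052022685796627120027336704) (nat_lit 741398147466726057144143769480762727546426470142742318431876998186988000311507594776082758227410883215883476353411292282918130717745788761875989043162352975872) (nat_lit 741398147466726057144143769480762727546426470142742318431876998186988000311507594776082758227410883215883476353411292282918130717745788761875989043162352975872) :=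
  sem_of_chk (M (nat_lit 397) (B (M (nat_lit 430) (B (M (nat_lit 395) (B (L (nat_lit 394) ln10_12_0 ln10_12_0_ok) (L (nat_lit 431) ln15_13_3 ln15_13_3_ok))) (B (M (nat_lit 431) (B (L (nat_lit 395) ln15_13_3 ln15_13_3_ok) (L (nat_lit 432) ln16_13_3 ln16_13_3_ok))) (B (M (nat_lit 431) (B (L (nat_lit 432) ln16_13_3 ln16_13_3_ok) (M (nat_lit 460) (B (L (nat_lit 459) ln15_13_1 ln15_13_1_ok) (M (nat_lit 492) (B (L (nat_lit 365) ln12_15_6 ln12_15_6_ok) (L (nat_lit 524) ln12_16_6 ln12_16_6_ok))))))) (M (nat_lit 398) (B (M (nat_lit 395) (B (L (nat_lit 394) ln10_12_0 ln10_12_0_ok) (M (nat_lit 399) (B (L (nat_lit 400) ln16_12_1 ln16_12_1_ok) (M (nat_lit 367) (B (L (nat_lit 366) ln11_12_2 ln11_12_2_ok) (L (nat_lit 368) ln12_12_2 ln12_12_2_ok))))))) (B (M (nat_lit 364) (B (M (nat_lit 399) (B (L (nat_lit 363) ln15_12_3 ln15_12_3_ok) (L (nat_lit 400) ln16_12_1 ln16_12_1_ok))) (M (nat_lit 333) (B (M (nat_lit 332) (B (L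 (nat_lit 300) ln12_9_4 ln12_9_4_ok) (L (nat_lit 301) ln12_13_6 ln12_13_6_ok))) (B (M (nat_lit 301) (B (L (nat_lit 332) ln12_13_6 ln12_13_6_ok) (L (nat_lit 365) ln13_9_5 ln13_9_5_ok))) (M (nat_lit 365) (B (L (nat_lit 460) ln12_14_6 ln12_14_6_ok) (L (nat_lit 462) ln13_10_4 ln13_10_4_ok)))))))) (M (nat_lit 366) (B (M (nat_lit 395) (B (L (nat_lit 367) ln11_12_2 ln11_12_2_ok) (L (nat_lit 394) ln10_12_0 ln10_12_0_ok))) (M (nat_lit 333) (B (M (nat_lit 334) (B (L (nat_lit 301) ln14_13_7 ln14_13_7_ok) (L (nat_lit 302) ln14_9_5 ln14_9_5_ok))) (M (nat_lit 365) (B (L (nat_lit 462) ln14_14_7 ln14_14_7_ok) (L (nat_lit 460) ln13_10_5 ln13_10_5_ok)))))))))))))) (B (M (nat_lit 460) (B (M (nat_lit 365) (B (L (nat_lit 333) ln13_10_5 ln13_10_5_ok) (L (nat_lit 492) ln12_15_6 ln12_15_6_ok))) (B (M (nat_lit 492) (B (L (nat_lit 365) ln12_15_6 ln12_15_6_ok) (L (nat_lit 524) ln12_16_6 ln12_16_6_ok))) (B (M (nat_lit 395) (B (M (nat_lit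 492) (B (L (nat_lit 363) ln12_15_7 ln12_15_7_ok) (L (nat_lit 524) ln12_16_6 ln12_16_6_ok))) (M (nat_lit 430) (B (L (nat_lit 394) ln10_12_0 ln10_12_0_ok) (L (nat_lit 431) ln15_13_3 ln15_13_3_ok))))) (M (nat_lit 398) (B (M (nat_lit 431) (B (M (nat_lit 399) (B (L (nat_lit 432) ln12_12_0 ln12_12_0_ok) (L (nat_lit 400) ln16_12_1 ln16_12_1_ok))) (M (nat_lit 430) (B (L (nat_lit 395) ln11_12_0 ln11_12_0_ok) (L (nat_lit 459) ln15_13_1 ln15_13_1_ok))))) (B (M (nat_lit 399) (B (L (nat_lit 400) ln16_12_1 ln16_12_1_ok) (M (nat_lit 459) (B (M (nat_lit 364) (B (L (nat_lit 363) ln15_12_3 ln15_12_3_ok) (L (nat_lit 491) ln12_11_5 ln12_11_5_ok))) (M (nat_lit 431) (B (L (nat_lit 432) ln12_12_0 ln12_12_0_ok) (L (nat_lit 430) ln15_13_1 ln15_13_1_ok))))))) (B (M (nat_lit 395) (B (M (nat_lit 430) (B (L (nat_lit 394) ln10_12_0 ln10_12_0_ok) (L (nat_lit 431) ln11_12_0 ln11_12_0_ok))) (M (nat_lit 363) (B (L (nat_lit 362) ln14_12_3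 ln14_12_3_ok) (M (nat_lit 331) (B (L (nat_lit 299) ln11_9_4 ln11_9_4_ok) (L (nat_lit 364) ln12_14_7 ln12_14_7_ok))))))) (M (nat_lit 399) (B (L (nat_lit 400) ln16_12_1 ln16_12_1_ok) (M (nat_lit 395) (B (M (nat_lit 363) (B (L (nat_lit 362) ln14_12_3 ln14_12_3_ok) (L (nat_lit 364) ln15_12_3 ln15_12_3_ok))) (M (nat_lit 367) (B (L (nat_lit 366) ln11_12_2 ln11_12_2_ok) (L (nat_lit 368) ln12_12_2 ln12_12_2_ok))))))))))))))) (B (M (nat_lit 460) (B (M (nat_lit 492) (B (L (nat_lit 365) ln12_15_6 ln12_15_6_ok) (L (nat_lit 524) ln12_16_6 ln12_16_6_ok))) (B (M (nat_lit 395) (B (M (nat_lit 492) (B (L (nat_lit 363) ln12_15_7 ln12_15_7_ok) (L (nat_lit 524) ln12_16_6 ln12_16_6_ok))) (M (nat_lit 430) (B (L (nat_lit 394) ln10_12_0 ln10_12_0_ok) (L (nat_lit 431) ln15_13_3 ln15_13_3_ok))))) (M (nat_lit 398) (B (M (nat_lit 431) (B (M (nat_lit 399) (B (L (nat_lit 432) ln12_12_0 ln12_12_0_ok) (L (nat_lit 400) ln16_12_1 ln16_12_1_ok)))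 (M (nat_lit 430) (B (L (nat_lit 395) ln11_12_0 ln11_12_0_ok) (L (nat_lit 459) ln15_13_1 ln15_13_1_ok))))) (B (M (nat_lit 399) (B (L (nat_lit 400) ln16_12_1 ln16_12_1_ok) (M (nat_lit 459) (B (M (nat_lit 364) (B (L (nat_lit 363) ln15_12_3 ln15_12_3_ok) (L (nat_lit 491) ln12_11_5 ln12_11_5_ok))) (M (nat_lit 431) (B (L (nat_lit 432) ln12_12_0 ln12_12_0_ok) (L (nat_lit 430) ln15_13_1 ln15_13_1_ok))))))) (B (M (nat_lit 395) (B (M (nat_lit 430) (B (L (nat_lit 394) ln10_12_0 ln10_12_0_ok) (L (nat_lit 431) ln11_12_0 ln11_12_0_ok))) (M (nat_lit 363) (B (L (nat_lit 362) ln14_12_3 ln14_12_3_ok) (M (nat_lit 331) (B (L (nat_lit 299) ln11_9_4 ln11_9_4_ok) (L (nat_lit 364) ln12_14_7 ln12_14_7_ok))))))) (M (nat_lit 399) (B (L (nat_lit 400) ln16_12_1 ln16_12_1_ok) (M (nat_lit 395) (B (M (nat_lit 363) (B (L (nat_lit 362) ln14_12_3 ln14_12_3_ok) (L (nat_lit 364) ln15_12_3 ln15_12_3_ok))) (M (nat_lit 367) (B (L (nat_lit 366)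 ln11_12_2 ln11_12_2_ok) (L (nat_lit 368) ln12_12_2 ln12_12_2_ok)))))))))))))) (B c32_n3217 (B (M (nat_lit 398) (B (M (nat_lit 399) (B (L (nat_lit 400) ln16_12_1 ln16_12_1_ok) (M (nat_lit 431) (B (L (nat_lit 432) ln12_12_0 ln12_12_0_ok) (M (nat_lit 395) (B (L (nat_lit 430) ln11_12_0 ln11_12_0_ok) (M (nat_lit 367) (B (L (nat_lit 366) ln11_12_2 ln11_12_2_ok) (L (nat_lit 368) ln12_12_2 ln12_12_2_ok))))))))) (B (M (nat_lit 460) (B (M (nat_lit 365) (B (L (nat_lit 333) ln13_10_5 ln13_10_5_ok) (L (nat_lit 492) ln12_15_6 ln12_15_6_ok))) (M (nat_lit 431) (B (M (nat_lit 399) (B (L (nat_lit 432) ln12_12_0 ln12_12_0_ok) (L (nat_lit 400) ln16_12_1 ln16_12_1_ok))) (M (nat_lit 430) (B (L (nat_lit 395) ln11_12_0 ln11_12_0_ok) (L (nat_lit 459) ln15_13_1 ln15_13_1_ok))))))) (B (M (nat_lit 399) (B (L (nat_lit 400) ln16_12_1 ln16_12_1_ok) (M (nat_lit 431) (B (L (nat_lit 432) ln12_12_0 ln12_12_0_ok) (M (nat_lit 430) (B (M (nat_lit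 367) (B (L (nat_lit 368) ln12_12_2 ln12_12_2_ok) (M (nat_lit 462) (B (L (nat_lit 335) ln15_10_5 ln15_10_5_ok) (L (nat_lit 494) ln14_15_6 ln14_15_6_ok))))) (M (nat_lit 460) (B (L (nat_lit 459) ln15_13_1 ln15_13_1_ok) (M (nat_lit 365) (B (L (nat_lit 333) ln13_10_5 ln13_10_5_ok) (L (nat_lit 492) ln12_15_6 ln12_15_6_ok))))))))))) (B (M (nat_lit 430) (B (M (nat_lit 395) (B (L (nat_lit 394) ln10_12_0 ln10_12_0_ok) (L (nat_lit 431) ln11_12_0 ln11_12_0_ok))) (B (M (nat_lit 431) (B (L (nat_lit 395) ln11_12_0 ln11_12_0_ok) (L (nat_lit 432) ln16_13_3 ln16_13_3_ok))) (B (M (nat_lit 460) (B (M (nat_lit 365) (B (L (nat_lit 333) ln13_10_5 ln13_10_5_ok) (L (nat_lit 492) ln12_15_6 ln12_15_6_ok))) (M (nat_lit 431) (B (L (nat_lit 432) ln16_13_3 ln16_13_3_ok) (L (nat_lit 459) ln15_13_1 ln15_13_1_ok))))) (M (nat_lit 366) (B (M (nat_lit 395) (B (L (nat_lit 367) ln11_12_2 ln11_12_2_ok) (L (nat_lit 394) ln10_12_0 ln10_12_0_ok)))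 (M (nat_lit 333) (B (M (nat_lit 334) (B (L (nat_lit 301) ln14_13_7 ln14_13_7_ok) (L (nat_lit 302) ln14_9_5 ln14_9_5_ok))) (M (nat_lit 365) (B (L (nat_lit 462) ln14_14_7 ln14_14_7_ok) (L (nat_lit 460) ln13_10_5 ln13_10_5_ok))))))))))) (B (M (nat_lit 399) (B (L (nat_lit 400) ln16_12_1 ln16_12_1_ok) (M (nat_lit 431) (B (L (nat_lit 432) ln12_12_0 ln12_12_0_ok) (M (nat_lit 367) (B (L (nat_lit 368) ln12_12_2 ln12_12_2_ok) (M (nat_lit 366) (B (L (nat_lit 395) ln11_12_2 ln11_12_2_ok) (M (nat_lit 334) (B (L (nat_lit 302) ln14_9_5 ln14_9_5_ok) (L (nat_lit 463) ln15_14_7 ln15_14_7_ok))))))))))) (M (nat_lit 399) (B (L (nat_lit 400) ln16_12_1 ln16_12_1_ok) (M (nat_lit 395) (B (M (nat_lit 367) (B (L (nat_lit 366) ln11_12_2 ln11_12_2_ok) (L (nat_lit 368) ln12_12_2 ln12_12_2_ok))) (M (nat_lit 394) (B (L (nat_lit 393) ln9_12_0 ln9_12_0_ok) (L (nat_lit 430) ln10_12_0 ln10_12_0_ok))))))))))))) (B (M (nat_lit 395) (B (M (nat_lit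 394) (B (L (nat_lit 393) ln9_12_0 ln9_12_0_ok) (L (nat_lit 430) ln10_12_0 ln10_12_0_ok))) (B (M (nat_lit 430) (B (L (nat_lit 394) ln10_12_0 ln10_12_0_ok) (L (nat_lit 431) ln15_13_3 ln15_13_3_ok))) (B (M (nat_lit 431) (B (L (nat_lit 430) ln15_13_3 ln15_13_3_ok) (M (nat_lit 363) (B (M (nat_lit 398) (B (L (nat_lit 362) ln14_12_3 ln14_12_3_ok) (M (nat_lit 399) (B (L (nat_lit 432) ln12_12_0 ln12_12_0_ok) (L (nat_lit 400) ln16_12_1 ln16_12_1_ok))))) (M (nat_lit 460) (B (L (nat_lit 492) ln12_15_7 ln12_15_7_ok) (M (nat_lit 331) (B (L (nat_lit 299) ln11_9_4 ln11_9_4_ok) (L (nat_lit 364) ln12_14_7 ln12_14_7_ok))))))))) (M (nat_lit 398) (B (M (nat_lit 399) (B (L (nat_lit 400) ln16_12_1 ln16_12_1_ok) (M (nat_lit 363) (B (L (nat_lit 362) ln14_12_3 ln14_12_3_ok) (L (nat_lit 364) ln15_12_3 ln15_12_3_ok))))) (B (M (nat_lit 399) (B (L (nat_lit 400) ln16_12_1 ln16_12_1_ok) (M (nat_lit 367) (B (L (nat_lit 366) ln11_12_2 ln11_12_2_ok)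 (L (nat_lit 368) ln12_12_2 ln12_12_2_ok))))) (M (nat_lit 394) (B (L (nat_lit 393) ln9_12_0 ln9_12_0_ok) (M (nat_lit 362) (B (L (nat_lit 361) ln13_12_3 ln13_12_3_ok) (L (nat_lit 363) ln14_12_3 ln14_12_3_ok)))))))))))) (B (M (nat_lit 460) (B (M (nat_lit 365) (B (L (nat_lit 333) ln13_10_5 ln13_10_5_ok) (L (nat_lit 492) ln12_15_6 ln12_15_6_ok))) (B (M (nat_lit 492) (B (L (nat_lit 365) ln12_15_6 ln12_15_6_ok) (L (nat_lit 524) ln12_16_6 ln12_16_6_ok))) (B (M (nat_lit 395) (B (M (nat_lit 492) (B (L (nat_lit 363) ln12_15_7 ln12_15_7_ok) (L (nat_lit 524) ln12_16_6 ln12_16_6_ok))) (M (nat_lit 430) (B (L (nat_lit 394) ln10_12_0 ln10_12_0_ok) (L (nat_lit 431) ln15_13_3 ln15_13_3_ok))))) (M (nat_lit 398) (B (M (nat_lit 431) (B (M (nat_lit 399) (B (L (nat_lit 432) ln12_12_0 ln12_12_0_ok) (L (nat_lit 400) ln16_12_1 ln16_12_1_ok))) (M (nat_lit 430) (B (L (nat_lit 395) ln11_12_0 ln11_12_0_ok) (L (nat_lit 459) ln15_13_1 ln15_13_1_ok)))))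 (M (nat_lit 364) (B (M (nat_lit 365) (B (L (nat_lit 333) ln12_14_6 ln12_14_6_ok) (M (nat_lit 363) (B (L (nat_lit 331) ln12_14_7 ln12_14_7_ok) (L (nat_lit 362) ln10_11_0 ln10_11_0_ok))))) (B (M (nat_lit 333) (B (L (nat_lit 365) ln12_14_6 ln12_14_6_ok) (M (nat_lit 332) (B (L (nat_lit 300) ln12_9_4 ln12_9_4_ok) (L (nat_lit 301) ln12_13_6 ln12_13_6_ok))))) (M (nat_lit 332) (B (L (nat_lit 300) ln12_9_4 ln12_9_4_ok) (M (nat_lit 331) (B (L (nat_lit 299) ln12_13_7 ln12_13_7_ok) (L (nat_lit 363) ln12_14_7 ln12_14_7_ok)))))))))))))) (B (M (nat_lit 460) (B (M (nat_lit 365) (B (L (nat_lit 333) ln13_10_5 ln13_10_5_ok) (L (nat_lit 492) ln12_15_6 ln12_15_6_ok))) (B (M (nat_lit 492) (B (L (nat_lit 365) ln12_15_6 ln12_15_6_ok) (L (nat_lit 524) ln12_16_6 ln12_16_6_ok))) (B (M (nat_lit 492) (B (L (nat_lit 524) ln12_16_6 ln12_16_6_ok) (M (nat_lit 364) (B (M (nat_lit 363) (B (L (nat_lit 331) ln12_14_7 ln12_14_7_ok) (L (nat_lit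 395) ln12_15_7 ln12_15_7_ok))) (M (nat_lit 491) (B (L (nat_lit 459) ln12_11_5 ln12_11_5_ok) (L (nat_lit 523) ln12_12_5 ln12_12_5_ok))))))) (M (nat_lit 398) (B (M (nat_lit 431) (B (M (nat_lit 399) (B (L (nat_lit 432) ln12_12_0 ln12_12_0_ok) (L (nat_lit 400) ln16_12_1 ln16_12_1_ok))) (M (nat_lit 430) (B (L (nat_lit 395) ln11_12_0 ln11_12_0_ok) (L (nat_lit 459) ln15_13_1 ln15_13_1_ok))))) (M (nat_lit 364) (B (M (nat_lit 365) (B (L (nat_lit 333) ln12_14_6 ln12_14_6_ok) (M (nat_lit 363) (B (L (nat_lit 331) ln12_14_7 ln12_14_7_ok) (L (nat_lit 362) ln10_11_0 ln10_11_0_ok))))) (B (M (nat_lit 333) (B (L (nat_lit 365) ln12_14_6 ln12_14_6_ok) (M (nat_lit 332) (B (L (nat_lit 300) ln12_9_4 ln12_9_4_ok) (L (nat_lit 301) ln12_13_6 ln12_13_6_ok))))) (M (nat_lit 332) (B (L (nat_lit 300) ln12_9_4 ln12_9_4_ok) (M (nat_lit 331) (B (L (nat_lit 299) ln12_13_7 ln12_13_7_ok) (L (nat_lit 363) ln12_14_7 ln12_14_7_ok))))))))))))))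 (B (M (nat_lit 460) (B (M (nat_lit 365) (B (L (nat_lit 333) ln13_10_5 ln13_10_5_ok) (L (nat_lit 492) ln12_15_6 ln12_15_6_ok))) (B (M (nat_lit 492) (B (L (nat_lit 365) ln12_15_6 ln12_15_6_ok) (L (nat_lit 524) ln12_16_6 ln12_16_6_ok))) (B (M (nat_lit 364) (B (M (nat_lit 332) (B (L (nat_lit 300) ln12_9_4 ln12_9_4_ok) (M (nat_lit 331) (B (L (nat_lit 299) ln12_13_7 ln12_13_7_ok) (L (nat_lit 363) ln12_14_7 ln12_14_7_ok))))) (M (nat_lit 492) (B (L (nat_lit 524) ln12_16_6 ln12_16_6_ok) (M (nat_lit 491) (B (L (nat_lit 459) ln12_11_5 ln12_11_5_ok) (L (nat_lit 523) ln12_12_5 ln12_12_5_ok))))))) (M (nat_lit 364) (B (M (nat_lit 333) (B (L (nat_lit 365) ln12_14_6 ln12_14_6_ok) (M (nat_lit 332) (B (L (nat_lit 300) ln12_9_4 ln12_9_4_ok) (L (nat_lit 301) ln12_13_6 ln12_13_6_ok))))) (B (M (nat_lit 332) (B (M (nat_lit 331) (B (L (nat_lit 299) ln12_13_7 ln12_13_7_ok) (L (nat_lit 363) ln12_14_7 ln12_14_7_ok))) (M (nat_lit 333)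 (B (L (nat_lit 301) ln12_13_6 ln12_13_6_ok) (L (nat_lit 365) ln12_14_6 ln12_14_6_ok))))) (B (M (nat_lit 332) (B (L (nat_lit 300) ln12_9_4 ln12_9_4_ok) (M (nat_lit 331) (B (L (nat_lit 299) ln12_13_7 ln12_13_7_ok) (L (nat_lit 363) ln12_14_7 ln12_14_7_ok))))) (M (nat_lit 365) (B (L (nat_lit 333) ln12_14_6 ln12_14_6_ok) (M (nat_lit 363) (B (L (nat_lit 331) ln12_14_7 ln12_14_7_ok) (M (nat_lit 362) (B (L (nat_lit 361) ln9_11_0 ln9_11_0_ok) (L (nat_lit 398) ln10_11_0 ln10_11_0_ok))))))))))))))) (B (M (nat_lit 460) (B (M (nat_lit 365) (B (L (nat_lit 333) ln13_10_5 ln13_10_5_ok) (L (nat_lit 492) ln12_15_6 ln12_15_6_ok))) (B (M (nat_lit 492) (B (L (nat_lit 365) ln12_15_6 ln12_15_6_ok) (L (nat_lit 524) ln12_16_6 ln12_16_6_ok))) (B (M (nat_lit 395) (B (M (nat_lit 492) (B (L (nat_lit 363) ln12_15_7 ln12_15_7_ok) (L (nat_lit 524) ln12_16_6 ln12_16_6_ok))) (M (nat_lit 394) (B (L (nat_lit 393) ln9_12_0 ln9_12_0_ok) (L (nat_lit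 430) ln10_12_0 ln10_12_0_ok))))) (M (nat_lit 364) (B (M (nat_lit 332) (B (L (nat_lit 300) ln12_9_4 ln12_9_4_ok) (M (nat_lit 331) (B (L (nat_lit 299) ln12_13_7 ln12_13_7_ok) (L (nat_lit 363) ln12_14_7 ln12_14_7_ok))))) (B (M (nat_lit 333) (B (L (nat_lit 365) ln12_14_6 ln12_14_6_ok) (M (nat_lit 332) (B (L (nat_lit 300) ln12_9_4 ln12_9_4_ok) (L (nat_lit 301) ln12_13_6 ln12_13_6_ok))))) (B (M (nat_lit 332) (B (M (nat_lit 331) (B (L (nat_lit 299) ln12_13_7 ln12_13_7_ok) (L (nat_lit 363) ln12_14_7 ln12_14_7_ok))) (M (nat_lit 333) (B (L (nat_lit 301) ln12_13_6 ln12_13_6_ok) (L (nat_lit 365) ln12_14_6 ln12_14_6_ok))))) (M (nat_lit 365) (B (L (nat_lit 333) ln12_14_6 ln12_14_6_ok) (M (nat_lit 363) (B (L (nat_lit 331) ln12_14_7 ln12_14_7_ok) (M (nat_lit 394) (B (M (nat_lit 362) (B (L (nat_lit 361) ln9_11_0 ln9_11_0_ok) (L (nat_lit 393) ln13_11_1 ln13_11_1_ok))) (M (nat_lit 395) (B (L (nat_lit 366) ln14_11_1 ln14_11_1_ok)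 (L (nat_lit 430) ln10_12_0 ln10_12_0_ok))))))))))))))))) c32_n3344))))))))))) (nat_lit 2079502270752001762064242424960807725827516048677469043429686155012882190638009693656033379242457518153052022685796627120027336704) (nat_lit 741398147466726057144143769480762727546426470142742318431876998186988000311507594776082758227410883215883476353411292282918130717745788761875989043162352975872) (nat_lit 741398147466726057144143769480762727546426470142742318431876998186988000311507594776082758227410883215883476353411292282918130717745788761875989043162352975872) (by decide +kernel)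
theorem c32_s3346 : Sem (nat_lit 2079502270590611144683810638107312777577327806531862431377859685460965980854219217279980804578104683573043408221052678871730618368) (nat_lit 2026130649693226624304583733054974027942646878798970556610936938511852051368772802446170579690176984445960221297405309853191938782799777217107466041864426101519797758159021408256) (nat_lit 2026130649693226624304583733054974027942646878798970556610936938511852051368772802446170579690176984445960221297405309853191938782799777217107466041864426101519797758159021408256) :=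
  sem_of_chk (M (nat_lit 396) (B (M (nat_lit 364) (B (M (nat_lit 461) (B (L (nat_lit 332) ln12_10_4 ln12_10_4_ok) (M (nat_lit 493) (B (L (nat_lit 460) ln12_11_4 ln12_11_4_ok) (L (nat_lit 525) ln13_16_7 ln13_16_7_ok))))) (B (M (nat_lit 461) (B (M (nat_lit 493) (B (L (nat_lit 397) ln13_15_7 ln13_15_7_ok) (L (nat_lit 460) ln12_11_4 ln12_11_4_ok))) (B (M (nat_lit 493) (B (L (nat_lit 460) ln12_11_4 ln12_11_4_ok) (L (nat_lit 525) ln13_16_7 ln13_16_7_ok))) (B (M (nat_lit 493) (B (L (nat_lit 397) ln13_15_7 ln13_15_7_ok) (L (nat_lit 525) ln13_16_7 ln13_16_7_ok))) (M (nat_lit 460) (B (M (nat_lit 459) (B (L (nat_lit 491) ln12_11_5 ln12_11_5_ok) (M (nat_lit 430) (B (L (nat_lit 431) ln15_13_1 ln15_13_1_ok) (L (nat_lit 458) ln10_14_2 ln10_14_2_ok))))) (M (nat_lit 492) (B (M (nat_lit 363) (B (L (nat_lit 331) ln12_14_7 ln12_14_7_ok) (L (nat_lit 395) ln12_15_7 ln12_15_7_ok))) (M (nat_lit 524) (B (L (nat_lit 397) ln12_16_6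 ln12_16_6_ok) (L (nat_lit 556) ln12_17_6 ln12_17_6_ok))))))))))) (B (M (nat_lit 461) (B (L (nat_lit 332) ln12_10_4 ln12_10_4_ok) (M (nat_lit 493) (B (L (nat_lit 397) ln13_15_7 ln13_15_7_ok) (L (nat_lit 525) ln13_16_7 ln13_16_7_ok))))) (M (nat_lit 460) (B (M (nat_lit 365) (B (L (nat_lit 333) ln12_14_6 ln12_14_6_ok) (M (nat_lit 492) (B (L (nat_lit 397) ln12_15_6 ln12_15_6_ok) (M (nat_lit 491) (B (L (nat_lit 459) ln12_11_5 ln12_11_5_ok) (L (nat_lit 523) ln12_12_5 ln12_12_5_ok))))))) (B (M (nat_lit 492) (B (M (nat_lit 363) (B (L (nat_lit 331) ln12_14_7 ln12_14_7_ok) (L (nat_lit 395) ln12_15_7 ln12_15_7_ok))) (M (nat_lit 491) (B (L (nat_lit 459) ln12_11_5 ln12_11_5_ok) (L (nat_lit 523) ln12_12_5 ln12_12_5_ok))))) (B (M (nat_lit 492) (B (M (nat_lit 363) (B (L (nat_lit 331) ln12_14_7 ln12_14_7_ok) (L (nat_lit 395) ln12_15_7 ln12_15_7_ok))) (M (nat_lit 365) (B (L (nat_lit 333) ln12_14_6 ln12_14_6_ok) (L (nat_lit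 397) ln12_15_6 ln12_15_6_ok))))) (M (nat_lit 332) (B (M (nat_lit 331) (B (L (nat_lit 299) ln12_13_7 ln12_13_7_ok) (L (nat_lit 363) ln12_14_7 ln12_14_7_ok))) (M (nat_lit 333) (B (L (nat_lit 301) ln12_13_6 ln12_13_6_ok) (L (nat_lit 365) ln12_14_6 ln12_14_6_ok))))))))))))) (B (M (nat_lit 461) (B (M (nat_lit 364) (B (L (nat_lit 332) ln12_10_4 ln12_10_4_ok) (M (nat_lit 493) (B (L (nat_lit 460) ln12_11_4 ln12_11_4_ok) (L (nat_lit 525) ln13_16_7 ln13_16_7_ok))))) (B (M (nat_lit 493) (B (L (nat_lit 525) ln13_16_7 ln13_16_7_ok) (M (nat_lit 364) (B (L (nat_lit 397) ln13_15_7 ln13_15_7_ok) (L (nat_lit 460) ln12_11_4 ln12_11_4_ok))))) (B (M (nat_lit 493) (B (L (nat_lit 525) ln13_16_7 ln13_16_7_ok) (M (nat_lit 397) (B (M (nat_lit 492) (B (L (nat_lit 524) ln13_12_5 ln13_12_5_ok) (M (nat_lit 365) (B (L (nat_lit 460) ln12_15_6 ln12_15_6_ok) (M (nat_lit 366) (B (L (nat_lit 334) ln13_14_6 ln13_14_6_ok) (L (nat_lit 398) ln13_15_6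 ln13_15_6_ok))))))) (B (M (nat_lit 430) (B (M (nat_lit 431) (B (L (nat_lit 395) ln15_13_3 ln15_13_3_ok) (L (nat_lit 432) ln16_13_3 ln16_13_3_ok))) (M (nat_lit 365) (B (M (nat_lit 333) (B (L (nat_lit 460) ln13_10_5 ln13_10_5_ok) (L (nat_lit 462) ln13_10_4 ln13_10_4_ok))) (B (M (nat_lit 492) (B (L (nat_lit 460) ln12_15_6 ln12_15_6_ok) (L (nat_lit 524) ln13_12_5 ln13_12_5_ok))) (M (nat_lit 462) (B (L (nat_lit 333) ln13_10_4 ln13_10_4_ok) (L (nat_lit 494) ln13_11_4 ln13_11_4_ok)))))))) (B (M (nat_lit 395) (B (M (nat_lit 394) (B (L (nat_lit 393) ln9_12_0 ln9_12_0_ok) (L (nat_lit 430) ln10_12_0 ln10_12_0_ok))) (M (nat_lit 363) (B (M (nat_lit 398) (B (L (nat_lit 362) ln14_12_3 ln14_12_3_ok) (L (nat_lit 366) ln13_15_6 ln13_15_6_ok))) (M (nat_lit 492) (B (L (nat_lit 460) ln12_15_7 ln12_15_7_ok) (L (nat_lit 524) ln13_12_5 ln13_12_5_ok))))))) (M (nat_lit 430) (B (M (nat_lit 431) (B (L (nat_lit 395) ln15_13_3 ln15_13_3_ok)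 (L (nat_lit 432) ln16_13_3 ln16_13_3_ok))) (M (nat_lit 365) (B (M (nat_lit 366) (B (L (nat_lit 334) ln13_14_6 ln13_14_6_ok) (L (nat_lit 398) ln13_15_6 ln13_15_6_ok))) (M (nat_lit 462) (B (L (nat_lit 333) ln13_10_4 ln13_10_4_ok) (L (nat_lit 494) ln13_11_4 ln13_11_4_ok))))))))))))) (B (M (nat_lit 493) (B (L (nat_lit 525) ln13_16_7 ln13_16_7_ok) (M (nat_lit 364) (B (L (nat_lit 332) ln12_10_4 ln12_10_4_ok) (L (nat_lit 397) ln13_15_7 ln13_15_7_ok))))) (M (nat_lit 364) (B (L (nat_lit 332) ln12_10_4 ln12_10_4_ok) (M (nat_lit 460) (B (M (nat_lit 459) (B (L (nat_lit 491) ln12_11_5 ln12_11_5_ok) (M (nat_lit 430) (B (L (nat_lit 431) ln15_13_1 ln15_13_1_ok) (L (nat_lit 458) ln10_14_2 ln10_14_2_ok))))) (M (nat_lit 492) (B (M (nat_lit 363) (B (L (nat_lit 331) ln12_14_7 ln12_14_7_ok) (L (nat_lit 395) ln12_15_7 ln12_15_7_ok))) (M (nat_lit 524) (B (L (nat_lit 397) ln12_16_6 ln12_16_6_ok) (L (nat_lit 556) ln12_17_6 ln12_17_6_ok))))))))))))))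 (B c32_n1973 (B (K (nat_lit 2079502270752001762064242424960807725827516048677469043429686155012882190638009693656033379242457518153052022685796627120027336704) (nat_lit 825554280841600030612066890062607081100453483252792933512396816909563251165683182876956127631100238499191427956247724052182192273000869143826636237156360000081097654272) (nat_lit 825554280841600030612066890062607081100453483252792933512396816909563251165683182876956127631100238499191427956247724052182192273000869143826636237156360000081097654272) c32_s2057) (B (M (nat_lit 461) (B (M (nat_lit 493) (B (L (nat_lit 525) ln13_16_7 ln13_16_7_ok) (M (nat_lit 364) (B (L (nat_lit 397) ln13_15_7 ln13_15_7_ok) (L (nat_lit 460) ln12_11_4 ln12_11_4_ok))))) (B (M (nat_lit 493) (B (L (nat_lit 525) ln13_16_7 ln13_16_7_ok) (M (nat_lit 397) (B (M (nat_lit 492) (B (L (nat_lit 524) ln13_12_5 ln13_12_5_ok) (M (nat_lit 365) (B (L (nat_lit 460) ln12_15_6 ln12_15_6_ok)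 (M (nat_lit 366) (B (L (nat_lit 334) ln13_14_6 ln13_14_6_ok) (L (nat_lit 398) ln13_15_6 ln13_15_6_ok))))))) (B (M (nat_lit 365) (B (M (nat_lit 492) (B (L (nat_lit 460) ln12_15_6 ln12_15_6_ok) (L (nat_lit 524) ln13_12_5 ln13_12_5_ok))) (M (nat_lit 494) (B (L (nat_lit 462) ln13_11_4 ln13_11_4_ok) (L (nat_lit 526) ln13_12_4 ln13_12_4_ok))))) (B (M (nat_lit 395) (B (M (nat_lit 394) (B (L (nat_lit 393) ln9_12_0 ln9_12_0_ok) (L (nat_lit 430) ln10_12_0 ln10_12_0_ok))) (M (nat_lit 363) (B (M (nat_lit 398) (B (L (nat_lit 362) ln14_12_3 ln14_12_3_ok) (L (nat_lit 366) ln13_15_6 ln13_15_6_ok))) (M (nat_lit 492) (B (L (nat_lit 460) ln12_15_7 ln12_15_7_ok) (L (nat_lit 524) ln13_12_5 ln13_12_5_ok))))))) (M (nat_lit 365) (B (M (nat_lit 366) (B (L (nat_lit 334) ln13_14_6 ln13_14_6_ok) (L (nat_lit 398) ln13_15_6 ln13_15_6_ok))) (M (nat_lit 494) (B (L (nat_lit 462) ln13_11_4 ln13_11_4_ok) (L (nat_lit 526) ln13_12_4 ln13_12_4_ok)))))))))))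 (B (M (nat_lit 364) (B (L (nat_lit 332) ln12_10_4 ln12_10_4_ok) (M (nat_lit 493) (B (L (nat_lit 460) ln12_11_4 ln12_11_4_ok) (L (nat_lit 525) ln13_16_7 ln13_16_7_ok))))) (B (M (nat_lit 493) (B (L (nat_lit 525) ln13_16_7 ln13_16_7_ok) (M (nat_lit 364) (B (L (nat_lit 332) ln12_10_4 ln12_10_4_ok) (L (nat_lit 397) ln13_15_7 ln13_15_7_ok))))) (M (nat_lit 364) (B (L (nat_lit 332) ln12_10_4 ln12_10_4_ok) (M (nat_lit 460) (B (M (nat_lit 459) (B (L (nat_lit 491) ln12_11_5 ln12_11_5_ok) (M (nat_lit 430) (B (L (nat_lit 431) ln15_13_1 ln15_13_1_ok) (L (nat_lit 458) ln10_14_2 ln10_14_2_ok))))) (M (nat_lit 492) (B (M (nat_lit 363) (B (L (nat_lit 331) ln12_14_7 ln12_14_7_ok) (L (nat_lit 395) ln12_15_7 ln12_15_7_ok))) (M (nat_lit 524) (B (L (nat_lit 397) ln12_16_6 ln12_16_6_ok) (L (nat_lit 556) ln12_17_6 ln12_17_6_ok)))))))))))))) (B (K (nat_lit 2079502270752001762064242424960807725827516048677469043429686155012882190638009693656033379242457518153052022685796627120027336704)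 (nat_lit 825554280841600030612066890062607081100453483252732412030850972478504279062804254542838798111706530625253265877992101556755637590413181435535967370597910821405649272832) (nat_lit 825554280841600030612066890062607081100453483252732412030850972478504279062804254542838798111706530625253265877992101556755637590413181435535967370597910821405649272832) c32_s2190) (B (K (nat_lit 2079502270752001762064242424960807725827516048677469043429686155012882190638009693656033379242457518153052022685796627120027336704) (nat_lit 823775719413866737854813733112325803763427880334612772436587657309149070254025360226683646237119694531523081908474840946901897363860600388763919521124251074560) (nat_lit 823775719413866737854813733112325803763427880334612772436587657309149070254025360226683646237119694531523081908474840946901897363860600388763919521124251074560) c32_s2637) (B (M (nat_lit 364) (B (M (nat_lit 461) (B (L (nat_lit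 332) ln12_10_4 ln12_10_4_ok) (M (nat_lit 493) (B (L (nat_lit 397) ln13_15_7 ln13_15_7_ok) (L (nat_lit 525) ln13_16_7 ln13_16_7_ok))))) (B (M (nat_lit 461) (B (M (nat_lit 493) (B (L (nat_lit 397) ln13_15_7 ln13_15_7_ok) (L (nat_lit 460) ln12_11_4 ln12_11_4_ok))) (B (M (nat_lit 493) (B (L (nat_lit 460) ln12_11_4 ln12_11_4_ok) (L (nat_lit 525) ln13_16_7 ln13_16_7_ok))) (B (M (nat_lit 493) (B (L (nat_lit 397) ln13_15_7 ln13_15_7_ok) (L (nat_lit 525) ln13_16_7 ln13_16_7_ok))) (M (nat_lit 460) (B (M (nat_lit 459) (B (L (nat_lit 491) ln12_11_5 ln12_11_5_ok) (M (nat_lit 430) (B (L (nat_lit 431) ln15_13_1 ln15_13_1_ok) (L (nat_lit 458) ln10_14_2 ln10_14_2_ok))))) (M (nat_lit 492) (B (M (nat_lit 363) (B (L (nat_lit 331) ln12_14_7 ln12_14_7_ok) (L (nat_lit 395) ln12_15_7 ln12_15_7_ok))) (M (nat_lit 524) (B (L (nat_lit 397) ln12_16_6 ln12_16_6_ok) (L (nat_lit 556) ln12_17_6 ln12_17_6_ok))))))))))) (B (M (nat_lit 461)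 (B (L (nat_lit 332) ln12_10_4 ln12_10_4_ok) (M (nat_lit 493) (B (L (nat_lit 460) ln12_11_4 ln12_11_4_ok) (L (nat_lit 525) ln13_16_7 ln13_16_7_ok))))) (B (M (nat_lit 460) (B (M (nat_lit 492) (B (M (nat_lit 363) (B (L (nat_lit 331) ln12_14_7 ln12_14_7_ok) (L (nat_lit 395) ln12_15_7 ln12_15_7_ok))) (M (nat_lit 491) (B (L (nat_lit 459) ln12_11_5 ln12_11_5_ok) (L (nat_lit 523) ln12_12_5 ln12_12_5_ok))))) (B (M (nat_lit 492) (B (M (nat_lit 491) (B (L (nat_lit 459) ln12_11_5 ln12_11_5_ok) (L (nat_lit 523) ln12_12_5 ln12_12_5_ok))) (M (nat_lit 525) (B (L (nat_lit 493) ln12_12_4 ln12_12_4_ok) (M (nat_lit 524) (B (L (nat_lit 397) ln12_16_6 ln12_16_6_ok) (L (nat_lit 557) ln12_13_4 ln12_13_4_ok))))))) (B (M (nat_lit 492) (B (M (nat_lit 363) (B (L (nat_lit 331) ln12_14_7 ln12_14_7_ok) (L (nat_lit 395) ln12_15_7 ln12_15_7_ok))) (M (nat_lit 525) (B (L (nat_lit 493) ln12_12_4 ln12_12_4_ok) (M (nat_lit 524) (B (L (nat_lit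 397) ln12_16_6 ln12_16_6_ok) (L (nat_lit 557) ln12_13_4 ln12_13_4_ok))))))) (M (nat_lit 332) (B (M (nat_lit 331) (B (L (nat_lit 299) ln12_13_7 ln12_13_7_ok) (L (nat_lit 363) ln12_14_7 ln12_14_7_ok))) (M (nat_lit 300) (B (L (nat_lit 397) ln12_9_4 ln12_9_4_ok) (M (nat_lit 301) (B (L (nat_lit 269) ln12_12_6 ln12_12_6_ok) (L (nat_lit 333) ln12_13_6 ln12_13_6_ok))))))))))) (M (nat_lit 332) (B (L (nat_lit 461) ln12_10_4 ln12_10_4_ok) (M (nat_lit 300) (B (L (nat_lit 397) ln12_9_4 ln12_9_4_ok) (M (nat_lit 301) (B (L (nat_lit 269) ln12_12_6 ln12_12_6_ok) (L (nat_lit 333) ln12_13_6 ln12_13_6_ok)))))))))))) (B (M (nat_lit 364) (B (M (nat_lit 461) (B (L (nat_lit 332) ln12_10_4 ln12_10_4_ok) (M (nat_lit 493) (B (L (nat_lit 460) ln12_11_4 ln12_11_4_ok) (L (nat_lit 525) ln13_16_7 ln13_16_7_ok))))) (B (M (nat_lit 460) (B (M (nat_lit 365) (B (L (nat_lit 333) ln12_14_6 ln12_14_6_ok) (M (nat_lit 492) (B (L (nat_lit 397) ln12_15_6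 ln12_15_6_ok) (M (nat_lit 491) (B (L (nat_lit 459) ln12_11_5 ln12_11_5_ok) (L (nat_lit 523) ln12_12_5 ln12_12_5_ok))))))) (B (M (nat_lit 492) (B (M (nat_lit 491) (B (L (nat_lit 459) ln12_11_5 ln12_11_5_ok) (L (nat_lit 523) ln12_12_5 ln12_12_5_ok))) (M (nat_lit 493) (B (L (nat_lit 461) ln12_11_4 ln12_11_4_ok) (L (nat_lit 525) ln12_12_4 ln12_12_4_ok))))) (B (M (nat_lit 492) (B (M (nat_lit 365) (B (L (nat_lit 333) ln12_14_6 ln12_14_6_ok) (L (nat_lit 397) ln12_15_6 ln12_15_6_ok))) (M (nat_lit 493) (B (L (nat_lit 461) ln12_11_4 ln12_11_4_ok) (L (nat_lit 525) ln12_12_4 ln12_12_4_ok))))) (M (nat_lit 461) (B (L (nat_lit 493) ln12_11_4 ln12_11_4_ok) (M (nat_lit 459) (B (L (nat_lit 491) ln12_11_5 ln12_11_5_ok) (M (nat_lit 430) (B (L (nat_lit 431) ln15_13_1 ln15_13_1_ok) (L (nat_lit 458) ln10_14_2 ln10_14_2_ok))))))))))) (B (M (nat_lit 461) (B (L (nat_lit 332) ln12_10_4 ln12_10_4_ok) (M (nat_lit 493) (B (L (nat_lit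 397) ln13_15_7 ln13_15_7_ok) (L (nat_lit 525) ln13_16_7 ln13_16_7_ok))))) (M (nat_lit 460) (B (M (nat_lit 365) (B (L (nat_lit 333) ln12_14_6 ln12_14_6_ok) (M (nat_lit 492) (B (L (nat_lit 397) ln12_15_6 ln12_15_6_ok) (M (nat_lit 491) (B (L (nat_lit 459) ln12_11_5 ln12_11_5_ok) (L (nat_lit 523) ln12_12_5 ln12_12_5_ok))))))) (B (M (nat_lit 492) (B (M (nat_lit 491) (B (L (nat_lit 459) ln12_11_5 ln12_11_5_ok) (L (nat_lit 523) ln12_12_5 ln12_12_5_ok))) (M (nat_lit 397) (B (L (nat_lit 365) ln12_15_6 ln12_15_6_ok) (L (nat_lit 524) ln12_16_6 ln12_16_6_ok))))) (B (M (nat_lit 397) (B (M (nat_lit 332) (B (L (nat_lit 300) ln12_9_4 ln12_9_4_ok) (M (nat_lit 331) (B (L (nat_lit 299) ln12_13_7 ln12_13_7_ok) (L (nat_lit 363) ln12_14_7 ln12_14_7_ok))))) (M (nat_lit 492) (B (L (nat_lit 524) ln12_16_6 ln12_16_6_ok) (M (nat_lit 491) (B (L (nat_lit 459) ln12_11_5 ln12_11_5_ok) (L (nat_lit 523) ln12_12_5 ln12_12_5_ok))))))) (M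 (nat_lit 332) (B (M (nat_lit 331) (B (L (nat_lit 299) ln12_13_7 ln12_13_7_ok) (L (nat_lit 363) ln12_14_7 ln12_14_7_ok))) (M (nat_lit 333) (B (L (nat_lit 301) ln12_13_6 ln12_13_6_ok) (L (nat_lit 365) ln12_14_6 ln12_14_6_ok))))))))))))) (B (K (nat_lit 2079502270752001762064242424960807725827516048677469043429686155012882190638009693656033379242457518153052022685796627120027336704) (nat_lit 2026130649693226623645563157524200304785967387862886407368830964140163796965636236111992585232001113983937107774758876598649877941977308714143214184596750482093688873220067819520) (nat_lit 2026130649693226623645563157524200304785967387862886407368830964140163796965636236111992585232001113983937107774758876598649877941977308714143214184596750482093688873220067819520) c32_s2793) (B (K (nat_lit 2079502270752001762064242424960807725827516048677469043429686155012882190638009693656033379242457518153052022685796627120027336704)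 (nat_lit 825554280841600030613665225272734766468075279996540671743876918169808652017211392593671123488048141901328839385501760685865918522171588149576483032810064906870885187584) (nat_lit 825554280841600030613665225272734766468075279996540671743876918169808652017211392593671123488048141901328839385501760685865918522171588149576483032810064906870885187584) c32_s2870) (B (M (nat_lit 364) (B (M (nat_lit 461) (B (L (nat_lit 332) ln12_10_4 ln12_10_4_ok) (M (nat_lit 493) (B (L (nat_lit 460) ln12_11_4 ln12_11_4_ok) (L (nat_lit 525) ln13_16_7 ln13_16_7_ok))))) (B (M (nat_lit 397) (B (M (nat_lit 365) (B (M (nat_lit 460) (B (L (nat_lit 333) ln12_14_6 ln12_14_6_ok) (L (nat_lit 492) ln12_15_6 ln12_15_6_ok))) (M (nat_lit 366) (B (M (nat_lit 461) (B (L (nat_lit 334) ln13_14_6 ln13_14_6_ok) (L (nat_lit 493) ln13_15_7 ln13_15_7_ok))) (M (nat_lit 367) (B (L (nat_lit 395) ln15_11_1 ln15_11_1_ok) (L (nat_lit 368) ln16_11_1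 ln16_11_1_ok))))))) (B (M (nat_lit 395) (B (M (nat_lit 394) (B (L (nat_lit 393) ln9_12_0 ln9_12_0_ok) (L (nat_lit 430) ln10_12_0 ln10_12_0_ok))) (B (M (nat_lit 430) (B (L (nat_lit 394) ln10_12_0 ln10_12_0_ok) (L (nat_lit 431) ln15_13_3 ln15_13_3_ok))) (M (nat_lit 363) (B (M (nat_lit 331) (B (L (nat_lit 299) ln11_9_4 ln11_9_4_ok) (L (nat_lit 460) ln12_14_7 ln12_14_7_ok))) (M (nat_lit 362) (B (L (nat_lit 361) ln9_11_0 ln9_11_0_ok) (L (nat_lit 398) ln14_12_3 ln14_12_3_ok)))))))) (B (M (nat_lit 365) (B (M (nat_lit 333) (B (L (nat_lit 301) ln13_9_5 ln13_9_5_ok) (L (nat_lit 460) ln12_14_6 ln12_14_6_ok))) (B (M (nat_lit 460) (B (L (nat_lit 333) ln12_14_6 ln12_14_6_ok) (L (nat_lit 492) ln12_15_6 ln12_15_6_ok))) (B (M (nat_lit 363) (B (M (nat_lit 460) (B (L (nat_lit 331) ln12_14_7 ln12_14_7_ok) (L (nat_lit 492) ln12_15_6 ln12_15_6_ok))) (M (nat_lit 398) (B (L (nat_lit 362) ln10_11_0 ln10_11_0_ok) (L (nat_lit 399)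 ln15_12_3 ln15_12_3_ok))))) (M (nat_lit 462) (B (M (nat_lit 333) (B (L (nat_lit 301) ln13_9_5 ln13_9_5_ok) (L (nat_lit 430) ln13_10_4 ln13_10_4_ok))) (M (nat_lit 461) (B (L (nat_lit 493) ln13_15_7 ln13_15_7_ok) (L (nat_lit 494) ln13_11_4 ln13_11_4_ok))))))))) (M (nat_lit 365) (B (M (nat_lit 430) (B (M (nat_lit 333) (B (L (nat_lit 301) ln13_9_5 ln13_9_5_ok) (L (nat_lit 462) ln13_10_4 ln13_10_4_ok))) (M (nat_lit 431) (B (L (nat_lit 395) ln15_13_3 ln15_13_3_ok) (L (nat_lit 432) ln16_13_3 ln16_13_3_ok))))) (B (M (nat_lit 366) (B (M (nat_lit 461) (B (L (nat_lit 334) ln13_14_6 ln13_14_6_ok) (L (nat_lit 493) ln13_15_7 ln13_15_7_ok))) (M (nat_lit 367) (B (L (nat_lit 395) ln15_11_1 ln15_11_1_ok) (L (nat_lit 368) ln16_11_1 ln16_11_1_ok))))) (M (nat_lit 462) (B (M (nat_lit 333) (B (L (nat_lit 301) ln13_9_5 ln13_9_5_ok) (L (nat_lit 430) ln13_10_4 ln13_10_4_ok))) (M (nat_lit 461) (B (L (nat_lit 493) ln13_15_7 ln13_15_7_ok)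 (L (nat_lit 494) ln13_11_4 ln13_11_4_ok)))))))))))) (B (M (nat_lit 461) (B (L (nat_lit 332) ln12_10_4 ln12_10_4_ok) (M (nat_lit 493) (B (L (nat_lit 397) ln13_15_7 ln13_15_7_ok) (L (nat_lit 525) ln13_16_7 ln13_16_7_ok))))) (M (nat_lit 332) (B (M (nat_lit 300) (B (L (nat_lit 397) ln12_9_4 ln12_9_4_ok) (M (nat_lit 301) (B (L (nat_lit 269) ln12_12_6 ln12_12_6_ok) (L (nat_lit 333) ln12_13_6 ln12_13_6_ok))))) (B (M (nat_lit 300) (B (L (nat_lit 397) ln12_9_4 ln12_9_4_ok) (M (nat_lit 299) (B (L (nat_lit 267) ln12_12_7 ln12_12_7_ok) (L (nat_lit 331) ln12_13_7 ln12_13_7_ok))))) (M (nat_lit 460) (B (M (nat_lit 331) (B (L (nat_lit 299) ln12_13_7 ln12_13_7_ok) (L (nat_lit 363) ln12_14_7 ln12_14_7_ok))) (M (nat_lit 333) (B (L (nat_lit 301) ln12_13_6 ln12_13_6_ok) (L (nat_lit 365) ln12_14_6 ln12_14_6_ok)))))))))))) (B c32_n3106 (K (nat_lit 2079502270752001762064242424960807725827516048677469043429686155012882190638009693656033379242457518153052022685796627120027336704)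 (nat_lit 741398147466726057144143769480762727546426470142742318431876998186988000311507594776082758227410883215883476353411292282918130717745788761875989043162352975872) (nat_lit 741398147466726057144143769480762727546426470142742318431876998186988000311507594776082758227410883215883476353411292282918130717745788761875989043162352975872) c32_s3345))))))))))))))) (nat_lit 2079502270590611144683810638107312777577327806531862431377859685460965980854219217279980804578104683573043408221052678871730618368) (nat_lit 2026130649693226624304583733054974027942646878798970556610936938511852051368772802446170579690176984445960221297405309853191938782799777217107466041864426101519797758159021408256) (nat_lit 2026130649693226624304583733054974027942646878798970556610936938511852051368772802446170579690176984445960221297405309853191938782799777217107466041864426101519797758159021408256) (by decide +kernel)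
noncomputable def c32_n3397 : Cert := (M (nat_lit 461) (B (M (nat_lit 493) (B (L (nat_lit 525) ln13_16_7 ln13_16_7_ok) (M (nat_lit 364) (B (L (nat_lit 332) ln12_10_4 ln12_10_4_ok) (L (nat_lit 397) ln13_15_7 ln13_15_7_ok))))) (B (M (nat_lit 493) (B (L (nat_lit 525) ln13_16_7 ln13_16_7_ok) (M (nat_lit 364) (B (L (nat_lit 397) ln13_15_7 ln13_15_7_ok) (L (nat_lit 460) ln12_11_4 ln12_11_4_ok))))) (B (M (nat_lit 493) (B (L (nat_lit 525) ln13_16_7 ln13_16_7_ok) (M (nat_lit 397) (B (M (nat_lit 398) (B (L (nat_lit 366) ln13_15_6 ln13_15_6_ok) (M (nat_lit 399) (B (L (nat_lit 427) ln15_12_1 ln15_12_1_ok) (L (nat_lit 400) ln16_12_1 ln16_12_1_ok))))) (M (nat_lit 365) (B (M (nat_lit 333) (B (L (nat_lit 301) ln13_9_5 ln13_9_5_ok) (L (nat_lit 460) ln13_10_5 ln13_10_5_ok))) (M (nat_lit 494) (B (L (nat_lit 462) ln13_11_4 ln13_11_4_ok) (L (nat_lit 526) ln13_12_4 ln13_12_4_ok))))))))) (B (M (nat_lit 364) (B (L (nat_lit 332)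 ln12_10_4 ln12_10_4_ok) (M (nat_lit 493) (B (L (nat_lit 460) ln12_11_4 ln12_11_4_ok) (L (nat_lit 525) ln13_16_7 ln13_16_7_ok))))) (M (nat_lit 460) (B (M (nat_lit 364) (B (L (nat_lit 332) ln12_10_4 ln12_10_4_ok) (M (nat_lit 365) (B (L (nat_lit 333) ln12_14_6 ln12_14_6_ok) (M (nat_lit 492) (B (L (nat_lit 397) ln12_15_6 ln12_15_6_ok) (M (nat_lit 363) (B (L (nat_lit 331) ln12_14_7 ln12_14_7_ok) (L (nat_lit 395) ln12_15_7 ln12_15_7_ok))))))))) (B (M (nat_lit 364) (B (L (nat_lit 332) ln12_10_4 ln12_10_4_ok) (M (nat_lit 492) (B (M (nat_lit 365) (B (L (nat_lit 333) ln12_14_6 ln12_14_6_ok) (L (nat_lit 397) ln12_15_6 ln12_15_6_ok))) (M (nat_lit 491) (B (L (nat_lit 459) ln12_11_5 ln12_11_5_ok) (L (nat_lit 523) ln12_12_5 ln12_12_5_ok))))))) (B (M (nat_lit 492) (B (M (nat_lit 397) (B (L (nat_lit 365) ln12_15_6 ln12_15_6_ok) (L (nat_lit 524) ln12_16_6 ln12_16_6_ok))) (B (M (nat_lit 524) (B (L (nat_lit 397) ln12_16_6 ln12_16_6_ok)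 (L (nat_lit 556) ln12_17_6 ln12_17_6_ok))) (B (M (nat_lit 395) (B (L (nat_lit 363) ln12_15_7 ln12_15_7_ok) (M (nat_lit 524) (B (L (nat_lit 427) ln12_16_7 ln12_16_7_ok) (L (nat_lit 556) ln12_17_6 ln12_17_6_ok))))) (M (nat_lit 364) (B (M (nat_lit 363) (B (L (nat_lit 331) ln12_14_7 ln12_14_7_ok) (L (nat_lit 395) ln12_15_7 ln12_15_7_ok))) (M (nat_lit 365) (B (L (nat_lit 333) ln12_14_6 ln12_14_6_ok) (L (nat_lit 397) ln12_15_6 ln12_15_6_ok))))))))) (B (M (nat_lit 364) (B (L (nat_lit 332) ln12_10_4 ln12_10_4_ok) (M (nat_lit 492) (B (M (nat_lit 363) (B (L (nat_lit 331) ln12_14_7 ln12_14_7_ok) (L (nat_lit 395) ln12_15_7 ln12_15_7_ok))) (M (nat_lit 524) (B (L (nat_lit 397) ln12_16_6 ln12_16_6_ok) (L (nat_lit 556) ln12_17_6 ln12_17_6_ok))))))) (B (M (nat_lit 397) (B (M (nat_lit 365) (B (L (nat_lit 333) ln13_10_5 ln13_10_5_ok) (L (nat_lit 492) ln12_15_6 ln12_15_6_ok))) (B (M (nat_lit 492) (B (L (nat_lit 365) ln12_15_6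 ln12_15_6_ok) (L (nat_lit 524) ln12_16_6 ln12_16_6_ok))) (B (M (nat_lit 395) (B (M (nat_lit 492) (B (L (nat_lit 363) ln12_15_7 ln12_15_7_ok) (L (nat_lit 524) ln12_16_6 ln12_16_6_ok))) (M (nat_lit 426) (B (M (nat_lit 394) (B (L (nat_lit 393) ln9_12_0 ln9_12_0_ok) (L (nat_lit 425) ln13_12_1 ln13_12_1_ok))) (M (nat_lit 427) (B (L (nat_lit 398) ln14_12_1 ln14_12_1_ok) (L (nat_lit 462) ln10_13_0 ln10_13_0_ok))))))) (M (nat_lit 462) (B (M (nat_lit 365) (B (L (nat_lit 333) ln13_10_5 ln13_10_5_ok) (L (nat_lit 494) ln13_11_4 ln13_11_4_ok))) (M (nat_lit 427) (B (L (nat_lit 426) ln10_13_0 ln10_13_0_ok) (L (nat_lit 463) ln15_14_3 ln15_14_3_ok))))))))) (B (M (nat_lit 364) (B (L (nat_lit 332) ln12_10_4 ln12_10_4_ok) (M (nat_lit 492) (B (M (nat_lit 363) (B (L (nat_lit 331) ln12_14_7 ln12_14_7_ok) (L (nat_lit 395) ln12_15_7 ln12_15_7_ok))) (M (nat_lit 491) (B (L (nat_lit 459) ln12_11_5 ln12_11_5_ok) (L (nat_lit 523) ln12_12_5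 ln12_12_5_ok))))))) (M (nat_lit 364) (B (L (nat_lit 332) ln12_10_4 ln12_10_4_ok) (M (nat_lit 462) (B (M (nat_lit 427) (B (L (nat_lit 426) ln10_13_0 ln10_13_0_ok) (L (nat_lit 463) ln15_14_3 ln15_14_3_ok))) (M (nat_lit 494) (B (M (nat_lit 365) (B (L (nat_lit 333) ln12_14_6 ln12_14_6_ok) (L (nat_lit 397) ln13_11_4 ln13_11_4_ok))) (M (nat_lit 459) (B (L (nat_lit 491) ln12_11_5 ln12_11_5_ok) (L (nat_lit 495) ln11_14_0 ln11_14_0_ok)))))))))))))))))))))
noncomputable def c32_n3422 : Cert := (M (nat_lit 461) (B (M (nat_lit 364) (B (L (nat_lit 332) ln12_10_4 ln12_10_4_ok) (M (nat_lit 493) (B (L (nat_lit 460) ln12_11_4 ln12_11_4_ok) (L (nat_lit 525) ln13_16_7 ln13_16_7_ok))))) (B (M (nat_lit 493) (B (L (nat_lit 525) ln13_16_7 ln13_16_7_ok) (M (nat_lit 364) (B (L (nat_lit 397) ln13_15_7 ln13_15_7_ok) (L (nat_lit 460) ln12_11_4 ln12_11_4_ok))))) (B (M (nat_lit 493) (B (L (nat_lit 525) ln13_16_7 ln13_16_7_ok) (M (nat_lit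 397) (B (M (nat_lit 398) (B (L (nat_lit 366) ln13_15_6 ln13_15_6_ok) (M (nat_lit 399) (B (L (nat_lit 427) ln15_12_1 ln15_12_1_ok) (L (nat_lit 400) ln16_12_1 ln16_12_1_ok))))) (M (nat_lit 365) (B (M (nat_lit 460) (B (L (nat_lit 333) ln13_10_5 ln13_10_5_ok) (L (nat_lit 492) ln12_15_6 ln12_15_6_ok))) (M (nat_lit 494) (B (L (nat_lit 462) ln13_11_4 ln13_11_4_ok) (L (nat_lit 526) ln13_12_4 ln13_12_4_ok))))))))) (B (M (nat_lit 493) (B (L (nat_lit 525) ln13_16_7 ln13_16_7_ok) (M (nat_lit 364) (B (L (nat_lit 332) ln12_10_4 ln12_10_4_ok) (L (nat_lit 397) ln13_15_7 ln13_15_7_ok))))) (M (nat_lit 460) (B (M (nat_lit 364) (B (L (nat_lit 332) ln12_10_4 ln12_10_4_ok) (M (nat_lit 365) (B (L (nat_lit 333) ln12_14_6 ln12_14_6_ok) (M (nat_lit 492) (B (L (nat_lit 397) ln12_15_6 ln12_15_6_ok) (M (nat_lit 363) (B (L (nat_lit 331) ln12_14_7 ln12_14_7_ok) (L (nat_lit 395) ln12_15_7 ln12_15_7_ok))))))))) (B (M (nat_lit 364) (B (L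 (nat_lit 332) ln12_10_4 ln12_10_4_ok) (M (nat_lit 492) (B (M (nat_lit 365) (B (L (nat_lit 333) ln12_14_6 ln12_14_6_ok) (L (nat_lit 397) ln12_15_6 ln12_15_6_ok))) (M (nat_lit 491) (B (L (nat_lit 459) ln12_11_5 ln12_11_5_ok) (L (nat_lit 523) ln12_12_5 ln12_12_5_ok))))))) (B (M (nat_lit 492) (B (M (nat_lit 397) (B (L (nat_lit 365) ln12_15_6 ln12_15_6_ok) (L (nat_lit 524) ln12_16_6 ln12_16_6_ok))) (B (M (nat_lit 395) (B (L (nat_lit 363) ln12_15_7 ln12_15_7_ok) (M (nat_lit 524) (B (L (nat_lit 427) ln12_16_7 ln12_16_7_ok) (L (nat_lit 397) ln12_16_6 ln12_16_6_ok))))) (B (M (nat_lit 427) (B (M (nat_lit 395) (B (L (nat_lit 363) ln12_15_7 ln12_15_7_ok) (L (nat_lit 524) ln12_16_7 ln12_16_7_ok))) (M (nat_lit 462) (B (L (nat_lit 426) ln10_13_0 ln10_13_0_ok) (L (nat_lit 463) ln15_14_3 ln15_14_3_ok))))) (M (nat_lit 364) (B (M (nat_lit 363) (B (L (nat_lit 331) ln12_14_7 ln12_14_7_ok) (L (nat_lit 395) ln12_15_7 ln12_15_7_ok)))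 (M (nat_lit 365) (B (L (nat_lit 333) ln12_14_6 ln12_14_6_ok) (L (nat_lit 397) ln12_15_6 ln12_15_6_ok))))))))) (B (M (nat_lit 364) (B (L (nat_lit 332) ln12_10_4 ln12_10_4_ok) (M (nat_lit 492) (B (M (nat_lit 363) (B (L (nat_lit 331) ln12_14_7 ln12_14_7_ok) (L (nat_lit 395) ln12_15_7 ln12_15_7_ok))) (M (nat_lit 491) (B (L (nat_lit 459) ln12_11_5 ln12_11_5_ok) (L (nat_lit 523) ln12_12_5 ln12_12_5_ok))))))) (B (M (nat_lit 397) (B (M (nat_lit 365) (B (L (nat_lit 333) ln13_10_5 ln13_10_5_ok) (L (nat_lit 492) ln12_15_6 ln12_15_6_ok))) (B (M (nat_lit 492) (B (L (nat_lit 365) ln12_15_6 ln12_15_6_ok) (L (nat_lit 524) ln12_16_6 ln12_16_6_ok))) (B (M (nat_lit 395) (B (M (nat_lit 492) (B (L (nat_lit 363) ln12_15_7 ln12_15_7_ok) (L (nat_lit 524) ln12_16_6 ln12_16_6_ok))) (M (nat_lit 426) (B (M (nat_lit 394) (B (L (nat_lit 393) ln9_12_0 ln9_12_0_ok) (L (nat_lit 425) ln13_12_1 ln13_12_1_ok))) (M (nat_lit 427) (B (L (nat_lit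 398) ln14_12_1 ln14_12_1_ok) (L (nat_lit 462) ln10_13_0 ln10_13_0_ok))))))) (M (nat_lit 462) (B (M (nat_lit 365) (B (L (nat_lit 333) ln13_10_5 ln13_10_5_ok) (L (nat_lit 494) ln13_11_4 ln13_11_4_ok))) (M (nat_lit 427) (B (L (nat_lit 426) ln10_13_0 ln10_13_0_ok) (L (nat_lit 463) ln15_14_3 ln15_14_3_ok))))))))) (M (nat_lit 364) (B (L (nat_lit 332) ln12_10_4 ln12_10_4_ok) (M (nat_lit 462) (B (M (nat_lit 427) (B (L (nat_lit 426) ln10_13_0 ln10_13_0_ok) (L (nat_lit 463) ln15_14_3 ln15_14_3_ok))) (M (nat_lit 494) (B (M (nat_lit 365) (B (L (nat_lit 333) ln12_14_6 ln12_14_6_ok) (L (nat_lit 397) ln13_11_4 ln13_11_4_ok))) (M (nat_lit 459) (B (L (nat_lit 491) ln12_11_5 ln12_11_5_ok) (L (nat_lit 495) ln11_14_0 ln11_14_0_ok))))))))))))))))))))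
noncomputable def c32_n3434 : Cert := (M (nat_lit 460) (B (M (nat_lit 364) (B (L (nat_lit 332) ln12_10_4 ln12_10_4_ok) (M (nat_lit 492) (B (M (nat_lit 365) (B (L (nat_lit 333) ln12_14_6 ln12_14_6_ok) (L (nat_lit 397) ln12_15_6 ln12_15_6_ok))) (M (nat_lit 491) (B (L (nat_lit 459) ln12_11_5 ln12_11_5_ok) (L (nat_lit 523) ln12_12_5 ln12_12_5_ok))))))) (B (M (nat_lit 492) (B (M (nat_lit 397) (B (L (nat_lit 365) ln12_15_6 ln12_15_6_ok) (L (nat_lit 524) ln12_16_6 ln12_16_6_ok))) (B (M (nat_lit 395) (B (L (nat_lit 363) ln12_15_7 ln12_15_7_ok) (M (nat_lit 524) (B (L (nat_lit 427) ln12_16_7 ln12_16_7_ok) (L (nat_lit 397) ln12_16_6 ln12_16_6_ok))))) (B (M (nat_lit 427) (B (M (nat_lit 395) (B (L (nat_lit 363) ln12_15_7 ln12_15_7_ok) (L (nat_lit 524) ln12_16_7 ln12_16_7_ok))) (M (nat_lit 462) (B (L (nat_lit 426) ln10_13_0 ln10_13_0_ok) (L (nat_lit 463) ln15_14_3 ln15_14_3_ok))))) (M (nat_lit 364) (B (M (nat_lit 365)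 (B (L (nat_lit 333) ln12_14_6 ln12_14_6_ok) (L (nat_lit 397) ln12_15_6 ln12_15_6_ok))) (M (nat_lit 491) (B (L (nat_lit 459) ln12_11_5 ln12_11_5_ok) (L (nat_lit 523) ln12_12_5 ln12_12_5_ok))))))))) (B (M (nat_lit 364) (B (L (nat_lit 332) ln12_10_4 ln12_10_4_ok) (M (nat_lit 492) (B (M (nat_lit 491) (B (L (nat_lit 459) ln12_11_5 ln12_11_5_ok) (L (nat_lit 523) ln12_12_5 ln12_12_5_ok))) (M (nat_lit 397) (B (L (nat_lit 365) ln12_15_6 ln12_15_6_ok) (L (nat_lit 524) ln12_16_6 ln12_16_6_ok))))))) (B (M (nat_lit 397) (B (M (nat_lit 365) (B (L (nat_lit 333) ln13_10_5 ln13_10_5_ok) (L (nat_lit 492) ln12_15_6 ln12_15_6_ok))) (B (M (nat_lit 492) (B (L (nat_lit 365) ln12_15_6 ln12_15_6_ok) (L (nat_lit 524) ln12_16_6 ln12_16_6_ok))) (B (M (nat_lit 395) (B (M (nat_lit 492) (B (L (nat_lit 363) ln12_15_7 ln12_15_7_ok) (L (nat_lit 524) ln12_16_6 ln12_16_6_ok))) (M (nat_lit 426) (B (M (nat_lit 394) (B (L (nat_lit 393) ln9_12_0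 ln9_12_0_ok) (L (nat_lit 425) ln13_12_1 ln13_12_1_ok))) (M (nat_lit 427) (B (L (nat_lit 398) ln14_12_1 ln14_12_1_ok) (L (nat_lit 462) ln10_13_0 ln10_13_0_ok))))))) (M (nat_lit 462) (B (M (nat_lit 365) (B (L (nat_lit 333) ln13_10_5 ln13_10_5_ok) (L (nat_lit 494) ln13_11_4 ln13_11_4_ok))) (M (nat_lit 427) (B (L (nat_lit 426) ln10_13_0 ln10_13_0_ok) (L (nat_lit 463) ln15_14_3 ln15_14_3_ok))))))))) (B (M (nat_lit 492) (B (M (nat_lit 364) (B (L (nat_lit 332) ln12_10_4 ln12_10_4_ok) (M (nat_lit 491) (B (L (nat_lit 459) ln12_11_5 ln12_11_5_ok) (L (nat_lit 523) ln12_12_5 ln12_12_5_ok))))) (M (nat_lit 395) (B (L (nat_lit 363) ln12_15_7 ln12_15_7_ok) (M (nat_lit 524) (B (L (nat_lit 427) ln12_16_7 ln12_16_7_ok) (L (nat_lit 397) ln12_16_6 ln12_16_6_ok))))))) (B (M (nat_lit 492) (B (M (nat_lit 364) (B (L (nat_lit 332) ln12_10_4 ln12_10_4_ok) (M (nat_lit 491) (B (L (nat_lit 459) ln12_11_5 ln12_11_5_ok) (L (nat_lit 523)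 ln12_12_5 ln12_12_5_ok))))) (M (nat_lit 427) (B (M (nat_lit 395) (B (L (nat_lit 363) ln12_15_7 ln12_15_7_ok) (L (nat_lit 524) ln12_16_7 ln12_16_7_ok))) (M (nat_lit 462) (B (L (nat_lit 426) ln10_13_0 ln10_13_0_ok) (L (nat_lit 463) ln15_14_3 ln15_14_3_ok))))))) (M (nat_lit 364) (B (L (nat_lit 332) ln12_10_4 ln12_10_4_ok) (M (nat_lit 462) (B (M (nat_lit 427) (B (L (nat_lit 426) ln10_13_0 ln10_13_0_ok) (L (nat_lit 463) ln15_14_3 ln15_14_3_ok))) (M (nat_lit 494) (B (M (nat_lit 365) (B (L (nat_lit 333) ln12_14_6 ln12_14_6_ok) (L (nat_lit 397) ln13_11_4 ln13_11_4_ok))) (M (nat_lit 459) (B (L (nat_lit 491) ln12_11_5 ln12_11_5_ok) (L (nat_lit 495) ln11_14_0 ln11_14_0_ok))))))))))))))))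
noncomputable def c32_n3435 : Cert := (M (nat_lit 461) (B (M (nat_lit 493) (B (L (nat_lit 525) ln13_16_7 ln13_16_7_ok) (M (nat_lit 364) (B (L (nat_lit 332) ln12_10_4 ln12_10_4_ok) (L (nat_lit 397) ln13_15_7 ln13_15_7_ok))))) (B (M (nat_lit 493) (B (L (nat_lit 525) ln13_16_7 ln13_16_7_ok) (M (nat_lit 364) (B (L (nat_lit 397) ln13_15_7 ln13_15_7_ok) (L (nat_lit 460) ln12_11_4 ln12_11_4_ok))))) (B (M (nat_lit 493) (B (L (nat_lit 525) ln13_16_7 ln13_16_7_ok) (M (nat_lit 397) (B (M (nat_lit 398) (B (L (nat_lit 366) ln13_15_6 ln13_15_6_ok) (M (nat_lit 399) (B (L (nat_lit 427) ln15_12_1 ln15_12_1_ok) (L (nat_lit 400) ln16_12_1 ln16_12_1_ok))))) (M (nat_lit 365) (B (M (nat_lit 460) (B (L (nat_lit 333) ln13_10_5 ln13_10_5_ok) (L (nat_lit 492) ln12_15_6 ln12_15_6_ok))) (M (nat_lit 494) (B (L (nat_lit 462) ln13_11_4 ln13_11_4_ok) (L (nat_lit 526) ln13_12_4 ln13_12_4_ok))))))))) (B (M (nat_lit 364) (B (L (nat_lit 332)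 ln12_10_4 ln12_10_4_ok) (M (nat_lit 493) (B (L (nat_lit 460) ln12_11_4 ln12_11_4_ok) (L (nat_lit 525) ln13_16_7 ln13_16_7_ok))))) c32_n3434)))))
theorem c32_s3594 : Sem (nat_lit 2977131416794308094442032079173508997673322739202770823590452899273584679125360084582088237379608943779340806652318287501554355390832967680) (nat_lit 137295953288922298310693501624792415861711717628303321307943772153046120981982253634348914744249560829070256500097854958260963056959442186845664421337462996992) (nat_lit 137295953288922298310693501624792415861711717628303321307943772153046120981982253634348914744249560829070256500097854958260963056959442186845664421337462996992) :=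
  sem_of_chk (M (nat_lit 395) (B (M (nat_lit 363) (B (M (nat_lit 331) (B (L (nat_lit 299) ln11_9_4 ln11_9_4_ok) (L (nat_lit 427) ln11_10_4 ln11_10_4_ok))) (M (nat_lit 394) (B (L (nat_lit 393) ln9_12_0 ln9_12_0_ok) (M (nat_lit 397) (B (M (nat_lit 362) (B (L (nat_lit 361) ln13_12_3 ln13_12_3_ok) (L (nat_lit 398) ln14_12_3 ln14_12_3_ok))) (M (nat_lit 365) (B (L (nat_lit 333) ln13_10_5 ln13_10_5_ok) (L (nat_lit 366) ln10_12_2 ln10_12_2_ok))))))))) (B (M (nat_lit 363) (B (M (nat_lit 331) (B (L (nat_lit 364) ln12_14_7 ln12_14_7_ok) (L (nat_lit 427) ln11_10_4 ln11_10_4_ok))) (M (nat_lit 394) (B (L (nat_lit 393) ln9_12_0 ln9_12_0_ok) (M (nat_lit 397) (B (M (nat_lit 362) (B (L (nat_lit 361) ln13_12_3 ln13_12_3_ok) (L (nat_lit 398) ln14_12_3 ln14_12_3_ok))) (M (nat_lit 365) (B (L (nat_lit 333) ln13_10_5 ln13_10_5_ok) (L (nat_lit 366) ln10_12_2 ln10_12_2_ok))))))))) (B (M (nat_lit 461) (B (M (nat_lit 493) (B (L (nat_lit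 364) ln12_11_4 ln12_11_4_ok) (L (nat_lit 525) ln13_16_7 ln13_16_7_ok))) (M (nat_lit 397) (B (M (nat_lit 365) (B (L (nat_lit 333) ln13_10_5 ln13_10_5_ok) (M (nat_lit 366) (B (L (nat_lit 334) ln13_14_6 ln13_14_6_ok) (L (nat_lit 394) ln10_12_2 ln10_12_2_ok))))) (B (M (nat_lit 426) (B (M (nat_lit 394) (B (L (nat_lit 393) ln9_12_0 ln9_12_0_ok) (L (nat_lit 425) ln13_12_1 ln13_12_1_ok))) (M (nat_lit 427) (B (L (nat_lit 398) ln14_12_1 ln14_12_1_ok) (L (nat_lit 462) ln10_13_0 ln10_13_0_ok))))) (M (nat_lit 462) (B (M (nat_lit 365) (B (L (nat_lit 333) ln13_10_5 ln13_10_5_ok) (L (nat_lit 494) ln13_11_4 ln13_11_4_ok))) (M (nat_lit 463) (B (L (nat_lit 427) ln15_14_3 ln15_14_3_ok) (L (nat_lit 464) ln16_14_3 ln16_14_3_ok)))))))))) (B (M (nat_lit 427) (B (M (nat_lit 461) (B (M (nat_lit 493) (B (L (nat_lit 364) ln12_11_4 ln12_11_4_ok) (L (nat_lit 525) ln13_16_7 ln13_16_7_ok))) (M (nat_lit 462) (B (L (nat_lit 426) ln10_13_0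 ln10_13_0_ok) (L (nat_lit 463) ln15_14_3 ln15_14_3_ok))))) (M (nat_lit 459) (B (M (nat_lit 363) (B (L (nat_lit 331) ln11_10_4 ln11_10_4_ok) (M (nat_lit 458) (B (L (nat_lit 490) ln11_11_5 ln11_11_5_ok) (L (nat_lit 457) ln9_14_2 ln9_14_2_ok))))) (M (nat_lit 394) (B (L (nat_lit 393) ln9_12_0 ln9_12_0_ok) (M (nat_lit 491) (B (L (nat_lit 362) ln11_15_7 ln11_15_7_ok) (L (nat_lit 523) ln11_16_6 ln11_16_6_ok))))))))) (B (M (nat_lit 397) (B (M (nat_lit 365) (B (L (nat_lit 333) ln13_10_5 ln13_10_5_ok) (M (nat_lit 366) (B (L (nat_lit 394) ln10_12_2 ln10_12_2_ok) (M (nat_lit 367) (B (L (nat_lit 364) ln15_11_1 ln15_11_1_ok) (L (nat_lit 368) ln16_11_1 ln16_11_1_ok))))))) (B (M (nat_lit 398) (B (M (nat_lit 427) (B (L (nat_lit 426) ln14_12_1 ln14_12_1_ok) (L (nat_lit 399) ln15_12_1 ln15_12_1_ok))) (B (M (nat_lit 427) (B (L (nat_lit 426) ln14_12_1 ln14_12_1_ok) (M (nat_lit 363) (B (L (nat_lit 331) ln11_10_4 ln11_10_4_ok)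 (L (nat_lit 362) ln14_12_3 ln14_12_3_ok))))) (B (M (nat_lit 399) (B (L (nat_lit 427) ln15_12_1 ln15_12_1_ok) (L (nat_lit 400) ln16_12_1 ln16_12_1_ok))) (M (nat_lit 399) (B (L (nat_lit 400) ln16_12_1 ln16_12_1_ok) (M (nat_lit 367) (B (L (nat_lit 366) ln11_12_2 ln11_12_2_ok) (L (nat_lit 368) ln12_12_2 ln12_12_2_ok))))))))) (M (nat_lit 461) (B (M (nat_lit 493) (B (L (nat_lit 364) ln13_15_7 ln13_15_7_ok) (L (nat_lit 525) ln13_16_7 ln13_16_7_ok))) (M (nat_lit 462) (B (M (nat_lit 365) (B (L (nat_lit 333) ln13_10_5 ln13_10_5_ok) (L (nat_lit 494) ln13_11_4 ln13_11_4_ok))) (M (nat_lit 463) (B (L (nat_lit 427) ln15_14_3 ln15_14_3_ok) (L (nat_lit 464) ln16_14_3 ln16_14_3_ok)))))))))) (B (M (nat_lit 397) (B (M (nat_lit 461) (B (M (nat_lit 493) (B (L (nat_lit 364) ln13_15_7 ln13_15_7_ok) (L (nat_lit 525) ln13_16_7 ln13_16_7_ok))) (M (nat_lit 462) (B (M (nat_lit 365) (B (L (nat_lit 333) ln13_10_5 ln13_10_5_ok) (L (nat_lit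 494) ln13_11_4 ln13_11_4_ok))) (M (nat_lit 463) (B (L (nat_lit 427) ln15_14_3 ln15_14_3_ok) (L (nat_lit 464) ln16_14_3 ln16_14_3_ok))))))) (B (M (nat_lit 398) (B (M (nat_lit 427) (B (L (nat_lit 426) ln14_12_1 ln14_12_1_ok) (L (nat_lit 399) ln15_12_1 ln15_12_1_ok))) (B (M (nat_lit 427) (B (L (nat_lit 426) ln14_12_1 ln14_12_1_ok) (M (nat_lit 363) (B (L (nat_lit 331) ln11_10_4 ln11_10_4_ok) (L (nat_lit 362) ln14_12_3 ln14_12_3_ok))))) (B (M (nat_lit 399) (B (L (nat_lit 427) ln15_12_1 ln15_12_1_ok) (L (nat_lit 400) ln16_12_1 ln16_12_1_ok))) (M (nat_lit 399) (B (L (nat_lit 400) ln16_12_1 ln16_12_1_ok) (M (nat_lit 367) (B (L (nat_lit 366) ln11_12_2 ln11_12_2_ok) (L (nat_lit 368) ln12_12_2 ln12_12_2_ok))))))))) (M (nat_lit 398) (B (M (nat_lit 399) (B (L (nat_lit 400) ln16_12_1 ln16_12_1_ok) (M (nat_lit 367) (B (L (nat_lit 366) ln11_12_2 ln11_12_2_ok) (L (nat_lit 368) ln12_12_2 ln12_12_2_ok))))) (B (M (nat_lit 399)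 (B (L (nat_lit 400) ln16_12_1 ln16_12_1_ok) (M (nat_lit 363) (B (L (nat_lit 362) ln14_12_3 ln14_12_3_ok) (L (nat_lit 364) ln15_12_3 ln15_12_3_ok))))) (M (nat_lit 363) (B (L (nat_lit 362) ln14_12_3 ln14_12_3_ok) (M (nat_lit 331) (B (L (nat_lit 299) ln11_9_4 ln11_9_4_ok) (L (nat_lit 364) ln12_14_7 ln12_14_7_ok))))))))))) (M (nat_lit 363) (B (M (nat_lit 331) (B (L (nat_lit 299) ln11_9_4 ln11_9_4_ok) (L (nat_lit 364) ln12_14_7 ln12_14_7_ok))) (B (M (nat_lit 364) (B (L (nat_lit 331) ln12_14_7 ln12_14_7_ok) (M (nat_lit 365) (B (L (nat_lit 333) ln12_14_6 ln12_14_6_ok) (M (nat_lit 394) (B (L (nat_lit 366) ln14_11_1 ln14_11_1_ok) (L (nat_lit 393) ln9_12_2 ln9_12_2_ok))))))) (B (M (nat_lit 365) (B (M (nat_lit 333) (B (L (nat_lit 364) ln12_14_6 ln12_14_6_ok) (L (nat_lit 397) ln13_10_5 ln13_10_5_ok))) (B (M (nat_lit 394) (B (L (nat_lit 393) ln9_12_0 ln9_12_0_ok) (M (nat_lit 366) (B (L (nat_lit 364) ln14_11_1 ln14_11_1_ok)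 (L (nat_lit 397) ln10_12_2 ln10_12_2_ok))))) (B (M (nat_lit 397) (B (L (nat_lit 333) ln13_10_5 ln13_10_5_ok) (M (nat_lit 394) (B (L (nat_lit 366) ln10_12_2 ln10_12_2_ok) (L (nat_lit 393) ln9_12_0 ln9_12_0_ok))))) (M (nat_lit 364) (B (L (nat_lit 333) ln12_14_6 ln12_14_6_ok) (M (nat_lit 394) (B (L (nat_lit 366) ln14_11_1 ln14_11_1_ok) (L (nat_lit 393) ln9_12_2 ln9_12_2_ok))))))))) (M (nat_lit 394) (B (L (nat_lit 393) ln9_12_0 ln9_12_0_ok) (M (nat_lit 397) (B (M (nat_lit 362) (B (L (nat_lit 361) ln13_12_3 ln13_12_3_ok) (L (nat_lit 398) ln14_12_3 ln14_12_3_ok))) (M (nat_lit 365) (B (L (nat_lit 333) ln13_10_5 ln13_10_5_ok) (L (nat_lit 366) ln10_12_2 ln10_12_2_ok)))))))))))))))))) (nat_lit 2977131416794308094442032079173508997673322739202770823590452899273584679125360084582088237379608943779340806652318287501554355390832967680) (nat_lit 137295953288922298310693501624792415861711717628303321307943772153046120981982253634348914744249560829070256500097854958260963056959442186845664421337462996992)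 (nat_lit 137295953288922298310693501624792415861711717628303321307943772153046120981982253634348914744249560829070256500097854958260963056959442186845664421337462996992) (by decide +kernel)
noncomputable def c32_n3595 : Cert := (M (nat_lit 460) (B (M (nat_lit 492) (B (M (nat_lit 397) (B (L (nat_lit 365) ln12_15_6 ln12_15_6_ok) (L (nat_lit 524) ln12_16_6 ln12_16_6_ok))) (M (nat_lit 364) (B (M (nat_lit 363) (B (L (nat_lit 331) ln12_14_7 ln12_14_7_ok) (L (nat_lit 395) ln12_15_7 ln12_15_7_ok))) (M (nat_lit 491) (B (L (nat_lit 459) ln12_11_5 ln12_11_5_ok) (L (nat_lit 523) ln12_12_5 ln12_12_5_ok))))))) (B (M (nat_lit 492) (B (M (nat_lit 397) (B (L (nat_lit 365) ln12_15_6 ln12_15_6_ok) (L (nat_lit 524) ln12_16_6 ln12_16_6_ok))) (M (nat_lit 364) (B (M (nat_lit 491) (B (L (nat_lit 459) ln12_11_5 ln12_11_5_ok) (L (nat_lit 523) ln12_12_5 ln12_12_5_ok))) (M (nat_lit 493) (B (L (nat_lit 461) ln12_11_4 ln12_11_4_ok) (L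 (nat_lit 525) ln12_12_4 ln12_12_4_ok))))))) (B (M (nat_lit 395) (B (M (nat_lit 492) (B (L (nat_lit 363) ln12_15_7 ln12_15_7_ok) (M (nat_lit 397) (B (L (nat_lit 365) ln12_15_6 ln12_15_6_ok) (L (nat_lit 524) ln12_16_6 ln12_16_6_ok))))) (B (M (nat_lit 397) (B (M (nat_lit 365) (B (L (nat_lit 333) ln13_10_5 ln13_10_5_ok) (L (nat_lit 492) ln12_15_6 ln12_15_6_ok))) (B (M (nat_lit 492) (B (L (nat_lit 365) ln12_15_6 ln12_15_6_ok) (L (nat_lit 524) ln12_16_6 ln12_16_6_ok))) (M (nat_lit 398) (B (M (nat_lit 427) (B (L (nat_lit 426) ln14_12_1 ln14_12_1_ok) (L (nat_lit 399) ln15_12_1 ln15_12_1_ok))) (B (M (nat_lit 426) (B (L (nat_lit 427) ln14_12_1 ln14_12_1_ok) (M (nat_lit 394) (B (L (nat_lit 393) ln9_12_0 ln9_12_0_ok) (L (nat_lit 425) ln13_12_1 ln13_12_1_ok))))) (B (M (nat_lit 399) (B (L (nat_lit 427) ln15_12_1 ln15_12_1_ok) (L (nat_lit 400) ln16_12_1 ln16_12_1_ok))) (M (nat_lit 399) (B (L (nat_lit 400) ln16_12_1 ln16_12_1_ok)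 (M (nat_lit 367) (B (L (nat_lit 366) ln11_12_2 ln11_12_2_ok) (L (nat_lit 368) ln12_12_2 ln12_12_2_ok)))))))))))) (B (M (nat_lit 492) (B (L (nat_lit 363) ln12_15_7 ln12_15_7_ok) (M (nat_lit 524) (B (L (nat_lit 427) ln12_16_7 ln12_16_7_ok) (L (nat_lit 397) ln12_16_6 ln12_16_6_ok))))) (B (M (nat_lit 363) (B (L (nat_lit 492) ln12_15_7 ln12_15_7_ok) (M (nat_lit 331) (B (L (nat_lit 299) ln11_9_4 ln11_9_4_ok) (L (nat_lit 427) ln11_10_4 ln11_10_4_ok))))) (M (nat_lit 363) (B (M (nat_lit 331) (B (L (nat_lit 299) ln11_9_4 ln11_9_4_ok) (L (nat_lit 427) ln11_10_4 ln11_10_4_ok))) (M (nat_lit 394) (B (L (nat_lit 393) ln9_12_0 ln9_12_0_ok) (M (nat_lit 397) (B (M (nat_lit 362) (B (L (nat_lit 361) ln13_12_3 ln13_12_3_ok) (L (nat_lit 398) ln14_12_3 ln14_12_3_ok))) (M (nat_lit 365) (B (L (nat_lit 333) ln13_10_5 ln13_10_5_ok) (L (nat_lit 366) ln10_12_2 ln10_12_2_ok)))))))))))))) (B (M (nat_lit 492) (B (M (nat_lit 525) (B (L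 (nat_lit 493) ln12_12_4 ln12_12_4_ok) (M (nat_lit 524) (B (L (nat_lit 397) ln12_16_6 ln12_16_6_ok) (L (nat_lit 557) ln12_13_4 ln12_13_4_ok))))) (M (nat_lit 364) (B (M (nat_lit 363) (B (L (nat_lit 331) ln12_14_7 ln12_14_7_ok) (L (nat_lit 395) ln12_15_7 ln12_15_7_ok))) (M (nat_lit 491) (B (L (nat_lit 459) ln12_11_5 ln12_11_5_ok) (L (nat_lit 523) ln12_12_5 ln12_12_5_ok))))))) (B (M (nat_lit 492) (B (M (nat_lit 364) (B (M (nat_lit 491) (B (L (nat_lit 459) ln12_11_5 ln12_11_5_ok) (L (nat_lit 523) ln12_12_5 ln12_12_5_ok))) (M (nat_lit 493) (B (L (nat_lit 461) ln12_11_4 ln12_11_4_ok) (L (nat_lit 525) ln12_12_4 ln12_12_4_ok))))) (B (M (nat_lit 524) (B (M (nat_lit 395) (B (L (nat_lit 363) ln12_15_7 ln12_15_7_ok) (L (nat_lit 427) ln12_16_7 ln12_16_7_ok))) (M (nat_lit 525) (B (L (nat_lit 493) ln12_12_4 ln12_12_4_ok) (L (nat_lit 557) ln12_13_4 ln12_13_4_ok))))) (M (nat_lit 364) (B (M (nat_lit 363) (B (L (nat_lit 331)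 ln12_14_7 ln12_14_7_ok) (L (nat_lit 395) ln12_15_7 ln12_15_7_ok))) (M (nat_lit 491) (B (L (nat_lit 459) ln12_11_5 ln12_11_5_ok) (L (nat_lit 523) ln12_12_5 ln12_12_5_ok)))))))) (K (nat_lit 2977131416794308094442032079173508997673322739202770823590452899273584679125360084582088237379608943779340806652318287501554355390832967680) (nat_lit 137295953288922298310693501624792415861711717628303321307943772153046120981982253634348914744249560829070256500097854958260963056959442186845664421337462996992) (nat_lit 137295953288922298310693501624792415861711717628303321307943772153046120981982253634348914744249560829070256500097854958260963056959442186845664421337462996992) c32_s3594)))))))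
noncomputable def c32_n3659 : Cert := (M (nat_lit 461) (B (M (nat_lit 493) (B (L (nat_lit 525) ln13_16_7 ln13_16_7_ok) (M (nat_lit 364) (B (L (nat_lit 397) ln13_15_7 ln13_15_7_ok) (L (nat_lit 460) ln12_11_4 ln12_11_4_ok))))) (B (M (nat_lit 493) (B (L (nat_lit 525) ln13_16_7 ln13_16_7_ok) (M (nat_lit 397) (B (M (nat_lit 398) (B (L (nat_lit 366) ln13_15_6 ln13_15_6_ok) (M (nat_lit 399) (B (L (nat_lit 427) ln15_12_1 ln15_12_1_ok) (L (nat_lit 400) ln16_12_1 ln16_12_1_ok))))) (M (nat_lit 365) (B (M (nat_lit 492) (B (L (nat_lit 460) ln12_15_6 ln12_15_6_ok) (L (nat_lit 524) ln13_12_5 ln13_12_5_ok))) (M (nat_lit 494) (B (L (nat_lit 462) ln13_11_4 ln13_11_4_ok) (L (nat_lit 526) ln13_12_4 ln13_12_4_ok))))))))) (B (M (nat_lit 364) (B (L (nat_lit 332) ln12_10_4 ln12_10_4_ok) (M (nat_lit 493) (B (L (nat_lit 460) ln12_11_4 ln12_11_4_ok) (L (nat_lit 525) ln13_16_7 ln13_16_7_ok))))) (B (M (nat_lit 493) (B (L (nat_lit 525)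 ln13_16_7 ln13_16_7_ok) (M (nat_lit 364) (B (L (nat_lit 332) ln12_10_4 ln12_10_4_ok) (L (nat_lit 397) ln13_15_7 ln13_15_7_ok))))) (M (nat_lit 397) (B (M (nat_lit 460) (B (M (nat_lit 492) (B (L (nat_lit 365) ln12_15_6 ln12_15_6_ok) (L (nat_lit 524) ln12_16_6 ln12_16_6_ok))) (B (M (nat_lit 491) (B (M (nat_lit 364) (B (L (nat_lit 332) ln12_10_4 ln12_10_4_ok) (L (nat_lit 459) ln12_11_5 ln12_11_5_ok))) (M (nat_lit 492) (B (L (nat_lit 523) ln12_12_5 ln12_12_5_ok) (L (nat_lit 524) ln12_16_6 ln12_16_6_ok))))) (M (nat_lit 462) (B (M (nat_lit 427) (B (L (nat_lit 426) ln10_13_0 ln10_13_0_ok) (L (nat_lit 463) ln15_14_3 ln15_14_3_ok))) (M (nat_lit 459) (B (M (nat_lit 364) (B (L (nat_lit 332) ln12_10_4 ln12_10_4_ok) (L (nat_lit 491) ln12_11_5 ln12_11_5_ok))) (M (nat_lit 494) (B (L (nat_lit 365) ln13_11_4 ln13_11_4_ok) (L (nat_lit 495) ln11_14_0 ln11_14_0_ok)))))))))) (B (M (nat_lit 398) (B (M (nat_lit 399) (B (L (nat_lit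 427) ln15_12_1 ln15_12_1_ok) (L (nat_lit 400) ln16_12_1 ln16_12_1_ok))) (B (M (nat_lit 395) (B (M (nat_lit 426) (B (L (nat_lit 427) ln14_12_1 ln14_12_1_ok) (M (nat_lit 394) (B (L (nat_lit 393) ln9_12_0 ln9_12_0_ok) (L (nat_lit 425) ln13_12_1 ln13_12_1_ok))))) (M (nat_lit 366) (B (L (nat_lit 367) ln11_12_2 ln11_12_2_ok) (M (nat_lit 334) (B (L (nat_lit 302) ln14_9_5 ln14_9_5_ok) (L (nat_lit 365) ln13_14_6 ln13_14_6_ok))))))) (M (nat_lit 399) (B (L (nat_lit 400) ln16_12_1 ln16_12_1_ok) (M (nat_lit 366) (B (M (nat_lit 334) (B (L (nat_lit 302) ln14_9_5 ln14_9_5_ok) (L (nat_lit 365) ln13_14_6 ln13_14_6_ok))) (M (nat_lit 367) (B (L (nat_lit 395) ln11_12_2 ln11_12_2_ok) (L (nat_lit 368) ln12_12_2 ln12_12_2_ok)))))))))) (B (M (nat_lit 460) (B (M (nat_lit 492) (B (L (nat_lit 524) ln12_16_6 ln12_16_6_ok) (M (nat_lit 364) (B (L (nat_lit 332) ln12_10_4 ln12_10_4_ok) (M (nat_lit 363) (B (L (nat_lit 331) ln12_14_7 ln12_14_7_ok)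 (L (nat_lit 395) ln12_15_7 ln12_15_7_ok))))))) (B (M (nat_lit 395) (B (M (nat_lit 492) (B (L (nat_lit 363) ln12_15_7 ln12_15_7_ok) (L (nat_lit 524) ln12_16_6 ln12_16_6_ok))) (M (nat_lit 426) (B (M (nat_lit 394) (B (L (nat_lit 393) ln9_12_0 ln9_12_0_ok) (L (nat_lit 425) ln13_12_1 ln13_12_1_ok))) (M (nat_lit 427) (B (L (nat_lit 398) ln14_12_1 ln14_12_1_ok) (L (nat_lit 462) ln10_13_0 ln10_13_0_ok))))))) (M (nat_lit 459) (B (M (nat_lit 364) (B (L (nat_lit 332) ln12_10_4 ln12_10_4_ok) (L (nat_lit 491) ln12_11_5 ln12_11_5_ok))) (M (nat_lit 426) (B (M (nat_lit 427) (B (L (nat_lit 425) ln9_13_2 ln9_13_2_ok) (L (nat_lit 398) ln10_13_2 ln10_13_2_ok))) (B (M (nat_lit 427) (B (L (nat_lit 425) ln9_13_2 ln9_13_2_ok) (L (nat_lit 462) ln10_13_0 ln10_13_0_ok))) (B (M (nat_lit 427) (B (L (nat_lit 398) ln10_13_2 ln10_13_2_ok) (L (nat_lit 462) ln10_13_0 ln10_13_0_ok))) (M (nat_lit 458) (B (L (nat_lit 425) ln13_14_3 ln13_14_3_ok)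 (L (nat_lit 457) ln9_14_2 ln9_14_2_ok)))))))))))) (M (nat_lit 364) (B (L (nat_lit 332) ln12_10_4 ln12_10_4_ok) (M (nat_lit 365) (B (M (nat_lit 366) (B (L (nat_lit 334) ln13_14_6 ln13_14_6_ok) (M (nat_lit 367) (B (L (nat_lit 395) ln15_11_1 ln15_11_1_ok) (L (nat_lit 368) ln16_11_1 ln16_11_1_ok))))) (M (nat_lit 363) (B (M (nat_lit 460) (B (L (nat_lit 331) ln12_14_7 ln12_14_7_ok) (L (nat_lit 492) ln12_15_6 ln12_15_6_ok))) (M (nat_lit 362) (B (L (nat_lit 361) ln9_11_0 ln9_11_0_ok) (L (nat_lit 398) ln10_11_0 ln10_11_0_ok))))))))))))))))))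
noncomputable def c32_n3687 : Cert := (M (nat_lit 460) (B (M (nat_lit 364) (B (L (nat_lit 332) ln12_10_4 ln12_10_4_ok) (M (nat_lit 492) (B (M (nat_lit 365) (B (L (nat_lit 333) ln12_14_6 ln12_14_6_ok) (L (nat_lit 397) ln12_15_6 ln12_15_6_ok))) (M (nat_lit 491) (B (L (nat_lit 459) ln12_11_5 ln12_11_5_ok) (L (nat_lit 523) ln12_12_5 ln12_12_5_ok))))))) (B (M (nat_lit 492) (B (M (nat_lit 397) (B (L (nat_lit 365) ln12_15_6 ln12_15_6_ok) (L (nat_lit 524) ln12_16_6 ln12_16_6_ok))) (B (M (nat_lit 524) (B (L (nat_lit 397) ln12_16_6 ln12_16_6_ok) (L (nat_lit 556) ln12_17_6 ln12_17_6_ok))) (B (M (nat_lit 427) (B (M (nat_lit 524) (B (L (nat_lit 395) ln12_16_7 ln12_16_7_ok) (L (nat_lit 556) ln12_17_6 ln12_17_6_ok))) (M (nat_lit 462) (B (L (nat_lit 426) ln10_13_0 ln10_13_0_ok) (L (nat_lit 463) ln15_14_3 ln15_14_3_ok))))) (M (nat_lit 364) (B (M (nat_lit 365) (B (L (nat_lit 333) ln12_14_6 ln12_14_6_ok) (L (nat_lit 397) ln12_15_6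 ln12_15_6_ok))) (M (nat_lit 491) (B (L (nat_lit 459) ln12_11_5 ln12_11_5_ok) (L (nat_lit 523) ln12_12_5 ln12_12_5_ok))))))))) (B (M (nat_lit 364) (B (L (nat_lit 332) ln12_10_4 ln12_10_4_ok) (M (nat_lit 492) (B (M (nat_lit 491) (B (L (nat_lit 459) ln12_11_5 ln12_11_5_ok) (L (nat_lit 523) ln12_12_5 ln12_12_5_ok))) (M (nat_lit 397) (B (L (nat_lit 365) ln12_15_6 ln12_15_6_ok) (L (nat_lit 524) ln12_16_6 ln12_16_6_ok))))))) (B (M (nat_lit 462) (B (M (nat_lit 427) (B (L (nat_lit 426) ln10_13_0 ln10_13_0_ok) (L (nat_lit 463) ln15_14_3 ln15_14_3_ok))) (B (M (nat_lit 463) (B (L (nat_lit 427) ln15_14_3 ln15_14_3_ok) (L (nat_lit 464) ln16_14_3 ln16_14_3_ok))) (B (M (nat_lit 492) (B (M (nat_lit 397) (B (L (nat_lit 365) ln12_15_6 ln12_15_6_ok) (L (nat_lit 524) ln12_16_6 ln12_16_6_ok))) (M (nat_lit 463) (B (L (nat_lit 464) ln16_14_3 ln16_14_3_ok) (L (nat_lit 491) ln15_14_1 ln15_14_1_ok))))) (M (nat_lit 492) (B (M (nat_lit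 397) (B (L (nat_lit 365) ln12_15_6 ln12_15_6_ok) (L (nat_lit 524) ln12_16_6 ln12_16_6_ok))) (M (nat_lit 491) (B (L (nat_lit 523) ln12_12_5 ln12_12_5_ok) (M (nat_lit 490) (B (L (nat_lit 459) ln14_14_1 ln14_14_1_ok) (L (nat_lit 489) ln9_15_2 ln9_15_2_ok))))))))))) (B (M (nat_lit 364) (B (L (nat_lit 332) ln12_10_4 ln12_10_4_ok) (M (nat_lit 492) (B (M (nat_lit 491) (B (L (nat_lit 459) ln12_11_5 ln12_11_5_ok) (L (nat_lit 523) ln12_12_5 ln12_12_5_ok))) (M (nat_lit 524) (B (L (nat_lit 397) ln12_16_6 ln12_16_6_ok) (L (nat_lit 556) ln12_17_6 ln12_17_6_ok))))))) (B (M (nat_lit 492) (B (M (nat_lit 364) (B (L (nat_lit 332) ln12_10_4 ln12_10_4_ok) (M (nat_lit 491) (B (L (nat_lit 459) ln12_11_5 ln12_11_5_ok) (L (nat_lit 523) ln12_12_5 ln12_12_5_ok))))) (M (nat_lit 427) (B (M (nat_lit 524) (B (L (nat_lit 395) ln12_16_7 ln12_16_7_ok) (L (nat_lit 556) ln12_17_6 ln12_17_6_ok))) (M (nat_lit 462) (B (L (nat_lit 426) ln10_13_0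 ln10_13_0_ok) (L (nat_lit 463) ln15_14_3 ln15_14_3_ok))))))) (B (M (nat_lit 365) (B (M (nat_lit 364) (B (L (nat_lit 332) ln12_10_4 ln12_10_4_ok) (L (nat_lit 333) ln12_14_6 ln12_14_6_ok))) (B (M (nat_lit 333) (B (L (nat_lit 364) ln12_14_6 ln12_14_6_ok) (L (nat_lit 397) ln13_10_5 ln13_10_5_ok))) (M (nat_lit 462) (B (M (nat_lit 397) (B (L (nat_lit 492) ln12_15_6 ln12_15_6_ok) (L (nat_lit 494) ln13_11_4 ln13_11_4_ok))) (M (nat_lit 463) (B (L (nat_lit 427) ln15_14_3 ln15_14_3_ok) (L (nat_lit 464) ln16_14_3 ln16_14_3_ok)))))))) (M (nat_lit 364) (B (L (nat_lit 332) ln12_10_4 ln12_10_4_ok) (M (nat_lit 462) (B (M (nat_lit 427) (B (L (nat_lit 426) ln10_13_0 ln10_13_0_ok) (L (nat_lit 463) ln15_14_3 ln15_14_3_ok))) (M (nat_lit 494) (B (M (nat_lit 365) (B (L (nat_lit 333) ln12_14_6 ln12_14_6_ok) (L (nat_lit 397) ln13_11_4 ln13_11_4_ok))) (M (nat_lit 459) (B (L (nat_lit 491) ln12_11_5 ln12_11_5_ok) (L (nat_lit 495) ln11_14_0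 ln11_14_0_ok)))))))))))))))))
noncomputable def c32_n3688 : Cert := (M (nat_lit 461) (B (M (nat_lit 493) (B (L (nat_lit 525) ln13_16_7 ln13_16_7_ok) (M (nat_lit 364) (B (L (nat_lit 332) ln12_10_4 ln12_10_4_ok) (L (nat_lit 397) ln13_15_7 ln13_15_7_ok))))) (B (M (nat_lit 493) (B (L (nat_lit 525) ln13_16_7 ln13_16_7_ok) (M (nat_lit 364) (B (L (nat_lit 397) ln13_15_7 ln13_15_7_ok) (L (nat_lit 460) ln12_11_4 ln12_11_4_ok))))) (B (M (nat_lit 493) (B (L (nat_lit 525) ln13_16_7 ln13_16_7_ok) (M (nat_lit 397) (B (M (nat_lit 398) (B (L (nat_lit 366) ln13_15_6 ln13_15_6_ok) (M (nat_lit 399) (B (L (nat_lit 427) ln15_12_1 ln15_12_1_ok) (L (nat_lit 400) ln16_12_1 ln16_12_1_ok))))) (M (nat_lit 365) (B (M (nat_lit 492) (B (L (nat_lit 460) ln12_15_6 ln12_15_6_ok) (L (nat_lit 524) ln13_12_5 ln13_12_5_ok))) (M (nat_lit 494) (B (L (nat_lit 462) ln13_11_4 ln13_11_4_ok) (L (nat_lit 526) ln13_12_4 ln13_12_4_ok))))))))) (B (M (nat_lit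 364) (B (L (nat_lit 332) ln12_10_4 ln12_10_4_ok) (M (nat_lit 493) (B (L (nat_lit 460) ln12_11_4 ln12_11_4_ok) (L (nat_lit 525) ln13_16_7 ln13_16_7_ok))))) c32_n3687)))))
noncomputable def c32_n3811 : Cert := (M (nat_lit 461) (B (M (nat_lit 493) (B (L (nat_lit 525) ln13_16_7 ln13_16_7_ok) (M (nat_lit 365) (B (M (nat_lit 492) (B (L (nat_lit 460) ln12_15_6 ln12_15_6_ok) (L (nat_lit 524) ln13_12_5 ln13_12_5_ok))) (M (nat_lit 494) (B (L (nat_lit 462) ln13_11_4 ln13_11_4_ok) (L (nat_lit 526) ln13_12_4 ln13_12_4_ok))))))) (B (M (nat_lit 493) (B (L (nat_lit 525) ln13_16_7 ln13_16_7_ok) (M (nat_lit 460) (B (M (nat_lit 492) (B (L (nat_lit 524) ln12_16_6 ln12_16_6_ok) (M (nat_lit 494) (B (L (nat_lit 526) ln13_12_4 ln13_12_4_ok) (M (nat_lit 459) (B (L (nat_lit 458) ln10_14_0 ln10_14_0_ok) (L (nat_lit 495) ln15_15_3 ln15_15_3_ok))))))) (B (M (nat_lit 492) (B (L (nat_lit 524) ln12_16_6 ln12_16_6_ok) (M (nat_lit 491) (B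 (L (nat_lit 523) ln12_12_5 ln12_12_5_ok) (M (nat_lit 462) (B (L (nat_lit 463) ln15_14_1 ln15_14_1_ok) (L (nat_lit 490) ln10_15_2 ln10_15_2_ok))))))) (M (nat_lit 462) (B (M (nat_lit 427) (B (L (nat_lit 426) ln10_13_0 ln10_13_0_ok) (L (nat_lit 463) ln15_14_3 ln15_14_3_ok))) (M (nat_lit 494) (B (L (nat_lit 526) ln13_12_4 ln13_12_4_ok) (M (nat_lit 459) (B (L (nat_lit 458) ln10_14_0 ln10_14_0_ok) (L (nat_lit 495) ln11_14_0 ln11_14_0_ok)))))))))))) (B (M (nat_lit 493) (B (L (nat_lit 525) ln13_16_7 ln13_16_7_ok) (M (nat_lit 492) (B (L (nat_lit 524) ln13_12_5 ln13_12_5_ok) (M (nat_lit 494) (B (L (nat_lit 526) ln13_12_4 ln13_12_4_ok) (M (nat_lit 462) (B (L (nat_lit 365) ln13_11_4 ln13_11_4_ok) (M (nat_lit 463) (B (L (nat_lit 464) ln16_14_3 ln16_14_3_ok) (L (nat_lit 491) ln11_15_2 ln11_15_2_ok))))))))))) (B (M (nat_lit 493) (B (L (nat_lit 525) ln13_16_7 ln13_16_7_ok) (M (nat_lit 492) (B (L (nat_lit 524) ln13_12_5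 ln13_12_5_ok) (M (nat_lit 460) (B (L (nat_lit 365) ln12_15_6 ln12_15_6_ok) (M (nat_lit 494) (B (L (nat_lit 526) ln13_12_4 ln13_12_4_ok) (M (nat_lit 459) (B (L (nat_lit 458) ln10_14_0 ln10_14_0_ok) (L (nat_lit 495) ln15_15_3 ln15_15_3_ok))))))))))) (B (M (nat_lit 493) (B (L (nat_lit 525) ln13_16_7 ln13_16_7_ok) (M (nat_lit 365) (B (M (nat_lit 333) (B (L (nat_lit 301) ln13_9_5 ln13_9_5_ok) (L (nat_lit 460) ln13_10_5 ln13_10_5_ok))) (M (nat_lit 494) (B (L (nat_lit 462) ln13_11_4 ln13_11_4_ok) (L (nat_lit 526) ln13_12_4 ln13_12_4_ok))))))) (B (M (nat_lit 460) (B (M (nat_lit 365) (B (L (nat_lit 333) ln13_10_5 ln13_10_5_ok) (L (nat_lit 492) ln12_15_6 ln12_15_6_ok))) (B (M (nat_lit 492) (B (L (nat_lit 365) ln12_15_6 ln12_15_6_ok) (L (nat_lit 524) ln12_16_6 ln12_16_6_ok))) (B (M (nat_lit 395) (B (M (nat_lit 492) (B (L (nat_lit 363) ln12_15_7 ln12_15_7_ok) (L (nat_lit 524) ln12_16_6 ln12_16_6_ok))) (M (nat_lit 426)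 (B (M (nat_lit 394) (B (L (nat_lit 393) ln9_12_0 ln9_12_0_ok) (L (nat_lit 425) ln13_12_1 ln13_12_1_ok))) (M (nat_lit 427) (B (L (nat_lit 398) ln14_12_1 ln14_12_1_ok) (L (nat_lit 462) ln10_13_0 ln10_13_0_ok))))))) (M (nat_lit 462) (B (M (nat_lit 365) (B (L (nat_lit 333) ln13_10_5 ln13_10_5_ok) (L (nat_lit 494) ln13_11_4 ln13_11_4_ok))) (M (nat_lit 463) (B (L (nat_lit 427) ln15_14_3 ln15_14_3_ok) (L (nat_lit 464) ln16_14_3 ln16_14_3_ok))))))))) (M (nat_lit 493) (B (L (nat_lit 525) ln13_16_7 ln13_16_7_ok) (M (nat_lit 395) (B (M (nat_lit 492) (B (L (nat_lit 524) ln13_12_5 ln13_12_5_ok) (M (nat_lit 460) (B (L (nat_lit 363) ln12_15_7 ln12_15_7_ok) (L (nat_lit 365) ln12_15_6 ln12_15_6_ok))))) (M (nat_lit 426) (B (M (nat_lit 394) (B (L (nat_lit 393) ln9_12_0 ln9_12_0_ok) (L (nat_lit 425) ln13_12_1 ln13_12_1_ok))) (M (nat_lit 427) (B (L (nat_lit 398) ln14_12_1 ln14_12_1_ok) (L (nat_lit 462) ln10_13_0 ln10_13_0_ok))))))))))))))))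
theorem c32_s3842 : Sem (nat_lit 2079502270752001762064242424960807725827516048677469043429686155012882190638009693656033379242457518153052022685796627120027336704) (nat_lit 411887859809226825471423261193574799927313188856584891184722876330809148931876437897046151152769048519730737861168558160677132308403467200328120635738690682880) (nat_lit 411887859809226825471423261193574799927313188856584891184722876330809148931876437897046151152769048519730737861168558160677132308403467200328120635738690682880) :=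
  sem_of_chk (M (nat_lit 397) (B (M (nat_lit 398) (B (M (nat_lit 399) (B (L (nat_lit 427) ln15_12_1 ln15_12_1_ok) (L (nat_lit 400) ln16_12_1 ln16_12_1_ok))) (M (nat_lit 365) (B (M (nat_lit 460) (B (L (nat_lit 333) ln13_10_5 ln13_10_5_ok) (L (nat_lit 492) ln12_15_6 ln12_15_6_ok))) (M (nat_lit 366) (B (M (nat_lit 334) (B (L (nat_lit 302) ln14_9_5 ln14_9_5_ok) (L (nat_lit 461) ln13_14_6 ln13_14_6_ok))) (M (nat_lit 367) (B (L (nat_lit 368) ln16_11_1 ln16_11_1_ok) (L (nat_lit 395) ln11_12_2 ln11_12_2_ok))))))))) (B (M (nat_lit 398) (B (M (nat_lit 399) (B (L (nat_lit 427) ln15_12_1 ln15_12_1_ok) (L (nat_lit 400) ln16_12_1 ln16_12_1_ok))) (M (nat_lit 365) (B (M (nat_lit 460) (B (L (nat_lit 333) ln13_10_5 ln13_10_5_ok) (L (nat_lit 492) ln12_15_6 ln12_15_6_ok))) (M (nat_lit 366) (B (M (nat_lit 367) (B (L (nat_lit 368) ln16_11_1 ln16_11_1_ok) (L (nat_lit 395) ln11_12_2 ln11_12_2_ok))) (M (nat_lit 461) (B (L (nat_lit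 334) ln13_14_6 ln13_14_6_ok) (L (nat_lit 493) ln13_15_6 ln13_15_6_ok))))))))) (B (M (nat_lit 398) (B (M (nat_lit 399) (B (L (nat_lit 427) ln15_12_1 ln15_12_1_ok) (L (nat_lit 400) ln16_12_1 ln16_12_1_ok))) (B (M (nat_lit 461) (B (M (nat_lit 493) (B (L (nat_lit 366) ln13_15_6 ln13_15_6_ok) (L (nat_lit 525) ln13_16_7 ln13_16_7_ok))) (B (M (nat_lit 493) (B (L (nat_lit 525) ln13_16_7 ln13_16_7_ok) (M (nat_lit 365) (B (M (nat_lit 492) (B (L (nat_lit 460) ln12_15_6 ln12_15_6_ok) (L (nat_lit 524) ln13_12_5 ln13_12_5_ok))) (M (nat_lit 494) (B (L (nat_lit 462) ln13_11_4 ln13_11_4_ok) (L (nat_lit 526) ln13_12_4 ln13_12_4_ok))))))) (M (nat_lit 395) (B (M (nat_lit 426) (B (L (nat_lit 427) ln14_12_1 ln14_12_1_ok) (M (nat_lit 394) (B (L (nat_lit 393) ln9_12_0 ln9_12_0_ok) (L (nat_lit 425) ln13_12_1 ln13_12_1_ok))))) (M (nat_lit 366) (B (L (nat_lit 367) ln11_12_2 ln11_12_2_ok) (M (nat_lit 334) (B (L (nat_lit 302) ln14_9_5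 ln14_9_5_ok) (L (nat_lit 365) ln13_14_6 ln13_14_6_ok)))))))))) (M (nat_lit 395) (B (M (nat_lit 366) (B (L (nat_lit 367) ln11_12_2 ln11_12_2_ok) (M (nat_lit 394) (B (L (nat_lit 365) ln10_12_2 ln10_12_2_ok) (L (nat_lit 393) ln9_12_0 ln9_12_0_ok))))) (B (M (nat_lit 399) (B (L (nat_lit 400) ln16_12_1 ln16_12_1_ok) (M (nat_lit 367) (B (L (nat_lit 366) ln11_12_2 ln11_12_2_ok) (L (nat_lit 368) ln12_12_2 ln12_12_2_ok))))) (M (nat_lit 394) (B (L (nat_lit 393) ln9_12_0 ln9_12_0_ok) (M (nat_lit 362) (B (L (nat_lit 361) ln13_12_3 ln13_12_3_ok) (L (nat_lit 363) ln14_12_3 ln14_12_3_ok))))))))))) (B (M (nat_lit 398) (B (M (nat_lit 399) (B (L (nat_lit 427) ln15_12_1 ln15_12_1_ok) (L (nat_lit 400) ln16_12_1 ln16_12_1_ok))) (B (M (nat_lit 460) (B (M (nat_lit 365) (B (L (nat_lit 333) ln13_10_5 ln13_10_5_ok) (L (nat_lit 492) ln12_15_6 ln12_15_6_ok))) (B (M (nat_lit 492) (B (L (nat_lit 365) ln12_15_6 ln12_15_6_ok) (L (nat_lit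 524) ln12_16_6 ln12_16_6_ok))) (B (M (nat_lit 492) (B (L (nat_lit 524) ln12_16_6 ln12_16_6_ok) (M (nat_lit 366) (B (M (nat_lit 395) (B (L (nat_lit 363) ln12_15_7 ln12_15_7_ok) (L (nat_lit 367) ln11_12_2 ln11_12_2_ok))) (M (nat_lit 493) (B (L (nat_lit 461) ln13_15_6 ln13_15_6_ok) (L (nat_lit 525) ln12_12_4 ln12_12_4_ok))))))) (M (nat_lit 461) (B (M (nat_lit 493) (B (L (nat_lit 366) ln13_15_6 ln13_15_6_ok) (L (nat_lit 525) ln13_16_7 ln13_16_7_ok))) (M (nat_lit 462) (B (M (nat_lit 365) (B (L (nat_lit 333) ln13_10_5 ln13_10_5_ok) (L (nat_lit 494) ln13_11_4 ln13_11_4_ok))) (M (nat_lit 427) (B (L (nat_lit 426) ln10_13_2 ln10_13_2_ok) (L (nat_lit 463) ln15_14_3 ln15_14_3_ok))))))))))) (M (nat_lit 395) (B (M (nat_lit 399) (B (L (nat_lit 400) ln16_12_1 ln16_12_1_ok) (M (nat_lit 367) (B (L (nat_lit 366) ln11_12_2 ln11_12_2_ok) (L (nat_lit 368) ln12_12_2 ln12_12_2_ok))))) (M (nat_lit 394) (B (L (nat_lit 393) ln9_12_0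 ln9_12_0_ok) (M (nat_lit 362) (B (L (nat_lit 361) ln13_12_3 ln13_12_3_ok) (L (nat_lit 363) ln14_12_3 ln14_12_3_ok)))))))))) (B (M (nat_lit 398) (B (M (nat_lit 399) (B (L (nat_lit 427) ln15_12_1 ln15_12_1_ok) (L (nat_lit 400) ln16_12_1 ln16_12_1_ok))) (B (M (nat_lit 395) (B (M (nat_lit 394) (B (L (nat_lit 393) ln9_12_0 ln9_12_0_ok) (M (nat_lit 362) (B (L (nat_lit 361) ln13_12_3 ln13_12_3_ok) (L (nat_lit 363) ln14_12_3 ln14_12_3_ok))))) (B (M (nat_lit 426) (B (L (nat_lit 427) ln14_12_1 ln14_12_1_ok) (M (nat_lit 394) (B (L (nat_lit 393) ln9_12_0 ln9_12_0_ok) (L (nat_lit 425) ln13_12_1 ln13_12_1_ok))))) (B (M (nat_lit 394) (B (M (nat_lit 362) (B (L (nat_lit 361) ln13_12_3 ln13_12_3_ok) (L (nat_lit 363) ln14_12_3 ln14_12_3_ok))) (M (nat_lit 426) (B (L (nat_lit 425) ln13_12_1 ln13_12_1_ok) (L (nat_lit 427) ln14_12_1 ln14_12_1_ok))))) (M (nat_lit 427) (B (L (nat_lit 426) ln14_12_1 ln14_12_1_ok) (M (nat_lit 363)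 (B (L (nat_lit 362) ln14_12_3 ln14_12_3_ok) (M (nat_lit 331) (B (L (nat_lit 299) ln11_9_4 ln11_9_4_ok) (L (nat_lit 460) ln11_10_4 ln11_10_4_ok))))))))))) (M (nat_lit 395) (B (M (nat_lit 399) (B (L (nat_lit 400) ln16_12_1 ln16_12_1_ok) (M (nat_lit 367) (B (L (nat_lit 366) ln11_12_2 ln11_12_2_ok) (L (nat_lit 368) ln12_12_2 ln12_12_2_ok))))) (M (nat_lit 394) (B (L (nat_lit 393) ln9_12_0 ln9_12_0_ok) (M (nat_lit 362) (B (L (nat_lit 361) ln13_12_3 ln13_12_3_ok) (L (nat_lit 363) ln14_12_3 ln14_12_3_ok)))))))))) (B c32_n3811 (B (M (nat_lit 461) (B (M (nat_lit 493) (B (L (nat_lit 525) ln13_16_7 ln13_16_7_ok) (M (nat_lit 398) (B (L (nat_lit 366) ln13_15_6 ln13_15_6_ok) (M (nat_lit 399) (B (L (nat_lit 427) ln15_12_1 ln15_12_1_ok) (L (nat_lit 400) ln16_12_1 ln16_12_1_ok))))))) (B (M (nat_lit 493) (B (L (nat_lit 525) ln13_16_7 ln13_16_7_ok) (M (nat_lit 365) (B (M (nat_lit 333) (B (L (nat_lit 301) ln13_9_5 ln13_9_5_ok)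 (L (nat_lit 460) ln13_10_5 ln13_10_5_ok))) (M (nat_lit 494) (B (L (nat_lit 462) ln13_11_4 ln13_11_4_ok) (L (nat_lit 526) ln13_12_4 ln13_12_4_ok))))))) (M (nat_lit 365) (B (M (nat_lit 333) (B (L (nat_lit 301) ln13_9_5 ln13_9_5_ok) (L (nat_lit 460) ln13_10_5 ln13_10_5_ok))) (B (M (nat_lit 460) (B (L (nat_lit 333) ln13_10_5 ln13_10_5_ok) (L (nat_lit 492) ln12_15_6 ln12_15_6_ok))) (B (M (nat_lit 460) (B (L (nat_lit 492) ln12_15_6 ln12_15_6_ok) (M (nat_lit 462) (B (L (nat_lit 494) ln13_11_4 ln13_11_4_ok) (M (nat_lit 427) (B (L (nat_lit 426) ln10_13_0 ln10_13_0_ok) (L (nat_lit 463) ln15_14_3 ln15_14_3_ok))))))) (M (nat_lit 333) (B (L (nat_lit 301) ln13_9_5 ln13_9_5_ok) (M (nat_lit 334) (B (L (nat_lit 302) ln13_13_6 ln13_13_6_ok) (L (nat_lit 366) ln13_14_6 ln13_14_6_ok)))))))))))) (B (M (nat_lit 365) (B (M (nat_lit 333) (B (L (nat_lit 301) ln13_9_5 ln13_9_5_ok) (L (nat_lit 460) ln13_10_5 ln13_10_5_ok))) (B (M (nat_lit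 460) (B (L (nat_lit 333) ln13_10_5 ln13_10_5_ok) (L (nat_lit 492) ln12_15_6 ln12_15_6_ok))) (B (M (nat_lit 461) (B (M (nat_lit 492) (B (L (nat_lit 460) ln12_15_6 ln12_15_6_ok) (M (nat_lit 493) (B (L (nat_lit 525) ln13_16_7 ln13_16_7_ok) (L (nat_lit 524) ln13_12_5 ln13_12_5_ok))))) (B (M (nat_lit 493) (B (L (nat_lit 525) ln13_16_7 ln13_16_7_ok) (M (nat_lit 494) (B (L (nat_lit 462) ln13_11_4 ln13_11_4_ok) (L (nat_lit 526) ln13_12_4 ln13_12_4_ok))))) (M (nat_lit 460) (B (L (nat_lit 492) ln12_15_6 ln12_15_6_ok) (M (nat_lit 462) (B (L (nat_lit 494) ln13_11_4 ln13_11_4_ok) (M (nat_lit 427) (B (L (nat_lit 426) ln10_13_0 ln10_13_0_ok) (L (nat_lit 463) ln15_14_3 ln15_14_3_ok)))))))))) (M (nat_lit 461) (B (M (nat_lit 493) (B (L (nat_lit 525) ln13_16_7 ln13_16_7_ok) (M (nat_lit 494) (B (L (nat_lit 462) ln13_11_4 ln13_11_4_ok) (L (nat_lit 526) ln13_12_4 ln13_12_4_ok))))) (M (nat_lit 333) (B (L (nat_lit 301) ln13_9_5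 ln13_9_5_ok) (M (nat_lit 334) (B (L (nat_lit 302) ln13_13_6 ln13_13_6_ok) (L (nat_lit 366) ln13_14_6 ln13_14_6_ok))))))))))) (B (M (nat_lit 365) (B (M (nat_lit 333) (B (L (nat_lit 301) ln13_9_5 ln13_9_5_ok) (L (nat_lit 460) ln13_10_5 ln13_10_5_ok))) (B (M (nat_lit 460) (B (L (nat_lit 333) ln13_10_5 ln13_10_5_ok) (L (nat_lit 492) ln12_15_6 ln12_15_6_ok))) (B (M (nat_lit 461) (B (M (nat_lit 492) (B (L (nat_lit 460) ln12_15_6 ln12_15_6_ok) (M (nat_lit 493) (B (L (nat_lit 525) ln13_16_7 ln13_16_7_ok) (L (nat_lit 524) ln13_12_5 ln13_12_5_ok))))) (B (M (nat_lit 493) (B (L (nat_lit 525) ln13_16_7 ln13_16_7_ok) (M (nat_lit 366) (B (L (nat_lit 334) ln13_14_6 ln13_14_6_ok) (L (nat_lit 398) ln13_15_6 ln13_15_6_ok))))) (M (nat_lit 366) (B (L (nat_lit 334) ln13_14_6 ln13_14_6_ok) (M (nat_lit 395) (B (L (nat_lit 394) ln10_12_2 ln10_12_2_ok) (M (nat_lit 367) (B (L (nat_lit 368) ln16_11_1 ln16_11_1_ok) (L (nat_lit 398)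 ln11_12_2 ln11_12_2_ok)))))))))) (M (nat_lit 461) (B (M (nat_lit 493) (B (L (nat_lit 525) ln13_16_7 ln13_16_7_ok) (M (nat_lit 366) (B (L (nat_lit 334) ln13_14_6 ln13_14_6_ok) (L (nat_lit 398) ln13_15_6 ln13_15_6_ok))))) (B (M (nat_lit 493) (B (L (nat_lit 525) ln13_16_7 ln13_16_7_ok) (M (nat_lit 494) (B (L (nat_lit 462) ln13_11_4 ln13_11_4_ok) (L (nat_lit 526) ln13_12_4 ln13_12_4_ok))))) (M (nat_lit 333) (B (L (nat_lit 301) ln13_9_5 ln13_9_5_ok) (M (nat_lit 334) (B (L (nat_lit 302) ln13_13_6 ln13_13_6_ok) (L (nat_lit 366) ln13_14_6 ln13_14_6_ok)))))))))))) (M (nat_lit 398) (B (M (nat_lit 399) (B (L (nat_lit 427) ln15_12_1 ln15_12_1_ok) (L (nat_lit 400) ln16_12_1 ln16_12_1_ok))) (B (M (nat_lit 426) (B (L (nat_lit 427) ln10_13_2 ln10_13_2_ok) (M (nat_lit 366) (B (M (nat_lit 395) (B (L (nat_lit 367) ln11_12_2 ln11_12_2_ok) (M (nat_lit 394) (B (L (nat_lit 393) ln9_12_0 ln9_12_0_ok) (L (nat_lit 425) ln13_12_1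 ln13_12_1_ok))))) (M (nat_lit 461) (B (L (nat_lit 493) ln13_15_6 ln13_15_6_ok) (M (nat_lit 334) (B (L (nat_lit 302) ln14_9_5 ln14_9_5_ok) (L (nat_lit 365) ln13_14_6 ln13_14_6_ok))))))))) (M (nat_lit 395) (B (M (nat_lit 366) (B (L (nat_lit 367) ln11_12_2 ln11_12_2_ok) (M (nat_lit 394) (B (L (nat_lit 365) ln10_12_2 ln10_12_2_ok) (L (nat_lit 393) ln9_12_0 ln9_12_0_ok))))) (B (M (nat_lit 399) (B (L (nat_lit 400) ln16_12_1 ln16_12_1_ok) (M (nat_lit 367) (B (L (nat_lit 366) ln11_12_2 ln11_12_2_ok) (L (nat_lit 368) ln12_12_2 ln12_12_2_ok))))) (M (nat_lit 394) (B (L (nat_lit 393) ln9_12_0 ln9_12_0_ok) (M (nat_lit 362) (B (L (nat_lit 361) ln13_12_3 ln13_12_3_ok) (L (nat_lit 363) ln14_12_3 ln14_12_3_ok))))))))))))))))))))) (nat_lit 2079502270752001762064242424960807725827516048677469043429686155012882190638009693656033379242457518153052022685796627120027336704) (nat_lit 411887859809226825471423261193574799927313188856584891184722876330809148931876437897046151152769048519730737861168558160677132308403467200328120635738690682880)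 (nat_lit 411887859809226825471423261193574799927313188856584891184722876330809148931876437897046151152769048519730737861168558160677132308403467200328120635738690682880) (by decide +kernel)
noncomputable def c32_n3924 : Cert := (M (nat_lit 492) (B (M (nat_lit 493) (B (L (nat_lit 525) ln13_16_7 ln13_16_7_ok) (M (nat_lit 397) (B (L (nat_lit 524) ln13_12_5 ln13_12_5_ok) (M (nat_lit 398) (B (L (nat_lit 366) ln13_15_6 ln13_15_6_ok) (M (nat_lit 399) (B (L (nat_lit 427) ln15_12_1 ln15_12_1_ok) (L (nat_lit 400) ln16_12_1 ln16_12_1_ok))))))))) (B (M (nat_lit 427) (B (M (nat_lit 462) (B (L (nat_lit 426) ln10_13_0 ln10_13_0_ok) (M (nat_lit 463) (B (L (nat_lit 460) ln15_14_3 ln15_14_3_ok) (L (nat_lit 464) ln16_14_3 ln16_14_3_ok))))) (B (M (nat_lit 524) (B (M (nat_lit 460) (B (L (nat_lit 395) ln12_16_7 ln12_16_7_ok) (L (nat_lit 397) ln12_16_6 ln12_16_6_ok))) (B (M (nat_lit 460) (B (L (nat_lit 397) ln12_16_6 ln12_16_6_ok)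 (L (nat_lit 556) ln12_17_6 ln12_17_6_ok))) (B (M (nat_lit 460) (B (L (nat_lit 395) ln12_16_7 ln12_16_7_ok) (L (nat_lit 556) ln12_17_6 ln12_17_6_ok))) (M (nat_lit 493) (B (L (nat_lit 525) ln13_16_7 ln13_16_7_ok) (L (nat_lit 397) ln13_12_5 ln13_12_5_ok))))))) (M (nat_lit 397) (B (M (nat_lit 398) (B (L (nat_lit 399) ln15_12_1 ln15_12_1_ok) (L (nat_lit 426) ln10_13_2 ln10_13_2_ok))) (M (nat_lit 493) (B (L (nat_lit 525) ln13_16_7 ln13_16_7_ok) (L (nat_lit 524) ln13_12_5 ln13_12_5_ok)))))))) (B (M (nat_lit 493) (B (L (nat_lit 525) ln13_16_7 ln13_16_7_ok) (M (nat_lit 460) (B (M (nat_lit 491) (B (L (nat_lit 523) ln12_12_5 ln12_12_5_ok) (M (nat_lit 462) (B (L (nat_lit 463) ln15_14_1 ln15_14_1_ok) (L (nat_lit 490) ln10_15_2 ln10_15_2_ok))))) (M (nat_lit 524) (B (L (nat_lit 556) ln12_17_6 ln12_17_6_ok) (M (nat_lit 395) (B (L (nat_lit 363) ln12_15_7 ln12_15_7_ok) (L (nat_lit 427) ln12_16_7 ln12_16_7_ok))))))))) (B (M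 (nat_lit 493) (B (L (nat_lit 525) ln13_16_7 ln13_16_7_ok) (M (nat_lit 460) (B (M (nat_lit 524) (B (L (nat_lit 397) ln12_16_6 ln12_16_6_ok) (L (nat_lit 556) ln12_17_6 ln12_17_6_ok))) (M (nat_lit 491) (B (L (nat_lit 523) ln12_12_5 ln12_12_5_ok) (M (nat_lit 462) (B (L (nat_lit 463) ln15_14_1 ln15_14_1_ok) (L (nat_lit 490) ln10_15_2 ln10_15_2_ok))))))))) (B (M (nat_lit 460) (B (M (nat_lit 524) (B (L (nat_lit 397) ln12_16_6 ln12_16_6_ok) (L (nat_lit 556) ln12_17_6 ln12_17_6_ok))) (B (M (nat_lit 395) (B (L (nat_lit 363) ln12_15_7 ln12_15_7_ok) (M (nat_lit 524) (B (L (nat_lit 427) ln12_16_7 ln12_16_7_ok) (L (nat_lit 556) ln12_17_6 ln12_17_6_ok))))) (M (nat_lit 491) (B (L (nat_lit 523) ln12_12_5 ln12_12_5_ok) (M (nat_lit 462) (B (L (nat_lit 463) ln15_14_1 ln15_14_1_ok) (M (nat_lit 490) (B (L (nat_lit 459) ln14_14_1 ln14_14_1_ok) (L (nat_lit 489) ln9_15_2 ln9_15_2_ok)))))))))) (M (nat_lit 462) (B (M (nat_lit 427)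 (B (L (nat_lit 426) ln10_13_0 ln10_13_0_ok) (M (nat_lit 463) (B (L (nat_lit 460) ln15_14_3 ln15_14_3_ok) (L (nat_lit 464) ln16_14_3 ln16_14_3_ok))))) (B (M (nat_lit 463) (B (L (nat_lit 464) ln16_14_3 ln16_14_3_ok) (M (nat_lit 460) (B (L (nat_lit 427) ln15_14_3 ln15_14_3_ok) (L (nat_lit 491) ln15_14_1 ln15_14_1_ok))))) (B (M (nat_lit 491) (B (M (nat_lit 460) (B (L (nat_lit 523) ln12_12_5 ln12_12_5_ok) (L (nat_lit 463) ln15_14_1 ln15_14_1_ok))) (M (nat_lit 493) (B (L (nat_lit 525) ln13_16_7 ln13_16_7_ok) (L (nat_lit 490) ln10_15_2 ln10_15_2_ok))))) (B (M (nat_lit 463) (B (L (nat_lit 464) ln16_14_3 ln16_14_3_ok) (M (nat_lit 493) (B (L (nat_lit 525) ln13_16_7 ln13_16_7_ok) (M (nat_lit 491) (B (L (nat_lit 490) ln10_15_2 ln10_15_2_ok) (L (nat_lit 494) ln11_15_2 ln11_15_2_ok))))))) (M (nat_lit 427) (B (L (nat_lit 426) ln10_13_0 ln10_13_0_ok) (M (nat_lit 491) (B (M (nat_lit 523) (B (L (nat_lit 459) ln11_16_6 ln11_16_6_ok)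 (L (nat_lit 460) ln12_12_5 ln12_12_5_ok))) (M (nat_lit 493) (B (L (nat_lit 525) ln13_16_7 ln13_16_7_ok) (L (nat_lit 490) ln10_15_2 ln10_15_2_ok))))))))))))))))))
theorem c32_s3970 : Sem (nat_lit 2079502270752001762064242424960807725827516048677469043429686155012882190638009693656033379242457518153052022685796627120027336704) (nat_lit 235872651743560669099449354665148737316585697806530391991617948919666013383087149444874064770255843900020666425649053434547610472130385685901721149024989185976104386560) (nat_lit 235872651743560669099449354665148737316585697806530391991617948919666013383087149444874064770255843900020666425649053434547610472130385685901721149024989185976104386560) :=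
  sem_of_chk (M (nat_lit 461) (B (M (nat_lit 364) (B (L (nat_lit 332) ln12_10_4 ln12_10_4_ok) (M (nat_lit 493) (B (L (nat_lit 460) ln12_11_4 ln12_11_4_ok) (L (nat_lit 525) ln13_16_7 ln13_16_7_ok))))) (B (M (nat_lit 493) (B (L (nat_lit 525) ln13_16_7 ln13_16_7_ok) (M (nat_lit 364) (B (L (nat_lit 397) ln13_15_7 ln13_15_7_ok) (L (nat_lit 460) ln12_11_4 ln12_11_4_ok))))) (B c32_n3924 (B (M (nat_lit 493) (B (L (nat_lit 525) ln13_16_7 ln13_16_7_ok) (M (nat_lit 364) (B (L (nat_lit 332) ln12_10_4 ln12_10_4_ok) (L (nat_lit 397) ln13_15_7 ln13_15_7_ok))))) (M (nat_lit 460) (B (M (nat_lit 364) (B (L (nat_lit 332) ln12_10_4 ln12_10_4_ok) (M (nat_lit 492) (B (M (nat_lit 363) (B (L (nat_lit 331) ln12_14_7 ln12_14_7_ok) (L (nat_lit 395) ln12_15_7 ln12_15_7_ok))) (M (nat_lit 491) (B (L (nat_lit 459) ln12_11_5 ln12_11_5_ok) (L (nat_lit 523) ln12_12_5 ln12_12_5_ok))))))) (B (M (nat_lit 364) (B (L (nat_lit 332) ln12_10_4 ln12_10_4_ok)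 (M (nat_lit 492) (B (M (nat_lit 491) (B (L (nat_lit 459) ln12_11_5 ln12_11_5_ok) (L (nat_lit 523) ln12_12_5 ln12_12_5_ok))) (M (nat_lit 524) (B (L (nat_lit 397) ln12_16_6 ln12_16_6_ok) (L (nat_lit 556) ln12_17_6 ln12_17_6_ok))))))) (B (M (nat_lit 492) (B (M (nat_lit 524) (B (L (nat_lit 397) ln12_16_6 ln12_16_6_ok) (L (nat_lit 556) ln12_17_6 ln12_17_6_ok))) (M (nat_lit 364) (B (M (nat_lit 363) (B (L (nat_lit 331) ln12_14_7 ln12_14_7_ok) (L (nat_lit 395) ln12_15_7 ln12_15_7_ok))) (M (nat_lit 491) (B (L (nat_lit 459) ln12_11_5 ln12_11_5_ok) (L (nat_lit 523) ln12_12_5 ln12_12_5_ok))))))) (B (M (nat_lit 462) (B (M (nat_lit 427) (B (L (nat_lit 426) ln10_13_0 ln10_13_0_ok) (L (nat_lit 463) ln15_14_3 ln15_14_3_ok))) (B (M (nat_lit 463) (B (L (nat_lit 427) ln15_14_3 ln15_14_3_ok) (L (nat_lit 464) ln16_14_3 ln16_14_3_ok))) (B (M (nat_lit 492) (B (M (nat_lit 524) (B (L (nat_lit 397) ln12_16_6 ln12_16_6_ok) (L (nat_lit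 556) ln12_17_6 ln12_17_6_ok))) (M (nat_lit 463) (B (L (nat_lit 464) ln16_14_3 ln16_14_3_ok) (L (nat_lit 491) ln15_14_1 ln15_14_1_ok))))) (M (nat_lit 492) (B (M (nat_lit 524) (B (L (nat_lit 397) ln12_16_6 ln12_16_6_ok) (L (nat_lit 556) ln12_17_6 ln12_17_6_ok))) (B (M (nat_lit 427) (B (L (nat_lit 426) ln10_13_0 ln10_13_0_ok) (M (nat_lit 395) (B (L (nat_lit 363) ln12_15_7 ln12_15_7_ok) (L (nat_lit 524) ln12_16_7 ln12_16_7_ok))))) (M (nat_lit 491) (B (L (nat_lit 523) ln12_12_5 ln12_12_5_ok) (M (nat_lit 490) (B (L (nat_lit 459) ln14_14_1 ln14_14_1_ok) (L (nat_lit 489) ln9_15_2 ln9_15_2_ok)))))))))))) (B (M (nat_lit 364) (B (L (nat_lit 332) ln12_10_4 ln12_10_4_ok) (M (nat_lit 492) (B (M (nat_lit 363) (B (L (nat_lit 331) ln12_14_7 ln12_14_7_ok) (L (nat_lit 395) ln12_15_7 ln12_15_7_ok))) (M (nat_lit 524) (B (L (nat_lit 397) ln12_16_6 ln12_16_6_ok) (L (nat_lit 556) ln12_17_6 ln12_17_6_ok))))))) (M (nat_lit 427) (B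 (M (nat_lit 462) (B (L (nat_lit 426) ln10_13_0 ln10_13_0_ok) (L (nat_lit 463) ln15_14_3 ln15_14_3_ok))) (M (nat_lit 459) (B (M (nat_lit 364) (B (L (nat_lit 332) ln12_10_5 ln12_10_5_ok) (L (nat_lit 491) ln12_11_5 ln12_11_5_ok))) (B (M (nat_lit 491) (B (L (nat_lit 364) ln12_11_5 ln12_11_5_ok) (L (nat_lit 523) ln11_16_6 ln11_16_6_ok))) (B (M (nat_lit 395) (B (M (nat_lit 458) (B (L (nat_lit 457) ln9_14_2 ln9_14_2_ok) (M (nat_lit 363) (B (L (nat_lit 331) ln11_10_4 ln11_10_4_ok) (L (nat_lit 490) ln11_11_5 ln11_11_5_ok))))) (M (nat_lit 394) (B (L (nat_lit 393) ln9_12_0 ln9_12_0_ok) (M (nat_lit 491) (B (L (nat_lit 362) ln11_15_7 ln11_15_7_ok) (L (nat_lit 523) ln11_16_6 ln11_16_6_ok))))))) (M (nat_lit 458) (B (L (nat_lit 457) ln9_14_2 ln9_14_2_ok) (M (nat_lit 363) (B (M (nat_lit 364) (B (L (nat_lit 331) ln12_14_7 ln12_14_7_ok) (L (nat_lit 332) ln12_10_5 ln12_10_5_ok))) (M (nat_lit 490) (B (L (nat_lit 395) ln11_11_5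 ln11_11_5_ok) (L (nat_lit 489) ln13_14_1 ln13_14_1_ok)))))))))))))))))))))))) (nat_lit 2079502270752001762064242424960807725827516048677469043429686155012882190638009693656033379242457518153052022685796627120027336704) (nat_lit 235872651743560669099449354665148737316585697806530391991617948919666013383087149444874064770255843900020666425649053434547610472130385685901721149024989185976104386560) (nat_lit 235872651743560669099449354665148737316585697806530391991617948919666013383087149444874064770255843900020666425649053434547610472130385685901721149024989185976104386560) (by decide +kernel)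
noncomputable def c32_n4001 : Cert := (M (nat_lit 460) (B (M (nat_lit 364) (B (L (nat_lit 332) ln12_10_4 ln12_10_4_ok) (M (nat_lit 492) (B (M (nat_lit 365) (B (L (nat_lit 333) ln12_14_6 ln12_14_6_ok) (L (nat_lit 397) ln12_15_6 ln12_15_6_ok))) (M (nat_lit 491) (B (L (nat_lit 459) ln12_11_5 ln12_11_5_ok) (L (nat_lit 523) ln12_12_5 ln12_12_5_ok))))))) (B (M (nat_lit 492) (B (M (nat_lit 397) (B (L (nat_lit 365) ln12_15_6 ln12_15_6_ok) (L (nat_lit 524) ln12_16_6 ln12_16_6_ok))) (B (M (nat_lit 524) (B (L (nat_lit 397) ln12_16_6 ln12_16_6_ok) (L (nat_lit 556) ln12_17_6 ln12_17_6_ok))) (B (M (nat_lit 524) (B (L (nat_lit 556) ln12_17_6 ln12_17_6_ok) (M (nat_lit 523) (B (L (nat_lit 491) ln12_12_5 ln12_12_5_ok) (L (nat_lit 555) ln12_13_5 ln12_13_5_ok))))) (M (nat_lit 364) (B (M (nat_lit 365) (B (L (nat_lit 333) ln12_14_6 ln12_14_6_ok) (L (nat_lit 397) ln12_15_6 ln12_15_6_ok))) (M (nat_lit 491) (B (L (nat_lit 459) ln12_11_5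 ln12_11_5_ok) (L (nat_lit 523) ln12_12_5 ln12_12_5_ok))))))))) (B (M (nat_lit 364) (B (L (nat_lit 332) ln12_10_4 ln12_10_4_ok) (M (nat_lit 492) (B (M (nat_lit 491) (B (L (nat_lit 459) ln12_11_5 ln12_11_5_ok) (L (nat_lit 523) ln12_12_5 ln12_12_5_ok))) (M (nat_lit 397) (B (L (nat_lit 365) ln12_15_6 ln12_15_6_ok) (L (nat_lit 524) ln12_16_6 ln12_16_6_ok))))))) (B (M (nat_lit 462) (B (M (nat_lit 427) (B (L (nat_lit 426) ln10_13_0 ln10_13_0_ok) (L (nat_lit 463) ln15_14_3 ln15_14_3_ok))) (B (M (nat_lit 463) (B (L (nat_lit 427) ln15_14_3 ln15_14_3_ok) (L (nat_lit 464) ln16_14_3 ln16_14_3_ok))) (B (M (nat_lit 492) (B (M (nat_lit 397) (B (L (nat_lit 365) ln12_15_6 ln12_15_6_ok) (L (nat_lit 524) ln12_16_6 ln12_16_6_ok))) (M (nat_lit 463) (B (L (nat_lit 464) ln16_14_3 ln16_14_3_ok) (L (nat_lit 491) ln15_14_1 ln15_14_1_ok))))) (M (nat_lit 492) (B (M (nat_lit 397) (B (L (nat_lit 365) ln12_15_6 ln12_15_6_ok) (L (nat_lit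 524) ln12_16_6 ln12_16_6_ok))) (M (nat_lit 491) (B (L (nat_lit 523) ln12_12_5 ln12_12_5_ok) (M (nat_lit 490) (B (L (nat_lit 459) ln14_14_1 ln14_14_1_ok) (L (nat_lit 489) ln9_15_2 ln9_15_2_ok))))))))))) (B (M (nat_lit 364) (B (L (nat_lit 332) ln12_10_4 ln12_10_4_ok) (M (nat_lit 492) (B (M (nat_lit 491) (B (L (nat_lit 459) ln12_11_5 ln12_11_5_ok) (L (nat_lit 523) ln12_12_5 ln12_12_5_ok))) (M (nat_lit 524) (B (L (nat_lit 397) ln12_16_6 ln12_16_6_ok) (L (nat_lit 556) ln12_17_6 ln12_17_6_ok))))))) (B (M (nat_lit 462) (B (M (nat_lit 427) (B (L (nat_lit 426) ln10_13_0 ln10_13_0_ok) (L (nat_lit 463) ln15_14_3 ln15_14_3_ok))) (B (M (nat_lit 463) (B (L (nat_lit 427) ln15_14_3 ln15_14_3_ok) (L (nat_lit 464) ln16_14_3 ln16_14_3_ok))) (B (M (nat_lit 491) (B (M (nat_lit 364) (B (L (nat_lit 332) ln12_10_4 ln12_10_4_ok) (L (nat_lit 459) ln12_11_5 ln12_11_5_ok))) (M (nat_lit 463) (B (L (nat_lit 464) ln16_14_3 ln16_14_3_ok)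 (L (nat_lit 492) ln15_14_1 ln15_14_1_ok))))) (M (nat_lit 426) (B (L (nat_lit 427) ln10_13_0 ln10_13_0_ok) (M (nat_lit 459) (B (M (nat_lit 364) (B (L (nat_lit 332) ln12_10_4 ln12_10_4_ok) (L (nat_lit 491) ln12_11_5 ln12_11_5_ok))) (M (nat_lit 458) (B (L (nat_lit 425) ln13_14_3 ln13_14_3_ok) (L (nat_lit 457) ln9_14_2 ln9_14_2_ok))))))))))) (B (M (nat_lit 365) (B (M (nat_lit 364) (B (L (nat_lit 332) ln12_10_4 ln12_10_4_ok) (L (nat_lit 333) ln12_14_6 ln12_14_6_ok))) (B (M (nat_lit 333) (B (L (nat_lit 364) ln12_14_6 ln12_14_6_ok) (L (nat_lit 397) ln13_10_5 ln13_10_5_ok))) (M (nat_lit 462) (B (M (nat_lit 397) (B (L (nat_lit 492) ln12_15_6 ln12_15_6_ok) (L (nat_lit 494) ln13_11_4 ln13_11_4_ok))) (M (nat_lit 463) (B (L (nat_lit 427) ln15_14_3 ln15_14_3_ok) (L (nat_lit 464) ln16_14_3 ln16_14_3_ok)))))))) (M (nat_lit 364) (B (L (nat_lit 332) ln12_10_4 ln12_10_4_ok) (M (nat_lit 462) (B (M (nat_lit 427) (B (L (nat_lit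 426) ln10_13_0 ln10_13_0_ok) (L (nat_lit 463) ln15_14_3 ln15_14_3_ok))) (M (nat_lit 494) (B (M (nat_lit 365) (B (L (nat_lit 333) ln12_14_6 ln12_14_6_ok) (L (nat_lit 397) ln13_11_4 ln13_11_4_ok))) (M (nat_lit 459) (B (L (nat_lit 491) ln12_11_5 ln12_11_5_ok) (L (nat_lit 495) ln11_14_0 ln11_14_0_ok)))))))))))))))))
theorem c32_s4002 : Sem (nat_lit 2079502270752001762064242424960807725827516048677469043429686155012882190638009693656033379242457518153052022685796627120027336704) (nat_lit 353808977738907361583470902697207399166342892850828617163931151323236637278051999824504809973964617432166854936126024691098189579489888809120744011636477735597519142912) (nat_lit 353808977738907361583470902697207399166342892850828617163931151323236637278051999824504809973964617432166854936126024691098189579489888809120744011636477735597519142912) :=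
  sem_of_chk (M (nat_lit 461) (B (M (nat_lit 493) (B (L (nat_lit 525) ln13_16_7 ln13_16_7_ok) (M (nat_lit 364) (B (L (nat_lit 332) ln12_10_4 ln12_10_4_ok) (L (nat_lit 397) ln13_15_7 ln13_15_7_ok))))) (B (M (nat_lit 493) (B (L (nat_lit 525) ln13_16_7 ln13_16_7_ok) (M (nat_lit 364) (B (L (nat_lit 397) ln13_15_7 ln13_15_7_ok) (L (nat_lit 460) ln12_11_4 ln12_11_4_ok))))) (B (M (nat_lit 493) (B (L (nat_lit 525) ln13_16_7 ln13_16_7_ok) (M (nat_lit 397) (B (M (nat_lit 398) (B (L (nat_lit 366) ln13_15_6 ln13_15_6_ok) (M (nat_lit 399) (B (L (nat_lit 427) ln15_12_1 ln15_12_1_ok) (L (nat_lit 400) ln16_12_1 ln16_12_1_ok))))) (M (nat_lit 365) (B (M (nat_lit 492) (B (L (nat_lit 460) ln12_15_6 ln12_15_6_ok) (L (nat_lit 524) ln13_12_5 ln13_12_5_ok))) (M (nat_lit 494) (B (L (nat_lit 462) ln13_11_4 ln13_11_4_ok) (L (nat_lit 526) ln13_12_4 ln13_12_4_ok))))))))) (B (M (nat_lit 364) (B (L (nat_lit 332) ln12_10_4 ln12_10_4_ok)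 (M (nat_lit 493) (B (L (nat_lit 460) ln12_11_4 ln12_11_4_ok) (L (nat_lit 525) ln13_16_7 ln13_16_7_ok))))) c32_n4001))))) (nat_lit 2079502270752001762064242424960807725827516048677469043429686155012882190638009693656033379242457518153052022685796627120027336704) (nat_lit 353808977738907361583470902697207399166342892850828617163931151323236637278051999824504809973964617432166854936126024691098189579489888809120744011636477735597519142912) (nat_lit 353808977738907361583470902697207399166342892850828617163931151323236637278051999824504809973964617432166854936126024691098189579489888809120744011636477735597519142912) (by decide +kernel)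
noncomputable def c32_n4054 : Cert := (M (nat_lit 461) (B (M (nat_lit 364) (B (L (nat_lit 332) ln12_10_4 ln12_10_4_ok) (M (nat_lit 493) (B (L (nat_lit 460) ln12_11_4 ln12_11_4_ok) (L (nat_lit 525) ln13_16_7 ln13_16_7_ok))))) (B (M (nat_lit 493) (B (L (nat_lit 525) ln13_16_7 ln13_16_7_ok) (M (nat_lit 364) (B (L (nat_lit 397) ln13_15_7 ln13_15_7_ok) (L (nat_lit 460) ln12_11_4 ln12_11_4_ok))))) (B (M (nat_lit 493) (B (L (nat_lit 525) ln13_16_7 ln13_16_7_ok) (M (nat_lit 397) (B (M (nat_lit 398) (B (L (nat_lit 366) ln13_15_6 ln13_15_6_ok) (M (nat_lit 399) (B (L (nat_lit 427) ln15_12_1 ln15_12_1_ok) (L (nat_lit 400) ln16_12_1 ln16_12_1_ok))))) (M (nat_lit 365) (B (M (nat_lit 492) (B (L (nat_lit 460) ln12_15_6 ln12_15_6_ok) (L (nat_lit 524) ln13_12_5 ln13_12_5_ok))) (M (nat_lit 494) (B (L (nat_lit 462) ln13_11_4 ln13_11_4_ok) (L (nat_lit 526) ln13_12_4 ln13_12_4_ok))))))))) (B (M (nat_lit 493) (B (L (nat_lit 525)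 ln13_16_7 ln13_16_7_ok) (M (nat_lit 364) (B (L (nat_lit 332) ln12_10_4 ln12_10_4_ok) (L (nat_lit 397) ln13_15_7 ln13_15_7_ok))))) (M (nat_lit 460) (B (M (nat_lit 364) (B (L (nat_lit 332) ln12_10_4 ln12_10_4_ok) (M (nat_lit 492) (B (M (nat_lit 363) (B (L (nat_lit 331) ln12_14_7 ln12_14_7_ok) (L (nat_lit 395) ln12_15_7 ln12_15_7_ok))) (M (nat_lit 491) (B (L (nat_lit 459) ln12_11_5 ln12_11_5_ok) (L (nat_lit 523) ln12_12_5 ln12_12_5_ok))))))) (B (M (nat_lit 397) (B (M (nat_lit 365) (B (L (nat_lit 333) ln13_10_5 ln13_10_5_ok) (L (nat_lit 492) ln12_15_6 ln12_15_6_ok))) (B (M (nat_lit 492) (B (L (nat_lit 365) ln12_15_6 ln12_15_6_ok) (L (nat_lit 524) ln12_16_6 ln12_16_6_ok))) (B (M (nat_lit 491) (B (M (nat_lit 364) (B (L (nat_lit 332) ln12_10_4 ln12_10_4_ok) (L (nat_lit 459) ln12_11_5 ln12_11_5_ok))) (M (nat_lit 492) (B (L (nat_lit 523) ln12_12_5 ln12_12_5_ok) (L (nat_lit 524) ln12_16_6 ln12_16_6_ok))))) (M (nat_lit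 462) (B (M (nat_lit 365) (B (L (nat_lit 333) ln13_10_5 ln13_10_5_ok) (L (nat_lit 494) ln13_11_4 ln13_11_4_ok))) (M (nat_lit 463) (B (L (nat_lit 427) ln15_14_3 ln15_14_3_ok) (L (nat_lit 464) ln16_14_3 ln16_14_3_ok))))))))) (B (M (nat_lit 492) (B (M (nat_lit 397) (B (L (nat_lit 365) ln12_15_6 ln12_15_6_ok) (L (nat_lit 524) ln12_16_6 ln12_16_6_ok))) (M (nat_lit 364) (B (M (nat_lit 363) (B (L (nat_lit 331) ln12_14_7 ln12_14_7_ok) (L (nat_lit 395) ln12_15_7 ln12_15_7_ok))) (M (nat_lit 491) (B (L (nat_lit 459) ln12_11_5 ln12_11_5_ok) (L (nat_lit 523) ln12_12_5 ln12_12_5_ok))))))) (B (M (nat_lit 462) (B (M (nat_lit 463) (B (L (nat_lit 427) ln15_14_3 ln15_14_3_ok) (L (nat_lit 464) ln16_14_3 ln16_14_3_ok))) (B (M (nat_lit 492) (B (M (nat_lit 397) (B (L (nat_lit 365) ln12_15_6 ln12_15_6_ok) (L (nat_lit 524) ln12_16_6 ln12_16_6_ok))) (M (nat_lit 463) (B (L (nat_lit 464) ln16_14_3 ln16_14_3_ok) (L (nat_lit 491) ln15_14_1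 ln15_14_1_ok))))) (M (nat_lit 492) (B (M (nat_lit 397) (B (L (nat_lit 365) ln12_15_6 ln12_15_6_ok) (L (nat_lit 524) ln12_16_6 ln12_16_6_ok))) (M (nat_lit 491) (B (L (nat_lit 523) ln12_12_5 ln12_12_5_ok) (M (nat_lit 490) (B (L (nat_lit 459) ln14_14_1 ln14_14_1_ok) (L (nat_lit 489) ln9_15_2 ln9_15_2_ok)))))))))) (B (M (nat_lit 397) (B (M (nat_lit 365) (B (L (nat_lit 333) ln13_10_5 ln13_10_5_ok) (L (nat_lit 492) ln12_15_6 ln12_15_6_ok))) (B (M (nat_lit 492) (B (L (nat_lit 365) ln12_15_6 ln12_15_6_ok) (L (nat_lit 524) ln12_16_6 ln12_16_6_ok))) (B (M (nat_lit 492) (B (L (nat_lit 524) ln12_16_6 ln12_16_6_ok) (M (nat_lit 364) (B (L (nat_lit 332) ln12_10_4 ln12_10_4_ok) (M (nat_lit 363) (B (L (nat_lit 331) ln12_14_7 ln12_14_7_ok) (L (nat_lit 395) ln12_15_7 ln12_15_7_ok))))))) (M (nat_lit 462) (B (M (nat_lit 365) (B (L (nat_lit 333) ln13_10_5 ln13_10_5_ok) (L (nat_lit 494) ln13_11_4 ln13_11_4_ok))) (M (nat_lit 463)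 (B (L (nat_lit 427) ln15_14_3 ln15_14_3_ok) (L (nat_lit 464) ln16_14_3 ln16_14_3_ok))))))))) (M (nat_lit 364) (B (L (nat_lit 332) ln12_10_4 ln12_10_4_ok) (M (nat_lit 462) (B (M (nat_lit 463) (B (L (nat_lit 427) ln15_14_3 ln15_14_3_ok) (L (nat_lit 464) ln16_14_3 ln16_14_3_ok))) (M (nat_lit 494) (B (M (nat_lit 365) (B (L (nat_lit 333) ln12_14_6 ln12_14_6_ok) (L (nat_lit 397) ln13_11_4 ln13_11_4_ok))) (M (nat_lit 459) (B (L (nat_lit 491) ln12_11_5 ln12_11_5_ok) (L (nat_lit 495) ln11_14_0 ln11_14_0_ok))))))))))))))))))))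
theorem c32_s4241 : Sem (nat_lit 2079502270752001762064242424960807725827516048677469043429686155012882190638009693656033379242457518153052022685796627120027336704) (nat_lit 329510287762989358711048417630593767302886810161517806566933145209886612479755251108711351661490639101576107306861165560894098709363735029761258805742987640832) (nat_lit 329510287762989358711048417630593767302886810161517806566933145209886612479755251108711351661490639101576107306861165560894098709363735029761258805742987640832) :=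
  sem_of_chk (M (nat_lit 397) (B (M (nat_lit 398) (B (M (nat_lit 399) (B (L (nat_lit 427) ln15_12_1 ln15_12_1_ok) (L (nat_lit 400) ln16_12_1 ln16_12_1_ok))) (M (nat_lit 461) (B (M (nat_lit 364) (B (L (nat_lit 332) ln12_10_4 ln12_10_4_ok) (L (nat_lit 493) ln13_15_7 ln13_15_7_ok))) (B (M (nat_lit 493) (B (L (nat_lit 364) ln13_15_7 ln13_15_7_ok) (L (nat_lit 366) ln13_15_6 ln13_15_6_ok))) (B (M (nat_lit 493) (B (L (nat_lit 366) ln13_15_6 ln13_15_6_ok) (L (nat_lit 525) ln13_16_7 ln13_16_7_ok))) (M (nat_lit 365) (B (M (nat_lit 332) (B (L (nat_lit 364) ln13_14_7 ln13_14_7_ok) (M (nat_lit 333) (B (L (nat_lit 300) ln13_13_7 ln13_13_7_ok) (L (nat_lit 301) ln13_9_5 ln13_9_5_ok))))) (M (nat_lit 366) (B (L (nat_lit 334) ln13_14_6 ln13_14_6_ok) (M (nat_lit 367) (B (L (nat_lit 368) ln16_11_1 ln16_11_1_ok) (L (nat_lit 395) ln11_12_2 ln11_12_2_ok))))))))))))) (B (M (nat_lit 398) (B (M (nat_lit 399) (B (L (nat_lit 427) ln15_12_1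 ln15_12_1_ok) (L (nat_lit 400) ln16_12_1 ln16_12_1_ok))) (B (M (nat_lit 461) (B (M (nat_lit 493) (B (L (nat_lit 364) ln13_15_7 ln13_15_7_ok) (L (nat_lit 366) ln13_15_6 ln13_15_6_ok))) (B (M (nat_lit 493) (B (L (nat_lit 366) ln13_15_6 ln13_15_6_ok) (L (nat_lit 525) ln13_16_7 ln13_16_7_ok))) (B (M (nat_lit 493) (B (L (nat_lit 364) ln13_15_7 ln13_15_7_ok) (L (nat_lit 525) ln13_16_7 ln13_16_7_ok))) (M (nat_lit 395) (B (M (nat_lit 426) (B (L (nat_lit 427) ln14_12_1 ln14_12_1_ok) (M (nat_lit 394) (B (L (nat_lit 393) ln9_12_0 ln9_12_0_ok) (L (nat_lit 425) ln13_12_1 ln13_12_1_ok))))) (M (nat_lit 366) (B (L (nat_lit 367) ln11_12_2 ln11_12_2_ok) (M (nat_lit 334) (B (L (nat_lit 302) ln14_9_5 ln14_9_5_ok) (L (nat_lit 365) ln13_14_6 ln13_14_6_ok))))))))))) (M (nat_lit 399) (B (L (nat_lit 400) ln16_12_1 ln16_12_1_ok) (M (nat_lit 395) (B (M (nat_lit 363) (B (L (nat_lit 362) ln14_12_3 ln14_12_3_ok) (L (nat_lit 364) ln15_12_3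 ln15_12_3_ok))) (M (nat_lit 367) (B (L (nat_lit 366) ln11_12_2 ln11_12_2_ok) (L (nat_lit 368) ln12_12_2 ln12_12_2_ok)))))))))) (B (M (nat_lit 427) (B (M (nat_lit 398) (B (L (nat_lit 399) ln15_12_1 ln15_12_1_ok) (L (nat_lit 426) ln10_13_2 ln10_13_2_ok))) (B (M (nat_lit 461) (B (M (nat_lit 364) (B (L (nat_lit 332) ln12_10_4 ln12_10_4_ok) (L (nat_lit 493) ln13_15_7 ln13_15_7_ok))) (M (nat_lit 426) (B (L (nat_lit 425) ln9_13_2 ln9_13_2_ok) (L (nat_lit 462) ln10_13_0 ln10_13_0_ok))))) (M (nat_lit 395) (B (M (nat_lit 398) (B (L (nat_lit 399) ln15_12_1 ln15_12_1_ok) (M (nat_lit 366) (B (L (nat_lit 367) ln11_12_2 ln11_12_2_ok) (M (nat_lit 394) (B (L (nat_lit 365) ln10_12_2 ln10_12_2_ok) (L (nat_lit 393) ln9_12_0 ln9_12_0_ok))))))) (B (M (nat_lit 332) (B (M (nat_lit 364) (B (L (nat_lit 300) ln12_9_5 ln12_9_5_ok) (L (nat_lit 459) ln12_10_5 ln12_10_5_ok))) (B (M (nat_lit 364) (B (L (nat_lit 459) ln12_10_5 ln12_10_5_ok)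 (L (nat_lit 461) ln12_10_4 ln12_10_4_ok))) (M (nat_lit 363) (B (M (nat_lit 331) (B (L (nat_lit 299) ln11_9_4 ln11_9_4_ok) (L (nat_lit 300) ln11_13_6 ln11_13_6_ok))) (M (nat_lit 398) (B (L (nat_lit 362) ln14_12_3 ln14_12_3_ok) (L (nat_lit 399) ln15_12_1 ln15_12_1_ok)))))))) (M (nat_lit 365) (B (M (nat_lit 394) (B (L (nat_lit 366) ln10_12_2 ln10_12_2_ok) (L (nat_lit 393) ln9_12_0 ln9_12_0_ok))) (M (nat_lit 332) (B (M (nat_lit 333) (B (L (nat_lit 300) ln13_13_7 ln13_13_7_ok) (L (nat_lit 301) ln13_9_5 ln13_9_5_ok))) (M (nat_lit 364) (B (L (nat_lit 461) ln13_14_7 ln13_14_7_ok) (L (nat_lit 459) ln12_10_5 ln12_10_5_ok))))))))))))) (B (M (nat_lit 398) (B (M (nat_lit 399) (B (L (nat_lit 427) ln15_12_1 ln15_12_1_ok) (L (nat_lit 400) ln16_12_1 ln16_12_1_ok))) (B (M (nat_lit 426) (B (L (nat_lit 427) ln10_13_2 ln10_13_2_ok) (M (nat_lit 366) (B (M (nat_lit 395) (B (L (nat_lit 367) ln11_12_2 ln11_12_2_ok) (M (nat_lit 394)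 (B (L (nat_lit 393) ln9_12_0 ln9_12_0_ok) (L (nat_lit 425) ln13_12_1 ln13_12_1_ok))))) (M (nat_lit 461) (B (L (nat_lit 493) ln13_15_6 ln13_15_6_ok) (M (nat_lit 334) (B (L (nat_lit 302) ln14_9_5 ln14_9_5_ok) (L (nat_lit 365) ln13_14_6 ln13_14_6_ok))))))))) (M (nat_lit 395) (B (M (nat_lit 366) (B (L (nat_lit 367) ln11_12_2 ln11_12_2_ok) (M (nat_lit 394) (B (L (nat_lit 365) ln10_12_2 ln10_12_2_ok) (L (nat_lit 393) ln9_12_0 ln9_12_0_ok))))) (B (M (nat_lit 399) (B (L (nat_lit 400) ln16_12_1 ln16_12_1_ok) (M (nat_lit 367) (B (L (nat_lit 366) ln11_12_2 ln11_12_2_ok) (L (nat_lit 368) ln12_12_2 ln12_12_2_ok))))) (M (nat_lit 394) (B (L (nat_lit 393) ln9_12_0 ln9_12_0_ok) (M (nat_lit 362) (B (L (nat_lit 361) ln13_12_3 ln13_12_3_ok) (L (nat_lit 363) ln14_12_3 ln14_12_3_ok))))))))))) (B (M (nat_lit 398) (B (M (nat_lit 399) (B (L (nat_lit 427) ln15_12_1 ln15_12_1_ok) (L (nat_lit 400) ln16_12_1 ln16_12_1_ok))) (B (M (nat_lit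 395) (B (M (nat_lit 426) (B (L (nat_lit 427) ln14_12_1 ln14_12_1_ok) (M (nat_lit 394) (B (L (nat_lit 393) ln9_12_0 ln9_12_0_ok) (L (nat_lit 425) ln13_12_1 ln13_12_1_ok))))) (B (M (nat_lit 394) (B (M (nat_lit 362) (B (L (nat_lit 361) ln13_12_3 ln13_12_3_ok) (L (nat_lit 363) ln14_12_3 ln14_12_3_ok))) (M (nat_lit 426) (B (L (nat_lit 425) ln13_12_1 ln13_12_1_ok) (L (nat_lit 427) ln14_12_1 ln14_12_1_ok))))) (B (M (nat_lit 427) (B (L (nat_lit 426) ln14_12_1 ln14_12_1_ok) (M (nat_lit 363) (B (L (nat_lit 362) ln14_12_3 ln14_12_3_ok) (M (nat_lit 332) (B (M (nat_lit 331) (B (L (nat_lit 299) ln11_9_4 ln11_9_4_ok) (L (nat_lit 300) ln11_13_6 ln11_13_6_ok))) (B (M (nat_lit 300) (B (L (nat_lit 331) ln11_13_6 ln11_13_6_ok) (L (nat_lit 364) ln12_9_5 ln12_9_5_ok))) (M (nat_lit 364) (B (L (nat_lit 459) ln11_14_6 ln11_14_6_ok) (L (nat_lit 461) ln12_10_4 ln12_10_4_ok)))))))))) (M (nat_lit 394) (B (L (nat_lit 393) ln9_12_0 ln9_12_0_ok)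 (M (nat_lit 362) (B (L (nat_lit 361) ln13_12_3 ln13_12_3_ok) (L (nat_lit 363) ln14_12_3 ln14_12_3_ok))))))))) (M (nat_lit 364) (B (M (nat_lit 332) (B (L (nat_lit 300) ln12_9_4 ln12_9_4_ok) (L (nat_lit 461) ln12_10_4 ln12_10_4_ok))) (M (nat_lit 399) (B (L (nat_lit 363) ln15_12_3 ln15_12_3_ok) (L (nat_lit 400) ln16_12_1 ln16_12_1_ok)))))))) (B (M (nat_lit 461) (B (M (nat_lit 364) (B (L (nat_lit 332) ln12_10_4 ln12_10_4_ok) (L (nat_lit 493) ln13_15_7 ln13_15_7_ok))) (B (M (nat_lit 493) (B (L (nat_lit 364) ln13_15_7 ln13_15_7_ok) (L (nat_lit 525) ln13_16_7 ln13_16_7_ok))) (B (M (nat_lit 493) (B (L (nat_lit 525) ln13_16_7 ln13_16_7_ok) (M (nat_lit 398) (B (L (nat_lit 366) ln13_15_6 ln13_15_6_ok) (M (nat_lit 399) (B (L (nat_lit 427) ln15_12_1 ln15_12_1_ok) (L (nat_lit 400) ln16_12_1 ln16_12_1_ok))))))) (M (nat_lit 365) (B (M (nat_lit 333) (B (L (nat_lit 301) ln13_9_5 ln13_9_5_ok) (M (nat_lit 334) (B (L (nat_lit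 302) ln13_13_6 ln13_13_6_ok) (L (nat_lit 366) ln13_14_6 ln13_14_6_ok))))) (B (M (nat_lit 333) (B (M (nat_lit 332) (B (L (nat_lit 300) ln13_13_7 ln13_13_7_ok) (L (nat_lit 364) ln13_14_7 ln13_14_7_ok))) (M (nat_lit 334) (B (L (nat_lit 302) ln13_13_6 ln13_13_6_ok) (L (nat_lit 366) ln13_14_6 ln13_14_6_ok))))) (B (M (nat_lit 332) (B (L (nat_lit 364) ln13_14_7 ln13_14_7_ok) (M (nat_lit 333) (B (L (nat_lit 300) ln13_13_7 ln13_13_7_ok) (L (nat_lit 301) ln13_9_5 ln13_9_5_ok))))) (M (nat_lit 364) (B (L (nat_lit 332) ln13_14_7 ln13_14_7_ok) (M (nat_lit 366) (B (L (nat_lit 334) ln13_14_6 ln13_14_6_ok) (M (nat_lit 399) (B (M (nat_lit 367) (B (L (nat_lit 400) ln12_11_0 ln12_11_0_ok) (L (nat_lit 368) ln16_11_1 ln16_11_1_ok))) (B (M (nat_lit 398) (B (L (nat_lit 363) ln11_11_0 ln11_11_0_ok) (L (nat_lit 400) ln16_12_3 ln16_12_3_ok))) (M (nat_lit 398) (B (L (nat_lit 363) ln11_11_0 ln11_11_0_ok) (L (nat_lit 427) ln15_12_1 ln15_12_1_ok))))))))))))))))))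 (B (M (nat_lit 461) (B (M (nat_lit 364) (B (L (nat_lit 332) ln12_10_4 ln12_10_4_ok) (L (nat_lit 493) ln13_15_7 ln13_15_7_ok))) (B (M (nat_lit 493) (B (L (nat_lit 364) ln13_15_7 ln13_15_7_ok) (L (nat_lit 525) ln13_16_7 ln13_16_7_ok))) (B (M (nat_lit 365) (B (M (nat_lit 493) (B (L (nat_lit 525) ln13_16_7 ln13_16_7_ok) (M (nat_lit 494) (B (L (nat_lit 462) ln13_11_4 ln13_11_4_ok) (L (nat_lit 526) ln13_12_4 ln13_12_4_ok))))) (M (nat_lit 333) (B (L (nat_lit 301) ln13_9_5 ln13_9_5_ok) (M (nat_lit 334) (B (L (nat_lit 302) ln13_13_6 ln13_13_6_ok) (L (nat_lit 366) ln13_14_6 ln13_14_6_ok))))))) (M (nat_lit 365) (B (M (nat_lit 333) (B (L (nat_lit 301) ln13_9_5 ln13_9_5_ok) (M (nat_lit 334) (B (L (nat_lit 302) ln13_13_6 ln13_13_6_ok) (L (nat_lit 366) ln13_14_6 ln13_14_6_ok))))) (B (M (nat_lit 333) (B (M (nat_lit 332) (B (L (nat_lit 300) ln13_13_7 ln13_13_7_ok) (L (nat_lit 364) ln13_14_7 ln13_14_7_ok))) (M (nat_lit 334)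 (B (L (nat_lit 302) ln13_13_6 ln13_13_6_ok) (L (nat_lit 366) ln13_14_6 ln13_14_6_ok))))) (B (M (nat_lit 332) (B (L (nat_lit 364) ln13_14_7 ln13_14_7_ok) (M (nat_lit 333) (B (L (nat_lit 300) ln13_13_7 ln13_13_7_ok) (L (nat_lit 301) ln13_9_5 ln13_9_5_ok))))) (M (nat_lit 364) (B (L (nat_lit 332) ln13_14_7 ln13_14_7_ok) (M (nat_lit 366) (B (L (nat_lit 334) ln13_14_6 ln13_14_6_ok) (M (nat_lit 367) (B (L (nat_lit 395) ln15_11_1 ln15_11_1_ok) (L (nat_lit 368) ln16_11_1 ln16_11_1_ok))))))))))))))) (M (nat_lit 398) (B (M (nat_lit 399) (B (L (nat_lit 427) ln15_12_1 ln15_12_1_ok) (L (nat_lit 400) ln16_12_1 ln16_12_1_ok))) (B (M (nat_lit 332) (B (M (nat_lit 427) (B (L (nat_lit 426) ln10_13_2 ln10_13_2_ok) (M (nat_lit 364) (B (L (nat_lit 300) ln12_9_4 ln12_9_4_ok) (L (nat_lit 459) ln12_10_5 ln12_10_5_ok))))) (B (M (nat_lit 334) (B (M (nat_lit 366) (B (L (nat_lit 302) ln14_9_5 ln14_9_5_ok) (M (nat_lit 395) (B (L (nat_lit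 367) ln11_12_2 ln11_12_2_ok) (M (nat_lit 394) (B (L (nat_lit 365) ln10_12_2 ln10_12_2_ok) (L (nat_lit 393) ln9_12_0 ln9_12_0_ok))))))) (B (M (nat_lit 364) (B (M (nat_lit 427) (B (L (nat_lit 459) ln12_10_5 ln12_10_5_ok) (L (nat_lit 426) ln10_13_2 ln10_13_2_ok))) (M (nat_lit 363) (B (M (nat_lit 333) (B (L (nat_lit 301) ln12_13_6 ln12_13_6_ok) (L (nat_lit 335) ln15_10_1 ln15_10_1_ok))) (M (nat_lit 362) (B (L (nat_lit 361) ln9_11_0 ln9_11_0_ok) (L (nat_lit 395) ln14_12_3 ln14_12_3_ok))))))) (M (nat_lit 364) (B (M (nat_lit 427) (B (L (nat_lit 459) ln12_10_5 ln12_10_5_ok) (L (nat_lit 426) ln10_13_2 ln10_13_2_ok))) (M (nat_lit 333) (B (L (nat_lit 301) ln12_13_6 ln12_13_6_ok) (M (nat_lit 302) (B (L (nat_lit 365) ln13_13_6 ln13_13_6_ok) (L (nat_lit 366) ln14_9_5 ln14_9_5_ok)))))))))) (B (M (nat_lit 427) (B (L (nat_lit 426) ln10_13_2 ln10_13_2_ok) (M (nat_lit 395) (B (M (nat_lit 366) (B (L (nat_lit 367) ln11_12_2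 ln11_12_2_ok) (M (nat_lit 394) (B (L (nat_lit 365) ln10_12_2 ln10_12_2_ok) (L (nat_lit 393) ln9_12_0 ln9_12_0_ok))))) (M (nat_lit 363) (B (L (nat_lit 362) ln14_12_3 ln14_12_3_ok) (M (nat_lit 331) (B (L (nat_lit 299) ln11_9_4 ln11_9_4_ok) (L (nat_lit 300) ln11_13_6 ln11_13_6_ok))))))))) (M (nat_lit 333) (B (M (nat_lit 300) (B (L (nat_lit 365) ln13_13_7 ln13_13_7_ok) (L (nat_lit 364) ln12_9_4 ln12_9_4_ok))) (B (M (nat_lit 301) (B (L (nat_lit 364) ln12_13_6 ln12_13_6_ok) (L (nat_lit 365) ln13_9_5 ln13_9_5_ok))) (B (M (nat_lit 365) (B (L (nat_lit 300) ln13_13_7 ln13_13_7_ok) (L (nat_lit 301) ln13_9_5 ln13_9_5_ok))) (M (nat_lit 364) (B (L (nat_lit 300) ln12_9_4 ln12_9_4_ok) (L (nat_lit 301) ln12_13_6 ln12_13_6_ok))))))))))) (M (nat_lit 399) (B (L (nat_lit 400) ln16_12_1 ln16_12_1_ok) (M (nat_lit 395) (B (M (nat_lit 363) (B (L (nat_lit 362) ln14_12_3 ln14_12_3_ok) (L (nat_lit 364) ln15_12_3 ln15_12_3_ok))) (M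 (nat_lit 367) (B (L (nat_lit 366) ln11_12_2 ln11_12_2_ok) (L (nat_lit 368) ln12_12_2 ln12_12_2_ok)))))))))))))))))) (nat_lit 2079502270752001762064242424960807725827516048677469043429686155012882190638009693656033379242457518153052022685796627120027336704) (nat_lit 329510287762989358711048417630593767302886810161517806566933145209886612479755251108711351661490639101576107306861165560894098709363735029761258805742987640832) (nat_lit 329510287762989358711048417630593767302886810161517806566933145209886612479755251108711351661490639101576107306861165560894098709363735029761258805742987640832) (by decide +kernel)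
theorem c32_s4580 : Sem (nat_lit 1488565709436905182597016920618875711317065232515143436133960971351635417069121137610048965517821161510899162402685155093675491255430152192) (nat_lit 205943929903015077434967507774678273850181362479448189402650709635274196621320471841811120366980794387756729999044837813345037578260739629597745574044860678144) (nat_lit 205943929903015077434967507774678273850181362479448189402650709635274196621320471841811120366980794387756729999044837813345037578260739629597745574044860678144) :=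
  sem_of_chk (M (nat_lit 427) (B (M (nat_lit 491) (B (L (nat_lit 523) ln11_16_6 ln11_16_6_ok) (M (nat_lit 395) (B (M (nat_lit 394) (B (L (nat_lit 362) ln11_15_7 ln11_15_7_ok) (L (nat_lit 393) ln9_12_0 ln9_12_0_ok))) (M (nat_lit 458) (B (M (nat_lit 490) (B (L (nat_lit 363) ln11_11_5 ln11_11_5_ok) (L (nat_lit 522) ln11_12_5 ln11_12_5_ok))) (M (nat_lit 457) (B (L (nat_lit 426) ln13_13_1 ln13_13_1_ok) (L (nat_lit 456) ln8_14_2 ln8_14_2_ok))))))))) (B (M (nat_lit 395) (B (M (nat_lit 426) (B (M (nat_lit 397) (B (L (nat_lit 398) ln14_12_1 ln14_12_1_ok) (L (nat_lit 425) ln9_13_2 ln9_13_2_ok))) (M (nat_lit 458) (B (L (nat_lit 457) ln13_13_1 ln13_13_1_ok) (M (nat_lit 363) (B (L (nat_lit 331) ln11_10_5 ln11_10_5_ok) (L (nat_lit 490) ln11_11_5 ln11_11_5_ok))))))) (B (M (nat_lit 397) (B (M (nat_lit 398) (B (L (nat_lit 426) ln14_12_1 ln14_12_1_ok) (L (nat_lit 399) ln15_12_1 ln15_12_1_ok))) (M (nat_lit 365) (B (M (nat_lit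 333) (B (L (nat_lit 301) ln13_9_5 ln13_9_5_ok) (L (nat_lit 460) ln13_10_5 ln13_10_5_ok))) (M (nat_lit 394) (B (L (nat_lit 366) ln10_12_2 ln10_12_2_ok) (L (nat_lit 393) ln9_12_0 ln9_12_0_ok))))))) (M (nat_lit 492) (B (M (nat_lit 460) (B (L (nat_lit 363) ln12_15_7 ln12_15_7_ok) (L (nat_lit 524) ln12_16_7 ln12_16_7_ok))) (B (M (nat_lit 491) (B (L (nat_lit 524) ln11_12_4 ln11_12_4_ok) (L (nat_lit 523) ln11_16_6 ln11_16_6_ok))) (M (nat_lit 490) (B (M (nat_lit 363) (B (L (nat_lit 460) ln12_15_7 ln12_15_7_ok) (L (nat_lit 458) ln11_11_5 ln11_11_5_ok))) (M (nat_lit 491) (B (L (nat_lit 522) ln11_12_5 ln11_12_5_ok) (L (nat_lit 523) ln11_16_6 ln11_16_6_ok))))))))))) (B (M (nat_lit 491) (B (L (nat_lit 523) ln11_16_6 ln11_16_6_ok) (M (nat_lit 426) (B (M (nat_lit 397) (B (L (nat_lit 425) ln9_13_2 ln9_13_2_ok) (L (nat_lit 398) ln10_13_2 ln10_13_2_ok))) (M (nat_lit 394) (B (L (nat_lit 393) ln13_13_3 ln13_13_3_ok) (M (nat_lit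 458) (B (L (nat_lit 362) ln10_11_4 ln10_11_4_ok) (L (nat_lit 457) ln13_13_1 ln13_13_1_ok))))))))) (B (M (nat_lit 491) (B (L (nat_lit 523) ln11_16_6 ln11_16_6_ok) (M (nat_lit 397) (B (M (nat_lit 398) (B (L (nat_lit 399) ln15_12_1 ln15_12_1_ok) (L (nat_lit 426) ln10_13_2 ln10_13_2_ok))) (B (M (nat_lit 395) (B (M (nat_lit 492) (B (L (nat_lit 524) ln11_12_4 ln11_12_4_ok) (M (nat_lit 460) (B (L (nat_lit 363) ln12_15_7 ln12_15_7_ok) (L (nat_lit 365) ln12_15_6 ln12_15_6_ok))))) (B (M (nat_lit 365) (B (M (nat_lit 333) (B (L (nat_lit 301) ln13_9_5 ln13_9_5_ok) (L (nat_lit 460) ln13_10_5 ln13_10_5_ok))) (B (M (nat_lit 460) (B (L (nat_lit 333) ln13_10_5 ln13_10_5_ok) (L (nat_lit 492) ln12_15_6 ln12_15_6_ok))) (B (M (nat_lit 492) (B (L (nat_lit 460) ln12_15_6 ln12_15_6_ok) (L (nat_lit 524) ln11_12_4 ln11_12_4_ok))) (M (nat_lit 394) (B (L (nat_lit 362) ln11_15_7 ln11_15_7_ok) (L (nat_lit 366) ln10_12_2 ln10_12_2_ok)))))))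 (M (nat_lit 458) (B (M (nat_lit 490) (B (L (nat_lit 363) ln11_11_5 ln11_11_5_ok) (L (nat_lit 522) ln11_12_5 ln11_12_5_ok))) (M (nat_lit 426) (B (L (nat_lit 425) ln9_13_2 ln9_13_2_ok) (L (nat_lit 457) ln13_13_1 ln13_13_1_ok)))))))) (M (nat_lit 395) (B (M (nat_lit 492) (B (L (nat_lit 524) ln11_12_4 ln11_12_4_ok) (M (nat_lit 460) (B (L (nat_lit 363) ln12_15_7 ln12_15_7_ok) (L (nat_lit 365) ln12_15_6 ln12_15_6_ok))))) (B (M (nat_lit 365) (B (M (nat_lit 333) (B (L (nat_lit 301) ln13_9_5 ln13_9_5_ok) (L (nat_lit 460) ln13_10_5 ln13_10_5_ok))) (B (M (nat_lit 460) (B (L (nat_lit 333) ln13_10_5 ln13_10_5_ok) (L (nat_lit 492) ln12_15_6 ln12_15_6_ok))) (B (M (nat_lit 492) (B (L (nat_lit 460) ln12_15_6 ln12_15_6_ok) (L (nat_lit 524) ln11_12_4 ln11_12_4_ok))) (M (nat_lit 394) (B (L (nat_lit 362) ln11_15_7 ln11_15_7_ok) (L (nat_lit 366) ln10_12_2 ln10_12_2_ok))))))) (M (nat_lit 398) (B (L (nat_lit 399) ln15_12_1 ln15_12_1_ok)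 (M (nat_lit 362) (B (L (nat_lit 363) ln14_12_3 ln14_12_3_ok) (L (nat_lit 394) ln11_15_7 ln11_15_7_ok))))))))))))) (B (M (nat_lit 491) (B (L (nat_lit 523) ln11_16_6 ln11_16_6_ok) (M (nat_lit 492) (B (M (nat_lit 395) (B (L (nat_lit 524) ln11_12_4 ln11_12_4_ok) (M (nat_lit 363) (B (L (nat_lit 460) ln12_15_7 ln12_15_7_ok) (M (nat_lit 490) (B (L (nat_lit 458) ln11_11_5 ln11_11_5_ok) (L (nat_lit 522) ln11_12_5 ln11_12_5_ok))))))) (B (M (nat_lit 397) (B (M (nat_lit 398) (B (L (nat_lit 399) ln15_12_1 ln15_12_1_ok) (L (nat_lit 426) ln10_13_2 ln10_13_2_ok))) (M (nat_lit 460) (B (L (nat_lit 365) ln12_15_6 ln12_15_6_ok) (L (nat_lit 524) ln12_16_6 ln12_16_6_ok))))) (B (M (nat_lit 395) (B (L (nat_lit 524) ln11_12_4 ln11_12_4_ok) (M (nat_lit 458) (B (M (nat_lit 490) (B (L (nat_lit 363) ln11_11_5 ln11_11_5_ok) (L (nat_lit 522) ln11_12_5 ln11_12_5_ok))) (M (nat_lit 457) (B (L (nat_lit 426) ln13_13_1 ln13_13_1_ok) (L (nat_lit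 456) ln8_14_2 ln8_14_2_ok))))))) (M (nat_lit 460) (B (M (nat_lit 397) (B (L (nat_lit 365) ln12_15_6 ln12_15_6_ok) (M (nat_lit 398) (B (L (nat_lit 399) ln15_12_1 ln15_12_1_ok) (L (nat_lit 426) ln10_13_2 ln10_13_2_ok))))) (M (nat_lit 493) (B (L (nat_lit 525) ln12_12_4 ln12_12_4_ok) (M (nat_lit 458) (B (L (nat_lit 457) ln9_14_2 ln9_14_2_ok) (L (nat_lit 494) ln14_15_3 ln14_15_3_ok))))))))))))) (B (M (nat_lit 491) (B (L (nat_lit 523) ln11_16_6 ln11_16_6_ok) (M (nat_lit 395) (B (M (nat_lit 394) (B (L (nat_lit 362) ln11_15_7 ln11_15_7_ok) (L (nat_lit 393) ln9_12_0 ln9_12_0_ok))) (M (nat_lit 458) (B (M (nat_lit 490) (B (L (nat_lit 363) ln11_11_5 ln11_11_5_ok) (L (nat_lit 522) ln11_12_5 ln11_12_5_ok))) (M (nat_lit 457) (B (L (nat_lit 456) ln8_14_2 ln8_14_2_ok) (L (nat_lit 460) ln9_14_2 ln9_14_2_ok))))))))) (B (M (nat_lit 491) (B (L (nat_lit 523) ln11_16_6 ln11_16_6_ok) (M (nat_lit 395) (B (M (nat_lit 394) (B (L (nat_lit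 362) ln11_15_7 ln11_15_7_ok) (L (nat_lit 393) ln9_12_0 ln9_12_0_ok))) (M (nat_lit 363) (B (M (nat_lit 331) (B (L (nat_lit 299) ln11_9_4 ln11_9_4_ok) (L (nat_lit 460) ln11_10_4 ln11_10_4_ok))) (B (M (nat_lit 460) (B (L (nat_lit 331) ln11_10_4 ln11_10_4_ok) (L (nat_lit 492) ln12_15_7 ln12_15_7_ok))) (B (M (nat_lit 492) (B (L (nat_lit 460) ln12_15_7 ln12_15_7_ok) (L (nat_lit 524) ln11_12_4 ln11_12_4_ok))) (M (nat_lit 490) (B (L (nat_lit 458) ln11_11_5 ln11_11_5_ok) (L (nat_lit 522) ln11_12_5 ln11_12_5_ok))))))))))) (B (M (nat_lit 491) (B (L (nat_lit 523) ln11_16_6 ln11_16_6_ok) (M (nat_lit 426) (B (M (nat_lit 397) (B (L (nat_lit 425) ln9_13_2 ln9_13_2_ok) (L (nat_lit 398) ln10_13_2 ln10_13_2_ok))) (M (nat_lit 394) (B (L (nat_lit 393) ln13_13_3 ln13_13_3_ok) (M (nat_lit 362) (B (L (nat_lit 330) ln10_10_4 ln10_10_4_ok) (L (nat_lit 395) ln11_15_7 ln11_15_7_ok))))))))) (M (nat_lit 395) (B (M (nat_lit 460) (B (M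 (nat_lit 363) (B (L (nat_lit 331) ln11_10_4 ln11_10_4_ok) (L (nat_lit 492) ln12_15_7 ln12_15_7_ok))) (B (M (nat_lit 492) (B (L (nat_lit 363) ln12_15_7 ln12_15_7_ok) (L (nat_lit 524) ln12_16_7 ln12_16_7_ok))) (B (M (nat_lit 397) (B (M (nat_lit 365) (B (L (nat_lit 333) ln13_10_5 ln13_10_5_ok) (L (nat_lit 492) ln12_15_6 ln12_15_6_ok))) (M (nat_lit 398) (B (L (nat_lit 426) ln14_12_1 ln14_12_1_ok) (L (nat_lit 399) ln15_12_1 ln15_12_1_ok))))) (M (nat_lit 363) (B (L (nat_lit 331) ln11_10_4 ln11_10_4_ok) (M (nat_lit 458) (B (L (nat_lit 490) ln11_11_5 ln11_11_5_ok) (L (nat_lit 457) ln9_14_2 ln9_14_2_ok))))))))) (B (M (nat_lit 397) (B (M (nat_lit 398) (B (L (nat_lit 426) ln14_12_1 ln14_12_1_ok) (L (nat_lit 399) ln15_12_1 ln15_12_1_ok))) (M (nat_lit 365) (B (M (nat_lit 333) (B (L (nat_lit 301) ln13_9_5 ln13_9_5_ok) (L (nat_lit 460) ln13_10_5 ln13_10_5_ok))) (M (nat_lit 394) (B (L (nat_lit 366) ln10_12_2 ln10_12_2_ok)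 (L (nat_lit 393) ln9_12_0 ln9_12_0_ok))))))) (B (M (nat_lit 460) (B (M (nat_lit 363) (B (L (nat_lit 331) ln11_10_4 ln11_10_4_ok) (L (nat_lit 492) ln12_15_7 ln12_15_7_ok))) (B (M (nat_lit 492) (B (L (nat_lit 363) ln12_15_7 ln12_15_7_ok) (L (nat_lit 524) ln12_16_7 ln12_16_7_ok))) (B (M (nat_lit 397) (B (M (nat_lit 492) (B (L (nat_lit 365) ln12_15_6 ln12_15_6_ok) (L (nat_lit 524) ln12_16_7 ln12_16_7_ok))) (M (nat_lit 426) (B (L (nat_lit 398) ln14_12_1 ln14_12_1_ok) (L (nat_lit 425) ln9_13_2 ln9_13_2_ok))))) (M (nat_lit 363) (B (L (nat_lit 331) ln11_10_4 ln11_10_4_ok) (M (nat_lit 458) (B (L (nat_lit 490) ln11_11_5 ln11_11_5_ok) (L (nat_lit 457) ln9_14_2 ln9_14_2_ok))))))))) (B (M (nat_lit 426) (B (M (nat_lit 397) (B (L (nat_lit 398) ln14_12_1 ln14_12_1_ok) (L (nat_lit 425) ln9_13_2 ln9_13_2_ok))) (M (nat_lit 458) (B (L (nat_lit 457) ln13_13_1 ln13_13_1_ok) (M (nat_lit 363) (B (L (nat_lit 331) ln11_10_5 ln11_10_5_ok)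 (L (nat_lit 490) ln11_11_5 ln11_11_5_ok))))))) (B (M (nat_lit 363) (B (M (nat_lit 331) (B (L (nat_lit 299) ln11_9_4 ln11_9_4_ok) (L (nat_lit 460) ln11_10_4 ln11_10_4_ok))) (B (M (nat_lit 460) (B (L (nat_lit 331) ln11_10_4 ln11_10_4_ok) (L (nat_lit 492) ln12_15_7 ln12_15_7_ok))) (B (M (nat_lit 460) (B (L (nat_lit 492) ln12_15_7 ln12_15_7_ok) (M (nat_lit 458) (B (L (nat_lit 490) ln11_11_5 ln11_11_5_ok) (L (nat_lit 457) ln9_14_2 ln9_14_2_ok))))) (M (nat_lit 458) (B (L (nat_lit 490) ln11_11_5 ln11_11_5_ok) (M (nat_lit 331) (B (L (nat_lit 299) ln11_9_4 ln11_9_4_ok) (L (nat_lit 426) ln11_10_5 ln11_10_5_ok))))))))) (M (nat_lit 397) (B (M (nat_lit 366) (B (M (nat_lit 394) (B (L (nat_lit 365) ln10_12_2 ln10_12_2_ok) (L (nat_lit 393) ln9_12_0 ln9_12_0_ok))) (M (nat_lit 398) (B (L (nat_lit 367) ln11_12_2 ln11_12_2_ok) (L (nat_lit 399) ln15_12_1 ln15_12_1_ok))))) (B (M (nat_lit 363) (B (M (nat_lit 331) (B (L (nat_lit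 299) ln11_9_4 ln11_9_4_ok) (L (nat_lit 460) ln11_10_4 ln11_10_4_ok))) (M (nat_lit 398) (B (L (nat_lit 362) ln14_12_3 ln14_12_3_ok) (L (nat_lit 399) ln15_12_1 ln15_12_1_ok))))) (M (nat_lit 365) (B (M (nat_lit 333) (B (L (nat_lit 301) ln13_9_5 ln13_9_5_ok) (L (nat_lit 460) ln13_10_5 ln13_10_5_ok))) (M (nat_lit 394) (B (L (nat_lit 366) ln10_12_2 ln10_12_2_ok) (L (nat_lit 393) ln9_12_0 ln9_12_0_ok))))))))))))))))))))))) (nat_lit 1488565709436905182597016920618875711317065232515143436133960971351635417069121137610048965517821161510899162402685155093675491255430152192) (nat_lit 205943929903015077434967507774678273850181362479448189402650709635274196621320471841811120366980794387756729999044837813345037578260739629597745574044860678144) (nat_lit 205943929903015077434967507774678273850181362479448189402650709635274196621320471841811120366980794387756729999044837813345037578260739629597745574044860678144) (by decide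 +kernel)
noncomputable def c32_n4763 : Cert := (M (nat_lit 364) (B (M (nat_lit 332) (B (L (nat_lit 427) ln12_10_5 ln12_10_5_ok) (M (nat_lit 300) (B (L (nat_lit 397) ln12_9_4 ln12_9_4_ok) (M (nat_lit 299) (B (L (nat_lit 267) ln12_12_7 ln12_12_7_ok) (L (nat_lit 331) ln12_13_7 ln12_13_7_ok))))))) (B (M (nat_lit 332) (B (L (nat_lit 427) ln12_10_5 ln12_10_5_ok) (M (nat_lit 300) (B (L (nat_lit 397) ln12_9_4 ln12_9_4_ok) (M (nat_lit 301) (B (L (nat_lit 269) ln12_12_6 ln12_12_6_ok) (L (nat_lit 333) ln12_13_6 ln12_13_6_ok))))))) (B (M (nat_lit 332) (B (L (nat_lit 427) ln12_10_5 ln12_10_5_ok) (M (nat_lit 460) (B (M (nat_lit 331) (B (L (nat_lit 299) ln12_13_7 ln12_13_7_ok) (L (nat_lit 363) ln12_14_7 ln12_14_7_ok))) (M (nat_lit 333) (B (L (nat_lit 301) ln12_13_6 ln12_13_6_ok) (L (nat_lit 365) ln12_14_6 ln12_14_6_ok))))))) (B (M (nat_lit 365) (B (M (nat_lit 333) (B (L (nat_lit 460) ln12_14_6 ln12_14_6_ok) (M (nat_lit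 301) (B (L (nat_lit 269) ln13_8_5 ln13_8_5_ok) (L (nat_lit 397) ln13_9_5 ln13_9_5_ok))))) (B (M (nat_lit 460) (B (L (nat_lit 333) ln12_14_6 ln12_14_6_ok) (M (nat_lit 492) (B (L (nat_lit 397) ln12_15_6 ln12_15_6_ok) (M (nat_lit 363) (B (L (nat_lit 331) ln12_14_7 ln12_14_7_ok) (L (nat_lit 395) ln12_15_7 ln12_15_7_ok))))))) (B (M (nat_lit 395) (B (M (nat_lit 394) (B (L (nat_lit 393) ln9_12_2 ln9_12_2_ok) (M (nat_lit 366) (B (L (nat_lit 363) ln14_11_1 ln14_11_1_ok) (L (nat_lit 367) ln15_11_1 ln15_11_1_ok))))) (B (M (nat_lit 394) (B (L (nat_lit 393) ln9_12_2 ln9_12_2_ok) (M (nat_lit 366) (B (L (nat_lit 367) ln15_11_1 ln15_11_1_ok) (L (nat_lit 397) ln10_12_2 ln10_12_2_ok))))) (M (nat_lit 363) (B (M (nat_lit 460) (B (L (nat_lit 331) ln12_14_7 ln12_14_7_ok) (L (nat_lit 492) ln12_15_7 ln12_15_7_ok))) (M (nat_lit 362) (B (M (nat_lit 330) (B (L (nat_lit 329) ln13_11_3 ln13_11_3_ok) (L (nat_lit 427) ln11_14_7 ln11_14_7_ok)))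 (M (nat_lit 397) (B (L (nat_lit 361) ln9_11_0 ln9_11_0_ok) (L (nat_lit 398) ln10_11_0 ln10_11_0_ok)))))))))) (B (M (nat_lit 460) (B (L (nat_lit 333) ln12_14_6 ln12_14_6_ok) (M (nat_lit 363) (B (L (nat_lit 331) ln12_14_7 ln12_14_7_ok) (M (nat_lit 395) (B (L (nat_lit 492) ln12_15_7 ln12_15_7_ok) (M (nat_lit 394) (B (L (nat_lit 366) ln14_11_1 ln14_11_1_ok) (L (nat_lit 393) ln9_12_2 ln9_12_2_ok))))))))) (M (nat_lit 366) (B (M (nat_lit 395) (B (L (nat_lit 367) ln15_11_1 ln15_11_1_ok) (M (nat_lit 394) (B (L (nat_lit 363) ln14_11_1 ln14_11_1_ok) (L (nat_lit 393) ln9_12_2 ln9_12_2_ok))))) (B (M (nat_lit 395) (B (L (nat_lit 367) ln15_11_1 ln15_11_1_ok) (M (nat_lit 394) (B (L (nat_lit 393) ln9_12_2 ln9_12_2_ok) (L (nat_lit 397) ln10_12_2 ln10_12_2_ok))))) (B (M (nat_lit 363) (B (M (nat_lit 331) (B (L (nat_lit 330) ln14_11_3 ln14_11_3_ok) (M (nat_lit 395) (B (L (nat_lit 299) ln11_9_4 ln11_9_4_ok) (L (nat_lit 394) ln14_11_1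 ln14_11_1_ok))))) (M (nat_lit 333) (B (M (nat_lit 301) (B (L (nat_lit 269) ln13_8_5 ln13_8_5_ok) (L (nat_lit 397) ln13_9_5 ln13_9_5_ok))) (M (nat_lit 334) (B (L (nat_lit 362) ln10_11_2 ln10_11_2_ok) (L (nat_lit 335) ln11_11_2 ln11_11_2_ok))))))) (B (M (nat_lit 367) (B (L (nat_lit 395) ln15_11_1 ln15_11_1_ok) (M (nat_lit 363) (B (M (nat_lit 335) (B (L (nat_lit 334) ln11_11_2 ln11_11_2_ok) (L (nat_lit 336) ln12_11_2 ln12_11_2_ok))) (M (nat_lit 399) (B (L (nat_lit 398) ln11_11_0 ln11_11_0_ok) (L (nat_lit 400) ln12_11_0 ln12_11_0_ok))))))) (M (nat_lit 363) (B (M (nat_lit 362) (B (M (nat_lit 330) (B (L (nat_lit 329) ln13_11_3 ln13_11_3_ok) (L (nat_lit 331) ln14_11_3 ln14_11_3_ok))) (M (nat_lit 398) (B (L (nat_lit 397) ln10_11_0 ln10_11_0_ok) (L (nat_lit 399) ln11_11_0 ln11_11_0_ok))))) (B (M (nat_lit 333) (B (M (nat_lit 301) (B (L (nat_lit 269) ln13_8_5 ln13_8_5_ok) (L (nat_lit 397) ln13_9_5 ln13_9_5_ok))) (M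 (nat_lit 334) (B (L (nat_lit 362) ln10_11_2 ln10_11_2_ok) (L (nat_lit 335) ln11_11_2 ln11_11_2_ok))))) (M (nat_lit 367) (B (M (nat_lit 335) (B (L (nat_lit 334) ln11_11_2 ln11_11_2_ok) (L (nat_lit 336) ln12_11_2 ln12_11_2_ok))) (M (nat_lit 399) (B (L (nat_lit 398) ln11_11_0 ln11_11_0_ok) (L (nat_lit 400) ln12_11_0 ln12_11_0_ok)))))))))))))))))) (M (nat_lit 332) (B (M (nat_lit 300) (B (L (nat_lit 397) ln12_9_4 ln12_9_4_ok) (M (nat_lit 301) (B (L (nat_lit 269) ln12_12_6 ln12_12_6_ok) (L (nat_lit 333) ln12_13_6 ln12_13_6_ok))))) (B (M (nat_lit 300) (B (L (nat_lit 397) ln12_9_4 ln12_9_4_ok) (M (nat_lit 299) (B (L (nat_lit 267) ln12_12_7 ln12_12_7_ok) (L (nat_lit 331) ln12_13_7 ln12_13_7_ok))))) (M (nat_lit 460) (B (M (nat_lit 331) (B (L (nat_lit 299) ln12_13_7 ln12_13_7_ok) (L (nat_lit 363) ln12_14_7 ln12_14_7_ok))) (M (nat_lit 333) (B (L (nat_lit 301) ln12_13_6 ln12_13_6_ok) (L (nat_lit 365) ln12_14_6 ln12_14_6_ok)))))))))))))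
theorem c32_s4764 : Sem (nat_lit 2079502270752001762064242424960807725827516048677469043429686155012882190638009693656033379242457518153052022685796627120027336704) (nat_lit 589681629084309766190757980715873087687804617454677444449914239458786405395279362597473095144603499308695667031245598577413886097661308200842426999214355855904685948928) (nat_lit 589681629084309766190757980715873087687804617454677444449914239458786405395279362597473095144603499308695667031245598577413886097661308200842426999214355855904685948928) :=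
  sem_of_chk (M (nat_lit 459) (B (M (nat_lit 364) (B (M (nat_lit 427) (B (L (nat_lit 332) ln12_10_5 ln12_10_5_ok) (M (nat_lit 491) (B (L (nat_lit 395) ln11_15_6 ln11_15_6_ok) (L (nat_lit 523) ln11_16_6 ln11_16_6_ok))))) (B (M (nat_lit 491) (B (L (nat_lit 460) ln12_11_5 ln12_11_5_ok) (M (nat_lit 427) (B (L (nat_lit 395) ln11_15_6 ln11_15_6_ok) (L (nat_lit 523) ln11_16_6 ln11_16_6_ok))))) (B (M (nat_lit 427) (B (L (nat_lit 332) ln12_10_5 ln12_10_5_ok) (M (nat_lit 491) (B (L (nat_lit 460) ln12_11_5 ln12_11_5_ok) (L (nat_lit 523) ln11_16_6 ln11_16_6_ok))))) (B (M (nat_lit 332) (B (M (nat_lit 300) (B (L (nat_lit 397) ln12_9_4 ln12_9_4_ok) (M (nat_lit 301) (B (L (nat_lit 269) ln12_12_6 ln12_12_6_ok) (L (nat_lit 333) ln12_13_6 ln12_13_6_ok))))) (M (nat_lit 460) (B (L (nat_lit 491) ln12_11_5 ln12_11_5_ok) (M (nat_lit 331) (B (L (nat_lit 299) ln12_13_7 ln12_13_7_ok) (L (nat_lit 363) ln12_14_7 ln12_14_7_ok)))))))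 (M (nat_lit 332) (B (L (nat_lit 427) ln12_10_5 ln12_10_5_ok) (M (nat_lit 300) (B (L (nat_lit 397) ln12_9_4 ln12_9_4_ok) (M (nat_lit 301) (B (L (nat_lit 269) ln12_12_6 ln12_12_6_ok) (L (nat_lit 333) ln12_13_6 ln12_13_6_ok)))))))))))) (B (M (nat_lit 364) (B (M (nat_lit 427) (B (L (nat_lit 332) ln12_10_5 ln12_10_5_ok) (M (nat_lit 491) (B (L (nat_lit 460) ln12_11_5 ln12_11_5_ok) (L (nat_lit 523) ln11_16_6 ln11_16_6_ok))))) (B (M (nat_lit 491) (B (L (nat_lit 460) ln12_11_5 ln12_11_5_ok) (M (nat_lit 427) (B (L (nat_lit 395) ln11_15_6 ln11_15_6_ok) (L (nat_lit 523) ln11_16_6 ln11_16_6_ok))))) (B (M (nat_lit 332) (B (M (nat_lit 300) (B (L (nat_lit 397) ln12_9_4 ln12_9_4_ok) (M (nat_lit 299) (B (L (nat_lit 267) ln12_12_7 ln12_12_7_ok) (L (nat_lit 331) ln12_13_7 ln12_13_7_ok))))) (M (nat_lit 460) (B (L (nat_lit 491) ln12_11_5 ln12_11_5_ok) (M (nat_lit 333) (B (L (nat_lit 301) ln12_13_6 ln12_13_6_ok) (L (nat_lit 365)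 ln12_14_6 ln12_14_6_ok))))))) (B (M (nat_lit 427) (B (L (nat_lit 332) ln12_10_5 ln12_10_5_ok) (M (nat_lit 491) (B (L (nat_lit 395) ln11_15_6 ln11_15_6_ok) (L (nat_lit 523) ln11_16_6 ln11_16_6_ok))))) (M (nat_lit 332) (B (L (nat_lit 427) ln12_10_5 ln12_10_5_ok) (M (nat_lit 300) (B (L (nat_lit 397) ln12_9_4 ln12_9_4_ok) (M (nat_lit 299) (B (L (nat_lit 267) ln12_12_7 ln12_12_7_ok) (L (nat_lit 331) ln12_13_7 ln12_13_7_ok)))))))))))) (B (M (nat_lit 364) (B (M (nat_lit 427) (B (L (nat_lit 332) ln12_10_5 ln12_10_5_ok) (M (nat_lit 491) (B (L (nat_lit 395) ln11_15_6 ln11_15_6_ok) (L (nat_lit 523) ln11_16_6 ln11_16_6_ok))))) (B (M (nat_lit 491) (B (L (nat_lit 460) ln12_11_5 ln12_11_5_ok) (M (nat_lit 427) (B (L (nat_lit 395) ln11_15_6 ln11_15_6_ok) (L (nat_lit 523) ln11_16_6 ln11_16_6_ok))))) (B (M (nat_lit 427) (B (L (nat_lit 332) ln12_10_5 ln12_10_5_ok) (M (nat_lit 491) (B (L (nat_lit 460) ln12_11_5 ln12_11_5_ok)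 (L (nat_lit 523) ln11_16_6 ln11_16_6_ok))))) (B (M (nat_lit 460) (B (L (nat_lit 491) ln12_11_5 ln12_11_5_ok) (M (nat_lit 492) (B (M (nat_lit 363) (B (L (nat_lit 331) ln12_14_7 ln12_14_7_ok) (L (nat_lit 395) ln12_15_7 ln12_15_7_ok))) (M (nat_lit 365) (B (L (nat_lit 333) ln12_14_6 ln12_14_6_ok) (L (nat_lit 397) ln12_15_6 ln12_15_6_ok))))))) (M (nat_lit 332) (B (L (nat_lit 427) ln12_10_5 ln12_10_5_ok) (M (nat_lit 300) (B (L (nat_lit 397) ln12_9_4 ln12_9_4_ok) (M (nat_lit 301) (B (L (nat_lit 269) ln12_12_6 ln12_12_6_ok) (L (nat_lit 333) ln12_13_6 ln12_13_6_ok)))))))))))) (B (M (nat_lit 364) (B (M (nat_lit 427) (B (L (nat_lit 332) ln12_10_5 ln12_10_5_ok) (M (nat_lit 491) (B (L (nat_lit 460) ln12_11_5 ln12_11_5_ok) (L (nat_lit 523) ln11_16_6 ln11_16_6_ok))))) (B (M (nat_lit 491) (B (L (nat_lit 460) ln12_11_5 ln12_11_5_ok) (M (nat_lit 427) (B (L (nat_lit 395) ln11_15_6 ln11_15_6_ok) (L (nat_lit 523) ln11_16_6 ln11_16_6_ok)))))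 (B (M (nat_lit 460) (B (L (nat_lit 491) ln12_11_5 ln12_11_5_ok) (M (nat_lit 492) (B (M (nat_lit 363) (B (L (nat_lit 331) ln12_14_7 ln12_14_7_ok) (L (nat_lit 395) ln12_15_7 ln12_15_7_ok))) (M (nat_lit 365) (B (L (nat_lit 333) ln12_14_6 ln12_14_6_ok) (L (nat_lit 397) ln12_15_6 ln12_15_6_ok))))))) (B (M (nat_lit 427) (B (L (nat_lit 332) ln12_10_5 ln12_10_5_ok) (M (nat_lit 491) (B (L (nat_lit 395) ln11_15_6 ln11_15_6_ok) (L (nat_lit 523) ln11_16_6 ln11_16_6_ok))))) (M (nat_lit 332) (B (L (nat_lit 427) ln12_10_5 ln12_10_5_ok) (M (nat_lit 460) (B (M (nat_lit 331) (B (L (nat_lit 299) ln12_13_7 ln12_13_7_ok) (L (nat_lit 363) ln12_14_7 ln12_14_7_ok))) (M (nat_lit 333) (B (L (nat_lit 301) ln12_13_6 ln12_13_6_ok) (L (nat_lit 365) ln12_14_6 ln12_14_6_ok)))))))))))) (B (M (nat_lit 364) (B (M (nat_lit 427) (B (L (nat_lit 332) ln12_10_5 ln12_10_5_ok) (M (nat_lit 491) (B (L (nat_lit 395) ln11_15_6 ln11_15_6_ok) (L (nat_lit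 523) ln11_16_6 ln11_16_6_ok))))) (B (M (nat_lit 491) (B (L (nat_lit 460) ln12_11_5 ln12_11_5_ok) (M (nat_lit 427) (B (L (nat_lit 395) ln11_15_6 ln11_15_6_ok) (L (nat_lit 523) ln11_16_6 ln11_16_6_ok))))) (B (M (nat_lit 427) (B (L (nat_lit 332) ln12_10_5 ln12_10_5_ok) (M (nat_lit 491) (B (L (nat_lit 460) ln12_11_5 ln12_11_5_ok) (L (nat_lit 523) ln11_16_6 ln11_16_6_ok))))) (B (M (nat_lit 460) (B (L (nat_lit 491) ln12_11_5 ln12_11_5_ok) (M (nat_lit 492) (B (M (nat_lit 363) (B (L (nat_lit 331) ln12_14_7 ln12_14_7_ok) (L (nat_lit 395) ln12_15_7 ln12_15_7_ok))) (M (nat_lit 365) (B (L (nat_lit 333) ln12_14_6 ln12_14_6_ok) (L (nat_lit 397) ln12_15_6 ln12_15_6_ok))))))) (M (nat_lit 332) (B (L (nat_lit 427) ln12_10_5 ln12_10_5_ok) (M (nat_lit 300) (B (L (nat_lit 397) ln12_9_4 ln12_9_4_ok) (M (nat_lit 299) (B (L (nat_lit 267) ln12_12_7 ln12_12_7_ok) (L (nat_lit 331) ln12_13_7 ln12_13_7_ok)))))))))))) (B (M (nat_lit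 364) (B (M (nat_lit 427) (B (L (nat_lit 332) ln12_10_5 ln12_10_5_ok) (M (nat_lit 491) (B (L (nat_lit 460) ln12_11_5 ln12_11_5_ok) (L (nat_lit 523) ln11_16_6 ln11_16_6_ok))))) (B (M (nat_lit 491) (B (L (nat_lit 460) ln12_11_5 ln12_11_5_ok) (M (nat_lit 427) (B (L (nat_lit 395) ln11_15_6 ln11_15_6_ok) (L (nat_lit 523) ln11_16_6 ln11_16_6_ok))))) (B (M (nat_lit 332) (B (M (nat_lit 300) (B (L (nat_lit 397) ln12_9_4 ln12_9_4_ok) (M (nat_lit 301) (B (L (nat_lit 269) ln12_12_6 ln12_12_6_ok) (L (nat_lit 333) ln12_13_6 ln12_13_6_ok))))) (B (M (nat_lit 460) (B (L (nat_lit 491) ln12_11_5 ln12_11_5_ok) (M (nat_lit 333) (B (L (nat_lit 301) ln12_13_6 ln12_13_6_ok) (L (nat_lit 365) ln12_14_6 ln12_14_6_ok))))) (B (M (nat_lit 460) (B (L (nat_lit 491) ln12_11_5 ln12_11_5_ok) (M (nat_lit 397) (B (L (nat_lit 300) ln12_9_4 ln12_9_4_ok) (M (nat_lit 365) (B (L (nat_lit 333) ln12_14_6 ln12_14_6_ok) (L (nat_lit 492) ln12_15_6 ln12_15_6_ok)))))))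 (M (nat_lit 460) (B (L (nat_lit 491) ln12_11_5 ln12_11_5_ok) (M (nat_lit 397) (B (L (nat_lit 300) ln12_9_4 ln12_9_4_ok) (M (nat_lit 492) (B (L (nat_lit 365) ln12_15_6 ln12_15_6_ok) (L (nat_lit 524) ln12_16_6 ln12_16_6_ok))))))))))) (B (M (nat_lit 427) (B (L (nat_lit 332) ln12_10_5 ln12_10_5_ok) (M (nat_lit 491) (B (L (nat_lit 395) ln11_15_6 ln11_15_6_ok) (L (nat_lit 523) ln11_16_6 ln11_16_6_ok))))) (M (nat_lit 332) (B (L (nat_lit 427) ln12_10_5 ln12_10_5_ok) (M (nat_lit 300) (B (L (nat_lit 397) ln12_9_4 ln12_9_4_ok) (M (nat_lit 301) (B (L (nat_lit 269) ln12_12_6 ln12_12_6_ok) (L (nat_lit 333) ln12_13_6 ln12_13_6_ok)))))))))))) (B (M (nat_lit 460) (B (M (nat_lit 491) (B (L (nat_lit 364) ln12_11_5 ln12_11_5_ok) (M (nat_lit 523) (B (L (nat_lit 427) ln11_16_6 ln11_16_6_ok) (L (nat_lit 492) ln12_12_5 ln12_12_5_ok))))) (B (M (nat_lit 491) (B (M (nat_lit 523) (B (L (nat_lit 427) ln11_16_6 ln11_16_6_ok) (L (nat_lit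 492) ln12_12_5 ln12_12_5_ok))) (B (M (nat_lit 523) (B (L (nat_lit 492) ln12_12_5 ln12_12_5_ok) (L (nat_lit 555) ln11_17_6 ln11_17_6_ok))) (B (M (nat_lit 523) (B (L (nat_lit 427) ln11_16_6 ln11_16_6_ok) (L (nat_lit 555) ln11_17_6 ln11_17_6_ok))) (M (nat_lit 492) (B (M (nat_lit 397) (B (L (nat_lit 365) ln12_15_6 ln12_15_6_ok) (L (nat_lit 524) ln12_16_6 ln12_16_6_ok))) (M (nat_lit 493) (B (L (nat_lit 525) ln12_12_4 ln12_12_4_ok) (M (nat_lit 458) (B (L (nat_lit 457) ln9_14_2 ln9_14_2_ok) (L (nat_lit 494) ln14_15_3 ln14_15_3_ok))))))))))) (B (M (nat_lit 491) (B (L (nat_lit 364) ln12_11_5 ln12_11_5_ok) (M (nat_lit 523) (B (L (nat_lit 492) ln12_12_5 ln12_12_5_ok) (L (nat_lit 555) ln11_17_6 ln11_17_6_ok))))) (B (M (nat_lit 492) (B (M (nat_lit 397) (B (L (nat_lit 365) ln12_15_6 ln12_15_6_ok) (L (nat_lit 524) ln12_16_6 ln12_16_6_ok))) (B (M (nat_lit 395) (B (L (nat_lit 363) ln12_15_7 ln12_15_7_ok) (M (nat_lit 524)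 (B (L (nat_lit 427) ln12_16_7 ln12_16_7_ok) (L (nat_lit 397) ln12_16_6 ln12_16_6_ok))))) (B (M (nat_lit 524) (B (M (nat_lit 395) (B (L (nat_lit 363) ln12_15_7 ln12_15_7_ok) (L (nat_lit 427) ln12_16_7 ln12_16_7_ok))) (M (nat_lit 525) (B (L (nat_lit 493) ln12_12_4 ln12_12_4_ok) (L (nat_lit 557) ln12_13_4 ln12_13_4_ok))))) (M (nat_lit 364) (B (M (nat_lit 363) (B (L (nat_lit 331) ln12_14_7 ln12_14_7_ok) (L (nat_lit 395) ln12_15_7 ln12_15_7_ok))) (M (nat_lit 365) (B (L (nat_lit 333) ln12_14_6 ln12_14_6_ok) (L (nat_lit 397) ln12_15_6 ln12_15_6_ok))))))))) (M (nat_lit 491) (B (L (nat_lit 364) ln12_11_5 ln12_11_5_ok) (M (nat_lit 523) (B (L (nat_lit 427) ln11_16_6 ln11_16_6_ok) (L (nat_lit 555) ln11_17_6 ln11_17_6_ok)))))))))) (B (M (nat_lit 364) (B (M (nat_lit 427) (B (L (nat_lit 332) ln12_10_5 ln12_10_5_ok) (M (nat_lit 491) (B (L (nat_lit 395) ln11_15_6 ln11_15_6_ok) (L (nat_lit 523) ln11_16_6 ln11_16_6_ok)))))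 (B (M (nat_lit 491) (B (L (nat_lit 460) ln12_11_5 ln12_11_5_ok) (M (nat_lit 427) (B (L (nat_lit 395) ln11_15_6 ln11_15_6_ok) (L (nat_lit 523) ln11_16_6 ln11_16_6_ok))))) (B (M (nat_lit 427) (B (L (nat_lit 332) ln12_10_5 ln12_10_5_ok) (M (nat_lit 491) (B (L (nat_lit 460) ln12_11_5 ln12_11_5_ok) (L (nat_lit 523) ln11_16_6 ln11_16_6_ok))))) (B (M (nat_lit 460) (B (L (nat_lit 491) ln12_11_5 ln12_11_5_ok) (M (nat_lit 492) (B (M (nat_lit 363) (B (L (nat_lit 331) ln12_14_7 ln12_14_7_ok) (L (nat_lit 395) ln12_15_7 ln12_15_7_ok))) (M (nat_lit 397) (B (L (nat_lit 365) ln12_15_6 ln12_15_6_ok) (L (nat_lit 524) ln12_16_6 ln12_16_6_ok))))))) (M (nat_lit 332) (B (L (nat_lit 427) ln12_10_5 ln12_10_5_ok) (M (nat_lit 300) (B (L (nat_lit 397) ln12_9_4 ln12_9_4_ok) (M (nat_lit 299) (B (L (nat_lit 267) ln12_12_7 ln12_12_7_ok) (L (nat_lit 331) ln12_13_7 ln12_13_7_ok)))))))))))) (B (K (nat_lit 1488565709436905182597016920618875711317065232515143436133960971351635417069121137610048965517821161510899162402685155093675491255430152192)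 (nat_lit 205943929903015077434967507774678273850181362479448189402650709635274196621320471841811120366980794387756729999044837813345037578260739629597745574044860678144) (nat_lit 205943929903015077434967507774678273850181362479448189402650709635274196621320471841811120366980794387756729999044837813345037578260739629597745574044860678144) c32_s4580) (B (M (nat_lit 364) (B (M (nat_lit 427) (B (L (nat_lit 332) ln12_10_5 ln12_10_5_ok) (M (nat_lit 491) (B (L (nat_lit 460) ln12_11_5 ln12_11_5_ok) (L (nat_lit 523) ln11_16_6 ln11_16_6_ok))))) (B (M (nat_lit 460) (B (L (nat_lit 491) ln12_11_5 ln12_11_5_ok) (M (nat_lit 365) (B (L (nat_lit 333) ln12_14_6 ln12_14_6_ok) (M (nat_lit 397) (B (L (nat_lit 492) ln12_15_6 ln12_15_6_ok) (M (nat_lit 363) (B (L (nat_lit 331) ln12_14_7 ln12_14_7_ok) (M (nat_lit 362) (B (L (nat_lit 361) ln9_11_0 ln9_11_0_ok) (L (nat_lit 398) ln10_11_0 ln10_11_0_ok))))))))))) (M (nat_lit 332) (B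 (L (nat_lit 427) ln12_10_5 ln12_10_5_ok) (M (nat_lit 300) (B (L (nat_lit 397) ln12_9_4 ln12_9_4_ok) (M (nat_lit 299) (B (L (nat_lit 267) ln12_12_7 ln12_12_7_ok) (L (nat_lit 331) ln12_13_7 ln12_13_7_ok)))))))))) (B (M (nat_lit 491) (B (M (nat_lit 427) (B (L (nat_lit 523) ln11_16_6 ln11_16_6_ok) (M (nat_lit 364) (B (L (nat_lit 395) ln11_15_6 ln11_15_6_ok) (L (nat_lit 460) ln12_11_5 ln12_11_5_ok))))) (B (M (nat_lit 523) (B (L (nat_lit 427) ln11_16_6 ln11_16_6_ok) (M (nat_lit 460) (B (L (nat_lit 492) ln12_12_5 ln12_12_5_ok) (L (nat_lit 555) ln11_17_6 ln11_17_6_ok))))) (B (M (nat_lit 460) (B (L (nat_lit 364) ln12_11_5 ln12_11_5_ok) (M (nat_lit 523) (B (L (nat_lit 492) ln12_12_5 ln12_12_5_ok) (L (nat_lit 555) ln11_17_6 ln11_17_6_ok))))) (B (M (nat_lit 427) (B (L (nat_lit 523) ln11_16_6 ln11_16_6_ok) (M (nat_lit 364) (B (L (nat_lit 332) ln12_10_5 ln12_10_5_ok) (L (nat_lit 395) ln11_15_6 ln11_15_6_ok))))) (M (nat_lit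 364) (B (L (nat_lit 460) ln12_11_5 ln12_11_5_ok) (M (nat_lit 427) (B (L (nat_lit 332) ln12_10_5 ln12_10_5_ok) (L (nat_lit 395) ln11_15_6 ln11_15_6_ok)))))))))) (B (M (nat_lit 460) (B (M (nat_lit 491) (B (L (nat_lit 364) ln12_11_5 ln12_11_5_ok) (M (nat_lit 523) (B (L (nat_lit 492) ln12_12_5 ln12_12_5_ok) (L (nat_lit 555) ln11_17_6 ln11_17_6_ok))))) (B (M (nat_lit 492) (B (M (nat_lit 397) (B (L (nat_lit 365) ln12_15_6 ln12_15_6_ok) (L (nat_lit 524) ln12_16_6 ln12_16_6_ok))) (M (nat_lit 493) (B (L (nat_lit 525) ln12_12_4 ln12_12_4_ok) (M (nat_lit 458) (B (L (nat_lit 457) ln9_14_2 ln9_14_2_ok) (M (nat_lit 491) (B (L (nat_lit 523) ln12_12_5 ln12_12_5_ok) (L (nat_lit 494) ln14_15_3 ln14_15_3_ok))))))))) (B (M (nat_lit 364) (B (M (nat_lit 492) (B (M (nat_lit 363) (B (L (nat_lit 331) ln12_14_7 ln12_14_7_ok) (L (nat_lit 395) ln12_15_7 ln12_15_7_ok))) (M (nat_lit 365) (B (L (nat_lit 333) ln12_14_6 ln12_14_6_ok) (L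 (nat_lit 397) ln12_15_6 ln12_15_6_ok))))) (B (M (nat_lit 332) (B (M (nat_lit 333) (B (L (nat_lit 301) ln12_13_6 ln12_13_6_ok) (L (nat_lit 365) ln12_14_6 ln12_14_6_ok))) (B (M (nat_lit 397) (B (L (nat_lit 300) ln12_9_4 ln12_9_4_ok) (M (nat_lit 492) (B (L (nat_lit 365) ln12_15_6 ln12_15_6_ok) (L (nat_lit 524) ln12_16_6 ln12_16_6_ok))))) (M (nat_lit 300) (B (L (nat_lit 397) ln12_9_4 ln12_9_4_ok) (M (nat_lit 301) (B (L (nat_lit 269) ln12_12_6 ln12_12_6_ok) (L (nat_lit 333) ln12_13_6 ln12_13_6_ok)))))))) (B (M (nat_lit 492) (B (M (nat_lit 363) (B (L (nat_lit 331) ln12_14_7 ln12_14_7_ok) (L (nat_lit 395) ln12_15_7 ln12_15_7_ok))) (M (nat_lit 397) (B (L (nat_lit 365) ln12_15_6 ln12_15_6_ok) (L (nat_lit 524) ln12_16_6 ln12_16_6_ok))))) (B (M (nat_lit 332) (B (M (nat_lit 331) (B (L (nat_lit 299) ln12_13_7 ln12_13_7_ok) (L (nat_lit 363) ln12_14_7 ln12_14_7_ok))) (M (nat_lit 300) (B (L (nat_lit 397) ln12_9_4 ln12_9_4_ok)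 (M (nat_lit 301) (B (L (nat_lit 269) ln12_12_6 ln12_12_6_ok) (L (nat_lit 333) ln12_13_6 ln12_13_6_ok))))))) (M (nat_lit 332) (B (M (nat_lit 331) (B (L (nat_lit 299) ln12_13_7 ln12_13_7_ok) (L (nat_lit 363) ln12_14_7 ln12_14_7_ok))) (M (nat_lit 333) (B (L (nat_lit 301) ln12_13_6 ln12_13_6_ok) (L (nat_lit 365) ln12_14_6 ln12_14_6_ok)))))))))) (M (nat_lit 364) (B (L (nat_lit 491) ln12_11_5 ln12_11_5_ok) (M (nat_lit 332) (B (M (nat_lit 331) (B (L (nat_lit 299) ln12_13_7 ln12_13_7_ok) (L (nat_lit 363) ln12_14_7 ln12_14_7_ok))) (M (nat_lit 333) (B (L (nat_lit 301) ln12_13_6 ln12_13_6_ok) (L (nat_lit 365) ln12_14_6 ln12_14_6_ok))))))))))) (B (M (nat_lit 427) (B (M (nat_lit 491) (B (L (nat_lit 523) ln11_16_6 ln11_16_6_ok) (M (nat_lit 364) (B (L (nat_lit 332) ln12_10_5 ln12_10_5_ok) (L (nat_lit 395) ln11_15_6 ln11_15_6_ok))))) (B (M (nat_lit 491) (B (L (nat_lit 523) ln11_16_6 ln11_16_6_ok) (M (nat_lit 395) (B (L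 (nat_lit 364) ln11_15_6 ln11_15_6_ok) (M (nat_lit 394) (B (L (nat_lit 362) ln11_15_7 ln11_15_7_ok) (L (nat_lit 393) ln9_12_0 ln9_12_0_ok))))))) (B (M (nat_lit 491) (B (L (nat_lit 523) ln11_16_6 ln11_16_6_ok) (M (nat_lit 426) (B (M (nat_lit 397) (B (L (nat_lit 425) ln9_13_2 ln9_13_2_ok) (L (nat_lit 398) ln10_13_2 ln10_13_2_ok))) (M (nat_lit 394) (B (L (nat_lit 393) ln13_13_3 ln13_13_3_ok) (M (nat_lit 362) (B (L (nat_lit 330) ln10_10_4 ln10_10_4_ok) (L (nat_lit 395) ln11_15_7 ln11_15_7_ok))))))))) (B (M (nat_lit 491) (B (L (nat_lit 523) ln11_16_6 ln11_16_6_ok) (M (nat_lit 426) (B (M (nat_lit 397) (B (L (nat_lit 425) ln9_13_2 ln9_13_2_ok) (L (nat_lit 398) ln10_13_2 ln10_13_2_ok))) (M (nat_lit 394) (B (L (nat_lit 393) ln13_13_3 ln13_13_3_ok) (M (nat_lit 458) (B (L (nat_lit 362) ln10_11_4 ln10_11_4_ok) (L (nat_lit 457) ln13_13_1 ln13_13_1_ok))))))))) (M (nat_lit 397) (B (M (nat_lit 398) (B (L (nat_lit 399) ln15_12_1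 ln15_12_1_ok) (L (nat_lit 426) ln10_13_2 ln10_13_2_ok))) (B (M (nat_lit 426) (B (L (nat_lit 425) ln9_13_2 ln9_13_2_ok) (M (nat_lit 395) (B (M (nat_lit 394) (B (L (nat_lit 393) ln9_12_0 ln9_12_0_ok) (M (nat_lit 362) (B (L (nat_lit 330) ln10_10_4 ln10_10_4_ok) (L (nat_lit 361) ln13_12_3 ln13_12_3_ok))))) (M (nat_lit 458) (B (L (nat_lit 457) ln13_13_1 ln13_13_1_ok) (M (nat_lit 363) (B (L (nat_lit 331) ln11_10_5 ln11_10_5_ok) (L (nat_lit 490) ln11_11_5 ln11_11_5_ok))))))))) (M (nat_lit 395) (B (M (nat_lit 366) (B (M (nat_lit 394) (B (L (nat_lit 365) ln10_12_2 ln10_12_2_ok) (L (nat_lit 393) ln9_12_0 ln9_12_0_ok))) (M (nat_lit 398) (B (L (nat_lit 367) ln11_12_2 ln11_12_2_ok) (L (nat_lit 399) ln15_12_1 ln15_12_1_ok))))) (B (M (nat_lit 332) (B (L (nat_lit 364) ln12_10_5 ln12_10_5_ok) (M (nat_lit 363) (B (M (nat_lit 331) (B (L (nat_lit 299) ln11_9_4 ln11_9_4_ok) (L (nat_lit 300) ln11_13_6 ln11_13_6_ok))) (M (nat_lit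 398) (B (L (nat_lit 362) ln14_12_3 ln14_12_3_ok) (L (nat_lit 399) ln15_12_1 ln15_12_1_ok))))))) (M (nat_lit 365) (B (M (nat_lit 394) (B (L (nat_lit 366) ln10_12_2 ln10_12_2_ok) (L (nat_lit 393) ln9_12_0 ln9_12_0_ok))) (M (nat_lit 332) (B (L (nat_lit 364) ln12_10_5 ln12_10_5_ok) (M (nat_lit 333) (B (L (nat_lit 300) ln13_13_7 ln13_13_7_ok) (L (nat_lit 301) ln13_9_5 ln13_9_5_ok)))))))))))))))))) c32_n4763)))))))))))))) (nat_lit 2079502270752001762064242424960807725827516048677469043429686155012882190638009693656033379242457518153052022685796627120027336704) (nat_lit 589681629084309766190757980715873087687804617454677444449914239458786405395279362597473095144603499308695667031245598577413886097661308200842426999214355855904685948928) (nat_lit 589681629084309766190757980715873087687804617454677444449914239458786405395279362597473095144603499308695667031245598577413886097661308200842426999214355855904685948928)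 (by decide +kernel)
noncomputable def c32_n4861 : Cert := (M (nat_lit 365) (B (M (nat_lit 333) (B (L (nat_lit 460) ln12_14_6 ln12_14_6_ok) (M (nat_lit 301) (B (L (nat_lit 269) ln13_8_5 ln13_8_5_ok) (L (nat_lit 397) ln13_9_5 ln13_9_5_ok))))) (B (M (nat_lit 460) (B (L (nat_lit 333) ln12_14_6 ln12_14_6_ok) (M (nat_lit 492) (B (L (nat_lit 397) ln12_15_6 ln12_15_6_ok) (M (nat_lit 363) (B (L (nat_lit 331) ln12_14_7 ln12_14_7_ok) (L (nat_lit 395) ln12_15_7 ln12_15_7_ok))))))) (B (M (nat_lit 397) (B (M (nat_lit 460) (B (L (nat_lit 492) ln12_15_6 ln12_15_6_ok) (M (nat_lit 363) (B (L (nat_lit 331) ln12_14_7 ln12_14_7_ok) (M (nat_lit 362) (B (L (nat_lit 361) ln9_11_0 ln9_11_0_ok) (L (nat_lit 398) ln10_11_0 ln10_11_0_ok))))))) (B (M (nat_lit 398) (B (M (nat_lit 399) (B (L (nat_lit 400) ln16_12_3 ln16_12_3_ok) (L (nat_lit 427) ln15_12_1 ln15_12_1_ok))) (M (nat_lit 366) (B (M (nat_lit 334) (B (L (nat_lit 302) ln14_9_5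 ln14_9_5_ok) (L (nat_lit 461) ln13_14_6 ln13_14_6_ok))) (M (nat_lit 395) (B (L (nat_lit 367) ln15_11_1 ln15_11_1_ok) (L (nat_lit 394) ln10_12_2 ln10_12_2_ok))))))) (M (nat_lit 366) (B (M (nat_lit 395) (B (L (nat_lit 367) ln15_11_1 ln15_11_1_ok) (L (nat_lit 394) ln10_12_2 ln10_12_2_ok))) (M (nat_lit 363) (B (M (nat_lit 331) (B (L (nat_lit 330) ln14_11_3 ln14_11_3_ok) (L (nat_lit 460) ln12_14_7 ln12_14_7_ok))) (M (nat_lit 334) (B (L (nat_lit 335) ln11_11_2 ln11_11_2_ok) (L (nat_lit 461) ln13_14_6 ln13_14_6_ok)))))))))) (B (M (nat_lit 460) (B (L (nat_lit 333) ln12_14_6 ln12_14_6_ok) (M (nat_lit 492) (B (M (nat_lit 363) (B (L (nat_lit 331) ln12_14_7 ln12_14_7_ok) (L (nat_lit 395) ln12_15_7 ln12_15_7_ok))) (M (nat_lit 491) (B (L (nat_lit 459) ln12_11_5 ln12_11_5_ok) (L (nat_lit 523) ln12_12_5 ln12_12_5_ok))))))) (M (nat_lit 366) (B (M (nat_lit 395) (B (L (nat_lit 367) ln15_11_1 ln15_11_1_ok) (M (nat_lit 394)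 (B (L (nat_lit 393) ln9_12_2 ln9_12_2_ok) (L (nat_lit 397) ln10_12_2 ln10_12_2_ok))))) (B (M (nat_lit 363) (B (M (nat_lit 331) (B (L (nat_lit 330) ln14_11_3 ln14_11_3_ok) (M (nat_lit 395) (B (L (nat_lit 299) ln11_9_4 ln11_9_4_ok) (L (nat_lit 394) ln14_11_1 ln14_11_1_ok))))) (M (nat_lit 397) (B (M (nat_lit 334) (B (L (nat_lit 335) ln11_11_2 ln11_11_2_ok) (L (nat_lit 461) ln13_14_6 ln13_14_6_ok))) (M (nat_lit 362) (B (L (nat_lit 361) ln9_11_0 ln9_11_0_ok) (L (nat_lit 398) ln10_11_0 ln10_11_0_ok))))))) (B (M (nat_lit 397) (B (M (nat_lit 367) (B (L (nat_lit 395) ln15_11_1 ln15_11_1_ok) (L (nat_lit 368) ln16_11_1 ln16_11_1_ok))) (M (nat_lit 333) (B (L (nat_lit 301) ln13_9_5 ln13_9_5_ok) (M (nat_lit 334) (B (L (nat_lit 302) ln13_13_6 ln13_13_6_ok) (L (nat_lit 461) ln13_14_6 ln13_14_6_ok))))))) (B (M (nat_lit 397) (B (M (nat_lit 333) (B (L (nat_lit 301) ln13_9_5 ln13_9_5_ok) (M (nat_lit 334) (B (L (nat_lit 302)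 ln13_13_6 ln13_13_6_ok) (L (nat_lit 461) ln13_14_6 ln13_14_6_ok))))) (B (M (nat_lit 334) (B (L (nat_lit 461) ln13_14_6 ln13_14_6_ok) (M (nat_lit 302) (B (L (nat_lit 333) ln13_13_6 ln13_13_6_ok) (L (nat_lit 398) ln14_9_5 ln14_9_5_ok))))) (M (nat_lit 399) (B (M (nat_lit 367) (B (L (nat_lit 400) ln12_11_0 ln12_11_0_ok) (L (nat_lit 368) ln16_11_1 ln16_11_1_ok))) (B (M (nat_lit 398) (B (L (nat_lit 363) ln11_11_0 ln11_11_0_ok) (L (nat_lit 400) ln16_12_3 ln16_12_3_ok))) (M (nat_lit 398) (B (L (nat_lit 363) ln11_11_0 ln11_11_0_ok) (L (nat_lit 427) ln15_12_1 ln15_12_1_ok))))))))) (M (nat_lit 395) (B (L (nat_lit 367) ln15_11_1 ln15_11_1_ok) (M (nat_lit 394) (B (L (nat_lit 363) ln14_11_1 ln14_11_1_ok) (L (nat_lit 393) ln9_12_2 ln9_12_2_ok)))))))))))))))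
theorem c32_s4862 : Sem (nat_lit 2079502270752001762064242424960807725827516048677469043429686155012882190638009693656033379242457518153052022685796627120027336704) (nat_lit 27459190659702461963489019417782510348590098263240931540077232866488584041813656767159787268515592697787154736500196773897437525597839815395919660121537380352) (nat_lit 27459190659702461963489019417782510348590098263240931540077232866488584041813656767159787268515592697787154736500196773897437525597839815395919660121537380352) :=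
  sem_of_chk (M (nat_lit 364) (B (M (nat_lit 332) (B (L (nat_lit 461) ln12_10_4 ln12_10_4_ok) (M (nat_lit 300) (B (L (nat_lit 397) ln12_9_4 ln12_9_4_ok) (M (nat_lit 301) (B (L (nat_lit 269) ln12_12_6 ln12_12_6_ok) (L (nat_lit 333) ln12_13_6 ln12_13_6_ok))))))) (B (M (nat_lit 332) (B (L (nat_lit 461) ln12_10_4 ln12_10_4_ok) (M (nat_lit 300) (B (L (nat_lit 397) ln12_9_4 ln12_9_4_ok) (M (nat_lit 427) (B (L (nat_lit 395) ln12_9_5 ln12_9_5_ok) (L (nat_lit 459) ln12_10_5 ln12_10_5_ok))))))) (B (M (nat_lit 460) (B (M (nat_lit 459) (B (L (nat_lit 491) ln12_11_5 ln12_11_5_ok) (M (nat_lit 332) (B (L (nat_lit 427) ln12_10_5 ln12_10_5_ok) (L (nat_lit 461) ln12_10_4 ln12_10_4_ok))))) (B (M (nat_lit 492) (B (M (nat_lit 363) (B (L (nat_lit 331) ln12_14_7 ln12_14_7_ok) (L (nat_lit 395) ln12_15_7 ln12_15_7_ok))) (M (nat_lit 491) (B (L (nat_lit 459) ln12_11_5 ln12_11_5_ok) (L (nat_lit 523) ln12_12_5 ln12_12_5_ok))))) (M (nat_lit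 333) (B (L (nat_lit 365) ln12_14_6 ln12_14_6_ok) (M (nat_lit 332) (B (L (nat_lit 301) ln12_13_6 ln12_13_6_ok) (L (nat_lit 461) ln12_10_4 ln12_10_4_ok)))))))) (B c32_n4861 (M (nat_lit 332) (B (M (nat_lit 300) (B (L (nat_lit 397) ln12_9_4 ln12_9_4_ok) (M (nat_lit 301) (B (L (nat_lit 269) ln12_12_6 ln12_12_6_ok) (L (nat_lit 333) ln12_13_6 ln12_13_6_ok))))) (B (M (nat_lit 300) (B (L (nat_lit 397) ln12_9_4 ln12_9_4_ok) (M (nat_lit 299) (B (L (nat_lit 267) ln12_12_7 ln12_12_7_ok) (L (nat_lit 331) ln12_13_7 ln12_13_7_ok))))) (M (nat_lit 460) (B (M (nat_lit 331) (B (L (nat_lit 299) ln12_13_7 ln12_13_7_ok) (L (nat_lit 363) ln12_14_7 ln12_14_7_ok))) (M (nat_lit 333) (B (L (nat_lit 301) ln12_13_6 ln12_13_6_ok) (L (nat_lit 365) ln12_14_6 ln12_14_6_ok))))))))))))) (nat_lit 2079502270752001762064242424960807725827516048677469043429686155012882190638009693656033379242457518153052022685796627120027336704) (nat_lit 27459190659702461963489019417782510348590098263240931540077232866488584041813656767159787268515592697787154736500196773897437525597839815395919660121537380352)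 (nat_lit 27459190659702461963489019417782510348590098263240931540077232866488584041813656767159787268515592697787154736500196773897437525597839815395919660121537380352) (by decide +kernel)
theorem c32_s4863 : Sem (nat_lit 2079502270590611144683810638107312777577327806531862431377859685460965980854219217279980804578104683573043408221052678871730618368) (nat_lit 825554280855329625933926444750890882842540507201705775614585908382070032795174478004131911114772911327008193767546252798746204128142659579211078900261012330115166633984) (nat_lit 825554280855329625933926444750890882842540507201705775614585908382070032795174478004131911114772911327008193767546252798746204128142659579211078900261012330115166633984) :=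
  sem_of_chk (M (nat_lit 396) (B c32_n3397 (B c32_n3422 (B c32_n3435 (B c32_n3595 (B c32_n3659 (B c32_n3688 (B (K (nat_lit 2079502270752001762064242424960807725827516048677469043429686155012882190638009693656033379242457518153052022685796627120027336704) (nat_lit 411887859809226825471423261193574799927313188856584891184722876330809148931876437897046151152769048519730737861168558160677132308403467200328120635738690682880) (nat_lit 411887859809226825471423261193574799927313188856584891184722876330809148931876437897046151152769048519730737861168558160677132308403467200328120635738690682880) c32_s3842) (B (K (nat_lit 2079502270752001762064242424960807725827516048677469043429686155012882190638009693656033379242457518153052022685796627120027336704) (nat_lit 235872651743560669099449354665148737316585697806530391991617948919666013383087149444874064770255843900020666425649053434547610472130385685901721149024989185976104386560)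 (nat_lit 235872651743560669099449354665148737316585697806530391991617948919666013383087149444874064770255843900020666425649053434547610472130385685901721149024989185976104386560) c32_s3970) (B (M (nat_lit 364) (B (M (nat_lit 461) (B (L (nat_lit 332) ln12_10_4 ln12_10_4_ok) (M (nat_lit 493) (B (L (nat_lit 397) ln13_15_7 ln13_15_7_ok) (L (nat_lit 525) ln13_16_7 ln13_16_7_ok))))) (B (M (nat_lit 461) (B (M (nat_lit 493) (B (L (nat_lit 397) ln13_15_7 ln13_15_7_ok) (L (nat_lit 460) ln12_11_4 ln12_11_4_ok))) (B (M (nat_lit 493) (B (L (nat_lit 460) ln12_11_4 ln12_11_4_ok) (L (nat_lit 525) ln13_16_7 ln13_16_7_ok))) (B (M (nat_lit 493) (B (L (nat_lit 397) ln13_15_7 ln13_15_7_ok) (L (nat_lit 525) ln13_16_7 ln13_16_7_ok))) (M (nat_lit 460) (B (M (nat_lit 492) (B (M (nat_lit 363) (B (L (nat_lit 331) ln12_14_7 ln12_14_7_ok) (L (nat_lit 395) ln12_15_7 ln12_15_7_ok))) (M (nat_lit 491) (B (L (nat_lit 459) ln12_11_5 ln12_11_5_ok)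 (L (nat_lit 523) ln12_12_5 ln12_12_5_ok))))) (B (M (nat_lit 492) (B (M (nat_lit 365) (B (L (nat_lit 333) ln12_14_6 ln12_14_6_ok) (L (nat_lit 397) ln12_15_6 ln12_15_6_ok))) (M (nat_lit 491) (B (L (nat_lit 459) ln12_11_5 ln12_11_5_ok) (L (nat_lit 523) ln12_12_5 ln12_12_5_ok))))) (B (M (nat_lit 492) (B (M (nat_lit 363) (B (L (nat_lit 331) ln12_14_7 ln12_14_7_ok) (L (nat_lit 395) ln12_15_7 ln12_15_7_ok))) (M (nat_lit 524) (B (L (nat_lit 397) ln12_16_6 ln12_16_6_ok) (L (nat_lit 556) ln12_17_6 ln12_17_6_ok))))) (M (nat_lit 462) (B (M (nat_lit 427) (B (L (nat_lit 426) ln10_13_0 ln10_13_0_ok) (L (nat_lit 463) ln15_14_3 ln15_14_3_ok))) (M (nat_lit 494) (B (M (nat_lit 365) (B (L (nat_lit 333) ln12_14_6 ln12_14_6_ok) (L (nat_lit 397) ln13_11_4 ln13_11_4_ok))) (M (nat_lit 459) (B (L (nat_lit 491) ln12_11_5 ln12_11_5_ok) (L (nat_lit 495) ln11_14_0 ln11_14_0_ok))))))))))))))) (B (M (nat_lit 461) (B (L (nat_lit 332) ln12_10_4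 ln12_10_4_ok) (M (nat_lit 493) (B (L (nat_lit 460) ln12_11_4 ln12_11_4_ok) (L (nat_lit 525) ln13_16_7 ln13_16_7_ok))))) (M (nat_lit 332) (B (M (nat_lit 300) (B (L (nat_lit 397) ln12_9_4 ln12_9_4_ok) (M (nat_lit 299) (B (L (nat_lit 267) ln12_12_7 ln12_12_7_ok) (L (nat_lit 331) ln12_13_7 ln12_13_7_ok))))) (B (M (nat_lit 300) (B (L (nat_lit 397) ln12_9_4 ln12_9_4_ok) (M (nat_lit 427) (B (L (nat_lit 395) ln12_9_5 ln12_9_5_ok) (L (nat_lit 459) ln12_10_5 ln12_10_5_ok))))) (M (nat_lit 460) (B (M (nat_lit 331) (B (L (nat_lit 299) ln12_13_7 ln12_13_7_ok) (L (nat_lit 363) ln12_14_7 ln12_14_7_ok))) (M (nat_lit 459) (B (L (nat_lit 427) ln12_10_5 ln12_10_5_ok) (L (nat_lit 491) ln12_11_5 ln12_11_5_ok)))))))))))) (B (K (nat_lit 2079502270752001762064242424960807725827516048677469043429686155012882190638009693656033379242457518153052022685796627120027336704) (nat_lit 353808977738907361583470902697207399166342892850828617163931151323236637278051999824504809973964617432166854936126024691098189579489888809120744011636477735597519142912)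 (nat_lit 353808977738907361583470902697207399166342892850828617163931151323236637278051999824504809973964617432166854936126024691098189579489888809120744011636477735597519142912) c32_s4002) (B (M (nat_lit 364) (B (M (nat_lit 461) (B (L (nat_lit 332) ln12_10_4 ln12_10_4_ok) (M (nat_lit 493) (B (L (nat_lit 460) ln12_11_4 ln12_11_4_ok) (L (nat_lit 525) ln13_16_7 ln13_16_7_ok))))) (B (M (nat_lit 460) (B (M (nat_lit 493) (B (L (nat_lit 461) ln12_11_4 ln12_11_4_ok) (M (nat_lit 492) (B (L (nat_lit 525) ln12_12_4 ln12_12_4_ok) (M (nat_lit 363) (B (L (nat_lit 331) ln12_14_7 ln12_14_7_ok) (L (nat_lit 395) ln12_15_7 ln12_15_7_ok))))))) (B (M (nat_lit 492) (B (M (nat_lit 491) (B (L (nat_lit 459) ln12_11_5 ln12_11_5_ok) (L (nat_lit 523) ln12_12_5 ln12_12_5_ok))) (M (nat_lit 493) (B (L (nat_lit 461) ln12_11_4 ln12_11_4_ok) (L (nat_lit 525) ln12_12_4 ln12_12_4_ok))))) (B (M (nat_lit 492) (B (M (nat_lit 363) (B (L (nat_lit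 331) ln12_14_7 ln12_14_7_ok) (L (nat_lit 395) ln12_15_7 ln12_15_7_ok))) (M (nat_lit 491) (B (L (nat_lit 459) ln12_11_5 ln12_11_5_ok) (L (nat_lit 523) ln12_12_5 ln12_12_5_ok))))) (M (nat_lit 427) (B (M (nat_lit 461) (B (L (nat_lit 493) ln12_11_4 ln12_11_4_ok) (M (nat_lit 462) (B (L (nat_lit 426) ln10_13_0 ln10_13_0_ok) (L (nat_lit 463) ln15_14_3 ln15_14_3_ok))))) (M (nat_lit 363) (B (L (nat_lit 331) ln12_14_7 ln12_14_7_ok) (M (nat_lit 395) (B (M (nat_lit 459) (B (L (nat_lit 491) ln11_15_6 ln11_15_6_ok) (M (nat_lit 458) (B (L (nat_lit 490) ln11_11_5 ln11_11_5_ok) (L (nat_lit 457) ln9_14_2 ln9_14_2_ok))))) (M (nat_lit 365) (B (L (nat_lit 333) ln12_14_6 ln12_14_6_ok) (M (nat_lit 394) (B (L (nat_lit 366) ln14_11_1 ln14_11_1_ok) (L (nat_lit 393) ln9_12_2 ln9_12_2_ok))))))))))))))) (B (M (nat_lit 332) (B (L (nat_lit 461) ln12_10_4 ln12_10_4_ok) (M (nat_lit 300) (B (M (nat_lit 299) (B (L (nat_lit 267) ln12_12_7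 ln12_12_7_ok) (L (nat_lit 331) ln12_13_7 ln12_13_7_ok))) (M (nat_lit 427) (B (L (nat_lit 395) ln12_9_5 ln12_9_5_ok) (L (nat_lit 459) ln12_10_5 ln12_10_5_ok))))))) (M (nat_lit 460) (B (M (nat_lit 459) (B (L (nat_lit 491) ln12_11_5 ln12_11_5_ok) (M (nat_lit 332) (B (L (nat_lit 427) ln12_10_5 ln12_10_5_ok) (M (nat_lit 331) (B (L (nat_lit 299) ln12_13_7 ln12_13_7_ok) (L (nat_lit 363) ln12_14_7 ln12_14_7_ok))))))) (B (M (nat_lit 492) (B (M (nat_lit 363) (B (L (nat_lit 331) ln12_14_7 ln12_14_7_ok) (L (nat_lit 395) ln12_15_7 ln12_15_7_ok))) (M (nat_lit 491) (B (L (nat_lit 459) ln12_11_5 ln12_11_5_ok) (L (nat_lit 523) ln12_12_5 ln12_12_5_ok))))) (B (M (nat_lit 332) (B (M (nat_lit 333) (B (L (nat_lit 301) ln12_13_6 ln12_13_6_ok) (L (nat_lit 365) ln12_14_6 ln12_14_6_ok))) (M (nat_lit 459) (B (L (nat_lit 427) ln12_10_5 ln12_10_5_ok) (L (nat_lit 491) ln12_11_5 ln12_11_5_ok))))) (M (nat_lit 332) (B (M (nat_lit 331) (B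 (L (nat_lit 299) ln12_13_7 ln12_13_7_ok) (L (nat_lit 363) ln12_14_7 ln12_14_7_ok))) (M (nat_lit 333) (B (L (nat_lit 301) ln12_13_6 ln12_13_6_ok) (L (nat_lit 365) ln12_14_6 ln12_14_6_ok))))))))))))) (B c32_n4054 (B (K (nat_lit 2079502270752001762064242424960807725827516048677469043429686155012882190638009693656033379242457518153052022685796627120027336704) (nat_lit 825554280841600030613665225272734766468075279996540671743876918169808652017211392593671123488048141901328839385501760685865918522171588149576483032810064906870885187584) (nat_lit 825554280841600030613665225272734766468075279996540671743876918169808652017211392593671123488048141901328839385501760685865918522171588149576483032810064906870885187584) c32_s2870) (B (M (nat_lit 364) (B (M (nat_lit 461) (B (L (nat_lit 332) ln12_10_4 ln12_10_4_ok) (M (nat_lit 493) (B (L (nat_lit 460) ln12_11_4 ln12_11_4_ok) (L (nat_lit 525) ln13_16_7 ln13_16_7_ok)))))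 (B (M (nat_lit 460) (B (M (nat_lit 493) (B (L (nat_lit 461) ln12_11_4 ln12_11_4_ok) (M (nat_lit 492) (B (L (nat_lit 525) ln12_12_4 ln12_12_4_ok) (M (nat_lit 363) (B (L (nat_lit 331) ln12_14_7 ln12_14_7_ok) (L (nat_lit 395) ln12_15_7 ln12_15_7_ok))))))) (B (M (nat_lit 492) (B (M (nat_lit 365) (B (L (nat_lit 333) ln12_14_6 ln12_14_6_ok) (L (nat_lit 397) ln12_15_6 ln12_15_6_ok))) (M (nat_lit 493) (B (L (nat_lit 461) ln12_11_4 ln12_11_4_ok) (L (nat_lit 525) ln12_12_4 ln12_12_4_ok))))) (B (M (nat_lit 492) (B (M (nat_lit 363) (B (L (nat_lit 331) ln12_14_7 ln12_14_7_ok) (L (nat_lit 395) ln12_15_7 ln12_15_7_ok))) (M (nat_lit 365) (B (L (nat_lit 333) ln12_14_6 ln12_14_6_ok) (L (nat_lit 397) ln12_15_6 ln12_15_6_ok))))) (M (nat_lit 365) (B (L (nat_lit 333) ln12_14_6 ln12_14_6_ok) (M (nat_lit 397) (B (M (nat_lit 363) (B (L (nat_lit 331) ln12_14_7 ln12_14_7_ok) (M (nat_lit 362) (B (L (nat_lit 361) ln9_11_0 ln9_11_0_ok)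 (L (nat_lit 398) ln10_11_0 ln10_11_0_ok))))) (M (nat_lit 366) (B (M (nat_lit 461) (B (L (nat_lit 334) ln13_14_6 ln13_14_6_ok) (L (nat_lit 493) ln13_15_7 ln13_15_7_ok))) (M (nat_lit 367) (B (L (nat_lit 395) ln15_11_1 ln15_11_1_ok) (L (nat_lit 368) ln16_11_1 ln16_11_1_ok))))))))))))) (B (M (nat_lit 461) (B (L (nat_lit 332) ln12_10_4 ln12_10_4_ok) (M (nat_lit 493) (B (L (nat_lit 397) ln13_15_7 ln13_15_7_ok) (L (nat_lit 525) ln13_16_7 ln13_16_7_ok))))) (M (nat_lit 332) (B (M (nat_lit 300) (B (L (nat_lit 397) ln12_9_4 ln12_9_4_ok) (M (nat_lit 301) (B (L (nat_lit 269) ln12_12_6 ln12_12_6_ok) (L (nat_lit 333) ln12_13_6 ln12_13_6_ok))))) (B (M (nat_lit 300) (B (L (nat_lit 397) ln12_9_4 ln12_9_4_ok) (M (nat_lit 299) (B (L (nat_lit 267) ln12_12_7 ln12_12_7_ok) (L (nat_lit 331) ln12_13_7 ln12_13_7_ok))))) (M (nat_lit 460) (B (M (nat_lit 331) (B (L (nat_lit 299) ln12_13_7 ln12_13_7_ok) (L (nat_lit 363) ln12_14_7 ln12_14_7_ok)))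 (M (nat_lit 333) (B (L (nat_lit 301) ln12_13_6 ln12_13_6_ok) (L (nat_lit 365) ln12_14_6 ln12_14_6_ok)))))))))))) (B (K (nat_lit 2079502270752001762064242424960807725827516048677469043429686155012882190638009693656033379242457518153052022685796627120027336704) (nat_lit 329510287762989358711048417630593767302886810161517806566933145209886612479755251108711351661490639101576107306861165560894098709363735029761258805742987640832) (nat_lit 329510287762989358711048417630593767302886810161517806566933145209886612479755251108711351661490639101576107306861165560894098709363735029761258805742987640832) c32_s4241) (B (K (nat_lit 2079502270752001762064242424960807725827516048677469043429686155012882190638009693656033379242457518153052022685796627120027336704) (nat_lit 589681629084309766190757980715873087687804617454677444449914239458786405395279362597473095144603499308695667031245598577413886097661308200842426999214355855904685948928)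 (nat_lit 589681629084309766190757980715873087687804617454677444449914239458786405395279362597473095144603499308695667031245598577413886097661308200842426999214355855904685948928) c32_s4764) (K (nat_lit 2079502270752001762064242424960807725827516048677469043429686155012882190638009693656033379242457518153052022685796627120027336704) (nat_lit 27459190659702461963489019417782510348590098263240931540077232866488584041813656767159787268515592697787154736500196773897437525597839815395919660121537380352) (nat_lit 27459190659702461963489019417782510348590098263240931540077232866488584041813656767159787268515592697787154736500196773897437525597839815395919660121537380352) c32_s4862)))))))))))))))))) (nat_lit 2079502270590611144683810638107312777577327806531862431377859685460965980854219217279980804578104683573043408221052678871730618368) (nat_lit 825554280855329625933926444750890882842540507201705775614585908382070032795174478004131911114772911327008193767546252798746204128142659579211078900261012330115166633984)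 (nat_lit 825554280855329625933926444750890882842540507201705775614585908382070032795174478004131911114772911327008193767546252798746204128142659579211078900261012330115166633984) (by decide +kernel)
noncomputable def c32_n4874 : Cert := (M (nat_lit 460) (B (M (nat_lit 431) (B (L (nat_lit 459) ln15_13_1 ln15_13_1_ok) (M (nat_lit 432) (B (L (nat_lit 461) ln16_13_1 ln16_13_1_ok) (M (nat_lit 396) (B (L (nat_lit 395) ln15_13_3 ln15_13_3_ok) (L (nat_lit 397) ln16_13_3 ln16_13_3_ok))))))) (B (M (nat_lit 431) (B (L (nat_lit 459) ln15_13_1 ln15_13_1_ok) (M (nat_lit 432) (B (L (nat_lit 461) ln16_13_1 ln16_13_1_ok) (M (nat_lit 400) (B (L (nat_lit 399) ln12_13_2 ln12_13_2_ok) (L (nat_lit 401) ln13_13_2 ln13_13_2_ok))))))) (B (M (nat_lit 492) (B (M (nat_lit 397) (B (L (nat_lit 524) ln12_16_6 ln12_16_6_ok) (M (nat_lit 365) (B (L (nat_lit 333) ln13_10_5 ln13_10_5_ok) (L (nat_lit 461) ln13_11_5 ln13_11_5_ok))))) (B (M (nat_lit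 397) (B (L (nat_lit 524) ln12_16_6 ln12_16_6_ok) (M (nat_lit 365) (B (L (nat_lit 396) ln12_15_6 ln12_15_6_ok) (L (nat_lit 461) ln13_11_5 ln13_11_5_ok))))) (B (M (nat_lit 396) (B (M (nat_lit 397) (B (L (nat_lit 524) ln12_16_6 ln12_16_6_ok) (M (nat_lit 395) (B (L (nat_lit 363) ln12_15_7 ln12_15_7_ok) (L (nat_lit 394) ln10_12_0 ln10_12_0_ok))))) (B (M (nat_lit 525) (B (L (nat_lit 493) ln12_12_4 ln12_12_4_ok) (M (nat_lit 524) (B (L (nat_lit 397) ln12_16_6 ln12_16_6_ok) (L (nat_lit 557) ln12_13_4 ln12_13_4_ok))))) (M (nat_lit 364) (B (M (nat_lit 363) (B (L (nat_lit 331) ln12_14_7 ln12_14_7_ok) (L (nat_lit 395) ln12_15_7 ln12_15_7_ok))) (M (nat_lit 491) (B (L (nat_lit 459) ln12_11_5 ln12_11_5_ok) (L (nat_lit 523) ln12_12_5 ln12_12_5_ok)))))))) (B (M (nat_lit 396) (B (M (nat_lit 364) (B (M (nat_lit 363) (B (L (nat_lit 331) ln12_14_7 ln12_14_7_ok) (L (nat_lit 395) ln12_15_7 ln12_15_7_ok))) (M (nat_lit 493) (B (L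 (nat_lit 461) ln12_11_4 ln12_11_4_ok) (L (nat_lit 525) ln12_12_4 ln12_12_4_ok))))) (B (M (nat_lit 364) (B (M (nat_lit 491) (B (L (nat_lit 459) ln12_11_5 ln12_11_5_ok) (L (nat_lit 523) ln12_12_5 ln12_12_5_ok))) (M (nat_lit 493) (B (L (nat_lit 461) ln12_11_4 ln12_11_4_ok) (L (nat_lit 525) ln12_12_4 ln12_12_4_ok))))) (B (M (nat_lit 524) (B (M (nat_lit 523) (B (L (nat_lit 491) ln12_12_5 ln12_12_5_ok) (L (nat_lit 555) ln12_13_5 ln12_13_5_ok))) (M (nat_lit 525) (B (L (nat_lit 493) ln12_12_4 ln12_12_4_ok) (L (nat_lit 557) ln12_13_4 ln12_13_4_ok))))) (M (nat_lit 364) (B (M (nat_lit 363) (B (L (nat_lit 331) ln12_14_7 ln12_14_7_ok) (L (nat_lit 395) ln12_15_7 ln12_15_7_ok))) (M (nat_lit 491) (B (L (nat_lit 459) ln12_11_5 ln12_11_5_ok) (L (nat_lit 523) ln12_12_5 ln12_12_5_ok))))))))) (M (nat_lit 396) (B (M (nat_lit 397) (B (L (nat_lit 365) ln12_15_6 ln12_15_6_ok) (M (nat_lit 395) (B (L (nat_lit 363) ln12_15_7 ln12_15_7_ok)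 (L (nat_lit 394) ln10_12_0 ln10_12_0_ok))))) (B (M (nat_lit 364) (B (M (nat_lit 365) (B (L (nat_lit 333) ln12_14_6 ln12_14_6_ok) (L (nat_lit 397) ln12_15_6 ln12_15_6_ok))) (M (nat_lit 491) (B (L (nat_lit 459) ln12_11_5 ln12_11_5_ok) (L (nat_lit 523) ln12_12_5 ln12_12_5_ok))))) (M (nat_lit 364) (B (M (nat_lit 363) (B (L (nat_lit 331) ln12_14_7 ln12_14_7_ok) (L (nat_lit 395) ln12_15_7 ln12_15_7_ok))) (M (nat_lit 491) (B (L (nat_lit 459) ln12_11_5 ln12_11_5_ok) (L (nat_lit 523) ln12_12_5 ln12_12_5_ok))))))))))))) (B (M (nat_lit 396) (B (M (nat_lit 431) (B (L (nat_lit 395) ln15_13_3 ln15_13_3_ok) (M (nat_lit 432) (B (L (nat_lit 397) ln16_13_3 ln16_13_3_ok) (L (nat_lit 461) ln16_13_1 ln16_13_1_ok))))) (B (M (nat_lit 364) (B (M (nat_lit 461) (B (L (nat_lit 332) ln12_10_4 ln12_10_4_ok) (L (nat_lit 493) ln12_11_4 ln12_11_4_ok))) (B (M (nat_lit 492) (B (M (nat_lit 365) (B (L (nat_lit 333) ln12_14_6 ln12_14_6_ok)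 (L (nat_lit 397) ln12_15_6 ln12_15_6_ok))) (M (nat_lit 493) (B (L (nat_lit 461) ln12_11_4 ln12_11_4_ok) (L (nat_lit 525) ln12_12_4 ln12_12_4_ok))))) (M (nat_lit 332) (B (M (nat_lit 331) (B (L (nat_lit 299) ln12_13_7 ln12_13_7_ok) (L (nat_lit 363) ln12_14_7 ln12_14_7_ok))) (M (nat_lit 333) (B (L (nat_lit 301) ln12_13_6 ln12_13_6_ok) (L (nat_lit 365) ln12_14_6 ln12_14_6_ok)))))))) (B (M (nat_lit 461) (B (M (nat_lit 364) (B (L (nat_lit 332) ln12_10_4 ln12_10_4_ok) (L (nat_lit 493) ln12_11_4 ln12_11_4_ok))) (M (nat_lit 431) (B (L (nat_lit 395) ln15_13_3 ln15_13_3_ok) (L (nat_lit 432) ln16_13_1 ln16_13_1_ok))))) (M (nat_lit 397) (B (M (nat_lit 365) (B (L (nat_lit 333) ln13_10_5 ln13_10_5_ok) (L (nat_lit 492) ln12_15_6 ln12_15_6_ok))) (M (nat_lit 431) (B (L (nat_lit 395) ln15_13_3 ln15_13_3_ok) (L (nat_lit 432) ln16_13_3 ln16_13_3_ok))))))))) (M (nat_lit 431) (B (L (nat_lit 459) ln15_13_1 ln15_13_1_ok) (M (nat_lit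 432) (B (M (nat_lit 396) (B (L (nat_lit 395) ln15_13_3 ln15_13_3_ok) (L (nat_lit 397) ln16_13_3 ln16_13_3_ok))) (M (nat_lit 464) (B (L (nat_lit 463) ln12_13_0 ln12_13_0_ok) (L (nat_lit 465) ln13_13_0 ln13_13_0_ok))))))))))))
theorem c32_s4877 : Sem (nat_lit 2079502270590611144683810638107312777577327806531862431377859685460965980854219217279980804578104683573043408221052678871730618368) (nat_lit 2476662842140371422462909370582816718390595888005926658384137438993621602719358832057311165329841435059950530819580041025258378073808347403873784629690474326953409118208) (nat_lit 2476662842140371422462909370582816718390595888005926658384137438993621602719358832057311165329841435059950530819580041025258378073808347403873784629690474326953409118208) :=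
  sem_of_chk (M (nat_lit 430) (B (M (nat_lit 427) (B (M (nat_lit 398) (B (L (nat_lit 399) ln11_13_2 ln11_13_2_ok) (M (nat_lit 394) (B (L (nat_lit 395) ln14_13_3 ln14_13_3_ok) (M (nat_lit 426) (B (L (nat_lit 393) ln13_13_3 ln13_13_3_ok) (L (nat_lit 397) ln10_13_2 ln10_13_2_ok))))))) (B (M (nat_lit 431) (B (M (nat_lit 395) (B (L (nat_lit 394) ln14_13_3 ln14_13_3_ok) (L (nat_lit 396) ln15_13_3 ln15_13_3_ok))) (M (nat_lit 463) (B (L (nat_lit 462) ln11_13_0 ln11_13_0_ok) (L (nat_lit 464) ln12_13_0 ln12_13_0_ok))))) (M (nat_lit 398) (B (L (nat_lit 399) ln11_13_2 ln11_13_2_ok) (M (nat_lit 462) (B (L (nat_lit 463) ln11_13_0 ln11_13_0_ok) (M (nat_lit 426) (B (L (nat_lit 397) ln10_13_2 ln10_13_2_ok) (L (nat_lit 461) ln10_13_0 ln10_13_0_ok)))))))))) (B (M (nat_lit 427) (B (M (nat_lit 431) (B (M (nat_lit 395) (B (L (nat_lit 394) ln14_13_3 ln14_13_3_ok) (L (nat_lit 396) ln15_13_3 ln15_13_3_ok))) (M (nat_lit 399) (B (L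 (nat_lit 398) ln11_13_2 ln11_13_2_ok) (L (nat_lit 400) ln12_13_2 ln12_13_2_ok))))) (B (M (nat_lit 431) (B (M (nat_lit 399) (B (L (nat_lit 398) ln11_13_2 ln11_13_2_ok) (L (nat_lit 400) ln12_13_2 ln12_13_2_ok))) (M (nat_lit 463) (B (L (nat_lit 462) ln11_13_0 ln11_13_0_ok) (L (nat_lit 464) ln12_13_0 ln12_13_0_ok))))) (B (M (nat_lit 431) (B (M (nat_lit 395) (B (L (nat_lit 394) ln14_13_3 ln14_13_3_ok) (L (nat_lit 396) ln15_13_3 ln15_13_3_ok))) (M (nat_lit 463) (B (L (nat_lit 462) ln11_13_0 ln11_13_0_ok) (L (nat_lit 464) ln12_13_0 ln12_13_0_ok))))) (M (nat_lit 398) (B (L (nat_lit 399) ln11_13_2 ln11_13_2_ok) (M (nat_lit 462) (B (L (nat_lit 463) ln11_13_0 ln11_13_0_ok) (M (nat_lit 426) (B (L (nat_lit 397) ln10_13_2 ln10_13_2_ok) (L (nat_lit 461) ln10_13_0 ln10_13_0_ok))))))))))) (B (M (nat_lit 431) (B (M (nat_lit 432) (B (M (nat_lit 396) (B (L (nat_lit 395) ln15_13_3 ln15_13_3_ok) (L (nat_lit 397) ln16_13_3 ln16_13_3_ok)))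 (M (nat_lit 460) (B (L (nat_lit 459) ln15_13_1 ln15_13_1_ok) (L (nat_lit 461) ln16_13_1 ln16_13_1_ok))))) (M (nat_lit 427) (B (M (nat_lit 399) (B (L (nat_lit 398) ln11_13_2 ln11_13_2_ok) (L (nat_lit 400) ln12_13_2 ln12_13_2_ok))) (M (nat_lit 463) (B (L (nat_lit 462) ln11_13_0 ln11_13_0_ok) (L (nat_lit 464) ln12_13_0 ln12_13_0_ok))))))) (B (M (nat_lit 431) (B (M (nat_lit 432) (B (M (nat_lit 460) (B (L (nat_lit 459) ln15_13_1 ln15_13_1_ok) (L (nat_lit 461) ln16_13_1 ln16_13_1_ok))) (M (nat_lit 464) (B (L (nat_lit 463) ln12_13_0 ln12_13_0_ok) (L (nat_lit 465) ln13_13_0 ln13_13_0_ok))))) (B (M (nat_lit 427) (B (M (nat_lit 399) (B (L (nat_lit 398) ln11_13_2 ln11_13_2_ok) (L (nat_lit 400) ln12_13_2 ln12_13_2_ok))) (M (nat_lit 463) (B (L (nat_lit 462) ln11_13_0 ln11_13_0_ok) (L (nat_lit 464) ln12_13_0 ln12_13_0_ok))))) (M (nat_lit 460) (B (L (nat_lit 459) ln15_13_1 ln15_13_1_ok) (M (nat_lit 432) (B (L (nat_lit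 461) ln16_13_1 ln16_13_1_ok) (M (nat_lit 400) (B (L (nat_lit 399) ln12_13_2 ln12_13_2_ok) (L (nat_lit 401) ln13_13_2 ln13_13_2_ok)))))))))) (B (M (nat_lit 431) (B (M (nat_lit 427) (B (M (nat_lit 395) (B (L (nat_lit 394) ln14_13_3 ln14_13_3_ok) (L (nat_lit 396) ln15_13_3 ln15_13_3_ok))) (M (nat_lit 463) (B (L (nat_lit 462) ln11_13_0 ln11_13_0_ok) (L (nat_lit 464) ln12_13_0 ln12_13_0_ok))))) (M (nat_lit 460) (B (L (nat_lit 459) ln15_13_1 ln15_13_1_ok) (M (nat_lit 432) (B (L (nat_lit 461) ln16_13_1 ln16_13_1_ok) (M (nat_lit 400) (B (L (nat_lit 399) ln12_13_2 ln12_13_2_ok) (L (nat_lit 401) ln13_13_2 ln13_13_2_ok))))))))) (B (M (nat_lit 431) (B (M (nat_lit 432) (B (M (nat_lit 396) (B (L (nat_lit 395) ln15_13_3 ln15_13_3_ok) (L (nat_lit 397) ln16_13_3 ln16_13_3_ok))) (M (nat_lit 460) (B (L (nat_lit 459) ln15_13_1 ln15_13_1_ok) (L (nat_lit 461) ln16_13_1 ln16_13_1_ok))))) (B (M (nat_lit 432) (B (M (nat_lit 460)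 (B (L (nat_lit 459) ln15_13_1 ln15_13_1_ok) (L (nat_lit 461) ln16_13_1 ln16_13_1_ok))) (M (nat_lit 464) (B (L (nat_lit 463) ln12_13_0 ln12_13_0_ok) (L (nat_lit 465) ln13_13_0 ln13_13_0_ok))))) (M (nat_lit 427) (B (M (nat_lit 395) (B (L (nat_lit 394) ln14_13_3 ln14_13_3_ok) (L (nat_lit 396) ln15_13_3 ln15_13_3_ok))) (M (nat_lit 463) (B (L (nat_lit 462) ln11_13_0 ln11_13_0_ok) (L (nat_lit 464) ln12_13_0 ln12_13_0_ok)))))))) (B c32_n4874 (B (M (nat_lit 427) (B (M (nat_lit 398) (B (L (nat_lit 399) ln11_13_2 ln11_13_2_ok) (M (nat_lit 394) (B (L (nat_lit 395) ln14_13_3 ln14_13_3_ok) (M (nat_lit 426) (B (L (nat_lit 393) ln13_13_3 ln13_13_3_ok) (L (nat_lit 397) ln10_13_2 ln10_13_2_ok))))))) (B (M (nat_lit 398) (B (L (nat_lit 399) ln11_13_2 ln11_13_2_ok) (M (nat_lit 462) (B (L (nat_lit 463) ln11_13_0 ln11_13_0_ok) (M (nat_lit 426) (B (L (nat_lit 397) ln10_13_2 ln10_13_2_ok) (L (nat_lit 461) ln10_13_0 ln10_13_0_ok)))))))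 (B (M (nat_lit 426) (B (M (nat_lit 394) (B (L (nat_lit 393) ln13_13_3 ln13_13_3_ok) (L (nat_lit 395) ln14_13_3 ln14_13_3_ok))) (M (nat_lit 462) (B (L (nat_lit 461) ln10_13_0 ln10_13_0_ok) (L (nat_lit 463) ln11_13_0 ln11_13_0_ok))))) (M (nat_lit 398) (B (L (nat_lit 399) ln11_13_2 ln11_13_2_ok) (M (nat_lit 462) (B (L (nat_lit 463) ln11_13_0 ln11_13_0_ok) (M (nat_lit 494) (B (M (nat_lit 397) (B (L (nat_lit 365) ln14_15_7 ln14_15_7_ok) (L (nat_lit 526) ln14_16_7 ln14_16_7_ok))) (B (M (nat_lit 525) (B (L (nat_lit 493) ln14_12_5 ln14_12_5_ok) (M (nat_lit 526) (B (L (nat_lit 397) ln14_16_7 ln14_16_7_ok) (L (nat_lit 557) ln14_13_5 ln14_13_5_ok))))) (B (M (nat_lit 526) (B (M (nat_lit 525) (B (L (nat_lit 493) ln14_12_5 ln14_12_5_ok) (L (nat_lit 557) ln14_13_5 ln14_13_5_ok))) (M (nat_lit 527) (B (L (nat_lit 495) ln14_12_4 ln14_12_4_ok) (L (nat_lit 559) ln14_13_4 ln14_13_4_ok))))) (M (nat_lit 366) (B (M (nat_lit 365)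 (B (L (nat_lit 333) ln14_14_7 ln14_14_7_ok) (L (nat_lit 397) ln14_15_7 ln14_15_7_ok))) (M (nat_lit 493) (B (L (nat_lit 461) ln14_11_5 ln14_11_5_ok) (L (nat_lit 525) ln14_12_5 ln14_12_5_ok))))))))))))))))) (B (M (nat_lit 427) (B (M (nat_lit 431) (B (M (nat_lit 399) (B (L (nat_lit 398) ln11_13_2 ln11_13_2_ok) (L (nat_lit 400) ln12_13_2 ln12_13_2_ok))) (M (nat_lit 463) (B (L (nat_lit 462) ln11_13_0 ln11_13_0_ok) (L (nat_lit 464) ln12_13_0 ln12_13_0_ok))))) (B (M (nat_lit 431) (B (M (nat_lit 395) (B (L (nat_lit 394) ln14_13_3 ln14_13_3_ok) (L (nat_lit 396) ln15_13_3 ln15_13_3_ok))) (M (nat_lit 463) (B (L (nat_lit 462) ln11_13_0 ln11_13_0_ok) (L (nat_lit 464) ln12_13_0 ln12_13_0_ok))))) (M (nat_lit 398) (B (L (nat_lit 399) ln11_13_2 ln11_13_2_ok) (M (nat_lit 394) (B (L (nat_lit 395) ln14_13_3 ln14_13_3_ok) (M (nat_lit 426) (B (L (nat_lit 393) ln13_13_3 ln13_13_3_ok) (L (nat_lit 397) ln10_13_2 ln10_13_2_ok))))))))))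 (M (nat_lit 431) (B (M (nat_lit 460) (B (L (nat_lit 459) ln15_13_1 ln15_13_1_ok) (M (nat_lit 432) (B (L (nat_lit 461) ln16_13_1 ln16_13_1_ok) (M (nat_lit 400) (B (L (nat_lit 399) ln12_13_2 ln12_13_2_ok) (L (nat_lit 401) ln13_13_2 ln13_13_2_ok))))))) (B (M (nat_lit 432) (B (M (nat_lit 396) (B (L (nat_lit 395) ln15_13_3 ln15_13_3_ok) (L (nat_lit 397) ln16_13_3 ln16_13_3_ok))) (M (nat_lit 460) (B (L (nat_lit 459) ln15_13_1 ln15_13_1_ok) (L (nat_lit 461) ln16_13_1 ln16_13_1_ok))))) (M (nat_lit 427) (B (M (nat_lit 395) (B (L (nat_lit 394) ln14_13_3 ln14_13_3_ok) (L (nat_lit 396) ln15_13_3 ln15_13_3_ok))) (M (nat_lit 399) (B (L (nat_lit 398) ln11_13_2 ln11_13_2_ok) (L (nat_lit 400) ln12_13_2 ln12_13_2_ok)))))))))))))))))) (nat_lit 2079502270590611144683810638107312777577327806531862431377859685460965980854219217279980804578104683573043408221052678871730618368) (nat_lit 2476662842140371422462909370582816718390595888005926658384137438993621602719358832057311165329841435059950530819580041025258378073808347403873784629690474326953409118208)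 (nat_lit 2476662842140371422462909370582816718390595888005926658384137438993621602719358832057311165329841435059950530819580041025258378073808347403873784629690474326953409118208) (by decide +kernel)
noncomputable def c32_n4935 : Cert := (M (nat_lit 427) (B (M (nat_lit 426) (B (M (nat_lit 394) (B (L (nat_lit 393) ln13_13_3 ln13_13_3_ok) (L (nat_lit 395) ln14_13_3 ln14_13_3_ok))) (M (nat_lit 462) (B (L (nat_lit 461) ln10_13_0 ln10_13_0_ok) (L (nat_lit 463) ln11_13_0 ln11_13_0_ok))))) (B (M (nat_lit 431) (B (M (nat_lit 395) (B (L (nat_lit 394) ln14_13_3 ln14_13_3_ok) (L (nat_lit 396) ln15_13_3 ln15_13_3_ok))) (M (nat_lit 463) (B (L (nat_lit 462) ln11_13_0 ln11_13_0_ok) (L (nat_lit 464) ln12_13_0 ln12_13_0_ok))))) (B (M (nat_lit 397) (B (M (nat_lit 462) (B (L (nat_lit 463) ln11_13_0 ln11_13_0_ok) (M (nat_lit 426) (B (L (nat_lit 398) ln10_13_2 ln10_13_2_ok) (L (nat_lit 461) ln10_13_0 ln10_13_0_ok))))) (B (M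 (nat_lit 431) (B (M (nat_lit 396) (B (L (nat_lit 395) ln15_13_3 ln15_13_3_ok) (L (nat_lit 432) ln16_13_3 ln16_13_3_ok))) (M (nat_lit 463) (B (L (nat_lit 462) ln11_13_0 ln11_13_0_ok) (L (nat_lit 464) ln12_13_0 ln12_13_0_ok))))) (M (nat_lit 396) (B (M (nat_lit 426) (B (L (nat_lit 425) ln9_13_2 ln9_13_2_ok) (L (nat_lit 398) ln10_13_2 ln10_13_2_ok))) (M (nat_lit 431) (B (L (nat_lit 395) ln15_13_3 ln15_13_3_ok) (L (nat_lit 432) ln16_13_3 ln16_13_3_ok)))))))) (B (M (nat_lit 426) (B (M (nat_lit 462) (B (L (nat_lit 461) ln10_13_0 ln10_13_0_ok) (L (nat_lit 463) ln11_13_0 ln11_13_0_ok))) (M (nat_lit 425) (B (M (nat_lit 397) (B (L (nat_lit 396) ln9_13_2 ln9_13_2_ok) (L (nat_lit 398) ln10_13_2 ln10_13_2_ok))) (M (nat_lit 457) (B (L (nat_lit 456) ln12_13_1 ln12_13_1_ok) (L (nat_lit 458) ln13_13_1 ln13_13_1_ok))))))) (B (M (nat_lit 460) (B (M (nat_lit 395) (B (L (nat_lit 394) ln14_13_3 ln14_13_3_ok) (M (nat_lit 396) (B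 (L (nat_lit 431) ln15_13_3 ln15_13_3_ok) (M (nat_lit 363) (B (L (nat_lit 331) ln11_10_4 ln11_10_4_ok) (L (nat_lit 492) ln12_15_7 ln12_15_7_ok))))))) (B (M (nat_lit 395) (B (L (nat_lit 394) ln14_13_3 ln14_13_3_ok) (M (nat_lit 396) (B (L (nat_lit 431) ln15_13_3 ln15_13_3_ok) (M (nat_lit 492) (B (L (nat_lit 363) ln12_15_7 ln12_15_7_ok) (L (nat_lit 524) ln12_16_7 ln12_16_7_ok))))))) (B (M (nat_lit 397) (B (M (nat_lit 426) (B (L (nat_lit 398) ln10_13_2 ln10_13_2_ok) (M (nat_lit 394) (B (L (nat_lit 393) ln13_13_3 ln13_13_3_ok) (L (nat_lit 395) ln14_13_3 ln14_13_3_ok))))) (M (nat_lit 365) (B (L (nat_lit 333) ln13_10_5 ln13_10_5_ok) (M (nat_lit 492) (B (L (nat_lit 396) ln12_15_6 ln12_15_6_ok) (L (nat_lit 524) ln12_16_6 ln12_16_6_ok))))))) (B (M (nat_lit 397) (B (M (nat_lit 365) (B (L (nat_lit 333) ln13_10_5 ln13_10_5_ok) (M (nat_lit 492) (B (L (nat_lit 396) ln12_15_6 ln12_15_6_ok) (L (nat_lit 524) ln12_16_6 ln12_16_6_ok)))))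 (B (M (nat_lit 492) (B (L (nat_lit 524) ln12_16_6 ln12_16_6_ok) (M (nat_lit 365) (B (L (nat_lit 396) ln12_15_6 ln12_15_6_ok) (L (nat_lit 461) ln13_11_5 ln13_11_5_ok))))) (B (M (nat_lit 426) (B (L (nat_lit 398) ln10_13_2 ln10_13_2_ok) (M (nat_lit 425) (B (L (nat_lit 396) ln9_13_2 ln9_13_2_ok) (L (nat_lit 461) ln9_13_0 ln9_13_0_ok))))) (M (nat_lit 365) (B (L (nat_lit 333) ln13_10_5 ln13_10_5_ok) (M (nat_lit 492) (B (L (nat_lit 461) ln13_11_5 ln13_11_5_ok) (L (nat_lit 524) ln12_16_6 ln12_16_6_ok))))))))) (B (M (nat_lit 397) (B (M (nat_lit 365) (B (L (nat_lit 333) ln13_10_5 ln13_10_5_ok) (M (nat_lit 492) (B (L (nat_lit 461) ln13_11_5 ln13_11_5_ok) (L (nat_lit 524) ln12_16_6 ln12_16_6_ok))))) (M (nat_lit 426) (B (L (nat_lit 398) ln10_13_2 ln10_13_2_ok) (M (nat_lit 394) (B (L (nat_lit 393) ln13_13_3 ln13_13_3_ok) (L (nat_lit 395) ln14_13_3 ln14_13_3_ok))))))) (M (nat_lit 431) (B (M (nat_lit 395) (B (L (nat_lit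 394) ln14_13_3 ln14_13_3_ok) (L (nat_lit 396) ln15_13_3 ln15_13_3_ok))) (M (nat_lit 432) (B (L (nat_lit 461) ln16_13_1 ln16_13_1_ok) (M (nat_lit 464) (B (L (nat_lit 463) ln12_13_0 ln12_13_0_ok) (L (nat_lit 465) ln13_13_0 ln13_13_0_ok))))))))))))) (M (nat_lit 461) (B (M (nat_lit 426) (B (L (nat_lit 462) ln10_13_0 ln10_13_0_ok) (M (nat_lit 394) (B (L (nat_lit 393) ln13_13_3 ln13_13_3_ok) (L (nat_lit 395) ln14_13_3 ln14_13_3_ok))))) (B (M (nat_lit 426) (B (L (nat_lit 462) ln10_13_0 ln10_13_0_ok) (M (nat_lit 397) (B (L (nat_lit 398) ln10_13_2 ln10_13_2_ok) (M (nat_lit 425) (B (L (nat_lit 396) ln9_13_2 ln9_13_2_ok) (L (nat_lit 460) ln9_13_0 ln9_13_0_ok))))))) (M (nat_lit 396) (B (M (nat_lit 395) (B (L (nat_lit 394) ln14_13_3 ln14_13_3_ok) (L (nat_lit 431) ln15_13_3 ln15_13_3_ok))) (M (nat_lit 364) (B (L (nat_lit 332) ln12_10_4 ln12_10_4_ok) (M (nat_lit 493) (B (L (nat_lit 460) ln12_11_4 ln12_11_4_ok) (L (nat_lit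 525) ln13_16_7 ln13_16_7_ok))))))))))))))))
theorem c32_s4981 : Sem (nat_lit 2079502270590611144683810638107312777577327806531862431377859685460965980854219217279980804578104683573043408221052678871730618368) (nat_lit 2358726516337239064558445010035772489549913986436189484686665255098358539543285432257306532003142686496359124715924402088987285788309846962927177843613972604634926153728) (nat_lit 2358726516337239064558445010035772489549913986436189484686665255098358539543285432257306532003142686496359124715924402088987285788309846962927177843613972604634926153728) :=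
  sem_of_chk (M (nat_lit 430) (B (M (nat_lit 427) (B (M (nat_lit 398) (B (L (nat_lit 399) ln11_13_2 ln11_13_2_ok) (M (nat_lit 394) (B (L (nat_lit 395) ln14_13_3 ln14_13_3_ok) (M (nat_lit 426) (B (L (nat_lit 393) ln13_13_3 ln13_13_3_ok) (L (nat_lit 397) ln10_13_2 ln10_13_2_ok))))))) (B (M (nat_lit 431) (B (M (nat_lit 395) (B (L (nat_lit 394) ln14_13_3 ln14_13_3_ok) (L (nat_lit 396) ln15_13_3 ln15_13_3_ok))) (M (nat_lit 463) (B (L (nat_lit 462) ln11_13_0 ln11_13_0_ok) (L (nat_lit 464) ln12_13_0 ln12_13_0_ok))))) (M (nat_lit 398) (B (L (nat_lit 399) ln11_13_2 ln11_13_2_ok) (M (nat_lit 462) (B (L (nat_lit 463) ln11_13_0 ln11_13_0_ok) (M (nat_lit 426) (B (L (nat_lit 397) ln10_13_2 ln10_13_2_ok) (L (nat_lit 461) ln10_13_0 ln10_13_0_ok)))))))))) (B (M (nat_lit 427) (B (M (nat_lit 431) (B (M (nat_lit 395) (B (L (nat_lit 394) ln14_13_3 ln14_13_3_ok) (L (nat_lit 396) ln15_13_3 ln15_13_3_ok))) (M (nat_lit 399) (B (L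 (nat_lit 398) ln11_13_2 ln11_13_2_ok) (L (nat_lit 400) ln12_13_2 ln12_13_2_ok))))) (B (M (nat_lit 431) (B (M (nat_lit 399) (B (L (nat_lit 398) ln11_13_2 ln11_13_2_ok) (L (nat_lit 400) ln12_13_2 ln12_13_2_ok))) (M (nat_lit 463) (B (L (nat_lit 462) ln11_13_0 ln11_13_0_ok) (L (nat_lit 464) ln12_13_0 ln12_13_0_ok))))) (B (M (nat_lit 431) (B (M (nat_lit 395) (B (L (nat_lit 394) ln14_13_3 ln14_13_3_ok) (L (nat_lit 396) ln15_13_3 ln15_13_3_ok))) (M (nat_lit 463) (B (L (nat_lit 462) ln11_13_0 ln11_13_0_ok) (L (nat_lit 464) ln12_13_0 ln12_13_0_ok))))) (M (nat_lit 398) (B (L (nat_lit 399) ln11_13_2 ln11_13_2_ok) (M (nat_lit 462) (B (L (nat_lit 463) ln11_13_0 ln11_13_0_ok) (M (nat_lit 426) (B (L (nat_lit 397) ln10_13_2 ln10_13_2_ok) (L (nat_lit 461) ln10_13_0 ln10_13_0_ok))))))))))) (B (M (nat_lit 431) (B (M (nat_lit 396) (B (L (nat_lit 395) ln15_13_3 ln15_13_3_ok) (M (nat_lit 432) (B (L (nat_lit 397) ln16_13_3 ln16_13_3_ok)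 (M (nat_lit 400) (B (L (nat_lit 399) ln12_13_2 ln12_13_2_ok) (L (nat_lit 401) ln13_13_2 ln13_13_2_ok))))))) (B (M (nat_lit 427) (B (M (nat_lit 399) (B (L (nat_lit 398) ln11_13_2 ln11_13_2_ok) (L (nat_lit 400) ln12_13_2 ln12_13_2_ok))) (M (nat_lit 463) (B (L (nat_lit 462) ln11_13_0 ln11_13_0_ok) (L (nat_lit 464) ln12_13_0 ln12_13_0_ok))))) (M (nat_lit 432) (B (M (nat_lit 396) (B (L (nat_lit 395) ln15_13_3 ln15_13_3_ok) (L (nat_lit 397) ln16_13_3 ln16_13_3_ok))) (M (nat_lit 464) (B (L (nat_lit 463) ln12_13_0 ln12_13_0_ok) (L (nat_lit 465) ln13_13_0 ln13_13_0_ok)))))))) (B (M (nat_lit 427) (B (M (nat_lit 398) (B (L (nat_lit 399) ln11_13_2 ln11_13_2_ok) (M (nat_lit 462) (B (L (nat_lit 463) ln11_13_0 ln11_13_0_ok) (M (nat_lit 426) (B (L (nat_lit 397) ln10_13_2 ln10_13_2_ok) (L (nat_lit 461) ln10_13_0 ln10_13_0_ok))))))) (B (M (nat_lit 431) (B (M (nat_lit 399) (B (L (nat_lit 398) ln11_13_2 ln11_13_2_ok) (L (nat_lit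 400) ln12_13_2 ln12_13_2_ok))) (M (nat_lit 463) (B (L (nat_lit 462) ln11_13_0 ln11_13_0_ok) (L (nat_lit 464) ln12_13_0 ln12_13_0_ok))))) (B (M (nat_lit 426) (B (M (nat_lit 462) (B (L (nat_lit 461) ln10_13_0 ln10_13_0_ok) (L (nat_lit 463) ln11_13_0 ln11_13_0_ok))) (M (nat_lit 425) (B (M (nat_lit 393) (B (L (nat_lit 392) ln12_13_3 ln12_13_3_ok) (L (nat_lit 394) ln13_13_3 ln13_13_3_ok))) (M (nat_lit 457) (B (L (nat_lit 456) ln12_13_1 ln12_13_1_ok) (L (nat_lit 458) ln13_13_1 ln13_13_1_ok))))))) (M (nat_lit 426) (B (M (nat_lit 398) (B (L (nat_lit 397) ln10_13_2 ln10_13_2_ok) (L (nat_lit 399) ln11_13_2 ln11_13_2_ok))) (M (nat_lit 425) (B (M (nat_lit 393) (B (L (nat_lit 392) ln12_13_3 ln12_13_3_ok) (L (nat_lit 394) ln13_13_3 ln13_13_3_ok))) (M (nat_lit 457) (B (L (nat_lit 456) ln12_13_1 ln12_13_1_ok) (L (nat_lit 458) ln13_13_1 ln13_13_1_ok))))))))))) (B (M (nat_lit 427) (B (M (nat_lit 431) (B (M (nat_lit 399) (B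 (L (nat_lit 398) ln11_13_2 ln11_13_2_ok) (L (nat_lit 400) ln12_13_2 ln12_13_2_ok))) (M (nat_lit 463) (B (L (nat_lit 462) ln11_13_0 ln11_13_0_ok) (L (nat_lit 464) ln12_13_0 ln12_13_0_ok))))) (B (M (nat_lit 431) (B (M (nat_lit 395) (B (L (nat_lit 394) ln14_13_3 ln14_13_3_ok) (L (nat_lit 396) ln15_13_3 ln15_13_3_ok))) (M (nat_lit 463) (B (L (nat_lit 462) ln11_13_0 ln11_13_0_ok) (L (nat_lit 464) ln12_13_0 ln12_13_0_ok))))) (B (M (nat_lit 426) (B (M (nat_lit 394) (B (L (nat_lit 393) ln13_13_3 ln13_13_3_ok) (L (nat_lit 395) ln14_13_3 ln14_13_3_ok))) (M (nat_lit 462) (B (L (nat_lit 461) ln10_13_0 ln10_13_0_ok) (L (nat_lit 463) ln11_13_0 ln11_13_0_ok))))) (M (nat_lit 431) (B (M (nat_lit 395) (B (L (nat_lit 394) ln14_13_3 ln14_13_3_ok) (L (nat_lit 396) ln15_13_3 ln15_13_3_ok))) (M (nat_lit 399) (B (L (nat_lit 398) ln11_13_2 ln11_13_2_ok) (L (nat_lit 400) ln12_13_2 ln12_13_2_ok))))))))) (B (M (nat_lit 431) (B (M (nat_lit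 396) (B (L (nat_lit 395) ln15_13_3 ln15_13_3_ok) (M (nat_lit 432) (B (L (nat_lit 397) ln16_13_3 ln16_13_3_ok) (M (nat_lit 400) (B (L (nat_lit 399) ln12_13_2 ln12_13_2_ok) (L (nat_lit 401) ln13_13_2 ln13_13_2_ok))))))) (B (M (nat_lit 432) (B (M (nat_lit 400) (B (L (nat_lit 399) ln12_13_2 ln12_13_2_ok) (L (nat_lit 401) ln13_13_2 ln13_13_2_ok))) (M (nat_lit 464) (B (L (nat_lit 463) ln12_13_0 ln12_13_0_ok) (L (nat_lit 465) ln13_13_0 ln13_13_0_ok))))) (M (nat_lit 427) (B (M (nat_lit 395) (B (L (nat_lit 394) ln14_13_3 ln14_13_3_ok) (L (nat_lit 396) ln15_13_3 ln15_13_3_ok))) (M (nat_lit 463) (B (L (nat_lit 462) ln11_13_0 ln11_13_0_ok) (L (nat_lit 464) ln12_13_0 ln12_13_0_ok)))))))) (B c32_n4935 (B (M (nat_lit 431) (B (M (nat_lit 432) (B (M (nat_lit 396) (B (L (nat_lit 395) ln15_13_3 ln15_13_3_ok) (L (nat_lit 397) ln16_13_3 ln16_13_3_ok))) (M (nat_lit 464) (B (L (nat_lit 463) ln12_13_0 ln12_13_0_ok) (L (nat_lit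 465) ln13_13_0 ln13_13_0_ok))))) (B (M (nat_lit 432) (B (M (nat_lit 400) (B (L (nat_lit 399) ln12_13_2 ln12_13_2_ok) (L (nat_lit 401) ln13_13_2 ln13_13_2_ok))) (M (nat_lit 464) (B (L (nat_lit 463) ln12_13_0 ln12_13_0_ok) (L (nat_lit 465) ln13_13_0 ln13_13_0_ok))))) (B (M (nat_lit 399) (B (L (nat_lit 400) ln12_13_2 ln12_13_2_ok) (M (nat_lit 463) (B (L (nat_lit 464) ln12_13_0 ln12_13_0_ok) (M (nat_lit 367) (B (M (nat_lit 462) (B (L (nat_lit 335) ln15_10_5 ln15_10_5_ok) (L (nat_lit 494) ln15_11_5 ln15_11_5_ok))) (B (M (nat_lit 495) (B (M (nat_lit 366) (B (L (nat_lit 334) ln15_14_7 ln15_14_7_ok) (L (nat_lit 398) ln15_15_7 ln15_15_7_ok))) (M (nat_lit 494) (B (L (nat_lit 462) ln15_11_5 ln15_11_5_ok) (L (nat_lit 526) ln15_12_5 ln15_12_5_ok))))) (M (nat_lit 335) (B (M (nat_lit 334) (B (L (nat_lit 302) ln15_13_7 ln15_13_7_ok) (L (nat_lit 366) ln15_14_7 ln15_14_7_ok))) (M (nat_lit 336) (B (L (nat_lit 304) ln15_13_6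 ln15_13_6_ok) (L (nat_lit 368) ln15_14_6 ln15_14_6_ok)))))))))))) (M (nat_lit 396) (B (L (nat_lit 395) ln15_13_3 ln15_13_3_ok) (M (nat_lit 432) (B (L (nat_lit 397) ln16_13_3 ln16_13_3_ok) (M (nat_lit 400) (B (L (nat_lit 399) ln12_13_2 ln12_13_2_ok) (L (nat_lit 401) ln13_13_2 ln13_13_2_ok))))))))))) (B (M (nat_lit 427) (B (M (nat_lit 398) (B (L (nat_lit 399) ln11_13_2 ln11_13_2_ok) (M (nat_lit 394) (B (L (nat_lit 395) ln14_13_3 ln14_13_3_ok) (M (nat_lit 426) (B (L (nat_lit 393) ln13_13_3 ln13_13_3_ok) (L (nat_lit 397) ln10_13_2 ln10_13_2_ok))))))) (B (M (nat_lit 398) (B (L (nat_lit 399) ln11_13_2 ln11_13_2_ok) (M (nat_lit 462) (B (L (nat_lit 463) ln11_13_0 ln11_13_0_ok) (M (nat_lit 426) (B (L (nat_lit 397) ln10_13_2 ln10_13_2_ok) (L (nat_lit 461) ln10_13_0 ln10_13_0_ok))))))) (B (M (nat_lit 426) (B (M (nat_lit 394) (B (L (nat_lit 393) ln13_13_3 ln13_13_3_ok) (L (nat_lit 395) ln14_13_3 ln14_13_3_ok))) (M (nat_lit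 462) (B (L (nat_lit 461) ln10_13_0 ln10_13_0_ok) (L (nat_lit 463) ln11_13_0 ln11_13_0_ok))))) (M (nat_lit 398) (B (L (nat_lit 399) ln11_13_2 ln11_13_2_ok) (M (nat_lit 462) (B (L (nat_lit 463) ln11_13_0 ln11_13_0_ok) (M (nat_lit 494) (B (M (nat_lit 397) (B (L (nat_lit 365) ln14_15_7 ln14_15_7_ok) (L (nat_lit 526) ln14_16_7 ln14_16_7_ok))) (B (M (nat_lit 525) (B (L (nat_lit 493) ln14_12_5 ln14_12_5_ok) (M (nat_lit 526) (B (L (nat_lit 397) ln14_16_7 ln14_16_7_ok) (L (nat_lit 557) ln14_13_5 ln14_13_5_ok))))) (B (M (nat_lit 526) (B (M (nat_lit 525) (B (L (nat_lit 493) ln14_12_5 ln14_12_5_ok) (L (nat_lit 557) ln14_13_5 ln14_13_5_ok))) (M (nat_lit 527) (B (L (nat_lit 495) ln14_12_4 ln14_12_4_ok) (L (nat_lit 559) ln14_13_4 ln14_13_4_ok))))) (M (nat_lit 366) (B (M (nat_lit 365) (B (L (nat_lit 333) ln14_14_7 ln14_14_7_ok) (L (nat_lit 397) ln14_15_7 ln14_15_7_ok))) (M (nat_lit 493) (B (L (nat_lit 461) ln14_11_5 ln14_11_5_ok)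 (L (nat_lit 525) ln14_12_5 ln14_12_5_ok))))))))))))))))) (B (M (nat_lit 431) (B (M (nat_lit 432) (B (M (nat_lit 400) (B (L (nat_lit 399) ln12_13_2 ln12_13_2_ok) (L (nat_lit 401) ln13_13_2 ln13_13_2_ok))) (M (nat_lit 464) (B (L (nat_lit 463) ln12_13_0 ln12_13_0_ok) (L (nat_lit 465) ln13_13_0 ln13_13_0_ok))))) (B (M (nat_lit 432) (B (M (nat_lit 396) (B (L (nat_lit 395) ln15_13_3 ln15_13_3_ok) (L (nat_lit 397) ln16_13_3 ln16_13_3_ok))) (M (nat_lit 464) (B (L (nat_lit 463) ln12_13_0 ln12_13_0_ok) (L (nat_lit 465) ln13_13_0 ln13_13_0_ok))))) (M (nat_lit 427) (B (M (nat_lit 395) (B (L (nat_lit 394) ln14_13_3 ln14_13_3_ok) (L (nat_lit 396) ln15_13_3 ln15_13_3_ok))) (M (nat_lit 399) (B (L (nat_lit 398) ln11_13_2 ln11_13_2_ok) (L (nat_lit 400) ln12_13_2 ln12_13_2_ok)))))))) (M (nat_lit 461) (B (M (nat_lit 396) (B (M (nat_lit 493) (B (L (nat_lit 525) ln13_16_7 ln13_16_7_ok) (M (nat_lit 364) (B (L (nat_lit 332) ln12_10_4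 ln12_10_4_ok) (L (nat_lit 460) ln12_11_4 ln12_11_4_ok))))) (B (M (nat_lit 493) (B (L (nat_lit 525) ln13_16_7 ln13_16_7_ok) (M (nat_lit 364) (B (L (nat_lit 397) ln13_15_7 ln13_15_7_ok) (L (nat_lit 460) ln12_11_4 ln12_11_4_ok))))) (B (M (nat_lit 431) (B (L (nat_lit 395) ln15_13_3 ln15_13_3_ok) (M (nat_lit 432) (B (L (nat_lit 397) ln16_13_3 ln16_13_3_ok) (L (nat_lit 460) ln16_13_1 ln16_13_1_ok))))) (M (nat_lit 364) (B (L (nat_lit 332) ln12_10_4 ln12_10_4_ok) (M (nat_lit 493) (B (L (nat_lit 397) ln13_15_7 ln13_15_7_ok) (L (nat_lit 525) ln13_16_7 ln13_16_7_ok))))))))) (B (M (nat_lit 398) (B (M (nat_lit 493) (B (L (nat_lit 525) ln13_16_6 ln13_16_6_ok) (M (nat_lit 366) (B (L (nat_lit 334) ln14_10_5 ln14_10_5_ok) (L (nat_lit 462) ln14_11_5 ln14_11_5_ok))))) (B (M (nat_lit 493) (B (L (nat_lit 525) ln13_16_6 ln13_16_6_ok) (M (nat_lit 366) (B (L (nat_lit 397) ln13_15_6 ln13_15_6_ok) (L (nat_lit 462) ln14_11_5 ln14_11_5_ok)))))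 (M (nat_lit 399) (B (L (nat_lit 427) ln11_13_2 ln11_13_2_ok) (M (nat_lit 400) (B (L (nat_lit 397) ln16_12_1 ln16_12_1_ok) (L (nat_lit 401) ln17_12_1 ln17_12_1_ok)))))))) (B (M (nat_lit 396) (B (M (nat_lit 493) (B (L (nat_lit 525) ln13_16_7 ln13_16_7_ok) (M (nat_lit 364) (B (L (nat_lit 332) ln12_10_4 ln12_10_4_ok) (L (nat_lit 460) ln12_11_4 ln12_11_4_ok))))) (M (nat_lit 395) (B (L (nat_lit 431) ln15_13_3 ln15_13_3_ok) (M (nat_lit 394) (B (L (nat_lit 393) ln9_12_0 ln9_12_0_ok) (L (nat_lit 427) ln14_13_3 ln14_13_3_ok))))))) (M (nat_lit 427) (B (M (nat_lit 426) (B (L (nat_lit 462) ln10_13_0 ln10_13_0_ok) (M (nat_lit 394) (B (L (nat_lit 393) ln13_13_3 ln13_13_3_ok) (L (nat_lit 395) ln14_13_3 ln14_13_3_ok))))) (B (M (nat_lit 398) (B (L (nat_lit 399) ln11_13_2 ln11_13_2_ok) (M (nat_lit 426) (B (L (nat_lit 397) ln10_13_2 ln10_13_2_ok) (L (nat_lit 462) ln10_13_0 ln10_13_0_ok))))) (M (nat_lit 431) (B (M (nat_lit 395)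 (B (L (nat_lit 394) ln14_13_3 ln14_13_3_ok) (L (nat_lit 396) ln15_13_3 ln15_13_3_ok))) (M (nat_lit 399) (B (L (nat_lit 398) ln11_13_2 ln11_13_2_ok) (L (nat_lit 400) ln12_13_2 ln12_13_2_ok))))))))))))))))))))))) (nat_lit 2079502270590611144683810638107312777577327806531862431377859685460965980854219217279980804578104683573043408221052678871730618368) (nat_lit 2358726516337239064558445010035772489549913986436189484686665255098358539543285432257306532003142686496359124715924402088987285788309846962927177843613972604634926153728) (nat_lit 2358726516337239064558445010035772489549913986436189484686665255098358539543285432257306532003142686496359124715924402088987285788309846962927177843613972604634926153728) (by decide +kernel)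
theorem c32_s4986 : Sem (nat_lit 2079502270590611144683810638107312777577327806531862431377859685460965980854219217279980804578104683573043408221052678871730618368) (nat_lit 2358726516282320683264613450252148342556660094241024188665794123931763810039042328043002433741797217720634325290151677339711446432739105947153733465524985953219034218496) (nat_lit 2358726516282320683264613450252148342556660094241024188665794123931763810039042328043002433741797217720634325290151677339711446432739105947153733465524985953219034218496) :=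
  sem_of_chk (M (nat_lit 430) (B (M (nat_lit 427) (B (M (nat_lit 398) (B (L (nat_lit 399) ln11_13_2 ln11_13_2_ok) (M (nat_lit 394) (B (L (nat_lit 395) ln14_13_3 ln14_13_3_ok) (M (nat_lit 426) (B (L (nat_lit 393) ln13_13_3 ln13_13_3_ok) (L (nat_lit 397) ln10_13_2 ln10_13_2_ok))))))) (B (M (nat_lit 431) (B (M (nat_lit 395) (B (L (nat_lit 394) ln14_13_3 ln14_13_3_ok) (L (nat_lit 396) ln15_13_3 ln15_13_3_ok))) (M (nat_lit 463) (B (L (nat_lit 462) ln11_13_0 ln11_13_0_ok) (L (nat_lit 464) ln12_13_0 ln12_13_0_ok))))) (M (nat_lit 398) (B (L (nat_lit 399) ln11_13_2 ln11_13_2_ok) (M (nat_lit 462) (B (L (nat_lit 463) ln11_13_0 ln11_13_0_ok) (M (nat_lit 426) (B (L (nat_lit 397) ln10_13_2 ln10_13_2_ok) (L (nat_lit 461) ln10_13_0 ln10_13_0_ok)))))))))) (B (M (nat_lit 431) (B (M (nat_lit 432) (B (M (nat_lit 400) (B (L (nat_lit 399) ln12_13_2 ln12_13_2_ok) (L (nat_lit 401) ln13_13_2 ln13_13_2_ok))) (M (nat_lit 464) (B (L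 (nat_lit 463) ln12_13_0 ln12_13_0_ok) (L (nat_lit 465) ln13_13_0 ln13_13_0_ok))))) (B (M (nat_lit 432) (B (M (nat_lit 396) (B (L (nat_lit 395) ln15_13_3 ln15_13_3_ok) (L (nat_lit 397) ln16_13_3 ln16_13_3_ok))) (M (nat_lit 464) (B (L (nat_lit 463) ln12_13_0 ln12_13_0_ok) (L (nat_lit 465) ln13_13_0 ln13_13_0_ok))))) (M (nat_lit 427) (B (M (nat_lit 395) (B (L (nat_lit 394) ln14_13_3 ln14_13_3_ok) (L (nat_lit 396) ln15_13_3 ln15_13_3_ok))) (M (nat_lit 399) (B (L (nat_lit 398) ln11_13_2 ln11_13_2_ok) (L (nat_lit 400) ln12_13_2 ln12_13_2_ok)))))))) (B (M (nat_lit 427) (B (M (nat_lit 398) (B (L (nat_lit 399) ln11_13_2 ln11_13_2_ok) (M (nat_lit 462) (B (L (nat_lit 463) ln11_13_0 ln11_13_0_ok) (M (nat_lit 426) (B (L (nat_lit 397) ln10_13_2 ln10_13_2_ok) (L (nat_lit 461) ln10_13_0 ln10_13_0_ok))))))) (B (M (nat_lit 431) (B (M (nat_lit 399) (B (L (nat_lit 398) ln11_13_2 ln11_13_2_ok) (L (nat_lit 400) ln12_13_2 ln12_13_2_ok)))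 (M (nat_lit 463) (B (L (nat_lit 462) ln11_13_0 ln11_13_0_ok) (L (nat_lit 464) ln12_13_0 ln12_13_0_ok))))) (B (M (nat_lit 426) (B (M (nat_lit 458) (B (L (nat_lit 457) ln13_13_1 ln13_13_1_ok) (L (nat_lit 459) ln14_13_1 ln14_13_1_ok))) (M (nat_lit 462) (B (L (nat_lit 461) ln10_13_0 ln10_13_0_ok) (L (nat_lit 463) ln11_13_0 ln11_13_0_ok))))) (M (nat_lit 426) (B (M (nat_lit 398) (B (L (nat_lit 397) ln10_13_2 ln10_13_2_ok) (L (nat_lit 399) ln11_13_2 ln11_13_2_ok))) (M (nat_lit 458) (B (L (nat_lit 457) ln13_13_1 ln13_13_1_ok) (L (nat_lit 459) ln14_13_1 ln14_13_1_ok))))))))) (B (M (nat_lit 427) (B (M (nat_lit 431) (B (M (nat_lit 395) (B (L (nat_lit 394) ln14_13_3 ln14_13_3_ok) (L (nat_lit 396) ln15_13_3 ln15_13_3_ok))) (M (nat_lit 399) (B (L (nat_lit 398) ln11_13_2 ln11_13_2_ok) (L (nat_lit 400) ln12_13_2 ln12_13_2_ok))))) (B (M (nat_lit 431) (B (M (nat_lit 399) (B (L (nat_lit 398) ln11_13_2 ln11_13_2_ok) (L (nat_lit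 400) ln12_13_2 ln12_13_2_ok))) (M (nat_lit 463) (B (L (nat_lit 462) ln11_13_0 ln11_13_0_ok) (L (nat_lit 464) ln12_13_0 ln12_13_0_ok))))) (B (M (nat_lit 431) (B (M (nat_lit 395) (B (L (nat_lit 394) ln14_13_3 ln14_13_3_ok) (L (nat_lit 396) ln15_13_3 ln15_13_3_ok))) (M (nat_lit 463) (B (L (nat_lit 462) ln11_13_0 ln11_13_0_ok) (L (nat_lit 464) ln12_13_0 ln12_13_0_ok))))) (M (nat_lit 426) (B (M (nat_lit 458) (B (L (nat_lit 457) ln13_13_1 ln13_13_1_ok) (L (nat_lit 459) ln14_13_1 ln14_13_1_ok))) (M (nat_lit 462) (B (L (nat_lit 461) ln10_13_0 ln10_13_0_ok) (L (nat_lit 463) ln11_13_0 ln11_13_0_ok))))))))) (B (M (nat_lit 427) (B (M (nat_lit 426) (B (M (nat_lit 394) (B (L (nat_lit 393) ln13_13_3 ln13_13_3_ok) (L (nat_lit 395) ln14_13_3 ln14_13_3_ok))) (M (nat_lit 458) (B (L (nat_lit 457) ln13_13_1 ln13_13_1_ok) (L (nat_lit 459) ln14_13_1 ln14_13_1_ok))))) (B (M (nat_lit 431) (B (M (nat_lit 395) (B (L (nat_lit 394)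 ln14_13_3 ln14_13_3_ok) (L (nat_lit 396) ln15_13_3 ln15_13_3_ok))) (M (nat_lit 463) (B (L (nat_lit 462) ln11_13_0 ln11_13_0_ok) (L (nat_lit 464) ln12_13_0 ln12_13_0_ok))))) (M (nat_lit 426) (B (M (nat_lit 458) (B (L (nat_lit 457) ln13_13_1 ln13_13_1_ok) (L (nat_lit 459) ln14_13_1 ln14_13_1_ok))) (M (nat_lit 462) (B (L (nat_lit 461) ln10_13_0 ln10_13_0_ok) (L (nat_lit 463) ln11_13_0 ln11_13_0_ok)))))))) (B (M (nat_lit 431) (B (M (nat_lit 396) (B (L (nat_lit 395) ln15_13_3 ln15_13_3_ok) (M (nat_lit 432) (B (L (nat_lit 397) ln16_13_3 ln16_13_3_ok) (M (nat_lit 400) (B (L (nat_lit 399) ln12_13_2 ln12_13_2_ok) (L (nat_lit 401) ln13_13_2 ln13_13_2_ok))))))) (B (M (nat_lit 432) (B (M (nat_lit 400) (B (L (nat_lit 399) ln12_13_2 ln12_13_2_ok) (L (nat_lit 401) ln13_13_2 ln13_13_2_ok))) (M (nat_lit 464) (B (L (nat_lit 463) ln12_13_0 ln12_13_0_ok) (L (nat_lit 465) ln13_13_0 ln13_13_0_ok))))) (B (M (nat_lit 432) (B (M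 (nat_lit 396) (B (L (nat_lit 395) ln15_13_3 ln15_13_3_ok) (L (nat_lit 397) ln16_13_3 ln16_13_3_ok))) (M (nat_lit 464) (B (L (nat_lit 463) ln12_13_0 ln12_13_0_ok) (L (nat_lit 465) ln13_13_0 ln13_13_0_ok))))) (M (nat_lit 399) (B (L (nat_lit 400) ln12_13_2 ln12_13_2_ok) (M (nat_lit 463) (B (L (nat_lit 464) ln12_13_0 ln12_13_0_ok) (M (nat_lit 367) (B (M (nat_lit 462) (B (L (nat_lit 335) ln15_10_5 ln15_10_5_ok) (L (nat_lit 494) ln15_11_5 ln15_11_5_ok))) (B (M (nat_lit 495) (B (M (nat_lit 366) (B (L (nat_lit 334) ln15_14_7 ln15_14_7_ok) (L (nat_lit 398) ln15_15_7 ln15_15_7_ok))) (M (nat_lit 494) (B (L (nat_lit 462) ln15_11_5 ln15_11_5_ok) (L (nat_lit 526) ln15_12_5 ln15_12_5_ok))))) (M (nat_lit 335) (B (M (nat_lit 334) (B (L (nat_lit 302) ln15_13_7 ln15_13_7_ok) (L (nat_lit 366) ln15_14_7 ln15_14_7_ok))) (M (nat_lit 336) (B (L (nat_lit 304) ln15_13_6 ln15_13_6_ok) (L (nat_lit 368) ln15_14_6 ln15_14_6_ok))))))))))))))))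 (B (M (nat_lit 427) (B (M (nat_lit 426) (B (M (nat_lit 394) (B (L (nat_lit 393) ln13_13_3 ln13_13_3_ok) (L (nat_lit 395) ln14_13_3 ln14_13_3_ok))) (M (nat_lit 458) (B (L (nat_lit 457) ln13_13_1 ln13_13_1_ok) (L (nat_lit 459) ln14_13_1 ln14_13_1_ok))))) (B (M (nat_lit 426) (B (M (nat_lit 398) (B (L (nat_lit 397) ln10_13_2 ln10_13_2_ok) (L (nat_lit 399) ln11_13_2 ln11_13_2_ok))) (M (nat_lit 458) (B (L (nat_lit 457) ln13_13_1 ln13_13_1_ok) (L (nat_lit 459) ln14_13_1 ln14_13_1_ok))))) (M (nat_lit 398) (B (L (nat_lit 399) ln11_13_2 ln11_13_2_ok) (M (nat_lit 462) (B (L (nat_lit 463) ln11_13_0 ln11_13_0_ok) (M (nat_lit 494) (B (M (nat_lit 397) (B (L (nat_lit 365) ln14_15_7 ln14_15_7_ok) (L (nat_lit 526) ln14_16_7 ln14_16_7_ok))) (B (M (nat_lit 525) (B (L (nat_lit 493) ln14_12_5 ln14_12_5_ok) (M (nat_lit 526) (B (L (nat_lit 397) ln14_16_7 ln14_16_7_ok) (L (nat_lit 557) ln14_13_5 ln14_13_5_ok))))) (B (M (nat_lit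 526) (B (M (nat_lit 525) (B (L (nat_lit 493) ln14_12_5 ln14_12_5_ok) (L (nat_lit 557) ln14_13_5 ln14_13_5_ok))) (M (nat_lit 527) (B (L (nat_lit 495) ln14_12_4 ln14_12_4_ok) (L (nat_lit 559) ln14_13_4 ln14_13_4_ok))))) (M (nat_lit 366) (B (M (nat_lit 365) (B (L (nat_lit 333) ln14_14_7 ln14_14_7_ok) (L (nat_lit 397) ln14_15_7 ln14_15_7_ok))) (M (nat_lit 493) (B (L (nat_lit 461) ln14_11_5 ln14_11_5_ok) (L (nat_lit 525) ln14_12_5 ln14_12_5_ok)))))))))))))))) (M (nat_lit 427) (B (M (nat_lit 426) (B (M (nat_lit 398) (B (L (nat_lit 397) ln10_13_2 ln10_13_2_ok) (L (nat_lit 399) ln11_13_2 ln11_13_2_ok))) (M (nat_lit 458) (B (L (nat_lit 457) ln13_13_1 ln13_13_1_ok) (L (nat_lit 459) ln14_13_1 ln14_13_1_ok))))) (B (M (nat_lit 431) (B (M (nat_lit 395) (B (L (nat_lit 394) ln14_13_3 ln14_13_3_ok) (L (nat_lit 396) ln15_13_3 ln15_13_3_ok))) (M (nat_lit 399) (B (L (nat_lit 398) ln11_13_2 ln11_13_2_ok) (L (nat_lit 400) ln12_13_2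 ln12_13_2_ok))))) (M (nat_lit 426) (B (M (nat_lit 394) (B (L (nat_lit 393) ln13_13_3 ln13_13_3_ok) (L (nat_lit 395) ln14_13_3 ln14_13_3_ok))) (M (nat_lit 458) (B (L (nat_lit 457) ln13_13_1 ln13_13_1_ok) (L (nat_lit 459) ln14_13_1 ln14_13_1_ok)))))))))))))))) (nat_lit 2079502270590611144683810638107312777577327806531862431377859685460965980854219217279980804578104683573043408221052678871730618368) (nat_lit 2358726516282320683264613450252148342556660094241024188665794123931763810039042328043002433741797217720634325290151677339711446432739105947153733465524985953219034218496) (nat_lit 2358726516282320683264613450252148342556660094241024188665794123931763810039042328043002433741797217720634325290151677339711446432739105947153733465524985953219034218496) (by decide +kernel)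
theorem c32_s4989 : Sem (nat_lit 2079502270590611144683810638107312777577327806531862431377859685460965980854219217279980804578104683573043408221052678871730618368) (nat_lit 274591906577844596621759144695139702887043144409055407062623680968621583416975137833260630571022523418328421715678835954496230152422733789575222335293368565760) (nat_lit 274591906577844596621759144695139702887043144409055407062623680968621583416975137833260630571022523418328421715678835954496230152422733789575222335293368565760) :=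
  sem_of_chk (M (nat_lit 430) (B (M (nat_lit 427) (B (M (nat_lit 398) (B (L (nat_lit 399) ln11_13_2 ln11_13_2_ok) (M (nat_lit 394) (B (L (nat_lit 395) ln14_13_3 ln14_13_3_ok) (M (nat_lit 426) (B (L (nat_lit 393) ln13_13_3 ln13_13_3_ok) (L (nat_lit 397) ln10_13_2 ln10_13_2_ok))))))) (B (M (nat_lit 431) (B (M (nat_lit 395) (B (L (nat_lit 394) ln14_13_3 ln14_13_3_ok) (L (nat_lit 396) ln15_13_3 ln15_13_3_ok))) (M (nat_lit 463) (B (L (nat_lit 462) ln11_13_0 ln11_13_0_ok) (L (nat_lit 464) ln12_13_0 ln12_13_0_ok))))) (M (nat_lit 426) (B (M (nat_lit 398) (B (L (nat_lit 397) ln10_13_2 ln10_13_2_ok) (L (nat_lit 399) ln11_13_2 ln11_13_2_ok))) (M (nat_lit 458) (B (L (nat_lit 457) ln13_13_1 ln13_13_1_ok) (L (nat_lit 459) ln14_13_1 ln14_13_1_ok)))))))) (B (M (nat_lit 427) (B (M (nat_lit 431) (B (M (nat_lit 395) (B (L (nat_lit 394) ln14_13_3 ln14_13_3_ok) (L (nat_lit 396) ln15_13_3 ln15_13_3_ok))) (M (nat_lit 463) (B (L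 (nat_lit 462) ln11_13_0 ln11_13_0_ok) (L (nat_lit 464) ln12_13_0 ln12_13_0_ok))))) (M (nat_lit 426) (B (M (nat_lit 398) (B (L (nat_lit 397) ln10_13_2 ln10_13_2_ok) (L (nat_lit 399) ln11_13_2 ln11_13_2_ok))) (M (nat_lit 458) (B (L (nat_lit 457) ln13_13_1 ln13_13_1_ok) (L (nat_lit 459) ln14_13_1 ln14_13_1_ok))))))) (B (M (nat_lit 427) (B (M (nat_lit 431) (B (M (nat_lit 459) (B (L (nat_lit 458) ln14_13_1 ln14_13_1_ok) (L (nat_lit 460) ln15_13_1 ln15_13_1_ok))) (M (nat_lit 463) (B (L (nat_lit 462) ln11_13_0 ln11_13_0_ok) (L (nat_lit 464) ln12_13_0 ln12_13_0_ok))))) (B (M (nat_lit 426) (B (M (nat_lit 398) (B (L (nat_lit 397) ln10_13_2 ln10_13_2_ok) (L (nat_lit 399) ln11_13_2 ln11_13_2_ok))) (M (nat_lit 458) (B (L (nat_lit 457) ln13_13_1 ln13_13_1_ok) (L (nat_lit 459) ln14_13_1 ln14_13_1_ok))))) (M (nat_lit 431) (B (M (nat_lit 399) (B (L (nat_lit 398) ln11_13_2 ln11_13_2_ok) (L (nat_lit 400) ln12_13_2 ln12_13_2_ok)))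 (M (nat_lit 463) (B (L (nat_lit 462) ln11_13_0 ln11_13_0_ok) (L (nat_lit 464) ln12_13_0 ln12_13_0_ok)))))))) (B (M (nat_lit 427) (B (M (nat_lit 431) (B (M (nat_lit 459) (B (L (nat_lit 458) ln14_13_1 ln14_13_1_ok) (L (nat_lit 460) ln15_13_1 ln15_13_1_ok))) (M (nat_lit 463) (B (L (nat_lit 462) ln11_13_0 ln11_13_0_ok) (L (nat_lit 464) ln12_13_0 ln12_13_0_ok))))) (B (M (nat_lit 426) (B (M (nat_lit 394) (B (L (nat_lit 393) ln13_13_3 ln13_13_3_ok) (L (nat_lit 395) ln14_13_3 ln14_13_3_ok))) (M (nat_lit 458) (B (L (nat_lit 457) ln13_13_1 ln13_13_1_ok) (L (nat_lit 459) ln14_13_1 ln14_13_1_ok))))) (M (nat_lit 431) (B (M (nat_lit 395) (B (L (nat_lit 394) ln14_13_3 ln14_13_3_ok) (L (nat_lit 396) ln15_13_3 ln15_13_3_ok))) (M (nat_lit 463) (B (L (nat_lit 462) ln11_13_0 ln11_13_0_ok) (L (nat_lit 464) ln12_13_0 ln12_13_0_ok)))))))) (B (M (nat_lit 431) (B (M (nat_lit 427) (B (M (nat_lit 399) (B (L (nat_lit 398) ln11_13_2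 ln11_13_2_ok) (L (nat_lit 400) ln12_13_2 ln12_13_2_ok))) (M (nat_lit 459) (B (L (nat_lit 458) ln14_13_1 ln14_13_1_ok) (L (nat_lit 460) ln15_13_1 ln15_13_1_ok))))) (B (M (nat_lit 427) (B (M (nat_lit 395) (B (L (nat_lit 394) ln14_13_3 ln14_13_3_ok) (L (nat_lit 396) ln15_13_3 ln15_13_3_ok))) (M (nat_lit 459) (B (L (nat_lit 458) ln14_13_1 ln14_13_1_ok) (L (nat_lit 460) ln15_13_1 ln15_13_1_ok))))) (M (nat_lit 432) (B (M (nat_lit 396) (B (L (nat_lit 395) ln15_13_3 ln15_13_3_ok) (L (nat_lit 397) ln16_13_3 ln16_13_3_ok))) (M (nat_lit 464) (B (L (nat_lit 463) ln12_13_0 ln12_13_0_ok) (L (nat_lit 465) ln13_13_0 ln13_13_0_ok)))))))) (B (M (nat_lit 431) (B (M (nat_lit 396) (B (L (nat_lit 395) ln15_13_3 ln15_13_3_ok) (M (nat_lit 432) (B (L (nat_lit 397) ln16_13_3 ln16_13_3_ok) (M (nat_lit 400) (B (L (nat_lit 399) ln12_13_2 ln12_13_2_ok) (L (nat_lit 401) ln13_13_2 ln13_13_2_ok))))))) (B (M (nat_lit 432) (B (M (nat_lit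 400) (B (L (nat_lit 399) ln12_13_2 ln12_13_2_ok) (L (nat_lit 401) ln13_13_2 ln13_13_2_ok))) (M (nat_lit 464) (B (L (nat_lit 463) ln12_13_0 ln12_13_0_ok) (L (nat_lit 465) ln13_13_0 ln13_13_0_ok))))) (B (M (nat_lit 432) (B (M (nat_lit 396) (B (L (nat_lit 395) ln15_13_3 ln15_13_3_ok) (L (nat_lit 397) ln16_13_3 ln16_13_3_ok))) (M (nat_lit 464) (B (L (nat_lit 463) ln12_13_0 ln12_13_0_ok) (L (nat_lit 465) ln13_13_0 ln13_13_0_ok))))) (M (nat_lit 399) (B (L (nat_lit 400) ln12_13_2 ln12_13_2_ok) (M (nat_lit 463) (B (L (nat_lit 464) ln12_13_0 ln12_13_0_ok) (M (nat_lit 367) (B (M (nat_lit 462) (B (L (nat_lit 335) ln15_10_5 ln15_10_5_ok) (L (nat_lit 494) ln15_11_5 ln15_11_5_ok))) (B (M (nat_lit 495) (B (M (nat_lit 366) (B (L (nat_lit 334) ln15_14_7 ln15_14_7_ok) (L (nat_lit 398) ln15_15_7 ln15_15_7_ok))) (M (nat_lit 494) (B (L (nat_lit 462) ln15_11_5 ln15_11_5_ok) (L (nat_lit 526) ln15_12_5 ln15_12_5_ok))))) (M (nat_lit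 335) (B (M (nat_lit 334) (B (L (nat_lit 302) ln15_13_7 ln15_13_7_ok) (L (nat_lit 366) ln15_14_7 ln15_14_7_ok))) (M (nat_lit 336) (B (L (nat_lit 304) ln15_13_6 ln15_13_6_ok) (L (nat_lit 368) ln15_14_6 ln15_14_6_ok)))))))))))))))) (M (nat_lit 427) (B (M (nat_lit 398) (B (L (nat_lit 399) ln11_13_2 ln11_13_2_ok) (M (nat_lit 394) (B (L (nat_lit 395) ln14_13_3 ln14_13_3_ok) (M (nat_lit 426) (B (L (nat_lit 393) ln13_13_3 ln13_13_3_ok) (L (nat_lit 397) ln10_13_2 ln10_13_2_ok))))))) (B (M (nat_lit 426) (B (M (nat_lit 398) (B (L (nat_lit 397) ln10_13_2 ln10_13_2_ok) (L (nat_lit 399) ln11_13_2 ln11_13_2_ok))) (M (nat_lit 458) (B (L (nat_lit 457) ln13_13_1 ln13_13_1_ok) (L (nat_lit 459) ln14_13_1 ln14_13_1_ok))))) (B (M (nat_lit 426) (B (M (nat_lit 394) (B (L (nat_lit 393) ln13_13_3 ln13_13_3_ok) (L (nat_lit 395) ln14_13_3 ln14_13_3_ok))) (M (nat_lit 458) (B (L (nat_lit 457) ln13_13_1 ln13_13_1_ok) (L (nat_lit 459)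 ln14_13_1 ln14_13_1_ok))))) (M (nat_lit 459) (B (L (nat_lit 458) ln14_13_1 ln14_13_1_ok) (M (nat_lit 395) (B (L (nat_lit 394) ln14_13_3 ln14_13_3_ok) (M (nat_lit 363) (B (M (nat_lit 460) (B (L (nat_lit 331) ln11_10_4 ln11_10_4_ok) (L (nat_lit 492) ln11_11_4 ln11_11_4_ok))) (B (M (nat_lit 491) (B (M (nat_lit 364) (B (L (nat_lit 332) ln11_14_6 ln11_14_6_ok) (L (nat_lit 396) ln11_15_6 ln11_15_6_ok))) (M (nat_lit 492) (B (L (nat_lit 460) ln11_11_4 ln11_11_4_ok) (L (nat_lit 524) ln11_12_4 ln11_12_4_ok))))) (M (nat_lit 331) (B (M (nat_lit 330) (B (L (nat_lit 298) ln11_13_7 ln11_13_7_ok) (L (nat_lit 362) ln11_14_7 ln11_14_7_ok))) (M (nat_lit 332) (B (L (nat_lit 300) ln11_13_6 ln11_13_6_ok) (L (nat_lit 364) ln11_14_6 ln11_14_6_ok))))))))))))))))))))))) (nat_lit 2079502270590611144683810638107312777577327806531862431377859685460965980854219217279980804578104683573043408221052678871730618368) (nat_lit 274591906577844596621759144695139702887043144409055407062623680968621583416975137833260630571022523418328421715678835954496230152422733789575222335293368565760)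 (nat_lit 274591906577844596621759144695139702887043144409055407062623680968621583416975137833260630571022523418328421715678835954496230152422733789575222335293368565760) (by decide +kernel)
noncomputable def c32_n4994 : Cert := (M (nat_lit 396) (B (M (nat_lit 364) (B (M (nat_lit 461) (B (L (nat_lit 332) ln12_10_4 ln12_10_4_ok) (L (nat_lit 493) ln12_11_4 ln12_11_4_ok))) (M (nat_lit 492) (B (M (nat_lit 365) (B (L (nat_lit 333) ln12_14_6 ln12_14_6_ok) (L (nat_lit 397) ln12_15_6 ln12_15_6_ok))) (M (nat_lit 491) (B (L (nat_lit 459) ln12_11_5 ln12_11_5_ok) (L (nat_lit 523) ln12_12_5 ln12_12_5_ok))))))) (B (M (nat_lit 364) (B (M (nat_lit 461) (B (L (nat_lit 493) ln12_11_4 ln12_11_4_ok) (M (nat_lit 459) (B (L (nat_lit 491) ln12_11_5 ln12_11_5_ok) (L (nat_lit 458) ln10_14_2 ln10_14_2_ok))))) (B (M (nat_lit 492) (B (M (nat_lit 363) (B (L (nat_lit 331) ln12_14_7 ln12_14_7_ok) (L (nat_lit 395) ln12_15_7 ln12_15_7_ok)))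 (M (nat_lit 493) (B (L (nat_lit 461) ln12_11_4 ln12_11_4_ok) (L (nat_lit 525) ln12_12_4 ln12_12_4_ok))))) (M (nat_lit 492) (B (M (nat_lit 363) (B (L (nat_lit 331) ln12_14_7 ln12_14_7_ok) (L (nat_lit 395) ln12_15_7 ln12_15_7_ok))) (M (nat_lit 491) (B (L (nat_lit 459) ln12_11_5 ln12_11_5_ok) (L (nat_lit 523) ln12_12_5 ln12_12_5_ok)))))))) (B (M (nat_lit 492) (B (M (nat_lit 397) (B (L (nat_lit 365) ln12_15_6 ln12_15_6_ok) (L (nat_lit 524) ln12_16_6 ln12_16_6_ok))) (B (M (nat_lit 397) (B (L (nat_lit 524) ln12_16_6 ln12_16_6_ok) (M (nat_lit 395) (B (L (nat_lit 363) ln12_15_7 ln12_15_7_ok) (L (nat_lit 394) ln10_12_0 ln10_12_0_ok))))) (B (M (nat_lit 524) (B (M (nat_lit 523) (B (L (nat_lit 491) ln12_12_5 ln12_12_5_ok) (L (nat_lit 555) ln12_13_5 ln12_13_5_ok))) (M (nat_lit 525) (B (L (nat_lit 493) ln12_12_4 ln12_12_4_ok) (L (nat_lit 557) ln12_13_4 ln12_13_4_ok))))) (M (nat_lit 397) (B (L (nat_lit 365) ln12_15_6 ln12_15_6_ok)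 (M (nat_lit 395) (B (L (nat_lit 363) ln12_15_7 ln12_15_7_ok) (L (nat_lit 394) ln10_12_0 ln10_12_0_ok))))))))) (B (M (nat_lit 364) (B (M (nat_lit 461) (B (L (nat_lit 332) ln12_10_4 ln12_10_4_ok) (L (nat_lit 493) ln12_11_4 ln12_11_4_ok))) (M (nat_lit 492) (B (M (nat_lit 363) (B (L (nat_lit 331) ln12_14_7 ln12_14_7_ok) (L (nat_lit 395) ln12_15_7 ln12_15_7_ok))) (M (nat_lit 365) (B (L (nat_lit 333) ln12_14_6 ln12_14_6_ok) (L (nat_lit 397) ln12_15_6 ln12_15_6_ok))))))) (B (M (nat_lit 364) (B (M (nat_lit 461) (B (L (nat_lit 332) ln12_10_4 ln12_10_4_ok) (L (nat_lit 493) ln12_11_4 ln12_11_4_ok))) (B (M (nat_lit 461) (B (L (nat_lit 493) ln12_11_4 ln12_11_4_ok) (M (nat_lit 459) (B (L (nat_lit 491) ln12_11_5 ln12_11_5_ok) (L (nat_lit 458) ln10_14_2 ln10_14_2_ok))))) (M (nat_lit 332) (B (M (nat_lit 331) (B (L (nat_lit 299) ln12_13_7 ln12_13_7_ok) (L (nat_lit 363) ln12_14_7 ln12_14_7_ok))) (M (nat_lit 333) (B (L (nat_lit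 301) ln12_13_6 ln12_13_6_ok) (L (nat_lit 365) ln12_14_6 ln12_14_6_ok)))))))) (M (nat_lit 364) (B (M (nat_lit 461) (B (L (nat_lit 332) ln12_10_4 ln12_10_4_ok) (M (nat_lit 459) (B (L (nat_lit 491) ln12_11_5 ln12_11_5_ok) (L (nat_lit 458) ln10_14_2 ln10_14_2_ok))))) (B (M (nat_lit 459) (B (L (nat_lit 491) ln12_11_5 ln12_11_5_ok) (M (nat_lit 458) (B (L (nat_lit 457) ln9_14_2 ln9_14_2_ok) (L (nat_lit 461) ln10_14_2 ln10_14_2_ok))))) (B (M (nat_lit 333) (B (L (nat_lit 365) ln12_14_6 ln12_14_6_ok) (M (nat_lit 332) (B (L (nat_lit 301) ln12_13_6 ln12_13_6_ok) (L (nat_lit 461) ln12_10_4 ln12_10_4_ok))))) (M (nat_lit 332) (B (M (nat_lit 331) (B (L (nat_lit 299) ln12_13_7 ln12_13_7_ok) (L (nat_lit 363) ln12_14_7 ln12_14_7_ok))) (M (nat_lit 333) (B (L (nat_lit 301) ln12_13_6 ln12_13_6_ok) (L (nat_lit 365) ln12_14_6 ln12_14_6_ok)))))))))))))))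
theorem c32_s4996 : Sem (nat_lit 4852171964711426004262224822250396481013764881907679006548339266075587288659844840319955210682244261670434619182456250700704776192) (nat_lit 589681629070580170816153362694496044681819545527736381280006827644851396625009956685453056525862301503644038442951047829755900792010203858238506253841159299760046211072) (nat_lit 589681629070580170816153362694496044681819545527736381280006827644851396625009956685453056525862301503644038442951047829755900792010203858238506253841159299760046211072) :=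
  sem_of_chk (M (nat_lit 460) (B (M (nat_lit 459) (B (L (nat_lit 431) ln15_13_1 ln15_13_1_ok) (M (nat_lit 458) (B (L (nat_lit 457) ln9_14_2 ln9_14_2_ok) (L (nat_lit 461) ln10_14_2 ln10_14_2_ok))))) (B c32_n4994 (B (M (nat_lit 431) (B (L (nat_lit 459) ln15_13_1 ln15_13_1_ok) (M (nat_lit 432) (B (L (nat_lit 461) ln16_13_1 ln16_13_1_ok) (M (nat_lit 400) (B (L (nat_lit 399) ln12_13_2 ln12_13_2_ok) (L (nat_lit 401) ln13_13_2 ln13_13_2_ok))))))) (B (M (nat_lit 396) (B (M (nat_lit 431) (B (L (nat_lit 395) ln15_13_3 ln15_13_3_ok) (M (nat_lit 432) (B (L (nat_lit 397) ln16_13_3 ln16_13_3_ok) (L (nat_lit 461) ln16_13_1 ln16_13_1_ok))))) (B (M (nat_lit 364) (B (M (nat_lit 461) (B (L (nat_lit 332) ln12_10_4 ln12_10_4_ok) (L (nat_lit 493) ln12_11_4 ln12_11_4_ok))) (B (M (nat_lit 492) (B (M (nat_lit 365) (B (L (nat_lit 333) ln12_14_6 ln12_14_6_ok) (L (nat_lit 397) ln12_15_6 ln12_15_6_ok))) (M (nat_lit 493) (B (L (nat_lit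 461) ln12_11_4 ln12_11_4_ok) (L (nat_lit 525) ln12_12_4 ln12_12_4_ok))))) (M (nat_lit 332) (B (M (nat_lit 331) (B (L (nat_lit 299) ln12_13_7 ln12_13_7_ok) (L (nat_lit 363) ln12_14_7 ln12_14_7_ok))) (M (nat_lit 333) (B (L (nat_lit 301) ln12_13_6 ln12_13_6_ok) (L (nat_lit 365) ln12_14_6 ln12_14_6_ok)))))))) (B (M (nat_lit 461) (B (M (nat_lit 364) (B (L (nat_lit 332) ln12_10_4 ln12_10_4_ok) (L (nat_lit 493) ln12_11_4 ln12_11_4_ok))) (M (nat_lit 431) (B (L (nat_lit 395) ln15_13_3 ln15_13_3_ok) (L (nat_lit 432) ln16_13_1 ln16_13_1_ok))))) (M (nat_lit 397) (B (M (nat_lit 365) (B (L (nat_lit 333) ln13_10_5 ln13_10_5_ok) (L (nat_lit 492) ln12_15_6 ln12_15_6_ok))) (M (nat_lit 431) (B (L (nat_lit 395) ln15_13_3 ln15_13_3_ok) (L (nat_lit 432) ln16_13_3 ln16_13_3_ok))))))))) (M (nat_lit 431) (B (L (nat_lit 459) ln15_13_1 ln15_13_1_ok) (M (nat_lit 432) (B (M (nat_lit 396) (B (L (nat_lit 395) ln15_13_3 ln15_13_3_ok) (L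 (nat_lit 397) ln16_13_3 ln16_13_3_ok))) (M (nat_lit 464) (B (L (nat_lit 463) ln12_13_0 ln12_13_0_ok) (L (nat_lit 465) ln13_13_0 ln13_13_0_ok)))))))))))) (nat_lit 4852171964711426004262224822250396481013764881907679006548339266075587288659844840319955210682244261670434619182456250700704776192) (nat_lit 589681629070580170816153362694496044681819545527736381280006827644851396625009956685453056525862301503644038442951047829755900792010203858238506253841159299760046211072) (nat_lit 589681629070580170816153362694496044681819545527736381280006827644851396625009956685453056525862301503644038442951047829755900792010203858238506253841159299760046211072) (by decide +kernel)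
theorem c32_s4998 : Sem (nat_lit 2079502270590611144683810638107312777577327806531862431377859685460965980854219217279980804578104683573043408221052678871730618368) (nat_lit 589681629070580170816153362694496044685112090790170585222459869779625257768011639440594413941535486101197053782943400683981724296769488612206441000066361586703057027072) (nat_lit 589681629070580170816153362694496044685112090790170585222459869779625257768011639440594413941535486101197053782943400683981724296769488612206441000066361586703057027072) :=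
  sem_of_chk (M (nat_lit 430) (B (M (nat_lit 427) (B (M (nat_lit 398) (B (L (nat_lit 399) ln11_13_2 ln11_13_2_ok) (M (nat_lit 394) (B (L (nat_lit 395) ln14_13_3 ln14_13_3_ok) (M (nat_lit 426) (B (L (nat_lit 393) ln13_13_3 ln13_13_3_ok) (L (nat_lit 397) ln10_13_2 ln10_13_2_ok))))))) (B (M (nat_lit 431) (B (M (nat_lit 395) (B (L (nat_lit 394) ln14_13_3 ln14_13_3_ok) (L (nat_lit 396) ln15_13_3 ln15_13_3_ok))) (M (nat_lit 459) (B (L (nat_lit 458) ln14_13_1 ln14_13_1_ok) (L (nat_lit 460) ln15_13_1 ln15_13_1_ok))))) (M (nat_lit 426) (B (M (nat_lit 398) (B (L (nat_lit 397) ln10_13_2 ln10_13_2_ok) (L (nat_lit 399) ln11_13_2 ln11_13_2_ok))) (M (nat_lit 458) (B (L (nat_lit 457) ln13_13_1 ln13_13_1_ok) (L (nat_lit 459) ln14_13_1 ln14_13_1_ok)))))))) (B (M (nat_lit 427) (B (M (nat_lit 431) (B (M (nat_lit 395) (B (L (nat_lit 394) ln14_13_3 ln14_13_3_ok) (L (nat_lit 396) ln15_13_3 ln15_13_3_ok))) (M (nat_lit 399) (B (L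 (nat_lit 398) ln11_13_2 ln11_13_2_ok) (L (nat_lit 400) ln12_13_2 ln12_13_2_ok))))) (B (M (nat_lit 431) (B (M (nat_lit 399) (B (L (nat_lit 398) ln11_13_2 ln11_13_2_ok) (L (nat_lit 400) ln12_13_2 ln12_13_2_ok))) (M (nat_lit 459) (B (L (nat_lit 458) ln14_13_1 ln14_13_1_ok) (L (nat_lit 460) ln15_13_1 ln15_13_1_ok))))) (B (M (nat_lit 431) (B (M (nat_lit 395) (B (L (nat_lit 394) ln14_13_3 ln14_13_3_ok) (L (nat_lit 396) ln15_13_3 ln15_13_3_ok))) (M (nat_lit 459) (B (L (nat_lit 458) ln14_13_1 ln14_13_1_ok) (L (nat_lit 460) ln15_13_1 ln15_13_1_ok))))) (M (nat_lit 426) (B (M (nat_lit 398) (B (L (nat_lit 397) ln10_13_2 ln10_13_2_ok) (L (nat_lit 399) ln11_13_2 ln11_13_2_ok))) (M (nat_lit 458) (B (L (nat_lit 457) ln13_13_1 ln13_13_1_ok) (L (nat_lit 459) ln14_13_1 ln14_13_1_ok))))))))) (B (M (nat_lit 431) (B (M (nat_lit 432) (B (M (nat_lit 396) (B (L (nat_lit 395) ln15_13_3 ln15_13_3_ok) (L (nat_lit 397) ln16_13_3 ln16_13_3_ok)))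 (M (nat_lit 464) (B (L (nat_lit 463) ln12_13_0 ln12_13_0_ok) (L (nat_lit 465) ln13_13_0 ln13_13_0_ok))))) (M (nat_lit 427) (B (M (nat_lit 399) (B (L (nat_lit 398) ln11_13_2 ln11_13_2_ok) (L (nat_lit 400) ln12_13_2 ln12_13_2_ok))) (M (nat_lit 459) (B (L (nat_lit 458) ln14_13_1 ln14_13_1_ok) (L (nat_lit 460) ln15_13_1 ln15_13_1_ok))))))) (B (M (nat_lit 431) (B (M (nat_lit 432) (B (M (nat_lit 460) (B (L (nat_lit 459) ln15_13_1 ln15_13_1_ok) (L (nat_lit 461) ln16_13_1 ln16_13_1_ok))) (M (nat_lit 464) (B (L (nat_lit 463) ln12_13_0 ln12_13_0_ok) (L (nat_lit 465) ln13_13_0 ln13_13_0_ok))))) (B (M (nat_lit 427) (B (M (nat_lit 399) (B (L (nat_lit 398) ln11_13_2 ln11_13_2_ok) (L (nat_lit 400) ln12_13_2 ln12_13_2_ok))) (M (nat_lit 459) (B (L (nat_lit 458) ln14_13_1 ln14_13_1_ok) (L (nat_lit 460) ln15_13_1 ln15_13_1_ok))))) (M (nat_lit 432) (B (M (nat_lit 400) (B (L (nat_lit 399) ln12_13_2 ln12_13_2_ok) (L (nat_lit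 401) ln13_13_2 ln13_13_2_ok))) (M (nat_lit 464) (B (L (nat_lit 463) ln12_13_0 ln12_13_0_ok) (L (nat_lit 465) ln13_13_0 ln13_13_0_ok)))))))) (B (M (nat_lit 431) (B (M (nat_lit 427) (B (M (nat_lit 395) (B (L (nat_lit 394) ln14_13_3 ln14_13_3_ok) (L (nat_lit 396) ln15_13_3 ln15_13_3_ok))) (M (nat_lit 459) (B (L (nat_lit 458) ln14_13_1 ln14_13_1_ok) (L (nat_lit 460) ln15_13_1 ln15_13_1_ok))))) (M (nat_lit 432) (B (M (nat_lit 400) (B (L (nat_lit 399) ln12_13_2 ln12_13_2_ok) (L (nat_lit 401) ln13_13_2 ln13_13_2_ok))) (M (nat_lit 464) (B (L (nat_lit 463) ln12_13_0 ln12_13_0_ok) (L (nat_lit 465) ln13_13_0 ln13_13_0_ok))))))) (B (M (nat_lit 431) (B (M (nat_lit 432) (B (M (nat_lit 460) (B (L (nat_lit 459) ln15_13_1 ln15_13_1_ok) (L (nat_lit 461) ln16_13_1 ln16_13_1_ok))) (M (nat_lit 464) (B (L (nat_lit 463) ln12_13_0 ln12_13_0_ok) (L (nat_lit 465) ln13_13_0 ln13_13_0_ok))))) (B (M (nat_lit 427) (B (M (nat_lit 395)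 (B (L (nat_lit 394) ln14_13_3 ln14_13_3_ok) (L (nat_lit 396) ln15_13_3 ln15_13_3_ok))) (M (nat_lit 459) (B (L (nat_lit 458) ln14_13_1 ln14_13_1_ok) (L (nat_lit 460) ln15_13_1 ln15_13_1_ok))))) (M (nat_lit 432) (B (M (nat_lit 396) (B (L (nat_lit 395) ln15_13_3 ln15_13_3_ok) (L (nat_lit 397) ln16_13_3 ln16_13_3_ok))) (M (nat_lit 464) (B (L (nat_lit 463) ln12_13_0 ln12_13_0_ok) (L (nat_lit 465) ln13_13_0 ln13_13_0_ok)))))))) (B (K (nat_lit 4852171964711426004262224822250396481013764881907679006548339266075587288659844840319955210682244261670434619182456250700704776192) (nat_lit 589681629070580170816153362694496044681819545527736381280006827644851396625009956685453056525862301503644038442951047829755900792010203858238506253841159299760046211072) (nat_lit 589681629070580170816153362694496044681819545527736381280006827644851396625009956685453056525862301503644038442951047829755900792010203858238506253841159299760046211072)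 c32_s4996) (B (M (nat_lit 427) (B (M (nat_lit 398) (B (L (nat_lit 399) ln11_13_2 ln11_13_2_ok) (M (nat_lit 394) (B (L (nat_lit 395) ln14_13_3 ln14_13_3_ok) (M (nat_lit 426) (B (L (nat_lit 393) ln13_13_3 ln13_13_3_ok) (L (nat_lit 397) ln10_13_2 ln10_13_2_ok))))))) (B (M (nat_lit 426) (B (M (nat_lit 398) (B (L (nat_lit 397) ln10_13_2 ln10_13_2_ok) (L (nat_lit 399) ln11_13_2 ln11_13_2_ok))) (M (nat_lit 458) (B (L (nat_lit 457) ln13_13_1 ln13_13_1_ok) (L (nat_lit 459) ln14_13_1 ln14_13_1_ok))))) (B (M (nat_lit 426) (B (M (nat_lit 394) (B (L (nat_lit 393) ln13_13_3 ln13_13_3_ok) (L (nat_lit 395) ln14_13_3 ln14_13_3_ok))) (M (nat_lit 458) (B (L (nat_lit 457) ln13_13_1 ln13_13_1_ok) (L (nat_lit 459) ln14_13_1 ln14_13_1_ok))))) (M (nat_lit 459) (B (L (nat_lit 458) ln14_13_1 ln14_13_1_ok) (M (nat_lit 395) (B (L (nat_lit 394) ln14_13_3 ln14_13_3_ok) (M (nat_lit 363) (B (M (nat_lit 460) (B (L (nat_lit 331) ln11_10_4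 ln11_10_4_ok) (L (nat_lit 492) ln11_11_4 ln11_11_4_ok))) (B (M (nat_lit 491) (B (M (nat_lit 364) (B (L (nat_lit 332) ln11_14_6 ln11_14_6_ok) (L (nat_lit 396) ln11_15_6 ln11_15_6_ok))) (M (nat_lit 492) (B (L (nat_lit 460) ln11_11_4 ln11_11_4_ok) (L (nat_lit 524) ln11_12_4 ln11_12_4_ok))))) (M (nat_lit 331) (B (M (nat_lit 330) (B (L (nat_lit 298) ln11_13_7 ln11_13_7_ok) (L (nat_lit 362) ln11_14_7 ln11_14_7_ok))) (M (nat_lit 332) (B (L (nat_lit 300) ln11_13_6 ln11_13_6_ok) (L (nat_lit 364) ln11_14_6 ln11_14_6_ok)))))))))))))))) (M (nat_lit 431) (B (M (nat_lit 432) (B (M (nat_lit 400) (B (L (nat_lit 399) ln12_13_2 ln12_13_2_ok) (L (nat_lit 401) ln13_13_2 ln13_13_2_ok))) (M (nat_lit 464) (B (L (nat_lit 463) ln12_13_0 ln12_13_0_ok) (L (nat_lit 465) ln13_13_0 ln13_13_0_ok))))) (B (M (nat_lit 432) (B (M (nat_lit 396) (B (L (nat_lit 395) ln15_13_3 ln15_13_3_ok) (L (nat_lit 397) ln16_13_3 ln16_13_3_ok))) (M (nat_lit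 464) (B (L (nat_lit 463) ln12_13_0 ln12_13_0_ok) (L (nat_lit 465) ln13_13_0 ln13_13_0_ok))))) (M (nat_lit 427) (B (M (nat_lit 395) (B (L (nat_lit 394) ln14_13_3 ln14_13_3_ok) (L (nat_lit 396) ln15_13_3 ln15_13_3_ok))) (M (nat_lit 399) (B (L (nat_lit 398) ln11_13_2 ln11_13_2_ok) (L (nat_lit 400) ln12_13_2 ln12_13_2_ok))))))))))))))))) (nat_lit 2079502270590611144683810638107312777577327806531862431377859685460965980854219217279980804578104683573043408221052678871730618368) (nat_lit 589681629070580170816153362694496044685112090790170585222459869779625257768011639440594413941535486101197053782943400683981724296769488612206441000066361586703057027072) (nat_lit 589681629070580170816153362694496044685112090790170585222459869779625257768011639440594413941535486101197053782943400683981724296769488612206441000066361586703057027072) (by decide +kernel)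
noncomputable def c32_n5035 : Cert := (M (nat_lit 427) (B (M (nat_lit 426) (B (M (nat_lit 398) (B (L (nat_lit 397) ln10_13_2 ln10_13_2_ok) (L (nat_lit 399) ln11_13_2 ln11_13_2_ok))) (M (nat_lit 458) (B (L (nat_lit 457) ln13_13_1 ln13_13_1_ok) (L (nat_lit 459) ln14_13_1 ln14_13_1_ok))))) (B (M (nat_lit 431) (B (M (nat_lit 399) (B (L (nat_lit 398) ln11_13_2 ln11_13_2_ok) (L (nat_lit 400) ln12_13_2 ln12_13_2_ok))) (M (nat_lit 459) (B (L (nat_lit 458) ln14_13_1 ln14_13_1_ok) (L (nat_lit 460) ln15_13_1 ln15_13_1_ok))))) (B (M (nat_lit 396) (B (M (nat_lit 459) (B (L (nat_lit 458) ln14_13_1 ln14_13_1_ok) (M (nat_lit 460) (B (L (nat_lit 431) ln15_13_1 ln15_13_1_ok) (M (nat_lit 364) (B (L (nat_lit 332) ln12_10_5 ln12_10_5_ok) (L (nat_lit 491) ln12_11_5 ln12_11_5_ok))))))) (B (M (nat_lit 461) (B (M (nat_lit 426) (B (L (nat_lit 462) ln10_13_0 ln10_13_0_ok) (M (nat_lit 458) (B (L (nat_lit 457) ln13_13_1 ln13_13_1_ok)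 (L (nat_lit 459) ln14_13_1 ln14_13_1_ok))))) (M (nat_lit 493) (B (L (nat_lit 525) ln13_16_7 ln13_16_7_ok) (M (nat_lit 364) (B (L (nat_lit 397) ln13_15_7 ln13_15_7_ok) (L (nat_lit 460) ln12_11_4 ln12_11_4_ok))))))) (B (M (nat_lit 431) (B (M (nat_lit 459) (B (L (nat_lit 458) ln14_13_1 ln14_13_1_ok) (L (nat_lit 460) ln15_13_1 ln15_13_1_ok))) (M (nat_lit 432) (B (L (nat_lit 397) ln16_13_3 ln16_13_3_ok) (M (nat_lit 400) (B (L (nat_lit 399) ln12_13_2 ln12_13_2_ok) (L (nat_lit 401) ln13_13_2 ln13_13_2_ok))))))) (B (M (nat_lit 461) (B (M (nat_lit 364) (B (L (nat_lit 332) ln12_10_4 ln12_10_4_ok) (M (nat_lit 493) (B (L (nat_lit 460) ln12_11_4 ln12_11_4_ok) (L (nat_lit 525) ln13_16_7 ln13_16_7_ok))))) (B (M (nat_lit 493) (B (L (nat_lit 525) ln13_16_7 ln13_16_7_ok) (M (nat_lit 364) (B (L (nat_lit 397) ln13_15_7 ln13_15_7_ok) (L (nat_lit 460) ln12_11_4 ln12_11_4_ok))))) (B (M (nat_lit 426) (B (L (nat_lit 462) ln10_13_0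 ln10_13_0_ok) (M (nat_lit 425) (B (L (nat_lit 397) ln9_13_2 ln9_13_2_ok) (L (nat_lit 460) ln9_13_0 ln9_13_0_ok))))) (M (nat_lit 493) (B (L (nat_lit 525) ln13_16_7 ln13_16_7_ok) (M (nat_lit 364) (B (L (nat_lit 332) ln12_10_4 ln12_10_4_ok) (L (nat_lit 397) ln13_15_7 ln13_15_7_ok))))))))) (M (nat_lit 461) (B (M (nat_lit 493) (B (L (nat_lit 525) ln13_16_7 ln13_16_7_ok) (M (nat_lit 364) (B (L (nat_lit 332) ln12_10_4 ln12_10_4_ok) (L (nat_lit 397) ln13_15_7 ln13_15_7_ok))))) (M (nat_lit 426) (B (L (nat_lit 462) ln10_13_0 ln10_13_0_ok) (M (nat_lit 458) (B (L (nat_lit 457) ln13_13_1 ln13_13_1_ok) (L (nat_lit 459) ln14_13_1 ln14_13_1_ok)))))))))))) (B (M (nat_lit 397) (B (M (nat_lit 426) (B (L (nat_lit 398) ln10_13_2 ln10_13_2_ok) (M (nat_lit 458) (B (L (nat_lit 457) ln13_13_1 ln13_13_1_ok) (L (nat_lit 459) ln14_13_1 ln14_13_1_ok))))) (B (M (nat_lit 460) (B (M (nat_lit 459) (B (L (nat_lit 458) ln14_13_1 ln14_13_1_ok)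 (L (nat_lit 431) ln15_13_1 ln15_13_1_ok))) (M (nat_lit 365) (B (L (nat_lit 333) ln13_10_5 ln13_10_5_ok) (M (nat_lit 492) (B (L (nat_lit 461) ln13_11_5 ln13_11_5_ok) (L (nat_lit 524) ln12_16_6 ln12_16_6_ok))))))) (M (nat_lit 460) (B (M (nat_lit 365) (B (L (nat_lit 333) ln13_10_5 ln13_10_5_ok) (M (nat_lit 492) (B (L (nat_lit 461) ln13_11_5 ln13_11_5_ok) (L (nat_lit 524) ln12_16_6 ln12_16_6_ok))))) (B (M (nat_lit 492) (B (L (nat_lit 524) ln12_16_6 ln12_16_6_ok) (M (nat_lit 365) (B (L (nat_lit 396) ln12_15_6 ln12_15_6_ok) (L (nat_lit 461) ln13_11_5 ln13_11_5_ok))))) (B (M (nat_lit 426) (B (L (nat_lit 398) ln10_13_2 ln10_13_2_ok) (M (nat_lit 425) (B (L (nat_lit 396) ln9_13_2 ln9_13_2_ok) (L (nat_lit 461) ln9_13_0 ln9_13_0_ok))))) (M (nat_lit 365) (B (L (nat_lit 333) ln13_10_5 ln13_10_5_ok) (M (nat_lit 492) (B (L (nat_lit 396) ln12_15_6 ln12_15_6_ok) (L (nat_lit 524) ln12_16_6 ln12_16_6_ok)))))))))))) (B (M (nat_lit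 461) (B (M (nat_lit 398) (B (L (nat_lit 399) ln11_13_2 ln11_13_2_ok) (M (nat_lit 426) (B (L (nat_lit 397) ln10_13_2 ln10_13_2_ok) (L (nat_lit 462) ln10_13_0 ln10_13_0_ok))))) (B (M (nat_lit 431) (B (M (nat_lit 399) (B (L (nat_lit 398) ln11_13_2 ln11_13_2_ok) (L (nat_lit 400) ln12_13_2 ln12_13_2_ok))) (M (nat_lit 460) (B (L (nat_lit 459) ln15_13_1 ln15_13_1_ok) (L (nat_lit 432) ln16_13_1 ln16_13_1_ok))))) (M (nat_lit 460) (B (M (nat_lit 426) (B (L (nat_lit 425) ln9_13_0 ln9_13_0_ok) (L (nat_lit 462) ln10_13_0 ln10_13_0_ok))) (M (nat_lit 431) (B (L (nat_lit 459) ln15_13_1 ln15_13_1_ok) (L (nat_lit 432) ln16_13_1 ln16_13_1_ok)))))))) (M (nat_lit 398) (B (L (nat_lit 399) ln11_13_2 ln11_13_2_ok) (M (nat_lit 426) (B (L (nat_lit 397) ln10_13_2 ln10_13_2_ok) (M (nat_lit 425) (B (M (nat_lit 393) (B (L (nat_lit 392) ln12_13_3 ln12_13_3_ok) (L (nat_lit 394) ln13_13_3 ln13_13_3_ok))) (M (nat_lit 461) (B (L (nat_lit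 460) ln9_13_0 ln9_13_0_ok) (L (nat_lit 462) ln10_13_0 ln10_13_0_ok)))))))))))))))
theorem c32_s5110 : Sem (nat_lit 4852171964711426004262224822250396481013764881907679006548339266075587288659844840319955210682244261670434619182456250700704776192) (nat_lit 164755143881494679369293441614201460720805198770383355991825874577569270140824500821989179448644629248638698679541640361637073951154464680998220652557409189888) (nat_lit 164755143881494679369293441614201460720805198770383355991825874577569270140824500821989179448644629248638698679541640361637073951154464680998220652557409189888) :=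
  sem_of_chk (M (nat_lit 427) (B (M (nat_lit 431) (B (M (nat_lit 395) (B (L (nat_lit 394) ln14_13_3 ln14_13_3_ok) (L (nat_lit 396) ln15_13_3 ln15_13_3_ok))) (M (nat_lit 459) (B (L (nat_lit 458) ln14_13_1 ln14_13_1_ok) (L (nat_lit 460) ln15_13_1 ln15_13_1_ok))))) (B (M (nat_lit 461) (B (M (nat_lit 426) (B (L (nat_lit 462) ln10_13_0 ln10_13_0_ok) (M (nat_lit 458) (B (L (nat_lit 457) ln13_13_1 ln13_13_1_ok) (L (nat_lit 459) ln14_13_1 ln14_13_1_ok))))) (B (M (nat_lit 396) (B (M (nat_lit 364) (B (L (nat_lit 332) ln12_10_4 ln12_10_4_ok) (M (nat_lit 493) (B (L (nat_lit 460) ln12_11_4 ln12_11_4_ok) (L (nat_lit 525) ln13_16_7 ln13_16_7_ok))))) (B (M (nat_lit 493) (B (L (nat_lit 525) ln13_16_7 ln13_16_7_ok) (M (nat_lit 364) (B (L (nat_lit 397) ln13_15_7 ln13_15_7_ok) (L (nat_lit 460) ln12_11_4 ln12_11_4_ok))))) (B (M (nat_lit 431) (B (L (nat_lit 395) ln15_13_3 ln15_13_3_ok) (M (nat_lit 459) (B (L (nat_lit 458) ln14_13_1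 ln14_13_1_ok) (L (nat_lit 460) ln15_13_1 ln15_13_1_ok))))) (M (nat_lit 493) (B (L (nat_lit 525) ln13_16_7 ln13_16_7_ok) (M (nat_lit 364) (B (L (nat_lit 332) ln12_10_4 ln12_10_4_ok) (L (nat_lit 397) ln13_15_7 ln13_15_7_ok))))))))) (M (nat_lit 426) (B (L (nat_lit 462) ln10_13_0 ln10_13_0_ok) (M (nat_lit 397) (B (L (nat_lit 398) ln10_13_2 ln10_13_2_ok) (M (nat_lit 425) (B (L (nat_lit 396) ln9_13_2 ln9_13_2_ok) (L (nat_lit 460) ln9_13_0 ln9_13_0_ok)))))))))) (B (M (nat_lit 397) (B (M (nat_lit 426) (B (L (nat_lit 398) ln10_13_2 ln10_13_2_ok) (M (nat_lit 458) (B (L (nat_lit 457) ln13_13_1 ln13_13_1_ok) (L (nat_lit 459) ln14_13_1 ln14_13_1_ok))))) (B (M (nat_lit 460) (B (M (nat_lit 459) (B (L (nat_lit 458) ln14_13_1 ln14_13_1_ok) (L (nat_lit 431) ln15_13_1 ln15_13_1_ok))) (M (nat_lit 365) (B (L (nat_lit 333) ln13_10_5 ln13_10_5_ok) (M (nat_lit 492) (B (L (nat_lit 461) ln13_11_5 ln13_11_5_ok) (L (nat_lit 524) ln12_16_6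 ln12_16_6_ok))))))) (M (nat_lit 460) (B (M (nat_lit 365) (B (L (nat_lit 333) ln13_10_5 ln13_10_5_ok) (M (nat_lit 492) (B (L (nat_lit 461) ln13_11_5 ln13_11_5_ok) (L (nat_lit 524) ln12_16_6 ln12_16_6_ok))))) (B (M (nat_lit 492) (B (L (nat_lit 524) ln12_16_6 ln12_16_6_ok) (M (nat_lit 365) (B (L (nat_lit 396) ln12_15_6 ln12_15_6_ok) (L (nat_lit 461) ln13_11_5 ln13_11_5_ok))))) (B (M (nat_lit 426) (B (L (nat_lit 398) ln10_13_2 ln10_13_2_ok) (M (nat_lit 425) (B (L (nat_lit 396) ln9_13_2 ln9_13_2_ok) (L (nat_lit 461) ln9_13_0 ln9_13_0_ok))))) (M (nat_lit 365) (B (L (nat_lit 333) ln13_10_5 ln13_10_5_ok) (M (nat_lit 492) (B (L (nat_lit 396) ln12_15_6 ln12_15_6_ok) (L (nat_lit 524) ln12_16_6 ln12_16_6_ok)))))))))))) (B (M (nat_lit 395) (B (L (nat_lit 394) ln14_13_3 ln14_13_3_ok) (M (nat_lit 459) (B (L (nat_lit 458) ln14_13_1 ln14_13_1_ok) (M (nat_lit 460) (B (L (nat_lit 431) ln15_13_1 ln15_13_1_ok) (M (nat_lit 363)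 (B (L (nat_lit 331) ln11_10_4 ln11_10_4_ok) (L (nat_lit 492) ln11_11_4 ln11_11_4_ok))))))))) (B (M (nat_lit 395) (B (L (nat_lit 394) ln14_13_3 ln14_13_3_ok) (M (nat_lit 460) (B (M (nat_lit 492) (B (L (nat_lit 524) ln12_16_7 ln12_16_7_ok) (M (nat_lit 363) (B (L (nat_lit 331) ln11_10_4 ln11_10_4_ok) (L (nat_lit 396) ln12_15_7 ln12_15_7_ok))))) (B (M (nat_lit 459) (B (L (nat_lit 458) ln14_13_1 ln14_13_1_ok) (M (nat_lit 492) (B (L (nat_lit 363) ln11_11_4 ln11_11_4_ok) (L (nat_lit 524) ln12_16_7 ln12_16_7_ok))))) (M (nat_lit 426) (B (M (nat_lit 458) (B (L (nat_lit 457) ln13_13_1 ln13_13_1_ok) (L (nat_lit 459) ln14_13_1 ln14_13_1_ok))) (M (nat_lit 461) (B (L (nat_lit 425) ln9_13_0 ln9_13_0_ok) (L (nat_lit 462) ln10_13_0 ln10_13_0_ok)))))))))) (B (M (nat_lit 395) (B (L (nat_lit 394) ln14_13_3 ln14_13_3_ok) (M (nat_lit 460) (B (M (nat_lit 431) (B (L (nat_lit 396) ln15_13_3 ln15_13_3_ok) (L (nat_lit 459) ln15_13_1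 ln15_13_1_ok))) (B (M (nat_lit 459) (B (L (nat_lit 431) ln15_13_1 ln15_13_1_ok) (M (nat_lit 363) (B (L (nat_lit 331) ln11_10_4 ln11_10_4_ok) (L (nat_lit 492) ln11_11_4 ln11_11_4_ok))))) (B (M (nat_lit 492) (B (L (nat_lit 524) ln12_16_7 ln12_16_7_ok) (M (nat_lit 363) (B (L (nat_lit 331) ln11_10_4 ln11_10_4_ok) (L (nat_lit 459) ln11_11_4 ln11_11_4_ok))))) (M (nat_lit 396) (B (L (nat_lit 431) ln15_13_3 ln15_13_3_ok) (M (nat_lit 363) (B (L (nat_lit 331) ln11_10_4 ln11_10_4_ok) (L (nat_lit 492) ln12_15_7 ln12_15_7_ok))))))))))) (B (M (nat_lit 461) (B (M (nat_lit 426) (B (L (nat_lit 462) ln10_13_0 ln10_13_0_ok) (M (nat_lit 397) (B (L (nat_lit 398) ln10_13_2 ln10_13_2_ok) (M (nat_lit 425) (B (L (nat_lit 396) ln9_13_2 ln9_13_2_ok) (L (nat_lit 460) ln9_13_0 ln9_13_0_ok))))))) (B (M (nat_lit 398) (B (M (nat_lit 426) (B (L (nat_lit 397) ln10_13_2 ln10_13_2_ok) (L (nat_lit 462) ln10_13_0 ln10_13_0_ok))) (B (M (nat_lit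 493) (B (L (nat_lit 525) ln13_16_6 ln13_16_6_ok) (M (nat_lit 366) (B (L (nat_lit 334) ln14_10_5 ln14_10_5_ok) (L (nat_lit 462) ln14_11_5 ln14_11_5_ok))))) (M (nat_lit 397) (B (L (nat_lit 426) ln10_13_2 ln10_13_2_ok) (M (nat_lit 366) (B (L (nat_lit 334) ln14_10_5 ln14_10_5_ok) (L (nat_lit 493) ln13_15_6 ln13_15_6_ok)))))))) (B (M (nat_lit 460) (B (M (nat_lit 426) (B (L (nat_lit 425) ln9_13_0 ln9_13_0_ok) (L (nat_lit 462) ln10_13_0 ln10_13_0_ok))) (M (nat_lit 396) (B (M (nat_lit 364) (B (L (nat_lit 332) ln12_10_4 ln12_10_4_ok) (L (nat_lit 493) ln12_11_4 ln12_11_4_ok))) (M (nat_lit 395) (B (L (nat_lit 394) ln14_13_3 ln14_13_3_ok) (L (nat_lit 431) ln15_13_3 ln15_13_3_ok))))))) (M (nat_lit 396) (B (M (nat_lit 395) (B (L (nat_lit 394) ln14_13_3 ln14_13_3_ok) (L (nat_lit 431) ln15_13_3 ln15_13_3_ok))) (M (nat_lit 493) (B (L (nat_lit 525) ln13_16_7 ln13_16_7_ok) (M (nat_lit 364) (B (L (nat_lit 332) ln12_10_4 ln12_10_4_ok)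 (L (nat_lit 397) ln13_15_7 ln13_15_7_ok))))))))))) (M (nat_lit 396) (B (M (nat_lit 395) (B (L (nat_lit 394) ln14_13_3 ln14_13_3_ok) (L (nat_lit 431) ln15_13_3 ln15_13_3_ok))) (M (nat_lit 426) (B (M (nat_lit 397) (B (L (nat_lit 425) ln9_13_2 ln9_13_2_ok) (L (nat_lit 398) ln10_13_2 ln10_13_2_ok))) (M (nat_lit 458) (B (L (nat_lit 457) ln13_13_1 ln13_13_1_ok) (L (nat_lit 459) ln14_13_1 ln14_13_1_ok))))))))))))))) (nat_lit 4852171964711426004262224822250396481013764881907679006548339266075587288659844840319955210682244261670434619182456250700704776192) (nat_lit 164755143881494679369293441614201460720805198770383355991825874577569270140824500821989179448644629248638698679541640361637073951154464680998220652557409189888) (nat_lit 164755143881494679369293441614201460720805198770383355991825874577569270140824500821989179448644629248638698679541640361637073951154464680998220652557409189888) (by decide +kernel)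
theorem c32_s5115 : Sem (nat_lit 4852171964711426004262224822250396481013764881907679006548339266075587288659844840319955210682244261670434619182456250700704776192) (nat_lit 589681629070580170816153362527776685457790419401094683521887899572950555875995689290325960598603984153345276382082649381235669177944739702279595424158726516594930876416) (nat_lit 589681629070580170816153362527776685457790419401094683521887899572950555875995689290325960598603984153345276382082649381235669177944739702279595424158726516594930876416) :=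
  sem_of_chk (M (nat_lit 460) (B (M (nat_lit 459) (B (L (nat_lit 431) ln15_13_1 ln15_13_1_ok) (M (nat_lit 458) (B (L (nat_lit 457) ln9_14_2 ln9_14_2_ok) (L (nat_lit 461) ln10_14_2 ln10_14_2_ok))))) (B (M (nat_lit 396) (B (M (nat_lit 364) (B (M (nat_lit 461) (B (L (nat_lit 332) ln12_10_4 ln12_10_4_ok) (L (nat_lit 493) ln12_11_4 ln12_11_4_ok))) (M (nat_lit 492) (B (M (nat_lit 365) (B (L (nat_lit 333) ln12_14_6 ln12_14_6_ok) (L (nat_lit 397) ln12_15_6 ln12_15_6_ok))) (M (nat_lit 491) (B (L (nat_lit 459) ln12_11_5 ln12_11_5_ok) (L (nat_lit 523) ln12_12_5 ln12_12_5_ok))))))) (B (M (nat_lit 364) (B (M (nat_lit 461) (B (L (nat_lit 493) ln12_11_4 ln12_11_4_ok) (M (nat_lit 459) (B (L (nat_lit 491) ln12_11_5 ln12_11_5_ok) (L (nat_lit 458) ln10_14_2 ln10_14_2_ok))))) (B (M (nat_lit 492) (B (M (nat_lit 363) (B (L (nat_lit 331) ln12_14_7 ln12_14_7_ok) (L (nat_lit 395) ln12_15_7 ln12_15_7_ok))) (M (nat_lit 493) (B (L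 (nat_lit 461) ln12_11_4 ln12_11_4_ok) (L (nat_lit 525) ln12_12_4 ln12_12_4_ok))))) (M (nat_lit 492) (B (M (nat_lit 363) (B (L (nat_lit 331) ln12_14_7 ln12_14_7_ok) (L (nat_lit 395) ln12_15_7 ln12_15_7_ok))) (M (nat_lit 491) (B (L (nat_lit 459) ln12_11_5 ln12_11_5_ok) (L (nat_lit 523) ln12_12_5 ln12_12_5_ok)))))))) (B (M (nat_lit 492) (B (M (nat_lit 397) (B (L (nat_lit 365) ln12_15_6 ln12_15_6_ok) (L (nat_lit 524) ln12_16_6 ln12_16_6_ok))) (B (M (nat_lit 397) (B (L (nat_lit 524) ln12_16_6 ln12_16_6_ok) (M (nat_lit 395) (B (L (nat_lit 363) ln12_15_7 ln12_15_7_ok) (L (nat_lit 394) ln10_12_0 ln10_12_0_ok))))) (B (M (nat_lit 524) (B (M (nat_lit 523) (B (L (nat_lit 491) ln12_12_5 ln12_12_5_ok) (L (nat_lit 555) ln12_13_5 ln12_13_5_ok))) (M (nat_lit 525) (B (L (nat_lit 493) ln12_12_4 ln12_12_4_ok) (L (nat_lit 557) ln12_13_4 ln12_13_4_ok))))) (M (nat_lit 397) (B (L (nat_lit 365) ln12_15_6 ln12_15_6_ok) (M (nat_lit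 395) (B (L (nat_lit 363) ln12_15_7 ln12_15_7_ok) (L (nat_lit 394) ln10_12_0 ln10_12_0_ok))))))))) (B (M (nat_lit 364) (B (M (nat_lit 461) (B (L (nat_lit 332) ln12_10_4 ln12_10_4_ok) (L (nat_lit 493) ln12_11_4 ln12_11_4_ok))) (M (nat_lit 492) (B (M (nat_lit 363) (B (L (nat_lit 331) ln12_14_7 ln12_14_7_ok) (L (nat_lit 395) ln12_15_7 ln12_15_7_ok))) (M (nat_lit 365) (B (L (nat_lit 333) ln12_14_6 ln12_14_6_ok) (L (nat_lit 397) ln12_15_6 ln12_15_6_ok))))))) (B (M (nat_lit 364) (B (M (nat_lit 461) (B (L (nat_lit 332) ln12_10_4 ln12_10_4_ok) (L (nat_lit 493) ln12_11_4 ln12_11_4_ok))) (B (M (nat_lit 461) (B (L (nat_lit 493) ln12_11_4 ln12_11_4_ok) (M (nat_lit 459) (B (L (nat_lit 491) ln12_11_5 ln12_11_5_ok) (L (nat_lit 458) ln10_14_2 ln10_14_2_ok))))) (M (nat_lit 332) (B (M (nat_lit 331) (B (L (nat_lit 299) ln12_13_7 ln12_13_7_ok) (L (nat_lit 363) ln12_14_7 ln12_14_7_ok))) (M (nat_lit 333) (B (L (nat_lit 301) ln12_13_6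 ln12_13_6_ok) (L (nat_lit 365) ln12_14_6 ln12_14_6_ok)))))))) (M (nat_lit 364) (B (M (nat_lit 461) (B (L (nat_lit 332) ln12_10_4 ln12_10_4_ok) (M (nat_lit 459) (B (L (nat_lit 491) ln12_11_5 ln12_11_5_ok) (L (nat_lit 458) ln10_14_2 ln10_14_2_ok))))) (B (M (nat_lit 492) (B (M (nat_lit 363) (B (L (nat_lit 331) ln12_14_7 ln12_14_7_ok) (L (nat_lit 395) ln12_15_7 ln12_15_7_ok))) (M (nat_lit 491) (B (L (nat_lit 459) ln12_11_5 ln12_11_5_ok) (L (nat_lit 523) ln12_12_5 ln12_12_5_ok))))) (M (nat_lit 333) (B (L (nat_lit 365) ln12_14_6 ln12_14_6_ok) (M (nat_lit 332) (B (L (nat_lit 301) ln12_13_6 ln12_13_6_ok) (L (nat_lit 461) ln12_10_4 ln12_10_4_ok)))))))))))))) (B (M (nat_lit 431) (B (L (nat_lit 459) ln15_13_1 ln15_13_1_ok) (M (nat_lit 432) (B (L (nat_lit 461) ln16_13_1 ln16_13_1_ok) (M (nat_lit 400) (B (L (nat_lit 399) ln12_13_2 ln12_13_2_ok) (L (nat_lit 401) ln13_13_2 ln13_13_2_ok))))))) (B (M (nat_lit 396) (B (M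 (nat_lit 431) (B (L (nat_lit 395) ln15_13_3 ln15_13_3_ok) (M (nat_lit 432) (B (L (nat_lit 397) ln16_13_3 ln16_13_3_ok) (L (nat_lit 461) ln16_13_1 ln16_13_1_ok))))) (B (M (nat_lit 364) (B (M (nat_lit 461) (B (L (nat_lit 332) ln12_10_4 ln12_10_4_ok) (L (nat_lit 493) ln12_11_4 ln12_11_4_ok))) (B (M (nat_lit 492) (B (M (nat_lit 365) (B (L (nat_lit 333) ln12_14_6 ln12_14_6_ok) (L (nat_lit 397) ln12_15_6 ln12_15_6_ok))) (M (nat_lit 493) (B (L (nat_lit 461) ln12_11_4 ln12_11_4_ok) (L (nat_lit 525) ln12_12_4 ln12_12_4_ok))))) (M (nat_lit 332) (B (M (nat_lit 331) (B (L (nat_lit 299) ln12_13_7 ln12_13_7_ok) (L (nat_lit 363) ln12_14_7 ln12_14_7_ok))) (M (nat_lit 333) (B (L (nat_lit 301) ln12_13_6 ln12_13_6_ok) (L (nat_lit 365) ln12_14_6 ln12_14_6_ok)))))))) (B (M (nat_lit 461) (B (M (nat_lit 364) (B (L (nat_lit 332) ln12_10_4 ln12_10_4_ok) (L (nat_lit 493) ln12_11_4 ln12_11_4_ok))) (M (nat_lit 431) (B (L (nat_lit 395)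 ln15_13_3 ln15_13_3_ok) (L (nat_lit 432) ln16_13_1 ln16_13_1_ok))))) (M (nat_lit 397) (B (M (nat_lit 365) (B (L (nat_lit 333) ln13_10_5 ln13_10_5_ok) (L (nat_lit 492) ln12_15_6 ln12_15_6_ok))) (M (nat_lit 431) (B (L (nat_lit 395) ln15_13_3 ln15_13_3_ok) (L (nat_lit 432) ln16_13_3 ln16_13_3_ok))))))))) (M (nat_lit 431) (B (L (nat_lit 459) ln15_13_1 ln15_13_1_ok) (M (nat_lit 432) (B (M (nat_lit 396) (B (L (nat_lit 395) ln15_13_3 ln15_13_3_ok) (L (nat_lit 397) ln16_13_3 ln16_13_3_ok))) (M (nat_lit 400) (B (L (nat_lit 399) ln12_13_2 ln12_13_2_ok) (L (nat_lit 401) ln13_13_2 ln13_13_2_ok)))))))))))) (nat_lit 4852171964711426004262224822250396481013764881907679006548339266075587288659844840319955210682244261670434619182456250700704776192) (nat_lit 589681629070580170816153362527776685457790419401094683521887899572950555875995689290325960598603984153345276382082649381235669177944739702279595424158726516594930876416)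 (nat_lit 589681629070580170816153362527776685457790419401094683521887899572950555875995689290325960598603984153345276382082649381235669177944739702279595424158726516594930876416) (by decide +kernel)
theorem c32_s5133 : Sem (nat_lit 2079502270590611144683810638107312777577327806531862431377859685460965980854219217279980804578104683573043408221052678871730618368) (nat_lit 589681629070580170816153362539685211120028833886240371110876417153839813210677871517843325724266005113565188159451287137010171134268728212590255994061751482832750903296) (nat_lit 589681629070580170816153362539685211120028833886240371110876417153839813210677871517843325724266005113565188159451287137010171134268728212590255994061751482832750903296) :=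
  sem_of_chk (M (nat_lit 430) (B (M (nat_lit 427) (B (M (nat_lit 398) (B (L (nat_lit 399) ln11_13_2 ln11_13_2_ok) (M (nat_lit 394) (B (L (nat_lit 395) ln14_13_3 ln14_13_3_ok) (M (nat_lit 426) (B (L (nat_lit 393) ln13_13_3 ln13_13_3_ok) (L (nat_lit 397) ln10_13_2 ln10_13_2_ok))))))) (B (M (nat_lit 431) (B (M (nat_lit 395) (B (L (nat_lit 394) ln14_13_3 ln14_13_3_ok) (L (nat_lit 396) ln15_13_3 ln15_13_3_ok))) (M (nat_lit 459) (B (L (nat_lit 458) ln14_13_1 ln14_13_1_ok) (L (nat_lit 460) ln15_13_1 ln15_13_1_ok))))) (M (nat_lit 426) (B (M (nat_lit 398) (B (L (nat_lit 397) ln10_13_2 ln10_13_2_ok) (L (nat_lit 399) ln11_13_2 ln11_13_2_ok))) (M (nat_lit 458) (B (L (nat_lit 457) ln13_13_1 ln13_13_1_ok) (L (nat_lit 459) ln14_13_1 ln14_13_1_ok)))))))) (B (M (nat_lit 427) (B (M (nat_lit 431) (B (M (nat_lit 395) (B (L (nat_lit 394) ln14_13_3 ln14_13_3_ok) (L (nat_lit 396) ln15_13_3 ln15_13_3_ok))) (M (nat_lit 399) (B (L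 (nat_lit 398) ln11_13_2 ln11_13_2_ok) (L (nat_lit 400) ln12_13_2 ln12_13_2_ok))))) (B (M (nat_lit 431) (B (M (nat_lit 399) (B (L (nat_lit 398) ln11_13_2 ln11_13_2_ok) (L (nat_lit 400) ln12_13_2 ln12_13_2_ok))) (M (nat_lit 459) (B (L (nat_lit 458) ln14_13_1 ln14_13_1_ok) (L (nat_lit 460) ln15_13_1 ln15_13_1_ok))))) (B (M (nat_lit 431) (B (M (nat_lit 395) (B (L (nat_lit 394) ln14_13_3 ln14_13_3_ok) (L (nat_lit 396) ln15_13_3 ln15_13_3_ok))) (M (nat_lit 459) (B (L (nat_lit 458) ln14_13_1 ln14_13_1_ok) (L (nat_lit 460) ln15_13_1 ln15_13_1_ok))))) (M (nat_lit 426) (B (M (nat_lit 398) (B (L (nat_lit 397) ln10_13_2 ln10_13_2_ok) (L (nat_lit 399) ln11_13_2 ln11_13_2_ok))) (M (nat_lit 458) (B (L (nat_lit 457) ln13_13_1 ln13_13_1_ok) (L (nat_lit 459) ln14_13_1 ln14_13_1_ok))))))))) (B (M (nat_lit 431) (B (M (nat_lit 396) (B (L (nat_lit 395) ln15_13_3 ln15_13_3_ok) (M (nat_lit 432) (B (L (nat_lit 397) ln16_13_3 ln16_13_3_ok)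 (M (nat_lit 400) (B (L (nat_lit 399) ln12_13_2 ln12_13_2_ok) (L (nat_lit 401) ln13_13_2 ln13_13_2_ok))))))) (B (M (nat_lit 460) (B (L (nat_lit 459) ln15_13_1 ln15_13_1_ok) (M (nat_lit 432) (B (L (nat_lit 461) ln16_13_1 ln16_13_1_ok) (M (nat_lit 400) (B (L (nat_lit 399) ln12_13_2 ln12_13_2_ok) (L (nat_lit 401) ln13_13_2 ln13_13_2_ok))))))) (B (M (nat_lit 432) (B (M (nat_lit 396) (B (L (nat_lit 395) ln15_13_3 ln15_13_3_ok) (L (nat_lit 397) ln16_13_3 ln16_13_3_ok))) (M (nat_lit 460) (B (L (nat_lit 459) ln15_13_1 ln15_13_1_ok) (L (nat_lit 461) ln16_13_1 ln16_13_1_ok))))) (M (nat_lit 427) (B (M (nat_lit 399) (B (L (nat_lit 398) ln11_13_2 ln11_13_2_ok) (L (nat_lit 400) ln12_13_2 ln12_13_2_ok))) (M (nat_lit 459) (B (L (nat_lit 458) ln14_13_1 ln14_13_1_ok) (L (nat_lit 460) ln15_13_1 ln15_13_1_ok))))))))) (B c32_n5035 (B (M (nat_lit 427) (B (M (nat_lit 426) (B (M (nat_lit 394) (B (L (nat_lit 393) ln13_13_3 ln13_13_3_ok)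 (L (nat_lit 395) ln14_13_3 ln14_13_3_ok))) (M (nat_lit 458) (B (L (nat_lit 457) ln13_13_1 ln13_13_1_ok) (L (nat_lit 459) ln14_13_1 ln14_13_1_ok))))) (B (M (nat_lit 431) (B (M (nat_lit 399) (B (L (nat_lit 398) ln11_13_2 ln11_13_2_ok) (L (nat_lit 400) ln12_13_2 ln12_13_2_ok))) (M (nat_lit 459) (B (L (nat_lit 458) ln14_13_1 ln14_13_1_ok) (L (nat_lit 460) ln15_13_1 ln15_13_1_ok))))) (M (nat_lit 398) (B (L (nat_lit 399) ln11_13_2 ln11_13_2_ok) (M (nat_lit 394) (B (L (nat_lit 395) ln14_13_3 ln14_13_3_ok) (M (nat_lit 426) (B (L (nat_lit 393) ln13_13_3 ln13_13_3_ok) (L (nat_lit 397) ln10_13_2 ln10_13_2_ok)))))))))) (B (M (nat_lit 427) (B (M (nat_lit 431) (B (M (nat_lit 399) (B (L (nat_lit 398) ln11_13_2 ln11_13_2_ok) (L (nat_lit 400) ln12_13_2 ln12_13_2_ok))) (M (nat_lit 459) (B (L (nat_lit 458) ln14_13_1 ln14_13_1_ok) (L (nat_lit 460) ln15_13_1 ln15_13_1_ok))))) (B (M (nat_lit 431) (B (M (nat_lit 395) (B (L (nat_lit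 394) ln14_13_3 ln14_13_3_ok) (L (nat_lit 396) ln15_13_3 ln15_13_3_ok))) (M (nat_lit 459) (B (L (nat_lit 458) ln14_13_1 ln14_13_1_ok) (L (nat_lit 460) ln15_13_1 ln15_13_1_ok))))) (B (M (nat_lit 426) (B (M (nat_lit 394) (B (L (nat_lit 393) ln13_13_3 ln13_13_3_ok) (L (nat_lit 395) ln14_13_3 ln14_13_3_ok))) (M (nat_lit 458) (B (L (nat_lit 457) ln13_13_1 ln13_13_1_ok) (L (nat_lit 459) ln14_13_1 ln14_13_1_ok))))) (M (nat_lit 431) (B (M (nat_lit 395) (B (L (nat_lit 394) ln14_13_3 ln14_13_3_ok) (L (nat_lit 396) ln15_13_3 ln15_13_3_ok))) (M (nat_lit 399) (B (L (nat_lit 398) ln11_13_2 ln11_13_2_ok) (L (nat_lit 400) ln12_13_2 ln12_13_2_ok))))))))) (B (M (nat_lit 431) (B (M (nat_lit 396) (B (L (nat_lit 395) ln15_13_3 ln15_13_3_ok) (M (nat_lit 432) (B (L (nat_lit 397) ln16_13_3 ln16_13_3_ok) (M (nat_lit 400) (B (L (nat_lit 399) ln12_13_2 ln12_13_2_ok) (L (nat_lit 401) ln13_13_2 ln13_13_2_ok))))))) (B (M (nat_lit 460)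 (B (L (nat_lit 459) ln15_13_1 ln15_13_1_ok) (M (nat_lit 432) (B (L (nat_lit 461) ln16_13_1 ln16_13_1_ok) (M (nat_lit 400) (B (L (nat_lit 399) ln12_13_2 ln12_13_2_ok) (L (nat_lit 401) ln13_13_2 ln13_13_2_ok))))))) (B (M (nat_lit 432) (B (M (nat_lit 396) (B (L (nat_lit 395) ln15_13_3 ln15_13_3_ok) (L (nat_lit 397) ln16_13_3 ln16_13_3_ok))) (M (nat_lit 460) (B (L (nat_lit 459) ln15_13_1 ln15_13_1_ok) (L (nat_lit 461) ln16_13_1 ln16_13_1_ok))))) (M (nat_lit 427) (B (M (nat_lit 395) (B (L (nat_lit 394) ln14_13_3 ln14_13_3_ok) (L (nat_lit 396) ln15_13_3 ln15_13_3_ok))) (M (nat_lit 459) (B (L (nat_lit 458) ln14_13_1 ln14_13_1_ok) (L (nat_lit 460) ln15_13_1 ln15_13_1_ok))))))))) (B (K (nat_lit 4852171964711426004262224822250396481013764881907679006548339266075587288659844840319955210682244261670434619182456250700704776192) (nat_lit 164755143881494679369293441614201460720805198770383355991825874577569270140824500821989179448644629248638698679541640361637073951154464680998220652557409189888)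 (nat_lit 164755143881494679369293441614201460720805198770383355991825874577569270140824500821989179448644629248638698679541640361637073951154464680998220652557409189888) c32_s5110) (B (K (nat_lit 4852171964711426004262224822250396481013764881907679006548339266075587288659844840319955210682244261670434619182456250700704776192) (nat_lit 589681629070580170816153362527776685457790419401094683521887899572950555875995689290325960598603984153345276382082649381235669177944739702279595424158726516594930876416) (nat_lit 589681629070580170816153362527776685457790419401094683521887899572950555875995689290325960598603984153345276382082649381235669177944739702279595424158726516594930876416) c32_s5115) (B (M (nat_lit 427) (B (M (nat_lit 426) (B (M (nat_lit 398) (B (L (nat_lit 397) ln10_13_2 ln10_13_2_ok) (L (nat_lit 399) ln11_13_2 ln11_13_2_ok))) (M (nat_lit 458) (B (L (nat_lit 457) ln13_13_1 ln13_13_1_ok) (L (nat_lit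 459) ln14_13_1 ln14_13_1_ok))))) (B (M (nat_lit 426) (B (M (nat_lit 394) (B (L (nat_lit 393) ln13_13_3 ln13_13_3_ok) (L (nat_lit 395) ln14_13_3 ln14_13_3_ok))) (M (nat_lit 458) (B (L (nat_lit 457) ln13_13_1 ln13_13_1_ok) (L (nat_lit 459) ln14_13_1 ln14_13_1_ok))))) (B (M (nat_lit 459) (B (L (nat_lit 458) ln14_13_1 ln14_13_1_ok) (M (nat_lit 395) (B (L (nat_lit 394) ln14_13_3 ln14_13_3_ok) (M (nat_lit 363) (B (M (nat_lit 460) (B (L (nat_lit 331) ln11_10_4 ln11_10_4_ok) (L (nat_lit 492) ln11_11_4 ln11_11_4_ok))) (B (M (nat_lit 491) (B (M (nat_lit 364) (B (L (nat_lit 332) ln11_14_6 ln11_14_6_ok) (L (nat_lit 396) ln11_15_6 ln11_15_6_ok))) (M (nat_lit 492) (B (L (nat_lit 460) ln11_11_4 ln11_11_4_ok) (L (nat_lit 524) ln11_12_4 ln11_12_4_ok))))) (M (nat_lit 331) (B (M (nat_lit 330) (B (L (nat_lit 298) ln11_13_7 ln11_13_7_ok) (L (nat_lit 362) ln11_14_7 ln11_14_7_ok))) (M (nat_lit 332) (B (L (nat_lit 300) ln11_13_6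 ln11_13_6_ok) (L (nat_lit 364) ln11_14_6 ln11_14_6_ok)))))))))))) (M (nat_lit 398) (B (L (nat_lit 399) ln11_13_2 ln11_13_2_ok) (M (nat_lit 394) (B (L (nat_lit 395) ln14_13_3 ln14_13_3_ok) (M (nat_lit 426) (B (L (nat_lit 393) ln13_13_3 ln13_13_3_ok) (L (nat_lit 397) ln10_13_2 ln10_13_2_ok))))))))))) (B (M (nat_lit 431) (B (M (nat_lit 460) (B (L (nat_lit 459) ln15_13_1 ln15_13_1_ok) (M (nat_lit 432) (B (L (nat_lit 461) ln16_13_1 ln16_13_1_ok) (M (nat_lit 400) (B (L (nat_lit 399) ln12_13_2 ln12_13_2_ok) (L (nat_lit 401) ln13_13_2 ln13_13_2_ok))))))) (B (M (nat_lit 432) (B (M (nat_lit 396) (B (L (nat_lit 395) ln15_13_3 ln15_13_3_ok) (L (nat_lit 397) ln16_13_3 ln16_13_3_ok))) (M (nat_lit 460) (B (L (nat_lit 459) ln15_13_1 ln15_13_1_ok) (L (nat_lit 461) ln16_13_1 ln16_13_1_ok))))) (M (nat_lit 427) (B (M (nat_lit 395) (B (L (nat_lit 394) ln14_13_3 ln14_13_3_ok) (L (nat_lit 396) ln15_13_3 ln15_13_3_ok))) (M (nat_lit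 399) (B (L (nat_lit 398) ln11_13_2 ln11_13_2_ok) (L (nat_lit 400) ln12_13_2 ln12_13_2_ok)))))))) (B (M (nat_lit 461) (B (M (nat_lit 398) (B (M (nat_lit 493) (B (L (nat_lit 525) ln13_16_6 ln13_16_6_ok) (M (nat_lit 366) (B (L (nat_lit 334) ln14_10_5 ln14_10_5_ok) (L (nat_lit 397) ln13_15_6 ln13_15_6_ok))))) (B (M (nat_lit 493) (B (L (nat_lit 525) ln13_16_6 ln13_16_6_ok) (M (nat_lit 366) (B (L (nat_lit 397) ln13_15_6 ln13_15_6_ok) (L (nat_lit 462) ln14_11_5 ln14_11_5_ok))))) (B (M (nat_lit 427) (B (L (nat_lit 399) ln11_13_2 ln11_13_2_ok) (M (nat_lit 426) (B (L (nat_lit 397) ln10_13_2 ln10_13_2_ok) (L (nat_lit 462) ln10_13_0 ln10_13_0_ok))))) (M (nat_lit 493) (B (L (nat_lit 525) ln13_16_6 ln13_16_6_ok) (M (nat_lit 366) (B (L (nat_lit 334) ln14_10_5 ln14_10_5_ok) (L (nat_lit 462) ln14_11_5 ln14_11_5_ok))))))))) (B (M (nat_lit 396) (B (M (nat_lit 493) (B (L (nat_lit 525) ln13_16_7 ln13_16_7_ok) (M (nat_lit 364)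 (B (L (nat_lit 332) ln12_10_4 ln12_10_4_ok) (L (nat_lit 460) ln12_11_4 ln12_11_4_ok))))) (B (M (nat_lit 493) (B (L (nat_lit 525) ln13_16_7 ln13_16_7_ok) (M (nat_lit 364) (B (L (nat_lit 397) ln13_15_7 ln13_15_7_ok) (L (nat_lit 460) ln12_11_4 ln12_11_4_ok))))) (M (nat_lit 395) (B (L (nat_lit 431) ln15_13_3 ln15_13_3_ok) (M (nat_lit 394) (B (L (nat_lit 393) ln9_12_0 ln9_12_0_ok) (L (nat_lit 397) ln10_12_0 ln10_12_0_ok)))))))) (B (M (nat_lit 398) (B (M (nat_lit 493) (B (L (nat_lit 525) ln13_16_6 ln13_16_6_ok) (M (nat_lit 366) (B (L (nat_lit 334) ln14_10_5 ln14_10_5_ok) (L (nat_lit 462) ln14_11_5 ln14_11_5_ok))))) (M (nat_lit 399) (B (L (nat_lit 427) ln11_13_2 ln11_13_2_ok) (M (nat_lit 400) (B (L (nat_lit 401) ln17_12_1 ln17_12_1_ok) (L (nat_lit 431) ln12_13_2 ln12_13_2_ok))))))) (M (nat_lit 427) (B (M (nat_lit 426) (B (L (nat_lit 462) ln10_13_0 ln10_13_0_ok) (M (nat_lit 394) (B (L (nat_lit 393) ln13_13_3 ln13_13_3_ok)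 (L (nat_lit 395) ln14_13_3 ln14_13_3_ok))))) (B (M (nat_lit 398) (B (L (nat_lit 399) ln11_13_2 ln11_13_2_ok) (M (nat_lit 426) (B (L (nat_lit 397) ln10_13_2 ln10_13_2_ok) (L (nat_lit 462) ln10_13_0 ln10_13_0_ok))))) (M (nat_lit 431) (B (M (nat_lit 395) (B (L (nat_lit 394) ln14_13_3 ln14_13_3_ok) (L (nat_lit 396) ln15_13_3 ln15_13_3_ok))) (M (nat_lit 399) (B (L (nat_lit 398) ln11_13_2 ln11_13_2_ok) (L (nat_lit 400) ln12_13_2 ln12_13_2_ok)))))))))))) (M (nat_lit 427) (B (M (nat_lit 426) (B (M (nat_lit 398) (B (L (nat_lit 397) ln10_13_2 ln10_13_2_ok) (L (nat_lit 399) ln11_13_2 ln11_13_2_ok))) (M (nat_lit 458) (B (L (nat_lit 457) ln13_13_1 ln13_13_1_ok) (L (nat_lit 459) ln14_13_1 ln14_13_1_ok))))) (B (M (nat_lit 431) (B (M (nat_lit 395) (B (L (nat_lit 394) ln14_13_3 ln14_13_3_ok) (L (nat_lit 396) ln15_13_3 ln15_13_3_ok))) (M (nat_lit 399) (B (L (nat_lit 398) ln11_13_2 ln11_13_2_ok) (L (nat_lit 400) ln12_13_2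 ln12_13_2_ok))))) (M (nat_lit 426) (B (M (nat_lit 394) (B (L (nat_lit 393) ln13_13_3 ln13_13_3_ok) (L (nat_lit 395) ln14_13_3 ln14_13_3_ok))) (M (nat_lit 458) (B (L (nat_lit 457) ln13_13_1 ln13_13_1_ok) (L (nat_lit 459) ln14_13_1 ln14_13_1_ok))))))))))))))))))))) (nat_lit 2079502270590611144683810638107312777577327806531862431377859685460965980854219217279980804578104683573043408221052678871730618368) (nat_lit 589681629070580170816153362539685211120028833886240371110876417153839813210677871517843325724266005113565188159451287137010171134268728212590255994061751482832750903296) (nat_lit 589681629070580170816153362539685211120028833886240371110876417153839813210677871517843325724266005113565188159451287137010171134268728212590255994061751482832750903296) (by decide +kernel)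
def c32_U : ℕ := 2026130652523698442934469342556401183113998419321724980193882495044753688641215560520127715132800070608683319048382928048013831856901971765395856060791279959586651679251358547968
noncomputable def c32_kids : Cert := (B (K (nat_lit 2079502270590611144683810638107312777577327806531862431377859685460965980854219217279980804578104683573043408221052678871730618368) (nat_lit 2358726516309779873924315912208194533437309006313641173965451137251222375777498465400999780907772434645481753235518445877226788691147341340033465009474922313014822567936) (nat_lit 2358726516309779873924315912208194533437309006313641173965451137251222375777498465400999780907772434645481753235518445877226788691147341340033465009474922313014822567936) c32_s227) (B (K (nat_lit 2079502270590611144683810638107312777577327806531862431377859685460965980854219217279980804578104683573043408221052678871730618368) (nat_lit 2476662842140371422462909370583933142671113940189810419753354027409080085534450136408787468158927173055491584764426791083666070094286157503159293351159693474128438755328)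 (nat_lit 2476662842140371422462909370583933142671113940189810419753354027409080085534450136408787468158927173055491584764426791083666070094286157503159293351159693474128438755328) c32_s366) (B (K (nat_lit 2079502270590611144683810638107312777577327806531862431377859685460965980854219217279980804578104683573043408221052678871730618368) (nat_lit 589681629290253696093773058330957046071444164071181846599604900455010465918515114431092446541327107608081676159672687335451101368859954219117968029461188904179854213120) (nat_lit 589681629290253696093773058330957046071444164071181846599604900455010465918515114431092446541327107608081676159672687335451101368859954219117968029461188904179854213120) c32_s412) (B (K (nat_lit 2079502270590611144683810638107312777577327806531862431377859685460965980854219217279980804578104683573043408221052678871730618368) (nat_lit 2476662842140371422462909370583933142671113940189810419753034625617713481679197646091642148350985514703688301008855424205779741774043711700394717678220555904603108933632)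 (nat_lit 2476662842140371422462909370583933142671113940189810419753034625617713481679197646091642148350985514703688301008855424205779741774043711700394717678220555904603108933632) c32_s478) (B (K (nat_lit 2079502270590611144683810638107312777577327806531862431377859685460965980854219217279980804578104683573043408221052678871730618368) (nat_lit 2026130649693226623865236682699526543913765430152966954897351455379662411804846554917778917730561053392643397666643613171142762758930355688792273520760890742760642450370666168320) (nat_lit 2026130649693226623865236682699526543913765430152966954897351455379662411804846554917778917730561053392643397666643613171142762758930355688792273520760890742760642450370666168320) c32_s558) (B (K (nat_lit 2079502270590611144683810638107312777577327806531862431377859685460965980854219217279980804578104683573043408221052678871730618368) (nat_lit 2358726516364698255205360789928049739829960152051796656366541215504378387949159672672371014007517518547186447536451853439439143074576516572269487175225530669643379769344)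 (nat_lit 2358726516364698255205360789928049739829960152051796656366541215504378387949159672672371014007517518547186447536451853439439143074576516572269487175225530669643379769344) c32_s602) (B (K (nat_lit 2079502270590611144683810638107312777577327806531862431377859685460965980854219217279980804578104683573043408221052678871730618368) (nat_lit 707617954846253338073701943362287973185125102222944469878019755596166591663882361442489318654931516347969956490482331692307610654673040136502031233029445278324853047296) (nat_lit 707617954846253338073701943362287973185125102222944469878019755596166591663882361442489318654931516347969956490482331692307610654673040136502031233029445278324853047296) c32_s689) (B (K (nat_lit 2079502270590611144683810638107312777577327806531862431377859685460965980854219217279980804578104683573043408221052678871730618368) (nat_lit 589681629729600746342132080089798697212653329981590205564799957110279189326715199796645654117201469552628390042701881407091365217939947380398615617383410256236219727872)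 (nat_lit 589681629729600746342132080089798697212653329981590205564799957110279189326715199796645654117201469552628390042701881407091365217939947380398615617383410256236219727872) c32_s738) (B c32_n776 (B (K (nat_lit 2079502270590611144683810638107312777577327806531862431377859685460965980854219217279980804578104683573043408221052678871730618368) (nat_lit 2358726516309779873924315912208194533437309006313580652483933475331187311183517469288795814352577029226752710393032227594717908795355857398647986844220326236903547338752) (nat_lit 2358726516309779873924315912208194533437309006313580652483933475331187311183517469288795814352577029226752710393032227594717908795355857398647986844220326236903547338752) c32_s791) (B (K (nat_lit 2079502270590611144683810638107312777577327806531862431377859685460965980854219217279980804578104683573043408221052678871730618368) (nat_lit 1769044887486332418922412892422104160427281023551507955719130933689946403750956501024945087038216416951319282036298940480007172814277597480073118927476670445577073328128)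 (nat_lit 1769044887486332418922412892422104160427281023551507955719130933689946403750956501024945087038216416951319282036298940480007172814277597480073118927476670445577073328128) c32_s1527) (B (K (nat_lit 2079502270590611144683810638107312777577327806531862431377859685460965980854219217279980804578104683573043408221052678871730618368) (nat_lit 2358726516282320683264613450255125473971374900064552828365522958717622830104167394575769810985589289775194886974311965407058969422611636401072991115875999733241543131136) (nat_lit 2358726516282320683264613450255125473971374900064552828365522958717622830104167394575769810985589289775194886974311965407058969422611636401072991115875999733241543131136) c32_s1563) (B (K (nat_lit 2079502270590611144683810638107312777577327806531862431377859685460965980854219217279980804578104683573043408221052678871730618368) (nat_lit 274591906577844596627713407524569314534100423808513076634341721098871716482509892320844774680143646786648997850373881934241291060261249090277249895338386391040)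 (nat_lit 274591906577844596627713407524569314534100423808513076634341721098871716482509892320844774680143646786648997850373881934241291060261249090277249895338386391040) c32_s1592) (B (K (nat_lit 2079502270590611144683810638107312777577327806531862431377859685460965980854219217279980804578104683573043408221052678871730618368) (nat_lit 589681629070580170816153362706404570343971314084285144021375208923061338028511905571663922916703774319439300519584552953371816256259610427883471601470416706793092677632) (nat_lit 589681629070580170816153362706404570343971314084285144021375208923061338028511905571663922916703774319439300519584552953371816256259610427883471601470416706793092677632) c32_s1599) (B (K (nat_lit 2079502270590611144683810638107312777577327806531862431377859685460965980854219217279980804578104683573043408221052678871730618368) (nat_lit 589681629290253695991479601834388683347038307333367900634744715680774322303184268557357019085718067468608535346933613311529796943368602322579723501729088289292184190976)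 (nat_lit 589681629290253695991479601834388683347038307333367900634744715680774322303184268557357019085718067468608535346933613311529796943368602322579723501729088289292184190976) c32_s1774) (B c32_n1813 (B (K (nat_lit 2079502270590611144683810638107312777577327806531862431377859685460965980854219217279980804578104683573043408221052678871730618368) (nat_lit 2026130649693226624304583733054974027942646878798970556610936938511852051368772802446170579690176984445960221297405309853191938782799777217107466041864426101519797758159021408256) (nat_lit 2026130649693226624304583733054974027942646878798970556610936938511852051368772802446170579690176984445960221297405309853191938782799777217107466041864426101519797758159021408256) c32_s3346) (B (K (nat_lit 2079502270590611144683810638107312777577327806531862431377859685460965980854219217279980804578104683573043408221052678871730618368) (nat_lit 825554280855329625933926444750890882842540507201705775614585908382070032795174478004131911114772911327008193767546252798746204128142659579211078900261012330115166633984)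 (nat_lit 825554280855329625933926444750890882842540507201705775614585908382070032795174478004131911114772911327008193767546252798746204128142659579211078900261012330115166633984) c32_s4863) (B (K (nat_lit 2079502270590611144683810638107312777577327806531862431377859685460965980854219217279980804578104683573043408221052678871730618368) (nat_lit 2476662842140371422462909370582816718390595888005926658384137438993621602719358832057311165329841435059950530819580041025258378073808347403873784629690474326953409118208) (nat_lit 2476662842140371422462909370582816718390595888005926658384137438993621602719358832057311165329841435059950530819580041025258378073808347403873784629690474326953409118208) c32_s4877) (B (K (nat_lit 2079502270590611144683810638107312777577327806531862431377859685460965980854219217279980804578104683573043408221052678871730618368) (nat_lit 2358726516337239064558445010035772489549913986436189484686665255098358539543285432257306532003142686496359124715924402088987285788309846962927177843613972604634926153728)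 (nat_lit 2358726516337239064558445010035772489549913986436189484686665255098358539543285432257306532003142686496359124715924402088987285788309846962927177843613972604634926153728) c32_s4981) (B (K (nat_lit 2079502270590611144683810638107312777577327806531862431377859685460965980854219217279980804578104683573043408221052678871730618368) (nat_lit 2358726516282320683264613450252148342556660094241024188665794123931763810039042328043002433741797217720634325290151677339711446432739105947153733465524985953219034218496) (nat_lit 2358726516282320683264613450252148342556660094241024188665794123931763810039042328043002433741797217720634325290151677339711446432739105947153733465524985953219034218496) c32_s4986) (B (K (nat_lit 2079502270590611144683810638107312777577327806531862431377859685460965980854219217279980804578104683573043408221052678871730618368) (nat_lit 274591906577844596621759144695139702887043144409055407062623680968621583416975137833260630571022523418328421715678835954496230152422733789575222335293368565760)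 (nat_lit 274591906577844596621759144695139702887043144409055407062623680968621583416975137833260630571022523418328421715678835954496230152422733789575222335293368565760) c32_s4989) (B (K (nat_lit 2079502270590611144683810638107312777577327806531862431377859685460965980854219217279980804578104683573043408221052678871730618368) (nat_lit 589681629070580170816153362694496044685112090790170585222459869779625257768011639440594413941535486101197053782943400683981724296769488612206441000066361586703057027072) (nat_lit 589681629070580170816153362694496044685112090790170585222459869779625257768011639440594413941535486101197053782943400683981724296769488612206441000066361586703057027072) c32_s4998) (K (nat_lit 2079502270590611144683810638107312777577327806531862431377859685460965980854219217279980804578104683573043408221052678871730618368) (nat_lit 589681629070580170816153362539685211120028833886240371110876417153839813210677871517843325724266005113565188159451287137010171134268728212590255994061751482832750903296)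 (nat_lit 589681629070580170816153362539685211120028833886240371110876417153839813210677871517843325724266005113565188159451287137010171134268728212590255994061751482832750903296) c32_s5133))))))))))))))))))))))))
theorem c32_win : ∃ n, ∀ B : Set Cell, Avoids B c32_U → MakerForces n (cellsOf (1 <<< 429)) B :=
  forces_of_chk (1 <<< 429) (nat_lit 428) c32_kids c32_U c32_U (by decide +kernel)

end Vale.Agent.Lib.P062.Data
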