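import Vale.Agent.Lib.P062.Data.Lines

namespace Vale.Agent.Lib.P062.Data

noncomputable def c33_n138 : Cert := (M (nat_lit 396) (B (M (nat_lit 364) (B (L (nat_lit 493) ln13_15_7 ln13_15_7_ok) (M (nat_lit 332) (B (L (nat_lit 300) ln12_9_4 ln12_9_4_ok) (L (nat_lit 428) ln12_10_4 ln12_10_4_ok))))) (B (M (nat_lit 493) (B (L (nat_lit 364) ln13_15_7 ln13_15_7_ok) (M (nat_lit 525) (B (L (nat_lit 428) ln13_16_7 ln13_16_7_ok) (M (nat_lit 398) (B (L (nat_lit 366) ln13_15_6 ln13_15_6_ok) (L (nat_lit 430) ln13_16_6 ln13_16_6_ok))))))) (B (M (nat_lit 398) (B (M (nat_lit 493) (B (L (nat_lit 366) ln13_15_6 ln13_15_6_ok) (M (nat_lit 525) (B (L (nat_lit 428) ln13_16_7 ln13_16_7_ok) (L (nat_lit 430) ln13_16_6 ln13_16_6_ok))))) (B (M (nat_lit 395) (B (M (nat_lit 430) (B (L (nat_lit 394) ln10_12_0 ln10_12_0_ok) (L (nat_lit 431) ln11_12_0 ln11_12_0_ok))) (B (M (nat_lit 399) (B (M (nat_lit 427) (B (L (nat_lit 426) ln14_12_1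 ln14_12_1_ok) (L (nat_lit 428) ln15_12_1 ln15_12_1_ok))) (M (nat_lit 431) (B (L (nat_lit 430) ln11_12_0 ln11_12_0_ok) (L (nat_lit 432) ln12_12_0 ln12_12_0_ok))))) (M (nat_lit 394) (B (M (nat_lit 362) (B (L (nat_lit 361) ln13_12_3 ln13_12_3_ok) (L (nat_lit 363) ln14_12_3 ln14_12_3_ok))) (M (nat_lit 426) (B (L (nat_lit 425) ln13_12_1 ln13_12_1_ok) (L (nat_lit 427) ln14_12_1 ln14_12_1_ok)))))))) (B (M (nat_lit 430) (B (M (nat_lit 395) (B (L (nat_lit 394) ln10_12_0 ln10_12_0_ok) (L (nat_lit 431) ln11_12_0 ln11_12_0_ok))) (M (nat_lit 493) (B (L (nat_lit 366) ln13_15_6 ln13_15_6_ok) (L (nat_lit 525) ln13_16_6 ln13_16_6_ok))))) (M (nat_lit 428) (B (M (nat_lit 493) (B (L (nat_lit 366) ln13_15_6 ln13_15_6_ok) (L (nat_lit 525) ln13_16_7 ln13_16_7_ok))) (M (nat_lit 427) (B (L (nat_lit 399) ln15_12_1 ln15_12_1_ok) (L (nat_lit 426) ln10_13_2 ln10_13_2_ok))))))))) (B (M (nat_lit 493) (B (L (nat_lit 364) ln13_15_7 ln13_15_7_ok)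 (M (nat_lit 525) (B (M (nat_lit 398) (B (L (nat_lit 366) ln13_15_6 ln13_15_6_ok) (L (nat_lit 430) ln13_16_6 ln13_16_6_ok))) (M (nat_lit 526) (B (L (nat_lit 494) ln13_12_4 ln13_12_4_ok) (L (nat_lit 558) ln13_13_4 ln13_13_4_ok))))))) (M (nat_lit 395) (B (M (nat_lit 430) (B (L (nat_lit 394) ln10_12_0 ln10_12_0_ok) (M (nat_lit 431) (B (L (nat_lit 398) ln11_12_0 ln11_12_0_ok) (L (nat_lit 428) ln15_13_3 ln15_13_3_ok))))) (B (M (nat_lit 398) (B (M (nat_lit 430) (B (L (nat_lit 431) ln11_12_0 ln11_12_0_ok) (M (nat_lit 366) (B (L (nat_lit 334) ln14_10_5 ln14_10_5_ok) (L (nat_lit 367) ln11_12_2 ln11_12_2_ok))))) (M (nat_lit 364) (B (M (nat_lit 332) (B (L (nat_lit 300) ln12_9_4 ln12_9_4_ok) (L (nat_lit 428) ln12_10_4 ln12_10_4_ok))) (M (nat_lit 363) (B (L (nat_lit 362) ln14_12_3 ln14_12_3_ok) (L (nat_lit 399) ln15_12_3 ln15_12_3_ok))))))) (B (M (nat_lit 430) (B (L (nat_lit 394) ln10_12_0 ln10_12_0_ok) (M (nat_lit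 431) (B (L (nat_lit 428) ln15_13_3 ln15_13_3_ok) (L (nat_lit 432) ln16_13_3 ln16_13_3_ok))))) (B (M (nat_lit 430) (B (L (nat_lit 394) ln10_12_0 ln10_12_0_ok) (M (nat_lit 431) (B (L (nat_lit 398) ln11_12_0 ln11_12_0_ok) (L (nat_lit 432) ln16_13_3 ln16_13_3_ok))))) (M (nat_lit 398) (B (M (nat_lit 394) (B (M (nat_lit 362) (B (L (nat_lit 361) ln13_12_3 ln13_12_3_ok) (L (nat_lit 363) ln14_12_3 ln14_12_3_ok))) (M (nat_lit 426) (B (L (nat_lit 425) ln13_12_1 ln13_12_1_ok) (L (nat_lit 427) ln14_12_1 ln14_12_1_ok))))) (B (M (nat_lit 364) (B (M (nat_lit 332) (B (L (nat_lit 300) ln12_9_4 ln12_9_4_ok) (L (nat_lit 428) ln12_10_4 ln12_10_4_ok))) (M (nat_lit 363) (B (L (nat_lit 362) ln14_12_3 ln14_12_3_ok) (L (nat_lit 399) ln15_12_3 ln15_12_3_ok))))) (M (nat_lit 399) (B (M (nat_lit 367) (B (L (nat_lit 366) ln11_12_2 ln11_12_2_ok) (L (nat_lit 368) ln12_12_2 ln12_12_2_ok))) (M (nat_lit 427) (B (L (nat_lit 426) ln14_12_1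 ln14_12_1_ok) (L (nat_lit 428) ln15_12_1 ln15_12_1_ok))))))))))))))))))
theorem c33_s222 : Sem (nat_lit 1386334847383188664550070665778531748218595021979121511688892729411143073470393764272092352380775458208712834410189682411080515584) (nat_lit 1179363258141160341950375441373966238691743804372323738021252468503738359293777452255093255825001072902098493467562414895294764623863343146533561609896445154342893256704) (nat_lit 1179363258141160341950375441373966238691743804372323738021252468503738359293777452255093255825001072902098493467562414895294764623863343146533561609896445154342893256704) :=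
  sem_of_chk (M (nat_lit 461) (B (M (nat_lit 365) (B (M (nat_lit 460) (B (L (nat_lit 492) ln13_11_5 ln13_11_5_ok) (M (nat_lit 462) (B (L (nat_lit 494) ln13_11_4 ln13_11_4_ok) (M (nat_lit 333) (B (L (nat_lit 428) ln13_10_5 ln13_10_5_ok) (L (nat_lit 430) ln13_10_4 ln13_10_4_ok))))))) (B (M (nat_lit 493) (B (M (nat_lit 364) (B (L (nat_lit 332) ln13_14_7 ln13_14_7_ok) (L (nat_lit 396) ln13_15_7 ln13_15_7_ok))) (M (nat_lit 494) (B (L (nat_lit 462) ln13_11_4 ln13_11_4_ok) (L (nat_lit 526) ln13_12_4 ln13_12_4_ok))))) (M (nat_lit 333) (B (M (nat_lit 334) (B (L (nat_lit 302) ln13_13_6 ln13_13_6_ok) (L (nat_lit 366) ln13_14_6 ln13_14_6_ok))) (M (nat_lit 460) (B (L (nat_lit 428) ln13_10_5 ln13_10_5_ok) (L (nat_lit 492) ln13_11_5 ln13_11_5_ok)))))))) (B (M (nat_lit 493) (B (M (nat_lit 365) (B (M (nat_lit 366) (B (L (nat_lit 334) ln13_14_6 ln13_14_6_ok) (L (nat_lit 398) ln13_15_6 ln13_15_6_ok))) (M (nat_lit 492) (B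 (L (nat_lit 460) ln13_11_5 ln13_11_5_ok) (L (nat_lit 524) ln13_12_5 ln13_12_5_ok))))) (B (M (nat_lit 365) (B (M (nat_lit 364) (B (L (nat_lit 332) ln13_14_7 ln13_14_7_ok) (L (nat_lit 396) ln13_15_7 ln13_15_7_ok))) (M (nat_lit 492) (B (L (nat_lit 460) ln13_11_5 ln13_11_5_ok) (L (nat_lit 524) ln13_12_5 ln13_12_5_ok))))) (M (nat_lit 525) (B (M (nat_lit 396) (B (L (nat_lit 364) ln13_15_7 ln13_15_7_ok) (L (nat_lit 428) ln13_16_7 ln13_16_7_ok))) (M (nat_lit 526) (B (L (nat_lit 494) ln13_12_4 ln13_12_4_ok) (L (nat_lit 558) ln13_13_4 ln13_13_4_ok)))))))) (B (M (nat_lit 365) (B (M (nat_lit 493) (B (M (nat_lit 492) (B (L (nat_lit 460) ln13_11_5 ln13_11_5_ok) (L (nat_lit 524) ln13_12_5 ln13_12_5_ok))) (M (nat_lit 494) (B (L (nat_lit 462) ln13_11_4 ln13_11_4_ok) (L (nat_lit 526) ln13_12_4 ln13_12_4_ok))))) (B (M (nat_lit 493) (B (M (nat_lit 366) (B (L (nat_lit 334) ln13_14_6 ln13_14_6_ok) (L (nat_lit 398) ln13_15_6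 ln13_15_6_ok))) (M (nat_lit 494) (B (L (nat_lit 462) ln13_11_4 ln13_11_4_ok) (L (nat_lit 526) ln13_12_4 ln13_12_4_ok))))) (B (M (nat_lit 493) (B (M (nat_lit 366) (B (L (nat_lit 334) ln13_14_6 ln13_14_6_ok) (L (nat_lit 398) ln13_15_6 ln13_15_6_ok))) (M (nat_lit 492) (B (L (nat_lit 460) ln13_11_5 ln13_11_5_ok) (L (nat_lit 524) ln13_12_5 ln13_12_5_ok))))) (M (nat_lit 333) (B (M (nat_lit 334) (B (L (nat_lit 302) ln13_13_6 ln13_13_6_ok) (L (nat_lit 366) ln13_14_6 ln13_14_6_ok))) (M (nat_lit 460) (B (L (nat_lit 428) ln13_10_5 ln13_10_5_ok) (L (nat_lit 492) ln13_11_5 ln13_11_5_ok))))))))) (B (M (nat_lit 365) (B (M (nat_lit 493) (B (M (nat_lit 492) (B (L (nat_lit 460) ln13_11_5 ln13_11_5_ok) (L (nat_lit 524) ln13_12_5 ln13_12_5_ok))) (M (nat_lit 494) (B (L (nat_lit 462) ln13_11_4 ln13_11_4_ok) (L (nat_lit 526) ln13_12_4 ln13_12_4_ok))))) (B (M (nat_lit 493) (B (M (nat_lit 364) (B (L (nat_lit 332) ln13_14_7 ln13_14_7_ok)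 (L (nat_lit 396) ln13_15_7 ln13_15_7_ok))) (M (nat_lit 494) (B (L (nat_lit 462) ln13_11_4 ln13_11_4_ok) (L (nat_lit 526) ln13_12_4 ln13_12_4_ok))))) (B (M (nat_lit 493) (B (M (nat_lit 364) (B (L (nat_lit 332) ln13_14_7 ln13_14_7_ok) (L (nat_lit 396) ln13_15_7 ln13_15_7_ok))) (M (nat_lit 492) (B (L (nat_lit 460) ln13_11_5 ln13_11_5_ok) (L (nat_lit 524) ln13_12_5 ln13_12_5_ok))))) (M (nat_lit 333) (B (M (nat_lit 332) (B (L (nat_lit 300) ln13_13_7 ln13_13_7_ok) (L (nat_lit 364) ln13_14_7 ln13_14_7_ok))) (M (nat_lit 460) (B (L (nat_lit 428) ln13_10_5 ln13_10_5_ok) (L (nat_lit 492) ln13_11_5 ln13_11_5_ok))))))))) (B c33_n138 (B (M (nat_lit 365) (B (M (nat_lit 493) (B (M (nat_lit 366) (B (L (nat_lit 334) ln13_14_6 ln13_14_6_ok) (L (nat_lit 398) ln13_15_6 ln13_15_6_ok))) (M (nat_lit 494) (B (L (nat_lit 462) ln13_11_4 ln13_11_4_ok) (L (nat_lit 526) ln13_12_4 ln13_12_4_ok))))) (B (M (nat_lit 493) (B (M (nat_lit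 364) (B (L (nat_lit 332) ln13_14_7 ln13_14_7_ok) (L (nat_lit 396) ln13_15_7 ln13_15_7_ok))) (M (nat_lit 494) (B (L (nat_lit 462) ln13_11_4 ln13_11_4_ok) (L (nat_lit 526) ln13_12_4 ln13_12_4_ok))))) (B (M (nat_lit 493) (B (M (nat_lit 364) (B (L (nat_lit 332) ln13_14_7 ln13_14_7_ok) (L (nat_lit 396) ln13_15_7 ln13_15_7_ok))) (M (nat_lit 366) (B (L (nat_lit 334) ln13_14_6 ln13_14_6_ok) (L (nat_lit 398) ln13_15_6 ln13_15_6_ok))))) (M (nat_lit 333) (B (M (nat_lit 332) (B (L (nat_lit 300) ln13_13_7 ln13_13_7_ok) (L (nat_lit 364) ln13_14_7 ln13_14_7_ok))) (M (nat_lit 334) (B (L (nat_lit 302) ln13_13_6 ln13_13_6_ok) (L (nat_lit 366) ln13_14_6 ln13_14_6_ok))))))))) (B (M (nat_lit 460) (B (M (nat_lit 492) (B (L (nat_lit 365) ln13_11_5 ln13_11_5_ok) (M (nat_lit 524) (B (L (nat_lit 428) ln12_16_6 ln12_16_6_ok) (L (nat_lit 556) ln12_17_6 ln12_17_6_ok))))) (B (M (nat_lit 459) (B (M (nat_lit 430) (B (L (nat_lit 458)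 ln10_14_2 ln10_14_2_ok) (M (nat_lit 431) (B (L (nat_lit 428) ln15_13_1 ln15_13_1_ok) (L (nat_lit 432) ln16_13_1 ln16_13_1_ok))))) (B (M (nat_lit 430) (B (L (nat_lit 458) ln10_14_2 ln10_14_2_ok) (M (nat_lit 431) (B (L (nat_lit 432) ln16_13_1 ln16_13_1_ok) (L (nat_lit 462) ln11_14_2 ln11_14_2_ok))))) (B (M (nat_lit 462) (B (M (nat_lit 458) (B (M (nat_lit 426) (B (L (nat_lit 425) ln13_14_3 ln13_14_3_ok) (L (nat_lit 427) ln14_14_3 ln14_14_3_ok))) (M (nat_lit 490) (B (L (nat_lit 489) ln13_14_1 ln13_14_1_ok) (L (nat_lit 491) ln14_14_1 ln14_14_1_ok))))) (B (M (nat_lit 492) (B (M (nat_lit 524) (B (L (nat_lit 428) ln12_16_6 ln12_16_6_ok) (L (nat_lit 556) ln12_17_6 ln12_17_6_ok))) (M (nat_lit 491) (B (L (nat_lit 490) ln14_14_1 ln14_14_1_ok) (L (nat_lit 463) ln15_14_1 ln15_14_1_ok))))) (M (nat_lit 463) (B (M (nat_lit 427) (B (L (nat_lit 426) ln14_14_3 ln14_14_3_ok) (L (nat_lit 428) ln15_14_3 ln15_14_3_ok))) (M (nat_lit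 495) (B (L (nat_lit 494) ln11_14_0 ln11_14_0_ok) (L (nat_lit 496) ln12_14_0 ln12_14_0_ok)))))))) (M (nat_lit 462) (B (M (nat_lit 430) (B (L (nat_lit 431) ln11_14_2 ln11_14_2_ok) (M (nat_lit 494) (B (L (nat_lit 526) ln14_16_7 ln14_16_7_ok) (L (nat_lit 495) ln11_14_0 ln11_14_0_ok))))) (M (nat_lit 492) (B (M (nat_lit 524) (B (L (nat_lit 428) ln12_16_6 ln12_16_6_ok) (L (nat_lit 556) ln12_17_6 ln12_17_6_ok))) (M (nat_lit 491) (B (L (nat_lit 490) ln14_14_1 ln14_14_1_ok) (L (nat_lit 463) ln15_14_1 ln15_14_1_ok))))))))))) (B (M (nat_lit 365) (B (L (nat_lit 492) ln13_11_5 ln13_11_5_ok) (M (nat_lit 333) (B (M (nat_lit 332) (B (L (nat_lit 300) ln13_13_7 ln13_13_7_ok) (L (nat_lit 364) ln13_14_7 ln13_14_7_ok))) (M (nat_lit 334) (B (L (nat_lit 302) ln13_13_6 ln13_13_6_ok) (L (nat_lit 366) ln13_14_6 ln13_14_6_ok))))))) (M (nat_lit 462) (B (M (nat_lit 365) (B (L (nat_lit 494) ln13_11_4 ln13_11_4_ok) (M (nat_lit 333)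 (B (L (nat_lit 428) ln13_10_5 ln13_10_5_ok) (L (nat_lit 430) ln13_10_4 ln13_10_4_ok))))) (B (M (nat_lit 459) (B (M (nat_lit 430) (B (L (nat_lit 458) ln10_14_2 ln10_14_2_ok) (L (nat_lit 431) ln11_14_2 ln11_14_2_ok))) (B (M (nat_lit 458) (B (M (nat_lit 426) (B (L (nat_lit 425) ln13_14_3 ln13_14_3_ok) (L (nat_lit 427) ln14_14_3 ln14_14_3_ok))) (M (nat_lit 490) (B (L (nat_lit 489) ln13_14_1 ln13_14_1_ok) (L (nat_lit 491) ln14_14_1 ln14_14_1_ok))))) (M (nat_lit 463) (B (M (nat_lit 427) (B (L (nat_lit 426) ln14_14_3 ln14_14_3_ok) (L (nat_lit 428) ln15_14_3 ln15_14_3_ok))) (M (nat_lit 431) (B (L (nat_lit 430) ln11_14_2 ln11_14_2_ok) (L (nat_lit 432) ln12_14_2 ln12_14_2_ok)))))))) (B (M (nat_lit 430) (B (M (nat_lit 365) (B (L (nat_lit 333) ln13_10_4 ln13_10_4_ok) (L (nat_lit 494) ln13_11_4 ln13_11_4_ok))) (M (nat_lit 459) (B (L (nat_lit 458) ln10_14_2 ln10_14_2_ok) (L (nat_lit 431) ln11_14_2 ln11_14_2_ok)))))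 (M (nat_lit 428) (B (M (nat_lit 365) (B (L (nat_lit 333) ln13_10_5 ln13_10_5_ok) (L (nat_lit 494) ln13_11_4 ln13_11_4_ok))) (M (nat_lit 427) (B (L (nat_lit 426) ln10_13_0 ln10_13_0_ok) (L (nat_lit 463) ln15_14_3 ln15_14_3_ok))))))))))))) (M (nat_lit 365) (B (M (nat_lit 333) (B (M (nat_lit 334) (B (L (nat_lit 302) ln13_13_6 ln13_13_6_ok) (L (nat_lit 366) ln13_14_6 ln13_14_6_ok))) (M (nat_lit 460) (B (L (nat_lit 428) ln13_10_5 ln13_10_5_ok) (L (nat_lit 492) ln13_11_5 ln13_11_5_ok))))) (B (M (nat_lit 493) (B (M (nat_lit 364) (B (L (nat_lit 332) ln13_14_7 ln13_14_7_ok) (L (nat_lit 396) ln13_15_7 ln13_15_7_ok))) (M (nat_lit 492) (B (L (nat_lit 460) ln13_11_5 ln13_11_5_ok) (L (nat_lit 524) ln13_12_5 ln13_12_5_ok))))) (M (nat_lit 333) (B (M (nat_lit 332) (B (L (nat_lit 300) ln13_13_7 ln13_13_7_ok) (L (nat_lit 364) ln13_14_7 ln13_14_7_ok))) (M (nat_lit 334) (B (L (nat_lit 302) ln13_13_6 ln13_13_6_ok) (L (nat_lit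 366) ln13_14_6 ln13_14_6_ok)))))))))))))))) (nat_lit 1386334847383188664550070665778531748218595021979121511688892729411143073470393764272092352380775458208712834410189682411080515584) (nat_lit 1179363258141160341950375441373966238691743804372323738021252468503738359293777452255093255825001072902098493467562414895294764623863343146533561609896445154342893256704) (nat_lit 1179363258141160341950375441373966238691743804372323738021252468503738359293777452255093255825001072902098493467562414895294764623863343146533561609896445154342893256704) (by decide +kernel)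
noncomputable def c33_n268 : Cert := (M (nat_lit 398) (B (M (nat_lit 395) (B (M (nat_lit 430) (B (L (nat_lit 394) ln10_12_0 ln10_12_0_ok) (L (nat_lit 431) ln11_12_0 ln11_12_0_ok))) (M (nat_lit 399) (B (M (nat_lit 367) (B (L (nat_lit 366) ln11_12_2 ln11_12_2_ok) (L (nat_lit 368) ln12_12_2 ln12_12_2_ok))) (M (nat_lit 427) (B (L (nat_lit 426) ln14_12_1 ln14_12_1_ok) (L (nat_lit 428) ln15_12_1 ln15_12_1_ok))))))) (B (M (nat_lit 395) (B (M (nat_lit 430) (B (L (nat_lit 394) ln10_12_0 ln10_12_0_ok) (L (nat_lit 431) ln11_12_0 ln11_12_0_ok))) (M (nat_lit 399) (B (M (nat_lit 363) (B (L (nat_lit 362) ln14_12_3 ln14_12_3_ok) (L (nat_lit 364) ln15_12_3 ln15_12_3_ok))) (M (nat_lit 427) (B (L (nat_lit 426) ln14_12_1 ln14_12_1_ok) (L (nat_lit 428) ln15_12_1 ln15_12_1_ok))))))) (B (M (nat_lit 395) (B (M (nat_lit 430) (B (L (nat_lit 431) ln11_12_0 ln11_12_0_ok) (M (nat_lit 366) (B (L (nat_lit 334) ln14_10_5 ln14_10_5_ok)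 (L (nat_lit 367) ln11_12_2 ln11_12_2_ok))))) (M (nat_lit 399) (B (M (nat_lit 363) (B (L (nat_lit 362) ln14_12_3 ln14_12_3_ok) (L (nat_lit 364) ln15_12_3 ln15_12_3_ok))) (M (nat_lit 427) (B (L (nat_lit 426) ln14_12_1 ln14_12_1_ok) (L (nat_lit 428) ln15_12_1 ln15_12_1_ok))))))) (B (M (nat_lit 399) (B (M (nat_lit 428) (B (L (nat_lit 427) ln15_12_1 ln15_12_1_ok) (L (nat_lit 400) ln16_12_1 ln16_12_1_ok))) (B (M (nat_lit 428) (B (L (nat_lit 427) ln15_12_1 ln15_12_1_ok) (M (nat_lit 364) (B (L (nat_lit 332) ln12_10_4 ln12_10_4_ok) (L (nat_lit 363) ln15_12_3 ln15_12_3_ok))))) (B (M (nat_lit 428) (B (L (nat_lit 400) ln16_12_1 ln16_12_1_ok) (M (nat_lit 364) (B (L (nat_lit 332) ln12_10_4 ln12_10_4_ok) (L (nat_lit 363) ln15_12_3 ln15_12_3_ok))))) (M (nat_lit 400) (B (M (nat_lit 368) (B (L (nat_lit 367) ln12_12_2 ln12_12_2_ok) (L (nat_lit 369) ln13_12_2 ln13_12_2_ok))) (M (nat_lit 432) (B (L (nat_lit 431) ln12_12_0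 ln12_12_0_ok) (L (nat_lit 433) ln13_12_0 ln13_12_0_ok))))))))) (B (M (nat_lit 395) (B (M (nat_lit 430) (B (L (nat_lit 394) ln10_12_0 ln10_12_0_ok) (L (nat_lit 431) ln11_12_0 ln11_12_0_ok))) (B (M (nat_lit 430) (B (L (nat_lit 431) ln11_12_0 ln11_12_0_ok) (M (nat_lit 366) (B (L (nat_lit 334) ln14_10_5 ln14_10_5_ok) (L (nat_lit 367) ln11_12_2 ln11_12_2_ok))))) (M (nat_lit 394) (B (M (nat_lit 362) (B (L (nat_lit 361) ln13_12_3 ln13_12_3_ok) (L (nat_lit 363) ln14_12_3 ln14_12_3_ok))) (M (nat_lit 426) (B (L (nat_lit 425) ln13_12_1 ln13_12_1_ok) (L (nat_lit 427) ln14_12_1 ln14_12_1_ok)))))))) (B (M (nat_lit 395) (B (M (nat_lit 430) (B (L (nat_lit 394) ln10_12_0 ln10_12_0_ok) (L (nat_lit 431) ln11_12_0 ln11_12_0_ok))) (M (nat_lit 399) (B (M (nat_lit 363) (B (L (nat_lit 362) ln14_12_3 ln14_12_3_ok) (L (nat_lit 364) ln15_12_3 ln15_12_3_ok))) (M (nat_lit 367) (B (L (nat_lit 366) ln11_12_2 ln11_12_2_ok) (L (nat_lit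 368) ln12_12_2 ln12_12_2_ok))))))) (M (nat_lit 395) (B (M (nat_lit 430) (B (L (nat_lit 394) ln10_12_0 ln10_12_0_ok) (M (nat_lit 366) (B (L (nat_lit 334) ln14_10_5 ln14_10_5_ok) (L (nat_lit 367) ln11_12_2 ln11_12_2_ok))))) (B (M (nat_lit 426) (B (L (nat_lit 427) ln14_12_1 ln14_12_1_ok) (M (nat_lit 394) (B (L (nat_lit 425) ln13_12_1 ln13_12_1_ok) (L (nat_lit 430) ln10_12_0 ln10_12_0_ok))))) (M (nat_lit 399) (B (M (nat_lit 363) (B (L (nat_lit 362) ln14_12_3 ln14_12_3_ok) (L (nat_lit 364) ln15_12_3 ln15_12_3_ok))) (M (nat_lit 367) (B (L (nat_lit 366) ln11_12_2 ln11_12_2_ok) (L (nat_lit 368) ln12_12_2 ln12_12_2_ok)))))))))))))))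
theorem c33_s269 : Sem (nat_lit 5954262830815946494763249298768603811203561774969104571805089223376689777636098861358550851719243481454542035207245364041705138952691777536) (nat_lit 1179363258141160341632306725032480602461158791655588400722509874926182197957452415136422352089676496226367969519682857105328364053722867063780190717504152055903179243520) (nat_lit 1179363258141160341632306725032480602461158791655588400722509874926182197957452415136422352089676496226367969519682857105328364053722867063780190717504152055903179243520) :=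
  sem_of_chk (M (nat_lit 396) (B (M (nat_lit 493) (B (L (nat_lit 364) ln13_15_7 ln13_15_7_ok) (M (nat_lit 525) (B (L (nat_lit 428) ln13_16_7 ln13_16_7_ok) (M (nat_lit 398) (B (L (nat_lit 366) ln13_15_6 ln13_15_6_ok) (L (nat_lit 430) ln13_16_6 ln13_16_6_ok))))))) (B (M (nat_lit 398) (B (M (nat_lit 493) (B (L (nat_lit 366) ln13_15_6 ln13_15_6_ok) (M (nat_lit 525) (B (L (nat_lit 428) ln13_16_7 ln13_16_7_ok) (L (nat_lit 430) ln13_16_6 ln13_16_6_ok))))) (B (M (nat_lit 395) (B (M (nat_lit 430) (B (L (nat_lit 394) ln10_12_0 ln10_12_0_ok) (L (nat_lit 431) ln11_12_0 ln11_12_0_ok))) (B (M (nat_lit 399) (B (M (nat_lit 427) (B (L (nat_lit 426) ln14_12_1 ln14_12_1_ok) (L (nat_lit 428) ln15_12_1 ln15_12_1_ok))) (M (nat_lit 431) (B (L (nat_lit 430) ln11_12_0 ln11_12_0_ok) (L (nat_lit 432) ln12_12_0 ln12_12_0_ok))))) (M (nat_lit 394) (B (M (nat_lit 362) (B (L (nat_lit 361) ln13_12_3 ln13_12_3_ok) (L (nat_lit 363) ln14_12_3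 ln14_12_3_ok))) (M (nat_lit 426) (B (L (nat_lit 425) ln13_12_1 ln13_12_1_ok) (L (nat_lit 427) ln14_12_1 ln14_12_1_ok)))))))) (B (M (nat_lit 430) (B (M (nat_lit 395) (B (L (nat_lit 394) ln10_12_0 ln10_12_0_ok) (L (nat_lit 431) ln11_12_0 ln11_12_0_ok))) (M (nat_lit 493) (B (L (nat_lit 366) ln13_15_6 ln13_15_6_ok) (L (nat_lit 525) ln13_16_6 ln13_16_6_ok))))) (M (nat_lit 428) (B (M (nat_lit 493) (B (L (nat_lit 366) ln13_15_6 ln13_15_6_ok) (L (nat_lit 525) ln13_16_7 ln13_16_7_ok))) (M (nat_lit 427) (B (L (nat_lit 399) ln15_12_1 ln15_12_1_ok) (L (nat_lit 426) ln10_13_2 ln10_13_2_ok))))))))) (B (M (nat_lit 493) (B (L (nat_lit 364) ln13_15_7 ln13_15_7_ok) (M (nat_lit 525) (B (L (nat_lit 428) ln13_16_7 ln13_16_7_ok) (M (nat_lit 524) (B (L (nat_lit 492) ln13_12_5 ln13_12_5_ok) (L (nat_lit 556) ln13_13_5 ln13_13_5_ok))))))) (B (M (nat_lit 493) (B (L (nat_lit 364) ln13_15_7 ln13_15_7_ok) (M (nat_lit 525) (B (M (nat_lit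 398) (B (L (nat_lit 366) ln13_15_6 ln13_15_6_ok) (L (nat_lit 430) ln13_16_6 ln13_16_6_ok))) (M (nat_lit 526) (B (L (nat_lit 494) ln13_12_4 ln13_12_4_ok) (L (nat_lit 558) ln13_13_4 ln13_13_4_ok))))))) c33_n268))))) (nat_lit 5954262830815946494763249298768603811203561774969104571805089223376689777636098861358550851719243481454542035207245364041705138952691777536) (nat_lit 1179363258141160341632306725032480602461158791655588400722509874926182197957452415136422352089676496226367969519682857105328364053722867063780190717504152055903179243520) (nat_lit 1179363258141160341632306725032480602461158791655588400722509874926182197957452415136422352089676496226367969519682857105328364053722867063780190717504152055903179243520) (by decide +kernel)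
noncomputable def c33_n316 : Cert := (M (nat_lit 460) (B (M (nat_lit 492) (B (L (nat_lit 365) ln13_11_5 ln13_11_5_ok) (M (nat_lit 524) (B (L (nat_lit 428) ln12_16_6 ln12_16_6_ok) (L (nat_lit 556) ln12_17_6 ln12_17_6_ok))))) (B (M (nat_lit 462) (B (M (nat_lit 459) (B (M (nat_lit 430) (B (L (nat_lit 458) ln10_14_2 ln10_14_2_ok) (L (nat_lit 431) ln11_14_2 ln11_14_2_ok))) (M (nat_lit 492) (B (M (nat_lit 524) (B (L (nat_lit 428) ln12_16_6 ln12_16_6_ok) (L (nat_lit 556) ln12_17_6 ln12_17_6_ok))) (M (nat_lit 491) (B (L (nat_lit 490) ln14_14_1 ln14_14_1_ok) (L (nat_lit 463) ln15_14_1 ln15_14_1_ok))))))) (B (M (nat_lit 459) (B (M (nat_lit 430) (B (L (nat_lit 458) ln10_14_2 ln10_14_2_ok) (L (nat_lit 431) ln11_14_2 ln11_14_2_ok))) (M (nat_lit 463) (B (M (nat_lit 491) (B (L (nat_lit 490) ln14_14_1 ln14_14_1_ok) (L (nat_lit 492) ln15_14_1 ln15_14_1_ok))) (M (nat_lit 495) (B (L (nat_lit 494) ln11_14_0 ln11_14_0_ok)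 (L (nat_lit 496) ln12_14_0 ln12_14_0_ok))))))) (B (M (nat_lit 463) (B (M (nat_lit 428) (B (L (nat_lit 427) ln15_14_3 ln15_14_3_ok) (L (nat_lit 464) ln16_14_3 ln16_14_3_ok))) (M (nat_lit 459) (B (M (nat_lit 491) (B (L (nat_lit 490) ln14_14_1 ln14_14_1_ok) (L (nat_lit 492) ln15_14_1 ln15_14_1_ok))) (M (nat_lit 495) (B (L (nat_lit 494) ln11_14_0 ln11_14_0_ok) (L (nat_lit 496) ln12_14_0 ln12_14_0_ok))))))) (B (M (nat_lit 463) (B (M (nat_lit 428) (B (L (nat_lit 427) ln15_14_3 ln15_14_3_ok) (L (nat_lit 464) ln16_14_3 ln16_14_3_ok))) (B (M (nat_lit 428) (B (L (nat_lit 464) ln16_14_3 ln16_14_3_ok) (M (nat_lit 492) (B (L (nat_lit 524) ln12_16_6 ln12_16_6_ok) (L (nat_lit 491) ln15_14_1 ln15_14_1_ok))))) (B (M (nat_lit 464) (B (M (nat_lit 432) (B (L (nat_lit 431) ln12_14_2 ln12_14_2_ok) (L (nat_lit 433) ln13_14_2 ln13_14_2_ok))) (M (nat_lit 496) (B (L (nat_lit 495) ln12_14_0 ln12_14_0_ok) (L (nat_lit 497) ln13_14_0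 ln13_14_0_ok))))) (M (nat_lit 428) (B (L (nat_lit 427) ln15_14_3 ln15_14_3_ok) (M (nat_lit 492) (B (L (nat_lit 524) ln12_16_6 ln12_16_6_ok) (L (nat_lit 491) ln15_14_1 ln15_14_1_ok))))))))) (B (M (nat_lit 459) (B (M (nat_lit 430) (B (L (nat_lit 458) ln10_14_2 ln10_14_2_ok) (L (nat_lit 431) ln11_14_2 ln11_14_2_ok))) (B (M (nat_lit 458) (B (M (nat_lit 426) (B (L (nat_lit 425) ln13_14_3 ln13_14_3_ok) (L (nat_lit 427) ln14_14_3 ln14_14_3_ok))) (M (nat_lit 490) (B (L (nat_lit 489) ln13_14_1 ln13_14_1_ok) (L (nat_lit 491) ln14_14_1 ln14_14_1_ok))))) (M (nat_lit 430) (B (L (nat_lit 431) ln11_14_2 ln11_14_2_ok) (M (nat_lit 494) (B (L (nat_lit 526) ln14_16_7 ln14_16_7_ok) (L (nat_lit 495) ln11_14_0 ln11_14_0_ok)))))))) (M (nat_lit 459) (B (M (nat_lit 430) (B (L (nat_lit 458) ln10_14_2 ln10_14_2_ok) (L (nat_lit 431) ln11_14_2 ln11_14_2_ok))) (M (nat_lit 463) (B (M (nat_lit 427) (B (L (nat_lit 426) ln14_14_3 ln14_14_3_ok)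 (L (nat_lit 428) ln15_14_3 ln15_14_3_ok))) (M (nat_lit 495) (B (L (nat_lit 494) ln11_14_0 ln11_14_0_ok) (L (nat_lit 496) ln12_14_0 ln12_14_0_ok))))))))))))) (B (M (nat_lit 365) (B (L (nat_lit 492) ln13_11_5 ln13_11_5_ok) (M (nat_lit 333) (B (M (nat_lit 334) (B (L (nat_lit 302) ln13_13_6 ln13_13_6_ok) (L (nat_lit 366) ln13_14_6 ln13_14_6_ok))) (M (nat_lit 462) (B (L (nat_lit 430) ln13_10_4 ln13_10_4_ok) (L (nat_lit 494) ln13_11_4 ln13_11_4_ok))))))) (M (nat_lit 462) (B (M (nat_lit 365) (B (L (nat_lit 494) ln13_11_4 ln13_11_4_ok) (M (nat_lit 333) (B (L (nat_lit 428) ln13_10_5 ln13_10_5_ok) (L (nat_lit 430) ln13_10_4 ln13_10_4_ok))))) (B (M (nat_lit 459) (B (M (nat_lit 430) (B (L (nat_lit 458) ln10_14_2 ln10_14_2_ok) (L (nat_lit 431) ln11_14_2 ln11_14_2_ok))) (M (nat_lit 494) (B (L (nat_lit 365) ln13_11_4 ln13_11_4_ok) (L (nat_lit 495) ln11_14_0 ln11_14_0_ok))))) (B (M (nat_lit 459) (B (M (nat_lit 430) (B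 (L (nat_lit 458) ln10_14_2 ln10_14_2_ok) (L (nat_lit 431) ln11_14_2 ln11_14_2_ok))) (B (M (nat_lit 458) (B (M (nat_lit 426) (B (L (nat_lit 425) ln13_14_3 ln13_14_3_ok) (L (nat_lit 427) ln14_14_3 ln14_14_3_ok))) (M (nat_lit 490) (B (L (nat_lit 489) ln13_14_1 ln13_14_1_ok) (L (nat_lit 491) ln14_14_1 ln14_14_1_ok))))) (M (nat_lit 463) (B (M (nat_lit 427) (B (L (nat_lit 426) ln14_14_3 ln14_14_3_ok) (L (nat_lit 428) ln15_14_3 ln15_14_3_ok))) (M (nat_lit 431) (B (L (nat_lit 430) ln11_14_2 ln11_14_2_ok) (L (nat_lit 432) ln12_14_2 ln12_14_2_ok)))))))) (M (nat_lit 428) (B (M (nat_lit 365) (B (L (nat_lit 333) ln13_10_5 ln13_10_5_ok) (L (nat_lit 494) ln13_11_4 ln13_11_4_ok))) (M (nat_lit 427) (B (L (nat_lit 426) ln10_13_0 ln10_13_0_ok) (L (nat_lit 463) ln15_14_3 ln15_14_3_ok)))))))))))))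
theorem c33_s318 : Sem (nat_lit 1386334847383188664550070665778531748218595021979121511688892729411143073470393764272092352380775458208712834410189682411080515584) (nat_lit 1179363258141160342359549267408618075101010767210362885877997665287702489605364835172633766535210909825407181526032425354100270700469289999337305940184612924192557367296) (nat_lit 1179363258141160342359549267408618075101010767210362885877997665287702489605364835172633766535210909825407181526032425354100270700469289999337305940184612924192557367296) :=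
  sem_of_chk (M (nat_lit 461) (B (M (nat_lit 365) (B (M (nat_lit 460) (B (L (nat_lit 492) ln13_11_5 ln13_11_5_ok) (M (nat_lit 462) (B (L (nat_lit 494) ln13_11_4 ln13_11_4_ok) (M (nat_lit 333) (B (L (nat_lit 428) ln13_10_5 ln13_10_5_ok) (L (nat_lit 430) ln13_10_4 ln13_10_4_ok))))))) (B (M (nat_lit 493) (B (M (nat_lit 364) (B (L (nat_lit 332) ln13_14_7 ln13_14_7_ok) (L (nat_lit 396) ln13_15_7 ln13_15_7_ok))) (M (nat_lit 494) (B (L (nat_lit 462) ln13_11_4 ln13_11_4_ok) (L (nat_lit 526) ln13_12_4 ln13_12_4_ok))))) (M (nat_lit 333) (B (M (nat_lit 334) (B (L (nat_lit 302) ln13_13_6 ln13_13_6_ok) (L (nat_lit 366) ln13_14_6 ln13_14_6_ok))) (M (nat_lit 460) (B (L (nat_lit 428) ln13_10_5 ln13_10_5_ok) (L (nat_lit 492) ln13_11_5 ln13_11_5_ok)))))))) (B (M (nat_lit 493) (B (M (nat_lit 365) (B (M (nat_lit 366) (B (L (nat_lit 334) ln13_14_6 ln13_14_6_ok) (L (nat_lit 398) ln13_15_6 ln13_15_6_ok))) (M (nat_lit 492) (B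 (L (nat_lit 460) ln13_11_5 ln13_11_5_ok) (L (nat_lit 524) ln13_12_5 ln13_12_5_ok))))) (B (M (nat_lit 365) (B (M (nat_lit 364) (B (L (nat_lit 332) ln13_14_7 ln13_14_7_ok) (L (nat_lit 396) ln13_15_7 ln13_15_7_ok))) (M (nat_lit 492) (B (L (nat_lit 460) ln13_11_5 ln13_11_5_ok) (L (nat_lit 524) ln13_12_5 ln13_12_5_ok))))) (M (nat_lit 525) (B (M (nat_lit 396) (B (L (nat_lit 364) ln13_15_7 ln13_15_7_ok) (L (nat_lit 428) ln13_16_7 ln13_16_7_ok))) (M (nat_lit 526) (B (L (nat_lit 494) ln13_12_4 ln13_12_4_ok) (L (nat_lit 558) ln13_13_4 ln13_13_4_ok)))))))) (B (M (nat_lit 365) (B (M (nat_lit 493) (B (M (nat_lit 492) (B (L (nat_lit 460) ln13_11_5 ln13_11_5_ok) (L (nat_lit 524) ln13_12_5 ln13_12_5_ok))) (M (nat_lit 494) (B (L (nat_lit 462) ln13_11_4 ln13_11_4_ok) (L (nat_lit 526) ln13_12_4 ln13_12_4_ok))))) (B (M (nat_lit 493) (B (M (nat_lit 366) (B (L (nat_lit 334) ln13_14_6 ln13_14_6_ok) (L (nat_lit 398) ln13_15_6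 ln13_15_6_ok))) (M (nat_lit 494) (B (L (nat_lit 462) ln13_11_4 ln13_11_4_ok) (L (nat_lit 526) ln13_12_4 ln13_12_4_ok))))) (B (M (nat_lit 493) (B (M (nat_lit 366) (B (L (nat_lit 334) ln13_14_6 ln13_14_6_ok) (L (nat_lit 398) ln13_15_6 ln13_15_6_ok))) (M (nat_lit 492) (B (L (nat_lit 460) ln13_11_5 ln13_11_5_ok) (L (nat_lit 524) ln13_12_5 ln13_12_5_ok))))) (M (nat_lit 333) (B (M (nat_lit 334) (B (L (nat_lit 302) ln13_13_6 ln13_13_6_ok) (L (nat_lit 366) ln13_14_6 ln13_14_6_ok))) (M (nat_lit 460) (B (L (nat_lit 428) ln13_10_5 ln13_10_5_ok) (L (nat_lit 492) ln13_11_5 ln13_11_5_ok))))))))) (B (M (nat_lit 365) (B (M (nat_lit 493) (B (M (nat_lit 364) (B (L (nat_lit 332) ln13_14_7 ln13_14_7_ok) (L (nat_lit 396) ln13_15_7 ln13_15_7_ok))) (M (nat_lit 492) (B (L (nat_lit 460) ln13_11_5 ln13_11_5_ok) (L (nat_lit 524) ln13_12_5 ln13_12_5_ok))))) (B (M (nat_lit 493) (B (M (nat_lit 492) (B (L (nat_lit 460) ln13_11_5 ln13_11_5_ok)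 (L (nat_lit 524) ln13_12_5 ln13_12_5_ok))) (M (nat_lit 494) (B (L (nat_lit 462) ln13_11_4 ln13_11_4_ok) (L (nat_lit 526) ln13_12_4 ln13_12_4_ok))))) (B (M (nat_lit 493) (B (M (nat_lit 364) (B (L (nat_lit 332) ln13_14_7 ln13_14_7_ok) (L (nat_lit 396) ln13_15_7 ln13_15_7_ok))) (M (nat_lit 494) (B (L (nat_lit 462) ln13_11_4 ln13_11_4_ok) (L (nat_lit 526) ln13_12_4 ln13_12_4_ok))))) (M (nat_lit 460) (B (L (nat_lit 492) ln13_11_5 ln13_11_5_ok) (M (nat_lit 462) (B (L (nat_lit 494) ln13_11_4 ln13_11_4_ok) (M (nat_lit 333) (B (L (nat_lit 428) ln13_10_5 ln13_10_5_ok) (L (nat_lit 430) ln13_10_4 ln13_10_4_ok))))))))))) (B (K (nat_lit 5954262830815946494763249298768603811203561774969104571805089223376689777636098861358550851719243481454542035207245364041705138952691777536) (nat_lit 1179363258141160341632306725032480602461158791655588400722509874926182197957452415136422352089676496226367969519682857105328364053722867063780190717504152055903179243520)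 (nat_lit 1179363258141160341632306725032480602461158791655588400722509874926182197957452415136422352089676496226367969519682857105328364053722867063780190717504152055903179243520) c33_s269) (B (M (nat_lit 365) (B (M (nat_lit 493) (B (M (nat_lit 364) (B (L (nat_lit 332) ln13_14_7 ln13_14_7_ok) (L (nat_lit 396) ln13_15_7 ln13_15_7_ok))) (M (nat_lit 492) (B (L (nat_lit 460) ln13_11_5 ln13_11_5_ok) (L (nat_lit 524) ln13_12_5 ln13_12_5_ok))))) (B (M (nat_lit 493) (B (M (nat_lit 492) (B (L (nat_lit 460) ln13_11_5 ln13_11_5_ok) (L (nat_lit 524) ln13_12_5 ln13_12_5_ok))) (M (nat_lit 494) (B (L (nat_lit 462) ln13_11_4 ln13_11_4_ok) (L (nat_lit 526) ln13_12_4 ln13_12_4_ok))))) (B (M (nat_lit 493) (B (M (nat_lit 364) (B (L (nat_lit 332) ln13_14_7 ln13_14_7_ok) (L (nat_lit 396) ln13_15_7 ln13_15_7_ok))) (M (nat_lit 494) (B (L (nat_lit 462) ln13_11_4 ln13_11_4_ok) (L (nat_lit 526) ln13_12_4 ln13_12_4_ok))))) (M (nat_lit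 333) (B (M (nat_lit 334) (B (L (nat_lit 302) ln13_13_6 ln13_13_6_ok) (L (nat_lit 366) ln13_14_6 ln13_14_6_ok))) (M (nat_lit 462) (B (L (nat_lit 430) ln13_10_4 ln13_10_4_ok) (L (nat_lit 494) ln13_11_4 ln13_11_4_ok))))))))) (B (M (nat_lit 365) (B (M (nat_lit 493) (B (M (nat_lit 364) (B (L (nat_lit 332) ln13_14_7 ln13_14_7_ok) (L (nat_lit 396) ln13_15_7 ln13_15_7_ok))) (M (nat_lit 366) (B (L (nat_lit 334) ln13_14_6 ln13_14_6_ok) (L (nat_lit 398) ln13_15_6 ln13_15_6_ok))))) (B (M (nat_lit 493) (B (M (nat_lit 366) (B (L (nat_lit 334) ln13_14_6 ln13_14_6_ok) (L (nat_lit 398) ln13_15_6 ln13_15_6_ok))) (M (nat_lit 494) (B (L (nat_lit 462) ln13_11_4 ln13_11_4_ok) (L (nat_lit 526) ln13_12_4 ln13_12_4_ok))))) (B (M (nat_lit 493) (B (M (nat_lit 364) (B (L (nat_lit 332) ln13_14_7 ln13_14_7_ok) (L (nat_lit 396) ln13_15_7 ln13_15_7_ok))) (M (nat_lit 494) (B (L (nat_lit 462) ln13_11_4 ln13_11_4_ok) (L (nat_lit 526) ln13_12_4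 ln13_12_4_ok))))) (M (nat_lit 333) (B (M (nat_lit 334) (B (L (nat_lit 302) ln13_13_6 ln13_13_6_ok) (L (nat_lit 366) ln13_14_6 ln13_14_6_ok))) (M (nat_lit 462) (B (L (nat_lit 430) ln13_10_4 ln13_10_4_ok) (L (nat_lit 494) ln13_11_4 ln13_11_4_ok))))))))) (B c33_n316 (M (nat_lit 365) (B (M (nat_lit 493) (B (M (nat_lit 364) (B (L (nat_lit 332) ln13_14_7 ln13_14_7_ok) (L (nat_lit 396) ln13_15_7 ln13_15_7_ok))) (M (nat_lit 366) (B (L (nat_lit 334) ln13_14_6 ln13_14_6_ok) (L (nat_lit 398) ln13_15_6 ln13_15_6_ok))))) (B (M (nat_lit 493) (B (M (nat_lit 366) (B (L (nat_lit 334) ln13_14_6 ln13_14_6_ok) (L (nat_lit 398) ln13_15_6 ln13_15_6_ok))) (M (nat_lit 492) (B (L (nat_lit 460) ln13_11_5 ln13_11_5_ok) (L (nat_lit 524) ln13_12_5 ln13_12_5_ok))))) (B (M (nat_lit 493) (B (M (nat_lit 364) (B (L (nat_lit 332) ln13_14_7 ln13_14_7_ok) (L (nat_lit 396) ln13_15_7 ln13_15_7_ok))) (M (nat_lit 492) (B (L (nat_lit 460) ln13_11_5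 ln13_11_5_ok) (L (nat_lit 524) ln13_12_5 ln13_12_5_ok))))) (M (nat_lit 333) (B (M (nat_lit 334) (B (L (nat_lit 302) ln13_13_6 ln13_13_6_ok) (L (nat_lit 366) ln13_14_6 ln13_14_6_ok))) (M (nat_lit 460) (B (L (nat_lit 428) ln13_10_5 ln13_10_5_ok) (L (nat_lit 492) ln13_11_5 ln13_11_5_ok)))))))))))))))))) (nat_lit 1386334847383188664550070665778531748218595021979121511688892729411143073470393764272092352380775458208712834410189682411080515584) (nat_lit 1179363258141160342359549267408618075101010767210362885877997665287702489605364835172633766535210909825407181526032425354100270700469289999337305940184612924192557367296) (nat_lit 1179363258141160342359549267408618075101010767210362885877997665287702489605364835172633766535210909825407181526032425354100270700469289999337305940184612924192557367296) (by decide +kernel)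
theorem c33_s325 : Sem (nat_lit 5954262830815946494763249298768603811203561774969104571805089223376689777636098861358550851719243481454542035207245364041705138952691777536) (nat_lit 943490606534895625823378003938764286206461047388172582359504279893319258300541696543208995192972854595410195220454734662483870476432946233316967399206414846937790414848) (nat_lit 943490606534895625823378003938764286206461047388172582359504279893319258300541696543208995192972854595410195220454734662483870476432946233316967399206414846937790414848) :=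
  sem_of_chk (M (nat_lit 396) (B (M (nat_lit 364) (B (L (nat_lit 493) ln13_15_7 ln13_15_7_ok) (M (nat_lit 332) (B (L (nat_lit 300) ln12_9_4 ln12_9_4_ok) (L (nat_lit 428) ln12_10_4 ln12_10_4_ok))))) (B (M (nat_lit 493) (B (L (nat_lit 364) ln13_15_7 ln13_15_7_ok) (M (nat_lit 525) (B (L (nat_lit 428) ln13_16_7 ln13_16_7_ok) (M (nat_lit 398) (B (L (nat_lit 366) ln13_15_6 ln13_15_6_ok) (L (nat_lit 430) ln13_16_6 ln13_16_6_ok))))))) (B (M (nat_lit 398) (B (M (nat_lit 493) (B (L (nat_lit 366) ln13_15_6 ln13_15_6_ok) (M (nat_lit 525) (B (L (nat_lit 428) ln13_16_7 ln13_16_7_ok) (L (nat_lit 430) ln13_16_6 ln13_16_6_ok))))) (B (M (nat_lit 395) (B (M (nat_lit 430) (B (L (nat_lit 394) ln10_12_0 ln10_12_0_ok) (L (nat_lit 431) ln11_12_0 ln11_12_0_ok))) (B (M (nat_lit 399) (B (M (nat_lit 427) (B (L (nat_lit 426) ln14_12_1 ln14_12_1_ok) (L (nat_lit 428) ln15_12_1 ln15_12_1_ok))) (M (nat_lit 431) (B (L (nat_lit 430) ln11_12_0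 ln11_12_0_ok) (L (nat_lit 432) ln12_12_0 ln12_12_0_ok))))) (M (nat_lit 394) (B (M (nat_lit 362) (B (L (nat_lit 361) ln13_12_3 ln13_12_3_ok) (L (nat_lit 363) ln14_12_3 ln14_12_3_ok))) (M (nat_lit 426) (B (L (nat_lit 425) ln13_12_1 ln13_12_1_ok) (L (nat_lit 427) ln14_12_1 ln14_12_1_ok)))))))) (B (M (nat_lit 430) (B (M (nat_lit 395) (B (L (nat_lit 394) ln10_12_0 ln10_12_0_ok) (L (nat_lit 431) ln11_12_0 ln11_12_0_ok))) (M (nat_lit 493) (B (L (nat_lit 366) ln13_15_6 ln13_15_6_ok) (L (nat_lit 525) ln13_16_6 ln13_16_6_ok))))) (M (nat_lit 428) (B (M (nat_lit 493) (B (L (nat_lit 366) ln13_15_6 ln13_15_6_ok) (L (nat_lit 525) ln13_16_7 ln13_16_7_ok))) (M (nat_lit 427) (B (L (nat_lit 399) ln15_12_1 ln15_12_1_ok) (L (nat_lit 426) ln10_13_2 ln10_13_2_ok))))))))) (B (M (nat_lit 493) (B (L (nat_lit 364) ln13_15_7 ln13_15_7_ok) (M (nat_lit 525) (B (M (nat_lit 398) (B (L (nat_lit 366) ln13_15_6 ln13_15_6_ok) (L (nat_lit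 430) ln13_16_6 ln13_16_6_ok))) (M (nat_lit 526) (B (L (nat_lit 494) ln13_12_4 ln13_12_4_ok) (L (nat_lit 558) ln13_13_4 ln13_13_4_ok))))))) (M (nat_lit 398) (B (M (nat_lit 395) (B (M (nat_lit 430) (B (L (nat_lit 394) ln10_12_0 ln10_12_0_ok) (L (nat_lit 431) ln11_12_0 ln11_12_0_ok))) (M (nat_lit 399) (B (M (nat_lit 367) (B (L (nat_lit 366) ln11_12_2 ln11_12_2_ok) (L (nat_lit 368) ln12_12_2 ln12_12_2_ok))) (M (nat_lit 427) (B (L (nat_lit 426) ln14_12_1 ln14_12_1_ok) (L (nat_lit 428) ln15_12_1 ln15_12_1_ok))))))) (B (M (nat_lit 395) (B (M (nat_lit 430) (B (L (nat_lit 394) ln10_12_0 ln10_12_0_ok) (L (nat_lit 431) ln11_12_0 ln11_12_0_ok))) (M (nat_lit 364) (B (M (nat_lit 332) (B (L (nat_lit 300) ln12_9_4 ln12_9_4_ok) (L (nat_lit 428) ln12_10_4 ln12_10_4_ok))) (M (nat_lit 363) (B (L (nat_lit 362) ln14_12_3 ln14_12_3_ok) (L (nat_lit 399) ln15_12_3 ln15_12_3_ok))))))) (B (M (nat_lit 395) (B (M (nat_lit 430) (B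 (L (nat_lit 431) ln11_12_0 ln11_12_0_ok) (M (nat_lit 366) (B (L (nat_lit 334) ln14_10_5 ln14_10_5_ok) (L (nat_lit 367) ln11_12_2 ln11_12_2_ok))))) (M (nat_lit 364) (B (M (nat_lit 332) (B (L (nat_lit 300) ln12_9_4 ln12_9_4_ok) (L (nat_lit 428) ln12_10_4 ln12_10_4_ok))) (M (nat_lit 363) (B (L (nat_lit 362) ln14_12_3 ln14_12_3_ok) (L (nat_lit 399) ln15_12_3 ln15_12_3_ok))))))) (B (M (nat_lit 399) (B (M (nat_lit 428) (B (L (nat_lit 427) ln15_12_1 ln15_12_1_ok) (L (nat_lit 400) ln16_12_1 ln16_12_1_ok))) (B (M (nat_lit 428) (B (L (nat_lit 427) ln15_12_1 ln15_12_1_ok) (M (nat_lit 364) (B (L (nat_lit 332) ln12_10_4 ln12_10_4_ok) (L (nat_lit 363) ln15_12_3 ln15_12_3_ok))))) (B (M (nat_lit 428) (B (L (nat_lit 400) ln16_12_1 ln16_12_1_ok) (M (nat_lit 364) (B (L (nat_lit 332) ln12_10_4 ln12_10_4_ok) (L (nat_lit 363) ln15_12_3 ln15_12_3_ok))))) (M (nat_lit 400) (B (M (nat_lit 368) (B (L (nat_lit 367) ln12_12_2 ln12_12_2_ok)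 (L (nat_lit 369) ln13_12_2 ln13_12_2_ok))) (M (nat_lit 432) (B (L (nat_lit 431) ln12_12_0 ln12_12_0_ok) (L (nat_lit 433) ln13_12_0 ln13_12_0_ok))))))))) (B (M (nat_lit 395) (B (M (nat_lit 430) (B (L (nat_lit 394) ln10_12_0 ln10_12_0_ok) (L (nat_lit 431) ln11_12_0 ln11_12_0_ok))) (B (M (nat_lit 430) (B (L (nat_lit 431) ln11_12_0 ln11_12_0_ok) (M (nat_lit 366) (B (L (nat_lit 334) ln14_10_5 ln14_10_5_ok) (L (nat_lit 367) ln11_12_2 ln11_12_2_ok))))) (M (nat_lit 394) (B (M (nat_lit 362) (B (L (nat_lit 361) ln13_12_3 ln13_12_3_ok) (L (nat_lit 363) ln14_12_3 ln14_12_3_ok))) (M (nat_lit 426) (B (L (nat_lit 425) ln13_12_1 ln13_12_1_ok) (L (nat_lit 427) ln14_12_1 ln14_12_1_ok)))))))) (M (nat_lit 395) (B (M (nat_lit 430) (B (L (nat_lit 394) ln10_12_0 ln10_12_0_ok) (M (nat_lit 366) (B (L (nat_lit 334) ln14_10_5 ln14_10_5_ok) (L (nat_lit 367) ln11_12_2 ln11_12_2_ok))))) (B (M (nat_lit 426) (B (L (nat_lit 427) ln14_12_1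 ln14_12_1_ok) (M (nat_lit 394) (B (L (nat_lit 425) ln13_12_1 ln13_12_1_ok) (L (nat_lit 430) ln10_12_0 ln10_12_0_ok))))) (M (nat_lit 364) (B (M (nat_lit 332) (B (L (nat_lit 300) ln12_9_4 ln12_9_4_ok) (L (nat_lit 428) ln12_10_4 ln12_10_4_ok))) (M (nat_lit 363) (B (L (nat_lit 362) ln14_12_3 ln14_12_3_ok) (L (nat_lit 399) ln15_12_3 ln15_12_3_ok))))))))))))))))))) (nat_lit 5954262830815946494763249298768603811203561774969104571805089223376689777636098861358550851719243481454542035207245364041705138952691777536) (nat_lit 943490606534895625823378003938764286206461047388172582359504279893319258300541696543208995192972854595410195220454734662483870476432946233316967399206414846937790414848) (nat_lit 943490606534895625823378003938764286206461047388172582359504279893319258300541696543208995192972854595410195220454734662483870476432946233316967399206414846937790414848) (by decide +kernel)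
noncomputable def c33_n332 : Cert := (M (nat_lit 460) (B (M (nat_lit 492) (B (L (nat_lit 365) ln13_11_5 ln13_11_5_ok) (M (nat_lit 524) (B (L (nat_lit 428) ln12_16_6 ln12_16_6_ok) (L (nat_lit 556) ln12_17_6 ln12_17_6_ok))))) (B (M (nat_lit 462) (B (M (nat_lit 459) (B (M (nat_lit 430) (B (L (nat_lit 458) ln10_14_2 ln10_14_2_ok) (L (nat_lit 431) ln11_14_2 ln11_14_2_ok))) (M (nat_lit 492) (B (M (nat_lit 524) (B (L (nat_lit 428) ln12_16_6 ln12_16_6_ok) (L (nat_lit 556) ln12_17_6 ln12_17_6_ok))) (M (nat_lit 491) (B (L (nat_lit 490) ln14_14_1 ln14_14_1_ok) (L (nat_lit 463) ln15_14_1 ln15_14_1_ok))))))) (B (M (nat_lit 459) (B (M (nat_lit 430) (B (L (nat_lit 458) ln10_14_2 ln10_14_2_ok) (L (nat_lit 431) ln11_14_2 ln11_14_2_ok))) (M (nat_lit 463) (B (M (nat_lit 491) (B (L (nat_lit 490) ln14_14_1 ln14_14_1_ok) (L (nat_lit 492) ln15_14_1 ln15_14_1_ok))) (M (nat_lit 495) (B (L (nat_lit 494) ln11_14_0 ln11_14_0_ok)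 (L (nat_lit 496) ln12_14_0 ln12_14_0_ok))))))) (B (M (nat_lit 463) (B (M (nat_lit 428) (B (L (nat_lit 427) ln15_14_3 ln15_14_3_ok) (L (nat_lit 464) ln16_14_3 ln16_14_3_ok))) (M (nat_lit 459) (B (M (nat_lit 491) (B (L (nat_lit 490) ln14_14_1 ln14_14_1_ok) (L (nat_lit 492) ln15_14_1 ln15_14_1_ok))) (M (nat_lit 495) (B (L (nat_lit 494) ln11_14_0 ln11_14_0_ok) (L (nat_lit 496) ln12_14_0 ln12_14_0_ok))))))) (B (M (nat_lit 463) (B (M (nat_lit 428) (B (L (nat_lit 427) ln15_14_3 ln15_14_3_ok) (L (nat_lit 464) ln16_14_3 ln16_14_3_ok))) (B (M (nat_lit 428) (B (L (nat_lit 464) ln16_14_3 ln16_14_3_ok) (M (nat_lit 492) (B (L (nat_lit 524) ln12_16_6 ln12_16_6_ok) (L (nat_lit 491) ln15_14_1 ln15_14_1_ok))))) (B (M (nat_lit 464) (B (M (nat_lit 432) (B (L (nat_lit 431) ln12_14_2 ln12_14_2_ok) (L (nat_lit 433) ln13_14_2 ln13_14_2_ok))) (M (nat_lit 496) (B (L (nat_lit 495) ln12_14_0 ln12_14_0_ok) (L (nat_lit 497) ln13_14_0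 ln13_14_0_ok))))) (M (nat_lit 428) (B (L (nat_lit 427) ln15_14_3 ln15_14_3_ok) (M (nat_lit 492) (B (L (nat_lit 524) ln12_16_6 ln12_16_6_ok) (L (nat_lit 491) ln15_14_1 ln15_14_1_ok))))))))) (B (M (nat_lit 459) (B (M (nat_lit 430) (B (L (nat_lit 458) ln10_14_2 ln10_14_2_ok) (L (nat_lit 431) ln11_14_2 ln11_14_2_ok))) (B (M (nat_lit 458) (B (M (nat_lit 426) (B (L (nat_lit 425) ln13_14_3 ln13_14_3_ok) (L (nat_lit 427) ln14_14_3 ln14_14_3_ok))) (M (nat_lit 490) (B (L (nat_lit 489) ln13_14_1 ln13_14_1_ok) (L (nat_lit 491) ln14_14_1 ln14_14_1_ok))))) (M (nat_lit 430) (B (L (nat_lit 431) ln11_14_2 ln11_14_2_ok) (M (nat_lit 494) (B (L (nat_lit 526) ln14_16_7 ln14_16_7_ok) (L (nat_lit 495) ln11_14_0 ln11_14_0_ok)))))))) (M (nat_lit 459) (B (M (nat_lit 430) (B (L (nat_lit 458) ln10_14_2 ln10_14_2_ok) (L (nat_lit 431) ln11_14_2 ln11_14_2_ok))) (M (nat_lit 463) (B (M (nat_lit 427) (B (L (nat_lit 426) ln14_14_3 ln14_14_3_ok)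 (L (nat_lit 428) ln15_14_3 ln15_14_3_ok))) (M (nat_lit 495) (B (L (nat_lit 494) ln11_14_0 ln11_14_0_ok) (L (nat_lit 496) ln12_14_0 ln12_14_0_ok))))))))))))) (B (M (nat_lit 365) (B (L (nat_lit 492) ln13_11_5 ln13_11_5_ok) (M (nat_lit 333) (B (M (nat_lit 332) (B (L (nat_lit 300) ln13_13_7 ln13_13_7_ok) (L (nat_lit 364) ln13_14_7 ln13_14_7_ok))) (M (nat_lit 462) (B (L (nat_lit 430) ln13_10_4 ln13_10_4_ok) (L (nat_lit 494) ln13_11_4 ln13_11_4_ok))))))) (M (nat_lit 462) (B (M (nat_lit 365) (B (L (nat_lit 494) ln13_11_4 ln13_11_4_ok) (M (nat_lit 333) (B (L (nat_lit 428) ln13_10_5 ln13_10_5_ok) (L (nat_lit 430) ln13_10_4 ln13_10_4_ok))))) (B (M (nat_lit 459) (B (M (nat_lit 430) (B (L (nat_lit 458) ln10_14_2 ln10_14_2_ok) (L (nat_lit 431) ln11_14_2 ln11_14_2_ok))) (M (nat_lit 494) (B (L (nat_lit 365) ln13_11_4 ln13_11_4_ok) (L (nat_lit 495) ln11_14_0 ln11_14_0_ok))))) (B (M (nat_lit 459) (B (M (nat_lit 430) (B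 (L (nat_lit 458) ln10_14_2 ln10_14_2_ok) (L (nat_lit 431) ln11_14_2 ln11_14_2_ok))) (B (M (nat_lit 458) (B (M (nat_lit 426) (B (L (nat_lit 425) ln13_14_3 ln13_14_3_ok) (L (nat_lit 427) ln14_14_3 ln14_14_3_ok))) (M (nat_lit 490) (B (L (nat_lit 489) ln13_14_1 ln13_14_1_ok) (L (nat_lit 491) ln14_14_1 ln14_14_1_ok))))) (M (nat_lit 463) (B (M (nat_lit 427) (B (L (nat_lit 426) ln14_14_3 ln14_14_3_ok) (L (nat_lit 428) ln15_14_3 ln15_14_3_ok))) (M (nat_lit 431) (B (L (nat_lit 430) ln11_14_2 ln11_14_2_ok) (L (nat_lit 432) ln12_14_2 ln12_14_2_ok)))))))) (M (nat_lit 428) (B (M (nat_lit 365) (B (L (nat_lit 333) ln13_10_5 ln13_10_5_ok) (L (nat_lit 494) ln13_11_4 ln13_11_4_ok))) (M (nat_lit 427) (B (L (nat_lit 426) ln10_13_0 ln10_13_0_ok) (L (nat_lit 463) ln15_14_3 ln15_14_3_ok)))))))))))))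
theorem c33_s334 : Sem (nat_lit 1386334847383188664550070665778531748218595021979121511688892729411143073470393764272092352380775458208712834410189682411080515584) (nat_lit 1179363258141160342359549267408618075101010767210362885877997665287702489605358724064704763076952104488341953391549270948919272891717381577989242796285322914074007175168) (nat_lit 1179363258141160342359549267408618075101010767210362885877997665287702489605358724064704763076952104488341953391549270948919272891717381577989242796285322914074007175168) :=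
  sem_of_chk (M (nat_lit 461) (B (M (nat_lit 365) (B (M (nat_lit 460) (B (L (nat_lit 492) ln13_11_5 ln13_11_5_ok) (M (nat_lit 462) (B (L (nat_lit 494) ln13_11_4 ln13_11_4_ok) (M (nat_lit 333) (B (L (nat_lit 428) ln13_10_5 ln13_10_5_ok) (L (nat_lit 430) ln13_10_4 ln13_10_4_ok))))))) (B (M (nat_lit 493) (B (M (nat_lit 364) (B (L (nat_lit 332) ln13_14_7 ln13_14_7_ok) (L (nat_lit 396) ln13_15_7 ln13_15_7_ok))) (M (nat_lit 494) (B (L (nat_lit 462) ln13_11_4 ln13_11_4_ok) (L (nat_lit 526) ln13_12_4 ln13_12_4_ok))))) (M (nat_lit 333) (B (M (nat_lit 332) (B (L (nat_lit 300) ln13_13_7 ln13_13_7_ok) (L (nat_lit 364) ln13_14_7 ln13_14_7_ok))) (M (nat_lit 460) (B (L (nat_lit 428) ln13_10_5 ln13_10_5_ok) (L (nat_lit 492) ln13_11_5 ln13_11_5_ok)))))))) (B (M (nat_lit 493) (B (M (nat_lit 365) (B (M (nat_lit 366) (B (L (nat_lit 334) ln13_14_6 ln13_14_6_ok) (L (nat_lit 398) ln13_15_6 ln13_15_6_ok))) (M (nat_lit 492) (B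 (L (nat_lit 460) ln13_11_5 ln13_11_5_ok) (L (nat_lit 524) ln13_12_5 ln13_12_5_ok))))) (B (M (nat_lit 365) (B (M (nat_lit 364) (B (L (nat_lit 332) ln13_14_7 ln13_14_7_ok) (L (nat_lit 396) ln13_15_7 ln13_15_7_ok))) (M (nat_lit 492) (B (L (nat_lit 460) ln13_11_5 ln13_11_5_ok) (L (nat_lit 524) ln13_12_5 ln13_12_5_ok))))) (M (nat_lit 525) (B (M (nat_lit 396) (B (L (nat_lit 364) ln13_15_7 ln13_15_7_ok) (L (nat_lit 428) ln13_16_7 ln13_16_7_ok))) (M (nat_lit 526) (B (L (nat_lit 494) ln13_12_4 ln13_12_4_ok) (L (nat_lit 558) ln13_13_4 ln13_13_4_ok)))))))) (B (M (nat_lit 365) (B (M (nat_lit 493) (B (M (nat_lit 366) (B (L (nat_lit 334) ln13_14_6 ln13_14_6_ok) (L (nat_lit 398) ln13_15_6 ln13_15_6_ok))) (M (nat_lit 492) (B (L (nat_lit 460) ln13_11_5 ln13_11_5_ok) (L (nat_lit 524) ln13_12_5 ln13_12_5_ok))))) (B (M (nat_lit 493) (B (M (nat_lit 492) (B (L (nat_lit 460) ln13_11_5 ln13_11_5_ok) (L (nat_lit 524) ln13_12_5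 ln13_12_5_ok))) (M (nat_lit 494) (B (L (nat_lit 462) ln13_11_4 ln13_11_4_ok) (L (nat_lit 526) ln13_12_4 ln13_12_4_ok))))) (B (M (nat_lit 493) (B (M (nat_lit 366) (B (L (nat_lit 334) ln13_14_6 ln13_14_6_ok) (L (nat_lit 398) ln13_15_6 ln13_15_6_ok))) (M (nat_lit 494) (B (L (nat_lit 462) ln13_11_4 ln13_11_4_ok) (L (nat_lit 526) ln13_12_4 ln13_12_4_ok))))) (M (nat_lit 460) (B (L (nat_lit 492) ln13_11_5 ln13_11_5_ok) (M (nat_lit 462) (B (L (nat_lit 494) ln13_11_4 ln13_11_4_ok) (M (nat_lit 333) (B (L (nat_lit 428) ln13_10_5 ln13_10_5_ok) (L (nat_lit 430) ln13_10_4 ln13_10_4_ok))))))))))) (B (K (nat_lit 5954262830815946494763249298768603811203561774969104571805089223376689777636098861358550851719243481454542035207245364041705138952691777536) (nat_lit 943490606534895625823378003938764286206461047388172582359504279893319258300541696543208995192972854595410195220454734662483870476432946233316967399206414846937790414848)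 (nat_lit 943490606534895625823378003938764286206461047388172582359504279893319258300541696543208995192972854595410195220454734662483870476432946233316967399206414846937790414848) c33_s325) (B (M (nat_lit 365) (B (M (nat_lit 493) (B (M (nat_lit 366) (B (L (nat_lit 334) ln13_14_6 ln13_14_6_ok) (L (nat_lit 398) ln13_15_6 ln13_15_6_ok))) (M (nat_lit 494) (B (L (nat_lit 462) ln13_11_4 ln13_11_4_ok) (L (nat_lit 526) ln13_12_4 ln13_12_4_ok))))) (B (M (nat_lit 493) (B (M (nat_lit 364) (B (L (nat_lit 332) ln13_14_7 ln13_14_7_ok) (L (nat_lit 396) ln13_15_7 ln13_15_7_ok))) (M (nat_lit 494) (B (L (nat_lit 462) ln13_11_4 ln13_11_4_ok) (L (nat_lit 526) ln13_12_4 ln13_12_4_ok))))) (B (M (nat_lit 493) (B (M (nat_lit 364) (B (L (nat_lit 332) ln13_14_7 ln13_14_7_ok) (L (nat_lit 396) ln13_15_7 ln13_15_7_ok))) (M (nat_lit 492) (B (L (nat_lit 460) ln13_11_5 ln13_11_5_ok) (L (nat_lit 524) ln13_12_5 ln13_12_5_ok))))) (M (nat_lit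 333) (B (M (nat_lit 332) (B (L (nat_lit 300) ln13_13_7 ln13_13_7_ok) (L (nat_lit 364) ln13_14_7 ln13_14_7_ok))) (M (nat_lit 462) (B (L (nat_lit 430) ln13_10_4 ln13_10_4_ok) (L (nat_lit 494) ln13_11_4 ln13_11_4_ok))))))))) (B c33_n332 (M (nat_lit 365) (B (M (nat_lit 493) (B (M (nat_lit 366) (B (L (nat_lit 334) ln13_14_6 ln13_14_6_ok) (L (nat_lit 398) ln13_15_6 ln13_15_6_ok))) (M (nat_lit 492) (B (L (nat_lit 460) ln13_11_5 ln13_11_5_ok) (L (nat_lit 524) ln13_12_5 ln13_12_5_ok))))) (B (M (nat_lit 493) (B (M (nat_lit 364) (B (L (nat_lit 332) ln13_14_7 ln13_14_7_ok) (L (nat_lit 396) ln13_15_7 ln13_15_7_ok))) (M (nat_lit 492) (B (L (nat_lit 460) ln13_11_5 ln13_11_5_ok) (L (nat_lit 524) ln13_12_5 ln13_12_5_ok))))) (B (M (nat_lit 493) (B (M (nat_lit 364) (B (L (nat_lit 332) ln13_14_7 ln13_14_7_ok) (L (nat_lit 396) ln13_15_7 ln13_15_7_ok))) (M (nat_lit 366) (B (L (nat_lit 334) ln13_14_6 ln13_14_6_ok) (L (nat_lit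 398) ln13_15_6 ln13_15_6_ok))))) (M (nat_lit 333) (B (M (nat_lit 332) (B (L (nat_lit 300) ln13_13_7 ln13_13_7_ok) (L (nat_lit 364) ln13_14_7 ln13_14_7_ok))) (M (nat_lit 460) (B (L (nat_lit 428) ln13_10_5 ln13_10_5_ok) (L (nat_lit 492) ln13_11_5 ln13_11_5_ok)))))))))))))))) (nat_lit 1386334847383188664550070665778531748218595021979121511688892729411143073470393764272092352380775458208712834410189682411080515584) (nat_lit 1179363258141160342359549267408618075101010767210362885877997665287702489605358724064704763076952104488341953391549270948919272891717381577989242796285322914074007175168) (nat_lit 1179363258141160342359549267408618075101010767210362885877997665287702489605358724064704763076952104488341953391549270948919272891717381577989242796285322914074007175168) (by decide +kernel)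
noncomputable def c33_n346 : Cert := (M (nat_lit 396) (B (M (nat_lit 493) (B (L (nat_lit 364) ln13_15_7 ln13_15_7_ok) (M (nat_lit 525) (B (L (nat_lit 428) ln13_16_7 ln13_16_7_ok) (M (nat_lit 398) (B (L (nat_lit 366) ln13_15_6 ln13_15_6_ok) (L (nat_lit 430) ln13_16_6 ln13_16_6_ok))))))) (B (M (nat_lit 398) (B (M (nat_lit 493) (B (L (nat_lit 366) ln13_15_6 ln13_15_6_ok) (M (nat_lit 525) (B (L (nat_lit 428) ln13_16_7 ln13_16_7_ok) (L (nat_lit 430) ln13_16_6 ln13_16_6_ok))))) (B (M (nat_lit 395) (B (M (nat_lit 430) (B (L (nat_lit 394) ln10_12_0 ln10_12_0_ok) (L (nat_lit 431) ln11_12_0 ln11_12_0_ok))) (B (M (nat_lit 399) (B (M (nat_lit 427) (B (L (nat_lit 426) ln14_12_1 ln14_12_1_ok) (L (nat_lit 428) ln15_12_1 ln15_12_1_ok))) (M (nat_lit 431) (B (L (nat_lit 430) ln11_12_0 ln11_12_0_ok) (L (nat_lit 432) ln12_12_0 ln12_12_0_ok))))) (M (nat_lit 394) (B (M (nat_lit 362) (B (L (nat_lit 361) ln13_12_3 ln13_12_3_ok)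 (L (nat_lit 363) ln14_12_3 ln14_12_3_ok))) (M (nat_lit 426) (B (L (nat_lit 425) ln13_12_1 ln13_12_1_ok) (L (nat_lit 427) ln14_12_1 ln14_12_1_ok)))))))) (B (M (nat_lit 430) (B (M (nat_lit 395) (B (L (nat_lit 394) ln10_12_0 ln10_12_0_ok) (L (nat_lit 431) ln11_12_0 ln11_12_0_ok))) (M (nat_lit 493) (B (L (nat_lit 366) ln13_15_6 ln13_15_6_ok) (L (nat_lit 525) ln13_16_6 ln13_16_6_ok))))) (M (nat_lit 428) (B (M (nat_lit 493) (B (L (nat_lit 366) ln13_15_6 ln13_15_6_ok) (L (nat_lit 525) ln13_16_7 ln13_16_7_ok))) (M (nat_lit 427) (B (L (nat_lit 399) ln15_12_1 ln15_12_1_ok) (L (nat_lit 426) ln10_13_2 ln10_13_2_ok))))))))) (B (M (nat_lit 493) (B (L (nat_lit 364) ln13_15_7 ln13_15_7_ok) (M (nat_lit 525) (B (L (nat_lit 428) ln13_16_7 ln13_16_7_ok) (M (nat_lit 524) (B (L (nat_lit 492) ln13_12_5 ln13_12_5_ok) (L (nat_lit 556) ln13_13_5 ln13_13_5_ok))))))) (B (M (nat_lit 493) (B (L (nat_lit 364) ln13_15_7 ln13_15_7_ok)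 (M (nat_lit 525) (B (M (nat_lit 398) (B (L (nat_lit 366) ln13_15_6 ln13_15_6_ok) (L (nat_lit 430) ln13_16_6 ln13_16_6_ok))) (M (nat_lit 526) (B (L (nat_lit 494) ln13_12_4 ln13_12_4_ok) (L (nat_lit 558) ln13_13_4 ln13_13_4_ok))))))) (M (nat_lit 395) (B (M (nat_lit 430) (B (L (nat_lit 394) ln10_12_0 ln10_12_0_ok) (M (nat_lit 431) (B (L (nat_lit 398) ln11_12_0 ln11_12_0_ok) (L (nat_lit 428) ln15_13_3 ln15_13_3_ok))))) (B (M (nat_lit 398) (B (M (nat_lit 430) (B (L (nat_lit 431) ln11_12_0 ln11_12_0_ok) (M (nat_lit 366) (B (L (nat_lit 334) ln14_10_5 ln14_10_5_ok) (L (nat_lit 367) ln11_12_2 ln11_12_2_ok))))) (M (nat_lit 399) (B (M (nat_lit 363) (B (L (nat_lit 362) ln14_12_3 ln14_12_3_ok) (L (nat_lit 364) ln15_12_3 ln15_12_3_ok))) (M (nat_lit 427) (B (L (nat_lit 426) ln14_12_1 ln14_12_1_ok) (L (nat_lit 428) ln15_12_1 ln15_12_1_ok))))))) (B (M (nat_lit 430) (B (L (nat_lit 394) ln10_12_0 ln10_12_0_ok) (M (nat_lit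 431) (B (L (nat_lit 428) ln15_13_3 ln15_13_3_ok) (L (nat_lit 432) ln16_13_3 ln16_13_3_ok))))) (B (M (nat_lit 430) (B (L (nat_lit 394) ln10_12_0 ln10_12_0_ok) (M (nat_lit 431) (B (L (nat_lit 398) ln11_12_0 ln11_12_0_ok) (L (nat_lit 432) ln16_13_3 ln16_13_3_ok))))) (M (nat_lit 398) (B (M (nat_lit 399) (B (M (nat_lit 367) (B (L (nat_lit 366) ln11_12_2 ln11_12_2_ok) (L (nat_lit 368) ln12_12_2 ln12_12_2_ok))) (M (nat_lit 427) (B (L (nat_lit 426) ln14_12_1 ln14_12_1_ok) (L (nat_lit 428) ln15_12_1 ln15_12_1_ok))))) (B (M (nat_lit 399) (B (M (nat_lit 363) (B (L (nat_lit 362) ln14_12_3 ln14_12_3_ok) (L (nat_lit 364) ln15_12_3 ln15_12_3_ok))) (M (nat_lit 427) (B (L (nat_lit 426) ln14_12_1 ln14_12_1_ok) (L (nat_lit 428) ln15_12_1 ln15_12_1_ok))))) (B (M (nat_lit 394) (B (M (nat_lit 362) (B (L (nat_lit 361) ln13_12_3 ln13_12_3_ok) (L (nat_lit 363) ln14_12_3 ln14_12_3_ok))) (M (nat_lit 426) (B (L (nat_lit 425) ln13_12_1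 ln13_12_1_ok) (L (nat_lit 427) ln14_12_1 ln14_12_1_ok))))) (M (nat_lit 399) (B (M (nat_lit 363) (B (L (nat_lit 362) ln14_12_3 ln14_12_3_ok) (L (nat_lit 364) ln15_12_3 ln15_12_3_ok))) (M (nat_lit 367) (B (L (nat_lit 366) ln11_12_2 ln11_12_2_ok) (L (nat_lit 368) ln12_12_2 ln12_12_2_ok)))))))))))))))))))
theorem c33_s356 : Sem (nat_lit 1386334847383188664550070665778531748218595021979121511688892729411143073470393764272092352380775458208712834410189682411080515584) (nat_lit 1179363258141160342359549267408618075101010767207780635998708302895657618817783277185050430175456866362074049717966071904913235402555325311006956717882814123559366950912) (nat_lit 1179363258141160342359549267408618075101010767207780635998708302895657618817783277185050430175456866362074049717966071904913235402555325311006956717882814123559366950912) :=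
  sem_of_chk (M (nat_lit 461) (B (M (nat_lit 365) (B (M (nat_lit 460) (B (L (nat_lit 492) ln13_11_5 ln13_11_5_ok) (M (nat_lit 462) (B (L (nat_lit 494) ln13_11_4 ln13_11_4_ok) (M (nat_lit 333) (B (L (nat_lit 428) ln13_10_5 ln13_10_5_ok) (L (nat_lit 430) ln13_10_4 ln13_10_4_ok))))))) (B (M (nat_lit 493) (B (M (nat_lit 366) (B (L (nat_lit 334) ln13_14_6 ln13_14_6_ok) (L (nat_lit 398) ln13_15_6 ln13_15_6_ok))) (M (nat_lit 494) (B (L (nat_lit 462) ln13_11_4 ln13_11_4_ok) (L (nat_lit 526) ln13_12_4 ln13_12_4_ok))))) (M (nat_lit 333) (B (M (nat_lit 334) (B (L (nat_lit 302) ln13_13_6 ln13_13_6_ok) (L (nat_lit 366) ln13_14_6 ln13_14_6_ok))) (M (nat_lit 460) (B (L (nat_lit 428) ln13_10_5 ln13_10_5_ok) (L (nat_lit 492) ln13_11_5 ln13_11_5_ok)))))))) (B (M (nat_lit 365) (B (M (nat_lit 493) (B (M (nat_lit 366) (B (L (nat_lit 334) ln13_14_6 ln13_14_6_ok) (L (nat_lit 398) ln13_15_6 ln13_15_6_ok))) (M (nat_lit 492) (B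 (L (nat_lit 460) ln13_11_5 ln13_11_5_ok) (L (nat_lit 524) ln13_12_5 ln13_12_5_ok))))) (B (M (nat_lit 493) (B (M (nat_lit 492) (B (L (nat_lit 460) ln13_11_5 ln13_11_5_ok) (L (nat_lit 524) ln13_12_5 ln13_12_5_ok))) (M (nat_lit 494) (B (L (nat_lit 462) ln13_11_4 ln13_11_4_ok) (L (nat_lit 526) ln13_12_4 ln13_12_4_ok))))) (B (M (nat_lit 493) (B (M (nat_lit 366) (B (L (nat_lit 334) ln13_14_6 ln13_14_6_ok) (L (nat_lit 398) ln13_15_6 ln13_15_6_ok))) (M (nat_lit 494) (B (L (nat_lit 462) ln13_11_4 ln13_11_4_ok) (L (nat_lit 526) ln13_12_4 ln13_12_4_ok))))) (M (nat_lit 460) (B (L (nat_lit 492) ln13_11_5 ln13_11_5_ok) (M (nat_lit 462) (B (L (nat_lit 494) ln13_11_4 ln13_11_4_ok) (M (nat_lit 333) (B (L (nat_lit 428) ln13_10_5 ln13_10_5_ok) (L (nat_lit 430) ln13_10_4 ln13_10_4_ok))))))))))) (B (M (nat_lit 493) (B (M (nat_lit 365) (B (M (nat_lit 366) (B (L (nat_lit 334) ln13_14_6 ln13_14_6_ok) (L (nat_lit 398) ln13_15_6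 ln13_15_6_ok))) (M (nat_lit 492) (B (L (nat_lit 460) ln13_11_5 ln13_11_5_ok) (L (nat_lit 524) ln13_12_5 ln13_12_5_ok))))) (M (nat_lit 525) (B (M (nat_lit 396) (B (L (nat_lit 364) ln13_15_7 ln13_15_7_ok) (L (nat_lit 428) ln13_16_7 ln13_16_7_ok))) (M (nat_lit 526) (B (L (nat_lit 494) ln13_12_4 ln13_12_4_ok) (L (nat_lit 558) ln13_13_4 ln13_13_4_ok))))))) (B (M (nat_lit 493) (B (M (nat_lit 525) (B (M (nat_lit 396) (B (L (nat_lit 364) ln13_15_7 ln13_15_7_ok) (L (nat_lit 428) ln13_16_7 ln13_16_7_ok))) (M (nat_lit 524) (B (L (nat_lit 492) ln13_12_5 ln13_12_5_ok) (L (nat_lit 556) ln13_13_5 ln13_13_5_ok))))) (B (M (nat_lit 365) (B (M (nat_lit 492) (B (L (nat_lit 460) ln13_11_5 ln13_11_5_ok) (L (nat_lit 524) ln13_12_5 ln13_12_5_ok))) (M (nat_lit 494) (B (L (nat_lit 462) ln13_11_4 ln13_11_4_ok) (L (nat_lit 526) ln13_12_4 ln13_12_4_ok))))) (M (nat_lit 525) (B (M (nat_lit 396) (B (L (nat_lit 364) ln13_15_7 ln13_15_7_ok)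 (L (nat_lit 428) ln13_16_7 ln13_16_7_ok))) (M (nat_lit 526) (B (L (nat_lit 494) ln13_12_4 ln13_12_4_ok) (L (nat_lit 558) ln13_13_4 ln13_13_4_ok)))))))) (B c33_n346 (B (M (nat_lit 493) (B (M (nat_lit 365) (B (M (nat_lit 492) (B (L (nat_lit 460) ln13_11_5 ln13_11_5_ok) (L (nat_lit 524) ln13_12_5 ln13_12_5_ok))) (M (nat_lit 494) (B (L (nat_lit 462) ln13_11_4 ln13_11_4_ok) (L (nat_lit 526) ln13_12_4 ln13_12_4_ok))))) (B (M (nat_lit 525) (B (M (nat_lit 398) (B (L (nat_lit 366) ln13_15_6 ln13_15_6_ok) (L (nat_lit 430) ln13_16_6 ln13_16_6_ok))) (M (nat_lit 526) (B (L (nat_lit 494) ln13_12_4 ln13_12_4_ok) (L (nat_lit 558) ln13_13_4 ln13_13_4_ok))))) (M (nat_lit 365) (B (M (nat_lit 366) (B (L (nat_lit 334) ln13_14_6 ln13_14_6_ok) (L (nat_lit 398) ln13_15_6 ln13_15_6_ok))) (M (nat_lit 492) (B (L (nat_lit 460) ln13_11_5 ln13_11_5_ok) (L (nat_lit 524) ln13_12_5 ln13_12_5_ok)))))))) (B (M (nat_lit 493) (B (M (nat_lit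 525) (B (M (nat_lit 396) (B (L (nat_lit 364) ln13_15_7 ln13_15_7_ok) (L (nat_lit 428) ln13_16_7 ln13_16_7_ok))) (M (nat_lit 398) (B (L (nat_lit 366) ln13_15_6 ln13_15_6_ok) (L (nat_lit 430) ln13_16_6 ln13_16_6_ok))))) (B (M (nat_lit 365) (B (M (nat_lit 366) (B (L (nat_lit 334) ln13_14_6 ln13_14_6_ok) (L (nat_lit 398) ln13_15_6 ln13_15_6_ok))) (M (nat_lit 494) (B (L (nat_lit 462) ln13_11_4 ln13_11_4_ok) (L (nat_lit 526) ln13_12_4 ln13_12_4_ok))))) (M (nat_lit 525) (B (M (nat_lit 396) (B (L (nat_lit 364) ln13_15_7 ln13_15_7_ok) (L (nat_lit 428) ln13_16_7 ln13_16_7_ok))) (M (nat_lit 526) (B (L (nat_lit 494) ln13_12_4 ln13_12_4_ok) (L (nat_lit 558) ln13_13_4 ln13_13_4_ok)))))))) (B c33_n316 (M (nat_lit 493) (B (M (nat_lit 525) (B (M (nat_lit 396) (B (L (nat_lit 364) ln13_15_7 ln13_15_7_ok) (L (nat_lit 428) ln13_16_7 ln13_16_7_ok))) (M (nat_lit 398) (B (L (nat_lit 366) ln13_15_6 ln13_15_6_ok) (L (nat_lit 430)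 ln13_16_6 ln13_16_6_ok))))) (B (M (nat_lit 365) (B (M (nat_lit 366) (B (L (nat_lit 334) ln13_14_6 ln13_14_6_ok) (L (nat_lit 398) ln13_15_6 ln13_15_6_ok))) (M (nat_lit 492) (B (L (nat_lit 460) ln13_11_5 ln13_11_5_ok) (L (nat_lit 524) ln13_12_5 ln13_12_5_ok))))) (M (nat_lit 525) (B (M (nat_lit 396) (B (L (nat_lit 364) ln13_15_7 ln13_15_7_ok) (L (nat_lit 428) ln13_16_7 ln13_16_7_ok))) (M (nat_lit 524) (B (L (nat_lit 492) ln13_12_5 ln13_12_5_ok) (L (nat_lit 556) ln13_13_5 ln13_13_5_ok))))))))))))))))) (nat_lit 1386334847383188664550070665778531748218595021979121511688892729411143073470393764272092352380775458208712834410189682411080515584) (nat_lit 1179363258141160342359549267408618075101010767207780635998708302895657618817783277185050430175456866362074049717966071904913235402555325311006956717882814123559366950912) (nat_lit 1179363258141160342359549267408618075101010767207780635998708302895657618817783277185050430175456866362074049717966071904913235402555325311006956717882814123559366950912)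 (by decide +kernel)
theorem c33_s398 : Sem (nat_lit 5954262830815946494763249298768603811203561774969104571805089223376689777636098861358550851719243481454542035207245364041705138952691777536) (nat_lit 1179363258031323579771886147838764791126800819575404871195400826791355787937451662402753248332802508193001135092434200500849087269945026126024478953010818189594153975808) (nat_lit 1179363258031323579771886147838764791126800819575404871195400826791355787937451662402753248332802508193001135092434200500849087269945026126024478953010818189594153975808) :=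
  sem_of_chk (M (nat_lit 460) (B (M (nat_lit 492) (B (L (nat_lit 365) ln13_11_5 ln13_11_5_ok) (M (nat_lit 524) (B (L (nat_lit 428) ln12_16_6 ln12_16_6_ok) (L (nat_lit 556) ln12_17_6 ln12_17_6_ok))))) (B (M (nat_lit 462) (B (M (nat_lit 459) (B (M (nat_lit 430) (B (L (nat_lit 458) ln10_14_2 ln10_14_2_ok) (L (nat_lit 431) ln11_14_2 ln11_14_2_ok))) (M (nat_lit 492) (B (M (nat_lit 524) (B (L (nat_lit 428) ln12_16_6 ln12_16_6_ok) (L (nat_lit 556) ln12_17_6 ln12_17_6_ok))) (M (nat_lit 491) (B (L (nat_lit 490) ln14_14_1 ln14_14_1_ok) (L (nat_lit 463) ln15_14_1 ln15_14_1_ok))))))) (B (M (nat_lit 459) (B (M (nat_lit 430) (B (L (nat_lit 458) ln10_14_2 ln10_14_2_ok) (L (nat_lit 431) ln11_14_2 ln11_14_2_ok))) (M (nat_lit 463) (B (M (nat_lit 491) (B (L (nat_lit 490) ln14_14_1 ln14_14_1_ok) (L (nat_lit 492) ln15_14_1 ln15_14_1_ok))) (M (nat_lit 495) (B (L (nat_lit 494) ln11_14_0 ln11_14_0_ok) (L (nat_lit 496) ln12_14_0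 ln12_14_0_ok))))))) (B (M (nat_lit 463) (B (M (nat_lit 428) (B (L (nat_lit 427) ln15_14_3 ln15_14_3_ok) (L (nat_lit 464) ln16_14_3 ln16_14_3_ok))) (M (nat_lit 459) (B (M (nat_lit 491) (B (L (nat_lit 490) ln14_14_1 ln14_14_1_ok) (L (nat_lit 492) ln15_14_1 ln15_14_1_ok))) (M (nat_lit 495) (B (L (nat_lit 494) ln11_14_0 ln11_14_0_ok) (L (nat_lit 496) ln12_14_0 ln12_14_0_ok))))))) (B (M (nat_lit 463) (B (M (nat_lit 428) (B (L (nat_lit 427) ln15_14_3 ln15_14_3_ok) (L (nat_lit 464) ln16_14_3 ln16_14_3_ok))) (B (M (nat_lit 428) (B (L (nat_lit 464) ln16_14_3 ln16_14_3_ok) (M (nat_lit 492) (B (L (nat_lit 524) ln12_16_6 ln12_16_6_ok) (L (nat_lit 491) ln15_14_1 ln15_14_1_ok))))) (B (M (nat_lit 464) (B (M (nat_lit 432) (B (L (nat_lit 431) ln12_14_2 ln12_14_2_ok) (L (nat_lit 433) ln13_14_2 ln13_14_2_ok))) (M (nat_lit 496) (B (L (nat_lit 495) ln12_14_0 ln12_14_0_ok) (L (nat_lit 497) ln13_14_0 ln13_14_0_ok))))) (M (nat_lit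 428) (B (L (nat_lit 427) ln15_14_3 ln15_14_3_ok) (M (nat_lit 492) (B (L (nat_lit 524) ln12_16_6 ln12_16_6_ok) (L (nat_lit 491) ln15_14_1 ln15_14_1_ok))))))))) (B (M (nat_lit 459) (B (M (nat_lit 430) (B (L (nat_lit 458) ln10_14_2 ln10_14_2_ok) (L (nat_lit 431) ln11_14_2 ln11_14_2_ok))) (B (M (nat_lit 458) (B (M (nat_lit 426) (B (L (nat_lit 425) ln13_14_3 ln13_14_3_ok) (L (nat_lit 427) ln14_14_3 ln14_14_3_ok))) (M (nat_lit 490) (B (L (nat_lit 489) ln13_14_1 ln13_14_1_ok) (L (nat_lit 491) ln14_14_1 ln14_14_1_ok))))) (M (nat_lit 430) (B (L (nat_lit 431) ln11_14_2 ln11_14_2_ok) (M (nat_lit 494) (B (L (nat_lit 526) ln14_16_7 ln14_16_7_ok) (L (nat_lit 495) ln11_14_0 ln11_14_0_ok)))))))) (M (nat_lit 459) (B (M (nat_lit 430) (B (L (nat_lit 458) ln10_14_2 ln10_14_2_ok) (L (nat_lit 431) ln11_14_2 ln11_14_2_ok))) (M (nat_lit 463) (B (M (nat_lit 427) (B (L (nat_lit 426) ln14_14_3 ln14_14_3_ok) (L (nat_lit 428) ln15_14_3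 ln15_14_3_ok))) (M (nat_lit 495) (B (L (nat_lit 494) ln11_14_0 ln11_14_0_ok) (L (nat_lit 496) ln12_14_0 ln12_14_0_ok))))))))))))) (B (M (nat_lit 462) (B (M (nat_lit 365) (B (L (nat_lit 492) ln13_11_5 ln13_11_5_ok) (L (nat_lit 494) ln13_11_4 ln13_11_4_ok))) (B (M (nat_lit 459) (B (M (nat_lit 430) (B (L (nat_lit 458) ln10_14_2 ln10_14_2_ok) (L (nat_lit 431) ln11_14_2 ln11_14_2_ok))) (M (nat_lit 463) (B (M (nat_lit 491) (B (L (nat_lit 490) ln14_14_1 ln14_14_1_ok) (L (nat_lit 492) ln15_14_1 ln15_14_1_ok))) (M (nat_lit 495) (B (L (nat_lit 494) ln11_14_0 ln11_14_0_ok) (L (nat_lit 496) ln12_14_0 ln12_14_0_ok))))))) (B (M (nat_lit 430) (B (M (nat_lit 494) (B (L (nat_lit 365) ln13_11_4 ln13_11_4_ok) (L (nat_lit 526) ln14_16_7 ln14_16_7_ok))) (M (nat_lit 459) (B (L (nat_lit 458) ln10_14_2 ln10_14_2_ok) (L (nat_lit 431) ln11_14_2 ln11_14_2_ok))))) (M (nat_lit 492) (B (L (nat_lit 365) ln13_11_5 ln13_11_5_ok) (M (nat_lit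 491) (B (L (nat_lit 463) ln15_14_1 ln15_14_1_ok) (M (nat_lit 490) (B (L (nat_lit 459) ln14_14_1 ln14_14_1_ok) (L (nat_lit 489) ln9_15_2 ln9_15_2_ok))))))))))) (M (nat_lit 462) (B (M (nat_lit 494) (B (L (nat_lit 365) ln13_11_4 ln13_11_4_ok) (M (nat_lit 526) (B (L (nat_lit 430) ln14_16_7 ln14_16_7_ok) (L (nat_lit 558) ln14_17_7 ln14_17_7_ok))))) (B (M (nat_lit 459) (B (M (nat_lit 430) (B (L (nat_lit 458) ln10_14_2 ln10_14_2_ok) (L (nat_lit 431) ln11_14_2 ln11_14_2_ok))) (M (nat_lit 463) (B (M (nat_lit 427) (B (L (nat_lit 426) ln14_14_3 ln14_14_3_ok) (L (nat_lit 428) ln15_14_3 ln15_14_3_ok))) (M (nat_lit 495) (B (L (nat_lit 494) ln11_14_0 ln11_14_0_ok) (L (nat_lit 496) ln12_14_0 ln12_14_0_ok))))))) (B (M (nat_lit 427) (B (M (nat_lit 426) (B (L (nat_lit 428) ln10_13_0 ln10_13_0_ok) (L (nat_lit 459) ln14_14_3 ln14_14_3_ok))) (B (M (nat_lit 495) (B (M (nat_lit 494) (B (L (nat_lit 365) ln13_11_4 ln13_11_4_ok)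 (L (nat_lit 459) ln11_14_0 ln11_14_0_ok))) (M (nat_lit 463) (B (L (nat_lit 428) ln15_14_3 ln15_14_3_ok) (L (nat_lit 496) ln12_14_0 ln12_14_0_ok))))) (B (M (nat_lit 459) (B (L (nat_lit 426) ln14_14_3 ln14_14_3_ok) (M (nat_lit 494) (B (L (nat_lit 365) ln13_11_4 ln13_11_4_ok) (L (nat_lit 495) ln11_14_0 ln11_14_0_ok))))) (M (nat_lit 428) (B (L (nat_lit 426) ln10_13_0 ln10_13_0_ok) (L (nat_lit 463) ln15_14_3 ln15_14_3_ok))))))) (M (nat_lit 459) (B (M (nat_lit 430) (B (L (nat_lit 458) ln10_14_2 ln10_14_2_ok) (L (nat_lit 431) ln11_14_2 ln11_14_2_ok))) (B (M (nat_lit 458) (B (M (nat_lit 426) (B (L (nat_lit 425) ln13_14_3 ln13_14_3_ok) (L (nat_lit 427) ln14_14_3 ln14_14_3_ok))) (M (nat_lit 490) (B (L (nat_lit 489) ln13_14_1 ln13_14_1_ok) (L (nat_lit 491) ln14_14_1 ln14_14_1_ok))))) (M (nat_lit 463) (B (M (nat_lit 427) (B (L (nat_lit 426) ln14_14_3 ln14_14_3_ok) (L (nat_lit 428) ln15_14_3 ln15_14_3_ok))) (M (nat_lit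 431) (B (L (nat_lit 430) ln11_14_2 ln11_14_2_ok) (L (nat_lit 432) ln12_14_2 ln12_14_2_ok)))))))))))))))) (nat_lit 5954262830815946494763249298768603811203561774969104571805089223376689777636098861358550851719243481454542035207245364041705138952691777536) (nat_lit 1179363258031323579771886147838764791126800819575404871195400826791355787937451662402753248332802508193001135092434200500849087269945026126024478953010818189594153975808) (nat_lit 1179363258031323579771886147838764791126800819575404871195400826791355787937451662402753248332802508193001135092434200500849087269945026126024478953010818189594153975808) (by decide +kernel)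
theorem c33_s399 : Sem (nat_lit 1386334847383188664550070665778531748218595021979121511688892729411143073470393764272092352380775458208712834410189682411080515584) (nat_lit 1179363258141160342359549267408618075101010767207780635998708302895640120811976864945750112213294851608397586849874720331847165492701501125215944185297972671318448930816) (nat_lit 1179363258141160342359549267408618075101010767207780635998708302895640120811976864945750112213294851608397586849874720331847165492701501125215944185297972671318448930816) :=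
  sem_of_chk (M (nat_lit 461) (B (M (nat_lit 493) (B (M (nat_lit 525) (B (M (nat_lit 396) (B (L (nat_lit 364) ln13_15_7 ln13_15_7_ok) (L (nat_lit 428) ln13_16_7 ln13_16_7_ok))) (M (nat_lit 398) (B (L (nat_lit 366) ln13_15_6 ln13_15_6_ok) (L (nat_lit 430) ln13_16_6 ln13_16_6_ok))))) (M (nat_lit 365) (B (M (nat_lit 492) (B (L (nat_lit 460) ln13_11_5 ln13_11_5_ok) (L (nat_lit 524) ln13_12_5 ln13_12_5_ok))) (M (nat_lit 494) (B (L (nat_lit 462) ln13_11_4 ln13_11_4_ok) (L (nat_lit 526) ln13_12_4 ln13_12_4_ok))))))) (B (M (nat_lit 493) (B (M (nat_lit 365) (B (M (nat_lit 492) (B (L (nat_lit 460) ln13_11_5 ln13_11_5_ok) (L (nat_lit 524) ln13_12_5 ln13_12_5_ok))) (M (nat_lit 494) (B (L (nat_lit 462) ln13_11_4 ln13_11_4_ok) (L (nat_lit 526) ln13_12_4 ln13_12_4_ok))))) (B (M (nat_lit 525) (B (M (nat_lit 398) (B (L (nat_lit 366) ln13_15_6 ln13_15_6_ok) (L (nat_lit 430) ln13_16_6 ln13_16_6_ok))) (M (nat_lit 526) (B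 (L (nat_lit 494) ln13_12_4 ln13_12_4_ok) (L (nat_lit 558) ln13_13_4 ln13_13_4_ok))))) (M (nat_lit 365) (B (M (nat_lit 366) (B (L (nat_lit 334) ln13_14_6 ln13_14_6_ok) (L (nat_lit 398) ln13_15_6 ln13_15_6_ok))) (M (nat_lit 492) (B (L (nat_lit 460) ln13_11_5 ln13_11_5_ok) (L (nat_lit 524) ln13_12_5 ln13_12_5_ok)))))))) (B c33_n346 (B (M (nat_lit 493) (B (M (nat_lit 525) (B (M (nat_lit 396) (B (L (nat_lit 364) ln13_15_7 ln13_15_7_ok) (L (nat_lit 428) ln13_16_7 ln13_16_7_ok))) (M (nat_lit 524) (B (L (nat_lit 492) ln13_12_5 ln13_12_5_ok) (L (nat_lit 556) ln13_13_5 ln13_13_5_ok))))) (B (M (nat_lit 365) (B (M (nat_lit 492) (B (L (nat_lit 460) ln13_11_5 ln13_11_5_ok) (L (nat_lit 524) ln13_12_5 ln13_12_5_ok))) (M (nat_lit 494) (B (L (nat_lit 462) ln13_11_4 ln13_11_4_ok) (L (nat_lit 526) ln13_12_4 ln13_12_4_ok))))) (M (nat_lit 525) (B (M (nat_lit 396) (B (L (nat_lit 364) ln13_15_7 ln13_15_7_ok) (L (nat_lit 428)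 ln13_16_7 ln13_16_7_ok))) (M (nat_lit 526) (B (L (nat_lit 494) ln13_12_4 ln13_12_4_ok) (L (nat_lit 558) ln13_13_4 ln13_13_4_ok)))))))) (B (M (nat_lit 493) (B (M (nat_lit 525) (B (M (nat_lit 396) (B (L (nat_lit 364) ln13_15_7 ln13_15_7_ok) (L (nat_lit 428) ln13_16_7 ln13_16_7_ok))) (M (nat_lit 398) (B (L (nat_lit 366) ln13_15_6 ln13_15_6_ok) (L (nat_lit 430) ln13_16_6 ln13_16_6_ok))))) (B (M (nat_lit 365) (B (M (nat_lit 366) (B (L (nat_lit 334) ln13_14_6 ln13_14_6_ok) (L (nat_lit 398) ln13_15_6 ln13_15_6_ok))) (M (nat_lit 494) (B (L (nat_lit 462) ln13_11_4 ln13_11_4_ok) (L (nat_lit 526) ln13_12_4 ln13_12_4_ok))))) (M (nat_lit 525) (B (M (nat_lit 396) (B (L (nat_lit 364) ln13_15_7 ln13_15_7_ok) (L (nat_lit 428) ln13_16_7 ln13_16_7_ok))) (M (nat_lit 526) (B (L (nat_lit 494) ln13_12_4 ln13_12_4_ok) (L (nat_lit 558) ln13_13_4 ln13_13_4_ok)))))))) (B (K (nat_lit 5954262830815946494763249298768603811203561774969104571805089223376689777636098861358550851719243481454542035207245364041705138952691777536)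 (nat_lit 1179363258031323579771886147838764791126800819575404871195400826791355787937451662402753248332802508193001135092434200500849087269945026126024478953010818189594153975808) (nat_lit 1179363258031323579771886147838764791126800819575404871195400826791355787937451662402753248332802508193001135092434200500849087269945026126024478953010818189594153975808) c33_s398) (M (nat_lit 493) (B (M (nat_lit 525) (B (M (nat_lit 396) (B (L (nat_lit 364) ln13_15_7 ln13_15_7_ok) (L (nat_lit 428) ln13_16_7 ln13_16_7_ok))) (M (nat_lit 398) (B (L (nat_lit 366) ln13_15_6 ln13_15_6_ok) (L (nat_lit 430) ln13_16_6 ln13_16_6_ok))))) (B (M (nat_lit 365) (B (M (nat_lit 366) (B (L (nat_lit 334) ln13_14_6 ln13_14_6_ok) (L (nat_lit 398) ln13_15_6 ln13_15_6_ok))) (M (nat_lit 492) (B (L (nat_lit 460) ln13_11_5 ln13_11_5_ok) (L (nat_lit 524) ln13_12_5 ln13_12_5_ok))))) (M (nat_lit 525) (B (M (nat_lit 396) (B (L (nat_lit 364) ln13_15_7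 ln13_15_7_ok) (L (nat_lit 428) ln13_16_7 ln13_16_7_ok))) (M (nat_lit 524) (B (L (nat_lit 492) ln13_12_5 ln13_12_5_ok) (L (nat_lit 556) ln13_13_5 ln13_13_5_ok))))))))))))))) (nat_lit 1386334847383188664550070665778531748218595021979121511688892729411143073470393764272092352380775458208712834410189682411080515584) (nat_lit 1179363258141160342359549267408618075101010767207780635998708302895640120811976864945750112213294851608397586849874720331847165492701501125215944185297972671318448930816) (nat_lit 1179363258141160342359549267408618075101010767207780635998708302895640120811976864945750112213294851608397586849874720331847165492701501125215944185297972671318448930816) (by decide +kernel)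
noncomputable def c33_n460 : Cert := (M (nat_lit 398) (B (M (nat_lit 493) (B (L (nat_lit 366) ln13_15_6 ln13_15_6_ok) (M (nat_lit 525) (B (L (nat_lit 430) ln13_16_6 ln13_16_6_ok) (M (nat_lit 396) (B (L (nat_lit 364) ln13_15_7 ln13_15_7_ok) (L (nat_lit 428) ln13_16_7 ln13_16_7_ok))))))) (B (M (nat_lit 493) (B (L (nat_lit 366) ln13_15_6 ln13_15_6_ok) (M (nat_lit 525) (B (L (nat_lit 430) ln13_16_6 ln13_16_6_ok) (M (nat_lit 526) (B (L (nat_lit 494) ln13_12_4 ln13_12_4_ok) (L (nat_lit 558) ln13_13_4 ln13_13_4_ok))))))) (B (M (nat_lit 396) (B (M (nat_lit 493) (B (L (nat_lit 364) ln13_15_7 ln13_15_7_ok) (M (nat_lit 525) (B (L (nat_lit 428) ln13_16_7 ln13_16_7_ok) (L (nat_lit 430) ln13_16_6 ln13_16_6_ok))))) (B (M (nat_lit 395) (B (M (nat_lit 430) (B (L (nat_lit 394) ln10_12_0 ln10_12_0_ok) (L (nat_lit 431) ln11_12_0 ln11_12_0_ok))) (B (M (nat_lit 399) (B (M (nat_lit 427) (B (L (nat_lit 426) ln14_12_1 ln14_12_1_ok)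 (L (nat_lit 428) ln15_12_1 ln15_12_1_ok))) (M (nat_lit 431) (B (L (nat_lit 430) ln11_12_0 ln11_12_0_ok) (L (nat_lit 432) ln12_12_0 ln12_12_0_ok))))) (M (nat_lit 394) (B (M (nat_lit 362) (B (L (nat_lit 361) ln13_12_3 ln13_12_3_ok) (L (nat_lit 363) ln14_12_3 ln14_12_3_ok))) (M (nat_lit 426) (B (L (nat_lit 425) ln13_12_1 ln13_12_1_ok) (L (nat_lit 427) ln14_12_1 ln14_12_1_ok)))))))) (B (M (nat_lit 430) (B (M (nat_lit 395) (B (L (nat_lit 394) ln10_12_0 ln10_12_0_ok) (L (nat_lit 431) ln11_12_0 ln11_12_0_ok))) (M (nat_lit 493) (B (L (nat_lit 364) ln13_15_7 ln13_15_7_ok) (L (nat_lit 525) ln13_16_6 ln13_16_6_ok))))) (M (nat_lit 428) (B (M (nat_lit 493) (B (L (nat_lit 364) ln13_15_7 ln13_15_7_ok) (L (nat_lit 525) ln13_16_7 ln13_16_7_ok))) (M (nat_lit 427) (B (L (nat_lit 399) ln15_12_1 ln15_12_1_ok) (L (nat_lit 426) ln10_13_2 ln10_13_2_ok))))))))) (B (M (nat_lit 493) (B (L (nat_lit 366) ln13_15_6 ln13_15_6_ok) (M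 (nat_lit 525) (B (M (nat_lit 396) (B (L (nat_lit 364) ln13_15_7 ln13_15_7_ok) (L (nat_lit 428) ln13_16_7 ln13_16_7_ok))) (M (nat_lit 526) (B (L (nat_lit 494) ln13_12_4 ln13_12_4_ok) (L (nat_lit 558) ln13_13_4 ln13_13_4_ok))))))) (M (nat_lit 399) (B (M (nat_lit 428) (B (L (nat_lit 400) ln16_12_1 ln16_12_1_ok) (M (nat_lit 427) (B (L (nat_lit 396) ln15_12_1 ln15_12_1_ok) (L (nat_lit 426) ln10_13_2 ln10_13_2_ok))))) (B (M (nat_lit 428) (B (L (nat_lit 400) ln16_12_1 ln16_12_1_ok) (M (nat_lit 427) (B (L (nat_lit 426) ln10_13_2 ln10_13_2_ok) (L (nat_lit 430) ln11_13_2 ln11_13_2_ok))))) (B (M (nat_lit 396) (B (M (nat_lit 428) (B (L (nat_lit 427) ln15_12_1 ln15_12_1_ok) (M (nat_lit 364) (B (L (nat_lit 332) ln12_10_4 ln12_10_4_ok) (L (nat_lit 363) ln15_12_3 ln15_12_3_ok))))) (B (M (nat_lit 395) (B (M (nat_lit 367) (B (L (nat_lit 366) ln11_12_2 ln11_12_2_ok) (L (nat_lit 368) ln12_12_2 ln12_12_2_ok))) (M (nat_lit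 427) (B (L (nat_lit 426) ln14_12_1 ln14_12_1_ok) (L (nat_lit 428) ln15_12_1 ln15_12_1_ok))))) (M (nat_lit 395) (B (M (nat_lit 363) (B (L (nat_lit 362) ln14_12_3 ln14_12_3_ok) (L (nat_lit 364) ln15_12_3 ln15_12_3_ok))) (M (nat_lit 367) (B (L (nat_lit 366) ln11_12_2 ln11_12_2_ok) (L (nat_lit 368) ln12_12_2 ln12_12_2_ok)))))))) (B (M (nat_lit 428) (B (L (nat_lit 400) ln16_12_1 ln16_12_1_ok) (M (nat_lit 427) (B (L (nat_lit 396) ln15_12_1 ln15_12_1_ok) (L (nat_lit 430) ln11_13_2 ln11_13_2_ok))))) (B (M (nat_lit 396) (B (M (nat_lit 428) (B (L (nat_lit 400) ln16_12_1 ln16_12_1_ok) (M (nat_lit 364) (B (L (nat_lit 332) ln12_10_4 ln12_10_4_ok) (L (nat_lit 363) ln15_12_3 ln15_12_3_ok))))) (B (M (nat_lit 432) (B (L (nat_lit 431) ln12_12_0 ln12_12_0_ok) (M (nat_lit 400) (B (L (nat_lit 428) ln16_12_1 ln16_12_1_ok) (L (nat_lit 433) ln13_12_0 ln13_12_0_ok))))) (M (nat_lit 395) (B (M (nat_lit 363) (B (L (nat_lit 362)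 ln14_12_3 ln14_12_3_ok) (L (nat_lit 364) ln15_12_3 ln15_12_3_ok))) (M (nat_lit 367) (B (L (nat_lit 366) ln11_12_2 ln11_12_2_ok) (L (nat_lit 368) ln12_12_2 ln12_12_2_ok)))))))) (M (nat_lit 396) (B (M (nat_lit 395) (B (M (nat_lit 363) (B (L (nat_lit 362) ln14_12_3 ln14_12_3_ok) (L (nat_lit 364) ln15_12_3 ln15_12_3_ok))) (M (nat_lit 431) (B (L (nat_lit 430) ln11_12_0 ln11_12_0_ok) (L (nat_lit 432) ln12_12_0 ln12_12_0_ok))))) (B (M (nat_lit 395) (B (M (nat_lit 367) (B (L (nat_lit 366) ln11_12_2 ln11_12_2_ok) (L (nat_lit 368) ln12_12_2 ln12_12_2_ok))) (M (nat_lit 431) (B (L (nat_lit 430) ln11_12_0 ln11_12_0_ok) (L (nat_lit 432) ln12_12_0 ln12_12_0_ok))))) (B (M (nat_lit 400) (B (M (nat_lit 368) (B (L (nat_lit 367) ln12_12_2 ln12_12_2_ok) (L (nat_lit 369) ln13_12_2 ln13_12_2_ok))) (M (nat_lit 432) (B (L (nat_lit 431) ln12_12_0 ln12_12_0_ok) (L (nat_lit 433) ln13_12_0 ln13_12_0_ok))))) (M (nat_lit 395) (B (M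 (nat_lit 363) (B (L (nat_lit 362) ln14_12_3 ln14_12_3_ok) (L (nat_lit 364) ln15_12_3 ln15_12_3_ok))) (M (nat_lit 367) (B (L (nat_lit 366) ln11_12_2 ln11_12_2_ok) (L (nat_lit 368) ln12_12_2 ln12_12_2_ok))))))))))))))))))))
theorem c33_s462 : Sem (nat_lit 1386334847383188664550070665778531748218595021979121511688892729411143073470393764272092352380775458208712834410189682411080515584) (nat_lit 1179363258141160342359549267408618075101010767210362885877997665287667493593762195873914803041318222546496302680654979549936460562014822330002052781513746703241638313984) (nat_lit 1179363258141160342359549267408618075101010767210362885877997665287667493593762195873914803041318222546496302680654979549936460562014822330002052781513746703241638313984) :=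
  sem_of_chk (M (nat_lit 461) (B (M (nat_lit 493) (B (M (nat_lit 525) (B (M (nat_lit 396) (B (L (nat_lit 364) ln13_15_7 ln13_15_7_ok) (L (nat_lit 428) ln13_16_7 ln13_16_7_ok))) (M (nat_lit 524) (B (L (nat_lit 492) ln13_12_5 ln13_12_5_ok) (L (nat_lit 556) ln13_13_5 ln13_13_5_ok))))) (B (M (nat_lit 525) (B (M (nat_lit 398) (B (L (nat_lit 366) ln13_15_6 ln13_15_6_ok) (L (nat_lit 430) ln13_16_6 ln13_16_6_ok))) (M (nat_lit 524) (B (L (nat_lit 492) ln13_12_5 ln13_12_5_ok) (L (nat_lit 556) ln13_13_5 ln13_13_5_ok))))) (M (nat_lit 365) (B (M (nat_lit 364) (B (L (nat_lit 332) ln13_14_7 ln13_14_7_ok) (L (nat_lit 396) ln13_15_7 ln13_15_7_ok))) (M (nat_lit 494) (B (L (nat_lit 462) ln13_11_4 ln13_11_4_ok) (L (nat_lit 526) ln13_12_4 ln13_12_4_ok)))))))) (B (M (nat_lit 493) (B (M (nat_lit 525) (B (M (nat_lit 396) (B (L (nat_lit 364) ln13_15_7 ln13_15_7_ok) (L (nat_lit 428) ln13_16_7 ln13_16_7_ok))) (M (nat_lit 524) (B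 (L (nat_lit 492) ln13_12_5 ln13_12_5_ok) (L (nat_lit 556) ln13_13_5 ln13_13_5_ok))))) (B (M (nat_lit 365) (B (M (nat_lit 492) (B (L (nat_lit 460) ln13_11_5 ln13_11_5_ok) (L (nat_lit 524) ln13_12_5 ln13_12_5_ok))) (M (nat_lit 494) (B (L (nat_lit 462) ln13_11_4 ln13_11_4_ok) (L (nat_lit 526) ln13_12_4 ln13_12_4_ok))))) (M (nat_lit 525) (B (M (nat_lit 396) (B (L (nat_lit 364) ln13_15_7 ln13_15_7_ok) (L (nat_lit 428) ln13_16_7 ln13_16_7_ok))) (M (nat_lit 526) (B (L (nat_lit 494) ln13_12_4 ln13_12_4_ok) (L (nat_lit 558) ln13_13_4 ln13_13_4_ok)))))))) (B (M (nat_lit 493) (B (M (nat_lit 525) (B (M (nat_lit 398) (B (L (nat_lit 366) ln13_15_6 ln13_15_6_ok) (L (nat_lit 430) ln13_16_6 ln13_16_6_ok))) (M (nat_lit 524) (B (L (nat_lit 492) ln13_12_5 ln13_12_5_ok) (L (nat_lit 556) ln13_13_5 ln13_13_5_ok))))) (B (M (nat_lit 365) (B (M (nat_lit 492) (B (L (nat_lit 460) ln13_11_5 ln13_11_5_ok) (L (nat_lit 524) ln13_12_5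 ln13_12_5_ok))) (M (nat_lit 494) (B (L (nat_lit 462) ln13_11_4 ln13_11_4_ok) (L (nat_lit 526) ln13_12_4 ln13_12_4_ok))))) (M (nat_lit 525) (B (M (nat_lit 398) (B (L (nat_lit 366) ln13_15_6 ln13_15_6_ok) (L (nat_lit 430) ln13_16_6 ln13_16_6_ok))) (M (nat_lit 526) (B (L (nat_lit 494) ln13_12_4 ln13_12_4_ok) (L (nat_lit 558) ln13_13_4 ln13_13_4_ok)))))))) (B c33_n460 (B c33_n332 (M (nat_lit 493) (B (M (nat_lit 525) (B (M (nat_lit 396) (B (L (nat_lit 364) ln13_15_7 ln13_15_7_ok) (L (nat_lit 428) ln13_16_7 ln13_16_7_ok))) (M (nat_lit 398) (B (L (nat_lit 366) ln13_15_6 ln13_15_6_ok) (L (nat_lit 430) ln13_16_6 ln13_16_6_ok))))) (B (M (nat_lit 525) (B (M (nat_lit 398) (B (L (nat_lit 366) ln13_15_6 ln13_15_6_ok) (L (nat_lit 430) ln13_16_6 ln13_16_6_ok))) (M (nat_lit 524) (B (L (nat_lit 492) ln13_12_5 ln13_12_5_ok) (L (nat_lit 556) ln13_13_5 ln13_13_5_ok))))) (M (nat_lit 365) (B (M (nat_lit 364) (B (L (nat_lit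 332) ln13_14_7 ln13_14_7_ok) (L (nat_lit 396) ln13_15_7 ln13_15_7_ok))) (M (nat_lit 492) (B (L (nat_lit 460) ln13_11_5 ln13_11_5_ok) (L (nat_lit 524) ln13_12_5 ln13_12_5_ok)))))))))))))) (nat_lit 1386334847383188664550070665778531748218595021979121511688892729411143073470393764272092352380775458208712834410189682411080515584) (nat_lit 1179363258141160342359549267408618075101010767210362885877997665287667493593762195873914803041318222546496302680654979549936460562014822330002052781513746703241638313984) (nat_lit 1179363258141160342359549267408618075101010767210362885877997665287667493593762195873914803041318222546496302680654979549936460562014822330002052781513746703241638313984) (by decide +kernel)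
noncomputable def c33_n475 : Cert := (M (nat_lit 398) (B (M (nat_lit 366) (B (L (nat_lit 493) ln13_15_6 ln13_15_6_ok) (M (nat_lit 334) (B (L (nat_lit 302) ln14_9_5 ln14_9_5_ok) (L (nat_lit 430) ln14_10_5 ln14_10_5_ok))))) (B (M (nat_lit 493) (B (L (nat_lit 366) ln13_15_6 ln13_15_6_ok) (M (nat_lit 525) (B (L (nat_lit 430) ln13_16_6 ln13_16_6_ok) (M (nat_lit 526) (B (L (nat_lit 494) ln13_12_4 ln13_12_4_ok) (L (nat_lit 558) ln13_13_4 ln13_13_4_ok))))))) (B (M (nat_lit 396) (B (M (nat_lit 493) (B (L (nat_lit 364) ln13_15_7 ln13_15_7_ok) (M (nat_lit 525) (B (L (nat_lit 428) ln13_16_7 ln13_16_7_ok) (L (nat_lit 430) ln13_16_6 ln13_16_6_ok))))) (B (M (nat_lit 399) (B (M (nat_lit 428) (B (L (nat_lit 427) ln15_12_1 ln15_12_1_ok) (L (nat_lit 400) ln16_12_1 ln16_12_1_ok))) (B (M (nat_lit 395) (B (M (nat_lit 427) (B (L (nat_lit 426) ln14_12_1 ln14_12_1_ok) (L (nat_lit 428) ln15_12_1 ln15_12_1_ok))) (M (nat_lit 431)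 (B (L (nat_lit 430) ln11_12_0 ln11_12_0_ok) (L (nat_lit 432) ln12_12_0 ln12_12_0_ok))))) (B (M (nat_lit 432) (B (L (nat_lit 431) ln12_12_0 ln12_12_0_ok) (M (nat_lit 400) (B (L (nat_lit 428) ln16_12_1 ln16_12_1_ok) (L (nat_lit 433) ln13_12_0 ln13_12_0_ok))))) (M (nat_lit 400) (B (M (nat_lit 368) (B (L (nat_lit 367) ln12_12_2 ln12_12_2_ok) (L (nat_lit 369) ln13_12_2 ln13_12_2_ok))) (M (nat_lit 432) (B (L (nat_lit 431) ln12_12_0 ln12_12_0_ok) (L (nat_lit 433) ln13_12_0 ln13_12_0_ok))))))))) (B (M (nat_lit 430) (B (M (nat_lit 431) (B (L (nat_lit 395) ln11_12_0 ln11_12_0_ok) (L (nat_lit 432) ln16_13_3 ln16_13_3_ok))) (M (nat_lit 493) (B (L (nat_lit 364) ln13_15_7 ln13_15_7_ok) (L (nat_lit 525) ln13_16_6 ln13_16_6_ok))))) (M (nat_lit 428) (B (M (nat_lit 493) (B (L (nat_lit 364) ln13_15_7 ln13_15_7_ok) (L (nat_lit 525) ln13_16_7 ln13_16_7_ok))) (M (nat_lit 427) (B (L (nat_lit 399) ln15_12_1 ln15_12_1_ok) (L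 (nat_lit 426) ln10_13_2 ln10_13_2_ok))))))))) (B (M (nat_lit 493) (B (L (nat_lit 366) ln13_15_6 ln13_15_6_ok) (M (nat_lit 525) (B (M (nat_lit 396) (B (L (nat_lit 364) ln13_15_7 ln13_15_7_ok) (L (nat_lit 428) ln13_16_7 ln13_16_7_ok))) (M (nat_lit 526) (B (L (nat_lit 494) ln13_12_4 ln13_12_4_ok) (L (nat_lit 558) ln13_13_4 ln13_13_4_ok))))))) (M (nat_lit 399) (B (M (nat_lit 428) (B (L (nat_lit 400) ln16_12_1 ln16_12_1_ok) (M (nat_lit 427) (B (L (nat_lit 396) ln15_12_1 ln15_12_1_ok) (L (nat_lit 426) ln10_13_2 ln10_13_2_ok))))) (B (M (nat_lit 428) (B (L (nat_lit 400) ln16_12_1 ln16_12_1_ok) (M (nat_lit 427) (B (L (nat_lit 426) ln10_13_2 ln10_13_2_ok) (L (nat_lit 430) ln11_13_2 ln11_13_2_ok))))) (B (M (nat_lit 396) (B (M (nat_lit 428) (B (L (nat_lit 427) ln15_12_1 ln15_12_1_ok) (M (nat_lit 364) (B (L (nat_lit 332) ln12_10_4 ln12_10_4_ok) (L (nat_lit 363) ln15_12_3 ln15_12_3_ok))))) (B (M (nat_lit 395) (B (M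 (nat_lit 367) (B (L (nat_lit 366) ln11_12_2 ln11_12_2_ok) (L (nat_lit 368) ln12_12_2 ln12_12_2_ok))) (M (nat_lit 427) (B (L (nat_lit 426) ln14_12_1 ln14_12_1_ok) (L (nat_lit 428) ln15_12_1 ln15_12_1_ok))))) (M (nat_lit 395) (B (M (nat_lit 363) (B (L (nat_lit 362) ln14_12_3 ln14_12_3_ok) (L (nat_lit 364) ln15_12_3 ln15_12_3_ok))) (M (nat_lit 367) (B (L (nat_lit 366) ln11_12_2 ln11_12_2_ok) (L (nat_lit 368) ln12_12_2 ln12_12_2_ok)))))))) (B (M (nat_lit 428) (B (L (nat_lit 400) ln16_12_1 ln16_12_1_ok) (M (nat_lit 427) (B (L (nat_lit 396) ln15_12_1 ln15_12_1_ok) (L (nat_lit 430) ln11_13_2 ln11_13_2_ok))))) (B (M (nat_lit 396) (B (M (nat_lit 428) (B (L (nat_lit 400) ln16_12_1 ln16_12_1_ok) (M (nat_lit 364) (B (L (nat_lit 332) ln12_10_4 ln12_10_4_ok) (L (nat_lit 363) ln15_12_3 ln15_12_3_ok))))) (B (M (nat_lit 432) (B (L (nat_lit 431) ln12_12_0 ln12_12_0_ok) (M (nat_lit 400) (B (L (nat_lit 428) ln16_12_1 ln16_12_1_ok)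 (L (nat_lit 433) ln13_12_0 ln13_12_0_ok))))) (M (nat_lit 395) (B (M (nat_lit 363) (B (L (nat_lit 362) ln14_12_3 ln14_12_3_ok) (L (nat_lit 364) ln15_12_3 ln15_12_3_ok))) (M (nat_lit 367) (B (L (nat_lit 366) ln11_12_2 ln11_12_2_ok) (L (nat_lit 368) ln12_12_2 ln12_12_2_ok)))))))) (M (nat_lit 396) (B (M (nat_lit 395) (B (M (nat_lit 363) (B (L (nat_lit 362) ln14_12_3 ln14_12_3_ok) (L (nat_lit 364) ln15_12_3 ln15_12_3_ok))) (M (nat_lit 431) (B (L (nat_lit 430) ln11_12_0 ln11_12_0_ok) (L (nat_lit 432) ln12_12_0 ln12_12_0_ok))))) (B (M (nat_lit 395) (B (M (nat_lit 367) (B (L (nat_lit 366) ln11_12_2 ln11_12_2_ok) (L (nat_lit 368) ln12_12_2 ln12_12_2_ok))) (M (nat_lit 431) (B (L (nat_lit 430) ln11_12_0 ln11_12_0_ok) (L (nat_lit 432) ln12_12_0 ln12_12_0_ok))))) (B (M (nat_lit 400) (B (M (nat_lit 368) (B (L (nat_lit 367) ln12_12_2 ln12_12_2_ok) (L (nat_lit 369) ln13_12_2 ln13_12_2_ok))) (M (nat_lit 432) (B (L (nat_lit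 431) ln12_12_0 ln12_12_0_ok) (L (nat_lit 433) ln13_12_0 ln13_12_0_ok))))) (M (nat_lit 395) (B (M (nat_lit 363) (B (L (nat_lit 362) ln14_12_3 ln14_12_3_ok) (L (nat_lit 364) ln15_12_3 ln15_12_3_ok))) (M (nat_lit 367) (B (L (nat_lit 366) ln11_12_2 ln11_12_2_ok) (L (nat_lit 368) ln12_12_2 ln12_12_2_ok))))))))))))))))))))
theorem c33_s494 : Sem (nat_lit 5954262830815946494763249298768603811203561774969104571805089223376689777636098861358550851719243481454542035207245364041705138952691777536) (nat_lit 235872651825938241711497502591697568397570514471294764101386828411300375679760114249839000943637507130489221864006325949081731640393217279419286466505245972760776146944) (nat_lit 235872651825938241711497502591697568397570514471294764101386828411300375679760114249839000943637507130489221864006325949081731640393217279419286466505245972760776146944) :=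
  sem_of_chk (M (nat_lit 460) (B (M (nat_lit 492) (B (L (nat_lit 365) ln13_11_5 ln13_11_5_ok) (M (nat_lit 524) (B (L (nat_lit 428) ln12_16_6 ln12_16_6_ok) (L (nat_lit 556) ln12_17_6 ln12_17_6_ok))))) (B (M (nat_lit 462) (B (M (nat_lit 459) (B (M (nat_lit 430) (B (L (nat_lit 458) ln10_14_2 ln10_14_2_ok) (L (nat_lit 431) ln11_14_2 ln11_14_2_ok))) (M (nat_lit 492) (B (M (nat_lit 524) (B (L (nat_lit 428) ln12_16_6 ln12_16_6_ok) (L (nat_lit 556) ln12_17_6 ln12_17_6_ok))) (M (nat_lit 491) (B (L (nat_lit 490) ln14_14_1 ln14_14_1_ok) (L (nat_lit 463) ln15_14_1 ln15_14_1_ok))))))) (B (M (nat_lit 459) (B (M (nat_lit 430) (B (L (nat_lit 458) ln10_14_2 ln10_14_2_ok) (L (nat_lit 431) ln11_14_2 ln11_14_2_ok))) (M (nat_lit 463) (B (M (nat_lit 491) (B (L (nat_lit 490) ln14_14_1 ln14_14_1_ok) (L (nat_lit 492) ln15_14_1 ln15_14_1_ok))) (M (nat_lit 495) (B (L (nat_lit 494) ln11_14_0 ln11_14_0_ok) (L (nat_lit 496) ln12_14_0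 ln12_14_0_ok))))))) (B (M (nat_lit 463) (B (M (nat_lit 428) (B (L (nat_lit 427) ln15_14_3 ln15_14_3_ok) (L (nat_lit 464) ln16_14_3 ln16_14_3_ok))) (M (nat_lit 459) (B (M (nat_lit 491) (B (L (nat_lit 490) ln14_14_1 ln14_14_1_ok) (L (nat_lit 492) ln15_14_1 ln15_14_1_ok))) (M (nat_lit 495) (B (L (nat_lit 494) ln11_14_0 ln11_14_0_ok) (L (nat_lit 496) ln12_14_0 ln12_14_0_ok))))))) (B (M (nat_lit 463) (B (M (nat_lit 428) (B (L (nat_lit 427) ln15_14_3 ln15_14_3_ok) (L (nat_lit 464) ln16_14_3 ln16_14_3_ok))) (B (M (nat_lit 428) (B (L (nat_lit 464) ln16_14_3 ln16_14_3_ok) (M (nat_lit 492) (B (L (nat_lit 524) ln12_16_6 ln12_16_6_ok) (L (nat_lit 491) ln15_14_1 ln15_14_1_ok))))) (B (M (nat_lit 464) (B (M (nat_lit 432) (B (L (nat_lit 431) ln12_14_2 ln12_14_2_ok) (L (nat_lit 433) ln13_14_2 ln13_14_2_ok))) (M (nat_lit 496) (B (L (nat_lit 495) ln12_14_0 ln12_14_0_ok) (L (nat_lit 497) ln13_14_0 ln13_14_0_ok))))) (M (nat_lit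 428) (B (L (nat_lit 427) ln15_14_3 ln15_14_3_ok) (M (nat_lit 492) (B (L (nat_lit 524) ln12_16_6 ln12_16_6_ok) (L (nat_lit 491) ln15_14_1 ln15_14_1_ok))))))))) (B (M (nat_lit 459) (B (M (nat_lit 430) (B (L (nat_lit 458) ln10_14_2 ln10_14_2_ok) (L (nat_lit 431) ln11_14_2 ln11_14_2_ok))) (B (M (nat_lit 458) (B (M (nat_lit 426) (B (L (nat_lit 425) ln13_14_3 ln13_14_3_ok) (L (nat_lit 427) ln14_14_3 ln14_14_3_ok))) (M (nat_lit 490) (B (L (nat_lit 489) ln13_14_1 ln13_14_1_ok) (L (nat_lit 491) ln14_14_1 ln14_14_1_ok))))) (M (nat_lit 430) (B (L (nat_lit 431) ln11_14_2 ln11_14_2_ok) (M (nat_lit 494) (B (L (nat_lit 526) ln14_16_7 ln14_16_7_ok) (L (nat_lit 495) ln11_14_0 ln11_14_0_ok)))))))) (M (nat_lit 459) (B (M (nat_lit 430) (B (L (nat_lit 458) ln10_14_2 ln10_14_2_ok) (L (nat_lit 431) ln11_14_2 ln11_14_2_ok))) (M (nat_lit 463) (B (M (nat_lit 427) (B (L (nat_lit 426) ln14_14_3 ln14_14_3_ok) (L (nat_lit 428) ln15_14_3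 ln15_14_3_ok))) (M (nat_lit 495) (B (L (nat_lit 494) ln11_14_0 ln11_14_0_ok) (L (nat_lit 496) ln12_14_0 ln12_14_0_ok))))))))))))) (B (M (nat_lit 365) (B (L (nat_lit 492) ln13_11_5 ln13_11_5_ok) (M (nat_lit 333) (B (M (nat_lit 332) (B (L (nat_lit 300) ln13_13_7 ln13_13_7_ok) (L (nat_lit 364) ln13_14_7 ln13_14_7_ok))) (M (nat_lit 462) (B (L (nat_lit 430) ln13_10_4 ln13_10_4_ok) (L (nat_lit 494) ln13_11_4 ln13_11_4_ok))))))) (M (nat_lit 462) (B (M (nat_lit 365) (B (L (nat_lit 494) ln13_11_4 ln13_11_4_ok) (M (nat_lit 333) (B (L (nat_lit 428) ln13_10_5 ln13_10_5_ok) (L (nat_lit 430) ln13_10_4 ln13_10_4_ok))))) (B (M (nat_lit 459) (B (M (nat_lit 430) (B (L (nat_lit 458) ln10_14_2 ln10_14_2_ok) (L (nat_lit 431) ln11_14_2 ln11_14_2_ok))) (M (nat_lit 494) (B (L (nat_lit 365) ln13_11_4 ln13_11_4_ok) (L (nat_lit 495) ln11_14_0 ln11_14_0_ok))))) (B (M (nat_lit 459) (B (M (nat_lit 430) (B (L (nat_lit 458) ln10_14_2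 ln10_14_2_ok) (L (nat_lit 431) ln11_14_2 ln11_14_2_ok))) (M (nat_lit 463) (B (M (nat_lit 427) (B (L (nat_lit 426) ln14_14_3 ln14_14_3_ok) (L (nat_lit 428) ln15_14_3 ln15_14_3_ok))) (M (nat_lit 495) (B (L (nat_lit 494) ln11_14_0 ln11_14_0_ok) (L (nat_lit 496) ln12_14_0 ln12_14_0_ok))))))) (B (M (nat_lit 428) (B (M (nat_lit 365) (B (L (nat_lit 333) ln13_10_5 ln13_10_5_ok) (L (nat_lit 494) ln13_11_4 ln13_11_4_ok))) (M (nat_lit 463) (B (L (nat_lit 427) ln15_14_3 ln15_14_3_ok) (L (nat_lit 464) ln16_14_3 ln16_14_3_ok))))) (M (nat_lit 463) (B (M (nat_lit 428) (B (L (nat_lit 427) ln15_14_3 ln15_14_3_ok) (L (nat_lit 464) ln16_14_3 ln16_14_3_ok))) (B (M (nat_lit 432) (B (L (nat_lit 431) ln12_14_2 ln12_14_2_ok) (M (nat_lit 464) (B (L (nat_lit 428) ln16_14_3 ln16_14_3_ok) (L (nat_lit 433) ln13_14_2 ln13_14_2_ok))))) (B (M (nat_lit 464) (B (M (nat_lit 432) (B (L (nat_lit 431) ln12_14_2 ln12_14_2_ok) (L (nat_lit 433)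 ln13_14_2 ln13_14_2_ok))) (M (nat_lit 496) (B (L (nat_lit 495) ln12_14_0 ln12_14_0_ok) (L (nat_lit 497) ln13_14_0 ln13_14_0_ok))))) (M (nat_lit 459) (B (M (nat_lit 427) (B (L (nat_lit 426) ln14_14_3 ln14_14_3_ok) (L (nat_lit 428) ln15_14_3 ln15_14_3_ok))) (M (nat_lit 430) (B (L (nat_lit 458) ln10_14_2 ln10_14_2_ok) (L (nat_lit 431) ln11_14_2 ln11_14_2_ok)))))))))))))))))) (nat_lit 5954262830815946494763249298768603811203561774969104571805089223376689777636098861358550851719243481454542035207245364041705138952691777536) (nat_lit 235872651825938241711497502591697568397570514471294764101386828411300375679760114249839000943637507130489221864006325949081731640393217279419286466505245972760776146944) (nat_lit 235872651825938241711497502591697568397570514471294764101386828411300375679760114249839000943637507130489221864006325949081731640393217279419286466505245972760776146944) (by decide +kernel)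
theorem c33_s495 : Sem (nat_lit 1386334847383188664550070665778531748218595021979121511688892729411143073470393764272092352380775458208712834410189682411080515584) (nat_lit 1179363258141160342359549267408618075101010767210322538223647860255823568201848546186880120694229470288609795212006114621456859075003608714254730769871420736430602715136) (nat_lit 1179363258141160342359549267408618075101010767210322538223647860255823568201848546186880120694229470288609795212006114621456859075003608714254730769871420736430602715136) :=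
  sem_of_chk (M (nat_lit 461) (B (M (nat_lit 365) (B (M (nat_lit 460) (B (L (nat_lit 492) ln13_11_5 ln13_11_5_ok) (M (nat_lit 462) (B (L (nat_lit 494) ln13_11_4 ln13_11_4_ok) (M (nat_lit 333) (B (L (nat_lit 428) ln13_10_5 ln13_10_5_ok) (L (nat_lit 430) ln13_10_4 ln13_10_4_ok))))))) (B (M (nat_lit 493) (B (M (nat_lit 366) (B (L (nat_lit 334) ln13_14_6 ln13_14_6_ok) (L (nat_lit 398) ln13_15_6 ln13_15_6_ok))) (M (nat_lit 494) (B (L (nat_lit 462) ln13_11_4 ln13_11_4_ok) (L (nat_lit 526) ln13_12_4 ln13_12_4_ok))))) (M (nat_lit 333) (B (M (nat_lit 334) (B (L (nat_lit 302) ln13_13_6 ln13_13_6_ok) (L (nat_lit 366) ln13_14_6 ln13_14_6_ok))) (M (nat_lit 460) (B (L (nat_lit 428) ln13_10_5 ln13_10_5_ok) (L (nat_lit 492) ln13_11_5 ln13_11_5_ok)))))))) (B (M (nat_lit 493) (B (M (nat_lit 525) (B (M (nat_lit 396) (B (L (nat_lit 364) ln13_15_7 ln13_15_7_ok) (L (nat_lit 428) ln13_16_7 ln13_16_7_ok))) (M (nat_lit 398) (B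 (L (nat_lit 366) ln13_15_6 ln13_15_6_ok) (L (nat_lit 430) ln13_16_6 ln13_16_6_ok))))) (B (M (nat_lit 525) (B (M (nat_lit 398) (B (L (nat_lit 366) ln13_15_6 ln13_15_6_ok) (L (nat_lit 430) ln13_16_6 ln13_16_6_ok))) (M (nat_lit 524) (B (L (nat_lit 492) ln13_12_5 ln13_12_5_ok) (L (nat_lit 556) ln13_13_5 ln13_13_5_ok))))) (M (nat_lit 365) (B (M (nat_lit 364) (B (L (nat_lit 332) ln13_14_7 ln13_14_7_ok) (L (nat_lit 396) ln13_15_7 ln13_15_7_ok))) (M (nat_lit 492) (B (L (nat_lit 460) ln13_11_5 ln13_11_5_ok) (L (nat_lit 524) ln13_12_5 ln13_12_5_ok)))))))) (B c33_n475 (B (M (nat_lit 493) (B (M (nat_lit 525) (B (M (nat_lit 524) (B (L (nat_lit 492) ln13_12_5 ln13_12_5_ok) (L (nat_lit 556) ln13_13_5 ln13_13_5_ok))) (M (nat_lit 526) (B (L (nat_lit 494) ln13_12_4 ln13_12_4_ok) (L (nat_lit 558) ln13_13_4 ln13_13_4_ok))))) (B (M (nat_lit 525) (B (M (nat_lit 396) (B (L (nat_lit 364) ln13_15_7 ln13_15_7_ok) (L (nat_lit 428)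 ln13_16_7 ln13_16_7_ok))) (M (nat_lit 526) (B (L (nat_lit 494) ln13_12_4 ln13_12_4_ok) (L (nat_lit 558) ln13_13_4 ln13_13_4_ok))))) (M (nat_lit 365) (B (M (nat_lit 364) (B (L (nat_lit 332) ln13_14_7 ln13_14_7_ok) (L (nat_lit 396) ln13_15_7 ln13_15_7_ok))) (M (nat_lit 492) (B (L (nat_lit 460) ln13_11_5 ln13_11_5_ok) (L (nat_lit 524) ln13_12_5 ln13_12_5_ok)))))))) (B (M (nat_lit 493) (B (M (nat_lit 525) (B (M (nat_lit 398) (B (L (nat_lit 366) ln13_15_6 ln13_15_6_ok) (L (nat_lit 430) ln13_16_6 ln13_16_6_ok))) (M (nat_lit 526) (B (L (nat_lit 494) ln13_12_4 ln13_12_4_ok) (L (nat_lit 558) ln13_13_4 ln13_13_4_ok))))) (M (nat_lit 365) (B (M (nat_lit 364) (B (L (nat_lit 332) ln13_14_7 ln13_14_7_ok) (L (nat_lit 396) ln13_15_7 ln13_15_7_ok))) (M (nat_lit 492) (B (L (nat_lit 460) ln13_11_5 ln13_11_5_ok) (L (nat_lit 524) ln13_12_5 ln13_12_5_ok))))))) (K (nat_lit 5954262830815946494763249298768603811203561774969104571805089223376689777636098861358550851719243481454542035207245364041705138952691777536)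 (nat_lit 235872651825938241711497502591697568397570514471294764101386828411300375679760114249839000943637507130489221864006325949081731640393217279419286466505245972760776146944) (nat_lit 235872651825938241711497502591697568397570514471294764101386828411300375679760114249839000943637507130489221864006325949081731640393217279419286466505245972760776146944) c33_s494))))))) (nat_lit 1386334847383188664550070665778531748218595021979121511688892729411143073470393764272092352380775458208712834410189682411080515584) (nat_lit 1179363258141160342359549267408618075101010767210322538223647860255823568201848546186880120694229470288609795212006114621456859075003608714254730769871420736430602715136) (nat_lit 1179363258141160342359549267408618075101010767210322538223647860255823568201848546186880120694229470288609795212006114621456859075003608714254730769871420736430602715136) (by decide +kernel)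
noncomputable def c33_n520 : Cert := (M (nat_lit 398) (B (M (nat_lit 366) (B (L (nat_lit 493) ln13_15_6 ln13_15_6_ok) (M (nat_lit 334) (B (L (nat_lit 302) ln14_9_5 ln14_9_5_ok) (L (nat_lit 430) ln14_10_5 ln14_10_5_ok))))) (B (M (nat_lit 493) (B (L (nat_lit 366) ln13_15_6 ln13_15_6_ok) (M (nat_lit 525) (B (L (nat_lit 430) ln13_16_6 ln13_16_6_ok) (M (nat_lit 526) (B (L (nat_lit 494) ln13_12_4 ln13_12_4_ok) (L (nat_lit 558) ln13_13_4 ln13_13_4_ok))))))) (B (M (nat_lit 396) (B (M (nat_lit 493) (B (L (nat_lit 364) ln13_15_7 ln13_15_7_ok) (M (nat_lit 525) (B (L (nat_lit 428) ln13_16_7 ln13_16_7_ok) (L (nat_lit 430) ln13_16_6 ln13_16_6_ok))))) (B (M (nat_lit 399) (B (M (nat_lit 428) (B (L (nat_lit 427) ln15_12_1 ln15_12_1_ok) (L (nat_lit 400) ln16_12_1 ln16_12_1_ok))) (B (M (nat_lit 395) (B (M (nat_lit 427) (B (L (nat_lit 426) ln14_12_1 ln14_12_1_ok) (L (nat_lit 428) ln15_12_1 ln15_12_1_ok))) (M (nat_lit 431)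 (B (L (nat_lit 430) ln11_12_0 ln11_12_0_ok) (L (nat_lit 432) ln12_12_0 ln12_12_0_ok))))) (B (M (nat_lit 432) (B (L (nat_lit 431) ln12_12_0 ln12_12_0_ok) (M (nat_lit 400) (B (L (nat_lit 428) ln16_12_1 ln16_12_1_ok) (L (nat_lit 433) ln13_12_0 ln13_12_0_ok))))) (M (nat_lit 400) (B (M (nat_lit 368) (B (L (nat_lit 367) ln12_12_2 ln12_12_2_ok) (L (nat_lit 369) ln13_12_2 ln13_12_2_ok))) (M (nat_lit 432) (B (L (nat_lit 431) ln12_12_0 ln12_12_0_ok) (L (nat_lit 433) ln13_12_0 ln13_12_0_ok))))))))) (B (M (nat_lit 430) (B (M (nat_lit 431) (B (L (nat_lit 395) ln11_12_0 ln11_12_0_ok) (L (nat_lit 432) ln16_13_3 ln16_13_3_ok))) (M (nat_lit 493) (B (L (nat_lit 364) ln13_15_7 ln13_15_7_ok) (L (nat_lit 525) ln13_16_6 ln13_16_6_ok))))) (M (nat_lit 428) (B (M (nat_lit 493) (B (L (nat_lit 364) ln13_15_7 ln13_15_7_ok) (L (nat_lit 525) ln13_16_7 ln13_16_7_ok))) (M (nat_lit 427) (B (L (nat_lit 399) ln15_12_1 ln15_12_1_ok) (L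 (nat_lit 426) ln10_13_2 ln10_13_2_ok))))))))) (B (M (nat_lit 493) (B (L (nat_lit 366) ln13_15_6 ln13_15_6_ok) (M (nat_lit 525) (B (M (nat_lit 396) (B (L (nat_lit 364) ln13_15_7 ln13_15_7_ok) (L (nat_lit 428) ln13_16_7 ln13_16_7_ok))) (M (nat_lit 526) (B (L (nat_lit 494) ln13_12_4 ln13_12_4_ok) (L (nat_lit 558) ln13_13_4 ln13_13_4_ok))))))) (M (nat_lit 399) (B (M (nat_lit 428) (B (L (nat_lit 400) ln16_12_1 ln16_12_1_ok) (M (nat_lit 427) (B (L (nat_lit 396) ln15_12_1 ln15_12_1_ok) (L (nat_lit 430) ln11_13_2 ln11_13_2_ok))))) (B (M (nat_lit 428) (B (L (nat_lit 400) ln16_12_1 ln16_12_1_ok) (M (nat_lit 427) (B (L (nat_lit 426) ln10_13_2 ln10_13_2_ok) (L (nat_lit 430) ln11_13_2 ln11_13_2_ok))))) (B (M (nat_lit 396) (B (M (nat_lit 428) (B (L (nat_lit 427) ln15_12_1 ln15_12_1_ok) (M (nat_lit 364) (B (L (nat_lit 332) ln12_10_4 ln12_10_4_ok) (L (nat_lit 363) ln15_12_3 ln15_12_3_ok))))) (M (nat_lit 366) (B (M (nat_lit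 334) (B (L (nat_lit 302) ln14_9_5 ln14_9_5_ok) (L (nat_lit 430) ln14_10_5 ln14_10_5_ok))) (M (nat_lit 367) (B (L (nat_lit 395) ln11_12_2 ln11_12_2_ok) (L (nat_lit 368) ln12_12_2 ln12_12_2_ok))))))) (B (M (nat_lit 400) (B (L (nat_lit 428) ln16_12_1 ln16_12_1_ok) (M (nat_lit 401) (B (L (nat_lit 430) ln17_12_1 ln17_12_1_ok) (M (nat_lit 369) (B (L (nat_lit 368) ln13_12_2 ln13_12_2_ok) (L (nat_lit 370) ln14_12_2 ln14_12_2_ok))))))) (B (M (nat_lit 400) (B (M (nat_lit 401) (B (L (nat_lit 430) ln17_12_1 ln17_12_1_ok) (M (nat_lit 369) (B (L (nat_lit 368) ln13_12_2 ln13_12_2_ok) (L (nat_lit 370) ln14_12_2 ln14_12_2_ok))))) (B (M (nat_lit 401) (B (L (nat_lit 430) ln17_12_1 ln17_12_1_ok) (M (nat_lit 433) (B (L (nat_lit 432) ln13_12_0 ln13_12_0_ok) (L (nat_lit 434) ln14_12_0 ln14_12_0_ok))))) (M (nat_lit 396) (B (M (nat_lit 368) (B (L (nat_lit 367) ln12_12_2 ln12_12_2_ok) (L (nat_lit 369) ln13_12_2 ln13_12_2_ok)))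 (M (nat_lit 432) (B (L (nat_lit 431) ln12_12_0 ln12_12_0_ok) (L (nat_lit 433) ln13_12_0 ln13_12_0_ok)))))))) (M (nat_lit 428) (B (L (nat_lit 400) ln16_12_1 ln16_12_1_ok) (M (nat_lit 427) (B (L (nat_lit 396) ln15_12_1 ln15_12_1_ok) (L (nat_lit 426) ln10_13_2 ln10_13_2_ok))))))))))))))))
theorem c33_s521 : Sem (nat_lit 1386334847383188664550070665778531748218595021979121511688892729411143073470393764272092352380775458208712834410189682411080515584) (nat_lit 1179363258141160342359549267408618075145373482321420075735471817815854055693284833350277721250538786803991541118098856625092985167546033282706238786478148306732257902592) (nat_lit 1179363258141160342359549267408618075145373482321420075735471817815854055693284833350277721250538786803991541118098856625092985167546033282706238786478148306732257902592) :=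
  sem_of_chk (M (nat_lit 461) (B (M (nat_lit 365) (B (M (nat_lit 460) (B (L (nat_lit 492) ln13_11_5 ln13_11_5_ok) (M (nat_lit 462) (B (L (nat_lit 494) ln13_11_4 ln13_11_4_ok) (M (nat_lit 333) (B (L (nat_lit 428) ln13_10_5 ln13_10_5_ok) (L (nat_lit 430) ln13_10_4 ln13_10_4_ok))))))) (B (M (nat_lit 493) (B (M (nat_lit 366) (B (L (nat_lit 334) ln13_14_6 ln13_14_6_ok) (L (nat_lit 398) ln13_15_6 ln13_15_6_ok))) (M (nat_lit 494) (B (L (nat_lit 462) ln13_11_4 ln13_11_4_ok) (L (nat_lit 526) ln13_12_4 ln13_12_4_ok))))) (M (nat_lit 333) (B (M (nat_lit 334) (B (L (nat_lit 302) ln13_13_6 ln13_13_6_ok) (L (nat_lit 366) ln13_14_6 ln13_14_6_ok))) (M (nat_lit 460) (B (L (nat_lit 428) ln13_10_5 ln13_10_5_ok) (L (nat_lit 492) ln13_11_5 ln13_11_5_ok)))))))) (B (M (nat_lit 493) (B (M (nat_lit 525) (B (M (nat_lit 524) (B (L (nat_lit 492) ln13_12_5 ln13_12_5_ok) (L (nat_lit 556) ln13_13_5 ln13_13_5_ok))) (M (nat_lit 526) (B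 (L (nat_lit 494) ln13_12_4 ln13_12_4_ok) (L (nat_lit 558) ln13_13_4 ln13_13_4_ok))))) (B (M (nat_lit 525) (B (M (nat_lit 396) (B (L (nat_lit 364) ln13_15_7 ln13_15_7_ok) (L (nat_lit 428) ln13_16_7 ln13_16_7_ok))) (M (nat_lit 526) (B (L (nat_lit 494) ln13_12_4 ln13_12_4_ok) (L (nat_lit 558) ln13_13_4 ln13_13_4_ok))))) (M (nat_lit 365) (B (M (nat_lit 364) (B (L (nat_lit 332) ln13_14_7 ln13_14_7_ok) (L (nat_lit 396) ln13_15_7 ln13_15_7_ok))) (M (nat_lit 492) (B (L (nat_lit 460) ln13_11_5 ln13_11_5_ok) (L (nat_lit 524) ln13_12_5 ln13_12_5_ok)))))))) (B c33_n520 (B (M (nat_lit 493) (B (M (nat_lit 525) (B (M (nat_lit 398) (B (L (nat_lit 366) ln13_15_6 ln13_15_6_ok) (L (nat_lit 430) ln13_16_6 ln13_16_6_ok))) (M (nat_lit 526) (B (L (nat_lit 494) ln13_12_4 ln13_12_4_ok) (L (nat_lit 558) ln13_13_4 ln13_13_4_ok))))) (M (nat_lit 365) (B (M (nat_lit 364) (B (L (nat_lit 332) ln13_14_7 ln13_14_7_ok) (L (nat_lit 396)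 ln13_15_7 ln13_15_7_ok))) (M (nat_lit 492) (B (L (nat_lit 460) ln13_11_5 ln13_11_5_ok) (L (nat_lit 524) ln13_12_5 ln13_12_5_ok))))))) (B c33_n332 (M (nat_lit 493) (B (M (nat_lit 525) (B (M (nat_lit 396) (B (L (nat_lit 364) ln13_15_7 ln13_15_7_ok) (L (nat_lit 428) ln13_16_7 ln13_16_7_ok))) (M (nat_lit 398) (B (L (nat_lit 366) ln13_15_6 ln13_15_6_ok) (L (nat_lit 430) ln13_16_6 ln13_16_6_ok))))) (B (M (nat_lit 525) (B (M (nat_lit 398) (B (L (nat_lit 366) ln13_15_6 ln13_15_6_ok) (L (nat_lit 430) ln13_16_6 ln13_16_6_ok))) (M (nat_lit 524) (B (L (nat_lit 492) ln13_12_5 ln13_12_5_ok) (L (nat_lit 556) ln13_13_5 ln13_13_5_ok))))) (M (nat_lit 365) (B (M (nat_lit 364) (B (L (nat_lit 332) ln13_14_7 ln13_14_7_ok) (L (nat_lit 396) ln13_15_7 ln13_15_7_ok))) (M (nat_lit 492) (B (L (nat_lit 460) ln13_11_5 ln13_11_5_ok) (L (nat_lit 524) ln13_12_5 ln13_12_5_ok)))))))))))))) (nat_lit 1386334847383188664550070665778531748218595021979121511688892729411143073470393764272092352380775458208712834410189682411080515584)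 (nat_lit 1179363258141160342359549267408618075145373482321420075735471817815854055693284833350277721250538786803991541118098856625092985167546033282706238786478148306732257902592) (nat_lit 1179363258141160342359549267408618075145373482321420075735471817815854055693284833350277721250538786803991541118098856625092985167546033282706238786478148306732257902592) (by decide +kernel)
theorem c33_s556 : Sem (nat_lit 1386334847383188664550070665778531748218595021979121511688892729411143073470393764272092352380775458208712834410189682411080515584) (nat_lit 1179363258141160342359549267408618075101010767215527385632334922167285190365163322130580251051547841543510603478381670526789431568339593043558323367619293479073262600192) (nat_lit 1179363258141160342359549267408618075101010767215527385632334922167285190365163322130580251051547841543510603478381670526789431568339593043558323367619293479073262600192) :=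
  sem_of_chk (M (nat_lit 461) (B (M (nat_lit 365) (B (M (nat_lit 460) (B (L (nat_lit 492) ln13_11_5 ln13_11_5_ok) (M (nat_lit 462) (B (L (nat_lit 494) ln13_11_4 ln13_11_4_ok) (M (nat_lit 333) (B (L (nat_lit 428) ln13_10_5 ln13_10_5_ok) (L (nat_lit 430) ln13_10_4 ln13_10_4_ok))))))) (B (M (nat_lit 493) (B (M (nat_lit 366) (B (L (nat_lit 334) ln13_14_6 ln13_14_6_ok) (L (nat_lit 398) ln13_15_6 ln13_15_6_ok))) (M (nat_lit 494) (B (L (nat_lit 462) ln13_11_4 ln13_11_4_ok) (L (nat_lit 526) ln13_12_4 ln13_12_4_ok))))) (M (nat_lit 333) (B (M (nat_lit 334) (B (L (nat_lit 302) ln13_13_6 ln13_13_6_ok) (L (nat_lit 366) ln13_14_6 ln13_14_6_ok))) (M (nat_lit 460) (B (L (nat_lit 428) ln13_10_5 ln13_10_5_ok) (L (nat_lit 492) ln13_11_5 ln13_11_5_ok)))))))) (B (M (nat_lit 493) (B (M (nat_lit 525) (B (M (nat_lit 396) (B (L (nat_lit 364) ln13_15_7 ln13_15_7_ok) (L (nat_lit 428) ln13_16_7 ln13_16_7_ok))) (M (nat_lit 398) (B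 (L (nat_lit 366) ln13_15_6 ln13_15_6_ok) (L (nat_lit 430) ln13_16_6 ln13_16_6_ok))))) (B (M (nat_lit 525) (B (M (nat_lit 398) (B (L (nat_lit 366) ln13_15_6 ln13_15_6_ok) (L (nat_lit 430) ln13_16_6 ln13_16_6_ok))) (M (nat_lit 524) (B (L (nat_lit 492) ln13_12_5 ln13_12_5_ok) (L (nat_lit 556) ln13_13_5 ln13_13_5_ok))))) (M (nat_lit 365) (B (M (nat_lit 364) (B (L (nat_lit 332) ln13_14_7 ln13_14_7_ok) (L (nat_lit 396) ln13_15_7 ln13_15_7_ok))) (M (nat_lit 492) (B (L (nat_lit 460) ln13_11_5 ln13_11_5_ok) (L (nat_lit 524) ln13_12_5 ln13_12_5_ok)))))))) (B (M (nat_lit 493) (B (M (nat_lit 525) (B (M (nat_lit 396) (B (L (nat_lit 364) ln13_15_7 ln13_15_7_ok) (L (nat_lit 428) ln13_16_7 ln13_16_7_ok))) (M (nat_lit 524) (B (L (nat_lit 492) ln13_12_5 ln13_12_5_ok) (L (nat_lit 556) ln13_13_5 ln13_13_5_ok))))) (B (M (nat_lit 525) (B (M (nat_lit 398) (B (L (nat_lit 366) ln13_15_6 ln13_15_6_ok) (L (nat_lit 430) ln13_16_6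 ln13_16_6_ok))) (M (nat_lit 526) (B (L (nat_lit 494) ln13_12_4 ln13_12_4_ok) (L (nat_lit 558) ln13_13_4 ln13_13_4_ok))))) (M (nat_lit 398) (B (L (nat_lit 366) ln13_15_6 ln13_15_6_ok) (M (nat_lit 462) (B (M (nat_lit 494) (B (L (nat_lit 526) ln13_12_4 ln13_12_4_ok) (M (nat_lit 492) (B (L (nat_lit 524) ln13_12_5 ln13_12_5_ok) (M (nat_lit 463) (B (L (nat_lit 464) ln16_14_1 ln16_14_1_ok) (L (nat_lit 491) ln11_15_2 ln11_15_2_ok))))))) (B (M (nat_lit 430) (B (M (nat_lit 396) (B (L (nat_lit 364) ln13_15_7 ln13_15_7_ok) (M (nat_lit 395) (B (L (nat_lit 394) ln10_12_0 ln10_12_0_ok) (L (nat_lit 431) ln11_12_0 ln11_12_0_ok))))) (M (nat_lit 399) (B (M (nat_lit 494) (B (L (nat_lit 367) ln14_15_6 ln14_15_6_ok) (L (nat_lit 526) ln14_16_7 ln14_16_7_ok))) (M (nat_lit 400) (B (L (nat_lit 428) ln16_12_1 ln16_12_1_ok) (L (nat_lit 401) ln17_12_1 ln17_12_1_ok))))))) (M (nat_lit 492) (B (L (nat_lit 524) ln13_12_5 ln13_12_5_ok)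 (M (nat_lit 463) (B (L (nat_lit 464) ln16_14_1 ln16_14_1_ok) (M (nat_lit 491) (B (L (nat_lit 460) ln15_14_1 ln15_14_1_ok) (L (nat_lit 490) ln10_15_2 ln10_15_2_ok))))))))))))))) (B (M (nat_lit 493) (B (M (nat_lit 525) (B (M (nat_lit 524) (B (L (nat_lit 492) ln13_12_5 ln13_12_5_ok) (L (nat_lit 556) ln13_13_5 ln13_13_5_ok))) (M (nat_lit 526) (B (L (nat_lit 494) ln13_12_4 ln13_12_4_ok) (L (nat_lit 558) ln13_13_4 ln13_13_4_ok))))) (B (M (nat_lit 525) (B (M (nat_lit 396) (B (L (nat_lit 364) ln13_15_7 ln13_15_7_ok) (L (nat_lit 428) ln13_16_7 ln13_16_7_ok))) (M (nat_lit 526) (B (L (nat_lit 494) ln13_12_4 ln13_12_4_ok) (L (nat_lit 558) ln13_13_4 ln13_13_4_ok))))) (M (nat_lit 365) (B (M (nat_lit 364) (B (L (nat_lit 332) ln13_14_7 ln13_14_7_ok) (L (nat_lit 396) ln13_15_7 ln13_15_7_ok))) (M (nat_lit 492) (B (L (nat_lit 460) ln13_11_5 ln13_11_5_ok) (L (nat_lit 524) ln13_12_5 ln13_12_5_ok)))))))) (B (M (nat_lit 493)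 (B (M (nat_lit 525) (B (M (nat_lit 398) (B (L (nat_lit 366) ln13_15_6 ln13_15_6_ok) (L (nat_lit 430) ln13_16_6 ln13_16_6_ok))) (M (nat_lit 526) (B (L (nat_lit 494) ln13_12_4 ln13_12_4_ok) (L (nat_lit 558) ln13_13_4 ln13_13_4_ok))))) (M (nat_lit 365) (B (M (nat_lit 364) (B (L (nat_lit 332) ln13_14_7 ln13_14_7_ok) (L (nat_lit 396) ln13_15_7 ln13_15_7_ok))) (M (nat_lit 492) (B (L (nat_lit 460) ln13_11_5 ln13_11_5_ok) (L (nat_lit 524) ln13_12_5 ln13_12_5_ok))))))) (B (M (nat_lit 493) (B (M (nat_lit 365) (B (M (nat_lit 364) (B (L (nat_lit 332) ln13_14_7 ln13_14_7_ok) (L (nat_lit 396) ln13_15_7 ln13_15_7_ok))) (M (nat_lit 366) (B (L (nat_lit 334) ln13_14_6 ln13_14_6_ok) (L (nat_lit 398) ln13_15_6 ln13_15_6_ok))))) (M (nat_lit 525) (B (M (nat_lit 524) (B (L (nat_lit 492) ln13_12_5 ln13_12_5_ok) (L (nat_lit 556) ln13_13_5 ln13_13_5_ok))) (M (nat_lit 526) (B (L (nat_lit 494) ln13_12_4 ln13_12_4_ok) (L (nat_lit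 558) ln13_13_4 ln13_13_4_ok))))))) (B (M (nat_lit 493) (B (M (nat_lit 365) (B (M (nat_lit 366) (B (L (nat_lit 334) ln13_14_6 ln13_14_6_ok) (L (nat_lit 398) ln13_15_6 ln13_15_6_ok))) (M (nat_lit 494) (B (L (nat_lit 462) ln13_11_4 ln13_11_4_ok) (L (nat_lit 526) ln13_12_4 ln13_12_4_ok))))) (B (M (nat_lit 365) (B (M (nat_lit 364) (B (L (nat_lit 332) ln13_14_7 ln13_14_7_ok) (L (nat_lit 396) ln13_15_7 ln13_15_7_ok))) (M (nat_lit 494) (B (L (nat_lit 462) ln13_11_4 ln13_11_4_ok) (L (nat_lit 526) ln13_12_4 ln13_12_4_ok))))) (B (M (nat_lit 525) (B (M (nat_lit 396) (B (L (nat_lit 364) ln13_15_7 ln13_15_7_ok) (L (nat_lit 428) ln13_16_7 ln13_16_7_ok))) (M (nat_lit 526) (B (L (nat_lit 494) ln13_12_4 ln13_12_4_ok) (L (nat_lit 558) ln13_13_4 ln13_13_4_ok))))) (M (nat_lit 365) (B (M (nat_lit 364) (B (L (nat_lit 332) ln13_14_7 ln13_14_7_ok) (L (nat_lit 396) ln13_15_7 ln13_15_7_ok))) (M (nat_lit 366) (B (L (nat_lit 334)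 ln13_14_6 ln13_14_6_ok) (L (nat_lit 398) ln13_15_6 ln13_15_6_ok))))))))) c33_n332)))))))) (nat_lit 1386334847383188664550070665778531748218595021979121511688892729411143073470393764272092352380775458208712834410189682411080515584) (nat_lit 1179363258141160342359549267408618075101010767215527385632334922167285190365163322130580251051547841543510603478381670526789431568339593043558323367619293479073262600192) (nat_lit 1179363258141160342359549267408618075101010767215527385632334922167285190365163322130580251051547841543510603478381670526789431568339593043558323367619293479073262600192) (by decide +kernel)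
noncomputable def c33_n808 : Cert := (M (nat_lit 430) (B (M (nat_lit 460) (B (M (nat_lit 431) (B (L (nat_lit 459) ln15_13_1 ln15_13_1_ok) (M (nat_lit 432) (B (L (nat_lit 396) ln16_13_3 ln16_13_3_ok) (L (nat_lit 461) ln16_13_1 ln16_13_1_ok))))) (B (M (nat_lit 365) (B (L (nat_lit 333) ln13_10_5 ln13_10_5_ok) (M (nat_lit 492) (B (L (nat_lit 461) ln13_11_5 ln13_11_5_ok) (L (nat_lit 524) ln12_16_6 ln12_16_6_ok))))) (M (nat_lit 365) (B (L (nat_lit 333) ln13_10_5 ln13_10_5_ok) (M (nat_lit 492) (B (L (nat_lit 396) ln12_15_6 ln12_15_6_ok) (L (nat_lit 524) ln12_16_6 ln12_16_6_ok)))))))) (B (M (nat_lit 460) (B (M (nat_lit 431) (B (L (nat_lit 459) ln15_13_1 ln15_13_1_ok) (M (nat_lit 396) (B (L (nat_lit 395) ln15_13_3 ln15_13_3_ok) (L (nat_lit 432) ln16_13_3 ln16_13_3_ok))))) (B (M (nat_lit 431) (B (L (nat_lit 459) ln15_13_1 ln15_13_1_ok) (M (nat_lit 432) (B (L (nat_lit 396) ln16_13_3 ln16_13_3_ok) (L (nat_lit 461)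 ln16_13_1 ln16_13_1_ok))))) (B (M (nat_lit 459) (B (L (nat_lit 431) ln15_13_1 ln15_13_1_ok) (M (nat_lit 458) (B (L (nat_lit 457) ln9_14_2 ln9_14_2_ok) (L (nat_lit 461) ln10_14_2 ln10_14_2_ok))))) (M (nat_lit 492) (B (L (nat_lit 524) ln12_16_6 ln12_16_6_ok) (M (nat_lit 365) (B (L (nat_lit 396) ln12_15_6 ln12_15_6_ok) (L (nat_lit 461) ln13_11_5 ln13_11_5_ok))))))))) (B (M (nat_lit 431) (B (M (nat_lit 396) (B (L (nat_lit 395) ln15_13_3 ln15_13_3_ok) (L (nat_lit 432) ln16_13_3 ln16_13_3_ok))) (M (nat_lit 427) (B (M (nat_lit 459) (B (L (nat_lit 458) ln14_13_1 ln14_13_1_ok) (L (nat_lit 460) ln15_13_1 ln15_13_1_ok))) (M (nat_lit 463) (B (L (nat_lit 462) ln11_13_0 ln11_13_0_ok) (L (nat_lit 464) ln12_13_0 ln12_13_0_ok))))))) (B (M (nat_lit 460) (B (M (nat_lit 459) (B (L (nat_lit 431) ln15_13_1 ln15_13_1_ok) (M (nat_lit 458) (B (L (nat_lit 427) ln14_13_1 ln14_13_1_ok) (L (nat_lit 457) ln9_14_2 ln9_14_2_ok)))))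 (B (M (nat_lit 459) (B (L (nat_lit 431) ln15_13_1 ln15_13_1_ok) (M (nat_lit 458) (B (L (nat_lit 457) ln9_14_2 ln9_14_2_ok) (L (nat_lit 461) ln10_14_2 ln10_14_2_ok))))) (M (nat_lit 365) (B (L (nat_lit 333) ln13_10_5 ln13_10_5_ok) (M (nat_lit 492) (B (L (nat_lit 461) ln13_11_5 ln13_11_5_ok) (L (nat_lit 524) ln12_16_6 ln12_16_6_ok)))))))) (B (M (nat_lit 427) (B (M (nat_lit 462) (B (L (nat_lit 463) ln11_13_0 ln11_13_0_ok) (M (nat_lit 426) (B (L (nat_lit 461) ln10_13_0 ln10_13_0_ok) (M (nat_lit 458) (B (L (nat_lit 457) ln13_13_1 ln13_13_1_ok) (L (nat_lit 459) ln14_13_1 ln14_13_1_ok))))))) (B (M (nat_lit 462) (B (L (nat_lit 463) ln11_13_0 ln11_13_0_ok) (M (nat_lit 365) (B (L (nat_lit 333) ln13_10_4 ln13_10_4_ok) (M (nat_lit 494) (B (L (nat_lit 461) ln13_11_4 ln13_11_4_ok) (L (nat_lit 526) ln14_16_7 ln14_16_7_ok))))))) (M (nat_lit 426) (B (M (nat_lit 394) (B (L (nat_lit 393) ln13_13_3 ln13_13_3_ok) (L (nat_lit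 395) ln14_13_3 ln14_13_3_ok))) (M (nat_lit 458) (B (L (nat_lit 457) ln13_13_1 ln13_13_1_ok) (L (nat_lit 459) ln14_13_1 ln14_13_1_ok)))))))) (M (nat_lit 462) (B (M (nat_lit 365) (B (L (nat_lit 333) ln13_10_4 ln13_10_4_ok) (M (nat_lit 494) (B (L (nat_lit 461) ln13_11_4 ln13_11_4_ok) (L (nat_lit 526) ln14_16_7 ln14_16_7_ok))))) (B (M (nat_lit 463) (B (L (nat_lit 427) ln11_13_0 ln11_13_0_ok) (M (nat_lit 464) (B (L (nat_lit 431) ln12_13_0 ln12_13_0_ok) (L (nat_lit 461) ln16_14_3 ln16_14_3_ok))))) (M (nat_lit 431) (B (M (nat_lit 396) (B (L (nat_lit 395) ln15_13_3 ln15_13_3_ok) (L (nat_lit 432) ln16_13_3 ln16_13_3_ok))) (M (nat_lit 463) (B (L (nat_lit 427) ln11_13_0 ln11_13_0_ok) (L (nat_lit 464) ln12_13_0 ln12_13_0_ok))))))))))))))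
noncomputable def c33_n948 : Cert := (M (nat_lit 460) (B (M (nat_lit 492) (B (L (nat_lit 524) ln12_16_6 ln12_16_6_ok) (M (nat_lit 365) (B (L (nat_lit 333) ln13_10_5 ln13_10_5_ok) (L (nat_lit 461) ln13_11_5 ln13_11_5_ok))))) (B (M (nat_lit 492) (B (L (nat_lit 524) ln12_16_6 ln12_16_6_ok) (M (nat_lit 365) (B (L (nat_lit 396) ln12_15_6 ln12_15_6_ok) (L (nat_lit 461) ln13_11_5 ln13_11_5_ok))))) (B (M (nat_lit 492) (B (L (nat_lit 524) ln12_16_6 ln12_16_6_ok) (M (nat_lit 493) (B (M (nat_lit 525) (B (L (nat_lit 396) ln12_12_4 ln12_12_4_ok) (M (nat_lit 557) (B (L (nat_lit 461) ln13_17_7 ln13_17_7_ok) (L (nat_lit 589) ln13_18_7 ln13_18_7_ok))))) (B (M (nat_lit 461) (B (M (nat_lit 494) (B (L (nat_lit 526) ln13_12_4 ln13_12_4_ok) (M (nat_lit 459) (B (L (nat_lit 458) ln10_14_0 ln10_14_0_ok) (L (nat_lit 495) ln15_15_3 ln15_15_3_ok))))) (M (nat_lit 525) (B (L (nat_lit 557) ln13_17_7 ln13_17_7_ok) (M (nat_lit 398) (B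 (L (nat_lit 366) ln13_15_6 ln13_15_6_ok) (L (nat_lit 430) ln13_16_6 ln13_16_6_ok))))))) (B (M (nat_lit 396) (B (L (nat_lit 525) ln12_12_4 ln12_12_4_ok) (M (nat_lit 395) (B (L (nat_lit 363) ln12_15_7 ln12_15_7_ok) (M (nat_lit 394) (B (L (nat_lit 393) ln9_12_0 ln9_12_0_ok) (L (nat_lit 430) ln10_12_0 ln10_12_0_ok))))))) (M (nat_lit 494) (B (M (nat_lit 461) (B (L (nat_lit 526) ln13_12_4 ln13_12_4_ok) (M (nat_lit 459) (B (L (nat_lit 458) ln10_14_0 ln10_14_0_ok) (L (nat_lit 495) ln15_15_3 ln15_15_3_ok))))) (B (M (nat_lit 491) (B (M (nat_lit 523) (B (L (nat_lit 396) ln12_12_5 ln12_12_5_ok) (L (nat_lit 522) ln14_15_1 ln14_15_1_ok))) (M (nat_lit 526) (B (L (nat_lit 461) ln13_12_4 ln13_12_4_ok) (L (nat_lit 527) ln11_15_0 ln11_15_0_ok))))) (M (nat_lit 459) (B (L (nat_lit 495) ln15_15_3 ln15_15_3_ok) (M (nat_lit 458) (B (L (nat_lit 457) ln9_14_2 ln9_14_2_ok) (L (nat_lit 491) ln14_15_3 ln14_15_3_ok)))))))))))))) (B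 (M (nat_lit 492) (B (L (nat_lit 524) ln12_16_6 ln12_16_6_ok) (M (nat_lit 365) (B (L (nat_lit 333) ln13_10_5 ln13_10_5_ok) (L (nat_lit 396) ln12_15_6 ln12_15_6_ok))))) (M (nat_lit 461) (B (M (nat_lit 365) (B (L (nat_lit 333) ln13_10_5 ln13_10_5_ok) (M (nat_lit 366) (B (L (nat_lit 334) ln13_14_6 ln13_14_6_ok) (M (nat_lit 493) (B (L (nat_lit 398) ln13_15_6 ln13_15_6_ok) (M (nat_lit 494) (B (L (nat_lit 462) ln13_11_4 ln13_11_4_ok) (L (nat_lit 526) ln13_12_4 ln13_12_4_ok))))))))) (B (M (nat_lit 493) (B (M (nat_lit 525) (B (L (nat_lit 396) ln13_16_7 ln13_16_7_ok) (L (nat_lit 557) ln13_17_7 ln13_17_7_ok))) (M (nat_lit 365) (B (M (nat_lit 366) (B (L (nat_lit 334) ln13_14_6 ln13_14_6_ok) (L (nat_lit 398) ln13_15_6 ln13_15_6_ok))) (M (nat_lit 494) (B (L (nat_lit 462) ln13_11_4 ln13_11_4_ok) (L (nat_lit 526) ln13_12_4 ln13_12_4_ok))))))) (B (M (nat_lit 365) (B (L (nat_lit 333) ln13_10_5 ln13_10_5_ok) (M (nat_lit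 493) (B (M (nat_lit 494) (B (L (nat_lit 462) ln13_11_4 ln13_11_4_ok) (L (nat_lit 526) ln13_12_4 ln13_12_4_ok))) (M (nat_lit 525) (B (L (nat_lit 396) ln13_16_7 ln13_16_7_ok) (L (nat_lit 557) ln13_17_7 ln13_17_7_ok))))))) (B (M (nat_lit 493) (B (M (nat_lit 525) (B (L (nat_lit 396) ln13_16_7 ln13_16_7_ok) (L (nat_lit 557) ln13_17_7 ln13_17_7_ok))) (M (nat_lit 494) (B (L (nat_lit 526) ln13_12_4 ln13_12_4_ok) (M (nat_lit 459) (B (L (nat_lit 458) ln10_14_0 ln10_14_0_ok) (M (nat_lit 495) (B (L (nat_lit 462) ln11_14_0 ln11_14_0_ok) (L (nat_lit 496) ln16_15_3 ln16_15_3_ok))))))))) (B (M (nat_lit 365) (B (L (nat_lit 333) ln13_10_5 ln13_10_5_ok) (M (nat_lit 493) (B (M (nat_lit 366) (B (L (nat_lit 334) ln13_14_6 ln13_14_6_ok) (L (nat_lit 398) ln13_15_6 ln13_15_6_ok))) (M (nat_lit 525) (B (L (nat_lit 396) ln13_16_7 ln13_16_7_ok) (L (nat_lit 557) ln13_17_7 ln13_17_7_ok))))))) (M (nat_lit 462) (B (M (nat_lit 365) (B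 (L (nat_lit 333) ln13_10_5 ln13_10_5_ok) (L (nat_lit 494) ln13_11_4 ln13_11_4_ok))) (B (M (nat_lit 495) (B (M (nat_lit 494) (B (L (nat_lit 365) ln13_11_4 ln13_11_4_ok) (L (nat_lit 459) ln11_14_0 ln11_14_0_ok))) (M (nat_lit 463) (B (L (nat_lit 464) ln16_14_3 ln16_14_3_ok) (L (nat_lit 496) ln12_14_0 ln12_14_0_ok))))) (B (M (nat_lit 463) (B (L (nat_lit 464) ln16_14_3 ln16_14_3_ok) (M (nat_lit 459) (B (M (nat_lit 431) (B (L (nat_lit 430) ln15_13_1 ln15_13_1_ok) (L (nat_lit 432) ln12_14_2 ln12_14_2_ok))) (M (nat_lit 495) (B (L (nat_lit 494) ln11_14_0 ln11_14_0_ok) (L (nat_lit 496) ln12_14_0 ln12_14_0_ok))))))) (M (nat_lit 459) (B (M (nat_lit 430) (B (L (nat_lit 431) ln15_13_1 ln15_13_1_ok) (L (nat_lit 458) ln10_14_2 ln10_14_2_ok))) (B (M (nat_lit 458) (B (L (nat_lit 457) ln9_14_2 ln9_14_2_ok) (M (nat_lit 490) (B (L (nat_lit 489) ln13_14_1 ln13_14_1_ok) (L (nat_lit 491) ln14_14_1 ln14_14_1_ok))))) (M (nat_lit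 431) (B (L (nat_lit 430) ln15_13_1 ln15_13_1_ok) (M (nat_lit 463) (B (L (nat_lit 464) ln16_14_3 ln16_14_3_ok) (L (nat_lit 432) ln12_14_2 ln12_14_2_ok)))))))))))))))))))))))
theorem c33_s1201 : Sem (nat_lit 2079502270913392379444674211814302674077704290823075655481512624564798400421800170032085953906810352733060637150540575368324055040) (nat_lit 54918381424895051001403666642000279406675688148291976394902304779789337518405864629093247196546782069041746232251032350289698228490100495887426191123474808832) (nat_lit 54918381424895051001403666642000279406675688148291976394902304779789337518405864629093247196546782069041746232251032350289698228490100495887426191123474808832) :=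
  sem_of_chk (M (nat_lit 398) (B (M (nat_lit 399) (B (L (nat_lit 400) ln16_12_1 ln16_12_1_ok) (M (nat_lit 427) (B (L (nat_lit 396) ln15_12_1 ln15_12_1_ok) (L (nat_lit 426) ln10_13_2 ln10_13_2_ok))))) (B (M (nat_lit 399) (B (L (nat_lit 400) ln16_12_1 ln16_12_1_ok) (M (nat_lit 427) (B (L (nat_lit 426) ln10_13_2 ln10_13_2_ok) (L (nat_lit 430) ln11_13_2 ln11_13_2_ok))))) (B (M (nat_lit 427) (B (L (nat_lit 426) ln10_13_2 ln10_13_2_ok) (M (nat_lit 395) (B (M (nat_lit 394) (B (L (nat_lit 430) ln14_13_3 ln14_13_3_ok) (M (nat_lit 393) (B (L (nat_lit 392) ln8_12_0 ln8_12_0_ok) (L (nat_lit 396) ln9_12_0 ln9_12_0_ok))))) (B (M (nat_lit 430) (B (L (nat_lit 394) ln14_13_3 ln14_13_3_ok) (M (nat_lit 431) (B (L (nat_lit 396) ln11_12_0 ln11_12_0_ok) (M (nat_lit 459) (B (L (nat_lit 458) ln14_13_1 ln14_13_1_ok) (L (nat_lit 460) ln15_13_1 ln15_13_1_ok))))))) (B (M (nat_lit 459) (B (M (nat_lit 430) (B (L (nat_lit 458) ln14_13_1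 ln14_13_1_ok) (M (nat_lit 431) (B (L (nat_lit 396) ln11_12_0 ln11_12_0_ok) (L (nat_lit 460) ln15_13_1 ln15_13_1_ok))))) (B (M (nat_lit 460) (B (M (nat_lit 363) (B (L (nat_lit 331) ln11_10_4 ln11_10_4_ok) (L (nat_lit 492) ln11_11_4 ln11_11_4_ok))) (M (nat_lit 458) (B (L (nat_lit 430) ln14_13_1 ln14_13_1_ok) (L (nat_lit 457) ln9_14_2 ln9_14_2_ok))))) (B (M (nat_lit 363) (B (M (nat_lit 362) (B (L (nat_lit 330) ln11_14_7 ln11_14_7_ok) (L (nat_lit 396) ln14_12_3 ln14_12_3_ok))) (M (nat_lit 460) (B (L (nat_lit 331) ln11_10_4 ln11_10_4_ok) (L (nat_lit 492) ln11_11_4 ln11_11_4_ok))))) (M (nat_lit 363) (B (M (nat_lit 362) (B (L (nat_lit 330) ln11_14_7 ln11_14_7_ok) (L (nat_lit 396) ln14_12_3 ln14_12_3_ok))) (M (nat_lit 458) (B (L (nat_lit 490) ln11_11_5 ln11_11_5_ok) (L (nat_lit 430) ln14_13_1 ln14_13_1_ok))))))))) (B (M (nat_lit 460) (B (M (nat_lit 492) (B (L (nat_lit 524) ln12_16_7 ln12_16_7_ok) (M (nat_lit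 365) (B (L (nat_lit 333) ln13_10_5 ln13_10_5_ok) (L (nat_lit 461) ln13_11_5 ln13_11_5_ok))))) (M (nat_lit 430) (B (L (nat_lit 394) ln14_13_3 ln14_13_3_ok) (M (nat_lit 459) (B (L (nat_lit 458) ln14_13_1 ln14_13_1_ok) (L (nat_lit 431) ln15_13_1 ln15_13_1_ok))))))) (M (nat_lit 396) (B (M (nat_lit 363) (B (L (nat_lit 362) ln14_12_3 ln14_12_3_ok) (M (nat_lit 460) (B (L (nat_lit 331) ln11_10_4 ln11_10_4_ok) (L (nat_lit 492) ln12_15_7 ln12_15_7_ok))))) (M (nat_lit 366) (B (L (nat_lit 367) ln11_12_2 ln11_12_2_ok) (M (nat_lit 394) (B (L (nat_lit 365) ln10_12_2 ln10_12_2_ok) (L (nat_lit 393) ln9_12_0 ln9_12_0_ok)))))))))))))) (B (M (nat_lit 399) (B (L (nat_lit 400) ln16_12_1 ln16_12_1_ok) (M (nat_lit 427) (B (L (nat_lit 396) ln15_12_1 ln15_12_1_ok) (L (nat_lit 430) ln11_13_2 ln11_13_2_ok))))) (M (nat_lit 431) (B (M (nat_lit 399) (B (L (nat_lit 400) ln16_12_1 ln16_12_1_ok) (M (nat_lit 396) (B (L (nat_lit 432) ln12_12_0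 ln12_12_0_ok) (M (nat_lit 395) (B (L (nat_lit 430) ln11_12_0 ln11_12_0_ok) (M (nat_lit 367) (B (L (nat_lit 366) ln11_12_2 ln11_12_2_ok) (L (nat_lit 368) ln12_12_2 ln12_12_2_ok))))))))) (B (M (nat_lit 396) (B (M (nat_lit 399) (B (L (nat_lit 432) ln12_12_0 ln12_12_0_ok) (L (nat_lit 400) ln16_12_1 ln16_12_1_ok))) (B (M (nat_lit 430) (B (L (nat_lit 395) ln11_12_0 ln11_12_0_ok) (L (nat_lit 432) ln16_13_3 ln16_13_3_ok))) (M (nat_lit 460) (B (M (nat_lit 365) (B (L (nat_lit 333) ln13_10_5 ln13_10_5_ok) (L (nat_lit 492) ln12_15_6 ln12_15_6_ok))) (M (nat_lit 430) (B (L (nat_lit 395) ln11_12_0 ln11_12_0_ok) (L (nat_lit 459) ln15_13_1 ln15_13_1_ok)))))))) (B (M (nat_lit 460) (B (M (nat_lit 430) (B (L (nat_lit 459) ln15_13_1 ln15_13_1_ok) (M (nat_lit 432) (B (L (nat_lit 396) ln16_13_3 ln16_13_3_ok) (L (nat_lit 433) ln17_13_3 ln17_13_3_ok))))) (B (M (nat_lit 430) (B (L (nat_lit 459) ln15_13_1 ln15_13_1_ok) (M (nat_lit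 432) (B (L (nat_lit 433) ln17_13_3 ln17_13_3_ok) (L (nat_lit 461) ln16_13_1 ln16_13_1_ok))))) (M (nat_lit 365) (B (L (nat_lit 333) ln13_10_5 ln13_10_5_ok) (M (nat_lit 492) (B (L (nat_lit 396) ln12_15_6 ln12_15_6_ok) (L (nat_lit 461) ln13_11_5 ln13_11_5_ok)))))))) (B (M (nat_lit 461) (B (M (nat_lit 366) (B (L (nat_lit 493) ln13_15_6 ln13_15_6_ok) (M (nat_lit 334) (B (L (nat_lit 302) ln14_9_5 ln14_9_5_ok) (L (nat_lit 365) ln13_14_6 ln13_14_6_ok))))) (B (M (nat_lit 366) (B (L (nat_lit 493) ln13_15_6 ln13_15_6_ok) (M (nat_lit 334) (B (L (nat_lit 365) ln13_14_6 ln13_14_6_ok) (L (nat_lit 430) ln14_10_5 ln14_10_5_ok))))) (B (M (nat_lit 460) (B (M (nat_lit 365) (B (L (nat_lit 333) ln13_10_5 ln13_10_5_ok) (L (nat_lit 492) ln13_11_5 ln13_11_5_ok))) (M (nat_lit 430) (B (L (nat_lit 459) ln15_13_1 ln15_13_1_ok) (L (nat_lit 432) ln16_13_1 ln16_13_1_ok))))) (M (nat_lit 366) (B (L (nat_lit 493) ln13_15_6 ln13_15_6_ok)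 (M (nat_lit 334) (B (L (nat_lit 302) ln14_9_5 ln14_9_5_ok) (L (nat_lit 430) ln14_10_5 ln14_10_5_ok))))))))) (B (M (nat_lit 399) (B (L (nat_lit 400) ln16_12_1 ln16_12_1_ok) (M (nat_lit 366) (B (M (nat_lit 396) (B (L (nat_lit 432) ln12_12_0 ln12_12_0_ok) (M (nat_lit 367) (B (L (nat_lit 395) ln11_12_2 ln11_12_2_ok) (L (nat_lit 368) ln12_12_2 ln12_12_2_ok))))) (M (nat_lit 461) (B (L (nat_lit 493) ln13_15_6 ln13_15_6_ok) (M (nat_lit 334) (B (L (nat_lit 302) ln14_9_5 ln14_9_5_ok) (L (nat_lit 365) ln13_14_6 ln13_14_6_ok))))))))) (M (nat_lit 430) (B (M (nat_lit 396) (B (L (nat_lit 395) ln11_12_0 ln11_12_0_ok) (M (nat_lit 460) (B (L (nat_lit 459) ln15_13_1 ln15_13_1_ok) (M (nat_lit 365) (B (L (nat_lit 333) ln13_10_5 ln13_10_5_ok) (L (nat_lit 492) ln12_15_6 ln12_15_6_ok))))))) (M (nat_lit 399) (B (L (nat_lit 400) ln16_12_1 ln16_12_1_ok) (M (nat_lit 463) (B (L (nat_lit 464) ln12_13_0 ln12_13_0_ok) (M (nat_lit 366)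 (B (L (nat_lit 334) ln14_10_4 ln14_10_4_ok) (L (nat_lit 495) ln15_15_7 ln15_15_7_ok)))))))))))))))))))) (nat_lit 2079502270913392379444674211814302674077704290823075655481512624564798400421800170032085953906810352733060637150540575368324055040) (nat_lit 54918381424895051001403666642000279406675688148291976394902304779789337518405864629093247196546782069041746232251032350289698228490100495887426191123474808832) (nat_lit 54918381424895051001403666642000279406675688148291976394902304779789337518405864629093247196546782069041746232251032350289698228490100495887426191123474808832) (by decide +kernel)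
theorem c33_s1230 : Sem (nat_lit 2079502270913392379444674211814302674077704290823075655481512624564798400421800170032085953906810352733060637150540575368324055040) (nat_lit 54918381322601594445106604909791984907012608299336581001876221864140739436532602334527108323393610252052664991929264329975987859035951012454612208105050603520) (nat_lit 54918381322601594445106604909791984907012608299336581001876221864140739436532602334527108323393610252052664991929264329975987859035951012454612208105050603520) :=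
  sem_of_chk (M (nat_lit 398) (B (M (nat_lit 399) (B (L (nat_lit 400) ln16_12_1 ln16_12_1_ok) (M (nat_lit 427) (B (L (nat_lit 396) ln15_12_1 ln15_12_1_ok) (L (nat_lit 430) ln11_13_2 ln11_13_2_ok))))) (B (M (nat_lit 399) (B (L (nat_lit 400) ln16_12_1 ln16_12_1_ok) (M (nat_lit 427) (B (L (nat_lit 426) ln10_13_2 ln10_13_2_ok) (L (nat_lit 430) ln11_13_2 ln11_13_2_ok))))) (B (M (nat_lit 427) (B (L (nat_lit 426) ln10_13_2 ln10_13_2_ok) (M (nat_lit 395) (B (M (nat_lit 394) (B (L (nat_lit 430) ln14_13_3 ln14_13_3_ok) (M (nat_lit 393) (B (L (nat_lit 392) ln8_12_0 ln8_12_0_ok) (L (nat_lit 396) ln9_12_0 ln9_12_0_ok))))) (B (M (nat_lit 430) (B (L (nat_lit 394) ln14_13_3 ln14_13_3_ok) (M (nat_lit 431) (B (L (nat_lit 396) ln11_12_0 ln11_12_0_ok) (M (nat_lit 459) (B (L (nat_lit 458) ln14_13_1 ln14_13_1_ok) (L (nat_lit 460) ln15_13_1 ln15_13_1_ok))))))) (B (M (nat_lit 459) (B (M (nat_lit 430) (B (L (nat_lit 458) ln14_13_1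 ln14_13_1_ok) (M (nat_lit 431) (B (L (nat_lit 396) ln11_12_0 ln11_12_0_ok) (L (nat_lit 460) ln15_13_1 ln15_13_1_ok))))) (B (M (nat_lit 460) (B (M (nat_lit 363) (B (L (nat_lit 331) ln11_10_4 ln11_10_4_ok) (L (nat_lit 492) ln11_11_4 ln11_11_4_ok))) (M (nat_lit 458) (B (L (nat_lit 430) ln14_13_1 ln14_13_1_ok) (L (nat_lit 457) ln9_14_2 ln9_14_2_ok))))) (B (M (nat_lit 363) (B (M (nat_lit 362) (B (L (nat_lit 330) ln11_14_7 ln11_14_7_ok) (L (nat_lit 396) ln14_12_3 ln14_12_3_ok))) (M (nat_lit 460) (B (L (nat_lit 331) ln11_10_4 ln11_10_4_ok) (L (nat_lit 492) ln11_11_4 ln11_11_4_ok))))) (M (nat_lit 363) (B (M (nat_lit 362) (B (L (nat_lit 330) ln11_14_7 ln11_14_7_ok) (L (nat_lit 396) ln14_12_3 ln14_12_3_ok))) (M (nat_lit 458) (B (L (nat_lit 490) ln11_11_5 ln11_11_5_ok) (L (nat_lit 430) ln14_13_1 ln14_13_1_ok))))))))) (B (M (nat_lit 460) (B (M (nat_lit 492) (B (L (nat_lit 524) ln12_16_7 ln12_16_7_ok) (M (nat_lit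 365) (B (L (nat_lit 333) ln13_10_5 ln13_10_5_ok) (L (nat_lit 461) ln13_11_5 ln13_11_5_ok))))) (M (nat_lit 430) (B (L (nat_lit 394) ln14_13_3 ln14_13_3_ok) (M (nat_lit 459) (B (L (nat_lit 458) ln14_13_1 ln14_13_1_ok) (L (nat_lit 431) ln15_13_1 ln15_13_1_ok))))))) (M (nat_lit 396) (B (M (nat_lit 363) (B (L (nat_lit 362) ln14_12_3 ln14_12_3_ok) (M (nat_lit 460) (B (L (nat_lit 331) ln11_10_4 ln11_10_4_ok) (L (nat_lit 492) ln12_15_7 ln12_15_7_ok))))) (M (nat_lit 366) (B (L (nat_lit 367) ln11_12_2 ln11_12_2_ok) (M (nat_lit 394) (B (L (nat_lit 365) ln10_12_2 ln10_12_2_ok) (L (nat_lit 393) ln9_12_0 ln9_12_0_ok)))))))))))))) (B (M (nat_lit 431) (B (M (nat_lit 399) (B (L (nat_lit 400) ln16_12_1 ln16_12_1_ok) (M (nat_lit 396) (B (L (nat_lit 432) ln12_12_0 ln12_12_0_ok) (M (nat_lit 395) (B (L (nat_lit 430) ln11_12_0 ln11_12_0_ok) (M (nat_lit 367) (B (L (nat_lit 366) ln11_12_2 ln11_12_2_ok) (L (nat_lit 368) ln12_12_2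 ln12_12_2_ok))))))))) (B (M (nat_lit 460) (B (M (nat_lit 430) (B (L (nat_lit 459) ln15_13_1 ln15_13_1_ok) (M (nat_lit 432) (B (L (nat_lit 396) ln16_13_3 ln16_13_3_ok) (L (nat_lit 433) ln17_13_3 ln17_13_3_ok))))) (B (M (nat_lit 430) (B (L (nat_lit 459) ln15_13_1 ln15_13_1_ok) (M (nat_lit 432) (B (L (nat_lit 433) ln17_13_3 ln17_13_3_ok) (L (nat_lit 461) ln16_13_1 ln16_13_1_ok))))) (M (nat_lit 365) (B (L (nat_lit 333) ln13_10_5 ln13_10_5_ok) (M (nat_lit 492) (B (L (nat_lit 396) ln12_15_6 ln12_15_6_ok) (L (nat_lit 461) ln13_11_5 ln13_11_5_ok)))))))) (B (M (nat_lit 461) (B (M (nat_lit 366) (B (L (nat_lit 493) ln13_15_6 ln13_15_6_ok) (M (nat_lit 334) (B (L (nat_lit 302) ln14_9_5 ln14_9_5_ok) (L (nat_lit 365) ln13_14_6 ln13_14_6_ok))))) (B (M (nat_lit 366) (B (L (nat_lit 493) ln13_15_6 ln13_15_6_ok) (M (nat_lit 334) (B (L (nat_lit 365) ln13_14_6 ln13_14_6_ok) (L (nat_lit 430) ln14_10_5 ln14_10_5_ok))))) (B (M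 (nat_lit 460) (B (M (nat_lit 365) (B (L (nat_lit 333) ln13_10_5 ln13_10_5_ok) (L (nat_lit 492) ln13_11_5 ln13_11_5_ok))) (M (nat_lit 430) (B (L (nat_lit 459) ln15_13_1 ln15_13_1_ok) (L (nat_lit 432) ln16_13_1 ln16_13_1_ok))))) (M (nat_lit 366) (B (L (nat_lit 493) ln13_15_6 ln13_15_6_ok) (M (nat_lit 334) (B (L (nat_lit 302) ln14_9_5 ln14_9_5_ok) (L (nat_lit 430) ln14_10_5 ln14_10_5_ok))))))))) (B (M (nat_lit 399) (B (L (nat_lit 400) ln16_12_1 ln16_12_1_ok) (M (nat_lit 366) (B (M (nat_lit 396) (B (L (nat_lit 432) ln12_12_0 ln12_12_0_ok) (M (nat_lit 367) (B (L (nat_lit 395) ln11_12_2 ln11_12_2_ok) (L (nat_lit 368) ln12_12_2 ln12_12_2_ok))))) (M (nat_lit 461) (B (L (nat_lit 493) ln13_15_6 ln13_15_6_ok) (M (nat_lit 334) (B (L (nat_lit 302) ln14_9_5 ln14_9_5_ok) (L (nat_lit 365) ln13_14_6 ln13_14_6_ok))))))))) (M (nat_lit 430) (B (M (nat_lit 396) (B (L (nat_lit 395) ln11_12_0 ln11_12_0_ok) (M (nat_lit 460)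 (B (L (nat_lit 459) ln15_13_1 ln15_13_1_ok) (M (nat_lit 365) (B (L (nat_lit 333) ln13_10_5 ln13_10_5_ok) (L (nat_lit 492) ln12_15_6 ln12_15_6_ok))))))) (B (M (nat_lit 396) (B (L (nat_lit 395) ln11_12_0 ln11_12_0_ok) (M (nat_lit 460) (B (L (nat_lit 459) ln15_13_1 ln15_13_1_ok) (M (nat_lit 492) (B (L (nat_lit 365) ln12_15_6 ln12_15_6_ok) (L (nat_lit 524) ln12_16_6 ln12_16_6_ok))))))) (B (M (nat_lit 399) (B (L (nat_lit 400) ln16_12_1 ln16_12_1_ok) (M (nat_lit 367) (B (M (nat_lit 335) (B (L (nat_lit 303) ln15_9_5 ln15_9_5_ok) (L (nat_lit 462) ln15_10_5 ln15_10_5_ok))) (M (nat_lit 396) (B (L (nat_lit 368) ln12_12_2 ln12_12_2_ok) (L (nat_lit 395) ln11_12_0 ln11_12_0_ok))))))) (M (nat_lit 460) (B (L (nat_lit 459) ln15_13_1 ln15_13_1_ok) (M (nat_lit 365) (B (L (nat_lit 333) ln13_10_5 ln13_10_5_ok) (M (nat_lit 492) (B (L (nat_lit 461) ln13_11_5 ln13_11_5_ok) (L (nat_lit 524) ln12_16_6 ln12_16_6_ok))))))))))))))))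 (M (nat_lit 399) (B (L (nat_lit 400) ln16_12_1 ln16_12_1_ok) (M (nat_lit 427) (B (L (nat_lit 396) ln15_12_1 ln15_12_1_ok) (L (nat_lit 426) ln10_13_2 ln10_13_2_ok)))))))))) (nat_lit 2079502270913392379444674211814302674077704290823075655481512624564798400421800170032085953906810352733060637150540575368324055040) (nat_lit 54918381322601594445106604909791984907012608299336581001876221864140739436532602334527108323393610252052664991929264329975987859035951012454612208105050603520) (nat_lit 54918381322601594445106604909791984907012608299336581001876221864140739436532602334527108323393610252052664991929264329975987859035951012454612208105050603520) (by decide +kernel)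
theorem c33_s1231 : Sem (nat_lit 1386334847383188664550070665778531748218595021979121511688892729411143073470393764272092352380775458208712834410189682411080515584) (nat_lit 2026130650518780904748025499382662224957489437897934937893886183492457264993769438681613312462630642519718910730394275186309059279942146059725848358513508066530780489351878934528) (nat_lit 2026130650518780904748025499382662224957489437897934937893886183492457264993769438681613312462630642519718910730394275186309059279942146059725848358513508066530780489351878934528) :=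
  sem_of_chk (M (nat_lit 428) (B (M (nat_lit 427) (B (M (nat_lit 398) (B (L (nat_lit 426) ln10_13_2 ln10_13_2_ok) (M (nat_lit 399) (B (L (nat_lit 396) ln15_12_1 ln15_12_1_ok) (L (nat_lit 400) ln16_12_1 ln16_12_1_ok))))) (B (M (nat_lit 398) (B (L (nat_lit 426) ln10_13_2 ln10_13_2_ok) (M (nat_lit 399) (B (L (nat_lit 400) ln16_12_1 ln16_12_1_ok) (L (nat_lit 430) ln11_13_2 ln11_13_2_ok))))) (B (M (nat_lit 426) (B (M (nat_lit 461) (B (L (nat_lit 462) ln10_13_0 ln10_13_0_ok) (M (nat_lit 425) (B (L (nat_lit 396) ln9_13_2 ln9_13_2_ok) (L (nat_lit 460) ln9_13_0 ln9_13_0_ok))))) (B (M (nat_lit 430) (B (M (nat_lit 394) (B (L (nat_lit 393) ln13_13_3 ln13_13_3_ok) (L (nat_lit 395) ln14_13_3 ln14_13_3_ok))) (M (nat_lit 462) (B (L (nat_lit 461) ln10_13_0 ln10_13_0_ok) (L (nat_lit 463) ln11_13_0 ln11_13_0_ok))))) (M (nat_lit 393) (B (L (nat_lit 394) ln13_13_3 ln13_13_3_ok) (M (nat_lit 425) (B (L (nat_lit 392) ln12_13_3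 ln12_13_3_ok) (L (nat_lit 396) ln9_13_2 ln9_13_2_ok)))))))) (M (nat_lit 398) (B (M (nat_lit 399) (B (L (nat_lit 396) ln15_12_1 ln15_12_1_ok) (L (nat_lit 400) ln16_12_1 ln16_12_1_ok))) (B (M (nat_lit 399) (B (L (nat_lit 400) ln16_12_1 ln16_12_1_ok) (L (nat_lit 430) ln11_13_2 ln11_13_2_ok))) (M (nat_lit 430) (B (M (nat_lit 462) (B (L (nat_lit 463) ln11_13_0 ln11_13_0_ok) (M (nat_lit 365) (B (L (nat_lit 333) ln13_10_4 ln13_10_4_ok) (L (nat_lit 494) ln14_15_7 ln14_15_7_ok))))) (M (nat_lit 431) (B (M (nat_lit 395) (B (L (nat_lit 394) ln14_13_3 ln14_13_3_ok) (L (nat_lit 396) ln11_12_0 ln11_12_0_ok))) (M (nat_lit 459) (B (L (nat_lit 458) ln14_13_1 ln14_13_1_ok) (L (nat_lit 460) ln15_13_1 ln15_13_1_ok)))))))))))))) (B (M (nat_lit 430) (B (M (nat_lit 460) (B (M (nat_lit 431) (B (L (nat_lit 459) ln15_13_1 ln15_13_1_ok) (M (nat_lit 396) (B (L (nat_lit 395) ln15_13_3 ln15_13_3_ok) (L (nat_lit 432) ln16_13_3 ln16_13_3_ok)))))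 (B (M (nat_lit 431) (B (L (nat_lit 459) ln15_13_1 ln15_13_1_ok) (M (nat_lit 432) (B (L (nat_lit 396) ln16_13_3 ln16_13_3_ok) (L (nat_lit 461) ln16_13_1 ln16_13_1_ok))))) (B (M (nat_lit 459) (B (L (nat_lit 431) ln15_13_1 ln15_13_1_ok) (M (nat_lit 458) (B (L (nat_lit 427) ln14_13_1 ln14_13_1_ok) (L (nat_lit 457) ln9_14_2 ln9_14_2_ok))))) (M (nat_lit 492) (B (L (nat_lit 524) ln12_16_6 ln12_16_6_ok) (M (nat_lit 365) (B (L (nat_lit 396) ln12_15_6 ln12_15_6_ok) (L (nat_lit 461) ln13_11_5 ln13_11_5_ok))))))))) (B (M (nat_lit 427) (B (M (nat_lit 398) (B (L (nat_lit 426) ln10_13_2 ln10_13_2_ok) (L (nat_lit 399) ln11_13_2 ln11_13_2_ok))) (M (nat_lit 431) (B (M (nat_lit 395) (B (L (nat_lit 394) ln14_13_3 ln14_13_3_ok) (L (nat_lit 396) ln15_13_3 ln15_13_3_ok))) (M (nat_lit 463) (B (L (nat_lit 462) ln11_13_0 ln11_13_0_ok) (L (nat_lit 464) ln12_13_0 ln12_13_0_ok))))))) (B (M (nat_lit 427) (B (M (nat_lit 398) (B (L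 (nat_lit 426) ln10_13_2 ln10_13_2_ok) (L (nat_lit 399) ln11_13_2 ln11_13_2_ok))) (M (nat_lit 431) (B (M (nat_lit 459) (B (L (nat_lit 458) ln14_13_1 ln14_13_1_ok) (L (nat_lit 460) ln15_13_1 ln15_13_1_ok))) (M (nat_lit 463) (B (L (nat_lit 462) ln11_13_0 ln11_13_0_ok) (L (nat_lit 464) ln12_13_0 ln12_13_0_ok))))))) (B (M (nat_lit 460) (B (M (nat_lit 431) (B (L (nat_lit 459) ln15_13_1 ln15_13_1_ok) (M (nat_lit 396) (B (L (nat_lit 395) ln15_13_3 ln15_13_3_ok) (L (nat_lit 432) ln16_13_3 ln16_13_3_ok))))) (B (M (nat_lit 431) (B (L (nat_lit 459) ln15_13_1 ln15_13_1_ok) (M (nat_lit 432) (B (L (nat_lit 396) ln16_13_3 ln16_13_3_ok) (L (nat_lit 461) ln16_13_1 ln16_13_1_ok))))) (B (M (nat_lit 459) (B (L (nat_lit 431) ln15_13_1 ln15_13_1_ok) (M (nat_lit 458) (B (L (nat_lit 457) ln9_14_2 ln9_14_2_ok) (L (nat_lit 461) ln10_14_2 ln10_14_2_ok))))) (M (nat_lit 492) (B (L (nat_lit 524) ln12_16_6 ln12_16_6_ok) (M (nat_lit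 365) (B (L (nat_lit 396) ln12_15_6 ln12_15_6_ok) (L (nat_lit 461) ln13_11_5 ln13_11_5_ok))))))))) (M (nat_lit 462) (B (M (nat_lit 427) (B (L (nat_lit 463) ln11_13_0 ln11_13_0_ok) (M (nat_lit 398) (B (L (nat_lit 426) ln10_13_2 ln10_13_2_ok) (L (nat_lit 399) ln11_13_2 ln11_13_2_ok))))) (B (M (nat_lit 461) (B (M (nat_lit 494) (B (L (nat_lit 365) ln13_11_4 ln13_11_4_ok) (L (nat_lit 526) ln14_16_7 ln14_16_7_ok))) (M (nat_lit 427) (B (L (nat_lit 426) ln10_13_0 ln10_13_0_ok) (L (nat_lit 463) ln11_13_0 ln11_13_0_ok))))) (M (nat_lit 494) (B (L (nat_lit 526) ln14_16_7 ln14_16_7_ok) (M (nat_lit 365) (B (L (nat_lit 398) ln14_15_7 ln14_15_7_ok) (L (nat_lit 461) ln13_11_4 ln13_11_4_ok))))))))))))) (B (M (nat_lit 427) (B (M (nat_lit 398) (B (L (nat_lit 426) ln10_13_2 ln10_13_2_ok) (M (nat_lit 399) (B (L (nat_lit 400) ln16_12_1 ln16_12_1_ok) (L (nat_lit 430) ln11_13_2 ln11_13_2_ok))))) (B (M (nat_lit 426) (B (M (nat_lit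 461) (B (L (nat_lit 462) ln10_13_0 ln10_13_0_ok) (M (nat_lit 425) (B (L (nat_lit 396) ln9_13_2 ln9_13_2_ok) (L (nat_lit 460) ln9_13_0 ln9_13_0_ok))))) (B (M (nat_lit 430) (B (M (nat_lit 394) (B (L (nat_lit 393) ln13_13_3 ln13_13_3_ok) (L (nat_lit 395) ln14_13_3 ln14_13_3_ok))) (M (nat_lit 462) (B (L (nat_lit 461) ln10_13_0 ln10_13_0_ok) (L (nat_lit 463) ln11_13_0 ln11_13_0_ok))))) (M (nat_lit 393) (B (L (nat_lit 394) ln13_13_3 ln13_13_3_ok) (M (nat_lit 425) (B (L (nat_lit 392) ln12_13_3 ln12_13_3_ok) (L (nat_lit 396) ln9_13_2 ln9_13_2_ok)))))))) (B (M (nat_lit 398) (B (M (nat_lit 399) (B (L (nat_lit 396) ln15_12_1 ln15_12_1_ok) (L (nat_lit 400) ln16_12_1 ln16_12_1_ok))) (B (M (nat_lit 399) (B (L (nat_lit 400) ln16_12_1 ln16_12_1_ok) (L (nat_lit 430) ln11_13_2 ln11_13_2_ok))) (M (nat_lit 430) (B (M (nat_lit 395) (B (L (nat_lit 394) ln14_13_3 ln14_13_3_ok) (M (nat_lit 431) (B (L (nat_lit 396) ln11_12_0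 ln11_12_0_ok) (M (nat_lit 463) (B (L (nat_lit 462) ln11_13_0 ln11_13_0_ok) (L (nat_lit 464) ln12_13_0 ln12_13_0_ok))))))) (B (M (nat_lit 431) (B (M (nat_lit 396) (B (L (nat_lit 395) ln11_12_0 ln11_12_0_ok) (L (nat_lit 432) ln16_13_3 ln16_13_3_ok))) (M (nat_lit 463) (B (L (nat_lit 462) ln11_13_0 ln11_13_0_ok) (L (nat_lit 464) ln12_13_0 ln12_13_0_ok))))) (B (M (nat_lit 431) (B (M (nat_lit 432) (B (L (nat_lit 396) ln16_13_3 ln16_13_3_ok) (L (nat_lit 433) ln17_13_3 ln17_13_3_ok))) (M (nat_lit 463) (B (L (nat_lit 462) ln11_13_0 ln11_13_0_ok) (L (nat_lit 464) ln12_13_0 ln12_13_0_ok))))) (B (M (nat_lit 431) (B (M (nat_lit 459) (B (L (nat_lit 458) ln14_13_1 ln14_13_1_ok) (L (nat_lit 460) ln15_13_1 ln15_13_1_ok))) (M (nat_lit 463) (B (L (nat_lit 462) ln11_13_0 ln11_13_0_ok) (L (nat_lit 464) ln12_13_0 ln12_13_0_ok))))) (B (M (nat_lit 366) (B (M (nat_lit 461) (B (L (nat_lit 334) ln14_10_5 ln14_10_5_ok) (L (nat_lit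 493) ln13_15_6 ln13_15_6_ok))) (M (nat_lit 367) (B (M (nat_lit 462) (B (L (nat_lit 335) ln14_14_6 ln14_14_6_ok) (L (nat_lit 463) ln11_13_0 ln11_13_0_ok))) (M (nat_lit 395) (B (L (nat_lit 396) ln11_12_2 ln11_12_2_ok) (L (nat_lit 394) ln14_13_3 ln14_13_3_ok))))))) (M (nat_lit 431) (B (M (nat_lit 395) (B (L (nat_lit 394) ln14_13_3 ln14_13_3_ok) (L (nat_lit 396) ln11_12_0 ln11_12_0_ok))) (M (nat_lit 459) (B (L (nat_lit 458) ln14_13_1 ln14_13_1_ok) (L (nat_lit 460) ln15_13_1 ln15_13_1_ok)))))))))))))) (M (nat_lit 398) (B (L (nat_lit 426) ln10_13_2 ln10_13_2_ok) (M (nat_lit 399) (B (L (nat_lit 396) ln15_12_1 ln15_12_1_ok) (L (nat_lit 400) ln16_12_1 ln16_12_1_ok))))))))) (B (M (nat_lit 430) (B (M (nat_lit 462) (B (M (nat_lit 427) (B (L (nat_lit 463) ln11_13_0 ln11_13_0_ok) (M (nat_lit 398) (B (L (nat_lit 426) ln10_13_2 ln10_13_2_ok) (L (nat_lit 399) ln11_13_2 ln11_13_2_ok))))) (B (M (nat_lit 461) (B (M (nat_lit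 494) (B (L (nat_lit 365) ln13_11_4 ln13_11_4_ok) (L (nat_lit 526) ln14_16_7 ln14_16_7_ok))) (M (nat_lit 427) (B (L (nat_lit 426) ln10_13_0 ln10_13_0_ok) (L (nat_lit 463) ln11_13_0 ln11_13_0_ok))))) (M (nat_lit 494) (B (L (nat_lit 526) ln14_16_7 ln14_16_7_ok) (M (nat_lit 365) (B (L (nat_lit 398) ln14_15_7 ln14_15_7_ok) (L (nat_lit 461) ln13_11_4 ln13_11_4_ok)))))))) (B (M (nat_lit 427) (B (M (nat_lit 398) (B (L (nat_lit 426) ln10_13_2 ln10_13_2_ok) (L (nat_lit 399) ln11_13_2 ln11_13_2_ok))) (M (nat_lit 431) (B (M (nat_lit 396) (B (L (nat_lit 395) ln15_13_3 ln15_13_3_ok) (L (nat_lit 432) ln16_13_3 ln16_13_3_ok))) (M (nat_lit 463) (B (L (nat_lit 462) ln11_13_0 ln11_13_0_ok) (L (nat_lit 464) ln12_13_0 ln12_13_0_ok))))))) (M (nat_lit 460) (B (M (nat_lit 431) (B (L (nat_lit 459) ln15_13_1 ln15_13_1_ok) (M (nat_lit 396) (B (L (nat_lit 395) ln15_13_3 ln15_13_3_ok) (L (nat_lit 432) ln16_13_3 ln16_13_3_ok)))))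 (B (M (nat_lit 431) (B (L (nat_lit 459) ln15_13_1 ln15_13_1_ok) (M (nat_lit 432) (B (L (nat_lit 396) ln16_13_3 ln16_13_3_ok) (L (nat_lit 461) ln16_13_1 ln16_13_1_ok))))) (B (M (nat_lit 459) (B (L (nat_lit 431) ln15_13_1 ln15_13_1_ok) (M (nat_lit 458) (B (L (nat_lit 457) ln9_14_2 ln9_14_2_ok) (L (nat_lit 461) ln10_14_2 ln10_14_2_ok))))) (M (nat_lit 492) (B (L (nat_lit 524) ln12_16_6 ln12_16_6_ok) (M (nat_lit 365) (B (L (nat_lit 396) ln12_15_6 ln12_15_6_ok) (L (nat_lit 461) ln13_11_5 ln13_11_5_ok)))))))))))) (B (M (nat_lit 430) (B (M (nat_lit 462) (B (M (nat_lit 427) (B (L (nat_lit 463) ln11_13_0 ln11_13_0_ok) (M (nat_lit 398) (B (L (nat_lit 426) ln10_13_2 ln10_13_2_ok) (L (nat_lit 399) ln11_13_2 ln11_13_2_ok))))) (B (M (nat_lit 461) (B (M (nat_lit 494) (B (L (nat_lit 365) ln13_11_4 ln13_11_4_ok) (L (nat_lit 526) ln14_16_7 ln14_16_7_ok))) (M (nat_lit 427) (B (L (nat_lit 426) ln10_13_0 ln10_13_0_ok) (L (nat_lit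 463) ln11_13_0 ln11_13_0_ok))))) (M (nat_lit 494) (B (L (nat_lit 526) ln14_16_7 ln14_16_7_ok) (M (nat_lit 365) (B (L (nat_lit 398) ln14_15_7 ln14_15_7_ok) (L (nat_lit 461) ln13_11_4 ln13_11_4_ok)))))))) (B (M (nat_lit 427) (B (M (nat_lit 398) (B (L (nat_lit 426) ln10_13_2 ln10_13_2_ok) (L (nat_lit 399) ln11_13_2 ln11_13_2_ok))) (M (nat_lit 431) (B (M (nat_lit 459) (B (L (nat_lit 458) ln14_13_1 ln14_13_1_ok) (L (nat_lit 460) ln15_13_1 ln15_13_1_ok))) (M (nat_lit 463) (B (L (nat_lit 462) ln11_13_0 ln11_13_0_ok) (L (nat_lit 464) ln12_13_0 ln12_13_0_ok))))))) (M (nat_lit 460) (B (M (nat_lit 431) (B (L (nat_lit 459) ln15_13_1 ln15_13_1_ok) (M (nat_lit 432) (B (L (nat_lit 396) ln16_13_3 ln16_13_3_ok) (L (nat_lit 461) ln16_13_1 ln16_13_1_ok))))) (B (M (nat_lit 365) (B (L (nat_lit 333) ln13_10_5 ln13_10_5_ok) (M (nat_lit 492) (B (L (nat_lit 461) ln13_11_5 ln13_11_5_ok) (L (nat_lit 524) ln12_16_6 ln12_16_6_ok)))))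 (M (nat_lit 365) (B (L (nat_lit 333) ln13_10_5 ln13_10_5_ok) (M (nat_lit 492) (B (L (nat_lit 396) ln12_15_6 ln12_15_6_ok) (L (nat_lit 524) ln12_16_6 ln12_16_6_ok))))))))))) (B (M (nat_lit 462) (B (M (nat_lit 427) (B (M (nat_lit 426) (B (L (nat_lit 398) ln10_13_2 ln10_13_2_ok) (L (nat_lit 461) ln10_13_0 ln10_13_0_ok))) (B (M (nat_lit 463) (B (L (nat_lit 430) ln11_13_0 ln11_13_0_ok) (M (nat_lit 461) (B (L (nat_lit 460) ln15_14_3 ln15_14_3_ok) (L (nat_lit 464) ln16_14_3 ln16_14_3_ok))))) (M (nat_lit 398) (B (L (nat_lit 426) ln10_13_2 ln10_13_2_ok) (M (nat_lit 430) (B (L (nat_lit 399) ln11_13_2 ln11_13_2_ok) (L (nat_lit 463) ln11_13_0 ln11_13_0_ok)))))))) (B (M (nat_lit 430) (B (M (nat_lit 365) (B (L (nat_lit 333) ln13_10_4 ln13_10_4_ok) (M (nat_lit 494) (B (L (nat_lit 461) ln13_11_4 ln13_11_4_ok) (L (nat_lit 526) ln14_16_7 ln14_16_7_ok))))) (B (M (nat_lit 463) (B (L (nat_lit 427) ln11_13_0 ln11_13_0_ok)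 (M (nat_lit 464) (B (L (nat_lit 431) ln12_13_0 ln12_13_0_ok) (L (nat_lit 461) ln16_14_3 ln16_14_3_ok))))) (M (nat_lit 463) (B (L (nat_lit 427) ln11_13_0 ln11_13_0_ok) (M (nat_lit 464) (B (L (nat_lit 431) ln12_13_0 ln12_13_0_ok) (L (nat_lit 465) ln17_14_3 ln17_14_3_ok)))))))) (B (M (nat_lit 365) (B (M (nat_lit 333) (B (L (nat_lit 460) ln13_10_5 ln13_10_5_ok) (L (nat_lit 430) ln13_10_4 ln13_10_4_ok))) (B (M (nat_lit 494) (B (L (nat_lit 461) ln13_11_4 ln13_11_4_ok) (M (nat_lit 430) (B (L (nat_lit 398) ln14_15_7 ln14_15_7_ok) (L (nat_lit 526) ln14_16_7 ln14_16_7_ok))))) (M (nat_lit 460) (B (L (nat_lit 333) ln13_10_5 ln13_10_5_ok) (M (nat_lit 461) (B (L (nat_lit 492) ln13_11_5 ln13_11_5_ok) (L (nat_lit 494) ln13_11_4 ln13_11_4_ok)))))))) (B (M (nat_lit 461) (B (M (nat_lit 427) (B (L (nat_lit 426) ln10_13_0 ln10_13_0_ok) (M (nat_lit 463) (B (L (nat_lit 460) ln15_14_3 ln15_14_3_ok) (L (nat_lit 464) ln16_14_3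 ln16_14_3_ok))))) (M (nat_lit 494) (B (L (nat_lit 365) ln13_11_4 ln13_11_4_ok) (M (nat_lit 526) (B (L (nat_lit 493) ln13_12_4 ln13_12_4_ok) (L (nat_lit 558) ln14_17_7 ln14_17_7_ok))))))) (M (nat_lit 430) (B (M (nat_lit 365) (B (L (nat_lit 333) ln13_10_4 ln13_10_4_ok) (M (nat_lit 494) (B (L (nat_lit 398) ln14_15_7 ln14_15_7_ok) (L (nat_lit 526) ln14_16_7 ln14_16_7_ok))))) (M (nat_lit 463) (B (L (nat_lit 427) ln11_13_0 ln11_13_0_ok) (M (nat_lit 464) (B (L (nat_lit 431) ln12_13_0 ln12_13_0_ok) (L (nat_lit 465) ln17_14_3 ln17_14_3_ok)))))))))))) (B c33_n808 (B (M (nat_lit 430) (B (M (nat_lit 460) (B (M (nat_lit 431) (B (L (nat_lit 459) ln15_13_1 ln15_13_1_ok) (M (nat_lit 432) (B (L (nat_lit 396) ln16_13_3 ln16_13_3_ok) (L (nat_lit 461) ln16_13_1 ln16_13_1_ok))))) (B (M (nat_lit 365) (B (L (nat_lit 333) ln13_10_5 ln13_10_5_ok) (M (nat_lit 492) (B (L (nat_lit 461) ln13_11_5 ln13_11_5_ok) (L (nat_lit 524) ln12_16_6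 ln12_16_6_ok))))) (M (nat_lit 365) (B (L (nat_lit 333) ln13_10_5 ln13_10_5_ok) (M (nat_lit 492) (B (L (nat_lit 396) ln12_15_6 ln12_15_6_ok) (L (nat_lit 524) ln12_16_6 ln12_16_6_ok)))))))) (B (M (nat_lit 460) (B (M (nat_lit 431) (B (L (nat_lit 459) ln15_13_1 ln15_13_1_ok) (M (nat_lit 396) (B (L (nat_lit 395) ln15_13_3 ln15_13_3_ok) (L (nat_lit 432) ln16_13_3 ln16_13_3_ok))))) (B (M (nat_lit 431) (B (L (nat_lit 459) ln15_13_1 ln15_13_1_ok) (M (nat_lit 432) (B (L (nat_lit 396) ln16_13_3 ln16_13_3_ok) (L (nat_lit 461) ln16_13_1 ln16_13_1_ok))))) (B (M (nat_lit 459) (B (L (nat_lit 431) ln15_13_1 ln15_13_1_ok) (M (nat_lit 458) (B (L (nat_lit 427) ln14_13_1 ln14_13_1_ok) (L (nat_lit 461) ln10_14_2 ln10_14_2_ok))))) (M (nat_lit 492) (B (L (nat_lit 524) ln12_16_6 ln12_16_6_ok) (M (nat_lit 365) (B (L (nat_lit 396) ln12_15_6 ln12_15_6_ok) (L (nat_lit 461) ln13_11_5 ln13_11_5_ok))))))))) (B (M (nat_lit 431) (B (M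 (nat_lit 396) (B (L (nat_lit 395) ln15_13_3 ln15_13_3_ok) (L (nat_lit 432) ln16_13_3 ln16_13_3_ok))) (M (nat_lit 427) (B (M (nat_lit 459) (B (L (nat_lit 458) ln14_13_1 ln14_13_1_ok) (L (nat_lit 460) ln15_13_1 ln15_13_1_ok))) (M (nat_lit 463) (B (L (nat_lit 462) ln11_13_0 ln11_13_0_ok) (L (nat_lit 464) ln12_13_0 ln12_13_0_ok))))))) (B (M (nat_lit 462) (B (M (nat_lit 463) (B (L (nat_lit 427) ln11_13_0 ln11_13_0_ok) (M (nat_lit 464) (B (L (nat_lit 431) ln12_13_0 ln12_13_0_ok) (L (nat_lit 461) ln16_14_3 ln16_14_3_ok))))) (M (nat_lit 365) (B (L (nat_lit 333) ln13_10_4 ln13_10_4_ok) (M (nat_lit 494) (B (L (nat_lit 398) ln14_15_7 ln14_15_7_ok) (L (nat_lit 526) ln14_16_7 ln14_16_7_ok))))))) (M (nat_lit 462) (B (M (nat_lit 365) (B (L (nat_lit 333) ln13_10_4 ln13_10_4_ok) (M (nat_lit 494) (B (L (nat_lit 398) ln14_15_7 ln14_15_7_ok) (L (nat_lit 526) ln14_16_7 ln14_16_7_ok))))) (B (M (nat_lit 494) (B (L (nat_lit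 526) ln14_16_7 ln14_16_7_ok) (M (nat_lit 365) (B (L (nat_lit 398) ln14_15_7 ln14_15_7_ok) (L (nat_lit 461) ln13_11_4 ln13_11_4_ok))))) (M (nat_lit 463) (B (L (nat_lit 427) ln11_13_0 ln11_13_0_ok) (M (nat_lit 464) (B (L (nat_lit 461) ln16_14_3 ln16_14_3_ok) (L (nat_lit 465) ln17_14_3 ln17_14_3_ok))))))))))))) (B c33_n948 (B (M (nat_lit 365) (B (M (nat_lit 460) (B (L (nat_lit 333) ln13_10_5 ln13_10_5_ok) (M (nat_lit 492) (B (L (nat_lit 461) ln13_11_5 ln13_11_5_ok) (L (nat_lit 524) ln12_16_6 ln12_16_6_ok))))) (B (M (nat_lit 460) (B (M (nat_lit 492) (B (L (nat_lit 396) ln12_15_6 ln12_15_6_ok) (L (nat_lit 461) ln13_11_5 ln13_11_5_ok))) (B (M (nat_lit 492) (B (L (nat_lit 461) ln13_11_5 ln13_11_5_ok) (L (nat_lit 524) ln12_16_6 ln12_16_6_ok))) (B (M (nat_lit 492) (B (L (nat_lit 396) ln12_15_6 ln12_15_6_ok) (L (nat_lit 524) ln12_16_6 ln12_16_6_ok))) (M (nat_lit 461) (B (M (nat_lit 462) (B (L (nat_lit 494) ln13_11_4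 ln13_11_4_ok) (M (nat_lit 427) (B (L (nat_lit 426) ln10_13_0 ln10_13_0_ok) (L (nat_lit 463) ln15_14_3 ln15_14_3_ok))))) (M (nat_lit 493) (B (M (nat_lit 366) (B (L (nat_lit 334) ln13_14_6 ln13_14_6_ok) (L (nat_lit 398) ln13_15_6 ln13_15_6_ok))) (M (nat_lit 525) (B (L (nat_lit 396) ln13_16_7 ln13_16_7_ok) (L (nat_lit 557) ln13_17_7 ln13_17_7_ok))))))))))) (B (M (nat_lit 461) (B (M (nat_lit 366) (B (L (nat_lit 334) ln13_14_6 ln13_14_6_ok) (M (nat_lit 493) (B (L (nat_lit 398) ln13_15_6 ln13_15_6_ok) (M (nat_lit 494) (B (L (nat_lit 462) ln13_11_4 ln13_11_4_ok) (L (nat_lit 526) ln13_12_4 ln13_12_4_ok))))))) (B (M (nat_lit 398) (B (M (nat_lit 427) (B (L (nat_lit 426) ln10_13_2 ln10_13_2_ok) (M (nat_lit 399) (B (L (nat_lit 396) ln15_12_1 ln15_12_1_ok) (L (nat_lit 400) ln16_12_1 ln16_12_1_ok))))) (M (nat_lit 493) (B (L (nat_lit 366) ln13_15_6 ln13_15_6_ok) (M (nat_lit 494) (B (L (nat_lit 462) ln13_11_4 ln13_11_4_ok)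 (L (nat_lit 526) ln13_12_4 ln13_12_4_ok))))))) (B (M (nat_lit 493) (B (M (nat_lit 494) (B (L (nat_lit 462) ln13_11_4 ln13_11_4_ok) (L (nat_lit 526) ln13_12_4 ln13_12_4_ok))) (M (nat_lit 524) (B (L (nat_lit 492) ln13_12_5 ln13_12_5_ok) (M (nat_lit 525) (B (L (nat_lit 396) ln13_16_7 ln13_16_7_ok) (L (nat_lit 556) ln13_13_5 ln13_13_5_ok))))))) (B (M (nat_lit 398) (B (M (nat_lit 366) (B (L (nat_lit 334) ln13_14_6 ln13_14_6_ok) (L (nat_lit 493) ln13_15_6 ln13_15_6_ok))) (M (nat_lit 427) (B (L (nat_lit 426) ln10_13_2 ln10_13_2_ok) (M (nat_lit 399) (B (L (nat_lit 396) ln15_12_1 ln15_12_1_ok) (L (nat_lit 400) ln16_12_1 ln16_12_1_ok))))))) (M (nat_lit 333) (B (M (nat_lit 334) (B (L (nat_lit 302) ln13_13_6 ln13_13_6_ok) (L (nat_lit 366) ln13_14_6 ln13_14_6_ok))) (M (nat_lit 301) (B (L (nat_lit 396) ln13_9_5 ln13_9_5_ok) (M (nat_lit 300) (B (L (nat_lit 268) ln13_12_7 ln13_12_7_ok) (L (nat_lit 332) ln13_13_7 ln13_13_7_ok))))))))))))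 (B (M (nat_lit 460) (B (L (nat_lit 333) ln13_10_5 ln13_10_5_ok) (M (nat_lit 492) (B (L (nat_lit 396) ln12_15_6 ln12_15_6_ok) (L (nat_lit 524) ln12_16_6 ln12_16_6_ok))))) (M (nat_lit 333) (B (L (nat_lit 460) ln13_10_5 ln13_10_5_ok) (M (nat_lit 301) (B (L (nat_lit 396) ln13_9_5 ln13_9_5_ok) (M (nat_lit 300) (B (L (nat_lit 268) ln13_12_7 ln13_12_7_ok) (L (nat_lit 332) ln13_13_7 ln13_13_7_ok)))))))))))) (B (M (nat_lit 427) (B (M (nat_lit 398) (B (L (nat_lit 426) ln10_13_2 ln10_13_2_ok) (M (nat_lit 399) (B (L (nat_lit 396) ln15_12_1 ln15_12_1_ok) (L (nat_lit 400) ln16_12_1 ln16_12_1_ok))))) (B (M (nat_lit 398) (B (L (nat_lit 426) ln10_13_2 ln10_13_2_ok) (M (nat_lit 399) (B (L (nat_lit 400) ln16_12_1 ln16_12_1_ok) (L (nat_lit 430) ln11_13_2 ln11_13_2_ok))))) (B (M (nat_lit 426) (B (M (nat_lit 393) (B (L (nat_lit 394) ln13_13_3 ln13_13_3_ok) (M (nat_lit 425) (B (L (nat_lit 392) ln12_13_3 ln12_13_3_ok) (L (nat_lit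 396) ln9_13_2 ln9_13_2_ok))))) (M (nat_lit 430) (B (M (nat_lit 458) (B (L (nat_lit 457) ln13_13_1 ln13_13_1_ok) (L (nat_lit 459) ln14_13_1 ln14_13_1_ok))) (M (nat_lit 462) (B (L (nat_lit 461) ln10_13_0 ln10_13_0_ok) (L (nat_lit 463) ln11_13_0 ln11_13_0_ok))))))) (M (nat_lit 430) (B (M (nat_lit 462) (B (L (nat_lit 463) ln11_13_0 ln11_13_0_ok) (M (nat_lit 365) (B (L (nat_lit 333) ln13_10_4 ln13_10_4_ok) (M (nat_lit 494) (B (L (nat_lit 461) ln13_11_4 ln13_11_4_ok) (L (nat_lit 526) ln14_16_7 ln14_16_7_ok))))))) (M (nat_lit 431) (B (M (nat_lit 395) (B (L (nat_lit 394) ln14_13_3 ln14_13_3_ok) (L (nat_lit 396) ln15_13_3 ln15_13_3_ok))) (M (nat_lit 399) (B (L (nat_lit 398) ln11_13_2 ln11_13_2_ok) (L (nat_lit 400) ln12_13_2 ln12_13_2_ok))))))))))) (B (M (nat_lit 427) (B (M (nat_lit 398) (B (L (nat_lit 426) ln10_13_2 ln10_13_2_ok) (M (nat_lit 399) (B (L (nat_lit 400) ln16_12_1 ln16_12_1_ok) (L (nat_lit 430) ln11_13_2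 ln11_13_2_ok))))) (B (M (nat_lit 426) (B (M (nat_lit 393) (B (L (nat_lit 394) ln13_13_3 ln13_13_3_ok) (M (nat_lit 425) (B (L (nat_lit 392) ln12_13_3 ln12_13_3_ok) (L (nat_lit 396) ln9_13_2 ln9_13_2_ok))))) (B (M (nat_lit 425) (B (L (nat_lit 396) ln9_13_2 ln9_13_2_ok) (M (nat_lit 457) (B (L (nat_lit 456) ln12_13_1 ln12_13_1_ok) (L (nat_lit 458) ln13_13_1 ln13_13_1_ok))))) (M (nat_lit 430) (B (M (nat_lit 394) (B (L (nat_lit 393) ln13_13_3 ln13_13_3_ok) (L (nat_lit 395) ln14_13_3 ln14_13_3_ok))) (M (nat_lit 458) (B (L (nat_lit 457) ln13_13_1 ln13_13_1_ok) (L (nat_lit 459) ln14_13_1 ln14_13_1_ok)))))))) (B (M (nat_lit 398) (B (M (nat_lit 399) (B (L (nat_lit 396) ln15_12_1 ln15_12_1_ok) (L (nat_lit 400) ln16_12_1 ln16_12_1_ok))) (B (M (nat_lit 399) (B (L (nat_lit 400) ln16_12_1 ln16_12_1_ok) (L (nat_lit 430) ln11_13_2 ln11_13_2_ok))) (M (nat_lit 430) (B (M (nat_lit 462) (B (L (nat_lit 463) ln11_13_0 ln11_13_0_ok)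 (M (nat_lit 365) (B (L (nat_lit 333) ln13_10_4 ln13_10_4_ok) (L (nat_lit 494) ln14_15_7 ln14_15_7_ok))))) (M (nat_lit 431) (B (M (nat_lit 395) (B (L (nat_lit 394) ln14_13_3 ln14_13_3_ok) (L (nat_lit 396) ln11_12_0 ln11_12_0_ok))) (M (nat_lit 459) (B (L (nat_lit 458) ln14_13_1 ln14_13_1_ok) (L (nat_lit 460) ln15_13_1 ln15_13_1_ok)))))))))) (M (nat_lit 398) (B (L (nat_lit 426) ln10_13_2 ln10_13_2_ok) (M (nat_lit 399) (B (L (nat_lit 396) ln15_12_1 ln15_12_1_ok) (L (nat_lit 400) ln16_12_1 ln16_12_1_ok))))))))) (B (K (nat_lit 2079502270913392379444674211814302674077704290823075655481512624564798400421800170032085953906810352733060637150540575368324055040) (nat_lit 54918381424895051001403666642000279406675688148291976394902304779789337518405864629093247196546782069041746232251032350289698228490100495887426191123474808832) (nat_lit 54918381424895051001403666642000279406675688148291976394902304779789337518405864629093247196546782069041746232251032350289698228490100495887426191123474808832)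 c33_s1201) (K (nat_lit 2079502270913392379444674211814302674077704290823075655481512624564798400421800170032085953906810352733060637150540575368324055040) (nat_lit 54918381322601594445106604909791984907012608299336581001876221864140739436532602334527108323393610252052664991929264329975987859035951012454612208105050603520) (nat_lit 54918381322601594445106604909791984907012608299336581001876221864140739436532602334527108323393610252052664991929264329975987859035951012454612208105050603520) c33_s1230))))))))))))))) (nat_lit 1386334847383188664550070665778531748218595021979121511688892729411143073470393764272092352380775458208712834410189682411080515584) (nat_lit 2026130650518780904748025499382662224957489437897934937893886183492457264993769438681613312462630642519718910730394275186309059279942146059725848358513508066530780489351878934528) (nat_lit 2026130650518780904748025499382662224957489437897934937893886183492457264993769438681613312462630642519718910730394275186309059279942146059725848358513508066530780489351878934528)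 (by decide +kernel)
noncomputable def c33_n1375 : Cert := (M (nat_lit 396) (B (M (nat_lit 431) (B (L (nat_lit 432) ln16_13_3 ln16_13_3_ok) (M (nat_lit 395) (B (L (nat_lit 394) ln10_12_0 ln10_12_0_ok) (L (nat_lit 428) ln15_13_3 ln15_13_3_ok))))) (B (M (nat_lit 431) (B (L (nat_lit 432) ln16_13_3 ln16_13_3_ok) (M (nat_lit 395) (B (L (nat_lit 398) ln11_12_0 ln11_12_0_ok) (L (nat_lit 428) ln15_13_3 ln15_13_3_ok))))) (B (M (nat_lit 399) (B (M (nat_lit 431) (B (L (nat_lit 432) ln16_13_3 ln16_13_3_ok) (M (nat_lit 428) (B (L (nat_lit 400) ln12_13_2 ln12_13_2_ok) (M (nat_lit 427) (B (L (nat_lit 398) ln15_12_1 ln15_12_1_ok) (M (nat_lit 463) (B (L (nat_lit 462) ln11_13_0 ln11_13_0_ok) (L (nat_lit 464) ln12_13_0 ln12_13_0_ok))))))))) (B (M (nat_lit 431) (B (L (nat_lit 432) ln16_13_3 ln16_13_3_ok) (M (nat_lit 428) (B (L (nat_lit 400) ln12_13_2 ln12_13_2_ok) (M (nat_lit 427) (B (M (nat_lit 459) (B (L (nat_lit 458) ln14_13_1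 ln14_13_1_ok) (L (nat_lit 460) ln15_13_1 ln15_13_1_ok))) (M (nat_lit 463) (B (L (nat_lit 462) ln11_13_0 ln11_13_0_ok) (L (nat_lit 464) ln12_13_0 ln12_13_0_ok))))))))) (B (M (nat_lit 431) (B (L (nat_lit 432) ln16_13_3 ln16_13_3_ok) (M (nat_lit 398) (B (M (nat_lit 367) (B (L (nat_lit 368) ln12_12_2 ln12_12_2_ok) (M (nat_lit 335) (B (L (nat_lit 303) ln15_9_5 ln15_9_5_ok) (L (nat_lit 462) ln15_10_5 ln15_10_5_ok))))) (M (nat_lit 463) (B (M (nat_lit 366) (B (L (nat_lit 334) ln14_10_4 ln14_10_4_ok) (L (nat_lit 495) ln15_15_7 ln15_15_7_ok))) (M (nat_lit 428) (B (L (nat_lit 427) ln15_12_1 ln15_12_1_ok) (L (nat_lit 464) ln12_13_0 ln12_13_0_ok))))))))) (B (M (nat_lit 400) (B (M (nat_lit 398) (B (L (nat_lit 428) ln16_12_1 ln16_12_1_ok) (L (nat_lit 401) ln17_12_1 ln17_12_1_ok))) (B (M (nat_lit 431) (B (L (nat_lit 432) ln16_13_3 ln16_13_3_ok) (L (nat_lit 428) ln12_13_2 ln12_13_2_ok))) (M (nat_lit 398) (B (L (nat_lit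 401) ln17_12_1 ln17_12_1_ok) (M (nat_lit 432) (B (L (nat_lit 431) ln12_12_0 ln12_12_0_ok) (L (nat_lit 433) ln13_12_0 ln13_12_0_ok)))))))) (B (M (nat_lit 398) (B (M (nat_lit 432) (B (L (nat_lit 431) ln12_12_0 ln12_12_0_ok) (M (nat_lit 400) (B (L (nat_lit 433) ln13_12_0 ln13_12_0_ok) (L (nat_lit 401) ln17_12_1 ln17_12_1_ok))))) (B (M (nat_lit 431) (B (L (nat_lit 432) ln12_12_0 ln12_12_0_ok) (M (nat_lit 367) (B (L (nat_lit 368) ln12_12_2 ln12_12_2_ok) (M (nat_lit 335) (B (L (nat_lit 303) ln15_9_5 ln15_9_5_ok) (L (nat_lit 462) ln15_10_5 ln15_10_5_ok))))))) (M (nat_lit 400) (B (L (nat_lit 401) ln17_12_1 ln17_12_1_ok) (M (nat_lit 368) (B (L (nat_lit 367) ln12_12_2 ln12_12_2_ok) (L (nat_lit 369) ln13_12_2 ln13_12_2_ok)))))))) (M (nat_lit 398) (B (M (nat_lit 428) (B (L (nat_lit 427) ln15_12_1 ln15_12_1_ok) (L (nat_lit 400) ln16_12_1 ln16_12_1_ok))) (B (M (nat_lit 428) (B (L (nat_lit 427) ln15_12_1 ln15_12_1_ok)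 (M (nat_lit 364) (B (L (nat_lit 363) ln15_12_3 ln15_12_3_ok) (M (nat_lit 332) (B (L (nat_lit 300) ln12_9_4 ln12_9_4_ok) (L (nat_lit 461) ln12_10_4 ln12_10_4_ok))))))) (B (M (nat_lit 400) (B (L (nat_lit 428) ln16_12_1 ln16_12_1_ok) (L (nat_lit 401) ln17_12_1 ln17_12_1_ok))) (M (nat_lit 400) (B (L (nat_lit 401) ln17_12_1 ln17_12_1_ok) (M (nat_lit 368) (B (L (nat_lit 367) ln12_12_2 ln12_12_2_ok) (L (nat_lit 369) ln13_12_2 ln13_12_2_ok))))))))))))))) (B (M (nat_lit 395) (B (L (nat_lit 394) ln10_12_0 ln10_12_0_ok) (M (nat_lit 431) (B (L (nat_lit 398) ln11_12_0 ln11_12_0_ok) (L (nat_lit 432) ln16_13_3 ln16_13_3_ok))))) (M (nat_lit 395) (B (L (nat_lit 394) ln10_12_0 ln10_12_0_ok) (M (nat_lit 398) (B (M (nat_lit 366) (B (L (nat_lit 367) ln11_12_2 ln11_12_2_ok) (M (nat_lit 461) (B (L (nat_lit 334) ln14_10_5 ln14_10_5_ok) (L (nat_lit 493) ln13_15_6 ln13_15_6_ok))))) (M (nat_lit 399) (B (M (nat_lit 363) (B (L (nat_lit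 362) ln14_12_3 ln14_12_3_ok) (L (nat_lit 364) ln15_12_3 ln15_12_3_ok))) (M (nat_lit 427) (B (L (nat_lit 426) ln14_12_1 ln14_12_1_ok) (L (nat_lit 428) ln15_12_1 ln15_12_1_ok))))))))))))))
noncomputable def c33_n1399 : Cert := (M (nat_lit 396) (B (M (nat_lit 395) (B (L (nat_lit 394) ln10_12_0 ln10_12_0_ok) (M (nat_lit 431) (B (L (nat_lit 398) ln11_12_0 ln11_12_0_ok) (L (nat_lit 432) ln16_13_3 ln16_13_3_ok))))) (B (M (nat_lit 431) (B (L (nat_lit 432) ln16_13_3 ln16_13_3_ok) (M (nat_lit 395) (B (L (nat_lit 398) ln11_12_0 ln11_12_0_ok) (L (nat_lit 428) ln15_13_3 ln15_13_3_ok))))) (B (M (nat_lit 399) (B (M (nat_lit 431) (B (L (nat_lit 432) ln16_13_3 ln16_13_3_ok) (M (nat_lit 428) (B (L (nat_lit 400) ln12_13_2 ln12_13_2_ok) (M (nat_lit 427) (B (L (nat_lit 398) ln15_12_1 ln15_12_1_ok) (M (nat_lit 463) (B (L (nat_lit 462) ln11_13_0 ln11_13_0_ok) (L (nat_lit 464) ln12_13_0 ln12_13_0_ok))))))))) (B (M (nat_lit 431)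 (B (L (nat_lit 432) ln16_13_3 ln16_13_3_ok) (M (nat_lit 428) (B (L (nat_lit 400) ln12_13_2 ln12_13_2_ok) (M (nat_lit 427) (B (M (nat_lit 459) (B (L (nat_lit 458) ln14_13_1 ln14_13_1_ok) (L (nat_lit 460) ln15_13_1 ln15_13_1_ok))) (M (nat_lit 463) (B (L (nat_lit 462) ln11_13_0 ln11_13_0_ok) (L (nat_lit 464) ln12_13_0 ln12_13_0_ok))))))))) (B (M (nat_lit 431) (B (L (nat_lit 432) ln16_13_3 ln16_13_3_ok) (M (nat_lit 398) (B (M (nat_lit 367) (B (L (nat_lit 368) ln12_12_2 ln12_12_2_ok) (M (nat_lit 335) (B (L (nat_lit 303) ln15_9_5 ln15_9_5_ok) (L (nat_lit 462) ln15_10_5 ln15_10_5_ok))))) (M (nat_lit 463) (B (M (nat_lit 366) (B (L (nat_lit 334) ln14_10_4 ln14_10_4_ok) (L (nat_lit 495) ln15_15_7 ln15_15_7_ok))) (M (nat_lit 428) (B (L (nat_lit 427) ln15_12_1 ln15_12_1_ok) (L (nat_lit 464) ln12_13_0 ln12_13_0_ok))))))))) (B (M (nat_lit 400) (B (M (nat_lit 398) (B (L (nat_lit 428) ln16_12_1 ln16_12_1_ok) (L (nat_lit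 401) ln17_12_1 ln17_12_1_ok))) (B (M (nat_lit 431) (B (L (nat_lit 432) ln16_13_3 ln16_13_3_ok) (L (nat_lit 428) ln12_13_2 ln12_13_2_ok))) (M (nat_lit 398) (B (L (nat_lit 401) ln17_12_1 ln17_12_1_ok) (M (nat_lit 432) (B (L (nat_lit 431) ln12_12_0 ln12_12_0_ok) (L (nat_lit 433) ln13_12_0 ln13_12_0_ok)))))))) (B (M (nat_lit 398) (B (M (nat_lit 432) (B (L (nat_lit 431) ln12_12_0 ln12_12_0_ok) (M (nat_lit 400) (B (L (nat_lit 433) ln13_12_0 ln13_12_0_ok) (L (nat_lit 401) ln17_12_1 ln17_12_1_ok))))) (B (M (nat_lit 431) (B (L (nat_lit 432) ln12_12_0 ln12_12_0_ok) (M (nat_lit 367) (B (L (nat_lit 368) ln12_12_2 ln12_12_2_ok) (M (nat_lit 335) (B (L (nat_lit 303) ln15_9_5 ln15_9_5_ok) (L (nat_lit 462) ln15_10_5 ln15_10_5_ok))))))) (M (nat_lit 400) (B (L (nat_lit 401) ln17_12_1 ln17_12_1_ok) (M (nat_lit 368) (B (L (nat_lit 367) ln12_12_2 ln12_12_2_ok) (L (nat_lit 369) ln13_12_2 ln13_12_2_ok)))))))) (M (nat_lit 398)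 (B (M (nat_lit 428) (B (L (nat_lit 427) ln15_12_1 ln15_12_1_ok) (L (nat_lit 400) ln16_12_1 ln16_12_1_ok))) (M (nat_lit 462) (B (M (nat_lit 367) (B (L (nat_lit 368) ln12_12_2 ln12_12_2_ok) (L (nat_lit 494) ln14_15_6 ln14_15_6_ok))) (B (M (nat_lit 493) (B (M (nat_lit 364) (B (L (nat_lit 363) ln15_12_3 ln15_12_3_ok) (L (nat_lit 461) ln13_15_7 ln13_15_7_ok))) (B (M (nat_lit 461) (B (L (nat_lit 364) ln13_15_7 ln13_15_7_ok) (L (nat_lit 525) ln13_16_6 ln13_16_6_ok))) (M (nat_lit 494) (B (L (nat_lit 526) ln14_16_7 ln14_16_7_ok) (L (nat_lit 525) ln14_12_5 ln14_12_5_ok)))))) (M (nat_lit 366) (B (M (nat_lit 334) (B (L (nat_lit 302) ln14_9_5 ln14_9_5_ok) (L (nat_lit 461) ln14_10_5 ln14_10_5_ok))) (M (nat_lit 367) (B (L (nat_lit 335) ln14_14_6 ln14_14_6_ok) (L (nat_lit 368) ln12_12_2 ln12_12_2_ok)))))))))))))))) (B (M (nat_lit 431) (B (L (nat_lit 432) ln16_13_3 ln16_13_3_ok) (M (nat_lit 395) (B (L (nat_lit 394) ln10_12_0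 ln10_12_0_ok) (L (nat_lit 428) ln15_13_3 ln15_13_3_ok))))) (M (nat_lit 395) (B (L (nat_lit 394) ln10_12_0 ln10_12_0_ok) (M (nat_lit 398) (B (M (nat_lit 366) (B (L (nat_lit 367) ln11_12_2 ln11_12_2_ok) (M (nat_lit 461) (B (L (nat_lit 334) ln14_10_5 ln14_10_5_ok) (L (nat_lit 493) ln13_15_6 ln13_15_6_ok))))) (M (nat_lit 399) (B (M (nat_lit 363) (B (L (nat_lit 362) ln14_12_3 ln14_12_3_ok) (L (nat_lit 364) ln15_12_3 ln15_12_3_ok))) (M (nat_lit 427) (B (L (nat_lit 426) ln14_12_1 ln14_12_1_ok) (L (nat_lit 428) ln15_12_1 ln15_12_1_ok))))))))))))))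
theorem c33_s1490 : Sem (nat_lit 4159004541504003524128484849921615451655032097354938086859372310025764381276019387312066758484915036306104045371593254240054673408) (nat_lit 329510287865282815282975419329478689595185820772642680410198036678484754894113891892686897393986630895726189958952462104333313181425681922045594462919118028800) (nat_lit 329510287865282815282975419329478689595185820772642680410198036678484754894113891892686897393986630895726189958952462104333313181425681922045594462919118028800) :=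
  sem_of_chk (M (nat_lit 396) (B (M (nat_lit 431) (B (L (nat_lit 432) ln16_13_3 ln16_13_3_ok) (M (nat_lit 395) (B (L (nat_lit 394) ln10_12_0 ln10_12_0_ok) (L (nat_lit 428) ln15_13_3 ln15_13_3_ok))))) (B (M (nat_lit 431) (B (L (nat_lit 432) ln16_13_3 ln16_13_3_ok) (M (nat_lit 395) (B (L (nat_lit 398) ln11_12_0 ln11_12_0_ok) (L (nat_lit 428) ln15_13_3 ln15_13_3_ok))))) (B (M (nat_lit 399) (B (M (nat_lit 431) (B (L (nat_lit 432) ln16_13_3 ln16_13_3_ok) (M (nat_lit 428) (B (L (nat_lit 400) ln12_13_2 ln12_13_2_ok) (M (nat_lit 427) (B (L (nat_lit 398) ln15_12_1 ln15_12_1_ok) (M (nat_lit 463) (B (L (nat_lit 462) ln11_13_0 ln11_13_0_ok) (L (nat_lit 464) ln12_13_0 ln12_13_0_ok))))))))) (B (M (nat_lit 431) (B (L (nat_lit 432) ln16_13_3 ln16_13_3_ok) (M (nat_lit 428) (B (L (nat_lit 400) ln12_13_2 ln12_13_2_ok) (M (nat_lit 427) (B (M (nat_lit 459) (B (L (nat_lit 458) ln14_13_1 ln14_13_1_ok) (L (nat_lit 460) ln15_13_1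 ln15_13_1_ok))) (M (nat_lit 463) (B (L (nat_lit 462) ln11_13_0 ln11_13_0_ok) (L (nat_lit 464) ln12_13_0 ln12_13_0_ok))))))))) (B (M (nat_lit 431) (B (L (nat_lit 432) ln16_13_3 ln16_13_3_ok) (M (nat_lit 398) (B (M (nat_lit 367) (B (L (nat_lit 368) ln12_12_2 ln12_12_2_ok) (M (nat_lit 335) (B (L (nat_lit 303) ln15_9_5 ln15_9_5_ok) (L (nat_lit 462) ln15_10_5 ln15_10_5_ok))))) (M (nat_lit 463) (B (M (nat_lit 366) (B (L (nat_lit 334) ln14_10_4 ln14_10_4_ok) (L (nat_lit 495) ln15_15_7 ln15_15_7_ok))) (M (nat_lit 428) (B (L (nat_lit 427) ln15_12_1 ln15_12_1_ok) (L (nat_lit 464) ln12_13_0 ln12_13_0_ok))))))))) (B (M (nat_lit 400) (B (M (nat_lit 398) (B (L (nat_lit 428) ln16_12_1 ln16_12_1_ok) (L (nat_lit 401) ln17_12_1 ln17_12_1_ok))) (B (M (nat_lit 431) (B (L (nat_lit 432) ln16_13_3 ln16_13_3_ok) (L (nat_lit 428) ln12_13_2 ln12_13_2_ok))) (M (nat_lit 398) (B (L (nat_lit 401) ln17_12_1 ln17_12_1_ok) (M (nat_lit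 432) (B (L (nat_lit 431) ln12_12_0 ln12_12_0_ok) (L (nat_lit 433) ln13_12_0 ln13_12_0_ok)))))))) (B (M (nat_lit 398) (B (M (nat_lit 432) (B (L (nat_lit 431) ln12_12_0 ln12_12_0_ok) (M (nat_lit 400) (B (L (nat_lit 433) ln13_12_0 ln13_12_0_ok) (L (nat_lit 401) ln17_12_1 ln17_12_1_ok))))) (B (M (nat_lit 431) (B (L (nat_lit 432) ln12_12_0 ln12_12_0_ok) (M (nat_lit 367) (B (L (nat_lit 368) ln12_12_2 ln12_12_2_ok) (M (nat_lit 335) (B (L (nat_lit 303) ln15_9_5 ln15_9_5_ok) (L (nat_lit 462) ln15_10_5 ln15_10_5_ok))))))) (M (nat_lit 400) (B (L (nat_lit 401) ln17_12_1 ln17_12_1_ok) (M (nat_lit 368) (B (L (nat_lit 367) ln12_12_2 ln12_12_2_ok) (L (nat_lit 369) ln13_12_2 ln13_12_2_ok)))))))) (M (nat_lit 398) (B (M (nat_lit 428) (B (L (nat_lit 427) ln15_12_1 ln15_12_1_ok) (L (nat_lit 400) ln16_12_1 ln16_12_1_ok))) (M (nat_lit 462) (B (M (nat_lit 367) (B (L (nat_lit 368) ln12_12_2 ln12_12_2_ok) (L (nat_lit 494) ln14_15_6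 ln14_15_6_ok))) (B (M (nat_lit 493) (B (M (nat_lit 461) (B (L (nat_lit 364) ln13_15_7 ln13_15_7_ok) (L (nat_lit 366) ln13_15_6 ln13_15_6_ok))) (B (M (nat_lit 461) (B (L (nat_lit 366) ln13_15_6 ln13_15_6_ok) (L (nat_lit 525) ln13_16_6 ln13_16_6_ok))) (B (M (nat_lit 461) (B (L (nat_lit 364) ln13_15_7 ln13_15_7_ok) (L (nat_lit 525) ln13_16_6 ln13_16_6_ok))) (M (nat_lit 494) (B (L (nat_lit 526) ln14_16_7 ln14_16_7_ok) (L (nat_lit 525) ln14_12_5 ln14_12_5_ok))))))) (M (nat_lit 366) (B (M (nat_lit 334) (B (L (nat_lit 302) ln14_9_5 ln14_9_5_ok) (L (nat_lit 461) ln14_10_5 ln14_10_5_ok))) (M (nat_lit 367) (B (L (nat_lit 335) ln14_14_6 ln14_14_6_ok) (L (nat_lit 368) ln12_12_2 ln12_12_2_ok)))))))))))))))) (B (M (nat_lit 395) (B (L (nat_lit 394) ln10_12_0 ln10_12_0_ok) (M (nat_lit 431) (B (L (nat_lit 398) ln11_12_0 ln11_12_0_ok) (L (nat_lit 432) ln16_13_3 ln16_13_3_ok))))) (M (nat_lit 395) (B (L (nat_lit 394) ln10_12_0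 ln10_12_0_ok) (M (nat_lit 398) (B (M (nat_lit 366) (B (L (nat_lit 367) ln11_12_2 ln11_12_2_ok) (M (nat_lit 461) (B (L (nat_lit 334) ln14_10_5 ln14_10_5_ok) (L (nat_lit 493) ln13_15_6 ln13_15_6_ok))))) (B (M (nat_lit 399) (B (M (nat_lit 367) (B (L (nat_lit 366) ln11_12_2 ln11_12_2_ok) (L (nat_lit 368) ln12_12_2 ln12_12_2_ok))) (M (nat_lit 427) (B (L (nat_lit 426) ln14_12_1 ln14_12_1_ok) (L (nat_lit 428) ln15_12_1 ln15_12_1_ok))))) (B (M (nat_lit 399) (B (M (nat_lit 427) (B (L (nat_lit 426) ln14_12_1 ln14_12_1_ok) (L (nat_lit 428) ln15_12_1 ln15_12_1_ok))) (B (M (nat_lit 428) (B (L (nat_lit 427) ln15_12_1 ln15_12_1_ok) (L (nat_lit 400) ln16_12_1 ln16_12_1_ok))) (B (M (nat_lit 400) (B (L (nat_lit 428) ln16_12_1 ln16_12_1_ok) (L (nat_lit 401) ln17_12_1 ln17_12_1_ok))) (M (nat_lit 400) (B (L (nat_lit 401) ln17_12_1 ln17_12_1_ok) (M (nat_lit 368) (B (L (nat_lit 367) ln12_12_2 ln12_12_2_ok) (L (nat_lit 369)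 ln13_12_2 ln13_12_2_ok))))))))) (M (nat_lit 462) (B (M (nat_lit 427) (B (L (nat_lit 426) ln14_12_1 ln14_12_1_ok) (M (nat_lit 428) (B (L (nat_lit 399) ln15_12_1 ln15_12_1_ok) (L (nat_lit 463) ln11_13_0 ln11_13_0_ok))))) (M (nat_lit 493) (B (M (nat_lit 461) (B (L (nat_lit 364) ln13_15_7 ln13_15_7_ok) (L (nat_lit 366) ln13_15_6 ln13_15_6_ok))) (B (M (nat_lit 461) (B (L (nat_lit 366) ln13_15_6 ln13_15_6_ok) (L (nat_lit 525) ln13_16_6 ln13_16_6_ok))) (B (M (nat_lit 461) (B (L (nat_lit 364) ln13_15_7 ln13_15_7_ok) (L (nat_lit 525) ln13_16_6 ln13_16_6_ok))) (M (nat_lit 494) (B (L (nat_lit 526) ln14_16_7 ln14_16_7_ok) (L (nat_lit 525) ln14_12_5 ln14_12_5_ok)))))))))))))))))))) (nat_lit 4159004541504003524128484849921615451655032097354938086859372310025764381276019387312066758484915036306104045371593254240054673408) (nat_lit 329510287865282815282975419329478689595185820772642680410198036678484754894113891892686897393986630895726189958952462104333313181425681922045594462919118028800)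 (nat_lit 329510287865282815282975419329478689595185820772642680410198036678484754894113891892686897393986630895726189958952462104333313181425681922045594462919118028800) (by decide +kernel)
noncomputable def c33_n1601 : Cert := (M (nat_lit 431) (B (M (nat_lit 432) (B (L (nat_lit 396) ln16_13_3 ln16_13_3_ok) (M (nat_lit 433) (B (L (nat_lit 398) ln17_13_3 ln17_13_3_ok) (M (nat_lit 461) (B (L (nat_lit 460) ln16_13_1 ln16_13_1_ok) (L (nat_lit 462) ln17_13_1 ln17_13_1_ok))))))) (B (M (nat_lit 428) (B (M (nat_lit 399) (B (L (nat_lit 400) ln12_13_2 ln12_13_2_ok) (M (nat_lit 427) (B (L (nat_lit 398) ln11_13_2 ln11_13_2_ok) (M (nat_lit 459) (B (L (nat_lit 458) ln14_13_1 ln14_13_1_ok) (L (nat_lit 460) ln15_13_1 ln15_13_1_ok))))))) (B (M (nat_lit 427) (B (M (nat_lit 459) (B (L (nat_lit 458) ln14_13_1 ln14_13_1_ok) (L (nat_lit 460) ln15_13_1 ln15_13_1_ok))) (M (nat_lit 463) (B (L (nat_lit 462) ln11_13_0 ln11_13_0_ok)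 (L (nat_lit 464) ln12_13_0 ln12_13_0_ok))))) (B (M (nat_lit 432) (B (M (nat_lit 400) (B (L (nat_lit 399) ln12_13_2 ln12_13_2_ok) (L (nat_lit 401) ln13_13_2 ln13_13_2_ok))) (M (nat_lit 460) (B (L (nat_lit 459) ln15_13_1 ln15_13_1_ok) (L (nat_lit 461) ln16_13_1 ln16_13_1_ok))))) (M (nat_lit 427) (B (M (nat_lit 398) (B (L (nat_lit 426) ln10_13_2 ln10_13_2_ok) (L (nat_lit 399) ln11_13_2 ln11_13_2_ok))) (M (nat_lit 463) (B (L (nat_lit 462) ln11_13_0 ln11_13_0_ok) (L (nat_lit 464) ln12_13_0 ln12_13_0_ok))))))))) (B (M (nat_lit 428) (B (M (nat_lit 460) (B (L (nat_lit 459) ln15_13_1 ln15_13_1_ok) (M (nat_lit 432) (B (L (nat_lit 396) ln16_13_3 ln16_13_3_ok) (L (nat_lit 461) ln16_13_1 ln16_13_1_ok))))) (B (M (nat_lit 427) (B (M (nat_lit 459) (B (L (nat_lit 458) ln14_13_1 ln14_13_1_ok) (L (nat_lit 460) ln15_13_1 ln15_13_1_ok))) (M (nat_lit 463) (B (L (nat_lit 462) ln11_13_0 ln11_13_0_ok) (L (nat_lit 464) ln12_13_0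 ln12_13_0_ok))))) (M (nat_lit 432) (B (L (nat_lit 396) ln16_13_3 ln16_13_3_ok) (M (nat_lit 400) (B (L (nat_lit 399) ln12_13_2 ln12_13_2_ok) (L (nat_lit 401) ln13_13_2 ln13_13_2_ok)))))))) (B (M (nat_lit 428) (B (M (nat_lit 399) (B (L (nat_lit 400) ln12_13_2 ln12_13_2_ok) (M (nat_lit 427) (B (L (nat_lit 398) ln11_13_2 ln11_13_2_ok) (M (nat_lit 459) (B (L (nat_lit 458) ln14_13_1 ln14_13_1_ok) (L (nat_lit 460) ln15_13_1 ln15_13_1_ok))))))) (B (M (nat_lit 427) (B (M (nat_lit 459) (B (L (nat_lit 458) ln14_13_1 ln14_13_1_ok) (L (nat_lit 460) ln15_13_1 ln15_13_1_ok))) (M (nat_lit 463) (B (L (nat_lit 462) ln11_13_0 ln11_13_0_ok) (L (nat_lit 464) ln12_13_0 ln12_13_0_ok))))) (M (nat_lit 398) (B (M (nat_lit 399) (B (L (nat_lit 400) ln16_12_1 ln16_12_1_ok) (M (nat_lit 463) (B (L (nat_lit 464) ln12_13_0 ln12_13_0_ok) (M (nat_lit 495) (B (L (nat_lit 366) ln15_15_7 ln15_15_7_ok) (L (nat_lit 527) ln15_16_7 ln15_16_7_ok)))))))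 (B (M (nat_lit 399) (B (L (nat_lit 400) ln16_12_1 ln16_12_1_ok) (M (nat_lit 396) (B (M (nat_lit 364) (B (L (nat_lit 363) ln15_12_3 ln15_12_3_ok) (M (nat_lit 332) (B (L (nat_lit 300) ln12_9_4 ln12_9_4_ok) (L (nat_lit 461) ln12_10_4 ln12_10_4_ok))))) (M (nat_lit 367) (B (L (nat_lit 368) ln12_12_2 ln12_12_2_ok) (M (nat_lit 335) (B (L (nat_lit 303) ln15_9_5 ln15_9_5_ok) (L (nat_lit 462) ln15_10_5 ln15_10_5_ok))))))))) (M (nat_lit 463) (B (L (nat_lit 464) ln12_13_0 ln12_13_0_ok) (M (nat_lit 366) (B (L (nat_lit 334) ln14_10_4 ln14_10_4_ok) (M (nat_lit 495) (B (L (nat_lit 462) ln14_11_4 ln14_11_4_ok) (L (nat_lit 527) ln15_16_7 ln15_16_7_ok))))))))))))) (B (M (nat_lit 428) (B (M (nat_lit 432) (B (L (nat_lit 396) ln16_13_3 ln16_13_3_ok) (M (nat_lit 400) (B (L (nat_lit 399) ln12_13_2 ln12_13_2_ok) (L (nat_lit 401) ln13_13_2 ln13_13_2_ok))))) (B (M (nat_lit 427) (B (M (nat_lit 398) (B (L (nat_lit 426) ln10_13_2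 ln10_13_2_ok) (L (nat_lit 399) ln11_13_2 ln11_13_2_ok))) (M (nat_lit 463) (B (L (nat_lit 462) ln11_13_0 ln11_13_0_ok) (L (nat_lit 464) ln12_13_0 ln12_13_0_ok))))) (M (nat_lit 396) (B (L (nat_lit 432) ln16_13_3 ln16_13_3_ok) (M (nat_lit 427) (B (M (nat_lit 426) (B (L (nat_lit 425) ln9_13_2 ln9_13_2_ok) (L (nat_lit 398) ln10_13_2 ln10_13_2_ok))) (M (nat_lit 463) (B (L (nat_lit 462) ln11_13_0 ln11_13_0_ok) (L (nat_lit 464) ln12_13_0 ln12_13_0_ok)))))))))) (M (nat_lit 428) (B (M (nat_lit 432) (B (L (nat_lit 396) ln16_13_3 ln16_13_3_ok) (M (nat_lit 400) (B (L (nat_lit 399) ln12_13_2 ln12_13_2_ok) (L (nat_lit 401) ln13_13_2 ln13_13_2_ok))))) (B (M (nat_lit 427) (B (M (nat_lit 398) (B (L (nat_lit 426) ln10_13_2 ln10_13_2_ok) (L (nat_lit 399) ln11_13_2 ln11_13_2_ok))) (M (nat_lit 459) (B (L (nat_lit 458) ln14_13_1 ln14_13_1_ok) (L (nat_lit 460) ln15_13_1 ln15_13_1_ok))))) (M (nat_lit 460) (B (L (nat_lit 459)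 ln15_13_1 ln15_13_1_ok) (M (nat_lit 432) (B (L (nat_lit 396) ln16_13_3 ln16_13_3_ok) (L (nat_lit 461) ln16_13_1 ln16_13_1_ok))))))))))))))
noncomputable def c33_n1926 : Cert := (M (nat_lit 494) (B (M (nat_lit 462) (B (L (nat_lit 526) ln14_16_7 ln14_16_7_ok) (M (nat_lit 398) (B (M (nat_lit 399) (B (L (nat_lit 367) ln14_15_6 ln14_15_6_ok) (L (nat_lit 400) ln16_12_1 ln16_12_1_ok))) (M (nat_lit 461) (B (M (nat_lit 366) (B (L (nat_lit 334) ln14_10_5 ln14_10_5_ok) (L (nat_lit 493) ln13_15_6 ln13_15_6_ok))) (M (nat_lit 495) (B (L (nat_lit 527) ln14_12_4 ln14_12_4_ok) (L (nat_lit 459) ln11_14_0 ln11_14_0_ok))))))))) (B (M (nat_lit 462) (B (L (nat_lit 526) ln14_16_7 ln14_16_7_ok) (M (nat_lit 398) (B (M (nat_lit 399) (B (L (nat_lit 367) ln14_15_6 ln14_15_6_ok) (L (nat_lit 400) ln16_12_1 ln16_12_1_ok))) (M (nat_lit 461) (B (M (nat_lit 493) (B (L (nat_lit 366) ln13_15_6 ln13_15_6_ok) (L (nat_lit 525) ln13_16_6 ln13_16_6_ok)))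 (M (nat_lit 495) (B (L (nat_lit 527) ln14_12_4 ln14_12_4_ok) (L (nat_lit 459) ln11_14_0 ln11_14_0_ok))))))))) (B (M (nat_lit 462) (B (L (nat_lit 526) ln14_16_7 ln14_16_7_ok) (M (nat_lit 461) (B (M (nat_lit 459) (B (L (nat_lit 458) ln10_14_2 ln10_14_2_ok) (L (nat_lit 495) ln11_14_0 ln11_14_0_ok))) (M (nat_lit 492) (B (L (nat_lit 524) ln12_16_6 ln12_16_6_ok) (M (nat_lit 463) (B (L (nat_lit 464) ln16_14_3 ln16_14_3_ok) (L (nat_lit 491) ln15_14_1 ln15_14_1_ok))))))))) (B (M (nat_lit 462) (B (L (nat_lit 526) ln14_16_7 ln14_16_7_ok) (M (nat_lit 398) (B (M (nat_lit 399) (B (L (nat_lit 367) ln14_15_6 ln14_15_6_ok) (L (nat_lit 400) ln16_12_1 ln16_12_1_ok))) (M (nat_lit 366) (B (M (nat_lit 334) (B (L (nat_lit 302) ln14_9_5 ln14_9_5_ok) (L (nat_lit 461) ln14_10_5 ln14_10_5_ok))) (M (nat_lit 495) (B (L (nat_lit 463) ln14_11_4 ln14_11_4_ok) (L (nat_lit 527) ln14_12_4 ln14_12_4_ok))))))))) (B (M (nat_lit 493) (B (M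 (nat_lit 462) (B (L (nat_lit 526) ln14_16_7 ln14_16_7_ok) (M (nat_lit 398) (B (L (nat_lit 525) ln14_12_5 ln14_12_5_ok) (M (nat_lit 399) (B (L (nat_lit 367) ln14_15_6 ln14_15_6_ok) (L (nat_lit 400) ln16_12_1 ln16_12_1_ok))))))) (M (nat_lit 492) (B (L (nat_lit 524) ln12_16_6 ln12_16_6_ok) (M (nat_lit 459) (B (L (nat_lit 495) ln15_15_3 ln15_15_3_ok) (M (nat_lit 458) (B (L (nat_lit 457) ln9_14_2 ln9_14_2_ok) (L (nat_lit 491) ln14_15_3 ln14_15_3_ok))))))))) (B (M (nat_lit 492) (B (L (nat_lit 524) ln12_16_6 ln12_16_6_ok) (M (nat_lit 493) (B (M (nat_lit 459) (B (L (nat_lit 495) ln15_15_3 ln15_15_3_ok) (M (nat_lit 458) (B (L (nat_lit 457) ln9_14_2 ln9_14_2_ok) (L (nat_lit 491) ln14_15_3 ln14_15_3_ok))))) (B (M (nat_lit 459) (B (L (nat_lit 495) ln15_15_3 ln15_15_3_ok) (M (nat_lit 458) (B (L (nat_lit 461) ln10_14_2 ln10_14_2_ok) (L (nat_lit 491) ln14_15_3 ln14_15_3_ok))))) (M (nat_lit 461) (B (L (nat_lit 526) ln13_12_4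 ln13_12_4_ok) (M (nat_lit 398) (B (L (nat_lit 366) ln13_15_6 ln13_15_6_ok) (L (nat_lit 525) ln13_16_6 ln13_16_6_ok)))))))))) (B (M (nat_lit 462) (B (L (nat_lit 526) ln14_16_7 ln14_16_7_ok) (M (nat_lit 461) (B (M (nat_lit 492) (B (L (nat_lit 524) ln12_16_6 ln12_16_6_ok) (M (nat_lit 463) (B (L (nat_lit 464) ln16_14_3 ln16_14_3_ok) (L (nat_lit 491) ln15_14_1 ln15_14_1_ok))))) (M (nat_lit 398) (B (M (nat_lit 366) (B (L (nat_lit 334) ln14_10_5 ln14_10_5_ok) (L (nat_lit 493) ln13_15_6 ln13_15_6_ok))) (M (nat_lit 399) (B (L (nat_lit 367) ln14_15_6 ln14_15_6_ok) (L (nat_lit 400) ln16_12_1 ln16_12_1_ok))))))))) (M (nat_lit 461) (B (M (nat_lit 459) (B (L (nat_lit 458) ln10_14_2 ln10_14_2_ok) (M (nat_lit 492) (B (L (nat_lit 524) ln12_16_6 ln12_16_6_ok) (M (nat_lit 495) (B (L (nat_lit 462) ln11_14_0 ln11_14_0_ok) (L (nat_lit 493) ln15_15_3 ln15_15_3_ok))))))) (B (M (nat_lit 462) (B (M (nat_lit 492) (B (L (nat_lit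 524) ln12_16_6 ln12_16_6_ok) (M (nat_lit 463) (B (L (nat_lit 464) ln16_14_3 ln16_14_3_ok) (L (nat_lit 491) ln15_14_1 ln15_14_1_ok))))) (M (nat_lit 398) (B (M (nat_lit 366) (B (L (nat_lit 334) ln14_10_5 ln14_10_5_ok) (L (nat_lit 493) ln13_15_6 ln13_15_6_ok))) (M (nat_lit 399) (B (L (nat_lit 367) ln14_15_6 ln14_15_6_ok) (L (nat_lit 400) ln16_12_1 ln16_12_1_ok))))))) (B (M (nat_lit 459) (B (L (nat_lit 458) ln10_14_2 ln10_14_2_ok) (M (nat_lit 493) (B (M (nat_lit 398) (B (L (nat_lit 366) ln13_15_6 ln13_15_6_ok) (L (nat_lit 525) ln13_16_6 ln13_16_6_ok))) (M (nat_lit 492) (B (L (nat_lit 524) ln12_16_6 ln12_16_6_ok) (L (nat_lit 495) ln15_15_3 ln15_15_3_ok))))))) (B (M (nat_lit 398) (B (M (nat_lit 493) (B (L (nat_lit 366) ln13_15_6 ln13_15_6_ok) (L (nat_lit 525) ln13_16_6 ln13_16_6_ok))) (M (nat_lit 462) (B (M (nat_lit 399) (B (L (nat_lit 367) ln14_15_6 ln14_15_6_ok) (L (nat_lit 400) ln16_12_1 ln16_12_1_ok)))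 (M (nat_lit 459) (B (L (nat_lit 458) ln10_14_2 ln10_14_2_ok) (L (nat_lit 495) ln11_14_0 ln11_14_0_ok))))))) (M (nat_lit 492) (B (L (nat_lit 524) ln12_16_6 ln12_16_6_ok) (M (nat_lit 462) (B (M (nat_lit 459) (B (L (nat_lit 458) ln10_14_2 ln10_14_2_ok) (L (nat_lit 495) ln11_14_0 ln11_14_0_ok))) (M (nat_lit 463) (B (L (nat_lit 464) ln16_14_3 ln16_14_3_ok) (L (nat_lit 491) ln15_14_1 ln15_14_1_ok))))))))))))))))))))
theorem c33_s1990 : Sem (nat_lit 2977131418873810365194033841237751422634130465030286872267921942703270834138242275220097931035642323021798324805370310187350982510860304384) (nat_lit 823775719413866737852208743106254703799708475055707486008969599498791448095576520782576616552686007807384608321728419189021575954727362832522442921097165799424) (nat_lit 823775719413866737852208743106254703799708475055707486008969599498791448095576520782576616552686007807384608321728419189021575954727362832522442921097165799424)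 :=
  sem_of_chk (M (nat_lit 428) (B (M (nat_lit 459) (B (M (nat_lit 458) (B (L (nat_lit 427) ln14_13_1 ln14_13_1_ok) (L (nat_lit 457) ln9_14_2 ln9_14_2_ok))) (B (M (nat_lit 458) (B (L (nat_lit 457) ln9_14_2 ln9_14_2_ok) (L (nat_lit 461) ln10_14_2 ln10_14_2_ok))) (B (M (nat_lit 458) (B (L (nat_lit 427) ln14_13_1 ln14_13_1_ok) (L (nat_lit 461) ln10_14_2 ln10_14_2_ok))) (M (nat_lit 427) (B (M (nat_lit 398) (B (L (nat_lit 426) ln10_13_2 ln10_13_2_ok) (L (nat_lit 399) ln11_13_2 ln11_13_2_ok))) (M (nat_lit 395) (B (L (nat_lit 394) ln14_13_3 ln14_13_3_ok) (M (nat_lit 363) (B (L (nat_lit 331) ln11_10_4 ln11_10_4_ok) (L (nat_lit 492) ln11_11_4 ln11_11_4_ok))))))))))) (B (M (nat_lit 459) (B (M (nat_lit 458) (B (L (nat_lit 427) ln14_13_1 ln14_13_1_ok) (L (nat_lit 457) ln9_14_2 ln9_14_2_ok))) (B (M (nat_lit 458) (B (L (nat_lit 457) ln9_14_2 ln9_14_2_ok) (L (nat_lit 461) ln10_14_2 ln10_14_2_ok))) (B (M (nat_lit 458)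 (B (L (nat_lit 427) ln14_13_1 ln14_13_1_ok) (L (nat_lit 461) ln10_14_2 ln10_14_2_ok))) (M (nat_lit 427) (B (M (nat_lit 398) (B (L (nat_lit 426) ln10_13_2 ln10_13_2_ok) (L (nat_lit 399) ln11_13_2 ln11_13_2_ok))) (M (nat_lit 395) (B (L (nat_lit 394) ln14_13_3 ln14_13_3_ok) (M (nat_lit 492) (B (L (nat_lit 363) ln11_11_4 ln11_11_4_ok) (L (nat_lit 524) ln12_16_7 ln12_16_7_ok))))))))))) (B (M (nat_lit 462) (B (M (nat_lit 427) (B (L (nat_lit 463) ln11_13_0 ln11_13_0_ok) (M (nat_lit 398) (B (L (nat_lit 426) ln10_13_2 ln10_13_2_ok) (L (nat_lit 399) ln11_13_2 ln11_13_2_ok))))) (B (M (nat_lit 463) (B (L (nat_lit 427) ln11_13_0 ln11_13_0_ok) (M (nat_lit 461) (B (L (nat_lit 464) ln16_14_3 ln16_14_3_ok) (M (nat_lit 492) (B (L (nat_lit 524) ln12_16_6 ln12_16_6_ok) (L (nat_lit 491) ln15_14_1 ln15_14_1_ok))))))) (B (M (nat_lit 461) (B (M (nat_lit 459) (B (L (nat_lit 458) ln10_14_2 ln10_14_2_ok) (M (nat_lit 494) (B (L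 (nat_lit 526) ln14_16_7 ln14_16_7_ok) (L (nat_lit 495) ln11_14_0 ln11_14_0_ok))))) (M (nat_lit 492) (B (L (nat_lit 524) ln12_16_6 ln12_16_6_ok) (M (nat_lit 463) (B (L (nat_lit 464) ln16_14_3 ln16_14_3_ok) (L (nat_lit 491) ln15_14_1 ln15_14_1_ok))))))) (M (nat_lit 461) (B (M (nat_lit 459) (B (L (nat_lit 458) ln10_14_2 ln10_14_2_ok) (M (nat_lit 494) (B (L (nat_lit 526) ln14_16_7 ln14_16_7_ok) (L (nat_lit 495) ln11_14_0 ln11_14_0_ok))))) (M (nat_lit 398) (B (M (nat_lit 366) (B (L (nat_lit 334) ln14_10_5 ln14_10_5_ok) (L (nat_lit 493) ln13_15_6 ln13_15_6_ok))) (M (nat_lit 427) (B (L (nat_lit 426) ln10_13_2 ln10_13_2_ok) (L (nat_lit 399) ln11_13_2 ln11_13_2_ok))))))))))) (B (M (nat_lit 427) (B (M (nat_lit 459) (B (L (nat_lit 458) ln14_13_1 ln14_13_1_ok) (M (nat_lit 395) (B (L (nat_lit 394) ln14_13_3 ln14_13_3_ok) (M (nat_lit 492) (B (L (nat_lit 363) ln11_11_4 ln11_11_4_ok) (L (nat_lit 524) ln12_16_7 ln12_16_7_ok)))))))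 (B (M (nat_lit 426) (B (M (nat_lit 394) (B (L (nat_lit 393) ln13_13_3 ln13_13_3_ok) (L (nat_lit 395) ln14_13_3 ln14_13_3_ok))) (M (nat_lit 458) (B (L (nat_lit 457) ln13_13_1 ln13_13_1_ok) (L (nat_lit 459) ln14_13_1 ln14_13_1_ok))))) (B (M (nat_lit 426) (B (M (nat_lit 458) (B (L (nat_lit 457) ln13_13_1 ln13_13_1_ok) (L (nat_lit 459) ln14_13_1 ln14_13_1_ok))) (M (nat_lit 462) (B (L (nat_lit 461) ln10_13_0 ln10_13_0_ok) (L (nat_lit 463) ln11_13_0 ln11_13_0_ok))))) (M (nat_lit 426) (B (M (nat_lit 394) (B (L (nat_lit 393) ln13_13_3 ln13_13_3_ok) (L (nat_lit 395) ln14_13_3 ln14_13_3_ok))) (M (nat_lit 462) (B (L (nat_lit 461) ln10_13_0 ln10_13_0_ok) (L (nat_lit 463) ln11_13_0 ln11_13_0_ok))))))))) (B (M (nat_lit 461) (B (M (nat_lit 398) (B (M (nat_lit 399) (B (L (nat_lit 400) ln16_12_1 ln16_12_1_ok) (L (nat_lit 427) ln11_13_2 ln11_13_2_ok))) (M (nat_lit 493) (B (L (nat_lit 366) ln13_15_6 ln13_15_6_ok) (L (nat_lit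 525) ln13_16_6 ln13_16_6_ok))))) (B (M (nat_lit 459) (B (L (nat_lit 458) ln10_14_2 ln10_14_2_ok) (M (nat_lit 462) (B (M (nat_lit 463) (B (L (nat_lit 427) ln11_13_0 ln11_13_0_ok) (L (nat_lit 464) ln16_14_3 ln16_14_3_ok))) (M (nat_lit 494) (B (L (nat_lit 526) ln14_16_7 ln14_16_7_ok) (L (nat_lit 495) ln11_14_0 ln11_14_0_ok))))))) (M (nat_lit 462) (B (M (nat_lit 459) (B (L (nat_lit 458) ln10_14_2 ln10_14_2_ok) (M (nat_lit 494) (B (L (nat_lit 526) ln14_16_7 ln14_16_7_ok) (L (nat_lit 495) ln11_14_0 ln11_14_0_ok))))) (M (nat_lit 492) (B (L (nat_lit 524) ln12_16_6 ln12_16_6_ok) (M (nat_lit 463) (B (L (nat_lit 464) ln16_14_3 ln16_14_3_ok) (L (nat_lit 491) ln15_14_1 ln15_14_1_ok)))))))))) (B c33_n1926 (B (M (nat_lit 427) (B (M (nat_lit 398) (B (L (nat_lit 426) ln10_13_2 ln10_13_2_ok) (L (nat_lit 399) ln11_13_2 ln11_13_2_ok))) (B (M (nat_lit 426) (B (M (nat_lit 394) (B (L (nat_lit 393) ln13_13_3 ln13_13_3_ok) (L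 (nat_lit 395) ln14_13_3 ln14_13_3_ok))) (M (nat_lit 462) (B (L (nat_lit 461) ln10_13_0 ln10_13_0_ok) (L (nat_lit 463) ln11_13_0 ln11_13_0_ok))))) (M (nat_lit 395) (B (L (nat_lit 394) ln14_13_3 ln14_13_3_ok) (M (nat_lit 492) (B (L (nat_lit 524) ln12_16_7 ln12_16_7_ok) (M (nat_lit 363) (B (L (nat_lit 331) ln11_10_4 ln11_10_4_ok) (L (nat_lit 459) ln11_11_4 ln11_11_4_ok)))))))))) (B (M (nat_lit 398) (B (M (nat_lit 399) (B (L (nat_lit 400) ln16_12_1 ln16_12_1_ok) (L (nat_lit 427) ln11_13_2 ln11_13_2_ok))) (B (M (nat_lit 462) (B (M (nat_lit 427) (B (L (nat_lit 426) ln10_13_2 ln10_13_2_ok) (L (nat_lit 463) ln11_13_0 ln11_13_0_ok))) (M (nat_lit 366) (B (M (nat_lit 334) (B (L (nat_lit 302) ln14_9_5 ln14_9_5_ok) (L (nat_lit 461) ln14_10_5 ln14_10_5_ok))) (B (M (nat_lit 461) (B (L (nat_lit 334) ln14_10_5 ln14_10_5_ok) (L (nat_lit 493) ln13_15_6 ln13_15_6_ok))) (B (M (nat_lit 493) (B (L (nat_lit 461) ln13_15_6 ln13_15_6_ok)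 (M (nat_lit 494) (B (L (nat_lit 526) ln14_16_7 ln14_16_7_ok) (L (nat_lit 525) ln14_12_5 ln14_12_5_ok))))) (M (nat_lit 334) (B (L (nat_lit 302) ln14_9_5 ln14_9_5_ok) (M (nat_lit 335) (B (L (nat_lit 303) ln14_13_6 ln14_13_6_ok) (L (nat_lit 367) ln14_14_6 ln14_14_6_ok))))))))))) (M (nat_lit 461) (B (M (nat_lit 493) (B (L (nat_lit 366) ln13_15_6 ln13_15_6_ok) (L (nat_lit 525) ln13_16_6 ln13_16_6_ok))) (M (nat_lit 462) (B (M (nat_lit 494) (B (L (nat_lit 526) ln14_16_7 ln14_16_7_ok) (M (nat_lit 399) (B (L (nat_lit 367) ln14_15_6 ln14_15_6_ok) (L (nat_lit 400) ln16_12_1 ln16_12_1_ok))))) (M (nat_lit 492) (B (L (nat_lit 524) ln12_16_6 ln12_16_6_ok) (M (nat_lit 463) (B (L (nat_lit 464) ln16_14_3 ln16_14_3_ok) (L (nat_lit 491) ln15_14_1 ln15_14_1_ok)))))))))))) (B (M (nat_lit 427) (B (M (nat_lit 398) (B (L (nat_lit 426) ln10_13_2 ln10_13_2_ok) (L (nat_lit 399) ln11_13_2 ln11_13_2_ok))) (B (M (nat_lit 426) (B (M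 (nat_lit 394) (B (L (nat_lit 393) ln13_13_3 ln13_13_3_ok) (L (nat_lit 395) ln14_13_3 ln14_13_3_ok))) (M (nat_lit 458) (B (L (nat_lit 457) ln13_13_1 ln13_13_1_ok) (L (nat_lit 459) ln14_13_1 ln14_13_1_ok))))) (M (nat_lit 395) (B (L (nat_lit 394) ln14_13_3 ln14_13_3_ok) (M (nat_lit 492) (B (L (nat_lit 524) ln12_16_7 ln12_16_7_ok) (M (nat_lit 363) (B (L (nat_lit 331) ln11_10_4 ln11_10_4_ok) (L (nat_lit 459) ln11_11_4 ln11_11_4_ok)))))))))) (M (nat_lit 459) (B (M (nat_lit 458) (B (L (nat_lit 427) ln14_13_1 ln14_13_1_ok) (L (nat_lit 457) ln9_14_2 ln9_14_2_ok))) (B (M (nat_lit 458) (B (L (nat_lit 457) ln9_14_2 ln9_14_2_ok) (L (nat_lit 461) ln10_14_2 ln10_14_2_ok))) (B (M (nat_lit 458) (B (L (nat_lit 427) ln14_13_1 ln14_13_1_ok) (L (nat_lit 461) ln10_14_2 ln10_14_2_ok))) (M (nat_lit 427) (B (M (nat_lit 398) (B (L (nat_lit 426) ln10_13_2 ln10_13_2_ok) (L (nat_lit 399) ln11_13_2 ln11_13_2_ok))) (B (M (nat_lit 462)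 (B (L (nat_lit 463) ln11_13_0 ln11_13_0_ok) (M (nat_lit 461) (B (L (nat_lit 426) ln10_13_0 ln10_13_0_ok) (M (nat_lit 494) (B (L (nat_lit 526) ln14_16_7 ln14_16_7_ok) (L (nat_lit 495) ln11_14_0 ln11_14_0_ok))))))) (M (nat_lit 461) (B (M (nat_lit 462) (B (L (nat_lit 463) ln11_13_0 ln11_13_0_ok) (M (nat_lit 494) (B (L (nat_lit 526) ln14_16_7 ln14_16_7_ok) (L (nat_lit 495) ln11_14_0 ln11_14_0_ok))))) (M (nat_lit 398) (B (L (nat_lit 399) ln11_13_2 ln11_13_2_ok) (M (nat_lit 366) (B (L (nat_lit 334) ln14_10_5 ln14_10_5_ok) (L (nat_lit 493) ln13_15_6 ln13_15_6_ok)))))))))))))))))))))))) (nat_lit 2977131418873810365194033841237751422634130465030286872267921942703270834138242275220097931035642323021798324805370310187350982510860304384) (nat_lit 823775719413866737852208743106254703799708475055707486008969599498791448095576520782576616552686007807384608321728419189021575954727362832522442921097165799424) (nat_lit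 823775719413866737852208743106254703799708475055707486008969599498791448095576520782576616552686007807384608321728419189021575954727362832522442921097165799424) (by decide +kernel)
theorem c33_s2230 : Sem (nat_lit 2977131418873810365194033841237751422634130465030286872267921942703270834138242275220097931035642323021798324805370310187350982510860304384) (nat_lit 2122853864785892730663501928921836220738059238140501098763215723676134274544640584023132587856718772327211339833970969482144639265141226846046917864005624024832799670272) (nat_lit 2122853864785892730663501928921836220738059238140501098763215723676134274544640584023132587856718772327211339833970969482144639265141226846046917864005624024832799670272) :=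
  sem_of_chk (M (nat_lit 462) (B (M (nat_lit 494) (B (L (nat_lit 526) ln14_16_7 ln14_16_7_ok) (M (nat_lit 398) (B (M (nat_lit 399) (B (L (nat_lit 367) ln14_15_6 ln14_15_6_ok) (M (nat_lit 400) (B (L (nat_lit 428) ln16_12_1 ln16_12_1_ok) (L (nat_lit 401) ln17_12_1 ln17_12_1_ok))))) (M (nat_lit 366) (B (M (nat_lit 334) (B (L (nat_lit 302) ln14_9_5 ln14_9_5_ok) (L (nat_lit 461) ln14_10_5 ln14_10_5_ok))) (M (nat_lit 495) (B (L (nat_lit 463) ln14_11_4 ln14_11_4_ok) (L (nat_lit 527) ln14_12_4 ln14_12_4_ok))))))))) (B (M (nat_lit 494) (B (L (nat_lit 526) ln14_16_7 ln14_16_7_ok) (M (nat_lit 398) (B (M (nat_lit 399) (B (L (nat_lit 367) ln14_15_6 ln14_15_6_ok) (M (nat_lit 400) (B (L (nat_lit 428) ln16_12_1 ln16_12_1_ok) (L (nat_lit 401) ln17_12_1 ln17_12_1_ok))))) (M (nat_lit 366) (B (M (nat_lit 461) (B (L (nat_lit 334) ln14_10_5 ln14_10_5_ok) (L (nat_lit 493) ln13_15_6 ln13_15_6_ok))) (M (nat_lit 495) (B (L (nat_lit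 463) ln14_11_4 ln14_11_4_ok) (L (nat_lit 527) ln14_12_4 ln14_12_4_ok))))))))) (B (M (nat_lit 494) (B (L (nat_lit 526) ln14_16_7 ln14_16_7_ok) (M (nat_lit 398) (B (M (nat_lit 399) (B (L (nat_lit 367) ln14_15_6 ln14_15_6_ok) (M (nat_lit 400) (B (L (nat_lit 428) ln16_12_1 ln16_12_1_ok) (L (nat_lit 401) ln17_12_1 ln17_12_1_ok))))) (M (nat_lit 366) (B (M (nat_lit 493) (B (L (nat_lit 461) ln13_15_6 ln13_15_6_ok) (L (nat_lit 525) ln14_12_5 ln14_12_5_ok))) (M (nat_lit 495) (B (L (nat_lit 463) ln14_11_4 ln14_11_4_ok) (L (nat_lit 527) ln14_12_4 ln14_12_4_ok))))))))) (B (M (nat_lit 431) (B (M (nat_lit 432) (B (L (nat_lit 461) ln16_13_1 ln16_13_1_ok) (M (nat_lit 465) (B (L (nat_lit 464) ln13_13_0 ln13_13_0_ok) (M (nat_lit 433) (B (L (nat_lit 398) ln17_13_3 ln17_13_3_ok) (L (nat_lit 466) ln14_13_0 ln14_13_0_ok))))))) (B (M (nat_lit 428) (B (M (nat_lit 463) (B (L (nat_lit 427) ln11_13_0 ln11_13_0_ok) (L (nat_lit 464)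 ln12_13_0 ln12_13_0_ok))) (M (nat_lit 432) (B (L (nat_lit 461) ln16_13_1 ln16_13_1_ok) (M (nat_lit 400) (B (L (nat_lit 399) ln12_13_2 ln12_13_2_ok) (L (nat_lit 401) ln13_13_2 ln13_13_2_ok))))))) (B (M (nat_lit 399) (B (M (nat_lit 367) (B (L (nat_lit 335) ln15_10_5 ln15_10_5_ok) (M (nat_lit 494) (B (L (nat_lit 398) ln14_15_6 ln14_15_6_ok) (L (nat_lit 463) ln15_11_5 ln15_11_5_ok))))) (B (M (nat_lit 428) (B (L (nat_lit 400) ln12_13_2 ln12_13_2_ok) (M (nat_lit 427) (B (L (nat_lit 398) ln11_13_2 ln11_13_2_ok) (L (nat_lit 463) ln11_13_0 ln11_13_0_ok))))) (B (M (nat_lit 428) (B (L (nat_lit 400) ln12_13_2 ln12_13_2_ok) (M (nat_lit 463) (B (L (nat_lit 427) ln11_13_0 ln11_13_0_ok) (L (nat_lit 464) ln12_13_0 ln12_13_0_ok))))) (M (nat_lit 494) (B (L (nat_lit 526) ln14_16_7 ln14_16_7_ok) (M (nat_lit 367) (B (L (nat_lit 335) ln15_10_5 ln15_10_5_ok) (L (nat_lit 398) ln14_15_6 ln14_15_6_ok))))))))) (M (nat_lit 428) (B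 (M (nat_lit 427) (B (L (nat_lit 463) ln11_13_0 ln11_13_0_ok) (M (nat_lit 399) (B (L (nat_lit 398) ln11_13_2 ln11_13_2_ok) (L (nat_lit 400) ln12_13_2 ln12_13_2_ok))))) (B (M (nat_lit 461) (B (L (nat_lit 432) ln16_13_1 ln16_13_1_ok) (M (nat_lit 427) (B (L (nat_lit 426) ln10_13_0 ln10_13_0_ok) (L (nat_lit 463) ln11_13_0 ln11_13_0_ok))))) (M (nat_lit 432) (B (L (nat_lit 461) ln16_13_1 ln16_13_1_ok) (M (nat_lit 400) (B (L (nat_lit 399) ln12_13_2 ln12_13_2_ok) (L (nat_lit 401) ln13_13_2 ln13_13_2_ok)))))))))))) (B (M (nat_lit 463) (B (M (nat_lit 428) (B (L (nat_lit 427) ln11_13_0 ln11_13_0_ok) (M (nat_lit 464) (B (L (nat_lit 461) ln16_14_3 ln16_14_3_ok) (L (nat_lit 465) ln17_14_3 ln17_14_3_ok))))) (B (M (nat_lit 464) (B (L (nat_lit 465) ln17_14_3 ln17_14_3_ok) (M (nat_lit 428) (B (L (nat_lit 431) ln12_13_0 ln12_13_0_ok) (L (nat_lit 461) ln16_14_3 ln16_14_3_ok))))) (B (M (nat_lit 461) (B (M (nat_lit 464) (B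 (L (nat_lit 465) ln17_14_3 ln17_14_3_ok) (M (nat_lit 432) (B (L (nat_lit 431) ln16_13_1 ln16_13_1_ok) (L (nat_lit 433) ln13_14_2 ln13_14_2_ok))))) (B (M (nat_lit 464) (B (L (nat_lit 465) ln17_14_3 ln17_14_3_ok) (M (nat_lit 492) (B (L (nat_lit 491) ln15_14_1 ln15_14_1_ok) (L (nat_lit 493) ln16_14_1 ln16_14_1_ok))))) (M (nat_lit 492) (B (L (nat_lit 491) ln15_14_1 ln15_14_1_ok) (M (nat_lit 524) (B (L (nat_lit 493) ln13_12_5 ln13_12_5_ok) (L (nat_lit 556) ln12_17_6 ln12_17_6_ok)))))))) (B (M (nat_lit 464) (B (L (nat_lit 465) ln17_14_3 ln17_14_3_ok) (M (nat_lit 428) (B (L (nat_lit 427) ln11_13_0 ln11_13_0_ok) (L (nat_lit 431) ln12_13_0 ln12_13_0_ok))))) (M (nat_lit 494) (B (L (nat_lit 526) ln14_16_7 ln14_16_7_ok) (M (nat_lit 492) (B (M (nat_lit 428) (B (L (nat_lit 524) ln12_16_6 ln12_16_6_ok) (L (nat_lit 427) ln11_13_0 ln11_13_0_ok))) (M (nat_lit 491) (B (L (nat_lit 461) ln15_14_1 ln15_14_1_ok) (L (nat_lit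 493) ln11_15_2 ln11_15_2_ok)))))))))))) (B (M (nat_lit 398) (B (M (nat_lit 494) (B (L (nat_lit 526) ln14_16_7 ln14_16_7_ok) (M (nat_lit 493) (B (L (nat_lit 525) ln14_12_5 ln14_12_5_ok) (M (nat_lit 461) (B (L (nat_lit 366) ln13_15_6 ln13_15_6_ok) (M (nat_lit 495) (B (L (nat_lit 527) ln14_12_4 ln14_12_4_ok) (L (nat_lit 496) ln16_15_3 ln16_15_3_ok))))))))) (B (M (nat_lit 461) (B (M (nat_lit 493) (B (L (nat_lit 525) ln13_16_6 ln13_16_6_ok) (M (nat_lit 494) (B (L (nat_lit 526) ln14_16_7 ln14_16_7_ok) (M (nat_lit 495) (B (L (nat_lit 527) ln14_12_4 ln14_12_4_ok) (L (nat_lit 496) ln16_15_3 ln16_15_3_ok))))))) (B (M (nat_lit 494) (B (L (nat_lit 526) ln14_16_7 ln14_16_7_ok) (M (nat_lit 495) (B (L (nat_lit 527) ln14_12_4 ln14_12_4_ok) (M (nat_lit 496) (B (L (nat_lit 463) ln12_14_0 ln12_14_0_ok) (L (nat_lit 497) ln17_15_3 ln17_15_3_ok))))))) (M (nat_lit 493) (B (L (nat_lit 525) ln13_16_6 ln13_16_6_ok) (M (nat_lit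 492) (B (L (nat_lit 524) ln13_12_5 ln13_12_5_ok) (M (nat_lit 463) (B (L (nat_lit 491) ln15_14_1 ln15_14_1_ok) (L (nat_lit 464) ln16_14_1 ln16_14_1_ok)))))))))) (B (M (nat_lit 494) (B (L (nat_lit 526) ln14_16_7 ln14_16_7_ok) (M (nat_lit 366) (B (M (nat_lit 367) (B (L (nat_lit 335) ln14_14_6 ln14_14_6_ok) (L (nat_lit 399) ln14_15_6 ln14_15_6_ok))) (M (nat_lit 495) (B (L (nat_lit 463) ln14_11_4 ln14_11_4_ok) (L (nat_lit 527) ln14_12_4 ln14_12_4_ok))))))) (B (M (nat_lit 461) (B (M (nat_lit 366) (B (L (nat_lit 334) ln14_10_5 ln14_10_5_ok) (L (nat_lit 493) ln13_15_6 ln13_15_6_ok))) (B (M (nat_lit 493) (B (L (nat_lit 366) ln13_15_6 ln13_15_6_ok) (L (nat_lit 525) ln13_16_6 ln13_16_6_ok))) (B (M (nat_lit 493) (B (L (nat_lit 525) ln13_16_6 ln13_16_6_ok) (M (nat_lit 492) (B (L (nat_lit 524) ln13_12_5 ln13_12_5_ok) (M (nat_lit 463) (B (L (nat_lit 491) ln15_14_1 ln15_14_1_ok) (L (nat_lit 464) ln16_14_1 ln16_14_1_ok)))))))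 (M (nat_lit 432) (B (L (nat_lit 431) ln16_13_1 ln16_13_1_ok) (M (nat_lit 463) (B (M (nat_lit 366) (B (L (nat_lit 334) ln14_10_5 ln14_10_5_ok) (L (nat_lit 495) ln14_11_4 ln14_11_4_ok))) (M (nat_lit 464) (B (L (nat_lit 465) ln17_14_3 ln17_14_3_ok) (L (nat_lit 433) ln13_14_2 ln13_14_2_ok))))))))))) (M (nat_lit 494) (B (L (nat_lit 526) ln14_16_7 ln14_16_7_ok) (M (nat_lit 366) (B (M (nat_lit 367) (B (L (nat_lit 335) ln14_14_6 ln14_14_6_ok) (L (nat_lit 399) ln14_15_6 ln14_15_6_ok))) (M (nat_lit 493) (B (L (nat_lit 461) ln13_15_6 ln13_15_6_ok) (L (nat_lit 525) ln14_12_5 ln14_12_5_ok)))))))))))) (B (M (nat_lit 494) (B (L (nat_lit 526) ln14_16_7 ln14_16_7_ok) (M (nat_lit 398) (B (M (nat_lit 399) (B (L (nat_lit 367) ln14_15_6 ln14_15_6_ok) (M (nat_lit 400) (B (L (nat_lit 428) ln16_12_1 ln16_12_1_ok) (L (nat_lit 401) ln17_12_1 ln17_12_1_ok))))) (B (M (nat_lit 463) (B (M (nat_lit 495) (B (L (nat_lit 366) ln14_11_4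 ln14_11_4_ok) (L (nat_lit 527) ln14_12_4 ln14_12_4_ok))) (M (nat_lit 492) (B (M (nat_lit 428) (B (L (nat_lit 524) ln12_16_6 ln12_16_6_ok) (L (nat_lit 427) ln11_13_0 ln11_13_0_ok))) (M (nat_lit 493) (B (L (nat_lit 525) ln14_12_5 ln14_12_5_ok) (L (nat_lit 491) ln11_15_2 ln11_15_2_ok))))))) (M (nat_lit 366) (B (M (nat_lit 367) (B (L (nat_lit 335) ln14_14_6 ln14_14_6_ok) (L (nat_lit 399) ln14_15_6 ln14_15_6_ok))) (M (nat_lit 495) (B (L (nat_lit 463) ln14_11_4 ln14_11_4_ok) (L (nat_lit 527) ln14_12_4 ln14_12_4_ok)))))))))) (B (M (nat_lit 494) (B (L (nat_lit 526) ln14_16_7 ln14_16_7_ok) (M (nat_lit 398) (B (M (nat_lit 399) (B (L (nat_lit 367) ln14_15_6 ln14_15_6_ok) (M (nat_lit 400) (B (L (nat_lit 428) ln16_12_1 ln16_12_1_ok) (L (nat_lit 401) ln17_12_1 ln17_12_1_ok))))) (M (nat_lit 493) (B (L (nat_lit 525) ln14_12_5 ln14_12_5_ok) (M (nat_lit 461) (B (L (nat_lit 366) ln13_15_6 ln13_15_6_ok) (M (nat_lit 495)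 (B (L (nat_lit 527) ln14_12_4 ln14_12_4_ok) (L (nat_lit 496) ln16_15_3 ln16_15_3_ok))))))))))) (M (nat_lit 428) (B (M (nat_lit 427) (B (L (nat_lit 463) ln11_13_0 ln11_13_0_ok) (M (nat_lit 398) (B (L (nat_lit 426) ln10_13_2 ln10_13_2_ok) (L (nat_lit 399) ln11_13_2 ln11_13_2_ok))))) (B (M (nat_lit 463) (B (L (nat_lit 427) ln11_13_0 ln11_13_0_ok) (M (nat_lit 464) (B (L (nat_lit 431) ln12_13_0 ln12_13_0_ok) (L (nat_lit 465) ln17_14_3 ln17_14_3_ok))))) (B (M (nat_lit 463) (B (M (nat_lit 464) (B (L (nat_lit 431) ln12_13_0 ln12_13_0_ok) (L (nat_lit 461) ln16_14_3 ln16_14_3_ok))) (B (M (nat_lit 464) (B (L (nat_lit 461) ln16_14_3 ln16_14_3_ok) (L (nat_lit 465) ln17_14_3 ln17_14_3_ok))) (B (M (nat_lit 464) (B (L (nat_lit 431) ln12_13_0 ln12_13_0_ok) (L (nat_lit 465) ln17_14_3 ln17_14_3_ok))) (M (nat_lit 495) (B (M (nat_lit 461) (B (L (nat_lit 496) ln12_14_0 ln12_14_0_ok) (M (nat_lit 492) (B (L (nat_lit 524) ln12_16_6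 ln12_16_6_ok) (L (nat_lit 491) ln15_14_1 ln15_14_1_ok))))) (M (nat_lit 398) (B (L (nat_lit 366) ln14_11_4 ln14_11_4_ok) (M (nat_lit 527) (B (L (nat_lit 431) ln15_16_7 ln15_16_7_ok) (L (nat_lit 559) ln15_17_7 ln15_17_7_ok))))))))))) (M (nat_lit 431) (B (M (nat_lit 432) (B (L (nat_lit 461) ln16_13_1 ln16_13_1_ok) (M (nat_lit 400) (B (L (nat_lit 399) ln12_13_2 ln12_13_2_ok) (L (nat_lit 401) ln13_13_2 ln13_13_2_ok))))) (B (M (nat_lit 432) (B (L (nat_lit 461) ln16_13_1 ln16_13_1_ok) (M (nat_lit 433) (B (L (nat_lit 398) ln17_13_3 ln17_13_3_ok) (M (nat_lit 465) (B (L (nat_lit 464) ln13_13_0 ln13_13_0_ok) (L (nat_lit 466) ln14_13_0 ln14_13_0_ok))))))) (B (M (nat_lit 427) (B (M (nat_lit 398) (B (L (nat_lit 426) ln10_13_2 ln10_13_2_ok) (L (nat_lit 399) ln11_13_2 ln11_13_2_ok))) (B (M (nat_lit 426) (B (L (nat_lit 461) ln10_13_0 ln10_13_0_ok) (M (nat_lit 394) (B (L (nat_lit 393) ln13_13_3 ln13_13_3_ok) (L (nat_lit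 395) ln14_13_3 ln14_13_3_ok))))) (M (nat_lit 399) (B (L (nat_lit 398) ln11_13_2 ln11_13_2_ok) (L (nat_lit 400) ln12_13_2 ln12_13_2_ok)))))) (M (nat_lit 432) (B (M (nat_lit 400) (B (L (nat_lit 399) ln12_13_2 ln12_13_2_ok) (L (nat_lit 401) ln13_13_2 ln13_13_2_ok))) (M (nat_lit 433) (B (L (nat_lit 398) ln17_13_3 ln17_13_3_ok) (M (nat_lit 465) (B (L (nat_lit 464) ln13_13_0 ln13_13_0_ok) (L (nat_lit 466) ln14_13_0 ln14_13_0_ok)))))))))))))))))))))))) (nat_lit 2977131418873810365194033841237751422634130465030286872267921942703270834138242275220097931035642323021798324805370310187350982510860304384) (nat_lit 2122853864785892730663501928921836220738059238140501098763215723676134274544640584023132587856718772327211339833970969482144639265141226846046917864005624024832799670272) (nat_lit 2122853864785892730663501928921836220738059238140501098763215723676134274544640584023132587856718772327211339833970969482144639265141226846046917864005624024832799670272)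 (by decide +kernel)
theorem c33_s2281 : Sem (nat_lit 4159004541504003524128484849921615451655032097354938086859372310025764381276019387312066758484915036306104045371593254240054673408) (nat_lit 3066344470991278068727087244690009140914814559727338214998952526400131776418525154630716230130755602208921771015459950254831089087016227449109282794720566850034318966784) (nat_lit 3066344470991278068727087244690009140914814559727338214998952526400131776418525154630716230130755602208921771015459950254831089087016227449109282794720566850034318966784) :=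
  sem_of_chk (M (nat_lit 460) (B (M (nat_lit 459) (B (M (nat_lit 458) (B (L (nat_lit 461) ln10_14_2 ln10_14_2_ok) (M (nat_lit 428) (B (L (nat_lit 431) ln15_13_1 ln15_13_1_ok) (L (nat_lit 457) ln9_14_2 ln9_14_2_ok))))) (B (M (nat_lit 461) (B (L (nat_lit 458) ln10_14_2 ln10_14_2_ok) (M (nat_lit 431) (B (L (nat_lit 432) ln16_13_1 ln16_13_1_ok) (L (nat_lit 462) ln11_14_2 ln11_14_2_ok))))) (B (M (nat_lit 458) (B (L (nat_lit 461) ln10_14_2 ln10_14_2_ok) (M (nat_lit 428) (B (L (nat_lit 427) ln14_13_1 ln14_13_1_ok) (L (nat_lit 457) ln9_14_2 ln9_14_2_ok))))) (B (M (nat_lit 431) (B (L (nat_lit 428) ln15_13_1 ln15_13_1_ok) (M (nat_lit 461) (B (L (nat_lit 432) ln16_13_1 ln16_13_1_ok) (L (nat_lit 462) ln11_14_2 ln11_14_2_ok))))) (M (nat_lit 428) (B (L (nat_lit 431) ln15_13_1 ln15_13_1_ok) (M (nat_lit 458) (B (L (nat_lit 427) ln14_13_1 ln14_13_1_ok) (L (nat_lit 457) ln9_14_2 ln9_14_2_ok)))))))))) (B (M (nat_lit 431)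 (B (M (nat_lit 459) (B (L (nat_lit 428) ln15_13_1 ln15_13_1_ok) (M (nat_lit 461) (B (L (nat_lit 458) ln10_14_2 ln10_14_2_ok) (L (nat_lit 462) ln11_14_2 ln11_14_2_ok))))) (B (M (nat_lit 461) (B (L (nat_lit 432) ln16_13_1 ln16_13_1_ok) (M (nat_lit 459) (B (L (nat_lit 458) ln10_14_2 ln10_14_2_ok) (L (nat_lit 462) ln11_14_2 ln11_14_2_ok))))) (B (M (nat_lit 461) (B (L (nat_lit 432) ln16_13_1 ln16_13_1_ok) (M (nat_lit 459) (B (L (nat_lit 428) ln15_13_1 ln15_13_1_ok) (L (nat_lit 462) ln11_14_2 ln11_14_2_ok))))) (B (M (nat_lit 432) (B (L (nat_lit 461) ln16_13_1 ln16_13_1_ok) (M (nat_lit 433) (B (L (nat_lit 398) ln17_13_3 ln17_13_3_ok) (M (nat_lit 465) (B (L (nat_lit 464) ln13_13_0 ln13_13_0_ok) (L (nat_lit 466) ln14_13_0 ln14_13_0_ok))))))) (M (nat_lit 432) (B (M (nat_lit 433) (B (L (nat_lit 398) ln17_13_3 ln17_13_3_ok) (M (nat_lit 465) (B (L (nat_lit 464) ln13_13_0 ln13_13_0_ok) (L (nat_lit 466) ln14_13_0 ln14_13_0_ok)))))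 (M (nat_lit 428) (B (L (nat_lit 459) ln15_13_1 ln15_13_1_ok) (M (nat_lit 400) (B (L (nat_lit 399) ln12_13_2 ln12_13_2_ok) (L (nat_lit 401) ln13_13_2 ln13_13_2_ok)))))))))))) (B (M (nat_lit 461) (B (M (nat_lit 431) (B (L (nat_lit 432) ln16_13_1 ln16_13_1_ok) (M (nat_lit 459) (B (L (nat_lit 458) ln10_14_2 ln10_14_2_ok) (L (nat_lit 462) ln11_14_2 ln11_14_2_ok))))) (B (M (nat_lit 459) (B (L (nat_lit 458) ln10_14_2 ln10_14_2_ok) (M (nat_lit 462) (B (M (nat_lit 494) (B (L (nat_lit 526) ln14_16_7 ln14_16_7_ok) (L (nat_lit 495) ln11_14_0 ln11_14_0_ok))) (M (nat_lit 492) (B (M (nat_lit 524) (B (L (nat_lit 493) ln13_12_5 ln13_12_5_ok) (L (nat_lit 556) ln12_17_6 ln12_17_6_ok))) (M (nat_lit 491) (B (L (nat_lit 490) ln14_14_1 ln14_14_1_ok) (L (nat_lit 463) ln15_14_1 ln15_14_1_ok))))))))) (B (M (nat_lit 398) (B (M (nat_lit 493) (B (L (nat_lit 366) ln13_15_6 ln13_15_6_ok) (L (nat_lit 525) ln13_16_6 ln13_16_6_ok))) (B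 (M (nat_lit 494) (B (M (nat_lit 493) (B (L (nat_lit 526) ln13_12_4 ln13_12_4_ok) (L (nat_lit 525) ln13_16_6 ln13_16_6_ok))) (B (M (nat_lit 462) (B (L (nat_lit 526) ln14_16_7 ln14_16_7_ok) (M (nat_lit 495) (B (L (nat_lit 527) ln14_12_4 ln14_12_4_ok) (L (nat_lit 459) ln11_14_0 ln11_14_0_ok))))) (M (nat_lit 495) (B (M (nat_lit 462) (B (L (nat_lit 527) ln14_12_4 ln14_12_4_ok) (L (nat_lit 459) ln11_14_0 ln11_14_0_ok))) (M (nat_lit 493) (B (L (nat_lit 525) ln13_16_6 ln13_16_6_ok) (L (nat_lit 496) ln16_15_3 ln16_15_3_ok)))))))) (M (nat_lit 462) (B (M (nat_lit 431) (B (L (nat_lit 432) ln16_13_1 ln16_13_1_ok) (L (nat_lit 459) ln11_14_2 ln11_14_2_ok))) (B (M (nat_lit 494) (B (L (nat_lit 526) ln14_16_7 ln14_16_7_ok) (M (nat_lit 495) (B (L (nat_lit 527) ln14_12_4 ln14_12_4_ok) (L (nat_lit 459) ln11_14_0 ln11_14_0_ok))))) (M (nat_lit 495) (B (M (nat_lit 494) (B (L (nat_lit 526) ln14_16_7 ln14_16_7_ok) (L (nat_lit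 527) ln14_12_4 ln14_12_4_ok))) (M (nat_lit 463) (B (L (nat_lit 366) ln14_11_4 ln14_11_4_ok) (L (nat_lit 496) ln12_14_0 ln12_14_0_ok))))))))))) (B (M (nat_lit 431) (B (L (nat_lit 432) ln16_13_1 ln16_13_1_ok) (M (nat_lit 493) (B (M (nat_lit 398) (B (L (nat_lit 366) ln13_15_6 ln13_15_6_ok) (L (nat_lit 525) ln13_16_6 ln13_16_6_ok))) (B (M (nat_lit 524) (B (L (nat_lit 492) ln13_12_5 ln13_12_5_ok) (M (nat_lit 525) (B (L (nat_lit 398) ln13_16_6 ln13_16_6_ok) (L (nat_lit 556) ln13_13_5 ln13_13_5_ok))))) (B (M (nat_lit 525) (B (M (nat_lit 524) (B (L (nat_lit 492) ln13_12_5 ln13_12_5_ok) (L (nat_lit 556) ln13_13_5 ln13_13_5_ok))) (M (nat_lit 526) (B (L (nat_lit 494) ln13_12_4 ln13_12_4_ok) (L (nat_lit 558) ln13_13_4 ln13_13_4_ok))))) (M (nat_lit 463) (B (M (nat_lit 492) (B (L (nat_lit 524) ln13_12_5 ln13_12_5_ok) (M (nat_lit 462) (B (L (nat_lit 491) ln15_14_1 ln15_14_1_ok) (L (nat_lit 464) ln16_14_1 ln16_14_1_ok)))))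 (M (nat_lit 495) (B (M (nat_lit 398) (B (L (nat_lit 366) ln13_15_6 ln13_15_6_ok) (L (nat_lit 527) ln15_16_7 ln15_16_7_ok))) (M (nat_lit 494) (B (L (nat_lit 526) ln13_12_4 ln13_12_4_ok) (L (nat_lit 496) ln16_15_3 ln16_15_3_ok))))))))))))) (M (nat_lit 459) (B (L (nat_lit 458) ln10_14_2 ln10_14_2_ok) (M (nat_lit 493) (B (M (nat_lit 398) (B (L (nat_lit 366) ln13_15_6 ln13_15_6_ok) (L (nat_lit 525) ln13_16_6 ln13_16_6_ok))) (M (nat_lit 492) (B (L (nat_lit 524) ln13_12_5 ln13_12_5_ok) (M (nat_lit 494) (B (L (nat_lit 526) ln13_12_4 ln13_12_4_ok) (L (nat_lit 495) ln15_15_3 ln15_15_3_ok)))))))))))))) (B (K (nat_lit 2977131418873810365194033841237751422634130465030286872267921942703270834138242275220097931035642323021798324805370310187350982510860304384) (nat_lit 823775719413866737852208743106254703799708475055707486008969599498791448095576520782576616552686007807384608321728419189021575954727362832522442921097165799424)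 (nat_lit 823775719413866737852208743106254703799708475055707486008969599498791448095576520782576616552686007807384608321728419189021575954727362832522442921097165799424) c33_s1990) (B (M (nat_lit 431) (B (M (nat_lit 461) (B (L (nat_lit 432) ln16_13_1 ln16_13_1_ok) (M (nat_lit 459) (B (L (nat_lit 428) ln15_13_1 ln15_13_1_ok) (L (nat_lit 462) ln11_14_2 ln11_14_2_ok))))) (B (M (nat_lit 432) (B (L (nat_lit 461) ln16_13_1 ln16_13_1_ok) (M (nat_lit 433) (B (L (nat_lit 398) ln17_13_3 ln17_13_3_ok) (M (nat_lit 465) (B (L (nat_lit 464) ln13_13_0 ln13_13_0_ok) (L (nat_lit 466) ln14_13_0 ln14_13_0_ok))))))) (M (nat_lit 428) (B (L (nat_lit 459) ln15_13_1 ln15_13_1_ok) (M (nat_lit 427) (B (M (nat_lit 398) (B (L (nat_lit 426) ln10_13_2 ln10_13_2_ok) (L (nat_lit 399) ln11_13_2 ln11_13_2_ok))) (M (nat_lit 463) (B (L (nat_lit 462) ln11_13_0 ln11_13_0_ok) (L (nat_lit 464) ln12_13_0 ln12_13_0_ok)))))))))) (B (K (nat_lit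 2977131418873810365194033841237751422634130465030286872267921942703270834138242275220097931035642323021798324805370310187350982510860304384) (nat_lit 2122853864785892730663501928921836220738059238140501098763215723676134274544640584023132587856718772327211339833970969482144639265141226846046917864005624024832799670272) (nat_lit 2122853864785892730663501928921836220738059238140501098763215723676134274544640584023132587856718772327211339833970969482144639265141226846046917864005624024832799670272) c33_s2230) (B (M (nat_lit 428) (B (M (nat_lit 459) (B (L (nat_lit 431) ln15_13_1 ln15_13_1_ok) (M (nat_lit 458) (B (L (nat_lit 427) ln14_13_1 ln14_13_1_ok) (L (nat_lit 457) ln9_14_2 ln9_14_2_ok))))) (B (M (nat_lit 431) (B (L (nat_lit 459) ln15_13_1 ln15_13_1_ok) (M (nat_lit 432) (B (M (nat_lit 400) (B (L (nat_lit 399) ln12_13_2 ln12_13_2_ok) (L (nat_lit 401) ln13_13_2 ln13_13_2_ok))) (M (nat_lit 464) (B (L (nat_lit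 463) ln12_13_0 ln12_13_0_ok) (L (nat_lit 465) ln13_13_0 ln13_13_0_ok))))))) (B (M (nat_lit 427) (B (M (nat_lit 398) (B (L (nat_lit 426) ln10_13_2 ln10_13_2_ok) (L (nat_lit 399) ln11_13_2 ln11_13_2_ok))) (B (M (nat_lit 426) (B (M (nat_lit 394) (B (L (nat_lit 393) ln13_13_3 ln13_13_3_ok) (L (nat_lit 395) ln14_13_3 ln14_13_3_ok))) (M (nat_lit 458) (B (L (nat_lit 457) ln13_13_1 ln13_13_1_ok) (L (nat_lit 459) ln14_13_1 ln14_13_1_ok))))) (M (nat_lit 395) (B (L (nat_lit 394) ln14_13_3 ln14_13_3_ok) (M (nat_lit 492) (B (L (nat_lit 524) ln12_16_7 ln12_16_7_ok) (M (nat_lit 363) (B (L (nat_lit 331) ln11_10_4 ln11_10_4_ok) (L (nat_lit 459) ln11_11_4 ln11_11_4_ok)))))))))) (M (nat_lit 431) (B (M (nat_lit 399) (B (L (nat_lit 400) ln12_13_2 ln12_13_2_ok) (M (nat_lit 427) (B (L (nat_lit 398) ln11_13_2 ln11_13_2_ok) (M (nat_lit 463) (B (L (nat_lit 462) ln11_13_0 ln11_13_0_ok) (L (nat_lit 464) ln12_13_0 ln12_13_0_ok)))))))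 (B (M (nat_lit 432) (B (M (nat_lit 400) (B (L (nat_lit 399) ln12_13_2 ln12_13_2_ok) (L (nat_lit 401) ln13_13_2 ln13_13_2_ok))) (M (nat_lit 464) (B (L (nat_lit 463) ln12_13_0 ln12_13_0_ok) (L (nat_lit 465) ln13_13_0 ln13_13_0_ok))))) (B (M (nat_lit 427) (B (M (nat_lit 463) (B (L (nat_lit 462) ln11_13_0 ln11_13_0_ok) (L (nat_lit 464) ln12_13_0 ln12_13_0_ok))) (M (nat_lit 426) (B (L (nat_lit 398) ln10_13_2 ln10_13_2_ok) (M (nat_lit 394) (B (L (nat_lit 393) ln13_13_3 ln13_13_3_ok) (L (nat_lit 395) ln14_13_3 ln14_13_3_ok))))))) (B (M (nat_lit 432) (B (M (nat_lit 400) (B (L (nat_lit 399) ln12_13_2 ln12_13_2_ok) (L (nat_lit 401) ln13_13_2 ln13_13_2_ok))) (M (nat_lit 433) (B (L (nat_lit 398) ln17_13_3 ln17_13_3_ok) (M (nat_lit 465) (B (L (nat_lit 464) ln13_13_0 ln13_13_0_ok) (L (nat_lit 466) ln14_13_0 ln14_13_0_ok))))))) (M (nat_lit 399) (B (L (nat_lit 400) ln12_13_2 ln12_13_2_ok) (M (nat_lit 462) (B (M (nat_lit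 427) (B (L (nat_lit 398) ln11_13_2 ln11_13_2_ok) (L (nat_lit 463) ln11_13_0 ln11_13_0_ok))) (B (M (nat_lit 463) (B (L (nat_lit 427) ln11_13_0 ln11_13_0_ok) (M (nat_lit 367) (B (L (nat_lit 335) ln15_10_5 ln15_10_5_ok) (L (nat_lit 494) ln15_11_5 ln15_11_5_ok))))) (B (M (nat_lit 494) (B (L (nat_lit 526) ln14_16_7 ln14_16_7_ok) (M (nat_lit 367) (B (L (nat_lit 335) ln15_10_5 ln15_10_5_ok) (L (nat_lit 463) ln15_11_5 ln15_11_5_ok))))) (M (nat_lit 398) (B (L (nat_lit 427) ln11_13_2 ln11_13_2_ok) (M (nat_lit 367) (B (L (nat_lit 335) ln15_10_5 ln15_10_5_ok) (L (nat_lit 494) ln14_15_6 ln14_15_6_ok)))))))))))))))))))) (M (nat_lit 459) (B (M (nat_lit 428) (B (L (nat_lit 431) ln15_13_1 ln15_13_1_ok) (M (nat_lit 458) (B (L (nat_lit 427) ln14_13_1 ln14_13_1_ok) (L (nat_lit 457) ln9_14_2 ln9_14_2_ok))))) (B (M (nat_lit 458) (B (L (nat_lit 461) ln10_14_2 ln10_14_2_ok) (M (nat_lit 428) (B (L (nat_lit 431) ln15_13_1 ln15_13_1_ok)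 (L (nat_lit 457) ln9_14_2 ln9_14_2_ok))))) (B (M (nat_lit 461) (B (L (nat_lit 458) ln10_14_2 ln10_14_2_ok) (M (nat_lit 493) (B (M (nat_lit 398) (B (L (nat_lit 366) ln13_15_6 ln13_15_6_ok) (L (nat_lit 525) ln13_16_6 ln13_16_6_ok))) (M (nat_lit 492) (B (L (nat_lit 524) ln13_12_5 ln13_12_5_ok) (M (nat_lit 494) (B (L (nat_lit 526) ln13_12_4 ln13_12_4_ok) (L (nat_lit 495) ln15_15_3 ln15_15_3_ok))))))))) (M (nat_lit 428) (B (L (nat_lit 431) ln15_13_1 ln15_13_1_ok) (M (nat_lit 427) (B (M (nat_lit 398) (B (L (nat_lit 426) ln10_13_2 ln10_13_2_ok) (L (nat_lit 399) ln11_13_2 ln11_13_2_ok))) (M (nat_lit 395) (B (L (nat_lit 394) ln14_13_3 ln14_13_3_ok) (M (nat_lit 363) (B (L (nat_lit 331) ln11_10_4 ln11_10_4_ok) (L (nat_lit 492) ln11_11_4 ln11_11_4_ok))))))))))))))))))))) (nat_lit 4159004541504003524128484849921615451655032097354938086859372310025764381276019387312066758484915036306104045371593254240054673408) (nat_lit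 3066344470991278068727087244690009140914814559727338214998952526400131776418525154630716230130755602208921771015459950254831089087016227449109282794720566850034318966784) (nat_lit 3066344470991278068727087244690009140914814559727338214998952526400131776418525154630716230130755602208921771015459950254831089087016227449109282794720566850034318966784) (by decide +kernel)
noncomputable def c33_n2324 : Cert := (M (nat_lit 431) (B (M (nat_lit 396) (B (L (nat_lit 432) ln16_13_3 ln16_13_3_ok) (M (nat_lit 395) (B (L (nat_lit 394) ln10_12_0 ln10_12_0_ok) (L (nat_lit 428) ln15_13_3 ln15_13_3_ok))))) (B (M (nat_lit 428) (B (M (nat_lit 396) (B (L (nat_lit 395) ln15_13_3 ln15_13_3_ok) (L (nat_lit 432) ln16_13_3 ln16_13_3_ok))) (M (nat_lit 427) (B (M (nat_lit 459) (B (L (nat_lit 458) ln14_13_1 ln14_13_1_ok) (L (nat_lit 460) ln15_13_1 ln15_13_1_ok))) (M (nat_lit 463) (B (L (nat_lit 462) ln11_13_0 ln11_13_0_ok) (L (nat_lit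 464) ln12_13_0 ln12_13_0_ok))))))) (B (M (nat_lit 428) (B (M (nat_lit 460) (B (L (nat_lit 459) ln15_13_1 ln15_13_1_ok) (M (nat_lit 432) (B (L (nat_lit 396) ln16_13_3 ln16_13_3_ok) (L (nat_lit 461) ln16_13_1 ln16_13_1_ok))))) (B (M (nat_lit 427) (B (M (nat_lit 459) (B (L (nat_lit 458) ln14_13_1 ln14_13_1_ok) (L (nat_lit 460) ln15_13_1 ln15_13_1_ok))) (M (nat_lit 463) (B (L (nat_lit 462) ln11_13_0 ln11_13_0_ok) (L (nat_lit 464) ln12_13_0 ln12_13_0_ok))))) (M (nat_lit 432) (B (L (nat_lit 396) ln16_13_3 ln16_13_3_ok) (M (nat_lit 400) (B (L (nat_lit 399) ln12_13_2 ln12_13_2_ok) (L (nat_lit 401) ln13_13_2 ln13_13_2_ok)))))))) (B (M (nat_lit 428) (B (M (nat_lit 432) (B (M (nat_lit 400) (B (L (nat_lit 399) ln12_13_2 ln12_13_2_ok) (L (nat_lit 401) ln13_13_2 ln13_13_2_ok))) (M (nat_lit 460) (B (L (nat_lit 459) ln15_13_1 ln15_13_1_ok) (L (nat_lit 461) ln16_13_1 ln16_13_1_ok))))) (B (M (nat_lit 427) (B (M (nat_lit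 459) (B (L (nat_lit 458) ln14_13_1 ln14_13_1_ok) (L (nat_lit 460) ln15_13_1 ln15_13_1_ok))) (M (nat_lit 463) (B (L (nat_lit 462) ln11_13_0 ln11_13_0_ok) (L (nat_lit 464) ln12_13_0 ln12_13_0_ok))))) (B (M (nat_lit 462) (B (M (nat_lit 463) (B (L (nat_lit 427) ln11_13_0 ln11_13_0_ok) (L (nat_lit 464) ln12_13_0 ln12_13_0_ok))) (M (nat_lit 432) (B (M (nat_lit 400) (B (L (nat_lit 399) ln12_13_2 ln12_13_2_ok) (L (nat_lit 401) ln13_13_2 ln13_13_2_ok))) (M (nat_lit 461) (B (L (nat_lit 460) ln16_13_1 ln16_13_1_ok) (L (nat_lit 433) ln17_13_1 ln17_13_1_ok))))))) (M (nat_lit 427) (B (M (nat_lit 463) (B (L (nat_lit 462) ln11_13_0 ln11_13_0_ok) (L (nat_lit 464) ln12_13_0 ln12_13_0_ok))) (M (nat_lit 426) (B (M (nat_lit 394) (B (L (nat_lit 393) ln13_13_3 ln13_13_3_ok) (L (nat_lit 395) ln14_13_3 ln14_13_3_ok))) (M (nat_lit 458) (B (L (nat_lit 457) ln13_13_1 ln13_13_1_ok) (L (nat_lit 459) ln14_13_1 ln14_13_1_ok)))))))))))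 (B (M (nat_lit 432) (B (L (nat_lit 396) ln16_13_3 ln16_13_3_ok) (M (nat_lit 433) (B (M (nat_lit 461) (B (L (nat_lit 460) ln16_13_1 ln16_13_1_ok) (L (nat_lit 462) ln17_13_1 ln17_13_1_ok))) (M (nat_lit 465) (B (L (nat_lit 464) ln13_13_0 ln13_13_0_ok) (L (nat_lit 466) ln14_13_0 ln14_13_0_ok))))))) (M (nat_lit 428) (B (M (nat_lit 427) (B (M (nat_lit 395) (B (L (nat_lit 394) ln14_13_3 ln14_13_3_ok) (L (nat_lit 396) ln15_13_3 ln15_13_3_ok))) (M (nat_lit 459) (B (L (nat_lit 458) ln14_13_1 ln14_13_1_ok) (L (nat_lit 460) ln15_13_1 ln15_13_1_ok))))) (B (M (nat_lit 427) (B (M (nat_lit 459) (B (L (nat_lit 458) ln14_13_1 ln14_13_1_ok) (L (nat_lit 460) ln15_13_1 ln15_13_1_ok))) (M (nat_lit 463) (B (L (nat_lit 462) ln11_13_0 ln11_13_0_ok) (L (nat_lit 464) ln12_13_0 ln12_13_0_ok))))) (B (M (nat_lit 396) (B (L (nat_lit 395) ln15_13_3 ln15_13_3_ok) (M (nat_lit 460) (B (L (nat_lit 459) ln15_13_1 ln15_13_1_ok) (M (nat_lit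 364) (B (M (nat_lit 332) (B (L (nat_lit 300) ln12_9_4 ln12_9_4_ok) (L (nat_lit 461) ln12_10_4 ln12_10_4_ok))) (B (M (nat_lit 461) (B (L (nat_lit 332) ln12_10_4 ln12_10_4_ok) (L (nat_lit 493) ln13_15_7 ln13_15_7_ok))) (B (M (nat_lit 493) (B (L (nat_lit 461) ln13_15_7 ln13_15_7_ok) (M (nat_lit 492) (B (L (nat_lit 525) ln12_12_4 ln12_12_4_ok) (L (nat_lit 524) ln12_16_6 ln12_16_6_ok))))) (M (nat_lit 332) (B (L (nat_lit 300) ln12_9_4 ln12_9_4_ok) (M (nat_lit 331) (B (L (nat_lit 299) ln12_13_7 ln12_13_7_ok) (L (nat_lit 363) ln12_14_7 ln12_14_7_ok))))))))))))) (M (nat_lit 427) (B (M (nat_lit 395) (B (L (nat_lit 394) ln14_13_3 ln14_13_3_ok) (L (nat_lit 396) ln15_13_3 ln15_13_3_ok))) (M (nat_lit 463) (B (L (nat_lit 462) ln11_13_0 ln11_13_0_ok) (L (nat_lit 464) ln12_13_0 ln12_13_0_ok)))))))))))))))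
noncomputable def c33_n2419 : Cert := (M (nat_lit 396) (B (M (nat_lit 431) (B (L (nat_lit 432) ln16_13_3 ln16_13_3_ok) (M (nat_lit 395) (B (L (nat_lit 394) ln10_12_0 ln10_12_0_ok) (L (nat_lit 428) ln15_13_3 ln15_13_3_ok))))) (B (M (nat_lit 431) (B (L (nat_lit 432) ln16_13_3 ln16_13_3_ok) (M (nat_lit 395) (B (L (nat_lit 398) ln11_12_0 ln11_12_0_ok) (L (nat_lit 428) ln15_13_3 ln15_13_3_ok))))) (B (M (nat_lit 428) (B (M (nat_lit 431) (B (L (nat_lit 432) ln16_13_3 ln16_13_3_ok) (M (nat_lit 427) (B (M (nat_lit 459) (B (L (nat_lit 458) ln14_13_1 ln14_13_1_ok) (L (nat_lit 460) ln15_13_1 ln15_13_1_ok))) (M (nat_lit 463) (B (L (nat_lit 462) ln11_13_0 ln11_13_0_ok) (L (nat_lit 464) ln12_13_0 ln12_13_0_ok))))))) (B (M (nat_lit 460) (B (M (nat_lit 431) (B (L (nat_lit 432) ln16_13_3 ln16_13_3_ok) (L (nat_lit 459) ln15_13_1 ln15_13_1_ok))) (B (M (nat_lit 492) (B (L (nat_lit 524) ln12_16_6 ln12_16_6_ok) (M (nat_lit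 364) (B (M (nat_lit 332) (B (L (nat_lit 300) ln12_9_4 ln12_9_4_ok) (L (nat_lit 461) ln12_10_4 ln12_10_4_ok))) (B (M (nat_lit 461) (B (L (nat_lit 332) ln12_10_4 ln12_10_4_ok) (L (nat_lit 493) ln13_15_7 ln13_15_7_ok))) (B (M (nat_lit 493) (B (L (nat_lit 461) ln13_15_7 ln13_15_7_ok) (L (nat_lit 525) ln12_12_4 ln12_12_4_ok))) (M (nat_lit 491) (B (L (nat_lit 459) ln12_11_5 ln12_11_5_ok) (L (nat_lit 523) ln12_12_5 ln12_12_5_ok))))))))) (M (nat_lit 364) (B (M (nat_lit 332) (B (L (nat_lit 300) ln12_9_4 ln12_9_4_ok) (L (nat_lit 461) ln12_10_4 ln12_10_4_ok))) (B (M (nat_lit 461) (B (L (nat_lit 332) ln12_10_4 ln12_10_4_ok) (L (nat_lit 493) ln13_15_7 ln13_15_7_ok))) (B (M (nat_lit 493) (B (L (nat_lit 461) ln13_15_7 ln13_15_7_ok) (M (nat_lit 492) (B (L (nat_lit 525) ln12_12_4 ln12_12_4_ok) (L (nat_lit 524) ln12_16_6 ln12_16_6_ok))))) (M (nat_lit 332) (B (L (nat_lit 300) ln12_9_4 ln12_9_4_ok) (M (nat_lit 331) (B (L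 (nat_lit 299) ln12_13_7 ln12_13_7_ok) (L (nat_lit 363) ln12_14_7 ln12_14_7_ok)))))))))))) (B (M (nat_lit 427) (B (M (nat_lit 426) (B (L (nat_lit 425) ln9_13_2 ln9_13_2_ok) (L (nat_lit 398) ln10_13_2 ln10_13_2_ok))) (M (nat_lit 459) (B (L (nat_lit 458) ln14_13_1 ln14_13_1_ok) (M (nat_lit 364) (B (L (nat_lit 332) ln12_10_5 ln12_10_5_ok) (M (nat_lit 491) (B (L (nat_lit 460) ln12_11_5 ln12_11_5_ok) (L (nat_lit 523) ln11_16_6 ln11_16_6_ok))))))))) (M (nat_lit 431) (B (L (nat_lit 432) ln16_13_3 ln16_13_3_ok) (M (nat_lit 427) (B (M (nat_lit 426) (B (L (nat_lit 425) ln9_13_2 ln9_13_2_ok) (L (nat_lit 398) ln10_13_2 ln10_13_2_ok))) (M (nat_lit 463) (B (L (nat_lit 462) ln11_13_0 ln11_13_0_ok) (L (nat_lit 464) ln12_13_0 ln12_13_0_ok))))))))))) (B (M (nat_lit 395) (B (L (nat_lit 394) ln10_12_0 ln10_12_0_ok) (M (nat_lit 431) (B (L (nat_lit 398) ln11_12_0 ln11_12_0_ok) (L (nat_lit 432) ln16_13_3 ln16_13_3_ok))))) (M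 (nat_lit 427) (B (M (nat_lit 395) (B (L (nat_lit 394) ln10_12_0 ln10_12_0_ok) (M (nat_lit 426) (B (L (nat_lit 398) ln14_12_1 ln14_12_1_ok) (M (nat_lit 425) (B (L (nat_lit 424) ln8_13_2 ln8_13_2_ok) (L (nat_lit 428) ln9_13_2 ln9_13_2_ok))))))) (B (M (nat_lit 428) (B (M (nat_lit 426) (B (L (nat_lit 425) ln9_13_2 ln9_13_2_ok) (L (nat_lit 398) ln10_13_2 ln10_13_2_ok))) (M (nat_lit 459) (B (L (nat_lit 458) ln14_13_1 ln14_13_1_ok) (M (nat_lit 364) (B (L (nat_lit 332) ln12_10_5 ln12_10_5_ok) (M (nat_lit 491) (B (L (nat_lit 460) ln12_11_5 ln12_11_5_ok) (L (nat_lit 523) ln11_16_6 ln11_16_6_ok))))))))) (B (M (nat_lit 364) (B (M (nat_lit 461) (B (L (nat_lit 493) ln13_15_7 ln13_15_7_ok) (M (nat_lit 332) (B (L (nat_lit 300) ln12_9_4 ln12_9_4_ok) (L (nat_lit 428) ln12_10_4 ln12_10_4_ok))))) (B (M (nat_lit 459) (B (M (nat_lit 395) (B (L (nat_lit 491) ln11_15_6 ln11_15_6_ok) (L (nat_lit 394) ln10_12_0 ln10_12_0_ok)))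 (M (nat_lit 428) (B (L (nat_lit 332) ln12_10_5 ln12_10_5_ok) (L (nat_lit 458) ln14_13_1 ln14_13_1_ok))))) (B (M (nat_lit 461) (B (L (nat_lit 493) ln13_15_7 ln13_15_7_ok) (M (nat_lit 459) (B (M (nat_lit 395) (B (L (nat_lit 491) ln11_15_6 ln11_15_6_ok) (L (nat_lit 394) ln10_12_0 ln10_12_0_ok))) (M (nat_lit 458) (B (L (nat_lit 428) ln14_13_1 ln14_13_1_ok) (L (nat_lit 460) ln10_14_2 ln10_14_2_ok))))))) (M (nat_lit 395) (B (L (nat_lit 394) ln10_12_0 ln10_12_0_ok) (M (nat_lit 332) (B (L (nat_lit 300) ln12_9_5 ln12_9_5_ok) (M (nat_lit 459) (B (L (nat_lit 363) ln11_14_6 ln11_14_6_ok) (L (nat_lit 491) ln11_15_6 ln11_15_6_ok))))))))))) (M (nat_lit 395) (B (L (nat_lit 394) ln10_12_0 ln10_12_0_ok) (M (nat_lit 398) (B (L (nat_lit 426) ln14_12_1 ln14_12_1_ok) (M (nat_lit 366) (B (L (nat_lit 367) ln11_12_2 ln11_12_2_ok) (M (nat_lit 334) (B (L (nat_lit 302) ln14_9_5 ln14_9_5_ok) (L (nat_lit 461) ln14_10_5 ln14_10_5_ok))))))))))))))))))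
theorem c33_s2579 : Sem (nat_lit 4159004541504003524128484849921615451655032097354938086859372310025764381276019387312066758484915036306104045371593254240054673408) (nat_lit 768857338318228750318897704597577590690982361913859831221277648950873143104335143003864276804646250490144914118991739088686385769641946182887212780413549281280) (nat_lit 768857338318228750318897704597577590690982361913859831221277648950873143104335143003864276804646250490144914118991739088686385769641946182887212780413549281280) :=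
  sem_of_chk (M (nat_lit 398) (B (M (nat_lit 431) (B (M (nat_lit 432) (B (L (nat_lit 396) ln16_13_3 ln16_13_3_ok) (L (nat_lit 433) ln17_13_3 ln17_13_3_ok))) (M (nat_lit 463) (B (M (nat_lit 366) (B (L (nat_lit 334) ln14_10_4 ln14_10_4_ok) (M (nat_lit 495) (B (L (nat_lit 462) ln14_11_4 ln14_11_4_ok) (L (nat_lit 527) ln15_16_7 ln15_16_7_ok))))) (B (M (nat_lit 464) (B (L (nat_lit 428) ln12_13_0 ln12_13_0_ok) (M (nat_lit 465) (B (L (nat_lit 462) ln17_14_3 ln17_14_3_ok) (L (nat_lit 466) ln18_14_3 ln18_14_3_ok))))) (M (nat_lit 366) (B (L (nat_lit 334) ln14_10_4 ln14_10_4_ok) (M (nat_lit 495) (B (L (nat_lit 399) ln15_15_7 ln15_15_7_ok) (L (nat_lit 527) ln15_16_7 ln15_16_7_ok)))))))))) (B (M (nat_lit 431) (B (M (nat_lit 396) (B (L (nat_lit 395) ln11_12_0 ln11_12_0_ok) (L (nat_lit 432) ln16_13_3 ln16_13_3_ok))) (B (M (nat_lit 432) (B (L (nat_lit 396) ln16_13_3 ln16_13_3_ok) (L (nat_lit 433) ln17_13_3 ln17_13_3_ok)))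 (B (M (nat_lit 432) (B (L (nat_lit 433) ln17_13_3 ln17_13_3_ok) (M (nat_lit 428) (B (M (nat_lit 400) (B (L (nat_lit 399) ln16_12_1 ln16_12_1_ok) (L (nat_lit 401) ln13_13_2 ln13_13_2_ok))) (M (nat_lit 464) (B (L (nat_lit 463) ln12_13_0 ln12_13_0_ok) (L (nat_lit 465) ln13_13_0 ln13_13_0_ok))))))) (M (nat_lit 399) (B (M (nat_lit 400) (B (L (nat_lit 428) ln16_12_1 ln16_12_1_ok) (L (nat_lit 401) ln17_12_1 ln17_12_1_ok))) (M (nat_lit 367) (B (M (nat_lit 335) (B (L (nat_lit 303) ln15_9_5 ln15_9_5_ok) (L (nat_lit 462) ln15_10_5 ln15_10_5_ok))) (M (nat_lit 396) (B (L (nat_lit 368) ln12_12_2 ln12_12_2_ok) (L (nat_lit 395) ln11_12_0 ln11_12_0_ok))))))))))) (B (M (nat_lit 431) (B (M (nat_lit 432) (B (L (nat_lit 433) ln17_13_3 ln17_13_3_ok) (M (nat_lit 461) (B (L (nat_lit 460) ln16_13_1 ln16_13_1_ok) (M (nat_lit 366) (B (L (nat_lit 334) ln14_10_5 ln14_10_5_ok) (L (nat_lit 493) ln13_15_6 ln13_15_6_ok))))))) (B (M (nat_lit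 432) (B (L (nat_lit 433) ln17_13_3 ln17_13_3_ok) (M (nat_lit 428) (B (M (nat_lit 400) (B (L (nat_lit 399) ln16_12_1 ln16_12_1_ok) (L (nat_lit 401) ln13_13_2 ln13_13_2_ok))) (M (nat_lit 464) (B (L (nat_lit 463) ln12_13_0 ln12_13_0_ok) (L (nat_lit 465) ln13_13_0 ln13_13_0_ok))))))) (M (nat_lit 463) (B (M (nat_lit 366) (B (L (nat_lit 334) ln14_10_4 ln14_10_4_ok) (M (nat_lit 495) (B (L (nat_lit 462) ln14_11_4 ln14_11_4_ok) (L (nat_lit 527) ln15_16_7 ln15_16_7_ok))))) (B (M (nat_lit 464) (B (L (nat_lit 428) ln12_13_0 ln12_13_0_ok) (M (nat_lit 465) (B (L (nat_lit 462) ln17_14_3 ln17_14_3_ok) (L (nat_lit 466) ln18_14_3 ln18_14_3_ok))))) (M (nat_lit 366) (B (L (nat_lit 334) ln14_10_4 ln14_10_4_ok) (M (nat_lit 495) (B (L (nat_lit 399) ln15_15_7 ln15_15_7_ok) (L (nat_lit 527) ln15_16_7 ln15_16_7_ok))))))))))) (B (M (nat_lit 431) (B (M (nat_lit 432) (B (L (nat_lit 396) ln16_13_3 ln16_13_3_ok) (L (nat_lit 433) ln17_13_3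 ln17_13_3_ok))) (B (M (nat_lit 463) (B (M (nat_lit 366) (B (L (nat_lit 334) ln14_10_4 ln14_10_4_ok) (M (nat_lit 495) (B (L (nat_lit 462) ln14_11_4 ln14_11_4_ok) (L (nat_lit 527) ln15_16_7 ln15_16_7_ok))))) (M (nat_lit 432) (B (L (nat_lit 433) ln17_13_3 ln17_13_3_ok) (M (nat_lit 464) (B (L (nat_lit 428) ln12_13_0 ln12_13_0_ok) (L (nat_lit 465) ln13_13_0 ln13_13_0_ok))))))) (M (nat_lit 366) (B (M (nat_lit 334) (B (L (nat_lit 461) ln14_10_5 ln14_10_5_ok) (L (nat_lit 463) ln14_10_4 ln14_10_4_ok))) (B (M (nat_lit 462) (B (M (nat_lit 493) (B (L (nat_lit 461) ln13_15_6 ln13_15_6_ok) (M (nat_lit 494) (B (L (nat_lit 526) ln14_16_7 ln14_16_7_ok) (L (nat_lit 525) ln14_12_5 ln14_12_5_ok))))) (M (nat_lit 463) (B (L (nat_lit 495) ln14_11_4 ln14_11_4_ok) (M (nat_lit 464) (B (L (nat_lit 428) ln12_13_0 ln12_13_0_ok) (L (nat_lit 465) ln17_14_3 ln17_14_3_ok))))))) (B (M (nat_lit 463) (B (L (nat_lit 334) ln14_10_4 ln14_10_4_ok)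 (M (nat_lit 495) (B (L (nat_lit 462) ln14_11_4 ln14_11_4_ok) (L (nat_lit 527) ln15_16_7 ln15_16_7_ok))))) (M (nat_lit 461) (B (L (nat_lit 334) ln14_10_5 ln14_10_5_ok) (L (nat_lit 493) ln13_15_6 ln13_15_6_ok)))))))))) (B (M (nat_lit 396) (B (M (nat_lit 395) (B (L (nat_lit 394) ln10_12_0 ln10_12_0_ok) (L (nat_lit 431) ln11_12_0 ln11_12_0_ok))) (B (M (nat_lit 431) (B (L (nat_lit 395) ln11_12_0 ln11_12_0_ok) (L (nat_lit 432) ln16_13_3 ln16_13_3_ok))) (M (nat_lit 462) (B (M (nat_lit 494) (B (L (nat_lit 526) ln14_16_7 ln14_16_7_ok) (M (nat_lit 493) (B (L (nat_lit 525) ln14_12_5 ln14_12_5_ok) (M (nat_lit 461) (B (L (nat_lit 364) ln13_15_7 ln13_15_7_ok) (L (nat_lit 366) ln13_15_6 ln13_15_6_ok))))))) (B (M (nat_lit 494) (B (L (nat_lit 526) ln14_16_7 ln14_16_7_ok) (M (nat_lit 366) (B (M (nat_lit 367) (B (L (nat_lit 335) ln14_14_6 ln14_14_6_ok) (L (nat_lit 399) ln14_15_6 ln14_15_6_ok))) (M (nat_lit 495) (B (L (nat_lit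 463) ln14_11_4 ln14_11_4_ok) (L (nat_lit 527) ln14_12_4 ln14_12_4_ok))))))) (B (M (nat_lit 494) (B (L (nat_lit 526) ln14_16_7 ln14_16_7_ok) (M (nat_lit 364) (B (M (nat_lit 399) (B (L (nat_lit 363) ln15_12_3 ln15_12_3_ok) (L (nat_lit 367) ln14_15_6 ln14_15_6_ok))) (M (nat_lit 493) (B (L (nat_lit 461) ln13_15_7 ln13_15_7_ok) (L (nat_lit 525) ln14_12_5 ln14_12_5_ok))))))) (M (nat_lit 366) (B (M (nat_lit 461) (B (L (nat_lit 334) ln14_10_5 ln14_10_5_ok) (L (nat_lit 493) ln13_15_6 ln13_15_6_ok))) (M (nat_lit 367) (B (L (nat_lit 335) ln14_14_6 ln14_14_6_ok) (M (nat_lit 368) (B (L (nat_lit 369) ln17_11_1 ln17_11_1_ok) (L (nat_lit 399) ln12_12_2 ln12_12_2_ok)))))))))))))) (B (M (nat_lit 366) (B (M (nat_lit 334) (B (L (nat_lit 302) ln14_9_5 ln14_9_5_ok) (L (nat_lit 461) ln14_10_5 ln14_10_5_ok))) (B (M (nat_lit 461) (B (L (nat_lit 334) ln14_10_5 ln14_10_5_ok) (L (nat_lit 493) ln13_15_6 ln13_15_6_ok))) (M (nat_lit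 399) (B (M (nat_lit 400) (B (L (nat_lit 428) ln16_12_1 ln16_12_1_ok) (L (nat_lit 401) ln17_12_1 ln17_12_1_ok))) (M (nat_lit 367) (B (M (nat_lit 335) (B (L (nat_lit 303) ln15_9_5 ln15_9_5_ok) (L (nat_lit 462) ln14_14_6 ln14_14_6_ok))) (M (nat_lit 368) (B (L (nat_lit 369) ln17_11_1 ln17_11_1_ok) (L (nat_lit 396) ln12_12_2 ln12_12_2_ok)))))))))) (M (nat_lit 431) (B (M (nat_lit 396) (B (L (nat_lit 395) ln11_12_0 ln11_12_0_ok) (L (nat_lit 432) ln16_13_3 ln16_13_3_ok))) (B (M (nat_lit 432) (B (L (nat_lit 396) ln16_13_3 ln16_13_3_ok) (L (nat_lit 433) ln17_13_3 ln17_13_3_ok))) (B (M (nat_lit 432) (B (L (nat_lit 433) ln17_13_3 ln17_13_3_ok) (M (nat_lit 461) (B (L (nat_lit 460) ln16_13_1 ln16_13_1_ok) (M (nat_lit 366) (B (L (nat_lit 334) ln14_10_5 ln14_10_5_ok) (L (nat_lit 493) ln13_15_6 ln13_15_6_ok))))))) (M (nat_lit 399) (B (M (nat_lit 400) (B (L (nat_lit 428) ln16_12_1 ln16_12_1_ok) (L (nat_lit 401) ln17_12_1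 ln17_12_1_ok))) (B (M (nat_lit 463) (B (M (nat_lit 495) (B (L (nat_lit 366) ln15_15_7 ln15_15_7_ok) (L (nat_lit 527) ln15_16_7 ln15_16_7_ok))) (M (nat_lit 367) (B (M (nat_lit 368) (B (L (nat_lit 336) ln15_14_6 ln15_14_6_ok) (L (nat_lit 396) ln12_12_2 ln12_12_2_ok))) (M (nat_lit 464) (B (L (nat_lit 496) ln15_11_4 ln15_11_4_ok) (L (nat_lit 428) ln12_13_0 ln12_13_0_ok))))))) (M (nat_lit 368) (B (M (nat_lit 396) (B (L (nat_lit 367) ln12_12_2 ln12_12_2_ok) (L (nat_lit 395) ln11_12_0 ln11_12_0_ok))) (M (nat_lit 400) (B (L (nat_lit 369) ln13_12_2 ln13_12_2_ok) (L (nat_lit 401) ln17_12_1 ln17_12_1_ok))))))))))))))))))) (nat_lit 4159004541504003524128484849921615451655032097354938086859372310025764381276019387312066758484915036306104045371593254240054673408) (nat_lit 768857338318228750318897704597577590690982361913859831221277648950873143104335143003864276804646250490144914118991739088686385769641946182887212780413549281280)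 (nat_lit 768857338318228750318897704597577590690982361913859831221277648950873143104335143003864276804646250490144914118991739088686385769641946182887212780413549281280) (by decide +kernel)
noncomputable def c33_n2746 : Cert := (M (nat_lit 462) (B (M (nat_lit 494) (B (L (nat_lit 526) ln14_16_7 ln14_16_7_ok) (M (nat_lit 493) (B (L (nat_lit 525) ln14_12_5 ln14_12_5_ok) (M (nat_lit 366) (B (L (nat_lit 461) ln13_15_6 ln13_15_6_ok) (M (nat_lit 495) (B (L (nat_lit 463) ln14_11_4 ln14_11_4_ok) (L (nat_lit 527) ln14_12_4 ln14_12_4_ok))))))))) (B (M (nat_lit 396) (B (M (nat_lit 395) (B (L (nat_lit 394) ln10_12_0 ln10_12_0_ok) (L (nat_lit 431) ln11_12_0 ln11_12_0_ok))) (B (M (nat_lit 431) (B (L (nat_lit 395) ln11_12_0 ln11_12_0_ok) (L (nat_lit 432) ln16_13_3 ln16_13_3_ok))) (B (M (nat_lit 399) (B (M (nat_lit 432) (B (L (nat_lit 431) ln12_12_0 ln12_12_0_ok) (M (nat_lit 400) (B (L (nat_lit 433) ln13_12_0 ln13_12_0_ok)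 (L (nat_lit 401) ln17_12_1 ln17_12_1_ok))))) (M (nat_lit 493) (B (M (nat_lit 364) (B (L (nat_lit 363) ln15_12_3 ln15_12_3_ok) (L (nat_lit 461) ln13_15_7 ln13_15_7_ok))) (B (M (nat_lit 461) (B (L (nat_lit 364) ln13_15_7 ln13_15_7_ok) (L (nat_lit 525) ln13_16_6 ln13_16_6_ok))) (M (nat_lit 494) (B (L (nat_lit 526) ln14_16_7 ln14_16_7_ok) (L (nat_lit 525) ln14_12_5 ln14_12_5_ok)))))))) (M (nat_lit 493) (B (M (nat_lit 461) (B (L (nat_lit 364) ln13_15_7 ln13_15_7_ok) (L (nat_lit 525) ln13_16_6 ln13_16_6_ok))) (B (M (nat_lit 525) (B (L (nat_lit 461) ln13_16_6 ln13_16_6_ok) (L (nat_lit 494) ln14_12_5 ln14_12_5_ok))) (B (M (nat_lit 494) (B (L (nat_lit 526) ln14_16_7 ln14_16_7_ok) (L (nat_lit 525) ln14_12_5 ln14_12_5_ok))) (M (nat_lit 363) (B (M (nat_lit 395) (B (L (nat_lit 362) ln14_12_3 ln14_12_3_ok) (L (nat_lit 394) ln10_12_0 ln10_12_0_ok))) (M (nat_lit 364) (B (L (nat_lit 399) ln15_12_3 ln15_12_3_ok) (L (nat_lit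 461) ln13_15_7 ln13_15_7_ok))))))))))))) (B (M (nat_lit 494) (B (L (nat_lit 526) ln14_16_7 ln14_16_7_ok) (M (nat_lit 493) (B (L (nat_lit 525) ln14_12_5 ln14_12_5_ok) (M (nat_lit 495) (B (L (nat_lit 527) ln14_12_4 ln14_12_4_ok) (M (nat_lit 463) (B (L (nat_lit 366) ln14_11_4 ln14_11_4_ok) (M (nat_lit 464) (B (L (nat_lit 465) ln17_14_3 ln17_14_3_ok) (L (nat_lit 492) ln12_15_2 ln12_15_2_ok))))))))))) (B (M (nat_lit 494) (B (L (nat_lit 526) ln14_16_7 ln14_16_7_ok) (M (nat_lit 366) (B (M (nat_lit 334) (B (L (nat_lit 302) ln14_9_5 ln14_9_5_ok) (L (nat_lit 461) ln14_10_5 ln14_10_5_ok))) (M (nat_lit 495) (B (L (nat_lit 463) ln14_11_4 ln14_11_4_ok) (L (nat_lit 527) ln14_12_4 ln14_12_4_ok))))))) (M (nat_lit 461) (B (M (nat_lit 366) (B (L (nat_lit 334) ln14_10_5 ln14_10_5_ok) (L (nat_lit 493) ln13_15_6 ln13_15_6_ok))) (B (M (nat_lit 493) (B (L (nat_lit 366) ln13_15_6 ln13_15_6_ok) (L (nat_lit 525) ln13_16_6 ln13_16_6_ok)))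 (B (M (nat_lit 396) (B (M (nat_lit 493) (B (L (nat_lit 364) ln13_15_7 ln13_15_7_ok) (L (nat_lit 525) ln13_16_6 ln13_16_6_ok))) (M (nat_lit 431) (B (L (nat_lit 395) ln11_12_0 ln11_12_0_ok) (L (nat_lit 432) ln16_13_3 ln16_13_3_ok))))) (M (nat_lit 432) (B (M (nat_lit 431) (B (L (nat_lit 396) ln16_13_3 ln16_13_3_ok) (L (nat_lit 433) ln17_13_3 ln17_13_3_ok))) (B (M (nat_lit 431) (B (L (nat_lit 433) ln17_13_3 ln17_13_3_ok) (L (nat_lit 460) ln16_13_1 ln16_13_1_ok))) (B (M (nat_lit 463) (B (M (nat_lit 366) (B (L (nat_lit 334) ln14_10_5 ln14_10_5_ok) (L (nat_lit 495) ln14_11_4 ln14_11_4_ok))) (M (nat_lit 464) (B (L (nat_lit 465) ln17_14_3 ln17_14_3_ok) (L (nat_lit 433) ln13_14_2 ln13_14_2_ok))))) (M (nat_lit 431) (B (L (nat_lit 396) ln16_13_3 ln16_13_3_ok) (L (nat_lit 460) ln16_13_1 ln16_13_1_ok))))))))))))))))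
noncomputable def c33_n2836 : Cert := (M (nat_lit 461) (B (M (nat_lit 366) (B (L (nat_lit 334) ln14_10_5 ln14_10_5_ok) (L (nat_lit 493) ln13_15_6 ln13_15_6_ok))) (B (M (nat_lit 493) (B (L (nat_lit 366) ln13_15_6 ln13_15_6_ok) (L (nat_lit 525) ln13_16_6 ln13_16_6_ok))) (B (M (nat_lit 493) (B (L (nat_lit 525) ln13_16_6 ln13_16_6_ok) (M (nat_lit 460) (B (M (nat_lit 431) (B (L (nat_lit 432) ln16_13_1 ln16_13_1_ok) (M (nat_lit 459) (B (L (nat_lit 458) ln10_14_2 ln10_14_2_ok) (L (nat_lit 462) ln11_14_2 ln11_14_2_ok))))) (B (M (nat_lit 494) (B (L (nat_lit 526) ln13_12_4 ln13_12_4_ok) (M (nat_lit 459) (B (L (nat_lit 458) ln10_14_2 ln10_14_2_ok) (M (nat_lit 495) (B (L (nat_lit 462) ln11_14_0 ln11_14_0_ok) (L (nat_lit 496) ln16_15_3 ln16_15_3_ok))))))) (B (M (nat_lit 494) (B (L (nat_lit 526) ln13_12_4 ln13_12_4_ok) (M (nat_lit 492) (B (L (nat_lit 524) ln13_12_5 ln13_12_5_ok) (M (nat_lit 495) (B (L (nat_lit 459)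 ln15_15_3 ln15_15_3_ok) (L (nat_lit 496) ln16_15_3 ln16_15_3_ok))))))) (M (nat_lit 462) (B (M (nat_lit 492) (B (L (nat_lit 524) ln13_12_5 ln13_12_5_ok) (M (nat_lit 463) (B (L (nat_lit 491) ln15_14_1 ln15_14_1_ok) (L (nat_lit 464) ln16_14_1 ln16_14_1_ok))))) (M (nat_lit 494) (B (L (nat_lit 526) ln14_16_7 ln14_16_7_ok) (M (nat_lit 495) (B (L (nat_lit 527) ln14_12_4 ln14_12_4_ok) (L (nat_lit 496) ln16_15_3 ln16_15_3_ok))))))))))))) (M (nat_lit 462) (B (M (nat_lit 366) (B (L (nat_lit 334) ln14_10_5 ln14_10_5_ok) (M (nat_lit 494) (B (L (nat_lit 526) ln14_16_7 ln14_16_7_ok) (M (nat_lit 495) (B (L (nat_lit 463) ln14_11_4 ln14_11_4_ok) (L (nat_lit 527) ln14_12_4 ln14_12_4_ok))))))) (B (M (nat_lit 494) (B (L (nat_lit 526) ln14_16_7 ln14_16_7_ok) (M (nat_lit 366) (B (M (nat_lit 367) (B (L (nat_lit 335) ln14_14_6 ln14_14_6_ok) (L (nat_lit 399) ln14_15_6 ln14_15_6_ok))) (M (nat_lit 495) (B (L (nat_lit 463) ln14_11_4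 ln14_11_4_ok) (L (nat_lit 527) ln14_12_4 ln14_12_4_ok))))))) (B (M (nat_lit 460) (B (M (nat_lit 431) (B (L (nat_lit 432) ln16_13_1 ln16_13_1_ok) (L (nat_lit 459) ln11_14_2 ln11_14_2_ok))) (B (M (nat_lit 459) (B (L (nat_lit 458) ln10_14_2 ln10_14_2_ok) (M (nat_lit 494) (B (L (nat_lit 526) ln14_16_7 ln14_16_7_ok) (L (nat_lit 495) ln11_14_0 ln11_14_0_ok))))) (M (nat_lit 432) (B (L (nat_lit 431) ln16_13_1 ln16_13_1_ok) (M (nat_lit 399) (B (M (nat_lit 494) (B (L (nat_lit 367) ln14_15_6 ln14_15_6_ok) (L (nat_lit 526) ln14_16_7 ln14_16_7_ok))) (M (nat_lit 400) (B (L (nat_lit 433) ln13_12_0 ln13_12_0_ok) (L (nat_lit 401) ln17_12_1 ln17_12_1_ok)))))))))) (B (M (nat_lit 460) (B (M (nat_lit 431) (B (L (nat_lit 432) ln16_13_1 ln16_13_1_ok) (L (nat_lit 459) ln11_14_2 ln11_14_2_ok))) (B (M (nat_lit 366) (B (L (nat_lit 334) ln14_10_5 ln14_10_5_ok) (M (nat_lit 491) (B (M (nat_lit 459) (B (L (nat_lit 458) ln10_14_2 ln10_14_2_ok)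 (L (nat_lit 490) ln14_14_1 ln14_14_1_ok))) (M (nat_lit 463) (B (L (nat_lit 495) ln14_11_4 ln14_11_4_ok) (L (nat_lit 492) ln15_14_1 ln15_14_1_ok))))))) (M (nat_lit 432) (B (L (nat_lit 431) ln16_13_1 ln16_13_1_ok) (M (nat_lit 463) (B (M (nat_lit 366) (B (L (nat_lit 334) ln14_10_5 ln14_10_5_ok) (L (nat_lit 495) ln14_11_4 ln14_11_4_ok))) (M (nat_lit 464) (B (L (nat_lit 465) ln17_14_3 ln17_14_3_ok) (L (nat_lit 433) ln13_14_2 ln13_14_2_ok)))))))))) (M (nat_lit 367) (B (M (nat_lit 366) (B (L (nat_lit 334) ln14_10_5 ln14_10_5_ok) (L (nat_lit 335) ln14_14_6 ln14_14_6_ok))) (M (nat_lit 494) (B (L (nat_lit 399) ln14_15_6 ln14_15_6_ok) (L (nat_lit 526) ln14_16_7 ln14_16_7_ok))))))))))))))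
theorem c33_s2889 : Sem (nat_lit 4159004541504003524128484849921615451655032097354938086859372310025764381276019387312066758484915036306104045371593254240054673408) (nat_lit 823775719621650321459114381323367389600370639122565905883284619644783509798408030366895135079887992237290849927007206172878159888225166166713455304544385761280) (nat_lit 823775719621650321459114381323367389600370639122565905883284619644783509798408030366895135079887992237290849927007206172878159888225166166713455304544385761280) :=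
  sem_of_chk (M (nat_lit 398) (B (M (nat_lit 396) (B (M (nat_lit 395) (B (L (nat_lit 394) ln10_12_0 ln10_12_0_ok) (L (nat_lit 431) ln11_12_0 ln11_12_0_ok))) (B (M (nat_lit 431) (B (L (nat_lit 395) ln11_12_0 ln11_12_0_ok) (L (nat_lit 432) ln16_13_3 ln16_13_3_ok))) (M (nat_lit 462) (B (M (nat_lit 494) (B (L (nat_lit 526) ln14_16_7 ln14_16_7_ok) (M (nat_lit 493) (B (L (nat_lit 525) ln14_12_5 ln14_12_5_ok) (M (nat_lit 461) (B (L (nat_lit 364) ln13_15_7 ln13_15_7_ok) (L (nat_lit 366) ln13_15_6 ln13_15_6_ok))))))) (B (M (nat_lit 494) (B (L (nat_lit 526) ln14_16_7 ln14_16_7_ok) (M (nat_lit 366) (B (M (nat_lit 367) (B (L (nat_lit 335) ln14_14_6 ln14_14_6_ok) (L (nat_lit 399) ln14_15_6 ln14_15_6_ok))) (M (nat_lit 495) (B (L (nat_lit 463) ln14_11_4 ln14_11_4_ok) (L (nat_lit 527) ln14_12_4 ln14_12_4_ok))))))) (B (M (nat_lit 494) (B (L (nat_lit 526) ln14_16_7 ln14_16_7_ok) (M (nat_lit 364) (B (M (nat_lit 399) (B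 (L (nat_lit 363) ln15_12_3 ln15_12_3_ok) (L (nat_lit 367) ln14_15_6 ln14_15_6_ok))) (M (nat_lit 493) (B (L (nat_lit 461) ln13_15_7 ln13_15_7_ok) (L (nat_lit 525) ln14_12_5 ln14_12_5_ok))))))) (M (nat_lit 366) (B (M (nat_lit 461) (B (L (nat_lit 334) ln14_10_5 ln14_10_5_ok) (L (nat_lit 493) ln13_15_6 ln13_15_6_ok))) (M (nat_lit 367) (B (L (nat_lit 335) ln14_14_6 ln14_14_6_ok) (M (nat_lit 368) (B (L (nat_lit 369) ln17_11_1 ln17_11_1_ok) (L (nat_lit 399) ln12_12_2 ln12_12_2_ok)))))))))))))) (B (M (nat_lit 396) (B (M (nat_lit 395) (B (L (nat_lit 394) ln10_12_0 ln10_12_0_ok) (L (nat_lit 431) ln11_12_0 ln11_12_0_ok))) (B (M (nat_lit 431) (B (L (nat_lit 395) ln11_12_0 ln11_12_0_ok) (L (nat_lit 432) ln16_13_3 ln16_13_3_ok))) (B (M (nat_lit 462) (B (M (nat_lit 494) (B (L (nat_lit 526) ln14_16_7 ln14_16_7_ok) (M (nat_lit 493) (B (L (nat_lit 525) ln14_12_5 ln14_12_5_ok) (M (nat_lit 461) (B (L (nat_lit 364) ln13_15_7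 ln13_15_7_ok) (L (nat_lit 366) ln13_15_6 ln13_15_6_ok))))))) (M (nat_lit 399) (B (M (nat_lit 431) (B (L (nat_lit 432) ln12_12_0 ln12_12_0_ok) (M (nat_lit 367) (B (L (nat_lit 335) ln15_10_5 ln15_10_5_ok) (L (nat_lit 368) ln12_12_2 ln12_12_2_ok))))) (B (M (nat_lit 432) (B (L (nat_lit 431) ln12_12_0 ln12_12_0_ok) (M (nat_lit 400) (B (L (nat_lit 433) ln13_12_0 ln13_12_0_ok) (L (nat_lit 401) ln17_12_1 ln17_12_1_ok))))) (M (nat_lit 400) (B (L (nat_lit 401) ln17_12_1 ln17_12_1_ok) (M (nat_lit 368) (B (L (nat_lit 367) ln12_12_2 ln12_12_2_ok) (L (nat_lit 369) ln13_12_2 ln13_12_2_ok)))))))))) (M (nat_lit 395) (B (L (nat_lit 394) ln10_12_0 ln10_12_0_ok) (M (nat_lit 399) (B (M (nat_lit 363) (B (L (nat_lit 362) ln14_12_3 ln14_12_3_ok) (L (nat_lit 364) ln15_12_3 ln15_12_3_ok))) (M (nat_lit 367) (B (L (nat_lit 366) ln11_12_2 ln11_12_2_ok) (L (nat_lit 368) ln12_12_2 ln12_12_2_ok))))))))))) (B (M (nat_lit 461) (B (M (nat_lit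 366) (B (L (nat_lit 334) ln14_10_5 ln14_10_5_ok) (L (nat_lit 493) ln13_15_6 ln13_15_6_ok))) (B (M (nat_lit 493) (B (L (nat_lit 366) ln13_15_6 ln13_15_6_ok) (L (nat_lit 525) ln13_16_6 ln13_16_6_ok))) (B (M (nat_lit 396) (B (M (nat_lit 493) (B (L (nat_lit 364) ln13_15_7 ln13_15_7_ok) (L (nat_lit 525) ln13_16_6 ln13_16_6_ok))) (M (nat_lit 431) (B (L (nat_lit 395) ln11_12_0 ln11_12_0_ok) (L (nat_lit 432) ln16_13_3 ln16_13_3_ok))))) (M (nat_lit 462) (B (M (nat_lit 366) (B (L (nat_lit 334) ln14_10_5 ln14_10_5_ok) (M (nat_lit 494) (B (L (nat_lit 526) ln14_16_7 ln14_16_7_ok) (M (nat_lit 495) (B (L (nat_lit 463) ln14_11_4 ln14_11_4_ok) (L (nat_lit 527) ln14_12_4 ln14_12_4_ok))))))) (B (M (nat_lit 399) (B (M (nat_lit 494) (B (L (nat_lit 367) ln14_15_6 ln14_15_6_ok) (L (nat_lit 526) ln14_16_7 ln14_16_7_ok))) (M (nat_lit 432) (B (M (nat_lit 400) (B (L (nat_lit 433) ln13_12_0 ln13_12_0_ok) (L (nat_lit 401) ln17_12_1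 ln17_12_1_ok))) (B (M (nat_lit 431) (B (L (nat_lit 396) ln12_12_0 ln12_12_0_ok) (L (nat_lit 433) ln17_13_3 ln17_13_3_ok))) (M (nat_lit 431) (B (L (nat_lit 396) ln12_12_0 ln12_12_0_ok) (L (nat_lit 460) ln16_13_1 ln16_13_1_ok)))))))) (M (nat_lit 432) (B (M (nat_lit 431) (B (L (nat_lit 396) ln16_13_3 ln16_13_3_ok) (L (nat_lit 433) ln17_13_3 ln17_13_3_ok))) (B (M (nat_lit 431) (B (L (nat_lit 433) ln17_13_3 ln17_13_3_ok) (L (nat_lit 460) ln16_13_1 ln16_13_1_ok))) (B (M (nat_lit 463) (B (M (nat_lit 366) (B (L (nat_lit 334) ln14_10_5 ln14_10_5_ok) (L (nat_lit 495) ln14_11_4 ln14_11_4_ok))) (M (nat_lit 464) (B (L (nat_lit 465) ln17_14_3 ln17_14_3_ok) (L (nat_lit 433) ln13_14_2 ln13_14_2_ok))))) (M (nat_lit 431) (B (L (nat_lit 396) ln16_13_3 ln16_13_3_ok) (L (nat_lit 460) ln16_13_1 ln16_13_1_ok)))))))))))))) (B (M (nat_lit 396) (B (M (nat_lit 395) (B (L (nat_lit 394) ln10_12_0 ln10_12_0_ok) (L (nat_lit 431) ln11_12_0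 ln11_12_0_ok))) (B (M (nat_lit 431) (B (L (nat_lit 395) ln11_12_0 ln11_12_0_ok) (L (nat_lit 432) ln16_13_3 ln16_13_3_ok))) (B (M (nat_lit 366) (B (M (nat_lit 334) (B (L (nat_lit 302) ln14_9_5 ln14_9_5_ok) (L (nat_lit 461) ln14_10_5 ln14_10_5_ok))) (B (M (nat_lit 461) (B (L (nat_lit 334) ln14_10_5 ln14_10_5_ok) (L (nat_lit 493) ln13_15_6 ln13_15_6_ok))) (B (M (nat_lit 462) (B (M (nat_lit 493) (B (L (nat_lit 461) ln13_15_6 ln13_15_6_ok) (M (nat_lit 494) (B (L (nat_lit 526) ln14_16_7 ln14_16_7_ok) (L (nat_lit 525) ln14_12_5 ln14_12_5_ok))))) (B (M (nat_lit 494) (B (L (nat_lit 526) ln14_16_7 ln14_16_7_ok) (M (nat_lit 367) (B (L (nat_lit 335) ln14_14_6 ln14_14_6_ok) (L (nat_lit 399) ln14_15_6 ln14_15_6_ok))))) (M (nat_lit 367) (B (L (nat_lit 335) ln14_14_6 ln14_14_6_ok) (M (nat_lit 368) (B (L (nat_lit 369) ln17_11_1 ln17_11_1_ok) (L (nat_lit 399) ln12_12_2 ln12_12_2_ok)))))))) (M (nat_lit 431) (B (L (nat_lit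 432) ln16_13_3 ln16_13_3_ok) (M (nat_lit 334) (B (L (nat_lit 302) ln14_9_5 ln14_9_5_ok) (L (nat_lit 463) ln14_10_4 ln14_10_4_ok))))))))) (M (nat_lit 366) (B (M (nat_lit 395) (B (L (nat_lit 367) ln11_12_2 ln11_12_2_ok) (L (nat_lit 394) ln10_12_0 ln10_12_0_ok))) (M (nat_lit 461) (B (L (nat_lit 334) ln14_10_5 ln14_10_5_ok) (L (nat_lit 493) ln13_15_6 ln13_15_6_ok))))))))) (B (M (nat_lit 396) (B (M (nat_lit 395) (B (L (nat_lit 394) ln10_12_0 ln10_12_0_ok) (L (nat_lit 431) ln11_12_0 ln11_12_0_ok))) (B (M (nat_lit 431) (B (L (nat_lit 395) ln11_12_0 ln11_12_0_ok) (L (nat_lit 432) ln16_13_3 ln16_13_3_ok))) (B (M (nat_lit 399) (B (M (nat_lit 432) (B (L (nat_lit 431) ln12_12_0 ln12_12_0_ok) (M (nat_lit 400) (B (L (nat_lit 433) ln13_12_0 ln13_12_0_ok) (L (nat_lit 401) ln17_12_1 ln17_12_1_ok))))) (B (M (nat_lit 431) (B (L (nat_lit 432) ln12_12_0 ln12_12_0_ok) (M (nat_lit 367) (B (L (nat_lit 368) ln12_12_2 ln12_12_2_ok)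 (M (nat_lit 335) (B (L (nat_lit 303) ln15_9_5 ln15_9_5_ok) (L (nat_lit 462) ln15_10_5 ln15_10_5_ok))))))) (M (nat_lit 400) (B (L (nat_lit 401) ln17_12_1 ln17_12_1_ok) (M (nat_lit 368) (B (L (nat_lit 367) ln12_12_2 ln12_12_2_ok) (L (nat_lit 369) ln13_12_2 ln13_12_2_ok)))))))) (M (nat_lit 399) (B (M (nat_lit 400) (B (L (nat_lit 401) ln17_12_1 ln17_12_1_ok) (M (nat_lit 368) (B (L (nat_lit 367) ln12_12_2 ln12_12_2_ok) (L (nat_lit 369) ln13_12_2 ln13_12_2_ok))))) (M (nat_lit 395) (B (L (nat_lit 394) ln10_12_0 ln10_12_0_ok) (M (nat_lit 363) (B (L (nat_lit 362) ln14_12_3 ln14_12_3_ok) (L (nat_lit 364) ln15_12_3 ln15_12_3_ok))))))))))) (B c33_n2746 (B (M (nat_lit 431) (B (M (nat_lit 432) (B (L (nat_lit 396) ln16_13_3 ln16_13_3_ok) (L (nat_lit 433) ln17_13_3 ln17_13_3_ok))) (B (M (nat_lit 432) (B (L (nat_lit 433) ln17_13_3 ln17_13_3_ok) (M (nat_lit 461) (B (L (nat_lit 460) ln16_13_1 ln16_13_1_ok) (M (nat_lit 366)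 (B (L (nat_lit 334) ln14_10_5 ln14_10_5_ok) (L (nat_lit 493) ln13_15_6 ln13_15_6_ok))))))) (M (nat_lit 366) (B (M (nat_lit 334) (B (L (nat_lit 461) ln14_10_5 ln14_10_5_ok) (L (nat_lit 463) ln14_10_4 ln14_10_4_ok))) (B (M (nat_lit 367) (B (M (nat_lit 462) (B (L (nat_lit 335) ln14_14_6 ln14_14_6_ok) (M (nat_lit 494) (B (L (nat_lit 399) ln14_15_6 ln14_15_6_ok) (L (nat_lit 526) ln14_16_7 ln14_16_7_ok))))) (B (M (nat_lit 368) (B (L (nat_lit 369) ln17_11_1 ln17_11_1_ok) (M (nat_lit 399) (B (L (nat_lit 396) ln12_12_2 ln12_12_2_ok) (M (nat_lit 463) (B (L (nat_lit 336) ln15_14_6 ln15_14_6_ok) (L (nat_lit 495) ln15_15_7 ln15_15_7_ok))))))) (M (nat_lit 462) (B (L (nat_lit 335) ln14_14_6 ln14_14_6_ok) (M (nat_lit 493) (B (L (nat_lit 461) ln13_15_6 ln13_15_6_ok) (M (nat_lit 494) (B (L (nat_lit 526) ln14_16_7 ln14_16_7_ok) (L (nat_lit 525) ln14_12_5 ln14_12_5_ok)))))))))) (B (M (nat_lit 463) (B (L (nat_lit 334) ln14_10_4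 ln14_10_4_ok) (M (nat_lit 495) (B (L (nat_lit 399) ln15_15_7 ln15_15_7_ok) (L (nat_lit 462) ln14_11_4 ln14_11_4_ok))))) (M (nat_lit 461) (B (L (nat_lit 334) ln14_10_5 ln14_10_5_ok) (L (nat_lit 493) ln13_15_6 ln13_15_6_ok)))))))))) (B c33_n2836 (B (M (nat_lit 462) (B (M (nat_lit 494) (B (L (nat_lit 526) ln14_16_7 ln14_16_7_ok) (M (nat_lit 493) (B (L (nat_lit 525) ln14_12_5 ln14_12_5_ok) (M (nat_lit 366) (B (L (nat_lit 461) ln13_15_6 ln13_15_6_ok) (M (nat_lit 495) (B (L (nat_lit 463) ln14_11_4 ln14_11_4_ok) (L (nat_lit 527) ln14_12_4 ln14_12_4_ok))))))))) (B (M (nat_lit 494) (B (L (nat_lit 526) ln14_16_7 ln14_16_7_ok) (M (nat_lit 493) (B (L (nat_lit 525) ln14_12_5 ln14_12_5_ok) (M (nat_lit 461) (B (M (nat_lit 396) (B (L (nat_lit 364) ln13_15_7 ln13_15_7_ok) (M (nat_lit 395) (B (L (nat_lit 394) ln10_12_0 ln10_12_0_ok) (L (nat_lit 431) ln11_12_0 ln11_12_0_ok))))) (M (nat_lit 492) (B (L (nat_lit 524) ln13_12_5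 ln13_12_5_ok) (M (nat_lit 463) (B (L (nat_lit 464) ln16_14_1 ln16_14_1_ok) (L (nat_lit 491) ln11_15_2 ln11_15_2_ok))))))))))) (B (M (nat_lit 494) (B (L (nat_lit 526) ln14_16_7 ln14_16_7_ok) (M (nat_lit 493) (B (L (nat_lit 525) ln14_12_5 ln14_12_5_ok) (M (nat_lit 495) (B (L (nat_lit 527) ln14_12_4 ln14_12_4_ok) (M (nat_lit 463) (B (L (nat_lit 366) ln14_11_4 ln14_11_4_ok) (M (nat_lit 464) (B (L (nat_lit 465) ln17_14_3 ln17_14_3_ok) (L (nat_lit 492) ln12_15_2 ln12_15_2_ok))))))))))) (B (M (nat_lit 396) (B (M (nat_lit 395) (B (L (nat_lit 394) ln10_12_0 ln10_12_0_ok) (L (nat_lit 431) ln11_12_0 ln11_12_0_ok))) (M (nat_lit 494) (B (L (nat_lit 526) ln14_16_7 ln14_16_7_ok) (M (nat_lit 493) (B (L (nat_lit 525) ln14_12_5 ln14_12_5_ok) (M (nat_lit 461) (B (L (nat_lit 364) ln13_15_7 ln13_15_7_ok) (L (nat_lit 366) ln13_15_6 ln13_15_6_ok))))))))) (B (M (nat_lit 494) (B (L (nat_lit 526) ln14_16_7 ln14_16_7_ok) (M (nat_lit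 366) (B (M (nat_lit 334) (B (L (nat_lit 302) ln14_9_5 ln14_9_5_ok) (L (nat_lit 461) ln14_10_5 ln14_10_5_ok))) (M (nat_lit 495) (B (L (nat_lit 463) ln14_11_4 ln14_11_4_ok) (L (nat_lit 527) ln14_12_4 ln14_12_4_ok))))))) (M (nat_lit 461) (B (M (nat_lit 366) (B (L (nat_lit 334) ln14_10_5 ln14_10_5_ok) (L (nat_lit 493) ln13_15_6 ln13_15_6_ok))) (B (M (nat_lit 493) (B (L (nat_lit 366) ln13_15_6 ln13_15_6_ok) (L (nat_lit 525) ln13_16_6 ln13_16_6_ok))) (B (M (nat_lit 396) (B (M (nat_lit 493) (B (L (nat_lit 364) ln13_15_7 ln13_15_7_ok) (L (nat_lit 525) ln13_16_6 ln13_16_6_ok))) (M (nat_lit 431) (B (L (nat_lit 395) ln11_12_0 ln11_12_0_ok) (L (nat_lit 432) ln16_13_3 ln16_13_3_ok))))) (M (nat_lit 432) (B (M (nat_lit 431) (B (L (nat_lit 396) ln16_13_3 ln16_13_3_ok) (L (nat_lit 433) ln17_13_3 ln17_13_3_ok))) (B (M (nat_lit 431) (B (L (nat_lit 433) ln17_13_3 ln17_13_3_ok) (L (nat_lit 460) ln16_13_1 ln16_13_1_ok))) (B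 (M (nat_lit 463) (B (M (nat_lit 366) (B (L (nat_lit 334) ln14_10_5 ln14_10_5_ok) (L (nat_lit 495) ln14_11_4 ln14_11_4_ok))) (M (nat_lit 464) (B (L (nat_lit 465) ln17_14_3 ln17_14_3_ok) (L (nat_lit 433) ln13_14_2 ln13_14_2_ok))))) (M (nat_lit 431) (B (L (nat_lit 396) ln16_13_3 ln16_13_3_ok) (L (nat_lit 460) ln16_13_1 ln16_13_1_ok))))))))))))))))) (B (M (nat_lit 366) (B (M (nat_lit 334) (B (L (nat_lit 302) ln14_9_5 ln14_9_5_ok) (L (nat_lit 461) ln14_10_5 ln14_10_5_ok))) (B (M (nat_lit 461) (B (L (nat_lit 334) ln14_10_5 ln14_10_5_ok) (L (nat_lit 493) ln13_15_6 ln13_15_6_ok))) (B (M (nat_lit 493) (B (L (nat_lit 461) ln13_15_6 ln13_15_6_ok) (M (nat_lit 367) (B (M (nat_lit 462) (B (L (nat_lit 335) ln14_14_6 ln14_14_6_ok) (M (nat_lit 494) (B (L (nat_lit 526) ln14_16_7 ln14_16_7_ok) (L (nat_lit 525) ln14_12_5 ln14_12_5_ok))))) (M (nat_lit 396) (B (L (nat_lit 395) ln11_12_2 ln11_12_2_ok) (M (nat_lit 368) (B (L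 (nat_lit 369) ln17_11_1 ln17_11_1_ok) (L (nat_lit 399) ln12_12_2 ln12_12_2_ok))))))))) (M (nat_lit 462) (B (M (nat_lit 494) (B (L (nat_lit 526) ln14_16_7 ln14_16_7_ok) (M (nat_lit 495) (B (L (nat_lit 463) ln14_11_4 ln14_11_4_ok) (L (nat_lit 527) ln14_12_4 ln14_12_4_ok))))) (M (nat_lit 334) (B (L (nat_lit 302) ln14_9_5 ln14_9_5_ok) (M (nat_lit 335) (B (L (nat_lit 303) ln14_13_6 ln14_13_6_ok) (L (nat_lit 367) ln14_14_6 ln14_14_6_ok))))))))))) (M (nat_lit 396) (B (M (nat_lit 395) (B (L (nat_lit 394) ln10_12_0 ln10_12_0_ok) (L (nat_lit 431) ln11_12_0 ln11_12_0_ok))) (B (M (nat_lit 431) (B (L (nat_lit 395) ln11_12_0 ln11_12_0_ok) (L (nat_lit 432) ln16_13_3 ln16_13_3_ok))) (B (M (nat_lit 399) (B (M (nat_lit 432) (B (L (nat_lit 431) ln12_12_0 ln12_12_0_ok) (M (nat_lit 400) (B (L (nat_lit 433) ln13_12_0 ln13_12_0_ok) (L (nat_lit 401) ln17_12_1 ln17_12_1_ok))))) (B (M (nat_lit 431) (B (L (nat_lit 432) ln12_12_0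 ln12_12_0_ok) (M (nat_lit 367) (B (L (nat_lit 368) ln12_12_2 ln12_12_2_ok) (M (nat_lit 334) (B (M (nat_lit 335) (B (L (nat_lit 302) ln15_13_7 ln15_13_7_ok) (L (nat_lit 303) ln15_9_5 ln15_9_5_ok))) (M (nat_lit 366) (B (L (nat_lit 463) ln15_14_7 ln15_14_7_ok) (L (nat_lit 461) ln14_10_5 ln14_10_5_ok))))))))) (M (nat_lit 400) (B (L (nat_lit 401) ln17_12_1 ln17_12_1_ok) (M (nat_lit 368) (B (L (nat_lit 367) ln12_12_2 ln12_12_2_ok) (L (nat_lit 369) ln13_12_2 ln13_12_2_ok)))))))) (M (nat_lit 366) (B (M (nat_lit 395) (B (L (nat_lit 367) ln11_12_2 ln11_12_2_ok) (L (nat_lit 394) ln10_12_0 ln10_12_0_ok))) (M (nat_lit 461) (B (L (nat_lit 334) ln14_10_5 ln14_10_5_ok) (L (nat_lit 493) ln13_15_6 ln13_15_6_ok)))))))))))))))))))) (nat_lit 4159004541504003524128484849921615451655032097354938086859372310025764381276019387312066758484915036306104045371593254240054673408) (nat_lit 823775719621650321459114381323367389600370639122565905883284619644783509798408030366895135079887992237290849927007206172878159888225166166713455304544385761280)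 (nat_lit 823775719621650321459114381323367389600370639122565905883284619644783509798408030366895135079887992237290849927007206172878159888225166166713455304544385761280) (by decide +kernel)
noncomputable def c33_n3019 : Cert := (M (nat_lit 398) (B (M (nat_lit 399) (B (M (nat_lit 428) (B (L (nat_lit 427) ln15_12_1 ln15_12_1_ok) (L (nat_lit 400) ln16_12_1 ln16_12_1_ok))) (M (nat_lit 395) (B (M (nat_lit 363) (B (L (nat_lit 362) ln14_12_3 ln14_12_3_ok) (L (nat_lit 364) ln15_12_3 ln15_12_3_ok))) (M (nat_lit 367) (B (L (nat_lit 366) ln11_12_2 ln11_12_2_ok) (L (nat_lit 368) ln12_12_2 ln12_12_2_ok))))))) (B (M (nat_lit 399) (B (M (nat_lit 428) (B (L (nat_lit 427) ln15_12_1 ln15_12_1_ok) (L (nat_lit 400) ln16_12_1 ln16_12_1_ok))) (M (nat_lit 366) (B (M (nat_lit 334) (B (L (nat_lit 302) ln14_9_5 ln14_9_5_ok) (L (nat_lit 461) ln14_10_5 ln14_10_5_ok))) (M (nat_lit 367) (B (L (nat_lit 395) ln11_12_2 ln11_12_2_ok)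 (L (nat_lit 368) ln12_12_2 ln12_12_2_ok))))))) (B (M (nat_lit 399) (B (M (nat_lit 428) (B (L (nat_lit 427) ln15_12_1 ln15_12_1_ok) (L (nat_lit 400) ln16_12_1 ln16_12_1_ok))) (B (M (nat_lit 395) (B (M (nat_lit 363) (B (L (nat_lit 362) ln14_12_3 ln14_12_3_ok) (L (nat_lit 364) ln15_12_3 ln15_12_3_ok))) (M (nat_lit 427) (B (L (nat_lit 426) ln14_12_1 ln14_12_1_ok) (L (nat_lit 428) ln15_12_1 ln15_12_1_ok))))) (B (M (nat_lit 400) (B (L (nat_lit 428) ln16_12_1 ln16_12_1_ok) (L (nat_lit 401) ln17_12_1 ln17_12_1_ok))) (M (nat_lit 400) (B (L (nat_lit 401) ln17_12_1 ln17_12_1_ok) (M (nat_lit 368) (B (L (nat_lit 367) ln12_12_2 ln12_12_2_ok) (L (nat_lit 369) ln13_12_2 ln13_12_2_ok))))))))) (B (M (nat_lit 428) (B (M (nat_lit 399) (B (L (nat_lit 427) ln15_12_1 ln15_12_1_ok) (L (nat_lit 400) ln16_12_1 ln16_12_1_ok))) (B (M (nat_lit 462) (B (M (nat_lit 427) (B (L (nat_lit 426) ln10_13_2 ln10_13_2_ok) (L (nat_lit 463) ln11_13_0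 ln11_13_0_ok))) (M (nat_lit 493) (B (M (nat_lit 461) (B (L (nat_lit 364) ln13_15_7 ln13_15_7_ok) (L (nat_lit 366) ln13_15_6 ln13_15_6_ok))) (B (M (nat_lit 461) (B (L (nat_lit 366) ln13_15_6 ln13_15_6_ok) (L (nat_lit 525) ln13_16_7 ln13_16_7_ok))) (B (M (nat_lit 461) (B (L (nat_lit 364) ln13_15_7 ln13_15_7_ok) (L (nat_lit 525) ln13_16_7 ln13_16_7_ok))) (M (nat_lit 494) (B (L (nat_lit 526) ln14_16_7 ln14_16_7_ok) (L (nat_lit 525) ln14_12_5 ln14_12_5_ok))))))))) (M (nat_lit 364) (B (M (nat_lit 332) (B (L (nat_lit 300) ln12_9_4 ln12_9_4_ok) (L (nat_lit 461) ln12_10_4 ln12_10_4_ok))) (M (nat_lit 399) (B (L (nat_lit 363) ln15_12_3 ln15_12_3_ok) (L (nat_lit 400) ln16_12_1 ln16_12_1_ok)))))))) (B (M (nat_lit 427) (B (M (nat_lit 426) (B (L (nat_lit 395) ln14_12_1 ln14_12_1_ok) (L (nat_lit 428) ln10_13_2 ln10_13_2_ok))) (B (M (nat_lit 462) (B (M (nat_lit 428) (B (L (nat_lit 426) ln10_13_2 ln10_13_2_ok) (L (nat_lit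 463) ln11_13_0 ln11_13_0_ok))) (M (nat_lit 493) (B (M (nat_lit 461) (B (L (nat_lit 364) ln13_15_7 ln13_15_7_ok) (L (nat_lit 366) ln13_15_6 ln13_15_6_ok))) (B (M (nat_lit 461) (B (L (nat_lit 366) ln13_15_6 ln13_15_6_ok) (L (nat_lit 525) ln13_16_6 ln13_16_6_ok))) (B (M (nat_lit 461) (B (L (nat_lit 364) ln13_15_7 ln13_15_7_ok) (L (nat_lit 525) ln13_16_6 ln13_16_6_ok))) (M (nat_lit 494) (B (L (nat_lit 526) ln14_16_7 ln14_16_7_ok) (L (nat_lit 525) ln14_12_5 ln14_12_5_ok))))))))) (B (M (nat_lit 366) (B (M (nat_lit 461) (B (L (nat_lit 334) ln14_10_5 ln14_10_5_ok) (L (nat_lit 493) ln13_15_6 ln13_15_6_ok))) (M (nat_lit 462) (B (M (nat_lit 367) (B (L (nat_lit 335) ln14_14_6 ln14_14_6_ok) (L (nat_lit 395) ln11_12_2 ln11_12_2_ok))) (M (nat_lit 463) (B (L (nat_lit 495) ln14_11_4 ln14_11_4_ok) (L (nat_lit 428) ln11_13_0 ln11_13_0_ok))))))) (M (nat_lit 366) (B (M (nat_lit 334) (B (L (nat_lit 302) ln14_9_5 ln14_9_5_ok)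 (L (nat_lit 461) ln14_10_5 ln14_10_5_ok))) (M (nat_lit 395) (B (L (nat_lit 367) ln11_12_2 ln11_12_2_ok) (L (nat_lit 426) ln14_12_1 ln14_12_1_ok))))))))) (M (nat_lit 366) (B (M (nat_lit 461) (B (L (nat_lit 334) ln14_10_5 ln14_10_5_ok) (L (nat_lit 493) ln13_15_6 ln13_15_6_ok))) (M (nat_lit 367) (B (L (nat_lit 395) ln11_12_2 ln11_12_2_ok) (M (nat_lit 368) (B (L (nat_lit 369) ln17_11_1 ln17_11_1_ok) (L (nat_lit 399) ln12_12_2 ln12_12_2_ok)))))))))))))
noncomputable def c33_n3099 : Cert := (M (nat_lit 428) (B (M (nat_lit 427) (B (M (nat_lit 426) (B (L (nat_lit 425) ln9_13_2 ln9_13_2_ok) (L (nat_lit 398) ln10_13_2 ln10_13_2_ok))) (M (nat_lit 459) (B (L (nat_lit 458) ln14_13_1 ln14_13_1_ok) (M (nat_lit 364) (B (L (nat_lit 332) ln12_10_5 ln12_10_5_ok) (M (nat_lit 491) (B (L (nat_lit 460) ln12_11_5 ln12_11_5_ok) (L (nat_lit 523) ln11_16_6 ln11_16_6_ok))))))))) (B (M (nat_lit 398) (B (M (nat_lit 399) (B (L (nat_lit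 427) ln15_12_1 ln15_12_1_ok) (L (nat_lit 400) ln16_12_1 ln16_12_1_ok))) (B (M (nat_lit 462) (B (M (nat_lit 427) (B (L (nat_lit 426) ln10_13_2 ln10_13_2_ok) (L (nat_lit 463) ln11_13_0 ln11_13_0_ok))) (M (nat_lit 493) (B (M (nat_lit 461) (B (L (nat_lit 364) ln13_15_7 ln13_15_7_ok) (L (nat_lit 366) ln13_15_6 ln13_15_6_ok))) (B (M (nat_lit 461) (B (L (nat_lit 366) ln13_15_6 ln13_15_6_ok) (L (nat_lit 525) ln13_16_7 ln13_16_7_ok))) (B (M (nat_lit 461) (B (L (nat_lit 364) ln13_15_7 ln13_15_7_ok) (L (nat_lit 525) ln13_16_7 ln13_16_7_ok))) (M (nat_lit 494) (B (L (nat_lit 526) ln14_16_7 ln14_16_7_ok) (L (nat_lit 525) ln14_12_5 ln14_12_5_ok))))))))) (M (nat_lit 461) (B (M (nat_lit 366) (B (L (nat_lit 334) ln14_10_5 ln14_10_5_ok) (L (nat_lit 493) ln13_15_6 ln13_15_6_ok))) (B (M (nat_lit 493) (B (L (nat_lit 364) ln13_15_7 ln13_15_7_ok) (L (nat_lit 366) ln13_15_6 ln13_15_6_ok))) (B (M (nat_lit 493) (B (L (nat_lit 364)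 ln13_15_7 ln13_15_7_ok) (L (nat_lit 525) ln13_16_7 ln13_16_7_ok))) (M (nat_lit 462) (B (M (nat_lit 366) (B (L (nat_lit 334) ln14_10_5 ln14_10_5_ok) (M (nat_lit 463) (B (L (nat_lit 495) ln14_11_4 ln14_11_4_ok) (L (nat_lit 464) ln16_14_3 ln16_14_3_ok))))) (M (nat_lit 399) (B (L (nat_lit 400) ln16_12_1 ln16_12_1_ok) (M (nat_lit 494) (B (L (nat_lit 367) ln14_15_6 ln14_15_6_ok) (L (nat_lit 526) ln14_16_7 ln14_16_7_ok)))))))))))))) (B (M (nat_lit 398) (B (M (nat_lit 399) (B (L (nat_lit 427) ln15_12_1 ln15_12_1_ok) (L (nat_lit 400) ln16_12_1 ln16_12_1_ok))) (B (M (nat_lit 462) (B (M (nat_lit 427) (B (L (nat_lit 426) ln10_13_2 ln10_13_2_ok) (L (nat_lit 463) ln11_13_0 ln11_13_0_ok))) (B (M (nat_lit 461) (B (M (nat_lit 366) (B (L (nat_lit 334) ln14_10_5 ln14_10_5_ok) (L (nat_lit 493) ln13_15_6 ln13_15_6_ok))) (M (nat_lit 463) (B (L (nat_lit 427) ln11_13_0 ln11_13_0_ok) (L (nat_lit 464) ln16_14_3 ln16_14_3_ok)))))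 (M (nat_lit 366) (B (M (nat_lit 334) (B (L (nat_lit 302) ln14_9_5 ln14_9_5_ok) (L (nat_lit 461) ln14_10_5 ln14_10_5_ok))) (B (M (nat_lit 461) (B (L (nat_lit 334) ln14_10_5 ln14_10_5_ok) (L (nat_lit 493) ln13_15_6 ln13_15_6_ok))) (B (M (nat_lit 493) (B (L (nat_lit 461) ln13_15_6 ln13_15_6_ok) (M (nat_lit 494) (B (L (nat_lit 526) ln14_16_7 ln14_16_7_ok) (L (nat_lit 525) ln14_12_5 ln14_12_5_ok))))) (M (nat_lit 334) (B (L (nat_lit 302) ln14_9_5 ln14_9_5_ok) (M (nat_lit 335) (B (L (nat_lit 303) ln14_13_6 ln14_13_6_ok) (L (nat_lit 367) ln14_14_6 ln14_14_6_ok)))))))))))) (M (nat_lit 399) (B (L (nat_lit 400) ln16_12_1 ln16_12_1_ok) (M (nat_lit 367) (B (L (nat_lit 368) ln12_12_2 ln12_12_2_ok) (M (nat_lit 462) (B (L (nat_lit 494) ln14_15_6 ln14_15_6_ok) (M (nat_lit 335) (B (L (nat_lit 303) ln15_9_5 ln15_9_5_ok) (L (nat_lit 366) ln14_14_6 ln14_14_6_ok)))))))))))) (B (M (nat_lit 427) (B (M (nat_lit 426) (B (L (nat_lit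 425) ln9_13_2 ln9_13_2_ok) (M (nat_lit 462) (B (L (nat_lit 461) ln10_13_0 ln10_13_0_ok) (L (nat_lit 463) ln11_13_0 ln11_13_0_ok))))) (M (nat_lit 459) (B (L (nat_lit 458) ln14_13_1 ln14_13_1_ok) (M (nat_lit 364) (B (L (nat_lit 332) ln12_10_5 ln12_10_5_ok) (M (nat_lit 491) (B (L (nat_lit 460) ln12_11_5 ln12_11_5_ok) (L (nat_lit 523) ln11_16_6 ln11_16_6_ok))))))))) (M (nat_lit 364) (B (M (nat_lit 332) (B (L (nat_lit 300) ln12_9_4 ln12_9_4_ok) (L (nat_lit 461) ln12_10_4 ln12_10_4_ok))) (B (M (nat_lit 461) (B (L (nat_lit 332) ln12_10_4 ln12_10_4_ok) (L (nat_lit 493) ln13_15_7 ln13_15_7_ok))) (B (M (nat_lit 460) (B (M (nat_lit 461) (B (L (nat_lit 493) ln13_15_7 ln13_15_7_ok) (M (nat_lit 459) (B (L (nat_lit 491) ln12_11_5 ln12_11_5_ok) (L (nat_lit 458) ln10_14_2 ln10_14_2_ok))))) (B (M (nat_lit 493) (B (L (nat_lit 461) ln13_15_7 ln13_15_7_ok) (M (nat_lit 492) (B (L (nat_lit 525) ln12_12_4 ln12_12_4_ok) (L (nat_lit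 524) ln12_16_6 ln12_16_6_ok))))) (M (nat_lit 492) (B (L (nat_lit 524) ln12_16_6 ln12_16_6_ok) (M (nat_lit 491) (B (L (nat_lit 459) ln12_11_5 ln12_11_5_ok) (L (nat_lit 523) ln12_12_5 ln12_12_5_ok)))))))) (M (nat_lit 460) (B (M (nat_lit 492) (B (L (nat_lit 524) ln12_16_6 ln12_16_6_ok) (M (nat_lit 491) (B (L (nat_lit 459) ln12_11_5 ln12_11_5_ok) (L (nat_lit 523) ln12_12_5 ln12_12_5_ok))))) (M (nat_lit 332) (B (L (nat_lit 300) ln12_9_4 ln12_9_4_ok) (M (nat_lit 331) (B (L (nat_lit 299) ln12_13_7 ln12_13_7_ok) (L (nat_lit 363) ln12_14_7 ln12_14_7_ok))))))))))))))))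
theorem c33_s3271 : Sem (nat_lit 5954262833588616189045454775727449782200140426655729889326512410598995827802636378947966951135270462223034447884645189467852659029962653696) (nat_lit 274591906577844596478484695343360798104398427837178185158330377256783411409092713334835537531077862143975113638650357786294931964737707408822162643432897511424) (nat_lit 274591906577844596478484695343360798104398427837178185158330377256783411409092713334835537531077862143975113638650357786294931964737707408822162643432897511424) :=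
  sem_of_chk (M (nat_lit 459) (B (M (nat_lit 364) (B (M (nat_lit 332) (B (L (nat_lit 300) ln12_9_4 ln12_9_4_ok) (L (nat_lit 428) ln12_10_4 ln12_10_4_ok))) (B (M (nat_lit 428) (B (L (nat_lit 332) ln12_10_4 ln12_10_4_ok) (M (nat_lit 458) (B (L (nat_lit 427) ln14_13_1 ln14_13_1_ok) (L (nat_lit 460) ln10_14_2 ln10_14_2_ok))))) (B (M (nat_lit 427) (B (M (nat_lit 395) (B (L (nat_lit 491) ln11_15_6 ln11_15_6_ok) (L (nat_lit 394) ln10_12_0 ln10_12_0_ok))) (M (nat_lit 458) (B (L (nat_lit 428) ln14_13_1 ln14_13_1_ok) (L (nat_lit 460) ln10_14_2 ln10_14_2_ok))))) (M (nat_lit 332) (B (L (nat_lit 300) ln12_9_4 ln12_9_4_ok) (M (nat_lit 395) (B (L (nat_lit 394) ln10_12_0 ln10_12_0_ok) (M (nat_lit 427) (B (L (nat_lit 363) ln11_14_6 ln11_14_6_ok) (L (nat_lit 491) ln11_15_6 ln11_15_6_ok))))))))))) (B (M (nat_lit 460) (B (L (nat_lit 458) ln10_14_2 ln10_14_2_ok) (M (nat_lit 428) (B (M (nat_lit 364) (B (L (nat_lit 332) ln12_10_4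 ln12_10_4_ok) (L (nat_lit 491) ln12_11_5 ln12_11_5_ok))) (M (nat_lit 395) (B (L (nat_lit 394) ln10_12_0 ln10_12_0_ok) (M (nat_lit 492) (B (L (nat_lit 363) ln12_15_7 ln12_15_7_ok) (L (nat_lit 524) ln12_16_6 ln12_16_6_ok))))))))) (B (M (nat_lit 460) (B (L (nat_lit 458) ln10_14_2 ln10_14_2_ok) (M (nat_lit 428) (B (M (nat_lit 395) (B (L (nat_lit 394) ln10_12_0 ln10_12_0_ok) (M (nat_lit 492) (B (L (nat_lit 363) ln12_15_7 ln12_15_7_ok) (L (nat_lit 524) ln12_16_6 ln12_16_6_ok))))) (M (nat_lit 462) (B (M (nat_lit 427) (B (L (nat_lit 426) ln10_13_0 ln10_13_0_ok) (L (nat_lit 463) ln11_13_0 ln11_13_0_ok))) (M (nat_lit 494) (B (L (nat_lit 526) ln14_16_7 ln14_16_7_ok) (L (nat_lit 495) ln11_14_0 ln11_14_0_ok))))))))) (B (M (nat_lit 460) (B (L (nat_lit 458) ln10_14_2 ln10_14_2_ok) (M (nat_lit 428) (B (M (nat_lit 364) (B (L (nat_lit 332) ln12_10_4 ln12_10_4_ok) (L (nat_lit 491) ln12_11_5 ln12_11_5_ok))) (M (nat_lit 462)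 (B (M (nat_lit 427) (B (L (nat_lit 426) ln10_13_0 ln10_13_0_ok) (L (nat_lit 463) ln11_13_0 ln11_13_0_ok))) (M (nat_lit 494) (B (L (nat_lit 526) ln14_16_7 ln14_16_7_ok) (L (nat_lit 495) ln11_14_0 ln11_14_0_ok))))))))) (B (M (nat_lit 427) (B (M (nat_lit 460) (B (L (nat_lit 458) ln10_14_2 ln10_14_2_ok) (M (nat_lit 462) (B (L (nat_lit 426) ln14_14_3 ln14_14_3_ok) (M (nat_lit 494) (B (L (nat_lit 526) ln14_16_7 ln14_16_7_ok) (L (nat_lit 495) ln11_14_0 ln11_14_0_ok))))))) (M (nat_lit 395) (B (L (nat_lit 394) ln10_12_0 ln10_12_0_ok) (M (nat_lit 364) (B (L (nat_lit 491) ln11_15_6 ln11_15_6_ok) (M (nat_lit 332) (B (L (nat_lit 300) ln12_9_5 ln12_9_5_ok) (L (nat_lit 363) ln11_14_6 ln11_14_6_ok))))))))) (B (M (nat_lit 428) (B (M (nat_lit 395) (B (L (nat_lit 394) ln10_12_0 ln10_12_0_ok) (M (nat_lit 364) (B (L (nat_lit 332) ln12_10_4 ln12_10_4_ok) (M (nat_lit 491) (B (L (nat_lit 427) ln11_15_6 ln11_15_6_ok) (L (nat_lit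 460) ln12_11_5 ln12_11_5_ok))))))) (B (M (nat_lit 460) (B (M (nat_lit 395) (B (L (nat_lit 394) ln10_12_0 ln10_12_0_ok) (M (nat_lit 492) (B (L (nat_lit 363) ln12_15_7 ln12_15_7_ok) (L (nat_lit 524) ln12_16_6 ln12_16_6_ok))))) (M (nat_lit 462) (B (M (nat_lit 427) (B (L (nat_lit 426) ln10_13_0 ln10_13_0_ok) (L (nat_lit 463) ln11_13_0 ln11_13_0_ok))) (M (nat_lit 494) (B (L (nat_lit 526) ln14_16_7 ln14_16_7_ok) (L (nat_lit 495) ln11_14_0 ln11_14_0_ok))))))) (B (M (nat_lit 460) (B (M (nat_lit 364) (B (L (nat_lit 332) ln12_10_4 ln12_10_4_ok) (L (nat_lit 491) ln12_11_5 ln12_11_5_ok))) (M (nat_lit 462) (B (M (nat_lit 427) (B (L (nat_lit 426) ln10_13_0 ln10_13_0_ok) (L (nat_lit 463) ln11_13_0 ln11_13_0_ok))) (M (nat_lit 494) (B (L (nat_lit 526) ln14_16_7 ln14_16_7_ok) (L (nat_lit 495) ln11_14_0 ln11_14_0_ok))))))) (B (M (nat_lit 460) (B (M (nat_lit 364) (B (L (nat_lit 332) ln12_10_4 ln12_10_4_ok) (L (nat_lit 491)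 ln12_11_5 ln12_11_5_ok))) (M (nat_lit 395) (B (L (nat_lit 394) ln10_12_0 ln10_12_0_ok) (M (nat_lit 492) (B (L (nat_lit 363) ln12_15_7 ln12_15_7_ok) (L (nat_lit 524) ln12_16_6 ln12_16_6_ok))))))) (M (nat_lit 395) (B (L (nat_lit 394) ln10_12_0 ln10_12_0_ok) (M (nat_lit 427) (B (M (nat_lit 364) (B (L (nat_lit 332) ln12_10_5 ln12_10_5_ok) (L (nat_lit 491) ln11_15_6 ln11_15_6_ok))) (M (nat_lit 462) (B (L (nat_lit 426) ln10_13_0 ln10_13_0_ok) (L (nat_lit 463) ln11_13_0 ln11_13_0_ok)))))))))))) (M (nat_lit 364) (B (M (nat_lit 332) (B (L (nat_lit 300) ln12_9_4 ln12_9_4_ok) (L (nat_lit 428) ln12_10_4 ln12_10_4_ok))) (B (M (nat_lit 427) (B (M (nat_lit 395) (B (L (nat_lit 491) ln11_15_6 ln11_15_6_ok) (L (nat_lit 394) ln10_12_0 ln10_12_0_ok))) (M (nat_lit 428) (B (L (nat_lit 332) ln12_10_5 ln12_10_5_ok) (L (nat_lit 458) ln14_13_1 ln14_13_1_ok))))) (B (M (nat_lit 427) (B (M (nat_lit 395) (B (L (nat_lit 491) ln11_15_6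 ln11_15_6_ok) (L (nat_lit 394) ln10_12_0 ln10_12_0_ok))) (M (nat_lit 428) (B (L (nat_lit 458) ln14_13_1 ln14_13_1_ok) (M (nat_lit 426) (B (L (nat_lit 425) ln9_13_2 ln9_13_2_ok) (L (nat_lit 462) ln10_13_0 ln10_13_0_ok))))))) (M (nat_lit 332) (B (L (nat_lit 300) ln12_9_4 ln12_9_4_ok) (M (nat_lit 395) (B (L (nat_lit 394) ln10_12_0 ln10_12_0_ok) (M (nat_lit 427) (B (L (nat_lit 363) ln11_14_6 ln11_14_6_ok) (L (nat_lit 491) ln11_15_6 ln11_15_6_ok)))))))))))))))))) (nat_lit 5954262833588616189045454775727449782200140426655729889326512410598995827802636378947966951135270462223034447884645189467852659029962653696) (nat_lit 274591906577844596478484695343360798104398427837178185158330377256783411409092713334835537531077862143975113638650357786294931964737707408822162643432897511424) (nat_lit 274591906577844596478484695343360798104398427837178185158330377256783411409092713334835537531077862143975113638650357786294931964737707408822162643432897511424)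 (by decide +kernel)
noncomputable def c33_n3272 : Cert := (M (nat_lit 461) (B (M (nat_lit 364) (B (L (nat_lit 493) ln13_15_7 ln13_15_7_ok) (M (nat_lit 332) (B (L (nat_lit 300) ln12_9_4 ln12_9_4_ok) (L (nat_lit 428) ln12_10_4 ln12_10_4_ok))))) (B (M (nat_lit 493) (B (L (nat_lit 364) ln13_15_7 ln13_15_7_ok) (M (nat_lit 525) (B (L (nat_lit 428) ln13_16_7 ln13_16_7_ok) (M (nat_lit 524) (B (L (nat_lit 492) ln13_12_5 ln13_12_5_ok) (L (nat_lit 556) ln13_13_5 ln13_13_5_ok))))))) (B (M (nat_lit 492) (B (M (nat_lit 524) (B (L (nat_lit 493) ln13_12_5 ln13_12_5_ok) (M (nat_lit 460) (B (L (nat_lit 428) ln12_16_6 ln12_16_6_ok) (L (nat_lit 556) ln12_17_6 ln12_17_6_ok))))) (B (M (nat_lit 493) (B (L (nat_lit 524) ln13_12_5 ln13_12_5_ok) (M (nat_lit 462) (B (M (nat_lit 494) (B (L (nat_lit 526) ln14_16_7 ln14_16_7_ok) (M (nat_lit 463) (B (L (nat_lit 464) ln16_14_1 ln16_14_1_ok) (L (nat_lit 491) ln11_15_2 ln11_15_2_ok)))))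 (B (M (nat_lit 525) (B (L (nat_lit 557) ln13_17_6 ln13_17_6_ok) (M (nat_lit 526) (B (L (nat_lit 494) ln14_16_7 ln14_16_7_ok) (L (nat_lit 558) ln13_13_4 ln13_13_4_ok))))) (M (nat_lit 463) (B (L (nat_lit 464) ln16_14_1 ln16_14_1_ok) (M (nat_lit 491) (B (L (nat_lit 460) ln15_14_1 ln15_14_1_ok) (L (nat_lit 490) ln10_15_2 ln10_15_2_ok)))))))))) (B (M (nat_lit 493) (B (L (nat_lit 524) ln13_12_5 ln13_12_5_ok) (M (nat_lit 525) (B (L (nat_lit 428) ln13_16_7 ln13_16_7_ok) (M (nat_lit 526) (B (L (nat_lit 494) ln13_12_4 ln13_12_4_ok) (L (nat_lit 558) ln13_13_4 ln13_13_4_ok))))))) (B (M (nat_lit 460) (B (M (nat_lit 524) (B (L (nat_lit 428) ln12_16_6 ln12_16_6_ok) (L (nat_lit 556) ln12_17_6 ln12_17_6_ok))) (M (nat_lit 459) (B (L (nat_lit 458) ln10_14_2 ln10_14_2_ok) (M (nat_lit 462) (B (M (nat_lit 494) (B (L (nat_lit 526) ln14_16_7 ln14_16_7_ok) (L (nat_lit 495) ln11_14_0 ln11_14_0_ok))) (M (nat_lit 491) (B (L (nat_lit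 490) ln14_14_1 ln14_14_1_ok) (L (nat_lit 463) ln15_14_1 ln15_14_1_ok))))))))) (M (nat_lit 460) (B (M (nat_lit 395) (B (L (nat_lit 394) ln10_12_0 ln10_12_0_ok) (M (nat_lit 459) (B (L (nat_lit 458) ln10_14_2 ln10_14_2_ok) (M (nat_lit 363) (B (L (nat_lit 428) ln12_15_7 ln12_15_7_ok) (L (nat_lit 427) ln11_11_4 ln11_11_4_ok))))))) (B (M (nat_lit 459) (B (L (nat_lit 458) ln10_14_2 ln10_14_2_ok) (M (nat_lit 462) (B (M (nat_lit 494) (B (L (nat_lit 526) ln14_16_7 ln14_16_7_ok) (L (nat_lit 495) ln11_14_0 ln11_14_0_ok))) (M (nat_lit 491) (B (L (nat_lit 490) ln14_14_1 ln14_14_1_ok) (L (nat_lit 463) ln15_14_1 ln15_14_1_ok))))))) (B (M (nat_lit 459) (B (M (nat_lit 395) (B (L (nat_lit 394) ln10_12_0 ln10_12_0_ok) (M (nat_lit 363) (B (L (nat_lit 428) ln12_15_7 ln12_15_7_ok) (L (nat_lit 427) ln11_11_4 ln11_11_4_ok))))) (M (nat_lit 462) (B (M (nat_lit 494) (B (L (nat_lit 526) ln14_16_7 ln14_16_7_ok) (L (nat_lit 495) ln11_14_0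 ln11_14_0_ok))) (M (nat_lit 491) (B (L (nat_lit 490) ln14_14_1 ln14_14_1_ok) (L (nat_lit 463) ln15_14_1 ln15_14_1_ok))))))) (M (nat_lit 491) (B (M (nat_lit 428) (B (L (nat_lit 523) ln12_12_5 ln12_12_5_ok) (M (nat_lit 395) (B (L (nat_lit 363) ln12_15_7 ln12_15_7_ok) (L (nat_lit 394) ln10_12_0 ln10_12_0_ok))))) (M (nat_lit 462) (B (L (nat_lit 463) ln15_14_1 ln15_14_1_ok) (M (nat_lit 490) (B (L (nat_lit 489) ln9_15_2 ln9_15_2_ok) (L (nat_lit 493) ln10_15_2 ln10_15_2_ok)))))))))))))))) (B (M (nat_lit 493) (B (L (nat_lit 364) ln13_15_7 ln13_15_7_ok) (M (nat_lit 525) (B (M (nat_lit 524) (B (L (nat_lit 492) ln13_12_5 ln13_12_5_ok) (L (nat_lit 556) ln13_13_5 ln13_13_5_ok))) (M (nat_lit 526) (B (L (nat_lit 494) ln13_12_4 ln13_12_4_ok) (L (nat_lit 558) ln13_13_4 ln13_13_4_ok))))))) (K (nat_lit 5954262833588616189045454775727449782200140426655729889326512410598995827802636378947966951135270462223034447884645189467852659029962653696)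 (nat_lit 274591906577844596478484695343360798104398427837178185158330377256783411409092713334835537531077862143975113638650357786294931964737707408822162643432897511424) (nat_lit 274591906577844596478484695343360798104398427837178185158330377256783411409092713334835537531077862143975113638650357786294931964737707408822162643432897511424) c33_s3271))))))
noncomputable def c33_n3322 : Cert := (M (nat_lit 427) (B (M (nat_lit 395) (B (L (nat_lit 394) ln10_12_0 ln10_12_0_ok) (M (nat_lit 398) (B (L (nat_lit 426) ln14_12_1 ln14_12_1_ok) (M (nat_lit 399) (B (L (nat_lit 428) ln15_12_1 ln15_12_1_ok) (M (nat_lit 363) (B (L (nat_lit 362) ln14_12_3 ln14_12_3_ok) (L (nat_lit 364) ln15_12_3 ln15_12_3_ok))))))))) (B (M (nat_lit 398) (B (M (nat_lit 395) (B (L (nat_lit 394) ln10_12_0 ln10_12_0_ok) (L (nat_lit 426) ln14_12_1 ln14_12_1_ok))) (B (M (nat_lit 426) (B (L (nat_lit 395) ln14_12_1 ln14_12_1_ok) (L (nat_lit 428)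 ln10_13_2 ln10_13_2_ok))) (B (M (nat_lit 428) (B (L (nat_lit 399) ln15_12_1 ln15_12_1_ok) (L (nat_lit 426) ln10_13_2 ln10_13_2_ok))) (M (nat_lit 367) (B (M (nat_lit 395) (B (L (nat_lit 366) ln11_12_2 ln11_12_2_ok) (L (nat_lit 394) ln10_12_0 ln10_12_0_ok))) (M (nat_lit 399) (B (L (nat_lit 368) ln12_12_2 ln12_12_2_ok) (L (nat_lit 428) ln15_12_1 ln15_12_1_ok))))))))) (B (M (nat_lit 428) (B (M (nat_lit 426) (B (L (nat_lit 425) ln9_13_2 ln9_13_2_ok) (L (nat_lit 398) ln10_13_2 ln10_13_2_ok))) (M (nat_lit 459) (B (L (nat_lit 458) ln14_13_1 ln14_13_1_ok) (M (nat_lit 364) (B (L (nat_lit 332) ln12_10_5 ln12_10_5_ok) (M (nat_lit 491) (B (L (nat_lit 460) ln12_11_5 ln12_11_5_ok) (L (nat_lit 523) ln11_16_6 ln11_16_6_ok))))))))) (B (M (nat_lit 428) (B (M (nat_lit 426) (B (L (nat_lit 425) ln9_13_2 ln9_13_2_ok) (M (nat_lit 394) (B (L (nat_lit 393) ln13_13_3 ln13_13_3_ok) (L (nat_lit 395) ln10_12_0 ln10_12_0_ok))))) (B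 (M (nat_lit 395) (B (L (nat_lit 394) ln10_12_0 ln10_12_0_ok) (M (nat_lit 459) (B (L (nat_lit 458) ln14_13_1 ln14_13_1_ok) (M (nat_lit 364) (B (L (nat_lit 332) ln12_10_5 ln12_10_5_ok) (L (nat_lit 491) ln11_15_6 ln11_15_6_ok))))))) (M (nat_lit 459) (B (L (nat_lit 458) ln14_13_1 ln14_13_1_ok) (M (nat_lit 364) (B (L (nat_lit 332) ln12_10_5 ln12_10_5_ok) (M (nat_lit 491) (B (L (nat_lit 460) ln12_11_5 ln12_11_5_ok) (L (nat_lit 523) ln11_16_6 ln11_16_6_ok)))))))))) (B (M (nat_lit 428) (B (M (nat_lit 395) (B (L (nat_lit 394) ln10_12_0 ln10_12_0_ok) (M (nat_lit 459) (B (L (nat_lit 458) ln14_13_1 ln14_13_1_ok) (M (nat_lit 364) (B (L (nat_lit 332) ln12_10_5 ln12_10_5_ok) (L (nat_lit 491) ln11_15_6 ln11_15_6_ok))))))) (B (M (nat_lit 395) (B (L (nat_lit 394) ln10_12_0 ln10_12_0_ok) (M (nat_lit 459) (B (L (nat_lit 458) ln14_13_1 ln14_13_1_ok) (M (nat_lit 491) (B (L (nat_lit 364) ln11_15_6 ln11_15_6_ok) (L (nat_lit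 523) ln11_16_6 ln11_16_6_ok))))))) (B (M (nat_lit 395) (B (L (nat_lit 394) ln10_12_0 ln10_12_0_ok) (M (nat_lit 363) (B (M (nat_lit 331) (B (L (nat_lit 299) ln11_9_4 ln11_9_4_ok) (L (nat_lit 460) ln11_10_4 ln11_10_4_ok))) (M (nat_lit 398) (B (L (nat_lit 362) ln14_12_3 ln14_12_3_ok) (L (nat_lit 399) ln15_12_1 ln15_12_1_ok))))))) (M (nat_lit 459) (B (L (nat_lit 458) ln14_13_1 ln14_13_1_ok) (M (nat_lit 364) (B (L (nat_lit 332) ln12_10_5 ln12_10_5_ok) (M (nat_lit 491) (B (L (nat_lit 460) ln12_11_5 ln12_11_5_ok) (L (nat_lit 523) ln11_16_6 ln11_16_6_ok))))))))))) (M (nat_lit 395) (B (L (nat_lit 394) ln10_12_0 ln10_12_0_ok) (M (nat_lit 398) (B (L (nat_lit 426) ln14_12_1 ln14_12_1_ok) (M (nat_lit 399) (B (M (nat_lit 363) (B (L (nat_lit 362) ln14_12_3 ln14_12_3_ok) (L (nat_lit 364) ln15_12_3 ln15_12_3_ok))) (M (nat_lit 367) (B (L (nat_lit 366) ln11_12_2 ln11_12_2_ok) (L (nat_lit 368) ln12_12_2 ln12_12_2_ok)))))))))))))))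
theorem c33_s3323 : Sem (nat_lit 4159004541504003524128484849921615451655032097354938086859372310025764381276019387312066758484915036306104045371593254240054673408) (nat_lit 1651108561271312201416505289911552688992888379069693290274566598765673543563114691858773533566433582098135581558029111034382138130264910280770309400175811510764268683264) (nat_lit 1651108561271312201416505289911552688992888379069693290274566598765673543563114691858773533566433582098135581558029111034382138130264910280770309400175811510764268683264) :=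
  sem_of_chk (M (nat_lit 396) (B (M (nat_lit 395) (B (L (nat_lit 394) ln10_12_0 ln10_12_0_ok) (M (nat_lit 398) (B (M (nat_lit 366) (B (L (nat_lit 367) ln11_12_2 ln11_12_2_ok) (M (nat_lit 461) (B (L (nat_lit 334) ln14_10_5 ln14_10_5_ok) (L (nat_lit 493) ln13_15_6 ln13_15_6_ok))))) (M (nat_lit 399) (B (M (nat_lit 363) (B (L (nat_lit 362) ln14_12_3 ln14_12_3_ok) (L (nat_lit 364) ln15_12_3 ln15_12_3_ok))) (M (nat_lit 400) (B (L (nat_lit 428) ln16_12_1 ln16_12_1_ok) (L (nat_lit 401) ln17_12_1 ln17_12_1_ok))))))))) (B (M (nat_lit 395) (B (L (nat_lit 394) ln10_12_0 ln10_12_0_ok) (M (nat_lit 427) (B (M (nat_lit 398) (B (L (nat_lit 426) ln14_12_1 ln14_12_1_ok) (M (nat_lit 399) (B (L (nat_lit 428) ln15_12_1 ln15_12_1_ok) (M (nat_lit 367) (B (L (nat_lit 366) ln11_12_2 ln11_12_2_ok) (L (nat_lit 368) ln12_12_2 ln12_12_2_ok))))))) (B (M (nat_lit 398) (B (L (nat_lit 426) ln14_12_1 ln14_12_1_ok) (M (nat_lit 399) (B (L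 (nat_lit 428) ln15_12_1 ln15_12_1_ok) (M (nat_lit 363) (B (L (nat_lit 362) ln14_12_3 ln14_12_3_ok) (L (nat_lit 364) ln15_12_3 ln15_12_3_ok))))))) (B (M (nat_lit 428) (B (M (nat_lit 459) (B (L (nat_lit 458) ln14_13_1 ln14_13_1_ok) (M (nat_lit 364) (B (L (nat_lit 332) ln12_10_5 ln12_10_5_ok) (L (nat_lit 491) ln11_15_6 ln11_15_6_ok))))) (M (nat_lit 462) (B (L (nat_lit 463) ln11_13_0 ln11_13_0_ok) (M (nat_lit 426) (B (L (nat_lit 425) ln9_13_2 ln9_13_2_ok) (L (nat_lit 461) ln10_13_0 ln10_13_0_ok))))))) (B (M (nat_lit 428) (B (M (nat_lit 459) (B (L (nat_lit 458) ln14_13_1 ln14_13_1_ok) (M (nat_lit 364) (B (L (nat_lit 332) ln12_10_5 ln12_10_5_ok) (L (nat_lit 491) ln11_15_6 ln11_15_6_ok))))) (M (nat_lit 363) (B (M (nat_lit 331) (B (L (nat_lit 299) ln11_9_4 ln11_9_4_ok) (L (nat_lit 460) ln11_10_4 ln11_10_4_ok))) (M (nat_lit 398) (B (L (nat_lit 362) ln14_12_3 ln14_12_3_ok) (L (nat_lit 399) ln15_12_1 ln15_12_1_ok)))))))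 (M (nat_lit 398) (B (L (nat_lit 426) ln14_12_1 ln14_12_1_ok) (M (nat_lit 399) (B (M (nat_lit 363) (B (L (nat_lit 362) ln14_12_3 ln14_12_3_ok) (L (nat_lit 364) ln15_12_3 ln15_12_3_ok))) (M (nat_lit 367) (B (L (nat_lit 366) ln11_12_2 ln11_12_2_ok) (L (nat_lit 368) ln12_12_2 ln12_12_2_ok)))))))))))))) (B (M (nat_lit 395) (B (L (nat_lit 394) ln10_12_0 ln10_12_0_ok) (M (nat_lit 398) (B (M (nat_lit 366) (B (L (nat_lit 367) ln11_12_2 ln11_12_2_ok) (M (nat_lit 461) (B (L (nat_lit 334) ln14_10_5 ln14_10_5_ok) (L (nat_lit 493) ln13_15_6 ln13_15_6_ok))))) (B (M (nat_lit 399) (B (M (nat_lit 367) (B (L (nat_lit 366) ln11_12_2 ln11_12_2_ok) (L (nat_lit 368) ln12_12_2 ln12_12_2_ok))) (M (nat_lit 427) (B (L (nat_lit 426) ln14_12_1 ln14_12_1_ok) (L (nat_lit 428) ln15_12_1 ln15_12_1_ok))))) (B (M (nat_lit 399) (B (M (nat_lit 427) (B (L (nat_lit 426) ln14_12_1 ln14_12_1_ok) (L (nat_lit 428) ln15_12_1 ln15_12_1_ok))) (B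 (M (nat_lit 428) (B (L (nat_lit 427) ln15_12_1 ln15_12_1_ok) (L (nat_lit 400) ln16_12_1 ln16_12_1_ok))) (B (M (nat_lit 400) (B (L (nat_lit 428) ln16_12_1 ln16_12_1_ok) (L (nat_lit 401) ln17_12_1 ln17_12_1_ok))) (M (nat_lit 400) (B (L (nat_lit 401) ln17_12_1 ln17_12_1_ok) (M (nat_lit 368) (B (L (nat_lit 367) ln12_12_2 ln12_12_2_ok) (L (nat_lit 369) ln13_12_2 ln13_12_2_ok))))))))) (M (nat_lit 462) (B (M (nat_lit 427) (B (L (nat_lit 426) ln14_12_1 ln14_12_1_ok) (M (nat_lit 428) (B (L (nat_lit 399) ln15_12_1 ln15_12_1_ok) (L (nat_lit 463) ln11_13_0 ln11_13_0_ok))))) (M (nat_lit 493) (B (M (nat_lit 461) (B (L (nat_lit 364) ln13_15_7 ln13_15_7_ok) (L (nat_lit 366) ln13_15_6 ln13_15_6_ok))) (B (M (nat_lit 461) (B (L (nat_lit 366) ln13_15_6 ln13_15_6_ok) (L (nat_lit 525) ln13_16_6 ln13_16_6_ok))) (B (M (nat_lit 461) (B (L (nat_lit 364) ln13_15_7 ln13_15_7_ok) (L (nat_lit 525) ln13_16_6 ln13_16_6_ok))) (M (nat_lit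 494) (B (L (nat_lit 526) ln14_16_7 ln14_16_7_ok) (L (nat_lit 525) ln14_12_5 ln14_12_5_ok))))))))))))))) (B (M (nat_lit 395) (B (L (nat_lit 394) ln10_12_0 ln10_12_0_ok) (M (nat_lit 398) (B (M (nat_lit 366) (B (L (nat_lit 367) ln11_12_2 ln11_12_2_ok) (M (nat_lit 461) (B (L (nat_lit 334) ln14_10_5 ln14_10_5_ok) (L (nat_lit 493) ln13_15_6 ln13_15_6_ok))))) (B (M (nat_lit 399) (B (M (nat_lit 367) (B (L (nat_lit 366) ln11_12_2 ln11_12_2_ok) (L (nat_lit 368) ln12_12_2 ln12_12_2_ok))) (M (nat_lit 427) (B (L (nat_lit 426) ln14_12_1 ln14_12_1_ok) (L (nat_lit 428) ln15_12_1 ln15_12_1_ok))))) (B (M (nat_lit 399) (B (M (nat_lit 427) (B (L (nat_lit 426) ln14_12_1 ln14_12_1_ok) (L (nat_lit 428) ln15_12_1 ln15_12_1_ok))) (B (M (nat_lit 428) (B (L (nat_lit 427) ln15_12_1 ln15_12_1_ok) (L (nat_lit 400) ln16_12_1 ln16_12_1_ok))) (B (M (nat_lit 400) (B (L (nat_lit 428) ln16_12_1 ln16_12_1_ok) (L (nat_lit 401) ln17_12_1 ln17_12_1_ok)))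 (M (nat_lit 400) (B (L (nat_lit 401) ln17_12_1 ln17_12_1_ok) (M (nat_lit 368) (B (L (nat_lit 367) ln12_12_2 ln12_12_2_ok) (L (nat_lit 369) ln13_12_2 ln13_12_2_ok))))))))) (M (nat_lit 427) (B (L (nat_lit 426) ln14_12_1 ln14_12_1_ok) (M (nat_lit 428) (B (L (nat_lit 399) ln15_12_1 ln15_12_1_ok) (M (nat_lit 363) (B (L (nat_lit 362) ln14_12_3 ln14_12_3_ok) (M (nat_lit 331) (B (L (nat_lit 299) ln11_9_4 ln11_9_4_ok) (L (nat_lit 460) ln11_10_4 ln11_10_4_ok))))))))))))))) (B (M (nat_lit 395) (B (L (nat_lit 394) ln10_12_0 ln10_12_0_ok) (M (nat_lit 428) (B (M (nat_lit 427) (B (M (nat_lit 462) (B (L (nat_lit 463) ln11_13_0 ln11_13_0_ok) (M (nat_lit 426) (B (L (nat_lit 425) ln9_13_2 ln9_13_2_ok) (L (nat_lit 461) ln10_13_0 ln10_13_0_ok))))) (M (nat_lit 459) (B (L (nat_lit 458) ln14_13_1 ln14_13_1_ok) (M (nat_lit 364) (B (L (nat_lit 332) ln12_10_5 ln12_10_5_ok) (L (nat_lit 491) ln11_15_6 ln11_15_6_ok))))))) (B (M (nat_lit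 427) (B (M (nat_lit 398) (B (L (nat_lit 426) ln14_12_1 ln14_12_1_ok) (L (nat_lit 399) ln15_12_1 ln15_12_1_ok))) (B (M (nat_lit 462) (B (L (nat_lit 463) ln11_13_0 ln11_13_0_ok) (M (nat_lit 426) (B (L (nat_lit 425) ln9_13_2 ln9_13_2_ok) (L (nat_lit 461) ln10_13_0 ln10_13_0_ok))))) (M (nat_lit 363) (B (M (nat_lit 331) (B (L (nat_lit 299) ln11_9_4 ln11_9_4_ok) (L (nat_lit 460) ln11_10_4 ln11_10_4_ok))) (M (nat_lit 398) (B (L (nat_lit 362) ln14_12_3 ln14_12_3_ok) (L (nat_lit 399) ln15_12_1 ln15_12_1_ok)))))))) (B (M (nat_lit 427) (B (M (nat_lit 398) (B (L (nat_lit 426) ln14_12_1 ln14_12_1_ok) (L (nat_lit 399) ln15_12_1 ln15_12_1_ok))) (M (nat_lit 459) (B (L (nat_lit 458) ln14_13_1 ln14_13_1_ok) (M (nat_lit 364) (B (L (nat_lit 332) ln12_10_5 ln12_10_5_ok) (L (nat_lit 491) ln11_15_6 ln11_15_6_ok))))))) (B (M (nat_lit 427) (B (M (nat_lit 459) (B (L (nat_lit 458) ln14_13_1 ln14_13_1_ok) (M (nat_lit 364) (B (L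 (nat_lit 332) ln12_10_5 ln12_10_5_ok) (L (nat_lit 491) ln11_15_6 ln11_15_6_ok))))) (M (nat_lit 363) (B (M (nat_lit 331) (B (L (nat_lit 299) ln11_9_4 ln11_9_4_ok) (L (nat_lit 460) ln11_10_4 ln11_10_4_ok))) (M (nat_lit 398) (B (L (nat_lit 362) ln14_12_3 ln14_12_3_ok) (L (nat_lit 399) ln15_12_1 ln15_12_1_ok))))))) (M (nat_lit 364) (B (M (nat_lit 461) (B (L (nat_lit 332) ln12_10_4 ln12_10_4_ok) (L (nat_lit 493) ln13_15_7 ln13_15_7_ok))) (M (nat_lit 363) (B (M (nat_lit 331) (B (L (nat_lit 299) ln11_9_4 ln11_9_4_ok) (L (nat_lit 460) ln12_14_7 ln12_14_7_ok))) (M (nat_lit 398) (B (L (nat_lit 362) ln14_12_3 ln14_12_3_ok) (L (nat_lit 399) ln15_12_3 ln15_12_3_ok)))))))))))))) (B c33_n3019 (B c33_n3099 (B c33_n3272 (B (M (nat_lit 395) (B (L (nat_lit 394) ln10_12_0 ln10_12_0_ok) (M (nat_lit 398) (B (M (nat_lit 366) (B (L (nat_lit 367) ln11_12_2 ln11_12_2_ok) (M (nat_lit 461) (B (L (nat_lit 334) ln14_10_5 ln14_10_5_ok)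 (L (nat_lit 493) ln13_15_6 ln13_15_6_ok))))) (B (M (nat_lit 399) (B (M (nat_lit 363) (B (L (nat_lit 362) ln14_12_3 ln14_12_3_ok) (L (nat_lit 364) ln15_12_3 ln15_12_3_ok))) (M (nat_lit 367) (B (L (nat_lit 366) ln11_12_2 ln11_12_2_ok) (L (nat_lit 368) ln12_12_2 ln12_12_2_ok))))) (B (M (nat_lit 399) (B (M (nat_lit 363) (B (L (nat_lit 362) ln14_12_3 ln14_12_3_ok) (L (nat_lit 364) ln15_12_3 ln15_12_3_ok))) (M (nat_lit 400) (B (L (nat_lit 401) ln17_12_1 ln17_12_1_ok) (M (nat_lit 368) (B (L (nat_lit 367) ln12_12_2 ln12_12_2_ok) (L (nat_lit 369) ln13_12_2 ln13_12_2_ok))))))) (M (nat_lit 427) (B (L (nat_lit 426) ln14_12_1 ln14_12_1_ok) (M (nat_lit 363) (B (L (nat_lit 362) ln14_12_3 ln14_12_3_ok) (M (nat_lit 364) (B (L (nat_lit 399) ln15_12_3 ln15_12_3_ok) (M (nat_lit 332) (B (L (nat_lit 300) ln12_9_5 ln12_9_5_ok) (L (nat_lit 459) ln11_14_6 ln11_14_6_ok))))))))))))))) c33_n3322)))))))))) (nat_lit 4159004541504003524128484849921615451655032097354938086859372310025764381276019387312066758484915036306104045371593254240054673408)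 (nat_lit 1651108561271312201416505289911552688992888379069693290274566598765673543563114691858773533566433582098135581558029111034382138130264910280770309400175811510764268683264) (nat_lit 1651108561271312201416505289911552688992888379069693290274566598765673543563114691858773533566433582098135581558029111034382138130264910280770309400175811510764268683264) (by decide +kernel)
noncomputable def c33_n3352 : Cert := (M (nat_lit 431) (B (M (nat_lit 396) (B (L (nat_lit 432) ln16_13_3 ln16_13_3_ok) (M (nat_lit 395) (B (L (nat_lit 394) ln10_12_0 ln10_12_0_ok) (L (nat_lit 398) ln11_12_0 ln11_12_0_ok))))) (B (M (nat_lit 396) (B (L (nat_lit 432) ln16_13_3 ln16_13_3_ok) (M (nat_lit 395) (B (L (nat_lit 398) ln11_12_0 ln11_12_0_ok) (L (nat_lit 428) ln15_13_3 ln15_13_3_ok))))) (B (M (nat_lit 428) (B (M (nat_lit 432) (B (L (nat_lit 396) ln16_13_3 ln16_13_3_ok) (M (nat_lit 400) (B (L (nat_lit 399) ln12_13_2 ln12_13_2_ok)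 (L (nat_lit 401) ln13_13_2 ln13_13_2_ok))))) (B (M (nat_lit 427) (B (M (nat_lit 398) (B (L (nat_lit 426) ln10_13_2 ln10_13_2_ok) (L (nat_lit 399) ln11_13_2 ln11_13_2_ok))) (M (nat_lit 463) (B (L (nat_lit 462) ln11_13_0 ln11_13_0_ok) (L (nat_lit 464) ln12_13_0 ln12_13_0_ok))))) (M (nat_lit 432) (B (L (nat_lit 396) ln16_13_3 ln16_13_3_ok) (M (nat_lit 464) (B (L (nat_lit 463) ln12_13_0 ln12_13_0_ok) (L (nat_lit 465) ln13_13_0 ln13_13_0_ok)))))))) (B (M (nat_lit 428) (B (M (nat_lit 399) (B (L (nat_lit 400) ln12_13_2 ln12_13_2_ok) (M (nat_lit 427) (B (L (nat_lit 398) ln11_13_2 ln11_13_2_ok) (M (nat_lit 463) (B (L (nat_lit 462) ln11_13_0 ln11_13_0_ok) (L (nat_lit 464) ln12_13_0 ln12_13_0_ok))))))) (B (M (nat_lit 432) (B (M (nat_lit 400) (B (L (nat_lit 399) ln12_13_2 ln12_13_2_ok) (L (nat_lit 401) ln13_13_2 ln13_13_2_ok))) (M (nat_lit 464) (B (L (nat_lit 463) ln12_13_0 ln12_13_0_ok) (L (nat_lit 465) ln13_13_0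 ln13_13_0_ok))))) (B (M (nat_lit 427) (B (M (nat_lit 463) (B (L (nat_lit 462) ln11_13_0 ln11_13_0_ok) (L (nat_lit 464) ln12_13_0 ln12_13_0_ok))) (M (nat_lit 426) (B (L (nat_lit 398) ln10_13_2 ln10_13_2_ok) (M (nat_lit 394) (B (L (nat_lit 393) ln13_13_3 ln13_13_3_ok) (L (nat_lit 395) ln14_13_3 ln14_13_3_ok))))))) (M (nat_lit 427) (B (M (nat_lit 398) (B (L (nat_lit 426) ln10_13_2 ln10_13_2_ok) (L (nat_lit 399) ln11_13_2 ln11_13_2_ok))) (B (M (nat_lit 426) (B (M (nat_lit 394) (B (L (nat_lit 393) ln13_13_3 ln13_13_3_ok) (L (nat_lit 395) ln14_13_3 ln14_13_3_ok))) (M (nat_lit 458) (B (L (nat_lit 457) ln13_13_1 ln13_13_1_ok) (L (nat_lit 459) ln14_13_1 ln14_13_1_ok))))) (M (nat_lit 399) (B (L (nat_lit 398) ln11_13_2 ln11_13_2_ok) (L (nat_lit 400) ln12_13_2 ln12_13_2_ok)))))))))) (B (M (nat_lit 396) (B (L (nat_lit 432) ln16_13_3 ln16_13_3_ok) (M (nat_lit 395) (B (L (nat_lit 394) ln10_12_0 ln10_12_0_ok) (L (nat_lit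 428) ln15_13_3 ln15_13_3_ok))))) (M (nat_lit 428) (B (M (nat_lit 399) (B (L (nat_lit 400) ln12_13_2 ln12_13_2_ok) (M (nat_lit 427) (B (L (nat_lit 398) ln11_13_2 ln11_13_2_ok) (M (nat_lit 463) (B (L (nat_lit 462) ln11_13_0 ln11_13_0_ok) (L (nat_lit 464) ln12_13_0 ln12_13_0_ok))))))) (B (M (nat_lit 427) (B (M (nat_lit 463) (B (L (nat_lit 462) ln11_13_0 ln11_13_0_ok) (L (nat_lit 464) ln12_13_0 ln12_13_0_ok))) (M (nat_lit 426) (B (M (nat_lit 396) (B (L (nat_lit 395) ln15_13_3 ln15_13_3_ok) (L (nat_lit 425) ln9_13_2 ln9_13_2_ok))) (M (nat_lit 458) (B (L (nat_lit 457) ln13_13_1 ln13_13_1_ok) (L (nat_lit 459) ln14_13_1 ln14_13_1_ok))))))) (B (M (nat_lit 398) (B (M (nat_lit 399) (B (L (nat_lit 400) ln16_12_1 ln16_12_1_ok) (M (nat_lit 463) (B (L (nat_lit 464) ln12_13_0 ln12_13_0_ok) (M (nat_lit 495) (B (L (nat_lit 366) ln15_15_7 ln15_15_7_ok) (L (nat_lit 527) ln15_16_7 ln15_16_7_ok))))))) (B (M (nat_lit 396) (B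 (L (nat_lit 395) ln11_12_0 ln11_12_0_ok) (M (nat_lit 364) (B (M (nat_lit 399) (B (L (nat_lit 363) ln15_12_3 ln15_12_3_ok) (L (nat_lit 400) ln16_12_1 ln16_12_1_ok))) (M (nat_lit 461) (B (L (nat_lit 332) ln12_10_4 ln12_10_4_ok) (L (nat_lit 493) ln13_15_7 ln13_15_7_ok))))))) (M (nat_lit 463) (B (L (nat_lit 464) ln12_13_0 ln12_13_0_ok) (M (nat_lit 366) (B (L (nat_lit 334) ln14_10_4 ln14_10_4_ok) (M (nat_lit 495) (B (L (nat_lit 462) ln14_11_4 ln14_11_4_ok) (L (nat_lit 527) ln15_16_7 ln15_16_7_ok)))))))))) (M (nat_lit 427) (B (M (nat_lit 398) (B (L (nat_lit 426) ln10_13_2 ln10_13_2_ok) (L (nat_lit 399) ln11_13_2 ln11_13_2_ok))) (B (M (nat_lit 426) (B (M (nat_lit 396) (B (L (nat_lit 395) ln15_13_3 ln15_13_3_ok) (L (nat_lit 425) ln9_13_2 ln9_13_2_ok))) (M (nat_lit 458) (B (L (nat_lit 457) ln13_13_1 ln13_13_1_ok) (L (nat_lit 459) ln14_13_1 ln14_13_1_ok))))) (M (nat_lit 399) (B (L (nat_lit 398) ln11_13_2 ln11_13_2_ok)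 (L (nat_lit 400) ln12_13_2 ln12_13_2_ok))))))))))))))))
noncomputable def c33_n3371 : Cert := (M (nat_lit 427) (B (M (nat_lit 395) (B (L (nat_lit 394) ln10_12_0 ln10_12_0_ok) (M (nat_lit 398) (B (L (nat_lit 426) ln14_12_1 ln14_12_1_ok) (M (nat_lit 399) (B (L (nat_lit 428) ln15_12_1 ln15_12_1_ok) (M (nat_lit 363) (B (L (nat_lit 362) ln14_12_3 ln14_12_3_ok) (L (nat_lit 364) ln15_12_3 ln15_12_3_ok))))))))) (B (M (nat_lit 398) (B (M (nat_lit 395) (B (L (nat_lit 394) ln10_12_0 ln10_12_0_ok) (L (nat_lit 426) ln14_12_1 ln14_12_1_ok))) (B (M (nat_lit 426) (B (L (nat_lit 395) ln14_12_1 ln14_12_1_ok) (L (nat_lit 428) ln10_13_2 ln10_13_2_ok))) (B (M (nat_lit 428) (B (L (nat_lit 399) ln15_12_1 ln15_12_1_ok) (L (nat_lit 426) ln10_13_2 ln10_13_2_ok))) (M (nat_lit 367) (B (M (nat_lit 395) (B (L (nat_lit 366) ln11_12_2 ln11_12_2_ok) (L (nat_lit 394) ln10_12_0 ln10_12_0_ok))) (M (nat_lit 399) (B (L (nat_lit 368) ln12_12_2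 ln12_12_2_ok) (L (nat_lit 428) ln15_12_1 ln15_12_1_ok))))))))) (B (M (nat_lit 428) (B (M (nat_lit 426) (B (L (nat_lit 425) ln9_13_2 ln9_13_2_ok) (L (nat_lit 398) ln10_13_2 ln10_13_2_ok))) (M (nat_lit 459) (B (L (nat_lit 458) ln14_13_1 ln14_13_1_ok) (M (nat_lit 364) (B (L (nat_lit 332) ln12_10_5 ln12_10_5_ok) (M (nat_lit 491) (B (L (nat_lit 460) ln12_11_5 ln12_11_5_ok) (L (nat_lit 523) ln11_16_6 ln11_16_6_ok))))))))) (B (M (nat_lit 428) (B (M (nat_lit 426) (B (L (nat_lit 425) ln9_13_2 ln9_13_2_ok) (M (nat_lit 394) (B (L (nat_lit 393) ln13_13_3 ln13_13_3_ok) (L (nat_lit 395) ln10_12_0 ln10_12_0_ok))))) (B (M (nat_lit 395) (B (L (nat_lit 394) ln10_12_0 ln10_12_0_ok) (M (nat_lit 459) (B (L (nat_lit 458) ln14_13_1 ln14_13_1_ok) (M (nat_lit 364) (B (L (nat_lit 332) ln12_10_5 ln12_10_5_ok) (L (nat_lit 491) ln11_15_6 ln11_15_6_ok))))))) (M (nat_lit 459) (B (L (nat_lit 458) ln14_13_1 ln14_13_1_ok) (M (nat_lit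 364) (B (L (nat_lit 332) ln12_10_5 ln12_10_5_ok) (M (nat_lit 491) (B (L (nat_lit 460) ln12_11_5 ln12_11_5_ok) (L (nat_lit 523) ln11_16_6 ln11_16_6_ok)))))))))) (B (M (nat_lit 428) (B (M (nat_lit 395) (B (L (nat_lit 394) ln10_12_0 ln10_12_0_ok) (M (nat_lit 459) (B (L (nat_lit 458) ln14_13_1 ln14_13_1_ok) (M (nat_lit 364) (B (L (nat_lit 332) ln12_10_5 ln12_10_5_ok) (L (nat_lit 491) ln11_15_6 ln11_15_6_ok))))))) (B (M (nat_lit 395) (B (L (nat_lit 394) ln10_12_0 ln10_12_0_ok) (M (nat_lit 459) (B (L (nat_lit 458) ln14_13_1 ln14_13_1_ok) (M (nat_lit 491) (B (L (nat_lit 364) ln11_15_6 ln11_15_6_ok) (L (nat_lit 523) ln11_16_6 ln11_16_6_ok))))))) (B (M (nat_lit 395) (B (L (nat_lit 394) ln10_12_0 ln10_12_0_ok) (M (nat_lit 363) (B (M (nat_lit 331) (B (L (nat_lit 299) ln11_9_4 ln11_9_4_ok) (L (nat_lit 460) ln11_10_4 ln11_10_4_ok))) (M (nat_lit 398) (B (L (nat_lit 362) ln14_12_3 ln14_12_3_ok) (L (nat_lit 399) ln15_12_1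 ln15_12_1_ok))))))) (M (nat_lit 459) (B (L (nat_lit 458) ln14_13_1 ln14_13_1_ok) (M (nat_lit 364) (B (L (nat_lit 332) ln12_10_5 ln12_10_5_ok) (M (nat_lit 491) (B (L (nat_lit 460) ln12_11_5 ln12_11_5_ok) (L (nat_lit 523) ln11_16_6 ln11_16_6_ok))))))))))) (M (nat_lit 395) (B (L (nat_lit 394) ln10_12_0 ln10_12_0_ok) (M (nat_lit 398) (B (L (nat_lit 426) ln14_12_1 ln14_12_1_ok) (M (nat_lit 399) (B (M (nat_lit 363) (B (L (nat_lit 362) ln14_12_3 ln14_12_3_ok) (L (nat_lit 364) ln15_12_3 ln15_12_3_ok))) (M (nat_lit 367) (B (L (nat_lit 366) ln11_12_2 ln11_12_2_ok) (L (nat_lit 368) ln12_12_2 ln12_12_2_ok)))))))))))))))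
theorem c33_s3372 : Sem (nat_lit 4159004541504003524128484849921615451655032097354938086859372310025764381276019387312066758484915036306104045371593254240054673408) (nat_lit 27459190800355964724676065070945888936062842441161884190500599434031589316517005375167666341096296465176966736640292683902663835252049563208698016824169594880) (nat_lit 27459190800355964724676065070945888936062842441161884190500599434031589316517005375167666341096296465176966736640292683902663835252049563208698016824169594880) :=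
  sem_of_chk (M (nat_lit 396) (B (M (nat_lit 395) (B (L (nat_lit 394) ln10_12_0 ln10_12_0_ok) (M (nat_lit 431) (B (L (nat_lit 398) ln11_12_0 ln11_12_0_ok) (L (nat_lit 432) ln16_13_3 ln16_13_3_ok))))) (B (M (nat_lit 431) (B (L (nat_lit 432) ln16_13_3 ln16_13_3_ok) (M (nat_lit 395) (B (L (nat_lit 398) ln11_12_0 ln11_12_0_ok) (L (nat_lit 428) ln15_13_3 ln15_13_3_ok))))) (B (M (nat_lit 399) (B (M (nat_lit 431) (B (L (nat_lit 432) ln16_13_3 ln16_13_3_ok) (M (nat_lit 400) (B (L (nat_lit 428) ln12_13_2 ln12_13_2_ok) (M (nat_lit 398) (B (L (nat_lit 401) ln17_12_1 ln17_12_1_ok) (M (nat_lit 368) (B (L (nat_lit 367) ln12_12_2 ln12_12_2_ok) (L (nat_lit 369) ln13_12_2 ln13_12_2_ok))))))))) (B (M (nat_lit 400) (B (M (nat_lit 398) (B (L (nat_lit 428) ln16_12_1 ln16_12_1_ok) (L (nat_lit 401) ln17_12_1 ln17_12_1_ok))) (B (M (nat_lit 431) (B (L (nat_lit 432) ln16_13_3 ln16_13_3_ok) (L (nat_lit 428) ln12_13_2 ln12_13_2_ok)))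 (M (nat_lit 398) (B (L (nat_lit 401) ln17_12_1 ln17_12_1_ok) (M (nat_lit 432) (B (L (nat_lit 431) ln12_12_0 ln12_12_0_ok) (L (nat_lit 433) ln13_12_0 ln13_12_0_ok)))))))) (B (M (nat_lit 431) (B (L (nat_lit 432) ln16_13_3 ln16_13_3_ok) (M (nat_lit 428) (B (L (nat_lit 400) ln12_13_2 ln12_13_2_ok) (M (nat_lit 427) (B (M (nat_lit 459) (B (L (nat_lit 458) ln14_13_1 ln14_13_1_ok) (L (nat_lit 460) ln15_13_1 ln15_13_1_ok))) (M (nat_lit 463) (B (L (nat_lit 462) ln11_13_0 ln11_13_0_ok) (L (nat_lit 464) ln12_13_0 ln12_13_0_ok))))))))) (B (M (nat_lit 431) (B (L (nat_lit 432) ln16_13_3 ln16_13_3_ok) (M (nat_lit 398) (B (M (nat_lit 367) (B (L (nat_lit 368) ln12_12_2 ln12_12_2_ok) (M (nat_lit 335) (B (L (nat_lit 303) ln15_9_5 ln15_9_5_ok) (L (nat_lit 462) ln15_10_5 ln15_10_5_ok))))) (M (nat_lit 463) (B (M (nat_lit 366) (B (L (nat_lit 334) ln14_10_4 ln14_10_4_ok) (L (nat_lit 495) ln15_15_7 ln15_15_7_ok))) (M (nat_lit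 428) (B (L (nat_lit 427) ln15_12_1 ln15_12_1_ok) (L (nat_lit 464) ln12_13_0 ln12_13_0_ok))))))))) (B (M (nat_lit 398) (B (M (nat_lit 432) (B (L (nat_lit 431) ln12_12_0 ln12_12_0_ok) (M (nat_lit 400) (B (L (nat_lit 433) ln13_12_0 ln13_12_0_ok) (L (nat_lit 401) ln17_12_1 ln17_12_1_ok))))) (B (M (nat_lit 431) (B (L (nat_lit 432) ln12_12_0 ln12_12_0_ok) (M (nat_lit 367) (B (L (nat_lit 368) ln12_12_2 ln12_12_2_ok) (M (nat_lit 335) (B (L (nat_lit 303) ln15_9_5 ln15_9_5_ok) (L (nat_lit 462) ln15_10_5 ln15_10_5_ok))))))) (M (nat_lit 400) (B (L (nat_lit 401) ln17_12_1 ln17_12_1_ok) (M (nat_lit 368) (B (L (nat_lit 367) ln12_12_2 ln12_12_2_ok) (L (nat_lit 369) ln13_12_2 ln13_12_2_ok)))))))) (M (nat_lit 398) (B (M (nat_lit 428) (B (L (nat_lit 427) ln15_12_1 ln15_12_1_ok) (L (nat_lit 400) ln16_12_1 ln16_12_1_ok))) (M (nat_lit 367) (B (L (nat_lit 368) ln12_12_2 ln12_12_2_ok) (M (nat_lit 462) (B (L (nat_lit 494) ln14_15_6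 ln14_15_6_ok) (M (nat_lit 335) (B (L (nat_lit 303) ln15_9_5 ln15_9_5_ok) (L (nat_lit 366) ln14_14_6 ln14_14_6_ok))))))))))))))) (B (M (nat_lit 431) (B (L (nat_lit 432) ln16_13_3 ln16_13_3_ok) (M (nat_lit 395) (B (L (nat_lit 394) ln10_12_0 ln10_12_0_ok) (L (nat_lit 428) ln15_13_3 ln15_13_3_ok))))) c33_n3371))))) (nat_lit 4159004541504003524128484849921615451655032097354938086859372310025764381276019387312066758484915036306104045371593254240054673408) (nat_lit 27459190800355964724676065070945888936062842441161884190500599434031589316517005375167666341096296465176966736640292683902663835252049563208698016824169594880) (nat_lit 27459190800355964724676065070945888936062842441161884190500599434031589316517005375167666341096296465176966736640292683902663835252049563208698016824169594880) (by decide +kernel)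
noncomputable def c33_n3403 : Cert := (M (nat_lit 396) (B (M (nat_lit 431) (B (L (nat_lit 432) ln16_13_3 ln16_13_3_ok) (M (nat_lit 395) (B (L (nat_lit 394) ln10_12_0 ln10_12_0_ok) (L (nat_lit 428) ln15_13_3 ln15_13_3_ok))))) (B (M (nat_lit 431) (B (L (nat_lit 432) ln16_13_3 ln16_13_3_ok) (M (nat_lit 395) (B (L (nat_lit 398) ln11_12_0 ln11_12_0_ok) (L (nat_lit 428) ln15_13_3 ln15_13_3_ok))))) (B (M (nat_lit 428) (B (M (nat_lit 431) (B (L (nat_lit 432) ln16_13_3 ln16_13_3_ok) (M (nat_lit 399) (B (L (nat_lit 400) ln12_13_2 ln12_13_2_ok) (M (nat_lit 427) (B (L (nat_lit 398) ln15_12_1 ln15_12_1_ok) (M (nat_lit 459) (B (L (nat_lit 458) ln14_13_1 ln14_13_1_ok) (L (nat_lit 460) ln15_13_1 ln15_13_1_ok))))))))) (B (M (nat_lit 460) (B (M (nat_lit 431) (B (L (nat_lit 432) ln16_13_3 ln16_13_3_ok) (L (nat_lit 459) ln15_13_1 ln15_13_1_ok))) (B (M (nat_lit 492) (B (L (nat_lit 524) ln12_16_6 ln12_16_6_ok) (M (nat_lit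 459) (B (M (nat_lit 491) (B (L (nat_lit 364) ln12_11_5 ln12_11_5_ok) (L (nat_lit 523) ln12_12_5 ln12_12_5_ok))) (M (nat_lit 458) (B (L (nat_lit 427) ln14_13_1 ln14_13_1_ok) (L (nat_lit 461) ln10_14_2 ln10_14_2_ok))))))) (M (nat_lit 364) (B (M (nat_lit 332) (B (L (nat_lit 300) ln12_9_4 ln12_9_4_ok) (L (nat_lit 461) ln12_10_4 ln12_10_4_ok))) (B (M (nat_lit 461) (B (L (nat_lit 332) ln12_10_4 ln12_10_4_ok) (L (nat_lit 493) ln13_15_7 ln13_15_7_ok))) (B (M (nat_lit 493) (B (L (nat_lit 461) ln13_15_7 ln13_15_7_ok) (M (nat_lit 492) (B (L (nat_lit 525) ln12_12_4 ln12_12_4_ok) (L (nat_lit 524) ln12_16_6 ln12_16_6_ok))))) (M (nat_lit 332) (B (L (nat_lit 300) ln12_9_4 ln12_9_4_ok) (M (nat_lit 331) (B (L (nat_lit 299) ln12_13_7 ln12_13_7_ok) (L (nat_lit 363) ln12_14_7 ln12_14_7_ok)))))))))))) (B (M (nat_lit 431) (B (L (nat_lit 432) ln16_13_3 ln16_13_3_ok) (M (nat_lit 364) (B (M (nat_lit 461) (B (L (nat_lit 332) ln12_10_4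 ln12_10_4_ok) (L (nat_lit 493) ln13_15_7 ln13_15_7_ok))) (M (nat_lit 363) (B (M (nat_lit 460) (B (L (nat_lit 331) ln12_14_7 ln12_14_7_ok) (L (nat_lit 459) ln15_13_1 ln15_13_1_ok))) (M (nat_lit 399) (B (L (nat_lit 398) ln15_12_3 ln15_12_3_ok) (L (nat_lit 400) ln12_13_2 ln12_13_2_ok))))))))) (B (M (nat_lit 427) (B (M (nat_lit 426) (B (L (nat_lit 425) ln9_13_2 ln9_13_2_ok) (L (nat_lit 398) ln10_13_2 ln10_13_2_ok))) (M (nat_lit 459) (B (L (nat_lit 458) ln14_13_1 ln14_13_1_ok) (M (nat_lit 364) (B (L (nat_lit 332) ln12_10_5 ln12_10_5_ok) (M (nat_lit 491) (B (L (nat_lit 460) ln12_11_5 ln12_11_5_ok) (L (nat_lit 523) ln11_16_6 ln11_16_6_ok))))))))) (M (nat_lit 364) (B (M (nat_lit 461) (B (L (nat_lit 332) ln12_10_4 ln12_10_4_ok) (L (nat_lit 493) ln13_15_7 ln13_15_7_ok))) (M (nat_lit 399) (B (M (nat_lit 398) (B (L (nat_lit 363) ln15_12_3 ln15_12_3_ok) (L (nat_lit 427) ln15_12_1 ln15_12_1_ok))) (B (M (nat_lit 398)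 (B (L (nat_lit 427) ln15_12_1 ln15_12_1_ok) (L (nat_lit 400) ln16_12_1 ln16_12_1_ok))) (M (nat_lit 431) (B (L (nat_lit 432) ln16_13_3 ln16_13_3_ok) (L (nat_lit 400) ln12_13_2 ln12_13_2_ok))))))))))))) (B (M (nat_lit 395) (B (L (nat_lit 394) ln10_12_0 ln10_12_0_ok) (M (nat_lit 431) (B (L (nat_lit 398) ln11_12_0 ln11_12_0_ok) (L (nat_lit 432) ln16_13_3 ln16_13_3_ok))))) (M (nat_lit 395) (B (L (nat_lit 394) ln10_12_0 ln10_12_0_ok) (M (nat_lit 398) (B (M (nat_lit 366) (B (L (nat_lit 367) ln11_12_2 ln11_12_2_ok) (M (nat_lit 461) (B (L (nat_lit 334) ln14_10_5 ln14_10_5_ok) (L (nat_lit 493) ln13_15_6 ln13_15_6_ok))))) (M (nat_lit 399) (B (M (nat_lit 363) (B (L (nat_lit 362) ln14_12_3 ln14_12_3_ok) (L (nat_lit 364) ln15_12_3 ln15_12_3_ok))) (M (nat_lit 400) (B (L (nat_lit 428) ln16_12_1 ln16_12_1_ok) (L (nat_lit 401) ln17_12_1 ln17_12_1_ok))))))))))))))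
theorem c33_s3404 : Sem (nat_lit 1386334847383188664550070665778531748218595021979121511688892729411143073470393764272092352380775458208712834410189682411080515584) (nat_lit 3538089774121429928399402341431232143501125301516319229570447053508709915116676241618922379364057767762176966377035589736433024785096241094570496998843750522324535738368) (nat_lit 3538089774121429928399402341431232143501125301516319229570447053508709915116676241618922379364057767762176966377035589736433024785096241094570496998843750522324535738368) :=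
  sem_of_chk (M (nat_lit 430) (B (M (nat_lit 396) (B (M (nat_lit 395) (B (L (nat_lit 394) ln10_12_0 ln10_12_0_ok) (M (nat_lit 431) (B (L (nat_lit 398) ln11_12_0 ln11_12_0_ok) (L (nat_lit 432) ln16_13_3 ln16_13_3_ok))))) (B (M (nat_lit 431) (B (L (nat_lit 432) ln16_13_3 ln16_13_3_ok) (M (nat_lit 395) (B (L (nat_lit 398) ln11_12_0 ln11_12_0_ok) (L (nat_lit 428) ln15_13_3 ln15_13_3_ok))))) (B (M (nat_lit 431) (B (L (nat_lit 432) ln16_13_3 ln16_13_3_ok) (M (nat_lit 428) (B (M (nat_lit 399) (B (L (nat_lit 400) ln12_13_2 ln12_13_2_ok) (M (nat_lit 427) (B (L (nat_lit 398) ln15_12_1 ln15_12_1_ok) (M (nat_lit 463) (B (L (nat_lit 462) ln11_13_0 ln11_13_0_ok) (L (nat_lit 464) ln12_13_0 ln12_13_0_ok))))))) (B (M (nat_lit 427) (B (M (nat_lit 459) (B (L (nat_lit 458) ln14_13_1 ln14_13_1_ok) (L (nat_lit 460) ln15_13_1 ln15_13_1_ok))) (M (nat_lit 463) (B (L (nat_lit 462) ln11_13_0 ln11_13_0_ok) (L (nat_lit 464) ln12_13_0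 ln12_13_0_ok))))) (M (nat_lit 364) (B (M (nat_lit 332) (B (L (nat_lit 300) ln12_9_4 ln12_9_4_ok) (L (nat_lit 461) ln12_10_4 ln12_10_4_ok))) (B (M (nat_lit 461) (B (L (nat_lit 332) ln12_10_4 ln12_10_4_ok) (L (nat_lit 493) ln13_15_7 ln13_15_7_ok))) (M (nat_lit 363) (B (M (nat_lit 460) (B (L (nat_lit 331) ln12_14_7 ln12_14_7_ok) (L (nat_lit 459) ln15_13_1 ln15_13_1_ok))) (M (nat_lit 399) (B (L (nat_lit 398) ln15_12_3 ln15_12_3_ok) (L (nat_lit 400) ln12_13_2 ln12_13_2_ok))))))))))))) (B (M (nat_lit 431) (B (L (nat_lit 432) ln16_13_3 ln16_13_3_ok) (M (nat_lit 395) (B (L (nat_lit 394) ln10_12_0 ln10_12_0_ok) (L (nat_lit 428) ln15_13_3 ln15_13_3_ok))))) (M (nat_lit 395) (B (L (nat_lit 394) ln10_12_0 ln10_12_0_ok) (M (nat_lit 398) (B (M (nat_lit 366) (B (L (nat_lit 367) ln11_12_2 ln11_12_2_ok) (M (nat_lit 334) (B (L (nat_lit 302) ln14_9_5 ln14_9_5_ok) (L (nat_lit 461) ln14_10_5 ln14_10_5_ok))))) (M (nat_lit 399)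 (B (M (nat_lit 363) (B (L (nat_lit 362) ln14_12_3 ln14_12_3_ok) (L (nat_lit 364) ln15_12_3 ln15_12_3_ok))) (M (nat_lit 427) (B (L (nat_lit 426) ln14_12_1 ln14_12_1_ok) (L (nat_lit 428) ln15_12_1 ln15_12_1_ok)))))))))))))) (B (M (nat_lit 396) (B (M (nat_lit 431) (B (L (nat_lit 432) ln16_13_3 ln16_13_3_ok) (M (nat_lit 395) (B (L (nat_lit 394) ln10_12_0 ln10_12_0_ok) (L (nat_lit 428) ln15_13_3 ln15_13_3_ok))))) (B (M (nat_lit 431) (B (L (nat_lit 432) ln16_13_3 ln16_13_3_ok) (M (nat_lit 395) (B (L (nat_lit 398) ln11_12_0 ln11_12_0_ok) (L (nat_lit 428) ln15_13_3 ln15_13_3_ok))))) (B (M (nat_lit 431) (B (L (nat_lit 432) ln16_13_3 ln16_13_3_ok) (M (nat_lit 428) (B (M (nat_lit 399) (B (L (nat_lit 400) ln12_13_2 ln12_13_2_ok) (M (nat_lit 427) (B (L (nat_lit 398) ln15_12_1 ln15_12_1_ok) (M (nat_lit 463) (B (L (nat_lit 462) ln11_13_0 ln11_13_0_ok) (L (nat_lit 464) ln12_13_0 ln12_13_0_ok))))))) (B (M (nat_lit 427)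 (B (M (nat_lit 459) (B (L (nat_lit 458) ln14_13_1 ln14_13_1_ok) (L (nat_lit 460) ln15_13_1 ln15_13_1_ok))) (M (nat_lit 463) (B (L (nat_lit 462) ln11_13_0 ln11_13_0_ok) (L (nat_lit 464) ln12_13_0 ln12_13_0_ok))))) (M (nat_lit 364) (B (M (nat_lit 461) (B (L (nat_lit 332) ln12_10_4 ln12_10_4_ok) (L (nat_lit 493) ln13_15_7 ln13_15_7_ok))) (M (nat_lit 363) (B (M (nat_lit 460) (B (L (nat_lit 331) ln12_14_7 ln12_14_7_ok) (L (nat_lit 459) ln15_13_1 ln15_13_1_ok))) (M (nat_lit 399) (B (L (nat_lit 398) ln15_12_3 ln15_12_3_ok) (L (nat_lit 400) ln12_13_2 ln12_13_2_ok)))))))))))) (B (M (nat_lit 395) (B (L (nat_lit 394) ln10_12_0 ln10_12_0_ok) (M (nat_lit 431) (B (L (nat_lit 398) ln11_12_0 ln11_12_0_ok) (L (nat_lit 432) ln16_13_3 ln16_13_3_ok))))) (M (nat_lit 395) (B (L (nat_lit 394) ln10_12_0 ln10_12_0_ok) (M (nat_lit 398) (B (M (nat_lit 366) (B (L (nat_lit 367) ln11_12_2 ln11_12_2_ok) (M (nat_lit 334) (B (L (nat_lit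 302) ln14_9_5 ln14_9_5_ok) (L (nat_lit 461) ln14_10_5 ln14_10_5_ok))))) (M (nat_lit 399) (B (M (nat_lit 363) (B (L (nat_lit 362) ln14_12_3 ln14_12_3_ok) (L (nat_lit 364) ln15_12_3 ln15_12_3_ok))) (M (nat_lit 427) (B (L (nat_lit 426) ln14_12_1 ln14_12_1_ok) (L (nat_lit 428) ln15_12_1 ln15_12_1_ok)))))))))))))) (B (M (nat_lit 396) (B (M (nat_lit 395) (B (L (nat_lit 394) ln10_12_0 ln10_12_0_ok) (M (nat_lit 431) (B (L (nat_lit 398) ln11_12_0 ln11_12_0_ok) (L (nat_lit 432) ln16_13_3 ln16_13_3_ok))))) (B (M (nat_lit 431) (B (L (nat_lit 432) ln16_13_3 ln16_13_3_ok) (M (nat_lit 395) (B (L (nat_lit 398) ln11_12_0 ln11_12_0_ok) (L (nat_lit 428) ln15_13_3 ln15_13_3_ok))))) (B (M (nat_lit 431) (B (L (nat_lit 432) ln16_13_3 ln16_13_3_ok) (M (nat_lit 428) (B (M (nat_lit 399) (B (L (nat_lit 400) ln12_13_2 ln12_13_2_ok) (M (nat_lit 427) (B (L (nat_lit 398) ln15_12_1 ln15_12_1_ok) (M (nat_lit 463) (B (L (nat_lit 462)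 ln11_13_0 ln11_13_0_ok) (L (nat_lit 464) ln12_13_0 ln12_13_0_ok))))))) (B (M (nat_lit 427) (B (M (nat_lit 459) (B (L (nat_lit 458) ln14_13_1 ln14_13_1_ok) (L (nat_lit 460) ln15_13_1 ln15_13_1_ok))) (M (nat_lit 463) (B (L (nat_lit 462) ln11_13_0 ln11_13_0_ok) (L (nat_lit 464) ln12_13_0 ln12_13_0_ok))))) (M (nat_lit 364) (B (M (nat_lit 461) (B (L (nat_lit 332) ln12_10_4 ln12_10_4_ok) (L (nat_lit 493) ln13_15_7 ln13_15_7_ok))) (M (nat_lit 363) (B (M (nat_lit 460) (B (L (nat_lit 331) ln12_14_7 ln12_14_7_ok) (L (nat_lit 459) ln15_13_1 ln15_13_1_ok))) (M (nat_lit 399) (B (L (nat_lit 398) ln15_12_3 ln15_12_3_ok) (L (nat_lit 400) ln12_13_2 ln12_13_2_ok)))))))))))) (B (M (nat_lit 431) (B (L (nat_lit 432) ln16_13_3 ln16_13_3_ok) (M (nat_lit 395) (B (L (nat_lit 394) ln10_12_0 ln10_12_0_ok) (L (nat_lit 428) ln15_13_3 ln15_13_3_ok))))) (M (nat_lit 395) (B (L (nat_lit 394) ln10_12_0 ln10_12_0_ok) (M (nat_lit 398) (B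 (M (nat_lit 366) (B (L (nat_lit 367) ln11_12_2 ln11_12_2_ok) (M (nat_lit 461) (B (L (nat_lit 334) ln14_10_5 ln14_10_5_ok) (L (nat_lit 493) ln13_15_6 ln13_15_6_ok))))) (M (nat_lit 399) (B (M (nat_lit 363) (B (L (nat_lit 362) ln14_12_3 ln14_12_3_ok) (L (nat_lit 364) ln15_12_3 ln15_12_3_ok))) (M (nat_lit 427) (B (L (nat_lit 426) ln14_12_1 ln14_12_1_ok) (L (nat_lit 428) ln15_12_1 ln15_12_1_ok)))))))))))))) (B c33_n1375 (B c33_n1399 (B (M (nat_lit 396) (B (M (nat_lit 431) (B (L (nat_lit 432) ln16_13_3 ln16_13_3_ok) (M (nat_lit 395) (B (L (nat_lit 394) ln10_12_0 ln10_12_0_ok) (L (nat_lit 428) ln15_13_3 ln15_13_3_ok))))) (B (M (nat_lit 431) (B (L (nat_lit 432) ln16_13_3 ln16_13_3_ok) (M (nat_lit 395) (B (L (nat_lit 398) ln11_12_0 ln11_12_0_ok) (L (nat_lit 428) ln15_13_3 ln15_13_3_ok))))) (B (M (nat_lit 431) (B (L (nat_lit 432) ln16_13_3 ln16_13_3_ok) (M (nat_lit 428) (B (M (nat_lit 399) (B (L (nat_lit 400) ln12_13_2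 ln12_13_2_ok) (M (nat_lit 427) (B (L (nat_lit 398) ln15_12_1 ln15_12_1_ok) (M (nat_lit 463) (B (L (nat_lit 462) ln11_13_0 ln11_13_0_ok) (L (nat_lit 464) ln12_13_0 ln12_13_0_ok))))))) (B (M (nat_lit 427) (B (M (nat_lit 459) (B (L (nat_lit 458) ln14_13_1 ln14_13_1_ok) (L (nat_lit 460) ln15_13_1 ln15_13_1_ok))) (M (nat_lit 463) (B (L (nat_lit 462) ln11_13_0 ln11_13_0_ok) (L (nat_lit 464) ln12_13_0 ln12_13_0_ok))))) (M (nat_lit 364) (B (M (nat_lit 461) (B (L (nat_lit 332) ln12_10_4 ln12_10_4_ok) (L (nat_lit 493) ln13_15_7 ln13_15_7_ok))) (M (nat_lit 363) (B (M (nat_lit 460) (B (L (nat_lit 331) ln12_14_7 ln12_14_7_ok) (L (nat_lit 459) ln15_13_1 ln15_13_1_ok))) (M (nat_lit 399) (B (L (nat_lit 398) ln15_12_3 ln15_12_3_ok) (L (nat_lit 400) ln12_13_2 ln12_13_2_ok)))))))))))) (B (M (nat_lit 395) (B (L (nat_lit 394) ln10_12_0 ln10_12_0_ok) (M (nat_lit 431) (B (L (nat_lit 398) ln11_12_0 ln11_12_0_ok) (L (nat_lit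 432) ln16_13_3 ln16_13_3_ok))))) (M (nat_lit 395) (B (L (nat_lit 394) ln10_12_0 ln10_12_0_ok) (M (nat_lit 427) (B (M (nat_lit 426) (B (L (nat_lit 398) ln14_12_1 ln14_12_1_ok) (M (nat_lit 425) (B (L (nat_lit 424) ln8_13_2 ln8_13_2_ok) (L (nat_lit 428) ln9_13_2 ln9_13_2_ok))))) (B (M (nat_lit 428) (B (M (nat_lit 459) (B (L (nat_lit 458) ln14_13_1 ln14_13_1_ok) (M (nat_lit 364) (B (L (nat_lit 332) ln12_10_5 ln12_10_5_ok) (L (nat_lit 491) ln11_15_6 ln11_15_6_ok))))) (M (nat_lit 462) (B (L (nat_lit 463) ln11_13_0 ln11_13_0_ok) (M (nat_lit 426) (B (L (nat_lit 425) ln9_13_2 ln9_13_2_ok) (L (nat_lit 461) ln10_13_0 ln10_13_0_ok))))))) (B (M (nat_lit 398) (B (L (nat_lit 426) ln14_12_1 ln14_12_1_ok) (M (nat_lit 399) (B (L (nat_lit 428) ln15_12_1 ln15_12_1_ok) (M (nat_lit 367) (B (L (nat_lit 366) ln11_12_2 ln11_12_2_ok) (L (nat_lit 368) ln12_12_2 ln12_12_2_ok))))))) (B (M (nat_lit 428) (B (M (nat_lit 459) (B (L (nat_lit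 458) ln14_13_1 ln14_13_1_ok) (M (nat_lit 364) (B (L (nat_lit 332) ln12_10_5 ln12_10_5_ok) (L (nat_lit 491) ln11_15_6 ln11_15_6_ok))))) (M (nat_lit 363) (B (M (nat_lit 331) (B (L (nat_lit 299) ln11_9_4 ln11_9_4_ok) (L (nat_lit 460) ln11_10_4 ln11_10_4_ok))) (M (nat_lit 398) (B (L (nat_lit 362) ln14_12_3 ln14_12_3_ok) (L (nat_lit 399) ln15_12_1 ln15_12_1_ok))))))) (M (nat_lit 398) (B (L (nat_lit 426) ln14_12_1 ln14_12_1_ok) (M (nat_lit 399) (B (M (nat_lit 363) (B (L (nat_lit 362) ln14_12_3 ln14_12_3_ok) (L (nat_lit 364) ln15_12_3 ln15_12_3_ok))) (M (nat_lit 367) (B (L (nat_lit 366) ln11_12_2 ln11_12_2_ok) (L (nat_lit 368) ln12_12_2 ln12_12_2_ok))))))))))))))))))) (B (M (nat_lit 396) (B (M (nat_lit 395) (B (L (nat_lit 394) ln10_12_0 ln10_12_0_ok) (M (nat_lit 431) (B (L (nat_lit 398) ln11_12_0 ln11_12_0_ok) (L (nat_lit 432) ln16_13_3 ln16_13_3_ok))))) (B (M (nat_lit 431) (B (L (nat_lit 432) ln16_13_3 ln16_13_3_ok)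 (M (nat_lit 395) (B (L (nat_lit 398) ln11_12_0 ln11_12_0_ok) (L (nat_lit 428) ln15_13_3 ln15_13_3_ok))))) (B (M (nat_lit 431) (B (L (nat_lit 432) ln16_13_3 ln16_13_3_ok) (M (nat_lit 428) (B (M (nat_lit 399) (B (L (nat_lit 400) ln12_13_2 ln12_13_2_ok) (M (nat_lit 427) (B (L (nat_lit 398) ln15_12_1 ln15_12_1_ok) (M (nat_lit 463) (B (L (nat_lit 462) ln11_13_0 ln11_13_0_ok) (L (nat_lit 464) ln12_13_0 ln12_13_0_ok))))))) (B (M (nat_lit 427) (B (M (nat_lit 459) (B (L (nat_lit 458) ln14_13_1 ln14_13_1_ok) (L (nat_lit 460) ln15_13_1 ln15_13_1_ok))) (M (nat_lit 463) (B (L (nat_lit 462) ln11_13_0 ln11_13_0_ok) (L (nat_lit 464) ln12_13_0 ln12_13_0_ok))))) (M (nat_lit 364) (B (M (nat_lit 461) (B (L (nat_lit 332) ln12_10_4 ln12_10_4_ok) (L (nat_lit 493) ln13_15_7 ln13_15_7_ok))) (M (nat_lit 363) (B (M (nat_lit 460) (B (L (nat_lit 331) ln12_14_7 ln12_14_7_ok) (L (nat_lit 459) ln15_13_1 ln15_13_1_ok))) (M (nat_lit 399)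 (B (L (nat_lit 398) ln15_12_3 ln15_12_3_ok) (L (nat_lit 400) ln12_13_2 ln12_13_2_ok)))))))))))) (B (M (nat_lit 431) (B (L (nat_lit 432) ln16_13_3 ln16_13_3_ok) (M (nat_lit 395) (B (L (nat_lit 394) ln10_12_0 ln10_12_0_ok) (L (nat_lit 428) ln15_13_3 ln15_13_3_ok))))) (M (nat_lit 395) (B (L (nat_lit 394) ln10_12_0 ln10_12_0_ok) (M (nat_lit 398) (B (M (nat_lit 366) (B (L (nat_lit 367) ln11_12_2 ln11_12_2_ok) (M (nat_lit 461) (B (L (nat_lit 334) ln14_10_5 ln14_10_5_ok) (L (nat_lit 493) ln13_15_6 ln13_15_6_ok))))) (B (M (nat_lit 399) (B (M (nat_lit 367) (B (L (nat_lit 366) ln11_12_2 ln11_12_2_ok) (L (nat_lit 368) ln12_12_2 ln12_12_2_ok))) (M (nat_lit 427) (B (L (nat_lit 426) ln14_12_1 ln14_12_1_ok) (L (nat_lit 428) ln15_12_1 ln15_12_1_ok))))) (B (M (nat_lit 399) (B (M (nat_lit 427) (B (L (nat_lit 426) ln14_12_1 ln14_12_1_ok) (L (nat_lit 428) ln15_12_1 ln15_12_1_ok))) (B (M (nat_lit 428) (B (L (nat_lit 427)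 ln15_12_1 ln15_12_1_ok) (L (nat_lit 400) ln16_12_1 ln16_12_1_ok))) (B (M (nat_lit 400) (B (L (nat_lit 428) ln16_12_1 ln16_12_1_ok) (L (nat_lit 401) ln17_12_1 ln17_12_1_ok))) (M (nat_lit 400) (B (L (nat_lit 401) ln17_12_1 ln17_12_1_ok) (M (nat_lit 368) (B (L (nat_lit 367) ln12_12_2 ln12_12_2_ok) (L (nat_lit 369) ln13_12_2 ln13_12_2_ok))))))))) (M (nat_lit 462) (B (M (nat_lit 427) (B (L (nat_lit 426) ln14_12_1 ln14_12_1_ok) (M (nat_lit 428) (B (L (nat_lit 399) ln15_12_1 ln15_12_1_ok) (L (nat_lit 463) ln11_13_0 ln11_13_0_ok))))) (M (nat_lit 493) (B (M (nat_lit 461) (B (L (nat_lit 364) ln13_15_7 ln13_15_7_ok) (L (nat_lit 366) ln13_15_6 ln13_15_6_ok))) (B (M (nat_lit 461) (B (L (nat_lit 366) ln13_15_6 ln13_15_6_ok) (L (nat_lit 525) ln13_16_6 ln13_16_6_ok))) (B (M (nat_lit 461) (B (L (nat_lit 364) ln13_15_7 ln13_15_7_ok) (L (nat_lit 525) ln13_16_6 ln13_16_6_ok))) (M (nat_lit 494) (B (L (nat_lit 526) ln14_16_7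 ln14_16_7_ok) (L (nat_lit 525) ln14_12_5 ln14_12_5_ok)))))))))))))))))))) (B (K (nat_lit 4159004541504003524128484849921615451655032097354938086859372310025764381276019387312066758484915036306104045371593254240054673408) (nat_lit 329510287865282815282975419329478689595185820772642680410198036678484754894113891892686897393986630895726189958952462104333313181425681922045594462919118028800) (nat_lit 329510287865282815282975419329478689595185820772642680410198036678484754894113891892686897393986630895726189958952462104333313181425681922045594462919118028800) c33_s1490) (B (M (nat_lit 431) (B (M (nat_lit 396) (B (L (nat_lit 432) ln16_13_3 ln16_13_3_ok) (M (nat_lit 395) (B (L (nat_lit 394) ln10_12_0 ln10_12_0_ok) (L (nat_lit 428) ln15_13_3 ln15_13_3_ok))))) (B (M (nat_lit 396) (B (L (nat_lit 432) ln16_13_3 ln16_13_3_ok) (M (nat_lit 395) (B (L (nat_lit 398) ln11_12_0 ln11_12_0_ok) (L (nat_lit 428) ln15_13_3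 ln15_13_3_ok))))) (B (M (nat_lit 432) (B (L (nat_lit 396) ln16_13_3 ln16_13_3_ok) (M (nat_lit 433) (B (L (nat_lit 398) ln17_13_3 ln17_13_3_ok) (M (nat_lit 461) (B (L (nat_lit 460) ln16_13_1 ln16_13_1_ok) (L (nat_lit 462) ln17_13_1 ln17_13_1_ok))))))) (B (M (nat_lit 432) (B (M (nat_lit 433) (B (L (nat_lit 398) ln17_13_3 ln17_13_3_ok) (M (nat_lit 461) (B (L (nat_lit 460) ln16_13_1 ln16_13_1_ok) (L (nat_lit 462) ln17_13_1 ln17_13_1_ok))))) (B (M (nat_lit 433) (B (M (nat_lit 461) (B (L (nat_lit 460) ln16_13_1 ln16_13_1_ok) (L (nat_lit 462) ln17_13_1 ln17_13_1_ok))) (M (nat_lit 465) (B (L (nat_lit 464) ln13_13_0 ln13_13_0_ok) (L (nat_lit 466) ln14_13_0 ln14_13_0_ok))))) (B (M (nat_lit 428) (B (M (nat_lit 400) (B (L (nat_lit 399) ln12_13_2 ln12_13_2_ok) (L (nat_lit 401) ln13_13_2 ln13_13_2_ok))) (M (nat_lit 460) (B (L (nat_lit 459) ln15_13_1 ln15_13_1_ok) (L (nat_lit 461) ln16_13_1 ln16_13_1_ok))))) (M (nat_lit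 433) (B (L (nat_lit 398) ln17_13_3 ln17_13_3_ok) (M (nat_lit 465) (B (L (nat_lit 464) ln13_13_0 ln13_13_0_ok) (L (nat_lit 466) ln14_13_0 ln14_13_0_ok))))))))) (M (nat_lit 428) (B (M (nat_lit 395) (B (L (nat_lit 396) ln15_13_3 ln15_13_3_ok) (M (nat_lit 427) (B (L (nat_lit 394) ln14_13_3 ln14_13_3_ok) (M (nat_lit 398) (B (L (nat_lit 426) ln10_13_2 ln10_13_2_ok) (L (nat_lit 399) ln11_13_2 ln11_13_2_ok))))))) (B (M (nat_lit 427) (B (M (nat_lit 398) (B (L (nat_lit 426) ln10_13_2 ln10_13_2_ok) (L (nat_lit 399) ln11_13_2 ln11_13_2_ok))) (M (nat_lit 463) (B (L (nat_lit 462) ln11_13_0 ln11_13_0_ok) (L (nat_lit 464) ln12_13_0 ln12_13_0_ok))))) (B (M (nat_lit 427) (B (M (nat_lit 395) (B (L (nat_lit 394) ln14_13_3 ln14_13_3_ok) (L (nat_lit 396) ln15_13_3 ln15_13_3_ok))) (M (nat_lit 459) (B (L (nat_lit 458) ln14_13_1 ln14_13_1_ok) (L (nat_lit 460) ln15_13_1 ln15_13_1_ok))))) (M (nat_lit 398) (B (M (nat_lit 399) (B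 (L (nat_lit 400) ln16_12_1 ln16_12_1_ok) (M (nat_lit 463) (B (L (nat_lit 464) ln12_13_0 ln12_13_0_ok) (M (nat_lit 366) (B (L (nat_lit 334) ln14_10_4 ln14_10_4_ok) (L (nat_lit 495) ln15_15_7 ln15_15_7_ok))))))) (B (M (nat_lit 399) (B (L (nat_lit 400) ln16_12_1 ln16_12_1_ok) (M (nat_lit 463) (B (L (nat_lit 464) ln12_13_0 ln12_13_0_ok) (M (nat_lit 495) (B (L (nat_lit 366) ln15_15_7 ln15_15_7_ok) (L (nat_lit 527) ln15_16_7 ln15_16_7_ok))))))) (B (M (nat_lit 399) (B (L (nat_lit 400) ln16_12_1 ln16_12_1_ok) (M (nat_lit 367) (B (M (nat_lit 335) (B (L (nat_lit 303) ln15_9_5 ln15_9_5_ok) (L (nat_lit 462) ln15_10_5 ln15_10_5_ok))) (M (nat_lit 396) (B (L (nat_lit 368) ln12_12_2 ln12_12_2_ok) (L (nat_lit 395) ln11_12_0 ln11_12_0_ok))))))) (M (nat_lit 463) (B (L (nat_lit 464) ln12_13_0 ln12_13_0_ok) (M (nat_lit 366) (B (L (nat_lit 334) ln14_10_4 ln14_10_4_ok) (M (nat_lit 495) (B (L (nat_lit 462) ln14_11_4 ln14_11_4_ok)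 (L (nat_lit 527) ln15_16_7 ln15_16_7_ok)))))))))))))))))))) (B (M (nat_lit 431) (B (M (nat_lit 396) (B (L (nat_lit 432) ln16_13_3 ln16_13_3_ok) (M (nat_lit 395) (B (L (nat_lit 398) ln11_12_0 ln11_12_0_ok) (L (nat_lit 428) ln15_13_3 ln15_13_3_ok))))) (B (M (nat_lit 432) (B (L (nat_lit 396) ln16_13_3 ln16_13_3_ok) (M (nat_lit 433) (B (L (nat_lit 398) ln17_13_3 ln17_13_3_ok) (M (nat_lit 461) (B (L (nat_lit 460) ln16_13_1 ln16_13_1_ok) (L (nat_lit 462) ln17_13_1 ln17_13_1_ok))))))) (B (M (nat_lit 432) (B (M (nat_lit 433) (B (L (nat_lit 398) ln17_13_3 ln17_13_3_ok) (M (nat_lit 461) (B (L (nat_lit 460) ln16_13_1 ln16_13_1_ok) (L (nat_lit 462) ln17_13_1 ln17_13_1_ok))))) (B (M (nat_lit 433) (B (M (nat_lit 461) (B (L (nat_lit 460) ln16_13_1 ln16_13_1_ok) (L (nat_lit 462) ln17_13_1 ln17_13_1_ok))) (M (nat_lit 465) (B (L (nat_lit 464) ln13_13_0 ln13_13_0_ok) (L (nat_lit 466) ln14_13_0 ln14_13_0_ok))))) (B (M (nat_lit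 428) (B (M (nat_lit 400) (B (L (nat_lit 399) ln12_13_2 ln12_13_2_ok) (L (nat_lit 401) ln13_13_2 ln13_13_2_ok))) (M (nat_lit 460) (B (L (nat_lit 459) ln15_13_1 ln15_13_1_ok) (L (nat_lit 461) ln16_13_1 ln16_13_1_ok))))) (M (nat_lit 433) (B (L (nat_lit 398) ln17_13_3 ln17_13_3_ok) (M (nat_lit 465) (B (L (nat_lit 464) ln13_13_0 ln13_13_0_ok) (L (nat_lit 466) ln14_13_0 ln14_13_0_ok))))))))) (B (M (nat_lit 396) (B (L (nat_lit 432) ln16_13_3 ln16_13_3_ok) (M (nat_lit 395) (B (L (nat_lit 394) ln10_12_0 ln10_12_0_ok) (L (nat_lit 428) ln15_13_3 ln15_13_3_ok))))) (M (nat_lit 396) (B (M (nat_lit 395) (B (L (nat_lit 394) ln10_12_0 ln10_12_0_ok) (L (nat_lit 398) ln11_12_0 ln11_12_0_ok))) (B (M (nat_lit 395) (B (L (nat_lit 398) ln11_12_0 ln11_12_0_ok) (L (nat_lit 428) ln15_13_3 ln15_13_3_ok))) (B (M (nat_lit 428) (B (M (nat_lit 399) (B (L (nat_lit 400) ln12_13_2 ln12_13_2_ok) (M (nat_lit 427) (B (L (nat_lit 398) ln15_12_1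 ln15_12_1_ok) (M (nat_lit 463) (B (L (nat_lit 462) ln11_13_0 ln11_13_0_ok) (L (nat_lit 464) ln12_13_0 ln12_13_0_ok))))))) (B (M (nat_lit 427) (B (M (nat_lit 459) (B (L (nat_lit 458) ln14_13_1 ln14_13_1_ok) (L (nat_lit 460) ln15_13_1 ln15_13_1_ok))) (M (nat_lit 463) (B (L (nat_lit 462) ln11_13_0 ln11_13_0_ok) (L (nat_lit 464) ln12_13_0 ln12_13_0_ok))))) (M (nat_lit 364) (B (M (nat_lit 461) (B (L (nat_lit 332) ln12_10_4 ln12_10_4_ok) (L (nat_lit 493) ln13_15_7 ln13_15_7_ok))) (M (nat_lit 363) (B (M (nat_lit 460) (B (L (nat_lit 331) ln12_14_7 ln12_14_7_ok) (L (nat_lit 459) ln15_13_1 ln15_13_1_ok))) (M (nat_lit 399) (B (L (nat_lit 398) ln15_12_3 ln15_12_3_ok) (L (nat_lit 400) ln12_13_2 ln12_13_2_ok)))))))))) (M (nat_lit 395) (B (L (nat_lit 394) ln10_12_0 ln10_12_0_ok) (L (nat_lit 428) ln15_13_3 ln15_13_3_ok)))))))))))) (B (M (nat_lit 431) (B (M (nat_lit 396) (B (L (nat_lit 432) ln16_13_3 ln16_13_3_ok) (M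 (nat_lit 395) (B (L (nat_lit 398) ln11_12_0 ln11_12_0_ok) (L (nat_lit 428) ln15_13_3 ln15_13_3_ok))))) (B (M (nat_lit 432) (B (L (nat_lit 396) ln16_13_3 ln16_13_3_ok) (M (nat_lit 433) (B (L (nat_lit 398) ln17_13_3 ln17_13_3_ok) (M (nat_lit 461) (B (L (nat_lit 460) ln16_13_1 ln16_13_1_ok) (L (nat_lit 462) ln17_13_1 ln17_13_1_ok))))))) (B (M (nat_lit 432) (B (M (nat_lit 433) (B (L (nat_lit 398) ln17_13_3 ln17_13_3_ok) (M (nat_lit 461) (B (L (nat_lit 460) ln16_13_1 ln16_13_1_ok) (L (nat_lit 462) ln17_13_1 ln17_13_1_ok))))) (B (M (nat_lit 433) (B (M (nat_lit 461) (B (L (nat_lit 460) ln16_13_1 ln16_13_1_ok) (L (nat_lit 462) ln17_13_1 ln17_13_1_ok))) (M (nat_lit 465) (B (L (nat_lit 464) ln13_13_0 ln13_13_0_ok) (L (nat_lit 466) ln14_13_0 ln14_13_0_ok))))) (B (M (nat_lit 428) (B (M (nat_lit 400) (B (L (nat_lit 399) ln12_13_2 ln12_13_2_ok) (L (nat_lit 401) ln13_13_2 ln13_13_2_ok))) (M (nat_lit 460) (B (L (nat_lit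 459) ln15_13_1 ln15_13_1_ok) (L (nat_lit 461) ln16_13_1 ln16_13_1_ok))))) (M (nat_lit 433) (B (L (nat_lit 398) ln17_13_3 ln17_13_3_ok) (M (nat_lit 465) (B (L (nat_lit 464) ln13_13_0 ln13_13_0_ok) (L (nat_lit 466) ln14_13_0 ln14_13_0_ok))))))))) (B (M (nat_lit 428) (B (M (nat_lit 396) (B (L (nat_lit 395) ln15_13_3 ln15_13_3_ok) (L (nat_lit 432) ln16_13_3 ln16_13_3_ok))) (M (nat_lit 427) (B (M (nat_lit 459) (B (L (nat_lit 458) ln14_13_1 ln14_13_1_ok) (L (nat_lit 460) ln15_13_1 ln15_13_1_ok))) (M (nat_lit 463) (B (L (nat_lit 462) ln11_13_0 ln11_13_0_ok) (L (nat_lit 464) ln12_13_0 ln12_13_0_ok))))))) (M (nat_lit 428) (B (M (nat_lit 399) (B (L (nat_lit 400) ln12_13_2 ln12_13_2_ok) (M (nat_lit 427) (B (L (nat_lit 398) ln11_13_2 ln11_13_2_ok) (M (nat_lit 459) (B (L (nat_lit 458) ln14_13_1 ln14_13_1_ok) (L (nat_lit 460) ln15_13_1 ln15_13_1_ok))))))) (B (M (nat_lit 427) (B (M (nat_lit 459) (B (L (nat_lit 458)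 ln14_13_1 ln14_13_1_ok) (L (nat_lit 460) ln15_13_1 ln15_13_1_ok))) (M (nat_lit 463) (B (L (nat_lit 462) ln11_13_0 ln11_13_0_ok) (L (nat_lit 464) ln12_13_0 ln12_13_0_ok))))) (M (nat_lit 398) (B (M (nat_lit 399) (B (L (nat_lit 400) ln16_12_1 ln16_12_1_ok) (M (nat_lit 463) (B (L (nat_lit 464) ln12_13_0 ln12_13_0_ok) (M (nat_lit 495) (B (L (nat_lit 366) ln15_15_7 ln15_15_7_ok) (L (nat_lit 527) ln15_16_7 ln15_16_7_ok))))))) (B (M (nat_lit 396) (B (L (nat_lit 395) ln11_12_0 ln11_12_0_ok) (M (nat_lit 364) (B (M (nat_lit 399) (B (L (nat_lit 363) ln15_12_3 ln15_12_3_ok) (L (nat_lit 400) ln16_12_1 ln16_12_1_ok))) (M (nat_lit 461) (B (L (nat_lit 332) ln12_10_4 ln12_10_4_ok) (L (nat_lit 493) ln13_15_7 ln13_15_7_ok))))))) (M (nat_lit 463) (B (L (nat_lit 464) ln12_13_0 ln12_13_0_ok) (M (nat_lit 366) (B (L (nat_lit 334) ln14_10_4 ln14_10_4_ok) (M (nat_lit 495) (B (L (nat_lit 462) ln14_11_4 ln14_11_4_ok) (L (nat_lit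 527) ln15_16_7 ln15_16_7_ok)))))))))))))))))) (B c33_n1601 (B (K (nat_lit 4159004541504003524128484849921615451655032097354938086859372310025764381276019387312066758484915036306104045371593254240054673408) (nat_lit 3066344470991278068727087244690009140914814559727338214998952526400131776418525154630716230130755602208921771015459950254831089087016227449109282794720566850034318966784) (nat_lit 3066344470991278068727087244690009140914814559727338214998952526400131776418525154630716230130755602208921771015459950254831089087016227449109282794720566850034318966784) c33_s2281) (B c33_n2324 (B c33_n2419 (B (K (nat_lit 4159004541504003524128484849921615451655032097354938086859372310025764381276019387312066758484915036306104045371593254240054673408) (nat_lit 768857338318228750318897704597577590690982361913859831221277648950873143104335143003864276804646250490144914118991739088686385769641946182887212780413549281280)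 (nat_lit 768857338318228750318897704597577590690982361913859831221277648950873143104335143003864276804646250490144914118991739088686385769641946182887212780413549281280) c33_s2579) (B (K (nat_lit 4159004541504003524128484849921615451655032097354938086859372310025764381276019387312066758484915036306104045371593254240054673408) (nat_lit 823775719621650321459114381323367389600370639122565905883284619644783509798408030366895135079887992237290849927007206172878159888225166166713455304544385761280) (nat_lit 823775719621650321459114381323367389600370639122565905883284619644783509798408030366895135079887992237290849927007206172878159888225166166713455304544385761280) c33_s2889) (B (K (nat_lit 4159004541504003524128484849921615451655032097354938086859372310025764381276019387312066758484915036306104045371593254240054673408) (nat_lit 1651108561271312201416505289911552688992888379069693290274566598765673543563114691858773533566433582098135581558029111034382138130264910280770309400175811510764268683264)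 (nat_lit 1651108561271312201416505289911552688992888379069693290274566598765673543563114691858773533566433582098135581558029111034382138130264910280770309400175811510764268683264) c33_s3323) (B c33_n3352 (B (K (nat_lit 4159004541504003524128484849921615451655032097354938086859372310025764381276019387312066758484915036306104045371593254240054673408) (nat_lit 27459190800355964724676065070945888936062842441161884190500599434031589316517005375167666341096296465176966736640292683902663835252049563208698016824169594880) (nat_lit 27459190800355964724676065070945888936062842441161884190500599434031589316517005375167666341096296465176966736640292683902663835252049563208698016824169594880) c33_s3372) c33_n3403))))))))))))))))))))) (nat_lit 1386334847383188664550070665778531748218595021979121511688892729411143073470393764272092352380775458208712834410189682411080515584) (nat_lit 3538089774121429928399402341431232143501125301516319229570447053508709915116676241618922379364057767762176966377035589736433024785096241094570496998843750522324535738368)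 (nat_lit 3538089774121429928399402341431232143501125301516319229570447053508709915116676241618922379364057767762176966377035589736433024785096241094570496998843750522324535738368) (by decide +kernel)
theorem c33_s3574 : Sem (nat_lit 5954262830815946494763249298768603811203561774969104571805089223376689777636098861358550851719243481454542035207245364041705138952691777536) (nat_lit 1415235909637588294955865783147621990574485847739839674041064022031535663807949380671801188335373180445949391376337972361487526405101971254910987000816168853669377212416) (nat_lit 1415235909637588294955865783147621990574485847739839674041064022031535663807949380671801188335373180445949391376337972361487526405101971254910987000816168853669377212416) :=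
  sem_of_chk (M (nat_lit 493) (B (M (nat_lit 525) (B (M (nat_lit 396) (B (L (nat_lit 364) ln13_15_7 ln13_15_7_ok) (L (nat_lit 428) ln13_16_7 ln13_16_7_ok))) (M (nat_lit 526) (B (L (nat_lit 494) ln13_12_4 ln13_12_4_ok) (L (nat_lit 558) ln13_13_4 ln13_13_4_ok))))) (B (M (nat_lit 428) (B (M (nat_lit 525) (B (L (nat_lit 396) ln13_16_7 ln13_16_7_ok) (M (nat_lit 526) (B (L (nat_lit 494) ln13_12_4 ln13_12_4_ok) (L (nat_lit 558) ln13_13_4 ln13_13_4_ok))))) (B (M (nat_lit 460) (B (M (nat_lit 365) (B (L (nat_lit 333) ln13_10_5 ln13_10_5_ok) (M (nat_lit 494) (B (L (nat_lit 462) ln13_11_4 ln13_11_4_ok) (L (nat_lit 526) ln13_12_4 ln13_12_4_ok))))) (B (M (nat_lit 525) (B (L (nat_lit 557) ln13_17_7 ln13_17_7_ok) (M (nat_lit 526) (B (L (nat_lit 494) ln13_12_4 ln13_12_4_ok) (L (nat_lit 558) ln13_13_4 ln13_13_4_ok))))) (M (nat_lit 430) (B (M (nat_lit 525) (B (L (nat_lit 398) ln13_16_6 ln13_16_6_ok) (L (nat_lit 557) ln13_17_7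 ln13_17_7_ok))) (M (nat_lit 431) (B (L (nat_lit 459) ln15_13_1 ln15_13_1_ok) (L (nat_lit 432) ln16_13_1 ln16_13_1_ok)))))))) (B (M (nat_lit 525) (B (L (nat_lit 396) ln13_16_7 ln13_16_7_ok) (M (nat_lit 430) (B (L (nat_lit 398) ln13_16_6 ln13_16_6_ok) (M (nat_lit 557) (B (L (nat_lit 460) ln13_17_7 ln13_17_7_ok) (L (nat_lit 462) ln13_17_6 ln13_17_6_ok))))))) (M (nat_lit 427) (B (M (nat_lit 426) (B (L (nat_lit 398) ln10_13_2 ln10_13_2_ok) (L (nat_lit 462) ln10_13_0 ln10_13_0_ok))) (B (M (nat_lit 462) (B (L (nat_lit 426) ln10_13_0 ln10_13_0_ok) (M (nat_lit 494) (B (L (nat_lit 365) ln13_11_4 ln13_11_4_ok) (L (nat_lit 526) ln13_12_4 ln13_12_4_ok))))) (B (M (nat_lit 462) (B (M (nat_lit 494) (B (L (nat_lit 365) ln13_11_4 ln13_11_4_ok) (L (nat_lit 526) ln13_12_4 ln13_12_4_ok))) (M (nat_lit 463) (B (L (nat_lit 430) ln11_13_0 ln11_13_0_ok) (L (nat_lit 464) ln16_14_3 ln16_14_3_ok))))) (M (nat_lit 398) (B (L (nat_lit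 426) ln10_13_2 ln10_13_2_ok) (M (nat_lit 399) (B (L (nat_lit 396) ln15_12_1 ln15_12_1_ok) (L (nat_lit 400) ln16_12_1 ln16_12_1_ok))))))))))))) (B (M (nat_lit 460) (B (M (nat_lit 494) (B (L (nat_lit 526) ln13_12_4 ln13_12_4_ok) (M (nat_lit 459) (B (L (nat_lit 458) ln10_14_0 ln10_14_0_ok) (M (nat_lit 462) (B (L (nat_lit 365) ln13_11_4 ln13_11_4_ok) (L (nat_lit 495) ln11_14_0 ln11_14_0_ok))))))) (B (M (nat_lit 430) (B (M (nat_lit 525) (B (L (nat_lit 398) ln13_16_6 ln13_16_6_ok) (M (nat_lit 526) (B (L (nat_lit 494) ln13_12_4 ln13_12_4_ok) (L (nat_lit 558) ln13_13_4 ln13_13_4_ok))))) (M (nat_lit 431) (B (L (nat_lit 432) ln16_13_1 ln16_13_1_ok) (M (nat_lit 459) (B (L (nat_lit 428) ln15_13_1 ln15_13_1_ok) (L (nat_lit 458) ln10_14_2 ln10_14_2_ok))))))) (B (M (nat_lit 428) (B (M (nat_lit 525) (B (L (nat_lit 557) ln13_17_7 ln13_17_7_ok) (M (nat_lit 526) (B (L (nat_lit 494) ln13_12_4 ln13_12_4_ok) (L (nat_lit 558)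 ln13_13_4 ln13_13_4_ok))))) (B (M (nat_lit 430) (B (M (nat_lit 525) (B (L (nat_lit 398) ln13_16_6 ln13_16_6_ok) (L (nat_lit 557) ln13_17_7 ln13_17_7_ok))) (M (nat_lit 431) (B (L (nat_lit 459) ln15_13_1 ln15_13_1_ok) (L (nat_lit 432) ln16_13_1 ln16_13_1_ok))))) (M (nat_lit 365) (B (L (nat_lit 333) ln13_10_5 ln13_10_5_ok) (M (nat_lit 494) (B (L (nat_lit 462) ln13_11_4 ln13_11_4_ok) (L (nat_lit 526) ln13_12_4 ln13_12_4_ok)))))))) (B (M (nat_lit 365) (B (M (nat_lit 494) (B (L (nat_lit 462) ln13_11_4 ln13_11_4_ok) (L (nat_lit 526) ln13_12_4 ln13_12_4_ok))) (M (nat_lit 333) (B (L (nat_lit 428) ln13_10_5 ln13_10_5_ok) (M (nat_lit 332) (B (L (nat_lit 300) ln13_13_7 ln13_13_7_ok) (L (nat_lit 364) ln13_14_7 ln13_14_7_ok))))))) (M (nat_lit 430) (B (M (nat_lit 431) (B (L (nat_lit 432) ln16_13_1 ln16_13_1_ok) (M (nat_lit 459) (B (L (nat_lit 428) ln15_13_1 ln15_13_1_ok) (L (nat_lit 458) ln10_14_2 ln10_14_2_ok)))))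 (B (M (nat_lit 431) (B (L (nat_lit 432) ln16_13_1 ln16_13_1_ok) (M (nat_lit 459) (B (L (nat_lit 458) ln10_14_2 ln10_14_2_ok) (L (nat_lit 462) ln11_14_2 ln11_14_2_ok))))) (M (nat_lit 525) (B (L (nat_lit 398) ln13_16_6 ln13_16_6_ok) (M (nat_lit 557) (B (L (nat_lit 428) ln13_17_7 ln13_17_7_ok) (L (nat_lit 462) ln13_17_6 ln13_17_6_ok))))))))))))) (B (M (nat_lit 365) (B (M (nat_lit 364) (B (L (nat_lit 332) ln13_14_7 ln13_14_7_ok) (L (nat_lit 396) ln13_15_7 ln13_15_7_ok))) (M (nat_lit 494) (B (L (nat_lit 462) ln13_11_4 ln13_11_4_ok) (L (nat_lit 526) ln13_12_4 ln13_12_4_ok))))) (M (nat_lit 365) (B (M (nat_lit 364) (B (L (nat_lit 332) ln13_14_7 ln13_14_7_ok) (L (nat_lit 396) ln13_15_7 ln13_15_7_ok))) (B (M (nat_lit 396) (B (L (nat_lit 364) ln13_15_7 ln13_15_7_ok) (M (nat_lit 428) (B (L (nat_lit 525) ln13_16_7 ln13_16_7_ok) (M (nat_lit 333) (B (L (nat_lit 301) ln13_9_5 ln13_9_5_ok) (L (nat_lit 460) ln13_10_5 ln13_10_5_ok)))))))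 (B (M (nat_lit 333) (B (M (nat_lit 428) (B (L (nat_lit 460) ln13_10_5 ln13_10_5_ok) (M (nat_lit 396) (B (L (nat_lit 301) ln13_9_5 ln13_9_5_ok) (L (nat_lit 525) ln13_16_7 ln13_16_7_ok))))) (B (M (nat_lit 525) (B (M (nat_lit 428) (B (L (nat_lit 460) ln13_10_5 ln13_10_5_ok) (L (nat_lit 396) ln13_16_7 ln13_16_7_ok))) (M (nat_lit 430) (B (L (nat_lit 462) ln13_10_4 ln13_10_4_ok) (L (nat_lit 398) ln13_16_6 ln13_16_6_ok))))) (B (M (nat_lit 430) (B (L (nat_lit 462) ln13_10_4 ln13_10_4_ok) (M (nat_lit 398) (B (L (nat_lit 301) ln13_9_4 ln13_9_4_ok) (L (nat_lit 525) ln13_16_6 ln13_16_6_ok))))) (M (nat_lit 301) (B (M (nat_lit 428) (B (L (nat_lit 396) ln13_9_5 ln13_9_5_ok) (L (nat_lit 460) ln13_10_5 ln13_10_5_ok))) (M (nat_lit 430) (B (L (nat_lit 398) ln13_9_4 ln13_9_4_ok) (L (nat_lit 462) ln13_10_4 ln13_10_4_ok))))))))) (M (nat_lit 333) (B (M (nat_lit 332) (B (L (nat_lit 300) ln13_13_7 ln13_13_7_ok) (L (nat_lit 364)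 ln13_14_7 ln13_14_7_ok))) (M (nat_lit 430) (B (L (nat_lit 462) ln13_10_4 ln13_10_4_ok) (M (nat_lit 398) (B (L (nat_lit 301) ln13_9_4 ln13_9_4_ok) (L (nat_lit 525) ln13_16_6 ln13_16_6_ok)))))))))))))))) (nat_lit 5954262830815946494763249298768603811203561774969104571805089223376689777636098861358550851719243481454542035207245364041705138952691777536) (nat_lit 1415235909637588294955865783147621990574485847739839674041064022031535663807949380671801188335373180445949391376337972361487526405101971254910987000816168853669377212416) (nat_lit 1415235909637588294955865783147621990574485847739839674041064022031535663807949380671801188335373180445949391376337972361487526405101971254910987000816168853669377212416) (by decide +kernel)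
theorem c33_s3585 : Sem (nat_lit 5954262830815946494763249298768603811203561774969104571805089223376689777636098861358550851719243481454542035207245364041705138952691777536) (nat_lit 235872651825938241711497502591697568397570514471294764101386828411300375679760114249839000943637507130489221864006325949081731640393217279419286466505245972760776146944) (nat_lit 235872651825938241711497502591697568397570514471294764101386828411300375679760114249839000943637507130489221864006325949081731640393217279419286466505245972760776146944) :=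
  sem_of_chk (M (nat_lit 460) (B (M (nat_lit 492) (B (L (nat_lit 365) ln13_11_5 ln13_11_5_ok) (M (nat_lit 524) (B (L (nat_lit 428) ln12_16_6 ln12_16_6_ok) (L (nat_lit 556) ln12_17_6 ln12_17_6_ok))))) (B (M (nat_lit 462) (B (M (nat_lit 459) (B (M (nat_lit 430) (B (L (nat_lit 458) ln10_14_2 ln10_14_2_ok) (L (nat_lit 431) ln11_14_2 ln11_14_2_ok))) (M (nat_lit 492) (B (M (nat_lit 524) (B (L (nat_lit 428) ln12_16_6 ln12_16_6_ok) (L (nat_lit 556) ln12_17_6 ln12_17_6_ok))) (M (nat_lit 491) (B (L (nat_lit 490) ln14_14_1 ln14_14_1_ok) (L (nat_lit 463) ln15_14_1 ln15_14_1_ok))))))) (B (M (nat_lit 459) (B (M (nat_lit 430) (B (L (nat_lit 458) ln10_14_2 ln10_14_2_ok) (L (nat_lit 431) ln11_14_2 ln11_14_2_ok))) (M (nat_lit 463) (B (M (nat_lit 491) (B (L (nat_lit 490) ln14_14_1 ln14_14_1_ok) (L (nat_lit 492) ln15_14_1 ln15_14_1_ok))) (M (nat_lit 495) (B (L (nat_lit 494) ln11_14_0 ln11_14_0_ok) (L (nat_lit 496) ln12_14_0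 ln12_14_0_ok))))))) (B (M (nat_lit 463) (B (M (nat_lit 428) (B (L (nat_lit 427) ln15_14_3 ln15_14_3_ok) (L (nat_lit 464) ln16_14_3 ln16_14_3_ok))) (B (M (nat_lit 428) (B (L (nat_lit 464) ln16_14_3 ln16_14_3_ok) (M (nat_lit 492) (B (L (nat_lit 524) ln12_16_6 ln12_16_6_ok) (L (nat_lit 491) ln15_14_1 ln15_14_1_ok))))) (B (M (nat_lit 464) (B (M (nat_lit 432) (B (L (nat_lit 431) ln12_14_2 ln12_14_2_ok) (L (nat_lit 433) ln13_14_2 ln13_14_2_ok))) (M (nat_lit 496) (B (L (nat_lit 495) ln12_14_0 ln12_14_0_ok) (L (nat_lit 497) ln13_14_0 ln13_14_0_ok))))) (M (nat_lit 428) (B (L (nat_lit 427) ln15_14_3 ln15_14_3_ok) (M (nat_lit 492) (B (L (nat_lit 524) ln12_16_6 ln12_16_6_ok) (L (nat_lit 491) ln15_14_1 ln15_14_1_ok))))))))) (B (M (nat_lit 459) (B (M (nat_lit 430) (B (L (nat_lit 458) ln10_14_2 ln10_14_2_ok) (M (nat_lit 494) (B (L (nat_lit 526) ln14_16_7 ln14_16_7_ok) (L (nat_lit 495) ln11_14_0 ln11_14_0_ok))))) (B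 (M (nat_lit 463) (B (M (nat_lit 491) (B (L (nat_lit 490) ln14_14_1 ln14_14_1_ok) (L (nat_lit 492) ln15_14_1 ln15_14_1_ok))) (M (nat_lit 495) (B (L (nat_lit 494) ln11_14_0 ln11_14_0_ok) (L (nat_lit 496) ln12_14_0 ln12_14_0_ok))))) (M (nat_lit 426) (B (L (nat_lit 427) ln14_14_3 ln14_14_3_ok) (M (nat_lit 458) (B (L (nat_lit 425) ln13_14_3 ln13_14_3_ok) (L (nat_lit 430) ln10_14_2 ln10_14_2_ok)))))))) (B (M (nat_lit 459) (B (M (nat_lit 430) (B (L (nat_lit 458) ln10_14_2 ln10_14_2_ok) (L (nat_lit 431) ln11_14_2 ln11_14_2_ok))) (B (M (nat_lit 458) (B (M (nat_lit 426) (B (L (nat_lit 425) ln13_14_3 ln13_14_3_ok) (L (nat_lit 427) ln14_14_3 ln14_14_3_ok))) (M (nat_lit 490) (B (L (nat_lit 489) ln13_14_1 ln13_14_1_ok) (L (nat_lit 491) ln14_14_1 ln14_14_1_ok))))) (M (nat_lit 430) (B (L (nat_lit 431) ln11_14_2 ln11_14_2_ok) (M (nat_lit 494) (B (L (nat_lit 526) ln14_16_7 ln14_16_7_ok) (L (nat_lit 495) ln11_14_0 ln11_14_0_ok))))))))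 (M (nat_lit 459) (B (M (nat_lit 430) (B (L (nat_lit 458) ln10_14_2 ln10_14_2_ok) (L (nat_lit 431) ln11_14_2 ln11_14_2_ok))) (M (nat_lit 463) (B (M (nat_lit 427) (B (L (nat_lit 426) ln14_14_3 ln14_14_3_ok) (L (nat_lit 428) ln15_14_3 ln15_14_3_ok))) (M (nat_lit 495) (B (L (nat_lit 494) ln11_14_0 ln11_14_0_ok) (L (nat_lit 496) ln12_14_0 ln12_14_0_ok))))))))))))) (B (M (nat_lit 365) (B (L (nat_lit 492) ln13_11_5 ln13_11_5_ok) (M (nat_lit 333) (B (M (nat_lit 332) (B (L (nat_lit 300) ln13_13_7 ln13_13_7_ok) (L (nat_lit 364) ln13_14_7 ln13_14_7_ok))) (M (nat_lit 462) (B (L (nat_lit 430) ln13_10_4 ln13_10_4_ok) (L (nat_lit 494) ln13_11_4 ln13_11_4_ok))))))) (M (nat_lit 462) (B (M (nat_lit 365) (B (L (nat_lit 494) ln13_11_4 ln13_11_4_ok) (M (nat_lit 333) (B (L (nat_lit 428) ln13_10_5 ln13_10_5_ok) (L (nat_lit 430) ln13_10_4 ln13_10_4_ok))))) (B (M (nat_lit 459) (B (M (nat_lit 430) (B (L (nat_lit 458) ln10_14_2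 ln10_14_2_ok) (L (nat_lit 431) ln11_14_2 ln11_14_2_ok))) (M (nat_lit 494) (B (L (nat_lit 365) ln13_11_4 ln13_11_4_ok) (L (nat_lit 495) ln11_14_0 ln11_14_0_ok))))) (B (M (nat_lit 459) (B (M (nat_lit 430) (B (L (nat_lit 458) ln10_14_2 ln10_14_2_ok) (L (nat_lit 431) ln11_14_2 ln11_14_2_ok))) (M (nat_lit 463) (B (M (nat_lit 427) (B (L (nat_lit 426) ln14_14_3 ln14_14_3_ok) (L (nat_lit 428) ln15_14_3 ln15_14_3_ok))) (M (nat_lit 495) (B (L (nat_lit 494) ln11_14_0 ln11_14_0_ok) (L (nat_lit 496) ln12_14_0 ln12_14_0_ok))))))) (B (M (nat_lit 428) (B (M (nat_lit 365) (B (L (nat_lit 333) ln13_10_5 ln13_10_5_ok) (L (nat_lit 494) ln13_11_4 ln13_11_4_ok))) (M (nat_lit 463) (B (L (nat_lit 427) ln15_14_3 ln15_14_3_ok) (L (nat_lit 464) ln16_14_3 ln16_14_3_ok))))) (M (nat_lit 463) (B (M (nat_lit 428) (B (L (nat_lit 427) ln15_14_3 ln15_14_3_ok) (L (nat_lit 464) ln16_14_3 ln16_14_3_ok))) (B (M (nat_lit 432) (B (L (nat_lit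 431) ln12_14_2 ln12_14_2_ok) (M (nat_lit 464) (B (L (nat_lit 428) ln16_14_3 ln16_14_3_ok) (L (nat_lit 433) ln13_14_2 ln13_14_2_ok))))) (B (M (nat_lit 464) (B (M (nat_lit 432) (B (L (nat_lit 431) ln12_14_2 ln12_14_2_ok) (L (nat_lit 433) ln13_14_2 ln13_14_2_ok))) (M (nat_lit 496) (B (L (nat_lit 495) ln12_14_0 ln12_14_0_ok) (L (nat_lit 497) ln13_14_0 ln13_14_0_ok))))) (M (nat_lit 459) (B (M (nat_lit 427) (B (L (nat_lit 426) ln14_14_3 ln14_14_3_ok) (L (nat_lit 428) ln15_14_3 ln15_14_3_ok))) (M (nat_lit 430) (B (L (nat_lit 458) ln10_14_2 ln10_14_2_ok) (L (nat_lit 431) ln11_14_2 ln11_14_2_ok)))))))))))))))))) (nat_lit 5954262830815946494763249298768603811203561774969104571805089223376689777636098861358550851719243481454542035207245364041705138952691777536) (nat_lit 235872651825938241711497502591697568397570514471294764101386828411300375679760114249839000943637507130489221864006325949081731640393217279419286466505245972760776146944)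 (nat_lit 235872651825938241711497502591697568397570514471294764101386828411300375679760114249839000943637507130489221864006325949081731640393217279419286466505245972760776146944) (by decide +kernel)
theorem c33_s3636 : Sem (nat_lit 1386334847383188664550070665778531748218595021979121511688892729411143073470393764272092352380775458208712834410189682411080515584) (nat_lit 1651108561291906595010657858037397133486035023011265240313377768530099108919791231486008213742872595378064206383337745690628556874622029393097722790905583579428730961920) (nat_lit 1651108561291906595010657858037397133486035023011265240313377768530099108919791231486008213742872595378064206383337745690628556874622029393097722790905583579428730961920) :=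
  sem_of_chk (M (nat_lit 461) (B (M (nat_lit 493) (B (M (nat_lit 525) (B (M (nat_lit 396) (B (L (nat_lit 364) ln13_15_7 ln13_15_7_ok) (L (nat_lit 428) ln13_16_7 ln13_16_7_ok))) (M (nat_lit 524) (B (L (nat_lit 492) ln13_12_5 ln13_12_5_ok) (L (nat_lit 556) ln13_13_5 ln13_13_5_ok))))) (B (M (nat_lit 365) (B (M (nat_lit 492) (B (L (nat_lit 460) ln13_11_5 ln13_11_5_ok) (L (nat_lit 524) ln13_12_5 ln13_12_5_ok))) (M (nat_lit 494) (B (L (nat_lit 462) ln13_11_4 ln13_11_4_ok) (L (nat_lit 526) ln13_12_4 ln13_12_4_ok))))) (M (nat_lit 365) (B (M (nat_lit 364) (B (L (nat_lit 332) ln13_14_7 ln13_14_7_ok) (L (nat_lit 396) ln13_15_7 ln13_15_7_ok))) (M (nat_lit 494) (B (L (nat_lit 462) ln13_11_4 ln13_11_4_ok) (L (nat_lit 526) ln13_12_4 ln13_12_4_ok)))))))) (B (M (nat_lit 493) (B (M (nat_lit 525) (B (M (nat_lit 396) (B (L (nat_lit 364) ln13_15_7 ln13_15_7_ok) (L (nat_lit 428) ln13_16_7 ln13_16_7_ok))) (M (nat_lit 524) (B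 (L (nat_lit 492) ln13_12_5 ln13_12_5_ok) (L (nat_lit 556) ln13_13_5 ln13_13_5_ok))))) (B (M (nat_lit 365) (B (M (nat_lit 492) (B (L (nat_lit 460) ln13_11_5 ln13_11_5_ok) (L (nat_lit 524) ln13_12_5 ln13_12_5_ok))) (M (nat_lit 494) (B (L (nat_lit 462) ln13_11_4 ln13_11_4_ok) (L (nat_lit 526) ln13_12_4 ln13_12_4_ok))))) (M (nat_lit 525) (B (M (nat_lit 396) (B (L (nat_lit 364) ln13_15_7 ln13_15_7_ok) (L (nat_lit 428) ln13_16_7 ln13_16_7_ok))) (M (nat_lit 526) (B (L (nat_lit 494) ln13_12_4 ln13_12_4_ok) (L (nat_lit 558) ln13_13_4 ln13_13_4_ok)))))))) (B (M (nat_lit 493) (B (M (nat_lit 365) (B (M (nat_lit 492) (B (L (nat_lit 460) ln13_11_5 ln13_11_5_ok) (L (nat_lit 524) ln13_12_5 ln13_12_5_ok))) (M (nat_lit 494) (B (L (nat_lit 462) ln13_11_4 ln13_11_4_ok) (L (nat_lit 526) ln13_12_4 ln13_12_4_ok))))) (B (M (nat_lit 525) (B (M (nat_lit 524) (B (L (nat_lit 492) ln13_12_5 ln13_12_5_ok) (L (nat_lit 556) ln13_13_5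 ln13_13_5_ok))) (M (nat_lit 526) (B (L (nat_lit 494) ln13_12_4 ln13_12_4_ok) (L (nat_lit 558) ln13_13_4 ln13_13_4_ok))))) (B (M (nat_lit 525) (B (M (nat_lit 526) (B (L (nat_lit 494) ln13_12_4 ln13_12_4_ok) (L (nat_lit 558) ln13_13_4 ln13_13_4_ok))) (M (nat_lit 557) (B (M (nat_lit 428) (B (L (nat_lit 396) ln13_16_7 ln13_16_7_ok) (L (nat_lit 460) ln13_17_7 ln13_17_7_ok))) (M (nat_lit 430) (B (L (nat_lit 398) ln13_16_6 ln13_16_6_ok) (L (nat_lit 462) ln13_17_6 ln13_17_6_ok))))))) (M (nat_lit 460) (B (M (nat_lit 492) (B (L (nat_lit 365) ln13_11_5 ln13_11_5_ok) (L (nat_lit 524) ln13_12_5 ln13_12_5_ok))) (M (nat_lit 430) (B (M (nat_lit 431) (B (L (nat_lit 432) ln16_13_1 ln16_13_1_ok) (M (nat_lit 459) (B (L (nat_lit 428) ln15_13_1 ln15_13_1_ok) (L (nat_lit 458) ln10_14_2 ln10_14_2_ok))))) (B (M (nat_lit 431) (B (L (nat_lit 432) ln16_13_1 ln16_13_1_ok) (M (nat_lit 459) (B (L (nat_lit 458) ln10_14_2 ln10_14_2_ok)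 (L (nat_lit 462) ln11_14_2 ln11_14_2_ok))))) (M (nat_lit 525) (B (L (nat_lit 398) ln13_16_6 ln13_16_6_ok) (M (nat_lit 428) (B (L (nat_lit 396) ln13_16_7 ln13_16_7_ok) (L (nat_lit 557) ln13_17_7 ln13_17_7_ok)))))))))))))) (B (M (nat_lit 493) (B (M (nat_lit 525) (B (M (nat_lit 396) (B (L (nat_lit 364) ln13_15_7 ln13_15_7_ok) (L (nat_lit 428) ln13_16_7 ln13_16_7_ok))) (M (nat_lit 526) (B (L (nat_lit 494) ln13_12_4 ln13_12_4_ok) (L (nat_lit 558) ln13_13_4 ln13_13_4_ok))))) (B (M (nat_lit 525) (B (M (nat_lit 524) (B (L (nat_lit 492) ln13_12_5 ln13_12_5_ok) (L (nat_lit 556) ln13_13_5 ln13_13_5_ok))) (M (nat_lit 526) (B (L (nat_lit 494) ln13_12_4 ln13_12_4_ok) (L (nat_lit 558) ln13_13_4 ln13_13_4_ok))))) (B (M (nat_lit 525) (B (M (nat_lit 396) (B (L (nat_lit 364) ln13_15_7 ln13_15_7_ok) (L (nat_lit 428) ln13_16_7 ln13_16_7_ok))) (M (nat_lit 524) (B (L (nat_lit 492) ln13_12_5 ln13_12_5_ok) (L (nat_lit 556) ln13_13_5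 ln13_13_5_ok))))) (M (nat_lit 492) (B (L (nat_lit 524) ln13_12_5 ln13_12_5_ok) (M (nat_lit 494) (B (L (nat_lit 526) ln13_12_4 ln13_12_4_ok) (M (nat_lit 491) (B (M (nat_lit 462) (B (L (nat_lit 490) ln10_15_2 ln10_15_2_ok) (L (nat_lit 463) ln11_15_2 ln11_15_2_ok))) (B (M (nat_lit 490) (B (M (nat_lit 458) (B (L (nat_lit 457) ln13_15_3 ln13_15_3_ok) (L (nat_lit 459) ln14_15_3 ln14_15_3_ok))) (M (nat_lit 522) (B (L (nat_lit 521) ln13_15_1 ln13_15_1_ok) (L (nat_lit 523) ln14_15_1 ln14_15_1_ok))))) (M (nat_lit 495) (B (M (nat_lit 459) (B (L (nat_lit 458) ln14_15_3 ln14_15_3_ok) (L (nat_lit 460) ln15_15_3 ln15_15_3_ok))) (M (nat_lit 463) (B (L (nat_lit 462) ln11_15_2 ln11_15_2_ok) (L (nat_lit 464) ln12_15_2 ln12_15_2_ok)))))))))))))))) (B (M (nat_lit 365) (B (M (nat_lit 333) (B (M (nat_lit 332) (B (L (nat_lit 300) ln13_13_7 ln13_13_7_ok) (L (nat_lit 364) ln13_14_7 ln13_14_7_ok))) (M (nat_lit 462) (B (L (nat_lit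 430) ln13_10_4 ln13_10_4_ok) (L (nat_lit 494) ln13_11_4 ln13_11_4_ok))))) (B (M (nat_lit 493) (B (M (nat_lit 492) (B (L (nat_lit 460) ln13_11_5 ln13_11_5_ok) (L (nat_lit 524) ln13_12_5 ln13_12_5_ok))) (M (nat_lit 494) (B (L (nat_lit 462) ln13_11_4 ln13_11_4_ok) (L (nat_lit 526) ln13_12_4 ln13_12_4_ok))))) (M (nat_lit 333) (B (M (nat_lit 332) (B (L (nat_lit 300) ln13_13_7 ln13_13_7_ok) (L (nat_lit 364) ln13_14_7 ln13_14_7_ok))) (M (nat_lit 460) (B (L (nat_lit 428) ln13_10_5 ln13_10_5_ok) (L (nat_lit 492) ln13_11_5 ln13_11_5_ok)))))))) (B (M (nat_lit 365) (B (M (nat_lit 493) (B (M (nat_lit 492) (B (L (nat_lit 460) ln13_11_5 ln13_11_5_ok) (L (nat_lit 524) ln13_12_5 ln13_12_5_ok))) (M (nat_lit 494) (B (L (nat_lit 462) ln13_11_4 ln13_11_4_ok) (L (nat_lit 526) ln13_12_4 ln13_12_4_ok))))) (B (M (nat_lit 493) (B (M (nat_lit 364) (B (L (nat_lit 332) ln13_14_7 ln13_14_7_ok) (L (nat_lit 396) ln13_15_7 ln13_15_7_ok)))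 (M (nat_lit 494) (B (L (nat_lit 462) ln13_11_4 ln13_11_4_ok) (L (nat_lit 526) ln13_12_4 ln13_12_4_ok))))) (B (M (nat_lit 493) (B (M (nat_lit 364) (B (L (nat_lit 332) ln13_14_7 ln13_14_7_ok) (L (nat_lit 396) ln13_15_7 ln13_15_7_ok))) (M (nat_lit 492) (B (L (nat_lit 460) ln13_11_5 ln13_11_5_ok) (L (nat_lit 524) ln13_12_5 ln13_12_5_ok))))) (M (nat_lit 333) (B (M (nat_lit 332) (B (L (nat_lit 300) ln13_13_7 ln13_13_7_ok) (L (nat_lit 364) ln13_14_7 ln13_14_7_ok))) (M (nat_lit 462) (B (L (nat_lit 430) ln13_10_4 ln13_10_4_ok) (L (nat_lit 494) ln13_11_4 ln13_11_4_ok))))))))) (B (M (nat_lit 493) (B (M (nat_lit 525) (B (M (nat_lit 396) (B (L (nat_lit 364) ln13_15_7 ln13_15_7_ok) (L (nat_lit 428) ln13_16_7 ln13_16_7_ok))) (M (nat_lit 524) (B (L (nat_lit 492) ln13_12_5 ln13_12_5_ok) (L (nat_lit 556) ln13_13_5 ln13_13_5_ok))))) (B (M (nat_lit 525) (B (M (nat_lit 524) (B (L (nat_lit 492) ln13_12_5 ln13_12_5_ok) (L (nat_lit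 556) ln13_13_5 ln13_13_5_ok))) (M (nat_lit 526) (B (L (nat_lit 494) ln13_12_4 ln13_12_4_ok) (L (nat_lit 558) ln13_13_4 ln13_13_4_ok))))) (B (M (nat_lit 525) (B (M (nat_lit 396) (B (L (nat_lit 364) ln13_15_7 ln13_15_7_ok) (L (nat_lit 428) ln13_16_7 ln13_16_7_ok))) (M (nat_lit 526) (B (L (nat_lit 494) ln13_12_4 ln13_12_4_ok) (L (nat_lit 558) ln13_13_4 ln13_13_4_ok))))) (M (nat_lit 365) (B (M (nat_lit 364) (B (L (nat_lit 332) ln13_14_7 ln13_14_7_ok) (L (nat_lit 396) ln13_15_7 ln13_15_7_ok))) (M (nat_lit 494) (B (L (nat_lit 462) ln13_11_4 ln13_11_4_ok) (L (nat_lit 526) ln13_12_4 ln13_12_4_ok))))))))) (B (M (nat_lit 493) (B (M (nat_lit 525) (B (M (nat_lit 524) (B (L (nat_lit 492) ln13_12_5 ln13_12_5_ok) (L (nat_lit 556) ln13_13_5 ln13_13_5_ok))) (M (nat_lit 526) (B (L (nat_lit 494) ln13_12_4 ln13_12_4_ok) (L (nat_lit 558) ln13_13_4 ln13_13_4_ok))))) (B (M (nat_lit 525) (B (M (nat_lit 396) (B (L (nat_lit 364)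 ln13_15_7 ln13_15_7_ok) (L (nat_lit 428) ln13_16_7 ln13_16_7_ok))) (M (nat_lit 526) (B (L (nat_lit 494) ln13_12_4 ln13_12_4_ok) (L (nat_lit 558) ln13_13_4 ln13_13_4_ok))))) (M (nat_lit 365) (B (M (nat_lit 364) (B (L (nat_lit 332) ln13_14_7 ln13_14_7_ok) (L (nat_lit 396) ln13_15_7 ln13_15_7_ok))) (M (nat_lit 492) (B (L (nat_lit 460) ln13_11_5 ln13_11_5_ok) (L (nat_lit 524) ln13_12_5 ln13_12_5_ok)))))))) (B (K (nat_lit 5954262830815946494763249298768603811203561774969104571805089223376689777636098861358550851719243481454542035207245364041705138952691777536) (nat_lit 1415235909637588294955865783147621990574485847739839674041064022031535663807949380671801188335373180445949391376337972361487526405101971254910987000816168853669377212416) (nat_lit 1415235909637588294955865783147621990574485847739839674041064022031535663807949380671801188335373180445949391376337972361487526405101971254910987000816168853669377212416)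 c33_s3574) (B (K (nat_lit 5954262830815946494763249298768603811203561774969104571805089223376689777636098861358550851719243481454542035207245364041705138952691777536) (nat_lit 235872651825938241711497502591697568397570514471294764101386828411300375679760114249839000943637507130489221864006325949081731640393217279419286466505245972760776146944) (nat_lit 235872651825938241711497502591697568397570514471294764101386828411300375679760114249839000943637507130489221864006325949081731640393217279419286466505245972760776146944) c33_s3585) (M (nat_lit 430) (B (M (nat_lit 460) (B (M (nat_lit 431) (B (L (nat_lit 432) ln16_13_1 ln16_13_1_ok) (M (nat_lit 459) (B (L (nat_lit 428) ln15_13_1 ln15_13_1_ok) (L (nat_lit 458) ln10_14_2 ln10_14_2_ok))))) (B (M (nat_lit 431) (B (L (nat_lit 432) ln16_13_1 ln16_13_1_ok) (M (nat_lit 459) (B (L (nat_lit 458) ln10_14_2 ln10_14_2_ok) (L (nat_lit 462) ln11_14_2 ln11_14_2_ok))))) (M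 (nat_lit 365) (B (L (nat_lit 492) ln13_11_5 ln13_11_5_ok) (M (nat_lit 333) (B (L (nat_lit 428) ln13_10_5 ln13_10_5_ok) (L (nat_lit 462) ln13_10_4 ln13_10_4_ok)))))))) (B (M (nat_lit 460) (B (M (nat_lit 431) (B (L (nat_lit 432) ln16_13_1 ln16_13_1_ok) (M (nat_lit 459) (B (L (nat_lit 428) ln15_13_1 ln15_13_1_ok) (L (nat_lit 458) ln10_14_2 ln10_14_2_ok))))) (M (nat_lit 492) (B (L (nat_lit 365) ln13_11_5 ln13_11_5_ok) (M (nat_lit 524) (B (L (nat_lit 493) ln13_12_5 ln13_12_5_ok) (L (nat_lit 556) ln12_17_6 ln12_17_6_ok))))))) (B (M (nat_lit 396) (B (M (nat_lit 431) (B (L (nat_lit 432) ln16_13_3 ln16_13_3_ok) (M (nat_lit 395) (B (L (nat_lit 394) ln10_12_0 ln10_12_0_ok) (L (nat_lit 428) ln15_13_3 ln15_13_3_ok))))) (B (M (nat_lit 431) (B (L (nat_lit 432) ln16_13_3 ln16_13_3_ok) (M (nat_lit 395) (B (L (nat_lit 398) ln11_12_0 ln11_12_0_ok) (L (nat_lit 428) ln15_13_3 ln15_13_3_ok))))) (B (M (nat_lit 364) (B (L (nat_lit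 493) ln13_15_7 ln13_15_7_ok) (M (nat_lit 332) (B (L (nat_lit 300) ln12_9_4 ln12_9_4_ok) (L (nat_lit 428) ln12_10_4 ln12_10_4_ok))))) (M (nat_lit 431) (B (L (nat_lit 432) ln16_13_3 ln16_13_3_ok) (M (nat_lit 395) (B (L (nat_lit 394) ln10_12_0 ln10_12_0_ok) (L (nat_lit 398) ln11_12_0 ln11_12_0_ok))))))))) (B (M (nat_lit 460) (B (M (nat_lit 431) (B (L (nat_lit 432) ln16_13_1 ln16_13_1_ok) (M (nat_lit 459) (B (L (nat_lit 458) ln10_14_2 ln10_14_2_ok) (L (nat_lit 462) ln11_14_2 ln11_14_2_ok))))) (M (nat_lit 492) (B (L (nat_lit 365) ln13_11_5 ln13_11_5_ok) (M (nat_lit 524) (B (L (nat_lit 493) ln13_12_5 ln13_12_5_ok) (L (nat_lit 556) ln12_17_6 ln12_17_6_ok))))))) (M (nat_lit 365) (B (M (nat_lit 333) (B (L (nat_lit 462) ln13_10_4 ln13_10_4_ok) (M (nat_lit 332) (B (L (nat_lit 300) ln13_13_7 ln13_13_7_ok) (L (nat_lit 364) ln13_14_7 ln13_14_7_ok))))) (B (M (nat_lit 460) (B (L (nat_lit 492) ln13_11_5 ln13_11_5_ok)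 (M (nat_lit 333) (B (L (nat_lit 428) ln13_10_5 ln13_10_5_ok) (L (nat_lit 462) ln13_10_4 ln13_10_4_ok))))) (M (nat_lit 493) (B (M (nat_lit 364) (B (L (nat_lit 332) ln13_14_7 ln13_14_7_ok) (L (nat_lit 396) ln13_15_7 ln13_15_7_ok))) (M (nat_lit 492) (B (L (nat_lit 460) ln13_11_5 ln13_11_5_ok) (L (nat_lit 524) ln13_12_5 ln13_12_5_ok)))))))))))))))))))))))) (nat_lit 1386334847383188664550070665778531748218595021979121511688892729411143073470393764272092352380775458208712834410189682411080515584) (nat_lit 1651108561291906595010657858037397133486035023011265240313377768530099108919791231486008213742872595378064206383337745690628556874622029393097722790905583579428730961920) (nat_lit 1651108561291906595010657858037397133486035023011265240313377768530099108919791231486008213742872595378064206383337745690628556874622029393097722790905583579428730961920) (by decide +kernel)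
theorem c33_s3661 : Sem (nat_lit 1386334847383188664550070665778531748218595021979121511688892729411143073470393764272092352380775458208712834410189682411080515584) (nat_lit 1179363258141160342359549267408618075101010767210241842913727008049023332116301216089184366841513625615452239982219393040611291513508832910792330662286376615092986839040) (nat_lit 1179363258141160342359549267408618075101010767210241842913727008049023332116301216089184366841513625615452239982219393040611291513508832910792330662286376615092986839040) :=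
  sem_of_chk (M (nat_lit 461) (B (M (nat_lit 493) (B (M (nat_lit 525) (B (M (nat_lit 396) (B (L (nat_lit 364) ln13_15_7 ln13_15_7_ok) (L (nat_lit 428) ln13_16_7 ln13_16_7_ok))) (M (nat_lit 524) (B (L (nat_lit 492) ln13_12_5 ln13_12_5_ok) (L (nat_lit 556) ln13_13_5 ln13_13_5_ok))))) (B (M (nat_lit 365) (B (M (nat_lit 492) (B (L (nat_lit 460) ln13_11_5 ln13_11_5_ok) (L (nat_lit 524) ln13_12_5 ln13_12_5_ok))) (M (nat_lit 494) (B (L (nat_lit 462) ln13_11_4 ln13_11_4_ok) (L (nat_lit 526) ln13_12_4 ln13_12_4_ok))))) (M (nat_lit 365) (B (M (nat_lit 364) (B (L (nat_lit 332) ln13_14_7 ln13_14_7_ok) (L (nat_lit 396) ln13_15_7 ln13_15_7_ok))) (M (nat_lit 494) (B (L (nat_lit 462) ln13_11_4 ln13_11_4_ok) (L (nat_lit 526) ln13_12_4 ln13_12_4_ok)))))))) (B (M (nat_lit 493) (B (M (nat_lit 365) (B (M (nat_lit 366) (B (L (nat_lit 334) ln13_14_6 ln13_14_6_ok) (L (nat_lit 398) ln13_15_6 ln13_15_6_ok))) (M (nat_lit 492) (B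 (L (nat_lit 460) ln13_11_5 ln13_11_5_ok) (L (nat_lit 524) ln13_12_5 ln13_12_5_ok))))) (M (nat_lit 525) (B (M (nat_lit 396) (B (L (nat_lit 364) ln13_15_7 ln13_15_7_ok) (L (nat_lit 428) ln13_16_7 ln13_16_7_ok))) (M (nat_lit 526) (B (L (nat_lit 494) ln13_12_4 ln13_12_4_ok) (L (nat_lit 558) ln13_13_4 ln13_13_4_ok))))))) (B (M (nat_lit 493) (B (M (nat_lit 365) (B (M (nat_lit 492) (B (L (nat_lit 460) ln13_11_5 ln13_11_5_ok) (L (nat_lit 524) ln13_12_5 ln13_12_5_ok))) (M (nat_lit 494) (B (L (nat_lit 462) ln13_11_4 ln13_11_4_ok) (L (nat_lit 526) ln13_12_4 ln13_12_4_ok))))) (B (M (nat_lit 525) (B (M (nat_lit 398) (B (L (nat_lit 366) ln13_15_6 ln13_15_6_ok) (L (nat_lit 430) ln13_16_6 ln13_16_6_ok))) (M (nat_lit 526) (B (L (nat_lit 494) ln13_12_4 ln13_12_4_ok) (L (nat_lit 558) ln13_13_4 ln13_13_4_ok))))) (M (nat_lit 365) (B (M (nat_lit 366) (B (L (nat_lit 334) ln13_14_6 ln13_14_6_ok) (L (nat_lit 398) ln13_15_6 ln13_15_6_ok)))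 (M (nat_lit 492) (B (L (nat_lit 460) ln13_11_5 ln13_11_5_ok) (L (nat_lit 524) ln13_12_5 ln13_12_5_ok)))))))) (B (M (nat_lit 493) (B (M (nat_lit 525) (B (M (nat_lit 396) (B (L (nat_lit 364) ln13_15_7 ln13_15_7_ok) (L (nat_lit 428) ln13_16_7 ln13_16_7_ok))) (M (nat_lit 524) (B (L (nat_lit 492) ln13_12_5 ln13_12_5_ok) (L (nat_lit 556) ln13_13_5 ln13_13_5_ok))))) (B (M (nat_lit 525) (B (M (nat_lit 398) (B (L (nat_lit 366) ln13_15_6 ln13_15_6_ok) (L (nat_lit 430) ln13_16_6 ln13_16_6_ok))) (M (nat_lit 526) (B (L (nat_lit 494) ln13_12_4 ln13_12_4_ok) (L (nat_lit 558) ln13_13_4 ln13_13_4_ok))))) (M (nat_lit 398) (B (L (nat_lit 366) ln13_15_6 ln13_15_6_ok) (M (nat_lit 462) (B (M (nat_lit 492) (B (L (nat_lit 524) ln13_12_5 ln13_12_5_ok) (M (nat_lit 463) (B (L (nat_lit 464) ln16_14_1 ln16_14_1_ok) (M (nat_lit 491) (B (L (nat_lit 460) ln15_14_1 ln15_14_1_ok) (L (nat_lit 490) ln10_15_2 ln10_15_2_ok))))))) (B (M (nat_lit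 494) (B (L (nat_lit 526) ln13_12_4 ln13_12_4_ok) (M (nat_lit 492) (B (L (nat_lit 524) ln13_12_5 ln13_12_5_ok) (M (nat_lit 463) (B (L (nat_lit 464) ln16_14_1 ln16_14_1_ok) (L (nat_lit 491) ln11_15_2 ln11_15_2_ok))))))) (M (nat_lit 399) (B (M (nat_lit 428) (B (L (nat_lit 400) ln16_12_1 ln16_12_1_ok) (M (nat_lit 427) (B (L (nat_lit 426) ln10_13_2 ln10_13_2_ok) (L (nat_lit 430) ln11_13_2 ln11_13_2_ok))))) (B (M (nat_lit 367) (B (M (nat_lit 396) (B (L (nat_lit 364) ln13_15_7 ln13_15_7_ok) (L (nat_lit 368) ln12_12_2 ln12_12_2_ok))) (M (nat_lit 494) (B (L (nat_lit 430) ln14_15_6 ln14_15_6_ok) (L (nat_lit 526) ln13_12_4 ln13_12_4_ok))))) (M (nat_lit 428) (B (L (nat_lit 400) ln16_12_1 ln16_12_1_ok) (M (nat_lit 396) (B (L (nat_lit 364) ln13_15_7 ln13_15_7_ok) (L (nat_lit 427) ln15_12_1 ln15_12_1_ok)))))))))))))))) (B (M (nat_lit 493) (B (M (nat_lit 525) (B (M (nat_lit 398) (B (L (nat_lit 366) ln13_15_6 ln13_15_6_ok)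 (L (nat_lit 430) ln13_16_6 ln13_16_6_ok))) (M (nat_lit 526) (B (L (nat_lit 494) ln13_12_4 ln13_12_4_ok) (L (nat_lit 558) ln13_13_4 ln13_13_4_ok))))) (B (M (nat_lit 525) (B (M (nat_lit 396) (B (L (nat_lit 364) ln13_15_7 ln13_15_7_ok) (L (nat_lit 428) ln13_16_7 ln13_16_7_ok))) (M (nat_lit 526) (B (L (nat_lit 494) ln13_12_4 ln13_12_4_ok) (L (nat_lit 558) ln13_13_4 ln13_13_4_ok))))) (B (M (nat_lit 525) (B (M (nat_lit 396) (B (L (nat_lit 364) ln13_15_7 ln13_15_7_ok) (L (nat_lit 428) ln13_16_7 ln13_16_7_ok))) (M (nat_lit 398) (B (L (nat_lit 366) ln13_15_6 ln13_15_6_ok) (L (nat_lit 430) ln13_16_6 ln13_16_6_ok))))) (M (nat_lit 365) (B (M (nat_lit 364) (B (L (nat_lit 332) ln13_14_7 ln13_14_7_ok) (L (nat_lit 396) ln13_15_7 ln13_15_7_ok))) (M (nat_lit 366) (B (L (nat_lit 334) ln13_14_6 ln13_14_6_ok) (L (nat_lit 398) ln13_15_6 ln13_15_6_ok))))))))) (B c33_n332 (M (nat_lit 493) (B (M (nat_lit 525) (B (M (nat_lit 398)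 (B (L (nat_lit 366) ln13_15_6 ln13_15_6_ok) (L (nat_lit 430) ln13_16_6 ln13_16_6_ok))) (M (nat_lit 524) (B (L (nat_lit 492) ln13_12_5 ln13_12_5_ok) (L (nat_lit 556) ln13_13_5 ln13_13_5_ok))))) (B (M (nat_lit 525) (B (M (nat_lit 396) (B (L (nat_lit 364) ln13_15_7 ln13_15_7_ok) (L (nat_lit 428) ln13_16_7 ln13_16_7_ok))) (M (nat_lit 524) (B (L (nat_lit 492) ln13_12_5 ln13_12_5_ok) (L (nat_lit 556) ln13_13_5 ln13_13_5_ok))))) (B (M (nat_lit 525) (B (M (nat_lit 396) (B (L (nat_lit 364) ln13_15_7 ln13_15_7_ok) (L (nat_lit 428) ln13_16_7 ln13_16_7_ok))) (M (nat_lit 398) (B (L (nat_lit 366) ln13_15_6 ln13_15_6_ok) (L (nat_lit 430) ln13_16_6 ln13_16_6_ok))))) (M (nat_lit 365) (B (M (nat_lit 364) (B (L (nat_lit 332) ln13_14_7 ln13_14_7_ok) (L (nat_lit 396) ln13_15_7 ln13_15_7_ok))) (M (nat_lit 366) (B (L (nat_lit 334) ln13_14_6 ln13_14_6_ok) (L (nat_lit 398) ln13_15_6 ln13_15_6_ok)))))))))))))))) (nat_lit 1386334847383188664550070665778531748218595021979121511688892729411143073470393764272092352380775458208712834410189682411080515584)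 (nat_lit 1179363258141160342359549267408618075101010767210241842913727008049023332116301216089184366841513625615452239982219393040611291513508832910792330662286376615092986839040) (nat_lit 1179363258141160342359549267408618075101010767210241842913727008049023332116301216089184366841513625615452239982219393040611291513508832910792330662286376615092986839040) (by decide +kernel)
theorem c33_s3667 : Sem (nat_lit 1386334847383188664550070665778531748218595021979121511688892729411143073470393764272092352380775458208712834410189682411080515584) (nat_lit 1179363258189213925980463535413863522121419870455054378368956169213251115041515806760930149412889180360771419041501321269422085578085511292859897200277067987817695543296) (nat_lit 1179363258189213925980463535413863522121419870455054378368956169213251115041515806760930149412889180360771419041501321269422085578085511292859897200277067987817695543296) :=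
  sem_of_chk (M (nat_lit 461) (B (M (nat_lit 493) (B (M (nat_lit 525) (B (M (nat_lit 398) (B (L (nat_lit 366) ln13_15_6 ln13_15_6_ok) (L (nat_lit 430) ln13_16_6 ln13_16_6_ok))) (M (nat_lit 524) (B (L (nat_lit 492) ln13_12_5 ln13_12_5_ok) (L (nat_lit 556) ln13_13_5 ln13_13_5_ok))))) (B (M (nat_lit 365) (B (M (nat_lit 492) (B (L (nat_lit 460) ln13_11_5 ln13_11_5_ok) (L (nat_lit 524) ln13_12_5 ln13_12_5_ok))) (M (nat_lit 494) (B (L (nat_lit 462) ln13_11_4 ln13_11_4_ok) (L (nat_lit 526) ln13_12_4 ln13_12_4_ok))))) (M (nat_lit 365) (B (M (nat_lit 366) (B (L (nat_lit 334) ln13_14_6 ln13_14_6_ok) (L (nat_lit 398) ln13_15_6 ln13_15_6_ok))) (M (nat_lit 494) (B (L (nat_lit 462) ln13_11_4 ln13_11_4_ok) (L (nat_lit 526) ln13_12_4 ln13_12_4_ok)))))))) (B (M (nat_lit 493) (B (M (nat_lit 525) (B (M (nat_lit 398) (B (L (nat_lit 366) ln13_15_6 ln13_15_6_ok) (L (nat_lit 430) ln13_16_6 ln13_16_6_ok))) (M (nat_lit 524) (B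 (L (nat_lit 492) ln13_12_5 ln13_12_5_ok) (L (nat_lit 556) ln13_13_5 ln13_13_5_ok))))) (B (M (nat_lit 365) (B (M (nat_lit 492) (B (L (nat_lit 460) ln13_11_5 ln13_11_5_ok) (L (nat_lit 524) ln13_12_5 ln13_12_5_ok))) (M (nat_lit 494) (B (L (nat_lit 462) ln13_11_4 ln13_11_4_ok) (L (nat_lit 526) ln13_12_4 ln13_12_4_ok))))) (M (nat_lit 525) (B (M (nat_lit 398) (B (L (nat_lit 366) ln13_15_6 ln13_15_6_ok) (L (nat_lit 430) ln13_16_6 ln13_16_6_ok))) (M (nat_lit 526) (B (L (nat_lit 494) ln13_12_4 ln13_12_4_ok) (L (nat_lit 558) ln13_13_4 ln13_13_4_ok)))))))) (B (M (nat_lit 493) (B (M (nat_lit 525) (B (M (nat_lit 398) (B (L (nat_lit 366) ln13_15_6 ln13_15_6_ok) (L (nat_lit 430) ln13_16_6 ln13_16_6_ok))) (M (nat_lit 524) (B (L (nat_lit 492) ln13_12_5 ln13_12_5_ok) (L (nat_lit 556) ln13_13_5 ln13_13_5_ok))))) (B (M (nat_lit 525) (B (M (nat_lit 524) (B (L (nat_lit 492) ln13_12_5 ln13_12_5_ok) (L (nat_lit 556) ln13_13_5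 ln13_13_5_ok))) (M (nat_lit 526) (B (L (nat_lit 494) ln13_12_4 ln13_12_4_ok) (L (nat_lit 558) ln13_13_4 ln13_13_4_ok))))) (B (M (nat_lit 525) (B (M (nat_lit 398) (B (L (nat_lit 366) ln13_15_6 ln13_15_6_ok) (L (nat_lit 430) ln13_16_6 ln13_16_6_ok))) (M (nat_lit 526) (B (L (nat_lit 494) ln13_12_4 ln13_12_4_ok) (L (nat_lit 558) ln13_13_4 ln13_13_4_ok))))) (M (nat_lit 492) (B (L (nat_lit 524) ln13_12_5 ln13_12_5_ok) (M (nat_lit 494) (B (L (nat_lit 526) ln13_12_4 ln13_12_4_ok) (M (nat_lit 491) (B (M (nat_lit 462) (B (L (nat_lit 490) ln10_15_2 ln10_15_2_ok) (L (nat_lit 463) ln11_15_2 ln11_15_2_ok))) (B (M (nat_lit 490) (B (M (nat_lit 458) (B (L (nat_lit 457) ln13_15_3 ln13_15_3_ok) (L (nat_lit 459) ln14_15_3 ln14_15_3_ok))) (M (nat_lit 522) (B (L (nat_lit 521) ln13_15_1 ln13_15_1_ok) (L (nat_lit 523) ln14_15_1 ln14_15_1_ok))))) (M (nat_lit 495) (B (M (nat_lit 459) (B (L (nat_lit 458) ln14_15_3 ln14_15_3_ok)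 (L (nat_lit 460) ln15_15_3 ln15_15_3_ok))) (M (nat_lit 463) (B (L (nat_lit 462) ln11_15_2 ln11_15_2_ok) (L (nat_lit 464) ln12_15_2 ln12_15_2_ok)))))))))))))))) (B (M (nat_lit 365) (B (M (nat_lit 333) (B (M (nat_lit 332) (B (L (nat_lit 300) ln13_13_7 ln13_13_7_ok) (L (nat_lit 364) ln13_14_7 ln13_14_7_ok))) (M (nat_lit 462) (B (L (nat_lit 430) ln13_10_4 ln13_10_4_ok) (L (nat_lit 494) ln13_11_4 ln13_11_4_ok))))) (B (M (nat_lit 493) (B (M (nat_lit 492) (B (L (nat_lit 460) ln13_11_5 ln13_11_5_ok) (L (nat_lit 524) ln13_12_5 ln13_12_5_ok))) (M (nat_lit 494) (B (L (nat_lit 462) ln13_11_4 ln13_11_4_ok) (L (nat_lit 526) ln13_12_4 ln13_12_4_ok))))) (M (nat_lit 333) (B (M (nat_lit 332) (B (L (nat_lit 300) ln13_13_7 ln13_13_7_ok) (L (nat_lit 364) ln13_14_7 ln13_14_7_ok))) (M (nat_lit 460) (B (L (nat_lit 428) ln13_10_5 ln13_10_5_ok) (L (nat_lit 492) ln13_11_5 ln13_11_5_ok)))))))) (B (M (nat_lit 365) (B (M (nat_lit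 493) (B (M (nat_lit 492) (B (L (nat_lit 460) ln13_11_5 ln13_11_5_ok) (L (nat_lit 524) ln13_12_5 ln13_12_5_ok))) (M (nat_lit 494) (B (L (nat_lit 462) ln13_11_4 ln13_11_4_ok) (L (nat_lit 526) ln13_12_4 ln13_12_4_ok))))) (B (M (nat_lit 493) (B (M (nat_lit 366) (B (L (nat_lit 334) ln13_14_6 ln13_14_6_ok) (L (nat_lit 398) ln13_15_6 ln13_15_6_ok))) (M (nat_lit 494) (B (L (nat_lit 462) ln13_11_4 ln13_11_4_ok) (L (nat_lit 526) ln13_12_4 ln13_12_4_ok))))) (B (M (nat_lit 493) (B (M (nat_lit 366) (B (L (nat_lit 334) ln13_14_6 ln13_14_6_ok) (L (nat_lit 398) ln13_15_6 ln13_15_6_ok))) (M (nat_lit 492) (B (L (nat_lit 460) ln13_11_5 ln13_11_5_ok) (L (nat_lit 524) ln13_12_5 ln13_12_5_ok))))) (M (nat_lit 333) (B (M (nat_lit 332) (B (L (nat_lit 300) ln13_13_7 ln13_13_7_ok) (L (nat_lit 364) ln13_14_7 ln13_14_7_ok))) (M (nat_lit 334) (B (L (nat_lit 302) ln13_13_6 ln13_13_6_ok) (L (nat_lit 366) ln13_14_6 ln13_14_6_ok)))))))))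 (B (M (nat_lit 365) (B (M (nat_lit 333) (B (M (nat_lit 332) (B (L (nat_lit 300) ln13_13_7 ln13_13_7_ok) (L (nat_lit 364) ln13_14_7 ln13_14_7_ok))) (M (nat_lit 462) (B (L (nat_lit 430) ln13_10_4 ln13_10_4_ok) (L (nat_lit 494) ln13_11_4 ln13_11_4_ok))))) (B (M (nat_lit 493) (B (M (nat_lit 366) (B (L (nat_lit 334) ln13_14_6 ln13_14_6_ok) (L (nat_lit 398) ln13_15_6 ln13_15_6_ok))) (M (nat_lit 494) (B (L (nat_lit 462) ln13_11_4 ln13_11_4_ok) (L (nat_lit 526) ln13_12_4 ln13_12_4_ok))))) (M (nat_lit 333) (B (M (nat_lit 332) (B (L (nat_lit 300) ln13_13_7 ln13_13_7_ok) (L (nat_lit 364) ln13_14_7 ln13_14_7_ok))) (M (nat_lit 334) (B (L (nat_lit 302) ln13_13_6 ln13_13_6_ok) (L (nat_lit 366) ln13_14_6 ln13_14_6_ok)))))))) (B (M (nat_lit 365) (B (M (nat_lit 333) (B (M (nat_lit 332) (B (L (nat_lit 300) ln13_13_7 ln13_13_7_ok) (L (nat_lit 364) ln13_14_7 ln13_14_7_ok))) (M (nat_lit 460) (B (L (nat_lit 428) ln13_10_5 ln13_10_5_ok)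 (L (nat_lit 492) ln13_11_5 ln13_11_5_ok))))) (B (M (nat_lit 493) (B (M (nat_lit 366) (B (L (nat_lit 334) ln13_14_6 ln13_14_6_ok) (L (nat_lit 398) ln13_15_6 ln13_15_6_ok))) (M (nat_lit 492) (B (L (nat_lit 460) ln13_11_5 ln13_11_5_ok) (L (nat_lit 524) ln13_12_5 ln13_12_5_ok))))) (M (nat_lit 333) (B (M (nat_lit 332) (B (L (nat_lit 300) ln13_13_7 ln13_13_7_ok) (L (nat_lit 364) ln13_14_7 ln13_14_7_ok))) (M (nat_lit 334) (B (L (nat_lit 302) ln13_13_6 ln13_13_6_ok) (L (nat_lit 366) ln13_14_6 ln13_14_6_ok)))))))) (K (nat_lit 5954262830815946494763249298768603811203561774969104571805089223376689777636098861358550851719243481454542035207245364041705138952691777536) (nat_lit 235872651825938241711497502591697568397570514471294764101386828411300375679760114249839000943637507130489221864006325949081731640393217279419286466505245972760776146944) (nat_lit 235872651825938241711497502591697568397570514471294764101386828411300375679760114249839000943637507130489221864006325949081731640393217279419286466505245972760776146944)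 c33_s494))))))))) (nat_lit 1386334847383188664550070665778531748218595021979121511688892729411143073470393764272092352380775458208712834410189682411080515584) (nat_lit 1179363258189213925980463535413863522121419870455054378368956169213251115041515806760930149412889180360771419041501321269422085578085511292859897200277067987817695543296) (nat_lit 1179363258189213925980463535413863522121419870455054378368956169213251115041515806760930149412889180360771419041501321269422085578085511292859897200277067987817695543296) (by decide +kernel)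
theorem c33_s3671 : Sem (nat_lit 1386334847383188664550070665778531748218595021979121511688892729411143073470393764272092352380775458208712834410189682411080515584) (nat_lit 1179363258189213925980463535413863522121419870454570206516814873852690630196765242034493329576733700952115670412149949840293927854092452789119871356882836143072805388288) (nat_lit 1179363258189213925980463535413863522121419870454570206516814873852690630196765242034493329576733700952115670412149949840293927854092452789119871356882836143072805388288) :=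
  sem_of_chk (M (nat_lit 461) (B (M (nat_lit 493) (B (M (nat_lit 525) (B (M (nat_lit 396) (B (L (nat_lit 364) ln13_15_7 ln13_15_7_ok) (L (nat_lit 428) ln13_16_7 ln13_16_7_ok))) (M (nat_lit 524) (B (L (nat_lit 492) ln13_12_5 ln13_12_5_ok) (L (nat_lit 556) ln13_13_5 ln13_13_5_ok))))) (B (M (nat_lit 365) (B (M (nat_lit 492) (B (L (nat_lit 460) ln13_11_5 ln13_11_5_ok) (L (nat_lit 524) ln13_12_5 ln13_12_5_ok))) (M (nat_lit 494) (B (L (nat_lit 462) ln13_11_4 ln13_11_4_ok) (L (nat_lit 526) ln13_12_4 ln13_12_4_ok))))) (M (nat_lit 365) (B (M (nat_lit 364) (B (L (nat_lit 332) ln13_14_7 ln13_14_7_ok) (L (nat_lit 396) ln13_15_7 ln13_15_7_ok))) (M (nat_lit 494) (B (L (nat_lit 462) ln13_11_4 ln13_11_4_ok) (L (nat_lit 526) ln13_12_4 ln13_12_4_ok)))))))) (B (M (nat_lit 365) (B (M (nat_lit 333) (B (M (nat_lit 334) (B (L (nat_lit 302) ln13_13_6 ln13_13_6_ok) (L (nat_lit 366) ln13_14_6 ln13_14_6_ok))) (M (nat_lit 462) (B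 (L (nat_lit 430) ln13_10_4 ln13_10_4_ok) (L (nat_lit 494) ln13_11_4 ln13_11_4_ok))))) (B (M (nat_lit 493) (B (M (nat_lit 492) (B (L (nat_lit 460) ln13_11_5 ln13_11_5_ok) (L (nat_lit 524) ln13_12_5 ln13_12_5_ok))) (M (nat_lit 494) (B (L (nat_lit 462) ln13_11_4 ln13_11_4_ok) (L (nat_lit 526) ln13_12_4 ln13_12_4_ok))))) (M (nat_lit 333) (B (M (nat_lit 334) (B (L (nat_lit 302) ln13_13_6 ln13_13_6_ok) (L (nat_lit 366) ln13_14_6 ln13_14_6_ok))) (M (nat_lit 460) (B (L (nat_lit 428) ln13_10_5 ln13_10_5_ok) (L (nat_lit 492) ln13_11_5 ln13_11_5_ok)))))))) (B (M (nat_lit 493) (B (M (nat_lit 525) (B (M (nat_lit 396) (B (L (nat_lit 364) ln13_15_7 ln13_15_7_ok) (L (nat_lit 428) ln13_16_7 ln13_16_7_ok))) (M (nat_lit 526) (B (L (nat_lit 494) ln13_12_4 ln13_12_4_ok) (L (nat_lit 558) ln13_13_4 ln13_13_4_ok))))) (B (M (nat_lit 525) (B (M (nat_lit 524) (B (L (nat_lit 492) ln13_12_5 ln13_12_5_ok) (L (nat_lit 556) ln13_13_5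 ln13_13_5_ok))) (M (nat_lit 526) (B (L (nat_lit 494) ln13_12_4 ln13_12_4_ok) (L (nat_lit 558) ln13_13_4 ln13_13_4_ok))))) (B (M (nat_lit 525) (B (M (nat_lit 396) (B (L (nat_lit 364) ln13_15_7 ln13_15_7_ok) (L (nat_lit 428) ln13_16_7 ln13_16_7_ok))) (M (nat_lit 524) (B (L (nat_lit 492) ln13_12_5 ln13_12_5_ok) (L (nat_lit 556) ln13_13_5 ln13_13_5_ok))))) (M (nat_lit 492) (B (L (nat_lit 524) ln13_12_5 ln13_12_5_ok) (M (nat_lit 494) (B (L (nat_lit 526) ln13_12_4 ln13_12_4_ok) (M (nat_lit 491) (B (M (nat_lit 462) (B (L (nat_lit 490) ln10_15_2 ln10_15_2_ok) (L (nat_lit 463) ln11_15_2 ln11_15_2_ok))) (B (M (nat_lit 490) (B (M (nat_lit 458) (B (L (nat_lit 457) ln13_15_3 ln13_15_3_ok) (L (nat_lit 459) ln14_15_3 ln14_15_3_ok))) (M (nat_lit 522) (B (L (nat_lit 521) ln13_15_1 ln13_15_1_ok) (L (nat_lit 523) ln14_15_1 ln14_15_1_ok))))) (M (nat_lit 495) (B (M (nat_lit 459) (B (L (nat_lit 458) ln14_15_3 ln14_15_3_ok)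 (L (nat_lit 460) ln15_15_3 ln15_15_3_ok))) (M (nat_lit 463) (B (L (nat_lit 462) ln11_15_2 ln11_15_2_ok) (L (nat_lit 464) ln12_15_2 ln12_15_2_ok)))))))))))))))) (B (M (nat_lit 365) (B (M (nat_lit 333) (B (M (nat_lit 332) (B (L (nat_lit 300) ln13_13_7 ln13_13_7_ok) (L (nat_lit 364) ln13_14_7 ln13_14_7_ok))) (M (nat_lit 334) (B (L (nat_lit 302) ln13_13_6 ln13_13_6_ok) (L (nat_lit 366) ln13_14_6 ln13_14_6_ok))))) (M (nat_lit 493) (B (M (nat_lit 492) (B (L (nat_lit 460) ln13_11_5 ln13_11_5_ok) (L (nat_lit 524) ln13_12_5 ln13_12_5_ok))) (M (nat_lit 494) (B (L (nat_lit 462) ln13_11_4 ln13_11_4_ok) (L (nat_lit 526) ln13_12_4 ln13_12_4_ok))))))) (B (M (nat_lit 365) (B (M (nat_lit 333) (B (M (nat_lit 334) (B (L (nat_lit 302) ln13_13_6 ln13_13_6_ok) (L (nat_lit 366) ln13_14_6 ln13_14_6_ok))) (M (nat_lit 462) (B (L (nat_lit 430) ln13_10_4 ln13_10_4_ok) (L (nat_lit 494) ln13_11_4 ln13_11_4_ok))))) (B (M (nat_lit 333)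 (B (M (nat_lit 332) (B (L (nat_lit 300) ln13_13_7 ln13_13_7_ok) (L (nat_lit 364) ln13_14_7 ln13_14_7_ok))) (M (nat_lit 462) (B (L (nat_lit 430) ln13_10_4 ln13_10_4_ok) (L (nat_lit 494) ln13_11_4 ln13_11_4_ok))))) (B (M (nat_lit 493) (B (M (nat_lit 364) (B (L (nat_lit 332) ln13_14_7 ln13_14_7_ok) (L (nat_lit 396) ln13_15_7 ln13_15_7_ok))) (M (nat_lit 494) (B (L (nat_lit 462) ln13_11_4 ln13_11_4_ok) (L (nat_lit 526) ln13_12_4 ln13_12_4_ok))))) (M (nat_lit 333) (B (M (nat_lit 332) (B (L (nat_lit 300) ln13_13_7 ln13_13_7_ok) (L (nat_lit 364) ln13_14_7 ln13_14_7_ok))) (M (nat_lit 334) (B (L (nat_lit 302) ln13_13_6 ln13_13_6_ok) (L (nat_lit 366) ln13_14_6 ln13_14_6_ok))))))))) (B (M (nat_lit 365) (B (M (nat_lit 333) (B (M (nat_lit 334) (B (L (nat_lit 302) ln13_13_6 ln13_13_6_ok) (L (nat_lit 366) ln13_14_6 ln13_14_6_ok))) (M (nat_lit 460) (B (L (nat_lit 428) ln13_10_5 ln13_10_5_ok) (L (nat_lit 492) ln13_11_5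 ln13_11_5_ok))))) (B (M (nat_lit 493) (B (M (nat_lit 364) (B (L (nat_lit 332) ln13_14_7 ln13_14_7_ok) (L (nat_lit 396) ln13_15_7 ln13_15_7_ok))) (M (nat_lit 492) (B (L (nat_lit 460) ln13_11_5 ln13_11_5_ok) (L (nat_lit 524) ln13_12_5 ln13_12_5_ok))))) (M (nat_lit 333) (B (M (nat_lit 332) (B (L (nat_lit 300) ln13_13_7 ln13_13_7_ok) (L (nat_lit 364) ln13_14_7 ln13_14_7_ok))) (M (nat_lit 334) (B (L (nat_lit 302) ln13_13_6 ln13_13_6_ok) (L (nat_lit 366) ln13_14_6 ln13_14_6_ok)))))))) (K (nat_lit 5954262830815946494763249298768603811203561774969104571805089223376689777636098861358550851719243481454542035207245364041705138952691777536) (nat_lit 235872651825938241711497502591697568397570514471294764101386828411300375679760114249839000943637507130489221864006325949081731640393217279419286466505245972760776146944) (nat_lit 235872651825938241711497502591697568397570514471294764101386828411300375679760114249839000943637507130489221864006325949081731640393217279419286466505245972760776146944)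 c33_s494)))))))) (nat_lit 1386334847383188664550070665778531748218595021979121511688892729411143073470393764272092352380775458208712834410189682411080515584) (nat_lit 1179363258189213925980463535413863522121419870454570206516814873852690630196765242034493329576733700952115670412149949840293927854092452789119871356882836143072805388288) (nat_lit 1179363258189213925980463535413863522121419870454570206516814873852690630196765242034493329576733700952115670412149949840293927854092452789119871356882836143072805388288) (by decide +kernel)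
theorem c33_s3712 : Sem (nat_lit 1386334847383188664550070665778531748218595021979121511688892729411143073470393764272092352380775458208712834410189682411080515584) (nat_lit 1179363258141160341638700066110789715759539199305342761136501241598417476348656883176053570413396741475597857911623831513761154612349674250124654534139092388927904940032) (nat_lit 1179363258141160341638700066110789715759539199305342761136501241598417476348656883176053570413396741475597857911623831513761154612349674250124654534139092388927904940032) :=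
  sem_of_chk (M (nat_lit 461) (B (M (nat_lit 493) (B (M (nat_lit 525) (B (M (nat_lit 396) (B (L (nat_lit 364) ln13_15_7 ln13_15_7_ok) (L (nat_lit 428) ln13_16_7 ln13_16_7_ok))) (M (nat_lit 524) (B (L (nat_lit 492) ln13_12_5 ln13_12_5_ok) (L (nat_lit 556) ln13_13_5 ln13_13_5_ok))))) (B (M (nat_lit 365) (B (M (nat_lit 492) (B (L (nat_lit 460) ln13_11_5 ln13_11_5_ok) (L (nat_lit 524) ln13_12_5 ln13_12_5_ok))) (M (nat_lit 494) (B (L (nat_lit 462) ln13_11_4 ln13_11_4_ok) (L (nat_lit 526) ln13_12_4 ln13_12_4_ok))))) (M (nat_lit 365) (B (M (nat_lit 364) (B (L (nat_lit 332) ln13_14_7 ln13_14_7_ok) (L (nat_lit 396) ln13_15_7 ln13_15_7_ok))) (M (nat_lit 494) (B (L (nat_lit 462) ln13_11_4 ln13_11_4_ok) (L (nat_lit 526) ln13_12_4 ln13_12_4_ok)))))))) (B (M (nat_lit 365) (B (M (nat_lit 333) (B (M (nat_lit 334) (B (L (nat_lit 302) ln13_13_6 ln13_13_6_ok) (L (nat_lit 366) ln13_14_6 ln13_14_6_ok))) (M (nat_lit 462) (B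 (L (nat_lit 430) ln13_10_4 ln13_10_4_ok) (L (nat_lit 494) ln13_11_4 ln13_11_4_ok))))) (B (M (nat_lit 493) (B (M (nat_lit 492) (B (L (nat_lit 460) ln13_11_5 ln13_11_5_ok) (L (nat_lit 524) ln13_12_5 ln13_12_5_ok))) (M (nat_lit 494) (B (L (nat_lit 462) ln13_11_4 ln13_11_4_ok) (L (nat_lit 526) ln13_12_4 ln13_12_4_ok))))) (M (nat_lit 333) (B (M (nat_lit 334) (B (L (nat_lit 302) ln13_13_6 ln13_13_6_ok) (L (nat_lit 366) ln13_14_6 ln13_14_6_ok))) (M (nat_lit 460) (B (L (nat_lit 428) ln13_10_5 ln13_10_5_ok) (L (nat_lit 492) ln13_11_5 ln13_11_5_ok)))))))) (B c33_n475 (B (M (nat_lit 365) (B (M (nat_lit 333) (B (M (nat_lit 332) (B (L (nat_lit 300) ln13_13_7 ln13_13_7_ok) (L (nat_lit 364) ln13_14_7 ln13_14_7_ok))) (M (nat_lit 334) (B (L (nat_lit 302) ln13_13_6 ln13_13_6_ok) (L (nat_lit 366) ln13_14_6 ln13_14_6_ok))))) (M (nat_lit 493) (B (M (nat_lit 492) (B (L (nat_lit 460) ln13_11_5 ln13_11_5_ok) (L (nat_lit 524)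 ln13_12_5 ln13_12_5_ok))) (M (nat_lit 494) (B (L (nat_lit 462) ln13_11_4 ln13_11_4_ok) (L (nat_lit 526) ln13_12_4 ln13_12_4_ok))))))) (B (M (nat_lit 365) (B (M (nat_lit 333) (B (M (nat_lit 332) (B (L (nat_lit 300) ln13_13_7 ln13_13_7_ok) (L (nat_lit 364) ln13_14_7 ln13_14_7_ok))) (M (nat_lit 460) (B (L (nat_lit 428) ln13_10_5 ln13_10_5_ok) (L (nat_lit 492) ln13_11_5 ln13_11_5_ok))))) (B (M (nat_lit 333) (B (M (nat_lit 334) (B (L (nat_lit 302) ln13_13_6 ln13_13_6_ok) (L (nat_lit 366) ln13_14_6 ln13_14_6_ok))) (M (nat_lit 460) (B (L (nat_lit 428) ln13_10_5 ln13_10_5_ok) (L (nat_lit 492) ln13_11_5 ln13_11_5_ok))))) (B (M (nat_lit 460) (B (L (nat_lit 492) ln13_11_5 ln13_11_5_ok) (M (nat_lit 396) (B (M (nat_lit 364) (B (L (nat_lit 332) ln13_14_7 ln13_14_7_ok) (M (nat_lit 366) (B (L (nat_lit 334) ln13_14_6 ln13_14_6_ok) (M (nat_lit 367) (B (L (nat_lit 395) ln15_11_1 ln15_11_1_ok) (L (nat_lit 368) ln16_11_1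 ln16_11_1_ok))))))) (B (M (nat_lit 366) (B (L (nat_lit 334) ln13_14_6 ln13_14_6_ok) (M (nat_lit 395) (B (L (nat_lit 394) ln10_12_2 ln10_12_2_ok) (M (nat_lit 367) (B (L (nat_lit 364) ln15_11_1 ln15_11_1_ok) (L (nat_lit 368) ln16_11_1 ln16_11_1_ok))))))) (B (M (nat_lit 428) (B (M (nat_lit 462) (B (L (nat_lit 494) ln13_11_4 ln13_11_4_ok) (M (nat_lit 427) (B (L (nat_lit 426) ln10_13_0 ln10_13_0_ok) (L (nat_lit 463) ln15_14_3 ln15_14_3_ok))))) (M (nat_lit 459) (B (M (nat_lit 364) (B (L (nat_lit 332) ln13_14_7 ln13_14_7_ok) (L (nat_lit 491) ln12_11_5 ln12_11_5_ok))) (M (nat_lit 458) (B (L (nat_lit 457) ln9_14_2 ln9_14_2_ok) (L (nat_lit 430) ln10_14_2 ln10_14_2_ok))))))) (M (nat_lit 366) (B (L (nat_lit 334) ln13_14_6 ln13_14_6_ok) (M (nat_lit 395) (B (L (nat_lit 394) ln10_12_2 ln10_12_2_ok) (M (nat_lit 367) (B (L (nat_lit 368) ln16_11_1 ln16_11_1_ok) (L (nat_lit 398) ln11_12_2 ln11_12_2_ok))))))))))))) (M (nat_lit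 333) (B (M (nat_lit 332) (B (L (nat_lit 300) ln13_13_7 ln13_13_7_ok) (L (nat_lit 364) ln13_14_7 ln13_14_7_ok))) (M (nat_lit 334) (B (L (nat_lit 302) ln13_13_6 ln13_13_6_ok) (L (nat_lit 366) ln13_14_6 ln13_14_6_ok))))))))) (M (nat_lit 365) (B (M (nat_lit 493) (B (M (nat_lit 366) (B (L (nat_lit 334) ln13_14_6 ln13_14_6_ok) (L (nat_lit 398) ln13_15_6 ln13_15_6_ok))) (M (nat_lit 492) (B (L (nat_lit 460) ln13_11_5 ln13_11_5_ok) (L (nat_lit 524) ln13_12_5 ln13_12_5_ok))))) (B (M (nat_lit 493) (B (M (nat_lit 364) (B (L (nat_lit 332) ln13_14_7 ln13_14_7_ok) (L (nat_lit 396) ln13_15_7 ln13_15_7_ok))) (M (nat_lit 492) (B (L (nat_lit 460) ln13_11_5 ln13_11_5_ok) (L (nat_lit 524) ln13_12_5 ln13_12_5_ok))))) (B (M (nat_lit 493) (B (M (nat_lit 364) (B (L (nat_lit 332) ln13_14_7 ln13_14_7_ok) (L (nat_lit 396) ln13_15_7 ln13_15_7_ok))) (M (nat_lit 366) (B (L (nat_lit 334) ln13_14_6 ln13_14_6_ok) (L (nat_lit 398) ln13_15_6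 ln13_15_6_ok))))) (M (nat_lit 333) (B (M (nat_lit 332) (B (L (nat_lit 300) ln13_13_7 ln13_13_7_ok) (L (nat_lit 364) ln13_14_7 ln13_14_7_ok))) (M (nat_lit 334) (B (L (nat_lit 302) ln13_13_6 ln13_13_6_ok) (L (nat_lit 366) ln13_14_6 ln13_14_6_ok))))))))))))))) (nat_lit 1386334847383188664550070665778531748218595021979121511688892729411143073470393764272092352380775458208712834410189682411080515584) (nat_lit 1179363258141160341638700066110789715759539199305342761136501241598417476348656883176053570413396741475597857911623831513761154612349674250124654534139092388927904940032) (nat_lit 1179363258141160341638700066110789715759539199305342761136501241598417476348656883176053570413396741475597857911623831513761154612349674250124654534139092388927904940032) (by decide +kernel)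
noncomputable def c33_n3751 : Cert := (M (nat_lit 398) (B (M (nat_lit 366) (B (L (nat_lit 493) ln13_15_6 ln13_15_6_ok) (M (nat_lit 334) (B (L (nat_lit 302) ln14_9_5 ln14_9_5_ok) (L (nat_lit 430) ln14_10_5 ln14_10_5_ok))))) (B (M (nat_lit 493) (B (L (nat_lit 366) ln13_15_6 ln13_15_6_ok) (M (nat_lit 525) (B (L (nat_lit 430) ln13_16_6 ln13_16_6_ok) (M (nat_lit 526) (B (L (nat_lit 494) ln13_12_4 ln13_12_4_ok) (L (nat_lit 558) ln13_13_4 ln13_13_4_ok))))))) (B (M (nat_lit 396) (B (M (nat_lit 493) (B (L (nat_lit 364) ln13_15_7 ln13_15_7_ok) (M (nat_lit 525) (B (L (nat_lit 428) ln13_16_7 ln13_16_7_ok) (L (nat_lit 430) ln13_16_6 ln13_16_6_ok))))) (B (M (nat_lit 428) (B (M (nat_lit 399) (B (L (nat_lit 427) ln15_12_1 ln15_12_1_ok) (L (nat_lit 400) ln16_12_1 ln16_12_1_ok))) (M (nat_lit 395) (B (M (nat_lit 394) (B (L (nat_lit 393) ln9_12_0 ln9_12_0_ok) (L (nat_lit 430) ln10_12_0 ln10_12_0_ok))) (B (M (nat_lit 430)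 (B (L (nat_lit 394) ln10_12_0 ln10_12_0_ok) (L (nat_lit 431) ln11_12_0 ln11_12_0_ok))) (M (nat_lit 492) (B (M (nat_lit 363) (B (L (nat_lit 362) ln14_12_3 ln14_12_3_ok) (L (nat_lit 460) ln12_15_7 ln12_15_7_ok))) (B (M (nat_lit 460) (B (L (nat_lit 363) ln12_15_7 ln12_15_7_ok) (L (nat_lit 524) ln12_16_6 ln12_16_6_ok))) (M (nat_lit 493) (B (L (nat_lit 525) ln13_16_7 ln13_16_7_ok) (L (nat_lit 524) ln13_12_5 ln13_12_5_ok))))))))))) (B (M (nat_lit 430) (B (M (nat_lit 395) (B (L (nat_lit 394) ln10_12_0 ln10_12_0_ok) (L (nat_lit 431) ln11_12_0 ln11_12_0_ok))) (M (nat_lit 493) (B (L (nat_lit 364) ln13_15_7 ln13_15_7_ok) (L (nat_lit 525) ln13_16_6 ln13_16_6_ok))))) (B (M (nat_lit 364) (B (L (nat_lit 493) ln13_15_7 ln13_15_7_ok) (M (nat_lit 332) (B (L (nat_lit 300) ln12_9_4 ln12_9_4_ok) (L (nat_lit 428) ln12_10_4 ln12_10_4_ok))))) (M (nat_lit 395) (B (M (nat_lit 430) (B (L (nat_lit 394) ln10_12_0 ln10_12_0_ok) (L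 (nat_lit 431) ln11_12_0 ln11_12_0_ok))) (M (nat_lit 364) (B (M (nat_lit 332) (B (L (nat_lit 300) ln12_9_4 ln12_9_4_ok) (L (nat_lit 428) ln12_10_4 ln12_10_4_ok))) (M (nat_lit 363) (B (L (nat_lit 362) ln14_12_3 ln14_12_3_ok) (L (nat_lit 399) ln15_12_3 ln15_12_3_ok)))))))))))) (B (M (nat_lit 493) (B (L (nat_lit 366) ln13_15_6 ln13_15_6_ok) (M (nat_lit 525) (B (M (nat_lit 396) (B (L (nat_lit 364) ln13_15_7 ln13_15_7_ok) (L (nat_lit 428) ln13_16_7 ln13_16_7_ok))) (M (nat_lit 526) (B (L (nat_lit 494) ln13_12_4 ln13_12_4_ok) (L (nat_lit 558) ln13_13_4 ln13_13_4_ok))))))) (M (nat_lit 399) (B (M (nat_lit 428) (B (L (nat_lit 400) ln16_12_1 ln16_12_1_ok) (M (nat_lit 427) (B (L (nat_lit 396) ln15_12_1 ln15_12_1_ok) (L (nat_lit 430) ln11_13_2 ln11_13_2_ok))))) (B (M (nat_lit 400) (B (L (nat_lit 428) ln16_12_1 ln16_12_1_ok) (M (nat_lit 401) (B (L (nat_lit 430) ln17_12_1 ln17_12_1_ok) (M (nat_lit 369) (B (L (nat_lit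 368) ln13_12_2 ln13_12_2_ok) (L (nat_lit 370) ln14_12_2 ln14_12_2_ok))))))) (B (M (nat_lit 396) (B (M (nat_lit 428) (B (L (nat_lit 427) ln15_12_1 ln15_12_1_ok) (M (nat_lit 364) (B (L (nat_lit 332) ln12_10_4 ln12_10_4_ok) (L (nat_lit 363) ln15_12_3 ln15_12_3_ok))))) (B (M (nat_lit 395) (B (M (nat_lit 363) (B (L (nat_lit 362) ln14_12_3 ln14_12_3_ok) (L (nat_lit 364) ln15_12_3 ln15_12_3_ok))) (M (nat_lit 430) (B (L (nat_lit 394) ln10_12_0 ln10_12_0_ok) (L (nat_lit 431) ln11_12_0 ln11_12_0_ok))))) (M (nat_lit 395) (B (M (nat_lit 367) (B (L (nat_lit 366) ln11_12_2 ln11_12_2_ok) (L (nat_lit 368) ln12_12_2 ln12_12_2_ok))) (M (nat_lit 430) (B (L (nat_lit 394) ln10_12_0 ln10_12_0_ok) (L (nat_lit 431) ln11_12_0 ln11_12_0_ok)))))))) (B (M (nat_lit 400) (B (M (nat_lit 401) (B (L (nat_lit 430) ln17_12_1 ln17_12_1_ok) (M (nat_lit 369) (B (L (nat_lit 368) ln13_12_2 ln13_12_2_ok) (L (nat_lit 370) ln14_12_2 ln14_12_2_ok)))))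 (B (M (nat_lit 401) (B (L (nat_lit 430) ln17_12_1 ln17_12_1_ok) (M (nat_lit 433) (B (L (nat_lit 432) ln13_12_0 ln13_12_0_ok) (L (nat_lit 434) ln14_12_0 ln14_12_0_ok))))) (M (nat_lit 396) (B (M (nat_lit 368) (B (L (nat_lit 367) ln12_12_2 ln12_12_2_ok) (L (nat_lit 369) ln13_12_2 ln13_12_2_ok))) (M (nat_lit 432) (B (L (nat_lit 431) ln12_12_0 ln12_12_0_ok) (L (nat_lit 433) ln13_12_0 ln13_12_0_ok)))))))) (M (nat_lit 428) (B (L (nat_lit 400) ln16_12_1 ln16_12_1_ok) (M (nat_lit 396) (B (L (nat_lit 427) ln15_12_1 ln15_12_1_ok) (M (nat_lit 364) (B (L (nat_lit 332) ln12_10_4 ln12_10_4_ok) (L (nat_lit 363) ln15_12_3 ln15_12_3_ok)))))))))))))))))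
theorem c33_s3762 : Sem (nat_lit 1386334847383188664550070665778531748218595021979121511688892729411143073470393764272092352380775458208712834410189682411080515584) (nat_lit 1179363258141160341638700066158423818439165515739618406620531761579027043524075300873503282301876260441880459094789781588967626745034225249029691709914487956666304167936) (nat_lit 1179363258141160341638700066158423818439165515739618406620531761579027043524075300873503282301876260441880459094789781588967626745034225249029691709914487956666304167936) :=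
  sem_of_chk (M (nat_lit 461) (B (M (nat_lit 493) (B (M (nat_lit 525) (B (M (nat_lit 396) (B (L (nat_lit 364) ln13_15_7 ln13_15_7_ok) (L (nat_lit 428) ln13_16_7 ln13_16_7_ok))) (M (nat_lit 524) (B (L (nat_lit 492) ln13_12_5 ln13_12_5_ok) (L (nat_lit 556) ln13_13_5 ln13_13_5_ok))))) (B (M (nat_lit 365) (B (M (nat_lit 492) (B (L (nat_lit 460) ln13_11_5 ln13_11_5_ok) (L (nat_lit 524) ln13_12_5 ln13_12_5_ok))) (M (nat_lit 494) (B (L (nat_lit 462) ln13_11_4 ln13_11_4_ok) (L (nat_lit 526) ln13_12_4 ln13_12_4_ok))))) (M (nat_lit 365) (B (M (nat_lit 364) (B (L (nat_lit 332) ln13_14_7 ln13_14_7_ok) (L (nat_lit 396) ln13_15_7 ln13_15_7_ok))) (M (nat_lit 494) (B (L (nat_lit 462) ln13_11_4 ln13_11_4_ok) (L (nat_lit 526) ln13_12_4 ln13_12_4_ok)))))))) (B (M (nat_lit 365) (B (M (nat_lit 333) (B (M (nat_lit 334) (B (L (nat_lit 302) ln13_13_6 ln13_13_6_ok) (L (nat_lit 366) ln13_14_6 ln13_14_6_ok))) (M (nat_lit 462) (B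 (L (nat_lit 430) ln13_10_4 ln13_10_4_ok) (L (nat_lit 494) ln13_11_4 ln13_11_4_ok))))) (B (M (nat_lit 493) (B (M (nat_lit 492) (B (L (nat_lit 460) ln13_11_5 ln13_11_5_ok) (L (nat_lit 524) ln13_12_5 ln13_12_5_ok))) (M (nat_lit 494) (B (L (nat_lit 462) ln13_11_4 ln13_11_4_ok) (L (nat_lit 526) ln13_12_4 ln13_12_4_ok))))) (M (nat_lit 333) (B (M (nat_lit 334) (B (L (nat_lit 302) ln13_13_6 ln13_13_6_ok) (L (nat_lit 366) ln13_14_6 ln13_14_6_ok))) (M (nat_lit 460) (B (L (nat_lit 428) ln13_10_5 ln13_10_5_ok) (L (nat_lit 492) ln13_11_5 ln13_11_5_ok)))))))) (B c33_n3751 (B (M (nat_lit 365) (B (M (nat_lit 333) (B (M (nat_lit 332) (B (L (nat_lit 300) ln13_13_7 ln13_13_7_ok) (L (nat_lit 364) ln13_14_7 ln13_14_7_ok))) (M (nat_lit 334) (B (L (nat_lit 302) ln13_13_6 ln13_13_6_ok) (L (nat_lit 366) ln13_14_6 ln13_14_6_ok))))) (M (nat_lit 493) (B (M (nat_lit 492) (B (L (nat_lit 460) ln13_11_5 ln13_11_5_ok) (L (nat_lit 524)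 ln13_12_5 ln13_12_5_ok))) (M (nat_lit 494) (B (L (nat_lit 462) ln13_11_4 ln13_11_4_ok) (L (nat_lit 526) ln13_12_4 ln13_12_4_ok))))))) (B (M (nat_lit 365) (B (M (nat_lit 493) (B (M (nat_lit 366) (B (L (nat_lit 334) ln13_14_6 ln13_14_6_ok) (L (nat_lit 398) ln13_15_6 ln13_15_6_ok))) (M (nat_lit 494) (B (L (nat_lit 462) ln13_11_4 ln13_11_4_ok) (L (nat_lit 526) ln13_12_4 ln13_12_4_ok))))) (B (M (nat_lit 493) (B (M (nat_lit 364) (B (L (nat_lit 332) ln13_14_7 ln13_14_7_ok) (L (nat_lit 396) ln13_15_7 ln13_15_7_ok))) (M (nat_lit 494) (B (L (nat_lit 462) ln13_11_4 ln13_11_4_ok) (L (nat_lit 526) ln13_12_4 ln13_12_4_ok))))) (B (M (nat_lit 493) (B (M (nat_lit 364) (B (L (nat_lit 332) ln13_14_7 ln13_14_7_ok) (L (nat_lit 396) ln13_15_7 ln13_15_7_ok))) (M (nat_lit 366) (B (L (nat_lit 334) ln13_14_6 ln13_14_6_ok) (L (nat_lit 398) ln13_15_6 ln13_15_6_ok))))) (M (nat_lit 333) (B (M (nat_lit 332) (B (L (nat_lit 300) ln13_13_7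 ln13_13_7_ok) (L (nat_lit 364) ln13_14_7 ln13_14_7_ok))) (M (nat_lit 334) (B (L (nat_lit 302) ln13_13_6 ln13_13_6_ok) (L (nat_lit 366) ln13_14_6 ln13_14_6_ok))))))))) (B (M (nat_lit 365) (B (M (nat_lit 333) (B (M (nat_lit 332) (B (L (nat_lit 300) ln13_13_7 ln13_13_7_ok) (L (nat_lit 364) ln13_14_7 ln13_14_7_ok))) (M (nat_lit 460) (B (L (nat_lit 428) ln13_10_5 ln13_10_5_ok) (L (nat_lit 492) ln13_11_5 ln13_11_5_ok))))) (B (M (nat_lit 460) (B (L (nat_lit 492) ln13_11_5 ln13_11_5_ok) (M (nat_lit 462) (B (L (nat_lit 494) ln13_11_4 ln13_11_4_ok) (M (nat_lit 333) (B (L (nat_lit 428) ln13_10_5 ln13_10_5_ok) (L (nat_lit 430) ln13_10_4 ln13_10_4_ok))))))) (B (M (nat_lit 460) (B (L (nat_lit 492) ln13_11_5 ln13_11_5_ok) (M (nat_lit 396) (B (M (nat_lit 366) (B (L (nat_lit 334) ln13_14_6 ln13_14_6_ok) (M (nat_lit 395) (B (L (nat_lit 394) ln10_12_2 ln10_12_2_ok) (M (nat_lit 367) (B (L (nat_lit 368) ln16_11_1 ln16_11_1_ok)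 (L (nat_lit 398) ln11_12_2 ln11_12_2_ok))))))) (M (nat_lit 428) (B (M (nat_lit 462) (B (L (nat_lit 494) ln13_11_4 ln13_11_4_ok) (M (nat_lit 463) (B (L (nat_lit 427) ln15_14_3 ln15_14_3_ok) (L (nat_lit 464) ln16_14_3 ln16_14_3_ok))))) (M (nat_lit 459) (B (M (nat_lit 364) (B (L (nat_lit 332) ln13_14_7 ln13_14_7_ok) (L (nat_lit 491) ln12_11_5 ln12_11_5_ok))) (M (nat_lit 458) (B (L (nat_lit 457) ln9_14_2 ln9_14_2_ok) (L (nat_lit 430) ln10_14_2 ln10_14_2_ok))))))))))) (M (nat_lit 333) (B (M (nat_lit 332) (B (L (nat_lit 300) ln13_13_7 ln13_13_7_ok) (L (nat_lit 364) ln13_14_7 ln13_14_7_ok))) (M (nat_lit 462) (B (L (nat_lit 430) ln13_10_4 ln13_10_4_ok) (L (nat_lit 494) ln13_11_4 ln13_11_4_ok))))))))) (M (nat_lit 365) (B (M (nat_lit 493) (B (M (nat_lit 366) (B (L (nat_lit 334) ln13_14_6 ln13_14_6_ok) (L (nat_lit 398) ln13_15_6 ln13_15_6_ok))) (M (nat_lit 492) (B (L (nat_lit 460) ln13_11_5 ln13_11_5_ok) (L (nat_lit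 524) ln13_12_5 ln13_12_5_ok))))) (B (M (nat_lit 493) (B (M (nat_lit 364) (B (L (nat_lit 332) ln13_14_7 ln13_14_7_ok) (L (nat_lit 396) ln13_15_7 ln13_15_7_ok))) (M (nat_lit 492) (B (L (nat_lit 460) ln13_11_5 ln13_11_5_ok) (L (nat_lit 524) ln13_12_5 ln13_12_5_ok))))) (B (M (nat_lit 493) (B (M (nat_lit 364) (B (L (nat_lit 332) ln13_14_7 ln13_14_7_ok) (L (nat_lit 396) ln13_15_7 ln13_15_7_ok))) (M (nat_lit 366) (B (L (nat_lit 334) ln13_14_6 ln13_14_6_ok) (L (nat_lit 398) ln13_15_6 ln13_15_6_ok))))) (M (nat_lit 333) (B (M (nat_lit 332) (B (L (nat_lit 300) ln13_13_7 ln13_13_7_ok) (L (nat_lit 364) ln13_14_7 ln13_14_7_ok))) (M (nat_lit 460) (B (L (nat_lit 428) ln13_10_5 ln13_10_5_ok) (L (nat_lit 492) ln13_11_5 ln13_11_5_ok)))))))))))))))) (nat_lit 1386334847383188664550070665778531748218595021979121511688892729411143073470393764272092352380775458208712834410189682411080515584) (nat_lit 1179363258141160341638700066158423818439165515739618406620531761579027043524075300873503282301876260441880459094789781588967626745034225249029691709914487956666304167936)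 (nat_lit 1179363258141160341638700066158423818439165515739618406620531761579027043524075300873503282301876260441880459094789781588967626745034225249029691709914487956666304167936) (by decide +kernel)
noncomputable def c33_n3821 : Cert := (M (nat_lit 396) (B (M (nat_lit 364) (B (L (nat_lit 493) ln13_15_7 ln13_15_7_ok) (M (nat_lit 332) (B (L (nat_lit 300) ln12_9_4 ln12_9_4_ok) (L (nat_lit 428) ln12_10_4 ln12_10_4_ok))))) (B (M (nat_lit 493) (B (L (nat_lit 364) ln13_15_7 ln13_15_7_ok) (M (nat_lit 525) (B (L (nat_lit 428) ln13_16_7 ln13_16_7_ok) (M (nat_lit 524) (B (L (nat_lit 492) ln13_12_5 ln13_12_5_ok) (L (nat_lit 556) ln13_13_5 ln13_13_5_ok))))))) (B (M (nat_lit 398) (B (M (nat_lit 493) (B (L (nat_lit 366) ln13_15_6 ln13_15_6_ok) (M (nat_lit 525) (B (L (nat_lit 428) ln13_16_7 ln13_16_7_ok) (L (nat_lit 430) ln13_16_6 ln13_16_6_ok))))) (B (M (nat_lit 430) (B (M (nat_lit 431) (B (L (nat_lit 395) ln11_12_0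 ln11_12_0_ok) (L (nat_lit 432) ln16_13_3 ln16_13_3_ok))) (M (nat_lit 399) (B (M (nat_lit 400) (B (L (nat_lit 428) ln16_12_1 ln16_12_1_ok) (L (nat_lit 401) ln17_12_1 ln17_12_1_ok))) (M (nat_lit 494) (B (M (nat_lit 367) (B (L (nat_lit 368) ln12_12_2 ln12_12_2_ok) (L (nat_lit 462) ln14_15_6 ln14_15_6_ok))) (M (nat_lit 493) (B (L (nat_lit 526) ln13_12_4 ln13_12_4_ok) (L (nat_lit 525) ln13_16_6 ln13_16_6_ok))))))))) (B (M (nat_lit 366) (B (L (nat_lit 493) ln13_15_6 ln13_15_6_ok) (M (nat_lit 334) (B (L (nat_lit 302) ln14_9_5 ln14_9_5_ok) (L (nat_lit 430) ln14_10_5 ln14_10_5_ok))))) (B (M (nat_lit 493) (B (L (nat_lit 366) ln13_15_6 ln13_15_6_ok) (M (nat_lit 525) (B (L (nat_lit 428) ln13_16_7 ln13_16_7_ok) (M (nat_lit 526) (B (L (nat_lit 494) ln13_12_4 ln13_12_4_ok) (L (nat_lit 558) ln13_13_4 ln13_13_4_ok))))))) (M (nat_lit 366) (B (M (nat_lit 334) (B (L (nat_lit 302) ln14_9_5 ln14_9_5_ok) (L (nat_lit 430) ln14_10_5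 ln14_10_5_ok))) (M (nat_lit 367) (B (L (nat_lit 395) ln11_12_2 ln11_12_2_ok) (M (nat_lit 368) (B (L (nat_lit 369) ln17_11_1 ln17_11_1_ok) (L (nat_lit 399) ln12_12_2 ln12_12_2_ok)))))))))))) (B (M (nat_lit 493) (B (L (nat_lit 364) ln13_15_7 ln13_15_7_ok) (M (nat_lit 525) (B (M (nat_lit 398) (B (L (nat_lit 366) ln13_15_6 ln13_15_6_ok) (L (nat_lit 430) ln13_16_6 ln13_16_6_ok))) (M (nat_lit 526) (B (L (nat_lit 494) ln13_12_4 ln13_12_4_ok) (L (nat_lit 558) ln13_13_4 ln13_13_4_ok))))))) (M (nat_lit 395) (B (M (nat_lit 430) (B (L (nat_lit 394) ln10_12_0 ln10_12_0_ok) (M (nat_lit 431) (B (L (nat_lit 398) ln11_12_0 ln11_12_0_ok) (L (nat_lit 428) ln15_13_3 ln15_13_3_ok))))) (B (M (nat_lit 398) (B (M (nat_lit 430) (B (L (nat_lit 431) ln11_12_0 ln11_12_0_ok) (M (nat_lit 366) (B (L (nat_lit 334) ln14_10_5 ln14_10_5_ok) (L (nat_lit 367) ln11_12_2 ln11_12_2_ok))))) (M (nat_lit 364) (B (M (nat_lit 332) (B (L (nat_lit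 300) ln12_9_4 ln12_9_4_ok) (L (nat_lit 428) ln12_10_4 ln12_10_4_ok))) (M (nat_lit 363) (B (L (nat_lit 362) ln14_12_3 ln14_12_3_ok) (L (nat_lit 399) ln15_12_3 ln15_12_3_ok))))))) (B (M (nat_lit 430) (B (L (nat_lit 394) ln10_12_0 ln10_12_0_ok) (M (nat_lit 431) (B (L (nat_lit 428) ln15_13_3 ln15_13_3_ok) (L (nat_lit 432) ln16_13_3 ln16_13_3_ok))))) (B (M (nat_lit 430) (B (L (nat_lit 394) ln10_12_0 ln10_12_0_ok) (M (nat_lit 431) (B (L (nat_lit 398) ln11_12_0 ln11_12_0_ok) (L (nat_lit 432) ln16_13_3 ln16_13_3_ok))))) (B (M (nat_lit 398) (B (M (nat_lit 364) (B (M (nat_lit 332) (B (L (nat_lit 300) ln12_9_4 ln12_9_4_ok) (L (nat_lit 428) ln12_10_4 ln12_10_4_ok))) (M (nat_lit 363) (B (L (nat_lit 362) ln14_12_3 ln14_12_3_ok) (L (nat_lit 399) ln15_12_3 ln15_12_3_ok))))) (B (M (nat_lit 399) (B (M (nat_lit 363) (B (L (nat_lit 362) ln14_12_3 ln14_12_3_ok) (L (nat_lit 364) ln15_12_3 ln15_12_3_ok))) (M (nat_lit 367) (B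 (L (nat_lit 366) ln11_12_2 ln11_12_2_ok) (L (nat_lit 368) ln12_12_2 ln12_12_2_ok))))) (B (M (nat_lit 364) (B (M (nat_lit 332) (B (L (nat_lit 300) ln12_9_4 ln12_9_4_ok) (L (nat_lit 428) ln12_10_4 ln12_10_4_ok))) (M (nat_lit 399) (B (L (nat_lit 363) ln15_12_3 ln15_12_3_ok) (M (nat_lit 367) (B (L (nat_lit 366) ln11_12_2 ln11_12_2_ok) (L (nat_lit 368) ln12_12_2 ln12_12_2_ok))))))) (B (M (nat_lit 399) (B (M (nat_lit 367) (B (L (nat_lit 366) ln11_12_2 ln11_12_2_ok) (L (nat_lit 368) ln12_12_2 ln12_12_2_ok))) (M (nat_lit 432) (B (L (nat_lit 431) ln12_12_0 ln12_12_0_ok) (M (nat_lit 400) (B (L (nat_lit 428) ln16_12_1 ln16_12_1_ok) (L (nat_lit 433) ln13_12_0 ln13_12_0_ok))))))) (M (nat_lit 394) (B (M (nat_lit 362) (B (L (nat_lit 361) ln13_12_3 ln13_12_3_ok) (L (nat_lit 363) ln14_12_3 ln14_12_3_ok))) (M (nat_lit 393) (B (L (nat_lit 428) ln9_12_0 ln9_12_0_ok) (M (nat_lit 425) (B (L (nat_lit 424) ln12_12_1 ln12_12_1_ok)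 (L (nat_lit 426) ln13_12_1 ln13_12_1_ok)))))))))))) (M (nat_lit 394) (B (L (nat_lit 430) ln10_12_0 ln10_12_0_ok) (M (nat_lit 393) (B (L (nat_lit 428) ln9_12_0 ln9_12_0_ok) (M (nat_lit 425) (B (L (nat_lit 424) ln12_12_1 ln12_12_1_ok) (L (nat_lit 426) ln13_12_1 ln13_12_1_ok))))))))))))))))))
theorem c33_s3844 : Sem (nat_lit 1386334847383188664550070665778531748218595021979121511688892729411143073470393764272092352380775458208712834410189682411080515584) (nat_lit 1179363258141160341641896736602124099059699542736500952029521519822915116788124819450149412661500988944404776062238578258198521306621496036143900308926961271714707668992) (nat_lit 1179363258141160341641896736602124099059699542736500952029521519822915116788124819450149412661500988944404776062238578258198521306621496036143900308926961271714707668992) :=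
  sem_of_chk (M (nat_lit 461) (B (M (nat_lit 493) (B (M (nat_lit 525) (B (M (nat_lit 396) (B (L (nat_lit 364) ln13_15_7 ln13_15_7_ok) (L (nat_lit 428) ln13_16_7 ln13_16_7_ok))) (M (nat_lit 524) (B (L (nat_lit 492) ln13_12_5 ln13_12_5_ok) (L (nat_lit 556) ln13_13_5 ln13_13_5_ok))))) (B (M (nat_lit 365) (B (M (nat_lit 492) (B (L (nat_lit 460) ln13_11_5 ln13_11_5_ok) (L (nat_lit 524) ln13_12_5 ln13_12_5_ok))) (M (nat_lit 494) (B (L (nat_lit 462) ln13_11_4 ln13_11_4_ok) (L (nat_lit 526) ln13_12_4 ln13_12_4_ok))))) (M (nat_lit 365) (B (M (nat_lit 364) (B (L (nat_lit 332) ln13_14_7 ln13_14_7_ok) (L (nat_lit 396) ln13_15_7 ln13_15_7_ok))) (M (nat_lit 494) (B (L (nat_lit 462) ln13_11_4 ln13_11_4_ok) (L (nat_lit 526) ln13_12_4 ln13_12_4_ok)))))))) (B (M (nat_lit 365) (B (M (nat_lit 333) (B (M (nat_lit 334) (B (L (nat_lit 302) ln13_13_6 ln13_13_6_ok) (L (nat_lit 366) ln13_14_6 ln13_14_6_ok))) (M (nat_lit 462) (B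 (L (nat_lit 430) ln13_10_4 ln13_10_4_ok) (L (nat_lit 494) ln13_11_4 ln13_11_4_ok))))) (B (M (nat_lit 493) (B (M (nat_lit 492) (B (L (nat_lit 460) ln13_11_5 ln13_11_5_ok) (L (nat_lit 524) ln13_12_5 ln13_12_5_ok))) (M (nat_lit 494) (B (L (nat_lit 462) ln13_11_4 ln13_11_4_ok) (L (nat_lit 526) ln13_12_4 ln13_12_4_ok))))) (M (nat_lit 333) (B (M (nat_lit 334) (B (L (nat_lit 302) ln13_13_6 ln13_13_6_ok) (L (nat_lit 366) ln13_14_6 ln13_14_6_ok))) (M (nat_lit 460) (B (L (nat_lit 428) ln13_10_5 ln13_10_5_ok) (L (nat_lit 492) ln13_11_5 ln13_11_5_ok)))))))) (B c33_n3821 (B (M (nat_lit 365) (B (M (nat_lit 333) (B (M (nat_lit 332) (B (L (nat_lit 300) ln13_13_7 ln13_13_7_ok) (L (nat_lit 364) ln13_14_7 ln13_14_7_ok))) (M (nat_lit 334) (B (L (nat_lit 302) ln13_13_6 ln13_13_6_ok) (L (nat_lit 366) ln13_14_6 ln13_14_6_ok))))) (M (nat_lit 493) (B (M (nat_lit 492) (B (L (nat_lit 460) ln13_11_5 ln13_11_5_ok) (L (nat_lit 524)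 ln13_12_5 ln13_12_5_ok))) (M (nat_lit 494) (B (L (nat_lit 462) ln13_11_4 ln13_11_4_ok) (L (nat_lit 526) ln13_12_4 ln13_12_4_ok))))))) (B (M (nat_lit 365) (B (M (nat_lit 493) (B (M (nat_lit 366) (B (L (nat_lit 334) ln13_14_6 ln13_14_6_ok) (L (nat_lit 398) ln13_15_6 ln13_15_6_ok))) (M (nat_lit 492) (B (L (nat_lit 460) ln13_11_5 ln13_11_5_ok) (L (nat_lit 524) ln13_12_5 ln13_12_5_ok))))) (B (M (nat_lit 493) (B (M (nat_lit 364) (B (L (nat_lit 332) ln13_14_7 ln13_14_7_ok) (L (nat_lit 396) ln13_15_7 ln13_15_7_ok))) (M (nat_lit 492) (B (L (nat_lit 460) ln13_11_5 ln13_11_5_ok) (L (nat_lit 524) ln13_12_5 ln13_12_5_ok))))) (B (M (nat_lit 493) (B (M (nat_lit 364) (B (L (nat_lit 332) ln13_14_7 ln13_14_7_ok) (L (nat_lit 396) ln13_15_7 ln13_15_7_ok))) (M (nat_lit 366) (B (L (nat_lit 334) ln13_14_6 ln13_14_6_ok) (L (nat_lit 398) ln13_15_6 ln13_15_6_ok))))) (M (nat_lit 333) (B (M (nat_lit 332) (B (L (nat_lit 300) ln13_13_7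 ln13_13_7_ok) (L (nat_lit 364) ln13_14_7 ln13_14_7_ok))) (M (nat_lit 334) (B (L (nat_lit 302) ln13_13_6 ln13_13_6_ok) (L (nat_lit 366) ln13_14_6 ln13_14_6_ok))))))))) (B (M (nat_lit 365) (B (M (nat_lit 333) (B (M (nat_lit 334) (B (L (nat_lit 302) ln13_13_6 ln13_13_6_ok) (L (nat_lit 366) ln13_14_6 ln13_14_6_ok))) (M (nat_lit 462) (B (L (nat_lit 430) ln13_10_4 ln13_10_4_ok) (L (nat_lit 494) ln13_11_4 ln13_11_4_ok))))) (B (M (nat_lit 333) (B (M (nat_lit 332) (B (L (nat_lit 300) ln13_13_7 ln13_13_7_ok) (L (nat_lit 364) ln13_14_7 ln13_14_7_ok))) (M (nat_lit 462) (B (L (nat_lit 430) ln13_10_4 ln13_10_4_ok) (L (nat_lit 494) ln13_11_4 ln13_11_4_ok))))) (B (M (nat_lit 493) (B (M (nat_lit 364) (B (L (nat_lit 332) ln13_14_7 ln13_14_7_ok) (L (nat_lit 396) ln13_15_7 ln13_15_7_ok))) (M (nat_lit 494) (B (L (nat_lit 462) ln13_11_4 ln13_11_4_ok) (L (nat_lit 526) ln13_12_4 ln13_12_4_ok))))) (M (nat_lit 333) (B (M (nat_lit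 332) (B (L (nat_lit 300) ln13_13_7 ln13_13_7_ok) (L (nat_lit 364) ln13_14_7 ln13_14_7_ok))) (M (nat_lit 334) (B (L (nat_lit 302) ln13_13_6 ln13_13_6_ok) (L (nat_lit 366) ln13_14_6 ln13_14_6_ok))))))))) (M (nat_lit 365) (B (M (nat_lit 333) (B (M (nat_lit 332) (B (L (nat_lit 300) ln13_13_7 ln13_13_7_ok) (L (nat_lit 364) ln13_14_7 ln13_14_7_ok))) (M (nat_lit 460) (B (L (nat_lit 428) ln13_10_5 ln13_10_5_ok) (L (nat_lit 492) ln13_11_5 ln13_11_5_ok))))) (B (M (nat_lit 333) (B (M (nat_lit 334) (B (L (nat_lit 302) ln13_13_6 ln13_13_6_ok) (L (nat_lit 366) ln13_14_6 ln13_14_6_ok))) (M (nat_lit 460) (B (L (nat_lit 428) ln13_10_5 ln13_10_5_ok) (L (nat_lit 492) ln13_11_5 ln13_11_5_ok))))) (B (M (nat_lit 460) (B (L (nat_lit 492) ln13_11_5 ln13_11_5_ok) (M (nat_lit 396) (B (M (nat_lit 366) (B (L (nat_lit 334) ln13_14_6 ln13_14_6_ok) (M (nat_lit 395) (B (L (nat_lit 394) ln10_12_2 ln10_12_2_ok) (M (nat_lit 367) (B (L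 (nat_lit 368) ln16_11_1 ln16_11_1_ok) (L (nat_lit 398) ln11_12_2 ln11_12_2_ok))))))) (M (nat_lit 459) (B (M (nat_lit 430) (B (L (nat_lit 458) ln10_14_2 ln10_14_2_ok) (M (nat_lit 431) (B (L (nat_lit 432) ln16_13_3 ln16_13_3_ok) (L (nat_lit 428) ln15_13_1 ln15_13_1_ok))))) (B (M (nat_lit 430) (B (L (nat_lit 458) ln10_14_2 ln10_14_2_ok) (M (nat_lit 431) (B (L (nat_lit 432) ln16_13_3 ln16_13_3_ok) (L (nat_lit 462) ln11_14_2 ln11_14_2_ok))))) (M (nat_lit 491) (B (M (nat_lit 364) (B (L (nat_lit 332) ln13_14_7 ln13_14_7_ok) (L (nat_lit 428) ln12_11_5 ln12_11_5_ok))) (M (nat_lit 462) (B (L (nat_lit 494) ln13_11_4 ln13_11_4_ok) (L (nat_lit 490) ln14_14_1 ln14_14_1_ok)))))))))))) (M (nat_lit 333) (B (M (nat_lit 332) (B (L (nat_lit 300) ln13_13_7 ln13_13_7_ok) (L (nat_lit 364) ln13_14_7 ln13_14_7_ok))) (M (nat_lit 334) (B (L (nat_lit 302) ln13_13_6 ln13_13_6_ok) (L (nat_lit 366) ln13_14_6 ln13_14_6_ok))))))))))))))))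 (nat_lit 1386334847383188664550070665778531748218595021979121511688892729411143073470393764272092352380775458208712834410189682411080515584) (nat_lit 1179363258141160341641896736602124099059699542736500952029521519822915116788124819450149412661500988944404776062238578258198521306621496036143900308926961271714707668992) (nat_lit 1179363258141160341641896736602124099059699542736500952029521519822915116788124819450149412661500988944404776062238578258198521306621496036143900308926961271714707668992) (by decide +kernel)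
theorem c33_s3869 : Sem (nat_lit 1386334847383188664550070665778531748218595021979121511688892729411143073470393764272092352380775458208712834410189682411080515584) (nat_lit 1179363258189213925365104461175575133431362359885590878405314791550741933265477726536036408213207622021920610761375863736809731057193177879452401725558352833810035376128) (nat_lit 1179363258189213925365104461175575133431362359885590878405314791550741933265477726536036408213207622021920610761375863736809731057193177879452401725558352833810035376128) :=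
  sem_of_chk (M (nat_lit 461) (B (M (nat_lit 365) (B (M (nat_lit 333) (B (M (nat_lit 334) (B (L (nat_lit 302) ln13_13_6 ln13_13_6_ok) (L (nat_lit 366) ln13_14_6 ln13_14_6_ok))) (M (nat_lit 462) (B (L (nat_lit 430) ln13_10_4 ln13_10_4_ok) (L (nat_lit 494) ln13_11_4 ln13_11_4_ok))))) (B (M (nat_lit 333) (B (M (nat_lit 332) (B (L (nat_lit 300) ln13_13_7 ln13_13_7_ok) (L (nat_lit 364) ln13_14_7 ln13_14_7_ok))) (M (nat_lit 462) (B (L (nat_lit 430) ln13_10_4 ln13_10_4_ok) (L (nat_lit 494) ln13_11_4 ln13_11_4_ok))))) (B (M (nat_lit 493) (B (M (nat_lit 364) (B (L (nat_lit 332) ln13_14_7 ln13_14_7_ok) (L (nat_lit 396) ln13_15_7 ln13_15_7_ok))) (M (nat_lit 494) (B (L (nat_lit 462) ln13_11_4 ln13_11_4_ok) (L (nat_lit 526) ln13_12_4 ln13_12_4_ok))))) (M (nat_lit 333) (B (M (nat_lit 332) (B (L (nat_lit 300) ln13_13_7 ln13_13_7_ok) (L (nat_lit 364) ln13_14_7 ln13_14_7_ok))) (M (nat_lit 334) (B (L (nat_lit 302) ln13_13_6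 ln13_13_6_ok) (L (nat_lit 366) ln13_14_6 ln13_14_6_ok))))))))) (B (M (nat_lit 365) (B (M (nat_lit 493) (B (M (nat_lit 364) (B (L (nat_lit 332) ln13_14_7 ln13_14_7_ok) (L (nat_lit 396) ln13_15_7 ln13_15_7_ok))) (M (nat_lit 492) (B (L (nat_lit 460) ln13_11_5 ln13_11_5_ok) (L (nat_lit 524) ln13_12_5 ln13_12_5_ok))))) (B (M (nat_lit 493) (B (M (nat_lit 492) (B (L (nat_lit 460) ln13_11_5 ln13_11_5_ok) (L (nat_lit 524) ln13_12_5 ln13_12_5_ok))) (M (nat_lit 494) (B (L (nat_lit 462) ln13_11_4 ln13_11_4_ok) (L (nat_lit 526) ln13_12_4 ln13_12_4_ok))))) (B (M (nat_lit 493) (B (M (nat_lit 364) (B (L (nat_lit 332) ln13_14_7 ln13_14_7_ok) (L (nat_lit 396) ln13_15_7 ln13_15_7_ok))) (M (nat_lit 494) (B (L (nat_lit 462) ln13_11_4 ln13_11_4_ok) (L (nat_lit 526) ln13_12_4 ln13_12_4_ok))))) (M (nat_lit 333) (B (M (nat_lit 334) (B (L (nat_lit 302) ln13_13_6 ln13_13_6_ok) (L (nat_lit 366) ln13_14_6 ln13_14_6_ok))) (M (nat_lit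 462) (B (L (nat_lit 430) ln13_10_4 ln13_10_4_ok) (L (nat_lit 494) ln13_11_4 ln13_11_4_ok))))))))) (B (M (nat_lit 365) (B (M (nat_lit 493) (B (M (nat_lit 492) (B (L (nat_lit 460) ln13_11_5 ln13_11_5_ok) (L (nat_lit 524) ln13_12_5 ln13_12_5_ok))) (M (nat_lit 494) (B (L (nat_lit 462) ln13_11_4 ln13_11_4_ok) (L (nat_lit 526) ln13_12_4 ln13_12_4_ok))))) (B (M (nat_lit 493) (B (M (nat_lit 364) (B (L (nat_lit 332) ln13_14_7 ln13_14_7_ok) (L (nat_lit 396) ln13_15_7 ln13_15_7_ok))) (M (nat_lit 494) (B (L (nat_lit 462) ln13_11_4 ln13_11_4_ok) (L (nat_lit 526) ln13_12_4 ln13_12_4_ok))))) (B (M (nat_lit 493) (B (M (nat_lit 364) (B (L (nat_lit 332) ln13_14_7 ln13_14_7_ok) (L (nat_lit 396) ln13_15_7 ln13_15_7_ok))) (M (nat_lit 492) (B (L (nat_lit 460) ln13_11_5 ln13_11_5_ok) (L (nat_lit 524) ln13_12_5 ln13_12_5_ok))))) (M (nat_lit 333) (B (M (nat_lit 332) (B (L (nat_lit 300) ln13_13_7 ln13_13_7_ok) (L (nat_lit 364)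 ln13_14_7 ln13_14_7_ok))) (M (nat_lit 462) (B (L (nat_lit 430) ln13_10_4 ln13_10_4_ok) (L (nat_lit 494) ln13_11_4 ln13_11_4_ok))))))))) (B (M (nat_lit 365) (B (M (nat_lit 493) (B (M (nat_lit 366) (B (L (nat_lit 334) ln13_14_6 ln13_14_6_ok) (L (nat_lit 398) ln13_15_6 ln13_15_6_ok))) (M (nat_lit 492) (B (L (nat_lit 460) ln13_11_5 ln13_11_5_ok) (L (nat_lit 524) ln13_12_5 ln13_12_5_ok))))) (B (M (nat_lit 493) (B (M (nat_lit 492) (B (L (nat_lit 460) ln13_11_5 ln13_11_5_ok) (L (nat_lit 524) ln13_12_5 ln13_12_5_ok))) (M (nat_lit 494) (B (L (nat_lit 462) ln13_11_4 ln13_11_4_ok) (L (nat_lit 526) ln13_12_4 ln13_12_4_ok))))) (B (M (nat_lit 493) (B (M (nat_lit 366) (B (L (nat_lit 334) ln13_14_6 ln13_14_6_ok) (L (nat_lit 398) ln13_15_6 ln13_15_6_ok))) (M (nat_lit 494) (B (L (nat_lit 462) ln13_11_4 ln13_11_4_ok) (L (nat_lit 526) ln13_12_4 ln13_12_4_ok))))) (M (nat_lit 333) (B (M (nat_lit 334) (B (L (nat_lit 302) ln13_13_6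 ln13_13_6_ok) (L (nat_lit 366) ln13_14_6 ln13_14_6_ok))) (M (nat_lit 462) (B (L (nat_lit 430) ln13_10_4 ln13_10_4_ok) (L (nat_lit 494) ln13_11_4 ln13_11_4_ok))))))))) (B (M (nat_lit 493) (B (M (nat_lit 525) (B (M (nat_lit 398) (B (L (nat_lit 366) ln13_15_6 ln13_15_6_ok) (L (nat_lit 430) ln13_16_6 ln13_16_6_ok))) (M (nat_lit 526) (B (L (nat_lit 494) ln13_12_4 ln13_12_4_ok) (L (nat_lit 558) ln13_13_4 ln13_13_4_ok))))) (M (nat_lit 365) (B (M (nat_lit 364) (B (L (nat_lit 332) ln13_14_7 ln13_14_7_ok) (L (nat_lit 396) ln13_15_7 ln13_15_7_ok))) (M (nat_lit 492) (B (L (nat_lit 460) ln13_11_5 ln13_11_5_ok) (L (nat_lit 524) ln13_12_5 ln13_12_5_ok))))))) (B (M (nat_lit 493) (B (M (nat_lit 525) (B (M (nat_lit 398) (B (L (nat_lit 366) ln13_15_6 ln13_15_6_ok) (L (nat_lit 430) ln13_16_6 ln13_16_6_ok))) (M (nat_lit 524) (B (L (nat_lit 492) ln13_12_5 ln13_12_5_ok) (L (nat_lit 556) ln13_13_5 ln13_13_5_ok))))) (B (M (nat_lit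 525) (B (M (nat_lit 524) (B (L (nat_lit 492) ln13_12_5 ln13_12_5_ok) (L (nat_lit 556) ln13_13_5 ln13_13_5_ok))) (M (nat_lit 526) (B (L (nat_lit 494) ln13_12_4 ln13_12_4_ok) (L (nat_lit 558) ln13_13_4 ln13_13_4_ok))))) (B (M (nat_lit 525) (B (M (nat_lit 398) (B (L (nat_lit 366) ln13_15_6 ln13_15_6_ok) (L (nat_lit 430) ln13_16_6 ln13_16_6_ok))) (M (nat_lit 526) (B (L (nat_lit 494) ln13_12_4 ln13_12_4_ok) (L (nat_lit 558) ln13_13_4 ln13_13_4_ok))))) (M (nat_lit 492) (B (L (nat_lit 524) ln13_12_5 ln13_12_5_ok) (M (nat_lit 494) (B (L (nat_lit 526) ln13_12_4 ln13_12_4_ok) (M (nat_lit 491) (B (M (nat_lit 462) (B (L (nat_lit 490) ln10_15_2 ln10_15_2_ok) (L (nat_lit 463) ln11_15_2 ln11_15_2_ok))) (B (M (nat_lit 490) (B (M (nat_lit 458) (B (L (nat_lit 457) ln13_15_3 ln13_15_3_ok) (L (nat_lit 459) ln14_15_3 ln14_15_3_ok))) (M (nat_lit 522) (B (L (nat_lit 521) ln13_15_1 ln13_15_1_ok) (L (nat_lit 523) ln14_15_1 ln14_15_1_ok)))))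 (M (nat_lit 495) (B (M (nat_lit 459) (B (L (nat_lit 458) ln14_15_3 ln14_15_3_ok) (L (nat_lit 460) ln15_15_3 ln15_15_3_ok))) (M (nat_lit 463) (B (L (nat_lit 462) ln11_15_2 ln11_15_2_ok) (L (nat_lit 464) ln12_15_2 ln12_15_2_ok)))))))))))))))) (B (M (nat_lit 365) (B (M (nat_lit 333) (B (M (nat_lit 332) (B (L (nat_lit 300) ln13_13_7 ln13_13_7_ok) (L (nat_lit 364) ln13_14_7 ln13_14_7_ok))) (M (nat_lit 334) (B (L (nat_lit 302) ln13_13_6 ln13_13_6_ok) (L (nat_lit 366) ln13_14_6 ln13_14_6_ok))))) (M (nat_lit 493) (B (M (nat_lit 492) (B (L (nat_lit 460) ln13_11_5 ln13_11_5_ok) (L (nat_lit 524) ln13_12_5 ln13_12_5_ok))) (M (nat_lit 494) (B (L (nat_lit 462) ln13_11_4 ln13_11_4_ok) (L (nat_lit 526) ln13_12_4 ln13_12_4_ok))))))) (B (M (nat_lit 365) (B (M (nat_lit 333) (B (M (nat_lit 332) (B (L (nat_lit 300) ln13_13_7 ln13_13_7_ok) (L (nat_lit 364) ln13_14_7 ln13_14_7_ok))) (M (nat_lit 334) (B (L (nat_lit 302) ln13_13_6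 ln13_13_6_ok) (L (nat_lit 366) ln13_14_6 ln13_14_6_ok))))) (B (M (nat_lit 333) (B (M (nat_lit 334) (B (L (nat_lit 302) ln13_13_6 ln13_13_6_ok) (L (nat_lit 366) ln13_14_6 ln13_14_6_ok))) (M (nat_lit 462) (B (L (nat_lit 430) ln13_10_4 ln13_10_4_ok) (L (nat_lit 494) ln13_11_4 ln13_11_4_ok))))) (B (M (nat_lit 333) (B (M (nat_lit 332) (B (L (nat_lit 300) ln13_13_7 ln13_13_7_ok) (L (nat_lit 364) ln13_14_7 ln13_14_7_ok))) (M (nat_lit 462) (B (L (nat_lit 430) ln13_10_4 ln13_10_4_ok) (L (nat_lit 494) ln13_11_4 ln13_11_4_ok))))) (M (nat_lit 364) (B (L (nat_lit 332) ln13_14_7 ln13_14_7_ok) (M (nat_lit 366) (B (L (nat_lit 334) ln13_14_6 ln13_14_6_ok) (M (nat_lit 363) (B (M (nat_lit 398) (B (L (nat_lit 362) ln10_11_0 ln10_11_0_ok) (L (nat_lit 399) ln11_11_0 ln11_11_0_ok))) (B (M (nat_lit 367) (B (M (nat_lit 395) (B (L (nat_lit 394) ln14_11_1 ln14_11_1_ok) (L (nat_lit 396) ln15_11_1 ln15_11_1_ok))) (M (nat_lit 399)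 (B (L (nat_lit 398) ln11_11_0 ln11_11_0_ok) (L (nat_lit 400) ln12_11_0 ln12_11_0_ok))))) (M (nat_lit 362) (B (M (nat_lit 330) (B (L (nat_lit 329) ln13_11_3 ln13_11_3_ok) (L (nat_lit 331) ln14_11_3 ln14_11_3_ok))) (M (nat_lit 394) (B (L (nat_lit 393) ln13_11_1 ln13_11_1_ok) (L (nat_lit 395) ln14_11_1 ln14_11_1_ok)))))))))))))))) (M (nat_lit 365) (B (M (nat_lit 493) (B (M (nat_lit 366) (B (L (nat_lit 334) ln13_14_6 ln13_14_6_ok) (L (nat_lit 398) ln13_15_6 ln13_15_6_ok))) (M (nat_lit 492) (B (L (nat_lit 460) ln13_11_5 ln13_11_5_ok) (L (nat_lit 524) ln13_12_5 ln13_12_5_ok))))) (B (M (nat_lit 493) (B (M (nat_lit 364) (B (L (nat_lit 332) ln13_14_7 ln13_14_7_ok) (L (nat_lit 396) ln13_15_7 ln13_15_7_ok))) (M (nat_lit 492) (B (L (nat_lit 460) ln13_11_5 ln13_11_5_ok) (L (nat_lit 524) ln13_12_5 ln13_12_5_ok))))) (B (M (nat_lit 493) (B (M (nat_lit 364) (B (L (nat_lit 332) ln13_14_7 ln13_14_7_ok) (L (nat_lit 396)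 ln13_15_7 ln13_15_7_ok))) (M (nat_lit 366) (B (L (nat_lit 334) ln13_14_6 ln13_14_6_ok) (L (nat_lit 398) ln13_15_6 ln13_15_6_ok))))) (M (nat_lit 333) (B (M (nat_lit 332) (B (L (nat_lit 300) ln13_13_7 ln13_13_7_ok) (L (nat_lit 364) ln13_14_7 ln13_14_7_ok))) (M (nat_lit 334) (B (L (nat_lit 302) ln13_13_6 ln13_13_6_ok) (L (nat_lit 366) ln13_14_6 ln13_14_6_ok)))))))))))))))))) (nat_lit 1386334847383188664550070665778531748218595021979121511688892729411143073470393764272092352380775458208712834410189682411080515584) (nat_lit 1179363258189213925365104461175575133431362359885590878405314791550741933265477726536036408213207622021920610761375863736809731057193177879452401725558352833810035376128) (nat_lit 1179363258189213925365104461175575133431362359885590878405314791550741933265477726536036408213207622021920610761375863736809731057193177879452401725558352833810035376128) (by decide +kernel)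
theorem c33_s3871 : Sem (nat_lit 1386334847383188664550070665778531748218595021979121511688892729411143073470393764272092352380775458208712834410189682411080515584) (nat_lit 1179363258189213925365104461175575133429282857615000267260630980912634620487900398729504545781829762336459644780521644519529750252615073195879358317337300154938304757760) (nat_lit 1179363258189213925365104461175575133429282857615000267260630980912634620487900398729504545781829762336459644780521644519529750252615073195879358317337300154938304757760) :=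
  sem_of_chk (M (nat_lit 461) (B (M (nat_lit 493) (B (M (nat_lit 525) (B (M (nat_lit 396) (B (L (nat_lit 364) ln13_15_7 ln13_15_7_ok) (L (nat_lit 428) ln13_16_7 ln13_16_7_ok))) (M (nat_lit 524) (B (L (nat_lit 492) ln13_12_5 ln13_12_5_ok) (L (nat_lit 556) ln13_13_5 ln13_13_5_ok))))) (B (M (nat_lit 365) (B (M (nat_lit 492) (B (L (nat_lit 460) ln13_11_5 ln13_11_5_ok) (L (nat_lit 524) ln13_12_5 ln13_12_5_ok))) (M (nat_lit 494) (B (L (nat_lit 462) ln13_11_4 ln13_11_4_ok) (L (nat_lit 526) ln13_12_4 ln13_12_4_ok))))) (M (nat_lit 365) (B (M (nat_lit 364) (B (L (nat_lit 332) ln13_14_7 ln13_14_7_ok) (L (nat_lit 396) ln13_15_7 ln13_15_7_ok))) (M (nat_lit 494) (B (L (nat_lit 462) ln13_11_4 ln13_11_4_ok) (L (nat_lit 526) ln13_12_4 ln13_12_4_ok)))))))) (B (M (nat_lit 365) (B (M (nat_lit 493) (B (M (nat_lit 492) (B (L (nat_lit 460) ln13_11_5 ln13_11_5_ok) (L (nat_lit 524) ln13_12_5 ln13_12_5_ok))) (M (nat_lit 494) (B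 (L (nat_lit 462) ln13_11_4 ln13_11_4_ok) (L (nat_lit 526) ln13_12_4 ln13_12_4_ok))))) (B (M (nat_lit 493) (B (M (nat_lit 366) (B (L (nat_lit 334) ln13_14_6 ln13_14_6_ok) (L (nat_lit 398) ln13_15_6 ln13_15_6_ok))) (M (nat_lit 494) (B (L (nat_lit 462) ln13_11_4 ln13_11_4_ok) (L (nat_lit 526) ln13_12_4 ln13_12_4_ok))))) (B (M (nat_lit 493) (B (M (nat_lit 366) (B (L (nat_lit 334) ln13_14_6 ln13_14_6_ok) (L (nat_lit 398) ln13_15_6 ln13_15_6_ok))) (M (nat_lit 492) (B (L (nat_lit 460) ln13_11_5 ln13_11_5_ok) (L (nat_lit 524) ln13_12_5 ln13_12_5_ok))))) (M (nat_lit 333) (B (M (nat_lit 334) (B (L (nat_lit 302) ln13_13_6 ln13_13_6_ok) (L (nat_lit 366) ln13_14_6 ln13_14_6_ok))) (M (nat_lit 460) (B (L (nat_lit 428) ln13_10_5 ln13_10_5_ok) (L (nat_lit 492) ln13_11_5 ln13_11_5_ok))))))))) (B (M (nat_lit 493) (B (M (nat_lit 525) (B (M (nat_lit 396) (B (L (nat_lit 364) ln13_15_7 ln13_15_7_ok) (L (nat_lit 428) ln13_16_7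 ln13_16_7_ok))) (M (nat_lit 526) (B (L (nat_lit 494) ln13_12_4 ln13_12_4_ok) (L (nat_lit 558) ln13_13_4 ln13_13_4_ok))))) (B (M (nat_lit 525) (B (M (nat_lit 524) (B (L (nat_lit 492) ln13_12_5 ln13_12_5_ok) (L (nat_lit 556) ln13_13_5 ln13_13_5_ok))) (M (nat_lit 526) (B (L (nat_lit 494) ln13_12_4 ln13_12_4_ok) (L (nat_lit 558) ln13_13_4 ln13_13_4_ok))))) (B (M (nat_lit 525) (B (M (nat_lit 396) (B (L (nat_lit 364) ln13_15_7 ln13_15_7_ok) (L (nat_lit 428) ln13_16_7 ln13_16_7_ok))) (M (nat_lit 524) (B (L (nat_lit 492) ln13_12_5 ln13_12_5_ok) (L (nat_lit 556) ln13_13_5 ln13_13_5_ok))))) (M (nat_lit 492) (B (L (nat_lit 524) ln13_12_5 ln13_12_5_ok) (M (nat_lit 494) (B (L (nat_lit 526) ln13_12_4 ln13_12_4_ok) (M (nat_lit 491) (B (M (nat_lit 462) (B (L (nat_lit 490) ln10_15_2 ln10_15_2_ok) (L (nat_lit 463) ln11_15_2 ln11_15_2_ok))) (B (M (nat_lit 490) (B (M (nat_lit 458) (B (L (nat_lit 457) ln13_15_3 ln13_15_3_ok)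 (L (nat_lit 459) ln14_15_3 ln14_15_3_ok))) (M (nat_lit 522) (B (L (nat_lit 521) ln13_15_1 ln13_15_1_ok) (L (nat_lit 523) ln14_15_1 ln14_15_1_ok))))) (M (nat_lit 495) (B (M (nat_lit 459) (B (L (nat_lit 458) ln14_15_3 ln14_15_3_ok) (L (nat_lit 460) ln15_15_3 ln15_15_3_ok))) (M (nat_lit 463) (B (L (nat_lit 462) ln11_15_2 ln11_15_2_ok) (L (nat_lit 464) ln12_15_2 ln12_15_2_ok)))))))))))))))) (B (M (nat_lit 365) (B (M (nat_lit 493) (B (M (nat_lit 492) (B (L (nat_lit 460) ln13_11_5 ln13_11_5_ok) (L (nat_lit 524) ln13_12_5 ln13_12_5_ok))) (M (nat_lit 494) (B (L (nat_lit 462) ln13_11_4 ln13_11_4_ok) (L (nat_lit 526) ln13_12_4 ln13_12_4_ok))))) (B (M (nat_lit 493) (B (M (nat_lit 366) (B (L (nat_lit 334) ln13_14_6 ln13_14_6_ok) (L (nat_lit 398) ln13_15_6 ln13_15_6_ok))) (M (nat_lit 494) (B (L (nat_lit 462) ln13_11_4 ln13_11_4_ok) (L (nat_lit 526) ln13_12_4 ln13_12_4_ok))))) (B (M (nat_lit 493) (B (M (nat_lit 366)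 (B (L (nat_lit 334) ln13_14_6 ln13_14_6_ok) (L (nat_lit 398) ln13_15_6 ln13_15_6_ok))) (M (nat_lit 492) (B (L (nat_lit 460) ln13_11_5 ln13_11_5_ok) (L (nat_lit 524) ln13_12_5 ln13_12_5_ok))))) (M (nat_lit 333) (B (M (nat_lit 332) (B (L (nat_lit 300) ln13_13_7 ln13_13_7_ok) (L (nat_lit 364) ln13_14_7 ln13_14_7_ok))) (M (nat_lit 334) (B (L (nat_lit 302) ln13_13_6 ln13_13_6_ok) (L (nat_lit 366) ln13_14_6 ln13_14_6_ok))))))))) (B (M (nat_lit 365) (B (M (nat_lit 493) (B (M (nat_lit 366) (B (L (nat_lit 334) ln13_14_6 ln13_14_6_ok) (L (nat_lit 398) ln13_15_6 ln13_15_6_ok))) (M (nat_lit 494) (B (L (nat_lit 462) ln13_11_4 ln13_11_4_ok) (L (nat_lit 526) ln13_12_4 ln13_12_4_ok))))) (B (M (nat_lit 493) (B (M (nat_lit 364) (B (L (nat_lit 332) ln13_14_7 ln13_14_7_ok) (L (nat_lit 396) ln13_15_7 ln13_15_7_ok))) (M (nat_lit 494) (B (L (nat_lit 462) ln13_11_4 ln13_11_4_ok) (L (nat_lit 526) ln13_12_4 ln13_12_4_ok))))) (B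 (M (nat_lit 493) (B (M (nat_lit 364) (B (L (nat_lit 332) ln13_14_7 ln13_14_7_ok) (L (nat_lit 396) ln13_15_7 ln13_15_7_ok))) (M (nat_lit 366) (B (L (nat_lit 334) ln13_14_6 ln13_14_6_ok) (L (nat_lit 398) ln13_15_6 ln13_15_6_ok))))) (M (nat_lit 333) (B (M (nat_lit 332) (B (L (nat_lit 300) ln13_13_7 ln13_13_7_ok) (L (nat_lit 364) ln13_14_7 ln13_14_7_ok))) (M (nat_lit 334) (B (L (nat_lit 302) ln13_13_6 ln13_13_6_ok) (L (nat_lit 366) ln13_14_6 ln13_14_6_ok))))))))) (B (M (nat_lit 365) (B (M (nat_lit 333) (B (M (nat_lit 334) (B (L (nat_lit 302) ln13_13_6 ln13_13_6_ok) (L (nat_lit 366) ln13_14_6 ln13_14_6_ok))) (M (nat_lit 460) (B (L (nat_lit 428) ln13_10_5 ln13_10_5_ok) (L (nat_lit 492) ln13_11_5 ln13_11_5_ok))))) (B (M (nat_lit 493) (B (M (nat_lit 364) (B (L (nat_lit 332) ln13_14_7 ln13_14_7_ok) (L (nat_lit 396) ln13_15_7 ln13_15_7_ok))) (M (nat_lit 492) (B (L (nat_lit 460) ln13_11_5 ln13_11_5_ok) (L (nat_lit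 524) ln13_12_5 ln13_12_5_ok))))) (M (nat_lit 333) (B (M (nat_lit 332) (B (L (nat_lit 300) ln13_13_7 ln13_13_7_ok) (L (nat_lit 364) ln13_14_7 ln13_14_7_ok))) (M (nat_lit 334) (B (L (nat_lit 302) ln13_13_6 ln13_13_6_ok) (L (nat_lit 366) ln13_14_6 ln13_14_6_ok)))))))) (M (nat_lit 365) (B (M (nat_lit 333) (B (M (nat_lit 332) (B (L (nat_lit 300) ln13_13_7 ln13_13_7_ok) (L (nat_lit 364) ln13_14_7 ln13_14_7_ok))) (M (nat_lit 460) (B (L (nat_lit 428) ln13_10_5 ln13_10_5_ok) (L (nat_lit 492) ln13_11_5 ln13_11_5_ok))))) (B (M (nat_lit 333) (B (M (nat_lit 334) (B (L (nat_lit 302) ln13_13_6 ln13_13_6_ok) (L (nat_lit 366) ln13_14_6 ln13_14_6_ok))) (M (nat_lit 460) (B (L (nat_lit 428) ln13_10_5 ln13_10_5_ok) (L (nat_lit 492) ln13_11_5 ln13_11_5_ok))))) (M (nat_lit 364) (B (L (nat_lit 332) ln13_14_7 ln13_14_7_ok) (M (nat_lit 366) (B (L (nat_lit 334) ln13_14_6 ln13_14_6_ok) (M (nat_lit 363) (B (M (nat_lit 398) (B (L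 (nat_lit 362) ln10_11_0 ln10_11_0_ok) (L (nat_lit 399) ln11_11_0 ln11_11_0_ok))) (B (M (nat_lit 367) (B (M (nat_lit 395) (B (L (nat_lit 394) ln14_11_1 ln14_11_1_ok) (L (nat_lit 396) ln15_11_1 ln15_11_1_ok))) (M (nat_lit 399) (B (L (nat_lit 398) ln11_11_0 ln11_11_0_ok) (L (nat_lit 400) ln12_11_0 ln12_11_0_ok))))) (M (nat_lit 362) (B (M (nat_lit 330) (B (L (nat_lit 329) ln13_11_3 ln13_11_3_ok) (L (nat_lit 331) ln14_11_3 ln14_11_3_ok))) (M (nat_lit 394) (B (L (nat_lit 393) ln13_11_1 ln13_11_1_ok) (L (nat_lit 395) ln14_11_1 ln14_11_1_ok)))))))))))))))))))))) (nat_lit 1386334847383188664550070665778531748218595021979121511688892729411143073470393764272092352380775458208712834410189682411080515584) (nat_lit 1179363258189213925365104461175575133429282857615000267260630980912634620487900398729504545781829762336459644780521644519529750252615073195879358317337300154938304757760) (nat_lit 1179363258189213925365104461175575133429282857615000267260630980912634620487900398729504545781829762336459644780521644519529750252615073195879358317337300154938304757760)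 (by decide +kernel)
noncomputable def c33_n3880 : Cert := (M (nat_lit 398) (B (M (nat_lit 395) (B (M (nat_lit 430) (B (L (nat_lit 394) ln10_12_0 ln10_12_0_ok) (L (nat_lit 431) ln11_12_0 ln11_12_0_ok))) (M (nat_lit 399) (B (M (nat_lit 367) (B (L (nat_lit 366) ln11_12_2 ln11_12_2_ok) (L (nat_lit 368) ln12_12_2 ln12_12_2_ok))) (M (nat_lit 427) (B (L (nat_lit 426) ln14_12_1 ln14_12_1_ok) (L (nat_lit 428) ln15_12_1 ln15_12_1_ok))))))) (B (M (nat_lit 395) (B (M (nat_lit 430) (B (L (nat_lit 394) ln10_12_0 ln10_12_0_ok) (L (nat_lit 431) ln11_12_0 ln11_12_0_ok))) (M (nat_lit 399) (B (M (nat_lit 363) (B (L (nat_lit 362) ln14_12_3 ln14_12_3_ok) (L (nat_lit 364) ln15_12_3 ln15_12_3_ok))) (M (nat_lit 427) (B (L (nat_lit 426) ln14_12_1 ln14_12_1_ok) (L (nat_lit 428) ln15_12_1 ln15_12_1_ok))))))) (B (M (nat_lit 395) (B (M (nat_lit 430) (B (L (nat_lit 431) ln11_12_0 ln11_12_0_ok) (M (nat_lit 366) (B (L (nat_lit 334)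 ln14_10_5 ln14_10_5_ok) (L (nat_lit 367) ln11_12_2 ln11_12_2_ok))))) (M (nat_lit 399) (B (M (nat_lit 363) (B (L (nat_lit 362) ln14_12_3 ln14_12_3_ok) (L (nat_lit 364) ln15_12_3 ln15_12_3_ok))) (M (nat_lit 427) (B (L (nat_lit 426) ln14_12_1 ln14_12_1_ok) (L (nat_lit 428) ln15_12_1 ln15_12_1_ok))))))) (B (M (nat_lit 399) (B (M (nat_lit 428) (B (L (nat_lit 427) ln15_12_1 ln15_12_1_ok) (L (nat_lit 400) ln16_12_1 ln16_12_1_ok))) (B (M (nat_lit 428) (B (L (nat_lit 427) ln15_12_1 ln15_12_1_ok) (M (nat_lit 364) (B (L (nat_lit 332) ln12_10_4 ln12_10_4_ok) (L (nat_lit 363) ln15_12_3 ln15_12_3_ok))))) (B (M (nat_lit 428) (B (L (nat_lit 400) ln16_12_1 ln16_12_1_ok) (M (nat_lit 364) (B (L (nat_lit 332) ln12_10_4 ln12_10_4_ok) (L (nat_lit 363) ln15_12_3 ln15_12_3_ok))))) (M (nat_lit 400) (B (M (nat_lit 368) (B (L (nat_lit 367) ln12_12_2 ln12_12_2_ok) (L (nat_lit 369) ln13_12_2 ln13_12_2_ok))) (M (nat_lit 432) (B (L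 (nat_lit 431) ln12_12_0 ln12_12_0_ok) (L (nat_lit 433) ln13_12_0 ln13_12_0_ok))))))))) (B (M (nat_lit 395) (B (M (nat_lit 430) (B (L (nat_lit 394) ln10_12_0 ln10_12_0_ok) (L (nat_lit 431) ln11_12_0 ln11_12_0_ok))) (B (M (nat_lit 430) (B (L (nat_lit 431) ln11_12_0 ln11_12_0_ok) (M (nat_lit 366) (B (L (nat_lit 334) ln14_10_5 ln14_10_5_ok) (L (nat_lit 367) ln11_12_2 ln11_12_2_ok))))) (M (nat_lit 394) (B (M (nat_lit 362) (B (L (nat_lit 361) ln13_12_3 ln13_12_3_ok) (L (nat_lit 363) ln14_12_3 ln14_12_3_ok))) (M (nat_lit 426) (B (L (nat_lit 425) ln13_12_1 ln13_12_1_ok) (L (nat_lit 427) ln14_12_1 ln14_12_1_ok)))))))) (B (M (nat_lit 395) (B (M (nat_lit 430) (B (L (nat_lit 394) ln10_12_0 ln10_12_0_ok) (L (nat_lit 431) ln11_12_0 ln11_12_0_ok))) (M (nat_lit 399) (B (M (nat_lit 363) (B (L (nat_lit 362) ln14_12_3 ln14_12_3_ok) (L (nat_lit 364) ln15_12_3 ln15_12_3_ok))) (M (nat_lit 367) (B (L (nat_lit 366) ln11_12_2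 ln11_12_2_ok) (L (nat_lit 368) ln12_12_2 ln12_12_2_ok))))))) (M (nat_lit 395) (B (M (nat_lit 430) (B (L (nat_lit 394) ln10_12_0 ln10_12_0_ok) (M (nat_lit 366) (B (L (nat_lit 334) ln14_10_5 ln14_10_5_ok) (L (nat_lit 367) ln11_12_2 ln11_12_2_ok))))) (B (M (nat_lit 426) (B (L (nat_lit 427) ln14_12_1 ln14_12_1_ok) (M (nat_lit 394) (B (L (nat_lit 425) ln13_12_1 ln13_12_1_ok) (L (nat_lit 430) ln10_12_0 ln10_12_0_ok))))) (M (nat_lit 399) (B (M (nat_lit 363) (B (L (nat_lit 362) ln14_12_3 ln14_12_3_ok) (L (nat_lit 364) ln15_12_3 ln15_12_3_ok))) (M (nat_lit 367) (B (L (nat_lit 366) ln11_12_2 ln11_12_2_ok) (L (nat_lit 368) ln12_12_2 ln12_12_2_ok)))))))))))))))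
theorem c33_s3881 : Sem (nat_lit 5954262830815946494763249298768603811203561774969104571805089223376689777636098861358550851719243481454542035207245364041705138952691777536) (nat_lit 943490606534895625823378003938764286206461047388172582359504279893319258300549844687114333137317928378163832733098940536058534221435490795114384924405468193762524004352) (nat_lit 943490606534895625823378003938764286206461047388172582359504279893319258300549844687114333137317928378163832733098940536058534221435490795114384924405468193762524004352) :=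
  sem_of_chk (M (nat_lit 396) (B (M (nat_lit 364) (B (L (nat_lit 493) ln13_15_7 ln13_15_7_ok) (M (nat_lit 332) (B (L (nat_lit 300) ln12_9_4 ln12_9_4_ok) (L (nat_lit 428) ln12_10_4 ln12_10_4_ok))))) (B (M (nat_lit 493) (B (L (nat_lit 364) ln13_15_7 ln13_15_7_ok) (M (nat_lit 525) (B (L (nat_lit 428) ln13_16_7 ln13_16_7_ok) (M (nat_lit 398) (B (L (nat_lit 366) ln13_15_6 ln13_15_6_ok) (L (nat_lit 430) ln13_16_6 ln13_16_6_ok))))))) (B (M (nat_lit 398) (B (M (nat_lit 493) (B (L (nat_lit 366) ln13_15_6 ln13_15_6_ok) (M (nat_lit 525) (B (L (nat_lit 428) ln13_16_7 ln13_16_7_ok) (L (nat_lit 430) ln13_16_6 ln13_16_6_ok))))) (B (M (nat_lit 395) (B (M (nat_lit 430) (B (L (nat_lit 394) ln10_12_0 ln10_12_0_ok) (L (nat_lit 431) ln11_12_0 ln11_12_0_ok))) (B (M (nat_lit 399) (B (M (nat_lit 427) (B (L (nat_lit 426) ln14_12_1 ln14_12_1_ok) (L (nat_lit 428) ln15_12_1 ln15_12_1_ok))) (M (nat_lit 431) (B (L (nat_lit 430) ln11_12_0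 ln11_12_0_ok) (L (nat_lit 432) ln12_12_0 ln12_12_0_ok))))) (M (nat_lit 394) (B (M (nat_lit 362) (B (L (nat_lit 361) ln13_12_3 ln13_12_3_ok) (L (nat_lit 363) ln14_12_3 ln14_12_3_ok))) (M (nat_lit 426) (B (L (nat_lit 425) ln13_12_1 ln13_12_1_ok) (L (nat_lit 427) ln14_12_1 ln14_12_1_ok)))))))) (B (M (nat_lit 366) (B (L (nat_lit 493) ln13_15_6 ln13_15_6_ok) (M (nat_lit 334) (B (L (nat_lit 302) ln14_9_5 ln14_9_5_ok) (L (nat_lit 430) ln14_10_5 ln14_10_5_ok))))) (M (nat_lit 428) (B (M (nat_lit 493) (B (L (nat_lit 366) ln13_15_6 ln13_15_6_ok) (L (nat_lit 525) ln13_16_7 ln13_16_7_ok))) (M (nat_lit 427) (B (L (nat_lit 399) ln15_12_1 ln15_12_1_ok) (L (nat_lit 426) ln10_13_2 ln10_13_2_ok))))))))) (B (M (nat_lit 493) (B (L (nat_lit 364) ln13_15_7 ln13_15_7_ok) (M (nat_lit 525) (B (M (nat_lit 398) (B (L (nat_lit 366) ln13_15_6 ln13_15_6_ok) (L (nat_lit 430) ln13_16_6 ln13_16_6_ok))) (M (nat_lit 526) (B (L (nat_lit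 494) ln13_12_4 ln13_12_4_ok) (L (nat_lit 558) ln13_13_4 ln13_13_4_ok))))))) c33_n3880))))) (nat_lit 5954262830815946494763249298768603811203561774969104571805089223376689777636098861358550851719243481454542035207245364041705138952691777536) (nat_lit 943490606534895625823378003938764286206461047388172582359504279893319258300549844687114333137317928378163832733098940536058534221435490795114384924405468193762524004352) (nat_lit 943490606534895625823378003938764286206461047388172582359504279893319258300549844687114333137317928378163832733098940536058534221435490795114384924405468193762524004352) (by decide +kernel)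
theorem c33_s3883 : Sem (nat_lit 1386334847383188664550070665778531748218595021979121511688892729411143073470393764272092352380775458208712834410189682411080515584) (nat_lit 1179363258141160341632306725050343390949447626597748756452413181698487890952872870512277671042165582395445500984693464773293080744807773531026692480770991102622754144256) (nat_lit 1179363258141160341632306725050343390949447626597748756452413181698487890952872870512277671042165582395445500984693464773293080744807773531026692480770991102622754144256) :=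
  sem_of_chk (M (nat_lit 461) (B (M (nat_lit 365) (B (M (nat_lit 333) (B (M (nat_lit 332) (B (L (nat_lit 300) ln13_13_7 ln13_13_7_ok) (L (nat_lit 364) ln13_14_7 ln13_14_7_ok))) (M (nat_lit 462) (B (L (nat_lit 430) ln13_10_4 ln13_10_4_ok) (L (nat_lit 494) ln13_11_4 ln13_11_4_ok))))) (B (M (nat_lit 493) (B (M (nat_lit 364) (B (L (nat_lit 332) ln13_14_7 ln13_14_7_ok) (L (nat_lit 396) ln13_15_7 ln13_15_7_ok))) (M (nat_lit 494) (B (L (nat_lit 462) ln13_11_4 ln13_11_4_ok) (L (nat_lit 526) ln13_12_4 ln13_12_4_ok))))) (B (M (nat_lit 493) (B (M (nat_lit 366) (B (L (nat_lit 334) ln13_14_6 ln13_14_6_ok) (L (nat_lit 398) ln13_15_6 ln13_15_6_ok))) (M (nat_lit 494) (B (L (nat_lit 462) ln13_11_4 ln13_11_4_ok) (L (nat_lit 526) ln13_12_4 ln13_12_4_ok))))) (M (nat_lit 493) (B (M (nat_lit 364) (B (L (nat_lit 332) ln13_14_7 ln13_14_7_ok) (L (nat_lit 396) ln13_15_7 ln13_15_7_ok))) (M (nat_lit 366) (B (L (nat_lit 334) ln13_14_6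 ln13_14_6_ok) (L (nat_lit 398) ln13_15_6 ln13_15_6_ok))))))))) (B (M (nat_lit 365) (B (M (nat_lit 493) (B (M (nat_lit 364) (B (L (nat_lit 332) ln13_14_7 ln13_14_7_ok) (L (nat_lit 396) ln13_15_7 ln13_15_7_ok))) (M (nat_lit 366) (B (L (nat_lit 334) ln13_14_6 ln13_14_6_ok) (L (nat_lit 398) ln13_15_6 ln13_15_6_ok))))) (B (M (nat_lit 493) (B (M (nat_lit 366) (B (L (nat_lit 334) ln13_14_6 ln13_14_6_ok) (L (nat_lit 398) ln13_15_6 ln13_15_6_ok))) (M (nat_lit 494) (B (L (nat_lit 462) ln13_11_4 ln13_11_4_ok) (L (nat_lit 526) ln13_12_4 ln13_12_4_ok))))) (B (M (nat_lit 493) (B (M (nat_lit 364) (B (L (nat_lit 332) ln13_14_7 ln13_14_7_ok) (L (nat_lit 396) ln13_15_7 ln13_15_7_ok))) (M (nat_lit 494) (B (L (nat_lit 462) ln13_11_4 ln13_11_4_ok) (L (nat_lit 526) ln13_12_4 ln13_12_4_ok))))) (M (nat_lit 333) (B (M (nat_lit 334) (B (L (nat_lit 302) ln13_13_6 ln13_13_6_ok) (L (nat_lit 366) ln13_14_6 ln13_14_6_ok))) (M (nat_lit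 462) (B (L (nat_lit 430) ln13_10_4 ln13_10_4_ok) (L (nat_lit 494) ln13_11_4 ln13_11_4_ok))))))))) (B (M (nat_lit 493) (B (M (nat_lit 525) (B (M (nat_lit 396) (B (L (nat_lit 364) ln13_15_7 ln13_15_7_ok) (L (nat_lit 428) ln13_16_7 ln13_16_7_ok))) (M (nat_lit 524) (B (L (nat_lit 492) ln13_12_5 ln13_12_5_ok) (L (nat_lit 556) ln13_13_5 ln13_13_5_ok))))) (B (M (nat_lit 525) (B (M (nat_lit 524) (B (L (nat_lit 492) ln13_12_5 ln13_12_5_ok) (L (nat_lit 556) ln13_13_5 ln13_13_5_ok))) (M (nat_lit 526) (B (L (nat_lit 494) ln13_12_4 ln13_12_4_ok) (L (nat_lit 558) ln13_13_4 ln13_13_4_ok))))) (B (M (nat_lit 525) (B (M (nat_lit 396) (B (L (nat_lit 364) ln13_15_7 ln13_15_7_ok) (L (nat_lit 428) ln13_16_7 ln13_16_7_ok))) (M (nat_lit 526) (B (L (nat_lit 494) ln13_12_4 ln13_12_4_ok) (L (nat_lit 558) ln13_13_4 ln13_13_4_ok))))) (M (nat_lit 365) (B (M (nat_lit 366) (B (L (nat_lit 334) ln13_14_6 ln13_14_6_ok) (L (nat_lit 398)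 ln13_15_6 ln13_15_6_ok))) (M (nat_lit 494) (B (L (nat_lit 462) ln13_11_4 ln13_11_4_ok) (L (nat_lit 526) ln13_12_4 ln13_12_4_ok))))))))) (B (M (nat_lit 493) (B (M (nat_lit 525) (B (M (nat_lit 396) (B (L (nat_lit 364) ln13_15_7 ln13_15_7_ok) (L (nat_lit 428) ln13_16_7 ln13_16_7_ok))) (M (nat_lit 524) (B (L (nat_lit 492) ln13_12_5 ln13_12_5_ok) (L (nat_lit 556) ln13_13_5 ln13_13_5_ok))))) (B (M (nat_lit 525) (B (M (nat_lit 398) (B (L (nat_lit 366) ln13_15_6 ln13_15_6_ok) (L (nat_lit 430) ln13_16_6 ln13_16_6_ok))) (M (nat_lit 526) (B (L (nat_lit 494) ln13_12_4 ln13_12_4_ok) (L (nat_lit 558) ln13_13_4 ln13_13_4_ok))))) (M (nat_lit 365) (B (M (nat_lit 364) (B (L (nat_lit 332) ln13_14_7 ln13_14_7_ok) (L (nat_lit 396) ln13_15_7 ln13_15_7_ok))) (M (nat_lit 494) (B (L (nat_lit 462) ln13_11_4 ln13_11_4_ok) (L (nat_lit 526) ln13_12_4 ln13_12_4_ok)))))))) (B (M (nat_lit 493) (B (M (nat_lit 525) (B (M (nat_lit 398)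 (B (L (nat_lit 366) ln13_15_6 ln13_15_6_ok) (L (nat_lit 430) ln13_16_6 ln13_16_6_ok))) (M (nat_lit 524) (B (L (nat_lit 492) ln13_12_5 ln13_12_5_ok) (L (nat_lit 556) ln13_13_5 ln13_13_5_ok))))) (B (M (nat_lit 525) (B (M (nat_lit 524) (B (L (nat_lit 492) ln13_12_5 ln13_12_5_ok) (L (nat_lit 556) ln13_13_5 ln13_13_5_ok))) (M (nat_lit 526) (B (L (nat_lit 494) ln13_12_4 ln13_12_4_ok) (L (nat_lit 558) ln13_13_4 ln13_13_4_ok))))) (B (M (nat_lit 525) (B (M (nat_lit 398) (B (L (nat_lit 366) ln13_15_6 ln13_15_6_ok) (L (nat_lit 430) ln13_16_6 ln13_16_6_ok))) (M (nat_lit 526) (B (L (nat_lit 494) ln13_12_4 ln13_12_4_ok) (L (nat_lit 558) ln13_13_4 ln13_13_4_ok))))) (M (nat_lit 365) (B (M (nat_lit 366) (B (L (nat_lit 334) ln13_14_6 ln13_14_6_ok) (L (nat_lit 398) ln13_15_6 ln13_15_6_ok))) (M (nat_lit 494) (B (L (nat_lit 462) ln13_11_4 ln13_11_4_ok) (L (nat_lit 526) ln13_12_4 ln13_12_4_ok))))))))) (B (K (nat_lit 5954262830815946494763249298768603811203561774969104571805089223376689777636098861358550851719243481454542035207245364041705138952691777536)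 (nat_lit 943490606534895625823378003938764286206461047388172582359504279893319258300549844687114333137317928378163832733098940536058534221435490795114384924405468193762524004352) (nat_lit 943490606534895625823378003938764286206461047388172582359504279893319258300549844687114333137317928378163832733098940536058534221435490795114384924405468193762524004352) c33_s3881) (B (M (nat_lit 493) (B (M (nat_lit 525) (B (M (nat_lit 396) (B (L (nat_lit 364) ln13_15_7 ln13_15_7_ok) (L (nat_lit 428) ln13_16_7 ln13_16_7_ok))) (M (nat_lit 524) (B (L (nat_lit 492) ln13_12_5 ln13_12_5_ok) (L (nat_lit 556) ln13_13_5 ln13_13_5_ok))))) (B (M (nat_lit 525) (B (M (nat_lit 524) (B (L (nat_lit 492) ln13_12_5 ln13_12_5_ok) (L (nat_lit 556) ln13_13_5 ln13_13_5_ok))) (M (nat_lit 526) (B (L (nat_lit 494) ln13_12_4 ln13_12_4_ok) (L (nat_lit 558) ln13_13_4 ln13_13_4_ok))))) (B (M (nat_lit 525) (B (M (nat_lit 396) (B (L (nat_lit 364)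 ln13_15_7 ln13_15_7_ok) (L (nat_lit 428) ln13_16_7 ln13_16_7_ok))) (M (nat_lit 526) (B (L (nat_lit 494) ln13_12_4 ln13_12_4_ok) (L (nat_lit 558) ln13_13_4 ln13_13_4_ok))))) (M (nat_lit 365) (B (M (nat_lit 364) (B (L (nat_lit 332) ln13_14_7 ln13_14_7_ok) (L (nat_lit 396) ln13_15_7 ln13_15_7_ok))) (M (nat_lit 494) (B (L (nat_lit 462) ln13_11_4 ln13_11_4_ok) (L (nat_lit 526) ln13_12_4 ln13_12_4_ok))))))))) (B (M (nat_lit 365) (B (M (nat_lit 333) (B (M (nat_lit 332) (B (L (nat_lit 300) ln13_13_7 ln13_13_7_ok) (L (nat_lit 364) ln13_14_7 ln13_14_7_ok))) (M (nat_lit 462) (B (L (nat_lit 430) ln13_10_4 ln13_10_4_ok) (L (nat_lit 494) ln13_11_4 ln13_11_4_ok))))) (B (M (nat_lit 333) (B (M (nat_lit 334) (B (L (nat_lit 302) ln13_13_6 ln13_13_6_ok) (L (nat_lit 366) ln13_14_6 ln13_14_6_ok))) (M (nat_lit 462) (B (L (nat_lit 430) ln13_10_4 ln13_10_4_ok) (L (nat_lit 494) ln13_11_4 ln13_11_4_ok))))) (M (nat_lit 364) (B (L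 (nat_lit 332) ln13_14_7 ln13_14_7_ok) (M (nat_lit 366) (B (L (nat_lit 334) ln13_14_6 ln13_14_6_ok) (M (nat_lit 363) (B (M (nat_lit 398) (B (L (nat_lit 362) ln10_11_0 ln10_11_0_ok) (L (nat_lit 399) ln11_11_0 ln11_11_0_ok))) (B (M (nat_lit 367) (B (M (nat_lit 395) (B (L (nat_lit 394) ln14_11_1 ln14_11_1_ok) (L (nat_lit 396) ln15_11_1 ln15_11_1_ok))) (M (nat_lit 399) (B (L (nat_lit 398) ln11_11_0 ln11_11_0_ok) (L (nat_lit 400) ln12_11_0 ln12_11_0_ok))))) (M (nat_lit 362) (B (M (nat_lit 330) (B (L (nat_lit 329) ln13_11_3 ln13_11_3_ok) (L (nat_lit 331) ln14_11_3 ln14_11_3_ok))) (M (nat_lit 394) (B (L (nat_lit 393) ln13_11_1 ln13_11_1_ok) (L (nat_lit 395) ln14_11_1 ln14_11_1_ok))))))))))))))) (M (nat_lit 493) (B (M (nat_lit 525) (B (M (nat_lit 398) (B (L (nat_lit 366) ln13_15_6 ln13_15_6_ok) (L (nat_lit 430) ln13_16_6 ln13_16_6_ok))) (M (nat_lit 524) (B (L (nat_lit 492) ln13_12_5 ln13_12_5_ok) (L (nat_lit 556)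 ln13_13_5 ln13_13_5_ok))))) (B (M (nat_lit 525) (B (M (nat_lit 396) (B (L (nat_lit 364) ln13_15_7 ln13_15_7_ok) (L (nat_lit 428) ln13_16_7 ln13_16_7_ok))) (M (nat_lit 524) (B (L (nat_lit 492) ln13_12_5 ln13_12_5_ok) (L (nat_lit 556) ln13_13_5 ln13_13_5_ok))))) (B (M (nat_lit 525) (B (M (nat_lit 396) (B (L (nat_lit 364) ln13_15_7 ln13_15_7_ok) (L (nat_lit 428) ln13_16_7 ln13_16_7_ok))) (M (nat_lit 398) (B (L (nat_lit 366) ln13_15_6 ln13_15_6_ok) (L (nat_lit 430) ln13_16_6 ln13_16_6_ok))))) (M (nat_lit 365) (B (M (nat_lit 364) (B (L (nat_lit 332) ln13_14_7 ln13_14_7_ok) (L (nat_lit 396) ln13_15_7 ln13_15_7_ok))) (M (nat_lit 366) (B (L (nat_lit 334) ln13_14_6 ln13_14_6_ok) (L (nat_lit 398) ln13_15_6 ln13_15_6_ok)))))))))))))))))) (nat_lit 1386334847383188664550070665778531748218595021979121511688892729411143073470393764272092352380775458208712834410189682411080515584) (nat_lit 1179363258141160341632306725050343390949447626597748756452413181698487890952872870512277671042165582395445500984693464773293080744807773531026692480770991102622754144256)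 (nat_lit 1179363258141160341632306725050343390949447626597748756452413181698487890952872870512277671042165582395445500984693464773293080744807773531026692480770991102622754144256) (by decide +kernel)
noncomputable def c33_n3927 : Cert := (M (nat_lit 430) (B (M (nat_lit 395) (B (L (nat_lit 394) ln10_12_0 ln10_12_0_ok) (M (nat_lit 431) (B (L (nat_lit 398) ln11_12_0 ln11_12_0_ok) (L (nat_lit 432) ln16_13_3 ln16_13_3_ok))))) (B (M (nat_lit 431) (B (L (nat_lit 432) ln16_13_3 ln16_13_3_ok) (M (nat_lit 395) (B (L (nat_lit 398) ln11_12_0 ln11_12_0_ok) (L (nat_lit 428) ln15_13_3 ln15_13_3_ok))))) (B (M (nat_lit 431) (B (L (nat_lit 432) ln16_13_3 ln16_13_3_ok) (M (nat_lit 428) (B (M (nat_lit 460) (B (L (nat_lit 459) ln15_13_1 ln15_13_1_ok) (M (nat_lit 365) (B (L (nat_lit 333) ln13_10_5 ln13_10_5_ok) (L (nat_lit 492) ln12_15_6 ln12_15_6_ok))))) (M (nat_lit 399) (B (L (nat_lit 400) ln12_13_2 ln12_13_2_ok) (M (nat_lit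 427) (B (L (nat_lit 398) ln15_12_1 ln15_12_1_ok) (M (nat_lit 463) (B (L (nat_lit 462) ln11_13_0 ln11_13_0_ok) (L (nat_lit 464) ln12_13_0 ln12_13_0_ok))))))))))) (B (M (nat_lit 431) (B (L (nat_lit 432) ln16_13_3 ln16_13_3_ok) (M (nat_lit 395) (B (L (nat_lit 394) ln10_12_0 ln10_12_0_ok) (L (nat_lit 428) ln15_13_3 ln15_13_3_ok))))) (M (nat_lit 398) (B (M (nat_lit 395) (B (L (nat_lit 394) ln10_12_0 ln10_12_0_ok) (M (nat_lit 399) (B (M (nat_lit 363) (B (L (nat_lit 362) ln14_12_3 ln14_12_3_ok) (L (nat_lit 364) ln15_12_3 ln15_12_3_ok))) (M (nat_lit 427) (B (L (nat_lit 426) ln14_12_1 ln14_12_1_ok) (L (nat_lit 428) ln15_12_1 ln15_12_1_ok))))))) (B (M (nat_lit 395) (B (L (nat_lit 394) ln10_12_0 ln10_12_0_ok) (M (nat_lit 399) (B (M (nat_lit 367) (B (L (nat_lit 366) ln11_12_2 ln11_12_2_ok) (L (nat_lit 368) ln12_12_2 ln12_12_2_ok))) (M (nat_lit 427) (B (L (nat_lit 426) ln14_12_1 ln14_12_1_ok) (L (nat_lit 428) ln15_12_1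 ln15_12_1_ok))))))) (B (M (nat_lit 399) (B (M (nat_lit 428) (B (L (nat_lit 427) ln15_12_1 ln15_12_1_ok) (L (nat_lit 400) ln16_12_1 ln16_12_1_ok))) (M (nat_lit 395) (B (M (nat_lit 363) (B (L (nat_lit 362) ln14_12_3 ln14_12_3_ok) (L (nat_lit 364) ln15_12_3 ln15_12_3_ok))) (M (nat_lit 367) (B (L (nat_lit 366) ln11_12_2 ln11_12_2_ok) (L (nat_lit 368) ln12_12_2 ln12_12_2_ok))))))) (B (M (nat_lit 428) (B (M (nat_lit 399) (B (L (nat_lit 427) ln15_12_1 ln15_12_1_ok) (L (nat_lit 400) ln16_12_1 ln16_12_1_ok))) (B (M (nat_lit 462) (B (M (nat_lit 365) (B (L (nat_lit 333) ln13_10_4 ln13_10_4_ok) (L (nat_lit 494) ln14_15_7 ln14_15_7_ok))) (M (nat_lit 427) (B (L (nat_lit 426) ln10_13_2 ln10_13_2_ok) (L (nat_lit 463) ln11_13_0 ln11_13_0_ok))))) (M (nat_lit 364) (B (M (nat_lit 399) (B (L (nat_lit 363) ln15_12_3 ln15_12_3_ok) (L (nat_lit 400) ln16_12_1 ln16_12_1_ok))) (M (nat_lit 333) (B (M (nat_lit 332) (B (L (nat_lit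 300) ln12_9_4 ln12_9_4_ok) (L (nat_lit 301) ln12_13_6 ln12_13_6_ok))) (B (M (nat_lit 301) (B (L (nat_lit 332) ln12_13_6 ln12_13_6_ok) (L (nat_lit 365) ln13_9_5 ln13_9_5_ok))) (M (nat_lit 365) (B (L (nat_lit 460) ln12_14_6 ln12_14_6_ok) (L (nat_lit 462) ln13_10_4 ln13_10_4_ok))))))))))) (B (M (nat_lit 395) (B (L (nat_lit 394) ln10_12_0 ln10_12_0_ok) (M (nat_lit 462) (B (M (nat_lit 494) (B (L (nat_lit 365) ln14_15_7 ln14_15_7_ok) (L (nat_lit 526) ln14_16_7 ln14_16_7_ok))) (M (nat_lit 463) (B (M (nat_lit 366) (B (L (nat_lit 367) ln11_12_2 ln11_12_2_ok) (L (nat_lit 495) ln14_11_4 ln14_11_4_ok))) (M (nat_lit 427) (B (L (nat_lit 426) ln14_12_1 ln14_12_1_ok) (L (nat_lit 428) ln11_13_0 ln11_13_0_ok))))))))) (M (nat_lit 395) (B (L (nat_lit 394) ln10_12_0 ln10_12_0_ok) (M (nat_lit 399) (B (M (nat_lit 363) (B (L (nat_lit 362) ln14_12_3 ln14_12_3_ok) (L (nat_lit 364) ln15_12_3 ln15_12_3_ok))) (M (nat_lit 367) (B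 (L (nat_lit 366) ln11_12_2 ln11_12_2_ok) (L (nat_lit 368) ln12_12_2 ln12_12_2_ok))))))))))))))))))
noncomputable def c33_n3949 : Cert := (M (nat_lit 430) (B (M (nat_lit 431) (B (L (nat_lit 432) ln16_13_3 ln16_13_3_ok) (M (nat_lit 395) (B (L (nat_lit 394) ln10_12_0 ln10_12_0_ok) (L (nat_lit 428) ln15_13_3 ln15_13_3_ok))))) (B (M (nat_lit 431) (B (L (nat_lit 432) ln16_13_3 ln16_13_3_ok) (M (nat_lit 395) (B (L (nat_lit 398) ln11_12_0 ln11_12_0_ok) (L (nat_lit 428) ln15_13_3 ln15_13_3_ok))))) (B (M (nat_lit 431) (B (L (nat_lit 432) ln16_13_3 ln16_13_3_ok) (M (nat_lit 428) (B (M (nat_lit 460) (B (L (nat_lit 459) ln15_13_1 ln15_13_1_ok) (M (nat_lit 365) (B (L (nat_lit 333) ln13_10_5 ln13_10_5_ok) (L (nat_lit 492) ln12_15_6 ln12_15_6_ok))))) (M (nat_lit 399) (B (L (nat_lit 400) ln12_13_2 ln12_13_2_ok) (M (nat_lit 427) (B (L (nat_lit 398) ln15_12_1 ln15_12_1_ok) (M (nat_lit 463) (B (L (nat_lit 462) ln11_13_0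 ln11_13_0_ok) (L (nat_lit 464) ln12_13_0 ln12_13_0_ok))))))))))) (B (M (nat_lit 395) (B (L (nat_lit 394) ln10_12_0 ln10_12_0_ok) (M (nat_lit 431) (B (L (nat_lit 398) ln11_12_0 ln11_12_0_ok) (L (nat_lit 432) ln16_13_3 ln16_13_3_ok))))) (M (nat_lit 398) (B (M (nat_lit 395) (B (L (nat_lit 394) ln10_12_0 ln10_12_0_ok) (M (nat_lit 399) (B (M (nat_lit 363) (B (L (nat_lit 362) ln14_12_3 ln14_12_3_ok) (L (nat_lit 364) ln15_12_3 ln15_12_3_ok))) (M (nat_lit 427) (B (L (nat_lit 426) ln14_12_1 ln14_12_1_ok) (L (nat_lit 428) ln15_12_1 ln15_12_1_ok))))))) (B (M (nat_lit 428) (B (M (nat_lit 399) (B (L (nat_lit 427) ln15_12_1 ln15_12_1_ok) (L (nat_lit 400) ln16_12_1 ln16_12_1_ok))) (B (M (nat_lit 462) (B (M (nat_lit 365) (B (L (nat_lit 333) ln13_10_4 ln13_10_4_ok) (L (nat_lit 494) ln14_15_7 ln14_15_7_ok))) (M (nat_lit 427) (B (L (nat_lit 426) ln10_13_2 ln10_13_2_ok) (L (nat_lit 463) ln11_13_0 ln11_13_0_ok))))) (M (nat_lit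 367) (B (M (nat_lit 395) (B (L (nat_lit 366) ln11_12_2 ln11_12_2_ok) (L (nat_lit 394) ln10_12_0 ln10_12_0_ok))) (M (nat_lit 399) (B (L (nat_lit 368) ln12_12_2 ln12_12_2_ok) (L (nat_lit 400) ln16_12_1 ln16_12_1_ok)))))))) (B (M (nat_lit 399) (B (M (nat_lit 428) (B (L (nat_lit 427) ln15_12_1 ln15_12_1_ok) (L (nat_lit 400) ln16_12_1 ln16_12_1_ok))) (M (nat_lit 395) (B (M (nat_lit 363) (B (L (nat_lit 362) ln14_12_3 ln14_12_3_ok) (L (nat_lit 364) ln15_12_3 ln15_12_3_ok))) (M (nat_lit 367) (B (L (nat_lit 366) ln11_12_2 ln11_12_2_ok) (L (nat_lit 368) ln12_12_2 ln12_12_2_ok))))))) (B (M (nat_lit 462) (B (M (nat_lit 365) (B (L (nat_lit 333) ln13_10_4 ln13_10_4_ok) (L (nat_lit 494) ln14_15_7 ln14_15_7_ok))) (B (M (nat_lit 399) (B (M (nat_lit 367) (B (L (nat_lit 368) ln12_12_2 ln12_12_2_ok) (L (nat_lit 494) ln14_15_6 ln14_15_6_ok))) (M (nat_lit 428) (B (L (nat_lit 427) ln15_12_1 ln15_12_1_ok) (L (nat_lit 400) ln16_12_1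 ln16_12_1_ok))))) (M (nat_lit 399) (B (M (nat_lit 428) (B (L (nat_lit 427) ln15_12_1 ln15_12_1_ok) (L (nat_lit 400) ln16_12_1 ln16_12_1_ok))) (M (nat_lit 367) (B (L (nat_lit 368) ln12_12_2 ln12_12_2_ok) (M (nat_lit 335) (B (L (nat_lit 303) ln15_9_5 ln15_9_5_ok) (L (nat_lit 366) ln14_14_6 ln14_14_6_ok)))))))))) (B (M (nat_lit 395) (B (L (nat_lit 394) ln10_12_0 ln10_12_0_ok) (M (nat_lit 462) (B (M (nat_lit 494) (B (L (nat_lit 365) ln14_15_7 ln14_15_7_ok) (L (nat_lit 526) ln14_16_7 ln14_16_7_ok))) (M (nat_lit 463) (B (M (nat_lit 366) (B (L (nat_lit 367) ln11_12_2 ln11_12_2_ok) (L (nat_lit 495) ln14_11_4 ln14_11_4_ok))) (M (nat_lit 427) (B (L (nat_lit 426) ln14_12_1 ln14_12_1_ok) (L (nat_lit 428) ln11_13_0 ln11_13_0_ok))))))))) (M (nat_lit 395) (B (L (nat_lit 394) ln10_12_0 ln10_12_0_ok) (M (nat_lit 399) (B (M (nat_lit 363) (B (L (nat_lit 362) ln14_12_3 ln14_12_3_ok) (L (nat_lit 364) ln15_12_3 ln15_12_3_ok)))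 (M (nat_lit 367) (B (L (nat_lit 366) ln11_12_2 ln11_12_2_ok) (L (nat_lit 368) ln12_12_2 ln12_12_2_ok))))))))))))))))))
noncomputable def c33_n3968 : Cert := (M (nat_lit 430) (B (M (nat_lit 395) (B (L (nat_lit 394) ln10_12_0 ln10_12_0_ok) (M (nat_lit 431) (B (L (nat_lit 398) ln11_12_0 ln11_12_0_ok) (L (nat_lit 432) ln16_13_3 ln16_13_3_ok))))) (B (M (nat_lit 431) (B (L (nat_lit 432) ln16_13_3 ln16_13_3_ok) (M (nat_lit 395) (B (L (nat_lit 398) ln11_12_0 ln11_12_0_ok) (L (nat_lit 428) ln15_13_3 ln15_13_3_ok))))) (B (M (nat_lit 431) (B (L (nat_lit 432) ln16_13_3 ln16_13_3_ok) (M (nat_lit 428) (B (M (nat_lit 460) (B (L (nat_lit 459) ln15_13_1 ln15_13_1_ok) (M (nat_lit 492) (B (L (nat_lit 365) ln12_15_6 ln12_15_6_ok) (L (nat_lit 524) ln12_16_6 ln12_16_6_ok))))) (M (nat_lit 399) (B (L (nat_lit 400) ln12_13_2 ln12_13_2_ok) (M (nat_lit 427) (B (L (nat_lit 398) ln15_12_1 ln15_12_1_ok) (M (nat_lit 463) (B (L (nat_lit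 462) ln11_13_0 ln11_13_0_ok) (L (nat_lit 464) ln12_13_0 ln12_13_0_ok))))))))))) (B (M (nat_lit 431) (B (L (nat_lit 432) ln16_13_3 ln16_13_3_ok) (M (nat_lit 395) (B (L (nat_lit 394) ln10_12_0 ln10_12_0_ok) (L (nat_lit 428) ln15_13_3 ln15_13_3_ok))))) (M (nat_lit 398) (B (M (nat_lit 395) (B (L (nat_lit 394) ln10_12_0 ln10_12_0_ok) (M (nat_lit 399) (B (M (nat_lit 363) (B (L (nat_lit 362) ln14_12_3 ln14_12_3_ok) (L (nat_lit 364) ln15_12_3 ln15_12_3_ok))) (M (nat_lit 427) (B (L (nat_lit 426) ln14_12_1 ln14_12_1_ok) (L (nat_lit 428) ln15_12_1 ln15_12_1_ok))))))) (B (M (nat_lit 428) (B (M (nat_lit 399) (B (L (nat_lit 427) ln15_12_1 ln15_12_1_ok) (L (nat_lit 400) ln16_12_1 ln16_12_1_ok))) (B (M (nat_lit 462) (B (M (nat_lit 494) (B (L (nat_lit 365) ln14_15_7 ln14_15_7_ok) (L (nat_lit 526) ln14_16_7 ln14_16_7_ok))) (M (nat_lit 427) (B (L (nat_lit 426) ln10_13_2 ln10_13_2_ok) (L (nat_lit 463) ln11_13_0 ln11_13_0_ok)))))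 (M (nat_lit 367) (B (M (nat_lit 395) (B (L (nat_lit 366) ln11_12_2 ln11_12_2_ok) (L (nat_lit 394) ln10_12_0 ln10_12_0_ok))) (M (nat_lit 399) (B (L (nat_lit 368) ln12_12_2 ln12_12_2_ok) (L (nat_lit 400) ln16_12_1 ln16_12_1_ok)))))))) (B (M (nat_lit 399) (B (M (nat_lit 428) (B (L (nat_lit 427) ln15_12_1 ln15_12_1_ok) (L (nat_lit 400) ln16_12_1 ln16_12_1_ok))) (M (nat_lit 395) (B (M (nat_lit 363) (B (L (nat_lit 362) ln14_12_3 ln14_12_3_ok) (L (nat_lit 364) ln15_12_3 ln15_12_3_ok))) (M (nat_lit 367) (B (L (nat_lit 366) ln11_12_2 ln11_12_2_ok) (L (nat_lit 368) ln12_12_2 ln12_12_2_ok))))))) (B (M (nat_lit 462) (B (M (nat_lit 494) (B (L (nat_lit 365) ln14_15_7 ln14_15_7_ok) (L (nat_lit 526) ln14_16_7 ln14_16_7_ok))) (B (M (nat_lit 399) (B (M (nat_lit 367) (B (L (nat_lit 368) ln12_12_2 ln12_12_2_ok) (L (nat_lit 494) ln14_15_6 ln14_15_6_ok))) (M (nat_lit 428) (B (L (nat_lit 427) ln15_12_1 ln15_12_1_ok) (L (nat_lit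 400) ln16_12_1 ln16_12_1_ok))))) (M (nat_lit 399) (B (M (nat_lit 428) (B (L (nat_lit 427) ln15_12_1 ln15_12_1_ok) (L (nat_lit 400) ln16_12_1 ln16_12_1_ok))) (M (nat_lit 367) (B (L (nat_lit 368) ln12_12_2 ln12_12_2_ok) (M (nat_lit 335) (B (L (nat_lit 303) ln15_9_5 ln15_9_5_ok) (L (nat_lit 366) ln14_14_6 ln14_14_6_ok)))))))))) (B (M (nat_lit 395) (B (L (nat_lit 394) ln10_12_0 ln10_12_0_ok) (M (nat_lit 462) (B (M (nat_lit 494) (B (L (nat_lit 365) ln14_15_7 ln14_15_7_ok) (L (nat_lit 526) ln14_16_7 ln14_16_7_ok))) (M (nat_lit 463) (B (M (nat_lit 366) (B (L (nat_lit 367) ln11_12_2 ln11_12_2_ok) (L (nat_lit 495) ln14_11_4 ln14_11_4_ok))) (M (nat_lit 427) (B (L (nat_lit 426) ln14_12_1 ln14_12_1_ok) (L (nat_lit 428) ln11_13_0 ln11_13_0_ok))))))))) (M (nat_lit 395) (B (L (nat_lit 394) ln10_12_0 ln10_12_0_ok) (M (nat_lit 399) (B (M (nat_lit 363) (B (L (nat_lit 362) ln14_12_3 ln14_12_3_ok) (L (nat_lit 364) ln15_12_3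 ln15_12_3_ok))) (M (nat_lit 367) (B (L (nat_lit 366) ln11_12_2 ln11_12_2_ok) (L (nat_lit 368) ln12_12_2 ln12_12_2_ok))))))))))))))))))
noncomputable def c33_n3990 : Cert := (M (nat_lit 398) (B (M (nat_lit 395) (B (L (nat_lit 394) ln10_12_0 ln10_12_0_ok) (M (nat_lit 399) (B (M (nat_lit 367) (B (L (nat_lit 366) ln11_12_2 ln11_12_2_ok) (L (nat_lit 368) ln12_12_2 ln12_12_2_ok))) (M (nat_lit 427) (B (L (nat_lit 426) ln14_12_1 ln14_12_1_ok) (L (nat_lit 428) ln15_12_1 ln15_12_1_ok))))))) (B (M (nat_lit 427) (B (M (nat_lit 395) (B (L (nat_lit 394) ln10_12_0 ln10_12_0_ok) (L (nat_lit 426) ln14_12_1 ln14_12_1_ok))) (B (M (nat_lit 426) (B (L (nat_lit 395) ln14_12_1 ln14_12_1_ok) (L (nat_lit 428) ln10_13_2 ln10_13_2_ok))) (B (M (nat_lit 428) (B (L (nat_lit 399) ln15_12_1 ln15_12_1_ok) (L (nat_lit 426) ln10_13_2 ln10_13_2_ok))) (M (nat_lit 462) (B (M (nat_lit 365) (B (L (nat_lit 333) ln13_10_4 ln13_10_4_ok) (L (nat_lit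 494) ln14_15_7 ln14_15_7_ok))) (M (nat_lit 428) (B (L (nat_lit 399) ln15_12_1 ln15_12_1_ok) (L (nat_lit 463) ln11_13_0 ln11_13_0_ok))))))))) (B (M (nat_lit 399) (B (M (nat_lit 428) (B (L (nat_lit 427) ln15_12_1 ln15_12_1_ok) (L (nat_lit 400) ln16_12_1 ln16_12_1_ok))) (B (M (nat_lit 395) (B (M (nat_lit 367) (B (L (nat_lit 366) ln11_12_2 ln11_12_2_ok) (L (nat_lit 368) ln12_12_2 ln12_12_2_ok))) (M (nat_lit 427) (B (L (nat_lit 426) ln14_12_1 ln14_12_1_ok) (L (nat_lit 428) ln15_12_1 ln15_12_1_ok))))) (B (M (nat_lit 400) (B (L (nat_lit 428) ln16_12_1 ln16_12_1_ok) (L (nat_lit 401) ln17_12_1 ln17_12_1_ok))) (M (nat_lit 364) (B (L (nat_lit 363) ln15_12_3 ln15_12_3_ok) (M (nat_lit 400) (B (L (nat_lit 365) ln16_12_3 ln16_12_3_ok) (L (nat_lit 401) ln17_12_1 ln17_12_1_ok))))))))) (B (M (nat_lit 428) (B (M (nat_lit 399) (B (L (nat_lit 427) ln15_12_1 ln15_12_1_ok) (L (nat_lit 400) ln16_12_1 ln16_12_1_ok))) (B (M (nat_lit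 462) (B (M (nat_lit 365) (B (L (nat_lit 333) ln13_10_4 ln13_10_4_ok) (L (nat_lit 494) ln14_15_7 ln14_15_7_ok))) (M (nat_lit 427) (B (L (nat_lit 426) ln10_13_2 ln10_13_2_ok) (L (nat_lit 463) ln11_13_0 ln11_13_0_ok))))) (M (nat_lit 364) (B (M (nat_lit 399) (B (L (nat_lit 363) ln15_12_3 ln15_12_3_ok) (L (nat_lit 400) ln16_12_1 ln16_12_1_ok))) (M (nat_lit 333) (B (M (nat_lit 332) (B (L (nat_lit 300) ln12_9_4 ln12_9_4_ok) (L (nat_lit 301) ln12_13_6 ln12_13_6_ok))) (B (M (nat_lit 301) (B (L (nat_lit 332) ln12_13_6 ln12_13_6_ok) (L (nat_lit 365) ln13_9_5 ln13_9_5_ok))) (M (nat_lit 365) (B (L (nat_lit 460) ln12_14_6 ln12_14_6_ok) (L (nat_lit 462) ln13_10_4 ln13_10_4_ok))))))))))) (B (M (nat_lit 395) (B (L (nat_lit 394) ln10_12_0 ln10_12_0_ok) (M (nat_lit 462) (B (M (nat_lit 494) (B (L (nat_lit 365) ln14_15_7 ln14_15_7_ok) (L (nat_lit 526) ln14_16_7 ln14_16_7_ok))) (M (nat_lit 463) (B (M (nat_lit 366) (B (L (nat_lit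 367) ln11_12_2 ln11_12_2_ok) (L (nat_lit 495) ln14_11_4 ln14_11_4_ok))) (M (nat_lit 427) (B (L (nat_lit 426) ln14_12_1 ln14_12_1_ok) (L (nat_lit 428) ln11_13_0 ln11_13_0_ok))))))))) (B (M (nat_lit 395) (B (L (nat_lit 394) ln10_12_0 ln10_12_0_ok) (M (nat_lit 399) (B (M (nat_lit 367) (B (L (nat_lit 366) ln11_12_2 ln11_12_2_ok) (L (nat_lit 368) ln12_12_2 ln12_12_2_ok))) (M (nat_lit 400) (B (L (nat_lit 428) ln16_12_1 ln16_12_1_ok) (L (nat_lit 401) ln17_12_1 ln17_12_1_ok))))))) (M (nat_lit 399) (B (M (nat_lit 364) (B (L (nat_lit 363) ln15_12_3 ln15_12_3_ok) (M (nat_lit 400) (B (L (nat_lit 365) ln16_12_3 ln16_12_3_ok) (L (nat_lit 401) ln17_12_1 ln17_12_1_ok))))) (M (nat_lit 395) (B (L (nat_lit 394) ln10_12_0 ln10_12_0_ok) (M (nat_lit 367) (B (L (nat_lit 366) ln11_12_2 ln11_12_2_ok) (L (nat_lit 368) ln12_12_2 ln12_12_2_ok))))))))))))))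
noncomputable def c33_n3991 : Cert := (M (nat_lit 430) (B (M (nat_lit 431) (B (L (nat_lit 432) ln16_13_3 ln16_13_3_ok) (M (nat_lit 395) (B (L (nat_lit 394) ln10_12_0 ln10_12_0_ok) (L (nat_lit 428) ln15_13_3 ln15_13_3_ok))))) (B (M (nat_lit 431) (B (L (nat_lit 432) ln16_13_3 ln16_13_3_ok) (M (nat_lit 395) (B (L (nat_lit 398) ln11_12_0 ln11_12_0_ok) (L (nat_lit 428) ln15_13_3 ln15_13_3_ok))))) (B (M (nat_lit 431) (B (L (nat_lit 432) ln16_13_3 ln16_13_3_ok) (M (nat_lit 428) (B (M (nat_lit 460) (B (L (nat_lit 459) ln15_13_1 ln15_13_1_ok) (M (nat_lit 492) (B (L (nat_lit 365) ln12_15_6 ln12_15_6_ok) (L (nat_lit 524) ln12_16_6 ln12_16_6_ok))))) (M (nat_lit 399) (B (L (nat_lit 400) ln12_13_2 ln12_13_2_ok) (M (nat_lit 427) (B (L (nat_lit 398) ln15_12_1 ln15_12_1_ok) (M (nat_lit 463) (B (L (nat_lit 462) ln11_13_0 ln11_13_0_ok) (L (nat_lit 464) ln12_13_0 ln12_13_0_ok))))))))))) (B (M (nat_lit 395) (B (L (nat_lit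 394) ln10_12_0 ln10_12_0_ok) (M (nat_lit 431) (B (L (nat_lit 398) ln11_12_0 ln11_12_0_ok) (L (nat_lit 432) ln16_13_3 ln16_13_3_ok))))) c33_n3990)))))
noncomputable def c33_n4001 : Cert := (M (nat_lit 398) (B (M (nat_lit 395) (B (L (nat_lit 394) ln10_12_0 ln10_12_0_ok) (M (nat_lit 399) (B (M (nat_lit 367) (B (L (nat_lit 366) ln11_12_2 ln11_12_2_ok) (L (nat_lit 368) ln12_12_2 ln12_12_2_ok))) (M (nat_lit 427) (B (L (nat_lit 426) ln14_12_1 ln14_12_1_ok) (L (nat_lit 428) ln15_12_1 ln15_12_1_ok))))))) (B (M (nat_lit 427) (B (M (nat_lit 395) (B (L (nat_lit 394) ln10_12_0 ln10_12_0_ok) (L (nat_lit 426) ln14_12_1 ln14_12_1_ok))) (B (M (nat_lit 426) (B (L (nat_lit 395) ln14_12_1 ln14_12_1_ok) (L (nat_lit 428) ln10_13_2 ln10_13_2_ok))) (B (M (nat_lit 428) (B (L (nat_lit 399) ln15_12_1 ln15_12_1_ok) (L (nat_lit 426) ln10_13_2 ln10_13_2_ok))) (M (nat_lit 462) (B (M (nat_lit 365) (B (L (nat_lit 333) ln13_10_4 ln13_10_4_ok)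 (L (nat_lit 494) ln14_15_7 ln14_15_7_ok))) (M (nat_lit 428) (B (L (nat_lit 399) ln15_12_1 ln15_12_1_ok) (L (nat_lit 463) ln11_13_0 ln11_13_0_ok))))))))) (B (M (nat_lit 399) (B (M (nat_lit 428) (B (L (nat_lit 427) ln15_12_1 ln15_12_1_ok) (L (nat_lit 400) ln16_12_1 ln16_12_1_ok))) (B (M (nat_lit 395) (B (M (nat_lit 367) (B (L (nat_lit 366) ln11_12_2 ln11_12_2_ok) (L (nat_lit 368) ln12_12_2 ln12_12_2_ok))) (M (nat_lit 427) (B (L (nat_lit 426) ln14_12_1 ln14_12_1_ok) (L (nat_lit 428) ln15_12_1 ln15_12_1_ok))))) (B (M (nat_lit 400) (B (L (nat_lit 428) ln16_12_1 ln16_12_1_ok) (L (nat_lit 401) ln17_12_1 ln17_12_1_ok))) (M (nat_lit 365) (B (M (nat_lit 400) (B (L (nat_lit 364) ln16_12_3 ln16_12_3_ok) (L (nat_lit 401) ln17_12_1 ln17_12_1_ok))) (M (nat_lit 462) (B (L (nat_lit 333) ln13_10_4 ln13_10_4_ok) (L (nat_lit 494) ln14_15_7 ln14_15_7_ok))))))))) (B (M (nat_lit 462) (B (M (nat_lit 494) (B (L (nat_lit 365)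 ln14_15_7 ln14_15_7_ok) (L (nat_lit 526) ln14_16_7 ln14_16_7_ok))) (B (M (nat_lit 399) (B (M (nat_lit 367) (B (L (nat_lit 368) ln12_12_2 ln12_12_2_ok) (L (nat_lit 494) ln14_15_6 ln14_15_6_ok))) (M (nat_lit 428) (B (L (nat_lit 427) ln15_12_1 ln15_12_1_ok) (L (nat_lit 400) ln16_12_1 ln16_12_1_ok))))) (M (nat_lit 399) (B (M (nat_lit 428) (B (L (nat_lit 427) ln15_12_1 ln15_12_1_ok) (L (nat_lit 400) ln16_12_1 ln16_12_1_ok))) (M (nat_lit 367) (B (L (nat_lit 368) ln12_12_2 ln12_12_2_ok) (M (nat_lit 335) (B (L (nat_lit 303) ln15_9_5 ln15_9_5_ok) (L (nat_lit 366) ln14_14_6 ln14_14_6_ok)))))))))) (B (M (nat_lit 395) (B (L (nat_lit 394) ln10_12_0 ln10_12_0_ok) (M (nat_lit 462) (B (M (nat_lit 494) (B (L (nat_lit 365) ln14_15_7 ln14_15_7_ok) (L (nat_lit 526) ln14_16_7 ln14_16_7_ok))) (M (nat_lit 463) (B (M (nat_lit 366) (B (L (nat_lit 367) ln11_12_2 ln11_12_2_ok) (L (nat_lit 495) ln14_11_4 ln14_11_4_ok))) (M (nat_lit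 427) (B (L (nat_lit 426) ln14_12_1 ln14_12_1_ok) (L (nat_lit 428) ln11_13_0 ln11_13_0_ok))))))))) (B (M (nat_lit 395) (B (L (nat_lit 394) ln10_12_0 ln10_12_0_ok) (M (nat_lit 399) (B (M (nat_lit 367) (B (L (nat_lit 366) ln11_12_2 ln11_12_2_ok) (L (nat_lit 368) ln12_12_2 ln12_12_2_ok))) (M (nat_lit 400) (B (L (nat_lit 428) ln16_12_1 ln16_12_1_ok) (L (nat_lit 401) ln17_12_1 ln17_12_1_ok))))))) (M (nat_lit 399) (B (M (nat_lit 395) (B (L (nat_lit 394) ln10_12_0 ln10_12_0_ok) (M (nat_lit 367) (B (L (nat_lit 366) ln11_12_2 ln11_12_2_ok) (L (nat_lit 368) ln12_12_2 ln12_12_2_ok))))) (M (nat_lit 365) (B (M (nat_lit 400) (B (L (nat_lit 364) ln16_12_3 ln16_12_3_ok) (L (nat_lit 401) ln17_12_1 ln17_12_1_ok))) (M (nat_lit 462) (B (L (nat_lit 333) ln13_10_4 ln13_10_4_ok) (L (nat_lit 494) ln14_15_7 ln14_15_7_ok))))))))))))))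
noncomputable def c33_n4002 : Cert := (M (nat_lit 430) (B (M (nat_lit 395) (B (L (nat_lit 394) ln10_12_0 ln10_12_0_ok) (M (nat_lit 431) (B (L (nat_lit 398) ln11_12_0 ln11_12_0_ok) (L (nat_lit 432) ln16_13_3 ln16_13_3_ok))))) (B (M (nat_lit 431) (B (L (nat_lit 432) ln16_13_3 ln16_13_3_ok) (M (nat_lit 395) (B (L (nat_lit 398) ln11_12_0 ln11_12_0_ok) (L (nat_lit 428) ln15_13_3 ln15_13_3_ok))))) (B (M (nat_lit 431) (B (L (nat_lit 432) ln16_13_3 ln16_13_3_ok) (M (nat_lit 428) (B (M (nat_lit 460) (B (L (nat_lit 459) ln15_13_1 ln15_13_1_ok) (M (nat_lit 492) (B (L (nat_lit 365) ln12_15_6 ln12_15_6_ok) (L (nat_lit 524) ln12_16_6 ln12_16_6_ok))))) (M (nat_lit 399) (B (L (nat_lit 400) ln12_13_2 ln12_13_2_ok) (M (nat_lit 427) (B (L (nat_lit 398) ln15_12_1 ln15_12_1_ok) (M (nat_lit 463) (B (L (nat_lit 462) ln11_13_0 ln11_13_0_ok) (L (nat_lit 464) ln12_13_0 ln12_13_0_ok))))))))))) (B (M (nat_lit 431) (B (L (nat_lit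 432) ln16_13_3 ln16_13_3_ok) (M (nat_lit 395) (B (L (nat_lit 394) ln10_12_0 ln10_12_0_ok) (L (nat_lit 428) ln15_13_3 ln15_13_3_ok))))) c33_n4001)))))
noncomputable def c33_n4035 : Cert := (M (nat_lit 398) (B (M (nat_lit 395) (B (L (nat_lit 394) ln10_12_0 ln10_12_0_ok) (M (nat_lit 399) (B (M (nat_lit 367) (B (L (nat_lit 366) ln11_12_2 ln11_12_2_ok) (L (nat_lit 368) ln12_12_2 ln12_12_2_ok))) (M (nat_lit 427) (B (L (nat_lit 426) ln14_12_1 ln14_12_1_ok) (L (nat_lit 428) ln15_12_1 ln15_12_1_ok))))))) (B (M (nat_lit 427) (B (M (nat_lit 395) (B (L (nat_lit 394) ln10_12_0 ln10_12_0_ok) (L (nat_lit 426) ln14_12_1 ln14_12_1_ok))) (B (M (nat_lit 426) (B (L (nat_lit 395) ln14_12_1 ln14_12_1_ok) (L (nat_lit 428) ln10_13_2 ln10_13_2_ok))) (B (M (nat_lit 428) (B (L (nat_lit 399) ln15_12_1 ln15_12_1_ok) (L (nat_lit 426) ln10_13_2 ln10_13_2_ok))) (M (nat_lit 462) (B (M (nat_lit 365) (B (L (nat_lit 333) ln13_10_4 ln13_10_4_ok)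 (L (nat_lit 494) ln14_15_7 ln14_15_7_ok))) (M (nat_lit 428) (B (L (nat_lit 399) ln15_12_1 ln15_12_1_ok) (L (nat_lit 463) ln11_13_0 ln11_13_0_ok))))))))) (B (M (nat_lit 367) (B (M (nat_lit 399) (B (L (nat_lit 368) ln12_12_2 ln12_12_2_ok) (M (nat_lit 428) (B (L (nat_lit 427) ln15_12_1 ln15_12_1_ok) (L (nat_lit 400) ln16_12_1 ln16_12_1_ok))))) (B (M (nat_lit 462) (B (M (nat_lit 366) (B (L (nat_lit 335) ln14_14_6 ln14_14_6_ok) (L (nat_lit 395) ln11_12_2 ln11_12_2_ok))) (M (nat_lit 494) (B (L (nat_lit 399) ln14_15_6 ln14_15_6_ok) (L (nat_lit 526) ln14_16_7 ln14_16_7_ok))))) (M (nat_lit 365) (B (M (nat_lit 333) (B (L (nat_lit 301) ln13_9_4 ln13_9_4_ok) (L (nat_lit 462) ln13_10_4 ln13_10_4_ok))) (M (nat_lit 366) (B (L (nat_lit 368) ln16_11_1 ln16_11_1_ok) (L (nat_lit 395) ln11_12_2 ln11_12_2_ok)))))))) (B (M (nat_lit 462) (B (M (nat_lit 365) (B (L (nat_lit 333) ln13_10_4 ln13_10_4_ok) (L (nat_lit 494) ln14_15_7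 ln14_15_7_ok))) (B (M (nat_lit 494) (B (L (nat_lit 365) ln14_15_7 ln14_15_7_ok) (L (nat_lit 526) ln14_16_7 ln14_16_7_ok))) (B (M (nat_lit 399) (B (M (nat_lit 367) (B (L (nat_lit 368) ln12_12_2 ln12_12_2_ok) (L (nat_lit 494) ln14_15_6 ln14_15_6_ok))) (M (nat_lit 428) (B (L (nat_lit 427) ln15_12_1 ln15_12_1_ok) (L (nat_lit 400) ln16_12_1 ln16_12_1_ok))))) (M (nat_lit 399) (B (M (nat_lit 428) (B (L (nat_lit 427) ln15_12_1 ln15_12_1_ok) (L (nat_lit 400) ln16_12_1 ln16_12_1_ok))) (M (nat_lit 367) (B (L (nat_lit 368) ln12_12_2 ln12_12_2_ok) (M (nat_lit 335) (B (L (nat_lit 303) ln15_9_5 ln15_9_5_ok) (L (nat_lit 366) ln14_14_6 ln14_14_6_ok))))))))))) (B (M (nat_lit 395) (B (L (nat_lit 394) ln10_12_0 ln10_12_0_ok) (M (nat_lit 462) (B (M (nat_lit 494) (B (L (nat_lit 365) ln14_15_7 ln14_15_7_ok) (L (nat_lit 526) ln14_16_7 ln14_16_7_ok))) (M (nat_lit 463) (B (M (nat_lit 366) (B (L (nat_lit 367) ln11_12_2 ln11_12_2_ok)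 (L (nat_lit 495) ln14_11_4 ln14_11_4_ok))) (M (nat_lit 427) (B (L (nat_lit 426) ln14_12_1 ln14_12_1_ok) (L (nat_lit 428) ln11_13_0 ln11_13_0_ok))))))))) (M (nat_lit 462) (B (M (nat_lit 365) (B (L (nat_lit 333) ln13_10_4 ln13_10_4_ok) (L (nat_lit 494) ln14_15_7 ln14_15_7_ok))) (B (M (nat_lit 494) (B (L (nat_lit 365) ln14_15_7 ln14_15_7_ok) (L (nat_lit 526) ln14_16_7 ln14_16_7_ok))) (B (M (nat_lit 367) (B (M (nat_lit 366) (B (L (nat_lit 335) ln14_14_6 ln14_14_6_ok) (L (nat_lit 395) ln11_12_2 ln11_12_2_ok))) (M (nat_lit 494) (B (L (nat_lit 399) ln14_15_6 ln14_15_6_ok) (L (nat_lit 526) ln14_16_7 ln14_16_7_ok))))) (M (nat_lit 333) (B (L (nat_lit 365) ln13_10_4 ln13_10_4_ok) (M (nat_lit 366) (B (M (nat_lit 334) (B (L (nat_lit 301) ln14_13_7 ln14_13_7_ok) (L (nat_lit 302) ln14_9_5 ln14_9_5_ok))) (M (nat_lit 395) (B (L (nat_lit 367) ln11_12_2 ln11_12_2_ok) (L (nat_lit 394) ln10_12_0 ln10_12_0_ok)))))))))))))))))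
noncomputable def c33_n4036 : Cert := (M (nat_lit 430) (B (M (nat_lit 431) (B (L (nat_lit 432) ln16_13_3 ln16_13_3_ok) (M (nat_lit 395) (B (L (nat_lit 394) ln10_12_0 ln10_12_0_ok) (L (nat_lit 428) ln15_13_3 ln15_13_3_ok))))) (B (M (nat_lit 431) (B (L (nat_lit 432) ln16_13_3 ln16_13_3_ok) (M (nat_lit 395) (B (L (nat_lit 398) ln11_12_0 ln11_12_0_ok) (L (nat_lit 428) ln15_13_3 ln15_13_3_ok))))) (B (M (nat_lit 431) (B (L (nat_lit 432) ln16_13_3 ln16_13_3_ok) (M (nat_lit 428) (B (M (nat_lit 460) (B (L (nat_lit 459) ln15_13_1 ln15_13_1_ok) (M (nat_lit 492) (B (L (nat_lit 365) ln12_15_6 ln12_15_6_ok) (L (nat_lit 524) ln12_16_6 ln12_16_6_ok))))) (M (nat_lit 399) (B (L (nat_lit 400) ln12_13_2 ln12_13_2_ok) (M (nat_lit 427) (B (L (nat_lit 398) ln15_12_1 ln15_12_1_ok) (M (nat_lit 463) (B (L (nat_lit 462) ln11_13_0 ln11_13_0_ok) (L (nat_lit 464) ln12_13_0 ln12_13_0_ok))))))))))) (B (M (nat_lit 395) (B (L (nat_lit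 394) ln10_12_0 ln10_12_0_ok) (M (nat_lit 431) (B (L (nat_lit 398) ln11_12_0 ln11_12_0_ok) (L (nat_lit 432) ln16_13_3 ln16_13_3_ok))))) c33_n4035)))))
noncomputable def c33_n4048 : Cert := (M (nat_lit 427) (B (M (nat_lit 395) (B (L (nat_lit 394) ln10_12_0 ln10_12_0_ok) (M (nat_lit 426) (B (L (nat_lit 398) ln14_12_1 ln14_12_1_ok) (M (nat_lit 425) (B (L (nat_lit 424) ln8_13_2 ln8_13_2_ok) (L (nat_lit 428) ln9_13_2 ln9_13_2_ok))))))) (B (M (nat_lit 428) (B (M (nat_lit 398) (B (L (nat_lit 399) ln15_12_1 ln15_12_1_ok) (L (nat_lit 426) ln10_13_2 ln10_13_2_ok))) (B (M (nat_lit 426) (B (L (nat_lit 425) ln9_13_2 ln9_13_2_ok) (M (nat_lit 458) (B (L (nat_lit 457) ln13_13_1 ln13_13_1_ok) (L (nat_lit 459) ln14_13_1 ln14_13_1_ok))))) (M (nat_lit 459) (B (L (nat_lit 458) ln14_13_1 ln14_13_1_ok) (M (nat_lit 364) (B (L (nat_lit 332) ln12_10_5 ln12_10_5_ok) (M (nat_lit 491) (B (L (nat_lit 460) ln12_11_5 ln12_11_5_ok) (L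 (nat_lit 523) ln11_16_6 ln11_16_6_ok)))))))))) (B (M (nat_lit 428) (B (M (nat_lit 426) (B (L (nat_lit 425) ln9_13_2 ln9_13_2_ok) (M (nat_lit 394) (B (L (nat_lit 393) ln13_13_3 ln13_13_3_ok) (L (nat_lit 395) ln10_12_0 ln10_12_0_ok))))) (B (M (nat_lit 426) (B (L (nat_lit 425) ln9_13_2 ln9_13_2_ok) (M (nat_lit 458) (B (L (nat_lit 457) ln13_13_1 ln13_13_1_ok) (L (nat_lit 459) ln14_13_1 ln14_13_1_ok))))) (B (M (nat_lit 426) (B (M (nat_lit 394) (B (L (nat_lit 393) ln13_13_3 ln13_13_3_ok) (L (nat_lit 395) ln10_12_0 ln10_12_0_ok))) (M (nat_lit 458) (B (L (nat_lit 457) ln13_13_1 ln13_13_1_ok) (L (nat_lit 459) ln14_13_1 ln14_13_1_ok))))) (M (nat_lit 395) (B (L (nat_lit 394) ln10_12_0 ln10_12_0_ok) (M (nat_lit 459) (B (L (nat_lit 458) ln14_13_1 ln14_13_1_ok) (M (nat_lit 491) (B (L (nat_lit 364) ln11_15_6 ln11_15_6_ok) (L (nat_lit 523) ln11_16_6 ln11_16_6_ok))))))))))) (B (M (nat_lit 395) (B (L (nat_lit 394) ln10_12_0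 ln10_12_0_ok) (M (nat_lit 398) (B (L (nat_lit 426) ln14_12_1 ln14_12_1_ok) (M (nat_lit 399) (B (L (nat_lit 428) ln15_12_1 ln15_12_1_ok) (M (nat_lit 363) (B (L (nat_lit 362) ln14_12_3 ln14_12_3_ok) (L (nat_lit 364) ln15_12_3 ln15_12_3_ok))))))))) (B (M (nat_lit 428) (B (M (nat_lit 395) (B (L (nat_lit 394) ln10_12_0 ln10_12_0_ok) (M (nat_lit 459) (B (L (nat_lit 458) ln14_13_1 ln14_13_1_ok) (M (nat_lit 364) (B (L (nat_lit 332) ln12_10_5 ln12_10_5_ok) (L (nat_lit 491) ln11_15_6 ln11_15_6_ok))))))) (B (M (nat_lit 395) (B (L (nat_lit 394) ln10_12_0 ln10_12_0_ok) (M (nat_lit 459) (B (L (nat_lit 458) ln14_13_1 ln14_13_1_ok) (M (nat_lit 491) (B (L (nat_lit 364) ln11_15_6 ln11_15_6_ok) (L (nat_lit 523) ln11_16_6 ln11_16_6_ok))))))) (B (M (nat_lit 395) (B (L (nat_lit 394) ln10_12_0 ln10_12_0_ok) (M (nat_lit 363) (B (M (nat_lit 331) (B (L (nat_lit 299) ln11_9_4 ln11_9_4_ok) (L (nat_lit 460) ln11_10_4 ln11_10_4_ok)))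 (M (nat_lit 398) (B (L (nat_lit 362) ln14_12_3 ln14_12_3_ok) (L (nat_lit 399) ln15_12_1 ln15_12_1_ok))))))) (M (nat_lit 459) (B (L (nat_lit 458) ln14_13_1 ln14_13_1_ok) (M (nat_lit 364) (B (L (nat_lit 332) ln12_10_5 ln12_10_5_ok) (M (nat_lit 491) (B (L (nat_lit 460) ln12_11_5 ln12_11_5_ok) (L (nat_lit 523) ln11_16_6 ln11_16_6_ok))))))))))) (M (nat_lit 395) (B (L (nat_lit 394) ln10_12_0 ln10_12_0_ok) (M (nat_lit 398) (B (L (nat_lit 426) ln14_12_1 ln14_12_1_ok) (M (nat_lit 399) (B (M (nat_lit 363) (B (L (nat_lit 362) ln14_12_3 ln14_12_3_ok) (L (nat_lit 364) ln15_12_3 ln15_12_3_ok))) (M (nat_lit 367) (B (L (nat_lit 366) ln11_12_2 ln11_12_2_ok) (L (nat_lit 368) ln12_12_2 ln12_12_2_ok)))))))))))))))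
theorem c33_s4049 : Sem (nat_lit 1386334847544579281930502452632026696468783264124728123740719198963059283254184240648144927045128292788721448874933630659377233920) (nat_lit 27459190800355964725048206500601232321954158205179437631006488248755939325914085454253845511120164757876274601629661061004938170739612180478599287248525459456) (nat_lit 27459190800355964725048206500601232321954158205179437631006488248755939325914085454253845511120164757876274601629661061004938170739612180478599287248525459456) :=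
  sem_of_chk (M (nat_lit 430) (B (M (nat_lit 395) (B (L (nat_lit 394) ln10_12_0 ln10_12_0_ok) (M (nat_lit 431) (B (L (nat_lit 398) ln11_12_0 ln11_12_0_ok) (L (nat_lit 432) ln16_13_3 ln16_13_3_ok))))) (B (M (nat_lit 431) (B (L (nat_lit 432) ln16_13_3 ln16_13_3_ok) (M (nat_lit 395) (B (L (nat_lit 398) ln11_12_0 ln11_12_0_ok) (L (nat_lit 428) ln15_13_3 ln15_13_3_ok))))) (B (M (nat_lit 399) (B (M (nat_lit 431) (B (L (nat_lit 432) ln16_13_3 ln16_13_3_ok) (M (nat_lit 400) (B (L (nat_lit 428) ln12_13_2 ln12_13_2_ok) (M (nat_lit 398) (B (L (nat_lit 401) ln17_12_1 ln17_12_1_ok) (M (nat_lit 368) (B (L (nat_lit 367) ln12_12_2 ln12_12_2_ok) (L (nat_lit 369) ln13_12_2 ln13_12_2_ok))))))))) (B (M (nat_lit 400) (B (M (nat_lit 398) (B (L (nat_lit 428) ln16_12_1 ln16_12_1_ok) (L (nat_lit 401) ln17_12_1 ln17_12_1_ok))) (B (M (nat_lit 431) (B (L (nat_lit 432) ln16_13_3 ln16_13_3_ok) (L (nat_lit 428) ln12_13_2 ln12_13_2_ok)))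 (M (nat_lit 398) (B (L (nat_lit 401) ln17_12_1 ln17_12_1_ok) (M (nat_lit 432) (B (L (nat_lit 431) ln12_12_0 ln12_12_0_ok) (L (nat_lit 433) ln13_12_0 ln13_12_0_ok)))))))) (B (M (nat_lit 431) (B (L (nat_lit 432) ln16_13_3 ln16_13_3_ok) (M (nat_lit 428) (B (L (nat_lit 400) ln12_13_2 ln12_13_2_ok) (M (nat_lit 427) (B (M (nat_lit 459) (B (L (nat_lit 458) ln14_13_1 ln14_13_1_ok) (L (nat_lit 460) ln15_13_1 ln15_13_1_ok))) (M (nat_lit 463) (B (L (nat_lit 462) ln11_13_0 ln11_13_0_ok) (L (nat_lit 464) ln12_13_0 ln12_13_0_ok))))))))) (B (M (nat_lit 431) (B (L (nat_lit 432) ln16_13_3 ln16_13_3_ok) (M (nat_lit 398) (B (M (nat_lit 367) (B (L (nat_lit 368) ln12_12_2 ln12_12_2_ok) (M (nat_lit 335) (B (L (nat_lit 303) ln15_9_5 ln15_9_5_ok) (L (nat_lit 462) ln15_10_5 ln15_10_5_ok))))) (M (nat_lit 463) (B (M (nat_lit 366) (B (L (nat_lit 334) ln14_10_4 ln14_10_4_ok) (L (nat_lit 495) ln15_15_7 ln15_15_7_ok))) (M (nat_lit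 428) (B (L (nat_lit 427) ln15_12_1 ln15_12_1_ok) (L (nat_lit 464) ln12_13_0 ln12_13_0_ok))))))))) (B (M (nat_lit 398) (B (M (nat_lit 432) (B (L (nat_lit 431) ln12_12_0 ln12_12_0_ok) (M (nat_lit 400) (B (L (nat_lit 433) ln13_12_0 ln13_12_0_ok) (L (nat_lit 401) ln17_12_1 ln17_12_1_ok))))) (B (M (nat_lit 431) (B (L (nat_lit 432) ln12_12_0 ln12_12_0_ok) (M (nat_lit 367) (B (L (nat_lit 368) ln12_12_2 ln12_12_2_ok) (M (nat_lit 335) (B (L (nat_lit 303) ln15_9_5 ln15_9_5_ok) (L (nat_lit 462) ln15_10_5 ln15_10_5_ok))))))) (M (nat_lit 400) (B (L (nat_lit 401) ln17_12_1 ln17_12_1_ok) (M (nat_lit 368) (B (L (nat_lit 367) ln12_12_2 ln12_12_2_ok) (L (nat_lit 369) ln13_12_2 ln13_12_2_ok)))))))) (M (nat_lit 398) (B (M (nat_lit 428) (B (L (nat_lit 427) ln15_12_1 ln15_12_1_ok) (L (nat_lit 400) ln16_12_1 ln16_12_1_ok))) (M (nat_lit 367) (B (L (nat_lit 368) ln12_12_2 ln12_12_2_ok) (M (nat_lit 462) (B (L (nat_lit 494) ln14_15_6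 ln14_15_6_ok) (M (nat_lit 335) (B (L (nat_lit 303) ln15_9_5 ln15_9_5_ok) (L (nat_lit 366) ln14_14_6 ln14_14_6_ok))))))))))))))) (B (M (nat_lit 431) (B (L (nat_lit 432) ln16_13_3 ln16_13_3_ok) (M (nat_lit 395) (B (L (nat_lit 394) ln10_12_0 ln10_12_0_ok) (L (nat_lit 428) ln15_13_3 ln15_13_3_ok))))) c33_n4048))))) (nat_lit 1386334847544579281930502452632026696468783264124728123740719198963059283254184240648144927045128292788721448874933630659377233920) (nat_lit 27459190800355964725048206500601232321954158205179437631006488248755939325914085454253845511120164757876274601629661061004938170739612180478599287248525459456) (nat_lit 27459190800355964725048206500601232321954158205179437631006488248755939325914085454253845511120164757876274601629661061004938170739612180478599287248525459456) (by decide +kernel)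
noncomputable def c33_n4139 : Cert := (M (nat_lit 398) (B (M (nat_lit 399) (B (M (nat_lit 428) (B (L (nat_lit 427) ln15_12_1 ln15_12_1_ok) (L (nat_lit 400) ln16_12_1 ln16_12_1_ok))) (M (nat_lit 395) (B (M (nat_lit 363) (B (L (nat_lit 362) ln14_12_3 ln14_12_3_ok) (L (nat_lit 364) ln15_12_3 ln15_12_3_ok))) (M (nat_lit 367) (B (L (nat_lit 366) ln11_12_2 ln11_12_2_ok) (L (nat_lit 368) ln12_12_2 ln12_12_2_ok))))))) (B (M (nat_lit 399) (B (M (nat_lit 428) (B (L (nat_lit 427) ln15_12_1 ln15_12_1_ok) (L (nat_lit 400) ln16_12_1 ln16_12_1_ok))) (B (M (nat_lit 395) (B (M (nat_lit 367) (B (L (nat_lit 366) ln11_12_2 ln11_12_2_ok) (L (nat_lit 368) ln12_12_2 ln12_12_2_ok))) (M (nat_lit 427) (B (L (nat_lit 426) ln14_12_1 ln14_12_1_ok) (L (nat_lit 428) ln15_12_1 ln15_12_1_ok))))) (B (M (nat_lit 400) (B (L (nat_lit 428) ln16_12_1 ln16_12_1_ok) (L (nat_lit 401) ln17_12_1 ln17_12_1_ok))) (M (nat_lit 400) (B (L (nat_lit 401)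 ln17_12_1 ln17_12_1_ok) (M (nat_lit 368) (B (L (nat_lit 367) ln12_12_2 ln12_12_2_ok) (L (nat_lit 369) ln13_12_2 ln13_12_2_ok))))))))) (B (M (nat_lit 399) (B (M (nat_lit 428) (B (L (nat_lit 427) ln15_12_1 ln15_12_1_ok) (L (nat_lit 400) ln16_12_1 ln16_12_1_ok))) (B (M (nat_lit 395) (B (M (nat_lit 363) (B (L (nat_lit 362) ln14_12_3 ln14_12_3_ok) (L (nat_lit 364) ln15_12_3 ln15_12_3_ok))) (M (nat_lit 427) (B (L (nat_lit 426) ln14_12_1 ln14_12_1_ok) (L (nat_lit 428) ln15_12_1 ln15_12_1_ok))))) (B (M (nat_lit 400) (B (L (nat_lit 428) ln16_12_1 ln16_12_1_ok) (L (nat_lit 401) ln17_12_1 ln17_12_1_ok))) (M (nat_lit 400) (B (L (nat_lit 401) ln17_12_1 ln17_12_1_ok) (M (nat_lit 368) (B (L (nat_lit 367) ln12_12_2 ln12_12_2_ok) (L (nat_lit 369) ln13_12_2 ln13_12_2_ok))))))))) (B (M (nat_lit 399) (B (M (nat_lit 428) (B (L (nat_lit 427) ln15_12_1 ln15_12_1_ok) (L (nat_lit 400) ln16_12_1 ln16_12_1_ok))) (B (M (nat_lit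 395) (B (M (nat_lit 363) (B (L (nat_lit 362) ln14_12_3 ln14_12_3_ok) (L (nat_lit 364) ln15_12_3 ln15_12_3_ok))) (M (nat_lit 427) (B (L (nat_lit 426) ln14_12_1 ln14_12_1_ok) (L (nat_lit 428) ln15_12_1 ln15_12_1_ok))))) (B (M (nat_lit 400) (B (L (nat_lit 428) ln16_12_1 ln16_12_1_ok) (L (nat_lit 401) ln17_12_1 ln17_12_1_ok))) (M (nat_lit 364) (B (L (nat_lit 363) ln15_12_3 ln15_12_3_ok) (M (nat_lit 400) (B (L (nat_lit 365) ln16_12_3 ln16_12_3_ok) (L (nat_lit 401) ln17_12_1 ln17_12_1_ok))))))))) (B (M (nat_lit 428) (B (M (nat_lit 399) (B (L (nat_lit 427) ln15_12_1 ln15_12_1_ok) (L (nat_lit 400) ln16_12_1 ln16_12_1_ok))) (B (M (nat_lit 462) (B (M (nat_lit 365) (B (L (nat_lit 333) ln13_10_4 ln13_10_4_ok) (L (nat_lit 494) ln14_15_7 ln14_15_7_ok))) (M (nat_lit 427) (B (L (nat_lit 426) ln10_13_2 ln10_13_2_ok) (L (nat_lit 463) ln11_13_0 ln11_13_0_ok))))) (M (nat_lit 364) (B (M (nat_lit 399) (B (L (nat_lit 363) ln15_12_3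 ln15_12_3_ok) (L (nat_lit 400) ln16_12_1 ln16_12_1_ok))) (M (nat_lit 333) (B (M (nat_lit 332) (B (L (nat_lit 300) ln12_9_4 ln12_9_4_ok) (L (nat_lit 301) ln12_13_6 ln12_13_6_ok))) (B (M (nat_lit 301) (B (L (nat_lit 332) ln12_13_6 ln12_13_6_ok) (L (nat_lit 365) ln13_9_5 ln13_9_5_ok))) (M (nat_lit 365) (B (L (nat_lit 460) ln12_14_6 ln12_14_6_ok) (L (nat_lit 462) ln13_10_4 ln13_10_4_ok))))))))))) (M (nat_lit 462) (B (M (nat_lit 365) (B (L (nat_lit 333) ln13_10_4 ln13_10_4_ok) (L (nat_lit 494) ln14_15_7 ln14_15_7_ok))) (B (M (nat_lit 494) (B (L (nat_lit 365) ln14_15_7 ln14_15_7_ok) (L (nat_lit 526) ln14_16_7 ln14_16_7_ok))) (B (M (nat_lit 494) (B (L (nat_lit 526) ln14_16_7 ln14_16_7_ok) (M (nat_lit 366) (B (M (nat_lit 367) (B (L (nat_lit 335) ln14_14_6 ln14_14_6_ok) (L (nat_lit 395) ln11_12_2 ln11_12_2_ok))) (M (nat_lit 495) (B (L (nat_lit 463) ln14_11_4 ln14_11_4_ok) (L (nat_lit 527) ln14_12_4 ln14_12_4_ok)))))))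 (M (nat_lit 333) (B (L (nat_lit 365) ln13_10_4 ln13_10_4_ok) (M (nat_lit 366) (B (M (nat_lit 334) (B (L (nat_lit 301) ln14_13_7 ln14_13_7_ok) (L (nat_lit 302) ln14_9_5 ln14_9_5_ok))) (M (nat_lit 367) (B (L (nat_lit 335) ln14_14_6 ln14_14_6_ok) (L (nat_lit 395) ln11_12_2 ln11_12_2_ok)))))))))))))))))
theorem c33_s4140 : Sem (nat_lit 1386334847544579281930502452632026696468783264124728123740719198963059283254184240648144927045128292788721448874933630659377233920) (nat_lit 713938956819810277253169014195780686546691377890154572406428950840224592581170374516626312286121424740028419860042331716405328121850819137428067395060725972992) (nat_lit 713938956819810277253169014195780686546691377890154572406428950840224592581170374516626312286121424740028419860042331716405328121850819137428067395060725972992) :=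
  sem_of_chk (M (nat_lit 430) (B (M (nat_lit 431) (B (L (nat_lit 432) ln16_13_3 ln16_13_3_ok) (M (nat_lit 395) (B (L (nat_lit 398) ln11_12_0 ln11_12_0_ok) (L (nat_lit 428) ln15_13_3 ln15_13_3_ok))))) (B (M (nat_lit 431) (B (L (nat_lit 432) ln16_13_3 ln16_13_3_ok) (M (nat_lit 428) (B (M (nat_lit 460) (B (L (nat_lit 459) ln15_13_1 ln15_13_1_ok) (M (nat_lit 492) (B (L (nat_lit 365) ln12_15_6 ln12_15_6_ok) (L (nat_lit 524) ln12_16_6 ln12_16_6_ok))))) (M (nat_lit 399) (B (L (nat_lit 400) ln12_13_2 ln12_13_2_ok) (M (nat_lit 427) (B (L (nat_lit 398) ln15_12_1 ln15_12_1_ok) (M (nat_lit 463) (B (L (nat_lit 462) ln11_13_0 ln11_13_0_ok) (L (nat_lit 464) ln12_13_0 ln12_13_0_ok))))))))))) (B (M (nat_lit 431) (B (L (nat_lit 432) ln16_13_3 ln16_13_3_ok) (M (nat_lit 428) (B (L (nat_lit 395) ln15_13_3 ln15_13_3_ok) (M (nat_lit 460) (B (L (nat_lit 459) ln15_13_1 ln15_13_1_ok) (M (nat_lit 492) (B (L (nat_lit 365) ln12_15_6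 ln12_15_6_ok) (L (nat_lit 524) ln12_16_6 ln12_16_6_ok))))))))) (B (M (nat_lit 431) (B (L (nat_lit 432) ln16_13_3 ln16_13_3_ok) (M (nat_lit 398) (B (L (nat_lit 395) ln11_12_0 ln11_12_0_ok) (M (nat_lit 399) (B (M (nat_lit 367) (B (L (nat_lit 368) ln12_12_2 ln12_12_2_ok) (M (nat_lit 335) (B (L (nat_lit 303) ln15_9_5 ln15_9_5_ok) (L (nat_lit 462) ln15_10_5 ln15_10_5_ok))))) (M (nat_lit 400) (B (L (nat_lit 401) ln17_12_1 ln17_12_1_ok) (M (nat_lit 364) (B (L (nat_lit 363) ln15_12_3 ln15_12_3_ok) (L (nat_lit 365) ln16_12_3 ln16_12_3_ok))))))))))) c33_n4139))))) (nat_lit 1386334847544579281930502452632026696468783264124728123740719198963059283254184240648144927045128292788721448874933630659377233920) (nat_lit 713938956819810277253169014195780686546691377890154572406428950840224592581170374516626312286121424740028419860042331716405328121850819137428067395060725972992) (nat_lit 713938956819810277253169014195780686546691377890154572406428950840224592581170374516626312286121424740028419860042331716405328121850819137428067395060725972992)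 (by decide +kernel)
noncomputable def c33_n4299 : Cert := (M (nat_lit 430) (B (M (nat_lit 431) (B (L (nat_lit 432) ln16_13_3 ln16_13_3_ok) (M (nat_lit 399) (B (L (nat_lit 400) ln12_13_2 ln12_13_2_ok) (M (nat_lit 427) (B (L (nat_lit 398) ln15_12_1 ln15_12_1_ok) (M (nat_lit 463) (B (L (nat_lit 462) ln11_13_0 ln11_13_0_ok) (L (nat_lit 464) ln12_13_0 ln12_13_0_ok))))))))) (B (M (nat_lit 431) (B (L (nat_lit 432) ln16_13_3 ln16_13_3_ok) (M (nat_lit 399) (B (L (nat_lit 400) ln12_13_2 ln12_13_2_ok) (M (nat_lit 463) (B (L (nat_lit 464) ln12_13_0 ln12_13_0_ok) (M (nat_lit 462) (B (L (nat_lit 427) ln11_13_0 ln11_13_0_ok) (M (nat_lit 367) (B (L (nat_lit 335) ln15_10_5 ln15_10_5_ok) (L (nat_lit 494) ln15_11_5 ln15_11_5_ok))))))))))) (B (M (nat_lit 431) (B (L (nat_lit 432) ln16_13_3 ln16_13_3_ok) (M (nat_lit 427) (B (M (nat_lit 426) (B (L (nat_lit 425) ln9_13_2 ln9_13_2_ok) (L (nat_lit 398) ln10_13_2 ln10_13_2_ok)))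 (M (nat_lit 463) (B (L (nat_lit 462) ln11_13_0 ln11_13_0_ok) (L (nat_lit 464) ln12_13_0 ln12_13_0_ok))))))) (B (M (nat_lit 431) (B (L (nat_lit 432) ln16_13_3 ln16_13_3_ok) (M (nat_lit 398) (B (M (nat_lit 399) (B (L (nat_lit 400) ln16_12_1 ln16_12_1_ok) (M (nat_lit 367) (B (L (nat_lit 368) ln12_12_2 ln12_12_2_ok) (M (nat_lit 335) (B (L (nat_lit 303) ln15_9_5 ln15_9_5_ok) (L (nat_lit 462) ln15_10_5 ln15_10_5_ok))))))) (B (M (nat_lit 399) (B (L (nat_lit 400) ln16_12_1 ln16_12_1_ok) (M (nat_lit 367) (B (L (nat_lit 368) ln12_12_2 ln12_12_2_ok) (M (nat_lit 462) (B (L (nat_lit 335) ln15_10_5 ln15_10_5_ok) (L (nat_lit 494) ln14_15_6 ln14_15_6_ok))))))) (B (M (nat_lit 399) (B (L (nat_lit 400) ln16_12_1 ln16_12_1_ok) (M (nat_lit 463) (B (L (nat_lit 464) ln12_13_0 ln12_13_0_ok) (M (nat_lit 366) (B (L (nat_lit 334) ln14_10_4 ln14_10_4_ok) (L (nat_lit 495) ln15_15_7 ln15_15_7_ok))))))) (M (nat_lit 462) (B (M (nat_lit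 365) (B (L (nat_lit 333) ln13_10_4 ln13_10_4_ok) (L (nat_lit 494) ln14_15_7 ln14_15_7_ok))) (M (nat_lit 463) (B (L (nat_lit 464) ln12_13_0 ln12_13_0_ok) (M (nat_lit 366) (B (L (nat_lit 334) ln14_10_4 ln14_10_4_ok) (L (nat_lit 495) ln14_11_4 ln14_11_4_ok))))))))))))) (B (M (nat_lit 398) (B (M (nat_lit 399) (B (L (nat_lit 427) ln15_12_1 ln15_12_1_ok) (L (nat_lit 400) ln16_12_1 ln16_12_1_ok))) (B (M (nat_lit 462) (B (M (nat_lit 365) (B (L (nat_lit 333) ln13_10_4 ln13_10_4_ok) (L (nat_lit 494) ln14_15_7 ln14_15_7_ok))) (M (nat_lit 427) (B (L (nat_lit 426) ln10_13_2 ln10_13_2_ok) (L (nat_lit 463) ln11_13_0 ln11_13_0_ok))))) (M (nat_lit 364) (B (M (nat_lit 399) (B (L (nat_lit 363) ln15_12_3 ln15_12_3_ok) (L (nat_lit 400) ln16_12_1 ln16_12_1_ok))) (M (nat_lit 333) (B (M (nat_lit 332) (B (L (nat_lit 300) ln12_9_4 ln12_9_4_ok) (L (nat_lit 301) ln12_13_6 ln12_13_6_ok))) (B (M (nat_lit 301) (B (L (nat_lit 332) ln12_13_6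 ln12_13_6_ok) (L (nat_lit 365) ln13_9_5 ln13_9_5_ok))) (M (nat_lit 365) (B (L (nat_lit 460) ln12_14_6 ln12_14_6_ok) (L (nat_lit 462) ln13_10_4 ln13_10_4_ok))))))))))) (B (M (nat_lit 431) (B (L (nat_lit 432) ln16_13_3 ln16_13_3_ok) (M (nat_lit 399) (B (L (nat_lit 400) ln12_13_2 ln12_13_2_ok) (M (nat_lit 398) (B (L (nat_lit 427) ln15_12_1 ln15_12_1_ok) (M (nat_lit 463) (B (L (nat_lit 464) ln12_13_0 ln12_13_0_ok) (M (nat_lit 366) (B (L (nat_lit 334) ln14_10_4 ln14_10_4_ok) (L (nat_lit 495) ln15_15_7 ln15_15_7_ok))))))))))) (M (nat_lit 431) (B (L (nat_lit 432) ln16_13_3 ln16_13_3_ok) (M (nat_lit 364) (B (M (nat_lit 399) (B (L (nat_lit 400) ln12_13_2 ln12_13_2_ok) (M (nat_lit 398) (B (L (nat_lit 363) ln15_12_3 ln15_12_3_ok) (L (nat_lit 427) ln15_12_1 ln15_12_1_ok))))) (M (nat_lit 333) (B (M (nat_lit 332) (B (L (nat_lit 300) ln12_9_4 ln12_9_4_ok) (L (nat_lit 301) ln12_13_6 ln12_13_6_ok))) (B (M (nat_lit 301)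 (B (L (nat_lit 332) ln12_13_6 ln12_13_6_ok) (L (nat_lit 365) ln13_9_5 ln13_9_5_ok))) (M (nat_lit 365) (B (L (nat_lit 460) ln12_14_6 ln12_14_6_ok) (L (nat_lit 462) ln13_10_4 ln13_10_4_ok)))))))))))))))))
theorem c33_s4308 : Sem (nat_lit 1386334847544579281930502452632026696468783264124728123740719198963059283254184240648144927045128292788721448874933630659377233920) (nat_lit 82377572094187524506997717050766719791099576638359614356388971744949965784933439783875582091151132270553343431369643853754507568978425643527757201573104582656) (nat_lit 82377572094187524506997717050766719791099576638359614356388971744949965784933439783875582091151132270553343431369643853754507568978425643527757201573104582656) :=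
  sem_of_chk (M (nat_lit 428) (B (M (nat_lit 460) (B (M (nat_lit 492) (B (L (nat_lit 365) ln12_15_6 ln12_15_6_ok) (L (nat_lit 524) ln12_16_6 ln12_16_6_ok))) (M (nat_lit 427) (B (M (nat_lit 398) (B (L (nat_lit 399) ln15_12_1 ln15_12_1_ok) (L (nat_lit 426) ln10_13_2 ln10_13_2_ok))) (M (nat_lit 459) (B (M (nat_lit 364) (B (L (nat_lit 332) ln12_10_5 ln12_10_5_ok) (L (nat_lit 491) ln12_11_5 ln12_11_5_ok))) (M (nat_lit 430) (B (L (nat_lit 458) ln14_13_1 ln14_13_1_ok) (L (nat_lit 431) ln15_13_1 ln15_13_1_ok))))))))) (B (M (nat_lit 460) (B (M (nat_lit 492) (B (L (nat_lit 365) ln12_15_6 ln12_15_6_ok) (L (nat_lit 524) ln12_16_6 ln12_16_6_ok))) (M (nat_lit 427) (B (M (nat_lit 398) (B (L (nat_lit 399) ln15_12_1 ln15_12_1_ok) (L (nat_lit 426) ln10_13_2 ln10_13_2_ok))) (M (nat_lit 459) (B (M (nat_lit 491) (B (L (nat_lit 364) ln12_11_5 ln12_11_5_ok) (L (nat_lit 523) ln11_16_6 ln11_16_6_ok))) (M (nat_lit 430) (B (L (nat_lit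 458) ln14_13_1 ln14_13_1_ok) (L (nat_lit 431) ln15_13_1 ln15_13_1_ok))))))))) (B (M (nat_lit 430) (B (M (nat_lit 431) (B (L (nat_lit 432) ln16_13_3 ln16_13_3_ok) (M (nat_lit 460) (B (L (nat_lit 459) ln15_13_1 ln15_13_1_ok) (M (nat_lit 365) (B (L (nat_lit 333) ln13_10_5 ln13_10_5_ok) (L (nat_lit 492) ln12_15_6 ln12_15_6_ok))))))) (B (M (nat_lit 431) (B (L (nat_lit 432) ln16_13_3 ln16_13_3_ok) (M (nat_lit 399) (B (L (nat_lit 400) ln12_13_2 ln12_13_2_ok) (M (nat_lit 427) (B (L (nat_lit 398) ln15_12_1 ln15_12_1_ok) (M (nat_lit 463) (B (L (nat_lit 462) ln11_13_0 ln11_13_0_ok) (L (nat_lit 464) ln12_13_0 ln12_13_0_ok))))))))) (M (nat_lit 427) (B (M (nat_lit 398) (B (L (nat_lit 399) ln15_12_1 ln15_12_1_ok) (L (nat_lit 426) ln10_13_2 ln10_13_2_ok))) (B (M (nat_lit 426) (B (L (nat_lit 425) ln9_13_2 ln9_13_2_ok) (M (nat_lit 458) (B (L (nat_lit 457) ln13_13_1 ln13_13_1_ok) (L (nat_lit 459) ln14_13_1 ln14_13_1_ok)))))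 (M (nat_lit 398) (B (L (nat_lit 399) ln15_12_1 ln15_12_1_ok) (M (nat_lit 462) (B (L (nat_lit 463) ln11_13_0 ln11_13_0_ok) (M (nat_lit 365) (B (L (nat_lit 333) ln13_10_4 ln13_10_4_ok) (L (nat_lit 494) ln14_15_7 ln14_15_7_ok))))))))))))) (B (M (nat_lit 427) (B (M (nat_lit 398) (B (L (nat_lit 399) ln15_12_1 ln15_12_1_ok) (L (nat_lit 426) ln10_13_2 ln10_13_2_ok))) (B (M (nat_lit 430) (B (M (nat_lit 431) (B (L (nat_lit 432) ln16_13_3 ln16_13_3_ok) (M (nat_lit 459) (B (L (nat_lit 458) ln14_13_1 ln14_13_1_ok) (L (nat_lit 460) ln15_13_1 ln15_13_1_ok))))) (B (M (nat_lit 426) (B (L (nat_lit 425) ln9_13_2 ln9_13_2_ok) (M (nat_lit 458) (B (L (nat_lit 457) ln13_13_1 ln13_13_1_ok) (L (nat_lit 459) ln14_13_1 ln14_13_1_ok))))) (M (nat_lit 431) (B (L (nat_lit 432) ln16_13_3 ln16_13_3_ok) (M (nat_lit 463) (B (L (nat_lit 462) ln11_13_0 ln11_13_0_ok) (L (nat_lit 464) ln12_13_0 ln12_13_0_ok)))))))) (M (nat_lit 430) (B (M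 (nat_lit 431) (B (L (nat_lit 432) ln16_13_3 ln16_13_3_ok) (M (nat_lit 459) (B (L (nat_lit 458) ln14_13_1 ln14_13_1_ok) (L (nat_lit 460) ln15_13_1 ln15_13_1_ok))))) (B (M (nat_lit 459) (B (L (nat_lit 458) ln14_13_1 ln14_13_1_ok) (M (nat_lit 364) (B (L (nat_lit 332) ln12_10_5 ln12_10_5_ok) (M (nat_lit 491) (B (L (nat_lit 460) ln12_11_5 ln12_11_5_ok) (L (nat_lit 523) ln11_16_6 ln11_16_6_ok))))))) (M (nat_lit 431) (B (L (nat_lit 432) ln16_13_3 ln16_13_3_ok) (M (nat_lit 463) (B (L (nat_lit 462) ln11_13_0 ln11_13_0_ok) (L (nat_lit 464) ln12_13_0 ln12_13_0_ok))))))))))) (B (M (nat_lit 460) (B (M (nat_lit 365) (B (L (nat_lit 333) ln13_10_5 ln13_10_5_ok) (L (nat_lit 492) ln12_15_6 ln12_15_6_ok))) (B (M (nat_lit 492) (B (L (nat_lit 365) ln12_15_6 ln12_15_6_ok) (L (nat_lit 524) ln12_16_6 ln12_16_6_ok))) (B (M (nat_lit 364) (B (M (nat_lit 492) (B (L (nat_lit 524) ln12_16_6 ln12_16_6_ok) (M (nat_lit 491) (B (L (nat_lit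 459) ln12_11_5 ln12_11_5_ok) (L (nat_lit 523) ln12_12_5 ln12_12_5_ok))))) (M (nat_lit 332) (B (L (nat_lit 300) ln12_9_4 ln12_9_4_ok) (M (nat_lit 331) (B (L (nat_lit 299) ln12_13_7 ln12_13_7_ok) (L (nat_lit 363) ln12_14_7 ln12_14_7_ok))))))) (M (nat_lit 364) (B (M (nat_lit 332) (B (L (nat_lit 300) ln12_9_4 ln12_9_4_ok) (M (nat_lit 331) (B (L (nat_lit 299) ln12_13_7 ln12_13_7_ok) (L (nat_lit 363) ln12_14_7 ln12_14_7_ok))))) (B (M (nat_lit 459) (B (L (nat_lit 491) ln12_11_5 ln12_11_5_ok) (M (nat_lit 332) (B (L (nat_lit 300) ln12_9_4 ln12_9_4_ok) (L (nat_lit 427) ln12_10_5 ln12_10_5_ok))))) (B (M (nat_lit 332) (B (M (nat_lit 331) (B (L (nat_lit 299) ln12_13_7 ln12_13_7_ok) (L (nat_lit 363) ln12_14_7 ln12_14_7_ok))) (M (nat_lit 459) (B (L (nat_lit 427) ln12_10_5 ln12_10_5_ok) (L (nat_lit 491) ln12_11_5 ln12_11_5_ok))))) (M (nat_lit 459) (B (L (nat_lit 491) ln12_11_5 ln12_11_5_ok) (M (nat_lit 430) (B (L (nat_lit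 431) ln15_13_1 ln15_13_1_ok) (M (nat_lit 458) (B (L (nat_lit 427) ln14_13_1 ln14_13_1_ok) (L (nat_lit 457) ln9_14_2 ln9_14_2_ok))))))))))))))) (B (M (nat_lit 460) (B (M (nat_lit 365) (B (L (nat_lit 333) ln13_10_5 ln13_10_5_ok) (L (nat_lit 492) ln12_15_6 ln12_15_6_ok))) (B (M (nat_lit 492) (B (L (nat_lit 365) ln12_15_6 ln12_15_6_ok) (L (nat_lit 524) ln12_16_6 ln12_16_6_ok))) (B (M (nat_lit 364) (B (M (nat_lit 492) (B (L (nat_lit 524) ln12_16_6 ln12_16_6_ok) (M (nat_lit 491) (B (L (nat_lit 459) ln12_11_5 ln12_11_5_ok) (L (nat_lit 523) ln12_12_5 ln12_12_5_ok))))) (M (nat_lit 332) (B (L (nat_lit 300) ln12_9_4 ln12_9_4_ok) (M (nat_lit 331) (B (L (nat_lit 299) ln12_13_7 ln12_13_7_ok) (L (nat_lit 363) ln12_14_7 ln12_14_7_ok))))))) (M (nat_lit 364) (B (M (nat_lit 333) (B (L (nat_lit 365) ln12_14_6 ln12_14_6_ok) (M (nat_lit 332) (B (L (nat_lit 300) ln12_9_4 ln12_9_4_ok) (L (nat_lit 301) ln12_13_6 ln12_13_6_ok)))))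 (B (M (nat_lit 332) (B (M (nat_lit 331) (B (L (nat_lit 299) ln12_13_7 ln12_13_7_ok) (L (nat_lit 363) ln12_14_7 ln12_14_7_ok))) (M (nat_lit 333) (B (L (nat_lit 301) ln12_13_6 ln12_13_6_ok) (L (nat_lit 365) ln12_14_6 ln12_14_6_ok))))) (B (M (nat_lit 332) (B (L (nat_lit 300) ln12_9_4 ln12_9_4_ok) (M (nat_lit 331) (B (L (nat_lit 299) ln12_13_7 ln12_13_7_ok) (L (nat_lit 363) ln12_14_7 ln12_14_7_ok))))) (M (nat_lit 365) (B (L (nat_lit 333) ln12_14_6 ln12_14_6_ok) (M (nat_lit 363) (B (L (nat_lit 331) ln12_14_7 ln12_14_7_ok) (M (nat_lit 362) (B (L (nat_lit 361) ln9_11_0 ln9_11_0_ok) (L (nat_lit 398) ln10_11_0 ln10_11_0_ok))))))))))))))) (B c33_n4299 (M (nat_lit 427) (B (M (nat_lit 398) (B (L (nat_lit 399) ln15_12_1 ln15_12_1_ok) (L (nat_lit 426) ln10_13_2 ln10_13_2_ok))) (B (M (nat_lit 430) (B (M (nat_lit 431) (B (L (nat_lit 432) ln16_13_3 ln16_13_3_ok) (M (nat_lit 463) (B (L (nat_lit 462) ln11_13_0 ln11_13_0_ok)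 (L (nat_lit 464) ln12_13_0 ln12_13_0_ok))))) (M (nat_lit 426) (B (L (nat_lit 425) ln9_13_2 ln9_13_2_ok) (M (nat_lit 458) (B (L (nat_lit 457) ln13_13_1 ln13_13_1_ok) (L (nat_lit 459) ln14_13_1 ln14_13_1_ok))))))) (M (nat_lit 430) (B (M (nat_lit 399) (B (L (nat_lit 398) ln15_12_1 ln15_12_1_ok) (M (nat_lit 431) (B (L (nat_lit 432) ln16_13_3 ln16_13_3_ok) (L (nat_lit 400) ln12_13_2 ln12_13_2_ok))))) (B (M (nat_lit 431) (B (L (nat_lit 432) ln16_13_3 ln16_13_3_ok) (M (nat_lit 463) (B (L (nat_lit 462) ln11_13_0 ln11_13_0_ok) (L (nat_lit 464) ln12_13_0 ln12_13_0_ok))))) (M (nat_lit 398) (B (L (nat_lit 399) ln15_12_1 ln15_12_1_ok) (M (nat_lit 462) (B (L (nat_lit 463) ln11_13_0 ln11_13_0_ok) (M (nat_lit 365) (B (L (nat_lit 333) ln13_10_4 ln13_10_4_ok) (L (nat_lit 494) ln14_15_7 ln14_15_7_ok))))))))))))))))))))) (nat_lit 1386334847544579281930502452632026696468783264124728123740719198963059283254184240648144927045128292788721448874933630659377233920)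 (nat_lit 82377572094187524506997717050766719791099576638359614356388971744949965784933439783875582091151132270553343431369643853754507568978425643527757201573104582656) (nat_lit 82377572094187524506997717050766719791099576638359614356388971744949965784933439783875582091151132270553343431369643853754507568978425643527757201573104582656) (by decide +kernel)
theorem c33_s4491 : Sem (nat_lit 1386334847544579281930502452632026696468783264124728123740719198963059283254184240648144927045128292788721448874933630659377233920) (nat_lit 82377571943944010277389642938833208311236348177945030375918049730798662154536307971948053849580290963605399494522934480216102474437106292586204502006085713920) (nat_lit 82377571943944010277389642938833208311236348177945030375918049730798662154536307971948053849580290963605399494522934480216102474437106292586204502006085713920) :=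
  sem_of_chk (M (nat_lit 428) (B (M (nat_lit 460) (B (M (nat_lit 365) (B (L (nat_lit 333) ln13_10_5 ln13_10_5_ok) (L (nat_lit 492) ln12_15_6 ln12_15_6_ok))) (B (M (nat_lit 492) (B (L (nat_lit 365) ln12_15_6 ln12_15_6_ok) (L (nat_lit 524) ln12_16_6 ln12_16_6_ok))) (B (M (nat_lit 395) (B (M (nat_lit 492) (B (L (nat_lit 363) ln12_15_7 ln12_15_7_ok) (L (nat_lit 524) ln12_16_6 ln12_16_6_ok))) (M (nat_lit 430) (B (L (nat_lit 394) ln10_12_0 ln10_12_0_ok) (L (nat_lit 431) ln15_13_3 ln15_13_3_ok))))) (M (nat_lit 430) (B (M (nat_lit 395) (B (L (nat_lit 394) ln10_12_0 ln10_12_0_ok) (L (nat_lit 431) ln15_13_3 ln15_13_3_ok))) (B (M (nat_lit 431) (B (L (nat_lit 395) ln15_13_3 ln15_13_3_ok) (L (nat_lit 459) ln15_13_1 ln15_13_1_ok))) (B (M (nat_lit 431) (B (L (nat_lit 432) ln16_13_3 ln16_13_3_ok) (L (nat_lit 459) ln15_13_1 ln15_13_1_ok))) (M (nat_lit 427) (B (M (nat_lit 394) (B (L (nat_lit 395) ln10_12_0 ln10_12_0_ok)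 (M (nat_lit 426) (B (L (nat_lit 393) ln13_13_3 ln13_13_3_ok) (L (nat_lit 425) ln9_13_2 ln9_13_2_ok))))) (M (nat_lit 459) (B (L (nat_lit 458) ln14_13_1 ln14_13_1_ok) (M (nat_lit 364) (B (L (nat_lit 332) ln12_10_5 ln12_10_5_ok) (L (nat_lit 491) ln12_11_5 ln12_11_5_ok))))))))))))))) (B (M (nat_lit 460) (B (M (nat_lit 365) (B (L (nat_lit 333) ln13_10_5 ln13_10_5_ok) (L (nat_lit 492) ln12_15_6 ln12_15_6_ok))) (B (M (nat_lit 492) (B (L (nat_lit 365) ln12_15_6 ln12_15_6_ok) (L (nat_lit 524) ln12_16_6 ln12_16_6_ok))) (B (M (nat_lit 395) (B (M (nat_lit 492) (B (L (nat_lit 363) ln12_15_7 ln12_15_7_ok) (L (nat_lit 524) ln12_16_6 ln12_16_6_ok))) (M (nat_lit 430) (B (L (nat_lit 394) ln10_12_0 ln10_12_0_ok) (L (nat_lit 431) ln15_13_3 ln15_13_3_ok))))) (M (nat_lit 430) (B (M (nat_lit 395) (B (L (nat_lit 394) ln10_12_0 ln10_12_0_ok) (L (nat_lit 431) ln15_13_3 ln15_13_3_ok))) (B (M (nat_lit 431) (B (L (nat_lit 395) ln15_13_3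 ln15_13_3_ok) (L (nat_lit 459) ln15_13_1 ln15_13_1_ok))) (B (M (nat_lit 431) (B (L (nat_lit 432) ln16_13_3 ln16_13_3_ok) (L (nat_lit 459) ln15_13_1 ln15_13_1_ok))) (M (nat_lit 427) (B (M (nat_lit 394) (B (L (nat_lit 395) ln10_12_0 ln10_12_0_ok) (M (nat_lit 426) (B (L (nat_lit 393) ln13_13_3 ln13_13_3_ok) (L (nat_lit 425) ln9_13_2 ln9_13_2_ok))))) (M (nat_lit 459) (B (L (nat_lit 458) ln14_13_1 ln14_13_1_ok) (M (nat_lit 491) (B (L (nat_lit 364) ln12_11_5 ln12_11_5_ok) (L (nat_lit 523) ln11_16_6 ln11_16_6_ok))))))))))))))) (B (M (nat_lit 460) (B (M (nat_lit 492) (B (L (nat_lit 365) ln12_15_6 ln12_15_6_ok) (L (nat_lit 524) ln12_16_6 ln12_16_6_ok))) (M (nat_lit 430) (B (M (nat_lit 395) (B (L (nat_lit 394) ln10_12_0 ln10_12_0_ok) (L (nat_lit 431) ln15_13_3 ln15_13_3_ok))) (B (M (nat_lit 431) (B (L (nat_lit 395) ln15_13_3 ln15_13_3_ok) (L (nat_lit 459) ln15_13_1 ln15_13_1_ok))) (B (M (nat_lit 431) (B (L (nat_lit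 432) ln16_13_3 ln16_13_3_ok) (L (nat_lit 459) ln15_13_1 ln15_13_1_ok))) (M (nat_lit 427) (B (M (nat_lit 394) (B (L (nat_lit 395) ln10_12_0 ln10_12_0_ok) (M (nat_lit 426) (B (L (nat_lit 393) ln13_13_3 ln13_13_3_ok) (L (nat_lit 425) ln9_13_2 ln9_13_2_ok))))) (M (nat_lit 459) (B (L (nat_lit 458) ln14_13_1 ln14_13_1_ok) (M (nat_lit 491) (B (L (nat_lit 364) ln12_11_5 ln12_11_5_ok) (L (nat_lit 523) ln11_16_6 ln11_16_6_ok))))))))))))) (B (M (nat_lit 430) (B (M (nat_lit 395) (B (L (nat_lit 394) ln10_12_0 ln10_12_0_ok) (L (nat_lit 431) ln15_13_3 ln15_13_3_ok))) (B (M (nat_lit 431) (B (L (nat_lit 395) ln15_13_3 ln15_13_3_ok) (L (nat_lit 432) ln16_13_3 ln16_13_3_ok))) (B (M (nat_lit 460) (B (M (nat_lit 492) (B (L (nat_lit 365) ln12_15_6 ln12_15_6_ok) (L (nat_lit 524) ln12_16_6 ln12_16_6_ok))) (M (nat_lit 431) (B (L (nat_lit 432) ln16_13_3 ln16_13_3_ok) (L (nat_lit 459) ln15_13_1 ln15_13_1_ok))))) (M (nat_lit 427)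 (B (M (nat_lit 426) (B (L (nat_lit 425) ln9_13_2 ln9_13_2_ok) (M (nat_lit 394) (B (L (nat_lit 393) ln13_13_3 ln13_13_3_ok) (L (nat_lit 395) ln10_12_0 ln10_12_0_ok))))) (B (M (nat_lit 426) (B (L (nat_lit 425) ln9_13_2 ln9_13_2_ok) (M (nat_lit 458) (B (L (nat_lit 457) ln13_13_1 ln13_13_1_ok) (L (nat_lit 459) ln14_13_1 ln14_13_1_ok))))) (B (M (nat_lit 426) (B (M (nat_lit 394) (B (L (nat_lit 393) ln13_13_3 ln13_13_3_ok) (L (nat_lit 395) ln10_12_0 ln10_12_0_ok))) (M (nat_lit 458) (B (L (nat_lit 457) ln13_13_1 ln13_13_1_ok) (L (nat_lit 459) ln14_13_1 ln14_13_1_ok))))) (M (nat_lit 395) (B (L (nat_lit 394) ln10_12_0 ln10_12_0_ok) (M (nat_lit 459) (B (L (nat_lit 458) ln14_13_1 ln14_13_1_ok) (M (nat_lit 492) (B (M (nat_lit 460) (B (L (nat_lit 363) ln12_15_7 ln12_15_7_ok) (L (nat_lit 365) ln12_15_6 ln12_15_6_ok))) (M (nat_lit 491) (B (L (nat_lit 524) ln11_12_4 ln11_12_4_ok) (L (nat_lit 523) ln11_16_6 ln11_16_6_ok)))))))))))))))))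 (B (M (nat_lit 460) (B (M (nat_lit 492) (B (L (nat_lit 524) ln12_16_6 ln12_16_6_ok) (M (nat_lit 395) (B (L (nat_lit 363) ln12_15_7 ln12_15_7_ok) (M (nat_lit 394) (B (L (nat_lit 393) ln9_12_0 ln9_12_0_ok) (L (nat_lit 430) ln10_12_0 ln10_12_0_ok))))))) (B (M (nat_lit 430) (B (M (nat_lit 395) (B (L (nat_lit 394) ln10_12_0 ln10_12_0_ok) (L (nat_lit 431) ln15_13_3 ln15_13_3_ok))) (B (M (nat_lit 431) (B (L (nat_lit 395) ln15_13_3 ln15_13_3_ok) (L (nat_lit 459) ln15_13_1 ln15_13_1_ok))) (B (M (nat_lit 431) (B (L (nat_lit 432) ln16_13_3 ln16_13_3_ok) (L (nat_lit 459) ln15_13_1 ln15_13_1_ok))) (M (nat_lit 427) (B (M (nat_lit 394) (B (L (nat_lit 395) ln10_12_0 ln10_12_0_ok) (M (nat_lit 426) (B (L (nat_lit 393) ln13_13_3 ln13_13_3_ok) (L (nat_lit 425) ln9_13_2 ln9_13_2_ok))))) (M (nat_lit 459) (B (L (nat_lit 458) ln14_13_1 ln14_13_1_ok) (M (nat_lit 491) (B (L (nat_lit 364) ln12_11_5 ln12_11_5_ok) (L (nat_lit 523)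 ln11_16_6 ln11_16_6_ok))))))))))) (B (M (nat_lit 395) (B (M (nat_lit 492) (B (L (nat_lit 363) ln12_15_7 ln12_15_7_ok) (L (nat_lit 524) ln12_16_6 ln12_16_6_ok))) (M (nat_lit 430) (B (L (nat_lit 394) ln10_12_0 ln10_12_0_ok) (L (nat_lit 431) ln15_13_3 ln15_13_3_ok))))) (B (M (nat_lit 492) (B (L (nat_lit 524) ln12_16_6 ln12_16_6_ok) (M (nat_lit 364) (B (M (nat_lit 363) (B (L (nat_lit 331) ln12_14_7 ln12_14_7_ok) (L (nat_lit 395) ln12_15_7 ln12_15_7_ok))) (M (nat_lit 491) (B (L (nat_lit 459) ln12_11_5 ln12_11_5_ok) (L (nat_lit 523) ln12_12_5 ln12_12_5_ok))))))) (M (nat_lit 364) (B (M (nat_lit 459) (B (L (nat_lit 491) ln12_11_5 ln12_11_5_ok) (M (nat_lit 332) (B (L (nat_lit 300) ln12_9_4 ln12_9_4_ok) (L (nat_lit 427) ln12_10_5 ln12_10_5_ok))))) (B (M (nat_lit 492) (B (L (nat_lit 524) ln12_16_6 ln12_16_6_ok) (M (nat_lit 491) (B (L (nat_lit 459) ln12_11_5 ln12_11_5_ok) (L (nat_lit 523) ln12_12_5 ln12_12_5_ok)))))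 (M (nat_lit 332) (B (L (nat_lit 300) ln12_9_4 ln12_9_4_ok) (M (nat_lit 331) (B (L (nat_lit 299) ln12_13_7 ln12_13_7_ok) (L (nat_lit 363) ln12_14_7 ln12_14_7_ok))))))))))))) (B (M (nat_lit 460) (B (M (nat_lit 365) (B (L (nat_lit 333) ln13_10_5 ln13_10_5_ok) (L (nat_lit 492) ln12_15_6 ln12_15_6_ok))) (B (M (nat_lit 492) (B (L (nat_lit 365) ln12_15_6 ln12_15_6_ok) (L (nat_lit 524) ln12_16_6 ln12_16_6_ok))) (B (M (nat_lit 395) (B (M (nat_lit 492) (B (L (nat_lit 363) ln12_15_7 ln12_15_7_ok) (L (nat_lit 524) ln12_16_6 ln12_16_6_ok))) (M (nat_lit 430) (B (L (nat_lit 394) ln10_12_0 ln10_12_0_ok) (L (nat_lit 431) ln15_13_3 ln15_13_3_ok))))) (M (nat_lit 430) (B (M (nat_lit 431) (B (L (nat_lit 395) ln15_13_3 ln15_13_3_ok) (L (nat_lit 432) ln16_13_3 ln16_13_3_ok))) (B (M (nat_lit 431) (B (L (nat_lit 432) ln16_13_3 ln16_13_3_ok) (L (nat_lit 459) ln15_13_1 ln15_13_1_ok))) (M (nat_lit 364) (B (M (nat_lit 333) (B (L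 (nat_lit 365) ln12_14_6 ln12_14_6_ok) (M (nat_lit 332) (B (L (nat_lit 300) ln12_9_4 ln12_9_4_ok) (L (nat_lit 301) ln12_13_6 ln12_13_6_ok))))) (B (M (nat_lit 459) (B (L (nat_lit 491) ln12_11_5 ln12_11_5_ok) (M (nat_lit 427) (B (L (nat_lit 332) ln12_10_5 ln12_10_5_ok) (L (nat_lit 458) ln14_13_1 ln14_13_1_ok))))) (M (nat_lit 459) (B (L (nat_lit 491) ln12_11_5 ln12_11_5_ok) (M (nat_lit 458) (B (L (nat_lit 427) ln14_13_1 ln14_13_1_ok) (L (nat_lit 457) ln9_14_2 ln9_14_2_ok))))))))))))))) (B (M (nat_lit 460) (B (M (nat_lit 365) (B (L (nat_lit 333) ln13_10_5 ln13_10_5_ok) (L (nat_lit 492) ln12_15_6 ln12_15_6_ok))) (B (M (nat_lit 492) (B (L (nat_lit 365) ln12_15_6 ln12_15_6_ok) (L (nat_lit 524) ln12_16_6 ln12_16_6_ok))) (B (M (nat_lit 492) (B (L (nat_lit 524) ln12_16_6 ln12_16_6_ok) (M (nat_lit 364) (B (M (nat_lit 363) (B (L (nat_lit 331) ln12_14_7 ln12_14_7_ok) (L (nat_lit 395) ln12_15_7 ln12_15_7_ok))) (M (nat_lit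 491) (B (L (nat_lit 459) ln12_11_5 ln12_11_5_ok) (L (nat_lit 523) ln12_12_5 ln12_12_5_ok))))))) (M (nat_lit 430) (B (M (nat_lit 431) (B (L (nat_lit 395) ln15_13_3 ln15_13_3_ok) (L (nat_lit 432) ln16_13_3 ln16_13_3_ok))) (B (M (nat_lit 431) (B (L (nat_lit 432) ln16_13_3 ln16_13_3_ok) (L (nat_lit 459) ln15_13_1 ln15_13_1_ok))) (M (nat_lit 364) (B (M (nat_lit 333) (B (L (nat_lit 365) ln12_14_6 ln12_14_6_ok) (M (nat_lit 332) (B (L (nat_lit 300) ln12_9_4 ln12_9_4_ok) (L (nat_lit 301) ln12_13_6 ln12_13_6_ok))))) (B (M (nat_lit 459) (B (L (nat_lit 491) ln12_11_5 ln12_11_5_ok) (M (nat_lit 427) (B (L (nat_lit 332) ln12_10_5 ln12_10_5_ok) (L (nat_lit 458) ln14_13_1 ln14_13_1_ok))))) (M (nat_lit 459) (B (L (nat_lit 491) ln12_11_5 ln12_11_5_ok) (M (nat_lit 458) (B (L (nat_lit 427) ln14_13_1 ln14_13_1_ok) (L (nat_lit 457) ln9_14_2 ln9_14_2_ok))))))))))))))) (B (M (nat_lit 460) (B (M (nat_lit 365) (B (L (nat_lit 333)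 ln13_10_5 ln13_10_5_ok) (L (nat_lit 492) ln12_15_6 ln12_15_6_ok))) (B (M (nat_lit 492) (B (L (nat_lit 365) ln12_15_6 ln12_15_6_ok) (L (nat_lit 524) ln12_16_6 ln12_16_6_ok))) (B (M (nat_lit 364) (B (M (nat_lit 492) (B (L (nat_lit 524) ln12_16_6 ln12_16_6_ok) (M (nat_lit 491) (B (L (nat_lit 459) ln12_11_5 ln12_11_5_ok) (L (nat_lit 523) ln12_12_5 ln12_12_5_ok))))) (M (nat_lit 332) (B (L (nat_lit 300) ln12_9_4 ln12_9_4_ok) (M (nat_lit 331) (B (L (nat_lit 299) ln12_13_7 ln12_13_7_ok) (L (nat_lit 363) ln12_14_7 ln12_14_7_ok))))))) (M (nat_lit 364) (B (M (nat_lit 332) (B (L (nat_lit 300) ln12_9_4 ln12_9_4_ok) (M (nat_lit 331) (B (L (nat_lit 299) ln12_13_7 ln12_13_7_ok) (L (nat_lit 363) ln12_14_7 ln12_14_7_ok))))) (B (M (nat_lit 459) (B (L (nat_lit 491) ln12_11_5 ln12_11_5_ok) (M (nat_lit 332) (B (L (nat_lit 300) ln12_9_4 ln12_9_4_ok) (L (nat_lit 427) ln12_10_5 ln12_10_5_ok))))) (B (M (nat_lit 332) (B (M (nat_lit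 331) (B (L (nat_lit 299) ln12_13_7 ln12_13_7_ok) (L (nat_lit 363) ln12_14_7 ln12_14_7_ok))) (M (nat_lit 459) (B (L (nat_lit 427) ln12_10_5 ln12_10_5_ok) (L (nat_lit 491) ln12_11_5 ln12_11_5_ok))))) (M (nat_lit 459) (B (L (nat_lit 491) ln12_11_5 ln12_11_5_ok) (M (nat_lit 430) (B (L (nat_lit 431) ln15_13_1 ln15_13_1_ok) (M (nat_lit 458) (B (L (nat_lit 427) ln14_13_1 ln14_13_1_ok) (L (nat_lit 457) ln9_14_2 ln9_14_2_ok))))))))))))))) (B (M (nat_lit 460) (B (M (nat_lit 365) (B (L (nat_lit 333) ln13_10_5 ln13_10_5_ok) (L (nat_lit 492) ln12_15_6 ln12_15_6_ok))) (B (M (nat_lit 492) (B (L (nat_lit 365) ln12_15_6 ln12_15_6_ok) (L (nat_lit 524) ln12_16_6 ln12_16_6_ok))) (B (M (nat_lit 492) (B (L (nat_lit 524) ln12_16_6 ln12_16_6_ok) (M (nat_lit 395) (B (L (nat_lit 363) ln12_15_7 ln12_15_7_ok) (M (nat_lit 394) (B (L (nat_lit 393) ln9_12_0 ln9_12_0_ok) (L (nat_lit 430) ln10_12_0 ln10_12_0_ok))))))) (M (nat_lit 364)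 (B (M (nat_lit 333) (B (L (nat_lit 365) ln12_14_6 ln12_14_6_ok) (M (nat_lit 332) (B (L (nat_lit 300) ln12_9_4 ln12_9_4_ok) (L (nat_lit 301) ln12_13_6 ln12_13_6_ok))))) (B (M (nat_lit 332) (B (M (nat_lit 331) (B (L (nat_lit 299) ln12_13_7 ln12_13_7_ok) (L (nat_lit 363) ln12_14_7 ln12_14_7_ok))) (M (nat_lit 333) (B (L (nat_lit 301) ln12_13_6 ln12_13_6_ok) (L (nat_lit 365) ln12_14_6 ln12_14_6_ok))))) (B (M (nat_lit 332) (B (L (nat_lit 300) ln12_9_4 ln12_9_4_ok) (M (nat_lit 331) (B (L (nat_lit 299) ln12_13_7 ln12_13_7_ok) (L (nat_lit 363) ln12_14_7 ln12_14_7_ok))))) (M (nat_lit 365) (B (L (nat_lit 333) ln12_14_6 ln12_14_6_ok) (M (nat_lit 363) (B (L (nat_lit 331) ln12_14_7 ln12_14_7_ok) (M (nat_lit 394) (B (M (nat_lit 362) (B (L (nat_lit 361) ln9_11_0 ln9_11_0_ok) (L (nat_lit 393) ln13_11_1 ln13_11_1_ok))) (M (nat_lit 395) (B (L (nat_lit 366) ln14_11_1 ln14_11_1_ok) (L (nat_lit 430) ln10_12_0 ln10_12_0_ok)))))))))))))))))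 (B (M (nat_lit 460) (B (M (nat_lit 365) (B (L (nat_lit 333) ln13_10_5 ln13_10_5_ok) (L (nat_lit 492) ln12_15_6 ln12_15_6_ok))) (B (M (nat_lit 492) (B (L (nat_lit 365) ln12_15_6 ln12_15_6_ok) (L (nat_lit 524) ln12_16_6 ln12_16_6_ok))) (B (M (nat_lit 492) (B (L (nat_lit 524) ln12_16_6 ln12_16_6_ok) (M (nat_lit 364) (B (M (nat_lit 363) (B (L (nat_lit 331) ln12_14_7 ln12_14_7_ok) (L (nat_lit 395) ln12_15_7 ln12_15_7_ok))) (M (nat_lit 491) (B (L (nat_lit 459) ln12_11_5 ln12_11_5_ok) (L (nat_lit 523) ln12_12_5 ln12_12_5_ok))))))) (M (nat_lit 394) (B (M (nat_lit 365) (B (L (nat_lit 333) ln13_10_5 ln13_10_5_ok) (M (nat_lit 395) (B (L (nat_lit 366) ln10_12_2 ln10_12_2_ok) (L (nat_lit 393) ln9_12_0 ln9_12_0_ok))))) (B (M (nat_lit 426) (B (M (nat_lit 393) (B (L (nat_lit 395) ln9_12_0 ln9_12_0_ok) (L (nat_lit 427) ln13_13_3 ln13_13_3_ok))) (B (M (nat_lit 425) (B (L (nat_lit 395) ln13_12_1 ln13_12_1_ok) (L (nat_lit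 427) ln9_13_2 ln9_13_2_ok))) (B (M (nat_lit 427) (B (L (nat_lit 393) ln13_13_3 ln13_13_3_ok) (L (nat_lit 425) ln9_13_2 ln9_13_2_ok))) (M (nat_lit 395) (B (L (nat_lit 393) ln9_12_0 ln9_12_0_ok) (L (nat_lit 425) ln13_12_1 ln13_12_1_ok))))))) (B (M (nat_lit 458) (B (M (nat_lit 459) (B (L (nat_lit 457) ln9_14_2 ln9_14_2_ok) (M (nat_lit 364) (B (L (nat_lit 491) ln12_11_5 ln12_11_5_ok) (M (nat_lit 332) (B (L (nat_lit 300) ln12_9_4 ln12_9_4_ok) (L (nat_lit 427) ln12_10_5 ln12_10_5_ok))))))) (B (M (nat_lit 365) (B (L (nat_lit 333) ln13_10_5 ln13_10_5_ok) (M (nat_lit 426) (B (M (nat_lit 395) (B (L (nat_lit 366) ln10_12_2 ln10_12_2_ok) (L (nat_lit 425) ln13_12_1 ln13_12_1_ok))) (B (M (nat_lit 425) (B (L (nat_lit 395) ln13_12_1 ln13_12_1_ok) (L (nat_lit 427) ln9_13_2 ln9_13_2_ok))) (B (M (nat_lit 427) (B (L (nat_lit 425) ln9_13_2 ln9_13_2_ok) (L (nat_lit 457) ln13_13_1 ln13_13_1_ok))) (M (nat_lit 457) (B (L (nat_lit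 427) ln13_13_1 ln13_13_1_ok) (L (nat_lit 459) ln9_14_2 ln9_14_2_ok))))))))) (B (M (nat_lit 364) (B (M (nat_lit 459) (B (L (nat_lit 491) ln12_11_5 ln12_11_5_ok) (L (nat_lit 457) ln9_14_2 ln9_14_2_ok))) (M (nat_lit 332) (B (L (nat_lit 300) ln12_9_4 ln12_9_4_ok) (M (nat_lit 331) (B (L (nat_lit 299) ln12_13_7 ln12_13_7_ok) (L (nat_lit 363) ln12_14_7 ln12_14_7_ok))))))) (M (nat_lit 395) (B (M (nat_lit 365) (B (L (nat_lit 333) ln13_10_5 ln13_10_5_ok) (L (nat_lit 366) ln10_12_2 ln10_12_2_ok))) (M (nat_lit 363) (B (M (nat_lit 331) (B (L (nat_lit 299) ln11_9_4 ln11_9_4_ok) (L (nat_lit 364) ln12_14_7 ln12_14_7_ok))) (M (nat_lit 426) (B (L (nat_lit 490) ln10_15_6 ln10_15_6_ok) (L (nat_lit 425) ln13_12_1 ln13_12_1_ok))))))))))) (M (nat_lit 365) (B (L (nat_lit 333) ln13_10_5 ln13_10_5_ok) (M (nat_lit 364) (B (M (nat_lit 459) (B (L (nat_lit 491) ln12_11_5 ln12_11_5_ok) (M (nat_lit 332) (B (L (nat_lit 300) ln12_9_4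 ln12_9_4_ok) (L (nat_lit 427) ln12_10_5 ln12_10_5_ok))))) (M (nat_lit 363) (B (L (nat_lit 331) ln12_14_7 ln12_14_7_ok) (M (nat_lit 362) (B (L (nat_lit 361) ln9_11_0 ln9_11_0_ok) (L (nat_lit 393) ln13_11_1 ln13_11_1_ok))))))))))))))))) (M (nat_lit 430) (B (M (nat_lit 395) (B (L (nat_lit 394) ln10_12_0 ln10_12_0_ok) (L (nat_lit 431) ln15_13_3 ln15_13_3_ok))) (B (M (nat_lit 431) (B (L (nat_lit 395) ln15_13_3 ln15_13_3_ok) (L (nat_lit 432) ln16_13_3 ln16_13_3_ok))) (B (M (nat_lit 427) (B (M (nat_lit 431) (B (L (nat_lit 432) ln16_13_3 ln16_13_3_ok) (M (nat_lit 463) (B (L (nat_lit 462) ln11_13_0 ln11_13_0_ok) (L (nat_lit 464) ln12_13_0 ln12_13_0_ok))))) (M (nat_lit 426) (B (L (nat_lit 425) ln9_13_2 ln9_13_2_ok) (M (nat_lit 458) (B (L (nat_lit 457) ln13_13_1 ln13_13_1_ok) (L (nat_lit 459) ln14_13_1 ln14_13_1_ok))))))) (M (nat_lit 427) (B (M (nat_lit 426) (B (L (nat_lit 425) ln9_13_2 ln9_13_2_ok) (M (nat_lit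 394) (B (L (nat_lit 393) ln13_13_3 ln13_13_3_ok) (L (nat_lit 395) ln10_12_0 ln10_12_0_ok))))) (B (M (nat_lit 426) (B (L (nat_lit 425) ln9_13_2 ln9_13_2_ok) (M (nat_lit 458) (B (L (nat_lit 457) ln13_13_1 ln13_13_1_ok) (L (nat_lit 459) ln14_13_1 ln14_13_1_ok))))) (B (M (nat_lit 426) (B (M (nat_lit 394) (B (L (nat_lit 393) ln13_13_3 ln13_13_3_ok) (L (nat_lit 395) ln10_12_0 ln10_12_0_ok))) (M (nat_lit 458) (B (L (nat_lit 457) ln13_13_1 ln13_13_1_ok) (L (nat_lit 459) ln14_13_1 ln14_13_1_ok))))) (M (nat_lit 395) (B (L (nat_lit 394) ln10_12_0 ln10_12_0_ok) (M (nat_lit 459) (B (L (nat_lit 458) ln14_13_1 ln14_13_1_ok) (M (nat_lit 364) (B (L (nat_lit 332) ln12_10_5 ln12_10_5_ok) (L (nat_lit 491) ln11_15_6 ln11_15_6_ok)))))))))))))))))))))))))) (nat_lit 1386334847544579281930502452632026696468783264124728123740719198963059283254184240648144927045128292788721448874933630659377233920) (nat_lit 82377571943944010277389642938833208311236348177945030375918049730798662154536307971948053849580290963605399494522934480216102474437106292586204502006085713920)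 (nat_lit 82377571943944010277389642938833208311236348177945030375918049730798662154536307971948053849580290963605399494522934480216102474437106292586204502006085713920) (by decide +kernel)
noncomputable def c33_n4496 : Cert := (M (nat_lit 430) (B (M (nat_lit 431) (B (L (nat_lit 432) ln16_13_3 ln16_13_3_ok) (M (nat_lit 395) (B (L (nat_lit 394) ln10_12_0 ln10_12_0_ok) (L (nat_lit 428) ln15_13_3 ln15_13_3_ok))))) (B (M (nat_lit 431) (B (L (nat_lit 432) ln16_13_3 ln16_13_3_ok) (M (nat_lit 395) (B (L (nat_lit 398) ln11_12_0 ln11_12_0_ok) (L (nat_lit 428) ln15_13_3 ln15_13_3_ok))))) (B (M (nat_lit 431) (B (L (nat_lit 432) ln16_13_3 ln16_13_3_ok) (M (nat_lit 428) (B (M (nat_lit 460) (B (L (nat_lit 459) ln15_13_1 ln15_13_1_ok) (M (nat_lit 492) (B (L (nat_lit 365) ln12_15_6 ln12_15_6_ok) (L (nat_lit 524) ln12_16_6 ln12_16_6_ok))))) (M (nat_lit 399) (B (L (nat_lit 400) ln12_13_2 ln12_13_2_ok) (M (nat_lit 427) (B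 (L (nat_lit 398) ln15_12_1 ln15_12_1_ok) (M (nat_lit 463) (B (L (nat_lit 462) ln11_13_0 ln11_13_0_ok) (L (nat_lit 464) ln12_13_0 ln12_13_0_ok))))))))))) (B (M (nat_lit 395) (B (L (nat_lit 394) ln10_12_0 ln10_12_0_ok) (M (nat_lit 431) (B (L (nat_lit 398) ln11_12_0 ln11_12_0_ok) (L (nat_lit 432) ln16_13_3 ln16_13_3_ok))))) (M (nat_lit 398) (B (M (nat_lit 395) (B (L (nat_lit 394) ln10_12_0 ln10_12_0_ok) (M (nat_lit 399) (B (M (nat_lit 363) (B (L (nat_lit 362) ln14_12_3 ln14_12_3_ok) (L (nat_lit 364) ln15_12_3 ln15_12_3_ok))) (M (nat_lit 367) (B (L (nat_lit 366) ln11_12_2 ln11_12_2_ok) (L (nat_lit 368) ln12_12_2 ln12_12_2_ok))))))) (B (M (nat_lit 395) (B (L (nat_lit 394) ln10_12_0 ln10_12_0_ok) (M (nat_lit 399) (B (M (nat_lit 367) (B (L (nat_lit 366) ln11_12_2 ln11_12_2_ok) (L (nat_lit 368) ln12_12_2 ln12_12_2_ok))) (M (nat_lit 400) (B (L (nat_lit 428) ln16_12_1 ln16_12_1_ok) (L (nat_lit 401) ln17_12_1 ln17_12_1_ok)))))))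 (B (M (nat_lit 395) (B (L (nat_lit 394) ln10_12_0 ln10_12_0_ok) (M (nat_lit 399) (B (M (nat_lit 363) (B (L (nat_lit 362) ln14_12_3 ln14_12_3_ok) (L (nat_lit 364) ln15_12_3 ln15_12_3_ok))) (M (nat_lit 400) (B (L (nat_lit 428) ln16_12_1 ln16_12_1_ok) (L (nat_lit 401) ln17_12_1 ln17_12_1_ok))))))) (B (M (nat_lit 399) (B (M (nat_lit 428) (B (L (nat_lit 427) ln15_12_1 ln15_12_1_ok) (L (nat_lit 400) ln16_12_1 ln16_12_1_ok))) (M (nat_lit 395) (B (M (nat_lit 363) (B (L (nat_lit 362) ln14_12_3 ln14_12_3_ok) (L (nat_lit 364) ln15_12_3 ln15_12_3_ok))) (M (nat_lit 367) (B (L (nat_lit 366) ln11_12_2 ln11_12_2_ok) (L (nat_lit 368) ln12_12_2 ln12_12_2_ok))))))) (B (M (nat_lit 462) (B (M (nat_lit 494) (B (L (nat_lit 365) ln14_15_7 ln14_15_7_ok) (L (nat_lit 526) ln14_16_7 ln14_16_7_ok))) (B (M (nat_lit 399) (B (M (nat_lit 367) (B (L (nat_lit 368) ln12_12_2 ln12_12_2_ok) (L (nat_lit 494) ln14_15_6 ln14_15_6_ok))) (M (nat_lit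 428) (B (L (nat_lit 427) ln15_12_1 ln15_12_1_ok) (L (nat_lit 400) ln16_12_1 ln16_12_1_ok))))) (M (nat_lit 399) (B (M (nat_lit 428) (B (L (nat_lit 427) ln15_12_1 ln15_12_1_ok) (L (nat_lit 400) ln16_12_1 ln16_12_1_ok))) (M (nat_lit 367) (B (L (nat_lit 368) ln12_12_2 ln12_12_2_ok) (M (nat_lit 335) (B (L (nat_lit 303) ln15_9_5 ln15_9_5_ok) (L (nat_lit 366) ln14_14_6 ln14_14_6_ok)))))))))) (M (nat_lit 462) (B (M (nat_lit 365) (B (L (nat_lit 333) ln13_10_4 ln13_10_4_ok) (L (nat_lit 494) ln14_15_7 ln14_15_7_ok))) (B (M (nat_lit 494) (B (L (nat_lit 365) ln14_15_7 ln14_15_7_ok) (L (nat_lit 526) ln14_16_7 ln14_16_7_ok))) (B (M (nat_lit 494) (B (L (nat_lit 526) ln14_16_7 ln14_16_7_ok) (M (nat_lit 366) (B (M (nat_lit 367) (B (L (nat_lit 335) ln14_14_6 ln14_14_6_ok) (L (nat_lit 395) ln11_12_2 ln11_12_2_ok))) (M (nat_lit 495) (B (L (nat_lit 463) ln14_11_4 ln14_11_4_ok) (L (nat_lit 527) ln14_12_4 ln14_12_4_ok)))))))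 (M (nat_lit 333) (B (L (nat_lit 365) ln13_10_4 ln13_10_4_ok) (M (nat_lit 366) (B (M (nat_lit 334) (B (L (nat_lit 301) ln14_13_7 ln14_13_7_ok) (L (nat_lit 302) ln14_9_5 ln14_9_5_ok))) (M (nat_lit 367) (B (L (nat_lit 335) ln14_14_6 ln14_14_6_ok) (L (nat_lit 395) ln11_12_2 ln11_12_2_ok))))))))))))))))))))))
theorem c33_s4586 : Sem (nat_lit 1386334847544579281930502452632026696468783264124728123740719198963059283254184240648144927045128292788721448874933630659377233920) (nat_lit 659020575538765399485679705167172772061888105283434019255050799492503216740610995956317211539903057498452561165967924743363505687170415166443616944328781332480) (nat_lit 659020575538765399485679705167172772061888105283434019255050799492503216740610995956317211539903057498452561165967924743363505687170415166443616944328781332480) :=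
  sem_of_chk (M (nat_lit 430) (B (M (nat_lit 395) (B (L (nat_lit 394) ln10_12_0 ln10_12_0_ok) (M (nat_lit 431) (B (L (nat_lit 398) ln11_12_0 ln11_12_0_ok) (L (nat_lit 432) ln16_13_3 ln16_13_3_ok))))) (B (M (nat_lit 431) (B (L (nat_lit 432) ln16_13_3 ln16_13_3_ok) (M (nat_lit 395) (B (L (nat_lit 398) ln11_12_0 ln11_12_0_ok) (L (nat_lit 428) ln15_13_3 ln15_13_3_ok))))) (B (M (nat_lit 399) (B (M (nat_lit 431) (B (L (nat_lit 432) ln16_13_3 ln16_13_3_ok) (M (nat_lit 400) (B (L (nat_lit 428) ln12_13_2 ln12_13_2_ok) (M (nat_lit 398) (B (L (nat_lit 401) ln17_12_1 ln17_12_1_ok) (M (nat_lit 368) (B (L (nat_lit 367) ln12_12_2 ln12_12_2_ok) (L (nat_lit 369) ln13_12_2 ln13_12_2_ok))))))))) (B (M (nat_lit 365) (B (M (nat_lit 462) (B (L (nat_lit 333) ln13_10_4 ln13_10_4_ok) (M (nat_lit 494) (B (L (nat_lit 398) ln14_15_7 ln14_15_7_ok) (L (nat_lit 526) ln14_16_7 ln14_16_7_ok))))) (B (M (nat_lit 400) (B (M (nat_lit 398)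 (B (L (nat_lit 364) ln16_12_3 ln16_12_3_ok) (L (nat_lit 428) ln16_12_1 ln16_12_1_ok))) (B (M (nat_lit 398) (B (L (nat_lit 428) ln16_12_1 ln16_12_1_ok) (L (nat_lit 401) ln17_12_1 ln17_12_1_ok))) (B (M (nat_lit 431) (B (L (nat_lit 432) ln16_13_3 ln16_13_3_ok) (L (nat_lit 428) ln12_13_2 ln12_13_2_ok))) (M (nat_lit 398) (B (L (nat_lit 364) ln16_12_3 ln16_12_3_ok) (L (nat_lit 401) ln17_12_1 ln17_12_1_ok))))))) (M (nat_lit 428) (B (M (nat_lit 333) (B (L (nat_lit 460) ln13_10_5 ln13_10_5_ok) (L (nat_lit 462) ln13_10_4 ln13_10_4_ok))) (M (nat_lit 431) (B (L (nat_lit 432) ln16_13_3 ln16_13_3_ok) (L (nat_lit 400) ln12_13_2 ln12_13_2_ok)))))))) (B (M (nat_lit 431) (B (L (nat_lit 432) ln16_13_3 ln16_13_3_ok) (M (nat_lit 428) (B (L (nat_lit 400) ln12_13_2 ln12_13_2_ok) (M (nat_lit 460) (B (L (nat_lit 459) ln15_13_1 ln15_13_1_ok) (M (nat_lit 365) (B (L (nat_lit 333) ln13_10_5 ln13_10_5_ok) (L (nat_lit 492) ln12_15_6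 ln12_15_6_ok))))))))) (B (M (nat_lit 462) (B (M (nat_lit 365) (B (L (nat_lit 333) ln13_10_4 ln13_10_4_ok) (M (nat_lit 494) (B (L (nat_lit 398) ln14_15_7 ln14_15_7_ok) (L (nat_lit 526) ln14_16_7 ln14_16_7_ok))))) (B (M (nat_lit 494) (B (L (nat_lit 526) ln14_16_7 ln14_16_7_ok) (M (nat_lit 398) (B (L (nat_lit 365) ln14_15_7 ln14_15_7_ok) (L (nat_lit 367) ln14_15_6 ln14_15_6_ok))))) (B (M (nat_lit 367) (B (M (nat_lit 431) (B (L (nat_lit 335) ln15_10_5 ln15_10_5_ok) (L (nat_lit 432) ln16_13_3 ln16_13_3_ok))) (M (nat_lit 398) (B (L (nat_lit 368) ln12_12_2 ln12_12_2_ok) (L (nat_lit 494) ln14_15_6 ln14_15_6_ok))))) (B (M (nat_lit 431) (B (L (nat_lit 432) ln16_13_3 ln16_13_3_ok) (M (nat_lit 494) (B (L (nat_lit 526) ln14_16_7 ln14_16_7_ok) (M (nat_lit 367) (B (L (nat_lit 335) ln15_10_5 ln15_10_5_ok) (L (nat_lit 463) ln15_11_5 ln15_11_5_ok))))))) (M (nat_lit 365) (B (L (nat_lit 333) ln13_10_4 ln13_10_4_ok) (M (nat_lit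 367) (B (M (nat_lit 431) (B (L (nat_lit 335) ln15_10_5 ln15_10_5_ok) (L (nat_lit 432) ln16_13_3 ln16_13_3_ok))) (M (nat_lit 368) (B (L (nat_lit 366) ln16_11_1 ln16_11_1_ok) (L (nat_lit 398) ln12_12_2 ln12_12_2_ok)))))))))))) (M (nat_lit 398) (B (M (nat_lit 400) (B (L (nat_lit 428) ln16_12_1 ln16_12_1_ok) (L (nat_lit 401) ln17_12_1 ln17_12_1_ok))) (M (nat_lit 367) (B (L (nat_lit 368) ln12_12_2 ln12_12_2_ok) (M (nat_lit 462) (B (L (nat_lit 494) ln14_15_6 ln14_15_6_ok) (M (nat_lit 335) (B (L (nat_lit 303) ln15_9_5 ln15_9_5_ok) (L (nat_lit 366) ln14_14_6 ln14_14_6_ok)))))))))))))) (B (M (nat_lit 431) (B (L (nat_lit 432) ln16_13_3 ln16_13_3_ok) (M (nat_lit 395) (B (L (nat_lit 394) ln10_12_0 ln10_12_0_ok) (L (nat_lit 428) ln15_13_3 ln15_13_3_ok))))) (M (nat_lit 398) (B (M (nat_lit 395) (B (L (nat_lit 394) ln10_12_0 ln10_12_0_ok) (M (nat_lit 399) (B (M (nat_lit 363) (B (L (nat_lit 362) ln14_12_3 ln14_12_3_ok)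 (L (nat_lit 364) ln15_12_3 ln15_12_3_ok))) (M (nat_lit 367) (B (L (nat_lit 366) ln11_12_2 ln11_12_2_ok) (L (nat_lit 368) ln12_12_2 ln12_12_2_ok))))))) (B (M (nat_lit 395) (B (L (nat_lit 394) ln10_12_0 ln10_12_0_ok) (M (nat_lit 399) (B (M (nat_lit 367) (B (L (nat_lit 366) ln11_12_2 ln11_12_2_ok) (L (nat_lit 368) ln12_12_2 ln12_12_2_ok))) (M (nat_lit 400) (B (L (nat_lit 428) ln16_12_1 ln16_12_1_ok) (L (nat_lit 401) ln17_12_1 ln17_12_1_ok))))))) (B (M (nat_lit 395) (B (L (nat_lit 394) ln10_12_0 ln10_12_0_ok) (M (nat_lit 399) (B (M (nat_lit 363) (B (L (nat_lit 362) ln14_12_3 ln14_12_3_ok) (L (nat_lit 364) ln15_12_3 ln15_12_3_ok))) (M (nat_lit 400) (B (L (nat_lit 428) ln16_12_1 ln16_12_1_ok) (L (nat_lit 401) ln17_12_1 ln17_12_1_ok))))))) (B (M (nat_lit 399) (B (M (nat_lit 400) (B (L (nat_lit 428) ln16_12_1 ln16_12_1_ok) (L (nat_lit 401) ln17_12_1 ln17_12_1_ok))) (M (nat_lit 395) (B (M (nat_lit 363) (B (L (nat_lit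 362) ln14_12_3 ln14_12_3_ok) (L (nat_lit 364) ln15_12_3 ln15_12_3_ok))) (M (nat_lit 367) (B (L (nat_lit 366) ln11_12_2 ln11_12_2_ok) (L (nat_lit 368) ln12_12_2 ln12_12_2_ok))))))) (B (M (nat_lit 462) (B (M (nat_lit 365) (B (L (nat_lit 333) ln13_10_4 ln13_10_4_ok) (L (nat_lit 494) ln14_15_7 ln14_15_7_ok))) (B (M (nat_lit 494) (B (L (nat_lit 365) ln14_15_7 ln14_15_7_ok) (L (nat_lit 526) ln14_16_7 ln14_16_7_ok))) (B (M (nat_lit 399) (B (M (nat_lit 367) (B (L (nat_lit 368) ln12_12_2 ln12_12_2_ok) (L (nat_lit 494) ln14_15_6 ln14_15_6_ok))) (M (nat_lit 400) (B (L (nat_lit 428) ln16_12_1 ln16_12_1_ok) (L (nat_lit 401) ln17_12_1 ln17_12_1_ok))))) (M (nat_lit 366) (B (M (nat_lit 365) (B (L (nat_lit 333) ln14_14_7 ln14_14_7_ok) (M (nat_lit 367) (B (L (nat_lit 335) ln14_14_6 ln14_14_6_ok) (L (nat_lit 368) ln16_11_1 ln16_11_1_ok))))) (B (M (nat_lit 334) (B (L (nat_lit 302) ln14_9_5 ln14_9_5_ok) (M (nat_lit 335) (B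 (L (nat_lit 303) ln14_13_6 ln14_13_6_ok) (L (nat_lit 367) ln14_14_6 ln14_14_6_ok))))) (M (nat_lit 333) (B (L (nat_lit 365) ln14_14_7 ln14_14_7_ok) (M (nat_lit 334) (B (L (nat_lit 301) ln14_13_7 ln14_13_7_ok) (L (nat_lit 302) ln14_9_5 ln14_9_5_ok)))))))))))) (M (nat_lit 462) (B (M (nat_lit 365) (B (L (nat_lit 333) ln13_10_4 ln13_10_4_ok) (L (nat_lit 494) ln14_15_7 ln14_15_7_ok))) (B (M (nat_lit 494) (B (L (nat_lit 365) ln14_15_7 ln14_15_7_ok) (L (nat_lit 526) ln14_16_7 ln14_16_7_ok))) (B (M (nat_lit 494) (B (L (nat_lit 526) ln14_16_7 ln14_16_7_ok) (M (nat_lit 366) (B (M (nat_lit 367) (B (L (nat_lit 335) ln14_14_6 ln14_14_6_ok) (L (nat_lit 395) ln11_12_2 ln11_12_2_ok))) (M (nat_lit 495) (B (L (nat_lit 463) ln14_11_4 ln14_11_4_ok) (L (nat_lit 527) ln14_12_4 ln14_12_4_ok))))))) (M (nat_lit 333) (B (L (nat_lit 365) ln13_10_4 ln13_10_4_ok) (M (nat_lit 366) (B (M (nat_lit 334) (B (L (nat_lit 301) ln14_13_7 ln14_13_7_ok)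 (L (nat_lit 302) ln14_9_5 ln14_9_5_ok))) (M (nat_lit 367) (B (L (nat_lit 335) ln14_14_6 ln14_14_6_ok) (L (nat_lit 395) ln11_12_2 ln11_12_2_ok)))))))))))))))))))))) (nat_lit 1386334847544579281930502452632026696468783264124728123740719198963059283254184240648144927045128292788721448874933630659377233920) (nat_lit 659020575538765399485679705167172772061888105283434019255050799492503216740610995956317211539903057498452561165967924743363505687170415166443616944328781332480) (nat_lit 659020575538765399485679705167172772061888105283434019255050799492503216740610995956317211539903057498452561165967924743363505687170415166443616944328781332480) (by decide +kernel)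
noncomputable def c33_n4834 : Cert := (M (nat_lit 427) (B (M (nat_lit 426) (B (L (nat_lit 398) ln14_12_1 ln14_12_1_ok) (M (nat_lit 425) (B (L (nat_lit 424) ln8_13_2 ln8_13_2_ok) (L (nat_lit 428) ln9_13_2 ln9_13_2_ok))))) (B (M (nat_lit 459) (B (M (nat_lit 364) (B (L (nat_lit 491) ln11_15_6 ln11_15_6_ok) (M (nat_lit 332) (B (L (nat_lit 300) ln12_9_5 ln12_9_5_ok) (L (nat_lit 428) ln12_10_5 ln12_10_5_ok))))) (B (M (nat_lit 364) (B (L (nat_lit 491) ln11_15_6 ln11_15_6_ok) (M (nat_lit 332) (B (L (nat_lit 363) ln11_14_6 ln11_14_6_ok) (L (nat_lit 428) ln12_10_5 ln12_10_5_ok))))) (B (M (nat_lit 491) (B (L (nat_lit 364) ln11_15_6 ln11_15_6_ok) (M (nat_lit 363) (B (M (nat_lit 490) (B (L (nat_lit 458) ln11_11_5 ln11_11_5_ok) (L (nat_lit 522) ln11_12_5 ln11_12_5_ok))) (M (nat_lit 492) (B (L (nat_lit 460) ln11_11_4 ln11_11_4_ok) (L (nat_lit 524) ln11_12_4 ln11_12_4_ok))))))) (B (M (nat_lit 363) (B (M (nat_lit 331)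 (B (M (nat_lit 330) (B (L (nat_lit 298) ln11_13_7 ln11_13_7_ok) (L (nat_lit 362) ln11_14_7 ln11_14_7_ok))) (M (nat_lit 460) (B (L (nat_lit 428) ln11_10_4 ln11_10_4_ok) (L (nat_lit 492) ln11_11_4 ln11_11_4_ok))))) (B (M (nat_lit 426) (B (M (nat_lit 458) (B (L (nat_lit 331) ln11_10_5 ln11_10_5_ok) (L (nat_lit 490) ln11_11_5 ln11_11_5_ok))) (M (nat_lit 425) (B (L (nat_lit 424) ln8_13_2 ln8_13_2_ok) (L (nat_lit 428) ln9_13_2 ln9_13_2_ok))))) (M (nat_lit 491) (B (M (nat_lit 490) (B (L (nat_lit 458) ln11_11_5 ln11_11_5_ok) (L (nat_lit 522) ln11_12_5 ln11_12_5_ok))) (M (nat_lit 492) (B (L (nat_lit 460) ln11_11_4 ln11_11_4_ok) (L (nat_lit 524) ln11_12_4 ln11_12_4_ok)))))))) (M (nat_lit 363) (B (M (nat_lit 364) (B (L (nat_lit 332) ln11_14_6 ln11_14_6_ok) (M (nat_lit 362) (B (L (nat_lit 330) ln11_14_7 ln11_14_7_ok) (L (nat_lit 361) ln9_11_0 ln9_11_0_ok))))) (M (nat_lit 426) (B (M (nat_lit 458) (B (L (nat_lit 331)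 ln11_10_5 ln11_10_5_ok) (L (nat_lit 490) ln11_11_5 ln11_11_5_ok))) (M (nat_lit 425) (B (L (nat_lit 424) ln8_13_2 ln8_13_2_ok) (L (nat_lit 428) ln9_13_2 ln9_13_2_ok)))))))))))) (B (M (nat_lit 398) (B (L (nat_lit 426) ln14_12_1 ln14_12_1_ok) (M (nat_lit 399) (B (L (nat_lit 428) ln15_12_1 ln15_12_1_ok) (M (nat_lit 363) (B (L (nat_lit 362) ln14_12_3 ln14_12_3_ok) (L (nat_lit 364) ln15_12_3 ln15_12_3_ok))))))) (B (M (nat_lit 364) (B (M (nat_lit 332) (B (L (nat_lit 300) ln12_9_5 ln12_9_5_ok) (M (nat_lit 459) (B (L (nat_lit 363) ln11_14_6 ln11_14_6_ok) (L (nat_lit 491) ln11_15_6 ln11_15_6_ok))))) (B (M (nat_lit 459) (B (L (nat_lit 491) ln11_15_6 ln11_15_6_ok) (M (nat_lit 332) (B (L (nat_lit 363) ln11_14_6 ln11_14_6_ok) (L (nat_lit 428) ln12_10_5 ln12_10_5_ok))))) (B (M (nat_lit 363) (B (M (nat_lit 398) (B (L (nat_lit 362) ln14_12_3 ln14_12_3_ok) (L (nat_lit 399) ln15_12_3 ln15_12_3_ok))) (M (nat_lit 331) (B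 (M (nat_lit 330) (B (L (nat_lit 298) ln11_13_7 ln11_13_7_ok) (L (nat_lit 365) ln14_11_3 ln14_11_3_ok))) (M (nat_lit 428) (B (L (nat_lit 299) ln11_9_4 ln11_9_4_ok) (L (nat_lit 460) ln12_14_7 ln12_14_7_ok))))))) (M (nat_lit 332) (B (L (nat_lit 300) ln12_9_5 ln12_9_5_ok) (M (nat_lit 459) (B (L (nat_lit 428) ln12_10_5 ln12_10_5_ok) (L (nat_lit 491) ln11_15_6 ln11_15_6_ok))))))))) (M (nat_lit 398) (B (L (nat_lit 426) ln14_12_1 ln14_12_1_ok) (M (nat_lit 363) (B (L (nat_lit 362) ln14_12_3 ln14_12_3_ok) (M (nat_lit 364) (B (L (nat_lit 399) ln15_12_3 ln15_12_3_ok) (M (nat_lit 332) (B (L (nat_lit 300) ln12_9_5 ln12_9_5_ok) (L (nat_lit 459) ln11_14_6 ln11_14_6_ok))))))))))))))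
noncomputable def c33_n4837 : Cert := (M (nat_lit 395) (B (M (nat_lit 394) (B (L (nat_lit 365) ln10_12_2 ln10_12_2_ok) (M (nat_lit 393) (B (L (nat_lit 428) ln9_12_0 ln9_12_0_ok) (M (nat_lit 425) (B (L (nat_lit 424) ln12_12_1 ln12_12_1_ok) (L (nat_lit 426) ln13_12_1 ln13_12_1_ok))))))) (B (M (nat_lit 394) (B (M (nat_lit 393) (B (L (nat_lit 428) ln9_12_0 ln9_12_0_ok) (M (nat_lit 425) (B (L (nat_lit 424) ln12_12_1 ln12_12_1_ok) (L (nat_lit 426) ln13_12_1 ln13_12_1_ok))))) (B (M (nat_lit 398) (B (M (nat_lit 362) (B (L (nat_lit 361) ln13_12_3 ln13_12_3_ok) (L (nat_lit 363) ln14_12_3 ln14_12_3_ok))) (M (nat_lit 426) (B (L (nat_lit 425) ln13_12_1 ln13_12_1_ok) (L (nat_lit 427) ln14_12_1 ln14_12_1_ok))))) (M (nat_lit 393) (B (L (nat_lit 428) ln9_12_0 ln9_12_0_ok) (M (nat_lit 361) (B (L (nat_lit 360) ln12_12_3 ln12_12_3_ok) (L (nat_lit 362) ln13_12_3 ln13_12_3_ok)))))))) (B (M (nat_lit 394) (B (L (nat_lit 365)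 ln10_12_2 ln10_12_2_ok) (M (nat_lit 398) (B (M (nat_lit 362) (B (L (nat_lit 361) ln13_12_3 ln13_12_3_ok) (L (nat_lit 363) ln14_12_3 ln14_12_3_ok))) (M (nat_lit 426) (B (L (nat_lit 425) ln13_12_1 ln13_12_1_ok) (L (nat_lit 427) ln14_12_1 ln14_12_1_ok))))))) (B c33_n4834 (M (nat_lit 394) (B (L (nat_lit 365) ln10_12_2 ln10_12_2_ok) (M (nat_lit 393) (B (L (nat_lit 428) ln9_12_0 ln9_12_0_ok) (M (nat_lit 361) (B (L (nat_lit 360) ln12_12_3 ln12_12_3_ok) (L (nat_lit 362) ln13_12_3 ln13_12_3_ok))))))))))))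
noncomputable def c33_n4937 : Cert := (M (nat_lit 365) (B (M (nat_lit 367) (B (L (nat_lit 368) ln16_11_1 ln16_11_1_ok) (M (nat_lit 395) (B (L (nat_lit 364) ln15_11_1 ln15_11_1_ok) (L (nat_lit 398) ln11_12_2 ln11_12_2_ok))))) (B (M (nat_lit 428) (B (M (nat_lit 333) (B (L (nat_lit 301) ln13_9_5 ln13_9_5_ok) (L (nat_lit 460) ln13_10_5 ln13_10_5_ok))) (M (nat_lit 398) (B (M (nat_lit 367) (B (L (nat_lit 368) ln16_11_1 ln16_11_1_ok) (L (nat_lit 395) ln11_12_2 ln11_12_2_ok))) (M (nat_lit 427) (B (L (nat_lit 399) ln15_12_1 ln15_12_1_ok) (L (nat_lit 426) ln10_13_2 ln10_13_2_ok))))))) (B (M (nat_lit 364) (B (M (nat_lit 333) (B (M (nat_lit 428) (B (L (nat_lit 301) ln13_9_5 ln13_9_5_ok) (L (nat_lit 460) ln12_14_6 ln12_14_6_ok))) (M (nat_lit 334) (B (L (nat_lit 302) ln13_13_6 ln13_13_6_ok) (M (nat_lit 363) (B (L (nat_lit 362) ln10_11_2 ln10_11_2_ok) (L (nat_lit 335) ln11_11_2 ln11_11_2_ok))))))) (B (M (nat_lit 398)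 (B (M (nat_lit 363) (B (L (nat_lit 362) ln10_11_0 ln10_11_0_ok) (L (nat_lit 399) ln11_11_0 ln11_11_0_ok))) (B (M (nat_lit 363) (B (L (nat_lit 399) ln11_11_0 ln11_11_0_ok) (M (nat_lit 334) (B (L (nat_lit 302) ln14_9_5 ln14_9_5_ok) (L (nat_lit 335) ln11_11_2 ln11_11_2_ok))))) (B (M (nat_lit 428) (B (M (nat_lit 460) (B (L (nat_lit 333) ln12_14_6 ln12_14_6_ok) (L (nat_lit 492) ln12_15_6 ln12_15_6_ok))) (M (nat_lit 427) (B (L (nat_lit 399) ln15_12_1 ln15_12_1_ok) (L (nat_lit 426) ln10_13_2 ln10_13_2_ok))))) (M (nat_lit 334) (B (L (nat_lit 302) ln14_9_5 ln14_9_5_ok) (M (nat_lit 363) (B (L (nat_lit 335) ln11_11_2 ln11_11_2_ok) (L (nat_lit 362) ln10_11_0 ln10_11_0_ok))))))))) (B (M (nat_lit 428) (B (M (nat_lit 460) (B (L (nat_lit 333) ln12_14_6 ln12_14_6_ok) (L (nat_lit 492) ln12_15_6 ln12_15_6_ok))) (M (nat_lit 427) (B (M (nat_lit 332) (B (L (nat_lit 300) ln12_9_4 ln12_9_4_ok) (L (nat_lit 459) ln12_10_5 ln12_10_5_ok)))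 (M (nat_lit 426) (B (L (nat_lit 425) ln9_13_2 ln9_13_2_ok) (L (nat_lit 398) ln10_13_2 ln10_13_2_ok))))))) (B (M (nat_lit 428) (B (M (nat_lit 459) (B (M (nat_lit 332) (B (L (nat_lit 300) ln12_9_4 ln12_9_4_ok) (L (nat_lit 427) ln12_10_5 ln12_10_5_ok))) (M (nat_lit 460) (B (L (nat_lit 491) ln12_11_5 ln12_11_5_ok) (L (nat_lit 492) ln12_15_6 ln12_15_6_ok))))) (B (M (nat_lit 363) (B (M (nat_lit 331) (B (L (nat_lit 330) ln14_11_3 ln14_11_3_ok) (L (nat_lit 460) ln12_14_7 ln12_14_7_ok))) (M (nat_lit 362) (B (L (nat_lit 361) ln9_11_0 ln9_11_0_ok) (L (nat_lit 398) ln10_11_0 ln10_11_0_ok))))) (M (nat_lit 427) (B (M (nat_lit 332) (B (L (nat_lit 300) ln12_9_4 ln12_9_4_ok) (L (nat_lit 459) ln12_10_5 ln12_10_5_ok))) (M (nat_lit 426) (B (L (nat_lit 425) ln9_13_2 ln9_13_2_ok) (L (nat_lit 398) ln10_13_2 ln10_13_2_ok)))))))) (M (nat_lit 363) (B (M (nat_lit 398) (B (L (nat_lit 362) ln10_11_0 ln10_11_0_ok) (L (nat_lit 399)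 ln11_11_0 ln11_11_0_ok))) (B (M (nat_lit 398) (B (L (nat_lit 399) ln11_11_0 ln11_11_0_ok) (M (nat_lit 334) (B (L (nat_lit 302) ln14_9_5 ln14_9_5_ok) (L (nat_lit 335) ln11_11_2 ln11_11_2_ok))))) (M (nat_lit 334) (B (L (nat_lit 335) ln11_11_2 ln11_11_2_ok) (M (nat_lit 302) (B (L (nat_lit 270) ln14_8_5 ln14_8_5_ok) (L (nat_lit 333) ln13_13_6 ln13_13_6_ok))))))))))))) (M (nat_lit 367) (B (L (nat_lit 368) ln16_11_1 ln16_11_1_ok) (M (nat_lit 364) (B (L (nat_lit 395) ln15_11_1 ln15_11_1_ok) (M (nat_lit 332) (B (L (nat_lit 300) ln12_9_4 ln12_9_4_ok) (L (nat_lit 331) ln15_11_3 ln15_11_3_ok)))))))))))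
theorem c33_s5056 : Sem (nat_lit 1386334847544579282080809177929552023053710022319245693492762882093191754979450862826206304652463233170398184771558827653421072384) (nat_lit 19180023121424204727334895793267460205654826207070817097253713945425519839158292522219834762709247297916618679396740030700236116926377570408960360448) (nat_lit 19180023121424204727334895793267460205654826207070817097253713945425519839158292522219834762709247297916618679396740030700236116926377570408960360448) :=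
  sem_of_chk (M (nat_lit 365) (B (M (nat_lit 367) (B (L (nat_lit 368) ln16_11_1 ln16_11_1_ok) (M (nat_lit 364) (B (M (nat_lit 332) (B (L (nat_lit 300) ln12_9_4 ln12_9_4_ok) (L (nat_lit 331) ln15_11_3 ln15_11_3_ok))) (M (nat_lit 334) (B (M (nat_lit 302) (B (L (nat_lit 270) ln14_8_5 ln14_8_5_ok) (L (nat_lit 333) ln13_13_6 ln13_13_6_ok))) (M (nat_lit 335) (B (L (nat_lit 363) ln11_11_2 ln11_11_2_ok) (L (nat_lit 336) ln12_11_2 ln12_11_2_ok))))))))) (B (M (nat_lit 367) (B (L (nat_lit 368) ln16_11_1 ln16_11_1_ok) (M (nat_lit 364) (B (M (nat_lit 332) (B (L (nat_lit 300) ln12_9_4 ln12_9_4_ok) (L (nat_lit 331) ln15_11_3 ln15_11_3_ok))) (M (nat_lit 363) (B (M (nat_lit 335) (B (L (nat_lit 334) ln11_11_2 ln11_11_2_ok) (L (nat_lit 336) ln12_11_2 ln12_11_2_ok))) (M (nat_lit 399) (B (L (nat_lit 398) ln11_11_0 ln11_11_0_ok) (L (nat_lit 400) ln12_11_0 ln12_11_0_ok))))))))) (B (M (nat_lit 367) (B (L (nat_lit 368) ln16_11_1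 ln16_11_1_ok) (M (nat_lit 428) (B (M (nat_lit 460) (B (L (nat_lit 333) ln13_10_5 ln13_10_5_ok) (L (nat_lit 492) ln12_15_6 ln12_15_6_ok))) (B (M (nat_lit 364) (B (M (nat_lit 399) (B (L (nat_lit 400) ln12_11_0 ln12_11_0_ok) (M (nat_lit 398) (B (L (nat_lit 363) ln11_11_0 ln11_11_0_ok) (L (nat_lit 427) ln15_12_1 ln15_12_1_ok))))) (B (M (nat_lit 427) (B (M (nat_lit 332) (B (L (nat_lit 331) ln15_11_3 ln15_11_3_ok) (L (nat_lit 459) ln12_10_5 ln12_10_5_ok))) (M (nat_lit 426) (B (L (nat_lit 425) ln9_13_2 ln9_13_2_ok) (L (nat_lit 398) ln10_13_2 ln10_13_2_ok))))) (M (nat_lit 460) (B (L (nat_lit 492) ln12_15_6 ln12_15_6_ok) (M (nat_lit 331) (B (L (nat_lit 332) ln15_11_3 ln15_11_3_ok) (L (nat_lit 363) ln12_14_7 ln12_14_7_ok)))))))) (M (nat_lit 364) (B (M (nat_lit 399) (B (L (nat_lit 400) ln12_11_0 ln12_11_0_ok) (M (nat_lit 398) (B (L (nat_lit 363) ln11_11_0 ln11_11_0_ok) (L (nat_lit 427) ln15_12_1 ln15_12_1_ok)))))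 (B (M (nat_lit 427) (B (M (nat_lit 332) (B (L (nat_lit 331) ln15_11_3 ln15_11_3_ok) (L (nat_lit 459) ln12_10_5 ln12_10_5_ok))) (M (nat_lit 426) (B (L (nat_lit 425) ln9_13_2 ln9_13_2_ok) (L (nat_lit 398) ln10_13_2 ln10_13_2_ok))))) (M (nat_lit 334) (B (M (nat_lit 302) (B (L (nat_lit 270) ln14_8_5 ln14_8_5_ok) (L (nat_lit 333) ln13_13_6 ln13_13_6_ok))) (M (nat_lit 335) (B (L (nat_lit 363) ln11_11_2 ln11_11_2_ok) (L (nat_lit 336) ln12_11_2 ln12_11_2_ok))))))))))))) (B (M (nat_lit 364) (B (M (nat_lit 363) (B (M (nat_lit 398) (B (L (nat_lit 362) ln10_11_0 ln10_11_0_ok) (L (nat_lit 399) ln11_11_0 ln11_11_0_ok))) (B (M (nat_lit 398) (B (L (nat_lit 399) ln11_11_0 ln11_11_0_ok) (M (nat_lit 334) (B (L (nat_lit 302) ln14_9_5 ln14_9_5_ok) (L (nat_lit 335) ln11_11_2 ln11_11_2_ok))))) (M (nat_lit 334) (B (L (nat_lit 335) ln11_11_2 ln11_11_2_ok) (M (nat_lit 302) (B (L (nat_lit 270) ln14_8_5 ln14_8_5_ok) (L (nat_lit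 333) ln13_13_6 ln13_13_6_ok)))))))) (B (M (nat_lit 398) (B (M (nat_lit 363) (B (L (nat_lit 362) ln10_11_0 ln10_11_0_ok) (L (nat_lit 399) ln11_11_0 ln11_11_0_ok))) (B (M (nat_lit 399) (B (L (nat_lit 363) ln11_11_0 ln11_11_0_ok) (L (nat_lit 400) ln16_12_3 ln16_12_3_ok))) (B (M (nat_lit 428) (B (M (nat_lit 460) (B (L (nat_lit 333) ln12_14_6 ln12_14_6_ok) (L (nat_lit 492) ln12_15_6 ln12_15_6_ok))) (M (nat_lit 427) (B (L (nat_lit 399) ln15_12_1 ln15_12_1_ok) (L (nat_lit 426) ln10_13_2 ln10_13_2_ok))))) (M (nat_lit 334) (B (L (nat_lit 302) ln14_9_5 ln14_9_5_ok) (M (nat_lit 363) (B (L (nat_lit 335) ln11_11_2 ln11_11_2_ok) (L (nat_lit 362) ln10_11_0 ln10_11_0_ok))))))))) (B (M (nat_lit 428) (B (M (nat_lit 460) (B (L (nat_lit 333) ln12_14_6 ln12_14_6_ok) (L (nat_lit 492) ln12_15_6 ln12_15_6_ok))) (M (nat_lit 427) (B (M (nat_lit 332) (B (L (nat_lit 300) ln12_9_4 ln12_9_4_ok) (L (nat_lit 459) ln12_10_5 ln12_10_5_ok)))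 (M (nat_lit 426) (B (L (nat_lit 425) ln9_13_2 ln9_13_2_ok) (L (nat_lit 398) ln10_13_2 ln10_13_2_ok))))))) (B (M (nat_lit 367) (B (L (nat_lit 368) ln16_11_1 ln16_11_1_ok) (M (nat_lit 363) (B (M (nat_lit 335) (B (L (nat_lit 334) ln11_11_2 ln11_11_2_ok) (L (nat_lit 336) ln12_11_2 ln12_11_2_ok))) (M (nat_lit 399) (B (L (nat_lit 398) ln11_11_0 ln11_11_0_ok) (L (nat_lit 400) ln12_11_0 ln12_11_0_ok))))))) (M (nat_lit 367) (B (L (nat_lit 368) ln16_11_1 ln16_11_1_ok) (M (nat_lit 334) (B (M (nat_lit 302) (B (L (nat_lit 270) ln14_8_5 ln14_8_5_ok) (L (nat_lit 333) ln13_13_6 ln13_13_6_ok))) (M (nat_lit 335) (B (L (nat_lit 363) ln11_11_2 ln11_11_2_ok) (L (nat_lit 336) ln12_11_2 ln12_11_2_ok)))))))))))) (B (M (nat_lit 367) (B (L (nat_lit 368) ln16_11_1 ln16_11_1_ok) (M (nat_lit 399) (B (M (nat_lit 364) (B (L (nat_lit 400) ln12_11_0 ln12_11_0_ok) (M (nat_lit 363) (B (L (nat_lit 398) ln11_11_0 ln11_11_0_ok) (M (nat_lit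 335) (B (L (nat_lit 334) ln11_11_2 ln11_11_2_ok) (L (nat_lit 336) ln12_11_2 ln12_11_2_ok))))))) (B (M (nat_lit 428) (B (M (nat_lit 333) (B (L (nat_lit 301) ln13_9_5 ln13_9_5_ok) (L (nat_lit 460) ln13_10_5 ln13_10_5_ok))) (M (nat_lit 398) (B (L (nat_lit 427) ln15_12_1 ln15_12_1_ok) (L (nat_lit 400) ln16_12_1 ln16_12_1_ok))))) (B (M (nat_lit 364) (B (L (nat_lit 400) ln12_11_0 ln12_11_0_ok) (M (nat_lit 334) (B (M (nat_lit 302) (B (L (nat_lit 270) ln14_8_5 ln14_8_5_ok) (L (nat_lit 333) ln13_13_6 ln13_13_6_ok))) (M (nat_lit 335) (B (L (nat_lit 363) ln11_11_2 ln11_11_2_ok) (L (nat_lit 336) ln12_11_2 ln12_11_2_ok))))))) (M (nat_lit 398) (B (M (nat_lit 431) (B (L (nat_lit 432) ln12_12_0 ln12_12_0_ok) (M (nat_lit 334) (B (L (nat_lit 302) ln14_9_5 ln14_9_5_ok) (L (nat_lit 463) ln15_14_7 ln15_14_7_ok))))) (M (nat_lit 428) (B (L (nat_lit 427) ln15_12_1 ln15_12_1_ok) (M (nat_lit 333) (B (L (nat_lit 301) ln13_9_5 ln13_9_5_ok)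 (L (nat_lit 460) ln13_10_5 ln13_10_5_ok))))))))))))) (B (M (nat_lit 367) (B (L (nat_lit 368) ln16_11_1 ln16_11_1_ok) (M (nat_lit 333) (B (M (nat_lit 428) (B (L (nat_lit 301) ln13_9_5 ln13_9_5_ok) (L (nat_lit 460) ln13_10_5 ln13_10_5_ok))) (M (nat_lit 332) (B (L (nat_lit 300) ln13_13_7 ln13_13_7_ok) (M (nat_lit 331) (B (L (nat_lit 330) ln10_10_0 ln10_10_0_ok) (L (nat_lit 364) ln15_11_3 ln15_11_3_ok))))))))) (B (M (nat_lit 367) (B (L (nat_lit 368) ln16_11_1 ln16_11_1_ok) (M (nat_lit 333) (B (M (nat_lit 428) (B (L (nat_lit 301) ln13_9_5 ln13_9_5_ok) (L (nat_lit 460) ln13_10_5 ln13_10_5_ok))) (M (nat_lit 332) (B (L (nat_lit 300) ln13_13_7 ln13_13_7_ok) (M (nat_lit 334) (B (L (nat_lit 302) ln13_13_6 ln13_13_6_ok) (L (nat_lit 331) ln11_10_0 ln11_10_0_ok))))))))) (M (nat_lit 364) (B (M (nat_lit 398) (B (M (nat_lit 363) (B (L (nat_lit 362) ln10_11_0 ln10_11_0_ok) (L (nat_lit 399) ln11_11_0 ln11_11_0_ok))) (B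 (M (nat_lit 399) (B (L (nat_lit 363) ln11_11_0 ln11_11_0_ok) (L (nat_lit 400) ln16_12_3 ln16_12_3_ok))) (B (M (nat_lit 428) (B (M (nat_lit 460) (B (L (nat_lit 333) ln12_14_6 ln12_14_6_ok) (L (nat_lit 492) ln12_15_6 ln12_15_6_ok))) (M (nat_lit 427) (B (L (nat_lit 399) ln15_12_1 ln15_12_1_ok) (L (nat_lit 426) ln10_13_2 ln10_13_2_ok))))) (M (nat_lit 334) (B (L (nat_lit 302) ln14_9_5 ln14_9_5_ok) (M (nat_lit 363) (B (L (nat_lit 335) ln11_11_2 ln11_11_2_ok) (L (nat_lit 362) ln10_11_0 ln10_11_0_ok))))))))) (B (M (nat_lit 428) (B (M (nat_lit 460) (B (L (nat_lit 333) ln12_14_6 ln12_14_6_ok) (L (nat_lit 492) ln12_15_6 ln12_15_6_ok))) (M (nat_lit 427) (B (M (nat_lit 332) (B (L (nat_lit 300) ln12_9_4 ln12_9_4_ok) (L (nat_lit 459) ln12_10_5 ln12_10_5_ok))) (M (nat_lit 426) (B (L (nat_lit 425) ln9_13_2 ln9_13_2_ok) (L (nat_lit 398) ln10_13_2 ln10_13_2_ok))))))) (B (M (nat_lit 428) (B (M (nat_lit 459) (B (M (nat_lit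 332) (B (L (nat_lit 300) ln12_9_4 ln12_9_4_ok) (L (nat_lit 427) ln12_10_5 ln12_10_5_ok))) (M (nat_lit 460) (B (L (nat_lit 491) ln12_11_5 ln12_11_5_ok) (L (nat_lit 492) ln12_15_6 ln12_15_6_ok))))) (B (M (nat_lit 363) (B (M (nat_lit 331) (B (L (nat_lit 330) ln14_11_3 ln14_11_3_ok) (L (nat_lit 460) ln12_14_7 ln12_14_7_ok))) (M (nat_lit 362) (B (L (nat_lit 361) ln9_11_0 ln9_11_0_ok) (L (nat_lit 398) ln10_11_0 ln10_11_0_ok))))) (M (nat_lit 427) (B (M (nat_lit 332) (B (L (nat_lit 300) ln12_9_4 ln12_9_4_ok) (L (nat_lit 459) ln12_10_5 ln12_10_5_ok))) (M (nat_lit 426) (B (L (nat_lit 425) ln9_13_2 ln9_13_2_ok) (L (nat_lit 398) ln10_13_2 ln10_13_2_ok)))))))) (B (M (nat_lit 333) (B (M (nat_lit 428) (B (L (nat_lit 301) ln13_9_5 ln13_9_5_ok) (L (nat_lit 460) ln12_14_6 ln12_14_6_ok))) (M (nat_lit 334) (B (L (nat_lit 302) ln13_13_6 ln13_13_6_ok) (M (nat_lit 363) (B (L (nat_lit 362) ln10_11_2 ln10_11_2_ok) (L (nat_lit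 335) ln11_11_2 ln11_11_2_ok))))))) (M (nat_lit 363) (B (M (nat_lit 398) (B (L (nat_lit 362) ln10_11_0 ln10_11_0_ok) (L (nat_lit 399) ln11_11_0 ln11_11_0_ok))) (B (M (nat_lit 398) (B (L (nat_lit 399) ln11_11_0 ln11_11_0_ok) (M (nat_lit 334) (B (L (nat_lit 302) ln14_9_5 ln14_9_5_ok) (L (nat_lit 335) ln11_11_2 ln11_11_2_ok))))) (M (nat_lit 334) (B (L (nat_lit 335) ln11_11_2 ln11_11_2_ok) (M (nat_lit 302) (B (L (nat_lit 270) ln14_8_5 ln14_8_5_ok) (L (nat_lit 333) ln13_13_6 ln13_13_6_ok))))))))))))))))))))) (nat_lit 1386334847544579282080809177929552023053710022319245693492762882093191754979450862826206304652463233170398184771558827653421072384) (nat_lit 19180023121424204727334895793267460205654826207070817097253713945425519839158292522219834762709247297916618679396740030700236116926377570408960360448) (nat_lit 19180023121424204727334895793267460205654826207070817097253713945425519839158292522219834762709247297916618679396740030700236116926377570408960360448)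 (by decide +kernel)
theorem c33_s5125 : Sem (nat_lit 1386334847544579281930502452632026696468783264124728123740719198963059283254184240648144927045128292788721448874933630659377233920) (nat_lit 68647976623682790787511071616805607949304377607195661047667056436011603322296558233789160624157130976019420885288363590976293203048007231722405419247604858880) (nat_lit 68647976623682790787511071616805607949304377607195661047667056436011603322296558233789160624157130976019420885288363590976293203048007231722405419247604858880) :=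
  sem_of_chk (M (nat_lit 366) (B (M (nat_lit 395) (B (M (nat_lit 367) (B (L (nat_lit 398) ln11_12_2 ln11_12_2_ok) (M (nat_lit 365) (B (L (nat_lit 364) ln15_11_1 ln15_11_1_ok) (L (nat_lit 368) ln16_11_1 ln16_11_1_ok))))) (B (M (nat_lit 365) (B (L (nat_lit 394) ln10_12_2 ln10_12_2_ok) (M (nat_lit 367) (B (L (nat_lit 368) ln16_11_1 ln16_11_1_ok) (L (nat_lit 398) ln11_12_2 ln11_12_2_ok))))) (B (M (nat_lit 394) (B (M (nat_lit 393) (B (L (nat_lit 428) ln9_12_0 ln9_12_0_ok) (M (nat_lit 425) (B (L (nat_lit 424) ln12_12_1 ln12_12_1_ok) (L (nat_lit 426) ln13_12_1 ln13_12_1_ok))))) (M (nat_lit 398) (B (L (nat_lit 367) ln11_12_2 ln11_12_2_ok) (M (nat_lit 362) (B (L (nat_lit 361) ln13_12_3 ln13_12_3_ok) (L (nat_lit 363) ln14_12_3 ln14_12_3_ok))))))) (M (nat_lit 394) (B (L (nat_lit 365) ln10_12_2 ln10_12_2_ok) (M (nat_lit 393) (B (L (nat_lit 428) ln9_12_0 ln9_12_0_ok) (M (nat_lit 425) (B (L (nat_lit 424) ln12_12_1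 ln12_12_1_ok) (L (nat_lit 426) ln13_12_1 ln13_12_1_ok))))))))))) (B (M (nat_lit 395) (B (M (nat_lit 365) (B (L (nat_lit 394) ln10_12_2 ln10_12_2_ok) (M (nat_lit 367) (B (L (nat_lit 368) ln16_11_1 ln16_11_1_ok) (L (nat_lit 398) ln11_12_2 ln11_12_2_ok))))) (B (M (nat_lit 398) (B (L (nat_lit 367) ln11_12_2 ln11_12_2_ok) (M (nat_lit 399) (B (M (nat_lit 363) (B (L (nat_lit 362) ln14_12_3 ln14_12_3_ok) (L (nat_lit 364) ln15_12_3 ln15_12_3_ok))) (M (nat_lit 428) (B (L (nat_lit 427) ln15_12_1 ln15_12_1_ok) (L (nat_lit 400) ln16_12_1 ln16_12_1_ok))))))) (M (nat_lit 394) (B (L (nat_lit 365) ln10_12_2 ln10_12_2_ok) (M (nat_lit 393) (B (L (nat_lit 428) ln9_12_0 ln9_12_0_ok) (M (nat_lit 425) (B (L (nat_lit 424) ln12_12_1 ln12_12_1_ok) (L (nat_lit 426) ln13_12_1 ln13_12_1_ok)))))))))) (B (M (nat_lit 395) (B (M (nat_lit 365) (B (L (nat_lit 394) ln10_12_2 ln10_12_2_ok) (M (nat_lit 367) (B (L (nat_lit 368) ln16_11_1 ln16_11_1_ok)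 (L (nat_lit 398) ln11_12_2 ln11_12_2_ok))))) (B (M (nat_lit 394) (B (M (nat_lit 393) (B (L (nat_lit 428) ln9_12_0 ln9_12_0_ok) (M (nat_lit 425) (B (L (nat_lit 424) ln12_12_1 ln12_12_1_ok) (L (nat_lit 426) ln13_12_1 ln13_12_1_ok))))) (B (M (nat_lit 398) (B (L (nat_lit 367) ln11_12_2 ln11_12_2_ok) (M (nat_lit 426) (B (L (nat_lit 425) ln13_12_1 ln13_12_1_ok) (L (nat_lit 427) ln14_12_1 ln14_12_1_ok))))) (B (M (nat_lit 398) (B (L (nat_lit 367) ln11_12_2 ln11_12_2_ok) (M (nat_lit 428) (B (L (nat_lit 393) ln9_12_0 ln9_12_0_ok) (M (nat_lit 427) (B (L (nat_lit 426) ln14_12_1 ln14_12_1_ok) (L (nat_lit 399) ln15_12_1 ln15_12_1_ok))))))) (M (nat_lit 398) (B (L (nat_lit 367) ln11_12_2 ln11_12_2_ok) (M (nat_lit 428) (B (L (nat_lit 393) ln9_12_0 ln9_12_0_ok) (M (nat_lit 399) (B (L (nat_lit 427) ln15_12_1 ln15_12_1_ok) (L (nat_lit 400) ln16_12_1 ln16_12_1_ok))))))))))) (B (M (nat_lit 394) (B (L (nat_lit 365) ln10_12_2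 ln10_12_2_ok) (M (nat_lit 393) (B (L (nat_lit 428) ln9_12_0 ln9_12_0_ok) (M (nat_lit 425) (B (L (nat_lit 424) ln12_12_1 ln12_12_1_ok) (L (nat_lit 426) ln13_12_1 ln13_12_1_ok))))))) (M (nat_lit 367) (B (L (nat_lit 398) ln11_12_2 ln11_12_2_ok) (M (nat_lit 365) (B (L (nat_lit 364) ln15_11_1 ln15_11_1_ok) (L (nat_lit 368) ln16_11_1 ln16_11_1_ok))))))))) (B (M (nat_lit 395) (B (M (nat_lit 365) (B (L (nat_lit 394) ln10_12_2 ln10_12_2_ok) (M (nat_lit 367) (B (L (nat_lit 368) ln16_11_1 ln16_11_1_ok) (L (nat_lit 398) ln11_12_2 ln11_12_2_ok))))) (B (M (nat_lit 398) (B (L (nat_lit 367) ln11_12_2 ln11_12_2_ok) (M (nat_lit 427) (B (L (nat_lit 426) ln14_12_1 ln14_12_1_ok) (M (nat_lit 428) (B (L (nat_lit 399) ln15_12_1 ln15_12_1_ok) (M (nat_lit 363) (B (L (nat_lit 362) ln14_12_3 ln14_12_3_ok) (M (nat_lit 331) (B (L (nat_lit 299) ln11_9_4 ln11_9_4_ok) (L (nat_lit 460) ln11_10_4 ln11_10_4_ok))))))))))) (M (nat_lit 394)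 (B (L (nat_lit 365) ln10_12_2 ln10_12_2_ok) (M (nat_lit 393) (B (L (nat_lit 428) ln9_12_0 ln9_12_0_ok) (M (nat_lit 425) (B (L (nat_lit 424) ln12_12_1 ln12_12_1_ok) (L (nat_lit 426) ln13_12_1 ln13_12_1_ok)))))))))) (B (M (nat_lit 398) (B (M (nat_lit 367) (B (L (nat_lit 395) ln11_12_2 ln11_12_2_ok) (M (nat_lit 368) (B (L (nat_lit 369) ln17_11_1 ln17_11_1_ok) (L (nat_lit 399) ln12_12_2 ln12_12_2_ok))))) (B (M (nat_lit 395) (B (M (nat_lit 427) (B (L (nat_lit 426) ln14_12_1 ln14_12_1_ok) (M (nat_lit 399) (B (L (nat_lit 428) ln15_12_1 ln15_12_1_ok) (M (nat_lit 363) (B (L (nat_lit 362) ln14_12_3 ln14_12_3_ok) (L (nat_lit 364) ln15_12_3 ln15_12_3_ok))))))) (B (M (nat_lit 394) (B (M (nat_lit 426) (B (L (nat_lit 425) ln13_12_1 ln13_12_1_ok) (L (nat_lit 427) ln14_12_1 ln14_12_1_ok))) (B (M (nat_lit 428) (B (L (nat_lit 393) ln9_12_0 ln9_12_0_ok) (M (nat_lit 427) (B (L (nat_lit 426) ln14_12_1 ln14_12_1_ok) (L (nat_lit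 399) ln15_12_1 ln15_12_1_ok))))) (B (M (nat_lit 428) (B (L (nat_lit 393) ln9_12_0 ln9_12_0_ok) (M (nat_lit 399) (B (L (nat_lit 427) ln15_12_1 ln15_12_1_ok) (L (nat_lit 400) ln16_12_1 ln16_12_1_ok))))) (M (nat_lit 393) (B (L (nat_lit 428) ln9_12_0 ln9_12_0_ok) (M (nat_lit 425) (B (L (nat_lit 424) ln12_12_1 ln12_12_1_ok) (L (nat_lit 426) ln13_12_1 ln13_12_1_ok))))))))) (B (M (nat_lit 394) (B (M (nat_lit 362) (B (L (nat_lit 361) ln13_12_3 ln13_12_3_ok) (L (nat_lit 363) ln14_12_3 ln14_12_3_ok))) (M (nat_lit 426) (B (L (nat_lit 425) ln13_12_1 ln13_12_1_ok) (L (nat_lit 427) ln14_12_1 ln14_12_1_ok))))) (B (M (nat_lit 399) (B (M (nat_lit 363) (B (L (nat_lit 362) ln14_12_3 ln14_12_3_ok) (L (nat_lit 364) ln15_12_3 ln15_12_3_ok))) (M (nat_lit 428) (B (L (nat_lit 427) ln15_12_1 ln15_12_1_ok) (L (nat_lit 400) ln16_12_1 ln16_12_1_ok))))) (M (nat_lit 394) (B (M (nat_lit 362) (B (L (nat_lit 361) ln13_12_3 ln13_12_3_ok)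 (L (nat_lit 363) ln14_12_3 ln14_12_3_ok))) (M (nat_lit 393) (B (L (nat_lit 428) ln9_12_0 ln9_12_0_ok) (M (nat_lit 425) (B (L (nat_lit 424) ln12_12_1 ln12_12_1_ok) (L (nat_lit 426) ln13_12_1 ln13_12_1_ok)))))))))))) (B (M (nat_lit 399) (B (M (nat_lit 428) (B (L (nat_lit 427) ln15_12_1 ln15_12_1_ok) (L (nat_lit 400) ln16_12_1 ln16_12_1_ok))) (M (nat_lit 431) (B (L (nat_lit 432) ln12_12_0 ln12_12_0_ok) (M (nat_lit 367) (B (L (nat_lit 368) ln12_12_2 ln12_12_2_ok) (M (nat_lit 334) (B (L (nat_lit 302) ln14_9_5 ln14_9_5_ok) (L (nat_lit 463) ln15_14_7 ln15_14_7_ok))))))))) (M (nat_lit 395) (B (L (nat_lit 367) ln11_12_2 ln11_12_2_ok) (M (nat_lit 394) (B (M (nat_lit 362) (B (L (nat_lit 361) ln13_12_3 ln13_12_3_ok) (L (nat_lit 363) ln14_12_3 ln14_12_3_ok))) (M (nat_lit 426) (B (L (nat_lit 425) ln13_12_1 ln13_12_1_ok) (L (nat_lit 427) ln14_12_1 ln14_12_1_ok))))))))))) (B c33_n4837 (B (M (nat_lit 395) (B (M (nat_lit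 365) (B (L (nat_lit 394) ln10_12_2 ln10_12_2_ok) (M (nat_lit 367) (B (L (nat_lit 368) ln16_11_1 ln16_11_1_ok) (L (nat_lit 398) ln11_12_2 ln11_12_2_ok))))) (B (M (nat_lit 398) (B (L (nat_lit 367) ln11_12_2 ln11_12_2_ok) (M (nat_lit 427) (B (L (nat_lit 426) ln14_12_1 ln14_12_1_ok) (M (nat_lit 399) (B (L (nat_lit 428) ln15_12_1 ln15_12_1_ok) (M (nat_lit 363) (B (L (nat_lit 362) ln14_12_3 ln14_12_3_ok) (L (nat_lit 364) ln15_12_3 ln15_12_3_ok))))))))) (B (M (nat_lit 394) (B (L (nat_lit 365) ln10_12_2 ln10_12_2_ok) (M (nat_lit 398) (B (M (nat_lit 362) (B (L (nat_lit 361) ln13_12_3 ln13_12_3_ok) (L (nat_lit 363) ln14_12_3 ln14_12_3_ok))) (M (nat_lit 426) (B (L (nat_lit 425) ln13_12_1 ln13_12_1_ok) (L (nat_lit 427) ln14_12_1 ln14_12_1_ok))))))) (M (nat_lit 365) (B (L (nat_lit 394) ln10_12_2 ln10_12_2_ok) (M (nat_lit 367) (B (L (nat_lit 364) ln15_11_1 ln15_11_1_ok) (L (nat_lit 368) ln16_11_1 ln16_11_1_ok)))))))))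 (B c33_n4937 (B (K (nat_lit 1386334847544579282080809177929552023053710022319245693492762882093191754979450862826206304652463233170398184771558827653421072384) (nat_lit 19180023121424204727334895793267460205654826207070817097253713945425519839158292522219834762709247297916618679396740030700236116926377570408960360448) (nat_lit 19180023121424204727334895793267460205654826207070817097253713945425519839158292522219834762709247297916618679396740030700236116926377570408960360448) c33_s5056) (B (M (nat_lit 365) (B (M (nat_lit 367) (B (L (nat_lit 368) ln16_11_1 ln16_11_1_ok) (M (nat_lit 395) (B (L (nat_lit 364) ln15_11_1 ln15_11_1_ok) (L (nat_lit 394) ln10_12_2 ln10_12_2_ok))))) (B (M (nat_lit 367) (B (L (nat_lit 368) ln16_11_1 ln16_11_1_ok) (M (nat_lit 333) (B (M (nat_lit 428) (B (L (nat_lit 301) ln13_9_5 ln13_9_5_ok) (L (nat_lit 460) ln13_10_5 ln13_10_5_ok))) (M (nat_lit 332) (B (L (nat_lit 300) ln13_13_7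 ln13_13_7_ok) (M (nat_lit 334) (B (L (nat_lit 302) ln13_13_6 ln13_13_6_ok) (L (nat_lit 331) ln11_10_0 ln11_10_0_ok))))))))) (M (nat_lit 428) (B (M (nat_lit 333) (B (L (nat_lit 301) ln13_9_5 ln13_9_5_ok) (L (nat_lit 460) ln13_10_5 ln13_10_5_ok))) (B (M (nat_lit 460) (B (L (nat_lit 333) ln13_10_5 ln13_10_5_ok) (L (nat_lit 492) ln12_15_6 ln12_15_6_ok))) (B (M (nat_lit 364) (B (M (nat_lit 460) (B (L (nat_lit 492) ln12_15_6 ln12_15_6_ok) (M (nat_lit 332) (B (L (nat_lit 300) ln12_9_4 ln12_9_4_ok) (M (nat_lit 331) (B (L (nat_lit 299) ln12_13_7 ln12_13_7_ok) (L (nat_lit 363) ln12_14_7 ln12_14_7_ok))))))) (B (M (nat_lit 394) (B (L (nat_lit 395) ln10_12_2 ln10_12_2_ok) (M (nat_lit 363) (B (M (nat_lit 331) (B (L (nat_lit 330) ln14_11_3 ln14_11_3_ok) (L (nat_lit 460) ln12_14_7 ln12_14_7_ok))) (M (nat_lit 362) (B (L (nat_lit 361) ln9_11_0 ln9_11_0_ok) (L (nat_lit 393) ln13_11_1 ln13_11_1_ok))))))) (M (nat_lit 427)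 (B (M (nat_lit 332) (B (L (nat_lit 300) ln12_9_4 ln12_9_4_ok) (L (nat_lit 459) ln12_10_5 ln12_10_5_ok))) (M (nat_lit 394) (B (L (nat_lit 395) ln10_12_2 ln10_12_2_ok) (M (nat_lit 426) (B (L (nat_lit 393) ln13_13_3 ln13_13_3_ok) (L (nat_lit 425) ln9_13_2 ln9_13_2_ok)))))))))) (M (nat_lit 333) (B (L (nat_lit 301) ln13_9_5 ln13_9_5_ok) (M (nat_lit 364) (B (M (nat_lit 332) (B (L (nat_lit 300) ln13_13_7 ln13_13_7_ok) (M (nat_lit 331) (B (L (nat_lit 299) ln12_13_7 ln12_13_7_ok) (L (nat_lit 330) ln10_10_0 ln10_10_0_ok))))) (M (nat_lit 334) (B (L (nat_lit 302) ln13_13_6 ln13_13_6_ok) (M (nat_lit 335) (B (L (nat_lit 336) ln16_10_1 ln16_10_1_ok) (L (nat_lit 363) ln11_11_2 ln11_11_2_ok)))))))))))))))) (B (M (nat_lit 395) (B (M (nat_lit 365) (B (L (nat_lit 394) ln10_12_2 ln10_12_2_ok) (M (nat_lit 367) (B (L (nat_lit 364) ln15_11_1 ln15_11_1_ok) (L (nat_lit 368) ln16_11_1 ln16_11_1_ok))))) (B (M (nat_lit 365) (B (L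 (nat_lit 394) ln10_12_2 ln10_12_2_ok) (M (nat_lit 367) (B (L (nat_lit 368) ln16_11_1 ln16_11_1_ok) (L (nat_lit 398) ln11_12_2 ln11_12_2_ok))))) (B (M (nat_lit 398) (B (L (nat_lit 367) ln11_12_2 ln11_12_2_ok) (M (nat_lit 427) (B (L (nat_lit 426) ln14_12_1 ln14_12_1_ok) (M (nat_lit 399) (B (L (nat_lit 428) ln15_12_1 ln15_12_1_ok) (M (nat_lit 363) (B (L (nat_lit 362) ln14_12_3 ln14_12_3_ok) (L (nat_lit 364) ln15_12_3 ln15_12_3_ok))))))))) (M (nat_lit 394) (B (L (nat_lit 365) ln10_12_2 ln10_12_2_ok) (M (nat_lit 393) (B (L (nat_lit 428) ln9_12_0 ln9_12_0_ok) (M (nat_lit 361) (B (L (nat_lit 360) ln12_12_3 ln12_12_3_ok) (L (nat_lit 362) ln13_12_3 ln13_12_3_ok))))))))))) (B (M (nat_lit 395) (B (M (nat_lit 365) (B (L (nat_lit 394) ln10_12_2 ln10_12_2_ok) (M (nat_lit 367) (B (L (nat_lit 368) ln16_11_1 ln16_11_1_ok) (L (nat_lit 398) ln11_12_2 ln11_12_2_ok))))) (B (M (nat_lit 398) (B (L (nat_lit 367) ln11_12_2 ln11_12_2_ok)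 (M (nat_lit 399) (B (M (nat_lit 363) (B (L (nat_lit 362) ln14_12_3 ln14_12_3_ok) (L (nat_lit 364) ln15_12_3 ln15_12_3_ok))) (M (nat_lit 428) (B (L (nat_lit 427) ln15_12_1 ln15_12_1_ok) (L (nat_lit 400) ln16_12_1 ln16_12_1_ok))))))) (M (nat_lit 394) (B (L (nat_lit 365) ln10_12_2 ln10_12_2_ok) (M (nat_lit 393) (B (L (nat_lit 428) ln9_12_0 ln9_12_0_ok) (M (nat_lit 361) (B (L (nat_lit 360) ln12_12_3 ln12_12_3_ok) (L (nat_lit 362) ln13_12_3 ln13_12_3_ok)))))))))) (M (nat_lit 367) (B (M (nat_lit 368) (B (L (nat_lit 365) ln16_11_1 ln16_11_1_ok) (M (nat_lit 398) (B (L (nat_lit 369) ln17_11_1 ln17_11_1_ok) (L (nat_lit 395) ln11_12_2 ln11_12_2_ok))))) (B (M (nat_lit 398) (B (L (nat_lit 395) ln11_12_2 ln11_12_2_ok) (M (nat_lit 368) (B (L (nat_lit 369) ln17_11_1 ln17_11_1_ok) (L (nat_lit 399) ln12_12_2 ln12_12_2_ok))))) (B (M (nat_lit 395) (B (L (nat_lit 398) ln11_12_2 ln11_12_2_ok) (M (nat_lit 365) (B (L (nat_lit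 364) ln15_11_1 ln15_11_1_ok) (L (nat_lit 394) ln10_12_2 ln10_12_2_ok))))) (B (M (nat_lit 368) (B (L (nat_lit 365) ln16_11_1 ln16_11_1_ok) (M (nat_lit 398) (B (L (nat_lit 369) ln17_11_1 ln17_11_1_ok) (L (nat_lit 399) ln12_12_2 ln12_12_2_ok))))) (M (nat_lit 365) (B (L (nat_lit 368) ln16_11_1 ln16_11_1_ok) (M (nat_lit 395) (B (L (nat_lit 364) ln15_11_1 ln15_11_1_ok) (L (nat_lit 394) ln10_12_2 ln10_12_2_ok))))))))))))))))))))))) (nat_lit 1386334847544579281930502452632026696468783264124728123740719198963059283254184240648144927045128292788721448874933630659377233920) (nat_lit 68647976623682790787511071616805607949304377607195661047667056436011603322296558233789160624157130976019420885288363590976293203048007231722405419247604858880) (nat_lit 68647976623682790787511071616805607949304377607195661047667056436011603322296558233789160624157130976019420885288363590976293203048007231722405419247604858880) (by decide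 +kernel)
noncomputable def c33_n5233 : Cert := (M (nat_lit 427) (B (M (nat_lit 426) (B (L (nat_lit 398) ln14_12_1 ln14_12_1_ok) (M (nat_lit 425) (B (L (nat_lit 424) ln8_13_2 ln8_13_2_ok) (L (nat_lit 428) ln9_13_2 ln9_13_2_ok))))) (B (M (nat_lit 459) (B (M (nat_lit 364) (B (L (nat_lit 491) ln11_15_6 ln11_15_6_ok) (M (nat_lit 332) (B (L (nat_lit 300) ln12_9_5 ln12_9_5_ok) (L (nat_lit 363) ln11_14_6 ln11_14_6_ok))))) (B (M (nat_lit 364) (B (L (nat_lit 491) ln11_15_6 ln11_15_6_ok) (M (nat_lit 332) (B (L (nat_lit 363) ln11_14_6 ln11_14_6_ok) (L (nat_lit 428) ln12_10_5 ln12_10_5_ok))))) (B (M (nat_lit 363) (B (M (nat_lit 362) (B (L (nat_lit 330) ln11_14_7 ln11_14_7_ok) (M (nat_lit 361) (B (L (nat_lit 360) ln8_11_0 ln8_11_0_ok) (L (nat_lit 364) ln9_11_0 ln9_11_0_ok))))) (M (nat_lit 426) (B (M (nat_lit 458) (B (L (nat_lit 331) ln11_10_5 ln11_10_5_ok) (L (nat_lit 490) ln11_11_5 ln11_11_5_ok))) (M (nat_lit 425)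 (B (L (nat_lit 424) ln8_13_2 ln8_13_2_ok) (L (nat_lit 428) ln9_13_2 ln9_13_2_ok))))))) (B (M (nat_lit 364) (B (L (nat_lit 491) ln11_15_6 ln11_15_6_ok) (M (nat_lit 332) (B (L (nat_lit 300) ln12_9_5 ln12_9_5_ok) (L (nat_lit 428) ln12_10_5 ln12_10_5_ok))))) (M (nat_lit 428) (B (M (nat_lit 426) (B (L (nat_lit 425) ln9_13_2 ln9_13_2_ok) (M (nat_lit 458) (B (L (nat_lit 457) ln13_13_1 ln13_13_1_ok) (L (nat_lit 430) ln14_13_1 ln14_13_1_ok))))) (B (M (nat_lit 458) (B (L (nat_lit 430) ln14_13_1 ln14_13_1_ok) (M (nat_lit 457) (B (L (nat_lit 426) ln13_13_1 ln13_13_1_ok) (L (nat_lit 460) ln9_14_2 ln9_14_2_ok))))) (M (nat_lit 492) (B (M (nat_lit 460) (B (L (nat_lit 363) ln12_15_7 ln12_15_7_ok) (L (nat_lit 365) ln12_15_6 ln12_15_6_ok))) (M (nat_lit 491) (B (L (nat_lit 524) ln11_12_4 ln11_12_4_ok) (L (nat_lit 523) ln11_16_6 ln11_16_6_ok))))))))))))) (B (M (nat_lit 398) (B (L (nat_lit 426) ln14_12_1 ln14_12_1_ok) (M (nat_lit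 399) (B (L (nat_lit 428) ln15_12_1 ln15_12_1_ok) (M (nat_lit 367) (B (L (nat_lit 366) ln11_12_2 ln11_12_2_ok) (L (nat_lit 368) ln12_12_2 ln12_12_2_ok))))))) (B (M (nat_lit 428) (B (M (nat_lit 398) (B (L (nat_lit 399) ln15_12_1 ln15_12_1_ok) (M (nat_lit 363) (B (L (nat_lit 362) ln14_12_3 ln14_12_3_ok) (M (nat_lit 331) (B (L (nat_lit 299) ln11_9_4 ln11_9_4_ok) (L (nat_lit 460) ln11_10_4 ln11_10_4_ok))))))) (B (M (nat_lit 363) (B (M (nat_lit 398) (B (L (nat_lit 362) ln14_12_3 ln14_12_3_ok) (L (nat_lit 399) ln15_12_1 ln15_12_1_ok))) (M (nat_lit 460) (B (L (nat_lit 331) ln11_10_4 ln11_10_4_ok) (L (nat_lit 492) ln12_15_7 ln12_15_7_ok))))) (B (M (nat_lit 459) (B (M (nat_lit 364) (B (L (nat_lit 332) ln12_10_5 ln12_10_5_ok) (L (nat_lit 491) ln11_15_6 ln11_15_6_ok))) (M (nat_lit 363) (B (M (nat_lit 362) (B (L (nat_lit 330) ln11_14_7 ln11_14_7_ok) (L (nat_lit 398) ln14_12_3 ln14_12_3_ok))) (M (nat_lit 458) (B (L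 (nat_lit 490) ln11_11_5 ln11_11_5_ok) (L (nat_lit 430) ln14_13_1 ln14_13_1_ok))))))) (M (nat_lit 460) (B (M (nat_lit 492) (B (L (nat_lit 365) ln12_15_6 ln12_15_6_ok) (L (nat_lit 524) ln12_16_7 ln12_16_7_ok))) (M (nat_lit 459) (B (M (nat_lit 364) (B (L (nat_lit 332) ln12_10_5 ln12_10_5_ok) (L (nat_lit 491) ln11_15_6 ln11_15_6_ok))) (M (nat_lit 458) (B (L (nat_lit 430) ln14_13_1 ln14_13_1_ok) (L (nat_lit 457) ln9_14_2 ln9_14_2_ok))))))))))) (M (nat_lit 398) (B (L (nat_lit 426) ln14_12_1 ln14_12_1_ok) (M (nat_lit 399) (B (M (nat_lit 363) (B (L (nat_lit 362) ln14_12_3 ln14_12_3_ok) (L (nat_lit 364) ln15_12_3 ln15_12_3_ok))) (M (nat_lit 367) (B (L (nat_lit 366) ln11_12_2 ln11_12_2_ok) (L (nat_lit 368) ln12_12_2 ln12_12_2_ok))))))))))))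
theorem c33_s5243 : Sem (nat_lit 1386334847544579281930502452632026696468783264124728123740719198963059283254184240648144927045128292788721448874933630659377233920) (nat_lit 82377571943944010194029963310225950049097935283065364293330917235201254114108505303682251609208692269561346749093190940549126422581598443540810674254838235136) (nat_lit 82377571943944010194029963310225950049097935283065364293330917235201254114108505303682251609208692269561346749093190940549126422581598443540810674254838235136) :=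
  sem_of_chk (M (nat_lit 395) (B (M (nat_lit 394) (B (L (nat_lit 430) ln10_12_0 ln10_12_0_ok) (M (nat_lit 393) (B (L (nat_lit 428) ln9_12_0 ln9_12_0_ok) (M (nat_lit 361) (B (L (nat_lit 360) ln12_12_3 ln12_12_3_ok) (L (nat_lit 362) ln13_12_3 ln13_12_3_ok))))))) (B (M (nat_lit 394) (B (L (nat_lit 430) ln10_12_0 ln10_12_0_ok) (M (nat_lit 393) (B (L (nat_lit 428) ln9_12_0 ln9_12_0_ok) (M (nat_lit 425) (B (L (nat_lit 424) ln12_12_1 ln12_12_1_ok) (L (nat_lit 426) ln13_12_1 ln13_12_1_ok))))))) (B (M (nat_lit 398) (B (M (nat_lit 366) (B (L (nat_lit 367) ln11_12_2 ln11_12_2_ok) (M (nat_lit 394) (B (L (nat_lit 365) ln10_12_2 ln10_12_2_ok) (L (nat_lit 430) ln10_12_0 ln10_12_0_ok))))) (M (nat_lit 399) (B (M (nat_lit 363) (B (L (nat_lit 362) ln14_12_3 ln14_12_3_ok) (L (nat_lit 364) ln15_12_3 ln15_12_3_ok))) (M (nat_lit 427) (B (L (nat_lit 426) ln14_12_1 ln14_12_1_ok) (L (nat_lit 428) ln15_12_1 ln15_12_1_ok)))))))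 (B c33_n5233 (B (M (nat_lit 398) (B (M (nat_lit 366) (B (L (nat_lit 367) ln11_12_2 ln11_12_2_ok) (M (nat_lit 394) (B (L (nat_lit 365) ln10_12_2 ln10_12_2_ok) (L (nat_lit 430) ln10_12_0 ln10_12_0_ok))))) (B (M (nat_lit 426) (B (L (nat_lit 427) ln14_12_1 ln14_12_1_ok) (M (nat_lit 394) (B (L (nat_lit 425) ln13_12_1 ln13_12_1_ok) (L (nat_lit 430) ln10_12_0 ln10_12_0_ok))))) (M (nat_lit 363) (B (L (nat_lit 362) ln14_12_3 ln14_12_3_ok) (M (nat_lit 399) (B (L (nat_lit 364) ln15_12_3 ln15_12_3_ok) (M (nat_lit 367) (B (L (nat_lit 366) ln11_12_2 ln11_12_2_ok) (L (nat_lit 368) ln12_12_2 ln12_12_2_ok)))))))))) (M (nat_lit 394) (B (M (nat_lit 393) (B (L (nat_lit 428) ln9_12_0 ln9_12_0_ok) (M (nat_lit 425) (B (L (nat_lit 424) ln12_12_1 ln12_12_1_ok) (L (nat_lit 426) ln13_12_1 ln13_12_1_ok))))) (B (M (nat_lit 398) (B (M (nat_lit 362) (B (L (nat_lit 361) ln13_12_3 ln13_12_3_ok) (L (nat_lit 363) ln14_12_3 ln14_12_3_ok)))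 (M (nat_lit 426) (B (L (nat_lit 425) ln13_12_1 ln13_12_1_ok) (L (nat_lit 427) ln14_12_1 ln14_12_1_ok))))) (M (nat_lit 393) (B (L (nat_lit 428) ln9_12_0 ln9_12_0_ok) (M (nat_lit 365) (B (L (nat_lit 364) ln9_12_2 ln9_12_2_ok) (L (nat_lit 366) ln10_12_2 ln10_12_2_ok)))))))))))))) (nat_lit 1386334847544579281930502452632026696468783264124728123740719198963059283254184240648144927045128292788721448874933630659377233920) (nat_lit 82377571943944010194029963310225950049097935283065364293330917235201254114108505303682251609208692269561346749093190940549126422581598443540810674254838235136) (nat_lit 82377571943944010194029963310225950049097935283065364293330917235201254114108505303682251609208692269561346749093190940549126422581598443540810674254838235136) (by decide +kernel)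
theorem c33_s5268 : Sem (nat_lit 1386334847383188664550070665778531748218595021979121511688892729411143073470393764272092352380775458208712834410189682411080515584) (nat_lit 755127742790183947090747571427902691169216702123265264294674515628972648843690278514307439534471591385554518158240053058338635380236104319372599461487874932736) (nat_lit 755127742790183947090747571427902691169216702123265264294674515628972648843690278514307439534471591385554518158240053058338635380236104319372599461487874932736) :=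
  sem_of_chk (M (nat_lit 396) (B c33_n3927 (B c33_n3949 (B c33_n3968 (B c33_n3991 (B c33_n4002 (B c33_n4036 (B (K (nat_lit 1386334847544579281930502452632026696468783264124728123740719198963059283254184240648144927045128292788721448874933630659377233920) (nat_lit 27459190800355964725048206500601232321954158205179437631006488248755939325914085454253845511120164757876274601629661061004938170739612180478599287248525459456) (nat_lit 27459190800355964725048206500601232321954158205179437631006488248755939325914085454253845511120164757876274601629661061004938170739612180478599287248525459456) c33_s4049) (B (M (nat_lit 395) (B (M (nat_lit 430) (B (L (nat_lit 394) ln10_12_0 ln10_12_0_ok) (M (nat_lit 431) (B (L (nat_lit 398) ln11_12_0 ln11_12_0_ok) (L (nat_lit 432) ln16_13_3 ln16_13_3_ok))))) (B (M (nat_lit 398) (B (M (nat_lit 427) (B (L (nat_lit 426) ln14_12_1 ln14_12_1_ok) (M (nat_lit 431) (B (L (nat_lit 430)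 ln11_12_0 ln11_12_0_ok) (M (nat_lit 399) (B (L (nat_lit 428) ln15_12_1 ln15_12_1_ok) (L (nat_lit 432) ln12_12_0 ln12_12_0_ok))))))) (B (M (nat_lit 427) (B (L (nat_lit 426) ln14_12_1 ln14_12_1_ok) (M (nat_lit 428) (B (M (nat_lit 363) (B (L (nat_lit 362) ln14_12_3 ln14_12_3_ok) (M (nat_lit 331) (B (L (nat_lit 299) ln11_9_4 ln11_9_4_ok) (L (nat_lit 460) ln11_10_4 ln11_10_4_ok))))) (M (nat_lit 459) (B (M (nat_lit 364) (B (L (nat_lit 332) ln12_10_5 ln12_10_5_ok) (L (nat_lit 491) ln11_15_6 ln11_15_6_ok))) (M (nat_lit 430) (B (L (nat_lit 431) ln11_12_0 ln11_12_0_ok) (L (nat_lit 458) ln14_13_1 ln14_13_1_ok))))))))) (B (M (nat_lit 399) (B (M (nat_lit 363) (B (L (nat_lit 362) ln14_12_3 ln14_12_3_ok) (L (nat_lit 364) ln15_12_3 ln15_12_3_ok))) (M (nat_lit 431) (B (L (nat_lit 430) ln11_12_0 ln11_12_0_ok) (L (nat_lit 432) ln12_12_0 ln12_12_0_ok))))) (M (nat_lit 399) (B (M (nat_lit 363) (B (L (nat_lit 362) ln14_12_3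 ln14_12_3_ok) (L (nat_lit 364) ln15_12_3 ln15_12_3_ok))) (M (nat_lit 427) (B (L (nat_lit 426) ln14_12_1 ln14_12_1_ok) (L (nat_lit 428) ln15_12_1 ln15_12_1_ok))))))))) (B (M (nat_lit 430) (B (L (nat_lit 394) ln10_12_0 ln10_12_0_ok) (M (nat_lit 431) (B (L (nat_lit 428) ln15_13_3 ln15_13_3_ok) (L (nat_lit 432) ln16_13_3 ln16_13_3_ok))))) (M (nat_lit 394) (B (M (nat_lit 393) (B (L (nat_lit 428) ln9_12_0 ln9_12_0_ok) (M (nat_lit 425) (B (L (nat_lit 424) ln12_12_1 ln12_12_1_ok) (L (nat_lit 426) ln13_12_1 ln13_12_1_ok))))) (B (M (nat_lit 398) (B (M (nat_lit 362) (B (L (nat_lit 361) ln13_12_3 ln13_12_3_ok) (L (nat_lit 363) ln14_12_3 ln14_12_3_ok))) (M (nat_lit 426) (B (L (nat_lit 425) ln13_12_1 ln13_12_1_ok) (L (nat_lit 427) ln14_12_1 ln14_12_1_ok))))) (M (nat_lit 393) (B (L (nat_lit 428) ln9_12_0 ln9_12_0_ok) (M (nat_lit 361) (B (L (nat_lit 360) ln12_12_3 ln12_12_3_ok) (L (nat_lit 362) ln13_12_3 ln13_12_3_ok))))))))))))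 (B (K (nat_lit 1386334847544579281930502452632026696468783264124728123740719198963059283254184240648144927045128292788721448874933630659377233920) (nat_lit 713938956819810277253169014195780686546691377890154572406428950840224592581170374516626312286121424740028419860042331716405328121850819137428067395060725972992) (nat_lit 713938956819810277253169014195780686546691377890154572406428950840224592581170374516626312286121424740028419860042331716405328121850819137428067395060725972992) c33_s4140) (B (K (nat_lit 1386334847544579281930502452632026696468783264124728123740719198963059283254184240648144927045128292788721448874933630659377233920) (nat_lit 82377572094187524506997717050766719791099576638359614356388971744949965784933439783875582091151132270553343431369643853754507568978425643527757201573104582656) (nat_lit 82377572094187524506997717050766719791099576638359614356388971744949965784933439783875582091151132270553343431369643853754507568978425643527757201573104582656)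 c33_s4308) (B (K (nat_lit 1386334847544579281930502452632026696468783264124728123740719198963059283254184240648144927045128292788721448874933630659377233920) (nat_lit 82377571943944010277389642938833208311236348177945030375918049730798662154536307971948053849580290963605399494522934480216102474437106292586204502006085713920) (nat_lit 82377571943944010277389642938833208311236348177945030375918049730798662154536307971948053849580290963605399494522934480216102474437106292586204502006085713920) c33_s4491) (B c33_n4496 (B (K (nat_lit 1386334847544579281930502452632026696468783264124728123740719198963059283254184240648144927045128292788721448874933630659377233920) (nat_lit 659020575538765399485679705167172772061888105283434019255050799492503216740610995956317211539903057498452561165967924743363505687170415166443616944328781332480) (nat_lit 659020575538765399485679705167172772061888105283434019255050799492503216740610995956317211539903057498452561165967924743363505687170415166443616944328781332480)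 c33_s4586) (B (M (nat_lit 395) (B (M (nat_lit 430) (B (L (nat_lit 394) ln10_12_0 ln10_12_0_ok) (M (nat_lit 431) (B (L (nat_lit 398) ln11_12_0 ln11_12_0_ok) (L (nat_lit 432) ln16_13_3 ln16_13_3_ok))))) (B (M (nat_lit 398) (B (M (nat_lit 363) (B (L (nat_lit 362) ln14_12_3 ln14_12_3_ok) (M (nat_lit 399) (B (L (nat_lit 364) ln15_12_3 ln15_12_3_ok) (M (nat_lit 367) (B (L (nat_lit 366) ln11_12_2 ln11_12_2_ok) (L (nat_lit 368) ln12_12_2 ln12_12_2_ok))))))) (B (M (nat_lit 430) (B (L (nat_lit 431) ln11_12_0 ln11_12_0_ok) (M (nat_lit 366) (B (L (nat_lit 367) ln11_12_2 ln11_12_2_ok) (M (nat_lit 462) (B (M (nat_lit 365) (B (L (nat_lit 333) ln14_14_7 ln14_14_7_ok) (L (nat_lit 494) ln14_15_7 ln14_15_7_ok))) (B (M (nat_lit 494) (B (L (nat_lit 365) ln14_15_7 ln14_15_7_ok) (L (nat_lit 526) ln14_16_7 ln14_16_7_ok))) (B (M (nat_lit 494) (B (L (nat_lit 526) ln14_16_7 ln14_16_7_ok) (M (nat_lit 495) (B (L (nat_lit 463) ln14_11_4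 ln14_11_4_ok) (L (nat_lit 527) ln14_12_4 ln14_12_4_ok))))) (M (nat_lit 333) (B (L (nat_lit 365) ln14_14_7 ln14_14_7_ok) (M (nat_lit 334) (B (L (nat_lit 301) ln14_13_7 ln14_13_7_ok) (L (nat_lit 302) ln14_9_5 ln14_9_5_ok))))))))))))) (M (nat_lit 427) (B (L (nat_lit 426) ln14_12_1 ln14_12_1_ok) (M (nat_lit 363) (B (L (nat_lit 362) ln14_12_3 ln14_12_3_ok) (M (nat_lit 364) (B (L (nat_lit 399) ln15_12_3 ln15_12_3_ok) (M (nat_lit 332) (B (L (nat_lit 300) ln12_9_5 ln12_9_5_ok) (L (nat_lit 459) ln11_14_6 ln11_14_6_ok)))))))))))) (B (M (nat_lit 394) (B (L (nat_lit 430) ln10_12_0 ln10_12_0_ok) (M (nat_lit 393) (B (M (nat_lit 361) (B (L (nat_lit 360) ln12_12_3 ln12_12_3_ok) (L (nat_lit 362) ln13_12_3 ln13_12_3_ok))) (M (nat_lit 365) (B (L (nat_lit 364) ln9_12_2 ln9_12_2_ok) (L (nat_lit 366) ln10_12_2 ln10_12_2_ok))))))) (M (nat_lit 398) (B (M (nat_lit 366) (B (L (nat_lit 367) ln11_12_2 ln11_12_2_ok) (M (nat_lit 426)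 (B (L (nat_lit 427) ln14_12_1 ln14_12_1_ok) (M (nat_lit 394) (B (L (nat_lit 365) ln10_12_2 ln10_12_2_ok) (L (nat_lit 425) ln13_12_1 ln13_12_1_ok))))))) (B (M (nat_lit 363) (B (L (nat_lit 362) ln14_12_3 ln14_12_3_ok) (M (nat_lit 399) (B (L (nat_lit 364) ln15_12_3 ln15_12_3_ok) (M (nat_lit 367) (B (L (nat_lit 366) ln11_12_2 ln11_12_2_ok) (L (nat_lit 368) ln12_12_2 ln12_12_2_ok))))))) (M (nat_lit 394) (B (M (nat_lit 362) (B (L (nat_lit 361) ln13_12_3 ln13_12_3_ok) (L (nat_lit 363) ln14_12_3 ln14_12_3_ok))) (M (nat_lit 426) (B (L (nat_lit 425) ln13_12_1 ln13_12_1_ok) (L (nat_lit 427) ln14_12_1 ln14_12_1_ok)))))))))))) (B (K (nat_lit 1386334847544579281930502452632026696468783264124728123740719198963059283254184240648144927045128292788721448874933630659377233920) (nat_lit 68647976623682790787511071616805607949304377607195661047667056436011603322296558233789160624157130976019420885288363590976293203048007231722405419247604858880)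 (nat_lit 68647976623682790787511071616805607949304377607195661047667056436011603322296558233789160624157130976019420885288363590976293203048007231722405419247604858880) c33_s5125) (B (K (nat_lit 1386334847544579281930502452632026696468783264124728123740719198963059283254184240648144927045128292788721448874933630659377233920) (nat_lit 82377571943944010194029963310225950049097935283065364293330917235201254114108505303682251609208692269561346749093190940549126422581598443540810674254838235136) (nat_lit 82377571943944010194029963310225950049097935283065364293330917235201254114108505303682251609208692269561346749093190940549126422581598443540810674254838235136) c33_s5243) (M (nat_lit 395) (B (M (nat_lit 430) (B (L (nat_lit 394) ln10_12_0 ln10_12_0_ok) (M (nat_lit 431) (B (L (nat_lit 398) ln11_12_0 ln11_12_0_ok) (L (nat_lit 432) ln16_13_3 ln16_13_3_ok))))) (B (M (nat_lit 430) (B (M (nat_lit 431) (B (L (nat_lit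 398) ln11_12_0 ln11_12_0_ok) (L (nat_lit 428) ln15_13_3 ln15_13_3_ok))) (B (M (nat_lit 431) (B (L (nat_lit 428) ln15_13_3 ln15_13_3_ok) (L (nat_lit 432) ln16_13_3 ln16_13_3_ok))) (B (M (nat_lit 431) (B (L (nat_lit 398) ln11_12_0 ln11_12_0_ok) (L (nat_lit 432) ln16_13_3 ln16_13_3_ok))) (M (nat_lit 398) (B (M (nat_lit 399) (B (M (nat_lit 367) (B (L (nat_lit 366) ln11_12_2 ln11_12_2_ok) (L (nat_lit 368) ln12_12_2 ln12_12_2_ok))) (M (nat_lit 427) (B (L (nat_lit 426) ln14_12_1 ln14_12_1_ok) (L (nat_lit 428) ln15_12_1 ln15_12_1_ok))))) (B (M (nat_lit 427) (B (L (nat_lit 426) ln14_12_1 ln14_12_1_ok) (M (nat_lit 462) (B (M (nat_lit 365) (B (L (nat_lit 333) ln13_10_4 ln13_10_4_ok) (L (nat_lit 494) ln14_15_7 ln14_15_7_ok))) (M (nat_lit 428) (B (L (nat_lit 399) ln15_12_1 ln15_12_1_ok) (L (nat_lit 463) ln11_13_0 ln11_13_0_ok))))))) (B (M (nat_lit 462) (B (M (nat_lit 494) (B (L (nat_lit 365) ln14_15_7 ln14_15_7_ok)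 (L (nat_lit 526) ln14_16_7 ln14_16_7_ok))) (M (nat_lit 463) (B (M (nat_lit 366) (B (L (nat_lit 367) ln11_12_2 ln11_12_2_ok) (L (nat_lit 495) ln14_11_4 ln14_11_4_ok))) (M (nat_lit 427) (B (L (nat_lit 426) ln14_12_1 ln14_12_1_ok) (L (nat_lit 428) ln11_13_0 ln11_13_0_ok))))))) (B (M (nat_lit 399) (B (M (nat_lit 367) (B (L (nat_lit 366) ln11_12_2 ln11_12_2_ok) (L (nat_lit 368) ln12_12_2 ln12_12_2_ok))) (M (nat_lit 400) (B (L (nat_lit 428) ln16_12_1 ln16_12_1_ok) (L (nat_lit 401) ln17_12_1 ln17_12_1_ok))))) (M (nat_lit 365) (B (M (nat_lit 462) (B (L (nat_lit 333) ln13_10_4 ln13_10_4_ok) (L (nat_lit 494) ln14_15_7 ln14_15_7_ok))) (M (nat_lit 399) (B (M (nat_lit 367) (B (L (nat_lit 366) ln11_12_2 ln11_12_2_ok) (L (nat_lit 368) ln12_12_2 ln12_12_2_ok))) (M (nat_lit 400) (B (L (nat_lit 364) ln16_12_3 ln16_12_3_ok) (L (nat_lit 401) ln17_12_1 ln17_12_1_ok)))))))))))))))) (B (M (nat_lit 430) (B (L (nat_lit 394) ln10_12_0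 ln10_12_0_ok) (M (nat_lit 431) (B (L (nat_lit 428) ln15_13_3 ln15_13_3_ok) (L (nat_lit 432) ln16_13_3 ln16_13_3_ok))))) (M (nat_lit 394) (B (M (nat_lit 393) (B (L (nat_lit 428) ln9_12_0 ln9_12_0_ok) (M (nat_lit 365) (B (L (nat_lit 364) ln9_12_2 ln9_12_2_ok) (L (nat_lit 366) ln10_12_2 ln10_12_2_ok))))) (M (nat_lit 398) (B (M (nat_lit 362) (B (L (nat_lit 361) ln13_12_3 ln13_12_3_ok) (L (nat_lit 363) ln14_12_3 ln14_12_3_ok))) (M (nat_lit 426) (B (L (nat_lit 425) ln13_12_1 ln13_12_1_ok) (L (nat_lit 427) ln14_12_1 ln14_12_1_ok)))))))))))))))))))))))))))) (nat_lit 1386334847383188664550070665778531748218595021979121511688892729411143073470393764272092352380775458208712834410189682411080515584) (nat_lit 755127742790183947090747571427902691169216702123265264294674515628972648843690278514307439534471591385554518158240053058338635380236104319372599461487874932736) (nat_lit 755127742790183947090747571427902691169216702123265264294674515628972648843690278514307439534471591385554518158240053058338635380236104319372599461487874932736)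 (by decide +kernel)
theorem c33_s5296 : Sem (nat_lit 1386334847383188664550070665778531748218595021979121511688892729411143073470393764272092352380775458208712834410189682411080515584) (nat_lit 1179363258141160341632306725041411996683121851573712146622654387803635372366236488486197976036245525980629507179713024691665822271075987756169643167872986979250017927168) (nat_lit 1179363258141160341632306725041411996683121851573712146622654387803635372366236488486197976036245525980629507179713024691665822271075987756169643167872986979250017927168) :=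
  sem_of_chk (M (nat_lit 461) (B (M (nat_lit 493) (B (M (nat_lit 525) (B (M (nat_lit 396) (B (L (nat_lit 364) ln13_15_7 ln13_15_7_ok) (L (nat_lit 428) ln13_16_7 ln13_16_7_ok))) (M (nat_lit 524) (B (L (nat_lit 492) ln13_12_5 ln13_12_5_ok) (L (nat_lit 556) ln13_13_5 ln13_13_5_ok))))) (B (M (nat_lit 525) (B (M (nat_lit 398) (B (L (nat_lit 366) ln13_15_6 ln13_15_6_ok) (L (nat_lit 430) ln13_16_6 ln13_16_6_ok))) (M (nat_lit 526) (B (L (nat_lit 494) ln13_12_4 ln13_12_4_ok) (L (nat_lit 558) ln13_13_4 ln13_13_4_ok))))) (M (nat_lit 365) (B (M (nat_lit 364) (B (L (nat_lit 332) ln13_14_7 ln13_14_7_ok) (L (nat_lit 396) ln13_15_7 ln13_15_7_ok))) (M (nat_lit 492) (B (L (nat_lit 460) ln13_11_5 ln13_11_5_ok) (L (nat_lit 524) ln13_12_5 ln13_12_5_ok)))))))) (B (M (nat_lit 493) (B (M (nat_lit 525) (B (M (nat_lit 396) (B (L (nat_lit 364) ln13_15_7 ln13_15_7_ok) (L (nat_lit 428) ln13_16_7 ln13_16_7_ok))) (M (nat_lit 526) (B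 (L (nat_lit 494) ln13_12_4 ln13_12_4_ok) (L (nat_lit 558) ln13_13_4 ln13_13_4_ok))))) (B (M (nat_lit 525) (B (M (nat_lit 398) (B (L (nat_lit 366) ln13_15_6 ln13_15_6_ok) (L (nat_lit 430) ln13_16_6 ln13_16_6_ok))) (M (nat_lit 526) (B (L (nat_lit 494) ln13_12_4 ln13_12_4_ok) (L (nat_lit 558) ln13_13_4 ln13_13_4_ok))))) (B (M (nat_lit 525) (B (M (nat_lit 396) (B (L (nat_lit 364) ln13_15_7 ln13_15_7_ok) (L (nat_lit 428) ln13_16_7 ln13_16_7_ok))) (M (nat_lit 398) (B (L (nat_lit 366) ln13_15_6 ln13_15_6_ok) (L (nat_lit 430) ln13_16_6 ln13_16_6_ok))))) (M (nat_lit 365) (B (M (nat_lit 366) (B (L (nat_lit 334) ln13_14_6 ln13_14_6_ok) (L (nat_lit 398) ln13_15_6 ln13_15_6_ok))) (M (nat_lit 492) (B (L (nat_lit 460) ln13_11_5 ln13_11_5_ok) (L (nat_lit 524) ln13_12_5 ln13_12_5_ok))))))))) (B (M (nat_lit 493) (B (M (nat_lit 525) (B (M (nat_lit 524) (B (L (nat_lit 492) ln13_12_5 ln13_12_5_ok) (L (nat_lit 556) ln13_13_5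 ln13_13_5_ok))) (M (nat_lit 526) (B (L (nat_lit 494) ln13_12_4 ln13_12_4_ok) (L (nat_lit 558) ln13_13_4 ln13_13_4_ok))))) (B (M (nat_lit 525) (B (M (nat_lit 398) (B (L (nat_lit 366) ln13_15_6 ln13_15_6_ok) (L (nat_lit 430) ln13_16_6 ln13_16_6_ok))) (M (nat_lit 526) (B (L (nat_lit 494) ln13_12_4 ln13_12_4_ok) (L (nat_lit 558) ln13_13_4 ln13_13_4_ok))))) (B (M (nat_lit 525) (B (M (nat_lit 398) (B (L (nat_lit 366) ln13_15_6 ln13_15_6_ok) (L (nat_lit 430) ln13_16_6 ln13_16_6_ok))) (M (nat_lit 524) (B (L (nat_lit 492) ln13_12_5 ln13_12_5_ok) (L (nat_lit 556) ln13_13_5 ln13_13_5_ok))))) (M (nat_lit 365) (B (M (nat_lit 366) (B (L (nat_lit 334) ln13_14_6 ln13_14_6_ok) (L (nat_lit 398) ln13_15_6 ln13_15_6_ok))) (M (nat_lit 492) (B (L (nat_lit 460) ln13_11_5 ln13_11_5_ok) (L (nat_lit 524) ln13_12_5 ln13_12_5_ok))))))))) (B (M (nat_lit 493) (B (M (nat_lit 525) (B (M (nat_lit 396) (B (L (nat_lit 364) ln13_15_7 ln13_15_7_ok)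 (L (nat_lit 428) ln13_16_7 ln13_16_7_ok))) (M (nat_lit 524) (B (L (nat_lit 492) ln13_12_5 ln13_12_5_ok) (L (nat_lit 556) ln13_13_5 ln13_13_5_ok))))) (B (M (nat_lit 525) (B (M (nat_lit 398) (B (L (nat_lit 366) ln13_15_6 ln13_15_6_ok) (L (nat_lit 430) ln13_16_6 ln13_16_6_ok))) (M (nat_lit 526) (B (L (nat_lit 494) ln13_12_4 ln13_12_4_ok) (L (nat_lit 558) ln13_13_4 ln13_13_4_ok))))) (M (nat_lit 398) (B (L (nat_lit 366) ln13_15_6 ln13_15_6_ok) (M (nat_lit 396) (B (L (nat_lit 364) ln13_15_7 ln13_15_7_ok) (M (nat_lit 395) (B (M (nat_lit 430) (B (L (nat_lit 394) ln10_12_0 ln10_12_0_ok) (L (nat_lit 431) ln11_12_0 ln11_12_0_ok))) (B (M (nat_lit 399) (B (M (nat_lit 427) (B (L (nat_lit 426) ln14_12_1 ln14_12_1_ok) (L (nat_lit 428) ln15_12_1 ln15_12_1_ok))) (M (nat_lit 431) (B (L (nat_lit 430) ln11_12_0 ln11_12_0_ok) (L (nat_lit 432) ln12_12_0 ln12_12_0_ok))))) (M (nat_lit 394) (B (M (nat_lit 362) (B (L (nat_lit 361)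 ln13_12_3 ln13_12_3_ok) (L (nat_lit 363) ln14_12_3 ln14_12_3_ok))) (M (nat_lit 426) (B (L (nat_lit 425) ln13_12_1 ln13_12_1_ok) (L (nat_lit 427) ln14_12_1 ln14_12_1_ok))))))))))))))) (B (M (nat_lit 493) (B (M (nat_lit 525) (B (M (nat_lit 524) (B (L (nat_lit 492) ln13_12_5 ln13_12_5_ok) (L (nat_lit 556) ln13_13_5 ln13_13_5_ok))) (M (nat_lit 526) (B (L (nat_lit 494) ln13_12_4 ln13_12_4_ok) (L (nat_lit 558) ln13_13_4 ln13_13_4_ok))))) (B (M (nat_lit 525) (B (M (nat_lit 396) (B (L (nat_lit 364) ln13_15_7 ln13_15_7_ok) (L (nat_lit 428) ln13_16_7 ln13_16_7_ok))) (M (nat_lit 526) (B (L (nat_lit 494) ln13_12_4 ln13_12_4_ok) (L (nat_lit 558) ln13_13_4 ln13_13_4_ok))))) (M (nat_lit 365) (B (M (nat_lit 364) (B (L (nat_lit 332) ln13_14_7 ln13_14_7_ok) (L (nat_lit 396) ln13_15_7 ln13_15_7_ok))) (M (nat_lit 492) (B (L (nat_lit 460) ln13_11_5 ln13_11_5_ok) (L (nat_lit 524) ln13_12_5 ln13_12_5_ok)))))))) (B (M (nat_lit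 493) (B (M (nat_lit 525) (B (M (nat_lit 398) (B (L (nat_lit 366) ln13_15_6 ln13_15_6_ok) (L (nat_lit 430) ln13_16_6 ln13_16_6_ok))) (M (nat_lit 526) (B (L (nat_lit 494) ln13_12_4 ln13_12_4_ok) (L (nat_lit 558) ln13_13_4 ln13_13_4_ok))))) (B (M (nat_lit 525) (B (M (nat_lit 396) (B (L (nat_lit 364) ln13_15_7 ln13_15_7_ok) (L (nat_lit 428) ln13_16_7 ln13_16_7_ok))) (M (nat_lit 526) (B (L (nat_lit 494) ln13_12_4 ln13_12_4_ok) (L (nat_lit 558) ln13_13_4 ln13_13_4_ok))))) (B (M (nat_lit 525) (B (M (nat_lit 396) (B (L (nat_lit 364) ln13_15_7 ln13_15_7_ok) (L (nat_lit 428) ln13_16_7 ln13_16_7_ok))) (M (nat_lit 398) (B (L (nat_lit 366) ln13_15_6 ln13_15_6_ok) (L (nat_lit 430) ln13_16_6 ln13_16_6_ok))))) (M (nat_lit 365) (B (M (nat_lit 364) (B (L (nat_lit 332) ln13_14_7 ln13_14_7_ok) (L (nat_lit 396) ln13_15_7 ln13_15_7_ok))) (M (nat_lit 366) (B (L (nat_lit 334) ln13_14_6 ln13_14_6_ok) (L (nat_lit 398) ln13_15_6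 ln13_15_6_ok))))))))) (M (nat_lit 365) (B (M (nat_lit 333) (B (M (nat_lit 332) (B (L (nat_lit 300) ln13_13_7 ln13_13_7_ok) (L (nat_lit 364) ln13_14_7 ln13_14_7_ok))) (M (nat_lit 460) (B (L (nat_lit 428) ln13_10_5 ln13_10_5_ok) (L (nat_lit 492) ln13_11_5 ln13_11_5_ok))))) (B (M (nat_lit 333) (B (M (nat_lit 334) (B (L (nat_lit 302) ln13_13_6 ln13_13_6_ok) (L (nat_lit 366) ln13_14_6 ln13_14_6_ok))) (M (nat_lit 460) (B (L (nat_lit 428) ln13_10_5 ln13_10_5_ok) (L (nat_lit 492) ln13_11_5 ln13_11_5_ok))))) (M (nat_lit 364) (B (L (nat_lit 332) ln13_14_7 ln13_14_7_ok) (M (nat_lit 366) (B (L (nat_lit 334) ln13_14_6 ln13_14_6_ok) (M (nat_lit 363) (B (M (nat_lit 398) (B (L (nat_lit 362) ln10_11_0 ln10_11_0_ok) (L (nat_lit 399) ln11_11_0 ln11_11_0_ok))) (B (M (nat_lit 367) (B (M (nat_lit 395) (B (L (nat_lit 394) ln14_11_1 ln14_11_1_ok) (L (nat_lit 396) ln15_11_1 ln15_11_1_ok))) (M (nat_lit 399) (B (L (nat_lit 398)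 ln11_11_0 ln11_11_0_ok) (L (nat_lit 400) ln12_11_0 ln12_11_0_ok))))) (M (nat_lit 362) (B (M (nat_lit 330) (B (L (nat_lit 329) ln13_11_3 ln13_11_3_ok) (L (nat_lit 331) ln14_11_3 ln14_11_3_ok))) (M (nat_lit 394) (B (L (nat_lit 393) ln13_11_1 ln13_11_1_ok) (L (nat_lit 395) ln14_11_1 ln14_11_1_ok)))))))))))))))))))))) (nat_lit 1386334847383188664550070665778531748218595021979121511688892729411143073470393764272092352380775458208712834410189682411080515584) (nat_lit 1179363258141160341632306725041411996683121851573712146622654387803635372366236488486197976036245525980629507179713024691665822271075987756169643167872986979250017927168) (nat_lit 1179363258141160341632306725041411996683121851573712146622654387803635372366236488486197976036245525980629507179713024691665822271075987756169643167872986979250017927168) (by decide +kernel)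
noncomputable def c33_n5451 : Cert := (M (nat_lit 366) (B (M (nat_lit 363) (B (M (nat_lit 398) (B (L (nat_lit 362) ln10_11_0 ln10_11_0_ok) (L (nat_lit 399) ln11_11_0 ln11_11_0_ok))) (M (nat_lit 332) (B (M (nat_lit 300) (B (L (nat_lit 268) ln12_8_4 ln12_8_4_ok) (L (nat_lit 396) ln12_9_4 ln12_9_4_ok))) (M (nat_lit 331) (B (L (nat_lit 330) ln14_11_3 ln14_11_3_ok) (L (nat_lit 367) ln15_11_3 ln15_11_3_ok))))))) (B (M (nat_lit 363) (B (M (nat_lit 398) (B (L (nat_lit 362) ln10_11_0 ln10_11_0_ok) (L (nat_lit 399) ln11_11_0 ln11_11_0_ok))) (M (nat_lit 367) (B (M (nat_lit 331) (B (L (nat_lit 330) ln14_11_3 ln14_11_3_ok) (L (nat_lit 332) ln15_11_3 ln15_11_3_ok))) (M (nat_lit 335) (B (L (nat_lit 334) ln11_11_2 ln11_11_2_ok) (L (nat_lit 336) ln12_11_2 ln12_11_2_ok))))))) (B (M (nat_lit 363) (B (M (nat_lit 398) (B (L (nat_lit 362) ln10_11_0 ln10_11_0_ok) (L (nat_lit 399) ln11_11_0 ln11_11_0_ok))) (M (nat_lit 367) (B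 (M (nat_lit 335) (B (L (nat_lit 334) ln11_11_2 ln11_11_2_ok) (L (nat_lit 336) ln12_11_2 ln12_11_2_ok))) (M (nat_lit 395) (B (L (nat_lit 394) ln14_11_1 ln14_11_1_ok) (L (nat_lit 396) ln15_11_1 ln15_11_1_ok))))))) (B (M (nat_lit 363) (B (M (nat_lit 398) (B (L (nat_lit 399) ln11_11_0 ln11_11_0_ok) (M (nat_lit 334) (B (L (nat_lit 302) ln14_9_5 ln14_9_5_ok) (L (nat_lit 335) ln11_11_2 ln11_11_2_ok))))) (M (nat_lit 332) (B (M (nat_lit 300) (B (L (nat_lit 268) ln12_8_4 ln12_8_4_ok) (L (nat_lit 396) ln12_9_4 ln12_9_4_ok))) (M (nat_lit 331) (B (L (nat_lit 330) ln14_11_3 ln14_11_3_ok) (L (nat_lit 367) ln15_11_3 ln15_11_3_ok))))))) (B (M (nat_lit 367) (B (M (nat_lit 396) (B (L (nat_lit 395) ln15_11_1 ln15_11_1_ok) (L (nat_lit 368) ln16_11_1 ln16_11_1_ok))) (B (M (nat_lit 396) (B (L (nat_lit 395) ln15_11_1 ln15_11_1_ok) (M (nat_lit 332) (B (L (nat_lit 300) ln12_9_4 ln12_9_4_ok) (L (nat_lit 331) ln15_11_3 ln15_11_3_ok)))))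 (B (M (nat_lit 396) (B (L (nat_lit 368) ln16_11_1 ln16_11_1_ok) (M (nat_lit 332) (B (L (nat_lit 300) ln12_9_4 ln12_9_4_ok) (L (nat_lit 331) ln15_11_3 ln15_11_3_ok))))) (M (nat_lit 368) (B (M (nat_lit 336) (B (L (nat_lit 335) ln12_11_2 ln12_11_2_ok) (L (nat_lit 337) ln13_11_2 ln13_11_2_ok))) (M (nat_lit 400) (B (L (nat_lit 399) ln12_11_0 ln12_11_0_ok) (L (nat_lit 401) ln13_11_0 ln13_11_0_ok))))))))) (B (M (nat_lit 363) (B (M (nat_lit 398) (B (L (nat_lit 362) ln10_11_0 ln10_11_0_ok) (L (nat_lit 399) ln11_11_0 ln11_11_0_ok))) (B (M (nat_lit 398) (B (L (nat_lit 399) ln11_11_0 ln11_11_0_ok) (M (nat_lit 334) (B (L (nat_lit 302) ln14_9_5 ln14_9_5_ok) (L (nat_lit 335) ln11_11_2 ln11_11_2_ok))))) (M (nat_lit 362) (B (M (nat_lit 330) (B (L (nat_lit 329) ln13_11_3 ln13_11_3_ok) (L (nat_lit 331) ln14_11_3 ln14_11_3_ok))) (M (nat_lit 394) (B (L (nat_lit 393) ln13_11_1 ln13_11_1_ok) (L (nat_lit 395) ln14_11_1 ln14_11_1_ok))))))))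 (M (nat_lit 363) (B (M (nat_lit 398) (B (L (nat_lit 362) ln10_11_0 ln10_11_0_ok) (M (nat_lit 334) (B (L (nat_lit 302) ln14_9_5 ln14_9_5_ok) (L (nat_lit 335) ln11_11_2 ln11_11_2_ok))))) (B (M (nat_lit 394) (B (L (nat_lit 395) ln14_11_1 ln14_11_1_ok) (M (nat_lit 362) (B (L (nat_lit 393) ln13_11_1 ln13_11_1_ok) (L (nat_lit 398) ln10_11_0 ln10_11_0_ok))))) (B (M (nat_lit 334) (B (L (nat_lit 335) ln11_11_2 ln11_11_2_ok) (M (nat_lit 302) (B (L (nat_lit 270) ln14_8_5 ln14_8_5_ok) (L (nat_lit 398) ln14_9_5 ln14_9_5_ok))))) (M (nat_lit 362) (B (M (nat_lit 330) (B (L (nat_lit 329) ln13_11_3 ln13_11_3_ok) (L (nat_lit 331) ln14_11_3 ln14_11_3_ok))) (M (nat_lit 394) (B (L (nat_lit 393) ln13_11_1 ln13_11_1_ok) (L (nat_lit 395) ln14_11_1 ln14_11_1_ok))))))))))))))))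
theorem c33_s5452 : Sem (nat_lit 1386334847383188664625224028427294411511058401076380296564914570976209309333027075361123041184442928399551202358502280908102434816) (nat_lit 219673525200899603269849439137327551424145011088851043572533940871553322835953404355587980974772462709379343486646874932585874158291958923245404130873612173312) (nat_lit 219673525200899603269849439137327551424145011088851043572533940871553322835953404355587980974772462709379343486646874932585874158291958923245404130873612173312) :=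
  sem_of_chk (M (nat_lit 364) (B (M (nat_lit 332) (B (L (nat_lit 461) ln13_14_7 ln13_14_7_ok) (M (nat_lit 300) (B (L (nat_lit 268) ln12_8_4 ln12_8_4_ok) (L (nat_lit 396) ln12_9_4 ln12_9_4_ok))))) (B (M (nat_lit 461) (B (L (nat_lit 332) ln13_14_7 ln13_14_7_ok) (M (nat_lit 493) (B (L (nat_lit 396) ln13_15_7 ln13_15_7_ok) (M (nat_lit 366) (B (L (nat_lit 334) ln13_14_6 ln13_14_6_ok) (L (nat_lit 398) ln13_15_6 ln13_15_6_ok))))))) (B (M (nat_lit 366) (B (M (nat_lit 461) (B (L (nat_lit 334) ln13_14_6 ln13_14_6_ok) (M (nat_lit 493) (B (L (nat_lit 396) ln13_15_7 ln13_15_7_ok) (L (nat_lit 398) ln13_15_6 ln13_15_6_ok))))) (B (M (nat_lit 367) (B (M (nat_lit 396) (B (L (nat_lit 395) ln15_11_1 ln15_11_1_ok) (L (nat_lit 368) ln16_11_1 ln16_11_1_ok))) (B (M (nat_lit 363) (B (M (nat_lit 395) (B (L (nat_lit 394) ln14_11_1 ln14_11_1_ok) (L (nat_lit 396) ln15_11_1 ln15_11_1_ok))) (M (nat_lit 399) (B (L (nat_lit 398) ln11_11_0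 ln11_11_0_ok) (L (nat_lit 400) ln12_11_0 ln12_11_0_ok))))) (B (M (nat_lit 400) (B (L (nat_lit 399) ln12_11_0 ln12_11_0_ok) (M (nat_lit 368) (B (L (nat_lit 396) ln16_11_1 ln16_11_1_ok) (L (nat_lit 401) ln13_11_0 ln13_11_0_ok))))) (M (nat_lit 368) (B (M (nat_lit 336) (B (L (nat_lit 335) ln12_11_2 ln12_11_2_ok) (L (nat_lit 337) ln13_11_2 ln13_11_2_ok))) (M (nat_lit 400) (B (L (nat_lit 399) ln12_11_0 ln12_11_0_ok) (L (nat_lit 401) ln13_11_0 ln13_11_0_ok))))))))) (B (M (nat_lit 398) (B (M (nat_lit 363) (B (L (nat_lit 362) ln10_11_0 ln10_11_0_ok) (L (nat_lit 399) ln11_11_0 ln11_11_0_ok))) (M (nat_lit 461) (B (L (nat_lit 334) ln13_14_6 ln13_14_6_ok) (L (nat_lit 493) ln13_15_6 ln13_15_6_ok))))) (M (nat_lit 396) (B (M (nat_lit 461) (B (L (nat_lit 334) ln13_14_6 ln13_14_6_ok) (L (nat_lit 493) ln13_15_7 ln13_15_7_ok))) (M (nat_lit 395) (B (L (nat_lit 367) ln15_11_1 ln15_11_1_ok) (L (nat_lit 394) ln10_12_2 ln10_12_2_ok)))))))))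 (B (M (nat_lit 461) (B (L (nat_lit 332) ln13_14_7 ln13_14_7_ok) (M (nat_lit 493) (B (M (nat_lit 366) (B (L (nat_lit 334) ln13_14_6 ln13_14_6_ok) (L (nat_lit 398) ln13_15_6 ln13_15_6_ok))) (M (nat_lit 494) (B (L (nat_lit 462) ln13_11_4 ln13_11_4_ok) (L (nat_lit 526) ln13_12_4 ln13_12_4_ok))))))) c33_n5451))))) (nat_lit 1386334847383188664625224028427294411511058401076380296564914570976209309333027075361123041184442928399551202358502280908102434816) (nat_lit 219673525200899603269849439137327551424145011088851043572533940871553322835953404355587980974772462709379343486646874932585874158291958923245404130873612173312) (nat_lit 219673525200899603269849439137327551424145011088851043572533940871553322835953404355587980974772462709379343486646874932585874158291958923245404130873612173312) (by decide +kernel)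
noncomputable def c33_n5607 : Cert := (M (nat_lit 428) (B (M (nat_lit 333) (B (L (nat_lit 460) ln13_10_5 ln13_10_5_ok) (M (nat_lit 301) (B (L (nat_lit 396) ln13_9_5 ln13_9_5_ok) (M (nat_lit 300) (B (L (nat_lit 268) ln13_12_7 ln13_12_7_ok) (L (nat_lit 332) ln13_13_7 ln13_13_7_ok))))))) (B (M (nat_lit 333) (B (L (nat_lit 460) ln13_10_5 ln13_10_5_ok) (M (nat_lit 301) (B (L (nat_lit 396) ln13_9_5 ln13_9_5_ok) (M (nat_lit 302) (B (L (nat_lit 270) ln13_12_6 ln13_12_6_ok) (L (nat_lit 334) ln13_13_6 ln13_13_6_ok))))))) (B (M (nat_lit 430) (B (M (nat_lit 333) (B (L (nat_lit 460) ln13_10_5 ln13_10_5_ok) (L (nat_lit 462) ln13_10_4 ln13_10_4_ok))) (M (nat_lit 427) (B (M (nat_lit 398) (B (L (nat_lit 426) ln10_13_2 ln10_13_2_ok) (L (nat_lit 399) ln11_13_2 ln11_13_2_ok))) (B (M (nat_lit 426) (B (M (nat_lit 394) (B (L (nat_lit 393) ln13_13_3 ln13_13_3_ok) (L (nat_lit 395) ln14_13_3 ln14_13_3_ok))) (M (nat_lit 458) (B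 (L (nat_lit 457) ln13_13_1 ln13_13_1_ok) (L (nat_lit 459) ln14_13_1 ln14_13_1_ok))))) (M (nat_lit 431) (B (M (nat_lit 395) (B (L (nat_lit 394) ln14_13_3 ln14_13_3_ok) (L (nat_lit 396) ln15_13_3 ln15_13_3_ok))) (M (nat_lit 399) (B (L (nat_lit 398) ln11_13_2 ln11_13_2_ok) (L (nat_lit 400) ln12_13_2 ln12_13_2_ok)))))))))) (B (M (nat_lit 427) (B (M (nat_lit 398) (B (L (nat_lit 426) ln10_13_2 ln10_13_2_ok) (M (nat_lit 399) (B (L (nat_lit 396) ln15_12_1 ln15_12_1_ok) (L (nat_lit 400) ln16_12_1 ln16_12_1_ok))))) (B (M (nat_lit 398) (B (L (nat_lit 426) ln10_13_2 ln10_13_2_ok) (M (nat_lit 399) (B (L (nat_lit 400) ln16_12_1 ln16_12_1_ok) (L (nat_lit 430) ln11_13_2 ln11_13_2_ok))))) (B (M (nat_lit 426) (B (M (nat_lit 425) (B (L (nat_lit 396) ln9_13_2 ln9_13_2_ok) (M (nat_lit 393) (B (L (nat_lit 392) ln12_13_3 ln12_13_3_ok) (L (nat_lit 394) ln13_13_3 ln13_13_3_ok))))) (B (M (nat_lit 425) (B (L (nat_lit 396) ln9_13_2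 ln9_13_2_ok) (M (nat_lit 457) (B (L (nat_lit 456) ln12_13_1 ln12_13_1_ok) (L (nat_lit 458) ln13_13_1 ln13_13_1_ok))))) (M (nat_lit 430) (B (M (nat_lit 394) (B (L (nat_lit 393) ln13_13_3 ln13_13_3_ok) (L (nat_lit 395) ln14_13_3 ln14_13_3_ok))) (M (nat_lit 458) (B (L (nat_lit 457) ln13_13_1 ln13_13_1_ok) (L (nat_lit 459) ln14_13_1 ln14_13_1_ok)))))))) (M (nat_lit 430) (B (M (nat_lit 398) (B (L (nat_lit 399) ln11_13_2 ln11_13_2_ok) (M (nat_lit 462) (B (L (nat_lit 494) ln14_15_7 ln14_15_7_ok) (L (nat_lit 463) ln11_13_0 ln11_13_0_ok))))) (M (nat_lit 431) (B (M (nat_lit 395) (B (L (nat_lit 394) ln14_13_3 ln14_13_3_ok) (L (nat_lit 396) ln15_13_3 ln15_13_3_ok))) (M (nat_lit 459) (B (L (nat_lit 458) ln14_13_1 ln14_13_1_ok) (L (nat_lit 460) ln15_13_1 ln15_13_1_ok))))))))))) (B (M (nat_lit 333) (B (L (nat_lit 460) ln13_10_5 ln13_10_5_ok) (M (nat_lit 301) (B (M (nat_lit 300) (B (L (nat_lit 268) ln13_12_7 ln13_12_7_ok)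 (L (nat_lit 332) ln13_13_7 ln13_13_7_ok))) (M (nat_lit 302) (B (L (nat_lit 270) ln13_12_6 ln13_12_6_ok) (L (nat_lit 334) ln13_13_6 ln13_13_6_ok))))))) (M (nat_lit 430) (B (M (nat_lit 333) (B (L (nat_lit 462) ln13_10_4 ln13_10_4_ok) (M (nat_lit 301) (B (L (nat_lit 396) ln13_9_5 ln13_9_5_ok) (L (nat_lit 398) ln13_9_4 ln13_9_4_ok))))) (B (M (nat_lit 427) (B (M (nat_lit 398) (B (L (nat_lit 426) ln10_13_2 ln10_13_2_ok) (L (nat_lit 399) ln11_13_2 ln11_13_2_ok))) (B (M (nat_lit 426) (B (M (nat_lit 394) (B (L (nat_lit 393) ln13_13_3 ln13_13_3_ok) (L (nat_lit 395) ln14_13_3 ln14_13_3_ok))) (M (nat_lit 458) (B (L (nat_lit 457) ln13_13_1 ln13_13_1_ok) (L (nat_lit 459) ln14_13_1 ln14_13_1_ok))))) (M (nat_lit 431) (B (M (nat_lit 395) (B (L (nat_lit 394) ln14_13_3 ln14_13_3_ok) (L (nat_lit 396) ln15_13_3 ln15_13_3_ok))) (M (nat_lit 399) (B (L (nat_lit 398) ln11_13_2 ln11_13_2_ok) (L (nat_lit 400) ln12_13_2 ln12_13_2_ok))))))))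 (B (M (nat_lit 398) (B (M (nat_lit 333) (B (L (nat_lit 301) ln13_9_4 ln13_9_4_ok) (L (nat_lit 462) ln13_10_4 ln13_10_4_ok))) (M (nat_lit 427) (B (L (nat_lit 426) ln10_13_2 ln10_13_2_ok) (L (nat_lit 399) ln11_13_2 ln11_13_2_ok))))) (M (nat_lit 396) (B (M (nat_lit 333) (B (L (nat_lit 301) ln13_9_5 ln13_9_5_ok) (L (nat_lit 462) ln13_10_4 ln13_10_4_ok))) (M (nat_lit 431) (B (L (nat_lit 395) ln15_13_3 ln15_13_3_ok) (L (nat_lit 432) ln16_13_3 ln16_13_3_ok)))))))))))))))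
theorem c33_s5616 : Sem (nat_lit 1386334847383188664550070665778531748218595021979121511688892729411143073470393764272092352380775458208712834410189682411080515584) (nat_lit 943490606534895625823378003986212318106296907655460682157606553037745275275377148835837497785335626920017736421192961446327327848909335705048525576917011820323675308032) (nat_lit 943490606534895625823378003986212318106296907655460682157606553037745275275377148835837497785335626920017736421192961446327327848909335705048525576917011820323675308032) :=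
  sem_of_chk (M (nat_lit 365) (B (M (nat_lit 461) (B (M (nat_lit 333) (B (M (nat_lit 332) (B (L (nat_lit 300) ln13_13_7 ln13_13_7_ok) (L (nat_lit 364) ln13_14_7 ln13_14_7_ok))) (M (nat_lit 462) (B (L (nat_lit 430) ln13_10_4 ln13_10_4_ok) (L (nat_lit 494) ln13_11_4 ln13_11_4_ok))))) (B (M (nat_lit 493) (B (M (nat_lit 364) (B (L (nat_lit 332) ln13_14_7 ln13_14_7_ok) (L (nat_lit 396) ln13_15_7 ln13_15_7_ok))) (M (nat_lit 494) (B (L (nat_lit 462) ln13_11_4 ln13_11_4_ok) (L (nat_lit 526) ln13_12_4 ln13_12_4_ok))))) (B (M (nat_lit 493) (B (M (nat_lit 366) (B (L (nat_lit 334) ln13_14_6 ln13_14_6_ok) (L (nat_lit 398) ln13_15_6 ln13_15_6_ok))) (M (nat_lit 494) (B (L (nat_lit 462) ln13_11_4 ln13_11_4_ok) (L (nat_lit 526) ln13_12_4 ln13_12_4_ok))))) (M (nat_lit 493) (B (M (nat_lit 364) (B (L (nat_lit 332) ln13_14_7 ln13_14_7_ok) (L (nat_lit 396) ln13_15_7 ln13_15_7_ok))) (M (nat_lit 366) (B (L (nat_lit 334) ln13_14_6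 ln13_14_6_ok) (L (nat_lit 398) ln13_15_6 ln13_15_6_ok))))))))) (B (M (nat_lit 461) (B (M (nat_lit 493) (B (M (nat_lit 364) (B (L (nat_lit 332) ln13_14_7 ln13_14_7_ok) (L (nat_lit 396) ln13_15_7 ln13_15_7_ok))) (M (nat_lit 494) (B (L (nat_lit 462) ln13_11_4 ln13_11_4_ok) (L (nat_lit 526) ln13_12_4 ln13_12_4_ok))))) (B (M (nat_lit 493) (B (M (nat_lit 366) (B (L (nat_lit 334) ln13_14_6 ln13_14_6_ok) (L (nat_lit 398) ln13_15_6 ln13_15_6_ok))) (M (nat_lit 494) (B (L (nat_lit 462) ln13_11_4 ln13_11_4_ok) (L (nat_lit 526) ln13_12_4 ln13_12_4_ok))))) (B (M (nat_lit 493) (B (M (nat_lit 364) (B (L (nat_lit 332) ln13_14_7 ln13_14_7_ok) (L (nat_lit 396) ln13_15_7 ln13_15_7_ok))) (M (nat_lit 366) (B (L (nat_lit 334) ln13_14_6 ln13_14_6_ok) (L (nat_lit 398) ln13_15_6 ln13_15_6_ok))))) (M (nat_lit 333) (B (M (nat_lit 334) (B (L (nat_lit 302) ln13_13_6 ln13_13_6_ok) (L (nat_lit 366) ln13_14_6 ln13_14_6_ok))) (M (nat_lit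 462) (B (L (nat_lit 430) ln13_10_4 ln13_10_4_ok) (L (nat_lit 494) ln13_11_4 ln13_11_4_ok))))))))) (B (M (nat_lit 461) (B (M (nat_lit 333) (B (M (nat_lit 334) (B (L (nat_lit 302) ln13_13_6 ln13_13_6_ok) (L (nat_lit 366) ln13_14_6 ln13_14_6_ok))) (M (nat_lit 462) (B (L (nat_lit 430) ln13_10_4 ln13_10_4_ok) (L (nat_lit 494) ln13_11_4 ln13_11_4_ok))))) (B (M (nat_lit 493) (B (M (nat_lit 366) (B (L (nat_lit 334) ln13_14_6 ln13_14_6_ok) (L (nat_lit 398) ln13_15_6 ln13_15_6_ok))) (M (nat_lit 494) (B (L (nat_lit 462) ln13_11_4 ln13_11_4_ok) (L (nat_lit 526) ln13_12_4 ln13_12_4_ok))))) (B (M (nat_lit 493) (B (M (nat_lit 494) (B (L (nat_lit 462) ln13_11_4 ln13_11_4_ok) (L (nat_lit 526) ln13_12_4 ln13_12_4_ok))) (M (nat_lit 525) (B (M (nat_lit 396) (B (L (nat_lit 364) ln13_15_7 ln13_15_7_ok) (L (nat_lit 428) ln13_16_7 ln13_16_7_ok))) (M (nat_lit 398) (B (L (nat_lit 366) ln13_15_6 ln13_15_6_ok) (L (nat_lit 430) ln13_16_6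 ln13_16_6_ok))))))) (B (M (nat_lit 428) (B (M (nat_lit 462) (B (L (nat_lit 494) ln13_11_4 ln13_11_4_ok) (M (nat_lit 333) (B (L (nat_lit 460) ln13_10_5 ln13_10_5_ok) (L (nat_lit 430) ln13_10_4 ln13_10_4_ok))))) (B (M (nat_lit 493) (B (M (nat_lit 396) (B (L (nat_lit 364) ln13_15_7 ln13_15_7_ok) (L (nat_lit 525) ln13_16_7 ln13_16_7_ok))) (M (nat_lit 494) (B (L (nat_lit 462) ln13_11_4 ln13_11_4_ok) (L (nat_lit 526) ln13_12_4 ln13_12_4_ok))))) (M (nat_lit 396) (B (M (nat_lit 333) (B (L (nat_lit 301) ln13_9_5 ln13_9_5_ok) (L (nat_lit 460) ln13_10_5 ln13_10_5_ok))) (M (nat_lit 493) (B (L (nat_lit 364) ln13_15_7 ln13_15_7_ok) (L (nat_lit 525) ln13_16_7 ln13_16_7_ok)))))))) (B (M (nat_lit 493) (B (M (nat_lit 366) (B (L (nat_lit 334) ln13_14_6 ln13_14_6_ok) (L (nat_lit 398) ln13_15_6 ln13_15_6_ok))) (M (nat_lit 525) (B (M (nat_lit 396) (B (L (nat_lit 364) ln13_15_7 ln13_15_7_ok) (L (nat_lit 428) ln13_16_7 ln13_16_7_ok)))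 (M (nat_lit 526) (B (L (nat_lit 494) ln13_12_4 ln13_12_4_ok) (L (nat_lit 558) ln13_13_4 ln13_13_4_ok))))))) (M (nat_lit 428) (B (M (nat_lit 333) (B (L (nat_lit 460) ln13_10_5 ln13_10_5_ok) (M (nat_lit 334) (B (L (nat_lit 302) ln13_13_6 ln13_13_6_ok) (L (nat_lit 366) ln13_14_6 ln13_14_6_ok))))) (B (M (nat_lit 396) (B (M (nat_lit 333) (B (L (nat_lit 301) ln13_9_5 ln13_9_5_ok) (L (nat_lit 460) ln13_10_5 ln13_10_5_ok))) (M (nat_lit 493) (B (L (nat_lit 364) ln13_15_7 ln13_15_7_ok) (L (nat_lit 525) ln13_16_7 ln13_16_7_ok))))) (M (nat_lit 493) (B (M (nat_lit 366) (B (L (nat_lit 334) ln13_14_6 ln13_14_6_ok) (L (nat_lit 398) ln13_15_6 ln13_15_6_ok))) (M (nat_lit 396) (B (L (nat_lit 364) ln13_15_7 ln13_15_7_ok) (L (nat_lit 525) ln13_16_7 ln13_16_7_ok)))))))))))))) (B (K (nat_lit 1386334847383188664625224028427294411511058401076380296564914570976209309333027075361123041184442928399551202358502280908102434816) (nat_lit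 219673525200899603269849439137327551424145011088851043572533940871553322835953404355587980974772462709379343486646874932585874158291958923245404130873612173312) (nat_lit 219673525200899603269849439137327551424145011088851043572533940871553322835953404355587980974772462709379343486646874932585874158291958923245404130873612173312) c33_s5452) (B (M (nat_lit 398) (B (M (nat_lit 428) (B (M (nat_lit 427) (B (L (nat_lit 426) ln10_13_2 ln10_13_2_ok) (M (nat_lit 399) (B (L (nat_lit 396) ln15_12_1 ln15_12_1_ok) (L (nat_lit 400) ln16_12_1 ln16_12_1_ok))))) (B (M (nat_lit 427) (B (L (nat_lit 426) ln10_13_2 ln10_13_2_ok) (M (nat_lit 399) (B (L (nat_lit 400) ln16_12_1 ln16_12_1_ok) (L (nat_lit 430) ln11_13_2 ln11_13_2_ok))))) (M (nat_lit 333) (B (L (nat_lit 460) ln13_10_5 ln13_10_5_ok) (M (nat_lit 301) (B (L (nat_lit 396) ln13_9_5 ln13_9_5_ok) (L (nat_lit 430) ln13_9_4 ln13_9_4_ok)))))))) (B (M (nat_lit 461) (B (M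 (nat_lit 493) (B (L (nat_lit 366) ln13_15_6 ln13_15_6_ok) (M (nat_lit 494) (B (L (nat_lit 462) ln13_11_4 ln13_11_4_ok) (L (nat_lit 526) ln13_12_4 ln13_12_4_ok))))) (B (M (nat_lit 333) (B (M (nat_lit 332) (B (L (nat_lit 300) ln13_13_7 ln13_13_7_ok) (L (nat_lit 364) ln13_14_7 ln13_14_7_ok))) (M (nat_lit 462) (B (L (nat_lit 430) ln13_10_4 ln13_10_4_ok) (L (nat_lit 494) ln13_11_4 ln13_11_4_ok))))) (M (nat_lit 364) (B (L (nat_lit 332) ln13_14_7 ln13_14_7_ok) (M (nat_lit 493) (B (L (nat_lit 396) ln13_15_7 ln13_15_7_ok) (L (nat_lit 366) ln13_15_6 ln13_15_6_ok)))))))) (B (M (nat_lit 364) (B (M (nat_lit 399) (B (L (nat_lit 400) ln16_12_3 ln16_12_3_ok) (M (nat_lit 363) (B (L (nat_lit 362) ln10_11_0 ln10_11_0_ok) (L (nat_lit 366) ln11_11_0 ln11_11_0_ok))))) (B (M (nat_lit 399) (B (L (nat_lit 400) ln16_12_3 ln16_12_3_ok) (M (nat_lit 363) (B (L (nat_lit 366) ln11_11_0 ln11_11_0_ok) (L (nat_lit 396) ln15_12_3 ln15_12_3_ok)))))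 (B (M (nat_lit 461) (B (L (nat_lit 332) ln13_14_7 ln13_14_7_ok) (M (nat_lit 493) (B (L (nat_lit 396) ln13_15_7 ln13_15_7_ok) (L (nat_lit 366) ln13_15_6 ln13_15_6_ok))))) (M (nat_lit 399) (B (L (nat_lit 400) ln16_12_3 ln16_12_3_ok) (M (nat_lit 363) (B (L (nat_lit 362) ln10_11_0 ln10_11_0_ok) (L (nat_lit 396) ln15_12_3 ln15_12_3_ok))))))))) (M (nat_lit 364) (B (M (nat_lit 399) (B (L (nat_lit 400) ln16_12_3 ln16_12_3_ok) (M (nat_lit 363) (B (L (nat_lit 362) ln10_11_0 ln10_11_0_ok) (L (nat_lit 366) ln11_11_0 ln11_11_0_ok))))) (M (nat_lit 332) (B (L (nat_lit 461) ln13_14_7 ln13_14_7_ok) (M (nat_lit 300) (B (L (nat_lit 268) ln12_8_4 ln12_8_4_ok) (L (nat_lit 333) ln13_13_7 ln13_13_7_ok))))))))))) (B (M (nat_lit 333) (B (M (nat_lit 301) (B (M (nat_lit 300) (B (L (nat_lit 268) ln13_12_7 ln13_12_7_ok) (L (nat_lit 332) ln13_13_7 ln13_13_7_ok))) (M (nat_lit 428) (B (L (nat_lit 396) ln13_9_5 ln13_9_5_ok) (L (nat_lit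 460) ln13_10_5 ln13_10_5_ok))))) (M (nat_lit 461) (B (M (nat_lit 334) (B (L (nat_lit 302) ln13_13_6 ln13_13_6_ok) (L (nat_lit 366) ln13_14_6 ln13_14_6_ok))) (M (nat_lit 462) (B (L (nat_lit 430) ln13_10_4 ln13_10_4_ok) (L (nat_lit 494) ln13_11_4 ln13_11_4_ok))))))) (B (M (nat_lit 333) (B (M (nat_lit 301) (B (M (nat_lit 302) (B (L (nat_lit 270) ln13_12_6 ln13_12_6_ok) (L (nat_lit 334) ln13_13_6 ln13_13_6_ok))) (M (nat_lit 428) (B (L (nat_lit 396) ln13_9_5 ln13_9_5_ok) (L (nat_lit 460) ln13_10_5 ln13_10_5_ok))))) (M (nat_lit 461) (B (M (nat_lit 332) (B (L (nat_lit 300) ln13_13_7 ln13_13_7_ok) (L (nat_lit 364) ln13_14_7 ln13_14_7_ok))) (M (nat_lit 462) (B (L (nat_lit 430) ln13_10_4 ln13_10_4_ok) (L (nat_lit 494) ln13_11_4 ln13_11_4_ok))))))) (B (M (nat_lit 461) (B (M (nat_lit 333) (B (M (nat_lit 332) (B (L (nat_lit 300) ln13_13_7 ln13_13_7_ok) (L (nat_lit 364) ln13_14_7 ln13_14_7_ok))) (M (nat_lit 334) (B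 (L (nat_lit 302) ln13_13_6 ln13_13_6_ok) (L (nat_lit 366) ln13_14_6 ln13_14_6_ok))))) (B (M (nat_lit 333) (B (M (nat_lit 334) (B (L (nat_lit 302) ln13_13_6 ln13_13_6_ok) (L (nat_lit 366) ln13_14_6 ln13_14_6_ok))) (M (nat_lit 462) (B (L (nat_lit 430) ln13_10_4 ln13_10_4_ok) (L (nat_lit 494) ln13_11_4 ln13_11_4_ok))))) (B (M (nat_lit 333) (B (M (nat_lit 332) (B (L (nat_lit 300) ln13_13_7 ln13_13_7_ok) (L (nat_lit 364) ln13_14_7 ln13_14_7_ok))) (M (nat_lit 462) (B (L (nat_lit 430) ln13_10_4 ln13_10_4_ok) (L (nat_lit 494) ln13_11_4 ln13_11_4_ok))))) (M (nat_lit 493) (B (M (nat_lit 366) (B (L (nat_lit 334) ln13_14_6 ln13_14_6_ok) (L (nat_lit 398) ln13_15_6 ln13_15_6_ok))) (M (nat_lit 494) (B (L (nat_lit 462) ln13_11_4 ln13_11_4_ok) (L (nat_lit 526) ln13_12_4 ln13_12_4_ok))))))))) (B c33_n5607 (M (nat_lit 398) (B (M (nat_lit 364) (B (M (nat_lit 399) (B (L (nat_lit 400) ln16_12_3 ln16_12_3_ok) (M (nat_lit 363)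 (B (L (nat_lit 362) ln10_11_0 ln10_11_0_ok) (L (nat_lit 366) ln11_11_0 ln11_11_0_ok))))) (B (M (nat_lit 399) (B (L (nat_lit 400) ln16_12_3 ln16_12_3_ok) (M (nat_lit 363) (B (L (nat_lit 366) ln11_11_0 ln11_11_0_ok) (L (nat_lit 396) ln15_12_3 ln15_12_3_ok))))) (B (M (nat_lit 461) (B (L (nat_lit 332) ln13_14_7 ln13_14_7_ok) (M (nat_lit 493) (B (L (nat_lit 396) ln13_15_7 ln13_15_7_ok) (L (nat_lit 366) ln13_15_6 ln13_15_6_ok))))) (M (nat_lit 399) (B (L (nat_lit 400) ln16_12_3 ln16_12_3_ok) (M (nat_lit 363) (B (L (nat_lit 362) ln10_11_0 ln10_11_0_ok) (L (nat_lit 396) ln15_12_3 ln15_12_3_ok))))))))) (B (M (nat_lit 428) (B (M (nat_lit 427) (B (L (nat_lit 426) ln10_13_2 ln10_13_2_ok) (M (nat_lit 399) (B (L (nat_lit 396) ln15_12_1 ln15_12_1_ok) (L (nat_lit 400) ln16_12_1 ln16_12_1_ok))))) (B (M (nat_lit 427) (B (L (nat_lit 426) ln10_13_2 ln10_13_2_ok) (M (nat_lit 399) (B (L (nat_lit 400) ln16_12_1 ln16_12_1_ok)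 (L (nat_lit 430) ln11_13_2 ln11_13_2_ok))))) (M (nat_lit 333) (B (L (nat_lit 460) ln13_10_5 ln13_10_5_ok) (M (nat_lit 301) (B (L (nat_lit 396) ln13_9_5 ln13_9_5_ok) (L (nat_lit 430) ln13_9_4 ln13_9_4_ok)))))))) (B (M (nat_lit 364) (B (M (nat_lit 399) (B (L (nat_lit 400) ln16_12_3 ln16_12_3_ok) (M (nat_lit 363) (B (L (nat_lit 362) ln10_11_0 ln10_11_0_ok) (L (nat_lit 366) ln11_11_0 ln11_11_0_ok))))) (M (nat_lit 332) (B (L (nat_lit 461) ln13_14_7 ln13_14_7_ok) (M (nat_lit 300) (B (L (nat_lit 268) ln12_8_4 ln12_8_4_ok) (L (nat_lit 333) ln13_13_7 ln13_13_7_ok))))))) (M (nat_lit 333) (B (M (nat_lit 428) (B (L (nat_lit 460) ln13_10_5 ln13_10_5_ok) (M (nat_lit 301) (B (L (nat_lit 396) ln13_9_5 ln13_9_5_ok) (L (nat_lit 430) ln13_9_4 ln13_9_4_ok))))) (M (nat_lit 461) (B (M (nat_lit 332) (B (L (nat_lit 300) ln13_13_7 ln13_13_7_ok) (L (nat_lit 364) ln13_14_7 ln13_14_7_ok))) (M (nat_lit 334) (B (L (nat_lit 302) ln13_13_6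 ln13_13_6_ok) (L (nat_lit 366) ln13_14_6 ln13_14_6_ok))))))))))))))))))))) (nat_lit 1386334847383188664550070665778531748218595021979121511688892729411143073470393764272092352380775458208712834410189682411080515584) (nat_lit 943490606534895625823378003986212318106296907655460682157606553037745275275377148835837497785335626920017736421192961446327327848909335705048525576917011820323675308032) (nat_lit 943490606534895625823378003986212318106296907655460682157606553037745275275377148835837497785335626920017736421192961446327327848909335705048525576917011820323675308032) (by decide +kernel)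
theorem c33_s5712 : Sem (nat_lit 5954262830815946494763249298768603811203561774969104571805089223376689777636098861358550851719243481454542035207245364041705138952691777536) (nat_lit 707617954818794147433179504400765760462349948034593818185467992989934564539643137674322702302553534504630050502034671619051595268718814545464605009751075361260887343104) (nat_lit 707617954818794147433179504400765760462349948034593818185467992989934564539643137674322702302553534504630050502034671619051595268718814545464605009751075361260887343104) :=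
  sem_of_chk (M (nat_lit 493) (B (M (nat_lit 525) (B (M (nat_lit 398) (B (L (nat_lit 366) ln13_15_6 ln13_15_6_ok) (L (nat_lit 430) ln13_16_6 ln13_16_6_ok))) (M (nat_lit 524) (B (L (nat_lit 492) ln13_12_5 ln13_12_5_ok) (L (nat_lit 556) ln13_13_5 ln13_13_5_ok))))) (B (M (nat_lit 430) (B (M (nat_lit 525) (B (L (nat_lit 398) ln13_16_6 ln13_16_6_ok) (M (nat_lit 524) (B (L (nat_lit 492) ln13_12_5 ln13_12_5_ok) (L (nat_lit 556) ln13_13_5 ln13_13_5_ok))))) (B (M (nat_lit 428) (B (M (nat_lit 396) (B (L (nat_lit 525) ln13_16_7 ln13_16_7_ok) (M (nat_lit 395) (B (L (nat_lit 394) ln10_12_0 ln10_12_0_ok) (L (nat_lit 431) ln15_13_3 ln15_13_3_ok))))) (B (M (nat_lit 524) (B (L (nat_lit 492) ln13_12_5 ln13_12_5_ok) (M (nat_lit 525) (B (L (nat_lit 396) ln13_16_7 ln13_16_7_ok) (L (nat_lit 556) ln13_13_5 ln13_13_5_ok))))) (M (nat_lit 460) (B (M (nat_lit 492) (B (L (nat_lit 365) ln13_11_5 ln13_11_5_ok) (L (nat_lit 524) ln12_16_6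 ln12_16_6_ok))) (M (nat_lit 459) (B (L (nat_lit 431) ln15_13_1 ln15_13_1_ok) (L (nat_lit 458) ln10_14_2 ln10_14_2_ok)))))))) (B (M (nat_lit 396) (B (M (nat_lit 525) (B (L (nat_lit 428) ln13_16_7 ln13_16_7_ok) (L (nat_lit 398) ln13_16_6 ln13_16_6_ok))) (B (M (nat_lit 431) (B (L (nat_lit 432) ln16_13_3 ln16_13_3_ok) (M (nat_lit 395) (B (L (nat_lit 394) ln10_12_0 ln10_12_0_ok) (L (nat_lit 428) ln15_13_3 ln15_13_3_ok))))) (M (nat_lit 398) (B (L (nat_lit 525) ln13_16_6 ln13_16_6_ok) (M (nat_lit 395) (B (L (nat_lit 394) ln10_12_0 ln10_12_0_ok) (L (nat_lit 431) ln11_12_0 ln11_12_0_ok)))))))) (M (nat_lit 460) (B (M (nat_lit 492) (B (L (nat_lit 365) ln13_11_5 ln13_11_5_ok) (L (nat_lit 524) ln13_12_5 ln13_12_5_ok))) (M (nat_lit 431) (B (L (nat_lit 432) ln16_13_1 ln16_13_1_ok) (M (nat_lit 459) (B (L (nat_lit 428) ln15_13_1 ln15_13_1_ok) (L (nat_lit 458) ln10_14_2 ln10_14_2_ok))))))))))) (B (M (nat_lit 462) (B (M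 (nat_lit 492) (B (L (nat_lit 524) ln13_12_5 ln13_12_5_ok) (M (nat_lit 460) (B (L (nat_lit 365) ln13_11_5 ln13_11_5_ok) (M (nat_lit 463) (B (L (nat_lit 491) ln15_14_1 ln15_14_1_ok) (L (nat_lit 464) ln16_14_1 ln16_14_1_ok))))))) (B (M (nat_lit 428) (B (M (nat_lit 524) (B (L (nat_lit 492) ln13_12_5 ln13_12_5_ok) (M (nat_lit 525) (B (L (nat_lit 396) ln13_16_7 ln13_16_7_ok) (L (nat_lit 556) ln13_13_5 ln13_13_5_ok))))) (M (nat_lit 427) (B (L (nat_lit 426) ln10_13_0 ln10_13_0_ok) (M (nat_lit 463) (B (L (nat_lit 430) ln11_13_0 ln11_13_0_ok) (L (nat_lit 464) ln16_14_3 ln16_14_3_ok))))))) (B (M (nat_lit 365) (B (M (nat_lit 492) (B (L (nat_lit 460) ln13_11_5 ln13_11_5_ok) (L (nat_lit 524) ln13_12_5 ln13_12_5_ok))) (M (nat_lit 333) (B (L (nat_lit 430) ln13_10_4 ln13_10_4_ok) (M (nat_lit 334) (B (L (nat_lit 302) ln13_13_6 ln13_13_6_ok) (L (nat_lit 366) ln13_14_6 ln13_14_6_ok))))))) (M (nat_lit 428) (B (M (nat_lit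 427) (B (L (nat_lit 426) ln10_13_0 ln10_13_0_ok) (M (nat_lit 463) (B (L (nat_lit 430) ln11_13_0 ln11_13_0_ok) (L (nat_lit 464) ln16_14_3 ln16_14_3_ok))))) (B (M (nat_lit 463) (B (L (nat_lit 464) ln16_14_3 ln16_14_3_ok) (M (nat_lit 427) (B (L (nat_lit 430) ln11_13_0 ln11_13_0_ok) (L (nat_lit 460) ln15_14_3 ln15_14_3_ok))))) (B (M (nat_lit 525) (B (L (nat_lit 396) ln13_16_7 ln13_16_7_ok) (M (nat_lit 557) (B (L (nat_lit 460) ln13_17_7 ln13_17_7_ok) (L (nat_lit 430) ln13_17_6 ln13_17_6_ok))))) (M (nat_lit 427) (B (L (nat_lit 426) ln10_13_0 ln10_13_0_ok) (M (nat_lit 463) (B (L (nat_lit 460) ln15_14_3 ln15_14_3_ok) (L (nat_lit 464) ln16_14_3 ln16_14_3_ok))))))))))))) (B (M (nat_lit 365) (B (M (nat_lit 366) (B (L (nat_lit 334) ln13_14_6 ln13_14_6_ok) (L (nat_lit 398) ln13_15_6 ln13_15_6_ok))) (M (nat_lit 492) (B (L (nat_lit 460) ln13_11_5 ln13_11_5_ok) (L (nat_lit 524) ln13_12_5 ln13_12_5_ok))))) (M (nat_lit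 365) (B (M (nat_lit 366) (B (L (nat_lit 334) ln13_14_6 ln13_14_6_ok) (L (nat_lit 398) ln13_15_6 ln13_15_6_ok))) (B (M (nat_lit 398) (B (L (nat_lit 366) ln13_15_6 ln13_15_6_ok) (M (nat_lit 430) (B (L (nat_lit 525) ln13_16_6 ln13_16_6_ok) (M (nat_lit 333) (B (L (nat_lit 301) ln13_9_4 ln13_9_4_ok) (L (nat_lit 462) ln13_10_4 ln13_10_4_ok))))))) (B (M (nat_lit 333) (B (M (nat_lit 428) (B (L (nat_lit 460) ln13_10_5 ln13_10_5_ok) (M (nat_lit 396) (B (L (nat_lit 301) ln13_9_5 ln13_9_5_ok) (L (nat_lit 525) ln13_16_7 ln13_16_7_ok))))) (B (M (nat_lit 525) (B (M (nat_lit 428) (B (L (nat_lit 460) ln13_10_5 ln13_10_5_ok) (L (nat_lit 396) ln13_16_7 ln13_16_7_ok))) (M (nat_lit 430) (B (L (nat_lit 462) ln13_10_4 ln13_10_4_ok) (L (nat_lit 398) ln13_16_6 ln13_16_6_ok))))) (B (M (nat_lit 430) (B (L (nat_lit 462) ln13_10_4 ln13_10_4_ok) (M (nat_lit 398) (B (L (nat_lit 301) ln13_9_4 ln13_9_4_ok) (L (nat_lit 525) ln13_16_6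 ln13_16_6_ok))))) (M (nat_lit 301) (B (M (nat_lit 428) (B (L (nat_lit 396) ln13_9_5 ln13_9_5_ok) (L (nat_lit 460) ln13_10_5 ln13_10_5_ok))) (M (nat_lit 430) (B (L (nat_lit 398) ln13_9_4 ln13_9_4_ok) (L (nat_lit 462) ln13_10_4 ln13_10_4_ok))))))))) (M (nat_lit 333) (B (M (nat_lit 334) (B (L (nat_lit 302) ln13_13_6 ln13_13_6_ok) (L (nat_lit 366) ln13_14_6 ln13_14_6_ok))) (M (nat_lit 428) (B (L (nat_lit 460) ln13_10_5 ln13_10_5_ok) (M (nat_lit 396) (B (L (nat_lit 301) ln13_9_5 ln13_9_5_ok) (L (nat_lit 525) ln13_16_7 ln13_16_7_ok)))))))))))))))) (nat_lit 5954262830815946494763249298768603811203561774969104571805089223376689777636098861358550851719243481454542035207245364041705138952691777536) (nat_lit 707617954818794147433179504400765760462349948034593818185467992989934564539643137674322702302553534504630050502034671619051595268718814545464605009751075361260887343104) (nat_lit 707617954818794147433179504400765760462349948034593818185467992989934564539643137674322702302553534504630050502034671619051595268718814545464605009751075361260887343104)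 (by decide +kernel)
noncomputable def c33_n5725 : Cert := (M (nat_lit 396) (B (M (nat_lit 395) (B (M (nat_lit 430) (B (L (nat_lit 394) ln10_12_0 ln10_12_0_ok) (L (nat_lit 431) ln11_12_0 ln11_12_0_ok))) (M (nat_lit 364) (B (M (nat_lit 332) (B (L (nat_lit 300) ln12_9_4 ln12_9_4_ok) (L (nat_lit 428) ln12_10_4 ln12_10_4_ok))) (M (nat_lit 363) (B (L (nat_lit 362) ln14_12_3 ln14_12_3_ok) (L (nat_lit 399) ln15_12_3 ln15_12_3_ok))))))) (B (M (nat_lit 395) (B (M (nat_lit 430) (B (L (nat_lit 394) ln10_12_0 ln10_12_0_ok) (L (nat_lit 431) ln11_12_0 ln11_12_0_ok))) (M (nat_lit 399) (B (M (nat_lit 363) (B (L (nat_lit 362) ln14_12_3 ln14_12_3_ok) (L (nat_lit 364) ln15_12_3 ln15_12_3_ok))) (M (nat_lit 367) (B (L (nat_lit 366) ln11_12_2 ln11_12_2_ok) (L (nat_lit 368) ln12_12_2 ln12_12_2_ok))))))) (B (M (nat_lit 395) (B (M (nat_lit 430) (B (L (nat_lit 394) ln10_12_0 ln10_12_0_ok) (L (nat_lit 431) ln11_12_0 ln11_12_0_ok)))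 (M (nat_lit 399) (B (M (nat_lit 367) (B (L (nat_lit 366) ln11_12_2 ln11_12_2_ok) (L (nat_lit 368) ln12_12_2 ln12_12_2_ok))) (M (nat_lit 427) (B (L (nat_lit 426) ln14_12_1 ln14_12_1_ok) (L (nat_lit 428) ln15_12_1 ln15_12_1_ok))))))) (B (M (nat_lit 395) (B (M (nat_lit 430) (B (L (nat_lit 431) ln11_12_0 ln11_12_0_ok) (M (nat_lit 366) (B (L (nat_lit 334) ln14_10_5 ln14_10_5_ok) (L (nat_lit 367) ln11_12_2 ln11_12_2_ok))))) (M (nat_lit 364) (B (M (nat_lit 332) (B (L (nat_lit 300) ln12_9_4 ln12_9_4_ok) (L (nat_lit 428) ln12_10_4 ln12_10_4_ok))) (M (nat_lit 363) (B (L (nat_lit 362) ln14_12_3 ln14_12_3_ok) (L (nat_lit 399) ln15_12_3 ln15_12_3_ok))))))) (B (M (nat_lit 399) (B (M (nat_lit 428) (B (L (nat_lit 427) ln15_12_1 ln15_12_1_ok) (L (nat_lit 400) ln16_12_1 ln16_12_1_ok))) (B (M (nat_lit 428) (B (L (nat_lit 427) ln15_12_1 ln15_12_1_ok) (M (nat_lit 364) (B (L (nat_lit 332) ln12_10_4 ln12_10_4_ok) (L (nat_lit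 363) ln15_12_3 ln15_12_3_ok))))) (B (M (nat_lit 428) (B (L (nat_lit 400) ln16_12_1 ln16_12_1_ok) (M (nat_lit 364) (B (L (nat_lit 332) ln12_10_4 ln12_10_4_ok) (L (nat_lit 363) ln15_12_3 ln15_12_3_ok))))) (M (nat_lit 400) (B (M (nat_lit 368) (B (L (nat_lit 367) ln12_12_2 ln12_12_2_ok) (L (nat_lit 369) ln13_12_2 ln13_12_2_ok))) (M (nat_lit 432) (B (L (nat_lit 431) ln12_12_0 ln12_12_0_ok) (L (nat_lit 433) ln13_12_0 ln13_12_0_ok))))))))) (B (M (nat_lit 395) (B (M (nat_lit 430) (B (L (nat_lit 394) ln10_12_0 ln10_12_0_ok) (L (nat_lit 431) ln11_12_0 ln11_12_0_ok))) (B (M (nat_lit 430) (B (L (nat_lit 431) ln11_12_0 ln11_12_0_ok) (M (nat_lit 366) (B (L (nat_lit 334) ln14_10_5 ln14_10_5_ok) (L (nat_lit 367) ln11_12_2 ln11_12_2_ok))))) (M (nat_lit 394) (B (M (nat_lit 362) (B (L (nat_lit 361) ln13_12_3 ln13_12_3_ok) (L (nat_lit 363) ln14_12_3 ln14_12_3_ok))) (M (nat_lit 426) (B (L (nat_lit 425) ln13_12_1 ln13_12_1_ok)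 (L (nat_lit 427) ln14_12_1 ln14_12_1_ok)))))))) (M (nat_lit 395) (B (M (nat_lit 430) (B (L (nat_lit 394) ln10_12_0 ln10_12_0_ok) (M (nat_lit 366) (B (L (nat_lit 334) ln14_10_5 ln14_10_5_ok) (L (nat_lit 367) ln11_12_2 ln11_12_2_ok))))) (B (M (nat_lit 426) (B (L (nat_lit 427) ln14_12_1 ln14_12_1_ok) (M (nat_lit 394) (B (L (nat_lit 425) ln13_12_1 ln13_12_1_ok) (L (nat_lit 430) ln10_12_0 ln10_12_0_ok))))) (M (nat_lit 399) (B (M (nat_lit 363) (B (L (nat_lit 362) ln14_12_3 ln14_12_3_ok) (L (nat_lit 364) ln15_12_3 ln15_12_3_ok))) (M (nat_lit 367) (B (L (nat_lit 366) ln11_12_2 ln11_12_2_ok) (L (nat_lit 368) ln12_12_2 ln12_12_2_ok)))))))))))))))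
theorem c33_s5726 : Sem (nat_lit 5954262830815946494763249298768603811203561774969104571805089223376689777636098861358550851719243481454542035207245364041705138952691777536) (nat_lit 235872651716101478396591840657615337442367814585925127270487494794730439329811577799545258988948198148225281700931418802344055680813819882376651825612966556747807326208) (nat_lit 235872651716101478396591840657615337442367814585925127270487494794730439329811577799545258988948198148225281700931418802344055680813819882376651825612966556747807326208) :=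
  sem_of_chk (M (nat_lit 398) (B (M (nat_lit 366) (B (L (nat_lit 493) ln13_15_6 ln13_15_6_ok) (M (nat_lit 334) (B (L (nat_lit 302) ln14_9_5 ln14_9_5_ok) (L (nat_lit 430) ln14_10_5 ln14_10_5_ok))))) (B (M (nat_lit 493) (B (L (nat_lit 366) ln13_15_6 ln13_15_6_ok) (M (nat_lit 525) (B (L (nat_lit 430) ln13_16_6 ln13_16_6_ok) (M (nat_lit 524) (B (L (nat_lit 492) ln13_12_5 ln13_12_5_ok) (L (nat_lit 556) ln13_13_5 ln13_13_5_ok))))))) (B (M (nat_lit 396) (B (M (nat_lit 493) (B (L (nat_lit 364) ln13_15_7 ln13_15_7_ok) (M (nat_lit 525) (B (L (nat_lit 428) ln13_16_7 ln13_16_7_ok) (L (nat_lit 430) ln13_16_6 ln13_16_6_ok))))) (B (M (nat_lit 395) (B (M (nat_lit 430) (B (L (nat_lit 394) ln10_12_0 ln10_12_0_ok) (L (nat_lit 431) ln11_12_0 ln11_12_0_ok))) (B (M (nat_lit 399) (B (M (nat_lit 427) (B (L (nat_lit 426) ln14_12_1 ln14_12_1_ok) (L (nat_lit 428) ln15_12_1 ln15_12_1_ok))) (M (nat_lit 431) (B (L (nat_lit 430) ln11_12_0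 ln11_12_0_ok) (L (nat_lit 432) ln12_12_0 ln12_12_0_ok))))) (M (nat_lit 394) (B (M (nat_lit 362) (B (L (nat_lit 361) ln13_12_3 ln13_12_3_ok) (L (nat_lit 363) ln14_12_3 ln14_12_3_ok))) (M (nat_lit 426) (B (L (nat_lit 425) ln13_12_1 ln13_12_1_ok) (L (nat_lit 427) ln14_12_1 ln14_12_1_ok)))))))) (B (M (nat_lit 430) (B (M (nat_lit 395) (B (L (nat_lit 394) ln10_12_0 ln10_12_0_ok) (L (nat_lit 431) ln11_12_0 ln11_12_0_ok))) (M (nat_lit 493) (B (L (nat_lit 364) ln13_15_7 ln13_15_7_ok) (L (nat_lit 525) ln13_16_6 ln13_16_6_ok))))) (M (nat_lit 364) (B (L (nat_lit 493) ln13_15_7 ln13_15_7_ok) (M (nat_lit 332) (B (L (nat_lit 300) ln12_9_4 ln12_9_4_ok) (L (nat_lit 428) ln12_10_4 ln12_10_4_ok))))))))) (B (M (nat_lit 493) (B (L (nat_lit 366) ln13_15_6 ln13_15_6_ok) (M (nat_lit 525) (B (M (nat_lit 396) (B (L (nat_lit 364) ln13_15_7 ln13_15_7_ok) (L (nat_lit 428) ln13_16_7 ln13_16_7_ok))) (M (nat_lit 524) (B (L (nat_lit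 492) ln13_12_5 ln13_12_5_ok) (L (nat_lit 556) ln13_13_5 ln13_13_5_ok))))))) c33_n5725))))) (nat_lit 5954262830815946494763249298768603811203561774969104571805089223376689777636098861358550851719243481454542035207245364041705138952691777536) (nat_lit 235872651716101478396591840657615337442367814585925127270487494794730439329811577799545258988948198148225281700931418802344055680813819882376651825612966556747807326208) (nat_lit 235872651716101478396591840657615337442367814585925127270487494794730439329811577799545258988948198148225281700931418802344055680813819882376651825612966556747807326208) (by decide +kernel)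
noncomputable def c33_n5882 : Cert := (M (nat_lit 396) (B (M (nat_lit 395) (B (M (nat_lit 430) (B (L (nat_lit 394) ln10_12_0 ln10_12_0_ok) (L (nat_lit 431) ln11_12_0 ln11_12_0_ok))) (M (nat_lit 399) (B (M (nat_lit 367) (B (L (nat_lit 366) ln11_12_2 ln11_12_2_ok) (L (nat_lit 368) ln12_12_2 ln12_12_2_ok))) (M (nat_lit 427) (B (L (nat_lit 426) ln14_12_1 ln14_12_1_ok) (L (nat_lit 428) ln15_12_1 ln15_12_1_ok))))))) (B (M (nat_lit 395) (B (M (nat_lit 430) (B (L (nat_lit 394) ln10_12_0 ln10_12_0_ok) (L (nat_lit 431) ln11_12_0 ln11_12_0_ok))) (M (nat_lit 399) (B (M (nat_lit 363) (B (L (nat_lit 362) ln14_12_3 ln14_12_3_ok) (L (nat_lit 364) ln15_12_3 ln15_12_3_ok))) (M (nat_lit 427) (B (L (nat_lit 426) ln14_12_1 ln14_12_1_ok) (L (nat_lit 428) ln15_12_1 ln15_12_1_ok))))))) (B (M (nat_lit 395) (B (M (nat_lit 430) (B (L (nat_lit 431) ln11_12_0 ln11_12_0_ok) (M (nat_lit 366) (B (L (nat_lit 334) ln14_10_5 ln14_10_5_ok)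 (L (nat_lit 367) ln11_12_2 ln11_12_2_ok))))) (M (nat_lit 399) (B (M (nat_lit 363) (B (L (nat_lit 362) ln14_12_3 ln14_12_3_ok) (L (nat_lit 364) ln15_12_3 ln15_12_3_ok))) (M (nat_lit 427) (B (L (nat_lit 426) ln14_12_1 ln14_12_1_ok) (L (nat_lit 428) ln15_12_1 ln15_12_1_ok))))))) (B (M (nat_lit 399) (B (M (nat_lit 428) (B (L (nat_lit 427) ln15_12_1 ln15_12_1_ok) (L (nat_lit 400) ln16_12_1 ln16_12_1_ok))) (B (M (nat_lit 428) (B (L (nat_lit 427) ln15_12_1 ln15_12_1_ok) (M (nat_lit 364) (B (L (nat_lit 332) ln12_10_4 ln12_10_4_ok) (L (nat_lit 363) ln15_12_3 ln15_12_3_ok))))) (B (M (nat_lit 428) (B (L (nat_lit 400) ln16_12_1 ln16_12_1_ok) (M (nat_lit 364) (B (L (nat_lit 332) ln12_10_4 ln12_10_4_ok) (L (nat_lit 363) ln15_12_3 ln15_12_3_ok))))) (M (nat_lit 400) (B (M (nat_lit 368) (B (L (nat_lit 367) ln12_12_2 ln12_12_2_ok) (L (nat_lit 369) ln13_12_2 ln13_12_2_ok))) (M (nat_lit 432) (B (L (nat_lit 431) ln12_12_0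 ln12_12_0_ok) (L (nat_lit 433) ln13_12_0 ln13_12_0_ok))))))))) (B (M (nat_lit 395) (B (M (nat_lit 430) (B (L (nat_lit 394) ln10_12_0 ln10_12_0_ok) (L (nat_lit 431) ln11_12_0 ln11_12_0_ok))) (B (M (nat_lit 430) (B (L (nat_lit 431) ln11_12_0 ln11_12_0_ok) (M (nat_lit 366) (B (L (nat_lit 334) ln14_10_5 ln14_10_5_ok) (L (nat_lit 367) ln11_12_2 ln11_12_2_ok))))) (M (nat_lit 394) (B (M (nat_lit 362) (B (L (nat_lit 361) ln13_12_3 ln13_12_3_ok) (L (nat_lit 363) ln14_12_3 ln14_12_3_ok))) (M (nat_lit 426) (B (L (nat_lit 425) ln13_12_1 ln13_12_1_ok) (L (nat_lit 427) ln14_12_1 ln14_12_1_ok)))))))) (B (M (nat_lit 395) (B (M (nat_lit 430) (B (L (nat_lit 394) ln10_12_0 ln10_12_0_ok) (L (nat_lit 431) ln11_12_0 ln11_12_0_ok))) (M (nat_lit 399) (B (M (nat_lit 363) (B (L (nat_lit 362) ln14_12_3 ln14_12_3_ok) (L (nat_lit 364) ln15_12_3 ln15_12_3_ok))) (M (nat_lit 367) (B (L (nat_lit 366) ln11_12_2 ln11_12_2_ok) (L (nat_lit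 368) ln12_12_2 ln12_12_2_ok))))))) (M (nat_lit 395) (B (M (nat_lit 430) (B (L (nat_lit 394) ln10_12_0 ln10_12_0_ok) (M (nat_lit 366) (B (L (nat_lit 334) ln14_10_5 ln14_10_5_ok) (L (nat_lit 367) ln11_12_2 ln11_12_2_ok))))) (B (M (nat_lit 426) (B (L (nat_lit 427) ln14_12_1 ln14_12_1_ok) (M (nat_lit 394) (B (L (nat_lit 425) ln13_12_1 ln13_12_1_ok) (L (nat_lit 430) ln10_12_0 ln10_12_0_ok))))) (M (nat_lit 399) (B (M (nat_lit 363) (B (L (nat_lit 362) ln14_12_3 ln14_12_3_ok) (L (nat_lit 364) ln15_12_3 ln15_12_3_ok))) (M (nat_lit 367) (B (L (nat_lit 366) ln11_12_2 ln11_12_2_ok) (L (nat_lit 368) ln12_12_2 ln12_12_2_ok)))))))))))))))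
theorem c33_s6012 : Sem (nat_lit 5954262830815946495408811768290330958617541567969857540387515671583995655843763700493712757223453780111953373527279821900680931945878650880) (nat_lit 19180023110259961924927043644314157669386236162528613307457205803458094390017900152841592379056659308040335222977334273633773044511964799839200346112) (nat_lit 19180023110259961924927043644314157669386236162528613307457205803458094390017900152841592379056659308040335222977334273633773044511964799839200346112) :=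
  sem_of_chk (M (nat_lit 395) (B (M (nat_lit 366) (B (M (nat_lit 334) (B (L (nat_lit 302) ln14_9_5 ln14_9_5_ok) (L (nat_lit 365) ln13_14_6 ln13_14_6_ok))) (B (M (nat_lit 334) (B (L (nat_lit 365) ln13_14_6 ln13_14_6_ok) (L (nat_lit 430) ln14_10_5 ln14_10_5_ok))) (M (nat_lit 396) (B (L (nat_lit 367) ln11_12_2 ln11_12_2_ok) (M (nat_lit 430) (B (L (nat_lit 394) ln10_12_0 ln10_12_0_ok) (L (nat_lit 431) ln11_12_0 ln11_12_0_ok)))))))) (B (M (nat_lit 366) (B (M (nat_lit 334) (B (L (nat_lit 365) ln13_14_6 ln13_14_6_ok) (L (nat_lit 430) ln14_10_5 ln14_10_5_ok))) (B (M (nat_lit 396) (B (L (nat_lit 367) ln11_12_2 ln11_12_2_ok) (M (nat_lit 430) (B (L (nat_lit 394) ln10_12_0 ln10_12_0_ok) (L (nat_lit 431) ln11_12_0 ln11_12_0_ok))))) (M (nat_lit 396) (B (L (nat_lit 367) ln11_12_2 ln11_12_2_ok) (M (nat_lit 365) (B (L (nat_lit 334) ln13_14_6 ln13_14_6_ok) (L (nat_lit 394) ln10_12_2 ln10_12_2_ok)))))))) (B (M (nat_lit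 430) (B (M (nat_lit 396) (B (L (nat_lit 394) ln10_12_0 ln10_12_0_ok) (L (nat_lit 431) ln11_12_0 ln11_12_0_ok))) (B (M (nat_lit 431) (B (L (nat_lit 396) ln11_12_0 ln11_12_0_ok) (M (nat_lit 460) (B (L (nat_lit 432) ln16_13_1 ln16_13_1_ok) (M (nat_lit 459) (B (L (nat_lit 458) ln10_14_2 ln10_14_2_ok) (L (nat_lit 462) ln11_14_2 ln11_14_2_ok))))))) (B (M (nat_lit 428) (B (M (nat_lit 427) (B (L (nat_lit 394) ln14_13_3 ln14_13_3_ok) (L (nat_lit 426) ln10_13_2 ln10_13_2_ok))) (M (nat_lit 460) (B (M (nat_lit 365) (B (L (nat_lit 333) ln13_10_5 ln13_10_5_ok) (L (nat_lit 492) ln13_11_5 ln13_11_5_ok))) (M (nat_lit 431) (B (L (nat_lit 459) ln15_13_1 ln15_13_1_ok) (L (nat_lit 432) ln16_13_1 ln16_13_1_ok))))))) (M (nat_lit 427) (B (M (nat_lit 394) (B (L (nat_lit 396) ln10_12_0 ln10_12_0_ok) (L (nat_lit 428) ln14_13_3 ln14_13_3_ok))) (B (M (nat_lit 426) (B (L (nat_lit 396) ln14_12_1 ln14_12_1_ok) (L (nat_lit 428) ln10_13_2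 ln10_13_2_ok))) (B (M (nat_lit 428) (B (L (nat_lit 394) ln14_13_3 ln14_13_3_ok) (L (nat_lit 426) ln10_13_2 ln10_13_2_ok))) (M (nat_lit 396) (B (L (nat_lit 394) ln10_12_0 ln10_12_0_ok) (L (nat_lit 426) ln14_12_1 ln14_12_1_ok))))))))))) (B (M (nat_lit 396) (B (M (nat_lit 430) (B (L (nat_lit 394) ln10_12_0 ln10_12_0_ok) (L (nat_lit 431) ln11_12_0 ln11_12_0_ok))) (B (M (nat_lit 430) (B (L (nat_lit 431) ln11_12_0 ln11_12_0_ok) (M (nat_lit 366) (B (L (nat_lit 334) ln14_10_5 ln14_10_5_ok) (L (nat_lit 367) ln11_12_2 ln11_12_2_ok))))) (M (nat_lit 394) (B (M (nat_lit 362) (B (L (nat_lit 361) ln13_12_3 ln13_12_3_ok) (L (nat_lit 363) ln14_12_3 ln14_12_3_ok))) (M (nat_lit 426) (B (L (nat_lit 425) ln13_12_1 ln13_12_1_ok) (L (nat_lit 427) ln14_12_1 ln14_12_1_ok)))))))) (B (M (nat_lit 459) (B (M (nat_lit 430) (B (M (nat_lit 460) (B (L (nat_lit 458) ln10_14_2 ln10_14_2_ok) (M (nat_lit 431) (B (L (nat_lit 432) ln16_13_1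 ln16_13_1_ok) (L (nat_lit 462) ln11_14_2 ln11_14_2_ok))))) (B (M (nat_lit 365) (B (M (nat_lit 333) (B (L (nat_lit 301) ln13_9_4 ln13_9_4_ok) (L (nat_lit 462) ln13_10_4 ln13_10_4_ok))) (M (nat_lit 460) (B (L (nat_lit 492) ln13_11_5 ln13_11_5_ok) (L (nat_lit 458) ln10_14_2 ln10_14_2_ok))))) (M (nat_lit 396) (B (L (nat_lit 431) ln11_12_0 ln11_12_0_ok) (M (nat_lit 366) (B (L (nat_lit 334) ln14_10_5 ln14_10_5_ok) (L (nat_lit 367) ln11_12_2 ln11_12_2_ok)))))))) (B (M (nat_lit 396) (B (M (nat_lit 430) (B (L (nat_lit 431) ln11_12_0 ln11_12_0_ok) (M (nat_lit 366) (B (L (nat_lit 334) ln14_10_5 ln14_10_5_ok) (L (nat_lit 367) ln11_12_2 ln11_12_2_ok))))) (M (nat_lit 364) (B (M (nat_lit 332) (B (L (nat_lit 300) ln12_9_4 ln12_9_4_ok) (L (nat_lit 428) ln12_10_4 ln12_10_4_ok))) (M (nat_lit 427) (B (L (nat_lit 491) ln11_15_6 ln11_15_6_ok) (L (nat_lit 426) ln14_12_1 ln14_12_1_ok))))))) (B (M (nat_lit 460) (B (M (nat_lit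 430) (B (L (nat_lit 458) ln10_14_2 ln10_14_2_ok) (M (nat_lit 431) (B (L (nat_lit 428) ln15_13_1 ln15_13_1_ok) (L (nat_lit 432) ln16_13_1 ln16_13_1_ok))))) (B (M (nat_lit 430) (B (L (nat_lit 458) ln10_14_2 ln10_14_2_ok) (M (nat_lit 431) (B (L (nat_lit 432) ln16_13_1 ln16_13_1_ok) (L (nat_lit 462) ln11_14_2 ln11_14_2_ok))))) (M (nat_lit 427) (B (M (nat_lit 492) (B (L (nat_lit 363) ln11_11_4 ln11_11_4_ok) (L (nat_lit 365) ln13_11_5 ln13_11_5_ok))) (M (nat_lit 426) (B (L (nat_lit 428) ln10_13_2 ln10_13_2_ok) (L (nat_lit 462) ln14_14_3 ln14_14_3_ok)))))))) (M (nat_lit 396) (B (M (nat_lit 366) (B (L (nat_lit 367) ln11_12_2 ln11_12_2_ok) (M (nat_lit 334) (B (L (nat_lit 302) ln14_9_5 ln14_9_5_ok) (L (nat_lit 365) ln13_14_6 ln13_14_6_ok))))) (M (nat_lit 364) (B (M (nat_lit 332) (B (L (nat_lit 300) ln12_9_4 ln12_9_4_ok) (L (nat_lit 428) ln12_10_4 ln12_10_4_ok))) (M (nat_lit 427) (B (L (nat_lit 491) ln11_15_6 ln11_15_6_ok)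 (L (nat_lit 426) ln14_12_1 ln14_12_1_ok))))))))))) (B (M (nat_lit 366) (B (M (nat_lit 334) (B (L (nat_lit 302) ln14_9_5 ln14_9_5_ok) (L (nat_lit 365) ln13_14_6 ln13_14_6_ok))) (B (M (nat_lit 334) (B (L (nat_lit 365) ln13_14_6 ln13_14_6_ok) (L (nat_lit 430) ln14_10_5 ln14_10_5_ok))) (B (M (nat_lit 365) (B (M (nat_lit 364) (B (L (nat_lit 332) ln13_14_7 ln13_14_7_ok) (M (nat_lit 363) (B (L (nat_lit 362) ln10_11_0 ln10_11_0_ok) (L (nat_lit 394) ln14_11_1 ln14_11_1_ok))))) (M (nat_lit 333) (B (M (nat_lit 301) (B (L (nat_lit 269) ln13_8_4 ln13_8_4_ok) (L (nat_lit 430) ln13_9_4 ln13_9_4_ok))) (M (nat_lit 460) (B (L (nat_lit 428) ln13_10_5 ln13_10_5_ok) (L (nat_lit 492) ln13_11_5 ln13_11_5_ok))))))) (M (nat_lit 334) (B (L (nat_lit 302) ln14_9_5 ln14_9_5_ok) (L (nat_lit 430) ln14_10_5 ln14_10_5_ok))))))) (M (nat_lit 396) (B (M (nat_lit 366) (B (L (nat_lit 367) ln11_12_2 ln11_12_2_ok) (M (nat_lit 334) (B (L (nat_lit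 302) ln14_9_5 ln14_9_5_ok) (L (nat_lit 365) ln13_14_6 ln13_14_6_ok))))) (B (M (nat_lit 366) (B (L (nat_lit 367) ln11_12_2 ln11_12_2_ok) (M (nat_lit 365) (B (L (nat_lit 334) ln13_14_6 ln13_14_6_ok) (L (nat_lit 394) ln10_12_2 ln10_12_2_ok))))) (M (nat_lit 394) (B (M (nat_lit 362) (B (L (nat_lit 361) ln13_12_3 ln13_12_3_ok) (L (nat_lit 363) ln14_12_3 ln14_12_3_ok))) (M (nat_lit 426) (B (L (nat_lit 425) ln13_12_1 ln13_12_1_ok) (L (nat_lit 427) ln14_12_1 ln14_12_1_ok))))))))))))))) (nat_lit 5954262830815946495408811768290330958617541567969857540387515671583995655843763700493712757223453780111953373527279821900680931945878650880) (nat_lit 19180023110259961924927043644314157669386236162528613307457205803458094390017900152841592379056659308040335222977334273633773044511964799839200346112) (nat_lit 19180023110259961924927043644314157669386236162528613307457205803458094390017900152841592379056659308040335222977334273633773044511964799839200346112)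 (by decide +kernel)
theorem c33_s6015 : Sem (nat_lit 5954262830815946494763249298768603811203561774969104571805089223376689777636098861358550851719243481454542035207245364041705138952691777536) (nat_lit 19180023110259961947108401201799613834469320371211437428182446954266418925815313591972382823227991642141291243110557170802479847916785404666032685056) (nat_lit 19180023110259961947108401201799613834469320371211437428182446954266418925815313591972382823227991642141291243110557170802479847916785404666032685056) :=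
  sem_of_chk (M (nat_lit 398) (B (M (nat_lit 366) (B (M (nat_lit 334) (B (L (nat_lit 302) ln14_9_5 ln14_9_5_ok) (L (nat_lit 365) ln13_14_6 ln13_14_6_ok))) (B (M (nat_lit 334) (B (L (nat_lit 365) ln13_14_6 ln13_14_6_ok) (L (nat_lit 430) ln14_10_5 ln14_10_5_ok))) (B (M (nat_lit 365) (B (M (nat_lit 364) (B (L (nat_lit 332) ln13_14_7 ln13_14_7_ok) (M (nat_lit 399) (B (L (nat_lit 363) ln11_11_0 ln11_11_0_ok) (L (nat_lit 400) ln16_12_3 ln16_12_3_ok))))) (M (nat_lit 333) (B (M (nat_lit 301) (B (L (nat_lit 269) ln13_8_4 ln13_8_4_ok) (L (nat_lit 430) ln13_9_4 ln13_9_4_ok))) (M (nat_lit 460) (B (L (nat_lit 428) ln13_10_5 ln13_10_5_ok) (L (nat_lit 492) ln13_11_5 ln13_11_5_ok))))))) (M (nat_lit 334) (B (L (nat_lit 302) ln14_9_5 ln14_9_5_ok) (L (nat_lit 430) ln14_10_5 ln14_10_5_ok))))))) (B (M (nat_lit 366) (B (M (nat_lit 334) (B (L (nat_lit 302) ln14_9_5 ln14_9_5_ok) (L (nat_lit 365) ln13_14_6 ln13_14_6_ok))) (B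 (M (nat_lit 334) (B (L (nat_lit 365) ln13_14_6 ln13_14_6_ok) (L (nat_lit 430) ln14_10_5 ln14_10_5_ok))) (B (M (nat_lit 365) (B (M (nat_lit 364) (B (L (nat_lit 332) ln13_14_7 ln13_14_7_ok) (M (nat_lit 399) (B (L (nat_lit 363) ln11_11_0 ln11_11_0_ok) (L (nat_lit 400) ln16_12_3 ln16_12_3_ok))))) (M (nat_lit 333) (B (M (nat_lit 430) (B (L (nat_lit 301) ln13_9_4 ln13_9_4_ok) (L (nat_lit 462) ln14_14_7 ln14_14_7_ok))) (M (nat_lit 460) (B (L (nat_lit 428) ln13_10_5 ln13_10_5_ok) (L (nat_lit 492) ln13_11_5 ln13_11_5_ok))))))) (M (nat_lit 334) (B (L (nat_lit 302) ln14_9_5 ln14_9_5_ok) (L (nat_lit 430) ln14_10_5 ln14_10_5_ok))))))) (B (M (nat_lit 365) (B (M (nat_lit 366) (B (L (nat_lit 334) ln13_14_6 ln13_14_6_ok) (M (nat_lit 364) (B (L (nat_lit 332) ln13_14_7 ln13_14_7_ok) (M (nat_lit 399) (B (L (nat_lit 363) ln11_11_0 ln11_11_0_ok) (L (nat_lit 400) ln16_12_3 ln16_12_3_ok))))))) (B (M (nat_lit 333) (B (M (nat_lit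 334) (B (L (nat_lit 302) ln13_13_6 ln13_13_6_ok) (L (nat_lit 366) ln13_14_6 ln13_14_6_ok))) (M (nat_lit 460) (B (L (nat_lit 428) ln13_10_5 ln13_10_5_ok) (L (nat_lit 492) ln13_11_5 ln13_11_5_ok))))) (M (nat_lit 333) (B (M (nat_lit 332) (B (L (nat_lit 300) ln13_13_7 ln13_13_7_ok) (L (nat_lit 364) ln13_14_7 ln13_14_7_ok))) (M (nat_lit 460) (B (L (nat_lit 428) ln13_10_5 ln13_10_5_ok) (L (nat_lit 492) ln13_11_5 ln13_11_5_ok)))))))) (B (M (nat_lit 365) (B (M (nat_lit 366) (B (L (nat_lit 334) ln13_14_6 ln13_14_6_ok) (M (nat_lit 364) (B (L (nat_lit 332) ln13_14_7 ln13_14_7_ok) (M (nat_lit 399) (B (L (nat_lit 363) ln11_11_0 ln11_11_0_ok) (L (nat_lit 400) ln16_12_3 ln16_12_3_ok))))))) (M (nat_lit 333) (B (M (nat_lit 460) (B (L (nat_lit 428) ln13_10_5 ln13_10_5_ok) (L (nat_lit 492) ln13_11_5 ln13_11_5_ok))) (M (nat_lit 430) (B (L (nat_lit 301) ln13_9_4 ln13_9_4_ok) (L (nat_lit 462) ln13_10_4 ln13_10_4_ok)))))))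 (B (M (nat_lit 430) (B (M (nat_lit 428) (B (M (nat_lit 427) (B (L (nat_lit 426) ln10_13_2 ln10_13_2_ok) (L (nat_lit 399) ln11_13_2 ln11_13_2_ok))) (M (nat_lit 460) (B (M (nat_lit 365) (B (L (nat_lit 333) ln13_10_5 ln13_10_5_ok) (L (nat_lit 492) ln13_11_5 ln13_11_5_ok))) (M (nat_lit 431) (B (L (nat_lit 459) ln15_13_1 ln15_13_1_ok) (L (nat_lit 432) ln16_13_1 ln16_13_1_ok))))))) (B (M (nat_lit 366) (B (L (nat_lit 334) ln14_10_5 ln14_10_5_ok) (M (nat_lit 399) (B (M (nat_lit 428) (B (L (nat_lit 400) ln16_12_1 ln16_12_1_ok) (L (nat_lit 427) ln11_13_2 ln11_13_2_ok))) (M (nat_lit 367) (B (M (nat_lit 335) (B (L (nat_lit 303) ln15_9_5 ln15_9_5_ok) (L (nat_lit 462) ln14_14_6 ln14_14_6_ok))) (M (nat_lit 396) (B (L (nat_lit 395) ln11_12_2 ln11_12_2_ok) (L (nat_lit 368) ln12_12_2 ln12_12_2_ok))))))))) (B (M (nat_lit 460) (B (M (nat_lit 431) (B (L (nat_lit 432) ln16_13_1 ln16_13_1_ok) (M (nat_lit 459) (B (L (nat_lit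 458) ln10_14_2 ln10_14_2_ok) (L (nat_lit 462) ln11_14_2 ln11_14_2_ok))))) (B (M (nat_lit 365) (B (L (nat_lit 492) ln13_11_5 ln13_11_5_ok) (M (nat_lit 333) (B (L (nat_lit 301) ln13_9_4 ln13_9_4_ok) (L (nat_lit 462) ln13_10_4 ln13_10_4_ok))))) (M (nat_lit 365) (B (L (nat_lit 492) ln13_11_5 ln13_11_5_ok) (M (nat_lit 333) (B (L (nat_lit 301) ln13_9_4 ln13_9_4_ok) (L (nat_lit 428) ln13_10_5 ln13_10_5_ok)))))))) (M (nat_lit 460) (B (M (nat_lit 365) (B (L (nat_lit 492) ln13_11_5 ln13_11_5_ok) (M (nat_lit 333) (B (L (nat_lit 301) ln13_9_4 ln13_9_4_ok) (L (nat_lit 462) ln13_10_4 ln13_10_4_ok))))) (B (M (nat_lit 431) (B (L (nat_lit 432) ln16_13_1 ln16_13_1_ok) (M (nat_lit 459) (B (L (nat_lit 458) ln10_14_2 ln10_14_2_ok) (L (nat_lit 462) ln11_14_2 ln11_14_2_ok))))) (M (nat_lit 365) (B (L (nat_lit 492) ln13_11_5 ln13_11_5_ok) (M (nat_lit 334) (B (L (nat_lit 366) ln13_14_6 ln13_14_6_ok) (M (nat_lit 333) (B (L (nat_lit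 301) ln13_9_4 ln13_9_4_ok) (L (nat_lit 302) ln13_13_6 ln13_13_6_ok)))))))))))))) (B (M (nat_lit 364) (B (M (nat_lit 332) (B (L (nat_lit 365) ln13_14_7 ln13_14_7_ok) (M (nat_lit 396) (B (L (nat_lit 300) ln12_9_4 ln12_9_4_ok) (L (nat_lit 428) ln12_10_4 ln12_10_4_ok))))) (B (M (nat_lit 365) (B (L (nat_lit 332) ln13_14_7 ln13_14_7_ok) (M (nat_lit 399) (B (L (nat_lit 400) ln16_12_3 ln16_12_3_ok) (M (nat_lit 363) (B (L (nat_lit 362) ln10_11_0 ln10_11_0_ok) (L (nat_lit 396) ln15_12_3 ln15_12_3_ok))))))) (B (M (nat_lit 399) (B (M (nat_lit 400) (B (L (nat_lit 365) ln16_12_3 ln16_12_3_ok) (L (nat_lit 428) ln16_12_1 ln16_12_1_ok))) (B (M (nat_lit 428) (B (L (nat_lit 400) ln16_12_1 ln16_12_1_ok) (M (nat_lit 396) (B (L (nat_lit 363) ln15_12_3 ln15_12_3_ok) (L (nat_lit 427) ln15_12_1 ln15_12_1_ok))))) (M (nat_lit 363) (B (L (nat_lit 396) ln15_12_3 ln15_12_3_ok) (M (nat_lit 365) (B (L (nat_lit 362) ln10_11_0 ln10_11_0_ok)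 (L (nat_lit 366) ln11_11_0 ln11_11_0_ok)))))))) (B (M (nat_lit 396) (B (M (nat_lit 332) (B (L (nat_lit 300) ln12_9_4 ln12_9_4_ok) (L (nat_lit 428) ln12_10_4 ln12_10_4_ok))) (B (M (nat_lit 399) (B (L (nat_lit 363) ln15_12_3 ln15_12_3_ok) (M (nat_lit 428) (B (L (nat_lit 427) ln15_12_1 ln15_12_1_ok) (L (nat_lit 400) ln16_12_1 ln16_12_1_ok))))) (M (nat_lit 363) (B (L (nat_lit 399) ln15_12_3 ln15_12_3_ok) (M (nat_lit 362) (B (L (nat_lit 361) ln9_11_0 ln9_11_0_ok) (L (nat_lit 395) ln14_12_3 ln14_12_3_ok)))))))) (M (nat_lit 365) (B (L (nat_lit 332) ln13_14_7 ln13_14_7_ok) (M (nat_lit 366) (B (L (nat_lit 334) ln13_14_6 ln13_14_6_ok) (M (nat_lit 363) (B (L (nat_lit 362) ln10_11_0 ln10_11_0_ok) (L (nat_lit 399) ln11_11_0 ln11_11_0_ok)))))))))))) (B (M (nat_lit 365) (B (M (nat_lit 333) (B (M (nat_lit 332) (B (L (nat_lit 300) ln13_13_7 ln13_13_7_ok) (L (nat_lit 364) ln13_14_7 ln13_14_7_ok))) (M (nat_lit 460) (B (L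 (nat_lit 428) ln13_10_5 ln13_10_5_ok) (L (nat_lit 492) ln13_11_5 ln13_11_5_ok))))) (B (M (nat_lit 333) (B (M (nat_lit 460) (B (L (nat_lit 428) ln13_10_5 ln13_10_5_ok) (L (nat_lit 492) ln13_11_5 ln13_11_5_ok))) (M (nat_lit 430) (B (L (nat_lit 301) ln13_9_4 ln13_9_4_ok) (L (nat_lit 462) ln13_10_4 ln13_10_4_ok))))) (M (nat_lit 364) (B (L (nat_lit 332) ln13_14_7 ln13_14_7_ok) (M (nat_lit 399) (B (L (nat_lit 400) ln16_12_3 ln16_12_3_ok) (M (nat_lit 363) (B (L (nat_lit 362) ln10_11_0 ln10_11_0_ok) (L (nat_lit 396) ln15_12_3 ln15_12_3_ok)))))))))) (B c33_n5882 (B (K (nat_lit 5954262830815946495408811768290330958617541567969857540387515671583995655843763700493712757223453780111953373527279821900680931945878650880) (nat_lit 19180023110259961924927043644314157669386236162528613307457205803458094390017900152841592379056659308040335222977334273633773044511964799839200346112) (nat_lit 19180023110259961924927043644314157669386236162528613307457205803458094390017900152841592379056659308040335222977334273633773044511964799839200346112)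 c33_s6012) (M (nat_lit 365) (B (M (nat_lit 366) (B (L (nat_lit 334) ln13_14_6 ln13_14_6_ok) (M (nat_lit 364) (B (L (nat_lit 332) ln13_14_7 ln13_14_7_ok) (M (nat_lit 399) (B (L (nat_lit 363) ln11_11_0 ln11_11_0_ok) (L (nat_lit 400) ln16_12_3 ln16_12_3_ok))))))) (B (M (nat_lit 333) (B (M (nat_lit 334) (B (L (nat_lit 302) ln13_13_6 ln13_13_6_ok) (L (nat_lit 366) ln13_14_6 ln13_14_6_ok))) (M (nat_lit 430) (B (L (nat_lit 301) ln13_9_4 ln13_9_4_ok) (L (nat_lit 462) ln13_10_4 ln13_10_4_ok))))) (M (nat_lit 364) (B (L (nat_lit 332) ln13_14_7 ln13_14_7_ok) (M (nat_lit 399) (B (L (nat_lit 400) ln16_12_3 ln16_12_3_ok) (M (nat_lit 363) (B (L (nat_lit 362) ln10_11_0 ln10_11_0_ok) (L (nat_lit 396) ln15_12_3 ln15_12_3_ok)))))))))))))))))))) (nat_lit 5954262830815946494763249298768603811203561774969104571805089223376689777636098861358550851719243481454542035207245364041705138952691777536) (nat_lit 19180023110259961947108401201799613834469320371211437428182446954266418925815313591972382823227991642141291243110557170802479847916785404666032685056)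 (nat_lit 19180023110259961947108401201799613834469320371211437428182446954266418925815313591972382823227991642141291243110557170802479847916785404666032685056) (by decide +kernel)
theorem c33_s6016 : Sem (nat_lit 1386334847383188664550070665778531748218595021979121511688892729411143073470393764272092352380775458208712834410189682411080515584) (nat_lit 707617954818794147433179504406720023314047563166755047979980778367969924912758231082947550683920645468822585299793492398798083351817912057141380923536623160107131207680) (nat_lit 707617954818794147433179504406720023314047563166755047979980778367969924912758231082947550683920645468822585299793492398798083351817912057141380923536623160107131207680) :=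
  sem_of_chk (M (nat_lit 461) (B (M (nat_lit 493) (B (M (nat_lit 525) (B (M (nat_lit 396) (B (L (nat_lit 364) ln13_15_7 ln13_15_7_ok) (L (nat_lit 428) ln13_16_7 ln13_16_7_ok))) (M (nat_lit 398) (B (L (nat_lit 366) ln13_15_6 ln13_15_6_ok) (L (nat_lit 430) ln13_16_6 ln13_16_6_ok))))) (B (M (nat_lit 525) (B (M (nat_lit 398) (B (L (nat_lit 366) ln13_15_6 ln13_15_6_ok) (L (nat_lit 430) ln13_16_6 ln13_16_6_ok))) (M (nat_lit 524) (B (L (nat_lit 492) ln13_12_5 ln13_12_5_ok) (L (nat_lit 556) ln13_13_5 ln13_13_5_ok))))) (M (nat_lit 365) (B (M (nat_lit 364) (B (L (nat_lit 332) ln13_14_7 ln13_14_7_ok) (L (nat_lit 396) ln13_15_7 ln13_15_7_ok))) (M (nat_lit 492) (B (L (nat_lit 460) ln13_11_5 ln13_11_5_ok) (L (nat_lit 524) ln13_12_5 ln13_12_5_ok)))))))) (B (M (nat_lit 493) (B (M (nat_lit 525) (B (M (nat_lit 396) (B (L (nat_lit 364) ln13_15_7 ln13_15_7_ok) (L (nat_lit 428) ln13_16_7 ln13_16_7_ok))) (M (nat_lit 398) (B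 (L (nat_lit 366) ln13_15_6 ln13_15_6_ok) (L (nat_lit 430) ln13_16_6 ln13_16_6_ok))))) (B (M (nat_lit 365) (B (M (nat_lit 366) (B (L (nat_lit 334) ln13_14_6 ln13_14_6_ok) (L (nat_lit 398) ln13_15_6 ln13_15_6_ok))) (M (nat_lit 492) (B (L (nat_lit 460) ln13_11_5 ln13_11_5_ok) (L (nat_lit 524) ln13_12_5 ln13_12_5_ok))))) (M (nat_lit 525) (B (M (nat_lit 396) (B (L (nat_lit 364) ln13_15_7 ln13_15_7_ok) (L (nat_lit 428) ln13_16_7 ln13_16_7_ok))) (M (nat_lit 524) (B (L (nat_lit 492) ln13_12_5 ln13_12_5_ok) (L (nat_lit 556) ln13_13_5 ln13_13_5_ok)))))))) (B (K (nat_lit 5954262830815946494763249298768603811203561774969104571805089223376689777636098861358550851719243481454542035207245364041705138952691777536) (nat_lit 707617954818794147433179504400765760462349948034593818185467992989934564539643137674322702302553534504630050502034671619051595268718814545464605009751075361260887343104) (nat_lit 707617954818794147433179504400765760462349948034593818185467992989934564539643137674322702302553534504630050502034671619051595268718814545464605009751075361260887343104)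 c33_s5712) (B (K (nat_lit 5954262830815946494763249298768603811203561774969104571805089223376689777636098861358550851719243481454542035207245364041705138952691777536) (nat_lit 235872651716101478396591840657615337442367814585925127270487494794730439329811577799545258988948198148225281700931418802344055680813819882376651825612966556747807326208) (nat_lit 235872651716101478396591840657615337442367814585925127270487494794730439329811577799545258988948198148225281700931418802344055680813819882376651825612966556747807326208) c33_s5726) (B (M (nat_lit 430) (B (M (nat_lit 460) (B (M (nat_lit 431) (B (L (nat_lit 432) ln16_13_1 ln16_13_1_ok) (M (nat_lit 459) (B (L (nat_lit 428) ln15_13_1 ln15_13_1_ok) (L (nat_lit 458) ln10_14_2 ln10_14_2_ok))))) (B (M (nat_lit 431) (B (L (nat_lit 432) ln16_13_1 ln16_13_1_ok) (M (nat_lit 459) (B (L (nat_lit 458) ln10_14_2 ln10_14_2_ok) (L (nat_lit 462) ln11_14_2 ln11_14_2_ok)))))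 (M (nat_lit 365) (B (L (nat_lit 492) ln13_11_5 ln13_11_5_ok) (M (nat_lit 333) (B (L (nat_lit 428) ln13_10_5 ln13_10_5_ok) (L (nat_lit 462) ln13_10_4 ln13_10_4_ok)))))))) (B (M (nat_lit 460) (B (M (nat_lit 431) (B (L (nat_lit 432) ln16_13_1 ln16_13_1_ok) (M (nat_lit 459) (B (L (nat_lit 428) ln15_13_1 ln15_13_1_ok) (L (nat_lit 458) ln10_14_2 ln10_14_2_ok))))) (M (nat_lit 492) (B (L (nat_lit 365) ln13_11_5 ln13_11_5_ok) (M (nat_lit 524) (B (L (nat_lit 493) ln13_12_5 ln13_12_5_ok) (L (nat_lit 556) ln12_17_6 ln12_17_6_ok))))))) (B (M (nat_lit 396) (B (M (nat_lit 431) (B (L (nat_lit 432) ln16_13_3 ln16_13_3_ok) (M (nat_lit 395) (B (L (nat_lit 394) ln10_12_0 ln10_12_0_ok) (L (nat_lit 428) ln15_13_3 ln15_13_3_ok))))) (B (M (nat_lit 431) (B (L (nat_lit 432) ln16_13_3 ln16_13_3_ok) (M (nat_lit 395) (B (L (nat_lit 398) ln11_12_0 ln11_12_0_ok) (L (nat_lit 428) ln15_13_3 ln15_13_3_ok))))) (B (M (nat_lit 364) (B (L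 (nat_lit 493) ln13_15_7 ln13_15_7_ok) (M (nat_lit 332) (B (L (nat_lit 300) ln12_9_4 ln12_9_4_ok) (L (nat_lit 428) ln12_10_4 ln12_10_4_ok))))) (M (nat_lit 431) (B (L (nat_lit 432) ln16_13_3 ln16_13_3_ok) (M (nat_lit 395) (B (L (nat_lit 394) ln10_12_0 ln10_12_0_ok) (L (nat_lit 398) ln11_12_0 ln11_12_0_ok))))))))) (B (M (nat_lit 460) (B (M (nat_lit 431) (B (L (nat_lit 432) ln16_13_1 ln16_13_1_ok) (M (nat_lit 459) (B (L (nat_lit 458) ln10_14_2 ln10_14_2_ok) (L (nat_lit 462) ln11_14_2 ln11_14_2_ok))))) (M (nat_lit 492) (B (L (nat_lit 365) ln13_11_5 ln13_11_5_ok) (M (nat_lit 524) (B (L (nat_lit 493) ln13_12_5 ln13_12_5_ok) (L (nat_lit 556) ln12_17_6 ln12_17_6_ok))))))) (M (nat_lit 365) (B (M (nat_lit 333) (B (L (nat_lit 462) ln13_10_4 ln13_10_4_ok) (M (nat_lit 332) (B (L (nat_lit 300) ln13_13_7 ln13_13_7_ok) (L (nat_lit 364) ln13_14_7 ln13_14_7_ok))))) (B (M (nat_lit 460) (B (L (nat_lit 492) ln13_11_5 ln13_11_5_ok)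 (M (nat_lit 333) (B (L (nat_lit 428) ln13_10_5 ln13_10_5_ok) (L (nat_lit 462) ln13_10_4 ln13_10_4_ok))))) (M (nat_lit 493) (B (M (nat_lit 364) (B (L (nat_lit 332) ln13_14_7 ln13_14_7_ok) (L (nat_lit 396) ln13_15_7 ln13_15_7_ok))) (M (nat_lit 492) (B (L (nat_lit 460) ln13_11_5 ln13_11_5_ok) (L (nat_lit 524) ln13_12_5 ln13_12_5_ok))))))))))))) (B (M (nat_lit 365) (B (M (nat_lit 333) (B (M (nat_lit 332) (B (L (nat_lit 300) ln13_13_7 ln13_13_7_ok) (L (nat_lit 364) ln13_14_7 ln13_14_7_ok))) (M (nat_lit 460) (B (L (nat_lit 428) ln13_10_5 ln13_10_5_ok) (L (nat_lit 492) ln13_11_5 ln13_11_5_ok))))) (B (M (nat_lit 493) (B (M (nat_lit 366) (B (L (nat_lit 334) ln13_14_6 ln13_14_6_ok) (L (nat_lit 398) ln13_15_6 ln13_15_6_ok))) (M (nat_lit 492) (B (L (nat_lit 460) ln13_11_5 ln13_11_5_ok) (L (nat_lit 524) ln13_12_5 ln13_12_5_ok))))) (M (nat_lit 333) (B (M (nat_lit 332) (B (L (nat_lit 300) ln13_13_7 ln13_13_7_ok) (L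 (nat_lit 364) ln13_14_7 ln13_14_7_ok))) (M (nat_lit 334) (B (L (nat_lit 302) ln13_13_6 ln13_13_6_ok) (L (nat_lit 366) ln13_14_6 ln13_14_6_ok)))))))) (B (M (nat_lit 365) (B (M (nat_lit 333) (B (M (nat_lit 334) (B (L (nat_lit 302) ln13_13_6 ln13_13_6_ok) (L (nat_lit 366) ln13_14_6 ln13_14_6_ok))) (M (nat_lit 460) (B (L (nat_lit 428) ln13_10_5 ln13_10_5_ok) (L (nat_lit 492) ln13_11_5 ln13_11_5_ok))))) (B (M (nat_lit 493) (B (M (nat_lit 364) (B (L (nat_lit 332) ln13_14_7 ln13_14_7_ok) (L (nat_lit 396) ln13_15_7 ln13_15_7_ok))) (M (nat_lit 492) (B (L (nat_lit 460) ln13_11_5 ln13_11_5_ok) (L (nat_lit 524) ln13_12_5 ln13_12_5_ok))))) (M (nat_lit 333) (B (M (nat_lit 332) (B (L (nat_lit 300) ln13_13_7 ln13_13_7_ok) (L (nat_lit 364) ln13_14_7 ln13_14_7_ok))) (M (nat_lit 334) (B (L (nat_lit 302) ln13_13_6 ln13_13_6_ok) (L (nat_lit 366) ln13_14_6 ln13_14_6_ok)))))))) (B (M (nat_lit 365) (B (M (nat_lit 493) (B (M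 (nat_lit 366) (B (L (nat_lit 334) ln13_14_6 ln13_14_6_ok) (L (nat_lit 398) ln13_15_6 ln13_15_6_ok))) (M (nat_lit 492) (B (L (nat_lit 460) ln13_11_5 ln13_11_5_ok) (L (nat_lit 524) ln13_12_5 ln13_12_5_ok))))) (B (M (nat_lit 493) (B (M (nat_lit 364) (B (L (nat_lit 332) ln13_14_7 ln13_14_7_ok) (L (nat_lit 396) ln13_15_7 ln13_15_7_ok))) (M (nat_lit 492) (B (L (nat_lit 460) ln13_11_5 ln13_11_5_ok) (L (nat_lit 524) ln13_12_5 ln13_12_5_ok))))) (B (M (nat_lit 493) (B (M (nat_lit 364) (B (L (nat_lit 332) ln13_14_7 ln13_14_7_ok) (L (nat_lit 396) ln13_15_7 ln13_15_7_ok))) (M (nat_lit 366) (B (L (nat_lit 334) ln13_14_6 ln13_14_6_ok) (L (nat_lit 398) ln13_15_6 ln13_15_6_ok))))) (M (nat_lit 333) (B (M (nat_lit 332) (B (L (nat_lit 300) ln13_13_7 ln13_13_7_ok) (L (nat_lit 364) ln13_14_7 ln13_14_7_ok))) (M (nat_lit 334) (B (L (nat_lit 302) ln13_13_6 ln13_13_6_ok) (L (nat_lit 366) ln13_14_6 ln13_14_6_ok))))))))) (B (M (nat_lit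 365) (B (M (nat_lit 493) (B (M (nat_lit 364) (B (L (nat_lit 332) ln13_14_7 ln13_14_7_ok) (L (nat_lit 396) ln13_15_7 ln13_15_7_ok))) (M (nat_lit 366) (B (L (nat_lit 334) ln13_14_6 ln13_14_6_ok) (L (nat_lit 398) ln13_15_6 ln13_15_6_ok))))) (B (M (nat_lit 428) (B (M (nat_lit 333) (B (L (nat_lit 460) ln13_10_5 ln13_10_5_ok) (M (nat_lit 334) (B (L (nat_lit 302) ln13_13_6 ln13_13_6_ok) (L (nat_lit 366) ln13_14_6 ln13_14_6_ok))))) (B (M (nat_lit 396) (B (M (nat_lit 333) (B (L (nat_lit 301) ln13_9_5 ln13_9_5_ok) (L (nat_lit 460) ln13_10_5 ln13_10_5_ok))) (M (nat_lit 493) (B (L (nat_lit 364) ln13_15_7 ln13_15_7_ok) (L (nat_lit 525) ln13_16_7 ln13_16_7_ok))))) (M (nat_lit 493) (B (M (nat_lit 366) (B (L (nat_lit 334) ln13_14_6 ln13_14_6_ok) (L (nat_lit 398) ln13_15_6 ln13_15_6_ok))) (M (nat_lit 396) (B (L (nat_lit 364) ln13_15_7 ln13_15_7_ok) (L (nat_lit 525) ln13_16_7 ln13_16_7_ok)))))))) (B (M (nat_lit 398) (B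 (M (nat_lit 364) (B (L (nat_lit 332) ln13_14_7 ln13_14_7_ok) (M (nat_lit 493) (B (L (nat_lit 396) ln13_15_7 ln13_15_7_ok) (L (nat_lit 366) ln13_15_6 ln13_15_6_ok))))) (B (M (nat_lit 430) (B (M (nat_lit 333) (B (L (nat_lit 301) ln13_9_4 ln13_9_4_ok) (L (nat_lit 462) ln13_10_4 ln13_10_4_ok))) (M (nat_lit 493) (B (L (nat_lit 366) ln13_15_6 ln13_15_6_ok) (L (nat_lit 525) ln13_16_6 ln13_16_6_ok))))) (M (nat_lit 333) (B (M (nat_lit 332) (B (L (nat_lit 300) ln13_13_7 ln13_13_7_ok) (L (nat_lit 364) ln13_14_7 ln13_14_7_ok))) (M (nat_lit 430) (B (L (nat_lit 301) ln13_9_4 ln13_9_4_ok) (L (nat_lit 462) ln13_10_4 ln13_10_4_ok)))))))) (B (M (nat_lit 333) (B (M (nat_lit 334) (B (L (nat_lit 302) ln13_13_6 ln13_13_6_ok) (L (nat_lit 366) ln13_14_6 ln13_14_6_ok))) (M (nat_lit 301) (B (M (nat_lit 428) (B (L (nat_lit 396) ln13_9_5 ln13_9_5_ok) (L (nat_lit 460) ln13_10_5 ln13_10_5_ok))) (M (nat_lit 430) (B (L (nat_lit 398)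 ln13_9_4 ln13_9_4_ok) (L (nat_lit 462) ln13_10_4 ln13_10_4_ok))))))) (B (M (nat_lit 333) (B (M (nat_lit 332) (B (L (nat_lit 300) ln13_13_7 ln13_13_7_ok) (L (nat_lit 364) ln13_14_7 ln13_14_7_ok))) (M (nat_lit 301) (B (M (nat_lit 428) (B (L (nat_lit 396) ln13_9_5 ln13_9_5_ok) (L (nat_lit 460) ln13_10_5 ln13_10_5_ok))) (M (nat_lit 430) (B (L (nat_lit 398) ln13_9_4 ln13_9_4_ok) (L (nat_lit 462) ln13_10_4 ln13_10_4_ok))))))) (M (nat_lit 333) (B (M (nat_lit 332) (B (L (nat_lit 300) ln13_13_7 ln13_13_7_ok) (L (nat_lit 364) ln13_14_7 ln13_14_7_ok))) (M (nat_lit 334) (B (L (nat_lit 302) ln13_13_6 ln13_13_6_ok) (L (nat_lit 366) ln13_14_6 ln13_14_6_ok))))))))))) (K (nat_lit 5954262830815946494763249298768603811203561774969104571805089223376689777636098861358550851719243481454542035207245364041705138952691777536) (nat_lit 19180023110259961947108401201799613834469320371211437428182446954266418925815313591972382823227991642141291243110557170802479847916785404666032685056)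 (nat_lit 19180023110259961947108401201799613834469320371211437428182446954266418925815313591972382823227991642141291243110557170802479847916785404666032685056) c33_s6015))))))))))) (nat_lit 1386334847383188664550070665778531748218595021979121511688892729411143073470393764272092352380775458208712834410189682411080515584) (nat_lit 707617954818794147433179504406720023314047563166755047979980778367969924912758231082947550683920645468822585299793492398798083351817912057141380923536623160107131207680) (nat_lit 707617954818794147433179504406720023314047563166755047979980778367969924912758231082947550683920645468822585299793492398798083351817912057141380923536623160107131207680) (by decide +kernel)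
def c33_U : ℕ := 2026130652405762117165660973572743951344159928493279264214378623782799241072529802490546995964240011958980617136911418753845816519237165806498764778856245160627137196376086020096
noncomputable def c33_kids : Cert := (B (K (nat_lit 1386334847383188664550070665778531748218595021979121511688892729411143073470393764272092352380775458208712834410189682411080515584) (nat_lit 1179363258141160341950375441373966238691743804372323738021252468503738359293777452255093255825001072902098493467562414895294764623863343146533561609896445154342893256704) (nat_lit 1179363258141160341950375441373966238691743804372323738021252468503738359293777452255093255825001072902098493467562414895294764623863343146533561609896445154342893256704) c33_s222) (B (K (nat_lit 1386334847383188664550070665778531748218595021979121511688892729411143073470393764272092352380775458208712834410189682411080515584) (nat_lit 1179363258141160342359549267408618075101010767210362885877997665287702489605364835172633766535210909825407181526032425354100270700469289999337305940184612924192557367296)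 (nat_lit 1179363258141160342359549267408618075101010767210362885877997665287702489605364835172633766535210909825407181526032425354100270700469289999337305940184612924192557367296) c33_s318) (B (K (nat_lit 1386334847383188664550070665778531748218595021979121511688892729411143073470393764272092352380775458208712834410189682411080515584) (nat_lit 1179363258141160342359549267408618075101010767210362885877997665287702489605358724064704763076952104488341953391549270948919272891717381577989242796285322914074007175168) (nat_lit 1179363258141160342359549267408618075101010767210362885877997665287702489605358724064704763076952104488341953391549270948919272891717381577989242796285322914074007175168) c33_s334) (B (K (nat_lit 1386334847383188664550070665778531748218595021979121511688892729411143073470393764272092352380775458208712834410189682411080515584) (nat_lit 1179363258141160342359549267408618075101010767207780635998708302895657618817783277185050430175456866362074049717966071904913235402555325311006956717882814123559366950912)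 (nat_lit 1179363258141160342359549267408618075101010767207780635998708302895657618817783277185050430175456866362074049717966071904913235402555325311006956717882814123559366950912) c33_s356) (B (K (nat_lit 1386334847383188664550070665778531748218595021979121511688892729411143073470393764272092352380775458208712834410189682411080515584) (nat_lit 1179363258141160342359549267408618075101010767207780635998708302895640120811976864945750112213294851608397586849874720331847165492701501125215944185297972671318448930816) (nat_lit 1179363258141160342359549267408618075101010767207780635998708302895640120811976864945750112213294851608397586849874720331847165492701501125215944185297972671318448930816) c33_s399) (B (K (nat_lit 1386334847383188664550070665778531748218595021979121511688892729411143073470393764272092352380775458208712834410189682411080515584) (nat_lit 1179363258141160342359549267408618075101010767210362885877997665287667493593762195873914803041318222546496302680654979549936460562014822330002052781513746703241638313984)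 (nat_lit 1179363258141160342359549267408618075101010767210362885877997665287667493593762195873914803041318222546496302680654979549936460562014822330002052781513746703241638313984) c33_s462) (B (K (nat_lit 1386334847383188664550070665778531748218595021979121511688892729411143073470393764272092352380775458208712834410189682411080515584) (nat_lit 1179363258141160342359549267408618075101010767210322538223647860255823568201848546186880120694229470288609795212006114621456859075003608714254730769871420736430602715136) (nat_lit 1179363258141160342359549267408618075101010767210322538223647860255823568201848546186880120694229470288609795212006114621456859075003608714254730769871420736430602715136) c33_s495) (B (K (nat_lit 1386334847383188664550070665778531748218595021979121511688892729411143073470393764272092352380775458208712834410189682411080515584) (nat_lit 1179363258141160342359549267408618075145373482321420075735471817815854055693284833350277721250538786803991541118098856625092985167546033282706238786478148306732257902592)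 (nat_lit 1179363258141160342359549267408618075145373482321420075735471817815854055693284833350277721250538786803991541118098856625092985167546033282706238786478148306732257902592) c33_s521) (B (K (nat_lit 1386334847383188664550070665778531748218595021979121511688892729411143073470393764272092352380775458208712834410189682411080515584) (nat_lit 1179363258141160342359549267408618075101010767215527385632334922167285190365163322130580251051547841543510603478381670526789431568339593043558323367619293479073262600192) (nat_lit 1179363258141160342359549267408618075101010767215527385632334922167285190365163322130580251051547841543510603478381670526789431568339593043558323367619293479073262600192) c33_s556) (B (K (nat_lit 1386334847383188664550070665778531748218595021979121511688892729411143073470393764272092352380775458208712834410189682411080515584) (nat_lit 2026130650518780904748025499382662224957489437897934937893886183492457264993769438681613312462630642519718910730394275186309059279942146059725848358513508066530780489351878934528)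 (nat_lit 2026130650518780904748025499382662224957489437897934937893886183492457264993769438681613312462630642519718910730394275186309059279942146059725848358513508066530780489351878934528) c33_s1231) (B (K (nat_lit 1386334847383188664550070665778531748218595021979121511688892729411143073470393764272092352380775458208712834410189682411080515584) (nat_lit 3538089774121429928399402341431232143501125301516319229570447053508709915116676241618922379364057767762176966377035589736433024785096241094570496998843750522324535738368) (nat_lit 3538089774121429928399402341431232143501125301516319229570447053508709915116676241618922379364057767762176966377035589736433024785096241094570496998843750522324535738368) c33_s3404) (B (K (nat_lit 1386334847383188664550070665778531748218595021979121511688892729411143073470393764272092352380775458208712834410189682411080515584) (nat_lit 1651108561291906595010657858037397133486035023011265240313377768530099108919791231486008213742872595378064206383337745690628556874622029393097722790905583579428730961920)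 (nat_lit 1651108561291906595010657858037397133486035023011265240313377768530099108919791231486008213742872595378064206383337745690628556874622029393097722790905583579428730961920) c33_s3636) (B (K (nat_lit 1386334847383188664550070665778531748218595021979121511688892729411143073470393764272092352380775458208712834410189682411080515584) (nat_lit 1179363258141160342359549267408618075101010767210241842913727008049023332116301216089184366841513625615452239982219393040611291513508832910792330662286376615092986839040) (nat_lit 1179363258141160342359549267408618075101010767210241842913727008049023332116301216089184366841513625615452239982219393040611291513508832910792330662286376615092986839040) c33_s3661) (B (K (nat_lit 1386334847383188664550070665778531748218595021979121511688892729411143073470393764272092352380775458208712834410189682411080515584) (nat_lit 1179363258189213925980463535413863522121419870455054378368956169213251115041515806760930149412889180360771419041501321269422085578085511292859897200277067987817695543296)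 (nat_lit 1179363258189213925980463535413863522121419870455054378368956169213251115041515806760930149412889180360771419041501321269422085578085511292859897200277067987817695543296) c33_s3667) (B (K (nat_lit 1386334847383188664550070665778531748218595021979121511688892729411143073470393764272092352380775458208712834410189682411080515584) (nat_lit 1179363258189213925980463535413863522121419870454570206516814873852690630196765242034493329576733700952115670412149949840293927854092452789119871356882836143072805388288) (nat_lit 1179363258189213925980463535413863522121419870454570206516814873852690630196765242034493329576733700952115670412149949840293927854092452789119871356882836143072805388288) c33_s3671) (B (K (nat_lit 1386334847383188664550070665778531748218595021979121511688892729411143073470393764272092352380775458208712834410189682411080515584) (nat_lit 1179363258141160341638700066110789715759539199305342761136501241598417476348656883176053570413396741475597857911623831513761154612349674250124654534139092388927904940032)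 (nat_lit 1179363258141160341638700066110789715759539199305342761136501241598417476348656883176053570413396741475597857911623831513761154612349674250124654534139092388927904940032) c33_s3712) (B (K (nat_lit 1386334847383188664550070665778531748218595021979121511688892729411143073470393764272092352380775458208712834410189682411080515584) (nat_lit 1179363258141160341638700066158423818439165515739618406620531761579027043524075300873503282301876260441880459094789781588967626745034225249029691709914487956666304167936) (nat_lit 1179363258141160341638700066158423818439165515739618406620531761579027043524075300873503282301876260441880459094789781588967626745034225249029691709914487956666304167936) c33_s3762) (B (K (nat_lit 1386334847383188664550070665778531748218595021979121511688892729411143073470393764272092352380775458208712834410189682411080515584) (nat_lit 1179363258141160341641896736602124099059699542736500952029521519822915116788124819450149412661500988944404776062238578258198521306621496036143900308926961271714707668992)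 (nat_lit 1179363258141160341641896736602124099059699542736500952029521519822915116788124819450149412661500988944404776062238578258198521306621496036143900308926961271714707668992) c33_s3844) (B (K (nat_lit 1386334847383188664550070665778531748218595021979121511688892729411143073470393764272092352380775458208712834410189682411080515584) (nat_lit 1179363258189213925365104461175575133431362359885590878405314791550741933265477726536036408213207622021920610761375863736809731057193177879452401725558352833810035376128) (nat_lit 1179363258189213925365104461175575133431362359885590878405314791550741933265477726536036408213207622021920610761375863736809731057193177879452401725558352833810035376128) c33_s3869) (B (K (nat_lit 1386334847383188664550070665778531748218595021979121511688892729411143073470393764272092352380775458208712834410189682411080515584) (nat_lit 1179363258189213925365104461175575133429282857615000267260630980912634620487900398729504545781829762336459644780521644519529750252615073195879358317337300154938304757760)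 (nat_lit 1179363258189213925365104461175575133429282857615000267260630980912634620487900398729504545781829762336459644780521644519529750252615073195879358317337300154938304757760) c33_s3871) (B (M (nat_lit 461) (B (M (nat_lit 493) (B (M (nat_lit 525) (B (M (nat_lit 396) (B (L (nat_lit 364) ln13_15_7 ln13_15_7_ok) (L (nat_lit 428) ln13_16_7 ln13_16_7_ok))) (M (nat_lit 524) (B (L (nat_lit 492) ln13_12_5 ln13_12_5_ok) (L (nat_lit 556) ln13_13_5 ln13_13_5_ok))))) (B (M (nat_lit 365) (B (M (nat_lit 492) (B (L (nat_lit 460) ln13_11_5 ln13_11_5_ok) (L (nat_lit 524) ln13_12_5 ln13_12_5_ok))) (M (nat_lit 494) (B (L (nat_lit 462) ln13_11_4 ln13_11_4_ok) (L (nat_lit 526) ln13_12_4 ln13_12_4_ok))))) (M (nat_lit 365) (B (M (nat_lit 364) (B (L (nat_lit 332) ln13_14_7 ln13_14_7_ok) (L (nat_lit 396) ln13_15_7 ln13_15_7_ok))) (M (nat_lit 494) (B (L (nat_lit 462) ln13_11_4 ln13_11_4_ok) (L (nat_lit 526) ln13_12_4 ln13_12_4_ok))))))))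 (B (M (nat_lit 365) (B (M (nat_lit 333) (B (M (nat_lit 334) (B (L (nat_lit 302) ln13_13_6 ln13_13_6_ok) (L (nat_lit 366) ln13_14_6 ln13_14_6_ok))) (M (nat_lit 462) (B (L (nat_lit 430) ln13_10_4 ln13_10_4_ok) (L (nat_lit 494) ln13_11_4 ln13_11_4_ok))))) (B (M (nat_lit 493) (B (M (nat_lit 492) (B (L (nat_lit 460) ln13_11_5 ln13_11_5_ok) (L (nat_lit 524) ln13_12_5 ln13_12_5_ok))) (M (nat_lit 494) (B (L (nat_lit 462) ln13_11_4 ln13_11_4_ok) (L (nat_lit 526) ln13_12_4 ln13_12_4_ok))))) (M (nat_lit 333) (B (M (nat_lit 334) (B (L (nat_lit 302) ln13_13_6 ln13_13_6_ok) (L (nat_lit 366) ln13_14_6 ln13_14_6_ok))) (M (nat_lit 460) (B (L (nat_lit 428) ln13_10_5 ln13_10_5_ok) (L (nat_lit 492) ln13_11_5 ln13_11_5_ok)))))))) (B (K (nat_lit 5954262830815946494763249298768603811203561774969104571805089223376689777636098861358550851719243481454542035207245364041705138952691777536) (nat_lit 943490606534895625823378003938764286206461047388172582359504279893319258300541696543208995192972854595410195220454734662483870476432946233316967399206414846937790414848)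 (nat_lit 943490606534895625823378003938764286206461047388172582359504279893319258300541696543208995192972854595410195220454734662483870476432946233316967399206414846937790414848) c33_s325) (B (M (nat_lit 365) (B (M (nat_lit 333) (B (M (nat_lit 332) (B (L (nat_lit 300) ln13_13_7 ln13_13_7_ok) (L (nat_lit 364) ln13_14_7 ln13_14_7_ok))) (M (nat_lit 334) (B (L (nat_lit 302) ln13_13_6 ln13_13_6_ok) (L (nat_lit 366) ln13_14_6 ln13_14_6_ok))))) (M (nat_lit 493) (B (M (nat_lit 492) (B (L (nat_lit 460) ln13_11_5 ln13_11_5_ok) (L (nat_lit 524) ln13_12_5 ln13_12_5_ok))) (M (nat_lit 494) (B (L (nat_lit 462) ln13_11_4 ln13_11_4_ok) (L (nat_lit 526) ln13_12_4 ln13_12_4_ok))))))) (M (nat_lit 365) (B (M (nat_lit 333) (B (M (nat_lit 332) (B (L (nat_lit 300) ln13_13_7 ln13_13_7_ok) (L (nat_lit 364) ln13_14_7 ln13_14_7_ok))) (M (nat_lit 460) (B (L (nat_lit 428) ln13_10_5 ln13_10_5_ok) (L (nat_lit 492) ln13_11_5 ln13_11_5_ok)))))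 (B (M (nat_lit 333) (B (M (nat_lit 334) (B (L (nat_lit 302) ln13_13_6 ln13_13_6_ok) (L (nat_lit 366) ln13_14_6 ln13_14_6_ok))) (M (nat_lit 460) (B (L (nat_lit 428) ln13_10_5 ln13_10_5_ok) (L (nat_lit 492) ln13_11_5 ln13_11_5_ok))))) (M (nat_lit 364) (B (L (nat_lit 332) ln13_14_7 ln13_14_7_ok) (M (nat_lit 366) (B (L (nat_lit 334) ln13_14_6 ln13_14_6_ok) (M (nat_lit 363) (B (M (nat_lit 398) (B (L (nat_lit 362) ln10_11_0 ln10_11_0_ok) (L (nat_lit 399) ln11_11_0 ln11_11_0_ok))) (B (M (nat_lit 367) (B (M (nat_lit 395) (B (L (nat_lit 394) ln14_11_1 ln14_11_1_ok) (L (nat_lit 396) ln15_11_1 ln15_11_1_ok))) (M (nat_lit 399) (B (L (nat_lit 398) ln11_11_0 ln11_11_0_ok) (L (nat_lit 400) ln12_11_0 ln12_11_0_ok))))) (M (nat_lit 362) (B (M (nat_lit 330) (B (L (nat_lit 329) ln13_11_3 ln13_11_3_ok) (L (nat_lit 331) ln14_11_3 ln14_11_3_ok))) (M (nat_lit 394) (B (L (nat_lit 393) ln13_11_1 ln13_11_1_ok) (L (nat_lit 395)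 ln14_11_1 ln14_11_1_ok)))))))))))))))))))) (B (K (nat_lit 1386334847383188664550070665778531748218595021979121511688892729411143073470393764272092352380775458208712834410189682411080515584) (nat_lit 1179363258141160341632306725050343390949447626597748756452413181698487890952872870512277671042165582395445500984693464773293080744807773531026692480770991102622754144256) (nat_lit 1179363258141160341632306725050343390949447626597748756452413181698487890952872870512277671042165582395445500984693464773293080744807773531026692480770991102622754144256) c33_s3883) (B (K (nat_lit 1386334847383188664550070665778531748218595021979121511688892729411143073470393764272092352380775458208712834410189682411080515584) (nat_lit 755127742790183947090747571427902691169216702123265264294674515628972648843690278514307439534471591385554518158240053058338635380236104319372599461487874932736) (nat_lit 755127742790183947090747571427902691169216702123265264294674515628972648843690278514307439534471591385554518158240053058338635380236104319372599461487874932736)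 c33_s5268) (B (K (nat_lit 1386334847383188664550070665778531748218595021979121511688892729411143073470393764272092352380775458208712834410189682411080515584) (nat_lit 1179363258141160341632306725041411996683121851573712146622654387803635372366236488486197976036245525980629507179713024691665822271075987756169643167872986979250017927168) (nat_lit 1179363258141160341632306725041411996683121851573712146622654387803635372366236488486197976036245525980629507179713024691665822271075987756169643167872986979250017927168) c33_s5296) (B (K (nat_lit 1386334847383188664550070665778531748218595021979121511688892729411143073470393764272092352380775458208712834410189682411080515584) (nat_lit 943490606534895625823378003986212318106296907655460682157606553037745275275377148835837497785335626920017736421192961446327327848909335705048525576917011820323675308032) (nat_lit 943490606534895625823378003986212318106296907655460682157606553037745275275377148835837497785335626920017736421192961446327327848909335705048525576917011820323675308032)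 c33_s5616) (K (nat_lit 1386334847383188664550070665778531748218595021979121511688892729411143073470393764272092352380775458208712834410189682411080515584) (nat_lit 707617954818794147433179504406720023314047563166755047979980778367969924912758231082947550683920645468822585299793492398798083351817912057141380923536623160107131207680) (nat_lit 707617954818794147433179504406720023314047563166755047979980778367969924912758231082947550683920645468822585299793492398798083351817912057141380923536623160107131207680) c33_s6016))))))))))))))))))))))))))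
theorem c33_win : ∃ n, ∀ B : Set Cell, Avoids B c33_U → MakerForces n (cellsOf (1 <<< 429)) B :=
  forces_of_chk (1 <<< 429) (nat_lit 397) c33_kids c33_U c33_U (by decide +kernel)

end Vale.Agent.Lib.P062.Data
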