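import Vale.Agent.Lib.P062.Data.Lines

namespace Vale.Agent.Lib.P062.Data

noncomputable def c40_n139 : Cert := (M (nat_lit 396) (B (M (nat_lit 395) (B (L (nat_lit 431) ln15_13_3 ln15_13_3_ok) (M (nat_lit 394) (B (L (nat_lit 393) ln9_12_0 ln9_12_0_ok) (L (nat_lit 397) ln10_12_0 ln10_12_0_ok))))) (B (M (nat_lit 431) (B (L (nat_lit 395) ln15_13_3 ln15_13_3_ok) (M (nat_lit 432) (B (L (nat_lit 397) ln16_13_3 ln16_13_3_ok) (M (nat_lit 400) (B (L (nat_lit 399) ln12_13_2 ln12_13_2_ok) (L (nat_lit 401) ln13_13_2 ln13_13_2_ok))))))) (B (M (nat_lit 460) (B (M (nat_lit 431) (B (L (nat_lit 459) ln15_13_1 ln15_13_1_ok) (M (nat_lit 432) (B (L (nat_lit 397) ln16_13_3 ln16_13_3_ok) (L (nat_lit 461) ln16_13_1 ln16_13_1_ok))))) (B (M (nat_lit 461) (B (M (nat_lit 364) (B (L (nat_lit 332) ln12_10_4 ln12_10_4_ok) (L (nat_lit 493) ln12_11_4 ln12_11_4_ok))) (M (nat_lit 431) (B (L (nat_lit 459) ln15_13_1 ln15_13_1_ok) (L (nat_lit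 432) ln16_13_1 ln16_13_1_ok))))) (B (M (nat_lit 364) (B (M (nat_lit 461) (B (L (nat_lit 332) ln12_10_4 ln12_10_4_ok) (L (nat_lit 493) ln12_11_4 ln12_11_4_ok))) (B (M (nat_lit 492) (B (M (nat_lit 365) (B (L (nat_lit 333) ln12_14_6 ln12_14_6_ok) (L (nat_lit 397) ln12_15_6 ln12_15_6_ok))) (M (nat_lit 493) (B (L (nat_lit 461) ln12_11_4 ln12_11_4_ok) (L (nat_lit 525) ln12_12_4 ln12_12_4_ok))))) (M (nat_lit 332) (B (M (nat_lit 331) (B (L (nat_lit 299) ln12_13_7 ln12_13_7_ok) (L (nat_lit 363) ln12_14_7 ln12_14_7_ok))) (M (nat_lit 333) (B (L (nat_lit 301) ln12_13_6 ln12_13_6_ok) (L (nat_lit 365) ln12_14_6 ln12_14_6_ok)))))))) (M (nat_lit 397) (B (M (nat_lit 365) (B (L (nat_lit 333) ln13_10_5 ln13_10_5_ok) (L (nat_lit 492) ln12_15_6 ln12_15_6_ok))) (M (nat_lit 431) (B (L (nat_lit 432) ln16_13_3 ln16_13_3_ok) (L (nat_lit 459) ln15_13_1 ln15_13_1_ok))))))))) (B (M (nat_lit 431) (B (L (nat_lit 395) ln15_13_3 ln15_13_3_ok)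 (M (nat_lit 432) (B (M (nat_lit 400) (B (L (nat_lit 399) ln12_13_2 ln12_13_2_ok) (L (nat_lit 401) ln13_13_2 ln13_13_2_ok))) (M (nat_lit 460) (B (L (nat_lit 459) ln15_13_1 ln15_13_1_ok) (L (nat_lit 461) ln16_13_1 ln16_13_1_ok))))))) (M (nat_lit 364) (B (M (nat_lit 461) (B (L (nat_lit 332) ln12_10_4 ln12_10_4_ok) (M (nat_lit 493) (B (L (nat_lit 397) ln13_15_7 ln13_15_7_ok) (L (nat_lit 460) ln12_11_4 ln12_11_4_ok))))) (B (M (nat_lit 460) (B (M (nat_lit 461) (B (L (nat_lit 493) ln12_11_4 ln12_11_4_ok) (M (nat_lit 459) (B (L (nat_lit 491) ln12_11_5 ln12_11_5_ok) (L (nat_lit 458) ln10_14_2 ln10_14_2_ok))))) (M (nat_lit 395) (B (M (nat_lit 363) (B (L (nat_lit 331) ln12_14_7 ln12_14_7_ok) (L (nat_lit 492) ln12_15_7 ln12_15_7_ok))) (M (nat_lit 394) (B (L (nat_lit 393) ln9_12_0 ln9_12_0_ok) (L (nat_lit 397) ln10_12_0 ln10_12_0_ok))))))) (B (M (nat_lit 461) (B (L (nat_lit 332) ln12_10_4 ln12_10_4_ok) (M (nat_lit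 493) (B (L (nat_lit 460) ln12_11_4 ln12_11_4_ok) (L (nat_lit 525) ln13_16_7 ln13_16_7_ok))))) (B (M (nat_lit 461) (B (L (nat_lit 332) ln12_10_4 ln12_10_4_ok) (M (nat_lit 493) (B (L (nat_lit 397) ln13_15_7 ln13_15_7_ok) (L (nat_lit 525) ln13_16_7 ln13_16_7_ok))))) (M (nat_lit 460) (B (M (nat_lit 332) (B (M (nat_lit 331) (B (L (nat_lit 299) ln12_13_7 ln12_13_7_ok) (L (nat_lit 363) ln12_14_7 ln12_14_7_ok))) (M (nat_lit 333) (B (L (nat_lit 301) ln12_13_6 ln12_13_6_ok) (L (nat_lit 365) ln12_14_6 ln12_14_6_ok))))) (B (M (nat_lit 395) (B (M (nat_lit 363) (B (L (nat_lit 331) ln12_14_7 ln12_14_7_ok) (L (nat_lit 492) ln12_15_7 ln12_15_7_ok))) (M (nat_lit 394) (B (L (nat_lit 393) ln9_12_0 ln9_12_0_ok) (L (nat_lit 397) ln10_12_0 ln10_12_0_ok))))) (M (nat_lit 492) (B (M (nat_lit 365) (B (L (nat_lit 333) ln12_14_6 ln12_14_6_ok) (L (nat_lit 397) ln12_15_6 ln12_15_6_ok))) (M (nat_lit 491) (B (L (nat_lit 459) ln12_11_5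 ln12_11_5_ok) (L (nat_lit 523) ln12_12_5 ln12_12_5_ok))))))))))))))))))
noncomputable def c40_n232 : Cert := (M (nat_lit 462) (B (M (nat_lit 463) (B (L (nat_lit 427) ln11_13_0 ln11_13_0_ok) (M (nat_lit 464) (B (L (nat_lit 461) ln16_14_3 ln16_14_3_ok) (L (nat_lit 465) ln17_14_3 ln17_14_3_ok))))) (B (M (nat_lit 494) (B (M (nat_lit 397) (B (L (nat_lit 526) ln14_16_7 ln14_16_7_ok) (M (nat_lit 365) (B (L (nat_lit 333) ln13_10_4 ln13_10_4_ok) (L (nat_lit 461) ln13_11_4 ln13_11_4_ok))))) (B (M (nat_lit 397) (B (L (nat_lit 526) ln14_16_7 ln14_16_7_ok) (M (nat_lit 365) (B (L (nat_lit 398) ln14_15_7 ln14_15_7_ok) (L (nat_lit 461) ln13_11_4 ln13_11_4_ok))))) (B (M (nat_lit 398) (B (M (nat_lit 397) (B (L (nat_lit 526) ln14_16_7 ln14_16_7_ok) (M (nat_lit 399) (B (L (nat_lit 367) ln14_15_6 ln14_15_6_ok) (L (nat_lit 400) ln16_12_1 ln16_12_1_ok))))) (B (M (nat_lit 525) (B (L (nat_lit 493) ln14_12_5 ln14_12_5_ok) (M (nat_lit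 526) (B (L (nat_lit 397) ln14_16_7 ln14_16_7_ok) (L (nat_lit 557) ln14_13_5 ln14_13_5_ok))))) (M (nat_lit 366) (B (M (nat_lit 367) (B (L (nat_lit 335) ln14_14_6 ln14_14_6_ok) (L (nat_lit 399) ln14_15_6 ln14_15_6_ok))) (M (nat_lit 493) (B (L (nat_lit 461) ln14_11_5 ln14_11_5_ok) (L (nat_lit 525) ln14_12_5 ln14_12_5_ok)))))))) (B (M (nat_lit 398) (B (M (nat_lit 366) (B (M (nat_lit 367) (B (L (nat_lit 335) ln14_14_6 ln14_14_6_ok) (L (nat_lit 399) ln14_15_6 ln14_15_6_ok))) (M (nat_lit 495) (B (L (nat_lit 463) ln14_11_4 ln14_11_4_ok) (L (nat_lit 527) ln14_12_4 ln14_12_4_ok))))) (B (M (nat_lit 366) (B (M (nat_lit 493) (B (L (nat_lit 461) ln14_11_5 ln14_11_5_ok) (L (nat_lit 525) ln14_12_5 ln14_12_5_ok))) (M (nat_lit 495) (B (L (nat_lit 463) ln14_11_4 ln14_11_4_ok) (L (nat_lit 527) ln14_12_4 ln14_12_4_ok))))) (B (M (nat_lit 526) (B (M (nat_lit 525) (B (L (nat_lit 493) ln14_12_5 ln14_12_5_ok) (L (nat_lit 557)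 ln14_13_5 ln14_13_5_ok))) (M (nat_lit 527) (B (L (nat_lit 495) ln14_12_4 ln14_12_4_ok) (L (nat_lit 559) ln14_13_4 ln14_13_4_ok))))) (M (nat_lit 366) (B (M (nat_lit 367) (B (L (nat_lit 335) ln14_14_6 ln14_14_6_ok) (L (nat_lit 399) ln14_15_6 ln14_15_6_ok))) (M (nat_lit 493) (B (L (nat_lit 461) ln14_11_5 ln14_11_5_ok) (L (nat_lit 525) ln14_12_5 ln14_12_5_ok))))))))) (B (M (nat_lit 397) (B (L (nat_lit 526) ln14_16_7 ln14_16_7_ok) (M (nat_lit 365) (B (L (nat_lit 333) ln13_10_4 ln13_10_4_ok) (L (nat_lit 398) ln14_15_7 ln14_15_7_ok))))) (M (nat_lit 398) (B (M (nat_lit 397) (B (L (nat_lit 365) ln14_15_7 ln14_15_7_ok) (M (nat_lit 399) (B (L (nat_lit 367) ln14_15_6 ln14_15_6_ok) (L (nat_lit 400) ln16_12_1 ln16_12_1_ok))))) (B (M (nat_lit 366) (B (M (nat_lit 367) (B (L (nat_lit 335) ln14_14_6 ln14_14_6_ok) (L (nat_lit 399) ln14_15_6 ln14_15_6_ok))) (M (nat_lit 493) (B (L (nat_lit 461) ln14_11_5 ln14_11_5_ok) (L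 (nat_lit 525) ln14_12_5 ln14_12_5_ok))))) (M (nat_lit 366) (B (M (nat_lit 365) (B (L (nat_lit 333) ln14_14_7 ln14_14_7_ok) (L (nat_lit 397) ln14_15_7 ln14_15_7_ok))) (M (nat_lit 493) (B (L (nat_lit 461) ln14_11_5 ln14_11_5_ok) (L (nat_lit 525) ln14_12_5 ln14_12_5_ok)))))))))))))) (B (M (nat_lit 427) (B (L (nat_lit 463) ln11_13_0 ln11_13_0_ok) (M (nat_lit 426) (B (M (nat_lit 394) (B (L (nat_lit 393) ln13_13_3 ln13_13_3_ok) (L (nat_lit 395) ln14_13_3 ln14_13_3_ok))) (M (nat_lit 398) (B (L (nat_lit 397) ln10_13_2 ln10_13_2_ok) (L (nat_lit 399) ln11_13_2 ln11_13_2_ok))))))) (M (nat_lit 398) (B (M (nat_lit 427) (B (L (nat_lit 399) ln11_13_2 ln11_13_2_ok) (M (nat_lit 426) (B (L (nat_lit 397) ln10_13_2 ln10_13_2_ok) (L (nat_lit 461) ln10_13_0 ln10_13_0_ok))))) (B (M (nat_lit 461) (B (M (nat_lit 493) (B (L (nat_lit 366) ln14_11_5 ln14_11_5_ok) (L (nat_lit 525) ln13_16_6 ln13_16_6_ok))) (M (nat_lit 427) (B (L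 (nat_lit 399) ln11_13_2 ln11_13_2_ok) (L (nat_lit 426) ln10_13_0 ln10_13_0_ok))))) (B (M (nat_lit 494) (B (M (nat_lit 397) (B (L (nat_lit 365) ln14_15_7 ln14_15_7_ok) (L (nat_lit 526) ln14_16_7 ln14_16_7_ok))) (B (M (nat_lit 525) (B (L (nat_lit 493) ln14_12_5 ln14_12_5_ok) (M (nat_lit 526) (B (L (nat_lit 397) ln14_16_7 ln14_16_7_ok) (L (nat_lit 557) ln14_13_5 ln14_13_5_ok))))) (B (M (nat_lit 526) (B (M (nat_lit 525) (B (L (nat_lit 493) ln14_12_5 ln14_12_5_ok) (L (nat_lit 557) ln14_13_5 ln14_13_5_ok))) (M (nat_lit 527) (B (L (nat_lit 495) ln14_12_4 ln14_12_4_ok) (L (nat_lit 559) ln14_13_4 ln14_13_4_ok))))) (M (nat_lit 366) (B (M (nat_lit 365) (B (L (nat_lit 333) ln14_14_7 ln14_14_7_ok) (L (nat_lit 397) ln14_15_7 ln14_15_7_ok))) (M (nat_lit 493) (B (L (nat_lit 461) ln14_11_5 ln14_11_5_ok) (L (nat_lit 525) ln14_12_5 ln14_12_5_ok))))))))) (M (nat_lit 397) (B (M (nat_lit 365) (B (L (nat_lit 333) ln13_10_4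 ln13_10_4_ok) (L (nat_lit 494) ln14_15_7 ln14_15_7_ok))) (M (nat_lit 427) (B (L (nat_lit 426) ln10_13_2 ln10_13_2_ok) (L (nat_lit 399) ln11_13_2 ln11_13_2_ok)))))))))))))
theorem c40_s233 : Sem (nat_lit 2079502270590611144683810638107312777577327806531862431377859685460965980854219217279980804578104683573043408221052678871730618368) (nat_lit 2358726516309779873924315912208194533437309006313641173965451137251222375777498465400999780907772434645481753235518445877226788691147341340033465009474922313014822567936) (nat_lit 2358726516309779873924315912208194533437309006313641173965451137251222375777498465400999780907772434645481753235518445877226788691147341340033465009474922313014822567936) :=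
  sem_of_chk (M (nat_lit 430) (B (M (nat_lit 427) (B (M (nat_lit 398) (B (L (nat_lit 399) ln11_13_2 ln11_13_2_ok) (M (nat_lit 394) (B (L (nat_lit 395) ln14_13_3 ln14_13_3_ok) (M (nat_lit 426) (B (L (nat_lit 393) ln13_13_3 ln13_13_3_ok) (L (nat_lit 397) ln10_13_2 ln10_13_2_ok))))))) (B (M (nat_lit 431) (B (M (nat_lit 395) (B (L (nat_lit 394) ln14_13_3 ln14_13_3_ok) (L (nat_lit 396) ln15_13_3 ln15_13_3_ok))) (M (nat_lit 459) (B (L (nat_lit 458) ln14_13_1 ln14_13_1_ok) (L (nat_lit 460) ln15_13_1 ln15_13_1_ok))))) (M (nat_lit 426) (B (M (nat_lit 398) (B (L (nat_lit 397) ln10_13_2 ln10_13_2_ok) (L (nat_lit 399) ln11_13_2 ln11_13_2_ok))) (M (nat_lit 458) (B (L (nat_lit 457) ln13_13_1 ln13_13_1_ok) (L (nat_lit 459) ln14_13_1 ln14_13_1_ok)))))))) (B (M (nat_lit 427) (B (M (nat_lit 431) (B (M (nat_lit 395) (B (L (nat_lit 394) ln14_13_3 ln14_13_3_ok) (L (nat_lit 396) ln15_13_3 ln15_13_3_ok))) (M (nat_lit 463) (B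 (L (nat_lit 462) ln11_13_0 ln11_13_0_ok) (L (nat_lit 464) ln12_13_0 ln12_13_0_ok))))) (M (nat_lit 426) (B (M (nat_lit 398) (B (L (nat_lit 397) ln10_13_2 ln10_13_2_ok) (L (nat_lit 399) ln11_13_2 ln11_13_2_ok))) (M (nat_lit 458) (B (L (nat_lit 457) ln13_13_1 ln13_13_1_ok) (L (nat_lit 459) ln14_13_1 ln14_13_1_ok))))))) (B (M (nat_lit 427) (B (M (nat_lit 431) (B (M (nat_lit 459) (B (L (nat_lit 458) ln14_13_1 ln14_13_1_ok) (L (nat_lit 460) ln15_13_1 ln15_13_1_ok))) (M (nat_lit 463) (B (L (nat_lit 462) ln11_13_0 ln11_13_0_ok) (L (nat_lit 464) ln12_13_0 ln12_13_0_ok))))) (B (M (nat_lit 426) (B (M (nat_lit 398) (B (L (nat_lit 397) ln10_13_2 ln10_13_2_ok) (L (nat_lit 399) ln11_13_2 ln11_13_2_ok))) (M (nat_lit 458) (B (L (nat_lit 457) ln13_13_1 ln13_13_1_ok) (L (nat_lit 459) ln14_13_1 ln14_13_1_ok))))) (M (nat_lit 431) (B (M (nat_lit 399) (B (L (nat_lit 398) ln11_13_2 ln11_13_2_ok) (L (nat_lit 400) ln12_13_2 ln12_13_2_ok)))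 (M (nat_lit 463) (B (L (nat_lit 462) ln11_13_0 ln11_13_0_ok) (L (nat_lit 464) ln12_13_0 ln12_13_0_ok)))))))) (B (M (nat_lit 427) (B (M (nat_lit 426) (B (M (nat_lit 394) (B (L (nat_lit 393) ln13_13_3 ln13_13_3_ok) (L (nat_lit 395) ln14_13_3 ln14_13_3_ok))) (M (nat_lit 458) (B (L (nat_lit 457) ln13_13_1 ln13_13_1_ok) (L (nat_lit 459) ln14_13_1 ln14_13_1_ok))))) (M (nat_lit 431) (B (M (nat_lit 399) (B (L (nat_lit 398) ln11_13_2 ln11_13_2_ok) (L (nat_lit 400) ln12_13_2 ln12_13_2_ok))) (M (nat_lit 463) (B (L (nat_lit 462) ln11_13_0 ln11_13_0_ok) (L (nat_lit 464) ln12_13_0 ln12_13_0_ok))))))) (B (M (nat_lit 427) (B (M (nat_lit 431) (B (M (nat_lit 459) (B (L (nat_lit 458) ln14_13_1 ln14_13_1_ok) (L (nat_lit 460) ln15_13_1 ln15_13_1_ok))) (M (nat_lit 463) (B (L (nat_lit 462) ln11_13_0 ln11_13_0_ok) (L (nat_lit 464) ln12_13_0 ln12_13_0_ok))))) (B (M (nat_lit 426) (B (M (nat_lit 394) (B (L (nat_lit 393) ln13_13_3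 ln13_13_3_ok) (L (nat_lit 395) ln14_13_3 ln14_13_3_ok))) (M (nat_lit 458) (B (L (nat_lit 457) ln13_13_1 ln13_13_1_ok) (L (nat_lit 459) ln14_13_1 ln14_13_1_ok))))) (M (nat_lit 431) (B (M (nat_lit 395) (B (L (nat_lit 394) ln14_13_3 ln14_13_3_ok) (L (nat_lit 396) ln15_13_3 ln15_13_3_ok))) (M (nat_lit 463) (B (L (nat_lit 462) ln11_13_0 ln11_13_0_ok) (L (nat_lit 464) ln12_13_0 ln12_13_0_ok)))))))) (B (M (nat_lit 431) (B (M (nat_lit 427) (B (M (nat_lit 399) (B (L (nat_lit 398) ln11_13_2 ln11_13_2_ok) (L (nat_lit 400) ln12_13_2 ln12_13_2_ok))) (M (nat_lit 459) (B (L (nat_lit 458) ln14_13_1 ln14_13_1_ok) (L (nat_lit 460) ln15_13_1 ln15_13_1_ok))))) (B (M (nat_lit 427) (B (M (nat_lit 395) (B (L (nat_lit 394) ln14_13_3 ln14_13_3_ok) (L (nat_lit 396) ln15_13_3 ln15_13_3_ok))) (M (nat_lit 459) (B (L (nat_lit 458) ln14_13_1 ln14_13_1_ok) (L (nat_lit 460) ln15_13_1 ln15_13_1_ok))))) (M (nat_lit 432) (B (M (nat_lit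 396) (B (L (nat_lit 395) ln15_13_3 ln15_13_3_ok) (L (nat_lit 397) ln16_13_3 ln16_13_3_ok))) (M (nat_lit 464) (B (L (nat_lit 463) ln12_13_0 ln12_13_0_ok) (L (nat_lit 465) ln13_13_0 ln13_13_0_ok)))))))) (B c40_n139 c40_n232)))))))) (nat_lit 2079502270590611144683810638107312777577327806531862431377859685460965980854219217279980804578104683573043408221052678871730618368) (nat_lit 2358726516309779873924315912208194533437309006313641173965451137251222375777498465400999780907772434645481753235518445877226788691147341340033465009474922313014822567936) (nat_lit 2358726516309779873924315912208194533437309006313641173965451137251222375777498465400999780907772434645481753235518445877226788691147341340033465009474922313014822567936) (by decide +kernel)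
noncomputable def c40_n307 : Cert := (M (nat_lit 460) (B (M (nat_lit 459) (B (L (nat_lit 431) ln15_13_1 ln15_13_1_ok) (M (nat_lit 458) (B (L (nat_lit 457) ln9_14_2 ln9_14_2_ok) (L (nat_lit 461) ln10_14_2 ln10_14_2_ok))))) (B (M (nat_lit 492) (B (M (nat_lit 397) (B (L (nat_lit 524) ln12_16_6 ln12_16_6_ok) (M (nat_lit 365) (B (L (nat_lit 333) ln13_10_5 ln13_10_5_ok) (L (nat_lit 461) ln13_11_5 ln13_11_5_ok))))) (B (M (nat_lit 397) (B (L (nat_lit 524) ln12_16_6 ln12_16_6_ok) (M (nat_lit 365) (B (L (nat_lit 396) ln12_15_6 ln12_15_6_ok) (L (nat_lit 461) ln13_11_5 ln13_11_5_ok))))) (B (M (nat_lit 396) (B (M (nat_lit 397) (B (L (nat_lit 524) ln12_16_6 ln12_16_6_ok) (M (nat_lit 395) (B (L (nat_lit 363) ln12_15_7 ln12_15_7_ok) (L (nat_lit 394) ln10_12_0 ln10_12_0_ok))))) (B (M (nat_lit 525) (B (L (nat_lit 493) ln12_12_4 ln12_12_4_ok) (M (nat_lit 524) (B (L (nat_lit 397) ln12_16_6 ln12_16_6_ok) (L (nat_lit 557)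 ln12_13_4 ln12_13_4_ok))))) (M (nat_lit 364) (B (M (nat_lit 363) (B (L (nat_lit 331) ln12_14_7 ln12_14_7_ok) (L (nat_lit 395) ln12_15_7 ln12_15_7_ok))) (M (nat_lit 491) (B (L (nat_lit 459) ln12_11_5 ln12_11_5_ok) (L (nat_lit 523) ln12_12_5 ln12_12_5_ok)))))))) (B (M (nat_lit 396) (B (M (nat_lit 364) (B (M (nat_lit 363) (B (L (nat_lit 331) ln12_14_7 ln12_14_7_ok) (L (nat_lit 395) ln12_15_7 ln12_15_7_ok))) (M (nat_lit 493) (B (L (nat_lit 461) ln12_11_4 ln12_11_4_ok) (L (nat_lit 525) ln12_12_4 ln12_12_4_ok))))) (B (M (nat_lit 364) (B (M (nat_lit 491) (B (L (nat_lit 459) ln12_11_5 ln12_11_5_ok) (L (nat_lit 523) ln12_12_5 ln12_12_5_ok))) (M (nat_lit 493) (B (L (nat_lit 461) ln12_11_4 ln12_11_4_ok) (L (nat_lit 525) ln12_12_4 ln12_12_4_ok))))) (B (M (nat_lit 524) (B (M (nat_lit 523) (B (L (nat_lit 491) ln12_12_5 ln12_12_5_ok) (L (nat_lit 555) ln12_13_5 ln12_13_5_ok))) (M (nat_lit 525) (B (L (nat_lit 493) ln12_12_4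 ln12_12_4_ok) (L (nat_lit 557) ln12_13_4 ln12_13_4_ok))))) (M (nat_lit 364) (B (M (nat_lit 363) (B (L (nat_lit 331) ln12_14_7 ln12_14_7_ok) (L (nat_lit 395) ln12_15_7 ln12_15_7_ok))) (M (nat_lit 491) (B (L (nat_lit 459) ln12_11_5 ln12_11_5_ok) (L (nat_lit 523) ln12_12_5 ln12_12_5_ok))))))))) (M (nat_lit 396) (B (M (nat_lit 397) (B (L (nat_lit 365) ln12_15_6 ln12_15_6_ok) (M (nat_lit 395) (B (L (nat_lit 363) ln12_15_7 ln12_15_7_ok) (L (nat_lit 394) ln10_12_0 ln10_12_0_ok))))) (B (M (nat_lit 364) (B (M (nat_lit 365) (B (L (nat_lit 333) ln12_14_6 ln12_14_6_ok) (L (nat_lit 397) ln12_15_6 ln12_15_6_ok))) (M (nat_lit 491) (B (L (nat_lit 459) ln12_11_5 ln12_11_5_ok) (L (nat_lit 523) ln12_12_5 ln12_12_5_ok))))) (M (nat_lit 364) (B (M (nat_lit 363) (B (L (nat_lit 331) ln12_14_7 ln12_14_7_ok) (L (nat_lit 395) ln12_15_7 ln12_15_7_ok))) (M (nat_lit 491) (B (L (nat_lit 459) ln12_11_5 ln12_11_5_ok) (L (nat_lit 523)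 ln12_12_5 ln12_12_5_ok))))))))))))) (B (M (nat_lit 396) (B (M (nat_lit 431) (B (L (nat_lit 395) ln15_13_3 ln15_13_3_ok) (M (nat_lit 432) (B (L (nat_lit 397) ln16_13_3 ln16_13_3_ok) (L (nat_lit 461) ln16_13_1 ln16_13_1_ok))))) (B (M (nat_lit 492) (B (M (nat_lit 397) (B (L (nat_lit 365) ln12_15_6 ln12_15_6_ok) (L (nat_lit 524) ln12_16_6 ln12_16_6_ok))) (B (M (nat_lit 525) (B (L (nat_lit 493) ln12_12_4 ln12_12_4_ok) (M (nat_lit 524) (B (L (nat_lit 397) ln12_16_6 ln12_16_6_ok) (L (nat_lit 557) ln12_13_4 ln12_13_4_ok))))) (B (M (nat_lit 524) (B (M (nat_lit 523) (B (L (nat_lit 491) ln12_12_5 ln12_12_5_ok) (L (nat_lit 555) ln12_13_5 ln12_13_5_ok))) (M (nat_lit 525) (B (L (nat_lit 493) ln12_12_4 ln12_12_4_ok) (L (nat_lit 557) ln12_13_4 ln12_13_4_ok))))) (M (nat_lit 364) (B (M (nat_lit 365) (B (L (nat_lit 333) ln12_14_6 ln12_14_6_ok) (L (nat_lit 397) ln12_15_6 ln12_15_6_ok))) (M (nat_lit 493) (B (L (nat_lit 461)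 ln12_11_4 ln12_11_4_ok) (L (nat_lit 525) ln12_12_4 ln12_12_4_ok))))))))) (B (M (nat_lit 461) (B (M (nat_lit 493) (B (L (nat_lit 364) ln12_11_4 ln12_11_4_ok) (L (nat_lit 525) ln13_16_7 ln13_16_7_ok))) (M (nat_lit 431) (B (L (nat_lit 395) ln15_13_3 ln15_13_3_ok) (L (nat_lit 432) ln16_13_1 ln16_13_1_ok))))) (M (nat_lit 397) (B (M (nat_lit 365) (B (L (nat_lit 333) ln13_10_5 ln13_10_5_ok) (L (nat_lit 492) ln12_15_6 ln12_15_6_ok))) (M (nat_lit 431) (B (L (nat_lit 395) ln15_13_3 ln15_13_3_ok) (L (nat_lit 432) ln16_13_3 ln16_13_3_ok))))))))) (M (nat_lit 431) (B (L (nat_lit 459) ln15_13_1 ln15_13_1_ok) (M (nat_lit 432) (B (M (nat_lit 396) (B (L (nat_lit 395) ln15_13_3 ln15_13_3_ok) (L (nat_lit 397) ln16_13_3 ln16_13_3_ok))) (M (nat_lit 464) (B (L (nat_lit 463) ln12_13_0 ln12_13_0_ok) (L (nat_lit 465) ln13_13_0 ln13_13_0_ok)))))))))))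
theorem c40_s372 : Sem (nat_lit 4852171964711426004262224822250396481013764881907679006548339266075587288659844840319955210682244261670434619182456250700704776192) (nat_lit 2358726516282320683264613450156880137266377620023936123883267035627778163385982737320309372434140894458393540807429247334321000758419572675946455084555730699134653431808) (nat_lit 2358726516282320683264613450156880137266377620023936123883267035627778163385982737320309372434140894458393540807429247334321000758419572675946455084555730699134653431808) :=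
  sem_of_chk (M (nat_lit 398) (B (M (nat_lit 399) (B (L (nat_lit 427) ln11_13_2 ln11_13_2_ok) (M (nat_lit 400) (B (L (nat_lit 397) ln16_12_1 ln16_12_1_ok) (L (nat_lit 401) ln17_12_1 ln17_12_1_ok))))) (B (M (nat_lit 427) (B (L (nat_lit 399) ln11_13_2 ln11_13_2_ok) (M (nat_lit 426) (B (M (nat_lit 394) (B (L (nat_lit 393) ln13_13_3 ln13_13_3_ok) (L (nat_lit 395) ln14_13_3 ln14_13_3_ok))) (M (nat_lit 458) (B (L (nat_lit 457) ln13_13_1 ln13_13_1_ok) (L (nat_lit 459) ln14_13_1 ln14_13_1_ok))))))) (B (M (nat_lit 462) (B (M (nat_lit 427) (B (L (nat_lit 463) ln11_13_0 ln11_13_0_ok) (M (nat_lit 426) (B (L (nat_lit 397) ln10_13_2 ln10_13_2_ok) (L (nat_lit 461) ln10_13_0 ln10_13_0_ok))))) (B (M (nat_lit 461) (B (M (nat_lit 366) (B (L (nat_lit 334) ln14_10_5 ln14_10_5_ok) (L (nat_lit 493) ln14_11_5 ln14_11_5_ok))) (M (nat_lit 427) (B (L (nat_lit 426) ln10_13_0 ln10_13_0_ok) (L (nat_lit 463) ln11_13_0 ln11_13_0_ok)))))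 (B (M (nat_lit 366) (B (M (nat_lit 461) (B (L (nat_lit 334) ln14_10_5 ln14_10_5_ok) (L (nat_lit 493) ln14_11_5 ln14_11_5_ok))) (M (nat_lit 463) (B (L (nat_lit 495) ln14_11_4 ln14_11_4_ok) (L (nat_lit 427) ln11_13_0 ln11_13_0_ok))))) (B (M (nat_lit 366) (B (M (nat_lit 461) (B (L (nat_lit 334) ln14_10_5 ln14_10_5_ok) (L (nat_lit 493) ln14_11_5 ln14_11_5_ok))) (M (nat_lit 494) (B (M (nat_lit 365) (B (L (nat_lit 333) ln14_14_7 ln14_14_7_ok) (L (nat_lit 397) ln14_15_7 ln14_15_7_ok))) (M (nat_lit 495) (B (L (nat_lit 463) ln14_11_4 ln14_11_4_ok) (L (nat_lit 527) ln14_12_4 ln14_12_4_ok))))))) (B (M (nat_lit 397) (B (M (nat_lit 365) (B (L (nat_lit 333) ln13_10_4 ln13_10_4_ok) (L (nat_lit 494) ln14_15_7 ln14_15_7_ok))) (M (nat_lit 427) (B (L (nat_lit 426) ln10_13_2 ln10_13_2_ok) (L (nat_lit 463) ln11_13_0 ln11_13_0_ok))))) (M (nat_lit 366) (B (M (nat_lit 461) (B (L (nat_lit 334) ln14_10_5 ln14_10_5_ok) (L (nat_lit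 493) ln14_11_5 ln14_11_5_ok))) (B (M (nat_lit 494) (B (M (nat_lit 365) (B (L (nat_lit 333) ln14_14_7 ln14_14_7_ok) (L (nat_lit 397) ln14_15_7 ln14_15_7_ok))) (M (nat_lit 493) (B (L (nat_lit 461) ln14_11_5 ln14_11_5_ok) (L (nat_lit 525) ln14_12_5 ln14_12_5_ok))))) (M (nat_lit 334) (B (M (nat_lit 333) (B (L (nat_lit 301) ln14_13_7 ln14_13_7_ok) (L (nat_lit 365) ln14_14_7 ln14_14_7_ok))) (M (nat_lit 335) (B (L (nat_lit 303) ln14_13_6 ln14_13_6_ok) (L (nat_lit 367) ln14_14_6 ln14_14_6_ok)))))))))))))) (M (nat_lit 462) (B (M (nat_lit 366) (B (M (nat_lit 461) (B (L (nat_lit 334) ln14_10_5 ln14_10_5_ok) (L (nat_lit 493) ln14_11_5 ln14_11_5_ok))) (M (nat_lit 494) (B (M (nat_lit 365) (B (L (nat_lit 333) ln14_14_7 ln14_14_7_ok) (L (nat_lit 397) ln14_15_7 ln14_15_7_ok))) (M (nat_lit 495) (B (L (nat_lit 463) ln14_11_4 ln14_11_4_ok) (L (nat_lit 527) ln14_12_4 ln14_12_4_ok))))))) (B (M (nat_lit 494) (B (M (nat_lit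 397) (B (L (nat_lit 365) ln14_15_7 ln14_15_7_ok) (L (nat_lit 526) ln14_16_7 ln14_16_7_ok))) (B (M (nat_lit 525) (B (L (nat_lit 493) ln14_12_5 ln14_12_5_ok) (M (nat_lit 526) (B (L (nat_lit 397) ln14_16_7 ln14_16_7_ok) (L (nat_lit 557) ln14_13_5 ln14_13_5_ok))))) (B (M (nat_lit 526) (B (M (nat_lit 525) (B (L (nat_lit 493) ln14_12_5 ln14_12_5_ok) (L (nat_lit 557) ln14_13_5 ln14_13_5_ok))) (M (nat_lit 527) (B (L (nat_lit 495) ln14_12_4 ln14_12_4_ok) (L (nat_lit 559) ln14_13_4 ln14_13_4_ok))))) (M (nat_lit 397) (B (L (nat_lit 365) ln14_15_7 ln14_15_7_ok) (M (nat_lit 399) (B (L (nat_lit 367) ln14_15_6 ln14_15_6_ok) (L (nat_lit 400) ln16_12_1 ln16_12_1_ok))))))))) (B (M (nat_lit 366) (B (M (nat_lit 461) (B (L (nat_lit 334) ln14_10_5 ln14_10_5_ok) (L (nat_lit 493) ln14_11_5 ln14_11_5_ok))) (M (nat_lit 494) (B (M (nat_lit 367) (B (L (nat_lit 335) ln14_14_6 ln14_14_6_ok) (L (nat_lit 399) ln14_15_6 ln14_15_6_ok)))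 (M (nat_lit 495) (B (L (nat_lit 463) ln14_11_4 ln14_11_4_ok) (L (nat_lit 527) ln14_12_4 ln14_12_4_ok))))))) (B (M (nat_lit 366) (B (M (nat_lit 461) (B (L (nat_lit 334) ln14_10_5 ln14_10_5_ok) (M (nat_lit 463) (B (L (nat_lit 495) ln14_11_4 ln14_11_4_ok) (L (nat_lit 464) ln16_14_3 ln16_14_3_ok))))) (B (M (nat_lit 494) (B (M (nat_lit 367) (B (L (nat_lit 335) ln14_14_6 ln14_14_6_ok) (L (nat_lit 399) ln14_15_6 ln14_15_6_ok))) (M (nat_lit 495) (B (L (nat_lit 463) ln14_11_4 ln14_11_4_ok) (L (nat_lit 527) ln14_12_4 ln14_12_4_ok))))) (M (nat_lit 333) (B (L (nat_lit 365) ln14_14_7 ln14_14_7_ok) (M (nat_lit 334) (B (L (nat_lit 301) ln14_13_7 ln14_13_7_ok) (L (nat_lit 461) ln14_10_5 ln14_10_5_ok)))))))) (B (M (nat_lit 366) (B (M (nat_lit 461) (B (L (nat_lit 334) ln14_10_5 ln14_10_5_ok) (L (nat_lit 493) ln14_11_5 ln14_11_5_ok))) (B (M (nat_lit 461) (B (L (nat_lit 493) ln14_11_5 ln14_11_5_ok) (M (nat_lit 463) (B (L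 (nat_lit 495) ln14_11_4 ln14_11_4_ok) (L (nat_lit 464) ln16_14_3 ln16_14_3_ok))))) (M (nat_lit 334) (B (M (nat_lit 333) (B (L (nat_lit 301) ln14_13_7 ln14_13_7_ok) (L (nat_lit 365) ln14_14_7 ln14_14_7_ok))) (M (nat_lit 335) (B (L (nat_lit 303) ln14_13_6 ln14_13_6_ok) (L (nat_lit 367) ln14_14_6 ln14_14_6_ok)))))))) (M (nat_lit 366) (B (M (nat_lit 461) (B (L (nat_lit 334) ln14_10_5 ln14_10_5_ok) (L (nat_lit 493) ln14_11_5 ln14_11_5_ok))) (B (M (nat_lit 494) (B (M (nat_lit 365) (B (L (nat_lit 333) ln14_14_7 ln14_14_7_ok) (L (nat_lit 397) ln14_15_7 ln14_15_7_ok))) (M (nat_lit 493) (B (L (nat_lit 461) ln14_11_5 ln14_11_5_ok) (L (nat_lit 525) ln14_12_5 ln14_12_5_ok))))) (M (nat_lit 334) (B (M (nat_lit 333) (B (L (nat_lit 301) ln14_13_7 ln14_13_7_ok) (L (nat_lit 365) ln14_14_7 ln14_14_7_ok))) (M (nat_lit 335) (B (L (nat_lit 303) ln14_13_6 ln14_13_6_ok) (L (nat_lit 367) ln14_14_6 ln14_14_6_ok))))))))))))))))))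 (nat_lit 4852171964711426004262224822250396481013764881907679006548339266075587288659844840319955210682244261670434619182456250700704776192) (nat_lit 2358726516282320683264613450156880137266377620023936123883267035627778163385982737320309372434140894458393540807429247334321000758419572675946455084555730699134653431808) (nat_lit 2358726516282320683264613450156880137266377620023936123883267035627778163385982737320309372434140894458393540807429247334321000758419572675946455084555730699134653431808) (by decide +kernel)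
theorem c40_s374 : Sem (nat_lit 2079502270590611144683810638107312777577327806531862431377859685460965980854219217279980804578104683573043408221052678871730618368) (nat_lit 2476662842140371422462909370583933142671113940189810419753354027409080085534450136408787468158927173055491584764426791083666070094286157503159293351159693474128438755328) (nat_lit 2476662842140371422462909370583933142671113940189810419753354027409080085534450136408787468158927173055491584764426791083666070094286157503159293351159693474128438755328) :=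
  sem_of_chk (M (nat_lit 430) (B (M (nat_lit 427) (B (M (nat_lit 398) (B (L (nat_lit 399) ln11_13_2 ln11_13_2_ok) (M (nat_lit 394) (B (L (nat_lit 395) ln14_13_3 ln14_13_3_ok) (M (nat_lit 426) (B (L (nat_lit 393) ln13_13_3 ln13_13_3_ok) (L (nat_lit 397) ln10_13_2 ln10_13_2_ok))))))) (B (M (nat_lit 431) (B (M (nat_lit 395) (B (L (nat_lit 394) ln14_13_3 ln14_13_3_ok) (L (nat_lit 396) ln15_13_3 ln15_13_3_ok))) (M (nat_lit 459) (B (L (nat_lit 458) ln14_13_1 ln14_13_1_ok) (L (nat_lit 460) ln15_13_1 ln15_13_1_ok))))) (M (nat_lit 426) (B (M (nat_lit 398) (B (L (nat_lit 397) ln10_13_2 ln10_13_2_ok) (L (nat_lit 399) ln11_13_2 ln11_13_2_ok))) (M (nat_lit 458) (B (L (nat_lit 457) ln13_13_1 ln13_13_1_ok) (L (nat_lit 459) ln14_13_1 ln14_13_1_ok)))))))) (B (M (nat_lit 431) (B (M (nat_lit 427) (B (M (nat_lit 399) (B (L (nat_lit 398) ln11_13_2 ln11_13_2_ok) (L (nat_lit 400) ln12_13_2 ln12_13_2_ok))) (M (nat_lit 459) (B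 (L (nat_lit 458) ln14_13_1 ln14_13_1_ok) (L (nat_lit 460) ln15_13_1 ln15_13_1_ok))))) (B (M (nat_lit 427) (B (M (nat_lit 395) (B (L (nat_lit 394) ln14_13_3 ln14_13_3_ok) (L (nat_lit 396) ln15_13_3 ln15_13_3_ok))) (M (nat_lit 459) (B (L (nat_lit 458) ln14_13_1 ln14_13_1_ok) (L (nat_lit 460) ln15_13_1 ln15_13_1_ok))))) (M (nat_lit 432) (B (M (nat_lit 396) (B (L (nat_lit 395) ln15_13_3 ln15_13_3_ok) (L (nat_lit 397) ln16_13_3 ln16_13_3_ok))) (M (nat_lit 464) (B (L (nat_lit 463) ln12_13_0 ln12_13_0_ok) (L (nat_lit 465) ln13_13_0 ln13_13_0_ok)))))))) (B (M (nat_lit 427) (B (M (nat_lit 431) (B (M (nat_lit 459) (B (L (nat_lit 458) ln14_13_1 ln14_13_1_ok) (L (nat_lit 460) ln15_13_1 ln15_13_1_ok))) (M (nat_lit 463) (B (L (nat_lit 462) ln11_13_0 ln11_13_0_ok) (L (nat_lit 464) ln12_13_0 ln12_13_0_ok))))) (B (M (nat_lit 426) (B (M (nat_lit 398) (B (L (nat_lit 397) ln10_13_2 ln10_13_2_ok) (L (nat_lit 399) ln11_13_2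 ln11_13_2_ok))) (M (nat_lit 458) (B (L (nat_lit 457) ln13_13_1 ln13_13_1_ok) (L (nat_lit 459) ln14_13_1 ln14_13_1_ok))))) (M (nat_lit 431) (B (M (nat_lit 399) (B (L (nat_lit 398) ln11_13_2 ln11_13_2_ok) (L (nat_lit 400) ln12_13_2 ln12_13_2_ok))) (M (nat_lit 463) (B (L (nat_lit 462) ln11_13_0 ln11_13_0_ok) (L (nat_lit 464) ln12_13_0 ln12_13_0_ok)))))))) (B (M (nat_lit 427) (B (M (nat_lit 426) (B (M (nat_lit 394) (B (L (nat_lit 393) ln13_13_3 ln13_13_3_ok) (L (nat_lit 395) ln14_13_3 ln14_13_3_ok))) (M (nat_lit 458) (B (L (nat_lit 457) ln13_13_1 ln13_13_1_ok) (L (nat_lit 459) ln14_13_1 ln14_13_1_ok))))) (M (nat_lit 431) (B (M (nat_lit 399) (B (L (nat_lit 398) ln11_13_2 ln11_13_2_ok) (L (nat_lit 400) ln12_13_2 ln12_13_2_ok))) (M (nat_lit 463) (B (L (nat_lit 462) ln11_13_0 ln11_13_0_ok) (L (nat_lit 464) ln12_13_0 ln12_13_0_ok))))))) (B (M (nat_lit 427) (B (M (nat_lit 431) (B (M (nat_lit 459) (B (L (nat_lit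 458) ln14_13_1 ln14_13_1_ok) (L (nat_lit 460) ln15_13_1 ln15_13_1_ok))) (M (nat_lit 463) (B (L (nat_lit 462) ln11_13_0 ln11_13_0_ok) (L (nat_lit 464) ln12_13_0 ln12_13_0_ok))))) (B (M (nat_lit 426) (B (M (nat_lit 394) (B (L (nat_lit 393) ln13_13_3 ln13_13_3_ok) (L (nat_lit 395) ln14_13_3 ln14_13_3_ok))) (M (nat_lit 458) (B (L (nat_lit 457) ln13_13_1 ln13_13_1_ok) (L (nat_lit 459) ln14_13_1 ln14_13_1_ok))))) (M (nat_lit 431) (B (M (nat_lit 395) (B (L (nat_lit 394) ln14_13_3 ln14_13_3_ok) (L (nat_lit 396) ln15_13_3 ln15_13_3_ok))) (M (nat_lit 463) (B (L (nat_lit 462) ln11_13_0 ln11_13_0_ok) (L (nat_lit 464) ln12_13_0 ln12_13_0_ok)))))))) (B c40_n307 (B (K (nat_lit 4852171964711426004262224822250396481013764881907679006548339266075587288659844840319955210682244261670434619182456250700704776192) (nat_lit 2358726516282320683264613450156880137266377620023936123883267035627778163385982737320309372434140894458393540807429247334321000758419572675946455084555730699134653431808)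 (nat_lit 2358726516282320683264613450156880137266377620023936123883267035627778163385982737320309372434140894458393540807429247334321000758419572675946455084555730699134653431808) c40_s372) (M (nat_lit 427) (B (M (nat_lit 431) (B (M (nat_lit 399) (B (L (nat_lit 398) ln11_13_2 ln11_13_2_ok) (L (nat_lit 400) ln12_13_2 ln12_13_2_ok))) (M (nat_lit 463) (B (L (nat_lit 462) ln11_13_0 ln11_13_0_ok) (L (nat_lit 464) ln12_13_0 ln12_13_0_ok))))) (B (M (nat_lit 431) (B (M (nat_lit 395) (B (L (nat_lit 394) ln14_13_3 ln14_13_3_ok) (L (nat_lit 396) ln15_13_3 ln15_13_3_ok))) (M (nat_lit 463) (B (L (nat_lit 462) ln11_13_0 ln11_13_0_ok) (L (nat_lit 464) ln12_13_0 ln12_13_0_ok))))) (M (nat_lit 398) (B (L (nat_lit 399) ln11_13_2 ln11_13_2_ok) (M (nat_lit 394) (B (L (nat_lit 395) ln14_13_3 ln14_13_3_ok) (M (nat_lit 426) (B (L (nat_lit 393) ln13_13_3 ln13_13_3_ok) (L (nat_lit 397) ln10_13_2 ln10_13_2_ok))))))))))))))))))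 (nat_lit 2079502270590611144683810638107312777577327806531862431377859685460965980854219217279980804578104683573043408221052678871730618368) (nat_lit 2476662842140371422462909370583933142671113940189810419753354027409080085534450136408787468158927173055491584764426791083666070094286157503159293351159693474128438755328) (nat_lit 2476662842140371422462909370583933142671113940189810419753354027409080085534450136408787468158927173055491584764426791083666070094286157503159293351159693474128438755328) (by decide +kernel)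
theorem c40_s375 : Sem (nat_lit 2079502270590611144683810638107312777577327806531862431377859685460965980854219217279980804578104683573043408221052678871730618368) (nat_lit 2476662842140371422462909370583933142671113940184645919997180210229733251178827214109574751676772159631100521558840689756712916012817946144118283860518677552288740933632) (nat_lit 2476662842140371422462909370583933142671113940184645919997180210229733251178827214109574751676772159631100521558840689756712916012817946144118283860518677552288740933632) :=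
  sem_of_chk (M (nat_lit 430) (B (M (nat_lit 427) (B (M (nat_lit 398) (B (L (nat_lit 399) ln11_13_2 ln11_13_2_ok) (M (nat_lit 394) (B (L (nat_lit 395) ln14_13_3 ln14_13_3_ok) (M (nat_lit 426) (B (L (nat_lit 393) ln13_13_3 ln13_13_3_ok) (L (nat_lit 397) ln10_13_2 ln10_13_2_ok))))))) (B (M (nat_lit 431) (B (M (nat_lit 395) (B (L (nat_lit 394) ln14_13_3 ln14_13_3_ok) (L (nat_lit 396) ln15_13_3 ln15_13_3_ok))) (M (nat_lit 459) (B (L (nat_lit 458) ln14_13_1 ln14_13_1_ok) (L (nat_lit 460) ln15_13_1 ln15_13_1_ok))))) (M (nat_lit 426) (B (M (nat_lit 398) (B (L (nat_lit 397) ln10_13_2 ln10_13_2_ok) (L (nat_lit 399) ln11_13_2 ln11_13_2_ok))) (M (nat_lit 458) (B (L (nat_lit 457) ln13_13_1 ln13_13_1_ok) (L (nat_lit 459) ln14_13_1 ln14_13_1_ok)))))))) (B (M (nat_lit 431) (B (M (nat_lit 427) (B (M (nat_lit 399) (B (L (nat_lit 398) ln11_13_2 ln11_13_2_ok) (L (nat_lit 400) ln12_13_2 ln12_13_2_ok))) (M (nat_lit 459) (B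 (L (nat_lit 458) ln14_13_1 ln14_13_1_ok) (L (nat_lit 460) ln15_13_1 ln15_13_1_ok))))) (B (M (nat_lit 427) (B (M (nat_lit 395) (B (L (nat_lit 394) ln14_13_3 ln14_13_3_ok) (L (nat_lit 396) ln15_13_3 ln15_13_3_ok))) (M (nat_lit 459) (B (L (nat_lit 458) ln14_13_1 ln14_13_1_ok) (L (nat_lit 460) ln15_13_1 ln15_13_1_ok))))) (M (nat_lit 432) (B (M (nat_lit 396) (B (L (nat_lit 395) ln15_13_3 ln15_13_3_ok) (L (nat_lit 397) ln16_13_3 ln16_13_3_ok))) (M (nat_lit 464) (B (L (nat_lit 463) ln12_13_0 ln12_13_0_ok) (L (nat_lit 465) ln13_13_0 ln13_13_0_ok)))))))) (B (M (nat_lit 427) (B (M (nat_lit 431) (B (M (nat_lit 459) (B (L (nat_lit 458) ln14_13_1 ln14_13_1_ok) (L (nat_lit 460) ln15_13_1 ln15_13_1_ok))) (M (nat_lit 463) (B (L (nat_lit 462) ln11_13_0 ln11_13_0_ok) (L (nat_lit 464) ln12_13_0 ln12_13_0_ok))))) (B (M (nat_lit 426) (B (M (nat_lit 398) (B (L (nat_lit 397) ln10_13_2 ln10_13_2_ok) (L (nat_lit 399) ln11_13_2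 ln11_13_2_ok))) (M (nat_lit 458) (B (L (nat_lit 457) ln13_13_1 ln13_13_1_ok) (L (nat_lit 459) ln14_13_1 ln14_13_1_ok))))) (M (nat_lit 431) (B (M (nat_lit 399) (B (L (nat_lit 398) ln11_13_2 ln11_13_2_ok) (L (nat_lit 400) ln12_13_2 ln12_13_2_ok))) (M (nat_lit 463) (B (L (nat_lit 462) ln11_13_0 ln11_13_0_ok) (L (nat_lit 464) ln12_13_0 ln12_13_0_ok)))))))) (B (M (nat_lit 427) (B (M (nat_lit 426) (B (M (nat_lit 394) (B (L (nat_lit 393) ln13_13_3 ln13_13_3_ok) (L (nat_lit 395) ln14_13_3 ln14_13_3_ok))) (M (nat_lit 458) (B (L (nat_lit 457) ln13_13_1 ln13_13_1_ok) (L (nat_lit 459) ln14_13_1 ln14_13_1_ok))))) (M (nat_lit 431) (B (M (nat_lit 399) (B (L (nat_lit 398) ln11_13_2 ln11_13_2_ok) (L (nat_lit 400) ln12_13_2 ln12_13_2_ok))) (M (nat_lit 463) (B (L (nat_lit 462) ln11_13_0 ln11_13_0_ok) (L (nat_lit 464) ln12_13_0 ln12_13_0_ok))))))) (B (M (nat_lit 427) (B (M (nat_lit 431) (B (M (nat_lit 459) (B (L (nat_lit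 458) ln14_13_1 ln14_13_1_ok) (L (nat_lit 460) ln15_13_1 ln15_13_1_ok))) (M (nat_lit 463) (B (L (nat_lit 462) ln11_13_0 ln11_13_0_ok) (L (nat_lit 464) ln12_13_0 ln12_13_0_ok))))) (B (M (nat_lit 426) (B (M (nat_lit 394) (B (L (nat_lit 393) ln13_13_3 ln13_13_3_ok) (L (nat_lit 395) ln14_13_3 ln14_13_3_ok))) (M (nat_lit 458) (B (L (nat_lit 457) ln13_13_1 ln13_13_1_ok) (L (nat_lit 459) ln14_13_1 ln14_13_1_ok))))) (M (nat_lit 431) (B (M (nat_lit 395) (B (L (nat_lit 394) ln14_13_3 ln14_13_3_ok) (L (nat_lit 396) ln15_13_3 ln15_13_3_ok))) (M (nat_lit 463) (B (L (nat_lit 462) ln11_13_0 ln11_13_0_ok) (L (nat_lit 464) ln12_13_0 ln12_13_0_ok)))))))) (B c40_n307 c40_n232))))))) (nat_lit 2079502270590611144683810638107312777577327806531862431377859685460965980854219217279980804578104683573043408221052678871730618368) (nat_lit 2476662842140371422462909370583933142671113940184645919997180210229733251178827214109574751676772159631100521558840689756712916012817946144118283860518677552288740933632)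 (nat_lit 2476662842140371422462909370583933142671113940184645919997180210229733251178827214109574751676772159631100521558840689756712916012817946144118283860518677552288740933632) (by decide +kernel)
noncomputable def c40_n409 : Cert := (M (nat_lit 460) (B (M (nat_lit 459) (B (L (nat_lit 431) ln15_13_1 ln15_13_1_ok) (M (nat_lit 458) (B (L (nat_lit 457) ln9_14_2 ln9_14_2_ok) (L (nat_lit 461) ln10_14_2 ln10_14_2_ok))))) (B (M (nat_lit 492) (B (M (nat_lit 397) (B (L (nat_lit 524) ln12_16_6 ln12_16_6_ok) (M (nat_lit 365) (B (L (nat_lit 333) ln13_10_5 ln13_10_5_ok) (L (nat_lit 461) ln13_11_5 ln13_11_5_ok))))) (B (M (nat_lit 397) (B (L (nat_lit 524) ln12_16_6 ln12_16_6_ok) (M (nat_lit 365) (B (L (nat_lit 396) ln12_15_6 ln12_15_6_ok) (L (nat_lit 461) ln13_11_5 ln13_11_5_ok))))) (B (M (nat_lit 524) (B (L (nat_lit 397) ln12_16_6 ln12_16_6_ok) (M (nat_lit 556) (B (L (nat_lit 461) ln12_17_6 ln12_17_6_ok) (M (nat_lit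 555) (B (L (nat_lit 523) ln12_13_5 ln12_13_5_ok) (L (nat_lit 587) ln12_14_5 ln12_14_5_ok))))))) (B (M (nat_lit 524) (B (M (nat_lit 556) (B (L (nat_lit 461) ln12_17_6 ln12_17_6_ok) (M (nat_lit 555) (B (L (nat_lit 523) ln12_13_5 ln12_13_5_ok) (L (nat_lit 587) ln12_14_5 ln12_14_5_ok))))) (B (M (nat_lit 396) (B (M (nat_lit 523) (B (L (nat_lit 491) ln12_12_5 ln12_12_5_ok) (L (nat_lit 555) ln12_13_5 ln12_13_5_ok))) (M (nat_lit 525) (B (L (nat_lit 493) ln12_12_4 ln12_12_4_ok) (L (nat_lit 557) ln12_13_4 ln12_13_4_ok))))) (M (nat_lit 556) (B (L (nat_lit 461) ln12_17_6 ln12_17_6_ok) (M (nat_lit 557) (B (L (nat_lit 525) ln12_13_4 ln12_13_4_ok) (L (nat_lit 589) ln12_14_4 ln12_14_4_ok)))))))) (B (M (nat_lit 397) (B (L (nat_lit 524) ln12_16_6 ln12_16_6_ok) (M (nat_lit 365) (B (L (nat_lit 333) ln13_10_5 ln13_10_5_ok) (L (nat_lit 396) ln12_15_6 ln12_15_6_ok))))) (M (nat_lit 396) (B (M (nat_lit 397) (B (L (nat_lit 365)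 ln12_15_6 ln12_15_6_ok) (M (nat_lit 395) (B (L (nat_lit 363) ln12_15_7 ln12_15_7_ok) (L (nat_lit 394) ln10_12_0 ln10_12_0_ok))))) (M (nat_lit 459) (B (M (nat_lit 491) (B (L (nat_lit 364) ln12_11_5 ln12_11_5_ok) (L (nat_lit 523) ln12_12_5 ln12_12_5_ok))) (M (nat_lit 458) (B (L (nat_lit 457) ln9_14_2 ln9_14_2_ok) (L (nat_lit 461) ln10_14_2 ln10_14_2_ok))))))))))))) (B (M (nat_lit 431) (B (L (nat_lit 459) ln15_13_1 ln15_13_1_ok) (M (nat_lit 432) (B (L (nat_lit 461) ln16_13_1 ln16_13_1_ok) (M (nat_lit 396) (B (L (nat_lit 395) ln15_13_3 ln15_13_3_ok) (L (nat_lit 397) ln16_13_3 ln16_13_3_ok))))))) (B (M (nat_lit 396) (B (M (nat_lit 431) (B (L (nat_lit 395) ln15_13_3 ln15_13_3_ok) (M (nat_lit 432) (B (L (nat_lit 397) ln16_13_3 ln16_13_3_ok) (L (nat_lit 461) ln16_13_1 ln16_13_1_ok))))) (B (M (nat_lit 492) (B (M (nat_lit 397) (B (L (nat_lit 365) ln12_15_6 ln12_15_6_ok) (L (nat_lit 524) ln12_16_6 ln12_16_6_ok)))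 (B (M (nat_lit 525) (B (L (nat_lit 493) ln12_12_4 ln12_12_4_ok) (M (nat_lit 524) (B (L (nat_lit 397) ln12_16_6 ln12_16_6_ok) (L (nat_lit 557) ln12_13_4 ln12_13_4_ok))))) (B (M (nat_lit 524) (B (M (nat_lit 523) (B (L (nat_lit 491) ln12_12_5 ln12_12_5_ok) (L (nat_lit 555) ln12_13_5 ln12_13_5_ok))) (M (nat_lit 525) (B (L (nat_lit 493) ln12_12_4 ln12_12_4_ok) (L (nat_lit 557) ln12_13_4 ln12_13_4_ok))))) (M (nat_lit 364) (B (M (nat_lit 365) (B (L (nat_lit 333) ln12_14_6 ln12_14_6_ok) (L (nat_lit 397) ln12_15_6 ln12_15_6_ok))) (M (nat_lit 493) (B (L (nat_lit 461) ln12_11_4 ln12_11_4_ok) (L (nat_lit 525) ln12_12_4 ln12_12_4_ok))))))))) (B (M (nat_lit 461) (B (M (nat_lit 493) (B (L (nat_lit 364) ln12_11_4 ln12_11_4_ok) (L (nat_lit 525) ln13_16_7 ln13_16_7_ok))) (M (nat_lit 431) (B (L (nat_lit 395) ln15_13_3 ln15_13_3_ok) (L (nat_lit 432) ln16_13_1 ln16_13_1_ok))))) (M (nat_lit 397) (B (M (nat_lit 365) (B (L (nat_lit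 333) ln13_10_5 ln13_10_5_ok) (L (nat_lit 492) ln12_15_6 ln12_15_6_ok))) (M (nat_lit 431) (B (L (nat_lit 395) ln15_13_3 ln15_13_3_ok) (L (nat_lit 432) ln16_13_3 ln16_13_3_ok))))))))) (M (nat_lit 431) (B (L (nat_lit 459) ln15_13_1 ln15_13_1_ok) (M (nat_lit 432) (B (M (nat_lit 396) (B (L (nat_lit 395) ln15_13_3 ln15_13_3_ok) (L (nat_lit 397) ln16_13_3 ln16_13_3_ok))) (M (nat_lit 464) (B (L (nat_lit 463) ln12_13_0 ln12_13_0_ok) (L (nat_lit 465) ln13_13_0 ln13_13_0_ok))))))))))))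
theorem c40_s488 : Sem (nat_lit 2079502270590611144683810638107312777577327806531862431377859685460965980854219217279980804578104683573043408221052678871730618368) (nat_lit 2532663311910144709401472320623584478226293607541644220088730664653330155722475354713283999496785142994794445589626491026867039733927007165233298270593996604842030315609570410496) (nat_lit 2532663311910144709401472320623584478226293607541644220088730664653330155722475354713283999496785142994794445589626491026867039733927007165233298270593996604842030315609570410496) :=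
  sem_of_chk (M (nat_lit 430) (B (M (nat_lit 427) (B (M (nat_lit 398) (B (L (nat_lit 399) ln11_13_2 ln11_13_2_ok) (M (nat_lit 394) (B (L (nat_lit 395) ln14_13_3 ln14_13_3_ok) (M (nat_lit 426) (B (L (nat_lit 393) ln13_13_3 ln13_13_3_ok) (L (nat_lit 397) ln10_13_2 ln10_13_2_ok))))))) (B (M (nat_lit 431) (B (M (nat_lit 395) (B (L (nat_lit 394) ln14_13_3 ln14_13_3_ok) (L (nat_lit 396) ln15_13_3 ln15_13_3_ok))) (M (nat_lit 459) (B (L (nat_lit 458) ln14_13_1 ln14_13_1_ok) (L (nat_lit 460) ln15_13_1 ln15_13_1_ok))))) (M (nat_lit 426) (B (M (nat_lit 398) (B (L (nat_lit 397) ln10_13_2 ln10_13_2_ok) (L (nat_lit 399) ln11_13_2 ln11_13_2_ok))) (M (nat_lit 458) (B (L (nat_lit 457) ln13_13_1 ln13_13_1_ok) (L (nat_lit 459) ln14_13_1 ln14_13_1_ok)))))))) (B (M (nat_lit 431) (B (M (nat_lit 427) (B (M (nat_lit 399) (B (L (nat_lit 398) ln11_13_2 ln11_13_2_ok) (L (nat_lit 400) ln12_13_2 ln12_13_2_ok))) (M (nat_lit 459) (B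 (L (nat_lit 458) ln14_13_1 ln14_13_1_ok) (L (nat_lit 460) ln15_13_1 ln15_13_1_ok))))) (B (M (nat_lit 427) (B (M (nat_lit 395) (B (L (nat_lit 394) ln14_13_3 ln14_13_3_ok) (L (nat_lit 396) ln15_13_3 ln15_13_3_ok))) (M (nat_lit 459) (B (L (nat_lit 458) ln14_13_1 ln14_13_1_ok) (L (nat_lit 460) ln15_13_1 ln15_13_1_ok))))) (M (nat_lit 432) (B (M (nat_lit 396) (B (L (nat_lit 395) ln15_13_3 ln15_13_3_ok) (L (nat_lit 397) ln16_13_3 ln16_13_3_ok))) (M (nat_lit 464) (B (L (nat_lit 463) ln12_13_0 ln12_13_0_ok) (L (nat_lit 465) ln13_13_0 ln13_13_0_ok)))))))) (B (M (nat_lit 427) (B (M (nat_lit 431) (B (M (nat_lit 459) (B (L (nat_lit 458) ln14_13_1 ln14_13_1_ok) (L (nat_lit 460) ln15_13_1 ln15_13_1_ok))) (M (nat_lit 463) (B (L (nat_lit 462) ln11_13_0 ln11_13_0_ok) (L (nat_lit 464) ln12_13_0 ln12_13_0_ok))))) (B (M (nat_lit 426) (B (M (nat_lit 398) (B (L (nat_lit 397) ln10_13_2 ln10_13_2_ok) (L (nat_lit 399) ln11_13_2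 ln11_13_2_ok))) (M (nat_lit 458) (B (L (nat_lit 457) ln13_13_1 ln13_13_1_ok) (L (nat_lit 459) ln14_13_1 ln14_13_1_ok))))) (M (nat_lit 431) (B (M (nat_lit 399) (B (L (nat_lit 398) ln11_13_2 ln11_13_2_ok) (L (nat_lit 400) ln12_13_2 ln12_13_2_ok))) (M (nat_lit 463) (B (L (nat_lit 462) ln11_13_0 ln11_13_0_ok) (L (nat_lit 464) ln12_13_0 ln12_13_0_ok)))))))) (B (M (nat_lit 427) (B (M (nat_lit 426) (B (M (nat_lit 394) (B (L (nat_lit 393) ln13_13_3 ln13_13_3_ok) (L (nat_lit 395) ln14_13_3 ln14_13_3_ok))) (M (nat_lit 458) (B (L (nat_lit 457) ln13_13_1 ln13_13_1_ok) (L (nat_lit 459) ln14_13_1 ln14_13_1_ok))))) (M (nat_lit 431) (B (M (nat_lit 399) (B (L (nat_lit 398) ln11_13_2 ln11_13_2_ok) (L (nat_lit 400) ln12_13_2 ln12_13_2_ok))) (M (nat_lit 463) (B (L (nat_lit 462) ln11_13_0 ln11_13_0_ok) (L (nat_lit 464) ln12_13_0 ln12_13_0_ok))))))) (B (M (nat_lit 427) (B (M (nat_lit 431) (B (M (nat_lit 459) (B (L (nat_lit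 458) ln14_13_1 ln14_13_1_ok) (L (nat_lit 460) ln15_13_1 ln15_13_1_ok))) (M (nat_lit 463) (B (L (nat_lit 462) ln11_13_0 ln11_13_0_ok) (L (nat_lit 464) ln12_13_0 ln12_13_0_ok))))) (B (M (nat_lit 426) (B (M (nat_lit 394) (B (L (nat_lit 393) ln13_13_3 ln13_13_3_ok) (L (nat_lit 395) ln14_13_3 ln14_13_3_ok))) (M (nat_lit 458) (B (L (nat_lit 457) ln13_13_1 ln13_13_1_ok) (L (nat_lit 459) ln14_13_1 ln14_13_1_ok))))) (M (nat_lit 431) (B (M (nat_lit 395) (B (L (nat_lit 394) ln14_13_3 ln14_13_3_ok) (L (nat_lit 396) ln15_13_3 ln15_13_3_ok))) (M (nat_lit 463) (B (L (nat_lit 462) ln11_13_0 ln11_13_0_ok) (L (nat_lit 464) ln12_13_0 ln12_13_0_ok)))))))) (B c40_n409 (B (M (nat_lit 427) (B (M (nat_lit 398) (B (L (nat_lit 399) ln11_13_2 ln11_13_2_ok) (M (nat_lit 394) (B (L (nat_lit 395) ln14_13_3 ln14_13_3_ok) (M (nat_lit 426) (B (L (nat_lit 393) ln13_13_3 ln13_13_3_ok) (L (nat_lit 397) ln10_13_2 ln10_13_2_ok))))))) (B (M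 (nat_lit 426) (B (M (nat_lit 398) (B (L (nat_lit 397) ln10_13_2 ln10_13_2_ok) (L (nat_lit 399) ln11_13_2 ln11_13_2_ok))) (M (nat_lit 458) (B (L (nat_lit 457) ln13_13_1 ln13_13_1_ok) (L (nat_lit 459) ln14_13_1 ln14_13_1_ok))))) (B (M (nat_lit 426) (B (M (nat_lit 394) (B (L (nat_lit 393) ln13_13_3 ln13_13_3_ok) (L (nat_lit 395) ln14_13_3 ln14_13_3_ok))) (M (nat_lit 458) (B (L (nat_lit 457) ln13_13_1 ln13_13_1_ok) (L (nat_lit 459) ln14_13_1 ln14_13_1_ok))))) (M (nat_lit 397) (B (M (nat_lit 398) (B (L (nat_lit 399) ln11_13_2 ln11_13_2_ok) (M (nat_lit 462) (B (L (nat_lit 463) ln11_13_0 ln11_13_0_ok) (M (nat_lit 365) (B (L (nat_lit 333) ln13_10_4 ln13_10_4_ok) (L (nat_lit 494) ln14_15_7 ln14_15_7_ok))))))) (B (M (nat_lit 398) (B (L (nat_lit 399) ln11_13_2 ln11_13_2_ok) (M (nat_lit 366) (B (M (nat_lit 461) (B (L (nat_lit 334) ln14_10_5 ln14_10_5_ok) (L (nat_lit 493) ln13_15_6 ln13_15_6_ok))) (M (nat_lit 367)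 (B (M (nat_lit 462) (B (L (nat_lit 335) ln14_14_6 ln14_14_6_ok) (L (nat_lit 463) ln11_13_0 ln11_13_0_ok))) (M (nat_lit 395) (B (L (nat_lit 396) ln11_12_2 ln11_12_2_ok) (L (nat_lit 394) ln14_13_3 ln14_13_3_ok))))))))) (B (M (nat_lit 365) (B (M (nat_lit 333) (B (L (nat_lit 460) ln13_10_5 ln13_10_5_ok) (L (nat_lit 462) ln13_10_4 ln13_10_4_ok))) (B (M (nat_lit 461) (B (M (nat_lit 462) (B (L (nat_lit 494) ln13_11_4 ln13_11_4_ok) (L (nat_lit 463) ln11_13_0 ln11_13_0_ok))) (M (nat_lit 493) (B (M (nat_lit 396) (B (L (nat_lit 364) ln13_15_7 ln13_15_7_ok) (L (nat_lit 525) ln13_16_7 ln13_16_7_ok))) (M (nat_lit 492) (B (L (nat_lit 460) ln13_11_5 ln13_11_5_ok) (L (nat_lit 524) ln13_12_5 ln13_12_5_ok))))))) (B (M (nat_lit 462) (B (L (nat_lit 333) ln13_10_4 ln13_10_4_ok) (L (nat_lit 463) ln11_13_0 ln11_13_0_ok))) (M (nat_lit 460) (B (L (nat_lit 333) ln13_10_5 ln13_10_5_ok) (M (nat_lit 492) (B (L (nat_lit 396) ln12_15_6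 ln12_15_6_ok) (L (nat_lit 461) ln13_11_5 ln13_11_5_ok))))))))) (M (nat_lit 396) (B (M (nat_lit 395) (B (L (nat_lit 394) ln10_12_0 ln10_12_0_ok) (M (nat_lit 459) (B (L (nat_lit 458) ln14_13_1 ln14_13_1_ok) (M (nat_lit 491) (B (L (nat_lit 364) ln11_15_6 ln11_15_6_ok) (L (nat_lit 523) ln11_16_6 ln11_16_6_ok))))))) (B (M (nat_lit 398) (B (L (nat_lit 399) ln15_12_1 ln15_12_1_ok) (M (nat_lit 366) (B (M (nat_lit 395) (B (L (nat_lit 367) ln11_12_2 ln11_12_2_ok) (L (nat_lit 394) ln10_12_0 ln10_12_0_ok))) (M (nat_lit 461) (B (L (nat_lit 334) ln14_10_5 ln14_10_5_ok) (L (nat_lit 493) ln13_15_6 ln13_15_6_ok))))))) (B (M (nat_lit 459) (B (L (nat_lit 458) ln14_13_1 ln14_13_1_ok) (M (nat_lit 491) (B (L (nat_lit 523) ln11_16_6 ln11_16_6_ok) (M (nat_lit 364) (B (L (nat_lit 395) ln11_15_6 ln11_15_6_ok) (L (nat_lit 460) ln12_11_5 ln12_11_5_ok))))))) (M (nat_lit 459) (B (L (nat_lit 458) ln14_13_1 ln14_13_1_ok) (M (nat_lit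 460) (B (M (nat_lit 491) (B (L (nat_lit 364) ln12_11_5 ln12_11_5_ok) (L (nat_lit 523) ln11_16_6 ln11_16_6_ok))) (M (nat_lit 365) (B (L (nat_lit 333) ln13_10_5 ln13_10_5_ok) (L (nat_lit 492) ln12_15_6 ln12_15_6_ok))))))))))))))))))) (M (nat_lit 427) (B (M (nat_lit 431) (B (M (nat_lit 399) (B (L (nat_lit 398) ln11_13_2 ln11_13_2_ok) (L (nat_lit 400) ln12_13_2 ln12_13_2_ok))) (M (nat_lit 463) (B (L (nat_lit 462) ln11_13_0 ln11_13_0_ok) (L (nat_lit 464) ln12_13_0 ln12_13_0_ok))))) (B (M (nat_lit 431) (B (M (nat_lit 395) (B (L (nat_lit 394) ln14_13_3 ln14_13_3_ok) (L (nat_lit 396) ln15_13_3 ln15_13_3_ok))) (M (nat_lit 463) (B (L (nat_lit 462) ln11_13_0 ln11_13_0_ok) (L (nat_lit 464) ln12_13_0 ln12_13_0_ok))))) (M (nat_lit 398) (B (L (nat_lit 399) ln11_13_2 ln11_13_2_ok) (M (nat_lit 394) (B (L (nat_lit 395) ln14_13_3 ln14_13_3_ok) (M (nat_lit 426) (B (L (nat_lit 393) ln13_13_3 ln13_13_3_ok) (L (nat_lit 397)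 ln10_13_2 ln10_13_2_ok)))))))))))))))))) (nat_lit 2079502270590611144683810638107312777577327806531862431377859685460965980854219217279980804578104683573043408221052678871730618368) (nat_lit 2532663311910144709401472320623584478226293607541644220088730664653330155722475354713283999496785142994794445589626491026867039733927007165233298270593996604842030315609570410496) (nat_lit 2532663311910144709401472320623584478226293607541644220088730664653330155722475354713283999496785142994794445589626491026867039733927007165233298270593996604842030315609570410496) (by decide +kernel)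
noncomputable def c40_n524 : Cert := (M (nat_lit 460) (B (M (nat_lit 459) (B (L (nat_lit 431) ln15_13_1 ln15_13_1_ok) (M (nat_lit 458) (B (L (nat_lit 457) ln9_14_2 ln9_14_2_ok) (L (nat_lit 461) ln10_14_2 ln10_14_2_ok))))) (B (M (nat_lit 492) (B (M (nat_lit 397) (B (L (nat_lit 524) ln12_16_6 ln12_16_6_ok) (M (nat_lit 365) (B (L (nat_lit 396) ln12_15_6 ln12_15_6_ok) (L (nat_lit 461) ln13_11_5 ln13_11_5_ok))))) (B (M (nat_lit 524) (B (L (nat_lit 397) ln12_16_6 ln12_16_6_ok) (M (nat_lit 556) (B (L (nat_lit 461) ln12_17_6 ln12_17_6_ok) (M (nat_lit 555) (B (L (nat_lit 523) ln12_13_5 ln12_13_5_ok) (L (nat_lit 587) ln12_14_5 ln12_14_5_ok))))))) (B (M (nat_lit 524) (B (M (nat_lit 556) (B (L (nat_lit 461) ln12_17_6 ln12_17_6_ok) (M (nat_lit 555) (B (L (nat_lit 523) ln12_13_5 ln12_13_5_ok) (L (nat_lit 587) ln12_14_5 ln12_14_5_ok))))) (B (M (nat_lit 396) (B (M (nat_lit 523) (B (L (nat_lit 491) ln12_12_5 ln12_12_5_ok)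 (L (nat_lit 555) ln12_13_5 ln12_13_5_ok))) (M (nat_lit 525) (B (L (nat_lit 493) ln12_12_4 ln12_12_4_ok) (L (nat_lit 557) ln12_13_4 ln12_13_4_ok))))) (M (nat_lit 556) (B (L (nat_lit 461) ln12_17_6 ln12_17_6_ok) (M (nat_lit 557) (B (L (nat_lit 525) ln12_13_4 ln12_13_4_ok) (L (nat_lit 589) ln12_14_4 ln12_14_4_ok)))))))) (B (M (nat_lit 397) (B (L (nat_lit 524) ln12_16_6 ln12_16_6_ok) (M (nat_lit 396) (B (L (nat_lit 365) ln12_15_6 ln12_15_6_ok) (M (nat_lit 395) (B (L (nat_lit 363) ln12_15_7 ln12_15_7_ok) (L (nat_lit 394) ln10_12_0 ln10_12_0_ok))))))) (M (nat_lit 396) (B (M (nat_lit 397) (B (L (nat_lit 365) ln12_15_6 ln12_15_6_ok) (M (nat_lit 395) (B (L (nat_lit 363) ln12_15_7 ln12_15_7_ok) (L (nat_lit 394) ln10_12_0 ln10_12_0_ok))))) (M (nat_lit 364) (B (M (nat_lit 491) (B (L (nat_lit 459) ln12_11_5 ln12_11_5_ok) (L (nat_lit 523) ln12_12_5 ln12_12_5_ok))) (M (nat_lit 493) (B (L (nat_lit 461) ln12_11_4 ln12_11_4_ok)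 (L (nat_lit 525) ln12_12_4 ln12_12_4_ok)))))))))))) (B (M (nat_lit 396) (B (M (nat_lit 431) (B (L (nat_lit 395) ln15_13_3 ln15_13_3_ok) (M (nat_lit 432) (B (L (nat_lit 397) ln16_13_3 ln16_13_3_ok) (L (nat_lit 461) ln16_13_1 ln16_13_1_ok))))) (B (M (nat_lit 461) (B (M (nat_lit 493) (B (L (nat_lit 364) ln12_11_4 ln12_11_4_ok) (L (nat_lit 525) ln13_16_7 ln13_16_7_ok))) (M (nat_lit 492) (B (M (nat_lit 397) (B (L (nat_lit 365) ln12_15_6 ln12_15_6_ok) (L (nat_lit 524) ln12_16_6 ln12_16_6_ok))) (M (nat_lit 463) (B (M (nat_lit 431) (B (L (nat_lit 464) ln12_13_0 ln12_13_0_ok) (L (nat_lit 432) ln16_13_1 ln16_13_1_ok))) (B (M (nat_lit 462) (B (L (nat_lit 464) ln16_14_3 ln16_14_3_ok) (L (nat_lit 491) ln15_14_1 ln15_14_1_ok))) (M (nat_lit 491) (B (L (nat_lit 523) ln12_12_5 ln12_12_5_ok) (L (nat_lit 462) ln15_14_1 ln15_14_1_ok)))))))))) (B (M (nat_lit 461) (B (M (nat_lit 364) (B (L (nat_lit 332) ln12_10_4 ln12_10_4_ok)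 (L (nat_lit 493) ln12_11_4 ln12_11_4_ok))) (M (nat_lit 431) (B (L (nat_lit 395) ln15_13_3 ln15_13_3_ok) (L (nat_lit 432) ln16_13_1 ln16_13_1_ok))))) (B (M (nat_lit 492) (B (M (nat_lit 397) (B (L (nat_lit 365) ln12_15_6 ln12_15_6_ok) (L (nat_lit 524) ln12_16_6 ln12_16_6_ok))) (M (nat_lit 364) (B (M (nat_lit 363) (B (L (nat_lit 331) ln12_14_7 ln12_14_7_ok) (L (nat_lit 395) ln12_15_7 ln12_15_7_ok))) (M (nat_lit 461) (B (L (nat_lit 332) ln12_10_4 ln12_10_4_ok) (L (nat_lit 493) ln12_11_4 ln12_11_4_ok))))))) (M (nat_lit 397) (B (M (nat_lit 395) (B (L (nat_lit 394) ln10_12_0 ln10_12_0_ok) (L (nat_lit 431) ln15_13_3 ln15_13_3_ok))) (M (nat_lit 492) (B (L (nat_lit 365) ln12_15_6 ln12_15_6_ok) (L (nat_lit 524) ln12_16_6 ln12_16_6_ok)))))))))) (M (nat_lit 431) (B (L (nat_lit 459) ln15_13_1 ln15_13_1_ok) (M (nat_lit 432) (B (M (nat_lit 396) (B (L (nat_lit 395) ln15_13_3 ln15_13_3_ok) (L (nat_lit 397) ln16_13_3 ln16_13_3_ok)))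 (M (nat_lit 464) (B (L (nat_lit 463) ln12_13_0 ln12_13_0_ok) (L (nat_lit 465) ln13_13_0 ln13_13_0_ok)))))))))))
theorem c40_s549 : Sem (nat_lit 2079502270590611144683810638107312777577327806531862431377859685460965980854219217279980804578104683573043408221052678871730618368) (nat_lit 2532663311910144709621145845747763989105714433112248803041352594257915928823023818882578758960081471586994354964371029025490152475615918421803263484612150425454799772906468409344) (nat_lit 2532663311910144709621145845747763989105714433112248803041352594257915928823023818882578758960081471586994354964371029025490152475615918421803263484612150425454799772906468409344) :=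
  sem_of_chk (M (nat_lit 430) (B (M (nat_lit 427) (B (M (nat_lit 398) (B (L (nat_lit 399) ln11_13_2 ln11_13_2_ok) (M (nat_lit 394) (B (L (nat_lit 395) ln14_13_3 ln14_13_3_ok) (M (nat_lit 426) (B (L (nat_lit 393) ln13_13_3 ln13_13_3_ok) (L (nat_lit 397) ln10_13_2 ln10_13_2_ok))))))) (B (M (nat_lit 431) (B (M (nat_lit 395) (B (L (nat_lit 394) ln14_13_3 ln14_13_3_ok) (L (nat_lit 396) ln15_13_3 ln15_13_3_ok))) (M (nat_lit 459) (B (L (nat_lit 458) ln14_13_1 ln14_13_1_ok) (L (nat_lit 460) ln15_13_1 ln15_13_1_ok))))) (M (nat_lit 426) (B (M (nat_lit 398) (B (L (nat_lit 397) ln10_13_2 ln10_13_2_ok) (L (nat_lit 399) ln11_13_2 ln11_13_2_ok))) (M (nat_lit 458) (B (L (nat_lit 457) ln13_13_1 ln13_13_1_ok) (L (nat_lit 459) ln14_13_1 ln14_13_1_ok)))))))) (B (M (nat_lit 431) (B (M (nat_lit 427) (B (M (nat_lit 399) (B (L (nat_lit 398) ln11_13_2 ln11_13_2_ok) (L (nat_lit 400) ln12_13_2 ln12_13_2_ok))) (M (nat_lit 459) (B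 (L (nat_lit 458) ln14_13_1 ln14_13_1_ok) (L (nat_lit 460) ln15_13_1 ln15_13_1_ok))))) (B (M (nat_lit 427) (B (M (nat_lit 395) (B (L (nat_lit 394) ln14_13_3 ln14_13_3_ok) (L (nat_lit 396) ln15_13_3 ln15_13_3_ok))) (M (nat_lit 459) (B (L (nat_lit 458) ln14_13_1 ln14_13_1_ok) (L (nat_lit 460) ln15_13_1 ln15_13_1_ok))))) (M (nat_lit 432) (B (M (nat_lit 396) (B (L (nat_lit 395) ln15_13_3 ln15_13_3_ok) (L (nat_lit 397) ln16_13_3 ln16_13_3_ok))) (M (nat_lit 464) (B (L (nat_lit 463) ln12_13_0 ln12_13_0_ok) (L (nat_lit 465) ln13_13_0 ln13_13_0_ok)))))))) (B (M (nat_lit 427) (B (M (nat_lit 431) (B (M (nat_lit 459) (B (L (nat_lit 458) ln14_13_1 ln14_13_1_ok) (L (nat_lit 460) ln15_13_1 ln15_13_1_ok))) (M (nat_lit 463) (B (L (nat_lit 462) ln11_13_0 ln11_13_0_ok) (L (nat_lit 464) ln12_13_0 ln12_13_0_ok))))) (B (M (nat_lit 426) (B (M (nat_lit 398) (B (L (nat_lit 397) ln10_13_2 ln10_13_2_ok) (L (nat_lit 399) ln11_13_2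 ln11_13_2_ok))) (M (nat_lit 458) (B (L (nat_lit 457) ln13_13_1 ln13_13_1_ok) (L (nat_lit 459) ln14_13_1 ln14_13_1_ok))))) (M (nat_lit 431) (B (M (nat_lit 399) (B (L (nat_lit 398) ln11_13_2 ln11_13_2_ok) (L (nat_lit 400) ln12_13_2 ln12_13_2_ok))) (M (nat_lit 463) (B (L (nat_lit 462) ln11_13_0 ln11_13_0_ok) (L (nat_lit 464) ln12_13_0 ln12_13_0_ok)))))))) (B (M (nat_lit 427) (B (M (nat_lit 426) (B (M (nat_lit 394) (B (L (nat_lit 393) ln13_13_3 ln13_13_3_ok) (L (nat_lit 395) ln14_13_3 ln14_13_3_ok))) (M (nat_lit 458) (B (L (nat_lit 457) ln13_13_1 ln13_13_1_ok) (L (nat_lit 459) ln14_13_1 ln14_13_1_ok))))) (M (nat_lit 431) (B (M (nat_lit 399) (B (L (nat_lit 398) ln11_13_2 ln11_13_2_ok) (L (nat_lit 400) ln12_13_2 ln12_13_2_ok))) (M (nat_lit 463) (B (L (nat_lit 462) ln11_13_0 ln11_13_0_ok) (L (nat_lit 464) ln12_13_0 ln12_13_0_ok))))))) (B (M (nat_lit 427) (B (M (nat_lit 431) (B (M (nat_lit 459) (B (L (nat_lit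 458) ln14_13_1 ln14_13_1_ok) (L (nat_lit 460) ln15_13_1 ln15_13_1_ok))) (M (nat_lit 463) (B (L (nat_lit 462) ln11_13_0 ln11_13_0_ok) (L (nat_lit 464) ln12_13_0 ln12_13_0_ok))))) (B (M (nat_lit 426) (B (M (nat_lit 394) (B (L (nat_lit 393) ln13_13_3 ln13_13_3_ok) (L (nat_lit 395) ln14_13_3 ln14_13_3_ok))) (M (nat_lit 458) (B (L (nat_lit 457) ln13_13_1 ln13_13_1_ok) (L (nat_lit 459) ln14_13_1 ln14_13_1_ok))))) (M (nat_lit 431) (B (M (nat_lit 395) (B (L (nat_lit 394) ln14_13_3 ln14_13_3_ok) (L (nat_lit 396) ln15_13_3 ln15_13_3_ok))) (M (nat_lit 463) (B (L (nat_lit 462) ln11_13_0 ln11_13_0_ok) (L (nat_lit 464) ln12_13_0 ln12_13_0_ok)))))))) (B c40_n524 (B (M (nat_lit 427) (B (M (nat_lit 398) (B (L (nat_lit 399) ln11_13_2 ln11_13_2_ok) (M (nat_lit 394) (B (L (nat_lit 395) ln14_13_3 ln14_13_3_ok) (M (nat_lit 426) (B (L (nat_lit 393) ln13_13_3 ln13_13_3_ok) (L (nat_lit 397) ln10_13_2 ln10_13_2_ok))))))) (B (M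 (nat_lit 426) (B (M (nat_lit 398) (B (L (nat_lit 397) ln10_13_2 ln10_13_2_ok) (L (nat_lit 399) ln11_13_2 ln11_13_2_ok))) (M (nat_lit 458) (B (L (nat_lit 457) ln13_13_1 ln13_13_1_ok) (L (nat_lit 459) ln14_13_1 ln14_13_1_ok))))) (B (M (nat_lit 426) (B (M (nat_lit 394) (B (L (nat_lit 393) ln13_13_3 ln13_13_3_ok) (L (nat_lit 395) ln14_13_3 ln14_13_3_ok))) (M (nat_lit 458) (B (L (nat_lit 457) ln13_13_1 ln13_13_1_ok) (L (nat_lit 459) ln14_13_1 ln14_13_1_ok))))) (M (nat_lit 398) (B (L (nat_lit 399) ln11_13_2 ln11_13_2_ok) (M (nat_lit 396) (B (M (nat_lit 395) (B (L (nat_lit 394) ln14_13_3 ln14_13_3_ok) (M (nat_lit 459) (B (L (nat_lit 458) ln14_13_1 ln14_13_1_ok) (M (nat_lit 491) (B (L (nat_lit 364) ln11_15_6 ln11_15_6_ok) (L (nat_lit 523) ln11_16_6 ln11_16_6_ok))))))) (B (M (nat_lit 397) (B (M (nat_lit 462) (B (L (nat_lit 463) ln11_13_0 ln11_13_0_ok) (M (nat_lit 494) (B (L (nat_lit 365) ln14_15_7 ln14_15_7_ok)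 (L (nat_lit 526) ln14_16_7 ln14_16_7_ok))))) (M (nat_lit 366) (B (M (nat_lit 395) (B (L (nat_lit 367) ln11_12_2 ln11_12_2_ok) (L (nat_lit 394) ln10_12_0 ln10_12_0_ok))) (M (nat_lit 461) (B (L (nat_lit 334) ln14_10_5 ln14_10_5_ok) (L (nat_lit 493) ln13_15_6 ln13_15_6_ok))))))) (M (nat_lit 459) (B (L (nat_lit 458) ln14_13_1 ln14_13_1_ok) (M (nat_lit 364) (B (L (nat_lit 332) ln12_10_5 ln12_10_5_ok) (M (nat_lit 491) (B (L (nat_lit 460) ln12_11_5 ln12_11_5_ok) (L (nat_lit 523) ln11_16_6 ln11_16_6_ok)))))))))))))))) (M (nat_lit 427) (B (M (nat_lit 431) (B (M (nat_lit 399) (B (L (nat_lit 398) ln11_13_2 ln11_13_2_ok) (L (nat_lit 400) ln12_13_2 ln12_13_2_ok))) (M (nat_lit 463) (B (L (nat_lit 462) ln11_13_0 ln11_13_0_ok) (L (nat_lit 464) ln12_13_0 ln12_13_0_ok))))) (B (M (nat_lit 431) (B (M (nat_lit 395) (B (L (nat_lit 394) ln14_13_3 ln14_13_3_ok) (L (nat_lit 396) ln15_13_3 ln15_13_3_ok))) (M (nat_lit 463) (B (L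 (nat_lit 462) ln11_13_0 ln11_13_0_ok) (L (nat_lit 464) ln12_13_0 ln12_13_0_ok))))) (M (nat_lit 398) (B (L (nat_lit 399) ln11_13_2 ln11_13_2_ok) (M (nat_lit 394) (B (L (nat_lit 395) ln14_13_3 ln14_13_3_ok) (M (nat_lit 426) (B (L (nat_lit 393) ln13_13_3 ln13_13_3_ok) (L (nat_lit 397) ln10_13_2 ln10_13_2_ok)))))))))))))))))) (nat_lit 2079502270590611144683810638107312777577327806531862431377859685460965980854219217279980804578104683573043408221052678871730618368) (nat_lit 2532663311910144709621145845747763989105714433112248803041352594257915928823023818882578758960081471586994354964371029025490152475615918421803263484612150425454799772906468409344) (nat_lit 2532663311910144709621145845747763989105714433112248803041352594257915928823023818882578758960081471586994354964371029025490152475615918421803263484612150425454799772906468409344) (by decide +kernel)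
noncomputable def c40_n625 : Cert := (M (nat_lit 492) (B (M (nat_lit 397) (B (L (nat_lit 524) ln12_16_6 ln12_16_6_ok) (M (nat_lit 365) (B (L (nat_lit 333) ln13_10_5 ln13_10_5_ok) (L (nat_lit 461) ln13_11_5 ln13_11_5_ok))))) (B (M (nat_lit 397) (B (L (nat_lit 524) ln12_16_6 ln12_16_6_ok) (M (nat_lit 365) (B (L (nat_lit 396) ln12_15_6 ln12_15_6_ok) (L (nat_lit 461) ln13_11_5 ln13_11_5_ok))))) (B (M (nat_lit 524) (B (L (nat_lit 397) ln12_16_6 ln12_16_6_ok) (M (nat_lit 556) (B (L (nat_lit 461) ln12_17_6 ln12_17_6_ok) (M (nat_lit 555) (B (L (nat_lit 523) ln12_13_5 ln12_13_5_ok) (L (nat_lit 587) ln12_14_5 ln12_14_5_ok))))))) (B (M (nat_lit 396) (B (M (nat_lit 364) (B (M (nat_lit 491) (B (L (nat_lit 459) ln12_11_5 ln12_11_5_ok) (L (nat_lit 523) ln12_12_5 ln12_12_5_ok))) (M (nat_lit 493) (B (L (nat_lit 461) ln12_11_4 ln12_11_4_ok) (L (nat_lit 525) ln12_12_4 ln12_12_4_ok))))) (B (M (nat_lit 524) (B (M (nat_lit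 523) (B (L (nat_lit 491) ln12_12_5 ln12_12_5_ok) (L (nat_lit 555) ln12_13_5 ln12_13_5_ok))) (M (nat_lit 525) (B (L (nat_lit 493) ln12_12_4 ln12_12_4_ok) (L (nat_lit 557) ln12_13_4 ln12_13_4_ok))))) (B (M (nat_lit 524) (B (M (nat_lit 525) (B (L (nat_lit 493) ln12_12_4 ln12_12_4_ok) (L (nat_lit 557) ln12_13_4 ln12_13_4_ok))) (M (nat_lit 556) (B (L (nat_lit 461) ln12_17_6 ln12_17_6_ok) (M (nat_lit 555) (B (L (nat_lit 523) ln12_13_5 ln12_13_5_ok) (L (nat_lit 587) ln12_14_5 ln12_14_5_ok))))))) (B (M (nat_lit 459) (B (M (nat_lit 491) (B (L (nat_lit 364) ln12_11_5 ln12_11_5_ok) (L (nat_lit 523) ln12_12_5 ln12_12_5_ok))) (M (nat_lit 458) (B (L (nat_lit 457) ln9_14_2 ln9_14_2_ok) (L (nat_lit 461) ln10_14_2 ln10_14_2_ok))))) (M (nat_lit 461) (B (M (nat_lit 364) (B (L (nat_lit 332) ln12_10_4 ln12_10_4_ok) (L (nat_lit 493) ln12_11_4 ln12_11_4_ok))) (B (M (nat_lit 493) (B (L (nat_lit 364) ln12_11_4 ln12_11_4_ok) (L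 (nat_lit 525) ln13_16_7 ln13_16_7_ok))) (B (M (nat_lit 525) (B (L (nat_lit 493) ln13_16_7 ln13_16_7_ok) (M (nat_lit 524) (B (L (nat_lit 557) ln12_13_4 ln12_13_4_ok) (L (nat_lit 556) ln12_17_6 ln12_17_6_ok))))) (M (nat_lit 459) (B (L (nat_lit 458) ln10_14_2 ln10_14_2_ok) (M (nat_lit 364) (B (L (nat_lit 332) ln12_10_4 ln12_10_4_ok) (L (nat_lit 491) ln12_11_5 ln12_11_5_ok)))))))))))))) (B (M (nat_lit 397) (B (L (nat_lit 524) ln12_16_6 ln12_16_6_ok) (M (nat_lit 365) (B (L (nat_lit 333) ln13_10_5 ln13_10_5_ok) (L (nat_lit 396) ln12_15_6 ln12_15_6_ok))))) (M (nat_lit 493) (B (M (nat_lit 525) (B (L (nat_lit 396) ln12_12_4 ln12_12_4_ok) (M (nat_lit 461) (B (L (nat_lit 398) ln13_16_6 ln13_16_6_ok) (L (nat_lit 557) ln13_17_7 ln13_17_7_ok))))) (B (M (nat_lit 461) (B (M (nat_lit 525) (B (L (nat_lit 398) ln13_16_6 ln13_16_6_ok) (L (nat_lit 557) ln13_17_7 ln13_17_7_ok))) (M (nat_lit 494) (B (M (nat_lit 397) (B (L (nat_lit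 365) ln13_11_5 ln13_11_5_ok) (L (nat_lit 526) ln13_12_4 ln13_12_4_ok))) (M (nat_lit 459) (B (L (nat_lit 458) ln10_14_2 ln10_14_2_ok) (L (nat_lit 495) ln15_15_3 ln15_15_3_ok))))))) (B (M (nat_lit 396) (B (L (nat_lit 525) ln12_12_4 ln12_12_4_ok) (M (nat_lit 364) (B (L (nat_lit 461) ln12_11_4 ln12_11_4_ok) (M (nat_lit 491) (B (L (nat_lit 459) ln12_11_5 ln12_11_5_ok) (L (nat_lit 523) ln12_12_5 ln12_12_5_ok))))))) (B (M (nat_lit 396) (B (L (nat_lit 525) ln12_12_4 ln12_12_4_ok) (M (nat_lit 364) (B (M (nat_lit 365) (B (L (nat_lit 333) ln12_14_6 ln12_14_6_ok) (L (nat_lit 397) ln12_15_6 ln12_15_6_ok))) (M (nat_lit 491) (B (L (nat_lit 459) ln12_11_5 ln12_11_5_ok) (L (nat_lit 523) ln12_12_5 ln12_12_5_ok))))))) (M (nat_lit 494) (B (M (nat_lit 459) (B (L (nat_lit 495) ln15_15_3 ln15_15_3_ok) (M (nat_lit 458) (B (L (nat_lit 457) ln9_14_2 ln9_14_2_ok) (L (nat_lit 491) ln14_15_3 ln14_15_3_ok))))) (B (M (nat_lit 459)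 (B (L (nat_lit 495) ln15_15_3 ln15_15_3_ok) (M (nat_lit 458) (B (L (nat_lit 461) ln10_14_2 ln10_14_2_ok) (L (nat_lit 491) ln14_15_3 ln14_15_3_ok))))) (M (nat_lit 397) (B (M (nat_lit 365) (B (L (nat_lit 333) ln13_10_5 ln13_10_5_ok) (L (nat_lit 396) ln12_15_6 ln12_15_6_ok))) (B (M (nat_lit 365) (B (L (nat_lit 396) ln12_15_6 ln12_15_6_ok) (L (nat_lit 461) ln13_11_5 ln13_11_5_ok))) (M (nat_lit 526) (B (L (nat_lit 462) ln14_16_7 ln14_16_7_ok) (L (nat_lit 461) ln13_12_4 ln13_12_4_ok))))))))))))))))))))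
theorem c40_s627 : Sem (nat_lit 4852171964711426004262224822250396481013764881907679006548339266075587288659844840319955210682244261670434619182456250700704776192) (nat_lit 506532663042472366597509193657107664834672854709741043225508148306804824524360047280444823051473092390331783061805989857758811417843270762956090290492385261436886275905084719104) (nat_lit 506532663042472366597509193657107664834672854709741043225508148306804824524360047280444823051473092390331783061805989857758811417843270762956090290492385261436886275905084719104) :=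
  sem_of_chk (M (nat_lit 460) (B (M (nat_lit 459) (B (L (nat_lit 431) ln15_13_1 ln15_13_1_ok) (M (nat_lit 458) (B (L (nat_lit 457) ln9_14_2 ln9_14_2_ok) (L (nat_lit 461) ln10_14_2 ln10_14_2_ok))))) (B c40_n625 (B (M (nat_lit 431) (B (L (nat_lit 459) ln15_13_1 ln15_13_1_ok) (M (nat_lit 432) (B (L (nat_lit 461) ln16_13_1 ln16_13_1_ok) (M (nat_lit 396) (B (L (nat_lit 395) ln15_13_3 ln15_13_3_ok) (L (nat_lit 397) ln16_13_3 ln16_13_3_ok))))))) (B (M (nat_lit 396) (B (M (nat_lit 431) (B (L (nat_lit 395) ln15_13_3 ln15_13_3_ok) (M (nat_lit 432) (B (L (nat_lit 397) ln16_13_3 ln16_13_3_ok) (L (nat_lit 461) ln16_13_1 ln16_13_1_ok))))) (B (M (nat_lit 492) (B (M (nat_lit 397) (B (L (nat_lit 365) ln12_15_6 ln12_15_6_ok) (L (nat_lit 524) ln12_16_6 ln12_16_6_ok))) (B (M (nat_lit 525) (B (L (nat_lit 493) ln12_12_4 ln12_12_4_ok) (M (nat_lit 524) (B (L (nat_lit 397) ln12_16_6 ln12_16_6_ok) (L (nat_lit 557) ln12_13_4 ln12_13_4_ok)))))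 (B (M (nat_lit 524) (B (M (nat_lit 523) (B (L (nat_lit 491) ln12_12_5 ln12_12_5_ok) (L (nat_lit 555) ln12_13_5 ln12_13_5_ok))) (M (nat_lit 525) (B (L (nat_lit 493) ln12_12_4 ln12_12_4_ok) (L (nat_lit 557) ln12_13_4 ln12_13_4_ok))))) (M (nat_lit 364) (B (M (nat_lit 365) (B (L (nat_lit 333) ln12_14_6 ln12_14_6_ok) (L (nat_lit 397) ln12_15_6 ln12_15_6_ok))) (M (nat_lit 493) (B (L (nat_lit 461) ln12_11_4 ln12_11_4_ok) (L (nat_lit 525) ln12_12_4 ln12_12_4_ok))))))))) (B (M (nat_lit 461) (B (M (nat_lit 493) (B (L (nat_lit 364) ln12_11_4 ln12_11_4_ok) (L (nat_lit 525) ln13_16_7 ln13_16_7_ok))) (M (nat_lit 431) (B (L (nat_lit 395) ln15_13_3 ln15_13_3_ok) (L (nat_lit 432) ln16_13_1 ln16_13_1_ok))))) (M (nat_lit 397) (B (M (nat_lit 365) (B (L (nat_lit 333) ln13_10_5 ln13_10_5_ok) (L (nat_lit 492) ln12_15_6 ln12_15_6_ok))) (M (nat_lit 431) (B (L (nat_lit 395) ln15_13_3 ln15_13_3_ok) (L (nat_lit 432) ln16_13_3 ln16_13_3_ok)))))))))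 (M (nat_lit 431) (B (L (nat_lit 459) ln15_13_1 ln15_13_1_ok) (M (nat_lit 432) (B (M (nat_lit 396) (B (L (nat_lit 395) ln15_13_3 ln15_13_3_ok) (L (nat_lit 397) ln16_13_3 ln16_13_3_ok))) (M (nat_lit 464) (B (L (nat_lit 463) ln12_13_0 ln12_13_0_ok) (L (nat_lit 465) ln13_13_0 ln13_13_0_ok)))))))))))) (nat_lit 4852171964711426004262224822250396481013764881907679006548339266075587288659844840319955210682244261670434619182456250700704776192) (nat_lit 506532663042472366597509193657107664834672854709741043225508148306804824524360047280444823051473092390331783061805989857758811417843270762956090290492385261436886275905084719104) (nat_lit 506532663042472366597509193657107664834672854709741043225508148306804824524360047280444823051473092390331783061805989857758811417843270762956090290492385261436886275905084719104) (by decide +kernel)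
theorem c40_s628 : Sem (nat_lit 2079502270590611144683810638107312777577327806531862431377859685460965980854219217279980804578104683573043408221052678871730618368) (nat_lit 506532663042472366597509193657107664834672854713033588491210512251653136348511470533225238946154548487000010750349858400327975972386518340172920451502967524493138557818724417536) (nat_lit 506532663042472366597509193657107664834672854713033588491210512251653136348511470533225238946154548487000010750349858400327975972386518340172920451502967524493138557818724417536) :=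
  sem_of_chk (M (nat_lit 430) (B (M (nat_lit 427) (B (M (nat_lit 398) (B (L (nat_lit 399) ln11_13_2 ln11_13_2_ok) (M (nat_lit 394) (B (L (nat_lit 395) ln14_13_3 ln14_13_3_ok) (M (nat_lit 426) (B (L (nat_lit 393) ln13_13_3 ln13_13_3_ok) (L (nat_lit 397) ln10_13_2 ln10_13_2_ok))))))) (B (M (nat_lit 431) (B (M (nat_lit 395) (B (L (nat_lit 394) ln14_13_3 ln14_13_3_ok) (L (nat_lit 396) ln15_13_3 ln15_13_3_ok))) (M (nat_lit 459) (B (L (nat_lit 458) ln14_13_1 ln14_13_1_ok) (L (nat_lit 460) ln15_13_1 ln15_13_1_ok))))) (M (nat_lit 426) (B (M (nat_lit 398) (B (L (nat_lit 397) ln10_13_2 ln10_13_2_ok) (L (nat_lit 399) ln11_13_2 ln11_13_2_ok))) (M (nat_lit 458) (B (L (nat_lit 457) ln13_13_1 ln13_13_1_ok) (L (nat_lit 459) ln14_13_1 ln14_13_1_ok)))))))) (B (M (nat_lit 431) (B (M (nat_lit 427) (B (M (nat_lit 399) (B (L (nat_lit 398) ln11_13_2 ln11_13_2_ok) (L (nat_lit 400) ln12_13_2 ln12_13_2_ok))) (M (nat_lit 459) (B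 (L (nat_lit 458) ln14_13_1 ln14_13_1_ok) (L (nat_lit 460) ln15_13_1 ln15_13_1_ok))))) (B (M (nat_lit 427) (B (M (nat_lit 395) (B (L (nat_lit 394) ln14_13_3 ln14_13_3_ok) (L (nat_lit 396) ln15_13_3 ln15_13_3_ok))) (M (nat_lit 459) (B (L (nat_lit 458) ln14_13_1 ln14_13_1_ok) (L (nat_lit 460) ln15_13_1 ln15_13_1_ok))))) (M (nat_lit 432) (B (M (nat_lit 396) (B (L (nat_lit 395) ln15_13_3 ln15_13_3_ok) (L (nat_lit 397) ln16_13_3 ln16_13_3_ok))) (M (nat_lit 464) (B (L (nat_lit 463) ln12_13_0 ln12_13_0_ok) (L (nat_lit 465) ln13_13_0 ln13_13_0_ok)))))))) (B (M (nat_lit 427) (B (M (nat_lit 431) (B (M (nat_lit 459) (B (L (nat_lit 458) ln14_13_1 ln14_13_1_ok) (L (nat_lit 460) ln15_13_1 ln15_13_1_ok))) (M (nat_lit 463) (B (L (nat_lit 462) ln11_13_0 ln11_13_0_ok) (L (nat_lit 464) ln12_13_0 ln12_13_0_ok))))) (B (M (nat_lit 426) (B (M (nat_lit 398) (B (L (nat_lit 397) ln10_13_2 ln10_13_2_ok) (L (nat_lit 399) ln11_13_2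 ln11_13_2_ok))) (M (nat_lit 458) (B (L (nat_lit 457) ln13_13_1 ln13_13_1_ok) (L (nat_lit 459) ln14_13_1 ln14_13_1_ok))))) (M (nat_lit 431) (B (M (nat_lit 399) (B (L (nat_lit 398) ln11_13_2 ln11_13_2_ok) (L (nat_lit 400) ln12_13_2 ln12_13_2_ok))) (M (nat_lit 463) (B (L (nat_lit 462) ln11_13_0 ln11_13_0_ok) (L (nat_lit 464) ln12_13_0 ln12_13_0_ok)))))))) (B (M (nat_lit 427) (B (M (nat_lit 426) (B (M (nat_lit 394) (B (L (nat_lit 393) ln13_13_3 ln13_13_3_ok) (L (nat_lit 395) ln14_13_3 ln14_13_3_ok))) (M (nat_lit 458) (B (L (nat_lit 457) ln13_13_1 ln13_13_1_ok) (L (nat_lit 459) ln14_13_1 ln14_13_1_ok))))) (M (nat_lit 431) (B (M (nat_lit 399) (B (L (nat_lit 398) ln11_13_2 ln11_13_2_ok) (L (nat_lit 400) ln12_13_2 ln12_13_2_ok))) (M (nat_lit 463) (B (L (nat_lit 462) ln11_13_0 ln11_13_0_ok) (L (nat_lit 464) ln12_13_0 ln12_13_0_ok))))))) (B (M (nat_lit 427) (B (M (nat_lit 431) (B (M (nat_lit 459) (B (L (nat_lit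 458) ln14_13_1 ln14_13_1_ok) (L (nat_lit 460) ln15_13_1 ln15_13_1_ok))) (M (nat_lit 463) (B (L (nat_lit 462) ln11_13_0 ln11_13_0_ok) (L (nat_lit 464) ln12_13_0 ln12_13_0_ok))))) (B (M (nat_lit 426) (B (M (nat_lit 394) (B (L (nat_lit 393) ln13_13_3 ln13_13_3_ok) (L (nat_lit 395) ln14_13_3 ln14_13_3_ok))) (M (nat_lit 458) (B (L (nat_lit 457) ln13_13_1 ln13_13_1_ok) (L (nat_lit 459) ln14_13_1 ln14_13_1_ok))))) (M (nat_lit 431) (B (M (nat_lit 395) (B (L (nat_lit 394) ln14_13_3 ln14_13_3_ok) (L (nat_lit 396) ln15_13_3 ln15_13_3_ok))) (M (nat_lit 463) (B (L (nat_lit 462) ln11_13_0 ln11_13_0_ok) (L (nat_lit 464) ln12_13_0 ln12_13_0_ok)))))))) (B (K (nat_lit 4852171964711426004262224822250396481013764881907679006548339266075587288659844840319955210682244261670434619182456250700704776192) (nat_lit 506532663042472366597509193657107664834672854709741043225508148306804824524360047280444823051473092390331783061805989857758811417843270762956090290492385261436886275905084719104)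 (nat_lit 506532663042472366597509193657107664834672854709741043225508148306804824524360047280444823051473092390331783061805989857758811417843270762956090290492385261436886275905084719104) c40_s627) (B (M (nat_lit 427) (B (M (nat_lit 398) (B (L (nat_lit 399) ln11_13_2 ln11_13_2_ok) (M (nat_lit 394) (B (L (nat_lit 395) ln14_13_3 ln14_13_3_ok) (M (nat_lit 426) (B (L (nat_lit 393) ln13_13_3 ln13_13_3_ok) (L (nat_lit 397) ln10_13_2 ln10_13_2_ok))))))) (B (M (nat_lit 426) (B (M (nat_lit 398) (B (L (nat_lit 397) ln10_13_2 ln10_13_2_ok) (L (nat_lit 399) ln11_13_2 ln11_13_2_ok))) (M (nat_lit 458) (B (L (nat_lit 457) ln13_13_1 ln13_13_1_ok) (L (nat_lit 459) ln14_13_1 ln14_13_1_ok))))) (B (M (nat_lit 426) (B (M (nat_lit 394) (B (L (nat_lit 393) ln13_13_3 ln13_13_3_ok) (L (nat_lit 395) ln14_13_3 ln14_13_3_ok))) (M (nat_lit 458) (B (L (nat_lit 457) ln13_13_1 ln13_13_1_ok) (L (nat_lit 459) ln14_13_1 ln14_13_1_ok)))))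 (M (nat_lit 398) (B (L (nat_lit 399) ln11_13_2 ln11_13_2_ok) (M (nat_lit 396) (B (M (nat_lit 395) (B (L (nat_lit 394) ln14_13_3 ln14_13_3_ok) (M (nat_lit 459) (B (L (nat_lit 458) ln14_13_1 ln14_13_1_ok) (M (nat_lit 491) (B (L (nat_lit 364) ln11_15_6 ln11_15_6_ok) (L (nat_lit 523) ln11_16_6 ln11_16_6_ok))))))) (B (M (nat_lit 397) (B (M (nat_lit 462) (B (L (nat_lit 463) ln11_13_0 ln11_13_0_ok) (M (nat_lit 494) (B (L (nat_lit 365) ln14_15_7 ln14_15_7_ok) (L (nat_lit 526) ln14_16_7 ln14_16_7_ok))))) (M (nat_lit 366) (B (M (nat_lit 395) (B (L (nat_lit 367) ln11_12_2 ln11_12_2_ok) (L (nat_lit 394) ln10_12_0 ln10_12_0_ok))) (M (nat_lit 461) (B (L (nat_lit 334) ln14_10_5 ln14_10_5_ok) (L (nat_lit 493) ln13_15_6 ln13_15_6_ok))))))) (M (nat_lit 459) (B (L (nat_lit 458) ln14_13_1 ln14_13_1_ok) (M (nat_lit 364) (B (L (nat_lit 332) ln12_10_5 ln12_10_5_ok) (M (nat_lit 491) (B (L (nat_lit 460) ln12_11_5 ln12_11_5_ok)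 (L (nat_lit 523) ln11_16_6 ln11_16_6_ok)))))))))))))))) (M (nat_lit 427) (B (M (nat_lit 431) (B (M (nat_lit 399) (B (L (nat_lit 398) ln11_13_2 ln11_13_2_ok) (L (nat_lit 400) ln12_13_2 ln12_13_2_ok))) (M (nat_lit 463) (B (L (nat_lit 462) ln11_13_0 ln11_13_0_ok) (L (nat_lit 464) ln12_13_0 ln12_13_0_ok))))) (B (M (nat_lit 431) (B (M (nat_lit 395) (B (L (nat_lit 394) ln14_13_3 ln14_13_3_ok) (L (nat_lit 396) ln15_13_3 ln15_13_3_ok))) (M (nat_lit 463) (B (L (nat_lit 462) ln11_13_0 ln11_13_0_ok) (L (nat_lit 464) ln12_13_0 ln12_13_0_ok))))) (M (nat_lit 398) (B (L (nat_lit 399) ln11_13_2 ln11_13_2_ok) (M (nat_lit 394) (B (L (nat_lit 395) ln14_13_3 ln14_13_3_ok) (M (nat_lit 426) (B (L (nat_lit 393) ln13_13_3 ln13_13_3_ok) (L (nat_lit 397) ln10_13_2 ln10_13_2_ok)))))))))))))))))) (nat_lit 2079502270590611144683810638107312777577327806531862431377859685460965980854219217279980804578104683573043408221052678871730618368)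 (nat_lit 506532663042472366597509193657107664834672854713033588491210512251653136348511470533225238946154548487000010750349858400327975972386518340172920451502967524493138557818724417536) (nat_lit 506532663042472366597509193657107664834672854713033588491210512251653136348511470533225238946154548487000010750349858400327975972386518340172920451502967524493138557818724417536) (by decide +kernel)
theorem c40_s686 : Sem (nat_lit 4852171964711426004262224822250396481013764881907679006548339266075587288659844840319955210682244261670434619182456250700704776192) (nat_lit 2532663311910144709621145845850057445602468866546868435805426426291576188538260458642384507422704227793017074574463058541531997695807238270614016328845529399436200311688901165056) (nat_lit 2532663311910144709621145845850057445602468866546868435805426426291576188538260458642384507422704227793017074574463058541531997695807238270614016328845529399436200311688901165056)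 :=
  sem_of_chk (M (nat_lit 460) (B (M (nat_lit 459) (B (L (nat_lit 431) ln15_13_1 ln15_13_1_ok) (M (nat_lit 458) (B (L (nat_lit 457) ln9_14_2 ln9_14_2_ok) (L (nat_lit 461) ln10_14_2 ln10_14_2_ok))))) (B (M (nat_lit 492) (B (M (nat_lit 397) (B (L (nat_lit 524) ln12_16_6 ln12_16_6_ok) (M (nat_lit 365) (B (L (nat_lit 333) ln13_10_5 ln13_10_5_ok) (L (nat_lit 461) ln13_11_5 ln13_11_5_ok))))) (B (M (nat_lit 397) (B (L (nat_lit 524) ln12_16_6 ln12_16_6_ok) (M (nat_lit 365) (B (L (nat_lit 396) ln12_15_6 ln12_15_6_ok) (L (nat_lit 461) ln13_11_5 ln13_11_5_ok))))) (B (M (nat_lit 524) (B (L (nat_lit 397) ln12_16_6 ln12_16_6_ok) (M (nat_lit 556) (B (L (nat_lit 461) ln12_17_6 ln12_17_6_ok) (M (nat_lit 555) (B (L (nat_lit 523) ln12_13_5 ln12_13_5_ok) (L (nat_lit 587) ln12_14_5 ln12_14_5_ok))))))) (B (M (nat_lit 524) (B (M (nat_lit 556) (B (L (nat_lit 461) ln12_17_6 ln12_17_6_ok) (M (nat_lit 555) (B (L (nat_lit 523)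 ln12_13_5 ln12_13_5_ok) (L (nat_lit 587) ln12_14_5 ln12_14_5_ok))))) (B (M (nat_lit 396) (B (M (nat_lit 523) (B (L (nat_lit 491) ln12_12_5 ln12_12_5_ok) (L (nat_lit 555) ln12_13_5 ln12_13_5_ok))) (M (nat_lit 525) (B (L (nat_lit 493) ln12_12_4 ln12_12_4_ok) (L (nat_lit 557) ln12_13_4 ln12_13_4_ok))))) (M (nat_lit 556) (B (L (nat_lit 461) ln12_17_6 ln12_17_6_ok) (M (nat_lit 557) (B (L (nat_lit 525) ln12_13_4 ln12_13_4_ok) (L (nat_lit 589) ln12_14_4 ln12_14_4_ok)))))))) (B (M (nat_lit 397) (B (L (nat_lit 524) ln12_16_6 ln12_16_6_ok) (M (nat_lit 365) (B (L (nat_lit 333) ln13_10_5 ln13_10_5_ok) (L (nat_lit 396) ln12_15_6 ln12_15_6_ok))))) (M (nat_lit 493) (B (M (nat_lit 525) (B (L (nat_lit 396) ln12_12_4 ln12_12_4_ok) (M (nat_lit 461) (B (L (nat_lit 398) ln13_16_6 ln13_16_6_ok) (L (nat_lit 557) ln13_17_7 ln13_17_7_ok))))) (B (M (nat_lit 461) (B (M (nat_lit 525) (B (L (nat_lit 398) ln13_16_6 ln13_16_6_ok) (L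 (nat_lit 557) ln13_17_7 ln13_17_7_ok))) (M (nat_lit 494) (B (M (nat_lit 397) (B (L (nat_lit 365) ln13_11_5 ln13_11_5_ok) (L (nat_lit 526) ln13_12_4 ln13_12_4_ok))) (M (nat_lit 459) (B (L (nat_lit 458) ln10_14_2 ln10_14_2_ok) (L (nat_lit 495) ln15_15_3 ln15_15_3_ok))))))) (B (M (nat_lit 396) (B (L (nat_lit 525) ln12_12_4 ln12_12_4_ok) (M (nat_lit 397) (B (L (nat_lit 365) ln12_15_6 ln12_15_6_ok) (M (nat_lit 395) (B (L (nat_lit 363) ln12_15_7 ln12_15_7_ok) (L (nat_lit 394) ln10_12_0 ln10_12_0_ok))))))) (M (nat_lit 494) (B (M (nat_lit 459) (B (L (nat_lit 495) ln15_15_3 ln15_15_3_ok) (M (nat_lit 458) (B (L (nat_lit 457) ln9_14_2 ln9_14_2_ok) (L (nat_lit 491) ln14_15_3 ln14_15_3_ok))))) (B (M (nat_lit 459) (B (L (nat_lit 495) ln15_15_3 ln15_15_3_ok) (M (nat_lit 458) (B (L (nat_lit 461) ln10_14_2 ln10_14_2_ok) (L (nat_lit 491) ln14_15_3 ln14_15_3_ok))))) (M (nat_lit 397) (B (M (nat_lit 365) (B (L (nat_lit 333)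 ln13_10_5 ln13_10_5_ok) (L (nat_lit 396) ln12_15_6 ln12_15_6_ok))) (B (M (nat_lit 365) (B (L (nat_lit 396) ln12_15_6 ln12_15_6_ok) (L (nat_lit 461) ln13_11_5 ln13_11_5_ok))) (M (nat_lit 526) (B (L (nat_lit 462) ln14_16_7 ln14_16_7_ok) (L (nat_lit 461) ln13_12_4 ln13_12_4_ok))))))))))))))))))) (B (M (nat_lit 431) (B (L (nat_lit 459) ln15_13_1 ln15_13_1_ok) (M (nat_lit 432) (B (L (nat_lit 461) ln16_13_1 ln16_13_1_ok) (M (nat_lit 396) (B (L (nat_lit 395) ln15_13_3 ln15_13_3_ok) (L (nat_lit 397) ln16_13_3 ln16_13_3_ok))))))) (B (M (nat_lit 431) (B (M (nat_lit 432) (B (L (nat_lit 461) ln16_13_1 ln16_13_1_ok) (M (nat_lit 396) (B (L (nat_lit 395) ln15_13_3 ln15_13_3_ok) (L (nat_lit 397) ln16_13_3 ln16_13_3_ok))))) (B (M (nat_lit 432) (B (L (nat_lit 461) ln16_13_1 ln16_13_1_ok) (M (nat_lit 464) (B (L (nat_lit 463) ln12_13_0 ln12_13_0_ok) (L (nat_lit 465) ln13_13_0 ln13_13_0_ok))))) (B (M (nat_lit 462) (B (M (nat_lit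 463) (B (L (nat_lit 464) ln12_13_0 ln12_13_0_ok) (M (nat_lit 399) (B (L (nat_lit 400) ln12_13_2 ln12_13_2_ok) (M (nat_lit 367) (B (L (nat_lit 335) ln15_10_5 ln15_10_5_ok) (L (nat_lit 494) ln15_11_5 ln15_11_5_ok))))))) (B (M (nat_lit 463) (B (L (nat_lit 464) ln12_13_0 ln12_13_0_ok) (M (nat_lit 399) (B (L (nat_lit 400) ln12_13_2 ln12_13_2_ok) (M (nat_lit 494) (B (L (nat_lit 367) ln15_11_5 ln15_11_5_ok) (L (nat_lit 526) ln14_16_6 ln14_16_6_ok))))))) (B (M (nat_lit 492) (B (M (nat_lit 397) (B (L (nat_lit 524) ln12_16_6 ln12_16_6_ok) (M (nat_lit 365) (B (L (nat_lit 333) ln13_10_5 ln13_10_5_ok) (L (nat_lit 461) ln13_11_5 ln13_11_5_ok))))) (B (M (nat_lit 397) (B (L (nat_lit 524) ln12_16_6 ln12_16_6_ok) (M (nat_lit 365) (B (L (nat_lit 396) ln12_15_6 ln12_15_6_ok) (L (nat_lit 461) ln13_11_5 ln13_11_5_ok))))) (B (M (nat_lit 491) (B (M (nat_lit 396) (B (L (nat_lit 395) ln15_13_3 ln15_13_3_ok) (L (nat_lit 523) ln12_12_5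 ln12_12_5_ok))) (M (nat_lit 463) (B (L (nat_lit 464) ln12_13_0 ln12_13_0_ok) (L (nat_lit 461) ln15_14_1 ln15_14_1_ok))))) (M (nat_lit 397) (B (L (nat_lit 524) ln12_16_6 ln12_16_6_ok) (M (nat_lit 396) (B (L (nat_lit 365) ln12_15_6 ln12_15_6_ok) (L (nat_lit 395) ln15_13_3 ln15_13_3_ok))))))))) (M (nat_lit 399) (B (L (nat_lit 400) ln12_13_2 ln12_13_2_ok) (M (nat_lit 494) (B (L (nat_lit 526) ln14_16_6 ln14_16_6_ok) (M (nat_lit 367) (B (L (nat_lit 335) ln15_10_5 ln15_10_5_ok) (L (nat_lit 398) ln14_15_6 ln14_15_6_ok))))))))))) (M (nat_lit 432) (B (M (nat_lit 396) (B (L (nat_lit 395) ln15_13_3 ln15_13_3_ok) (L (nat_lit 397) ln16_13_3 ln16_13_3_ok))) (M (nat_lit 464) (B (L (nat_lit 463) ln12_13_0 ln12_13_0_ok) (L (nat_lit 465) ln13_13_0 ln13_13_0_ok))))))))) (M (nat_lit 431) (B (L (nat_lit 459) ln15_13_1 ln15_13_1_ok) (M (nat_lit 432) (B (M (nat_lit 396) (B (L (nat_lit 395) ln15_13_3 ln15_13_3_ok) (L (nat_lit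 397) ln16_13_3 ln16_13_3_ok))) (M (nat_lit 464) (B (L (nat_lit 463) ln12_13_0 ln12_13_0_ok) (L (nat_lit 465) ln13_13_0 ln13_13_0_ok)))))))))))) (nat_lit 4852171964711426004262224822250396481013764881907679006548339266075587288659844840319955210682244261670434619182456250700704776192) (nat_lit 2532663311910144709621145845850057445602468866546868435805426426291576188538260458642384507422704227793017074574463058541531997695807238270614016328845529399436200311688901165056) (nat_lit 2532663311910144709621145845850057445602468866546868435805426426291576188538260458642384507422704227793017074574463058541531997695807238270614016328845529399436200311688901165056) (by decide +kernel)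
noncomputable def c40_n728 : Cert := (M (nat_lit 398) (B (M (nat_lit 399) (B (L (nat_lit 427) ln11_13_2 ln11_13_2_ok) (M (nat_lit 400) (B (L (nat_lit 397) ln16_12_1 ln16_12_1_ok) (L (nat_lit 401) ln17_12_1 ln17_12_1_ok))))) (B (M (nat_lit 427) (B (L (nat_lit 399) ln11_13_2 ln11_13_2_ok) (M (nat_lit 426) (B (M (nat_lit 394) (B (L (nat_lit 393) ln13_13_3 ln13_13_3_ok) (L (nat_lit 395) ln14_13_3 ln14_13_3_ok))) (M (nat_lit 458) (B (L (nat_lit 457) ln13_13_1 ln13_13_1_ok) (L (nat_lit 459) ln14_13_1 ln14_13_1_ok))))))) (B (M (nat_lit 462) (B (M (nat_lit 427) (B (L (nat_lit 463) ln11_13_0 ln11_13_0_ok) (M (nat_lit 426) (B (L (nat_lit 397) ln10_13_2 ln10_13_2_ok) (L (nat_lit 461) ln10_13_0 ln10_13_0_ok))))) (B (M (nat_lit 461) (B (M (nat_lit 366) (B (L (nat_lit 334) ln14_10_5 ln14_10_5_ok) (L (nat_lit 493) ln14_11_5 ln14_11_5_ok))) (M (nat_lit 427) (B (L (nat_lit 426) ln10_13_0 ln10_13_0_ok) (L (nat_lit 463)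 ln11_13_0 ln11_13_0_ok))))) (B (M (nat_lit 366) (B (M (nat_lit 461) (B (L (nat_lit 334) ln14_10_5 ln14_10_5_ok) (L (nat_lit 493) ln14_11_5 ln14_11_5_ok))) (M (nat_lit 463) (B (L (nat_lit 495) ln14_11_4 ln14_11_4_ok) (L (nat_lit 427) ln11_13_0 ln11_13_0_ok))))) (B (M (nat_lit 366) (B (M (nat_lit 461) (B (L (nat_lit 334) ln14_10_5 ln14_10_5_ok) (L (nat_lit 493) ln14_11_5 ln14_11_5_ok))) (M (nat_lit 494) (B (M (nat_lit 365) (B (L (nat_lit 333) ln14_14_7 ln14_14_7_ok) (L (nat_lit 397) ln14_15_7 ln14_15_7_ok))) (M (nat_lit 495) (B (L (nat_lit 463) ln14_11_4 ln14_11_4_ok) (L (nat_lit 527) ln14_12_4 ln14_12_4_ok))))))) (B (M (nat_lit 397) (B (M (nat_lit 365) (B (L (nat_lit 333) ln13_10_4 ln13_10_4_ok) (L (nat_lit 494) ln14_15_7 ln14_15_7_ok))) (M (nat_lit 427) (B (L (nat_lit 426) ln10_13_2 ln10_13_2_ok) (L (nat_lit 463) ln11_13_0 ln11_13_0_ok))))) (M (nat_lit 461) (B (M (nat_lit 493) (B (L (nat_lit 366) ln14_11_5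 ln14_11_5_ok) (L (nat_lit 525) ln13_16_6 ln13_16_6_ok))) (M (nat_lit 459) (B (M (nat_lit 427) (B (L (nat_lit 426) ln10_13_0 ln10_13_0_ok) (L (nat_lit 458) ln14_13_1 ln14_13_1_ok))) (B (M (nat_lit 458) (B (L (nat_lit 427) ln14_13_1 ln14_13_1_ok) (L (nat_lit 460) ln10_14_2 ln10_14_2_ok))) (M (nat_lit 494) (B (M (nat_lit 397) (B (L (nat_lit 365) ln14_15_7 ln14_15_7_ok) (L (nat_lit 526) ln14_16_7 ln14_16_7_ok))) (M (nat_lit 495) (B (L (nat_lit 527) ln14_12_4 ln14_12_4_ok) (L (nat_lit 460) ln11_14_0 ln11_14_0_ok)))))))))))))))) (M (nat_lit 366) (B (M (nat_lit 461) (B (L (nat_lit 334) ln14_10_5 ln14_10_5_ok) (M (nat_lit 493) (B (L (nat_lit 397) ln13_15_6 ln13_15_6_ok) (L (nat_lit 462) ln14_11_5 ln14_11_5_ok))))) (B (M (nat_lit 462) (B (M (nat_lit 461) (B (L (nat_lit 493) ln14_11_5 ln14_11_5_ok) (M (nat_lit 463) (B (L (nat_lit 495) ln14_11_4 ln14_11_4_ok) (L (nat_lit 464) ln16_14_3 ln16_14_3_ok))))) (B (M (nat_lit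 494) (B (M (nat_lit 365) (B (L (nat_lit 333) ln14_14_7 ln14_14_7_ok) (L (nat_lit 397) ln14_15_7 ln14_15_7_ok))) (M (nat_lit 495) (B (L (nat_lit 463) ln14_11_4 ln14_11_4_ok) (L (nat_lit 527) ln14_12_4 ln14_12_4_ok))))) (M (nat_lit 494) (B (M (nat_lit 365) (B (L (nat_lit 333) ln14_14_7 ln14_14_7_ok) (L (nat_lit 397) ln14_15_7 ln14_15_7_ok))) (M (nat_lit 493) (B (L (nat_lit 461) ln14_11_5 ln14_11_5_ok) (L (nat_lit 525) ln14_12_5 ln14_12_5_ok)))))))) (B (M (nat_lit 461) (B (L (nat_lit 334) ln14_10_5 ln14_10_5_ok) (M (nat_lit 493) (B (L (nat_lit 462) ln14_11_5 ln14_11_5_ok) (L (nat_lit 525) ln13_16_6 ln13_16_6_ok))))) (B (M (nat_lit 462) (B (M (nat_lit 365) (B (L (nat_lit 333) ln14_14_7 ln14_14_7_ok) (M (nat_lit 494) (B (L (nat_lit 397) ln14_15_7 ln14_15_7_ok) (M (nat_lit 367) (B (L (nat_lit 335) ln14_14_6 ln14_14_6_ok) (L (nat_lit 399) ln14_15_6 ln14_15_6_ok))))))) (B (M (nat_lit 494) (B (M (nat_lit 367)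 (B (L (nat_lit 335) ln14_14_6 ln14_14_6_ok) (L (nat_lit 399) ln14_15_6 ln14_15_6_ok))) (M (nat_lit 495) (B (L (nat_lit 463) ln14_11_4 ln14_11_4_ok) (L (nat_lit 527) ln14_12_4 ln14_12_4_ok))))) (B (M (nat_lit 494) (B (M (nat_lit 365) (B (L (nat_lit 333) ln14_14_7 ln14_14_7_ok) (L (nat_lit 397) ln14_15_7 ln14_15_7_ok))) (M (nat_lit 495) (B (L (nat_lit 463) ln14_11_4 ln14_11_4_ok) (L (nat_lit 527) ln14_12_4 ln14_12_4_ok))))) (M (nat_lit 334) (B (M (nat_lit 333) (B (L (nat_lit 301) ln14_13_7 ln14_13_7_ok) (L (nat_lit 365) ln14_14_7 ln14_14_7_ok))) (M (nat_lit 335) (B (L (nat_lit 303) ln14_13_6 ln14_13_6_ok) (L (nat_lit 367) ln14_14_6 ln14_14_6_ok))))))))) (M (nat_lit 461) (B (L (nat_lit 334) ln14_10_5 ln14_10_5_ok) (M (nat_lit 493) (B (L (nat_lit 397) ln13_15_6 ln13_15_6_ok) (L (nat_lit 525) ln13_16_6 ln13_16_6_ok))))))))))))))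
theorem c40_s729 : Sem (nat_lit 2079502270590611144683810638107312777577327806531862431377859685460965980854219217279980804578104683573043408221052678871730618368) (nat_lit 2532663311910144710060492896098416467361310517691370146977623426729993779461177078478829162774838432190289371494991198066632483810900204823147079713563233969803338976231950385152) (nat_lit 2532663311910144710060492896098416467361310517691370146977623426729993779461177078478829162774838432190289371494991198066632483810900204823147079713563233969803338976231950385152) :=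
  sem_of_chk (M (nat_lit 430) (B (M (nat_lit 427) (B (M (nat_lit 398) (B (L (nat_lit 399) ln11_13_2 ln11_13_2_ok) (M (nat_lit 394) (B (L (nat_lit 395) ln14_13_3 ln14_13_3_ok) (M (nat_lit 426) (B (L (nat_lit 393) ln13_13_3 ln13_13_3_ok) (L (nat_lit 397) ln10_13_2 ln10_13_2_ok))))))) (B (M (nat_lit 431) (B (M (nat_lit 395) (B (L (nat_lit 394) ln14_13_3 ln14_13_3_ok) (L (nat_lit 396) ln15_13_3 ln15_13_3_ok))) (M (nat_lit 459) (B (L (nat_lit 458) ln14_13_1 ln14_13_1_ok) (L (nat_lit 460) ln15_13_1 ln15_13_1_ok))))) (M (nat_lit 426) (B (M (nat_lit 398) (B (L (nat_lit 397) ln10_13_2 ln10_13_2_ok) (L (nat_lit 399) ln11_13_2 ln11_13_2_ok))) (M (nat_lit 458) (B (L (nat_lit 457) ln13_13_1 ln13_13_1_ok) (L (nat_lit 459) ln14_13_1 ln14_13_1_ok)))))))) (B (M (nat_lit 431) (B (M (nat_lit 427) (B (M (nat_lit 399) (B (L (nat_lit 398) ln11_13_2 ln11_13_2_ok) (L (nat_lit 400) ln12_13_2 ln12_13_2_ok))) (M (nat_lit 459) (B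 (L (nat_lit 458) ln14_13_1 ln14_13_1_ok) (L (nat_lit 460) ln15_13_1 ln15_13_1_ok))))) (B (M (nat_lit 427) (B (M (nat_lit 395) (B (L (nat_lit 394) ln14_13_3 ln14_13_3_ok) (L (nat_lit 396) ln15_13_3 ln15_13_3_ok))) (M (nat_lit 459) (B (L (nat_lit 458) ln14_13_1 ln14_13_1_ok) (L (nat_lit 460) ln15_13_1 ln15_13_1_ok))))) (M (nat_lit 432) (B (M (nat_lit 396) (B (L (nat_lit 395) ln15_13_3 ln15_13_3_ok) (L (nat_lit 397) ln16_13_3 ln16_13_3_ok))) (M (nat_lit 464) (B (L (nat_lit 463) ln12_13_0 ln12_13_0_ok) (L (nat_lit 465) ln13_13_0 ln13_13_0_ok)))))))) (B (M (nat_lit 427) (B (M (nat_lit 431) (B (M (nat_lit 459) (B (L (nat_lit 458) ln14_13_1 ln14_13_1_ok) (L (nat_lit 460) ln15_13_1 ln15_13_1_ok))) (M (nat_lit 463) (B (L (nat_lit 462) ln11_13_0 ln11_13_0_ok) (L (nat_lit 464) ln12_13_0 ln12_13_0_ok))))) (B (M (nat_lit 426) (B (M (nat_lit 398) (B (L (nat_lit 397) ln10_13_2 ln10_13_2_ok) (L (nat_lit 399) ln11_13_2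 ln11_13_2_ok))) (M (nat_lit 458) (B (L (nat_lit 457) ln13_13_1 ln13_13_1_ok) (L (nat_lit 459) ln14_13_1 ln14_13_1_ok))))) (M (nat_lit 431) (B (M (nat_lit 399) (B (L (nat_lit 398) ln11_13_2 ln11_13_2_ok) (L (nat_lit 400) ln12_13_2 ln12_13_2_ok))) (M (nat_lit 463) (B (L (nat_lit 462) ln11_13_0 ln11_13_0_ok) (L (nat_lit 464) ln12_13_0 ln12_13_0_ok)))))))) (B (M (nat_lit 427) (B (M (nat_lit 426) (B (M (nat_lit 394) (B (L (nat_lit 393) ln13_13_3 ln13_13_3_ok) (L (nat_lit 395) ln14_13_3 ln14_13_3_ok))) (M (nat_lit 458) (B (L (nat_lit 457) ln13_13_1 ln13_13_1_ok) (L (nat_lit 459) ln14_13_1 ln14_13_1_ok))))) (M (nat_lit 431) (B (M (nat_lit 399) (B (L (nat_lit 398) ln11_13_2 ln11_13_2_ok) (L (nat_lit 400) ln12_13_2 ln12_13_2_ok))) (M (nat_lit 463) (B (L (nat_lit 462) ln11_13_0 ln11_13_0_ok) (L (nat_lit 464) ln12_13_0 ln12_13_0_ok))))))) (B (M (nat_lit 427) (B (M (nat_lit 431) (B (M (nat_lit 459) (B (L (nat_lit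 458) ln14_13_1 ln14_13_1_ok) (L (nat_lit 460) ln15_13_1 ln15_13_1_ok))) (M (nat_lit 463) (B (L (nat_lit 462) ln11_13_0 ln11_13_0_ok) (L (nat_lit 464) ln12_13_0 ln12_13_0_ok))))) (B (M (nat_lit 426) (B (M (nat_lit 394) (B (L (nat_lit 393) ln13_13_3 ln13_13_3_ok) (L (nat_lit 395) ln14_13_3 ln14_13_3_ok))) (M (nat_lit 458) (B (L (nat_lit 457) ln13_13_1 ln13_13_1_ok) (L (nat_lit 459) ln14_13_1 ln14_13_1_ok))))) (M (nat_lit 431) (B (M (nat_lit 395) (B (L (nat_lit 394) ln14_13_3 ln14_13_3_ok) (L (nat_lit 396) ln15_13_3 ln15_13_3_ok))) (M (nat_lit 463) (B (L (nat_lit 462) ln11_13_0 ln11_13_0_ok) (L (nat_lit 464) ln12_13_0 ln12_13_0_ok)))))))) (B (K (nat_lit 4852171964711426004262224822250396481013764881907679006548339266075587288659844840319955210682244261670434619182456250700704776192) (nat_lit 2532663311910144709621145845850057445602468866546868435805426426291576188538260458642384507422704227793017074574463058541531997695807238270614016328845529399436200311688901165056)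 (nat_lit 2532663311910144709621145845850057445602468866546868435805426426291576188538260458642384507422704227793017074574463058541531997695807238270614016328845529399436200311688901165056) c40_s686) (B c40_n728 (M (nat_lit 427) (B (M (nat_lit 431) (B (M (nat_lit 399) (B (L (nat_lit 398) ln11_13_2 ln11_13_2_ok) (L (nat_lit 400) ln12_13_2 ln12_13_2_ok))) (M (nat_lit 463) (B (L (nat_lit 462) ln11_13_0 ln11_13_0_ok) (L (nat_lit 464) ln12_13_0 ln12_13_0_ok))))) (B (M (nat_lit 431) (B (M (nat_lit 395) (B (L (nat_lit 394) ln14_13_3 ln14_13_3_ok) (L (nat_lit 396) ln15_13_3 ln15_13_3_ok))) (M (nat_lit 463) (B (L (nat_lit 462) ln11_13_0 ln11_13_0_ok) (L (nat_lit 464) ln12_13_0 ln12_13_0_ok))))) (M (nat_lit 398) (B (L (nat_lit 399) ln11_13_2 ln11_13_2_ok) (M (nat_lit 394) (B (L (nat_lit 395) ln14_13_3 ln14_13_3_ok) (M (nat_lit 426) (B (L (nat_lit 393) ln13_13_3 ln13_13_3_ok) (L (nat_lit 397) ln10_13_2 ln10_13_2_ok))))))))))))))))))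 (nat_lit 2079502270590611144683810638107312777577327806531862431377859685460965980854219217279980804578104683573043408221052678871730618368) (nat_lit 2532663311910144710060492896098416467361310517691370146977623426729993779461177078478829162774838432190289371494991198066632483810900204823147079713563233969803338976231950385152) (nat_lit 2532663311910144710060492896098416467361310517691370146977623426729993779461177078478829162774838432190289371494991198066632483810900204823147079713563233969803338976231950385152) (by decide +kernel)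
noncomputable def c40_n763 : Cert := (M (nat_lit 460) (B (M (nat_lit 459) (B (L (nat_lit 431) ln15_13_1 ln15_13_1_ok) (M (nat_lit 458) (B (L (nat_lit 457) ln9_14_2 ln9_14_2_ok) (L (nat_lit 461) ln10_14_2 ln10_14_2_ok))))) (B (M (nat_lit 492) (B (M (nat_lit 524) (B (L (nat_lit 397) ln12_16_6 ln12_16_6_ok) (M (nat_lit 556) (B (L (nat_lit 461) ln12_17_6 ln12_17_6_ok) (M (nat_lit 555) (B (L (nat_lit 523) ln12_13_5 ln12_13_5_ok) (L (nat_lit 587) ln12_14_5 ln12_14_5_ok))))))) (B (M (nat_lit 524) (B (M (nat_lit 556) (B (L (nat_lit 461) ln12_17_6 ln12_17_6_ok) (M (nat_lit 555) (B (L (nat_lit 523) ln12_13_5 ln12_13_5_ok) (L (nat_lit 587) ln12_14_5 ln12_14_5_ok))))) (B (M (nat_lit 396) (B (M (nat_lit 523) (B (L (nat_lit 491) ln12_12_5 ln12_12_5_ok) (L (nat_lit 555) ln12_13_5 ln12_13_5_ok))) (M (nat_lit 525) (B (L (nat_lit 493) ln12_12_4 ln12_12_4_ok) (L (nat_lit 557) ln12_13_4 ln12_13_4_ok))))) (M (nat_lit 556)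 (B (L (nat_lit 461) ln12_17_6 ln12_17_6_ok) (M (nat_lit 557) (B (L (nat_lit 525) ln12_13_4 ln12_13_4_ok) (L (nat_lit 589) ln12_14_4 ln12_14_4_ok)))))))) (B (M (nat_lit 396) (B (M (nat_lit 395) (B (L (nat_lit 363) ln12_15_7 ln12_15_7_ok) (M (nat_lit 394) (B (L (nat_lit 393) ln9_12_0 ln9_12_0_ok) (L (nat_lit 397) ln10_12_0 ln10_12_0_ok))))) (B (M (nat_lit 524) (B (L (nat_lit 397) ln12_16_6 ln12_16_6_ok) (M (nat_lit 523) (B (L (nat_lit 491) ln12_12_5 ln12_12_5_ok) (L (nat_lit 555) ln12_13_5 ln12_13_5_ok))))) (M (nat_lit 364) (B (M (nat_lit 363) (B (L (nat_lit 331) ln12_14_7 ln12_14_7_ok) (L (nat_lit 395) ln12_15_7 ln12_15_7_ok))) (M (nat_lit 491) (B (L (nat_lit 459) ln12_11_5 ln12_11_5_ok) (L (nat_lit 523) ln12_12_5 ln12_12_5_ok)))))))) (B (M (nat_lit 524) (B (L (nat_lit 397) ln12_16_6 ln12_16_6_ok) (M (nat_lit 556) (B (L (nat_lit 461) ln12_17_6 ln12_17_6_ok) (M (nat_lit 557) (B (L (nat_lit 525) ln12_13_4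 ln12_13_4_ok) (L (nat_lit 589) ln12_14_4 ln12_14_4_ok))))))) (M (nat_lit 396) (B (M (nat_lit 395) (B (L (nat_lit 363) ln12_15_7 ln12_15_7_ok) (M (nat_lit 394) (B (L (nat_lit 393) ln9_12_0 ln9_12_0_ok) (L (nat_lit 397) ln10_12_0 ln10_12_0_ok))))) (M (nat_lit 364) (B (M (nat_lit 491) (B (L (nat_lit 459) ln12_11_5 ln12_11_5_ok) (L (nat_lit 523) ln12_12_5 ln12_12_5_ok))) (M (nat_lit 493) (B (L (nat_lit 461) ln12_11_4 ln12_11_4_ok) (L (nat_lit 525) ln12_12_4 ln12_12_4_ok)))))))))))) (B (M (nat_lit 396) (B (M (nat_lit 431) (B (L (nat_lit 395) ln15_13_3 ln15_13_3_ok) (M (nat_lit 432) (B (L (nat_lit 397) ln16_13_3 ln16_13_3_ok) (L (nat_lit 461) ln16_13_1 ln16_13_1_ok))))) (B (M (nat_lit 461) (B (M (nat_lit 493) (B (L (nat_lit 364) ln12_11_4 ln12_11_4_ok) (L (nat_lit 525) ln13_16_7 ln13_16_7_ok))) (M (nat_lit 492) (B (M (nat_lit 524) (B (L (nat_lit 397) ln12_16_6 ln12_16_6_ok) (L (nat_lit 556) ln12_17_6 ln12_17_6_ok)))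 (B (M (nat_lit 524) (B (L (nat_lit 556) ln12_17_6 ln12_17_6_ok) (M (nat_lit 523) (B (L (nat_lit 491) ln12_12_5 ln12_12_5_ok) (L (nat_lit 555) ln12_13_5 ln12_13_5_ok))))) (M (nat_lit 463) (B (M (nat_lit 431) (B (L (nat_lit 464) ln12_13_0 ln12_13_0_ok) (L (nat_lit 432) ln16_13_1 ln16_13_1_ok))) (B (M (nat_lit 462) (B (L (nat_lit 464) ln16_14_3 ln16_14_3_ok) (L (nat_lit 491) ln15_14_1 ln15_14_1_ok))) (M (nat_lit 491) (B (L (nat_lit 523) ln12_12_5 ln12_12_5_ok) (L (nat_lit 462) ln15_14_1 ln15_14_1_ok))))))))))) (B (M (nat_lit 461) (B (M (nat_lit 364) (B (L (nat_lit 332) ln12_10_4 ln12_10_4_ok) (L (nat_lit 493) ln12_11_4 ln12_11_4_ok))) (M (nat_lit 431) (B (L (nat_lit 395) ln15_13_3 ln15_13_3_ok) (L (nat_lit 432) ln16_13_1 ln16_13_1_ok))))) (B (M (nat_lit 395) (B (M (nat_lit 394) (B (L (nat_lit 393) ln9_12_0 ln9_12_0_ok) (L (nat_lit 397) ln10_12_0 ln10_12_0_ok))) (M (nat_lit 364) (B (M (nat_lit 363) (B (L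 (nat_lit 331) ln12_14_7 ln12_14_7_ok) (L (nat_lit 492) ln12_15_7 ln12_15_7_ok))) (M (nat_lit 461) (B (L (nat_lit 332) ln12_10_4 ln12_10_4_ok) (L (nat_lit 493) ln12_11_4 ln12_11_4_ok))))))) (M (nat_lit 395) (B (L (nat_lit 431) ln15_13_3 ln15_13_3_ok) (M (nat_lit 394) (B (L (nat_lit 393) ln9_12_0 ln9_12_0_ok) (L (nat_lit 397) ln10_12_0 ln10_12_0_ok)))))))))) (M (nat_lit 431) (B (L (nat_lit 459) ln15_13_1 ln15_13_1_ok) (M (nat_lit 432) (B (M (nat_lit 396) (B (L (nat_lit 395) ln15_13_3 ln15_13_3_ok) (L (nat_lit 397) ln16_13_3 ln16_13_3_ok))) (M (nat_lit 464) (B (L (nat_lit 463) ln12_13_0 ln12_13_0_ok) (L (nat_lit 465) ln13_13_0 ln13_13_0_ok)))))))))))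
theorem c40_s786 : Sem (nat_lit 2079502270590611144683810638107312777577327806531862431377859685460965980854219217279980804578104683573043408221052678871730618368) (nat_lit 2532663311910144709401472320572437749977916390822688131075799427899869970390399330212865542467337048636641148585279623259550367542482520495723684784885739851517811424300244140032) (nat_lit 2532663311910144709401472320572437749977916390822688131075799427899869970390399330212865542467337048636641148585279623259550367542482520495723684784885739851517811424300244140032) :=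
  sem_of_chk (M (nat_lit 430) (B (M (nat_lit 427) (B (M (nat_lit 398) (B (L (nat_lit 399) ln11_13_2 ln11_13_2_ok) (M (nat_lit 394) (B (L (nat_lit 395) ln14_13_3 ln14_13_3_ok) (M (nat_lit 426) (B (L (nat_lit 393) ln13_13_3 ln13_13_3_ok) (L (nat_lit 397) ln10_13_2 ln10_13_2_ok))))))) (B (M (nat_lit 431) (B (M (nat_lit 395) (B (L (nat_lit 394) ln14_13_3 ln14_13_3_ok) (L (nat_lit 396) ln15_13_3 ln15_13_3_ok))) (M (nat_lit 459) (B (L (nat_lit 458) ln14_13_1 ln14_13_1_ok) (L (nat_lit 460) ln15_13_1 ln15_13_1_ok))))) (M (nat_lit 426) (B (M (nat_lit 398) (B (L (nat_lit 397) ln10_13_2 ln10_13_2_ok) (L (nat_lit 399) ln11_13_2 ln11_13_2_ok))) (M (nat_lit 458) (B (L (nat_lit 457) ln13_13_1 ln13_13_1_ok) (L (nat_lit 459) ln14_13_1 ln14_13_1_ok)))))))) (B (M (nat_lit 431) (B (M (nat_lit 427) (B (M (nat_lit 399) (B (L (nat_lit 398) ln11_13_2 ln11_13_2_ok) (L (nat_lit 400) ln12_13_2 ln12_13_2_ok))) (M (nat_lit 459) (B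 (L (nat_lit 458) ln14_13_1 ln14_13_1_ok) (L (nat_lit 460) ln15_13_1 ln15_13_1_ok))))) (B (M (nat_lit 427) (B (M (nat_lit 395) (B (L (nat_lit 394) ln14_13_3 ln14_13_3_ok) (L (nat_lit 396) ln15_13_3 ln15_13_3_ok))) (M (nat_lit 459) (B (L (nat_lit 458) ln14_13_1 ln14_13_1_ok) (L (nat_lit 460) ln15_13_1 ln15_13_1_ok))))) (M (nat_lit 432) (B (M (nat_lit 396) (B (L (nat_lit 395) ln15_13_3 ln15_13_3_ok) (L (nat_lit 397) ln16_13_3 ln16_13_3_ok))) (M (nat_lit 464) (B (L (nat_lit 463) ln12_13_0 ln12_13_0_ok) (L (nat_lit 465) ln13_13_0 ln13_13_0_ok)))))))) (B (M (nat_lit 427) (B (M (nat_lit 431) (B (M (nat_lit 459) (B (L (nat_lit 458) ln14_13_1 ln14_13_1_ok) (L (nat_lit 460) ln15_13_1 ln15_13_1_ok))) (M (nat_lit 463) (B (L (nat_lit 462) ln11_13_0 ln11_13_0_ok) (L (nat_lit 464) ln12_13_0 ln12_13_0_ok))))) (B (M (nat_lit 426) (B (M (nat_lit 398) (B (L (nat_lit 397) ln10_13_2 ln10_13_2_ok) (L (nat_lit 399) ln11_13_2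 ln11_13_2_ok))) (M (nat_lit 458) (B (L (nat_lit 457) ln13_13_1 ln13_13_1_ok) (L (nat_lit 459) ln14_13_1 ln14_13_1_ok))))) (M (nat_lit 431) (B (M (nat_lit 399) (B (L (nat_lit 398) ln11_13_2 ln11_13_2_ok) (L (nat_lit 400) ln12_13_2 ln12_13_2_ok))) (M (nat_lit 463) (B (L (nat_lit 462) ln11_13_0 ln11_13_0_ok) (L (nat_lit 464) ln12_13_0 ln12_13_0_ok)))))))) (B (M (nat_lit 427) (B (M (nat_lit 426) (B (M (nat_lit 394) (B (L (nat_lit 393) ln13_13_3 ln13_13_3_ok) (L (nat_lit 395) ln14_13_3 ln14_13_3_ok))) (M (nat_lit 458) (B (L (nat_lit 457) ln13_13_1 ln13_13_1_ok) (L (nat_lit 459) ln14_13_1 ln14_13_1_ok))))) (M (nat_lit 431) (B (M (nat_lit 399) (B (L (nat_lit 398) ln11_13_2 ln11_13_2_ok) (L (nat_lit 400) ln12_13_2 ln12_13_2_ok))) (M (nat_lit 463) (B (L (nat_lit 462) ln11_13_0 ln11_13_0_ok) (L (nat_lit 464) ln12_13_0 ln12_13_0_ok))))))) (B (M (nat_lit 427) (B (M (nat_lit 431) (B (M (nat_lit 459) (B (L (nat_lit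 458) ln14_13_1 ln14_13_1_ok) (L (nat_lit 460) ln15_13_1 ln15_13_1_ok))) (M (nat_lit 463) (B (L (nat_lit 462) ln11_13_0 ln11_13_0_ok) (L (nat_lit 464) ln12_13_0 ln12_13_0_ok))))) (B (M (nat_lit 426) (B (M (nat_lit 394) (B (L (nat_lit 393) ln13_13_3 ln13_13_3_ok) (L (nat_lit 395) ln14_13_3 ln14_13_3_ok))) (M (nat_lit 458) (B (L (nat_lit 457) ln13_13_1 ln13_13_1_ok) (L (nat_lit 459) ln14_13_1 ln14_13_1_ok))))) (M (nat_lit 431) (B (M (nat_lit 395) (B (L (nat_lit 394) ln14_13_3 ln14_13_3_ok) (L (nat_lit 396) ln15_13_3 ln15_13_3_ok))) (M (nat_lit 463) (B (L (nat_lit 462) ln11_13_0 ln11_13_0_ok) (L (nat_lit 464) ln12_13_0 ln12_13_0_ok)))))))) (B c40_n763 (B (M (nat_lit 427) (B (M (nat_lit 398) (B (L (nat_lit 399) ln11_13_2 ln11_13_2_ok) (M (nat_lit 394) (B (L (nat_lit 395) ln14_13_3 ln14_13_3_ok) (M (nat_lit 426) (B (L (nat_lit 393) ln13_13_3 ln13_13_3_ok) (L (nat_lit 397) ln10_13_2 ln10_13_2_ok))))))) (B (M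 (nat_lit 426) (B (M (nat_lit 398) (B (L (nat_lit 397) ln10_13_2 ln10_13_2_ok) (L (nat_lit 399) ln11_13_2 ln11_13_2_ok))) (M (nat_lit 458) (B (L (nat_lit 457) ln13_13_1 ln13_13_1_ok) (L (nat_lit 459) ln14_13_1 ln14_13_1_ok))))) (B (M (nat_lit 426) (B (M (nat_lit 394) (B (L (nat_lit 393) ln13_13_3 ln13_13_3_ok) (L (nat_lit 395) ln14_13_3 ln14_13_3_ok))) (M (nat_lit 458) (B (L (nat_lit 457) ln13_13_1 ln13_13_1_ok) (L (nat_lit 459) ln14_13_1 ln14_13_1_ok))))) (M (nat_lit 398) (B (L (nat_lit 399) ln11_13_2 ln11_13_2_ok) (M (nat_lit 396) (B (M (nat_lit 459) (B (L (nat_lit 458) ln14_13_1 ln14_13_1_ok) (M (nat_lit 364) (B (L (nat_lit 332) ln12_10_5 ln12_10_5_ok) (M (nat_lit 491) (B (L (nat_lit 460) ln12_11_5 ln12_11_5_ok) (L (nat_lit 523) ln11_16_6 ln11_16_6_ok))))))) (B (M (nat_lit 395) (B (L (nat_lit 394) ln14_13_3 ln14_13_3_ok) (M (nat_lit 459) (B (L (nat_lit 458) ln14_13_1 ln14_13_1_ok) (M (nat_lit 491) (B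 (L (nat_lit 364) ln11_15_6 ln11_15_6_ok) (L (nat_lit 523) ln11_16_6 ln11_16_6_ok))))))) (M (nat_lit 366) (B (M (nat_lit 461) (B (L (nat_lit 334) ln14_10_5 ln14_10_5_ok) (M (nat_lit 462) (B (L (nat_lit 493) ln14_11_5 ln14_11_5_ok) (L (nat_lit 463) ln11_13_0 ln11_13_0_ok))))) (B (M (nat_lit 367) (B (M (nat_lit 462) (B (L (nat_lit 335) ln14_14_6 ln14_14_6_ok) (L (nat_lit 463) ln11_13_0 ln11_13_0_ok))) (M (nat_lit 395) (B (L (nat_lit 397) ln11_12_2 ln11_12_2_ok) (L (nat_lit 394) ln14_13_3 ln14_13_3_ok))))) (M (nat_lit 461) (B (L (nat_lit 334) ln14_10_5 ln14_10_5_ok) (M (nat_lit 493) (B (L (nat_lit 397) ln13_15_6 ln13_15_6_ok) (L (nat_lit 525) ln13_16_7 ln13_16_7_ok))))))))))))))))) (M (nat_lit 427) (B (M (nat_lit 431) (B (M (nat_lit 399) (B (L (nat_lit 398) ln11_13_2 ln11_13_2_ok) (L (nat_lit 400) ln12_13_2 ln12_13_2_ok))) (M (nat_lit 463) (B (L (nat_lit 462) ln11_13_0 ln11_13_0_ok) (L (nat_lit 464) ln12_13_0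 ln12_13_0_ok))))) (B (M (nat_lit 431) (B (M (nat_lit 395) (B (L (nat_lit 394) ln14_13_3 ln14_13_3_ok) (L (nat_lit 396) ln15_13_3 ln15_13_3_ok))) (M (nat_lit 463) (B (L (nat_lit 462) ln11_13_0 ln11_13_0_ok) (L (nat_lit 464) ln12_13_0 ln12_13_0_ok))))) (M (nat_lit 398) (B (L (nat_lit 399) ln11_13_2 ln11_13_2_ok) (M (nat_lit 394) (B (L (nat_lit 395) ln14_13_3 ln14_13_3_ok) (M (nat_lit 426) (B (L (nat_lit 393) ln13_13_3 ln13_13_3_ok) (L (nat_lit 397) ln10_13_2 ln10_13_2_ok)))))))))))))))))) (nat_lit 2079502270590611144683810638107312777577327806531862431377859685460965980854219217279980804578104683573043408221052678871730618368) (nat_lit 2532663311910144709401472320572437749977916390822688131075799427899869970390399330212865542467337048636641148585279623259550367542482520495723684784885739851517811424300244140032) (nat_lit 2532663311910144709401472320572437749977916390822688131075799427899869970390399330212865542467337048636641148585279623259550367542482520495723684784885739851517811424300244140032)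 (by decide +kernel)
noncomputable def c40_n801 : Cert := (M (nat_lit 460) (B (M (nat_lit 459) (B (L (nat_lit 431) ln15_13_1 ln15_13_1_ok) (M (nat_lit 458) (B (L (nat_lit 457) ln9_14_2 ln9_14_2_ok) (L (nat_lit 461) ln10_14_2 ln10_14_2_ok))))) (B (M (nat_lit 396) (B (M (nat_lit 364) (B (M (nat_lit 461) (B (L (nat_lit 332) ln12_10_4 ln12_10_4_ok) (L (nat_lit 493) ln12_11_4 ln12_11_4_ok))) (M (nat_lit 492) (B (M (nat_lit 365) (B (L (nat_lit 333) ln12_14_6 ln12_14_6_ok) (L (nat_lit 397) ln12_15_6 ln12_15_6_ok))) (M (nat_lit 491) (B (L (nat_lit 459) ln12_11_5 ln12_11_5_ok) (L (nat_lit 523) ln12_12_5 ln12_12_5_ok))))))) (B (M (nat_lit 492) (B (M (nat_lit 397) (B (L (nat_lit 365) ln12_15_6 ln12_15_6_ok) (L (nat_lit 524) ln12_16_6 ln12_16_6_ok))) (B (M (nat_lit 524) (B (L (nat_lit 397) ln12_16_6 ln12_16_6_ok) (M (nat_lit 523) (B (L (nat_lit 491) ln12_12_5 ln12_12_5_ok) (L (nat_lit 555) ln12_13_5 ln12_13_5_ok)))))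 (M (nat_lit 364) (B (M (nat_lit 363) (B (L (nat_lit 331) ln12_14_7 ln12_14_7_ok) (L (nat_lit 395) ln12_15_7 ln12_15_7_ok))) (M (nat_lit 491) (B (L (nat_lit 459) ln12_11_5 ln12_11_5_ok) (L (nat_lit 523) ln12_12_5 ln12_12_5_ok)))))))) (B (M (nat_lit 492) (B (M (nat_lit 397) (B (L (nat_lit 365) ln12_15_6 ln12_15_6_ok) (L (nat_lit 524) ln12_16_6 ln12_16_6_ok))) (B (M (nat_lit 395) (B (L (nat_lit 363) ln12_15_7 ln12_15_7_ok) (M (nat_lit 394) (B (L (nat_lit 393) ln9_12_0 ln9_12_0_ok) (L (nat_lit 397) ln10_12_0 ln10_12_0_ok))))) (M (nat_lit 524) (B (M (nat_lit 523) (B (L (nat_lit 491) ln12_12_5 ln12_12_5_ok) (L (nat_lit 555) ln12_13_5 ln12_13_5_ok))) (M (nat_lit 525) (B (L (nat_lit 493) ln12_12_4 ln12_12_4_ok) (L (nat_lit 557) ln12_13_4 ln12_13_4_ok)))))))) (B (M (nat_lit 395) (B (M (nat_lit 394) (B (L (nat_lit 393) ln9_12_0 ln9_12_0_ok) (L (nat_lit 397) ln10_12_0 ln10_12_0_ok))) (M (nat_lit 363) (B (L (nat_lit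 492) ln12_15_7 ln12_15_7_ok) (M (nat_lit 331) (B (L (nat_lit 299) ln11_9_4 ln11_9_4_ok) (L (nat_lit 364) ln12_14_7 ln12_14_7_ok))))))) (B (M (nat_lit 364) (B (M (nat_lit 461) (B (L (nat_lit 332) ln12_10_4 ln12_10_4_ok) (L (nat_lit 493) ln12_11_4 ln12_11_4_ok))) (M (nat_lit 492) (B (M (nat_lit 363) (B (L (nat_lit 331) ln12_14_7 ln12_14_7_ok) (L (nat_lit 395) ln12_15_7 ln12_15_7_ok))) (M (nat_lit 491) (B (L (nat_lit 459) ln12_11_5 ln12_11_5_ok) (L (nat_lit 523) ln12_12_5 ln12_12_5_ok))))))) (M (nat_lit 364) (B (M (nat_lit 461) (B (L (nat_lit 332) ln12_10_4 ln12_10_4_ok) (L (nat_lit 493) ln12_11_4 ln12_11_4_ok))) (B (M (nat_lit 461) (B (L (nat_lit 493) ln12_11_4 ln12_11_4_ok) (M (nat_lit 459) (B (L (nat_lit 491) ln12_11_5 ln12_11_5_ok) (L (nat_lit 458) ln10_14_2 ln10_14_2_ok))))) (M (nat_lit 332) (B (M (nat_lit 331) (B (L (nat_lit 299) ln12_13_7 ln12_13_7_ok) (L (nat_lit 363) ln12_14_7 ln12_14_7_ok))) (M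 (nat_lit 333) (B (L (nat_lit 301) ln12_13_6 ln12_13_6_ok) (L (nat_lit 365) ln12_14_6 ln12_14_6_ok)))))))))))))) (B (M (nat_lit 431) (B (L (nat_lit 459) ln15_13_1 ln15_13_1_ok) (M (nat_lit 432) (B (L (nat_lit 461) ln16_13_1 ln16_13_1_ok) (M (nat_lit 396) (B (L (nat_lit 395) ln15_13_3 ln15_13_3_ok) (L (nat_lit 397) ln16_13_3 ln16_13_3_ok))))))) (B (M (nat_lit 396) (B (M (nat_lit 431) (B (L (nat_lit 395) ln15_13_3 ln15_13_3_ok) (M (nat_lit 432) (B (L (nat_lit 397) ln16_13_3 ln16_13_3_ok) (L (nat_lit 461) ln16_13_1 ln16_13_1_ok))))) (B (M (nat_lit 364) (B (M (nat_lit 461) (B (L (nat_lit 332) ln12_10_4 ln12_10_4_ok) (L (nat_lit 493) ln12_11_4 ln12_11_4_ok))) (B (M (nat_lit 492) (B (M (nat_lit 365) (B (L (nat_lit 333) ln12_14_6 ln12_14_6_ok) (L (nat_lit 397) ln12_15_6 ln12_15_6_ok))) (M (nat_lit 493) (B (L (nat_lit 461) ln12_11_4 ln12_11_4_ok) (L (nat_lit 525) ln12_12_4 ln12_12_4_ok))))) (M (nat_lit 332) (B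 (M (nat_lit 331) (B (L (nat_lit 299) ln12_13_7 ln12_13_7_ok) (L (nat_lit 363) ln12_14_7 ln12_14_7_ok))) (M (nat_lit 333) (B (L (nat_lit 301) ln12_13_6 ln12_13_6_ok) (L (nat_lit 365) ln12_14_6 ln12_14_6_ok)))))))) (B (M (nat_lit 461) (B (M (nat_lit 364) (B (L (nat_lit 332) ln12_10_4 ln12_10_4_ok) (L (nat_lit 493) ln12_11_4 ln12_11_4_ok))) (M (nat_lit 431) (B (L (nat_lit 395) ln15_13_3 ln15_13_3_ok) (L (nat_lit 432) ln16_13_1 ln16_13_1_ok))))) (M (nat_lit 397) (B (M (nat_lit 365) (B (L (nat_lit 333) ln13_10_5 ln13_10_5_ok) (L (nat_lit 492) ln12_15_6 ln12_15_6_ok))) (M (nat_lit 431) (B (L (nat_lit 395) ln15_13_3 ln15_13_3_ok) (L (nat_lit 432) ln16_13_3 ln16_13_3_ok))))))))) (M (nat_lit 431) (B (L (nat_lit 459) ln15_13_1 ln15_13_1_ok) (M (nat_lit 432) (B (M (nat_lit 396) (B (L (nat_lit 395) ln15_13_3 ln15_13_3_ok) (L (nat_lit 397) ln16_13_3 ln16_13_3_ok))) (M (nat_lit 464) (B (L (nat_lit 463) ln12_13_0 ln12_13_0_ok)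 (L (nat_lit 465) ln13_13_0 ln13_13_0_ok))))))))))))
theorem c40_s850 : Sem (nat_lit 2079502270590611144683810638107312777577327806531862431377859685460965980854219217279980804578104683573043408221052678871730618368) (nat_lit 589681629729600746342132080089798697212653329976425705808626139930967350982709176047986242531543022526967071329620586163057682828680656673838339954511603912290724741120) (nat_lit 589681629729600746342132080089798697212653329976425705808626139930967350982709176047986242531543022526967071329620586163057682828680656673838339954511603912290724741120) :=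
  sem_of_chk (M (nat_lit 430) (B (M (nat_lit 427) (B (M (nat_lit 398) (B (L (nat_lit 399) ln11_13_2 ln11_13_2_ok) (M (nat_lit 394) (B (L (nat_lit 395) ln14_13_3 ln14_13_3_ok) (M (nat_lit 426) (B (L (nat_lit 393) ln13_13_3 ln13_13_3_ok) (L (nat_lit 397) ln10_13_2 ln10_13_2_ok))))))) (B (M (nat_lit 431) (B (M (nat_lit 395) (B (L (nat_lit 394) ln14_13_3 ln14_13_3_ok) (L (nat_lit 396) ln15_13_3 ln15_13_3_ok))) (M (nat_lit 459) (B (L (nat_lit 458) ln14_13_1 ln14_13_1_ok) (L (nat_lit 460) ln15_13_1 ln15_13_1_ok))))) (M (nat_lit 426) (B (M (nat_lit 398) (B (L (nat_lit 397) ln10_13_2 ln10_13_2_ok) (L (nat_lit 399) ln11_13_2 ln11_13_2_ok))) (M (nat_lit 458) (B (L (nat_lit 457) ln13_13_1 ln13_13_1_ok) (L (nat_lit 459) ln14_13_1 ln14_13_1_ok)))))))) (B (M (nat_lit 431) (B (M (nat_lit 427) (B (M (nat_lit 399) (B (L (nat_lit 398) ln11_13_2 ln11_13_2_ok) (L (nat_lit 400) ln12_13_2 ln12_13_2_ok))) (M (nat_lit 459) (B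 (L (nat_lit 458) ln14_13_1 ln14_13_1_ok) (L (nat_lit 460) ln15_13_1 ln15_13_1_ok))))) (B (M (nat_lit 427) (B (M (nat_lit 395) (B (L (nat_lit 394) ln14_13_3 ln14_13_3_ok) (L (nat_lit 396) ln15_13_3 ln15_13_3_ok))) (M (nat_lit 459) (B (L (nat_lit 458) ln14_13_1 ln14_13_1_ok) (L (nat_lit 460) ln15_13_1 ln15_13_1_ok))))) (M (nat_lit 432) (B (M (nat_lit 396) (B (L (nat_lit 395) ln15_13_3 ln15_13_3_ok) (L (nat_lit 397) ln16_13_3 ln16_13_3_ok))) (M (nat_lit 464) (B (L (nat_lit 463) ln12_13_0 ln12_13_0_ok) (L (nat_lit 465) ln13_13_0 ln13_13_0_ok)))))))) (B (M (nat_lit 427) (B (M (nat_lit 431) (B (M (nat_lit 459) (B (L (nat_lit 458) ln14_13_1 ln14_13_1_ok) (L (nat_lit 460) ln15_13_1 ln15_13_1_ok))) (M (nat_lit 463) (B (L (nat_lit 462) ln11_13_0 ln11_13_0_ok) (L (nat_lit 464) ln12_13_0 ln12_13_0_ok))))) (B (M (nat_lit 426) (B (M (nat_lit 398) (B (L (nat_lit 397) ln10_13_2 ln10_13_2_ok) (L (nat_lit 399) ln11_13_2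 ln11_13_2_ok))) (M (nat_lit 458) (B (L (nat_lit 457) ln13_13_1 ln13_13_1_ok) (L (nat_lit 459) ln14_13_1 ln14_13_1_ok))))) (M (nat_lit 431) (B (M (nat_lit 399) (B (L (nat_lit 398) ln11_13_2 ln11_13_2_ok) (L (nat_lit 400) ln12_13_2 ln12_13_2_ok))) (M (nat_lit 463) (B (L (nat_lit 462) ln11_13_0 ln11_13_0_ok) (L (nat_lit 464) ln12_13_0 ln12_13_0_ok)))))))) (B (M (nat_lit 427) (B (M (nat_lit 426) (B (M (nat_lit 394) (B (L (nat_lit 393) ln13_13_3 ln13_13_3_ok) (L (nat_lit 395) ln14_13_3 ln14_13_3_ok))) (M (nat_lit 458) (B (L (nat_lit 457) ln13_13_1 ln13_13_1_ok) (L (nat_lit 459) ln14_13_1 ln14_13_1_ok))))) (M (nat_lit 431) (B (M (nat_lit 399) (B (L (nat_lit 398) ln11_13_2 ln11_13_2_ok) (L (nat_lit 400) ln12_13_2 ln12_13_2_ok))) (M (nat_lit 463) (B (L (nat_lit 462) ln11_13_0 ln11_13_0_ok) (L (nat_lit 464) ln12_13_0 ln12_13_0_ok))))))) (B (M (nat_lit 427) (B (M (nat_lit 431) (B (M (nat_lit 459) (B (L (nat_lit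 458) ln14_13_1 ln14_13_1_ok) (L (nat_lit 460) ln15_13_1 ln15_13_1_ok))) (M (nat_lit 463) (B (L (nat_lit 462) ln11_13_0 ln11_13_0_ok) (L (nat_lit 464) ln12_13_0 ln12_13_0_ok))))) (B (M (nat_lit 426) (B (M (nat_lit 394) (B (L (nat_lit 393) ln13_13_3 ln13_13_3_ok) (L (nat_lit 395) ln14_13_3 ln14_13_3_ok))) (M (nat_lit 458) (B (L (nat_lit 457) ln13_13_1 ln13_13_1_ok) (L (nat_lit 459) ln14_13_1 ln14_13_1_ok))))) (M (nat_lit 431) (B (M (nat_lit 395) (B (L (nat_lit 394) ln14_13_3 ln14_13_3_ok) (L (nat_lit 396) ln15_13_3 ln15_13_3_ok))) (M (nat_lit 463) (B (L (nat_lit 462) ln11_13_0 ln11_13_0_ok) (L (nat_lit 464) ln12_13_0 ln12_13_0_ok)))))))) (B c40_n801 (B (M (nat_lit 427) (B (M (nat_lit 398) (B (L (nat_lit 399) ln11_13_2 ln11_13_2_ok) (M (nat_lit 394) (B (L (nat_lit 395) ln14_13_3 ln14_13_3_ok) (M (nat_lit 426) (B (L (nat_lit 393) ln13_13_3 ln13_13_3_ok) (L (nat_lit 397) ln10_13_2 ln10_13_2_ok))))))) (B (M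 (nat_lit 426) (B (M (nat_lit 398) (B (L (nat_lit 397) ln10_13_2 ln10_13_2_ok) (L (nat_lit 399) ln11_13_2 ln11_13_2_ok))) (M (nat_lit 458) (B (L (nat_lit 457) ln13_13_1 ln13_13_1_ok) (L (nat_lit 459) ln14_13_1 ln14_13_1_ok))))) (B (M (nat_lit 426) (B (M (nat_lit 394) (B (L (nat_lit 393) ln13_13_3 ln13_13_3_ok) (L (nat_lit 395) ln14_13_3 ln14_13_3_ok))) (M (nat_lit 458) (B (L (nat_lit 457) ln13_13_1 ln13_13_1_ok) (L (nat_lit 459) ln14_13_1 ln14_13_1_ok))))) (M (nat_lit 462) (B (L (nat_lit 463) ln11_13_0 ln11_13_0_ok) (M (nat_lit 460) (B (M (nat_lit 459) (B (L (nat_lit 458) ln14_13_1 ln14_13_1_ok) (M (nat_lit 395) (B (L (nat_lit 394) ln14_13_3 ln14_13_3_ok) (M (nat_lit 492) (B (L (nat_lit 363) ln11_11_4 ln11_11_4_ok) (L (nat_lit 524) ln12_16_7 ln12_16_7_ok))))))) (B (M (nat_lit 494) (B (M (nat_lit 397) (B (L (nat_lit 526) ln14_16_7 ln14_16_7_ok) (M (nat_lit 365) (B (L (nat_lit 333) ln13_10_5 ln13_10_5_ok)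 (L (nat_lit 398) ln14_15_7 ln14_15_7_ok))))) (B (M (nat_lit 397) (B (L (nat_lit 526) ln14_16_7 ln14_16_7_ok) (M (nat_lit 365) (B (L (nat_lit 398) ln14_15_7 ln14_15_7_ok) (L (nat_lit 461) ln13_11_4 ln13_11_4_ok))))) (B (M (nat_lit 495) (B (M (nat_lit 398) (B (L (nat_lit 399) ln11_13_2 ln11_13_2_ok) (L (nat_lit 527) ln14_12_4 ln14_12_4_ok))) (M (nat_lit 459) (B (L (nat_lit 458) ln14_13_1 ln14_13_1_ok) (L (nat_lit 461) ln11_14_0 ln11_14_0_ok))))) (M (nat_lit 397) (B (L (nat_lit 526) ln14_16_7 ln14_16_7_ok) (M (nat_lit 365) (B (L (nat_lit 333) ln13_10_5 ln13_10_5_ok) (L (nat_lit 461) ln13_11_4 ln13_11_4_ok))))))))) (B (M (nat_lit 395) (B (L (nat_lit 394) ln14_13_3 ln14_13_3_ok) (M (nat_lit 492) (B (L (nat_lit 524) ln12_16_7 ln12_16_7_ok) (M (nat_lit 363) (B (L (nat_lit 331) ln11_10_4 ln11_10_4_ok) (L (nat_lit 459) ln11_11_4 ln11_11_4_ok))))))) (M (nat_lit 395) (B (L (nat_lit 394) ln14_13_3 ln14_13_3_ok) (M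 (nat_lit 492) (B (L (nat_lit 524) ln12_16_7 ln12_16_7_ok) (M (nat_lit 363) (B (L (nat_lit 331) ln11_10_4 ln11_10_4_ok) (L (nat_lit 396) ln12_15_7 ln12_15_7_ok))))))))))))))))) (M (nat_lit 427) (B (M (nat_lit 431) (B (M (nat_lit 399) (B (L (nat_lit 398) ln11_13_2 ln11_13_2_ok) (L (nat_lit 400) ln12_13_2 ln12_13_2_ok))) (M (nat_lit 463) (B (L (nat_lit 462) ln11_13_0 ln11_13_0_ok) (L (nat_lit 464) ln12_13_0 ln12_13_0_ok))))) (B (M (nat_lit 431) (B (M (nat_lit 395) (B (L (nat_lit 394) ln14_13_3 ln14_13_3_ok) (L (nat_lit 396) ln15_13_3 ln15_13_3_ok))) (M (nat_lit 463) (B (L (nat_lit 462) ln11_13_0 ln11_13_0_ok) (L (nat_lit 464) ln12_13_0 ln12_13_0_ok))))) (M (nat_lit 398) (B (L (nat_lit 399) ln11_13_2 ln11_13_2_ok) (M (nat_lit 394) (B (L (nat_lit 395) ln14_13_3 ln14_13_3_ok) (M (nat_lit 426) (B (L (nat_lit 393) ln13_13_3 ln13_13_3_ok) (L (nat_lit 397) ln10_13_2 ln10_13_2_ok)))))))))))))))))) (nat_lit 2079502270590611144683810638107312777577327806531862431377859685460965980854219217279980804578104683573043408221052678871730618368)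 (nat_lit 589681629729600746342132080089798697212653329976425705808626139930967350982709176047986242531543022526967071329620586163057682828680656673838339954511603912290724741120) (nat_lit 589681629729600746342132080089798697212653329976425705808626139930967350982709176047986242531543022526967071329620586163057682828680656673838339954511603912290724741120) (by decide +kernel)
noncomputable def c40_n866 : Cert := (M (nat_lit 460) (B (M (nat_lit 459) (B (L (nat_lit 431) ln15_13_1 ln15_13_1_ok) (M (nat_lit 458) (B (L (nat_lit 457) ln9_14_2 ln9_14_2_ok) (L (nat_lit 461) ln10_14_2 ln10_14_2_ok))))) (B (M (nat_lit 396) (B (M (nat_lit 364) (B (M (nat_lit 461) (B (L (nat_lit 332) ln12_10_4 ln12_10_4_ok) (L (nat_lit 493) ln12_11_4 ln12_11_4_ok))) (M (nat_lit 492) (B (M (nat_lit 365) (B (L (nat_lit 333) ln12_14_6 ln12_14_6_ok) (L (nat_lit 397) ln12_15_6 ln12_15_6_ok))) (M (nat_lit 491) (B (L (nat_lit 459) ln12_11_5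 ln12_11_5_ok) (L (nat_lit 523) ln12_12_5 ln12_12_5_ok))))))) (B (M (nat_lit 492) (B (M (nat_lit 397) (B (L (nat_lit 365) ln12_15_6 ln12_15_6_ok) (L (nat_lit 524) ln12_16_6 ln12_16_6_ok))) (B (M (nat_lit 524) (B (L (nat_lit 397) ln12_16_6 ln12_16_6_ok) (M (nat_lit 523) (B (L (nat_lit 491) ln12_12_5 ln12_12_5_ok) (L (nat_lit 555) ln12_13_5 ln12_13_5_ok))))) (M (nat_lit 364) (B (M (nat_lit 363) (B (L (nat_lit 331) ln12_14_7 ln12_14_7_ok) (L (nat_lit 395) ln12_15_7 ln12_15_7_ok))) (M (nat_lit 491) (B (L (nat_lit 459) ln12_11_5 ln12_11_5_ok) (L (nat_lit 523) ln12_12_5 ln12_12_5_ok)))))))) (B (M (nat_lit 492) (B (M (nat_lit 397) (B (L (nat_lit 365) ln12_15_6 ln12_15_6_ok) (L (nat_lit 524) ln12_16_6 ln12_16_6_ok))) (B (M (nat_lit 397) (B (L (nat_lit 524) ln12_16_6 ln12_16_6_ok) (M (nat_lit 395) (B (L (nat_lit 363) ln12_15_7 ln12_15_7_ok) (L (nat_lit 394) ln10_12_0 ln10_12_0_ok))))) (B (M (nat_lit 524) (B (M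 (nat_lit 523) (B (L (nat_lit 491) ln12_12_5 ln12_12_5_ok) (L (nat_lit 555) ln12_13_5 ln12_13_5_ok))) (M (nat_lit 525) (B (L (nat_lit 493) ln12_12_4 ln12_12_4_ok) (L (nat_lit 557) ln12_13_4 ln12_13_4_ok))))) (M (nat_lit 397) (B (L (nat_lit 365) ln12_15_6 ln12_15_6_ok) (M (nat_lit 395) (B (L (nat_lit 363) ln12_15_7 ln12_15_7_ok) (L (nat_lit 394) ln10_12_0 ln10_12_0_ok))))))))) (B (M (nat_lit 364) (B (M (nat_lit 461) (B (L (nat_lit 332) ln12_10_4 ln12_10_4_ok) (L (nat_lit 493) ln12_11_4 ln12_11_4_ok))) (M (nat_lit 492) (B (M (nat_lit 363) (B (L (nat_lit 331) ln12_14_7 ln12_14_7_ok) (L (nat_lit 395) ln12_15_7 ln12_15_7_ok))) (M (nat_lit 491) (B (L (nat_lit 459) ln12_11_5 ln12_11_5_ok) (L (nat_lit 523) ln12_12_5 ln12_12_5_ok))))))) (B (M (nat_lit 364) (B (M (nat_lit 461) (B (L (nat_lit 332) ln12_10_4 ln12_10_4_ok) (L (nat_lit 493) ln12_11_4 ln12_11_4_ok))) (M (nat_lit 492) (B (M (nat_lit 363) (B (L (nat_lit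 331) ln12_14_7 ln12_14_7_ok) (L (nat_lit 395) ln12_15_7 ln12_15_7_ok))) (M (nat_lit 365) (B (L (nat_lit 333) ln12_14_6 ln12_14_6_ok) (L (nat_lit 397) ln12_15_6 ln12_15_6_ok))))))) (M (nat_lit 364) (B (M (nat_lit 461) (B (L (nat_lit 332) ln12_10_4 ln12_10_4_ok) (L (nat_lit 493) ln12_11_4 ln12_11_4_ok))) (B (M (nat_lit 461) (B (L (nat_lit 493) ln12_11_4 ln12_11_4_ok) (M (nat_lit 459) (B (L (nat_lit 491) ln12_11_5 ln12_11_5_ok) (L (nat_lit 458) ln10_14_2 ln10_14_2_ok))))) (M (nat_lit 332) (B (M (nat_lit 331) (B (L (nat_lit 299) ln12_13_7 ln12_13_7_ok) (L (nat_lit 363) ln12_14_7 ln12_14_7_ok))) (M (nat_lit 333) (B (L (nat_lit 301) ln12_13_6 ln12_13_6_ok) (L (nat_lit 365) ln12_14_6 ln12_14_6_ok)))))))))))))) (B (M (nat_lit 431) (B (L (nat_lit 459) ln15_13_1 ln15_13_1_ok) (M (nat_lit 432) (B (L (nat_lit 461) ln16_13_1 ln16_13_1_ok) (M (nat_lit 396) (B (L (nat_lit 395) ln15_13_3 ln15_13_3_ok) (L (nat_lit 397)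 ln16_13_3 ln16_13_3_ok))))))) (B (M (nat_lit 396) (B (M (nat_lit 431) (B (L (nat_lit 395) ln15_13_3 ln15_13_3_ok) (M (nat_lit 432) (B (L (nat_lit 397) ln16_13_3 ln16_13_3_ok) (L (nat_lit 461) ln16_13_1 ln16_13_1_ok))))) (B (M (nat_lit 364) (B (M (nat_lit 461) (B (L (nat_lit 332) ln12_10_4 ln12_10_4_ok) (L (nat_lit 493) ln12_11_4 ln12_11_4_ok))) (B (M (nat_lit 492) (B (M (nat_lit 365) (B (L (nat_lit 333) ln12_14_6 ln12_14_6_ok) (L (nat_lit 397) ln12_15_6 ln12_15_6_ok))) (M (nat_lit 493) (B (L (nat_lit 461) ln12_11_4 ln12_11_4_ok) (L (nat_lit 525) ln12_12_4 ln12_12_4_ok))))) (M (nat_lit 332) (B (M (nat_lit 331) (B (L (nat_lit 299) ln12_13_7 ln12_13_7_ok) (L (nat_lit 363) ln12_14_7 ln12_14_7_ok))) (M (nat_lit 333) (B (L (nat_lit 301) ln12_13_6 ln12_13_6_ok) (L (nat_lit 365) ln12_14_6 ln12_14_6_ok)))))))) (B (M (nat_lit 461) (B (M (nat_lit 364) (B (L (nat_lit 332) ln12_10_4 ln12_10_4_ok) (L (nat_lit 493)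 ln12_11_4 ln12_11_4_ok))) (M (nat_lit 431) (B (L (nat_lit 395) ln15_13_3 ln15_13_3_ok) (L (nat_lit 432) ln16_13_1 ln16_13_1_ok))))) (M (nat_lit 397) (B (M (nat_lit 365) (B (L (nat_lit 333) ln13_10_5 ln13_10_5_ok) (L (nat_lit 492) ln12_15_6 ln12_15_6_ok))) (M (nat_lit 431) (B (L (nat_lit 395) ln15_13_3 ln15_13_3_ok) (L (nat_lit 432) ln16_13_3 ln16_13_3_ok))))))))) (M (nat_lit 431) (B (L (nat_lit 459) ln15_13_1 ln15_13_1_ok) (M (nat_lit 432) (B (M (nat_lit 396) (B (L (nat_lit 395) ln15_13_3 ln15_13_3_ok) (L (nat_lit 397) ln16_13_3 ln16_13_3_ok))) (M (nat_lit 464) (B (L (nat_lit 463) ln12_13_0 ln12_13_0_ok) (L (nat_lit 465) ln13_13_0 ln13_13_0_ok))))))))))))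
theorem c40_s879 : Sem (nat_lit 4852171964711426004262224822250396481013764881907679006548339266075587288659844840319955210682244261670434619182456250700704776192) (nat_lit 2358726516282320683264613450156880137266377620023794907093059157814281355306263822608431966648595546297535614123868430667491954755588263945688947546899079744417393803264) (nat_lit 2358726516282320683264613450156880137266377620023794907093059157814281355306263822608431966648595546297535614123868430667491954755588263945688947546899079744417393803264) :=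
  sem_of_chk (M (nat_lit 398) (B (M (nat_lit 399) (B (L (nat_lit 427) ln11_13_2 ln11_13_2_ok) (M (nat_lit 400) (B (L (nat_lit 397) ln16_12_1 ln16_12_1_ok) (L (nat_lit 401) ln17_12_1 ln17_12_1_ok))))) (B (M (nat_lit 427) (B (L (nat_lit 399) ln11_13_2 ln11_13_2_ok) (M (nat_lit 426) (B (M (nat_lit 458) (B (L (nat_lit 457) ln13_13_1 ln13_13_1_ok) (L (nat_lit 459) ln14_13_1 ln14_13_1_ok))) (M (nat_lit 462) (B (L (nat_lit 461) ln10_13_0 ln10_13_0_ok) (L (nat_lit 463) ln11_13_0 ln11_13_0_ok))))))) (B (M (nat_lit 462) (B (M (nat_lit 427) (B (L (nat_lit 463) ln11_13_0 ln11_13_0_ok) (M (nat_lit 426) (B (L (nat_lit 397) ln10_13_2 ln10_13_2_ok) (L (nat_lit 461) ln10_13_0 ln10_13_0_ok))))) (B (M (nat_lit 461) (B (M (nat_lit 366) (B (L (nat_lit 334) ln14_10_5 ln14_10_5_ok) (L (nat_lit 493) ln14_11_5 ln14_11_5_ok))) (M (nat_lit 427) (B (L (nat_lit 426) ln10_13_0 ln10_13_0_ok) (L (nat_lit 463) ln11_13_0 ln11_13_0_ok)))))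 (B (M (nat_lit 366) (B (M (nat_lit 461) (B (L (nat_lit 334) ln14_10_5 ln14_10_5_ok) (L (nat_lit 493) ln14_11_5 ln14_11_5_ok))) (M (nat_lit 463) (B (L (nat_lit 495) ln14_11_4 ln14_11_4_ok) (L (nat_lit 427) ln11_13_0 ln11_13_0_ok))))) (B (M (nat_lit 366) (B (M (nat_lit 461) (B (L (nat_lit 334) ln14_10_5 ln14_10_5_ok) (L (nat_lit 493) ln14_11_5 ln14_11_5_ok))) (M (nat_lit 494) (B (M (nat_lit 365) (B (L (nat_lit 333) ln14_14_7 ln14_14_7_ok) (L (nat_lit 397) ln14_15_7 ln14_15_7_ok))) (M (nat_lit 495) (B (L (nat_lit 463) ln14_11_4 ln14_11_4_ok) (L (nat_lit 527) ln14_12_4 ln14_12_4_ok))))))) (B (M (nat_lit 397) (B (M (nat_lit 365) (B (L (nat_lit 333) ln13_10_4 ln13_10_4_ok) (L (nat_lit 494) ln14_15_7 ln14_15_7_ok))) (M (nat_lit 427) (B (L (nat_lit 426) ln10_13_2 ln10_13_2_ok) (L (nat_lit 463) ln11_13_0 ln11_13_0_ok))))) (M (nat_lit 494) (B (M (nat_lit 397) (B (L (nat_lit 365) ln14_15_7 ln14_15_7_ok) (L (nat_lit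 526) ln14_16_7 ln14_16_7_ok))) (B (M (nat_lit 525) (B (L (nat_lit 493) ln14_12_5 ln14_12_5_ok) (M (nat_lit 526) (B (L (nat_lit 397) ln14_16_7 ln14_16_7_ok) (L (nat_lit 557) ln14_13_5 ln14_13_5_ok))))) (B (M (nat_lit 526) (B (M (nat_lit 525) (B (L (nat_lit 493) ln14_12_5 ln14_12_5_ok) (L (nat_lit 557) ln14_13_5 ln14_13_5_ok))) (M (nat_lit 527) (B (L (nat_lit 495) ln14_12_4 ln14_12_4_ok) (L (nat_lit 559) ln14_13_4 ln14_13_4_ok))))) (M (nat_lit 366) (B (M (nat_lit 365) (B (L (nat_lit 333) ln14_14_7 ln14_14_7_ok) (L (nat_lit 397) ln14_15_7 ln14_15_7_ok))) (M (nat_lit 461) (B (L (nat_lit 334) ln14_10_5 ln14_10_5_ok) (L (nat_lit 493) ln14_11_5 ln14_11_5_ok))))))))))))))) (M (nat_lit 462) (B (M (nat_lit 366) (B (M (nat_lit 461) (B (L (nat_lit 334) ln14_10_5 ln14_10_5_ok) (L (nat_lit 493) ln14_11_5 ln14_11_5_ok))) (M (nat_lit 494) (B (M (nat_lit 365) (B (L (nat_lit 333) ln14_14_7 ln14_14_7_ok) (L (nat_lit 397)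 ln14_15_7 ln14_15_7_ok))) (M (nat_lit 495) (B (L (nat_lit 463) ln14_11_4 ln14_11_4_ok) (L (nat_lit 527) ln14_12_4 ln14_12_4_ok))))))) (B (M (nat_lit 494) (B (M (nat_lit 397) (B (L (nat_lit 365) ln14_15_7 ln14_15_7_ok) (L (nat_lit 526) ln14_16_7 ln14_16_7_ok))) (B (M (nat_lit 525) (B (L (nat_lit 493) ln14_12_5 ln14_12_5_ok) (M (nat_lit 526) (B (L (nat_lit 397) ln14_16_7 ln14_16_7_ok) (L (nat_lit 557) ln14_13_5 ln14_13_5_ok))))) (B (M (nat_lit 526) (B (M (nat_lit 525) (B (L (nat_lit 493) ln14_12_5 ln14_12_5_ok) (L (nat_lit 557) ln14_13_5 ln14_13_5_ok))) (M (nat_lit 527) (B (L (nat_lit 495) ln14_12_4 ln14_12_4_ok) (L (nat_lit 559) ln14_13_4 ln14_13_4_ok))))) (M (nat_lit 397) (B (L (nat_lit 365) ln14_15_7 ln14_15_7_ok) (M (nat_lit 399) (B (L (nat_lit 367) ln14_15_6 ln14_15_6_ok) (L (nat_lit 400) ln16_12_1 ln16_12_1_ok))))))))) (B (M (nat_lit 366) (B (M (nat_lit 461) (B (L (nat_lit 334) ln14_10_5 ln14_10_5_ok)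 (L (nat_lit 493) ln14_11_5 ln14_11_5_ok))) (M (nat_lit 494) (B (M (nat_lit 367) (B (L (nat_lit 335) ln14_14_6 ln14_14_6_ok) (L (nat_lit 399) ln14_15_6 ln14_15_6_ok))) (M (nat_lit 495) (B (L (nat_lit 463) ln14_11_4 ln14_11_4_ok) (L (nat_lit 527) ln14_12_4 ln14_12_4_ok))))))) (B (M (nat_lit 366) (B (M (nat_lit 461) (B (L (nat_lit 334) ln14_10_5 ln14_10_5_ok) (M (nat_lit 463) (B (L (nat_lit 495) ln14_11_4 ln14_11_4_ok) (L (nat_lit 464) ln16_14_3 ln16_14_3_ok))))) (B (M (nat_lit 494) (B (M (nat_lit 367) (B (L (nat_lit 335) ln14_14_6 ln14_14_6_ok) (L (nat_lit 399) ln14_15_6 ln14_15_6_ok))) (M (nat_lit 495) (B (L (nat_lit 463) ln14_11_4 ln14_11_4_ok) (L (nat_lit 527) ln14_12_4 ln14_12_4_ok))))) (M (nat_lit 333) (B (L (nat_lit 365) ln14_14_7 ln14_14_7_ok) (M (nat_lit 334) (B (L (nat_lit 301) ln14_13_7 ln14_13_7_ok) (L (nat_lit 461) ln14_10_5 ln14_10_5_ok)))))))) (B (M (nat_lit 366) (B (M (nat_lit 461) (B (L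 (nat_lit 334) ln14_10_5 ln14_10_5_ok) (L (nat_lit 493) ln14_11_5 ln14_11_5_ok))) (B (M (nat_lit 461) (B (L (nat_lit 493) ln14_11_5 ln14_11_5_ok) (M (nat_lit 463) (B (L (nat_lit 495) ln14_11_4 ln14_11_4_ok) (L (nat_lit 464) ln16_14_3 ln16_14_3_ok))))) (M (nat_lit 334) (B (M (nat_lit 333) (B (L (nat_lit 301) ln14_13_7 ln14_13_7_ok) (L (nat_lit 365) ln14_14_7 ln14_14_7_ok))) (M (nat_lit 335) (B (L (nat_lit 303) ln14_13_6 ln14_13_6_ok) (L (nat_lit 367) ln14_14_6 ln14_14_6_ok)))))))) (M (nat_lit 366) (B (M (nat_lit 461) (B (L (nat_lit 334) ln14_10_5 ln14_10_5_ok) (L (nat_lit 493) ln14_11_5 ln14_11_5_ok))) (B (M (nat_lit 494) (B (M (nat_lit 365) (B (L (nat_lit 333) ln14_14_7 ln14_14_7_ok) (L (nat_lit 397) ln14_15_7 ln14_15_7_ok))) (M (nat_lit 493) (B (L (nat_lit 461) ln14_11_5 ln14_11_5_ok) (L (nat_lit 525) ln14_12_5 ln14_12_5_ok))))) (M (nat_lit 334) (B (M (nat_lit 333) (B (L (nat_lit 301) ln14_13_7 ln14_13_7_ok)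 (L (nat_lit 365) ln14_14_7 ln14_14_7_ok))) (M (nat_lit 335) (B (L (nat_lit 303) ln14_13_6 ln14_13_6_ok) (L (nat_lit 367) ln14_14_6 ln14_14_6_ok)))))))))))))))))) (nat_lit 4852171964711426004262224822250396481013764881907679006548339266075587288659844840319955210682244261670434619182456250700704776192) (nat_lit 2358726516282320683264613450156880137266377620023794907093059157814281355306263822608431966648595546297535614123868430667491954755588263945688947546899079744417393803264) (nat_lit 2358726516282320683264613450156880137266377620023794907093059157814281355306263822608431966648595546297535614123868430667491954755588263945688947546899079744417393803264) (by decide +kernel)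
theorem c40_s884 : Sem (nat_lit 2079502270590611144683810638107312777577327806531862431377859685460965980854219217279980804578104683573043408221052678871730618368) (nat_lit 2476662842140371422462909370583933142671113940189790245926181473435732147668819013444204924584372299455103212605007915858061599573004071281058266968694376201658585579520) (nat_lit 2476662842140371422462909370583933142671113940189790245926181473435732147668819013444204924584372299455103212605007915858061599573004071281058266968694376201658585579520) :=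
  sem_of_chk (M (nat_lit 430) (B (M (nat_lit 427) (B (M (nat_lit 398) (B (L (nat_lit 399) ln11_13_2 ln11_13_2_ok) (M (nat_lit 462) (B (L (nat_lit 463) ln11_13_0 ln11_13_0_ok) (M (nat_lit 426) (B (L (nat_lit 397) ln10_13_2 ln10_13_2_ok) (L (nat_lit 461) ln10_13_0 ln10_13_0_ok))))))) (B (M (nat_lit 431) (B (M (nat_lit 395) (B (L (nat_lit 394) ln14_13_3 ln14_13_3_ok) (L (nat_lit 396) ln15_13_3 ln15_13_3_ok))) (M (nat_lit 463) (B (L (nat_lit 462) ln11_13_0 ln11_13_0_ok) (L (nat_lit 464) ln12_13_0 ln12_13_0_ok))))) (M (nat_lit 426) (B (M (nat_lit 398) (B (L (nat_lit 397) ln10_13_2 ln10_13_2_ok) (L (nat_lit 399) ln11_13_2 ln11_13_2_ok))) (M (nat_lit 458) (B (L (nat_lit 457) ln13_13_1 ln13_13_1_ok) (L (nat_lit 459) ln14_13_1 ln14_13_1_ok)))))))) (B (M (nat_lit 427) (B (M (nat_lit 431) (B (M (nat_lit 459) (B (L (nat_lit 458) ln14_13_1 ln14_13_1_ok) (L (nat_lit 460) ln15_13_1 ln15_13_1_ok))) (M (nat_lit 463) (B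 (L (nat_lit 462) ln11_13_0 ln11_13_0_ok) (L (nat_lit 464) ln12_13_0 ln12_13_0_ok))))) (B (M (nat_lit 426) (B (M (nat_lit 398) (B (L (nat_lit 397) ln10_13_2 ln10_13_2_ok) (L (nat_lit 399) ln11_13_2 ln11_13_2_ok))) (M (nat_lit 458) (B (L (nat_lit 457) ln13_13_1 ln13_13_1_ok) (L (nat_lit 459) ln14_13_1 ln14_13_1_ok))))) (M (nat_lit 431) (B (M (nat_lit 399) (B (L (nat_lit 398) ln11_13_2 ln11_13_2_ok) (L (nat_lit 400) ln12_13_2 ln12_13_2_ok))) (M (nat_lit 463) (B (L (nat_lit 462) ln11_13_0 ln11_13_0_ok) (L (nat_lit 464) ln12_13_0 ln12_13_0_ok)))))))) (B (M (nat_lit 427) (B (M (nat_lit 431) (B (M (nat_lit 395) (B (L (nat_lit 394) ln14_13_3 ln14_13_3_ok) (L (nat_lit 396) ln15_13_3 ln15_13_3_ok))) (M (nat_lit 459) (B (L (nat_lit 458) ln14_13_1 ln14_13_1_ok) (L (nat_lit 460) ln15_13_1 ln15_13_1_ok))))) (B (M (nat_lit 431) (B (M (nat_lit 459) (B (L (nat_lit 458) ln14_13_1 ln14_13_1_ok) (L (nat_lit 460) ln15_13_1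 ln15_13_1_ok))) (M (nat_lit 463) (B (L (nat_lit 462) ln11_13_0 ln11_13_0_ok) (L (nat_lit 464) ln12_13_0 ln12_13_0_ok))))) (B (M (nat_lit 426) (B (M (nat_lit 458) (B (L (nat_lit 457) ln13_13_1 ln13_13_1_ok) (L (nat_lit 459) ln14_13_1 ln14_13_1_ok))) (M (nat_lit 462) (B (L (nat_lit 461) ln10_13_0 ln10_13_0_ok) (L (nat_lit 463) ln11_13_0 ln11_13_0_ok))))) (M (nat_lit 431) (B (M (nat_lit 395) (B (L (nat_lit 394) ln14_13_3 ln14_13_3_ok) (L (nat_lit 396) ln15_13_3 ln15_13_3_ok))) (M (nat_lit 463) (B (L (nat_lit 462) ln11_13_0 ln11_13_0_ok) (L (nat_lit 464) ln12_13_0 ln12_13_0_ok))))))))) (B (M (nat_lit 431) (B (M (nat_lit 427) (B (M (nat_lit 399) (B (L (nat_lit 398) ln11_13_2 ln11_13_2_ok) (L (nat_lit 400) ln12_13_2 ln12_13_2_ok))) (M (nat_lit 459) (B (L (nat_lit 458) ln14_13_1 ln14_13_1_ok) (L (nat_lit 460) ln15_13_1 ln15_13_1_ok))))) (B (M (nat_lit 427) (B (M (nat_lit 395) (B (L (nat_lit 394) ln14_13_3 ln14_13_3_ok)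 (L (nat_lit 396) ln15_13_3 ln15_13_3_ok))) (M (nat_lit 459) (B (L (nat_lit 458) ln14_13_1 ln14_13_1_ok) (L (nat_lit 460) ln15_13_1 ln15_13_1_ok))))) (M (nat_lit 432) (B (M (nat_lit 396) (B (L (nat_lit 395) ln15_13_3 ln15_13_3_ok) (L (nat_lit 397) ln16_13_3 ln16_13_3_ok))) (M (nat_lit 464) (B (L (nat_lit 463) ln12_13_0 ln12_13_0_ok) (L (nat_lit 465) ln13_13_0 ln13_13_0_ok)))))))) (B c40_n866 (B (K (nat_lit 4852171964711426004262224822250396481013764881907679006548339266075587288659844840319955210682244261670434619182456250700704776192) (nat_lit 2358726516282320683264613450156880137266377620023794907093059157814281355306263822608431966648595546297535614123868430667491954755588263945688947546899079744417393803264) (nat_lit 2358726516282320683264613450156880137266377620023794907093059157814281355306263822608431966648595546297535614123868430667491954755588263945688947546899079744417393803264) c40_s879) (B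 (M (nat_lit 427) (B (M (nat_lit 431) (B (M (nat_lit 395) (B (L (nat_lit 394) ln14_13_3 ln14_13_3_ok) (L (nat_lit 396) ln15_13_3 ln15_13_3_ok))) (M (nat_lit 399) (B (L (nat_lit 398) ln11_13_2 ln11_13_2_ok) (L (nat_lit 400) ln12_13_2 ln12_13_2_ok))))) (B (M (nat_lit 431) (B (M (nat_lit 399) (B (L (nat_lit 398) ln11_13_2 ln11_13_2_ok) (L (nat_lit 400) ln12_13_2 ln12_13_2_ok))) (M (nat_lit 463) (B (L (nat_lit 462) ln11_13_0 ln11_13_0_ok) (L (nat_lit 464) ln12_13_0 ln12_13_0_ok))))) (B (M (nat_lit 431) (B (M (nat_lit 395) (B (L (nat_lit 394) ln14_13_3 ln14_13_3_ok) (L (nat_lit 396) ln15_13_3 ln15_13_3_ok))) (M (nat_lit 463) (B (L (nat_lit 462) ln11_13_0 ln11_13_0_ok) (L (nat_lit 464) ln12_13_0 ln12_13_0_ok))))) (M (nat_lit 398) (B (L (nat_lit 399) ln11_13_2 ln11_13_2_ok) (M (nat_lit 462) (B (L (nat_lit 463) ln11_13_0 ln11_13_0_ok) (M (nat_lit 426) (B (L (nat_lit 397) ln10_13_2 ln10_13_2_ok) (L (nat_lit 461)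 ln10_13_0 ln10_13_0_ok))))))))))) (M (nat_lit 427) (B (M (nat_lit 431) (B (M (nat_lit 395) (B (L (nat_lit 394) ln14_13_3 ln14_13_3_ok) (L (nat_lit 396) ln15_13_3 ln15_13_3_ok))) (M (nat_lit 399) (B (L (nat_lit 398) ln11_13_2 ln11_13_2_ok) (L (nat_lit 400) ln12_13_2 ln12_13_2_ok))))) (B (M (nat_lit 431) (B (M (nat_lit 399) (B (L (nat_lit 398) ln11_13_2 ln11_13_2_ok) (L (nat_lit 400) ln12_13_2 ln12_13_2_ok))) (M (nat_lit 459) (B (L (nat_lit 458) ln14_13_1 ln14_13_1_ok) (L (nat_lit 460) ln15_13_1 ln15_13_1_ok))))) (B (M (nat_lit 431) (B (M (nat_lit 395) (B (L (nat_lit 394) ln14_13_3 ln14_13_3_ok) (L (nat_lit 396) ln15_13_3 ln15_13_3_ok))) (M (nat_lit 459) (B (L (nat_lit 458) ln14_13_1 ln14_13_1_ok) (L (nat_lit 460) ln15_13_1 ln15_13_1_ok))))) (M (nat_lit 426) (B (M (nat_lit 398) (B (L (nat_lit 397) ln10_13_2 ln10_13_2_ok) (L (nat_lit 399) ln11_13_2 ln11_13_2_ok))) (M (nat_lit 458) (B (L (nat_lit 457) ln13_13_1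 ln13_13_1_ok) (L (nat_lit 459) ln14_13_1 ln14_13_1_ok))))))))))))))))) (nat_lit 2079502270590611144683810638107312777577327806531862431377859685460965980854219217279980804578104683573043408221052678871730618368) (nat_lit 2476662842140371422462909370583933142671113940189790245926181473435732147668819013444204924584372299455103212605007915858061599573004071281058266968694376201658585579520) (nat_lit 2476662842140371422462909370583933142671113940189790245926181473435732147668819013444204924584372299455103212605007915858061599573004071281058266968694376201658585579520) (by decide +kernel)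
noncomputable def c40_n898 : Cert := (M (nat_lit 396) (B (M (nat_lit 431) (B (L (nat_lit 395) ln15_13_3 ln15_13_3_ok) (M (nat_lit 432) (B (L (nat_lit 397) ln16_13_3 ln16_13_3_ok) (M (nat_lit 400) (B (L (nat_lit 399) ln12_13_2 ln12_13_2_ok) (L (nat_lit 401) ln13_13_2 ln13_13_2_ok))))))) (B (M (nat_lit 460) (B (M (nat_lit 431) (B (L (nat_lit 459) ln15_13_1 ln15_13_1_ok) (M (nat_lit 432) (B (L (nat_lit 397) ln16_13_3 ln16_13_3_ok) (L (nat_lit 461) ln16_13_1 ln16_13_1_ok))))) (B (M (nat_lit 461) (B (M (nat_lit 364) (B (L (nat_lit 332) ln12_10_4 ln12_10_4_ok) (L (nat_lit 493) ln12_11_4 ln12_11_4_ok))) (M (nat_lit 431) (B (L (nat_lit 459) ln15_13_1 ln15_13_1_ok) (L (nat_lit 432) ln16_13_1 ln16_13_1_ok))))) (B (M (nat_lit 364) (B (M (nat_lit 461) (B (L (nat_lit 332) ln12_10_4 ln12_10_4_ok) (L (nat_lit 493) ln12_11_4 ln12_11_4_ok))) (M (nat_lit 492) (B (M (nat_lit 365) (B (L (nat_lit 333) ln12_14_6 ln12_14_6_ok)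 (L (nat_lit 397) ln12_15_6 ln12_15_6_ok))) (M (nat_lit 491) (B (L (nat_lit 459) ln12_11_5 ln12_11_5_ok) (L (nat_lit 523) ln12_12_5 ln12_12_5_ok))))))) (B (M (nat_lit 364) (B (M (nat_lit 461) (B (L (nat_lit 332) ln12_10_4 ln12_10_4_ok) (L (nat_lit 493) ln12_11_4 ln12_11_4_ok))) (B (M (nat_lit 492) (B (M (nat_lit 365) (B (L (nat_lit 333) ln12_14_6 ln12_14_6_ok) (L (nat_lit 397) ln12_15_6 ln12_15_6_ok))) (M (nat_lit 493) (B (L (nat_lit 461) ln12_11_4 ln12_11_4_ok) (L (nat_lit 525) ln12_12_4 ln12_12_4_ok))))) (M (nat_lit 332) (B (M (nat_lit 331) (B (L (nat_lit 299) ln12_13_7 ln12_13_7_ok) (L (nat_lit 363) ln12_14_7 ln12_14_7_ok))) (M (nat_lit 333) (B (L (nat_lit 301) ln12_13_6 ln12_13_6_ok) (L (nat_lit 365) ln12_14_6 ln12_14_6_ok)))))))) (M (nat_lit 397) (B (M (nat_lit 365) (B (L (nat_lit 333) ln13_10_5 ln13_10_5_ok) (L (nat_lit 492) ln12_15_6 ln12_15_6_ok))) (M (nat_lit 431) (B (L (nat_lit 432) ln16_13_3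 ln16_13_3_ok) (L (nat_lit 459) ln15_13_1 ln15_13_1_ok)))))))))) (B (M (nat_lit 431) (B (L (nat_lit 395) ln15_13_3 ln15_13_3_ok) (M (nat_lit 432) (B (M (nat_lit 400) (B (L (nat_lit 399) ln12_13_2 ln12_13_2_ok) (L (nat_lit 401) ln13_13_2 ln13_13_2_ok))) (M (nat_lit 460) (B (L (nat_lit 459) ln15_13_1 ln15_13_1_ok) (L (nat_lit 461) ln16_13_1 ln16_13_1_ok))))))) (M (nat_lit 364) (B (M (nat_lit 461) (B (L (nat_lit 332) ln12_10_4 ln12_10_4_ok) (M (nat_lit 493) (B (L (nat_lit 397) ln13_15_7 ln13_15_7_ok) (L (nat_lit 460) ln12_11_4 ln12_11_4_ok))))) (B (M (nat_lit 460) (B (M (nat_lit 461) (B (L (nat_lit 493) ln12_11_4 ln12_11_4_ok) (M (nat_lit 459) (B (L (nat_lit 491) ln12_11_5 ln12_11_5_ok) (L (nat_lit 458) ln10_14_2 ln10_14_2_ok))))) (B (M (nat_lit 492) (B (M (nat_lit 363) (B (L (nat_lit 331) ln12_14_7 ln12_14_7_ok) (L (nat_lit 395) ln12_15_7 ln12_15_7_ok))) (M (nat_lit 493) (B (L (nat_lit 461) ln12_11_4 ln12_11_4_ok)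 (L (nat_lit 525) ln12_12_4 ln12_12_4_ok))))) (M (nat_lit 492) (B (M (nat_lit 363) (B (L (nat_lit 331) ln12_14_7 ln12_14_7_ok) (L (nat_lit 395) ln12_15_7 ln12_15_7_ok))) (M (nat_lit 491) (B (L (nat_lit 459) ln12_11_5 ln12_11_5_ok) (L (nat_lit 523) ln12_12_5 ln12_12_5_ok)))))))) (B (M (nat_lit 461) (B (L (nat_lit 332) ln12_10_4 ln12_10_4_ok) (M (nat_lit 493) (B (L (nat_lit 397) ln13_15_7 ln13_15_7_ok) (L (nat_lit 525) ln13_16_7 ln13_16_7_ok))))) (M (nat_lit 460) (B (M (nat_lit 492) (B (M (nat_lit 365) (B (L (nat_lit 333) ln12_14_6 ln12_14_6_ok) (L (nat_lit 397) ln12_15_6 ln12_15_6_ok))) (M (nat_lit 491) (B (L (nat_lit 459) ln12_11_5 ln12_11_5_ok) (L (nat_lit 523) ln12_12_5 ln12_12_5_ok))))) (B (M (nat_lit 492) (B (M (nat_lit 363) (B (L (nat_lit 331) ln12_14_7 ln12_14_7_ok) (L (nat_lit 395) ln12_15_7 ln12_15_7_ok))) (M (nat_lit 491) (B (L (nat_lit 459) ln12_11_5 ln12_11_5_ok) (L (nat_lit 523) ln12_12_5 ln12_12_5_ok)))))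 (B (M (nat_lit 492) (B (M (nat_lit 363) (B (L (nat_lit 331) ln12_14_7 ln12_14_7_ok) (L (nat_lit 395) ln12_15_7 ln12_15_7_ok))) (M (nat_lit 365) (B (L (nat_lit 333) ln12_14_6 ln12_14_6_ok) (L (nat_lit 397) ln12_15_6 ln12_15_6_ok))))) (M (nat_lit 332) (B (M (nat_lit 331) (B (L (nat_lit 299) ln12_13_7 ln12_13_7_ok) (L (nat_lit 363) ln12_14_7 ln12_14_7_ok))) (M (nat_lit 333) (B (L (nat_lit 301) ln12_13_6 ln12_13_6_ok) (L (nat_lit 365) ln12_14_6 ln12_14_6_ok)))))))))))))))))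
theorem c40_s906 : Sem (nat_lit 2079502270590611144683810638107312777577327806531862431377859685460965980854219217279980804578104683573043408221052678871730618368) (nat_lit 2358726516309779873924315912208194533437309006313580652483933475331187311183517469288795814352577029226752710393032227594717908795355857398647986844220326236903547338752) (nat_lit 2358726516309779873924315912208194533437309006313580652483933475331187311183517469288795814352577029226752710393032227594717908795355857398647986844220326236903547338752) :=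
  sem_of_chk (M (nat_lit 430) (B (M (nat_lit 427) (B (M (nat_lit 398) (B (L (nat_lit 399) ln11_13_2 ln11_13_2_ok) (M (nat_lit 462) (B (L (nat_lit 463) ln11_13_0 ln11_13_0_ok) (M (nat_lit 426) (B (L (nat_lit 397) ln10_13_2 ln10_13_2_ok) (L (nat_lit 461) ln10_13_0 ln10_13_0_ok))))))) (B (M (nat_lit 431) (B (M (nat_lit 399) (B (L (nat_lit 398) ln11_13_2 ln11_13_2_ok) (L (nat_lit 400) ln12_13_2 ln12_13_2_ok))) (M (nat_lit 463) (B (L (nat_lit 462) ln11_13_0 ln11_13_0_ok) (L (nat_lit 464) ln12_13_0 ln12_13_0_ok))))) (B (M (nat_lit 426) (B (M (nat_lit 458) (B (L (nat_lit 457) ln13_13_1 ln13_13_1_ok) (L (nat_lit 459) ln14_13_1 ln14_13_1_ok))) (M (nat_lit 462) (B (L (nat_lit 461) ln10_13_0 ln10_13_0_ok) (L (nat_lit 463) ln11_13_0 ln11_13_0_ok))))) (M (nat_lit 426) (B (M (nat_lit 398) (B (L (nat_lit 397) ln10_13_2 ln10_13_2_ok) (L (nat_lit 399) ln11_13_2 ln11_13_2_ok))) (M (nat_lit 458) (B (L (nat_lit 457) ln13_13_1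 ln13_13_1_ok) (L (nat_lit 459) ln14_13_1 ln14_13_1_ok))))))))) (B (M (nat_lit 427) (B (M (nat_lit 431) (B (M (nat_lit 399) (B (L (nat_lit 398) ln11_13_2 ln11_13_2_ok) (L (nat_lit 400) ln12_13_2 ln12_13_2_ok))) (M (nat_lit 459) (B (L (nat_lit 458) ln14_13_1 ln14_13_1_ok) (L (nat_lit 460) ln15_13_1 ln15_13_1_ok))))) (B (M (nat_lit 431) (B (M (nat_lit 459) (B (L (nat_lit 458) ln14_13_1 ln14_13_1_ok) (L (nat_lit 460) ln15_13_1 ln15_13_1_ok))) (M (nat_lit 463) (B (L (nat_lit 462) ln11_13_0 ln11_13_0_ok) (L (nat_lit 464) ln12_13_0 ln12_13_0_ok))))) (B (M (nat_lit 426) (B (M (nat_lit 458) (B (L (nat_lit 457) ln13_13_1 ln13_13_1_ok) (L (nat_lit 459) ln14_13_1 ln14_13_1_ok))) (M (nat_lit 462) (B (L (nat_lit 461) ln10_13_0 ln10_13_0_ok) (L (nat_lit 463) ln11_13_0 ln11_13_0_ok))))) (M (nat_lit 431) (B (M (nat_lit 399) (B (L (nat_lit 398) ln11_13_2 ln11_13_2_ok) (L (nat_lit 400) ln12_13_2 ln12_13_2_ok))) (M (nat_lit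 463) (B (L (nat_lit 462) ln11_13_0 ln11_13_0_ok) (L (nat_lit 464) ln12_13_0 ln12_13_0_ok))))))))) (B (M (nat_lit 431) (B (M (nat_lit 432) (B (M (nat_lit 396) (B (L (nat_lit 395) ln15_13_3 ln15_13_3_ok) (L (nat_lit 397) ln16_13_3 ln16_13_3_ok))) (M (nat_lit 460) (B (L (nat_lit 459) ln15_13_1 ln15_13_1_ok) (L (nat_lit 461) ln16_13_1 ln16_13_1_ok))))) (B (M (nat_lit 427) (B (M (nat_lit 459) (B (L (nat_lit 458) ln14_13_1 ln14_13_1_ok) (L (nat_lit 460) ln15_13_1 ln15_13_1_ok))) (M (nat_lit 463) (B (L (nat_lit 462) ln11_13_0 ln11_13_0_ok) (L (nat_lit 464) ln12_13_0 ln12_13_0_ok))))) (M (nat_lit 432) (B (M (nat_lit 396) (B (L (nat_lit 395) ln15_13_3 ln15_13_3_ok) (L (nat_lit 397) ln16_13_3 ln16_13_3_ok))) (M (nat_lit 464) (B (L (nat_lit 463) ln12_13_0 ln12_13_0_ok) (L (nat_lit 465) ln13_13_0 ln13_13_0_ok)))))))) (B c40_n898 (B (K (nat_lit 4852171964711426004262224822250396481013764881907679006548339266075587288659844840319955210682244261670434619182456250700704776192)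 (nat_lit 2358726516282320683264613450156880137266377620023794907093059157814281355306263822608431966648595546297535614123868430667491954755588263945688947546899079744417393803264) (nat_lit 2358726516282320683264613450156880137266377620023794907093059157814281355306263822608431966648595546297535614123868430667491954755588263945688947546899079744417393803264) c40_s879) (B (M (nat_lit 431) (B (M (nat_lit 432) (B (M (nat_lit 396) (B (L (nat_lit 395) ln15_13_3 ln15_13_3_ok) (L (nat_lit 397) ln16_13_3 ln16_13_3_ok))) (M (nat_lit 460) (B (L (nat_lit 459) ln15_13_1 ln15_13_1_ok) (L (nat_lit 461) ln16_13_1 ln16_13_1_ok))))) (M (nat_lit 427) (B (M (nat_lit 399) (B (L (nat_lit 398) ln11_13_2 ln11_13_2_ok) (L (nat_lit 400) ln12_13_2 ln12_13_2_ok))) (M (nat_lit 463) (B (L (nat_lit 462) ln11_13_0 ln11_13_0_ok) (L (nat_lit 464) ln12_13_0 ln12_13_0_ok))))))) (M (nat_lit 431) (B (M (nat_lit 432) (B (M (nat_lit 396) (B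 (L (nat_lit 395) ln15_13_3 ln15_13_3_ok) (L (nat_lit 397) ln16_13_3 ln16_13_3_ok))) (M (nat_lit 400) (B (L (nat_lit 399) ln12_13_2 ln12_13_2_ok) (L (nat_lit 401) ln13_13_2 ln13_13_2_ok))))) (B (M (nat_lit 427) (B (M (nat_lit 399) (B (L (nat_lit 398) ln11_13_2 ln11_13_2_ok) (L (nat_lit 400) ln12_13_2 ln12_13_2_ok))) (M (nat_lit 463) (B (L (nat_lit 462) ln11_13_0 ln11_13_0_ok) (L (nat_lit 464) ln12_13_0 ln12_13_0_ok))))) (M (nat_lit 432) (B (M (nat_lit 396) (B (L (nat_lit 395) ln15_13_3 ln15_13_3_ok) (L (nat_lit 397) ln16_13_3 ln16_13_3_ok))) (M (nat_lit 464) (B (L (nat_lit 463) ln12_13_0 ln12_13_0_ok) (L (nat_lit 465) ln13_13_0 ln13_13_0_ok))))))))))))))) (nat_lit 2079502270590611144683810638107312777577327806531862431377859685460965980854219217279980804578104683573043408221052678871730618368) (nat_lit 2358726516309779873924315912208194533437309006313580652483933475331187311183517469288795814352577029226752710393032227594717908795355857398647986844220326236903547338752)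 (nat_lit 2358726516309779873924315912208194533437309006313580652483933475331187311183517469288795814352577029226752710393032227594717908795355857398647986844220326236903547338752) (by decide +kernel)
theorem c40_s1236 : Sem (nat_lit 5954262831509113917970671778902343783532342804327837356357830143065656733685921768742376304727131933651871260571575937852568135413341880320) (nat_lit 1769044887046985368878640783555362837325991782770345758818609132998152275030985077229171551529867216771998228092394076778981831319545139224295303208322216009898351656960) (nat_lit 1769044887046985368878640783555362837325991782770345758818609132998152275030985077229171551529867216771998228092394076778981831319545139224295303208322216009898351656960) :=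
  sem_of_chk (M (nat_lit 460) (B (M (nat_lit 462) (B (M (nat_lit 463) (B (L (nat_lit 427) ln15_14_3 ln15_14_3_ok) (L (nat_lit 464) ln16_14_3 ln16_14_3_ok))) (M (nat_lit 493) (B (M (nat_lit 525) (B (L (nat_lit 396) ln13_16_7 ln13_16_7_ok) (L (nat_lit 557) ln13_17_7 ln13_17_7_ok))) (M (nat_lit 494) (B (M (nat_lit 526) (B (L (nat_lit 397) ln13_12_4 ln13_12_4_ok) (L (nat_lit 558) ln14_17_7 ln14_17_7_ok))) (M (nat_lit 495) (B (L (nat_lit 459) ln11_14_0 ln11_14_0_ok) (L (nat_lit 496) ln16_15_3 ln16_15_3_ok))))))))) (B (M (nat_lit 462) (B (M (nat_lit 427) (B (L (nat_lit 426) ln10_13_0 ln10_13_0_ok) (L (nat_lit 463) ln15_14_3 ln15_14_3_ok))) (B (M (nat_lit 463) (B (L (nat_lit 427) ln15_14_3 ln15_14_3_ok) (L (nat_lit 464) ln16_14_3 ln16_14_3_ok))) (B (M (nat_lit 463) (B (L (nat_lit 464) ln16_14_3 ln16_14_3_ok) (M (nat_lit 492) (B (L (nat_lit 491) ln15_14_1 ln15_14_1_ok) (M (nat_lit 524) (B (L (nat_lit 397) ln12_16_6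 ln12_16_6_ok) (L (nat_lit 556) ln12_17_6 ln12_17_6_ok))))))) (M (nat_lit 430) (B (M (nat_lit 431) (B (L (nat_lit 459) ln15_13_1 ln15_13_1_ok) (L (nat_lit 432) ln16_13_1 ln16_13_1_ok))) (B (M (nat_lit 494) (B (M (nat_lit 397) (B (L (nat_lit 365) ln13_11_4 ln13_11_4_ok) (L (nat_lit 526) ln14_16_7 ln14_16_7_ok))) (M (nat_lit 459) (B (L (nat_lit 458) ln10_14_2 ln10_14_2_ok) (L (nat_lit 495) ln11_14_0 ln11_14_0_ok))))) (M (nat_lit 399) (B (M (nat_lit 427) (B (L (nat_lit 398) ln11_13_2 ln11_13_2_ok) (L (nat_lit 426) ln10_13_0 ln10_13_0_ok))) (M (nat_lit 431) (B (L (nat_lit 400) ln12_13_2 ln12_13_2_ok) (L (nat_lit 432) ln16_13_1 ln16_13_1_ok)))))))))))) (B (M (nat_lit 427) (B (M (nat_lit 426) (B (L (nat_lit 425) ln9_13_0 ln9_13_0_ok) (L (nat_lit 462) ln10_13_0 ln10_13_0_ok))) (B (M (nat_lit 462) (B (L (nat_lit 426) ln10_13_0 ln10_13_0_ok) (L (nat_lit 463) ln15_14_3 ln15_14_3_ok))) (B (M (nat_lit 459) (B (M (nat_lit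 430) (B (L (nat_lit 458) ln14_13_1 ln14_13_1_ok) (L (nat_lit 431) ln15_13_1 ln15_13_1_ok))) (M (nat_lit 491) (B (M (nat_lit 396) (B (L (nat_lit 364) ln12_11_5 ln12_11_5_ok) (L (nat_lit 523) ln11_16_6 ln11_16_6_ok))) (M (nat_lit 462) (B (L (nat_lit 463) ln15_14_3 ln15_14_3_ok) (L (nat_lit 490) ln14_14_1 ln14_14_1_ok))))))) (M (nat_lit 430) (B (M (nat_lit 459) (B (L (nat_lit 458) ln14_13_1 ln14_13_1_ok) (L (nat_lit 431) ln15_13_1 ln15_13_1_ok))) (B (M (nat_lit 458) (B (L (nat_lit 459) ln14_13_1 ln14_13_1_ok) (M (nat_lit 426) (B (L (nat_lit 425) ln9_13_0 ln9_13_0_ok) (L (nat_lit 457) ln13_13_1 ln13_13_1_ok))))) (B (M (nat_lit 431) (B (L (nat_lit 459) ln15_13_1 ln15_13_1_ok) (L (nat_lit 432) ln16_13_1 ln16_13_1_ok))) (M (nat_lit 431) (B (L (nat_lit 432) ln16_13_1 ln16_13_1_ok) (M (nat_lit 399) (B (L (nat_lit 398) ln11_13_2 ln11_13_2_ok) (L (nat_lit 400) ln12_13_2 ln12_13_2_ok))))))))))))) (B (M (nat_lit 462)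 (B (M (nat_lit 463) (B (L (nat_lit 464) ln16_14_3 ln16_14_3_ok) (M (nat_lit 492) (B (L (nat_lit 491) ln15_14_1 ln15_14_1_ok) (M (nat_lit 524) (B (L (nat_lit 397) ln12_16_6 ln12_16_6_ok) (L (nat_lit 556) ln12_17_6 ln12_17_6_ok))))))) (B (M (nat_lit 463) (B (L (nat_lit 464) ln16_14_3 ln16_14_3_ok) (M (nat_lit 459) (B (M (nat_lit 431) (B (L (nat_lit 430) ln15_13_1 ln15_13_1_ok) (L (nat_lit 432) ln12_14_2 ln12_14_2_ok))) (M (nat_lit 495) (B (L (nat_lit 494) ln11_14_0 ln11_14_0_ok) (L (nat_lit 496) ln12_14_0 ln12_14_0_ok))))))) (M (nat_lit 493) (B (M (nat_lit 525) (B (L (nat_lit 396) ln13_16_7 ln13_16_7_ok) (L (nat_lit 557) ln13_17_7 ln13_17_7_ok))) (M (nat_lit 494) (B (M (nat_lit 526) (B (L (nat_lit 397) ln13_12_4 ln13_12_4_ok) (L (nat_lit 558) ln14_17_7 ln14_17_7_ok))) (M (nat_lit 495) (B (L (nat_lit 459) ln11_14_0 ln11_14_0_ok) (L (nat_lit 496) ln16_15_3 ln16_15_3_ok)))))))))) (B (M (nat_lit 493) (B (M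 (nat_lit 396) (B (L (nat_lit 364) ln12_11_4 ln12_11_4_ok) (L (nat_lit 525) ln13_16_7 ln13_16_7_ok))) (B (M (nat_lit 525) (B (L (nat_lit 396) ln13_16_7 ln13_16_7_ok) (L (nat_lit 557) ln13_17_7 ln13_17_7_ok))) (B (M (nat_lit 525) (B (L (nat_lit 557) ln13_17_7 ln13_17_7_ok) (M (nat_lit 397) (B (M (nat_lit 524) (B (L (nat_lit 492) ln12_16_6 ln12_16_6_ok) (L (nat_lit 556) ln13_13_5 ln13_13_5_ok))) (M (nat_lit 526) (B (L (nat_lit 494) ln13_12_4 ln13_12_4_ok) (L (nat_lit 558) ln13_13_4 ln13_13_4_ok))))))) (M (nat_lit 492) (B (M (nat_lit 397) (B (L (nat_lit 365) ln13_11_5 ln13_11_5_ok) (L (nat_lit 524) ln12_16_6 ln12_16_6_ok))) (M (nat_lit 491) (B (M (nat_lit 396) (B (L (nat_lit 364) ln12_11_4 ln12_11_4_ok) (L (nat_lit 523) ln12_12_5 ln12_12_5_ok))) (M (nat_lit 490) (B (L (nat_lit 489) ln9_15_2 ln9_15_2_ok) (L (nat_lit 462) ln10_15_2 ln10_15_2_ok))))))))))) (M (nat_lit 492) (B (M (nat_lit 397) (B (L (nat_lit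 365) ln13_11_5 ln13_11_5_ok) (L (nat_lit 524) ln12_16_6 ln12_16_6_ok))) (B (M (nat_lit 524) (B (L (nat_lit 397) ln12_16_6 ln12_16_6_ok) (L (nat_lit 556) ln12_17_6 ln12_17_6_ok))) (B (M (nat_lit 524) (B (L (nat_lit 556) ln12_17_6 ln12_17_6_ok) (M (nat_lit 396) (B (M (nat_lit 364) (B (L (nat_lit 332) ln12_10_4 ln12_10_4_ok) (L (nat_lit 493) ln12_11_4 ln12_11_4_ok))) (B (M (nat_lit 493) (B (L (nat_lit 364) ln12_11_4 ln12_11_4_ok) (L (nat_lit 525) ln13_16_7 ln13_16_7_ok))) (B (M (nat_lit 525) (B (L (nat_lit 493) ln13_16_7 ln13_16_7_ok) (L (nat_lit 557) ln12_13_4 ln12_13_4_ok))) (M (nat_lit 523) (B (L (nat_lit 491) ln12_12_5 ln12_12_5_ok) (L (nat_lit 555) ln12_13_5 ln12_13_5_ok))))))))) (M (nat_lit 493) (B (M (nat_lit 396) (B (L (nat_lit 364) ln12_11_4 ln12_11_4_ok) (L (nat_lit 525) ln13_16_7 ln13_16_7_ok))) (B (M (nat_lit 525) (B (L (nat_lit 396) ln13_16_7 ln13_16_7_ok) (L (nat_lit 557) ln13_17_7 ln13_17_7_ok)))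 (M (nat_lit 494) (B (M (nat_lit 397) (B (L (nat_lit 365) ln13_11_5 ln13_11_5_ok) (L (nat_lit 526) ln13_12_4 ln13_12_4_ok))) (M (nat_lit 495) (B (L (nat_lit 459) ln15_15_3 ln15_15_3_ok) (L (nat_lit 496) ln16_15_3 ln16_15_3_ok)))))))))))))))))) (nat_lit 5954262831509113917970671778902343783532342804327837356357830143065656733685921768742376304727131933651871260571575937852568135413341880320) (nat_lit 1769044887046985368878640783555362837325991782770345758818609132998152275030985077229171551529867216771998228092394076778981831319545139224295303208322216009898351656960) (nat_lit 1769044887046985368878640783555362837325991782770345758818609132998152275030985077229171551529867216771998228092394076778981831319545139224295303208322216009898351656960) (by decide +kernel)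
noncomputable def c40_n1319 : Cert := (M (nat_lit 430) (B (M (nat_lit 460) (B (M (nat_lit 459) (B (L (nat_lit 431) ln15_13_1 ln15_13_1_ok) (L (nat_lit 458) ln10_14_2 ln10_14_2_ok))) (M (nat_lit 492) (B (M (nat_lit 463) (B (L (nat_lit 464) ln16_14_3 ln16_14_3_ok) (L (nat_lit 491) ln15_14_1 ln15_14_1_ok))) (M (nat_lit 525) (B (M (nat_lit 493) (B (L (nat_lit 396) ln13_16_7 ln13_16_7_ok) (L (nat_lit 398) ln13_16_6 ln13_16_6_ok))) (M (nat_lit 524) (B (L (nat_lit 557) ln12_13_4 ln12_13_4_ok) (L (nat_lit 556) ln12_17_6 ln12_17_6_ok))))))))) (B (M (nat_lit 398) (B (M (nat_lit 366) (B (L (nat_lit 334) ln14_10_5 ln14_10_5_ok) (L (nat_lit 493) ln14_11_5 ln14_11_5_ok))) (B (M (nat_lit 493) (B (L (nat_lit 366) ln14_11_5 ln14_11_5_ok) (L (nat_lit 525) ln13_16_6 ln13_16_6_ok))) (M (nat_lit 431) (B (M (nat_lit 460) (B (L (nat_lit 459) ln15_13_1 ln15_13_1_ok) (L (nat_lit 432) ln16_13_1 ln16_13_1_ok))) (M (nat_lit 399)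 (B (L (nat_lit 400) ln12_13_2 ln12_13_2_ok) (M (nat_lit 367) (B (L (nat_lit 335) ln15_10_5 ln15_10_5_ok) (L (nat_lit 494) ln14_15_6 ln14_15_6_ok)))))))))) (B (M (nat_lit 463) (B (L (nat_lit 464) ln16_14_3 ln16_14_3_ok) (M (nat_lit 431) (B (M (nat_lit 460) (B (L (nat_lit 459) ln15_13_1 ln15_13_1_ok) (L (nat_lit 432) ln16_13_1 ln16_13_1_ok))) (M (nat_lit 399) (B (L (nat_lit 400) ln12_13_2 ln12_13_2_ok) (M (nat_lit 367) (B (L (nat_lit 335) ln15_10_5 ln15_10_5_ok) (L (nat_lit 494) ln15_11_5 ln15_11_5_ok))))))))) (B (M (nat_lit 460) (B (M (nat_lit 459) (B (L (nat_lit 458) ln10_14_2 ln10_14_2_ok) (M (nat_lit 463) (B (L (nat_lit 464) ln16_14_3 ln16_14_3_ok) (M (nat_lit 495) (B (L (nat_lit 494) ln11_14_0 ln11_14_0_ok) (L (nat_lit 496) ln12_14_0 ln12_14_0_ok))))))) (B (M (nat_lit 492) (B (M (nat_lit 463) (B (L (nat_lit 464) ln16_14_3 ln16_14_3_ok) (L (nat_lit 491) ln15_14_1 ln15_14_1_ok))) (M (nat_lit 525) (B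 (M (nat_lit 493) (B (L (nat_lit 396) ln13_16_7 ln13_16_7_ok) (L (nat_lit 398) ln13_16_6 ln13_16_6_ok))) (M (nat_lit 524) (B (L (nat_lit 557) ln12_13_4 ln12_13_4_ok) (L (nat_lit 556) ln12_17_6 ln12_17_6_ok))))))) (M (nat_lit 494) (B (M (nat_lit 459) (B (L (nat_lit 458) ln10_14_2 ln10_14_2_ok) (L (nat_lit 495) ln11_14_0 ln11_14_0_ok))) (M (nat_lit 525) (B (M (nat_lit 493) (B (L (nat_lit 396) ln13_16_7 ln13_16_7_ok) (L (nat_lit 398) ln13_16_6 ln13_16_6_ok))) (B (M (nat_lit 493) (B (L (nat_lit 398) ln13_16_6 ln13_16_6_ok) (L (nat_lit 557) ln13_17_7 ln13_17_7_ok))) (B (M (nat_lit 493) (B (L (nat_lit 396) ln13_16_7 ln13_16_7_ok) (L (nat_lit 557) ln13_17_7 ln13_17_7_ok))) (M (nat_lit 526) (B (L (nat_lit 558) ln14_17_7 ln14_17_7_ok) (L (nat_lit 557) ln14_13_5 ln14_13_5_ok)))))))))))) (M (nat_lit 398) (B (M (nat_lit 366) (B (L (nat_lit 334) ln14_10_5 ln14_10_5_ok) (L (nat_lit 493) ln14_11_5 ln14_11_5_ok))) (B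 (M (nat_lit 493) (B (L (nat_lit 366) ln14_11_5 ln14_11_5_ok) (L (nat_lit 525) ln13_16_6 ln13_16_6_ok))) (B (M (nat_lit 494) (B (M (nat_lit 525) (B (L (nat_lit 493) ln13_16_6 ln13_16_6_ok) (M (nat_lit 526) (B (L (nat_lit 558) ln14_17_7 ln14_17_7_ok) (L (nat_lit 557) ln14_13_5 ln14_13_5_ok))))) (M (nat_lit 399) (B (L (nat_lit 367) ln14_15_6 ln14_15_6_ok) (M (nat_lit 400) (B (L (nat_lit 401) ln17_12_1 ln17_12_1_ok) (L (nat_lit 431) ln12_13_2 ln12_13_2_ok))))))) (M (nat_lit 366) (B (L (nat_lit 334) ln14_10_5 ln14_10_5_ok) (M (nat_lit 463) (B (L (nat_lit 495) ln14_11_4 ln14_11_4_ok) (L (nat_lit 464) ln16_14_3 ln16_14_3_ok))))))))))))))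
noncomputable def c40_n1409 : Cert := (M (nat_lit 430) (B (M (nat_lit 427) (B (L (nat_lit 426) ln10_13_0 ln10_13_0_ok) (M (nat_lit 398) (B (L (nat_lit 399) ln11_13_2 ln11_13_2_ok) (M (nat_lit 493) (B (L (nat_lit 366) ln14_11_5 ln14_11_5_ok) (L (nat_lit 525) ln13_16_6 ln13_16_6_ok))))))) (B (M (nat_lit 427) (B (L (nat_lit 426) ln10_13_0 ln10_13_0_ok) (M (nat_lit 431) (B (M (nat_lit 399) (B (L (nat_lit 398) ln11_13_2 ln11_13_2_ok) (L (nat_lit 400) ln12_13_2 ln12_13_2_ok))) (M (nat_lit 459) (B (L (nat_lit 458) ln14_13_1 ln14_13_1_ok) (L (nat_lit 460) ln15_13_1 ln15_13_1_ok))))))) (B (M (nat_lit 525) (B (M (nat_lit 493) (B (L (nat_lit 396) ln13_16_7 ln13_16_7_ok) (L (nat_lit 557) ln13_17_6 ln13_17_6_ok))) (B (M (nat_lit 526) (B (M (nat_lit 493) (B (L (nat_lit 558) ln13_13_4 ln13_13_4_ok) (L (nat_lit 557) ln13_17_6 ln13_17_6_ok))) (B (M (nat_lit 494) (B (L (nat_lit 558) ln14_17_7 ln14_17_7_ok) (L (nat_lit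 557) ln14_13_5 ln14_13_5_ok))) (B (M (nat_lit 558) (B (L (nat_lit 494) ln14_17_7 ln14_17_7_ok) (L (nat_lit 493) ln13_13_4 ln13_13_4_ok))) (M (nat_lit 557) (B (L (nat_lit 493) ln13_17_6 ln13_17_6_ok) (L (nat_lit 494) ln14_13_5 ln14_13_5_ok))))))) (B (M (nat_lit 459) (B (M (nat_lit 427) (B (L (nat_lit 426) ln10_13_0 ln10_13_0_ok) (L (nat_lit 458) ln14_13_1 ln14_13_1_ok))) (B (M (nat_lit 458) (B (L (nat_lit 427) ln14_13_1 ln14_13_1_ok) (L (nat_lit 460) ln10_14_2 ln10_14_2_ok))) (B (M (nat_lit 460) (B (L (nat_lit 431) ln15_13_1 ln15_13_1_ok) (L (nat_lit 458) ln10_14_2 ln10_14_2_ok))) (M (nat_lit 494) (B (M (nat_lit 526) (B (L (nat_lit 558) ln14_17_7 ln14_17_7_ok) (L (nat_lit 557) ln14_13_5 ln14_13_5_ok))) (M (nat_lit 460) (B (L (nat_lit 431) ln15_13_1 ln15_13_1_ok) (L (nat_lit 495) ln11_14_0 ln11_14_0_ok))))))))) (M (nat_lit 431) (B (M (nat_lit 460) (B (L (nat_lit 459) ln15_13_1 ln15_13_1_ok) (L (nat_lit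 432) ln16_13_1 ln16_13_1_ok))) (M (nat_lit 526) (B (M (nat_lit 399) (B (L (nat_lit 400) ln12_13_2 ln12_13_2_ok) (L (nat_lit 494) ln14_16_6 ln14_16_6_ok))) (M (nat_lit 493) (B (L (nat_lit 396) ln13_16_7 ln13_16_7_ok) (L (nat_lit 558) ln13_13_4 ln13_13_4_ok))))))))))) (B (M (nat_lit 427) (B (L (nat_lit 426) ln10_13_0 ln10_13_0_ok) (M (nat_lit 494) (B (M (nat_lit 459) (B (L (nat_lit 458) ln14_13_1 ln14_13_1_ok) (M (nat_lit 460) (B (L (nat_lit 431) ln15_13_1 ln15_13_1_ok) (L (nat_lit 495) ln11_14_0 ln11_14_0_ok))))) (M (nat_lit 525) (B (M (nat_lit 493) (B (L (nat_lit 396) ln13_16_7 ln13_16_7_ok) (L (nat_lit 398) ln13_16_6 ln13_16_6_ok))) (B (M (nat_lit 493) (B (L (nat_lit 398) ln13_16_6 ln13_16_6_ok) (L (nat_lit 557) ln13_17_6 ln13_17_6_ok))) (B (M (nat_lit 493) (B (L (nat_lit 396) ln13_16_7 ln13_16_7_ok) (L (nat_lit 557) ln13_17_6 ln13_17_6_ok))) (M (nat_lit 526) (B (L (nat_lit 558) ln14_17_7 ln14_17_7_ok)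 (L (nat_lit 557) ln14_13_5 ln14_13_5_ok))))))))))) (B (M (nat_lit 398) (B (M (nat_lit 493) (B (L (nat_lit 366) ln14_11_5 ln14_11_5_ok) (L (nat_lit 525) ln13_16_6 ln13_16_6_ok))) (M (nat_lit 399) (B (L (nat_lit 427) ln11_13_2 ln11_13_2_ok) (M (nat_lit 400) (B (L (nat_lit 401) ln17_12_1 ln17_12_1_ok) (L (nat_lit 431) ln12_13_2 ln12_13_2_ok))))))) (M (nat_lit 398) (B (M (nat_lit 493) (B (L (nat_lit 366) ln14_11_5 ln14_11_5_ok) (L (nat_lit 525) ln13_16_6 ln13_16_6_ok))) (M (nat_lit 431) (B (M (nat_lit 460) (B (L (nat_lit 459) ln15_13_1 ln15_13_1_ok) (L (nat_lit 432) ln16_13_1 ln16_13_1_ok))) (M (nat_lit 399) (B (L (nat_lit 400) ln12_13_2 ln12_13_2_ok) (M (nat_lit 367) (B (L (nat_lit 335) ln15_10_5 ln15_10_5_ok) (L (nat_lit 494) ln14_15_6 ln14_15_6_ok)))))))))))))))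
theorem c40_s1410 : Sem (nat_lit 5954262831509113917970671778902343783532342804327837356357830143065656733685921768742376304727131933651871260571575937852568135413341880320) (nat_lit 1651108561243853010975774758265894325794184291767231140053400277703542254153576477267413531910283484642444290135710927632296086051980282742107335593958307481960394522624) (nat_lit 1651108561243853010975774758265894325794184291767231140053400277703542254153576477267413531910283484642444290135710927632296086051980282742107335593958307481960394522624) :=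
  sem_of_chk (M (nat_lit 462) (B (M (nat_lit 463) (B (L (nat_lit 464) ln16_14_3 ln16_14_3_ok) (M (nat_lit 427) (B (L (nat_lit 426) ln10_13_0 ln10_13_0_ok) (L (nat_lit 460) ln15_14_3 ln15_14_3_ok))))) (B (M (nat_lit 463) (B (L (nat_lit 464) ln16_14_3 ln16_14_3_ok) (M (nat_lit 427) (B (L (nat_lit 430) ln11_13_0 ln11_13_0_ok) (L (nat_lit 460) ln15_14_3 ln15_14_3_ok))))) (B c40_n1319 (B (M (nat_lit 427) (B (L (nat_lit 426) ln10_13_0 ln10_13_0_ok) (M (nat_lit 463) (B (L (nat_lit 430) ln11_13_0 ln11_13_0_ok) (L (nat_lit 464) ln16_14_3 ln16_14_3_ok))))) c40_n1409))))) (nat_lit 5954262831509113917970671778902343783532342804327837356357830143065656733685921768742376304727131933651871260571575937852568135413341880320) (nat_lit 1651108561243853010975774758265894325794184291767231140053400277703542254153576477267413531910283484642444290135710927632296086051980282742107335593958307481960394522624) (nat_lit 1651108561243853010975774758265894325794184291767231140053400277703542254153576477267413531910283484642444290135710927632296086051980282742107335593958307481960394522624)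 (by decide +kernel)
theorem c40_s1459 : Sem (nat_lit 5954262831509113917970671778902343783532342804327837356357830143065656733685921768742376304727131933651871260571575937852568135413341880320) (nat_lit 1769044887046985368878640783555362837314901103989343562093643386229682081666234058147591300091734157302086088987225440948292461604526701543665497159463771171630146912256) (nat_lit 1769044887046985368878640783555362837314901103989343562093643386229682081666234058147591300091734157302086088987225440948292461604526701543665497159463771171630146912256) :=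
  sem_of_chk (M (nat_lit 460) (B (M (nat_lit 462) (B (M (nat_lit 463) (B (L (nat_lit 427) ln15_14_3 ln15_14_3_ok) (L (nat_lit 464) ln16_14_3 ln16_14_3_ok))) (M (nat_lit 493) (B (M (nat_lit 525) (B (L (nat_lit 396) ln13_16_7 ln13_16_7_ok) (L (nat_lit 557) ln13_17_7 ln13_17_7_ok))) (M (nat_lit 494) (B (M (nat_lit 526) (B (L (nat_lit 397) ln13_12_4 ln13_12_4_ok) (L (nat_lit 558) ln14_17_7 ln14_17_7_ok))) (M (nat_lit 495) (B (L (nat_lit 459) ln11_14_0 ln11_14_0_ok) (L (nat_lit 496) ln16_15_3 ln16_15_3_ok))))))))) (B (M (nat_lit 462) (B (M (nat_lit 463) (B (L (nat_lit 427) ln15_14_3 ln15_14_3_ok) (L (nat_lit 464) ln16_14_3 ln16_14_3_ok))) (M (nat_lit 494) (B (M (nat_lit 459) (B (L (nat_lit 495) ln11_14_0 ln11_14_0_ok) (M (nat_lit 430) (B (L (nat_lit 431) ln15_13_1 ln15_13_1_ok) (L (nat_lit 458) ln10_14_2 ln10_14_2_ok))))) (M (nat_lit 397) (B (L (nat_lit 365) ln13_11_4 ln13_11_4_ok) (M (nat_lit 526) (B (L (nat_lit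 493) ln13_12_4 ln13_12_4_ok) (L (nat_lit 558) ln14_17_7 ln14_17_7_ok))))))))) (B (M (nat_lit 427) (B (M (nat_lit 426) (B (L (nat_lit 425) ln9_13_0 ln9_13_0_ok) (L (nat_lit 462) ln10_13_0 ln10_13_0_ok))) (B (M (nat_lit 462) (B (L (nat_lit 426) ln10_13_0 ln10_13_0_ok) (L (nat_lit 463) ln15_14_3 ln15_14_3_ok))) (B (M (nat_lit 459) (B (M (nat_lit 430) (B (L (nat_lit 458) ln14_13_1 ln14_13_1_ok) (L (nat_lit 431) ln15_13_1 ln15_13_1_ok))) (M (nat_lit 491) (B (M (nat_lit 396) (B (L (nat_lit 364) ln12_11_5 ln12_11_5_ok) (L (nat_lit 523) ln11_16_6 ln11_16_6_ok))) (M (nat_lit 462) (B (L (nat_lit 463) ln15_14_3 ln15_14_3_ok) (L (nat_lit 490) ln14_14_1 ln14_14_1_ok))))))) (M (nat_lit 493) (B (M (nat_lit 396) (B (L (nat_lit 364) ln12_11_4 ln12_11_4_ok) (L (nat_lit 525) ln13_16_7 ln13_16_7_ok))) (M (nat_lit 458) (B (M (nat_lit 426) (B (L (nat_lit 425) ln9_13_0 ln9_13_0_ok) (L (nat_lit 457) ln13_13_1 ln13_13_1_ok)))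 (M (nat_lit 459) (B (L (nat_lit 430) ln14_13_1 ln14_13_1_ok) (L (nat_lit 494) ln10_14_0 ln10_14_0_ok))))))))))) (B (M (nat_lit 462) (B (M (nat_lit 463) (B (L (nat_lit 464) ln16_14_3 ln16_14_3_ok) (M (nat_lit 492) (B (L (nat_lit 491) ln15_14_1 ln15_14_1_ok) (M (nat_lit 524) (B (L (nat_lit 397) ln12_16_6 ln12_16_6_ok) (L (nat_lit 556) ln12_17_6 ln12_17_6_ok))))))) (B (M (nat_lit 463) (B (L (nat_lit 464) ln16_14_3 ln16_14_3_ok) (M (nat_lit 459) (B (M (nat_lit 430) (B (L (nat_lit 431) ln15_13_1 ln15_13_1_ok) (L (nat_lit 458) ln10_14_2 ln10_14_2_ok))) (M (nat_lit 495) (B (L (nat_lit 494) ln11_14_0 ln11_14_0_ok) (L (nat_lit 496) ln12_14_0 ln12_14_0_ok))))))) (M (nat_lit 494) (B (M (nat_lit 459) (B (L (nat_lit 495) ln11_14_0 ln11_14_0_ok) (M (nat_lit 430) (B (L (nat_lit 431) ln15_13_1 ln15_13_1_ok) (L (nat_lit 458) ln10_14_2 ln10_14_2_ok))))) (M (nat_lit 397) (B (L (nat_lit 365) ln13_11_4 ln13_11_4_ok) (M (nat_lit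 526) (B (L (nat_lit 493) ln13_12_4 ln13_12_4_ok) (L (nat_lit 558) ln14_17_7 ln14_17_7_ok)))))))))) (B (M (nat_lit 493) (B (M (nat_lit 396) (B (L (nat_lit 364) ln12_11_4 ln12_11_4_ok) (L (nat_lit 525) ln13_16_7 ln13_16_7_ok))) (B (M (nat_lit 525) (B (L (nat_lit 396) ln13_16_7 ln13_16_7_ok) (L (nat_lit 557) ln13_17_7 ln13_17_7_ok))) (B (M (nat_lit 525) (B (L (nat_lit 557) ln13_17_7 ln13_17_7_ok) (M (nat_lit 397) (B (M (nat_lit 524) (B (L (nat_lit 492) ln12_16_6 ln12_16_6_ok) (L (nat_lit 556) ln13_13_5 ln13_13_5_ok))) (M (nat_lit 526) (B (L (nat_lit 494) ln13_12_4 ln13_12_4_ok) (L (nat_lit 558) ln13_13_4 ln13_13_4_ok))))))) (M (nat_lit 492) (B (M (nat_lit 397) (B (L (nat_lit 365) ln13_11_5 ln13_11_5_ok) (L (nat_lit 524) ln12_16_6 ln12_16_6_ok))) (M (nat_lit 491) (B (M (nat_lit 396) (B (L (nat_lit 364) ln12_11_4 ln12_11_4_ok) (L (nat_lit 523) ln12_12_5 ln12_12_5_ok))) (M (nat_lit 490) (B (L (nat_lit 489)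 ln9_15_2 ln9_15_2_ok) (L (nat_lit 462) ln10_15_2 ln10_15_2_ok))))))))))) (B (M (nat_lit 492) (B (M (nat_lit 397) (B (L (nat_lit 365) ln13_11_5 ln13_11_5_ok) (L (nat_lit 524) ln12_16_6 ln12_16_6_ok))) (B (M (nat_lit 524) (B (L (nat_lit 397) ln12_16_6 ln12_16_6_ok) (L (nat_lit 556) ln12_17_6 ln12_17_6_ok))) (B (M (nat_lit 524) (B (L (nat_lit 556) ln12_17_6 ln12_17_6_ok) (M (nat_lit 396) (B (M (nat_lit 364) (B (L (nat_lit 332) ln12_10_4 ln12_10_4_ok) (L (nat_lit 493) ln12_11_4 ln12_11_4_ok))) (B (M (nat_lit 493) (B (L (nat_lit 364) ln12_11_4 ln12_11_4_ok) (L (nat_lit 525) ln13_16_7 ln13_16_7_ok))) (B (M (nat_lit 525) (B (L (nat_lit 493) ln13_16_7 ln13_16_7_ok) (L (nat_lit 557) ln12_13_4 ln12_13_4_ok))) (M (nat_lit 523) (B (L (nat_lit 491) ln12_12_5 ln12_12_5_ok) (L (nat_lit 555) ln12_13_5 ln12_13_5_ok))))))))) (M (nat_lit 493) (B (M (nat_lit 396) (B (L (nat_lit 364) ln12_11_4 ln12_11_4_ok) (L (nat_lit 525)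 ln13_16_7 ln13_16_7_ok))) (M (nat_lit 494) (B (M (nat_lit 397) (B (L (nat_lit 365) ln13_11_5 ln13_11_5_ok) (L (nat_lit 526) ln13_12_4 ln13_12_4_ok))) (M (nat_lit 495) (B (L (nat_lit 459) ln15_15_3 ln15_15_3_ok) (L (nat_lit 496) ln16_15_3 ln16_15_3_ok))))))))))) (M (nat_lit 459) (B (M (nat_lit 458) (B (L (nat_lit 457) ln9_14_2 ln9_14_2_ok) (L (nat_lit 430) ln10_14_2 ln10_14_2_ok))) (M (nat_lit 492) (B (M (nat_lit 524) (B (L (nat_lit 397) ln12_16_6 ln12_16_6_ok) (L (nat_lit 556) ln12_17_6 ln12_17_6_ok))) (M (nat_lit 491) (B (M (nat_lit 396) (B (L (nat_lit 364) ln12_11_5 ln12_11_5_ok) (L (nat_lit 523) ln12_12_5 ln12_12_5_ok))) (M (nat_lit 462) (B (L (nat_lit 490) ln14_14_1 ln14_14_1_ok) (L (nat_lit 463) ln15_14_1 ln15_14_1_ok)))))))))))))))) (nat_lit 5954262831509113917970671778902343783532342804327837356357830143065656733685921768742376304727131933651871260571575937852568135413341880320) (nat_lit 1769044887046985368878640783555362837314901103989343562093643386229682081666234058147591300091734157302086088987225440948292461604526701543665497159463771171630146912256)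 (nat_lit 1769044887046985368878640783555362837314901103989343562093643386229682081666234058147591300091734157302086088987225440948292461604526701543665497159463771171630146912256) (by decide +kernel)
noncomputable def c40_n1497 : Cert := (M (nat_lit 397) (B (M (nat_lit 398) (B (M (nat_lit 493) (B (L (nat_lit 366) ln13_15_6 ln13_15_6_ok) (M (nat_lit 396) (B (L (nat_lit 364) ln13_15_7 ln13_15_7_ok) (L (nat_lit 525) ln13_16_7 ln13_16_7_ok))))) (B (M (nat_lit 493) (B (L (nat_lit 366) ln13_15_6 ln13_15_6_ok) (M (nat_lit 525) (B (L (nat_lit 396) ln13_16_7 ln13_16_7_ok) (L (nat_lit 430) ln13_16_6 ln13_16_6_ok))))) (B (M (nat_lit 399) (B (L (nat_lit 400) ln16_12_1 ln16_12_1_ok) (M (nat_lit 427) (B (L (nat_lit 396) ln15_12_1 ln15_12_1_ok) (L (nat_lit 430) ln11_13_2 ln11_13_2_ok))))) (M (nat_lit 366) (B (L (nat_lit 493) ln13_15_6 ln13_15_6_ok) (M (nat_lit 334) (B (L (nat_lit 302) ln14_9_5 ln14_9_5_ok) (L (nat_lit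 430) ln14_10_5 ln14_10_5_ok))))))))) (B (M (nat_lit 398) (B (M (nat_lit 366) (B (L (nat_lit 493) ln13_15_6 ln13_15_6_ok) (M (nat_lit 334) (B (L (nat_lit 365) ln13_14_6 ln13_14_6_ok) (L (nat_lit 430) ln14_10_5 ln14_10_5_ok))))) (B (M (nat_lit 399) (B (L (nat_lit 400) ln16_12_1 ln16_12_1_ok) (M (nat_lit 427) (B (L (nat_lit 396) ln15_12_1 ln15_12_1_ok) (L (nat_lit 430) ln11_13_2 ln11_13_2_ok))))) (M (nat_lit 396) (B (M (nat_lit 364) (B (L (nat_lit 332) ln12_10_4 ln12_10_4_ok) (L (nat_lit 493) ln13_15_7 ln13_15_7_ok))) (M (nat_lit 399) (B (L (nat_lit 427) ln15_12_1 ln15_12_1_ok) (L (nat_lit 400) ln16_12_1 ln16_12_1_ok)))))))) (B (M (nat_lit 398) (B (M (nat_lit 399) (B (L (nat_lit 400) ln16_12_1 ln16_12_1_ok) (M (nat_lit 427) (B (L (nat_lit 396) ln15_12_1 ln15_12_1_ok) (L (nat_lit 430) ln11_13_2 ln11_13_2_ok))))) (B (M (nat_lit 430) (B (M (nat_lit 399) (B (L (nat_lit 400) ln16_12_1 ln16_12_1_ok) (L (nat_lit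 427) ln11_13_2 ln11_13_2_ok))) (M (nat_lit 493) (B (L (nat_lit 366) ln13_15_6 ln13_15_6_ok) (L (nat_lit 525) ln13_16_6 ln13_16_6_ok))))) (M (nat_lit 493) (B (L (nat_lit 366) ln13_15_6 ln13_15_6_ok) (M (nat_lit 396) (B (L (nat_lit 364) ln13_15_7 ln13_15_7_ok) (L (nat_lit 525) ln13_16_7 ln13_16_7_ok)))))))) (B (M (nat_lit 398) (B (M (nat_lit 493) (B (L (nat_lit 366) ln13_15_6 ln13_15_6_ok) (M (nat_lit 525) (B (L (nat_lit 396) ln13_16_7 ln13_16_7_ok) (L (nat_lit 430) ln13_16_6 ln13_16_6_ok))))) (B (M (nat_lit 399) (B (L (nat_lit 400) ln16_12_1 ln16_12_1_ok) (M (nat_lit 427) (B (L (nat_lit 396) ln15_12_1 ln15_12_1_ok) (L (nat_lit 430) ln11_13_2 ln11_13_2_ok))))) (B (M (nat_lit 366) (B (L (nat_lit 493) ln13_15_6 ln13_15_6_ok) (M (nat_lit 334) (B (L (nat_lit 302) ln14_9_5 ln14_9_5_ok) (L (nat_lit 430) ln14_10_5 ln14_10_5_ok))))) (M (nat_lit 366) (B (L (nat_lit 493) ln13_15_6 ln13_15_6_ok) (M (nat_lit 334) (B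 (L (nat_lit 302) ln14_9_5 ln14_9_5_ok) (L (nat_lit 365) ln13_14_6 ln13_14_6_ok))))))))) (B (M (nat_lit 462) (B (M (nat_lit 365) (B (L (nat_lit 494) ln13_11_4 ln13_11_4_ok) (M (nat_lit 460) (B (L (nat_lit 333) ln13_10_5 ln13_10_5_ok) (L (nat_lit 492) ln13_11_5 ln13_11_5_ok))))) (B (M (nat_lit 494) (B (L (nat_lit 365) ln13_11_4 ln13_11_4_ok) (M (nat_lit 526) (B (L (nat_lit 430) ln14_16_7 ln14_16_7_ok) (L (nat_lit 493) ln13_12_4 ln13_12_4_ok))))) (M (nat_lit 463) (B (L (nat_lit 464) ln16_14_3 ln16_14_3_ok) (M (nat_lit 427) (B (L (nat_lit 430) ln11_13_0 ln11_13_0_ok) (L (nat_lit 460) ln15_14_3 ln15_14_3_ok)))))))) (B (M (nat_lit 365) (B (M (nat_lit 460) (B (L (nat_lit 333) ln13_10_5 ln13_10_5_ok) (L (nat_lit 492) ln13_11_5 ln13_11_5_ok))) (M (nat_lit 493) (B (M (nat_lit 364) (B (L (nat_lit 332) ln13_14_7 ln13_14_7_ok) (L (nat_lit 396) ln13_15_7 ln13_15_7_ok))) (M (nat_lit 494) (B (L (nat_lit 462) ln13_11_4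 ln13_11_4_ok) (L (nat_lit 526) ln13_12_4 ln13_12_4_ok))))))) (M (nat_lit 462) (B (M (nat_lit 463) (B (L (nat_lit 464) ln16_14_3 ln16_14_3_ok) (M (nat_lit 427) (B (L (nat_lit 430) ln11_13_0 ln11_13_0_ok) (L (nat_lit 460) ln15_14_3 ln15_14_3_ok))))) (B (M (nat_lit 365) (B (L (nat_lit 494) ln13_11_4 ln13_11_4_ok) (M (nat_lit 460) (B (L (nat_lit 333) ln13_10_5 ln13_10_5_ok) (L (nat_lit 492) ln13_11_5 ln13_11_5_ok))))) (M (nat_lit 494) (B (L (nat_lit 365) ln13_11_4 ln13_11_4_ok) (M (nat_lit 526) (B (L (nat_lit 430) ln14_16_7 ln14_16_7_ok) (L (nat_lit 558) ln14_17_7 ln14_17_7_ok)))))))))))))))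
noncomputable def c40_n1735 : Cert := (M (nat_lit 430) (B (M (nat_lit 427) (B (L (nat_lit 426) ln10_13_0 ln10_13_0_ok) (M (nat_lit 431) (B (M (nat_lit 399) (B (L (nat_lit 398) ln11_13_2 ln11_13_2_ok) (L (nat_lit 400) ln12_13_2 ln12_13_2_ok))) (M (nat_lit 459) (B (L (nat_lit 458) ln14_13_1 ln14_13_1_ok) (L (nat_lit 460) ln15_13_1 ln15_13_1_ok))))))) (B (M (nat_lit 459) (B (M (nat_lit 427) (B (L (nat_lit 426) ln10_13_0 ln10_13_0_ok) (L (nat_lit 458) ln14_13_1 ln14_13_1_ok))) (B (M (nat_lit 458) (B (L (nat_lit 427) ln14_13_1 ln14_13_1_ok) (L (nat_lit 460) ln10_14_2 ln10_14_2_ok))) (B (M (nat_lit 460) (B (L (nat_lit 431) ln15_13_1 ln15_13_1_ok) (L (nat_lit 458) ln10_14_2 ln10_14_2_ok))) (M (nat_lit 494) (B (M (nat_lit 397) (B (L (nat_lit 365) ln13_11_4 ln13_11_4_ok) (L (nat_lit 526) ln14_16_7 ln14_16_7_ok))) (M (nat_lit 460) (B (L (nat_lit 431) ln15_13_1 ln15_13_1_ok) (L (nat_lit 495) ln11_14_0 ln11_14_0_ok)))))))))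 (B (M (nat_lit 399) (B (M (nat_lit 431) (B (L (nat_lit 400) ln12_13_2 ln12_13_2_ok) (M (nat_lit 460) (B (L (nat_lit 459) ln15_13_1 ln15_13_1_ok) (L (nat_lit 432) ln16_13_1 ln16_13_1_ok))))) (B (M (nat_lit 494) (B (M (nat_lit 398) (B (L (nat_lit 367) ln14_15_6 ln14_15_6_ok) (L (nat_lit 427) ln11_13_2 ln11_13_2_ok))) (M (nat_lit 526) (B (L (nat_lit 431) ln14_16_6 ln14_16_6_ok) (L (nat_lit 558) ln14_17_7 ln14_17_7_ok))))) (M (nat_lit 398) (B (L (nat_lit 427) ln11_13_2 ln11_13_2_ok) (M (nat_lit 400) (B (L (nat_lit 397) ln16_12_1 ln16_12_1_ok) (L (nat_lit 401) ln17_12_1 ln17_12_1_ok)))))))) (B (M (nat_lit 431) (B (M (nat_lit 460) (B (L (nat_lit 459) ln15_13_1 ln15_13_1_ok) (L (nat_lit 432) ln16_13_1 ln16_13_1_ok))) (M (nat_lit 399) (B (L (nat_lit 400) ln12_13_2 ln12_13_2_ok) (M (nat_lit 494) (B (L (nat_lit 526) ln14_16_6 ln14_16_6_ok) (M (nat_lit 367) (B (L (nat_lit 335) ln15_10_5 ln15_10_5_ok) (L (nat_lit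 398) ln14_15_6 ln14_15_6_ok))))))))) (B (M (nat_lit 427) (B (L (nat_lit 426) ln10_13_0 ln10_13_0_ok) (M (nat_lit 494) (B (M (nat_lit 397) (B (L (nat_lit 365) ln13_11_4 ln13_11_4_ok) (L (nat_lit 526) ln14_16_7 ln14_16_7_ok))) (M (nat_lit 495) (B (M (nat_lit 398) (B (L (nat_lit 399) ln11_13_2 ln11_13_2_ok) (L (nat_lit 527) ln14_12_4 ln14_12_4_ok))) (M (nat_lit 459) (B (L (nat_lit 458) ln14_13_1 ln14_13_1_ok) (L (nat_lit 460) ln11_14_0 ln11_14_0_ok))))))))) (B (M (nat_lit 431) (B (M (nat_lit 400) (B (L (nat_lit 399) ln12_13_2 ln12_13_2_ok) (M (nat_lit 432) (B (L (nat_lit 401) ln13_13_2 ln13_13_2_ok) (L (nat_lit 460) ln16_13_1 ln16_13_1_ok))))) (B (M (nat_lit 397) (B (M (nat_lit 365) (B (L (nat_lit 333) ln13_10_4 ln13_10_4_ok) (L (nat_lit 494) ln13_11_4 ln13_11_4_ok))) (M (nat_lit 432) (B (L (nat_lit 396) ln16_13_3 ln16_13_3_ok) (L (nat_lit 460) ln16_13_1 ln16_13_1_ok))))) (M (nat_lit 427) (B (L (nat_lit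 426) ln10_13_0 ln10_13_0_ok) (M (nat_lit 399) (B (L (nat_lit 398) ln11_13_2 ln11_13_2_ok) (L (nat_lit 400) ln12_13_2 ln12_13_2_ok)))))))) (M (nat_lit 398) (B (M (nat_lit 399) (B (L (nat_lit 427) ln11_13_2 ln11_13_2_ok) (M (nat_lit 400) (B (L (nat_lit 397) ln16_12_1 ln16_12_1_ok) (L (nat_lit 401) ln17_12_1 ln17_12_1_ok))))) (B (M (nat_lit 399) (B (L (nat_lit 427) ln11_13_2 ln11_13_2_ok) (M (nat_lit 400) (B (L (nat_lit 401) ln17_12_1 ln17_12_1_ok) (L (nat_lit 431) ln12_13_2 ln12_13_2_ok))))) (M (nat_lit 494) (B (M (nat_lit 397) (B (L (nat_lit 365) ln14_15_7 ln14_15_7_ok) (L (nat_lit 526) ln14_16_7 ln14_16_7_ok))) (B (M (nat_lit 526) (B (L (nat_lit 397) ln14_16_7 ln14_16_7_ok) (L (nat_lit 558) ln14_17_7 ln14_17_7_ok))) (B (M (nat_lit 526) (B (L (nat_lit 558) ln14_17_7 ln14_17_7_ok) (M (nat_lit 527) (B (L (nat_lit 495) ln14_12_4 ln14_12_4_ok) (L (nat_lit 559) ln14_13_4 ln14_13_4_ok))))) (M (nat_lit 365) (B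 (L (nat_lit 397) ln14_15_7 ln14_15_7_ok) (M (nat_lit 366) (B (L (nat_lit 333) ln14_14_7 ln14_14_7_ok) (L (nat_lit 334) ln14_10_5 ln14_10_5_ok)))))))))))))))))))
noncomputable def c40_n1736 : Cert := (M (nat_lit 462) (B (M (nat_lit 427) (B (L (nat_lit 426) ln10_13_0 ln10_13_0_ok) (M (nat_lit 463) (B (L (nat_lit 430) ln11_13_0 ln11_13_0_ok) (L (nat_lit 464) ln16_14_3 ln16_14_3_ok))))) (B (M (nat_lit 463) (B (L (nat_lit 464) ln16_14_3 ln16_14_3_ok) (M (nat_lit 427) (B (L (nat_lit 430) ln11_13_0 ln11_13_0_ok) (L (nat_lit 460) ln15_14_3 ln15_14_3_ok))))) (B (M (nat_lit 463) (B (L (nat_lit 464) ln16_14_3 ln16_14_3_ok) (M (nat_lit 460) (B (M (nat_lit 492) (B (L (nat_lit 491) ln15_14_1 ln15_14_1_ok) (M (nat_lit 397) (B (L (nat_lit 365) ln13_11_5 ln13_11_5_ok) (L (nat_lit 524) ln12_16_6 ln12_16_6_ok))))) (M (nat_lit 459) (B (M (nat_lit 431) (B (L (nat_lit 430) ln15_13_1 ln15_13_1_ok) (L (nat_lit 432) ln12_14_2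 ln12_14_2_ok))) (M (nat_lit 495) (B (L (nat_lit 494) ln11_14_0 ln11_14_0_ok) (L (nat_lit 496) ln12_14_0 ln12_14_0_ok))))))))) (B (M (nat_lit 463) (B (L (nat_lit 464) ln16_14_3 ln16_14_3_ok) (M (nat_lit 427) (B (L (nat_lit 426) ln10_13_0 ln10_13_0_ok) (L (nat_lit 460) ln15_14_3 ln15_14_3_ok))))) c40_n1735)))))
theorem c40_s1737 : Sem (nat_lit 2079502270590611144683810638107312777577327806531862431377859685460965980854219217279980804578104683573043408221052678871730618368) (nat_lit 5065326625825206957456194725730151547733969297061329327340346408284081599165529119842457424552113654408157007710123157581529901937536411351918807269032282735619160870183959003136) (nat_lit 5065326625825206957456194725730151547733969297061329327340346408284081599165529119842457424552113654408157007710123157581529901937536411351918807269032282735619160870183959003136) :=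
  sem_of_chk (M (nat_lit 461) (B (M (nat_lit 462) (B (M (nat_lit 427) (B (L (nat_lit 426) ln10_13_0 ln10_13_0_ok) (M (nat_lit 463) (B (L (nat_lit 430) ln11_13_0 ln11_13_0_ok) (L (nat_lit 464) ln16_14_3 ln16_14_3_ok))))) (B (M (nat_lit 463) (B (L (nat_lit 464) ln16_14_3 ln16_14_3_ok) (M (nat_lit 427) (B (L (nat_lit 430) ln11_13_0 ln11_13_0_ok) (L (nat_lit 460) ln15_14_3 ln15_14_3_ok))))) (B (M (nat_lit 460) (B (M (nat_lit 463) (B (L (nat_lit 464) ln16_14_3 ln16_14_3_ok) (M (nat_lit 492) (B (L (nat_lit 491) ln15_14_1 ln15_14_1_ok) (M (nat_lit 524) (B (L (nat_lit 397) ln12_16_6 ln12_16_6_ok) (L (nat_lit 556) ln12_17_6 ln12_17_6_ok))))))) (B (M (nat_lit 463) (B (L (nat_lit 464) ln16_14_3 ln16_14_3_ok) (M (nat_lit 459) (B (M (nat_lit 431) (B (L (nat_lit 430) ln15_13_1 ln15_13_1_ok) (L (nat_lit 432) ln12_14_2 ln12_14_2_ok))) (M (nat_lit 495) (B (L (nat_lit 494) ln11_14_0 ln11_14_0_ok) (L (nat_lit 496) ln12_14_0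 ln12_14_0_ok))))))) (M (nat_lit 493) (B (M (nat_lit 396) (B (L (nat_lit 364) ln12_11_4 ln12_11_4_ok) (L (nat_lit 525) ln13_16_7 ln13_16_7_ok))) (M (nat_lit 494) (B (M (nat_lit 397) (B (L (nat_lit 365) ln13_11_4 ln13_11_4_ok) (L (nat_lit 526) ln13_12_4 ln13_12_4_ok))) (M (nat_lit 495) (B (L (nat_lit 459) ln11_14_0 ln11_14_0_ok) (L (nat_lit 496) ln16_15_3 ln16_15_3_ok)))))))))) (B (M (nat_lit 463) (B (L (nat_lit 464) ln16_14_3 ln16_14_3_ok) (M (nat_lit 427) (B (L (nat_lit 426) ln10_13_0 ln10_13_0_ok) (L (nat_lit 460) ln15_14_3 ln15_14_3_ok))))) (M (nat_lit 397) (B (M (nat_lit 365) (B (L (nat_lit 494) ln13_11_4 ln13_11_4_ok) (M (nat_lit 460) (B (L (nat_lit 333) ln13_10_5 ln13_10_5_ok) (L (nat_lit 492) ln13_11_5 ln13_11_5_ok))))) (M (nat_lit 398) (B (M (nat_lit 493) (B (L (nat_lit 366) ln13_15_6 ln13_15_6_ok) (M (nat_lit 396) (B (L (nat_lit 364) ln13_15_7 ln13_15_7_ok) (L (nat_lit 525) ln13_16_7 ln13_16_7_ok)))))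 (B (M (nat_lit 493) (B (L (nat_lit 366) ln13_15_6 ln13_15_6_ok) (M (nat_lit 525) (B (L (nat_lit 396) ln13_16_7 ln13_16_7_ok) (L (nat_lit 430) ln13_16_6 ln13_16_6_ok))))) (M (nat_lit 427) (B (L (nat_lit 426) ln10_13_2 ln10_13_2_ok) (M (nat_lit 399) (B (L (nat_lit 400) ln16_12_1 ln16_12_1_ok) (L (nat_lit 430) ln11_13_2 ln11_13_2_ok))))))))))))))) (B (M (nat_lit 397) (B (M (nat_lit 398) (B (M (nat_lit 493) (B (L (nat_lit 366) ln13_15_6 ln13_15_6_ok) (M (nat_lit 525) (B (L (nat_lit 396) ln13_16_7 ln13_16_7_ok) (L (nat_lit 430) ln13_16_6 ln13_16_6_ok))))) (B (M (nat_lit 427) (B (L (nat_lit 426) ln10_13_2 ln10_13_2_ok) (M (nat_lit 399) (B (L (nat_lit 396) ln15_12_1 ln15_12_1_ok) (L (nat_lit 400) ln16_12_1 ln16_12_1_ok))))) (M (nat_lit 427) (B (L (nat_lit 426) ln10_13_2 ln10_13_2_ok) (M (nat_lit 399) (B (L (nat_lit 400) ln16_12_1 ln16_12_1_ok) (L (nat_lit 430) ln11_13_2 ln11_13_2_ok)))))))) (B (M (nat_lit 462)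 (B (M (nat_lit 494) (B (L (nat_lit 365) ln13_11_4 ln13_11_4_ok) (M (nat_lit 526) (B (L (nat_lit 430) ln14_16_7 ln14_16_7_ok) (L (nat_lit 493) ln13_12_4 ln13_12_4_ok))))) (B (M (nat_lit 427) (B (L (nat_lit 426) ln10_13_0 ln10_13_0_ok) (M (nat_lit 463) (B (L (nat_lit 430) ln11_13_0 ln11_13_0_ok) (L (nat_lit 464) ln16_14_3 ln16_14_3_ok))))) (M (nat_lit 427) (B (L (nat_lit 426) ln10_13_0 ln10_13_0_ok) (M (nat_lit 463) (B (L (nat_lit 460) ln15_14_3 ln15_14_3_ok) (L (nat_lit 464) ln16_14_3 ln16_14_3_ok)))))))) (B (M (nat_lit 398) (B (M (nat_lit 493) (B (L (nat_lit 366) ln13_15_6 ln13_15_6_ok) (M (nat_lit 396) (B (L (nat_lit 364) ln13_15_7 ln13_15_7_ok) (L (nat_lit 525) ln13_16_7 ln13_16_7_ok))))) (B (M (nat_lit 493) (B (L (nat_lit 366) ln13_15_6 ln13_15_6_ok) (M (nat_lit 525) (B (L (nat_lit 396) ln13_16_7 ln13_16_7_ok) (L (nat_lit 430) ln13_16_6 ln13_16_6_ok))))) (B (M (nat_lit 399) (B (L (nat_lit 400) ln16_12_1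 ln16_12_1_ok) (M (nat_lit 427) (B (L (nat_lit 396) ln15_12_1 ln15_12_1_ok) (L (nat_lit 430) ln11_13_2 ln11_13_2_ok))))) (M (nat_lit 366) (B (L (nat_lit 493) ln13_15_6 ln13_15_6_ok) (M (nat_lit 334) (B (L (nat_lit 365) ln13_14_6 ln13_14_6_ok) (L (nat_lit 430) ln14_10_5 ln14_10_5_ok))))))))) (B (M (nat_lit 493) (B (M (nat_lit 396) (B (L (nat_lit 364) ln13_15_7 ln13_15_7_ok) (L (nat_lit 525) ln13_16_7 ln13_16_7_ok))) (M (nat_lit 365) (B (M (nat_lit 366) (B (L (nat_lit 334) ln13_14_6 ln13_14_6_ok) (L (nat_lit 398) ln13_15_6 ln13_15_6_ok))) (M (nat_lit 494) (B (L (nat_lit 462) ln13_11_4 ln13_11_4_ok) (L (nat_lit 526) ln13_12_4 ln13_12_4_ok))))))) (M (nat_lit 462) (B (M (nat_lit 494) (B (L (nat_lit 365) ln13_11_4 ln13_11_4_ok) (M (nat_lit 526) (B (L (nat_lit 430) ln14_16_7 ln14_16_7_ok) (L (nat_lit 558) ln14_17_7 ln14_17_7_ok))))) (B (M (nat_lit 427) (B (L (nat_lit 426) ln10_13_0 ln10_13_0_ok) (M (nat_lit 463)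 (B (L (nat_lit 430) ln11_13_0 ln11_13_0_ok) (L (nat_lit 464) ln16_14_3 ln16_14_3_ok))))) (M (nat_lit 427) (B (L (nat_lit 426) ln10_13_0 ln10_13_0_ok) (M (nat_lit 463) (B (L (nat_lit 460) ln15_14_3 ln15_14_3_ok) (L (nat_lit 464) ln16_14_3 ln16_14_3_ok))))))))))))) (B (M (nat_lit 397) (B (M (nat_lit 398) (B (M (nat_lit 493) (B (L (nat_lit 366) ln13_15_6 ln13_15_6_ok) (M (nat_lit 525) (B (L (nat_lit 396) ln13_16_7 ln13_16_7_ok) (L (nat_lit 430) ln13_16_6 ln13_16_6_ok))))) (B (M (nat_lit 427) (B (L (nat_lit 426) ln10_13_2 ln10_13_2_ok) (M (nat_lit 399) (B (L (nat_lit 396) ln15_12_1 ln15_12_1_ok) (L (nat_lit 400) ln16_12_1 ln16_12_1_ok))))) (M (nat_lit 427) (B (L (nat_lit 426) ln10_13_2 ln10_13_2_ok) (M (nat_lit 399) (B (L (nat_lit 400) ln16_12_1 ln16_12_1_ok) (L (nat_lit 430) ln11_13_2 ln11_13_2_ok)))))))) (B (M (nat_lit 462) (B (M (nat_lit 494) (B (L (nat_lit 365) ln13_11_4 ln13_11_4_ok) (M (nat_lit 526)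 (B (L (nat_lit 430) ln14_16_7 ln14_16_7_ok) (L (nat_lit 558) ln14_17_7 ln14_17_7_ok))))) (B (M (nat_lit 427) (B (L (nat_lit 426) ln10_13_0 ln10_13_0_ok) (M (nat_lit 463) (B (L (nat_lit 430) ln11_13_0 ln11_13_0_ok) (L (nat_lit 464) ln16_14_3 ln16_14_3_ok))))) (M (nat_lit 427) (B (L (nat_lit 426) ln10_13_0 ln10_13_0_ok) (M (nat_lit 463) (B (L (nat_lit 460) ln15_14_3 ln15_14_3_ok) (L (nat_lit 464) ln16_14_3 ln16_14_3_ok)))))))) (B (M (nat_lit 398) (B (M (nat_lit 493) (B (L (nat_lit 366) ln13_15_6 ln13_15_6_ok) (M (nat_lit 525) (B (L (nat_lit 396) ln13_16_7 ln13_16_7_ok) (L (nat_lit 430) ln13_16_6 ln13_16_6_ok))))) (B (M (nat_lit 399) (B (L (nat_lit 400) ln16_12_1 ln16_12_1_ok) (M (nat_lit 427) (B (L (nat_lit 396) ln15_12_1 ln15_12_1_ok) (L (nat_lit 430) ln11_13_2 ln11_13_2_ok))))) (B (M (nat_lit 366) (B (L (nat_lit 493) ln13_15_6 ln13_15_6_ok) (M (nat_lit 334) (B (L (nat_lit 365) ln13_14_6 ln13_14_6_ok)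 (L (nat_lit 430) ln14_10_5 ln14_10_5_ok))))) (M (nat_lit 396) (B (M (nat_lit 399) (B (L (nat_lit 427) ln15_12_1 ln15_12_1_ok) (L (nat_lit 400) ln16_12_1 ln16_12_1_ok))) (M (nat_lit 493) (B (L (nat_lit 366) ln13_15_6 ln13_15_6_ok) (L (nat_lit 525) ln13_16_7 ln13_16_7_ok))))))))) (M (nat_lit 365) (B (M (nat_lit 460) (B (L (nat_lit 333) ln13_10_5 ln13_10_5_ok) (L (nat_lit 492) ln13_11_5 ln13_11_5_ok))) (M (nat_lit 493) (B (M (nat_lit 366) (B (L (nat_lit 334) ln13_14_6 ln13_14_6_ok) (L (nat_lit 398) ln13_15_6 ln13_15_6_ok))) (M (nat_lit 494) (B (L (nat_lit 462) ln13_11_4 ln13_11_4_ok) (L (nat_lit 526) ln13_12_4 ln13_12_4_ok))))))))))) (B (M (nat_lit 427) (B (M (nat_lit 462) (B (L (nat_lit 426) ln10_13_0 ln10_13_0_ok) (M (nat_lit 463) (B (L (nat_lit 430) ln11_13_0 ln11_13_0_ok) (L (nat_lit 460) ln15_14_3 ln15_14_3_ok))))) (B (M (nat_lit 430) (B (M (nat_lit 462) (B (L (nat_lit 463) ln11_13_0 ln11_13_0_ok) (M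 (nat_lit 398) (B (L (nat_lit 399) ln11_13_2 ln11_13_2_ok) (M (nat_lit 366) (B (L (nat_lit 334) ln14_10_5 ln14_10_5_ok) (L (nat_lit 493) ln14_11_5 ln14_11_5_ok))))))) (B (M (nat_lit 431) (B (M (nat_lit 399) (B (L (nat_lit 398) ln11_13_2 ln11_13_2_ok) (L (nat_lit 400) ln12_13_2 ln12_13_2_ok))) (M (nat_lit 459) (B (L (nat_lit 458) ln14_13_1 ln14_13_1_ok) (L (nat_lit 460) ln15_13_1 ln15_13_1_ok))))) (M (nat_lit 431) (B (M (nat_lit 459) (B (L (nat_lit 458) ln14_13_1 ln14_13_1_ok) (L (nat_lit 460) ln15_13_1 ln15_13_1_ok))) (M (nat_lit 463) (B (L (nat_lit 462) ln11_13_0 ln11_13_0_ok) (L (nat_lit 464) ln12_13_0 ln12_13_0_ok)))))))) (B (M (nat_lit 462) (B (L (nat_lit 426) ln10_13_0 ln10_13_0_ok) (M (nat_lit 463) (B (L (nat_lit 460) ln15_14_3 ln15_14_3_ok) (L (nat_lit 464) ln16_14_3 ln16_14_3_ok))))) (B (M (nat_lit 462) (B (L (nat_lit 426) ln10_13_0 ln10_13_0_ok) (M (nat_lit 463) (B (L (nat_lit 430) ln11_13_0 ln11_13_0_ok)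 (L (nat_lit 464) ln16_14_3 ln16_14_3_ok))))) (M (nat_lit 426) (B (M (nat_lit 397) (B (L (nat_lit 398) ln10_13_2 ln10_13_2_ok) (M (nat_lit 425) (B (L (nat_lit 396) ln9_13_2 ln9_13_2_ok) (L (nat_lit 460) ln9_13_0 ln9_13_0_ok))))) (B (M (nat_lit 457) (B (L (nat_lit 458) ln13_13_1 ln13_13_1_ok) (M (nat_lit 425) (B (L (nat_lit 456) ln12_13_1 ln12_13_1_ok) (L (nat_lit 460) ln9_13_0 ln9_13_0_ok))))) (M (nat_lit 430) (B (M (nat_lit 398) (B (L (nat_lit 397) ln10_13_2 ln10_13_2_ok) (L (nat_lit 399) ln11_13_2 ln11_13_2_ok))) (M (nat_lit 458) (B (L (nat_lit 457) ln13_13_1 ln13_13_1_ok) (L (nat_lit 459) ln14_13_1 ln14_13_1_ok))))))))))))) (B (K (nat_lit 5954262831509113917970671778902343783532342804327837356357830143065656733685921768742376304727131933651871260571575937852568135413341880320) (nat_lit 1769044887046985368878640783555362837325991782770345758818609132998152275030985077229171551529867216771998228092394076778981831319545139224295303208322216009898351656960)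 (nat_lit 1769044887046985368878640783555362837325991782770345758818609132998152275030985077229171551529867216771998228092394076778981831319545139224295303208322216009898351656960) c40_s1236) (B (M (nat_lit 427) (B (M (nat_lit 462) (B (L (nat_lit 426) ln10_13_0 ln10_13_0_ok) (M (nat_lit 463) (B (L (nat_lit 430) ln11_13_0 ln11_13_0_ok) (L (nat_lit 464) ln16_14_3 ln16_14_3_ok))))) (B (M (nat_lit 430) (B (M (nat_lit 431) (B (M (nat_lit 399) (B (L (nat_lit 398) ln11_13_2 ln11_13_2_ok) (L (nat_lit 400) ln12_13_2 ln12_13_2_ok))) (M (nat_lit 459) (B (L (nat_lit 458) ln14_13_1 ln14_13_1_ok) (L (nat_lit 460) ln15_13_1 ln15_13_1_ok))))) (B (M (nat_lit 431) (B (M (nat_lit 459) (B (L (nat_lit 458) ln14_13_1 ln14_13_1_ok) (L (nat_lit 460) ln15_13_1 ln15_13_1_ok))) (M (nat_lit 463) (B (L (nat_lit 462) ln11_13_0 ln11_13_0_ok) (L (nat_lit 464) ln12_13_0 ln12_13_0_ok))))) (M (nat_lit 462) (B (L (nat_lit 463) ln11_13_0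 ln11_13_0_ok) (M (nat_lit 398) (B (L (nat_lit 399) ln11_13_2 ln11_13_2_ok) (M (nat_lit 366) (B (L (nat_lit 334) ln14_10_5 ln14_10_5_ok) (L (nat_lit 493) ln14_11_5 ln14_11_5_ok)))))))))) (B (M (nat_lit 462) (B (L (nat_lit 426) ln10_13_0 ln10_13_0_ok) (M (nat_lit 463) (B (L (nat_lit 460) ln15_14_3 ln15_14_3_ok) (L (nat_lit 464) ln16_14_3 ln16_14_3_ok))))) (M (nat_lit 426) (B (M (nat_lit 457) (B (L (nat_lit 458) ln13_13_1 ln13_13_1_ok) (M (nat_lit 425) (B (L (nat_lit 456) ln12_13_1 ln12_13_1_ok) (L (nat_lit 460) ln9_13_0 ln9_13_0_ok))))) (B (M (nat_lit 430) (B (M (nat_lit 398) (B (L (nat_lit 397) ln10_13_2 ln10_13_2_ok) (L (nat_lit 399) ln11_13_2 ln11_13_2_ok))) (M (nat_lit 458) (B (L (nat_lit 457) ln13_13_1 ln13_13_1_ok) (L (nat_lit 459) ln14_13_1 ln14_13_1_ok))))) (M (nat_lit 397) (B (L (nat_lit 398) ln10_13_2 ln10_13_2_ok) (M (nat_lit 460) (B (L (nat_lit 425) ln9_13_0 ln9_13_0_ok) (M (nat_lit 365) (B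 (L (nat_lit 333) ln13_10_5 ln13_10_5_ok) (L (nat_lit 492) ln13_11_5 ln13_11_5_ok)))))))))))))) (B (K (nat_lit 5954262831509113917970671778902343783532342804327837356357830143065656733685921768742376304727131933651871260571575937852568135413341880320) (nat_lit 1651108561243853010975774758265894325794184291767231140053400277703542254153576477267413531910283484642444290135710927632296086051980282742107335593958307481960394522624) (nat_lit 1651108561243853010975774758265894325794184291767231140053400277703542254153576477267413531910283484642444290135710927632296086051980282742107335593958307481960394522624) c40_s1410) (B (K (nat_lit 5954262831509113917970671778902343783532342804327837356357830143065656733685921768742376304727131933651871260571575937852568135413341880320) (nat_lit 1769044887046985368878640783555362837314901103989343562093643386229682081666234058147591300091734157302086088987225440948292461604526701543665497159463771171630146912256)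 (nat_lit 1769044887046985368878640783555362837314901103989343562093643386229682081666234058147591300091734157302086088987225440948292461604526701543665497159463771171630146912256) c40_s1459) (B c40_n1497 (B (M (nat_lit 493) (B (M (nat_lit 396) (B (L (nat_lit 525) ln13_16_7 ln13_16_7_ok) (M (nat_lit 364) (B (L (nat_lit 332) ln12_10_4 ln12_10_4_ok) (L (nat_lit 460) ln12_11_4 ln12_11_4_ok))))) (B (M (nat_lit 396) (B (L (nat_lit 525) ln13_16_7 ln13_16_7_ok) (M (nat_lit 364) (B (L (nat_lit 397) ln13_15_7 ln13_15_7_ok) (L (nat_lit 460) ln12_11_4 ln12_11_4_ok))))) (B (M (nat_lit 525) (B (L (nat_lit 396) ln13_16_7 ln13_16_7_ok) (M (nat_lit 557) (B (L (nat_lit 460) ln13_17_7 ln13_17_7_ok) (M (nat_lit 556) (B (L (nat_lit 524) ln13_13_5 ln13_13_5_ok) (L (nat_lit 588) ln13_14_5 ln13_14_5_ok))))))) (B (M (nat_lit 525) (B (M (nat_lit 557) (B (L (nat_lit 460) ln13_17_7 ln13_17_7_ok) (M (nat_lit 556) (B (L (nat_lit 524)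 ln13_13_5 ln13_13_5_ok) (L (nat_lit 588) ln13_14_5 ln13_14_5_ok))))) (B (M (nat_lit 397) (B (M (nat_lit 524) (B (L (nat_lit 492) ln13_12_5 ln13_12_5_ok) (L (nat_lit 556) ln13_13_5 ln13_13_5_ok))) (M (nat_lit 526) (B (L (nat_lit 494) ln13_12_4 ln13_12_4_ok) (L (nat_lit 558) ln13_13_4 ln13_13_4_ok))))) (M (nat_lit 557) (B (L (nat_lit 460) ln13_17_7 ln13_17_7_ok) (M (nat_lit 558) (B (L (nat_lit 526) ln13_13_4 ln13_13_4_ok) (L (nat_lit 590) ln13_14_4 ln13_14_4_ok)))))))) (B (M (nat_lit 396) (B (L (nat_lit 525) ln13_16_7 ln13_16_7_ok) (M (nat_lit 364) (B (L (nat_lit 332) ln12_10_4 ln12_10_4_ok) (L (nat_lit 397) ln13_15_7 ln13_15_7_ok))))) (M (nat_lit 397) (B (M (nat_lit 364) (B (L (nat_lit 396) ln13_15_7 ln13_15_7_ok) (M (nat_lit 365) (B (L (nat_lit 332) ln13_14_7 ln13_14_7_ok) (M (nat_lit 460) (B (L (nat_lit 333) ln13_10_5 ln13_10_5_ok) (L (nat_lit 492) ln13_11_5 ln13_11_5_ok))))))) (B (M (nat_lit 365) (B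 (M (nat_lit 366) (B (L (nat_lit 334) ln13_14_6 ln13_14_6_ok) (L (nat_lit 398) ln13_15_6 ln13_15_6_ok))) (M (nat_lit 492) (B (L (nat_lit 460) ln13_11_5 ln13_11_5_ok) (L (nat_lit 524) ln13_12_5 ln13_12_5_ok))))) (B (M (nat_lit 460) (B (M (nat_lit 492) (B (L (nat_lit 524) ln12_16_6 ln12_16_6_ok) (M (nat_lit 494) (B (L (nat_lit 526) ln13_12_4 ln13_12_4_ok) (M (nat_lit 459) (B (L (nat_lit 458) ln10_14_0 ln10_14_0_ok) (L (nat_lit 495) ln15_15_3 ln15_15_3_ok))))))) (B (M (nat_lit 492) (B (L (nat_lit 524) ln12_16_6 ln12_16_6_ok) (M (nat_lit 494) (B (L (nat_lit 526) ln13_12_4 ln13_12_4_ok) (M (nat_lit 495) (B (L (nat_lit 459) ln15_15_3 ln15_15_3_ok) (L (nat_lit 496) ln16_15_3 ln16_15_3_ok))))))) (B (M (nat_lit 492) (B (L (nat_lit 524) ln12_16_6 ln12_16_6_ok) (M (nat_lit 491) (B (M (nat_lit 396) (B (L (nat_lit 364) ln13_15_7 ln13_15_7_ok) (L (nat_lit 523) ln12_12_5 ln12_12_5_ok))) (M (nat_lit 490) (B (L (nat_lit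 489) ln9_15_2 ln9_15_2_ok) (L (nat_lit 462) ln10_15_2 ln10_15_2_ok))))))) (M (nat_lit 494) (B (L (nat_lit 526) ln13_12_4 ln13_12_4_ok) (M (nat_lit 459) (B (L (nat_lit 458) ln10_14_0 ln10_14_0_ok) (M (nat_lit 495) (B (L (nat_lit 462) ln11_14_0 ln11_14_0_ok) (L (nat_lit 496) ln16_15_3 ln16_15_3_ok))))))))))) (M (nat_lit 365) (B (M (nat_lit 364) (B (L (nat_lit 332) ln13_14_7 ln13_14_7_ok) (L (nat_lit 396) ln13_15_7 ln13_15_7_ok))) (M (nat_lit 366) (B (L (nat_lit 334) ln13_14_6 ln13_14_6_ok) (L (nat_lit 398) ln13_15_6 ln13_15_6_ok))))))))))))))) (B (M (nat_lit 398) (B (M (nat_lit 427) (B (M (nat_lit 426) (B (L (nat_lit 397) ln10_13_2 ln10_13_2_ok) (L (nat_lit 462) ln10_13_0 ln10_13_0_ok))) (B (M (nat_lit 462) (B (L (nat_lit 426) ln10_13_0 ln10_13_0_ok) (M (nat_lit 430) (B (L (nat_lit 399) ln11_13_2 ln11_13_2_ok) (L (nat_lit 463) ln11_13_0 ln11_13_0_ok))))) (M (nat_lit 399) (B (L (nat_lit 430) ln11_13_2 ln11_13_2_ok)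 (M (nat_lit 397) (B (L (nat_lit 396) ln15_12_1 ln15_12_1_ok) (L (nat_lit 400) ln16_12_1 ln16_12_1_ok)))))))) (B (M (nat_lit 397) (B (M (nat_lit 427) (B (L (nat_lit 426) ln10_13_2 ln10_13_2_ok) (M (nat_lit 399) (B (L (nat_lit 400) ln16_12_1 ln16_12_1_ok) (L (nat_lit 430) ln11_13_2 ln11_13_2_ok))))) (B (M (nat_lit 366) (B (L (nat_lit 493) ln13_15_6 ln13_15_6_ok) (M (nat_lit 334) (B (L (nat_lit 302) ln14_9_5 ln14_9_5_ok) (L (nat_lit 430) ln14_10_5 ln14_10_5_ok))))) (M (nat_lit 366) (B (L (nat_lit 493) ln13_15_6 ln13_15_6_ok) (M (nat_lit 334) (B (L (nat_lit 302) ln14_9_5 ln14_9_5_ok) (L (nat_lit 365) ln13_14_6 ln13_14_6_ok)))))))) (B (M (nat_lit 430) (B (M (nat_lit 493) (B (L (nat_lit 525) ln13_16_6 ln13_16_6_ok) (M (nat_lit 366) (B (L (nat_lit 334) ln14_10_5 ln14_10_5_ok) (L (nat_lit 462) ln14_11_5 ln14_11_5_ok))))) (M (nat_lit 399) (B (L (nat_lit 427) ln11_13_2 ln11_13_2_ok) (M (nat_lit 400) (B (L (nat_lit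 401) ln17_12_1 ln17_12_1_ok) (L (nat_lit 431) ln12_13_2 ln12_13_2_ok))))))) (B (M (nat_lit 493) (B (M (nat_lit 525) (B (L (nat_lit 396) ln13_16_7 ln13_16_7_ok) (L (nat_lit 430) ln13_16_6 ln13_16_6_ok))) (B (M (nat_lit 366) (B (L (nat_lit 397) ln13_15_6 ln13_15_6_ok) (M (nat_lit 430) (B (L (nat_lit 334) ln14_10_5 ln14_10_5_ok) (L (nat_lit 462) ln14_11_5 ln14_11_5_ok))))) (M (nat_lit 397) (B (L (nat_lit 366) ln13_15_6 ln13_15_6_ok) (M (nat_lit 396) (B (L (nat_lit 364) ln13_15_7 ln13_15_7_ok) (L (nat_lit 525) ln13_16_7 ln13_16_7_ok)))))))) (M (nat_lit 397) (B (M (nat_lit 366) (B (L (nat_lit 493) ln13_15_6 ln13_15_6_ok) (M (nat_lit 334) (B (L (nat_lit 302) ln14_9_5 ln14_9_5_ok) (L (nat_lit 365) ln13_14_6 ln13_14_6_ok))))) (M (nat_lit 427) (B (L (nat_lit 426) ln10_13_2 ln10_13_2_ok) (M (nat_lit 399) (B (L (nat_lit 396) ln15_12_1 ln15_12_1_ok) (L (nat_lit 400) ln16_12_1 ln16_12_1_ok)))))))))))) (B (M (nat_lit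 493) (B (M (nat_lit 396) (B (L (nat_lit 525) ln13_16_7 ln13_16_7_ok) (M (nat_lit 364) (B (L (nat_lit 332) ln12_10_4 ln12_10_4_ok) (L (nat_lit 397) ln13_15_7 ln13_15_7_ok))))) (B (M (nat_lit 396) (B (L (nat_lit 525) ln13_16_7 ln13_16_7_ok) (M (nat_lit 364) (B (L (nat_lit 397) ln13_15_7 ln13_15_7_ok) (L (nat_lit 460) ln12_11_4 ln12_11_4_ok))))) (B (M (nat_lit 525) (B (L (nat_lit 396) ln13_16_7 ln13_16_7_ok) (M (nat_lit 557) (B (L (nat_lit 460) ln13_17_7 ln13_17_7_ok) (M (nat_lit 556) (B (L (nat_lit 524) ln13_13_5 ln13_13_5_ok) (L (nat_lit 588) ln13_14_5 ln13_14_5_ok))))))) (B (M (nat_lit 525) (B (M (nat_lit 557) (B (L (nat_lit 460) ln13_17_7 ln13_17_7_ok) (M (nat_lit 556) (B (L (nat_lit 524) ln13_13_5 ln13_13_5_ok) (L (nat_lit 588) ln13_14_5 ln13_14_5_ok))))) (B (M (nat_lit 397) (B (M (nat_lit 524) (B (L (nat_lit 492) ln13_12_5 ln13_12_5_ok) (L (nat_lit 556) ln13_13_5 ln13_13_5_ok))) (M (nat_lit 526) (B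 (L (nat_lit 494) ln13_12_4 ln13_12_4_ok) (L (nat_lit 558) ln13_13_4 ln13_13_4_ok))))) (M (nat_lit 557) (B (L (nat_lit 460) ln13_17_7 ln13_17_7_ok) (M (nat_lit 558) (B (L (nat_lit 526) ln13_13_4 ln13_13_4_ok) (L (nat_lit 590) ln13_14_4 ln13_14_4_ok)))))))) (M (nat_lit 397) (B (M (nat_lit 364) (B (L (nat_lit 396) ln13_15_7 ln13_15_7_ok) (M (nat_lit 365) (B (L (nat_lit 332) ln13_14_7 ln13_14_7_ok) (M (nat_lit 460) (B (L (nat_lit 333) ln13_10_5 ln13_10_5_ok) (L (nat_lit 492) ln13_11_5 ln13_11_5_ok))))))) (B (M (nat_lit 396) (B (L (nat_lit 364) ln13_15_7 ln13_15_7_ok) (M (nat_lit 398) (B (L (nat_lit 366) ln13_15_6 ln13_15_6_ok) (M (nat_lit 399) (B (L (nat_lit 427) ln15_12_1 ln15_12_1_ok) (L (nat_lit 400) ln16_12_1 ln16_12_1_ok))))))) (M (nat_lit 398) (B (L (nat_lit 366) ln13_15_6 ln13_15_6_ok) (M (nat_lit 427) (B (L (nat_lit 426) ln10_13_2 ln10_13_2_ok) (M (nat_lit 399) (B (L (nat_lit 400) ln16_12_1 ln16_12_1_ok)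 (L (nat_lit 430) ln11_13_2 ln11_13_2_ok))))))))))))))) c40_n1736))))))))))))) (nat_lit 2079502270590611144683810638107312777577327806531862431377859685460965980854219217279980804578104683573043408221052678871730618368) (nat_lit 5065326625825206957456194725730151547733969297061329327340346408284081599165529119842457424552113654408157007710123157581529901937536411351918807269032282735619160870183959003136) (nat_lit 5065326625825206957456194725730151547733969297061329327340346408284081599165529119842457424552113654408157007710123157581529901937536411351918807269032282735619160870183959003136) (by decide +kernel)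
theorem c40_s1779 : Sem (nat_lit 2079502270590611144683810638107312777577327806531862431377859685460965980854219217279980804578104683573043408221052678871730618368) (nat_lit 10130653247640578837660807663794562813147678285424326203218415356221249605382589908401070022692689949530602926690181254974650760569574760543488068894880593240350715072186721239040) (nat_lit 10130653247640578837660807663794562813147678285424326203218415356221249605382589908401070022692689949530602926690181254974650760569574760543488068894880593240350715072186721239040) :=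
  sem_of_chk (M (nat_lit 430) (B (M (nat_lit 427) (B (M (nat_lit 398) (B (L (nat_lit 399) ln11_13_2 ln11_13_2_ok) (M (nat_lit 462) (B (L (nat_lit 463) ln11_13_0 ln11_13_0_ok) (M (nat_lit 426) (B (L (nat_lit 397) ln10_13_2 ln10_13_2_ok) (L (nat_lit 461) ln10_13_0 ln10_13_0_ok))))))) (B (M (nat_lit 431) (B (M (nat_lit 399) (B (L (nat_lit 398) ln11_13_2 ln11_13_2_ok) (L (nat_lit 400) ln12_13_2 ln12_13_2_ok))) (M (nat_lit 463) (B (L (nat_lit 462) ln11_13_0 ln11_13_0_ok) (L (nat_lit 464) ln12_13_0 ln12_13_0_ok))))) (B (M (nat_lit 426) (B (M (nat_lit 458) (B (L (nat_lit 457) ln13_13_1 ln13_13_1_ok) (L (nat_lit 459) ln14_13_1 ln14_13_1_ok))) (M (nat_lit 462) (B (L (nat_lit 461) ln10_13_0 ln10_13_0_ok) (L (nat_lit 463) ln11_13_0 ln11_13_0_ok))))) (M (nat_lit 426) (B (M (nat_lit 398) (B (L (nat_lit 397) ln10_13_2 ln10_13_2_ok) (L (nat_lit 399) ln11_13_2 ln11_13_2_ok))) (M (nat_lit 458) (B (L (nat_lit 457) ln13_13_1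 ln13_13_1_ok) (L (nat_lit 459) ln14_13_1 ln14_13_1_ok))))))))) (B (M (nat_lit 427) (B (M (nat_lit 426) (B (M (nat_lit 394) (B (L (nat_lit 393) ln13_13_3 ln13_13_3_ok) (L (nat_lit 395) ln14_13_3 ln14_13_3_ok))) (M (nat_lit 458) (B (L (nat_lit 457) ln13_13_1 ln13_13_1_ok) (L (nat_lit 459) ln14_13_1 ln14_13_1_ok))))) (M (nat_lit 431) (B (M (nat_lit 399) (B (L (nat_lit 398) ln11_13_2 ln11_13_2_ok) (L (nat_lit 400) ln12_13_2 ln12_13_2_ok))) (M (nat_lit 463) (B (L (nat_lit 462) ln11_13_0 ln11_13_0_ok) (L (nat_lit 464) ln12_13_0 ln12_13_0_ok))))))) (B (M (nat_lit 427) (B (M (nat_lit 426) (B (M (nat_lit 394) (B (L (nat_lit 393) ln13_13_3 ln13_13_3_ok) (L (nat_lit 395) ln14_13_3 ln14_13_3_ok))) (M (nat_lit 462) (B (L (nat_lit 461) ln10_13_0 ln10_13_0_ok) (L (nat_lit 463) ln11_13_0 ln11_13_0_ok))))) (B (M (nat_lit 431) (B (M (nat_lit 459) (B (L (nat_lit 458) ln14_13_1 ln14_13_1_ok) (L (nat_lit 460) ln15_13_1 ln15_13_1_ok)))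 (M (nat_lit 463) (B (L (nat_lit 462) ln11_13_0 ln11_13_0_ok) (L (nat_lit 464) ln12_13_0 ln12_13_0_ok))))) (M (nat_lit 426) (B (M (nat_lit 394) (B (L (nat_lit 393) ln13_13_3 ln13_13_3_ok) (L (nat_lit 395) ln14_13_3 ln14_13_3_ok))) (M (nat_lit 458) (B (L (nat_lit 457) ln13_13_1 ln13_13_1_ok) (L (nat_lit 459) ln14_13_1 ln14_13_1_ok)))))))) (B (M (nat_lit 431) (B (M (nat_lit 427) (B (M (nat_lit 459) (B (L (nat_lit 458) ln14_13_1 ln14_13_1_ok) (L (nat_lit 460) ln15_13_1 ln15_13_1_ok))) (M (nat_lit 463) (B (L (nat_lit 462) ln11_13_0 ln11_13_0_ok) (L (nat_lit 464) ln12_13_0 ln12_13_0_ok))))) (B (M (nat_lit 432) (B (M (nat_lit 400) (B (L (nat_lit 399) ln12_13_2 ln12_13_2_ok) (L (nat_lit 401) ln13_13_2 ln13_13_2_ok))) (M (nat_lit 464) (B (L (nat_lit 463) ln12_13_0 ln12_13_0_ok) (L (nat_lit 465) ln13_13_0 ln13_13_0_ok))))) (M (nat_lit 427) (B (M (nat_lit 399) (B (L (nat_lit 398) ln11_13_2 ln11_13_2_ok) (L (nat_lit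 400) ln12_13_2 ln12_13_2_ok))) (M (nat_lit 459) (B (L (nat_lit 458) ln14_13_1 ln14_13_1_ok) (L (nat_lit 460) ln15_13_1 ln15_13_1_ok)))))))) (B (M (nat_lit 431) (B (M (nat_lit 460) (B (L (nat_lit 459) ln15_13_1 ln15_13_1_ok) (M (nat_lit 432) (B (L (nat_lit 461) ln16_13_1 ln16_13_1_ok) (M (nat_lit 464) (B (L (nat_lit 463) ln12_13_0 ln12_13_0_ok) (L (nat_lit 465) ln13_13_0 ln13_13_0_ok))))))) (B (M (nat_lit 460) (B (L (nat_lit 459) ln15_13_1 ln15_13_1_ok) (M (nat_lit 462) (B (M (nat_lit 399) (B (L (nat_lit 400) ln12_13_2 ln12_13_2_ok) (M (nat_lit 494) (B (L (nat_lit 526) ln14_16_6 ln14_16_6_ok) (M (nat_lit 367) (B (L (nat_lit 335) ln15_10_5 ln15_10_5_ok) (L (nat_lit 398) ln14_15_6 ln14_15_6_ok))))))) (B (M (nat_lit 463) (B (L (nat_lit 464) ln12_13_0 ln12_13_0_ok) (M (nat_lit 399) (B (L (nat_lit 400) ln12_13_2 ln12_13_2_ok) (M (nat_lit 494) (B (L (nat_lit 367) ln15_11_5 ln15_11_5_ok) (L (nat_lit 526) ln14_16_6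 ln14_16_6_ok))))))) (M (nat_lit 463) (B (L (nat_lit 464) ln12_13_0 ln12_13_0_ok) (M (nat_lit 461) (B (M (nat_lit 492) (B (L (nat_lit 491) ln15_14_1 ln15_14_1_ok) (M (nat_lit 397) (B (L (nat_lit 365) ln13_11_5 ln13_11_5_ok) (L (nat_lit 524) ln12_16_6 ln12_16_6_ok))))) (M (nat_lit 495) (B (L (nat_lit 496) ln12_14_0 ln12_14_0_ok) (M (nat_lit 398) (B (L (nat_lit 366) ln14_11_4 ln14_11_4_ok) (L (nat_lit 527) ln15_16_7 ln15_16_7_ok)))))))))))))) (B (M (nat_lit 432) (B (M (nat_lit 400) (B (L (nat_lit 399) ln12_13_2 ln12_13_2_ok) (L (nat_lit 401) ln13_13_2 ln13_13_2_ok))) (M (nat_lit 464) (B (L (nat_lit 463) ln12_13_0 ln12_13_0_ok) (L (nat_lit 465) ln13_13_0 ln13_13_0_ok))))) (M (nat_lit 432) (B (M (nat_lit 400) (B (L (nat_lit 399) ln12_13_2 ln12_13_2_ok) (L (nat_lit 401) ln13_13_2 ln13_13_2_ok))) (M (nat_lit 460) (B (L (nat_lit 459) ln15_13_1 ln15_13_1_ok) (L (nat_lit 461) ln16_13_1 ln16_13_1_ok))))))))) (B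 (M (nat_lit 462) (B (M (nat_lit 463) (B (L (nat_lit 427) ln11_13_0 ln11_13_0_ok) (M (nat_lit 464) (B (L (nat_lit 461) ln16_14_3 ln16_14_3_ok) (L (nat_lit 465) ln17_14_3 ln17_14_3_ok))))) (B (M (nat_lit 494) (B (M (nat_lit 397) (B (L (nat_lit 526) ln14_16_7 ln14_16_7_ok) (M (nat_lit 365) (B (L (nat_lit 398) ln14_15_7 ln14_15_7_ok) (L (nat_lit 461) ln13_11_4 ln13_11_4_ok))))) (B (M (nat_lit 526) (B (L (nat_lit 397) ln14_16_7 ln14_16_7_ok) (M (nat_lit 558) (B (L (nat_lit 461) ln14_17_7 ln14_17_7_ok) (M (nat_lit 557) (B (L (nat_lit 525) ln14_13_5 ln14_13_5_ok) (L (nat_lit 589) ln14_14_5 ln14_14_5_ok))))))) (B (M (nat_lit 526) (B (M (nat_lit 558) (B (L (nat_lit 461) ln14_17_7 ln14_17_7_ok) (M (nat_lit 557) (B (L (nat_lit 525) ln14_13_5 ln14_13_5_ok) (L (nat_lit 589) ln14_14_5 ln14_14_5_ok))))) (B (M (nat_lit 398) (B (M (nat_lit 525) (B (L (nat_lit 493) ln14_12_5 ln14_12_5_ok) (L (nat_lit 557) ln14_13_5 ln14_13_5_ok)))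 (M (nat_lit 527) (B (L (nat_lit 495) ln14_12_4 ln14_12_4_ok) (L (nat_lit 559) ln14_13_4 ln14_13_4_ok))))) (M (nat_lit 558) (B (L (nat_lit 461) ln14_17_7 ln14_17_7_ok) (M (nat_lit 559) (B (L (nat_lit 527) ln14_13_4 ln14_13_4_ok) (L (nat_lit 591) ln14_14_4 ln14_14_4_ok)))))))) (B (M (nat_lit 397) (B (L (nat_lit 526) ln14_16_7 ln14_16_7_ok) (M (nat_lit 365) (B (L (nat_lit 333) ln13_10_4 ln13_10_4_ok) (L (nat_lit 398) ln14_15_7 ln14_15_7_ok))))) (M (nat_lit 398) (B (M (nat_lit 397) (B (L (nat_lit 365) ln14_15_7 ln14_15_7_ok) (M (nat_lit 399) (B (L (nat_lit 367) ln14_15_6 ln14_15_6_ok) (L (nat_lit 400) ln16_12_1 ln16_12_1_ok))))) (B (M (nat_lit 366) (B (M (nat_lit 367) (B (L (nat_lit 335) ln14_14_6 ln14_14_6_ok) (L (nat_lit 399) ln14_15_6 ln14_15_6_ok))) (M (nat_lit 493) (B (L (nat_lit 461) ln14_11_5 ln14_11_5_ok) (L (nat_lit 525) ln14_12_5 ln14_12_5_ok))))) (M (nat_lit 366) (B (M (nat_lit 365) (B (L (nat_lit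 333) ln14_14_7 ln14_14_7_ok) (L (nat_lit 397) ln14_15_7 ln14_15_7_ok))) (M (nat_lit 493) (B (L (nat_lit 461) ln14_11_5 ln14_11_5_ok) (L (nat_lit 525) ln14_12_5 ln14_12_5_ok))))))))))))) (M (nat_lit 427) (B (L (nat_lit 463) ln11_13_0 ln11_13_0_ok) (M (nat_lit 426) (B (M (nat_lit 394) (B (L (nat_lit 393) ln13_13_3 ln13_13_3_ok) (L (nat_lit 395) ln14_13_3 ln14_13_3_ok))) (M (nat_lit 398) (B (L (nat_lit 397) ln10_13_2 ln10_13_2_ok) (L (nat_lit 399) ln11_13_2 ln11_13_2_ok)))))))))) (M (nat_lit 427) (B (M (nat_lit 398) (B (L (nat_lit 399) ln11_13_2 ln11_13_2_ok) (M (nat_lit 394) (B (L (nat_lit 395) ln14_13_3 ln14_13_3_ok) (M (nat_lit 426) (B (L (nat_lit 393) ln13_13_3 ln13_13_3_ok) (L (nat_lit 397) ln10_13_2 ln10_13_2_ok))))))) (B (M (nat_lit 431) (B (M (nat_lit 399) (B (L (nat_lit 398) ln11_13_2 ln11_13_2_ok) (L (nat_lit 400) ln12_13_2 ln12_13_2_ok))) (M (nat_lit 459) (B (L (nat_lit 458) ln14_13_1 ln14_13_1_ok)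 (L (nat_lit 460) ln15_13_1 ln15_13_1_ok))))) (M (nat_lit 426) (B (M (nat_lit 394) (B (L (nat_lit 393) ln13_13_3 ln13_13_3_ok) (L (nat_lit 395) ln14_13_3 ln14_13_3_ok))) (M (nat_lit 458) (B (L (nat_lit 457) ln13_13_1 ln13_13_1_ok) (L (nat_lit 459) ln14_13_1 ln14_13_1_ok))))))))))))))) (nat_lit 2079502270590611144683810638107312777577327806531862431377859685460965980854219217279980804578104683573043408221052678871730618368) (nat_lit 10130653247640578837660807663794562813147678285424326203218415356221249605382589908401070022692689949530602926690181254974650760569574760543488068894880593240350715072186721239040) (nat_lit 10130653247640578837660807663794562813147678285424326203218415356221249605382589908401070022692689949530602926690181254974650760569574760543488068894880593240350715072186721239040) (by decide +kernel)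
theorem c40_s1828 : Sem (nat_lit 2079502270590611144683810638107312777577327806531862431377859685460965980854219217279980804578104683573043408221052678871730618368) (nat_lit 796316528981127882599558919534992355168076274306112875037105754515095591483413542356658547255997432927193506931205843906849287838138951802337024560837274107904) (nat_lit 796316528981127882599558919534992355168076274306112875037105754515095591483413542356658547255997432927193506931205843906849287838138951802337024560837274107904) :=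
  sem_of_chk (M (nat_lit 430) (B (M (nat_lit 427) (B (M (nat_lit 426) (B (M (nat_lit 458) (B (L (nat_lit 457) ln13_13_1 ln13_13_1_ok) (L (nat_lit 459) ln14_13_1 ln14_13_1_ok))) (M (nat_lit 462) (B (L (nat_lit 461) ln10_13_0 ln10_13_0_ok) (L (nat_lit 463) ln11_13_0 ln11_13_0_ok))))) (B (M (nat_lit 431) (B (M (nat_lit 399) (B (L (nat_lit 398) ln11_13_2 ln11_13_2_ok) (L (nat_lit 400) ln12_13_2 ln12_13_2_ok))) (M (nat_lit 463) (B (L (nat_lit 462) ln11_13_0 ln11_13_0_ok) (L (nat_lit 464) ln12_13_0 ln12_13_0_ok))))) (M (nat_lit 431) (B (M (nat_lit 395) (B (L (nat_lit 394) ln14_13_3 ln14_13_3_ok) (L (nat_lit 396) ln15_13_3 ln15_13_3_ok))) (M (nat_lit 459) (B (L (nat_lit 458) ln14_13_1 ln14_13_1_ok) (L (nat_lit 460) ln15_13_1 ln15_13_1_ok)))))))) (B (M (nat_lit 427) (B (M (nat_lit 431) (B (M (nat_lit 399) (B (L (nat_lit 398) ln11_13_2 ln11_13_2_ok) (L (nat_lit 400) ln12_13_2 ln12_13_2_ok))) (M (nat_lit 459) (B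 (L (nat_lit 458) ln14_13_1 ln14_13_1_ok) (L (nat_lit 460) ln15_13_1 ln15_13_1_ok))))) (B (M (nat_lit 431) (B (M (nat_lit 459) (B (L (nat_lit 458) ln14_13_1 ln14_13_1_ok) (L (nat_lit 460) ln15_13_1 ln15_13_1_ok))) (M (nat_lit 463) (B (L (nat_lit 462) ln11_13_0 ln11_13_0_ok) (L (nat_lit 464) ln12_13_0 ln12_13_0_ok))))) (B (M (nat_lit 426) (B (M (nat_lit 458) (B (L (nat_lit 457) ln13_13_1 ln13_13_1_ok) (L (nat_lit 459) ln14_13_1 ln14_13_1_ok))) (M (nat_lit 462) (B (L (nat_lit 461) ln10_13_0 ln10_13_0_ok) (L (nat_lit 463) ln11_13_0 ln11_13_0_ok))))) (M (nat_lit 431) (B (M (nat_lit 399) (B (L (nat_lit 398) ln11_13_2 ln11_13_2_ok) (L (nat_lit 400) ln12_13_2 ln12_13_2_ok))) (M (nat_lit 463) (B (L (nat_lit 462) ln11_13_0 ln11_13_0_ok) (L (nat_lit 464) ln12_13_0 ln12_13_0_ok))))))))) (B (M (nat_lit 427) (B (M (nat_lit 431) (B (M (nat_lit 459) (B (L (nat_lit 458) ln14_13_1 ln14_13_1_ok) (L (nat_lit 460) ln15_13_1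 ln15_13_1_ok))) (M (nat_lit 463) (B (L (nat_lit 462) ln11_13_0 ln11_13_0_ok) (L (nat_lit 464) ln12_13_0 ln12_13_0_ok))))) (B (M (nat_lit 426) (B (M (nat_lit 394) (B (L (nat_lit 393) ln13_13_3 ln13_13_3_ok) (L (nat_lit 395) ln14_13_3 ln14_13_3_ok))) (M (nat_lit 458) (B (L (nat_lit 457) ln13_13_1 ln13_13_1_ok) (L (nat_lit 459) ln14_13_1 ln14_13_1_ok))))) (M (nat_lit 431) (B (M (nat_lit 395) (B (L (nat_lit 394) ln14_13_3 ln14_13_3_ok) (L (nat_lit 396) ln15_13_3 ln15_13_3_ok))) (M (nat_lit 463) (B (L (nat_lit 462) ln11_13_0 ln11_13_0_ok) (L (nat_lit 464) ln12_13_0 ln12_13_0_ok)))))))) (B (M (nat_lit 431) (B (M (nat_lit 427) (B (M (nat_lit 395) (B (L (nat_lit 394) ln14_13_3 ln14_13_3_ok) (L (nat_lit 396) ln15_13_3 ln15_13_3_ok))) (M (nat_lit 463) (B (L (nat_lit 462) ln11_13_0 ln11_13_0_ok) (L (nat_lit 464) ln12_13_0 ln12_13_0_ok))))) (B (M (nat_lit 427) (B (M (nat_lit 459) (B (L (nat_lit 458) ln14_13_1 ln14_13_1_ok)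 (L (nat_lit 460) ln15_13_1 ln15_13_1_ok))) (M (nat_lit 463) (B (L (nat_lit 462) ln11_13_0 ln11_13_0_ok) (L (nat_lit 464) ln12_13_0 ln12_13_0_ok))))) (M (nat_lit 432) (B (M (nat_lit 400) (B (L (nat_lit 399) ln12_13_2 ln12_13_2_ok) (L (nat_lit 401) ln13_13_2 ln13_13_2_ok))) (M (nat_lit 460) (B (L (nat_lit 459) ln15_13_1 ln15_13_1_ok) (L (nat_lit 461) ln16_13_1 ln16_13_1_ok)))))))) (B (M (nat_lit 431) (B (M (nat_lit 460) (B (L (nat_lit 459) ln15_13_1 ln15_13_1_ok) (M (nat_lit 432) (B (L (nat_lit 461) ln16_13_1 ln16_13_1_ok) (M (nat_lit 464) (B (L (nat_lit 463) ln12_13_0 ln12_13_0_ok) (L (nat_lit 465) ln13_13_0 ln13_13_0_ok))))))) (B (M (nat_lit 460) (B (L (nat_lit 459) ln15_13_1 ln15_13_1_ok) (M (nat_lit 461) (B (M (nat_lit 396) (B (L (nat_lit 395) ln15_13_3 ln15_13_3_ok) (M (nat_lit 493) (B (L (nat_lit 364) ln12_11_4 ln12_11_4_ok) (L (nat_lit 525) ln13_16_7 ln13_16_7_ok))))) (M (nat_lit 462) (B (M (nat_lit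 463) (B (L (nat_lit 464) ln12_13_0 ln12_13_0_ok) (M (nat_lit 495) (B (L (nat_lit 496) ln12_14_0 ln12_14_0_ok) (M (nat_lit 398) (B (L (nat_lit 366) ln14_11_4 ln14_11_4_ok) (L (nat_lit 527) ln15_16_7 ln15_16_7_ok))))))) (B (M (nat_lit 463) (B (L (nat_lit 464) ln12_13_0 ln12_13_0_ok) (M (nat_lit 399) (B (L (nat_lit 400) ln12_13_2 ln12_13_2_ok) (M (nat_lit 367) (B (L (nat_lit 335) ln15_10_5 ln15_10_5_ok) (L (nat_lit 494) ln15_11_5 ln15_11_5_ok))))))) (M (nat_lit 399) (B (L (nat_lit 400) ln12_13_2 ln12_13_2_ok) (M (nat_lit 494) (B (L (nat_lit 526) ln14_16_6 ln14_16_6_ok) (M (nat_lit 367) (B (L (nat_lit 335) ln15_10_5 ln15_10_5_ok) (L (nat_lit 398) ln14_15_6 ln14_15_6_ok)))))))))))))) (B (M (nat_lit 432) (B (M (nat_lit 400) (B (L (nat_lit 399) ln12_13_2 ln12_13_2_ok) (L (nat_lit 401) ln13_13_2 ln13_13_2_ok))) (M (nat_lit 464) (B (L (nat_lit 463) ln12_13_0 ln12_13_0_ok) (L (nat_lit 465) ln13_13_0 ln13_13_0_ok)))))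 (M (nat_lit 432) (B (M (nat_lit 400) (B (L (nat_lit 399) ln12_13_2 ln12_13_2_ok) (L (nat_lit 401) ln13_13_2 ln13_13_2_ok))) (M (nat_lit 460) (B (L (nat_lit 459) ln15_13_1 ln15_13_1_ok) (L (nat_lit 461) ln16_13_1 ln16_13_1_ok))))))))) (B (M (nat_lit 427) (B (M (nat_lit 426) (B (M (nat_lit 458) (B (L (nat_lit 457) ln13_13_1 ln13_13_1_ok) (L (nat_lit 459) ln14_13_1 ln14_13_1_ok))) (M (nat_lit 462) (B (L (nat_lit 461) ln10_13_0 ln10_13_0_ok) (L (nat_lit 463) ln11_13_0 ln11_13_0_ok))))) (B (M (nat_lit 462) (B (L (nat_lit 463) ln11_13_0 ln11_13_0_ok) (M (nat_lit 461) (B (M (nat_lit 398) (B (L (nat_lit 399) ln11_13_2 ln11_13_2_ok) (M (nat_lit 493) (B (L (nat_lit 366) ln14_11_5 ln14_11_5_ok) (L (nat_lit 525) ln13_16_6 ln13_16_6_ok))))) (M (nat_lit 459) (B (L (nat_lit 458) ln14_13_1 ln14_13_1_ok) (M (nat_lit 460) (B (M (nat_lit 395) (B (L (nat_lit 394) ln14_13_3 ln14_13_3_ok) (M (nat_lit 363) (B (L (nat_lit 331)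 ln11_10_4 ln11_10_4_ok) (L (nat_lit 492) ln11_11_4 ln11_11_4_ok))))) (M (nat_lit 491) (B (L (nat_lit 490) ln14_14_1 ln14_14_1_ok) (M (nat_lit 396) (B (L (nat_lit 364) ln12_11_5 ln12_11_5_ok) (L (nat_lit 523) ln11_16_6 ln11_16_6_ok))))))))))))) (B (M (nat_lit 426) (B (M (nat_lit 394) (B (L (nat_lit 393) ln13_13_3 ln13_13_3_ok) (L (nat_lit 395) ln14_13_3 ln14_13_3_ok))) (M (nat_lit 462) (B (L (nat_lit 461) ln10_13_0 ln10_13_0_ok) (L (nat_lit 463) ln11_13_0 ln11_13_0_ok))))) (M (nat_lit 426) (B (M (nat_lit 394) (B (L (nat_lit 393) ln13_13_3 ln13_13_3_ok) (L (nat_lit 395) ln14_13_3 ln14_13_3_ok))) (M (nat_lit 458) (B (L (nat_lit 457) ln13_13_1 ln13_13_1_ok) (L (nat_lit 459) ln14_13_1 ln14_13_1_ok))))))))) (B (M (nat_lit 427) (B (M (nat_lit 431) (B (M (nat_lit 399) (B (L (nat_lit 398) ln11_13_2 ln11_13_2_ok) (L (nat_lit 400) ln12_13_2 ln12_13_2_ok))) (M (nat_lit 463) (B (L (nat_lit 462) ln11_13_0 ln11_13_0_ok)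 (L (nat_lit 464) ln12_13_0 ln12_13_0_ok))))) (B (M (nat_lit 431) (B (M (nat_lit 395) (B (L (nat_lit 394) ln14_13_3 ln14_13_3_ok) (L (nat_lit 396) ln15_13_3 ln15_13_3_ok))) (M (nat_lit 463) (B (L (nat_lit 462) ln11_13_0 ln11_13_0_ok) (L (nat_lit 464) ln12_13_0 ln12_13_0_ok))))) (B (M (nat_lit 426) (B (M (nat_lit 394) (B (L (nat_lit 393) ln13_13_3 ln13_13_3_ok) (L (nat_lit 395) ln14_13_3 ln14_13_3_ok))) (M (nat_lit 462) (B (L (nat_lit 461) ln10_13_0 ln10_13_0_ok) (L (nat_lit 463) ln11_13_0 ln11_13_0_ok))))) (M (nat_lit 431) (B (M (nat_lit 395) (B (L (nat_lit 394) ln14_13_3 ln14_13_3_ok) (L (nat_lit 396) ln15_13_3 ln15_13_3_ok))) (M (nat_lit 399) (B (L (nat_lit 398) ln11_13_2 ln11_13_2_ok) (L (nat_lit 400) ln12_13_2 ln12_13_2_ok))))))))) (M (nat_lit 427) (B (M (nat_lit 431) (B (M (nat_lit 399) (B (L (nat_lit 398) ln11_13_2 ln11_13_2_ok) (L (nat_lit 400) ln12_13_2 ln12_13_2_ok))) (M (nat_lit 459) (B (L (nat_lit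 458) ln14_13_1 ln14_13_1_ok) (L (nat_lit 460) ln15_13_1 ln15_13_1_ok))))) (B (M (nat_lit 431) (B (M (nat_lit 395) (B (L (nat_lit 394) ln14_13_3 ln14_13_3_ok) (L (nat_lit 396) ln15_13_3 ln15_13_3_ok))) (M (nat_lit 459) (B (L (nat_lit 458) ln14_13_1 ln14_13_1_ok) (L (nat_lit 460) ln15_13_1 ln15_13_1_ok))))) (B (M (nat_lit 426) (B (M (nat_lit 394) (B (L (nat_lit 393) ln13_13_3 ln13_13_3_ok) (L (nat_lit 395) ln14_13_3 ln14_13_3_ok))) (M (nat_lit 458) (B (L (nat_lit 457) ln13_13_1 ln13_13_1_ok) (L (nat_lit 459) ln14_13_1 ln14_13_1_ok))))) (M (nat_lit 431) (B (M (nat_lit 395) (B (L (nat_lit 394) ln14_13_3 ln14_13_3_ok) (L (nat_lit 396) ln15_13_3 ln15_13_3_ok))) (M (nat_lit 399) (B (L (nat_lit 398) ln11_13_2 ln11_13_2_ok) (L (nat_lit 400) ln12_13_2 ln12_13_2_ok))))))))))))))))) (nat_lit 2079502270590611144683810638107312777577327806531862431377859685460965980854219217279980804578104683573043408221052678871730618368)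 (nat_lit 796316528981127882599558919534992355168076274306112875037105754515095591483413542356658547255997432927193506931205843906849287838138951802337024560837274107904) (nat_lit 796316528981127882599558919534992355168076274306112875037105754515095591483413542356658547255997432927193506931205843906849287838138951802337024560837274107904) (by decide +kernel)
theorem c40_s1863 : Sem (nat_lit 2079502270590611144683810638107312777577327806531862431377859685460965980854219217279980804578104683573043408221052678871730618368) (nat_lit 884522443523492684283482704291600455089953326427166625385630107276295300508610510505062318128060468901271121706739550025602380646994885647811958518542868587067192901632) (nat_lit 884522443523492684283482704291600455089953326427166625385630107276295300508610510505062318128060468901271121706739550025602380646994885647811958518542868587067192901632) :=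
  sem_of_chk (M (nat_lit 430) (B (M (nat_lit 427) (B (M (nat_lit 426) (B (M (nat_lit 458) (B (L (nat_lit 457) ln13_13_1 ln13_13_1_ok) (L (nat_lit 459) ln14_13_1 ln14_13_1_ok))) (M (nat_lit 462) (B (L (nat_lit 461) ln10_13_0 ln10_13_0_ok) (L (nat_lit 463) ln11_13_0 ln11_13_0_ok))))) (B (M (nat_lit 431) (B (M (nat_lit 395) (B (L (nat_lit 394) ln14_13_3 ln14_13_3_ok) (L (nat_lit 396) ln15_13_3 ln15_13_3_ok))) (M (nat_lit 459) (B (L (nat_lit 458) ln14_13_1 ln14_13_1_ok) (L (nat_lit 460) ln15_13_1 ln15_13_1_ok))))) (M (nat_lit 426) (B (M (nat_lit 394) (B (L (nat_lit 393) ln13_13_3 ln13_13_3_ok) (L (nat_lit 395) ln14_13_3 ln14_13_3_ok))) (M (nat_lit 462) (B (L (nat_lit 461) ln10_13_0 ln10_13_0_ok) (L (nat_lit 463) ln11_13_0 ln11_13_0_ok)))))))) (B (M (nat_lit 427) (B (M (nat_lit 431) (B (M (nat_lit 395) (B (L (nat_lit 394) ln14_13_3 ln14_13_3_ok) (L (nat_lit 396) ln15_13_3 ln15_13_3_ok))) (M (nat_lit 459) (B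 (L (nat_lit 458) ln14_13_1 ln14_13_1_ok) (L (nat_lit 460) ln15_13_1 ln15_13_1_ok))))) (B (M (nat_lit 431) (B (M (nat_lit 459) (B (L (nat_lit 458) ln14_13_1 ln14_13_1_ok) (L (nat_lit 460) ln15_13_1 ln15_13_1_ok))) (M (nat_lit 463) (B (L (nat_lit 462) ln11_13_0 ln11_13_0_ok) (L (nat_lit 464) ln12_13_0 ln12_13_0_ok))))) (B (M (nat_lit 426) (B (M (nat_lit 458) (B (L (nat_lit 457) ln13_13_1 ln13_13_1_ok) (L (nat_lit 459) ln14_13_1 ln14_13_1_ok))) (M (nat_lit 462) (B (L (nat_lit 461) ln10_13_0 ln10_13_0_ok) (L (nat_lit 463) ln11_13_0 ln11_13_0_ok))))) (M (nat_lit 431) (B (M (nat_lit 395) (B (L (nat_lit 394) ln14_13_3 ln14_13_3_ok) (L (nat_lit 396) ln15_13_3 ln15_13_3_ok))) (M (nat_lit 463) (B (L (nat_lit 462) ln11_13_0 ln11_13_0_ok) (L (nat_lit 464) ln12_13_0 ln12_13_0_ok))))))))) (B (M (nat_lit 431) (B (M (nat_lit 432) (B (M (nat_lit 396) (B (L (nat_lit 395) ln15_13_3 ln15_13_3_ok) (L (nat_lit 397) ln16_13_3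 ln16_13_3_ok))) (M (nat_lit 464) (B (L (nat_lit 463) ln12_13_0 ln12_13_0_ok) (L (nat_lit 465) ln13_13_0 ln13_13_0_ok))))) (B (M (nat_lit 427) (B (M (nat_lit 459) (B (L (nat_lit 458) ln14_13_1 ln14_13_1_ok) (L (nat_lit 460) ln15_13_1 ln15_13_1_ok))) (M (nat_lit 463) (B (L (nat_lit 462) ln11_13_0 ln11_13_0_ok) (L (nat_lit 464) ln12_13_0 ln12_13_0_ok))))) (M (nat_lit 432) (B (M (nat_lit 396) (B (L (nat_lit 395) ln15_13_3 ln15_13_3_ok) (L (nat_lit 397) ln16_13_3 ln16_13_3_ok))) (M (nat_lit 460) (B (L (nat_lit 459) ln15_13_1 ln15_13_1_ok) (L (nat_lit 461) ln16_13_1 ln16_13_1_ok)))))))) (B (M (nat_lit 431) (B (M (nat_lit 432) (B (M (nat_lit 400) (B (L (nat_lit 399) ln12_13_2 ln12_13_2_ok) (L (nat_lit 401) ln13_13_2 ln13_13_2_ok))) (M (nat_lit 460) (B (L (nat_lit 459) ln15_13_1 ln15_13_1_ok) (L (nat_lit 461) ln16_13_1 ln16_13_1_ok))))) (B (M (nat_lit 427) (B (M (nat_lit 459) (B (L (nat_lit 458) ln14_13_1 ln14_13_1_ok)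 (L (nat_lit 460) ln15_13_1 ln15_13_1_ok))) (M (nat_lit 463) (B (L (nat_lit 462) ln11_13_0 ln11_13_0_ok) (L (nat_lit 464) ln12_13_0 ln12_13_0_ok))))) (M (nat_lit 432) (B (M (nat_lit 400) (B (L (nat_lit 399) ln12_13_2 ln12_13_2_ok) (L (nat_lit 401) ln13_13_2 ln13_13_2_ok))) (M (nat_lit 464) (B (L (nat_lit 463) ln12_13_0 ln12_13_0_ok) (L (nat_lit 465) ln13_13_0 ln13_13_0_ok)))))))) (B c40_n801 (B (M (nat_lit 427) (B (M (nat_lit 426) (B (M (nat_lit 458) (B (L (nat_lit 457) ln13_13_1 ln13_13_1_ok) (L (nat_lit 459) ln14_13_1 ln14_13_1_ok))) (M (nat_lit 462) (B (L (nat_lit 461) ln10_13_0 ln10_13_0_ok) (L (nat_lit 463) ln11_13_0 ln11_13_0_ok))))) (B (M (nat_lit 395) (B (L (nat_lit 394) ln14_13_3 ln14_13_3_ok) (M (nat_lit 459) (B (L (nat_lit 458) ln14_13_1 ln14_13_1_ok) (M (nat_lit 491) (B (M (nat_lit 396) (B (L (nat_lit 364) ln11_15_6 ln11_15_6_ok) (L (nat_lit 523) ln11_16_6 ln11_16_6_ok))) (B (M (nat_lit 524)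 (B (L (nat_lit 492) ln11_12_4 ln11_12_4_ok) (M (nat_lit 523) (B (L (nat_lit 396) ln11_16_6 ln11_16_6_ok) (L (nat_lit 556) ln11_13_4 ln11_13_4_ok))))) (B (M (nat_lit 523) (B (M (nat_lit 522) (B (L (nat_lit 490) ln11_12_5 ln11_12_5_ok) (L (nat_lit 554) ln11_13_5 ln11_13_5_ok))) (M (nat_lit 524) (B (L (nat_lit 492) ln11_12_4 ln11_12_4_ok) (L (nat_lit 556) ln11_13_4 ln11_13_4_ok))))) (M (nat_lit 363) (B (M (nat_lit 364) (B (L (nat_lit 332) ln11_14_6 ln11_14_6_ok) (L (nat_lit 396) ln11_15_6 ln11_15_6_ok))) (M (nat_lit 492) (B (L (nat_lit 460) ln11_11_4 ln11_11_4_ok) (L (nat_lit 524) ln11_12_4 ln11_12_4_ok))))))))))))) (M (nat_lit 426) (B (M (nat_lit 394) (B (L (nat_lit 393) ln13_13_3 ln13_13_3_ok) (L (nat_lit 395) ln14_13_3 ln14_13_3_ok))) (M (nat_lit 462) (B (L (nat_lit 461) ln10_13_0 ln10_13_0_ok) (L (nat_lit 463) ln11_13_0 ln11_13_0_ok)))))))) (B (M (nat_lit 431) (B (M (nat_lit 432) (B (M (nat_lit 396)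 (B (L (nat_lit 395) ln15_13_3 ln15_13_3_ok) (L (nat_lit 397) ln16_13_3 ln16_13_3_ok))) (M (nat_lit 460) (B (L (nat_lit 459) ln15_13_1 ln15_13_1_ok) (L (nat_lit 461) ln16_13_1 ln16_13_1_ok))))) (B (M (nat_lit 432) (B (M (nat_lit 400) (B (L (nat_lit 399) ln12_13_2 ln12_13_2_ok) (L (nat_lit 401) ln13_13_2 ln13_13_2_ok))) (M (nat_lit 464) (B (L (nat_lit 463) ln12_13_0 ln12_13_0_ok) (L (nat_lit 465) ln13_13_0 ln13_13_0_ok))))) (M (nat_lit 427) (B (M (nat_lit 395) (B (L (nat_lit 394) ln14_13_3 ln14_13_3_ok) (L (nat_lit 396) ln15_13_3 ln15_13_3_ok))) (M (nat_lit 463) (B (L (nat_lit 462) ln11_13_0 ln11_13_0_ok) (L (nat_lit 464) ln12_13_0 ln12_13_0_ok)))))))) (B (M (nat_lit 431) (B (M (nat_lit 432) (B (M (nat_lit 396) (B (L (nat_lit 395) ln15_13_3 ln15_13_3_ok) (L (nat_lit 397) ln16_13_3 ln16_13_3_ok))) (M (nat_lit 400) (B (L (nat_lit 399) ln12_13_2 ln12_13_2_ok) (L (nat_lit 401) ln13_13_2 ln13_13_2_ok))))) (B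 (M (nat_lit 432) (B (M (nat_lit 400) (B (L (nat_lit 399) ln12_13_2 ln12_13_2_ok) (L (nat_lit 401) ln13_13_2 ln13_13_2_ok))) (M (nat_lit 464) (B (L (nat_lit 463) ln12_13_0 ln12_13_0_ok) (L (nat_lit 465) ln13_13_0 ln13_13_0_ok))))) (M (nat_lit 427) (B (M (nat_lit 395) (B (L (nat_lit 394) ln14_13_3 ln14_13_3_ok) (L (nat_lit 396) ln15_13_3 ln15_13_3_ok))) (M (nat_lit 463) (B (L (nat_lit 462) ln11_13_0 ln11_13_0_ok) (L (nat_lit 464) ln12_13_0 ln12_13_0_ok)))))))) (M (nat_lit 431) (B (M (nat_lit 432) (B (M (nat_lit 400) (B (L (nat_lit 399) ln12_13_2 ln12_13_2_ok) (L (nat_lit 401) ln13_13_2 ln13_13_2_ok))) (M (nat_lit 460) (B (L (nat_lit 459) ln15_13_1 ln15_13_1_ok) (L (nat_lit 461) ln16_13_1 ln16_13_1_ok))))) (B (M (nat_lit 427) (B (M (nat_lit 395) (B (L (nat_lit 394) ln14_13_3 ln14_13_3_ok) (L (nat_lit 396) ln15_13_3 ln15_13_3_ok))) (M (nat_lit 459) (B (L (nat_lit 458) ln14_13_1 ln14_13_1_ok) (L (nat_lit 460)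 ln15_13_1 ln15_13_1_ok))))) (M (nat_lit 432) (B (M (nat_lit 396) (B (L (nat_lit 395) ln15_13_3 ln15_13_3_ok) (L (nat_lit 397) ln16_13_3 ln16_13_3_ok))) (M (nat_lit 400) (B (L (nat_lit 399) ln12_13_2 ln12_13_2_ok) (L (nat_lit 401) ln13_13_2 ln13_13_2_ok))))))))))))))))) (nat_lit 2079502270590611144683810638107312777577327806531862431377859685460965980854219217279980804578104683573043408221052678871730618368) (nat_lit 884522443523492684283482704291600455089953326427166625385630107276295300508610510505062318128060468901271121706739550025602380646994885647811958518542868587067192901632) (nat_lit 884522443523492684283482704291600455089953326427166625385630107276295300508610510505062318128060468901271121706739550025602380646994885647811958518542868587067192901632) (by decide +kernel)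
noncomputable def c40_n1929 : Cert := (M (nat_lit 460) (B (M (nat_lit 459) (B (L (nat_lit 431) ln15_13_1 ln15_13_1_ok) (M (nat_lit 458) (B (L (nat_lit 457) ln9_14_2 ln9_14_2_ok) (L (nat_lit 461) ln10_14_2 ln10_14_2_ok))))) (B (M (nat_lit 396) (B (M (nat_lit 364) (B (M (nat_lit 461) (B (L (nat_lit 332) ln12_10_4 ln12_10_4_ok) (L (nat_lit 493) ln12_11_4 ln12_11_4_ok))) (M (nat_lit 492) (B (M (nat_lit 365) (B (L (nat_lit 333) ln12_14_6 ln12_14_6_ok) (L (nat_lit 397) ln12_15_6 ln12_15_6_ok))) (M (nat_lit 491) (B (L (nat_lit 459) ln12_11_5 ln12_11_5_ok) (L (nat_lit 523) ln12_12_5 ln12_12_5_ok))))))) (B (M (nat_lit 492) (B (M (nat_lit 397) (B (L (nat_lit 365) ln12_15_6 ln12_15_6_ok) (L (nat_lit 524) ln12_16_6 ln12_16_6_ok))) (M (nat_lit 364) (B (M (nat_lit 363) (B (L (nat_lit 331) ln12_14_7 ln12_14_7_ok) (L (nat_lit 395) ln12_15_7 ln12_15_7_ok))) (M (nat_lit 491) (B (L (nat_lit 459) ln12_11_5 ln12_11_5_ok)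 (L (nat_lit 523) ln12_12_5 ln12_12_5_ok))))))) (B (M (nat_lit 492) (B (M (nat_lit 397) (B (L (nat_lit 365) ln12_15_6 ln12_15_6_ok) (L (nat_lit 524) ln12_16_6 ln12_16_6_ok))) (B (M (nat_lit 395) (B (L (nat_lit 363) ln12_15_7 ln12_15_7_ok) (M (nat_lit 394) (B (L (nat_lit 393) ln9_12_0 ln9_12_0_ok) (L (nat_lit 397) ln10_12_0 ln10_12_0_ok))))) (M (nat_lit 524) (B (M (nat_lit 523) (B (L (nat_lit 491) ln12_12_5 ln12_12_5_ok) (L (nat_lit 555) ln12_13_5 ln12_13_5_ok))) (M (nat_lit 525) (B (L (nat_lit 493) ln12_12_4 ln12_12_4_ok) (L (nat_lit 557) ln12_13_4 ln12_13_4_ok)))))))) (B (M (nat_lit 395) (B (M (nat_lit 394) (B (L (nat_lit 393) ln9_12_0 ln9_12_0_ok) (L (nat_lit 397) ln10_12_0 ln10_12_0_ok))) (M (nat_lit 364) (B (M (nat_lit 363) (B (L (nat_lit 331) ln12_14_7 ln12_14_7_ok) (L (nat_lit 492) ln12_15_7 ln12_15_7_ok))) (M (nat_lit 461) (B (L (nat_lit 332) ln12_10_4 ln12_10_4_ok) (L (nat_lit 493) ln12_11_4 ln12_11_4_ok)))))))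 (B (M (nat_lit 364) (B (M (nat_lit 461) (B (L (nat_lit 332) ln12_10_4 ln12_10_4_ok) (L (nat_lit 493) ln12_11_4 ln12_11_4_ok))) (M (nat_lit 492) (B (M (nat_lit 363) (B (L (nat_lit 331) ln12_14_7 ln12_14_7_ok) (L (nat_lit 395) ln12_15_7 ln12_15_7_ok))) (M (nat_lit 491) (B (L (nat_lit 459) ln12_11_5 ln12_11_5_ok) (L (nat_lit 523) ln12_12_5 ln12_12_5_ok))))))) (M (nat_lit 364) (B (M (nat_lit 461) (B (L (nat_lit 332) ln12_10_4 ln12_10_4_ok) (L (nat_lit 493) ln12_11_4 ln12_11_4_ok))) (B (M (nat_lit 461) (B (L (nat_lit 493) ln12_11_4 ln12_11_4_ok) (M (nat_lit 459) (B (L (nat_lit 491) ln12_11_5 ln12_11_5_ok) (L (nat_lit 458) ln10_14_2 ln10_14_2_ok))))) (M (nat_lit 332) (B (M (nat_lit 331) (B (L (nat_lit 299) ln12_13_7 ln12_13_7_ok) (L (nat_lit 363) ln12_14_7 ln12_14_7_ok))) (M (nat_lit 333) (B (L (nat_lit 301) ln12_13_6 ln12_13_6_ok) (L (nat_lit 365) ln12_14_6 ln12_14_6_ok)))))))))))))) (B (M (nat_lit 431) (B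 (L (nat_lit 459) ln15_13_1 ln15_13_1_ok) (M (nat_lit 432) (B (L (nat_lit 461) ln16_13_1 ln16_13_1_ok) (M (nat_lit 396) (B (L (nat_lit 395) ln15_13_3 ln15_13_3_ok) (L (nat_lit 397) ln16_13_3 ln16_13_3_ok))))))) (B (M (nat_lit 396) (B (M (nat_lit 431) (B (L (nat_lit 395) ln15_13_3 ln15_13_3_ok) (M (nat_lit 432) (B (L (nat_lit 397) ln16_13_3 ln16_13_3_ok) (L (nat_lit 461) ln16_13_1 ln16_13_1_ok))))) (B (M (nat_lit 364) (B (M (nat_lit 461) (B (L (nat_lit 332) ln12_10_4 ln12_10_4_ok) (L (nat_lit 493) ln12_11_4 ln12_11_4_ok))) (B (M (nat_lit 492) (B (M (nat_lit 365) (B (L (nat_lit 333) ln12_14_6 ln12_14_6_ok) (L (nat_lit 397) ln12_15_6 ln12_15_6_ok))) (M (nat_lit 493) (B (L (nat_lit 461) ln12_11_4 ln12_11_4_ok) (L (nat_lit 525) ln12_12_4 ln12_12_4_ok))))) (M (nat_lit 332) (B (M (nat_lit 331) (B (L (nat_lit 299) ln12_13_7 ln12_13_7_ok) (L (nat_lit 363) ln12_14_7 ln12_14_7_ok))) (M (nat_lit 333) (B (L (nat_lit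 301) ln12_13_6 ln12_13_6_ok) (L (nat_lit 365) ln12_14_6 ln12_14_6_ok)))))))) (B (M (nat_lit 461) (B (M (nat_lit 364) (B (L (nat_lit 332) ln12_10_4 ln12_10_4_ok) (L (nat_lit 493) ln12_11_4 ln12_11_4_ok))) (M (nat_lit 431) (B (L (nat_lit 395) ln15_13_3 ln15_13_3_ok) (L (nat_lit 432) ln16_13_1 ln16_13_1_ok))))) (M (nat_lit 397) (B (M (nat_lit 365) (B (L (nat_lit 333) ln13_10_5 ln13_10_5_ok) (L (nat_lit 492) ln12_15_6 ln12_15_6_ok))) (M (nat_lit 431) (B (L (nat_lit 395) ln15_13_3 ln15_13_3_ok) (L (nat_lit 432) ln16_13_3 ln16_13_3_ok))))))))) (M (nat_lit 431) (B (L (nat_lit 459) ln15_13_1 ln15_13_1_ok) (M (nat_lit 432) (B (M (nat_lit 396) (B (L (nat_lit 395) ln15_13_3 ln15_13_3_ok) (L (nat_lit 397) ln16_13_3 ln16_13_3_ok))) (M (nat_lit 464) (B (L (nat_lit 463) ln12_13_0 ln12_13_0_ok) (L (nat_lit 465) ln13_13_0 ln13_13_0_ok))))))))))))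
noncomputable def c40_n2026 : Cert := (M (nat_lit 427) (B (M (nat_lit 426) (B (M (nat_lit 394) (B (L (nat_lit 393) ln13_13_3 ln13_13_3_ok) (L (nat_lit 395) ln14_13_3 ln14_13_3_ok))) (M (nat_lit 462) (B (L (nat_lit 461) ln10_13_0 ln10_13_0_ok) (L (nat_lit 463) ln11_13_0 ln11_13_0_ok))))) (B (M (nat_lit 431) (B (M (nat_lit 395) (B (L (nat_lit 394) ln14_13_3 ln14_13_3_ok) (L (nat_lit 396) ln15_13_3 ln15_13_3_ok))) (M (nat_lit 463) (B (L (nat_lit 462) ln11_13_0 ln11_13_0_ok) (L (nat_lit 464) ln12_13_0 ln12_13_0_ok))))) (B (M (nat_lit 397) (B (M (nat_lit 462) (B (L (nat_lit 463) ln11_13_0 ln11_13_0_ok) (M (nat_lit 426) (B (L (nat_lit 398) ln10_13_2 ln10_13_2_ok) (L (nat_lit 461) ln10_13_0 ln10_13_0_ok))))) (B (M (nat_lit 431) (B (M (nat_lit 396) (B (L (nat_lit 395) ln15_13_3 ln15_13_3_ok) (L (nat_lit 432) ln16_13_3 ln16_13_3_ok))) (M (nat_lit 463) (B (L (nat_lit 462) ln11_13_0 ln11_13_0_ok) (L (nat_lit 464)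 ln12_13_0 ln12_13_0_ok))))) (M (nat_lit 396) (B (M (nat_lit 426) (B (L (nat_lit 425) ln9_13_2 ln9_13_2_ok) (L (nat_lit 398) ln10_13_2 ln10_13_2_ok))) (M (nat_lit 431) (B (L (nat_lit 395) ln15_13_3 ln15_13_3_ok) (L (nat_lit 432) ln16_13_3 ln16_13_3_ok)))))))) (B (M (nat_lit 426) (B (M (nat_lit 462) (B (L (nat_lit 461) ln10_13_0 ln10_13_0_ok) (L (nat_lit 463) ln11_13_0 ln11_13_0_ok))) (M (nat_lit 425) (B (M (nat_lit 393) (B (L (nat_lit 392) ln12_13_3 ln12_13_3_ok) (L (nat_lit 394) ln13_13_3 ln13_13_3_ok))) (M (nat_lit 457) (B (L (nat_lit 456) ln12_13_1 ln12_13_1_ok) (L (nat_lit 458) ln13_13_1 ln13_13_1_ok))))))) (B (M (nat_lit 460) (B (M (nat_lit 395) (B (L (nat_lit 394) ln14_13_3 ln14_13_3_ok) (M (nat_lit 396) (B (L (nat_lit 431) ln15_13_3 ln15_13_3_ok) (M (nat_lit 363) (B (L (nat_lit 331) ln11_10_4 ln11_10_4_ok) (L (nat_lit 492) ln12_15_7 ln12_15_7_ok))))))) (B (M (nat_lit 395) (B (L (nat_lit 394) ln14_13_3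 ln14_13_3_ok) (M (nat_lit 396) (B (L (nat_lit 431) ln15_13_3 ln15_13_3_ok) (M (nat_lit 492) (B (L (nat_lit 363) ln12_15_7 ln12_15_7_ok) (L (nat_lit 524) ln12_16_7 ln12_16_7_ok))))))) (B (M (nat_lit 461) (B (M (nat_lit 426) (B (L (nat_lit 425) ln9_13_0 ln9_13_0_ok) (M (nat_lit 394) (B (L (nat_lit 393) ln13_13_3 ln13_13_3_ok) (L (nat_lit 395) ln14_13_3 ln14_13_3_ok))))) (B (M (nat_lit 395) (B (L (nat_lit 394) ln14_13_3 ln14_13_3_ok) (M (nat_lit 431) (B (L (nat_lit 396) ln15_13_3 ln15_13_3_ok) (L (nat_lit 432) ln16_13_1 ln16_13_1_ok))))) (M (nat_lit 397) (B (M (nat_lit 365) (B (L (nat_lit 333) ln13_10_5 ln13_10_5_ok) (L (nat_lit 492) ln13_11_5 ln13_11_5_ok))) (M (nat_lit 426) (B (L (nat_lit 398) ln10_13_2 ln10_13_2_ok) (L (nat_lit 425) ln9_13_0 ln9_13_0_ok)))))))) (B (M (nat_lit 397) (B (M (nat_lit 365) (B (L (nat_lit 333) ln13_10_5 ln13_10_5_ok) (M (nat_lit 492) (B (L (nat_lit 396) ln12_15_6 ln12_15_6_ok)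 (L (nat_lit 524) ln12_16_6 ln12_16_6_ok))))) (B (M (nat_lit 492) (B (L (nat_lit 524) ln12_16_6 ln12_16_6_ok) (M (nat_lit 365) (B (L (nat_lit 396) ln12_15_6 ln12_15_6_ok) (L (nat_lit 461) ln13_11_5 ln13_11_5_ok))))) (B (M (nat_lit 426) (B (L (nat_lit 398) ln10_13_2 ln10_13_2_ok) (M (nat_lit 425) (B (L (nat_lit 396) ln9_13_2 ln9_13_2_ok) (L (nat_lit 461) ln9_13_0 ln9_13_0_ok))))) (M (nat_lit 365) (B (L (nat_lit 333) ln13_10_5 ln13_10_5_ok) (M (nat_lit 492) (B (L (nat_lit 461) ln13_11_5 ln13_11_5_ok) (L (nat_lit 524) ln12_16_6 ln12_16_6_ok))))))))) (B (M (nat_lit 397) (B (M (nat_lit 365) (B (L (nat_lit 333) ln13_10_5 ln13_10_5_ok) (M (nat_lit 492) (B (L (nat_lit 461) ln13_11_5 ln13_11_5_ok) (L (nat_lit 524) ln12_16_6 ln12_16_6_ok))))) (M (nat_lit 426) (B (L (nat_lit 398) ln10_13_2 ln10_13_2_ok) (M (nat_lit 394) (B (L (nat_lit 393) ln13_13_3 ln13_13_3_ok) (L (nat_lit 395) ln14_13_3 ln14_13_3_ok))))))) (M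 (nat_lit 431) (B (M (nat_lit 395) (B (L (nat_lit 394) ln14_13_3 ln14_13_3_ok) (L (nat_lit 396) ln15_13_3 ln15_13_3_ok))) (M (nat_lit 464) (B (L (nat_lit 463) ln12_13_0 ln12_13_0_ok) (M (nat_lit 432) (B (L (nat_lit 461) ln16_13_1 ln16_13_1_ok) (L (nat_lit 465) ln13_13_0 ln13_13_0_ok))))))))))))) (M (nat_lit 426) (B (M (nat_lit 394) (B (L (nat_lit 393) ln13_13_3 ln13_13_3_ok) (L (nat_lit 395) ln14_13_3 ln14_13_3_ok))) (M (nat_lit 425) (B (M (nat_lit 397) (B (L (nat_lit 396) ln9_13_2 ln9_13_2_ok) (L (nat_lit 398) ln10_13_2 ln10_13_2_ok))) (M (nat_lit 457) (B (L (nat_lit 456) ln12_13_1 ln12_13_1_ok) (L (nat_lit 458) ln13_13_1 ln13_13_1_ok)))))))))))))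
theorem c40_s2053 : Sem (nat_lit 2079502270590611144683810638107312777577327806531862431377859685460965980854219217279980804578104683573043408221052678871730618368) (nat_lit 884522443743166209458808943419584568093020319676259468912585891020686628217548510255889514710328001204787351297200097288533864620020399594669460957205586666331802959872) (nat_lit 884522443743166209458808943419584568093020319676259468912585891020686628217548510255889514710328001204787351297200097288533864620020399594669460957205586666331802959872) :=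
  sem_of_chk (M (nat_lit 430) (B (M (nat_lit 427) (B (M (nat_lit 426) (B (M (nat_lit 458) (B (L (nat_lit 457) ln13_13_1 ln13_13_1_ok) (L (nat_lit 459) ln14_13_1 ln14_13_1_ok))) (M (nat_lit 462) (B (L (nat_lit 461) ln10_13_0 ln10_13_0_ok) (L (nat_lit 463) ln11_13_0 ln11_13_0_ok))))) (B (M (nat_lit 431) (B (M (nat_lit 395) (B (L (nat_lit 394) ln14_13_3 ln14_13_3_ok) (L (nat_lit 396) ln15_13_3 ln15_13_3_ok))) (M (nat_lit 459) (B (L (nat_lit 458) ln14_13_1 ln14_13_1_ok) (L (nat_lit 460) ln15_13_1 ln15_13_1_ok))))) (M (nat_lit 426) (B (M (nat_lit 394) (B (L (nat_lit 393) ln13_13_3 ln13_13_3_ok) (L (nat_lit 395) ln14_13_3 ln14_13_3_ok))) (M (nat_lit 462) (B (L (nat_lit 461) ln10_13_0 ln10_13_0_ok) (L (nat_lit 463) ln11_13_0 ln11_13_0_ok)))))))) (B (M (nat_lit 427) (B (M (nat_lit 431) (B (M (nat_lit 395) (B (L (nat_lit 394) ln14_13_3 ln14_13_3_ok) (L (nat_lit 396) ln15_13_3 ln15_13_3_ok))) (M (nat_lit 459) (B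 (L (nat_lit 458) ln14_13_1 ln14_13_1_ok) (L (nat_lit 460) ln15_13_1 ln15_13_1_ok))))) (B (M (nat_lit 431) (B (M (nat_lit 459) (B (L (nat_lit 458) ln14_13_1 ln14_13_1_ok) (L (nat_lit 460) ln15_13_1 ln15_13_1_ok))) (M (nat_lit 463) (B (L (nat_lit 462) ln11_13_0 ln11_13_0_ok) (L (nat_lit 464) ln12_13_0 ln12_13_0_ok))))) (B (M (nat_lit 426) (B (M (nat_lit 458) (B (L (nat_lit 457) ln13_13_1 ln13_13_1_ok) (L (nat_lit 459) ln14_13_1 ln14_13_1_ok))) (M (nat_lit 462) (B (L (nat_lit 461) ln10_13_0 ln10_13_0_ok) (L (nat_lit 463) ln11_13_0 ln11_13_0_ok))))) (M (nat_lit 431) (B (M (nat_lit 395) (B (L (nat_lit 394) ln14_13_3 ln14_13_3_ok) (L (nat_lit 396) ln15_13_3 ln15_13_3_ok))) (M (nat_lit 463) (B (L (nat_lit 462) ln11_13_0 ln11_13_0_ok) (L (nat_lit 464) ln12_13_0 ln12_13_0_ok))))))))) (B (M (nat_lit 431) (B (M (nat_lit 432) (B (M (nat_lit 396) (B (L (nat_lit 395) ln15_13_3 ln15_13_3_ok) (L (nat_lit 397) ln16_13_3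 ln16_13_3_ok))) (M (nat_lit 460) (B (L (nat_lit 459) ln15_13_1 ln15_13_1_ok) (L (nat_lit 461) ln16_13_1 ln16_13_1_ok))))) (B (M (nat_lit 427) (B (M (nat_lit 459) (B (L (nat_lit 458) ln14_13_1 ln14_13_1_ok) (L (nat_lit 460) ln15_13_1 ln15_13_1_ok))) (M (nat_lit 463) (B (L (nat_lit 462) ln11_13_0 ln11_13_0_ok) (L (nat_lit 464) ln12_13_0 ln12_13_0_ok))))) (M (nat_lit 432) (B (M (nat_lit 396) (B (L (nat_lit 395) ln15_13_3 ln15_13_3_ok) (L (nat_lit 397) ln16_13_3 ln16_13_3_ok))) (M (nat_lit 464) (B (L (nat_lit 463) ln12_13_0 ln12_13_0_ok) (L (nat_lit 465) ln13_13_0 ln13_13_0_ok)))))))) (B (M (nat_lit 397) (B (M (nat_lit 460) (B (M (nat_lit 365) (B (L (nat_lit 333) ln13_10_5 ln13_10_5_ok) (M (nat_lit 492) (B (L (nat_lit 461) ln13_11_5 ln13_11_5_ok) (L (nat_lit 524) ln12_16_6 ln12_16_6_ok))))) (B (M (nat_lit 459) (B (L (nat_lit 431) ln15_13_1 ln15_13_1_ok) (M (nat_lit 458) (B (L (nat_lit 457) ln9_14_2 ln9_14_2_ok)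 (L (nat_lit 461) ln10_14_2 ln10_14_2_ok))))) (M (nat_lit 365) (B (L (nat_lit 333) ln13_10_5 ln13_10_5_ok) (M (nat_lit 492) (B (L (nat_lit 396) ln12_15_6 ln12_15_6_ok) (L (nat_lit 524) ln12_16_6 ln12_16_6_ok)))))))) (B (M (nat_lit 462) (B (M (nat_lit 427) (B (L (nat_lit 463) ln11_13_0 ln11_13_0_ok) (M (nat_lit 426) (B (L (nat_lit 398) ln10_13_2 ln10_13_2_ok) (L (nat_lit 461) ln10_13_0 ln10_13_0_ok))))) (B (M (nat_lit 461) (B (M (nat_lit 494) (B (L (nat_lit 365) ln13_11_4 ln13_11_4_ok) (L (nat_lit 526) ln14_16_7 ln14_16_7_ok))) (M (nat_lit 427) (B (L (nat_lit 426) ln10_13_0 ln10_13_0_ok) (L (nat_lit 463) ln11_13_0 ln11_13_0_ok))))) (B (M (nat_lit 494) (B (L (nat_lit 526) ln14_16_7 ln14_16_7_ok) (M (nat_lit 365) (B (L (nat_lit 398) ln14_15_7 ln14_15_7_ok) (L (nat_lit 461) ln13_11_4 ln13_11_4_ok))))) (M (nat_lit 398) (B (M (nat_lit 494) (B (L (nat_lit 365) ln14_15_7 ln14_15_7_ok) (L (nat_lit 526) ln14_16_7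 ln14_16_7_ok))) (M (nat_lit 427) (B (L (nat_lit 426) ln10_13_2 ln10_13_2_ok) (L (nat_lit 463) ln11_13_0 ln11_13_0_ok))))))))) (B (M (nat_lit 427) (B (M (nat_lit 426) (B (L (nat_lit 398) ln10_13_2 ln10_13_2_ok) (M (nat_lit 458) (B (L (nat_lit 457) ln13_13_1 ln13_13_1_ok) (L (nat_lit 459) ln14_13_1 ln14_13_1_ok))))) (B (M (nat_lit 431) (B (M (nat_lit 459) (B (L (nat_lit 458) ln14_13_1 ln14_13_1_ok) (L (nat_lit 460) ln15_13_1 ln15_13_1_ok))) (M (nat_lit 463) (B (L (nat_lit 462) ln11_13_0 ln11_13_0_ok) (L (nat_lit 464) ln12_13_0 ln12_13_0_ok))))) (M (nat_lit 462) (B (L (nat_lit 463) ln11_13_0 ln11_13_0_ok) (M (nat_lit 426) (B (L (nat_lit 398) ln10_13_2 ln10_13_2_ok) (L (nat_lit 461) ln10_13_0 ln10_13_0_ok)))))))) (M (nat_lit 462) (B (M (nat_lit 365) (B (L (nat_lit 333) ln13_10_4 ln13_10_4_ok) (M (nat_lit 494) (B (L (nat_lit 398) ln14_15_7 ln14_15_7_ok) (L (nat_lit 526) ln14_16_7 ln14_16_7_ok))))) (M (nat_lit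 463) (B (L (nat_lit 427) ln11_13_0 ln11_13_0_ok) (M (nat_lit 464) (B (L (nat_lit 431) ln12_13_0 ln12_13_0_ok) (L (nat_lit 465) ln17_14_3 ln17_14_3_ok))))))))))) (B (M (nat_lit 427) (B (M (nat_lit 426) (B (M (nat_lit 394) (B (L (nat_lit 393) ln13_13_3 ln13_13_3_ok) (L (nat_lit 395) ln14_13_3 ln14_13_3_ok))) (M (nat_lit 462) (B (L (nat_lit 461) ln10_13_0 ln10_13_0_ok) (L (nat_lit 463) ln11_13_0 ln11_13_0_ok))))) (B (M (nat_lit 431) (B (M (nat_lit 459) (B (L (nat_lit 458) ln14_13_1 ln14_13_1_ok) (L (nat_lit 460) ln15_13_1 ln15_13_1_ok))) (M (nat_lit 463) (B (L (nat_lit 462) ln11_13_0 ln11_13_0_ok) (L (nat_lit 464) ln12_13_0 ln12_13_0_ok))))) (M (nat_lit 426) (B (M (nat_lit 394) (B (L (nat_lit 393) ln13_13_3 ln13_13_3_ok) (L (nat_lit 395) ln14_13_3 ln14_13_3_ok))) (M (nat_lit 458) (B (L (nat_lit 457) ln13_13_1 ln13_13_1_ok) (L (nat_lit 459) ln14_13_1 ln14_13_1_ok)))))))) (B c40_n1929 (B (M (nat_lit 427) (B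 (M (nat_lit 426) (B (M (nat_lit 458) (B (L (nat_lit 457) ln13_13_1 ln13_13_1_ok) (L (nat_lit 459) ln14_13_1 ln14_13_1_ok))) (M (nat_lit 462) (B (L (nat_lit 461) ln10_13_0 ln10_13_0_ok) (L (nat_lit 463) ln11_13_0 ln11_13_0_ok))))) (B (M (nat_lit 395) (B (L (nat_lit 394) ln14_13_3 ln14_13_3_ok) (M (nat_lit 459) (B (L (nat_lit 458) ln14_13_1 ln14_13_1_ok) (M (nat_lit 491) (B (M (nat_lit 396) (B (L (nat_lit 364) ln11_15_6 ln11_15_6_ok) (L (nat_lit 523) ln11_16_6 ln11_16_6_ok))) (B (M (nat_lit 524) (B (L (nat_lit 492) ln11_12_4 ln11_12_4_ok) (M (nat_lit 523) (B (L (nat_lit 396) ln11_16_6 ln11_16_6_ok) (L (nat_lit 556) ln11_13_4 ln11_13_4_ok))))) (B (M (nat_lit 523) (B (M (nat_lit 522) (B (L (nat_lit 490) ln11_12_5 ln11_12_5_ok) (L (nat_lit 554) ln11_13_5 ln11_13_5_ok))) (M (nat_lit 524) (B (L (nat_lit 492) ln11_12_4 ln11_12_4_ok) (L (nat_lit 556) ln11_13_4 ln11_13_4_ok))))) (M (nat_lit 363) (B (M (nat_lit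 364) (B (L (nat_lit 332) ln11_14_6 ln11_14_6_ok) (L (nat_lit 396) ln11_15_6 ln11_15_6_ok))) (M (nat_lit 492) (B (L (nat_lit 460) ln11_11_4 ln11_11_4_ok) (L (nat_lit 524) ln11_12_4 ln11_12_4_ok))))))))))))) (M (nat_lit 426) (B (M (nat_lit 394) (B (L (nat_lit 393) ln13_13_3 ln13_13_3_ok) (L (nat_lit 395) ln14_13_3 ln14_13_3_ok))) (M (nat_lit 462) (B (L (nat_lit 461) ln10_13_0 ln10_13_0_ok) (L (nat_lit 463) ln11_13_0 ln11_13_0_ok)))))))) (B (M (nat_lit 431) (B (M (nat_lit 432) (B (M (nat_lit 396) (B (L (nat_lit 395) ln15_13_3 ln15_13_3_ok) (L (nat_lit 397) ln16_13_3 ln16_13_3_ok))) (M (nat_lit 460) (B (L (nat_lit 459) ln15_13_1 ln15_13_1_ok) (L (nat_lit 461) ln16_13_1 ln16_13_1_ok))))) (B (M (nat_lit 460) (B (L (nat_lit 459) ln15_13_1 ln15_13_1_ok) (M (nat_lit 432) (B (L (nat_lit 461) ln16_13_1 ln16_13_1_ok) (M (nat_lit 464) (B (L (nat_lit 463) ln12_13_0 ln12_13_0_ok) (L (nat_lit 465) ln13_13_0 ln13_13_0_ok)))))))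 (M (nat_lit 427) (B (M (nat_lit 395) (B (L (nat_lit 394) ln14_13_3 ln14_13_3_ok) (L (nat_lit 396) ln15_13_3 ln15_13_3_ok))) (M (nat_lit 463) (B (L (nat_lit 462) ln11_13_0 ln11_13_0_ok) (L (nat_lit 464) ln12_13_0 ln12_13_0_ok)))))))) (B c40_n2026 (B (M (nat_lit 427) (B (M (nat_lit 426) (B (M (nat_lit 458) (B (L (nat_lit 457) ln13_13_1 ln13_13_1_ok) (L (nat_lit 459) ln14_13_1 ln14_13_1_ok))) (M (nat_lit 462) (B (L (nat_lit 461) ln10_13_0 ln10_13_0_ok) (L (nat_lit 463) ln11_13_0 ln11_13_0_ok))))) (B (M (nat_lit 431) (B (M (nat_lit 395) (B (L (nat_lit 394) ln14_13_3 ln14_13_3_ok) (L (nat_lit 396) ln15_13_3 ln15_13_3_ok))) (M (nat_lit 463) (B (L (nat_lit 462) ln11_13_0 ln11_13_0_ok) (L (nat_lit 464) ln12_13_0 ln12_13_0_ok))))) (M (nat_lit 426) (B (M (nat_lit 394) (B (L (nat_lit 393) ln13_13_3 ln13_13_3_ok) (L (nat_lit 395) ln14_13_3 ln14_13_3_ok))) (M (nat_lit 458) (B (L (nat_lit 457) ln13_13_1 ln13_13_1_ok)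 (L (nat_lit 459) ln14_13_1 ln14_13_1_ok)))))))) (B (M (nat_lit 427) (B (M (nat_lit 431) (B (M (nat_lit 459) (B (L (nat_lit 458) ln14_13_1 ln14_13_1_ok) (L (nat_lit 460) ln15_13_1 ln15_13_1_ok))) (M (nat_lit 463) (B (L (nat_lit 462) ln11_13_0 ln11_13_0_ok) (L (nat_lit 464) ln12_13_0 ln12_13_0_ok))))) (B (M (nat_lit 426) (B (M (nat_lit 394) (B (L (nat_lit 393) ln13_13_3 ln13_13_3_ok) (L (nat_lit 395) ln14_13_3 ln14_13_3_ok))) (M (nat_lit 458) (B (L (nat_lit 457) ln13_13_1 ln13_13_1_ok) (L (nat_lit 459) ln14_13_1 ln14_13_1_ok))))) (M (nat_lit 431) (B (M (nat_lit 395) (B (L (nat_lit 394) ln14_13_3 ln14_13_3_ok) (L (nat_lit 396) ln15_13_3 ln15_13_3_ok))) (M (nat_lit 463) (B (L (nat_lit 462) ln11_13_0 ln11_13_0_ok) (L (nat_lit 464) ln12_13_0 ln12_13_0_ok)))))))) (M (nat_lit 427) (B (M (nat_lit 431) (B (M (nat_lit 395) (B (L (nat_lit 394) ln14_13_3 ln14_13_3_ok) (L (nat_lit 396) ln15_13_3 ln15_13_3_ok))) (M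 (nat_lit 459) (B (L (nat_lit 458) ln14_13_1 ln14_13_1_ok) (L (nat_lit 460) ln15_13_1 ln15_13_1_ok))))) (B (M (nat_lit 397) (B (M (nat_lit 426) (B (L (nat_lit 398) ln10_13_2 ln10_13_2_ok) (M (nat_lit 458) (B (L (nat_lit 457) ln13_13_1 ln13_13_1_ok) (L (nat_lit 459) ln14_13_1 ln14_13_1_ok))))) (B (M (nat_lit 431) (B (M (nat_lit 396) (B (L (nat_lit 395) ln15_13_3 ln15_13_3_ok) (L (nat_lit 432) ln16_13_3 ln16_13_3_ok))) (M (nat_lit 459) (B (L (nat_lit 458) ln14_13_1 ln14_13_1_ok) (L (nat_lit 460) ln15_13_1 ln15_13_1_ok))))) (M (nat_lit 396) (B (M (nat_lit 426) (B (L (nat_lit 425) ln9_13_2 ln9_13_2_ok) (L (nat_lit 398) ln10_13_2 ln10_13_2_ok))) (M (nat_lit 431) (B (L (nat_lit 395) ln15_13_3 ln15_13_3_ok) (L (nat_lit 432) ln16_13_3 ln16_13_3_ok)))))))) (B (M (nat_lit 426) (B (M (nat_lit 458) (B (L (nat_lit 457) ln13_13_1 ln13_13_1_ok) (L (nat_lit 459) ln14_13_1 ln14_13_1_ok))) (M (nat_lit 425) (B (M (nat_lit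 393) (B (L (nat_lit 392) ln12_13_3 ln12_13_3_ok) (L (nat_lit 394) ln13_13_3 ln13_13_3_ok))) (M (nat_lit 461) (B (L (nat_lit 460) ln9_13_0 ln9_13_0_ok) (L (nat_lit 462) ln10_13_0 ln10_13_0_ok))))))) (B (M (nat_lit 461) (B (M (nat_lit 426) (B (L (nat_lit 462) ln10_13_0 ln10_13_0_ok) (M (nat_lit 394) (B (L (nat_lit 393) ln13_13_3 ln13_13_3_ok) (L (nat_lit 395) ln14_13_3 ln14_13_3_ok))))) (B (M (nat_lit 460) (B (M (nat_lit 426) (B (L (nat_lit 425) ln9_13_0 ln9_13_0_ok) (L (nat_lit 462) ln10_13_0 ln10_13_0_ok))) (M (nat_lit 431) (B (L (nat_lit 459) ln15_13_1 ln15_13_1_ok) (L (nat_lit 432) ln16_13_1 ln16_13_1_ok))))) (M (nat_lit 431) (B (M (nat_lit 395) (B (L (nat_lit 394) ln14_13_3 ln14_13_3_ok) (L (nat_lit 396) ln15_13_3 ln15_13_3_ok))) (M (nat_lit 460) (B (L (nat_lit 459) ln15_13_1 ln15_13_1_ok) (L (nat_lit 432) ln16_13_1 ln16_13_1_ok)))))))) (M (nat_lit 426) (B (M (nat_lit 394) (B (L (nat_lit 393) ln13_13_3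 ln13_13_3_ok) (L (nat_lit 395) ln14_13_3 ln14_13_3_ok))) (M (nat_lit 425) (B (M (nat_lit 397) (B (L (nat_lit 396) ln9_13_2 ln9_13_2_ok) (L (nat_lit 398) ln10_13_2 ln10_13_2_ok))) (M (nat_lit 457) (B (L (nat_lit 456) ln12_13_1 ln12_13_1_ok) (L (nat_lit 458) ln13_13_1 ln13_13_1_ok)))))))))))))))))))))))) (nat_lit 2079502270590611144683810638107312777577327806531862431377859685460965980854219217279980804578104683573043408221052678871730618368) (nat_lit 884522443743166209458808943419584568093020319676259468912585891020686628217548510255889514710328001204787351297200097288533864620020399594669460957205586666331802959872) (nat_lit 884522443743166209458808943419584568093020319676259468912585891020686628217548510255889514710328001204787351297200097288533864620020399594669460957205586666331802959872) (by decide +kernel)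
theorem c40_s2113 : Sem (nat_lit 2079502270590611144683810638107312777577327806531862431377859685460965980854219217279980804578104683573043408221052678871730618368) (nat_lit 884522443523492684334629432539977671808736123579696373924090318503308950576377551169040543728332137140514773766794903351747463207439395354161085298777120496462537424896) (nat_lit 884522443523492684334629432539977671808736123579696373924090318503308950576377551169040543728332137140514773766794903351747463207439395354161085298777120496462537424896) :=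
  sem_of_chk (M (nat_lit 430) (B (M (nat_lit 395) (B (M (nat_lit 394) (B (L (nat_lit 427) ln14_13_3 ln14_13_3_ok) (M (nat_lit 396) (B (L (nat_lit 393) ln9_12_0 ln9_12_0_ok) (L (nat_lit 397) ln10_12_0 ln10_12_0_ok))))) (B (M (nat_lit 394) (B (L (nat_lit 427) ln14_13_3 ln14_13_3_ok) (M (nat_lit 396) (B (L (nat_lit 397) ln10_12_0 ln10_12_0_ok) (L (nat_lit 431) ln15_13_3 ln15_13_3_ok))))) (B (M (nat_lit 431) (B (L (nat_lit 396) ln15_13_3 ln15_13_3_ok) (M (nat_lit 432) (B (M (nat_lit 460) (B (L (nat_lit 459) ln15_13_1 ln15_13_1_ok) (L (nat_lit 461) ln16_13_1 ln16_13_1_ok))) (M (nat_lit 464) (B (L (nat_lit 463) ln12_13_0 ln12_13_0_ok) (L (nat_lit 465) ln13_13_0 ln13_13_0_ok))))))) (M (nat_lit 427) (B (L (nat_lit 394) ln14_13_3 ln14_13_3_ok) (M (nat_lit 431) (B (M (nat_lit 399) (B (L (nat_lit 398) ln11_13_2 ln11_13_2_ok) (L (nat_lit 400) ln12_13_2 ln12_13_2_ok))) (M (nat_lit 463) (B (L (nat_lit 462) ln11_13_0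 ln11_13_0_ok) (L (nat_lit 464) ln12_13_0 ln12_13_0_ok))))))))))) (B (M (nat_lit 431) (B (M (nat_lit 427) (B (M (nat_lit 399) (B (L (nat_lit 398) ln11_13_2 ln11_13_2_ok) (L (nat_lit 400) ln12_13_2 ln12_13_2_ok))) (M (nat_lit 459) (B (L (nat_lit 458) ln14_13_1 ln14_13_1_ok) (L (nat_lit 460) ln15_13_1 ln15_13_1_ok))))) (B (M (nat_lit 427) (B (M (nat_lit 395) (B (L (nat_lit 394) ln14_13_3 ln14_13_3_ok) (L (nat_lit 396) ln15_13_3 ln15_13_3_ok))) (M (nat_lit 459) (B (L (nat_lit 458) ln14_13_1 ln14_13_1_ok) (L (nat_lit 460) ln15_13_1 ln15_13_1_ok))))) (M (nat_lit 432) (B (M (nat_lit 396) (B (L (nat_lit 395) ln15_13_3 ln15_13_3_ok) (L (nat_lit 397) ln16_13_3 ln16_13_3_ok))) (M (nat_lit 464) (B (L (nat_lit 463) ln12_13_0 ln12_13_0_ok) (L (nat_lit 465) ln13_13_0 ln13_13_0_ok)))))))) (B (M (nat_lit 431) (B (M (nat_lit 427) (B (M (nat_lit 399) (B (L (nat_lit 398) ln11_13_2 ln11_13_2_ok) (L (nat_lit 400) ln12_13_2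 ln12_13_2_ok))) (M (nat_lit 459) (B (L (nat_lit 458) ln14_13_1 ln14_13_1_ok) (L (nat_lit 460) ln15_13_1 ln15_13_1_ok))))) (M (nat_lit 432) (B (M (nat_lit 396) (B (L (nat_lit 395) ln15_13_3 ln15_13_3_ok) (L (nat_lit 397) ln16_13_3 ln16_13_3_ok))) (M (nat_lit 464) (B (L (nat_lit 463) ln12_13_0 ln12_13_0_ok) (L (nat_lit 465) ln13_13_0 ln13_13_0_ok))))))) (B (M (nat_lit 431) (B (M (nat_lit 427) (B (M (nat_lit 399) (B (L (nat_lit 398) ln11_13_2 ln11_13_2_ok) (L (nat_lit 400) ln12_13_2 ln12_13_2_ok))) (M (nat_lit 463) (B (L (nat_lit 462) ln11_13_0 ln11_13_0_ok) (L (nat_lit 464) ln12_13_0 ln12_13_0_ok))))) (B (M (nat_lit 427) (B (M (nat_lit 459) (B (L (nat_lit 458) ln14_13_1 ln14_13_1_ok) (L (nat_lit 460) ln15_13_1 ln15_13_1_ok))) (M (nat_lit 463) (B (L (nat_lit 462) ln11_13_0 ln11_13_0_ok) (L (nat_lit 464) ln12_13_0 ln12_13_0_ok))))) (B (M (nat_lit 460) (B (L (nat_lit 459) ln15_13_1 ln15_13_1_ok) (M (nat_lit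 432) (B (L (nat_lit 461) ln16_13_1 ln16_13_1_ok) (M (nat_lit 464) (B (L (nat_lit 463) ln12_13_0 ln12_13_0_ok) (L (nat_lit 465) ln13_13_0 ln13_13_0_ok))))))) (M (nat_lit 427) (B (M (nat_lit 399) (B (L (nat_lit 398) ln11_13_2 ln11_13_2_ok) (L (nat_lit 400) ln12_13_2 ln12_13_2_ok))) (M (nat_lit 459) (B (L (nat_lit 458) ln14_13_1 ln14_13_1_ok) (L (nat_lit 460) ln15_13_1 ln15_13_1_ok))))))))) (B (M (nat_lit 431) (B (M (nat_lit 427) (B (M (nat_lit 459) (B (L (nat_lit 458) ln14_13_1 ln14_13_1_ok) (L (nat_lit 460) ln15_13_1 ln15_13_1_ok))) (M (nat_lit 463) (B (L (nat_lit 462) ln11_13_0 ln11_13_0_ok) (L (nat_lit 464) ln12_13_0 ln12_13_0_ok))))) (B (M (nat_lit 432) (B (M (nat_lit 396) (B (L (nat_lit 395) ln15_13_3 ln15_13_3_ok) (L (nat_lit 397) ln16_13_3 ln16_13_3_ok))) (M (nat_lit 464) (B (L (nat_lit 463) ln12_13_0 ln12_13_0_ok) (L (nat_lit 465) ln13_13_0 ln13_13_0_ok))))) (M (nat_lit 427) (B (M (nat_lit 395)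 (B (L (nat_lit 394) ln14_13_3 ln14_13_3_ok) (L (nat_lit 396) ln15_13_3 ln15_13_3_ok))) (M (nat_lit 459) (B (L (nat_lit 458) ln14_13_1 ln14_13_1_ok) (L (nat_lit 460) ln15_13_1 ln15_13_1_ok)))))))) (B c40_n1929 (B (M (nat_lit 427) (B (M (nat_lit 395) (B (L (nat_lit 394) ln14_13_3 ln14_13_3_ok) (M (nat_lit 459) (B (L (nat_lit 458) ln14_13_1 ln14_13_1_ok) (M (nat_lit 491) (B (M (nat_lit 396) (B (L (nat_lit 364) ln11_15_6 ln11_15_6_ok) (L (nat_lit 523) ln11_16_6 ln11_16_6_ok))) (B (M (nat_lit 524) (B (L (nat_lit 492) ln11_12_4 ln11_12_4_ok) (M (nat_lit 523) (B (L (nat_lit 396) ln11_16_6 ln11_16_6_ok) (L (nat_lit 556) ln11_13_4 ln11_13_4_ok))))) (B (M (nat_lit 523) (B (M (nat_lit 522) (B (L (nat_lit 490) ln11_12_5 ln11_12_5_ok) (L (nat_lit 554) ln11_13_5 ln11_13_5_ok))) (M (nat_lit 524) (B (L (nat_lit 492) ln11_12_4 ln11_12_4_ok) (L (nat_lit 556) ln11_13_4 ln11_13_4_ok))))) (M (nat_lit 363) (B (M (nat_lit 364)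 (B (L (nat_lit 332) ln11_14_6 ln11_14_6_ok) (L (nat_lit 396) ln11_15_6 ln11_15_6_ok))) (M (nat_lit 492) (B (L (nat_lit 460) ln11_11_4 ln11_11_4_ok) (L (nat_lit 524) ln11_12_4 ln11_12_4_ok))))))))))))) (M (nat_lit 462) (B (L (nat_lit 463) ln11_13_0 ln11_13_0_ok) (M (nat_lit 398) (B (L (nat_lit 399) ln11_13_2 ln11_13_2_ok) (M (nat_lit 366) (B (M (nat_lit 461) (B (L (nat_lit 334) ln14_10_5 ln14_10_5_ok) (L (nat_lit 493) ln14_11_5 ln14_11_5_ok))) (B (M (nat_lit 494) (B (M (nat_lit 365) (B (L (nat_lit 333) ln14_14_7 ln14_14_7_ok) (L (nat_lit 397) ln14_15_7 ln14_15_7_ok))) (M (nat_lit 493) (B (L (nat_lit 461) ln14_11_5 ln14_11_5_ok) (L (nat_lit 525) ln14_12_5 ln14_12_5_ok))))) (M (nat_lit 334) (B (M (nat_lit 333) (B (L (nat_lit 301) ln14_13_7 ln14_13_7_ok) (L (nat_lit 365) ln14_14_7 ln14_14_7_ok))) (M (nat_lit 335) (B (L (nat_lit 303) ln14_13_6 ln14_13_6_ok) (L (nat_lit 367) ln14_14_6 ln14_14_6_ok))))))))))))))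 (B (M (nat_lit 431) (B (M (nat_lit 427) (B (M (nat_lit 399) (B (L (nat_lit 398) ln11_13_2 ln11_13_2_ok) (L (nat_lit 400) ln12_13_2 ln12_13_2_ok))) (M (nat_lit 463) (B (L (nat_lit 462) ln11_13_0 ln11_13_0_ok) (L (nat_lit 464) ln12_13_0 ln12_13_0_ok))))) (B (M (nat_lit 427) (B (M (nat_lit 395) (B (L (nat_lit 394) ln14_13_3 ln14_13_3_ok) (L (nat_lit 396) ln15_13_3 ln15_13_3_ok))) (M (nat_lit 463) (B (L (nat_lit 462) ln11_13_0 ln11_13_0_ok) (L (nat_lit 464) ln12_13_0 ln12_13_0_ok))))) (B (M (nat_lit 432) (B (M (nat_lit 396) (B (L (nat_lit 395) ln15_13_3 ln15_13_3_ok) (L (nat_lit 397) ln16_13_3 ln16_13_3_ok))) (M (nat_lit 464) (B (L (nat_lit 463) ln12_13_0 ln12_13_0_ok) (L (nat_lit 465) ln13_13_0 ln13_13_0_ok))))) (M (nat_lit 427) (B (M (nat_lit 395) (B (L (nat_lit 394) ln14_13_3 ln14_13_3_ok) (L (nat_lit 396) ln15_13_3 ln15_13_3_ok))) (M (nat_lit 399) (B (L (nat_lit 398) ln11_13_2 ln11_13_2_ok) (L (nat_lit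 400) ln12_13_2 ln12_13_2_ok))))))))) (M (nat_lit 431) (B (M (nat_lit 427) (B (M (nat_lit 399) (B (L (nat_lit 398) ln11_13_2 ln11_13_2_ok) (L (nat_lit 400) ln12_13_2 ln12_13_2_ok))) (M (nat_lit 459) (B (L (nat_lit 458) ln14_13_1 ln14_13_1_ok) (L (nat_lit 460) ln15_13_1 ln15_13_1_ok))))) (B (M (nat_lit 427) (B (M (nat_lit 395) (B (L (nat_lit 394) ln14_13_3 ln14_13_3_ok) (L (nat_lit 396) ln15_13_3 ln15_13_3_ok))) (M (nat_lit 459) (B (L (nat_lit 458) ln14_13_1 ln14_13_1_ok) (L (nat_lit 460) ln15_13_1 ln15_13_1_ok))))) (B (M (nat_lit 432) (B (M (nat_lit 396) (B (L (nat_lit 395) ln15_13_3 ln15_13_3_ok) (L (nat_lit 397) ln16_13_3 ln16_13_3_ok))) (M (nat_lit 460) (B (L (nat_lit 459) ln15_13_1 ln15_13_1_ok) (L (nat_lit 461) ln16_13_1 ln16_13_1_ok))))) (M (nat_lit 427) (B (M (nat_lit 395) (B (L (nat_lit 394) ln14_13_3 ln14_13_3_ok) (L (nat_lit 396) ln15_13_3 ln15_13_3_ok))) (M (nat_lit 399) (B (L (nat_lit 398)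 ln11_13_2 ln11_13_2_ok) (L (nat_lit 400) ln12_13_2 ln12_13_2_ok)))))))))))))))))) (nat_lit 2079502270590611144683810638107312777577327806531862431377859685460965980854219217279980804578104683573043408221052678871730618368) (nat_lit 884522443523492684334629432539977671808736123579696373924090318503308950576377551169040543728332137140514773766794903351747463207439395354161085298777120496462537424896) (nat_lit 884522443523492684334629432539977671808736123579696373924090318503308950576377551169040543728332137140514773766794903351747463207439395354161085298777120496462537424896) (by decide +kernel)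
theorem c40_s2250 : Sem (nat_lit 5954262831509113917970671778902343783532342804327837356357830143065656733685921768742376304727131933651871260571575937852568135413341880320) (nat_lit 353808977519233836352202929541420371852957202511706430712917972509378847597312533703704914596085250575599628717941686790005356495588155907139920119441976876768778256384) (nat_lit 353808977519233836352202929541420371852957202511706430712917972509378847597312533703704914596085250575599628717941686790005356495588155907139920119441976876768778256384) :=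
  sem_of_chk (M (nat_lit 396) (B (M (nat_lit 493) (B (L (nat_lit 525) ln13_16_7 ln13_16_7_ok) (M (nat_lit 364) (B (L (nat_lit 332) ln12_10_4 ln12_10_4_ok) (L (nat_lit 397) ln13_15_7 ln13_15_7_ok))))) (B (M (nat_lit 493) (B (L (nat_lit 525) ln13_16_7 ln13_16_7_ok) (M (nat_lit 364) (B (L (nat_lit 397) ln13_15_7 ln13_15_7_ok) (L (nat_lit 460) ln12_11_4 ln12_11_4_ok))))) (B (M (nat_lit 493) (B (L (nat_lit 525) ln13_16_7 ln13_16_7_ok) (M (nat_lit 397) (B (M (nat_lit 492) (B (L (nat_lit 524) ln13_12_5 ln13_12_5_ok) (M (nat_lit 365) (B (L (nat_lit 460) ln12_15_6 ln12_15_6_ok) (M (nat_lit 366) (B (L (nat_lit 334) ln13_14_6 ln13_14_6_ok) (L (nat_lit 398) ln13_15_6 ln13_15_6_ok))))))) (B (M (nat_lit 430) (B (M (nat_lit 395) (B (L (nat_lit 394) ln10_12_0 ln10_12_0_ok) (L (nat_lit 431) ln15_13_3 ln15_13_3_ok))) (B (M (nat_lit 431) (B (L (nat_lit 395) ln15_13_3 ln15_13_3_ok) (L (nat_lit 432) ln16_13_3 ln16_13_3_ok)))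 (M (nat_lit 365) (B (M (nat_lit 333) (B (L (nat_lit 460) ln13_10_5 ln13_10_5_ok) (L (nat_lit 462) ln13_10_4 ln13_10_4_ok))) (B (M (nat_lit 492) (B (L (nat_lit 460) ln12_15_6 ln12_15_6_ok) (L (nat_lit 524) ln13_12_5 ln13_12_5_ok))) (M (nat_lit 462) (B (L (nat_lit 333) ln13_10_4 ln13_10_4_ok) (L (nat_lit 494) ln13_11_4 ln13_11_4_ok))))))))) (B (M (nat_lit 395) (B (M (nat_lit 430) (B (L (nat_lit 394) ln10_12_0 ln10_12_0_ok) (L (nat_lit 431) ln15_13_3 ln15_13_3_ok))) (M (nat_lit 363) (B (M (nat_lit 398) (B (L (nat_lit 362) ln14_12_3 ln14_12_3_ok) (L (nat_lit 366) ln13_15_6 ln13_15_6_ok))) (M (nat_lit 492) (B (L (nat_lit 460) ln12_15_7 ln12_15_7_ok) (L (nat_lit 524) ln13_12_5 ln13_12_5_ok))))))) (M (nat_lit 430) (B (M (nat_lit 395) (B (L (nat_lit 394) ln10_12_0 ln10_12_0_ok) (L (nat_lit 431) ln15_13_3 ln15_13_3_ok))) (M (nat_lit 365) (B (M (nat_lit 366) (B (L (nat_lit 334) ln13_14_6 ln13_14_6_ok) (L (nat_lit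 398) ln13_15_6 ln13_15_6_ok))) (M (nat_lit 462) (B (L (nat_lit 333) ln13_10_4 ln13_10_4_ok) (L (nat_lit 494) ln13_11_4 ln13_11_4_ok))))))))))))) (B (M (nat_lit 364) (B (L (nat_lit 332) ln12_10_4 ln12_10_4_ok) (M (nat_lit 493) (B (L (nat_lit 460) ln12_11_4 ln12_11_4_ok) (L (nat_lit 525) ln13_16_7 ln13_16_7_ok))))) (M (nat_lit 460) (B (M (nat_lit 364) (B (L (nat_lit 332) ln12_10_4 ln12_10_4_ok) (M (nat_lit 459) (B (L (nat_lit 491) ln12_11_5 ln12_11_5_ok) (M (nat_lit 430) (B (L (nat_lit 431) ln15_13_1 ln15_13_1_ok) (L (nat_lit 458) ln10_14_2 ln10_14_2_ok))))))) (B (M (nat_lit 492) (B (M (nat_lit 397) (B (L (nat_lit 365) ln12_15_6 ln12_15_6_ok) (L (nat_lit 524) ln12_16_6 ln12_16_6_ok))) (B (M (nat_lit 524) (B (L (nat_lit 397) ln12_16_6 ln12_16_6_ok) (L (nat_lit 556) ln12_17_6 ln12_17_6_ok))) (B (M (nat_lit 524) (B (L (nat_lit 556) ln12_17_6 ln12_17_6_ok) (M (nat_lit 523) (B (L (nat_lit 491) ln12_12_5 ln12_12_5_ok)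 (L (nat_lit 555) ln12_13_5 ln12_13_5_ok))))) (M (nat_lit 459) (B (M (nat_lit 491) (B (L (nat_lit 364) ln12_11_5 ln12_11_5_ok) (L (nat_lit 523) ln12_12_5 ln12_12_5_ok))) (M (nat_lit 430) (B (L (nat_lit 431) ln15_13_1 ln15_13_1_ok) (L (nat_lit 458) ln10_14_2 ln10_14_2_ok))))))))) (B (M (nat_lit 397) (B (M (nat_lit 365) (B (L (nat_lit 333) ln13_10_5 ln13_10_5_ok) (L (nat_lit 492) ln12_15_6 ln12_15_6_ok))) (B (M (nat_lit 492) (B (L (nat_lit 365) ln12_15_6 ln12_15_6_ok) (L (nat_lit 524) ln12_16_6 ln12_16_6_ok))) (B (M (nat_lit 395) (B (M (nat_lit 492) (B (L (nat_lit 363) ln12_15_7 ln12_15_7_ok) (L (nat_lit 524) ln12_16_6 ln12_16_6_ok))) (M (nat_lit 430) (B (L (nat_lit 394) ln10_12_0 ln10_12_0_ok) (L (nat_lit 431) ln15_13_3 ln15_13_3_ok))))) (M (nat_lit 462) (B (M (nat_lit 365) (B (L (nat_lit 333) ln13_10_5 ln13_10_5_ok) (L (nat_lit 494) ln13_11_4 ln13_11_4_ok))) (M (nat_lit 431) (B (M (nat_lit 430) (B (L (nat_lit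 395) ln15_13_3 ln15_13_3_ok) (L (nat_lit 432) ln16_13_3 ln16_13_3_ok))) (B (M (nat_lit 430) (B (L (nat_lit 432) ln16_13_3 ln16_13_3_ok) (L (nat_lit 459) ln15_13_1 ln15_13_1_ok))) (B (M (nat_lit 463) (B (L (nat_lit 464) ln16_14_3 ln16_14_3_ok) (L (nat_lit 432) ln12_14_2 ln12_14_2_ok))) (M (nat_lit 430) (B (L (nat_lit 395) ln15_13_3 ln15_13_3_ok) (L (nat_lit 459) ln15_13_1 ln15_13_1_ok))))))))))))) (B (M (nat_lit 364) (B (L (nat_lit 332) ln12_10_4 ln12_10_4_ok) (M (nat_lit 492) (B (M (nat_lit 365) (B (L (nat_lit 333) ln12_14_6 ln12_14_6_ok) (L (nat_lit 397) ln12_15_6 ln12_15_6_ok))) (B (M (nat_lit 397) (B (L (nat_lit 365) ln12_15_6 ln12_15_6_ok) (L (nat_lit 524) ln12_16_6 ln12_16_6_ok))) (M (nat_lit 491) (B (L (nat_lit 459) ln12_11_5 ln12_11_5_ok) (L (nat_lit 523) ln12_12_5 ln12_12_5_ok)))))))) (M (nat_lit 492) (B (M (nat_lit 397) (B (L (nat_lit 365) ln12_15_6 ln12_15_6_ok) (L (nat_lit 524) ln12_16_6 ln12_16_6_ok)))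 (B (M (nat_lit 524) (B (L (nat_lit 397) ln12_16_6 ln12_16_6_ok) (L (nat_lit 556) ln12_17_6 ln12_17_6_ok))) (B (M (nat_lit 524) (B (L (nat_lit 556) ln12_17_6 ln12_17_6_ok) (M (nat_lit 523) (B (L (nat_lit 491) ln12_12_5 ln12_12_5_ok) (L (nat_lit 555) ln12_13_5 ln12_13_5_ok))))) (M (nat_lit 365) (B (L (nat_lit 397) ln12_15_6 ln12_15_6_ok) (M (nat_lit 364) (B (L (nat_lit 332) ln12_10_4 ln12_10_4_ok) (L (nat_lit 333) ln12_14_6 ln12_14_6_ok))))))))))))))))))) (nat_lit 5954262831509113917970671778902343783532342804327837356357830143065656733685921768742376304727131933651871260571575937852568135413341880320) (nat_lit 353808977519233836352202929541420371852957202511706430712917972509378847597312533703704914596085250575599628717941686790005356495588155907139920119441976876768778256384) (nat_lit 353808977519233836352202929541420371852957202511706430712917972509378847597312533703704914596085250575599628717941686790005356495588155907139920119441976876768778256384)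 (by decide +kernel)
noncomputable def c40_n2399 : Cert := (M (nat_lit 460) (B (M (nat_lit 364) (B (L (nat_lit 332) ln12_10_4 ln12_10_4_ok) (M (nat_lit 459) (B (L (nat_lit 491) ln12_11_5 ln12_11_5_ok) (M (nat_lit 430) (B (L (nat_lit 431) ln15_13_1 ln15_13_1_ok) (L (nat_lit 458) ln10_14_2 ln10_14_2_ok))))))) (B (M (nat_lit 492) (B (M (nat_lit 397) (B (L (nat_lit 365) ln12_15_6 ln12_15_6_ok) (L (nat_lit 524) ln12_16_6 ln12_16_6_ok))) (B (M (nat_lit 524) (B (L (nat_lit 397) ln12_16_6 ln12_16_6_ok) (L (nat_lit 556) ln12_17_6 ln12_17_6_ok))) (B (M (nat_lit 524) (B (L (nat_lit 556) ln12_17_6 ln12_17_6_ok) (M (nat_lit 523) (B (L (nat_lit 491) ln12_12_5 ln12_12_5_ok) (L (nat_lit 555) ln12_13_5 ln12_13_5_ok))))) (M (nat_lit 459) (B (M (nat_lit 491) (B (L (nat_lit 364) ln12_11_5 ln12_11_5_ok) (L (nat_lit 523) ln12_12_5 ln12_12_5_ok))) (M (nat_lit 430) (B (L (nat_lit 431) ln15_13_1 ln15_13_1_ok) (L (nat_lit 458)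 ln10_14_2 ln10_14_2_ok))))))))) (B (M (nat_lit 462) (B (M (nat_lit 463) (B (L (nat_lit 464) ln16_14_3 ln16_14_3_ok) (M (nat_lit 431) (B (L (nat_lit 432) ln12_14_2 ln12_14_2_ok) (M (nat_lit 430) (B (L (nat_lit 395) ln15_13_3 ln15_13_3_ok) (L (nat_lit 459) ln15_13_1 ln15_13_1_ok))))))) (B (M (nat_lit 492) (B (M (nat_lit 397) (B (L (nat_lit 365) ln12_15_6 ln12_15_6_ok) (L (nat_lit 524) ln12_16_6 ln12_16_6_ok))) (M (nat_lit 463) (B (L (nat_lit 464) ln16_14_3 ln16_14_3_ok) (L (nat_lit 491) ln15_14_1 ln15_14_1_ok))))) (M (nat_lit 430) (B (M (nat_lit 431) (B (L (nat_lit 395) ln15_13_3 ln15_13_3_ok) (L (nat_lit 459) ln15_13_1 ln15_13_1_ok))) (B (M (nat_lit 431) (B (L (nat_lit 459) ln15_13_1 ln15_13_1_ok) (L (nat_lit 432) ln16_13_1 ln16_13_1_ok))) (B (M (nat_lit 494) (B (M (nat_lit 397) (B (L (nat_lit 365) ln13_11_4 ln13_11_4_ok) (L (nat_lit 526) ln14_16_7 ln14_16_7_ok))) (M (nat_lit 459) (B (L (nat_lit 458) ln10_14_2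 ln10_14_2_ok) (L (nat_lit 495) ln11_14_0 ln11_14_0_ok))))) (M (nat_lit 431) (B (L (nat_lit 395) ln15_13_3 ln15_13_3_ok) (L (nat_lit 432) ln16_13_1 ln16_13_1_ok)))))))))) (B (M (nat_lit 364) (B (L (nat_lit 332) ln12_10_4 ln12_10_4_ok) (M (nat_lit 492) (B (M (nat_lit 365) (B (L (nat_lit 333) ln12_14_6 ln12_14_6_ok) (L (nat_lit 397) ln12_15_6 ln12_15_6_ok))) (B (M (nat_lit 397) (B (L (nat_lit 365) ln12_15_6 ln12_15_6_ok) (L (nat_lit 524) ln12_16_6 ln12_16_6_ok))) (M (nat_lit 491) (B (L (nat_lit 459) ln12_11_5 ln12_11_5_ok) (L (nat_lit 523) ln12_12_5 ln12_12_5_ok)))))))) (B (M (nat_lit 492) (B (M (nat_lit 397) (B (L (nat_lit 365) ln12_15_6 ln12_15_6_ok) (L (nat_lit 524) ln12_16_6 ln12_16_6_ok))) (B (M (nat_lit 524) (B (L (nat_lit 397) ln12_16_6 ln12_16_6_ok) (L (nat_lit 556) ln12_17_6 ln12_17_6_ok))) (B (M (nat_lit 524) (B (L (nat_lit 556) ln12_17_6 ln12_17_6_ok) (M (nat_lit 523) (B (L (nat_lit 491) ln12_12_5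 ln12_12_5_ok) (L (nat_lit 555) ln12_13_5 ln12_13_5_ok))))) (M (nat_lit 365) (B (L (nat_lit 397) ln12_15_6 ln12_15_6_ok) (M (nat_lit 364) (B (L (nat_lit 332) ln12_10_4 ln12_10_4_ok) (L (nat_lit 333) ln12_14_6 ln12_14_6_ok))))))))) (M (nat_lit 462) (B (M (nat_lit 463) (B (L (nat_lit 464) ln16_14_3 ln16_14_3_ok) (M (nat_lit 431) (B (L (nat_lit 432) ln12_14_2 ln12_14_2_ok) (M (nat_lit 430) (B (L (nat_lit 395) ln15_13_3 ln15_13_3_ok) (L (nat_lit 459) ln15_13_1 ln15_13_1_ok))))))) (M (nat_lit 365) (B (M (nat_lit 364) (B (L (nat_lit 332) ln12_10_4 ln12_10_4_ok) (L (nat_lit 333) ln12_14_6 ln12_14_6_ok))) (B (M (nat_lit 333) (B (L (nat_lit 364) ln12_14_6 ln12_14_6_ok) (L (nat_lit 397) ln13_10_5 ln13_10_5_ok))) (M (nat_lit 397) (B (L (nat_lit 492) ln12_15_6 ln12_15_6_ok) (L (nat_lit 494) ln13_11_4 ln13_11_4_ok))))))))))))))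
theorem c40_s2400 : Sem (nat_lit 5954262831509113917970671778902343783532342804327837356357830143065656733685921768742376304727131933651871260571575937852568135413341880320) (nat_lit 1013065325259390452353418356913128693434059691065411923945240966784060033033978821256625622488018311564754781887746713804239935948135409750003341182490876405335397717666439364608) (nat_lit 1013065325259390452353418356913128693434059691065411923945240966784060033033978821256625622488018311564754781887746713804239935948135409750003341182490876405335397717666439364608) :=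
  sem_of_chk (M (nat_lit 396) (B (M (nat_lit 493) (B (L (nat_lit 525) ln13_16_7 ln13_16_7_ok) (M (nat_lit 364) (B (L (nat_lit 332) ln12_10_4 ln12_10_4_ok) (L (nat_lit 397) ln13_15_7 ln13_15_7_ok))))) (B (M (nat_lit 493) (B (L (nat_lit 525) ln13_16_7 ln13_16_7_ok) (M (nat_lit 364) (B (L (nat_lit 397) ln13_15_7 ln13_15_7_ok) (L (nat_lit 460) ln12_11_4 ln12_11_4_ok))))) (B (M (nat_lit 492) (B (M (nat_lit 493) (B (L (nat_lit 525) ln13_16_7 ln13_16_7_ok) (M (nat_lit 524) (B (L (nat_lit 397) ln13_12_5 ln13_12_5_ok) (M (nat_lit 556) (B (L (nat_lit 460) ln12_17_6 ln12_17_6_ok) (L (nat_lit 588) ln12_18_6 ln12_18_6_ok))))))) (B (M (nat_lit 460) (B (M (nat_lit 525) (B (L (nat_lit 493) ln13_16_7 ln13_16_7_ok) (M (nat_lit 524) (B (L (nat_lit 557) ln12_13_4 ln12_13_4_ok) (L (nat_lit 556) ln12_17_6 ln12_17_6_ok))))) (B (M (nat_lit 524) (B (L (nat_lit 556) ln12_17_6 ln12_17_6_ok) (M (nat_lit 523) (B (L (nat_lit 491)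 ln12_12_5 ln12_12_5_ok) (L (nat_lit 555) ln12_13_5 ln12_13_5_ok))))) (M (nat_lit 493) (B (L (nat_lit 525) ln13_16_7 ln13_16_7_ok) (M (nat_lit 491) (B (L (nat_lit 523) ln12_12_5 ln12_12_5_ok) (M (nat_lit 462) (B (L (nat_lit 463) ln15_14_1 ln15_14_1_ok) (L (nat_lit 490) ln10_15_2 ln10_15_2_ok)))))))))) (B (M (nat_lit 493) (B (L (nat_lit 525) ln13_16_7 ln13_16_7_ok) (M (nat_lit 397) (B (L (nat_lit 524) ln13_12_5 ln13_12_5_ok) (M (nat_lit 365) (B (M (nat_lit 366) (B (L (nat_lit 334) ln13_14_6 ln13_14_6_ok) (L (nat_lit 398) ln13_15_6 ln13_15_6_ok))) (M (nat_lit 494) (B (L (nat_lit 462) ln13_11_4 ln13_11_4_ok) (L (nat_lit 526) ln13_12_4 ln13_12_4_ok))))))))) (B (M (nat_lit 460) (B (M (nat_lit 397) (B (L (nat_lit 365) ln12_15_6 ln12_15_6_ok) (L (nat_lit 524) ln12_16_6 ln12_16_6_ok))) (B (M (nat_lit 524) (B (L (nat_lit 397) ln12_16_6 ln12_16_6_ok) (L (nat_lit 556) ln12_17_6 ln12_17_6_ok))) (B (M (nat_lit 524)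 (B (L (nat_lit 556) ln12_17_6 ln12_17_6_ok) (M (nat_lit 523) (B (L (nat_lit 491) ln12_12_5 ln12_12_5_ok) (L (nat_lit 555) ln12_13_5 ln12_13_5_ok))))) (M (nat_lit 462) (B (M (nat_lit 463) (B (L (nat_lit 464) ln16_14_3 ln16_14_3_ok) (L (nat_lit 491) ln15_14_1 ln15_14_1_ok))) (B (M (nat_lit 459) (B (M (nat_lit 430) (B (L (nat_lit 431) ln15_13_1 ln15_13_1_ok) (L (nat_lit 458) ln10_14_2 ln10_14_2_ok))) (M (nat_lit 491) (B (L (nat_lit 523) ln12_12_5 ln12_12_5_ok) (L (nat_lit 490) ln14_14_1 ln14_14_1_ok))))) (M (nat_lit 431) (B (M (nat_lit 430) (B (L (nat_lit 395) ln15_13_3 ln15_13_3_ok) (L (nat_lit 459) ln15_13_1 ln15_13_1_ok))) (B (M (nat_lit 430) (B (L (nat_lit 459) ln15_13_1 ln15_13_1_ok) (L (nat_lit 432) ln16_13_1 ln16_13_1_ok))) (M (nat_lit 463) (B (L (nat_lit 464) ln16_14_3 ln16_14_3_ok) (L (nat_lit 432) ln12_14_2 ln12_14_2_ok))))))))))))) (M (nat_lit 493) (B (L (nat_lit 525) ln13_16_7 ln13_16_7_ok) (M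 (nat_lit 460) (B (M (nat_lit 491) (B (L (nat_lit 523) ln12_12_5 ln12_12_5_ok) (M (nat_lit 462) (B (L (nat_lit 463) ln15_14_1 ln15_14_1_ok) (L (nat_lit 490) ln10_15_2 ln10_15_2_ok))))) (M (nat_lit 494) (B (M (nat_lit 397) (B (L (nat_lit 365) ln12_15_6 ln12_15_6_ok) (L (nat_lit 526) ln13_12_4 ln13_12_4_ok))) (M (nat_lit 495) (B (L (nat_lit 459) ln15_15_3 ln15_15_3_ok) (L (nat_lit 496) ln16_15_3 ln16_15_3_ok)))))))))))))) (B (M (nat_lit 364) (B (L (nat_lit 332) ln12_10_4 ln12_10_4_ok) (M (nat_lit 493) (B (L (nat_lit 460) ln12_11_4 ln12_11_4_ok) (L (nat_lit 525) ln13_16_7 ln13_16_7_ok))))) c40_n2399))))) (nat_lit 5954262831509113917970671778902343783532342804327837356357830143065656733685921768742376304727131933651871260571575937852568135413341880320) (nat_lit 1013065325259390452353418356913128693434059691065411923945240966784060033033978821256625622488018311564754781887746713804239935948135409750003341182490876405335397717666439364608)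 (nat_lit 1013065325259390452353418356913128693434059691065411923945240966784060033033978821256625622488018311564754781887746713804239935948135409750003341182490876405335397717666439364608) (by decide +kernel)
theorem c40_s2500 : Sem (nat_lit 5954262831509113917970671778902343783532342804327837356357830143065656733685921768742376304727131933651871260571575937852568135413341880320) (nat_lit 1769044887046985368877042448297601049291827204712887311954428449223446184424844588006392135037467939585436564675447903569486211233480598021429720126407812596836434182144) (nat_lit 1769044887046985368877042448297601049291827204712887311954428449223446184424844588006392135037467939585436564675447903569486211233480598021429720126407812596836434182144) :=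
  sem_of_chk (M (nat_lit 460) (B (M (nat_lit 462) (B (M (nat_lit 463) (B (L (nat_lit 464) ln16_14_3 ln16_14_3_ok) (M (nat_lit 492) (B (L (nat_lit 491) ln15_14_1 ln15_14_1_ok) (M (nat_lit 524) (B (L (nat_lit 397) ln12_16_6 ln12_16_6_ok) (L (nat_lit 556) ln12_17_6 ln12_17_6_ok))))))) (B (M (nat_lit 463) (B (L (nat_lit 464) ln16_14_3 ln16_14_3_ok) (M (nat_lit 459) (B (M (nat_lit 430) (B (L (nat_lit 431) ln15_13_1 ln15_13_1_ok) (L (nat_lit 458) ln10_14_2 ln10_14_2_ok))) (M (nat_lit 495) (B (L (nat_lit 494) ln11_14_0 ln11_14_0_ok) (L (nat_lit 496) ln12_14_0 ln12_14_0_ok))))))) (M (nat_lit 493) (B (M (nat_lit 525) (B (L (nat_lit 396) ln13_16_7 ln13_16_7_ok) (L (nat_lit 557) ln13_17_7 ln13_17_7_ok))) (M (nat_lit 494) (B (M (nat_lit 397) (B (L (nat_lit 365) ln13_11_4 ln13_11_4_ok) (L (nat_lit 526) ln13_12_4 ln13_12_4_ok))) (M (nat_lit 495) (B (L (nat_lit 459) ln11_14_0 ln11_14_0_ok) (L (nat_lit 496) ln16_15_3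 ln16_15_3_ok)))))))))) (B (M (nat_lit 462) (B (M (nat_lit 463) (B (L (nat_lit 464) ln16_14_3 ln16_14_3_ok) (M (nat_lit 492) (B (L (nat_lit 491) ln15_14_1 ln15_14_1_ok) (M (nat_lit 524) (B (L (nat_lit 397) ln12_16_6 ln12_16_6_ok) (L (nat_lit 556) ln12_17_6 ln12_17_6_ok))))))) (B (M (nat_lit 463) (B (L (nat_lit 464) ln16_14_3 ln16_14_3_ok) (M (nat_lit 459) (B (M (nat_lit 430) (B (L (nat_lit 431) ln15_13_1 ln15_13_1_ok) (L (nat_lit 458) ln10_14_2 ln10_14_2_ok))) (M (nat_lit 495) (B (L (nat_lit 494) ln11_14_0 ln11_14_0_ok) (L (nat_lit 496) ln12_14_0 ln12_14_0_ok))))))) (M (nat_lit 493) (B (M (nat_lit 525) (B (L (nat_lit 396) ln13_16_7 ln13_16_7_ok) (L (nat_lit 557) ln13_17_7 ln13_17_7_ok))) (M (nat_lit 494) (B (M (nat_lit 526) (B (L (nat_lit 397) ln13_12_4 ln13_12_4_ok) (L (nat_lit 558) ln14_17_7 ln14_17_7_ok))) (M (nat_lit 495) (B (L (nat_lit 459) ln11_14_0 ln11_14_0_ok) (L (nat_lit 496) ln16_15_3 ln16_15_3_ok))))))))))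 (B (M (nat_lit 462) (B (M (nat_lit 463) (B (L (nat_lit 464) ln16_14_3 ln16_14_3_ok) (M (nat_lit 492) (B (L (nat_lit 491) ln15_14_1 ln15_14_1_ok) (M (nat_lit 524) (B (L (nat_lit 397) ln12_16_6 ln12_16_6_ok) (L (nat_lit 556) ln12_17_6 ln12_17_6_ok))))))) (B (M (nat_lit 463) (B (L (nat_lit 464) ln16_14_3 ln16_14_3_ok) (M (nat_lit 459) (B (M (nat_lit 430) (B (L (nat_lit 431) ln15_13_1 ln15_13_1_ok) (L (nat_lit 458) ln10_14_2 ln10_14_2_ok))) (M (nat_lit 495) (B (L (nat_lit 494) ln11_14_0 ln11_14_0_ok) (L (nat_lit 496) ln12_14_0 ln12_14_0_ok))))))) (M (nat_lit 494) (B (M (nat_lit 459) (B (L (nat_lit 495) ln11_14_0 ln11_14_0_ok) (M (nat_lit 430) (B (L (nat_lit 431) ln15_13_1 ln15_13_1_ok) (L (nat_lit 458) ln10_14_2 ln10_14_2_ok))))) (M (nat_lit 397) (B (L (nat_lit 365) ln13_11_4 ln13_11_4_ok) (M (nat_lit 526) (B (L (nat_lit 493) ln13_12_4 ln13_12_4_ok) (L (nat_lit 558) ln14_17_7 ln14_17_7_ok)))))))))) (B (M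 (nat_lit 459) (B (M (nat_lit 430) (B (L (nat_lit 431) ln15_13_1 ln15_13_1_ok) (L (nat_lit 458) ln10_14_2 ln10_14_2_ok))) (B (M (nat_lit 493) (B (M (nat_lit 525) (B (L (nat_lit 396) ln13_16_7 ln13_16_7_ok) (L (nat_lit 557) ln13_17_7 ln13_17_7_ok))) (M (nat_lit 458) (B (L (nat_lit 457) ln9_14_2 ln9_14_2_ok) (L (nat_lit 494) ln10_14_0 ln10_14_0_ok))))) (M (nat_lit 525) (B (M (nat_lit 493) (B (L (nat_lit 396) ln13_16_7 ln13_16_7_ok) (L (nat_lit 557) ln13_17_7 ln13_17_7_ok))) (B (M (nat_lit 430) (B (L (nat_lit 431) ln15_13_1 ln15_13_1_ok) (M (nat_lit 493) (B (L (nat_lit 398) ln13_16_6 ln13_16_6_ok) (L (nat_lit 557) ln13_17_7 ln13_17_7_ok))))) (B (M (nat_lit 492) (B (M (nat_lit 524) (B (L (nat_lit 557) ln12_13_4 ln12_13_4_ok) (L (nat_lit 556) ln12_17_6 ln12_17_6_ok))) (M (nat_lit 491) (B (M (nat_lit 523) (B (L (nat_lit 396) ln12_12_5 ln12_12_5_ok) (L (nat_lit 555) ln11_17_6 ln11_17_6_ok))) (M (nat_lit 462)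 (B (L (nat_lit 490) ln14_14_1 ln14_14_1_ok) (L (nat_lit 463) ln15_14_1 ln15_14_1_ok))))))) (M (nat_lit 430) (B (L (nat_lit 431) ln15_13_1 ln15_13_1_ok) (M (nat_lit 493) (B (L (nat_lit 396) ln13_16_7 ln13_16_7_ok) (L (nat_lit 398) ln13_16_6 ln13_16_6_ok)))))))))))) (B (M (nat_lit 462) (B (M (nat_lit 463) (B (L (nat_lit 464) ln16_14_3 ln16_14_3_ok) (M (nat_lit 492) (B (L (nat_lit 491) ln15_14_1 ln15_14_1_ok) (M (nat_lit 524) (B (L (nat_lit 397) ln12_16_6 ln12_16_6_ok) (L (nat_lit 556) ln12_17_6 ln12_17_6_ok))))))) (B (M (nat_lit 463) (B (L (nat_lit 464) ln16_14_3 ln16_14_3_ok) (M (nat_lit 459) (B (M (nat_lit 491) (B (L (nat_lit 490) ln14_14_1 ln14_14_1_ok) (L (nat_lit 492) ln15_14_1 ln15_14_1_ok))) (M (nat_lit 495) (B (L (nat_lit 494) ln11_14_0 ln11_14_0_ok) (L (nat_lit 496) ln12_14_0 ln12_14_0_ok))))))) (M (nat_lit 493) (B (M (nat_lit 525) (B (L (nat_lit 396) ln13_16_7 ln13_16_7_ok) (L (nat_lit 557) ln13_17_7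 ln13_17_7_ok))) (M (nat_lit 494) (B (M (nat_lit 526) (B (L (nat_lit 397) ln13_12_4 ln13_12_4_ok) (L (nat_lit 558) ln14_17_7 ln14_17_7_ok))) (M (nat_lit 495) (B (L (nat_lit 459) ln11_14_0 ln11_14_0_ok) (L (nat_lit 496) ln16_15_3 ln16_15_3_ok)))))))))) (B (M (nat_lit 492) (B (M (nat_lit 397) (B (L (nat_lit 365) ln13_11_5 ln13_11_5_ok) (L (nat_lit 524) ln12_16_6 ln12_16_6_ok))) (B (M (nat_lit 524) (B (L (nat_lit 397) ln12_16_6 ln12_16_6_ok) (L (nat_lit 556) ln12_17_6 ln12_17_6_ok))) (B (M (nat_lit 524) (B (L (nat_lit 556) ln12_17_6 ln12_17_6_ok) (M (nat_lit 396) (B (M (nat_lit 525) (B (L (nat_lit 493) ln13_16_7 ln13_16_7_ok) (L (nat_lit 557) ln12_13_4 ln12_13_4_ok))) (M (nat_lit 523) (B (L (nat_lit 491) ln12_12_5 ln12_12_5_ok) (L (nat_lit 555) ln12_13_5 ln12_13_5_ok))))))) (M (nat_lit 396) (B (M (nat_lit 397) (B (L (nat_lit 365) ln12_15_6 ln12_15_6_ok) (M (nat_lit 395) (B (L (nat_lit 363) ln12_15_7 ln12_15_7_ok)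 (M (nat_lit 394) (B (L (nat_lit 393) ln9_12_0 ln9_12_0_ok) (L (nat_lit 430) ln10_12_0 ln10_12_0_ok))))))) (M (nat_lit 493) (B (L (nat_lit 525) ln13_16_7 ln13_16_7_ok) (M (nat_lit 491) (B (L (nat_lit 523) ln12_12_5 ln12_12_5_ok) (M (nat_lit 462) (B (L (nat_lit 463) ln15_14_1 ln15_14_1_ok) (L (nat_lit 490) ln10_15_2 ln10_15_2_ok))))))))))))) (B (M (nat_lit 492) (B (M (nat_lit 397) (B (L (nat_lit 365) ln13_11_5 ln13_11_5_ok) (L (nat_lit 524) ln12_16_6 ln12_16_6_ok))) (B (M (nat_lit 524) (B (L (nat_lit 397) ln12_16_6 ln12_16_6_ok) (L (nat_lit 556) ln12_17_6 ln12_17_6_ok))) (B (M (nat_lit 524) (B (L (nat_lit 556) ln12_17_6 ln12_17_6_ok) (M (nat_lit 396) (B (M (nat_lit 525) (B (L (nat_lit 493) ln13_16_7 ln13_16_7_ok) (L (nat_lit 557) ln12_13_4 ln12_13_4_ok))) (M (nat_lit 523) (B (L (nat_lit 491) ln12_12_5 ln12_12_5_ok) (L (nat_lit 555) ln12_13_5 ln12_13_5_ok))))))) (M (nat_lit 493) (B (M (nat_lit 525) (B (L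 (nat_lit 396) ln13_16_7 ln13_16_7_ok) (L (nat_lit 557) ln13_17_7 ln13_17_7_ok))) (M (nat_lit 494) (B (M (nat_lit 397) (B (L (nat_lit 365) ln13_11_5 ln13_11_5_ok) (L (nat_lit 526) ln13_12_4 ln13_12_4_ok))) (M (nat_lit 495) (B (L (nat_lit 459) ln15_15_3 ln15_15_3_ok) (L (nat_lit 496) ln16_15_3 ln16_15_3_ok))))))))))) (B (M (nat_lit 493) (B (M (nat_lit 525) (B (L (nat_lit 396) ln13_16_7 ln13_16_7_ok) (L (nat_lit 557) ln13_17_7 ln13_17_7_ok))) (M (nat_lit 494) (B (M (nat_lit 397) (B (L (nat_lit 526) ln13_12_4 ln13_12_4_ok) (M (nat_lit 365) (B (L (nat_lit 333) ln13_10_5 ln13_10_5_ok) (L (nat_lit 492) ln13_11_5 ln13_11_5_ok))))) (B (M (nat_lit 397) (B (L (nat_lit 526) ln13_12_4 ln13_12_4_ok) (M (nat_lit 365) (B (L (nat_lit 492) ln13_11_5 ln13_11_5_ok) (L (nat_lit 462) ln13_11_4 ln13_11_4_ok))))) (M (nat_lit 459) (B (L (nat_lit 458) ln10_14_0 ln10_14_0_ok) (M (nat_lit 495) (B (L (nat_lit 462) ln11_14_0 ln11_14_0_ok)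 (L (nat_lit 496) ln16_15_3 ln16_15_3_ok)))))))))) (B (M (nat_lit 493) (B (M (nat_lit 525) (B (L (nat_lit 396) ln13_16_7 ln13_16_7_ok) (L (nat_lit 557) ln13_17_7 ln13_17_7_ok))) (M (nat_lit 397) (B (M (nat_lit 365) (B (L (nat_lit 333) ln13_10_5 ln13_10_5_ok) (M (nat_lit 366) (B (L (nat_lit 334) ln13_14_6 ln13_14_6_ok) (L (nat_lit 398) ln13_15_6 ln13_15_6_ok))))) (B (M (nat_lit 365) (B (M (nat_lit 366) (B (L (nat_lit 334) ln13_14_6 ln13_14_6_ok) (L (nat_lit 398) ln13_15_6 ln13_15_6_ok))) (M (nat_lit 494) (B (L (nat_lit 462) ln13_11_4 ln13_11_4_ok) (L (nat_lit 526) ln13_12_4 ln13_12_4_ok))))) (B (M (nat_lit 365) (B (L (nat_lit 333) ln13_10_5 ln13_10_5_ok) (M (nat_lit 494) (B (L (nat_lit 462) ln13_11_4 ln13_11_4_ok) (L (nat_lit 526) ln13_12_4 ln13_12_4_ok))))) (M (nat_lit 494) (B (L (nat_lit 526) ln13_12_4 ln13_12_4_ok) (M (nat_lit 459) (B (L (nat_lit 458) ln10_14_0 ln10_14_0_ok) (M (nat_lit 495) (B (L (nat_lit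 462) ln11_14_0 ln11_14_0_ok) (L (nat_lit 496) ln16_15_3 ln16_15_3_ok))))))))))))) (M (nat_lit 459) (B (M (nat_lit 458) (B (L (nat_lit 457) ln9_14_2 ln9_14_2_ok) (L (nat_lit 430) ln10_14_2 ln10_14_2_ok))) (M (nat_lit 492) (B (M (nat_lit 397) (B (L (nat_lit 365) ln13_11_5 ln13_11_5_ok) (L (nat_lit 524) ln12_16_6 ln12_16_6_ok))) (M (nat_lit 491) (B (M (nat_lit 523) (B (L (nat_lit 396) ln12_12_5 ln12_12_5_ok) (L (nat_lit 555) ln11_17_6 ln11_17_6_ok))) (M (nat_lit 462) (B (L (nat_lit 490) ln14_14_1 ln14_14_1_ok) (L (nat_lit 463) ln15_14_1 ln15_14_1_ok))))))))))))))))))) (nat_lit 5954262831509113917970671778902343783532342804327837356357830143065656733685921768742376304727131933651871260571575937852568135413341880320) (nat_lit 1769044887046985368877042448297601049291827204712887311954428449223446184424844588006392135037467939585436564675447903569486211233480598021429720126407812596836434182144) (nat_lit 1769044887046985368877042448297601049291827204712887311954428449223446184424844588006392135037467939585436564675447903569486211233480598021429720126407812596836434182144)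 (by decide +kernel)
theorem c40_s2588 : Sem (nat_lit 5954262831509113917970671778902343783532342804327837356357830143065656733685921768742376304727131933651871260571575937852568135413341880320) (nat_lit 1769044887046985368878640783555362837325385261270379110071575777654983353002102653016410568213485864995969252814029304518924637813836537450960636437606994933452948635648) (nat_lit 1769044887046985368878640783555362837325385261270379110071575777654983353002102653016410568213485864995969252814029304518924637813836537450960636437606994933452948635648) :=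
  sem_of_chk (M (nat_lit 460) (B (M (nat_lit 459) (B (M (nat_lit 430) (B (L (nat_lit 431) ln15_13_1 ln15_13_1_ok) (L (nat_lit 458) ln10_14_2 ln10_14_2_ok))) (B (M (nat_lit 493) (B (M (nat_lit 525) (B (L (nat_lit 396) ln13_16_7 ln13_16_7_ok) (L (nat_lit 557) ln13_17_7 ln13_17_7_ok))) (M (nat_lit 458) (B (L (nat_lit 457) ln9_14_2 ln9_14_2_ok) (L (nat_lit 494) ln10_14_0 ln10_14_0_ok))))) (M (nat_lit 492) (B (M (nat_lit 524) (B (L (nat_lit 397) ln12_16_6 ln12_16_6_ok) (L (nat_lit 556) ln12_17_6 ln12_17_6_ok))) (M (nat_lit 491) (B (M (nat_lit 396) (B (L (nat_lit 364) ln12_11_5 ln12_11_5_ok) (L (nat_lit 523) ln12_12_5 ln12_12_5_ok))) (M (nat_lit 462) (B (L (nat_lit 490) ln14_14_1 ln14_14_1_ok) (L (nat_lit 463) ln15_14_1 ln15_14_1_ok)))))))))) (B (M (nat_lit 459) (B (M (nat_lit 430) (B (L (nat_lit 431) ln15_13_1 ln15_13_1_ok) (L (nat_lit 458) ln10_14_2 ln10_14_2_ok))) (B (M (nat_lit 493) (B (M (nat_lit 525)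 (B (L (nat_lit 396) ln13_16_7 ln13_16_7_ok) (L (nat_lit 557) ln13_17_7 ln13_17_7_ok))) (M (nat_lit 458) (B (L (nat_lit 457) ln9_14_2 ln9_14_2_ok) (L (nat_lit 494) ln10_14_0 ln10_14_0_ok))))) (M (nat_lit 492) (B (M (nat_lit 524) (B (L (nat_lit 397) ln12_16_6 ln12_16_6_ok) (L (nat_lit 556) ln12_17_6 ln12_17_6_ok))) (M (nat_lit 491) (B (M (nat_lit 523) (B (L (nat_lit 396) ln12_12_5 ln12_12_5_ok) (L (nat_lit 555) ln11_17_6 ln11_17_6_ok))) (M (nat_lit 462) (B (L (nat_lit 490) ln14_14_1 ln14_14_1_ok) (L (nat_lit 463) ln15_14_1 ln15_14_1_ok)))))))))) (B (M (nat_lit 462) (B (M (nat_lit 463) (B (L (nat_lit 464) ln16_14_3 ln16_14_3_ok) (M (nat_lit 492) (B (L (nat_lit 491) ln15_14_1 ln15_14_1_ok) (M (nat_lit 524) (B (L (nat_lit 397) ln12_16_6 ln12_16_6_ok) (L (nat_lit 556) ln12_17_6 ln12_17_6_ok))))))) (B (M (nat_lit 463) (B (L (nat_lit 464) ln16_14_3 ln16_14_3_ok) (M (nat_lit 459) (B (M (nat_lit 491) (B (L (nat_lit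 490) ln14_14_1 ln14_14_1_ok) (L (nat_lit 492) ln15_14_1 ln15_14_1_ok))) (M (nat_lit 495) (B (L (nat_lit 494) ln11_14_0 ln11_14_0_ok) (L (nat_lit 496) ln12_14_0 ln12_14_0_ok))))))) (M (nat_lit 494) (B (M (nat_lit 459) (B (L (nat_lit 495) ln11_14_0 ln11_14_0_ok) (M (nat_lit 430) (B (L (nat_lit 431) ln15_13_1 ln15_13_1_ok) (L (nat_lit 458) ln10_14_2 ln10_14_2_ok))))) (B (M (nat_lit 459) (B (L (nat_lit 495) ln11_14_0 ln11_14_0_ok) (M (nat_lit 458) (B (L (nat_lit 457) ln9_14_2 ln9_14_2_ok) (L (nat_lit 493) ln10_14_0 ln10_14_0_ok))))) (M (nat_lit 526) (B (L (nat_lit 558) ln14_17_7 ln14_17_7_ok) (M (nat_lit 397) (B (L (nat_lit 430) ln14_16_7 ln14_16_7_ok) (L (nat_lit 493) ln13_12_4 ln13_12_4_ok))))))))))) (B (M (nat_lit 459) (B (M (nat_lit 430) (B (L (nat_lit 431) ln15_13_1 ln15_13_1_ok) (L (nat_lit 458) ln10_14_2 ln10_14_2_ok))) (B (M (nat_lit 493) (B (M (nat_lit 525) (B (L (nat_lit 396) ln13_16_7 ln13_16_7_ok)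 (L (nat_lit 557) ln13_17_7 ln13_17_7_ok))) (M (nat_lit 458) (B (L (nat_lit 457) ln9_14_2 ln9_14_2_ok) (L (nat_lit 494) ln10_14_0 ln10_14_0_ok))))) (M (nat_lit 396) (B (M (nat_lit 364) (B (L (nat_lit 332) ln12_10_4 ln12_10_4_ok) (L (nat_lit 491) ln12_11_5 ln12_11_5_ok))) (B (M (nat_lit 364) (B (L (nat_lit 491) ln12_11_5 ln12_11_5_ok) (L (nat_lit 493) ln12_11_4 ln12_11_4_ok))) (B (M (nat_lit 462) (B (M (nat_lit 491) (B (L (nat_lit 490) ln14_14_1 ln14_14_1_ok) (M (nat_lit 523) (B (L (nat_lit 492) ln12_12_5 ln12_12_5_ok) (L (nat_lit 555) ln11_17_6 ln11_17_6_ok))))) (M (nat_lit 463) (B (L (nat_lit 464) ln16_14_3 ln16_14_3_ok) (M (nat_lit 495) (B (L (nat_lit 494) ln11_14_0 ln11_14_0_ok) (L (nat_lit 496) ln12_14_0 ln12_14_0_ok))))))) (M (nat_lit 493) (B (L (nat_lit 364) ln12_11_4 ln12_11_4_ok) (L (nat_lit 525) ln13_16_7 ln13_16_7_ok)))))))))) (B (M (nat_lit 459) (B (M (nat_lit 493) (B (M (nat_lit 525) (B (L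 (nat_lit 396) ln13_16_7 ln13_16_7_ok) (L (nat_lit 557) ln13_17_7 ln13_17_7_ok))) (M (nat_lit 458) (B (L (nat_lit 457) ln9_14_2 ln9_14_2_ok) (L (nat_lit 494) ln10_14_0 ln10_14_0_ok))))) (B (M (nat_lit 458) (B (L (nat_lit 457) ln9_14_2 ln9_14_2_ok) (M (nat_lit 462) (B (M (nat_lit 490) (B (L (nat_lit 489) ln13_14_1 ln13_14_1_ok) (L (nat_lit 491) ln14_14_1 ln14_14_1_ok))) (M (nat_lit 494) (B (L (nat_lit 493) ln10_14_0 ln10_14_0_ok) (L (nat_lit 495) ln11_14_0 ln11_14_0_ok))))))) (M (nat_lit 492) (B (M (nat_lit 524) (B (L (nat_lit 397) ln12_16_6 ln12_16_6_ok) (L (nat_lit 556) ln12_17_6 ln12_17_6_ok))) (M (nat_lit 491) (B (M (nat_lit 396) (B (L (nat_lit 364) ln12_11_5 ln12_11_5_ok) (L (nat_lit 523) ln12_12_5 ln12_12_5_ok))) (M (nat_lit 462) (B (L (nat_lit 490) ln14_14_1 ln14_14_1_ok) (L (nat_lit 463) ln15_14_1 ln15_14_1_ok)))))))))) (B (M (nat_lit 459) (B (M (nat_lit 430) (B (L (nat_lit 431) ln15_13_1 ln15_13_1_ok)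 (L (nat_lit 458) ln10_14_2 ln10_14_2_ok))) (M (nat_lit 492) (B (M (nat_lit 524) (B (L (nat_lit 397) ln12_16_6 ln12_16_6_ok) (L (nat_lit 556) ln12_17_6 ln12_17_6_ok))) (M (nat_lit 491) (B (M (nat_lit 396) (B (L (nat_lit 364) ln12_11_5 ln12_11_5_ok) (L (nat_lit 523) ln12_12_5 ln12_12_5_ok))) (M (nat_lit 462) (B (L (nat_lit 490) ln14_14_1 ln14_14_1_ok) (L (nat_lit 463) ln15_14_1 ln15_14_1_ok))))))))) (B (M (nat_lit 462) (B (M (nat_lit 463) (B (L (nat_lit 464) ln16_14_3 ln16_14_3_ok) (M (nat_lit 492) (B (L (nat_lit 491) ln15_14_1 ln15_14_1_ok) (M (nat_lit 524) (B (L (nat_lit 397) ln12_16_6 ln12_16_6_ok) (L (nat_lit 556) ln12_17_6 ln12_17_6_ok))))))) (B (M (nat_lit 463) (B (L (nat_lit 464) ln16_14_3 ln16_14_3_ok) (M (nat_lit 459) (B (M (nat_lit 491) (B (L (nat_lit 490) ln14_14_1 ln14_14_1_ok) (L (nat_lit 492) ln15_14_1 ln15_14_1_ok))) (M (nat_lit 495) (B (L (nat_lit 494) ln11_14_0 ln11_14_0_ok) (L (nat_lit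 496) ln12_14_0 ln12_14_0_ok))))))) (M (nat_lit 493) (B (M (nat_lit 525) (B (L (nat_lit 396) ln13_16_7 ln13_16_7_ok) (L (nat_lit 557) ln13_17_7 ln13_17_7_ok))) (M (nat_lit 494) (B (M (nat_lit 526) (B (L (nat_lit 397) ln13_12_4 ln13_12_4_ok) (L (nat_lit 558) ln14_17_7 ln14_17_7_ok))) (M (nat_lit 495) (B (L (nat_lit 459) ln11_14_0 ln11_14_0_ok) (L (nat_lit 496) ln16_15_3 ln16_15_3_ok)))))))))) (B (M (nat_lit 493) (B (M (nat_lit 396) (B (L (nat_lit 364) ln12_11_4 ln12_11_4_ok) (L (nat_lit 525) ln13_16_7 ln13_16_7_ok))) (B (M (nat_lit 525) (B (L (nat_lit 396) ln13_16_7 ln13_16_7_ok) (L (nat_lit 557) ln13_17_7 ln13_17_7_ok))) (B (M (nat_lit 525) (B (L (nat_lit 557) ln13_17_7 ln13_17_7_ok) (M (nat_lit 397) (B (M (nat_lit 524) (B (L (nat_lit 492) ln12_16_6 ln12_16_6_ok) (L (nat_lit 556) ln13_13_5 ln13_13_5_ok))) (M (nat_lit 526) (B (L (nat_lit 494) ln13_12_4 ln13_12_4_ok) (L (nat_lit 558) ln13_13_4 ln13_13_4_ok)))))))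 (M (nat_lit 492) (B (M (nat_lit 524) (B (L (nat_lit 397) ln12_16_6 ln12_16_6_ok) (L (nat_lit 556) ln12_17_6 ln12_17_6_ok))) (M (nat_lit 491) (B (M (nat_lit 396) (B (L (nat_lit 364) ln12_11_4 ln12_11_4_ok) (L (nat_lit 523) ln12_12_5 ln12_12_5_ok))) (M (nat_lit 490) (B (L (nat_lit 489) ln9_15_2 ln9_15_2_ok) (L (nat_lit 462) ln10_15_2 ln10_15_2_ok))))))))))) (B (M (nat_lit 396) (B (M (nat_lit 364) (B (L (nat_lit 332) ln12_10_4 ln12_10_4_ok) (L (nat_lit 493) ln12_11_4 ln12_11_4_ok))) (B (M (nat_lit 493) (B (L (nat_lit 364) ln12_11_4 ln12_11_4_ok) (L (nat_lit 525) ln13_16_7 ln13_16_7_ok))) (B (M (nat_lit 430) (B (M (nat_lit 431) (B (L (nat_lit 395) ln15_13_3 ln15_13_3_ok) (L (nat_lit 459) ln15_13_1 ln15_13_1_ok))) (B (M (nat_lit 431) (B (L (nat_lit 459) ln15_13_1 ln15_13_1_ok) (L (nat_lit 432) ln16_13_1 ln16_13_1_ok))) (M (nat_lit 492) (B (M (nat_lit 524) (B (L (nat_lit 397) ln12_16_6 ln12_16_6_ok) (L (nat_lit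 556) ln12_17_6 ln12_17_6_ok))) (B (M (nat_lit 525) (B (L (nat_lit 493) ln13_16_7 ln13_16_7_ok) (M (nat_lit 524) (B (L (nat_lit 557) ln12_13_4 ln12_13_4_ok) (L (nat_lit 556) ln12_17_6 ln12_17_6_ok))))) (M (nat_lit 395) (B (L (nat_lit 363) ln12_15_7 ln12_15_7_ok) (M (nat_lit 394) (B (L (nat_lit 393) ln9_12_0 ln9_12_0_ok) (L (nat_lit 397) ln10_12_0 ln10_12_0_ok))))))))))) (M (nat_lit 364) (B (L (nat_lit 332) ln12_10_4 ln12_10_4_ok) (M (nat_lit 459) (B (L (nat_lit 491) ln12_11_5 ln12_11_5_ok) (M (nat_lit 430) (B (L (nat_lit 431) ln15_13_1 ln15_13_1_ok) (L (nat_lit 458) ln10_14_2 ln10_14_2_ok))))))))))) (M (nat_lit 459) (B (M (nat_lit 430) (B (L (nat_lit 431) ln15_13_1 ln15_13_1_ok) (L (nat_lit 458) ln10_14_2 ln10_14_2_ok))) (B (M (nat_lit 493) (B (M (nat_lit 525) (B (L (nat_lit 396) ln13_16_7 ln13_16_7_ok) (L (nat_lit 557) ln13_17_7 ln13_17_7_ok))) (M (nat_lit 458) (B (L (nat_lit 457) ln9_14_2 ln9_14_2_ok)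 (L (nat_lit 494) ln10_14_0 ln10_14_0_ok))))) (M (nat_lit 462) (B (M (nat_lit 431) (B (L (nat_lit 430) ln15_13_1 ln15_13_1_ok) (M (nat_lit 463) (B (L (nat_lit 464) ln16_14_3 ln16_14_3_ok) (L (nat_lit 432) ln12_14_2 ln12_14_2_ok))))) (B (M (nat_lit 463) (B (L (nat_lit 464) ln16_14_3 ln16_14_3_ok) (M (nat_lit 495) (B (L (nat_lit 494) ln11_14_0 ln11_14_0_ok) (L (nat_lit 496) ln12_14_0 ln12_14_0_ok))))) (M (nat_lit 430) (B (L (nat_lit 431) ln15_13_1 ln15_13_1_ok) (M (nat_lit 494) (B (L (nat_lit 495) ln11_14_0 ln11_14_0_ok) (M (nat_lit 526) (B (L (nat_lit 397) ln14_16_7 ln14_16_7_ok) (L (nat_lit 558) ln14_17_7 ln14_17_7_ok))))))))))))))))))))))) (nat_lit 5954262831509113917970671778902343783532342804327837356357830143065656733685921768742376304727131933651871260571575937852568135413341880320) (nat_lit 1769044887046985368878640783555362837325385261270379110071575777654983353002102653016410568213485864995969252814029304518924637813836537450960636437606994933452948635648)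 (nat_lit 1769044887046985368878640783555362837325385261270379110071575777654983353002102653016410568213485864995969252814029304518924637813836537450960636437606994933452948635648) (by decide +kernel)
theorem c40_s2875 : Sem (nat_lit 5954262831509113918616234248424070930946322597328590324940256591272962611893586607877538210231342232309282598891610395711543928406528753664) (nat_lit 1013065326084944733195018387734577502169309222099327474563554403886903976884480724491591659597651412120466519078759879929977976111082154008354065547242262737125298369705222864896) (nat_lit 1013065326084944733195018387734577502169309222099327474563554403886903976884480724491591659597651412120466519078759879929977976111082154008354065547242262737125298369705222864896) :=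
  sem_of_chk (M (nat_lit 397) (B (M (nat_lit 365) (B (M (nat_lit 460) (B (L (nat_lit 333) ln13_10_5 ln13_10_5_ok) (L (nat_lit 492) ln13_11_5 ln13_11_5_ok))) (B (M (nat_lit 493) (B (M (nat_lit 492) (B (L (nat_lit 460) ln13_11_5 ln13_11_5_ok) (L (nat_lit 524) ln13_12_5 ln13_12_5_ok))) (M (nat_lit 494) (B (L (nat_lit 462) ln13_11_4 ln13_11_4_ok) (L (nat_lit 526) ln13_12_4 ln13_12_4_ok))))) (M (nat_lit 333) (B (M (nat_lit 332) (B (L (nat_lit 300) ln13_13_7 ln13_13_7_ok) (L (nat_lit 364) ln13_14_7 ln13_14_7_ok))) (M (nat_lit 462) (B (L (nat_lit 430) ln13_10_4 ln13_10_4_ok) (L (nat_lit 494) ln13_11_4 ln13_11_4_ok)))))))) (B (M (nat_lit 493) (B (M (nat_lit 525) (B (L (nat_lit 430) ln13_16_6 ln13_16_6_ok) (M (nat_lit 524) (B (L (nat_lit 492) ln13_12_5 ln13_12_5_ok) (L (nat_lit 556) ln13_13_5 ln13_13_5_ok))))) (B (M (nat_lit 365) (B (M (nat_lit 460) (B (L (nat_lit 333) ln13_10_5 ln13_10_5_ok) (L (nat_lit 492)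 ln13_11_5 ln13_11_5_ok))) (M (nat_lit 494) (B (L (nat_lit 462) ln13_11_4 ln13_11_4_ok) (L (nat_lit 526) ln13_12_4 ln13_12_4_ok))))) (M (nat_lit 525) (B (L (nat_lit 430) ln13_16_6 ln13_16_6_ok) (M (nat_lit 526) (B (L (nat_lit 494) ln13_12_4 ln13_12_4_ok) (L (nat_lit 558) ln13_13_4 ln13_13_4_ok)))))))) (B (M (nat_lit 493) (B (M (nat_lit 525) (B (L (nat_lit 430) ln13_16_6 ln13_16_6_ok) (M (nat_lit 526) (B (L (nat_lit 494) ln13_12_4 ln13_12_4_ok) (L (nat_lit 558) ln13_13_4 ln13_13_4_ok))))) (B (M (nat_lit 365) (B (M (nat_lit 492) (B (L (nat_lit 460) ln13_11_5 ln13_11_5_ok) (L (nat_lit 524) ln13_12_5 ln13_12_5_ok))) (M (nat_lit 494) (B (L (nat_lit 462) ln13_11_4 ln13_11_4_ok) (L (nat_lit 526) ln13_12_4 ln13_12_4_ok))))) (M (nat_lit 460) (B (M (nat_lit 492) (B (L (nat_lit 365) ln13_11_5 ln13_11_5_ok) (L (nat_lit 524) ln12_16_6 ln12_16_6_ok))) (M (nat_lit 525) (B (L (nat_lit 430) ln13_16_6 ln13_16_6_ok) (L (nat_lit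 557) ln13_17_7 ln13_17_7_ok)))))))) (B (M (nat_lit 494) (B (M (nat_lit 526) (B (L (nat_lit 493) ln13_12_4 ln13_12_4_ok) (M (nat_lit 462) (B (L (nat_lit 430) ln14_16_7 ln14_16_7_ok) (L (nat_lit 558) ln14_17_7 ln14_17_7_ok))))) (B (M (nat_lit 493) (B (L (nat_lit 526) ln13_12_4 ln13_12_4_ok) (M (nat_lit 460) (B (M (nat_lit 492) (B (L (nat_lit 524) ln12_16_6 ln12_16_6_ok) (M (nat_lit 459) (B (L (nat_lit 458) ln10_14_0 ln10_14_0_ok) (L (nat_lit 495) ln15_15_3 ln15_15_3_ok))))) (B (M (nat_lit 492) (B (L (nat_lit 524) ln12_16_6 ln12_16_6_ok) (M (nat_lit 495) (B (L (nat_lit 459) ln15_15_3 ln15_15_3_ok) (L (nat_lit 496) ln16_15_3 ln16_15_3_ok))))) (B (M (nat_lit 524) (B (L (nat_lit 492) ln12_16_6 ln12_16_6_ok) (M (nat_lit 525) (B (L (nat_lit 557) ln13_17_7 ln13_17_7_ok) (L (nat_lit 556) ln13_13_5 ln13_13_5_ok))))) (M (nat_lit 459) (B (L (nat_lit 458) ln10_14_0 ln10_14_0_ok) (M (nat_lit 495) (B (L (nat_lit 462)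 ln11_14_0 ln11_14_0_ok) (L (nat_lit 496) ln16_15_3 ln16_15_3_ok))))))))))) (B (M (nat_lit 493) (B (L (nat_lit 526) ln13_12_4 ln13_12_4_ok) (M (nat_lit 525) (B (L (nat_lit 430) ln13_16_6 ln13_16_6_ok) (M (nat_lit 524) (B (L (nat_lit 492) ln13_12_5 ln13_12_5_ok) (L (nat_lit 556) ln13_13_5 ln13_13_5_ok))))))) (B (M (nat_lit 462) (B (M (nat_lit 526) (B (L (nat_lit 430) ln14_16_7 ln14_16_7_ok) (L (nat_lit 558) ln14_17_7 ln14_17_7_ok))) (M (nat_lit 463) (B (L (nat_lit 464) ln16_14_3 ln16_14_3_ok) (M (nat_lit 460) (B (M (nat_lit 492) (B (L (nat_lit 524) ln12_16_6 ln12_16_6_ok) (L (nat_lit 491) ln15_14_1 ln15_14_1_ok))) (M (nat_lit 495) (B (L (nat_lit 459) ln11_14_0 ln11_14_0_ok) (L (nat_lit 496) ln12_14_0 ln12_14_0_ok))))))))) (M (nat_lit 462) (B (M (nat_lit 463) (B (L (nat_lit 464) ln16_14_3 ln16_14_3_ok) (M (nat_lit 399) (B (L (nat_lit 400) ln16_12_1 ln16_12_1_ok) (M (nat_lit 367) (B (L (nat_lit 430) ln14_15_6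 ln14_15_6_ok) (L (nat_lit 431) ln15_11_5 ln15_11_5_ok))))))) (B (M (nat_lit 460) (B (M (nat_lit 459) (B (L (nat_lit 495) ln11_14_0 ln11_14_0_ok) (M (nat_lit 458) (B (L (nat_lit 457) ln9_14_2 ln9_14_2_ok) (L (nat_lit 493) ln10_14_0 ln10_14_0_ok))))) (M (nat_lit 492) (B (L (nat_lit 524) ln12_16_6 ln12_16_6_ok) (M (nat_lit 463) (B (L (nat_lit 464) ln16_14_3 ln16_14_3_ok) (L (nat_lit 491) ln15_14_1 ln15_14_1_ok))))))) (M (nat_lit 495) (B (M (nat_lit 460) (B (L (nat_lit 459) ln11_14_0 ln11_14_0_ok) (M (nat_lit 496) (B (L (nat_lit 493) ln16_15_3 ln16_15_3_ok) (L (nat_lit 497) ln17_15_3 ln17_15_3_ok))))) (M (nat_lit 430) (B (L (nat_lit 527) ln14_12_4 ln14_12_4_ok) (M (nat_lit 399) (B (L (nat_lit 367) ln14_15_6 ln14_15_6_ok) (L (nat_lit 400) ln16_12_1 ln16_12_1_ok))))))))))))))) (B (M (nat_lit 493) (B (M (nat_lit 365) (B (M (nat_lit 492) (B (L (nat_lit 460) ln13_11_5 ln13_11_5_ok) (L (nat_lit 524) ln13_12_5 ln13_12_5_ok)))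 (M (nat_lit 494) (B (L (nat_lit 462) ln13_11_4 ln13_11_4_ok) (L (nat_lit 526) ln13_12_4 ln13_12_4_ok))))) (B (M (nat_lit 525) (B (M (nat_lit 524) (B (L (nat_lit 492) ln13_12_5 ln13_12_5_ok) (L (nat_lit 556) ln13_13_5 ln13_13_5_ok))) (M (nat_lit 526) (B (L (nat_lit 494) ln13_12_4 ln13_12_4_ok) (L (nat_lit 558) ln13_13_4 ln13_13_4_ok))))) (B (M (nat_lit 365) (B (M (nat_lit 494) (B (L (nat_lit 462) ln13_11_4 ln13_11_4_ok) (L (nat_lit 526) ln13_12_4 ln13_12_4_ok))) (M (nat_lit 333) (B (L (nat_lit 460) ln13_10_5 ln13_10_5_ok) (M (nat_lit 332) (B (L (nat_lit 300) ln13_13_7 ln13_13_7_ok) (L (nat_lit 364) ln13_14_7 ln13_14_7_ok))))))) (M (nat_lit 525) (B (M (nat_lit 524) (B (L (nat_lit 492) ln13_12_5 ln13_12_5_ok) (L (nat_lit 556) ln13_13_5 ln13_13_5_ok))) (B (M (nat_lit 556) (B (L (nat_lit 524) ln13_13_5 ln13_13_5_ok) (M (nat_lit 557) (B (L (nat_lit 460) ln13_17_7 ln13_17_7_ok) (L (nat_lit 588) ln13_14_5 ln13_14_5_ok)))))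 (M (nat_lit 460) (B (L (nat_lit 557) ln13_17_7 ln13_17_7_ok) (M (nat_lit 365) (B (L (nat_lit 333) ln13_10_5 ln13_10_5_ok) (L (nat_lit 492) ln13_11_5 ln13_11_5_ok)))))))))))) (B (M (nat_lit 399) (B (L (nat_lit 400) ln16_12_1 ln16_12_1_ok) (M (nat_lit 494) (B (M (nat_lit 462) (B (L (nat_lit 365) ln13_11_4 ln13_11_4_ok) (M (nat_lit 526) (B (L (nat_lit 493) ln13_12_4 ln13_12_4_ok) (L (nat_lit 558) ln14_17_7 ln14_17_7_ok))))) (B (M (nat_lit 526) (B (L (nat_lit 493) ln13_12_4 ln13_12_4_ok) (M (nat_lit 462) (B (L (nat_lit 430) ln14_16_7 ln14_16_7_ok) (L (nat_lit 558) ln14_17_7 ln14_17_7_ok))))) (B (M (nat_lit 493) (B (L (nat_lit 526) ln13_12_4 ln13_12_4_ok) (M (nat_lit 525) (B (L (nat_lit 430) ln13_16_6 ln13_16_6_ok) (M (nat_lit 524) (B (L (nat_lit 492) ln13_12_5 ln13_12_5_ok) (L (nat_lit 556) ln13_13_5 ln13_13_5_ok))))))) (B (M (nat_lit 462) (B (L (nat_lit 365) ln13_11_4 ln13_11_4_ok) (M (nat_lit 430) (B (L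 (nat_lit 367) ln14_15_6 ln14_15_6_ok) (L (nat_lit 526) ln14_16_7 ln14_16_7_ok))))) (M (nat_lit 462) (B (L (nat_lit 365) ln13_11_4 ln13_11_4_ok) (M (nat_lit 463) (B (L (nat_lit 464) ln16_14_3 ln16_14_3_ok) (M (nat_lit 367) (B (L (nat_lit 430) ln14_15_6 ln14_15_6_ok) (L (nat_lit 431) ln15_11_5 ln15_11_5_ok)))))))))))))) (B (M (nat_lit 365) (B (M (nat_lit 460) (B (L (nat_lit 333) ln13_10_5 ln13_10_5_ok) (L (nat_lit 492) ln13_11_5 ln13_11_5_ok))) (B (M (nat_lit 493) (B (M (nat_lit 492) (B (L (nat_lit 460) ln13_11_5 ln13_11_5_ok) (L (nat_lit 524) ln13_12_5 ln13_12_5_ok))) (M (nat_lit 525) (B (L (nat_lit 430) ln13_16_6 ln13_16_6_ok) (M (nat_lit 526) (B (L (nat_lit 494) ln13_12_4 ln13_12_4_ok) (L (nat_lit 558) ln13_13_4 ln13_13_4_ok))))))) (M (nat_lit 333) (B (M (nat_lit 332) (B (L (nat_lit 300) ln13_13_7 ln13_13_7_ok) (L (nat_lit 364) ln13_14_7 ln13_14_7_ok))) (M (nat_lit 301) (B (L (nat_lit 430) ln13_9_4 ln13_9_4_ok)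 (M (nat_lit 302) (B (L (nat_lit 270) ln13_12_6 ln13_12_6_ok) (L (nat_lit 334) ln13_13_6 ln13_13_6_ok)))))))))) (B (M (nat_lit 493) (B (M (nat_lit 525) (B (L (nat_lit 430) ln13_16_6 ln13_16_6_ok) (M (nat_lit 526) (B (L (nat_lit 494) ln13_12_4 ln13_12_4_ok) (L (nat_lit 558) ln13_13_4 ln13_13_4_ok))))) (B (M (nat_lit 365) (B (M (nat_lit 494) (B (L (nat_lit 462) ln13_11_4 ln13_11_4_ok) (L (nat_lit 526) ln13_12_4 ln13_12_4_ok))) (M (nat_lit 333) (B (L (nat_lit 460) ln13_10_5 ln13_10_5_ok) (M (nat_lit 332) (B (L (nat_lit 300) ln13_13_7 ln13_13_7_ok) (L (nat_lit 364) ln13_14_7 ln13_14_7_ok))))))) (M (nat_lit 525) (B (L (nat_lit 430) ln13_16_6 ln13_16_6_ok) (M (nat_lit 556) (B (L (nat_lit 524) ln13_13_5 ln13_13_5_ok) (M (nat_lit 557) (B (L (nat_lit 460) ln13_17_7 ln13_17_7_ok) (L (nat_lit 588) ln13_14_5 ln13_14_5_ok)))))))))) (B (M (nat_lit 460) (B (M (nat_lit 365) (B (L (nat_lit 333) ln13_10_5 ln13_10_5_ok)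 (L (nat_lit 492) ln13_11_5 ln13_11_5_ok))) (B (M (nat_lit 492) (B (L (nat_lit 365) ln13_11_5 ln13_11_5_ok) (L (nat_lit 524) ln12_16_6 ln12_16_6_ok))) (B (M (nat_lit 430) (B (M (nat_lit 459) (B (L (nat_lit 431) ln15_13_1 ln15_13_1_ok) (L (nat_lit 458) ln10_14_2 ln10_14_2_ok))) (M (nat_lit 462) (B (M (nat_lit 494) (B (L (nat_lit 526) ln14_16_7 ln14_16_7_ok) (M (nat_lit 399) (B (L (nat_lit 367) ln14_15_6 ln14_15_6_ok) (L (nat_lit 400) ln16_12_1 ln16_12_1_ok))))) (M (nat_lit 492) (B (L (nat_lit 524) ln12_16_6 ln12_16_6_ok) (M (nat_lit 463) (B (L (nat_lit 464) ln16_14_3 ln16_14_3_ok) (L (nat_lit 491) ln15_14_1 ln15_14_1_ok))))))))) (M (nat_lit 462) (B (M (nat_lit 365) (B (L (nat_lit 333) ln13_10_5 ln13_10_5_ok) (L (nat_lit 494) ln13_11_4 ln13_11_4_ok))) (M (nat_lit 459) (B (M (nat_lit 430) (B (L (nat_lit 431) ln15_13_1 ln15_13_1_ok) (L (nat_lit 458) ln10_14_2 ln10_14_2_ok))) (B (M (nat_lit 458) (B (L (nat_lit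 457) ln9_14_2 ln9_14_2_ok) (M (nat_lit 490) (B (L (nat_lit 489) ln13_14_1 ln13_14_1_ok) (L (nat_lit 491) ln14_14_1 ln14_14_1_ok))))) (M (nat_lit 431) (B (L (nat_lit 430) ln15_13_1 ln15_13_1_ok) (M (nat_lit 463) (B (L (nat_lit 464) ln16_14_3 ln16_14_3_ok) (L (nat_lit 432) ln12_14_2 ln12_14_2_ok)))))))))))))) (B (M (nat_lit 493) (B (M (nat_lit 525) (B (L (nat_lit 430) ln13_16_6 ln13_16_6_ok) (M (nat_lit 524) (B (L (nat_lit 492) ln13_12_5 ln13_12_5_ok) (L (nat_lit 556) ln13_13_5 ln13_13_5_ok))))) (B (M (nat_lit 525) (B (M (nat_lit 524) (B (L (nat_lit 492) ln13_12_5 ln13_12_5_ok) (L (nat_lit 556) ln13_13_5 ln13_13_5_ok))) (B (M (nat_lit 556) (B (L (nat_lit 524) ln13_13_5 ln13_13_5_ok) (M (nat_lit 557) (B (L (nat_lit 460) ln13_17_7 ln13_17_7_ok) (L (nat_lit 588) ln13_14_5 ln13_14_5_ok))))) (M (nat_lit 460) (B (L (nat_lit 557) ln13_17_7 ln13_17_7_ok) (M (nat_lit 365) (B (L (nat_lit 333) ln13_10_5 ln13_10_5_ok)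 (L (nat_lit 492) ln13_11_5 ln13_11_5_ok)))))))) (B (M (nat_lit 525) (B (L (nat_lit 430) ln13_16_6 ln13_16_6_ok) (M (nat_lit 556) (B (L (nat_lit 524) ln13_13_5 ln13_13_5_ok) (M (nat_lit 557) (B (L (nat_lit 460) ln13_17_7 ln13_17_7_ok) (L (nat_lit 588) ln13_14_5 ln13_14_5_ok))))))) (B (M (nat_lit 460) (B (M (nat_lit 365) (B (L (nat_lit 333) ln13_10_5 ln13_10_5_ok) (L (nat_lit 492) ln13_11_5 ln13_11_5_ok))) (M (nat_lit 525) (B (L (nat_lit 430) ln13_16_6 ln13_16_6_ok) (L (nat_lit 557) ln13_17_7 ln13_17_7_ok))))) (M (nat_lit 365) (B (M (nat_lit 460) (B (L (nat_lit 333) ln13_10_5 ln13_10_5_ok) (L (nat_lit 492) ln13_11_5 ln13_11_5_ok))) (B (M (nat_lit 492) (B (L (nat_lit 460) ln13_11_5 ln13_11_5_ok) (L (nat_lit 524) ln13_12_5 ln13_12_5_ok))) (M (nat_lit 333) (B (M (nat_lit 332) (B (L (nat_lit 300) ln13_13_7 ln13_13_7_ok) (L (nat_lit 364) ln13_14_7 ln13_14_7_ok))) (M (nat_lit 430) (B (L (nat_lit 301) ln13_9_4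 ln13_9_4_ok) (L (nat_lit 462) ln13_10_4 ln13_10_4_ok))))))))))))) (M (nat_lit 493) (B (M (nat_lit 525) (B (L (nat_lit 430) ln13_16_6 ln13_16_6_ok) (M (nat_lit 526) (B (L (nat_lit 494) ln13_12_4 ln13_12_4_ok) (L (nat_lit 558) ln13_13_4 ln13_13_4_ok))))) (B (M (nat_lit 365) (B (M (nat_lit 460) (B (L (nat_lit 333) ln13_10_5 ln13_10_5_ok) (L (nat_lit 492) ln13_11_5 ln13_11_5_ok))) (M (nat_lit 494) (B (L (nat_lit 462) ln13_11_4 ln13_11_4_ok) (L (nat_lit 526) ln13_12_4 ln13_12_4_ok))))) (M (nat_lit 460) (B (M (nat_lit 365) (B (L (nat_lit 333) ln13_10_5 ln13_10_5_ok) (L (nat_lit 492) ln13_11_5 ln13_11_5_ok))) (M (nat_lit 525) (B (L (nat_lit 430) ln13_16_6 ln13_16_6_ok) (L (nat_lit 557) ln13_17_7 ln13_17_7_ok))))))))))))))))))) (nat_lit 5954262831509113918616234248424070930946322597328590324940256591272962611893586607877538210231342232309282598891610395711543928406528753664) (nat_lit 1013065326084944733195018387734577502169309222099327474563554403886903976884480724491591659597651412120466519078759879929977976111082154008354065547242262737125298369705222864896)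 (nat_lit 1013065326084944733195018387734577502169309222099327474563554403886903976884480724491591659597651412120466519078759879929977976111082154008354065547242262737125298369705222864896) (by decide +kernel)
theorem c40_s3143 : Sem (nat_lit 5954262831509113918939015483184934504653312493828966809231469815376615550997419027445119162983447381637988268051627624641031824903122190336) (nat_lit 274591906782431509518883382019052344822720256251300373394704562036024430889696309182039590605691130943974679288085664058785295295951373333391761115164197257216) (nat_lit 274591906782431509518883382019052344822720256251300373394704562036024430889696309182039590605691130943974679288085664058785295295951373333391761115164197257216) :=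
  sem_of_chk (M (nat_lit 463) (B (M (nat_lit 366) (B (M (nat_lit 334) (B (L (nat_lit 302) ln14_9_5 ln14_9_5_ok) (L (nat_lit 430) ln14_10_5 ln14_10_5_ok))) (B (M (nat_lit 430) (B (L (nat_lit 334) ln14_10_5 ln14_10_5_ok) (M (nat_lit 464) (B (L (nat_lit 431) ln12_13_0 ln12_13_0_ok) (L (nat_lit 462) ln16_14_3 ln16_14_3_ok))))) (B (M (nat_lit 431) (B (M (nat_lit 399) (B (L (nat_lit 495) ln15_15_7 ln15_15_7_ok) (L (nat_lit 400) ln16_12_1 ln16_12_1_ok))) (M (nat_lit 464) (B (L (nat_lit 430) ln12_13_0 ln12_13_0_ok) (L (nat_lit 462) ln16_14_3 ln16_14_3_ok))))) (M (nat_lit 334) (B (L (nat_lit 302) ln14_9_5 ln14_9_5_ok) (M (nat_lit 399) (B (L (nat_lit 400) ln16_12_1 ln16_12_1_ok) (M (nat_lit 431) (B (L (nat_lit 367) ln15_14_7 ln15_14_7_ok) (L (nat_lit 495) ln15_15_7 ln15_15_7_ok))))))))))) (B (M (nat_lit 462) (B (L (nat_lit 464) ln16_14_3 ln16_14_3_ok) (M (nat_lit 460) (B (M (nat_lit 492) (B (L (nat_lit 524) ln12_16_6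 ln12_16_6_ok) (L (nat_lit 491) ln15_14_1 ln15_14_1_ok))) (M (nat_lit 459) (B (M (nat_lit 431) (B (L (nat_lit 430) ln15_13_1 ln15_13_1_ok) (L (nat_lit 432) ln12_14_2 ln12_14_2_ok))) (M (nat_lit 495) (B (L (nat_lit 494) ln11_14_0 ln11_14_0_ok) (L (nat_lit 496) ln12_14_0 ln12_14_0_ok))))))))) (B (M (nat_lit 431) (B (M (nat_lit 462) (B (L (nat_lit 464) ln16_14_3 ln16_14_3_ok) (M (nat_lit 460) (B (L (nat_lit 432) ln12_14_2 ln12_14_2_ok) (M (nat_lit 492) (B (L (nat_lit 524) ln12_16_6 ln12_16_6_ok) (L (nat_lit 491) ln15_14_1 ln15_14_1_ok))))))) (M (nat_lit 399) (B (L (nat_lit 400) ln16_12_1 ln16_12_1_ok) (M (nat_lit 366) (B (L (nat_lit 495) ln15_15_7 ln15_15_7_ok) (M (nat_lit 334) (B (L (nat_lit 302) ln14_9_5 ln14_9_5_ok) (L (nat_lit 367) ln15_14_7 ln15_14_7_ok))))))))) (B (M (nat_lit 462) (B (L (nat_lit 464) ln16_14_3 ln16_14_3_ok) (M (nat_lit 494) (B (M (nat_lit 399) (B (L (nat_lit 400) ln16_12_1 ln16_12_1_ok)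 (M (nat_lit 430) (B (L (nat_lit 367) ln14_15_6 ln14_15_6_ok) (L (nat_lit 526) ln14_16_7 ln14_16_7_ok))))) (B (M (nat_lit 430) (B (L (nat_lit 526) ln14_16_7 ln14_16_7_ok) (M (nat_lit 366) (B (L (nat_lit 334) ln14_10_5 ln14_10_5_ok) (L (nat_lit 495) ln14_11_4 ln14_11_4_ok))))) (M (nat_lit 460) (B (M (nat_lit 492) (B (L (nat_lit 524) ln12_16_6 ln12_16_6_ok) (L (nat_lit 491) ln15_14_1 ln15_14_1_ok))) (M (nat_lit 495) (B (L (nat_lit 459) ln11_14_0 ln11_14_0_ok) (L (nat_lit 496) ln12_14_0 ln12_14_0_ok)))))))))) (B (M (nat_lit 366) (B (M (nat_lit 334) (B (L (nat_lit 302) ln14_9_5 ln14_9_5_ok) (L (nat_lit 430) ln14_10_5 ln14_10_5_ok))) (B (M (nat_lit 431) (B (M (nat_lit 399) (B (L (nat_lit 495) ln15_15_7 ln15_15_7_ok) (L (nat_lit 400) ln16_12_1 ln16_12_1_ok))) (M (nat_lit 430) (B (L (nat_lit 334) ln14_10_5 ln14_10_5_ok) (L (nat_lit 464) ln12_13_0 ln12_13_0_ok))))) (B (M (nat_lit 431) (B (M (nat_lit 399) (B (L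 (nat_lit 495) ln15_15_7 ln15_15_7_ok) (L (nat_lit 400) ln16_12_1 ln16_12_1_ok))) (M (nat_lit 430) (B (L (nat_lit 464) ln12_13_0 ln12_13_0_ok) (M (nat_lit 460) (B (L (nat_lit 459) ln15_13_1 ln15_13_1_ok) (L (nat_lit 432) ln16_13_1 ln16_13_1_ok))))))) (M (nat_lit 334) (B (L (nat_lit 302) ln14_9_5 ln14_9_5_ok) (M (nat_lit 399) (B (L (nat_lit 400) ln16_12_1 ln16_12_1_ok) (M (nat_lit 431) (B (L (nat_lit 367) ln15_14_7 ln15_14_7_ok) (L (nat_lit 495) ln15_15_7 ln15_15_7_ok))))))))))) (B (M (nat_lit 430) (B (M (nat_lit 366) (B (L (nat_lit 334) ln14_10_5 ln14_10_5_ok) (M (nat_lit 399) (B (L (nat_lit 400) ln16_12_1 ln16_12_1_ok) (M (nat_lit 495) (B (L (nat_lit 431) ln15_15_7 ln15_15_7_ok) (L (nat_lit 462) ln14_11_4 ln14_11_4_ok))))))) (B (M (nat_lit 462) (B (M (nat_lit 494) (B (L (nat_lit 526) ln14_16_7 ln14_16_7_ok) (M (nat_lit 399) (B (L (nat_lit 367) ln14_15_6 ln14_15_6_ok) (L (nat_lit 400) ln16_12_1 ln16_12_1_ok)))))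 (M (nat_lit 460) (B (M (nat_lit 431) (B (L (nat_lit 459) ln15_13_1 ln15_13_1_ok) (L (nat_lit 432) ln16_13_1 ln16_13_1_ok))) (M (nat_lit 492) (B (L (nat_lit 524) ln12_16_6 ln12_16_6_ok) (L (nat_lit 491) ln15_14_1 ln15_14_1_ok))))))) (B (M (nat_lit 460) (B (M (nat_lit 431) (B (L (nat_lit 459) ln15_13_1 ln15_13_1_ok) (L (nat_lit 432) ln16_13_1 ln16_13_1_ok))) (M (nat_lit 462) (B (M (nat_lit 366) (B (L (nat_lit 334) ln14_10_5 ln14_10_5_ok) (L (nat_lit 495) ln14_11_4 ln14_11_4_ok))) (M (nat_lit 492) (B (L (nat_lit 524) ln12_16_6 ln12_16_6_ok) (L (nat_lit 491) ln15_14_1 ln15_14_1_ok))))))) (B (M (nat_lit 462) (B (M (nat_lit 366) (B (L (nat_lit 334) ln14_10_5 ln14_10_5_ok) (L (nat_lit 495) ln14_11_4 ln14_11_4_ok))) (M (nat_lit 494) (B (L (nat_lit 526) ln14_16_7 ln14_16_7_ok) (M (nat_lit 399) (B (L (nat_lit 367) ln14_15_6 ln14_15_6_ok) (L (nat_lit 400) ln16_12_1 ln16_12_1_ok))))))) (M (nat_lit 366) (B (L (nat_lit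 334) ln14_10_5 ln14_10_5_ok) (M (nat_lit 431) (B (M (nat_lit 399) (B (L (nat_lit 495) ln15_15_7 ln15_15_7_ok) (L (nat_lit 400) ln16_12_1 ln16_12_1_ok))) (M (nat_lit 460) (B (L (nat_lit 459) ln15_13_1 ln15_13_1_ok) (L (nat_lit 432) ln16_13_1 ln16_13_1_ok)))))))))))) (M (nat_lit 462) (B (L (nat_lit 464) ln16_14_3 ln16_14_3_ok) (M (nat_lit 430) (B (M (nat_lit 494) (B (L (nat_lit 526) ln14_16_7 ln14_16_7_ok) (M (nat_lit 399) (B (L (nat_lit 367) ln14_15_6 ln14_15_6_ok) (L (nat_lit 400) ln16_12_1 ln16_12_1_ok))))) (M (nat_lit 460) (B (M (nat_lit 431) (B (L (nat_lit 459) ln15_13_1 ln15_13_1_ok) (L (nat_lit 432) ln16_13_1 ln16_13_1_ok))) (M (nat_lit 492) (B (L (nat_lit 524) ln12_16_6 ln12_16_6_ok) (L (nat_lit 491) ln15_14_1 ln15_14_1_ok)))))))))))))))) (nat_lit 5954262831509113918939015483184934504653312493828966809231469815376615550997419027445119162983447381637988268051627624641031824903122190336) (nat_lit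 274591906782431509518883382019052344822720256251300373394704562036024430889696309182039590605691130943974679288085664058785295295951373333391761115164197257216) (nat_lit 274591906782431509518883382019052344822720256251300373394704562036024430889696309182039590605691130943974679288085664058785295295951373333391761115164197257216) (by decide +kernel)
theorem c40_s3182 : Sem (nat_lit 5954262831509113918616234248424070930946322597328590324940256591272962611893586607877538210231342232309282598891610395711543928406528753664) (nat_lit 274591906787226515293285170366972530351889102300747971235304817752632995019440627077366086338849079351651020838358311936052244854113592334552076583005180657664) (nat_lit 274591906787226515293285170366972530351889102300747971235304817752632995019440627077366086338849079351651020838358311936052244854113592334552076583005180657664) :=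
  sem_of_chk (M (nat_lit 397) (B (M (nat_lit 399) (B (L (nat_lit 400) ln16_12_1 ln16_12_1_ok) (M (nat_lit 365) (B (M (nat_lit 460) (B (L (nat_lit 333) ln13_10_5 ln13_10_5_ok) (L (nat_lit 492) ln13_11_5 ln13_11_5_ok))) (M (nat_lit 364) (B (L (nat_lit 332) ln13_14_7 ln13_14_7_ok) (M (nat_lit 363) (B (L (nat_lit 362) ln10_11_0 ln10_11_0_ok) (L (nat_lit 366) ln11_11_0 ln11_11_0_ok))))))))) (B (M (nat_lit 462) (B (M (nat_lit 365) (B (L (nat_lit 494) ln13_11_4 ln13_11_4_ok) (M (nat_lit 460) (B (L (nat_lit 333) ln13_10_5 ln13_10_5_ok) (L (nat_lit 492) ln13_11_5 ln13_11_5_ok))))) (B (M (nat_lit 494) (B (L (nat_lit 365) ln13_11_4 ln13_11_4_ok) (M (nat_lit 430) (B (L (nat_lit 526) ln14_16_7 ln14_16_7_ok) (M (nat_lit 399) (B (L (nat_lit 367) ln14_15_6 ln14_15_6_ok) (L (nat_lit 400) ln16_12_1 ln16_12_1_ok))))))) (B (M (nat_lit 430) (B (M (nat_lit 366) (B (L (nat_lit 334) ln14_10_5 ln14_10_5_ok) (M (nat_lit 463) (B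 (L (nat_lit 495) ln14_11_4 ln14_11_4_ok) (L (nat_lit 464) ln16_14_3 ln16_14_3_ok))))) (M (nat_lit 494) (B (L (nat_lit 526) ln14_16_7 ln14_16_7_ok) (M (nat_lit 399) (B (L (nat_lit 367) ln14_15_6 ln14_15_6_ok) (L (nat_lit 400) ln16_12_1 ln16_12_1_ok))))))) (M (nat_lit 430) (B (M (nat_lit 366) (B (L (nat_lit 334) ln14_10_5 ln14_10_5_ok) (M (nat_lit 463) (B (L (nat_lit 495) ln14_11_4 ln14_11_4_ok) (L (nat_lit 464) ln16_14_3 ln16_14_3_ok))))) (M (nat_lit 460) (B (M (nat_lit 365) (B (L (nat_lit 333) ln13_10_5 ln13_10_5_ok) (L (nat_lit 492) ln13_11_5 ln13_11_5_ok))) (M (nat_lit 459) (B (L (nat_lit 431) ln15_13_1 ln15_13_1_ok) (L (nat_lit 458) ln10_14_2 ln10_14_2_ok))))))))))) (B (M (nat_lit 430) (B (M (nat_lit 460) (B (M (nat_lit 492) (B (L (nat_lit 365) ln13_11_5 ln13_11_5_ok) (L (nat_lit 524) ln12_16_6 ln12_16_6_ok))) (M (nat_lit 431) (B (L (nat_lit 459) ln15_13_1 ln15_13_1_ok) (L (nat_lit 432) ln16_13_1 ln16_13_1_ok)))))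 (M (nat_lit 462) (B (M (nat_lit 366) (B (L (nat_lit 334) ln14_10_5 ln14_10_5_ok) (M (nat_lit 463) (B (L (nat_lit 495) ln14_11_4 ln14_11_4_ok) (L (nat_lit 464) ln16_14_3 ln16_14_3_ok))))) (M (nat_lit 494) (B (L (nat_lit 526) ln14_16_7 ln14_16_7_ok) (M (nat_lit 399) (B (L (nat_lit 367) ln14_15_6 ln14_15_6_ok) (L (nat_lit 400) ln16_12_1 ln16_12_1_ok))))))))) (B (K (nat_lit 5954262831509113918939015483184934504653312493828966809231469815376615550997419027445119162983447381637988268051627624641031824903122190336) (nat_lit 274591906782431509518883382019052344822720256251300373394704562036024430889696309182039590605691130943974679288085664058785295295951373333391761115164197257216) (nat_lit 274591906782431509518883382019052344822720256251300373394704562036024430889696309182039590605691130943974679288085664058785295295951373333391761115164197257216) c40_s3143) (B (M (nat_lit 460) (B (M (nat_lit 365) (B (L (nat_lit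 333) ln13_10_5 ln13_10_5_ok) (L (nat_lit 492) ln13_11_5 ln13_11_5_ok))) (B (M (nat_lit 492) (B (L (nat_lit 365) ln13_11_5 ln13_11_5_ok) (L (nat_lit 524) ln12_16_6 ln12_16_6_ok))) (B (M (nat_lit 430) (B (M (nat_lit 459) (B (L (nat_lit 431) ln15_13_1 ln15_13_1_ok) (L (nat_lit 458) ln10_14_2 ln10_14_2_ok))) (M (nat_lit 462) (B (M (nat_lit 494) (B (L (nat_lit 526) ln14_16_7 ln14_16_7_ok) (M (nat_lit 399) (B (L (nat_lit 367) ln14_15_6 ln14_15_6_ok) (L (nat_lit 400) ln16_12_1 ln16_12_1_ok))))) (M (nat_lit 492) (B (L (nat_lit 524) ln12_16_6 ln12_16_6_ok) (M (nat_lit 463) (B (L (nat_lit 464) ln16_14_3 ln16_14_3_ok) (L (nat_lit 491) ln15_14_1 ln15_14_1_ok))))))))) (M (nat_lit 462) (B (M (nat_lit 365) (B (L (nat_lit 333) ln13_10_5 ln13_10_5_ok) (L (nat_lit 494) ln13_11_4 ln13_11_4_ok))) (M (nat_lit 459) (B (M (nat_lit 430) (B (L (nat_lit 431) ln15_13_1 ln15_13_1_ok) (L (nat_lit 458) ln10_14_2 ln10_14_2_ok))) (B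 (M (nat_lit 458) (B (L (nat_lit 457) ln9_14_2 ln9_14_2_ok) (M (nat_lit 490) (B (L (nat_lit 489) ln13_14_1 ln13_14_1_ok) (L (nat_lit 491) ln14_14_1 ln14_14_1_ok))))) (M (nat_lit 431) (B (L (nat_lit 430) ln15_13_1 ln15_13_1_ok) (M (nat_lit 463) (B (L (nat_lit 464) ln16_14_3 ln16_14_3_ok) (L (nat_lit 432) ln12_14_2 ln12_14_2_ok)))))))))))))) (B (M (nat_lit 460) (B (M (nat_lit 365) (B (L (nat_lit 333) ln13_10_5 ln13_10_5_ok) (L (nat_lit 492) ln13_11_5 ln13_11_5_ok))) (B (M (nat_lit 492) (B (L (nat_lit 365) ln13_11_5 ln13_11_5_ok) (L (nat_lit 524) ln12_16_6 ln12_16_6_ok))) (B (M (nat_lit 430) (B (M (nat_lit 431) (B (L (nat_lit 459) ln15_13_1 ln15_13_1_ok) (L (nat_lit 432) ln16_13_1 ln16_13_1_ok))) (B (M (nat_lit 462) (B (M (nat_lit 492) (B (L (nat_lit 524) ln12_16_6 ln12_16_6_ok) (M (nat_lit 463) (B (L (nat_lit 464) ln16_14_3 ln16_14_3_ok) (L (nat_lit 491) ln15_14_1 ln15_14_1_ok))))) (M (nat_lit 459) (B (L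 (nat_lit 458) ln10_14_2 ln10_14_2_ok) (M (nat_lit 494) (B (L (nat_lit 526) ln14_16_7 ln14_16_7_ok) (L (nat_lit 495) ln11_14_0 ln11_14_0_ok))))))) (M (nat_lit 463) (B (M (nat_lit 431) (B (L (nat_lit 464) ln12_13_0 ln12_13_0_ok) (L (nat_lit 432) ln16_13_1 ln16_13_1_ok))) (B (M (nat_lit 462) (B (L (nat_lit 464) ln16_14_3 ln16_14_3_ok) (M (nat_lit 366) (B (L (nat_lit 334) ln14_10_5 ln14_10_5_ok) (L (nat_lit 495) ln14_11_4 ln14_11_4_ok))))) (M (nat_lit 462) (B (M (nat_lit 366) (B (L (nat_lit 334) ln14_10_5 ln14_10_5_ok) (L (nat_lit 495) ln14_11_4 ln14_11_4_ok))) (M (nat_lit 492) (B (L (nat_lit 524) ln12_16_6 ln12_16_6_ok) (L (nat_lit 491) ln15_14_1 ln15_14_1_ok))))))))))) (M (nat_lit 430) (B (M (nat_lit 459) (B (L (nat_lit 431) ln15_13_1 ln15_13_1_ok) (L (nat_lit 458) ln10_14_2 ln10_14_2_ok))) (M (nat_lit 462) (B (M (nat_lit 365) (B (L (nat_lit 333) ln13_10_5 ln13_10_5_ok) (L (nat_lit 494) ln14_15_7 ln14_15_7_ok)))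 (M (nat_lit 366) (B (L (nat_lit 334) ln14_10_5 ln14_10_5_ok) (M (nat_lit 463) (B (L (nat_lit 495) ln14_11_4 ln14_11_4_ok) (L (nat_lit 464) ln16_14_3 ln16_14_3_ok))))))))))))) (M (nat_lit 399) (B (L (nat_lit 400) ln16_12_1 ln16_12_1_ok) (M (nat_lit 365) (B (M (nat_lit 364) (B (L (nat_lit 332) ln13_14_7 ln13_14_7_ok) (M (nat_lit 363) (B (L (nat_lit 362) ln10_11_0 ln10_11_0_ok) (L (nat_lit 366) ln11_11_0 ln11_11_0_ok))))) (B (M (nat_lit 333) (B (M (nat_lit 334) (B (L (nat_lit 302) ln13_13_6 ln13_13_6_ok) (L (nat_lit 366) ln13_14_6 ln13_14_6_ok))) (M (nat_lit 462) (B (L (nat_lit 430) ln13_10_4 ln13_10_4_ok) (L (nat_lit 494) ln13_11_4 ln13_11_4_ok))))) (M (nat_lit 333) (B (M (nat_lit 332) (B (L (nat_lit 300) ln13_13_7 ln13_13_7_ok) (L (nat_lit 364) ln13_14_7 ln13_14_7_ok))) (M (nat_lit 462) (B (L (nat_lit 430) ln13_10_4 ln13_10_4_ok) (L (nat_lit 494) ln13_11_4 ln13_11_4_ok))))))))))))))))) (nat_lit 5954262831509113918616234248424070930946322597328590324940256591272962611893586607877538210231342232309282598891610395711543928406528753664)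 (nat_lit 274591906787226515293285170366972530351889102300747971235304817752632995019440627077366086338849079351651020838358311936052244854113592334552076583005180657664) (nat_lit 274591906787226515293285170366972530351889102300747971235304817752632995019440627077366086338849079351651020838358311936052244854113592334552076583005180657664) (by decide +kernel)
theorem c40_s3183 : Sem (nat_lit 5954262831509113917970671778902343783532342804327837356357830143065656733685921768742376304727131933651871260571575937852568135413341880320) (nat_lit 5065326623820289419242291692120477063800169451044456046079454547286302676919715946100390104624870772264985825271793615334511465495692724471468019270991752118983255587624398618624) (nat_lit 5065326623820289419242291692120477063800169451044456046079454547286302676919715946100390104624870772264985825271793615334511465495692724471468019270991752118983255587624398618624) :=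
  sem_of_chk (M (nat_lit 398) (B (M (nat_lit 366) (B (M (nat_lit 493) (B (L (nat_lit 397) ln13_15_6 ln13_15_6_ok) (M (nat_lit 430) (B (L (nat_lit 462) ln14_11_5 ln14_11_5_ok) (L (nat_lit 525) ln13_16_6 ln13_16_6_ok))))) (B (M (nat_lit 430) (B (L (nat_lit 334) ln14_10_5 ln14_10_5_ok) (M (nat_lit 493) (B (L (nat_lit 462) ln14_11_5 ln14_11_5_ok) (L (nat_lit 525) ln13_16_6 ln13_16_6_ok))))) (B (M (nat_lit 397) (B (L (nat_lit 493) ln13_15_6 ln13_15_6_ok) (M (nat_lit 334) (B (L (nat_lit 302) ln14_9_5 ln14_9_5_ok) (L (nat_lit 365) ln13_14_6 ln13_14_6_ok))))) (M (nat_lit 334) (B (L (nat_lit 430) ln14_10_5 ln14_10_5_ok) (M (nat_lit 397) (B (L (nat_lit 302) ln14_9_5 ln14_9_5_ok) (L (nat_lit 365) ln13_14_6 ln13_14_6_ok))))))))) (B (M (nat_lit 493) (B (M (nat_lit 366) (B (L (nat_lit 397) ln13_15_6 ln13_15_6_ok) (M (nat_lit 430) (B (L (nat_lit 334) ln14_10_5 ln14_10_5_ok) (L (nat_lit 462) ln14_11_5 ln14_11_5_ok)))))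 (B (M (nat_lit 430) (B (L (nat_lit 525) ln13_16_6 ln13_16_6_ok) (M (nat_lit 366) (B (L (nat_lit 397) ln13_15_6 ln13_15_6_ok) (L (nat_lit 462) ln14_11_5 ln14_11_5_ok))))) (B (M (nat_lit 525) (B (L (nat_lit 430) ln13_16_6 ln13_16_6_ok) (M (nat_lit 557) (B (L (nat_lit 460) ln13_17_7 ln13_17_7_ok) (M (nat_lit 556) (B (L (nat_lit 524) ln13_13_5 ln13_13_5_ok) (L (nat_lit 588) ln13_14_5 ln13_14_5_ok))))))) (M (nat_lit 525) (B (M (nat_lit 557) (B (L (nat_lit 460) ln13_17_7 ln13_17_7_ok) (M (nat_lit 556) (B (L (nat_lit 524) ln13_13_5 ln13_13_5_ok) (L (nat_lit 588) ln13_14_5 ln13_14_5_ok))))) (B (M (nat_lit 397) (B (L (nat_lit 366) ln13_15_6 ln13_15_6_ok) (M (nat_lit 524) (B (L (nat_lit 492) ln13_12_5 ln13_12_5_ok) (L (nat_lit 556) ln13_13_5 ln13_13_5_ok))))) (M (nat_lit 557) (B (L (nat_lit 460) ln13_17_7 ln13_17_7_ok) (M (nat_lit 558) (B (L (nat_lit 526) ln13_13_4 ln13_13_4_ok) (L (nat_lit 590) ln13_14_4 ln13_14_4_ok))))))))))))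 (B (M (nat_lit 493) (B (M (nat_lit 430) (B (L (nat_lit 525) ln13_16_6 ln13_16_6_ok) (M (nat_lit 366) (B (L (nat_lit 397) ln13_15_6 ln13_15_6_ok) (L (nat_lit 462) ln14_11_5 ln14_11_5_ok))))) (B (M (nat_lit 525) (B (L (nat_lit 430) ln13_16_6 ln13_16_6_ok) (M (nat_lit 557) (B (L (nat_lit 460) ln13_17_7 ln13_17_7_ok) (M (nat_lit 558) (B (L (nat_lit 526) ln13_13_4 ln13_13_4_ok) (L (nat_lit 590) ln13_14_4 ln13_14_4_ok))))))) (B (M (nat_lit 525) (B (M (nat_lit 557) (B (L (nat_lit 460) ln13_17_7 ln13_17_7_ok) (M (nat_lit 558) (B (L (nat_lit 526) ln13_13_4 ln13_13_4_ok) (L (nat_lit 590) ln13_14_4 ln13_14_4_ok))))) (M (nat_lit 397) (B (L (nat_lit 366) ln13_15_6 ln13_15_6_ok) (M (nat_lit 524) (B (L (nat_lit 492) ln13_12_5 ln13_12_5_ok) (L (nat_lit 556) ln13_13_5 ln13_13_5_ok))))))) (M (nat_lit 397) (B (L (nat_lit 366) ln13_15_6 ln13_15_6_ok) (M (nat_lit 365) (B (M (nat_lit 460) (B (L (nat_lit 333) ln13_10_5 ln13_10_5_ok)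 (L (nat_lit 492) ln13_11_5 ln13_11_5_ok))) (M (nat_lit 494) (B (L (nat_lit 462) ln13_11_4 ln13_11_4_ok) (L (nat_lit 526) ln13_12_4 ln13_12_4_ok))))))))))) (B (K (nat_lit 5954262831509113918616234248424070930946322597328590324940256591272962611893586607877538210231342232309282598891610395711543928406528753664) (nat_lit 1013065326084944733195018387734577502169309222099327474563554403886903976884480724491591659597651412120466519078759879929977976111082154008354065547242262737125298369705222864896) (nat_lit 1013065326084944733195018387734577502169309222099327474563554403886903976884480724491591659597651412120466519078759879929977976111082154008354065547242262737125298369705222864896) c40_s2875) (B (M (nat_lit 430) (B (M (nat_lit 493) (B (L (nat_lit 525) ln13_16_6 ln13_16_6_ok) (M (nat_lit 366) (B (L (nat_lit 334) ln14_10_5 ln14_10_5_ok) (L (nat_lit 462) ln14_11_5 ln14_11_5_ok))))) (B (M (nat_lit 460) (B (M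 (nat_lit 431) (B (L (nat_lit 459) ln15_13_1 ln15_13_1_ok) (L (nat_lit 432) ln16_13_1 ln16_13_1_ok))) (B (M (nat_lit 462) (B (M (nat_lit 493) (B (L (nat_lit 366) ln14_11_5 ln14_11_5_ok) (L (nat_lit 525) ln13_16_6 ln13_16_6_ok))) (M (nat_lit 495) (B (M (nat_lit 494) (B (L (nat_lit 527) ln14_12_4 ln14_12_4_ok) (L (nat_lit 459) ln11_14_0 ln11_14_0_ok))) (M (nat_lit 463) (B (L (nat_lit 464) ln16_14_3 ln16_14_3_ok) (L (nat_lit 496) ln12_14_0 ln12_14_0_ok))))))) (M (nat_lit 463) (B (M (nat_lit 431) (B (L (nat_lit 464) ln12_13_0 ln12_13_0_ok) (L (nat_lit 432) ln16_13_1 ln16_13_1_ok))) (B (M (nat_lit 462) (B (L (nat_lit 464) ln16_14_3 ln16_14_3_ok) (M (nat_lit 366) (B (L (nat_lit 493) ln14_11_5 ln14_11_5_ok) (L (nat_lit 495) ln14_11_4 ln14_11_4_ok))))) (M (nat_lit 495) (B (M (nat_lit 431) (B (L (nat_lit 527) ln15_16_7 ln15_16_7_ok) (L (nat_lit 432) ln16_13_1 ln16_13_1_ok))) (M (nat_lit 462) (B (L (nat_lit 366)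 ln14_11_4 ln14_11_4_ok) (L (nat_lit 496) ln12_14_0 ln12_14_0_ok))))))))))) (B (M (nat_lit 493) (B (L (nat_lit 525) ln13_16_6 ln13_16_6_ok) (M (nat_lit 431) (B (M (nat_lit 460) (B (L (nat_lit 459) ln15_13_1 ln15_13_1_ok) (L (nat_lit 432) ln16_13_1 ln16_13_1_ok))) (B (M (nat_lit 494) (B (M (nat_lit 399) (B (L (nat_lit 400) ln12_13_2 ln12_13_2_ok) (M (nat_lit 462) (B (L (nat_lit 367) ln14_15_6 ln14_15_6_ok) (L (nat_lit 526) ln14_16_6 ln14_16_6_ok))))) (M (nat_lit 495) (B (M (nat_lit 463) (B (L (nat_lit 527) ln15_16_7 ln15_16_7_ok) (L (nat_lit 464) ln12_13_0 ln12_13_0_ok))) (M (nat_lit 460) (B (L (nat_lit 459) ln15_13_1 ln15_13_1_ok) (L (nat_lit 496) ln16_15_3 ln16_15_3_ok))))))) (B (M (nat_lit 464) (B (L (nat_lit 463) ln12_13_0 ln12_13_0_ok) (M (nat_lit 432) (B (L (nat_lit 460) ln16_13_1 ln16_13_1_ok) (L (nat_lit 465) ln13_13_0 ln13_13_0_ok))))) (M (nat_lit 432) (B (M (nat_lit 400) (B (L (nat_lit 399) ln12_13_2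 ln12_13_2_ok) (L (nat_lit 401) ln13_13_2 ln13_13_2_ok))) (M (nat_lit 464) (B (L (nat_lit 463) ln12_13_0 ln12_13_0_ok) (L (nat_lit 465) ln13_13_0 ln13_13_0_ok))))))))))) (M (nat_lit 366) (B (L (nat_lit 334) ln14_10_5 ln14_10_5_ok) (M (nat_lit 431) (B (M (nat_lit 460) (B (L (nat_lit 459) ln15_13_1 ln15_13_1_ok) (L (nat_lit 432) ln16_13_1 ln16_13_1_ok))) (M (nat_lit 463) (B (L (nat_lit 464) ln12_13_0 ln12_13_0_ok) (M (nat_lit 399) (B (L (nat_lit 495) ln15_15_7 ln15_15_7_ok) (L (nat_lit 400) ln12_13_2 ln12_13_2_ok))))))))))))) (B (M (nat_lit 397) (B (M (nat_lit 366) (B (L (nat_lit 493) ln13_15_6 ln13_15_6_ok) (M (nat_lit 334) (B (L (nat_lit 302) ln14_9_5 ln14_9_5_ok) (L (nat_lit 365) ln13_14_6 ln13_14_6_ok))))) (B (M (nat_lit 365) (B (M (nat_lit 366) (B (L (nat_lit 334) ln13_14_6 ln13_14_6_ok) (L (nat_lit 493) ln13_15_6 ln13_15_6_ok))) (M (nat_lit 460) (B (L (nat_lit 333) ln13_10_5 ln13_10_5_ok) (L (nat_lit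 492) ln13_11_5 ln13_11_5_ok))))) (B (M (nat_lit 493) (B (L (nat_lit 366) ln13_15_6 ln13_15_6_ok) (M (nat_lit 365) (B (M (nat_lit 460) (B (L (nat_lit 333) ln13_10_5 ln13_10_5_ok) (L (nat_lit 492) ln13_11_5 ln13_11_5_ok))) (M (nat_lit 494) (B (L (nat_lit 462) ln13_11_4 ln13_11_4_ok) (L (nat_lit 526) ln13_12_4 ln13_12_4_ok))))))) (B (M (nat_lit 493) (B (L (nat_lit 366) ln13_15_6 ln13_15_6_ok) (M (nat_lit 525) (B (M (nat_lit 524) (B (L (nat_lit 492) ln13_12_5 ln13_12_5_ok) (L (nat_lit 556) ln13_13_5 ln13_13_5_ok))) (M (nat_lit 526) (B (L (nat_lit 494) ln13_12_4 ln13_12_4_ok) (L (nat_lit 558) ln13_13_4 ln13_13_4_ok))))))) (B (M (nat_lit 493) (B (M (nat_lit 365) (B (M (nat_lit 492) (B (L (nat_lit 460) ln13_11_5 ln13_11_5_ok) (L (nat_lit 524) ln13_12_5 ln13_12_5_ok))) (M (nat_lit 494) (B (L (nat_lit 462) ln13_11_4 ln13_11_4_ok) (L (nat_lit 526) ln13_12_4 ln13_12_4_ok))))) (B (M (nat_lit 525) (B (M (nat_lit 524)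 (B (L (nat_lit 492) ln13_12_5 ln13_12_5_ok) (L (nat_lit 556) ln13_13_5 ln13_13_5_ok))) (M (nat_lit 526) (B (L (nat_lit 494) ln13_12_4 ln13_12_4_ok) (L (nat_lit 558) ln13_13_4 ln13_13_4_ok))))) (B (M (nat_lit 365) (B (M (nat_lit 494) (B (L (nat_lit 462) ln13_11_4 ln13_11_4_ok) (L (nat_lit 526) ln13_12_4 ln13_12_4_ok))) (M (nat_lit 333) (B (L (nat_lit 460) ln13_10_5 ln13_10_5_ok) (M (nat_lit 332) (B (L (nat_lit 300) ln13_13_7 ln13_13_7_ok) (L (nat_lit 364) ln13_14_7 ln13_14_7_ok))))))) (M (nat_lit 525) (B (M (nat_lit 524) (B (L (nat_lit 492) ln13_12_5 ln13_12_5_ok) (L (nat_lit 556) ln13_13_5 ln13_13_5_ok))) (B (M (nat_lit 556) (B (L (nat_lit 524) ln13_13_5 ln13_13_5_ok) (M (nat_lit 557) (B (L (nat_lit 460) ln13_17_7 ln13_17_7_ok) (L (nat_lit 588) ln13_14_5 ln13_14_5_ok))))) (M (nat_lit 460) (B (L (nat_lit 557) ln13_17_7 ln13_17_7_ok) (M (nat_lit 365) (B (L (nat_lit 333) ln13_10_5 ln13_10_5_ok) (L (nat_lit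 492) ln13_11_5 ln13_11_5_ok)))))))))))) (M (nat_lit 399) (B (L (nat_lit 400) ln16_12_1 ln16_12_1_ok) (M (nat_lit 365) (B (M (nat_lit 460) (B (L (nat_lit 333) ln13_10_5 ln13_10_5_ok) (L (nat_lit 492) ln13_11_5 ln13_11_5_ok))) (M (nat_lit 364) (B (L (nat_lit 332) ln13_14_7 ln13_14_7_ok) (M (nat_lit 363) (B (L (nat_lit 362) ln10_11_0 ln10_11_0_ok) (L (nat_lit 366) ln11_11_0 ln11_11_0_ok))))))))))))))) (B (M (nat_lit 366) (B (M (nat_lit 397) (B (L (nat_lit 493) ln13_15_6 ln13_15_6_ok) (M (nat_lit 334) (B (L (nat_lit 302) ln14_9_5 ln14_9_5_ok) (L (nat_lit 365) ln13_14_6 ln13_14_6_ok))))) (B (M (nat_lit 397) (B (L (nat_lit 493) ln13_15_6 ln13_15_6_ok) (M (nat_lit 334) (B (L (nat_lit 365) ln13_14_6 ln13_14_6_ok) (L (nat_lit 430) ln14_10_5 ln14_10_5_ok))))) (B (M (nat_lit 397) (B (L (nat_lit 493) ln13_15_6 ln13_15_6_ok) (M (nat_lit 365) (B (M (nat_lit 460) (B (L (nat_lit 333) ln13_10_5 ln13_10_5_ok) (L (nat_lit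 492) ln13_11_5 ln13_11_5_ok))) (M (nat_lit 364) (B (L (nat_lit 332) ln13_14_7 ln13_14_7_ok) (M (nat_lit 363) (B (L (nat_lit 362) ln10_11_0 ln10_11_0_ok) (L (nat_lit 399) ln11_11_0 ln11_11_0_ok))))))))) (B (M (nat_lit 397) (B (L (nat_lit 493) ln13_15_6 ln13_15_6_ok) (M (nat_lit 334) (B (L (nat_lit 302) ln14_9_5 ln14_9_5_ok) (L (nat_lit 430) ln14_10_5 ln14_10_5_ok))))) (M (nat_lit 430) (B (L (nat_lit 334) ln14_10_5 ln14_10_5_ok) (M (nat_lit 431) (B (M (nat_lit 460) (B (L (nat_lit 459) ln15_13_1 ln15_13_1_ok) (L (nat_lit 432) ln16_13_1 ln16_13_1_ok))) (M (nat_lit 463) (B (L (nat_lit 464) ln12_13_0 ln12_13_0_ok) (M (nat_lit 399) (B (L (nat_lit 495) ln15_15_7 ln15_15_7_ok) (L (nat_lit 400) ln12_13_2 ln12_13_2_ok)))))))))))))) (K (nat_lit 5954262831509113918616234248424070930946322597328590324940256591272962611893586607877538210231342232309282598891610395711543928406528753664) (nat_lit 274591906787226515293285170366972530351889102300747971235304817752632995019440627077366086338849079351651020838358311936052244854113592334552076583005180657664)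 (nat_lit 274591906787226515293285170366972530351889102300747971235304817752632995019440627077366086338849079351651020838358311936052244854113592334552076583005180657664) c40_s3182))))))))) (nat_lit 5954262831509113917970671778902343783532342804327837356357830143065656733685921768742376304727131933651871260571575937852568135413341880320) (nat_lit 5065326623820289419242291692120477063800169451044456046079454547286302676919715946100390104624870772264985825271793615334511465495692724471468019270991752118983255587624398618624) (nat_lit 5065326623820289419242291692120477063800169451044456046079454547286302676919715946100390104624870772264985825271793615334511465495692724471468019270991752118983255587624398618624) (by decide +kernel)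
theorem c40_s3351 : Sem (nat_lit 5954262831509113917970671778902343783532342804327837356357830143065656733685921768742376304727131933651871260571575937852568135413341880320) (nat_lit 3656026099897103095247777095808338933925055037387978818039674958693163842150956847372707265392599131168962440610388282343356524932091284856440938516838195689604897570816) (nat_lit 3656026099897103095247777095808338933925055037387978818039674958693163842150956847372707265392599131168962440610388282343356524932091284856440938516838195689604897570816) :=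
  sem_of_chk (M (nat_lit 460) (B (M (nat_lit 459) (B (M (nat_lit 430) (B (L (nat_lit 431) ln15_13_1 ln15_13_1_ok) (L (nat_lit 458) ln10_14_2 ln10_14_2_ok))) (B (M (nat_lit 493) (B (M (nat_lit 525) (B (L (nat_lit 396) ln13_16_7 ln13_16_7_ok) (L (nat_lit 557) ln13_17_7 ln13_17_7_ok))) (M (nat_lit 458) (B (L (nat_lit 457) ln9_14_2 ln9_14_2_ok) (L (nat_lit 494) ln10_14_0 ln10_14_0_ok))))) (M (nat_lit 396) (B (M (nat_lit 364) (B (L (nat_lit 332) ln12_10_4 ln12_10_4_ok) (L (nat_lit 491) ln12_11_5 ln12_11_5_ok))) (B (M (nat_lit 364) (B (L (nat_lit 491) ln12_11_5 ln12_11_5_ok) (L (nat_lit 493) ln12_11_4 ln12_11_4_ok))) (B (M (nat_lit 462) (B (M (nat_lit 431) (B (L (nat_lit 430) ln15_13_1 ln15_13_1_ok) (M (nat_lit 463) (B (L (nat_lit 464) ln16_14_3 ln16_14_3_ok) (L (nat_lit 432) ln12_14_2 ln12_14_2_ok))))) (B (M (nat_lit 463) (B (L (nat_lit 464) ln16_14_3 ln16_14_3_ok) (M (nat_lit 491) (B (L (nat_lit 490) ln14_14_1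 ln14_14_1_ok) (L (nat_lit 492) ln15_14_1 ln15_14_1_ok))))) (M (nat_lit 491) (B (L (nat_lit 490) ln14_14_1 ln14_14_1_ok) (M (nat_lit 523) (B (L (nat_lit 492) ln12_12_5 ln12_12_5_ok) (L (nat_lit 555) ln11_17_6 ln11_17_6_ok)))))))) (M (nat_lit 493) (B (L (nat_lit 364) ln12_11_4 ln12_11_4_ok) (L (nat_lit 525) ln13_16_7 ln13_16_7_ok)))))))))) (B (M (nat_lit 459) (B (M (nat_lit 430) (B (L (nat_lit 431) ln15_13_1 ln15_13_1_ok) (L (nat_lit 458) ln10_14_2 ln10_14_2_ok))) (B (M (nat_lit 493) (B (M (nat_lit 525) (B (L (nat_lit 396) ln13_16_7 ln13_16_7_ok) (L (nat_lit 557) ln13_17_7 ln13_17_7_ok))) (M (nat_lit 458) (B (L (nat_lit 457) ln9_14_2 ln9_14_2_ok) (L (nat_lit 494) ln10_14_0 ln10_14_0_ok))))) (M (nat_lit 396) (B (M (nat_lit 364) (B (L (nat_lit 491) ln12_11_5 ln12_11_5_ok) (L (nat_lit 493) ln12_11_4 ln12_11_4_ok))) (B (M (nat_lit 462) (B (M (nat_lit 431) (B (L (nat_lit 430) ln15_13_1 ln15_13_1_ok) (M (nat_lit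 463) (B (L (nat_lit 464) ln16_14_3 ln16_14_3_ok) (L (nat_lit 432) ln12_14_2 ln12_14_2_ok))))) (B (M (nat_lit 463) (B (L (nat_lit 464) ln16_14_3 ln16_14_3_ok) (M (nat_lit 491) (B (L (nat_lit 490) ln14_14_1 ln14_14_1_ok) (L (nat_lit 492) ln15_14_1 ln15_14_1_ok))))) (M (nat_lit 491) (B (L (nat_lit 490) ln14_14_1 ln14_14_1_ok) (M (nat_lit 523) (B (L (nat_lit 492) ln12_12_5 ln12_12_5_ok) (L (nat_lit 555) ln11_17_6 ln11_17_6_ok)))))))) (M (nat_lit 493) (B (L (nat_lit 364) ln12_11_4 ln12_11_4_ok) (L (nat_lit 525) ln13_16_7 ln13_16_7_ok))))))))) (B (M (nat_lit 459) (B (M (nat_lit 430) (B (L (nat_lit 431) ln15_13_1 ln15_13_1_ok) (L (nat_lit 458) ln10_14_2 ln10_14_2_ok))) (B (M (nat_lit 493) (B (M (nat_lit 525) (B (L (nat_lit 396) ln13_16_7 ln13_16_7_ok) (L (nat_lit 557) ln13_17_7 ln13_17_7_ok))) (M (nat_lit 458) (B (L (nat_lit 457) ln9_14_2 ln9_14_2_ok) (L (nat_lit 494) ln10_14_0 ln10_14_0_ok))))) (M (nat_lit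 525) (B (M (nat_lit 493) (B (L (nat_lit 396) ln13_16_7 ln13_16_7_ok) (L (nat_lit 557) ln13_17_7 ln13_17_7_ok))) (B (M (nat_lit 430) (B (L (nat_lit 431) ln15_13_1 ln15_13_1_ok) (M (nat_lit 493) (B (L (nat_lit 398) ln13_16_6 ln13_16_6_ok) (L (nat_lit 557) ln13_17_7 ln13_17_7_ok))))) (B (M (nat_lit 492) (B (M (nat_lit 524) (B (L (nat_lit 557) ln12_13_4 ln12_13_4_ok) (L (nat_lit 556) ln12_17_6 ln12_17_6_ok))) (M (nat_lit 491) (B (M (nat_lit 523) (B (L (nat_lit 396) ln12_12_5 ln12_12_5_ok) (L (nat_lit 555) ln11_17_6 ln11_17_6_ok))) (M (nat_lit 462) (B (L (nat_lit 490) ln14_14_1 ln14_14_1_ok) (L (nat_lit 463) ln15_14_1 ln15_14_1_ok))))))) (M (nat_lit 430) (B (L (nat_lit 431) ln15_13_1 ln15_13_1_ok) (M (nat_lit 493) (B (L (nat_lit 396) ln13_16_7 ln13_16_7_ok) (L (nat_lit 398) ln13_16_6 ln13_16_6_ok)))))))))))) (B (M (nat_lit 430) (B (M (nat_lit 431) (B (L (nat_lit 459) ln15_13_1 ln15_13_1_ok) (L (nat_lit 432)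 ln16_13_1 ln16_13_1_ok))) (B (M (nat_lit 462) (B (M (nat_lit 459) (B (L (nat_lit 458) ln10_14_2 ln10_14_2_ok) (M (nat_lit 463) (B (L (nat_lit 464) ln16_14_3 ln16_14_3_ok) (M (nat_lit 495) (B (L (nat_lit 494) ln11_14_0 ln11_14_0_ok) (L (nat_lit 496) ln12_14_0 ln12_14_0_ok))))))) (B (M (nat_lit 398) (B (M (nat_lit 366) (B (L (nat_lit 334) ln14_10_5 ln14_10_5_ok) (L (nat_lit 493) ln14_11_5 ln14_11_5_ok))) (B (M (nat_lit 493) (B (L (nat_lit 366) ln14_11_5 ln14_11_5_ok) (L (nat_lit 525) ln13_16_6 ln13_16_6_ok))) (M (nat_lit 495) (B (M (nat_lit 494) (B (L (nat_lit 527) ln14_12_4 ln14_12_4_ok) (L (nat_lit 459) ln11_14_0 ln11_14_0_ok))) (M (nat_lit 463) (B (L (nat_lit 464) ln16_14_3 ln16_14_3_ok) (L (nat_lit 496) ln12_14_0 ln12_14_0_ok)))))))) (B (M (nat_lit 463) (B (L (nat_lit 464) ln16_14_3 ln16_14_3_ok) (M (nat_lit 495) (B (L (nat_lit 496) ln12_14_0 ln12_14_0_ok) (M (nat_lit 398) (B (L (nat_lit 366) ln14_11_4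 ln14_11_4_ok) (M (nat_lit 527) (B (L (nat_lit 494) ln14_12_4 ln14_12_4_ok) (L (nat_lit 559) ln15_17_7 ln15_17_7_ok))))))))) (B (M (nat_lit 398) (B (M (nat_lit 366) (B (L (nat_lit 334) ln14_10_5 ln14_10_5_ok) (L (nat_lit 493) ln14_11_5 ln14_11_5_ok))) (B (M (nat_lit 493) (B (L (nat_lit 366) ln14_11_5 ln14_11_5_ok) (L (nat_lit 525) ln13_16_6 ln13_16_6_ok))) (B (M (nat_lit 525) (B (L (nat_lit 493) ln13_16_6 ln13_16_6_ok) (M (nat_lit 494) (B (M (nat_lit 526) (B (L (nat_lit 558) ln14_17_7 ln14_17_7_ok) (L (nat_lit 557) ln14_13_5 ln14_13_5_ok))) (M (nat_lit 459) (B (L (nat_lit 458) ln10_14_2 ln10_14_2_ok) (L (nat_lit 495) ln11_14_0 ln11_14_0_ok))))))) (M (nat_lit 459) (B (L (nat_lit 458) ln10_14_2 ln10_14_2_ok) (M (nat_lit 367) (B (M (nat_lit 366) (B (L (nat_lit 334) ln14_10_5 ln14_10_5_ok) (L (nat_lit 335) ln14_14_6 ln14_14_6_ok))) (M (nat_lit 494) (B (L (nat_lit 399) ln14_15_6 ln14_15_6_ok) (L (nat_lit 495)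 ln11_14_0 ln11_14_0_ok))))))))))) (M (nat_lit 491) (B (M (nat_lit 459) (B (L (nat_lit 458) ln10_14_2 ln10_14_2_ok) (L (nat_lit 490) ln14_14_1 ln14_14_1_ok))) (M (nat_lit 463) (B (L (nat_lit 464) ln16_14_3 ln16_14_3_ok) (L (nat_lit 492) ln15_14_1 ln15_14_1_ok)))))))))) (M (nat_lit 431) (B (L (nat_lit 432) ln16_13_1 ln16_13_1_ok) (M (nat_lit 462) (B (M (nat_lit 463) (B (L (nat_lit 464) ln12_13_0 ln12_13_0_ok) (M (nat_lit 495) (B (L (nat_lit 496) ln12_14_0 ln12_14_0_ok) (M (nat_lit 398) (B (L (nat_lit 366) ln14_11_4 ln14_11_4_ok) (L (nat_lit 527) ln15_16_7 ln15_16_7_ok))))))) (B (M (nat_lit 463) (B (L (nat_lit 464) ln12_13_0 ln12_13_0_ok) (M (nat_lit 399) (B (L (nat_lit 400) ln12_13_2 ln12_13_2_ok) (M (nat_lit 367) (B (L (nat_lit 335) ln15_10_5 ln15_10_5_ok) (L (nat_lit 494) ln15_11_5 ln15_11_5_ok))))))) (M (nat_lit 399) (B (L (nat_lit 400) ln12_13_2 ln12_13_2_ok) (M (nat_lit 494) (B (L (nat_lit 526) ln14_16_6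 ln14_16_6_ok) (M (nat_lit 367) (B (L (nat_lit 335) ln15_10_5 ln15_10_5_ok) (L (nat_lit 398) ln14_15_6 ln14_15_6_ok))))))))))))))) (B (M (nat_lit 459) (B (M (nat_lit 493) (B (M (nat_lit 525) (B (L (nat_lit 396) ln13_16_7 ln13_16_7_ok) (L (nat_lit 557) ln13_17_7 ln13_17_7_ok))) (M (nat_lit 458) (B (L (nat_lit 457) ln9_14_2 ln9_14_2_ok) (L (nat_lit 494) ln10_14_0 ln10_14_0_ok))))) (B (M (nat_lit 458) (B (L (nat_lit 457) ln9_14_2 ln9_14_2_ok) (M (nat_lit 462) (B (M (nat_lit 490) (B (L (nat_lit 489) ln13_14_1 ln13_14_1_ok) (L (nat_lit 491) ln14_14_1 ln14_14_1_ok))) (M (nat_lit 494) (B (L (nat_lit 493) ln10_14_0 ln10_14_0_ok) (L (nat_lit 495) ln11_14_0 ln11_14_0_ok))))))) (B (M (nat_lit 462) (B (M (nat_lit 463) (B (L (nat_lit 464) ln16_14_3 ln16_14_3_ok) (M (nat_lit 491) (B (L (nat_lit 490) ln14_14_1 ln14_14_1_ok) (L (nat_lit 492) ln15_14_1 ln15_14_1_ok))))) (M (nat_lit 493) (B (M (nat_lit 396) (B (L (nat_lit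 364) ln12_11_4 ln12_11_4_ok) (L (nat_lit 525) ln13_16_7 ln13_16_7_ok))) (M (nat_lit 494) (B (L (nat_lit 458) ln10_14_0 ln10_14_0_ok) (L (nat_lit 495) ln11_14_0 ln11_14_0_ok))))))) (B (M (nat_lit 396) (B (M (nat_lit 364) (B (L (nat_lit 332) ln12_10_4 ln12_10_4_ok) (L (nat_lit 491) ln12_11_5 ln12_11_5_ok))) (B (M (nat_lit 364) (B (L (nat_lit 491) ln12_11_5 ln12_11_5_ok) (L (nat_lit 493) ln12_11_4 ln12_11_4_ok))) (B (M (nat_lit 492) (B (M (nat_lit 525) (B (L (nat_lit 493) ln13_16_7 ln13_16_7_ok) (M (nat_lit 524) (B (L (nat_lit 557) ln12_13_4 ln12_13_4_ok) (L (nat_lit 556) ln12_17_6 ln12_17_6_ok))))) (M (nat_lit 491) (B (L (nat_lit 523) ln12_12_5 ln12_12_5_ok) (M (nat_lit 490) (B (L (nat_lit 462) ln14_14_1 ln14_14_1_ok) (L (nat_lit 489) ln9_15_2 ln9_15_2_ok))))))) (M (nat_lit 493) (B (L (nat_lit 364) ln12_11_4 ln12_11_4_ok) (L (nat_lit 525) ln13_16_7 ln13_16_7_ok))))))) (M (nat_lit 462) (B (M (nat_lit 463)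 (B (L (nat_lit 464) ln16_14_3 ln16_14_3_ok) (M (nat_lit 491) (B (L (nat_lit 490) ln14_14_1 ln14_14_1_ok) (L (nat_lit 492) ln15_14_1 ln15_14_1_ok))))) (B (M (nat_lit 458) (B (L (nat_lit 457) ln9_14_2 ln9_14_2_ok) (M (nat_lit 490) (B (L (nat_lit 489) ln13_14_1 ln13_14_1_ok) (L (nat_lit 491) ln14_14_1 ln14_14_1_ok))))) (M (nat_lit 463) (B (L (nat_lit 464) ln16_14_3 ln16_14_3_ok) (M (nat_lit 495) (B (L (nat_lit 494) ln11_14_0 ln11_14_0_ok) (L (nat_lit 496) ln12_14_0 ln12_14_0_ok))))))))))))) (B (M (nat_lit 396) (B (M (nat_lit 364) (B (L (nat_lit 332) ln12_10_4 ln12_10_4_ok) (L (nat_lit 493) ln12_11_4 ln12_11_4_ok))) (B (M (nat_lit 493) (B (L (nat_lit 364) ln12_11_4 ln12_11_4_ok) (L (nat_lit 525) ln13_16_7 ln13_16_7_ok))) (B (M (nat_lit 462) (B (M (nat_lit 463) (B (L (nat_lit 464) ln16_14_3 ln16_14_3_ok) (M (nat_lit 431) (B (L (nat_lit 432) ln12_14_2 ln12_14_2_ok) (M (nat_lit 430) (B (L (nat_lit 395) ln15_13_3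 ln15_13_3_ok) (L (nat_lit 459) ln15_13_1 ln15_13_1_ok))))))) (M (nat_lit 492) (B (M (nat_lit 493) (B (L (nat_lit 525) ln13_16_7 ln13_16_7_ok) (M (nat_lit 491) (B (L (nat_lit 523) ln12_12_5 ln12_12_5_ok) (L (nat_lit 490) ln10_15_2 ln10_15_2_ok))))) (B (M (nat_lit 525) (B (L (nat_lit 493) ln13_16_7 ln13_16_7_ok) (M (nat_lit 524) (B (L (nat_lit 557) ln12_13_4 ln12_13_4_ok) (L (nat_lit 556) ln12_17_6 ln12_17_6_ok))))) (M (nat_lit 524) (B (L (nat_lit 556) ln12_17_6 ln12_17_6_ok) (M (nat_lit 523) (B (L (nat_lit 491) ln12_12_5 ln12_12_5_ok) (L (nat_lit 555) ln12_13_5 ln12_13_5_ok)))))))))) (M (nat_lit 364) (B (L (nat_lit 332) ln12_10_4 ln12_10_4_ok) (M (nat_lit 492) (B (M (nat_lit 363) (B (L (nat_lit 331) ln12_14_7 ln12_14_7_ok) (L (nat_lit 395) ln12_15_7 ln12_15_7_ok))) (M (nat_lit 491) (B (L (nat_lit 459) ln12_11_5 ln12_11_5_ok) (L (nat_lit 523) ln12_12_5 ln12_12_5_ok))))))))))) (B (M (nat_lit 396) (B (M (nat_lit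 364) (B (L (nat_lit 332) ln12_10_4 ln12_10_4_ok) (L (nat_lit 493) ln12_11_4 ln12_11_4_ok))) (B (M (nat_lit 493) (B (L (nat_lit 364) ln12_11_4 ln12_11_4_ok) (L (nat_lit 525) ln13_16_7 ln13_16_7_ok))) (B (M (nat_lit 492) (B (M (nat_lit 524) (B (L (nat_lit 556) ln12_17_6 ln12_17_6_ok) (M (nat_lit 523) (B (L (nat_lit 491) ln12_12_5 ln12_12_5_ok) (L (nat_lit 555) ln12_13_5 ln12_13_5_ok))))) (B (M (nat_lit 525) (B (L (nat_lit 493) ln13_16_7 ln13_16_7_ok) (M (nat_lit 524) (B (L (nat_lit 557) ln12_13_4 ln12_13_4_ok) (L (nat_lit 556) ln12_17_6 ln12_17_6_ok))))) (M (nat_lit 493) (B (L (nat_lit 525) ln13_16_7 ln13_16_7_ok) (M (nat_lit 491) (B (L (nat_lit 523) ln12_12_5 ln12_12_5_ok) (M (nat_lit 490) (B (L (nat_lit 489) ln9_15_2 ln9_15_2_ok) (L (nat_lit 462) ln10_15_2 ln10_15_2_ok)))))))))) (M (nat_lit 492) (B (M (nat_lit 364) (B (L (nat_lit 332) ln12_10_4 ln12_10_4_ok) (M (nat_lit 363) (B (L (nat_lit 331) ln12_14_7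 ln12_14_7_ok) (L (nat_lit 395) ln12_15_7 ln12_15_7_ok))))) (M (nat_lit 524) (B (L (nat_lit 556) ln12_17_6 ln12_17_6_ok) (M (nat_lit 523) (B (L (nat_lit 491) ln12_12_5 ln12_12_5_ok) (L (nat_lit 555) ln12_13_5 ln12_13_5_ok))))))))))) (B (M (nat_lit 396) (B (M (nat_lit 364) (B (L (nat_lit 332) ln12_10_4 ln12_10_4_ok) (L (nat_lit 493) ln12_11_4 ln12_11_4_ok))) (B (M (nat_lit 493) (B (L (nat_lit 364) ln12_11_4 ln12_11_4_ok) (L (nat_lit 525) ln13_16_7 ln13_16_7_ok))) (B (M (nat_lit 492) (B (M (nat_lit 524) (B (L (nat_lit 556) ln12_17_6 ln12_17_6_ok) (M (nat_lit 523) (B (L (nat_lit 491) ln12_12_5 ln12_12_5_ok) (L (nat_lit 555) ln12_13_5 ln12_13_5_ok))))) (B (M (nat_lit 525) (B (L (nat_lit 493) ln13_16_7 ln13_16_7_ok) (M (nat_lit 524) (B (L (nat_lit 557) ln12_13_4 ln12_13_4_ok) (L (nat_lit 556) ln12_17_6 ln12_17_6_ok))))) (M (nat_lit 493) (B (L (nat_lit 525) ln13_16_7 ln13_16_7_ok) (M (nat_lit 491) (B (L (nat_lit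 523) ln12_12_5 ln12_12_5_ok) (M (nat_lit 458) (B (M (nat_lit 459) (B (L (nat_lit 457) ln9_14_2 ln9_14_2_ok) (L (nat_lit 430) ln10_14_2 ln10_14_2_ok))) (B (M (nat_lit 459) (B (L (nat_lit 457) ln9_14_2 ln9_14_2_ok) (L (nat_lit 494) ln10_14_0 ln10_14_0_ok))) (B (M (nat_lit 459) (B (L (nat_lit 430) ln10_14_2 ln10_14_2_ok) (L (nat_lit 494) ln10_14_0 ln10_14_0_ok))) (M (nat_lit 490) (B (L (nat_lit 457) ln13_15_3 ln13_15_3_ok) (L (nat_lit 489) ln9_15_2 ln9_15_2_ok)))))))))))))) (M (nat_lit 364) (B (L (nat_lit 332) ln12_10_4 ln12_10_4_ok) (M (nat_lit 459) (B (L (nat_lit 491) ln12_11_5 ln12_11_5_ok) (M (nat_lit 430) (B (L (nat_lit 431) ln15_13_1 ln15_13_1_ok) (L (nat_lit 458) ln10_14_2 ln10_14_2_ok))))))))))) (B (M (nat_lit 430) (B (M (nat_lit 431) (B (L (nat_lit 459) ln15_13_1 ln15_13_1_ok) (L (nat_lit 432) ln16_13_1 ln16_13_1_ok))) (B (M (nat_lit 462) (B (M (nat_lit 459) (B (L (nat_lit 458) ln10_14_2 ln10_14_2_ok)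 (M (nat_lit 463) (B (L (nat_lit 464) ln16_14_3 ln16_14_3_ok) (M (nat_lit 495) (B (L (nat_lit 494) ln11_14_0 ln11_14_0_ok) (L (nat_lit 496) ln12_14_0 ln12_14_0_ok))))))) (B (M (nat_lit 492) (B (M (nat_lit 463) (B (L (nat_lit 464) ln16_14_3 ln16_14_3_ok) (L (nat_lit 491) ln15_14_1 ln15_14_1_ok))) (M (nat_lit 525) (B (M (nat_lit 493) (B (L (nat_lit 396) ln13_16_7 ln13_16_7_ok) (L (nat_lit 398) ln13_16_6 ln13_16_6_ok))) (M (nat_lit 524) (B (L (nat_lit 557) ln12_13_4 ln12_13_4_ok) (L (nat_lit 556) ln12_17_6 ln12_17_6_ok))))))) (M (nat_lit 494) (B (M (nat_lit 459) (B (L (nat_lit 458) ln10_14_2 ln10_14_2_ok) (L (nat_lit 495) ln11_14_0 ln11_14_0_ok))) (M (nat_lit 525) (B (M (nat_lit 493) (B (L (nat_lit 396) ln13_16_7 ln13_16_7_ok) (L (nat_lit 398) ln13_16_6 ln13_16_6_ok))) (B (M (nat_lit 493) (B (L (nat_lit 398) ln13_16_6 ln13_16_6_ok) (L (nat_lit 557) ln13_17_7 ln13_17_7_ok))) (B (M (nat_lit 493) (B (L (nat_lit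 396) ln13_16_7 ln13_16_7_ok) (L (nat_lit 557) ln13_17_7 ln13_17_7_ok))) (M (nat_lit 526) (B (L (nat_lit 558) ln14_17_7 ln14_17_7_ok) (L (nat_lit 557) ln14_13_5 ln14_13_5_ok)))))))))))) (M (nat_lit 396) (B (M (nat_lit 431) (B (L (nat_lit 395) ln15_13_3 ln15_13_3_ok) (L (nat_lit 432) ln16_13_1 ln16_13_1_ok))) (M (nat_lit 493) (B (L (nat_lit 364) ln12_11_4 ln12_11_4_ok) (L (nat_lit 525) ln13_16_7 ln13_16_7_ok)))))))) (B (M (nat_lit 459) (B (M (nat_lit 430) (B (L (nat_lit 431) ln15_13_1 ln15_13_1_ok) (L (nat_lit 458) ln10_14_2 ln10_14_2_ok))) (B (M (nat_lit 493) (B (M (nat_lit 525) (B (L (nat_lit 396) ln13_16_7 ln13_16_7_ok) (L (nat_lit 557) ln13_17_7 ln13_17_7_ok))) (M (nat_lit 458) (B (L (nat_lit 457) ln9_14_2 ln9_14_2_ok) (L (nat_lit 494) ln10_14_0 ln10_14_0_ok))))) (M (nat_lit 462) (B (M (nat_lit 431) (B (L (nat_lit 430) ln15_13_1 ln15_13_1_ok) (M (nat_lit 463) (B (L (nat_lit 464) ln16_14_3 ln16_14_3_ok)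 (L (nat_lit 432) ln12_14_2 ln12_14_2_ok))))) (B (M (nat_lit 463) (B (L (nat_lit 464) ln16_14_3 ln16_14_3_ok) (M (nat_lit 495) (B (L (nat_lit 494) ln11_14_0 ln11_14_0_ok) (L (nat_lit 496) ln12_14_0 ln12_14_0_ok))))) (M (nat_lit 430) (B (L (nat_lit 431) ln15_13_1 ln15_13_1_ok) (M (nat_lit 494) (B (L (nat_lit 495) ln11_14_0 ln11_14_0_ok) (M (nat_lit 525) (B (M (nat_lit 493) (B (L (nat_lit 396) ln13_16_7 ln13_16_7_ok) (L (nat_lit 398) ln13_16_6 ln13_16_6_ok))) (B (M (nat_lit 493) (B (L (nat_lit 398) ln13_16_6 ln13_16_6_ok) (L (nat_lit 557) ln13_17_7 ln13_17_7_ok))) (B (M (nat_lit 493) (B (L (nat_lit 396) ln13_16_7 ln13_16_7_ok) (L (nat_lit 557) ln13_17_7 ln13_17_7_ok))) (M (nat_lit 526) (B (L (nat_lit 558) ln14_17_7 ln14_17_7_ok) (L (nat_lit 557) ln14_13_5 ln14_13_5_ok))))))))))))))))) (M (nat_lit 459) (B (M (nat_lit 430) (B (L (nat_lit 431) ln15_13_1 ln15_13_1_ok) (L (nat_lit 458) ln10_14_2 ln10_14_2_ok)))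 (B (M (nat_lit 462) (B (M (nat_lit 463) (B (L (nat_lit 464) ln16_14_3 ln16_14_3_ok) (M (nat_lit 491) (B (L (nat_lit 490) ln14_14_1 ln14_14_1_ok) (L (nat_lit 492) ln15_14_1 ln15_14_1_ok))))) (B (M (nat_lit 458) (B (L (nat_lit 457) ln9_14_2 ln9_14_2_ok) (M (nat_lit 490) (B (L (nat_lit 489) ln13_14_1 ln13_14_1_ok) (L (nat_lit 491) ln14_14_1 ln14_14_1_ok))))) (M (nat_lit 463) (B (L (nat_lit 464) ln16_14_3 ln16_14_3_ok) (M (nat_lit 495) (B (L (nat_lit 494) ln11_14_0 ln11_14_0_ok) (L (nat_lit 496) ln12_14_0 ln12_14_0_ok)))))))) (M (nat_lit 462) (B (M (nat_lit 463) (B (L (nat_lit 464) ln16_14_3 ln16_14_3_ok) (M (nat_lit 491) (B (L (nat_lit 490) ln14_14_1 ln14_14_1_ok) (L (nat_lit 492) ln15_14_1 ln15_14_1_ok))))) (B (M (nat_lit 491) (B (L (nat_lit 490) ln14_14_1 ln14_14_1_ok) (M (nat_lit 396) (B (L (nat_lit 364) ln12_11_5 ln12_11_5_ok) (M (nat_lit 523) (B (L (nat_lit 492) ln12_12_5 ln12_12_5_ok) (L (nat_lit 555)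 ln11_17_6 ln11_17_6_ok))))))) (M (nat_lit 463) (B (L (nat_lit 464) ln16_14_3 ln16_14_3_ok) (M (nat_lit 495) (B (L (nat_lit 494) ln11_14_0 ln11_14_0_ok) (L (nat_lit 496) ln12_14_0 ln12_14_0_ok)))))))))))))))))))))) (nat_lit 5954262831509113917970671778902343783532342804327837356357830143065656733685921768742376304727131933651871260571575937852568135413341880320) (nat_lit 3656026099897103095247777095808338933925055037387978818039674958693163842150956847372707265392599131168962440610388282343356524932091284856440938516838195689604897570816) (nat_lit 3656026099897103095247777095808338933925055037387978818039674958693163842150956847372707265392599131168962440610388282343356524932091284856440938516838195689604897570816) (by decide +kernel)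
theorem c40_s3447 : Sem (nat_lit 5954262831509113917970671778902343783532342804327837356357830143065656733685921768742376304727131933651871260571575937852568135413341880320) (nat_lit 1013065325259390452353418356914727028643443093579355019233126718917808662082105065457688946845122390977135418532794167838263575441314796790627527074406575501343612371063973871616) (nat_lit 1013065325259390452353418356914727028643443093579355019233126718917808662082105065457688946845122390977135418532794167838263575441314796790627527074406575501343612371063973871616) :=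
  sem_of_chk (M (nat_lit 396) (B (M (nat_lit 364) (B (L (nat_lit 332) ln12_10_4 ln12_10_4_ok) (M (nat_lit 493) (B (L (nat_lit 460) ln12_11_4 ln12_11_4_ok) (L (nat_lit 525) ln13_16_7 ln13_16_7_ok))))) (B (M (nat_lit 493) (B (L (nat_lit 525) ln13_16_7 ln13_16_7_ok) (M (nat_lit 364) (B (L (nat_lit 397) ln13_15_7 ln13_15_7_ok) (L (nat_lit 460) ln12_11_4 ln12_11_4_ok))))) (B (M (nat_lit 492) (B (M (nat_lit 493) (B (L (nat_lit 525) ln13_16_7 ln13_16_7_ok) (M (nat_lit 524) (B (L (nat_lit 397) ln13_12_5 ln13_12_5_ok) (M (nat_lit 556) (B (L (nat_lit 460) ln12_17_6 ln12_17_6_ok) (L (nat_lit 588) ln12_18_6 ln12_18_6_ok))))))) (B (M (nat_lit 460) (B (M (nat_lit 524) (B (L (nat_lit 556) ln12_17_6 ln12_17_6_ok) (M (nat_lit 523) (B (L (nat_lit 491) ln12_12_5 ln12_12_5_ok) (L (nat_lit 555) ln12_13_5 ln12_13_5_ok))))) (B (M (nat_lit 525) (B (L (nat_lit 493) ln13_16_7 ln13_16_7_ok) (M (nat_lit 524) (B (L (nat_lit 557)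 ln12_13_4 ln12_13_4_ok) (L (nat_lit 556) ln12_17_6 ln12_17_6_ok))))) (M (nat_lit 493) (B (L (nat_lit 525) ln13_16_7 ln13_16_7_ok) (M (nat_lit 491) (B (L (nat_lit 523) ln12_12_5 ln12_12_5_ok) (M (nat_lit 462) (B (L (nat_lit 463) ln15_14_1 ln15_14_1_ok) (L (nat_lit 490) ln10_15_2 ln10_15_2_ok)))))))))) (B (M (nat_lit 493) (B (L (nat_lit 525) ln13_16_7 ln13_16_7_ok) (M (nat_lit 397) (B (L (nat_lit 524) ln13_12_5 ln13_12_5_ok) (M (nat_lit 365) (B (M (nat_lit 366) (B (L (nat_lit 334) ln13_14_6 ln13_14_6_ok) (L (nat_lit 398) ln13_15_6 ln13_15_6_ok))) (M (nat_lit 494) (B (L (nat_lit 462) ln13_11_4 ln13_11_4_ok) (L (nat_lit 526) ln13_12_4 ln13_12_4_ok))))))))) (B (M (nat_lit 460) (B (M (nat_lit 397) (B (L (nat_lit 365) ln12_15_6 ln12_15_6_ok) (L (nat_lit 524) ln12_16_6 ln12_16_6_ok))) (B (M (nat_lit 524) (B (L (nat_lit 397) ln12_16_6 ln12_16_6_ok) (L (nat_lit 556) ln12_17_6 ln12_17_6_ok))) (B (M (nat_lit 524)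 (B (L (nat_lit 556) ln12_17_6 ln12_17_6_ok) (M (nat_lit 523) (B (L (nat_lit 491) ln12_12_5 ln12_12_5_ok) (L (nat_lit 555) ln12_13_5 ln12_13_5_ok))))) (M (nat_lit 491) (B (L (nat_lit 523) ln12_12_5 ln12_12_5_ok) (M (nat_lit 462) (B (L (nat_lit 463) ln15_14_1 ln15_14_1_ok) (M (nat_lit 490) (B (L (nat_lit 459) ln14_14_1 ln14_14_1_ok) (L (nat_lit 489) ln9_15_2 ln9_15_2_ok))))))))))) (M (nat_lit 493) (B (L (nat_lit 525) ln13_16_7 ln13_16_7_ok) (M (nat_lit 460) (B (M (nat_lit 491) (B (L (nat_lit 523) ln12_12_5 ln12_12_5_ok) (M (nat_lit 490) (B (L (nat_lit 489) ln9_15_2 ln9_15_2_ok) (L (nat_lit 462) ln10_15_2 ln10_15_2_ok))))) (M (nat_lit 494) (B (M (nat_lit 397) (B (L (nat_lit 365) ln12_15_6 ln12_15_6_ok) (L (nat_lit 526) ln13_12_4 ln13_12_4_ok))) (M (nat_lit 495) (B (L (nat_lit 459) ln15_15_3 ln15_15_3_ok) (L (nat_lit 496) ln16_15_3 ln16_15_3_ok)))))))))))))) (B (M (nat_lit 493) (B (L (nat_lit 525) ln13_16_7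 ln13_16_7_ok) (M (nat_lit 364) (B (L (nat_lit 332) ln12_10_4 ln12_10_4_ok) (L (nat_lit 397) ln13_15_7 ln13_15_7_ok))))) (M (nat_lit 365) (B (M (nat_lit 364) (B (L (nat_lit 332) ln12_10_4 ln12_10_4_ok) (M (nat_lit 333) (B (L (nat_lit 460) ln12_14_6 ln12_14_6_ok) (M (nat_lit 301) (B (L (nat_lit 269) ln13_8_5 ln13_8_5_ok) (L (nat_lit 397) ln13_9_5 ln13_9_5_ok))))))) (B (M (nat_lit 460) (B (M (nat_lit 364) (B (L (nat_lit 332) ln12_10_4 ln12_10_4_ok) (L (nat_lit 333) ln12_14_6 ln12_14_6_ok))) (B (M (nat_lit 333) (B (L (nat_lit 364) ln12_14_6 ln12_14_6_ok) (L (nat_lit 397) ln13_10_5 ln13_10_5_ok))) (B (M (nat_lit 363) (B (M (nat_lit 364) (B (L (nat_lit 331) ln12_14_7 ln12_14_7_ok) (L (nat_lit 332) ln12_10_4 ln12_10_4_ok))) (M (nat_lit 492) (B (L (nat_lit 395) ln12_15_7 ln12_15_7_ok) (L (nat_lit 397) ln12_15_6 ln12_15_6_ok))))) (M (nat_lit 397) (B (L (nat_lit 333) ln13_10_5 ln13_10_5_ok) (L (nat_lit 492) ln12_15_6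 ln12_15_6_ok))))))) (B (M (nat_lit 397) (B (M (nat_lit 333) (B (L (nat_lit 301) ln13_9_5 ln13_9_5_ok) (L (nat_lit 460) ln13_10_5 ln13_10_5_ok))) (B (M (nat_lit 460) (B (L (nat_lit 333) ln13_10_5 ln13_10_5_ok) (L (nat_lit 492) ln12_15_6 ln12_15_6_ok))) (M (nat_lit 366) (B (L (nat_lit 334) ln13_14_6 ln13_14_6_ok) (M (nat_lit 395) (B (L (nat_lit 394) ln10_12_2 ln10_12_2_ok) (M (nat_lit 367) (B (L (nat_lit 368) ln16_11_1 ln16_11_1_ok) (L (nat_lit 398) ln11_12_2 ln11_12_2_ok)))))))))) (B (M (nat_lit 397) (B (M (nat_lit 364) (B (L (nat_lit 332) ln13_14_7 ln13_14_7_ok) (M (nat_lit 366) (B (L (nat_lit 334) ln13_14_6 ln13_14_6_ok) (M (nat_lit 367) (B (L (nat_lit 395) ln15_11_1 ln15_11_1_ok) (L (nat_lit 368) ln16_11_1 ln16_11_1_ok))))))) (B (M (nat_lit 366) (B (L (nat_lit 334) ln13_14_6 ln13_14_6_ok) (M (nat_lit 395) (B (L (nat_lit 394) ln10_12_2 ln10_12_2_ok) (M (nat_lit 367) (B (L (nat_lit 368) ln16_11_1 ln16_11_1_ok)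 (L (nat_lit 398) ln11_12_2 ln11_12_2_ok))))))) (M (nat_lit 364) (B (L (nat_lit 332) ln13_14_7 ln13_14_7_ok) (M (nat_lit 363) (B (M (nat_lit 460) (B (L (nat_lit 331) ln12_14_7 ln12_14_7_ok) (L (nat_lit 492) ln12_15_6 ln12_15_6_ok))) (M (nat_lit 362) (B (L (nat_lit 361) ln9_11_0 ln9_11_0_ok) (L (nat_lit 398) ln10_11_0 ln10_11_0_ok)))))))))) (B (M (nat_lit 364) (B (L (nat_lit 332) ln12_10_4 ln12_10_4_ok) (M (nat_lit 460) (B (L (nat_lit 333) ln12_14_6 ln12_14_6_ok) (M (nat_lit 492) (B (M (nat_lit 363) (B (L (nat_lit 331) ln12_14_7 ln12_14_7_ok) (L (nat_lit 395) ln12_15_7 ln12_15_7_ok))) (M (nat_lit 491) (B (L (nat_lit 459) ln12_11_5 ln12_11_5_ok) (L (nat_lit 523) ln12_12_5 ln12_12_5_ok))))))))) (M (nat_lit 397) (B (M (nat_lit 332) (B (L (nat_lit 364) ln13_14_7 ln13_14_7_ok) (M (nat_lit 333) (B (L (nat_lit 300) ln13_13_7 ln13_13_7_ok) (L (nat_lit 301) ln13_9_5 ln13_9_5_ok))))) (B (M (nat_lit 333) (B (L (nat_lit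 301) ln13_9_5 ln13_9_5_ok) (M (nat_lit 334) (B (L (nat_lit 302) ln13_13_6 ln13_13_6_ok) (L (nat_lit 366) ln13_14_6 ln13_14_6_ok))))) (B (M (nat_lit 333) (B (M (nat_lit 332) (B (L (nat_lit 300) ln13_13_7 ln13_13_7_ok) (L (nat_lit 364) ln13_14_7 ln13_14_7_ok))) (M (nat_lit 334) (B (L (nat_lit 302) ln13_13_6 ln13_13_6_ok) (L (nat_lit 366) ln13_14_6 ln13_14_6_ok))))) (M (nat_lit 364) (B (L (nat_lit 332) ln13_14_7 ln13_14_7_ok) (M (nat_lit 366) (B (L (nat_lit 334) ln13_14_6 ln13_14_6_ok) (M (nat_lit 367) (B (L (nat_lit 395) ln15_11_1 ln15_11_1_ok) (L (nat_lit 368) ln16_11_1 ln16_11_1_ok)))))))))))))))))))))) (nat_lit 5954262831509113917970671778902343783532342804327837356357830143065656733685921768742376304727131933651871260571575937852568135413341880320) (nat_lit 1013065325259390452353418356914727028643443093579355019233126718917808662082105065457688946845122390977135418532794167838263575441314796790627527074406575501343612371063973871616)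 (nat_lit 1013065325259390452353418356914727028643443093579355019233126718917808662082105065457688946845122390977135418532794167838263575441314796790627527074406575501343612371063973871616) (by decide +kernel)
noncomputable def c40_n3486 : Cert := (M (nat_lit 397) (B (M (nat_lit 365) (B (M (nat_lit 333) (B (L (nat_lit 301) ln13_9_5 ln13_9_5_ok) (L (nat_lit 460) ln13_10_5 ln13_10_5_ok))) (B (M (nat_lit 460) (B (L (nat_lit 333) ln13_10_5 ln13_10_5_ok) (L (nat_lit 492) ln12_15_6 ln12_15_6_ok))) (M (nat_lit 364) (B (L (nat_lit 332) ln13_14_7 ln13_14_7_ok) (M (nat_lit 366) (B (L (nat_lit 334) ln13_14_6 ln13_14_6_ok) (M (nat_lit 367) (B (L (nat_lit 395) ln15_11_1 ln15_11_1_ok) (L (nat_lit 368) ln16_11_1 ln16_11_1_ok)))))))))) (B (M (nat_lit 365) (B (M (nat_lit 460) (B (L (nat_lit 333) ln13_10_5 ln13_10_5_ok) (L (nat_lit 492) ln12_15_6 ln12_15_6_ok))) (M (nat_lit 364) (B (L (nat_lit 332) ln13_14_7 ln13_14_7_ok)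 (M (nat_lit 366) (B (L (nat_lit 334) ln13_14_6 ln13_14_6_ok) (M (nat_lit 367) (B (L (nat_lit 395) ln15_11_1 ln15_11_1_ok) (L (nat_lit 368) ln16_11_1 ln16_11_1_ok))))))))) (B (M (nat_lit 365) (B (M (nat_lit 333) (B (L (nat_lit 301) ln13_9_5 ln13_9_5_ok) (L (nat_lit 460) ln13_10_5 ln13_10_5_ok))) (B (M (nat_lit 460) (B (L (nat_lit 333) ln13_10_5 ln13_10_5_ok) (L (nat_lit 492) ln12_15_6 ln12_15_6_ok))) (M (nat_lit 366) (B (L (nat_lit 334) ln13_14_6 ln13_14_6_ok) (M (nat_lit 395) (B (L (nat_lit 394) ln10_12_2 ln10_12_2_ok) (M (nat_lit 367) (B (L (nat_lit 368) ln16_11_1 ln16_11_1_ok) (L (nat_lit 398) ln11_12_2 ln11_12_2_ok)))))))))) (B (M (nat_lit 365) (B (M (nat_lit 364) (B (L (nat_lit 332) ln13_14_7 ln13_14_7_ok) (M (nat_lit 366) (B (L (nat_lit 334) ln13_14_6 ln13_14_6_ok) (M (nat_lit 367) (B (L (nat_lit 395) ln15_11_1 ln15_11_1_ok) (L (nat_lit 368) ln16_11_1 ln16_11_1_ok))))))) (B (M (nat_lit 366) (B (L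 (nat_lit 334) ln13_14_6 ln13_14_6_ok) (M (nat_lit 395) (B (L (nat_lit 394) ln10_12_2 ln10_12_2_ok) (M (nat_lit 367) (B (L (nat_lit 368) ln16_11_1 ln16_11_1_ok) (L (nat_lit 398) ln11_12_2 ln11_12_2_ok))))))) (M (nat_lit 364) (B (L (nat_lit 332) ln13_14_7 ln13_14_7_ok) (M (nat_lit 363) (B (M (nat_lit 460) (B (L (nat_lit 331) ln12_14_7 ln12_14_7_ok) (L (nat_lit 492) ln12_15_6 ln12_15_6_ok))) (M (nat_lit 362) (B (L (nat_lit 361) ln9_11_0 ln9_11_0_ok) (L (nat_lit 398) ln10_11_0 ln10_11_0_ok)))))))))) (B (M (nat_lit 365) (B (M (nat_lit 333) (B (L (nat_lit 301) ln13_9_5 ln13_9_5_ok) (L (nat_lit 460) ln13_10_5 ln13_10_5_ok))) (B (M (nat_lit 460) (B (L (nat_lit 333) ln13_10_5 ln13_10_5_ok) (L (nat_lit 492) ln12_15_6 ln12_15_6_ok))) (B (M (nat_lit 364) (B (L (nat_lit 332) ln13_14_7 ln13_14_7_ok) (M (nat_lit 363) (B (M (nat_lit 460) (B (L (nat_lit 331) ln12_14_7 ln12_14_7_ok) (L (nat_lit 492) ln12_15_6 ln12_15_6_ok)))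 (M (nat_lit 362) (B (L (nat_lit 361) ln9_11_0 ln9_11_0_ok) (L (nat_lit 398) ln10_11_0 ln10_11_0_ok))))))) (M (nat_lit 462) (B (L (nat_lit 494) ln13_11_4 ln13_11_4_ok) (M (nat_lit 333) (B (L (nat_lit 301) ln13_9_5 ln13_9_5_ok) (L (nat_lit 430) ln13_10_4 ln13_10_4_ok))))))))) (M (nat_lit 398) (B (M (nat_lit 364) (B (L (nat_lit 332) ln12_10_4 ln12_10_4_ok) (M (nat_lit 399) (B (L (nat_lit 363) ln15_12_3 ln15_12_3_ok) (L (nat_lit 400) ln16_12_1 ln16_12_1_ok))))) (B (M (nat_lit 395) (B (M (nat_lit 394) (B (L (nat_lit 393) ln9_12_0 ln9_12_0_ok) (L (nat_lit 430) ln10_12_0 ln10_12_0_ok))) (B (M (nat_lit 430) (B (L (nat_lit 394) ln10_12_0 ln10_12_0_ok) (L (nat_lit 431) ln11_12_0 ln11_12_0_ok))) (B (M (nat_lit 430) (B (L (nat_lit 431) ln11_12_0 ln11_12_0_ok) (M (nat_lit 366) (B (L (nat_lit 334) ln14_10_5 ln14_10_5_ok) (L (nat_lit 367) ln11_12_2 ln11_12_2_ok))))) (M (nat_lit 394) (B (L (nat_lit 393) ln9_12_0 ln9_12_0_ok)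 (M (nat_lit 362) (B (L (nat_lit 361) ln13_12_3 ln13_12_3_ok) (L (nat_lit 363) ln14_12_3 ln14_12_3_ok))))))))) (M (nat_lit 395) (B (M (nat_lit 430) (B (L (nat_lit 394) ln10_12_0 ln10_12_0_ok) (L (nat_lit 431) ln11_12_0 ln11_12_0_ok))) (M (nat_lit 399) (B (L (nat_lit 400) ln16_12_1 ln16_12_1_ok) (M (nat_lit 367) (B (L (nat_lit 366) ln11_12_2 ln11_12_2_ok) (L (nat_lit 368) ln12_12_2 ln12_12_2_ok))))))))))))))))
theorem c40_s3487 : Sem (nat_lit 5954262831509113917970671778902343783532342804327837356357830143065656733685921768742376304727131933651871260571575937852568135413341880320) (nat_lit 384428669056820918488532231088623214145674963220929504211807256672455701469777383101134223448785111219070243962603494271116904975709872484679876115129148899328) (nat_lit 384428669056820918488532231088623214145674963220929504211807256672455701469777383101134223448785111219070243962603494271116904975709872484679876115129148899328)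 :=
  sem_of_chk (M (nat_lit 396) (B (M (nat_lit 493) (B (L (nat_lit 525) ln13_16_7 ln13_16_7_ok) (M (nat_lit 364) (B (L (nat_lit 332) ln12_10_4 ln12_10_4_ok) (L (nat_lit 397) ln13_15_7 ln13_15_7_ok))))) (B (M (nat_lit 493) (B (L (nat_lit 525) ln13_16_7 ln13_16_7_ok) (M (nat_lit 364) (B (L (nat_lit 397) ln13_15_7 ln13_15_7_ok) (L (nat_lit 460) ln12_11_4 ln12_11_4_ok))))) (B (M (nat_lit 493) (B (L (nat_lit 525) ln13_16_7 ln13_16_7_ok) (M (nat_lit 397) (B (M (nat_lit 492) (B (L (nat_lit 524) ln13_12_5 ln13_12_5_ok) (M (nat_lit 365) (B (L (nat_lit 460) ln12_15_6 ln12_15_6_ok) (M (nat_lit 494) (B (L (nat_lit 462) ln13_11_4 ln13_11_4_ok) (L (nat_lit 526) ln13_12_4 ln13_12_4_ok))))))) (B (M (nat_lit 395) (B (M (nat_lit 430) (B (L (nat_lit 394) ln10_12_0 ln10_12_0_ok) (L (nat_lit 431) ln15_13_3 ln15_13_3_ok))) (M (nat_lit 363) (B (M (nat_lit 398) (B (L (nat_lit 362) ln14_12_3 ln14_12_3_ok) (L (nat_lit 366) ln13_15_6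 ln13_15_6_ok))) (M (nat_lit 492) (B (L (nat_lit 460) ln12_15_7 ln12_15_7_ok) (L (nat_lit 524) ln13_12_5 ln13_12_5_ok))))))) (M (nat_lit 365) (B (M (nat_lit 366) (B (L (nat_lit 334) ln13_14_6 ln13_14_6_ok) (L (nat_lit 398) ln13_15_6 ln13_15_6_ok))) (M (nat_lit 494) (B (L (nat_lit 462) ln13_11_4 ln13_11_4_ok) (L (nat_lit 526) ln13_12_4 ln13_12_4_ok)))))))))) (B (M (nat_lit 364) (B (L (nat_lit 332) ln12_10_4 ln12_10_4_ok) (M (nat_lit 493) (B (L (nat_lit 460) ln12_11_4 ln12_11_4_ok) (L (nat_lit 525) ln13_16_7 ln13_16_7_ok))))) c40_n3486))))) (nat_lit 5954262831509113917970671778902343783532342804327837356357830143065656733685921768742376304727131933651871260571575937852568135413341880320) (nat_lit 384428669056820918488532231088623214145674963220929504211807256672455701469777383101134223448785111219070243962603494271116904975709872484679876115129148899328) (nat_lit 384428669056820918488532231088623214145674963220929504211807256672455701469777383101134223448785111219070243962603494271116904975709872484679876115129148899328)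 (by decide +kernel)
noncomputable def c40_n3527 : Cert := (M (nat_lit 493) (B (M (nat_lit 396) (B (L (nat_lit 525) ln13_16_7 ln13_16_7_ok) (M (nat_lit 364) (B (L (nat_lit 332) ln12_10_4 ln12_10_4_ok) (L (nat_lit 397) ln13_15_7 ln13_15_7_ok))))) (B (M (nat_lit 397) (B (M (nat_lit 396) (B (L (nat_lit 364) ln13_15_7 ln13_15_7_ok) (L (nat_lit 525) ln13_16_7 ln13_16_7_ok))) (M (nat_lit 365) (B (M (nat_lit 366) (B (L (nat_lit 334) ln13_14_6 ln13_14_6_ok) (L (nat_lit 398) ln13_15_6 ln13_15_6_ok))) (M (nat_lit 494) (B (L (nat_lit 462) ln13_11_4 ln13_11_4_ok) (L (nat_lit 526) ln13_12_4 ln13_12_4_ok))))))) (B (M (nat_lit 397) (B (M (nat_lit 398) (B (L (nat_lit 366) ln13_15_6 ln13_15_6_ok) (M (nat_lit 525) (B (L (nat_lit 396) ln13_16_7 ln13_16_7_ok) (L (nat_lit 430) ln13_16_6 ln13_16_6_ok))))) (B (M (nat_lit 525) (B (L (nat_lit 396) ln13_16_7 ln13_16_7_ok) (M (nat_lit 524) (B (L (nat_lit 492) ln13_12_5 ln13_12_5_ok)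 (L (nat_lit 556) ln13_13_5 ln13_13_5_ok))))) (M (nat_lit 365) (B (M (nat_lit 366) (B (L (nat_lit 334) ln13_14_6 ln13_14_6_ok) (L (nat_lit 398) ln13_15_6 ln13_15_6_ok))) (M (nat_lit 494) (B (L (nat_lit 462) ln13_11_4 ln13_11_4_ok) (L (nat_lit 526) ln13_12_4 ln13_12_4_ok)))))))) (B (M (nat_lit 397) (B (M (nat_lit 398) (B (L (nat_lit 366) ln13_15_6 ln13_15_6_ok) (M (nat_lit 525) (B (L (nat_lit 430) ln13_16_6 ln13_16_6_ok) (M (nat_lit 526) (B (L (nat_lit 494) ln13_12_4 ln13_12_4_ok) (L (nat_lit 558) ln13_13_4 ln13_13_4_ok))))))) (B (M (nat_lit 525) (B (M (nat_lit 524) (B (L (nat_lit 492) ln13_12_5 ln13_12_5_ok) (L (nat_lit 556) ln13_13_5 ln13_13_5_ok))) (M (nat_lit 526) (B (L (nat_lit 494) ln13_12_4 ln13_12_4_ok) (L (nat_lit 558) ln13_13_4 ln13_13_4_ok))))) (B (M (nat_lit 525) (B (M (nat_lit 398) (B (L (nat_lit 366) ln13_15_6 ln13_15_6_ok) (L (nat_lit 430) ln13_16_6 ln13_16_6_ok))) (M (nat_lit 524) (B (L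 (nat_lit 492) ln13_12_5 ln13_12_5_ok) (L (nat_lit 556) ln13_13_5 ln13_13_5_ok))))) (M (nat_lit 365) (B (M (nat_lit 366) (B (L (nat_lit 334) ln13_14_6 ln13_14_6_ok) (L (nat_lit 398) ln13_15_6 ln13_15_6_ok))) (M (nat_lit 494) (B (L (nat_lit 462) ln13_11_4 ln13_11_4_ok) (L (nat_lit 526) ln13_12_4 ln13_12_4_ok))))))))) (B (M (nat_lit 525) (B (L (nat_lit 396) ln13_16_7 ln13_16_7_ok) (M (nat_lit 557) (B (M (nat_lit 430) (B (L (nat_lit 398) ln13_16_6 ln13_16_6_ok) (L (nat_lit 462) ln13_17_6 ln13_17_6_ok))) (M (nat_lit 558) (B (L (nat_lit 526) ln13_13_4 ln13_13_4_ok) (L (nat_lit 590) ln13_14_4 ln13_14_4_ok))))))) (M (nat_lit 397) (B (M (nat_lit 365) (B (M (nat_lit 364) (B (L (nat_lit 332) ln13_14_7 ln13_14_7_ok) (L (nat_lit 396) ln13_15_7 ln13_15_7_ok))) (M (nat_lit 366) (B (L (nat_lit 334) ln13_14_6 ln13_14_6_ok) (L (nat_lit 398) ln13_15_6 ln13_15_6_ok))))) (B (M (nat_lit 365) (B (M (nat_lit 366) (B (L (nat_lit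 334) ln13_14_6 ln13_14_6_ok) (L (nat_lit 398) ln13_15_6 ln13_15_6_ok))) (M (nat_lit 494) (B (L (nat_lit 462) ln13_11_4 ln13_11_4_ok) (L (nat_lit 526) ln13_12_4 ln13_12_4_ok))))) (B (M (nat_lit 365) (B (M (nat_lit 364) (B (L (nat_lit 332) ln13_14_7 ln13_14_7_ok) (L (nat_lit 396) ln13_15_7 ln13_15_7_ok))) (M (nat_lit 494) (B (L (nat_lit 462) ln13_11_4 ln13_11_4_ok) (L (nat_lit 526) ln13_12_4 ln13_12_4_ok))))) (M (nat_lit 396) (B (L (nat_lit 364) ln13_15_7 ln13_15_7_ok) (M (nat_lit 398) (B (L (nat_lit 366) ln13_15_6 ln13_15_6_ok) (M (nat_lit 395) (B (M (nat_lit 394) (B (L (nat_lit 393) ln9_12_0 ln9_12_0_ok) (L (nat_lit 430) ln10_12_0 ln10_12_0_ok))) (B (M (nat_lit 430) (B (L (nat_lit 394) ln10_12_0 ln10_12_0_ok) (L (nat_lit 431) ln11_12_0 ln11_12_0_ok))) (B (M (nat_lit 431) (B (L (nat_lit 430) ln11_12_0 ln11_12_0_ok) (M (nat_lit 399) (B (L (nat_lit 432) ln12_12_0 ln12_12_0_ok) (L (nat_lit 400) ln16_12_1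 ln16_12_1_ok))))) (M (nat_lit 394) (B (L (nat_lit 393) ln9_12_0 ln9_12_0_ok) (M (nat_lit 362) (B (L (nat_lit 361) ln13_12_3 ln13_12_3_ok) (L (nat_lit 363) ln14_12_3 ln14_12_3_ok)))))))))))))))))))))))
noncomputable def c40_n3557 : Cert := (M (nat_lit 396) (B (M (nat_lit 493) (B (L (nat_lit 525) ln13_16_7 ln13_16_7_ok) (M (nat_lit 364) (B (L (nat_lit 332) ln12_10_4 ln12_10_4_ok) (L (nat_lit 397) ln13_15_7 ln13_15_7_ok))))) (B (M (nat_lit 493) (B (L (nat_lit 525) ln13_16_7 ln13_16_7_ok) (M (nat_lit 364) (B (L (nat_lit 397) ln13_15_7 ln13_15_7_ok) (L (nat_lit 460) ln12_11_4 ln12_11_4_ok))))) (B (M (nat_lit 397) (B (M (nat_lit 493) (B (L (nat_lit 525) ln13_16_7 ln13_16_7_ok) (M (nat_lit 492) (B (L (nat_lit 524) ln13_12_5 ln13_12_5_ok) (M (nat_lit 365) (B (L (nat_lit 460) ln12_15_6 ln12_15_6_ok) (M (nat_lit 366) (B (L (nat_lit 334) ln13_14_6 ln13_14_6_ok) (L (nat_lit 398) ln13_15_6 ln13_15_6_ok))))))))) (B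 (M (nat_lit 395) (B (M (nat_lit 394) (B (L (nat_lit 393) ln9_12_0 ln9_12_0_ok) (L (nat_lit 430) ln10_12_0 ln10_12_0_ok))) (B (M (nat_lit 430) (B (L (nat_lit 394) ln10_12_0 ln10_12_0_ok) (L (nat_lit 431) ln15_13_3 ln15_13_3_ok))) (M (nat_lit 492) (B (M (nat_lit 460) (B (L (nat_lit 363) ln12_15_7 ln12_15_7_ok) (L (nat_lit 365) ln12_15_6 ln12_15_6_ok))) (B (M (nat_lit 460) (B (L (nat_lit 365) ln12_15_6 ln12_15_6_ok) (L (nat_lit 524) ln12_16_6 ln12_16_6_ok))) (B (M (nat_lit 460) (B (L (nat_lit 363) ln12_15_7 ln12_15_7_ok) (L (nat_lit 524) ln12_16_6 ln12_16_6_ok))) (M (nat_lit 493) (B (L (nat_lit 525) ln13_16_7 ln13_16_7_ok) (L (nat_lit 524) ln13_12_5 ln13_12_5_ok)))))))))) (B (M (nat_lit 493) (B (L (nat_lit 525) ln13_16_7 ln13_16_7_ok) (M (nat_lit 395) (B (M (nat_lit 394) (B (L (nat_lit 393) ln9_12_0 ln9_12_0_ok) (L (nat_lit 430) ln10_12_0 ln10_12_0_ok))) (B (M (nat_lit 430) (B (L (nat_lit 394) ln10_12_0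 ln10_12_0_ok) (L (nat_lit 431) ln15_13_3 ln15_13_3_ok))) (M (nat_lit 363) (B (M (nat_lit 398) (B (L (nat_lit 362) ln14_12_3 ln14_12_3_ok) (L (nat_lit 366) ln13_15_6 ln13_15_6_ok))) (M (nat_lit 492) (B (L (nat_lit 460) ln12_15_7 ln12_15_7_ok) (L (nat_lit 524) ln13_12_5 ln13_12_5_ok)))))))))) (B (M (nat_lit 398) (B (M (nat_lit 493) (B (L (nat_lit 366) ln13_15_6 ln13_15_6_ok) (L (nat_lit 525) ln13_16_7 ln13_16_7_ok))) (M (nat_lit 395) (B (M (nat_lit 394) (B (L (nat_lit 393) ln9_12_0 ln9_12_0_ok) (L (nat_lit 430) ln10_12_0 ln10_12_0_ok))) (B (M (nat_lit 430) (B (L (nat_lit 394) ln10_12_0 ln10_12_0_ok) (L (nat_lit 431) ln11_12_0 ln11_12_0_ok))) (B (M (nat_lit 431) (B (L (nat_lit 430) ln11_12_0 ln11_12_0_ok) (M (nat_lit 399) (B (L (nat_lit 432) ln12_12_0 ln12_12_0_ok) (L (nat_lit 400) ln16_12_1 ln16_12_1_ok))))) (M (nat_lit 394) (B (L (nat_lit 393) ln9_12_0 ln9_12_0_ok) (M (nat_lit 362) (B (L (nat_lit 361)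 ln13_12_3 ln13_12_3_ok) (L (nat_lit 363) ln14_12_3 ln14_12_3_ok))))))))))) (M (nat_lit 365) (B (M (nat_lit 333) (B (L (nat_lit 301) ln13_9_5 ln13_9_5_ok) (L (nat_lit 460) ln13_10_5 ln13_10_5_ok))) (B (M (nat_lit 460) (B (L (nat_lit 333) ln13_10_5 ln13_10_5_ok) (L (nat_lit 492) ln12_15_6 ln12_15_6_ok))) (M (nat_lit 366) (B (L (nat_lit 334) ln13_14_6 ln13_14_6_ok) (M (nat_lit 395) (B (L (nat_lit 394) ln10_12_2 ln10_12_2_ok) (M (nat_lit 367) (B (L (nat_lit 368) ln16_11_1 ln16_11_1_ok) (L (nat_lit 398) ln11_12_2 ln11_12_2_ok))))))))))))))) (B (M (nat_lit 364) (B (L (nat_lit 332) ln12_10_4 ln12_10_4_ok) (M (nat_lit 493) (B (L (nat_lit 460) ln12_11_4 ln12_11_4_ok) (L (nat_lit 525) ln13_16_7 ln13_16_7_ok))))) (M (nat_lit 364) (B (L (nat_lit 332) ln12_10_4 ln12_10_4_ok) (M (nat_lit 460) (B (M (nat_lit 459) (B (L (nat_lit 491) ln12_11_5 ln12_11_5_ok) (M (nat_lit 430) (B (L (nat_lit 431) ln15_13_1 ln15_13_1_ok)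 (L (nat_lit 458) ln10_14_2 ln10_14_2_ok))))) (M (nat_lit 492) (B (M (nat_lit 363) (B (L (nat_lit 331) ln12_14_7 ln12_14_7_ok) (L (nat_lit 395) ln12_15_7 ln12_15_7_ok))) (M (nat_lit 524) (B (L (nat_lit 397) ln12_16_6 ln12_16_6_ok) (L (nat_lit 556) ln12_17_6 ln12_17_6_ok))))))))))))))
theorem c40_s3634 : Sem (nat_lit 5954262831509113917970671778902343783532342804327837356357830143065656733685921768742376304727131933651871260571575937852568135413341880320) (nat_lit 329510287769382699739862721178229340425153858401755538606576034654347574052028919064301579183325772599150013934531847341206614670085906432326333208840644853760) (nat_lit 329510287769382699739862721178229340425153858401755538606576034654347574052028919064301579183325772599150013934531847341206614670085906432326333208840644853760) :=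
  sem_of_chk (M (nat_lit 396) (B (M (nat_lit 364) (B (L (nat_lit 332) ln12_10_4 ln12_10_4_ok) (M (nat_lit 493) (B (L (nat_lit 460) ln12_11_4 ln12_11_4_ok) (L (nat_lit 525) ln13_16_7 ln13_16_7_ok))))) (B (M (nat_lit 493) (B (L (nat_lit 525) ln13_16_7 ln13_16_7_ok) (M (nat_lit 364) (B (L (nat_lit 397) ln13_15_7 ln13_15_7_ok) (L (nat_lit 460) ln12_11_4 ln12_11_4_ok))))) (B (M (nat_lit 397) (B (M (nat_lit 493) (B (L (nat_lit 525) ln13_16_7 ln13_16_7_ok) (M (nat_lit 365) (B (M (nat_lit 366) (B (L (nat_lit 334) ln13_14_6 ln13_14_6_ok) (L (nat_lit 398) ln13_15_6 ln13_15_6_ok))) (M (nat_lit 494) (B (L (nat_lit 462) ln13_11_4 ln13_11_4_ok) (L (nat_lit 526) ln13_12_4 ln13_12_4_ok))))))) (B (M (nat_lit 493) (B (L (nat_lit 525) ln13_16_7 ln13_16_7_ok) (M (nat_lit 365) (B (M (nat_lit 333) (B (L (nat_lit 301) ln13_9_5 ln13_9_5_ok) (L (nat_lit 460) ln13_10_5 ln13_10_5_ok))) (M (nat_lit 494) (B (L (nat_lit 462) ln13_11_4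 ln13_11_4_ok) (L (nat_lit 526) ln13_12_4 ln13_12_4_ok))))))) (B (M (nat_lit 398) (B (M (nat_lit 493) (B (L (nat_lit 366) ln13_15_6 ln13_15_6_ok) (L (nat_lit 525) ln13_16_7 ln13_16_7_ok))) (M (nat_lit 395) (B (M (nat_lit 394) (B (L (nat_lit 393) ln9_12_0 ln9_12_0_ok) (L (nat_lit 430) ln10_12_0 ln10_12_0_ok))) (B (M (nat_lit 430) (B (L (nat_lit 394) ln10_12_0 ln10_12_0_ok) (L (nat_lit 431) ln11_12_0 ln11_12_0_ok))) (B (M (nat_lit 431) (B (L (nat_lit 430) ln11_12_0 ln11_12_0_ok) (M (nat_lit 399) (B (L (nat_lit 432) ln12_12_0 ln12_12_0_ok) (L (nat_lit 400) ln16_12_1 ln16_12_1_ok))))) (M (nat_lit 394) (B (L (nat_lit 393) ln9_12_0 ln9_12_0_ok) (M (nat_lit 362) (B (L (nat_lit 361) ln13_12_3 ln13_12_3_ok) (L (nat_lit 363) ln14_12_3 ln14_12_3_ok))))))))))) (M (nat_lit 365) (B (M (nat_lit 462) (B (L (nat_lit 494) ln13_11_4 ln13_11_4_ok) (M (nat_lit 333) (B (L (nat_lit 301) ln13_9_5 ln13_9_5_ok) (L (nat_lit 430)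 ln13_10_4 ln13_10_4_ok))))) (B (M (nat_lit 333) (B (M (nat_lit 334) (B (L (nat_lit 302) ln13_13_6 ln13_13_6_ok) (L (nat_lit 366) ln13_14_6 ln13_14_6_ok))) (M (nat_lit 462) (B (L (nat_lit 430) ln13_10_4 ln13_10_4_ok) (L (nat_lit 494) ln13_11_4 ln13_11_4_ok))))) (M (nat_lit 366) (B (L (nat_lit 334) ln13_14_6 ln13_14_6_ok) (M (nat_lit 395) (B (L (nat_lit 394) ln10_12_2 ln10_12_2_ok) (M (nat_lit 367) (B (L (nat_lit 368) ln16_11_1 ln16_11_1_ok) (L (nat_lit 398) ln11_12_2 ln11_12_2_ok)))))))))))))) (B (M (nat_lit 493) (B (L (nat_lit 525) ln13_16_7 ln13_16_7_ok) (M (nat_lit 364) (B (L (nat_lit 332) ln12_10_4 ln12_10_4_ok) (L (nat_lit 397) ln13_15_7 ln13_15_7_ok))))) (M (nat_lit 365) (B (M (nat_lit 364) (B (L (nat_lit 332) ln12_10_4 ln12_10_4_ok) (M (nat_lit 333) (B (L (nat_lit 460) ln12_14_6 ln12_14_6_ok) (M (nat_lit 301) (B (L (nat_lit 269) ln13_8_5 ln13_8_5_ok) (L (nat_lit 397) ln13_9_5 ln13_9_5_ok)))))))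 (B (M (nat_lit 430) (B (M (nat_lit 395) (B (L (nat_lit 431) ln15_13_3 ln15_13_3_ok) (M (nat_lit 394) (B (L (nat_lit 393) ln9_12_0 ln9_12_0_ok) (L (nat_lit 397) ln10_12_0 ln10_12_0_ok))))) (B (M (nat_lit 333) (B (M (nat_lit 364) (B (L (nat_lit 332) ln12_10_4 ln12_10_4_ok) (L (nat_lit 460) ln12_14_6 ln12_14_6_ok))) (M (nat_lit 397) (B (L (nat_lit 301) ln13_9_5 ln13_9_5_ok) (L (nat_lit 462) ln13_10_4 ln13_10_4_ok))))) (M (nat_lit 460) (B (M (nat_lit 364) (B (L (nat_lit 332) ln12_10_4 ln12_10_4_ok) (L (nat_lit 333) ln12_14_6 ln12_14_6_ok))) (M (nat_lit 431) (B (L (nat_lit 395) ln15_13_3 ln15_13_3_ok) (L (nat_lit 459) ln15_13_1 ln15_13_1_ok)))))))) (B (M (nat_lit 364) (B (L (nat_lit 332) ln12_10_4 ln12_10_4_ok) (M (nat_lit 460) (B (L (nat_lit 333) ln12_14_6 ln12_14_6_ok) (M (nat_lit 459) (B (L (nat_lit 491) ln12_11_5 ln12_11_5_ok) (M (nat_lit 430) (B (L (nat_lit 431) ln15_13_1 ln15_13_1_ok) (L (nat_lit 458)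 ln10_14_2 ln10_14_2_ok))))))))) (B (M (nat_lit 397) (B (M (nat_lit 462) (B (L (nat_lit 494) ln13_11_4 ln13_11_4_ok) (M (nat_lit 333) (B (L (nat_lit 460) ln13_10_5 ln13_10_5_ok) (L (nat_lit 430) ln13_10_4 ln13_10_4_ok))))) (M (nat_lit 366) (B (L (nat_lit 334) ln13_14_6 ln13_14_6_ok) (M (nat_lit 395) (B (L (nat_lit 394) ln10_12_2 ln10_12_2_ok) (M (nat_lit 367) (B (L (nat_lit 368) ln16_11_1 ln16_11_1_ok) (L (nat_lit 398) ln11_12_2 ln11_12_2_ok))))))))) (M (nat_lit 395) (B (M (nat_lit 430) (B (L (nat_lit 431) ln15_13_3 ln15_13_3_ok) (M (nat_lit 394) (B (L (nat_lit 393) ln9_12_0 ln9_12_0_ok) (L (nat_lit 397) ln10_12_0 ln10_12_0_ok))))) (B (M (nat_lit 366) (B (M (nat_lit 364) (B (L (nat_lit 332) ln12_10_4 ln12_10_4_ok) (L (nat_lit 367) ln15_11_1 ln15_11_1_ok))) (M (nat_lit 397) (B (L (nat_lit 334) ln13_14_6 ln13_14_6_ok) (L (nat_lit 394) ln10_12_2 ln10_12_2_ok))))) (B (M (nat_lit 430) (B (L (nat_lit 431) ln15_13_3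 ln15_13_3_ok) (M (nat_lit 366) (B (M (nat_lit 334) (B (L (nat_lit 397) ln13_14_6 ln13_14_6_ok) (L (nat_lit 398) ln14_10_5 ln14_10_5_ok))) (M (nat_lit 364) (B (L (nat_lit 332) ln12_10_4 ln12_10_4_ok) (L (nat_lit 367) ln15_11_1 ln15_11_1_ok))))))) (M (nat_lit 364) (B (L (nat_lit 332) ln12_10_4 ln12_10_4_ok) (M (nat_lit 394) (B (L (nat_lit 393) ln9_12_2 ln9_12_2_ok) (M (nat_lit 366) (B (L (nat_lit 363) ln14_11_1 ln14_11_1_ok) (L (nat_lit 367) ln15_11_1 ln15_11_1_ok))))))))))))))))))))) (nat_lit 5954262831509113917970671778902343783532342804327837356357830143065656733685921768742376304727131933651871260571575937852568135413341880320) (nat_lit 329510287769382699739862721178229340425153858401755538606576034654347574052028919064301579183325772599150013934531847341206614670085906432326333208840644853760) (nat_lit 329510287769382699739862721178229340425153858401755538606576034654347574052028919064301579183325772599150013934531847341206614670085906432326333208840644853760)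 (by decide +kernel)
noncomputable def c40_n3720 : Cert := (M (nat_lit 396) (B (M (nat_lit 364) (B (L (nat_lit 332) ln12_10_4 ln12_10_4_ok) (M (nat_lit 365) (B (L (nat_lit 333) ln12_14_6 ln12_14_6_ok) (M (nat_lit 492) (B (L (nat_lit 397) ln12_15_6 ln12_15_6_ok) (M (nat_lit 363) (B (L (nat_lit 331) ln12_14_7 ln12_14_7_ok) (L (nat_lit 395) ln12_15_7 ln12_15_7_ok))))))))) (B (M (nat_lit 397) (B (M (nat_lit 365) (B (L (nat_lit 333) ln13_10_5 ln13_10_5_ok) (L (nat_lit 492) ln12_15_6 ln12_15_6_ok))) (B (M (nat_lit 492) (B (L (nat_lit 365) ln12_15_6 ln12_15_6_ok) (L (nat_lit 524) ln12_16_6 ln12_16_6_ok))) (B (M (nat_lit 395) (B (M (nat_lit 492) (B (L (nat_lit 363) ln12_15_7 ln12_15_7_ok) (L (nat_lit 524) ln12_16_6 ln12_16_6_ok))) (M (nat_lit 430) (B (L (nat_lit 394) ln10_12_0 ln10_12_0_ok) (L (nat_lit 431) ln15_13_3 ln15_13_3_ok))))) (M (nat_lit 462) (B (M (nat_lit 365) (B (L (nat_lit 333) ln13_10_5 ln13_10_5_ok)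 (L (nat_lit 494) ln13_11_4 ln13_11_4_ok))) (M (nat_lit 431) (B (M (nat_lit 430) (B (L (nat_lit 395) ln15_13_3 ln15_13_3_ok) (L (nat_lit 432) ln16_13_3 ln16_13_3_ok))) (B (M (nat_lit 430) (B (L (nat_lit 432) ln16_13_3 ln16_13_3_ok) (L (nat_lit 459) ln15_13_1 ln15_13_1_ok))) (B (M (nat_lit 463) (B (L (nat_lit 464) ln16_14_3 ln16_14_3_ok) (L (nat_lit 432) ln12_14_2 ln12_14_2_ok))) (M (nat_lit 430) (B (L (nat_lit 395) ln15_13_3 ln15_13_3_ok) (L (nat_lit 459) ln15_13_1 ln15_13_1_ok))))))))))))) (B (M (nat_lit 364) (B (L (nat_lit 332) ln12_10_4 ln12_10_4_ok) (M (nat_lit 492) (B (M (nat_lit 363) (B (L (nat_lit 331) ln12_14_7 ln12_14_7_ok) (L (nat_lit 395) ln12_15_7 ln12_15_7_ok))) (M (nat_lit 524) (B (L (nat_lit 397) ln12_16_6 ln12_16_6_ok) (L (nat_lit 556) ln12_17_6 ln12_17_6_ok))))))) (B (M (nat_lit 462) (B (M (nat_lit 463) (B (L (nat_lit 464) ln16_14_3 ln16_14_3_ok) (M (nat_lit 431) (B (L (nat_lit 432) ln12_14_2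 ln12_14_2_ok) (M (nat_lit 430) (B (L (nat_lit 395) ln15_13_3 ln15_13_3_ok) (L (nat_lit 459) ln15_13_1 ln15_13_1_ok))))))) (M (nat_lit 365) (B (M (nat_lit 364) (B (L (nat_lit 332) ln12_10_4 ln12_10_4_ok) (L (nat_lit 333) ln12_14_6 ln12_14_6_ok))) (B (M (nat_lit 333) (B (L (nat_lit 364) ln12_14_6 ln12_14_6_ok) (L (nat_lit 397) ln13_10_5 ln13_10_5_ok))) (M (nat_lit 397) (B (L (nat_lit 492) ln12_15_6 ln12_15_6_ok) (L (nat_lit 494) ln13_11_4 ln13_11_4_ok)))))))) (B (M (nat_lit 364) (B (L (nat_lit 332) ln12_10_4 ln12_10_4_ok) (M (nat_lit 365) (B (L (nat_lit 333) ln12_14_6 ln12_14_6_ok) (M (nat_lit 397) (B (L (nat_lit 492) ln12_15_6 ln12_15_6_ok) (M (nat_lit 363) (B (L (nat_lit 331) ln12_14_7 ln12_14_7_ok) (M (nat_lit 362) (B (L (nat_lit 361) ln9_11_0 ln9_11_0_ok) (L (nat_lit 398) ln10_11_0 ln10_11_0_ok))))))))))) (B (M (nat_lit 364) (B (L (nat_lit 332) ln12_10_4 ln12_10_4_ok) (M (nat_lit 365) (B (L (nat_lit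 333) ln12_14_6 ln12_14_6_ok) (M (nat_lit 363) (B (L (nat_lit 331) ln12_14_7 ln12_14_7_ok) (M (nat_lit 395) (B (L (nat_lit 492) ln12_15_7 ln12_15_7_ok) (M (nat_lit 366) (B (L (nat_lit 394) ln14_11_1 ln14_11_1_ok) (L (nat_lit 367) ln15_11_1 ln15_11_1_ok))))))))))) (M (nat_lit 397) (B (M (nat_lit 365) (B (L (nat_lit 333) ln13_10_5 ln13_10_5_ok) (M (nat_lit 364) (B (L (nat_lit 332) ln13_14_7 ln13_14_7_ok) (M (nat_lit 363) (B (L (nat_lit 331) ln12_14_7 ln12_14_7_ok) (M (nat_lit 362) (B (L (nat_lit 361) ln9_11_0 ln9_11_0_ok) (L (nat_lit 398) ln10_11_0 ln10_11_0_ok))))))))) (B (M (nat_lit 462) (B (M (nat_lit 365) (B (L (nat_lit 333) ln13_10_5 ln13_10_5_ok) (L (nat_lit 494) ln13_11_4 ln13_11_4_ok))) (M (nat_lit 431) (B (M (nat_lit 430) (B (L (nat_lit 395) ln15_13_3 ln15_13_3_ok) (L (nat_lit 432) ln16_13_3 ln16_13_3_ok))) (B (M (nat_lit 430) (B (L (nat_lit 432) ln16_13_3 ln16_13_3_ok) (L (nat_lit 459) ln15_13_1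 ln15_13_1_ok))) (B (M (nat_lit 463) (B (L (nat_lit 464) ln16_14_3 ln16_14_3_ok) (L (nat_lit 432) ln12_14_2 ln12_14_2_ok))) (M (nat_lit 430) (B (L (nat_lit 395) ln15_13_3 ln15_13_3_ok) (L (nat_lit 459) ln15_13_1 ln15_13_1_ok))))))))) (M (nat_lit 364) (B (L (nat_lit 332) ln12_10_4 ln12_10_4_ok) (M (nat_lit 363) (B (L (nat_lit 331) ln12_14_7 ln12_14_7_ok) (M (nat_lit 398) (B (L (nat_lit 399) ln15_12_3 ln15_12_3_ok) (M (nat_lit 362) (B (L (nat_lit 361) ln9_11_0 ln9_11_0_ok) (L (nat_lit 395) ln14_12_3 ln14_12_3_ok)))))))))))))))))))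
theorem c40_s3726 : Sem (nat_lit 5954262831509113917970671778902343783532342804327837356357830143065656733685921768742376304727131933651871260571575937852568135413341880320) (nat_lit 353808977629070599200394696120862982086759467633353879833445804790796539750373324768483855210174375483141241957314116426287962735253874733621369301183386150113554464768) (nat_lit 353808977629070599200394696120862982086759467633353879833445804790796539750373324768483855210174375483141241957314116426287962735253874733621369301183386150113554464768) :=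
  sem_of_chk (M (nat_lit 460) (B (M (nat_lit 459) (B (M (nat_lit 430) (B (L (nat_lit 431) ln15_13_1 ln15_13_1_ok) (L (nat_lit 458) ln10_14_2 ln10_14_2_ok))) (M (nat_lit 492) (B (M (nat_lit 524) (B (L (nat_lit 397) ln12_16_6 ln12_16_6_ok) (L (nat_lit 556) ln12_17_6 ln12_17_6_ok))) (M (nat_lit 491) (B (M (nat_lit 396) (B (L (nat_lit 364) ln12_11_5 ln12_11_5_ok) (L (nat_lit 523) ln12_12_5 ln12_12_5_ok))) (M (nat_lit 462) (B (L (nat_lit 490) ln14_14_1 ln14_14_1_ok) (L (nat_lit 463) ln15_14_1 ln15_14_1_ok))))))))) (B (M (nat_lit 459) (B (M (nat_lit 430) (B (L (nat_lit 431) ln15_13_1 ln15_13_1_ok) (L (nat_lit 458) ln10_14_2 ln10_14_2_ok))) (M (nat_lit 492) (B (M (nat_lit 397) (B (L (nat_lit 365) ln13_11_5 ln13_11_5_ok) (L (nat_lit 524) ln12_16_6 ln12_16_6_ok))) (M (nat_lit 491) (B (M (nat_lit 523) (B (L (nat_lit 396) ln12_12_5 ln12_12_5_ok) (L (nat_lit 555) ln11_17_6 ln11_17_6_ok))) (M (nat_lit 462) (B (L (nat_lit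 490) ln14_14_1 ln14_14_1_ok) (L (nat_lit 463) ln15_14_1 ln15_14_1_ok))))))))) (B (M (nat_lit 459) (B (M (nat_lit 430) (B (L (nat_lit 431) ln15_13_1 ln15_13_1_ok) (L (nat_lit 458) ln10_14_2 ln10_14_2_ok))) (B (M (nat_lit 462) (B (M (nat_lit 463) (B (L (nat_lit 464) ln16_14_3 ln16_14_3_ok) (M (nat_lit 491) (B (L (nat_lit 490) ln14_14_1 ln14_14_1_ok) (L (nat_lit 492) ln15_14_1 ln15_14_1_ok))))) (B (M (nat_lit 458) (B (L (nat_lit 457) ln9_14_2 ln9_14_2_ok) (M (nat_lit 490) (B (L (nat_lit 489) ln13_14_1 ln13_14_1_ok) (L (nat_lit 491) ln14_14_1 ln14_14_1_ok))))) (M (nat_lit 463) (B (L (nat_lit 464) ln16_14_3 ln16_14_3_ok) (M (nat_lit 495) (B (L (nat_lit 494) ln11_14_0 ln11_14_0_ok) (L (nat_lit 496) ln12_14_0 ln12_14_0_ok)))))))) (M (nat_lit 430) (B (L (nat_lit 431) ln15_13_1 ln15_13_1_ok) (M (nat_lit 462) (B (M (nat_lit 463) (B (L (nat_lit 464) ln16_14_3 ln16_14_3_ok) (M (nat_lit 495) (B (L (nat_lit 494) ln11_14_0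 ln11_14_0_ok) (L (nat_lit 496) ln12_14_0 ln12_14_0_ok))))) (B (M (nat_lit 494) (B (L (nat_lit 495) ln11_14_0 ln11_14_0_ok) (M (nat_lit 397) (B (L (nat_lit 365) ln13_11_4 ln13_11_4_ok) (L (nat_lit 526) ln14_16_7 ln14_16_7_ok))))) (M (nat_lit 463) (B (L (nat_lit 464) ln16_14_3 ln16_14_3_ok) (M (nat_lit 491) (B (L (nat_lit 490) ln14_14_1 ln14_14_1_ok) (L (nat_lit 492) ln15_14_1 ln15_14_1_ok))))))))))))) (B (M (nat_lit 459) (B (M (nat_lit 430) (B (L (nat_lit 431) ln15_13_1 ln15_13_1_ok) (L (nat_lit 458) ln10_14_2 ln10_14_2_ok))) (B (M (nat_lit 462) (B (M (nat_lit 463) (B (L (nat_lit 464) ln16_14_3 ln16_14_3_ok) (M (nat_lit 491) (B (L (nat_lit 490) ln14_14_1 ln14_14_1_ok) (L (nat_lit 492) ln15_14_1 ln15_14_1_ok))))) (B (M (nat_lit 458) (B (L (nat_lit 457) ln9_14_2 ln9_14_2_ok) (M (nat_lit 490) (B (L (nat_lit 489) ln13_14_1 ln13_14_1_ok) (L (nat_lit 491) ln14_14_1 ln14_14_1_ok))))) (M (nat_lit 463) (B (L (nat_lit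 464) ln16_14_3 ln16_14_3_ok) (M (nat_lit 495) (B (L (nat_lit 494) ln11_14_0 ln11_14_0_ok) (L (nat_lit 496) ln12_14_0 ln12_14_0_ok)))))))) (M (nat_lit 462) (B (M (nat_lit 463) (B (L (nat_lit 464) ln16_14_3 ln16_14_3_ok) (M (nat_lit 491) (B (L (nat_lit 490) ln14_14_1 ln14_14_1_ok) (L (nat_lit 492) ln15_14_1 ln15_14_1_ok))))) (B (M (nat_lit 491) (B (L (nat_lit 490) ln14_14_1 ln14_14_1_ok) (M (nat_lit 396) (B (L (nat_lit 364) ln12_11_5 ln12_11_5_ok) (M (nat_lit 523) (B (L (nat_lit 492) ln12_12_5 ln12_12_5_ok) (L (nat_lit 555) ln11_17_6 ln11_17_6_ok))))))) (M (nat_lit 463) (B (L (nat_lit 464) ln16_14_3 ln16_14_3_ok) (M (nat_lit 495) (B (L (nat_lit 494) ln11_14_0 ln11_14_0_ok) (L (nat_lit 496) ln12_14_0 ln12_14_0_ok))))))))))) (B (M (nat_lit 492) (B (M (nat_lit 397) (B (L (nat_lit 365) ln13_11_5 ln13_11_5_ok) (L (nat_lit 524) ln12_16_6 ln12_16_6_ok))) (B (M (nat_lit 524) (B (L (nat_lit 397) ln12_16_6 ln12_16_6_ok)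 (L (nat_lit 556) ln12_17_6 ln12_17_6_ok))) (B (M (nat_lit 396) (B (M (nat_lit 364) (B (L (nat_lit 332) ln12_10_4 ln12_10_4_ok) (M (nat_lit 363) (B (L (nat_lit 331) ln12_14_7 ln12_14_7_ok) (L (nat_lit 395) ln12_15_7 ln12_15_7_ok))))) (M (nat_lit 524) (B (L (nat_lit 556) ln12_17_6 ln12_17_6_ok) (M (nat_lit 523) (B (L (nat_lit 491) ln12_12_5 ln12_12_5_ok) (L (nat_lit 555) ln12_13_5 ln12_13_5_ok))))))) (M (nat_lit 365) (B (L (nat_lit 397) ln13_11_5 ln13_11_5_ok) (M (nat_lit 491) (B (M (nat_lit 462) (B (L (nat_lit 463) ln15_14_1 ln15_14_1_ok) (M (nat_lit 490) (B (L (nat_lit 459) ln14_14_1 ln14_14_1_ok) (L (nat_lit 489) ln9_15_2 ln9_15_2_ok))))) (M (nat_lit 396) (B (L (nat_lit 523) ln12_12_5 ln12_12_5_ok) (M (nat_lit 364) (B (L (nat_lit 332) ln12_10_4 ln12_10_4_ok) (L (nat_lit 333) ln12_14_6 ln12_14_6_ok))))))))))))) (B (M (nat_lit 492) (B (M (nat_lit 397) (B (L (nat_lit 365) ln13_11_5 ln13_11_5_ok) (L (nat_lit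 524) ln12_16_6 ln12_16_6_ok))) (B (M (nat_lit 524) (B (L (nat_lit 397) ln12_16_6 ln12_16_6_ok) (L (nat_lit 556) ln12_17_6 ln12_17_6_ok))) (B (M (nat_lit 396) (B (M (nat_lit 364) (B (L (nat_lit 332) ln12_10_4 ln12_10_4_ok) (M (nat_lit 363) (B (L (nat_lit 331) ln12_14_7 ln12_14_7_ok) (L (nat_lit 395) ln12_15_7 ln12_15_7_ok))))) (M (nat_lit 524) (B (L (nat_lit 556) ln12_17_6 ln12_17_6_ok) (M (nat_lit 523) (B (L (nat_lit 491) ln12_12_5 ln12_12_5_ok) (L (nat_lit 555) ln12_13_5 ln12_13_5_ok))))))) (M (nat_lit 396) (B (M (nat_lit 365) (B (L (nat_lit 397) ln12_15_6 ln12_15_6_ok) (M (nat_lit 364) (B (L (nat_lit 332) ln12_10_4 ln12_10_4_ok) (L (nat_lit 333) ln12_14_6 ln12_14_6_ok))))) (B (M (nat_lit 364) (B (M (nat_lit 363) (B (L (nat_lit 331) ln12_14_7 ln12_14_7_ok) (L (nat_lit 395) ln12_15_7 ln12_15_7_ok))) (M (nat_lit 365) (B (L (nat_lit 333) ln12_14_6 ln12_14_6_ok) (L (nat_lit 397) ln12_15_6 ln12_15_6_ok)))))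 (B (M (nat_lit 364) (B (L (nat_lit 332) ln12_10_4 ln12_10_4_ok) (M (nat_lit 363) (B (L (nat_lit 331) ln12_14_7 ln12_14_7_ok) (L (nat_lit 395) ln12_15_7 ln12_15_7_ok))))) (M (nat_lit 397) (B (L (nat_lit 365) ln12_15_6 ln12_15_6_ok) (M (nat_lit 395) (B (L (nat_lit 363) ln12_15_7 ln12_15_7_ok) (M (nat_lit 430) (B (L (nat_lit 394) ln10_12_0 ln10_12_0_ok) (L (nat_lit 431) ln15_13_3 ln15_13_3_ok))))))))))))))) (B c40_n3720 (M (nat_lit 459) (B (M (nat_lit 430) (B (L (nat_lit 431) ln15_13_1 ln15_13_1_ok) (L (nat_lit 458) ln10_14_2 ln10_14_2_ok))) (B (M (nat_lit 462) (B (M (nat_lit 463) (B (L (nat_lit 464) ln16_14_3 ln16_14_3_ok) (M (nat_lit 495) (B (L (nat_lit 494) ln11_14_0 ln11_14_0_ok) (L (nat_lit 496) ln12_14_0 ln12_14_0_ok))))) (M (nat_lit 458) (B (L (nat_lit 457) ln9_14_2 ln9_14_2_ok) (M (nat_lit 490) (B (L (nat_lit 489) ln13_14_1 ln13_14_1_ok) (L (nat_lit 491) ln14_14_1 ln14_14_1_ok))))))) (M (nat_lit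 462) (B (M (nat_lit 431) (B (L (nat_lit 430) ln15_13_1 ln15_13_1_ok) (M (nat_lit 463) (B (L (nat_lit 464) ln16_14_3 ln16_14_3_ok) (L (nat_lit 432) ln12_14_2 ln12_14_2_ok))))) (B (M (nat_lit 463) (B (L (nat_lit 464) ln16_14_3 ln16_14_3_ok) (M (nat_lit 495) (B (L (nat_lit 494) ln11_14_0 ln11_14_0_ok) (L (nat_lit 496) ln12_14_0 ln12_14_0_ok))))) (M (nat_lit 430) (B (L (nat_lit 431) ln15_13_1 ln15_13_1_ok) (M (nat_lit 494) (B (L (nat_lit 495) ln11_14_0 ln11_14_0_ok) (M (nat_lit 397) (B (L (nat_lit 365) ln13_11_4 ln13_11_4_ok) (L (nat_lit 526) ln14_16_7 ln14_16_7_ok))))))))))))))))))))) (nat_lit 5954262831509113917970671778902343783532342804327837356357830143065656733685921768742376304727131933651871260571575937852568135413341880320) (nat_lit 353808977629070599200394696120862982086759467633353879833445804790796539750373324768483855210174375483141241957314116426287962735253874733621369301183386150113554464768)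 (nat_lit 353808977629070599200394696120862982086759467633353879833445804790796539750373324768483855210174375483141241957314116426287962735253874733621369301183386150113554464768) (by decide +kernel)
theorem c40_s3727 : Sem (nat_lit 2079502270590611144683810638107312777577327806531862431377859685460965980854219217279980804578104683573043408221052678871730618368) (nat_lit 5065326625825206957456194726139325373816069165369825628942448934104148262294986984760119075932466461930972213087792570651548749039748940811645369758761953681561144431243801133056) (nat_lit 5065326625825206957456194726139325373816069165369825628942448934104148262294986984760119075932466461930972213087792570651548749039748940811645369758761953681561144431243801133056) :=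
  sem_of_chk (M (nat_lit 461) (B (M (nat_lit 396) (B (M (nat_lit 364) (B (L (nat_lit 332) ln12_10_4 ln12_10_4_ok) (M (nat_lit 493) (B (L (nat_lit 460) ln12_11_4 ln12_11_4_ok) (L (nat_lit 525) ln13_16_7 ln13_16_7_ok))))) (B (M (nat_lit 493) (B (L (nat_lit 525) ln13_16_7 ln13_16_7_ok) (M (nat_lit 364) (B (L (nat_lit 397) ln13_15_7 ln13_15_7_ok) (L (nat_lit 460) ln12_11_4 ln12_11_4_ok))))) (B (M (nat_lit 493) (B (L (nat_lit 525) ln13_16_7 ln13_16_7_ok) (M (nat_lit 397) (B (M (nat_lit 492) (B (L (nat_lit 524) ln13_12_5 ln13_12_5_ok) (M (nat_lit 365) (B (L (nat_lit 460) ln12_15_6 ln12_15_6_ok) (M (nat_lit 366) (B (L (nat_lit 334) ln13_14_6 ln13_14_6_ok) (L (nat_lit 398) ln13_15_6 ln13_15_6_ok))))))) (B (M (nat_lit 430) (B (M (nat_lit 395) (B (L (nat_lit 394) ln10_12_0 ln10_12_0_ok) (L (nat_lit 431) ln15_13_3 ln15_13_3_ok))) (B (M (nat_lit 431) (B (L (nat_lit 395) ln15_13_3 ln15_13_3_ok) (L (nat_lit 432) ln16_13_3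 ln16_13_3_ok))) (M (nat_lit 365) (B (M (nat_lit 333) (B (L (nat_lit 460) ln13_10_5 ln13_10_5_ok) (L (nat_lit 462) ln13_10_4 ln13_10_4_ok))) (B (M (nat_lit 492) (B (L (nat_lit 460) ln12_15_6 ln12_15_6_ok) (L (nat_lit 524) ln13_12_5 ln13_12_5_ok))) (M (nat_lit 462) (B (L (nat_lit 333) ln13_10_4 ln13_10_4_ok) (L (nat_lit 494) ln13_11_4 ln13_11_4_ok))))))))) (B (M (nat_lit 395) (B (M (nat_lit 430) (B (L (nat_lit 394) ln10_12_0 ln10_12_0_ok) (L (nat_lit 431) ln15_13_3 ln15_13_3_ok))) (M (nat_lit 363) (B (M (nat_lit 398) (B (L (nat_lit 362) ln14_12_3 ln14_12_3_ok) (L (nat_lit 366) ln13_15_6 ln13_15_6_ok))) (M (nat_lit 492) (B (L (nat_lit 460) ln12_15_7 ln12_15_7_ok) (L (nat_lit 524) ln13_12_5 ln13_12_5_ok))))))) (M (nat_lit 430) (B (M (nat_lit 395) (B (L (nat_lit 394) ln10_12_0 ln10_12_0_ok) (L (nat_lit 431) ln15_13_3 ln15_13_3_ok))) (M (nat_lit 365) (B (M (nat_lit 366) (B (L (nat_lit 334) ln13_14_6 ln13_14_6_ok)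 (L (nat_lit 398) ln13_15_6 ln13_15_6_ok))) (M (nat_lit 462) (B (L (nat_lit 333) ln13_10_4 ln13_10_4_ok) (L (nat_lit 494) ln13_11_4 ln13_11_4_ok))))))))))))) (B (M (nat_lit 493) (B (L (nat_lit 525) ln13_16_7 ln13_16_7_ok) (M (nat_lit 364) (B (L (nat_lit 332) ln12_10_4 ln12_10_4_ok) (L (nat_lit 397) ln13_15_7 ln13_15_7_ok))))) (M (nat_lit 364) (B (L (nat_lit 332) ln12_10_4 ln12_10_4_ok) (M (nat_lit 460) (B (M (nat_lit 459) (B (L (nat_lit 491) ln12_11_5 ln12_11_5_ok) (M (nat_lit 430) (B (L (nat_lit 431) ln15_13_1 ln15_13_1_ok) (L (nat_lit 458) ln10_14_2 ln10_14_2_ok))))) (M (nat_lit 492) (B (M (nat_lit 363) (B (L (nat_lit 331) ln12_14_7 ln12_14_7_ok) (L (nat_lit 395) ln12_15_7 ln12_15_7_ok))) (M (nat_lit 524) (B (L (nat_lit 397) ln12_16_6 ln12_16_6_ok) (L (nat_lit 556) ln12_17_6 ln12_17_6_ok)))))))))))))) (B (K (nat_lit 5954262831509113917970671778902343783532342804327837356357830143065656733685921768742376304727131933651871260571575937852568135413341880320)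 (nat_lit 353808977519233836352202929541420371852957202511706430712917972509378847597312533703704914596085250575599628717941686790005356495588155907139920119441976876768778256384) (nat_lit 353808977519233836352202929541420371852957202511706430712917972509378847597312533703704914596085250575599628717941686790005356495588155907139920119441976876768778256384) c40_s2250) (B (M (nat_lit 493) (B (M (nat_lit 396) (B (L (nat_lit 525) ln13_16_7 ln13_16_7_ok) (M (nat_lit 364) (B (L (nat_lit 397) ln13_15_7 ln13_15_7_ok) (L (nat_lit 460) ln12_11_4 ln12_11_4_ok))))) (B (M (nat_lit 525) (B (L (nat_lit 396) ln13_16_7 ln13_16_7_ok) (M (nat_lit 557) (B (L (nat_lit 460) ln13_17_7 ln13_17_7_ok) (M (nat_lit 556) (B (L (nat_lit 524) ln13_13_5 ln13_13_5_ok) (L (nat_lit 588) ln13_14_5 ln13_14_5_ok))))))) (B (M (nat_lit 525) (B (M (nat_lit 557) (B (L (nat_lit 460) ln13_17_7 ln13_17_7_ok) (M (nat_lit 556) (B (L (nat_lit 524) ln13_13_5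 ln13_13_5_ok) (L (nat_lit 588) ln13_14_5 ln13_14_5_ok))))) (B (M (nat_lit 397) (B (M (nat_lit 524) (B (L (nat_lit 492) ln13_12_5 ln13_12_5_ok) (L (nat_lit 556) ln13_13_5 ln13_13_5_ok))) (M (nat_lit 526) (B (L (nat_lit 494) ln13_12_4 ln13_12_4_ok) (L (nat_lit 558) ln13_13_4 ln13_13_4_ok))))) (M (nat_lit 557) (B (L (nat_lit 460) ln13_17_7 ln13_17_7_ok) (M (nat_lit 558) (B (L (nat_lit 526) ln13_13_4 ln13_13_4_ok) (L (nat_lit 590) ln13_14_4 ln13_14_4_ok)))))))) (B (M (nat_lit 397) (B (M (nat_lit 396) (B (L (nat_lit 364) ln13_15_7 ln13_15_7_ok) (L (nat_lit 525) ln13_16_7 ln13_16_7_ok))) (M (nat_lit 365) (B (M (nat_lit 366) (B (L (nat_lit 334) ln13_14_6 ln13_14_6_ok) (L (nat_lit 398) ln13_15_6 ln13_15_6_ok))) (M (nat_lit 494) (B (L (nat_lit 462) ln13_11_4 ln13_11_4_ok) (L (nat_lit 526) ln13_12_4 ln13_12_4_ok))))))) (M (nat_lit 397) (B (M (nat_lit 492) (B (L (nat_lit 524) ln13_12_5 ln13_12_5_ok) (M (nat_lit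 365) (B (L (nat_lit 460) ln13_11_5 ln13_11_5_ok) (M (nat_lit 494) (B (L (nat_lit 462) ln13_11_4 ln13_11_4_ok) (L (nat_lit 526) ln13_12_4 ln13_12_4_ok))))))) (B (M (nat_lit 460) (B (M (nat_lit 492) (B (L (nat_lit 524) ln12_16_6 ln12_16_6_ok) (M (nat_lit 494) (B (L (nat_lit 526) ln13_12_4 ln13_12_4_ok) (M (nat_lit 495) (B (L (nat_lit 459) ln15_15_3 ln15_15_3_ok) (L (nat_lit 496) ln16_15_3 ln16_15_3_ok))))))) (B (M (nat_lit 396) (B (L (nat_lit 364) ln13_15_7 ln13_15_7_ok) (M (nat_lit 395) (B (M (nat_lit 492) (B (L (nat_lit 363) ln12_15_7 ln12_15_7_ok) (L (nat_lit 524) ln12_16_6 ln12_16_6_ok))) (M (nat_lit 430) (B (L (nat_lit 394) ln10_12_0 ln10_12_0_ok) (L (nat_lit 431) ln15_13_3 ln15_13_3_ok))))))) (M (nat_lit 494) (B (L (nat_lit 526) ln13_12_4 ln13_12_4_ok) (M (nat_lit 459) (B (L (nat_lit 458) ln10_14_0 ln10_14_0_ok) (M (nat_lit 495) (B (L (nat_lit 462) ln11_14_0 ln11_14_0_ok) (L (nat_lit 496) ln16_15_3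 ln16_15_3_ok)))))))))) (B (M (nat_lit 365) (B (M (nat_lit 366) (B (L (nat_lit 334) ln13_14_6 ln13_14_6_ok) (L (nat_lit 398) ln13_15_6 ln13_15_6_ok))) (M (nat_lit 494) (B (L (nat_lit 462) ln13_11_4 ln13_11_4_ok) (L (nat_lit 526) ln13_12_4 ln13_12_4_ok))))) (M (nat_lit 365) (B (M (nat_lit 366) (B (L (nat_lit 334) ln13_14_6 ln13_14_6_ok) (L (nat_lit 398) ln13_15_6 ln13_15_6_ok))) (M (nat_lit 492) (B (L (nat_lit 460) ln13_11_5 ln13_11_5_ok) (L (nat_lit 524) ln13_12_5 ln13_12_5_ok)))))))))))))) (B (M (nat_lit 396) (B (M (nat_lit 493) (B (L (nat_lit 525) ln13_16_7 ln13_16_7_ok) (M (nat_lit 364) (B (L (nat_lit 397) ln13_15_7 ln13_15_7_ok) (L (nat_lit 460) ln12_11_4 ln12_11_4_ok))))) (B (M (nat_lit 397) (B (M (nat_lit 493) (B (L (nat_lit 525) ln13_16_7 ln13_16_7_ok) (M (nat_lit 492) (B (L (nat_lit 524) ln13_12_5 ln13_12_5_ok) (M (nat_lit 365) (B (L (nat_lit 460) ln12_15_6 ln12_15_6_ok) (M (nat_lit 494) (B (L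 (nat_lit 462) ln13_11_4 ln13_11_4_ok) (L (nat_lit 526) ln13_12_4 ln13_12_4_ok))))))))) (B (M (nat_lit 398) (B (M (nat_lit 493) (B (L (nat_lit 366) ln13_15_6 ln13_15_6_ok) (L (nat_lit 525) ln13_16_7 ln13_16_7_ok))) (M (nat_lit 395) (B (M (nat_lit 394) (B (L (nat_lit 393) ln9_12_0 ln9_12_0_ok) (L (nat_lit 430) ln10_12_0 ln10_12_0_ok))) (B (M (nat_lit 430) (B (L (nat_lit 394) ln10_12_0 ln10_12_0_ok) (L (nat_lit 431) ln11_12_0 ln11_12_0_ok))) (B (M (nat_lit 431) (B (L (nat_lit 430) ln11_12_0 ln11_12_0_ok) (M (nat_lit 399) (B (L (nat_lit 432) ln12_12_0 ln12_12_0_ok) (L (nat_lit 400) ln16_12_1 ln16_12_1_ok))))) (M (nat_lit 394) (B (L (nat_lit 393) ln9_12_0 ln9_12_0_ok) (M (nat_lit 362) (B (L (nat_lit 361) ln13_12_3 ln13_12_3_ok) (L (nat_lit 363) ln14_12_3 ln14_12_3_ok))))))))))) (M (nat_lit 460) (B (M (nat_lit 365) (B (L (nat_lit 333) ln13_10_5 ln13_10_5_ok) (L (nat_lit 492) ln12_15_6 ln12_15_6_ok))) (B (M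 (nat_lit 492) (B (L (nat_lit 365) ln12_15_6 ln12_15_6_ok) (L (nat_lit 524) ln12_16_6 ln12_16_6_ok))) (B (M (nat_lit 395) (B (M (nat_lit 492) (B (L (nat_lit 363) ln12_15_7 ln12_15_7_ok) (L (nat_lit 524) ln12_16_6 ln12_16_6_ok))) (M (nat_lit 430) (B (L (nat_lit 394) ln10_12_0 ln10_12_0_ok) (L (nat_lit 431) ln15_13_3 ln15_13_3_ok))))) (M (nat_lit 462) (B (M (nat_lit 365) (B (L (nat_lit 333) ln13_10_5 ln13_10_5_ok) (L (nat_lit 494) ln13_11_4 ln13_11_4_ok))) (M (nat_lit 431) (B (M (nat_lit 430) (B (L (nat_lit 395) ln15_13_3 ln15_13_3_ok) (L (nat_lit 432) ln16_13_3 ln16_13_3_ok))) (B (M (nat_lit 430) (B (L (nat_lit 432) ln16_13_3 ln16_13_3_ok) (L (nat_lit 459) ln15_13_1 ln15_13_1_ok))) (B (M (nat_lit 463) (B (L (nat_lit 464) ln16_14_3 ln16_14_3_ok) (L (nat_lit 432) ln12_14_2 ln12_14_2_ok))) (M (nat_lit 430) (B (L (nat_lit 395) ln15_13_3 ln15_13_3_ok) (L (nat_lit 459) ln15_13_1 ln15_13_1_ok)))))))))))))))) (B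 (M (nat_lit 364) (B (L (nat_lit 332) ln12_10_4 ln12_10_4_ok) (M (nat_lit 493) (B (L (nat_lit 460) ln12_11_4 ln12_11_4_ok) (L (nat_lit 525) ln13_16_7 ln13_16_7_ok))))) (B (M (nat_lit 493) (B (L (nat_lit 525) ln13_16_7 ln13_16_7_ok) (M (nat_lit 364) (B (L (nat_lit 332) ln12_10_4 ln12_10_4_ok) (L (nat_lit 397) ln13_15_7 ln13_15_7_ok))))) (M (nat_lit 364) (B (L (nat_lit 332) ln12_10_4 ln12_10_4_ok) (M (nat_lit 460) (B (M (nat_lit 459) (B (L (nat_lit 491) ln12_11_5 ln12_11_5_ok) (M (nat_lit 430) (B (L (nat_lit 431) ln15_13_1 ln15_13_1_ok) (L (nat_lit 458) ln10_14_2 ln10_14_2_ok))))) (M (nat_lit 492) (B (M (nat_lit 363) (B (L (nat_lit 331) ln12_14_7 ln12_14_7_ok) (L (nat_lit 395) ln12_15_7 ln12_15_7_ok))) (M (nat_lit 524) (B (L (nat_lit 397) ln12_16_6 ln12_16_6_ok) (L (nat_lit 556) ln12_17_6 ln12_17_6_ok)))))))))))))) (B (K (nat_lit 5954262831509113917970671778902343783532342804327837356357830143065656733685921768742376304727131933651871260571575937852568135413341880320)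 (nat_lit 1013065325259390452353418356913128693434059691065411923945240966784060033033978821256625622488018311564754781887746713804239935948135409750003341182490876405335397717666439364608) (nat_lit 1013065325259390452353418356913128693434059691065411923945240966784060033033978821256625622488018311564754781887746713804239935948135409750003341182490876405335397717666439364608) c40_s2400) (B (K (nat_lit 5954262831509113917970671778902343783532342804327837356357830143065656733685921768742376304727131933651871260571575937852568135413341880320) (nat_lit 1769044887046985368877042448297601049291827204712887311954428449223446184424844588006392135037467939585436564675447903569486211233480598021429720126407812596836434182144) (nat_lit 1769044887046985368877042448297601049291827204712887311954428449223446184424844588006392135037467939585436564675447903569486211233480598021429720126407812596836434182144) c40_s2500)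 (B (K (nat_lit 5954262831509113917970671778902343783532342804327837356357830143065656733685921768742376304727131933651871260571575937852568135413341880320) (nat_lit 1769044887046985368878640783555362837325385261270379110071575777654983353002102653016410568213485864995969252814029304518924637813836537450960636437606994933452948635648) (nat_lit 1769044887046985368878640783555362837325385261270379110071575777654983353002102653016410568213485864995969252814029304518924637813836537450960636437606994933452948635648) c40_s2588) (B (M (nat_lit 493) (B (M (nat_lit 396) (B (L (nat_lit 525) ln13_16_7 ln13_16_7_ok) (M (nat_lit 364) (B (L (nat_lit 397) ln13_15_7 ln13_15_7_ok) (L (nat_lit 460) ln12_11_4 ln12_11_4_ok))))) (B (M (nat_lit 525) (B (L (nat_lit 396) ln13_16_7 ln13_16_7_ok) (M (nat_lit 557) (B (L (nat_lit 460) ln13_17_7 ln13_17_7_ok) (M (nat_lit 556) (B (L (nat_lit 524) ln13_13_5 ln13_13_5_ok) (L (nat_lit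 588) ln13_14_5 ln13_14_5_ok))))))) (B (M (nat_lit 525) (B (M (nat_lit 557) (B (L (nat_lit 460) ln13_17_7 ln13_17_7_ok) (M (nat_lit 558) (B (L (nat_lit 526) ln13_13_4 ln13_13_4_ok) (L (nat_lit 590) ln13_14_4 ln13_14_4_ok))))) (B (M (nat_lit 397) (B (M (nat_lit 524) (B (L (nat_lit 492) ln13_12_5 ln13_12_5_ok) (L (nat_lit 556) ln13_13_5 ln13_13_5_ok))) (M (nat_lit 526) (B (L (nat_lit 494) ln13_12_4 ln13_12_4_ok) (L (nat_lit 558) ln13_13_4 ln13_13_4_ok))))) (M (nat_lit 557) (B (L (nat_lit 460) ln13_17_7 ln13_17_7_ok) (M (nat_lit 430) (B (L (nat_lit 398) ln13_16_6 ln13_16_6_ok) (L (nat_lit 462) ln13_17_6 ln13_17_6_ok)))))))) (B (M (nat_lit 396) (B (L (nat_lit 525) ln13_16_7 ln13_16_7_ok) (M (nat_lit 364) (B (L (nat_lit 332) ln12_10_4 ln12_10_4_ok) (L (nat_lit 397) ln13_15_7 ln13_15_7_ok))))) (M (nat_lit 397) (B (M (nat_lit 492) (B (L (nat_lit 524) ln13_12_5 ln13_12_5_ok) (M (nat_lit 365) (B (L (nat_lit 460)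 ln13_11_5 ln13_11_5_ok) (M (nat_lit 494) (B (L (nat_lit 462) ln13_11_4 ln13_11_4_ok) (L (nat_lit 526) ln13_12_4 ln13_12_4_ok))))))) (B (M (nat_lit 460) (B (M (nat_lit 492) (B (L (nat_lit 524) ln12_16_6 ln12_16_6_ok) (M (nat_lit 494) (B (L (nat_lit 526) ln13_12_4 ln13_12_4_ok) (M (nat_lit 459) (B (L (nat_lit 458) ln10_14_0 ln10_14_0_ok) (L (nat_lit 495) ln15_15_3 ln15_15_3_ok))))))) (B (M (nat_lit 492) (B (L (nat_lit 524) ln12_16_6 ln12_16_6_ok) (M (nat_lit 494) (B (L (nat_lit 526) ln13_12_4 ln13_12_4_ok) (M (nat_lit 495) (B (L (nat_lit 459) ln15_15_3 ln15_15_3_ok) (L (nat_lit 496) ln16_15_3 ln16_15_3_ok))))))) (B (M (nat_lit 492) (B (L (nat_lit 524) ln12_16_6 ln12_16_6_ok) (M (nat_lit 491) (B (M (nat_lit 396) (B (L (nat_lit 364) ln13_15_7 ln13_15_7_ok) (L (nat_lit 523) ln12_12_5 ln12_12_5_ok))) (M (nat_lit 490) (B (L (nat_lit 489) ln9_15_2 ln9_15_2_ok) (L (nat_lit 462) ln10_15_2 ln10_15_2_ok))))))) (M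 (nat_lit 494) (B (L (nat_lit 526) ln13_12_4 ln13_12_4_ok) (M (nat_lit 459) (B (L (nat_lit 458) ln10_14_0 ln10_14_0_ok) (M (nat_lit 495) (B (L (nat_lit 462) ln11_14_0 ln11_14_0_ok) (L (nat_lit 496) ln16_15_3 ln16_15_3_ok))))))))))) (B (M (nat_lit 365) (B (M (nat_lit 366) (B (L (nat_lit 334) ln13_14_6 ln13_14_6_ok) (L (nat_lit 398) ln13_15_6 ln13_15_6_ok))) (M (nat_lit 494) (B (L (nat_lit 462) ln13_11_4 ln13_11_4_ok) (L (nat_lit 526) ln13_12_4 ln13_12_4_ok))))) (M (nat_lit 365) (B (M (nat_lit 366) (B (L (nat_lit 334) ln13_14_6 ln13_14_6_ok) (L (nat_lit 398) ln13_15_6 ln13_15_6_ok))) (M (nat_lit 492) (B (L (nat_lit 460) ln13_11_5 ln13_11_5_ok) (L (nat_lit 524) ln13_12_5 ln13_12_5_ok)))))))))))))) (B (K (nat_lit 5954262831509113917970671778902343783532342804327837356357830143065656733685921768742376304727131933651871260571575937852568135413341880320) (nat_lit 5065326623820289419242291692120477063800169451044456046079454547286302676919715946100390104624870772264985825271793615334511465495692724471468019270991752118983255587624398618624)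 (nat_lit 5065326623820289419242291692120477063800169451044456046079454547286302676919715946100390104624870772264985825271793615334511465495692724471468019270991752118983255587624398618624) c40_s3183) (B (K (nat_lit 5954262831509113917970671778902343783532342804327837356357830143065656733685921768742376304727131933651871260571575937852568135413341880320) (nat_lit 3656026099897103095247777095808338933925055037387978818039674958693163842150956847372707265392599131168962440610388282343356524932091284856440938516838195689604897570816) (nat_lit 3656026099897103095247777095808338933925055037387978818039674958693163842150956847372707265392599131168962440610388282343356524932091284856440938516838195689604897570816) c40_s3351) (B (K (nat_lit 5954262831509113917970671778902343783532342804327837356357830143065656733685921768742376304727131933651871260571575937852568135413341880320) (nat_lit 1013065325259390452353418356914727028643443093579355019233126718917808662082105065457688946845122390977135418532794167838263575441314796790627527074406575501343612371063973871616)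 (nat_lit 1013065325259390452353418356914727028643443093579355019233126718917808662082105065457688946845122390977135418532794167838263575441314796790627527074406575501343612371063973871616) c40_s3447) (B (K (nat_lit 5954262831509113917970671778902343783532342804327837356357830143065656733685921768742376304727131933651871260571575937852568135413341880320) (nat_lit 384428669056820918488532231088623214145674963220929504211807256672455701469777383101134223448785111219070243962603494271116904975709872484679876115129148899328) (nat_lit 384428669056820918488532231088623214145674963220929504211807256672455701469777383101134223448785111219070243962603494271116904975709872484679876115129148899328) c40_s3487) (B c40_n3527 (B c40_n3557 (B (K (nat_lit 5954262831509113917970671778902343783532342804327837356357830143065656733685921768742376304727131933651871260571575937852568135413341880320) (nat_lit 329510287769382699739862721178229340425153858401755538606576034654347574052028919064301579183325772599150013934531847341206614670085906432326333208840644853760)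 (nat_lit 329510287769382699739862721178229340425153858401755538606576034654347574052028919064301579183325772599150013934531847341206614670085906432326333208840644853760) c40_s3634) (K (nat_lit 5954262831509113917970671778902343783532342804327837356357830143065656733685921768742376304727131933651871260571575937852568135413341880320) (nat_lit 353808977629070599200394696120862982086759467633353879833445804790796539750373324768483855210174375483141241957314116426287962735253874733621369301183386150113554464768) (nat_lit 353808977629070599200394696120862982086759467633353879833445804790796539750373324768483855210174375483141241957314116426287962735253874733621369301183386150113554464768) c40_s3726))))))))))))))))) (nat_lit 2079502270590611144683810638107312777577327806531862431377859685460965980854219217279980804578104683573043408221052678871730618368) (nat_lit 5065326625825206957456194726139325373816069165369825628942448934104148262294986984760119075932466461930972213087792570651548749039748940811645369758761953681561144431243801133056)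 (nat_lit 5065326625825206957456194726139325373816069165369825628942448934104148262294986984760119075932466461930972213087792570651548749039748940811645369758761953681561144431243801133056) (by decide +kernel)
noncomputable def c40_n3868 : Cert := (M (nat_lit 397) (B (M (nat_lit 492) (B (L (nat_lit 524) ln12_16_6 ln12_16_6_ok) (M (nat_lit 365) (B (L (nat_lit 333) ln13_10_5 ln13_10_5_ok) (L (nat_lit 461) ln13_11_5 ln13_11_5_ok))))) (B (M (nat_lit 492) (B (L (nat_lit 524) ln12_16_6 ln12_16_6_ok) (M (nat_lit 365) (B (L (nat_lit 396) ln12_15_6 ln12_15_6_ok) (L (nat_lit 461) ln13_11_5 ln13_11_5_ok))))) (B (M (nat_lit 396) (B (M (nat_lit 492) (B (L (nat_lit 524) ln12_16_6 ln12_16_6_ok) (M (nat_lit 493) (B (L (nat_lit 525) ln12_12_4 ln12_12_4_ok) (M (nat_lit 364) (B (L (nat_lit 461) ln13_15_7 ln13_15_7_ok) (M (nat_lit 491) (B (L (nat_lit 459) ln12_11_5 ln12_11_5_ok) (L (nat_lit 523) ln12_12_5 ln12_12_5_ok)))))))))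 (B (M (nat_lit 492) (B (L (nat_lit 524) ln12_16_6 ln12_16_6_ok) (M (nat_lit 398) (B (M (nat_lit 427) (B (L (nat_lit 399) ln15_12_1 ln15_12_1_ok) (L (nat_lit 426) ln10_13_2 ln10_13_2_ok))) (M (nat_lit 366) (B (M (nat_lit 395) (B (L (nat_lit 363) ln12_15_7 ln12_15_7_ok) (L (nat_lit 367) ln11_12_2 ln11_12_2_ok))) (M (nat_lit 493) (B (L (nat_lit 461) ln13_15_6 ln13_15_6_ok) (L (nat_lit 525) ln12_12_4 ln12_12_4_ok))))))))) (B (M (nat_lit 398) (B (M (nat_lit 399) (B (L (nat_lit 427) ln15_12_1 ln15_12_1_ok) (L (nat_lit 400) ln16_12_1 ln16_12_1_ok))) (B (M (nat_lit 395) (B (M (nat_lit 363) (B (L (nat_lit 362) ln14_12_3 ln14_12_3_ok) (L (nat_lit 492) ln12_15_7 ln12_15_7_ok))) (B (M (nat_lit 492) (B (L (nat_lit 363) ln12_15_7 ln12_15_7_ok) (L (nat_lit 524) ln12_16_6 ln12_16_6_ok))) (M (nat_lit 426) (B (L (nat_lit 427) ln14_12_1 ln14_12_1_ok) (M (nat_lit 394) (B (L (nat_lit 393) ln9_12_0 ln9_12_0_ok) (L (nat_lit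 425) ln13_12_1 ln13_12_1_ok)))))))) (M (nat_lit 363) (B (M (nat_lit 399) (B (L (nat_lit 364) ln15_12_3 ln15_12_3_ok) (L (nat_lit 400) ln16_12_1 ln16_12_1_ok))) (M (nat_lit 492) (B (L (nat_lit 395) ln12_15_7 ln12_15_7_ok) (L (nat_lit 524) ln12_16_6 ln12_16_6_ok)))))))) (M (nat_lit 461) (B (M (nat_lit 364) (B (L (nat_lit 332) ln12_10_4 ln12_10_4_ok) (L (nat_lit 493) ln13_15_7 ln13_15_7_ok))) (B (M (nat_lit 493) (B (L (nat_lit 364) ln13_15_7 ln13_15_7_ok) (L (nat_lit 525) ln13_16_7 ln13_16_7_ok))) (B (M (nat_lit 398) (B (M (nat_lit 493) (B (L (nat_lit 366) ln13_15_6 ln13_15_6_ok) (L (nat_lit 525) ln13_16_7 ln13_16_7_ok))) (M (nat_lit 399) (B (L (nat_lit 427) ln15_12_1 ln15_12_1_ok) (L (nat_lit 400) ln16_12_1 ln16_12_1_ok))))) (M (nat_lit 459) (B (M (nat_lit 364) (B (L (nat_lit 332) ln12_10_4 ln12_10_4_ok) (L (nat_lit 491) ln12_11_5 ln12_11_5_ok))) (M (nat_lit 426) (B (M (nat_lit 427) (B (L (nat_lit 425)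 ln9_13_2 ln9_13_2_ok) (L (nat_lit 398) ln10_13_2 ln10_13_2_ok))) (B (M (nat_lit 427) (B (L (nat_lit 425) ln9_13_2 ln9_13_2_ok) (L (nat_lit 462) ln10_13_0 ln10_13_0_ok))) (B (M (nat_lit 427) (B (L (nat_lit 398) ln10_13_2 ln10_13_2_ok) (L (nat_lit 462) ln10_13_0 ln10_13_0_ok))) (M (nat_lit 458) (B (L (nat_lit 425) ln13_14_3 ln13_14_3_ok) (L (nat_lit 457) ln9_14_2 ln9_14_2_ok))))))))))))))))) (B (M (nat_lit 492) (B (L (nat_lit 524) ln12_16_6 ln12_16_6_ok) (M (nat_lit 365) (B (L (nat_lit 333) ln13_10_5 ln13_10_5_ok) (L (nat_lit 396) ln12_15_6 ln12_15_6_ok))))) (M (nat_lit 365) (B (L (nat_lit 333) ln13_10_5 ln13_10_5_ok) (M (nat_lit 461) (B (M (nat_lit 462) (B (L (nat_lit 494) ln13_11_4 ln13_11_4_ok) (M (nat_lit 463) (B (L (nat_lit 427) ln15_14_3 ln15_14_3_ok) (L (nat_lit 464) ln16_14_3 ln16_14_3_ok))))) (M (nat_lit 493) (B (M (nat_lit 364) (B (L (nat_lit 332) ln13_14_7 ln13_14_7_ok) (L (nat_lit 396) ln13_15_7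 ln13_15_7_ok))) (B (M (nat_lit 396) (B (L (nat_lit 364) ln13_15_7 ln13_15_7_ok) (L (nat_lit 525) ln13_16_7 ln13_16_7_ok))) (M (nat_lit 366) (B (L (nat_lit 334) ln13_14_6 ln13_14_6_ok) (L (nat_lit 398) ln13_15_6 ln13_15_6_ok)))))))))))))))
theorem c40_s4102 : Sem (nat_lit 2977131416794308094280641461793077210819827790952582581444846287221758209573443874798297761003556369114987972072309673036810407142536249344) (nat_lit 1769044887046985368878640783558339968721297900735190085118782230325880093129739627783587157581374143421463019574110590176787647486686745731383076066795087896652332138496) (nat_lit 1769044887046985368878640783558339968721297900735190085118782230325880093129739627783587157581374143421463019574110590176787647486686745731383076066795087896652332138496) :=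
  sem_of_chk (M (nat_lit 461) (B (M (nat_lit 459) (B (M (nat_lit 493) (B (M (nat_lit 525) (B (L (nat_lit 396) ln13_16_7 ln13_16_7_ok) (L (nat_lit 557) ln13_17_7 ln13_17_7_ok))) (M (nat_lit 458) (B (L (nat_lit 457) ln9_14_2 ln9_14_2_ok) (L (nat_lit 494) ln10_14_0 ln10_14_0_ok))))) (B (M (nat_lit 458) (B (L (nat_lit 457) ln9_14_2 ln9_14_2_ok) (M (nat_lit 462) (B (M (nat_lit 490) (B (L (nat_lit 489) ln13_14_1 ln13_14_1_ok) (L (nat_lit 491) ln14_14_1 ln14_14_1_ok))) (M (nat_lit 494) (B (L (nat_lit 493) ln10_14_0 ln10_14_0_ok) (L (nat_lit 495) ln11_14_0 ln11_14_0_ok))))))) (M (nat_lit 427) (B (M (nat_lit 426) (B (L (nat_lit 425) ln9_13_0 ln9_13_0_ok) (L (nat_lit 462) ln10_13_0 ln10_13_0_ok))) (B (M (nat_lit 462) (B (L (nat_lit 426) ln10_13_0 ln10_13_0_ok) (L (nat_lit 463) ln15_14_3 ln15_14_3_ok))) (B (M (nat_lit 491) (B (M (nat_lit 523) (B (L (nat_lit 396) ln11_16_6 ln11_16_6_ok) (L (nat_lit 555) ln11_17_6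 ln11_17_6_ok))) (M (nat_lit 462) (B (L (nat_lit 463) ln15_14_3 ln15_14_3_ok) (L (nat_lit 490) ln14_14_1 ln14_14_1_ok))))) (M (nat_lit 397) (B (M (nat_lit 365) (B (L (nat_lit 333) ln13_10_5 ln13_10_5_ok) (L (nat_lit 492) ln13_11_5 ln13_11_5_ok))) (M (nat_lit 426) (B (L (nat_lit 398) ln10_13_2 ln10_13_2_ok) (L (nat_lit 425) ln9_13_0 ln9_13_0_ok)))))))))))) (B (M (nat_lit 459) (B (M (nat_lit 493) (B (M (nat_lit 525) (B (L (nat_lit 396) ln13_16_7 ln13_16_7_ok) (L (nat_lit 557) ln13_17_7 ln13_17_7_ok))) (M (nat_lit 458) (B (L (nat_lit 457) ln9_14_2 ln9_14_2_ok) (L (nat_lit 494) ln10_14_0 ln10_14_0_ok))))) (B (M (nat_lit 458) (B (L (nat_lit 457) ln9_14_2 ln9_14_2_ok) (M (nat_lit 462) (B (M (nat_lit 490) (B (L (nat_lit 489) ln13_14_1 ln13_14_1_ok) (L (nat_lit 491) ln14_14_1 ln14_14_1_ok))) (M (nat_lit 494) (B (L (nat_lit 493) ln10_14_0 ln10_14_0_ok) (L (nat_lit 495) ln11_14_0 ln11_14_0_ok))))))) (M (nat_lit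 427) (B (M (nat_lit 426) (B (L (nat_lit 425) ln9_13_0 ln9_13_0_ok) (L (nat_lit 462) ln10_13_0 ln10_13_0_ok))) (B (M (nat_lit 462) (B (L (nat_lit 426) ln10_13_0 ln10_13_0_ok) (L (nat_lit 463) ln15_14_3 ln15_14_3_ok))) (B (M (nat_lit 491) (B (M (nat_lit 523) (B (L (nat_lit 396) ln11_16_6 ln11_16_6_ok) (L (nat_lit 555) ln11_17_6 ln11_17_6_ok))) (M (nat_lit 462) (B (L (nat_lit 463) ln15_14_3 ln15_14_3_ok) (L (nat_lit 490) ln14_14_1 ln14_14_1_ok))))) (M (nat_lit 397) (B (M (nat_lit 426) (B (L (nat_lit 398) ln10_13_2 ln10_13_2_ok) (L (nat_lit 425) ln9_13_0 ln9_13_0_ok))) (M (nat_lit 492) (B (L (nat_lit 365) ln13_11_5 ln13_11_5_ok) (L (nat_lit 524) ln12_16_6 ln12_16_6_ok)))))))))))) (B (M (nat_lit 459) (B (M (nat_lit 493) (B (M (nat_lit 525) (B (L (nat_lit 396) ln13_16_7 ln13_16_7_ok) (L (nat_lit 557) ln13_17_7 ln13_17_7_ok))) (M (nat_lit 458) (B (L (nat_lit 457) ln9_14_2 ln9_14_2_ok) (L (nat_lit 494) ln10_14_0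 ln10_14_0_ok))))) (B (M (nat_lit 458) (B (L (nat_lit 457) ln9_14_2 ln9_14_2_ok) (M (nat_lit 462) (B (M (nat_lit 490) (B (L (nat_lit 489) ln13_14_1 ln13_14_1_ok) (L (nat_lit 491) ln14_14_1 ln14_14_1_ok))) (M (nat_lit 494) (B (L (nat_lit 493) ln10_14_0 ln10_14_0_ok) (L (nat_lit 495) ln11_14_0 ln11_14_0_ok))))))) (M (nat_lit 492) (B (M (nat_lit 524) (B (L (nat_lit 397) ln12_16_6 ln12_16_6_ok) (L (nat_lit 556) ln12_17_6 ln12_17_6_ok))) (M (nat_lit 491) (B (M (nat_lit 523) (B (L (nat_lit 396) ln12_12_5 ln12_12_5_ok) (L (nat_lit 555) ln11_17_6 ln11_17_6_ok))) (M (nat_lit 462) (B (L (nat_lit 490) ln14_14_1 ln14_14_1_ok) (L (nat_lit 463) ln15_14_1 ln15_14_1_ok)))))))))) (B (M (nat_lit 459) (B (M (nat_lit 458) (B (L (nat_lit 457) ln9_14_2 ln9_14_2_ok) (M (nat_lit 426) (B (L (nat_lit 425) ln13_14_3 ln13_14_3_ok) (M (nat_lit 462) (B (L (nat_lit 427) ln10_13_0 ln10_13_0_ok) (M (nat_lit 490) (B (L (nat_lit 489) ln13_14_1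 ln13_14_1_ok) (L (nat_lit 491) ln14_14_1 ln14_14_1_ok))))))))) (B (M (nat_lit 458) (B (L (nat_lit 457) ln9_14_2 ln9_14_2_ok) (M (nat_lit 462) (B (M (nat_lit 490) (B (L (nat_lit 489) ln13_14_1 ln13_14_1_ok) (L (nat_lit 491) ln14_14_1 ln14_14_1_ok))) (M (nat_lit 494) (B (L (nat_lit 493) ln10_14_0 ln10_14_0_ok) (L (nat_lit 495) ln11_14_0 ln11_14_0_ok))))))) (B (M (nat_lit 462) (B (M (nat_lit 427) (B (L (nat_lit 426) ln10_13_0 ln10_13_0_ok) (L (nat_lit 463) ln15_14_3 ln15_14_3_ok))) (B (M (nat_lit 463) (B (L (nat_lit 427) ln15_14_3 ln15_14_3_ok) (L (nat_lit 464) ln16_14_3 ln16_14_3_ok))) (B (M (nat_lit 463) (B (L (nat_lit 464) ln16_14_3 ln16_14_3_ok) (M (nat_lit 491) (B (L (nat_lit 490) ln14_14_1 ln14_14_1_ok) (L (nat_lit 492) ln15_14_1 ln15_14_1_ok))))) (M (nat_lit 458) (B (M (nat_lit 426) (B (L (nat_lit 425) ln13_14_3 ln13_14_3_ok) (L (nat_lit 427) ln10_13_0 ln10_13_0_ok))) (M (nat_lit 490) (B (L (nat_lit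 489) ln13_14_1 ln13_14_1_ok) (L (nat_lit 491) ln14_14_1 ln14_14_1_ok))))))))) (B (M (nat_lit 462) (B (M (nat_lit 427) (B (L (nat_lit 426) ln10_13_0 ln10_13_0_ok) (L (nat_lit 463) ln15_14_3 ln15_14_3_ok))) (B (M (nat_lit 463) (B (L (nat_lit 427) ln15_14_3 ln15_14_3_ok) (L (nat_lit 464) ln16_14_3 ln16_14_3_ok))) (B (M (nat_lit 463) (B (L (nat_lit 464) ln16_14_3 ln16_14_3_ok) (M (nat_lit 491) (B (L (nat_lit 490) ln14_14_1 ln14_14_1_ok) (L (nat_lit 492) ln15_14_1 ln15_14_1_ok))))) (M (nat_lit 494) (B (L (nat_lit 495) ln11_14_0 ln11_14_0_ok) (M (nat_lit 397) (B (L (nat_lit 365) ln13_11_4 ln13_11_4_ok) (M (nat_lit 526) (B (L (nat_lit 493) ln13_12_4 ln13_12_4_ok) (L (nat_lit 558) ln14_17_7 ln14_17_7_ok))))))))))) (M (nat_lit 397) (B (M (nat_lit 365) (B (L (nat_lit 333) ln13_10_5 ln13_10_5_ok) (L (nat_lit 492) ln13_11_5 ln13_11_5_ok))) (B (M (nat_lit 492) (B (L (nat_lit 365) ln13_11_5 ln13_11_5_ok) (L (nat_lit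 524) ln12_16_6 ln12_16_6_ok))) (B (M (nat_lit 493) (B (M (nat_lit 458) (B (L (nat_lit 457) ln9_14_2 ln9_14_2_ok) (L (nat_lit 494) ln10_14_0 ln10_14_0_ok))) (B (M (nat_lit 494) (B (L (nat_lit 526) ln13_12_4 ln13_12_4_ok) (L (nat_lit 458) ln10_14_0 ln10_14_0_ok))) (B (M (nat_lit 492) (B (L (nat_lit 524) ln12_16_6 ln12_16_6_ok) (M (nat_lit 494) (B (L (nat_lit 526) ln13_12_4 ln13_12_4_ok) (L (nat_lit 495) ln15_15_3 ln15_15_3_ok))))) (M (nat_lit 524) (B (L (nat_lit 492) ln12_16_6 ln12_16_6_ok) (M (nat_lit 525) (B (L (nat_lit 557) ln13_17_7 ln13_17_7_ok) (L (nat_lit 556) ln13_13_5 ln13_13_5_ok))))))))) (M (nat_lit 365) (B (L (nat_lit 333) ln13_10_5 ln13_10_5_ok) (M (nat_lit 493) (B (M (nat_lit 366) (B (L (nat_lit 334) ln13_14_6 ln13_14_6_ok) (L (nat_lit 398) ln13_15_6 ln13_15_6_ok))) (M (nat_lit 458) (B (L (nat_lit 457) ln9_14_2 ln9_14_2_ok) (L (nat_lit 494) ln10_14_0 ln10_14_0_ok)))))))))))))))) (B (M (nat_lit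 459) (B (M (nat_lit 493) (B (M (nat_lit 525) (B (L (nat_lit 396) ln13_16_7 ln13_16_7_ok) (L (nat_lit 557) ln13_17_7 ln13_17_7_ok))) (M (nat_lit 458) (B (L (nat_lit 457) ln9_14_2 ln9_14_2_ok) (L (nat_lit 494) ln10_14_0 ln10_14_0_ok))))) (B (M (nat_lit 458) (B (L (nat_lit 457) ln9_14_2 ln9_14_2_ok) (M (nat_lit 462) (B (M (nat_lit 490) (B (L (nat_lit 489) ln13_14_1 ln13_14_1_ok) (L (nat_lit 491) ln14_14_1 ln14_14_1_ok))) (M (nat_lit 494) (B (L (nat_lit 493) ln10_14_0 ln10_14_0_ok) (L (nat_lit 495) ln11_14_0 ln11_14_0_ok))))))) (M (nat_lit 491) (B (M (nat_lit 462) (B (L (nat_lit 490) ln14_14_1 ln14_14_1_ok) (M (nat_lit 463) (B (L (nat_lit 464) ln16_14_3 ln16_14_3_ok) (L (nat_lit 492) ln15_14_1 ln15_14_1_ok))))) (B (M (nat_lit 523) (B (L (nat_lit 555) ln11_17_6 ln11_17_6_ok) (M (nat_lit 396) (B (L (nat_lit 427) ln11_16_6 ln11_16_6_ok) (L (nat_lit 492) ln12_12_5 ln12_12_5_ok))))) (M (nat_lit 462) (B (L (nat_lit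 490) ln14_14_1 ln14_14_1_ok) (M (nat_lit 427) (B (L (nat_lit 426) ln10_13_0 ln10_13_0_ok) (L (nat_lit 463) ln15_14_3 ln15_14_3_ok))))))))))) (B (M (nat_lit 462) (B (M (nat_lit 427) (B (L (nat_lit 426) ln10_13_0 ln10_13_0_ok) (L (nat_lit 463) ln15_14_3 ln15_14_3_ok))) (B (M (nat_lit 463) (B (L (nat_lit 427) ln15_14_3 ln15_14_3_ok) (L (nat_lit 464) ln16_14_3 ln16_14_3_ok))) (B (M (nat_lit 463) (B (L (nat_lit 464) ln16_14_3 ln16_14_3_ok) (M (nat_lit 492) (B (L (nat_lit 491) ln15_14_1 ln15_14_1_ok) (M (nat_lit 524) (B (L (nat_lit 397) ln12_16_6 ln12_16_6_ok) (L (nat_lit 556) ln12_17_6 ln12_17_6_ok))))))) (M (nat_lit 493) (B (M (nat_lit 525) (B (L (nat_lit 396) ln13_16_7 ln13_16_7_ok) (L (nat_lit 557) ln13_17_7 ln13_17_7_ok))) (M (nat_lit 494) (B (M (nat_lit 397) (B (L (nat_lit 365) ln13_11_4 ln13_11_4_ok) (L (nat_lit 526) ln13_12_4 ln13_12_4_ok))) (M (nat_lit 495) (B (L (nat_lit 459) ln11_14_0 ln11_14_0_ok)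 (L (nat_lit 496) ln16_15_3 ln16_15_3_ok))))))))))) (B (M (nat_lit 397) (B (M (nat_lit 365) (B (L (nat_lit 333) ln13_10_5 ln13_10_5_ok) (L (nat_lit 492) ln13_11_5 ln13_11_5_ok))) (B (M (nat_lit 492) (B (L (nat_lit 365) ln13_11_5 ln13_11_5_ok) (L (nat_lit 524) ln12_16_6 ln12_16_6_ok))) (B (M (nat_lit 398) (B (M (nat_lit 427) (B (L (nat_lit 426) ln10_13_2 ln10_13_2_ok) (M (nat_lit 399) (B (L (nat_lit 396) ln15_12_1 ln15_12_1_ok) (L (nat_lit 400) ln16_12_1 ln16_12_1_ok))))) (M (nat_lit 493) (B (L (nat_lit 366) ln13_15_6 ln13_15_6_ok) (M (nat_lit 524) (B (L (nat_lit 492) ln12_16_6 ln12_16_6_ok) (M (nat_lit 525) (B (L (nat_lit 557) ln13_17_7 ln13_17_7_ok) (L (nat_lit 556) ln13_13_5 ln13_13_5_ok))))))))) (M (nat_lit 462) (B (M (nat_lit 365) (B (L (nat_lit 333) ln13_10_5 ln13_10_5_ok) (L (nat_lit 494) ln13_11_4 ln13_11_4_ok))) (M (nat_lit 463) (B (L (nat_lit 427) ln15_14_3 ln15_14_3_ok) (L (nat_lit 464) ln16_14_3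 ln16_14_3_ok))))))))) (B (M (nat_lit 492) (B (M (nat_lit 397) (B (L (nat_lit 365) ln13_11_5 ln13_11_5_ok) (L (nat_lit 524) ln12_16_6 ln12_16_6_ok))) (B (M (nat_lit 524) (B (L (nat_lit 397) ln12_16_6 ln12_16_6_ok) (L (nat_lit 556) ln12_17_6 ln12_17_6_ok))) (B (M (nat_lit 524) (B (L (nat_lit 556) ln12_17_6 ln12_17_6_ok) (M (nat_lit 396) (B (M (nat_lit 525) (B (L (nat_lit 493) ln13_16_7 ln13_16_7_ok) (L (nat_lit 557) ln12_13_4 ln12_13_4_ok))) (M (nat_lit 523) (B (L (nat_lit 491) ln12_12_5 ln12_12_5_ok) (L (nat_lit 555) ln12_13_5 ln12_13_5_ok))))))) (M (nat_lit 493) (B (M (nat_lit 525) (B (L (nat_lit 396) ln13_16_7 ln13_16_7_ok) (L (nat_lit 557) ln13_17_7 ln13_17_7_ok))) (M (nat_lit 494) (B (M (nat_lit 397) (B (L (nat_lit 365) ln13_11_5 ln13_11_5_ok) (L (nat_lit 526) ln13_12_4 ln13_12_4_ok))) (M (nat_lit 495) (B (L (nat_lit 459) ln15_15_3 ln15_15_3_ok) (L (nat_lit 496) ln16_15_3 ln16_15_3_ok))))))))))) (B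 (M (nat_lit 462) (B (M (nat_lit 427) (B (L (nat_lit 426) ln10_13_0 ln10_13_0_ok) (L (nat_lit 463) ln15_14_3 ln15_14_3_ok))) (B (M (nat_lit 463) (B (L (nat_lit 427) ln15_14_3 ln15_14_3_ok) (L (nat_lit 464) ln16_14_3 ln16_14_3_ok))) (M (nat_lit 493) (B (M (nat_lit 525) (B (L (nat_lit 396) ln13_16_7 ln13_16_7_ok) (L (nat_lit 557) ln13_17_7 ln13_17_7_ok))) (M (nat_lit 494) (B (M (nat_lit 397) (B (L (nat_lit 365) ln13_11_4 ln13_11_4_ok) (L (nat_lit 526) ln13_12_4 ln13_12_4_ok))) (M (nat_lit 495) (B (L (nat_lit 459) ln11_14_0 ln11_14_0_ok) (L (nat_lit 496) ln16_15_3 ln16_15_3_ok)))))))))) (M (nat_lit 462) (B (M (nat_lit 427) (B (L (nat_lit 426) ln10_13_0 ln10_13_0_ok) (L (nat_lit 463) ln15_14_3 ln15_14_3_ok))) (B (M (nat_lit 463) (B (L (nat_lit 427) ln15_14_3 ln15_14_3_ok) (L (nat_lit 464) ln16_14_3 ln16_14_3_ok))) (B (M (nat_lit 463) (B (L (nat_lit 464) ln16_14_3 ln16_14_3_ok) (M (nat_lit 492) (B (L (nat_lit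 491) ln15_14_1 ln15_14_1_ok) (M (nat_lit 524) (B (L (nat_lit 397) ln12_16_6 ln12_16_6_ok) (L (nat_lit 556) ln12_17_6 ln12_17_6_ok))))))) (M (nat_lit 459) (B (M (nat_lit 426) (B (L (nat_lit 427) ln10_13_0 ln10_13_0_ok) (M (nat_lit 458) (B (L (nat_lit 425) ln13_14_3 ln13_14_3_ok) (L (nat_lit 457) ln9_14_2 ln9_14_2_ok))))) (B (M (nat_lit 458) (B (L (nat_lit 457) ln9_14_2 ln9_14_2_ok) (M (nat_lit 490) (B (L (nat_lit 489) ln13_14_1 ln13_14_1_ok) (L (nat_lit 491) ln14_14_1 ln14_14_1_ok))))) (B (M (nat_lit 458) (B (M (nat_lit 426) (B (L (nat_lit 425) ln13_14_3 ln13_14_3_ok) (L (nat_lit 427) ln10_13_0 ln10_13_0_ok))) (M (nat_lit 490) (B (L (nat_lit 489) ln13_14_1 ln13_14_1_ok) (L (nat_lit 491) ln14_14_1 ln14_14_1_ok))))) (M (nat_lit 427) (B (L (nat_lit 426) ln10_13_0 ln10_13_0_ok) (M (nat_lit 491) (B (L (nat_lit 490) ln14_14_1 ln14_14_1_ok) (M (nat_lit 523) (B (L (nat_lit 396) ln11_16_6 ln11_16_6_ok) (L (nat_lit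 555) ln11_17_6 ln11_17_6_ok))))))))))))))))))))))))) (nat_lit 2977131416794308094280641461793077210819827790952582581444846287221758209573443874798297761003556369114987972072309673036810407142536249344) (nat_lit 1769044887046985368878640783558339968721297900735190085118782230325880093129739627783587157581374143421463019574110590176787647486686745731383076066795087896652332138496) (nat_lit 1769044887046985368878640783558339968721297900735190085118782230325880093129739627783587157581374143421463019574110590176787647486686745731383076066795087896652332138496) (by decide +kernel)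
noncomputable def c40_n4193 : Cert := (M (nat_lit 492) (B (M (nat_lit 524) (B (L (nat_lit 397) ln12_16_6 ln12_16_6_ok) (M (nat_lit 427) (B (L (nat_lit 395) ln12_16_7 ln12_16_7_ok) (M (nat_lit 556) (B (L (nat_lit 459) ln12_17_7 ln12_17_7_ok) (L (nat_lit 461) ln12_17_6 ln12_17_6_ok))))))) (B (M (nat_lit 524) (B (L (nat_lit 397) ln12_16_6 ln12_16_6_ok) (M (nat_lit 556) (B (L (nat_lit 461) ln12_17_6 ln12_17_6_ok) (M (nat_lit 555) (B (L (nat_lit 523) ln12_13_5 ln12_13_5_ok) (L (nat_lit 587) ln12_14_5 ln12_14_5_ok))))))) (B (M (nat_lit 524) (B (M (nat_lit 556) (B (L (nat_lit 461) ln12_17_6 ln12_17_6_ok) (M (nat_lit 555) (B (L (nat_lit 523) ln12_13_5 ln12_13_5_ok) (L (nat_lit 587) ln12_14_5 ln12_14_5_ok))))) (B (M (nat_lit 396) (B (M (nat_lit 523) (B (L (nat_lit 491) ln12_12_5 ln12_12_5_ok) (L (nat_lit 555) ln12_13_5 ln12_13_5_ok))) (M (nat_lit 525) (B (L (nat_lit 493) ln12_12_4 ln12_12_4_ok) (L (nat_lit 557)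 ln12_13_4 ln12_13_4_ok))))) (M (nat_lit 556) (B (L (nat_lit 461) ln12_17_6 ln12_17_6_ok) (M (nat_lit 557) (B (L (nat_lit 525) ln12_13_4 ln12_13_4_ok) (L (nat_lit 589) ln12_14_4 ln12_14_4_ok)))))))) (B (M (nat_lit 396) (B (M (nat_lit 395) (B (L (nat_lit 363) ln12_15_7 ln12_15_7_ok) (M (nat_lit 524) (B (L (nat_lit 427) ln12_16_7 ln12_16_7_ok) (L (nat_lit 397) ln12_16_6 ln12_16_6_ok))))) (B (M (nat_lit 525) (B (L (nat_lit 493) ln12_12_4 ln12_12_4_ok) (M (nat_lit 524) (B (L (nat_lit 397) ln12_16_6 ln12_16_6_ok) (L (nat_lit 557) ln12_13_4 ln12_13_4_ok))))) (M (nat_lit 364) (B (M (nat_lit 363) (B (L (nat_lit 331) ln12_14_7 ln12_14_7_ok) (L (nat_lit 395) ln12_15_7 ln12_15_7_ok))) (M (nat_lit 491) (B (L (nat_lit 459) ln12_11_5 ln12_11_5_ok) (L (nat_lit 523) ln12_12_5 ln12_12_5_ok)))))))) (M (nat_lit 493) (B (M (nat_lit 525) (B (L (nat_lit 396) ln12_12_4 ln12_12_4_ok) (M (nat_lit 557) (B (L (nat_lit 461) ln13_17_7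 ln13_17_7_ok) (L (nat_lit 589) ln13_18_7 ln13_18_7_ok))))) (B (M (nat_lit 494) (B (M (nat_lit 459) (B (L (nat_lit 495) ln15_15_3 ln15_15_3_ok) (M (nat_lit 458) (B (L (nat_lit 457) ln9_14_2 ln9_14_2_ok) (L (nat_lit 491) ln14_15_3 ln14_15_3_ok))))) (B (M (nat_lit 459) (B (L (nat_lit 495) ln15_15_3 ln15_15_3_ok) (M (nat_lit 458) (B (L (nat_lit 461) ln10_14_0 ln10_14_0_ok) (L (nat_lit 491) ln14_15_3 ln14_15_3_ok))))) (B (M (nat_lit 461) (B (M (nat_lit 495) (B (L (nat_lit 459) ln15_15_3 ln15_15_3_ok) (L (nat_lit 496) ln16_15_3 ln16_15_3_ok))) (M (nat_lit 525) (B (L (nat_lit 557) ln13_17_7 ln13_17_7_ok) (M (nat_lit 526) (B (L (nat_lit 397) ln13_12_4 ln13_12_4_ok) (L (nat_lit 558) ln13_13_4 ln13_13_4_ok))))))) (B (M (nat_lit 461) (B (M (nat_lit 525) (B (L (nat_lit 557) ln13_17_7 ln13_17_7_ok) (M (nat_lit 526) (B (L (nat_lit 397) ln13_12_4 ln13_12_4_ok) (L (nat_lit 558) ln13_13_4 ln13_13_4_ok))))) (M (nat_lit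 463) (B (M (nat_lit 462) (B (L (nat_lit 427) ln15_14_3 ln15_14_3_ok) (L (nat_lit 464) ln16_14_3 ln16_14_3_ok))) (B (M (nat_lit 462) (B (L (nat_lit 464) ln16_14_3 ln16_14_3_ok) (L (nat_lit 491) ln15_14_1 ln15_14_1_ok))) (B (M (nat_lit 495) (B (L (nat_lit 496) ln16_15_3 ln16_15_3_ok) (L (nat_lit 464) ln12_15_2 ln12_15_2_ok))) (M (nat_lit 462) (B (L (nat_lit 427) ln15_14_3 ln15_14_3_ok) (L (nat_lit 491) ln15_14_1 ln15_14_1_ok))))))))) (M (nat_lit 491) (B (M (nat_lit 523) (B (L (nat_lit 522) ln14_15_1 ln14_15_1_ok) (M (nat_lit 459) (B (L (nat_lit 555) ln11_17_6 ln11_17_6_ok) (L (nat_lit 458) ln14_15_3 ln14_15_3_ok))))) (M (nat_lit 461) (B (M (nat_lit 526) (B (L (nat_lit 397) ln13_12_4 ln13_12_4_ok) (L (nat_lit 527) ln11_15_0 ln11_15_0_ok))) (M (nat_lit 462) (B (L (nat_lit 463) ln15_14_1 ln15_14_1_ok) (L (nat_lit 490) ln10_15_2 ln10_15_2_ok)))))))))))) (B (M (nat_lit 396) (B (L (nat_lit 525) ln12_12_4 ln12_12_4_ok)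 (M (nat_lit 364) (B (M (nat_lit 363) (B (L (nat_lit 331) ln12_14_7 ln12_14_7_ok) (L (nat_lit 395) ln12_15_7 ln12_15_7_ok))) (M (nat_lit 491) (B (L (nat_lit 459) ln12_11_5 ln12_11_5_ok) (L (nat_lit 523) ln12_12_5 ln12_12_5_ok))))))) (M (nat_lit 461) (B (M (nat_lit 491) (B (M (nat_lit 396) (B (L (nat_lit 364) ln12_11_4 ln12_11_4_ok) (L (nat_lit 523) ln12_12_5 ln12_12_5_ok))) (M (nat_lit 490) (B (L (nat_lit 489) ln9_15_2 ln9_15_2_ok) (L (nat_lit 462) ln10_15_2 ln10_15_2_ok))))) (B (M (nat_lit 462) (B (M (nat_lit 463) (B (L (nat_lit 427) ln15_14_3 ln15_14_3_ok) (L (nat_lit 464) ln16_14_3 ln16_14_3_ok))) (M (nat_lit 494) (B (M (nat_lit 526) (B (L (nat_lit 397) ln13_12_4 ln13_12_4_ok) (L (nat_lit 558) ln14_17_7 ln14_17_7_ok))) (M (nat_lit 495) (B (L (nat_lit 459) ln11_14_0 ln11_14_0_ok) (L (nat_lit 496) ln16_15_3 ln16_15_3_ok))))))) (M (nat_lit 494) (B (M (nat_lit 459) (B (L (nat_lit 458) ln10_14_0 ln10_14_0_ok)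 (L (nat_lit 495) ln15_15_3 ln15_15_3_ok))) (M (nat_lit 491) (B (M (nat_lit 396) (B (L (nat_lit 364) ln12_11_4 ln12_11_4_ok) (L (nat_lit 523) ln12_12_5 ln12_12_5_ok))) (M (nat_lit 526) (B (L (nat_lit 397) ln13_12_4 ln13_12_4_ok) (L (nat_lit 527) ln11_15_0 ln11_15_0_ok)))))))))))))))))))
noncomputable def c40_n4311 : Cert := (M (nat_lit 459) (B (M (nat_lit 458) (B (L (nat_lit 457) ln9_14_2 ln9_14_2_ok) (M (nat_lit 426) (B (L (nat_lit 425) ln13_14_3 ln13_14_3_ok) (M (nat_lit 462) (B (L (nat_lit 427) ln10_13_0 ln10_13_0_ok) (M (nat_lit 490) (B (L (nat_lit 489) ln13_14_1 ln13_14_1_ok) (L (nat_lit 491) ln14_14_1 ln14_14_1_ok))))))))) (B (M (nat_lit 458) (B (L (nat_lit 457) ln9_14_2 ln9_14_2_ok) (M (nat_lit 462) (B (M (nat_lit 490) (B (L (nat_lit 489) ln13_14_1 ln13_14_1_ok) (L (nat_lit 491) ln14_14_1 ln14_14_1_ok))) (M (nat_lit 494) (B (L (nat_lit 493) ln10_14_0 ln10_14_0_ok) (L (nat_lit 495) ln11_14_0 ln11_14_0_ok)))))))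 (B (M (nat_lit 462) (B (M (nat_lit 427) (B (L (nat_lit 426) ln10_13_0 ln10_13_0_ok) (L (nat_lit 463) ln15_14_3 ln15_14_3_ok))) (B (M (nat_lit 463) (B (L (nat_lit 427) ln15_14_3 ln15_14_3_ok) (L (nat_lit 464) ln16_14_3 ln16_14_3_ok))) (B (M (nat_lit 463) (B (L (nat_lit 464) ln16_14_3 ln16_14_3_ok) (M (nat_lit 491) (B (L (nat_lit 490) ln14_14_1 ln14_14_1_ok) (L (nat_lit 492) ln15_14_1 ln15_14_1_ok))))) (M (nat_lit 458) (B (M (nat_lit 426) (B (L (nat_lit 425) ln13_14_3 ln13_14_3_ok) (L (nat_lit 427) ln10_13_0 ln10_13_0_ok))) (M (nat_lit 490) (B (L (nat_lit 489) ln13_14_1 ln13_14_1_ok) (L (nat_lit 491) ln14_14_1 ln14_14_1_ok))))))))) (B (M (nat_lit 427) (B (M (nat_lit 426) (B (L (nat_lit 425) ln9_13_0 ln9_13_0_ok) (L (nat_lit 462) ln10_13_0 ln10_13_0_ok))) (B (M (nat_lit 462) (B (L (nat_lit 426) ln10_13_0 ln10_13_0_ok) (L (nat_lit 463) ln15_14_3 ln15_14_3_ok))) (B (M (nat_lit 395) (B (M (nat_lit 363) (B (L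 (nat_lit 331) ln11_10_4 ln11_10_4_ok) (L (nat_lit 492) ln11_11_4 ln11_11_4_ok))) (B (M (nat_lit 492) (B (L (nat_lit 363) ln11_11_4 ln11_11_4_ok) (L (nat_lit 524) ln12_16_7 ln12_16_7_ok))) (B (M (nat_lit 524) (B (L (nat_lit 492) ln12_16_7 ln12_16_7_ok) (M (nat_lit 491) (B (M (nat_lit 523) (B (L (nat_lit 556) ln11_13_4 ln11_13_4_ok) (L (nat_lit 555) ln11_17_6 ln11_17_6_ok))) (M (nat_lit 462) (B (L (nat_lit 463) ln15_14_3 ln15_14_3_ok) (L (nat_lit 490) ln14_14_1 ln14_14_1_ok))))))) (M (nat_lit 462) (B (L (nat_lit 463) ln15_14_3 ln15_14_3_ok) (M (nat_lit 362) (B (M (nat_lit 363) (B (L (nat_lit 330) ln11_14_7 ln11_14_7_ok) (L (nat_lit 331) ln11_10_4 ln11_10_4_ok))) (M (nat_lit 491) (B (L (nat_lit 394) ln11_15_7 ln11_15_7_ok) (L (nat_lit 490) ln14_14_1 ln14_14_1_ok))))))))))) (M (nat_lit 426) (B (L (nat_lit 425) ln9_13_0 ln9_13_0_ok) (M (nat_lit 394) (B (L (nat_lit 393) ln13_13_3 ln13_13_3_ok) (M (nat_lit 491)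 (B (L (nat_lit 523) ln11_16_7 ln11_16_7_ok) (M (nat_lit 362) (B (L (nat_lit 330) ln10_10_4 ln10_10_4_ok) (L (nat_lit 395) ln11_15_7 ln11_15_7_ok))))))))))))) (B (M (nat_lit 427) (B (M (nat_lit 426) (B (L (nat_lit 425) ln9_13_0 ln9_13_0_ok) (M (nat_lit 394) (B (L (nat_lit 393) ln13_13_3 ln13_13_3_ok) (M (nat_lit 491) (B (L (nat_lit 523) ln11_16_7 ln11_16_7_ok) (M (nat_lit 362) (B (L (nat_lit 330) ln10_10_4 ln10_10_4_ok) (L (nat_lit 395) ln11_15_7 ln11_15_7_ok))))))))) (B (M (nat_lit 426) (B (L (nat_lit 425) ln9_13_0 ln9_13_0_ok) (M (nat_lit 458) (B (L (nat_lit 457) ln13_13_1 ln13_13_1_ok) (M (nat_lit 394) (B (L (nat_lit 393) ln13_13_3 ln13_13_3_ok) (M (nat_lit 491) (B (L (nat_lit 362) ln10_11_4 ln10_11_4_ok) (L (nat_lit 523) ln11_16_7 ln11_16_7_ok))))))))) (M (nat_lit 395) (B (M (nat_lit 363) (B (L (nat_lit 331) ln11_10_4 ln11_10_4_ok) (L (nat_lit 492) ln11_11_4 ln11_11_4_ok))) (B (M (nat_lit 492) (B (L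 (nat_lit 363) ln11_11_4 ln11_11_4_ok) (L (nat_lit 524) ln12_16_7 ln12_16_7_ok))) (B (M (nat_lit 493) (B (M (nat_lit 458) (B (L (nat_lit 457) ln9_14_2 ln9_14_2_ok) (L (nat_lit 494) ln10_14_0 ln10_14_0_ok))) (M (nat_lit 524) (B (L (nat_lit 492) ln12_16_7 ln12_16_7_ok) (M (nat_lit 525) (B (L (nat_lit 557) ln13_17_7 ln13_17_7_ok) (L (nat_lit 556) ln13_13_5 ln13_13_5_ok))))))) (M (nat_lit 458) (B (L (nat_lit 457) ln9_14_2 ln9_14_2_ok) (M (nat_lit 363) (B (L (nat_lit 331) ln11_10_4 ln11_10_4_ok) (L (nat_lit 490) ln11_11_5 ln11_11_5_ok)))))))))))) (M (nat_lit 462) (B (M (nat_lit 427) (B (L (nat_lit 426) ln10_13_0 ln10_13_0_ok) (L (nat_lit 463) ln15_14_3 ln15_14_3_ok))) (B (M (nat_lit 463) (B (L (nat_lit 427) ln15_14_3 ln15_14_3_ok) (L (nat_lit 464) ln16_14_3 ln16_14_3_ok))) (B (M (nat_lit 463) (B (L (nat_lit 464) ln16_14_3 ln16_14_3_ok) (M (nat_lit 495) (B (L (nat_lit 494) ln11_14_0 ln11_14_0_ok) (L (nat_lit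 496) ln12_14_0 ln12_14_0_ok))))) (M (nat_lit 426) (B (L (nat_lit 427) ln10_13_0 ln10_13_0_ok) (M (nat_lit 458) (B (L (nat_lit 425) ln13_14_3 ln13_14_3_ok) (L (nat_lit 457) ln9_14_2 ln9_14_2_ok)))))))))))))))
noncomputable def c40_n4447 : Cert := (M (nat_lit 459) (B (M (nat_lit 458) (B (L (nat_lit 457) ln9_14_2 ln9_14_2_ok) (M (nat_lit 426) (B (L (nat_lit 425) ln13_14_3 ln13_14_3_ok) (M (nat_lit 462) (B (L (nat_lit 427) ln10_13_0 ln10_13_0_ok) (M (nat_lit 490) (B (L (nat_lit 489) ln13_14_1 ln13_14_1_ok) (L (nat_lit 491) ln14_14_1 ln14_14_1_ok))))))))) (B (M (nat_lit 462) (B (M (nat_lit 463) (B (L (nat_lit 427) ln15_14_3 ln15_14_3_ok) (L (nat_lit 464) ln16_14_3 ln16_14_3_ok))) (M (nat_lit 458) (B (L (nat_lit 457) ln9_14_2 ln9_14_2_ok) (M (nat_lit 490) (B (L (nat_lit 489) ln13_14_1 ln13_14_1_ok) (L (nat_lit 491) ln14_14_1 ln14_14_1_ok))))))) (B (M (nat_lit 462) (B (M (nat_lit 463) (B (L (nat_lit 464) ln16_14_3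 ln16_14_3_ok) (M (nat_lit 491) (B (L (nat_lit 490) ln14_14_1 ln14_14_1_ok) (L (nat_lit 492) ln15_14_1 ln15_14_1_ok))))) (B (M (nat_lit 458) (B (L (nat_lit 457) ln9_14_2 ln9_14_2_ok) (M (nat_lit 490) (B (L (nat_lit 489) ln13_14_1 ln13_14_1_ok) (L (nat_lit 491) ln14_14_1 ln14_14_1_ok))))) (M (nat_lit 463) (B (L (nat_lit 464) ln16_14_3 ln16_14_3_ok) (M (nat_lit 495) (B (L (nat_lit 494) ln11_14_0 ln11_14_0_ok) (L (nat_lit 496) ln12_14_0 ln12_14_0_ok)))))))) (B (M (nat_lit 462) (B (M (nat_lit 427) (B (L (nat_lit 426) ln10_13_0 ln10_13_0_ok) (L (nat_lit 463) ln15_14_3 ln15_14_3_ok))) (B (M (nat_lit 463) (B (L (nat_lit 427) ln15_14_3 ln15_14_3_ok) (L (nat_lit 464) ln16_14_3 ln16_14_3_ok))) (B (M (nat_lit 463) (B (L (nat_lit 464) ln16_14_3 ln16_14_3_ok) (M (nat_lit 495) (B (L (nat_lit 494) ln11_14_0 ln11_14_0_ok) (L (nat_lit 496) ln12_14_0 ln12_14_0_ok))))) (M (nat_lit 458) (B (M (nat_lit 426) (B (L (nat_lit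 425) ln13_14_3 ln13_14_3_ok) (L (nat_lit 427) ln10_13_0 ln10_13_0_ok))) (M (nat_lit 490) (B (L (nat_lit 489) ln13_14_1 ln13_14_1_ok) (L (nat_lit 491) ln14_14_1 ln14_14_1_ok))))))))) (B (M (nat_lit 427) (B (M (nat_lit 426) (B (L (nat_lit 425) ln9_13_0 ln9_13_0_ok) (L (nat_lit 462) ln10_13_0 ln10_13_0_ok))) (B (M (nat_lit 462) (B (L (nat_lit 426) ln10_13_0 ln10_13_0_ok) (L (nat_lit 463) ln15_14_3 ln15_14_3_ok))) (B (M (nat_lit 524) (B (M (nat_lit 492) (B (L (nat_lit 395) ln12_16_7 ln12_16_7_ok) (L (nat_lit 397) ln12_16_6 ln12_16_6_ok))) (B (M (nat_lit 492) (B (L (nat_lit 397) ln12_16_6 ln12_16_6_ok) (L (nat_lit 556) ln12_17_7 ln12_17_7_ok))) (B (M (nat_lit 492) (B (L (nat_lit 395) ln12_16_7 ln12_16_7_ok) (L (nat_lit 556) ln12_17_7 ln12_17_7_ok))) (M (nat_lit 491) (B (M (nat_lit 523) (B (L (nat_lit 556) ln11_13_4 ln11_13_4_ok) (L (nat_lit 555) ln11_17_6 ln11_17_6_ok))) (M (nat_lit 462) (B (L (nat_lit 463)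 ln15_14_3 ln15_14_3_ok) (L (nat_lit 490) ln14_14_1 ln14_14_1_ok))))))))) (M (nat_lit 397) (B (M (nat_lit 365) (B (L (nat_lit 333) ln13_10_5 ln13_10_5_ok) (L (nat_lit 492) ln13_11_5 ln13_11_5_ok))) (M (nat_lit 426) (B (L (nat_lit 398) ln10_13_2 ln10_13_2_ok) (L (nat_lit 425) ln9_13_0 ln9_13_0_ok))))))))) (B (M (nat_lit 427) (B (M (nat_lit 397) (B (M (nat_lit 365) (B (L (nat_lit 333) ln13_10_5 ln13_10_5_ok) (L (nat_lit 492) ln13_11_5 ln13_11_5_ok))) (M (nat_lit 426) (B (L (nat_lit 398) ln10_13_2 ln10_13_2_ok) (L (nat_lit 425) ln9_13_0 ln9_13_0_ok))))) (B (M (nat_lit 397) (B (M (nat_lit 426) (B (L (nat_lit 398) ln10_13_2 ln10_13_2_ok) (L (nat_lit 425) ln9_13_0 ln9_13_0_ok))) (M (nat_lit 492) (B (L (nat_lit 365) ln13_11_5 ln13_11_5_ok) (L (nat_lit 524) ln12_16_6 ln12_16_6_ok))))) (B (M (nat_lit 426) (B (L (nat_lit 425) ln9_13_0 ln9_13_0_ok) (M (nat_lit 458) (B (L (nat_lit 457) ln13_13_1 ln13_13_1_ok) (M (nat_lit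 394) (B (L (nat_lit 393) ln13_13_3 ln13_13_3_ok) (M (nat_lit 491) (B (L (nat_lit 362) ln10_11_4 ln10_11_4_ok) (L (nat_lit 523) ln11_16_7 ln11_16_7_ok))))))))) (M (nat_lit 458) (B (L (nat_lit 457) ln9_14_2 ln9_14_2_ok) (M (nat_lit 490) (B (L (nat_lit 489) ln13_14_1 ln13_14_1_ok) (M (nat_lit 395) (B (L (nat_lit 363) ln11_11_5 ln11_11_5_ok) (M (nat_lit 522) (B (L (nat_lit 491) ln11_12_5 ln11_12_5_ok) (L (nat_lit 554) ln10_17_6 ln10_17_6_ok))))))))))))) (M (nat_lit 397) (B (M (nat_lit 365) (B (L (nat_lit 333) ln13_10_5 ln13_10_5_ok) (L (nat_lit 492) ln13_11_5 ln13_11_5_ok))) (B (M (nat_lit 492) (B (L (nat_lit 365) ln13_11_5 ln13_11_5_ok) (L (nat_lit 524) ln12_16_6 ln12_16_6_ok))) (M (nat_lit 426) (B (M (nat_lit 427) (B (L (nat_lit 398) ln10_13_2 ln10_13_2_ok) (L (nat_lit 425) ln9_13_0 ln9_13_0_ok))) (B (M (nat_lit 427) (B (L (nat_lit 425) ln9_13_0 ln9_13_0_ok) (L (nat_lit 462) ln10_13_0 ln10_13_0_ok))) (B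 (M (nat_lit 427) (B (L (nat_lit 398) ln10_13_2 ln10_13_2_ok) (L (nat_lit 462) ln10_13_0 ln10_13_0_ok))) (M (nat_lit 458) (B (L (nat_lit 425) ln13_14_3 ln13_14_3_ok) (L (nat_lit 457) ln9_14_2 ln9_14_2_ok)))))))))))))))))
noncomputable def c40_n4472 : Cert := (M (nat_lit 459) (B (M (nat_lit 458) (B (L (nat_lit 457) ln9_14_2 ln9_14_2_ok) (M (nat_lit 426) (B (L (nat_lit 425) ln13_14_3 ln13_14_3_ok) (M (nat_lit 462) (B (L (nat_lit 427) ln10_13_0 ln10_13_0_ok) (M (nat_lit 490) (B (L (nat_lit 489) ln13_14_1 ln13_14_1_ok) (L (nat_lit 491) ln14_14_1 ln14_14_1_ok))))))))) (B (M (nat_lit 462) (B (M (nat_lit 463) (B (L (nat_lit 427) ln15_14_3 ln15_14_3_ok) (L (nat_lit 464) ln16_14_3 ln16_14_3_ok))) (M (nat_lit 458) (B (L (nat_lit 457) ln9_14_2 ln9_14_2_ok) (M (nat_lit 490) (B (L (nat_lit 489) ln13_14_1 ln13_14_1_ok) (L (nat_lit 491) ln14_14_1 ln14_14_1_ok))))))) (B (M (nat_lit 458) (B (L (nat_lit 457) ln9_14_2 ln9_14_2_ok)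 (M (nat_lit 426) (B (L (nat_lit 425) ln13_14_3 ln13_14_3_ok) (M (nat_lit 490) (B (L (nat_lit 489) ln13_14_1 ln13_14_1_ok) (M (nat_lit 491) (B (L (nat_lit 462) ln14_14_1 ln14_14_1_ok) (M (nat_lit 394) (B (L (nat_lit 362) ln10_11_4 ln10_11_4_ok) (L (nat_lit 523) ln10_12_4 ln10_12_4_ok))))))))))) (B (M (nat_lit 462) (B (M (nat_lit 427) (B (L (nat_lit 426) ln10_13_0 ln10_13_0_ok) (L (nat_lit 463) ln15_14_3 ln15_14_3_ok))) (B (M (nat_lit 463) (B (L (nat_lit 427) ln15_14_3 ln15_14_3_ok) (L (nat_lit 464) ln16_14_3 ln16_14_3_ok))) (B (M (nat_lit 463) (B (L (nat_lit 464) ln16_14_3 ln16_14_3_ok) (M (nat_lit 491) (B (L (nat_lit 490) ln14_14_1 ln14_14_1_ok) (L (nat_lit 492) ln15_14_1 ln15_14_1_ok))))) (M (nat_lit 458) (B (M (nat_lit 426) (B (L (nat_lit 425) ln13_14_3 ln13_14_3_ok) (L (nat_lit 427) ln10_13_0 ln10_13_0_ok))) (M (nat_lit 490) (B (L (nat_lit 489) ln13_14_1 ln13_14_1_ok) (L (nat_lit 491) ln14_14_1 ln14_14_1_ok)))))))))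 (B (M (nat_lit 427) (B (M (nat_lit 426) (B (L (nat_lit 425) ln9_13_0 ln9_13_0_ok) (L (nat_lit 462) ln10_13_0 ln10_13_0_ok))) (B (M (nat_lit 462) (B (L (nat_lit 426) ln10_13_0 ln10_13_0_ok) (L (nat_lit 463) ln15_14_3 ln15_14_3_ok))) (B (M (nat_lit 524) (B (M (nat_lit 492) (B (L (nat_lit 395) ln12_16_7 ln12_16_7_ok) (L (nat_lit 397) ln12_16_6 ln12_16_6_ok))) (B (M (nat_lit 492) (B (L (nat_lit 397) ln12_16_6 ln12_16_6_ok) (L (nat_lit 556) ln12_17_7 ln12_17_7_ok))) (B (M (nat_lit 492) (B (L (nat_lit 395) ln12_16_7 ln12_16_7_ok) (L (nat_lit 556) ln12_17_7 ln12_17_7_ok))) (M (nat_lit 491) (B (M (nat_lit 523) (B (L (nat_lit 556) ln11_13_4 ln11_13_4_ok) (L (nat_lit 555) ln11_17_6 ln11_17_6_ok))) (M (nat_lit 462) (B (L (nat_lit 463) ln15_14_3 ln15_14_3_ok) (L (nat_lit 490) ln14_14_1 ln14_14_1_ok))))))))) (M (nat_lit 397) (B (M (nat_lit 365) (B (L (nat_lit 333) ln13_10_5 ln13_10_5_ok) (L (nat_lit 492) ln13_11_5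 ln13_11_5_ok))) (M (nat_lit 426) (B (L (nat_lit 398) ln10_13_2 ln10_13_2_ok) (L (nat_lit 425) ln9_13_0 ln9_13_0_ok))))))))) (M (nat_lit 397) (B (M (nat_lit 365) (B (L (nat_lit 333) ln13_10_5 ln13_10_5_ok) (L (nat_lit 492) ln13_11_5 ln13_11_5_ok))) (B (M (nat_lit 492) (B (L (nat_lit 365) ln13_11_5 ln13_11_5_ok) (L (nat_lit 524) ln12_16_6 ln12_16_6_ok))) (B (M (nat_lit 493) (B (M (nat_lit 524) (B (L (nat_lit 492) ln12_16_6 ln12_16_6_ok) (M (nat_lit 525) (B (L (nat_lit 557) ln13_17_7 ln13_17_7_ok) (L (nat_lit 556) ln13_13_5 ln13_13_5_ok))))) (M (nat_lit 426) (B (M (nat_lit 398) (B (L (nat_lit 366) ln13_15_6 ln13_15_6_ok) (L (nat_lit 427) ln10_13_2 ln10_13_2_ok))) (B (M (nat_lit 427) (B (L (nat_lit 398) ln10_13_2 ln10_13_2_ok) (L (nat_lit 425) ln9_13_0 ln9_13_0_ok))) (B (M (nat_lit 425) (B (L (nat_lit 427) ln9_13_0 ln9_13_0_ok) (L (nat_lit 458) ln13_14_3 ln13_14_3_ok))) (M (nat_lit 458) (B (L (nat_lit 425)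 ln13_14_3 ln13_14_3_ok) (L (nat_lit 457) ln9_14_2 ln9_14_2_ok))))))))) (M (nat_lit 398) (B (M (nat_lit 426) (B (L (nat_lit 427) ln10_13_2 ln10_13_2_ok) (M (nat_lit 458) (B (L (nat_lit 425) ln13_14_3 ln13_14_3_ok) (L (nat_lit 457) ln9_14_2 ln9_14_2_ok))))) (M (nat_lit 365) (B (L (nat_lit 333) ln13_10_5 ln13_10_5_ok) (M (nat_lit 366) (B (L (nat_lit 334) ln13_14_6 ln13_14_6_ok) (L (nat_lit 493) ln13_15_6 ln13_15_6_ok)))))))))))))))))
theorem c40_s4473 : Sem (nat_lit 2977131416794308094280641461793077210819827790952582581444846287221758209573443874798297761003556369114987972072309673036810407142536249344) (nat_lit 1828013049948551547827676293316245471740037581234842288768172330239166179709861271425400029801779728422364352829628089762524920043946657618342736456387211841393878106112) (nat_lit 1828013049948551547827676293316245471740037581234842288768172330239166179709861271425400029801779728422364352829628089762524920043946657618342736456387211841393878106112)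 :=
  sem_of_chk (M (nat_lit 461) (B (M (nat_lit 459) (B (M (nat_lit 458) (B (L (nat_lit 457) ln9_14_2 ln9_14_2_ok) (M (nat_lit 426) (B (L (nat_lit 425) ln13_14_3 ln13_14_3_ok) (M (nat_lit 462) (B (L (nat_lit 427) ln10_13_0 ln10_13_0_ok) (M (nat_lit 490) (B (L (nat_lit 489) ln13_14_1 ln13_14_1_ok) (L (nat_lit 491) ln14_14_1 ln14_14_1_ok))))))))) (B (M (nat_lit 458) (B (L (nat_lit 457) ln9_14_2 ln9_14_2_ok) (M (nat_lit 462) (B (M (nat_lit 490) (B (L (nat_lit 489) ln13_14_1 ln13_14_1_ok) (L (nat_lit 491) ln14_14_1 ln14_14_1_ok))) (M (nat_lit 494) (B (L (nat_lit 493) ln10_14_0 ln10_14_0_ok) (L (nat_lit 495) ln11_14_0 ln11_14_0_ok))))))) (B (M (nat_lit 462) (B (M (nat_lit 427) (B (L (nat_lit 426) ln10_13_0 ln10_13_0_ok) (L (nat_lit 463) ln15_14_3 ln15_14_3_ok))) (B (M (nat_lit 463) (B (L (nat_lit 427) ln15_14_3 ln15_14_3_ok) (L (nat_lit 464) ln16_14_3 ln16_14_3_ok))) (B (M (nat_lit 463) (B (L (nat_lit 464)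 ln16_14_3 ln16_14_3_ok) (M (nat_lit 491) (B (L (nat_lit 490) ln14_14_1 ln14_14_1_ok) (L (nat_lit 492) ln15_14_1 ln15_14_1_ok))))) (M (nat_lit 458) (B (M (nat_lit 426) (B (L (nat_lit 425) ln13_14_3 ln13_14_3_ok) (L (nat_lit 427) ln10_13_0 ln10_13_0_ok))) (M (nat_lit 490) (B (L (nat_lit 489) ln13_14_1 ln13_14_1_ok) (L (nat_lit 491) ln14_14_1 ln14_14_1_ok))))))))) (B (M (nat_lit 462) (B (M (nat_lit 427) (B (L (nat_lit 426) ln10_13_0 ln10_13_0_ok) (L (nat_lit 463) ln15_14_3 ln15_14_3_ok))) (B (M (nat_lit 463) (B (L (nat_lit 427) ln15_14_3 ln15_14_3_ok) (L (nat_lit 464) ln16_14_3 ln16_14_3_ok))) (B (M (nat_lit 463) (B (L (nat_lit 464) ln16_14_3 ln16_14_3_ok) (M (nat_lit 491) (B (L (nat_lit 490) ln14_14_1 ln14_14_1_ok) (L (nat_lit 492) ln15_14_1 ln15_14_1_ok))))) (M (nat_lit 494) (B (L (nat_lit 495) ln11_14_0 ln11_14_0_ok) (M (nat_lit 397) (B (L (nat_lit 365) ln13_11_4 ln13_11_4_ok) (M (nat_lit 526) (B (L (nat_lit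 493) ln13_12_4 ln13_12_4_ok) (L (nat_lit 558) ln14_17_7 ln14_17_7_ok))))))))))) (M (nat_lit 397) (B (M (nat_lit 365) (B (L (nat_lit 333) ln13_10_5 ln13_10_5_ok) (L (nat_lit 492) ln13_11_5 ln13_11_5_ok))) (B (M (nat_lit 492) (B (L (nat_lit 365) ln13_11_5 ln13_11_5_ok) (L (nat_lit 524) ln12_16_6 ln12_16_6_ok))) (B (M (nat_lit 493) (B (M (nat_lit 458) (B (L (nat_lit 457) ln9_14_2 ln9_14_2_ok) (L (nat_lit 494) ln10_14_0 ln10_14_0_ok))) (B (M (nat_lit 494) (B (L (nat_lit 526) ln13_12_4 ln13_12_4_ok) (L (nat_lit 458) ln10_14_0 ln10_14_0_ok))) (B (M (nat_lit 492) (B (L (nat_lit 524) ln12_16_6 ln12_16_6_ok) (M (nat_lit 494) (B (L (nat_lit 526) ln13_12_4 ln13_12_4_ok) (L (nat_lit 495) ln15_15_3 ln15_15_3_ok))))) (M (nat_lit 524) (B (L (nat_lit 492) ln12_16_6 ln12_16_6_ok) (M (nat_lit 525) (B (L (nat_lit 557) ln13_17_7 ln13_17_7_ok) (L (nat_lit 556) ln13_13_5 ln13_13_5_ok))))))))) (M (nat_lit 365) (B (L (nat_lit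 333) ln13_10_5 ln13_10_5_ok) (M (nat_lit 493) (B (M (nat_lit 366) (B (L (nat_lit 334) ln13_14_6 ln13_14_6_ok) (L (nat_lit 398) ln13_15_6 ln13_15_6_ok))) (M (nat_lit 458) (B (L (nat_lit 457) ln9_14_2 ln9_14_2_ok) (L (nat_lit 494) ln10_14_0 ln10_14_0_ok)))))))))))))))) (B (M (nat_lit 459) (B (M (nat_lit 458) (B (L (nat_lit 457) ln9_14_2 ln9_14_2_ok) (M (nat_lit 426) (B (L (nat_lit 425) ln13_14_3 ln13_14_3_ok) (M (nat_lit 462) (B (L (nat_lit 427) ln10_13_0 ln10_13_0_ok) (M (nat_lit 490) (B (L (nat_lit 489) ln13_14_1 ln13_14_1_ok) (L (nat_lit 491) ln14_14_1 ln14_14_1_ok))))))))) (B (M (nat_lit 458) (B (L (nat_lit 457) ln9_14_2 ln9_14_2_ok) (M (nat_lit 462) (B (M (nat_lit 490) (B (L (nat_lit 489) ln13_14_1 ln13_14_1_ok) (L (nat_lit 491) ln14_14_1 ln14_14_1_ok))) (M (nat_lit 494) (B (L (nat_lit 493) ln10_14_0 ln10_14_0_ok) (L (nat_lit 495) ln11_14_0 ln11_14_0_ok))))))) (B (M (nat_lit 462) (B (M (nat_lit 427)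 (B (L (nat_lit 426) ln10_13_0 ln10_13_0_ok) (L (nat_lit 463) ln15_14_3 ln15_14_3_ok))) (B (M (nat_lit 463) (B (L (nat_lit 427) ln15_14_3 ln15_14_3_ok) (L (nat_lit 464) ln16_14_3 ln16_14_3_ok))) (B (M (nat_lit 463) (B (L (nat_lit 464) ln16_14_3 ln16_14_3_ok) (M (nat_lit 491) (B (L (nat_lit 490) ln14_14_1 ln14_14_1_ok) (L (nat_lit 492) ln15_14_1 ln15_14_1_ok))))) (M (nat_lit 458) (B (M (nat_lit 426) (B (L (nat_lit 425) ln13_14_3 ln13_14_3_ok) (L (nat_lit 427) ln10_13_0 ln10_13_0_ok))) (M (nat_lit 490) (B (L (nat_lit 489) ln13_14_1 ln13_14_1_ok) (L (nat_lit 491) ln14_14_1 ln14_14_1_ok))))))))) (B (M (nat_lit 462) (B (M (nat_lit 427) (B (L (nat_lit 426) ln10_13_0 ln10_13_0_ok) (L (nat_lit 463) ln15_14_3 ln15_14_3_ok))) (B (M (nat_lit 463) (B (L (nat_lit 427) ln15_14_3 ln15_14_3_ok) (L (nat_lit 464) ln16_14_3 ln16_14_3_ok))) (B (M (nat_lit 463) (B (L (nat_lit 464) ln16_14_3 ln16_14_3_ok) (M (nat_lit 491) (B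 (L (nat_lit 490) ln14_14_1 ln14_14_1_ok) (L (nat_lit 492) ln15_14_1 ln15_14_1_ok))))) (M (nat_lit 494) (B (L (nat_lit 495) ln11_14_0 ln11_14_0_ok) (M (nat_lit 397) (B (L (nat_lit 365) ln13_11_4 ln13_11_4_ok) (M (nat_lit 526) (B (L (nat_lit 493) ln13_12_4 ln13_12_4_ok) (L (nat_lit 558) ln14_17_7 ln14_17_7_ok))))))))))) (M (nat_lit 397) (B (M (nat_lit 492) (B (L (nat_lit 365) ln13_11_5 ln13_11_5_ok) (L (nat_lit 524) ln12_16_6 ln12_16_6_ok))) (M (nat_lit 493) (B (M (nat_lit 458) (B (L (nat_lit 457) ln9_14_2 ln9_14_2_ok) (L (nat_lit 494) ln10_14_0 ln10_14_0_ok))) (B (M (nat_lit 494) (B (L (nat_lit 526) ln13_12_4 ln13_12_4_ok) (L (nat_lit 458) ln10_14_0 ln10_14_0_ok))) (B (M (nat_lit 525) (B (L (nat_lit 557) ln13_17_7 ln13_17_7_ok) (M (nat_lit 526) (B (L (nat_lit 494) ln13_12_4 ln13_12_4_ok) (L (nat_lit 558) ln13_13_4 ln13_13_4_ok))))) (M (nat_lit 426) (B (M (nat_lit 398) (B (L (nat_lit 366) ln13_15_6 ln13_15_6_ok)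 (L (nat_lit 427) ln10_13_2 ln10_13_2_ok))) (B (M (nat_lit 427) (B (L (nat_lit 398) ln10_13_2 ln10_13_2_ok) (L (nat_lit 425) ln9_13_0 ln9_13_0_ok))) (B (M (nat_lit 425) (B (L (nat_lit 427) ln9_13_0 ln9_13_0_ok) (L (nat_lit 458) ln13_14_3 ln13_14_3_ok))) (M (nat_lit 458) (B (L (nat_lit 425) ln13_14_3 ln13_14_3_ok) (L (nat_lit 457) ln9_14_2 ln9_14_2_ok)))))))))))))))))) (B (M (nat_lit 462) (B (M (nat_lit 427) (B (L (nat_lit 426) ln10_13_0 ln10_13_0_ok) (L (nat_lit 463) ln15_14_3 ln15_14_3_ok))) (B (M (nat_lit 463) (B (L (nat_lit 427) ln15_14_3 ln15_14_3_ok) (L (nat_lit 464) ln16_14_3 ln16_14_3_ok))) (B (M (nat_lit 463) (B (L (nat_lit 464) ln16_14_3 ln16_14_3_ok) (M (nat_lit 492) (B (L (nat_lit 491) ln15_14_1 ln15_14_1_ok) (M (nat_lit 524) (B (L (nat_lit 397) ln12_16_6 ln12_16_6_ok) (L (nat_lit 556) ln12_17_6 ln12_17_6_ok))))))) (M (nat_lit 494) (B (M (nat_lit 459) (B (L (nat_lit 495) ln11_14_0 ln11_14_0_ok)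 (M (nat_lit 458) (B (L (nat_lit 457) ln9_14_2 ln9_14_2_ok) (L (nat_lit 493) ln10_14_0 ln10_14_0_ok))))) (B (M (nat_lit 493) (B (M (nat_lit 526) (B (L (nat_lit 397) ln13_12_4 ln13_12_4_ok) (L (nat_lit 558) ln14_17_7 ln14_17_7_ok))) (M (nat_lit 459) (B (L (nat_lit 458) ln10_14_0 ln10_14_0_ok) (L (nat_lit 495) ln11_14_0 ln11_14_0_ok))))) (B (M (nat_lit 524) (B (M (nat_lit 492) (B (L (nat_lit 397) ln12_16_6 ln12_16_6_ok) (L (nat_lit 556) ln12_17_6 ln12_17_6_ok))) (B (M (nat_lit 427) (B (L (nat_lit 426) ln10_13_0 ln10_13_0_ok) (M (nat_lit 492) (B (L (nat_lit 395) ln12_16_7 ln12_16_7_ok) (L (nat_lit 556) ln12_17_6 ln12_17_6_ok))))) (B (M (nat_lit 493) (B (M (nat_lit 526) (B (L (nat_lit 397) ln13_12_4 ln13_12_4_ok) (L (nat_lit 558) ln14_17_7 ln14_17_7_ok))) (M (nat_lit 525) (B (L (nat_lit 557) ln13_17_7 ln13_17_7_ok) (L (nat_lit 556) ln13_13_5 ln13_13_5_ok))))) (M (nat_lit 397) (B (L (nat_lit 492) ln12_16_6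 ln12_16_6_ok) (M (nat_lit 526) (B (L (nat_lit 493) ln13_12_4 ln13_12_4_ok) (L (nat_lit 558) ln14_17_7 ln14_17_7_ok))))))))) (M (nat_lit 459) (B (L (nat_lit 495) ln11_14_0 ln11_14_0_ok) (M (nat_lit 426) (B (L (nat_lit 427) ln10_13_0 ln10_13_0_ok) (M (nat_lit 458) (B (L (nat_lit 425) ln13_14_3 ln13_14_3_ok) (L (nat_lit 457) ln9_14_2 ln9_14_2_ok))))))))))))))) (B c40_n4311 (B (M (nat_lit 459) (B (M (nat_lit 458) (B (L (nat_lit 457) ln9_14_2 ln9_14_2_ok) (M (nat_lit 462) (B (M (nat_lit 490) (B (L (nat_lit 489) ln13_14_1 ln13_14_1_ok) (L (nat_lit 491) ln14_14_1 ln14_14_1_ok))) (M (nat_lit 494) (B (L (nat_lit 493) ln10_14_0 ln10_14_0_ok) (L (nat_lit 495) ln11_14_0 ln11_14_0_ok))))))) (B (M (nat_lit 462) (B (M (nat_lit 427) (B (L (nat_lit 426) ln10_13_0 ln10_13_0_ok) (L (nat_lit 463) ln15_14_3 ln15_14_3_ok))) (B (M (nat_lit 463) (B (L (nat_lit 427) ln15_14_3 ln15_14_3_ok) (L (nat_lit 464) ln16_14_3 ln16_14_3_ok)))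 (B (M (nat_lit 463) (B (L (nat_lit 464) ln16_14_3 ln16_14_3_ok) (M (nat_lit 491) (B (L (nat_lit 490) ln14_14_1 ln14_14_1_ok) (L (nat_lit 492) ln15_14_1 ln15_14_1_ok))))) (M (nat_lit 458) (B (M (nat_lit 490) (B (L (nat_lit 489) ln13_14_1 ln13_14_1_ok) (L (nat_lit 491) ln14_14_1 ln14_14_1_ok))) (M (nat_lit 494) (B (L (nat_lit 493) ln10_14_0 ln10_14_0_ok) (L (nat_lit 495) ln11_14_0 ln11_14_0_ok))))))))) (B (M (nat_lit 462) (B (M (nat_lit 427) (B (L (nat_lit 426) ln10_13_0 ln10_13_0_ok) (L (nat_lit 463) ln15_14_3 ln15_14_3_ok))) (B (M (nat_lit 463) (B (L (nat_lit 427) ln15_14_3 ln15_14_3_ok) (L (nat_lit 464) ln16_14_3 ln16_14_3_ok))) (B (M (nat_lit 463) (B (L (nat_lit 464) ln16_14_3 ln16_14_3_ok) (M (nat_lit 491) (B (L (nat_lit 490) ln14_14_1 ln14_14_1_ok) (L (nat_lit 492) ln15_14_1 ln15_14_1_ok))))) (M (nat_lit 494) (B (L (nat_lit 495) ln11_14_0 ln11_14_0_ok) (M (nat_lit 397) (B (L (nat_lit 365) ln13_11_4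 ln13_11_4_ok) (M (nat_lit 526) (B (L (nat_lit 493) ln13_12_4 ln13_12_4_ok) (L (nat_lit 558) ln14_17_7 ln14_17_7_ok))))))))))) (B (M (nat_lit 397) (B (M (nat_lit 365) (B (L (nat_lit 333) ln13_10_5 ln13_10_5_ok) (L (nat_lit 492) ln13_11_5 ln13_11_5_ok))) (B (M (nat_lit 492) (B (L (nat_lit 365) ln13_11_5 ln13_11_5_ok) (L (nat_lit 524) ln12_16_6 ln12_16_6_ok))) (B (M (nat_lit 493) (B (M (nat_lit 458) (B (L (nat_lit 457) ln9_14_2 ln9_14_2_ok) (L (nat_lit 494) ln10_14_0 ln10_14_0_ok))) (B (M (nat_lit 494) (B (L (nat_lit 526) ln13_12_4 ln13_12_4_ok) (L (nat_lit 458) ln10_14_0 ln10_14_0_ok))) (M (nat_lit 524) (B (L (nat_lit 492) ln12_16_6 ln12_16_6_ok) (M (nat_lit 525) (B (L (nat_lit 557) ln13_17_7 ln13_17_7_ok) (L (nat_lit 556) ln13_13_5 ln13_13_5_ok)))))))) (M (nat_lit 365) (B (L (nat_lit 333) ln13_10_5 ln13_10_5_ok) (M (nat_lit 493) (B (M (nat_lit 366) (B (L (nat_lit 334) ln13_14_6 ln13_14_6_ok) (L (nat_lit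 398) ln13_15_6 ln13_15_6_ok))) (M (nat_lit 458) (B (L (nat_lit 457) ln9_14_2 ln9_14_2_ok) (L (nat_lit 494) ln10_14_0 ln10_14_0_ok))))))))))) (M (nat_lit 462) (B (M (nat_lit 427) (B (L (nat_lit 426) ln10_13_0 ln10_13_0_ok) (L (nat_lit 463) ln15_14_3 ln15_14_3_ok))) (M (nat_lit 458) (B (L (nat_lit 457) ln9_14_2 ln9_14_2_ok) (M (nat_lit 490) (B (L (nat_lit 489) ln13_14_1 ln13_14_1_ok) (L (nat_lit 491) ln14_14_1 ln14_14_1_ok)))))))))))) (B (M (nat_lit 459) (B (M (nat_lit 458) (B (L (nat_lit 457) ln9_14_2 ln9_14_2_ok) (M (nat_lit 462) (B (M (nat_lit 490) (B (L (nat_lit 489) ln13_14_1 ln13_14_1_ok) (L (nat_lit 491) ln14_14_1 ln14_14_1_ok))) (M (nat_lit 494) (B (L (nat_lit 493) ln10_14_0 ln10_14_0_ok) (L (nat_lit 495) ln11_14_0 ln11_14_0_ok))))))) (B (M (nat_lit 462) (B (M (nat_lit 463) (B (L (nat_lit 427) ln15_14_3 ln15_14_3_ok) (L (nat_lit 464) ln16_14_3 ln16_14_3_ok))) (M (nat_lit 458) (B (M (nat_lit 490)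 (B (L (nat_lit 489) ln13_14_1 ln13_14_1_ok) (L (nat_lit 491) ln14_14_1 ln14_14_1_ok))) (M (nat_lit 494) (B (L (nat_lit 493) ln10_14_0 ln10_14_0_ok) (L (nat_lit 495) ln11_14_0 ln11_14_0_ok))))))) (B (M (nat_lit 397) (B (M (nat_lit 365) (B (L (nat_lit 333) ln13_10_5 ln13_10_5_ok) (L (nat_lit 492) ln13_11_5 ln13_11_5_ok))) (B (M (nat_lit 492) (B (L (nat_lit 365) ln13_11_5 ln13_11_5_ok) (L (nat_lit 524) ln12_16_6 ln12_16_6_ok))) (M (nat_lit 462) (B (M (nat_lit 463) (B (L (nat_lit 427) ln15_14_3 ln15_14_3_ok) (L (nat_lit 464) ln16_14_3 ln16_14_3_ok))) (M (nat_lit 494) (B (L (nat_lit 495) ln11_14_0 ln11_14_0_ok) (M (nat_lit 526) (B (L (nat_lit 493) ln13_12_4 ln13_12_4_ok) (L (nat_lit 558) ln14_17_7 ln14_17_7_ok)))))))))) (B (M (nat_lit 397) (B (M (nat_lit 365) (B (L (nat_lit 333) ln13_10_5 ln13_10_5_ok) (L (nat_lit 492) ln13_11_5 ln13_11_5_ok))) (B (M (nat_lit 492) (B (L (nat_lit 365) ln13_11_5 ln13_11_5_ok)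 (L (nat_lit 524) ln12_16_6 ln12_16_6_ok))) (B (M (nat_lit 493) (B (M (nat_lit 458) (B (L (nat_lit 457) ln9_14_2 ln9_14_2_ok) (L (nat_lit 494) ln10_14_0 ln10_14_0_ok))) (B (M (nat_lit 494) (B (L (nat_lit 526) ln13_12_4 ln13_12_4_ok) (L (nat_lit 458) ln10_14_0 ln10_14_0_ok))) (M (nat_lit 524) (B (L (nat_lit 492) ln12_16_6 ln12_16_6_ok) (M (nat_lit 525) (B (L (nat_lit 557) ln13_17_7 ln13_17_7_ok) (L (nat_lit 556) ln13_13_5 ln13_13_5_ok)))))))) (M (nat_lit 365) (B (L (nat_lit 333) ln13_10_5 ln13_10_5_ok) (M (nat_lit 493) (B (M (nat_lit 366) (B (L (nat_lit 334) ln13_14_6 ln13_14_6_ok) (L (nat_lit 398) ln13_15_6 ln13_15_6_ok))) (M (nat_lit 458) (B (L (nat_lit 457) ln9_14_2 ln9_14_2_ok) (L (nat_lit 494) ln10_14_0 ln10_14_0_ok))))))))))) (M (nat_lit 462) (B (M (nat_lit 463) (B (L (nat_lit 427) ln15_14_3 ln15_14_3_ok) (L (nat_lit 464) ln16_14_3 ln16_14_3_ok))) (M (nat_lit 458) (B (L (nat_lit 457) ln9_14_2 ln9_14_2_ok)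 (M (nat_lit 490) (B (L (nat_lit 489) ln13_14_1 ln13_14_1_ok) (L (nat_lit 491) ln14_14_1 ln14_14_1_ok)))))))))))) (B (M (nat_lit 397) (B (M (nat_lit 365) (B (L (nat_lit 333) ln13_10_5 ln13_10_5_ok) (L (nat_lit 492) ln13_11_5 ln13_11_5_ok))) (B (M (nat_lit 492) (B (L (nat_lit 365) ln13_11_5 ln13_11_5_ok) (L (nat_lit 524) ln12_16_6 ln12_16_6_ok))) (B (M (nat_lit 462) (B (M (nat_lit 492) (B (L (nat_lit 524) ln12_16_6 ln12_16_6_ok) (M (nat_lit 463) (B (L (nat_lit 464) ln16_14_3 ln16_14_3_ok) (L (nat_lit 491) ln15_14_1 ln15_14_1_ok))))) (B (M (nat_lit 493) (B (M (nat_lit 494) (B (L (nat_lit 526) ln13_12_4 ln13_12_4_ok) (M (nat_lit 459) (B (L (nat_lit 458) ln10_14_0 ln10_14_0_ok) (L (nat_lit 495) ln11_14_0 ln11_14_0_ok))))) (M (nat_lit 524) (B (L (nat_lit 492) ln12_16_6 ln12_16_6_ok) (M (nat_lit 525) (B (L (nat_lit 557) ln13_17_7 ln13_17_7_ok) (L (nat_lit 556) ln13_13_5 ln13_13_5_ok))))))) (M (nat_lit 459) (B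 (M (nat_lit 458) (B (L (nat_lit 457) ln9_14_2 ln9_14_2_ok) (M (nat_lit 490) (B (L (nat_lit 489) ln13_14_1 ln13_14_1_ok) (L (nat_lit 491) ln14_14_1 ln14_14_1_ok))))) (B (M (nat_lit 494) (B (L (nat_lit 495) ln11_14_0 ln11_14_0_ok) (M (nat_lit 493) (B (L (nat_lit 526) ln13_12_4 ln13_12_4_ok) (L (nat_lit 458) ln10_14_0 ln10_14_0_ok))))) (M (nat_lit 494) (B (L (nat_lit 495) ln11_14_0 ln11_14_0_ok) (M (nat_lit 526) (B (L (nat_lit 493) ln13_12_4 ln13_12_4_ok) (L (nat_lit 558) ln14_17_7 ln14_17_7_ok))))))))))) (M (nat_lit 365) (B (L (nat_lit 333) ln13_10_5 ln13_10_5_ok) (M (nat_lit 493) (B (M (nat_lit 366) (B (L (nat_lit 334) ln13_14_6 ln13_14_6_ok) (L (nat_lit 398) ln13_15_6 ln13_15_6_ok))) (M (nat_lit 494) (B (L (nat_lit 462) ln13_11_4 ln13_11_4_ok) (L (nat_lit 526) ln13_12_4 ln13_12_4_ok))))))))))) (B (M (nat_lit 397) (B (M (nat_lit 365) (B (L (nat_lit 333) ln13_10_5 ln13_10_5_ok) (L (nat_lit 492) ln13_11_5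 ln13_11_5_ok))) (B (M (nat_lit 492) (B (L (nat_lit 365) ln13_11_5 ln13_11_5_ok) (L (nat_lit 524) ln12_16_6 ln12_16_6_ok))) (B (M (nat_lit 462) (B (M (nat_lit 463) (B (L (nat_lit 427) ln15_14_3 ln15_14_3_ok) (L (nat_lit 464) ln16_14_3 ln16_14_3_ok))) (B (M (nat_lit 492) (B (L (nat_lit 524) ln12_16_6 ln12_16_6_ok) (M (nat_lit 463) (B (L (nat_lit 464) ln16_14_3 ln16_14_3_ok) (L (nat_lit 491) ln15_14_1 ln15_14_1_ok))))) (M (nat_lit 493) (B (M (nat_lit 494) (B (L (nat_lit 526) ln13_12_4 ln13_12_4_ok) (M (nat_lit 459) (B (L (nat_lit 458) ln10_14_0 ln10_14_0_ok) (L (nat_lit 495) ln11_14_0 ln11_14_0_ok))))) (M (nat_lit 524) (B (L (nat_lit 492) ln12_16_6 ln12_16_6_ok) (M (nat_lit 525) (B (L (nat_lit 557) ln13_17_7 ln13_17_7_ok) (L (nat_lit 556) ln13_13_5 ln13_13_5_ok)))))))))) (M (nat_lit 462) (B (M (nat_lit 365) (B (L (nat_lit 333) ln13_10_5 ln13_10_5_ok) (L (nat_lit 494) ln13_11_4 ln13_11_4_ok))) (M (nat_lit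 463) (B (L (nat_lit 427) ln15_14_3 ln15_14_3_ok) (L (nat_lit 464) ln16_14_3 ln16_14_3_ok))))))))) (B (M (nat_lit 397) (B (M (nat_lit 365) (B (L (nat_lit 333) ln13_10_5 ln13_10_5_ok) (L (nat_lit 492) ln13_11_5 ln13_11_5_ok))) (B (M (nat_lit 492) (B (L (nat_lit 365) ln13_11_5 ln13_11_5_ok) (L (nat_lit 524) ln12_16_6 ln12_16_6_ok))) (B (M (nat_lit 462) (B (M (nat_lit 463) (B (L (nat_lit 427) ln15_14_3 ln15_14_3_ok) (L (nat_lit 464) ln16_14_3 ln16_14_3_ok))) (B (M (nat_lit 492) (B (L (nat_lit 524) ln12_16_6 ln12_16_6_ok) (M (nat_lit 463) (B (L (nat_lit 464) ln16_14_3 ln16_14_3_ok) (L (nat_lit 491) ln15_14_1 ln15_14_1_ok))))) (M (nat_lit 493) (B (M (nat_lit 524) (B (L (nat_lit 492) ln12_16_6 ln12_16_6_ok) (M (nat_lit 525) (B (L (nat_lit 557) ln13_17_7 ln13_17_7_ok) (L (nat_lit 556) ln13_13_5 ln13_13_5_ok))))) (M (nat_lit 494) (B (L (nat_lit 526) ln13_12_4 ln13_12_4_ok) (M (nat_lit 495) (B (L (nat_lit 459)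 ln11_14_0 ln11_14_0_ok) (L (nat_lit 496) ln16_15_3 ln16_15_3_ok)))))))))) (M (nat_lit 462) (B (M (nat_lit 365) (B (L (nat_lit 333) ln13_10_5 ln13_10_5_ok) (L (nat_lit 494) ln13_11_4 ln13_11_4_ok))) (M (nat_lit 463) (B (L (nat_lit 427) ln15_14_3 ln15_14_3_ok) (L (nat_lit 464) ln16_14_3 ln16_14_3_ok))))))))) (B (M (nat_lit 397) (B (M (nat_lit 365) (B (L (nat_lit 333) ln13_10_5 ln13_10_5_ok) (L (nat_lit 492) ln13_11_5 ln13_11_5_ok))) (B (M (nat_lit 492) (B (L (nat_lit 365) ln13_11_5 ln13_11_5_ok) (L (nat_lit 524) ln12_16_6 ln12_16_6_ok))) (B (M (nat_lit 493) (B (M (nat_lit 524) (B (L (nat_lit 492) ln12_16_6 ln12_16_6_ok) (M (nat_lit 525) (B (L (nat_lit 557) ln13_17_7 ln13_17_7_ok) (L (nat_lit 556) ln13_13_5 ln13_13_5_ok))))) (B (M (nat_lit 525) (B (L (nat_lit 557) ln13_17_7 ln13_17_7_ok) (M (nat_lit 526) (B (L (nat_lit 494) ln13_12_4 ln13_12_4_ok) (L (nat_lit 558) ln13_13_4 ln13_13_4_ok))))) (M (nat_lit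 492) (B (L (nat_lit 524) ln12_16_6 ln12_16_6_ok) (M (nat_lit 494) (B (L (nat_lit 526) ln13_12_4 ln13_12_4_ok) (M (nat_lit 463) (B (M (nat_lit 462) (B (L (nat_lit 427) ln15_14_3 ln15_14_3_ok) (L (nat_lit 464) ln16_14_3 ln16_14_3_ok))) (B (M (nat_lit 462) (B (L (nat_lit 464) ln16_14_3 ln16_14_3_ok) (L (nat_lit 491) ln15_14_1 ln15_14_1_ok))) (B (M (nat_lit 495) (B (L (nat_lit 496) ln16_15_3 ln16_15_3_ok) (L (nat_lit 464) ln12_15_2 ln12_15_2_ok))) (M (nat_lit 462) (B (L (nat_lit 427) ln15_14_3 ln15_14_3_ok) (L (nat_lit 491) ln15_14_1 ln15_14_1_ok)))))))))))))) (M (nat_lit 462) (B (M (nat_lit 365) (B (L (nat_lit 333) ln13_10_5 ln13_10_5_ok) (L (nat_lit 494) ln13_11_4 ln13_11_4_ok))) (M (nat_lit 463) (B (L (nat_lit 427) ln15_14_3 ln15_14_3_ok) (L (nat_lit 464) ln16_14_3 ln16_14_3_ok))))))))) (B (M (nat_lit 397) (B (M (nat_lit 365) (B (L (nat_lit 333) ln13_10_5 ln13_10_5_ok) (L (nat_lit 492) ln13_11_5 ln13_11_5_ok)))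 (B (M (nat_lit 492) (B (L (nat_lit 365) ln13_11_5 ln13_11_5_ok) (L (nat_lit 524) ln12_16_6 ln12_16_6_ok))) (B (M (nat_lit 493) (B (M (nat_lit 524) (B (L (nat_lit 492) ln12_16_6 ln12_16_6_ok) (M (nat_lit 525) (B (L (nat_lit 557) ln13_17_7 ln13_17_7_ok) (L (nat_lit 556) ln13_13_5 ln13_13_5_ok))))) (B (M (nat_lit 525) (B (L (nat_lit 557) ln13_17_7 ln13_17_7_ok) (M (nat_lit 526) (B (L (nat_lit 494) ln13_12_4 ln13_12_4_ok) (L (nat_lit 558) ln13_13_4 ln13_13_4_ok))))) (M (nat_lit 492) (B (L (nat_lit 524) ln12_16_6 ln12_16_6_ok) (M (nat_lit 494) (B (L (nat_lit 526) ln13_12_4 ln13_12_4_ok) (M (nat_lit 459) (B (L (nat_lit 458) ln10_14_0 ln10_14_0_ok) (L (nat_lit 495) ln15_15_3 ln15_15_3_ok)))))))))) (M (nat_lit 493) (B (M (nat_lit 365) (B (L (nat_lit 333) ln13_10_5 ln13_10_5_ok) (M (nat_lit 366) (B (L (nat_lit 334) ln13_14_6 ln13_14_6_ok) (L (nat_lit 398) ln13_15_6 ln13_15_6_ok))))) (M (nat_lit 525) (B (L (nat_lit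 557) ln13_17_7 ln13_17_7_ok) (M (nat_lit 526) (B (L (nat_lit 494) ln13_12_4 ln13_12_4_ok) (L (nat_lit 558) ln13_13_4 ln13_13_4_ok))))))))))) (B (M (nat_lit 462) (B (M (nat_lit 427) (B (L (nat_lit 426) ln10_13_0 ln10_13_0_ok) (L (nat_lit 463) ln15_14_3 ln15_14_3_ok))) (B (M (nat_lit 463) (B (L (nat_lit 427) ln15_14_3 ln15_14_3_ok) (L (nat_lit 464) ln16_14_3 ln16_14_3_ok))) (B (M (nat_lit 459) (B (M (nat_lit 463) (B (L (nat_lit 464) ln16_14_3 ln16_14_3_ok) (M (nat_lit 495) (B (L (nat_lit 494) ln11_14_0 ln11_14_0_ok) (L (nat_lit 496) ln12_14_0 ln12_14_0_ok))))) (B (M (nat_lit 494) (B (L (nat_lit 495) ln11_14_0 ln11_14_0_ok) (M (nat_lit 458) (B (L (nat_lit 457) ln9_14_2 ln9_14_2_ok) (L (nat_lit 493) ln10_14_0 ln10_14_0_ok))))) (M (nat_lit 458) (B (L (nat_lit 457) ln9_14_2 ln9_14_2_ok) (M (nat_lit 490) (B (L (nat_lit 489) ln13_14_1 ln13_14_1_ok) (L (nat_lit 491) ln14_14_1 ln14_14_1_ok)))))))) (M (nat_lit 459)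 (B (M (nat_lit 494) (B (L (nat_lit 495) ln11_14_0 ln11_14_0_ok) (M (nat_lit 458) (B (L (nat_lit 457) ln9_14_2 ln9_14_2_ok) (L (nat_lit 493) ln10_14_0 ln10_14_0_ok))))) (B (M (nat_lit 458) (B (M (nat_lit 490) (B (L (nat_lit 489) ln13_14_1 ln13_14_1_ok) (L (nat_lit 491) ln14_14_1 ln14_14_1_ok))) (M (nat_lit 494) (B (L (nat_lit 493) ln10_14_0 ln10_14_0_ok) (L (nat_lit 495) ln11_14_0 ln11_14_0_ok))))) (B (M (nat_lit 494) (B (L (nat_lit 495) ln11_14_0 ln11_14_0_ok) (M (nat_lit 397) (B (L (nat_lit 365) ln13_11_4 ln13_11_4_ok) (M (nat_lit 526) (B (L (nat_lit 493) ln13_12_4 ln13_12_4_ok) (L (nat_lit 558) ln14_17_7 ln14_17_7_ok))))))) (M (nat_lit 458) (B (L (nat_lit 457) ln9_14_2 ln9_14_2_ok) (M (nat_lit 490) (B (L (nat_lit 489) ln13_14_1 ln13_14_1_ok) (L (nat_lit 491) ln14_14_1 ln14_14_1_ok))))))))))))) (B c40_n4447 c40_n4472)))))))))))))) (nat_lit 2977131416794308094280641461793077210819827790952582581444846287221758209573443874798297761003556369114987972072309673036810407142536249344)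 (nat_lit 1828013049948551547827676293316245471740037581234842288768172330239166179709861271425400029801779728422364352829628089762524920043946657618342736456387211841393878106112) (nat_lit 1828013049948551547827676293316245471740037581234842288768172330239166179709861271425400029801779728422364352829628089762524920043946657618342736456387211841393878106112) (by decide +kernel)
theorem c40_s4578 : Sem (nat_lit 2977131416794308094280641461793077210819827790952582581444846287221758209573443874798297761003556369114987972072309673036810407142536249344) (nat_lit 589681630608294847048232042276030893733387517066023005665915720687348599736078532822552660627207816318583057700281366287438732353922167592935813582608419803455184437248) (nat_lit 589681630608294847048232042276030893733387517066023005665915720687348599736078532822552660627207816318583057700281366287438732353922167592935813582608419803455184437248) :=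
  sem_of_chk (M (nat_lit 396) (B (M (nat_lit 364) (B (M (nat_lit 461) (B (L (nat_lit 332) ln12_10_4 ln12_10_4_ok) (L (nat_lit 493) ln12_11_4 ln12_11_4_ok))) (M (nat_lit 492) (B (M (nat_lit 363) (B (L (nat_lit 331) ln12_14_7 ln12_14_7_ok) (L (nat_lit 395) ln12_15_7 ln12_15_7_ok))) (M (nat_lit 491) (B (L (nat_lit 459) ln12_11_5 ln12_11_5_ok) (L (nat_lit 523) ln12_12_5 ln12_12_5_ok))))))) (B (M (nat_lit 492) (B (M (nat_lit 524) (B (M (nat_lit 395) (B (L (nat_lit 363) ln12_15_7 ln12_15_7_ok) (L (nat_lit 427) ln12_16_7 ln12_16_7_ok))) (M (nat_lit 523) (B (L (nat_lit 491) ln12_12_5 ln12_12_5_ok) (L (nat_lit 555) ln12_13_5 ln12_13_5_ok))))) (B (M (nat_lit 493) (B (L (nat_lit 525) ln12_12_4 ln12_12_4_ok) (M (nat_lit 364) (B (L (nat_lit 461) ln12_11_4 ln12_11_4_ok) (M (nat_lit 491) (B (L (nat_lit 459) ln12_11_5 ln12_11_5_ok) (L (nat_lit 523) ln12_12_5 ln12_12_5_ok))))))) (M (nat_lit 524) (B (M (nat_lit 395) (B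 (L (nat_lit 363) ln12_15_7 ln12_15_7_ok) (L (nat_lit 427) ln12_16_7 ln12_16_7_ok))) (M (nat_lit 525) (B (L (nat_lit 493) ln12_12_4 ln12_12_4_ok) (L (nat_lit 557) ln12_13_4 ln12_13_4_ok)))))))) (B (M (nat_lit 364) (B (M (nat_lit 461) (B (L (nat_lit 332) ln12_10_4 ln12_10_4_ok) (L (nat_lit 493) ln12_11_4 ln12_11_4_ok))) (B (M (nat_lit 492) (B (M (nat_lit 491) (B (L (nat_lit 459) ln12_11_5 ln12_11_5_ok) (L (nat_lit 523) ln12_12_5 ln12_12_5_ok))) (M (nat_lit 493) (B (L (nat_lit 461) ln12_11_4 ln12_11_4_ok) (L (nat_lit 525) ln12_12_4 ln12_12_4_ok))))) (M (nat_lit 332) (B (M (nat_lit 333) (B (L (nat_lit 301) ln12_13_6 ln12_13_6_ok) (L (nat_lit 365) ln12_14_6 ln12_14_6_ok))) (M (nat_lit 459) (B (L (nat_lit 427) ln12_10_5 ln12_10_5_ok) (L (nat_lit 491) ln12_11_5 ln12_11_5_ok)))))))) (B (M (nat_lit 492) (B (M (nat_lit 524) (B (M (nat_lit 395) (B (L (nat_lit 363) ln12_15_7 ln12_15_7_ok) (L (nat_lit 427) ln12_16_7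 ln12_16_7_ok))) (M (nat_lit 525) (B (L (nat_lit 493) ln12_12_4 ln12_12_4_ok) (L (nat_lit 557) ln12_13_4 ln12_13_4_ok))))) (B (M (nat_lit 524) (B (M (nat_lit 523) (B (L (nat_lit 491) ln12_12_5 ln12_12_5_ok) (L (nat_lit 555) ln12_13_5 ln12_13_5_ok))) (M (nat_lit 525) (B (L (nat_lit 493) ln12_12_4 ln12_12_4_ok) (L (nat_lit 557) ln12_13_4 ln12_13_4_ok))))) (B (M (nat_lit 524) (B (M (nat_lit 395) (B (L (nat_lit 363) ln12_15_7 ln12_15_7_ok) (L (nat_lit 427) ln12_16_7 ln12_16_7_ok))) (M (nat_lit 523) (B (L (nat_lit 491) ln12_12_5 ln12_12_5_ok) (L (nat_lit 555) ln12_13_5 ln12_13_5_ok))))) (M (nat_lit 493) (B (L (nat_lit 525) ln12_12_4 ln12_12_4_ok) (M (nat_lit 491) (B (L (nat_lit 523) ln12_12_5 ln12_12_5_ok) (M (nat_lit 494) (B (M (nat_lit 459) (B (L (nat_lit 458) ln14_15_3 ln14_15_3_ok) (L (nat_lit 495) ln15_15_3 ln15_15_3_ok))) (B (M (nat_lit 463) (B (L (nat_lit 462) ln11_15_2 ln11_15_2_ok) (M (nat_lit 495)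 (B (L (nat_lit 459) ln15_15_3 ln15_15_3_ok) (L (nat_lit 464) ln12_15_2 ln12_15_2_ok))))) (B (M (nat_lit 495) (B (M (nat_lit 463) (B (L (nat_lit 462) ln11_15_2 ln11_15_2_ok) (L (nat_lit 464) ln12_15_2 ln12_15_2_ok))) (M (nat_lit 527) (B (L (nat_lit 526) ln11_15_0 ln11_15_0_ok) (L (nat_lit 528) ln12_15_0 ln12_15_0_ok))))) (M (nat_lit 490) (B (M (nat_lit 458) (B (L (nat_lit 457) ln13_15_3 ln13_15_3_ok) (L (nat_lit 459) ln14_15_3 ln14_15_3_ok))) (M (nat_lit 461) (B (L (nat_lit 489) ln9_15_2 ln9_15_2_ok) (L (nat_lit 462) ln10_15_2 ln10_15_2_ok))))))))))))))))) (B (M (nat_lit 364) (B (M (nat_lit 461) (B (L (nat_lit 332) ln12_10_4 ln12_10_4_ok) (L (nat_lit 493) ln12_11_4 ln12_11_4_ok))) (B (M (nat_lit 492) (B (M (nat_lit 363) (B (L (nat_lit 331) ln12_14_7 ln12_14_7_ok) (L (nat_lit 395) ln12_15_7 ln12_15_7_ok))) (M (nat_lit 493) (B (L (nat_lit 461) ln12_11_4 ln12_11_4_ok) (L (nat_lit 525) ln12_12_4 ln12_12_4_ok)))))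 (M (nat_lit 332) (B (M (nat_lit 331) (B (L (nat_lit 299) ln12_13_7 ln12_13_7_ok) (L (nat_lit 363) ln12_14_7 ln12_14_7_ok))) (M (nat_lit 333) (B (L (nat_lit 301) ln12_13_6 ln12_13_6_ok) (L (nat_lit 365) ln12_14_6 ln12_14_6_ok)))))))) (B (M (nat_lit 364) (B (M (nat_lit 332) (B (M (nat_lit 333) (B (L (nat_lit 301) ln12_13_6 ln12_13_6_ok) (L (nat_lit 365) ln12_14_6 ln12_14_6_ok))) (M (nat_lit 459) (B (L (nat_lit 427) ln12_10_5 ln12_10_5_ok) (L (nat_lit 491) ln12_11_5 ln12_11_5_ok))))) (B (M (nat_lit 492) (B (M (nat_lit 363) (B (L (nat_lit 331) ln12_14_7 ln12_14_7_ok) (L (nat_lit 395) ln12_15_7 ln12_15_7_ok))) (M (nat_lit 491) (B (L (nat_lit 459) ln12_11_5 ln12_11_5_ok) (L (nat_lit 523) ln12_12_5 ln12_12_5_ok))))) (M (nat_lit 332) (B (M (nat_lit 331) (B (L (nat_lit 299) ln12_13_7 ln12_13_7_ok) (L (nat_lit 363) ln12_14_7 ln12_14_7_ok))) (M (nat_lit 333) (B (L (nat_lit 301) ln12_13_6 ln12_13_6_ok) (L (nat_lit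 365) ln12_14_6 ln12_14_6_ok)))))))) (M (nat_lit 461) (B (M (nat_lit 364) (B (L (nat_lit 332) ln12_10_4 ln12_10_4_ok) (L (nat_lit 493) ln12_11_4 ln12_11_4_ok))) (B (M (nat_lit 493) (B (L (nat_lit 364) ln12_11_4 ln12_11_4_ok) (L (nat_lit 525) ln13_16_7 ln13_16_7_ok))) (B (M (nat_lit 462) (B (M (nat_lit 427) (B (L (nat_lit 426) ln10_13_0 ln10_13_0_ok) (L (nat_lit 463) ln15_14_3 ln15_14_3_ok))) (B (M (nat_lit 463) (B (L (nat_lit 427) ln15_14_3 ln15_14_3_ok) (L (nat_lit 464) ln16_14_3 ln16_14_3_ok))) (B (M (nat_lit 459) (B (M (nat_lit 493) (B (L (nat_lit 525) ln13_16_7 ln13_16_7_ok) (M (nat_lit 458) (B (L (nat_lit 457) ln9_14_2 ln9_14_2_ok) (L (nat_lit 494) ln10_14_0 ln10_14_0_ok))))) (B (M (nat_lit 493) (B (L (nat_lit 525) ln13_16_7 ln13_16_7_ok) (M (nat_lit 494) (B (L (nat_lit 458) ln10_14_0 ln10_14_0_ok) (L (nat_lit 495) ln11_14_0 ln11_14_0_ok))))) (B (M (nat_lit 463) (B (L (nat_lit 464) ln16_14_3 ln16_14_3_ok)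 (M (nat_lit 495) (B (L (nat_lit 494) ln11_14_0 ln11_14_0_ok) (L (nat_lit 496) ln12_14_0 ln12_14_0_ok))))) (M (nat_lit 458) (B (L (nat_lit 457) ln9_14_2 ln9_14_2_ok) (M (nat_lit 490) (B (L (nat_lit 489) ln13_14_1 ln13_14_1_ok) (L (nat_lit 491) ln14_14_1 ln14_14_1_ok))))))))) (M (nat_lit 459) (B (M (nat_lit 427) (B (L (nat_lit 426) ln10_13_0 ln10_13_0_ok) (M (nat_lit 491) (B (L (nat_lit 523) ln11_16_6 ln11_16_6_ok) (L (nat_lit 490) ln14_14_1 ln14_14_1_ok))))) (M (nat_lit 493) (B (L (nat_lit 525) ln13_16_7 ln13_16_7_ok) (M (nat_lit 458) (B (L (nat_lit 457) ln9_14_2 ln9_14_2_ok) (L (nat_lit 494) ln10_14_0 ln10_14_0_ok))))))))))) (M (nat_lit 462) (B (M (nat_lit 427) (B (L (nat_lit 426) ln10_13_0 ln10_13_0_ok) (L (nat_lit 463) ln15_14_3 ln15_14_3_ok))) (B (M (nat_lit 463) (B (L (nat_lit 427) ln15_14_3 ln15_14_3_ok) (L (nat_lit 464) ln16_14_3 ln16_14_3_ok))) (B (M (nat_lit 364) (B (L (nat_lit 332) ln12_10_4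 ln12_10_4_ok) (M (nat_lit 495) (B (M (nat_lit 459) (B (L (nat_lit 491) ln12_11_5 ln12_11_5_ok) (L (nat_lit 494) ln11_14_0 ln11_14_0_ok))) (M (nat_lit 463) (B (L (nat_lit 464) ln16_14_3 ln16_14_3_ok) (L (nat_lit 496) ln12_14_0 ln12_14_0_ok))))))) (M (nat_lit 459) (B (M (nat_lit 364) (B (L (nat_lit 332) ln12_10_4 ln12_10_4_ok) (L (nat_lit 491) ln12_11_5 ln12_11_5_ok))) (B (M (nat_lit 491) (B (L (nat_lit 364) ln12_11_5 ln12_11_5_ok) (L (nat_lit 490) ln14_14_1 ln14_14_1_ok))) (B (M (nat_lit 427) (B (L (nat_lit 426) ln10_13_0 ln10_13_0_ok) (M (nat_lit 491) (B (L (nat_lit 523) ln11_16_6 ln11_16_6_ok) (L (nat_lit 490) ln14_14_1 ln14_14_1_ok))))) (M (nat_lit 426) (B (L (nat_lit 427) ln10_13_0 ln10_13_0_ok) (M (nat_lit 458) (B (L (nat_lit 425) ln13_14_3 ln13_14_3_ok) (L (nat_lit 457) ln9_14_2 ln9_14_2_ok)))))))))))))))))))))))) (nat_lit 2977131416794308094280641461793077210819827790952582581444846287221758209573443874798297761003556369114987972072309673036810407142536249344)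 (nat_lit 589681630608294847048232042276030893733387517066023005665915720687348599736078532822552660627207816318583057700281366287438732353922167592935813582608419803455184437248) (nat_lit 589681630608294847048232042276030893733387517066023005665915720687348599736078532822552660627207816318583057700281366287438732353922167592935813582608419803455184437248) (by decide +kernel)
noncomputable def c40_n4689 : Cert := (M (nat_lit 364) (B (M (nat_lit 365) (B (L (nat_lit 333) ln13_10_5 ln13_10_5_ok) (M (nat_lit 461) (B (L (nat_lit 332) ln13_14_7 ln13_14_7_ok) (M (nat_lit 493) (B (L (nat_lit 396) ln13_15_7 ln13_15_7_ok) (M (nat_lit 366) (B (L (nat_lit 334) ln13_14_6 ln13_14_6_ok) (L (nat_lit 398) ln13_15_6 ln13_15_6_ok))))))))) (B (M (nat_lit 396) (B (M (nat_lit 365) (B (L (nat_lit 333) ln12_14_6 ln12_14_6_ok) (M (nat_lit 363) (B (L (nat_lit 331) ln12_14_7 ln12_14_7_ok) (M (nat_lit 362) (B (L (nat_lit 361) ln9_11_0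 ln9_11_0_ok) (L (nat_lit 398) ln10_11_0 ln10_11_0_ok))))))) (B (M (nat_lit 365) (B (L (nat_lit 333) ln12_14_6 ln12_14_6_ok) (M (nat_lit 366) (B (M (nat_lit 461) (B (L (nat_lit 334) ln13_14_6 ln13_14_6_ok) (L (nat_lit 493) ln13_15_7 ln13_15_7_ok))) (M (nat_lit 367) (B (L (nat_lit 395) ln15_11_1 ln15_11_1_ok) (L (nat_lit 368) ln16_11_1 ln16_11_1_ok))))))) (M (nat_lit 363) (B (L (nat_lit 331) ln12_14_7 ln12_14_7_ok) (M (nat_lit 398) (B (L (nat_lit 399) ln15_12_3 ln15_12_3_ok) (M (nat_lit 362) (B (L (nat_lit 361) ln9_11_0 ln9_11_0_ok) (L (nat_lit 395) ln14_12_3 ln14_12_3_ok)))))))))) (B (M (nat_lit 396) (B (M (nat_lit 332) (B (L (nat_lit 300) ln12_9_4 ln12_9_4_ok) (L (nat_lit 461) ln12_10_4 ln12_10_4_ok))) (B (M (nat_lit 461) (B (L (nat_lit 332) ln12_10_4 ln12_10_4_ok) (L (nat_lit 493) ln13_15_7 ln13_15_7_ok))) (M (nat_lit 363) (B (L (nat_lit 331) ln12_14_7 ln12_14_7_ok) (M (nat_lit 362) (B (L (nat_lit 361)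 ln9_11_0 ln9_11_0_ok) (M (nat_lit 398) (B (L (nat_lit 365) ln10_11_0 ln10_11_0_ok) (L (nat_lit 395) ln14_12_3 ln14_12_3_ok)))))))))) (B (M (nat_lit 396) (B (M (nat_lit 332) (B (L (nat_lit 300) ln12_9_4 ln12_9_4_ok) (L (nat_lit 461) ln12_10_4 ln12_10_4_ok))) (B (M (nat_lit 461) (B (L (nat_lit 332) ln12_10_4 ln12_10_4_ok) (L (nat_lit 493) ln13_15_7 ln13_15_7_ok))) (M (nat_lit 363) (B (L (nat_lit 331) ln12_14_7 ln12_14_7_ok) (M (nat_lit 398) (B (L (nat_lit 399) ln15_12_3 ln15_12_3_ok) (M (nat_lit 362) (B (L (nat_lit 361) ln9_11_0 ln9_11_0_ok) (L (nat_lit 395) ln14_12_3 ln14_12_3_ok)))))))))) (B (M (nat_lit 365) (B (L (nat_lit 333) ln13_10_5 ln13_10_5_ok) (M (nat_lit 461) (B (L (nat_lit 332) ln13_14_7 ln13_14_7_ok) (M (nat_lit 493) (B (M (nat_lit 366) (B (L (nat_lit 334) ln13_14_6 ln13_14_6_ok) (L (nat_lit 398) ln13_15_6 ln13_15_6_ok))) (M (nat_lit 494) (B (L (nat_lit 462) ln13_11_4 ln13_11_4_ok) (L (nat_lit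 526) ln13_12_4 ln13_12_4_ok))))))))) (B (M (nat_lit 461) (B (M (nat_lit 365) (B (L (nat_lit 332) ln13_14_7 ln13_14_7_ok) (L (nat_lit 333) ln13_10_5 ln13_10_5_ok))) (B (M (nat_lit 494) (B (M (nat_lit 365) (B (L (nat_lit 333) ln13_10_5 ln13_10_5_ok) (L (nat_lit 462) ln13_11_4 ln13_11_4_ok))) (M (nat_lit 493) (B (L (nat_lit 396) ln13_15_7 ln13_15_7_ok) (L (nat_lit 526) ln13_12_4 ln13_12_4_ok))))) (B (M (nat_lit 332) (B (L (nat_lit 365) ln13_14_7 ln13_14_7_ok) (L (nat_lit 396) ln12_10_4 ln12_10_4_ok))) (M (nat_lit 396) (B (L (nat_lit 332) ln12_10_4 ln12_10_4_ok) (L (nat_lit 493) ln13_15_7 ln13_15_7_ok))))))) (M (nat_lit 396) (B (M (nat_lit 333) (B (L (nat_lit 365) ln12_14_6 ln12_14_6_ok) (M (nat_lit 332) (B (L (nat_lit 300) ln12_9_4 ln12_9_4_ok) (L (nat_lit 301) ln12_13_6 ln12_13_6_ok))))) (B (M (nat_lit 332) (B (M (nat_lit 331) (B (L (nat_lit 299) ln12_13_7 ln12_13_7_ok) (L (nat_lit 363) ln12_14_7 ln12_14_7_ok)))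 (M (nat_lit 333) (B (L (nat_lit 301) ln12_13_6 ln12_13_6_ok) (L (nat_lit 365) ln12_14_6 ln12_14_6_ok))))) (B (M (nat_lit 332) (B (L (nat_lit 300) ln12_9_4 ln12_9_4_ok) (M (nat_lit 331) (B (L (nat_lit 299) ln12_13_7 ln12_13_7_ok) (L (nat_lit 363) ln12_14_7 ln12_14_7_ok))))) (M (nat_lit 365) (B (L (nat_lit 333) ln12_14_6 ln12_14_6_ok) (M (nat_lit 363) (B (L (nat_lit 331) ln12_14_7 ln12_14_7_ok) (M (nat_lit 362) (B (L (nat_lit 361) ln9_11_0 ln9_11_0_ok) (L (nat_lit 398) ln10_11_0 ln10_11_0_ok))))))))))))))))))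
theorem c40_s4690 : Sem (nat_lit 2977131416794308094280641461793077210819827790952582581444846287221758209573443874798297761003556369114987972072309673036810407142536249344) (nat_lit 2026130650518780904294948853814041983598429282336670293178568413025821621279494988419236346505861815333498704540538263734855332404721372762883809365628411563148972399600060071936) (nat_lit 2026130650518780904294948853814041983598429282336670293178568413025821621279494988419236346505861815333498704540538263734855332404721372762883809365628411563148972399600060071936) :=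
  sem_of_chk (M (nat_lit 397) (B (M (nat_lit 492) (B (L (nat_lit 524) ln12_16_6 ln12_16_6_ok) (M (nat_lit 365) (B (L (nat_lit 333) ln13_10_5 ln13_10_5_ok) (L (nat_lit 461) ln13_11_5 ln13_11_5_ok))))) (B (M (nat_lit 492) (B (L (nat_lit 524) ln12_16_6 ln12_16_6_ok) (M (nat_lit 365) (B (L (nat_lit 396) ln12_15_6 ln12_15_6_ok) (L (nat_lit 461) ln13_11_5 ln13_11_5_ok))))) (B (M (nat_lit 493) (B (M (nat_lit 492) (B (L (nat_lit 524) ln12_16_6 ln12_16_6_ok) (M (nat_lit 525) (B (L (nat_lit 396) ln12_12_4 ln12_12_4_ok) (M (nat_lit 557) (B (L (nat_lit 461) ln13_17_7 ln13_17_7_ok) (L (nat_lit 589) ln13_18_7 ln13_18_7_ok))))))) (B (M (nat_lit 461) (B (M (nat_lit 524) (B (L (nat_lit 492) ln12_16_6 ln12_16_6_ok) (M (nat_lit 525) (B (L (nat_lit 557) ln13_17_7 ln13_17_7_ok) (L (nat_lit 556) ln13_13_5 ln13_13_5_ok))))) (B (M (nat_lit 525) (B (L (nat_lit 557) ln13_17_7 ln13_17_7_ok) (M (nat_lit 526) (B (L (nat_lit 494)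 ln13_12_4 ln13_12_4_ok) (L (nat_lit 558) ln13_13_4 ln13_13_4_ok))))) (M (nat_lit 492) (B (L (nat_lit 524) ln12_16_6 ln12_16_6_ok) (M (nat_lit 494) (B (L (nat_lit 526) ln13_12_4 ln13_12_4_ok) (M (nat_lit 459) (B (L (nat_lit 458) ln10_14_0 ln10_14_0_ok) (L (nat_lit 495) ln15_15_3 ln15_15_3_ok)))))))))) (B (M (nat_lit 492) (B (L (nat_lit 524) ln12_16_6 ln12_16_6_ok) (M (nat_lit 396) (B (L (nat_lit 525) ln12_12_4 ln12_12_4_ok) (M (nat_lit 364) (B (M (nat_lit 363) (B (L (nat_lit 331) ln12_14_7 ln12_14_7_ok) (L (nat_lit 395) ln12_15_7 ln12_15_7_ok))) (M (nat_lit 491) (B (L (nat_lit 459) ln12_11_5 ln12_11_5_ok) (L (nat_lit 523) ln12_12_5 ln12_12_5_ok))))))))) (B (M (nat_lit 461) (B (M (nat_lit 396) (B (L (nat_lit 364) ln13_15_7 ln13_15_7_ok) (L (nat_lit 525) ln13_16_7 ln13_16_7_ok))) (B (M (nat_lit 525) (B (L (nat_lit 396) ln13_16_7 ln13_16_7_ok) (L (nat_lit 557) ln13_17_7 ln13_17_7_ok))) (B (M (nat_lit 525)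 (B (L (nat_lit 557) ln13_17_7 ln13_17_7_ok) (M (nat_lit 526) (B (L (nat_lit 494) ln13_12_4 ln13_12_4_ok) (L (nat_lit 558) ln13_13_4 ln13_13_4_ok))))) (M (nat_lit 494) (B (L (nat_lit 526) ln13_12_4 ln13_12_4_ok) (M (nat_lit 459) (B (L (nat_lit 458) ln10_14_0 ln10_14_0_ok) (M (nat_lit 495) (B (L (nat_lit 462) ln11_14_0 ln11_14_0_ok) (L (nat_lit 496) ln16_15_3 ln16_15_3_ok))))))))))) (M (nat_lit 461) (B (M (nat_lit 492) (B (L (nat_lit 524) ln12_16_6 ln12_16_6_ok) (M (nat_lit 494) (B (L (nat_lit 526) ln13_12_4 ln13_12_4_ok) (M (nat_lit 459) (B (L (nat_lit 458) ln10_14_0 ln10_14_0_ok) (L (nat_lit 495) ln15_15_3 ln15_15_3_ok))))))) (B (M (nat_lit 492) (B (L (nat_lit 524) ln12_16_6 ln12_16_6_ok) (M (nat_lit 494) (B (L (nat_lit 526) ln13_12_4 ln13_12_4_ok) (M (nat_lit 495) (B (L (nat_lit 459) ln15_15_3 ln15_15_3_ok) (L (nat_lit 496) ln16_15_3 ln16_15_3_ok))))))) (B (M (nat_lit 492) (B (L (nat_lit 524) ln12_16_6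 ln12_16_6_ok) (M (nat_lit 491) (B (M (nat_lit 396) (B (L (nat_lit 364) ln13_15_7 ln13_15_7_ok) (L (nat_lit 523) ln12_12_5 ln12_12_5_ok))) (M (nat_lit 490) (B (L (nat_lit 489) ln9_15_2 ln9_15_2_ok) (L (nat_lit 462) ln10_15_2 ln10_15_2_ok))))))) (M (nat_lit 494) (B (L (nat_lit 526) ln13_12_4 ln13_12_4_ok) (M (nat_lit 459) (B (L (nat_lit 458) ln10_14_0 ln10_14_0_ok) (M (nat_lit 495) (B (L (nat_lit 462) ln11_14_0 ln11_14_0_ok) (L (nat_lit 496) ln16_15_3 ln16_15_3_ok)))))))))))))))) (B (M (nat_lit 492) (B (L (nat_lit 524) ln12_16_6 ln12_16_6_ok) (M (nat_lit 365) (B (L (nat_lit 333) ln13_10_5 ln13_10_5_ok) (L (nat_lit 396) ln12_15_6 ln12_15_6_ok))))) c40_n4689))))) (nat_lit 2977131416794308094280641461793077210819827790952582581444846287221758209573443874798297761003556369114987972072309673036810407142536249344) (nat_lit 2026130650518780904294948853814041983598429282336670293178568413025821621279494988419236346505861815333498704540538263734855332404721372762883809365628411563148972399600060071936)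 (nat_lit 2026130650518780904294948853814041983598429282336670293178568413025821621279494988419236346505861815333498704540538263734855332404721372762883809365628411563148972399600060071936) (by decide +kernel)
noncomputable def c40_n4748 : Cert := (M (nat_lit 397) (B (M (nat_lit 492) (B (L (nat_lit 524) ln12_16_6 ln12_16_6_ok) (M (nat_lit 365) (B (L (nat_lit 333) ln13_10_5 ln13_10_5_ok) (L (nat_lit 396) ln12_15_6 ln12_15_6_ok))))) (B (M (nat_lit 492) (B (L (nat_lit 524) ln12_16_6 ln12_16_6_ok) (M (nat_lit 365) (B (L (nat_lit 396) ln12_15_6 ln12_15_6_ok) (L (nat_lit 461) ln13_11_5 ln13_11_5_ok))))) (B (M (nat_lit 396) (B (M (nat_lit 492) (B (L (nat_lit 524) ln12_16_6 ln12_16_6_ok) (M (nat_lit 493) (B (L (nat_lit 525) ln12_12_4 ln12_12_4_ok) (M (nat_lit 364) (B (L (nat_lit 461) ln13_15_7 ln13_15_7_ok) (M (nat_lit 363) (B (L (nat_lit 331) ln12_14_7 ln12_14_7_ok) (L (nat_lit 395) ln12_15_7 ln12_15_7_ok)))))))))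 (B (M (nat_lit 398) (B (M (nat_lit 427) (B (L (nat_lit 399) ln15_12_1 ln15_12_1_ok) (L (nat_lit 426) ln10_13_2 ln10_13_2_ok))) (M (nat_lit 493) (B (M (nat_lit 461) (B (L (nat_lit 364) ln13_15_7 ln13_15_7_ok) (L (nat_lit 366) ln13_15_6 ln13_15_6_ok))) (M (nat_lit 492) (B (L (nat_lit 525) ln12_12_4 ln12_12_4_ok) (L (nat_lit 524) ln12_16_6 ln12_16_6_ok))))))) (B (M (nat_lit 492) (B (L (nat_lit 524) ln12_16_6 ln12_16_6_ok) (M (nat_lit 398) (B (M (nat_lit 427) (B (L (nat_lit 399) ln15_12_1 ln15_12_1_ok) (L (nat_lit 426) ln10_13_2 ln10_13_2_ok))) (M (nat_lit 366) (B (M (nat_lit 395) (B (L (nat_lit 363) ln12_15_7 ln12_15_7_ok) (L (nat_lit 367) ln11_12_2 ln11_12_2_ok))) (M (nat_lit 493) (B (L (nat_lit 461) ln13_15_6 ln13_15_6_ok) (L (nat_lit 525) ln12_12_4 ln12_12_4_ok))))))))) (B (M (nat_lit 398) (B (M (nat_lit 427) (B (L (nat_lit 399) ln15_12_1 ln15_12_1_ok) (L (nat_lit 426) ln10_13_2 ln10_13_2_ok))) (B (M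 (nat_lit 395) (B (M (nat_lit 363) (B (L (nat_lit 362) ln14_12_3 ln14_12_3_ok) (L (nat_lit 492) ln12_15_7 ln12_15_7_ok))) (B (M (nat_lit 492) (B (L (nat_lit 363) ln12_15_7 ln12_15_7_ok) (L (nat_lit 524) ln12_16_6 ln12_16_6_ok))) (M (nat_lit 426) (B (L (nat_lit 427) ln14_12_1 ln14_12_1_ok) (M (nat_lit 394) (B (L (nat_lit 393) ln9_12_0 ln9_12_0_ok) (L (nat_lit 425) ln13_12_1 ln13_12_1_ok)))))))) (M (nat_lit 363) (B (M (nat_lit 364) (B (L (nat_lit 331) ln12_14_7 ln12_14_7_ok) (L (nat_lit 399) ln15_12_3 ln15_12_3_ok))) (M (nat_lit 492) (B (L (nat_lit 395) ln12_15_7 ln12_15_7_ok) (L (nat_lit 524) ln12_16_6 ln12_16_6_ok)))))))) (M (nat_lit 398) (B (M (nat_lit 427) (B (L (nat_lit 399) ln15_12_1 ln15_12_1_ok) (L (nat_lit 426) ln10_13_2 ln10_13_2_ok))) (B (M (nat_lit 395) (B (M (nat_lit 427) (B (L (nat_lit 426) ln14_12_1 ln14_12_1_ok) (M (nat_lit 363) (B (L (nat_lit 331) ln11_10_4 ln11_10_4_ok) (L (nat_lit 362)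 ln14_12_3 ln14_12_3_ok))))) (B (M (nat_lit 426) (B (L (nat_lit 427) ln14_12_1 ln14_12_1_ok) (M (nat_lit 394) (B (L (nat_lit 393) ln9_12_0 ln9_12_0_ok) (L (nat_lit 425) ln13_12_1 ln13_12_1_ok))))) (B (M (nat_lit 363) (B (L (nat_lit 362) ln14_12_3 ln14_12_3_ok) (M (nat_lit 331) (B (L (nat_lit 364) ln12_14_7 ln12_14_7_ok) (L (nat_lit 427) ln11_10_4 ln11_10_4_ok))))) (M (nat_lit 364) (B (M (nat_lit 363) (B (L (nat_lit 331) ln12_14_7 ln12_14_7_ok) (L (nat_lit 362) ln14_12_3 ln14_12_3_ok))) (M (nat_lit 332) (B (L (nat_lit 300) ln12_9_4 ln12_9_4_ok) (L (nat_lit 461) ln12_10_4 ln12_10_4_ok))))))))) (B (M (nat_lit 364) (B (M (nat_lit 332) (B (L (nat_lit 300) ln12_9_4 ln12_9_4_ok) (L (nat_lit 461) ln12_10_4 ln12_10_4_ok))) (M (nat_lit 399) (B (L (nat_lit 363) ln15_12_3 ln15_12_3_ok) (L (nat_lit 427) ln15_12_1 ln15_12_1_ok))))) (M (nat_lit 364) (B (M (nat_lit 332) (B (L (nat_lit 300) ln12_9_4 ln12_9_4_ok) (L (nat_lit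 461) ln12_10_4 ln12_10_4_ok))) (M (nat_lit 363) (B (L (nat_lit 331) ln12_14_7 ln12_14_7_ok) (L (nat_lit 399) ln15_12_3 ln15_12_3_ok)))))))))))))) (B (M (nat_lit 492) (B (L (nat_lit 524) ln12_16_6 ln12_16_6_ok) (M (nat_lit 365) (B (L (nat_lit 333) ln13_10_5 ln13_10_5_ok) (L (nat_lit 461) ln13_11_5 ln13_11_5_ok))))) (M (nat_lit 365) (B (L (nat_lit 333) ln13_10_5 ln13_10_5_ok) (M (nat_lit 461) (B (M (nat_lit 462) (B (L (nat_lit 494) ln13_11_4 ln13_11_4_ok) (M (nat_lit 463) (B (L (nat_lit 427) ln15_14_3 ln15_14_3_ok) (L (nat_lit 464) ln16_14_3 ln16_14_3_ok))))) (M (nat_lit 493) (B (M (nat_lit 366) (B (L (nat_lit 334) ln13_14_6 ln13_14_6_ok) (L (nat_lit 398) ln13_15_6 ln13_15_6_ok))) (M (nat_lit 525) (B (L (nat_lit 396) ln13_16_7 ln13_16_7_ok) (L (nat_lit 557) ln13_17_7 ln13_17_7_ok))))))))))))))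
noncomputable def c40_n4780 : Cert := (M (nat_lit 492) (B (M (nat_lit 397) (B (L (nat_lit 524) ln12_16_6 ln12_16_6_ok) (M (nat_lit 365) (B (L (nat_lit 333) ln13_10_5 ln13_10_5_ok) (L (nat_lit 396) ln12_15_6 ln12_15_6_ok))))) (B (M (nat_lit 396) (B (M (nat_lit 397) (B (L (nat_lit 365) ln12_15_6 ln12_15_6_ok) (L (nat_lit 524) ln12_16_6 ln12_16_6_ok))) (M (nat_lit 364) (B (M (nat_lit 363) (B (L (nat_lit 331) ln12_14_7 ln12_14_7_ok) (L (nat_lit 395) ln12_15_7 ln12_15_7_ok))) (M (nat_lit 491) (B (L (nat_lit 459) ln12_11_5 ln12_11_5_ok) (L (nat_lit 523) ln12_12_5 ln12_12_5_ok))))))) (B (M (nat_lit 396) (B (M (nat_lit 525) (B (L (nat_lit 493) ln12_12_4 ln12_12_4_ok) (M (nat_lit 524) (B (L (nat_lit 397) ln12_16_6 ln12_16_6_ok) (L (nat_lit 557) ln12_13_4 ln12_13_4_ok))))) (M (nat_lit 364) (B (M (nat_lit 363) (B (L (nat_lit 331) ln12_14_7 ln12_14_7_ok) (L (nat_lit 395) ln12_15_7 ln12_15_7_ok))) (M (nat_lit 491)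 (B (L (nat_lit 459) ln12_11_5 ln12_11_5_ok) (L (nat_lit 523) ln12_12_5 ln12_12_5_ok))))))) (B (M (nat_lit 524) (B (L (nat_lit 397) ln12_16_6 ln12_16_6_ok) (M (nat_lit 556) (B (M (nat_lit 427) (B (L (nat_lit 395) ln12_16_7 ln12_16_7_ok) (L (nat_lit 459) ln12_17_7 ln12_17_7_ok))) (M (nat_lit 557) (B (L (nat_lit 525) ln12_13_4 ln12_13_4_ok) (L (nat_lit 589) ln12_14_4 ln12_14_4_ok))))))) (B (M (nat_lit 396) (B (M (nat_lit 524) (B (M (nat_lit 395) (B (L (nat_lit 363) ln12_15_7 ln12_15_7_ok) (L (nat_lit 427) ln12_16_7 ln12_16_7_ok))) (M (nat_lit 523) (B (L (nat_lit 491) ln12_12_5 ln12_12_5_ok) (L (nat_lit 555) ln12_13_5 ln12_13_5_ok))))) (B (M (nat_lit 524) (B (M (nat_lit 523) (B (L (nat_lit 491) ln12_12_5 ln12_12_5_ok) (L (nat_lit 555) ln12_13_5 ln12_13_5_ok))) (M (nat_lit 525) (B (L (nat_lit 493) ln12_12_4 ln12_12_4_ok) (L (nat_lit 557) ln12_13_4 ln12_13_4_ok))))) (B (M (nat_lit 524) (B (M (nat_lit 395) (B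 (L (nat_lit 363) ln12_15_7 ln12_15_7_ok) (L (nat_lit 427) ln12_16_7 ln12_16_7_ok))) (M (nat_lit 525) (B (L (nat_lit 493) ln12_12_4 ln12_12_4_ok) (L (nat_lit 557) ln12_13_4 ln12_13_4_ok))))) (M (nat_lit 364) (B (M (nat_lit 363) (B (L (nat_lit 331) ln12_14_7 ln12_14_7_ok) (L (nat_lit 395) ln12_15_7 ln12_15_7_ok))) (M (nat_lit 491) (B (L (nat_lit 459) ln12_11_5 ln12_11_5_ok) (L (nat_lit 523) ln12_12_5 ln12_12_5_ok))))))))) (M (nat_lit 396) (B (M (nat_lit 364) (B (M (nat_lit 365) (B (L (nat_lit 333) ln12_14_6 ln12_14_6_ok) (L (nat_lit 397) ln12_15_6 ln12_15_6_ok))) (M (nat_lit 491) (B (L (nat_lit 459) ln12_11_5 ln12_11_5_ok) (L (nat_lit 523) ln12_12_5 ln12_12_5_ok))))) (B (M (nat_lit 364) (B (M (nat_lit 363) (B (L (nat_lit 331) ln12_14_7 ln12_14_7_ok) (L (nat_lit 395) ln12_15_7 ln12_15_7_ok))) (M (nat_lit 491) (B (L (nat_lit 459) ln12_11_5 ln12_11_5_ok) (L (nat_lit 523) ln12_12_5 ln12_12_5_ok))))) (M (nat_lit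 397) (B (L (nat_lit 365) ln12_15_6 ln12_15_6_ok) (M (nat_lit 395) (B (L (nat_lit 363) ln12_15_7 ln12_15_7_ok) (M (nat_lit 398) (B (M (nat_lit 427) (B (L (nat_lit 426) ln14_12_1 ln14_12_1_ok) (L (nat_lit 399) ln15_12_1 ln15_12_1_ok))) (B (M (nat_lit 426) (B (L (nat_lit 427) ln14_12_1 ln14_12_1_ok) (M (nat_lit 394) (B (L (nat_lit 393) ln9_12_0 ln9_12_0_ok) (L (nat_lit 425) ln13_12_1 ln13_12_1_ok))))) (B (M (nat_lit 399) (B (L (nat_lit 427) ln15_12_1 ln15_12_1_ok) (L (nat_lit 400) ln16_12_1 ln16_12_1_ok))) (M (nat_lit 399) (B (L (nat_lit 400) ln16_12_1 ln16_12_1_ok) (M (nat_lit 367) (B (L (nat_lit 366) ln11_12_2 ln11_12_2_ok) (L (nat_lit 368) ln12_12_2 ln12_12_2_ok))))))))))))))))))))))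
noncomputable def c40_n4936 : Cert := (M (nat_lit 397) (B (M (nat_lit 365) (B (L (nat_lit 333) ln13_10_5 ln13_10_5_ok) (M (nat_lit 364) (B (L (nat_lit 332) ln13_14_7 ln13_14_7_ok) (M (nat_lit 493) (B (L (nat_lit 396) ln13_15_7 ln13_15_7_ok) (M (nat_lit 366) (B (L (nat_lit 334) ln13_14_6 ln13_14_6_ok) (L (nat_lit 398) ln13_15_6 ln13_15_6_ok))))))))) (B (M (nat_lit 365) (B (L (nat_lit 333) ln13_10_5 ln13_10_5_ok) (M (nat_lit 493) (B (M (nat_lit 366) (B (L (nat_lit 334) ln13_14_6 ln13_14_6_ok) (L (nat_lit 398) ln13_15_6 ln13_15_6_ok))) (M (nat_lit 525) (B (L (nat_lit 396) ln13_16_7 ln13_16_7_ok) (L (nat_lit 557) ln13_17_7 ln13_17_7_ok))))))) (B (M (nat_lit 396) (B (M (nat_lit 364) (B (L (nat_lit 332) ln12_10_4 ln12_10_4_ok) (L (nat_lit 493) ln13_15_7 ln13_15_7_ok))) (B (M (nat_lit 493) (B (L (nat_lit 364) ln13_15_7 ln13_15_7_ok) (L (nat_lit 525) ln13_16_7 ln13_16_7_ok))) (B (M (nat_lit 398) (B (M (nat_lit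 493) (B (L (nat_lit 366) ln13_15_6 ln13_15_6_ok) (L (nat_lit 525) ln13_16_7 ln13_16_7_ok))) (M (nat_lit 399) (B (L (nat_lit 427) ln15_12_1 ln15_12_1_ok) (L (nat_lit 400) ln16_12_1 ln16_12_1_ok))))) (M (nat_lit 459) (B (M (nat_lit 364) (B (L (nat_lit 332) ln12_10_4 ln12_10_4_ok) (L (nat_lit 491) ln12_11_5 ln12_11_5_ok))) (M (nat_lit 426) (B (M (nat_lit 427) (B (L (nat_lit 425) ln9_13_2 ln9_13_2_ok) (L (nat_lit 398) ln10_13_2 ln10_13_2_ok))) (B (M (nat_lit 427) (B (L (nat_lit 425) ln9_13_2 ln9_13_2_ok) (L (nat_lit 462) ln10_13_0 ln10_13_0_ok))) (B (M (nat_lit 427) (B (L (nat_lit 398) ln10_13_2 ln10_13_2_ok) (L (nat_lit 462) ln10_13_0 ln10_13_0_ok))) (M (nat_lit 458) (B (L (nat_lit 425) ln13_14_3 ln13_14_3_ok) (L (nat_lit 457) ln9_14_2 ln9_14_2_ok))))))))))))) (B (M (nat_lit 365) (B (L (nat_lit 333) ln13_10_5 ln13_10_5_ok) (M (nat_lit 459) (B (M (nat_lit 364) (B (L (nat_lit 332) ln13_14_7 ln13_14_7_ok) (M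 (nat_lit 396) (B (L (nat_lit 493) ln13_15_7 ln13_15_7_ok) (L (nat_lit 491) ln12_11_5 ln12_11_5_ok))))) (M (nat_lit 426) (B (M (nat_lit 427) (B (L (nat_lit 398) ln10_13_2 ln10_13_2_ok) (L (nat_lit 425) ln9_13_0 ln9_13_0_ok))) (B (M (nat_lit 427) (B (L (nat_lit 425) ln9_13_0 ln9_13_0_ok) (L (nat_lit 462) ln10_13_0 ln10_13_0_ok))) (B (M (nat_lit 427) (B (L (nat_lit 398) ln10_13_2 ln10_13_2_ok) (L (nat_lit 462) ln10_13_0 ln10_13_0_ok))) (M (nat_lit 458) (B (L (nat_lit 425) ln13_14_3 ln13_14_3_ok) (L (nat_lit 457) ln9_14_2 ln9_14_2_ok))))))))))) (B (M (nat_lit 365) (B (L (nat_lit 333) ln13_10_5 ln13_10_5_ok) (M (nat_lit 364) (B (L (nat_lit 332) ln13_14_7 ln13_14_7_ok) (M (nat_lit 366) (B (L (nat_lit 334) ln13_14_6 ln13_14_6_ok) (M (nat_lit 398) (B (L (nat_lit 493) ln13_15_6 ln13_15_6_ok) (M (nat_lit 363) (B (L (nat_lit 362) ln10_11_0 ln10_11_0_ok) (L (nat_lit 399) ln11_11_0 ln11_11_0_ok))))))))))) (B (M (nat_lit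 365) (B (L (nat_lit 333) ln13_10_5 ln13_10_5_ok) (M (nat_lit 426) (B (M (nat_lit 427) (B (L (nat_lit 425) ln9_13_0 ln9_13_0_ok) (L (nat_lit 462) ln10_13_0 ln10_13_0_ok))) (B (M (nat_lit 396) (B (M (nat_lit 364) (B (L (nat_lit 332) ln13_14_7 ln13_14_7_ok) (L (nat_lit 493) ln13_15_7 ln13_15_7_ok))) (M (nat_lit 394) (B (M (nat_lit 366) (B (L (nat_lit 334) ln13_14_6 ln13_14_6_ok) (L (nat_lit 395) ln10_12_2 ln10_12_2_ok))) (B (M (nat_lit 395) (B (L (nat_lit 366) ln10_12_2 ln10_12_2_ok) (L (nat_lit 393) ln9_12_0 ln9_12_0_ok))) (B (M (nat_lit 393) (B (L (nat_lit 395) ln9_12_0 ln9_12_0_ok) (L (nat_lit 427) ln13_13_3 ln13_13_3_ok))) (M (nat_lit 427) (B (L (nat_lit 393) ln13_13_3 ln13_13_3_ok) (L (nat_lit 462) ln10_13_0 ln10_13_0_ok))))))))) (M (nat_lit 364) (B (L (nat_lit 332) ln13_14_7 ln13_14_7_ok) (M (nat_lit 459) (B (M (nat_lit 396) (B (L (nat_lit 493) ln13_15_7 ln13_15_7_ok) (L (nat_lit 491) ln12_11_5 ln12_11_5_ok)))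 (M (nat_lit 458) (B (L (nat_lit 425) ln13_14_3 ln13_14_3_ok) (L (nat_lit 457) ln9_14_2 ln9_14_2_ok)))))))))))) (M (nat_lit 365) (B (L (nat_lit 333) ln13_10_5 ln13_10_5_ok) (M (nat_lit 364) (B (L (nat_lit 332) ln13_14_7 ln13_14_7_ok) (M (nat_lit 366) (B (L (nat_lit 334) ln13_14_6 ln13_14_6_ok) (M (nat_lit 363) (B (M (nat_lit 331) (B (L (nat_lit 330) ln14_11_3 ln14_11_3_ok) (L (nat_lit 396) ln12_14_7 ln12_14_7_ok))) (M (nat_lit 398) (B (L (nat_lit 362) ln10_11_0 ln10_11_0_ok) (L (nat_lit 399) ln11_11_0 ln11_11_0_ok))))))))))))))))))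
theorem c40_s4937 : Sem (nat_lit 2977131416794308094280641461793077210819827790952582581444846287221758209573443874798297761003556369114987972072309673036810407142536249344) (nat_lit 1415235909665047485812163481808740249625446368329901720159293825416171184563245521778764120774684087480930781002966919413518585453240426428371840287914304670258031493120) (nat_lit 1415235909665047485812163481808740249625446368329901720159293825416171184563245521778764120774684087480930781002966919413518585453240426428371840287914304670258031493120) :=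
  sem_of_chk (M (nat_lit 461) (B (M (nat_lit 462) (B (M (nat_lit 427) (B (L (nat_lit 426) ln10_13_0 ln10_13_0_ok) (L (nat_lit 463) ln15_14_3 ln15_14_3_ok))) (B (M (nat_lit 463) (B (L (nat_lit 427) ln15_14_3 ln15_14_3_ok) (L (nat_lit 464) ln16_14_3 ln16_14_3_ok))) (M (nat_lit 493) (B (M (nat_lit 525) (B (L (nat_lit 396) ln13_16_7 ln13_16_7_ok) (L (nat_lit 557) ln13_17_7 ln13_17_7_ok))) (M (nat_lit 494) (B (M (nat_lit 397) (B (L (nat_lit 365) ln13_11_4 ln13_11_4_ok) (L (nat_lit 526) ln13_12_4 ln13_12_4_ok))) (M (nat_lit 495) (B (L (nat_lit 459) ln11_14_0 ln11_14_0_ok) (L (nat_lit 496) ln16_15_3 ln16_15_3_ok)))))))))) (B (M (nat_lit 462) (B (M (nat_lit 463) (B (L (nat_lit 427) ln15_14_3 ln15_14_3_ok) (L (nat_lit 464) ln16_14_3 ln16_14_3_ok))) (M (nat_lit 493) (B (M (nat_lit 396) (B (L (nat_lit 364) ln12_11_4 ln12_11_4_ok) (L (nat_lit 525) ln13_16_7 ln13_16_7_ok))) (M (nat_lit 494) (B (M (nat_lit 526) (B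 (L (nat_lit 397) ln13_12_4 ln13_12_4_ok) (L (nat_lit 558) ln14_17_7 ln14_17_7_ok))) (M (nat_lit 495) (B (L (nat_lit 459) ln11_14_0 ln11_14_0_ok) (L (nat_lit 496) ln16_15_3 ln16_15_3_ok))))))))) (B (M (nat_lit 462) (B (M (nat_lit 427) (B (L (nat_lit 426) ln10_13_0 ln10_13_0_ok) (L (nat_lit 463) ln15_14_3 ln15_14_3_ok))) (B (M (nat_lit 463) (B (L (nat_lit 427) ln15_14_3 ln15_14_3_ok) (L (nat_lit 464) ln16_14_3 ln16_14_3_ok))) (B (M (nat_lit 459) (B (M (nat_lit 463) (B (L (nat_lit 464) ln16_14_3 ln16_14_3_ok) (M (nat_lit 495) (B (L (nat_lit 494) ln11_14_0 ln11_14_0_ok) (L (nat_lit 496) ln12_14_0 ln12_14_0_ok))))) (B (M (nat_lit 494) (B (L (nat_lit 495) ln11_14_0 ln11_14_0_ok) (M (nat_lit 458) (B (L (nat_lit 457) ln9_14_2 ln9_14_2_ok) (L (nat_lit 493) ln10_14_0 ln10_14_0_ok))))) (M (nat_lit 458) (B (L (nat_lit 457) ln9_14_2 ln9_14_2_ok) (M (nat_lit 490) (B (L (nat_lit 489) ln13_14_1 ln13_14_1_ok) (L (nat_lit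 491) ln14_14_1 ln14_14_1_ok)))))))) (M (nat_lit 459) (B (M (nat_lit 426) (B (L (nat_lit 427) ln10_13_0 ln10_13_0_ok) (M (nat_lit 458) (B (L (nat_lit 425) ln13_14_3 ln13_14_3_ok) (L (nat_lit 457) ln9_14_2 ln9_14_2_ok))))) (B (M (nat_lit 494) (B (L (nat_lit 495) ln11_14_0 ln11_14_0_ok) (M (nat_lit 458) (B (L (nat_lit 457) ln9_14_2 ln9_14_2_ok) (L (nat_lit 493) ln10_14_0 ln10_14_0_ok))))) (B (M (nat_lit 458) (B (M (nat_lit 426) (B (L (nat_lit 425) ln13_14_3 ln13_14_3_ok) (L (nat_lit 427) ln10_13_0 ln10_13_0_ok))) (M (nat_lit 490) (B (L (nat_lit 489) ln13_14_1 ln13_14_1_ok) (L (nat_lit 491) ln14_14_1 ln14_14_1_ok))))) (M (nat_lit 494) (B (L (nat_lit 495) ln11_14_0 ln11_14_0_ok) (M (nat_lit 397) (B (L (nat_lit 365) ln13_11_4 ln13_11_4_ok) (M (nat_lit 526) (B (L (nat_lit 493) ln13_12_4 ln13_12_4_ok) (L (nat_lit 558) ln14_17_7 ln14_17_7_ok))))))))))))))) (B (M (nat_lit 462) (B (M (nat_lit 427) (B (L (nat_lit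 426) ln10_13_0 ln10_13_0_ok) (L (nat_lit 463) ln15_14_3 ln15_14_3_ok))) (B (M (nat_lit 463) (B (L (nat_lit 427) ln15_14_3 ln15_14_3_ok) (L (nat_lit 464) ln16_14_3 ln16_14_3_ok))) (B (M (nat_lit 459) (B (M (nat_lit 463) (B (L (nat_lit 464) ln16_14_3 ln16_14_3_ok) (M (nat_lit 495) (B (L (nat_lit 494) ln11_14_0 ln11_14_0_ok) (L (nat_lit 496) ln12_14_0 ln12_14_0_ok))))) (M (nat_lit 458) (B (L (nat_lit 457) ln9_14_2 ln9_14_2_ok) (M (nat_lit 490) (B (L (nat_lit 489) ln13_14_1 ln13_14_1_ok) (L (nat_lit 491) ln14_14_1 ln14_14_1_ok))))))) (M (nat_lit 427) (B (L (nat_lit 426) ln10_13_0 ln10_13_0_ok) (M (nat_lit 459) (B (M (nat_lit 494) (B (L (nat_lit 495) ln11_14_0 ln11_14_0_ok) (M (nat_lit 458) (B (L (nat_lit 457) ln9_14_2 ln9_14_2_ok) (L (nat_lit 493) ln10_14_0 ln10_14_0_ok))))) (M (nat_lit 491) (B (L (nat_lit 490) ln14_14_1 ln14_14_1_ok) (M (nat_lit 396) (B (L (nat_lit 364) ln12_11_5 ln12_11_5_ok) (L (nat_lit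 523) ln11_16_6 ln11_16_6_ok))))))))))))) (B (M (nat_lit 493) (B (M (nat_lit 525) (B (L (nat_lit 396) ln13_16_7 ln13_16_7_ok) (L (nat_lit 557) ln13_17_7 ln13_17_7_ok))) (M (nat_lit 397) (B (M (nat_lit 365) (B (L (nat_lit 333) ln13_10_5 ln13_10_5_ok) (M (nat_lit 366) (B (L (nat_lit 334) ln13_14_6 ln13_14_6_ok) (L (nat_lit 398) ln13_15_6 ln13_15_6_ok))))) (B (M (nat_lit 365) (B (M (nat_lit 366) (B (L (nat_lit 334) ln13_14_6 ln13_14_6_ok) (L (nat_lit 398) ln13_15_6 ln13_15_6_ok))) (M (nat_lit 494) (B (L (nat_lit 462) ln13_11_4 ln13_11_4_ok) (L (nat_lit 526) ln13_12_4 ln13_12_4_ok))))) (B (M (nat_lit 365) (B (L (nat_lit 333) ln13_10_5 ln13_10_5_ok) (M (nat_lit 494) (B (L (nat_lit 462) ln13_11_4 ln13_11_4_ok) (L (nat_lit 526) ln13_12_4 ln13_12_4_ok))))) (M (nat_lit 494) (B (L (nat_lit 526) ln13_12_4 ln13_12_4_ok) (M (nat_lit 459) (B (L (nat_lit 458) ln10_14_0 ln10_14_0_ok) (M (nat_lit 495) (B (L (nat_lit 462)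 ln11_14_0 ln11_14_0_ok) (L (nat_lit 496) ln16_15_3 ln16_15_3_ok))))))))))))) (B (M (nat_lit 397) (B (M (nat_lit 365) (B (L (nat_lit 333) ln13_10_5 ln13_10_5_ok) (M (nat_lit 462) (B (L (nat_lit 494) ln13_11_4 ln13_11_4_ok) (M (nat_lit 427) (B (L (nat_lit 426) ln10_13_0 ln10_13_0_ok) (L (nat_lit 463) ln15_14_3 ln15_14_3_ok))))))) (B (M (nat_lit 462) (B (M (nat_lit 427) (B (L (nat_lit 426) ln10_13_0 ln10_13_0_ok) (L (nat_lit 463) ln15_14_3 ln15_14_3_ok))) (M (nat_lit 493) (B (M (nat_lit 396) (B (L (nat_lit 364) ln13_15_7 ln13_15_7_ok) (L (nat_lit 525) ln13_16_7 ln13_16_7_ok))) (M (nat_lit 494) (B (L (nat_lit 365) ln13_11_4 ln13_11_4_ok) (L (nat_lit 526) ln13_12_4 ln13_12_4_ok))))))) (B (M (nat_lit 398) (B (M (nat_lit 493) (B (L (nat_lit 366) ln13_15_6 ln13_15_6_ok) (M (nat_lit 396) (B (L (nat_lit 364) ln13_15_7 ln13_15_7_ok) (L (nat_lit 525) ln13_16_7 ln13_16_7_ok))))) (B (M (nat_lit 427) (B (L (nat_lit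 426) ln10_13_2 ln10_13_2_ok) (M (nat_lit 399) (B (L (nat_lit 396) ln15_12_1 ln15_12_1_ok) (L (nat_lit 400) ln16_12_1 ln16_12_1_ok))))) (M (nat_lit 493) (B (L (nat_lit 366) ln13_15_6 ln13_15_6_ok) (M (nat_lit 525) (B (L (nat_lit 557) ln13_17_7 ln13_17_7_ok) (M (nat_lit 526) (B (L (nat_lit 494) ln13_12_4 ln13_12_4_ok) (L (nat_lit 558) ln13_13_4 ln13_13_4_ok)))))))))) (M (nat_lit 365) (B (L (nat_lit 333) ln13_10_5 ln13_10_5_ok) (M (nat_lit 493) (B (M (nat_lit 366) (B (L (nat_lit 334) ln13_14_6 ln13_14_6_ok) (L (nat_lit 398) ln13_15_6 ln13_15_6_ok))) (M (nat_lit 525) (B (L (nat_lit 396) ln13_16_7 ln13_16_7_ok) (L (nat_lit 557) ln13_17_7 ln13_17_7_ok))))))))))) (B (M (nat_lit 493) (B (M (nat_lit 396) (B (L (nat_lit 364) ln12_11_4 ln12_11_4_ok) (L (nat_lit 525) ln13_16_7 ln13_16_7_ok))) (B (M (nat_lit 525) (B (L (nat_lit 396) ln13_16_7 ln13_16_7_ok) (L (nat_lit 557) ln13_17_7 ln13_17_7_ok))) (B (M (nat_lit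 397) (B (M (nat_lit 365) (B (L (nat_lit 333) ln13_10_5 ln13_10_5_ok) (M (nat_lit 366) (B (L (nat_lit 334) ln13_14_6 ln13_14_6_ok) (L (nat_lit 398) ln13_15_6 ln13_15_6_ok))))) (M (nat_lit 525) (B (L (nat_lit 557) ln13_17_7 ln13_17_7_ok) (M (nat_lit 526) (B (L (nat_lit 494) ln13_12_4 ln13_12_4_ok) (L (nat_lit 558) ln13_13_4 ln13_13_4_ok))))))) (M (nat_lit 397) (B (M (nat_lit 364) (B (L (nat_lit 396) ln13_15_7 ln13_15_7_ok) (M (nat_lit 365) (B (L (nat_lit 332) ln13_14_7 ln13_14_7_ok) (L (nat_lit 333) ln13_10_5 ln13_10_5_ok))))) (B (M (nat_lit 365) (B (L (nat_lit 333) ln13_10_5 ln13_10_5_ok) (M (nat_lit 366) (B (L (nat_lit 334) ln13_14_6 ln13_14_6_ok) (L (nat_lit 398) ln13_15_6 ln13_15_6_ok))))) (B (M (nat_lit 365) (B (M (nat_lit 364) (B (L (nat_lit 332) ln13_14_7 ln13_14_7_ok) (L (nat_lit 396) ln13_15_7 ln13_15_7_ok))) (M (nat_lit 366) (B (L (nat_lit 334) ln13_14_6 ln13_14_6_ok) (L (nat_lit 398) ln13_15_6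 ln13_15_6_ok))))) (M (nat_lit 396) (B (L (nat_lit 364) ln13_15_7 ln13_15_7_ok) (M (nat_lit 398) (B (L (nat_lit 366) ln13_15_6 ln13_15_6_ok) (M (nat_lit 399) (B (L (nat_lit 427) ln15_12_1 ln15_12_1_ok) (L (nat_lit 400) ln16_12_1 ln16_12_1_ok))))))))))))))) (B (M (nat_lit 462) (B (M (nat_lit 427) (B (L (nat_lit 426) ln10_13_0 ln10_13_0_ok) (L (nat_lit 463) ln15_14_3 ln15_14_3_ok))) (B (M (nat_lit 463) (B (L (nat_lit 427) ln15_14_3 ln15_14_3_ok) (L (nat_lit 464) ln16_14_3 ln16_14_3_ok))) (B (M (nat_lit 459) (B (M (nat_lit 463) (B (L (nat_lit 464) ln16_14_3 ln16_14_3_ok) (M (nat_lit 495) (B (L (nat_lit 494) ln11_14_0 ln11_14_0_ok) (L (nat_lit 496) ln12_14_0 ln12_14_0_ok))))) (M (nat_lit 458) (B (L (nat_lit 457) ln9_14_2 ln9_14_2_ok) (M (nat_lit 490) (B (L (nat_lit 489) ln13_14_1 ln13_14_1_ok) (L (nat_lit 491) ln14_14_1 ln14_14_1_ok))))))) (M (nat_lit 459) (B (M (nat_lit 426) (B (L (nat_lit 427) ln10_13_0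 ln10_13_0_ok) (M (nat_lit 458) (B (L (nat_lit 425) ln13_14_3 ln13_14_3_ok) (L (nat_lit 457) ln9_14_2 ln9_14_2_ok))))) (B (M (nat_lit 458) (B (L (nat_lit 457) ln9_14_2 ln9_14_2_ok) (M (nat_lit 490) (B (L (nat_lit 489) ln13_14_1 ln13_14_1_ok) (L (nat_lit 491) ln14_14_1 ln14_14_1_ok))))) (B (M (nat_lit 458) (B (M (nat_lit 426) (B (L (nat_lit 425) ln13_14_3 ln13_14_3_ok) (L (nat_lit 427) ln10_13_0 ln10_13_0_ok))) (M (nat_lit 490) (B (L (nat_lit 489) ln13_14_1 ln13_14_1_ok) (L (nat_lit 491) ln14_14_1 ln14_14_1_ok))))) (M (nat_lit 427) (B (L (nat_lit 426) ln10_13_0 ln10_13_0_ok) (M (nat_lit 491) (B (L (nat_lit 490) ln14_14_1 ln14_14_1_ok) (M (nat_lit 396) (B (L (nat_lit 364) ln12_11_5 ln12_11_5_ok) (L (nat_lit 523) ln11_16_6 ln11_16_6_ok))))))))))))))) c40_n4936))))))))) (nat_lit 2977131416794308094280641461793077210819827790952582581444846287221758209573443874798297761003556369114987972072309673036810407142536249344)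 (nat_lit 1415235909665047485812163481808740249625446368329901720159293825416171184563245521778764120774684087480930781002966919413518585453240426428371840287914304670258031493120) (nat_lit 1415235909665047485812163481808740249625446368329901720159293825416171184563245521778764120774684087480930781002966919413518585453240426428371840287914304670258031493120) (by decide +kernel)
theorem c40_s4998 : Sem (nat_lit 2977131416794308094280641461793077210819827790952582581444846287221758209573443874798297761003556369114987972072309673036810407142536249344) (nat_lit 82377571991894067964469888091512546944252367916440247201003226782696905559360295103536948547612014493926118624489920632843672863375823608545026832283006402560) (nat_lit 82377571991894067964469888091512546944252367916440247201003226782696905559360295103536948547612014493926118624489920632843672863375823608545026832283006402560) :=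
  sem_of_chk (M (nat_lit 397) (B (M (nat_lit 492) (B (L (nat_lit 524) ln12_16_6 ln12_16_6_ok) (M (nat_lit 365) (B (L (nat_lit 333) ln13_10_5 ln13_10_5_ok) (L (nat_lit 396) ln12_15_6 ln12_15_6_ok))))) (B (M (nat_lit 492) (B (L (nat_lit 524) ln12_16_6 ln12_16_6_ok) (M (nat_lit 365) (B (L (nat_lit 396) ln12_15_6 ln12_15_6_ok) (L (nat_lit 461) ln13_11_5 ln13_11_5_ok))))) (B (M (nat_lit 396) (B (M (nat_lit 492) (B (L (nat_lit 524) ln12_16_6 ln12_16_6_ok) (M (nat_lit 364) (B (M (nat_lit 363) (B (L (nat_lit 331) ln12_14_7 ln12_14_7_ok) (L (nat_lit 395) ln12_15_7 ln12_15_7_ok))) (M (nat_lit 491) (B (L (nat_lit 459) ln12_11_5 ln12_11_5_ok) (L (nat_lit 523) ln12_12_5 ln12_12_5_ok))))))) (B (M (nat_lit 492) (B (L (nat_lit 524) ln12_16_6 ln12_16_6_ok) (M (nat_lit 364) (B (M (nat_lit 332) (B (L (nat_lit 300) ln12_9_4 ln12_9_4_ok) (L (nat_lit 461) ln12_10_4 ln12_10_4_ok))) (M (nat_lit 491) (B (L (nat_lit 459) ln12_11_5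 ln12_11_5_ok) (L (nat_lit 523) ln12_12_5 ln12_12_5_ok))))))) (B (M (nat_lit 398) (B (M (nat_lit 399) (B (L (nat_lit 427) ln15_12_1 ln15_12_1_ok) (L (nat_lit 400) ln16_12_1 ln16_12_1_ok))) (B (M (nat_lit 395) (B (M (nat_lit 363) (B (L (nat_lit 362) ln14_12_3 ln14_12_3_ok) (L (nat_lit 492) ln12_15_7 ln12_15_7_ok))) (B (M (nat_lit 492) (B (L (nat_lit 363) ln12_15_7 ln12_15_7_ok) (L (nat_lit 524) ln12_16_6 ln12_16_6_ok))) (M (nat_lit 426) (B (L (nat_lit 427) ln14_12_1 ln14_12_1_ok) (M (nat_lit 394) (B (L (nat_lit 393) ln9_12_0 ln9_12_0_ok) (L (nat_lit 425) ln13_12_1 ln13_12_1_ok)))))))) (M (nat_lit 492) (B (L (nat_lit 524) ln12_16_6 ln12_16_6_ok) (M (nat_lit 367) (B (M (nat_lit 395) (B (L (nat_lit 363) ln12_15_7 ln12_15_7_ok) (L (nat_lit 366) ln11_12_2 ln11_12_2_ok))) (M (nat_lit 399) (B (L (nat_lit 368) ln12_12_2 ln12_12_2_ok) (L (nat_lit 400) ln16_12_1 ln16_12_1_ok)))))))))) (M (nat_lit 398) (B (M (nat_lit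 427) (B (L (nat_lit 399) ln15_12_1 ln15_12_1_ok) (L (nat_lit 426) ln10_13_2 ln10_13_2_ok))) (B (M (nat_lit 395) (B (M (nat_lit 427) (B (L (nat_lit 426) ln14_12_1 ln14_12_1_ok) (M (nat_lit 363) (B (L (nat_lit 331) ln11_10_4 ln11_10_4_ok) (L (nat_lit 362) ln14_12_3 ln14_12_3_ok))))) (B (M (nat_lit 426) (B (L (nat_lit 427) ln14_12_1 ln14_12_1_ok) (M (nat_lit 394) (B (L (nat_lit 393) ln9_12_0 ln9_12_0_ok) (L (nat_lit 425) ln13_12_1 ln13_12_1_ok))))) (B (M (nat_lit 363) (B (L (nat_lit 362) ln14_12_3 ln14_12_3_ok) (M (nat_lit 331) (B (L (nat_lit 364) ln12_14_7 ln12_14_7_ok) (L (nat_lit 427) ln11_10_4 ln11_10_4_ok))))) (M (nat_lit 364) (B (M (nat_lit 363) (B (L (nat_lit 331) ln12_14_7 ln12_14_7_ok) (L (nat_lit 362) ln14_12_3 ln14_12_3_ok))) (M (nat_lit 332) (B (L (nat_lit 300) ln12_9_4 ln12_9_4_ok) (L (nat_lit 461) ln12_10_4 ln12_10_4_ok))))))))) (B (M (nat_lit 364) (B (M (nat_lit 332) (B (L (nat_lit 300) ln12_9_4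 ln12_9_4_ok) (L (nat_lit 461) ln12_10_4 ln12_10_4_ok))) (M (nat_lit 399) (B (L (nat_lit 363) ln15_12_3 ln15_12_3_ok) (L (nat_lit 427) ln15_12_1 ln15_12_1_ok))))) (M (nat_lit 364) (B (M (nat_lit 332) (B (L (nat_lit 300) ln12_9_4 ln12_9_4_ok) (L (nat_lit 461) ln12_10_4 ln12_10_4_ok))) (M (nat_lit 363) (B (L (nat_lit 331) ln12_14_7 ln12_14_7_ok) (L (nat_lit 399) ln15_12_3 ln15_12_3_ok))))))))))))) (B (M (nat_lit 492) (B (L (nat_lit 524) ln12_16_6 ln12_16_6_ok) (M (nat_lit 365) (B (L (nat_lit 333) ln13_10_5 ln13_10_5_ok) (L (nat_lit 461) ln13_11_5 ln13_11_5_ok))))) (M (nat_lit 364) (B (M (nat_lit 365) (B (L (nat_lit 333) ln13_10_5 ln13_10_5_ok) (M (nat_lit 461) (B (L (nat_lit 332) ln13_14_7 ln13_14_7_ok) (M (nat_lit 462) (B (L (nat_lit 494) ln13_11_4 ln13_11_4_ok) (M (nat_lit 427) (B (L (nat_lit 426) ln10_13_0 ln10_13_0_ok) (L (nat_lit 463) ln15_14_3 ln15_14_3_ok))))))))) (B (M (nat_lit 398) (B (M (nat_lit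 427) (B (L (nat_lit 426) ln10_13_2 ln10_13_2_ok) (M (nat_lit 399) (B (L (nat_lit 396) ln15_12_1 ln15_12_1_ok) (L (nat_lit 400) ln16_12_1 ln16_12_1_ok))))) (B (M (nat_lit 365) (B (L (nat_lit 333) ln13_10_5 ln13_10_5_ok) (M (nat_lit 399) (B (L (nat_lit 400) ln16_12_3 ln16_12_3_ok) (M (nat_lit 363) (B (L (nat_lit 362) ln10_11_0 ln10_11_0_ok) (L (nat_lit 366) ln11_11_0 ln11_11_0_ok))))))) (M (nat_lit 427) (B (L (nat_lit 426) ln10_13_2 ln10_13_2_ok) (M (nat_lit 363) (B (M (nat_lit 331) (B (L (nat_lit 396) ln12_14_7 ln12_14_7_ok) (L (nat_lit 395) ln11_10_4 ln11_10_4_ok))) (M (nat_lit 365) (B (L (nat_lit 333) ln13_10_5 ln13_10_5_ok) (L (nat_lit 362) ln10_11_0 ln10_11_0_ok)))))))))) (B (M (nat_lit 396) (B (M (nat_lit 332) (B (L (nat_lit 300) ln12_9_4 ln12_9_4_ok) (L (nat_lit 461) ln12_10_4 ln12_10_4_ok))) (B (M (nat_lit 459) (B (L (nat_lit 491) ln12_11_5 ln12_11_5_ok) (M (nat_lit 332) (B (L (nat_lit 427) ln12_10_5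 ln12_10_5_ok) (L (nat_lit 461) ln12_10_4 ln12_10_4_ok))))) (M (nat_lit 363) (B (L (nat_lit 331) ln12_14_7 ln12_14_7_ok) (M (nat_lit 398) (B (L (nat_lit 399) ln15_12_3 ln15_12_3_ok) (M (nat_lit 362) (B (L (nat_lit 361) ln9_11_0 ln9_11_0_ok) (L (nat_lit 395) ln14_12_3 ln14_12_3_ok)))))))))) (M (nat_lit 365) (B (L (nat_lit 333) ln13_10_5 ln13_10_5_ok) (M (nat_lit 396) (B (M (nat_lit 332) (B (L (nat_lit 300) ln12_9_4 ln12_9_4_ok) (L (nat_lit 461) ln13_14_7 ln13_14_7_ok))) (M (nat_lit 363) (B (L (nat_lit 331) ln12_14_7 ln12_14_7_ok) (M (nat_lit 362) (B (L (nat_lit 361) ln9_11_0 ln9_11_0_ok) (L (nat_lit 398) ln10_11_0 ln10_11_0_ok)))))))))))))))))) (nat_lit 2977131416794308094280641461793077210819827790952582581444846287221758209573443874798297761003556369114987972072309673036810407142536249344) (nat_lit 82377571991894067964469888091512546944252367916440247201003226782696905559360295103536948547612014493926118624489920632843672863375823608545026832283006402560)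 (nat_lit 82377571991894067964469888091512546944252367916440247201003226782696905559360295103536948547612014493926118624489920632843672863375823608545026832283006402560) (by decide +kernel)
theorem c40_s4999 : Sem (nat_lit 2079502270590611144683810638107312777577327806531862431377859685460965980854219217279980804578104683573043408221052678871730618368) (nat_lit 2532663312912603480046138513813940584555492571374789125498304356539518729296123202377673303206955895855146329524711267448077383913794748995686394993373144569894577804367443787776) (nat_lit 2532663312912603480046138513813940584555492571374789125498304356539518729296123202377673303206955895855146329524711267448077383913794748995686394993373144569894577804367443787776) :=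
  sem_of_chk (M (nat_lit 460) (B (M (nat_lit 397) (B (M (nat_lit 492) (B (L (nat_lit 524) ln12_16_6 ln12_16_6_ok) (M (nat_lit 365) (B (L (nat_lit 333) ln13_10_5 ln13_10_5_ok) (L (nat_lit 461) ln13_11_5 ln13_11_5_ok))))) (B (M (nat_lit 492) (B (L (nat_lit 524) ln12_16_6 ln12_16_6_ok) (M (nat_lit 365) (B (L (nat_lit 396) ln12_15_6 ln12_15_6_ok) (L (nat_lit 461) ln13_11_5 ln13_11_5_ok))))) (B (M (nat_lit 492) (B (L (nat_lit 524) ln12_16_6 ln12_16_6_ok) (M (nat_lit 396) (B (M (nat_lit 493) (B (L (nat_lit 525) ln12_12_4 ln12_12_4_ok) (M (nat_lit 364) (B (L (nat_lit 461) ln13_15_7 ln13_15_7_ok) (M (nat_lit 363) (B (L (nat_lit 331) ln12_14_7 ln12_14_7_ok) (L (nat_lit 395) ln12_15_7 ln12_15_7_ok))))))) (B (M (nat_lit 364) (B (M (nat_lit 332) (B (L (nat_lit 300) ln12_9_4 ln12_9_4_ok) (L (nat_lit 461) ln12_10_4 ln12_10_4_ok))) (B (M (nat_lit 461) (B (L (nat_lit 332) ln12_10_4 ln12_10_4_ok) (L (nat_lit 493) ln13_15_7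 ln13_15_7_ok))) (B (M (nat_lit 493) (B (L (nat_lit 461) ln13_15_7 ln13_15_7_ok) (L (nat_lit 525) ln12_12_4 ln12_12_4_ok))) (M (nat_lit 491) (B (L (nat_lit 459) ln12_11_5 ln12_11_5_ok) (L (nat_lit 523) ln12_12_5 ln12_12_5_ok))))))) (B (M (nat_lit 398) (B (M (nat_lit 427) (B (L (nat_lit 399) ln15_12_1 ln15_12_1_ok) (L (nat_lit 426) ln10_13_2 ln10_13_2_ok))) (M (nat_lit 366) (B (M (nat_lit 395) (B (L (nat_lit 363) ln12_15_7 ln12_15_7_ok) (L (nat_lit 367) ln11_12_2 ln11_12_2_ok))) (M (nat_lit 493) (B (L (nat_lit 461) ln13_15_6 ln13_15_6_ok) (L (nat_lit 525) ln12_12_4 ln12_12_4_ok))))))) (M (nat_lit 364) (B (M (nat_lit 363) (B (L (nat_lit 331) ln12_14_7 ln12_14_7_ok) (L (nat_lit 395) ln12_15_7 ln12_15_7_ok))) (M (nat_lit 491) (B (L (nat_lit 459) ln12_11_5 ln12_11_5_ok) (L (nat_lit 523) ln12_12_5 ln12_12_5_ok))))))))))) (B (M (nat_lit 492) (B (L (nat_lit 524) ln12_16_6 ln12_16_6_ok) (M (nat_lit 365) (B (L (nat_lit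 333) ln13_10_5 ln13_10_5_ok) (L (nat_lit 396) ln12_15_6 ln12_15_6_ok))))) (M (nat_lit 365) (B (L (nat_lit 333) ln13_10_5 ln13_10_5_ok) (M (nat_lit 461) (B (M (nat_lit 462) (B (L (nat_lit 494) ln13_11_4 ln13_11_4_ok) (M (nat_lit 463) (B (L (nat_lit 427) ln15_14_3 ln15_14_3_ok) (L (nat_lit 464) ln16_14_3 ln16_14_3_ok))))) (M (nat_lit 493) (B (M (nat_lit 364) (B (L (nat_lit 332) ln13_14_7 ln13_14_7_ok) (L (nat_lit 396) ln13_15_7 ln13_15_7_ok))) (B (M (nat_lit 396) (B (L (nat_lit 364) ln13_15_7 ln13_15_7_ok) (L (nat_lit 525) ln13_16_7 ln13_16_7_ok))) (M (nat_lit 366) (B (L (nat_lit 334) ln13_14_6 ln13_14_6_ok) (L (nat_lit 398) ln13_15_6 ln13_15_6_ok))))))))))))))) (B (M (nat_lit 397) (B (M (nat_lit 492) (B (L (nat_lit 524) ln12_16_6 ln12_16_6_ok) (M (nat_lit 365) (B (L (nat_lit 333) ln13_10_5 ln13_10_5_ok) (L (nat_lit 396) ln12_15_6 ln12_15_6_ok))))) (B (M (nat_lit 492) (B (L (nat_lit 524) ln12_16_6 ln12_16_6_ok)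 (M (nat_lit 365) (B (L (nat_lit 396) ln12_15_6 ln12_15_6_ok) (L (nat_lit 461) ln13_11_5 ln13_11_5_ok))))) (B (M (nat_lit 492) (B (L (nat_lit 524) ln12_16_6 ln12_16_6_ok) (M (nat_lit 396) (B (M (nat_lit 493) (B (L (nat_lit 525) ln12_12_4 ln12_12_4_ok) (M (nat_lit 364) (B (L (nat_lit 461) ln13_15_7 ln13_15_7_ok) (M (nat_lit 363) (B (L (nat_lit 331) ln12_14_7 ln12_14_7_ok) (L (nat_lit 395) ln12_15_7 ln12_15_7_ok))))))) (B (M (nat_lit 364) (B (M (nat_lit 461) (B (L (nat_lit 332) ln12_10_4 ln12_10_4_ok) (L (nat_lit 493) ln13_15_7 ln13_15_7_ok))) (M (nat_lit 491) (B (L (nat_lit 459) ln12_11_5 ln12_11_5_ok) (L (nat_lit 523) ln12_12_5 ln12_12_5_ok))))) (B (M (nat_lit 398) (B (M (nat_lit 427) (B (L (nat_lit 399) ln15_12_1 ln15_12_1_ok) (L (nat_lit 426) ln10_13_2 ln10_13_2_ok))) (M (nat_lit 366) (B (M (nat_lit 395) (B (L (nat_lit 363) ln12_15_7 ln12_15_7_ok) (L (nat_lit 367) ln11_12_2 ln11_12_2_ok))) (M (nat_lit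 493) (B (L (nat_lit 461) ln13_15_6 ln13_15_6_ok) (L (nat_lit 525) ln12_12_4 ln12_12_4_ok))))))) (M (nat_lit 364) (B (M (nat_lit 363) (B (L (nat_lit 331) ln12_14_7 ln12_14_7_ok) (L (nat_lit 395) ln12_15_7 ln12_15_7_ok))) (M (nat_lit 491) (B (L (nat_lit 459) ln12_11_5 ln12_11_5_ok) (L (nat_lit 523) ln12_12_5 ln12_12_5_ok))))))))))) (B (M (nat_lit 492) (B (L (nat_lit 524) ln12_16_6 ln12_16_6_ok) (M (nat_lit 365) (B (L (nat_lit 333) ln13_10_5 ln13_10_5_ok) (L (nat_lit 461) ln13_11_5 ln13_11_5_ok))))) (M (nat_lit 365) (B (L (nat_lit 333) ln13_10_5 ln13_10_5_ok) (M (nat_lit 461) (B (M (nat_lit 462) (B (L (nat_lit 494) ln13_11_4 ln13_11_4_ok) (M (nat_lit 463) (B (L (nat_lit 427) ln15_14_3 ln15_14_3_ok) (L (nat_lit 464) ln16_14_3 ln16_14_3_ok))))) (M (nat_lit 493) (B (M (nat_lit 364) (B (L (nat_lit 332) ln13_14_7 ln13_14_7_ok) (L (nat_lit 396) ln13_15_7 ln13_15_7_ok))) (B (M (nat_lit 396) (B (L (nat_lit 364)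 ln13_15_7 ln13_15_7_ok) (L (nat_lit 525) ln13_16_7 ln13_16_7_ok))) (M (nat_lit 366) (B (L (nat_lit 334) ln13_14_6 ln13_14_6_ok) (L (nat_lit 398) ln13_15_6 ln13_15_6_ok))))))))))))))) (B c40_n3868 (B (M (nat_lit 397) (B (M (nat_lit 492) (B (L (nat_lit 524) ln12_16_6 ln12_16_6_ok) (M (nat_lit 365) (B (L (nat_lit 333) ln13_10_5 ln13_10_5_ok) (L (nat_lit 396) ln12_15_6 ln12_15_6_ok))))) (B (M (nat_lit 492) (B (L (nat_lit 524) ln12_16_6 ln12_16_6_ok) (M (nat_lit 365) (B (L (nat_lit 396) ln12_15_6 ln12_15_6_ok) (L (nat_lit 461) ln13_11_5 ln13_11_5_ok))))) (B (M (nat_lit 492) (B (L (nat_lit 524) ln12_16_6 ln12_16_6_ok) (M (nat_lit 396) (B (M (nat_lit 493) (B (L (nat_lit 525) ln12_12_4 ln12_12_4_ok) (M (nat_lit 364) (B (L (nat_lit 461) ln13_15_7 ln13_15_7_ok) (M (nat_lit 491) (B (L (nat_lit 459) ln12_11_5 ln12_11_5_ok) (L (nat_lit 523) ln12_12_5 ln12_12_5_ok))))))) (B (M (nat_lit 398) (B (M (nat_lit 427) (B (L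 (nat_lit 399) ln15_12_1 ln15_12_1_ok) (L (nat_lit 426) ln10_13_2 ln10_13_2_ok))) (M (nat_lit 366) (B (M (nat_lit 395) (B (L (nat_lit 363) ln12_15_7 ln12_15_7_ok) (L (nat_lit 367) ln11_12_2 ln11_12_2_ok))) (M (nat_lit 493) (B (L (nat_lit 461) ln13_15_6 ln13_15_6_ok) (L (nat_lit 525) ln12_12_4 ln12_12_4_ok))))))) (M (nat_lit 364) (B (M (nat_lit 363) (B (L (nat_lit 331) ln12_14_7 ln12_14_7_ok) (L (nat_lit 395) ln12_15_7 ln12_15_7_ok))) (M (nat_lit 491) (B (L (nat_lit 459) ln12_11_5 ln12_11_5_ok) (L (nat_lit 523) ln12_12_5 ln12_12_5_ok)))))))))) (B (M (nat_lit 492) (B (L (nat_lit 524) ln12_16_6 ln12_16_6_ok) (M (nat_lit 365) (B (L (nat_lit 333) ln13_10_5 ln13_10_5_ok) (L (nat_lit 461) ln13_11_5 ln13_11_5_ok))))) (M (nat_lit 365) (B (L (nat_lit 333) ln13_10_5 ln13_10_5_ok) (M (nat_lit 461) (B (M (nat_lit 462) (B (L (nat_lit 494) ln13_11_4 ln13_11_4_ok) (M (nat_lit 463) (B (L (nat_lit 427) ln15_14_3 ln15_14_3_ok)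 (L (nat_lit 464) ln16_14_3 ln16_14_3_ok))))) (M (nat_lit 493) (B (M (nat_lit 366) (B (L (nat_lit 334) ln13_14_6 ln13_14_6_ok) (L (nat_lit 398) ln13_15_6 ln13_15_6_ok))) (M (nat_lit 396) (B (L (nat_lit 364) ln13_15_7 ln13_15_7_ok) (L (nat_lit 525) ln13_16_7 ln13_16_7_ok)))))))))))))) (B (M (nat_lit 492) (B (M (nat_lit 397) (B (L (nat_lit 524) ln12_16_6 ln12_16_6_ok) (M (nat_lit 365) (B (L (nat_lit 396) ln12_15_6 ln12_15_6_ok) (L (nat_lit 461) ln13_11_5 ln13_11_5_ok))))) (B (M (nat_lit 524) (B (L (nat_lit 397) ln12_16_6 ln12_16_6_ok) (M (nat_lit 427) (B (L (nat_lit 395) ln12_16_7 ln12_16_7_ok) (M (nat_lit 556) (B (L (nat_lit 459) ln12_17_7 ln12_17_7_ok) (L (nat_lit 461) ln12_17_6 ln12_17_6_ok))))))) (B (M (nat_lit 524) (B (M (nat_lit 427) (B (L (nat_lit 395) ln12_16_7 ln12_16_7_ok) (M (nat_lit 556) (B (L (nat_lit 459) ln12_17_7 ln12_17_7_ok) (L (nat_lit 461) ln12_17_6 ln12_17_6_ok))))) (B (M (nat_lit 556)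 (B (L (nat_lit 461) ln12_17_6 ln12_17_6_ok) (M (nat_lit 555) (B (L (nat_lit 523) ln12_13_5 ln12_13_5_ok) (L (nat_lit 587) ln12_14_5 ln12_14_5_ok))))) (M (nat_lit 396) (B (M (nat_lit 523) (B (L (nat_lit 491) ln12_12_5 ln12_12_5_ok) (L (nat_lit 555) ln12_13_5 ln12_13_5_ok))) (M (nat_lit 525) (B (L (nat_lit 493) ln12_12_4 ln12_12_4_ok) (L (nat_lit 557) ln12_13_4 ln12_13_4_ok)))))))) (B (M (nat_lit 396) (B (M (nat_lit 397) (B (L (nat_lit 365) ln12_15_6 ln12_15_6_ok) (L (nat_lit 524) ln12_16_6 ln12_16_6_ok))) (B (M (nat_lit 395) (B (L (nat_lit 363) ln12_15_7 ln12_15_7_ok) (M (nat_lit 524) (B (L (nat_lit 427) ln12_16_7 ln12_16_7_ok) (L (nat_lit 397) ln12_16_6 ln12_16_6_ok))))) (B (M (nat_lit 524) (B (M (nat_lit 395) (B (L (nat_lit 363) ln12_15_7 ln12_15_7_ok) (L (nat_lit 427) ln12_16_7 ln12_16_7_ok))) (M (nat_lit 525) (B (L (nat_lit 493) ln12_12_4 ln12_12_4_ok) (L (nat_lit 557) ln12_13_4 ln12_13_4_ok))))) (M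 (nat_lit 364) (B (M (nat_lit 363) (B (L (nat_lit 331) ln12_14_7 ln12_14_7_ok) (L (nat_lit 395) ln12_15_7 ln12_15_7_ok))) (M (nat_lit 491) (B (L (nat_lit 459) ln12_11_5 ln12_11_5_ok) (L (nat_lit 523) ln12_12_5 ln12_12_5_ok))))))))) (M (nat_lit 396) (B (M (nat_lit 493) (B (L (nat_lit 525) ln12_12_4 ln12_12_4_ok) (M (nat_lit 364) (B (L (nat_lit 461) ln12_11_4 ln12_11_4_ok) (M (nat_lit 491) (B (L (nat_lit 459) ln12_11_5 ln12_11_5_ok) (L (nat_lit 523) ln12_12_5 ln12_12_5_ok))))))) (B (M (nat_lit 397) (B (L (nat_lit 365) ln12_15_6 ln12_15_6_ok) (M (nat_lit 398) (B (M (nat_lit 427) (B (L (nat_lit 399) ln15_12_1 ln15_12_1_ok) (L (nat_lit 426) ln10_13_2 ln10_13_2_ok))) (M (nat_lit 366) (B (M (nat_lit 395) (B (L (nat_lit 363) ln12_15_7 ln12_15_7_ok) (L (nat_lit 367) ln11_12_2 ln11_12_2_ok))) (M (nat_lit 493) (B (L (nat_lit 461) ln13_15_6 ln13_15_6_ok) (L (nat_lit 525) ln12_12_4 ln12_12_4_ok))))))))) (M (nat_lit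 364) (B (M (nat_lit 363) (B (L (nat_lit 331) ln12_14_7 ln12_14_7_ok) (L (nat_lit 395) ln12_15_7 ln12_15_7_ok))) (M (nat_lit 491) (B (L (nat_lit 459) ln12_11_5 ln12_11_5_ok) (L (nat_lit 523) ln12_12_5 ln12_12_5_ok))))))))))))) (B (M (nat_lit 492) (B (M (nat_lit 397) (B (L (nat_lit 524) ln12_16_6 ln12_16_6_ok) (M (nat_lit 365) (B (L (nat_lit 396) ln12_15_6 ln12_15_6_ok) (L (nat_lit 461) ln13_11_5 ln13_11_5_ok))))) (B (M (nat_lit 524) (B (L (nat_lit 397) ln12_16_6 ln12_16_6_ok) (M (nat_lit 427) (B (L (nat_lit 395) ln12_16_7 ln12_16_7_ok) (M (nat_lit 556) (B (L (nat_lit 459) ln12_17_7 ln12_17_7_ok) (L (nat_lit 461) ln12_17_6 ln12_17_6_ok))))))) (B (M (nat_lit 524) (B (M (nat_lit 427) (B (L (nat_lit 395) ln12_16_7 ln12_16_7_ok) (M (nat_lit 556) (B (L (nat_lit 459) ln12_17_7 ln12_17_7_ok) (L (nat_lit 461) ln12_17_6 ln12_17_6_ok))))) (B (M (nat_lit 556) (B (L (nat_lit 461) ln12_17_6 ln12_17_6_ok) (M (nat_lit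 555) (B (L (nat_lit 523) ln12_13_5 ln12_13_5_ok) (L (nat_lit 587) ln12_14_5 ln12_14_5_ok))))) (M (nat_lit 396) (B (M (nat_lit 523) (B (L (nat_lit 491) ln12_12_5 ln12_12_5_ok) (L (nat_lit 555) ln12_13_5 ln12_13_5_ok))) (M (nat_lit 525) (B (L (nat_lit 493) ln12_12_4 ln12_12_4_ok) (L (nat_lit 557) ln12_13_4 ln12_13_4_ok)))))))) (B (M (nat_lit 397) (B (L (nat_lit 524) ln12_16_6 ln12_16_6_ok) (M (nat_lit 365) (B (L (nat_lit 333) ln13_10_5 ln13_10_5_ok) (L (nat_lit 396) ln12_15_6 ln12_15_6_ok))))) (M (nat_lit 396) (B (M (nat_lit 493) (B (L (nat_lit 525) ln12_12_4 ln12_12_4_ok) (M (nat_lit 364) (B (L (nat_lit 461) ln12_11_4 ln12_11_4_ok) (M (nat_lit 491) (B (L (nat_lit 459) ln12_11_5 ln12_11_5_ok) (L (nat_lit 523) ln12_12_5 ln12_12_5_ok))))))) (B (M (nat_lit 461) (B (M (nat_lit 493) (B (L (nat_lit 525) ln13_16_7 ln13_16_7_ok) (M (nat_lit 491) (B (L (nat_lit 523) ln12_12_5 ln12_12_5_ok) (M (nat_lit 490) (B (L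 (nat_lit 489) ln9_15_2 ln9_15_2_ok) (L (nat_lit 462) ln10_15_2 ln10_15_2_ok))))))) (B (M (nat_lit 397) (B (L (nat_lit 365) ln12_15_6 ln12_15_6_ok) (M (nat_lit 398) (B (M (nat_lit 493) (B (L (nat_lit 366) ln13_15_6 ln13_15_6_ok) (L (nat_lit 525) ln13_16_7 ln13_16_7_ok))) (M (nat_lit 399) (B (L (nat_lit 427) ln15_12_1 ln15_12_1_ok) (L (nat_lit 400) ln16_12_1 ln16_12_1_ok))))))) (M (nat_lit 491) (B (L (nat_lit 523) ln12_12_5 ln12_12_5_ok) (M (nat_lit 462) (B (L (nat_lit 463) ln15_14_1 ln15_14_1_ok) (M (nat_lit 490) (B (L (nat_lit 459) ln14_14_1 ln14_14_1_ok) (L (nat_lit 489) ln9_15_2 ln9_15_2_ok)))))))))) (B (M (nat_lit 364) (B (M (nat_lit 365) (B (L (nat_lit 333) ln12_14_6 ln12_14_6_ok) (L (nat_lit 397) ln12_15_6 ln12_15_6_ok))) (M (nat_lit 493) (B (L (nat_lit 461) ln12_11_4 ln12_11_4_ok) (L (nat_lit 525) ln12_12_4 ln12_12_4_ok))))) (M (nat_lit 364) (B (M (nat_lit 365) (B (L (nat_lit 333) ln12_14_6 ln12_14_6_ok)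 (L (nat_lit 397) ln12_15_6 ln12_15_6_ok))) (M (nat_lit 491) (B (L (nat_lit 459) ln12_11_5 ln12_11_5_ok) (L (nat_lit 523) ln12_12_5 ln12_12_5_ok)))))))))))))) (B (K (nat_lit 2977131416794308094280641461793077210819827790952582581444846287221758209573443874798297761003556369114987972072309673036810407142536249344) (nat_lit 1769044887046985368878640783558339968721297900735190085118782230325880093129739627783587157581374143421463019574110590176787647486686745731383076066795087896652332138496) (nat_lit 1769044887046985368878640783558339968721297900735190085118782230325880093129739627783587157581374143421463019574110590176787647486686745731383076066795087896652332138496) c40_s4102) (B c40_n4193 (B (K (nat_lit 2977131416794308094280641461793077210819827790952582581444846287221758209573443874798297761003556369114987972072309673036810407142536249344) (nat_lit 1828013049948551547827676293316245471740037581234842288768172330239166179709861271425400029801779728422364352829628089762524920043946657618342736456387211841393878106112)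 (nat_lit 1828013049948551547827676293316245471740037581234842288768172330239166179709861271425400029801779728422364352829628089762524920043946657618342736456387211841393878106112) c40_s4473) (B (K (nat_lit 2977131416794308094280641461793077210819827790952582581444846287221758209573443874798297761003556369114987972072309673036810407142536249344) (nat_lit 589681630608294847048232042276030893733387517066023005665915720687348599736078532822552660627207816318583057700281366287438732353922167592935813582608419803455184437248) (nat_lit 589681630608294847048232042276030893733387517066023005665915720687348599736078532822552660627207816318583057700281366287438732353922167592935813582608419803455184437248) c40_s4578) (B (K (nat_lit 2977131416794308094280641461793077210819827790952582581444846287221758209573443874798297761003556369114987972072309673036810407142536249344) (nat_lit 2026130650518780904294948853814041983598429282336670293178568413025821621279494988419236346505861815333498704540538263734855332404721372762883809365628411563148972399600060071936)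 (nat_lit 2026130650518780904294948853814041983598429282336670293178568413025821621279494988419236346505861815333498704540538263734855332404721372762883809365628411563148972399600060071936) c40_s4690) (B c40_n4748 (B c40_n4780 (B (K (nat_lit 2977131416794308094280641461793077210819827790952582581444846287221758209573443874798297761003556369114987972072309673036810407142536249344) (nat_lit 1415235909665047485812163481808740249625446368329901720159293825416171184563245521778764120774684087480930781002966919413518585453240426428371840287914304670258031493120) (nat_lit 1415235909665047485812163481808740249625446368329901720159293825416171184563245521778764120774684087480930781002966919413518585453240426428371840287914304670258031493120) c40_s4937) (K (nat_lit 2977131416794308094280641461793077210819827790952582581444846287221758209573443874798297761003556369114987972072309673036810407142536249344) (nat_lit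 82377571991894067964469888091512546944252367916440247201003226782696905559360295103536948547612014493926118624489920632843672863375823608545026832283006402560) (nat_lit 82377571991894067964469888091512546944252367916440247201003226782696905559360295103536948547612014493926118624489920632843672863375823608545026832283006402560) c40_s4998)))))))))))))))) (nat_lit 2079502270590611144683810638107312777577327806531862431377859685460965980854219217279980804578104683573043408221052678871730618368) (nat_lit 2532663312912603480046138513813940584555492571374789125498304356539518729296123202377673303206955895855146329524711267448077383913794748995686394993373144569894577804367443787776) (nat_lit 2532663312912603480046138513813940584555492571374789125498304356539518729296123202377673303206955895855146329524711267448077383913794748995686394993373144569894577804367443787776) (by decide +kernel)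
noncomputable def c40_n5005 : Cert := (M (nat_lit 396) (B (M (nat_lit 395) (B (L (nat_lit 431) ln15_13_3 ln15_13_3_ok) (M (nat_lit 394) (B (L (nat_lit 393) ln9_12_0 ln9_12_0_ok) (L (nat_lit 397) ln10_12_0 ln10_12_0_ok))))) (B (M (nat_lit 431) (B (L (nat_lit 395) ln15_13_3 ln15_13_3_ok) (M (nat_lit 432) (B (L (nat_lit 397) ln16_13_3 ln16_13_3_ok) (M (nat_lit 400) (B (L (nat_lit 399) ln12_13_2 ln12_13_2_ok) (L (nat_lit 401) ln13_13_2 ln13_13_2_ok))))))) (B (M (nat_lit 460) (B (M (nat_lit 431) (B (L (nat_lit 459) ln15_13_1 ln15_13_1_ok) (M (nat_lit 432) (B (L (nat_lit 397) ln16_13_3 ln16_13_3_ok) (L (nat_lit 461) ln16_13_1 ln16_13_1_ok))))) (B (M (nat_lit 461) (B (M (nat_lit 364) (B (L (nat_lit 332) ln12_10_4 ln12_10_4_ok) (L (nat_lit 493) ln12_11_4 ln12_11_4_ok))) (M (nat_lit 431) (B (L (nat_lit 459) ln15_13_1 ln15_13_1_ok) (L (nat_lit 432) ln16_13_1 ln16_13_1_ok))))) (B (M (nat_lit 364) (B (M (nat_lit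 461) (B (L (nat_lit 332) ln12_10_4 ln12_10_4_ok) (L (nat_lit 493) ln12_11_4 ln12_11_4_ok))) (M (nat_lit 492) (B (M (nat_lit 365) (B (L (nat_lit 333) ln12_14_6 ln12_14_6_ok) (L (nat_lit 397) ln12_15_6 ln12_15_6_ok))) (M (nat_lit 491) (B (L (nat_lit 459) ln12_11_5 ln12_11_5_ok) (L (nat_lit 523) ln12_12_5 ln12_12_5_ok))))))) (B (M (nat_lit 364) (B (M (nat_lit 461) (B (L (nat_lit 332) ln12_10_4 ln12_10_4_ok) (L (nat_lit 493) ln12_11_4 ln12_11_4_ok))) (B (M (nat_lit 492) (B (M (nat_lit 365) (B (L (nat_lit 333) ln12_14_6 ln12_14_6_ok) (L (nat_lit 397) ln12_15_6 ln12_15_6_ok))) (M (nat_lit 493) (B (L (nat_lit 461) ln12_11_4 ln12_11_4_ok) (L (nat_lit 525) ln12_12_4 ln12_12_4_ok))))) (M (nat_lit 332) (B (M (nat_lit 331) (B (L (nat_lit 299) ln12_13_7 ln12_13_7_ok) (L (nat_lit 363) ln12_14_7 ln12_14_7_ok))) (M (nat_lit 333) (B (L (nat_lit 301) ln12_13_6 ln12_13_6_ok) (L (nat_lit 365) ln12_14_6 ln12_14_6_ok))))))))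 (M (nat_lit 397) (B (M (nat_lit 365) (B (L (nat_lit 333) ln13_10_5 ln13_10_5_ok) (L (nat_lit 492) ln12_15_6 ln12_15_6_ok))) (M (nat_lit 431) (B (L (nat_lit 432) ln16_13_3 ln16_13_3_ok) (L (nat_lit 459) ln15_13_1 ln15_13_1_ok)))))))))) (B (M (nat_lit 431) (B (L (nat_lit 395) ln15_13_3 ln15_13_3_ok) (M (nat_lit 432) (B (M (nat_lit 400) (B (L (nat_lit 399) ln12_13_2 ln12_13_2_ok) (L (nat_lit 401) ln13_13_2 ln13_13_2_ok))) (M (nat_lit 460) (B (L (nat_lit 459) ln15_13_1 ln15_13_1_ok) (L (nat_lit 461) ln16_13_1 ln16_13_1_ok))))))) (M (nat_lit 364) (B (M (nat_lit 461) (B (L (nat_lit 332) ln12_10_4 ln12_10_4_ok) (M (nat_lit 493) (B (L (nat_lit 397) ln13_15_7 ln13_15_7_ok) (L (nat_lit 460) ln12_11_4 ln12_11_4_ok))))) (B (M (nat_lit 460) (B (M (nat_lit 461) (B (L (nat_lit 493) ln12_11_4 ln12_11_4_ok) (M (nat_lit 459) (B (L (nat_lit 491) ln12_11_5 ln12_11_5_ok) (L (nat_lit 458) ln10_14_2 ln10_14_2_ok))))) (M (nat_lit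 395) (B (M (nat_lit 363) (B (L (nat_lit 331) ln12_14_7 ln12_14_7_ok) (L (nat_lit 492) ln12_15_7 ln12_15_7_ok))) (M (nat_lit 394) (B (L (nat_lit 393) ln9_12_0 ln9_12_0_ok) (L (nat_lit 397) ln10_12_0 ln10_12_0_ok))))))) (B (M (nat_lit 461) (B (L (nat_lit 332) ln12_10_4 ln12_10_4_ok) (M (nat_lit 493) (B (L (nat_lit 460) ln12_11_4 ln12_11_4_ok) (L (nat_lit 525) ln13_16_7 ln13_16_7_ok))))) (B (M (nat_lit 461) (B (L (nat_lit 332) ln12_10_4 ln12_10_4_ok) (M (nat_lit 493) (B (L (nat_lit 397) ln13_15_7 ln13_15_7_ok) (L (nat_lit 525) ln13_16_7 ln13_16_7_ok))))) (M (nat_lit 460) (B (M (nat_lit 332) (B (M (nat_lit 331) (B (L (nat_lit 299) ln12_13_7 ln12_13_7_ok) (L (nat_lit 363) ln12_14_7 ln12_14_7_ok))) (M (nat_lit 333) (B (L (nat_lit 301) ln12_13_6 ln12_13_6_ok) (L (nat_lit 365) ln12_14_6 ln12_14_6_ok))))) (B (M (nat_lit 395) (B (M (nat_lit 363) (B (L (nat_lit 331) ln12_14_7 ln12_14_7_ok) (L (nat_lit 492) ln12_15_7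 ln12_15_7_ok))) (M (nat_lit 394) (B (L (nat_lit 393) ln9_12_0 ln9_12_0_ok) (L (nat_lit 397) ln10_12_0 ln10_12_0_ok))))) (M (nat_lit 492) (B (M (nat_lit 365) (B (L (nat_lit 333) ln12_14_6 ln12_14_6_ok) (L (nat_lit 397) ln12_15_6 ln12_15_6_ok))) (M (nat_lit 491) (B (L (nat_lit 459) ln12_11_5 ln12_11_5_ok) (L (nat_lit 523) ln12_12_5 ln12_12_5_ok))))))))))))))))))
theorem c40_s5023 : Sem (nat_lit 2079502270590611144683810638107312777577327806531862431377859685460965980854219217279980804578104683573043408221052678871730618368) (nat_lit 411887859806030155051167890438835872658316275632357824899363213514980197832068760560120026489556937660580323516660050887178615828898294764386969169744831184896) (nat_lit 411887859806030155051167890438835872658316275632357824899363213514980197832068760560120026489556937660580323516660050887178615828898294764386969169744831184896) :=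
  sem_of_chk (M (nat_lit 430) (B (M (nat_lit 427) (B (M (nat_lit 431) (B (M (nat_lit 395) (B (L (nat_lit 394) ln14_13_3 ln14_13_3_ok) (L (nat_lit 396) ln15_13_3 ln15_13_3_ok))) (M (nat_lit 459) (B (L (nat_lit 458) ln14_13_1 ln14_13_1_ok) (L (nat_lit 460) ln15_13_1 ln15_13_1_ok))))) (B (M (nat_lit 431) (B (M (nat_lit 399) (B (L (nat_lit 398) ln11_13_2 ln11_13_2_ok) (L (nat_lit 400) ln12_13_2 ln12_13_2_ok))) (M (nat_lit 463) (B (L (nat_lit 462) ln11_13_0 ln11_13_0_ok) (L (nat_lit 464) ln12_13_0 ln12_13_0_ok))))) (M (nat_lit 398) (B (L (nat_lit 399) ln11_13_2 ln11_13_2_ok) (M (nat_lit 462) (B (L (nat_lit 463) ln11_13_0 ln11_13_0_ok) (M (nat_lit 426) (B (L (nat_lit 397) ln10_13_2 ln10_13_2_ok) (L (nat_lit 461) ln10_13_0 ln10_13_0_ok)))))))))) (B (M (nat_lit 431) (B (M (nat_lit 427) (B (M (nat_lit 399) (B (L (nat_lit 398) ln11_13_2 ln11_13_2_ok) (L (nat_lit 400) ln12_13_2 ln12_13_2_ok))) (M (nat_lit 459) (B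 (L (nat_lit 458) ln14_13_1 ln14_13_1_ok) (L (nat_lit 460) ln15_13_1 ln15_13_1_ok))))) (M (nat_lit 432) (B (M (nat_lit 396) (B (L (nat_lit 395) ln15_13_3 ln15_13_3_ok) (L (nat_lit 397) ln16_13_3 ln16_13_3_ok))) (M (nat_lit 464) (B (L (nat_lit 463) ln12_13_0 ln12_13_0_ok) (L (nat_lit 465) ln13_13_0 ln13_13_0_ok))))))) (B (M (nat_lit 427) (B (M (nat_lit 431) (B (M (nat_lit 459) (B (L (nat_lit 458) ln14_13_1 ln14_13_1_ok) (L (nat_lit 460) ln15_13_1 ln15_13_1_ok))) (M (nat_lit 463) (B (L (nat_lit 462) ln11_13_0 ln11_13_0_ok) (L (nat_lit 464) ln12_13_0 ln12_13_0_ok))))) (B (M (nat_lit 398) (B (L (nat_lit 399) ln11_13_2 ln11_13_2_ok) (M (nat_lit 462) (B (L (nat_lit 463) ln11_13_0 ln11_13_0_ok) (M (nat_lit 426) (B (L (nat_lit 397) ln10_13_2 ln10_13_2_ok) (L (nat_lit 461) ln10_13_0 ln10_13_0_ok))))))) (M (nat_lit 431) (B (M (nat_lit 399) (B (L (nat_lit 398) ln11_13_2 ln11_13_2_ok) (L (nat_lit 400) ln12_13_2 ln12_13_2_ok)))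 (M (nat_lit 459) (B (L (nat_lit 458) ln14_13_1 ln14_13_1_ok) (L (nat_lit 460) ln15_13_1 ln15_13_1_ok)))))))) (B (M (nat_lit 427) (B (M (nat_lit 426) (B (M (nat_lit 394) (B (L (nat_lit 393) ln13_13_3 ln13_13_3_ok) (L (nat_lit 395) ln14_13_3 ln14_13_3_ok))) (M (nat_lit 462) (B (L (nat_lit 461) ln10_13_0 ln10_13_0_ok) (L (nat_lit 463) ln11_13_0 ln11_13_0_ok))))) (M (nat_lit 431) (B (M (nat_lit 399) (B (L (nat_lit 398) ln11_13_2 ln11_13_2_ok) (L (nat_lit 400) ln12_13_2 ln12_13_2_ok))) (M (nat_lit 459) (B (L (nat_lit 458) ln14_13_1 ln14_13_1_ok) (L (nat_lit 460) ln15_13_1 ln15_13_1_ok))))))) (B (M (nat_lit 427) (B (M (nat_lit 431) (B (M (nat_lit 395) (B (L (nat_lit 394) ln14_13_3 ln14_13_3_ok) (L (nat_lit 396) ln15_13_3 ln15_13_3_ok))) (M (nat_lit 459) (B (L (nat_lit 458) ln14_13_1 ln14_13_1_ok) (L (nat_lit 460) ln15_13_1 ln15_13_1_ok))))) (B (M (nat_lit 431) (B (M (nat_lit 459) (B (L (nat_lit 458) ln14_13_1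 ln14_13_1_ok) (L (nat_lit 460) ln15_13_1 ln15_13_1_ok))) (M (nat_lit 463) (B (L (nat_lit 462) ln11_13_0 ln11_13_0_ok) (L (nat_lit 464) ln12_13_0 ln12_13_0_ok))))) (M (nat_lit 426) (B (M (nat_lit 394) (B (L (nat_lit 393) ln13_13_3 ln13_13_3_ok) (L (nat_lit 395) ln14_13_3 ln14_13_3_ok))) (M (nat_lit 462) (B (L (nat_lit 461) ln10_13_0 ln10_13_0_ok) (L (nat_lit 463) ln11_13_0 ln11_13_0_ok)))))))) (B c40_n5005 (B (M (nat_lit 427) (B (M (nat_lit 426) (B (M (nat_lit 394) (B (L (nat_lit 393) ln13_13_3 ln13_13_3_ok) (L (nat_lit 395) ln14_13_3 ln14_13_3_ok))) (M (nat_lit 462) (B (L (nat_lit 461) ln10_13_0 ln10_13_0_ok) (L (nat_lit 463) ln11_13_0 ln11_13_0_ok))))) (B (M (nat_lit 398) (B (L (nat_lit 399) ln11_13_2 ln11_13_2_ok) (M (nat_lit 462) (B (L (nat_lit 463) ln11_13_0 ln11_13_0_ok) (M (nat_lit 426) (B (L (nat_lit 397) ln10_13_2 ln10_13_2_ok) (L (nat_lit 461) ln10_13_0 ln10_13_0_ok))))))) (B (M (nat_lit 462)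 (B (L (nat_lit 463) ln11_13_0 ln11_13_0_ok) (M (nat_lit 460) (B (M (nat_lit 395) (B (L (nat_lit 394) ln14_13_3 ln14_13_3_ok) (M (nat_lit 492) (B (L (nat_lit 524) ln12_16_7 ln12_16_7_ok) (M (nat_lit 363) (B (L (nat_lit 331) ln11_10_4 ln11_10_4_ok) (L (nat_lit 396) ln12_15_7 ln12_15_7_ok))))))) (B (M (nat_lit 459) (B (L (nat_lit 458) ln14_13_1 ln14_13_1_ok) (M (nat_lit 395) (B (L (nat_lit 394) ln14_13_3 ln14_13_3_ok) (M (nat_lit 492) (B (L (nat_lit 363) ln11_11_4 ln11_11_4_ok) (L (nat_lit 524) ln12_16_7 ln12_16_7_ok))))))) (M (nat_lit 461) (B (M (nat_lit 398) (B (L (nat_lit 399) ln11_13_2 ln11_13_2_ok) (M (nat_lit 493) (B (L (nat_lit 366) ln14_11_5 ln14_11_5_ok) (L (nat_lit 525) ln13_16_6 ln13_16_6_ok))))) (M (nat_lit 494) (B (M (nat_lit 397) (B (L (nat_lit 365) ln13_11_4 ln13_11_4_ok) (L (nat_lit 526) ln14_16_7 ln14_16_7_ok))) (M (nat_lit 459) (B (L (nat_lit 458) ln14_13_1 ln14_13_1_ok) (L (nat_lit 495)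 ln11_14_0 ln11_14_0_ok)))))))))))) (M (nat_lit 398) (B (L (nat_lit 399) ln11_13_2 ln11_13_2_ok) (M (nat_lit 394) (B (L (nat_lit 395) ln14_13_3 ln14_13_3_ok) (M (nat_lit 426) (B (L (nat_lit 393) ln13_13_3 ln13_13_3_ok) (L (nat_lit 397) ln10_13_2 ln10_13_2_ok))))))))))) (M (nat_lit 427) (B (M (nat_lit 431) (B (M (nat_lit 399) (B (L (nat_lit 398) ln11_13_2 ln11_13_2_ok) (L (nat_lit 400) ln12_13_2 ln12_13_2_ok))) (M (nat_lit 463) (B (L (nat_lit 462) ln11_13_0 ln11_13_0_ok) (L (nat_lit 464) ln12_13_0 ln12_13_0_ok))))) (B (M (nat_lit 431) (B (M (nat_lit 395) (B (L (nat_lit 394) ln14_13_3 ln14_13_3_ok) (L (nat_lit 396) ln15_13_3 ln15_13_3_ok))) (M (nat_lit 463) (B (L (nat_lit 462) ln11_13_0 ln11_13_0_ok) (L (nat_lit 464) ln12_13_0 ln12_13_0_ok))))) (M (nat_lit 398) (B (L (nat_lit 399) ln11_13_2 ln11_13_2_ok) (M (nat_lit 394) (B (L (nat_lit 395) ln14_13_3 ln14_13_3_ok) (M (nat_lit 426) (B (L (nat_lit 393) ln13_13_3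 ln13_13_3_ok) (L (nat_lit 397) ln10_13_2 ln10_13_2_ok)))))))))))))))))) (nat_lit 2079502270590611144683810638107312777577327806531862431377859685460965980854219217279980804578104683573043408221052678871730618368) (nat_lit 411887859806030155051167890438835872658316275632357824899363213514980197832068760560120026489556937660580323516660050887178615828898294764386969169744831184896) (nat_lit 411887859806030155051167890438835872658316275632357824899363213514980197832068760560120026489556937660580323516660050887178615828898294764386969169744831184896) (by decide +kernel)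
noncomputable def c40_n5050 : Cert := (M (nat_lit 460) (B (M (nat_lit 431) (B (L (nat_lit 459) ln15_13_1 ln15_13_1_ok) (M (nat_lit 432) (B (L (nat_lit 461) ln16_13_1 ln16_13_1_ok) (M (nat_lit 396) (B (L (nat_lit 395) ln15_13_3 ln15_13_3_ok) (L (nat_lit 397) ln16_13_3 ln16_13_3_ok))))))) (B (M (nat_lit 431) (B (L (nat_lit 459) ln15_13_1 ln15_13_1_ok) (M (nat_lit 432) (B (L (nat_lit 461) ln16_13_1 ln16_13_1_ok) (M (nat_lit 464) (B (L (nat_lit 463) ln12_13_0 ln12_13_0_ok) (L (nat_lit 465) ln13_13_0 ln13_13_0_ok))))))) (B (M (nat_lit 492) (B (M (nat_lit 397) (B (L (nat_lit 524) ln12_16_6 ln12_16_6_ok) (M (nat_lit 365) (B (L (nat_lit 333) ln13_10_5 ln13_10_5_ok) (L (nat_lit 461) ln13_11_5 ln13_11_5_ok))))) (B (M (nat_lit 397) (B (L (nat_lit 524) ln12_16_6 ln12_16_6_ok) (M (nat_lit 365) (B (L (nat_lit 396) ln12_15_6 ln12_15_6_ok) (L (nat_lit 461) ln13_11_5 ln13_11_5_ok))))) (B (M (nat_lit 396) (B (M (nat_lit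 397) (B (L (nat_lit 524) ln12_16_6 ln12_16_6_ok) (M (nat_lit 395) (B (L (nat_lit 363) ln12_15_7 ln12_15_7_ok) (L (nat_lit 394) ln10_12_0 ln10_12_0_ok))))) (B (M (nat_lit 525) (B (L (nat_lit 493) ln12_12_4 ln12_12_4_ok) (M (nat_lit 524) (B (L (nat_lit 397) ln12_16_6 ln12_16_6_ok) (L (nat_lit 557) ln12_13_4 ln12_13_4_ok))))) (M (nat_lit 364) (B (M (nat_lit 363) (B (L (nat_lit 331) ln12_14_7 ln12_14_7_ok) (L (nat_lit 395) ln12_15_7 ln12_15_7_ok))) (M (nat_lit 491) (B (L (nat_lit 459) ln12_11_5 ln12_11_5_ok) (L (nat_lit 523) ln12_12_5 ln12_12_5_ok)))))))) (B (M (nat_lit 396) (B (M (nat_lit 364) (B (M (nat_lit 363) (B (L (nat_lit 331) ln12_14_7 ln12_14_7_ok) (L (nat_lit 395) ln12_15_7 ln12_15_7_ok))) (M (nat_lit 493) (B (L (nat_lit 461) ln12_11_4 ln12_11_4_ok) (L (nat_lit 525) ln12_12_4 ln12_12_4_ok))))) (B (M (nat_lit 364) (B (M (nat_lit 491) (B (L (nat_lit 459) ln12_11_5 ln12_11_5_ok) (L (nat_lit 523) ln12_12_5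 ln12_12_5_ok))) (M (nat_lit 493) (B (L (nat_lit 461) ln12_11_4 ln12_11_4_ok) (L (nat_lit 525) ln12_12_4 ln12_12_4_ok))))) (B (M (nat_lit 524) (B (M (nat_lit 523) (B (L (nat_lit 491) ln12_12_5 ln12_12_5_ok) (L (nat_lit 555) ln12_13_5 ln12_13_5_ok))) (M (nat_lit 525) (B (L (nat_lit 493) ln12_12_4 ln12_12_4_ok) (L (nat_lit 557) ln12_13_4 ln12_13_4_ok))))) (M (nat_lit 364) (B (M (nat_lit 363) (B (L (nat_lit 331) ln12_14_7 ln12_14_7_ok) (L (nat_lit 395) ln12_15_7 ln12_15_7_ok))) (M (nat_lit 491) (B (L (nat_lit 459) ln12_11_5 ln12_11_5_ok) (L (nat_lit 523) ln12_12_5 ln12_12_5_ok))))))))) (M (nat_lit 396) (B (M (nat_lit 397) (B (L (nat_lit 365) ln12_15_6 ln12_15_6_ok) (M (nat_lit 395) (B (L (nat_lit 363) ln12_15_7 ln12_15_7_ok) (L (nat_lit 394) ln10_12_0 ln10_12_0_ok))))) (B (M (nat_lit 364) (B (M (nat_lit 365) (B (L (nat_lit 333) ln12_14_6 ln12_14_6_ok) (L (nat_lit 397) ln12_15_6 ln12_15_6_ok))) (M (nat_lit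 491) (B (L (nat_lit 459) ln12_11_5 ln12_11_5_ok) (L (nat_lit 523) ln12_12_5 ln12_12_5_ok))))) (M (nat_lit 364) (B (M (nat_lit 363) (B (L (nat_lit 331) ln12_14_7 ln12_14_7_ok) (L (nat_lit 395) ln12_15_7 ln12_15_7_ok))) (M (nat_lit 491) (B (L (nat_lit 459) ln12_11_5 ln12_11_5_ok) (L (nat_lit 523) ln12_12_5 ln12_12_5_ok))))))))))))) (B (M (nat_lit 396) (B (M (nat_lit 431) (B (L (nat_lit 395) ln15_13_3 ln15_13_3_ok) (M (nat_lit 432) (B (L (nat_lit 397) ln16_13_3 ln16_13_3_ok) (L (nat_lit 461) ln16_13_1 ln16_13_1_ok))))) (B (M (nat_lit 492) (B (M (nat_lit 397) (B (L (nat_lit 365) ln12_15_6 ln12_15_6_ok) (L (nat_lit 524) ln12_16_6 ln12_16_6_ok))) (B (M (nat_lit 525) (B (L (nat_lit 493) ln12_12_4 ln12_12_4_ok) (M (nat_lit 524) (B (L (nat_lit 397) ln12_16_6 ln12_16_6_ok) (L (nat_lit 557) ln12_13_4 ln12_13_4_ok))))) (B (M (nat_lit 524) (B (M (nat_lit 523) (B (L (nat_lit 491) ln12_12_5 ln12_12_5_ok) (L (nat_lit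 555) ln12_13_5 ln12_13_5_ok))) (M (nat_lit 525) (B (L (nat_lit 493) ln12_12_4 ln12_12_4_ok) (L (nat_lit 557) ln12_13_4 ln12_13_4_ok))))) (M (nat_lit 364) (B (M (nat_lit 365) (B (L (nat_lit 333) ln12_14_6 ln12_14_6_ok) (L (nat_lit 397) ln12_15_6 ln12_15_6_ok))) (M (nat_lit 493) (B (L (nat_lit 461) ln12_11_4 ln12_11_4_ok) (L (nat_lit 525) ln12_12_4 ln12_12_4_ok))))))))) (B (M (nat_lit 461) (B (M (nat_lit 493) (B (L (nat_lit 364) ln12_11_4 ln12_11_4_ok) (L (nat_lit 525) ln13_16_7 ln13_16_7_ok))) (M (nat_lit 431) (B (L (nat_lit 395) ln15_13_3 ln15_13_3_ok) (L (nat_lit 432) ln16_13_1 ln16_13_1_ok))))) (M (nat_lit 397) (B (M (nat_lit 365) (B (L (nat_lit 333) ln13_10_5 ln13_10_5_ok) (L (nat_lit 492) ln12_15_6 ln12_15_6_ok))) (M (nat_lit 431) (B (L (nat_lit 395) ln15_13_3 ln15_13_3_ok) (L (nat_lit 432) ln16_13_3 ln16_13_3_ok))))))))) (M (nat_lit 431) (B (L (nat_lit 459) ln15_13_1 ln15_13_1_ok) (M (nat_lit 432)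 (B (M (nat_lit 396) (B (L (nat_lit 395) ln15_13_3 ln15_13_3_ok) (L (nat_lit 397) ln16_13_3 ln16_13_3_ok))) (M (nat_lit 464) (B (L (nat_lit 463) ln12_13_0 ln12_13_0_ok) (L (nat_lit 465) ln13_13_0 ln13_13_0_ok))))))))))))
noncomputable def c40_n5062 : Cert := (M (nat_lit 398) (B (M (nat_lit 366) (B (M (nat_lit 461) (B (L (nat_lit 334) ln14_10_5 ln14_10_5_ok) (L (nat_lit 493) ln14_11_5 ln14_11_5_ok))) (M (nat_lit 365) (B (L (nat_lit 333) ln14_14_7 ln14_14_7_ok) (M (nat_lit 494) (B (L (nat_lit 397) ln14_15_7 ln14_15_7_ok) (M (nat_lit 367) (B (L (nat_lit 335) ln14_14_6 ln14_14_6_ok) (L (nat_lit 399) ln14_15_6 ln14_15_6_ok))))))))) (B (M (nat_lit 366) (B (M (nat_lit 461) (B (L (nat_lit 334) ln14_10_5 ln14_10_5_ok) (L (nat_lit 493) ln14_11_5 ln14_11_5_ok))) (M (nat_lit 494) (B (M (nat_lit 367) (B (L (nat_lit 335) ln14_14_6 ln14_14_6_ok) (L (nat_lit 399) ln14_15_6 ln14_15_6_ok))) (M (nat_lit 495) (B (L (nat_lit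 463) ln14_11_4 ln14_11_4_ok) (L (nat_lit 527) ln14_12_4 ln14_12_4_ok))))))) (B (M (nat_lit 366) (B (M (nat_lit 461) (B (L (nat_lit 493) ln14_11_5 ln14_11_5_ok) (M (nat_lit 463) (B (L (nat_lit 495) ln14_11_4 ln14_11_4_ok) (L (nat_lit 464) ln16_14_3 ln16_14_3_ok))))) (B (M (nat_lit 494) (B (M (nat_lit 365) (B (L (nat_lit 333) ln14_14_7 ln14_14_7_ok) (L (nat_lit 397) ln14_15_7 ln14_15_7_ok))) (M (nat_lit 495) (B (L (nat_lit 463) ln14_11_4 ln14_11_4_ok) (L (nat_lit 527) ln14_12_4 ln14_12_4_ok))))) (M (nat_lit 494) (B (M (nat_lit 365) (B (L (nat_lit 333) ln14_14_7 ln14_14_7_ok) (L (nat_lit 397) ln14_15_7 ln14_15_7_ok))) (M (nat_lit 493) (B (L (nat_lit 461) ln14_11_5 ln14_11_5_ok) (L (nat_lit 525) ln14_12_5 ln14_12_5_ok)))))))) (B (M (nat_lit 494) (B (M (nat_lit 397) (B (L (nat_lit 365) ln14_15_7 ln14_15_7_ok) (L (nat_lit 526) ln14_16_7 ln14_16_7_ok))) (B (M (nat_lit 525) (B (L (nat_lit 493) ln14_12_5 ln14_12_5_ok)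 (M (nat_lit 526) (B (L (nat_lit 397) ln14_16_7 ln14_16_7_ok) (L (nat_lit 557) ln14_13_5 ln14_13_5_ok))))) (B (M (nat_lit 526) (B (M (nat_lit 525) (B (L (nat_lit 493) ln14_12_5 ln14_12_5_ok) (L (nat_lit 557) ln14_13_5 ln14_13_5_ok))) (M (nat_lit 527) (B (L (nat_lit 495) ln14_12_4 ln14_12_4_ok) (L (nat_lit 559) ln14_13_4 ln14_13_4_ok))))) (M (nat_lit 397) (B (L (nat_lit 365) ln14_15_7 ln14_15_7_ok) (M (nat_lit 399) (B (L (nat_lit 367) ln14_15_6 ln14_15_6_ok) (L (nat_lit 400) ln16_12_1 ln16_12_1_ok))))))))) (B (M (nat_lit 366) (B (M (nat_lit 461) (B (L (nat_lit 334) ln14_10_5 ln14_10_5_ok) (M (nat_lit 463) (B (L (nat_lit 495) ln14_11_4 ln14_11_4_ok) (L (nat_lit 464) ln16_14_3 ln16_14_3_ok))))) (B (M (nat_lit 494) (B (M (nat_lit 365) (B (L (nat_lit 333) ln14_14_7 ln14_14_7_ok) (L (nat_lit 397) ln14_15_7 ln14_15_7_ok))) (M (nat_lit 495) (B (L (nat_lit 463) ln14_11_4 ln14_11_4_ok) (L (nat_lit 527) ln14_12_4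 ln14_12_4_ok))))) (M (nat_lit 397) (B (M (nat_lit 334) (B (L (nat_lit 302) ln14_9_5 ln14_9_5_ok) (L (nat_lit 461) ln14_10_5 ln14_10_5_ok))) (M (nat_lit 365) (B (L (nat_lit 333) ln14_14_7 ln14_14_7_ok) (L (nat_lit 494) ln14_15_7 ln14_15_7_ok)))))))) (M (nat_lit 366) (B (M (nat_lit 461) (B (L (nat_lit 334) ln14_10_5 ln14_10_5_ok) (L (nat_lit 493) ln14_11_5 ln14_11_5_ok))) (B (M (nat_lit 461) (B (L (nat_lit 493) ln14_11_5 ln14_11_5_ok) (M (nat_lit 463) (B (L (nat_lit 495) ln14_11_4 ln14_11_4_ok) (L (nat_lit 464) ln16_14_3 ln16_14_3_ok))))) (M (nat_lit 334) (B (M (nat_lit 333) (B (L (nat_lit 301) ln14_13_7 ln14_13_7_ok) (L (nat_lit 365) ln14_14_7 ln14_14_7_ok))) (M (nat_lit 335) (B (L (nat_lit 303) ln14_13_6 ln14_13_6_ok) (L (nat_lit 367) ln14_14_6 ln14_14_6_ok))))))))))))))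
theorem c40_s5065 : Sem (nat_lit 4852171964711426004262224822250396481013764881907679006548339266075587288659844840319955210682244261670434619182456250700704776192) (nat_lit 2358726516282320683264613450249543352549375951281123817747119140524143354833289666584721921305968862778486734056001602637258271560373318885723259439273436994442717298688) (nat_lit 2358726516282320683264613450249543352549375951281123817747119140524143354833289666584721921305968862778486734056001602637258271560373318885723259439273436994442717298688) :=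
  sem_of_chk (M (nat_lit 462) (B (M (nat_lit 463) (B (L (nat_lit 427) ln11_13_0 ln11_13_0_ok) (M (nat_lit 464) (B (L (nat_lit 461) ln16_14_3 ln16_14_3_ok) (L (nat_lit 465) ln17_14_3 ln17_14_3_ok))))) (B c40_n5062 (B (M (nat_lit 427) (B (L (nat_lit 463) ln11_13_0 ln11_13_0_ok) (M (nat_lit 426) (B (M (nat_lit 394) (B (L (nat_lit 393) ln13_13_3 ln13_13_3_ok) (L (nat_lit 395) ln14_13_3 ln14_13_3_ok))) (M (nat_lit 398) (B (L (nat_lit 397) ln10_13_2 ln10_13_2_ok) (L (nat_lit 399) ln11_13_2 ln11_13_2_ok))))))) (M (nat_lit 398) (B (M (nat_lit 427) (B (L (nat_lit 399) ln11_13_2 ln11_13_2_ok) (M (nat_lit 426) (B (L (nat_lit 397) ln10_13_2 ln10_13_2_ok) (L (nat_lit 461) ln10_13_0 ln10_13_0_ok))))) (B (M (nat_lit 461) (B (M (nat_lit 366) (B (L (nat_lit 334) ln14_10_5 ln14_10_5_ok) (L (nat_lit 493) ln14_11_5 ln14_11_5_ok))) (M (nat_lit 427) (B (L (nat_lit 399) ln11_13_2 ln11_13_2_ok) (L (nat_lit 426) ln10_13_0 ln10_13_0_ok)))))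 (B (M (nat_lit 366) (B (M (nat_lit 461) (B (L (nat_lit 334) ln14_10_5 ln14_10_5_ok) (L (nat_lit 493) ln14_11_5 ln14_11_5_ok))) (B (M (nat_lit 494) (B (M (nat_lit 365) (B (L (nat_lit 333) ln14_14_7 ln14_14_7_ok) (L (nat_lit 397) ln14_15_7 ln14_15_7_ok))) (M (nat_lit 493) (B (L (nat_lit 461) ln14_11_5 ln14_11_5_ok) (L (nat_lit 525) ln14_12_5 ln14_12_5_ok))))) (M (nat_lit 334) (B (M (nat_lit 333) (B (L (nat_lit 301) ln14_13_7 ln14_13_7_ok) (L (nat_lit 365) ln14_14_7 ln14_14_7_ok))) (M (nat_lit 335) (B (L (nat_lit 303) ln14_13_6 ln14_13_6_ok) (L (nat_lit 367) ln14_14_6 ln14_14_6_ok)))))))) (M (nat_lit 397) (B (M (nat_lit 365) (B (L (nat_lit 333) ln13_10_4 ln13_10_4_ok) (L (nat_lit 494) ln14_15_7 ln14_15_7_ok))) (M (nat_lit 427) (B (L (nat_lit 426) ln10_13_2 ln10_13_2_ok) (L (nat_lit 399) ln11_13_2 ln11_13_2_ok))))))))))))) (nat_lit 4852171964711426004262224822250396481013764881907679006548339266075587288659844840319955210682244261670434619182456250700704776192)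 (nat_lit 2358726516282320683264613450249543352549375951281123817747119140524143354833289666584721921305968862778486734056001602637258271560373318885723259439273436994442717298688) (nat_lit 2358726516282320683264613450249543352549375951281123817747119140524143354833289666584721921305968862778486734056001602637258271560373318885723259439273436994442717298688) (by decide +kernel)
theorem c40_s5074 : Sem (nat_lit 2079502270590611144683810638107312777577327806531862431377859685460965980854219217279980804578104683573043408221052678871730618368) (nat_lit 2476662842140371422462909370582816718390682533933867933848799877887567363770174952670705931425304862378597249982710893304064392202778125193585029502395381534471275675648) (nat_lit 2476662842140371422462909370582816718390682533933867933848799877887567363770174952670705931425304862378597249982710893304064392202778125193585029502395381534471275675648) :=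
  sem_of_chk (M (nat_lit 430) (B (M (nat_lit 427) (B (M (nat_lit 426) (B (M (nat_lit 394) (B (L (nat_lit 393) ln13_13_3 ln13_13_3_ok) (L (nat_lit 395) ln14_13_3 ln14_13_3_ok))) (M (nat_lit 462) (B (L (nat_lit 461) ln10_13_0 ln10_13_0_ok) (L (nat_lit 463) ln11_13_0 ln11_13_0_ok))))) (B (M (nat_lit 431) (B (M (nat_lit 399) (B (L (nat_lit 398) ln11_13_2 ln11_13_2_ok) (L (nat_lit 400) ln12_13_2 ln12_13_2_ok))) (M (nat_lit 463) (B (L (nat_lit 462) ln11_13_0 ln11_13_0_ok) (L (nat_lit 464) ln12_13_0 ln12_13_0_ok))))) (M (nat_lit 398) (B (L (nat_lit 399) ln11_13_2 ln11_13_2_ok) (M (nat_lit 394) (B (L (nat_lit 395) ln14_13_3 ln14_13_3_ok) (M (nat_lit 426) (B (L (nat_lit 393) ln13_13_3 ln13_13_3_ok) (L (nat_lit 397) ln10_13_2 ln10_13_2_ok)))))))))) (B (M (nat_lit 427) (B (M (nat_lit 431) (B (M (nat_lit 395) (B (L (nat_lit 394) ln14_13_3 ln14_13_3_ok) (L (nat_lit 396) ln15_13_3 ln15_13_3_ok))) (M (nat_lit 399) (B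 (L (nat_lit 398) ln11_13_2 ln11_13_2_ok) (L (nat_lit 400) ln12_13_2 ln12_13_2_ok))))) (B (M (nat_lit 431) (B (M (nat_lit 399) (B (L (nat_lit 398) ln11_13_2 ln11_13_2_ok) (L (nat_lit 400) ln12_13_2 ln12_13_2_ok))) (M (nat_lit 463) (B (L (nat_lit 462) ln11_13_0 ln11_13_0_ok) (L (nat_lit 464) ln12_13_0 ln12_13_0_ok))))) (B (M (nat_lit 431) (B (M (nat_lit 395) (B (L (nat_lit 394) ln14_13_3 ln14_13_3_ok) (L (nat_lit 396) ln15_13_3 ln15_13_3_ok))) (M (nat_lit 463) (B (L (nat_lit 462) ln11_13_0 ln11_13_0_ok) (L (nat_lit 464) ln12_13_0 ln12_13_0_ok))))) (M (nat_lit 398) (B (L (nat_lit 399) ln11_13_2 ln11_13_2_ok) (M (nat_lit 462) (B (L (nat_lit 463) ln11_13_0 ln11_13_0_ok) (M (nat_lit 426) (B (L (nat_lit 397) ln10_13_2 ln10_13_2_ok) (L (nat_lit 461) ln10_13_0 ln10_13_0_ok))))))))))) (B (M (nat_lit 431) (B (M (nat_lit 432) (B (M (nat_lit 396) (B (L (nat_lit 395) ln15_13_3 ln15_13_3_ok) (L (nat_lit 397) ln16_13_3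 ln16_13_3_ok))) (M (nat_lit 460) (B (L (nat_lit 459) ln15_13_1 ln15_13_1_ok) (L (nat_lit 461) ln16_13_1 ln16_13_1_ok))))) (M (nat_lit 427) (B (M (nat_lit 399) (B (L (nat_lit 398) ln11_13_2 ln11_13_2_ok) (L (nat_lit 400) ln12_13_2 ln12_13_2_ok))) (M (nat_lit 463) (B (L (nat_lit 462) ln11_13_0 ln11_13_0_ok) (L (nat_lit 464) ln12_13_0 ln12_13_0_ok))))))) (B (M (nat_lit 431) (B (M (nat_lit 432) (B (M (nat_lit 400) (B (L (nat_lit 399) ln12_13_2 ln12_13_2_ok) (L (nat_lit 401) ln13_13_2 ln13_13_2_ok))) (M (nat_lit 460) (B (L (nat_lit 459) ln15_13_1 ln15_13_1_ok) (L (nat_lit 461) ln16_13_1 ln16_13_1_ok))))) (B (M (nat_lit 460) (B (L (nat_lit 459) ln15_13_1 ln15_13_1_ok) (M (nat_lit 432) (B (L (nat_lit 461) ln16_13_1 ln16_13_1_ok) (M (nat_lit 464) (B (L (nat_lit 463) ln12_13_0 ln12_13_0_ok) (L (nat_lit 465) ln13_13_0 ln13_13_0_ok))))))) (M (nat_lit 427) (B (M (nat_lit 399) (B (L (nat_lit 398) ln11_13_2 ln11_13_2_ok)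 (L (nat_lit 400) ln12_13_2 ln12_13_2_ok))) (M (nat_lit 463) (B (L (nat_lit 462) ln11_13_0 ln11_13_0_ok) (L (nat_lit 464) ln12_13_0 ln12_13_0_ok)))))))) (B (M (nat_lit 431) (B (M (nat_lit 432) (B (M (nat_lit 396) (B (L (nat_lit 395) ln15_13_3 ln15_13_3_ok) (L (nat_lit 397) ln16_13_3 ln16_13_3_ok))) (M (nat_lit 460) (B (L (nat_lit 459) ln15_13_1 ln15_13_1_ok) (L (nat_lit 461) ln16_13_1 ln16_13_1_ok))))) (B (M (nat_lit 432) (B (M (nat_lit 400) (B (L (nat_lit 399) ln12_13_2 ln12_13_2_ok) (L (nat_lit 401) ln13_13_2 ln13_13_2_ok))) (M (nat_lit 464) (B (L (nat_lit 463) ln12_13_0 ln12_13_0_ok) (L (nat_lit 465) ln13_13_0 ln13_13_0_ok))))) (M (nat_lit 427) (B (M (nat_lit 395) (B (L (nat_lit 394) ln14_13_3 ln14_13_3_ok) (L (nat_lit 396) ln15_13_3 ln15_13_3_ok))) (M (nat_lit 463) (B (L (nat_lit 462) ln11_13_0 ln11_13_0_ok) (L (nat_lit 464) ln12_13_0 ln12_13_0_ok)))))))) (B (M (nat_lit 397) (B (M (nat_lit 462) (B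 (M (nat_lit 427) (B (L (nat_lit 463) ln11_13_0 ln11_13_0_ok) (M (nat_lit 426) (B (L (nat_lit 398) ln10_13_2 ln10_13_2_ok) (L (nat_lit 461) ln10_13_0 ln10_13_0_ok))))) (B (M (nat_lit 461) (B (M (nat_lit 494) (B (L (nat_lit 365) ln13_11_4 ln13_11_4_ok) (L (nat_lit 526) ln14_16_7 ln14_16_7_ok))) (M (nat_lit 427) (B (L (nat_lit 426) ln10_13_0 ln10_13_0_ok) (L (nat_lit 463) ln11_13_0 ln11_13_0_ok))))) (B (M (nat_lit 494) (B (L (nat_lit 526) ln14_16_7 ln14_16_7_ok) (M (nat_lit 365) (B (L (nat_lit 398) ln14_15_7 ln14_15_7_ok) (L (nat_lit 461) ln13_11_4 ln13_11_4_ok))))) (M (nat_lit 398) (B (M (nat_lit 494) (B (L (nat_lit 365) ln14_15_7 ln14_15_7_ok) (L (nat_lit 526) ln14_16_7 ln14_16_7_ok))) (M (nat_lit 427) (B (L (nat_lit 426) ln10_13_2 ln10_13_2_ok) (L (nat_lit 463) ln11_13_0 ln11_13_0_ok))))))))) (B (M (nat_lit 427) (B (M (nat_lit 462) (B (L (nat_lit 463) ln11_13_0 ln11_13_0_ok) (M (nat_lit 426) (B (L (nat_lit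 398) ln10_13_2 ln10_13_2_ok) (L (nat_lit 461) ln10_13_0 ln10_13_0_ok))))) (B (M (nat_lit 431) (B (M (nat_lit 395) (B (L (nat_lit 394) ln14_13_3 ln14_13_3_ok) (L (nat_lit 396) ln15_13_3 ln15_13_3_ok))) (M (nat_lit 463) (B (L (nat_lit 462) ln11_13_0 ln11_13_0_ok) (L (nat_lit 464) ln12_13_0 ln12_13_0_ok))))) (M (nat_lit 396) (B (M (nat_lit 395) (B (L (nat_lit 394) ln10_12_0 ln10_12_0_ok) (L (nat_lit 431) ln15_13_3 ln15_13_3_ok))) (M (nat_lit 426) (B (L (nat_lit 425) ln9_13_2 ln9_13_2_ok) (L (nat_lit 398) ln10_13_2 ln10_13_2_ok)))))))) (B (M (nat_lit 460) (B (M (nat_lit 431) (B (L (nat_lit 459) ln15_13_1 ln15_13_1_ok) (M (nat_lit 396) (B (L (nat_lit 395) ln15_13_3 ln15_13_3_ok) (L (nat_lit 432) ln16_13_3 ln16_13_3_ok))))) (B (M (nat_lit 431) (B (L (nat_lit 459) ln15_13_1 ln15_13_1_ok) (M (nat_lit 432) (B (L (nat_lit 396) ln16_13_3 ln16_13_3_ok) (L (nat_lit 461) ln16_13_1 ln16_13_1_ok))))) (M (nat_lit 365)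 (B (L (nat_lit 333) ln13_10_5 ln13_10_5_ok) (M (nat_lit 492) (B (L (nat_lit 461) ln13_11_5 ln13_11_5_ok) (L (nat_lit 524) ln12_16_6 ln12_16_6_ok)))))))) (M (nat_lit 462) (B (M (nat_lit 365) (B (L (nat_lit 333) ln13_10_4 ln13_10_4_ok) (M (nat_lit 494) (B (L (nat_lit 398) ln14_15_7 ln14_15_7_ok) (L (nat_lit 526) ln14_16_7 ln14_16_7_ok))))) (M (nat_lit 463) (B (L (nat_lit 427) ln11_13_0 ln11_13_0_ok) (M (nat_lit 464) (B (L (nat_lit 431) ln12_13_0 ln12_13_0_ok) (L (nat_lit 465) ln17_14_3 ln17_14_3_ok))))))))))) (B c40_n5050 (B (K (nat_lit 4852171964711426004262224822250396481013764881907679006548339266075587288659844840319955210682244261670434619182456250700704776192) (nat_lit 2358726516282320683264613450249543352549375951281123817747119140524143354833289666584721921305968862778486734056001602637258271560373318885723259439273436994442717298688) (nat_lit 2358726516282320683264613450249543352549375951281123817747119140524143354833289666584721921305968862778486734056001602637258271560373318885723259439273436994442717298688)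 c40_s5065) (B (M (nat_lit 427) (B (M (nat_lit 431) (B (M (nat_lit 399) (B (L (nat_lit 398) ln11_13_2 ln11_13_2_ok) (L (nat_lit 400) ln12_13_2 ln12_13_2_ok))) (M (nat_lit 463) (B (L (nat_lit 462) ln11_13_0 ln11_13_0_ok) (L (nat_lit 464) ln12_13_0 ln12_13_0_ok))))) (B (M (nat_lit 431) (B (M (nat_lit 395) (B (L (nat_lit 394) ln14_13_3 ln14_13_3_ok) (L (nat_lit 396) ln15_13_3 ln15_13_3_ok))) (M (nat_lit 463) (B (L (nat_lit 462) ln11_13_0 ln11_13_0_ok) (L (nat_lit 464) ln12_13_0 ln12_13_0_ok))))) (M (nat_lit 398) (B (L (nat_lit 399) ln11_13_2 ln11_13_2_ok) (M (nat_lit 394) (B (L (nat_lit 395) ln14_13_3 ln14_13_3_ok) (M (nat_lit 426) (B (L (nat_lit 393) ln13_13_3 ln13_13_3_ok) (L (nat_lit 397) ln10_13_2 ln10_13_2_ok)))))))))) (M (nat_lit 427) (B (M (nat_lit 398) (B (L (nat_lit 399) ln11_13_2 ln11_13_2_ok) (M (nat_lit 394) (B (L (nat_lit 395) ln14_13_3 ln14_13_3_ok) (M (nat_lit 426) (B (L (nat_lit 393) ln13_13_3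 ln13_13_3_ok) (L (nat_lit 397) ln10_13_2 ln10_13_2_ok))))))) (B (M (nat_lit 431) (B (M (nat_lit 395) (B (L (nat_lit 394) ln14_13_3 ln14_13_3_ok) (L (nat_lit 396) ln15_13_3 ln15_13_3_ok))) (M (nat_lit 399) (B (L (nat_lit 398) ln11_13_2 ln11_13_2_ok) (L (nat_lit 400) ln12_13_2 ln12_13_2_ok))))) (B (M (nat_lit 461) (B (M (nat_lit 398) (B (L (nat_lit 399) ln11_13_2 ln11_13_2_ok) (M (nat_lit 426) (B (L (nat_lit 397) ln10_13_2 ln10_13_2_ok) (L (nat_lit 462) ln10_13_0 ln10_13_0_ok))))) (B (M (nat_lit 431) (B (M (nat_lit 399) (B (L (nat_lit 398) ln11_13_2 ln11_13_2_ok) (L (nat_lit 400) ln12_13_2 ln12_13_2_ok))) (M (nat_lit 460) (B (L (nat_lit 459) ln15_13_1 ln15_13_1_ok) (L (nat_lit 432) ln16_13_1 ln16_13_1_ok))))) (M (nat_lit 460) (B (M (nat_lit 426) (B (L (nat_lit 425) ln9_13_0 ln9_13_0_ok) (L (nat_lit 462) ln10_13_0 ln10_13_0_ok))) (M (nat_lit 431) (B (L (nat_lit 459) ln15_13_1 ln15_13_1_ok) (L (nat_lit 432)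 ln16_13_1 ln16_13_1_ok)))))))) (M (nat_lit 461) (B (M (nat_lit 426) (B (L (nat_lit 462) ln10_13_0 ln10_13_0_ok) (M (nat_lit 394) (B (L (nat_lit 393) ln13_13_3 ln13_13_3_ok) (L (nat_lit 395) ln14_13_3 ln14_13_3_ok))))) (B (M (nat_lit 460) (B (M (nat_lit 426) (B (L (nat_lit 425) ln9_13_0 ln9_13_0_ok) (L (nat_lit 462) ln10_13_0 ln10_13_0_ok))) (M (nat_lit 431) (B (L (nat_lit 459) ln15_13_1 ln15_13_1_ok) (L (nat_lit 432) ln16_13_1 ln16_13_1_ok))))) (M (nat_lit 431) (B (M (nat_lit 395) (B (L (nat_lit 394) ln14_13_3 ln14_13_3_ok) (L (nat_lit 396) ln15_13_3 ln15_13_3_ok))) (M (nat_lit 460) (B (L (nat_lit 459) ln15_13_1 ln15_13_1_ok) (L (nat_lit 432) ln16_13_1 ln16_13_1_ok)))))))))))))))))))))) (nat_lit 2079502270590611144683810638107312777577327806531862431377859685460965980854219217279980804578104683573043408221052678871730618368) (nat_lit 2476662842140371422462909370582816718390682533933867933848799877887567363770174952670705931425304862378597249982710893304064392202778125193585029502395381534471275675648)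 (nat_lit 2476662842140371422462909370582816718390682533933867933848799877887567363770174952670705931425304862378597249982710893304064392202778125193585029502395381534471275675648) (by decide +kernel)
theorem c40_s5285 : Sem (nat_lit 2079502271558954848966401359228282467078457259405502103688818502772463239556962075536296252564221691053095095009516368361510928384) (nat_lit 768857338113641837134852427160423682198683782614868139577568053238745414234500717601094443023919556752772877908084752610680688143327474739454289828178254888960) (nat_lit 768857338113641837134852427160423682198683782614868139577568053238745414234500717601094443023919556752772877908084752610680688143327474739454289828178254888960) :=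
  sem_of_chk (M (nat_lit 430) (B (M (nat_lit 427) (B (L (nat_lit 426) ln10_13_2 ln10_13_2_ok) (M (nat_lit 395) (B (L (nat_lit 394) ln14_13_3 ln14_13_3_ok) (M (nat_lit 431) (B (L (nat_lit 396) ln11_12_0 ln11_12_0_ok) (M (nat_lit 463) (B (L (nat_lit 462) ln11_13_0 ln11_13_0_ok) (L (nat_lit 464) ln12_13_0 ln12_13_0_ok))))))))) (B (M (nat_lit 427) (B (L (nat_lit 426) ln10_13_2 ln10_13_2_ok) (M (nat_lit 431) (B (M (nat_lit 396) (B (L (nat_lit 395) ln11_12_0 ln11_12_0_ok) (L (nat_lit 432) ln16_13_3 ln16_13_3_ok))) (M (nat_lit 463) (B (L (nat_lit 462) ln11_13_0 ln11_13_0_ok) (L (nat_lit 464) ln12_13_0 ln12_13_0_ok))))))) (B (M (nat_lit 431) (B (M (nat_lit 427) (B (L (nat_lit 426) ln10_13_2 ln10_13_2_ok) (M (nat_lit 463) (B (L (nat_lit 462) ln11_13_0 ln11_13_0_ok) (L (nat_lit 464) ln12_13_0 ln12_13_0_ok))))) (B (M (nat_lit 464) (B (L (nat_lit 463) ln12_13_0 ln12_13_0_ok) (M (nat_lit 432) (B (L (nat_lit 396) ln16_13_3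 ln16_13_3_ok) (L (nat_lit 465) ln13_13_0 ln13_13_0_ok))))) (M (nat_lit 461) (B (M (nat_lit 366) (B (L (nat_lit 334) ln14_10_5 ln14_10_5_ok) (L (nat_lit 493) ln13_15_6 ln13_15_6_ok))) (M (nat_lit 432) (B (L (nat_lit 396) ln16_13_3 ln16_13_3_ok) (L (nat_lit 460) ln16_13_1 ln16_13_1_ok)))))))) (B (M (nat_lit 462) (B (M (nat_lit 427) (B (L (nat_lit 426) ln10_13_2 ln10_13_2_ok) (L (nat_lit 463) ln11_13_0 ln11_13_0_ok))) (B (M (nat_lit 463) (B (L (nat_lit 427) ln11_13_0 ln11_13_0_ok) (M (nat_lit 464) (B (L (nat_lit 431) ln12_13_0 ln12_13_0_ok) (L (nat_lit 461) ln16_14_3 ln16_14_3_ok))))) (B (M (nat_lit 493) (B (M (nat_lit 461) (B (L (nat_lit 366) ln13_15_6 ln13_15_6_ok) (L (nat_lit 525) ln13_16_6 ln13_16_6_ok))) (B (M (nat_lit 525) (B (L (nat_lit 461) ln13_16_6 ln13_16_6_ok) (L (nat_lit 494) ln14_12_5 ln14_12_5_ok))) (B (M (nat_lit 494) (B (L (nat_lit 526) ln14_16_7 ln14_16_7_ok) (L (nat_lit 525) ln14_12_5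 ln14_12_5_ok))) (M (nat_lit 463) (B (M (nat_lit 366) (B (L (nat_lit 461) ln13_15_6 ln13_15_6_ok) (L (nat_lit 495) ln14_11_4 ln14_11_4_ok))) (B (M (nat_lit 464) (B (L (nat_lit 461) ln16_14_3 ln16_14_3_ok) (L (nat_lit 465) ln17_14_3 ln17_14_3_ok))) (M (nat_lit 464) (B (L (nat_lit 431) ln12_13_0 ln12_13_0_ok) (L (nat_lit 465) ln17_14_3 ln17_14_3_ok)))))))))) (M (nat_lit 366) (B (M (nat_lit 334) (B (L (nat_lit 302) ln14_9_5 ln14_9_5_ok) (L (nat_lit 461) ln14_10_5 ln14_10_5_ok))) (B (M (nat_lit 461) (B (L (nat_lit 334) ln14_10_5 ln14_10_5_ok) (L (nat_lit 493) ln13_15_6 ln13_15_6_ok))) (B (M (nat_lit 493) (B (L (nat_lit 461) ln13_15_6 ln13_15_6_ok) (M (nat_lit 494) (B (L (nat_lit 526) ln14_16_7 ln14_16_7_ok) (L (nat_lit 525) ln14_12_5 ln14_12_5_ok))))) (M (nat_lit 334) (B (L (nat_lit 302) ln14_9_5 ln14_9_5_ok) (M (nat_lit 335) (B (L (nat_lit 303) ln14_13_6 ln14_13_6_ok) (L (nat_lit 367) ln14_14_6 ln14_14_6_ok)))))))))))))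 (B (M (nat_lit 463) (B (M (nat_lit 464) (B (L (nat_lit 431) ln12_13_0 ln12_13_0_ok) (M (nat_lit 462) (B (L (nat_lit 461) ln16_14_3 ln16_14_3_ok) (L (nat_lit 465) ln17_14_3 ln17_14_3_ok))))) (B (M (nat_lit 462) (B (L (nat_lit 427) ln11_13_0 ln11_13_0_ok) (M (nat_lit 464) (B (L (nat_lit 461) ln16_14_3 ln16_14_3_ok) (L (nat_lit 465) ln17_14_3 ln17_14_3_ok))))) (B (M (nat_lit 462) (B (L (nat_lit 427) ln11_13_0 ln11_13_0_ok) (M (nat_lit 464) (B (L (nat_lit 431) ln12_13_0 ln12_13_0_ok) (L (nat_lit 465) ln17_14_3 ln17_14_3_ok))))) (B (M (nat_lit 431) (B (L (nat_lit 464) ln12_13_0 ln12_13_0_ok) (M (nat_lit 396) (B (L (nat_lit 395) ln11_12_0 ln11_12_0_ok) (L (nat_lit 432) ln16_13_3 ln16_13_3_ok))))) (M (nat_lit 366) (B (M (nat_lit 334) (B (L (nat_lit 302) ln14_9_5 ln14_9_5_ok) (L (nat_lit 461) ln14_10_5 ln14_10_5_ok))) (M (nat_lit 462) (B (L (nat_lit 495) ln14_11_4 ln14_11_4_ok) (L (nat_lit 427) ln11_13_0 ln11_13_0_ok))))))))))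 (B (M (nat_lit 431) (B (M (nat_lit 396) (B (L (nat_lit 395) ln11_12_0 ln11_12_0_ok) (L (nat_lit 432) ln16_13_3 ln16_13_3_ok))) (B (M (nat_lit 464) (B (L (nat_lit 463) ln12_13_0 ln12_13_0_ok) (M (nat_lit 432) (B (L (nat_lit 396) ln16_13_3 ln16_13_3_ok) (L (nat_lit 465) ln13_13_0 ln13_13_0_ok))))) (M (nat_lit 463) (B (L (nat_lit 464) ln12_13_0 ln12_13_0_ok) (M (nat_lit 366) (B (L (nat_lit 334) ln14_10_4 ln14_10_4_ok) (M (nat_lit 495) (B (L (nat_lit 462) ln14_11_4 ln14_11_4_ok) (L (nat_lit 527) ln15_16_7 ln15_16_7_ok)))))))))) (B (M (nat_lit 427) (B (L (nat_lit 426) ln10_13_2 ln10_13_2_ok) (M (nat_lit 366) (B (M (nat_lit 461) (B (L (nat_lit 334) ln14_10_5 ln14_10_5_ok) (L (nat_lit 493) ln13_15_6 ln13_15_6_ok))) (M (nat_lit 367) (B (M (nat_lit 462) (B (L (nat_lit 335) ln14_14_6 ln14_14_6_ok) (L (nat_lit 463) ln11_13_0 ln11_13_0_ok))) (M (nat_lit 395) (B (L (nat_lit 396) ln11_12_2 ln11_12_2_ok) (L (nat_lit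 394) ln14_13_3 ln14_13_3_ok))))))))) (M (nat_lit 395) (B (M (nat_lit 394) (B (L (nat_lit 396) ln10_12_0 ln10_12_0_ok) (L (nat_lit 427) ln14_13_3 ln14_13_3_ok))) (B (M (nat_lit 366) (B (M (nat_lit 334) (B (L (nat_lit 302) ln14_9_5 ln14_9_5_ok) (L (nat_lit 461) ln14_10_5 ln14_10_5_ok))) (M (nat_lit 396) (B (L (nat_lit 367) ln11_12_2 ln11_12_2_ok) (L (nat_lit 431) ln11_12_0 ln11_12_0_ok))))) (M (nat_lit 427) (B (L (nat_lit 394) ln14_13_3 ln14_13_3_ok) (L (nat_lit 426) ln10_13_2 ln10_13_2_ok)))))))))))))) (nat_lit 2079502271558954848966401359228282467078457259405502103688818502772463239556962075536296252564221691053095095009516368361510928384) (nat_lit 768857338113641837134852427160423682198683782614868139577568053238745414234500717601094443023919556752772877908084752610680688143327474739454289828178254888960) (nat_lit 768857338113641837134852427160423682198683782614868139577568053238745414234500717601094443023919556752772877908084752610680688143327474739454289828178254888960)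 (by decide +kernel)
noncomputable def c40_n5541 : Cert := (M (nat_lit 430) (B (M (nat_lit 399) (B (L (nat_lit 400) ln16_12_1 ln16_12_1_ok) (M (nat_lit 431) (B (M (nat_lit 396) (B (L (nat_lit 395) ln11_12_0 ln11_12_0_ok) (L (nat_lit 432) ln12_12_0 ln12_12_0_ok))) (M (nat_lit 463) (B (L (nat_lit 464) ln12_13_0 ln12_13_0_ok) (M (nat_lit 366) (B (L (nat_lit 334) ln14_10_4 ln14_10_4_ok) (L (nat_lit 495) ln15_15_7 ln15_15_7_ok))))))))) (B (M (nat_lit 396) (B (M (nat_lit 395) (B (L (nat_lit 394) ln10_12_0 ln10_12_0_ok) (L (nat_lit 431) ln11_12_0 ln11_12_0_ok))) (M (nat_lit 364) (B (M (nat_lit 399) (B (L (nat_lit 363) ln15_12_3 ln15_12_3_ok) (L (nat_lit 400) ln16_12_1 ln16_12_1_ok))) (M (nat_lit 333) (B (M (nat_lit 332) (B (L (nat_lit 300) ln12_9_4 ln12_9_4_ok) (L (nat_lit 301) ln12_13_6 ln12_13_6_ok))) (B (M (nat_lit 301) (B (L (nat_lit 332) ln12_13_6 ln12_13_6_ok) (L (nat_lit 365) ln13_9_5 ln13_9_5_ok))) (M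 (nat_lit 365) (B (L (nat_lit 460) ln12_14_6 ln12_14_6_ok) (L (nat_lit 462) ln13_10_4 ln13_10_4_ok)))))))))) (B (M (nat_lit 399) (B (L (nat_lit 400) ln16_12_1 ln16_12_1_ok) (M (nat_lit 431) (B (M (nat_lit 463) (B (L (nat_lit 464) ln12_13_0 ln12_13_0_ok) (M (nat_lit 366) (B (L (nat_lit 334) ln14_10_4 ln14_10_4_ok) (L (nat_lit 495) ln15_15_7 ln15_15_7_ok))))) (M (nat_lit 367) (B (M (nat_lit 335) (B (L (nat_lit 303) ln15_9_5 ln15_9_5_ok) (L (nat_lit 462) ln15_10_5 ln15_10_5_ok))) (M (nat_lit 396) (B (L (nat_lit 368) ln12_12_2 ln12_12_2_ok) (L (nat_lit 432) ln12_12_0 ln12_12_0_ok))))))))) (B (M (nat_lit 462) (B (M (nat_lit 365) (B (L (nat_lit 333) ln13_10_4 ln13_10_4_ok) (L (nat_lit 494) ln14_15_7 ln14_15_7_ok))) (B (M (nat_lit 494) (B (L (nat_lit 365) ln14_15_7 ln14_15_7_ok) (L (nat_lit 526) ln14_16_7 ln14_16_7_ok))) (B (M (nat_lit 399) (B (L (nat_lit 400) ln16_12_1 ln16_12_1_ok) (M (nat_lit 494) (B (L (nat_lit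 367) ln14_15_6 ln14_15_6_ok) (L (nat_lit 526) ln14_16_7 ln14_16_7_ok))))) (M (nat_lit 366) (B (M (nat_lit 334) (B (L (nat_lit 302) ln14_9_5 ln14_9_5_ok) (M (nat_lit 335) (B (L (nat_lit 303) ln14_13_6 ln14_13_6_ok) (L (nat_lit 367) ln14_14_6 ln14_14_6_ok))))) (B (M (nat_lit 463) (B (L (nat_lit 495) ln14_11_4 ln14_11_4_ok) (M (nat_lit 431) (B (L (nat_lit 334) ln14_10_4 ln14_10_4_ok) (L (nat_lit 464) ln12_13_0 ln12_13_0_ok))))) (M (nat_lit 463) (B (L (nat_lit 495) ln14_11_4 ln14_11_4_ok) (M (nat_lit 464) (B (L (nat_lit 431) ln12_13_0 ln12_13_0_ok) (L (nat_lit 465) ln17_14_3 ln17_14_3_ok)))))))))))) (B (M (nat_lit 462) (B (M (nat_lit 365) (B (L (nat_lit 333) ln13_10_4 ln13_10_4_ok) (L (nat_lit 494) ln14_15_7 ln14_15_7_ok))) (M (nat_lit 366) (B (M (nat_lit 334) (B (L (nat_lit 302) ln14_9_5 ln14_9_5_ok) (M (nat_lit 335) (B (L (nat_lit 303) ln14_13_6 ln14_13_6_ok) (L (nat_lit 367) ln14_14_6 ln14_14_6_ok)))))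 (B (M (nat_lit 463) (B (L (nat_lit 495) ln14_11_4 ln14_11_4_ok) (M (nat_lit 431) (B (L (nat_lit 334) ln14_10_4 ln14_10_4_ok) (L (nat_lit 464) ln12_13_0 ln12_13_0_ok))))) (M (nat_lit 463) (B (L (nat_lit 495) ln14_11_4 ln14_11_4_ok) (M (nat_lit 464) (B (L (nat_lit 431) ln12_13_0 ln12_13_0_ok) (L (nat_lit 465) ln17_14_3 ln17_14_3_ok)))))))))) (M (nat_lit 396) (B (M (nat_lit 395) (B (L (nat_lit 394) ln10_12_0 ln10_12_0_ok) (M (nat_lit 399) (B (L (nat_lit 400) ln16_12_1 ln16_12_1_ok) (M (nat_lit 367) (B (L (nat_lit 366) ln11_12_2 ln11_12_2_ok) (L (nat_lit 368) ln12_12_2 ln12_12_2_ok))))))) (B (M (nat_lit 364) (B (M (nat_lit 399) (B (L (nat_lit 363) ln15_12_3 ln15_12_3_ok) (L (nat_lit 400) ln16_12_1 ln16_12_1_ok))) (M (nat_lit 333) (B (M (nat_lit 332) (B (L (nat_lit 300) ln12_9_4 ln12_9_4_ok) (L (nat_lit 301) ln12_13_6 ln12_13_6_ok))) (B (M (nat_lit 301) (B (L (nat_lit 332) ln12_13_6 ln12_13_6_ok) (L (nat_lit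 365) ln13_9_5 ln13_9_5_ok))) (M (nat_lit 365) (B (L (nat_lit 460) ln12_14_6 ln12_14_6_ok) (L (nat_lit 462) ln13_10_4 ln13_10_4_ok)))))))) (M (nat_lit 366) (B (M (nat_lit 395) (B (L (nat_lit 367) ln11_12_2 ln11_12_2_ok) (L (nat_lit 394) ln10_12_0 ln10_12_0_ok))) (M (nat_lit 333) (B (M (nat_lit 334) (B (L (nat_lit 301) ln14_13_7 ln14_13_7_ok) (L (nat_lit 302) ln14_9_5 ln14_9_5_ok))) (M (nat_lit 365) (B (L (nat_lit 462) ln14_14_7 ln14_14_7_ok) (L (nat_lit 460) ln13_10_5 ln13_10_5_ok))))))))))))))))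
theorem c40_s5542 : Sem (nat_lit 2079502270913392379444674211814302674077704290823075655481512624564798400421800170032085953906810352733060637150540575368324055040) (nat_lit 219673525290406377868251796224743590921065286808991976136350266307201691843159845687739275297739507206573235908790433294418508625391909097623345106089794338816) (nat_lit 219673525290406377868251796224743590921065286808991976136350266307201691843159845687739275297739507206573235908790433294418508625391909097623345106089794338816) :=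
  sem_of_chk (M (nat_lit 398) (B (M (nat_lit 399) (B (L (nat_lit 400) ln16_12_1 ln16_12_1_ok) (M (nat_lit 427) (B (L (nat_lit 396) ln15_12_1 ln15_12_1_ok) (L (nat_lit 426) ln10_13_2 ln10_13_2_ok))))) (B (M (nat_lit 399) (B (L (nat_lit 400) ln16_12_1 ln16_12_1_ok) (M (nat_lit 427) (B (L (nat_lit 426) ln10_13_2 ln10_13_2_ok) (L (nat_lit 430) ln11_13_2 ln11_13_2_ok))))) (B (M (nat_lit 395) (B (M (nat_lit 427) (B (L (nat_lit 426) ln10_13_2 ln10_13_2_ok) (M (nat_lit 394) (B (L (nat_lit 430) ln14_13_3 ln14_13_3_ok) (M (nat_lit 393) (B (L (nat_lit 392) ln8_12_0 ln8_12_0_ok) (L (nat_lit 396) ln9_12_0 ln9_12_0_ok))))))) (B (M (nat_lit 430) (B (M (nat_lit 394) (B (L (nat_lit 396) ln10_12_0 ln10_12_0_ok) (L (nat_lit 427) ln14_13_3 ln14_13_3_ok))) (B (M (nat_lit 462) (B (M (nat_lit 365) (B (L (nat_lit 333) ln13_10_4 ln13_10_4_ok) (L (nat_lit 494) ln14_15_7 ln14_15_7_ok))) (M (nat_lit 427) (B (L (nat_lit 426) ln10_13_2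 ln10_13_2_ok) (L (nat_lit 463) ln11_13_0 ln11_13_0_ok))))) (M (nat_lit 396) (B (L (nat_lit 394) ln10_12_0 ln10_12_0_ok) (L (nat_lit 431) ln11_12_0 ln11_12_0_ok)))))) (B (M (nat_lit 396) (B (M (nat_lit 427) (B (L (nat_lit 426) ln14_12_1 ln14_12_1_ok) (M (nat_lit 363) (B (L (nat_lit 362) ln14_12_3 ln14_12_3_ok) (M (nat_lit 331) (B (L (nat_lit 299) ln11_9_4 ln11_9_4_ok) (L (nat_lit 460) ln11_10_4 ln11_10_4_ok))))))) (B (M (nat_lit 427) (B (L (nat_lit 426) ln14_12_1 ln14_12_1_ok) (M (nat_lit 363) (B (L (nat_lit 362) ln14_12_3 ln14_12_3_ok) (M (nat_lit 460) (B (L (nat_lit 331) ln11_10_4 ln11_10_4_ok) (L (nat_lit 492) ln12_15_7 ln12_15_7_ok))))))) (B (M (nat_lit 430) (B (L (nat_lit 431) ln11_12_0 ln11_12_0_ok) (M (nat_lit 462) (B (M (nat_lit 365) (B (L (nat_lit 333) ln13_10_4 ln13_10_4_ok) (L (nat_lit 494) ln14_15_7 ln14_15_7_ok))) (M (nat_lit 427) (B (L (nat_lit 426) ln14_12_1 ln14_12_1_ok) (L (nat_lit 463)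 ln11_13_0 ln11_13_0_ok))))))) (M (nat_lit 363) (B (L (nat_lit 362) ln14_12_3 ln14_12_3_ok) (M (nat_lit 460) (B (L (nat_lit 492) ln12_15_7 ln12_15_7_ok) (M (nat_lit 331) (B (L (nat_lit 299) ln11_9_4 ln11_9_4_ok) (L (nat_lit 364) ln12_14_7 ln12_14_7_ok))))))))))) (B (M (nat_lit 427) (B (L (nat_lit 426) ln10_13_2 ln10_13_2_ok) (M (nat_lit 430) (B (L (nat_lit 394) ln14_13_3 ln14_13_3_ok) (M (nat_lit 462) (B (L (nat_lit 463) ln11_13_0 ln11_13_0_ok) (M (nat_lit 365) (B (L (nat_lit 333) ln13_10_4 ln13_10_4_ok) (L (nat_lit 494) ln14_15_7 ln14_15_7_ok))))))))) (B (M (nat_lit 396) (B (M (nat_lit 430) (B (L (nat_lit 394) ln10_12_0 ln10_12_0_ok) (L (nat_lit 431) ln11_12_0 ln11_12_0_ok))) (M (nat_lit 363) (B (L (nat_lit 362) ln14_12_3 ln14_12_3_ok) (M (nat_lit 460) (B (L (nat_lit 492) ln12_15_7 ln12_15_7_ok) (M (nat_lit 331) (B (L (nat_lit 299) ln11_9_4 ln11_9_4_ok) (L (nat_lit 364) ln12_14_7 ln12_14_7_ok)))))))))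 (M (nat_lit 427) (B (L (nat_lit 426) ln10_13_2 ln10_13_2_ok) (M (nat_lit 396) (B (M (nat_lit 394) (B (L (nat_lit 393) ln9_12_0 ln9_12_0_ok) (M (nat_lit 366) (B (L (nat_lit 365) ln10_12_2 ln10_12_2_ok) (L (nat_lit 367) ln11_12_2 ln11_12_2_ok))))) (M (nat_lit 363) (B (L (nat_lit 362) ln14_12_3 ln14_12_3_ok) (M (nat_lit 331) (B (L (nat_lit 299) ln11_9_4 ln11_9_4_ok) (L (nat_lit 460) ln11_10_4 ln11_10_4_ok))))))))))))))) (B (M (nat_lit 399) (B (L (nat_lit 400) ln16_12_1 ln16_12_1_ok) (M (nat_lit 427) (B (L (nat_lit 396) ln15_12_1 ln15_12_1_ok) (L (nat_lit 430) ln11_13_2 ln11_13_2_ok))))) c40_n5541))))) (nat_lit 2079502270913392379444674211814302674077704290823075655481512624564798400421800170032085953906810352733060637150540575368324055040) (nat_lit 219673525290406377868251796224743590921065286808991976136350266307201691843159845687739275297739507206573235908790433294418508625391909097623345106089794338816)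 (nat_lit 219673525290406377868251796224743590921065286808991976136350266307201691843159845687739275297739507206573235908790433294418508625391909097623345106089794338816) (by decide +kernel)
theorem c40_s5701 : Sem (nat_lit 2079502270913392379444674211814302674077704290823075655481512624564798400421800170032085953906810352733060637150540575368324055040) (nat_lit 164755143881494679354779925981330130804491142682825737261983153093474678550044683778572762222242867281939537675759300771163740621611188758979164260854497542144) (nat_lit 164755143881494679354779925981330130804491142682825737261983153093474678550044683778572762222242867281939537675759300771163740621611188758979164260854497542144) :=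
  sem_of_chk (M (nat_lit 396) (B (M (nat_lit 430) (B (M (nat_lit 395) (B (L (nat_lit 394) ln10_12_0 ln10_12_0_ok) (L (nat_lit 431) ln15_13_3 ln15_13_3_ok))) (B (M (nat_lit 431) (B (L (nat_lit 395) ln15_13_3 ln15_13_3_ok) (L (nat_lit 432) ln16_13_3 ln16_13_3_ok))) (B (M (nat_lit 364) (B (M (nat_lit 461) (B (L (nat_lit 332) ln12_10_4 ln12_10_4_ok) (L (nat_lit 493) ln13_15_7 ln13_15_7_ok))) (M (nat_lit 399) (B (M (nat_lit 398) (B (L (nat_lit 363) ln15_12_3 ln15_12_3_ok) (L (nat_lit 427) ln15_12_1 ln15_12_1_ok))) (B (M (nat_lit 398) (B (L (nat_lit 427) ln15_12_1 ln15_12_1_ok) (L (nat_lit 400) ln16_12_1 ln16_12_1_ok))) (M (nat_lit 431) (B (L (nat_lit 432) ln16_13_3 ln16_13_3_ok) (L (nat_lit 400) ln12_13_2 ln12_13_2_ok)))))))) (M (nat_lit 398) (B (M (nat_lit 399) (B (L (nat_lit 427) ln15_12_1 ln15_12_1_ok) (L (nat_lit 400) ln16_12_1 ln16_12_1_ok))) (M (nat_lit 366) (B (M (nat_lit 334) (B (L (nat_lit 302) ln14_9_5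 ln14_9_5_ok) (L (nat_lit 461) ln14_10_5 ln14_10_5_ok))) (M (nat_lit 395) (B (L (nat_lit 367) ln11_12_2 ln11_12_2_ok) (L (nat_lit 394) ln10_12_0 ln10_12_0_ok))))))))))) (B (M (nat_lit 430) (B (M (nat_lit 395) (B (L (nat_lit 394) ln10_12_0 ln10_12_0_ok) (L (nat_lit 431) ln15_13_3 ln15_13_3_ok))) (B (M (nat_lit 431) (B (L (nat_lit 395) ln15_13_3 ln15_13_3_ok) (L (nat_lit 432) ln16_13_3 ln16_13_3_ok))) (B (M (nat_lit 364) (B (M (nat_lit 461) (B (L (nat_lit 332) ln12_10_4 ln12_10_4_ok) (L (nat_lit 493) ln13_15_7 ln13_15_7_ok))) (M (nat_lit 399) (B (M (nat_lit 398) (B (L (nat_lit 363) ln15_12_3 ln15_12_3_ok) (L (nat_lit 427) ln15_12_1 ln15_12_1_ok))) (B (M (nat_lit 398) (B (L (nat_lit 427) ln15_12_1 ln15_12_1_ok) (L (nat_lit 400) ln16_12_1 ln16_12_1_ok))) (M (nat_lit 431) (B (L (nat_lit 432) ln16_13_3 ln16_13_3_ok) (L (nat_lit 400) ln12_13_2 ln12_13_2_ok)))))))) (M (nat_lit 398) (B (M (nat_lit 399) (B (L (nat_lit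 427) ln15_12_1 ln15_12_1_ok) (L (nat_lit 400) ln16_12_1 ln16_12_1_ok))) (M (nat_lit 366) (B (M (nat_lit 395) (B (L (nat_lit 367) ln11_12_2 ln11_12_2_ok) (L (nat_lit 394) ln10_12_0 ln10_12_0_ok))) (M (nat_lit 461) (B (L (nat_lit 334) ln14_10_5 ln14_10_5_ok) (L (nat_lit 493) ln13_15_6 ln13_15_6_ok))))))))))) (B (M (nat_lit 398) (B (M (nat_lit 399) (B (L (nat_lit 427) ln15_12_1 ln15_12_1_ok) (L (nat_lit 400) ln16_12_1 ln16_12_1_ok))) (M (nat_lit 365) (B (M (nat_lit 333) (B (L (nat_lit 301) ln13_9_5 ln13_9_5_ok) (L (nat_lit 460) ln13_10_5 ln13_10_5_ok))) (B (M (nat_lit 460) (B (L (nat_lit 333) ln13_10_5 ln13_10_5_ok) (L (nat_lit 492) ln12_15_6 ln12_15_6_ok))) (M (nat_lit 366) (B (M (nat_lit 334) (B (L (nat_lit 302) ln14_9_5 ln14_9_5_ok) (L (nat_lit 461) ln13_14_6 ln13_14_6_ok))) (M (nat_lit 367) (B (L (nat_lit 368) ln16_11_1 ln16_11_1_ok) (L (nat_lit 395) ln11_12_2 ln11_12_2_ok)))))))))) (B (M (nat_lit 427)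 (B (M (nat_lit 398) (B (L (nat_lit 399) ln15_12_1 ln15_12_1_ok) (L (nat_lit 426) ln10_13_2 ln10_13_2_ok))) (B (M (nat_lit 365) (B (M (nat_lit 460) (B (L (nat_lit 333) ln13_10_5 ln13_10_5_ok) (L (nat_lit 492) ln12_15_6 ln12_15_6_ok))) (M (nat_lit 394) (B (M (nat_lit 395) (B (L (nat_lit 366) ln10_12_2 ln10_12_2_ok) (L (nat_lit 393) ln9_12_0 ln9_12_0_ok))) (B (M (nat_lit 395) (B (L (nat_lit 393) ln9_12_0 ln9_12_0_ok) (L (nat_lit 430) ln10_12_0 ln10_12_0_ok))) (B (M (nat_lit 395) (B (L (nat_lit 366) ln10_12_2 ln10_12_2_ok) (L (nat_lit 430) ln10_12_0 ln10_12_0_ok))) (M (nat_lit 426) (B (L (nat_lit 393) ln13_13_3 ln13_13_3_ok) (L (nat_lit 425) ln9_13_2 ln9_13_2_ok))))))))) (M (nat_lit 395) (B (M (nat_lit 430) (B (L (nat_lit 394) ln10_12_0 ln10_12_0_ok) (L (nat_lit 431) ln15_13_3 ln15_13_3_ok))) (M (nat_lit 363) (B (M (nat_lit 331) (B (L (nat_lit 299) ln11_9_4 ln11_9_4_ok) (L (nat_lit 460) ln11_10_4 ln11_10_4_ok)))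 (M (nat_lit 398) (B (L (nat_lit 362) ln14_12_3 ln14_12_3_ok) (L (nat_lit 399) ln15_12_1 ln15_12_1_ok)))))))))) (B (M (nat_lit 395) (B (M (nat_lit 394) (B (L (nat_lit 393) ln9_12_0 ln9_12_0_ok) (L (nat_lit 430) ln10_12_0 ln10_12_0_ok))) (B (M (nat_lit 430) (B (L (nat_lit 394) ln10_12_0 ln10_12_0_ok) (L (nat_lit 431) ln15_13_3 ln15_13_3_ok))) (M (nat_lit 364) (B (M (nat_lit 332) (B (L (nat_lit 300) ln12_9_4 ln12_9_4_ok) (L (nat_lit 461) ln12_10_4 ln12_10_4_ok))) (B (M (nat_lit 461) (B (L (nat_lit 332) ln12_10_4 ln12_10_4_ok) (L (nat_lit 493) ln13_15_7 ln13_15_7_ok))) (M (nat_lit 363) (B (M (nat_lit 331) (B (L (nat_lit 299) ln11_9_4 ln11_9_4_ok) (L (nat_lit 460) ln12_14_7 ln12_14_7_ok))) (M (nat_lit 362) (B (L (nat_lit 361) ln9_11_0 ln9_11_0_ok) (L (nat_lit 398) ln14_12_3 ln14_12_3_ok))))))))))) (B (M (nat_lit 365) (B (M (nat_lit 333) (B (L (nat_lit 301) ln13_9_5 ln13_9_5_ok) (L (nat_lit 460) ln13_10_5 ln13_10_5_ok)))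 (B (M (nat_lit 460) (B (L (nat_lit 333) ln13_10_5 ln13_10_5_ok) (L (nat_lit 492) ln12_15_6 ln12_15_6_ok))) (B (M (nat_lit 364) (B (M (nat_lit 461) (B (L (nat_lit 332) ln13_14_7 ln13_14_7_ok) (L (nat_lit 493) ln13_15_7 ln13_15_7_ok))) (M (nat_lit 363) (B (M (nat_lit 460) (B (L (nat_lit 331) ln12_14_7 ln12_14_7_ok) (L (nat_lit 492) ln12_15_6 ln12_15_6_ok))) (M (nat_lit 398) (B (L (nat_lit 362) ln10_11_0 ln10_11_0_ok) (L (nat_lit 399) ln15_12_3 ln15_12_3_ok))))))) (M (nat_lit 461) (B (M (nat_lit 364) (B (L (nat_lit 332) ln13_14_7 ln13_14_7_ok) (L (nat_lit 493) ln13_15_7 ln13_15_7_ok))) (B (M (nat_lit 493) (B (L (nat_lit 364) ln13_15_7 ln13_15_7_ok) (L (nat_lit 525) ln13_16_7 ln13_16_7_ok))) (B (M (nat_lit 493) (B (L (nat_lit 525) ln13_16_7 ln13_16_7_ok) (M (nat_lit 366) (B (L (nat_lit 334) ln13_14_6 ln13_14_6_ok) (L (nat_lit 398) ln13_15_6 ln13_15_6_ok))))) (M (nat_lit 332) (B (L (nat_lit 364) ln13_14_7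 ln13_14_7_ok) (M (nat_lit 333) (B (L (nat_lit 300) ln13_13_7 ln13_13_7_ok) (L (nat_lit 301) ln13_9_5 ln13_9_5_ok))))))))))))) (M (nat_lit 364) (B (M (nat_lit 332) (B (L (nat_lit 300) ln12_9_4 ln12_9_4_ok) (L (nat_lit 461) ln12_10_4 ln12_10_4_ok))) (B (M (nat_lit 461) (B (L (nat_lit 332) ln12_10_4 ln12_10_4_ok) (L (nat_lit 493) ln13_15_7 ln13_15_7_ok))) (B (M (nat_lit 365) (B (M (nat_lit 333) (B (L (nat_lit 301) ln13_9_5 ln13_9_5_ok) (L (nat_lit 460) ln12_14_6 ln12_14_6_ok))) (B (M (nat_lit 460) (B (L (nat_lit 333) ln12_14_6 ln12_14_6_ok) (L (nat_lit 492) ln12_15_6 ln12_15_6_ok))) (M (nat_lit 366) (B (M (nat_lit 461) (B (L (nat_lit 334) ln13_14_6 ln13_14_6_ok) (L (nat_lit 493) ln13_15_7 ln13_15_7_ok))) (M (nat_lit 367) (B (L (nat_lit 395) ln15_11_1 ln15_11_1_ok) (L (nat_lit 368) ln16_11_1 ln16_11_1_ok)))))))) (M (nat_lit 460) (B (M (nat_lit 492) (B (L (nat_lit 365) ln12_15_6 ln12_15_6_ok) (L (nat_lit 524)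 ln12_16_6 ln12_16_6_ok))) (M (nat_lit 332) (B (L (nat_lit 300) ln12_9_4 ln12_9_4_ok) (M (nat_lit 331) (B (L (nat_lit 299) ln12_13_7 ln12_13_7_ok) (L (nat_lit 363) ln12_14_7 ln12_14_7_ok)))))))))))))))))) (nat_lit 2079502270913392379444674211814302674077704290823075655481512624564798400421800170032085953906810352733060637150540575368324055040) (nat_lit 164755143881494679354779925981330130804491142682825737261983153093474678550044683778572762222242867281939537675759300771163740621611188758979164260854497542144) (nat_lit 164755143881494679354779925981330130804491142682825737261983153093474678550044683778572762222242867281939537675759300771163740621611188758979164260854497542144) (by decide +kernel)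
theorem c40_s5702 : Sem (nat_lit 2079502270590611144683810638107312777577327806531862431377859685460965980854219217279980804578104683573043408221052678871730618368) (nat_lit 1415235910131853726498056364787402771826745953779050489572718649987435594235862578981620296515968424491890327827492340141940608129725821541199264519138552646085516460032) (nat_lit 1415235910131853726498056364787402771826745953779050489572718649987435594235862578981620296515968424491890327827492340141940608129725821541199264519138552646085516460032) :=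
  sem_of_chk (M (nat_lit 397) (B (M (nat_lit 365) (B (M (nat_lit 460) (B (L (nat_lit 333) ln13_10_5 ln13_10_5_ok) (M (nat_lit 492) (B (L (nat_lit 461) ln13_11_5 ln13_11_5_ok) (L (nat_lit 524) ln12_16_6 ln12_16_6_ok))))) (B (M (nat_lit 461) (B (M (nat_lit 460) (B (L (nat_lit 492) ln13_11_5 ln13_11_5_ok) (M (nat_lit 462) (B (L (nat_lit 494) ln13_11_4 ln13_11_4_ok) (M (nat_lit 427) (B (L (nat_lit 426) ln10_13_0 ln10_13_0_ok) (L (nat_lit 463) ln15_14_3 ln15_14_3_ok))))))) (B (M (nat_lit 493) (B (M (nat_lit 364) (B (L (nat_lit 332) ln13_14_7 ln13_14_7_ok) (L (nat_lit 396) ln13_15_7 ln13_15_7_ok))) (M (nat_lit 492) (B (L (nat_lit 460) ln13_11_5 ln13_11_5_ok) (L (nat_lit 524) ln13_12_5 ln13_12_5_ok))))) (M (nat_lit 462) (B (L (nat_lit 494) ln13_11_4 ln13_11_4_ok) (M (nat_lit 427) (B (L (nat_lit 426) ln10_13_0 ln10_13_0_ok) (M (nat_lit 463) (B (L (nat_lit 430) ln11_13_0 ln11_13_0_ok) (L (nat_lit 464) ln16_14_3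 ln16_14_3_ok)))))))))) (B (M (nat_lit 333) (B (M (nat_lit 301) (B (L (nat_lit 396) ln13_9_5 ln13_9_5_ok) (M (nat_lit 302) (B (L (nat_lit 270) ln13_12_6 ln13_12_6_ok) (L (nat_lit 334) ln13_13_6 ln13_13_6_ok))))) (M (nat_lit 461) (B (M (nat_lit 332) (B (L (nat_lit 300) ln13_13_7 ln13_13_7_ok) (L (nat_lit 364) ln13_14_7 ln13_14_7_ok))) (M (nat_lit 462) (B (L (nat_lit 430) ln13_10_4 ln13_10_4_ok) (L (nat_lit 494) ln13_11_4 ln13_11_4_ok))))))) (M (nat_lit 460) (B (L (nat_lit 333) ln13_10_5 ln13_10_5_ok) (M (nat_lit 492) (B (L (nat_lit 396) ln12_15_6 ln12_15_6_ok) (L (nat_lit 524) ln12_16_6 ln12_16_6_ok))))))))) (B (M (nat_lit 462) (B (M (nat_lit 365) (B (M (nat_lit 333) (B (L (nat_lit 460) ln13_10_5 ln13_10_5_ok) (L (nat_lit 430) ln13_10_4 ln13_10_4_ok))) (B (M (nat_lit 494) (B (L (nat_lit 461) ln13_11_4 ln13_11_4_ok) (M (nat_lit 430) (B (L (nat_lit 398) ln14_15_7 ln14_15_7_ok) (L (nat_lit 526) ln14_16_7 ln14_16_7_ok)))))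 (M (nat_lit 461) (B (L (nat_lit 494) ln13_11_4 ln13_11_4_ok) (M (nat_lit 460) (B (L (nat_lit 333) ln13_10_5 ln13_10_5_ok) (L (nat_lit 492) ln13_11_5 ln13_11_5_ok)))))))) (B (M (nat_lit 461) (B (M (nat_lit 427) (B (L (nat_lit 426) ln10_13_0 ln10_13_0_ok) (M (nat_lit 463) (B (L (nat_lit 430) ln11_13_0 ln11_13_0_ok) (L (nat_lit 464) ln16_14_3 ln16_14_3_ok))))) (B (M (nat_lit 494) (B (L (nat_lit 365) ln13_11_4 ln13_11_4_ok) (M (nat_lit 526) (B (L (nat_lit 430) ln14_16_7 ln14_16_7_ok) (L (nat_lit 493) ln13_12_4 ln13_12_4_ok))))) (M (nat_lit 494) (B (L (nat_lit 365) ln13_11_4 ln13_11_4_ok) (M (nat_lit 526) (B (L (nat_lit 493) ln13_12_4 ln13_12_4_ok) (L (nat_lit 558) ln14_17_7 ln14_17_7_ok)))))))) (B (M (nat_lit 427) (B (M (nat_lit 426) (B (L (nat_lit 398) ln10_13_2 ln10_13_2_ok) (L (nat_lit 461) ln10_13_0 ln10_13_0_ok))) (B (M (nat_lit 463) (B (L (nat_lit 430) ln11_13_0 ln11_13_0_ok) (M (nat_lit 461) (B (L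 (nat_lit 460) ln15_14_3 ln15_14_3_ok) (L (nat_lit 464) ln16_14_3 ln16_14_3_ok))))) (M (nat_lit 398) (B (L (nat_lit 426) ln10_13_2 ln10_13_2_ok) (M (nat_lit 399) (B (L (nat_lit 400) ln16_12_1 ln16_12_1_ok) (L (nat_lit 430) ln11_13_2 ln11_13_2_ok)))))))) (B (M (nat_lit 461) (B (M (nat_lit 427) (B (L (nat_lit 426) ln10_13_0 ln10_13_0_ok) (M (nat_lit 463) (B (L (nat_lit 460) ln15_14_3 ln15_14_3_ok) (L (nat_lit 464) ln16_14_3 ln16_14_3_ok))))) (B (M (nat_lit 365) (B (L (nat_lit 494) ln13_11_4 ln13_11_4_ok) (M (nat_lit 460) (B (L (nat_lit 333) ln13_10_5 ln13_10_5_ok) (L (nat_lit 492) ln13_11_5 ln13_11_5_ok))))) (M (nat_lit 494) (B (L (nat_lit 365) ln13_11_4 ln13_11_4_ok) (M (nat_lit 526) (B (L (nat_lit 493) ln13_12_4 ln13_12_4_ok) (L (nat_lit 558) ln14_17_7 ln14_17_7_ok)))))))) (M (nat_lit 430) (B (M (nat_lit 365) (B (L (nat_lit 333) ln13_10_4 ln13_10_4_ok) (M (nat_lit 494) (B (L (nat_lit 398) ln14_15_7 ln14_15_7_ok)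 (L (nat_lit 526) ln14_16_7 ln14_16_7_ok))))) (M (nat_lit 463) (B (L (nat_lit 427) ln11_13_0 ln11_13_0_ok) (M (nat_lit 464) (B (L (nat_lit 431) ln12_13_0 ln12_13_0_ok) (L (nat_lit 465) ln17_14_3 ln17_14_3_ok)))))))))))) (B (M (nat_lit 461) (B (M (nat_lit 398) (B (M (nat_lit 399) (B (L (nat_lit 400) ln16_12_1 ln16_12_1_ok) (M (nat_lit 427) (B (L (nat_lit 396) ln15_12_1 ln15_12_1_ok) (L (nat_lit 430) ln11_13_2 ln11_13_2_ok))))) (B (M (nat_lit 430) (B (M (nat_lit 399) (B (L (nat_lit 400) ln16_12_1 ln16_12_1_ok) (L (nat_lit 427) ln11_13_2 ln11_13_2_ok))) (M (nat_lit 493) (B (L (nat_lit 366) ln13_15_6 ln13_15_6_ok) (L (nat_lit 525) ln13_16_6 ln13_16_6_ok))))) (M (nat_lit 493) (B (L (nat_lit 366) ln13_15_6 ln13_15_6_ok) (M (nat_lit 396) (B (L (nat_lit 364) ln13_15_7 ln13_15_7_ok) (L (nat_lit 525) ln13_16_7 ln13_16_7_ok)))))))) (B (M (nat_lit 398) (B (M (nat_lit 493) (B (L (nat_lit 366) ln13_15_6 ln13_15_6_ok)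 (M (nat_lit 525) (B (L (nat_lit 396) ln13_16_7 ln13_16_7_ok) (L (nat_lit 430) ln13_16_6 ln13_16_6_ok))))) (B (M (nat_lit 427) (B (L (nat_lit 426) ln10_13_2 ln10_13_2_ok) (M (nat_lit 399) (B (L (nat_lit 396) ln15_12_1 ln15_12_1_ok) (L (nat_lit 400) ln16_12_1 ln16_12_1_ok))))) (M (nat_lit 427) (B (L (nat_lit 426) ln10_13_2 ln10_13_2_ok) (M (nat_lit 399) (B (L (nat_lit 400) ln16_12_1 ln16_12_1_ok) (L (nat_lit 430) ln11_13_2 ln11_13_2_ok)))))))) (B (M (nat_lit 462) (B (M (nat_lit 494) (B (L (nat_lit 365) ln13_11_4 ln13_11_4_ok) (M (nat_lit 526) (B (L (nat_lit 493) ln13_12_4 ln13_12_4_ok) (L (nat_lit 558) ln14_17_7 ln14_17_7_ok))))) (M (nat_lit 427) (B (L (nat_lit 426) ln10_13_0 ln10_13_0_ok) (M (nat_lit 463) (B (L (nat_lit 460) ln15_14_3 ln15_14_3_ok) (L (nat_lit 464) ln16_14_3 ln16_14_3_ok))))))) (B (M (nat_lit 493) (B (M (nat_lit 396) (B (L (nat_lit 364) ln13_15_7 ln13_15_7_ok) (L (nat_lit 525) ln13_16_7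 ln13_16_7_ok))) (M (nat_lit 365) (B (M (nat_lit 366) (B (L (nat_lit 334) ln13_14_6 ln13_14_6_ok) (L (nat_lit 398) ln13_15_6 ln13_15_6_ok))) (M (nat_lit 492) (B (L (nat_lit 460) ln13_11_5 ln13_11_5_ok) (L (nat_lit 524) ln13_12_5 ln13_12_5_ok))))))) (M (nat_lit 462) (B (M (nat_lit 494) (B (L (nat_lit 365) ln13_11_4 ln13_11_4_ok) (M (nat_lit 526) (B (L (nat_lit 430) ln14_16_7 ln14_16_7_ok) (L (nat_lit 558) ln14_17_7 ln14_17_7_ok))))) (B (M (nat_lit 427) (B (L (nat_lit 426) ln10_13_0 ln10_13_0_ok) (M (nat_lit 463) (B (L (nat_lit 430) ln11_13_0 ln11_13_0_ok) (L (nat_lit 464) ln16_14_3 ln16_14_3_ok))))) (M (nat_lit 427) (B (L (nat_lit 426) ln10_13_0 ln10_13_0_ok) (M (nat_lit 463) (B (L (nat_lit 460) ln15_14_3 ln15_14_3_ok) (L (nat_lit 464) ln16_14_3 ln16_14_3_ok))))))))))))) (B (M (nat_lit 398) (B (M (nat_lit 399) (B (L (nat_lit 400) ln16_12_1 ln16_12_1_ok) (M (nat_lit 427) (B (L (nat_lit 396) ln15_12_1 ln15_12_1_ok)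 (L (nat_lit 426) ln10_13_2 ln10_13_2_ok))))) (B (M (nat_lit 399) (B (L (nat_lit 400) ln16_12_1 ln16_12_1_ok) (M (nat_lit 427) (B (L (nat_lit 426) ln10_13_2 ln10_13_2_ok) (L (nat_lit 430) ln11_13_2 ln11_13_2_ok))))) (B (K (nat_lit 2079502271558954848966401359228282467078457259405502103688818502772463239556962075536296252564221691053095095009516368361510928384) (nat_lit 768857338113641837134852427160423682198683782614868139577568053238745414234500717601094443023919556752772877908084752610680688143327474739454289828178254888960) (nat_lit 768857338113641837134852427160423682198683782614868139577568053238745414234500717601094443023919556752772877908084752610680688143327474739454289828178254888960) c40_s5285) (B (M (nat_lit 399) (B (L (nat_lit 400) ln16_12_1 ln16_12_1_ok) (M (nat_lit 427) (B (L (nat_lit 396) ln15_12_1 ln15_12_1_ok) (L (nat_lit 430) ln11_13_2 ln11_13_2_ok))))) (M (nat_lit 399) (B (L (nat_lit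 400) ln16_12_1 ln16_12_1_ok) (M (nat_lit 396) (B (M (nat_lit 364) (B (L (nat_lit 363) ln15_12_3 ln15_12_3_ok) (M (nat_lit 332) (B (L (nat_lit 300) ln12_9_4 ln12_9_4_ok) (L (nat_lit 461) ln12_10_4 ln12_10_4_ok))))) (M (nat_lit 395) (B (M (nat_lit 367) (B (L (nat_lit 366) ln11_12_2 ln11_12_2_ok) (L (nat_lit 368) ln12_12_2 ln12_12_2_ok))) (M (nat_lit 431) (B (L (nat_lit 430) ln11_12_0 ln11_12_0_ok) (L (nat_lit 432) ln12_12_0 ln12_12_0_ok)))))))))))))) (B (M (nat_lit 461) (B (M (nat_lit 398) (B (M (nat_lit 493) (B (L (nat_lit 366) ln13_15_6 ln13_15_6_ok) (M (nat_lit 396) (B (L (nat_lit 364) ln13_15_7 ln13_15_7_ok) (L (nat_lit 525) ln13_16_7 ln13_16_7_ok))))) (B (M (nat_lit 493) (B (L (nat_lit 366) ln13_15_6 ln13_15_6_ok) (M (nat_lit 525) (B (L (nat_lit 396) ln13_16_7 ln13_16_7_ok) (L (nat_lit 430) ln13_16_6 ln13_16_6_ok))))) (B (M (nat_lit 399) (B (L (nat_lit 400) ln16_12_1 ln16_12_1_ok) (M (nat_lit 427)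 (B (L (nat_lit 396) ln15_12_1 ln15_12_1_ok) (L (nat_lit 430) ln11_13_2 ln11_13_2_ok))))) (M (nat_lit 366) (B (L (nat_lit 493) ln13_15_6 ln13_15_6_ok) (M (nat_lit 334) (B (L (nat_lit 365) ln13_14_6 ln13_14_6_ok) (L (nat_lit 430) ln14_10_5 ln14_10_5_ok))))))))) (B (M (nat_lit 398) (B (M (nat_lit 399) (B (L (nat_lit 400) ln16_12_1 ln16_12_1_ok) (M (nat_lit 427) (B (L (nat_lit 396) ln15_12_1 ln15_12_1_ok) (L (nat_lit 430) ln11_13_2 ln11_13_2_ok))))) (B (M (nat_lit 430) (B (M (nat_lit 399) (B (L (nat_lit 400) ln16_12_1 ln16_12_1_ok) (L (nat_lit 427) ln11_13_2 ln11_13_2_ok))) (M (nat_lit 493) (B (L (nat_lit 366) ln13_15_6 ln13_15_6_ok) (L (nat_lit 525) ln13_16_6 ln13_16_6_ok))))) (M (nat_lit 493) (B (L (nat_lit 366) ln13_15_6 ln13_15_6_ok) (M (nat_lit 396) (B (L (nat_lit 364) ln13_15_7 ln13_15_7_ok) (L (nat_lit 525) ln13_16_7 ln13_16_7_ok)))))))) (B (M (nat_lit 398) (B (M (nat_lit 493) (B (L (nat_lit 366) ln13_15_6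 ln13_15_6_ok) (M (nat_lit 525) (B (L (nat_lit 396) ln13_16_7 ln13_16_7_ok) (L (nat_lit 430) ln13_16_6 ln13_16_6_ok))))) (B (M (nat_lit 399) (B (L (nat_lit 400) ln16_12_1 ln16_12_1_ok) (M (nat_lit 427) (B (L (nat_lit 396) ln15_12_1 ln15_12_1_ok) (L (nat_lit 430) ln11_13_2 ln11_13_2_ok))))) (B (M (nat_lit 366) (B (L (nat_lit 493) ln13_15_6 ln13_15_6_ok) (M (nat_lit 334) (B (L (nat_lit 365) ln13_14_6 ln13_14_6_ok) (L (nat_lit 430) ln14_10_5 ln14_10_5_ok))))) (M (nat_lit 396) (B (M (nat_lit 399) (B (L (nat_lit 427) ln15_12_1 ln15_12_1_ok) (L (nat_lit 400) ln16_12_1 ln16_12_1_ok))) (M (nat_lit 493) (B (L (nat_lit 366) ln13_15_6 ln13_15_6_ok) (L (nat_lit 525) ln13_16_7 ln13_16_7_ok))))))))) (B (M (nat_lit 462) (B (M (nat_lit 463) (B (L (nat_lit 464) ln16_14_3 ln16_14_3_ok) (M (nat_lit 427) (B (L (nat_lit 430) ln11_13_0 ln11_13_0_ok) (L (nat_lit 460) ln15_14_3 ln15_14_3_ok))))) (B (M (nat_lit 365) (B (L (nat_lit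 494) ln13_11_4 ln13_11_4_ok) (M (nat_lit 460) (B (L (nat_lit 333) ln13_10_5 ln13_10_5_ok) (L (nat_lit 492) ln13_11_5 ln13_11_5_ok))))) (M (nat_lit 494) (B (L (nat_lit 365) ln13_11_4 ln13_11_4_ok) (M (nat_lit 526) (B (L (nat_lit 430) ln14_16_7 ln14_16_7_ok) (L (nat_lit 558) ln14_17_7 ln14_17_7_ok)))))))) (M (nat_lit 365) (B (M (nat_lit 460) (B (L (nat_lit 333) ln13_10_5 ln13_10_5_ok) (L (nat_lit 492) ln13_11_5 ln13_11_5_ok))) (M (nat_lit 493) (B (M (nat_lit 364) (B (L (nat_lit 332) ln13_14_7 ln13_14_7_ok) (L (nat_lit 396) ln13_15_7 ln13_15_7_ok))) (M (nat_lit 494) (B (L (nat_lit 462) ln13_11_4 ln13_11_4_ok) (L (nat_lit 526) ln13_12_4 ln13_12_4_ok)))))))))))) (B (M (nat_lit 365) (B (M (nat_lit 460) (B (L (nat_lit 333) ln13_10_5 ln13_10_5_ok) (M (nat_lit 492) (B (L (nat_lit 396) ln12_15_6 ln12_15_6_ok) (L (nat_lit 524) ln12_16_6 ln12_16_6_ok))))) (B (M (nat_lit 461) (B (M (nat_lit 364) (B (L (nat_lit 332)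 ln13_14_7 ln13_14_7_ok) (M (nat_lit 493) (B (L (nat_lit 396) ln13_15_7 ln13_15_7_ok) (M (nat_lit 366) (B (L (nat_lit 334) ln13_14_6 ln13_14_6_ok) (L (nat_lit 398) ln13_15_6 ln13_15_6_ok))))))) (B (M (nat_lit 493) (B (M (nat_lit 366) (B (L (nat_lit 334) ln13_14_6 ln13_14_6_ok) (L (nat_lit 398) ln13_15_6 ln13_15_6_ok))) (M (nat_lit 494) (B (L (nat_lit 462) ln13_11_4 ln13_11_4_ok) (L (nat_lit 526) ln13_12_4 ln13_12_4_ok))))) (B (M (nat_lit 493) (B (M (nat_lit 364) (B (L (nat_lit 332) ln13_14_7 ln13_14_7_ok) (L (nat_lit 396) ln13_15_7 ln13_15_7_ok))) (M (nat_lit 494) (B (L (nat_lit 462) ln13_11_4 ln13_11_4_ok) (L (nat_lit 526) ln13_12_4 ln13_12_4_ok))))) (M (nat_lit 396) (B (M (nat_lit 364) (B (L (nat_lit 332) ln13_14_7 ln13_14_7_ok) (M (nat_lit 366) (B (L (nat_lit 334) ln13_14_6 ln13_14_6_ok) (M (nat_lit 367) (B (L (nat_lit 395) ln15_11_1 ln15_11_1_ok) (L (nat_lit 368) ln16_11_1 ln16_11_1_ok))))))) (B (M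 (nat_lit 366) (B (L (nat_lit 334) ln13_14_6 ln13_14_6_ok) (M (nat_lit 395) (B (L (nat_lit 394) ln10_12_2 ln10_12_2_ok) (M (nat_lit 367) (B (L (nat_lit 368) ln16_11_1 ln16_11_1_ok) (L (nat_lit 398) ln11_12_2 ln11_12_2_ok))))))) (M (nat_lit 364) (B (L (nat_lit 332) ln13_14_7 ln13_14_7_ok) (M (nat_lit 363) (B (M (nat_lit 460) (B (L (nat_lit 331) ln12_14_7 ln12_14_7_ok) (L (nat_lit 492) ln12_15_6 ln12_15_6_ok))) (M (nat_lit 362) (B (L (nat_lit 361) ln9_11_0 ln9_11_0_ok) (L (nat_lit 398) ln10_11_0 ln10_11_0_ok)))))))))))))) (B (M (nat_lit 460) (B (L (nat_lit 333) ln13_10_5 ln13_10_5_ok) (M (nat_lit 492) (B (L (nat_lit 461) ln13_11_5 ln13_11_5_ok) (L (nat_lit 524) ln12_16_6 ln12_16_6_ok))))) (M (nat_lit 333) (B (M (nat_lit 301) (B (L (nat_lit 396) ln13_9_5 ln13_9_5_ok) (M (nat_lit 302) (B (L (nat_lit 270) ln13_12_6 ln13_12_6_ok) (L (nat_lit 334) ln13_13_6 ln13_13_6_ok))))) (B (M (nat_lit 301) (B (L (nat_lit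 396) ln13_9_5 ln13_9_5_ok) (M (nat_lit 430) (B (L (nat_lit 398) ln13_9_4 ln13_9_4_ok) (L (nat_lit 462) ln13_10_4 ln13_10_4_ok))))) (M (nat_lit 461) (B (M (nat_lit 334) (B (L (nat_lit 302) ln13_13_6 ln13_13_6_ok) (L (nat_lit 366) ln13_14_6 ln13_14_6_ok))) (M (nat_lit 462) (B (L (nat_lit 430) ln13_10_4 ln13_10_4_ok) (L (nat_lit 494) ln13_11_4 ln13_11_4_ok)))))))))))) (B (M (nat_lit 365) (B (M (nat_lit 460) (B (L (nat_lit 333) ln13_10_5 ln13_10_5_ok) (M (nat_lit 492) (B (L (nat_lit 461) ln13_11_5 ln13_11_5_ok) (L (nat_lit 524) ln12_16_6 ln12_16_6_ok))))) (B (M (nat_lit 460) (B (M (nat_lit 492) (B (L (nat_lit 396) ln12_15_6 ln12_15_6_ok) (L (nat_lit 461) ln13_11_5 ln13_11_5_ok))) (B (M (nat_lit 492) (B (L (nat_lit 461) ln13_11_5 ln13_11_5_ok) (L (nat_lit 524) ln12_16_6 ln12_16_6_ok))) (B (M (nat_lit 492) (B (L (nat_lit 396) ln12_15_6 ln12_15_6_ok) (L (nat_lit 524) ln12_16_6 ln12_16_6_ok))) (M (nat_lit 461)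 (B (M (nat_lit 462) (B (L (nat_lit 494) ln13_11_4 ln13_11_4_ok) (M (nat_lit 463) (B (L (nat_lit 427) ln15_14_3 ln15_14_3_ok) (L (nat_lit 464) ln16_14_3 ln16_14_3_ok))))) (M (nat_lit 493) (B (M (nat_lit 366) (B (L (nat_lit 334) ln13_14_6 ln13_14_6_ok) (L (nat_lit 398) ln13_15_6 ln13_15_6_ok))) (M (nat_lit 525) (B (L (nat_lit 396) ln13_16_7 ln13_16_7_ok) (L (nat_lit 557) ln13_17_7 ln13_17_7_ok))))))))))) (B (M (nat_lit 461) (B (M (nat_lit 364) (B (L (nat_lit 332) ln13_14_7 ln13_14_7_ok) (M (nat_lit 493) (B (L (nat_lit 396) ln13_15_7 ln13_15_7_ok) (M (nat_lit 366) (B (L (nat_lit 334) ln13_14_6 ln13_14_6_ok) (L (nat_lit 398) ln13_15_6 ln13_15_6_ok))))))) (B (M (nat_lit 493) (B (M (nat_lit 366) (B (L (nat_lit 334) ln13_14_6 ln13_14_6_ok) (L (nat_lit 398) ln13_15_6 ln13_15_6_ok))) (M (nat_lit 494) (B (L (nat_lit 462) ln13_11_4 ln13_11_4_ok) (L (nat_lit 526) ln13_12_4 ln13_12_4_ok))))) (B (M (nat_lit 493) (B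 (M (nat_lit 364) (B (L (nat_lit 332) ln13_14_7 ln13_14_7_ok) (L (nat_lit 396) ln13_15_7 ln13_15_7_ok))) (M (nat_lit 494) (B (L (nat_lit 462) ln13_11_4 ln13_11_4_ok) (L (nat_lit 526) ln13_12_4 ln13_12_4_ok))))) (M (nat_lit 333) (B (M (nat_lit 332) (B (L (nat_lit 300) ln13_13_7 ln13_13_7_ok) (L (nat_lit 364) ln13_14_7 ln13_14_7_ok))) (M (nat_lit 334) (B (L (nat_lit 302) ln13_13_6 ln13_13_6_ok) (L (nat_lit 366) ln13_14_6 ln13_14_6_ok))))))))) (M (nat_lit 460) (B (L (nat_lit 333) ln13_10_5 ln13_10_5_ok) (M (nat_lit 492) (B (L (nat_lit 396) ln12_15_6 ln12_15_6_ok) (L (nat_lit 524) ln12_16_6 ln12_16_6_ok))))))))) (B (M (nat_lit 427) (B (M (nat_lit 398) (B (L (nat_lit 426) ln10_13_2 ln10_13_2_ok) (M (nat_lit 399) (B (L (nat_lit 396) ln15_12_1 ln15_12_1_ok) (L (nat_lit 400) ln16_12_1 ln16_12_1_ok))))) (B (M (nat_lit 398) (B (L (nat_lit 426) ln10_13_2 ln10_13_2_ok) (M (nat_lit 399) (B (L (nat_lit 400) ln16_12_1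 ln16_12_1_ok) (L (nat_lit 430) ln11_13_2 ln11_13_2_ok))))) (B (M (nat_lit 430) (B (M (nat_lit 431) (B (M (nat_lit 395) (B (L (nat_lit 394) ln14_13_3 ln14_13_3_ok) (L (nat_lit 396) ln15_13_3 ln15_13_3_ok))) (M (nat_lit 463) (B (L (nat_lit 462) ln11_13_0 ln11_13_0_ok) (L (nat_lit 464) ln12_13_0 ln12_13_0_ok))))) (B (M (nat_lit 431) (B (M (nat_lit 396) (B (L (nat_lit 395) ln15_13_3 ln15_13_3_ok) (L (nat_lit 432) ln16_13_3 ln16_13_3_ok))) (M (nat_lit 463) (B (L (nat_lit 462) ln11_13_0 ln11_13_0_ok) (L (nat_lit 464) ln12_13_0 ln12_13_0_ok))))) (B (M (nat_lit 462) (B (L (nat_lit 463) ln11_13_0 ln11_13_0_ok) (M (nat_lit 461) (B (L (nat_lit 426) ln10_13_0 ln10_13_0_ok) (M (nat_lit 365) (B (L (nat_lit 333) ln13_10_4 ln13_10_4_ok) (L (nat_lit 494) ln13_11_4 ln13_11_4_ok))))))) (M (nat_lit 426) (B (M (nat_lit 394) (B (L (nat_lit 393) ln13_13_3 ln13_13_3_ok) (L (nat_lit 395) ln14_13_3 ln14_13_3_ok))) (B (M (nat_lit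 396) (B (L (nat_lit 425) ln9_13_2 ln9_13_2_ok) (M (nat_lit 395) (B (L (nat_lit 394) ln10_12_0 ln10_12_0_ok) (L (nat_lit 431) ln15_13_3 ln15_13_3_ok))))) (B (M (nat_lit 396) (B (L (nat_lit 425) ln9_13_2 ln9_13_2_ok) (M (nat_lit 431) (B (L (nat_lit 395) ln15_13_3 ln15_13_3_ok) (L (nat_lit 432) ln16_13_3 ln16_13_3_ok))))) (M (nat_lit 393) (B (L (nat_lit 394) ln13_13_3 ln13_13_3_ok) (M (nat_lit 425) (B (L (nat_lit 392) ln12_13_3 ln12_13_3_ok) (L (nat_lit 396) ln9_13_2 ln9_13_2_ok))))))))))))) (M (nat_lit 430) (B (M (nat_lit 398) (B (L (nat_lit 399) ln11_13_2 ln11_13_2_ok) (M (nat_lit 462) (B (L (nat_lit 463) ln11_13_0 ln11_13_0_ok) (M (nat_lit 494) (B (L (nat_lit 365) ln14_15_7 ln14_15_7_ok) (L (nat_lit 526) ln14_16_7 ln14_16_7_ok))))))) (B (M (nat_lit 431) (B (M (nat_lit 395) (B (L (nat_lit 394) ln14_13_3 ln14_13_3_ok) (L (nat_lit 396) ln15_13_3 ln15_13_3_ok))) (M (nat_lit 399) (B (L (nat_lit 398) ln11_13_2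 ln11_13_2_ok) (L (nat_lit 400) ln12_13_2 ln12_13_2_ok))))) (M (nat_lit 462) (B (L (nat_lit 463) ln11_13_0 ln11_13_0_ok) (M (nat_lit 365) (B (L (nat_lit 333) ln13_10_4 ln13_10_4_ok) (M (nat_lit 494) (B (L (nat_lit 461) ln13_11_4 ln13_11_4_ok) (L (nat_lit 526) ln14_16_7 ln14_16_7_ok)))))))))))))) (B (K (nat_lit 2079502270913392379444674211814302674077704290823075655481512624564798400421800170032085953906810352733060637150540575368324055040) (nat_lit 219673525290406377868251796224743590921065286808991976136350266307201691843159845687739275297739507206573235908790433294418508625391909097623345106089794338816) (nat_lit 219673525290406377868251796224743590921065286808991976136350266307201691843159845687739275297739507206573235908790433294418508625391909097623345106089794338816) c40_s5542) (K (nat_lit 2079502270913392379444674211814302674077704290823075655481512624564798400421800170032085953906810352733060637150540575368324055040)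 (nat_lit 164755143881494679354779925981330130804491142682825737261983153093474678550044683778572762222242867281939537675759300771163740621611188758979164260854497542144) (nat_lit 164755143881494679354779925981330130804491142682825737261983153093474678550044683778572762222242867281939537675759300771163740621611188758979164260854497542144) c40_s5701))))))))))) (nat_lit 2079502270590611144683810638107312777577327806531862431377859685460965980854219217279980804578104683573043408221052678871730618368) (nat_lit 1415235910131853726498056364787402771826745953779050489572718649987435594235862578981620296515968424491890327827492340141940608129725821541199264519138552646085516460032) (nat_lit 1415235910131853726498056364787402771826745953779050489572718649987435594235862578981620296515968424491890327827492340141940608129725821541199264519138552646085516460032) (by decide +kernel)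
theorem c40_s5796 : Sem (nat_lit 4852171964711426004412531547547921807598691640102196576300382949205719760385111462498016588289579202052111355079081447694748614656) (nat_lit 549183812989462326252454470171811748170609573325592942405998644062729101681211498929321362949858916575181930350589698430449258175340003373040386493376901414912) (nat_lit 549183812989462326252454470171811748170609573325592942405998644062729101681211498929321362949858916575181930350589698430449258175340003373040386493376901414912) :=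
  sem_of_chk (M (nat_lit 398) (B (M (nat_lit 462) (B (M (nat_lit 461) (B (L (nat_lit 493) ln14_11_5 ln14_11_5_ok) (M (nat_lit 463) (B (L (nat_lit 495) ln14_11_4 ln14_11_4_ok) (L (nat_lit 464) ln16_14_3 ln16_14_3_ok))))) (B (M (nat_lit 463) (B (L (nat_lit 495) ln14_11_4 ln14_11_4_ok) (M (nat_lit 464) (B (L (nat_lit 431) ln12_13_0 ln12_13_0_ok) (L (nat_lit 465) ln17_14_3 ln17_14_3_ok))))) (M (nat_lit 494) (B (M (nat_lit 367) (B (L (nat_lit 335) ln14_14_6 ln14_14_6_ok) (L (nat_lit 399) ln14_15_6 ln14_15_6_ok))) (M (nat_lit 493) (B (L (nat_lit 461) ln14_11_5 ln14_11_5_ok) (L (nat_lit 525) ln14_12_5 ln14_12_5_ok)))))))) (B (M (nat_lit 462) (B (M (nat_lit 463) (B (L (nat_lit 495) ln14_11_4 ln14_11_4_ok) (M (nat_lit 464) (B (L (nat_lit 431) ln12_13_0 ln12_13_0_ok) (L (nat_lit 465) ln17_14_3 ln17_14_3_ok))))) (B (M (nat_lit 461) (B (L (nat_lit 493) ln14_11_5 ln14_11_5_ok) (M (nat_lit 463) (B (L (nat_lit 495)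 ln14_11_4 ln14_11_4_ok) (L (nat_lit 464) ln16_14_3 ln16_14_3_ok))))) (M (nat_lit 494) (B (M (nat_lit 365) (B (L (nat_lit 333) ln14_14_7 ln14_14_7_ok) (L (nat_lit 397) ln14_15_7 ln14_15_7_ok))) (M (nat_lit 493) (B (L (nat_lit 461) ln14_11_5 ln14_11_5_ok) (L (nat_lit 525) ln14_12_5 ln14_12_5_ok)))))))) (B (M (nat_lit 462) (B (M (nat_lit 461) (B (L (nat_lit 493) ln14_11_5 ln14_11_5_ok) (M (nat_lit 463) (B (L (nat_lit 495) ln14_11_4 ln14_11_4_ok) (L (nat_lit 464) ln16_14_3 ln16_14_3_ok))))) (B (M (nat_lit 494) (B (M (nat_lit 365) (B (L (nat_lit 333) ln14_14_7 ln14_14_7_ok) (L (nat_lit 397) ln14_15_7 ln14_15_7_ok))) (M (nat_lit 495) (B (L (nat_lit 463) ln14_11_4 ln14_11_4_ok) (L (nat_lit 527) ln14_12_4 ln14_12_4_ok))))) (M (nat_lit 494) (B (M (nat_lit 365) (B (L (nat_lit 333) ln14_14_7 ln14_14_7_ok) (L (nat_lit 397) ln14_15_7 ln14_15_7_ok))) (M (nat_lit 493) (B (L (nat_lit 461) ln14_11_5 ln14_11_5_ok) (L (nat_lit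 525) ln14_12_5 ln14_12_5_ok)))))))) (B (M (nat_lit 462) (B (M (nat_lit 463) (B (L (nat_lit 495) ln14_11_4 ln14_11_4_ok) (M (nat_lit 464) (B (L (nat_lit 431) ln12_13_0 ln12_13_0_ok) (L (nat_lit 465) ln17_14_3 ln17_14_3_ok))))) (M (nat_lit 365) (B (L (nat_lit 333) ln14_14_7 ln14_14_7_ok) (M (nat_lit 494) (B (L (nat_lit 397) ln14_15_7 ln14_15_7_ok) (M (nat_lit 367) (B (L (nat_lit 335) ln14_14_6 ln14_14_6_ok) (L (nat_lit 399) ln14_15_6 ln14_15_6_ok))))))))) (B (M (nat_lit 431) (B (M (nat_lit 463) (B (L (nat_lit 464) ln12_13_0 ln12_13_0_ok) (M (nat_lit 399) (B (L (nat_lit 495) ln15_15_7 ln15_15_7_ok) (L (nat_lit 400) ln12_13_2 ln12_13_2_ok))))) (B (M (nat_lit 432) (B (M (nat_lit 396) (B (L (nat_lit 395) ln15_13_3 ln15_13_3_ok) (L (nat_lit 397) ln16_13_3 ln16_13_3_ok))) (M (nat_lit 464) (B (L (nat_lit 463) ln12_13_0 ln12_13_0_ok) (L (nat_lit 465) ln13_13_0 ln13_13_0_ok))))) (M (nat_lit 432) (B (M (nat_lit 396)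 (B (L (nat_lit 395) ln15_13_3 ln15_13_3_ok) (L (nat_lit 397) ln16_13_3 ln16_13_3_ok))) (M (nat_lit 400) (B (L (nat_lit 399) ln12_13_2 ln12_13_2_ok) (L (nat_lit 401) ln13_13_2 ln13_13_2_ok)))))))) (M (nat_lit 397) (B (M (nat_lit 396) (B (M (nat_lit 395) (B (L (nat_lit 367) ln11_12_2 ln11_12_2_ok) (L (nat_lit 394) ln10_12_0 ln10_12_0_ok))) (M (nat_lit 364) (B (M (nat_lit 332) (B (L (nat_lit 300) ln12_9_4 ln12_9_4_ok) (L (nat_lit 461) ln12_10_4 ln12_10_4_ok))) (M (nat_lit 399) (B (L (nat_lit 363) ln15_12_3 ln15_12_3_ok) (L (nat_lit 400) ln16_12_1 ln16_12_1_ok))))))) (B (M (nat_lit 396) (B (M (nat_lit 395) (B (L (nat_lit 367) ln11_12_2 ln11_12_2_ok) (L (nat_lit 394) ln10_12_0 ln10_12_0_ok))) (M (nat_lit 364) (B (M (nat_lit 461) (B (L (nat_lit 332) ln12_10_4 ln12_10_4_ok) (L (nat_lit 493) ln13_15_7 ln13_15_7_ok))) (M (nat_lit 399) (B (L (nat_lit 363) ln15_12_3 ln15_12_3_ok) (L (nat_lit 400) ln16_12_1 ln16_12_1_ok)))))))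 (B (M (nat_lit 399) (B (L (nat_lit 400) ln16_12_1 ln16_12_1_ok) (M (nat_lit 367) (B (M (nat_lit 335) (B (L (nat_lit 303) ln15_9_5 ln15_9_5_ok) (L (nat_lit 462) ln14_14_6 ln14_14_6_ok))) (M (nat_lit 396) (B (L (nat_lit 395) ln11_12_2 ln11_12_2_ok) (L (nat_lit 368) ln12_12_2 ln12_12_2_ok))))))) (B (M (nat_lit 365) (B (M (nat_lit 462) (B (L (nat_lit 333) ln14_14_7 ln14_14_7_ok) (L (nat_lit 494) ln14_15_7 ln14_15_7_ok))) (M (nat_lit 364) (B (M (nat_lit 461) (B (L (nat_lit 332) ln13_14_7 ln13_14_7_ok) (L (nat_lit 493) ln13_15_6 ln13_15_6_ok))) (M (nat_lit 399) (B (L (nat_lit 363) ln11_11_0 ln11_11_0_ok) (L (nat_lit 400) ln16_12_3 ln16_12_3_ok))))))) (M (nat_lit 365) (B (M (nat_lit 333) (B (L (nat_lit 301) ln13_9_4 ln13_9_4_ok) (L (nat_lit 462) ln14_14_7 ln14_14_7_ok))) (B (M (nat_lit 462) (B (L (nat_lit 333) ln14_14_7 ln14_14_7_ok) (L (nat_lit 494) ln14_15_7 ln14_15_7_ok))) (B (M (nat_lit 367) (B (M (nat_lit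 462) (B (L (nat_lit 335) ln14_14_6 ln14_14_6_ok) (L (nat_lit 494) ln14_15_7 ln14_15_7_ok))) (M (nat_lit 396) (B (L (nat_lit 368) ln16_11_1 ln16_11_1_ok) (L (nat_lit 395) ln11_12_2 ln11_12_2_ok))))) (M (nat_lit 332) (B (M (nat_lit 333) (B (L (nat_lit 300) ln13_13_7 ln13_13_7_ok) (L (nat_lit 301) ln13_9_4 ln13_9_4_ok))) (M (nat_lit 461) (B (L (nat_lit 364) ln13_14_7 ln13_14_7_ok) (L (nat_lit 493) ln13_15_6 ln13_15_6_ok)))))))))))))))))))) (nat_lit 4852171964711426004412531547547921807598691640102196576300382949205719760385111462498016588289579202052111355079081447694748614656) (nat_lit 549183812989462326252454470171811748170609573325592942405998644062729101681211498929321362949858916575181930350589698430449258175340003373040386493376901414912) (nat_lit 549183812989462326252454470171811748170609573325592942405998644062729101681211498929321362949858916575181930350589698430449258175340003373040386493376901414912)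 (by decide +kernel)
noncomputable def c40_n5992 : Cert := (M (nat_lit 396) (B (M (nat_lit 395) (B (L (nat_lit 431) ln15_13_3 ln15_13_3_ok) (M (nat_lit 394) (B (L (nat_lit 393) ln9_12_0 ln9_12_0_ok) (L (nat_lit 397) ln10_12_0 ln10_12_0_ok))))) (B (M (nat_lit 461) (B (M (nat_lit 398) (B (L (nat_lit 334) ln14_10_5 ln14_10_5_ok) (M (nat_lit 493) (B (L (nat_lit 397) ln13_15_6 ln13_15_6_ok) (L (nat_lit 525) ln13_16_7 ln13_16_7_ok))))) (B (M (nat_lit 493) (B (L (nat_lit 525) ln13_16_7 ln13_16_7_ok) (M (nat_lit 364) (B (L (nat_lit 332) ln12_10_4 ln12_10_4_ok) (L (nat_lit 397) ln13_15_7 ln13_15_7_ok))))) (B (M (nat_lit 493) (B (L (nat_lit 525) ln13_16_7 ln13_16_7_ok) (M (nat_lit 398) (B (L (nat_lit 334) ln14_10_5 ln14_10_5_ok) (L (nat_lit 462) ln14_11_5 ln14_11_5_ok))))) (M (nat_lit 397) (B (M (nat_lit 334) (B (L (nat_lit 365) ln13_14_6 ln13_14_6_ok) (L (nat_lit 398) ln14_10_5 ln14_10_5_ok))) (M (nat_lit 395)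 (B (L (nat_lit 394) ln10_12_0 ln10_12_0_ok) (L (nat_lit 431) ln15_13_3 ln15_13_3_ok))))))))) (B (M (nat_lit 395) (B (L (nat_lit 431) ln15_13_3 ln15_13_3_ok) (M (nat_lit 461) (B (M (nat_lit 398) (B (L (nat_lit 334) ln14_10_5 ln14_10_5_ok) (M (nat_lit 493) (B (L (nat_lit 462) ln14_11_5 ln14_11_5_ok) (L (nat_lit 525) ln13_16_7 ln13_16_7_ok))))) (B (M (nat_lit 493) (B (L (nat_lit 525) ln13_16_7 ln13_16_7_ok) (M (nat_lit 364) (B (L (nat_lit 332) ln12_10_4 ln12_10_4_ok) (L (nat_lit 397) ln13_15_7 ln13_15_7_ok))))) (M (nat_lit 365) (B (M (nat_lit 334) (B (L (nat_lit 397) ln13_14_6 ln13_14_6_ok) (L (nat_lit 398) ln14_10_5 ln14_10_5_ok))) (M (nat_lit 364) (B (L (nat_lit 332) ln12_10_4 ln12_10_4_ok) (L (nat_lit 367) ln15_11_1 ln15_11_1_ok)))))))))) (B (M (nat_lit 398) (B (M (nat_lit 461) (B (L (nat_lit 334) ln14_10_5 ln14_10_5_ok) (M (nat_lit 493) (B (L (nat_lit 397) ln13_15_6 ln13_15_6_ok) (L (nat_lit 462) ln14_11_5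 ln14_11_5_ok))))) (B (M (nat_lit 364) (B (M (nat_lit 461) (B (L (nat_lit 332) ln12_10_4 ln12_10_4_ok) (M (nat_lit 493) (B (L (nat_lit 462) ln14_11_5 ln14_11_5_ok) (L (nat_lit 525) ln13_16_7 ln13_16_7_ok))))) (M (nat_lit 399) (B (M (nat_lit 363) (B (L (nat_lit 365) ln11_11_0 ln11_11_0_ok) (L (nat_lit 397) ln15_12_3 ln15_12_3_ok))) (B (M (nat_lit 400) (B (L (nat_lit 397) ln16_12_1 ln16_12_1_ok) (L (nat_lit 401) ln17_12_1 ln17_12_1_ok))) (M (nat_lit 400) (B (L (nat_lit 401) ln17_12_1 ln17_12_1_ok) (L (nat_lit 431) ln12_13_2 ln12_13_2_ok)))))))) (B (M (nat_lit 461) (B (L (nat_lit 334) ln14_10_5 ln14_10_5_ok) (M (nat_lit 493) (B (L (nat_lit 462) ln14_11_5 ln14_11_5_ok) (L (nat_lit 525) ln13_16_7 ln13_16_7_ok))))) (B (M (nat_lit 334) (B (M (nat_lit 302) (B (L (nat_lit 397) ln14_9_5 ln14_9_5_ok) (M (nat_lit 303) (B (L (nat_lit 271) ln14_12_6 ln14_12_6_ok) (L (nat_lit 335) ln14_13_6 ln14_13_6_ok))))) (B (M (nat_lit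 302) (B (L (nat_lit 397) ln14_9_5 ln14_9_5_ok) (M (nat_lit 301) (B (L (nat_lit 269) ln14_12_7 ln14_12_7_ok) (L (nat_lit 333) ln14_13_7 ln14_13_7_ok))))) (M (nat_lit 462) (B (M (nat_lit 333) (B (L (nat_lit 301) ln14_13_7 ln14_13_7_ok) (L (nat_lit 365) ln14_14_7 ln14_14_7_ok))) (M (nat_lit 335) (B (L (nat_lit 303) ln14_13_6 ln14_13_6_ok) (L (nat_lit 367) ln14_14_6 ln14_14_6_ok)))))))) (M (nat_lit 461) (B (L (nat_lit 334) ln14_10_5 ln14_10_5_ok) (M (nat_lit 493) (B (L (nat_lit 397) ln13_15_6 ln13_15_6_ok) (L (nat_lit 525) ln13_16_7 ln13_16_7_ok)))))))))) (B (M (nat_lit 364) (B (M (nat_lit 461) (B (L (nat_lit 332) ln12_10_4 ln12_10_4_ok) (M (nat_lit 493) (B (L (nat_lit 525) ln13_16_7 ln13_16_7_ok) (M (nat_lit 398) (B (L (nat_lit 334) ln14_10_5 ln14_10_5_ok) (L (nat_lit 462) ln14_11_5 ln14_11_5_ok))))))) (M (nat_lit 395) (B (L (nat_lit 431) ln15_13_3 ln15_13_3_ok) (M (nat_lit 394) (B (L (nat_lit 393) ln9_12_0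 ln9_12_0_ok) (M (nat_lit 365) (B (L (nat_lit 363) ln14_11_1 ln14_11_1_ok) (L (nat_lit 367) ln15_11_1 ln15_11_1_ok))))))))) (M (nat_lit 397) (B (M (nat_lit 395) (B (L (nat_lit 394) ln10_12_0 ln10_12_0_ok) (M (nat_lit 398) (B (L (nat_lit 367) ln11_12_2 ln11_12_2_ok) (M (nat_lit 334) (B (L (nat_lit 302) ln14_9_5 ln14_9_5_ok) (L (nat_lit 461) ln14_10_5 ln14_10_5_ok))))))) (B (M (nat_lit 461) (B (M (nat_lit 334) (B (L (nat_lit 365) ln13_14_6 ln13_14_6_ok) (L (nat_lit 398) ln14_10_5 ln14_10_5_ok))) (B (M (nat_lit 493) (B (L (nat_lit 398) ln13_15_6 ln13_15_6_ok) (L (nat_lit 525) ln13_16_7 ln13_16_7_ok))) (M (nat_lit 493) (B (L (nat_lit 364) ln13_15_7 ln13_15_7_ok) (L (nat_lit 525) ln13_16_7 ln13_16_7_ok)))))) (B (M (nat_lit 395) (B (L (nat_lit 394) ln10_12_0 ln10_12_0_ok) (M (nat_lit 367) (B (L (nat_lit 398) ln11_12_2 ln11_12_2_ok) (M (nat_lit 365) (B (L (nat_lit 364) ln15_11_1 ln15_11_1_ok) (L (nat_lit 368)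 ln16_11_1 ln16_11_1_ok))))))) (M (nat_lit 395) (B (L (nat_lit 394) ln10_12_0 ln10_12_0_ok) (M (nat_lit 365) (B (M (nat_lit 333) (B (L (nat_lit 301) ln13_9_5 ln13_9_5_ok) (L (nat_lit 462) ln13_10_4 ln13_10_4_ok))) (M (nat_lit 367) (B (L (nat_lit 364) ln15_11_1 ln15_11_1_ok) (L (nat_lit 368) ln16_11_1 ln16_11_1_ok)))))))))))))))))
theorem c40_s5993 : Sem (nat_lit 4852171964711426004262224822250396481013764881907679006548339266075587288659844840319955210682244261670434619182456250700704776192) (nat_lit 768857338113641837131875295742416331123251676757501576205310682963387360173099251817455909638813422023488105876105299850354549283322777510359067268664818401280) (nat_lit 768857338113641837131875295742416331123251676757501576205310682963387360173099251817455909638813422023488105876105299850354549283322777510359067268664818401280) :=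
  sem_of_chk (M (nat_lit 366) (B (M (nat_lit 398) (B (M (nat_lit 461) (B (L (nat_lit 334) ln14_10_5 ln14_10_5_ok) (M (nat_lit 493) (B (L (nat_lit 462) ln14_11_5 ln14_11_5_ok) (L (nat_lit 525) ln13_16_6 ln13_16_6_ok))))) (B (M (nat_lit 462) (B (M (nat_lit 461) (B (L (nat_lit 493) ln14_11_5 ln14_11_5_ok) (M (nat_lit 463) (B (L (nat_lit 495) ln14_11_4 ln14_11_4_ok) (L (nat_lit 464) ln16_14_3 ln16_14_3_ok))))) (B (M (nat_lit 494) (B (M (nat_lit 365) (B (L (nat_lit 333) ln14_14_7 ln14_14_7_ok) (L (nat_lit 397) ln14_15_7 ln14_15_7_ok))) (M (nat_lit 495) (B (L (nat_lit 463) ln14_11_4 ln14_11_4_ok) (L (nat_lit 527) ln14_12_4 ln14_12_4_ok))))) (M (nat_lit 494) (B (M (nat_lit 365) (B (L (nat_lit 333) ln14_14_7 ln14_14_7_ok) (L (nat_lit 397) ln14_15_7 ln14_15_7_ok))) (M (nat_lit 493) (B (L (nat_lit 461) ln14_11_5 ln14_11_5_ok) (L (nat_lit 525) ln14_12_5 ln14_12_5_ok)))))))) (B (M (nat_lit 462) (B (M (nat_lit 463)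 (B (L (nat_lit 495) ln14_11_4 ln14_11_4_ok) (M (nat_lit 431) (B (L (nat_lit 334) ln14_10_4 ln14_10_4_ok) (L (nat_lit 464) ln12_13_0 ln12_13_0_ok))))) (M (nat_lit 365) (B (L (nat_lit 333) ln14_14_7 ln14_14_7_ok) (M (nat_lit 494) (B (L (nat_lit 397) ln14_15_7 ln14_15_7_ok) (M (nat_lit 367) (B (L (nat_lit 335) ln14_14_6 ln14_14_6_ok) (L (nat_lit 399) ln14_15_6 ln14_15_6_ok))))))))) (M (nat_lit 461) (B (L (nat_lit 334) ln14_10_5 ln14_10_5_ok) (M (nat_lit 493) (B (L (nat_lit 397) ln13_15_6 ln13_15_6_ok) (L (nat_lit 525) ln13_16_6 ln13_16_6_ok))))))))) (B (M (nat_lit 398) (B (M (nat_lit 461) (B (L (nat_lit 334) ln14_10_5 ln14_10_5_ok) (M (nat_lit 493) (B (L (nat_lit 397) ln13_15_6 ln13_15_6_ok) (L (nat_lit 525) ln13_16_6 ln13_16_6_ok))))) (B (M (nat_lit 462) (B (M (nat_lit 461) (B (L (nat_lit 493) ln14_11_5 ln14_11_5_ok) (M (nat_lit 463) (B (L (nat_lit 495) ln14_11_4 ln14_11_4_ok) (L (nat_lit 464) ln16_14_3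 ln16_14_3_ok))))) (M (nat_lit 494) (B (M (nat_lit 367) (B (L (nat_lit 335) ln14_14_6 ln14_14_6_ok) (L (nat_lit 399) ln14_15_6 ln14_15_6_ok))) (M (nat_lit 397) (B (L (nat_lit 365) ln14_15_7 ln14_15_7_ok) (L (nat_lit 526) ln14_16_7 ln14_16_7_ok))))))) (B (M (nat_lit 461) (B (L (nat_lit 334) ln14_10_5 ln14_10_5_ok) (M (nat_lit 493) (B (L (nat_lit 462) ln14_11_5 ln14_11_5_ok) (L (nat_lit 525) ln13_16_6 ln13_16_6_ok))))) (M (nat_lit 462) (B (M (nat_lit 463) (B (L (nat_lit 495) ln14_11_4 ln14_11_4_ok) (M (nat_lit 431) (B (L (nat_lit 334) ln14_10_4 ln14_10_4_ok) (L (nat_lit 464) ln12_13_0 ln12_13_0_ok))))) (M (nat_lit 494) (B (M (nat_lit 367) (B (L (nat_lit 335) ln14_14_6 ln14_14_6_ok) (L (nat_lit 399) ln14_15_6 ln14_15_6_ok))) (M (nat_lit 397) (B (L (nat_lit 365) ln14_15_7 ln14_15_7_ok) (L (nat_lit 526) ln14_16_7 ln14_16_7_ok))))))))))) (B (K (nat_lit 4852171964711426004412531547547921807598691640102196576300382949205719760385111462498016588289579202052111355079081447694748614656)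 (nat_lit 549183812989462326252454470171811748170609573325592942405998644062729101681211498929321362949858916575181930350589698430449258175340003373040386493376901414912) (nat_lit 549183812989462326252454470171811748170609573325592942405998644062729101681211498929321362949858916575181930350589698430449258175340003373040386493376901414912) c40_s5796) (B (M (nat_lit 398) (B (M (nat_lit 461) (B (L (nat_lit 334) ln14_10_5 ln14_10_5_ok) (M (nat_lit 493) (B (L (nat_lit 462) ln14_11_5 ln14_11_5_ok) (L (nat_lit 525) ln13_16_6 ln13_16_6_ok))))) (B (M (nat_lit 462) (B (M (nat_lit 463) (B (L (nat_lit 495) ln14_11_4 ln14_11_4_ok) (M (nat_lit 464) (B (L (nat_lit 431) ln12_13_0 ln12_13_0_ok) (L (nat_lit 465) ln17_14_3 ln17_14_3_ok))))) (B (M (nat_lit 461) (B (L (nat_lit 493) ln14_11_5 ln14_11_5_ok) (M (nat_lit 463) (B (L (nat_lit 495) ln14_11_4 ln14_11_4_ok) (L (nat_lit 464) ln16_14_3 ln16_14_3_ok))))) (M (nat_lit 494)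 (B (M (nat_lit 365) (B (L (nat_lit 333) ln14_14_7 ln14_14_7_ok) (L (nat_lit 397) ln14_15_7 ln14_15_7_ok))) (M (nat_lit 493) (B (L (nat_lit 461) ln14_11_5 ln14_11_5_ok) (L (nat_lit 525) ln14_12_5 ln14_12_5_ok)))))))) (M (nat_lit 431) (B (M (nat_lit 463) (B (L (nat_lit 334) ln14_10_4 ln14_10_4_ok) (L (nat_lit 464) ln12_13_0 ln12_13_0_ok))) (M (nat_lit 432) (B (M (nat_lit 396) (B (L (nat_lit 395) ln15_13_3 ln15_13_3_ok) (L (nat_lit 397) ln16_13_3 ln16_13_3_ok))) (M (nat_lit 400) (B (L (nat_lit 399) ln12_13_2 ln12_13_2_ok) (L (nat_lit 401) ln13_13_2 ln13_13_2_ok)))))))))) (B (M (nat_lit 398) (B (M (nat_lit 461) (B (L (nat_lit 334) ln14_10_5 ln14_10_5_ok) (M (nat_lit 493) (B (L (nat_lit 462) ln14_11_5 ln14_11_5_ok) (L (nat_lit 525) ln13_16_6 ln13_16_6_ok))))) (B (M (nat_lit 462) (B (M (nat_lit 461) (B (L (nat_lit 493) ln14_11_5 ln14_11_5_ok) (M (nat_lit 463) (B (L (nat_lit 495) ln14_11_4 ln14_11_4_ok) (L (nat_lit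 464) ln16_14_3 ln16_14_3_ok))))) (B (M (nat_lit 463) (B (L (nat_lit 495) ln14_11_4 ln14_11_4_ok) (M (nat_lit 464) (B (L (nat_lit 431) ln12_13_0 ln12_13_0_ok) (L (nat_lit 465) ln17_14_3 ln17_14_3_ok))))) (M (nat_lit 494) (B (M (nat_lit 367) (B (L (nat_lit 335) ln14_14_6 ln14_14_6_ok) (L (nat_lit 399) ln14_15_6 ln14_15_6_ok))) (M (nat_lit 493) (B (L (nat_lit 461) ln14_11_5 ln14_11_5_ok) (L (nat_lit 525) ln14_12_5 ln14_12_5_ok)))))))) (B (M (nat_lit 462) (B (M (nat_lit 463) (B (L (nat_lit 495) ln14_11_4 ln14_11_4_ok) (M (nat_lit 464) (B (L (nat_lit 431) ln12_13_0 ln12_13_0_ok) (L (nat_lit 465) ln17_14_3 ln17_14_3_ok))))) (M (nat_lit 399) (B (M (nat_lit 367) (B (L (nat_lit 335) ln14_14_6 ln14_14_6_ok) (L (nat_lit 494) ln14_15_6 ln14_15_6_ok))) (M (nat_lit 400) (B (L (nat_lit 397) ln16_12_1 ln16_12_1_ok) (L (nat_lit 401) ln17_12_1 ln17_12_1_ok))))))) (M (nat_lit 461) (B (L (nat_lit 334) ln14_10_5 ln14_10_5_ok)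 (M (nat_lit 493) (B (L (nat_lit 397) ln13_15_6 ln13_15_6_ok) (L (nat_lit 525) ln13_16_6 ln13_16_6_ok))))))))) (B (M (nat_lit 398) (B (M (nat_lit 461) (B (L (nat_lit 334) ln14_10_5 ln14_10_5_ok) (M (nat_lit 493) (B (L (nat_lit 462) ln14_11_5 ln14_11_5_ok) (L (nat_lit 525) ln13_16_6 ln13_16_6_ok))))) (B (M (nat_lit 462) (B (M (nat_lit 461) (B (L (nat_lit 493) ln14_11_5 ln14_11_5_ok) (M (nat_lit 463) (B (L (nat_lit 495) ln14_11_4 ln14_11_4_ok) (L (nat_lit 464) ln16_14_3 ln16_14_3_ok))))) (B (M (nat_lit 463) (B (L (nat_lit 495) ln14_11_4 ln14_11_4_ok) (M (nat_lit 464) (B (L (nat_lit 431) ln12_13_0 ln12_13_0_ok) (L (nat_lit 465) ln17_14_3 ln17_14_3_ok))))) (M (nat_lit 494) (B (M (nat_lit 367) (B (L (nat_lit 335) ln14_14_6 ln14_14_6_ok) (L (nat_lit 399) ln14_15_6 ln14_15_6_ok))) (M (nat_lit 493) (B (L (nat_lit 461) ln14_11_5 ln14_11_5_ok) (L (nat_lit 525) ln14_12_5 ln14_12_5_ok)))))))) (B (M (nat_lit 462) (B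 (M (nat_lit 463) (B (L (nat_lit 495) ln14_11_4 ln14_11_4_ok) (M (nat_lit 464) (B (L (nat_lit 431) ln12_13_0 ln12_13_0_ok) (L (nat_lit 465) ln17_14_3 ln17_14_3_ok))))) (B (M (nat_lit 494) (B (M (nat_lit 367) (B (L (nat_lit 335) ln14_14_6 ln14_14_6_ok) (L (nat_lit 399) ln14_15_6 ln14_15_6_ok))) (M (nat_lit 495) (B (L (nat_lit 463) ln14_11_4 ln14_11_4_ok) (L (nat_lit 527) ln14_12_4 ln14_12_4_ok))))) (M (nat_lit 399) (B (M (nat_lit 367) (B (L (nat_lit 335) ln14_14_6 ln14_14_6_ok) (L (nat_lit 494) ln14_15_6 ln14_15_6_ok))) (M (nat_lit 400) (B (L (nat_lit 401) ln17_12_1 ln17_12_1_ok) (L (nat_lit 431) ln12_13_2 ln12_13_2_ok)))))))) (M (nat_lit 334) (B (L (nat_lit 461) ln14_10_5 ln14_10_5_ok) (M (nat_lit 431) (B (L (nat_lit 463) ln14_10_4 ln14_10_4_ok) (M (nat_lit 399) (B (L (nat_lit 302) ln14_9_4 ln14_9_4_ok) (L (nat_lit 400) ln12_13_2 ln12_13_2_ok))))))))))) (B (M (nat_lit 431) (B (M (nat_lit 396) (B (L (nat_lit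 395) ln15_13_3 ln15_13_3_ok) (M (nat_lit 400) (B (L (nat_lit 399) ln12_13_2 ln12_13_2_ok) (M (nat_lit 432) (B (L (nat_lit 397) ln16_13_3 ln16_13_3_ok) (L (nat_lit 401) ln13_13_2 ln13_13_2_ok))))))) (B (M (nat_lit 432) (B (M (nat_lit 400) (B (L (nat_lit 399) ln12_13_2 ln12_13_2_ok) (L (nat_lit 401) ln13_13_2 ln13_13_2_ok))) (M (nat_lit 464) (B (L (nat_lit 463) ln12_13_0 ln12_13_0_ok) (L (nat_lit 465) ln13_13_0 ln13_13_0_ok))))) (B (M (nat_lit 432) (B (M (nat_lit 396) (B (L (nat_lit 395) ln15_13_3 ln15_13_3_ok) (L (nat_lit 397) ln16_13_3 ln16_13_3_ok))) (M (nat_lit 464) (B (L (nat_lit 463) ln12_13_0 ln12_13_0_ok) (L (nat_lit 465) ln13_13_0 ln13_13_0_ok))))) (M (nat_lit 463) (B (L (nat_lit 464) ln12_13_0 ln12_13_0_ok) (M (nat_lit 399) (B (L (nat_lit 400) ln12_13_2 ln12_13_2_ok) (M (nat_lit 367) (B (L (nat_lit 334) ln15_14_7 ln15_14_7_ok) (M (nat_lit 462) (B (L (nat_lit 335) ln15_10_5 ln15_10_5_ok) (L (nat_lit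 494) ln15_11_5 ln15_11_5_ok))))))))))))) (B (M (nat_lit 398) (B (M (nat_lit 461) (B (L (nat_lit 334) ln14_10_5 ln14_10_5_ok) (M (nat_lit 493) (B (L (nat_lit 462) ln14_11_5 ln14_11_5_ok) (L (nat_lit 525) ln13_16_6 ln13_16_6_ok))))) (B (M (nat_lit 462) (B (M (nat_lit 463) (B (L (nat_lit 495) ln14_11_4 ln14_11_4_ok) (M (nat_lit 464) (B (L (nat_lit 431) ln12_13_0 ln12_13_0_ok) (L (nat_lit 465) ln17_14_3 ln17_14_3_ok))))) (B (M (nat_lit 461) (B (L (nat_lit 493) ln14_11_5 ln14_11_5_ok) (M (nat_lit 463) (B (L (nat_lit 495) ln14_11_4 ln14_11_4_ok) (L (nat_lit 464) ln16_14_3 ln16_14_3_ok))))) (M (nat_lit 494) (B (M (nat_lit 365) (B (L (nat_lit 333) ln14_14_7 ln14_14_7_ok) (L (nat_lit 397) ln14_15_7 ln14_15_7_ok))) (M (nat_lit 493) (B (L (nat_lit 461) ln14_11_5 ln14_11_5_ok) (L (nat_lit 525) ln14_12_5 ln14_12_5_ok)))))))) (B (M (nat_lit 462) (B (M (nat_lit 463) (B (L (nat_lit 495) ln14_11_4 ln14_11_4_ok) (M (nat_lit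 464) (B (L (nat_lit 431) ln12_13_0 ln12_13_0_ok) (L (nat_lit 465) ln17_14_3 ln17_14_3_ok))))) (M (nat_lit 334) (B (M (nat_lit 333) (B (L (nat_lit 301) ln14_13_7 ln14_13_7_ok) (L (nat_lit 365) ln14_14_7 ln14_14_7_ok))) (M (nat_lit 335) (B (L (nat_lit 303) ln14_13_6 ln14_13_6_ok) (L (nat_lit 367) ln14_14_6 ln14_14_6_ok))))))) (M (nat_lit 461) (B (L (nat_lit 334) ln14_10_5 ln14_10_5_ok) (M (nat_lit 493) (B (L (nat_lit 397) ln13_15_6 ln13_15_6_ok) (L (nat_lit 525) ln13_16_6 ln13_16_6_ok))))))))) (B (M (nat_lit 398) (B (M (nat_lit 461) (B (L (nat_lit 334) ln14_10_5 ln14_10_5_ok) (M (nat_lit 493) (B (L (nat_lit 397) ln13_15_6 ln13_15_6_ok) (L (nat_lit 525) ln13_16_6 ln13_16_6_ok))))) (B (M (nat_lit 462) (B (M (nat_lit 461) (B (L (nat_lit 493) ln14_11_5 ln14_11_5_ok) (M (nat_lit 463) (B (L (nat_lit 495) ln14_11_4 ln14_11_4_ok) (L (nat_lit 464) ln16_14_3 ln16_14_3_ok))))) (B (M (nat_lit 494) (B (M (nat_lit 365)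 (B (L (nat_lit 333) ln14_14_7 ln14_14_7_ok) (L (nat_lit 397) ln14_15_7 ln14_15_7_ok))) (M (nat_lit 495) (B (L (nat_lit 463) ln14_11_4 ln14_11_4_ok) (L (nat_lit 527) ln14_12_4 ln14_12_4_ok))))) (M (nat_lit 494) (B (M (nat_lit 365) (B (L (nat_lit 333) ln14_14_7 ln14_14_7_ok) (L (nat_lit 397) ln14_15_7 ln14_15_7_ok))) (M (nat_lit 493) (B (L (nat_lit 461) ln14_11_5 ln14_11_5_ok) (L (nat_lit 525) ln14_12_5 ln14_12_5_ok)))))))) (B (M (nat_lit 461) (B (L (nat_lit 334) ln14_10_5 ln14_10_5_ok) (M (nat_lit 493) (B (L (nat_lit 462) ln14_11_5 ln14_11_5_ok) (L (nat_lit 525) ln13_16_6 ln13_16_6_ok))))) (M (nat_lit 462) (B (M (nat_lit 494) (B (M (nat_lit 367) (B (L (nat_lit 335) ln14_14_6 ln14_14_6_ok) (L (nat_lit 399) ln14_15_6 ln14_15_6_ok))) (M (nat_lit 495) (B (L (nat_lit 463) ln14_11_4 ln14_11_4_ok) (L (nat_lit 527) ln14_12_4 ln14_12_4_ok))))) (B (M (nat_lit 494) (B (M (nat_lit 365) (B (L (nat_lit 333) ln14_14_7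 ln14_14_7_ok) (L (nat_lit 397) ln14_15_7 ln14_15_7_ok))) (M (nat_lit 495) (B (L (nat_lit 463) ln14_11_4 ln14_11_4_ok) (L (nat_lit 527) ln14_12_4 ln14_12_4_ok))))) (B (M (nat_lit 365) (B (L (nat_lit 333) ln14_14_7 ln14_14_7_ok) (M (nat_lit 494) (B (L (nat_lit 397) ln14_15_7 ln14_15_7_ok) (M (nat_lit 367) (B (L (nat_lit 335) ln14_14_6 ln14_14_6_ok) (L (nat_lit 399) ln14_15_6 ln14_15_6_ok))))))) (M (nat_lit 334) (B (M (nat_lit 333) (B (L (nat_lit 301) ln14_13_7 ln14_13_7_ok) (L (nat_lit 365) ln14_14_7 ln14_14_7_ok))) (M (nat_lit 335) (B (L (nat_lit 303) ln14_13_6 ln14_13_6_ok) (L (nat_lit 367) ln14_14_6 ln14_14_6_ok))))))))))))) (B (M (nat_lit 398) (B (M (nat_lit 461) (B (L (nat_lit 334) ln14_10_5 ln14_10_5_ok) (M (nat_lit 493) (B (L (nat_lit 397) ln13_15_6 ln13_15_6_ok) (L (nat_lit 525) ln13_16_6 ln13_16_6_ok))))) (B (M (nat_lit 431) (B (M (nat_lit 463) (B (L (nat_lit 464) ln12_13_0 ln12_13_0_ok) (M (nat_lit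 399) (B (L (nat_lit 495) ln15_15_7 ln15_15_7_ok) (L (nat_lit 400) ln12_13_2 ln12_13_2_ok))))) (B (M (nat_lit 432) (B (M (nat_lit 396) (B (L (nat_lit 395) ln15_13_3 ln15_13_3_ok) (L (nat_lit 397) ln16_13_3 ln16_13_3_ok))) (M (nat_lit 464) (B (L (nat_lit 463) ln12_13_0 ln12_13_0_ok) (L (nat_lit 465) ln13_13_0 ln13_13_0_ok))))) (M (nat_lit 432) (B (M (nat_lit 396) (B (L (nat_lit 395) ln15_13_3 ln15_13_3_ok) (L (nat_lit 397) ln16_13_3 ln16_13_3_ok))) (M (nat_lit 400) (B (L (nat_lit 399) ln12_13_2 ln12_13_2_ok) (L (nat_lit 401) ln13_13_2 ln13_13_2_ok)))))))) (M (nat_lit 334) (B (L (nat_lit 461) ln14_10_5 ln14_10_5_ok) (M (nat_lit 431) (B (L (nat_lit 463) ln14_10_4 ln14_10_4_ok) (M (nat_lit 399) (B (L (nat_lit 302) ln14_9_4 ln14_9_4_ok) (L (nat_lit 400) ln12_13_2 ln12_13_2_ok)))))))))) c40_n5992))))))))))) (nat_lit 4852171964711426004262224822250396481013764881907679006548339266075587288659844840319955210682244261670434619182456250700704776192)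 (nat_lit 768857338113641837131875295742416331123251676757501576205310682963387360173099251817455909638813422023488105876105299850354549283322777510359067268664818401280) (nat_lit 768857338113641837131875295742416331123251676757501576205310682963387360173099251817455909638813422023488105876105299850354549283322777510359067268664818401280) (by decide +kernel)
theorem c40_s5996 : Sem (nat_lit 2079502270590611144683810638107312777577327806531862431377859685460965980854219217279980804578104683573043408221052678871730618368) (nat_lit 768857338113641837134480285733584331480748920930721551300104045497921477128156894874334265349391702983708355029223398076572987909750287555089522022448680140800) (nat_lit 768857338113641837134480285733584331480748920930721551300104045497921477128156894874334265349391702983708355029223398076572987909750287555089522022448680140800) :=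
  sem_of_chk (M (nat_lit 430) (B (M (nat_lit 427) (B (M (nat_lit 426) (B (M (nat_lit 394) (B (L (nat_lit 393) ln13_13_3 ln13_13_3_ok) (L (nat_lit 395) ln14_13_3 ln14_13_3_ok))) (M (nat_lit 462) (B (L (nat_lit 461) ln10_13_0 ln10_13_0_ok) (L (nat_lit 463) ln11_13_0 ln11_13_0_ok))))) (B (M (nat_lit 431) (B (M (nat_lit 399) (B (L (nat_lit 398) ln11_13_2 ln11_13_2_ok) (L (nat_lit 400) ln12_13_2 ln12_13_2_ok))) (M (nat_lit 463) (B (L (nat_lit 462) ln11_13_0 ln11_13_0_ok) (L (nat_lit 464) ln12_13_0 ln12_13_0_ok))))) (M (nat_lit 398) (B (L (nat_lit 399) ln11_13_2 ln11_13_2_ok) (M (nat_lit 394) (B (L (nat_lit 395) ln14_13_3 ln14_13_3_ok) (M (nat_lit 426) (B (L (nat_lit 393) ln13_13_3 ln13_13_3_ok) (L (nat_lit 397) ln10_13_2 ln10_13_2_ok)))))))))) (B (M (nat_lit 427) (B (M (nat_lit 426) (B (M (nat_lit 458) (B (L (nat_lit 457) ln13_13_1 ln13_13_1_ok) (L (nat_lit 459) ln14_13_1 ln14_13_1_ok))) (M (nat_lit 462) (B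 (L (nat_lit 461) ln10_13_0 ln10_13_0_ok) (L (nat_lit 463) ln11_13_0 ln11_13_0_ok))))) (M (nat_lit 431) (B (M (nat_lit 395) (B (L (nat_lit 394) ln14_13_3 ln14_13_3_ok) (L (nat_lit 396) ln15_13_3 ln15_13_3_ok))) (M (nat_lit 399) (B (L (nat_lit 398) ln11_13_2 ln11_13_2_ok) (L (nat_lit 400) ln12_13_2 ln12_13_2_ok))))))) (B (M (nat_lit 427) (B (M (nat_lit 398) (B (L (nat_lit 399) ln11_13_2 ln11_13_2_ok) (M (nat_lit 462) (B (L (nat_lit 463) ln11_13_0 ln11_13_0_ok) (M (nat_lit 426) (B (L (nat_lit 397) ln10_13_2 ln10_13_2_ok) (L (nat_lit 461) ln10_13_0 ln10_13_0_ok))))))) (B (M (nat_lit 431) (B (M (nat_lit 399) (B (L (nat_lit 398) ln11_13_2 ln11_13_2_ok) (L (nat_lit 400) ln12_13_2 ln12_13_2_ok))) (M (nat_lit 463) (B (L (nat_lit 462) ln11_13_0 ln11_13_0_ok) (L (nat_lit 464) ln12_13_0 ln12_13_0_ok))))) (B (M (nat_lit 426) (B (M (nat_lit 458) (B (L (nat_lit 457) ln13_13_1 ln13_13_1_ok) (L (nat_lit 459) ln14_13_1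 ln14_13_1_ok))) (M (nat_lit 462) (B (L (nat_lit 461) ln10_13_0 ln10_13_0_ok) (L (nat_lit 463) ln11_13_0 ln11_13_0_ok))))) (M (nat_lit 426) (B (M (nat_lit 398) (B (L (nat_lit 397) ln10_13_2 ln10_13_2_ok) (L (nat_lit 399) ln11_13_2 ln11_13_2_ok))) (M (nat_lit 458) (B (L (nat_lit 457) ln13_13_1 ln13_13_1_ok) (L (nat_lit 459) ln14_13_1 ln14_13_1_ok))))))))) (B (M (nat_lit 427) (B (M (nat_lit 426) (B (M (nat_lit 458) (B (L (nat_lit 457) ln13_13_1 ln13_13_1_ok) (L (nat_lit 459) ln14_13_1 ln14_13_1_ok))) (M (nat_lit 462) (B (L (nat_lit 461) ln10_13_0 ln10_13_0_ok) (L (nat_lit 463) ln11_13_0 ln11_13_0_ok))))) (B (M (nat_lit 431) (B (M (nat_lit 395) (B (L (nat_lit 394) ln14_13_3 ln14_13_3_ok) (L (nat_lit 396) ln15_13_3 ln15_13_3_ok))) (M (nat_lit 463) (B (L (nat_lit 462) ln11_13_0 ln11_13_0_ok) (L (nat_lit 464) ln12_13_0 ln12_13_0_ok))))) (M (nat_lit 426) (B (M (nat_lit 394) (B (L (nat_lit 393) ln13_13_3 ln13_13_3_ok)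 (L (nat_lit 395) ln14_13_3 ln14_13_3_ok))) (M (nat_lit 458) (B (L (nat_lit 457) ln13_13_1 ln13_13_1_ok) (L (nat_lit 459) ln14_13_1 ln14_13_1_ok)))))))) (B (M (nat_lit 431) (B (M (nat_lit 427) (B (M (nat_lit 399) (B (L (nat_lit 398) ln11_13_2 ln11_13_2_ok) (L (nat_lit 400) ln12_13_2 ln12_13_2_ok))) (M (nat_lit 463) (B (L (nat_lit 462) ln11_13_0 ln11_13_0_ok) (L (nat_lit 464) ln12_13_0 ln12_13_0_ok))))) (B (M (nat_lit 427) (B (M (nat_lit 395) (B (L (nat_lit 394) ln14_13_3 ln14_13_3_ok) (L (nat_lit 396) ln15_13_3 ln15_13_3_ok))) (M (nat_lit 463) (B (L (nat_lit 462) ln11_13_0 ln11_13_0_ok) (L (nat_lit 464) ln12_13_0 ln12_13_0_ok))))) (B (M (nat_lit 432) (B (M (nat_lit 396) (B (L (nat_lit 395) ln15_13_3 ln15_13_3_ok) (L (nat_lit 397) ln16_13_3 ln16_13_3_ok))) (M (nat_lit 464) (B (L (nat_lit 463) ln12_13_0 ln12_13_0_ok) (L (nat_lit 465) ln13_13_0 ln13_13_0_ok))))) (M (nat_lit 427) (B (M (nat_lit 395) (B (L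 (nat_lit 394) ln14_13_3 ln14_13_3_ok) (L (nat_lit 396) ln15_13_3 ln15_13_3_ok))) (M (nat_lit 399) (B (L (nat_lit 398) ln11_13_2 ln11_13_2_ok) (L (nat_lit 400) ln12_13_2 ln12_13_2_ok))))))))) (B (K (nat_lit 4852171964711426004262224822250396481013764881907679006548339266075587288659844840319955210682244261670434619182456250700704776192) (nat_lit 768857338113641837131875295742416331123251676757501576205310682963387360173099251817455909638813422023488105876105299850354549283322777510359067268664818401280) (nat_lit 768857338113641837131875295742416331123251676757501576205310682963387360173099251817455909638813422023488105876105299850354549283322777510359067268664818401280) c40_s5993) (B (M (nat_lit 427) (B (M (nat_lit 426) (B (M (nat_lit 394) (B (L (nat_lit 393) ln13_13_3 ln13_13_3_ok) (L (nat_lit 395) ln14_13_3 ln14_13_3_ok))) (M (nat_lit 462) (B (L (nat_lit 461) ln10_13_0 ln10_13_0_ok) (L (nat_lit 463)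 ln11_13_0 ln11_13_0_ok))))) (B (M (nat_lit 398) (B (L (nat_lit 399) ln11_13_2 ln11_13_2_ok) (M (nat_lit 462) (B (L (nat_lit 463) ln11_13_0 ln11_13_0_ok) (M (nat_lit 426) (B (L (nat_lit 397) ln10_13_2 ln10_13_2_ok) (L (nat_lit 461) ln10_13_0 ln10_13_0_ok))))))) (B (M (nat_lit 462) (B (L (nat_lit 463) ln11_13_0 ln11_13_0_ok) (M (nat_lit 398) (B (L (nat_lit 399) ln11_13_2 ln11_13_2_ok) (M (nat_lit 366) (B (M (nat_lit 461) (B (L (nat_lit 334) ln14_10_5 ln14_10_5_ok) (L (nat_lit 493) ln14_11_5 ln14_11_5_ok))) (B (M (nat_lit 494) (B (M (nat_lit 365) (B (L (nat_lit 333) ln14_14_7 ln14_14_7_ok) (L (nat_lit 397) ln14_15_7 ln14_15_7_ok))) (M (nat_lit 493) (B (L (nat_lit 461) ln14_11_5 ln14_11_5_ok) (L (nat_lit 525) ln14_12_5 ln14_12_5_ok))))) (M (nat_lit 334) (B (M (nat_lit 333) (B (L (nat_lit 301) ln14_13_7 ln14_13_7_ok) (L (nat_lit 365) ln14_14_7 ln14_14_7_ok))) (M (nat_lit 335) (B (L (nat_lit 303) ln14_13_6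 ln14_13_6_ok) (L (nat_lit 367) ln14_14_6 ln14_14_6_ok)))))))))))) (M (nat_lit 398) (B (L (nat_lit 399) ln11_13_2 ln11_13_2_ok) (M (nat_lit 394) (B (L (nat_lit 395) ln14_13_3 ln14_13_3_ok) (M (nat_lit 426) (B (L (nat_lit 393) ln13_13_3 ln13_13_3_ok) (L (nat_lit 397) ln10_13_2 ln10_13_2_ok))))))))))) (M (nat_lit 427) (B (M (nat_lit 426) (B (M (nat_lit 398) (B (L (nat_lit 397) ln10_13_2 ln10_13_2_ok) (L (nat_lit 399) ln11_13_2 ln11_13_2_ok))) (M (nat_lit 458) (B (L (nat_lit 457) ln13_13_1 ln13_13_1_ok) (L (nat_lit 459) ln14_13_1 ln14_13_1_ok))))) (B (M (nat_lit 431) (B (M (nat_lit 395) (B (L (nat_lit 394) ln14_13_3 ln14_13_3_ok) (L (nat_lit 396) ln15_13_3 ln15_13_3_ok))) (M (nat_lit 399) (B (L (nat_lit 398) ln11_13_2 ln11_13_2_ok) (L (nat_lit 400) ln12_13_2 ln12_13_2_ok))))) (M (nat_lit 426) (B (M (nat_lit 394) (B (L (nat_lit 393) ln13_13_3 ln13_13_3_ok) (L (nat_lit 395) ln14_13_3 ln14_13_3_ok))) (M (nat_lit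 458) (B (L (nat_lit 457) ln13_13_1 ln13_13_1_ok) (L (nat_lit 459) ln14_13_1 ln14_13_1_ok)))))))))))))))) (nat_lit 2079502270590611144683810638107312777577327806531862431377859685460965980854219217279980804578104683573043408221052678871730618368) (nat_lit 768857338113641837134480285733584331480748920930721551300104045497921477128156894874334265349391702983708355029223398076572987909750287555089522022448680140800) (nat_lit 768857338113641837134480285733584331480748920930721551300104045497921477128156894874334265349391702983708355029223398076572987909750287555089522022448680140800) (by decide +kernel)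
theorem c40_s6063 : Sem (nat_lit 2079502270590611144683810638107312777577327806531862431377859685460965980854219217279980804578104683573043408221052678871730618368) (nat_lit 466806241061501668641252367069418712970587332813143111888192747197770652042819268753022695250755966964441032414833821056578335174922005395079884931847459700736) (nat_lit 466806241061501668641252367069418712970587332813143111888192747197770652042819268753022695250755966964441032414833821056578335174922005395079884931847459700736) :=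
  sem_of_chk (M (nat_lit 430) (B (M (nat_lit 427) (B (M (nat_lit 398) (B (L (nat_lit 399) ln11_13_2 ln11_13_2_ok) (M (nat_lit 394) (B (L (nat_lit 395) ln14_13_3 ln14_13_3_ok) (M (nat_lit 426) (B (L (nat_lit 393) ln13_13_3 ln13_13_3_ok) (L (nat_lit 397) ln10_13_2 ln10_13_2_ok))))))) (B (M (nat_lit 431) (B (M (nat_lit 395) (B (L (nat_lit 394) ln14_13_3 ln14_13_3_ok) (L (nat_lit 396) ln15_13_3 ln15_13_3_ok))) (M (nat_lit 399) (B (L (nat_lit 398) ln11_13_2 ln11_13_2_ok) (L (nat_lit 400) ln12_13_2 ln12_13_2_ok))))) (B (M (nat_lit 431) (B (M (nat_lit 399) (B (L (nat_lit 398) ln11_13_2 ln11_13_2_ok) (L (nat_lit 400) ln12_13_2 ln12_13_2_ok))) (M (nat_lit 463) (B (L (nat_lit 462) ln11_13_0 ln11_13_0_ok) (L (nat_lit 464) ln12_13_0 ln12_13_0_ok))))) (M (nat_lit 431) (B (M (nat_lit 395) (B (L (nat_lit 394) ln14_13_3 ln14_13_3_ok) (L (nat_lit 396) ln15_13_3 ln15_13_3_ok))) (M (nat_lit 463) (B (L (nat_lit 462) ln11_13_0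 ln11_13_0_ok) (L (nat_lit 464) ln12_13_0 ln12_13_0_ok))))))))) (B (M (nat_lit 427) (B (M (nat_lit 431) (B (M (nat_lit 395) (B (L (nat_lit 394) ln14_13_3 ln14_13_3_ok) (L (nat_lit 396) ln15_13_3 ln15_13_3_ok))) (M (nat_lit 463) (B (L (nat_lit 462) ln11_13_0 ln11_13_0_ok) (L (nat_lit 464) ln12_13_0 ln12_13_0_ok))))) (M (nat_lit 426) (B (M (nat_lit 398) (B (L (nat_lit 397) ln10_13_2 ln10_13_2_ok) (L (nat_lit 399) ln11_13_2 ln11_13_2_ok))) (M (nat_lit 458) (B (L (nat_lit 457) ln13_13_1 ln13_13_1_ok) (L (nat_lit 459) ln14_13_1 ln14_13_1_ok))))))) (B (M (nat_lit 427) (B (M (nat_lit 431) (B (M (nat_lit 459) (B (L (nat_lit 458) ln14_13_1 ln14_13_1_ok) (L (nat_lit 460) ln15_13_1 ln15_13_1_ok))) (M (nat_lit 463) (B (L (nat_lit 462) ln11_13_0 ln11_13_0_ok) (L (nat_lit 464) ln12_13_0 ln12_13_0_ok))))) (B (M (nat_lit 426) (B (M (nat_lit 398) (B (L (nat_lit 397) ln10_13_2 ln10_13_2_ok) (L (nat_lit 399) ln11_13_2 ln11_13_2_ok)))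 (M (nat_lit 458) (B (L (nat_lit 457) ln13_13_1 ln13_13_1_ok) (L (nat_lit 459) ln14_13_1 ln14_13_1_ok))))) (M (nat_lit 431) (B (M (nat_lit 399) (B (L (nat_lit 398) ln11_13_2 ln11_13_2_ok) (L (nat_lit 400) ln12_13_2 ln12_13_2_ok))) (M (nat_lit 463) (B (L (nat_lit 462) ln11_13_0 ln11_13_0_ok) (L (nat_lit 464) ln12_13_0 ln12_13_0_ok)))))))) (B (M (nat_lit 427) (B (M (nat_lit 426) (B (M (nat_lit 394) (B (L (nat_lit 393) ln13_13_3 ln13_13_3_ok) (L (nat_lit 395) ln14_13_3 ln14_13_3_ok))) (M (nat_lit 458) (B (L (nat_lit 457) ln13_13_1 ln13_13_1_ok) (L (nat_lit 459) ln14_13_1 ln14_13_1_ok))))) (B (M (nat_lit 431) (B (M (nat_lit 395) (B (L (nat_lit 394) ln14_13_3 ln14_13_3_ok) (L (nat_lit 396) ln15_13_3 ln15_13_3_ok))) (M (nat_lit 399) (B (L (nat_lit 398) ln11_13_2 ln11_13_2_ok) (L (nat_lit 400) ln12_13_2 ln12_13_2_ok))))) (M (nat_lit 431) (B (M (nat_lit 399) (B (L (nat_lit 398) ln11_13_2 ln11_13_2_ok) (L (nat_lit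 400) ln12_13_2 ln12_13_2_ok))) (M (nat_lit 463) (B (L (nat_lit 462) ln11_13_0 ln11_13_0_ok) (L (nat_lit 464) ln12_13_0 ln12_13_0_ok)))))))) (B (M (nat_lit 427) (B (M (nat_lit 431) (B (M (nat_lit 459) (B (L (nat_lit 458) ln14_13_1 ln14_13_1_ok) (L (nat_lit 460) ln15_13_1 ln15_13_1_ok))) (M (nat_lit 463) (B (L (nat_lit 462) ln11_13_0 ln11_13_0_ok) (L (nat_lit 464) ln12_13_0 ln12_13_0_ok))))) (B (M (nat_lit 426) (B (M (nat_lit 394) (B (L (nat_lit 393) ln13_13_3 ln13_13_3_ok) (L (nat_lit 395) ln14_13_3 ln14_13_3_ok))) (M (nat_lit 458) (B (L (nat_lit 457) ln13_13_1 ln13_13_1_ok) (L (nat_lit 459) ln14_13_1 ln14_13_1_ok))))) (M (nat_lit 431) (B (M (nat_lit 395) (B (L (nat_lit 394) ln14_13_3 ln14_13_3_ok) (L (nat_lit 396) ln15_13_3 ln15_13_3_ok))) (M (nat_lit 463) (B (L (nat_lit 462) ln11_13_0 ln11_13_0_ok) (L (nat_lit 464) ln12_13_0 ln12_13_0_ok)))))))) (B (M (nat_lit 431) (B (M (nat_lit 427) (B (M (nat_lit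 399) (B (L (nat_lit 398) ln11_13_2 ln11_13_2_ok) (L (nat_lit 400) ln12_13_2 ln12_13_2_ok))) (M (nat_lit 459) (B (L (nat_lit 458) ln14_13_1 ln14_13_1_ok) (L (nat_lit 460) ln15_13_1 ln15_13_1_ok))))) (B (M (nat_lit 427) (B (M (nat_lit 395) (B (L (nat_lit 394) ln14_13_3 ln14_13_3_ok) (L (nat_lit 396) ln15_13_3 ln15_13_3_ok))) (M (nat_lit 459) (B (L (nat_lit 458) ln14_13_1 ln14_13_1_ok) (L (nat_lit 460) ln15_13_1 ln15_13_1_ok))))) (M (nat_lit 432) (B (M (nat_lit 396) (B (L (nat_lit 395) ln15_13_3 ln15_13_3_ok) (L (nat_lit 397) ln16_13_3 ln16_13_3_ok))) (M (nat_lit 464) (B (L (nat_lit 463) ln12_13_0 ln12_13_0_ok) (L (nat_lit 465) ln13_13_0 ln13_13_0_ok)))))))) (B (M (nat_lit 431) (B (M (nat_lit 432) (B (M (nat_lit 396) (B (L (nat_lit 395) ln15_13_3 ln15_13_3_ok) (L (nat_lit 397) ln16_13_3 ln16_13_3_ok))) (M (nat_lit 400) (B (L (nat_lit 399) ln12_13_2 ln12_13_2_ok) (L (nat_lit 401) ln13_13_2 ln13_13_2_ok)))))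 (B (M (nat_lit 432) (B (M (nat_lit 400) (B (L (nat_lit 399) ln12_13_2 ln12_13_2_ok) (L (nat_lit 401) ln13_13_2 ln13_13_2_ok))) (M (nat_lit 464) (B (L (nat_lit 463) ln12_13_0 ln12_13_0_ok) (L (nat_lit 465) ln13_13_0 ln13_13_0_ok))))) (B (M (nat_lit 432) (B (M (nat_lit 396) (B (L (nat_lit 395) ln15_13_3 ln15_13_3_ok) (L (nat_lit 397) ln16_13_3 ln16_13_3_ok))) (M (nat_lit 464) (B (L (nat_lit 463) ln12_13_0 ln12_13_0_ok) (L (nat_lit 465) ln13_13_0 ln13_13_0_ok))))) (M (nat_lit 396) (B (L (nat_lit 395) ln15_13_3 ln15_13_3_ok) (M (nat_lit 397) (B (M (nat_lit 460) (B (L (nat_lit 459) ln15_13_1 ln15_13_1_ok) (M (nat_lit 365) (B (L (nat_lit 333) ln13_10_5 ln13_10_5_ok) (L (nat_lit 492) ln12_15_6 ln12_15_6_ok))))) (M (nat_lit 398) (B (M (nat_lit 399) (B (L (nat_lit 400) ln16_12_1 ln16_12_1_ok) (M (nat_lit 367) (B (L (nat_lit 368) ln12_12_2 ln12_12_2_ok) (M (nat_lit 335) (B (L (nat_lit 303) ln15_9_5 ln15_9_5_ok)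 (L (nat_lit 462) ln15_10_5 ln15_10_5_ok))))))) (B (M (nat_lit 399) (B (L (nat_lit 400) ln16_12_1 ln16_12_1_ok) (M (nat_lit 463) (B (L (nat_lit 464) ln12_13_0 ln12_13_0_ok) (M (nat_lit 366) (B (L (nat_lit 334) ln14_10_4 ln14_10_4_ok) (L (nat_lit 495) ln15_15_7 ln15_15_7_ok))))))) (M (nat_lit 463) (B (L (nat_lit 464) ln12_13_0 ln12_13_0_ok) (M (nat_lit 366) (B (L (nat_lit 334) ln14_10_4 ln14_10_4_ok) (M (nat_lit 495) (B (L (nat_lit 462) ln14_11_4 ln14_11_4_ok) (L (nat_lit 527) ln15_16_7 ln15_16_7_ok)))))))))))))))))) (B (M (nat_lit 427) (B (M (nat_lit 398) (B (L (nat_lit 399) ln11_13_2 ln11_13_2_ok) (M (nat_lit 394) (B (L (nat_lit 395) ln14_13_3 ln14_13_3_ok) (M (nat_lit 426) (B (L (nat_lit 393) ln13_13_3 ln13_13_3_ok) (L (nat_lit 397) ln10_13_2 ln10_13_2_ok))))))) (B (M (nat_lit 426) (B (M (nat_lit 398) (B (L (nat_lit 397) ln10_13_2 ln10_13_2_ok) (L (nat_lit 399) ln11_13_2 ln11_13_2_ok))) (M (nat_lit 458)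 (B (L (nat_lit 457) ln13_13_1 ln13_13_1_ok) (L (nat_lit 459) ln14_13_1 ln14_13_1_ok))))) (B (M (nat_lit 426) (B (M (nat_lit 394) (B (L (nat_lit 393) ln13_13_3 ln13_13_3_ok) (L (nat_lit 395) ln14_13_3 ln14_13_3_ok))) (M (nat_lit 458) (B (L (nat_lit 457) ln13_13_1 ln13_13_1_ok) (L (nat_lit 459) ln14_13_1 ln14_13_1_ok))))) (M (nat_lit 398) (B (L (nat_lit 399) ln11_13_2 ln11_13_2_ok) (M (nat_lit 397) (B (M (nat_lit 462) (B (L (nat_lit 463) ln11_13_0 ln11_13_0_ok) (M (nat_lit 365) (B (L (nat_lit 333) ln13_10_4 ln13_10_4_ok) (L (nat_lit 494) ln14_15_7 ln14_15_7_ok))))) (M (nat_lit 396) (B (M (nat_lit 395) (B (L (nat_lit 394) ln10_12_0 ln10_12_0_ok) (M (nat_lit 363) (B (L (nat_lit 362) ln14_12_3 ln14_12_3_ok) (M (nat_lit 331) (B (L (nat_lit 299) ln11_9_4 ln11_9_4_ok) (L (nat_lit 460) ln11_10_4 ln11_10_4_ok))))))) (B (M (nat_lit 395) (B (L (nat_lit 394) ln10_12_0 ln10_12_0_ok) (M (nat_lit 459) (B (L (nat_lit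 458) ln14_13_1 ln14_13_1_ok) (M (nat_lit 364) (B (L (nat_lit 332) ln12_10_5 ln12_10_5_ok) (L (nat_lit 491) ln11_15_6 ln11_15_6_ok))))))) (B (M (nat_lit 459) (B (L (nat_lit 458) ln14_13_1 ln14_13_1_ok) (M (nat_lit 364) (B (L (nat_lit 332) ln12_10_5 ln12_10_5_ok) (M (nat_lit 491) (B (L (nat_lit 395) ln11_15_6 ln11_15_6_ok) (L (nat_lit 523) ln11_16_6 ln11_16_6_ok))))))) (M (nat_lit 459) (B (L (nat_lit 458) ln14_13_1 ln14_13_1_ok) (M (nat_lit 364) (B (L (nat_lit 332) ln12_10_5 ln12_10_5_ok) (M (nat_lit 491) (B (L (nat_lit 460) ln12_11_5 ln12_11_5_ok) (L (nat_lit 523) ln11_16_6 ln11_16_6_ok))))))))))))))))))) (M (nat_lit 427) (B (M (nat_lit 426) (B (M (nat_lit 398) (B (L (nat_lit 397) ln10_13_2 ln10_13_2_ok) (L (nat_lit 399) ln11_13_2 ln11_13_2_ok))) (M (nat_lit 458) (B (L (nat_lit 457) ln13_13_1 ln13_13_1_ok) (L (nat_lit 459) ln14_13_1 ln14_13_1_ok))))) (B (M (nat_lit 431) (B (M (nat_lit 395) (B (L (nat_lit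 394) ln14_13_3 ln14_13_3_ok) (L (nat_lit 396) ln15_13_3 ln15_13_3_ok))) (M (nat_lit 399) (B (L (nat_lit 398) ln11_13_2 ln11_13_2_ok) (L (nat_lit 400) ln12_13_2 ln12_13_2_ok))))) (M (nat_lit 426) (B (M (nat_lit 394) (B (L (nat_lit 393) ln13_13_3 ln13_13_3_ok) (L (nat_lit 395) ln14_13_3 ln14_13_3_ok))) (M (nat_lit 458) (B (L (nat_lit 457) ln13_13_1 ln13_13_1_ok) (L (nat_lit 459) ln14_13_1 ln14_13_1_ok))))))))))))))))) (nat_lit 2079502270590611144683810638107312777577327806531862431377859685460965980854219217279980804578104683573043408221052678871730618368) (nat_lit 466806241061501668641252367069418712970587332813143111888192747197770652042819268753022695250755966964441032414833821056578335174922005395079884931847459700736) (nat_lit 466806241061501668641252367069418712970587332813143111888192747197770652042819268753022695250755966964441032414833821056578335174922005395079884931847459700736) (by decide +kernel)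
noncomputable def c40_n6075 : Cert := (M (nat_lit 396) (B (M (nat_lit 395) (B (L (nat_lit 431) ln15_13_3 ln15_13_3_ok) (M (nat_lit 394) (B (L (nat_lit 393) ln9_12_0 ln9_12_0_ok) (L (nat_lit 397) ln10_12_0 ln10_12_0_ok))))) (B (M (nat_lit 431) (B (L (nat_lit 395) ln15_13_3 ln15_13_3_ok) (M (nat_lit 432) (B (L (nat_lit 397) ln16_13_3 ln16_13_3_ok) (M (nat_lit 400) (B (L (nat_lit 399) ln12_13_2 ln12_13_2_ok) (L (nat_lit 401) ln13_13_2 ln13_13_2_ok))))))) (B (M (nat_lit 460) (B (M (nat_lit 431) (B (L (nat_lit 459) ln15_13_1 ln15_13_1_ok) (M (nat_lit 432) (B (L (nat_lit 397) ln16_13_3 ln16_13_3_ok) (L (nat_lit 461) ln16_13_1 ln16_13_1_ok))))) (B (M (nat_lit 461) (B (M (nat_lit 364) (B (L (nat_lit 332) ln12_10_4 ln12_10_4_ok) (L (nat_lit 493) ln12_11_4 ln12_11_4_ok))) (M (nat_lit 431) (B (L (nat_lit 459) ln15_13_1 ln15_13_1_ok) (L (nat_lit 432) ln16_13_1 ln16_13_1_ok))))) (B (M (nat_lit 364) (B (M (nat_lit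 461) (B (L (nat_lit 332) ln12_10_4 ln12_10_4_ok) (L (nat_lit 493) ln12_11_4 ln12_11_4_ok))) (M (nat_lit 492) (B (M (nat_lit 365) (B (L (nat_lit 333) ln12_14_6 ln12_14_6_ok) (L (nat_lit 397) ln12_15_6 ln12_15_6_ok))) (M (nat_lit 491) (B (L (nat_lit 459) ln12_11_5 ln12_11_5_ok) (L (nat_lit 523) ln12_12_5 ln12_12_5_ok))))))) (B (M (nat_lit 364) (B (M (nat_lit 461) (B (L (nat_lit 332) ln12_10_4 ln12_10_4_ok) (L (nat_lit 493) ln12_11_4 ln12_11_4_ok))) (B (M (nat_lit 492) (B (M (nat_lit 365) (B (L (nat_lit 333) ln12_14_6 ln12_14_6_ok) (L (nat_lit 397) ln12_15_6 ln12_15_6_ok))) (M (nat_lit 493) (B (L (nat_lit 461) ln12_11_4 ln12_11_4_ok) (L (nat_lit 525) ln12_12_4 ln12_12_4_ok))))) (M (nat_lit 332) (B (M (nat_lit 331) (B (L (nat_lit 299) ln12_13_7 ln12_13_7_ok) (L (nat_lit 363) ln12_14_7 ln12_14_7_ok))) (M (nat_lit 333) (B (L (nat_lit 301) ln12_13_6 ln12_13_6_ok) (L (nat_lit 365) ln12_14_6 ln12_14_6_ok))))))))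 (M (nat_lit 397) (B (M (nat_lit 365) (B (L (nat_lit 333) ln13_10_5 ln13_10_5_ok) (L (nat_lit 492) ln12_15_6 ln12_15_6_ok))) (M (nat_lit 431) (B (L (nat_lit 432) ln16_13_3 ln16_13_3_ok) (L (nat_lit 459) ln15_13_1 ln15_13_1_ok)))))))))) (B (M (nat_lit 431) (B (L (nat_lit 395) ln15_13_3 ln15_13_3_ok) (M (nat_lit 432) (B (M (nat_lit 400) (B (L (nat_lit 399) ln12_13_2 ln12_13_2_ok) (L (nat_lit 401) ln13_13_2 ln13_13_2_ok))) (M (nat_lit 460) (B (L (nat_lit 459) ln15_13_1 ln15_13_1_ok) (L (nat_lit 461) ln16_13_1 ln16_13_1_ok))))))) (M (nat_lit 460) (B (M (nat_lit 364) (B (M (nat_lit 461) (B (L (nat_lit 332) ln12_10_4 ln12_10_4_ok) (L (nat_lit 493) ln12_11_4 ln12_11_4_ok))) (M (nat_lit 492) (B (M (nat_lit 365) (B (L (nat_lit 333) ln12_14_6 ln12_14_6_ok) (L (nat_lit 397) ln12_15_6 ln12_15_6_ok))) (M (nat_lit 491) (B (L (nat_lit 459) ln12_11_5 ln12_11_5_ok) (L (nat_lit 523) ln12_12_5 ln12_12_5_ok))))))) (B (M (nat_lit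 395) (B (M (nat_lit 394) (B (L (nat_lit 393) ln9_12_0 ln9_12_0_ok) (L (nat_lit 397) ln10_12_0 ln10_12_0_ok))) (B (M (nat_lit 492) (B (L (nat_lit 363) ln12_15_7 ln12_15_7_ok) (M (nat_lit 397) (B (L (nat_lit 365) ln12_15_6 ln12_15_6_ok) (L (nat_lit 524) ln12_16_6 ln12_16_6_ok))))) (M (nat_lit 363) (B (L (nat_lit 492) ln12_15_7 ln12_15_7_ok) (M (nat_lit 331) (B (L (nat_lit 299) ln11_9_4 ln11_9_4_ok) (L (nat_lit 364) ln12_14_7 ln12_14_7_ok)))))))) (B (M (nat_lit 492) (B (M (nat_lit 397) (B (L (nat_lit 365) ln12_15_6 ln12_15_6_ok) (L (nat_lit 524) ln12_16_6 ln12_16_6_ok))) (B (M (nat_lit 395) (B (L (nat_lit 363) ln12_15_7 ln12_15_7_ok) (M (nat_lit 394) (B (L (nat_lit 393) ln9_12_0 ln9_12_0_ok) (L (nat_lit 397) ln10_12_0 ln10_12_0_ok))))) (M (nat_lit 524) (B (M (nat_lit 523) (B (L (nat_lit 491) ln12_12_5 ln12_12_5_ok) (L (nat_lit 555) ln12_13_5 ln12_13_5_ok))) (M (nat_lit 525) (B (L (nat_lit 493) ln12_12_4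 ln12_12_4_ok) (L (nat_lit 557) ln12_13_4 ln12_13_4_ok)))))))) (B (M (nat_lit 395) (B (M (nat_lit 394) (B (L (nat_lit 393) ln9_12_0 ln9_12_0_ok) (L (nat_lit 397) ln10_12_0 ln10_12_0_ok))) (M (nat_lit 363) (B (L (nat_lit 492) ln12_15_7 ln12_15_7_ok) (M (nat_lit 331) (B (L (nat_lit 299) ln11_9_4 ln11_9_4_ok) (L (nat_lit 364) ln12_14_7 ln12_14_7_ok))))))) (B (M (nat_lit 364) (B (M (nat_lit 461) (B (L (nat_lit 332) ln12_10_4 ln12_10_4_ok) (L (nat_lit 493) ln12_11_4 ln12_11_4_ok))) (M (nat_lit 492) (B (M (nat_lit 363) (B (L (nat_lit 331) ln12_14_7 ln12_14_7_ok) (L (nat_lit 395) ln12_15_7 ln12_15_7_ok))) (M (nat_lit 491) (B (L (nat_lit 459) ln12_11_5 ln12_11_5_ok) (L (nat_lit 523) ln12_12_5 ln12_12_5_ok))))))) (M (nat_lit 364) (B (M (nat_lit 461) (B (L (nat_lit 332) ln12_10_4 ln12_10_4_ok) (L (nat_lit 493) ln12_11_4 ln12_11_4_ok))) (B (M (nat_lit 461) (B (L (nat_lit 493) ln12_11_4 ln12_11_4_ok) (M (nat_lit 459)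 (B (L (nat_lit 491) ln12_11_5 ln12_11_5_ok) (L (nat_lit 458) ln10_14_2 ln10_14_2_ok))))) (M (nat_lit 332) (B (M (nat_lit 331) (B (L (nat_lit 299) ln12_13_7 ln12_13_7_ok) (L (nat_lit 363) ln12_14_7 ln12_14_7_ok))) (M (nat_lit 333) (B (L (nat_lit 301) ln12_13_6 ln12_13_6_ok) (L (nat_lit 365) ln12_14_6 ln12_14_6_ok)))))))))))))))))))
theorem c40_s6078 : Sem (nat_lit 2079502270590611144683810638107312777577327806531862431377859685460965980854219217279980804578104683573043408221052678871730618368) (nat_lit 884522443523492684283482704279691929431094103133052066586714768132859220248110244373992809152892180683028874970098397756212288687504763832134927917138813466977157251072) (nat_lit 884522443523492684283482704279691929431094103133052066586714768132859220248110244373992809152892180683028874970098397756212288687504763832134927917138813466977157251072) :=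
  sem_of_chk (M (nat_lit 430) (B (M (nat_lit 427) (B (M (nat_lit 426) (B (M (nat_lit 398) (B (L (nat_lit 397) ln10_13_2 ln10_13_2_ok) (L (nat_lit 399) ln11_13_2 ln11_13_2_ok))) (M (nat_lit 458) (B (L (nat_lit 457) ln13_13_1 ln13_13_1_ok) (L (nat_lit 459) ln14_13_1 ln14_13_1_ok))))) (B (M (nat_lit 431) (B (M (nat_lit 395) (B (L (nat_lit 394) ln14_13_3 ln14_13_3_ok) (L (nat_lit 396) ln15_13_3 ln15_13_3_ok))) (M (nat_lit 399) (B (L (nat_lit 398) ln11_13_2 ln11_13_2_ok) (L (nat_lit 400) ln12_13_2 ln12_13_2_ok))))) (M (nat_lit 426) (B (M (nat_lit 394) (B (L (nat_lit 393) ln13_13_3 ln13_13_3_ok) (L (nat_lit 395) ln14_13_3 ln14_13_3_ok))) (M (nat_lit 458) (B (L (nat_lit 457) ln13_13_1 ln13_13_1_ok) (L (nat_lit 459) ln14_13_1 ln14_13_1_ok)))))))) (B (M (nat_lit 427) (B (M (nat_lit 431) (B (M (nat_lit 395) (B (L (nat_lit 394) ln14_13_3 ln14_13_3_ok) (L (nat_lit 396) ln15_13_3 ln15_13_3_ok))) (M (nat_lit 399) (B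 (L (nat_lit 398) ln11_13_2 ln11_13_2_ok) (L (nat_lit 400) ln12_13_2 ln12_13_2_ok))))) (B (M (nat_lit 431) (B (M (nat_lit 399) (B (L (nat_lit 398) ln11_13_2 ln11_13_2_ok) (L (nat_lit 400) ln12_13_2 ln12_13_2_ok))) (M (nat_lit 459) (B (L (nat_lit 458) ln14_13_1 ln14_13_1_ok) (L (nat_lit 460) ln15_13_1 ln15_13_1_ok))))) (B (M (nat_lit 431) (B (M (nat_lit 395) (B (L (nat_lit 394) ln14_13_3 ln14_13_3_ok) (L (nat_lit 396) ln15_13_3 ln15_13_3_ok))) (M (nat_lit 459) (B (L (nat_lit 458) ln14_13_1 ln14_13_1_ok) (L (nat_lit 460) ln15_13_1 ln15_13_1_ok))))) (M (nat_lit 426) (B (M (nat_lit 398) (B (L (nat_lit 397) ln10_13_2 ln10_13_2_ok) (L (nat_lit 399) ln11_13_2 ln11_13_2_ok))) (M (nat_lit 458) (B (L (nat_lit 457) ln13_13_1 ln13_13_1_ok) (L (nat_lit 459) ln14_13_1 ln14_13_1_ok))))))))) (B (M (nat_lit 431) (B (M (nat_lit 427) (B (M (nat_lit 399) (B (L (nat_lit 398) ln11_13_2 ln11_13_2_ok) (L (nat_lit 400) ln12_13_2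 ln12_13_2_ok))) (M (nat_lit 459) (B (L (nat_lit 458) ln14_13_1 ln14_13_1_ok) (L (nat_lit 460) ln15_13_1 ln15_13_1_ok))))) (M (nat_lit 432) (B (M (nat_lit 396) (B (L (nat_lit 395) ln15_13_3 ln15_13_3_ok) (L (nat_lit 397) ln16_13_3 ln16_13_3_ok))) (M (nat_lit 464) (B (L (nat_lit 463) ln12_13_0 ln12_13_0_ok) (L (nat_lit 465) ln13_13_0 ln13_13_0_ok))))))) (B (M (nat_lit 431) (B (M (nat_lit 460) (B (L (nat_lit 459) ln15_13_1 ln15_13_1_ok) (M (nat_lit 432) (B (L (nat_lit 461) ln16_13_1 ln16_13_1_ok) (M (nat_lit 464) (B (L (nat_lit 463) ln12_13_0 ln12_13_0_ok) (L (nat_lit 465) ln13_13_0 ln13_13_0_ok))))))) (B (M (nat_lit 427) (B (M (nat_lit 399) (B (L (nat_lit 398) ln11_13_2 ln11_13_2_ok) (L (nat_lit 400) ln12_13_2 ln12_13_2_ok))) (M (nat_lit 459) (B (L (nat_lit 458) ln14_13_1 ln14_13_1_ok) (L (nat_lit 460) ln15_13_1 ln15_13_1_ok))))) (M (nat_lit 432) (B (M (nat_lit 400) (B (L (nat_lit 399) ln12_13_2 ln12_13_2_ok)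 (L (nat_lit 401) ln13_13_2 ln13_13_2_ok))) (M (nat_lit 464) (B (L (nat_lit 463) ln12_13_0 ln12_13_0_ok) (L (nat_lit 465) ln13_13_0 ln13_13_0_ok)))))))) (B (M (nat_lit 431) (B (M (nat_lit 427) (B (M (nat_lit 395) (B (L (nat_lit 394) ln14_13_3 ln14_13_3_ok) (L (nat_lit 396) ln15_13_3 ln15_13_3_ok))) (M (nat_lit 459) (B (L (nat_lit 458) ln14_13_1 ln14_13_1_ok) (L (nat_lit 460) ln15_13_1 ln15_13_1_ok))))) (M (nat_lit 432) (B (M (nat_lit 400) (B (L (nat_lit 399) ln12_13_2 ln12_13_2_ok) (L (nat_lit 401) ln13_13_2 ln13_13_2_ok))) (M (nat_lit 464) (B (L (nat_lit 463) ln12_13_0 ln12_13_0_ok) (L (nat_lit 465) ln13_13_0 ln13_13_0_ok))))))) (B (M (nat_lit 431) (B (M (nat_lit 460) (B (L (nat_lit 459) ln15_13_1 ln15_13_1_ok) (M (nat_lit 432) (B (L (nat_lit 461) ln16_13_1 ln16_13_1_ok) (M (nat_lit 464) (B (L (nat_lit 463) ln12_13_0 ln12_13_0_ok) (L (nat_lit 465) ln13_13_0 ln13_13_0_ok))))))) (B (M (nat_lit 427) (B (M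 (nat_lit 395) (B (L (nat_lit 394) ln14_13_3 ln14_13_3_ok) (L (nat_lit 396) ln15_13_3 ln15_13_3_ok))) (M (nat_lit 459) (B (L (nat_lit 458) ln14_13_1 ln14_13_1_ok) (L (nat_lit 460) ln15_13_1 ln15_13_1_ok))))) (M (nat_lit 432) (B (M (nat_lit 396) (B (L (nat_lit 395) ln15_13_3 ln15_13_3_ok) (L (nat_lit 397) ln16_13_3 ln16_13_3_ok))) (M (nat_lit 464) (B (L (nat_lit 463) ln12_13_0 ln12_13_0_ok) (L (nat_lit 465) ln13_13_0 ln13_13_0_ok)))))))) (B c40_n6075 (B (M (nat_lit 427) (B (M (nat_lit 398) (B (L (nat_lit 399) ln11_13_2 ln11_13_2_ok) (M (nat_lit 394) (B (L (nat_lit 395) ln14_13_3 ln14_13_3_ok) (M (nat_lit 426) (B (L (nat_lit 393) ln13_13_3 ln13_13_3_ok) (L (nat_lit 397) ln10_13_2 ln10_13_2_ok))))))) (B (M (nat_lit 426) (B (M (nat_lit 398) (B (L (nat_lit 397) ln10_13_2 ln10_13_2_ok) (L (nat_lit 399) ln11_13_2 ln11_13_2_ok))) (M (nat_lit 458) (B (L (nat_lit 457) ln13_13_1 ln13_13_1_ok) (L (nat_lit 459) ln14_13_1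 ln14_13_1_ok))))) (B (M (nat_lit 426) (B (M (nat_lit 394) (B (L (nat_lit 393) ln13_13_3 ln13_13_3_ok) (L (nat_lit 395) ln14_13_3 ln14_13_3_ok))) (M (nat_lit 458) (B (L (nat_lit 457) ln13_13_1 ln13_13_1_ok) (L (nat_lit 459) ln14_13_1 ln14_13_1_ok))))) (M (nat_lit 395) (B (L (nat_lit 394) ln14_13_3 ln14_13_3_ok) (M (nat_lit 459) (B (L (nat_lit 458) ln14_13_1 ln14_13_1_ok) (M (nat_lit 491) (B (M (nat_lit 396) (B (L (nat_lit 364) ln11_15_6 ln11_15_6_ok) (L (nat_lit 523) ln11_16_6 ln11_16_6_ok))) (B (M (nat_lit 524) (B (L (nat_lit 492) ln11_12_4 ln11_12_4_ok) (M (nat_lit 523) (B (L (nat_lit 396) ln11_16_6 ln11_16_6_ok) (L (nat_lit 556) ln11_13_4 ln11_13_4_ok))))) (B (M (nat_lit 523) (B (M (nat_lit 522) (B (L (nat_lit 490) ln11_12_5 ln11_12_5_ok) (L (nat_lit 554) ln11_13_5 ln11_13_5_ok))) (M (nat_lit 524) (B (L (nat_lit 492) ln11_12_4 ln11_12_4_ok) (L (nat_lit 556) ln11_13_4 ln11_13_4_ok))))) (M (nat_lit 363)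 (B (M (nat_lit 364) (B (L (nat_lit 332) ln11_14_6 ln11_14_6_ok) (L (nat_lit 396) ln11_15_6 ln11_15_6_ok))) (M (nat_lit 492) (B (L (nat_lit 460) ln11_11_4 ln11_11_4_ok) (L (nat_lit 524) ln11_12_4 ln11_12_4_ok))))))))))))))))) (M (nat_lit 431) (B (M (nat_lit 432) (B (M (nat_lit 400) (B (L (nat_lit 399) ln12_13_2 ln12_13_2_ok) (L (nat_lit 401) ln13_13_2 ln13_13_2_ok))) (M (nat_lit 464) (B (L (nat_lit 463) ln12_13_0 ln12_13_0_ok) (L (nat_lit 465) ln13_13_0 ln13_13_0_ok))))) (B (M (nat_lit 432) (B (M (nat_lit 396) (B (L (nat_lit 395) ln15_13_3 ln15_13_3_ok) (L (nat_lit 397) ln16_13_3 ln16_13_3_ok))) (M (nat_lit 464) (B (L (nat_lit 463) ln12_13_0 ln12_13_0_ok) (L (nat_lit 465) ln13_13_0 ln13_13_0_ok))))) (M (nat_lit 427) (B (M (nat_lit 395) (B (L (nat_lit 394) ln14_13_3 ln14_13_3_ok) (L (nat_lit 396) ln15_13_3 ln15_13_3_ok))) (M (nat_lit 399) (B (L (nat_lit 398) ln11_13_2 ln11_13_2_ok) (L (nat_lit 400) ln12_13_2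 ln12_13_2_ok))))))))))))))))) (nat_lit 2079502270590611144683810638107312777577327806531862431377859685460965980854219217279980804578104683573043408221052678871730618368) (nat_lit 884522443523492684283482704279691929431094103133052066586714768132859220248110244373992809152892180683028874970098397756212288687504763832134927917138813466977157251072) (nat_lit 884522443523492684283482704279691929431094103133052066586714768132859220248110244373992809152892180683028874970098397756212288687504763832134927917138813466977157251072) (by decide +kernel)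
noncomputable def c40_n6128 : Cert := (M (nat_lit 396) (B (M (nat_lit 395) (B (L (nat_lit 431) ln15_13_3 ln15_13_3_ok) (M (nat_lit 394) (B (L (nat_lit 393) ln9_12_0 ln9_12_0_ok) (L (nat_lit 397) ln10_12_0 ln10_12_0_ok))))) (B (M (nat_lit 431) (B (L (nat_lit 395) ln15_13_3 ln15_13_3_ok) (M (nat_lit 432) (B (L (nat_lit 397) ln16_13_3 ln16_13_3_ok) (M (nat_lit 400) (B (L (nat_lit 399) ln12_13_2 ln12_13_2_ok) (L (nat_lit 401) ln13_13_2 ln13_13_2_ok))))))) (B (M (nat_lit 460) (B (M (nat_lit 431) (B (L (nat_lit 459) ln15_13_1 ln15_13_1_ok) (M (nat_lit 432) (B (L (nat_lit 397) ln16_13_3 ln16_13_3_ok) (L (nat_lit 461) ln16_13_1 ln16_13_1_ok))))) (B (M (nat_lit 461) (B (M (nat_lit 364) (B (L (nat_lit 332) ln12_10_4 ln12_10_4_ok) (L (nat_lit 493) ln12_11_4 ln12_11_4_ok))) (M (nat_lit 431) (B (L (nat_lit 459) ln15_13_1 ln15_13_1_ok) (L (nat_lit 432) ln16_13_1 ln16_13_1_ok))))) (B (M (nat_lit 364) (B (M (nat_lit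 461) (B (L (nat_lit 332) ln12_10_4 ln12_10_4_ok) (L (nat_lit 493) ln12_11_4 ln12_11_4_ok))) (M (nat_lit 492) (B (M (nat_lit 365) (B (L (nat_lit 333) ln12_14_6 ln12_14_6_ok) (L (nat_lit 397) ln12_15_6 ln12_15_6_ok))) (M (nat_lit 491) (B (L (nat_lit 459) ln12_11_5 ln12_11_5_ok) (L (nat_lit 523) ln12_12_5 ln12_12_5_ok))))))) (B (M (nat_lit 364) (B (M (nat_lit 461) (B (L (nat_lit 332) ln12_10_4 ln12_10_4_ok) (L (nat_lit 493) ln12_11_4 ln12_11_4_ok))) (B (M (nat_lit 492) (B (M (nat_lit 365) (B (L (nat_lit 333) ln12_14_6 ln12_14_6_ok) (L (nat_lit 397) ln12_15_6 ln12_15_6_ok))) (M (nat_lit 493) (B (L (nat_lit 461) ln12_11_4 ln12_11_4_ok) (L (nat_lit 525) ln12_12_4 ln12_12_4_ok))))) (M (nat_lit 332) (B (M (nat_lit 331) (B (L (nat_lit 299) ln12_13_7 ln12_13_7_ok) (L (nat_lit 363) ln12_14_7 ln12_14_7_ok))) (M (nat_lit 333) (B (L (nat_lit 301) ln12_13_6 ln12_13_6_ok) (L (nat_lit 365) ln12_14_6 ln12_14_6_ok))))))))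 (M (nat_lit 397) (B (M (nat_lit 365) (B (L (nat_lit 333) ln13_10_5 ln13_10_5_ok) (L (nat_lit 492) ln12_15_6 ln12_15_6_ok))) (M (nat_lit 431) (B (L (nat_lit 432) ln16_13_3 ln16_13_3_ok) (L (nat_lit 459) ln15_13_1 ln15_13_1_ok)))))))))) (B (M (nat_lit 431) (B (L (nat_lit 395) ln15_13_3 ln15_13_3_ok) (M (nat_lit 432) (B (M (nat_lit 400) (B (L (nat_lit 399) ln12_13_2 ln12_13_2_ok) (L (nat_lit 401) ln13_13_2 ln13_13_2_ok))) (M (nat_lit 460) (B (L (nat_lit 459) ln15_13_1 ln15_13_1_ok) (L (nat_lit 461) ln16_13_1 ln16_13_1_ok))))))) (M (nat_lit 460) (B (M (nat_lit 364) (B (M (nat_lit 461) (B (L (nat_lit 332) ln12_10_4 ln12_10_4_ok) (L (nat_lit 493) ln12_11_4 ln12_11_4_ok))) (M (nat_lit 492) (B (M (nat_lit 365) (B (L (nat_lit 333) ln12_14_6 ln12_14_6_ok) (L (nat_lit 397) ln12_15_6 ln12_15_6_ok))) (M (nat_lit 491) (B (L (nat_lit 459) ln12_11_5 ln12_11_5_ok) (L (nat_lit 523) ln12_12_5 ln12_12_5_ok))))))) (B (M (nat_lit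 395) (B (M (nat_lit 394) (B (L (nat_lit 393) ln9_12_0 ln9_12_0_ok) (L (nat_lit 397) ln10_12_0 ln10_12_0_ok))) (M (nat_lit 363) (B (L (nat_lit 492) ln12_15_7 ln12_15_7_ok) (M (nat_lit 331) (B (L (nat_lit 299) ln11_9_4 ln11_9_4_ok) (L (nat_lit 364) ln12_14_7 ln12_14_7_ok))))))) (B (M (nat_lit 492) (B (M (nat_lit 397) (B (L (nat_lit 365) ln12_15_6 ln12_15_6_ok) (L (nat_lit 524) ln12_16_6 ln12_16_6_ok))) (B (M (nat_lit 395) (B (L (nat_lit 363) ln12_15_7 ln12_15_7_ok) (M (nat_lit 394) (B (L (nat_lit 393) ln9_12_0 ln9_12_0_ok) (L (nat_lit 397) ln10_12_0 ln10_12_0_ok))))) (M (nat_lit 524) (B (M (nat_lit 523) (B (L (nat_lit 491) ln12_12_5 ln12_12_5_ok) (L (nat_lit 555) ln12_13_5 ln12_13_5_ok))) (M (nat_lit 525) (B (L (nat_lit 493) ln12_12_4 ln12_12_4_ok) (L (nat_lit 557) ln12_13_4 ln12_13_4_ok)))))))) (B (M (nat_lit 364) (B (M (nat_lit 461) (B (L (nat_lit 332) ln12_10_4 ln12_10_4_ok) (L (nat_lit 493) ln12_11_4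 ln12_11_4_ok))) (M (nat_lit 492) (B (M (nat_lit 363) (B (L (nat_lit 331) ln12_14_7 ln12_14_7_ok) (L (nat_lit 395) ln12_15_7 ln12_15_7_ok))) (M (nat_lit 491) (B (L (nat_lit 459) ln12_11_5 ln12_11_5_ok) (L (nat_lit 523) ln12_12_5 ln12_12_5_ok))))))) (M (nat_lit 364) (B (M (nat_lit 461) (B (L (nat_lit 332) ln12_10_4 ln12_10_4_ok) (L (nat_lit 493) ln12_11_4 ln12_11_4_ok))) (B (M (nat_lit 461) (B (L (nat_lit 493) ln12_11_4 ln12_11_4_ok) (M (nat_lit 459) (B (L (nat_lit 491) ln12_11_5 ln12_11_5_ok) (L (nat_lit 458) ln10_14_2 ln10_14_2_ok))))) (M (nat_lit 332) (B (M (nat_lit 331) (B (L (nat_lit 299) ln12_13_7 ln12_13_7_ok) (L (nat_lit 363) ln12_14_7 ln12_14_7_ok))) (M (nat_lit 333) (B (L (nat_lit 301) ln12_13_6 ln12_13_6_ok) (L (nat_lit 365) ln12_14_6 ln12_14_6_ok))))))))))))))))))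
theorem c40_s6147 : Sem (nat_lit 2079502270590611144683810638107312777577327806531862431377859685460965980854219217279980804578104683573043408221052678871730618368) (nat_lit 884522443523492684283482704124881095866010846229121852475131315507073775690776476451241720935622699695397009346606284209240735525004003432518742911134203363106851127296) (nat_lit 884522443523492684283482704124881095866010846229121852475131315507073775690776476451241720935622699695397009346606284209240735525004003432518742911134203363106851127296) :=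
  sem_of_chk (M (nat_lit 430) (B (M (nat_lit 427) (B (M (nat_lit 426) (B (M (nat_lit 398) (B (L (nat_lit 397) ln10_13_2 ln10_13_2_ok) (L (nat_lit 399) ln11_13_2 ln11_13_2_ok))) (M (nat_lit 458) (B (L (nat_lit 457) ln13_13_1 ln13_13_1_ok) (L (nat_lit 459) ln14_13_1 ln14_13_1_ok))))) (B (M (nat_lit 431) (B (M (nat_lit 395) (B (L (nat_lit 394) ln14_13_3 ln14_13_3_ok) (L (nat_lit 396) ln15_13_3 ln15_13_3_ok))) (M (nat_lit 399) (B (L (nat_lit 398) ln11_13_2 ln11_13_2_ok) (L (nat_lit 400) ln12_13_2 ln12_13_2_ok))))) (M (nat_lit 426) (B (M (nat_lit 394) (B (L (nat_lit 393) ln13_13_3 ln13_13_3_ok) (L (nat_lit 395) ln14_13_3 ln14_13_3_ok))) (M (nat_lit 458) (B (L (nat_lit 457) ln13_13_1 ln13_13_1_ok) (L (nat_lit 459) ln14_13_1 ln14_13_1_ok)))))))) (B (M (nat_lit 427) (B (M (nat_lit 431) (B (M (nat_lit 395) (B (L (nat_lit 394) ln14_13_3 ln14_13_3_ok) (L (nat_lit 396) ln15_13_3 ln15_13_3_ok))) (M (nat_lit 399) (B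 (L (nat_lit 398) ln11_13_2 ln11_13_2_ok) (L (nat_lit 400) ln12_13_2 ln12_13_2_ok))))) (B (M (nat_lit 431) (B (M (nat_lit 399) (B (L (nat_lit 398) ln11_13_2 ln11_13_2_ok) (L (nat_lit 400) ln12_13_2 ln12_13_2_ok))) (M (nat_lit 459) (B (L (nat_lit 458) ln14_13_1 ln14_13_1_ok) (L (nat_lit 460) ln15_13_1 ln15_13_1_ok))))) (B (M (nat_lit 431) (B (M (nat_lit 395) (B (L (nat_lit 394) ln14_13_3 ln14_13_3_ok) (L (nat_lit 396) ln15_13_3 ln15_13_3_ok))) (M (nat_lit 459) (B (L (nat_lit 458) ln14_13_1 ln14_13_1_ok) (L (nat_lit 460) ln15_13_1 ln15_13_1_ok))))) (M (nat_lit 426) (B (M (nat_lit 398) (B (L (nat_lit 397) ln10_13_2 ln10_13_2_ok) (L (nat_lit 399) ln11_13_2 ln11_13_2_ok))) (M (nat_lit 458) (B (L (nat_lit 457) ln13_13_1 ln13_13_1_ok) (L (nat_lit 459) ln14_13_1 ln14_13_1_ok))))))))) (B (M (nat_lit 461) (B (M (nat_lit 398) (B (M (nat_lit 493) (B (L (nat_lit 525) ln13_16_6 ln13_16_6_ok) (M (nat_lit 366) (B (L (nat_lit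 334) ln14_10_5 ln14_10_5_ok) (L (nat_lit 397) ln13_15_6 ln13_15_6_ok))))) (B (M (nat_lit 493) (B (L (nat_lit 525) ln13_16_6 ln13_16_6_ok) (M (nat_lit 366) (B (L (nat_lit 397) ln13_15_6 ln13_15_6_ok) (L (nat_lit 462) ln14_11_5 ln14_11_5_ok))))) (B (M (nat_lit 427) (B (L (nat_lit 399) ln11_13_2 ln11_13_2_ok) (M (nat_lit 426) (B (L (nat_lit 397) ln10_13_2 ln10_13_2_ok) (L (nat_lit 462) ln10_13_0 ln10_13_0_ok))))) (M (nat_lit 493) (B (L (nat_lit 525) ln13_16_6 ln13_16_6_ok) (M (nat_lit 366) (B (L (nat_lit 334) ln14_10_5 ln14_10_5_ok) (L (nat_lit 462) ln14_11_5 ln14_11_5_ok))))))))) (B (M (nat_lit 398) (B (M (nat_lit 493) (B (L (nat_lit 525) ln13_16_6 ln13_16_6_ok) (M (nat_lit 366) (B (L (nat_lit 397) ln13_15_6 ln13_15_6_ok) (L (nat_lit 462) ln14_11_5 ln14_11_5_ok))))) (B (M (nat_lit 399) (B (L (nat_lit 427) ln11_13_2 ln11_13_2_ok) (M (nat_lit 400) (B (L (nat_lit 397) ln16_12_1 ln16_12_1_ok) (L (nat_lit 401)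 ln17_12_1 ln17_12_1_ok))))) (M (nat_lit 399) (B (L (nat_lit 427) ln11_13_2 ln11_13_2_ok) (M (nat_lit 400) (B (L (nat_lit 401) ln17_12_1 ln17_12_1_ok) (L (nat_lit 431) ln12_13_2 ln12_13_2_ok)))))))) (B (M (nat_lit 396) (B (M (nat_lit 493) (B (L (nat_lit 525) ln13_16_7 ln13_16_7_ok) (M (nat_lit 364) (B (L (nat_lit 332) ln12_10_4 ln12_10_4_ok) (L (nat_lit 460) ln12_11_4 ln12_11_4_ok))))) (B (M (nat_lit 493) (B (L (nat_lit 525) ln13_16_7 ln13_16_7_ok) (M (nat_lit 364) (B (L (nat_lit 397) ln13_15_7 ln13_15_7_ok) (L (nat_lit 460) ln12_11_4 ln12_11_4_ok))))) (B (M (nat_lit 431) (B (L (nat_lit 395) ln15_13_3 ln15_13_3_ok) (M (nat_lit 432) (B (L (nat_lit 397) ln16_13_3 ln16_13_3_ok) (L (nat_lit 460) ln16_13_1 ln16_13_1_ok))))) (M (nat_lit 493) (B (L (nat_lit 525) ln13_16_7 ln13_16_7_ok) (M (nat_lit 364) (B (L (nat_lit 332) ln12_10_4 ln12_10_4_ok) (L (nat_lit 397) ln13_15_7 ln13_15_7_ok))))))))) (B (M (nat_lit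 398) (B (M (nat_lit 399) (B (L (nat_lit 427) ln11_13_2 ln11_13_2_ok) (M (nat_lit 400) (B (L (nat_lit 401) ln17_12_1 ln17_12_1_ok) (L (nat_lit 431) ln12_13_2 ln12_13_2_ok))))) (M (nat_lit 493) (B (L (nat_lit 525) ln13_16_6 ln13_16_6_ok) (M (nat_lit 366) (B (L (nat_lit 334) ln14_10_5 ln14_10_5_ok) (L (nat_lit 462) ln14_11_5 ln14_11_5_ok))))))) (M (nat_lit 427) (B (M (nat_lit 426) (B (L (nat_lit 462) ln10_13_0 ln10_13_0_ok) (M (nat_lit 458) (B (L (nat_lit 457) ln13_13_1 ln13_13_1_ok) (L (nat_lit 459) ln14_13_1 ln14_13_1_ok))))) (B (M (nat_lit 431) (B (M (nat_lit 399) (B (L (nat_lit 398) ln11_13_2 ln11_13_2_ok) (L (nat_lit 400) ln12_13_2 ln12_13_2_ok))) (M (nat_lit 459) (B (L (nat_lit 458) ln14_13_1 ln14_13_1_ok) (L (nat_lit 460) ln15_13_1 ln15_13_1_ok))))) (M (nat_lit 398) (B (L (nat_lit 399) ln11_13_2 ln11_13_2_ok) (M (nat_lit 426) (B (L (nat_lit 397) ln10_13_2 ln10_13_2_ok) (L (nat_lit 462) ln10_13_0 ln10_13_0_ok)))))))))))))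 (B (M (nat_lit 427) (B (M (nat_lit 426) (B (M (nat_lit 398) (B (L (nat_lit 397) ln10_13_2 ln10_13_2_ok) (L (nat_lit 399) ln11_13_2 ln11_13_2_ok))) (M (nat_lit 458) (B (L (nat_lit 457) ln13_13_1 ln13_13_1_ok) (L (nat_lit 459) ln14_13_1 ln14_13_1_ok))))) (B (M (nat_lit 431) (B (M (nat_lit 399) (B (L (nat_lit 398) ln11_13_2 ln11_13_2_ok) (L (nat_lit 400) ln12_13_2 ln12_13_2_ok))) (M (nat_lit 459) (B (L (nat_lit 458) ln14_13_1 ln14_13_1_ok) (L (nat_lit 460) ln15_13_1 ln15_13_1_ok))))) (B (M (nat_lit 426) (B (M (nat_lit 458) (B (L (nat_lit 457) ln13_13_1 ln13_13_1_ok) (L (nat_lit 459) ln14_13_1 ln14_13_1_ok))) (M (nat_lit 425) (B (M (nat_lit 393) (B (L (nat_lit 392) ln12_13_3 ln12_13_3_ok) (L (nat_lit 394) ln13_13_3 ln13_13_3_ok))) (M (nat_lit 461) (B (L (nat_lit 460) ln9_13_0 ln9_13_0_ok) (L (nat_lit 462) ln10_13_0 ln10_13_0_ok))))))) (B (M (nat_lit 461) (B (M (nat_lit 398) (B (L (nat_lit 399) ln11_13_2 ln11_13_2_ok)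 (M (nat_lit 426) (B (L (nat_lit 397) ln10_13_2 ln10_13_2_ok) (L (nat_lit 462) ln10_13_0 ln10_13_0_ok))))) (B (M (nat_lit 431) (B (M (nat_lit 399) (B (L (nat_lit 398) ln11_13_2 ln11_13_2_ok) (L (nat_lit 400) ln12_13_2 ln12_13_2_ok))) (M (nat_lit 460) (B (L (nat_lit 459) ln15_13_1 ln15_13_1_ok) (L (nat_lit 432) ln16_13_1 ln16_13_1_ok))))) (M (nat_lit 460) (B (M (nat_lit 426) (B (L (nat_lit 425) ln9_13_0 ln9_13_0_ok) (L (nat_lit 462) ln10_13_0 ln10_13_0_ok))) (M (nat_lit 431) (B (L (nat_lit 459) ln15_13_1 ln15_13_1_ok) (L (nat_lit 432) ln16_13_1 ln16_13_1_ok)))))))) (M (nat_lit 426) (B (M (nat_lit 398) (B (L (nat_lit 397) ln10_13_2 ln10_13_2_ok) (L (nat_lit 399) ln11_13_2 ln11_13_2_ok))) (M (nat_lit 425) (B (M (nat_lit 393) (B (L (nat_lit 392) ln12_13_3 ln12_13_3_ok) (L (nat_lit 394) ln13_13_3 ln13_13_3_ok))) (M (nat_lit 461) (B (L (nat_lit 460) ln9_13_0 ln9_13_0_ok) (L (nat_lit 462) ln10_13_0 ln10_13_0_ok))))))))))))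 (B (M (nat_lit 427) (B (M (nat_lit 431) (B (M (nat_lit 399) (B (L (nat_lit 398) ln11_13_2 ln11_13_2_ok) (L (nat_lit 400) ln12_13_2 ln12_13_2_ok))) (M (nat_lit 459) (B (L (nat_lit 458) ln14_13_1 ln14_13_1_ok) (L (nat_lit 460) ln15_13_1 ln15_13_1_ok))))) (B (M (nat_lit 431) (B (M (nat_lit 395) (B (L (nat_lit 394) ln14_13_3 ln14_13_3_ok) (L (nat_lit 396) ln15_13_3 ln15_13_3_ok))) (M (nat_lit 459) (B (L (nat_lit 458) ln14_13_1 ln14_13_1_ok) (L (nat_lit 460) ln15_13_1 ln15_13_1_ok))))) (B (M (nat_lit 426) (B (M (nat_lit 394) (B (L (nat_lit 393) ln13_13_3 ln13_13_3_ok) (L (nat_lit 395) ln14_13_3 ln14_13_3_ok))) (M (nat_lit 458) (B (L (nat_lit 457) ln13_13_1 ln13_13_1_ok) (L (nat_lit 459) ln14_13_1 ln14_13_1_ok))))) (M (nat_lit 431) (B (M (nat_lit 395) (B (L (nat_lit 394) ln14_13_3 ln14_13_3_ok) (L (nat_lit 396) ln15_13_3 ln15_13_3_ok))) (M (nat_lit 399) (B (L (nat_lit 398) ln11_13_2 ln11_13_2_ok) (L (nat_lit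 400) ln12_13_2 ln12_13_2_ok))))))))) (B (M (nat_lit 431) (B (M (nat_lit 432) (B (M (nat_lit 400) (B (L (nat_lit 399) ln12_13_2 ln12_13_2_ok) (L (nat_lit 401) ln13_13_2 ln13_13_2_ok))) (M (nat_lit 460) (B (L (nat_lit 459) ln15_13_1 ln15_13_1_ok) (L (nat_lit 461) ln16_13_1 ln16_13_1_ok))))) (B (M (nat_lit 427) (B (M (nat_lit 395) (B (L (nat_lit 394) ln14_13_3 ln14_13_3_ok) (L (nat_lit 396) ln15_13_3 ln15_13_3_ok))) (M (nat_lit 459) (B (L (nat_lit 458) ln14_13_1 ln14_13_1_ok) (L (nat_lit 460) ln15_13_1 ln15_13_1_ok))))) (M (nat_lit 432) (B (M (nat_lit 396) (B (L (nat_lit 395) ln15_13_3 ln15_13_3_ok) (L (nat_lit 397) ln16_13_3 ln16_13_3_ok))) (M (nat_lit 400) (B (L (nat_lit 399) ln12_13_2 ln12_13_2_ok) (L (nat_lit 401) ln13_13_2 ln13_13_2_ok)))))))) (B (M (nat_lit 427) (B (M (nat_lit 431) (B (M (nat_lit 395) (B (L (nat_lit 394) ln14_13_3 ln14_13_3_ok) (L (nat_lit 396) ln15_13_3 ln15_13_3_ok))) (M (nat_lit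 459) (B (L (nat_lit 458) ln14_13_1 ln14_13_1_ok) (L (nat_lit 460) ln15_13_1 ln15_13_1_ok))))) (B (M (nat_lit 397) (B (M (nat_lit 426) (B (L (nat_lit 398) ln10_13_2 ln10_13_2_ok) (M (nat_lit 458) (B (L (nat_lit 457) ln13_13_1 ln13_13_1_ok) (L (nat_lit 459) ln14_13_1 ln14_13_1_ok))))) (B (M (nat_lit 431) (B (M (nat_lit 396) (B (L (nat_lit 395) ln15_13_3 ln15_13_3_ok) (L (nat_lit 432) ln16_13_3 ln16_13_3_ok))) (M (nat_lit 459) (B (L (nat_lit 458) ln14_13_1 ln14_13_1_ok) (L (nat_lit 460) ln15_13_1 ln15_13_1_ok))))) (M (nat_lit 396) (B (M (nat_lit 426) (B (L (nat_lit 425) ln9_13_2 ln9_13_2_ok) (L (nat_lit 398) ln10_13_2 ln10_13_2_ok))) (M (nat_lit 431) (B (L (nat_lit 395) ln15_13_3 ln15_13_3_ok) (L (nat_lit 432) ln16_13_3 ln16_13_3_ok)))))))) (B (M (nat_lit 426) (B (M (nat_lit 458) (B (L (nat_lit 457) ln13_13_1 ln13_13_1_ok) (L (nat_lit 459) ln14_13_1 ln14_13_1_ok))) (M (nat_lit 425) (B (M (nat_lit 393) (B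 (L (nat_lit 392) ln12_13_3 ln12_13_3_ok) (L (nat_lit 394) ln13_13_3 ln13_13_3_ok))) (M (nat_lit 461) (B (L (nat_lit 460) ln9_13_0 ln9_13_0_ok) (L (nat_lit 462) ln10_13_0 ln10_13_0_ok))))))) (B (M (nat_lit 461) (B (M (nat_lit 426) (B (L (nat_lit 462) ln10_13_0 ln10_13_0_ok) (M (nat_lit 394) (B (L (nat_lit 393) ln13_13_3 ln13_13_3_ok) (L (nat_lit 395) ln14_13_3 ln14_13_3_ok))))) (B (M (nat_lit 460) (B (M (nat_lit 426) (B (L (nat_lit 425) ln9_13_0 ln9_13_0_ok) (L (nat_lit 462) ln10_13_0 ln10_13_0_ok))) (M (nat_lit 431) (B (L (nat_lit 459) ln15_13_1 ln15_13_1_ok) (L (nat_lit 432) ln16_13_1 ln16_13_1_ok))))) (M (nat_lit 431) (B (M (nat_lit 395) (B (L (nat_lit 394) ln14_13_3 ln14_13_3_ok) (L (nat_lit 396) ln15_13_3 ln15_13_3_ok))) (M (nat_lit 460) (B (L (nat_lit 459) ln15_13_1 ln15_13_1_ok) (L (nat_lit 432) ln16_13_1 ln16_13_1_ok)))))))) (B (M (nat_lit 426) (B (M (nat_lit 394) (B (L (nat_lit 393) ln13_13_3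 ln13_13_3_ok) (L (nat_lit 395) ln14_13_3 ln14_13_3_ok))) (M (nat_lit 425) (B (M (nat_lit 397) (B (L (nat_lit 396) ln9_13_2 ln9_13_2_ok) (L (nat_lit 398) ln10_13_2 ln10_13_2_ok))) (M (nat_lit 461) (B (L (nat_lit 460) ln9_13_0 ln9_13_0_ok) (L (nat_lit 462) ln10_13_0 ln10_13_0_ok))))))) (M (nat_lit 426) (B (M (nat_lit 394) (B (L (nat_lit 393) ln13_13_3 ln13_13_3_ok) (L (nat_lit 395) ln14_13_3 ln14_13_3_ok))) (M (nat_lit 458) (B (L (nat_lit 457) ln13_13_1 ln13_13_1_ok) (L (nat_lit 459) ln14_13_1 ln14_13_1_ok))))))))))) (B c40_n6128 (B (M (nat_lit 427) (B (M (nat_lit 398) (B (L (nat_lit 399) ln11_13_2 ln11_13_2_ok) (M (nat_lit 394) (B (L (nat_lit 395) ln14_13_3 ln14_13_3_ok) (M (nat_lit 426) (B (L (nat_lit 393) ln13_13_3 ln13_13_3_ok) (L (nat_lit 397) ln10_13_2 ln10_13_2_ok))))))) (B (M (nat_lit 426) (B (M (nat_lit 398) (B (L (nat_lit 397) ln10_13_2 ln10_13_2_ok) (L (nat_lit 399) ln11_13_2 ln11_13_2_ok)))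 (M (nat_lit 458) (B (L (nat_lit 457) ln13_13_1 ln13_13_1_ok) (L (nat_lit 459) ln14_13_1 ln14_13_1_ok))))) (B (M (nat_lit 426) (B (M (nat_lit 394) (B (L (nat_lit 393) ln13_13_3 ln13_13_3_ok) (L (nat_lit 395) ln14_13_3 ln14_13_3_ok))) (M (nat_lit 458) (B (L (nat_lit 457) ln13_13_1 ln13_13_1_ok) (L (nat_lit 459) ln14_13_1 ln14_13_1_ok))))) (M (nat_lit 395) (B (L (nat_lit 394) ln14_13_3 ln14_13_3_ok) (M (nat_lit 459) (B (L (nat_lit 458) ln14_13_1 ln14_13_1_ok) (M (nat_lit 491) (B (M (nat_lit 396) (B (L (nat_lit 364) ln11_15_6 ln11_15_6_ok) (L (nat_lit 523) ln11_16_6 ln11_16_6_ok))) (B (M (nat_lit 524) (B (L (nat_lit 492) ln11_12_4 ln11_12_4_ok) (M (nat_lit 523) (B (L (nat_lit 396) ln11_16_6 ln11_16_6_ok) (L (nat_lit 556) ln11_13_4 ln11_13_4_ok))))) (B (M (nat_lit 523) (B (M (nat_lit 522) (B (L (nat_lit 490) ln11_12_5 ln11_12_5_ok) (L (nat_lit 554) ln11_13_5 ln11_13_5_ok))) (M (nat_lit 524) (B (L (nat_lit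 492) ln11_12_4 ln11_12_4_ok) (L (nat_lit 556) ln11_13_4 ln11_13_4_ok))))) (M (nat_lit 363) (B (M (nat_lit 364) (B (L (nat_lit 332) ln11_14_6 ln11_14_6_ok) (L (nat_lit 396) ln11_15_6 ln11_15_6_ok))) (M (nat_lit 492) (B (L (nat_lit 460) ln11_11_4 ln11_11_4_ok) (L (nat_lit 524) ln11_12_4 ln11_12_4_ok))))))))))))))))) (B (M (nat_lit 427) (B (M (nat_lit 398) (B (L (nat_lit 399) ln11_13_2 ln11_13_2_ok) (M (nat_lit 394) (B (L (nat_lit 395) ln14_13_3 ln14_13_3_ok) (M (nat_lit 426) (B (L (nat_lit 393) ln13_13_3 ln13_13_3_ok) (L (nat_lit 397) ln10_13_2 ln10_13_2_ok))))))) (B (M (nat_lit 431) (B (M (nat_lit 395) (B (L (nat_lit 394) ln14_13_3 ln14_13_3_ok) (L (nat_lit 396) ln15_13_3 ln15_13_3_ok))) (M (nat_lit 399) (B (L (nat_lit 398) ln11_13_2 ln11_13_2_ok) (L (nat_lit 400) ln12_13_2 ln12_13_2_ok))))) (B (M (nat_lit 461) (B (M (nat_lit 398) (B (L (nat_lit 399) ln11_13_2 ln11_13_2_ok) (M (nat_lit 426) (B (L (nat_lit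 397) ln10_13_2 ln10_13_2_ok) (L (nat_lit 462) ln10_13_0 ln10_13_0_ok))))) (B (M (nat_lit 431) (B (M (nat_lit 399) (B (L (nat_lit 398) ln11_13_2 ln11_13_2_ok) (L (nat_lit 400) ln12_13_2 ln12_13_2_ok))) (M (nat_lit 460) (B (L (nat_lit 459) ln15_13_1 ln15_13_1_ok) (L (nat_lit 432) ln16_13_1 ln16_13_1_ok))))) (M (nat_lit 460) (B (M (nat_lit 426) (B (L (nat_lit 425) ln9_13_0 ln9_13_0_ok) (L (nat_lit 462) ln10_13_0 ln10_13_0_ok))) (M (nat_lit 431) (B (L (nat_lit 459) ln15_13_1 ln15_13_1_ok) (L (nat_lit 432) ln16_13_1 ln16_13_1_ok)))))))) (M (nat_lit 461) (B (M (nat_lit 426) (B (L (nat_lit 462) ln10_13_0 ln10_13_0_ok) (M (nat_lit 394) (B (L (nat_lit 393) ln13_13_3 ln13_13_3_ok) (L (nat_lit 395) ln14_13_3 ln14_13_3_ok))))) (B (M (nat_lit 460) (B (M (nat_lit 426) (B (L (nat_lit 425) ln9_13_0 ln9_13_0_ok) (L (nat_lit 462) ln10_13_0 ln10_13_0_ok))) (M (nat_lit 431) (B (L (nat_lit 459) ln15_13_1 ln15_13_1_ok) (L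 (nat_lit 432) ln16_13_1 ln16_13_1_ok))))) (M (nat_lit 431) (B (M (nat_lit 395) (B (L (nat_lit 394) ln14_13_3 ln14_13_3_ok) (L (nat_lit 396) ln15_13_3 ln15_13_3_ok))) (M (nat_lit 460) (B (L (nat_lit 459) ln15_13_1 ln15_13_1_ok) (L (nat_lit 432) ln16_13_1 ln16_13_1_ok)))))))))))) (M (nat_lit 461) (B (M (nat_lit 398) (B (M (nat_lit 493) (B (L (nat_lit 525) ln13_16_6 ln13_16_6_ok) (M (nat_lit 366) (B (L (nat_lit 334) ln14_10_5 ln14_10_5_ok) (L (nat_lit 397) ln13_15_6 ln13_15_6_ok))))) (B (M (nat_lit 493) (B (L (nat_lit 525) ln13_16_6 ln13_16_6_ok) (M (nat_lit 366) (B (L (nat_lit 397) ln13_15_6 ln13_15_6_ok) (L (nat_lit 462) ln14_11_5 ln14_11_5_ok))))) (B (M (nat_lit 427) (B (L (nat_lit 399) ln11_13_2 ln11_13_2_ok) (M (nat_lit 426) (B (L (nat_lit 397) ln10_13_2 ln10_13_2_ok) (L (nat_lit 462) ln10_13_0 ln10_13_0_ok))))) (M (nat_lit 493) (B (L (nat_lit 525) ln13_16_6 ln13_16_6_ok) (M (nat_lit 366) (B (L (nat_lit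 334) ln14_10_5 ln14_10_5_ok) (L (nat_lit 462) ln14_11_5 ln14_11_5_ok))))))))) (B (M (nat_lit 398) (B (M (nat_lit 493) (B (L (nat_lit 525) ln13_16_6 ln13_16_6_ok) (M (nat_lit 366) (B (L (nat_lit 397) ln13_15_6 ln13_15_6_ok) (L (nat_lit 462) ln14_11_5 ln14_11_5_ok))))) (B (M (nat_lit 427) (B (L (nat_lit 399) ln11_13_2 ln11_13_2_ok) (M (nat_lit 426) (B (L (nat_lit 397) ln10_13_2 ln10_13_2_ok) (L (nat_lit 462) ln10_13_0 ln10_13_0_ok))))) (B (M (nat_lit 462) (B (M (nat_lit 493) (B (L (nat_lit 366) ln14_11_5 ln14_11_5_ok) (L (nat_lit 525) ln13_16_6 ln13_16_6_ok))) (M (nat_lit 427) (B (L (nat_lit 399) ln11_13_2 ln11_13_2_ok) (L (nat_lit 426) ln10_13_0 ln10_13_0_ok))))) (M (nat_lit 397) (B (M (nat_lit 493) (B (L (nat_lit 366) ln13_15_6 ln13_15_6_ok) (L (nat_lit 525) ln13_16_6 ln13_16_6_ok))) (M (nat_lit 399) (B (L (nat_lit 400) ln16_12_1 ln16_12_1_ok) (L (nat_lit 427) ln11_13_2 ln11_13_2_ok))))))))) (B (M (nat_lit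 396) (B (M (nat_lit 493) (B (L (nat_lit 525) ln13_16_7 ln13_16_7_ok) (M (nat_lit 364) (B (L (nat_lit 332) ln12_10_4 ln12_10_4_ok) (L (nat_lit 460) ln12_11_4 ln12_11_4_ok))))) (M (nat_lit 395) (B (L (nat_lit 431) ln15_13_3 ln15_13_3_ok) (M (nat_lit 394) (B (L (nat_lit 393) ln9_12_0 ln9_12_0_ok) (L (nat_lit 427) ln14_13_3 ln14_13_3_ok))))))) (B (M (nat_lit 396) (B (M (nat_lit 395) (B (L (nat_lit 431) ln15_13_3 ln15_13_3_ok) (M (nat_lit 394) (B (L (nat_lit 393) ln9_12_0 ln9_12_0_ok) (L (nat_lit 397) ln10_12_0 ln10_12_0_ok))))) (M (nat_lit 493) (B (L (nat_lit 525) ln13_16_7 ln13_16_7_ok) (M (nat_lit 364) (B (L (nat_lit 332) ln12_10_4 ln12_10_4_ok) (L (nat_lit 460) ln12_11_4 ln12_11_4_ok))))))) (M (nat_lit 427) (B (M (nat_lit 426) (B (L (nat_lit 462) ln10_13_0 ln10_13_0_ok) (M (nat_lit 394) (B (L (nat_lit 393) ln13_13_3 ln13_13_3_ok) (L (nat_lit 395) ln14_13_3 ln14_13_3_ok))))) (B (M (nat_lit 398) (B (L (nat_lit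 399) ln11_13_2 ln11_13_2_ok) (M (nat_lit 426) (B (L (nat_lit 397) ln10_13_2 ln10_13_2_ok) (L (nat_lit 462) ln10_13_0 ln10_13_0_ok))))) (M (nat_lit 431) (B (M (nat_lit 395) (B (L (nat_lit 394) ln14_13_3 ln14_13_3_ok) (L (nat_lit 396) ln15_13_3 ln15_13_3_ok))) (M (nat_lit 399) (B (L (nat_lit 398) ln11_13_2 ln11_13_2_ok) (L (nat_lit 400) ln12_13_2 ln12_13_2_ok)))))))))))))))))))))))) (nat_lit 2079502270590611144683810638107312777577327806531862431377859685460965980854219217279980804578104683573043408221052678871730618368) (nat_lit 884522443523492684283482704124881095866010846229121852475131315507073775690776476451241720935622699695397009346606284209240735525004003432518742911134203363106851127296) (nat_lit 884522443523492684283482704124881095866010846229121852475131315507073775690776476451241720935622699695397009346606284209240735525004003432518742911134203363106851127296) (by decide +kernel)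
def c40_U : ℕ := 15702512532439454922110547429598065276122773103530621816563616167033313034135619788611914310315323943533417710209044827692629936196368460720753761663977874526309000493030931693568
noncomputable def c40_kids : Cert := (B (K (nat_lit 2079502270590611144683810638107312777577327806531862431377859685460965980854219217279980804578104683573043408221052678871730618368) (nat_lit 2358726516309779873924315912208194533437309006313641173965451137251222375777498465400999780907772434645481753235518445877226788691147341340033465009474922313014822567936) (nat_lit 2358726516309779873924315912208194533437309006313641173965451137251222375777498465400999780907772434645481753235518445877226788691147341340033465009474922313014822567936) c40_s233) (B (K (nat_lit 2079502270590611144683810638107312777577327806531862431377859685460965980854219217279980804578104683573043408221052678871730618368) (nat_lit 2476662842140371422462909370583933142671113940189810419753354027409080085534450136408787468158927173055491584764426791083666070094286157503159293351159693474128438755328)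 (nat_lit 2476662842140371422462909370583933142671113940189810419753354027409080085534450136408787468158927173055491584764426791083666070094286157503159293351159693474128438755328) c40_s374) (B (K (nat_lit 2079502270590611144683810638107312777577327806531862431377859685460965980854219217279980804578104683573043408221052678871730618368) (nat_lit 2476662842140371422462909370583933142671113940184645919997180210229733251178827214109574751676772159631100521558840689756712916012817946144118283860518677552288740933632) (nat_lit 2476662842140371422462909370583933142671113940184645919997180210229733251178827214109574751676772159631100521558840689756712916012817946144118283860518677552288740933632) c40_s375) (B (K (nat_lit 2079502270590611144683810638107312777577327806531862431377859685460965980854219217279980804578104683573043408221052678871730618368) (nat_lit 2532663311910144709401472320623584478226293607541644220088730664653330155722475354713283999496785142994794445589626491026867039733927007165233298270593996604842030315609570410496)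 (nat_lit 2532663311910144709401472320623584478226293607541644220088730664653330155722475354713283999496785142994794445589626491026867039733927007165233298270593996604842030315609570410496) c40_s488) (B (K (nat_lit 2079502270590611144683810638107312777577327806531862431377859685460965980854219217279980804578104683573043408221052678871730618368) (nat_lit 2532663311910144709621145845747763989105714433112248803041352594257915928823023818882578758960081471586994354964371029025490152475615918421803263484612150425454799772906468409344) (nat_lit 2532663311910144709621145845747763989105714433112248803041352594257915928823023818882578758960081471586994354964371029025490152475615918421803263484612150425454799772906468409344) c40_s549) (B (K (nat_lit 2079502270590611144683810638107312777577327806531862431377859685460965980854219217279980804578104683573043408221052678871730618368) (nat_lit 506532663042472366597509193657107664834672854713033588491210512251653136348511470533225238946154548487000010750349858400327975972386518340172920451502967524493138557818724417536)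 (nat_lit 506532663042472366597509193657107664834672854713033588491210512251653136348511470533225238946154548487000010750349858400327975972386518340172920451502967524493138557818724417536) c40_s628) (B (K (nat_lit 2079502270590611144683810638107312777577327806531862431377859685460965980854219217279980804578104683573043408221052678871730618368) (nat_lit 2532663311910144710060492896098416467361310517691370146977623426729993779461177078478829162774838432190289371494991198066632483810900204823147079713563233969803338976231950385152) (nat_lit 2532663311910144710060492896098416467361310517691370146977623426729993779461177078478829162774838432190289371494991198066632483810900204823147079713563233969803338976231950385152) c40_s729) (B (K (nat_lit 2079502270590611144683810638107312777577327806531862431377859685460965980854219217279980804578104683573043408221052678871730618368) (nat_lit 2532663311910144709401472320572437749977916390822688131075799427899869970390399330212865542467337048636641148585279623259550367542482520495723684784885739851517811424300244140032)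 (nat_lit 2532663311910144709401472320572437749977916390822688131075799427899869970390399330212865542467337048636641148585279623259550367542482520495723684784885739851517811424300244140032) c40_s786) (B (K (nat_lit 2079502270590611144683810638107312777577327806531862431377859685460965980854219217279980804578104683573043408221052678871730618368) (nat_lit 589681629729600746342132080089798697212653329976425705808626139930967350982709176047986242531543022526967071329620586163057682828680656673838339954511603912290724741120) (nat_lit 589681629729600746342132080089798697212653329976425705808626139930967350982709176047986242531543022526967071329620586163057682828680656673838339954511603912290724741120) c40_s850) (B (K (nat_lit 2079502270590611144683810638107312777577327806531862431377859685460965980854219217279980804578104683573043408221052678871730618368) (nat_lit 2476662842140371422462909370583933142671113940189790245926181473435732147668819013444204924584372299455103212605007915858061599573004071281058266968694376201658585579520)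 (nat_lit 2476662842140371422462909370583933142671113940189790245926181473435732147668819013444204924584372299455103212605007915858061599573004071281058266968694376201658585579520) c40_s884) (B (K (nat_lit 2079502270590611144683810638107312777577327806531862431377859685460965980854219217279980804578104683573043408221052678871730618368) (nat_lit 2358726516309779873924315912208194533437309006313580652483933475331187311183517469288795814352577029226752710393032227594717908795355857398647986844220326236903547338752) (nat_lit 2358726516309779873924315912208194533437309006313580652483933475331187311183517469288795814352577029226752710393032227594717908795355857398647986844220326236903547338752) c40_s906) (B (K (nat_lit 2079502270590611144683810638107312777577327806531862431377859685460965980854219217279980804578104683573043408221052678871730618368) (nat_lit 5065326625825206957456194725730151547733969297061329327340346408284081599165529119842457424552113654408157007710123157581529901937536411351918807269032282735619160870183959003136)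 (nat_lit 5065326625825206957456194725730151547733969297061329327340346408284081599165529119842457424552113654408157007710123157581529901937536411351918807269032282735619160870183959003136) c40_s1737) (B (K (nat_lit 2079502270590611144683810638107312777577327806531862431377859685460965980854219217279980804578104683573043408221052678871730618368) (nat_lit 10130653247640578837660807663794562813147678285424326203218415356221249605382589908401070022692689949530602926690181254974650760569574760543488068894880593240350715072186721239040) (nat_lit 10130653247640578837660807663794562813147678285424326203218415356221249605382589908401070022692689949530602926690181254974650760569574760543488068894880593240350715072186721239040) c40_s1779) (B (K (nat_lit 2079502270590611144683810638107312777577327806531862431377859685460965980854219217279980804578104683573043408221052678871730618368) (nat_lit 796316528981127882599558919534992355168076274306112875037105754515095591483413542356658547255997432927193506931205843906849287838138951802337024560837274107904)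 (nat_lit 796316528981127882599558919534992355168076274306112875037105754515095591483413542356658547255997432927193506931205843906849287838138951802337024560837274107904) c40_s1828) (B (K (nat_lit 2079502270590611144683810638107312777577327806531862431377859685460965980854219217279980804578104683573043408221052678871730618368) (nat_lit 884522443523492684283482704291600455089953326427166625385630107276295300508610510505062318128060468901271121706739550025602380646994885647811958518542868587067192901632) (nat_lit 884522443523492684283482704291600455089953326427166625385630107276295300508610510505062318128060468901271121706739550025602380646994885647811958518542868587067192901632) c40_s1863) (B (K (nat_lit 2079502270590611144683810638107312777577327806531862431377859685460965980854219217279980804578104683573043408221052678871730618368) (nat_lit 884522443743166209458808943419584568093020319676259468912585891020686628217548510255889514710328001204787351297200097288533864620020399594669460957205586666331802959872)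 (nat_lit 884522443743166209458808943419584568093020319676259468912585891020686628217548510255889514710328001204787351297200097288533864620020399594669460957205586666331802959872) c40_s2053) (B (K (nat_lit 2079502270590611144683810638107312777577327806531862431377859685460965980854219217279980804578104683573043408221052678871730618368) (nat_lit 884522443523492684334629432539977671808736123579696373924090318503308950576377551169040543728332137140514773766794903351747463207439395354161085298777120496462537424896) (nat_lit 884522443523492684334629432539977671808736123579696373924090318503308950576377551169040543728332137140514773766794903351747463207439395354161085298777120496462537424896) c40_s2113) (B (K (nat_lit 2079502270590611144683810638107312777577327806531862431377859685460965980854219217279980804578104683573043408221052678871730618368) (nat_lit 5065326625825206957456194726139325373816069165369825628942448934104148262294986984760119075932466461930972213087792570651548749039748940811645369758761953681561144431243801133056)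 (nat_lit 5065326625825206957456194726139325373816069165369825628942448934104148262294986984760119075932466461930972213087792570651548749039748940811645369758761953681561144431243801133056) c40_s3727) (B (K (nat_lit 2079502270590611144683810638107312777577327806531862431377859685460965980854219217279980804578104683573043408221052678871730618368) (nat_lit 2532663312912603480046138513813940584555492571374789125498304356539518729296123202377673303206955895855146329524711267448077383913794748995686394993373144569894577804367443787776) (nat_lit 2532663312912603480046138513813940584555492571374789125498304356539518729296123202377673303206955895855146329524711267448077383913794748995686394993373144569894577804367443787776) c40_s4999) (B (K (nat_lit 2079502270590611144683810638107312777577327806531862431377859685460965980854219217279980804578104683573043408221052678871730618368) (nat_lit 411887859806030155051167890438835872658316275632357824899363213514980197832068760560120026489556937660580323516660050887178615828898294764386969169744831184896)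 (nat_lit 411887859806030155051167890438835872658316275632357824899363213514980197832068760560120026489556937660580323516660050887178615828898294764386969169744831184896) c40_s5023) (B (K (nat_lit 2079502270590611144683810638107312777577327806531862431377859685460965980854219217279980804578104683573043408221052678871730618368) (nat_lit 2476662842140371422462909370582816718390682533933867933848799877887567363770174952670705931425304862378597249982710893304064392202778125193585029502395381534471275675648) (nat_lit 2476662842140371422462909370582816718390682533933867933848799877887567363770174952670705931425304862378597249982710893304064392202778125193585029502395381534471275675648) c40_s5074) (B (K (nat_lit 2079502270590611144683810638107312777577327806531862431377859685460965980854219217279980804578104683573043408221052678871730618368) (nat_lit 1415235910131853726498056364787402771826745953779050489572718649987435594235862578981620296515968424491890327827492340141940608129725821541199264519138552646085516460032)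 (nat_lit 1415235910131853726498056364787402771826745953779050489572718649987435594235862578981620296515968424491890327827492340141940608129725821541199264519138552646085516460032) c40_s5702) (B (K (nat_lit 2079502270590611144683810638107312777577327806531862431377859685460965980854219217279980804578104683573043408221052678871730618368) (nat_lit 768857338113641837134480285733584331480748920930721551300104045497921477128156894874334265349391702983708355029223398076572987909750287555089522022448680140800) (nat_lit 768857338113641837134480285733584331480748920930721551300104045497921477128156894874334265349391702983708355029223398076572987909750287555089522022448680140800) c40_s5996) (B (K (nat_lit 2079502270590611144683810638107312777577327806531862431377859685460965980854219217279980804578104683573043408221052678871730618368) (nat_lit 466806241061501668641252367069418712970587332813143111888192747197770652042819268753022695250755966964441032414833821056578335174922005395079884931847459700736)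 (nat_lit 466806241061501668641252367069418712970587332813143111888192747197770652042819268753022695250755966964441032414833821056578335174922005395079884931847459700736) c40_s6063) (B (K (nat_lit 2079502270590611144683810638107312777577327806531862431377859685460965980854219217279980804578104683573043408221052678871730618368) (nat_lit 884522443523492684283482704279691929431094103133052066586714768132859220248110244373992809152892180683028874970098397756212288687504763832134927917138813466977157251072) (nat_lit 884522443523492684283482704279691929431094103133052066586714768132859220248110244373992809152892180683028874970098397756212288687504763832134927917138813466977157251072) c40_s6078) (K (nat_lit 2079502270590611144683810638107312777577327806531862431377859685460965980854219217279980804578104683573043408221052678871730618368) (nat_lit 884522443523492684283482704124881095866010846229121852475131315507073775690776476451241720935622699695397009346606284209240735525004003432518742911134203363106851127296)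 (nat_lit 884522443523492684283482704124881095866010846229121852475131315507073775690776476451241720935622699695397009346606284209240735525004003432518742911134203363106851127296) c40_s6147))))))))))))))))))))))))))
theorem c40_win : ∃ n, ∀ B : Set Cell, Avoids B c40_U → MakerForces n (cellsOf (1 <<< 429)) B :=
  forces_of_chk (1 <<< 429) (nat_lit 428) c40_kids c40_U c40_U (by decide +kernel)

end Vale.Agent.Lib.P062.Data
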