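import Vale.Agent.Lib.P062.Data.Lines

namespace Vale.Agent.Lib.P062.Data

noncomputable def c41_n417 : Cert := (M (nat_lit 430) (B (M (nat_lit 395) (B (L (nat_lit 431) ln15_13_3 ln15_13_3_ok) (M (nat_lit 394) (B (L (nat_lit 393) ln9_12_0 ln9_12_0_ok) (L (nat_lit 397) ln10_12_0 ln10_12_0_ok))))) (B (M (nat_lit 395) (B (L (nat_lit 431) ln15_13_3 ln15_13_3_ok) (M (nat_lit 394) (B (L (nat_lit 397) ln10_12_0 ln10_12_0_ok) (L (nat_lit 427) ln14_13_3 ln14_13_3_ok))))) (B (M (nat_lit 431) (B (L (nat_lit 395) ln15_13_3 ln15_13_3_ok) (M (nat_lit 400) (B (L (nat_lit 399) ln12_13_2 ln12_13_2_ok) (M (nat_lit 432) (B (L (nat_lit 397) ln16_13_3 ln16_13_3_ok) (L (nat_lit 401) ln13_13_2 ln13_13_2_ok))))))) (B (M (nat_lit 461) (B (M (nat_lit 364) (B (L (nat_lit 332) ln12_10_4 ln12_10_4_ok) (M (nat_lit 493) (B (L (nat_lit 397) ln13_15_7 ln13_15_7_ok) (L (nat_lit 525) ln13_16_7 ln13_16_7_ok))))) (B (M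 (nat_lit 493) (B (L (nat_lit 525) ln13_16_7 ln13_16_7_ok) (M (nat_lit 364) (B (L (nat_lit 397) ln13_15_7 ln13_15_7_ok) (L (nat_lit 460) ln12_11_4 ln12_11_4_ok))))) (B (M (nat_lit 427) (B (M (nat_lit 462) (B (L (nat_lit 426) ln10_13_0 ln10_13_0_ok) (L (nat_lit 463) ln11_13_0 ln11_13_0_ok))) (M (nat_lit 431) (B (M (nat_lit 399) (B (L (nat_lit 398) ln11_13_2 ln11_13_2_ok) (L (nat_lit 400) ln12_13_2 ln12_13_2_ok))) (M (nat_lit 432) (B (L (nat_lit 397) ln16_13_3 ln16_13_3_ok) (L (nat_lit 460) ln16_13_1 ln16_13_1_ok))))))) (M (nat_lit 364) (B (L (nat_lit 332) ln12_10_4 ln12_10_4_ok) (M (nat_lit 493) (B (L (nat_lit 460) ln12_11_4 ln12_11_4_ok) (L (nat_lit 525) ln13_16_7 ln13_16_7_ok))))))))) (B (M (nat_lit 395) (B (L (nat_lit 431) ln15_13_3 ln15_13_3_ok) (M (nat_lit 394) (B (L (nat_lit 393) ln9_12_0 ln9_12_0_ok) (L (nat_lit 427) ln14_13_3 ln14_13_3_ok))))) (M (nat_lit 398) (B (M (nat_lit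 399) (B (L (nat_lit 427) ln11_13_2 ln11_13_2_ok) (M (nat_lit 400) (B (L (nat_lit 397) ln16_12_1 ln16_12_1_ok) (L (nat_lit 401) ln17_12_1 ln17_12_1_ok))))) (B (M (nat_lit 427) (B (L (nat_lit 399) ln11_13_2 ln11_13_2_ok) (M (nat_lit 426) (B (M (nat_lit 394) (B (L (nat_lit 393) ln13_13_3 ln13_13_3_ok) (L (nat_lit 395) ln14_13_3 ln14_13_3_ok))) (M (nat_lit 462) (B (L (nat_lit 461) ln10_13_0 ln10_13_0_ok) (L (nat_lit 463) ln11_13_0 ln11_13_0_ok))))))) (B (M (nat_lit 397) (B (M (nat_lit 462) (B (M (nat_lit 365) (B (L (nat_lit 333) ln13_10_4 ln13_10_4_ok) (L (nat_lit 494) ln14_15_7 ln14_15_7_ok))) (M (nat_lit 427) (B (L (nat_lit 426) ln10_13_2 ln10_13_2_ok) (L (nat_lit 463) ln11_13_0 ln11_13_0_ok))))) (M (nat_lit 366) (B (M (nat_lit 334) (B (L (nat_lit 302) ln14_9_5 ln14_9_5_ok) (L (nat_lit 461) ln14_10_5 ln14_10_5_ok))) (M (nat_lit 395) (B (L (nat_lit 367) ln11_12_2 ln11_12_2_ok) (L (nat_lit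 394) ln10_12_0 ln10_12_0_ok))))))) (M (nat_lit 397) (B (M (nat_lit 363) (B (M (nat_lit 395) (B (L (nat_lit 362) ln14_12_3 ln14_12_3_ok) (L (nat_lit 394) ln10_12_0 ln10_12_0_ok))) (M (nat_lit 399) (B (L (nat_lit 364) ln15_12_3 ln15_12_3_ok) (L (nat_lit 400) ln16_12_1 ln16_12_1_ok))))) (B (M (nat_lit 364) (B (M (nat_lit 399) (B (L (nat_lit 363) ln15_12_3 ln15_12_3_ok) (L (nat_lit 400) ln16_12_1 ln16_12_1_ok))) (M (nat_lit 461) (B (L (nat_lit 332) ln12_10_4 ln12_10_4_ok) (L (nat_lit 493) ln13_15_7 ln13_15_7_ok))))) (M (nat_lit 366) (B (M (nat_lit 334) (B (L (nat_lit 302) ln14_9_5 ln14_9_5_ok) (L (nat_lit 461) ln14_10_5 ln14_10_5_ok))) (M (nat_lit 395) (B (L (nat_lit 367) ln11_12_2 ln11_12_2_ok) (L (nat_lit 394) ln10_12_0 ln10_12_0_ok))))))))))))))))))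
theorem c41_s438 : Sem (nat_lit 1386334847221798047169638878925036799968406779833514899637066259859226863686603287896039777716422623628704219945445734162783797248) (nat_lit 235872651963234194321127316268224702991308502019514801505018180643695729142516606019307714236997094396121640578415466561593132672791984299132174827025789774643834388480) (nat_lit 235872651963234194321127316268224702991308502019514801505018180643695729142516606019307714236997094396121640578415466561593132672791984299132174827025789774643834388480) :=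
  sem_of_chk (M (nat_lit 428) (B (M (nat_lit 430) (B (M (nat_lit 395) (B (L (nat_lit 431) ln15_13_3 ln15_13_3_ok) (M (nat_lit 394) (B (L (nat_lit 393) ln9_12_0 ln9_12_0_ok) (L (nat_lit 427) ln14_13_3 ln14_13_3_ok))))) (B (M (nat_lit 395) (B (L (nat_lit 431) ln15_13_3 ln15_13_3_ok) (M (nat_lit 394) (B (L (nat_lit 397) ln10_12_0 ln10_12_0_ok) (L (nat_lit 427) ln14_13_3 ln14_13_3_ok))))) (B (M (nat_lit 431) (B (L (nat_lit 395) ln15_13_3 ln15_13_3_ok) (M (nat_lit 460) (B (L (nat_lit 459) ln15_13_1 ln15_13_1_ok) (M (nat_lit 432) (B (L (nat_lit 397) ln16_13_3 ln16_13_3_ok) (L (nat_lit 461) ln16_13_1 ln16_13_1_ok))))))) (B (M (nat_lit 431) (B (M (nat_lit 460) (B (L (nat_lit 459) ln15_13_1 ln15_13_1_ok) (M (nat_lit 432) (B (L (nat_lit 397) ln16_13_3 ln16_13_3_ok) (L (nat_lit 461) ln16_13_1 ln16_13_1_ok))))) (B (M (nat_lit 427) (B (M (nat_lit 399) (B (L (nat_lit 398) ln11_13_2 ln11_13_2_ok)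 (L (nat_lit 400) ln12_13_2 ln12_13_2_ok))) (M (nat_lit 459) (B (L (nat_lit 458) ln14_13_1 ln14_13_1_ok) (L (nat_lit 460) ln15_13_1 ln15_13_1_ok))))) (M (nat_lit 400) (B (L (nat_lit 399) ln12_13_2 ln12_13_2_ok) (M (nat_lit 432) (B (L (nat_lit 397) ln16_13_3 ln16_13_3_ok) (L (nat_lit 401) ln13_13_2 ln13_13_2_ok)))))))) (M (nat_lit 395) (B (M (nat_lit 394) (B (L (nat_lit 393) ln9_12_0 ln9_12_0_ok) (L (nat_lit 397) ln10_12_0 ln10_12_0_ok))) (B (M (nat_lit 394) (B (L (nat_lit 397) ln10_12_0 ln10_12_0_ok) (L (nat_lit 427) ln14_13_3 ln14_13_3_ok))) (B (M (nat_lit 427) (B (M (nat_lit 459) (B (L (nat_lit 458) ln14_13_1 ln14_13_1_ok) (M (nat_lit 364) (B (L (nat_lit 332) ln12_10_5 ln12_10_5_ok) (L (nat_lit 491) ln11_15_6 ln11_15_6_ok))))) (M (nat_lit 426) (B (M (nat_lit 398) (B (L (nat_lit 397) ln14_12_1 ln14_12_1_ok) (L (nat_lit 399) ln11_13_2 ln11_13_2_ok))) (M (nat_lit 462) (B (L (nat_lit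 461) ln10_13_0 ln10_13_0_ok) (L (nat_lit 463) ln11_13_0 ln11_13_0_ok))))))) (M (nat_lit 394) (B (L (nat_lit 393) ln9_12_0 ln9_12_0_ok) (L (nat_lit 427) ln14_13_3 ln14_13_3_ok)))))))))))) (B (M (nat_lit 427) (B (M (nat_lit 461) (B (M (nat_lit 462) (B (L (nat_lit 426) ln10_13_0 ln10_13_0_ok) (M (nat_lit 463) (B (L (nat_lit 430) ln11_13_0 ln11_13_0_ok) (L (nat_lit 460) ln15_14_3 ln15_14_3_ok))))) (B (M (nat_lit 493) (B (L (nat_lit 525) ln13_16_7 ln13_16_7_ok) (M (nat_lit 364) (B (L (nat_lit 397) ln13_15_7 ln13_15_7_ok) (L (nat_lit 460) ln12_11_4 ln12_11_4_ok))))) (M (nat_lit 462) (B (L (nat_lit 426) ln10_13_0 ln10_13_0_ok) (M (nat_lit 463) (B (L (nat_lit 430) ln11_13_0 ln11_13_0_ok) (L (nat_lit 464) ln16_14_3 ln16_14_3_ok)))))))) (B (M (nat_lit 430) (B (M (nat_lit 395) (B (L (nat_lit 394) ln14_13_3 ln14_13_3_ok) (L (nat_lit 431) ln15_13_3 ln15_13_3_ok))) (B (M (nat_lit 431) (B (L (nat_lit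 395) ln15_13_3 ln15_13_3_ok) (M (nat_lit 399) (B (L (nat_lit 398) ln11_13_2 ln11_13_2_ok) (L (nat_lit 400) ln12_13_2 ln12_13_2_ok))))) (B (M (nat_lit 431) (B (M (nat_lit 399) (B (L (nat_lit 398) ln11_13_2 ln11_13_2_ok) (L (nat_lit 400) ln12_13_2 ln12_13_2_ok))) (M (nat_lit 463) (B (L (nat_lit 462) ln11_13_0 ln11_13_0_ok) (L (nat_lit 464) ln12_13_0 ln12_13_0_ok))))) (M (nat_lit 426) (B (M (nat_lit 394) (B (L (nat_lit 393) ln13_13_3 ln13_13_3_ok) (L (nat_lit 395) ln14_13_3 ln14_13_3_ok))) (M (nat_lit 398) (B (L (nat_lit 397) ln10_13_2 ln10_13_2_ok) (L (nat_lit 399) ln11_13_2 ln11_13_2_ok))))))))) (B (M (nat_lit 459) (B (M (nat_lit 430) (B (L (nat_lit 458) ln14_13_1 ln14_13_1_ok) (M (nat_lit 395) (B (L (nat_lit 394) ln14_13_3 ln14_13_3_ok) (L (nat_lit 431) ln15_13_3 ln15_13_3_ok))))) (B (M (nat_lit 430) (B (L (nat_lit 458) ln14_13_1 ln14_13_1_ok) (M (nat_lit 431) (B (L (nat_lit 395) ln15_13_3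 ln15_13_3_ok) (L (nat_lit 460) ln15_13_1 ln15_13_1_ok))))) (B (M (nat_lit 460) (B (M (nat_lit 491) (B (L (nat_lit 364) ln12_11_5 ln12_11_5_ok) (L (nat_lit 523) ln11_16_6 ln11_16_6_ok))) (M (nat_lit 430) (B (L (nat_lit 458) ln14_13_1 ln14_13_1_ok) (L (nat_lit 431) ln15_13_1 ln15_13_1_ok))))) (M (nat_lit 491) (B (L (nat_lit 523) ln11_16_6 ln11_16_6_ok) (M (nat_lit 364) (B (L (nat_lit 395) ln11_15_6 ln11_15_6_ok) (L (nat_lit 460) ln12_11_5 ln12_11_5_ok))))))))) (M (nat_lit 461) (B (M (nat_lit 462) (B (L (nat_lit 426) ln10_13_0 ln10_13_0_ok) (M (nat_lit 463) (B (L (nat_lit 460) ln15_14_3 ln15_14_3_ok) (L (nat_lit 464) ln16_14_3 ln16_14_3_ok))))) (B (M (nat_lit 493) (B (L (nat_lit 525) ln13_16_7 ln13_16_7_ok) (M (nat_lit 364) (B (L (nat_lit 397) ln13_15_7 ln13_15_7_ok) (L (nat_lit 460) ln12_11_4 ln12_11_4_ok))))) (M (nat_lit 397) (B (M (nat_lit 493) (B (L (nat_lit 364) ln13_15_7 ln13_15_7_ok)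 (L (nat_lit 525) ln13_16_7 ln13_16_7_ok))) (M (nat_lit 426) (B (L (nat_lit 425) ln9_13_2 ln9_13_2_ok) (L (nat_lit 462) ln10_13_0 ln10_13_0_ok)))))))))))) (B (M (nat_lit 430) (B (M (nat_lit 395) (B (L (nat_lit 431) ln15_13_3 ln15_13_3_ok) (M (nat_lit 394) (B (L (nat_lit 397) ln10_12_0 ln10_12_0_ok) (L (nat_lit 427) ln14_13_3 ln14_13_3_ok))))) (B (M (nat_lit 431) (B (L (nat_lit 395) ln15_13_3 ln15_13_3_ok) (M (nat_lit 460) (B (L (nat_lit 459) ln15_13_1 ln15_13_1_ok) (M (nat_lit 432) (B (L (nat_lit 397) ln16_13_3 ln16_13_3_ok) (L (nat_lit 461) ln16_13_1 ln16_13_1_ok))))))) (B (M (nat_lit 431) (B (M (nat_lit 460) (B (L (nat_lit 459) ln15_13_1 ln15_13_1_ok) (M (nat_lit 432) (B (L (nat_lit 397) ln16_13_3 ln16_13_3_ok) (L (nat_lit 461) ln16_13_1 ln16_13_1_ok))))) (B (M (nat_lit 427) (B (M (nat_lit 399) (B (L (nat_lit 398) ln11_13_2 ln11_13_2_ok) (L (nat_lit 400) ln12_13_2 ln12_13_2_ok)))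 (M (nat_lit 459) (B (L (nat_lit 458) ln14_13_1 ln14_13_1_ok) (L (nat_lit 460) ln15_13_1 ln15_13_1_ok))))) (M (nat_lit 400) (B (L (nat_lit 399) ln12_13_2 ln12_13_2_ok) (M (nat_lit 432) (B (L (nat_lit 397) ln16_13_3 ln16_13_3_ok) (L (nat_lit 401) ln13_13_2 ln13_13_2_ok)))))))) (B (M (nat_lit 395) (B (L (nat_lit 431) ln15_13_3 ln15_13_3_ok) (M (nat_lit 394) (B (L (nat_lit 393) ln9_12_0 ln9_12_0_ok) (L (nat_lit 427) ln14_13_3 ln14_13_3_ok))))) (M (nat_lit 427) (B (M (nat_lit 398) (B (L (nat_lit 399) ln11_13_2 ln11_13_2_ok) (M (nat_lit 426) (B (L (nat_lit 397) ln10_13_2 ln10_13_2_ok) (M (nat_lit 462) (B (L (nat_lit 461) ln10_13_0 ln10_13_0_ok) (L (nat_lit 463) ln11_13_0 ln11_13_0_ok))))))) (B (M (nat_lit 426) (B (M (nat_lit 394) (B (L (nat_lit 393) ln13_13_3 ln13_13_3_ok) (L (nat_lit 395) ln14_13_3 ln14_13_3_ok))) (M (nat_lit 458) (B (L (nat_lit 457) ln13_13_1 ln13_13_1_ok) (L (nat_lit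 459) ln14_13_1 ln14_13_1_ok))))) (M (nat_lit 398) (B (L (nat_lit 399) ln11_13_2 ln11_13_2_ok) (M (nat_lit 397) (B (M (nat_lit 462) (B (L (nat_lit 463) ln11_13_0 ln11_13_0_ok) (M (nat_lit 365) (B (L (nat_lit 333) ln13_10_4 ln13_10_4_ok) (L (nat_lit 494) ln14_15_7 ln14_15_7_ok))))) (M (nat_lit 366) (B (M (nat_lit 334) (B (L (nat_lit 302) ln14_9_5 ln14_9_5_ok) (L (nat_lit 461) ln14_10_5 ln14_10_5_ok))) (M (nat_lit 395) (B (L (nat_lit 367) ln11_12_2 ln11_12_2_ok) (L (nat_lit 394) ln10_12_0 ln10_12_0_ok))))))))))))))))) (B (M (nat_lit 427) (B (M (nat_lit 459) (B (M (nat_lit 430) (B (L (nat_lit 458) ln14_13_1 ln14_13_1_ok) (M (nat_lit 395) (B (L (nat_lit 394) ln14_13_3 ln14_13_3_ok) (L (nat_lit 431) ln15_13_3 ln15_13_3_ok))))) (B (M (nat_lit 430) (B (L (nat_lit 458) ln14_13_1 ln14_13_1_ok) (M (nat_lit 431) (B (L (nat_lit 395) ln15_13_3 ln15_13_3_ok) (L (nat_lit 460) ln15_13_1 ln15_13_1_ok)))))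 (B (M (nat_lit 460) (B (M (nat_lit 491) (B (L (nat_lit 364) ln12_11_5 ln12_11_5_ok) (L (nat_lit 523) ln11_16_6 ln11_16_6_ok))) (M (nat_lit 430) (B (L (nat_lit 458) ln14_13_1 ln14_13_1_ok) (L (nat_lit 431) ln15_13_1 ln15_13_1_ok))))) (M (nat_lit 491) (B (L (nat_lit 523) ln11_16_6 ln11_16_6_ok) (M (nat_lit 364) (B (L (nat_lit 395) ln11_15_6 ln11_15_6_ok) (L (nat_lit 460) ln12_11_5 ln12_11_5_ok))))))))) (B (M (nat_lit 430) (B (M (nat_lit 395) (B (L (nat_lit 394) ln14_13_3 ln14_13_3_ok) (L (nat_lit 431) ln15_13_3 ln15_13_3_ok))) (M (nat_lit 426) (B (M (nat_lit 397) (B (L (nat_lit 425) ln9_13_2 ln9_13_2_ok) (L (nat_lit 398) ln10_13_2 ln10_13_2_ok))) (M (nat_lit 462) (B (L (nat_lit 461) ln10_13_0 ln10_13_0_ok) (L (nat_lit 463) ln11_13_0 ln11_13_0_ok))))))) (B (M (nat_lit 459) (B (M (nat_lit 430) (B (L (nat_lit 458) ln14_13_1 ln14_13_1_ok) (M (nat_lit 431) (B (L (nat_lit 395) ln15_13_3 ln15_13_3_ok)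 (L (nat_lit 460) ln15_13_1 ln15_13_1_ok))))) (B (M (nat_lit 460) (B (M (nat_lit 491) (B (L (nat_lit 364) ln12_11_5 ln12_11_5_ok) (L (nat_lit 523) ln11_16_6 ln11_16_6_ok))) (M (nat_lit 430) (B (L (nat_lit 458) ln14_13_1 ln14_13_1_ok) (L (nat_lit 431) ln15_13_1 ln15_13_1_ok))))) (B (M (nat_lit 491) (B (L (nat_lit 523) ln11_16_6 ln11_16_6_ok) (M (nat_lit 364) (B (L (nat_lit 395) ln11_15_6 ln11_15_6_ok) (L (nat_lit 460) ln12_11_5 ln12_11_5_ok))))) (M (nat_lit 395) (B (M (nat_lit 491) (B (L (nat_lit 364) ln11_15_6 ln11_15_6_ok) (L (nat_lit 523) ln11_16_6 ln11_16_6_ok))) (M (nat_lit 430) (B (L (nat_lit 431) ln15_13_3 ln15_13_3_ok) (L (nat_lit 458) ln14_13_1 ln14_13_1_ok))))))))) (B (M (nat_lit 461) (B (M (nat_lit 462) (B (L (nat_lit 426) ln10_13_0 ln10_13_0_ok) (M (nat_lit 463) (B (L (nat_lit 430) ln11_13_0 ln11_13_0_ok) (L (nat_lit 460) ln15_14_3 ln15_14_3_ok))))) (B (M (nat_lit 493) (B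 (L (nat_lit 525) ln13_16_7 ln13_16_7_ok) (M (nat_lit 364) (B (L (nat_lit 397) ln13_15_7 ln13_15_7_ok) (L (nat_lit 460) ln12_11_4 ln12_11_4_ok))))) (M (nat_lit 397) (B (M (nat_lit 493) (B (L (nat_lit 364) ln13_15_7 ln13_15_7_ok) (L (nat_lit 525) ln13_16_7 ln13_16_7_ok))) (M (nat_lit 426) (B (L (nat_lit 425) ln9_13_2 ln9_13_2_ok) (L (nat_lit 462) ln10_13_0 ln10_13_0_ok)))))))) (M (nat_lit 461) (B (M (nat_lit 462) (B (L (nat_lit 426) ln10_13_0 ln10_13_0_ok) (M (nat_lit 463) (B (L (nat_lit 460) ln15_14_3 ln15_14_3_ok) (L (nat_lit 464) ln16_14_3 ln16_14_3_ok))))) (B (M (nat_lit 493) (B (L (nat_lit 525) ln13_16_7 ln13_16_7_ok) (M (nat_lit 364) (B (L (nat_lit 397) ln13_15_7 ln13_15_7_ok) (L (nat_lit 460) ln12_11_4 ln12_11_4_ok))))) (M (nat_lit 397) (B (M (nat_lit 493) (B (L (nat_lit 364) ln13_15_7 ln13_15_7_ok) (L (nat_lit 525) ln13_16_7 ln13_16_7_ok))) (M (nat_lit 426) (B (L (nat_lit 425)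 ln9_13_2 ln9_13_2_ok) (L (nat_lit 462) ln10_13_0 ln10_13_0_ok))))))))))))) (B (M (nat_lit 427) (B (M (nat_lit 459) (B (M (nat_lit 430) (B (L (nat_lit 458) ln14_13_1 ln14_13_1_ok) (M (nat_lit 431) (B (L (nat_lit 395) ln15_13_3 ln15_13_3_ok) (L (nat_lit 460) ln15_13_1 ln15_13_1_ok))))) (B (M (nat_lit 460) (B (M (nat_lit 491) (B (L (nat_lit 364) ln12_11_5 ln12_11_5_ok) (L (nat_lit 523) ln11_16_6 ln11_16_6_ok))) (M (nat_lit 430) (B (L (nat_lit 458) ln14_13_1 ln14_13_1_ok) (L (nat_lit 431) ln15_13_1 ln15_13_1_ok))))) (B (M (nat_lit 491) (B (L (nat_lit 523) ln11_16_6 ln11_16_6_ok) (M (nat_lit 364) (B (L (nat_lit 395) ln11_15_6 ln11_15_6_ok) (L (nat_lit 460) ln12_11_5 ln12_11_5_ok))))) (M (nat_lit 395) (B (M (nat_lit 491) (B (L (nat_lit 364) ln11_15_6 ln11_15_6_ok) (L (nat_lit 523) ln11_16_6 ln11_16_6_ok))) (M (nat_lit 430) (B (L (nat_lit 431) ln15_13_3 ln15_13_3_ok) (L (nat_lit 458) ln14_13_1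 ln14_13_1_ok))))))))) (B (M (nat_lit 430) (B (M (nat_lit 431) (B (L (nat_lit 395) ln15_13_3 ln15_13_3_ok) (M (nat_lit 399) (B (L (nat_lit 398) ln11_13_2 ln11_13_2_ok) (L (nat_lit 400) ln12_13_2 ln12_13_2_ok))))) (B (M (nat_lit 426) (B (M (nat_lit 397) (B (L (nat_lit 425) ln9_13_2 ln9_13_2_ok) (L (nat_lit 398) ln10_13_2 ln10_13_2_ok))) (M (nat_lit 462) (B (L (nat_lit 461) ln10_13_0 ln10_13_0_ok) (L (nat_lit 463) ln11_13_0 ln11_13_0_ok))))) (M (nat_lit 431) (B (L (nat_lit 395) ln15_13_3 ln15_13_3_ok) (M (nat_lit 459) (B (L (nat_lit 458) ln14_13_1 ln14_13_1_ok) (L (nat_lit 460) ln15_13_1 ln15_13_1_ok)))))))) (B (M (nat_lit 461) (B (M (nat_lit 462) (B (L (nat_lit 426) ln10_13_0 ln10_13_0_ok) (M (nat_lit 463) (B (L (nat_lit 460) ln15_14_3 ln15_14_3_ok) (L (nat_lit 464) ln16_14_3 ln16_14_3_ok))))) (B (M (nat_lit 493) (B (L (nat_lit 525) ln13_16_7 ln13_16_7_ok) (M (nat_lit 364) (B (L (nat_lit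 397) ln13_15_7 ln13_15_7_ok) (L (nat_lit 460) ln12_11_4 ln12_11_4_ok))))) (M (nat_lit 397) (B (M (nat_lit 493) (B (L (nat_lit 364) ln13_15_7 ln13_15_7_ok) (L (nat_lit 525) ln13_16_7 ln13_16_7_ok))) (M (nat_lit 426) (B (L (nat_lit 425) ln9_13_2 ln9_13_2_ok) (L (nat_lit 462) ln10_13_0 ln10_13_0_ok)))))))) (M (nat_lit 459) (B (M (nat_lit 364) (B (L (nat_lit 332) ln12_10_5 ln12_10_5_ok) (M (nat_lit 491) (B (L (nat_lit 395) ln11_15_6 ln11_15_6_ok) (L (nat_lit 523) ln11_16_6 ln11_16_6_ok))))) (M (nat_lit 458) (B (L (nat_lit 430) ln14_13_1 ln14_13_1_ok) (M (nat_lit 457) (B (L (nat_lit 426) ln13_13_1 ln13_13_1_ok) (L (nat_lit 456) ln8_14_2 ln8_14_2_ok))))))))))) (B (M (nat_lit 364) (B (M (nat_lit 461) (B (L (nat_lit 332) ln12_10_4 ln12_10_4_ok) (M (nat_lit 493) (B (L (nat_lit 397) ln13_15_7 ln13_15_7_ok) (L (nat_lit 460) ln12_11_4 ln12_11_4_ok))))) (B (M (nat_lit 460) (B (M (nat_lit 365) (B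 (L (nat_lit 333) ln12_14_6 ln12_14_6_ok) (M (nat_lit 492) (B (L (nat_lit 397) ln12_15_6 ln12_15_6_ok) (M (nat_lit 491) (B (L (nat_lit 459) ln12_11_5 ln12_11_5_ok) (L (nat_lit 523) ln12_12_5 ln12_12_5_ok))))))) (B (M (nat_lit 492) (B (M (nat_lit 491) (B (L (nat_lit 459) ln12_11_5 ln12_11_5_ok) (L (nat_lit 523) ln12_12_5 ln12_12_5_ok))) (M (nat_lit 493) (B (L (nat_lit 461) ln12_11_4 ln12_11_4_ok) (L (nat_lit 525) ln12_12_4 ln12_12_4_ok))))) (B (M (nat_lit 492) (B (M (nat_lit 365) (B (L (nat_lit 333) ln12_14_6 ln12_14_6_ok) (L (nat_lit 397) ln12_15_6 ln12_15_6_ok))) (M (nat_lit 493) (B (L (nat_lit 461) ln12_11_4 ln12_11_4_ok) (L (nat_lit 525) ln12_12_4 ln12_12_4_ok))))) (M (nat_lit 461) (B (L (nat_lit 493) ln12_11_4 ln12_11_4_ok) (M (nat_lit 459) (B (L (nat_lit 491) ln12_11_5 ln12_11_5_ok) (M (nat_lit 430) (B (L (nat_lit 431) ln15_13_1 ln15_13_1_ok) (L (nat_lit 458) ln10_14_2 ln10_14_2_ok)))))))))))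 (B (M (nat_lit 461) (B (L (nat_lit 332) ln12_10_4 ln12_10_4_ok) (M (nat_lit 493) (B (L (nat_lit 460) ln12_11_4 ln12_11_4_ok) (L (nat_lit 525) ln13_16_7 ln13_16_7_ok))))) (B (M (nat_lit 461) (B (L (nat_lit 332) ln12_10_4 ln12_10_4_ok) (M (nat_lit 493) (B (L (nat_lit 397) ln13_15_7 ln13_15_7_ok) (L (nat_lit 525) ln13_16_7 ln13_16_7_ok))))) (M (nat_lit 460) (B (M (nat_lit 365) (B (L (nat_lit 333) ln12_14_6 ln12_14_6_ok) (M (nat_lit 492) (B (L (nat_lit 397) ln12_15_6 ln12_15_6_ok) (M (nat_lit 491) (B (L (nat_lit 459) ln12_11_5 ln12_11_5_ok) (L (nat_lit 523) ln12_12_5 ln12_12_5_ok))))))) (B (M (nat_lit 332) (B (M (nat_lit 331) (B (L (nat_lit 299) ln12_13_7 ln12_13_7_ok) (L (nat_lit 363) ln12_14_7 ln12_14_7_ok))) (M (nat_lit 459) (B (L (nat_lit 427) ln12_10_5 ln12_10_5_ok) (L (nat_lit 491) ln12_11_5 ln12_11_5_ok))))) (M (nat_lit 332) (B (M (nat_lit 331) (B (L (nat_lit 299) ln12_13_7 ln12_13_7_ok)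 (L (nat_lit 363) ln12_14_7 ln12_14_7_ok))) (M (nat_lit 333) (B (L (nat_lit 301) ln12_13_6 ln12_13_6_ok) (L (nat_lit 365) ln12_14_6 ln12_14_6_ok))))))))))))) (B (M (nat_lit 430) (B (M (nat_lit 395) (B (L (nat_lit 431) ln15_13_3 ln15_13_3_ok) (M (nat_lit 394) (B (L (nat_lit 393) ln9_12_0 ln9_12_0_ok) (L (nat_lit 427) ln14_13_3 ln14_13_3_ok))))) (B (M (nat_lit 431) (B (L (nat_lit 395) ln15_13_3 ln15_13_3_ok) (M (nat_lit 427) (B (M (nat_lit 399) (B (L (nat_lit 398) ln11_13_2 ln11_13_2_ok) (L (nat_lit 400) ln12_13_2 ln12_13_2_ok))) (M (nat_lit 459) (B (L (nat_lit 458) ln14_13_1 ln14_13_1_ok) (L (nat_lit 460) ln15_13_1 ln15_13_1_ok))))))) (B (M (nat_lit 461) (B (M (nat_lit 364) (B (L (nat_lit 332) ln12_10_4 ln12_10_4_ok) (M (nat_lit 493) (B (L (nat_lit 460) ln12_11_4 ln12_11_4_ok) (L (nat_lit 525) ln13_16_7 ln13_16_7_ok))))) (B (M (nat_lit 460) (B (M (nat_lit 493) (B (L (nat_lit 364) ln12_11_4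 ln12_11_4_ok) (L (nat_lit 525) ln13_16_7 ln13_16_7_ok))) (M (nat_lit 459) (B (L (nat_lit 431) ln15_13_1 ln15_13_1_ok) (L (nat_lit 458) ln10_14_2 ln10_14_2_ok))))) (B (M (nat_lit 427) (B (M (nat_lit 462) (B (L (nat_lit 426) ln10_13_0 ln10_13_0_ok) (L (nat_lit 463) ln11_13_0 ln11_13_0_ok))) (M (nat_lit 431) (B (M (nat_lit 399) (B (L (nat_lit 398) ln11_13_2 ln11_13_2_ok) (L (nat_lit 400) ln12_13_2 ln12_13_2_ok))) (M (nat_lit 459) (B (L (nat_lit 458) ln14_13_1 ln14_13_1_ok) (L (nat_lit 460) ln15_13_1 ln15_13_1_ok))))))) (M (nat_lit 398) (B (M (nat_lit 493) (B (L (nat_lit 525) ln13_16_7 ln13_16_7_ok) (M (nat_lit 366) (B (L (nat_lit 334) ln14_10_5 ln14_10_5_ok) (L (nat_lit 462) ln14_11_5 ln14_11_5_ok))))) (M (nat_lit 399) (B (L (nat_lit 427) ln11_13_2 ln11_13_2_ok) (M (nat_lit 400) (B (L (nat_lit 401) ln17_12_1 ln17_12_1_ok) (L (nat_lit 431) ln12_13_2 ln12_13_2_ok))))))))))) (B (M (nat_lit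 431) (B (L (nat_lit 395) ln15_13_3 ln15_13_3_ok) (M (nat_lit 432) (B (M (nat_lit 400) (B (L (nat_lit 399) ln12_13_2 ln12_13_2_ok) (L (nat_lit 401) ln13_13_2 ln13_13_2_ok))) (M (nat_lit 460) (B (L (nat_lit 459) ln15_13_1 ln15_13_1_ok) (L (nat_lit 461) ln16_13_1 ln16_13_1_ok))))))) (M (nat_lit 427) (B (M (nat_lit 395) (B (L (nat_lit 394) ln14_13_3 ln14_13_3_ok) (M (nat_lit 459) (B (L (nat_lit 458) ln14_13_1 ln14_13_1_ok) (M (nat_lit 364) (B (L (nat_lit 332) ln12_10_5 ln12_10_5_ok) (L (nat_lit 491) ln11_15_6 ln11_15_6_ok))))))) (B (M (nat_lit 426) (B (M (nat_lit 394) (B (L (nat_lit 393) ln13_13_3 ln13_13_3_ok) (L (nat_lit 395) ln14_13_3 ln14_13_3_ok))) (M (nat_lit 462) (B (L (nat_lit 461) ln10_13_0 ln10_13_0_ok) (L (nat_lit 463) ln11_13_0 ln11_13_0_ok))))) (M (nat_lit 426) (B (M (nat_lit 458) (B (L (nat_lit 457) ln13_13_1 ln13_13_1_ok) (L (nat_lit 459) ln14_13_1 ln14_13_1_ok))) (M (nat_lit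 462) (B (L (nat_lit 461) ln10_13_0 ln10_13_0_ok) (L (nat_lit 463) ln11_13_0 ln11_13_0_ok))))))))))))) (B (M (nat_lit 364) (B (M (nat_lit 461) (B (L (nat_lit 332) ln12_10_4 ln12_10_4_ok) (M (nat_lit 493) (B (L (nat_lit 460) ln12_11_4 ln12_11_4_ok) (L (nat_lit 525) ln13_16_7 ln13_16_7_ok))))) (B (M (nat_lit 460) (B (M (nat_lit 365) (B (L (nat_lit 333) ln12_14_6 ln12_14_6_ok) (M (nat_lit 492) (B (L (nat_lit 397) ln12_15_6 ln12_15_6_ok) (M (nat_lit 491) (B (L (nat_lit 459) ln12_11_5 ln12_11_5_ok) (L (nat_lit 523) ln12_12_5 ln12_12_5_ok))))))) (B (M (nat_lit 492) (B (M (nat_lit 491) (B (L (nat_lit 459) ln12_11_5 ln12_11_5_ok) (L (nat_lit 523) ln12_12_5 ln12_12_5_ok))) (M (nat_lit 493) (B (L (nat_lit 461) ln12_11_4 ln12_11_4_ok) (L (nat_lit 525) ln12_12_4 ln12_12_4_ok))))) (B (M (nat_lit 492) (B (M (nat_lit 365) (B (L (nat_lit 333) ln12_14_6 ln12_14_6_ok) (L (nat_lit 397) ln12_15_6 ln12_15_6_ok)))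 (M (nat_lit 493) (B (L (nat_lit 461) ln12_11_4 ln12_11_4_ok) (L (nat_lit 525) ln12_12_4 ln12_12_4_ok))))) (M (nat_lit 461) (B (L (nat_lit 493) ln12_11_4 ln12_11_4_ok) (M (nat_lit 459) (B (L (nat_lit 491) ln12_11_5 ln12_11_5_ok) (M (nat_lit 430) (B (L (nat_lit 431) ln15_13_1 ln15_13_1_ok) (L (nat_lit 458) ln10_14_2 ln10_14_2_ok))))))))))) (B (M (nat_lit 461) (B (L (nat_lit 332) ln12_10_4 ln12_10_4_ok) (M (nat_lit 493) (B (L (nat_lit 397) ln13_15_7 ln13_15_7_ok) (L (nat_lit 525) ln13_16_7 ln13_16_7_ok))))) (M (nat_lit 460) (B (M (nat_lit 365) (B (L (nat_lit 333) ln12_14_6 ln12_14_6_ok) (M (nat_lit 492) (B (L (nat_lit 397) ln12_15_6 ln12_15_6_ok) (M (nat_lit 491) (B (L (nat_lit 459) ln12_11_5 ln12_11_5_ok) (L (nat_lit 523) ln12_12_5 ln12_12_5_ok))))))) (B (M (nat_lit 492) (B (M (nat_lit 363) (B (L (nat_lit 331) ln12_14_7 ln12_14_7_ok) (L (nat_lit 395) ln12_15_7 ln12_15_7_ok))) (M (nat_lit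 491) (B (L (nat_lit 459) ln12_11_5 ln12_11_5_ok) (L (nat_lit 523) ln12_12_5 ln12_12_5_ok))))) (B (M (nat_lit 492) (B (M (nat_lit 363) (B (L (nat_lit 331) ln12_14_7 ln12_14_7_ok) (L (nat_lit 395) ln12_15_7 ln12_15_7_ok))) (M (nat_lit 365) (B (L (nat_lit 333) ln12_14_6 ln12_14_6_ok) (L (nat_lit 397) ln12_15_6 ln12_15_6_ok))))) (M (nat_lit 332) (B (M (nat_lit 331) (B (L (nat_lit 299) ln12_13_7 ln12_13_7_ok) (L (nat_lit 363) ln12_14_7 ln12_14_7_ok))) (M (nat_lit 333) (B (L (nat_lit 301) ln12_13_6 ln12_13_6_ok) (L (nat_lit 365) ln12_14_6 ln12_14_6_ok))))))))))))) (B (M (nat_lit 461) (B (M (nat_lit 493) (B (L (nat_lit 525) ln13_16_7 ln13_16_7_ok) (M (nat_lit 364) (B (L (nat_lit 332) ln12_10_4 ln12_10_4_ok) (L (nat_lit 460) ln12_11_4 ln12_11_4_ok))))) (B (M (nat_lit 493) (B (L (nat_lit 525) ln13_16_7 ln13_16_7_ok) (M (nat_lit 364) (B (L (nat_lit 397) ln13_15_7 ln13_15_7_ok) (L (nat_lit 460)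 ln12_11_4 ln12_11_4_ok))))) (B (M (nat_lit 493) (B (L (nat_lit 525) ln13_16_7 ln13_16_7_ok) (M (nat_lit 397) (B (M (nat_lit 398) (B (L (nat_lit 366) ln13_15_6 ln13_15_6_ok) (M (nat_lit 399) (B (L (nat_lit 427) ln15_12_1 ln15_12_1_ok) (L (nat_lit 400) ln16_12_1 ln16_12_1_ok))))) (M (nat_lit 365) (B (M (nat_lit 333) (B (L (nat_lit 301) ln13_9_5 ln13_9_5_ok) (L (nat_lit 460) ln13_10_5 ln13_10_5_ok))) (M (nat_lit 494) (B (L (nat_lit 462) ln13_11_4 ln13_11_4_ok) (L (nat_lit 526) ln13_12_4 ln13_12_4_ok))))))))) (B (M (nat_lit 493) (B (L (nat_lit 525) ln13_16_7 ln13_16_7_ok) (M (nat_lit 364) (B (L (nat_lit 332) ln12_10_4 ln12_10_4_ok) (L (nat_lit 397) ln13_15_7 ln13_15_7_ok))))) (M (nat_lit 364) (B (L (nat_lit 332) ln12_10_4 ln12_10_4_ok) (M (nat_lit 460) (B (M (nat_lit 365) (B (L (nat_lit 333) ln12_14_6 ln12_14_6_ok) (M (nat_lit 492) (B (L (nat_lit 397) ln12_15_6 ln12_15_6_ok) (M (nat_lit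 363) (B (L (nat_lit 331) ln12_14_7 ln12_14_7_ok) (L (nat_lit 395) ln12_15_7 ln12_15_7_ok))))))) (B (M (nat_lit 492) (B (M (nat_lit 491) (B (L (nat_lit 459) ln12_11_5 ln12_11_5_ok) (L (nat_lit 523) ln12_12_5 ln12_12_5_ok))) (M (nat_lit 524) (B (L (nat_lit 397) ln12_16_6 ln12_16_6_ok) (L (nat_lit 556) ln12_17_6 ln12_17_6_ok))))) (B (M (nat_lit 492) (B (M (nat_lit 363) (B (L (nat_lit 331) ln12_14_7 ln12_14_7_ok) (L (nat_lit 395) ln12_15_7 ln12_15_7_ok))) (M (nat_lit 491) (B (L (nat_lit 459) ln12_11_5 ln12_11_5_ok) (L (nat_lit 523) ln12_12_5 ln12_12_5_ok))))) (M (nat_lit 462) (B (M (nat_lit 463) (B (L (nat_lit 427) ln15_14_3 ln15_14_3_ok) (L (nat_lit 464) ln16_14_3 ln16_14_3_ok))) (M (nat_lit 494) (B (M (nat_lit 365) (B (L (nat_lit 333) ln12_14_6 ln12_14_6_ok) (L (nat_lit 397) ln13_11_4 ln13_11_4_ok))) (M (nat_lit 459) (B (L (nat_lit 491) ln12_11_5 ln12_11_5_ok) (L (nat_lit 495) ln11_14_0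 ln11_14_0_ok)))))))))))))))))) (B c41_n417 (B (M (nat_lit 430) (B (M (nat_lit 395) (B (L (nat_lit 431) ln15_13_3 ln15_13_3_ok) (M (nat_lit 394) (B (L (nat_lit 393) ln9_12_0 ln9_12_0_ok) (L (nat_lit 427) ln14_13_3 ln14_13_3_ok))))) (B (M (nat_lit 395) (B (L (nat_lit 431) ln15_13_3 ln15_13_3_ok) (M (nat_lit 394) (B (L (nat_lit 397) ln10_12_0 ln10_12_0_ok) (L (nat_lit 427) ln14_13_3 ln14_13_3_ok))))) (B (M (nat_lit 431) (B (L (nat_lit 395) ln15_13_3 ln15_13_3_ok) (M (nat_lit 400) (B (L (nat_lit 399) ln12_13_2 ln12_13_2_ok) (M (nat_lit 432) (B (L (nat_lit 397) ln16_13_3 ln16_13_3_ok) (L (nat_lit 401) ln13_13_2 ln13_13_2_ok))))))) (B (M (nat_lit 461) (B (M (nat_lit 364) (B (L (nat_lit 332) ln12_10_4 ln12_10_4_ok) (M (nat_lit 493) (B (L (nat_lit 397) ln13_15_7 ln13_15_7_ok) (L (nat_lit 525) ln13_16_7 ln13_16_7_ok))))) (B (M (nat_lit 427) (B (M (nat_lit 462) (B (L (nat_lit 426) ln10_13_0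 ln10_13_0_ok) (L (nat_lit 463) ln11_13_0 ln11_13_0_ok))) (B (M (nat_lit 431) (B (M (nat_lit 399) (B (L (nat_lit 398) ln11_13_2 ln11_13_2_ok) (L (nat_lit 400) ln12_13_2 ln12_13_2_ok))) (M (nat_lit 463) (B (L (nat_lit 462) ln11_13_0 ln11_13_0_ok) (L (nat_lit 464) ln12_13_0 ln12_13_0_ok))))) (M (nat_lit 426) (B (M (nat_lit 397) (B (L (nat_lit 425) ln9_13_2 ln9_13_2_ok) (L (nat_lit 398) ln10_13_2 ln10_13_2_ok))) (M (nat_lit 458) (B (L (nat_lit 457) ln13_13_1 ln13_13_1_ok) (L (nat_lit 459) ln14_13_1 ln14_13_1_ok)))))))) (M (nat_lit 398) (B (M (nat_lit 493) (B (L (nat_lit 525) ln13_16_7 ln13_16_7_ok) (M (nat_lit 366) (B (L (nat_lit 334) ln14_10_5 ln14_10_5_ok) (L (nat_lit 462) ln14_11_5 ln14_11_5_ok))))) (M (nat_lit 399) (B (L (nat_lit 427) ln11_13_2 ln11_13_2_ok) (M (nat_lit 400) (B (L (nat_lit 401) ln17_12_1 ln17_12_1_ok) (L (nat_lit 431) ln12_13_2 ln12_13_2_ok)))))))))) (M (nat_lit 395)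 (B (M (nat_lit 394) (B (L (nat_lit 393) ln9_12_0 ln9_12_0_ok) (L (nat_lit 397) ln10_12_0 ln10_12_0_ok))) (B (M (nat_lit 394) (B (L (nat_lit 397) ln10_12_0 ln10_12_0_ok) (L (nat_lit 427) ln14_13_3 ln14_13_3_ok))) (B (M (nat_lit 427) (B (M (nat_lit 459) (B (L (nat_lit 458) ln14_13_1 ln14_13_1_ok) (M (nat_lit 364) (B (L (nat_lit 332) ln12_10_5 ln12_10_5_ok) (L (nat_lit 491) ln11_15_6 ln11_15_6_ok))))) (M (nat_lit 426) (B (M (nat_lit 398) (B (L (nat_lit 397) ln14_12_1 ln14_12_1_ok) (L (nat_lit 399) ln11_13_2 ln11_13_2_ok))) (M (nat_lit 462) (B (L (nat_lit 461) ln10_13_0 ln10_13_0_ok) (L (nat_lit 463) ln11_13_0 ln11_13_0_ok))))))) (M (nat_lit 394) (B (L (nat_lit 393) ln9_12_0 ln9_12_0_ok) (L (nat_lit 427) ln14_13_3 ln14_13_3_ok)))))))))))) (M (nat_lit 430) (B (M (nat_lit 395) (B (L (nat_lit 431) ln15_13_3 ln15_13_3_ok) (M (nat_lit 394) (B (L (nat_lit 397) ln10_12_0 ln10_12_0_ok) (L (nat_lit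 427) ln14_13_3 ln14_13_3_ok))))) (B (M (nat_lit 431) (B (L (nat_lit 395) ln15_13_3 ln15_13_3_ok) (M (nat_lit 400) (B (L (nat_lit 399) ln12_13_2 ln12_13_2_ok) (M (nat_lit 432) (B (L (nat_lit 397) ln16_13_3 ln16_13_3_ok) (L (nat_lit 401) ln13_13_2 ln13_13_2_ok))))))) (B (M (nat_lit 431) (B (M (nat_lit 400) (B (L (nat_lit 399) ln12_13_2 ln12_13_2_ok) (M (nat_lit 432) (B (L (nat_lit 397) ln16_13_3 ln16_13_3_ok) (L (nat_lit 401) ln13_13_2 ln13_13_2_ok))))) (M (nat_lit 427) (B (M (nat_lit 459) (B (L (nat_lit 458) ln14_13_1 ln14_13_1_ok) (L (nat_lit 460) ln15_13_1 ln15_13_1_ok))) (M (nat_lit 463) (B (L (nat_lit 462) ln11_13_0 ln11_13_0_ok) (L (nat_lit 464) ln12_13_0 ln12_13_0_ok))))))) (B (M (nat_lit 395) (B (L (nat_lit 431) ln15_13_3 ln15_13_3_ok) (M (nat_lit 394) (B (L (nat_lit 393) ln9_12_0 ln9_12_0_ok) (L (nat_lit 427) ln14_13_3 ln14_13_3_ok))))) (M (nat_lit 427) (B (M (nat_lit 395) (B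 (L (nat_lit 394) ln14_13_3 ln14_13_3_ok) (M (nat_lit 459) (B (L (nat_lit 458) ln14_13_1 ln14_13_1_ok) (M (nat_lit 364) (B (L (nat_lit 332) ln12_10_5 ln12_10_5_ok) (L (nat_lit 491) ln11_15_6 ln11_15_6_ok))))))) (B (M (nat_lit 426) (B (M (nat_lit 397) (B (L (nat_lit 425) ln9_13_2 ln9_13_2_ok) (L (nat_lit 398) ln10_13_2 ln10_13_2_ok))) (M (nat_lit 458) (B (L (nat_lit 457) ln13_13_1 ln13_13_1_ok) (L (nat_lit 459) ln14_13_1 ln14_13_1_ok))))) (M (nat_lit 426) (B (M (nat_lit 394) (B (L (nat_lit 393) ln13_13_3 ln13_13_3_ok) (L (nat_lit 395) ln14_13_3 ln14_13_3_ok))) (M (nat_lit 397) (B (L (nat_lit 425) ln9_13_2 ln9_13_2_ok) (L (nat_lit 398) ln10_13_2 ln10_13_2_ok))))))))))))))))))))))))) (nat_lit 1386334847221798047169638878925036799968406779833514899637066259859226863686603287896039777716422623628704219945445734162783797248) (nat_lit 235872651963234194321127316268224702991308502019514801505018180643695729142516606019307714236997094396121640578415466561593132672791984299132174827025789774643834388480)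 (nat_lit 235872651963234194321127316268224702991308502019514801505018180643695729142516606019307714236997094396121640578415466561593132672791984299132174827025789774643834388480) (by decide +kernel)
noncomputable def c41_n607 : Cert := (M (nat_lit 430) (B (M (nat_lit 395) (B (L (nat_lit 431) ln15_13_3 ln15_13_3_ok) (M (nat_lit 394) (B (L (nat_lit 393) ln9_12_0 ln9_12_0_ok) (L (nat_lit 397) ln10_12_0 ln10_12_0_ok))))) (B (M (nat_lit 395) (B (L (nat_lit 431) ln15_13_3 ln15_13_3_ok) (M (nat_lit 394) (B (L (nat_lit 397) ln10_12_0 ln10_12_0_ok) (L (nat_lit 427) ln14_13_3 ln14_13_3_ok))))) (B (M (nat_lit 431) (B (L (nat_lit 395) ln15_13_3 ln15_13_3_ok) (M (nat_lit 400) (B (L (nat_lit 399) ln12_13_2 ln12_13_2_ok) (M (nat_lit 432) (B (L (nat_lit 397) ln16_13_3 ln16_13_3_ok) (L (nat_lit 401) ln13_13_2 ln13_13_2_ok))))))) (B (M (nat_lit 461) (B (M (nat_lit 364) (B (L (nat_lit 332) ln12_10_4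 ln12_10_4_ok) (M (nat_lit 493) (B (L (nat_lit 397) ln13_15_7 ln13_15_7_ok) (L (nat_lit 525) ln13_16_7 ln13_16_7_ok))))) (B (M (nat_lit 493) (B (L (nat_lit 525) ln13_16_7 ln13_16_7_ok) (M (nat_lit 364) (B (L (nat_lit 397) ln13_15_7 ln13_15_7_ok) (L (nat_lit 460) ln12_11_4 ln12_11_4_ok))))) (B (M (nat_lit 427) (B (M (nat_lit 462) (B (L (nat_lit 426) ln10_13_0 ln10_13_0_ok) (L (nat_lit 463) ln11_13_0 ln11_13_0_ok))) (M (nat_lit 431) (B (M (nat_lit 399) (B (L (nat_lit 398) ln11_13_2 ln11_13_2_ok) (L (nat_lit 400) ln12_13_2 ln12_13_2_ok))) (M (nat_lit 432) (B (L (nat_lit 397) ln16_13_3 ln16_13_3_ok) (L (nat_lit 460) ln16_13_1 ln16_13_1_ok))))))) (M (nat_lit 364) (B (L (nat_lit 332) ln12_10_4 ln12_10_4_ok) (M (nat_lit 493) (B (L (nat_lit 460) ln12_11_4 ln12_11_4_ok) (L (nat_lit 525) ln13_16_7 ln13_16_7_ok))))))))) (B (M (nat_lit 395) (B (L (nat_lit 431) ln15_13_3 ln15_13_3_ok) (M (nat_lit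 394) (B (L (nat_lit 393) ln9_12_0 ln9_12_0_ok) (L (nat_lit 427) ln14_13_3 ln14_13_3_ok))))) (M (nat_lit 397) (B (M (nat_lit 398) (B (M (nat_lit 427) (B (L (nat_lit 399) ln15_12_1 ln15_12_1_ok) (L (nat_lit 426) ln10_13_2 ln10_13_2_ok))) (M (nat_lit 366) (B (M (nat_lit 334) (B (L (nat_lit 302) ln14_9_5 ln14_9_5_ok) (L (nat_lit 461) ln14_10_5 ln14_10_5_ok))) (M (nat_lit 395) (B (L (nat_lit 367) ln11_12_2 ln11_12_2_ok) (L (nat_lit 394) ln10_12_0 ln10_12_0_ok))))))) (B (M (nat_lit 398) (B (M (nat_lit 399) (B (L (nat_lit 427) ln15_12_1 ln15_12_1_ok) (L (nat_lit 400) ln16_12_1 ln16_12_1_ok))) (B (M (nat_lit 462) (B (M (nat_lit 365) (B (L (nat_lit 333) ln13_10_4 ln13_10_4_ok) (L (nat_lit 494) ln14_15_7 ln14_15_7_ok))) (M (nat_lit 427) (B (L (nat_lit 426) ln10_13_2 ln10_13_2_ok) (L (nat_lit 463) ln11_13_0 ln11_13_0_ok))))) (M (nat_lit 364) (B (M (nat_lit 332) (B (L (nat_lit 300) ln12_9_4 ln12_9_4_ok)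 (L (nat_lit 461) ln12_10_4 ln12_10_4_ok))) (M (nat_lit 399) (B (L (nat_lit 363) ln15_12_3 ln15_12_3_ok) (L (nat_lit 400) ln16_12_1 ln16_12_1_ok)))))))) (B (M (nat_lit 461) (B (M (nat_lit 364) (B (L (nat_lit 332) ln12_10_4 ln12_10_4_ok) (L (nat_lit 493) ln13_15_7 ln13_15_7_ok))) (M (nat_lit 462) (B (M (nat_lit 365) (B (L (nat_lit 333) ln13_10_4 ln13_10_4_ok) (L (nat_lit 494) ln13_11_4 ln13_11_4_ok))) (M (nat_lit 463) (B (L (nat_lit 427) ln11_13_0 ln11_13_0_ok) (L (nat_lit 464) ln16_14_3 ln16_14_3_ok))))))) (B (M (nat_lit 398) (B (M (nat_lit 363) (B (M (nat_lit 395) (B (L (nat_lit 362) ln14_12_3 ln14_12_3_ok) (L (nat_lit 394) ln10_12_0 ln10_12_0_ok))) (M (nat_lit 399) (B (L (nat_lit 364) ln15_12_3 ln15_12_3_ok) (L (nat_lit 400) ln16_12_1 ln16_12_1_ok))))) (B (M (nat_lit 364) (B (M (nat_lit 332) (B (L (nat_lit 300) ln12_9_4 ln12_9_4_ok) (L (nat_lit 461) ln12_10_4 ln12_10_4_ok))) (M (nat_lit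 399) (B (L (nat_lit 363) ln15_12_3 ln15_12_3_ok) (L (nat_lit 400) ln16_12_1 ln16_12_1_ok))))) (M (nat_lit 366) (B (M (nat_lit 334) (B (L (nat_lit 302) ln14_9_5 ln14_9_5_ok) (L (nat_lit 461) ln14_10_5 ln14_10_5_ok))) (M (nat_lit 395) (B (L (nat_lit 367) ln11_12_2 ln11_12_2_ok) (L (nat_lit 394) ln10_12_0 ln10_12_0_ok)))))))) (M (nat_lit 398) (B (M (nat_lit 399) (B (L (nat_lit 427) ln15_12_1 ln15_12_1_ok) (L (nat_lit 400) ln16_12_1 ln16_12_1_ok))) (B (M (nat_lit 462) (B (M (nat_lit 365) (B (L (nat_lit 333) ln13_10_4 ln13_10_4_ok) (L (nat_lit 494) ln14_15_7 ln14_15_7_ok))) (M (nat_lit 427) (B (L (nat_lit 426) ln10_13_2 ln10_13_2_ok) (L (nat_lit 463) ln11_13_0 ln11_13_0_ok))))) (M (nat_lit 363) (B (M (nat_lit 395) (B (L (nat_lit 362) ln14_12_3 ln14_12_3_ok) (L (nat_lit 394) ln10_12_0 ln10_12_0_ok))) (M (nat_lit 399) (B (L (nat_lit 364) ln15_12_3 ln15_12_3_ok) (L (nat_lit 400) ln16_12_1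 ln16_12_1_ok)))))))))))))))))))
theorem c41_s608 : Sem (nat_lit 1386334847221798047169638878925036799968406779833514899637066259859226863686603287896039777716422623628704219945445734162783797248) (nat_lit 825554280841600030608870219547455646483657767345602991543981085896279972327954929252322069366854199483836158891190529323737530004273876940163983214439238166158229110784) (nat_lit 825554280841600030608870219547455646483657767345602991543981085896279972327954929252322069366854199483836158891190529323737530004273876940163983214439238166158229110784) :=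
  sem_of_chk (M (nat_lit 428) (B (M (nat_lit 430) (B (M (nat_lit 395) (B (L (nat_lit 431) ln15_13_3 ln15_13_3_ok) (M (nat_lit 394) (B (L (nat_lit 397) ln10_12_0 ln10_12_0_ok) (L (nat_lit 427) ln14_13_3 ln14_13_3_ok))))) (B (M (nat_lit 431) (B (L (nat_lit 395) ln15_13_3 ln15_13_3_ok) (M (nat_lit 400) (B (L (nat_lit 399) ln12_13_2 ln12_13_2_ok) (M (nat_lit 432) (B (L (nat_lit 397) ln16_13_3 ln16_13_3_ok) (L (nat_lit 401) ln13_13_2 ln13_13_2_ok))))))) (B (M (nat_lit 431) (B (M (nat_lit 400) (B (L (nat_lit 399) ln12_13_2 ln12_13_2_ok) (M (nat_lit 432) (B (L (nat_lit 397) ln16_13_3 ln16_13_3_ok) (L (nat_lit 401) ln13_13_2 ln13_13_2_ok))))) (M (nat_lit 427) (B (M (nat_lit 459) (B (L (nat_lit 458) ln14_13_1 ln14_13_1_ok) (L (nat_lit 460) ln15_13_1 ln15_13_1_ok))) (M (nat_lit 463) (B (L (nat_lit 462) ln11_13_0 ln11_13_0_ok) (L (nat_lit 464) ln12_13_0 ln12_13_0_ok))))))) (B (M (nat_lit 395)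 (B (L (nat_lit 431) ln15_13_3 ln15_13_3_ok) (M (nat_lit 394) (B (L (nat_lit 393) ln9_12_0 ln9_12_0_ok) (L (nat_lit 427) ln14_13_3 ln14_13_3_ok))))) (M (nat_lit 427) (B (M (nat_lit 395) (B (L (nat_lit 394) ln14_13_3 ln14_13_3_ok) (M (nat_lit 459) (B (L (nat_lit 458) ln14_13_1 ln14_13_1_ok) (M (nat_lit 364) (B (L (nat_lit 332) ln12_10_5 ln12_10_5_ok) (L (nat_lit 491) ln11_15_6 ln11_15_6_ok))))))) (B (M (nat_lit 426) (B (M (nat_lit 397) (B (L (nat_lit 425) ln9_13_2 ln9_13_2_ok) (L (nat_lit 398) ln10_13_2 ln10_13_2_ok))) (M (nat_lit 458) (B (L (nat_lit 457) ln13_13_1 ln13_13_1_ok) (L (nat_lit 459) ln14_13_1 ln14_13_1_ok))))) (M (nat_lit 426) (B (M (nat_lit 394) (B (L (nat_lit 393) ln13_13_3 ln13_13_3_ok) (L (nat_lit 395) ln14_13_3 ln14_13_3_ok))) (M (nat_lit 397) (B (L (nat_lit 425) ln9_13_2 ln9_13_2_ok) (L (nat_lit 398) ln10_13_2 ln10_13_2_ok))))))))))))) (B (M (nat_lit 427) (B (M (nat_lit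 459) (B (M (nat_lit 430) (B (L (nat_lit 458) ln14_13_1 ln14_13_1_ok) (M (nat_lit 395) (B (L (nat_lit 394) ln14_13_3 ln14_13_3_ok) (L (nat_lit 431) ln15_13_3 ln15_13_3_ok))))) (B (M (nat_lit 430) (B (L (nat_lit 458) ln14_13_1 ln14_13_1_ok) (M (nat_lit 431) (B (L (nat_lit 395) ln15_13_3 ln15_13_3_ok) (L (nat_lit 460) ln15_13_1 ln15_13_1_ok))))) (B (M (nat_lit 460) (B (M (nat_lit 491) (B (L (nat_lit 364) ln12_11_5 ln12_11_5_ok) (L (nat_lit 523) ln11_16_6 ln11_16_6_ok))) (M (nat_lit 430) (B (L (nat_lit 458) ln14_13_1 ln14_13_1_ok) (L (nat_lit 431) ln15_13_1 ln15_13_1_ok))))) (M (nat_lit 491) (B (L (nat_lit 523) ln11_16_6 ln11_16_6_ok) (M (nat_lit 364) (B (L (nat_lit 395) ln11_15_6 ln11_15_6_ok) (L (nat_lit 460) ln12_11_5 ln12_11_5_ok))))))))) (B (M (nat_lit 430) (B (M (nat_lit 395) (B (L (nat_lit 394) ln14_13_3 ln14_13_3_ok) (L (nat_lit 431) ln15_13_3 ln15_13_3_ok))) (M (nat_lit 426) (B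 (M (nat_lit 397) (B (L (nat_lit 425) ln9_13_2 ln9_13_2_ok) (L (nat_lit 398) ln10_13_2 ln10_13_2_ok))) (M (nat_lit 462) (B (L (nat_lit 461) ln10_13_0 ln10_13_0_ok) (L (nat_lit 463) ln11_13_0 ln11_13_0_ok))))))) (B (M (nat_lit 459) (B (M (nat_lit 430) (B (L (nat_lit 458) ln14_13_1 ln14_13_1_ok) (M (nat_lit 431) (B (L (nat_lit 395) ln15_13_3 ln15_13_3_ok) (L (nat_lit 460) ln15_13_1 ln15_13_1_ok))))) (B (M (nat_lit 460) (B (M (nat_lit 491) (B (L (nat_lit 364) ln12_11_5 ln12_11_5_ok) (L (nat_lit 523) ln11_16_6 ln11_16_6_ok))) (M (nat_lit 430) (B (L (nat_lit 458) ln14_13_1 ln14_13_1_ok) (L (nat_lit 431) ln15_13_1 ln15_13_1_ok))))) (B (M (nat_lit 491) (B (L (nat_lit 523) ln11_16_6 ln11_16_6_ok) (M (nat_lit 364) (B (L (nat_lit 395) ln11_15_6 ln11_15_6_ok) (L (nat_lit 460) ln12_11_5 ln12_11_5_ok))))) (M (nat_lit 395) (B (M (nat_lit 491) (B (L (nat_lit 364) ln11_15_6 ln11_15_6_ok) (L (nat_lit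 523) ln11_16_6 ln11_16_6_ok))) (M (nat_lit 430) (B (L (nat_lit 431) ln15_13_3 ln15_13_3_ok) (L (nat_lit 458) ln14_13_1 ln14_13_1_ok))))))))) (B (M (nat_lit 461) (B (M (nat_lit 462) (B (L (nat_lit 426) ln10_13_0 ln10_13_0_ok) (M (nat_lit 463) (B (L (nat_lit 430) ln11_13_0 ln11_13_0_ok) (L (nat_lit 460) ln15_14_3 ln15_14_3_ok))))) (B (M (nat_lit 493) (B (L (nat_lit 525) ln13_16_7 ln13_16_7_ok) (M (nat_lit 364) (B (L (nat_lit 397) ln13_15_7 ln13_15_7_ok) (L (nat_lit 460) ln12_11_4 ln12_11_4_ok))))) (M (nat_lit 397) (B (M (nat_lit 493) (B (L (nat_lit 364) ln13_15_7 ln13_15_7_ok) (L (nat_lit 525) ln13_16_7 ln13_16_7_ok))) (M (nat_lit 426) (B (L (nat_lit 425) ln9_13_2 ln9_13_2_ok) (L (nat_lit 462) ln10_13_0 ln10_13_0_ok)))))))) (M (nat_lit 461) (B (M (nat_lit 462) (B (L (nat_lit 426) ln10_13_0 ln10_13_0_ok) (M (nat_lit 463) (B (L (nat_lit 460) ln15_14_3 ln15_14_3_ok) (L (nat_lit 464) ln16_14_3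 ln16_14_3_ok))))) (B (M (nat_lit 493) (B (L (nat_lit 525) ln13_16_7 ln13_16_7_ok) (M (nat_lit 364) (B (L (nat_lit 397) ln13_15_7 ln13_15_7_ok) (L (nat_lit 460) ln12_11_4 ln12_11_4_ok))))) (M (nat_lit 397) (B (M (nat_lit 493) (B (L (nat_lit 364) ln13_15_7 ln13_15_7_ok) (L (nat_lit 525) ln13_16_7 ln13_16_7_ok))) (M (nat_lit 426) (B (L (nat_lit 425) ln9_13_2 ln9_13_2_ok) (L (nat_lit 462) ln10_13_0 ln10_13_0_ok))))))))))))) (B (M (nat_lit 430) (B (M (nat_lit 395) (B (L (nat_lit 431) ln15_13_3 ln15_13_3_ok) (M (nat_lit 394) (B (L (nat_lit 393) ln9_12_0 ln9_12_0_ok) (L (nat_lit 427) ln14_13_3 ln14_13_3_ok))))) (B (M (nat_lit 395) (B (L (nat_lit 431) ln15_13_3 ln15_13_3_ok) (M (nat_lit 394) (B (L (nat_lit 397) ln10_12_0 ln10_12_0_ok) (L (nat_lit 427) ln14_13_3 ln14_13_3_ok))))) (B (M (nat_lit 431) (B (L (nat_lit 395) ln15_13_3 ln15_13_3_ok) (M (nat_lit 400) (B (L (nat_lit 399) ln12_13_2 ln12_13_2_ok)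 (M (nat_lit 432) (B (L (nat_lit 397) ln16_13_3 ln16_13_3_ok) (L (nat_lit 401) ln13_13_2 ln13_13_2_ok))))))) (B (M (nat_lit 431) (B (M (nat_lit 400) (B (L (nat_lit 399) ln12_13_2 ln12_13_2_ok) (M (nat_lit 432) (B (L (nat_lit 397) ln16_13_3 ln16_13_3_ok) (L (nat_lit 401) ln13_13_2 ln13_13_2_ok))))) (M (nat_lit 427) (B (M (nat_lit 459) (B (L (nat_lit 458) ln14_13_1 ln14_13_1_ok) (L (nat_lit 460) ln15_13_1 ln15_13_1_ok))) (M (nat_lit 463) (B (L (nat_lit 462) ln11_13_0 ln11_13_0_ok) (L (nat_lit 464) ln12_13_0 ln12_13_0_ok))))))) (M (nat_lit 427) (B (M (nat_lit 398) (B (L (nat_lit 399) ln11_13_2 ln11_13_2_ok) (M (nat_lit 426) (B (L (nat_lit 397) ln10_13_2 ln10_13_2_ok) (M (nat_lit 462) (B (L (nat_lit 461) ln10_13_0 ln10_13_0_ok) (L (nat_lit 463) ln11_13_0 ln11_13_0_ok))))))) (B (M (nat_lit 426) (B (M (nat_lit 394) (B (L (nat_lit 393) ln13_13_3 ln13_13_3_ok) (L (nat_lit 395) ln14_13_3 ln14_13_3_ok)))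 (M (nat_lit 458) (B (L (nat_lit 457) ln13_13_1 ln13_13_1_ok) (L (nat_lit 459) ln14_13_1 ln14_13_1_ok))))) (M (nat_lit 398) (B (L (nat_lit 399) ln11_13_2 ln11_13_2_ok) (M (nat_lit 397) (B (M (nat_lit 462) (B (L (nat_lit 463) ln11_13_0 ln11_13_0_ok) (M (nat_lit 365) (B (L (nat_lit 333) ln13_10_4 ln13_10_4_ok) (L (nat_lit 494) ln14_15_7 ln14_15_7_ok))))) (M (nat_lit 366) (B (M (nat_lit 334) (B (L (nat_lit 302) ln14_9_5 ln14_9_5_ok) (L (nat_lit 461) ln14_10_5 ln14_10_5_ok))) (M (nat_lit 395) (B (L (nat_lit 367) ln11_12_2 ln11_12_2_ok) (L (nat_lit 394) ln10_12_0 ln10_12_0_ok))))))))))))))))) (B (M (nat_lit 427) (B (M (nat_lit 459) (B (M (nat_lit 430) (B (L (nat_lit 458) ln14_13_1 ln14_13_1_ok) (M (nat_lit 431) (B (L (nat_lit 395) ln15_13_3 ln15_13_3_ok) (L (nat_lit 460) ln15_13_1 ln15_13_1_ok))))) (B (M (nat_lit 460) (B (M (nat_lit 491) (B (L (nat_lit 364) ln12_11_5 ln12_11_5_ok) (L (nat_lit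 523) ln11_16_6 ln11_16_6_ok))) (M (nat_lit 430) (B (L (nat_lit 458) ln14_13_1 ln14_13_1_ok) (L (nat_lit 431) ln15_13_1 ln15_13_1_ok))))) (B (M (nat_lit 491) (B (L (nat_lit 523) ln11_16_6 ln11_16_6_ok) (M (nat_lit 364) (B (L (nat_lit 395) ln11_15_6 ln11_15_6_ok) (L (nat_lit 460) ln12_11_5 ln12_11_5_ok))))) (M (nat_lit 395) (B (M (nat_lit 491) (B (L (nat_lit 364) ln11_15_6 ln11_15_6_ok) (L (nat_lit 523) ln11_16_6 ln11_16_6_ok))) (M (nat_lit 430) (B (L (nat_lit 431) ln15_13_3 ln15_13_3_ok) (L (nat_lit 458) ln14_13_1 ln14_13_1_ok))))))))) (B (M (nat_lit 430) (B (M (nat_lit 431) (B (L (nat_lit 395) ln15_13_3 ln15_13_3_ok) (M (nat_lit 399) (B (L (nat_lit 398) ln11_13_2 ln11_13_2_ok) (L (nat_lit 400) ln12_13_2 ln12_13_2_ok))))) (B (M (nat_lit 426) (B (M (nat_lit 397) (B (L (nat_lit 425) ln9_13_2 ln9_13_2_ok) (L (nat_lit 398) ln10_13_2 ln10_13_2_ok))) (M (nat_lit 462) (B (L (nat_lit 461) ln10_13_0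 ln10_13_0_ok) (L (nat_lit 463) ln11_13_0 ln11_13_0_ok))))) (M (nat_lit 431) (B (L (nat_lit 395) ln15_13_3 ln15_13_3_ok) (M (nat_lit 459) (B (L (nat_lit 458) ln14_13_1 ln14_13_1_ok) (L (nat_lit 460) ln15_13_1 ln15_13_1_ok)))))))) (B (M (nat_lit 461) (B (M (nat_lit 462) (B (L (nat_lit 426) ln10_13_0 ln10_13_0_ok) (M (nat_lit 463) (B (L (nat_lit 460) ln15_14_3 ln15_14_3_ok) (L (nat_lit 464) ln16_14_3 ln16_14_3_ok))))) (M (nat_lit 364) (B (L (nat_lit 332) ln12_10_4 ln12_10_4_ok) (M (nat_lit 493) (B (L (nat_lit 397) ln13_15_7 ln13_15_7_ok) (L (nat_lit 525) ln13_16_7 ln13_16_7_ok))))))) (M (nat_lit 459) (B (M (nat_lit 364) (B (L (nat_lit 332) ln12_10_5 ln12_10_5_ok) (M (nat_lit 491) (B (L (nat_lit 395) ln11_15_6 ln11_15_6_ok) (L (nat_lit 523) ln11_16_6 ln11_16_6_ok))))) (M (nat_lit 426) (B (M (nat_lit 397) (B (L (nat_lit 425) ln9_13_2 ln9_13_2_ok) (L (nat_lit 398) ln10_13_2 ln10_13_2_ok)))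 (M (nat_lit 458) (B (L (nat_lit 457) ln13_13_1 ln13_13_1_ok) (L (nat_lit 430) ln14_13_1 ln14_13_1_ok))))))))))) (B (M (nat_lit 364) (B (M (nat_lit 461) (B (L (nat_lit 332) ln12_10_4 ln12_10_4_ok) (M (nat_lit 493) (B (L (nat_lit 397) ln13_15_7 ln13_15_7_ok) (L (nat_lit 525) ln13_16_7 ln13_16_7_ok))))) (B (M (nat_lit 460) (B (M (nat_lit 365) (B (L (nat_lit 333) ln12_14_6 ln12_14_6_ok) (M (nat_lit 492) (B (L (nat_lit 397) ln12_15_6 ln12_15_6_ok) (M (nat_lit 491) (B (L (nat_lit 459) ln12_11_5 ln12_11_5_ok) (L (nat_lit 523) ln12_12_5 ln12_12_5_ok))))))) (B (M (nat_lit 492) (B (M (nat_lit 491) (B (L (nat_lit 459) ln12_11_5 ln12_11_5_ok) (L (nat_lit 523) ln12_12_5 ln12_12_5_ok))) (M (nat_lit 493) (B (L (nat_lit 461) ln12_11_4 ln12_11_4_ok) (L (nat_lit 525) ln12_12_4 ln12_12_4_ok))))) (B (M (nat_lit 492) (B (M (nat_lit 365) (B (L (nat_lit 333) ln12_14_6 ln12_14_6_ok) (L (nat_lit 397) ln12_15_6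 ln12_15_6_ok))) (M (nat_lit 493) (B (L (nat_lit 461) ln12_11_4 ln12_11_4_ok) (L (nat_lit 525) ln12_12_4 ln12_12_4_ok))))) (M (nat_lit 461) (B (L (nat_lit 493) ln12_11_4 ln12_11_4_ok) (M (nat_lit 459) (B (L (nat_lit 491) ln12_11_5 ln12_11_5_ok) (M (nat_lit 430) (B (L (nat_lit 431) ln15_13_1 ln15_13_1_ok) (L (nat_lit 458) ln10_14_2 ln10_14_2_ok))))))))))) (B (M (nat_lit 461) (B (L (nat_lit 332) ln12_10_4 ln12_10_4_ok) (M (nat_lit 493) (B (L (nat_lit 460) ln12_11_4 ln12_11_4_ok) (L (nat_lit 525) ln13_16_7 ln13_16_7_ok))))) (B (M (nat_lit 460) (B (M (nat_lit 365) (B (L (nat_lit 333) ln12_14_6 ln12_14_6_ok) (M (nat_lit 492) (B (L (nat_lit 397) ln12_15_6 ln12_15_6_ok) (M (nat_lit 491) (B (L (nat_lit 459) ln12_11_5 ln12_11_5_ok) (L (nat_lit 523) ln12_12_5 ln12_12_5_ok))))))) (B (M (nat_lit 492) (B (M (nat_lit 491) (B (L (nat_lit 459) ln12_11_5 ln12_11_5_ok) (L (nat_lit 523) ln12_12_5 ln12_12_5_ok)))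 (M (nat_lit 397) (B (L (nat_lit 365) ln12_15_6 ln12_15_6_ok) (L (nat_lit 524) ln12_16_6 ln12_16_6_ok))))) (B (M (nat_lit 459) (B (L (nat_lit 491) ln12_11_5 ln12_11_5_ok) (M (nat_lit 430) (B (L (nat_lit 431) ln15_13_1 ln15_13_1_ok) (M (nat_lit 427) (B (L (nat_lit 332) ln12_10_5 ln12_10_5_ok) (L (nat_lit 458) ln14_13_1 ln14_13_1_ok))))))) (B (M (nat_lit 492) (B (M (nat_lit 365) (B (L (nat_lit 333) ln12_14_6 ln12_14_6_ok) (L (nat_lit 397) ln12_15_6 ln12_15_6_ok))) (B (M (nat_lit 397) (B (L (nat_lit 365) ln12_15_6 ln12_15_6_ok) (L (nat_lit 524) ln12_16_6 ln12_16_6_ok))) (B (M (nat_lit 524) (B (L (nat_lit 397) ln12_16_6 ln12_16_6_ok) (M (nat_lit 523) (B (L (nat_lit 491) ln12_12_5 ln12_12_5_ok) (L (nat_lit 555) ln12_13_5 ln12_13_5_ok))))) (M (nat_lit 524) (B (M (nat_lit 523) (B (L (nat_lit 491) ln12_12_5 ln12_12_5_ok) (L (nat_lit 555) ln12_13_5 ln12_13_5_ok))) (M (nat_lit 525) (B (L (nat_lit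 493) ln12_12_4 ln12_12_4_ok) (L (nat_lit 557) ln12_13_4 ln12_13_4_ok))))))))) (M (nat_lit 397) (B (M (nat_lit 365) (B (L (nat_lit 333) ln12_14_6 ln12_14_6_ok) (L (nat_lit 492) ln12_15_6 ln12_15_6_ok))) (M (nat_lit 427) (B (M (nat_lit 332) (B (L (nat_lit 300) ln12_9_4 ln12_9_4_ok) (L (nat_lit 459) ln12_10_5 ln12_10_5_ok))) (M (nat_lit 426) (B (L (nat_lit 425) ln9_13_2 ln9_13_2_ok) (L (nat_lit 398) ln10_13_2 ln10_13_2_ok)))))))))))) (M (nat_lit 332) (B (L (nat_lit 461) ln12_10_4 ln12_10_4_ok) (M (nat_lit 300) (B (L (nat_lit 397) ln12_9_4 ln12_9_4_ok) (M (nat_lit 301) (B (L (nat_lit 269) ln12_12_6 ln12_12_6_ok) (L (nat_lit 333) ln12_13_6 ln12_13_6_ok)))))))))))) (B (M (nat_lit 430) (B (M (nat_lit 395) (B (L (nat_lit 431) ln15_13_3 ln15_13_3_ok) (M (nat_lit 394) (B (L (nat_lit 393) ln9_12_0 ln9_12_0_ok) (L (nat_lit 427) ln14_13_3 ln14_13_3_ok))))) (B (M (nat_lit 431) (B (L (nat_lit 395)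 ln15_13_3 ln15_13_3_ok) (M (nat_lit 427) (B (M (nat_lit 399) (B (L (nat_lit 398) ln11_13_2 ln11_13_2_ok) (L (nat_lit 400) ln12_13_2 ln12_13_2_ok))) (M (nat_lit 459) (B (L (nat_lit 458) ln14_13_1 ln14_13_1_ok) (L (nat_lit 460) ln15_13_1 ln15_13_1_ok))))))) (B (M (nat_lit 461) (B (M (nat_lit 364) (B (L (nat_lit 332) ln12_10_4 ln12_10_4_ok) (M (nat_lit 493) (B (L (nat_lit 460) ln12_11_4 ln12_11_4_ok) (L (nat_lit 525) ln13_16_7 ln13_16_7_ok))))) (B (M (nat_lit 460) (B (M (nat_lit 493) (B (L (nat_lit 364) ln12_11_4 ln12_11_4_ok) (L (nat_lit 525) ln13_16_7 ln13_16_7_ok))) (M (nat_lit 459) (B (L (nat_lit 431) ln15_13_1 ln15_13_1_ok) (L (nat_lit 458) ln10_14_2 ln10_14_2_ok))))) (B (M (nat_lit 427) (B (M (nat_lit 462) (B (L (nat_lit 426) ln10_13_0 ln10_13_0_ok) (L (nat_lit 463) ln11_13_0 ln11_13_0_ok))) (M (nat_lit 431) (B (M (nat_lit 399) (B (L (nat_lit 398) ln11_13_2 ln11_13_2_ok) (L (nat_lit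 400) ln12_13_2 ln12_13_2_ok))) (M (nat_lit 459) (B (L (nat_lit 458) ln14_13_1 ln14_13_1_ok) (L (nat_lit 460) ln15_13_1 ln15_13_1_ok))))))) (M (nat_lit 398) (B (M (nat_lit 493) (B (L (nat_lit 525) ln13_16_7 ln13_16_7_ok) (M (nat_lit 366) (B (L (nat_lit 334) ln14_10_5 ln14_10_5_ok) (L (nat_lit 462) ln14_11_5 ln14_11_5_ok))))) (M (nat_lit 399) (B (L (nat_lit 427) ln11_13_2 ln11_13_2_ok) (M (nat_lit 400) (B (L (nat_lit 401) ln17_12_1 ln17_12_1_ok) (L (nat_lit 431) ln12_13_2 ln12_13_2_ok))))))))))) (B (M (nat_lit 431) (B (L (nat_lit 395) ln15_13_3 ln15_13_3_ok) (M (nat_lit 432) (B (M (nat_lit 400) (B (L (nat_lit 399) ln12_13_2 ln12_13_2_ok) (L (nat_lit 401) ln13_13_2 ln13_13_2_ok))) (M (nat_lit 460) (B (L (nat_lit 459) ln15_13_1 ln15_13_1_ok) (L (nat_lit 461) ln16_13_1 ln16_13_1_ok))))))) (M (nat_lit 427) (B (M (nat_lit 395) (B (L (nat_lit 394) ln14_13_3 ln14_13_3_ok) (M (nat_lit 459) (B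 (L (nat_lit 458) ln14_13_1 ln14_13_1_ok) (M (nat_lit 364) (B (L (nat_lit 332) ln12_10_5 ln12_10_5_ok) (L (nat_lit 491) ln11_15_6 ln11_15_6_ok))))))) (B (M (nat_lit 426) (B (M (nat_lit 394) (B (L (nat_lit 393) ln13_13_3 ln13_13_3_ok) (L (nat_lit 395) ln14_13_3 ln14_13_3_ok))) (M (nat_lit 462) (B (L (nat_lit 461) ln10_13_0 ln10_13_0_ok) (L (nat_lit 463) ln11_13_0 ln11_13_0_ok))))) (M (nat_lit 426) (B (M (nat_lit 458) (B (L (nat_lit 457) ln13_13_1 ln13_13_1_ok) (L (nat_lit 459) ln14_13_1 ln14_13_1_ok))) (M (nat_lit 462) (B (L (nat_lit 461) ln10_13_0 ln10_13_0_ok) (L (nat_lit 463) ln11_13_0 ln11_13_0_ok))))))))))))) (B (M (nat_lit 427) (B (M (nat_lit 459) (B (M (nat_lit 430) (B (L (nat_lit 458) ln14_13_1 ln14_13_1_ok) (M (nat_lit 431) (B (L (nat_lit 395) ln15_13_3 ln15_13_3_ok) (L (nat_lit 460) ln15_13_1 ln15_13_1_ok))))) (B (M (nat_lit 460) (B (M (nat_lit 491) (B (L (nat_lit 364) ln12_11_5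 ln12_11_5_ok) (L (nat_lit 523) ln11_16_6 ln11_16_6_ok))) (M (nat_lit 430) (B (L (nat_lit 458) ln14_13_1 ln14_13_1_ok) (L (nat_lit 431) ln15_13_1 ln15_13_1_ok))))) (B (M (nat_lit 491) (B (L (nat_lit 523) ln11_16_6 ln11_16_6_ok) (M (nat_lit 364) (B (L (nat_lit 395) ln11_15_6 ln11_15_6_ok) (L (nat_lit 460) ln12_11_5 ln12_11_5_ok))))) (M (nat_lit 395) (B (M (nat_lit 491) (B (L (nat_lit 364) ln11_15_6 ln11_15_6_ok) (L (nat_lit 523) ln11_16_6 ln11_16_6_ok))) (M (nat_lit 430) (B (L (nat_lit 431) ln15_13_3 ln15_13_3_ok) (L (nat_lit 458) ln14_13_1 ln14_13_1_ok))))))))) (B (M (nat_lit 430) (B (M (nat_lit 395) (B (L (nat_lit 394) ln14_13_3 ln14_13_3_ok) (L (nat_lit 431) ln15_13_3 ln15_13_3_ok))) (M (nat_lit 426) (B (M (nat_lit 458) (B (L (nat_lit 457) ln13_13_1 ln13_13_1_ok) (L (nat_lit 459) ln14_13_1 ln14_13_1_ok))) (M (nat_lit 462) (B (L (nat_lit 461) ln10_13_0 ln10_13_0_ok) (L (nat_lit 463)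 ln11_13_0 ln11_13_0_ok))))))) (B (M (nat_lit 461) (B (M (nat_lit 462) (B (L (nat_lit 426) ln10_13_0 ln10_13_0_ok) (M (nat_lit 463) (B (L (nat_lit 430) ln11_13_0 ln11_13_0_ok) (L (nat_lit 460) ln15_14_3 ln15_14_3_ok))))) (B (M (nat_lit 364) (B (L (nat_lit 332) ln12_10_4 ln12_10_4_ok) (M (nat_lit 493) (B (L (nat_lit 460) ln12_11_4 ln12_11_4_ok) (L (nat_lit 525) ln13_16_7 ln13_16_7_ok))))) (M (nat_lit 462) (B (L (nat_lit 426) ln10_13_0 ln10_13_0_ok) (M (nat_lit 463) (B (L (nat_lit 430) ln11_13_0 ln11_13_0_ok) (L (nat_lit 464) ln16_14_3 ln16_14_3_ok)))))))) (M (nat_lit 461) (B (M (nat_lit 462) (B (L (nat_lit 426) ln10_13_0 ln10_13_0_ok) (M (nat_lit 463) (B (L (nat_lit 460) ln15_14_3 ln15_14_3_ok) (L (nat_lit 464) ln16_14_3 ln16_14_3_ok))))) (M (nat_lit 364) (B (L (nat_lit 332) ln12_10_4 ln12_10_4_ok) (M (nat_lit 493) (B (L (nat_lit 397) ln13_15_7 ln13_15_7_ok) (L (nat_lit 525) ln13_16_7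 ln13_16_7_ok))))))))))) (B (M (nat_lit 460) (B (M (nat_lit 459) (B (M (nat_lit 430) (B (L (nat_lit 431) ln15_13_1 ln15_13_1_ok) (M (nat_lit 458) (B (L (nat_lit 427) ln14_13_1 ln14_13_1_ok) (L (nat_lit 457) ln9_14_2 ln9_14_2_ok))))) (B (M (nat_lit 430) (B (L (nat_lit 431) ln15_13_1 ln15_13_1_ok) (M (nat_lit 458) (B (L (nat_lit 457) ln9_14_2 ln9_14_2_ok) (L (nat_lit 461) ln10_14_2 ln10_14_2_ok))))) (M (nat_lit 364) (B (L (nat_lit 491) ln12_11_5 ln12_11_5_ok) (M (nat_lit 332) (B (L (nat_lit 427) ln12_10_5 ln12_10_5_ok) (L (nat_lit 461) ln12_10_4 ln12_10_4_ok)))))))) (B (M (nat_lit 459) (B (M (nat_lit 430) (B (L (nat_lit 431) ln15_13_1 ln15_13_1_ok) (M (nat_lit 458) (B (L (nat_lit 427) ln14_13_1 ln14_13_1_ok) (L (nat_lit 457) ln9_14_2 ln9_14_2_ok))))) (M (nat_lit 491) (B (L (nat_lit 364) ln12_11_5 ln12_11_5_ok) (M (nat_lit 523) (B (L (nat_lit 492) ln12_12_5 ln12_12_5_ok) (L (nat_lit 555)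 ln11_17_6 ln11_17_6_ok))))))) (B (M (nat_lit 395) (B (M (nat_lit 430) (B (L (nat_lit 431) ln15_13_3 ln15_13_3_ok) (M (nat_lit 394) (B (L (nat_lit 393) ln9_12_0 ln9_12_0_ok) (L (nat_lit 427) ln14_13_3 ln14_13_3_ok))))) (B (M (nat_lit 430) (B (L (nat_lit 431) ln15_13_3 ln15_13_3_ok) (M (nat_lit 394) (B (L (nat_lit 397) ln10_12_0 ln10_12_0_ok) (L (nat_lit 427) ln14_13_3 ln14_13_3_ok))))) (M (nat_lit 492) (B (L (nat_lit 363) ln12_15_7 ln12_15_7_ok) (M (nat_lit 397) (B (L (nat_lit 365) ln12_15_6 ln12_15_6_ok) (L (nat_lit 524) ln12_16_6 ln12_16_6_ok)))))))) (B (M (nat_lit 459) (B (M (nat_lit 430) (B (L (nat_lit 431) ln15_13_1 ln15_13_1_ok) (M (nat_lit 458) (B (L (nat_lit 457) ln9_14_2 ln9_14_2_ok) (L (nat_lit 461) ln10_14_2 ln10_14_2_ok))))) (M (nat_lit 491) (B (L (nat_lit 364) ln12_11_5 ln12_11_5_ok) (M (nat_lit 523) (B (L (nat_lit 492) ln12_12_5 ln12_12_5_ok) (L (nat_lit 555) ln11_17_6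 ln11_17_6_ok))))))) (M (nat_lit 364) (B (M (nat_lit 461) (B (L (nat_lit 332) ln12_10_4 ln12_10_4_ok) (L (nat_lit 493) ln12_11_4 ln12_11_4_ok))) (M (nat_lit 492) (B (M (nat_lit 363) (B (L (nat_lit 331) ln12_14_7 ln12_14_7_ok) (L (nat_lit 395) ln12_15_7 ln12_15_7_ok))) (M (nat_lit 365) (B (L (nat_lit 333) ln12_14_6 ln12_14_6_ok) (L (nat_lit 397) ln12_15_6 ln12_15_6_ok)))))))))))) (B (M (nat_lit 461) (B (M (nat_lit 493) (B (L (nat_lit 525) ln13_16_7 ln13_16_7_ok) (M (nat_lit 364) (B (L (nat_lit 332) ln12_10_4 ln12_10_4_ok) (L (nat_lit 460) ln12_11_4 ln12_11_4_ok))))) (B (M (nat_lit 493) (B (L (nat_lit 525) ln13_16_7 ln13_16_7_ok) (M (nat_lit 364) (B (L (nat_lit 397) ln13_15_7 ln13_15_7_ok) (L (nat_lit 460) ln12_11_4 ln12_11_4_ok))))) (B (M (nat_lit 493) (B (L (nat_lit 525) ln13_16_7 ln13_16_7_ok) (M (nat_lit 397) (B (M (nat_lit 492) (B (L (nat_lit 524) ln13_12_5 ln13_12_5_ok) (M (nat_lit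 365) (B (L (nat_lit 460) ln12_15_6 ln12_15_6_ok) (M (nat_lit 494) (B (L (nat_lit 462) ln13_11_4 ln13_11_4_ok) (L (nat_lit 526) ln13_12_4 ln13_12_4_ok))))))) (B (M (nat_lit 395) (B (M (nat_lit 430) (B (L (nat_lit 394) ln10_12_0 ln10_12_0_ok) (L (nat_lit 431) ln15_13_3 ln15_13_3_ok))) (M (nat_lit 363) (B (M (nat_lit 398) (B (L (nat_lit 362) ln14_12_3 ln14_12_3_ok) (L (nat_lit 366) ln13_15_6 ln13_15_6_ok))) (M (nat_lit 492) (B (L (nat_lit 460) ln12_15_7 ln12_15_7_ok) (L (nat_lit 524) ln13_12_5 ln13_12_5_ok))))))) (M (nat_lit 365) (B (M (nat_lit 366) (B (L (nat_lit 334) ln13_14_6 ln13_14_6_ok) (L (nat_lit 398) ln13_15_6 ln13_15_6_ok))) (M (nat_lit 494) (B (L (nat_lit 462) ln13_11_4 ln13_11_4_ok) (L (nat_lit 526) ln13_12_4 ln13_12_4_ok)))))))))) (B (M (nat_lit 493) (B (L (nat_lit 525) ln13_16_7 ln13_16_7_ok) (M (nat_lit 364) (B (L (nat_lit 332) ln12_10_4 ln12_10_4_ok) (L (nat_lit 397) ln13_15_7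 ln13_15_7_ok))))) (M (nat_lit 364) (B (L (nat_lit 332) ln12_10_4 ln12_10_4_ok) (M (nat_lit 460) (B (M (nat_lit 459) (B (L (nat_lit 491) ln12_11_5 ln12_11_5_ok) (M (nat_lit 430) (B (L (nat_lit 431) ln15_13_1 ln15_13_1_ok) (L (nat_lit 458) ln10_14_2 ln10_14_2_ok))))) (M (nat_lit 492) (B (M (nat_lit 363) (B (L (nat_lit 331) ln12_14_7 ln12_14_7_ok) (L (nat_lit 395) ln12_15_7 ln12_15_7_ok))) (M (nat_lit 524) (B (L (nat_lit 397) ln12_16_6 ln12_16_6_ok) (L (nat_lit 556) ln12_17_6 ln12_17_6_ok)))))))))))))) (B (M (nat_lit 461) (B (M (nat_lit 493) (B (L (nat_lit 525) ln13_16_7 ln13_16_7_ok) (M (nat_lit 364) (B (L (nat_lit 332) ln12_10_4 ln12_10_4_ok) (L (nat_lit 460) ln12_11_4 ln12_11_4_ok))))) (B (M (nat_lit 493) (B (L (nat_lit 525) ln13_16_7 ln13_16_7_ok) (M (nat_lit 364) (B (L (nat_lit 397) ln13_15_7 ln13_15_7_ok) (L (nat_lit 460) ln12_11_4 ln12_11_4_ok))))) (B (M (nat_lit 493) (B (L (nat_lit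 525) ln13_16_7 ln13_16_7_ok) (M (nat_lit 397) (B (M (nat_lit 398) (B (L (nat_lit 366) ln13_15_6 ln13_15_6_ok) (M (nat_lit 399) (B (L (nat_lit 427) ln15_12_1 ln15_12_1_ok) (L (nat_lit 400) ln16_12_1 ln16_12_1_ok))))) (M (nat_lit 365) (B (M (nat_lit 333) (B (L (nat_lit 301) ln13_9_5 ln13_9_5_ok) (L (nat_lit 460) ln13_10_5 ln13_10_5_ok))) (M (nat_lit 494) (B (L (nat_lit 462) ln13_11_4 ln13_11_4_ok) (L (nat_lit 526) ln13_12_4 ln13_12_4_ok))))))))) (B (M (nat_lit 493) (B (L (nat_lit 525) ln13_16_7 ln13_16_7_ok) (M (nat_lit 364) (B (L (nat_lit 332) ln12_10_4 ln12_10_4_ok) (L (nat_lit 397) ln13_15_7 ln13_15_7_ok))))) (M (nat_lit 364) (B (L (nat_lit 332) ln12_10_4 ln12_10_4_ok) (M (nat_lit 460) (B (M (nat_lit 365) (B (L (nat_lit 333) ln12_14_6 ln12_14_6_ok) (M (nat_lit 492) (B (L (nat_lit 397) ln12_15_6 ln12_15_6_ok) (M (nat_lit 363) (B (L (nat_lit 331) ln12_14_7 ln12_14_7_ok) (L (nat_lit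 395) ln12_15_7 ln12_15_7_ok))))))) (B (M (nat_lit 492) (B (M (nat_lit 491) (B (L (nat_lit 459) ln12_11_5 ln12_11_5_ok) (L (nat_lit 523) ln12_12_5 ln12_12_5_ok))) (M (nat_lit 524) (B (L (nat_lit 397) ln12_16_6 ln12_16_6_ok) (L (nat_lit 556) ln12_17_6 ln12_17_6_ok))))) (B (M (nat_lit 492) (B (M (nat_lit 363) (B (L (nat_lit 331) ln12_14_7 ln12_14_7_ok) (L (nat_lit 395) ln12_15_7 ln12_15_7_ok))) (M (nat_lit 491) (B (L (nat_lit 459) ln12_11_5 ln12_11_5_ok) (L (nat_lit 523) ln12_12_5 ln12_12_5_ok))))) (M (nat_lit 462) (B (M (nat_lit 463) (B (L (nat_lit 427) ln15_14_3 ln15_14_3_ok) (L (nat_lit 464) ln16_14_3 ln16_14_3_ok))) (M (nat_lit 494) (B (M (nat_lit 365) (B (L (nat_lit 333) ln12_14_6 ln12_14_6_ok) (L (nat_lit 397) ln13_11_4 ln13_11_4_ok))) (M (nat_lit 459) (B (L (nat_lit 491) ln12_11_5 ln12_11_5_ok) (L (nat_lit 495) ln11_14_0 ln11_14_0_ok)))))))))))))))))) (B c41_n607 (M (nat_lit 430)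 (B (M (nat_lit 395) (B (L (nat_lit 431) ln15_13_3 ln15_13_3_ok) (M (nat_lit 394) (B (L (nat_lit 393) ln9_12_0 ln9_12_0_ok) (L (nat_lit 427) ln14_13_3 ln14_13_3_ok))))) (B (M (nat_lit 395) (B (L (nat_lit 431) ln15_13_3 ln15_13_3_ok) (M (nat_lit 394) (B (L (nat_lit 397) ln10_12_0 ln10_12_0_ok) (L (nat_lit 427) ln14_13_3 ln14_13_3_ok))))) (B (M (nat_lit 431) (B (L (nat_lit 395) ln15_13_3 ln15_13_3_ok) (M (nat_lit 400) (B (L (nat_lit 399) ln12_13_2 ln12_13_2_ok) (M (nat_lit 432) (B (L (nat_lit 397) ln16_13_3 ln16_13_3_ok) (L (nat_lit 401) ln13_13_2 ln13_13_2_ok))))))) (B (M (nat_lit 461) (B (M (nat_lit 364) (B (L (nat_lit 332) ln12_10_4 ln12_10_4_ok) (M (nat_lit 493) (B (L (nat_lit 397) ln13_15_7 ln13_15_7_ok) (L (nat_lit 525) ln13_16_7 ln13_16_7_ok))))) (B (M (nat_lit 427) (B (M (nat_lit 462) (B (L (nat_lit 426) ln10_13_0 ln10_13_0_ok) (L (nat_lit 463) ln11_13_0 ln11_13_0_ok))) (B (M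 (nat_lit 431) (B (M (nat_lit 399) (B (L (nat_lit 398) ln11_13_2 ln11_13_2_ok) (L (nat_lit 400) ln12_13_2 ln12_13_2_ok))) (M (nat_lit 463) (B (L (nat_lit 462) ln11_13_0 ln11_13_0_ok) (L (nat_lit 464) ln12_13_0 ln12_13_0_ok))))) (M (nat_lit 426) (B (M (nat_lit 397) (B (L (nat_lit 425) ln9_13_2 ln9_13_2_ok) (L (nat_lit 398) ln10_13_2 ln10_13_2_ok))) (M (nat_lit 458) (B (L (nat_lit 457) ln13_13_1 ln13_13_1_ok) (L (nat_lit 459) ln14_13_1 ln14_13_1_ok)))))))) (M (nat_lit 398) (B (M (nat_lit 493) (B (L (nat_lit 525) ln13_16_7 ln13_16_7_ok) (M (nat_lit 366) (B (L (nat_lit 334) ln14_10_5 ln14_10_5_ok) (L (nat_lit 462) ln14_11_5 ln14_11_5_ok))))) (M (nat_lit 399) (B (L (nat_lit 427) ln11_13_2 ln11_13_2_ok) (M (nat_lit 400) (B (L (nat_lit 401) ln17_12_1 ln17_12_1_ok) (L (nat_lit 431) ln12_13_2 ln12_13_2_ok)))))))))) (M (nat_lit 395) (B (M (nat_lit 394) (B (L (nat_lit 393) ln9_12_0 ln9_12_0_ok)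 (L (nat_lit 397) ln10_12_0 ln10_12_0_ok))) (B (M (nat_lit 394) (B (L (nat_lit 397) ln10_12_0 ln10_12_0_ok) (L (nat_lit 427) ln14_13_3 ln14_13_3_ok))) (B (M (nat_lit 427) (B (M (nat_lit 459) (B (L (nat_lit 458) ln14_13_1 ln14_13_1_ok) (M (nat_lit 364) (B (L (nat_lit 332) ln12_10_5 ln12_10_5_ok) (L (nat_lit 491) ln11_15_6 ln11_15_6_ok))))) (M (nat_lit 426) (B (M (nat_lit 398) (B (L (nat_lit 397) ln14_12_1 ln14_12_1_ok) (L (nat_lit 399) ln11_13_2 ln11_13_2_ok))) (M (nat_lit 462) (B (L (nat_lit 461) ln10_13_0 ln10_13_0_ok) (L (nat_lit 463) ln11_13_0 ln11_13_0_ok))))))) (M (nat_lit 394) (B (L (nat_lit 393) ln9_12_0 ln9_12_0_ok) (L (nat_lit 427) ln14_13_3 ln14_13_3_ok)))))))))))))))))))))))) (nat_lit 1386334847221798047169638878925036799968406779833514899637066259859226863686603287896039777716422623628704219945445734162783797248) (nat_lit 825554280841600030608870219547455646483657767345602991543981085896279972327954929252322069366854199483836158891190529323737530004273876940163983214439238166158229110784)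 (nat_lit 825554280841600030608870219547455646483657767345602991543981085896279972327954929252322069366854199483836158891190529323737530004273876940163983214439238166158229110784) (by decide +kernel)
theorem c41_s636 : Sem (nat_lit 1386334847221798047169638878925036799968406779833514899637066259859226863686603287896039777716422623628704219945445734162783797248) (nat_lit 235872651963234194321127316268038632277888826655534174610198851482901196954178615559899318259920582292676201331882910184216743263757792953151616304175041579920725639168) (nat_lit 235872651963234194321127316268038632277888826655534174610198851482901196954178615559899318259920582292676201331882910184216743263757792953151616304175041579920725639168) :=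
  sem_of_chk (M (nat_lit 428) (B (M (nat_lit 430) (B (M (nat_lit 395) (B (L (nat_lit 431) ln15_13_3 ln15_13_3_ok) (M (nat_lit 394) (B (L (nat_lit 397) ln10_12_0 ln10_12_0_ok) (L (nat_lit 427) ln14_13_3 ln14_13_3_ok))))) (B (M (nat_lit 431) (B (L (nat_lit 395) ln15_13_3 ln15_13_3_ok) (M (nat_lit 400) (B (L (nat_lit 399) ln12_13_2 ln12_13_2_ok) (M (nat_lit 432) (B (L (nat_lit 397) ln16_13_3 ln16_13_3_ok) (L (nat_lit 401) ln13_13_2 ln13_13_2_ok))))))) (B (M (nat_lit 431) (B (M (nat_lit 400) (B (L (nat_lit 399) ln12_13_2 ln12_13_2_ok) (M (nat_lit 432) (B (L (nat_lit 397) ln16_13_3 ln16_13_3_ok) (L (nat_lit 401) ln13_13_2 ln13_13_2_ok))))) (M (nat_lit 427) (B (M (nat_lit 459) (B (L (nat_lit 458) ln14_13_1 ln14_13_1_ok) (L (nat_lit 460) ln15_13_1 ln15_13_1_ok))) (M (nat_lit 463) (B (L (nat_lit 462) ln11_13_0 ln11_13_0_ok) (L (nat_lit 464) ln12_13_0 ln12_13_0_ok))))))) (B (M (nat_lit 395)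 (B (L (nat_lit 431) ln15_13_3 ln15_13_3_ok) (M (nat_lit 394) (B (L (nat_lit 393) ln9_12_0 ln9_12_0_ok) (L (nat_lit 427) ln14_13_3 ln14_13_3_ok))))) (M (nat_lit 427) (B (M (nat_lit 395) (B (L (nat_lit 394) ln14_13_3 ln14_13_3_ok) (M (nat_lit 459) (B (L (nat_lit 458) ln14_13_1 ln14_13_1_ok) (M (nat_lit 364) (B (L (nat_lit 332) ln12_10_5 ln12_10_5_ok) (L (nat_lit 491) ln11_15_6 ln11_15_6_ok))))))) (B (M (nat_lit 426) (B (M (nat_lit 397) (B (L (nat_lit 425) ln9_13_2 ln9_13_2_ok) (L (nat_lit 398) ln10_13_2 ln10_13_2_ok))) (M (nat_lit 458) (B (L (nat_lit 457) ln13_13_1 ln13_13_1_ok) (L (nat_lit 459) ln14_13_1 ln14_13_1_ok))))) (M (nat_lit 426) (B (M (nat_lit 394) (B (L (nat_lit 393) ln13_13_3 ln13_13_3_ok) (L (nat_lit 395) ln14_13_3 ln14_13_3_ok))) (M (nat_lit 397) (B (L (nat_lit 425) ln9_13_2 ln9_13_2_ok) (L (nat_lit 398) ln10_13_2 ln10_13_2_ok))))))))))))) (B (M (nat_lit 427) (B (M (nat_lit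 459) (B (M (nat_lit 430) (B (L (nat_lit 458) ln14_13_1 ln14_13_1_ok) (M (nat_lit 395) (B (L (nat_lit 394) ln14_13_3 ln14_13_3_ok) (L (nat_lit 431) ln15_13_3 ln15_13_3_ok))))) (B (M (nat_lit 430) (B (L (nat_lit 458) ln14_13_1 ln14_13_1_ok) (M (nat_lit 431) (B (L (nat_lit 395) ln15_13_3 ln15_13_3_ok) (L (nat_lit 460) ln15_13_1 ln15_13_1_ok))))) (B (M (nat_lit 460) (B (M (nat_lit 491) (B (L (nat_lit 364) ln12_11_5 ln12_11_5_ok) (L (nat_lit 523) ln11_16_6 ln11_16_6_ok))) (M (nat_lit 430) (B (L (nat_lit 458) ln14_13_1 ln14_13_1_ok) (L (nat_lit 431) ln15_13_1 ln15_13_1_ok))))) (M (nat_lit 491) (B (L (nat_lit 523) ln11_16_6 ln11_16_6_ok) (M (nat_lit 364) (B (L (nat_lit 395) ln11_15_6 ln11_15_6_ok) (L (nat_lit 460) ln12_11_5 ln12_11_5_ok))))))))) (B (M (nat_lit 430) (B (M (nat_lit 395) (B (L (nat_lit 394) ln14_13_3 ln14_13_3_ok) (L (nat_lit 431) ln15_13_3 ln15_13_3_ok))) (M (nat_lit 426) (B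 (M (nat_lit 397) (B (L (nat_lit 425) ln9_13_2 ln9_13_2_ok) (L (nat_lit 398) ln10_13_2 ln10_13_2_ok))) (M (nat_lit 462) (B (L (nat_lit 461) ln10_13_0 ln10_13_0_ok) (L (nat_lit 463) ln11_13_0 ln11_13_0_ok))))))) (B (M (nat_lit 459) (B (M (nat_lit 430) (B (L (nat_lit 458) ln14_13_1 ln14_13_1_ok) (M (nat_lit 431) (B (L (nat_lit 395) ln15_13_3 ln15_13_3_ok) (L (nat_lit 460) ln15_13_1 ln15_13_1_ok))))) (B (M (nat_lit 460) (B (M (nat_lit 491) (B (L (nat_lit 364) ln12_11_5 ln12_11_5_ok) (L (nat_lit 523) ln11_16_6 ln11_16_6_ok))) (M (nat_lit 430) (B (L (nat_lit 458) ln14_13_1 ln14_13_1_ok) (L (nat_lit 431) ln15_13_1 ln15_13_1_ok))))) (B (M (nat_lit 491) (B (L (nat_lit 523) ln11_16_6 ln11_16_6_ok) (M (nat_lit 364) (B (L (nat_lit 395) ln11_15_6 ln11_15_6_ok) (L (nat_lit 460) ln12_11_5 ln12_11_5_ok))))) (M (nat_lit 395) (B (M (nat_lit 491) (B (L (nat_lit 364) ln11_15_6 ln11_15_6_ok) (L (nat_lit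 523) ln11_16_6 ln11_16_6_ok))) (M (nat_lit 430) (B (L (nat_lit 431) ln15_13_3 ln15_13_3_ok) (L (nat_lit 458) ln14_13_1 ln14_13_1_ok))))))))) (B (M (nat_lit 461) (B (M (nat_lit 462) (B (L (nat_lit 426) ln10_13_0 ln10_13_0_ok) (M (nat_lit 463) (B (L (nat_lit 430) ln11_13_0 ln11_13_0_ok) (L (nat_lit 460) ln15_14_3 ln15_14_3_ok))))) (B (M (nat_lit 493) (B (L (nat_lit 525) ln13_16_7 ln13_16_7_ok) (M (nat_lit 364) (B (L (nat_lit 397) ln13_15_7 ln13_15_7_ok) (L (nat_lit 460) ln12_11_4 ln12_11_4_ok))))) (M (nat_lit 397) (B (M (nat_lit 493) (B (L (nat_lit 364) ln13_15_7 ln13_15_7_ok) (L (nat_lit 525) ln13_16_7 ln13_16_7_ok))) (M (nat_lit 426) (B (L (nat_lit 425) ln9_13_2 ln9_13_2_ok) (L (nat_lit 462) ln10_13_0 ln10_13_0_ok)))))))) (M (nat_lit 461) (B (M (nat_lit 462) (B (L (nat_lit 426) ln10_13_0 ln10_13_0_ok) (M (nat_lit 463) (B (L (nat_lit 460) ln15_14_3 ln15_14_3_ok) (L (nat_lit 464) ln16_14_3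 ln16_14_3_ok))))) (B (M (nat_lit 493) (B (L (nat_lit 525) ln13_16_7 ln13_16_7_ok) (M (nat_lit 364) (B (L (nat_lit 397) ln13_15_7 ln13_15_7_ok) (L (nat_lit 460) ln12_11_4 ln12_11_4_ok))))) (M (nat_lit 397) (B (M (nat_lit 493) (B (L (nat_lit 364) ln13_15_7 ln13_15_7_ok) (L (nat_lit 525) ln13_16_7 ln13_16_7_ok))) (M (nat_lit 426) (B (L (nat_lit 425) ln9_13_2 ln9_13_2_ok) (L (nat_lit 462) ln10_13_0 ln10_13_0_ok))))))))))))) (B (M (nat_lit 430) (B (M (nat_lit 395) (B (L (nat_lit 431) ln15_13_3 ln15_13_3_ok) (M (nat_lit 394) (B (L (nat_lit 393) ln9_12_0 ln9_12_0_ok) (L (nat_lit 427) ln14_13_3 ln14_13_3_ok))))) (B (M (nat_lit 395) (B (L (nat_lit 431) ln15_13_3 ln15_13_3_ok) (M (nat_lit 394) (B (L (nat_lit 397) ln10_12_0 ln10_12_0_ok) (L (nat_lit 427) ln14_13_3 ln14_13_3_ok))))) (B (M (nat_lit 431) (B (L (nat_lit 395) ln15_13_3 ln15_13_3_ok) (M (nat_lit 400) (B (L (nat_lit 399) ln12_13_2 ln12_13_2_ok)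 (M (nat_lit 432) (B (L (nat_lit 397) ln16_13_3 ln16_13_3_ok) (L (nat_lit 401) ln13_13_2 ln13_13_2_ok))))))) (B (M (nat_lit 431) (B (M (nat_lit 400) (B (L (nat_lit 399) ln12_13_2 ln12_13_2_ok) (M (nat_lit 432) (B (L (nat_lit 397) ln16_13_3 ln16_13_3_ok) (L (nat_lit 401) ln13_13_2 ln13_13_2_ok))))) (M (nat_lit 427) (B (M (nat_lit 459) (B (L (nat_lit 458) ln14_13_1 ln14_13_1_ok) (L (nat_lit 460) ln15_13_1 ln15_13_1_ok))) (M (nat_lit 463) (B (L (nat_lit 462) ln11_13_0 ln11_13_0_ok) (L (nat_lit 464) ln12_13_0 ln12_13_0_ok))))))) (M (nat_lit 427) (B (M (nat_lit 398) (B (L (nat_lit 399) ln11_13_2 ln11_13_2_ok) (M (nat_lit 426) (B (L (nat_lit 397) ln10_13_2 ln10_13_2_ok) (M (nat_lit 462) (B (L (nat_lit 461) ln10_13_0 ln10_13_0_ok) (L (nat_lit 463) ln11_13_0 ln11_13_0_ok))))))) (B (M (nat_lit 426) (B (M (nat_lit 394) (B (L (nat_lit 393) ln13_13_3 ln13_13_3_ok) (L (nat_lit 395) ln14_13_3 ln14_13_3_ok)))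 (M (nat_lit 458) (B (L (nat_lit 457) ln13_13_1 ln13_13_1_ok) (L (nat_lit 459) ln14_13_1 ln14_13_1_ok))))) (M (nat_lit 398) (B (L (nat_lit 399) ln11_13_2 ln11_13_2_ok) (M (nat_lit 397) (B (M (nat_lit 462) (B (L (nat_lit 463) ln11_13_0 ln11_13_0_ok) (M (nat_lit 365) (B (L (nat_lit 333) ln13_10_4 ln13_10_4_ok) (L (nat_lit 494) ln14_15_7 ln14_15_7_ok))))) (M (nat_lit 366) (B (M (nat_lit 334) (B (L (nat_lit 302) ln14_9_5 ln14_9_5_ok) (L (nat_lit 461) ln14_10_5 ln14_10_5_ok))) (M (nat_lit 395) (B (L (nat_lit 367) ln11_12_2 ln11_12_2_ok) (L (nat_lit 394) ln10_12_0 ln10_12_0_ok))))))))))))))))) (B (M (nat_lit 427) (B (M (nat_lit 459) (B (M (nat_lit 430) (B (L (nat_lit 458) ln14_13_1 ln14_13_1_ok) (M (nat_lit 431) (B (L (nat_lit 395) ln15_13_3 ln15_13_3_ok) (L (nat_lit 460) ln15_13_1 ln15_13_1_ok))))) (B (M (nat_lit 460) (B (M (nat_lit 491) (B (L (nat_lit 364) ln12_11_5 ln12_11_5_ok) (L (nat_lit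 523) ln11_16_6 ln11_16_6_ok))) (M (nat_lit 430) (B (L (nat_lit 458) ln14_13_1 ln14_13_1_ok) (L (nat_lit 431) ln15_13_1 ln15_13_1_ok))))) (B (M (nat_lit 491) (B (L (nat_lit 523) ln11_16_6 ln11_16_6_ok) (M (nat_lit 364) (B (L (nat_lit 395) ln11_15_6 ln11_15_6_ok) (L (nat_lit 460) ln12_11_5 ln12_11_5_ok))))) (M (nat_lit 395) (B (M (nat_lit 491) (B (L (nat_lit 364) ln11_15_6 ln11_15_6_ok) (L (nat_lit 523) ln11_16_6 ln11_16_6_ok))) (M (nat_lit 430) (B (L (nat_lit 431) ln15_13_3 ln15_13_3_ok) (L (nat_lit 458) ln14_13_1 ln14_13_1_ok))))))))) (B (M (nat_lit 430) (B (M (nat_lit 431) (B (L (nat_lit 395) ln15_13_3 ln15_13_3_ok) (M (nat_lit 399) (B (L (nat_lit 398) ln11_13_2 ln11_13_2_ok) (L (nat_lit 400) ln12_13_2 ln12_13_2_ok))))) (B (M (nat_lit 426) (B (M (nat_lit 397) (B (L (nat_lit 425) ln9_13_2 ln9_13_2_ok) (L (nat_lit 398) ln10_13_2 ln10_13_2_ok))) (M (nat_lit 462) (B (L (nat_lit 461) ln10_13_0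 ln10_13_0_ok) (L (nat_lit 463) ln11_13_0 ln11_13_0_ok))))) (M (nat_lit 431) (B (L (nat_lit 395) ln15_13_3 ln15_13_3_ok) (M (nat_lit 459) (B (L (nat_lit 458) ln14_13_1 ln14_13_1_ok) (L (nat_lit 460) ln15_13_1 ln15_13_1_ok)))))))) (B (M (nat_lit 461) (B (M (nat_lit 462) (B (L (nat_lit 426) ln10_13_0 ln10_13_0_ok) (M (nat_lit 463) (B (L (nat_lit 460) ln15_14_3 ln15_14_3_ok) (L (nat_lit 464) ln16_14_3 ln16_14_3_ok))))) (M (nat_lit 364) (B (L (nat_lit 332) ln12_10_4 ln12_10_4_ok) (M (nat_lit 493) (B (L (nat_lit 397) ln13_15_7 ln13_15_7_ok) (L (nat_lit 525) ln13_16_7 ln13_16_7_ok))))))) (M (nat_lit 459) (B (M (nat_lit 364) (B (L (nat_lit 332) ln12_10_5 ln12_10_5_ok) (M (nat_lit 491) (B (L (nat_lit 395) ln11_15_6 ln11_15_6_ok) (L (nat_lit 523) ln11_16_6 ln11_16_6_ok))))) (M (nat_lit 426) (B (M (nat_lit 397) (B (L (nat_lit 425) ln9_13_2 ln9_13_2_ok) (L (nat_lit 398) ln10_13_2 ln10_13_2_ok)))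 (M (nat_lit 458) (B (L (nat_lit 457) ln13_13_1 ln13_13_1_ok) (L (nat_lit 430) ln14_13_1 ln14_13_1_ok))))))))))) (B (M (nat_lit 364) (B (M (nat_lit 461) (B (L (nat_lit 332) ln12_10_4 ln12_10_4_ok) (M (nat_lit 493) (B (L (nat_lit 397) ln13_15_7 ln13_15_7_ok) (L (nat_lit 525) ln13_16_7 ln13_16_7_ok))))) (B (M (nat_lit 460) (B (M (nat_lit 365) (B (L (nat_lit 333) ln12_14_6 ln12_14_6_ok) (M (nat_lit 492) (B (L (nat_lit 397) ln12_15_6 ln12_15_6_ok) (M (nat_lit 491) (B (L (nat_lit 459) ln12_11_5 ln12_11_5_ok) (L (nat_lit 523) ln12_12_5 ln12_12_5_ok))))))) (B (M (nat_lit 492) (B (M (nat_lit 491) (B (L (nat_lit 459) ln12_11_5 ln12_11_5_ok) (L (nat_lit 523) ln12_12_5 ln12_12_5_ok))) (M (nat_lit 493) (B (L (nat_lit 461) ln12_11_4 ln12_11_4_ok) (L (nat_lit 525) ln12_12_4 ln12_12_4_ok))))) (B (M (nat_lit 492) (B (M (nat_lit 365) (B (L (nat_lit 333) ln12_14_6 ln12_14_6_ok) (L (nat_lit 397) ln12_15_6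 ln12_15_6_ok))) (M (nat_lit 493) (B (L (nat_lit 461) ln12_11_4 ln12_11_4_ok) (L (nat_lit 525) ln12_12_4 ln12_12_4_ok))))) (M (nat_lit 461) (B (L (nat_lit 493) ln12_11_4 ln12_11_4_ok) (M (nat_lit 459) (B (L (nat_lit 491) ln12_11_5 ln12_11_5_ok) (M (nat_lit 430) (B (L (nat_lit 431) ln15_13_1 ln15_13_1_ok) (L (nat_lit 458) ln10_14_2 ln10_14_2_ok))))))))))) (B (M (nat_lit 461) (B (L (nat_lit 332) ln12_10_4 ln12_10_4_ok) (M (nat_lit 493) (B (L (nat_lit 460) ln12_11_4 ln12_11_4_ok) (L (nat_lit 525) ln13_16_7 ln13_16_7_ok))))) (M (nat_lit 460) (B (M (nat_lit 365) (B (L (nat_lit 333) ln12_14_6 ln12_14_6_ok) (M (nat_lit 492) (B (L (nat_lit 397) ln12_15_6 ln12_15_6_ok) (M (nat_lit 491) (B (L (nat_lit 459) ln12_11_5 ln12_11_5_ok) (L (nat_lit 523) ln12_12_5 ln12_12_5_ok))))))) (B (M (nat_lit 332) (B (M (nat_lit 331) (B (L (nat_lit 299) ln12_13_7 ln12_13_7_ok) (L (nat_lit 363) ln12_14_7 ln12_14_7_ok)))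 (M (nat_lit 459) (B (L (nat_lit 427) ln12_10_5 ln12_10_5_ok) (L (nat_lit 491) ln12_11_5 ln12_11_5_ok))))) (M (nat_lit 365) (B (L (nat_lit 333) ln12_14_6 ln12_14_6_ok) (M (nat_lit 332) (B (M (nat_lit 331) (B (L (nat_lit 299) ln12_13_7 ln12_13_7_ok) (L (nat_lit 363) ln12_14_7 ln12_14_7_ok))) (M (nat_lit 397) (B (L (nat_lit 300) ln12_9_4 ln12_9_4_ok) (L (nat_lit 492) ln12_15_6 ln12_15_6_ok)))))))))))))) (B (M (nat_lit 430) (B (M (nat_lit 395) (B (L (nat_lit 431) ln15_13_3 ln15_13_3_ok) (M (nat_lit 394) (B (L (nat_lit 393) ln9_12_0 ln9_12_0_ok) (L (nat_lit 427) ln14_13_3 ln14_13_3_ok))))) (B (M (nat_lit 431) (B (L (nat_lit 395) ln15_13_3 ln15_13_3_ok) (M (nat_lit 427) (B (M (nat_lit 399) (B (L (nat_lit 398) ln11_13_2 ln11_13_2_ok) (L (nat_lit 400) ln12_13_2 ln12_13_2_ok))) (M (nat_lit 459) (B (L (nat_lit 458) ln14_13_1 ln14_13_1_ok) (L (nat_lit 460) ln15_13_1 ln15_13_1_ok))))))) (B (M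 (nat_lit 461) (B (M (nat_lit 364) (B (L (nat_lit 332) ln12_10_4 ln12_10_4_ok) (M (nat_lit 493) (B (L (nat_lit 460) ln12_11_4 ln12_11_4_ok) (L (nat_lit 525) ln13_16_7 ln13_16_7_ok))))) (B (M (nat_lit 460) (B (M (nat_lit 493) (B (L (nat_lit 364) ln12_11_4 ln12_11_4_ok) (L (nat_lit 525) ln13_16_7 ln13_16_7_ok))) (M (nat_lit 459) (B (L (nat_lit 431) ln15_13_1 ln15_13_1_ok) (L (nat_lit 458) ln10_14_2 ln10_14_2_ok))))) (B (M (nat_lit 427) (B (M (nat_lit 462) (B (L (nat_lit 426) ln10_13_0 ln10_13_0_ok) (L (nat_lit 463) ln11_13_0 ln11_13_0_ok))) (M (nat_lit 431) (B (M (nat_lit 399) (B (L (nat_lit 398) ln11_13_2 ln11_13_2_ok) (L (nat_lit 400) ln12_13_2 ln12_13_2_ok))) (M (nat_lit 459) (B (L (nat_lit 458) ln14_13_1 ln14_13_1_ok) (L (nat_lit 460) ln15_13_1 ln15_13_1_ok))))))) (M (nat_lit 398) (B (M (nat_lit 493) (B (L (nat_lit 525) ln13_16_7 ln13_16_7_ok) (M (nat_lit 366) (B (L (nat_lit 334)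 ln14_10_5 ln14_10_5_ok) (L (nat_lit 462) ln14_11_5 ln14_11_5_ok))))) (M (nat_lit 399) (B (L (nat_lit 427) ln11_13_2 ln11_13_2_ok) (M (nat_lit 400) (B (L (nat_lit 401) ln17_12_1 ln17_12_1_ok) (L (nat_lit 431) ln12_13_2 ln12_13_2_ok))))))))))) (B (M (nat_lit 431) (B (L (nat_lit 395) ln15_13_3 ln15_13_3_ok) (M (nat_lit 432) (B (M (nat_lit 400) (B (L (nat_lit 399) ln12_13_2 ln12_13_2_ok) (L (nat_lit 401) ln13_13_2 ln13_13_2_ok))) (M (nat_lit 460) (B (L (nat_lit 459) ln15_13_1 ln15_13_1_ok) (L (nat_lit 461) ln16_13_1 ln16_13_1_ok))))))) (M (nat_lit 427) (B (M (nat_lit 395) (B (L (nat_lit 394) ln14_13_3 ln14_13_3_ok) (M (nat_lit 459) (B (L (nat_lit 458) ln14_13_1 ln14_13_1_ok) (M (nat_lit 364) (B (L (nat_lit 332) ln12_10_5 ln12_10_5_ok) (L (nat_lit 491) ln11_15_6 ln11_15_6_ok))))))) (B (M (nat_lit 426) (B (M (nat_lit 394) (B (L (nat_lit 393) ln13_13_3 ln13_13_3_ok) (L (nat_lit 395) ln14_13_3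 ln14_13_3_ok))) (M (nat_lit 462) (B (L (nat_lit 461) ln10_13_0 ln10_13_0_ok) (L (nat_lit 463) ln11_13_0 ln11_13_0_ok))))) (M (nat_lit 426) (B (M (nat_lit 458) (B (L (nat_lit 457) ln13_13_1 ln13_13_1_ok) (L (nat_lit 459) ln14_13_1 ln14_13_1_ok))) (M (nat_lit 462) (B (L (nat_lit 461) ln10_13_0 ln10_13_0_ok) (L (nat_lit 463) ln11_13_0 ln11_13_0_ok))))))))))))) (B (M (nat_lit 461) (B (M (nat_lit 493) (B (L (nat_lit 525) ln13_16_7 ln13_16_7_ok) (M (nat_lit 364) (B (L (nat_lit 332) ln12_10_4 ln12_10_4_ok) (L (nat_lit 460) ln12_11_4 ln12_11_4_ok))))) (B (M (nat_lit 493) (B (L (nat_lit 525) ln13_16_7 ln13_16_7_ok) (M (nat_lit 364) (B (L (nat_lit 397) ln13_15_7 ln13_15_7_ok) (L (nat_lit 460) ln12_11_4 ln12_11_4_ok))))) (B (M (nat_lit 493) (B (L (nat_lit 525) ln13_16_7 ln13_16_7_ok) (M (nat_lit 397) (B (M (nat_lit 492) (B (L (nat_lit 524) ln13_12_5 ln13_12_5_ok) (M (nat_lit 365) (B (L (nat_lit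 460) ln12_15_6 ln12_15_6_ok) (M (nat_lit 494) (B (L (nat_lit 462) ln13_11_4 ln13_11_4_ok) (L (nat_lit 526) ln13_12_4 ln13_12_4_ok))))))) (B (M (nat_lit 395) (B (M (nat_lit 430) (B (L (nat_lit 394) ln10_12_0 ln10_12_0_ok) (L (nat_lit 431) ln15_13_3 ln15_13_3_ok))) (M (nat_lit 363) (B (M (nat_lit 398) (B (L (nat_lit 362) ln14_12_3 ln14_12_3_ok) (L (nat_lit 366) ln13_15_6 ln13_15_6_ok))) (M (nat_lit 492) (B (L (nat_lit 460) ln12_15_7 ln12_15_7_ok) (L (nat_lit 524) ln13_12_5 ln13_12_5_ok))))))) (M (nat_lit 365) (B (M (nat_lit 366) (B (L (nat_lit 334) ln13_14_6 ln13_14_6_ok) (L (nat_lit 398) ln13_15_6 ln13_15_6_ok))) (M (nat_lit 494) (B (L (nat_lit 462) ln13_11_4 ln13_11_4_ok) (L (nat_lit 526) ln13_12_4 ln13_12_4_ok)))))))))) (B (M (nat_lit 493) (B (L (nat_lit 525) ln13_16_7 ln13_16_7_ok) (M (nat_lit 364) (B (L (nat_lit 332) ln12_10_4 ln12_10_4_ok) (L (nat_lit 397) ln13_15_7 ln13_15_7_ok)))))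 (M (nat_lit 364) (B (L (nat_lit 332) ln12_10_4 ln12_10_4_ok) (M (nat_lit 460) (B (M (nat_lit 459) (B (L (nat_lit 491) ln12_11_5 ln12_11_5_ok) (M (nat_lit 430) (B (L (nat_lit 431) ln15_13_1 ln15_13_1_ok) (L (nat_lit 458) ln10_14_2 ln10_14_2_ok))))) (M (nat_lit 492) (B (M (nat_lit 363) (B (L (nat_lit 331) ln12_14_7 ln12_14_7_ok) (L (nat_lit 395) ln12_15_7 ln12_15_7_ok))) (M (nat_lit 524) (B (L (nat_lit 397) ln12_16_6 ln12_16_6_ok) (L (nat_lit 556) ln12_17_6 ln12_17_6_ok)))))))))))))) (B (M (nat_lit 461) (B (M (nat_lit 493) (B (L (nat_lit 525) ln13_16_7 ln13_16_7_ok) (M (nat_lit 364) (B (L (nat_lit 332) ln12_10_4 ln12_10_4_ok) (L (nat_lit 397) ln13_15_7 ln13_15_7_ok))))) (B (M (nat_lit 493) (B (L (nat_lit 525) ln13_16_7 ln13_16_7_ok) (M (nat_lit 364) (B (L (nat_lit 397) ln13_15_7 ln13_15_7_ok) (L (nat_lit 460) ln12_11_4 ln12_11_4_ok))))) (B (M (nat_lit 493) (B (L (nat_lit 525) ln13_16_7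 ln13_16_7_ok) (M (nat_lit 397) (B (M (nat_lit 398) (B (L (nat_lit 366) ln13_15_6 ln13_15_6_ok) (M (nat_lit 399) (B (L (nat_lit 427) ln15_12_1 ln15_12_1_ok) (L (nat_lit 400) ln16_12_1 ln16_12_1_ok))))) (M (nat_lit 365) (B (M (nat_lit 460) (B (L (nat_lit 333) ln13_10_5 ln13_10_5_ok) (L (nat_lit 492) ln12_15_6 ln12_15_6_ok))) (M (nat_lit 494) (B (L (nat_lit 462) ln13_11_4 ln13_11_4_ok) (L (nat_lit 526) ln13_12_4 ln13_12_4_ok))))))))) (B (M (nat_lit 493) (B (L (nat_lit 525) ln13_16_7 ln13_16_7_ok) (M (nat_lit 364) (B (L (nat_lit 332) ln12_10_4 ln12_10_4_ok) (L (nat_lit 460) ln12_11_4 ln12_11_4_ok))))) (M (nat_lit 364) (B (L (nat_lit 332) ln12_10_4 ln12_10_4_ok) (M (nat_lit 460) (B (M (nat_lit 365) (B (L (nat_lit 333) ln12_14_6 ln12_14_6_ok) (M (nat_lit 492) (B (L (nat_lit 397) ln12_15_6 ln12_15_6_ok) (M (nat_lit 363) (B (L (nat_lit 331) ln12_14_7 ln12_14_7_ok) (L (nat_lit 395) ln12_15_7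 ln12_15_7_ok))))))) (B (M (nat_lit 492) (B (M (nat_lit 491) (B (L (nat_lit 459) ln12_11_5 ln12_11_5_ok) (L (nat_lit 523) ln12_12_5 ln12_12_5_ok))) (M (nat_lit 524) (B (L (nat_lit 397) ln12_16_6 ln12_16_6_ok) (L (nat_lit 556) ln12_17_6 ln12_17_6_ok))))) (B (M (nat_lit 492) (B (M (nat_lit 363) (B (L (nat_lit 331) ln12_14_7 ln12_14_7_ok) (L (nat_lit 395) ln12_15_7 ln12_15_7_ok))) (M (nat_lit 491) (B (L (nat_lit 459) ln12_11_5 ln12_11_5_ok) (L (nat_lit 523) ln12_12_5 ln12_12_5_ok))))) (M (nat_lit 462) (B (M (nat_lit 463) (B (L (nat_lit 427) ln15_14_3 ln15_14_3_ok) (L (nat_lit 464) ln16_14_3 ln16_14_3_ok))) (M (nat_lit 494) (B (M (nat_lit 365) (B (L (nat_lit 333) ln12_14_6 ln12_14_6_ok) (L (nat_lit 397) ln13_11_4 ln13_11_4_ok))) (M (nat_lit 459) (B (L (nat_lit 491) ln12_11_5 ln12_11_5_ok) (L (nat_lit 495) ln11_14_0 ln11_14_0_ok)))))))))))))))))) (B c41_n607 (M (nat_lit 430) (B (M (nat_lit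 395) (B (L (nat_lit 431) ln15_13_3 ln15_13_3_ok) (M (nat_lit 394) (B (L (nat_lit 393) ln9_12_0 ln9_12_0_ok) (L (nat_lit 397) ln10_12_0 ln10_12_0_ok))))) (B (M (nat_lit 395) (B (L (nat_lit 431) ln15_13_3 ln15_13_3_ok) (M (nat_lit 394) (B (L (nat_lit 397) ln10_12_0 ln10_12_0_ok) (L (nat_lit 427) ln14_13_3 ln14_13_3_ok))))) (B (M (nat_lit 431) (B (L (nat_lit 395) ln15_13_3 ln15_13_3_ok) (M (nat_lit 427) (B (M (nat_lit 399) (B (L (nat_lit 398) ln11_13_2 ln11_13_2_ok) (L (nat_lit 400) ln12_13_2 ln12_13_2_ok))) (M (nat_lit 463) (B (L (nat_lit 462) ln11_13_0 ln11_13_0_ok) (L (nat_lit 464) ln12_13_0 ln12_13_0_ok))))))) (B (M (nat_lit 461) (B (M (nat_lit 364) (B (L (nat_lit 332) ln12_10_4 ln12_10_4_ok) (M (nat_lit 493) (B (L (nat_lit 397) ln13_15_7 ln13_15_7_ok) (L (nat_lit 525) ln13_16_7 ln13_16_7_ok))))) (B (M (nat_lit 427) (B (M (nat_lit 462) (B (L (nat_lit 426) ln10_13_0 ln10_13_0_ok) (L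 (nat_lit 463) ln11_13_0 ln11_13_0_ok))) (B (M (nat_lit 431) (B (M (nat_lit 399) (B (L (nat_lit 398) ln11_13_2 ln11_13_2_ok) (L (nat_lit 400) ln12_13_2 ln12_13_2_ok))) (M (nat_lit 463) (B (L (nat_lit 462) ln11_13_0 ln11_13_0_ok) (L (nat_lit 464) ln12_13_0 ln12_13_0_ok))))) (M (nat_lit 426) (B (M (nat_lit 397) (B (L (nat_lit 425) ln9_13_2 ln9_13_2_ok) (L (nat_lit 398) ln10_13_2 ln10_13_2_ok))) (M (nat_lit 458) (B (L (nat_lit 457) ln13_13_1 ln13_13_1_ok) (L (nat_lit 459) ln14_13_1 ln14_13_1_ok)))))))) (M (nat_lit 398) (B (M (nat_lit 493) (B (L (nat_lit 525) ln13_16_7 ln13_16_7_ok) (M (nat_lit 366) (B (L (nat_lit 334) ln14_10_5 ln14_10_5_ok) (L (nat_lit 462) ln14_11_5 ln14_11_5_ok))))) (M (nat_lit 399) (B (L (nat_lit 427) ln11_13_2 ln11_13_2_ok) (M (nat_lit 400) (B (L (nat_lit 401) ln17_12_1 ln17_12_1_ok) (L (nat_lit 431) ln12_13_2 ln12_13_2_ok)))))))))) (M (nat_lit 395) (B (M (nat_lit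 394) (B (L (nat_lit 393) ln9_12_0 ln9_12_0_ok) (L (nat_lit 397) ln10_12_0 ln10_12_0_ok))) (B (M (nat_lit 394) (B (L (nat_lit 397) ln10_12_0 ln10_12_0_ok) (L (nat_lit 427) ln14_13_3 ln14_13_3_ok))) (B (M (nat_lit 427) (B (M (nat_lit 459) (B (L (nat_lit 458) ln14_13_1 ln14_13_1_ok) (M (nat_lit 364) (B (L (nat_lit 332) ln12_10_5 ln12_10_5_ok) (L (nat_lit 491) ln11_15_6 ln11_15_6_ok))))) (M (nat_lit 426) (B (M (nat_lit 398) (B (L (nat_lit 397) ln14_12_1 ln14_12_1_ok) (L (nat_lit 399) ln11_13_2 ln11_13_2_ok))) (M (nat_lit 462) (B (L (nat_lit 461) ln10_13_0 ln10_13_0_ok) (L (nat_lit 463) ln11_13_0 ln11_13_0_ok))))))) (M (nat_lit 394) (B (L (nat_lit 393) ln9_12_0 ln9_12_0_ok) (L (nat_lit 427) ln14_13_3 ln14_13_3_ok)))))))))))))))))))))) (nat_lit 1386334847221798047169638878925036799968406779833514899637066259859226863686603287896039777716422623628704219945445734162783797248) (nat_lit 235872651963234194321127316268038632277888826655534174610198851482901196954178615559899318259920582292676201331882910184216743263757792953151616304175041579920725639168)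 (nat_lit 235872651963234194321127316268038632277888826655534174610198851482901196954178615559899318259920582292676201331882910184216743263757792953151616304175041579920725639168) (by decide +kernel)
noncomputable def c41_n656 : Cert := (M (nat_lit 430) (B (M (nat_lit 395) (B (L (nat_lit 431) ln15_13_3 ln15_13_3_ok) (M (nat_lit 394) (B (L (nat_lit 393) ln9_12_0 ln9_12_0_ok) (L (nat_lit 397) ln10_12_0 ln10_12_0_ok))))) (B (M (nat_lit 395) (B (L (nat_lit 431) ln15_13_3 ln15_13_3_ok) (M (nat_lit 394) (B (L (nat_lit 397) ln10_12_0 ln10_12_0_ok) (L (nat_lit 427) ln14_13_3 ln14_13_3_ok))))) (B (M (nat_lit 431) (B (L (nat_lit 395) ln15_13_3 ln15_13_3_ok) (M (nat_lit 400) (B (L (nat_lit 399) ln12_13_2 ln12_13_2_ok) (M (nat_lit 432) (B (L (nat_lit 397) ln16_13_3 ln16_13_3_ok) (L (nat_lit 401) ln13_13_2 ln13_13_2_ok))))))) (B (M (nat_lit 461) (B (M (nat_lit 364) (B (L (nat_lit 332) ln12_10_4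 ln12_10_4_ok) (M (nat_lit 493) (B (L (nat_lit 397) ln13_15_7 ln13_15_7_ok) (L (nat_lit 525) ln13_16_7 ln13_16_7_ok))))) (B (M (nat_lit 493) (B (L (nat_lit 525) ln13_16_7 ln13_16_7_ok) (M (nat_lit 364) (B (L (nat_lit 397) ln13_15_7 ln13_15_7_ok) (L (nat_lit 460) ln12_11_4 ln12_11_4_ok))))) (B (M (nat_lit 427) (B (M (nat_lit 462) (B (L (nat_lit 426) ln10_13_0 ln10_13_0_ok) (L (nat_lit 463) ln11_13_0 ln11_13_0_ok))) (M (nat_lit 431) (B (M (nat_lit 399) (B (L (nat_lit 398) ln11_13_2 ln11_13_2_ok) (L (nat_lit 400) ln12_13_2 ln12_13_2_ok))) (M (nat_lit 432) (B (L (nat_lit 397) ln16_13_3 ln16_13_3_ok) (L (nat_lit 460) ln16_13_1 ln16_13_1_ok))))))) (M (nat_lit 364) (B (L (nat_lit 332) ln12_10_4 ln12_10_4_ok) (M (nat_lit 493) (B (L (nat_lit 460) ln12_11_4 ln12_11_4_ok) (L (nat_lit 525) ln13_16_7 ln13_16_7_ok))))))))) (B (M (nat_lit 395) (B (L (nat_lit 431) ln15_13_3 ln15_13_3_ok) (M (nat_lit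 394) (B (L (nat_lit 393) ln9_12_0 ln9_12_0_ok) (L (nat_lit 427) ln14_13_3 ln14_13_3_ok))))) (M (nat_lit 397) (B (M (nat_lit 398) (B (M (nat_lit 427) (B (L (nat_lit 399) ln15_12_1 ln15_12_1_ok) (L (nat_lit 426) ln10_13_2 ln10_13_2_ok))) (M (nat_lit 366) (B (M (nat_lit 395) (B (L (nat_lit 367) ln11_12_2 ln11_12_2_ok) (L (nat_lit 394) ln10_12_0 ln10_12_0_ok))) (M (nat_lit 461) (B (L (nat_lit 334) ln14_10_5 ln14_10_5_ok) (L (nat_lit 493) ln13_15_6 ln13_15_6_ok))))))) (B (M (nat_lit 398) (B (M (nat_lit 399) (B (L (nat_lit 427) ln15_12_1 ln15_12_1_ok) (L (nat_lit 400) ln16_12_1 ln16_12_1_ok))) (B (M (nat_lit 462) (B (M (nat_lit 365) (B (L (nat_lit 333) ln13_10_4 ln13_10_4_ok) (L (nat_lit 494) ln14_15_7 ln14_15_7_ok))) (M (nat_lit 427) (B (L (nat_lit 426) ln10_13_2 ln10_13_2_ok) (L (nat_lit 463) ln11_13_0 ln11_13_0_ok))))) (M (nat_lit 364) (B (M (nat_lit 332) (B (L (nat_lit 300) ln12_9_4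 ln12_9_4_ok) (L (nat_lit 461) ln12_10_4 ln12_10_4_ok))) (M (nat_lit 399) (B (L (nat_lit 363) ln15_12_3 ln15_12_3_ok) (L (nat_lit 400) ln16_12_1 ln16_12_1_ok)))))))) (B (M (nat_lit 461) (B (M (nat_lit 364) (B (L (nat_lit 332) ln12_10_4 ln12_10_4_ok) (L (nat_lit 493) ln13_15_7 ln13_15_7_ok))) (M (nat_lit 462) (B (M (nat_lit 365) (B (L (nat_lit 333) ln13_10_4 ln13_10_4_ok) (L (nat_lit 494) ln13_11_4 ln13_11_4_ok))) (M (nat_lit 463) (B (L (nat_lit 427) ln11_13_0 ln11_13_0_ok) (L (nat_lit 464) ln16_14_3 ln16_14_3_ok))))))) (B (M (nat_lit 398) (B (M (nat_lit 363) (B (M (nat_lit 395) (B (L (nat_lit 362) ln14_12_3 ln14_12_3_ok) (L (nat_lit 394) ln10_12_0 ln10_12_0_ok))) (M (nat_lit 399) (B (L (nat_lit 364) ln15_12_3 ln15_12_3_ok) (L (nat_lit 400) ln16_12_1 ln16_12_1_ok))))) (B (M (nat_lit 364) (B (M (nat_lit 332) (B (L (nat_lit 300) ln12_9_4 ln12_9_4_ok) (L (nat_lit 461) ln12_10_4 ln12_10_4_ok)))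 (M (nat_lit 399) (B (L (nat_lit 363) ln15_12_3 ln15_12_3_ok) (L (nat_lit 400) ln16_12_1 ln16_12_1_ok))))) (M (nat_lit 366) (B (M (nat_lit 395) (B (L (nat_lit 367) ln11_12_2 ln11_12_2_ok) (L (nat_lit 394) ln10_12_0 ln10_12_0_ok))) (M (nat_lit 461) (B (L (nat_lit 334) ln14_10_5 ln14_10_5_ok) (L (nat_lit 493) ln13_15_6 ln13_15_6_ok)))))))) (M (nat_lit 398) (B (M (nat_lit 399) (B (L (nat_lit 427) ln15_12_1 ln15_12_1_ok) (L (nat_lit 400) ln16_12_1 ln16_12_1_ok))) (B (M (nat_lit 462) (B (M (nat_lit 365) (B (L (nat_lit 333) ln13_10_4 ln13_10_4_ok) (L (nat_lit 494) ln14_15_7 ln14_15_7_ok))) (M (nat_lit 427) (B (L (nat_lit 426) ln10_13_2 ln10_13_2_ok) (L (nat_lit 463) ln11_13_0 ln11_13_0_ok))))) (M (nat_lit 363) (B (M (nat_lit 395) (B (L (nat_lit 362) ln14_12_3 ln14_12_3_ok) (L (nat_lit 394) ln10_12_0 ln10_12_0_ok))) (M (nat_lit 399) (B (L (nat_lit 364) ln15_12_3 ln15_12_3_ok) (L (nat_lit 400)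 ln16_12_1 ln16_12_1_ok)))))))))))))))))))
theorem c41_s657 : Sem (nat_lit 1386334847221798047169638878925036799968406779833514899637066259859226863686603287896039777716422623628704219945445734162783797248) (nat_lit 235872651963234194321127316268038632277888826655534174610198851482901196954174541487946649287748045401299382575560807247429411391256520672252907541575514906508358844416) (nat_lit 235872651963234194321127316268038632277888826655534174610198851482901196954174541487946649287748045401299382575560807247429411391256520672252907541575514906508358844416) :=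
  sem_of_chk (M (nat_lit 428) (B (M (nat_lit 364) (B (M (nat_lit 461) (B (L (nat_lit 332) ln12_10_4 ln12_10_4_ok) (M (nat_lit 493) (B (L (nat_lit 397) ln13_15_7 ln13_15_7_ok) (L (nat_lit 525) ln13_16_7 ln13_16_7_ok))))) (B (M (nat_lit 460) (B (M (nat_lit 365) (B (L (nat_lit 333) ln12_14_6 ln12_14_6_ok) (M (nat_lit 492) (B (L (nat_lit 397) ln12_15_6 ln12_15_6_ok) (M (nat_lit 491) (B (L (nat_lit 459) ln12_11_5 ln12_11_5_ok) (L (nat_lit 523) ln12_12_5 ln12_12_5_ok))))))) (B (M (nat_lit 492) (B (M (nat_lit 491) (B (L (nat_lit 459) ln12_11_5 ln12_11_5_ok) (L (nat_lit 523) ln12_12_5 ln12_12_5_ok))) (M (nat_lit 493) (B (L (nat_lit 461) ln12_11_4 ln12_11_4_ok) (L (nat_lit 525) ln12_12_4 ln12_12_4_ok))))) (B (M (nat_lit 492) (B (M (nat_lit 365) (B (L (nat_lit 333) ln12_14_6 ln12_14_6_ok) (L (nat_lit 397) ln12_15_6 ln12_15_6_ok))) (M (nat_lit 493) (B (L (nat_lit 461) ln12_11_4 ln12_11_4_ok)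 (L (nat_lit 525) ln12_12_4 ln12_12_4_ok))))) (M (nat_lit 461) (B (L (nat_lit 493) ln12_11_4 ln12_11_4_ok) (M (nat_lit 459) (B (L (nat_lit 491) ln12_11_5 ln12_11_5_ok) (M (nat_lit 430) (B (L (nat_lit 431) ln15_13_1 ln15_13_1_ok) (L (nat_lit 458) ln10_14_2 ln10_14_2_ok))))))))))) (B (M (nat_lit 461) (B (L (nat_lit 332) ln12_10_4 ln12_10_4_ok) (M (nat_lit 493) (B (L (nat_lit 460) ln12_11_4 ln12_11_4_ok) (L (nat_lit 525) ln13_16_7 ln13_16_7_ok))))) (M (nat_lit 460) (B (M (nat_lit 365) (B (L (nat_lit 333) ln12_14_6 ln12_14_6_ok) (M (nat_lit 492) (B (L (nat_lit 397) ln12_15_6 ln12_15_6_ok) (M (nat_lit 491) (B (L (nat_lit 459) ln12_11_5 ln12_11_5_ok) (L (nat_lit 523) ln12_12_5 ln12_12_5_ok))))))) (B (M (nat_lit 332) (B (M (nat_lit 331) (B (L (nat_lit 299) ln12_13_7 ln12_13_7_ok) (L (nat_lit 363) ln12_14_7 ln12_14_7_ok))) (M (nat_lit 459) (B (L (nat_lit 427) ln12_10_5 ln12_10_5_ok) (L (nat_lit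 491) ln12_11_5 ln12_11_5_ok))))) (M (nat_lit 365) (B (L (nat_lit 333) ln12_14_6 ln12_14_6_ok) (M (nat_lit 332) (B (M (nat_lit 331) (B (L (nat_lit 299) ln12_13_7 ln12_13_7_ok) (L (nat_lit 363) ln12_14_7 ln12_14_7_ok))) (M (nat_lit 397) (B (L (nat_lit 300) ln12_9_4 ln12_9_4_ok) (L (nat_lit 492) ln12_15_6 ln12_15_6_ok)))))))))))))) (B (M (nat_lit 427) (B (M (nat_lit 459) (B (M (nat_lit 430) (B (L (nat_lit 458) ln14_13_1 ln14_13_1_ok) (M (nat_lit 395) (B (L (nat_lit 394) ln14_13_3 ln14_13_3_ok) (L (nat_lit 431) ln15_13_3 ln15_13_3_ok))))) (B (M (nat_lit 430) (B (L (nat_lit 458) ln14_13_1 ln14_13_1_ok) (M (nat_lit 431) (B (L (nat_lit 395) ln15_13_3 ln15_13_3_ok) (L (nat_lit 460) ln15_13_1 ln15_13_1_ok))))) (B (M (nat_lit 460) (B (M (nat_lit 491) (B (L (nat_lit 364) ln12_11_5 ln12_11_5_ok) (L (nat_lit 523) ln11_16_6 ln11_16_6_ok))) (M (nat_lit 430) (B (L (nat_lit 458) ln14_13_1 ln14_13_1_ok)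 (L (nat_lit 431) ln15_13_1 ln15_13_1_ok))))) (M (nat_lit 491) (B (L (nat_lit 523) ln11_16_6 ln11_16_6_ok) (M (nat_lit 364) (B (L (nat_lit 395) ln11_15_6 ln11_15_6_ok) (L (nat_lit 460) ln12_11_5 ln12_11_5_ok))))))))) (B (M (nat_lit 430) (B (M (nat_lit 395) (B (L (nat_lit 394) ln14_13_3 ln14_13_3_ok) (L (nat_lit 431) ln15_13_3 ln15_13_3_ok))) (M (nat_lit 426) (B (M (nat_lit 397) (B (L (nat_lit 425) ln9_13_2 ln9_13_2_ok) (L (nat_lit 398) ln10_13_2 ln10_13_2_ok))) (M (nat_lit 462) (B (L (nat_lit 461) ln10_13_0 ln10_13_0_ok) (L (nat_lit 463) ln11_13_0 ln11_13_0_ok))))))) (B (M (nat_lit 459) (B (M (nat_lit 430) (B (L (nat_lit 458) ln14_13_1 ln14_13_1_ok) (M (nat_lit 431) (B (L (nat_lit 395) ln15_13_3 ln15_13_3_ok) (L (nat_lit 460) ln15_13_1 ln15_13_1_ok))))) (B (M (nat_lit 460) (B (M (nat_lit 491) (B (L (nat_lit 364) ln12_11_5 ln12_11_5_ok) (L (nat_lit 523) ln11_16_6 ln11_16_6_ok))) (M (nat_lit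 430) (B (L (nat_lit 458) ln14_13_1 ln14_13_1_ok) (L (nat_lit 431) ln15_13_1 ln15_13_1_ok))))) (B (M (nat_lit 491) (B (L (nat_lit 523) ln11_16_6 ln11_16_6_ok) (M (nat_lit 364) (B (L (nat_lit 395) ln11_15_6 ln11_15_6_ok) (L (nat_lit 460) ln12_11_5 ln12_11_5_ok))))) (M (nat_lit 395) (B (M (nat_lit 491) (B (L (nat_lit 364) ln11_15_6 ln11_15_6_ok) (L (nat_lit 523) ln11_16_6 ln11_16_6_ok))) (M (nat_lit 430) (B (L (nat_lit 431) ln15_13_3 ln15_13_3_ok) (L (nat_lit 458) ln14_13_1 ln14_13_1_ok))))))))) (B (M (nat_lit 461) (B (M (nat_lit 462) (B (L (nat_lit 426) ln10_13_0 ln10_13_0_ok) (M (nat_lit 463) (B (L (nat_lit 430) ln11_13_0 ln11_13_0_ok) (L (nat_lit 460) ln15_14_3 ln15_14_3_ok))))) (B (M (nat_lit 493) (B (L (nat_lit 525) ln13_16_7 ln13_16_7_ok) (M (nat_lit 364) (B (L (nat_lit 397) ln13_15_7 ln13_15_7_ok) (L (nat_lit 460) ln12_11_4 ln12_11_4_ok))))) (M (nat_lit 397) (B (M (nat_lit 493)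 (B (L (nat_lit 364) ln13_15_7 ln13_15_7_ok) (L (nat_lit 525) ln13_16_7 ln13_16_7_ok))) (M (nat_lit 426) (B (L (nat_lit 425) ln9_13_2 ln9_13_2_ok) (L (nat_lit 462) ln10_13_0 ln10_13_0_ok)))))))) (M (nat_lit 461) (B (M (nat_lit 462) (B (L (nat_lit 426) ln10_13_0 ln10_13_0_ok) (M (nat_lit 463) (B (L (nat_lit 460) ln15_14_3 ln15_14_3_ok) (L (nat_lit 464) ln16_14_3 ln16_14_3_ok))))) (B (M (nat_lit 493) (B (L (nat_lit 525) ln13_16_7 ln13_16_7_ok) (M (nat_lit 364) (B (L (nat_lit 397) ln13_15_7 ln13_15_7_ok) (L (nat_lit 460) ln12_11_4 ln12_11_4_ok))))) (M (nat_lit 397) (B (M (nat_lit 493) (B (L (nat_lit 364) ln13_15_7 ln13_15_7_ok) (L (nat_lit 525) ln13_16_7 ln13_16_7_ok))) (M (nat_lit 426) (B (L (nat_lit 425) ln9_13_2 ln9_13_2_ok) (L (nat_lit 462) ln10_13_0 ln10_13_0_ok))))))))))))) (B (M (nat_lit 430) (B (M (nat_lit 395) (B (L (nat_lit 431) ln15_13_3 ln15_13_3_ok) (M (nat_lit 394) (B (L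 (nat_lit 397) ln10_12_0 ln10_12_0_ok) (L (nat_lit 427) ln14_13_3 ln14_13_3_ok))))) (B (M (nat_lit 431) (B (L (nat_lit 395) ln15_13_3 ln15_13_3_ok) (M (nat_lit 400) (B (L (nat_lit 399) ln12_13_2 ln12_13_2_ok) (M (nat_lit 432) (B (L (nat_lit 397) ln16_13_3 ln16_13_3_ok) (L (nat_lit 401) ln13_13_2 ln13_13_2_ok))))))) (B (M (nat_lit 431) (B (M (nat_lit 400) (B (L (nat_lit 399) ln12_13_2 ln12_13_2_ok) (M (nat_lit 432) (B (L (nat_lit 397) ln16_13_3 ln16_13_3_ok) (L (nat_lit 401) ln13_13_2 ln13_13_2_ok))))) (B (M (nat_lit 427) (B (M (nat_lit 399) (B (L (nat_lit 398) ln11_13_2 ln11_13_2_ok) (L (nat_lit 400) ln12_13_2 ln12_13_2_ok))) (M (nat_lit 463) (B (L (nat_lit 462) ln11_13_0 ln11_13_0_ok) (L (nat_lit 464) ln12_13_0 ln12_13_0_ok))))) (M (nat_lit 460) (B (L (nat_lit 459) ln15_13_1 ln15_13_1_ok) (M (nat_lit 432) (B (L (nat_lit 397) ln16_13_3 ln16_13_3_ok) (L (nat_lit 461) ln16_13_1 ln16_13_1_ok))))))))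 (B (M (nat_lit 395) (B (L (nat_lit 431) ln15_13_3 ln15_13_3_ok) (M (nat_lit 394) (B (L (nat_lit 393) ln9_12_0 ln9_12_0_ok) (L (nat_lit 427) ln14_13_3 ln14_13_3_ok))))) (M (nat_lit 427) (B (M (nat_lit 398) (B (L (nat_lit 399) ln11_13_2 ln11_13_2_ok) (M (nat_lit 426) (B (L (nat_lit 397) ln10_13_2 ln10_13_2_ok) (M (nat_lit 462) (B (L (nat_lit 461) ln10_13_0 ln10_13_0_ok) (L (nat_lit 463) ln11_13_0 ln11_13_0_ok))))))) (B (M (nat_lit 426) (B (M (nat_lit 394) (B (L (nat_lit 393) ln13_13_3 ln13_13_3_ok) (L (nat_lit 395) ln14_13_3 ln14_13_3_ok))) (M (nat_lit 458) (B (L (nat_lit 457) ln13_13_1 ln13_13_1_ok) (L (nat_lit 459) ln14_13_1 ln14_13_1_ok))))) (M (nat_lit 398) (B (L (nat_lit 399) ln11_13_2 ln11_13_2_ok) (M (nat_lit 397) (B (M (nat_lit 462) (B (L (nat_lit 463) ln11_13_0 ln11_13_0_ok) (M (nat_lit 365) (B (L (nat_lit 333) ln13_10_4 ln13_10_4_ok) (L (nat_lit 494) ln14_15_7 ln14_15_7_ok)))))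 (M (nat_lit 366) (B (M (nat_lit 395) (B (L (nat_lit 367) ln11_12_2 ln11_12_2_ok) (L (nat_lit 394) ln10_12_0 ln10_12_0_ok))) (M (nat_lit 461) (B (L (nat_lit 334) ln14_10_5 ln14_10_5_ok) (L (nat_lit 493) ln13_15_6 ln13_15_6_ok))))))))))))))))) (B (M (nat_lit 430) (B (M (nat_lit 395) (B (L (nat_lit 431) ln15_13_3 ln15_13_3_ok) (M (nat_lit 394) (B (L (nat_lit 393) ln9_12_0 ln9_12_0_ok) (L (nat_lit 427) ln14_13_3 ln14_13_3_ok))))) (B (M (nat_lit 431) (B (L (nat_lit 395) ln15_13_3 ln15_13_3_ok) (M (nat_lit 427) (B (M (nat_lit 399) (B (L (nat_lit 398) ln11_13_2 ln11_13_2_ok) (L (nat_lit 400) ln12_13_2 ln12_13_2_ok))) (M (nat_lit 459) (B (L (nat_lit 458) ln14_13_1 ln14_13_1_ok) (L (nat_lit 460) ln15_13_1 ln15_13_1_ok))))))) (B (M (nat_lit 461) (B (M (nat_lit 364) (B (L (nat_lit 332) ln12_10_4 ln12_10_4_ok) (M (nat_lit 493) (B (L (nat_lit 460) ln12_11_4 ln12_11_4_ok) (L (nat_lit 525) ln13_16_7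 ln13_16_7_ok))))) (B (M (nat_lit 460) (B (M (nat_lit 493) (B (L (nat_lit 364) ln12_11_4 ln12_11_4_ok) (L (nat_lit 525) ln13_16_7 ln13_16_7_ok))) (M (nat_lit 459) (B (L (nat_lit 431) ln15_13_1 ln15_13_1_ok) (L (nat_lit 458) ln10_14_2 ln10_14_2_ok))))) (B (M (nat_lit 427) (B (M (nat_lit 462) (B (L (nat_lit 426) ln10_13_0 ln10_13_0_ok) (L (nat_lit 463) ln11_13_0 ln11_13_0_ok))) (M (nat_lit 431) (B (M (nat_lit 399) (B (L (nat_lit 398) ln11_13_2 ln11_13_2_ok) (L (nat_lit 400) ln12_13_2 ln12_13_2_ok))) (M (nat_lit 459) (B (L (nat_lit 458) ln14_13_1 ln14_13_1_ok) (L (nat_lit 460) ln15_13_1 ln15_13_1_ok))))))) (M (nat_lit 398) (B (M (nat_lit 493) (B (L (nat_lit 525) ln13_16_7 ln13_16_7_ok) (M (nat_lit 366) (B (L (nat_lit 334) ln14_10_5 ln14_10_5_ok) (L (nat_lit 462) ln14_11_5 ln14_11_5_ok))))) (M (nat_lit 399) (B (L (nat_lit 427) ln11_13_2 ln11_13_2_ok) (M (nat_lit 400) (B (L (nat_lit 401)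 ln17_12_1 ln17_12_1_ok) (L (nat_lit 431) ln12_13_2 ln12_13_2_ok))))))))))) (B (M (nat_lit 431) (B (L (nat_lit 395) ln15_13_3 ln15_13_3_ok) (M (nat_lit 432) (B (M (nat_lit 400) (B (L (nat_lit 399) ln12_13_2 ln12_13_2_ok) (L (nat_lit 401) ln13_13_2 ln13_13_2_ok))) (M (nat_lit 460) (B (L (nat_lit 459) ln15_13_1 ln15_13_1_ok) (L (nat_lit 461) ln16_13_1 ln16_13_1_ok))))))) (M (nat_lit 427) (B (M (nat_lit 395) (B (L (nat_lit 394) ln14_13_3 ln14_13_3_ok) (M (nat_lit 459) (B (L (nat_lit 458) ln14_13_1 ln14_13_1_ok) (M (nat_lit 364) (B (L (nat_lit 332) ln12_10_5 ln12_10_5_ok) (L (nat_lit 491) ln11_15_6 ln11_15_6_ok))))))) (B (M (nat_lit 426) (B (M (nat_lit 394) (B (L (nat_lit 393) ln13_13_3 ln13_13_3_ok) (L (nat_lit 395) ln14_13_3 ln14_13_3_ok))) (M (nat_lit 462) (B (L (nat_lit 461) ln10_13_0 ln10_13_0_ok) (L (nat_lit 463) ln11_13_0 ln11_13_0_ok))))) (M (nat_lit 426) (B (M (nat_lit 458) (B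 (L (nat_lit 457) ln13_13_1 ln13_13_1_ok) (L (nat_lit 459) ln14_13_1 ln14_13_1_ok))) (M (nat_lit 462) (B (L (nat_lit 461) ln10_13_0 ln10_13_0_ok) (L (nat_lit 463) ln11_13_0 ln11_13_0_ok))))))))))))) (B (M (nat_lit 364) (B (M (nat_lit 461) (B (L (nat_lit 332) ln12_10_4 ln12_10_4_ok) (M (nat_lit 493) (B (L (nat_lit 460) ln12_11_4 ln12_11_4_ok) (L (nat_lit 525) ln13_16_7 ln13_16_7_ok))))) (B (M (nat_lit 460) (B (M (nat_lit 365) (B (L (nat_lit 333) ln12_14_6 ln12_14_6_ok) (M (nat_lit 492) (B (L (nat_lit 397) ln12_15_6 ln12_15_6_ok) (M (nat_lit 491) (B (L (nat_lit 459) ln12_11_5 ln12_11_5_ok) (L (nat_lit 523) ln12_12_5 ln12_12_5_ok))))))) (B (M (nat_lit 492) (B (M (nat_lit 491) (B (L (nat_lit 459) ln12_11_5 ln12_11_5_ok) (L (nat_lit 523) ln12_12_5 ln12_12_5_ok))) (M (nat_lit 493) (B (L (nat_lit 461) ln12_11_4 ln12_11_4_ok) (L (nat_lit 525) ln12_12_4 ln12_12_4_ok))))) (B (M (nat_lit 492)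 (B (M (nat_lit 365) (B (L (nat_lit 333) ln12_14_6 ln12_14_6_ok) (L (nat_lit 397) ln12_15_6 ln12_15_6_ok))) (M (nat_lit 493) (B (L (nat_lit 461) ln12_11_4 ln12_11_4_ok) (L (nat_lit 525) ln12_12_4 ln12_12_4_ok))))) (M (nat_lit 461) (B (L (nat_lit 493) ln12_11_4 ln12_11_4_ok) (M (nat_lit 459) (B (L (nat_lit 491) ln12_11_5 ln12_11_5_ok) (M (nat_lit 430) (B (L (nat_lit 431) ln15_13_1 ln15_13_1_ok) (L (nat_lit 458) ln10_14_2 ln10_14_2_ok))))))))))) (B (M (nat_lit 461) (B (L (nat_lit 332) ln12_10_4 ln12_10_4_ok) (M (nat_lit 493) (B (L (nat_lit 397) ln13_15_7 ln13_15_7_ok) (L (nat_lit 525) ln13_16_7 ln13_16_7_ok))))) (M (nat_lit 460) (B (M (nat_lit 365) (B (L (nat_lit 333) ln12_14_6 ln12_14_6_ok) (M (nat_lit 492) (B (L (nat_lit 397) ln12_15_6 ln12_15_6_ok) (M (nat_lit 491) (B (L (nat_lit 459) ln12_11_5 ln12_11_5_ok) (L (nat_lit 523) ln12_12_5 ln12_12_5_ok))))))) (B (M (nat_lit 492) (B (M (nat_lit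 363) (B (L (nat_lit 331) ln12_14_7 ln12_14_7_ok) (L (nat_lit 395) ln12_15_7 ln12_15_7_ok))) (M (nat_lit 491) (B (L (nat_lit 459) ln12_11_5 ln12_11_5_ok) (L (nat_lit 523) ln12_12_5 ln12_12_5_ok))))) (B (M (nat_lit 492) (B (M (nat_lit 363) (B (L (nat_lit 331) ln12_14_7 ln12_14_7_ok) (L (nat_lit 395) ln12_15_7 ln12_15_7_ok))) (M (nat_lit 365) (B (L (nat_lit 333) ln12_14_6 ln12_14_6_ok) (L (nat_lit 397) ln12_15_6 ln12_15_6_ok))))) (M (nat_lit 332) (B (M (nat_lit 331) (B (L (nat_lit 299) ln12_13_7 ln12_13_7_ok) (L (nat_lit 363) ln12_14_7 ln12_14_7_ok))) (M (nat_lit 333) (B (L (nat_lit 301) ln12_13_6 ln12_13_6_ok) (L (nat_lit 365) ln12_14_6 ln12_14_6_ok))))))))))))) (B (M (nat_lit 461) (B (M (nat_lit 493) (B (L (nat_lit 525) ln13_16_7 ln13_16_7_ok) (M (nat_lit 364) (B (L (nat_lit 332) ln12_10_4 ln12_10_4_ok) (L (nat_lit 460) ln12_11_4 ln12_11_4_ok))))) (B (M (nat_lit 493) (B (L (nat_lit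 525) ln13_16_7 ln13_16_7_ok) (M (nat_lit 364) (B (L (nat_lit 397) ln13_15_7 ln13_15_7_ok) (L (nat_lit 460) ln12_11_4 ln12_11_4_ok))))) (B (M (nat_lit 493) (B (L (nat_lit 525) ln13_16_7 ln13_16_7_ok) (M (nat_lit 397) (B (M (nat_lit 398) (B (L (nat_lit 366) ln13_15_6 ln13_15_6_ok) (M (nat_lit 399) (B (L (nat_lit 427) ln15_12_1 ln15_12_1_ok) (L (nat_lit 400) ln16_12_1 ln16_12_1_ok))))) (M (nat_lit 365) (B (M (nat_lit 333) (B (L (nat_lit 301) ln13_9_5 ln13_9_5_ok) (L (nat_lit 460) ln13_10_5 ln13_10_5_ok))) (M (nat_lit 494) (B (L (nat_lit 462) ln13_11_4 ln13_11_4_ok) (L (nat_lit 526) ln13_12_4 ln13_12_4_ok))))))))) (B (M (nat_lit 493) (B (L (nat_lit 525) ln13_16_7 ln13_16_7_ok) (M (nat_lit 364) (B (L (nat_lit 332) ln12_10_4 ln12_10_4_ok) (L (nat_lit 397) ln13_15_7 ln13_15_7_ok))))) (M (nat_lit 364) (B (L (nat_lit 332) ln12_10_4 ln12_10_4_ok) (M (nat_lit 460) (B (M (nat_lit 365) (B (L (nat_lit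 333) ln12_14_6 ln12_14_6_ok) (M (nat_lit 492) (B (L (nat_lit 397) ln12_15_6 ln12_15_6_ok) (M (nat_lit 363) (B (L (nat_lit 331) ln12_14_7 ln12_14_7_ok) (L (nat_lit 395) ln12_15_7 ln12_15_7_ok))))))) (B (M (nat_lit 492) (B (M (nat_lit 491) (B (L (nat_lit 459) ln12_11_5 ln12_11_5_ok) (L (nat_lit 523) ln12_12_5 ln12_12_5_ok))) (M (nat_lit 524) (B (L (nat_lit 397) ln12_16_6 ln12_16_6_ok) (L (nat_lit 556) ln12_17_6 ln12_17_6_ok))))) (B (M (nat_lit 492) (B (M (nat_lit 363) (B (L (nat_lit 331) ln12_14_7 ln12_14_7_ok) (L (nat_lit 395) ln12_15_7 ln12_15_7_ok))) (M (nat_lit 491) (B (L (nat_lit 459) ln12_11_5 ln12_11_5_ok) (L (nat_lit 523) ln12_12_5 ln12_12_5_ok))))) (M (nat_lit 462) (B (M (nat_lit 463) (B (L (nat_lit 427) ln15_14_3 ln15_14_3_ok) (L (nat_lit 464) ln16_14_3 ln16_14_3_ok))) (M (nat_lit 494) (B (M (nat_lit 365) (B (L (nat_lit 333) ln12_14_6 ln12_14_6_ok) (L (nat_lit 397) ln13_11_4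 ln13_11_4_ok))) (M (nat_lit 459) (B (L (nat_lit 491) ln12_11_5 ln12_11_5_ok) (L (nat_lit 495) ln11_14_0 ln11_14_0_ok)))))))))))))))))) (B c41_n656 (B (M (nat_lit 430) (B (M (nat_lit 395) (B (L (nat_lit 431) ln15_13_3 ln15_13_3_ok) (M (nat_lit 394) (B (L (nat_lit 393) ln9_12_0 ln9_12_0_ok) (L (nat_lit 427) ln14_13_3 ln14_13_3_ok))))) (B (M (nat_lit 395) (B (L (nat_lit 431) ln15_13_3 ln15_13_3_ok) (M (nat_lit 394) (B (L (nat_lit 397) ln10_12_0 ln10_12_0_ok) (L (nat_lit 427) ln14_13_3 ln14_13_3_ok))))) (B (M (nat_lit 431) (B (L (nat_lit 395) ln15_13_3 ln15_13_3_ok) (M (nat_lit 400) (B (L (nat_lit 399) ln12_13_2 ln12_13_2_ok) (M (nat_lit 432) (B (L (nat_lit 397) ln16_13_3 ln16_13_3_ok) (L (nat_lit 401) ln13_13_2 ln13_13_2_ok))))))) (B (M (nat_lit 461) (B (M (nat_lit 364) (B (L (nat_lit 332) ln12_10_4 ln12_10_4_ok) (M (nat_lit 493) (B (L (nat_lit 397) ln13_15_7 ln13_15_7_ok) (L (nat_lit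 525) ln13_16_7 ln13_16_7_ok))))) (B (M (nat_lit 427) (B (M (nat_lit 462) (B (L (nat_lit 426) ln10_13_0 ln10_13_0_ok) (L (nat_lit 463) ln11_13_0 ln11_13_0_ok))) (B (M (nat_lit 431) (B (M (nat_lit 399) (B (L (nat_lit 398) ln11_13_2 ln11_13_2_ok) (L (nat_lit 400) ln12_13_2 ln12_13_2_ok))) (M (nat_lit 463) (B (L (nat_lit 462) ln11_13_0 ln11_13_0_ok) (L (nat_lit 464) ln12_13_0 ln12_13_0_ok))))) (M (nat_lit 426) (B (M (nat_lit 397) (B (L (nat_lit 425) ln9_13_2 ln9_13_2_ok) (L (nat_lit 398) ln10_13_2 ln10_13_2_ok))) (M (nat_lit 458) (B (L (nat_lit 457) ln13_13_1 ln13_13_1_ok) (L (nat_lit 459) ln14_13_1 ln14_13_1_ok)))))))) (M (nat_lit 398) (B (M (nat_lit 493) (B (L (nat_lit 525) ln13_16_7 ln13_16_7_ok) (M (nat_lit 366) (B (L (nat_lit 334) ln14_10_5 ln14_10_5_ok) (L (nat_lit 462) ln14_11_5 ln14_11_5_ok))))) (M (nat_lit 399) (B (L (nat_lit 427) ln11_13_2 ln11_13_2_ok) (M (nat_lit 400) (B (L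 (nat_lit 401) ln17_12_1 ln17_12_1_ok) (L (nat_lit 431) ln12_13_2 ln12_13_2_ok)))))))))) (M (nat_lit 395) (B (M (nat_lit 394) (B (L (nat_lit 393) ln9_12_0 ln9_12_0_ok) (L (nat_lit 397) ln10_12_0 ln10_12_0_ok))) (B (M (nat_lit 394) (B (L (nat_lit 397) ln10_12_0 ln10_12_0_ok) (L (nat_lit 427) ln14_13_3 ln14_13_3_ok))) (B (M (nat_lit 427) (B (M (nat_lit 459) (B (L (nat_lit 458) ln14_13_1 ln14_13_1_ok) (M (nat_lit 364) (B (L (nat_lit 332) ln12_10_5 ln12_10_5_ok) (L (nat_lit 491) ln11_15_6 ln11_15_6_ok))))) (M (nat_lit 426) (B (M (nat_lit 398) (B (L (nat_lit 397) ln14_12_1 ln14_12_1_ok) (L (nat_lit 399) ln11_13_2 ln11_13_2_ok))) (M (nat_lit 462) (B (L (nat_lit 461) ln10_13_0 ln10_13_0_ok) (L (nat_lit 463) ln11_13_0 ln11_13_0_ok))))))) (M (nat_lit 394) (B (L (nat_lit 393) ln9_12_0 ln9_12_0_ok) (L (nat_lit 427) ln14_13_3 ln14_13_3_ok)))))))))))) (M (nat_lit 430) (B (M (nat_lit 395) (B (L (nat_lit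 431) ln15_13_3 ln15_13_3_ok) (M (nat_lit 394) (B (L (nat_lit 397) ln10_12_0 ln10_12_0_ok) (L (nat_lit 427) ln14_13_3 ln14_13_3_ok))))) (B (M (nat_lit 431) (B (L (nat_lit 395) ln15_13_3 ln15_13_3_ok) (M (nat_lit 400) (B (L (nat_lit 399) ln12_13_2 ln12_13_2_ok) (M (nat_lit 432) (B (L (nat_lit 397) ln16_13_3 ln16_13_3_ok) (L (nat_lit 401) ln13_13_2 ln13_13_2_ok))))))) (B (M (nat_lit 431) (B (M (nat_lit 400) (B (L (nat_lit 399) ln12_13_2 ln12_13_2_ok) (M (nat_lit 432) (B (L (nat_lit 397) ln16_13_3 ln16_13_3_ok) (L (nat_lit 401) ln13_13_2 ln13_13_2_ok))))) (M (nat_lit 427) (B (M (nat_lit 459) (B (L (nat_lit 458) ln14_13_1 ln14_13_1_ok) (L (nat_lit 460) ln15_13_1 ln15_13_1_ok))) (M (nat_lit 463) (B (L (nat_lit 462) ln11_13_0 ln11_13_0_ok) (L (nat_lit 464) ln12_13_0 ln12_13_0_ok))))))) (B (M (nat_lit 395) (B (L (nat_lit 431) ln15_13_3 ln15_13_3_ok) (M (nat_lit 394) (B (L (nat_lit 393) ln9_12_0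 ln9_12_0_ok) (L (nat_lit 427) ln14_13_3 ln14_13_3_ok))))) (M (nat_lit 427) (B (M (nat_lit 395) (B (L (nat_lit 394) ln14_13_3 ln14_13_3_ok) (M (nat_lit 459) (B (L (nat_lit 458) ln14_13_1 ln14_13_1_ok) (M (nat_lit 364) (B (L (nat_lit 332) ln12_10_5 ln12_10_5_ok) (L (nat_lit 491) ln11_15_6 ln11_15_6_ok))))))) (B (M (nat_lit 426) (B (M (nat_lit 397) (B (L (nat_lit 425) ln9_13_2 ln9_13_2_ok) (L (nat_lit 398) ln10_13_2 ln10_13_2_ok))) (M (nat_lit 458) (B (L (nat_lit 457) ln13_13_1 ln13_13_1_ok) (L (nat_lit 459) ln14_13_1 ln14_13_1_ok))))) (M (nat_lit 426) (B (M (nat_lit 394) (B (L (nat_lit 393) ln13_13_3 ln13_13_3_ok) (L (nat_lit 395) ln14_13_3 ln14_13_3_ok))) (M (nat_lit 397) (B (L (nat_lit 425) ln9_13_2 ln9_13_2_ok) (L (nat_lit 398) ln10_13_2 ln10_13_2_ok)))))))))))))))))))))) (nat_lit 1386334847221798047169638878925036799968406779833514899637066259859226863686603287896039777716422623628704219945445734162783797248)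 (nat_lit 235872651963234194321127316268038632277888826655534174610198851482901196954174541487946649287748045401299382575560807247429411391256520672252907541575514906508358844416) (nat_lit 235872651963234194321127316268038632277888826655534174610198851482901196954174541487946649287748045401299382575560807247429411391256520672252907541575514906508358844416) (by decide +kernel)
noncomputable def c41_n764 : Cert := (M (nat_lit 461) (B (M (nat_lit 493) (B (L (nat_lit 525) ln13_16_7 ln13_16_7_ok) (M (nat_lit 364) (B (L (nat_lit 332) ln12_10_4 ln12_10_4_ok) (L (nat_lit 460) ln12_11_4 ln12_11_4_ok))))) (B (M (nat_lit 493) (B (L (nat_lit 525) ln13_16_7 ln13_16_7_ok) (M (nat_lit 364) (B (L (nat_lit 397) ln13_15_7 ln13_15_7_ok) (L (nat_lit 460) ln12_11_4 ln12_11_4_ok))))) (B (M (nat_lit 493) (B (L (nat_lit 525) ln13_16_7 ln13_16_7_ok) (M (nat_lit 397) (B (M (nat_lit 492) (B (L (nat_lit 524) ln13_12_5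 ln13_12_5_ok) (M (nat_lit 365) (B (L (nat_lit 460) ln12_15_6 ln12_15_6_ok) (M (nat_lit 494) (B (L (nat_lit 462) ln13_11_4 ln13_11_4_ok) (L (nat_lit 526) ln13_12_4 ln13_12_4_ok))))))) (B (M (nat_lit 395) (B (M (nat_lit 430) (B (L (nat_lit 394) ln10_12_0 ln10_12_0_ok) (L (nat_lit 431) ln15_13_3 ln15_13_3_ok))) (M (nat_lit 363) (B (M (nat_lit 398) (B (L (nat_lit 362) ln14_12_3 ln14_12_3_ok) (L (nat_lit 366) ln13_15_6 ln13_15_6_ok))) (M (nat_lit 492) (B (L (nat_lit 460) ln12_15_7 ln12_15_7_ok) (L (nat_lit 524) ln13_12_5 ln13_12_5_ok))))))) (M (nat_lit 365) (B (M (nat_lit 366) (B (L (nat_lit 334) ln13_14_6 ln13_14_6_ok) (L (nat_lit 398) ln13_15_6 ln13_15_6_ok))) (M (nat_lit 494) (B (L (nat_lit 462) ln13_11_4 ln13_11_4_ok) (L (nat_lit 526) ln13_12_4 ln13_12_4_ok)))))))))) (B (M (nat_lit 493) (B (L (nat_lit 525) ln13_16_7 ln13_16_7_ok) (M (nat_lit 364) (B (L (nat_lit 332) ln12_10_4 ln12_10_4_ok)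 (L (nat_lit 397) ln13_15_7 ln13_15_7_ok))))) (M (nat_lit 365) (B (M (nat_lit 364) (B (L (nat_lit 332) ln12_10_4 ln12_10_4_ok) (M (nat_lit 460) (B (L (nat_lit 333) ln12_14_6 ln12_14_6_ok) (M (nat_lit 492) (B (L (nat_lit 397) ln12_15_6 ln12_15_6_ok) (M (nat_lit 491) (B (L (nat_lit 459) ln12_11_5 ln12_11_5_ok) (L (nat_lit 523) ln12_12_5 ln12_12_5_ok))))))))) (B (M (nat_lit 397) (B (M (nat_lit 333) (B (L (nat_lit 301) ln13_9_5 ln13_9_5_ok) (L (nat_lit 460) ln13_10_5 ln13_10_5_ok))) (B (M (nat_lit 460) (B (L (nat_lit 333) ln13_10_5 ln13_10_5_ok) (L (nat_lit 492) ln12_15_6 ln12_15_6_ok))) (M (nat_lit 366) (B (L (nat_lit 334) ln13_14_6 ln13_14_6_ok) (M (nat_lit 395) (B (L (nat_lit 394) ln10_12_2 ln10_12_2_ok) (M (nat_lit 367) (B (L (nat_lit 368) ln16_11_1 ln16_11_1_ok) (L (nat_lit 398) ln11_12_2 ln11_12_2_ok)))))))))) (B (M (nat_lit 397) (B (M (nat_lit 364) (B (L (nat_lit 332) ln13_14_7 ln13_14_7_ok)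 (M (nat_lit 366) (B (L (nat_lit 334) ln13_14_6 ln13_14_6_ok) (M (nat_lit 367) (B (L (nat_lit 395) ln15_11_1 ln15_11_1_ok) (L (nat_lit 368) ln16_11_1 ln16_11_1_ok))))))) (B (M (nat_lit 366) (B (L (nat_lit 334) ln13_14_6 ln13_14_6_ok) (M (nat_lit 395) (B (L (nat_lit 394) ln10_12_2 ln10_12_2_ok) (M (nat_lit 367) (B (L (nat_lit 368) ln16_11_1 ln16_11_1_ok) (L (nat_lit 398) ln11_12_2 ln11_12_2_ok))))))) (M (nat_lit 460) (B (L (nat_lit 492) ln12_15_6 ln12_15_6_ok) (M (nat_lit 459) (B (M (nat_lit 364) (B (L (nat_lit 332) ln13_14_7 ln13_14_7_ok) (L (nat_lit 491) ln12_11_5 ln12_11_5_ok))) (M (nat_lit 458) (B (L (nat_lit 457) ln9_14_2 ln9_14_2_ok) (L (nat_lit 430) ln10_14_2 ln10_14_2_ok)))))))))) (B (M (nat_lit 364) (B (L (nat_lit 332) ln12_10_4 ln12_10_4_ok) (M (nat_lit 460) (B (L (nat_lit 333) ln12_14_6 ln12_14_6_ok) (M (nat_lit 459) (B (L (nat_lit 491) ln12_11_5 ln12_11_5_ok) (M (nat_lit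 430) (B (L (nat_lit 431) ln15_13_1 ln15_13_1_ok) (L (nat_lit 458) ln10_14_2 ln10_14_2_ok))))))))) (M (nat_lit 364) (B (L (nat_lit 332) ln12_10_4 ln12_10_4_ok) (M (nat_lit 397) (B (M (nat_lit 366) (B (L (nat_lit 334) ln13_14_6 ln13_14_6_ok) (M (nat_lit 367) (B (L (nat_lit 395) ln15_11_1 ln15_11_1_ok) (L (nat_lit 368) ln16_11_1 ln16_11_1_ok))))) (M (nat_lit 462) (B (L (nat_lit 494) ln13_11_4 ln13_11_4_ok) (M (nat_lit 333) (B (L (nat_lit 301) ln13_9_5 ln13_9_5_ok) (L (nat_lit 430) ln13_10_4 ln13_10_4_ok)))))))))))))))))))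
theorem c41_s791 : Sem (nat_lit 1386334847221798047169638878925036799968406779833514899637066259859226863686603287896039777716422623628704219945445734162783797248) (nat_lit 235872651963234194321127316268038632277888826655534174610800078384086923759063663978887807319258850668245001434519561577071972392347722457556538542665686999777396391936) (nat_lit 235872651963234194321127316268038632277888826655534174610800078384086923759063663978887807319258850668245001434519561577071972392347722457556538542665686999777396391936) :=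
  sem_of_chk (M (nat_lit 428) (B (M (nat_lit 430) (B (M (nat_lit 395) (B (L (nat_lit 431) ln15_13_3 ln15_13_3_ok) (M (nat_lit 394) (B (L (nat_lit 393) ln9_12_0 ln9_12_0_ok) (L (nat_lit 427) ln14_13_3 ln14_13_3_ok))))) (B (M (nat_lit 395) (B (L (nat_lit 431) ln15_13_3 ln15_13_3_ok) (M (nat_lit 394) (B (L (nat_lit 397) ln10_12_0 ln10_12_0_ok) (L (nat_lit 427) ln14_13_3 ln14_13_3_ok))))) (B (M (nat_lit 431) (B (L (nat_lit 395) ln15_13_3 ln15_13_3_ok) (M (nat_lit 400) (B (L (nat_lit 399) ln12_13_2 ln12_13_2_ok) (M (nat_lit 432) (B (L (nat_lit 397) ln16_13_3 ln16_13_3_ok) (L (nat_lit 401) ln13_13_2 ln13_13_2_ok))))))) (B (M (nat_lit 431) (B (M (nat_lit 400) (B (L (nat_lit 399) ln12_13_2 ln12_13_2_ok) (M (nat_lit 432) (B (L (nat_lit 397) ln16_13_3 ln16_13_3_ok) (L (nat_lit 401) ln13_13_2 ln13_13_2_ok))))) (M (nat_lit 427) (B (M (nat_lit 459) (B (L (nat_lit 458) ln14_13_1 ln14_13_1_ok) (L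 (nat_lit 460) ln15_13_1 ln15_13_1_ok))) (M (nat_lit 463) (B (L (nat_lit 462) ln11_13_0 ln11_13_0_ok) (L (nat_lit 464) ln12_13_0 ln12_13_0_ok))))))) (M (nat_lit 395) (B (M (nat_lit 394) (B (L (nat_lit 393) ln9_12_0 ln9_12_0_ok) (L (nat_lit 397) ln10_12_0 ln10_12_0_ok))) (B (M (nat_lit 394) (B (L (nat_lit 397) ln10_12_0 ln10_12_0_ok) (L (nat_lit 427) ln14_13_3 ln14_13_3_ok))) (B (M (nat_lit 427) (B (M (nat_lit 459) (B (L (nat_lit 458) ln14_13_1 ln14_13_1_ok) (M (nat_lit 364) (B (L (nat_lit 332) ln12_10_5 ln12_10_5_ok) (L (nat_lit 491) ln11_15_6 ln11_15_6_ok))))) (M (nat_lit 426) (B (M (nat_lit 398) (B (L (nat_lit 397) ln14_12_1 ln14_12_1_ok) (L (nat_lit 399) ln11_13_2 ln11_13_2_ok))) (M (nat_lit 462) (B (L (nat_lit 461) ln10_13_0 ln10_13_0_ok) (L (nat_lit 463) ln11_13_0 ln11_13_0_ok))))))) (M (nat_lit 394) (B (L (nat_lit 393) ln9_12_0 ln9_12_0_ok) (L (nat_lit 427) ln14_13_3 ln14_13_3_ok))))))))))))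 (B (M (nat_lit 427) (B (M (nat_lit 459) (B (M (nat_lit 430) (B (L (nat_lit 458) ln14_13_1 ln14_13_1_ok) (M (nat_lit 395) (B (L (nat_lit 394) ln14_13_3 ln14_13_3_ok) (L (nat_lit 431) ln15_13_3 ln15_13_3_ok))))) (B (M (nat_lit 430) (B (L (nat_lit 458) ln14_13_1 ln14_13_1_ok) (M (nat_lit 431) (B (L (nat_lit 395) ln15_13_3 ln15_13_3_ok) (L (nat_lit 460) ln15_13_1 ln15_13_1_ok))))) (B (M (nat_lit 460) (B (M (nat_lit 491) (B (L (nat_lit 364) ln12_11_5 ln12_11_5_ok) (L (nat_lit 523) ln11_16_6 ln11_16_6_ok))) (M (nat_lit 430) (B (L (nat_lit 458) ln14_13_1 ln14_13_1_ok) (L (nat_lit 431) ln15_13_1 ln15_13_1_ok))))) (M (nat_lit 491) (B (L (nat_lit 523) ln11_16_6 ln11_16_6_ok) (M (nat_lit 364) (B (L (nat_lit 395) ln11_15_6 ln11_15_6_ok) (L (nat_lit 460) ln12_11_5 ln12_11_5_ok))))))))) (B (M (nat_lit 430) (B (M (nat_lit 395) (B (L (nat_lit 394) ln14_13_3 ln14_13_3_ok) (L (nat_lit 431) ln15_13_3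 ln15_13_3_ok))) (M (nat_lit 426) (B (M (nat_lit 397) (B (L (nat_lit 425) ln9_13_2 ln9_13_2_ok) (L (nat_lit 398) ln10_13_2 ln10_13_2_ok))) (M (nat_lit 462) (B (L (nat_lit 461) ln10_13_0 ln10_13_0_ok) (L (nat_lit 463) ln11_13_0 ln11_13_0_ok))))))) (B (M (nat_lit 459) (B (M (nat_lit 430) (B (L (nat_lit 458) ln14_13_1 ln14_13_1_ok) (M (nat_lit 431) (B (L (nat_lit 395) ln15_13_3 ln15_13_3_ok) (L (nat_lit 460) ln15_13_1 ln15_13_1_ok))))) (B (M (nat_lit 460) (B (M (nat_lit 491) (B (L (nat_lit 364) ln12_11_5 ln12_11_5_ok) (L (nat_lit 523) ln11_16_6 ln11_16_6_ok))) (M (nat_lit 430) (B (L (nat_lit 458) ln14_13_1 ln14_13_1_ok) (L (nat_lit 431) ln15_13_1 ln15_13_1_ok))))) (B (M (nat_lit 491) (B (L (nat_lit 523) ln11_16_6 ln11_16_6_ok) (M (nat_lit 364) (B (L (nat_lit 395) ln11_15_6 ln11_15_6_ok) (L (nat_lit 460) ln12_11_5 ln12_11_5_ok))))) (M (nat_lit 395) (B (M (nat_lit 491) (B (L (nat_lit 364)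 ln11_15_6 ln11_15_6_ok) (L (nat_lit 523) ln11_16_6 ln11_16_6_ok))) (M (nat_lit 430) (B (L (nat_lit 431) ln15_13_3 ln15_13_3_ok) (L (nat_lit 458) ln14_13_1 ln14_13_1_ok))))))))) (B (M (nat_lit 461) (B (M (nat_lit 462) (B (L (nat_lit 426) ln10_13_0 ln10_13_0_ok) (M (nat_lit 463) (B (L (nat_lit 430) ln11_13_0 ln11_13_0_ok) (L (nat_lit 460) ln15_14_3 ln15_14_3_ok))))) (B (M (nat_lit 493) (B (L (nat_lit 525) ln13_16_7 ln13_16_7_ok) (M (nat_lit 364) (B (L (nat_lit 397) ln13_15_7 ln13_15_7_ok) (L (nat_lit 460) ln12_11_4 ln12_11_4_ok))))) (M (nat_lit 397) (B (M (nat_lit 493) (B (L (nat_lit 364) ln13_15_7 ln13_15_7_ok) (L (nat_lit 525) ln13_16_7 ln13_16_7_ok))) (M (nat_lit 426) (B (L (nat_lit 425) ln9_13_2 ln9_13_2_ok) (L (nat_lit 462) ln10_13_0 ln10_13_0_ok)))))))) (M (nat_lit 461) (B (M (nat_lit 462) (B (L (nat_lit 426) ln10_13_0 ln10_13_0_ok) (M (nat_lit 463) (B (L (nat_lit 460) ln15_14_3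 ln15_14_3_ok) (L (nat_lit 464) ln16_14_3 ln16_14_3_ok))))) (B (M (nat_lit 493) (B (L (nat_lit 525) ln13_16_7 ln13_16_7_ok) (M (nat_lit 364) (B (L (nat_lit 397) ln13_15_7 ln13_15_7_ok) (L (nat_lit 460) ln12_11_4 ln12_11_4_ok))))) (M (nat_lit 397) (B (M (nat_lit 493) (B (L (nat_lit 364) ln13_15_7 ln13_15_7_ok) (L (nat_lit 525) ln13_16_7 ln13_16_7_ok))) (M (nat_lit 426) (B (L (nat_lit 425) ln9_13_2 ln9_13_2_ok) (L (nat_lit 462) ln10_13_0 ln10_13_0_ok))))))))))))) (B (M (nat_lit 430) (B (M (nat_lit 395) (B (L (nat_lit 431) ln15_13_3 ln15_13_3_ok) (M (nat_lit 394) (B (L (nat_lit 397) ln10_12_0 ln10_12_0_ok) (L (nat_lit 427) ln14_13_3 ln14_13_3_ok))))) (B (M (nat_lit 431) (B (L (nat_lit 395) ln15_13_3 ln15_13_3_ok) (M (nat_lit 400) (B (L (nat_lit 399) ln12_13_2 ln12_13_2_ok) (M (nat_lit 432) (B (L (nat_lit 397) ln16_13_3 ln16_13_3_ok) (L (nat_lit 401) ln13_13_2 ln13_13_2_ok))))))) (B (M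 (nat_lit 431) (B (M (nat_lit 400) (B (L (nat_lit 399) ln12_13_2 ln12_13_2_ok) (M (nat_lit 432) (B (L (nat_lit 397) ln16_13_3 ln16_13_3_ok) (L (nat_lit 401) ln13_13_2 ln13_13_2_ok))))) (B (M (nat_lit 427) (B (M (nat_lit 399) (B (L (nat_lit 398) ln11_13_2 ln11_13_2_ok) (L (nat_lit 400) ln12_13_2 ln12_13_2_ok))) (M (nat_lit 463) (B (L (nat_lit 462) ln11_13_0 ln11_13_0_ok) (L (nat_lit 464) ln12_13_0 ln12_13_0_ok))))) (M (nat_lit 460) (B (L (nat_lit 459) ln15_13_1 ln15_13_1_ok) (M (nat_lit 432) (B (L (nat_lit 397) ln16_13_3 ln16_13_3_ok) (L (nat_lit 461) ln16_13_1 ln16_13_1_ok)))))))) (B (M (nat_lit 395) (B (L (nat_lit 431) ln15_13_3 ln15_13_3_ok) (M (nat_lit 394) (B (L (nat_lit 393) ln9_12_0 ln9_12_0_ok) (L (nat_lit 427) ln14_13_3 ln14_13_3_ok))))) (M (nat_lit 427) (B (M (nat_lit 398) (B (L (nat_lit 399) ln11_13_2 ln11_13_2_ok) (M (nat_lit 426) (B (L (nat_lit 397) ln10_13_2 ln10_13_2_ok)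 (M (nat_lit 462) (B (L (nat_lit 461) ln10_13_0 ln10_13_0_ok) (L (nat_lit 463) ln11_13_0 ln11_13_0_ok))))))) (B (M (nat_lit 426) (B (M (nat_lit 394) (B (L (nat_lit 393) ln13_13_3 ln13_13_3_ok) (L (nat_lit 395) ln14_13_3 ln14_13_3_ok))) (M (nat_lit 458) (B (L (nat_lit 457) ln13_13_1 ln13_13_1_ok) (L (nat_lit 459) ln14_13_1 ln14_13_1_ok))))) (M (nat_lit 398) (B (L (nat_lit 399) ln11_13_2 ln11_13_2_ok) (M (nat_lit 397) (B (M (nat_lit 462) (B (L (nat_lit 463) ln11_13_0 ln11_13_0_ok) (M (nat_lit 365) (B (L (nat_lit 333) ln13_10_4 ln13_10_4_ok) (L (nat_lit 494) ln14_15_7 ln14_15_7_ok))))) (M (nat_lit 366) (B (M (nat_lit 395) (B (L (nat_lit 367) ln11_12_2 ln11_12_2_ok) (L (nat_lit 394) ln10_12_0 ln10_12_0_ok))) (M (nat_lit 461) (B (L (nat_lit 334) ln14_10_5 ln14_10_5_ok) (L (nat_lit 493) ln13_15_6 ln13_15_6_ok))))))))))))))))) (B (M (nat_lit 427) (B (M (nat_lit 459) (B (M (nat_lit 430) (B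 (L (nat_lit 458) ln14_13_1 ln14_13_1_ok) (M (nat_lit 431) (B (L (nat_lit 395) ln15_13_3 ln15_13_3_ok) (L (nat_lit 460) ln15_13_1 ln15_13_1_ok))))) (B (M (nat_lit 460) (B (M (nat_lit 491) (B (L (nat_lit 364) ln12_11_5 ln12_11_5_ok) (L (nat_lit 523) ln11_16_6 ln11_16_6_ok))) (M (nat_lit 430) (B (L (nat_lit 458) ln14_13_1 ln14_13_1_ok) (L (nat_lit 431) ln15_13_1 ln15_13_1_ok))))) (B (M (nat_lit 491) (B (L (nat_lit 523) ln11_16_6 ln11_16_6_ok) (M (nat_lit 364) (B (L (nat_lit 395) ln11_15_6 ln11_15_6_ok) (L (nat_lit 460) ln12_11_5 ln12_11_5_ok))))) (M (nat_lit 395) (B (M (nat_lit 491) (B (L (nat_lit 364) ln11_15_6 ln11_15_6_ok) (L (nat_lit 523) ln11_16_6 ln11_16_6_ok))) (M (nat_lit 430) (B (L (nat_lit 431) ln15_13_3 ln15_13_3_ok) (L (nat_lit 458) ln14_13_1 ln14_13_1_ok))))))))) (B (M (nat_lit 430) (B (M (nat_lit 431) (B (L (nat_lit 395) ln15_13_3 ln15_13_3_ok) (M (nat_lit 399) (B (L (nat_lit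 398) ln11_13_2 ln11_13_2_ok) (L (nat_lit 400) ln12_13_2 ln12_13_2_ok))))) (B (M (nat_lit 426) (B (M (nat_lit 397) (B (L (nat_lit 425) ln9_13_2 ln9_13_2_ok) (L (nat_lit 398) ln10_13_2 ln10_13_2_ok))) (M (nat_lit 462) (B (L (nat_lit 461) ln10_13_0 ln10_13_0_ok) (L (nat_lit 463) ln11_13_0 ln11_13_0_ok))))) (M (nat_lit 431) (B (L (nat_lit 395) ln15_13_3 ln15_13_3_ok) (M (nat_lit 459) (B (L (nat_lit 458) ln14_13_1 ln14_13_1_ok) (L (nat_lit 460) ln15_13_1 ln15_13_1_ok)))))))) (B (M (nat_lit 461) (B (M (nat_lit 462) (B (L (nat_lit 426) ln10_13_0 ln10_13_0_ok) (M (nat_lit 463) (B (L (nat_lit 460) ln15_14_3 ln15_14_3_ok) (L (nat_lit 464) ln16_14_3 ln16_14_3_ok))))) (M (nat_lit 364) (B (L (nat_lit 332) ln12_10_4 ln12_10_4_ok) (M (nat_lit 493) (B (L (nat_lit 397) ln13_15_7 ln13_15_7_ok) (L (nat_lit 525) ln13_16_7 ln13_16_7_ok))))))) (M (nat_lit 459) (B (M (nat_lit 364) (B (L (nat_lit 332) ln12_10_5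 ln12_10_5_ok) (M (nat_lit 491) (B (L (nat_lit 395) ln11_15_6 ln11_15_6_ok) (L (nat_lit 523) ln11_16_6 ln11_16_6_ok))))) (M (nat_lit 426) (B (M (nat_lit 397) (B (L (nat_lit 425) ln9_13_2 ln9_13_2_ok) (L (nat_lit 398) ln10_13_2 ln10_13_2_ok))) (M (nat_lit 458) (B (L (nat_lit 457) ln13_13_1 ln13_13_1_ok) (L (nat_lit 430) ln14_13_1 ln14_13_1_ok))))))))))) (B (M (nat_lit 427) (B (M (nat_lit 461) (B (M (nat_lit 462) (B (L (nat_lit 426) ln10_13_0 ln10_13_0_ok) (M (nat_lit 463) (B (L (nat_lit 460) ln15_14_3 ln15_14_3_ok) (L (nat_lit 464) ln16_14_3 ln16_14_3_ok))))) (M (nat_lit 364) (B (L (nat_lit 332) ln12_10_4 ln12_10_4_ok) (M (nat_lit 493) (B (L (nat_lit 397) ln13_15_7 ln13_15_7_ok) (L (nat_lit 525) ln13_16_7 ln13_16_7_ok))))))) (B (M (nat_lit 461) (B (M (nat_lit 462) (B (L (nat_lit 426) ln10_13_0 ln10_13_0_ok) (M (nat_lit 463) (B (L (nat_lit 430) ln11_13_0 ln11_13_0_ok) (L (nat_lit 464)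 ln16_14_3 ln16_14_3_ok))))) (M (nat_lit 493) (B (L (nat_lit 525) ln13_16_7 ln13_16_7_ok) (M (nat_lit 364) (B (L (nat_lit 397) ln13_15_7 ln13_15_7_ok) (L (nat_lit 460) ln12_11_4 ln12_11_4_ok))))))) (B (M (nat_lit 426) (B (M (nat_lit 397) (B (L (nat_lit 425) ln9_13_2 ln9_13_2_ok) (L (nat_lit 398) ln10_13_2 ln10_13_2_ok))) (M (nat_lit 430) (B (M (nat_lit 458) (B (L (nat_lit 457) ln13_13_1 ln13_13_1_ok) (L (nat_lit 459) ln14_13_1 ln14_13_1_ok))) (M (nat_lit 462) (B (L (nat_lit 461) ln10_13_0 ln10_13_0_ok) (L (nat_lit 463) ln11_13_0 ln11_13_0_ok))))))) (B (M (nat_lit 461) (B (M (nat_lit 462) (B (L (nat_lit 426) ln10_13_0 ln10_13_0_ok) (M (nat_lit 463) (B (L (nat_lit 430) ln11_13_0 ln11_13_0_ok) (L (nat_lit 460) ln15_14_3 ln15_14_3_ok))))) (B (M (nat_lit 364) (B (L (nat_lit 332) ln12_10_4 ln12_10_4_ok) (M (nat_lit 493) (B (L (nat_lit 460) ln12_11_4 ln12_11_4_ok) (L (nat_lit 525) ln13_16_7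 ln13_16_7_ok))))) (M (nat_lit 462) (B (L (nat_lit 426) ln10_13_0 ln10_13_0_ok) (M (nat_lit 463) (B (L (nat_lit 430) ln11_13_0 ln11_13_0_ok) (L (nat_lit 464) ln16_14_3 ln16_14_3_ok)))))))) (B (M (nat_lit 459) (B (M (nat_lit 364) (B (L (nat_lit 332) ln12_10_5 ln12_10_5_ok) (M (nat_lit 491) (B (L (nat_lit 460) ln12_11_5 ln12_11_5_ok) (L (nat_lit 523) ln11_16_6 ln11_16_6_ok))))) (B (M (nat_lit 460) (B (M (nat_lit 491) (B (L (nat_lit 364) ln12_11_5 ln12_11_5_ok) (L (nat_lit 523) ln11_16_6 ln11_16_6_ok))) (M (nat_lit 430) (B (L (nat_lit 458) ln14_13_1 ln14_13_1_ok) (L (nat_lit 431) ln15_13_1 ln15_13_1_ok))))) (B (M (nat_lit 430) (B (L (nat_lit 458) ln14_13_1 ln14_13_1_ok) (M (nat_lit 431) (B (L (nat_lit 460) ln15_13_1 ln15_13_1_ok) (M (nat_lit 399) (B (L (nat_lit 398) ln11_13_2 ln11_13_2_ok) (L (nat_lit 400) ln12_13_2 ln12_13_2_ok))))))) (M (nat_lit 430) (B (L (nat_lit 458) ln14_13_1 ln14_13_1_ok)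 (M (nat_lit 431) (B (M (nat_lit 399) (B (L (nat_lit 398) ln11_13_2 ln11_13_2_ok) (L (nat_lit 400) ln12_13_2 ln12_13_2_ok))) (M (nat_lit 463) (B (L (nat_lit 462) ln11_13_0 ln11_13_0_ok) (L (nat_lit 464) ln12_13_0 ln12_13_0_ok))))))))))) (M (nat_lit 459) (B (M (nat_lit 364) (B (L (nat_lit 332) ln12_10_5 ln12_10_5_ok) (M (nat_lit 491) (B (L (nat_lit 460) ln12_11_5 ln12_11_5_ok) (L (nat_lit 523) ln11_16_6 ln11_16_6_ok))))) (B (M (nat_lit 458) (B (L (nat_lit 430) ln14_13_1 ln14_13_1_ok) (M (nat_lit 457) (B (L (nat_lit 426) ln13_13_1 ln13_13_1_ok) (L (nat_lit 460) ln9_14_2 ln9_14_2_ok))))) (M (nat_lit 426) (B (M (nat_lit 397) (B (L (nat_lit 425) ln9_13_2 ln9_13_2_ok) (L (nat_lit 398) ln10_13_2 ln10_13_2_ok))) (M (nat_lit 458) (B (L (nat_lit 457) ln13_13_1 ln13_13_1_ok) (L (nat_lit 430) ln14_13_1 ln14_13_1_ok)))))))))))))) (B (M (nat_lit 430) (B (M (nat_lit 395) (B (L (nat_lit 431) ln15_13_3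 ln15_13_3_ok) (M (nat_lit 394) (B (L (nat_lit 393) ln9_12_0 ln9_12_0_ok) (L (nat_lit 427) ln14_13_3 ln14_13_3_ok))))) (B (M (nat_lit 431) (B (L (nat_lit 395) ln15_13_3 ln15_13_3_ok) (M (nat_lit 427) (B (M (nat_lit 399) (B (L (nat_lit 398) ln11_13_2 ln11_13_2_ok) (L (nat_lit 400) ln12_13_2 ln12_13_2_ok))) (M (nat_lit 459) (B (L (nat_lit 458) ln14_13_1 ln14_13_1_ok) (L (nat_lit 460) ln15_13_1 ln15_13_1_ok))))))) (B (M (nat_lit 461) (B (M (nat_lit 364) (B (L (nat_lit 332) ln12_10_4 ln12_10_4_ok) (M (nat_lit 493) (B (L (nat_lit 460) ln12_11_4 ln12_11_4_ok) (L (nat_lit 525) ln13_16_7 ln13_16_7_ok))))) (B (M (nat_lit 460) (B (M (nat_lit 493) (B (L (nat_lit 364) ln12_11_4 ln12_11_4_ok) (L (nat_lit 525) ln13_16_7 ln13_16_7_ok))) (M (nat_lit 459) (B (L (nat_lit 431) ln15_13_1 ln15_13_1_ok) (L (nat_lit 458) ln10_14_2 ln10_14_2_ok))))) (B (M (nat_lit 427) (B (M (nat_lit 462) (B (L (nat_lit 426)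 ln10_13_0 ln10_13_0_ok) (L (nat_lit 463) ln11_13_0 ln11_13_0_ok))) (M (nat_lit 431) (B (M (nat_lit 399) (B (L (nat_lit 398) ln11_13_2 ln11_13_2_ok) (L (nat_lit 400) ln12_13_2 ln12_13_2_ok))) (M (nat_lit 459) (B (L (nat_lit 458) ln14_13_1 ln14_13_1_ok) (L (nat_lit 460) ln15_13_1 ln15_13_1_ok))))))) (M (nat_lit 398) (B (M (nat_lit 493) (B (L (nat_lit 525) ln13_16_7 ln13_16_7_ok) (M (nat_lit 366) (B (L (nat_lit 334) ln14_10_5 ln14_10_5_ok) (L (nat_lit 462) ln14_11_5 ln14_11_5_ok))))) (M (nat_lit 399) (B (L (nat_lit 427) ln11_13_2 ln11_13_2_ok) (M (nat_lit 400) (B (L (nat_lit 401) ln17_12_1 ln17_12_1_ok) (L (nat_lit 431) ln12_13_2 ln12_13_2_ok))))))))))) (B (M (nat_lit 431) (B (L (nat_lit 395) ln15_13_3 ln15_13_3_ok) (M (nat_lit 432) (B (M (nat_lit 400) (B (L (nat_lit 399) ln12_13_2 ln12_13_2_ok) (L (nat_lit 401) ln13_13_2 ln13_13_2_ok))) (M (nat_lit 460) (B (L (nat_lit 459) ln15_13_1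 ln15_13_1_ok) (L (nat_lit 461) ln16_13_1 ln16_13_1_ok))))))) (M (nat_lit 427) (B (M (nat_lit 395) (B (L (nat_lit 394) ln14_13_3 ln14_13_3_ok) (M (nat_lit 459) (B (L (nat_lit 458) ln14_13_1 ln14_13_1_ok) (M (nat_lit 364) (B (L (nat_lit 332) ln12_10_5 ln12_10_5_ok) (L (nat_lit 491) ln11_15_6 ln11_15_6_ok))))))) (B (M (nat_lit 426) (B (M (nat_lit 394) (B (L (nat_lit 393) ln13_13_3 ln13_13_3_ok) (L (nat_lit 395) ln14_13_3 ln14_13_3_ok))) (M (nat_lit 462) (B (L (nat_lit 461) ln10_13_0 ln10_13_0_ok) (L (nat_lit 463) ln11_13_0 ln11_13_0_ok))))) (M (nat_lit 426) (B (M (nat_lit 458) (B (L (nat_lit 457) ln13_13_1 ln13_13_1_ok) (L (nat_lit 459) ln14_13_1 ln14_13_1_ok))) (M (nat_lit 462) (B (L (nat_lit 461) ln10_13_0 ln10_13_0_ok) (L (nat_lit 463) ln11_13_0 ln11_13_0_ok))))))))))))) (B (M (nat_lit 427) (B (M (nat_lit 459) (B (M (nat_lit 430) (B (L (nat_lit 458) ln14_13_1 ln14_13_1_ok) (M (nat_lit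 431) (B (L (nat_lit 395) ln15_13_3 ln15_13_3_ok) (L (nat_lit 460) ln15_13_1 ln15_13_1_ok))))) (B (M (nat_lit 460) (B (M (nat_lit 491) (B (L (nat_lit 364) ln12_11_5 ln12_11_5_ok) (L (nat_lit 523) ln11_16_6 ln11_16_6_ok))) (M (nat_lit 430) (B (L (nat_lit 458) ln14_13_1 ln14_13_1_ok) (L (nat_lit 431) ln15_13_1 ln15_13_1_ok))))) (B (M (nat_lit 491) (B (L (nat_lit 523) ln11_16_6 ln11_16_6_ok) (M (nat_lit 364) (B (L (nat_lit 395) ln11_15_6 ln11_15_6_ok) (L (nat_lit 460) ln12_11_5 ln12_11_5_ok))))) (M (nat_lit 395) (B (M (nat_lit 491) (B (L (nat_lit 364) ln11_15_6 ln11_15_6_ok) (L (nat_lit 523) ln11_16_6 ln11_16_6_ok))) (M (nat_lit 430) (B (L (nat_lit 431) ln15_13_3 ln15_13_3_ok) (L (nat_lit 458) ln14_13_1 ln14_13_1_ok))))))))) (B (M (nat_lit 430) (B (M (nat_lit 395) (B (L (nat_lit 394) ln14_13_3 ln14_13_3_ok) (L (nat_lit 431) ln15_13_3 ln15_13_3_ok))) (M (nat_lit 426) (B (M (nat_lit 458)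 (B (L (nat_lit 457) ln13_13_1 ln13_13_1_ok) (L (nat_lit 459) ln14_13_1 ln14_13_1_ok))) (M (nat_lit 462) (B (L (nat_lit 461) ln10_13_0 ln10_13_0_ok) (L (nat_lit 463) ln11_13_0 ln11_13_0_ok))))))) (B (M (nat_lit 461) (B (M (nat_lit 462) (B (L (nat_lit 426) ln10_13_0 ln10_13_0_ok) (M (nat_lit 463) (B (L (nat_lit 430) ln11_13_0 ln11_13_0_ok) (L (nat_lit 460) ln15_14_3 ln15_14_3_ok))))) (B (M (nat_lit 364) (B (L (nat_lit 332) ln12_10_4 ln12_10_4_ok) (M (nat_lit 493) (B (L (nat_lit 460) ln12_11_4 ln12_11_4_ok) (L (nat_lit 525) ln13_16_7 ln13_16_7_ok))))) (M (nat_lit 462) (B (L (nat_lit 426) ln10_13_0 ln10_13_0_ok) (M (nat_lit 463) (B (L (nat_lit 430) ln11_13_0 ln11_13_0_ok) (L (nat_lit 464) ln16_14_3 ln16_14_3_ok)))))))) (M (nat_lit 461) (B (M (nat_lit 462) (B (L (nat_lit 426) ln10_13_0 ln10_13_0_ok) (M (nat_lit 463) (B (L (nat_lit 460) ln15_14_3 ln15_14_3_ok) (L (nat_lit 464) ln16_14_3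 ln16_14_3_ok))))) (M (nat_lit 364) (B (L (nat_lit 332) ln12_10_4 ln12_10_4_ok) (M (nat_lit 493) (B (L (nat_lit 397) ln13_15_7 ln13_15_7_ok) (L (nat_lit 525) ln13_16_7 ln13_16_7_ok))))))))))) (B (M (nat_lit 460) (B (M (nat_lit 459) (B (M (nat_lit 430) (B (L (nat_lit 431) ln15_13_1 ln15_13_1_ok) (M (nat_lit 458) (B (L (nat_lit 427) ln14_13_1 ln14_13_1_ok) (L (nat_lit 457) ln9_14_2 ln9_14_2_ok))))) (B (M (nat_lit 430) (B (L (nat_lit 431) ln15_13_1 ln15_13_1_ok) (M (nat_lit 458) (B (L (nat_lit 457) ln9_14_2 ln9_14_2_ok) (L (nat_lit 461) ln10_14_2 ln10_14_2_ok))))) (M (nat_lit 364) (B (L (nat_lit 491) ln12_11_5 ln12_11_5_ok) (M (nat_lit 332) (B (L (nat_lit 427) ln12_10_5 ln12_10_5_ok) (L (nat_lit 461) ln12_10_4 ln12_10_4_ok)))))))) (B (M (nat_lit 395) (B (M (nat_lit 430) (B (L (nat_lit 431) ln15_13_3 ln15_13_3_ok) (M (nat_lit 394) (B (L (nat_lit 393) ln9_12_0 ln9_12_0_ok) (L (nat_lit 427)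 ln14_13_3 ln14_13_3_ok))))) (B (M (nat_lit 430) (B (L (nat_lit 431) ln15_13_3 ln15_13_3_ok) (M (nat_lit 394) (B (L (nat_lit 397) ln10_12_0 ln10_12_0_ok) (L (nat_lit 427) ln14_13_3 ln14_13_3_ok))))) (M (nat_lit 492) (B (L (nat_lit 363) ln12_15_7 ln12_15_7_ok) (M (nat_lit 397) (B (L (nat_lit 365) ln12_15_6 ln12_15_6_ok) (L (nat_lit 524) ln12_16_6 ln12_16_6_ok)))))))) (B (M (nat_lit 459) (B (M (nat_lit 430) (B (L (nat_lit 431) ln15_13_1 ln15_13_1_ok) (M (nat_lit 458) (B (L (nat_lit 457) ln9_14_2 ln9_14_2_ok) (L (nat_lit 461) ln10_14_2 ln10_14_2_ok))))) (B (M (nat_lit 364) (B (L (nat_lit 491) ln12_11_5 ln12_11_5_ok) (M (nat_lit 461) (B (L (nat_lit 332) ln12_10_4 ln12_10_4_ok) (L (nat_lit 493) ln12_11_4 ln12_11_4_ok))))) (M (nat_lit 492) (B (M (nat_lit 491) (B (L (nat_lit 364) ln12_11_5 ln12_11_5_ok) (L (nat_lit 523) ln12_12_5 ln12_12_5_ok))) (M (nat_lit 397) (B (L (nat_lit 365) ln12_15_6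 ln12_15_6_ok) (L (nat_lit 524) ln12_16_6 ln12_16_6_ok)))))))) (M (nat_lit 364) (B (M (nat_lit 461) (B (L (nat_lit 332) ln12_10_4 ln12_10_4_ok) (L (nat_lit 493) ln12_11_4 ln12_11_4_ok))) (M (nat_lit 365) (B (L (nat_lit 333) ln12_14_6 ln12_14_6_ok) (M (nat_lit 492) (B (L (nat_lit 397) ln12_15_6 ln12_15_6_ok) (M (nat_lit 491) (B (L (nat_lit 459) ln12_11_5 ln12_11_5_ok) (L (nat_lit 523) ln12_12_5 ln12_12_5_ok))))))))))))) (B c41_n764 (B (M (nat_lit 461) (B (M (nat_lit 493) (B (L (nat_lit 525) ln13_16_7 ln13_16_7_ok) (M (nat_lit 364) (B (L (nat_lit 332) ln12_10_4 ln12_10_4_ok) (L (nat_lit 397) ln13_15_7 ln13_15_7_ok))))) (B (M (nat_lit 493) (B (L (nat_lit 525) ln13_16_7 ln13_16_7_ok) (M (nat_lit 364) (B (L (nat_lit 397) ln13_15_7 ln13_15_7_ok) (L (nat_lit 460) ln12_11_4 ln12_11_4_ok))))) (B (M (nat_lit 493) (B (L (nat_lit 525) ln13_16_7 ln13_16_7_ok) (M (nat_lit 397) (B (M (nat_lit 398)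 (B (L (nat_lit 366) ln13_15_6 ln13_15_6_ok) (M (nat_lit 399) (B (L (nat_lit 427) ln15_12_1 ln15_12_1_ok) (L (nat_lit 400) ln16_12_1 ln16_12_1_ok))))) (M (nat_lit 365) (B (M (nat_lit 460) (B (L (nat_lit 333) ln13_10_5 ln13_10_5_ok) (L (nat_lit 492) ln12_15_6 ln12_15_6_ok))) (M (nat_lit 494) (B (L (nat_lit 462) ln13_11_4 ln13_11_4_ok) (L (nat_lit 526) ln13_12_4 ln13_12_4_ok))))))))) (B (M (nat_lit 493) (B (L (nat_lit 525) ln13_16_7 ln13_16_7_ok) (M (nat_lit 364) (B (L (nat_lit 332) ln12_10_4 ln12_10_4_ok) (L (nat_lit 460) ln12_11_4 ln12_11_4_ok))))) (M (nat_lit 364) (B (L (nat_lit 332) ln12_10_4 ln12_10_4_ok) (M (nat_lit 460) (B (M (nat_lit 365) (B (L (nat_lit 333) ln12_14_6 ln12_14_6_ok) (M (nat_lit 492) (B (L (nat_lit 397) ln12_15_6 ln12_15_6_ok) (M (nat_lit 491) (B (L (nat_lit 459) ln12_11_5 ln12_11_5_ok) (L (nat_lit 523) ln12_12_5 ln12_12_5_ok))))))) (B (M (nat_lit 492) (B (M (nat_lit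 491) (B (L (nat_lit 459) ln12_11_5 ln12_11_5_ok) (L (nat_lit 523) ln12_12_5 ln12_12_5_ok))) (M (nat_lit 524) (B (L (nat_lit 397) ln12_16_6 ln12_16_6_ok) (L (nat_lit 556) ln12_17_6 ln12_17_6_ok))))) (B (M (nat_lit 427) (B (M (nat_lit 426) (B (L (nat_lit 425) ln9_13_0 ln9_13_0_ok) (L (nat_lit 462) ln10_13_0 ln10_13_0_ok))) (M (nat_lit 492) (B (M (nat_lit 395) (B (L (nat_lit 363) ln12_15_7 ln12_15_7_ok) (L (nat_lit 524) ln12_16_7 ln12_16_7_ok))) (M (nat_lit 491) (B (L (nat_lit 459) ln12_11_5 ln12_11_5_ok) (L (nat_lit 523) ln12_12_5 ln12_12_5_ok))))))) (B (M (nat_lit 365) (B (L (nat_lit 333) ln12_14_6 ln12_14_6_ok) (M (nat_lit 462) (B (M (nat_lit 397) (B (L (nat_lit 492) ln12_15_6 ln12_15_6_ok) (L (nat_lit 494) ln13_11_4 ln13_11_4_ok))) (M (nat_lit 463) (B (L (nat_lit 427) ln15_14_3 ln15_14_3_ok) (L (nat_lit 464) ln16_14_3 ln16_14_3_ok))))))) (M (nat_lit 462) (B (M (nat_lit 463) (B (L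 (nat_lit 427) ln15_14_3 ln15_14_3_ok) (L (nat_lit 464) ln16_14_3 ln16_14_3_ok))) (M (nat_lit 494) (B (M (nat_lit 365) (B (L (nat_lit 333) ln12_14_6 ln12_14_6_ok) (L (nat_lit 397) ln13_11_4 ln13_11_4_ok))) (M (nat_lit 459) (B (L (nat_lit 491) ln12_11_5 ln12_11_5_ok) (L (nat_lit 495) ln11_14_0 ln11_14_0_ok))))))))))))))))))) (B c41_n656 (B (M (nat_lit 430) (B (M (nat_lit 395) (B (L (nat_lit 431) ln15_13_3 ln15_13_3_ok) (M (nat_lit 394) (B (L (nat_lit 393) ln9_12_0 ln9_12_0_ok) (L (nat_lit 397) ln10_12_0 ln10_12_0_ok))))) (B (M (nat_lit 395) (B (L (nat_lit 431) ln15_13_3 ln15_13_3_ok) (M (nat_lit 394) (B (L (nat_lit 397) ln10_12_0 ln10_12_0_ok) (L (nat_lit 427) ln14_13_3 ln14_13_3_ok))))) (B (M (nat_lit 431) (B (L (nat_lit 395) ln15_13_3 ln15_13_3_ok) (M (nat_lit 427) (B (M (nat_lit 399) (B (L (nat_lit 398) ln11_13_2 ln11_13_2_ok) (L (nat_lit 400) ln12_13_2 ln12_13_2_ok))) (M (nat_lit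 463) (B (L (nat_lit 462) ln11_13_0 ln11_13_0_ok) (L (nat_lit 464) ln12_13_0 ln12_13_0_ok))))))) (B (M (nat_lit 461) (B (M (nat_lit 364) (B (L (nat_lit 332) ln12_10_4 ln12_10_4_ok) (M (nat_lit 493) (B (L (nat_lit 397) ln13_15_7 ln13_15_7_ok) (L (nat_lit 525) ln13_16_7 ln13_16_7_ok))))) (B (M (nat_lit 427) (B (M (nat_lit 462) (B (L (nat_lit 426) ln10_13_0 ln10_13_0_ok) (L (nat_lit 463) ln11_13_0 ln11_13_0_ok))) (B (M (nat_lit 431) (B (M (nat_lit 399) (B (L (nat_lit 398) ln11_13_2 ln11_13_2_ok) (L (nat_lit 400) ln12_13_2 ln12_13_2_ok))) (M (nat_lit 463) (B (L (nat_lit 462) ln11_13_0 ln11_13_0_ok) (L (nat_lit 464) ln12_13_0 ln12_13_0_ok))))) (M (nat_lit 426) (B (M (nat_lit 397) (B (L (nat_lit 425) ln9_13_2 ln9_13_2_ok) (L (nat_lit 398) ln10_13_2 ln10_13_2_ok))) (M (nat_lit 458) (B (L (nat_lit 457) ln13_13_1 ln13_13_1_ok) (L (nat_lit 459) ln14_13_1 ln14_13_1_ok)))))))) (M (nat_lit 398)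 (B (M (nat_lit 493) (B (L (nat_lit 525) ln13_16_7 ln13_16_7_ok) (M (nat_lit 366) (B (L (nat_lit 334) ln14_10_5 ln14_10_5_ok) (L (nat_lit 462) ln14_11_5 ln14_11_5_ok))))) (M (nat_lit 399) (B (L (nat_lit 427) ln11_13_2 ln11_13_2_ok) (M (nat_lit 400) (B (L (nat_lit 401) ln17_12_1 ln17_12_1_ok) (L (nat_lit 431) ln12_13_2 ln12_13_2_ok)))))))))) (M (nat_lit 395) (B (M (nat_lit 394) (B (L (nat_lit 393) ln9_12_0 ln9_12_0_ok) (L (nat_lit 397) ln10_12_0 ln10_12_0_ok))) (B (M (nat_lit 394) (B (L (nat_lit 397) ln10_12_0 ln10_12_0_ok) (L (nat_lit 427) ln14_13_3 ln14_13_3_ok))) (B (M (nat_lit 427) (B (M (nat_lit 459) (B (L (nat_lit 458) ln14_13_1 ln14_13_1_ok) (M (nat_lit 364) (B (L (nat_lit 332) ln12_10_5 ln12_10_5_ok) (L (nat_lit 491) ln11_15_6 ln11_15_6_ok))))) (M (nat_lit 426) (B (M (nat_lit 398) (B (L (nat_lit 397) ln14_12_1 ln14_12_1_ok) (L (nat_lit 399) ln11_13_2 ln11_13_2_ok))) (M (nat_lit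 462) (B (L (nat_lit 461) ln10_13_0 ln10_13_0_ok) (L (nat_lit 463) ln11_13_0 ln11_13_0_ok))))))) (M (nat_lit 394) (B (L (nat_lit 393) ln9_12_0 ln9_12_0_ok) (L (nat_lit 427) ln14_13_3 ln14_13_3_ok)))))))))))) (M (nat_lit 430) (B (M (nat_lit 395) (B (L (nat_lit 431) ln15_13_3 ln15_13_3_ok) (M (nat_lit 394) (B (L (nat_lit 397) ln10_12_0 ln10_12_0_ok) (L (nat_lit 427) ln14_13_3 ln14_13_3_ok))))) (B (M (nat_lit 431) (B (L (nat_lit 395) ln15_13_3 ln15_13_3_ok) (M (nat_lit 400) (B (L (nat_lit 399) ln12_13_2 ln12_13_2_ok) (M (nat_lit 432) (B (L (nat_lit 397) ln16_13_3 ln16_13_3_ok) (L (nat_lit 401) ln13_13_2 ln13_13_2_ok))))))) (B (M (nat_lit 431) (B (M (nat_lit 400) (B (L (nat_lit 399) ln12_13_2 ln12_13_2_ok) (M (nat_lit 432) (B (L (nat_lit 397) ln16_13_3 ln16_13_3_ok) (L (nat_lit 401) ln13_13_2 ln13_13_2_ok))))) (M (nat_lit 427) (B (M (nat_lit 459) (B (L (nat_lit 458) ln14_13_1 ln14_13_1_ok)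 (L (nat_lit 460) ln15_13_1 ln15_13_1_ok))) (M (nat_lit 463) (B (L (nat_lit 462) ln11_13_0 ln11_13_0_ok) (L (nat_lit 464) ln12_13_0 ln12_13_0_ok))))))) (B (M (nat_lit 395) (B (L (nat_lit 431) ln15_13_3 ln15_13_3_ok) (M (nat_lit 394) (B (L (nat_lit 393) ln9_12_0 ln9_12_0_ok) (L (nat_lit 427) ln14_13_3 ln14_13_3_ok))))) (M (nat_lit 427) (B (M (nat_lit 395) (B (L (nat_lit 394) ln14_13_3 ln14_13_3_ok) (M (nat_lit 459) (B (L (nat_lit 458) ln14_13_1 ln14_13_1_ok) (M (nat_lit 364) (B (L (nat_lit 332) ln12_10_5 ln12_10_5_ok) (L (nat_lit 491) ln11_15_6 ln11_15_6_ok))))))) (B (M (nat_lit 426) (B (M (nat_lit 397) (B (L (nat_lit 425) ln9_13_2 ln9_13_2_ok) (L (nat_lit 398) ln10_13_2 ln10_13_2_ok))) (M (nat_lit 458) (B (L (nat_lit 457) ln13_13_1 ln13_13_1_ok) (L (nat_lit 459) ln14_13_1 ln14_13_1_ok))))) (M (nat_lit 426) (B (M (nat_lit 394) (B (L (nat_lit 393) ln13_13_3 ln13_13_3_ok) (L (nat_lit 395)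 ln14_13_3 ln14_13_3_ok))) (M (nat_lit 397) (B (L (nat_lit 425) ln9_13_2 ln9_13_2_ok) (L (nat_lit 398) ln10_13_2 ln10_13_2_ok)))))))))))))))))))))))))) (nat_lit 1386334847221798047169638878925036799968406779833514899637066259859226863686603287896039777716422623628704219945445734162783797248) (nat_lit 235872651963234194321127316268038632277888826655534174610800078384086923759063663978887807319258850668245001434519561577071972392347722457556538542665686999777396391936) (nat_lit 235872651963234194321127316268038632277888826655534174610800078384086923759063663978887807319258850668245001434519561577071972392347722457556538542665686999777396391936) (by decide +kernel)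
noncomputable def c41_n884 : Cert := (M (nat_lit 461) (B (M (nat_lit 493) (B (L (nat_lit 525) ln13_16_7 ln13_16_7_ok) (M (nat_lit 364) (B (L (nat_lit 397) ln13_15_7 ln13_15_7_ok) (L (nat_lit 460) ln12_11_4 ln12_11_4_ok))))) (B (M (nat_lit 493) (B (L (nat_lit 525) ln13_16_7 ln13_16_7_ok) (M (nat_lit 397) (B (M (nat_lit 398) (B (L (nat_lit 366) ln13_15_6 ln13_15_6_ok) (M (nat_lit 399) (B (L (nat_lit 427) ln15_12_1 ln15_12_1_ok) (L (nat_lit 400) ln16_12_1 ln16_12_1_ok))))) (M (nat_lit 365) (B (M (nat_lit 333) (B (L (nat_lit 301) ln13_9_5 ln13_9_5_ok) (L (nat_lit 460) ln13_10_5 ln13_10_5_ok))) (M (nat_lit 494) (B (L (nat_lit 462) ln13_11_4 ln13_11_4_ok) (L (nat_lit 526) ln13_12_4 ln13_12_4_ok))))))))) (B (M (nat_lit 493) (B (L (nat_lit 525) ln13_16_7 ln13_16_7_ok) (M (nat_lit 430) (B (M (nat_lit 460) (B (L (nat_lit 364) ln12_11_4 ln12_11_4_ok) (M (nat_lit 431) (B (L (nat_lit 459) ln15_13_1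 ln15_13_1_ok) (L (nat_lit 432) ln16_13_1 ln16_13_1_ok))))) (B (M (nat_lit 398) (B (M (nat_lit 366) (B (L (nat_lit 334) ln14_10_5 ln14_10_5_ok) (L (nat_lit 462) ln14_11_5 ln14_11_5_ok))) (M (nat_lit 399) (B (L (nat_lit 427) ln11_13_2 ln11_13_2_ok) (M (nat_lit 400) (B (L (nat_lit 401) ln17_12_1 ln17_12_1_ok) (L (nat_lit 431) ln12_13_2 ln12_13_2_ok))))))) (M (nat_lit 427) (B (M (nat_lit 462) (B (L (nat_lit 426) ln10_13_0 ln10_13_0_ok) (L (nat_lit 463) ln11_13_0 ln11_13_0_ok))) (B (M (nat_lit 462) (B (L (nat_lit 463) ln11_13_0 ln11_13_0_ok) (M (nat_lit 398) (B (L (nat_lit 366) ln14_11_5 ln14_11_5_ok) (L (nat_lit 399) ln11_13_2 ln11_13_2_ok))))) (M (nat_lit 426) (B (M (nat_lit 460) (B (L (nat_lit 364) ln12_11_4 ln12_11_4_ok) (L (nat_lit 425) ln9_13_0 ln9_13_0_ok))) (M (nat_lit 458) (B (L (nat_lit 457) ln13_13_1 ln13_13_1_ok) (L (nat_lit 459) ln14_13_1 ln14_13_1_ok))))))))))))) (B (M (nat_lit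 493) (B (L (nat_lit 525) ln13_16_7 ln13_16_7_ok) (M (nat_lit 397) (B (L (nat_lit 364) ln13_15_7 ln13_15_7_ok) (M (nat_lit 398) (B (L (nat_lit 366) ln13_15_6 ln13_15_6_ok) (M (nat_lit 399) (B (L (nat_lit 427) ln15_12_1 ln15_12_1_ok) (L (nat_lit 400) ln16_12_1 ln16_12_1_ok))))))))) (M (nat_lit 427) (B (M (nat_lit 462) (B (L (nat_lit 426) ln10_13_0 ln10_13_0_ok) (M (nat_lit 463) (B (L (nat_lit 430) ln11_13_0 ln11_13_0_ok) (L (nat_lit 464) ln16_14_3 ln16_14_3_ok))))) (B (M (nat_lit 459) (B (M (nat_lit 430) (B (L (nat_lit 458) ln14_13_1 ln14_13_1_ok) (M (nat_lit 460) (B (L (nat_lit 431) ln15_13_1 ln15_13_1_ok) (M (nat_lit 491) (B (L (nat_lit 364) ln12_11_5 ln12_11_5_ok) (L (nat_lit 523) ln11_16_6 ln11_16_6_ok))))))) (B (M (nat_lit 430) (B (L (nat_lit 458) ln14_13_1 ln14_13_1_ok) (M (nat_lit 431) (B (L (nat_lit 460) ln15_13_1 ln15_13_1_ok) (M (nat_lit 399) (B (L (nat_lit 398) ln11_13_2 ln11_13_2_ok)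 (L (nat_lit 400) ln12_13_2 ln12_13_2_ok))))))) (B (M (nat_lit 491) (B (L (nat_lit 523) ln11_16_6 ln11_16_6_ok) (M (nat_lit 460) (B (L (nat_lit 364) ln12_11_5 ln12_11_5_ok) (M (nat_lit 462) (B (L (nat_lit 463) ln15_14_3 ln15_14_3_ok) (L (nat_lit 490) ln14_14_1 ln14_14_1_ok))))))) (M (nat_lit 430) (B (L (nat_lit 458) ln14_13_1 ln14_13_1_ok) (M (nat_lit 431) (B (M (nat_lit 399) (B (L (nat_lit 398) ln11_13_2 ln11_13_2_ok) (L (nat_lit 400) ln12_13_2 ln12_13_2_ok))) (M (nat_lit 463) (B (L (nat_lit 462) ln11_13_0 ln11_13_0_ok) (L (nat_lit 464) ln12_13_0 ln12_13_0_ok))))))))))) (B (M (nat_lit 462) (B (L (nat_lit 426) ln10_13_0 ln10_13_0_ok) (M (nat_lit 463) (B (L (nat_lit 460) ln15_14_3 ln15_14_3_ok) (L (nat_lit 464) ln16_14_3 ln16_14_3_ok))))) (M (nat_lit 430) (B (M (nat_lit 398) (B (L (nat_lit 399) ln11_13_2 ln11_13_2_ok) (M (nat_lit 426) (B (L (nat_lit 397) ln10_13_2 ln10_13_2_ok) (M (nat_lit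 458) (B (L (nat_lit 457) ln13_13_1 ln13_13_1_ok) (L (nat_lit 459) ln14_13_1 ln14_13_1_ok))))))) (B (M (nat_lit 431) (B (M (nat_lit 399) (B (L (nat_lit 398) ln11_13_2 ln11_13_2_ok) (L (nat_lit 400) ln12_13_2 ln12_13_2_ok))) (M (nat_lit 459) (B (L (nat_lit 458) ln14_13_1 ln14_13_1_ok) (L (nat_lit 460) ln15_13_1 ln15_13_1_ok))))) (B (M (nat_lit 459) (B (L (nat_lit 458) ln14_13_1 ln14_13_1_ok) (M (nat_lit 460) (B (L (nat_lit 431) ln15_13_1 ln15_13_1_ok) (M (nat_lit 491) (B (L (nat_lit 364) ln12_11_5 ln12_11_5_ok) (L (nat_lit 523) ln11_16_6 ln11_16_6_ok))))))) (M (nat_lit 431) (B (M (nat_lit 399) (B (L (nat_lit 398) ln11_13_2 ln11_13_2_ok) (L (nat_lit 400) ln12_13_2 ln12_13_2_ok))) (M (nat_lit 432) (B (L (nat_lit 397) ln16_13_3 ln16_13_3_ok) (L (nat_lit 460) ln16_13_1 ln16_13_1_ok))))))))))))))))))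
noncomputable def c41_n1018 : Cert := (M (nat_lit 397) (B (M (nat_lit 365) (B (M (nat_lit 333) (B (L (nat_lit 301) ln13_9_5 ln13_9_5_ok) (L (nat_lit 460) ln13_10_5 ln13_10_5_ok))) (B (M (nat_lit 460) (B (L (nat_lit 333) ln13_10_5 ln13_10_5_ok) (L (nat_lit 492) ln12_15_6 ln12_15_6_ok))) (M (nat_lit 366) (B (L (nat_lit 334) ln13_14_6 ln13_14_6_ok) (M (nat_lit 395) (B (L (nat_lit 394) ln10_12_2 ln10_12_2_ok) (M (nat_lit 367) (B (L (nat_lit 368) ln16_11_1 ln16_11_1_ok) (L (nat_lit 398) ln11_12_2 ln11_12_2_ok)))))))))) (B (M (nat_lit 365) (B (M (nat_lit 460) (B (L (nat_lit 333) ln13_10_5 ln13_10_5_ok) (L (nat_lit 492) ln12_15_6 ln12_15_6_ok))) (M (nat_lit 366) (B (L (nat_lit 334) ln13_14_6 ln13_14_6_ok) (M (nat_lit 395) (B (L (nat_lit 394) ln10_12_2 ln10_12_2_ok) (M (nat_lit 367) (B (L (nat_lit 368) ln16_11_1 ln16_11_1_ok) (L (nat_lit 398) ln11_12_2 ln11_12_2_ok))))))))) (B (M (nat_lit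 395) (B (M (nat_lit 394) (B (L (nat_lit 393) ln9_12_0 ln9_12_0_ok) (L (nat_lit 430) ln10_12_0 ln10_12_0_ok))) (B (M (nat_lit 430) (B (L (nat_lit 394) ln10_12_0 ln10_12_0_ok) (L (nat_lit 431) ln15_13_3 ln15_13_3_ok))) (B (M (nat_lit 398) (B (M (nat_lit 399) (B (L (nat_lit 400) ln16_12_1 ln16_12_1_ok) (M (nat_lit 363) (B (L (nat_lit 362) ln14_12_3 ln14_12_3_ok) (L (nat_lit 364) ln15_12_3 ln15_12_3_ok))))) (M (nat_lit 430) (B (L (nat_lit 431) ln11_12_0 ln11_12_0_ok) (M (nat_lit 366) (B (L (nat_lit 334) ln14_10_5 ln14_10_5_ok) (L (nat_lit 367) ln11_12_2 ln11_12_2_ok))))))) (M (nat_lit 398) (B (M (nat_lit 366) (B (L (nat_lit 367) ln11_12_2 ln11_12_2_ok) (M (nat_lit 394) (B (L (nat_lit 365) ln10_12_2 ln10_12_2_ok) (L (nat_lit 393) ln9_12_0 ln9_12_0_ok))))) (M (nat_lit 399) (B (L (nat_lit 400) ln16_12_1 ln16_12_1_ok) (M (nat_lit 363) (B (L (nat_lit 362) ln14_12_3 ln14_12_3_ok) (L (nat_lit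 364) ln15_12_3 ln15_12_3_ok))))))))))) (B (M (nat_lit 460) (B (M (nat_lit 365) (B (L (nat_lit 333) ln13_10_5 ln13_10_5_ok) (L (nat_lit 492) ln12_15_6 ln12_15_6_ok))) (B (M (nat_lit 492) (B (L (nat_lit 365) ln12_15_6 ln12_15_6_ok) (L (nat_lit 524) ln12_16_6 ln12_16_6_ok))) (B (M (nat_lit 492) (B (L (nat_lit 524) ln12_16_6 ln12_16_6_ok) (M (nat_lit 459) (B (M (nat_lit 491) (B (L (nat_lit 364) ln12_11_5 ln12_11_5_ok) (L (nat_lit 523) ln12_12_5 ln12_12_5_ok))) (M (nat_lit 458) (B (L (nat_lit 457) ln9_14_2 ln9_14_2_ok) (L (nat_lit 430) ln10_14_2 ln10_14_2_ok))))))) (M (nat_lit 459) (B (M (nat_lit 430) (B (L (nat_lit 431) ln15_13_1 ln15_13_1_ok) (L (nat_lit 458) ln10_14_2 ln10_14_2_ok))) (M (nat_lit 462) (B (M (nat_lit 365) (B (L (nat_lit 333) ln13_10_5 ln13_10_5_ok) (L (nat_lit 494) ln13_11_4 ln13_11_4_ok))) (M (nat_lit 491) (B (L (nat_lit 364) ln12_11_5 ln12_11_5_ok) (L (nat_lit 490) ln14_14_1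 ln14_14_1_ok))))))))))) (M (nat_lit 395) (B (M (nat_lit 394) (B (L (nat_lit 393) ln9_12_0 ln9_12_0_ok) (L (nat_lit 430) ln10_12_0 ln10_12_0_ok))) (B (M (nat_lit 430) (B (L (nat_lit 394) ln10_12_0 ln10_12_0_ok) (L (nat_lit 431) ln15_13_3 ln15_13_3_ok))) (B (M (nat_lit 398) (B (M (nat_lit 399) (B (L (nat_lit 400) ln16_12_1 ln16_12_1_ok) (M (nat_lit 363) (B (L (nat_lit 362) ln14_12_3 ln14_12_3_ok) (L (nat_lit 364) ln15_12_3 ln15_12_3_ok))))) (M (nat_lit 430) (B (L (nat_lit 431) ln11_12_0 ln11_12_0_ok) (M (nat_lit 366) (B (L (nat_lit 334) ln14_10_5 ln14_10_5_ok) (L (nat_lit 367) ln11_12_2 ln11_12_2_ok))))))) (M (nat_lit 398) (B (M (nat_lit 399) (B (L (nat_lit 400) ln16_12_1 ln16_12_1_ok) (M (nat_lit 363) (B (L (nat_lit 362) ln14_12_3 ln14_12_3_ok) (L (nat_lit 364) ln15_12_3 ln15_12_3_ok))))) (B (M (nat_lit 399) (B (L (nat_lit 400) ln16_12_1 ln16_12_1_ok) (M (nat_lit 367) (B (L (nat_lit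 366) ln11_12_2 ln11_12_2_ok) (L (nat_lit 368) ln12_12_2 ln12_12_2_ok))))) (M (nat_lit 394) (B (L (nat_lit 393) ln9_12_0 ln9_12_0_ok) (M (nat_lit 362) (B (L (nat_lit 361) ln13_12_3 ln13_12_3_ok) (L (nat_lit 363) ln14_12_3 ln14_12_3_ok)))))))))))))))))
theorem c41_s1019 : Sem (nat_lit 2079502270752001762064242424960807725827516048677469043429686155012882190638009693656033379242457518153052022685796627120027336704) (nat_lit 825554280841600030509773433518590686442853084003241344101240389713764169725776775140664228230779501648115878695842772027396498489502195671470684743585128367937413971968) (nat_lit 825554280841600030509773433518590686442853084003241344101240389713764169725776775140664228230779501648115878695842772027396498489502195671470684743585128367937413971968) :=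
  sem_of_chk (M (nat_lit 461) (B (M (nat_lit 493) (B (L (nat_lit 525) ln13_16_7 ln13_16_7_ok) (M (nat_lit 364) (B (L (nat_lit 397) ln13_15_7 ln13_15_7_ok) (L (nat_lit 460) ln12_11_4 ln12_11_4_ok))))) (B (M (nat_lit 493) (B (L (nat_lit 525) ln13_16_7 ln13_16_7_ok) (M (nat_lit 397) (B (M (nat_lit 492) (B (L (nat_lit 524) ln13_12_5 ln13_12_5_ok) (M (nat_lit 365) (B (L (nat_lit 460) ln12_15_6 ln12_15_6_ok) (M (nat_lit 494) (B (L (nat_lit 462) ln13_11_4 ln13_11_4_ok) (L (nat_lit 526) ln13_12_4 ln13_12_4_ok))))))) (B (M (nat_lit 395) (B (M (nat_lit 430) (B (L (nat_lit 394) ln10_12_0 ln10_12_0_ok) (L (nat_lit 431) ln15_13_3 ln15_13_3_ok))) (M (nat_lit 363) (B (M (nat_lit 398) (B (L (nat_lit 362) ln14_12_3 ln14_12_3_ok) (L (nat_lit 366) ln13_15_6 ln13_15_6_ok))) (M (nat_lit 492) (B (L (nat_lit 460) ln12_15_7 ln12_15_7_ok) (L (nat_lit 524) ln13_12_5 ln13_12_5_ok))))))) (M (nat_lit 365) (B (M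 (nat_lit 366) (B (L (nat_lit 334) ln13_14_6 ln13_14_6_ok) (L (nat_lit 398) ln13_15_6 ln13_15_6_ok))) (M (nat_lit 494) (B (L (nat_lit 462) ln13_11_4 ln13_11_4_ok) (L (nat_lit 526) ln13_12_4 ln13_12_4_ok)))))))))) (B (M (nat_lit 460) (B (M (nat_lit 493) (B (L (nat_lit 364) ln12_11_4 ln12_11_4_ok) (L (nat_lit 525) ln13_16_7 ln13_16_7_ok))) (B (M (nat_lit 492) (B (M (nat_lit 525) (B (L (nat_lit 493) ln13_16_7 ln13_16_7_ok) (M (nat_lit 524) (B (L (nat_lit 557) ln12_13_4 ln12_13_4_ok) (L (nat_lit 556) ln12_17_6 ln12_17_6_ok))))) (B (M (nat_lit 524) (B (L (nat_lit 556) ln12_17_6 ln12_17_6_ok) (M (nat_lit 523) (B (L (nat_lit 491) ln12_12_5 ln12_12_5_ok) (L (nat_lit 555) ln12_13_5 ln12_13_5_ok))))) (M (nat_lit 493) (B (L (nat_lit 525) ln13_16_7 ln13_16_7_ok) (M (nat_lit 491) (B (L (nat_lit 523) ln12_12_5 ln12_12_5_ok) (M (nat_lit 462) (B (L (nat_lit 463) ln15_14_1 ln15_14_1_ok) (L (nat_lit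 490) ln10_15_2 ln10_15_2_ok)))))))))) (M (nat_lit 459) (B (M (nat_lit 430) (B (L (nat_lit 431) ln15_13_1 ln15_13_1_ok) (L (nat_lit 458) ln10_14_2 ln10_14_2_ok))) (M (nat_lit 491) (B (L (nat_lit 364) ln12_11_5 ln12_11_5_ok) (M (nat_lit 523) (B (L (nat_lit 492) ln12_12_5 ln12_12_5_ok) (L (nat_lit 555) ln11_17_6 ln11_17_6_ok)))))))))) (B (M (nat_lit 493) (B (L (nat_lit 525) ln13_16_7 ln13_16_7_ok) (M (nat_lit 397) (B (L (nat_lit 364) ln13_15_7 ln13_15_7_ok) (M (nat_lit 365) (B (M (nat_lit 366) (B (L (nat_lit 334) ln13_14_6 ln13_14_6_ok) (L (nat_lit 398) ln13_15_6 ln13_15_6_ok))) (M (nat_lit 494) (B (L (nat_lit 462) ln13_11_4 ln13_11_4_ok) (L (nat_lit 526) ln13_12_4 ln13_12_4_ok))))))))) c41_n1018))))) (nat_lit 2079502270752001762064242424960807725827516048677469043429686155012882190638009693656033379242457518153052022685796627120027336704) (nat_lit 825554280841600030509773433518590686442853084003241344101240389713764169725776775140664228230779501648115878695842772027396498489502195671470684743585128367937413971968)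 (nat_lit 825554280841600030509773433518590686442853084003241344101240389713764169725776775140664228230779501648115878695842772027396498489502195671470684743585128367937413971968) (by decide +kernel)
noncomputable def c41_n1093 : Cert := (M (nat_lit 460) (B (M (nat_lit 492) (B (M (nat_lit 397) (B (L (nat_lit 365) ln12_15_6 ln12_15_6_ok) (L (nat_lit 524) ln12_16_6 ln12_16_6_ok))) (B (M (nat_lit 524) (B (L (nat_lit 397) ln12_16_6 ln12_16_6_ok) (L (nat_lit 556) ln12_17_6 ln12_17_6_ok))) (B (M (nat_lit 524) (B (L (nat_lit 556) ln12_17_6 ln12_17_6_ok) (M (nat_lit 523) (B (L (nat_lit 491) ln12_12_5 ln12_12_5_ok) (L (nat_lit 555) ln12_13_5 ln12_13_5_ok))))) (M (nat_lit 364) (B (M (nat_lit 363) (B (L (nat_lit 331) ln12_14_7 ln12_14_7_ok) (L (nat_lit 395) ln12_15_7 ln12_15_7_ok))) (M (nat_lit 491) (B (L (nat_lit 459) ln12_11_5 ln12_11_5_ok) (L (nat_lit 523) ln12_12_5 ln12_12_5_ok))))))))) (B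 (M (nat_lit 492) (B (M (nat_lit 397) (B (L (nat_lit 365) ln12_15_6 ln12_15_6_ok) (L (nat_lit 524) ln12_16_6 ln12_16_6_ok))) (B (M (nat_lit 524) (B (L (nat_lit 397) ln12_16_6 ln12_16_6_ok) (L (nat_lit 556) ln12_17_6 ln12_17_6_ok))) (B (M (nat_lit 524) (B (L (nat_lit 556) ln12_17_6 ln12_17_6_ok) (M (nat_lit 523) (B (L (nat_lit 491) ln12_12_5 ln12_12_5_ok) (L (nat_lit 555) ln12_13_5 ln12_13_5_ok))))) (M (nat_lit 364) (B (M (nat_lit 365) (B (L (nat_lit 333) ln12_14_6 ln12_14_6_ok) (L (nat_lit 397) ln12_15_6 ln12_15_6_ok))) (M (nat_lit 491) (B (L (nat_lit 459) ln12_11_5 ln12_11_5_ok) (L (nat_lit 523) ln12_12_5 ln12_12_5_ok))))))))) (B (M (nat_lit 397) (B (M (nat_lit 365) (B (L (nat_lit 333) ln13_10_5 ln13_10_5_ok) (L (nat_lit 492) ln12_15_6 ln12_15_6_ok))) (B (M (nat_lit 492) (B (L (nat_lit 365) ln12_15_6 ln12_15_6_ok) (L (nat_lit 524) ln12_16_6 ln12_16_6_ok))) (B (M (nat_lit 395) (B (M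 (nat_lit 492) (B (L (nat_lit 363) ln12_15_7 ln12_15_7_ok) (L (nat_lit 524) ln12_16_6 ln12_16_6_ok))) (M (nat_lit 426) (B (M (nat_lit 394) (B (L (nat_lit 393) ln9_12_0 ln9_12_0_ok) (L (nat_lit 425) ln13_12_1 ln13_12_1_ok))) (M (nat_lit 427) (B (L (nat_lit 398) ln14_12_1 ln14_12_1_ok) (L (nat_lit 462) ln10_13_0 ln10_13_0_ok))))))) (M (nat_lit 462) (B (M (nat_lit 365) (B (L (nat_lit 333) ln13_10_5 ln13_10_5_ok) (L (nat_lit 494) ln13_11_4 ln13_11_4_ok))) (M (nat_lit 463) (B (L (nat_lit 427) ln15_14_3 ln15_14_3_ok) (L (nat_lit 464) ln16_14_3 ln16_14_3_ok))))))))) (B (M (nat_lit 492) (B (M (nat_lit 524) (B (L (nat_lit 556) ln12_17_6 ln12_17_6_ok) (M (nat_lit 523) (B (L (nat_lit 491) ln12_12_5 ln12_12_5_ok) (L (nat_lit 555) ln12_13_5 ln12_13_5_ok))))) (B (M (nat_lit 395) (B (L (nat_lit 363) ln12_15_7 ln12_15_7_ok) (M (nat_lit 524) (B (L (nat_lit 427) ln12_16_7 ln12_16_7_ok) (L (nat_lit 556)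 ln12_17_6 ln12_17_6_ok))))) (M (nat_lit 364) (B (M (nat_lit 363) (B (L (nat_lit 331) ln12_14_7 ln12_14_7_ok) (L (nat_lit 395) ln12_15_7 ln12_15_7_ok))) (M (nat_lit 491) (B (L (nat_lit 459) ln12_11_5 ln12_11_5_ok) (L (nat_lit 523) ln12_12_5 ln12_12_5_ok)))))))) (M (nat_lit 462) (B (M (nat_lit 427) (B (L (nat_lit 426) ln10_13_0 ln10_13_0_ok) (L (nat_lit 463) ln15_14_3 ln15_14_3_ok))) (B (M (nat_lit 463) (B (L (nat_lit 427) ln15_14_3 ln15_14_3_ok) (L (nat_lit 464) ln16_14_3 ln16_14_3_ok))) (B (M (nat_lit 463) (B (L (nat_lit 464) ln16_14_3 ln16_14_3_ok) (M (nat_lit 459) (B (M (nat_lit 491) (B (L (nat_lit 364) ln12_11_5 ln12_11_5_ok) (L (nat_lit 490) ln14_14_1 ln14_14_1_ok))) (M (nat_lit 495) (B (L (nat_lit 494) ln11_14_0 ln11_14_0_ok) (L (nat_lit 496) ln12_14_0 ln12_14_0_ok))))))) (M (nat_lit 426) (B (L (nat_lit 427) ln10_13_0 ln10_13_0_ok) (M (nat_lit 459) (B (M (nat_lit 458) (B (L (nat_lit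 425) ln13_14_3 ln13_14_3_ok) (L (nat_lit 457) ln9_14_2 ln9_14_2_ok))) (M (nat_lit 491) (B (L (nat_lit 364) ln12_11_5 ln12_11_5_ok) (L (nat_lit 490) ln14_14_1 ln14_14_1_ok))))))))))))))))
theorem c41_s1094 : Sem (nat_lit 2079502270752001762064242424960807725827516048677469043429686155012882190638009693656033379242457518153052022685796627120027336704) (nat_lit 353808977738907361786459480432954478019699871121040679819154663106038345635614360571940626368463712384764944641713318130310559955048911028979880322603327950753567342592) (nat_lit 353808977738907361786459480432954478019699871121040679819154663106038345635614360571940626368463712384764944641713318130310559955048911028979880322603327950753567342592) :=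
  sem_of_chk (M (nat_lit 461) (B (M (nat_lit 493) (B (L (nat_lit 525) ln13_16_7 ln13_16_7_ok) (M (nat_lit 364) (B (L (nat_lit 397) ln13_15_7 ln13_15_7_ok) (L (nat_lit 460) ln12_11_4 ln12_11_4_ok))))) (B (M (nat_lit 493) (B (L (nat_lit 525) ln13_16_7 ln13_16_7_ok) (M (nat_lit 397) (B (M (nat_lit 398) (B (L (nat_lit 366) ln13_15_6 ln13_15_6_ok) (M (nat_lit 399) (B (L (nat_lit 427) ln15_12_1 ln15_12_1_ok) (L (nat_lit 400) ln16_12_1 ln16_12_1_ok))))) (M (nat_lit 365) (B (M (nat_lit 333) (B (L (nat_lit 301) ln13_9_5 ln13_9_5_ok) (L (nat_lit 460) ln13_10_5 ln13_10_5_ok))) (M (nat_lit 494) (B (L (nat_lit 462) ln13_11_4 ln13_11_4_ok) (L (nat_lit 526) ln13_12_4 ln13_12_4_ok))))))))) (B (M (nat_lit 493) (B (L (nat_lit 525) ln13_16_7 ln13_16_7_ok) (M (nat_lit 460) (B (L (nat_lit 364) ln12_11_4 ln12_11_4_ok) (M (nat_lit 492) (B (M (nat_lit 491) (B (L (nat_lit 523) ln12_12_5 ln12_12_5_ok) (M (nat_lit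 462) (B (L (nat_lit 463) ln15_14_1 ln15_14_1_ok) (L (nat_lit 490) ln10_15_2 ln10_15_2_ok))))) (M (nat_lit 395) (B (L (nat_lit 363) ln12_15_7 ln12_15_7_ok) (M (nat_lit 524) (B (L (nat_lit 427) ln12_16_7 ln12_16_7_ok) (L (nat_lit 556) ln12_17_6 ln12_17_6_ok))))))))))) (B (M (nat_lit 493) (B (L (nat_lit 525) ln13_16_7 ln13_16_7_ok) (M (nat_lit 397) (B (L (nat_lit 364) ln13_15_7 ln13_15_7_ok) (M (nat_lit 398) (B (L (nat_lit 366) ln13_15_6 ln13_15_6_ok) (M (nat_lit 399) (B (L (nat_lit 427) ln15_12_1 ln15_12_1_ok) (L (nat_lit 400) ln16_12_1 ln16_12_1_ok))))))))) c41_n1093))))) (nat_lit 2079502270752001762064242424960807725827516048677469043429686155012882190638009693656033379242457518153052022685796627120027336704) (nat_lit 353808977738907361786459480432954478019699871121040679819154663106038345635614360571940626368463712384764944641713318130310559955048911028979880322603327950753567342592)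 (nat_lit 353808977738907361786459480432954478019699871121040679819154663106038345635614360571940626368463712384764944641713318130310559955048911028979880322603327950753567342592) (by decide +kernel)
theorem c41_s1202 : Sem (nat_lit 2079502270752001762064242424960807725827516048677469043429686155012882190638009693656033379242457518153052022685796627120027336704) (nat_lit 109836762651596529966661615919562991214787687239965145277264418673352887873496669995068894604292877109271158671327103009968534127997739493677599164136519892992) (nat_lit 109836762651596529966661615919562991214787687239965145277264418673352887873496669995068894604292877109271158671327103009968534127997739493677599164136519892992) :=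
  sem_of_chk (M (nat_lit 397) (B (M (nat_lit 461) (B (M (nat_lit 493) (B (L (nat_lit 364) ln13_15_7 ln13_15_7_ok) (L (nat_lit 525) ln13_16_7 ln13_16_7_ok))) (M (nat_lit 462) (B (M (nat_lit 365) (B (L (nat_lit 494) ln13_11_4 ln13_11_4_ok) (M (nat_lit 333) (B (L (nat_lit 301) ln13_9_5 ln13_9_5_ok) (L (nat_lit 430) ln13_10_4 ln13_10_4_ok))))) (B (M (nat_lit 365) (B (L (nat_lit 494) ln13_11_4 ln13_11_4_ok) (M (nat_lit 333) (B (L (nat_lit 460) ln13_10_5 ln13_10_5_ok) (L (nat_lit 430) ln13_10_4 ln13_10_4_ok))))) (B (M (nat_lit 427) (B (L (nat_lit 426) ln10_13_0 ln10_13_0_ok) (M (nat_lit 463) (B (L (nat_lit 430) ln11_13_0 ln11_13_0_ok) (L (nat_lit 464) ln16_14_3 ln16_14_3_ok))))) (M (nat_lit 365) (B (L (nat_lit 494) ln13_11_4 ln13_11_4_ok) (M (nat_lit 333) (B (L (nat_lit 301) ln13_9_5 ln13_9_5_ok) (L (nat_lit 460) ln13_10_5 ln13_10_5_ok))))))))))) (B (M (nat_lit 461) (B (M (nat_lit 493) (B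 (L (nat_lit 364) ln13_15_7 ln13_15_7_ok) (L (nat_lit 525) ln13_16_7 ln13_16_7_ok))) (M (nat_lit 430) (B (M (nat_lit 395) (B (L (nat_lit 394) ln10_12_0 ln10_12_0_ok) (L (nat_lit 431) ln15_13_3 ln15_13_3_ok))) (B (M (nat_lit 431) (B (L (nat_lit 395) ln15_13_3 ln15_13_3_ok) (L (nat_lit 432) ln16_13_3 ln16_13_3_ok))) (M (nat_lit 462) (B (M (nat_lit 365) (B (L (nat_lit 333) ln13_10_4 ln13_10_4_ok) (L (nat_lit 494) ln13_11_4 ln13_11_4_ok))) (M (nat_lit 463) (B (L (nat_lit 427) ln11_13_0 ln11_13_0_ok) (L (nat_lit 464) ln16_14_3 ln16_14_3_ok)))))))))) (B (M (nat_lit 398) (B (M (nat_lit 399) (B (L (nat_lit 427) ln15_12_1 ln15_12_1_ok) (L (nat_lit 400) ln16_12_1 ln16_12_1_ok))) (M (nat_lit 366) (B (M (nat_lit 461) (B (L (nat_lit 493) ln13_15_6 ln13_15_6_ok) (M (nat_lit 334) (B (L (nat_lit 302) ln14_9_5 ln14_9_5_ok) (L (nat_lit 430) ln14_10_5 ln14_10_5_ok))))) (B (M (nat_lit 461) (B (L (nat_lit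 493) ln13_15_6 ln13_15_6_ok) (M (nat_lit 334) (B (L (nat_lit 365) ln13_14_6 ln13_14_6_ok) (L (nat_lit 430) ln14_10_5 ln14_10_5_ok))))) (B (M (nat_lit 395) (B (L (nat_lit 367) ln11_12_2 ln11_12_2_ok) (M (nat_lit 394) (B (L (nat_lit 365) ln10_12_2 ln10_12_2_ok) (L (nat_lit 430) ln10_12_0 ln10_12_0_ok))))) (M (nat_lit 461) (B (L (nat_lit 493) ln13_15_6 ln13_15_6_ok) (M (nat_lit 334) (B (L (nat_lit 302) ln14_9_5 ln14_9_5_ok) (L (nat_lit 365) ln13_14_6 ln13_14_6_ok))))))))))) (B (M (nat_lit 398) (B (M (nat_lit 399) (B (L (nat_lit 427) ln15_12_1 ln15_12_1_ok) (L (nat_lit 400) ln16_12_1 ln16_12_1_ok))) (B (M (nat_lit 430) (B (M (nat_lit 395) (B (L (nat_lit 394) ln10_12_0 ln10_12_0_ok) (L (nat_lit 431) ln11_12_0 ln11_12_0_ok))) (B (M (nat_lit 431) (B (L (nat_lit 395) ln11_12_0 ln11_12_0_ok) (L (nat_lit 432) ln16_13_3 ln16_13_3_ok))) (B (M (nat_lit 463) (B (M (nat_lit 427) (B (L (nat_lit 426)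 ln10_13_2 ln10_13_2_ok) (L (nat_lit 462) ln11_13_0 ln11_13_0_ok))) (M (nat_lit 431) (B (L (nat_lit 432) ln16_13_3 ln16_13_3_ok) (L (nat_lit 464) ln12_13_0 ln12_13_0_ok))))) (M (nat_lit 366) (B (M (nat_lit 334) (B (L (nat_lit 302) ln14_9_5 ln14_9_5_ok) (L (nat_lit 461) ln14_10_5 ln14_10_5_ok))) (M (nat_lit 395) (B (L (nat_lit 367) ln11_12_2 ln11_12_2_ok) (L (nat_lit 394) ln10_12_0 ln10_12_0_ok))))))))) (M (nat_lit 399) (B (L (nat_lit 400) ln16_12_1 ln16_12_1_ok) (M (nat_lit 395) (B (M (nat_lit 363) (B (L (nat_lit 362) ln14_12_3 ln14_12_3_ok) (L (nat_lit 364) ln15_12_3 ln15_12_3_ok))) (M (nat_lit 367) (B (L (nat_lit 366) ln11_12_2 ln11_12_2_ok) (L (nat_lit 368) ln12_12_2 ln12_12_2_ok)))))))))) (B (M (nat_lit 365) (B (M (nat_lit 333) (B (L (nat_lit 301) ln13_9_5 ln13_9_5_ok) (L (nat_lit 460) ln13_10_5 ln13_10_5_ok))) (B (M (nat_lit 460) (B (L (nat_lit 333) ln13_10_5 ln13_10_5_ok) (L (nat_lit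 492) ln12_15_6 ln12_15_6_ok))) (M (nat_lit 366) (B (M (nat_lit 461) (B (L (nat_lit 334) ln13_14_6 ln13_14_6_ok) (M (nat_lit 493) (B (L (nat_lit 364) ln13_15_7 ln13_15_7_ok) (L (nat_lit 398) ln13_15_6 ln13_15_6_ok))))) (B (M (nat_lit 395) (B (L (nat_lit 394) ln10_12_2 ln10_12_2_ok) (M (nat_lit 367) (B (L (nat_lit 364) ln15_11_1 ln15_11_1_ok) (L (nat_lit 368) ln16_11_1 ln16_11_1_ok))))) (M (nat_lit 461) (B (L (nat_lit 334) ln13_14_6 ln13_14_6_ok) (M (nat_lit 493) (B (L (nat_lit 398) ln13_15_6 ln13_15_6_ok) (L (nat_lit 525) ln13_16_7 ln13_16_7_ok))))))))))) (M (nat_lit 398) (B (M (nat_lit 399) (B (L (nat_lit 427) ln15_12_1 ln15_12_1_ok) (L (nat_lit 400) ln16_12_1 ln16_12_1_ok))) (B (M (nat_lit 430) (B (M (nat_lit 395) (B (L (nat_lit 394) ln10_12_0 ln10_12_0_ok) (L (nat_lit 431) ln11_12_0 ln11_12_0_ok))) (B (M (nat_lit 431) (B (L (nat_lit 395) ln11_12_0 ln11_12_0_ok) (L (nat_lit 432) ln16_13_3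 ln16_13_3_ok))) (M (nat_lit 462) (B (M (nat_lit 365) (B (L (nat_lit 333) ln13_10_4 ln13_10_4_ok) (L (nat_lit 494) ln14_15_7 ln14_15_7_ok))) (M (nat_lit 427) (B (L (nat_lit 426) ln10_13_2 ln10_13_2_ok) (L (nat_lit 463) ln11_13_0 ln11_13_0_ok)))))))) (M (nat_lit 399) (B (L (nat_lit 400) ln16_12_1 ln16_12_1_ok) (M (nat_lit 395) (B (M (nat_lit 363) (B (L (nat_lit 362) ln14_12_3 ln14_12_3_ok) (L (nat_lit 364) ln15_12_3 ln15_12_3_ok))) (M (nat_lit 367) (B (L (nat_lit 366) ln11_12_2 ln11_12_2_ok) (L (nat_lit 368) ln12_12_2 ln12_12_2_ok)))))))))))))))) (nat_lit 2079502270752001762064242424960807725827516048677469043429686155012882190638009693656033379242457518153052022685796627120027336704) (nat_lit 109836762651596529966661615919562991214787687239965145277264418673352887873496669995068894604292877109271158671327103009968534127997739493677599164136519892992) (nat_lit 109836762651596529966661615919562991214787687239965145277264418673352887873496669995068894604292877109271158671327103009968534127997739493677599164136519892992)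 (by decide +kernel)
theorem c41_s1208 : Sem (nat_lit 1386334847221798047169638878925036799968406779833514899637066259859226863686603287896039777716422623628704219945445734162783797248) (nat_lit 825554280841600030816653803056488089404416878960636140855213702258407352099035751913271855435014088454083552377425746239507250429928931928776548886364968216107948179456) (nat_lit 825554280841600030816653803056488089404416878960636140855213702258407352099035751913271855435014088454083552377425746239507250429928931928776548886364968216107948179456) :=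
  sem_of_chk (M (nat_lit 428) (B (M (nat_lit 430) (B (M (nat_lit 395) (B (L (nat_lit 431) ln15_13_3 ln15_13_3_ok) (M (nat_lit 394) (B (L (nat_lit 393) ln9_12_0 ln9_12_0_ok) (L (nat_lit 397) ln10_12_0 ln10_12_0_ok))))) (B (M (nat_lit 395) (B (L (nat_lit 431) ln15_13_3 ln15_13_3_ok) (M (nat_lit 394) (B (L (nat_lit 397) ln10_12_0 ln10_12_0_ok) (L (nat_lit 427) ln14_13_3 ln14_13_3_ok))))) (B (M (nat_lit 431) (B (L (nat_lit 395) ln15_13_3 ln15_13_3_ok) (M (nat_lit 400) (B (L (nat_lit 399) ln12_13_2 ln12_13_2_ok) (M (nat_lit 432) (B (L (nat_lit 397) ln16_13_3 ln16_13_3_ok) (L (nat_lit 401) ln13_13_2 ln13_13_2_ok))))))) (B (M (nat_lit 431) (B (M (nat_lit 400) (B (L (nat_lit 399) ln12_13_2 ln12_13_2_ok) (M (nat_lit 432) (B (L (nat_lit 397) ln16_13_3 ln16_13_3_ok) (L (nat_lit 401) ln13_13_2 ln13_13_2_ok))))) (M (nat_lit 427) (B (M (nat_lit 459) (B (L (nat_lit 458) ln14_13_1 ln14_13_1_ok) (L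 (nat_lit 460) ln15_13_1 ln15_13_1_ok))) (M (nat_lit 463) (B (L (nat_lit 462) ln11_13_0 ln11_13_0_ok) (L (nat_lit 464) ln12_13_0 ln12_13_0_ok))))))) (B (M (nat_lit 395) (B (L (nat_lit 431) ln15_13_3 ln15_13_3_ok) (M (nat_lit 394) (B (L (nat_lit 393) ln9_12_0 ln9_12_0_ok) (L (nat_lit 427) ln14_13_3 ln14_13_3_ok))))) (M (nat_lit 395) (B (M (nat_lit 394) (B (L (nat_lit 393) ln9_12_0 ln9_12_0_ok) (L (nat_lit 397) ln10_12_0 ln10_12_0_ok))) (B (M (nat_lit 394) (B (L (nat_lit 397) ln10_12_0 ln10_12_0_ok) (L (nat_lit 427) ln14_13_3 ln14_13_3_ok))) (B (M (nat_lit 427) (B (M (nat_lit 459) (B (L (nat_lit 458) ln14_13_1 ln14_13_1_ok) (M (nat_lit 491) (B (L (nat_lit 364) ln11_15_6 ln11_15_6_ok) (L (nat_lit 523) ln11_16_6 ln11_16_6_ok))))) (M (nat_lit 426) (B (M (nat_lit 398) (B (L (nat_lit 397) ln14_12_1 ln14_12_1_ok) (L (nat_lit 399) ln11_13_2 ln11_13_2_ok))) (M (nat_lit 462) (B (L (nat_lit 461)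 ln10_13_0 ln10_13_0_ok) (L (nat_lit 463) ln11_13_0 ln11_13_0_ok))))))) (M (nat_lit 394) (B (L (nat_lit 393) ln9_12_0 ln9_12_0_ok) (L (nat_lit 427) ln14_13_3 ln14_13_3_ok))))))))))))) (B (M (nat_lit 430) (B (M (nat_lit 395) (B (L (nat_lit 431) ln15_13_3 ln15_13_3_ok) (M (nat_lit 394) (B (L (nat_lit 397) ln10_12_0 ln10_12_0_ok) (L (nat_lit 427) ln14_13_3 ln14_13_3_ok))))) (B (M (nat_lit 431) (B (L (nat_lit 395) ln15_13_3 ln15_13_3_ok) (M (nat_lit 400) (B (L (nat_lit 399) ln12_13_2 ln12_13_2_ok) (M (nat_lit 432) (B (L (nat_lit 397) ln16_13_3 ln16_13_3_ok) (L (nat_lit 401) ln13_13_2 ln13_13_2_ok))))))) (B (M (nat_lit 431) (B (M (nat_lit 400) (B (L (nat_lit 399) ln12_13_2 ln12_13_2_ok) (M (nat_lit 432) (B (L (nat_lit 397) ln16_13_3 ln16_13_3_ok) (L (nat_lit 401) ln13_13_2 ln13_13_2_ok))))) (B (M (nat_lit 427) (B (M (nat_lit 399) (B (L (nat_lit 398) ln11_13_2 ln11_13_2_ok) (L (nat_lit 400)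 ln12_13_2 ln12_13_2_ok))) (M (nat_lit 463) (B (L (nat_lit 462) ln11_13_0 ln11_13_0_ok) (L (nat_lit 464) ln12_13_0 ln12_13_0_ok))))) (M (nat_lit 460) (B (L (nat_lit 459) ln15_13_1 ln15_13_1_ok) (M (nat_lit 432) (B (L (nat_lit 397) ln16_13_3 ln16_13_3_ok) (L (nat_lit 461) ln16_13_1 ln16_13_1_ok)))))))) (B (M (nat_lit 395) (B (L (nat_lit 431) ln15_13_3 ln15_13_3_ok) (M (nat_lit 394) (B (L (nat_lit 393) ln9_12_0 ln9_12_0_ok) (L (nat_lit 427) ln14_13_3 ln14_13_3_ok))))) (M (nat_lit 427) (B (M (nat_lit 398) (B (L (nat_lit 399) ln11_13_2 ln11_13_2_ok) (M (nat_lit 426) (B (L (nat_lit 397) ln10_13_2 ln10_13_2_ok) (M (nat_lit 462) (B (L (nat_lit 461) ln10_13_0 ln10_13_0_ok) (L (nat_lit 463) ln11_13_0 ln11_13_0_ok))))))) (B (M (nat_lit 426) (B (M (nat_lit 394) (B (L (nat_lit 393) ln13_13_3 ln13_13_3_ok) (L (nat_lit 395) ln14_13_3 ln14_13_3_ok))) (M (nat_lit 458) (B (L (nat_lit 457) ln13_13_1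 ln13_13_1_ok) (L (nat_lit 459) ln14_13_1 ln14_13_1_ok))))) (M (nat_lit 398) (B (L (nat_lit 399) ln11_13_2 ln11_13_2_ok) (M (nat_lit 397) (B (M (nat_lit 462) (B (L (nat_lit 463) ln11_13_0 ln11_13_0_ok) (M (nat_lit 365) (B (L (nat_lit 333) ln13_10_4 ln13_10_4_ok) (L (nat_lit 494) ln14_15_7 ln14_15_7_ok))))) (M (nat_lit 366) (B (M (nat_lit 395) (B (L (nat_lit 367) ln11_12_2 ln11_12_2_ok) (L (nat_lit 394) ln10_12_0 ln10_12_0_ok))) (M (nat_lit 461) (B (L (nat_lit 334) ln14_10_5 ln14_10_5_ok) (L (nat_lit 493) ln13_15_6 ln13_15_6_ok))))))))))))))))) (B (M (nat_lit 427) (B (M (nat_lit 459) (B (M (nat_lit 430) (B (L (nat_lit 458) ln14_13_1 ln14_13_1_ok) (M (nat_lit 395) (B (L (nat_lit 394) ln14_13_3 ln14_13_3_ok) (L (nat_lit 431) ln15_13_3 ln15_13_3_ok))))) (B (M (nat_lit 430) (B (L (nat_lit 458) ln14_13_1 ln14_13_1_ok) (M (nat_lit 431) (B (L (nat_lit 395) ln15_13_3 ln15_13_3_ok) (L (nat_lit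 460) ln15_13_1 ln15_13_1_ok))))) (B (M (nat_lit 460) (B (M (nat_lit 491) (B (L (nat_lit 364) ln12_11_5 ln12_11_5_ok) (L (nat_lit 523) ln11_16_6 ln11_16_6_ok))) (M (nat_lit 430) (B (L (nat_lit 458) ln14_13_1 ln14_13_1_ok) (L (nat_lit 431) ln15_13_1 ln15_13_1_ok))))) (M (nat_lit 491) (B (L (nat_lit 523) ln11_16_6 ln11_16_6_ok) (M (nat_lit 364) (B (L (nat_lit 395) ln11_15_6 ln11_15_6_ok) (L (nat_lit 460) ln12_11_5 ln12_11_5_ok))))))))) (B (M (nat_lit 430) (B (M (nat_lit 395) (B (L (nat_lit 394) ln14_13_3 ln14_13_3_ok) (L (nat_lit 431) ln15_13_3 ln15_13_3_ok))) (M (nat_lit 426) (B (M (nat_lit 397) (B (L (nat_lit 425) ln9_13_2 ln9_13_2_ok) (L (nat_lit 398) ln10_13_2 ln10_13_2_ok))) (M (nat_lit 462) (B (L (nat_lit 461) ln10_13_0 ln10_13_0_ok) (L (nat_lit 463) ln11_13_0 ln11_13_0_ok))))))) (B (M (nat_lit 459) (B (M (nat_lit 430) (B (L (nat_lit 458) ln14_13_1 ln14_13_1_ok) (M (nat_lit 431)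 (B (L (nat_lit 395) ln15_13_3 ln15_13_3_ok) (L (nat_lit 460) ln15_13_1 ln15_13_1_ok))))) (B (M (nat_lit 460) (B (M (nat_lit 491) (B (L (nat_lit 364) ln12_11_5 ln12_11_5_ok) (L (nat_lit 523) ln11_16_6 ln11_16_6_ok))) (M (nat_lit 430) (B (L (nat_lit 458) ln14_13_1 ln14_13_1_ok) (L (nat_lit 431) ln15_13_1 ln15_13_1_ok))))) (B (M (nat_lit 491) (B (L (nat_lit 523) ln11_16_6 ln11_16_6_ok) (M (nat_lit 364) (B (L (nat_lit 395) ln11_15_6 ln11_15_6_ok) (L (nat_lit 460) ln12_11_5 ln12_11_5_ok))))) (M (nat_lit 395) (B (M (nat_lit 491) (B (L (nat_lit 364) ln11_15_6 ln11_15_6_ok) (L (nat_lit 523) ln11_16_6 ln11_16_6_ok))) (M (nat_lit 430) (B (L (nat_lit 431) ln15_13_3 ln15_13_3_ok) (L (nat_lit 458) ln14_13_1 ln14_13_1_ok))))))))) (B (M (nat_lit 461) (B (M (nat_lit 462) (B (L (nat_lit 426) ln10_13_0 ln10_13_0_ok) (M (nat_lit 463) (B (L (nat_lit 430) ln11_13_0 ln11_13_0_ok) (L (nat_lit 460) ln15_14_3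 ln15_14_3_ok))))) (B (M (nat_lit 493) (B (L (nat_lit 525) ln13_16_7 ln13_16_7_ok) (M (nat_lit 364) (B (L (nat_lit 397) ln13_15_7 ln13_15_7_ok) (L (nat_lit 460) ln12_11_4 ln12_11_4_ok))))) (M (nat_lit 397) (B (M (nat_lit 493) (B (L (nat_lit 364) ln13_15_7 ln13_15_7_ok) (L (nat_lit 525) ln13_16_7 ln13_16_7_ok))) (M (nat_lit 426) (B (L (nat_lit 425) ln9_13_2 ln9_13_2_ok) (L (nat_lit 462) ln10_13_0 ln10_13_0_ok)))))))) (M (nat_lit 461) (B (M (nat_lit 462) (B (L (nat_lit 426) ln10_13_0 ln10_13_0_ok) (M (nat_lit 463) (B (L (nat_lit 460) ln15_14_3 ln15_14_3_ok) (L (nat_lit 464) ln16_14_3 ln16_14_3_ok))))) (B (M (nat_lit 493) (B (L (nat_lit 525) ln13_16_7 ln13_16_7_ok) (M (nat_lit 364) (B (L (nat_lit 397) ln13_15_7 ln13_15_7_ok) (L (nat_lit 460) ln12_11_4 ln12_11_4_ok))))) (M (nat_lit 397) (B (M (nat_lit 493) (B (L (nat_lit 364) ln13_15_7 ln13_15_7_ok) (L (nat_lit 525) ln13_16_7 ln13_16_7_ok)))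 (M (nat_lit 426) (B (L (nat_lit 425) ln9_13_2 ln9_13_2_ok) (L (nat_lit 462) ln10_13_0 ln10_13_0_ok))))))))))))) (B (M (nat_lit 427) (B (M (nat_lit 459) (B (M (nat_lit 430) (B (L (nat_lit 458) ln14_13_1 ln14_13_1_ok) (M (nat_lit 431) (B (L (nat_lit 395) ln15_13_3 ln15_13_3_ok) (L (nat_lit 460) ln15_13_1 ln15_13_1_ok))))) (B (M (nat_lit 460) (B (M (nat_lit 491) (B (L (nat_lit 364) ln12_11_5 ln12_11_5_ok) (L (nat_lit 523) ln11_16_6 ln11_16_6_ok))) (M (nat_lit 430) (B (L (nat_lit 458) ln14_13_1 ln14_13_1_ok) (L (nat_lit 431) ln15_13_1 ln15_13_1_ok))))) (B (M (nat_lit 491) (B (L (nat_lit 523) ln11_16_6 ln11_16_6_ok) (M (nat_lit 364) (B (L (nat_lit 395) ln11_15_6 ln11_15_6_ok) (L (nat_lit 460) ln12_11_5 ln12_11_5_ok))))) (M (nat_lit 395) (B (M (nat_lit 491) (B (L (nat_lit 364) ln11_15_6 ln11_15_6_ok) (L (nat_lit 523) ln11_16_6 ln11_16_6_ok))) (M (nat_lit 430) (B (L (nat_lit 431) ln15_13_3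 ln15_13_3_ok) (L (nat_lit 458) ln14_13_1 ln14_13_1_ok))))))))) (B (M (nat_lit 430) (B (M (nat_lit 431) (B (L (nat_lit 395) ln15_13_3 ln15_13_3_ok) (M (nat_lit 459) (B (L (nat_lit 458) ln14_13_1 ln14_13_1_ok) (L (nat_lit 460) ln15_13_1 ln15_13_1_ok))))) (M (nat_lit 426) (B (M (nat_lit 397) (B (L (nat_lit 425) ln9_13_2 ln9_13_2_ok) (L (nat_lit 398) ln10_13_2 ln10_13_2_ok))) (M (nat_lit 462) (B (L (nat_lit 461) ln10_13_0 ln10_13_0_ok) (L (nat_lit 463) ln11_13_0 ln11_13_0_ok))))))) (B (M (nat_lit 461) (B (M (nat_lit 462) (B (L (nat_lit 426) ln10_13_0 ln10_13_0_ok) (M (nat_lit 463) (B (L (nat_lit 430) ln11_13_0 ln11_13_0_ok) (L (nat_lit 460) ln15_14_3 ln15_14_3_ok))))) (B (M (nat_lit 493) (B (L (nat_lit 525) ln13_16_7 ln13_16_7_ok) (M (nat_lit 364) (B (L (nat_lit 397) ln13_15_7 ln13_15_7_ok) (L (nat_lit 460) ln12_11_4 ln12_11_4_ok))))) (M (nat_lit 462) (B (L (nat_lit 426) ln10_13_0 ln10_13_0_ok)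 (M (nat_lit 463) (B (L (nat_lit 430) ln11_13_0 ln11_13_0_ok) (L (nat_lit 464) ln16_14_3 ln16_14_3_ok)))))))) (B (M (nat_lit 461) (B (M (nat_lit 462) (B (L (nat_lit 426) ln10_13_0 ln10_13_0_ok) (M (nat_lit 463) (B (L (nat_lit 460) ln15_14_3 ln15_14_3_ok) (L (nat_lit 464) ln16_14_3 ln16_14_3_ok))))) (B (M (nat_lit 493) (B (L (nat_lit 525) ln13_16_7 ln13_16_7_ok) (M (nat_lit 364) (B (L (nat_lit 397) ln13_15_7 ln13_15_7_ok) (L (nat_lit 460) ln12_11_4 ln12_11_4_ok))))) (M (nat_lit 426) (B (L (nat_lit 462) ln10_13_0 ln10_13_0_ok) (M (nat_lit 397) (B (L (nat_lit 425) ln9_13_2 ln9_13_2_ok) (L (nat_lit 398) ln10_13_2 ln10_13_2_ok)))))))) (M (nat_lit 430) (B (M (nat_lit 431) (B (L (nat_lit 395) ln15_13_3 ln15_13_3_ok) (M (nat_lit 399) (B (L (nat_lit 398) ln11_13_2 ln11_13_2_ok) (L (nat_lit 400) ln12_13_2 ln12_13_2_ok))))) (B (M (nat_lit 426) (B (M (nat_lit 397) (B (L (nat_lit 425) ln9_13_2 ln9_13_2_ok)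 (L (nat_lit 398) ln10_13_2 ln10_13_2_ok))) (M (nat_lit 462) (B (L (nat_lit 461) ln10_13_0 ln10_13_0_ok) (L (nat_lit 463) ln11_13_0 ln11_13_0_ok))))) (M (nat_lit 431) (B (L (nat_lit 395) ln15_13_3 ln15_13_3_ok) (M (nat_lit 463) (B (L (nat_lit 462) ln11_13_0 ln11_13_0_ok) (L (nat_lit 464) ln12_13_0 ln12_13_0_ok))))))))))))) (B c41_n884 (B (M (nat_lit 430) (B (M (nat_lit 395) (B (L (nat_lit 431) ln15_13_3 ln15_13_3_ok) (M (nat_lit 394) (B (L (nat_lit 393) ln9_12_0 ln9_12_0_ok) (L (nat_lit 427) ln14_13_3 ln14_13_3_ok))))) (B (M (nat_lit 431) (B (L (nat_lit 395) ln15_13_3 ln15_13_3_ok) (M (nat_lit 427) (B (M (nat_lit 459) (B (L (nat_lit 458) ln14_13_1 ln14_13_1_ok) (L (nat_lit 460) ln15_13_1 ln15_13_1_ok))) (M (nat_lit 463) (B (L (nat_lit 462) ln11_13_0 ln11_13_0_ok) (L (nat_lit 464) ln12_13_0 ln12_13_0_ok))))))) (B (M (nat_lit 427) (B (M (nat_lit 426) (B (M (nat_lit 458) (B (L (nat_lit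 457) ln13_13_1 ln13_13_1_ok) (L (nat_lit 459) ln14_13_1 ln14_13_1_ok))) (M (nat_lit 462) (B (L (nat_lit 461) ln10_13_0 ln10_13_0_ok) (L (nat_lit 463) ln11_13_0 ln11_13_0_ok))))) (B (M (nat_lit 431) (B (M (nat_lit 399) (B (L (nat_lit 398) ln11_13_2 ln11_13_2_ok) (L (nat_lit 400) ln12_13_2 ln12_13_2_ok))) (M (nat_lit 463) (B (L (nat_lit 462) ln11_13_0 ln11_13_0_ok) (L (nat_lit 464) ln12_13_0 ln12_13_0_ok))))) (M (nat_lit 431) (B (M (nat_lit 399) (B (L (nat_lit 398) ln11_13_2 ln11_13_2_ok) (L (nat_lit 400) ln12_13_2 ln12_13_2_ok))) (M (nat_lit 459) (B (L (nat_lit 458) ln14_13_1 ln14_13_1_ok) (L (nat_lit 460) ln15_13_1 ln15_13_1_ok)))))))) (B (M (nat_lit 431) (B (L (nat_lit 395) ln15_13_3 ln15_13_3_ok) (M (nat_lit 432) (B (M (nat_lit 400) (B (L (nat_lit 399) ln12_13_2 ln12_13_2_ok) (L (nat_lit 401) ln13_13_2 ln13_13_2_ok))) (M (nat_lit 460) (B (L (nat_lit 459) ln15_13_1 ln15_13_1_ok) (L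 (nat_lit 461) ln16_13_1 ln16_13_1_ok))))))) (M (nat_lit 427) (B (M (nat_lit 426) (B (M (nat_lit 458) (B (L (nat_lit 457) ln13_13_1 ln13_13_1_ok) (L (nat_lit 459) ln14_13_1 ln14_13_1_ok))) (M (nat_lit 462) (B (L (nat_lit 461) ln10_13_0 ln10_13_0_ok) (L (nat_lit 463) ln11_13_0 ln11_13_0_ok))))) (B (M (nat_lit 395) (B (L (nat_lit 394) ln14_13_3 ln14_13_3_ok) (M (nat_lit 459) (B (L (nat_lit 458) ln14_13_1 ln14_13_1_ok) (M (nat_lit 491) (B (L (nat_lit 364) ln11_15_6 ln11_15_6_ok) (L (nat_lit 523) ln11_16_6 ln11_16_6_ok))))))) (M (nat_lit 426) (B (M (nat_lit 394) (B (L (nat_lit 393) ln13_13_3 ln13_13_3_ok) (L (nat_lit 395) ln14_13_3 ln14_13_3_ok))) (M (nat_lit 462) (B (L (nat_lit 461) ln10_13_0 ln10_13_0_ok) (L (nat_lit 463) ln11_13_0 ln11_13_0_ok))))))))))))) (B (M (nat_lit 427) (B (M (nat_lit 459) (B (M (nat_lit 430) (B (L (nat_lit 458) ln14_13_1 ln14_13_1_ok) (M (nat_lit 431) (B (L (nat_lit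 395) ln15_13_3 ln15_13_3_ok) (L (nat_lit 460) ln15_13_1 ln15_13_1_ok))))) (B (M (nat_lit 460) (B (M (nat_lit 491) (B (L (nat_lit 364) ln12_11_5 ln12_11_5_ok) (L (nat_lit 523) ln11_16_6 ln11_16_6_ok))) (M (nat_lit 430) (B (L (nat_lit 458) ln14_13_1 ln14_13_1_ok) (L (nat_lit 431) ln15_13_1 ln15_13_1_ok))))) (B (M (nat_lit 491) (B (L (nat_lit 523) ln11_16_6 ln11_16_6_ok) (M (nat_lit 364) (B (L (nat_lit 395) ln11_15_6 ln11_15_6_ok) (L (nat_lit 460) ln12_11_5 ln12_11_5_ok))))) (M (nat_lit 395) (B (M (nat_lit 491) (B (L (nat_lit 364) ln11_15_6 ln11_15_6_ok) (L (nat_lit 523) ln11_16_6 ln11_16_6_ok))) (M (nat_lit 430) (B (L (nat_lit 431) ln15_13_3 ln15_13_3_ok) (L (nat_lit 458) ln14_13_1 ln14_13_1_ok))))))))) (B (M (nat_lit 430) (B (M (nat_lit 395) (B (L (nat_lit 394) ln14_13_3 ln14_13_3_ok) (L (nat_lit 431) ln15_13_3 ln15_13_3_ok))) (M (nat_lit 426) (B (M (nat_lit 458) (B (L (nat_lit 457)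 ln13_13_1 ln13_13_1_ok) (L (nat_lit 459) ln14_13_1 ln14_13_1_ok))) (M (nat_lit 462) (B (L (nat_lit 461) ln10_13_0 ln10_13_0_ok) (L (nat_lit 463) ln11_13_0 ln11_13_0_ok))))))) (B (M (nat_lit 461) (B (M (nat_lit 462) (B (L (nat_lit 426) ln10_13_0 ln10_13_0_ok) (M (nat_lit 463) (B (L (nat_lit 430) ln11_13_0 ln11_13_0_ok) (L (nat_lit 460) ln15_14_3 ln15_14_3_ok))))) (B (M (nat_lit 493) (B (L (nat_lit 525) ln13_16_7 ln13_16_7_ok) (M (nat_lit 364) (B (L (nat_lit 397) ln13_15_7 ln13_15_7_ok) (L (nat_lit 460) ln12_11_4 ln12_11_4_ok))))) (M (nat_lit 462) (B (L (nat_lit 426) ln10_13_0 ln10_13_0_ok) (M (nat_lit 463) (B (L (nat_lit 430) ln11_13_0 ln11_13_0_ok) (L (nat_lit 464) ln16_14_3 ln16_14_3_ok)))))))) (M (nat_lit 461) (B (M (nat_lit 462) (B (L (nat_lit 426) ln10_13_0 ln10_13_0_ok) (M (nat_lit 463) (B (L (nat_lit 460) ln15_14_3 ln15_14_3_ok) (L (nat_lit 464) ln16_14_3 ln16_14_3_ok))))) (B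 (M (nat_lit 493) (B (L (nat_lit 525) ln13_16_7 ln13_16_7_ok) (M (nat_lit 364) (B (L (nat_lit 397) ln13_15_7 ln13_15_7_ok) (L (nat_lit 460) ln12_11_4 ln12_11_4_ok))))) (M (nat_lit 397) (B (M (nat_lit 493) (B (L (nat_lit 364) ln13_15_7 ln13_15_7_ok) (L (nat_lit 525) ln13_16_7 ln13_16_7_ok))) (M (nat_lit 426) (B (L (nat_lit 425) ln9_13_2 ln9_13_2_ok) (L (nat_lit 462) ln10_13_0 ln10_13_0_ok)))))))))))) (B (M (nat_lit 460) (B (M (nat_lit 459) (B (M (nat_lit 430) (B (L (nat_lit 431) ln15_13_1 ln15_13_1_ok) (M (nat_lit 458) (B (L (nat_lit 427) ln14_13_1 ln14_13_1_ok) (L (nat_lit 457) ln9_14_2 ln9_14_2_ok))))) (B (M (nat_lit 430) (B (L (nat_lit 431) ln15_13_1 ln15_13_1_ok) (M (nat_lit 458) (B (L (nat_lit 457) ln9_14_2 ln9_14_2_ok) (L (nat_lit 461) ln10_14_2 ln10_14_2_ok))))) (M (nat_lit 491) (B (L (nat_lit 364) ln12_11_5 ln12_11_5_ok) (M (nat_lit 523) (B (L (nat_lit 427) ln11_16_6 ln11_16_6_ok)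 (L (nat_lit 555) ln11_17_6 ln11_17_6_ok)))))))) (B (M (nat_lit 395) (B (M (nat_lit 363) (B (L (nat_lit 492) ln12_15_7 ln12_15_7_ok) (M (nat_lit 331) (B (L (nat_lit 299) ln11_9_4 ln11_9_4_ok) (L (nat_lit 427) ln11_10_4 ln11_10_4_ok))))) (B (M (nat_lit 430) (B (L (nat_lit 431) ln15_13_3 ln15_13_3_ok) (M (nat_lit 394) (B (L (nat_lit 393) ln9_12_0 ln9_12_0_ok) (L (nat_lit 427) ln14_13_3 ln14_13_3_ok))))) (M (nat_lit 430) (B (L (nat_lit 431) ln15_13_3 ln15_13_3_ok) (M (nat_lit 394) (B (L (nat_lit 393) ln9_12_0 ln9_12_0_ok) (L (nat_lit 397) ln10_12_0 ln10_12_0_ok)))))))) (B (M (nat_lit 459) (B (M (nat_lit 430) (B (L (nat_lit 431) ln15_13_1 ln15_13_1_ok) (M (nat_lit 458) (B (L (nat_lit 457) ln9_14_2 ln9_14_2_ok) (L (nat_lit 461) ln10_14_2 ln10_14_2_ok))))) (M (nat_lit 492) (B (M (nat_lit 491) (B (L (nat_lit 364) ln12_11_5 ln12_11_5_ok) (L (nat_lit 523) ln12_12_5 ln12_12_5_ok))) (M (nat_lit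 397) (B (L (nat_lit 365) ln12_15_6 ln12_15_6_ok) (L (nat_lit 524) ln12_16_6 ln12_16_6_ok))))))) (M (nat_lit 492) (B (M (nat_lit 397) (B (L (nat_lit 365) ln12_15_6 ln12_15_6_ok) (L (nat_lit 524) ln12_16_6 ln12_16_6_ok))) (M (nat_lit 364) (B (M (nat_lit 363) (B (L (nat_lit 331) ln12_14_7 ln12_14_7_ok) (L (nat_lit 395) ln12_15_7 ln12_15_7_ok))) (M (nat_lit 491) (B (L (nat_lit 459) ln12_11_5 ln12_11_5_ok) (L (nat_lit 523) ln12_12_5 ln12_12_5_ok))))))))))) (B (K (nat_lit 2079502270752001762064242424960807725827516048677469043429686155012882190638009693656033379242457518153052022685796627120027336704) (nat_lit 825554280841600030509773433518590686442853084003241344101240389713764169725776775140664228230779501648115878695842772027396498489502195671470684743585128367937413971968) (nat_lit 825554280841600030509773433518590686442853084003241344101240389713764169725776775140664228230779501648115878695842772027396498489502195671470684743585128367937413971968)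 c41_s1019) (B (K (nat_lit 2079502270752001762064242424960807725827516048677469043429686155012882190638009693656033379242457518153052022685796627120027336704) (nat_lit 353808977738907361786459480432954478019699871121040679819154663106038345635614360571940626368463712384764944641713318130310559955048911028979880322603327950753567342592) (nat_lit 353808977738907361786459480432954478019699871121040679819154663106038345635614360571940626368463712384764944641713318130310559955048911028979880322603327950753567342592) c41_s1094) (B (K (nat_lit 2079502270752001762064242424960807725827516048677469043429686155012882190638009693656033379242457518153052022685796627120027336704) (nat_lit 109836762651596529966661615919562991214787687239965145277264418673352887873496669995068894604292877109271158671327103009968534127997739493677599164136519892992) (nat_lit 109836762651596529966661615919562991214787687239965145277264418673352887873496669995068894604292877109271158671327103009968534127997739493677599164136519892992)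 c41_s1202) (B (M (nat_lit 430) (B (M (nat_lit 395) (B (L (nat_lit 431) ln15_13_3 ln15_13_3_ok) (M (nat_lit 394) (B (L (nat_lit 393) ln9_12_0 ln9_12_0_ok) (L (nat_lit 397) ln10_12_0 ln10_12_0_ok))))) (B (M (nat_lit 395) (B (L (nat_lit 431) ln15_13_3 ln15_13_3_ok) (M (nat_lit 394) (B (L (nat_lit 397) ln10_12_0 ln10_12_0_ok) (L (nat_lit 427) ln14_13_3 ln14_13_3_ok))))) (B (M (nat_lit 431) (B (L (nat_lit 395) ln15_13_3 ln15_13_3_ok) (M (nat_lit 427) (B (M (nat_lit 399) (B (L (nat_lit 398) ln11_13_2 ln11_13_2_ok) (L (nat_lit 400) ln12_13_2 ln12_13_2_ok))) (M (nat_lit 463) (B (L (nat_lit 462) ln11_13_0 ln11_13_0_ok) (L (nat_lit 464) ln12_13_0 ln12_13_0_ok))))))) (B (M (nat_lit 427) (B (M (nat_lit 426) (B (M (nat_lit 458) (B (L (nat_lit 457) ln13_13_1 ln13_13_1_ok) (L (nat_lit 459) ln14_13_1 ln14_13_1_ok))) (M (nat_lit 462) (B (L (nat_lit 461) ln10_13_0 ln10_13_0_ok) (L (nat_lit 463) ln11_13_0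 ln11_13_0_ok))))) (B (M (nat_lit 431) (B (M (nat_lit 399) (B (L (nat_lit 398) ln11_13_2 ln11_13_2_ok) (L (nat_lit 400) ln12_13_2 ln12_13_2_ok))) (M (nat_lit 463) (B (L (nat_lit 462) ln11_13_0 ln11_13_0_ok) (L (nat_lit 464) ln12_13_0 ln12_13_0_ok))))) (M (nat_lit 426) (B (M (nat_lit 397) (B (L (nat_lit 425) ln9_13_2 ln9_13_2_ok) (L (nat_lit 398) ln10_13_2 ln10_13_2_ok))) (M (nat_lit 458) (B (L (nat_lit 457) ln13_13_1 ln13_13_1_ok) (L (nat_lit 459) ln14_13_1 ln14_13_1_ok)))))))) (M (nat_lit 395) (B (M (nat_lit 394) (B (L (nat_lit 393) ln9_12_0 ln9_12_0_ok) (L (nat_lit 397) ln10_12_0 ln10_12_0_ok))) (B (M (nat_lit 394) (B (L (nat_lit 397) ln10_12_0 ln10_12_0_ok) (L (nat_lit 427) ln14_13_3 ln14_13_3_ok))) (B (M (nat_lit 427) (B (M (nat_lit 459) (B (L (nat_lit 458) ln14_13_1 ln14_13_1_ok) (M (nat_lit 491) (B (L (nat_lit 364) ln11_15_6 ln11_15_6_ok) (L (nat_lit 523) ln11_16_6 ln11_16_6_ok)))))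 (M (nat_lit 426) (B (M (nat_lit 398) (B (L (nat_lit 397) ln14_12_1 ln14_12_1_ok) (L (nat_lit 399) ln11_13_2 ln11_13_2_ok))) (M (nat_lit 462) (B (L (nat_lit 461) ln10_13_0 ln10_13_0_ok) (L (nat_lit 463) ln11_13_0 ln11_13_0_ok))))))) (M (nat_lit 394) (B (L (nat_lit 393) ln9_12_0 ln9_12_0_ok) (L (nat_lit 427) ln14_13_3 ln14_13_3_ok)))))))))))) (M (nat_lit 430) (B (M (nat_lit 395) (B (L (nat_lit 431) ln15_13_3 ln15_13_3_ok) (M (nat_lit 394) (B (L (nat_lit 397) ln10_12_0 ln10_12_0_ok) (L (nat_lit 427) ln14_13_3 ln14_13_3_ok))))) (B (M (nat_lit 431) (B (L (nat_lit 395) ln15_13_3 ln15_13_3_ok) (M (nat_lit 400) (B (L (nat_lit 399) ln12_13_2 ln12_13_2_ok) (M (nat_lit 432) (B (L (nat_lit 397) ln16_13_3 ln16_13_3_ok) (L (nat_lit 401) ln13_13_2 ln13_13_2_ok))))))) (B (M (nat_lit 431) (B (M (nat_lit 400) (B (L (nat_lit 399) ln12_13_2 ln12_13_2_ok) (M (nat_lit 432) (B (L (nat_lit 397) ln16_13_3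 ln16_13_3_ok) (L (nat_lit 401) ln13_13_2 ln13_13_2_ok))))) (M (nat_lit 427) (B (M (nat_lit 459) (B (L (nat_lit 458) ln14_13_1 ln14_13_1_ok) (L (nat_lit 460) ln15_13_1 ln15_13_1_ok))) (M (nat_lit 463) (B (L (nat_lit 462) ln11_13_0 ln11_13_0_ok) (L (nat_lit 464) ln12_13_0 ln12_13_0_ok))))))) (B (M (nat_lit 395) (B (L (nat_lit 431) ln15_13_3 ln15_13_3_ok) (M (nat_lit 394) (B (L (nat_lit 393) ln9_12_0 ln9_12_0_ok) (L (nat_lit 427) ln14_13_3 ln14_13_3_ok))))) (M (nat_lit 427) (B (M (nat_lit 395) (B (L (nat_lit 394) ln14_13_3 ln14_13_3_ok) (M (nat_lit 459) (B (L (nat_lit 458) ln14_13_1 ln14_13_1_ok) (M (nat_lit 491) (B (L (nat_lit 364) ln11_15_6 ln11_15_6_ok) (L (nat_lit 523) ln11_16_6 ln11_16_6_ok))))))) (B (M (nat_lit 426) (B (M (nat_lit 394) (B (L (nat_lit 393) ln13_13_3 ln13_13_3_ok) (L (nat_lit 395) ln14_13_3 ln14_13_3_ok))) (M (nat_lit 398) (B (L (nat_lit 397) ln10_13_2 ln10_13_2_ok)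 (L (nat_lit 399) ln11_13_2 ln11_13_2_ok))))) (M (nat_lit 426) (B (M (nat_lit 398) (B (L (nat_lit 397) ln10_13_2 ln10_13_2_ok) (L (nat_lit 399) ln11_13_2 ln11_13_2_ok))) (M (nat_lit 458) (B (L (nat_lit 457) ln13_13_1 ln13_13_1_ok) (L (nat_lit 459) ln14_13_1 ln14_13_1_ok)))))))))))))))))))))))))) (nat_lit 1386334847221798047169638878925036799968406779833514899637066259859226863686603287896039777716422623628704219945445734162783797248) (nat_lit 825554280841600030816653803056488089404416878960636140855213702258407352099035751913271855435014088454083552377425746239507250429928931928776548886364968216107948179456) (nat_lit 825554280841600030816653803056488089404416878960636140855213702258407352099035751913271855435014088454083552377425746239507250429928931928776548886364968216107948179456) (by decide +kernel)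
noncomputable def c41_n1303 : Cert := (M (nat_lit 397) (B (M (nat_lit 364) (B (L (nat_lit 332) ln12_10_4 ln12_10_4_ok) (M (nat_lit 365) (B (M (nat_lit 366) (B (L (nat_lit 334) ln13_14_6 ln13_14_6_ok) (M (nat_lit 367) (B (L (nat_lit 395) ln15_11_1 ln15_11_1_ok) (L (nat_lit 368) ln16_11_1 ln16_11_1_ok))))) (M (nat_lit 363) (B (M (nat_lit 460) (B (L (nat_lit 331) ln12_14_7 ln12_14_7_ok) (L (nat_lit 492) ln12_15_6 ln12_15_6_ok))) (M (nat_lit 362) (B (L (nat_lit 361) ln9_11_0 ln9_11_0_ok) (L (nat_lit 398) ln10_11_0 ln10_11_0_ok))))))))) (B (M (nat_lit 365) (B (M (nat_lit 364) (B (L (nat_lit 332) ln13_14_7 ln13_14_7_ok) (M (nat_lit 366) (B (L (nat_lit 334) ln13_14_6 ln13_14_6_ok) (M (nat_lit 367) (B (L (nat_lit 395) ln15_11_1 ln15_11_1_ok) (L (nat_lit 368) ln16_11_1 ln16_11_1_ok))))))) (M (nat_lit 460) (B (L (nat_lit 492) ln12_15_6 ln12_15_6_ok) (M (nat_lit 462) (B (L (nat_lit 494) ln13_11_4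 ln13_11_4_ok) (M (nat_lit 427) (B (L (nat_lit 426) ln10_13_0 ln10_13_0_ok) (L (nat_lit 463) ln15_14_3 ln15_14_3_ok))))))))) (B (M (nat_lit 365) (B (M (nat_lit 460) (B (L (nat_lit 492) ln12_15_6 ln12_15_6_ok) (M (nat_lit 462) (B (L (nat_lit 494) ln13_11_4 ln13_11_4_ok) (M (nat_lit 427) (B (L (nat_lit 426) ln10_13_0 ln10_13_0_ok) (L (nat_lit 463) ln15_14_3 ln15_14_3_ok))))))) (M (nat_lit 366) (B (L (nat_lit 334) ln13_14_6 ln13_14_6_ok) (M (nat_lit 395) (B (L (nat_lit 394) ln10_12_2 ln10_12_2_ok) (M (nat_lit 367) (B (L (nat_lit 368) ln16_11_1 ln16_11_1_ok) (L (nat_lit 398) ln11_12_2 ln11_12_2_ok))))))))) (B (M (nat_lit 364) (B (L (nat_lit 332) ln12_10_4 ln12_10_4_ok) (M (nat_lit 363) (B (M (nat_lit 398) (B (L (nat_lit 399) ln15_12_3 ln15_12_3_ok) (M (nat_lit 362) (B (L (nat_lit 361) ln9_11_0 ln9_11_0_ok) (L (nat_lit 395) ln14_12_3 ln14_12_3_ok))))) (B (M (nat_lit 398) (B (L (nat_lit 399)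 ln15_12_3 ln15_12_3_ok) (M (nat_lit 362) (B (L (nat_lit 365) ln10_11_0 ln10_11_0_ok) (L (nat_lit 395) ln14_12_3 ln14_12_3_ok))))) (B (M (nat_lit 460) (B (L (nat_lit 331) ln12_14_7 ln12_14_7_ok) (M (nat_lit 492) (B (L (nat_lit 395) ln12_15_7 ln12_15_7_ok) (L (nat_lit 365) ln12_15_6 ln12_15_6_ok))))) (M (nat_lit 460) (B (L (nat_lit 331) ln12_14_7 ln12_14_7_ok) (M (nat_lit 492) (B (L (nat_lit 365) ln12_15_6 ln12_15_6_ok) (L (nat_lit 524) ln12_16_6 ln12_16_6_ok))))))))))) (B (M (nat_lit 460) (B (M (nat_lit 492) (B (L (nat_lit 524) ln12_16_6 ln12_16_6_ok) (M (nat_lit 364) (B (L (nat_lit 332) ln12_10_4 ln12_10_4_ok) (M (nat_lit 363) (B (L (nat_lit 331) ln12_14_7 ln12_14_7_ok) (L (nat_lit 395) ln12_15_7 ln12_15_7_ok))))))) (B (M (nat_lit 395) (B (M (nat_lit 492) (B (L (nat_lit 363) ln12_15_7 ln12_15_7_ok) (L (nat_lit 524) ln12_16_6 ln12_16_6_ok))) (M (nat_lit 426) (B (M (nat_lit 394) (B (L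 (nat_lit 393) ln9_12_0 ln9_12_0_ok) (L (nat_lit 425) ln13_12_1 ln13_12_1_ok))) (M (nat_lit 427) (B (L (nat_lit 398) ln14_12_1 ln14_12_1_ok) (L (nat_lit 462) ln10_13_0 ln10_13_0_ok))))))) (M (nat_lit 426) (B (M (nat_lit 427) (B (L (nat_lit 425) ln9_13_2 ln9_13_2_ok) (L (nat_lit 398) ln10_13_2 ln10_13_2_ok))) (B (M (nat_lit 427) (B (L (nat_lit 425) ln9_13_2 ln9_13_2_ok) (L (nat_lit 462) ln10_13_0 ln10_13_0_ok))) (B (M (nat_lit 427) (B (L (nat_lit 398) ln10_13_2 ln10_13_2_ok) (L (nat_lit 462) ln10_13_0 ln10_13_0_ok))) (M (nat_lit 459) (B (M (nat_lit 364) (B (L (nat_lit 332) ln12_10_4 ln12_10_4_ok) (L (nat_lit 491) ln12_11_5 ln12_11_5_ok))) (M (nat_lit 458) (B (L (nat_lit 425) ln13_14_3 ln13_14_3_ok) (L (nat_lit 457) ln9_14_2 ln9_14_2_ok)))))))))))) (B (M (nat_lit 460) (B (M (nat_lit 492) (B (L (nat_lit 365) ln12_15_6 ln12_15_6_ok) (L (nat_lit 524) ln12_16_6 ln12_16_6_ok))) (M (nat_lit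 426) (B (M (nat_lit 427) (B (L (nat_lit 425) ln9_13_2 ln9_13_2_ok) (L (nat_lit 398) ln10_13_2 ln10_13_2_ok))) (B (M (nat_lit 427) (B (L (nat_lit 425) ln9_13_2 ln9_13_2_ok) (L (nat_lit 462) ln10_13_0 ln10_13_0_ok))) (B (M (nat_lit 427) (B (L (nat_lit 398) ln10_13_2 ln10_13_2_ok) (L (nat_lit 462) ln10_13_0 ln10_13_0_ok))) (M (nat_lit 459) (B (M (nat_lit 364) (B (L (nat_lit 332) ln12_10_4 ln12_10_4_ok) (L (nat_lit 491) ln12_11_5 ln12_11_5_ok))) (M (nat_lit 458) (B (L (nat_lit 425) ln13_14_3 ln13_14_3_ok) (L (nat_lit 457) ln9_14_2 ln9_14_2_ok))))))))))) (M (nat_lit 398) (B (M (nat_lit 427) (B (L (nat_lit 399) ln15_12_1 ln15_12_1_ok) (L (nat_lit 426) ln10_13_2 ln10_13_2_ok))) (M (nat_lit 395) (B (M (nat_lit 394) (B (L (nat_lit 393) ln9_12_0 ln9_12_0_ok) (M (nat_lit 362) (B (L (nat_lit 361) ln13_12_3 ln13_12_3_ok) (L (nat_lit 363) ln14_12_3 ln14_12_3_ok))))) (B (M (nat_lit 366) (B (L (nat_lit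 367) ln11_12_2 ln11_12_2_ok) (M (nat_lit 394) (B (L (nat_lit 365) ln10_12_2 ln10_12_2_ok) (L (nat_lit 393) ln9_12_0 ln9_12_0_ok))))) (M (nat_lit 366) (B (L (nat_lit 367) ln11_12_2 ln11_12_2_ok) (M (nat_lit 334) (B (L (nat_lit 302) ln14_9_5 ln14_9_5_ok) (L (nat_lit 365) ln13_14_6 ln13_14_6_ok)))))))))))))))))
theorem c41_s1304 : Sem (nat_lit 2079502270752001762064242424960807725827516048677469043429686155012882190638009693656033379242457518153052022685796627120027336704) (nat_lit 384428669063214259551955687305804751017985540568083010949714773855644181718791936347150373005832356893542900179372648406400653122571006404005014753979993686016) (nat_lit 384428669063214259551955687305804751017985540568083010949714773855644181718791936347150373005832356893542900179372648406400653122571006404005014753979993686016) :=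
  sem_of_chk (M (nat_lit 461) (B (M (nat_lit 493) (B (L (nat_lit 525) ln13_16_7 ln13_16_7_ok) (M (nat_lit 364) (B (L (nat_lit 332) ln12_10_4 ln12_10_4_ok) (L (nat_lit 460) ln12_11_4 ln12_11_4_ok))))) (B (M (nat_lit 493) (B (L (nat_lit 525) ln13_16_7 ln13_16_7_ok) (M (nat_lit 364) (B (L (nat_lit 397) ln13_15_7 ln13_15_7_ok) (L (nat_lit 460) ln12_11_4 ln12_11_4_ok))))) (B (M (nat_lit 493) (B (L (nat_lit 525) ln13_16_7 ln13_16_7_ok) (M (nat_lit 397) (B (M (nat_lit 398) (B (L (nat_lit 366) ln13_15_6 ln13_15_6_ok) (M (nat_lit 399) (B (L (nat_lit 427) ln15_12_1 ln15_12_1_ok) (L (nat_lit 400) ln16_12_1 ln16_12_1_ok))))) (M (nat_lit 492) (B (L (nat_lit 524) ln13_12_5 ln13_12_5_ok) (M (nat_lit 365) (B (L (nat_lit 460) ln12_15_6 ln12_15_6_ok) (M (nat_lit 494) (B (L (nat_lit 462) ln13_11_4 ln13_11_4_ok) (L (nat_lit 526) ln13_12_4 ln13_12_4_ok))))))))))) (B (M (nat_lit 493) (B (L (nat_lit 525)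 ln13_16_7 ln13_16_7_ok) (M (nat_lit 364) (B (L (nat_lit 332) ln12_10_4 ln12_10_4_ok) (L (nat_lit 397) ln13_15_7 ln13_15_7_ok))))) c41_n1303))))) (nat_lit 2079502270752001762064242424960807725827516048677469043429686155012882190638009693656033379242457518153052022685796627120027336704) (nat_lit 384428669063214259551955687305804751017985540568083010949714773855644181718791936347150373005832356893542900179372648406400653122571006404005014753979993686016) (nat_lit 384428669063214259551955687305804751017985540568083010949714773855644181718791936347150373005832356893542900179372648406400653122571006404005014753979993686016) (by decide +kernel)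
noncomputable def c41_n1318 : Cert := (M (nat_lit 430) (B (M (nat_lit 395) (B (L (nat_lit 431) ln15_13_3 ln15_13_3_ok) (M (nat_lit 394) (B (L (nat_lit 393) ln9_12_0 ln9_12_0_ok) (L (nat_lit 397) ln10_12_0 ln10_12_0_ok))))) (B (M (nat_lit 395) (B (L (nat_lit 431) ln15_13_3 ln15_13_3_ok) (M (nat_lit 394) (B (L (nat_lit 397) ln10_12_0 ln10_12_0_ok) (L (nat_lit 427) ln14_13_3 ln14_13_3_ok))))) (B (M (nat_lit 431) (B (L (nat_lit 395) ln15_13_3 ln15_13_3_ok) (M (nat_lit 400) (B (L (nat_lit 399) ln12_13_2 ln12_13_2_ok) (M (nat_lit 432) (B (L (nat_lit 397) ln16_13_3 ln16_13_3_ok) (L (nat_lit 401) ln13_13_2 ln13_13_2_ok))))))) (B (M (nat_lit 431) (B (M (nat_lit 400) (B (L (nat_lit 399) ln12_13_2 ln12_13_2_ok) (M (nat_lit 432) (B (L (nat_lit 397) ln16_13_3 ln16_13_3_ok) (L (nat_lit 401) ln13_13_2 ln13_13_2_ok))))) (B (M (nat_lit 427) (B (M (nat_lit 399) (B (L (nat_lit 398) ln11_13_2 ln11_13_2_ok)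 (L (nat_lit 400) ln12_13_2 ln12_13_2_ok))) (M (nat_lit 463) (B (L (nat_lit 462) ln11_13_0 ln11_13_0_ok) (L (nat_lit 464) ln12_13_0 ln12_13_0_ok))))) (M (nat_lit 460) (B (L (nat_lit 459) ln15_13_1 ln15_13_1_ok) (M (nat_lit 432) (B (L (nat_lit 397) ln16_13_3 ln16_13_3_ok) (L (nat_lit 461) ln16_13_1 ln16_13_1_ok)))))))) (B (M (nat_lit 395) (B (L (nat_lit 431) ln15_13_3 ln15_13_3_ok) (M (nat_lit 394) (B (L (nat_lit 393) ln9_12_0 ln9_12_0_ok) (L (nat_lit 427) ln14_13_3 ln14_13_3_ok))))) (M (nat_lit 397) (B (M (nat_lit 398) (B (M (nat_lit 427) (B (L (nat_lit 399) ln15_12_1 ln15_12_1_ok) (L (nat_lit 426) ln10_13_2 ln10_13_2_ok))) (M (nat_lit 366) (B (M (nat_lit 334) (B (L (nat_lit 302) ln14_9_5 ln14_9_5_ok) (L (nat_lit 461) ln14_10_5 ln14_10_5_ok))) (M (nat_lit 395) (B (L (nat_lit 367) ln11_12_2 ln11_12_2_ok) (L (nat_lit 394) ln10_12_0 ln10_12_0_ok))))))) (B (M (nat_lit 398) (B (M (nat_lit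 399) (B (L (nat_lit 427) ln15_12_1 ln15_12_1_ok) (L (nat_lit 400) ln16_12_1 ln16_12_1_ok))) (B (M (nat_lit 462) (B (M (nat_lit 494) (B (L (nat_lit 365) ln14_15_7 ln14_15_7_ok) (L (nat_lit 526) ln14_16_7 ln14_16_7_ok))) (M (nat_lit 427) (B (L (nat_lit 426) ln10_13_2 ln10_13_2_ok) (L (nat_lit 463) ln11_13_0 ln11_13_0_ok))))) (M (nat_lit 364) (B (M (nat_lit 399) (B (L (nat_lit 363) ln15_12_3 ln15_12_3_ok) (L (nat_lit 400) ln16_12_1 ln16_12_1_ok))) (M (nat_lit 461) (B (L (nat_lit 332) ln12_10_4 ln12_10_4_ok) (L (nat_lit 493) ln13_15_7 ln13_15_7_ok)))))))) (B (M (nat_lit 461) (B (M (nat_lit 364) (B (L (nat_lit 332) ln12_10_4 ln12_10_4_ok) (L (nat_lit 493) ln13_15_7 ln13_15_7_ok))) (M (nat_lit 462) (B (M (nat_lit 494) (B (L (nat_lit 365) ln13_11_4 ln13_11_4_ok) (L (nat_lit 526) ln14_16_7 ln14_16_7_ok))) (M (nat_lit 463) (B (L (nat_lit 427) ln11_13_0 ln11_13_0_ok) (L (nat_lit 464) ln16_14_3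 ln16_14_3_ok))))))) (B (M (nat_lit 398) (B (M (nat_lit 363) (B (M (nat_lit 395) (B (L (nat_lit 362) ln14_12_3 ln14_12_3_ok) (L (nat_lit 394) ln10_12_0 ln10_12_0_ok))) (M (nat_lit 399) (B (L (nat_lit 364) ln15_12_3 ln15_12_3_ok) (L (nat_lit 400) ln16_12_1 ln16_12_1_ok))))) (B (M (nat_lit 364) (B (M (nat_lit 399) (B (L (nat_lit 363) ln15_12_3 ln15_12_3_ok) (L (nat_lit 400) ln16_12_1 ln16_12_1_ok))) (M (nat_lit 461) (B (L (nat_lit 332) ln12_10_4 ln12_10_4_ok) (L (nat_lit 493) ln13_15_7 ln13_15_7_ok))))) (M (nat_lit 366) (B (M (nat_lit 334) (B (L (nat_lit 302) ln14_9_5 ln14_9_5_ok) (L (nat_lit 461) ln14_10_5 ln14_10_5_ok))) (M (nat_lit 395) (B (L (nat_lit 367) ln11_12_2 ln11_12_2_ok) (L (nat_lit 394) ln10_12_0 ln10_12_0_ok)))))))) (M (nat_lit 398) (B (M (nat_lit 399) (B (L (nat_lit 427) ln15_12_1 ln15_12_1_ok) (L (nat_lit 400) ln16_12_1 ln16_12_1_ok))) (B (M (nat_lit 462) (B (M (nat_lit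 494) (B (L (nat_lit 365) ln14_15_7 ln14_15_7_ok) (L (nat_lit 526) ln14_16_7 ln14_16_7_ok))) (M (nat_lit 427) (B (L (nat_lit 426) ln10_13_2 ln10_13_2_ok) (L (nat_lit 463) ln11_13_0 ln11_13_0_ok))))) (M (nat_lit 363) (B (M (nat_lit 395) (B (L (nat_lit 362) ln14_12_3 ln14_12_3_ok) (L (nat_lit 394) ln10_12_0 ln10_12_0_ok))) (M (nat_lit 399) (B (L (nat_lit 364) ln15_12_3 ln15_12_3_ok) (L (nat_lit 400) ln16_12_1 ln16_12_1_ok)))))))))))))))))))
noncomputable def c41_n1319 : Cert := (M (nat_lit 430) (B (M (nat_lit 395) (B (L (nat_lit 431) ln15_13_3 ln15_13_3_ok) (M (nat_lit 394) (B (L (nat_lit 393) ln9_12_0 ln9_12_0_ok) (L (nat_lit 427) ln14_13_3 ln14_13_3_ok))))) (B (M (nat_lit 395) (B (L (nat_lit 431) ln15_13_3 ln15_13_3_ok) (M (nat_lit 394) (B (L (nat_lit 397) ln10_12_0 ln10_12_0_ok) (L (nat_lit 427) ln14_13_3 ln14_13_3_ok))))) (B (M (nat_lit 431) (B (L (nat_lit 395) ln15_13_3 ln15_13_3_ok)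 (M (nat_lit 400) (B (L (nat_lit 399) ln12_13_2 ln12_13_2_ok) (M (nat_lit 432) (B (L (nat_lit 397) ln16_13_3 ln16_13_3_ok) (L (nat_lit 401) ln13_13_2 ln13_13_2_ok))))))) (B (M (nat_lit 461) (B (M (nat_lit 364) (B (L (nat_lit 332) ln12_10_4 ln12_10_4_ok) (M (nat_lit 493) (B (L (nat_lit 397) ln13_15_7 ln13_15_7_ok) (L (nat_lit 525) ln13_16_7 ln13_16_7_ok))))) (B (M (nat_lit 493) (B (L (nat_lit 525) ln13_16_7 ln13_16_7_ok) (M (nat_lit 364) (B (L (nat_lit 397) ln13_15_7 ln13_15_7_ok) (L (nat_lit 460) ln12_11_4 ln12_11_4_ok))))) (B (M (nat_lit 427) (B (M (nat_lit 462) (B (L (nat_lit 426) ln10_13_0 ln10_13_0_ok) (L (nat_lit 463) ln11_13_0 ln11_13_0_ok))) (M (nat_lit 431) (B (M (nat_lit 399) (B (L (nat_lit 398) ln11_13_2 ln11_13_2_ok) (L (nat_lit 400) ln12_13_2 ln12_13_2_ok))) (M (nat_lit 432) (B (L (nat_lit 397) ln16_13_3 ln16_13_3_ok) (L (nat_lit 460) ln16_13_1 ln16_13_1_ok))))))) (M (nat_lit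 364) (B (L (nat_lit 332) ln12_10_4 ln12_10_4_ok) (M (nat_lit 493) (B (L (nat_lit 460) ln12_11_4 ln12_11_4_ok) (L (nat_lit 525) ln13_16_7 ln13_16_7_ok))))))))) (M (nat_lit 397) (B (M (nat_lit 398) (B (M (nat_lit 427) (B (L (nat_lit 399) ln15_12_1 ln15_12_1_ok) (L (nat_lit 426) ln10_13_2 ln10_13_2_ok))) (M (nat_lit 366) (B (M (nat_lit 334) (B (L (nat_lit 302) ln14_9_5 ln14_9_5_ok) (L (nat_lit 461) ln14_10_5 ln14_10_5_ok))) (M (nat_lit 395) (B (L (nat_lit 367) ln11_12_2 ln11_12_2_ok) (L (nat_lit 394) ln10_12_0 ln10_12_0_ok))))))) (B (M (nat_lit 398) (B (M (nat_lit 399) (B (L (nat_lit 427) ln15_12_1 ln15_12_1_ok) (L (nat_lit 400) ln16_12_1 ln16_12_1_ok))) (B (M (nat_lit 462) (B (M (nat_lit 494) (B (L (nat_lit 365) ln14_15_7 ln14_15_7_ok) (L (nat_lit 526) ln14_16_7 ln14_16_7_ok))) (M (nat_lit 427) (B (L (nat_lit 426) ln10_13_2 ln10_13_2_ok) (L (nat_lit 463) ln11_13_0 ln11_13_0_ok))))) (M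 (nat_lit 364) (B (M (nat_lit 399) (B (L (nat_lit 363) ln15_12_3 ln15_12_3_ok) (L (nat_lit 400) ln16_12_1 ln16_12_1_ok))) (M (nat_lit 461) (B (L (nat_lit 332) ln12_10_4 ln12_10_4_ok) (L (nat_lit 493) ln13_15_7 ln13_15_7_ok)))))))) (B (M (nat_lit 461) (B (M (nat_lit 364) (B (L (nat_lit 332) ln12_10_4 ln12_10_4_ok) (L (nat_lit 493) ln13_15_7 ln13_15_7_ok))) (M (nat_lit 462) (B (M (nat_lit 494) (B (L (nat_lit 365) ln13_11_4 ln13_11_4_ok) (L (nat_lit 526) ln14_16_7 ln14_16_7_ok))) (M (nat_lit 463) (B (L (nat_lit 427) ln11_13_0 ln11_13_0_ok) (L (nat_lit 464) ln16_14_3 ln16_14_3_ok))))))) (B (M (nat_lit 398) (B (M (nat_lit 363) (B (M (nat_lit 395) (B (L (nat_lit 362) ln14_12_3 ln14_12_3_ok) (L (nat_lit 394) ln10_12_0 ln10_12_0_ok))) (M (nat_lit 399) (B (L (nat_lit 364) ln15_12_3 ln15_12_3_ok) (L (nat_lit 400) ln16_12_1 ln16_12_1_ok))))) (B (M (nat_lit 364) (B (M (nat_lit 399) (B (L (nat_lit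 363) ln15_12_3 ln15_12_3_ok) (L (nat_lit 400) ln16_12_1 ln16_12_1_ok))) (M (nat_lit 461) (B (L (nat_lit 332) ln12_10_4 ln12_10_4_ok) (L (nat_lit 493) ln13_15_7 ln13_15_7_ok))))) (M (nat_lit 366) (B (M (nat_lit 334) (B (L (nat_lit 302) ln14_9_5 ln14_9_5_ok) (L (nat_lit 461) ln14_10_5 ln14_10_5_ok))) (M (nat_lit 395) (B (L (nat_lit 367) ln11_12_2 ln11_12_2_ok) (L (nat_lit 394) ln10_12_0 ln10_12_0_ok)))))))) (M (nat_lit 398) (B (M (nat_lit 399) (B (L (nat_lit 427) ln15_12_1 ln15_12_1_ok) (L (nat_lit 400) ln16_12_1 ln16_12_1_ok))) (B (M (nat_lit 462) (B (M (nat_lit 494) (B (L (nat_lit 365) ln14_15_7 ln14_15_7_ok) (L (nat_lit 526) ln14_16_7 ln14_16_7_ok))) (M (nat_lit 427) (B (L (nat_lit 426) ln10_13_2 ln10_13_2_ok) (L (nat_lit 463) ln11_13_0 ln11_13_0_ok))))) (M (nat_lit 363) (B (M (nat_lit 395) (B (L (nat_lit 362) ln14_12_3 ln14_12_3_ok) (L (nat_lit 394) ln10_12_0 ln10_12_0_ok))) (M (nat_lit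 399) (B (L (nat_lit 364) ln15_12_3 ln15_12_3_ok) (L (nat_lit 400) ln16_12_1 ln16_12_1_ok))))))))))))))))))
theorem c41_s1320 : Sem (nat_lit 1386334847221798047169638878925036799968406779833514899637066259859226863686603287896039777716422623628704219945445734162783797248) (nat_lit 235872651963234194218833859771284198839976648629671701104034711530393573249819926651507304328391084910736918050652163441824939244023875877859584799363960261910988849152) (nat_lit 235872651963234194218833859771284198839976648629671701104034711530393573249819926651507304328391084910736918050652163441824939244023875877859584799363960261910988849152) :=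
  sem_of_chk (M (nat_lit 428) (B (M (nat_lit 430) (B (M (nat_lit 395) (B (L (nat_lit 431) ln15_13_3 ln15_13_3_ok) (M (nat_lit 394) (B (L (nat_lit 393) ln9_12_0 ln9_12_0_ok) (L (nat_lit 397) ln10_12_0 ln10_12_0_ok))))) (B (M (nat_lit 395) (B (L (nat_lit 431) ln15_13_3 ln15_13_3_ok) (M (nat_lit 394) (B (L (nat_lit 397) ln10_12_0 ln10_12_0_ok) (L (nat_lit 427) ln14_13_3 ln14_13_3_ok))))) (B (M (nat_lit 431) (B (L (nat_lit 395) ln15_13_3 ln15_13_3_ok) (M (nat_lit 427) (B (M (nat_lit 399) (B (L (nat_lit 398) ln11_13_2 ln11_13_2_ok) (L (nat_lit 400) ln12_13_2 ln12_13_2_ok))) (M (nat_lit 463) (B (L (nat_lit 462) ln11_13_0 ln11_13_0_ok) (L (nat_lit 464) ln12_13_0 ln12_13_0_ok))))))) (B (M (nat_lit 427) (B (M (nat_lit 426) (B (M (nat_lit 458) (B (L (nat_lit 457) ln13_13_1 ln13_13_1_ok) (L (nat_lit 459) ln14_13_1 ln14_13_1_ok))) (M (nat_lit 462) (B (L (nat_lit 461) ln10_13_0 ln10_13_0_ok) (L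 (nat_lit 463) ln11_13_0 ln11_13_0_ok))))) (B (M (nat_lit 431) (B (M (nat_lit 399) (B (L (nat_lit 398) ln11_13_2 ln11_13_2_ok) (L (nat_lit 400) ln12_13_2 ln12_13_2_ok))) (M (nat_lit 463) (B (L (nat_lit 462) ln11_13_0 ln11_13_0_ok) (L (nat_lit 464) ln12_13_0 ln12_13_0_ok))))) (M (nat_lit 426) (B (M (nat_lit 397) (B (L (nat_lit 425) ln9_13_2 ln9_13_2_ok) (L (nat_lit 398) ln10_13_2 ln10_13_2_ok))) (M (nat_lit 458) (B (L (nat_lit 457) ln13_13_1 ln13_13_1_ok) (L (nat_lit 459) ln14_13_1 ln14_13_1_ok)))))))) (M (nat_lit 395) (B (M (nat_lit 394) (B (L (nat_lit 393) ln9_12_0 ln9_12_0_ok) (L (nat_lit 397) ln10_12_0 ln10_12_0_ok))) (B (M (nat_lit 394) (B (L (nat_lit 397) ln10_12_0 ln10_12_0_ok) (L (nat_lit 427) ln14_13_3 ln14_13_3_ok))) (B (M (nat_lit 427) (B (M (nat_lit 459) (B (L (nat_lit 458) ln14_13_1 ln14_13_1_ok) (M (nat_lit 491) (B (L (nat_lit 364) ln11_15_6 ln11_15_6_ok) (L (nat_lit 523)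 ln11_16_6 ln11_16_6_ok))))) (M (nat_lit 426) (B (M (nat_lit 398) (B (L (nat_lit 397) ln14_12_1 ln14_12_1_ok) (L (nat_lit 399) ln11_13_2 ln11_13_2_ok))) (M (nat_lit 462) (B (L (nat_lit 461) ln10_13_0 ln10_13_0_ok) (L (nat_lit 463) ln11_13_0 ln11_13_0_ok))))))) (M (nat_lit 394) (B (L (nat_lit 393) ln9_12_0 ln9_12_0_ok) (L (nat_lit 427) ln14_13_3 ln14_13_3_ok)))))))))))) (B (M (nat_lit 430) (B (M (nat_lit 395) (B (L (nat_lit 431) ln15_13_3 ln15_13_3_ok) (M (nat_lit 394) (B (L (nat_lit 393) ln9_12_0 ln9_12_0_ok) (L (nat_lit 427) ln14_13_3 ln14_13_3_ok))))) (B (M (nat_lit 395) (B (L (nat_lit 431) ln15_13_3 ln15_13_3_ok) (M (nat_lit 394) (B (L (nat_lit 397) ln10_12_0 ln10_12_0_ok) (L (nat_lit 427) ln14_13_3 ln14_13_3_ok))))) (B (M (nat_lit 431) (B (L (nat_lit 395) ln15_13_3 ln15_13_3_ok) (M (nat_lit 400) (B (L (nat_lit 399) ln12_13_2 ln12_13_2_ok) (M (nat_lit 432) (B (L (nat_lit 397) ln16_13_3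 ln16_13_3_ok) (L (nat_lit 401) ln13_13_2 ln13_13_2_ok))))))) (B (M (nat_lit 431) (B (M (nat_lit 400) (B (L (nat_lit 399) ln12_13_2 ln12_13_2_ok) (M (nat_lit 432) (B (L (nat_lit 397) ln16_13_3 ln16_13_3_ok) (L (nat_lit 401) ln13_13_2 ln13_13_2_ok))))) (M (nat_lit 427) (B (M (nat_lit 459) (B (L (nat_lit 458) ln14_13_1 ln14_13_1_ok) (L (nat_lit 460) ln15_13_1 ln15_13_1_ok))) (M (nat_lit 463) (B (L (nat_lit 462) ln11_13_0 ln11_13_0_ok) (L (nat_lit 464) ln12_13_0 ln12_13_0_ok))))))) (M (nat_lit 427) (B (M (nat_lit 398) (B (L (nat_lit 399) ln11_13_2 ln11_13_2_ok) (M (nat_lit 426) (B (L (nat_lit 397) ln10_13_2 ln10_13_2_ok) (M (nat_lit 462) (B (L (nat_lit 461) ln10_13_0 ln10_13_0_ok) (L (nat_lit 463) ln11_13_0 ln11_13_0_ok))))))) (B (M (nat_lit 426) (B (M (nat_lit 458) (B (L (nat_lit 457) ln13_13_1 ln13_13_1_ok) (L (nat_lit 459) ln14_13_1 ln14_13_1_ok))) (M (nat_lit 462) (B (L (nat_lit 461)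 ln10_13_0 ln10_13_0_ok) (L (nat_lit 463) ln11_13_0 ln11_13_0_ok))))) (B (M (nat_lit 398) (B (L (nat_lit 399) ln11_13_2 ln11_13_2_ok) (M (nat_lit 397) (B (M (nat_lit 462) (B (L (nat_lit 463) ln11_13_0 ln11_13_0_ok) (M (nat_lit 494) (B (L (nat_lit 365) ln14_15_7 ln14_15_7_ok) (L (nat_lit 526) ln14_16_7 ln14_16_7_ok))))) (M (nat_lit 366) (B (M (nat_lit 395) (B (L (nat_lit 367) ln11_12_2 ln11_12_2_ok) (L (nat_lit 394) ln10_12_0 ln10_12_0_ok))) (M (nat_lit 461) (B (L (nat_lit 334) ln14_10_5 ln14_10_5_ok) (L (nat_lit 493) ln13_15_6 ln13_15_6_ok))))))))) (M (nat_lit 426) (B (M (nat_lit 398) (B (L (nat_lit 397) ln10_13_2 ln10_13_2_ok) (L (nat_lit 399) ln11_13_2 ln11_13_2_ok))) (M (nat_lit 458) (B (L (nat_lit 457) ln13_13_1 ln13_13_1_ok) (L (nat_lit 459) ln14_13_1 ln14_13_1_ok)))))))))))))) (B (M (nat_lit 427) (B (M (nat_lit 459) (B (M (nat_lit 430) (B (L (nat_lit 458) ln14_13_1 ln14_13_1_ok)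 (M (nat_lit 431) (B (L (nat_lit 395) ln15_13_3 ln15_13_3_ok) (L (nat_lit 460) ln15_13_1 ln15_13_1_ok))))) (B (M (nat_lit 460) (B (M (nat_lit 491) (B (L (nat_lit 364) ln12_11_5 ln12_11_5_ok) (L (nat_lit 523) ln11_16_6 ln11_16_6_ok))) (M (nat_lit 430) (B (L (nat_lit 458) ln14_13_1 ln14_13_1_ok) (L (nat_lit 431) ln15_13_1 ln15_13_1_ok))))) (B (M (nat_lit 491) (B (L (nat_lit 523) ln11_16_6 ln11_16_6_ok) (M (nat_lit 364) (B (L (nat_lit 395) ln11_15_6 ln11_15_6_ok) (L (nat_lit 460) ln12_11_5 ln12_11_5_ok))))) (M (nat_lit 395) (B (M (nat_lit 491) (B (L (nat_lit 364) ln11_15_6 ln11_15_6_ok) (L (nat_lit 523) ln11_16_6 ln11_16_6_ok))) (M (nat_lit 430) (B (L (nat_lit 431) ln15_13_3 ln15_13_3_ok) (L (nat_lit 458) ln14_13_1 ln14_13_1_ok))))))))) (B (M (nat_lit 430) (B (M (nat_lit 395) (B (L (nat_lit 394) ln14_13_3 ln14_13_3_ok) (L (nat_lit 431) ln15_13_3 ln15_13_3_ok))) (M (nat_lit 426) (B (M (nat_lit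 458) (B (L (nat_lit 457) ln13_13_1 ln13_13_1_ok) (L (nat_lit 459) ln14_13_1 ln14_13_1_ok))) (M (nat_lit 462) (B (L (nat_lit 461) ln10_13_0 ln10_13_0_ok) (L (nat_lit 463) ln11_13_0 ln11_13_0_ok))))))) (B (M (nat_lit 461) (B (M (nat_lit 462) (B (L (nat_lit 426) ln10_13_0 ln10_13_0_ok) (M (nat_lit 463) (B (L (nat_lit 430) ln11_13_0 ln11_13_0_ok) (L (nat_lit 460) ln15_14_3 ln15_14_3_ok))))) (B (M (nat_lit 493) (B (L (nat_lit 525) ln13_16_7 ln13_16_7_ok) (M (nat_lit 364) (B (L (nat_lit 397) ln13_15_7 ln13_15_7_ok) (L (nat_lit 460) ln12_11_4 ln12_11_4_ok))))) (M (nat_lit 462) (B (L (nat_lit 426) ln10_13_0 ln10_13_0_ok) (M (nat_lit 463) (B (L (nat_lit 430) ln11_13_0 ln11_13_0_ok) (L (nat_lit 464) ln16_14_3 ln16_14_3_ok)))))))) (M (nat_lit 461) (B (M (nat_lit 462) (B (L (nat_lit 426) ln10_13_0 ln10_13_0_ok) (M (nat_lit 463) (B (L (nat_lit 460) ln15_14_3 ln15_14_3_ok) (L (nat_lit 464) ln16_14_3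 ln16_14_3_ok))))) (B (M (nat_lit 493) (B (L (nat_lit 525) ln13_16_7 ln13_16_7_ok) (M (nat_lit 364) (B (L (nat_lit 397) ln13_15_7 ln13_15_7_ok) (L (nat_lit 460) ln12_11_4 ln12_11_4_ok))))) (M (nat_lit 397) (B (M (nat_lit 493) (B (L (nat_lit 364) ln13_15_7 ln13_15_7_ok) (L (nat_lit 525) ln13_16_7 ln13_16_7_ok))) (M (nat_lit 426) (B (L (nat_lit 425) ln9_13_2 ln9_13_2_ok) (L (nat_lit 462) ln10_13_0 ln10_13_0_ok)))))))))))) (B (M (nat_lit 427) (B (M (nat_lit 459) (B (M (nat_lit 430) (B (L (nat_lit 458) ln14_13_1 ln14_13_1_ok) (M (nat_lit 431) (B (L (nat_lit 395) ln15_13_3 ln15_13_3_ok) (L (nat_lit 460) ln15_13_1 ln15_13_1_ok))))) (B (M (nat_lit 460) (B (M (nat_lit 491) (B (L (nat_lit 364) ln12_11_5 ln12_11_5_ok) (L (nat_lit 523) ln11_16_6 ln11_16_6_ok))) (M (nat_lit 430) (B (L (nat_lit 458) ln14_13_1 ln14_13_1_ok) (L (nat_lit 431) ln15_13_1 ln15_13_1_ok))))) (B (M (nat_lit 491) (B (L (nat_lit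 523) ln11_16_6 ln11_16_6_ok) (M (nat_lit 364) (B (L (nat_lit 395) ln11_15_6 ln11_15_6_ok) (L (nat_lit 460) ln12_11_5 ln12_11_5_ok))))) (M (nat_lit 395) (B (M (nat_lit 491) (B (L (nat_lit 364) ln11_15_6 ln11_15_6_ok) (L (nat_lit 523) ln11_16_6 ln11_16_6_ok))) (M (nat_lit 430) (B (L (nat_lit 431) ln15_13_3 ln15_13_3_ok) (L (nat_lit 458) ln14_13_1 ln14_13_1_ok))))))))) (B (M (nat_lit 430) (B (M (nat_lit 431) (B (L (nat_lit 395) ln15_13_3 ln15_13_3_ok) (M (nat_lit 459) (B (L (nat_lit 458) ln14_13_1 ln14_13_1_ok) (L (nat_lit 460) ln15_13_1 ln15_13_1_ok))))) (M (nat_lit 426) (B (M (nat_lit 397) (B (L (nat_lit 425) ln9_13_2 ln9_13_2_ok) (L (nat_lit 398) ln10_13_2 ln10_13_2_ok))) (M (nat_lit 462) (B (L (nat_lit 461) ln10_13_0 ln10_13_0_ok) (L (nat_lit 463) ln11_13_0 ln11_13_0_ok))))))) (B (M (nat_lit 461) (B (M (nat_lit 462) (B (L (nat_lit 426) ln10_13_0 ln10_13_0_ok) (M (nat_lit 463) (B (L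 (nat_lit 430) ln11_13_0 ln11_13_0_ok) (L (nat_lit 460) ln15_14_3 ln15_14_3_ok))))) (B (M (nat_lit 493) (B (L (nat_lit 525) ln13_16_7 ln13_16_7_ok) (M (nat_lit 364) (B (L (nat_lit 397) ln13_15_7 ln13_15_7_ok) (L (nat_lit 460) ln12_11_4 ln12_11_4_ok))))) (M (nat_lit 462) (B (L (nat_lit 426) ln10_13_0 ln10_13_0_ok) (M (nat_lit 463) (B (L (nat_lit 430) ln11_13_0 ln11_13_0_ok) (L (nat_lit 464) ln16_14_3 ln16_14_3_ok)))))))) (B (M (nat_lit 461) (B (M (nat_lit 462) (B (L (nat_lit 426) ln10_13_0 ln10_13_0_ok) (M (nat_lit 463) (B (L (nat_lit 460) ln15_14_3 ln15_14_3_ok) (L (nat_lit 464) ln16_14_3 ln16_14_3_ok))))) (B (M (nat_lit 493) (B (L (nat_lit 525) ln13_16_7 ln13_16_7_ok) (M (nat_lit 364) (B (L (nat_lit 397) ln13_15_7 ln13_15_7_ok) (L (nat_lit 460) ln12_11_4 ln12_11_4_ok))))) (M (nat_lit 426) (B (L (nat_lit 462) ln10_13_0 ln10_13_0_ok) (M (nat_lit 397) (B (L (nat_lit 425) ln9_13_2 ln9_13_2_ok)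 (L (nat_lit 398) ln10_13_2 ln10_13_2_ok)))))))) (M (nat_lit 430) (B (M (nat_lit 431) (B (L (nat_lit 395) ln15_13_3 ln15_13_3_ok) (M (nat_lit 399) (B (L (nat_lit 398) ln11_13_2 ln11_13_2_ok) (L (nat_lit 400) ln12_13_2 ln12_13_2_ok))))) (B (M (nat_lit 426) (B (M (nat_lit 397) (B (L (nat_lit 425) ln9_13_2 ln9_13_2_ok) (L (nat_lit 398) ln10_13_2 ln10_13_2_ok))) (M (nat_lit 462) (B (L (nat_lit 461) ln10_13_0 ln10_13_0_ok) (L (nat_lit 463) ln11_13_0 ln11_13_0_ok))))) (M (nat_lit 431) (B (L (nat_lit 395) ln15_13_3 ln15_13_3_ok) (M (nat_lit 463) (B (L (nat_lit 462) ln11_13_0 ln11_13_0_ok) (L (nat_lit 464) ln12_13_0 ln12_13_0_ok))))))))))))) (B (M (nat_lit 427) (B (M (nat_lit 461) (B (M (nat_lit 462) (B (L (nat_lit 426) ln10_13_0 ln10_13_0_ok) (M (nat_lit 463) (B (L (nat_lit 460) ln15_14_3 ln15_14_3_ok) (L (nat_lit 464) ln16_14_3 ln16_14_3_ok))))) (M (nat_lit 364) (B (L (nat_lit 332) ln12_10_4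 ln12_10_4_ok) (M (nat_lit 493) (B (L (nat_lit 397) ln13_15_7 ln13_15_7_ok) (L (nat_lit 525) ln13_16_7 ln13_16_7_ok))))))) (B (M (nat_lit 461) (B (M (nat_lit 462) (B (L (nat_lit 426) ln10_13_0 ln10_13_0_ok) (M (nat_lit 463) (B (L (nat_lit 430) ln11_13_0 ln11_13_0_ok) (L (nat_lit 464) ln16_14_3 ln16_14_3_ok))))) (M (nat_lit 493) (B (L (nat_lit 525) ln13_16_7 ln13_16_7_ok) (M (nat_lit 364) (B (L (nat_lit 397) ln13_15_7 ln13_15_7_ok) (L (nat_lit 460) ln12_11_4 ln12_11_4_ok))))))) (B (M (nat_lit 426) (B (M (nat_lit 397) (B (L (nat_lit 425) ln9_13_2 ln9_13_2_ok) (L (nat_lit 398) ln10_13_2 ln10_13_2_ok))) (M (nat_lit 430) (B (M (nat_lit 458) (B (L (nat_lit 457) ln13_13_1 ln13_13_1_ok) (L (nat_lit 459) ln14_13_1 ln14_13_1_ok))) (M (nat_lit 462) (B (L (nat_lit 461) ln10_13_0 ln10_13_0_ok) (L (nat_lit 463) ln11_13_0 ln11_13_0_ok))))))) (B (M (nat_lit 461) (B (M (nat_lit 462) (B (L (nat_lit 426)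 ln10_13_0 ln10_13_0_ok) (M (nat_lit 463) (B (L (nat_lit 430) ln11_13_0 ln11_13_0_ok) (L (nat_lit 460) ln15_14_3 ln15_14_3_ok))))) (B (M (nat_lit 364) (B (L (nat_lit 332) ln12_10_4 ln12_10_4_ok) (M (nat_lit 493) (B (L (nat_lit 460) ln12_11_4 ln12_11_4_ok) (L (nat_lit 525) ln13_16_7 ln13_16_7_ok))))) (M (nat_lit 462) (B (L (nat_lit 426) ln10_13_0 ln10_13_0_ok) (M (nat_lit 463) (B (L (nat_lit 430) ln11_13_0 ln11_13_0_ok) (L (nat_lit 464) ln16_14_3 ln16_14_3_ok)))))))) (B (M (nat_lit 459) (B (M (nat_lit 364) (B (L (nat_lit 332) ln12_10_5 ln12_10_5_ok) (M (nat_lit 491) (B (L (nat_lit 460) ln12_11_5 ln12_11_5_ok) (L (nat_lit 523) ln11_16_6 ln11_16_6_ok))))) (B (M (nat_lit 460) (B (M (nat_lit 491) (B (L (nat_lit 364) ln12_11_5 ln12_11_5_ok) (L (nat_lit 523) ln11_16_6 ln11_16_6_ok))) (M (nat_lit 430) (B (L (nat_lit 458) ln14_13_1 ln14_13_1_ok) (L (nat_lit 431) ln15_13_1 ln15_13_1_ok))))) (B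 (M (nat_lit 430) (B (L (nat_lit 458) ln14_13_1 ln14_13_1_ok) (M (nat_lit 431) (B (L (nat_lit 460) ln15_13_1 ln15_13_1_ok) (M (nat_lit 399) (B (L (nat_lit 398) ln11_13_2 ln11_13_2_ok) (L (nat_lit 400) ln12_13_2 ln12_13_2_ok))))))) (M (nat_lit 430) (B (L (nat_lit 458) ln14_13_1 ln14_13_1_ok) (M (nat_lit 431) (B (M (nat_lit 399) (B (L (nat_lit 398) ln11_13_2 ln11_13_2_ok) (L (nat_lit 400) ln12_13_2 ln12_13_2_ok))) (M (nat_lit 463) (B (L (nat_lit 462) ln11_13_0 ln11_13_0_ok) (L (nat_lit 464) ln12_13_0 ln12_13_0_ok))))))))))) (M (nat_lit 459) (B (M (nat_lit 364) (B (L (nat_lit 332) ln12_10_5 ln12_10_5_ok) (M (nat_lit 491) (B (L (nat_lit 460) ln12_11_5 ln12_11_5_ok) (L (nat_lit 523) ln11_16_6 ln11_16_6_ok))))) (B (M (nat_lit 458) (B (L (nat_lit 430) ln14_13_1 ln14_13_1_ok) (M (nat_lit 457) (B (L (nat_lit 426) ln13_13_1 ln13_13_1_ok) (L (nat_lit 460) ln9_14_2 ln9_14_2_ok))))) (M (nat_lit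 426) (B (M (nat_lit 397) (B (L (nat_lit 425) ln9_13_2 ln9_13_2_ok) (L (nat_lit 398) ln10_13_2 ln10_13_2_ok))) (M (nat_lit 458) (B (L (nat_lit 457) ln13_13_1 ln13_13_1_ok) (L (nat_lit 430) ln14_13_1 ln14_13_1_ok)))))))))))))) (B (M (nat_lit 430) (B (M (nat_lit 395) (B (L (nat_lit 431) ln15_13_3 ln15_13_3_ok) (M (nat_lit 394) (B (L (nat_lit 393) ln9_12_0 ln9_12_0_ok) (L (nat_lit 427) ln14_13_3 ln14_13_3_ok))))) (B (M (nat_lit 431) (B (L (nat_lit 395) ln15_13_3 ln15_13_3_ok) (M (nat_lit 427) (B (M (nat_lit 459) (B (L (nat_lit 458) ln14_13_1 ln14_13_1_ok) (L (nat_lit 460) ln15_13_1 ln15_13_1_ok))) (M (nat_lit 463) (B (L (nat_lit 462) ln11_13_0 ln11_13_0_ok) (L (nat_lit 464) ln12_13_0 ln12_13_0_ok))))))) (B (M (nat_lit 461) (B (M (nat_lit 364) (B (L (nat_lit 332) ln12_10_4 ln12_10_4_ok) (M (nat_lit 493) (B (L (nat_lit 460) ln12_11_4 ln12_11_4_ok) (L (nat_lit 525) ln13_16_7 ln13_16_7_ok)))))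 (B (M (nat_lit 460) (B (M (nat_lit 493) (B (L (nat_lit 364) ln12_11_4 ln12_11_4_ok) (L (nat_lit 525) ln13_16_7 ln13_16_7_ok))) (M (nat_lit 459) (B (L (nat_lit 431) ln15_13_1 ln15_13_1_ok) (L (nat_lit 458) ln10_14_2 ln10_14_2_ok))))) (B (M (nat_lit 427) (B (M (nat_lit 462) (B (L (nat_lit 426) ln10_13_0 ln10_13_0_ok) (L (nat_lit 463) ln11_13_0 ln11_13_0_ok))) (M (nat_lit 431) (B (M (nat_lit 399) (B (L (nat_lit 398) ln11_13_2 ln11_13_2_ok) (L (nat_lit 400) ln12_13_2 ln12_13_2_ok))) (M (nat_lit 459) (B (L (nat_lit 458) ln14_13_1 ln14_13_1_ok) (L (nat_lit 460) ln15_13_1 ln15_13_1_ok))))))) (M (nat_lit 398) (B (M (nat_lit 493) (B (L (nat_lit 525) ln13_16_7 ln13_16_7_ok) (M (nat_lit 366) (B (L (nat_lit 334) ln14_10_5 ln14_10_5_ok) (L (nat_lit 462) ln14_11_5 ln14_11_5_ok))))) (M (nat_lit 399) (B (L (nat_lit 427) ln11_13_2 ln11_13_2_ok) (M (nat_lit 400) (B (L (nat_lit 401) ln17_12_1 ln17_12_1_ok)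 (L (nat_lit 431) ln12_13_2 ln12_13_2_ok))))))))))) (B (M (nat_lit 431) (B (L (nat_lit 395) ln15_13_3 ln15_13_3_ok) (M (nat_lit 432) (B (M (nat_lit 400) (B (L (nat_lit 399) ln12_13_2 ln12_13_2_ok) (L (nat_lit 401) ln13_13_2 ln13_13_2_ok))) (M (nat_lit 460) (B (L (nat_lit 459) ln15_13_1 ln15_13_1_ok) (L (nat_lit 461) ln16_13_1 ln16_13_1_ok))))))) (M (nat_lit 427) (B (M (nat_lit 426) (B (M (nat_lit 458) (B (L (nat_lit 457) ln13_13_1 ln13_13_1_ok) (L (nat_lit 459) ln14_13_1 ln14_13_1_ok))) (M (nat_lit 462) (B (L (nat_lit 461) ln10_13_0 ln10_13_0_ok) (L (nat_lit 463) ln11_13_0 ln11_13_0_ok))))) (B (M (nat_lit 395) (B (L (nat_lit 394) ln14_13_3 ln14_13_3_ok) (M (nat_lit 459) (B (L (nat_lit 458) ln14_13_1 ln14_13_1_ok) (M (nat_lit 491) (B (L (nat_lit 364) ln11_15_6 ln11_15_6_ok) (L (nat_lit 523) ln11_16_6 ln11_16_6_ok))))))) (M (nat_lit 426) (B (M (nat_lit 394) (B (L (nat_lit 393) ln13_13_3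 ln13_13_3_ok) (L (nat_lit 395) ln14_13_3 ln14_13_3_ok))) (M (nat_lit 462) (B (L (nat_lit 461) ln10_13_0 ln10_13_0_ok) (L (nat_lit 463) ln11_13_0 ln11_13_0_ok))))))))))))) (B (M (nat_lit 460) (B (M (nat_lit 459) (B (M (nat_lit 430) (B (L (nat_lit 431) ln15_13_1 ln15_13_1_ok) (M (nat_lit 458) (B (L (nat_lit 427) ln14_13_1 ln14_13_1_ok) (L (nat_lit 457) ln9_14_2 ln9_14_2_ok))))) (B (M (nat_lit 430) (B (L (nat_lit 431) ln15_13_1 ln15_13_1_ok) (M (nat_lit 458) (B (L (nat_lit 457) ln9_14_2 ln9_14_2_ok) (L (nat_lit 461) ln10_14_2 ln10_14_2_ok))))) (M (nat_lit 364) (B (L (nat_lit 491) ln12_11_5 ln12_11_5_ok) (M (nat_lit 332) (B (L (nat_lit 427) ln12_10_5 ln12_10_5_ok) (L (nat_lit 461) ln12_10_4 ln12_10_4_ok)))))))) (B (M (nat_lit 395) (B (M (nat_lit 430) (B (L (nat_lit 431) ln15_13_3 ln15_13_3_ok) (M (nat_lit 394) (B (L (nat_lit 393) ln9_12_0 ln9_12_0_ok) (L (nat_lit 427) ln14_13_3 ln14_13_3_ok)))))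 (B (M (nat_lit 430) (B (L (nat_lit 431) ln15_13_3 ln15_13_3_ok) (M (nat_lit 394) (B (L (nat_lit 397) ln10_12_0 ln10_12_0_ok) (L (nat_lit 427) ln14_13_3 ln14_13_3_ok))))) (M (nat_lit 492) (B (L (nat_lit 363) ln12_15_7 ln12_15_7_ok) (M (nat_lit 397) (B (L (nat_lit 365) ln12_15_6 ln12_15_6_ok) (L (nat_lit 524) ln12_16_6 ln12_16_6_ok)))))))) (B (M (nat_lit 459) (B (M (nat_lit 430) (B (L (nat_lit 431) ln15_13_1 ln15_13_1_ok) (M (nat_lit 458) (B (L (nat_lit 457) ln9_14_2 ln9_14_2_ok) (L (nat_lit 461) ln10_14_2 ln10_14_2_ok))))) (M (nat_lit 492) (B (M (nat_lit 491) (B (L (nat_lit 364) ln12_11_5 ln12_11_5_ok) (L (nat_lit 523) ln12_12_5 ln12_12_5_ok))) (M (nat_lit 397) (B (L (nat_lit 365) ln12_15_6 ln12_15_6_ok) (L (nat_lit 524) ln12_16_6 ln12_16_6_ok))))))) (M (nat_lit 364) (B (M (nat_lit 461) (B (L (nat_lit 332) ln12_10_4 ln12_10_4_ok) (L (nat_lit 493) ln12_11_4 ln12_11_4_ok))) (M (nat_lit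 492) (B (M (nat_lit 363) (B (L (nat_lit 331) ln12_14_7 ln12_14_7_ok) (L (nat_lit 395) ln12_15_7 ln12_15_7_ok))) (M (nat_lit 491) (B (L (nat_lit 459) ln12_11_5 ln12_11_5_ok) (L (nat_lit 523) ln12_12_5 ln12_12_5_ok))))))))))) (B (M (nat_lit 461) (B (M (nat_lit 493) (B (L (nat_lit 525) ln13_16_7 ln13_16_7_ok) (M (nat_lit 364) (B (L (nat_lit 332) ln12_10_4 ln12_10_4_ok) (L (nat_lit 460) ln12_11_4 ln12_11_4_ok))))) (B (M (nat_lit 493) (B (L (nat_lit 525) ln13_16_7 ln13_16_7_ok) (M (nat_lit 364) (B (L (nat_lit 397) ln13_15_7 ln13_15_7_ok) (L (nat_lit 460) ln12_11_4 ln12_11_4_ok))))) (B (M (nat_lit 493) (B (L (nat_lit 525) ln13_16_7 ln13_16_7_ok) (M (nat_lit 397) (B (M (nat_lit 492) (B (L (nat_lit 524) ln13_12_5 ln13_12_5_ok) (M (nat_lit 365) (B (L (nat_lit 460) ln12_15_6 ln12_15_6_ok) (M (nat_lit 494) (B (L (nat_lit 462) ln13_11_4 ln13_11_4_ok) (L (nat_lit 526) ln13_12_4 ln13_12_4_ok)))))))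 (B (M (nat_lit 395) (B (M (nat_lit 430) (B (L (nat_lit 394) ln10_12_0 ln10_12_0_ok) (L (nat_lit 431) ln15_13_3 ln15_13_3_ok))) (M (nat_lit 363) (B (M (nat_lit 398) (B (L (nat_lit 362) ln14_12_3 ln14_12_3_ok) (L (nat_lit 366) ln13_15_6 ln13_15_6_ok))) (M (nat_lit 492) (B (L (nat_lit 460) ln12_15_7 ln12_15_7_ok) (L (nat_lit 524) ln13_12_5 ln13_12_5_ok))))))) (M (nat_lit 365) (B (M (nat_lit 366) (B (L (nat_lit 334) ln13_14_6 ln13_14_6_ok) (L (nat_lit 398) ln13_15_6 ln13_15_6_ok))) (M (nat_lit 494) (B (L (nat_lit 462) ln13_11_4 ln13_11_4_ok) (L (nat_lit 526) ln13_12_4 ln13_12_4_ok)))))))))) (B (M (nat_lit 493) (B (L (nat_lit 525) ln13_16_7 ln13_16_7_ok) (M (nat_lit 364) (B (L (nat_lit 332) ln12_10_4 ln12_10_4_ok) (L (nat_lit 397) ln13_15_7 ln13_15_7_ok))))) (M (nat_lit 364) (B (L (nat_lit 332) ln12_10_4 ln12_10_4_ok) (M (nat_lit 460) (B (M (nat_lit 459) (B (L (nat_lit 491) ln12_11_5 ln12_11_5_ok)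 (M (nat_lit 430) (B (L (nat_lit 431) ln15_13_1 ln15_13_1_ok) (L (nat_lit 458) ln10_14_2 ln10_14_2_ok))))) (M (nat_lit 492) (B (M (nat_lit 363) (B (L (nat_lit 331) ln12_14_7 ln12_14_7_ok) (L (nat_lit 395) ln12_15_7 ln12_15_7_ok))) (M (nat_lit 524) (B (L (nat_lit 397) ln12_16_6 ln12_16_6_ok) (L (nat_lit 556) ln12_17_6 ln12_17_6_ok)))))))))))))) (B (K (nat_lit 2079502270752001762064242424960807725827516048677469043429686155012882190638009693656033379242457518153052022685796627120027336704) (nat_lit 384428669063214259551955687305804751017985540568083010949714773855644181718791936347150373005832356893542900179372648406400653122571006404005014753979993686016) (nat_lit 384428669063214259551955687305804751017985540568083010949714773855644181718791936347150373005832356893542900179372648406400653122571006404005014753979993686016) c41_s1304) (B c41_n1318 (B c41_n1319 (M (nat_lit 430) (B (M (nat_lit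 395) (B (L (nat_lit 431) ln15_13_3 ln15_13_3_ok) (M (nat_lit 394) (B (L (nat_lit 397) ln10_12_0 ln10_12_0_ok) (L (nat_lit 427) ln14_13_3 ln14_13_3_ok))))) (B (M (nat_lit 431) (B (L (nat_lit 395) ln15_13_3 ln15_13_3_ok) (M (nat_lit 400) (B (L (nat_lit 399) ln12_13_2 ln12_13_2_ok) (M (nat_lit 432) (B (L (nat_lit 397) ln16_13_3 ln16_13_3_ok) (L (nat_lit 401) ln13_13_2 ln13_13_2_ok))))))) (B (M (nat_lit 431) (B (M (nat_lit 400) (B (L (nat_lit 399) ln12_13_2 ln12_13_2_ok) (M (nat_lit 432) (B (L (nat_lit 397) ln16_13_3 ln16_13_3_ok) (L (nat_lit 401) ln13_13_2 ln13_13_2_ok))))) (M (nat_lit 427) (B (M (nat_lit 459) (B (L (nat_lit 458) ln14_13_1 ln14_13_1_ok) (L (nat_lit 460) ln15_13_1 ln15_13_1_ok))) (M (nat_lit 463) (B (L (nat_lit 462) ln11_13_0 ln11_13_0_ok) (L (nat_lit 464) ln12_13_0 ln12_13_0_ok))))))) (B (M (nat_lit 395) (B (L (nat_lit 431) ln15_13_3 ln15_13_3_ok) (M (nat_lit 394) (B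 (L (nat_lit 393) ln9_12_0 ln9_12_0_ok) (L (nat_lit 427) ln14_13_3 ln14_13_3_ok))))) (M (nat_lit 427) (B (M (nat_lit 395) (B (L (nat_lit 394) ln14_13_3 ln14_13_3_ok) (M (nat_lit 459) (B (L (nat_lit 458) ln14_13_1 ln14_13_1_ok) (M (nat_lit 491) (B (L (nat_lit 364) ln11_15_6 ln11_15_6_ok) (L (nat_lit 523) ln11_16_6 ln11_16_6_ok))))))) (B (M (nat_lit 426) (B (M (nat_lit 394) (B (L (nat_lit 393) ln13_13_3 ln13_13_3_ok) (L (nat_lit 395) ln14_13_3 ln14_13_3_ok))) (M (nat_lit 398) (B (L (nat_lit 397) ln10_13_2 ln10_13_2_ok) (L (nat_lit 399) ln11_13_2 ln11_13_2_ok))))) (M (nat_lit 426) (B (M (nat_lit 398) (B (L (nat_lit 397) ln10_13_2 ln10_13_2_ok) (L (nat_lit 399) ln11_13_2 ln11_13_2_ok))) (M (nat_lit 458) (B (L (nat_lit 457) ln13_13_1 ln13_13_1_ok) (L (nat_lit 459) ln14_13_1 ln14_13_1_ok))))))))))))))))))))))))) (nat_lit 1386334847221798047169638878925036799968406779833514899637066259859226863686603287896039777716422623628704219945445734162783797248)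 (nat_lit 235872651963234194218833859771284198839976648629671701104034711530393573249819926651507304328391084910736918050652163441824939244023875877859584799363960261910988849152) (nat_lit 235872651963234194218833859771284198839976648629671701104034711530393573249819926651507304328391084910736918050652163441824939244023875877859584799363960261910988849152) (by decide +kernel)
theorem c41_s1470 : Sem (nat_lit 2079502270752001762064242424960807725827516048677469043429686155012882190638009693656033379242457518153052022685796627120027336704) (nat_lit 384428669056820918565937647882905365833506374709011737104358426279615372812655800796248955972957600422184924359054548759752362762901759255761853842312845590528) (nat_lit 384428669056820918565937647882905365833506374709011737104358426279615372812655800796248955972957600422184924359054548759752362762901759255761853842312845590528) :=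
  sem_of_chk (M (nat_lit 397) (B (M (nat_lit 364) (B (M (nat_lit 461) (B (L (nat_lit 332) ln12_10_4 ln12_10_4_ok) (L (nat_lit 493) ln13_15_7 ln13_15_7_ok))) (M (nat_lit 363) (B (M (nat_lit 398) (B (L (nat_lit 399) ln15_12_3 ln15_12_3_ok) (M (nat_lit 362) (B (L (nat_lit 361) ln9_11_0 ln9_11_0_ok) (L (nat_lit 365) ln10_11_0 ln10_11_0_ok))))) (B (M (nat_lit 398) (B (L (nat_lit 399) ln15_12_3 ln15_12_3_ok) (M (nat_lit 362) (B (L (nat_lit 365) ln10_11_0 ln10_11_0_ok) (L (nat_lit 395) ln14_12_3 ln14_12_3_ok))))) (B (M (nat_lit 460) (B (L (nat_lit 331) ln12_14_7 ln12_14_7_ok) (M (nat_lit 492) (B (L (nat_lit 395) ln12_15_7 ln12_15_7_ok) (L (nat_lit 365) ln12_15_6 ln12_15_6_ok))))) (M (nat_lit 398) (B (L (nat_lit 399) ln15_12_3 ln15_12_3_ok) (M (nat_lit 362) (B (L (nat_lit 361) ln9_11_0 ln9_11_0_ok) (L (nat_lit 395) ln14_12_3 ln14_12_3_ok))))))))))) (B (M (nat_lit 430) (B (M (nat_lit 431) (B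 (L (nat_lit 395) ln15_13_3 ln15_13_3_ok) (L (nat_lit 432) ln16_13_3 ln16_13_3_ok))) (M (nat_lit 462) (B (M (nat_lit 365) (B (L (nat_lit 333) ln13_10_4 ln13_10_4_ok) (M (nat_lit 494) (B (L (nat_lit 398) ln14_15_7 ln14_15_7_ok) (L (nat_lit 526) ln14_16_7 ln14_16_7_ok))))) (B (M (nat_lit 427) (B (L (nat_lit 463) ln11_13_0 ln11_13_0_ok) (M (nat_lit 398) (B (L (nat_lit 399) ln15_12_1 ln15_12_1_ok) (L (nat_lit 426) ln10_13_2 ln10_13_2_ok))))) (M (nat_lit 365) (B (L (nat_lit 333) ln13_10_4 ln13_10_4_ok) (M (nat_lit 494) (B (L (nat_lit 461) ln13_11_4 ln13_11_4_ok) (L (nat_lit 526) ln14_16_7 ln14_16_7_ok)))))))))) (B (M (nat_lit 364) (B (M (nat_lit 461) (B (L (nat_lit 332) ln12_10_4 ln12_10_4_ok) (L (nat_lit 493) ln13_15_7 ln13_15_7_ok))) (M (nat_lit 395) (B (M (nat_lit 430) (B (L (nat_lit 394) ln10_12_0 ln10_12_0_ok) (L (nat_lit 431) ln15_13_3 ln15_13_3_ok))) (M (nat_lit 363) (B (M (nat_lit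 331) (B (L (nat_lit 299) ln11_9_4 ln11_9_4_ok) (L (nat_lit 460) ln12_14_7 ln12_14_7_ok))) (M (nat_lit 362) (B (L (nat_lit 361) ln9_11_0 ln9_11_0_ok) (L (nat_lit 398) ln14_12_3 ln14_12_3_ok))))))))) (B (M (nat_lit 364) (B (M (nat_lit 332) (B (L (nat_lit 300) ln12_9_4 ln12_9_4_ok) (L (nat_lit 461) ln12_10_4 ln12_10_4_ok))) (B (M (nat_lit 461) (B (L (nat_lit 332) ln12_10_4 ln12_10_4_ok) (L (nat_lit 493) ln13_15_7 ln13_15_7_ok))) (B (M (nat_lit 365) (B (M (nat_lit 333) (B (L (nat_lit 301) ln13_9_5 ln13_9_5_ok) (L (nat_lit 460) ln12_14_6 ln12_14_6_ok))) (B (M (nat_lit 460) (B (L (nat_lit 333) ln12_14_6 ln12_14_6_ok) (L (nat_lit 492) ln12_15_6 ln12_15_6_ok))) (B (M (nat_lit 363) (B (M (nat_lit 460) (B (L (nat_lit 331) ln12_14_7 ln12_14_7_ok) (L (nat_lit 492) ln12_15_6 ln12_15_6_ok))) (M (nat_lit 398) (B (L (nat_lit 362) ln10_11_0 ln10_11_0_ok) (L (nat_lit 399) ln15_12_3 ln15_12_3_ok)))))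 (M (nat_lit 462) (B (M (nat_lit 333) (B (L (nat_lit 301) ln13_9_5 ln13_9_5_ok) (L (nat_lit 430) ln13_10_4 ln13_10_4_ok))) (M (nat_lit 461) (B (L (nat_lit 493) ln13_15_7 ln13_15_7_ok) (L (nat_lit 494) ln13_11_4 ln13_11_4_ok))))))))) (M (nat_lit 460) (B (M (nat_lit 365) (B (L (nat_lit 333) ln12_14_6 ln12_14_6_ok) (L (nat_lit 492) ln12_15_6 ln12_15_6_ok))) (M (nat_lit 332) (B (L (nat_lit 300) ln12_9_4 ln12_9_4_ok) (M (nat_lit 331) (B (L (nat_lit 299) ln12_13_7 ln12_13_7_ok) (L (nat_lit 363) ln12_14_7 ln12_14_7_ok))))))))))) (B (M (nat_lit 461) (B (M (nat_lit 364) (B (L (nat_lit 332) ln12_10_4 ln12_10_4_ok) (L (nat_lit 493) ln13_15_7 ln13_15_7_ok))) (B (M (nat_lit 493) (B (L (nat_lit 364) ln13_15_7 ln13_15_7_ok) (L (nat_lit 525) ln13_16_7 ln13_16_7_ok))) (B (M (nat_lit 493) (B (L (nat_lit 525) ln13_16_7 ln13_16_7_ok) (M (nat_lit 492) (B (L (nat_lit 524) ln13_12_5 ln13_12_5_ok) (M (nat_lit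 365) (B (L (nat_lit 460) ln12_15_6 ln12_15_6_ok) (M (nat_lit 494) (B (L (nat_lit 462) ln13_11_4 ln13_11_4_ok) (L (nat_lit 526) ln13_12_4 ln13_12_4_ok))))))))) (M (nat_lit 460) (B (M (nat_lit 365) (B (L (nat_lit 333) ln13_10_5 ln13_10_5_ok) (L (nat_lit 492) ln12_15_6 ln12_15_6_ok))) (B (M (nat_lit 492) (B (L (nat_lit 365) ln12_15_6 ln12_15_6_ok) (L (nat_lit 524) ln12_16_6 ln12_16_6_ok))) (B (M (nat_lit 492) (B (L (nat_lit 524) ln12_16_6 ln12_16_6_ok) (M (nat_lit 364) (B (L (nat_lit 332) ln12_10_4 ln12_10_4_ok) (M (nat_lit 363) (B (L (nat_lit 331) ln12_14_7 ln12_14_7_ok) (L (nat_lit 395) ln12_15_7 ln12_15_7_ok))))))) (M (nat_lit 462) (B (M (nat_lit 365) (B (L (nat_lit 333) ln13_10_5 ln13_10_5_ok) (L (nat_lit 494) ln13_11_4 ln13_11_4_ok))) (M (nat_lit 463) (B (L (nat_lit 427) ln15_14_3 ln15_14_3_ok) (L (nat_lit 464) ln16_14_3 ln16_14_3_ok))))))))))))) (M (nat_lit 430) (B (M (nat_lit 395)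 (B (L (nat_lit 394) ln10_12_0 ln10_12_0_ok) (L (nat_lit 431) ln15_13_3 ln15_13_3_ok))) (B (M (nat_lit 431) (B (L (nat_lit 395) ln15_13_3 ln15_13_3_ok) (L (nat_lit 432) ln16_13_3 ln16_13_3_ok))) (B (M (nat_lit 431) (B (L (nat_lit 432) ln16_13_3 ln16_13_3_ok) (M (nat_lit 427) (B (M (nat_lit 426) (B (L (nat_lit 425) ln9_13_2 ln9_13_2_ok) (L (nat_lit 398) ln10_13_2 ln10_13_2_ok))) (M (nat_lit 463) (B (L (nat_lit 462) ln11_13_0 ln11_13_0_ok) (L (nat_lit 464) ln12_13_0 ln12_13_0_ok))))))) (M (nat_lit 398) (B (M (nat_lit 399) (B (L (nat_lit 427) ln15_12_1 ln15_12_1_ok) (L (nat_lit 400) ln16_12_1 ln16_12_1_ok))) (B (M (nat_lit 462) (B (M (nat_lit 365) (B (L (nat_lit 333) ln13_10_4 ln13_10_4_ok) (L (nat_lit 494) ln14_15_7 ln14_15_7_ok))) (M (nat_lit 427) (B (L (nat_lit 426) ln10_13_2 ln10_13_2_ok) (L (nat_lit 463) ln11_13_0 ln11_13_0_ok))))) (M (nat_lit 363) (B (M (nat_lit 395) (B (L (nat_lit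 362) ln14_12_3 ln14_12_3_ok) (L (nat_lit 394) ln10_12_0 ln10_12_0_ok))) (M (nat_lit 399) (B (L (nat_lit 364) ln15_12_3 ln15_12_3_ok) (L (nat_lit 400) ln16_12_1 ln16_12_1_ok)))))))))))))))))) (nat_lit 2079502270752001762064242424960807725827516048677469043429686155012882190638009693656033379242457518153052022685796627120027336704) (nat_lit 384428669056820918565937647882905365833506374709011737104358426279615372812655800796248955972957600422184924359054548759752362762901759255761853842312845590528) (nat_lit 384428669056820918565937647882905365833506374709011737104358426279615372812655800796248955972957600422184924359054548759752362762901759255761853842312845590528) (by decide +kernel)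
theorem c41_s1473 : Sem (nat_lit 1386334847221798047169638878925036799968406779833514899637066259859226863686603287896039777716422623628704219945445734162783797248) (nat_lit 235872651963234194321127316268038632277888826655534174609902935117436697955863938741961232786664827458291283560957397186033540724389520760389291453007457839093966176256) (nat_lit 235872651963234194321127316268038632277888826655534174609902935117436697955863938741961232786664827458291283560957397186033540724389520760389291453007457839093966176256) :=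
  sem_of_chk (M (nat_lit 428) (B (M (nat_lit 364) (B (M (nat_lit 461) (B (L (nat_lit 332) ln12_10_4 ln12_10_4_ok) (M (nat_lit 493) (B (L (nat_lit 397) ln13_15_7 ln13_15_7_ok) (L (nat_lit 525) ln13_16_7 ln13_16_7_ok))))) (B (M (nat_lit 460) (B (M (nat_lit 365) (B (L (nat_lit 333) ln12_14_6 ln12_14_6_ok) (M (nat_lit 492) (B (L (nat_lit 397) ln12_15_6 ln12_15_6_ok) (M (nat_lit 491) (B (L (nat_lit 459) ln12_11_5 ln12_11_5_ok) (L (nat_lit 523) ln12_12_5 ln12_12_5_ok))))))) (B (M (nat_lit 492) (B (M (nat_lit 491) (B (L (nat_lit 459) ln12_11_5 ln12_11_5_ok) (L (nat_lit 523) ln12_12_5 ln12_12_5_ok))) (M (nat_lit 493) (B (L (nat_lit 461) ln12_11_4 ln12_11_4_ok) (L (nat_lit 525) ln12_12_4 ln12_12_4_ok))))) (B (M (nat_lit 492) (B (M (nat_lit 365) (B (L (nat_lit 333) ln12_14_6 ln12_14_6_ok) (L (nat_lit 397) ln12_15_6 ln12_15_6_ok))) (M (nat_lit 493) (B (L (nat_lit 461) ln12_11_4 ln12_11_4_ok)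 (L (nat_lit 525) ln12_12_4 ln12_12_4_ok))))) (M (nat_lit 461) (B (L (nat_lit 493) ln12_11_4 ln12_11_4_ok) (M (nat_lit 459) (B (L (nat_lit 491) ln12_11_5 ln12_11_5_ok) (M (nat_lit 430) (B (L (nat_lit 431) ln15_13_1 ln15_13_1_ok) (L (nat_lit 458) ln10_14_2 ln10_14_2_ok))))))))))) (B (M (nat_lit 461) (B (L (nat_lit 332) ln12_10_4 ln12_10_4_ok) (M (nat_lit 493) (B (L (nat_lit 460) ln12_11_4 ln12_11_4_ok) (L (nat_lit 525) ln13_16_7 ln13_16_7_ok))))) (M (nat_lit 460) (B (M (nat_lit 365) (B (L (nat_lit 333) ln12_14_6 ln12_14_6_ok) (M (nat_lit 492) (B (L (nat_lit 397) ln12_15_6 ln12_15_6_ok) (M (nat_lit 491) (B (L (nat_lit 459) ln12_11_5 ln12_11_5_ok) (L (nat_lit 523) ln12_12_5 ln12_12_5_ok))))))) (B (M (nat_lit 332) (B (M (nat_lit 331) (B (L (nat_lit 299) ln12_13_7 ln12_13_7_ok) (L (nat_lit 363) ln12_14_7 ln12_14_7_ok))) (M (nat_lit 459) (B (L (nat_lit 427) ln12_10_5 ln12_10_5_ok) (L (nat_lit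 491) ln12_11_5 ln12_11_5_ok))))) (M (nat_lit 365) (B (L (nat_lit 333) ln12_14_6 ln12_14_6_ok) (M (nat_lit 332) (B (M (nat_lit 331) (B (L (nat_lit 299) ln12_13_7 ln12_13_7_ok) (L (nat_lit 363) ln12_14_7 ln12_14_7_ok))) (M (nat_lit 397) (B (L (nat_lit 300) ln12_9_4 ln12_9_4_ok) (L (nat_lit 492) ln12_15_6 ln12_15_6_ok)))))))))))))) (B (M (nat_lit 427) (B (M (nat_lit 459) (B (M (nat_lit 430) (B (L (nat_lit 458) ln14_13_1 ln14_13_1_ok) (M (nat_lit 431) (B (L (nat_lit 395) ln15_13_3 ln15_13_3_ok) (L (nat_lit 460) ln15_13_1 ln15_13_1_ok))))) (B (M (nat_lit 460) (B (M (nat_lit 491) (B (L (nat_lit 364) ln12_11_5 ln12_11_5_ok) (L (nat_lit 523) ln11_16_6 ln11_16_6_ok))) (M (nat_lit 430) (B (L (nat_lit 458) ln14_13_1 ln14_13_1_ok) (L (nat_lit 431) ln15_13_1 ln15_13_1_ok))))) (B (M (nat_lit 491) (B (L (nat_lit 523) ln11_16_6 ln11_16_6_ok) (M (nat_lit 364) (B (L (nat_lit 395) ln11_15_6 ln11_15_6_ok)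 (L (nat_lit 460) ln12_11_5 ln12_11_5_ok))))) (M (nat_lit 395) (B (M (nat_lit 491) (B (L (nat_lit 364) ln11_15_6 ln11_15_6_ok) (L (nat_lit 523) ln11_16_6 ln11_16_6_ok))) (M (nat_lit 430) (B (L (nat_lit 431) ln15_13_3 ln15_13_3_ok) (L (nat_lit 458) ln14_13_1 ln14_13_1_ok))))))))) (B (M (nat_lit 430) (B (M (nat_lit 395) (B (L (nat_lit 394) ln14_13_3 ln14_13_3_ok) (L (nat_lit 431) ln15_13_3 ln15_13_3_ok))) (M (nat_lit 426) (B (M (nat_lit 458) (B (L (nat_lit 457) ln13_13_1 ln13_13_1_ok) (L (nat_lit 459) ln14_13_1 ln14_13_1_ok))) (M (nat_lit 462) (B (L (nat_lit 461) ln10_13_0 ln10_13_0_ok) (L (nat_lit 463) ln11_13_0 ln11_13_0_ok))))))) (B (M (nat_lit 461) (B (M (nat_lit 462) (B (L (nat_lit 426) ln10_13_0 ln10_13_0_ok) (M (nat_lit 463) (B (L (nat_lit 430) ln11_13_0 ln11_13_0_ok) (L (nat_lit 460) ln15_14_3 ln15_14_3_ok))))) (B (M (nat_lit 493) (B (L (nat_lit 525) ln13_16_7 ln13_16_7_ok) (M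 (nat_lit 364) (B (L (nat_lit 397) ln13_15_7 ln13_15_7_ok) (L (nat_lit 460) ln12_11_4 ln12_11_4_ok))))) (M (nat_lit 462) (B (L (nat_lit 426) ln10_13_0 ln10_13_0_ok) (M (nat_lit 463) (B (L (nat_lit 430) ln11_13_0 ln11_13_0_ok) (L (nat_lit 464) ln16_14_3 ln16_14_3_ok)))))))) (M (nat_lit 461) (B (M (nat_lit 462) (B (L (nat_lit 426) ln10_13_0 ln10_13_0_ok) (M (nat_lit 463) (B (L (nat_lit 460) ln15_14_3 ln15_14_3_ok) (L (nat_lit 464) ln16_14_3 ln16_14_3_ok))))) (B (M (nat_lit 493) (B (L (nat_lit 525) ln13_16_7 ln13_16_7_ok) (M (nat_lit 364) (B (L (nat_lit 397) ln13_15_7 ln13_15_7_ok) (L (nat_lit 460) ln12_11_4 ln12_11_4_ok))))) (M (nat_lit 397) (B (M (nat_lit 493) (B (L (nat_lit 364) ln13_15_7 ln13_15_7_ok) (L (nat_lit 525) ln13_16_7 ln13_16_7_ok))) (M (nat_lit 426) (B (L (nat_lit 425) ln9_13_2 ln9_13_2_ok) (L (nat_lit 462) ln10_13_0 ln10_13_0_ok)))))))))))) (B (M (nat_lit 430) (B (M (nat_lit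 395) (B (L (nat_lit 431) ln15_13_3 ln15_13_3_ok) (M (nat_lit 394) (B (L (nat_lit 397) ln10_12_0 ln10_12_0_ok) (L (nat_lit 427) ln14_13_3 ln14_13_3_ok))))) (B (M (nat_lit 431) (B (L (nat_lit 395) ln15_13_3 ln15_13_3_ok) (M (nat_lit 400) (B (L (nat_lit 399) ln12_13_2 ln12_13_2_ok) (M (nat_lit 432) (B (L (nat_lit 397) ln16_13_3 ln16_13_3_ok) (L (nat_lit 401) ln13_13_2 ln13_13_2_ok))))))) (B (M (nat_lit 431) (B (M (nat_lit 400) (B (L (nat_lit 399) ln12_13_2 ln12_13_2_ok) (M (nat_lit 432) (B (L (nat_lit 397) ln16_13_3 ln16_13_3_ok) (L (nat_lit 401) ln13_13_2 ln13_13_2_ok))))) (M (nat_lit 427) (B (M (nat_lit 459) (B (L (nat_lit 458) ln14_13_1 ln14_13_1_ok) (L (nat_lit 460) ln15_13_1 ln15_13_1_ok))) (M (nat_lit 463) (B (L (nat_lit 462) ln11_13_0 ln11_13_0_ok) (L (nat_lit 464) ln12_13_0 ln12_13_0_ok))))))) (B (M (nat_lit 395) (B (L (nat_lit 431) ln15_13_3 ln15_13_3_ok) (M (nat_lit 394) (B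 (L (nat_lit 393) ln9_12_0 ln9_12_0_ok) (L (nat_lit 427) ln14_13_3 ln14_13_3_ok))))) (M (nat_lit 427) (B (M (nat_lit 398) (B (L (nat_lit 399) ln11_13_2 ln11_13_2_ok) (M (nat_lit 426) (B (L (nat_lit 397) ln10_13_2 ln10_13_2_ok) (M (nat_lit 462) (B (L (nat_lit 461) ln10_13_0 ln10_13_0_ok) (L (nat_lit 463) ln11_13_0 ln11_13_0_ok))))))) (B (M (nat_lit 426) (B (M (nat_lit 458) (B (L (nat_lit 457) ln13_13_1 ln13_13_1_ok) (L (nat_lit 459) ln14_13_1 ln14_13_1_ok))) (M (nat_lit 462) (B (L (nat_lit 461) ln10_13_0 ln10_13_0_ok) (L (nat_lit 463) ln11_13_0 ln11_13_0_ok))))) (B (M (nat_lit 397) (B (M (nat_lit 398) (B (L (nat_lit 399) ln15_12_1 ln15_12_1_ok) (M (nat_lit 462) (B (L (nat_lit 463) ln11_13_0 ln11_13_0_ok) (M (nat_lit 494) (B (L (nat_lit 365) ln14_15_7 ln14_15_7_ok) (L (nat_lit 526) ln14_16_7 ln14_16_7_ok))))))) (B (M (nat_lit 395) (B (L (nat_lit 394) ln10_12_0 ln10_12_0_ok) (M (nat_lit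 363) (B (M (nat_lit 331) (B (L (nat_lit 299) ln11_9_4 ln11_9_4_ok) (L (nat_lit 460) ln11_10_4 ln11_10_4_ok))) (M (nat_lit 398) (B (L (nat_lit 362) ln14_12_3 ln14_12_3_ok) (L (nat_lit 399) ln15_12_1 ln15_12_1_ok))))))) (M (nat_lit 462) (B (L (nat_lit 463) ln11_13_0 ln11_13_0_ok) (M (nat_lit 365) (B (L (nat_lit 333) ln13_10_4 ln13_10_4_ok) (M (nat_lit 494) (B (L (nat_lit 461) ln13_11_4 ln13_11_4_ok) (L (nat_lit 526) ln14_16_7 ln14_16_7_ok)))))))))) (M (nat_lit 426) (B (M (nat_lit 398) (B (L (nat_lit 397) ln10_13_2 ln10_13_2_ok) (L (nat_lit 399) ln11_13_2 ln11_13_2_ok))) (M (nat_lit 458) (B (L (nat_lit 457) ln13_13_1 ln13_13_1_ok) (L (nat_lit 459) ln14_13_1 ln14_13_1_ok)))))))))))))) (B (M (nat_lit 430) (B (M (nat_lit 395) (B (L (nat_lit 431) ln15_13_3 ln15_13_3_ok) (M (nat_lit 394) (B (L (nat_lit 393) ln9_12_0 ln9_12_0_ok) (L (nat_lit 427) ln14_13_3 ln14_13_3_ok))))) (B (M (nat_lit 431)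 (B (L (nat_lit 395) ln15_13_3 ln15_13_3_ok) (M (nat_lit 427) (B (M (nat_lit 459) (B (L (nat_lit 458) ln14_13_1 ln14_13_1_ok) (L (nat_lit 460) ln15_13_1 ln15_13_1_ok))) (M (nat_lit 463) (B (L (nat_lit 462) ln11_13_0 ln11_13_0_ok) (L (nat_lit 464) ln12_13_0 ln12_13_0_ok))))))) (B (M (nat_lit 427) (B (M (nat_lit 431) (B (M (nat_lit 399) (B (L (nat_lit 398) ln11_13_2 ln11_13_2_ok) (L (nat_lit 400) ln12_13_2 ln12_13_2_ok))) (M (nat_lit 459) (B (L (nat_lit 458) ln14_13_1 ln14_13_1_ok) (L (nat_lit 460) ln15_13_1 ln15_13_1_ok))))) (B (M (nat_lit 431) (B (M (nat_lit 459) (B (L (nat_lit 458) ln14_13_1 ln14_13_1_ok) (L (nat_lit 460) ln15_13_1 ln15_13_1_ok))) (M (nat_lit 463) (B (L (nat_lit 462) ln11_13_0 ln11_13_0_ok) (L (nat_lit 464) ln12_13_0 ln12_13_0_ok))))) (B (M (nat_lit 461) (B (M (nat_lit 462) (B (L (nat_lit 426) ln10_13_0 ln10_13_0_ok) (L (nat_lit 463) ln11_13_0 ln11_13_0_ok))) (M (nat_lit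 364) (B (L (nat_lit 332) ln12_10_4 ln12_10_4_ok) (M (nat_lit 493) (B (L (nat_lit 460) ln12_11_4 ln12_11_4_ok) (L (nat_lit 525) ln13_16_7 ln13_16_7_ok))))))) (M (nat_lit 431) (B (M (nat_lit 399) (B (L (nat_lit 398) ln11_13_2 ln11_13_2_ok) (L (nat_lit 400) ln12_13_2 ln12_13_2_ok))) (M (nat_lit 463) (B (L (nat_lit 462) ln11_13_0 ln11_13_0_ok) (L (nat_lit 464) ln12_13_0 ln12_13_0_ok))))))))) (B (M (nat_lit 431) (B (L (nat_lit 395) ln15_13_3 ln15_13_3_ok) (M (nat_lit 432) (B (M (nat_lit 400) (B (L (nat_lit 399) ln12_13_2 ln12_13_2_ok) (L (nat_lit 401) ln13_13_2 ln13_13_2_ok))) (M (nat_lit 460) (B (L (nat_lit 459) ln15_13_1 ln15_13_1_ok) (L (nat_lit 461) ln16_13_1 ln16_13_1_ok))))))) (M (nat_lit 427) (B (M (nat_lit 426) (B (M (nat_lit 458) (B (L (nat_lit 457) ln13_13_1 ln13_13_1_ok) (L (nat_lit 459) ln14_13_1 ln14_13_1_ok))) (M (nat_lit 462) (B (L (nat_lit 461) ln10_13_0 ln10_13_0_ok) (L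 (nat_lit 463) ln11_13_0 ln11_13_0_ok))))) (B (M (nat_lit 395) (B (L (nat_lit 394) ln14_13_3 ln14_13_3_ok) (M (nat_lit 459) (B (L (nat_lit 458) ln14_13_1 ln14_13_1_ok) (M (nat_lit 491) (B (L (nat_lit 364) ln11_15_6 ln11_15_6_ok) (L (nat_lit 523) ln11_16_6 ln11_16_6_ok))))))) (M (nat_lit 426) (B (M (nat_lit 394) (B (L (nat_lit 393) ln13_13_3 ln13_13_3_ok) (L (nat_lit 395) ln14_13_3 ln14_13_3_ok))) (M (nat_lit 462) (B (L (nat_lit 461) ln10_13_0 ln10_13_0_ok) (L (nat_lit 463) ln11_13_0 ln11_13_0_ok))))))))))))) (B (M (nat_lit 364) (B (M (nat_lit 461) (B (L (nat_lit 332) ln12_10_4 ln12_10_4_ok) (M (nat_lit 493) (B (L (nat_lit 460) ln12_11_4 ln12_11_4_ok) (L (nat_lit 525) ln13_16_7 ln13_16_7_ok))))) (B (M (nat_lit 461) (B (M (nat_lit 493) (B (L (nat_lit 397) ln13_15_7 ln13_15_7_ok) (L (nat_lit 460) ln12_11_4 ln12_11_4_ok))) (B (M (nat_lit 493) (B (L (nat_lit 460) ln12_11_4 ln12_11_4_ok)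 (L (nat_lit 525) ln13_16_7 ln13_16_7_ok))) (B (M (nat_lit 493) (B (L (nat_lit 397) ln13_15_7 ln13_15_7_ok) (L (nat_lit 525) ln13_16_7 ln13_16_7_ok))) (M (nat_lit 460) (B (M (nat_lit 459) (B (L (nat_lit 491) ln12_11_5 ln12_11_5_ok) (M (nat_lit 430) (B (L (nat_lit 431) ln15_13_1 ln15_13_1_ok) (L (nat_lit 458) ln10_14_2 ln10_14_2_ok))))) (M (nat_lit 492) (B (M (nat_lit 363) (B (L (nat_lit 331) ln12_14_7 ln12_14_7_ok) (L (nat_lit 395) ln12_15_7 ln12_15_7_ok))) (M (nat_lit 524) (B (L (nat_lit 397) ln12_16_6 ln12_16_6_ok) (L (nat_lit 556) ln12_17_6 ln12_17_6_ok))))))))))) (B (M (nat_lit 461) (B (L (nat_lit 332) ln12_10_4 ln12_10_4_ok) (M (nat_lit 493) (B (L (nat_lit 397) ln13_15_7 ln13_15_7_ok) (L (nat_lit 525) ln13_16_7 ln13_16_7_ok))))) (M (nat_lit 460) (B (M (nat_lit 363) (B (L (nat_lit 331) ln12_14_7 ln12_14_7_ok) (M (nat_lit 492) (B (L (nat_lit 395) ln12_15_7 ln12_15_7_ok) (M (nat_lit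 397) (B (L (nat_lit 365) ln12_15_6 ln12_15_6_ok) (L (nat_lit 524) ln12_16_6 ln12_16_6_ok))))))) (B (M (nat_lit 365) (B (L (nat_lit 333) ln12_14_6 ln12_14_6_ok) (M (nat_lit 492) (B (L (nat_lit 397) ln12_15_6 ln12_15_6_ok) (M (nat_lit 491) (B (L (nat_lit 459) ln12_11_5 ln12_11_5_ok) (L (nat_lit 523) ln12_12_5 ln12_12_5_ok))))))) (B (M (nat_lit 492) (B (M (nat_lit 363) (B (L (nat_lit 331) ln12_14_7 ln12_14_7_ok) (L (nat_lit 395) ln12_15_7 ln12_15_7_ok))) (M (nat_lit 491) (B (L (nat_lit 459) ln12_11_5 ln12_11_5_ok) (L (nat_lit 523) ln12_12_5 ln12_12_5_ok))))) (M (nat_lit 332) (B (M (nat_lit 331) (B (L (nat_lit 299) ln12_13_7 ln12_13_7_ok) (L (nat_lit 363) ln12_14_7 ln12_14_7_ok))) (M (nat_lit 333) (B (L (nat_lit 301) ln12_13_6 ln12_13_6_ok) (L (nat_lit 365) ln12_14_6 ln12_14_6_ok))))))))))))) (B (M (nat_lit 461) (B (M (nat_lit 493) (B (L (nat_lit 525) ln13_16_7 ln13_16_7_ok) (M (nat_lit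 364) (B (L (nat_lit 332) ln12_10_4 ln12_10_4_ok) (L (nat_lit 397) ln13_15_7 ln13_15_7_ok))))) (B (M (nat_lit 493) (B (L (nat_lit 525) ln13_16_7 ln13_16_7_ok) (M (nat_lit 364) (B (L (nat_lit 397) ln13_15_7 ln13_15_7_ok) (L (nat_lit 460) ln12_11_4 ln12_11_4_ok))))) (B (M (nat_lit 493) (B (L (nat_lit 525) ln13_16_7 ln13_16_7_ok) (M (nat_lit 397) (B (M (nat_lit 398) (B (L (nat_lit 366) ln13_15_6 ln13_15_6_ok) (M (nat_lit 399) (B (L (nat_lit 427) ln15_12_1 ln15_12_1_ok) (L (nat_lit 400) ln16_12_1 ln16_12_1_ok))))) (M (nat_lit 492) (B (L (nat_lit 524) ln13_12_5 ln13_12_5_ok) (M (nat_lit 365) (B (L (nat_lit 460) ln12_15_6 ln12_15_6_ok) (M (nat_lit 494) (B (L (nat_lit 462) ln13_11_4 ln13_11_4_ok) (L (nat_lit 526) ln13_12_4 ln13_12_4_ok))))))))))) (B (M (nat_lit 493) (B (L (nat_lit 525) ln13_16_7 ln13_16_7_ok) (M (nat_lit 364) (B (L (nat_lit 332) ln12_10_4 ln12_10_4_ok) (L (nat_lit 460) ln12_11_4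 ln12_11_4_ok))))) (M (nat_lit 364) (B (L (nat_lit 332) ln12_10_4 ln12_10_4_ok) (M (nat_lit 460) (B (M (nat_lit 365) (B (L (nat_lit 333) ln12_14_6 ln12_14_6_ok) (M (nat_lit 492) (B (L (nat_lit 397) ln12_15_6 ln12_15_6_ok) (M (nat_lit 491) (B (L (nat_lit 459) ln12_11_5 ln12_11_5_ok) (L (nat_lit 523) ln12_12_5 ln12_12_5_ok))))))) (B (M (nat_lit 492) (B (M (nat_lit 491) (B (L (nat_lit 459) ln12_11_5 ln12_11_5_ok) (L (nat_lit 523) ln12_12_5 ln12_12_5_ok))) (M (nat_lit 524) (B (L (nat_lit 397) ln12_16_6 ln12_16_6_ok) (L (nat_lit 556) ln12_17_6 ln12_17_6_ok))))) (B (M (nat_lit 427) (B (M (nat_lit 426) (B (L (nat_lit 425) ln9_13_0 ln9_13_0_ok) (L (nat_lit 462) ln10_13_0 ln10_13_0_ok))) (M (nat_lit 492) (B (M (nat_lit 395) (B (L (nat_lit 363) ln12_15_7 ln12_15_7_ok) (L (nat_lit 524) ln12_16_7 ln12_16_7_ok))) (M (nat_lit 491) (B (L (nat_lit 459) ln12_11_5 ln12_11_5_ok) (L (nat_lit 523) ln12_12_5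 ln12_12_5_ok))))))) (B (M (nat_lit 365) (B (L (nat_lit 333) ln12_14_6 ln12_14_6_ok) (M (nat_lit 462) (B (M (nat_lit 397) (B (L (nat_lit 492) ln12_15_6 ln12_15_6_ok) (L (nat_lit 494) ln13_11_4 ln13_11_4_ok))) (M (nat_lit 463) (B (L (nat_lit 427) ln15_14_3 ln15_14_3_ok) (L (nat_lit 464) ln16_14_3 ln16_14_3_ok))))))) (M (nat_lit 462) (B (M (nat_lit 463) (B (L (nat_lit 427) ln15_14_3 ln15_14_3_ok) (L (nat_lit 464) ln16_14_3 ln16_14_3_ok))) (M (nat_lit 494) (B (M (nat_lit 365) (B (L (nat_lit 333) ln12_14_6 ln12_14_6_ok) (L (nat_lit 397) ln13_11_4 ln13_11_4_ok))) (M (nat_lit 459) (B (L (nat_lit 491) ln12_11_5 ln12_11_5_ok) (L (nat_lit 495) ln11_14_0 ln11_14_0_ok))))))))))))))))))) (B (K (nat_lit 2079502270752001762064242424960807725827516048677469043429686155012882190638009693656033379242457518153052022685796627120027336704) (nat_lit 384428669056820918565937647882905365833506374709011737104358426279615372812655800796248955972957600422184924359054548759752362762901759255761853842312845590528)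 (nat_lit 384428669056820918565937647882905365833506374709011737104358426279615372812655800796248955972957600422184924359054548759752362762901759255761853842312845590528) c41_s1470) (B (M (nat_lit 430) (B (M (nat_lit 395) (B (L (nat_lit 431) ln15_13_3 ln15_13_3_ok) (M (nat_lit 394) (B (L (nat_lit 393) ln9_12_0 ln9_12_0_ok) (L (nat_lit 397) ln10_12_0 ln10_12_0_ok))))) (B (M (nat_lit 395) (B (L (nat_lit 431) ln15_13_3 ln15_13_3_ok) (M (nat_lit 394) (B (L (nat_lit 397) ln10_12_0 ln10_12_0_ok) (L (nat_lit 427) ln14_13_3 ln14_13_3_ok))))) (B (M (nat_lit 431) (B (L (nat_lit 395) ln15_13_3 ln15_13_3_ok) (M (nat_lit 427) (B (M (nat_lit 399) (B (L (nat_lit 398) ln11_13_2 ln11_13_2_ok) (L (nat_lit 400) ln12_13_2 ln12_13_2_ok))) (M (nat_lit 463) (B (L (nat_lit 462) ln11_13_0 ln11_13_0_ok) (L (nat_lit 464) ln12_13_0 ln12_13_0_ok))))))) (B (M (nat_lit 427) (B (M (nat_lit 426) (B (M (nat_lit 458)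 (B (L (nat_lit 457) ln13_13_1 ln13_13_1_ok) (L (nat_lit 459) ln14_13_1 ln14_13_1_ok))) (M (nat_lit 462) (B (L (nat_lit 461) ln10_13_0 ln10_13_0_ok) (L (nat_lit 463) ln11_13_0 ln11_13_0_ok))))) (B (M (nat_lit 431) (B (M (nat_lit 399) (B (L (nat_lit 398) ln11_13_2 ln11_13_2_ok) (L (nat_lit 400) ln12_13_2 ln12_13_2_ok))) (M (nat_lit 463) (B (L (nat_lit 462) ln11_13_0 ln11_13_0_ok) (L (nat_lit 464) ln12_13_0 ln12_13_0_ok))))) (M (nat_lit 426) (B (M (nat_lit 397) (B (L (nat_lit 425) ln9_13_2 ln9_13_2_ok) (L (nat_lit 398) ln10_13_2 ln10_13_2_ok))) (M (nat_lit 458) (B (L (nat_lit 457) ln13_13_1 ln13_13_1_ok) (L (nat_lit 459) ln14_13_1 ln14_13_1_ok)))))))) (M (nat_lit 395) (B (M (nat_lit 394) (B (L (nat_lit 393) ln9_12_0 ln9_12_0_ok) (L (nat_lit 397) ln10_12_0 ln10_12_0_ok))) (B (M (nat_lit 394) (B (L (nat_lit 397) ln10_12_0 ln10_12_0_ok) (L (nat_lit 427) ln14_13_3 ln14_13_3_ok))) (B (M (nat_lit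 427) (B (M (nat_lit 459) (B (L (nat_lit 458) ln14_13_1 ln14_13_1_ok) (M (nat_lit 491) (B (L (nat_lit 364) ln11_15_6 ln11_15_6_ok) (L (nat_lit 523) ln11_16_6 ln11_16_6_ok))))) (M (nat_lit 426) (B (M (nat_lit 398) (B (L (nat_lit 397) ln14_12_1 ln14_12_1_ok) (L (nat_lit 399) ln11_13_2 ln11_13_2_ok))) (M (nat_lit 462) (B (L (nat_lit 461) ln10_13_0 ln10_13_0_ok) (L (nat_lit 463) ln11_13_0 ln11_13_0_ok))))))) (M (nat_lit 394) (B (L (nat_lit 393) ln9_12_0 ln9_12_0_ok) (L (nat_lit 427) ln14_13_3 ln14_13_3_ok)))))))))))) (M (nat_lit 430) (B (M (nat_lit 395) (B (L (nat_lit 431) ln15_13_3 ln15_13_3_ok) (M (nat_lit 394) (B (L (nat_lit 393) ln9_12_0 ln9_12_0_ok) (L (nat_lit 427) ln14_13_3 ln14_13_3_ok))))) (B (M (nat_lit 395) (B (L (nat_lit 431) ln15_13_3 ln15_13_3_ok) (M (nat_lit 394) (B (L (nat_lit 397) ln10_12_0 ln10_12_0_ok) (L (nat_lit 427) ln14_13_3 ln14_13_3_ok))))) (B (M (nat_lit 431) (B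 (L (nat_lit 395) ln15_13_3 ln15_13_3_ok) (M (nat_lit 400) (B (L (nat_lit 399) ln12_13_2 ln12_13_2_ok) (M (nat_lit 432) (B (L (nat_lit 397) ln16_13_3 ln16_13_3_ok) (L (nat_lit 401) ln13_13_2 ln13_13_2_ok))))))) (B (M (nat_lit 431) (B (M (nat_lit 400) (B (L (nat_lit 399) ln12_13_2 ln12_13_2_ok) (M (nat_lit 432) (B (L (nat_lit 397) ln16_13_3 ln16_13_3_ok) (L (nat_lit 401) ln13_13_2 ln13_13_2_ok))))) (M (nat_lit 427) (B (M (nat_lit 459) (B (L (nat_lit 458) ln14_13_1 ln14_13_1_ok) (L (nat_lit 460) ln15_13_1 ln15_13_1_ok))) (M (nat_lit 463) (B (L (nat_lit 462) ln11_13_0 ln11_13_0_ok) (L (nat_lit 464) ln12_13_0 ln12_13_0_ok))))))) (M (nat_lit 427) (B (M (nat_lit 395) (B (L (nat_lit 394) ln14_13_3 ln14_13_3_ok) (M (nat_lit 459) (B (L (nat_lit 458) ln14_13_1 ln14_13_1_ok) (M (nat_lit 491) (B (L (nat_lit 364) ln11_15_6 ln11_15_6_ok) (L (nat_lit 523) ln11_16_6 ln11_16_6_ok))))))) (B (M (nat_lit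 426) (B (M (nat_lit 397) (B (L (nat_lit 425) ln9_13_2 ln9_13_2_ok) (L (nat_lit 398) ln10_13_2 ln10_13_2_ok))) (M (nat_lit 458) (B (L (nat_lit 457) ln13_13_1 ln13_13_1_ok) (L (nat_lit 459) ln14_13_1 ln14_13_1_ok))))) (M (nat_lit 426) (B (M (nat_lit 394) (B (L (nat_lit 393) ln13_13_3 ln13_13_3_ok) (L (nat_lit 395) ln14_13_3 ln14_13_3_ok))) (M (nat_lit 397) (B (L (nat_lit 425) ln9_13_2 ln9_13_2_ok) (L (nat_lit 398) ln10_13_2 ln10_13_2_ok)))))))))))))))))))))) (nat_lit 1386334847221798047169638878925036799968406779833514899637066259859226863686603287896039777716422623628704219945445734162783797248) (nat_lit 235872651963234194321127316268038632277888826655534174609902935117436697955863938741961232786664827458291283560957397186033540724389520760389291453007457839093966176256) (nat_lit 235872651963234194321127316268038632277888826655534174609902935117436697955863938741961232786664827458291283560957397186033540724389520760389291453007457839093966176256)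 (by decide +kernel)
theorem c41_s1512 : Sem (nat_lit 2079502270752001762064242424960807725827516048677469043429686155012882190638009693656033379242457518153052022685796627120027336704) (nat_lit 109836762651596529966661615919562991214787687239955751106942072343340461998807002655867862359558656507511902357186677256293715506220682201376954142032484368384) (nat_lit 109836762651596529966661615919562991214787687239955751106942072343340461998807002655867862359558656507511902357186677256293715506220682201376954142032484368384) :=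
  sem_of_chk (M (nat_lit 397) (B (M (nat_lit 398) (B (M (nat_lit 399) (B (L (nat_lit 427) ln15_12_1 ln15_12_1_ok) (L (nat_lit 400) ln16_12_1 ln16_12_1_ok))) (B (M (nat_lit 430) (B (M (nat_lit 395) (B (L (nat_lit 394) ln10_12_0 ln10_12_0_ok) (L (nat_lit 431) ln11_12_0 ln11_12_0_ok))) (M (nat_lit 462) (B (M (nat_lit 365) (B (L (nat_lit 333) ln13_10_4 ln13_10_4_ok) (L (nat_lit 494) ln14_15_7 ln14_15_7_ok))) (M (nat_lit 427) (B (L (nat_lit 426) ln10_13_2 ln10_13_2_ok) (L (nat_lit 463) ln11_13_0 ln11_13_0_ok))))))) (M (nat_lit 399) (B (L (nat_lit 400) ln16_12_1 ln16_12_1_ok) (M (nat_lit 395) (B (M (nat_lit 367) (B (L (nat_lit 366) ln11_12_2 ln11_12_2_ok) (L (nat_lit 368) ln12_12_2 ln12_12_2_ok))) (M (nat_lit 431) (B (L (nat_lit 430) ln11_12_0 ln11_12_0_ok) (L (nat_lit 432) ln12_12_0 ln12_12_0_ok)))))))))) (B (M (nat_lit 398) (B (M (nat_lit 399) (B (L (nat_lit 427) ln15_12_1 ln15_12_1_ok)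 (L (nat_lit 400) ln16_12_1 ln16_12_1_ok))) (M (nat_lit 366) (B (M (nat_lit 461) (B (L (nat_lit 493) ln13_15_6 ln13_15_6_ok) (M (nat_lit 334) (B (L (nat_lit 302) ln14_9_5 ln14_9_5_ok) (L (nat_lit 430) ln14_10_5 ln14_10_5_ok))))) (B (M (nat_lit 461) (B (L (nat_lit 493) ln13_15_6 ln13_15_6_ok) (M (nat_lit 334) (B (L (nat_lit 365) ln13_14_6 ln13_14_6_ok) (L (nat_lit 430) ln14_10_5 ln14_10_5_ok))))) (B (M (nat_lit 395) (B (L (nat_lit 367) ln11_12_2 ln11_12_2_ok) (M (nat_lit 394) (B (L (nat_lit 365) ln10_12_2 ln10_12_2_ok) (L (nat_lit 430) ln10_12_0 ln10_12_0_ok))))) (M (nat_lit 461) (B (L (nat_lit 493) ln13_15_6 ln13_15_6_ok) (M (nat_lit 334) (B (L (nat_lit 302) ln14_9_5 ln14_9_5_ok) (L (nat_lit 365) ln13_14_6 ln13_14_6_ok))))))))))) (B (M (nat_lit 398) (B (M (nat_lit 399) (B (L (nat_lit 427) ln15_12_1 ln15_12_1_ok) (L (nat_lit 400) ln16_12_1 ln16_12_1_ok))) (B (M (nat_lit 430) (B (M (nat_lit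 395) (B (L (nat_lit 394) ln10_12_0 ln10_12_0_ok) (L (nat_lit 431) ln11_12_0 ln11_12_0_ok))) (B (M (nat_lit 431) (B (L (nat_lit 395) ln11_12_0 ln11_12_0_ok) (L (nat_lit 432) ln16_13_3 ln16_13_3_ok))) (B (M (nat_lit 463) (B (M (nat_lit 427) (B (L (nat_lit 426) ln10_13_2 ln10_13_2_ok) (L (nat_lit 462) ln11_13_0 ln11_13_0_ok))) (M (nat_lit 431) (B (L (nat_lit 432) ln16_13_3 ln16_13_3_ok) (L (nat_lit 464) ln12_13_0 ln12_13_0_ok))))) (M (nat_lit 366) (B (M (nat_lit 334) (B (L (nat_lit 302) ln14_9_5 ln14_9_5_ok) (L (nat_lit 461) ln14_10_5 ln14_10_5_ok))) (M (nat_lit 395) (B (L (nat_lit 367) ln11_12_2 ln11_12_2_ok) (L (nat_lit 394) ln10_12_0 ln10_12_0_ok))))))))) (M (nat_lit 364) (B (M (nat_lit 399) (B (L (nat_lit 363) ln15_12_3 ln15_12_3_ok) (L (nat_lit 400) ln16_12_1 ln16_12_1_ok))) (M (nat_lit 461) (B (L (nat_lit 332) ln12_10_4 ln12_10_4_ok) (L (nat_lit 493) ln13_15_7 ln13_15_7_ok))))))))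 (B (M (nat_lit 398) (B (M (nat_lit 399) (B (L (nat_lit 427) ln15_12_1 ln15_12_1_ok) (L (nat_lit 400) ln16_12_1 ln16_12_1_ok))) (B (M (nat_lit 430) (B (M (nat_lit 395) (B (L (nat_lit 394) ln10_12_0 ln10_12_0_ok) (L (nat_lit 431) ln11_12_0 ln11_12_0_ok))) (M (nat_lit 462) (B (M (nat_lit 365) (B (L (nat_lit 333) ln13_10_4 ln13_10_4_ok) (L (nat_lit 494) ln14_15_7 ln14_15_7_ok))) (M (nat_lit 427) (B (L (nat_lit 426) ln10_13_2 ln10_13_2_ok) (L (nat_lit 463) ln11_13_0 ln11_13_0_ok))))))) (M (nat_lit 364) (B (M (nat_lit 399) (B (L (nat_lit 363) ln15_12_3 ln15_12_3_ok) (L (nat_lit 400) ln16_12_1 ln16_12_1_ok))) (M (nat_lit 461) (B (L (nat_lit 332) ln12_10_4 ln12_10_4_ok) (L (nat_lit 493) ln13_15_7 ln13_15_7_ok)))))))) (B (M (nat_lit 398) (B (M (nat_lit 399) (B (L (nat_lit 427) ln15_12_1 ln15_12_1_ok) (L (nat_lit 400) ln16_12_1 ln16_12_1_ok))) (B (M (nat_lit 430) (B (M (nat_lit 431) (B (L (nat_lit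 395) ln11_12_0 ln11_12_0_ok) (L (nat_lit 432) ln16_13_3 ln16_13_3_ok))) (M (nat_lit 462) (B (M (nat_lit 365) (B (L (nat_lit 333) ln13_10_4 ln13_10_4_ok) (L (nat_lit 494) ln14_15_7 ln14_15_7_ok))) (M (nat_lit 427) (B (L (nat_lit 426) ln10_13_2 ln10_13_2_ok) (L (nat_lit 463) ln11_13_0 ln11_13_0_ok))))))) (M (nat_lit 364) (B (M (nat_lit 399) (B (L (nat_lit 363) ln15_12_3 ln15_12_3_ok) (L (nat_lit 400) ln16_12_1 ln16_12_1_ok))) (M (nat_lit 461) (B (L (nat_lit 332) ln12_10_4 ln12_10_4_ok) (L (nat_lit 493) ln13_15_7 ln13_15_7_ok)))))))) (B (M (nat_lit 461) (B (M (nat_lit 493) (B (L (nat_lit 364) ln13_15_7 ln13_15_7_ok) (L (nat_lit 525) ln13_16_7 ln13_16_7_ok))) (M (nat_lit 462) (B (M (nat_lit 365) (B (L (nat_lit 494) ln13_11_4 ln13_11_4_ok) (M (nat_lit 333) (B (L (nat_lit 301) ln13_9_5 ln13_9_5_ok) (L (nat_lit 430) ln13_10_4 ln13_10_4_ok))))) (B (M (nat_lit 365) (B (L (nat_lit 494) ln13_11_4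 ln13_11_4_ok) (M (nat_lit 333) (B (L (nat_lit 460) ln13_10_5 ln13_10_5_ok) (L (nat_lit 430) ln13_10_4 ln13_10_4_ok))))) (B (M (nat_lit 427) (B (L (nat_lit 426) ln10_13_0 ln10_13_0_ok) (M (nat_lit 463) (B (L (nat_lit 430) ln11_13_0 ln11_13_0_ok) (L (nat_lit 464) ln16_14_3 ln16_14_3_ok))))) (M (nat_lit 365) (B (L (nat_lit 494) ln13_11_4 ln13_11_4_ok) (M (nat_lit 333) (B (L (nat_lit 301) ln13_9_5 ln13_9_5_ok) (L (nat_lit 460) ln13_10_5 ln13_10_5_ok))))))))))) (B (M (nat_lit 398) (B (M (nat_lit 364) (B (M (nat_lit 399) (B (L (nat_lit 363) ln15_12_3 ln15_12_3_ok) (L (nat_lit 400) ln16_12_1 ln16_12_1_ok))) (M (nat_lit 461) (B (L (nat_lit 332) ln12_10_4 ln12_10_4_ok) (L (nat_lit 493) ln13_15_7 ln13_15_7_ok))))) (B (M (nat_lit 399) (B (L (nat_lit 400) ln16_12_1 ln16_12_1_ok) (M (nat_lit 395) (B (M (nat_lit 367) (B (L (nat_lit 366) ln11_12_2 ln11_12_2_ok) (L (nat_lit 368) ln12_12_2 ln12_12_2_ok)))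 (M (nat_lit 431) (B (L (nat_lit 430) ln11_12_0 ln11_12_0_ok) (L (nat_lit 432) ln12_12_0 ln12_12_0_ok))))))) (M (nat_lit 366) (B (M (nat_lit 461) (B (L (nat_lit 493) ln13_15_6 ln13_15_6_ok) (M (nat_lit 334) (B (L (nat_lit 302) ln14_9_5 ln14_9_5_ok) (L (nat_lit 430) ln14_10_5 ln14_10_5_ok))))) (B (M (nat_lit 461) (B (L (nat_lit 493) ln13_15_6 ln13_15_6_ok) (M (nat_lit 334) (B (L (nat_lit 365) ln13_14_6 ln13_14_6_ok) (L (nat_lit 430) ln14_10_5 ln14_10_5_ok))))) (B (M (nat_lit 395) (B (L (nat_lit 367) ln11_12_2 ln11_12_2_ok) (M (nat_lit 394) (B (L (nat_lit 365) ln10_12_2 ln10_12_2_ok) (L (nat_lit 430) ln10_12_0 ln10_12_0_ok))))) (M (nat_lit 461) (B (L (nat_lit 493) ln13_15_6 ln13_15_6_ok) (M (nat_lit 334) (B (L (nat_lit 302) ln14_9_5 ln14_9_5_ok) (L (nat_lit 365) ln13_14_6 ln13_14_6_ok)))))))))))) (M (nat_lit 398) (B (M (nat_lit 399) (B (L (nat_lit 427) ln15_12_1 ln15_12_1_ok) (L (nat_lit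 400) ln16_12_1 ln16_12_1_ok))) (M (nat_lit 365) (B (M (nat_lit 333) (B (L (nat_lit 301) ln13_9_5 ln13_9_5_ok) (L (nat_lit 460) ln13_10_5 ln13_10_5_ok))) (B (M (nat_lit 460) (B (L (nat_lit 333) ln13_10_5 ln13_10_5_ok) (L (nat_lit 492) ln12_15_6 ln12_15_6_ok))) (M (nat_lit 366) (B (M (nat_lit 334) (B (L (nat_lit 302) ln14_9_5 ln14_9_5_ok) (L (nat_lit 461) ln13_14_6 ln13_14_6_ok))) (M (nat_lit 367) (B (L (nat_lit 368) ln16_11_1 ln16_11_1_ok) (L (nat_lit 395) ln11_12_2 ln11_12_2_ok)))))))))))))))))) (nat_lit 2079502270752001762064242424960807725827516048677469043429686155012882190638009693656033379242457518153052022685796627120027336704) (nat_lit 109836762651596529966661615919562991214787687239955751106942072343340461998807002655867862359558656507511902357186677256293715506220682201376954142032484368384) (nat_lit 109836762651596529966661615919562991214787687239955751106942072343340461998807002655867862359558656507511902357186677256293715506220682201376954142032484368384)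 (by decide +kernel)
theorem c41_s1513 : Sem (nat_lit 1386334847221798047169638878925036799968406779833514899637066259859226863686603287896039777716422623628704219945445734162783797248) (nat_lit 235872651963234194321127316268038632277888826655534174610790684213760202927610838742242900162991791186377916695623250445830191810587946561803177214367529966497140047872) (nat_lit 235872651963234194321127316268038632277888826655534174610790684213760202927610838742242900162991791186377916695623250445830191810587946561803177214367529966497140047872) :=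
  sem_of_chk (M (nat_lit 428) (B (M (nat_lit 364) (B (M (nat_lit 461) (B (L (nat_lit 332) ln12_10_4 ln12_10_4_ok) (M (nat_lit 493) (B (L (nat_lit 397) ln13_15_7 ln13_15_7_ok) (L (nat_lit 525) ln13_16_7 ln13_16_7_ok))))) (B (M (nat_lit 460) (B (M (nat_lit 365) (B (L (nat_lit 333) ln12_14_6 ln12_14_6_ok) (M (nat_lit 492) (B (L (nat_lit 397) ln12_15_6 ln12_15_6_ok) (M (nat_lit 491) (B (L (nat_lit 459) ln12_11_5 ln12_11_5_ok) (L (nat_lit 523) ln12_12_5 ln12_12_5_ok))))))) (B (M (nat_lit 492) (B (M (nat_lit 491) (B (L (nat_lit 459) ln12_11_5 ln12_11_5_ok) (L (nat_lit 523) ln12_12_5 ln12_12_5_ok))) (M (nat_lit 493) (B (L (nat_lit 461) ln12_11_4 ln12_11_4_ok) (L (nat_lit 525) ln12_12_4 ln12_12_4_ok))))) (B (M (nat_lit 492) (B (M (nat_lit 365) (B (L (nat_lit 333) ln12_14_6 ln12_14_6_ok) (L (nat_lit 397) ln12_15_6 ln12_15_6_ok))) (M (nat_lit 493) (B (L (nat_lit 461) ln12_11_4 ln12_11_4_ok)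 (L (nat_lit 525) ln12_12_4 ln12_12_4_ok))))) (M (nat_lit 461) (B (L (nat_lit 493) ln12_11_4 ln12_11_4_ok) (M (nat_lit 459) (B (L (nat_lit 491) ln12_11_5 ln12_11_5_ok) (M (nat_lit 430) (B (L (nat_lit 431) ln15_13_1 ln15_13_1_ok) (L (nat_lit 458) ln10_14_2 ln10_14_2_ok))))))))))) (B (M (nat_lit 461) (B (L (nat_lit 332) ln12_10_4 ln12_10_4_ok) (M (nat_lit 493) (B (L (nat_lit 460) ln12_11_4 ln12_11_4_ok) (L (nat_lit 525) ln13_16_7 ln13_16_7_ok))))) (M (nat_lit 460) (B (M (nat_lit 365) (B (L (nat_lit 333) ln12_14_6 ln12_14_6_ok) (M (nat_lit 492) (B (L (nat_lit 397) ln12_15_6 ln12_15_6_ok) (M (nat_lit 491) (B (L (nat_lit 459) ln12_11_5 ln12_11_5_ok) (L (nat_lit 523) ln12_12_5 ln12_12_5_ok))))))) (B (M (nat_lit 332) (B (M (nat_lit 331) (B (L (nat_lit 299) ln12_13_7 ln12_13_7_ok) (L (nat_lit 363) ln12_14_7 ln12_14_7_ok))) (M (nat_lit 459) (B (L (nat_lit 427) ln12_10_5 ln12_10_5_ok) (L (nat_lit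 491) ln12_11_5 ln12_11_5_ok))))) (M (nat_lit 365) (B (L (nat_lit 333) ln12_14_6 ln12_14_6_ok) (M (nat_lit 332) (B (M (nat_lit 331) (B (L (nat_lit 299) ln12_13_7 ln12_13_7_ok) (L (nat_lit 363) ln12_14_7 ln12_14_7_ok))) (M (nat_lit 397) (B (L (nat_lit 300) ln12_9_4 ln12_9_4_ok) (L (nat_lit 492) ln12_15_6 ln12_15_6_ok)))))))))))))) (B (M (nat_lit 427) (B (M (nat_lit 459) (B (M (nat_lit 430) (B (L (nat_lit 458) ln14_13_1 ln14_13_1_ok) (M (nat_lit 431) (B (L (nat_lit 395) ln15_13_3 ln15_13_3_ok) (L (nat_lit 460) ln15_13_1 ln15_13_1_ok))))) (B (M (nat_lit 460) (B (M (nat_lit 491) (B (L (nat_lit 364) ln12_11_5 ln12_11_5_ok) (L (nat_lit 523) ln11_16_6 ln11_16_6_ok))) (M (nat_lit 430) (B (L (nat_lit 458) ln14_13_1 ln14_13_1_ok) (L (nat_lit 431) ln15_13_1 ln15_13_1_ok))))) (B (M (nat_lit 491) (B (L (nat_lit 523) ln11_16_6 ln11_16_6_ok) (M (nat_lit 364) (B (L (nat_lit 395) ln11_15_6 ln11_15_6_ok)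 (L (nat_lit 460) ln12_11_5 ln12_11_5_ok))))) (M (nat_lit 395) (B (M (nat_lit 491) (B (L (nat_lit 364) ln11_15_6 ln11_15_6_ok) (L (nat_lit 523) ln11_16_6 ln11_16_6_ok))) (M (nat_lit 430) (B (L (nat_lit 431) ln15_13_3 ln15_13_3_ok) (L (nat_lit 458) ln14_13_1 ln14_13_1_ok))))))))) (B (M (nat_lit 430) (B (M (nat_lit 395) (B (L (nat_lit 394) ln14_13_3 ln14_13_3_ok) (L (nat_lit 431) ln15_13_3 ln15_13_3_ok))) (M (nat_lit 426) (B (M (nat_lit 458) (B (L (nat_lit 457) ln13_13_1 ln13_13_1_ok) (L (nat_lit 459) ln14_13_1 ln14_13_1_ok))) (M (nat_lit 462) (B (L (nat_lit 461) ln10_13_0 ln10_13_0_ok) (L (nat_lit 463) ln11_13_0 ln11_13_0_ok))))))) (B (M (nat_lit 461) (B (M (nat_lit 462) (B (L (nat_lit 426) ln10_13_0 ln10_13_0_ok) (M (nat_lit 463) (B (L (nat_lit 430) ln11_13_0 ln11_13_0_ok) (L (nat_lit 460) ln15_14_3 ln15_14_3_ok))))) (B (M (nat_lit 493) (B (L (nat_lit 525) ln13_16_7 ln13_16_7_ok) (M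 (nat_lit 364) (B (L (nat_lit 397) ln13_15_7 ln13_15_7_ok) (L (nat_lit 460) ln12_11_4 ln12_11_4_ok))))) (M (nat_lit 462) (B (L (nat_lit 426) ln10_13_0 ln10_13_0_ok) (M (nat_lit 463) (B (L (nat_lit 430) ln11_13_0 ln11_13_0_ok) (L (nat_lit 464) ln16_14_3 ln16_14_3_ok)))))))) (M (nat_lit 461) (B (M (nat_lit 462) (B (L (nat_lit 426) ln10_13_0 ln10_13_0_ok) (M (nat_lit 463) (B (L (nat_lit 460) ln15_14_3 ln15_14_3_ok) (L (nat_lit 464) ln16_14_3 ln16_14_3_ok))))) (B (M (nat_lit 493) (B (L (nat_lit 525) ln13_16_7 ln13_16_7_ok) (M (nat_lit 364) (B (L (nat_lit 397) ln13_15_7 ln13_15_7_ok) (L (nat_lit 460) ln12_11_4 ln12_11_4_ok))))) (M (nat_lit 397) (B (M (nat_lit 493) (B (L (nat_lit 364) ln13_15_7 ln13_15_7_ok) (L (nat_lit 525) ln13_16_7 ln13_16_7_ok))) (M (nat_lit 426) (B (L (nat_lit 425) ln9_13_2 ln9_13_2_ok) (L (nat_lit 462) ln10_13_0 ln10_13_0_ok)))))))))))) (B (M (nat_lit 430) (B (M (nat_lit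 395) (B (L (nat_lit 431) ln15_13_3 ln15_13_3_ok) (M (nat_lit 394) (B (L (nat_lit 397) ln10_12_0 ln10_12_0_ok) (L (nat_lit 427) ln14_13_3 ln14_13_3_ok))))) (B (M (nat_lit 431) (B (L (nat_lit 395) ln15_13_3 ln15_13_3_ok) (M (nat_lit 400) (B (L (nat_lit 399) ln12_13_2 ln12_13_2_ok) (M (nat_lit 432) (B (L (nat_lit 397) ln16_13_3 ln16_13_3_ok) (L (nat_lit 401) ln13_13_2 ln13_13_2_ok))))))) (B (M (nat_lit 431) (B (M (nat_lit 400) (B (L (nat_lit 399) ln12_13_2 ln12_13_2_ok) (M (nat_lit 432) (B (L (nat_lit 397) ln16_13_3 ln16_13_3_ok) (L (nat_lit 401) ln13_13_2 ln13_13_2_ok))))) (M (nat_lit 427) (B (M (nat_lit 459) (B (L (nat_lit 458) ln14_13_1 ln14_13_1_ok) (L (nat_lit 460) ln15_13_1 ln15_13_1_ok))) (M (nat_lit 463) (B (L (nat_lit 462) ln11_13_0 ln11_13_0_ok) (L (nat_lit 464) ln12_13_0 ln12_13_0_ok))))))) (B (M (nat_lit 395) (B (L (nat_lit 431) ln15_13_3 ln15_13_3_ok) (M (nat_lit 394) (B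 (L (nat_lit 393) ln9_12_0 ln9_12_0_ok) (L (nat_lit 427) ln14_13_3 ln14_13_3_ok))))) (M (nat_lit 427) (B (M (nat_lit 398) (B (L (nat_lit 399) ln11_13_2 ln11_13_2_ok) (M (nat_lit 426) (B (L (nat_lit 397) ln10_13_2 ln10_13_2_ok) (M (nat_lit 462) (B (L (nat_lit 461) ln10_13_0 ln10_13_0_ok) (L (nat_lit 463) ln11_13_0 ln11_13_0_ok))))))) (B (M (nat_lit 426) (B (M (nat_lit 458) (B (L (nat_lit 457) ln13_13_1 ln13_13_1_ok) (L (nat_lit 459) ln14_13_1 ln14_13_1_ok))) (M (nat_lit 462) (B (L (nat_lit 461) ln10_13_0 ln10_13_0_ok) (L (nat_lit 463) ln11_13_0 ln11_13_0_ok))))) (B (M (nat_lit 398) (B (L (nat_lit 399) ln11_13_2 ln11_13_2_ok) (M (nat_lit 397) (B (M (nat_lit 462) (B (L (nat_lit 463) ln11_13_0 ln11_13_0_ok) (M (nat_lit 494) (B (L (nat_lit 365) ln14_15_7 ln14_15_7_ok) (L (nat_lit 526) ln14_16_7 ln14_16_7_ok))))) (M (nat_lit 366) (B (M (nat_lit 395) (B (L (nat_lit 367) ln11_12_2 ln11_12_2_ok)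 (L (nat_lit 394) ln10_12_0 ln10_12_0_ok))) (M (nat_lit 461) (B (L (nat_lit 334) ln14_10_5 ln14_10_5_ok) (L (nat_lit 493) ln13_15_6 ln13_15_6_ok))))))))) (M (nat_lit 426) (B (M (nat_lit 397) (B (L (nat_lit 425) ln9_13_2 ln9_13_2_ok) (L (nat_lit 398) ln10_13_2 ln10_13_2_ok))) (M (nat_lit 458) (B (L (nat_lit 457) ln13_13_1 ln13_13_1_ok) (L (nat_lit 459) ln14_13_1 ln14_13_1_ok)))))))))))))) (B (M (nat_lit 430) (B (M (nat_lit 395) (B (L (nat_lit 431) ln15_13_3 ln15_13_3_ok) (M (nat_lit 394) (B (L (nat_lit 393) ln9_12_0 ln9_12_0_ok) (L (nat_lit 427) ln14_13_3 ln14_13_3_ok))))) (B (M (nat_lit 431) (B (L (nat_lit 395) ln15_13_3 ln15_13_3_ok) (M (nat_lit 427) (B (M (nat_lit 399) (B (L (nat_lit 398) ln11_13_2 ln11_13_2_ok) (L (nat_lit 400) ln12_13_2 ln12_13_2_ok))) (M (nat_lit 459) (B (L (nat_lit 458) ln14_13_1 ln14_13_1_ok) (L (nat_lit 460) ln15_13_1 ln15_13_1_ok))))))) (B (M (nat_lit 461)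 (B (M (nat_lit 364) (B (L (nat_lit 332) ln12_10_4 ln12_10_4_ok) (M (nat_lit 493) (B (L (nat_lit 460) ln12_11_4 ln12_11_4_ok) (L (nat_lit 525) ln13_16_7 ln13_16_7_ok))))) (B (M (nat_lit 460) (B (M (nat_lit 493) (B (L (nat_lit 364) ln12_11_4 ln12_11_4_ok) (L (nat_lit 525) ln13_16_7 ln13_16_7_ok))) (M (nat_lit 459) (B (L (nat_lit 431) ln15_13_1 ln15_13_1_ok) (L (nat_lit 458) ln10_14_2 ln10_14_2_ok))))) (B (M (nat_lit 427) (B (M (nat_lit 462) (B (L (nat_lit 426) ln10_13_0 ln10_13_0_ok) (L (nat_lit 463) ln11_13_0 ln11_13_0_ok))) (M (nat_lit 431) (B (M (nat_lit 399) (B (L (nat_lit 398) ln11_13_2 ln11_13_2_ok) (L (nat_lit 400) ln12_13_2 ln12_13_2_ok))) (M (nat_lit 459) (B (L (nat_lit 458) ln14_13_1 ln14_13_1_ok) (L (nat_lit 460) ln15_13_1 ln15_13_1_ok))))))) (M (nat_lit 398) (B (M (nat_lit 493) (B (L (nat_lit 525) ln13_16_7 ln13_16_7_ok) (M (nat_lit 366) (B (L (nat_lit 334) ln14_10_5 ln14_10_5_ok)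 (L (nat_lit 462) ln14_11_5 ln14_11_5_ok))))) (M (nat_lit 399) (B (L (nat_lit 427) ln11_13_2 ln11_13_2_ok) (M (nat_lit 400) (B (L (nat_lit 401) ln17_12_1 ln17_12_1_ok) (L (nat_lit 431) ln12_13_2 ln12_13_2_ok))))))))))) (B (M (nat_lit 431) (B (L (nat_lit 395) ln15_13_3 ln15_13_3_ok) (M (nat_lit 432) (B (M (nat_lit 400) (B (L (nat_lit 399) ln12_13_2 ln12_13_2_ok) (L (nat_lit 401) ln13_13_2 ln13_13_2_ok))) (M (nat_lit 460) (B (L (nat_lit 459) ln15_13_1 ln15_13_1_ok) (L (nat_lit 461) ln16_13_1 ln16_13_1_ok))))))) (M (nat_lit 427) (B (M (nat_lit 426) (B (M (nat_lit 458) (B (L (nat_lit 457) ln13_13_1 ln13_13_1_ok) (L (nat_lit 459) ln14_13_1 ln14_13_1_ok))) (M (nat_lit 462) (B (L (nat_lit 461) ln10_13_0 ln10_13_0_ok) (L (nat_lit 463) ln11_13_0 ln11_13_0_ok))))) (B (M (nat_lit 395) (B (L (nat_lit 394) ln14_13_3 ln14_13_3_ok) (M (nat_lit 459) (B (L (nat_lit 458) ln14_13_1 ln14_13_1_ok) (M (nat_lit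 491) (B (L (nat_lit 364) ln11_15_6 ln11_15_6_ok) (L (nat_lit 523) ln11_16_6 ln11_16_6_ok))))))) (M (nat_lit 426) (B (M (nat_lit 394) (B (L (nat_lit 393) ln13_13_3 ln13_13_3_ok) (L (nat_lit 395) ln14_13_3 ln14_13_3_ok))) (M (nat_lit 462) (B (L (nat_lit 461) ln10_13_0 ln10_13_0_ok) (L (nat_lit 463) ln11_13_0 ln11_13_0_ok))))))))))))) (B (M (nat_lit 364) (B (M (nat_lit 461) (B (L (nat_lit 332) ln12_10_4 ln12_10_4_ok) (M (nat_lit 493) (B (L (nat_lit 460) ln12_11_4 ln12_11_4_ok) (L (nat_lit 525) ln13_16_7 ln13_16_7_ok))))) (B (M (nat_lit 461) (B (M (nat_lit 493) (B (L (nat_lit 397) ln13_15_7 ln13_15_7_ok) (L (nat_lit 460) ln12_11_4 ln12_11_4_ok))) (B (M (nat_lit 493) (B (L (nat_lit 460) ln12_11_4 ln12_11_4_ok) (L (nat_lit 525) ln13_16_7 ln13_16_7_ok))) (B (M (nat_lit 493) (B (L (nat_lit 397) ln13_15_7 ln13_15_7_ok) (L (nat_lit 525) ln13_16_7 ln13_16_7_ok))) (M (nat_lit 460) (B (M (nat_lit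 459) (B (L (nat_lit 491) ln12_11_5 ln12_11_5_ok) (M (nat_lit 430) (B (L (nat_lit 431) ln15_13_1 ln15_13_1_ok) (L (nat_lit 458) ln10_14_2 ln10_14_2_ok))))) (M (nat_lit 492) (B (M (nat_lit 363) (B (L (nat_lit 331) ln12_14_7 ln12_14_7_ok) (L (nat_lit 395) ln12_15_7 ln12_15_7_ok))) (M (nat_lit 524) (B (L (nat_lit 397) ln12_16_6 ln12_16_6_ok) (L (nat_lit 556) ln12_17_6 ln12_17_6_ok))))))))))) (B (M (nat_lit 461) (B (L (nat_lit 332) ln12_10_4 ln12_10_4_ok) (M (nat_lit 493) (B (L (nat_lit 397) ln13_15_7 ln13_15_7_ok) (L (nat_lit 525) ln13_16_7 ln13_16_7_ok))))) (M (nat_lit 460) (B (M (nat_lit 363) (B (L (nat_lit 331) ln12_14_7 ln12_14_7_ok) (M (nat_lit 492) (B (L (nat_lit 395) ln12_15_7 ln12_15_7_ok) (M (nat_lit 397) (B (L (nat_lit 365) ln12_15_6 ln12_15_6_ok) (L (nat_lit 524) ln12_16_6 ln12_16_6_ok))))))) (B (M (nat_lit 365) (B (L (nat_lit 333) ln12_14_6 ln12_14_6_ok) (M (nat_lit 492) (B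 (L (nat_lit 397) ln12_15_6 ln12_15_6_ok) (M (nat_lit 491) (B (L (nat_lit 459) ln12_11_5 ln12_11_5_ok) (L (nat_lit 523) ln12_12_5 ln12_12_5_ok))))))) (B (M (nat_lit 492) (B (M (nat_lit 363) (B (L (nat_lit 331) ln12_14_7 ln12_14_7_ok) (L (nat_lit 395) ln12_15_7 ln12_15_7_ok))) (M (nat_lit 491) (B (L (nat_lit 459) ln12_11_5 ln12_11_5_ok) (L (nat_lit 523) ln12_12_5 ln12_12_5_ok))))) (M (nat_lit 332) (B (M (nat_lit 331) (B (L (nat_lit 299) ln12_13_7 ln12_13_7_ok) (L (nat_lit 363) ln12_14_7 ln12_14_7_ok))) (M (nat_lit 333) (B (L (nat_lit 301) ln12_13_6 ln12_13_6_ok) (L (nat_lit 365) ln12_14_6 ln12_14_6_ok))))))))))))) (B (M (nat_lit 461) (B (M (nat_lit 493) (B (L (nat_lit 525) ln13_16_7 ln13_16_7_ok) (M (nat_lit 364) (B (L (nat_lit 332) ln12_10_4 ln12_10_4_ok) (L (nat_lit 397) ln13_15_7 ln13_15_7_ok))))) (B (M (nat_lit 493) (B (L (nat_lit 525) ln13_16_7 ln13_16_7_ok) (M (nat_lit 364) (B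 (L (nat_lit 397) ln13_15_7 ln13_15_7_ok) (L (nat_lit 460) ln12_11_4 ln12_11_4_ok))))) (B (M (nat_lit 493) (B (L (nat_lit 525) ln13_16_7 ln13_16_7_ok) (M (nat_lit 397) (B (M (nat_lit 398) (B (L (nat_lit 366) ln13_15_6 ln13_15_6_ok) (M (nat_lit 399) (B (L (nat_lit 427) ln15_12_1 ln15_12_1_ok) (L (nat_lit 400) ln16_12_1 ln16_12_1_ok))))) (M (nat_lit 492) (B (L (nat_lit 524) ln13_12_5 ln13_12_5_ok) (M (nat_lit 365) (B (L (nat_lit 460) ln12_15_6 ln12_15_6_ok) (M (nat_lit 494) (B (L (nat_lit 462) ln13_11_4 ln13_11_4_ok) (L (nat_lit 526) ln13_12_4 ln13_12_4_ok))))))))))) (B (M (nat_lit 493) (B (L (nat_lit 525) ln13_16_7 ln13_16_7_ok) (M (nat_lit 364) (B (L (nat_lit 332) ln12_10_4 ln12_10_4_ok) (L (nat_lit 460) ln12_11_4 ln12_11_4_ok))))) (M (nat_lit 364) (B (L (nat_lit 332) ln12_10_4 ln12_10_4_ok) (M (nat_lit 460) (B (M (nat_lit 365) (B (L (nat_lit 333) ln12_14_6 ln12_14_6_ok) (M (nat_lit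 492) (B (L (nat_lit 397) ln12_15_6 ln12_15_6_ok) (M (nat_lit 491) (B (L (nat_lit 459) ln12_11_5 ln12_11_5_ok) (L (nat_lit 523) ln12_12_5 ln12_12_5_ok))))))) (B (M (nat_lit 492) (B (M (nat_lit 491) (B (L (nat_lit 459) ln12_11_5 ln12_11_5_ok) (L (nat_lit 523) ln12_12_5 ln12_12_5_ok))) (M (nat_lit 524) (B (L (nat_lit 397) ln12_16_6 ln12_16_6_ok) (L (nat_lit 556) ln12_17_6 ln12_17_6_ok))))) (B (M (nat_lit 427) (B (M (nat_lit 426) (B (L (nat_lit 425) ln9_13_0 ln9_13_0_ok) (L (nat_lit 462) ln10_13_0 ln10_13_0_ok))) (M (nat_lit 492) (B (M (nat_lit 395) (B (L (nat_lit 363) ln12_15_7 ln12_15_7_ok) (L (nat_lit 524) ln12_16_7 ln12_16_7_ok))) (M (nat_lit 491) (B (L (nat_lit 459) ln12_11_5 ln12_11_5_ok) (L (nat_lit 523) ln12_12_5 ln12_12_5_ok))))))) (B (M (nat_lit 365) (B (L (nat_lit 333) ln12_14_6 ln12_14_6_ok) (M (nat_lit 462) (B (M (nat_lit 397) (B (L (nat_lit 492) ln12_15_6 ln12_15_6_ok) (L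 (nat_lit 494) ln13_11_4 ln13_11_4_ok))) (M (nat_lit 463) (B (L (nat_lit 427) ln15_14_3 ln15_14_3_ok) (L (nat_lit 464) ln16_14_3 ln16_14_3_ok))))))) (M (nat_lit 462) (B (M (nat_lit 463) (B (L (nat_lit 427) ln15_14_3 ln15_14_3_ok) (L (nat_lit 464) ln16_14_3 ln16_14_3_ok))) (M (nat_lit 494) (B (M (nat_lit 365) (B (L (nat_lit 333) ln12_14_6 ln12_14_6_ok) (L (nat_lit 397) ln13_11_4 ln13_11_4_ok))) (M (nat_lit 459) (B (L (nat_lit 491) ln12_11_5 ln12_11_5_ok) (L (nat_lit 495) ln11_14_0 ln11_14_0_ok))))))))))))))))))) (B (K (nat_lit 2079502270752001762064242424960807725827516048677469043429686155012882190638009693656033379242457518153052022685796627120027336704) (nat_lit 109836762651596529966661615919562991214787687239955751106942072343340461998807002655867862359558656507511902357186677256293715506220682201376954142032484368384) (nat_lit 109836762651596529966661615919562991214787687239955751106942072343340461998807002655867862359558656507511902357186677256293715506220682201376954142032484368384)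 c41_s1512) (B (M (nat_lit 430) (B (M (nat_lit 395) (B (L (nat_lit 431) ln15_13_3 ln15_13_3_ok) (M (nat_lit 394) (B (L (nat_lit 393) ln9_12_0 ln9_12_0_ok) (L (nat_lit 397) ln10_12_0 ln10_12_0_ok))))) (B (M (nat_lit 395) (B (L (nat_lit 431) ln15_13_3 ln15_13_3_ok) (M (nat_lit 394) (B (L (nat_lit 397) ln10_12_0 ln10_12_0_ok) (L (nat_lit 427) ln14_13_3 ln14_13_3_ok))))) (B (M (nat_lit 431) (B (L (nat_lit 395) ln15_13_3 ln15_13_3_ok) (M (nat_lit 427) (B (M (nat_lit 399) (B (L (nat_lit 398) ln11_13_2 ln11_13_2_ok) (L (nat_lit 400) ln12_13_2 ln12_13_2_ok))) (M (nat_lit 463) (B (L (nat_lit 462) ln11_13_0 ln11_13_0_ok) (L (nat_lit 464) ln12_13_0 ln12_13_0_ok))))))) (B (M (nat_lit 427) (B (M (nat_lit 426) (B (M (nat_lit 458) (B (L (nat_lit 457) ln13_13_1 ln13_13_1_ok) (L (nat_lit 459) ln14_13_1 ln14_13_1_ok))) (M (nat_lit 462) (B (L (nat_lit 461) ln10_13_0 ln10_13_0_ok) (L (nat_lit 463) ln11_13_0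 ln11_13_0_ok))))) (B (M (nat_lit 431) (B (M (nat_lit 399) (B (L (nat_lit 398) ln11_13_2 ln11_13_2_ok) (L (nat_lit 400) ln12_13_2 ln12_13_2_ok))) (M (nat_lit 463) (B (L (nat_lit 462) ln11_13_0 ln11_13_0_ok) (L (nat_lit 464) ln12_13_0 ln12_13_0_ok))))) (M (nat_lit 426) (B (M (nat_lit 397) (B (L (nat_lit 425) ln9_13_2 ln9_13_2_ok) (L (nat_lit 398) ln10_13_2 ln10_13_2_ok))) (M (nat_lit 458) (B (L (nat_lit 457) ln13_13_1 ln13_13_1_ok) (L (nat_lit 459) ln14_13_1 ln14_13_1_ok)))))))) (M (nat_lit 395) (B (M (nat_lit 394) (B (L (nat_lit 393) ln9_12_0 ln9_12_0_ok) (L (nat_lit 397) ln10_12_0 ln10_12_0_ok))) (B (M (nat_lit 394) (B (L (nat_lit 397) ln10_12_0 ln10_12_0_ok) (L (nat_lit 427) ln14_13_3 ln14_13_3_ok))) (B (M (nat_lit 427) (B (M (nat_lit 459) (B (L (nat_lit 458) ln14_13_1 ln14_13_1_ok) (M (nat_lit 491) (B (L (nat_lit 364) ln11_15_6 ln11_15_6_ok) (L (nat_lit 523) ln11_16_6 ln11_16_6_ok)))))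 (M (nat_lit 426) (B (M (nat_lit 398) (B (L (nat_lit 397) ln14_12_1 ln14_12_1_ok) (L (nat_lit 399) ln11_13_2 ln11_13_2_ok))) (M (nat_lit 462) (B (L (nat_lit 461) ln10_13_0 ln10_13_0_ok) (L (nat_lit 463) ln11_13_0 ln11_13_0_ok))))))) (M (nat_lit 394) (B (L (nat_lit 393) ln9_12_0 ln9_12_0_ok) (L (nat_lit 427) ln14_13_3 ln14_13_3_ok)))))))))))) (M (nat_lit 430) (B (M (nat_lit 395) (B (L (nat_lit 431) ln15_13_3 ln15_13_3_ok) (M (nat_lit 394) (B (L (nat_lit 393) ln9_12_0 ln9_12_0_ok) (L (nat_lit 427) ln14_13_3 ln14_13_3_ok))))) (B (M (nat_lit 395) (B (L (nat_lit 431) ln15_13_3 ln15_13_3_ok) (M (nat_lit 394) (B (L (nat_lit 397) ln10_12_0 ln10_12_0_ok) (L (nat_lit 427) ln14_13_3 ln14_13_3_ok))))) (B (M (nat_lit 431) (B (L (nat_lit 395) ln15_13_3 ln15_13_3_ok) (M (nat_lit 400) (B (L (nat_lit 399) ln12_13_2 ln12_13_2_ok) (M (nat_lit 432) (B (L (nat_lit 397) ln16_13_3 ln16_13_3_ok) (L (nat_lit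 401) ln13_13_2 ln13_13_2_ok))))))) (B (M (nat_lit 431) (B (M (nat_lit 400) (B (L (nat_lit 399) ln12_13_2 ln12_13_2_ok) (M (nat_lit 432) (B (L (nat_lit 397) ln16_13_3 ln16_13_3_ok) (L (nat_lit 401) ln13_13_2 ln13_13_2_ok))))) (M (nat_lit 427) (B (M (nat_lit 459) (B (L (nat_lit 458) ln14_13_1 ln14_13_1_ok) (L (nat_lit 460) ln15_13_1 ln15_13_1_ok))) (M (nat_lit 463) (B (L (nat_lit 462) ln11_13_0 ln11_13_0_ok) (L (nat_lit 464) ln12_13_0 ln12_13_0_ok))))))) (M (nat_lit 427) (B (M (nat_lit 395) (B (L (nat_lit 394) ln14_13_3 ln14_13_3_ok) (M (nat_lit 459) (B (L (nat_lit 458) ln14_13_1 ln14_13_1_ok) (M (nat_lit 491) (B (L (nat_lit 364) ln11_15_6 ln11_15_6_ok) (L (nat_lit 523) ln11_16_6 ln11_16_6_ok))))))) (B (M (nat_lit 426) (B (M (nat_lit 397) (B (L (nat_lit 425) ln9_13_2 ln9_13_2_ok) (L (nat_lit 398) ln10_13_2 ln10_13_2_ok))) (M (nat_lit 458) (B (L (nat_lit 457) ln13_13_1 ln13_13_1_ok) (L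 (nat_lit 459) ln14_13_1 ln14_13_1_ok))))) (M (nat_lit 426) (B (M (nat_lit 394) (B (L (nat_lit 393) ln13_13_3 ln13_13_3_ok) (L (nat_lit 395) ln14_13_3 ln14_13_3_ok))) (M (nat_lit 397) (B (L (nat_lit 425) ln9_13_2 ln9_13_2_ok) (L (nat_lit 398) ln10_13_2 ln10_13_2_ok)))))))))))))))))))))) (nat_lit 1386334847221798047169638878925036799968406779833514899637066259859226863686603287896039777716422623628704219945445734162783797248) (nat_lit 235872651963234194321127316268038632277888826655534174610790684213760202927610838742242900162991791186377916695623250445830191810587946561803177214367529966497140047872) (nat_lit 235872651963234194321127316268038632277888826655534174610790684213760202927610838742242900162991791186377916695623250445830191810587946561803177214367529966497140047872) (by decide +kernel)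
noncomputable def c41_n1530 : Cert := (M (nat_lit 364) (B (M (nat_lit 461) (B (L (nat_lit 332) ln12_10_4 ln12_10_4_ok) (M (nat_lit 493) (B (L (nat_lit 397) ln13_15_7 ln13_15_7_ok) (L (nat_lit 525) ln13_16_7 ln13_16_7_ok))))) (B (M (nat_lit 460) (B (M (nat_lit 365) (B (L (nat_lit 333) ln12_14_6 ln12_14_6_ok) (M (nat_lit 492) (B (L (nat_lit 397) ln12_15_6 ln12_15_6_ok) (M (nat_lit 491) (B (L (nat_lit 459) ln12_11_5 ln12_11_5_ok) (L (nat_lit 523) ln12_12_5 ln12_12_5_ok))))))) (B (M (nat_lit 492) (B (M (nat_lit 491) (B (L (nat_lit 459) ln12_11_5 ln12_11_5_ok) (L (nat_lit 523) ln12_12_5 ln12_12_5_ok))) (M (nat_lit 493) (B (L (nat_lit 461) ln12_11_4 ln12_11_4_ok) (L (nat_lit 525) ln12_12_4 ln12_12_4_ok))))) (B (M (nat_lit 492) (B (M (nat_lit 365) (B (L (nat_lit 333) ln12_14_6 ln12_14_6_ok) (L (nat_lit 397) ln12_15_6 ln12_15_6_ok))) (M (nat_lit 493) (B (L (nat_lit 461) ln12_11_4 ln12_11_4_ok)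 (L (nat_lit 525) ln12_12_4 ln12_12_4_ok))))) (M (nat_lit 461) (B (L (nat_lit 493) ln12_11_4 ln12_11_4_ok) (M (nat_lit 459) (B (L (nat_lit 491) ln12_11_5 ln12_11_5_ok) (M (nat_lit 430) (B (L (nat_lit 431) ln15_13_1 ln15_13_1_ok) (L (nat_lit 458) ln10_14_2 ln10_14_2_ok))))))))))) (B (M (nat_lit 461) (B (L (nat_lit 332) ln12_10_4 ln12_10_4_ok) (M (nat_lit 493) (B (L (nat_lit 460) ln12_11_4 ln12_11_4_ok) (L (nat_lit 525) ln13_16_7 ln13_16_7_ok))))) (B (M (nat_lit 460) (B (M (nat_lit 365) (B (L (nat_lit 333) ln12_14_6 ln12_14_6_ok) (M (nat_lit 492) (B (L (nat_lit 397) ln12_15_6 ln12_15_6_ok) (M (nat_lit 491) (B (L (nat_lit 459) ln12_11_5 ln12_11_5_ok) (L (nat_lit 523) ln12_12_5 ln12_12_5_ok))))))) (B (M (nat_lit 492) (B (M (nat_lit 491) (B (L (nat_lit 459) ln12_11_5 ln12_11_5_ok) (L (nat_lit 523) ln12_12_5 ln12_12_5_ok))) (M (nat_lit 397) (B (L (nat_lit 365) ln12_15_6 ln12_15_6_ok) (L (nat_lit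 524) ln12_16_6 ln12_16_6_ok))))) (B (M (nat_lit 459) (B (L (nat_lit 491) ln12_11_5 ln12_11_5_ok) (M (nat_lit 430) (B (L (nat_lit 431) ln15_13_1 ln15_13_1_ok) (M (nat_lit 427) (B (L (nat_lit 332) ln12_10_5 ln12_10_5_ok) (L (nat_lit 458) ln14_13_1 ln14_13_1_ok))))))) (B (M (nat_lit 492) (B (M (nat_lit 365) (B (L (nat_lit 333) ln12_14_6 ln12_14_6_ok) (L (nat_lit 397) ln12_15_6 ln12_15_6_ok))) (B (M (nat_lit 397) (B (L (nat_lit 365) ln12_15_6 ln12_15_6_ok) (L (nat_lit 524) ln12_16_6 ln12_16_6_ok))) (B (M (nat_lit 524) (B (L (nat_lit 397) ln12_16_6 ln12_16_6_ok) (M (nat_lit 523) (B (L (nat_lit 491) ln12_12_5 ln12_12_5_ok) (L (nat_lit 555) ln12_13_5 ln12_13_5_ok))))) (M (nat_lit 524) (B (M (nat_lit 523) (B (L (nat_lit 491) ln12_12_5 ln12_12_5_ok) (L (nat_lit 555) ln12_13_5 ln12_13_5_ok))) (M (nat_lit 525) (B (L (nat_lit 493) ln12_12_4 ln12_12_4_ok) (L (nat_lit 557) ln12_13_4 ln12_13_4_ok)))))))))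 (M (nat_lit 427) (B (M (nat_lit 459) (B (L (nat_lit 332) ln12_10_5 ln12_10_5_ok) (M (nat_lit 430) (B (L (nat_lit 458) ln14_13_1 ln14_13_1_ok) (L (nat_lit 431) ln15_13_1 ln15_13_1_ok))))) (M (nat_lit 397) (B (M (nat_lit 365) (B (L (nat_lit 333) ln12_14_6 ln12_14_6_ok) (L (nat_lit 492) ln12_15_6 ln12_15_6_ok))) (M (nat_lit 426) (B (L (nat_lit 425) ln9_13_2 ln9_13_2_ok) (L (nat_lit 398) ln10_13_2 ln10_13_2_ok)))))))))))) (M (nat_lit 332) (B (L (nat_lit 461) ln12_10_4 ln12_10_4_ok) (M (nat_lit 460) (B (M (nat_lit 333) (B (L (nat_lit 301) ln12_13_6 ln12_13_6_ok) (L (nat_lit 365) ln12_14_6 ln12_14_6_ok))) (M (nat_lit 459) (B (L (nat_lit 427) ln12_10_5 ln12_10_5_ok) (L (nat_lit 491) ln12_11_5 ln12_11_5_ok))))))))))))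
noncomputable def c41_n1663 : Cert := (M (nat_lit 460) (B (M (nat_lit 397) (B (M (nat_lit 365) (B (L (nat_lit 333) ln13_10_5 ln13_10_5_ok) (L (nat_lit 492) ln12_15_6 ln12_15_6_ok))) (M (nat_lit 398) (B (M (nat_lit 493) (B (L (nat_lit 366) ln13_15_6 ln13_15_6_ok) (L (nat_lit 525) ln13_16_7 ln13_16_7_ok))) (M (nat_lit 431) (B (M (nat_lit 399) (B (L (nat_lit 432) ln12_12_0 ln12_12_0_ok) (L (nat_lit 400) ln16_12_1 ln16_12_1_ok))) (B (M (nat_lit 430) (B (L (nat_lit 395) ln11_12_0 ln11_12_0_ok) (L (nat_lit 432) ln16_13_3 ln16_13_3_ok))) (M (nat_lit 430) (B (L (nat_lit 395) ln11_12_0 ln11_12_0_ok) (L (nat_lit 459) ln15_13_1 ln15_13_1_ok)))))))))) (B (M (nat_lit 397) (B (M (nat_lit 492) (B (L (nat_lit 365) ln12_15_6 ln12_15_6_ok) (L (nat_lit 524) ln12_16_6 ln12_16_6_ok))) (M (nat_lit 398) (B (M (nat_lit 493) (B (L (nat_lit 366) ln13_15_6 ln13_15_6_ok) (L (nat_lit 525) ln13_16_7 ln13_16_7_ok)))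 (M (nat_lit 431) (B (M (nat_lit 399) (B (L (nat_lit 432) ln12_12_0 ln12_12_0_ok) (L (nat_lit 400) ln16_12_1 ln16_12_1_ok))) (B (M (nat_lit 430) (B (L (nat_lit 395) ln11_12_0 ln11_12_0_ok) (L (nat_lit 432) ln16_13_3 ln16_13_3_ok))) (M (nat_lit 430) (B (L (nat_lit 395) ln11_12_0 ln11_12_0_ok) (L (nat_lit 459) ln15_13_1 ln15_13_1_ok)))))))))) (B (M (nat_lit 493) (B (L (nat_lit 525) ln13_16_7 ln13_16_7_ok) (M (nat_lit 492) (B (M (nat_lit 491) (B (L (nat_lit 523) ln12_12_5 ln12_12_5_ok) (M (nat_lit 462) (B (L (nat_lit 463) ln15_14_1 ln15_14_1_ok) (L (nat_lit 490) ln10_15_2 ln10_15_2_ok))))) (M (nat_lit 494) (B (M (nat_lit 397) (B (L (nat_lit 524) ln12_16_6 ln12_16_6_ok) (L (nat_lit 526) ln13_12_4 ln13_12_4_ok))) (M (nat_lit 459) (B (L (nat_lit 458) ln10_14_0 ln10_14_0_ok) (L (nat_lit 495) ln15_15_3 ln15_15_3_ok))))))))) (B (M (nat_lit 459) (B (M (nat_lit 430) (B (L (nat_lit 431) ln15_13_1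 ln15_13_1_ok) (L (nat_lit 458) ln10_14_2 ln10_14_2_ok))) (B (M (nat_lit 493) (B (L (nat_lit 525) ln13_16_7 ln13_16_7_ok) (M (nat_lit 458) (B (L (nat_lit 457) ln9_14_2 ln9_14_2_ok) (L (nat_lit 494) ln10_14_0 ln10_14_0_ok))))) (M (nat_lit 462) (B (M (nat_lit 431) (B (L (nat_lit 430) ln15_13_1 ln15_13_1_ok) (M (nat_lit 463) (B (L (nat_lit 464) ln16_14_3 ln16_14_3_ok) (L (nat_lit 432) ln12_14_2 ln12_14_2_ok))))) (B (M (nat_lit 463) (B (L (nat_lit 464) ln16_14_3 ln16_14_3_ok) (M (nat_lit 491) (B (L (nat_lit 490) ln14_14_1 ln14_14_1_ok) (L (nat_lit 492) ln15_14_1 ln15_14_1_ok))))) (M (nat_lit 491) (B (L (nat_lit 490) ln14_14_1 ln14_14_1_ok) (M (nat_lit 523) (B (L (nat_lit 492) ln12_12_5 ln12_12_5_ok) (L (nat_lit 555) ln11_17_6 ln11_17_6_ok))))))))))) (B (M (nat_lit 493) (B (L (nat_lit 525) ln13_16_7 ln13_16_7_ok) (M (nat_lit 492) (B (M (nat_lit 397) (B (L (nat_lit 365) ln12_15_6 ln12_15_6_ok)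 (L (nat_lit 524) ln12_16_6 ln12_16_6_ok))) (M (nat_lit 491) (B (L (nat_lit 523) ln12_12_5 ln12_12_5_ok) (M (nat_lit 462) (B (L (nat_lit 463) ln15_14_1 ln15_14_1_ok) (L (nat_lit 490) ln10_15_2 ln10_15_2_ok))))))))) (B (M (nat_lit 397) (B (M (nat_lit 365) (B (L (nat_lit 333) ln13_10_5 ln13_10_5_ok) (M (nat_lit 493) (B (L (nat_lit 525) ln13_16_7 ln13_16_7_ok) (M (nat_lit 494) (B (L (nat_lit 462) ln13_11_4 ln13_11_4_ok) (L (nat_lit 526) ln13_12_4 ln13_12_4_ok))))))) (B (M (nat_lit 398) (B (M (nat_lit 493) (B (L (nat_lit 366) ln13_15_6 ln13_15_6_ok) (L (nat_lit 525) ln13_16_7 ln13_16_7_ok))) (M (nat_lit 431) (B (M (nat_lit 399) (B (L (nat_lit 432) ln12_12_0 ln12_12_0_ok) (L (nat_lit 400) ln16_12_1 ln16_12_1_ok))) (B (M (nat_lit 430) (B (L (nat_lit 395) ln11_12_0 ln11_12_0_ok) (L (nat_lit 432) ln16_13_3 ln16_13_3_ok))) (M (nat_lit 430) (B (L (nat_lit 395) ln11_12_0 ln11_12_0_ok) (L (nat_lit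 459) ln15_13_1 ln15_13_1_ok)))))))) (M (nat_lit 431) (B (M (nat_lit 430) (B (L (nat_lit 395) ln15_13_3 ln15_13_3_ok) (L (nat_lit 432) ln16_13_3 ln16_13_3_ok))) (B (M (nat_lit 430) (B (L (nat_lit 432) ln16_13_3 ln16_13_3_ok) (L (nat_lit 459) ln15_13_1 ln15_13_1_ok))) (B (M (nat_lit 462) (B (M (nat_lit 365) (B (L (nat_lit 333) ln13_10_5 ln13_10_5_ok) (L (nat_lit 494) ln13_11_4 ln13_11_4_ok))) (M (nat_lit 463) (B (L (nat_lit 464) ln16_14_3 ln16_14_3_ok) (L (nat_lit 432) ln12_14_2 ln12_14_2_ok))))) (M (nat_lit 430) (B (L (nat_lit 395) ln15_13_3 ln15_13_3_ok) (L (nat_lit 459) ln15_13_1 ln15_13_1_ok)))))))))) (M (nat_lit 492) (B (M (nat_lit 397) (B (L (nat_lit 365) ln12_15_6 ln12_15_6_ok) (L (nat_lit 524) ln12_16_6 ln12_16_6_ok))) (M (nat_lit 491) (B (L (nat_lit 523) ln12_12_5 ln12_12_5_ok) (M (nat_lit 459) (B (M (nat_lit 430) (B (L (nat_lit 431) ln15_13_1 ln15_13_1_ok) (L (nat_lit 458)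 ln10_14_2 ln10_14_2_ok))) (M (nat_lit 462) (B (L (nat_lit 490) ln14_14_1 ln14_14_1_ok) (L (nat_lit 463) ln15_14_1 ln15_14_1_ok))))))))))))))))
theorem c41_s1689 : Sem (nat_lit 2079502270752001762064242424960807725827516048677469043429686155012882190638009693656033379242457518153052022685796627120027336704) (nat_lit 353808977738907361581872567439445611162677681432511987090594206153839205886865544499641679100089625325484117059806310796292210919481601549461213104653072079110077939712) (nat_lit 353808977738907361581872567439445611162677681432511987090594206153839205886865544499641679100089625325484117059806310796292210919481601549461213104653072079110077939712) :=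
  sem_of_chk (M (nat_lit 461) (B (M (nat_lit 493) (B (L (nat_lit 525) ln13_16_7 ln13_16_7_ok) (M (nat_lit 364) (B (L (nat_lit 332) ln12_10_4 ln12_10_4_ok) (L (nat_lit 460) ln12_11_4 ln12_11_4_ok))))) (B (M (nat_lit 493) (B (L (nat_lit 525) ln13_16_7 ln13_16_7_ok) (M (nat_lit 364) (B (L (nat_lit 397) ln13_15_7 ln13_15_7_ok) (L (nat_lit 460) ln12_11_4 ln12_11_4_ok))))) (B c41_n1663 (B (M (nat_lit 493) (B (L (nat_lit 525) ln13_16_7 ln13_16_7_ok) (M (nat_lit 364) (B (L (nat_lit 332) ln12_10_4 ln12_10_4_ok) (L (nat_lit 397) ln13_15_7 ln13_15_7_ok))))) (M (nat_lit 364) (B (L (nat_lit 332) ln12_10_4 ln12_10_4_ok) (M (nat_lit 460) (B (M (nat_lit 459) (B (L (nat_lit 491) ln12_11_5 ln12_11_5_ok) (M (nat_lit 430) (B (L (nat_lit 431) ln15_13_1 ln15_13_1_ok) (L (nat_lit 458) ln10_14_2 ln10_14_2_ok))))) (B (M (nat_lit 492) (B (M (nat_lit 491) (B (L (nat_lit 459) ln12_11_5 ln12_11_5_ok) (L (nat_lit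 523) ln12_12_5 ln12_12_5_ok))) (M (nat_lit 524) (B (L (nat_lit 397) ln12_16_6 ln12_16_6_ok) (L (nat_lit 556) ln12_17_6 ln12_17_6_ok))))) (B (M (nat_lit 492) (B (M (nat_lit 365) (B (L (nat_lit 333) ln12_14_6 ln12_14_6_ok) (L (nat_lit 397) ln12_15_6 ln12_15_6_ok))) (B (M (nat_lit 397) (B (L (nat_lit 365) ln12_15_6 ln12_15_6_ok) (L (nat_lit 524) ln12_16_6 ln12_16_6_ok))) (B (M (nat_lit 524) (B (L (nat_lit 397) ln12_16_6 ln12_16_6_ok) (L (nat_lit 556) ln12_17_6 ln12_17_6_ok))) (M (nat_lit 524) (B (L (nat_lit 556) ln12_17_6 ln12_17_6_ok) (M (nat_lit 523) (B (L (nat_lit 491) ln12_12_5 ln12_12_5_ok) (L (nat_lit 555) ln12_13_5 ln12_13_5_ok))))))))) (M (nat_lit 462) (B (M (nat_lit 365) (B (L (nat_lit 333) ln12_14_6 ln12_14_6_ok) (M (nat_lit 397) (B (L (nat_lit 492) ln12_15_6 ln12_15_6_ok) (L (nat_lit 494) ln13_11_4 ln13_11_4_ok))))) (M (nat_lit 431) (B (M (nat_lit 430) (B (L (nat_lit 395) ln15_13_3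 ln15_13_3_ok) (L (nat_lit 459) ln15_13_1 ln15_13_1_ok))) (B (M (nat_lit 430) (B (L (nat_lit 459) ln15_13_1 ln15_13_1_ok) (L (nat_lit 432) ln16_13_1 ln16_13_1_ok))) (M (nat_lit 463) (B (L (nat_lit 464) ln16_14_3 ln16_14_3_ok) (L (nat_lit 432) ln12_14_2 ln12_14_2_ok))))))))))))))))))) (nat_lit 2079502270752001762064242424960807725827516048677469043429686155012882190638009693656033379242457518153052022685796627120027336704) (nat_lit 353808977738907361581872567439445611162677681432511987090594206153839205886865544499641679100089625325484117059806310796292210919481601549461213104653072079110077939712) (nat_lit 353808977738907361581872567439445611162677681432511987090594206153839205886865544499641679100089625325484117059806310796292210919481601549461213104653072079110077939712) (by decide +kernel)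
noncomputable def c41_n1717 : Cert := (M (nat_lit 397) (B (M (nat_lit 398) (B (M (nat_lit 399) (B (L (nat_lit 427) ln15_12_1 ln15_12_1_ok) (L (nat_lit 400) ln16_12_1 ln16_12_1_ok))) (M (nat_lit 366) (B (M (nat_lit 461) (B (L (nat_lit 493) ln13_15_6 ln13_15_6_ok) (M (nat_lit 334) (B (L (nat_lit 302) ln14_9_5 ln14_9_5_ok) (L (nat_lit 430) ln14_10_5 ln14_10_5_ok))))) (B (M (nat_lit 461) (B (L (nat_lit 493) ln13_15_6 ln13_15_6_ok) (M (nat_lit 334) (B (L (nat_lit 365) ln13_14_6 ln13_14_6_ok) (L (nat_lit 430) ln14_10_5 ln14_10_5_ok))))) (B (M (nat_lit 395) (B (L (nat_lit 367) ln11_12_2 ln11_12_2_ok) (M (nat_lit 394) (B (L (nat_lit 365) ln10_12_2 ln10_12_2_ok) (L (nat_lit 430) ln10_12_0 ln10_12_0_ok))))) (M (nat_lit 461) (B (L (nat_lit 493) ln13_15_6 ln13_15_6_ok) (M (nat_lit 334) (B (L (nat_lit 302) ln14_9_5 ln14_9_5_ok) (L (nat_lit 365) ln13_14_6 ln13_14_6_ok))))))))))) (B (M (nat_lit 461)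 (B (M (nat_lit 493) (B (L (nat_lit 364) ln13_15_7 ln13_15_7_ok) (L (nat_lit 525) ln13_16_7 ln13_16_7_ok))) (M (nat_lit 462) (B (M (nat_lit 365) (B (L (nat_lit 494) ln13_11_4 ln13_11_4_ok) (M (nat_lit 333) (B (L (nat_lit 301) ln13_9_5 ln13_9_5_ok) (L (nat_lit 430) ln13_10_4 ln13_10_4_ok))))) (B (M (nat_lit 365) (B (L (nat_lit 494) ln13_11_4 ln13_11_4_ok) (M (nat_lit 333) (B (L (nat_lit 460) ln13_10_5 ln13_10_5_ok) (L (nat_lit 430) ln13_10_4 ln13_10_4_ok))))) (B (M (nat_lit 427) (B (L (nat_lit 426) ln10_13_0 ln10_13_0_ok) (M (nat_lit 463) (B (L (nat_lit 430) ln11_13_0 ln11_13_0_ok) (L (nat_lit 464) ln16_14_3 ln16_14_3_ok))))) (M (nat_lit 365) (B (L (nat_lit 494) ln13_11_4 ln13_11_4_ok) (M (nat_lit 333) (B (L (nat_lit 301) ln13_9_5 ln13_9_5_ok) (L (nat_lit 460) ln13_10_5 ln13_10_5_ok))))))))))) (B (M (nat_lit 398) (B (M (nat_lit 399) (B (L (nat_lit 427) ln15_12_1 ln15_12_1_ok) (L (nat_lit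 400) ln16_12_1 ln16_12_1_ok))) (B (M (nat_lit 430) (B (M (nat_lit 395) (B (L (nat_lit 394) ln10_12_0 ln10_12_0_ok) (L (nat_lit 431) ln11_12_0 ln11_12_0_ok))) (B (M (nat_lit 431) (B (L (nat_lit 395) ln11_12_0 ln11_12_0_ok) (L (nat_lit 432) ln16_13_3 ln16_13_3_ok))) (B (M (nat_lit 463) (B (M (nat_lit 427) (B (L (nat_lit 426) ln10_13_2 ln10_13_2_ok) (L (nat_lit 462) ln11_13_0 ln11_13_0_ok))) (M (nat_lit 431) (B (L (nat_lit 432) ln16_13_3 ln16_13_3_ok) (L (nat_lit 464) ln12_13_0 ln12_13_0_ok))))) (M (nat_lit 366) (B (M (nat_lit 334) (B (L (nat_lit 302) ln14_9_5 ln14_9_5_ok) (L (nat_lit 461) ln14_10_5 ln14_10_5_ok))) (M (nat_lit 395) (B (L (nat_lit 367) ln11_12_2 ln11_12_2_ok) (L (nat_lit 394) ln10_12_0 ln10_12_0_ok))))))))) (M (nat_lit 399) (B (L (nat_lit 400) ln16_12_1 ln16_12_1_ok) (M (nat_lit 395) (B (M (nat_lit 367) (B (L (nat_lit 366) ln11_12_2 ln11_12_2_ok) (L (nat_lit 368) ln12_12_2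 ln12_12_2_ok))) (M (nat_lit 431) (B (L (nat_lit 430) ln11_12_0 ln11_12_0_ok) (L (nat_lit 432) ln12_12_0 ln12_12_0_ok)))))))))) (B (M (nat_lit 365) (B (M (nat_lit 333) (B (L (nat_lit 301) ln13_9_5 ln13_9_5_ok) (L (nat_lit 460) ln13_10_5 ln13_10_5_ok))) (B (M (nat_lit 460) (B (L (nat_lit 333) ln13_10_5 ln13_10_5_ok) (L (nat_lit 492) ln12_15_6 ln12_15_6_ok))) (M (nat_lit 366) (B (M (nat_lit 395) (B (L (nat_lit 394) ln10_12_2 ln10_12_2_ok) (M (nat_lit 367) (B (L (nat_lit 368) ln16_11_1 ln16_11_1_ok) (L (nat_lit 398) ln11_12_2 ln11_12_2_ok))))) (M (nat_lit 461) (B (L (nat_lit 334) ln13_14_6 ln13_14_6_ok) (M (nat_lit 364) (B (L (nat_lit 332) ln13_14_7 ln13_14_7_ok) (L (nat_lit 493) ln13_15_7 ln13_15_7_ok)))))))))) (M (nat_lit 398) (B (M (nat_lit 399) (B (L (nat_lit 427) ln15_12_1 ln15_12_1_ok) (L (nat_lit 400) ln16_12_1 ln16_12_1_ok))) (B (M (nat_lit 430) (B (M (nat_lit 431) (B (L (nat_lit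 395) ln11_12_0 ln11_12_0_ok) (L (nat_lit 432) ln16_13_3 ln16_13_3_ok))) (M (nat_lit 462) (B (M (nat_lit 365) (B (L (nat_lit 333) ln13_10_4 ln13_10_4_ok) (L (nat_lit 494) ln14_15_7 ln14_15_7_ok))) (M (nat_lit 427) (B (L (nat_lit 426) ln10_13_2 ln10_13_2_ok) (L (nat_lit 463) ln11_13_0 ln11_13_0_ok))))))) (M (nat_lit 399) (B (L (nat_lit 400) ln16_12_1 ln16_12_1_ok) (M (nat_lit 395) (B (M (nat_lit 367) (B (L (nat_lit 366) ln11_12_2 ln11_12_2_ok) (L (nat_lit 368) ln12_12_2 ln12_12_2_ok))) (M (nat_lit 431) (B (L (nat_lit 430) ln11_12_0 ln11_12_0_ok) (L (nat_lit 432) ln12_12_0 ln12_12_0_ok)))))))))))))))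
theorem c41_s1729 : Sem (nat_lit 1386334847221798047169638878925036799968406779833514899637066259859226863686603287896039777716422623628704219945445734162783797248) (nat_lit 825554280841600030612066890062979222528592522908911193841640694784561343592588136184769020202749770238080956778648095034651400318692324808265700127466309746433422524416) (nat_lit 825554280841600030612066890062979222528592522908911193841640694784561343592588136184769020202749770238080956778648095034651400318692324808265700127466309746433422524416) :=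
  sem_of_chk (M (nat_lit 428) (B (M (nat_lit 430) (B (M (nat_lit 395) (B (L (nat_lit 431) ln15_13_3 ln15_13_3_ok) (M (nat_lit 394) (B (L (nat_lit 393) ln9_12_0 ln9_12_0_ok) (L (nat_lit 397) ln10_12_0 ln10_12_0_ok))))) (B (M (nat_lit 395) (B (L (nat_lit 431) ln15_13_3 ln15_13_3_ok) (M (nat_lit 394) (B (L (nat_lit 397) ln10_12_0 ln10_12_0_ok) (L (nat_lit 427) ln14_13_3 ln14_13_3_ok))))) (B (M (nat_lit 431) (B (L (nat_lit 395) ln15_13_3 ln15_13_3_ok) (M (nat_lit 427) (B (M (nat_lit 399) (B (L (nat_lit 398) ln11_13_2 ln11_13_2_ok) (L (nat_lit 400) ln12_13_2 ln12_13_2_ok))) (M (nat_lit 463) (B (L (nat_lit 462) ln11_13_0 ln11_13_0_ok) (L (nat_lit 464) ln12_13_0 ln12_13_0_ok))))))) (B (M (nat_lit 427) (B (M (nat_lit 426) (B (M (nat_lit 458) (B (L (nat_lit 457) ln13_13_1 ln13_13_1_ok) (L (nat_lit 459) ln14_13_1 ln14_13_1_ok))) (M (nat_lit 462) (B (L (nat_lit 461) ln10_13_0 ln10_13_0_ok) (L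 (nat_lit 463) ln11_13_0 ln11_13_0_ok))))) (B (M (nat_lit 431) (B (M (nat_lit 399) (B (L (nat_lit 398) ln11_13_2 ln11_13_2_ok) (L (nat_lit 400) ln12_13_2 ln12_13_2_ok))) (M (nat_lit 463) (B (L (nat_lit 462) ln11_13_0 ln11_13_0_ok) (L (nat_lit 464) ln12_13_0 ln12_13_0_ok))))) (M (nat_lit 426) (B (M (nat_lit 397) (B (L (nat_lit 425) ln9_13_2 ln9_13_2_ok) (L (nat_lit 398) ln10_13_2 ln10_13_2_ok))) (M (nat_lit 458) (B (L (nat_lit 457) ln13_13_1 ln13_13_1_ok) (L (nat_lit 459) ln14_13_1 ln14_13_1_ok)))))))) (M (nat_lit 395) (B (M (nat_lit 394) (B (L (nat_lit 393) ln9_12_0 ln9_12_0_ok) (L (nat_lit 397) ln10_12_0 ln10_12_0_ok))) (B (M (nat_lit 394) (B (L (nat_lit 397) ln10_12_0 ln10_12_0_ok) (L (nat_lit 427) ln14_13_3 ln14_13_3_ok))) (B (M (nat_lit 427) (B (M (nat_lit 459) (B (L (nat_lit 458) ln14_13_1 ln14_13_1_ok) (M (nat_lit 491) (B (L (nat_lit 364) ln11_15_6 ln11_15_6_ok) (L (nat_lit 523)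 ln11_16_6 ln11_16_6_ok))))) (M (nat_lit 426) (B (M (nat_lit 398) (B (L (nat_lit 397) ln14_12_1 ln14_12_1_ok) (L (nat_lit 399) ln11_13_2 ln11_13_2_ok))) (M (nat_lit 462) (B (L (nat_lit 461) ln10_13_0 ln10_13_0_ok) (L (nat_lit 463) ln11_13_0 ln11_13_0_ok))))))) (M (nat_lit 394) (B (L (nat_lit 393) ln9_12_0 ln9_12_0_ok) (L (nat_lit 427) ln14_13_3 ln14_13_3_ok)))))))))))) (B (M (nat_lit 430) (B (M (nat_lit 395) (B (L (nat_lit 431) ln15_13_3 ln15_13_3_ok) (M (nat_lit 394) (B (L (nat_lit 393) ln9_12_0 ln9_12_0_ok) (L (nat_lit 427) ln14_13_3 ln14_13_3_ok))))) (B (M (nat_lit 395) (B (L (nat_lit 431) ln15_13_3 ln15_13_3_ok) (M (nat_lit 394) (B (L (nat_lit 397) ln10_12_0 ln10_12_0_ok) (L (nat_lit 427) ln14_13_3 ln14_13_3_ok))))) (B (M (nat_lit 431) (B (L (nat_lit 395) ln15_13_3 ln15_13_3_ok) (M (nat_lit 400) (B (L (nat_lit 399) ln12_13_2 ln12_13_2_ok) (M (nat_lit 432) (B (L (nat_lit 397) ln16_13_3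 ln16_13_3_ok) (L (nat_lit 401) ln13_13_2 ln13_13_2_ok))))))) (B (M (nat_lit 431) (B (M (nat_lit 400) (B (L (nat_lit 399) ln12_13_2 ln12_13_2_ok) (M (nat_lit 432) (B (L (nat_lit 397) ln16_13_3 ln16_13_3_ok) (L (nat_lit 401) ln13_13_2 ln13_13_2_ok))))) (M (nat_lit 427) (B (M (nat_lit 459) (B (L (nat_lit 458) ln14_13_1 ln14_13_1_ok) (L (nat_lit 460) ln15_13_1 ln15_13_1_ok))) (M (nat_lit 463) (B (L (nat_lit 462) ln11_13_0 ln11_13_0_ok) (L (nat_lit 464) ln12_13_0 ln12_13_0_ok))))))) (M (nat_lit 427) (B (M (nat_lit 398) (B (L (nat_lit 399) ln11_13_2 ln11_13_2_ok) (M (nat_lit 426) (B (L (nat_lit 397) ln10_13_2 ln10_13_2_ok) (M (nat_lit 462) (B (L (nat_lit 461) ln10_13_0 ln10_13_0_ok) (L (nat_lit 463) ln11_13_0 ln11_13_0_ok))))))) (B (M (nat_lit 426) (B (M (nat_lit 458) (B (L (nat_lit 457) ln13_13_1 ln13_13_1_ok) (L (nat_lit 459) ln14_13_1 ln14_13_1_ok))) (M (nat_lit 462) (B (L (nat_lit 461)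 ln10_13_0 ln10_13_0_ok) (L (nat_lit 463) ln11_13_0 ln11_13_0_ok))))) (B (M (nat_lit 398) (B (L (nat_lit 399) ln11_13_2 ln11_13_2_ok) (M (nat_lit 397) (B (M (nat_lit 462) (B (L (nat_lit 463) ln11_13_0 ln11_13_0_ok) (M (nat_lit 494) (B (L (nat_lit 365) ln14_15_7 ln14_15_7_ok) (L (nat_lit 526) ln14_16_7 ln14_16_7_ok))))) (M (nat_lit 366) (B (M (nat_lit 395) (B (L (nat_lit 367) ln11_12_2 ln11_12_2_ok) (L (nat_lit 394) ln10_12_0 ln10_12_0_ok))) (M (nat_lit 461) (B (L (nat_lit 334) ln14_10_5 ln14_10_5_ok) (L (nat_lit 493) ln13_15_6 ln13_15_6_ok))))))))) (M (nat_lit 426) (B (M (nat_lit 398) (B (L (nat_lit 397) ln10_13_2 ln10_13_2_ok) (L (nat_lit 399) ln11_13_2 ln11_13_2_ok))) (M (nat_lit 458) (B (L (nat_lit 457) ln13_13_1 ln13_13_1_ok) (L (nat_lit 459) ln14_13_1 ln14_13_1_ok)))))))))))))) (B (M (nat_lit 427) (B (M (nat_lit 459) (B (M (nat_lit 430) (B (L (nat_lit 458) ln14_13_1 ln14_13_1_ok)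 (M (nat_lit 431) (B (L (nat_lit 395) ln15_13_3 ln15_13_3_ok) (L (nat_lit 460) ln15_13_1 ln15_13_1_ok))))) (B (M (nat_lit 460) (B (M (nat_lit 491) (B (L (nat_lit 364) ln12_11_5 ln12_11_5_ok) (L (nat_lit 523) ln11_16_6 ln11_16_6_ok))) (M (nat_lit 430) (B (L (nat_lit 458) ln14_13_1 ln14_13_1_ok) (L (nat_lit 431) ln15_13_1 ln15_13_1_ok))))) (B (M (nat_lit 491) (B (L (nat_lit 523) ln11_16_6 ln11_16_6_ok) (M (nat_lit 364) (B (L (nat_lit 395) ln11_15_6 ln11_15_6_ok) (L (nat_lit 460) ln12_11_5 ln12_11_5_ok))))) (M (nat_lit 395) (B (M (nat_lit 491) (B (L (nat_lit 364) ln11_15_6 ln11_15_6_ok) (L (nat_lit 523) ln11_16_6 ln11_16_6_ok))) (M (nat_lit 430) (B (L (nat_lit 431) ln15_13_3 ln15_13_3_ok) (L (nat_lit 458) ln14_13_1 ln14_13_1_ok))))))))) (B (M (nat_lit 430) (B (M (nat_lit 395) (B (L (nat_lit 394) ln14_13_3 ln14_13_3_ok) (L (nat_lit 431) ln15_13_3 ln15_13_3_ok))) (M (nat_lit 426) (B (M (nat_lit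 458) (B (L (nat_lit 457) ln13_13_1 ln13_13_1_ok) (L (nat_lit 459) ln14_13_1 ln14_13_1_ok))) (M (nat_lit 462) (B (L (nat_lit 461) ln10_13_0 ln10_13_0_ok) (L (nat_lit 463) ln11_13_0 ln11_13_0_ok))))))) (B (M (nat_lit 461) (B (M (nat_lit 462) (B (L (nat_lit 426) ln10_13_0 ln10_13_0_ok) (M (nat_lit 463) (B (L (nat_lit 430) ln11_13_0 ln11_13_0_ok) (L (nat_lit 460) ln15_14_3 ln15_14_3_ok))))) (B (M (nat_lit 493) (B (L (nat_lit 525) ln13_16_7 ln13_16_7_ok) (M (nat_lit 364) (B (L (nat_lit 397) ln13_15_7 ln13_15_7_ok) (L (nat_lit 460) ln12_11_4 ln12_11_4_ok))))) (M (nat_lit 462) (B (L (nat_lit 426) ln10_13_0 ln10_13_0_ok) (M (nat_lit 463) (B (L (nat_lit 430) ln11_13_0 ln11_13_0_ok) (L (nat_lit 464) ln16_14_3 ln16_14_3_ok)))))))) (M (nat_lit 461) (B (M (nat_lit 462) (B (L (nat_lit 426) ln10_13_0 ln10_13_0_ok) (M (nat_lit 463) (B (L (nat_lit 460) ln15_14_3 ln15_14_3_ok) (L (nat_lit 464) ln16_14_3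 ln16_14_3_ok))))) (B (M (nat_lit 493) (B (L (nat_lit 525) ln13_16_7 ln13_16_7_ok) (M (nat_lit 364) (B (L (nat_lit 397) ln13_15_7 ln13_15_7_ok) (L (nat_lit 460) ln12_11_4 ln12_11_4_ok))))) (M (nat_lit 397) (B (M (nat_lit 493) (B (L (nat_lit 364) ln13_15_7 ln13_15_7_ok) (L (nat_lit 525) ln13_16_7 ln13_16_7_ok))) (M (nat_lit 426) (B (L (nat_lit 425) ln9_13_2 ln9_13_2_ok) (L (nat_lit 462) ln10_13_0 ln10_13_0_ok)))))))))))) (B (M (nat_lit 427) (B (M (nat_lit 459) (B (M (nat_lit 430) (B (L (nat_lit 458) ln14_13_1 ln14_13_1_ok) (M (nat_lit 431) (B (L (nat_lit 395) ln15_13_3 ln15_13_3_ok) (L (nat_lit 460) ln15_13_1 ln15_13_1_ok))))) (B (M (nat_lit 460) (B (M (nat_lit 491) (B (L (nat_lit 364) ln12_11_5 ln12_11_5_ok) (L (nat_lit 523) ln11_16_6 ln11_16_6_ok))) (M (nat_lit 430) (B (L (nat_lit 458) ln14_13_1 ln14_13_1_ok) (L (nat_lit 431) ln15_13_1 ln15_13_1_ok))))) (B (M (nat_lit 491) (B (L (nat_lit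 523) ln11_16_6 ln11_16_6_ok) (M (nat_lit 364) (B (L (nat_lit 395) ln11_15_6 ln11_15_6_ok) (L (nat_lit 460) ln12_11_5 ln12_11_5_ok))))) (M (nat_lit 395) (B (M (nat_lit 491) (B (L (nat_lit 364) ln11_15_6 ln11_15_6_ok) (L (nat_lit 523) ln11_16_6 ln11_16_6_ok))) (M (nat_lit 430) (B (L (nat_lit 431) ln15_13_3 ln15_13_3_ok) (L (nat_lit 458) ln14_13_1 ln14_13_1_ok))))))))) (B (M (nat_lit 430) (B (M (nat_lit 431) (B (L (nat_lit 395) ln15_13_3 ln15_13_3_ok) (M (nat_lit 463) (B (L (nat_lit 462) ln11_13_0 ln11_13_0_ok) (L (nat_lit 464) ln12_13_0 ln12_13_0_ok))))) (B (M (nat_lit 426) (B (M (nat_lit 458) (B (L (nat_lit 457) ln13_13_1 ln13_13_1_ok) (L (nat_lit 459) ln14_13_1 ln14_13_1_ok))) (M (nat_lit 462) (B (L (nat_lit 461) ln10_13_0 ln10_13_0_ok) (L (nat_lit 463) ln11_13_0 ln11_13_0_ok))))) (M (nat_lit 431) (B (L (nat_lit 395) ln15_13_3 ln15_13_3_ok) (M (nat_lit 399) (B (L (nat_lit 398) ln11_13_2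 ln11_13_2_ok) (L (nat_lit 400) ln12_13_2 ln12_13_2_ok)))))))) (M (nat_lit 461) (B (M (nat_lit 462) (B (L (nat_lit 426) ln10_13_0 ln10_13_0_ok) (M (nat_lit 463) (B (L (nat_lit 460) ln15_14_3 ln15_14_3_ok) (L (nat_lit 464) ln16_14_3 ln16_14_3_ok))))) (B (M (nat_lit 493) (B (L (nat_lit 525) ln13_16_7 ln13_16_7_ok) (M (nat_lit 364) (B (L (nat_lit 397) ln13_15_7 ln13_15_7_ok) (L (nat_lit 460) ln12_11_4 ln12_11_4_ok))))) (M (nat_lit 426) (B (L (nat_lit 462) ln10_13_0 ln10_13_0_ok) (M (nat_lit 397) (B (L (nat_lit 425) ln9_13_2 ln9_13_2_ok) (L (nat_lit 398) ln10_13_2 ln10_13_2_ok))))))))))) (B c41_n1530 (B (M (nat_lit 430) (B (M (nat_lit 395) (B (L (nat_lit 431) ln15_13_3 ln15_13_3_ok) (M (nat_lit 394) (B (L (nat_lit 393) ln9_12_0 ln9_12_0_ok) (L (nat_lit 427) ln14_13_3 ln14_13_3_ok))))) (B (M (nat_lit 431) (B (L (nat_lit 395) ln15_13_3 ln15_13_3_ok) (M (nat_lit 427) (B (M (nat_lit 459) (B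 (L (nat_lit 458) ln14_13_1 ln14_13_1_ok) (L (nat_lit 460) ln15_13_1 ln15_13_1_ok))) (M (nat_lit 463) (B (L (nat_lit 462) ln11_13_0 ln11_13_0_ok) (L (nat_lit 464) ln12_13_0 ln12_13_0_ok))))))) (B (M (nat_lit 461) (B (M (nat_lit 364) (B (L (nat_lit 332) ln12_10_4 ln12_10_4_ok) (M (nat_lit 493) (B (L (nat_lit 460) ln12_11_4 ln12_11_4_ok) (L (nat_lit 525) ln13_16_7 ln13_16_7_ok))))) (B (M (nat_lit 460) (B (M (nat_lit 493) (B (L (nat_lit 364) ln12_11_4 ln12_11_4_ok) (L (nat_lit 525) ln13_16_7 ln13_16_7_ok))) (M (nat_lit 459) (B (L (nat_lit 431) ln15_13_1 ln15_13_1_ok) (L (nat_lit 458) ln10_14_2 ln10_14_2_ok))))) (B (M (nat_lit 427) (B (M (nat_lit 462) (B (L (nat_lit 426) ln10_13_0 ln10_13_0_ok) (L (nat_lit 463) ln11_13_0 ln11_13_0_ok))) (M (nat_lit 431) (B (M (nat_lit 399) (B (L (nat_lit 398) ln11_13_2 ln11_13_2_ok) (L (nat_lit 400) ln12_13_2 ln12_13_2_ok))) (M (nat_lit 459) (B (L (nat_lit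 458) ln14_13_1 ln14_13_1_ok) (L (nat_lit 460) ln15_13_1 ln15_13_1_ok))))))) (M (nat_lit 398) (B (M (nat_lit 493) (B (L (nat_lit 525) ln13_16_7 ln13_16_7_ok) (M (nat_lit 366) (B (L (nat_lit 334) ln14_10_5 ln14_10_5_ok) (L (nat_lit 462) ln14_11_5 ln14_11_5_ok))))) (M (nat_lit 399) (B (L (nat_lit 427) ln11_13_2 ln11_13_2_ok) (M (nat_lit 400) (B (L (nat_lit 401) ln17_12_1 ln17_12_1_ok) (L (nat_lit 431) ln12_13_2 ln12_13_2_ok))))))))))) (B (M (nat_lit 431) (B (L (nat_lit 395) ln15_13_3 ln15_13_3_ok) (M (nat_lit 432) (B (M (nat_lit 400) (B (L (nat_lit 399) ln12_13_2 ln12_13_2_ok) (L (nat_lit 401) ln13_13_2 ln13_13_2_ok))) (M (nat_lit 460) (B (L (nat_lit 459) ln15_13_1 ln15_13_1_ok) (L (nat_lit 461) ln16_13_1 ln16_13_1_ok))))))) (M (nat_lit 427) (B (M (nat_lit 426) (B (M (nat_lit 458) (B (L (nat_lit 457) ln13_13_1 ln13_13_1_ok) (L (nat_lit 459) ln14_13_1 ln14_13_1_ok))) (M (nat_lit 462) (B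 (L (nat_lit 461) ln10_13_0 ln10_13_0_ok) (L (nat_lit 463) ln11_13_0 ln11_13_0_ok))))) (B (M (nat_lit 395) (B (L (nat_lit 394) ln14_13_3 ln14_13_3_ok) (M (nat_lit 459) (B (L (nat_lit 458) ln14_13_1 ln14_13_1_ok) (M (nat_lit 491) (B (L (nat_lit 364) ln11_15_6 ln11_15_6_ok) (L (nat_lit 523) ln11_16_6 ln11_16_6_ok))))))) (M (nat_lit 426) (B (M (nat_lit 394) (B (L (nat_lit 393) ln13_13_3 ln13_13_3_ok) (L (nat_lit 395) ln14_13_3 ln14_13_3_ok))) (M (nat_lit 462) (B (L (nat_lit 461) ln10_13_0 ln10_13_0_ok) (L (nat_lit 463) ln11_13_0 ln11_13_0_ok))))))))))))) (B (M (nat_lit 430) (B (M (nat_lit 395) (B (L (nat_lit 431) ln15_13_3 ln15_13_3_ok) (M (nat_lit 394) (B (L (nat_lit 393) ln9_12_0 ln9_12_0_ok) (L (nat_lit 427) ln14_13_3 ln14_13_3_ok))))) (B (M (nat_lit 395) (B (L (nat_lit 431) ln15_13_3 ln15_13_3_ok) (M (nat_lit 394) (B (L (nat_lit 397) ln10_12_0 ln10_12_0_ok) (L (nat_lit 427) ln14_13_3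 ln14_13_3_ok))))) (B (M (nat_lit 431) (B (L (nat_lit 395) ln15_13_3 ln15_13_3_ok) (M (nat_lit 400) (B (L (nat_lit 399) ln12_13_2 ln12_13_2_ok) (M (nat_lit 432) (B (L (nat_lit 397) ln16_13_3 ln16_13_3_ok) (L (nat_lit 401) ln13_13_2 ln13_13_2_ok))))))) (B (M (nat_lit 431) (B (M (nat_lit 400) (B (L (nat_lit 399) ln12_13_2 ln12_13_2_ok) (M (nat_lit 432) (B (L (nat_lit 397) ln16_13_3 ln16_13_3_ok) (L (nat_lit 401) ln13_13_2 ln13_13_2_ok))))) (M (nat_lit 427) (B (M (nat_lit 459) (B (L (nat_lit 458) ln14_13_1 ln14_13_1_ok) (L (nat_lit 460) ln15_13_1 ln15_13_1_ok))) (M (nat_lit 463) (B (L (nat_lit 462) ln11_13_0 ln11_13_0_ok) (L (nat_lit 464) ln12_13_0 ln12_13_0_ok))))))) (M (nat_lit 459) (B (M (nat_lit 458) (B (L (nat_lit 427) ln14_13_1 ln14_13_1_ok) (M (nat_lit 460) (B (L (nat_lit 457) ln9_14_2 ln9_14_2_ok) (L (nat_lit 461) ln10_14_2 ln10_14_2_ok))))) (B (M (nat_lit 460) (B (M (nat_lit 458)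 (B (L (nat_lit 457) ln9_14_2 ln9_14_2_ok) (L (nat_lit 461) ln10_14_2 ln10_14_2_ok))) (M (nat_lit 491) (B (L (nat_lit 364) ln12_11_5 ln12_11_5_ok) (M (nat_lit 523) (B (L (nat_lit 492) ln12_12_5 ln12_12_5_ok) (L (nat_lit 555) ln11_17_6 ln11_17_6_ok))))))) (B (M (nat_lit 427) (B (L (nat_lit 458) ln14_13_1 ln14_13_1_ok) (M (nat_lit 364) (B (L (nat_lit 332) ln12_10_5 ln12_10_5_ok) (M (nat_lit 491) (B (L (nat_lit 460) ln12_11_5 ln12_11_5_ok) (L (nat_lit 523) ln11_16_6 ln11_16_6_ok))))))) (B (M (nat_lit 364) (B (M (nat_lit 332) (B (L (nat_lit 427) ln12_10_5 ln12_10_5_ok) (L (nat_lit 461) ln12_10_4 ln12_10_4_ok))) (B (M (nat_lit 395) (B (M (nat_lit 491) (B (L (nat_lit 427) ln11_15_6 ln11_15_6_ok) (L (nat_lit 460) ln12_11_5 ln12_11_5_ok))) (M (nat_lit 394) (B (L (nat_lit 393) ln9_12_0 ln9_12_0_ok) (L (nat_lit 397) ln10_12_0 ln10_12_0_ok))))) (M (nat_lit 460) (B (L (nat_lit 491) ln12_11_5 ln12_11_5_ok)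 (M (nat_lit 461) (B (L (nat_lit 332) ln12_10_4 ln12_10_4_ok) (L (nat_lit 493) ln12_11_4 ln12_11_4_ok)))))))) (M (nat_lit 427) (B (L (nat_lit 458) ln14_13_1 ln14_13_1_ok) (M (nat_lit 364) (B (L (nat_lit 332) ln12_10_5 ln12_10_5_ok) (M (nat_lit 395) (B (L (nat_lit 491) ln11_15_6 ln11_15_6_ok) (L (nat_lit 394) ln14_13_3 ln14_13_3_ok))))))))))))))))) (B (K (nat_lit 2079502270752001762064242424960807725827516048677469043429686155012882190638009693656033379242457518153052022685796627120027336704) (nat_lit 353808977738907361581872567439445611162677681432511987090594206153839205886865544499641679100089625325484117059806310796292210919481601549461213104653072079110077939712) (nat_lit 353808977738907361581872567439445611162677681432511987090594206153839205886865544499641679100089625325484117059806310796292210919481601549461213104653072079110077939712) c41_s1689) (B (M (nat_lit 461) (B (M (nat_lit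 493) (B (L (nat_lit 525) ln13_16_7 ln13_16_7_ok) (M (nat_lit 364) (B (L (nat_lit 332) ln12_10_4 ln12_10_4_ok) (L (nat_lit 397) ln13_15_7 ln13_15_7_ok))))) (B (M (nat_lit 493) (B (L (nat_lit 525) ln13_16_7 ln13_16_7_ok) (M (nat_lit 364) (B (L (nat_lit 397) ln13_15_7 ln13_15_7_ok) (L (nat_lit 460) ln12_11_4 ln12_11_4_ok))))) (B (M (nat_lit 493) (B (L (nat_lit 525) ln13_16_7 ln13_16_7_ok) (M (nat_lit 397) (B (M (nat_lit 398) (B (L (nat_lit 366) ln13_15_6 ln13_15_6_ok) (M (nat_lit 399) (B (L (nat_lit 427) ln15_12_1 ln15_12_1_ok) (L (nat_lit 400) ln16_12_1 ln16_12_1_ok))))) (M (nat_lit 492) (B (L (nat_lit 524) ln13_12_5 ln13_12_5_ok) (M (nat_lit 365) (B (L (nat_lit 460) ln12_15_6 ln12_15_6_ok) (M (nat_lit 494) (B (L (nat_lit 462) ln13_11_4 ln13_11_4_ok) (L (nat_lit 526) ln13_12_4 ln13_12_4_ok))))))))))) (B (M (nat_lit 493) (B (L (nat_lit 525) ln13_16_7 ln13_16_7_ok) (M (nat_lit 364) (B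 (L (nat_lit 332) ln12_10_4 ln12_10_4_ok) (L (nat_lit 460) ln12_11_4 ln12_11_4_ok))))) (M (nat_lit 364) (B (L (nat_lit 332) ln12_10_4 ln12_10_4_ok) (M (nat_lit 460) (B (M (nat_lit 365) (B (L (nat_lit 333) ln12_14_6 ln12_14_6_ok) (M (nat_lit 492) (B (L (nat_lit 397) ln12_15_6 ln12_15_6_ok) (M (nat_lit 491) (B (L (nat_lit 459) ln12_11_5 ln12_11_5_ok) (L (nat_lit 523) ln12_12_5 ln12_12_5_ok))))))) (B (M (nat_lit 492) (B (M (nat_lit 491) (B (L (nat_lit 459) ln12_11_5 ln12_11_5_ok) (L (nat_lit 523) ln12_12_5 ln12_12_5_ok))) (M (nat_lit 524) (B (L (nat_lit 397) ln12_16_6 ln12_16_6_ok) (L (nat_lit 556) ln12_17_6 ln12_17_6_ok))))) (B (M (nat_lit 427) (B (M (nat_lit 426) (B (L (nat_lit 425) ln9_13_0 ln9_13_0_ok) (L (nat_lit 462) ln10_13_0 ln10_13_0_ok))) (M (nat_lit 492) (B (M (nat_lit 491) (B (L (nat_lit 459) ln12_11_5 ln12_11_5_ok) (L (nat_lit 523) ln12_12_5 ln12_12_5_ok))) (M (nat_lit 524)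 (B (L (nat_lit 395) ln12_16_7 ln12_16_7_ok) (L (nat_lit 556) ln12_17_6 ln12_17_6_ok))))))) (B (M (nat_lit 365) (B (L (nat_lit 333) ln12_14_6 ln12_14_6_ok) (M (nat_lit 462) (B (M (nat_lit 397) (B (L (nat_lit 492) ln12_15_6 ln12_15_6_ok) (L (nat_lit 494) ln13_11_4 ln13_11_4_ok))) (M (nat_lit 463) (B (L (nat_lit 427) ln15_14_3 ln15_14_3_ok) (L (nat_lit 464) ln16_14_3 ln16_14_3_ok))))))) (M (nat_lit 462) (B (M (nat_lit 427) (B (L (nat_lit 426) ln10_13_0 ln10_13_0_ok) (L (nat_lit 463) ln15_14_3 ln15_14_3_ok))) (M (nat_lit 494) (B (M (nat_lit 365) (B (L (nat_lit 333) ln12_14_6 ln12_14_6_ok) (L (nat_lit 397) ln13_11_4 ln13_11_4_ok))) (M (nat_lit 459) (B (L (nat_lit 491) ln12_11_5 ln12_11_5_ok) (L (nat_lit 495) ln11_14_0 ln11_14_0_ok))))))))))))))))))) (B c41_n1717 (M (nat_lit 430) (B (M (nat_lit 395) (B (L (nat_lit 431) ln15_13_3 ln15_13_3_ok) (M (nat_lit 394) (B (L (nat_lit 393) ln9_12_0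 ln9_12_0_ok) (L (nat_lit 397) ln10_12_0 ln10_12_0_ok))))) (B (M (nat_lit 395) (B (L (nat_lit 431) ln15_13_3 ln15_13_3_ok) (M (nat_lit 394) (B (L (nat_lit 397) ln10_12_0 ln10_12_0_ok) (L (nat_lit 427) ln14_13_3 ln14_13_3_ok))))) (B (M (nat_lit 431) (B (L (nat_lit 395) ln15_13_3 ln15_13_3_ok) (M (nat_lit 400) (B (L (nat_lit 399) ln12_13_2 ln12_13_2_ok) (M (nat_lit 432) (B (L (nat_lit 397) ln16_13_3 ln16_13_3_ok) (L (nat_lit 401) ln13_13_2 ln13_13_2_ok))))))) (B (M (nat_lit 431) (B (M (nat_lit 400) (B (L (nat_lit 399) ln12_13_2 ln12_13_2_ok) (M (nat_lit 432) (B (L (nat_lit 397) ln16_13_3 ln16_13_3_ok) (L (nat_lit 401) ln13_13_2 ln13_13_2_ok))))) (M (nat_lit 427) (B (M (nat_lit 459) (B (L (nat_lit 458) ln14_13_1 ln14_13_1_ok) (L (nat_lit 460) ln15_13_1 ln15_13_1_ok))) (M (nat_lit 463) (B (L (nat_lit 462) ln11_13_0 ln11_13_0_ok) (L (nat_lit 464) ln12_13_0 ln12_13_0_ok))))))) (B (M (nat_lit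 395) (B (L (nat_lit 431) ln15_13_3 ln15_13_3_ok) (M (nat_lit 394) (B (L (nat_lit 393) ln9_12_0 ln9_12_0_ok) (L (nat_lit 427) ln14_13_3 ln14_13_3_ok))))) (M (nat_lit 427) (B (M (nat_lit 395) (B (L (nat_lit 394) ln14_13_3 ln14_13_3_ok) (M (nat_lit 459) (B (L (nat_lit 458) ln14_13_1 ln14_13_1_ok) (M (nat_lit 491) (B (L (nat_lit 364) ln11_15_6 ln11_15_6_ok) (L (nat_lit 523) ln11_16_6 ln11_16_6_ok))))))) (B (M (nat_lit 426) (B (M (nat_lit 394) (B (L (nat_lit 393) ln13_13_3 ln13_13_3_ok) (L (nat_lit 395) ln14_13_3 ln14_13_3_ok))) (M (nat_lit 398) (B (L (nat_lit 397) ln10_13_2 ln10_13_2_ok) (L (nat_lit 399) ln11_13_2 ln11_13_2_ok))))) (B (M (nat_lit 459) (B (L (nat_lit 458) ln14_13_1 ln14_13_1_ok) (M (nat_lit 364) (B (L (nat_lit 332) ln12_10_5 ln12_10_5_ok) (M (nat_lit 491) (B (L (nat_lit 395) ln11_15_6 ln11_15_6_ok) (L (nat_lit 523) ln11_16_6 ln11_16_6_ok))))))) (M (nat_lit 459) (B (L (nat_lit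 458) ln14_13_1 ln14_13_1_ok) (M (nat_lit 364) (B (L (nat_lit 332) ln12_10_5 ln12_10_5_ok) (M (nat_lit 491) (B (L (nat_lit 460) ln12_11_5 ln12_11_5_ok) (L (nat_lit 523) ln11_16_6 ln11_16_6_ok)))))))))))))))))))))))))))) (nat_lit 1386334847221798047169638878925036799968406779833514899637066259859226863686603287896039777716422623628704219945445734162783797248) (nat_lit 825554280841600030612066890062979222528592522908911193841640694784561343592588136184769020202749770238080956778648095034651400318692324808265700127466309746433422524416) (nat_lit 825554280841600030612066890062979222528592522908911193841640694784561343592588136184769020202749770238080956778648095034651400318692324808265700127466309746433422524416) (by decide +kernel)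
noncomputable def c41_n1817 : Cert := (M (nat_lit 430) (B (M (nat_lit 431) (B (L (nat_lit 395) ln15_13_3 ln15_13_3_ok) (M (nat_lit 400) (B (L (nat_lit 399) ln12_13_2 ln12_13_2_ok) (M (nat_lit 432) (B (L (nat_lit 397) ln16_13_3 ln16_13_3_ok) (L (nat_lit 401) ln13_13_2 ln13_13_2_ok))))))) (B (M (nat_lit 431) (B (M (nat_lit 400) (B (L (nat_lit 399) ln12_13_2 ln12_13_2_ok) (M (nat_lit 432) (B (L (nat_lit 397) ln16_13_3 ln16_13_3_ok) (L (nat_lit 401) ln13_13_2 ln13_13_2_ok))))) (M (nat_lit 427) (B (M (nat_lit 459) (B (L (nat_lit 458) ln14_13_1 ln14_13_1_ok) (L (nat_lit 460) ln15_13_1 ln15_13_1_ok))) (M (nat_lit 463) (B (L (nat_lit 462) ln11_13_0 ln11_13_0_ok) (L (nat_lit 464) ln12_13_0 ln12_13_0_ok))))))) (B (M (nat_lit 431) (B (L (nat_lit 395) ln15_13_3 ln15_13_3_ok) (M (nat_lit 427) (B (M (nat_lit 459) (B (L (nat_lit 458) ln14_13_1 ln14_13_1_ok) (L (nat_lit 460) ln15_13_1 ln15_13_1_ok)))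 (M (nat_lit 463) (B (L (nat_lit 462) ln11_13_0 ln11_13_0_ok) (L (nat_lit 464) ln12_13_0 ln12_13_0_ok))))))) (M (nat_lit 398) (B (M (nat_lit 399) (B (L (nat_lit 427) ln11_13_2 ln11_13_2_ok) (M (nat_lit 400) (B (L (nat_lit 397) ln16_12_1 ln16_12_1_ok) (L (nat_lit 401) ln17_12_1 ln17_12_1_ok))))) (B (M (nat_lit 427) (B (L (nat_lit 399) ln11_13_2 ln11_13_2_ok) (M (nat_lit 462) (B (L (nat_lit 463) ln11_13_0 ln11_13_0_ok) (M (nat_lit 461) (B (L (nat_lit 426) ln10_13_0 ln10_13_0_ok) (M (nat_lit 366) (B (L (nat_lit 334) ln14_10_5 ln14_10_5_ok) (L (nat_lit 493) ln14_11_5 ln14_11_5_ok))))))))) (B (M (nat_lit 397) (B (M (nat_lit 462) (B (M (nat_lit 494) (B (L (nat_lit 365) ln14_15_7 ln14_15_7_ok) (L (nat_lit 526) ln14_16_7 ln14_16_7_ok))) (M (nat_lit 427) (B (L (nat_lit 426) ln10_13_2 ln10_13_2_ok) (L (nat_lit 463) ln11_13_0 ln11_13_0_ok))))) (B (M (nat_lit 366) (B (M (nat_lit 334) (B (L (nat_lit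 302) ln14_9_5 ln14_9_5_ok) (L (nat_lit 461) ln14_10_5 ln14_10_5_ok))) (B (M (nat_lit 461) (B (L (nat_lit 334) ln14_10_5 ln14_10_5_ok) (L (nat_lit 493) ln13_15_6 ln13_15_6_ok))) (M (nat_lit 462) (B (M (nat_lit 367) (B (L (nat_lit 335) ln14_14_6 ln14_14_6_ok) (L (nat_lit 395) ln11_12_2 ln11_12_2_ok))) (M (nat_lit 427) (B (L (nat_lit 426) ln10_13_2 ln10_13_2_ok) (L (nat_lit 463) ln11_13_0 ln11_13_0_ok)))))))) (M (nat_lit 365) (B (M (nat_lit 333) (B (L (nat_lit 301) ln13_9_5 ln13_9_5_ok) (L (nat_lit 460) ln13_10_5 ln13_10_5_ok))) (M (nat_lit 366) (B (M (nat_lit 334) (B (L (nat_lit 302) ln14_9_5 ln14_9_5_ok) (L (nat_lit 461) ln13_14_6 ln13_14_6_ok))) (M (nat_lit 367) (B (L (nat_lit 368) ln16_11_1 ln16_11_1_ok) (L (nat_lit 395) ln11_12_2 ln11_12_2_ok)))))))))) (M (nat_lit 366) (B (M (nat_lit 461) (B (L (nat_lit 334) ln14_10_5 ln14_10_5_ok) (M (nat_lit 493) (B (L (nat_lit 462) ln14_11_5 ln14_11_5_ok)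 (L (nat_lit 525) ln13_16_7 ln13_16_7_ok))))) (B (M (nat_lit 462) (B (M (nat_lit 461) (B (L (nat_lit 493) ln14_11_5 ln14_11_5_ok) (M (nat_lit 463) (B (L (nat_lit 495) ln14_11_4 ln14_11_4_ok) (L (nat_lit 464) ln16_14_3 ln16_14_3_ok))))) (M (nat_lit 397) (B (M (nat_lit 365) (B (L (nat_lit 333) ln14_14_7 ln14_14_7_ok) (L (nat_lit 494) ln14_15_7 ln14_15_7_ok))) (M (nat_lit 367) (B (L (nat_lit 335) ln14_14_6 ln14_14_6_ok) (L (nat_lit 395) ln11_12_2 ln11_12_2_ok))))))) (B (M (nat_lit 397) (B (M (nat_lit 399) (B (L (nat_lit 400) ln16_12_1 ln16_12_1_ok) (M (nat_lit 367) (B (L (nat_lit 395) ln11_12_2 ln11_12_2_ok) (L (nat_lit 368) ln12_12_2 ln12_12_2_ok))))) (M (nat_lit 333) (B (M (nat_lit 334) (B (L (nat_lit 301) ln14_13_7 ln14_13_7_ok) (L (nat_lit 302) ln14_9_5 ln14_9_5_ok))) (M (nat_lit 365) (B (L (nat_lit 462) ln14_14_7 ln14_14_7_ok) (L (nat_lit 460) ln13_10_5 ln13_10_5_ok))))))) (M (nat_lit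 461) (B (L (nat_lit 334) ln14_10_5 ln14_10_5_ok) (M (nat_lit 493) (B (L (nat_lit 397) ln13_15_6 ln13_15_6_ok) (L (nat_lit 525) ln13_16_7 ln13_16_7_ok)))))))))))))))))
noncomputable def c41_n1946 : Cert := (M (nat_lit 462) (B (M (nat_lit 494) (B (L (nat_lit 526) ln14_16_7 ln14_16_7_ok) (M (nat_lit 365) (B (L (nat_lit 398) ln14_15_7 ln14_15_7_ok) (L (nat_lit 461) ln13_11_4 ln13_11_4_ok))))) (B (M (nat_lit 398) (B (M (nat_lit 399) (B (L (nat_lit 400) ln16_12_1 ln16_12_1_ok) (M (nat_lit 494) (B (L (nat_lit 367) ln14_15_6 ln14_15_6_ok) (L (nat_lit 526) ln14_16_7 ln14_16_7_ok))))) (B (M (nat_lit 494) (B (L (nat_lit 526) ln14_16_7 ln14_16_7_ok) (M (nat_lit 366) (B (M (nat_lit 334) (B (L (nat_lit 302) ln14_9_5 ln14_9_5_ok) (L (nat_lit 461) ln14_10_5 ln14_10_5_ok))) (M (nat_lit 495) (B (L (nat_lit 463) ln14_11_4 ln14_11_4_ok) (L (nat_lit 527) ln14_12_4 ln14_12_4_ok))))))) (M (nat_lit 399) (B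 (L (nat_lit 400) ln16_12_1 ln16_12_1_ok) (M (nat_lit 367) (B (L (nat_lit 368) ln12_12_2 ln12_12_2_ok) (M (nat_lit 335) (B (L (nat_lit 303) ln15_9_5 ln15_9_5_ok) (L (nat_lit 366) ln14_14_6 ln14_14_6_ok)))))))))) (B (M (nat_lit 365) (B (L (nat_lit 333) ln13_10_4 ln13_10_4_ok) (M (nat_lit 494) (B (L (nat_lit 461) ln13_11_4 ln13_11_4_ok) (L (nat_lit 526) ln14_16_7 ln14_16_7_ok))))) (B (M (nat_lit 365) (B (L (nat_lit 333) ln13_10_4 ln13_10_4_ok) (M (nat_lit 494) (B (L (nat_lit 398) ln14_15_7 ln14_15_7_ok) (L (nat_lit 526) ln14_16_7 ln14_16_7_ok))))) (M (nat_lit 366) (B (M (nat_lit 365) (B (L (nat_lit 333) ln13_10_4 ln13_10_4_ok) (M (nat_lit 461) (B (L (nat_lit 334) ln13_14_6 ln13_14_6_ok) (M (nat_lit 493) (B (L (nat_lit 398) ln13_15_6 ln13_15_6_ok) (L (nat_lit 525) ln13_16_7 ln13_16_7_ok))))))) (B (M (nat_lit 461) (B (M (nat_lit 334) (B (L (nat_lit 365) ln13_14_6 ln13_14_6_ok) (L (nat_lit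 398) ln14_10_5 ln14_10_5_ok))) (B (M (nat_lit 493) (B (L (nat_lit 398) ln13_15_6 ln13_15_6_ok) (L (nat_lit 525) ln13_16_7 ln13_16_7_ok))) (M (nat_lit 492) (B (M (nat_lit 365) (B (L (nat_lit 334) ln13_14_6 ln13_14_6_ok) (L (nat_lit 460) ln12_15_6 ln12_15_6_ok))) (B (M (nat_lit 460) (B (L (nat_lit 365) ln12_15_6 ln12_15_6_ok) (L (nat_lit 524) ln12_16_6 ln12_16_6_ok))) (B (M (nat_lit 524) (B (L (nat_lit 460) ln12_16_6 ln12_16_6_ok) (L (nat_lit 493) ln13_12_5 ln13_12_5_ok))) (M (nat_lit 493) (B (L (nat_lit 525) ln13_16_7 ln13_16_7_ok) (L (nat_lit 524) ln13_12_5 ln13_12_5_ok)))))))))) (B (M (nat_lit 398) (B (M (nat_lit 365) (B (L (nat_lit 333) ln14_14_7 ln14_14_7_ok) (M (nat_lit 367) (B (L (nat_lit 335) ln14_14_6 ln14_14_6_ok) (L (nat_lit 368) ln16_11_1 ln16_11_1_ok))))) (M (nat_lit 461) (B (L (nat_lit 493) ln13_15_6 ln13_15_6_ok) (M (nat_lit 463) (B (L (nat_lit 495) ln14_11_4 ln14_11_4_ok)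 (L (nat_lit 464) ln16_14_3 ln16_14_3_ok))))))) (B (M (nat_lit 398) (B (M (nat_lit 461) (B (L (nat_lit 334) ln14_10_5 ln14_10_5_ok) (L (nat_lit 493) ln13_15_6 ln13_15_6_ok))) (M (nat_lit 399) (B (L (nat_lit 400) ln16_12_1 ln16_12_1_ok) (M (nat_lit 367) (B (L (nat_lit 335) ln14_14_6 ln14_14_6_ok) (L (nat_lit 368) ln12_12_2 ln12_12_2_ok))))))) (B (M (nat_lit 492) (B (M (nat_lit 365) (B (L (nat_lit 333) ln13_10_4 ln13_10_4_ok) (L (nat_lit 460) ln12_15_6 ln12_15_6_ok))) (B (M (nat_lit 460) (B (L (nat_lit 365) ln12_15_6 ln12_15_6_ok) (L (nat_lit 524) ln12_16_6 ln12_16_6_ok))) (B (M (nat_lit 493) (B (M (nat_lit 460) (B (L (nat_lit 525) ln12_12_4 ln12_12_4_ok) (L (nat_lit 524) ln12_16_6 ln12_16_6_ok))) (B (M (nat_lit 461) (B (L (nat_lit 525) ln13_16_7 ln13_16_7_ok) (L (nat_lit 524) ln13_12_5 ln13_12_5_ok))) (B (M (nat_lit 525) (B (L (nat_lit 461) ln13_16_7 ln13_16_7_ok) (L (nat_lit 460) ln12_12_4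 ln12_12_4_ok))) (M (nat_lit 524) (B (L (nat_lit 460) ln12_16_6 ln12_16_6_ok) (L (nat_lit 461) ln13_12_5 ln13_12_5_ok))))))) (M (nat_lit 461) (B (M (nat_lit 365) (B (L (nat_lit 333) ln13_10_4 ln13_10_4_ok) (L (nat_lit 334) ln13_14_6 ln13_14_6_ok))) (M (nat_lit 493) (B (L (nat_lit 525) ln13_16_7 ln13_16_7_ok) (L (nat_lit 524) ln13_12_5 ln13_12_5_ok))))))))) (M (nat_lit 398) (B (M (nat_lit 399) (B (L (nat_lit 400) ln16_12_1 ln16_12_1_ok) (M (nat_lit 367) (B (L (nat_lit 335) ln14_14_6 ln14_14_6_ok) (L (nat_lit 368) ln12_12_2 ln12_12_2_ok))))) (M (nat_lit 333) (B (L (nat_lit 365) ln14_14_7 ln14_14_7_ok) (M (nat_lit 334) (B (L (nat_lit 301) ln14_13_7 ln14_13_7_ok) (L (nat_lit 302) ln14_9_5 ln14_9_5_ok))))))))))))))))))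
noncomputable def c41_n1947 : Cert := (M (nat_lit 397) (B (M (nat_lit 431) (B (L (nat_lit 432) ln16_13_3 ln16_13_3_ok) (M (nat_lit 460) (B (L (nat_lit 459) ln15_13_1 ln15_13_1_ok) (M (nat_lit 492) (B (L (nat_lit 365) ln12_15_6 ln12_15_6_ok) (L (nat_lit 524) ln12_16_6 ln12_16_6_ok))))))) (B (M (nat_lit 431) (B (L (nat_lit 432) ln16_13_3 ln16_13_3_ok) (M (nat_lit 399) (B (L (nat_lit 400) ln12_13_2 ln12_13_2_ok) (M (nat_lit 398) (B (M (nat_lit 463) (B (L (nat_lit 464) ln12_13_0 ln12_13_0_ok) (M (nat_lit 366) (B (L (nat_lit 334) ln14_10_4 ln14_10_4_ok) (L (nat_lit 495) ln15_15_7 ln15_15_7_ok))))) (M (nat_lit 367) (B (L (nat_lit 368) ln12_12_2 ln12_12_2_ok) (M (nat_lit 335) (B (L (nat_lit 303) ln15_9_5 ln15_9_5_ok) (L (nat_lit 462) ln15_10_5 ln15_10_5_ok))))))))))) c41_n1946)))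
noncomputable def c41_n1999 : Cert := (M (nat_lit 398) (B (M (nat_lit 399) (B (L (nat_lit 427) ln11_13_2 ln11_13_2_ok) (M (nat_lit 400) (B (L (nat_lit 397) ln16_12_1 ln16_12_1_ok) (L (nat_lit 401) ln17_12_1 ln17_12_1_ok))))) (B (M (nat_lit 427) (B (L (nat_lit 399) ln11_13_2 ln11_13_2_ok) (M (nat_lit 462) (B (L (nat_lit 463) ln11_13_0 ln11_13_0_ok) (M (nat_lit 461) (B (L (nat_lit 426) ln10_13_0 ln10_13_0_ok) (M (nat_lit 366) (B (L (nat_lit 334) ln14_10_5 ln14_10_5_ok) (L (nat_lit 493) ln14_11_5 ln14_11_5_ok))))))))) (B (M (nat_lit 462) (B (M (nat_lit 427) (B (L (nat_lit 463) ln11_13_0 ln11_13_0_ok) (M (nat_lit 426) (B (L (nat_lit 397) ln10_13_2 ln10_13_2_ok) (L (nat_lit 461) ln10_13_0 ln10_13_0_ok))))) (B (M (nat_lit 461) (B (M (nat_lit 366) (B (L (nat_lit 334) ln14_10_5 ln14_10_5_ok) (L (nat_lit 493) ln14_11_5 ln14_11_5_ok))) (M (nat_lit 427) (B (L (nat_lit 426) ln10_13_0 ln10_13_0_ok)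 (L (nat_lit 463) ln11_13_0 ln11_13_0_ok))))) (B (M (nat_lit 366) (B (M (nat_lit 461) (B (L (nat_lit 334) ln14_10_5 ln14_10_5_ok) (L (nat_lit 493) ln14_11_5 ln14_11_5_ok))) (M (nat_lit 463) (B (L (nat_lit 495) ln14_11_4 ln14_11_4_ok) (L (nat_lit 427) ln11_13_0 ln11_13_0_ok))))) (B (M (nat_lit 366) (B (M (nat_lit 461) (B (L (nat_lit 334) ln14_10_5 ln14_10_5_ok) (L (nat_lit 493) ln14_11_5 ln14_11_5_ok))) (M (nat_lit 494) (B (M (nat_lit 365) (B (L (nat_lit 333) ln14_14_7 ln14_14_7_ok) (L (nat_lit 397) ln14_15_7 ln14_15_7_ok))) (M (nat_lit 495) (B (L (nat_lit 463) ln14_11_4 ln14_11_4_ok) (L (nat_lit 527) ln14_12_4 ln14_12_4_ok))))))) (B (M (nat_lit 397) (B (M (nat_lit 365) (B (L (nat_lit 333) ln13_10_4 ln13_10_4_ok) (L (nat_lit 494) ln14_15_7 ln14_15_7_ok))) (M (nat_lit 427) (B (L (nat_lit 426) ln10_13_2 ln10_13_2_ok) (L (nat_lit 463) ln11_13_0 ln11_13_0_ok))))) (M (nat_lit 366) (B (M (nat_lit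 461) (B (L (nat_lit 334) ln14_10_5 ln14_10_5_ok) (L (nat_lit 493) ln14_11_5 ln14_11_5_ok))) (B (M (nat_lit 494) (B (M (nat_lit 365) (B (L (nat_lit 333) ln14_14_7 ln14_14_7_ok) (L (nat_lit 397) ln14_15_7 ln14_15_7_ok))) (M (nat_lit 493) (B (L (nat_lit 461) ln14_11_5 ln14_11_5_ok) (L (nat_lit 525) ln14_12_5 ln14_12_5_ok))))) (M (nat_lit 334) (B (M (nat_lit 333) (B (L (nat_lit 301) ln14_13_7 ln14_13_7_ok) (L (nat_lit 365) ln14_14_7 ln14_14_7_ok))) (M (nat_lit 335) (B (L (nat_lit 303) ln14_13_6 ln14_13_6_ok) (L (nat_lit 367) ln14_14_6 ln14_14_6_ok)))))))))))))) (M (nat_lit 366) (B (M (nat_lit 461) (B (L (nat_lit 334) ln14_10_5 ln14_10_5_ok) (M (nat_lit 493) (B (L (nat_lit 462) ln14_11_5 ln14_11_5_ok) (L (nat_lit 525) ln13_16_7 ln13_16_7_ok))))) (B (M (nat_lit 462) (B (M (nat_lit 461) (B (L (nat_lit 493) ln14_11_5 ln14_11_5_ok) (M (nat_lit 463) (B (L (nat_lit 495) ln14_11_4 ln14_11_4_ok)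 (L (nat_lit 464) ln16_14_3 ln16_14_3_ok))))) (M (nat_lit 399) (B (M (nat_lit 367) (B (L (nat_lit 335) ln14_14_6 ln14_14_6_ok) (L (nat_lit 494) ln14_15_6 ln14_15_6_ok))) (M (nat_lit 400) (B (L (nat_lit 397) ln16_12_1 ln16_12_1_ok) (L (nat_lit 401) ln17_12_1 ln17_12_1_ok))))))) (B (M (nat_lit 462) (B (M (nat_lit 334) (B (M (nat_lit 333) (B (L (nat_lit 301) ln14_13_7 ln14_13_7_ok) (L (nat_lit 365) ln14_14_7 ln14_14_7_ok))) (M (nat_lit 335) (B (L (nat_lit 303) ln14_13_6 ln14_13_6_ok) (L (nat_lit 367) ln14_14_6 ln14_14_6_ok))))) (B (M (nat_lit 399) (B (M (nat_lit 367) (B (L (nat_lit 335) ln14_14_6 ln14_14_6_ok) (L (nat_lit 494) ln14_15_6 ln14_15_6_ok))) (M (nat_lit 400) (B (L (nat_lit 397) ln16_12_1 ln16_12_1_ok) (L (nat_lit 401) ln17_12_1 ln17_12_1_ok))))) (M (nat_lit 494) (B (M (nat_lit 365) (B (L (nat_lit 333) ln14_14_7 ln14_14_7_ok) (L (nat_lit 397) ln14_15_7 ln14_15_7_ok))) (M (nat_lit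 495) (B (L (nat_lit 463) ln14_11_4 ln14_11_4_ok) (L (nat_lit 527) ln14_12_4 ln14_12_4_ok)))))))) (M (nat_lit 461) (B (L (nat_lit 334) ln14_10_5 ln14_10_5_ok) (M (nat_lit 493) (B (L (nat_lit 397) ln13_15_6 ln13_15_6_ok) (L (nat_lit 525) ln13_16_7 ln13_16_7_ok)))))))))))))
theorem c41_s2000 : Sem (nat_lit 2079502270752001762064242424960807725827516048677469043429686155012882190638009693656033379242457518153052022685796627120027336704) (nat_lit 823775719407473396824138722449902164865384940746544139634436356928084800566242136845109635280005491331605117278148142198944025002036211884310282487574195863552) (nat_lit 823775719407473396824138722449902164865384940746544139634436356928084800566242136845109635280005491331605117278148142198944025002036211884310282487574195863552) :=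
  sem_of_chk (M (nat_lit 430) (B (M (nat_lit 431) (B (M (nat_lit 400) (B (L (nat_lit 399) ln12_13_2 ln12_13_2_ok) (M (nat_lit 432) (B (L (nat_lit 397) ln16_13_3 ln16_13_3_ok) (L (nat_lit 401) ln13_13_2 ln13_13_2_ok))))) (M (nat_lit 427) (B (M (nat_lit 459) (B (L (nat_lit 458) ln14_13_1 ln14_13_1_ok) (L (nat_lit 460) ln15_13_1 ln15_13_1_ok))) (M (nat_lit 463) (B (L (nat_lit 462) ln11_13_0 ln11_13_0_ok) (L (nat_lit 464) ln12_13_0 ln12_13_0_ok))))))) (B (M (nat_lit 427) (B (M (nat_lit 426) (B (M (nat_lit 458) (B (L (nat_lit 457) ln13_13_1 ln13_13_1_ok) (L (nat_lit 459) ln14_13_1 ln14_13_1_ok))) (M (nat_lit 462) (B (L (nat_lit 461) ln10_13_0 ln10_13_0_ok) (L (nat_lit 463) ln11_13_0 ln11_13_0_ok))))) (B (M (nat_lit 431) (B (M (nat_lit 399) (B (L (nat_lit 398) ln11_13_2 ln11_13_2_ok) (L (nat_lit 400) ln12_13_2 ln12_13_2_ok))) (M (nat_lit 463) (B (L (nat_lit 462) ln11_13_0 ln11_13_0_ok) (L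 (nat_lit 464) ln12_13_0 ln12_13_0_ok))))) (M (nat_lit 431) (B (M (nat_lit 399) (B (L (nat_lit 398) ln11_13_2 ln11_13_2_ok) (L (nat_lit 400) ln12_13_2 ln12_13_2_ok))) (M (nat_lit 459) (B (L (nat_lit 458) ln14_13_1 ln14_13_1_ok) (L (nat_lit 460) ln15_13_1 ln15_13_1_ok)))))))) (B (M (nat_lit 427) (B (M (nat_lit 426) (B (M (nat_lit 397) (B (L (nat_lit 425) ln9_13_2 ln9_13_2_ok) (L (nat_lit 398) ln10_13_2 ln10_13_2_ok))) (M (nat_lit 458) (B (L (nat_lit 457) ln13_13_1 ln13_13_1_ok) (L (nat_lit 459) ln14_13_1 ln14_13_1_ok))))) (B (M (nat_lit 426) (B (M (nat_lit 458) (B (L (nat_lit 457) ln13_13_1 ln13_13_1_ok) (L (nat_lit 459) ln14_13_1 ln14_13_1_ok))) (M (nat_lit 462) (B (L (nat_lit 461) ln10_13_0 ln10_13_0_ok) (L (nat_lit 463) ln11_13_0 ln11_13_0_ok))))) (B (M (nat_lit 431) (B (M (nat_lit 459) (B (L (nat_lit 458) ln14_13_1 ln14_13_1_ok) (L (nat_lit 460) ln15_13_1 ln15_13_1_ok))) (M (nat_lit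 463) (B (L (nat_lit 462) ln11_13_0 ln11_13_0_ok) (L (nat_lit 464) ln12_13_0 ln12_13_0_ok))))) (M (nat_lit 426) (B (M (nat_lit 397) (B (L (nat_lit 425) ln9_13_2 ln9_13_2_ok) (L (nat_lit 398) ln10_13_2 ln10_13_2_ok))) (M (nat_lit 462) (B (L (nat_lit 461) ln10_13_0 ln10_13_0_ok) (L (nat_lit 463) ln11_13_0 ln11_13_0_ok))))))))) (B c41_n1947 (B c41_n1999 (M (nat_lit 431) (B (M (nat_lit 460) (B (L (nat_lit 459) ln15_13_1 ln15_13_1_ok) (M (nat_lit 432) (B (L (nat_lit 397) ln16_13_3 ln16_13_3_ok) (L (nat_lit 461) ln16_13_1 ln16_13_1_ok))))) (B (M (nat_lit 427) (B (M (nat_lit 399) (B (L (nat_lit 398) ln11_13_2 ln11_13_2_ok) (L (nat_lit 400) ln12_13_2 ln12_13_2_ok))) (M (nat_lit 459) (B (L (nat_lit 458) ln14_13_1 ln14_13_1_ok) (L (nat_lit 460) ln15_13_1 ln15_13_1_ok))))) (M (nat_lit 400) (B (L (nat_lit 399) ln12_13_2 ln12_13_2_ok) (M (nat_lit 432) (B (L (nat_lit 397) ln16_13_3 ln16_13_3_ok)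 (L (nat_lit 401) ln13_13_2 ln13_13_2_ok)))))))))))))) (nat_lit 2079502270752001762064242424960807725827516048677469043429686155012882190638009693656033379242457518153052022685796627120027336704) (nat_lit 823775719407473396824138722449902164865384940746544139634436356928084800566242136845109635280005491331605117278148142198944025002036211884310282487574195863552) (nat_lit 823775719407473396824138722449902164865384940746544139634436356928084800566242136845109635280005491331605117278148142198944025002036211884310282487574195863552) (by decide +kernel)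
noncomputable def c41_n2109 : Cert := (M (nat_lit 395) (B (M (nat_lit 430) (B (L (nat_lit 431) ln15_13_3 ln15_13_3_ok) (M (nat_lit 394) (B (L (nat_lit 393) ln9_12_0 ln9_12_0_ok) (L (nat_lit 427) ln14_13_3 ln14_13_3_ok))))) (B (M (nat_lit 430) (B (L (nat_lit 431) ln15_13_3 ln15_13_3_ok) (M (nat_lit 394) (B (L (nat_lit 397) ln10_12_0 ln10_12_0_ok) (L (nat_lit 427) ln14_13_3 ln14_13_3_ok))))) (B (M (nat_lit 427) (B (M (nat_lit 430) (B (L (nat_lit 431) ln15_13_3 ln15_13_3_ok) (M (nat_lit 462) (B (L (nat_lit 463) ln11_13_0 ln11_13_0_ok) (M (nat_lit 426) (B (L (nat_lit 461) ln10_13_0 ln10_13_0_ok) (M (nat_lit 458) (B (L (nat_lit 457) ln13_13_1 ln13_13_1_ok) (L (nat_lit 459) ln14_13_1 ln14_13_1_ok))))))))) (B (M (nat_lit 459) (B (M (nat_lit 430) (B (L (nat_lit 431) ln15_13_3 ln15_13_3_ok) (L (nat_lit 458) ln14_13_1 ln14_13_1_ok))) (M (nat_lit 363) (B (M (nat_lit 331) (B (L (nat_lit 299) ln11_9_4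 ln11_9_4_ok) (L (nat_lit 460) ln11_10_4 ln11_10_4_ok))) (B (M (nat_lit 460) (B (L (nat_lit 331) ln11_10_4 ln11_10_4_ok) (L (nat_lit 492) ln12_15_7 ln12_15_7_ok))) (B (M (nat_lit 492) (B (L (nat_lit 460) ln12_15_7 ln12_15_7_ok) (M (nat_lit 491) (B (L (nat_lit 524) ln11_12_4 ln11_12_4_ok) (L (nat_lit 523) ln11_16_6 ln11_16_6_ok))))) (M (nat_lit 331) (B (L (nat_lit 299) ln11_9_4 ln11_9_4_ok) (M (nat_lit 330) (B (L (nat_lit 298) ln11_13_7 ln11_13_7_ok) (L (nat_lit 362) ln11_14_7 ln11_14_7_ok))))))))))) (B (M (nat_lit 363) (B (M (nat_lit 331) (B (L (nat_lit 299) ln11_9_4 ln11_9_4_ok) (L (nat_lit 460) ln11_10_4 ln11_10_4_ok))) (B (M (nat_lit 460) (B (L (nat_lit 331) ln11_10_4 ln11_10_4_ok) (L (nat_lit 492) ln12_15_7 ln12_15_7_ok))) (B (M (nat_lit 459) (B (M (nat_lit 460) (B (L (nat_lit 492) ln12_15_7 ln12_15_7_ok) (M (nat_lit 458) (B (L (nat_lit 490) ln11_11_5 ln11_11_5_ok) (L (nat_lit 457)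 ln9_14_2 ln9_14_2_ok))))) (B (M (nat_lit 492) (B (L (nat_lit 460) ln12_15_7 ln12_15_7_ok) (M (nat_lit 491) (B (L (nat_lit 524) ln11_12_4 ln11_12_4_ok) (L (nat_lit 523) ln11_16_6 ln11_16_6_ok))))) (M (nat_lit 458) (B (L (nat_lit 490) ln11_11_5 ln11_11_5_ok) (M (nat_lit 457) (B (L (nat_lit 426) ln13_13_1 ln13_13_1_ok) (L (nat_lit 456) ln8_14_2 ln8_14_2_ok)))))))) (M (nat_lit 426) (B (M (nat_lit 331) (B (L (nat_lit 299) ln11_9_4 ln11_9_4_ok) (L (nat_lit 458) ln11_10_5 ln11_10_5_ok))) (M (nat_lit 425) (B (L (nat_lit 424) ln8_13_2 ln8_13_2_ok) (L (nat_lit 397) ln9_13_2 ln9_13_2_ok))))))))) (M (nat_lit 430) (B (L (nat_lit 431) ln15_13_3 ln15_13_3_ok) (M (nat_lit 426) (B (M (nat_lit 425) (B (L (nat_lit 424) ln8_13_2 ln8_13_2_ok) (L (nat_lit 397) ln9_13_2 ln9_13_2_ok))) (M (nat_lit 462) (B (L (nat_lit 461) ln10_13_0 ln10_13_0_ok) (L (nat_lit 463) ln11_13_0 ln11_13_0_ok))))))))))) (B (M (nat_lit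 430) (B (L (nat_lit 431) ln15_13_3 ln15_13_3_ok) (M (nat_lit 394) (B (L (nat_lit 393) ln9_12_0 ln9_12_0_ok) (L (nat_lit 397) ln10_12_0 ln10_12_0_ok))))) (M (nat_lit 394) (B (L (nat_lit 393) ln9_12_0 ln9_12_0_ok) (M (nat_lit 397) (B (M (nat_lit 365) (B (L (nat_lit 366) ln10_12_2 ln10_12_2_ok) (M (nat_lit 333) (B (L (nat_lit 301) ln13_9_5 ln13_9_5_ok) (L (nat_lit 460) ln13_10_5 ln13_10_5_ok))))) (M (nat_lit 398) (B (M (nat_lit 362) (B (L (nat_lit 361) ln13_12_3 ln13_12_3_ok) (L (nat_lit 363) ln14_12_3 ln14_12_3_ok))) (M (nat_lit 426) (B (L (nat_lit 425) ln13_12_1 ln13_12_1_ok) (L (nat_lit 427) ln14_12_1 ln14_12_1_ok))))))))))))))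
noncomputable def c41_n2162 : Cert := (M (nat_lit 430) (B (M (nat_lit 395) (B (L (nat_lit 431) ln15_13_3 ln15_13_3_ok) (M (nat_lit 394) (B (L (nat_lit 397) ln10_12_0 ln10_12_0_ok) (L (nat_lit 427) ln14_13_3 ln14_13_3_ok))))) (B (M (nat_lit 431) (B (L (nat_lit 395) ln15_13_3 ln15_13_3_ok) (M (nat_lit 400) (B (L (nat_lit 399) ln12_13_2 ln12_13_2_ok) (M (nat_lit 432) (B (L (nat_lit 397) ln16_13_3 ln16_13_3_ok) (L (nat_lit 401) ln13_13_2 ln13_13_2_ok))))))) (B (M (nat_lit 431) (B (M (nat_lit 400) (B (L (nat_lit 399) ln12_13_2 ln12_13_2_ok) (M (nat_lit 432) (B (L (nat_lit 397) ln16_13_3 ln16_13_3_ok) (L (nat_lit 401) ln13_13_2 ln13_13_2_ok))))) (M (nat_lit 427) (B (M (nat_lit 459) (B (L (nat_lit 458) ln14_13_1 ln14_13_1_ok) (L (nat_lit 460) ln15_13_1 ln15_13_1_ok))) (M (nat_lit 463) (B (L (nat_lit 462) ln11_13_0 ln11_13_0_ok) (L (nat_lit 464) ln12_13_0 ln12_13_0_ok))))))) (B (M (nat_lit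 395) (B (L (nat_lit 431) ln15_13_3 ln15_13_3_ok) (M (nat_lit 394) (B (L (nat_lit 393) ln9_12_0 ln9_12_0_ok) (L (nat_lit 427) ln14_13_3 ln14_13_3_ok))))) (M (nat_lit 398) (B (M (nat_lit 399) (B (L (nat_lit 427) ln11_13_2 ln11_13_2_ok) (M (nat_lit 400) (B (L (nat_lit 397) ln16_12_1 ln16_12_1_ok) (L (nat_lit 401) ln17_12_1 ln17_12_1_ok))))) (B (M (nat_lit 462) (B (M (nat_lit 427) (B (L (nat_lit 399) ln11_13_2 ln11_13_2_ok) (L (nat_lit 463) ln11_13_0 ln11_13_0_ok))) (B (M (nat_lit 461) (B (M (nat_lit 366) (B (L (nat_lit 334) ln14_10_5 ln14_10_5_ok) (L (nat_lit 493) ln14_11_5 ln14_11_5_ok))) (M (nat_lit 463) (B (L (nat_lit 427) ln11_13_0 ln11_13_0_ok) (L (nat_lit 464) ln16_14_3 ln16_14_3_ok))))) (B (M (nat_lit 366) (B (M (nat_lit 461) (B (L (nat_lit 334) ln14_10_5 ln14_10_5_ok) (L (nat_lit 493) ln14_11_5 ln14_11_5_ok))) (M (nat_lit 494) (B (M (nat_lit 367) (B (L (nat_lit 335) ln14_14_6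 ln14_14_6_ok) (L (nat_lit 399) ln14_15_6 ln14_15_6_ok))) (M (nat_lit 495) (B (L (nat_lit 463) ln14_11_4 ln14_11_4_ok) (L (nat_lit 527) ln14_12_4 ln14_12_4_ok))))))) (M (nat_lit 399) (B (L (nat_lit 427) ln11_13_2 ln11_13_2_ok) (M (nat_lit 367) (B (L (nat_lit 494) ln14_15_6 ln14_15_6_ok) (M (nat_lit 335) (B (L (nat_lit 303) ln15_9_5 ln15_9_5_ok) (L (nat_lit 366) ln14_14_6 ln14_14_6_ok))))))))))) (B (M (nat_lit 395) (B (M (nat_lit 394) (B (L (nat_lit 393) ln9_12_0 ln9_12_0_ok) (L (nat_lit 397) ln10_12_0 ln10_12_0_ok))) (B (M (nat_lit 394) (B (L (nat_lit 397) ln10_12_0 ln10_12_0_ok) (L (nat_lit 427) ln14_13_3 ln14_13_3_ok))) (B (M (nat_lit 366) (B (M (nat_lit 461) (B (L (nat_lit 334) ln14_10_5 ln14_10_5_ok) (M (nat_lit 493) (B (L (nat_lit 462) ln14_11_5 ln14_11_5_ok) (L (nat_lit 525) ln13_16_7 ln13_16_7_ok))))) (B (M (nat_lit 462) (B (M (nat_lit 367) (B (L (nat_lit 335) ln14_14_6 ln14_14_6_ok)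 (L (nat_lit 397) ln11_12_2 ln11_12_2_ok))) (M (nat_lit 463) (B (L (nat_lit 495) ln14_11_4 ln14_11_4_ok) (L (nat_lit 427) ln11_13_0 ln11_13_0_ok))))) (M (nat_lit 397) (B (L (nat_lit 367) ln11_12_2 ln11_12_2_ok) (M (nat_lit 334) (B (L (nat_lit 302) ln14_9_5 ln14_9_5_ok) (L (nat_lit 461) ln14_10_5 ln14_10_5_ok)))))))) (M (nat_lit 394) (B (L (nat_lit 393) ln9_12_0 ln9_12_0_ok) (L (nat_lit 427) ln14_13_3 ln14_13_3_ok))))))) (M (nat_lit 366) (B (M (nat_lit 461) (B (L (nat_lit 334) ln14_10_5 ln14_10_5_ok) (M (nat_lit 493) (B (L (nat_lit 462) ln14_11_5 ln14_11_5_ok) (L (nat_lit 525) ln13_16_7 ln13_16_7_ok))))) (B (M (nat_lit 462) (B (M (nat_lit 461) (B (L (nat_lit 493) ln14_11_5 ln14_11_5_ok) (M (nat_lit 463) (B (L (nat_lit 495) ln14_11_4 ln14_11_4_ok) (L (nat_lit 464) ln16_14_3 ln16_14_3_ok))))) (M (nat_lit 397) (B (M (nat_lit 365) (B (L (nat_lit 333) ln14_14_7 ln14_14_7_ok) (L (nat_lit 494)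 ln14_15_7 ln14_15_7_ok))) (M (nat_lit 367) (B (L (nat_lit 335) ln14_14_6 ln14_14_6_ok) (L (nat_lit 395) ln11_12_2 ln11_12_2_ok))))))) (B (M (nat_lit 397) (B (M (nat_lit 395) (B (L (nat_lit 367) ln11_12_2 ln11_12_2_ok) (L (nat_lit 394) ln10_12_0 ln10_12_0_ok))) (M (nat_lit 333) (B (M (nat_lit 334) (B (L (nat_lit 301) ln14_13_7 ln14_13_7_ok) (L (nat_lit 302) ln14_9_5 ln14_9_5_ok))) (M (nat_lit 365) (B (L (nat_lit 462) ln14_14_7 ln14_14_7_ok) (L (nat_lit 460) ln13_10_5 ln13_10_5_ok))))))) (M (nat_lit 461) (B (L (nat_lit 334) ln14_10_5 ln14_10_5_ok) (M (nat_lit 493) (B (L (nat_lit 397) ln13_15_6 ln13_15_6_ok) (L (nat_lit 525) ln13_16_7 ln13_16_7_ok))))))))))))))))))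
noncomputable def c41_n2298 : Cert := (M (nat_lit 430) (B (M (nat_lit 431) (B (L (nat_lit 432) ln16_13_3 ln16_13_3_ok) (M (nat_lit 460) (B (L (nat_lit 459) ln15_13_1 ln15_13_1_ok) (M (nat_lit 492) (B (L (nat_lit 365) ln12_15_6 ln12_15_6_ok) (L (nat_lit 524) ln12_16_6 ln12_16_6_ok))))))) (B (M (nat_lit 431) (B (L (nat_lit 432) ln16_13_3 ln16_13_3_ok) (M (nat_lit 399) (B (L (nat_lit 400) ln12_13_2 ln12_13_2_ok) (M (nat_lit 398) (B (M (nat_lit 463) (B (L (nat_lit 464) ln12_13_0 ln12_13_0_ok) (M (nat_lit 366) (B (L (nat_lit 334) ln14_10_4 ln14_10_4_ok) (L (nat_lit 495) ln15_15_7 ln15_15_7_ok))))) (M (nat_lit 367) (B (L (nat_lit 368) ln12_12_2 ln12_12_2_ok) (M (nat_lit 335) (B (L (nat_lit 303) ln15_9_5 ln15_9_5_ok) (L (nat_lit 462) ln15_10_5 ln15_10_5_ok))))))))))) c41_n1946)))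
theorem c41_s2327 : Sem (nat_lit 2079502270752001762064242424960807725827516048677469043429686155012882190638009693656033379242457518153052022685796627120027336704) (nat_lit 851234910057585847229520629499907430739891316252995241929076312851027206020544119131764350163740586727483263296577533265384484875579589124905867406374651035648) (nat_lit 851234910057585847229520629499907430739891316252995241929076312851027206020544119131764350163740586727483263296577533265384484875579589124905867406374651035648) :=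
  sem_of_chk (M (nat_lit 397) (B (M (nat_lit 461) (B (M (nat_lit 493) (B (L (nat_lit 525) ln13_16_7 ln13_16_7_ok) (M (nat_lit 492) (B (L (nat_lit 524) ln13_12_5 ln13_12_5_ok) (M (nat_lit 365) (B (L (nat_lit 460) ln12_15_6 ln12_15_6_ok) (M (nat_lit 494) (B (L (nat_lit 462) ln13_11_4 ln13_11_4_ok) (L (nat_lit 526) ln13_12_4 ln13_12_4_ok))))))))) (B (M (nat_lit 493) (B (L (nat_lit 525) ln13_16_7 ln13_16_7_ok) (M (nat_lit 395) (B (M (nat_lit 430) (B (L (nat_lit 394) ln10_12_0 ln10_12_0_ok) (L (nat_lit 431) ln15_13_3 ln15_13_3_ok))) (M (nat_lit 363) (B (M (nat_lit 398) (B (L (nat_lit 362) ln14_12_3 ln14_12_3_ok) (L (nat_lit 366) ln13_15_6 ln13_15_6_ok))) (M (nat_lit 492) (B (L (nat_lit 460) ln12_15_7 ln12_15_7_ok) (L (nat_lit 524) ln13_12_5 ln13_12_5_ok))))))))) (B (M (nat_lit 493) (B (L (nat_lit 525) ln13_16_7 ln13_16_7_ok) (M (nat_lit 365) (B (M (nat_lit 366) (B (L (nat_lit 334) ln13_14_6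 ln13_14_6_ok) (L (nat_lit 398) ln13_15_6 ln13_15_6_ok))) (M (nat_lit 494) (B (L (nat_lit 462) ln13_11_4 ln13_11_4_ok) (L (nat_lit 526) ln13_12_4 ln13_12_4_ok))))))) (M (nat_lit 365) (B (M (nat_lit 333) (B (L (nat_lit 301) ln13_9_5 ln13_9_5_ok) (L (nat_lit 460) ln13_10_5 ln13_10_5_ok))) (B (M (nat_lit 460) (B (L (nat_lit 333) ln13_10_5 ln13_10_5_ok) (L (nat_lit 492) ln12_15_6 ln12_15_6_ok))) (M (nat_lit 366) (B (L (nat_lit 334) ln13_14_6 ln13_14_6_ok) (M (nat_lit 395) (B (L (nat_lit 394) ln10_12_2 ln10_12_2_ok) (M (nat_lit 367) (B (L (nat_lit 368) ln16_11_1 ln16_11_1_ok) (L (nat_lit 398) ln11_12_2 ln11_12_2_ok)))))))))))))) (B (M (nat_lit 461) (B (M (nat_lit 493) (B (L (nat_lit 525) ln13_16_7 ln13_16_7_ok) (M (nat_lit 492) (B (L (nat_lit 524) ln13_12_5 ln13_12_5_ok) (M (nat_lit 365) (B (L (nat_lit 460) ln12_15_6 ln12_15_6_ok) (M (nat_lit 494) (B (L (nat_lit 462) ln13_11_4 ln13_11_4_ok)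 (L (nat_lit 526) ln13_12_4 ln13_12_4_ok))))))))) (B (M (nat_lit 493) (B (L (nat_lit 525) ln13_16_7 ln13_16_7_ok) (M (nat_lit 395) (B (M (nat_lit 430) (B (L (nat_lit 394) ln10_12_0 ln10_12_0_ok) (L (nat_lit 431) ln15_13_3 ln15_13_3_ok))) (M (nat_lit 363) (B (M (nat_lit 398) (B (L (nat_lit 362) ln14_12_3 ln14_12_3_ok) (L (nat_lit 366) ln13_15_6 ln13_15_6_ok))) (M (nat_lit 492) (B (L (nat_lit 460) ln12_15_7 ln12_15_7_ok) (L (nat_lit 524) ln13_12_5 ln13_12_5_ok))))))))) (B (M (nat_lit 493) (B (L (nat_lit 525) ln13_16_7 ln13_16_7_ok) (M (nat_lit 365) (B (M (nat_lit 366) (B (L (nat_lit 334) ln13_14_6 ln13_14_6_ok) (L (nat_lit 398) ln13_15_6 ln13_15_6_ok))) (M (nat_lit 494) (B (L (nat_lit 462) ln13_11_4 ln13_11_4_ok) (L (nat_lit 526) ln13_12_4 ln13_12_4_ok))))))) (M (nat_lit 365) (B (M (nat_lit 460) (B (L (nat_lit 333) ln13_10_5 ln13_10_5_ok) (L (nat_lit 492) ln12_15_6 ln12_15_6_ok))) (M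 (nat_lit 366) (B (L (nat_lit 334) ln13_14_6 ln13_14_6_ok) (M (nat_lit 395) (B (L (nat_lit 394) ln10_12_2 ln10_12_2_ok) (M (nat_lit 367) (B (L (nat_lit 368) ln16_11_1 ln16_11_1_ok) (L (nat_lit 398) ln11_12_2 ln11_12_2_ok))))))))))))) (B (M (nat_lit 461) (B (M (nat_lit 493) (B (L (nat_lit 525) ln13_16_7 ln13_16_7_ok) (M (nat_lit 492) (B (L (nat_lit 524) ln13_12_5 ln13_12_5_ok) (M (nat_lit 365) (B (L (nat_lit 460) ln12_15_6 ln12_15_6_ok) (M (nat_lit 494) (B (L (nat_lit 462) ln13_11_4 ln13_11_4_ok) (L (nat_lit 526) ln13_12_4 ln13_12_4_ok))))))))) (B (M (nat_lit 493) (B (L (nat_lit 525) ln13_16_7 ln13_16_7_ok) (M (nat_lit 395) (B (M (nat_lit 430) (B (L (nat_lit 394) ln10_12_0 ln10_12_0_ok) (L (nat_lit 431) ln15_13_3 ln15_13_3_ok))) (M (nat_lit 363) (B (M (nat_lit 398) (B (L (nat_lit 362) ln14_12_3 ln14_12_3_ok) (L (nat_lit 366) ln13_15_6 ln13_15_6_ok))) (M (nat_lit 492) (B (L (nat_lit 460)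 ln12_15_7 ln12_15_7_ok) (L (nat_lit 524) ln13_12_5 ln13_12_5_ok))))))))) (B (M (nat_lit 493) (B (L (nat_lit 525) ln13_16_7 ln13_16_7_ok) (M (nat_lit 365) (B (M (nat_lit 366) (B (L (nat_lit 334) ln13_14_6 ln13_14_6_ok) (L (nat_lit 398) ln13_15_6 ln13_15_6_ok))) (M (nat_lit 494) (B (L (nat_lit 462) ln13_11_4 ln13_11_4_ok) (L (nat_lit 526) ln13_12_4 ln13_12_4_ok))))))) (M (nat_lit 395) (B (M (nat_lit 394) (B (L (nat_lit 393) ln9_12_0 ln9_12_0_ok) (L (nat_lit 430) ln10_12_0 ln10_12_0_ok))) (B (M (nat_lit 430) (B (L (nat_lit 394) ln10_12_0 ln10_12_0_ok) (L (nat_lit 431) ln15_13_3 ln15_13_3_ok))) (B (M (nat_lit 398) (B (M (nat_lit 430) (B (L (nat_lit 431) ln11_12_0 ln11_12_0_ok) (M (nat_lit 366) (B (L (nat_lit 334) ln14_10_5 ln14_10_5_ok) (L (nat_lit 367) ln11_12_2 ln11_12_2_ok))))) (B (M (nat_lit 431) (B (L (nat_lit 430) ln11_12_0 ln11_12_0_ok) (M (nat_lit 399) (B (L (nat_lit 432) ln12_12_0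 ln12_12_0_ok) (L (nat_lit 400) ln16_12_1 ln16_12_1_ok))))) (M (nat_lit 366) (B (L (nat_lit 367) ln11_12_2 ln11_12_2_ok) (M (nat_lit 334) (B (L (nat_lit 302) ln14_9_5 ln14_9_5_ok) (L (nat_lit 365) ln13_14_6 ln13_14_6_ok)))))))) (M (nat_lit 398) (B (M (nat_lit 366) (B (L (nat_lit 367) ln11_12_2 ln11_12_2_ok) (M (nat_lit 334) (B (L (nat_lit 302) ln14_9_5 ln14_9_5_ok) (L (nat_lit 365) ln13_14_6 ln13_14_6_ok))))) (B (M (nat_lit 366) (B (L (nat_lit 367) ln11_12_2 ln11_12_2_ok) (M (nat_lit 394) (B (L (nat_lit 365) ln10_12_2 ln10_12_2_ok) (L (nat_lit 393) ln9_12_0 ln9_12_0_ok))))) (M (nat_lit 394) (B (L (nat_lit 393) ln9_12_0 ln9_12_0_ok) (M (nat_lit 362) (B (L (nat_lit 361) ln13_12_3 ln13_12_3_ok) (L (nat_lit 363) ln14_12_3 ln14_12_3_ok)))))))))))))))) (B (M (nat_lit 461) (B (M (nat_lit 493) (B (L (nat_lit 525) ln13_16_7 ln13_16_7_ok) (M (nat_lit 492) (B (L (nat_lit 524) ln13_12_5 ln13_12_5_ok)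 (M (nat_lit 365) (B (L (nat_lit 460) ln12_15_6 ln12_15_6_ok) (M (nat_lit 494) (B (L (nat_lit 462) ln13_11_4 ln13_11_4_ok) (L (nat_lit 526) ln13_12_4 ln13_12_4_ok))))))))) (B (M (nat_lit 398) (B (M (nat_lit 493) (B (L (nat_lit 366) ln13_15_6 ln13_15_6_ok) (L (nat_lit 525) ln13_16_7 ln13_16_7_ok))) (M (nat_lit 395) (B (M (nat_lit 394) (B (L (nat_lit 393) ln9_12_0 ln9_12_0_ok) (L (nat_lit 430) ln10_12_0 ln10_12_0_ok))) (B (M (nat_lit 430) (B (L (nat_lit 394) ln10_12_0 ln10_12_0_ok) (L (nat_lit 431) ln11_12_0 ln11_12_0_ok))) (B (M (nat_lit 431) (B (L (nat_lit 430) ln11_12_0 ln11_12_0_ok) (M (nat_lit 399) (B (L (nat_lit 432) ln12_12_0 ln12_12_0_ok) (L (nat_lit 400) ln16_12_1 ln16_12_1_ok))))) (M (nat_lit 394) (B (L (nat_lit 393) ln9_12_0 ln9_12_0_ok) (M (nat_lit 362) (B (L (nat_lit 361) ln13_12_3 ln13_12_3_ok) (L (nat_lit 363) ln14_12_3 ln14_12_3_ok))))))))))) (M (nat_lit 460) (B (M (nat_lit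 365) (B (L (nat_lit 333) ln13_10_5 ln13_10_5_ok) (L (nat_lit 492) ln12_15_6 ln12_15_6_ok))) (B (M (nat_lit 492) (B (L (nat_lit 365) ln12_15_6 ln12_15_6_ok) (L (nat_lit 524) ln12_16_6 ln12_16_6_ok))) (B (M (nat_lit 395) (B (M (nat_lit 492) (B (L (nat_lit 363) ln12_15_7 ln12_15_7_ok) (L (nat_lit 524) ln12_16_6 ln12_16_6_ok))) (M (nat_lit 430) (B (L (nat_lit 394) ln10_12_0 ln10_12_0_ok) (L (nat_lit 431) ln15_13_3 ln15_13_3_ok))))) (M (nat_lit 431) (B (M (nat_lit 430) (B (L (nat_lit 395) ln15_13_3 ln15_13_3_ok) (L (nat_lit 432) ln16_13_3 ln16_13_3_ok))) (B (M (nat_lit 430) (B (L (nat_lit 432) ln16_13_3 ln16_13_3_ok) (L (nat_lit 459) ln15_13_1 ln15_13_1_ok))) (B (M (nat_lit 462) (B (M (nat_lit 365) (B (L (nat_lit 333) ln13_10_5 ln13_10_5_ok) (L (nat_lit 494) ln13_11_4 ln13_11_4_ok))) (M (nat_lit 463) (B (L (nat_lit 464) ln16_14_3 ln16_14_3_ok) (L (nat_lit 432) ln12_14_2 ln12_14_2_ok)))))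 (M (nat_lit 430) (B (L (nat_lit 395) ln15_13_3 ln15_13_3_ok) (L (nat_lit 459) ln15_13_1 ln15_13_1_ok)))))))))))))) (B (M (nat_lit 365) (B (M (nat_lit 333) (B (L (nat_lit 301) ln13_9_5 ln13_9_5_ok) (L (nat_lit 460) ln13_10_5 ln13_10_5_ok))) (B (M (nat_lit 460) (B (L (nat_lit 333) ln13_10_5 ln13_10_5_ok) (L (nat_lit 492) ln12_15_6 ln12_15_6_ok))) (M (nat_lit 461) (B (M (nat_lit 366) (B (L (nat_lit 334) ln13_14_6 ln13_14_6_ok) (M (nat_lit 493) (B (L (nat_lit 398) ln13_15_6 ln13_15_6_ok) (L (nat_lit 525) ln13_16_7 ln13_16_7_ok))))) (B (M (nat_lit 493) (B (L (nat_lit 525) ln13_16_7 ln13_16_7_ok) (M (nat_lit 494) (B (L (nat_lit 462) ln13_11_4 ln13_11_4_ok) (L (nat_lit 526) ln13_12_4 ln13_12_4_ok))))) (M (nat_lit 366) (B (L (nat_lit 334) ln13_14_6 ln13_14_6_ok) (M (nat_lit 395) (B (L (nat_lit 394) ln10_12_2 ln10_12_2_ok) (M (nat_lit 367) (B (L (nat_lit 368) ln16_11_1 ln16_11_1_ok) (L (nat_lit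 398) ln11_12_2 ln11_12_2_ok))))))))))))) (B (M (nat_lit 395) (B (M (nat_lit 394) (B (L (nat_lit 393) ln9_12_0 ln9_12_0_ok) (L (nat_lit 430) ln10_12_0 ln10_12_0_ok))) (B (M (nat_lit 430) (B (L (nat_lit 394) ln10_12_0 ln10_12_0_ok) (L (nat_lit 431) ln15_13_3 ln15_13_3_ok))) (B (M (nat_lit 398) (B (M (nat_lit 399) (B (L (nat_lit 400) ln16_12_1 ln16_12_1_ok) (M (nat_lit 367) (B (L (nat_lit 366) ln11_12_2 ln11_12_2_ok) (L (nat_lit 368) ln12_12_2 ln12_12_2_ok))))) (B (M (nat_lit 399) (B (L (nat_lit 400) ln16_12_1 ln16_12_1_ok) (M (nat_lit 431) (B (L (nat_lit 430) ln11_12_0 ln11_12_0_ok) (L (nat_lit 432) ln12_12_0 ln12_12_0_ok))))) (M (nat_lit 430) (B (L (nat_lit 431) ln11_12_0 ln11_12_0_ok) (M (nat_lit 366) (B (L (nat_lit 367) ln11_12_2 ln11_12_2_ok) (M (nat_lit 334) (B (L (nat_lit 302) ln14_9_5 ln14_9_5_ok) (L (nat_lit 461) ln14_10_5 ln14_10_5_ok)))))))))) (M (nat_lit 398) (B (M (nat_lit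 399) (B (L (nat_lit 400) ln16_12_1 ln16_12_1_ok) (M (nat_lit 367) (B (L (nat_lit 366) ln11_12_2 ln11_12_2_ok) (L (nat_lit 368) ln12_12_2 ln12_12_2_ok))))) (M (nat_lit 394) (B (L (nat_lit 393) ln9_12_0 ln9_12_0_ok) (M (nat_lit 362) (B (L (nat_lit 361) ln13_12_3 ln13_12_3_ok) (L (nat_lit 363) ln14_12_3 ln14_12_3_ok))))))))))) (B (M (nat_lit 461) (B (M (nat_lit 493) (B (L (nat_lit 525) ln13_16_7 ln13_16_7_ok) (M (nat_lit 492) (B (L (nat_lit 524) ln13_12_5 ln13_12_5_ok) (M (nat_lit 365) (B (L (nat_lit 460) ln12_15_6 ln12_15_6_ok) (M (nat_lit 494) (B (L (nat_lit 462) ln13_11_4 ln13_11_4_ok) (L (nat_lit 526) ln13_12_4 ln13_12_4_ok))))))))) (B (M (nat_lit 493) (B (L (nat_lit 525) ln13_16_7 ln13_16_7_ok) (M (nat_lit 492) (B (L (nat_lit 524) ln13_12_5 ln13_12_5_ok) (M (nat_lit 460) (B (M (nat_lit 491) (B (L (nat_lit 523) ln12_12_5 ln12_12_5_ok) (M (nat_lit 462) (B (L (nat_lit 463) ln15_14_1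 ln15_14_1_ok) (L (nat_lit 490) ln10_15_2 ln10_15_2_ok))))) (M (nat_lit 395) (B (L (nat_lit 363) ln12_15_7 ln12_15_7_ok) (M (nat_lit 394) (B (L (nat_lit 393) ln9_12_0 ln9_12_0_ok) (L (nat_lit 430) ln10_12_0 ln10_12_0_ok))))))))))) (B (M (nat_lit 493) (B (L (nat_lit 525) ln13_16_7 ln13_16_7_ok) (M (nat_lit 492) (B (L (nat_lit 524) ln13_12_5 ln13_12_5_ok) (M (nat_lit 494) (B (L (nat_lit 526) ln13_12_4 ln13_12_4_ok) (M (nat_lit 462) (B (L (nat_lit 365) ln13_11_4 ln13_11_4_ok) (M (nat_lit 463) (B (L (nat_lit 464) ln16_14_3 ln16_14_3_ok) (L (nat_lit 491) ln11_15_2 ln11_15_2_ok))))))))))) (B (M (nat_lit 395) (B (M (nat_lit 430) (B (L (nat_lit 394) ln10_12_0 ln10_12_0_ok) (L (nat_lit 431) ln15_13_3 ln15_13_3_ok))) (M (nat_lit 492) (B (M (nat_lit 460) (B (L (nat_lit 363) ln12_15_7 ln12_15_7_ok) (L (nat_lit 365) ln12_15_6 ln12_15_6_ok))) (B (M (nat_lit 460) (B (L (nat_lit 365) ln12_15_6 ln12_15_6_ok)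 (L (nat_lit 524) ln12_16_6 ln12_16_6_ok))) (B (M (nat_lit 460) (B (L (nat_lit 363) ln12_15_7 ln12_15_7_ok) (L (nat_lit 524) ln12_16_6 ln12_16_6_ok))) (M (nat_lit 493) (B (L (nat_lit 525) ln13_16_7 ln13_16_7_ok) (L (nat_lit 524) ln13_12_5 ln13_12_5_ok))))))))) (B (M (nat_lit 493) (B (L (nat_lit 525) ln13_16_7 ln13_16_7_ok) (M (nat_lit 365) (B (M (nat_lit 333) (B (L (nat_lit 301) ln13_9_5 ln13_9_5_ok) (L (nat_lit 460) ln13_10_5 ln13_10_5_ok))) (M (nat_lit 494) (B (L (nat_lit 462) ln13_11_4 ln13_11_4_ok) (L (nat_lit 526) ln13_12_4 ln13_12_4_ok))))))) (M (nat_lit 460) (B (M (nat_lit 365) (B (L (nat_lit 333) ln13_10_5 ln13_10_5_ok) (L (nat_lit 492) ln12_15_6 ln12_15_6_ok))) (B (M (nat_lit 492) (B (L (nat_lit 365) ln12_15_6 ln12_15_6_ok) (L (nat_lit 524) ln12_16_6 ln12_16_6_ok))) (B (M (nat_lit 395) (B (M (nat_lit 492) (B (L (nat_lit 363) ln12_15_7 ln12_15_7_ok) (L (nat_lit 524) ln12_16_6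 ln12_16_6_ok))) (M (nat_lit 430) (B (L (nat_lit 394) ln10_12_0 ln10_12_0_ok) (L (nat_lit 431) ln15_13_3 ln15_13_3_ok))))) (M (nat_lit 431) (B (M (nat_lit 430) (B (L (nat_lit 395) ln15_13_3 ln15_13_3_ok) (L (nat_lit 432) ln16_13_3 ln16_13_3_ok))) (B (M (nat_lit 430) (B (L (nat_lit 432) ln16_13_3 ln16_13_3_ok) (L (nat_lit 459) ln15_13_1 ln15_13_1_ok))) (B (M (nat_lit 462) (B (M (nat_lit 365) (B (L (nat_lit 333) ln13_10_5 ln13_10_5_ok) (L (nat_lit 494) ln13_11_4 ln13_11_4_ok))) (M (nat_lit 463) (B (L (nat_lit 464) ln16_14_3 ln16_14_3_ok) (L (nat_lit 432) ln12_14_2 ln12_14_2_ok))))) (M (nat_lit 430) (B (L (nat_lit 395) ln15_13_3 ln15_13_3_ok) (L (nat_lit 459) ln15_13_1 ln15_13_1_ok))))))))))))))))) (B (M (nat_lit 365) (B (M (nat_lit 333) (B (L (nat_lit 301) ln13_9_5 ln13_9_5_ok) (L (nat_lit 460) ln13_10_5 ln13_10_5_ok))) (B (M (nat_lit 460) (B (L (nat_lit 333) ln13_10_5 ln13_10_5_ok) (L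 (nat_lit 492) ln12_15_6 ln12_15_6_ok))) (B (M (nat_lit 431) (B (M (nat_lit 430) (B (L (nat_lit 395) ln15_13_3 ln15_13_3_ok) (L (nat_lit 432) ln16_13_3 ln16_13_3_ok))) (B (M (nat_lit 460) (B (L (nat_lit 492) ln12_15_6 ln12_15_6_ok) (M (nat_lit 430) (B (L (nat_lit 432) ln16_13_3 ln16_13_3_ok) (L (nat_lit 459) ln15_13_1 ln15_13_1_ok))))) (B (M (nat_lit 398) (B (M (nat_lit 399) (B (L (nat_lit 432) ln12_12_0 ln12_12_0_ok) (L (nat_lit 400) ln16_12_1 ln16_12_1_ok))) (M (nat_lit 366) (B (M (nat_lit 334) (B (L (nat_lit 302) ln14_9_5 ln14_9_5_ok) (L (nat_lit 461) ln13_14_6 ln13_14_6_ok))) (M (nat_lit 367) (B (L (nat_lit 368) ln16_11_1 ln16_11_1_ok) (L (nat_lit 395) ln11_12_2 ln11_12_2_ok))))))) (M (nat_lit 460) (B (L (nat_lit 492) ln12_15_6 ln12_15_6_ok) (M (nat_lit 430) (B (L (nat_lit 395) ln15_13_3 ln15_13_3_ok) (L (nat_lit 459) ln15_13_1 ln15_13_1_ok))))))))) (M (nat_lit 430) (B (M (nat_lit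 333) (B (L (nat_lit 301) ln13_9_5 ln13_9_5_ok) (L (nat_lit 462) ln13_10_4 ln13_10_4_ok))) (M (nat_lit 431) (B (L (nat_lit 395) ln15_13_3 ln15_13_3_ok) (L (nat_lit 432) ln16_13_3 ln16_13_3_ok))))))))) (B c41_n2298 (M (nat_lit 398) (B (M (nat_lit 399) (B (L (nat_lit 400) ln16_12_1 ln16_12_1_ok) (M (nat_lit 395) (B (M (nat_lit 367) (B (L (nat_lit 366) ln11_12_2 ln11_12_2_ok) (L (nat_lit 368) ln12_12_2 ln12_12_2_ok))) (M (nat_lit 431) (B (L (nat_lit 430) ln11_12_0 ln11_12_0_ok) (L (nat_lit 432) ln12_12_0 ln12_12_0_ok))))))) (B (M (nat_lit 395) (B (M (nat_lit 394) (B (L (nat_lit 393) ln9_12_0 ln9_12_0_ok) (L (nat_lit 430) ln10_12_0 ln10_12_0_ok))) (B (M (nat_lit 430) (B (L (nat_lit 394) ln10_12_0 ln10_12_0_ok) (L (nat_lit 431) ln11_12_0 ln11_12_0_ok))) (B (M (nat_lit 399) (B (L (nat_lit 400) ln16_12_1 ln16_12_1_ok) (M (nat_lit 431) (B (L (nat_lit 430) ln11_12_0 ln11_12_0_ok) (L (nat_lit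 432) ln12_12_0 ln12_12_0_ok))))) (M (nat_lit 394) (B (L (nat_lit 393) ln9_12_0 ln9_12_0_ok) (M (nat_lit 362) (B (L (nat_lit 361) ln13_12_3 ln13_12_3_ok) (L (nat_lit 363) ln14_12_3 ln14_12_3_ok))))))))) (B (M (nat_lit 399) (B (L (nat_lit 400) ln16_12_1 ln16_12_1_ok) (M (nat_lit 431) (B (L (nat_lit 432) ln12_12_0 ln12_12_0_ok) (M (nat_lit 430) (B (M (nat_lit 367) (B (L (nat_lit 368) ln12_12_2 ln12_12_2_ok) (M (nat_lit 462) (B (L (nat_lit 335) ln15_10_5 ln15_10_5_ok) (L (nat_lit 494) ln14_15_6 ln14_15_6_ok))))) (M (nat_lit 463) (B (L (nat_lit 464) ln12_13_0 ln12_13_0_ok) (M (nat_lit 366) (B (L (nat_lit 334) ln14_10_4 ln14_10_4_ok) (L (nat_lit 495) ln15_15_7 ln15_15_7_ok))))))))))) (B (M (nat_lit 430) (B (M (nat_lit 395) (B (L (nat_lit 394) ln10_12_0 ln10_12_0_ok) (L (nat_lit 431) ln11_12_0 ln11_12_0_ok))) (B (M (nat_lit 431) (B (L (nat_lit 395) ln11_12_0 ln11_12_0_ok) (L (nat_lit 432)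 ln16_13_3 ln16_13_3_ok))) (B (M (nat_lit 460) (B (M (nat_lit 365) (B (L (nat_lit 333) ln13_10_5 ln13_10_5_ok) (L (nat_lit 492) ln12_15_6 ln12_15_6_ok))) (M (nat_lit 431) (B (L (nat_lit 432) ln16_13_3 ln16_13_3_ok) (L (nat_lit 459) ln15_13_1 ln15_13_1_ok))))) (M (nat_lit 366) (B (M (nat_lit 395) (B (L (nat_lit 367) ln11_12_2 ln11_12_2_ok) (L (nat_lit 394) ln10_12_0 ln10_12_0_ok))) (M (nat_lit 333) (B (M (nat_lit 334) (B (L (nat_lit 301) ln14_13_7 ln14_13_7_ok) (L (nat_lit 302) ln14_9_5 ln14_9_5_ok))) (M (nat_lit 365) (B (L (nat_lit 462) ln14_14_7 ln14_14_7_ok) (L (nat_lit 460) ln13_10_5 ln13_10_5_ok))))))))))) (M (nat_lit 395) (B (M (nat_lit 394) (B (L (nat_lit 393) ln9_12_0 ln9_12_0_ok) (M (nat_lit 362) (B (L (nat_lit 361) ln13_12_3 ln13_12_3_ok) (L (nat_lit 363) ln14_12_3 ln14_12_3_ok))))) (M (nat_lit 399) (B (L (nat_lit 400) ln16_12_1 ln16_12_1_ok) (M (nat_lit 367) (B (L (nat_lit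 366) ln11_12_2 ln11_12_2_ok) (L (nat_lit 368) ln12_12_2 ln12_12_2_ok)))))))))))))))))))))) (nat_lit 2079502270752001762064242424960807725827516048677469043429686155012882190638009693656033379242457518153052022685796627120027336704) (nat_lit 851234910057585847229520629499907430739891316252995241929076312851027206020544119131764350163740586727483263296577533265384484875579589124905867406374651035648) (nat_lit 851234910057585847229520629499907430739891316252995241929076312851027206020544119131764350163740586727483263296577533265384484875579589124905867406374651035648) (by decide +kernel)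
theorem c41_s2427 : Sem (nat_lit 2079502270752001762064242424960807725827516048677469043429686155012882190638009693656033379242457518153052022685796627120027336704) (nat_lit 411887859809226825471423261193574799927313188856584891184722876330809148931876437897046151152769048519730737861168558160677132308403467200328120635738690682880) (nat_lit 411887859809226825471423261193574799927313188856584891184722876330809148931876437897046151152769048519730737861168558160677132308403467200328120635738690682880) :=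
  sem_of_chk (M (nat_lit 397) (B (M (nat_lit 398) (B (M (nat_lit 399) (B (L (nat_lit 427) ln15_12_1 ln15_12_1_ok) (L (nat_lit 400) ln16_12_1 ln16_12_1_ok))) (M (nat_lit 365) (B (M (nat_lit 460) (B (L (nat_lit 333) ln13_10_5 ln13_10_5_ok) (L (nat_lit 492) ln12_15_6 ln12_15_6_ok))) (M (nat_lit 366) (B (M (nat_lit 334) (B (L (nat_lit 302) ln14_9_5 ln14_9_5_ok) (L (nat_lit 461) ln13_14_6 ln13_14_6_ok))) (M (nat_lit 367) (B (L (nat_lit 368) ln16_11_1 ln16_11_1_ok) (L (nat_lit 395) ln11_12_2 ln11_12_2_ok))))))))) (B (M (nat_lit 398) (B (M (nat_lit 399) (B (L (nat_lit 427) ln15_12_1 ln15_12_1_ok) (L (nat_lit 400) ln16_12_1 ln16_12_1_ok))) (M (nat_lit 365) (B (M (nat_lit 460) (B (L (nat_lit 333) ln13_10_5 ln13_10_5_ok) (L (nat_lit 492) ln12_15_6 ln12_15_6_ok))) (M (nat_lit 366) (B (M (nat_lit 367) (B (L (nat_lit 368) ln16_11_1 ln16_11_1_ok) (L (nat_lit 395) ln11_12_2 ln11_12_2_ok))) (M (nat_lit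 461) (B (L (nat_lit 334) ln13_14_6 ln13_14_6_ok) (L (nat_lit 493) ln13_15_6 ln13_15_6_ok))))))))) (B (M (nat_lit 398) (B (M (nat_lit 399) (B (L (nat_lit 427) ln15_12_1 ln15_12_1_ok) (L (nat_lit 400) ln16_12_1 ln16_12_1_ok))) (B (M (nat_lit 427) (B (L (nat_lit 426) ln10_13_2 ln10_13_2_ok) (M (nat_lit 395) (B (M (nat_lit 363) (B (L (nat_lit 362) ln14_12_3 ln14_12_3_ok) (M (nat_lit 331) (B (L (nat_lit 299) ln11_9_4 ln11_9_4_ok) (L (nat_lit 460) ln11_10_4 ln11_10_4_ok))))) (M (nat_lit 394) (B (L (nat_lit 393) ln9_12_0 ln9_12_0_ok) (M (nat_lit 366) (B (L (nat_lit 365) ln10_12_2 ln10_12_2_ok) (L (nat_lit 367) ln11_12_2 ln11_12_2_ok))))))))) (M (nat_lit 395) (B (M (nat_lit 366) (B (L (nat_lit 367) ln11_12_2 ln11_12_2_ok) (M (nat_lit 394) (B (L (nat_lit 365) ln10_12_2 ln10_12_2_ok) (L (nat_lit 393) ln9_12_0 ln9_12_0_ok))))) (B (M (nat_lit 399) (B (L (nat_lit 400) ln16_12_1 ln16_12_1_ok) (M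 (nat_lit 367) (B (L (nat_lit 366) ln11_12_2 ln11_12_2_ok) (L (nat_lit 368) ln12_12_2 ln12_12_2_ok))))) (M (nat_lit 394) (B (L (nat_lit 393) ln9_12_0 ln9_12_0_ok) (M (nat_lit 362) (B (L (nat_lit 361) ln13_12_3 ln13_12_3_ok) (L (nat_lit 363) ln14_12_3 ln14_12_3_ok))))))))))) (B (M (nat_lit 398) (B (M (nat_lit 399) (B (L (nat_lit 427) ln15_12_1 ln15_12_1_ok) (L (nat_lit 400) ln16_12_1 ln16_12_1_ok))) (B (M (nat_lit 395) (B (M (nat_lit 426) (B (L (nat_lit 427) ln14_12_1 ln14_12_1_ok) (M (nat_lit 394) (B (L (nat_lit 393) ln9_12_0 ln9_12_0_ok) (L (nat_lit 425) ln13_12_1 ln13_12_1_ok))))) (B (M (nat_lit 394) (B (M (nat_lit 362) (B (L (nat_lit 361) ln13_12_3 ln13_12_3_ok) (L (nat_lit 363) ln14_12_3 ln14_12_3_ok))) (M (nat_lit 426) (B (L (nat_lit 425) ln13_12_1 ln13_12_1_ok) (L (nat_lit 427) ln14_12_1 ln14_12_1_ok))))) (B (M (nat_lit 427) (B (L (nat_lit 426) ln14_12_1 ln14_12_1_ok) (M (nat_lit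 363) (B (L (nat_lit 362) ln14_12_3 ln14_12_3_ok) (M (nat_lit 331) (B (L (nat_lit 299) ln11_9_4 ln11_9_4_ok) (L (nat_lit 460) ln11_10_4 ln11_10_4_ok))))))) (M (nat_lit 394) (B (L (nat_lit 393) ln9_12_0 ln9_12_0_ok) (M (nat_lit 362) (B (L (nat_lit 361) ln13_12_3 ln13_12_3_ok) (L (nat_lit 363) ln14_12_3 ln14_12_3_ok))))))))) (M (nat_lit 395) (B (M (nat_lit 394) (B (L (nat_lit 393) ln9_12_0 ln9_12_0_ok) (M (nat_lit 362) (B (L (nat_lit 361) ln13_12_3 ln13_12_3_ok) (L (nat_lit 363) ln14_12_3 ln14_12_3_ok))))) (M (nat_lit 399) (B (L (nat_lit 400) ln16_12_1 ln16_12_1_ok) (M (nat_lit 367) (B (L (nat_lit 366) ln11_12_2 ln11_12_2_ok) (L (nat_lit 368) ln12_12_2 ln12_12_2_ok)))))))))) (B (M (nat_lit 461) (B (M (nat_lit 493) (B (L (nat_lit 525) ln13_16_7 ln13_16_7_ok) (M (nat_lit 492) (B (L (nat_lit 524) ln13_12_5 ln13_12_5_ok) (M (nat_lit 365) (B (L (nat_lit 460) ln12_15_6 ln12_15_6_ok) (M (nat_lit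 494) (B (L (nat_lit 462) ln13_11_4 ln13_11_4_ok) (L (nat_lit 526) ln13_12_4 ln13_12_4_ok))))))))) (B (M (nat_lit 493) (B (L (nat_lit 525) ln13_16_7 ln13_16_7_ok) (M (nat_lit 492) (B (L (nat_lit 524) ln13_12_5 ln13_12_5_ok) (M (nat_lit 460) (B (M (nat_lit 494) (B (L (nat_lit 526) ln13_12_4 ln13_12_4_ok) (M (nat_lit 459) (B (L (nat_lit 458) ln10_14_0 ln10_14_0_ok) (L (nat_lit 495) ln15_15_3 ln15_15_3_ok))))) (M (nat_lit 491) (B (L (nat_lit 523) ln12_12_5 ln12_12_5_ok) (M (nat_lit 462) (B (L (nat_lit 463) ln15_14_1 ln15_14_1_ok) (L (nat_lit 490) ln10_15_2 ln10_15_2_ok))))))))))) (B (M (nat_lit 493) (B (L (nat_lit 525) ln13_16_7 ln13_16_7_ok) (M (nat_lit 492) (B (L (nat_lit 524) ln13_12_5 ln13_12_5_ok) (M (nat_lit 494) (B (L (nat_lit 526) ln13_12_4 ln13_12_4_ok) (M (nat_lit 462) (B (L (nat_lit 365) ln13_11_4 ln13_11_4_ok) (M (nat_lit 463) (B (L (nat_lit 464) ln16_14_3 ln16_14_3_ok) (L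 (nat_lit 491) ln11_15_2 ln11_15_2_ok))))))))))) (B (M (nat_lit 493) (B (L (nat_lit 525) ln13_16_7 ln13_16_7_ok) (M (nat_lit 492) (B (L (nat_lit 524) ln13_12_5 ln13_12_5_ok) (M (nat_lit 460) (B (L (nat_lit 365) ln12_15_6 ln12_15_6_ok) (M (nat_lit 494) (B (L (nat_lit 526) ln13_12_4 ln13_12_4_ok) (M (nat_lit 459) (B (L (nat_lit 458) ln10_14_0 ln10_14_0_ok) (L (nat_lit 495) ln15_15_3 ln15_15_3_ok))))))))))) (B (M (nat_lit 493) (B (L (nat_lit 525) ln13_16_7 ln13_16_7_ok) (M (nat_lit 365) (B (M (nat_lit 333) (B (L (nat_lit 301) ln13_9_5 ln13_9_5_ok) (L (nat_lit 460) ln13_10_5 ln13_10_5_ok))) (M (nat_lit 494) (B (L (nat_lit 462) ln13_11_4 ln13_11_4_ok) (L (nat_lit 526) ln13_12_4 ln13_12_4_ok))))))) (B (M (nat_lit 460) (B (M (nat_lit 365) (B (L (nat_lit 333) ln13_10_5 ln13_10_5_ok) (L (nat_lit 492) ln12_15_6 ln12_15_6_ok))) (B (M (nat_lit 492) (B (L (nat_lit 365) ln12_15_6 ln12_15_6_ok) (L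 (nat_lit 524) ln12_16_6 ln12_16_6_ok))) (B (M (nat_lit 395) (B (M (nat_lit 492) (B (L (nat_lit 363) ln12_15_7 ln12_15_7_ok) (L (nat_lit 524) ln12_16_6 ln12_16_6_ok))) (M (nat_lit 426) (B (M (nat_lit 394) (B (L (nat_lit 393) ln9_12_0 ln9_12_0_ok) (L (nat_lit 425) ln13_12_1 ln13_12_1_ok))) (M (nat_lit 427) (B (L (nat_lit 398) ln14_12_1 ln14_12_1_ok) (L (nat_lit 462) ln10_13_0 ln10_13_0_ok))))))) (M (nat_lit 462) (B (M (nat_lit 365) (B (L (nat_lit 333) ln13_10_5 ln13_10_5_ok) (L (nat_lit 494) ln13_11_4 ln13_11_4_ok))) (M (nat_lit 463) (B (L (nat_lit 427) ln15_14_3 ln15_14_3_ok) (L (nat_lit 464) ln16_14_3 ln16_14_3_ok))))))))) (M (nat_lit 493) (B (L (nat_lit 525) ln13_16_7 ln13_16_7_ok) (M (nat_lit 395) (B (M (nat_lit 492) (B (L (nat_lit 524) ln13_12_5 ln13_12_5_ok) (M (nat_lit 460) (B (L (nat_lit 363) ln12_15_7 ln12_15_7_ok) (L (nat_lit 365) ln12_15_6 ln12_15_6_ok))))) (M (nat_lit 426)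 (B (M (nat_lit 394) (B (L (nat_lit 393) ln9_12_0 ln9_12_0_ok) (L (nat_lit 425) ln13_12_1 ln13_12_1_ok))) (M (nat_lit 427) (B (L (nat_lit 398) ln14_12_1 ln14_12_1_ok) (L (nat_lit 462) ln10_13_0 ln10_13_0_ok)))))))))))))))) (B (M (nat_lit 461) (B (M (nat_lit 493) (B (L (nat_lit 525) ln13_16_7 ln13_16_7_ok) (M (nat_lit 398) (B (L (nat_lit 366) ln13_15_6 ln13_15_6_ok) (M (nat_lit 399) (B (L (nat_lit 427) ln15_12_1 ln15_12_1_ok) (L (nat_lit 400) ln16_12_1 ln16_12_1_ok))))))) (B (M (nat_lit 493) (B (L (nat_lit 525) ln13_16_7 ln13_16_7_ok) (M (nat_lit 365) (B (M (nat_lit 333) (B (L (nat_lit 301) ln13_9_5 ln13_9_5_ok) (L (nat_lit 460) ln13_10_5 ln13_10_5_ok))) (M (nat_lit 494) (B (L (nat_lit 462) ln13_11_4 ln13_11_4_ok) (L (nat_lit 526) ln13_12_4 ln13_12_4_ok))))))) (M (nat_lit 365) (B (M (nat_lit 333) (B (L (nat_lit 301) ln13_9_5 ln13_9_5_ok) (L (nat_lit 460) ln13_10_5 ln13_10_5_ok))) (B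 (M (nat_lit 460) (B (L (nat_lit 333) ln13_10_5 ln13_10_5_ok) (L (nat_lit 492) ln12_15_6 ln12_15_6_ok))) (B (M (nat_lit 460) (B (L (nat_lit 492) ln12_15_6 ln12_15_6_ok) (M (nat_lit 462) (B (L (nat_lit 494) ln13_11_4 ln13_11_4_ok) (M (nat_lit 427) (B (L (nat_lit 426) ln10_13_0 ln10_13_0_ok) (L (nat_lit 463) ln15_14_3 ln15_14_3_ok))))))) (M (nat_lit 333) (B (L (nat_lit 301) ln13_9_5 ln13_9_5_ok) (M (nat_lit 334) (B (L (nat_lit 302) ln13_13_6 ln13_13_6_ok) (L (nat_lit 366) ln13_14_6 ln13_14_6_ok)))))))))))) (B (M (nat_lit 365) (B (M (nat_lit 333) (B (L (nat_lit 301) ln13_9_5 ln13_9_5_ok) (L (nat_lit 460) ln13_10_5 ln13_10_5_ok))) (B (M (nat_lit 460) (B (L (nat_lit 333) ln13_10_5 ln13_10_5_ok) (L (nat_lit 492) ln12_15_6 ln12_15_6_ok))) (B (M (nat_lit 461) (B (M (nat_lit 492) (B (L (nat_lit 460) ln12_15_6 ln12_15_6_ok) (M (nat_lit 493) (B (L (nat_lit 525) ln13_16_7 ln13_16_7_ok) (L (nat_lit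 524) ln13_12_5 ln13_12_5_ok))))) (B (M (nat_lit 493) (B (L (nat_lit 525) ln13_16_7 ln13_16_7_ok) (M (nat_lit 494) (B (L (nat_lit 462) ln13_11_4 ln13_11_4_ok) (L (nat_lit 526) ln13_12_4 ln13_12_4_ok))))) (M (nat_lit 460) (B (L (nat_lit 492) ln12_15_6 ln12_15_6_ok) (M (nat_lit 462) (B (L (nat_lit 494) ln13_11_4 ln13_11_4_ok) (M (nat_lit 427) (B (L (nat_lit 426) ln10_13_0 ln10_13_0_ok) (L (nat_lit 463) ln15_14_3 ln15_14_3_ok)))))))))) (M (nat_lit 461) (B (M (nat_lit 493) (B (L (nat_lit 525) ln13_16_7 ln13_16_7_ok) (M (nat_lit 494) (B (L (nat_lit 462) ln13_11_4 ln13_11_4_ok) (L (nat_lit 526) ln13_12_4 ln13_12_4_ok))))) (M (nat_lit 333) (B (L (nat_lit 301) ln13_9_5 ln13_9_5_ok) (M (nat_lit 334) (B (L (nat_lit 302) ln13_13_6 ln13_13_6_ok) (L (nat_lit 366) ln13_14_6 ln13_14_6_ok))))))))))) (B (M (nat_lit 365) (B (M (nat_lit 333) (B (L (nat_lit 301) ln13_9_5 ln13_9_5_ok) (L (nat_lit 460) ln13_10_5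 ln13_10_5_ok))) (B (M (nat_lit 460) (B (L (nat_lit 333) ln13_10_5 ln13_10_5_ok) (L (nat_lit 492) ln12_15_6 ln12_15_6_ok))) (M (nat_lit 461) (B (M (nat_lit 366) (B (L (nat_lit 334) ln13_14_6 ln13_14_6_ok) (M (nat_lit 493) (B (L (nat_lit 398) ln13_15_6 ln13_15_6_ok) (L (nat_lit 525) ln13_16_7 ln13_16_7_ok))))) (B (M (nat_lit 493) (B (L (nat_lit 525) ln13_16_7 ln13_16_7_ok) (M (nat_lit 494) (B (L (nat_lit 462) ln13_11_4 ln13_11_4_ok) (L (nat_lit 526) ln13_12_4 ln13_12_4_ok))))) (M (nat_lit 366) (B (L (nat_lit 334) ln13_14_6 ln13_14_6_ok) (M (nat_lit 395) (B (L (nat_lit 394) ln10_12_2 ln10_12_2_ok) (M (nat_lit 367) (B (L (nat_lit 368) ln16_11_1 ln16_11_1_ok) (L (nat_lit 398) ln11_12_2 ln11_12_2_ok))))))))))))) (M (nat_lit 398) (B (M (nat_lit 399) (B (L (nat_lit 427) ln15_12_1 ln15_12_1_ok) (L (nat_lit 400) ln16_12_1 ln16_12_1_ok))) (B (M (nat_lit 395) (B (M (nat_lit 426) (B (L (nat_lit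 427) ln14_12_1 ln14_12_1_ok) (M (nat_lit 394) (B (L (nat_lit 393) ln9_12_0 ln9_12_0_ok) (L (nat_lit 425) ln13_12_1 ln13_12_1_ok))))) (B (M (nat_lit 394) (B (M (nat_lit 362) (B (L (nat_lit 361) ln13_12_3 ln13_12_3_ok) (L (nat_lit 363) ln14_12_3 ln14_12_3_ok))) (M (nat_lit 366) (B (L (nat_lit 365) ln10_12_2 ln10_12_2_ok) (L (nat_lit 367) ln11_12_2 ln11_12_2_ok))))) (M (nat_lit 366) (B (L (nat_lit 367) ln11_12_2 ln11_12_2_ok) (M (nat_lit 461) (B (L (nat_lit 493) ln13_15_6 ln13_15_6_ok) (M (nat_lit 334) (B (L (nat_lit 302) ln14_9_5 ln14_9_5_ok) (L (nat_lit 365) ln13_14_6 ln13_14_6_ok)))))))))) (M (nat_lit 395) (B (M (nat_lit 394) (B (L (nat_lit 393) ln9_12_0 ln9_12_0_ok) (M (nat_lit 362) (B (L (nat_lit 361) ln13_12_3 ln13_12_3_ok) (L (nat_lit 363) ln14_12_3 ln14_12_3_ok))))) (M (nat_lit 399) (B (L (nat_lit 400) ln16_12_1 ln16_12_1_ok) (M (nat_lit 367) (B (L (nat_lit 366) ln11_12_2 ln11_12_2_ok)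 (L (nat_lit 368) ln12_12_2 ln12_12_2_ok))))))))))))))))))) (nat_lit 2079502270752001762064242424960807725827516048677469043429686155012882190638009693656033379242457518153052022685796627120027336704) (nat_lit 411887859809226825471423261193574799927313188856584891184722876330809148931876437897046151152769048519730737861168558160677132308403467200328120635738690682880) (nat_lit 411887859809226825471423261193574799927313188856584891184722876330809148931876437897046151152769048519730737861168558160677132308403467200328120635738690682880) (by decide +kernel)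
noncomputable def c41_n2448 : Cert := (M (nat_lit 430) (B (M (nat_lit 395) (B (L (nat_lit 431) ln15_13_3 ln15_13_3_ok) (M (nat_lit 394) (B (L (nat_lit 393) ln9_12_0 ln9_12_0_ok) (L (nat_lit 397) ln10_12_0 ln10_12_0_ok))))) (B (M (nat_lit 395) (B (L (nat_lit 431) ln15_13_3 ln15_13_3_ok) (M (nat_lit 394) (B (L (nat_lit 397) ln10_12_0 ln10_12_0_ok) (L (nat_lit 427) ln14_13_3 ln14_13_3_ok))))) (B (M (nat_lit 431) (B (L (nat_lit 395) ln15_13_3 ln15_13_3_ok) (M (nat_lit 400) (B (L (nat_lit 399) ln12_13_2 ln12_13_2_ok) (M (nat_lit 432) (B (L (nat_lit 397) ln16_13_3 ln16_13_3_ok) (L (nat_lit 401) ln13_13_2 ln13_13_2_ok))))))) (B (M (nat_lit 427) (B (M (nat_lit 398) (B (L (nat_lit 399) ln11_13_2 ln11_13_2_ok) (M (nat_lit 426) (B (L (nat_lit 397) ln10_13_2 ln10_13_2_ok) (M (nat_lit 462) (B (L (nat_lit 461) ln10_13_0 ln10_13_0_ok) (L (nat_lit 463) ln11_13_0 ln11_13_0_ok))))))) (B (M (nat_lit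 431) (B (M (nat_lit 399) (B (L (nat_lit 398) ln11_13_2 ln11_13_2_ok) (L (nat_lit 400) ln12_13_2 ln12_13_2_ok))) (M (nat_lit 463) (B (L (nat_lit 462) ln11_13_0 ln11_13_0_ok) (L (nat_lit 464) ln12_13_0 ln12_13_0_ok))))) (B (M (nat_lit 431) (B (M (nat_lit 463) (B (L (nat_lit 462) ln11_13_0 ln11_13_0_ok) (L (nat_lit 464) ln12_13_0 ln12_13_0_ok))) (M (nat_lit 400) (B (L (nat_lit 399) ln12_13_2 ln12_13_2_ok) (M (nat_lit 432) (B (L (nat_lit 397) ln16_13_3 ln16_13_3_ok) (L (nat_lit 401) ln13_13_2 ln13_13_2_ok))))))) (B (M (nat_lit 426) (B (M (nat_lit 397) (B (L (nat_lit 425) ln9_13_2 ln9_13_2_ok) (L (nat_lit 398) ln10_13_2 ln10_13_2_ok))) (M (nat_lit 462) (B (L (nat_lit 461) ln10_13_0 ln10_13_0_ok) (L (nat_lit 463) ln11_13_0 ln11_13_0_ok))))) (M (nat_lit 431) (B (M (nat_lit 399) (B (L (nat_lit 398) ln11_13_2 ln11_13_2_ok) (L (nat_lit 400) ln12_13_2 ln12_13_2_ok))) (B (M (nat_lit 400) (B (L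 (nat_lit 399) ln12_13_2 ln12_13_2_ok) (M (nat_lit 432) (B (L (nat_lit 397) ln16_13_3 ln16_13_3_ok) (L (nat_lit 401) ln13_13_2 ln13_13_2_ok))))) (M (nat_lit 397) (B (L (nat_lit 432) ln16_13_3 ln16_13_3_ok) (M (nat_lit 426) (B (L (nat_lit 425) ln9_13_2 ln9_13_2_ok) (L (nat_lit 398) ln10_13_2 ln10_13_2_ok))))))))))))) (B (M (nat_lit 395) (B (L (nat_lit 431) ln15_13_3 ln15_13_3_ok) (M (nat_lit 394) (B (L (nat_lit 393) ln9_12_0 ln9_12_0_ok) (L (nat_lit 427) ln14_13_3 ln14_13_3_ok))))) (M (nat_lit 427) (B (M (nat_lit 398) (B (L (nat_lit 399) ln11_13_2 ln11_13_2_ok) (M (nat_lit 426) (B (L (nat_lit 397) ln10_13_2 ln10_13_2_ok) (M (nat_lit 462) (B (L (nat_lit 461) ln10_13_0 ln10_13_0_ok) (L (nat_lit 463) ln11_13_0 ln11_13_0_ok))))))) (B (M (nat_lit 426) (B (M (nat_lit 462) (B (L (nat_lit 461) ln10_13_0 ln10_13_0_ok) (L (nat_lit 463) ln11_13_0 ln11_13_0_ok))) (M (nat_lit 425) (B (M (nat_lit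 395) (B (L (nat_lit 394) ln14_13_3 ln14_13_3_ok) (L (nat_lit 424) ln8_13_2 ln8_13_2_ok))) (M (nat_lit 457) (B (L (nat_lit 456) ln12_13_1 ln12_13_1_ok) (L (nat_lit 458) ln13_13_1 ln13_13_1_ok))))))) (B (M (nat_lit 398) (B (L (nat_lit 399) ln11_13_2 ln11_13_2_ok) (M (nat_lit 397) (B (M (nat_lit 462) (B (L (nat_lit 463) ln11_13_0 ln11_13_0_ok) (M (nat_lit 365) (B (L (nat_lit 333) ln13_10_4 ln13_10_4_ok) (L (nat_lit 494) ln14_15_7 ln14_15_7_ok))))) (M (nat_lit 366) (B (M (nat_lit 395) (B (L (nat_lit 367) ln11_12_2 ln11_12_2_ok) (L (nat_lit 394) ln10_12_0 ln10_12_0_ok))) (M (nat_lit 461) (B (L (nat_lit 334) ln14_10_5 ln14_10_5_ok) (L (nat_lit 493) ln13_15_6 ln13_15_6_ok))))))))) (M (nat_lit 426) (B (M (nat_lit 397) (B (L (nat_lit 425) ln9_13_2 ln9_13_2_ok) (L (nat_lit 398) ln10_13_2 ln10_13_2_ok))) (B (M (nat_lit 425) (B (M (nat_lit 395) (B (L (nat_lit 394) ln14_13_3 ln14_13_3_ok) (L (nat_lit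 424) ln8_13_2 ln8_13_2_ok))) (M (nat_lit 457) (B (L (nat_lit 456) ln12_13_1 ln12_13_1_ok) (L (nat_lit 458) ln13_13_1 ln13_13_1_ok))))) (M (nat_lit 398) (B (L (nat_lit 397) ln10_13_2 ln10_13_2_ok) (L (nat_lit 399) ln11_13_2 ln11_13_2_ok))))))))))))))))
theorem c41_s2494 : Sem (nat_lit 1386334847221798047169638878925036799968406779833514899637066259859226863686603287896039777716422623628704219945445734162783797248) (nat_lit 851234910057585847230823124495188170176009973970512657604400744434412804754368490679198758038923688257046911053254794331092561593333831560188490653603989553152) (nat_lit 851234910057585847230823124495188170176009973970512657604400744434412804754368490679198758038923688257046911053254794331092561593333831560188490653603989553152) :=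
  sem_of_chk (M (nat_lit 428) (B (M (nat_lit 430) (B (M (nat_lit 395) (B (L (nat_lit 431) ln15_13_3 ln15_13_3_ok) (M (nat_lit 394) (B (L (nat_lit 393) ln9_12_0 ln9_12_0_ok) (L (nat_lit 427) ln14_13_3 ln14_13_3_ok))))) (B (M (nat_lit 395) (B (L (nat_lit 431) ln15_13_3 ln15_13_3_ok) (M (nat_lit 394) (B (L (nat_lit 397) ln10_12_0 ln10_12_0_ok) (L (nat_lit 427) ln14_13_3 ln14_13_3_ok))))) (B (M (nat_lit 431) (B (L (nat_lit 395) ln15_13_3 ln15_13_3_ok) (M (nat_lit 400) (B (L (nat_lit 399) ln12_13_2 ln12_13_2_ok) (M (nat_lit 432) (B (L (nat_lit 397) ln16_13_3 ln16_13_3_ok) (L (nat_lit 401) ln13_13_2 ln13_13_2_ok))))))) (B (M (nat_lit 431) (B (M (nat_lit 400) (B (L (nat_lit 399) ln12_13_2 ln12_13_2_ok) (M (nat_lit 432) (B (L (nat_lit 397) ln16_13_3 ln16_13_3_ok) (L (nat_lit 401) ln13_13_2 ln13_13_2_ok))))) (M (nat_lit 427) (B (M (nat_lit 459) (B (L (nat_lit 458) ln14_13_1 ln14_13_1_ok) (L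 (nat_lit 460) ln15_13_1 ln15_13_1_ok))) (M (nat_lit 463) (B (L (nat_lit 462) ln11_13_0 ln11_13_0_ok) (L (nat_lit 464) ln12_13_0 ln12_13_0_ok))))))) (M (nat_lit 427) (B (M (nat_lit 398) (B (L (nat_lit 399) ln11_13_2 ln11_13_2_ok) (M (nat_lit 426) (B (L (nat_lit 397) ln10_13_2 ln10_13_2_ok) (M (nat_lit 462) (B (L (nat_lit 461) ln10_13_0 ln10_13_0_ok) (L (nat_lit 463) ln11_13_0 ln11_13_0_ok))))))) (B (M (nat_lit 426) (B (M (nat_lit 458) (B (L (nat_lit 457) ln13_13_1 ln13_13_1_ok) (L (nat_lit 459) ln14_13_1 ln14_13_1_ok))) (M (nat_lit 462) (B (L (nat_lit 461) ln10_13_0 ln10_13_0_ok) (L (nat_lit 463) ln11_13_0 ln11_13_0_ok))))) (B (M (nat_lit 398) (B (L (nat_lit 399) ln11_13_2 ln11_13_2_ok) (M (nat_lit 397) (B (M (nat_lit 462) (B (L (nat_lit 463) ln11_13_0 ln11_13_0_ok) (M (nat_lit 494) (B (L (nat_lit 365) ln14_15_7 ln14_15_7_ok) (L (nat_lit 526) ln14_16_7 ln14_16_7_ok))))) (M (nat_lit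 366) (B (M (nat_lit 395) (B (L (nat_lit 367) ln11_12_2 ln11_12_2_ok) (L (nat_lit 394) ln10_12_0 ln10_12_0_ok))) (M (nat_lit 461) (B (L (nat_lit 334) ln14_10_5 ln14_10_5_ok) (L (nat_lit 493) ln13_15_6 ln13_15_6_ok))))))))) (M (nat_lit 426) (B (M (nat_lit 398) (B (L (nat_lit 397) ln10_13_2 ln10_13_2_ok) (L (nat_lit 399) ln11_13_2 ln11_13_2_ok))) (M (nat_lit 458) (B (L (nat_lit 457) ln13_13_1 ln13_13_1_ok) (L (nat_lit 459) ln14_13_1 ln14_13_1_ok)))))))))))))) (B (M (nat_lit 430) (B (M (nat_lit 395) (B (L (nat_lit 431) ln15_13_3 ln15_13_3_ok) (M (nat_lit 394) (B (L (nat_lit 397) ln10_12_0 ln10_12_0_ok) (L (nat_lit 427) ln14_13_3 ln14_13_3_ok))))) (B (M (nat_lit 431) (B (L (nat_lit 395) ln15_13_3 ln15_13_3_ok) (M (nat_lit 400) (B (L (nat_lit 399) ln12_13_2 ln12_13_2_ok) (M (nat_lit 432) (B (L (nat_lit 397) ln16_13_3 ln16_13_3_ok) (L (nat_lit 401) ln13_13_2 ln13_13_2_ok))))))) (B (M (nat_lit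 431) (B (M (nat_lit 400) (B (L (nat_lit 399) ln12_13_2 ln12_13_2_ok) (M (nat_lit 432) (B (L (nat_lit 397) ln16_13_3 ln16_13_3_ok) (L (nat_lit 401) ln13_13_2 ln13_13_2_ok))))) (M (nat_lit 427) (B (M (nat_lit 459) (B (L (nat_lit 458) ln14_13_1 ln14_13_1_ok) (L (nat_lit 460) ln15_13_1 ln15_13_1_ok))) (M (nat_lit 463) (B (L (nat_lit 462) ln11_13_0 ln11_13_0_ok) (L (nat_lit 464) ln12_13_0 ln12_13_0_ok))))))) (B (M (nat_lit 395) (B (L (nat_lit 431) ln15_13_3 ln15_13_3_ok) (M (nat_lit 394) (B (L (nat_lit 393) ln9_12_0 ln9_12_0_ok) (L (nat_lit 427) ln14_13_3 ln14_13_3_ok))))) (M (nat_lit 427) (B (M (nat_lit 398) (B (L (nat_lit 399) ln11_13_2 ln11_13_2_ok) (M (nat_lit 426) (B (L (nat_lit 397) ln10_13_2 ln10_13_2_ok) (M (nat_lit 462) (B (L (nat_lit 461) ln10_13_0 ln10_13_0_ok) (L (nat_lit 463) ln11_13_0 ln11_13_0_ok))))))) (B (M (nat_lit 426) (B (M (nat_lit 458) (B (L (nat_lit 457) ln13_13_1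 ln13_13_1_ok) (L (nat_lit 459) ln14_13_1 ln14_13_1_ok))) (M (nat_lit 462) (B (L (nat_lit 461) ln10_13_0 ln10_13_0_ok) (L (nat_lit 463) ln11_13_0 ln11_13_0_ok))))) (B (M (nat_lit 397) (B (M (nat_lit 398) (B (L (nat_lit 399) ln15_12_1 ln15_12_1_ok) (M (nat_lit 462) (B (L (nat_lit 463) ln11_13_0 ln11_13_0_ok) (M (nat_lit 494) (B (L (nat_lit 365) ln14_15_7 ln14_15_7_ok) (L (nat_lit 526) ln14_16_7 ln14_16_7_ok))))))) (B (M (nat_lit 395) (B (L (nat_lit 394) ln10_12_0 ln10_12_0_ok) (M (nat_lit 363) (B (M (nat_lit 331) (B (L (nat_lit 299) ln11_9_4 ln11_9_4_ok) (L (nat_lit 460) ln11_10_4 ln11_10_4_ok))) (M (nat_lit 398) (B (L (nat_lit 362) ln14_12_3 ln14_12_3_ok) (L (nat_lit 399) ln15_12_1 ln15_12_1_ok))))))) (M (nat_lit 462) (B (L (nat_lit 463) ln11_13_0 ln11_13_0_ok) (M (nat_lit 365) (B (L (nat_lit 333) ln13_10_4 ln13_10_4_ok) (M (nat_lit 494) (B (L (nat_lit 461) ln13_11_4 ln13_11_4_ok) (L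 (nat_lit 526) ln14_16_7 ln14_16_7_ok)))))))))) (M (nat_lit 426) (B (M (nat_lit 398) (B (L (nat_lit 397) ln10_13_2 ln10_13_2_ok) (L (nat_lit 399) ln11_13_2 ln11_13_2_ok))) (M (nat_lit 458) (B (L (nat_lit 457) ln13_13_1 ln13_13_1_ok) (L (nat_lit 459) ln14_13_1 ln14_13_1_ok)))))))))))))) (B (M (nat_lit 430) (B (M (nat_lit 395) (B (L (nat_lit 431) ln15_13_3 ln15_13_3_ok) (M (nat_lit 394) (B (L (nat_lit 393) ln9_12_0 ln9_12_0_ok) (L (nat_lit 427) ln14_13_3 ln14_13_3_ok))))) (B (M (nat_lit 395) (B (L (nat_lit 431) ln15_13_3 ln15_13_3_ok) (M (nat_lit 394) (B (L (nat_lit 397) ln10_12_0 ln10_12_0_ok) (L (nat_lit 427) ln14_13_3 ln14_13_3_ok))))) (B (M (nat_lit 431) (B (L (nat_lit 395) ln15_13_3 ln15_13_3_ok) (M (nat_lit 400) (B (L (nat_lit 399) ln12_13_2 ln12_13_2_ok) (M (nat_lit 432) (B (L (nat_lit 397) ln16_13_3 ln16_13_3_ok) (L (nat_lit 401) ln13_13_2 ln13_13_2_ok))))))) (B (M (nat_lit 431)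 (B (M (nat_lit 400) (B (L (nat_lit 399) ln12_13_2 ln12_13_2_ok) (M (nat_lit 432) (B (L (nat_lit 397) ln16_13_3 ln16_13_3_ok) (L (nat_lit 401) ln13_13_2 ln13_13_2_ok))))) (M (nat_lit 427) (B (M (nat_lit 459) (B (L (nat_lit 458) ln14_13_1 ln14_13_1_ok) (L (nat_lit 460) ln15_13_1 ln15_13_1_ok))) (M (nat_lit 463) (B (L (nat_lit 462) ln11_13_0 ln11_13_0_ok) (L (nat_lit 464) ln12_13_0 ln12_13_0_ok))))))) (M (nat_lit 427) (B (M (nat_lit 398) (B (L (nat_lit 399) ln11_13_2 ln11_13_2_ok) (M (nat_lit 426) (B (L (nat_lit 397) ln10_13_2 ln10_13_2_ok) (M (nat_lit 462) (B (L (nat_lit 461) ln10_13_0 ln10_13_0_ok) (L (nat_lit 463) ln11_13_0 ln11_13_0_ok))))))) (B (M (nat_lit 426) (B (M (nat_lit 458) (B (L (nat_lit 457) ln13_13_1 ln13_13_1_ok) (L (nat_lit 459) ln14_13_1 ln14_13_1_ok))) (M (nat_lit 462) (B (L (nat_lit 461) ln10_13_0 ln10_13_0_ok) (L (nat_lit 463) ln11_13_0 ln11_13_0_ok))))) (B (M (nat_lit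 398) (B (L (nat_lit 399) ln11_13_2 ln11_13_2_ok) (M (nat_lit 366) (B (M (nat_lit 462) (B (L (nat_lit 463) ln11_13_0 ln11_13_0_ok) (M (nat_lit 461) (B (L (nat_lit 334) ln14_10_5 ln14_10_5_ok) (L (nat_lit 493) ln14_11_5 ln14_11_5_ok))))) (B (M (nat_lit 367) (B (M (nat_lit 462) (B (L (nat_lit 335) ln14_14_6 ln14_14_6_ok) (L (nat_lit 463) ln11_13_0 ln11_13_0_ok))) (M (nat_lit 395) (B (L (nat_lit 397) ln11_12_2 ln11_12_2_ok) (L (nat_lit 394) ln14_13_3 ln14_13_3_ok))))) (M (nat_lit 461) (B (L (nat_lit 334) ln14_10_5 ln14_10_5_ok) (M (nat_lit 493) (B (L (nat_lit 397) ln13_15_6 ln13_15_6_ok) (L (nat_lit 525) ln13_16_7 ln13_16_7_ok)))))))))) (M (nat_lit 426) (B (M (nat_lit 398) (B (L (nat_lit 397) ln10_13_2 ln10_13_2_ok) (L (nat_lit 399) ln11_13_2 ln11_13_2_ok))) (M (nat_lit 458) (B (L (nat_lit 457) ln13_13_1 ln13_13_1_ok) (L (nat_lit 459) ln14_13_1 ln14_13_1_ok)))))))))))))) (B (M (nat_lit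 430) (B (M (nat_lit 395) (B (L (nat_lit 431) ln15_13_3 ln15_13_3_ok) (M (nat_lit 394) (B (L (nat_lit 397) ln10_12_0 ln10_12_0_ok) (L (nat_lit 427) ln14_13_3 ln14_13_3_ok))))) (B (M (nat_lit 431) (B (L (nat_lit 395) ln15_13_3 ln15_13_3_ok) (M (nat_lit 400) (B (L (nat_lit 399) ln12_13_2 ln12_13_2_ok) (M (nat_lit 432) (B (L (nat_lit 397) ln16_13_3 ln16_13_3_ok) (L (nat_lit 401) ln13_13_2 ln13_13_2_ok))))))) (B (M (nat_lit 431) (B (M (nat_lit 400) (B (L (nat_lit 399) ln12_13_2 ln12_13_2_ok) (M (nat_lit 432) (B (L (nat_lit 397) ln16_13_3 ln16_13_3_ok) (L (nat_lit 401) ln13_13_2 ln13_13_2_ok))))) (M (nat_lit 427) (B (M (nat_lit 459) (B (L (nat_lit 458) ln14_13_1 ln14_13_1_ok) (L (nat_lit 460) ln15_13_1 ln15_13_1_ok))) (M (nat_lit 463) (B (L (nat_lit 462) ln11_13_0 ln11_13_0_ok) (L (nat_lit 464) ln12_13_0 ln12_13_0_ok))))))) (B (M (nat_lit 431) (B (L (nat_lit 395) ln15_13_3 ln15_13_3_ok)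 (M (nat_lit 427) (B (M (nat_lit 459) (B (L (nat_lit 458) ln14_13_1 ln14_13_1_ok) (L (nat_lit 460) ln15_13_1 ln15_13_1_ok))) (M (nat_lit 463) (B (L (nat_lit 462) ln11_13_0 ln11_13_0_ok) (L (nat_lit 464) ln12_13_0 ln12_13_0_ok))))))) (M (nat_lit 427) (B (M (nat_lit 398) (B (L (nat_lit 399) ln11_13_2 ln11_13_2_ok) (M (nat_lit 426) (B (L (nat_lit 397) ln10_13_2 ln10_13_2_ok) (M (nat_lit 462) (B (L (nat_lit 461) ln10_13_0 ln10_13_0_ok) (L (nat_lit 463) ln11_13_0 ln11_13_0_ok))))))) (B (M (nat_lit 426) (B (M (nat_lit 458) (B (L (nat_lit 457) ln13_13_1 ln13_13_1_ok) (L (nat_lit 459) ln14_13_1 ln14_13_1_ok))) (M (nat_lit 462) (B (L (nat_lit 461) ln10_13_0 ln10_13_0_ok) (L (nat_lit 463) ln11_13_0 ln11_13_0_ok))))) (B (M (nat_lit 398) (B (L (nat_lit 399) ln11_13_2 ln11_13_2_ok) (M (nat_lit 397) (B (M (nat_lit 462) (B (L (nat_lit 463) ln11_13_0 ln11_13_0_ok) (M (nat_lit 494) (B (L (nat_lit 365)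 ln14_15_7 ln14_15_7_ok) (L (nat_lit 526) ln14_16_7 ln14_16_7_ok))))) (M (nat_lit 366) (B (M (nat_lit 395) (B (L (nat_lit 367) ln11_12_2 ln11_12_2_ok) (L (nat_lit 394) ln10_12_0 ln10_12_0_ok))) (M (nat_lit 461) (B (L (nat_lit 334) ln14_10_5 ln14_10_5_ok) (L (nat_lit 493) ln13_15_6 ln13_15_6_ok))))))))) (M (nat_lit 426) (B (M (nat_lit 398) (B (L (nat_lit 397) ln10_13_2 ln10_13_2_ok) (L (nat_lit 399) ln11_13_2 ln11_13_2_ok))) (M (nat_lit 458) (B (L (nat_lit 457) ln13_13_1 ln13_13_1_ok) (L (nat_lit 459) ln14_13_1 ln14_13_1_ok)))))))))))))) (B c41_n1817 (B (K (nat_lit 2079502270752001762064242424960807725827516048677469043429686155012882190638009693656033379242457518153052022685796627120027336704) (nat_lit 823775719407473396824138722449902164865384940746544139634436356928084800566242136845109635280005491331605117278148142198944025002036211884310282487574195863552) (nat_lit 823775719407473396824138722449902164865384940746544139634436356928084800566242136845109635280005491331605117278148142198944025002036211884310282487574195863552)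 c41_s2000) (B (M (nat_lit 430) (B (M (nat_lit 395) (B (L (nat_lit 431) ln15_13_3 ln15_13_3_ok) (M (nat_lit 394) (B (L (nat_lit 393) ln9_12_0 ln9_12_0_ok) (L (nat_lit 427) ln14_13_3 ln14_13_3_ok))))) (B (M (nat_lit 431) (B (L (nat_lit 395) ln15_13_3 ln15_13_3_ok) (M (nat_lit 427) (B (M (nat_lit 399) (B (L (nat_lit 398) ln11_13_2 ln11_13_2_ok) (L (nat_lit 400) ln12_13_2 ln12_13_2_ok))) (M (nat_lit 459) (B (L (nat_lit 458) ln14_13_1 ln14_13_1_ok) (L (nat_lit 460) ln15_13_1 ln15_13_1_ok))))))) (B (M (nat_lit 427) (B (M (nat_lit 426) (B (M (nat_lit 458) (B (L (nat_lit 457) ln13_13_1 ln13_13_1_ok) (L (nat_lit 459) ln14_13_1 ln14_13_1_ok))) (M (nat_lit 462) (B (L (nat_lit 461) ln10_13_0 ln10_13_0_ok) (L (nat_lit 463) ln11_13_0 ln11_13_0_ok))))) (B (M (nat_lit 431) (B (M (nat_lit 399) (B (L (nat_lit 398) ln11_13_2 ln11_13_2_ok) (L (nat_lit 400) ln12_13_2 ln12_13_2_ok))) (M (nat_lit 463) (B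 (L (nat_lit 462) ln11_13_0 ln11_13_0_ok) (L (nat_lit 464) ln12_13_0 ln12_13_0_ok))))) (M (nat_lit 431) (B (M (nat_lit 399) (B (L (nat_lit 398) ln11_13_2 ln11_13_2_ok) (L (nat_lit 400) ln12_13_2 ln12_13_2_ok))) (M (nat_lit 459) (B (L (nat_lit 458) ln14_13_1 ln14_13_1_ok) (L (nat_lit 460) ln15_13_1 ln15_13_1_ok)))))))) (B (M (nat_lit 431) (B (L (nat_lit 395) ln15_13_3 ln15_13_3_ok) (M (nat_lit 432) (B (M (nat_lit 400) (B (L (nat_lit 399) ln12_13_2 ln12_13_2_ok) (L (nat_lit 401) ln13_13_2 ln13_13_2_ok))) (M (nat_lit 460) (B (L (nat_lit 459) ln15_13_1 ln15_13_1_ok) (L (nat_lit 461) ln16_13_1 ln16_13_1_ok))))))) (M (nat_lit 427) (B (M (nat_lit 426) (B (M (nat_lit 458) (B (L (nat_lit 457) ln13_13_1 ln13_13_1_ok) (L (nat_lit 459) ln14_13_1 ln14_13_1_ok))) (M (nat_lit 462) (B (L (nat_lit 461) ln10_13_0 ln10_13_0_ok) (L (nat_lit 463) ln11_13_0 ln11_13_0_ok))))) (B (M (nat_lit 395) (B (L (nat_lit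 394) ln14_13_3 ln14_13_3_ok) (M (nat_lit 459) (B (L (nat_lit 458) ln14_13_1 ln14_13_1_ok) (M (nat_lit 363) (B (M (nat_lit 331) (B (L (nat_lit 299) ln11_9_4 ln11_9_4_ok) (L (nat_lit 460) ln11_10_4 ln11_10_4_ok))) (B (M (nat_lit 460) (B (L (nat_lit 331) ln11_10_4 ln11_10_4_ok) (L (nat_lit 492) ln12_15_7 ln12_15_7_ok))) (B (M (nat_lit 492) (B (L (nat_lit 460) ln12_15_7 ln12_15_7_ok) (M (nat_lit 491) (B (L (nat_lit 524) ln11_12_4 ln11_12_4_ok) (L (nat_lit 523) ln11_16_6 ln11_16_6_ok))))) (M (nat_lit 331) (B (L (nat_lit 299) ln11_9_4 ln11_9_4_ok) (M (nat_lit 330) (B (L (nat_lit 298) ln11_13_7 ln11_13_7_ok) (L (nat_lit 362) ln11_14_7 ln11_14_7_ok))))))))))))) (M (nat_lit 398) (B (L (nat_lit 399) ln11_13_2 ln11_13_2_ok) (M (nat_lit 462) (B (L (nat_lit 463) ln11_13_0 ln11_13_0_ok) (M (nat_lit 461) (B (L (nat_lit 426) ln10_13_0 ln10_13_0_ok) (M (nat_lit 366) (B (L (nat_lit 334) ln14_10_5 ln14_10_5_ok)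 (L (nat_lit 493) ln14_11_5 ln14_11_5_ok))))))))))))))))) (B (M (nat_lit 430) (B (M (nat_lit 395) (B (L (nat_lit 431) ln15_13_3 ln15_13_3_ok) (M (nat_lit 394) (B (L (nat_lit 393) ln9_12_0 ln9_12_0_ok) (L (nat_lit 427) ln14_13_3 ln14_13_3_ok))))) (B (M (nat_lit 395) (B (L (nat_lit 431) ln15_13_3 ln15_13_3_ok) (M (nat_lit 394) (B (L (nat_lit 397) ln10_12_0 ln10_12_0_ok) (L (nat_lit 427) ln14_13_3 ln14_13_3_ok))))) (B (M (nat_lit 431) (B (L (nat_lit 395) ln15_13_3 ln15_13_3_ok) (M (nat_lit 400) (B (L (nat_lit 399) ln12_13_2 ln12_13_2_ok) (M (nat_lit 432) (B (L (nat_lit 397) ln16_13_3 ln16_13_3_ok) (L (nat_lit 401) ln13_13_2 ln13_13_2_ok))))))) (B (M (nat_lit 431) (B (M (nat_lit 400) (B (L (nat_lit 399) ln12_13_2 ln12_13_2_ok) (M (nat_lit 432) (B (L (nat_lit 397) ln16_13_3 ln16_13_3_ok) (L (nat_lit 401) ln13_13_2 ln13_13_2_ok))))) (M (nat_lit 427) (B (M (nat_lit 459) (B (L (nat_lit 458)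 ln14_13_1 ln14_13_1_ok) (L (nat_lit 460) ln15_13_1 ln15_13_1_ok))) (M (nat_lit 463) (B (L (nat_lit 462) ln11_13_0 ln11_13_0_ok) (L (nat_lit 464) ln12_13_0 ln12_13_0_ok))))))) (M (nat_lit 395) (B (M (nat_lit 394) (B (L (nat_lit 393) ln9_12_0 ln9_12_0_ok) (L (nat_lit 397) ln10_12_0 ln10_12_0_ok))) (B (M (nat_lit 394) (B (L (nat_lit 397) ln10_12_0 ln10_12_0_ok) (L (nat_lit 427) ln14_13_3 ln14_13_3_ok))) (B (M (nat_lit 427) (B (M (nat_lit 462) (B (L (nat_lit 463) ln11_13_0 ln11_13_0_ok) (M (nat_lit 426) (B (L (nat_lit 461) ln10_13_0 ln10_13_0_ok) (M (nat_lit 458) (B (L (nat_lit 457) ln13_13_1 ln13_13_1_ok) (L (nat_lit 459) ln14_13_1 ln14_13_1_ok))))))) (B (M (nat_lit 459) (B (L (nat_lit 458) ln14_13_1 ln14_13_1_ok) (M (nat_lit 363) (B (M (nat_lit 331) (B (L (nat_lit 299) ln11_9_4 ln11_9_4_ok) (L (nat_lit 460) ln11_10_4 ln11_10_4_ok))) (B (M (nat_lit 460) (B (L (nat_lit 331) ln11_10_4 ln11_10_4_ok)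 (L (nat_lit 492) ln12_15_7 ln12_15_7_ok))) (B (M (nat_lit 492) (B (L (nat_lit 460) ln12_15_7 ln12_15_7_ok) (M (nat_lit 491) (B (L (nat_lit 524) ln11_12_4 ln11_12_4_ok) (L (nat_lit 523) ln11_16_6 ln11_16_6_ok))))) (M (nat_lit 331) (B (L (nat_lit 299) ln11_9_4 ln11_9_4_ok) (M (nat_lit 330) (B (L (nat_lit 298) ln11_13_7 ln11_13_7_ok) (L (nat_lit 362) ln11_14_7 ln11_14_7_ok))))))))))) (M (nat_lit 426) (B (M (nat_lit 425) (B (L (nat_lit 424) ln8_13_2 ln8_13_2_ok) (L (nat_lit 397) ln9_13_2 ln9_13_2_ok))) (M (nat_lit 462) (B (L (nat_lit 461) ln10_13_0 ln10_13_0_ok) (L (nat_lit 463) ln11_13_0 ln11_13_0_ok)))))))) (M (nat_lit 394) (B (L (nat_lit 393) ln9_12_0 ln9_12_0_ok) (L (nat_lit 427) ln14_13_3 ln14_13_3_ok)))))))))))) (B c41_n2109 (B c41_n2162 (B (K (nat_lit 2079502270752001762064242424960807725827516048677469043429686155012882190638009693656033379242457518153052022685796627120027336704)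 (nat_lit 851234910057585847229520629499907430739891316252995241929076312851027206020544119131764350163740586727483263296577533265384484875579589124905867406374651035648) (nat_lit 851234910057585847229520629499907430739891316252995241929076312851027206020544119131764350163740586727483263296577533265384484875579589124905867406374651035648) c41_s2327) (B (K (nat_lit 2079502270752001762064242424960807725827516048677469043429686155012882190638009693656033379242457518153052022685796627120027336704) (nat_lit 411887859809226825471423261193574799927313188856584891184722876330809148931876437897046151152769048519730737861168558160677132308403467200328120635738690682880) (nat_lit 411887859809226825471423261193574799927313188856584891184722876330809148931876437897046151152769048519730737861168558160677132308403467200328120635738690682880) c41_s2427) (B c41_n2448 (B (M (nat_lit 430) (B (M (nat_lit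 395) (B (L (nat_lit 431) ln15_13_3 ln15_13_3_ok) (M (nat_lit 394) (B (L (nat_lit 393) ln9_12_0 ln9_12_0_ok) (L (nat_lit 427) ln14_13_3 ln14_13_3_ok))))) (B (M (nat_lit 395) (B (L (nat_lit 431) ln15_13_3 ln15_13_3_ok) (M (nat_lit 394) (B (L (nat_lit 397) ln10_12_0 ln10_12_0_ok) (L (nat_lit 427) ln14_13_3 ln14_13_3_ok))))) (B (M (nat_lit 431) (B (L (nat_lit 395) ln15_13_3 ln15_13_3_ok) (M (nat_lit 400) (B (L (nat_lit 399) ln12_13_2 ln12_13_2_ok) (M (nat_lit 432) (B (L (nat_lit 397) ln16_13_3 ln16_13_3_ok) (L (nat_lit 401) ln13_13_2 ln13_13_2_ok))))))) (B (M (nat_lit 431) (B (M (nat_lit 400) (B (L (nat_lit 399) ln12_13_2 ln12_13_2_ok) (M (nat_lit 432) (B (L (nat_lit 397) ln16_13_3 ln16_13_3_ok) (L (nat_lit 401) ln13_13_2 ln13_13_2_ok))))) (M (nat_lit 427) (B (M (nat_lit 459) (B (L (nat_lit 458) ln14_13_1 ln14_13_1_ok) (L (nat_lit 460) ln15_13_1 ln15_13_1_ok))) (M (nat_lit 463) (B (L (nat_lit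 462) ln11_13_0 ln11_13_0_ok) (L (nat_lit 464) ln12_13_0 ln12_13_0_ok))))))) (M (nat_lit 427) (B (M (nat_lit 426) (B (M (nat_lit 398) (B (L (nat_lit 397) ln10_13_2 ln10_13_2_ok) (L (nat_lit 399) ln11_13_2 ln11_13_2_ok))) (M (nat_lit 458) (B (L (nat_lit 457) ln13_13_1 ln13_13_1_ok) (L (nat_lit 459) ln14_13_1 ln14_13_1_ok))))) (B (M (nat_lit 426) (B (M (nat_lit 394) (B (L (nat_lit 393) ln13_13_3 ln13_13_3_ok) (L (nat_lit 395) ln14_13_3 ln14_13_3_ok))) (M (nat_lit 458) (B (L (nat_lit 457) ln13_13_1 ln13_13_1_ok) (L (nat_lit 459) ln14_13_1 ln14_13_1_ok))))) (B (M (nat_lit 395) (B (L (nat_lit 394) ln14_13_3 ln14_13_3_ok) (M (nat_lit 363) (B (M (nat_lit 460) (B (L (nat_lit 331) ln11_10_4 ln11_10_4_ok) (L (nat_lit 492) ln12_15_7 ln12_15_7_ok))) (M (nat_lit 362) (B (M (nat_lit 459) (B (L (nat_lit 330) ln11_14_7 ln11_14_7_ok) (L (nat_lit 458) ln14_13_1 ln14_13_1_ok))) (M (nat_lit 398) (B (L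 (nat_lit 397) ln14_12_3 ln14_12_3_ok) (L (nat_lit 399) ln11_13_2 ln11_13_2_ok))))))))) (M (nat_lit 426) (B (M (nat_lit 394) (B (L (nat_lit 393) ln13_13_3 ln13_13_3_ok) (L (nat_lit 395) ln14_13_3 ln14_13_3_ok))) (M (nat_lit 397) (B (L (nat_lit 425) ln9_13_2 ln9_13_2_ok) (L (nat_lit 398) ln10_13_2 ln10_13_2_ok)))))))))))))) (M (nat_lit 430) (B (M (nat_lit 395) (B (L (nat_lit 431) ln15_13_3 ln15_13_3_ok) (M (nat_lit 394) (B (L (nat_lit 397) ln10_12_0 ln10_12_0_ok) (L (nat_lit 427) ln14_13_3 ln14_13_3_ok))))) (B (M (nat_lit 431) (B (L (nat_lit 395) ln15_13_3 ln15_13_3_ok) (M (nat_lit 400) (B (L (nat_lit 399) ln12_13_2 ln12_13_2_ok) (M (nat_lit 432) (B (L (nat_lit 397) ln16_13_3 ln16_13_3_ok) (L (nat_lit 401) ln13_13_2 ln13_13_2_ok))))))) (B (M (nat_lit 431) (B (M (nat_lit 460) (B (L (nat_lit 459) ln15_13_1 ln15_13_1_ok) (M (nat_lit 432) (B (L (nat_lit 397) ln16_13_3 ln16_13_3_ok) (L (nat_lit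 461) ln16_13_1 ln16_13_1_ok))))) (B (M (nat_lit 427) (B (M (nat_lit 399) (B (L (nat_lit 398) ln11_13_2 ln11_13_2_ok) (L (nat_lit 400) ln12_13_2 ln12_13_2_ok))) (M (nat_lit 459) (B (L (nat_lit 458) ln14_13_1 ln14_13_1_ok) (L (nat_lit 460) ln15_13_1 ln15_13_1_ok))))) (M (nat_lit 400) (B (L (nat_lit 399) ln12_13_2 ln12_13_2_ok) (M (nat_lit 432) (B (L (nat_lit 397) ln16_13_3 ln16_13_3_ok) (L (nat_lit 401) ln13_13_2 ln13_13_2_ok)))))))) (B (M (nat_lit 395) (B (L (nat_lit 431) ln15_13_3 ln15_13_3_ok) (M (nat_lit 394) (B (L (nat_lit 393) ln9_12_0 ln9_12_0_ok) (L (nat_lit 427) ln14_13_3 ln14_13_3_ok))))) (M (nat_lit 395) (B (M (nat_lit 394) (B (L (nat_lit 393) ln9_12_0 ln9_12_0_ok) (L (nat_lit 397) ln10_12_0 ln10_12_0_ok))) (B (M (nat_lit 394) (B (L (nat_lit 397) ln10_12_0 ln10_12_0_ok) (L (nat_lit 427) ln14_13_3 ln14_13_3_ok))) (B (M (nat_lit 427) (B (M (nat_lit 398) (B (L (nat_lit 399) ln11_13_2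 ln11_13_2_ok) (M (nat_lit 426) (B (L (nat_lit 397) ln14_12_1 ln14_12_1_ok) (M (nat_lit 458) (B (L (nat_lit 457) ln13_13_1 ln13_13_1_ok) (L (nat_lit 459) ln14_13_1 ln14_13_1_ok))))))) (B (M (nat_lit 460) (B (M (nat_lit 492) (B (L (nat_lit 363) ln12_15_7 ln12_15_7_ok) (L (nat_lit 524) ln12_16_7 ln12_16_7_ok))) (M (nat_lit 426) (B (M (nat_lit 425) (B (L (nat_lit 424) ln8_13_2 ln8_13_2_ok) (L (nat_lit 461) ln9_13_0 ln9_13_0_ok))) (M (nat_lit 458) (B (L (nat_lit 457) ln13_13_1 ln13_13_1_ok) (L (nat_lit 459) ln14_13_1 ln14_13_1_ok))))))) (B (M (nat_lit 363) (B (M (nat_lit 460) (B (L (nat_lit 331) ln11_10_4 ln11_10_4_ok) (L (nat_lit 492) ln12_15_7 ln12_15_7_ok))) (M (nat_lit 362) (B (M (nat_lit 459) (B (L (nat_lit 330) ln11_14_7 ln11_14_7_ok) (L (nat_lit 458) ln14_13_1 ln14_13_1_ok))) (M (nat_lit 398) (B (L (nat_lit 397) ln14_12_3 ln14_12_3_ok) (L (nat_lit 399) ln11_13_2 ln11_13_2_ok)))))))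 (M (nat_lit 398) (B (L (nat_lit 399) ln11_13_2 ln11_13_2_ok) (M (nat_lit 363) (B (M (nat_lit 331) (B (L (nat_lit 299) ln11_9_4 ln11_9_4_ok) (L (nat_lit 460) ln11_10_4 ln11_10_4_ok))) (M (nat_lit 397) (B (L (nat_lit 362) ln14_12_3 ln14_12_3_ok) (L (nat_lit 426) ln14_12_1 ln14_12_1_ok))))))))))) (M (nat_lit 394) (B (L (nat_lit 393) ln9_12_0 ln9_12_0_ok) (L (nat_lit 427) ln14_13_3 ln14_13_3_ok))))))))))))))))))))))))))) (nat_lit 1386334847221798047169638878925036799968406779833514899637066259859226863686603287896039777716422623628704219945445734162783797248) (nat_lit 851234910057585847230823124495188170176009973970512657604400744434412804754368490679198758038923688257046911053254794331092561593333831560188490653603989553152) (nat_lit 851234910057585847230823124495188170176009973970512657604400744434412804754368490679198758038923688257046911053254794331092561593333831560188490653603989553152)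 (by decide +kernel)
theorem c41_s2603 : Sem (nat_lit 2079502270752001762064242424960807725827516048677469043429686155012882190638009693656033379242457518153052022685796627120027336704) (nat_lit 5065326623348544116180787808641892573390195568262434199648524721785393585452892752070673064078059878412925070725944016454301699019546122782934804196689386134549006067987053019136) (nat_lit 5065326623348544116180787808641892573390195568262434199648524721785393585452892752070673064078059878412925070725944016454301699019546122782934804196689386134549006067987053019136) :=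
  sem_of_chk (M (nat_lit 461) (B (M (nat_lit 493) (B (L (nat_lit 525) ln13_16_7 ln13_16_7_ok) (M (nat_lit 364) (B (L (nat_lit 332) ln12_10_4 ln12_10_4_ok) (L (nat_lit 460) ln12_11_4 ln12_11_4_ok))))) (B (M (nat_lit 493) (B (L (nat_lit 525) ln13_16_7 ln13_16_7_ok) (M (nat_lit 364) (B (L (nat_lit 397) ln13_15_7 ln13_15_7_ok) (L (nat_lit 460) ln12_11_4 ln12_11_4_ok))))) (B (M (nat_lit 493) (B (L (nat_lit 525) ln13_16_7 ln13_16_7_ok) (M (nat_lit 492) (B (M (nat_lit 524) (B (L (nat_lit 397) ln13_12_5 ln13_12_5_ok) (M (nat_lit 556) (B (L (nat_lit 460) ln12_17_6 ln12_17_6_ok) (L (nat_lit 588) ln12_18_6 ln12_18_6_ok))))) (B (M (nat_lit 460) (B (M (nat_lit 491) (B (L (nat_lit 523) ln12_12_5 ln12_12_5_ok) (M (nat_lit 462) (B (L (nat_lit 463) ln15_14_1 ln15_14_1_ok) (L (nat_lit 490) ln10_15_2 ln10_15_2_ok))))) (M (nat_lit 395) (B (L (nat_lit 363) ln12_15_7 ln12_15_7_ok) (M (nat_lit 524) (B (L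 (nat_lit 427) ln12_16_7 ln12_16_7_ok) (L (nat_lit 556) ln12_17_6 ln12_17_6_ok))))))) (B (M (nat_lit 397) (B (L (nat_lit 524) ln13_12_5 ln13_12_5_ok) (M (nat_lit 398) (B (L (nat_lit 366) ln13_15_6 ln13_15_6_ok) (M (nat_lit 399) (B (L (nat_lit 427) ln15_12_1 ln15_12_1_ok) (L (nat_lit 400) ln16_12_1 ln16_12_1_ok))))))) (M (nat_lit 494) (B (M (nat_lit 526) (B (L (nat_lit 397) ln13_12_4 ln13_12_4_ok) (M (nat_lit 558) (B (L (nat_lit 462) ln14_17_7 ln14_17_7_ok) (L (nat_lit 590) ln14_18_7 ln14_18_7_ok))))) (B (M (nat_lit 491) (B (M (nat_lit 462) (B (L (nat_lit 490) ln10_15_2 ln10_15_2_ok) (L (nat_lit 463) ln11_15_2 ln11_15_2_ok))) (M (nat_lit 523) (B (L (nat_lit 460) ln12_12_5 ln12_12_5_ok) (L (nat_lit 522) ln14_15_1 ln14_15_1_ok))))) (M (nat_lit 491) (B (M (nat_lit 523) (B (L (nat_lit 460) ln12_12_5 ln12_12_5_ok) (L (nat_lit 522) ln14_15_1 ln14_15_1_ok))) (M (nat_lit 526) (B (L (nat_lit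 397) ln13_12_4 ln13_12_4_ok) (L (nat_lit 527) ln11_15_0 ln11_15_0_ok)))))))))))))) (B (M (nat_lit 493) (B (L (nat_lit 525) ln13_16_7 ln13_16_7_ok) (M (nat_lit 364) (B (L (nat_lit 332) ln12_10_4 ln12_10_4_ok) (L (nat_lit 397) ln13_15_7 ln13_15_7_ok))))) (M (nat_lit 460) (B (M (nat_lit 364) (B (L (nat_lit 332) ln12_10_4 ln12_10_4_ok) (M (nat_lit 492) (B (M (nat_lit 363) (B (L (nat_lit 331) ln12_14_7 ln12_14_7_ok) (L (nat_lit 395) ln12_15_7 ln12_15_7_ok))) (M (nat_lit 491) (B (L (nat_lit 459) ln12_11_5 ln12_11_5_ok) (L (nat_lit 523) ln12_12_5 ln12_12_5_ok))))))) (B (M (nat_lit 364) (B (L (nat_lit 332) ln12_10_4 ln12_10_4_ok) (M (nat_lit 492) (B (M (nat_lit 491) (B (L (nat_lit 459) ln12_11_5 ln12_11_5_ok) (L (nat_lit 523) ln12_12_5 ln12_12_5_ok))) (M (nat_lit 524) (B (L (nat_lit 397) ln12_16_6 ln12_16_6_ok) (L (nat_lit 556) ln12_17_6 ln12_17_6_ok))))))) (B (M (nat_lit 492) (B (M (nat_lit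 524) (B (L (nat_lit 397) ln12_16_6 ln12_16_6_ok) (L (nat_lit 556) ln12_17_6 ln12_17_6_ok))) (M (nat_lit 364) (B (M (nat_lit 363) (B (L (nat_lit 331) ln12_14_7 ln12_14_7_ok) (L (nat_lit 395) ln12_15_7 ln12_15_7_ok))) (M (nat_lit 491) (B (L (nat_lit 459) ln12_11_5 ln12_11_5_ok) (L (nat_lit 523) ln12_12_5 ln12_12_5_ok))))))) (B (M (nat_lit 462) (B (M (nat_lit 427) (B (L (nat_lit 426) ln10_13_0 ln10_13_0_ok) (L (nat_lit 463) ln15_14_3 ln15_14_3_ok))) (B (M (nat_lit 463) (B (L (nat_lit 427) ln15_14_3 ln15_14_3_ok) (L (nat_lit 464) ln16_14_3 ln16_14_3_ok))) (B (M (nat_lit 492) (B (M (nat_lit 524) (B (L (nat_lit 397) ln12_16_6 ln12_16_6_ok) (L (nat_lit 556) ln12_17_6 ln12_17_6_ok))) (M (nat_lit 463) (B (L (nat_lit 464) ln16_14_3 ln16_14_3_ok) (L (nat_lit 491) ln15_14_1 ln15_14_1_ok))))) (M (nat_lit 492) (B (M (nat_lit 427) (B (L (nat_lit 426) ln10_13_0 ln10_13_0_ok) (M (nat_lit 395) (B (L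 (nat_lit 363) ln12_15_7 ln12_15_7_ok) (L (nat_lit 524) ln12_16_7 ln12_16_7_ok))))) (M (nat_lit 491) (B (L (nat_lit 523) ln12_12_5 ln12_12_5_ok) (M (nat_lit 490) (B (L (nat_lit 459) ln14_14_1 ln14_14_1_ok) (L (nat_lit 489) ln9_15_2 ln9_15_2_ok))))))))))) (B (M (nat_lit 364) (B (L (nat_lit 332) ln12_10_4 ln12_10_4_ok) (M (nat_lit 492) (B (M (nat_lit 363) (B (L (nat_lit 331) ln12_14_7 ln12_14_7_ok) (L (nat_lit 395) ln12_15_7 ln12_15_7_ok))) (M (nat_lit 524) (B (L (nat_lit 397) ln12_16_6 ln12_16_6_ok) (L (nat_lit 556) ln12_17_6 ln12_17_6_ok))))))) (M (nat_lit 462) (B (M (nat_lit 427) (B (L (nat_lit 426) ln10_13_0 ln10_13_0_ok) (L (nat_lit 463) ln15_14_3 ln15_14_3_ok))) (B (M (nat_lit 463) (B (L (nat_lit 427) ln15_14_3 ln15_14_3_ok) (L (nat_lit 464) ln16_14_3 ln16_14_3_ok))) (B (M (nat_lit 463) (B (L (nat_lit 464) ln16_14_3 ln16_14_3_ok) (M (nat_lit 459) (B (M (nat_lit 364) (B (L (nat_lit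 332) ln12_10_4 ln12_10_4_ok) (L (nat_lit 491) ln12_11_5 ln12_11_5_ok))) (M (nat_lit 495) (B (L (nat_lit 494) ln11_14_0 ln11_14_0_ok) (L (nat_lit 496) ln12_14_0 ln12_14_0_ok))))))) (M (nat_lit 426) (B (L (nat_lit 427) ln10_13_0 ln10_13_0_ok) (M (nat_lit 459) (B (M (nat_lit 458) (B (L (nat_lit 425) ln13_14_3 ln13_14_3_ok) (L (nat_lit 457) ln9_14_2 ln9_14_2_ok))) (M (nat_lit 491) (B (L (nat_lit 364) ln12_11_5 ln12_11_5_ok) (L (nat_lit 490) ln14_14_1 ln14_14_1_ok)))))))))))))))))))))) (nat_lit 2079502270752001762064242424960807725827516048677469043429686155012882190638009693656033379242457518153052022685796627120027336704) (nat_lit 5065326623348544116180787808641892573390195568262434199648524721785393585452892752070673064078059878412925070725944016454301699019546122782934804196689386134549006067987053019136) (nat_lit 5065326623348544116180787808641892573390195568262434199648524721785393585452892752070673064078059878412925070725944016454301699019546122782934804196689386134549006067987053019136)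 (by decide +kernel)
noncomputable def c41_n2641 : Cert := (M (nat_lit 430) (B (M (nat_lit 395) (B (L (nat_lit 431) ln15_13_3 ln15_13_3_ok) (M (nat_lit 394) (B (L (nat_lit 393) ln9_12_0 ln9_12_0_ok) (L (nat_lit 397) ln10_12_0 ln10_12_0_ok))))) (B (M (nat_lit 395) (B (L (nat_lit 431) ln15_13_3 ln15_13_3_ok) (M (nat_lit 394) (B (L (nat_lit 397) ln10_12_0 ln10_12_0_ok) (L (nat_lit 427) ln14_13_3 ln14_13_3_ok))))) (B (M (nat_lit 431) (B (L (nat_lit 395) ln15_13_3 ln15_13_3_ok) (M (nat_lit 400) (B (L (nat_lit 399) ln12_13_2 ln12_13_2_ok) (M (nat_lit 432) (B (L (nat_lit 397) ln16_13_3 ln16_13_3_ok) (L (nat_lit 401) ln13_13_2 ln13_13_2_ok))))))) (B (M (nat_lit 431) (B (M (nat_lit 400) (B (L (nat_lit 399) ln12_13_2 ln12_13_2_ok) (M (nat_lit 432) (B (L (nat_lit 397) ln16_13_3 ln16_13_3_ok) (L (nat_lit 401) ln13_13_2 ln13_13_2_ok))))) (B (M (nat_lit 427) (B (M (nat_lit 399) (B (L (nat_lit 398)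 ln11_13_2 ln11_13_2_ok) (L (nat_lit 400) ln12_13_2 ln12_13_2_ok))) (M (nat_lit 463) (B (L (nat_lit 462) ln11_13_0 ln11_13_0_ok) (L (nat_lit 464) ln12_13_0 ln12_13_0_ok))))) (M (nat_lit 460) (B (L (nat_lit 459) ln15_13_1 ln15_13_1_ok) (M (nat_lit 432) (B (L (nat_lit 397) ln16_13_3 ln16_13_3_ok) (L (nat_lit 461) ln16_13_1 ln16_13_1_ok)))))))) (B (M (nat_lit 395) (B (L (nat_lit 431) ln15_13_3 ln15_13_3_ok) (M (nat_lit 394) (B (L (nat_lit 393) ln9_12_0 ln9_12_0_ok) (L (nat_lit 427) ln14_13_3 ln14_13_3_ok))))) (M (nat_lit 395) (B (M (nat_lit 394) (B (L (nat_lit 393) ln9_12_0 ln9_12_0_ok) (L (nat_lit 397) ln10_12_0 ln10_12_0_ok))) (B (M (nat_lit 394) (B (L (nat_lit 397) ln10_12_0 ln10_12_0_ok) (L (nat_lit 427) ln14_13_3 ln14_13_3_ok))) (B (M (nat_lit 398) (B (M (nat_lit 399) (B (L (nat_lit 427) ln11_13_2 ln11_13_2_ok) (M (nat_lit 400) (B (L (nat_lit 397) ln16_12_1 ln16_12_1_ok) (L (nat_lit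 401) ln17_12_1 ln17_12_1_ok))))) (B (M (nat_lit 461) (B (M (nat_lit 493) (B (L (nat_lit 525) ln13_16_7 ln13_16_7_ok) (M (nat_lit 366) (B (L (nat_lit 334) ln14_10_5 ln14_10_5_ok) (L (nat_lit 462) ln14_11_5 ln14_11_5_ok))))) (B (M (nat_lit 493) (B (L (nat_lit 525) ln13_16_7 ln13_16_7_ok) (M (nat_lit 364) (B (L (nat_lit 332) ln12_10_4 ln12_10_4_ok) (L (nat_lit 460) ln12_11_4 ln12_11_4_ok))))) (M (nat_lit 427) (B (L (nat_lit 399) ln11_13_2 ln11_13_2_ok) (M (nat_lit 462) (B (L (nat_lit 426) ln10_13_0 ln10_13_0_ok) (L (nat_lit 463) ln11_13_0 ln11_13_0_ok)))))))) (B (M (nat_lit 366) (B (M (nat_lit 461) (B (L (nat_lit 334) ln14_10_5 ln14_10_5_ok) (M (nat_lit 493) (B (L (nat_lit 462) ln14_11_5 ln14_11_5_ok) (L (nat_lit 525) ln13_16_7 ln13_16_7_ok))))) (B (M (nat_lit 462) (B (M (nat_lit 367) (B (L (nat_lit 335) ln14_14_6 ln14_14_6_ok) (L (nat_lit 397) ln11_12_2 ln11_12_2_ok))) (M (nat_lit 463)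 (B (L (nat_lit 495) ln14_11_4 ln14_11_4_ok) (L (nat_lit 427) ln11_13_0 ln11_13_0_ok))))) (M (nat_lit 397) (B (L (nat_lit 367) ln11_12_2 ln11_12_2_ok) (M (nat_lit 461) (B (L (nat_lit 334) ln14_10_5 ln14_10_5_ok) (L (nat_lit 493) ln13_15_6 ln13_15_6_ok)))))))) (M (nat_lit 397) (B (M (nat_lit 366) (B (L (nat_lit 367) ln11_12_2 ln11_12_2_ok) (M (nat_lit 461) (B (L (nat_lit 334) ln14_10_5 ln14_10_5_ok) (L (nat_lit 493) ln13_15_6 ln13_15_6_ok))))) (M (nat_lit 399) (B (L (nat_lit 400) ln16_12_1 ln16_12_1_ok) (M (nat_lit 363) (B (L (nat_lit 362) ln14_12_3 ln14_12_3_ok) (L (nat_lit 364) ln15_12_3 ln15_12_3_ok))))))))))) (M (nat_lit 394) (B (L (nat_lit 393) ln9_12_0 ln9_12_0_ok) (L (nat_lit 427) ln14_13_3 ln14_13_3_ok)))))))))))))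
noncomputable def c41_n2642 : Cert := (M (nat_lit 430) (B (M (nat_lit 395) (B (L (nat_lit 431) ln15_13_3 ln15_13_3_ok) (M (nat_lit 394) (B (L (nat_lit 393) ln9_12_0 ln9_12_0_ok) (L (nat_lit 427) ln14_13_3 ln14_13_3_ok))))) (B (M (nat_lit 395) (B (L (nat_lit 431) ln15_13_3 ln15_13_3_ok) (M (nat_lit 394) (B (L (nat_lit 397) ln10_12_0 ln10_12_0_ok) (L (nat_lit 427) ln14_13_3 ln14_13_3_ok))))) (B (M (nat_lit 431) (B (L (nat_lit 395) ln15_13_3 ln15_13_3_ok) (M (nat_lit 400) (B (L (nat_lit 399) ln12_13_2 ln12_13_2_ok) (M (nat_lit 432) (B (L (nat_lit 397) ln16_13_3 ln16_13_3_ok) (L (nat_lit 401) ln13_13_2 ln13_13_2_ok))))))) (B (M (nat_lit 461) (B (M (nat_lit 364) (B (L (nat_lit 332) ln12_10_4 ln12_10_4_ok) (M (nat_lit 493) (B (L (nat_lit 397) ln13_15_7 ln13_15_7_ok) (L (nat_lit 525) ln13_16_7 ln13_16_7_ok))))) (B (M (nat_lit 493) (B (L (nat_lit 525) ln13_16_7 ln13_16_7_ok) (M (nat_lit 364)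 (B (L (nat_lit 397) ln13_15_7 ln13_15_7_ok) (L (nat_lit 460) ln12_11_4 ln12_11_4_ok))))) (B (M (nat_lit 427) (B (M (nat_lit 462) (B (L (nat_lit 426) ln10_13_0 ln10_13_0_ok) (L (nat_lit 463) ln11_13_0 ln11_13_0_ok))) (M (nat_lit 431) (B (M (nat_lit 399) (B (L (nat_lit 398) ln11_13_2 ln11_13_2_ok) (L (nat_lit 400) ln12_13_2 ln12_13_2_ok))) (M (nat_lit 432) (B (L (nat_lit 397) ln16_13_3 ln16_13_3_ok) (L (nat_lit 460) ln16_13_1 ln16_13_1_ok))))))) (M (nat_lit 364) (B (L (nat_lit 332) ln12_10_4 ln12_10_4_ok) (M (nat_lit 493) (B (L (nat_lit 460) ln12_11_4 ln12_11_4_ok) (L (nat_lit 525) ln13_16_7 ln13_16_7_ok))))))))) (M (nat_lit 395) (B (M (nat_lit 394) (B (L (nat_lit 393) ln9_12_0 ln9_12_0_ok) (L (nat_lit 397) ln10_12_0 ln10_12_0_ok))) (B (M (nat_lit 394) (B (L (nat_lit 397) ln10_12_0 ln10_12_0_ok) (L (nat_lit 427) ln14_13_3 ln14_13_3_ok))) (B (M (nat_lit 398) (B (M (nat_lit 399) (B (L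 (nat_lit 427) ln11_13_2 ln11_13_2_ok) (M (nat_lit 400) (B (L (nat_lit 397) ln16_12_1 ln16_12_1_ok) (L (nat_lit 401) ln17_12_1 ln17_12_1_ok))))) (B (M (nat_lit 461) (B (M (nat_lit 493) (B (L (nat_lit 525) ln13_16_7 ln13_16_7_ok) (M (nat_lit 366) (B (L (nat_lit 334) ln14_10_5 ln14_10_5_ok) (L (nat_lit 462) ln14_11_5 ln14_11_5_ok))))) (B (M (nat_lit 493) (B (L (nat_lit 525) ln13_16_7 ln13_16_7_ok) (M (nat_lit 364) (B (L (nat_lit 332) ln12_10_4 ln12_10_4_ok) (L (nat_lit 460) ln12_11_4 ln12_11_4_ok))))) (M (nat_lit 427) (B (L (nat_lit 399) ln11_13_2 ln11_13_2_ok) (M (nat_lit 462) (B (L (nat_lit 426) ln10_13_0 ln10_13_0_ok) (L (nat_lit 463) ln11_13_0 ln11_13_0_ok)))))))) (B (M (nat_lit 366) (B (M (nat_lit 461) (B (L (nat_lit 334) ln14_10_5 ln14_10_5_ok) (M (nat_lit 493) (B (L (nat_lit 462) ln14_11_5 ln14_11_5_ok) (L (nat_lit 525) ln13_16_7 ln13_16_7_ok))))) (B (M (nat_lit 462) (B (M (nat_lit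 367) (B (L (nat_lit 335) ln14_14_6 ln14_14_6_ok) (L (nat_lit 397) ln11_12_2 ln11_12_2_ok))) (M (nat_lit 463) (B (L (nat_lit 495) ln14_11_4 ln14_11_4_ok) (L (nat_lit 427) ln11_13_0 ln11_13_0_ok))))) (M (nat_lit 397) (B (L (nat_lit 367) ln11_12_2 ln11_12_2_ok) (M (nat_lit 461) (B (L (nat_lit 334) ln14_10_5 ln14_10_5_ok) (L (nat_lit 493) ln13_15_6 ln13_15_6_ok)))))))) (M (nat_lit 397) (B (M (nat_lit 366) (B (L (nat_lit 367) ln11_12_2 ln11_12_2_ok) (M (nat_lit 461) (B (L (nat_lit 334) ln14_10_5 ln14_10_5_ok) (L (nat_lit 493) ln13_15_6 ln13_15_6_ok))))) (M (nat_lit 399) (B (L (nat_lit 400) ln16_12_1 ln16_12_1_ok) (M (nat_lit 363) (B (L (nat_lit 362) ln14_12_3 ln14_12_3_ok) (L (nat_lit 364) ln15_12_3 ln15_12_3_ok))))))))))) (M (nat_lit 394) (B (L (nat_lit 393) ln9_12_0 ln9_12_0_ok) (L (nat_lit 427) ln14_13_3 ln14_13_3_ok))))))))))))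
theorem c41_s2643 : Sem (nat_lit 1386334847221798047169638878925036799968406779833514899637066259859226863686603287896039777716422623628704219945445734162783797248) (nat_lit 5065326623820289419283480477672086896013729179647151207488180704302364362539063660195882073457223575177725424126924873534624435687133021920554531338059155479309025003285055012864) (nat_lit 5065326623820289419283480477672086896013729179647151207488180704302364362539063660195882073457223575177725424126924873534624435687133021920554531338059155479309025003285055012864) :=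
  sem_of_chk (M (nat_lit 428) (B (M (nat_lit 430) (B (M (nat_lit 395) (B (L (nat_lit 431) ln15_13_3 ln15_13_3_ok) (M (nat_lit 394) (B (L (nat_lit 393) ln9_12_0 ln9_12_0_ok) (L (nat_lit 397) ln10_12_0 ln10_12_0_ok))))) (B (M (nat_lit 395) (B (L (nat_lit 431) ln15_13_3 ln15_13_3_ok) (M (nat_lit 394) (B (L (nat_lit 397) ln10_12_0 ln10_12_0_ok) (L (nat_lit 427) ln14_13_3 ln14_13_3_ok))))) (B (M (nat_lit 431) (B (L (nat_lit 395) ln15_13_3 ln15_13_3_ok) (M (nat_lit 427) (B (M (nat_lit 399) (B (L (nat_lit 398) ln11_13_2 ln11_13_2_ok) (L (nat_lit 400) ln12_13_2 ln12_13_2_ok))) (M (nat_lit 463) (B (L (nat_lit 462) ln11_13_0 ln11_13_0_ok) (L (nat_lit 464) ln12_13_0 ln12_13_0_ok))))))) (B (M (nat_lit 427) (B (M (nat_lit 426) (B (M (nat_lit 458) (B (L (nat_lit 457) ln13_13_1 ln13_13_1_ok) (L (nat_lit 459) ln14_13_1 ln14_13_1_ok))) (M (nat_lit 462) (B (L (nat_lit 461) ln10_13_0 ln10_13_0_ok) (L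 (nat_lit 463) ln11_13_0 ln11_13_0_ok))))) (B (M (nat_lit 431) (B (M (nat_lit 399) (B (L (nat_lit 398) ln11_13_2 ln11_13_2_ok) (L (nat_lit 400) ln12_13_2 ln12_13_2_ok))) (M (nat_lit 463) (B (L (nat_lit 462) ln11_13_0 ln11_13_0_ok) (L (nat_lit 464) ln12_13_0 ln12_13_0_ok))))) (M (nat_lit 426) (B (M (nat_lit 397) (B (L (nat_lit 425) ln9_13_2 ln9_13_2_ok) (L (nat_lit 398) ln10_13_2 ln10_13_2_ok))) (M (nat_lit 458) (B (L (nat_lit 457) ln13_13_1 ln13_13_1_ok) (L (nat_lit 459) ln14_13_1 ln14_13_1_ok)))))))) (M (nat_lit 395) (B (M (nat_lit 394) (B (L (nat_lit 393) ln9_12_0 ln9_12_0_ok) (L (nat_lit 397) ln10_12_0 ln10_12_0_ok))) (B (M (nat_lit 394) (B (L (nat_lit 397) ln10_12_0 ln10_12_0_ok) (L (nat_lit 427) ln14_13_3 ln14_13_3_ok))) (B (M (nat_lit 427) (B (M (nat_lit 459) (B (L (nat_lit 458) ln14_13_1 ln14_13_1_ok) (M (nat_lit 491) (B (L (nat_lit 364) ln11_15_6 ln11_15_6_ok) (L (nat_lit 523)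 ln11_16_6 ln11_16_6_ok))))) (M (nat_lit 426) (B (M (nat_lit 398) (B (L (nat_lit 397) ln14_12_1 ln14_12_1_ok) (L (nat_lit 399) ln11_13_2 ln11_13_2_ok))) (M (nat_lit 462) (B (L (nat_lit 461) ln10_13_0 ln10_13_0_ok) (L (nat_lit 463) ln11_13_0 ln11_13_0_ok))))))) (M (nat_lit 394) (B (L (nat_lit 393) ln9_12_0 ln9_12_0_ok) (L (nat_lit 427) ln14_13_3 ln14_13_3_ok)))))))))))) (B (M (nat_lit 430) (B (M (nat_lit 395) (B (L (nat_lit 431) ln15_13_3 ln15_13_3_ok) (M (nat_lit 394) (B (L (nat_lit 393) ln9_12_0 ln9_12_0_ok) (L (nat_lit 427) ln14_13_3 ln14_13_3_ok))))) (B (M (nat_lit 395) (B (L (nat_lit 431) ln15_13_3 ln15_13_3_ok) (M (nat_lit 394) (B (L (nat_lit 397) ln10_12_0 ln10_12_0_ok) (L (nat_lit 427) ln14_13_3 ln14_13_3_ok))))) (B (M (nat_lit 431) (B (L (nat_lit 395) ln15_13_3 ln15_13_3_ok) (M (nat_lit 400) (B (L (nat_lit 399) ln12_13_2 ln12_13_2_ok) (M (nat_lit 432) (B (L (nat_lit 397) ln16_13_3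 ln16_13_3_ok) (L (nat_lit 401) ln13_13_2 ln13_13_2_ok))))))) (B (M (nat_lit 431) (B (M (nat_lit 460) (B (L (nat_lit 459) ln15_13_1 ln15_13_1_ok) (M (nat_lit 432) (B (L (nat_lit 397) ln16_13_3 ln16_13_3_ok) (L (nat_lit 461) ln16_13_1 ln16_13_1_ok))))) (B (M (nat_lit 427) (B (M (nat_lit 399) (B (L (nat_lit 398) ln11_13_2 ln11_13_2_ok) (L (nat_lit 400) ln12_13_2 ln12_13_2_ok))) (M (nat_lit 459) (B (L (nat_lit 458) ln14_13_1 ln14_13_1_ok) (L (nat_lit 460) ln15_13_1 ln15_13_1_ok))))) (M (nat_lit 400) (B (L (nat_lit 399) ln12_13_2 ln12_13_2_ok) (M (nat_lit 432) (B (L (nat_lit 397) ln16_13_3 ln16_13_3_ok) (L (nat_lit 401) ln13_13_2 ln13_13_2_ok)))))))) (M (nat_lit 427) (B (M (nat_lit 398) (B (L (nat_lit 399) ln11_13_2 ln11_13_2_ok) (M (nat_lit 426) (B (L (nat_lit 397) ln10_13_2 ln10_13_2_ok) (M (nat_lit 462) (B (L (nat_lit 461) ln10_13_0 ln10_13_0_ok) (L (nat_lit 463) ln11_13_0 ln11_13_0_ok)))))))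 (B (M (nat_lit 426) (B (M (nat_lit 458) (B (L (nat_lit 457) ln13_13_1 ln13_13_1_ok) (L (nat_lit 459) ln14_13_1 ln14_13_1_ok))) (M (nat_lit 462) (B (L (nat_lit 461) ln10_13_0 ln10_13_0_ok) (L (nat_lit 463) ln11_13_0 ln11_13_0_ok))))) (B (M (nat_lit 398) (B (L (nat_lit 399) ln11_13_2 ln11_13_2_ok) (M (nat_lit 366) (B (M (nat_lit 462) (B (L (nat_lit 463) ln11_13_0 ln11_13_0_ok) (M (nat_lit 461) (B (L (nat_lit 334) ln14_10_5 ln14_10_5_ok) (L (nat_lit 493) ln14_11_5 ln14_11_5_ok))))) (B (M (nat_lit 367) (B (M (nat_lit 462) (B (L (nat_lit 335) ln14_14_6 ln14_14_6_ok) (L (nat_lit 463) ln11_13_0 ln11_13_0_ok))) (M (nat_lit 395) (B (L (nat_lit 397) ln11_12_2 ln11_12_2_ok) (L (nat_lit 394) ln14_13_3 ln14_13_3_ok))))) (M (nat_lit 461) (B (L (nat_lit 334) ln14_10_5 ln14_10_5_ok) (M (nat_lit 493) (B (L (nat_lit 397) ln13_15_6 ln13_15_6_ok) (L (nat_lit 525) ln13_16_7 ln13_16_7_ok)))))))))) (M (nat_lit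 426) (B (M (nat_lit 398) (B (L (nat_lit 397) ln10_13_2 ln10_13_2_ok) (L (nat_lit 399) ln11_13_2 ln11_13_2_ok))) (M (nat_lit 458) (B (L (nat_lit 457) ln13_13_1 ln13_13_1_ok) (L (nat_lit 459) ln14_13_1 ln14_13_1_ok)))))))))))))) (B (M (nat_lit 427) (B (M (nat_lit 459) (B (M (nat_lit 430) (B (L (nat_lit 458) ln14_13_1 ln14_13_1_ok) (M (nat_lit 431) (B (L (nat_lit 395) ln15_13_3 ln15_13_3_ok) (L (nat_lit 460) ln15_13_1 ln15_13_1_ok))))) (B (M (nat_lit 460) (B (M (nat_lit 491) (B (L (nat_lit 364) ln12_11_5 ln12_11_5_ok) (L (nat_lit 523) ln11_16_6 ln11_16_6_ok))) (M (nat_lit 430) (B (L (nat_lit 458) ln14_13_1 ln14_13_1_ok) (L (nat_lit 431) ln15_13_1 ln15_13_1_ok))))) (B (M (nat_lit 491) (B (L (nat_lit 523) ln11_16_6 ln11_16_6_ok) (M (nat_lit 364) (B (L (nat_lit 395) ln11_15_6 ln11_15_6_ok) (L (nat_lit 460) ln12_11_5 ln12_11_5_ok))))) (M (nat_lit 395) (B (M (nat_lit 491) (B (L (nat_lit 364)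 ln11_15_6 ln11_15_6_ok) (L (nat_lit 523) ln11_16_6 ln11_16_6_ok))) (M (nat_lit 430) (B (L (nat_lit 431) ln15_13_3 ln15_13_3_ok) (L (nat_lit 458) ln14_13_1 ln14_13_1_ok))))))))) (B (M (nat_lit 430) (B (M (nat_lit 395) (B (L (nat_lit 394) ln14_13_3 ln14_13_3_ok) (L (nat_lit 431) ln15_13_3 ln15_13_3_ok))) (M (nat_lit 426) (B (M (nat_lit 458) (B (L (nat_lit 457) ln13_13_1 ln13_13_1_ok) (L (nat_lit 459) ln14_13_1 ln14_13_1_ok))) (M (nat_lit 462) (B (L (nat_lit 461) ln10_13_0 ln10_13_0_ok) (L (nat_lit 463) ln11_13_0 ln11_13_0_ok))))))) (B (M (nat_lit 461) (B (M (nat_lit 462) (B (L (nat_lit 426) ln10_13_0 ln10_13_0_ok) (M (nat_lit 463) (B (L (nat_lit 430) ln11_13_0 ln11_13_0_ok) (L (nat_lit 460) ln15_14_3 ln15_14_3_ok))))) (B (M (nat_lit 493) (B (L (nat_lit 525) ln13_16_7 ln13_16_7_ok) (M (nat_lit 364) (B (L (nat_lit 397) ln13_15_7 ln13_15_7_ok) (L (nat_lit 460) ln12_11_4 ln12_11_4_ok)))))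 (M (nat_lit 462) (B (L (nat_lit 426) ln10_13_0 ln10_13_0_ok) (M (nat_lit 463) (B (L (nat_lit 430) ln11_13_0 ln11_13_0_ok) (L (nat_lit 464) ln16_14_3 ln16_14_3_ok)))))))) (M (nat_lit 461) (B (M (nat_lit 462) (B (L (nat_lit 426) ln10_13_0 ln10_13_0_ok) (M (nat_lit 463) (B (L (nat_lit 460) ln15_14_3 ln15_14_3_ok) (L (nat_lit 464) ln16_14_3 ln16_14_3_ok))))) (B (M (nat_lit 493) (B (L (nat_lit 525) ln13_16_7 ln13_16_7_ok) (M (nat_lit 364) (B (L (nat_lit 397) ln13_15_7 ln13_15_7_ok) (L (nat_lit 460) ln12_11_4 ln12_11_4_ok))))) (M (nat_lit 397) (B (M (nat_lit 493) (B (L (nat_lit 364) ln13_15_7 ln13_15_7_ok) (L (nat_lit 525) ln13_16_7 ln13_16_7_ok))) (M (nat_lit 426) (B (L (nat_lit 425) ln9_13_2 ln9_13_2_ok) (L (nat_lit 462) ln10_13_0 ln10_13_0_ok)))))))))))) (B (M (nat_lit 427) (B (M (nat_lit 459) (B (M (nat_lit 430) (B (L (nat_lit 458) ln14_13_1 ln14_13_1_ok) (M (nat_lit 431) (B (L (nat_lit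 395) ln15_13_3 ln15_13_3_ok) (L (nat_lit 460) ln15_13_1 ln15_13_1_ok))))) (B (M (nat_lit 460) (B (M (nat_lit 491) (B (L (nat_lit 364) ln12_11_5 ln12_11_5_ok) (L (nat_lit 523) ln11_16_6 ln11_16_6_ok))) (M (nat_lit 430) (B (L (nat_lit 458) ln14_13_1 ln14_13_1_ok) (L (nat_lit 431) ln15_13_1 ln15_13_1_ok))))) (B (M (nat_lit 491) (B (L (nat_lit 523) ln11_16_6 ln11_16_6_ok) (M (nat_lit 364) (B (L (nat_lit 395) ln11_15_6 ln11_15_6_ok) (L (nat_lit 460) ln12_11_5 ln12_11_5_ok))))) (M (nat_lit 395) (B (M (nat_lit 491) (B (L (nat_lit 364) ln11_15_6 ln11_15_6_ok) (L (nat_lit 523) ln11_16_6 ln11_16_6_ok))) (M (nat_lit 430) (B (L (nat_lit 431) ln15_13_3 ln15_13_3_ok) (L (nat_lit 458) ln14_13_1 ln14_13_1_ok))))))))) (B (M (nat_lit 430) (B (M (nat_lit 431) (B (L (nat_lit 395) ln15_13_3 ln15_13_3_ok) (M (nat_lit 399) (B (L (nat_lit 398) ln11_13_2 ln11_13_2_ok) (L (nat_lit 400) ln12_13_2 ln12_13_2_ok)))))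 (B (M (nat_lit 426) (B (M (nat_lit 397) (B (L (nat_lit 425) ln9_13_2 ln9_13_2_ok) (L (nat_lit 398) ln10_13_2 ln10_13_2_ok))) (M (nat_lit 462) (B (L (nat_lit 461) ln10_13_0 ln10_13_0_ok) (L (nat_lit 463) ln11_13_0 ln11_13_0_ok))))) (M (nat_lit 431) (B (L (nat_lit 395) ln15_13_3 ln15_13_3_ok) (M (nat_lit 459) (B (L (nat_lit 458) ln14_13_1 ln14_13_1_ok) (L (nat_lit 460) ln15_13_1 ln15_13_1_ok)))))))) (B (M (nat_lit 461) (B (M (nat_lit 462) (B (L (nat_lit 426) ln10_13_0 ln10_13_0_ok) (M (nat_lit 463) (B (L (nat_lit 460) ln15_14_3 ln15_14_3_ok) (L (nat_lit 464) ln16_14_3 ln16_14_3_ok))))) (M (nat_lit 364) (B (L (nat_lit 332) ln12_10_4 ln12_10_4_ok) (M (nat_lit 493) (B (L (nat_lit 397) ln13_15_7 ln13_15_7_ok) (L (nat_lit 525) ln13_16_7 ln13_16_7_ok))))))) (M (nat_lit 459) (B (M (nat_lit 364) (B (L (nat_lit 332) ln12_10_5 ln12_10_5_ok) (M (nat_lit 491) (B (L (nat_lit 395) ln11_15_6 ln11_15_6_ok)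 (L (nat_lit 523) ln11_16_6 ln11_16_6_ok))))) (M (nat_lit 426) (B (M (nat_lit 397) (B (L (nat_lit 425) ln9_13_2 ln9_13_2_ok) (L (nat_lit 398) ln10_13_2 ln10_13_2_ok))) (M (nat_lit 458) (B (L (nat_lit 457) ln13_13_1 ln13_13_1_ok) (L (nat_lit 430) ln14_13_1 ln14_13_1_ok))))))))))) (B (M (nat_lit 427) (B (M (nat_lit 461) (B (M (nat_lit 462) (B (L (nat_lit 426) ln10_13_0 ln10_13_0_ok) (M (nat_lit 463) (B (L (nat_lit 460) ln15_14_3 ln15_14_3_ok) (L (nat_lit 464) ln16_14_3 ln16_14_3_ok))))) (M (nat_lit 364) (B (L (nat_lit 332) ln12_10_4 ln12_10_4_ok) (M (nat_lit 493) (B (L (nat_lit 397) ln13_15_7 ln13_15_7_ok) (L (nat_lit 525) ln13_16_7 ln13_16_7_ok))))))) (B (M (nat_lit 461) (B (M (nat_lit 462) (B (L (nat_lit 426) ln10_13_0 ln10_13_0_ok) (M (nat_lit 463) (B (L (nat_lit 430) ln11_13_0 ln11_13_0_ok) (L (nat_lit 464) ln16_14_3 ln16_14_3_ok))))) (M (nat_lit 493) (B (L (nat_lit 525) ln13_16_7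 ln13_16_7_ok) (M (nat_lit 364) (B (L (nat_lit 397) ln13_15_7 ln13_15_7_ok) (L (nat_lit 460) ln12_11_4 ln12_11_4_ok))))))) (B (M (nat_lit 426) (B (M (nat_lit 397) (B (L (nat_lit 425) ln9_13_2 ln9_13_2_ok) (L (nat_lit 398) ln10_13_2 ln10_13_2_ok))) (M (nat_lit 430) (B (M (nat_lit 458) (B (L (nat_lit 457) ln13_13_1 ln13_13_1_ok) (L (nat_lit 459) ln14_13_1 ln14_13_1_ok))) (M (nat_lit 462) (B (L (nat_lit 461) ln10_13_0 ln10_13_0_ok) (L (nat_lit 463) ln11_13_0 ln11_13_0_ok))))))) (B (M (nat_lit 461) (B (M (nat_lit 462) (B (L (nat_lit 426) ln10_13_0 ln10_13_0_ok) (M (nat_lit 463) (B (L (nat_lit 430) ln11_13_0 ln11_13_0_ok) (L (nat_lit 460) ln15_14_3 ln15_14_3_ok))))) (B (M (nat_lit 364) (B (L (nat_lit 332) ln12_10_4 ln12_10_4_ok) (M (nat_lit 493) (B (L (nat_lit 460) ln12_11_4 ln12_11_4_ok) (L (nat_lit 525) ln13_16_7 ln13_16_7_ok))))) (M (nat_lit 462) (B (L (nat_lit 426) ln10_13_0 ln10_13_0_ok)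 (M (nat_lit 463) (B (L (nat_lit 430) ln11_13_0 ln11_13_0_ok) (L (nat_lit 464) ln16_14_3 ln16_14_3_ok)))))))) (B (M (nat_lit 459) (B (M (nat_lit 364) (B (L (nat_lit 332) ln12_10_5 ln12_10_5_ok) (M (nat_lit 491) (B (L (nat_lit 460) ln12_11_5 ln12_11_5_ok) (L (nat_lit 523) ln11_16_6 ln11_16_6_ok))))) (B (M (nat_lit 460) (B (M (nat_lit 491) (B (L (nat_lit 364) ln12_11_5 ln12_11_5_ok) (L (nat_lit 523) ln11_16_6 ln11_16_6_ok))) (M (nat_lit 430) (B (L (nat_lit 458) ln14_13_1 ln14_13_1_ok) (L (nat_lit 431) ln15_13_1 ln15_13_1_ok))))) (B (M (nat_lit 430) (B (L (nat_lit 458) ln14_13_1 ln14_13_1_ok) (M (nat_lit 431) (B (L (nat_lit 460) ln15_13_1 ln15_13_1_ok) (M (nat_lit 399) (B (L (nat_lit 398) ln11_13_2 ln11_13_2_ok) (L (nat_lit 400) ln12_13_2 ln12_13_2_ok))))))) (M (nat_lit 430) (B (L (nat_lit 458) ln14_13_1 ln14_13_1_ok) (M (nat_lit 431) (B (M (nat_lit 399) (B (L (nat_lit 398) ln11_13_2 ln11_13_2_ok)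 (L (nat_lit 400) ln12_13_2 ln12_13_2_ok))) (M (nat_lit 463) (B (L (nat_lit 462) ln11_13_0 ln11_13_0_ok) (L (nat_lit 464) ln12_13_0 ln12_13_0_ok))))))))))) (M (nat_lit 459) (B (M (nat_lit 364) (B (L (nat_lit 332) ln12_10_5 ln12_10_5_ok) (M (nat_lit 491) (B (L (nat_lit 460) ln12_11_5 ln12_11_5_ok) (L (nat_lit 523) ln11_16_6 ln11_16_6_ok))))) (B (M (nat_lit 458) (B (L (nat_lit 430) ln14_13_1 ln14_13_1_ok) (M (nat_lit 457) (B (L (nat_lit 426) ln13_13_1 ln13_13_1_ok) (L (nat_lit 460) ln9_14_2 ln9_14_2_ok))))) (M (nat_lit 426) (B (M (nat_lit 397) (B (L (nat_lit 425) ln9_13_2 ln9_13_2_ok) (L (nat_lit 398) ln10_13_2 ln10_13_2_ok))) (M (nat_lit 458) (B (L (nat_lit 457) ln13_13_1 ln13_13_1_ok) (L (nat_lit 430) ln14_13_1 ln14_13_1_ok)))))))))))))) (B (M (nat_lit 430) (B (M (nat_lit 395) (B (L (nat_lit 431) ln15_13_3 ln15_13_3_ok) (M (nat_lit 394) (B (L (nat_lit 393) ln9_12_0 ln9_12_0_ok) (L (nat_lit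 427) ln14_13_3 ln14_13_3_ok))))) (B (M (nat_lit 431) (B (L (nat_lit 395) ln15_13_3 ln15_13_3_ok) (M (nat_lit 427) (B (M (nat_lit 399) (B (L (nat_lit 398) ln11_13_2 ln11_13_2_ok) (L (nat_lit 400) ln12_13_2 ln12_13_2_ok))) (M (nat_lit 459) (B (L (nat_lit 458) ln14_13_1 ln14_13_1_ok) (L (nat_lit 460) ln15_13_1 ln15_13_1_ok))))))) (B (M (nat_lit 461) (B (M (nat_lit 364) (B (L (nat_lit 332) ln12_10_4 ln12_10_4_ok) (M (nat_lit 493) (B (L (nat_lit 460) ln12_11_4 ln12_11_4_ok) (L (nat_lit 525) ln13_16_7 ln13_16_7_ok))))) (B (M (nat_lit 460) (B (M (nat_lit 493) (B (L (nat_lit 364) ln12_11_4 ln12_11_4_ok) (L (nat_lit 525) ln13_16_7 ln13_16_7_ok))) (M (nat_lit 459) (B (L (nat_lit 431) ln15_13_1 ln15_13_1_ok) (L (nat_lit 458) ln10_14_2 ln10_14_2_ok))))) (B (M (nat_lit 427) (B (M (nat_lit 462) (B (L (nat_lit 426) ln10_13_0 ln10_13_0_ok) (L (nat_lit 463) ln11_13_0 ln11_13_0_ok))) (M (nat_lit 431)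 (B (M (nat_lit 399) (B (L (nat_lit 398) ln11_13_2 ln11_13_2_ok) (L (nat_lit 400) ln12_13_2 ln12_13_2_ok))) (M (nat_lit 459) (B (L (nat_lit 458) ln14_13_1 ln14_13_1_ok) (L (nat_lit 460) ln15_13_1 ln15_13_1_ok))))))) (M (nat_lit 398) (B (M (nat_lit 493) (B (L (nat_lit 525) ln13_16_7 ln13_16_7_ok) (M (nat_lit 366) (B (L (nat_lit 334) ln14_10_5 ln14_10_5_ok) (L (nat_lit 462) ln14_11_5 ln14_11_5_ok))))) (M (nat_lit 399) (B (L (nat_lit 427) ln11_13_2 ln11_13_2_ok) (M (nat_lit 400) (B (L (nat_lit 401) ln17_12_1 ln17_12_1_ok) (L (nat_lit 431) ln12_13_2 ln12_13_2_ok))))))))))) (B (M (nat_lit 431) (B (L (nat_lit 395) ln15_13_3 ln15_13_3_ok) (M (nat_lit 432) (B (M (nat_lit 400) (B (L (nat_lit 399) ln12_13_2 ln12_13_2_ok) (L (nat_lit 401) ln13_13_2 ln13_13_2_ok))) (M (nat_lit 460) (B (L (nat_lit 459) ln15_13_1 ln15_13_1_ok) (L (nat_lit 461) ln16_13_1 ln16_13_1_ok))))))) (M (nat_lit 427) (B (M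 (nat_lit 426) (B (M (nat_lit 458) (B (L (nat_lit 457) ln13_13_1 ln13_13_1_ok) (L (nat_lit 459) ln14_13_1 ln14_13_1_ok))) (M (nat_lit 462) (B (L (nat_lit 461) ln10_13_0 ln10_13_0_ok) (L (nat_lit 463) ln11_13_0 ln11_13_0_ok))))) (B (M (nat_lit 395) (B (L (nat_lit 394) ln14_13_3 ln14_13_3_ok) (M (nat_lit 459) (B (L (nat_lit 458) ln14_13_1 ln14_13_1_ok) (M (nat_lit 491) (B (L (nat_lit 364) ln11_15_6 ln11_15_6_ok) (L (nat_lit 523) ln11_16_6 ln11_16_6_ok))))))) (M (nat_lit 426) (B (M (nat_lit 394) (B (L (nat_lit 393) ln13_13_3 ln13_13_3_ok) (L (nat_lit 395) ln14_13_3 ln14_13_3_ok))) (M (nat_lit 462) (B (L (nat_lit 461) ln10_13_0 ln10_13_0_ok) (L (nat_lit 463) ln11_13_0 ln11_13_0_ok))))))))))))) (B (M (nat_lit 460) (B (M (nat_lit 395) (B (M (nat_lit 430) (B (L (nat_lit 431) ln15_13_3 ln15_13_3_ok) (M (nat_lit 394) (B (L (nat_lit 393) ln9_12_0 ln9_12_0_ok) (L (nat_lit 427) ln14_13_3 ln14_13_3_ok)))))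 (B (M (nat_lit 430) (B (L (nat_lit 431) ln15_13_3 ln15_13_3_ok) (M (nat_lit 394) (B (L (nat_lit 397) ln10_12_0 ln10_12_0_ok) (L (nat_lit 427) ln14_13_3 ln14_13_3_ok))))) (B (M (nat_lit 492) (B (L (nat_lit 363) ln12_15_7 ln12_15_7_ok) (M (nat_lit 524) (B (L (nat_lit 427) ln12_16_7 ln12_16_7_ok) (L (nat_lit 397) ln12_16_6 ln12_16_6_ok))))) (M (nat_lit 430) (B (L (nat_lit 431) ln15_13_3 ln15_13_3_ok) (M (nat_lit 394) (B (L (nat_lit 393) ln9_12_0 ln9_12_0_ok) (L (nat_lit 397) ln10_12_0 ln10_12_0_ok))))))))) (B (M (nat_lit 459) (B (M (nat_lit 430) (B (L (nat_lit 431) ln15_13_1 ln15_13_1_ok) (M (nat_lit 458) (B (L (nat_lit 427) ln14_13_1 ln14_13_1_ok) (L (nat_lit 457) ln9_14_2 ln9_14_2_ok))))) (B (M (nat_lit 430) (B (L (nat_lit 431) ln15_13_1 ln15_13_1_ok) (M (nat_lit 458) (B (L (nat_lit 457) ln9_14_2 ln9_14_2_ok) (L (nat_lit 461) ln10_14_2 ln10_14_2_ok))))) (M (nat_lit 364) (B (L (nat_lit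 491) ln12_11_5 ln12_11_5_ok) (M (nat_lit 332) (B (L (nat_lit 427) ln12_10_5 ln12_10_5_ok) (L (nat_lit 461) ln12_10_4 ln12_10_4_ok)))))))) (B (M (nat_lit 395) (B (M (nat_lit 430) (B (L (nat_lit 431) ln15_13_3 ln15_13_3_ok) (M (nat_lit 394) (B (L (nat_lit 393) ln9_12_0 ln9_12_0_ok) (L (nat_lit 397) ln10_12_0 ln10_12_0_ok))))) (M (nat_lit 363) (B (L (nat_lit 492) ln12_15_7 ln12_15_7_ok) (M (nat_lit 331) (B (L (nat_lit 299) ln11_9_4 ln11_9_4_ok) (L (nat_lit 364) ln12_14_7 ln12_14_7_ok))))))) (M (nat_lit 364) (B (M (nat_lit 461) (B (L (nat_lit 332) ln12_10_4 ln12_10_4_ok) (L (nat_lit 493) ln12_11_4 ln12_11_4_ok))) (B (M (nat_lit 492) (B (M (nat_lit 491) (B (L (nat_lit 459) ln12_11_5 ln12_11_5_ok) (L (nat_lit 523) ln12_12_5 ln12_12_5_ok))) (M (nat_lit 493) (B (L (nat_lit 461) ln12_11_4 ln12_11_4_ok) (L (nat_lit 525) ln12_12_4 ln12_12_4_ok))))) (M (nat_lit 332) (B (M (nat_lit 331) (B (L (nat_lit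 299) ln12_13_7 ln12_13_7_ok) (L (nat_lit 363) ln12_14_7 ln12_14_7_ok))) (M (nat_lit 459) (B (L (nat_lit 427) ln12_10_5 ln12_10_5_ok) (L (nat_lit 491) ln12_11_5 ln12_11_5_ok)))))))))))) (B (M (nat_lit 364) (B (M (nat_lit 461) (B (L (nat_lit 332) ln12_10_4 ln12_10_4_ok) (M (nat_lit 493) (B (L (nat_lit 460) ln12_11_4 ln12_11_4_ok) (L (nat_lit 525) ln13_16_7 ln13_16_7_ok))))) (B (M (nat_lit 461) (B (M (nat_lit 493) (B (L (nat_lit 397) ln13_15_7 ln13_15_7_ok) (L (nat_lit 460) ln12_11_4 ln12_11_4_ok))) (B (M (nat_lit 493) (B (L (nat_lit 460) ln12_11_4 ln12_11_4_ok) (L (nat_lit 525) ln13_16_7 ln13_16_7_ok))) (B (M (nat_lit 493) (B (L (nat_lit 397) ln13_15_7 ln13_15_7_ok) (L (nat_lit 525) ln13_16_7 ln13_16_7_ok))) (M (nat_lit 460) (B (M (nat_lit 459) (B (L (nat_lit 491) ln12_11_5 ln12_11_5_ok) (M (nat_lit 430) (B (L (nat_lit 431) ln15_13_1 ln15_13_1_ok) (L (nat_lit 458) ln10_14_2 ln10_14_2_ok)))))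 (M (nat_lit 492) (B (M (nat_lit 363) (B (L (nat_lit 331) ln12_14_7 ln12_14_7_ok) (L (nat_lit 395) ln12_15_7 ln12_15_7_ok))) (M (nat_lit 524) (B (L (nat_lit 397) ln12_16_6 ln12_16_6_ok) (L (nat_lit 556) ln12_17_6 ln12_17_6_ok))))))))))) (B (M (nat_lit 461) (B (L (nat_lit 332) ln12_10_4 ln12_10_4_ok) (M (nat_lit 493) (B (L (nat_lit 397) ln13_15_7 ln13_15_7_ok) (L (nat_lit 525) ln13_16_7 ln13_16_7_ok))))) (B (M (nat_lit 460) (B (M (nat_lit 492) (B (M (nat_lit 363) (B (L (nat_lit 331) ln12_14_7 ln12_14_7_ok) (L (nat_lit 395) ln12_15_7 ln12_15_7_ok))) (M (nat_lit 491) (B (L (nat_lit 459) ln12_11_5 ln12_11_5_ok) (L (nat_lit 523) ln12_12_5 ln12_12_5_ok))))) (B (M (nat_lit 395) (B (M (nat_lit 430) (B (L (nat_lit 431) ln15_13_3 ln15_13_3_ok) (M (nat_lit 394) (B (L (nat_lit 393) ln9_12_0 ln9_12_0_ok) (L (nat_lit 397) ln10_12_0 ln10_12_0_ok))))) (M (nat_lit 492) (B (L (nat_lit 363) ln12_15_7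 ln12_15_7_ok) (M (nat_lit 491) (B (L (nat_lit 459) ln12_11_5 ln12_11_5_ok) (L (nat_lit 523) ln12_12_5 ln12_12_5_ok))))))) (B (M (nat_lit 492) (B (M (nat_lit 491) (B (L (nat_lit 459) ln12_11_5 ln12_11_5_ok) (L (nat_lit 523) ln12_12_5 ln12_12_5_ok))) (M (nat_lit 524) (B (L (nat_lit 397) ln12_16_6 ln12_16_6_ok) (M (nat_lit 525) (B (L (nat_lit 493) ln12_12_4 ln12_12_4_ok) (L (nat_lit 557) ln12_13_4 ln12_13_4_ok))))))) (B (M (nat_lit 395) (B (M (nat_lit 363) (B (L (nat_lit 331) ln12_14_7 ln12_14_7_ok) (L (nat_lit 492) ln12_15_7 ln12_15_7_ok))) (M (nat_lit 430) (B (L (nat_lit 431) ln15_13_3 ln15_13_3_ok) (M (nat_lit 394) (B (L (nat_lit 393) ln9_12_0 ln9_12_0_ok) (L (nat_lit 397) ln10_12_0 ln10_12_0_ok))))))) (M (nat_lit 332) (B (M (nat_lit 331) (B (L (nat_lit 299) ln12_13_7 ln12_13_7_ok) (L (nat_lit 363) ln12_14_7 ln12_14_7_ok))) (M (nat_lit 300) (B (L (nat_lit 397) ln12_9_4 ln12_9_4_ok)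 (M (nat_lit 301) (B (L (nat_lit 269) ln12_12_6 ln12_12_6_ok) (L (nat_lit 333) ln12_13_6 ln12_13_6_ok)))))))))))) (M (nat_lit 332) (B (L (nat_lit 461) ln12_10_4 ln12_10_4_ok) (M (nat_lit 300) (B (L (nat_lit 397) ln12_9_4 ln12_9_4_ok) (M (nat_lit 301) (B (L (nat_lit 269) ln12_12_6 ln12_12_6_ok) (L (nat_lit 333) ln12_13_6 ln12_13_6_ok)))))))))))) (B (K (nat_lit 2079502270752001762064242424960807725827516048677469043429686155012882190638009693656033379242457518153052022685796627120027336704) (nat_lit 5065326623348544116180787808641892573390195568262434199648524721785393585452892752070673064078059878412925070725944016454301699019546122782934804196689386134549006067987053019136) (nat_lit 5065326623348544116180787808641892573390195568262434199648524721785393585452892752070673064078059878412925070725944016454301699019546122782934804196689386134549006067987053019136) c41_s2603) (B c41_n2641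 (B c41_n2642 (M (nat_lit 430) (B (M (nat_lit 395) (B (L (nat_lit 431) ln15_13_3 ln15_13_3_ok) (M (nat_lit 394) (B (L (nat_lit 397) ln10_12_0 ln10_12_0_ok) (L (nat_lit 427) ln14_13_3 ln14_13_3_ok))))) (B (M (nat_lit 431) (B (L (nat_lit 395) ln15_13_3 ln15_13_3_ok) (M (nat_lit 400) (B (L (nat_lit 399) ln12_13_2 ln12_13_2_ok) (M (nat_lit 432) (B (L (nat_lit 397) ln16_13_3 ln16_13_3_ok) (L (nat_lit 401) ln13_13_2 ln13_13_2_ok))))))) (B (M (nat_lit 431) (B (M (nat_lit 400) (B (L (nat_lit 399) ln12_13_2 ln12_13_2_ok) (M (nat_lit 432) (B (L (nat_lit 397) ln16_13_3 ln16_13_3_ok) (L (nat_lit 401) ln13_13_2 ln13_13_2_ok))))) (M (nat_lit 427) (B (M (nat_lit 459) (B (L (nat_lit 458) ln14_13_1 ln14_13_1_ok) (L (nat_lit 460) ln15_13_1 ln15_13_1_ok))) (M (nat_lit 463) (B (L (nat_lit 462) ln11_13_0 ln11_13_0_ok) (L (nat_lit 464) ln12_13_0 ln12_13_0_ok))))))) (B (M (nat_lit 395) (B (L (nat_lit 431)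 ln15_13_3 ln15_13_3_ok) (M (nat_lit 394) (B (L (nat_lit 393) ln9_12_0 ln9_12_0_ok) (L (nat_lit 427) ln14_13_3 ln14_13_3_ok))))) (M (nat_lit 427) (B (M (nat_lit 395) (B (L (nat_lit 394) ln14_13_3 ln14_13_3_ok) (M (nat_lit 459) (B (L (nat_lit 458) ln14_13_1 ln14_13_1_ok) (M (nat_lit 491) (B (L (nat_lit 364) ln11_15_6 ln11_15_6_ok) (L (nat_lit 523) ln11_16_6 ln11_16_6_ok))))))) (B (M (nat_lit 426) (B (M (nat_lit 394) (B (L (nat_lit 393) ln13_13_3 ln13_13_3_ok) (L (nat_lit 395) ln14_13_3 ln14_13_3_ok))) (M (nat_lit 398) (B (L (nat_lit 397) ln10_13_2 ln10_13_2_ok) (L (nat_lit 399) ln11_13_2 ln11_13_2_ok))))) (M (nat_lit 426) (B (M (nat_lit 398) (B (L (nat_lit 397) ln10_13_2 ln10_13_2_ok) (L (nat_lit 399) ln11_13_2 ln11_13_2_ok))) (M (nat_lit 458) (B (L (nat_lit 457) ln13_13_1 ln13_13_1_ok) (L (nat_lit 459) ln14_13_1 ln14_13_1_ok))))))))))))))))))))))))) (nat_lit 1386334847221798047169638878925036799968406779833514899637066259859226863686603287896039777716422623628704219945445734162783797248)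 (nat_lit 5065326623820289419283480477672086896013729179647151207488180704302364362539063660195882073457223575177725424126924873534624435687133021920554531338059155479309025003285055012864) (nat_lit 5065326623820289419283480477672086896013729179647151207488180704302364362539063660195882073457223575177725424126924873534624435687133021920554531338059155479309025003285055012864) (by decide +kernel)
theorem c41_s2717 : Sem (nat_lit 2079502270752001762064242424960807725827516048677469043429686155012882190638009693656033379242457518153052022685796627120027336704) (nat_lit 384428669056820918565937647882905365833526548536184291077715113148144609306947667136669165835963180570246846700207889395334770726774905951270183499137699282944) (nat_lit 384428669056820918565937647882905365833526548536184291077715113148144609306947667136669165835963180570246846700207889395334770726774905951270183499137699282944)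 :=
  sem_of_chk (M (nat_lit 397) (B (M (nat_lit 398) (B (M (nat_lit 399) (B (L (nat_lit 427) ln15_12_1 ln15_12_1_ok) (L (nat_lit 400) ln16_12_1 ln16_12_1_ok))) (B (M (nat_lit 430) (B (M (nat_lit 395) (B (L (nat_lit 394) ln10_12_0 ln10_12_0_ok) (L (nat_lit 431) ln11_12_0 ln11_12_0_ok))) (M (nat_lit 462) (B (M (nat_lit 365) (B (L (nat_lit 333) ln13_10_4 ln13_10_4_ok) (L (nat_lit 494) ln14_15_7 ln14_15_7_ok))) (M (nat_lit 427) (B (L (nat_lit 426) ln10_13_2 ln10_13_2_ok) (L (nat_lit 463) ln11_13_0 ln11_13_0_ok))))))) (M (nat_lit 364) (B (M (nat_lit 399) (B (L (nat_lit 363) ln15_12_3 ln15_12_3_ok) (L (nat_lit 400) ln16_12_1 ln16_12_1_ok))) (M (nat_lit 461) (B (L (nat_lit 332) ln12_10_4 ln12_10_4_ok) (L (nat_lit 493) ln13_15_7 ln13_15_7_ok)))))))) (B (M (nat_lit 398) (B (M (nat_lit 399) (B (L (nat_lit 427) ln15_12_1 ln15_12_1_ok) (L (nat_lit 400) ln16_12_1 ln16_12_1_ok))) (B (M (nat_lit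 430) (B (M (nat_lit 395) (B (L (nat_lit 394) ln10_12_0 ln10_12_0_ok) (L (nat_lit 431) ln11_12_0 ln11_12_0_ok))) (M (nat_lit 462) (B (M (nat_lit 365) (B (L (nat_lit 333) ln13_10_4 ln13_10_4_ok) (L (nat_lit 494) ln14_15_7 ln14_15_7_ok))) (M (nat_lit 427) (B (L (nat_lit 426) ln10_13_2 ln10_13_2_ok) (L (nat_lit 463) ln11_13_0 ln11_13_0_ok))))))) (M (nat_lit 399) (B (L (nat_lit 400) ln16_12_1 ln16_12_1_ok) (M (nat_lit 395) (B (M (nat_lit 363) (B (L (nat_lit 362) ln14_12_3 ln14_12_3_ok) (L (nat_lit 364) ln15_12_3 ln15_12_3_ok))) (M (nat_lit 431) (B (L (nat_lit 430) ln11_12_0 ln11_12_0_ok) (L (nat_lit 432) ln12_12_0 ln12_12_0_ok)))))))))) (B (M (nat_lit 398) (B (M (nat_lit 399) (B (L (nat_lit 427) ln15_12_1 ln15_12_1_ok) (L (nat_lit 400) ln16_12_1 ln16_12_1_ok))) (B (M (nat_lit 430) (B (M (nat_lit 395) (B (L (nat_lit 394) ln10_12_0 ln10_12_0_ok) (L (nat_lit 431) ln11_12_0 ln11_12_0_ok)))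 (M (nat_lit 462) (B (M (nat_lit 494) (B (L (nat_lit 365) ln14_15_7 ln14_15_7_ok) (L (nat_lit 526) ln14_16_7 ln14_16_7_ok))) (M (nat_lit 427) (B (L (nat_lit 426) ln10_13_2 ln10_13_2_ok) (L (nat_lit 463) ln11_13_0 ln11_13_0_ok))))))) (M (nat_lit 364) (B (M (nat_lit 399) (B (L (nat_lit 363) ln15_12_3 ln15_12_3_ok) (L (nat_lit 400) ln16_12_1 ln16_12_1_ok))) (M (nat_lit 461) (B (L (nat_lit 332) ln12_10_4 ln12_10_4_ok) (L (nat_lit 493) ln13_15_7 ln13_15_7_ok)))))))) (B (M (nat_lit 461) (B (M (nat_lit 364) (B (L (nat_lit 332) ln12_10_4 ln12_10_4_ok) (L (nat_lit 493) ln13_15_7 ln13_15_7_ok))) (B (M (nat_lit 493) (B (L (nat_lit 364) ln13_15_7 ln13_15_7_ok) (L (nat_lit 525) ln13_16_7 ln13_16_7_ok))) (B (M (nat_lit 493) (B (L (nat_lit 525) ln13_16_7 ln13_16_7_ok) (M (nat_lit 365) (B (M (nat_lit 333) (B (L (nat_lit 301) ln13_9_5 ln13_9_5_ok) (L (nat_lit 460) ln13_10_5 ln13_10_5_ok))) (M (nat_lit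 494) (B (L (nat_lit 462) ln13_11_4 ln13_11_4_ok) (L (nat_lit 526) ln13_12_4 ln13_12_4_ok))))))) (M (nat_lit 430) (B (M (nat_lit 395) (B (L (nat_lit 394) ln10_12_0 ln10_12_0_ok) (L (nat_lit 431) ln15_13_3 ln15_13_3_ok))) (M (nat_lit 462) (B (M (nat_lit 365) (B (L (nat_lit 333) ln13_10_4 ln13_10_4_ok) (L (nat_lit 494) ln13_11_4 ln13_11_4_ok))) (M (nat_lit 463) (B (L (nat_lit 427) ln11_13_0 ln11_13_0_ok) (L (nat_lit 464) ln16_14_3 ln16_14_3_ok))))))))))) (B (M (nat_lit 398) (B (M (nat_lit 399) (B (L (nat_lit 427) ln15_12_1 ln15_12_1_ok) (L (nat_lit 400) ln16_12_1 ln16_12_1_ok))) (B (M (nat_lit 430) (B (M (nat_lit 395) (B (L (nat_lit 394) ln10_12_0 ln10_12_0_ok) (L (nat_lit 431) ln11_12_0 ln11_12_0_ok))) (M (nat_lit 462) (B (M (nat_lit 494) (B (L (nat_lit 365) ln14_15_7 ln14_15_7_ok) (L (nat_lit 526) ln14_16_7 ln14_16_7_ok))) (M (nat_lit 427) (B (L (nat_lit 426) ln10_13_2 ln10_13_2_ok)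 (L (nat_lit 463) ln11_13_0 ln11_13_0_ok))))))) (M (nat_lit 395) (B (M (nat_lit 394) (B (L (nat_lit 393) ln9_12_0 ln9_12_0_ok) (L (nat_lit 430) ln10_12_0 ln10_12_0_ok))) (B (M (nat_lit 430) (B (L (nat_lit 394) ln10_12_0 ln10_12_0_ok) (L (nat_lit 431) ln11_12_0 ln11_12_0_ok))) (B (M (nat_lit 399) (B (L (nat_lit 400) ln16_12_1 ln16_12_1_ok) (M (nat_lit 431) (B (L (nat_lit 430) ln11_12_0 ln11_12_0_ok) (L (nat_lit 432) ln12_12_0 ln12_12_0_ok))))) (M (nat_lit 394) (B (L (nat_lit 393) ln9_12_0 ln9_12_0_ok) (M (nat_lit 362) (B (L (nat_lit 361) ln13_12_3 ln13_12_3_ok) (L (nat_lit 363) ln14_12_3 ln14_12_3_ok)))))))))))) (B (M (nat_lit 427) (B (M (nat_lit 398) (B (L (nat_lit 399) ln15_12_1 ln15_12_1_ok) (L (nat_lit 426) ln10_13_2 ln10_13_2_ok))) (B (M (nat_lit 461) (B (M (nat_lit 493) (B (L (nat_lit 364) ln13_15_7 ln13_15_7_ok) (L (nat_lit 525) ln13_16_7 ln13_16_7_ok))) (M (nat_lit 426) (B (L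 (nat_lit 425) ln9_13_2 ln9_13_2_ok) (L (nat_lit 462) ln10_13_0 ln10_13_0_ok))))) (M (nat_lit 395) (B (M (nat_lit 394) (B (L (nat_lit 393) ln9_12_0 ln9_12_0_ok) (L (nat_lit 430) ln10_12_0 ln10_12_0_ok))) (B (M (nat_lit 430) (B (L (nat_lit 394) ln10_12_0 ln10_12_0_ok) (L (nat_lit 431) ln15_13_3 ln15_13_3_ok))) (M (nat_lit 363) (B (M (nat_lit 331) (B (L (nat_lit 299) ln11_9_4 ln11_9_4_ok) (L (nat_lit 460) ln11_10_4 ln11_10_4_ok))) (M (nat_lit 398) (B (L (nat_lit 362) ln14_12_3 ln14_12_3_ok) (L (nat_lit 399) ln15_12_1 ln15_12_1_ok))))))))))) (B (M (nat_lit 398) (B (M (nat_lit 399) (B (L (nat_lit 427) ln15_12_1 ln15_12_1_ok) (L (nat_lit 400) ln16_12_1 ln16_12_1_ok))) (B (M (nat_lit 430) (B (M (nat_lit 431) (B (L (nat_lit 395) ln11_12_0 ln11_12_0_ok) (L (nat_lit 432) ln16_13_3 ln16_13_3_ok))) (M (nat_lit 462) (B (M (nat_lit 365) (B (L (nat_lit 333) ln13_10_4 ln13_10_4_ok) (L (nat_lit 494)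 ln14_15_7 ln14_15_7_ok))) (M (nat_lit 427) (B (L (nat_lit 426) ln10_13_2 ln10_13_2_ok) (L (nat_lit 463) ln11_13_0 ln11_13_0_ok))))))) (M (nat_lit 364) (B (M (nat_lit 399) (B (L (nat_lit 363) ln15_12_3 ln15_12_3_ok) (L (nat_lit 400) ln16_12_1 ln16_12_1_ok))) (M (nat_lit 461) (B (L (nat_lit 332) ln12_10_4 ln12_10_4_ok) (L (nat_lit 493) ln13_15_7 ln13_15_7_ok)))))))) (B (M (nat_lit 461) (B (M (nat_lit 493) (B (L (nat_lit 364) ln13_15_7 ln13_15_7_ok) (L (nat_lit 525) ln13_16_7 ln13_16_7_ok))) (M (nat_lit 462) (B (M (nat_lit 365) (B (L (nat_lit 494) ln13_11_4 ln13_11_4_ok) (M (nat_lit 333) (B (L (nat_lit 301) ln13_9_5 ln13_9_5_ok) (L (nat_lit 430) ln13_10_4 ln13_10_4_ok))))) (B (M (nat_lit 365) (B (L (nat_lit 494) ln13_11_4 ln13_11_4_ok) (M (nat_lit 333) (B (L (nat_lit 460) ln13_10_5 ln13_10_5_ok) (L (nat_lit 430) ln13_10_4 ln13_10_4_ok))))) (B (M (nat_lit 427) (B (L (nat_lit 426) ln10_13_0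 ln10_13_0_ok) (M (nat_lit 463) (B (L (nat_lit 430) ln11_13_0 ln11_13_0_ok) (L (nat_lit 464) ln16_14_3 ln16_14_3_ok))))) (M (nat_lit 365) (B (L (nat_lit 494) ln13_11_4 ln13_11_4_ok) (M (nat_lit 333) (B (L (nat_lit 301) ln13_9_5 ln13_9_5_ok) (L (nat_lit 460) ln13_10_5 ln13_10_5_ok))))))))))) (B (M (nat_lit 365) (B (M (nat_lit 333) (B (L (nat_lit 301) ln13_9_5 ln13_9_5_ok) (L (nat_lit 460) ln13_10_5 ln13_10_5_ok))) (B (M (nat_lit 460) (B (L (nat_lit 333) ln13_10_5 ln13_10_5_ok) (L (nat_lit 492) ln12_15_6 ln12_15_6_ok))) (B (M (nat_lit 364) (B (M (nat_lit 461) (B (L (nat_lit 332) ln13_14_7 ln13_14_7_ok) (L (nat_lit 493) ln13_15_7 ln13_15_7_ok))) (M (nat_lit 363) (B (M (nat_lit 460) (B (L (nat_lit 331) ln12_14_7 ln12_14_7_ok) (L (nat_lit 492) ln12_15_6 ln12_15_6_ok))) (M (nat_lit 398) (B (L (nat_lit 362) ln10_11_0 ln10_11_0_ok) (L (nat_lit 399) ln15_12_3 ln15_12_3_ok))))))) (M (nat_lit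 430) (B (M (nat_lit 333) (B (L (nat_lit 301) ln13_9_5 ln13_9_5_ok) (L (nat_lit 462) ln13_10_4 ln13_10_4_ok))) (M (nat_lit 431) (B (L (nat_lit 395) ln15_13_3 ln15_13_3_ok) (L (nat_lit 432) ln16_13_3 ln16_13_3_ok))))))))) (B (M (nat_lit 461) (B (M (nat_lit 364) (B (L (nat_lit 332) ln12_10_4 ln12_10_4_ok) (L (nat_lit 493) ln13_15_7 ln13_15_7_ok))) (B (M (nat_lit 493) (B (L (nat_lit 364) ln13_15_7 ln13_15_7_ok) (L (nat_lit 525) ln13_16_7 ln13_16_7_ok))) (B (M (nat_lit 493) (B (L (nat_lit 525) ln13_16_7 ln13_16_7_ok) (M (nat_lit 365) (B (M (nat_lit 333) (B (L (nat_lit 301) ln13_9_5 ln13_9_5_ok) (L (nat_lit 460) ln13_10_5 ln13_10_5_ok))) (M (nat_lit 494) (B (L (nat_lit 462) ln13_11_4 ln13_11_4_ok) (L (nat_lit 526) ln13_12_4 ln13_12_4_ok))))))) (M (nat_lit 460) (B (M (nat_lit 365) (B (L (nat_lit 333) ln13_10_5 ln13_10_5_ok) (L (nat_lit 492) ln12_15_6 ln12_15_6_ok))) (B (M (nat_lit 492) (B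 (L (nat_lit 365) ln12_15_6 ln12_15_6_ok) (L (nat_lit 524) ln12_16_6 ln12_16_6_ok))) (B (M (nat_lit 492) (B (L (nat_lit 524) ln12_16_6 ln12_16_6_ok) (M (nat_lit 364) (B (L (nat_lit 332) ln12_10_4 ln12_10_4_ok) (M (nat_lit 363) (B (L (nat_lit 331) ln12_14_7 ln12_14_7_ok) (L (nat_lit 395) ln12_15_7 ln12_15_7_ok))))))) (M (nat_lit 462) (B (M (nat_lit 365) (B (L (nat_lit 333) ln13_10_5 ln13_10_5_ok) (L (nat_lit 494) ln13_11_4 ln13_11_4_ok))) (M (nat_lit 463) (B (L (nat_lit 427) ln15_14_3 ln15_14_3_ok) (L (nat_lit 464) ln16_14_3 ln16_14_3_ok))))))))))))) (M (nat_lit 395) (B (M (nat_lit 394) (B (L (nat_lit 393) ln9_12_0 ln9_12_0_ok) (L (nat_lit 430) ln10_12_0 ln10_12_0_ok))) (B (M (nat_lit 430) (B (L (nat_lit 394) ln10_12_0 ln10_12_0_ok) (L (nat_lit 431) ln15_13_3 ln15_13_3_ok))) (M (nat_lit 364) (B (M (nat_lit 461) (B (L (nat_lit 332) ln12_10_4 ln12_10_4_ok) (L (nat_lit 493) ln13_15_7 ln13_15_7_ok)))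 (M (nat_lit 363) (B (M (nat_lit 331) (B (L (nat_lit 299) ln11_9_4 ln11_9_4_ok) (L (nat_lit 460) ln12_14_7 ln12_14_7_ok))) (M (nat_lit 398) (B (L (nat_lit 362) ln14_12_3 ln14_12_3_ok) (L (nat_lit 399) ln15_12_3 ln15_12_3_ok))))))))))))))))))))) (nat_lit 2079502270752001762064242424960807725827516048677469043429686155012882190638009693656033379242457518153052022685796627120027336704) (nat_lit 384428669056820918565937647882905365833526548536184291077715113148144609306947667136669165835963180570246846700207889395334770726774905951270183499137699282944) (nat_lit 384428669056820918565937647882905365833526548536184291077715113148144609306947667136669165835963180570246846700207889395334770726774905951270183499137699282944) (by decide +kernel)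
theorem c41_s2718 : Sem (nat_lit 1386334847221798047169638878925036799968406779833514899637066259859226863686603287896039777716422623628704219945445734162783797248) (nat_lit 235872651963234194321127316268038632277888826655534174609752628392139172629279011983766715216912783775161151089232130563855479346782185820007614717110832642099922337792) (nat_lit 235872651963234194321127316268038632277888826655534174609752628392139172629279011983766715216912783775161151089232130563855479346782185820007614717110832642099922337792) :=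
  sem_of_chk (M (nat_lit 428) (B (M (nat_lit 364) (B (M (nat_lit 461) (B (L (nat_lit 332) ln12_10_4 ln12_10_4_ok) (M (nat_lit 493) (B (L (nat_lit 397) ln13_15_7 ln13_15_7_ok) (L (nat_lit 525) ln13_16_7 ln13_16_7_ok))))) (B (M (nat_lit 460) (B (M (nat_lit 365) (B (L (nat_lit 333) ln12_14_6 ln12_14_6_ok) (M (nat_lit 492) (B (L (nat_lit 397) ln12_15_6 ln12_15_6_ok) (M (nat_lit 491) (B (L (nat_lit 459) ln12_11_5 ln12_11_5_ok) (L (nat_lit 523) ln12_12_5 ln12_12_5_ok))))))) (B (M (nat_lit 492) (B (M (nat_lit 491) (B (L (nat_lit 459) ln12_11_5 ln12_11_5_ok) (L (nat_lit 523) ln12_12_5 ln12_12_5_ok))) (M (nat_lit 493) (B (L (nat_lit 461) ln12_11_4 ln12_11_4_ok) (L (nat_lit 525) ln12_12_4 ln12_12_4_ok))))) (B (M (nat_lit 492) (B (M (nat_lit 365) (B (L (nat_lit 333) ln12_14_6 ln12_14_6_ok) (L (nat_lit 397) ln12_15_6 ln12_15_6_ok))) (M (nat_lit 493) (B (L (nat_lit 461) ln12_11_4 ln12_11_4_ok)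 (L (nat_lit 525) ln12_12_4 ln12_12_4_ok))))) (M (nat_lit 461) (B (L (nat_lit 493) ln12_11_4 ln12_11_4_ok) (M (nat_lit 459) (B (L (nat_lit 491) ln12_11_5 ln12_11_5_ok) (M (nat_lit 430) (B (L (nat_lit 431) ln15_13_1 ln15_13_1_ok) (L (nat_lit 458) ln10_14_2 ln10_14_2_ok))))))))))) (B (M (nat_lit 461) (B (L (nat_lit 332) ln12_10_4 ln12_10_4_ok) (M (nat_lit 493) (B (L (nat_lit 460) ln12_11_4 ln12_11_4_ok) (L (nat_lit 525) ln13_16_7 ln13_16_7_ok))))) (M (nat_lit 460) (B (M (nat_lit 365) (B (L (nat_lit 333) ln12_14_6 ln12_14_6_ok) (M (nat_lit 492) (B (L (nat_lit 397) ln12_15_6 ln12_15_6_ok) (M (nat_lit 491) (B (L (nat_lit 459) ln12_11_5 ln12_11_5_ok) (L (nat_lit 523) ln12_12_5 ln12_12_5_ok))))))) (B (M (nat_lit 332) (B (M (nat_lit 331) (B (L (nat_lit 299) ln12_13_7 ln12_13_7_ok) (L (nat_lit 363) ln12_14_7 ln12_14_7_ok))) (M (nat_lit 459) (B (L (nat_lit 427) ln12_10_5 ln12_10_5_ok) (L (nat_lit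 491) ln12_11_5 ln12_11_5_ok))))) (M (nat_lit 365) (B (L (nat_lit 333) ln12_14_6 ln12_14_6_ok) (M (nat_lit 332) (B (M (nat_lit 331) (B (L (nat_lit 299) ln12_13_7 ln12_13_7_ok) (L (nat_lit 363) ln12_14_7 ln12_14_7_ok))) (M (nat_lit 397) (B (L (nat_lit 300) ln12_9_4 ln12_9_4_ok) (L (nat_lit 492) ln12_15_6 ln12_15_6_ok)))))))))))))) (B (M (nat_lit 427) (B (M (nat_lit 459) (B (M (nat_lit 430) (B (L (nat_lit 458) ln14_13_1 ln14_13_1_ok) (M (nat_lit 431) (B (L (nat_lit 395) ln15_13_3 ln15_13_3_ok) (L (nat_lit 460) ln15_13_1 ln15_13_1_ok))))) (B (M (nat_lit 460) (B (M (nat_lit 491) (B (L (nat_lit 364) ln12_11_5 ln12_11_5_ok) (L (nat_lit 523) ln11_16_6 ln11_16_6_ok))) (M (nat_lit 430) (B (L (nat_lit 458) ln14_13_1 ln14_13_1_ok) (L (nat_lit 431) ln15_13_1 ln15_13_1_ok))))) (B (M (nat_lit 491) (B (L (nat_lit 523) ln11_16_6 ln11_16_6_ok) (M (nat_lit 364) (B (L (nat_lit 395) ln11_15_6 ln11_15_6_ok)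 (L (nat_lit 460) ln12_11_5 ln12_11_5_ok))))) (M (nat_lit 395) (B (M (nat_lit 491) (B (L (nat_lit 364) ln11_15_6 ln11_15_6_ok) (L (nat_lit 523) ln11_16_6 ln11_16_6_ok))) (M (nat_lit 430) (B (L (nat_lit 431) ln15_13_3 ln15_13_3_ok) (L (nat_lit 458) ln14_13_1 ln14_13_1_ok))))))))) (B (M (nat_lit 430) (B (M (nat_lit 395) (B (L (nat_lit 394) ln14_13_3 ln14_13_3_ok) (L (nat_lit 431) ln15_13_3 ln15_13_3_ok))) (M (nat_lit 426) (B (M (nat_lit 458) (B (L (nat_lit 457) ln13_13_1 ln13_13_1_ok) (L (nat_lit 459) ln14_13_1 ln14_13_1_ok))) (M (nat_lit 462) (B (L (nat_lit 461) ln10_13_0 ln10_13_0_ok) (L (nat_lit 463) ln11_13_0 ln11_13_0_ok))))))) (B (M (nat_lit 461) (B (M (nat_lit 462) (B (L (nat_lit 426) ln10_13_0 ln10_13_0_ok) (M (nat_lit 463) (B (L (nat_lit 430) ln11_13_0 ln11_13_0_ok) (L (nat_lit 460) ln15_14_3 ln15_14_3_ok))))) (B (M (nat_lit 493) (B (L (nat_lit 525) ln13_16_7 ln13_16_7_ok) (M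 (nat_lit 364) (B (L (nat_lit 397) ln13_15_7 ln13_15_7_ok) (L (nat_lit 460) ln12_11_4 ln12_11_4_ok))))) (M (nat_lit 462) (B (L (nat_lit 426) ln10_13_0 ln10_13_0_ok) (M (nat_lit 463) (B (L (nat_lit 430) ln11_13_0 ln11_13_0_ok) (L (nat_lit 464) ln16_14_3 ln16_14_3_ok)))))))) (M (nat_lit 461) (B (M (nat_lit 462) (B (L (nat_lit 426) ln10_13_0 ln10_13_0_ok) (M (nat_lit 463) (B (L (nat_lit 460) ln15_14_3 ln15_14_3_ok) (L (nat_lit 464) ln16_14_3 ln16_14_3_ok))))) (B (M (nat_lit 493) (B (L (nat_lit 525) ln13_16_7 ln13_16_7_ok) (M (nat_lit 364) (B (L (nat_lit 397) ln13_15_7 ln13_15_7_ok) (L (nat_lit 460) ln12_11_4 ln12_11_4_ok))))) (M (nat_lit 397) (B (M (nat_lit 493) (B (L (nat_lit 364) ln13_15_7 ln13_15_7_ok) (L (nat_lit 525) ln13_16_7 ln13_16_7_ok))) (M (nat_lit 426) (B (L (nat_lit 425) ln9_13_2 ln9_13_2_ok) (L (nat_lit 462) ln10_13_0 ln10_13_0_ok)))))))))))) (B (M (nat_lit 430) (B (M (nat_lit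 395) (B (L (nat_lit 431) ln15_13_3 ln15_13_3_ok) (M (nat_lit 394) (B (L (nat_lit 397) ln10_12_0 ln10_12_0_ok) (L (nat_lit 427) ln14_13_3 ln14_13_3_ok))))) (B (M (nat_lit 431) (B (L (nat_lit 395) ln15_13_3 ln15_13_3_ok) (M (nat_lit 400) (B (L (nat_lit 399) ln12_13_2 ln12_13_2_ok) (M (nat_lit 432) (B (L (nat_lit 397) ln16_13_3 ln16_13_3_ok) (L (nat_lit 401) ln13_13_2 ln13_13_2_ok))))))) (B (M (nat_lit 431) (B (M (nat_lit 400) (B (L (nat_lit 399) ln12_13_2 ln12_13_2_ok) (M (nat_lit 432) (B (L (nat_lit 397) ln16_13_3 ln16_13_3_ok) (L (nat_lit 401) ln13_13_2 ln13_13_2_ok))))) (M (nat_lit 427) (B (M (nat_lit 459) (B (L (nat_lit 458) ln14_13_1 ln14_13_1_ok) (L (nat_lit 460) ln15_13_1 ln15_13_1_ok))) (M (nat_lit 463) (B (L (nat_lit 462) ln11_13_0 ln11_13_0_ok) (L (nat_lit 464) ln12_13_0 ln12_13_0_ok))))))) (B (M (nat_lit 395) (B (L (nat_lit 431) ln15_13_3 ln15_13_3_ok) (M (nat_lit 394) (B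 (L (nat_lit 393) ln9_12_0 ln9_12_0_ok) (L (nat_lit 427) ln14_13_3 ln14_13_3_ok))))) (M (nat_lit 427) (B (M (nat_lit 398) (B (L (nat_lit 399) ln11_13_2 ln11_13_2_ok) (M (nat_lit 426) (B (L (nat_lit 397) ln10_13_2 ln10_13_2_ok) (M (nat_lit 462) (B (L (nat_lit 461) ln10_13_0 ln10_13_0_ok) (L (nat_lit 463) ln11_13_0 ln11_13_0_ok))))))) (B (M (nat_lit 426) (B (M (nat_lit 458) (B (L (nat_lit 457) ln13_13_1 ln13_13_1_ok) (L (nat_lit 459) ln14_13_1 ln14_13_1_ok))) (M (nat_lit 462) (B (L (nat_lit 461) ln10_13_0 ln10_13_0_ok) (L (nat_lit 463) ln11_13_0 ln11_13_0_ok))))) (B (M (nat_lit 397) (B (M (nat_lit 398) (B (L (nat_lit 399) ln15_12_1 ln15_12_1_ok) (M (nat_lit 462) (B (L (nat_lit 463) ln11_13_0 ln11_13_0_ok) (M (nat_lit 494) (B (L (nat_lit 365) ln14_15_7 ln14_15_7_ok) (L (nat_lit 526) ln14_16_7 ln14_16_7_ok))))))) (B (M (nat_lit 395) (B (L (nat_lit 394) ln10_12_0 ln10_12_0_ok) (M (nat_lit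 363) (B (M (nat_lit 331) (B (L (nat_lit 299) ln11_9_4 ln11_9_4_ok) (L (nat_lit 460) ln11_10_4 ln11_10_4_ok))) (M (nat_lit 398) (B (L (nat_lit 362) ln14_12_3 ln14_12_3_ok) (L (nat_lit 399) ln15_12_1 ln15_12_1_ok))))))) (M (nat_lit 462) (B (L (nat_lit 463) ln11_13_0 ln11_13_0_ok) (M (nat_lit 365) (B (L (nat_lit 333) ln13_10_4 ln13_10_4_ok) (M (nat_lit 494) (B (L (nat_lit 461) ln13_11_4 ln13_11_4_ok) (L (nat_lit 526) ln14_16_7 ln14_16_7_ok)))))))))) (M (nat_lit 426) (B (M (nat_lit 398) (B (L (nat_lit 397) ln10_13_2 ln10_13_2_ok) (L (nat_lit 399) ln11_13_2 ln11_13_2_ok))) (M (nat_lit 458) (B (L (nat_lit 457) ln13_13_1 ln13_13_1_ok) (L (nat_lit 459) ln14_13_1 ln14_13_1_ok)))))))))))))) (B (M (nat_lit 430) (B (M (nat_lit 395) (B (L (nat_lit 431) ln15_13_3 ln15_13_3_ok) (M (nat_lit 394) (B (L (nat_lit 393) ln9_12_0 ln9_12_0_ok) (L (nat_lit 427) ln14_13_3 ln14_13_3_ok))))) (B (M (nat_lit 461)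 (B (M (nat_lit 364) (B (L (nat_lit 332) ln12_10_4 ln12_10_4_ok) (M (nat_lit 493) (B (L (nat_lit 460) ln12_11_4 ln12_11_4_ok) (L (nat_lit 525) ln13_16_7 ln13_16_7_ok))))) (B (M (nat_lit 431) (B (L (nat_lit 395) ln15_13_3 ln15_13_3_ok) (M (nat_lit 460) (B (L (nat_lit 459) ln15_13_1 ln15_13_1_ok) (L (nat_lit 432) ln16_13_1 ln16_13_1_ok))))) (M (nat_lit 427) (B (M (nat_lit 395) (B (L (nat_lit 394) ln14_13_3 ln14_13_3_ok) (L (nat_lit 431) ln15_13_3 ln15_13_3_ok))) (M (nat_lit 462) (B (L (nat_lit 426) ln10_13_0 ln10_13_0_ok) (L (nat_lit 463) ln11_13_0 ln11_13_0_ok)))))))) (B (M (nat_lit 431) (B (L (nat_lit 395) ln15_13_3 ln15_13_3_ok) (M (nat_lit 427) (B (M (nat_lit 399) (B (L (nat_lit 398) ln11_13_2 ln11_13_2_ok) (L (nat_lit 400) ln12_13_2 ln12_13_2_ok))) (M (nat_lit 459) (B (L (nat_lit 458) ln14_13_1 ln14_13_1_ok) (L (nat_lit 460) ln15_13_1 ln15_13_1_ok))))))) (B (M (nat_lit 427) (B (M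 (nat_lit 459) (B (L (nat_lit 458) ln14_13_1 ln14_13_1_ok) (M (nat_lit 460) (B (L (nat_lit 431) ln15_13_1 ln15_13_1_ok) (M (nat_lit 491) (B (L (nat_lit 364) ln12_11_5 ln12_11_5_ok) (L (nat_lit 523) ln11_16_6 ln11_16_6_ok))))))) (B (M (nat_lit 426) (B (M (nat_lit 458) (B (L (nat_lit 457) ln13_13_1 ln13_13_1_ok) (L (nat_lit 459) ln14_13_1 ln14_13_1_ok))) (M (nat_lit 462) (B (L (nat_lit 461) ln10_13_0 ln10_13_0_ok) (L (nat_lit 463) ln11_13_0 ln11_13_0_ok))))) (M (nat_lit 461) (B (M (nat_lit 462) (B (L (nat_lit 426) ln10_13_0 ln10_13_0_ok) (L (nat_lit 463) ln11_13_0 ln11_13_0_ok))) (M (nat_lit 364) (B (L (nat_lit 332) ln12_10_4 ln12_10_4_ok) (M (nat_lit 493) (B (L (nat_lit 460) ln12_11_4 ln12_11_4_ok) (L (nat_lit 525) ln13_16_7 ln13_16_7_ok)))))))))) (B (M (nat_lit 431) (B (L (nat_lit 395) ln15_13_3 ln15_13_3_ok) (M (nat_lit 432) (B (M (nat_lit 400) (B (L (nat_lit 399) ln12_13_2 ln12_13_2_ok)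 (L (nat_lit 401) ln13_13_2 ln13_13_2_ok))) (M (nat_lit 460) (B (L (nat_lit 459) ln15_13_1 ln15_13_1_ok) (L (nat_lit 461) ln16_13_1 ln16_13_1_ok))))))) (M (nat_lit 427) (B (M (nat_lit 426) (B (M (nat_lit 458) (B (L (nat_lit 457) ln13_13_1 ln13_13_1_ok) (L (nat_lit 459) ln14_13_1 ln14_13_1_ok))) (M (nat_lit 462) (B (L (nat_lit 461) ln10_13_0 ln10_13_0_ok) (L (nat_lit 463) ln11_13_0 ln11_13_0_ok))))) (B (M (nat_lit 395) (B (L (nat_lit 394) ln14_13_3 ln14_13_3_ok) (M (nat_lit 459) (B (L (nat_lit 458) ln14_13_1 ln14_13_1_ok) (M (nat_lit 491) (B (L (nat_lit 364) ln11_15_6 ln11_15_6_ok) (L (nat_lit 523) ln11_16_6 ln11_16_6_ok))))))) (M (nat_lit 426) (B (M (nat_lit 394) (B (L (nat_lit 393) ln13_13_3 ln13_13_3_ok) (L (nat_lit 395) ln14_13_3 ln14_13_3_ok))) (M (nat_lit 462) (B (L (nat_lit 461) ln10_13_0 ln10_13_0_ok) (L (nat_lit 463) ln11_13_0 ln11_13_0_ok)))))))))))))) (B (M (nat_lit 364) (B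 (M (nat_lit 461) (B (L (nat_lit 332) ln12_10_4 ln12_10_4_ok) (M (nat_lit 493) (B (L (nat_lit 397) ln13_15_7 ln13_15_7_ok) (L (nat_lit 525) ln13_16_7 ln13_16_7_ok))))) (B (M (nat_lit 461) (B (M (nat_lit 493) (B (L (nat_lit 397) ln13_15_7 ln13_15_7_ok) (L (nat_lit 460) ln12_11_4 ln12_11_4_ok))) (B (M (nat_lit 493) (B (L (nat_lit 460) ln12_11_4 ln12_11_4_ok) (L (nat_lit 525) ln13_16_7 ln13_16_7_ok))) (B (M (nat_lit 493) (B (L (nat_lit 397) ln13_15_7 ln13_15_7_ok) (L (nat_lit 525) ln13_16_7 ln13_16_7_ok))) (M (nat_lit 460) (B (M (nat_lit 459) (B (L (nat_lit 491) ln12_11_5 ln12_11_5_ok) (M (nat_lit 430) (B (L (nat_lit 431) ln15_13_1 ln15_13_1_ok) (L (nat_lit 458) ln10_14_2 ln10_14_2_ok))))) (M (nat_lit 492) (B (M (nat_lit 363) (B (L (nat_lit 331) ln12_14_7 ln12_14_7_ok) (L (nat_lit 395) ln12_15_7 ln12_15_7_ok))) (M (nat_lit 524) (B (L (nat_lit 397) ln12_16_6 ln12_16_6_ok) (L (nat_lit 556)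 ln12_17_6 ln12_17_6_ok))))))))))) (B (M (nat_lit 461) (B (L (nat_lit 332) ln12_10_4 ln12_10_4_ok) (M (nat_lit 493) (B (L (nat_lit 460) ln12_11_4 ln12_11_4_ok) (L (nat_lit 525) ln13_16_7 ln13_16_7_ok))))) (M (nat_lit 460) (B (M (nat_lit 492) (B (M (nat_lit 363) (B (L (nat_lit 331) ln12_14_7 ln12_14_7_ok) (L (nat_lit 395) ln12_15_7 ln12_15_7_ok))) (M (nat_lit 491) (B (L (nat_lit 459) ln12_11_5 ln12_11_5_ok) (L (nat_lit 523) ln12_12_5 ln12_12_5_ok))))) (B (M (nat_lit 365) (B (L (nat_lit 333) ln12_14_6 ln12_14_6_ok) (M (nat_lit 492) (B (L (nat_lit 397) ln12_15_6 ln12_15_6_ok) (M (nat_lit 491) (B (L (nat_lit 459) ln12_11_5 ln12_11_5_ok) (L (nat_lit 523) ln12_12_5 ln12_12_5_ok))))))) (B (M (nat_lit 492) (B (M (nat_lit 363) (B (L (nat_lit 331) ln12_14_7 ln12_14_7_ok) (L (nat_lit 395) ln12_15_7 ln12_15_7_ok))) (M (nat_lit 365) (B (L (nat_lit 333) ln12_14_6 ln12_14_6_ok) (L (nat_lit 397) ln12_15_6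 ln12_15_6_ok))))) (M (nat_lit 332) (B (M (nat_lit 331) (B (L (nat_lit 299) ln12_13_7 ln12_13_7_ok) (L (nat_lit 363) ln12_14_7 ln12_14_7_ok))) (M (nat_lit 333) (B (L (nat_lit 301) ln12_13_6 ln12_13_6_ok) (L (nat_lit 365) ln12_14_6 ln12_14_6_ok))))))))))))) (B (M (nat_lit 364) (B (M (nat_lit 461) (B (L (nat_lit 332) ln12_10_4 ln12_10_4_ok) (M (nat_lit 493) (B (L (nat_lit 460) ln12_11_4 ln12_11_4_ok) (L (nat_lit 525) ln13_16_7 ln13_16_7_ok))))) (B (M (nat_lit 461) (B (M (nat_lit 493) (B (L (nat_lit 397) ln13_15_7 ln13_15_7_ok) (L (nat_lit 460) ln12_11_4 ln12_11_4_ok))) (B (M (nat_lit 493) (B (L (nat_lit 460) ln12_11_4 ln12_11_4_ok) (L (nat_lit 525) ln13_16_7 ln13_16_7_ok))) (B (M (nat_lit 493) (B (L (nat_lit 397) ln13_15_7 ln13_15_7_ok) (L (nat_lit 525) ln13_16_7 ln13_16_7_ok))) (M (nat_lit 460) (B (M (nat_lit 365) (B (L (nat_lit 333) ln12_14_6 ln12_14_6_ok) (M (nat_lit 492) (B (L (nat_lit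 397) ln12_15_6 ln12_15_6_ok) (M (nat_lit 491) (B (L (nat_lit 459) ln12_11_5 ln12_11_5_ok) (L (nat_lit 523) ln12_12_5 ln12_12_5_ok))))))) (B (M (nat_lit 492) (B (M (nat_lit 491) (B (L (nat_lit 459) ln12_11_5 ln12_11_5_ok) (L (nat_lit 523) ln12_12_5 ln12_12_5_ok))) (M (nat_lit 524) (B (L (nat_lit 397) ln12_16_6 ln12_16_6_ok) (L (nat_lit 556) ln12_17_6 ln12_17_6_ok))))) (B (M (nat_lit 427) (B (M (nat_lit 426) (B (L (nat_lit 425) ln9_13_0 ln9_13_0_ok) (L (nat_lit 462) ln10_13_0 ln10_13_0_ok))) (M (nat_lit 492) (B (M (nat_lit 491) (B (L (nat_lit 459) ln12_11_5 ln12_11_5_ok) (L (nat_lit 523) ln12_12_5 ln12_12_5_ok))) (M (nat_lit 524) (B (L (nat_lit 395) ln12_16_7 ln12_16_7_ok) (L (nat_lit 556) ln12_17_6 ln12_17_6_ok))))))) (B (M (nat_lit 365) (B (L (nat_lit 333) ln12_14_6 ln12_14_6_ok) (M (nat_lit 462) (B (M (nat_lit 397) (B (L (nat_lit 492) ln12_15_6 ln12_15_6_ok) (L (nat_lit 494) ln13_11_4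 ln13_11_4_ok))) (M (nat_lit 463) (B (L (nat_lit 427) ln15_14_3 ln15_14_3_ok) (L (nat_lit 464) ln16_14_3 ln16_14_3_ok))))))) (M (nat_lit 462) (B (M (nat_lit 427) (B (L (nat_lit 426) ln10_13_0 ln10_13_0_ok) (L (nat_lit 463) ln15_14_3 ln15_14_3_ok))) (M (nat_lit 494) (B (M (nat_lit 365) (B (L (nat_lit 333) ln12_14_6 ln12_14_6_ok) (L (nat_lit 397) ln13_11_4 ln13_11_4_ok))) (M (nat_lit 459) (B (L (nat_lit 491) ln12_11_5 ln12_11_5_ok) (L (nat_lit 495) ln11_14_0 ln11_14_0_ok)))))))))))))))) (B (M (nat_lit 461) (B (L (nat_lit 332) ln12_10_4 ln12_10_4_ok) (M (nat_lit 493) (B (L (nat_lit 397) ln13_15_7 ln13_15_7_ok) (L (nat_lit 525) ln13_16_7 ln13_16_7_ok))))) (M (nat_lit 332) (B (M (nat_lit 300) (B (L (nat_lit 397) ln12_9_4 ln12_9_4_ok) (M (nat_lit 427) (B (L (nat_lit 395) ln12_9_5 ln12_9_5_ok) (L (nat_lit 459) ln12_10_5 ln12_10_5_ok))))) (M (nat_lit 460) (B (M (nat_lit 331) (B (L (nat_lit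 299) ln12_13_7 ln12_13_7_ok) (L (nat_lit 363) ln12_14_7 ln12_14_7_ok))) (M (nat_lit 333) (B (L (nat_lit 301) ln12_13_6 ln12_13_6_ok) (L (nat_lit 365) ln12_14_6 ln12_14_6_ok))))))))))) (B (K (nat_lit 2079502270752001762064242424960807725827516048677469043429686155012882190638009693656033379242457518153052022685796627120027336704) (nat_lit 384428669056820918565937647882905365833526548536184291077715113148144609306947667136669165835963180570246846700207889395334770726774905951270183499137699282944) (nat_lit 384428669056820918565937647882905365833526548536184291077715113148144609306947667136669165835963180570246846700207889395334770726774905951270183499137699282944) c41_s2717) (B (M (nat_lit 430) (B (M (nat_lit 395) (B (L (nat_lit 431) ln15_13_3 ln15_13_3_ok) (M (nat_lit 394) (B (L (nat_lit 393) ln9_12_0 ln9_12_0_ok) (L (nat_lit 397) ln10_12_0 ln10_12_0_ok))))) (B (M (nat_lit 395) (B (L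 (nat_lit 431) ln15_13_3 ln15_13_3_ok) (M (nat_lit 394) (B (L (nat_lit 397) ln10_12_0 ln10_12_0_ok) (L (nat_lit 427) ln14_13_3 ln14_13_3_ok))))) (B (M (nat_lit 431) (B (L (nat_lit 395) ln15_13_3 ln15_13_3_ok) (M (nat_lit 427) (B (M (nat_lit 399) (B (L (nat_lit 398) ln11_13_2 ln11_13_2_ok) (L (nat_lit 400) ln12_13_2 ln12_13_2_ok))) (M (nat_lit 463) (B (L (nat_lit 462) ln11_13_0 ln11_13_0_ok) (L (nat_lit 464) ln12_13_0 ln12_13_0_ok))))))) (B (M (nat_lit 427) (B (M (nat_lit 426) (B (M (nat_lit 458) (B (L (nat_lit 457) ln13_13_1 ln13_13_1_ok) (L (nat_lit 459) ln14_13_1 ln14_13_1_ok))) (M (nat_lit 462) (B (L (nat_lit 461) ln10_13_0 ln10_13_0_ok) (L (nat_lit 463) ln11_13_0 ln11_13_0_ok))))) (B (M (nat_lit 431) (B (M (nat_lit 399) (B (L (nat_lit 398) ln11_13_2 ln11_13_2_ok) (L (nat_lit 400) ln12_13_2 ln12_13_2_ok))) (M (nat_lit 463) (B (L (nat_lit 462) ln11_13_0 ln11_13_0_ok) (L (nat_lit 464)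 ln12_13_0 ln12_13_0_ok))))) (M (nat_lit 426) (B (M (nat_lit 397) (B (L (nat_lit 425) ln9_13_2 ln9_13_2_ok) (L (nat_lit 398) ln10_13_2 ln10_13_2_ok))) (M (nat_lit 458) (B (L (nat_lit 457) ln13_13_1 ln13_13_1_ok) (L (nat_lit 459) ln14_13_1 ln14_13_1_ok)))))))) (M (nat_lit 395) (B (M (nat_lit 394) (B (L (nat_lit 393) ln9_12_0 ln9_12_0_ok) (L (nat_lit 397) ln10_12_0 ln10_12_0_ok))) (B (M (nat_lit 394) (B (L (nat_lit 397) ln10_12_0 ln10_12_0_ok) (L (nat_lit 427) ln14_13_3 ln14_13_3_ok))) (B (M (nat_lit 427) (B (M (nat_lit 459) (B (L (nat_lit 458) ln14_13_1 ln14_13_1_ok) (M (nat_lit 491) (B (L (nat_lit 364) ln11_15_6 ln11_15_6_ok) (L (nat_lit 523) ln11_16_6 ln11_16_6_ok))))) (M (nat_lit 426) (B (M (nat_lit 398) (B (L (nat_lit 397) ln14_12_1 ln14_12_1_ok) (L (nat_lit 399) ln11_13_2 ln11_13_2_ok))) (M (nat_lit 462) (B (L (nat_lit 461) ln10_13_0 ln10_13_0_ok) (L (nat_lit 463) ln11_13_0 ln11_13_0_ok)))))))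 (M (nat_lit 394) (B (L (nat_lit 393) ln9_12_0 ln9_12_0_ok) (L (nat_lit 427) ln14_13_3 ln14_13_3_ok)))))))))))) (M (nat_lit 430) (B (M (nat_lit 395) (B (L (nat_lit 431) ln15_13_3 ln15_13_3_ok) (M (nat_lit 394) (B (L (nat_lit 397) ln10_12_0 ln10_12_0_ok) (L (nat_lit 427) ln14_13_3 ln14_13_3_ok))))) (B (M (nat_lit 431) (B (L (nat_lit 395) ln15_13_3 ln15_13_3_ok) (M (nat_lit 400) (B (L (nat_lit 399) ln12_13_2 ln12_13_2_ok) (M (nat_lit 432) (B (L (nat_lit 397) ln16_13_3 ln16_13_3_ok) (L (nat_lit 401) ln13_13_2 ln13_13_2_ok))))))) (B (M (nat_lit 431) (B (M (nat_lit 400) (B (L (nat_lit 399) ln12_13_2 ln12_13_2_ok) (M (nat_lit 432) (B (L (nat_lit 397) ln16_13_3 ln16_13_3_ok) (L (nat_lit 401) ln13_13_2 ln13_13_2_ok))))) (M (nat_lit 427) (B (M (nat_lit 459) (B (L (nat_lit 458) ln14_13_1 ln14_13_1_ok) (L (nat_lit 460) ln15_13_1 ln15_13_1_ok))) (M (nat_lit 463) (B (L (nat_lit 462) ln11_13_0 ln11_13_0_ok)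 (L (nat_lit 464) ln12_13_0 ln12_13_0_ok))))))) (B (M (nat_lit 395) (B (L (nat_lit 431) ln15_13_3 ln15_13_3_ok) (M (nat_lit 394) (B (L (nat_lit 393) ln9_12_0 ln9_12_0_ok) (L (nat_lit 427) ln14_13_3 ln14_13_3_ok))))) (M (nat_lit 427) (B (M (nat_lit 395) (B (L (nat_lit 394) ln14_13_3 ln14_13_3_ok) (M (nat_lit 459) (B (L (nat_lit 458) ln14_13_1 ln14_13_1_ok) (M (nat_lit 491) (B (L (nat_lit 364) ln11_15_6 ln11_15_6_ok) (L (nat_lit 523) ln11_16_6 ln11_16_6_ok))))))) (B (M (nat_lit 426) (B (M (nat_lit 394) (B (L (nat_lit 393) ln13_13_3 ln13_13_3_ok) (L (nat_lit 395) ln14_13_3 ln14_13_3_ok))) (M (nat_lit 398) (B (L (nat_lit 397) ln10_13_2 ln10_13_2_ok) (L (nat_lit 399) ln11_13_2 ln11_13_2_ok))))) (M (nat_lit 426) (B (M (nat_lit 398) (B (L (nat_lit 397) ln10_13_2 ln10_13_2_ok) (L (nat_lit 399) ln11_13_2 ln11_13_2_ok))) (M (nat_lit 458) (B (L (nat_lit 457) ln13_13_1 ln13_13_1_ok) (L (nat_lit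 459) ln14_13_1 ln14_13_1_ok)))))))))))))))))))))) (nat_lit 1386334847221798047169638878925036799968406779833514899637066259859226863686603287896039777716422623628704219945445734162783797248) (nat_lit 235872651963234194321127316268038632277888826655534174609752628392139172629279011983766715216912783775161151089232130563855479346782185820007614717110832642099922337792) (nat_lit 235872651963234194321127316268038632277888826655534174609752628392139172629279011983766715216912783775161151089232130563855479346782185820007614717110832642099922337792) (by decide +kernel)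
noncomputable def c41_n2728 : Cert := (M (nat_lit 430) (B (M (nat_lit 395) (B (L (nat_lit 431) ln15_13_3 ln15_13_3_ok) (M (nat_lit 427) (B (L (nat_lit 394) ln14_13_3 ln14_13_3_ok) (M (nat_lit 459) (B (L (nat_lit 458) ln14_13_1 ln14_13_1_ok) (M (nat_lit 491) (B (L (nat_lit 364) ln11_15_6 ln11_15_6_ok) (L (nat_lit 523) ln11_16_6 ln11_16_6_ok))))))))) (B (M (nat_lit 431) (B (L (nat_lit 395) ln15_13_3 ln15_13_3_ok) (M (nat_lit 427) (B (M (nat_lit 459) (B (L (nat_lit 458) ln14_13_1 ln14_13_1_ok) (L (nat_lit 460) ln15_13_1 ln15_13_1_ok))) (M (nat_lit 463) (B (L (nat_lit 462) ln11_13_0 ln11_13_0_ok) (L (nat_lit 464) ln12_13_0 ln12_13_0_ok))))))) (B (M (nat_lit 461) (B (M (nat_lit 364) (B (L (nat_lit 332) ln12_10_4 ln12_10_4_ok) (M (nat_lit 493) (B (L (nat_lit 460) ln12_11_4 ln12_11_4_ok) (L (nat_lit 525) ln13_16_7 ln13_16_7_ok))))) (B (M (nat_lit 460) (B (M (nat_lit 493) (B (L (nat_lit 364)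 ln12_11_4 ln12_11_4_ok) (L (nat_lit 525) ln13_16_7 ln13_16_7_ok))) (M (nat_lit 459) (B (L (nat_lit 431) ln15_13_1 ln15_13_1_ok) (L (nat_lit 458) ln10_14_2 ln10_14_2_ok))))) (B (M (nat_lit 427) (B (M (nat_lit 462) (B (L (nat_lit 426) ln10_13_0 ln10_13_0_ok) (L (nat_lit 463) ln11_13_0 ln11_13_0_ok))) (M (nat_lit 431) (B (M (nat_lit 399) (B (L (nat_lit 398) ln11_13_2 ln11_13_2_ok) (L (nat_lit 400) ln12_13_2 ln12_13_2_ok))) (M (nat_lit 459) (B (L (nat_lit 458) ln14_13_1 ln14_13_1_ok) (L (nat_lit 460) ln15_13_1 ln15_13_1_ok))))))) (M (nat_lit 398) (B (M (nat_lit 493) (B (L (nat_lit 525) ln13_16_7 ln13_16_7_ok) (M (nat_lit 366) (B (L (nat_lit 334) ln14_10_5 ln14_10_5_ok) (L (nat_lit 462) ln14_11_5 ln14_11_5_ok))))) (M (nat_lit 399) (B (L (nat_lit 427) ln11_13_2 ln11_13_2_ok) (M (nat_lit 400) (B (L (nat_lit 401) ln17_12_1 ln17_12_1_ok) (L (nat_lit 431) ln12_13_2 ln12_13_2_ok))))))))))) (B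 (M (nat_lit 431) (B (L (nat_lit 395) ln15_13_3 ln15_13_3_ok) (M (nat_lit 432) (B (M (nat_lit 400) (B (L (nat_lit 399) ln12_13_2 ln12_13_2_ok) (L (nat_lit 401) ln13_13_2 ln13_13_2_ok))) (M (nat_lit 460) (B (L (nat_lit 459) ln15_13_1 ln15_13_1_ok) (L (nat_lit 461) ln16_13_1 ln16_13_1_ok))))))) (B (M (nat_lit 427) (B (M (nat_lit 395) (B (L (nat_lit 394) ln14_13_3 ln14_13_3_ok) (M (nat_lit 459) (B (L (nat_lit 458) ln14_13_1 ln14_13_1_ok) (M (nat_lit 491) (B (L (nat_lit 364) ln11_15_6 ln11_15_6_ok) (L (nat_lit 523) ln11_16_6 ln11_16_6_ok))))))) (B (M (nat_lit 426) (B (M (nat_lit 458) (B (L (nat_lit 457) ln13_13_1 ln13_13_1_ok) (L (nat_lit 459) ln14_13_1 ln14_13_1_ok))) (M (nat_lit 462) (B (L (nat_lit 461) ln10_13_0 ln10_13_0_ok) (L (nat_lit 463) ln11_13_0 ln11_13_0_ok))))) (M (nat_lit 461) (B (M (nat_lit 462) (B (L (nat_lit 426) ln10_13_0 ln10_13_0_ok) (L (nat_lit 463) ln11_13_0 ln11_13_0_ok)))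 (M (nat_lit 364) (B (L (nat_lit 332) ln12_10_4 ln12_10_4_ok) (M (nat_lit 493) (B (L (nat_lit 460) ln12_11_4 ln12_11_4_ok) (L (nat_lit 525) ln13_16_7 ln13_16_7_ok)))))))))) (M (nat_lit 461) (B (M (nat_lit 364) (B (L (nat_lit 332) ln12_10_4 ln12_10_4_ok) (M (nat_lit 493) (B (L (nat_lit 460) ln12_11_4 ln12_11_4_ok) (L (nat_lit 525) ln13_16_7 ln13_16_7_ok))))) (M (nat_lit 427) (B (M (nat_lit 395) (B (L (nat_lit 394) ln14_13_3 ln14_13_3_ok) (L (nat_lit 431) ln15_13_3 ln15_13_3_ok))) (M (nat_lit 462) (B (L (nat_lit 426) ln10_13_0 ln10_13_0_ok) (L (nat_lit 463) ln11_13_0 ln11_13_0_ok)))))))))))))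
noncomputable def c41_n2730 : Cert := (M (nat_lit 430) (B (M (nat_lit 395) (B (L (nat_lit 431) ln15_13_3 ln15_13_3_ok) (M (nat_lit 394) (B (L (nat_lit 397) ln10_12_0 ln10_12_0_ok) (L (nat_lit 427) ln14_13_3 ln14_13_3_ok))))) (B (M (nat_lit 431) (B (L (nat_lit 395) ln15_13_3 ln15_13_3_ok) (M (nat_lit 400) (B (L (nat_lit 399) ln12_13_2 ln12_13_2_ok) (M (nat_lit 432) (B (L (nat_lit 397) ln16_13_3 ln16_13_3_ok) (L (nat_lit 401) ln13_13_2 ln13_13_2_ok))))))) (B (M (nat_lit 461) (B (M (nat_lit 364) (B (L (nat_lit 332) ln12_10_4 ln12_10_4_ok) (M (nat_lit 493) (B (L (nat_lit 397) ln13_15_7 ln13_15_7_ok) (L (nat_lit 525) ln13_16_7 ln13_16_7_ok))))) (B (M (nat_lit 493) (B (L (nat_lit 525) ln13_16_7 ln13_16_7_ok) (M (nat_lit 364) (B (L (nat_lit 397) ln13_15_7 ln13_15_7_ok) (L (nat_lit 460) ln12_11_4 ln12_11_4_ok))))) (B (M (nat_lit 427) (B (M (nat_lit 462) (B (L (nat_lit 426) ln10_13_0 ln10_13_0_ok)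 (L (nat_lit 463) ln11_13_0 ln11_13_0_ok))) (M (nat_lit 431) (B (M (nat_lit 399) (B (L (nat_lit 398) ln11_13_2 ln11_13_2_ok) (L (nat_lit 400) ln12_13_2 ln12_13_2_ok))) (M (nat_lit 432) (B (L (nat_lit 397) ln16_13_3 ln16_13_3_ok) (L (nat_lit 460) ln16_13_1 ln16_13_1_ok))))))) (M (nat_lit 364) (B (L (nat_lit 332) ln12_10_4 ln12_10_4_ok) (M (nat_lit 493) (B (L (nat_lit 460) ln12_11_4 ln12_11_4_ok) (L (nat_lit 525) ln13_16_7 ln13_16_7_ok))))))))) (B (M (nat_lit 461) (B (M (nat_lit 364) (B (L (nat_lit 332) ln12_10_4 ln12_10_4_ok) (M (nat_lit 493) (B (L (nat_lit 460) ln12_11_4 ln12_11_4_ok) (L (nat_lit 525) ln13_16_7 ln13_16_7_ok))))) (M (nat_lit 427) (B (M (nat_lit 395) (B (L (nat_lit 394) ln14_13_3 ln14_13_3_ok) (L (nat_lit 431) ln15_13_3 ln15_13_3_ok))) (M (nat_lit 462) (B (L (nat_lit 426) ln10_13_0 ln10_13_0_ok) (L (nat_lit 463) ln11_13_0 ln11_13_0_ok))))))) (M (nat_lit 397) (B (M (nat_lit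 398) (B (M (nat_lit 427) (B (L (nat_lit 399) ln15_12_1 ln15_12_1_ok) (L (nat_lit 426) ln10_13_2 ln10_13_2_ok))) (M (nat_lit 366) (B (M (nat_lit 334) (B (L (nat_lit 302) ln14_9_5 ln14_9_5_ok) (L (nat_lit 461) ln14_10_5 ln14_10_5_ok))) (M (nat_lit 395) (B (L (nat_lit 367) ln11_12_2 ln11_12_2_ok) (L (nat_lit 394) ln10_12_0 ln10_12_0_ok))))))) (B (M (nat_lit 398) (B (M (nat_lit 399) (B (L (nat_lit 427) ln15_12_1 ln15_12_1_ok) (L (nat_lit 400) ln16_12_1 ln16_12_1_ok))) (B (M (nat_lit 462) (B (M (nat_lit 365) (B (L (nat_lit 333) ln13_10_4 ln13_10_4_ok) (L (nat_lit 494) ln14_15_7 ln14_15_7_ok))) (M (nat_lit 427) (B (L (nat_lit 426) ln10_13_2 ln10_13_2_ok) (L (nat_lit 463) ln11_13_0 ln11_13_0_ok))))) (M (nat_lit 364) (B (M (nat_lit 332) (B (L (nat_lit 300) ln12_9_4 ln12_9_4_ok) (L (nat_lit 461) ln12_10_4 ln12_10_4_ok))) (M (nat_lit 399) (B (L (nat_lit 363) ln15_12_3 ln15_12_3_ok) (L (nat_lit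 400) ln16_12_1 ln16_12_1_ok)))))))) (B (M (nat_lit 461) (B (M (nat_lit 364) (B (L (nat_lit 332) ln12_10_4 ln12_10_4_ok) (L (nat_lit 493) ln13_15_7 ln13_15_7_ok))) (M (nat_lit 462) (B (M (nat_lit 365) (B (L (nat_lit 333) ln13_10_4 ln13_10_4_ok) (L (nat_lit 494) ln13_11_4 ln13_11_4_ok))) (M (nat_lit 463) (B (L (nat_lit 427) ln11_13_0 ln11_13_0_ok) (L (nat_lit 464) ln16_14_3 ln16_14_3_ok))))))) (B (M (nat_lit 398) (B (M (nat_lit 363) (B (M (nat_lit 395) (B (L (nat_lit 362) ln14_12_3 ln14_12_3_ok) (L (nat_lit 394) ln10_12_0 ln10_12_0_ok))) (M (nat_lit 399) (B (L (nat_lit 364) ln15_12_3 ln15_12_3_ok) (L (nat_lit 400) ln16_12_1 ln16_12_1_ok))))) (B (M (nat_lit 364) (B (M (nat_lit 332) (B (L (nat_lit 300) ln12_9_4 ln12_9_4_ok) (L (nat_lit 461) ln12_10_4 ln12_10_4_ok))) (M (nat_lit 399) (B (L (nat_lit 363) ln15_12_3 ln15_12_3_ok) (L (nat_lit 400) ln16_12_1 ln16_12_1_ok))))) (M (nat_lit 366)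 (B (M (nat_lit 334) (B (L (nat_lit 302) ln14_9_5 ln14_9_5_ok) (L (nat_lit 461) ln14_10_5 ln14_10_5_ok))) (M (nat_lit 395) (B (L (nat_lit 367) ln11_12_2 ln11_12_2_ok) (L (nat_lit 394) ln10_12_0 ln10_12_0_ok)))))))) (M (nat_lit 398) (B (M (nat_lit 399) (B (L (nat_lit 427) ln15_12_1 ln15_12_1_ok) (L (nat_lit 400) ln16_12_1 ln16_12_1_ok))) (B (M (nat_lit 462) (B (M (nat_lit 365) (B (L (nat_lit 333) ln13_10_4 ln13_10_4_ok) (L (nat_lit 494) ln14_15_7 ln14_15_7_ok))) (M (nat_lit 427) (B (L (nat_lit 426) ln10_13_2 ln10_13_2_ok) (L (nat_lit 463) ln11_13_0 ln11_13_0_ok))))) (M (nat_lit 363) (B (M (nat_lit 395) (B (L (nat_lit 362) ln14_12_3 ln14_12_3_ok) (L (nat_lit 394) ln10_12_0 ln10_12_0_ok))) (M (nat_lit 399) (B (L (nat_lit 364) ln15_12_3 ln15_12_3_ok) (L (nat_lit 400) ln16_12_1 ln16_12_1_ok))))))))))))))))))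
noncomputable def c41_n2802 : Cert := (M (nat_lit 430) (B (M (nat_lit 395) (B (L (nat_lit 431) ln15_13_3 ln15_13_3_ok) (M (nat_lit 394) (B (L (nat_lit 397) ln10_12_0 ln10_12_0_ok) (L (nat_lit 427) ln14_13_3 ln14_13_3_ok))))) (B (M (nat_lit 431) (B (L (nat_lit 395) ln15_13_3 ln15_13_3_ok) (M (nat_lit 400) (B (L (nat_lit 399) ln12_13_2 ln12_13_2_ok) (M (nat_lit 432) (B (L (nat_lit 397) ln16_13_3 ln16_13_3_ok) (L (nat_lit 401) ln13_13_2 ln13_13_2_ok))))))) (B (M (nat_lit 431) (B (M (nat_lit 400) (B (L (nat_lit 399) ln12_13_2 ln12_13_2_ok) (M (nat_lit 432) (B (L (nat_lit 397) ln16_13_3 ln16_13_3_ok) (L (nat_lit 401) ln13_13_2 ln13_13_2_ok))))) (M (nat_lit 427) (B (M (nat_lit 459) (B (L (nat_lit 458) ln14_13_1 ln14_13_1_ok) (L (nat_lit 460) ln15_13_1 ln15_13_1_ok))) (M (nat_lit 463) (B (L (nat_lit 462) ln11_13_0 ln11_13_0_ok) (L (nat_lit 464) ln12_13_0 ln12_13_0_ok))))))) (B (M (nat_lit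 431) (B (L (nat_lit 395) ln15_13_3 ln15_13_3_ok) (M (nat_lit 427) (B (M (nat_lit 459) (B (L (nat_lit 458) ln14_13_1 ln14_13_1_ok) (L (nat_lit 460) ln15_13_1 ln15_13_1_ok))) (M (nat_lit 463) (B (L (nat_lit 462) ln11_13_0 ln11_13_0_ok) (L (nat_lit 464) ln12_13_0 ln12_13_0_ok))))))) (M (nat_lit 460) (B (M (nat_lit 427) (B (M (nat_lit 395) (B (L (nat_lit 394) ln14_13_3 ln14_13_3_ok) (M (nat_lit 363) (B (L (nat_lit 331) ln11_10_4 ln11_10_4_ok) (L (nat_lit 492) ln12_15_7 ln12_15_7_ok))))) (M (nat_lit 459) (B (L (nat_lit 458) ln14_13_1 ln14_13_1_ok) (M (nat_lit 364) (B (L (nat_lit 332) ln12_10_5 ln12_10_5_ok) (L (nat_lit 491) ln12_11_5 ln12_11_5_ok))))))) (B (M (nat_lit 427) (B (M (nat_lit 459) (B (L (nat_lit 458) ln14_13_1 ln14_13_1_ok) (M (nat_lit 364) (B (L (nat_lit 332) ln12_10_5 ln12_10_5_ok) (L (nat_lit 491) ln12_11_5 ln12_11_5_ok))))) (M (nat_lit 397) (B (M (nat_lit 365) (B (L (nat_lit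 333) ln13_10_5 ln13_10_5_ok) (L (nat_lit 492) ln12_15_6 ln12_15_6_ok))) (M (nat_lit 398) (B (L (nat_lit 399) ln15_12_1 ln15_12_1_ok) (L (nat_lit 426) ln10_13_2 ln10_13_2_ok))))))) (B (M (nat_lit 427) (B (M (nat_lit 459) (B (L (nat_lit 458) ln14_13_1 ln14_13_1_ok) (M (nat_lit 491) (B (L (nat_lit 364) ln12_11_5 ln12_11_5_ok) (L (nat_lit 523) ln11_16_6 ln11_16_6_ok))))) (M (nat_lit 397) (B (M (nat_lit 365) (B (L (nat_lit 333) ln13_10_5 ln13_10_5_ok) (L (nat_lit 492) ln12_15_6 ln12_15_6_ok))) (M (nat_lit 398) (B (L (nat_lit 399) ln15_12_1 ln15_12_1_ok) (L (nat_lit 426) ln10_13_2 ln10_13_2_ok))))))) (B (M (nat_lit 427) (B (M (nat_lit 395) (B (L (nat_lit 394) ln14_13_3 ln14_13_3_ok) (M (nat_lit 363) (B (L (nat_lit 331) ln11_10_4 ln11_10_4_ok) (L (nat_lit 492) ln12_15_7 ln12_15_7_ok))))) (M (nat_lit 426) (B (M (nat_lit 397) (B (L (nat_lit 425) ln9_13_2 ln9_13_2_ok) (L (nat_lit 398) ln10_13_2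 ln10_13_2_ok))) (M (nat_lit 458) (B (L (nat_lit 457) ln13_13_1 ln13_13_1_ok) (L (nat_lit 459) ln14_13_1 ln14_13_1_ok))))))) (B (M (nat_lit 492) (B (M (nat_lit 397) (B (L (nat_lit 365) ln12_15_6 ln12_15_6_ok) (M (nat_lit 395) (B (L (nat_lit 363) ln12_15_7 ln12_15_7_ok) (L (nat_lit 394) ln10_12_0 ln10_12_0_ok))))) (B (M (nat_lit 364) (B (M (nat_lit 365) (B (L (nat_lit 333) ln12_14_6 ln12_14_6_ok) (L (nat_lit 397) ln12_15_6 ln12_15_6_ok))) (M (nat_lit 491) (B (L (nat_lit 459) ln12_11_5 ln12_11_5_ok) (L (nat_lit 523) ln12_12_5 ln12_12_5_ok))))) (M (nat_lit 364) (B (M (nat_lit 363) (B (L (nat_lit 331) ln12_14_7 ln12_14_7_ok) (L (nat_lit 395) ln12_15_7 ln12_15_7_ok))) (M (nat_lit 491) (B (L (nat_lit 459) ln12_11_5 ln12_11_5_ok) (L (nat_lit 523) ln12_12_5 ln12_12_5_ok)))))))) (B (M (nat_lit 395) (B (M (nat_lit 394) (B (L (nat_lit 397) ln10_12_0 ln10_12_0_ok) (L (nat_lit 427) ln14_13_3 ln14_13_3_ok)))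 (M (nat_lit 363) (B (L (nat_lit 492) ln12_15_7 ln12_15_7_ok) (M (nat_lit 331) (B (L (nat_lit 299) ln11_9_4 ln11_9_4_ok) (L (nat_lit 364) ln12_14_7 ln12_14_7_ok))))))) (M (nat_lit 364) (B (M (nat_lit 459) (B (L (nat_lit 491) ln12_11_5 ln12_11_5_ok) (M (nat_lit 427) (B (L (nat_lit 332) ln12_10_5 ln12_10_5_ok) (L (nat_lit 458) ln14_13_1 ln14_13_1_ok))))) (B (M (nat_lit 459) (B (L (nat_lit 491) ln12_11_5 ln12_11_5_ok) (M (nat_lit 458) (B (L (nat_lit 427) ln14_13_1 ln14_13_1_ok) (L (nat_lit 457) ln9_14_2 ln9_14_2_ok))))) (M (nat_lit 332) (B (M (nat_lit 331) (B (L (nat_lit 299) ln12_13_7 ln12_13_7_ok) (L (nat_lit 363) ln12_14_7 ln12_14_7_ok))) (M (nat_lit 333) (B (L (nat_lit 301) ln12_13_6 ln12_13_6_ok) (L (nat_lit 365) ln12_14_6 ln12_14_6_ok))))))))))))))))))))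
theorem c41_s2803 : Sem (nat_lit 1386334847221798047169638878925036799968406779833514899637066259859226863686603287896039777716422623628704219945445734162783797248) (nat_lit 235872651963234194321127316268038632277888826655514000783026297509544510085651416101583786405586640875359030561982039311457068564426021129727823989966475259802055344128) (nat_lit 235872651963234194321127316268038632277888826655514000783026297509544510085651416101583786405586640875359030561982039311457068564426021129727823989966475259802055344128) :=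
  sem_of_chk (M (nat_lit 428) (B (M (nat_lit 364) (B (M (nat_lit 461) (B (L (nat_lit 332) ln12_10_4 ln12_10_4_ok) (M (nat_lit 493) (B (L (nat_lit 397) ln13_15_7 ln13_15_7_ok) (L (nat_lit 525) ln13_16_7 ln13_16_7_ok))))) (B (M (nat_lit 460) (B (M (nat_lit 365) (B (L (nat_lit 333) ln12_14_6 ln12_14_6_ok) (M (nat_lit 492) (B (L (nat_lit 397) ln12_15_6 ln12_15_6_ok) (M (nat_lit 491) (B (L (nat_lit 459) ln12_11_5 ln12_11_5_ok) (L (nat_lit 523) ln12_12_5 ln12_12_5_ok))))))) (B (M (nat_lit 492) (B (M (nat_lit 491) (B (L (nat_lit 459) ln12_11_5 ln12_11_5_ok) (L (nat_lit 523) ln12_12_5 ln12_12_5_ok))) (M (nat_lit 493) (B (L (nat_lit 461) ln12_11_4 ln12_11_4_ok) (L (nat_lit 525) ln12_12_4 ln12_12_4_ok))))) (B (M (nat_lit 492) (B (M (nat_lit 365) (B (L (nat_lit 333) ln12_14_6 ln12_14_6_ok) (L (nat_lit 397) ln12_15_6 ln12_15_6_ok))) (M (nat_lit 493) (B (L (nat_lit 461) ln12_11_4 ln12_11_4_ok)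 (L (nat_lit 525) ln12_12_4 ln12_12_4_ok))))) (M (nat_lit 461) (B (L (nat_lit 493) ln12_11_4 ln12_11_4_ok) (M (nat_lit 459) (B (L (nat_lit 491) ln12_11_5 ln12_11_5_ok) (M (nat_lit 430) (B (L (nat_lit 431) ln15_13_1 ln15_13_1_ok) (L (nat_lit 458) ln10_14_2 ln10_14_2_ok))))))))))) (B (M (nat_lit 461) (B (L (nat_lit 332) ln12_10_4 ln12_10_4_ok) (M (nat_lit 493) (B (L (nat_lit 460) ln12_11_4 ln12_11_4_ok) (L (nat_lit 525) ln13_16_7 ln13_16_7_ok))))) (M (nat_lit 460) (B (M (nat_lit 365) (B (L (nat_lit 333) ln12_14_6 ln12_14_6_ok) (M (nat_lit 492) (B (L (nat_lit 397) ln12_15_6 ln12_15_6_ok) (M (nat_lit 491) (B (L (nat_lit 459) ln12_11_5 ln12_11_5_ok) (L (nat_lit 523) ln12_12_5 ln12_12_5_ok))))))) (B (M (nat_lit 332) (B (M (nat_lit 331) (B (L (nat_lit 299) ln12_13_7 ln12_13_7_ok) (L (nat_lit 363) ln12_14_7 ln12_14_7_ok))) (M (nat_lit 459) (B (L (nat_lit 427) ln12_10_5 ln12_10_5_ok) (L (nat_lit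 491) ln12_11_5 ln12_11_5_ok))))) (M (nat_lit 365) (B (L (nat_lit 333) ln12_14_6 ln12_14_6_ok) (M (nat_lit 332) (B (M (nat_lit 331) (B (L (nat_lit 299) ln12_13_7 ln12_13_7_ok) (L (nat_lit 363) ln12_14_7 ln12_14_7_ok))) (M (nat_lit 397) (B (L (nat_lit 300) ln12_9_4 ln12_9_4_ok) (L (nat_lit 492) ln12_15_6 ln12_15_6_ok)))))))))))))) (B (M (nat_lit 427) (B (M (nat_lit 459) (B (M (nat_lit 430) (B (L (nat_lit 458) ln14_13_1 ln14_13_1_ok) (M (nat_lit 431) (B (L (nat_lit 395) ln15_13_3 ln15_13_3_ok) (L (nat_lit 460) ln15_13_1 ln15_13_1_ok))))) (B (M (nat_lit 460) (B (M (nat_lit 491) (B (L (nat_lit 364) ln12_11_5 ln12_11_5_ok) (L (nat_lit 523) ln11_16_6 ln11_16_6_ok))) (M (nat_lit 430) (B (L (nat_lit 458) ln14_13_1 ln14_13_1_ok) (L (nat_lit 431) ln15_13_1 ln15_13_1_ok))))) (B (M (nat_lit 491) (B (L (nat_lit 523) ln11_16_6 ln11_16_6_ok) (M (nat_lit 364) (B (L (nat_lit 395) ln11_15_6 ln11_15_6_ok)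 (L (nat_lit 460) ln12_11_5 ln12_11_5_ok))))) (M (nat_lit 395) (B (M (nat_lit 491) (B (L (nat_lit 364) ln11_15_6 ln11_15_6_ok) (L (nat_lit 523) ln11_16_6 ln11_16_6_ok))) (M (nat_lit 430) (B (L (nat_lit 431) ln15_13_3 ln15_13_3_ok) (L (nat_lit 458) ln14_13_1 ln14_13_1_ok))))))))) (B (M (nat_lit 430) (B (M (nat_lit 395) (B (L (nat_lit 394) ln14_13_3 ln14_13_3_ok) (L (nat_lit 431) ln15_13_3 ln15_13_3_ok))) (M (nat_lit 426) (B (M (nat_lit 458) (B (L (nat_lit 457) ln13_13_1 ln13_13_1_ok) (L (nat_lit 459) ln14_13_1 ln14_13_1_ok))) (M (nat_lit 462) (B (L (nat_lit 461) ln10_13_0 ln10_13_0_ok) (L (nat_lit 463) ln11_13_0 ln11_13_0_ok))))))) (B (M (nat_lit 461) (B (M (nat_lit 462) (B (L (nat_lit 426) ln10_13_0 ln10_13_0_ok) (M (nat_lit 463) (B (L (nat_lit 430) ln11_13_0 ln11_13_0_ok) (L (nat_lit 460) ln15_14_3 ln15_14_3_ok))))) (B (M (nat_lit 493) (B (L (nat_lit 525) ln13_16_7 ln13_16_7_ok) (M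 (nat_lit 364) (B (L (nat_lit 397) ln13_15_7 ln13_15_7_ok) (L (nat_lit 460) ln12_11_4 ln12_11_4_ok))))) (M (nat_lit 462) (B (L (nat_lit 426) ln10_13_0 ln10_13_0_ok) (M (nat_lit 463) (B (L (nat_lit 430) ln11_13_0 ln11_13_0_ok) (L (nat_lit 464) ln16_14_3 ln16_14_3_ok)))))))) (M (nat_lit 461) (B (M (nat_lit 462) (B (L (nat_lit 426) ln10_13_0 ln10_13_0_ok) (M (nat_lit 463) (B (L (nat_lit 460) ln15_14_3 ln15_14_3_ok) (L (nat_lit 464) ln16_14_3 ln16_14_3_ok))))) (B (M (nat_lit 493) (B (L (nat_lit 525) ln13_16_7 ln13_16_7_ok) (M (nat_lit 364) (B (L (nat_lit 397) ln13_15_7 ln13_15_7_ok) (L (nat_lit 460) ln12_11_4 ln12_11_4_ok))))) (M (nat_lit 397) (B (M (nat_lit 493) (B (L (nat_lit 364) ln13_15_7 ln13_15_7_ok) (L (nat_lit 525) ln13_16_7 ln13_16_7_ok))) (M (nat_lit 426) (B (L (nat_lit 425) ln9_13_2 ln9_13_2_ok) (L (nat_lit 462) ln10_13_0 ln10_13_0_ok)))))))))))) (B (M (nat_lit 430) (B (M (nat_lit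 395) (B (L (nat_lit 431) ln15_13_3 ln15_13_3_ok) (M (nat_lit 394) (B (L (nat_lit 397) ln10_12_0 ln10_12_0_ok) (L (nat_lit 427) ln14_13_3 ln14_13_3_ok))))) (B (M (nat_lit 431) (B (L (nat_lit 395) ln15_13_3 ln15_13_3_ok) (M (nat_lit 400) (B (L (nat_lit 399) ln12_13_2 ln12_13_2_ok) (M (nat_lit 432) (B (L (nat_lit 397) ln16_13_3 ln16_13_3_ok) (L (nat_lit 401) ln13_13_2 ln13_13_2_ok))))))) (B (M (nat_lit 431) (B (M (nat_lit 400) (B (L (nat_lit 399) ln12_13_2 ln12_13_2_ok) (M (nat_lit 432) (B (L (nat_lit 397) ln16_13_3 ln16_13_3_ok) (L (nat_lit 401) ln13_13_2 ln13_13_2_ok))))) (M (nat_lit 427) (B (M (nat_lit 459) (B (L (nat_lit 458) ln14_13_1 ln14_13_1_ok) (L (nat_lit 460) ln15_13_1 ln15_13_1_ok))) (M (nat_lit 463) (B (L (nat_lit 462) ln11_13_0 ln11_13_0_ok) (L (nat_lit 464) ln12_13_0 ln12_13_0_ok))))))) (B (M (nat_lit 431) (B (L (nat_lit 395) ln15_13_3 ln15_13_3_ok) (M (nat_lit 427) (B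 (M (nat_lit 459) (B (L (nat_lit 458) ln14_13_1 ln14_13_1_ok) (L (nat_lit 460) ln15_13_1 ln15_13_1_ok))) (M (nat_lit 463) (B (L (nat_lit 462) ln11_13_0 ln11_13_0_ok) (L (nat_lit 464) ln12_13_0 ln12_13_0_ok))))))) (M (nat_lit 427) (B (M (nat_lit 398) (B (L (nat_lit 399) ln11_13_2 ln11_13_2_ok) (M (nat_lit 426) (B (L (nat_lit 397) ln10_13_2 ln10_13_2_ok) (M (nat_lit 462) (B (L (nat_lit 461) ln10_13_0 ln10_13_0_ok) (L (nat_lit 463) ln11_13_0 ln11_13_0_ok))))))) (B (M (nat_lit 426) (B (M (nat_lit 458) (B (L (nat_lit 457) ln13_13_1 ln13_13_1_ok) (L (nat_lit 459) ln14_13_1 ln14_13_1_ok))) (M (nat_lit 462) (B (L (nat_lit 461) ln10_13_0 ln10_13_0_ok) (L (nat_lit 463) ln11_13_0 ln11_13_0_ok))))) (B (M (nat_lit 398) (B (L (nat_lit 399) ln11_13_2 ln11_13_2_ok) (M (nat_lit 397) (B (M (nat_lit 462) (B (L (nat_lit 463) ln11_13_0 ln11_13_0_ok) (M (nat_lit 365) (B (L (nat_lit 333) ln13_10_4 ln13_10_4_ok)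 (L (nat_lit 494) ln14_15_7 ln14_15_7_ok))))) (M (nat_lit 366) (B (M (nat_lit 395) (B (L (nat_lit 367) ln11_12_2 ln11_12_2_ok) (L (nat_lit 394) ln10_12_0 ln10_12_0_ok))) (M (nat_lit 461) (B (L (nat_lit 334) ln14_10_5 ln14_10_5_ok) (L (nat_lit 493) ln13_15_6 ln13_15_6_ok))))))))) (M (nat_lit 426) (B (M (nat_lit 398) (B (L (nat_lit 397) ln10_13_2 ln10_13_2_ok) (L (nat_lit 399) ln11_13_2 ln11_13_2_ok))) (M (nat_lit 458) (B (L (nat_lit 457) ln13_13_1 ln13_13_1_ok) (L (nat_lit 459) ln14_13_1 ln14_13_1_ok)))))))))))))) (B c41_n2728 (B (M (nat_lit 364) (B (M (nat_lit 461) (B (L (nat_lit 332) ln12_10_4 ln12_10_4_ok) (M (nat_lit 493) (B (L (nat_lit 397) ln13_15_7 ln13_15_7_ok) (L (nat_lit 525) ln13_16_7 ln13_16_7_ok))))) (B (M (nat_lit 461) (B (M (nat_lit 493) (B (L (nat_lit 397) ln13_15_7 ln13_15_7_ok) (L (nat_lit 460) ln12_11_4 ln12_11_4_ok))) (B (M (nat_lit 493) (B (L (nat_lit 460) ln12_11_4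 ln12_11_4_ok) (L (nat_lit 525) ln13_16_7 ln13_16_7_ok))) (B (M (nat_lit 493) (B (L (nat_lit 397) ln13_15_7 ln13_15_7_ok) (L (nat_lit 525) ln13_16_7 ln13_16_7_ok))) (M (nat_lit 460) (B (M (nat_lit 459) (B (L (nat_lit 491) ln12_11_5 ln12_11_5_ok) (M (nat_lit 430) (B (L (nat_lit 431) ln15_13_1 ln15_13_1_ok) (L (nat_lit 458) ln10_14_2 ln10_14_2_ok))))) (M (nat_lit 492) (B (M (nat_lit 363) (B (L (nat_lit 331) ln12_14_7 ln12_14_7_ok) (L (nat_lit 395) ln12_15_7 ln12_15_7_ok))) (M (nat_lit 524) (B (L (nat_lit 397) ln12_16_6 ln12_16_6_ok) (L (nat_lit 556) ln12_17_6 ln12_17_6_ok))))))))))) (B (M (nat_lit 461) (B (L (nat_lit 332) ln12_10_4 ln12_10_4_ok) (M (nat_lit 493) (B (L (nat_lit 460) ln12_11_4 ln12_11_4_ok) (L (nat_lit 525) ln13_16_7 ln13_16_7_ok))))) (M (nat_lit 460) (B (M (nat_lit 492) (B (M (nat_lit 363) (B (L (nat_lit 331) ln12_14_7 ln12_14_7_ok) (L (nat_lit 395) ln12_15_7 ln12_15_7_ok)))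 (M (nat_lit 491) (B (L (nat_lit 459) ln12_11_5 ln12_11_5_ok) (L (nat_lit 523) ln12_12_5 ln12_12_5_ok))))) (B (M (nat_lit 365) (B (L (nat_lit 333) ln12_14_6 ln12_14_6_ok) (M (nat_lit 492) (B (L (nat_lit 397) ln12_15_6 ln12_15_6_ok) (M (nat_lit 491) (B (L (nat_lit 459) ln12_11_5 ln12_11_5_ok) (L (nat_lit 523) ln12_12_5 ln12_12_5_ok))))))) (B (M (nat_lit 492) (B (M (nat_lit 363) (B (L (nat_lit 331) ln12_14_7 ln12_14_7_ok) (L (nat_lit 395) ln12_15_7 ln12_15_7_ok))) (M (nat_lit 365) (B (L (nat_lit 333) ln12_14_6 ln12_14_6_ok) (L (nat_lit 397) ln12_15_6 ln12_15_6_ok))))) (M (nat_lit 332) (B (M (nat_lit 331) (B (L (nat_lit 299) ln12_13_7 ln12_13_7_ok) (L (nat_lit 363) ln12_14_7 ln12_14_7_ok))) (M (nat_lit 333) (B (L (nat_lit 301) ln12_13_6 ln12_13_6_ok) (L (nat_lit 365) ln12_14_6 ln12_14_6_ok))))))))))))) (B (M (nat_lit 461) (B (M (nat_lit 493) (B (L (nat_lit 525) ln13_16_7 ln13_16_7_ok)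 (M (nat_lit 364) (B (L (nat_lit 332) ln12_10_4 ln12_10_4_ok) (L (nat_lit 460) ln12_11_4 ln12_11_4_ok))))) (B (M (nat_lit 493) (B (L (nat_lit 525) ln13_16_7 ln13_16_7_ok) (M (nat_lit 364) (B (L (nat_lit 397) ln13_15_7 ln13_15_7_ok) (L (nat_lit 460) ln12_11_4 ln12_11_4_ok))))) (B (M (nat_lit 493) (B (L (nat_lit 525) ln13_16_7 ln13_16_7_ok) (M (nat_lit 397) (B (M (nat_lit 398) (B (L (nat_lit 366) ln13_15_6 ln13_15_6_ok) (M (nat_lit 399) (B (L (nat_lit 427) ln15_12_1 ln15_12_1_ok) (L (nat_lit 400) ln16_12_1 ln16_12_1_ok))))) (M (nat_lit 365) (B (M (nat_lit 333) (B (L (nat_lit 301) ln13_9_5 ln13_9_5_ok) (L (nat_lit 460) ln13_10_5 ln13_10_5_ok))) (M (nat_lit 494) (B (L (nat_lit 462) ln13_11_4 ln13_11_4_ok) (L (nat_lit 526) ln13_12_4 ln13_12_4_ok))))))))) (B (M (nat_lit 493) (B (L (nat_lit 525) ln13_16_7 ln13_16_7_ok) (M (nat_lit 364) (B (L (nat_lit 332) ln12_10_4 ln12_10_4_ok) (L (nat_lit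 397) ln13_15_7 ln13_15_7_ok))))) (M (nat_lit 364) (B (L (nat_lit 332) ln12_10_4 ln12_10_4_ok) (M (nat_lit 460) (B (M (nat_lit 365) (B (L (nat_lit 333) ln12_14_6 ln12_14_6_ok) (M (nat_lit 492) (B (L (nat_lit 397) ln12_15_6 ln12_15_6_ok) (M (nat_lit 491) (B (L (nat_lit 459) ln12_11_5 ln12_11_5_ok) (L (nat_lit 523) ln12_12_5 ln12_12_5_ok))))))) (B (M (nat_lit 492) (B (M (nat_lit 491) (B (L (nat_lit 459) ln12_11_5 ln12_11_5_ok) (L (nat_lit 523) ln12_12_5 ln12_12_5_ok))) (M (nat_lit 524) (B (L (nat_lit 397) ln12_16_6 ln12_16_6_ok) (L (nat_lit 556) ln12_17_6 ln12_17_6_ok))))) (B (M (nat_lit 427) (B (M (nat_lit 426) (B (L (nat_lit 425) ln9_13_0 ln9_13_0_ok) (L (nat_lit 462) ln10_13_0 ln10_13_0_ok))) (M (nat_lit 492) (B (M (nat_lit 491) (B (L (nat_lit 459) ln12_11_5 ln12_11_5_ok) (L (nat_lit 523) ln12_12_5 ln12_12_5_ok))) (M (nat_lit 524) (B (L (nat_lit 395) ln12_16_7 ln12_16_7_ok) (L (nat_lit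 556) ln12_17_6 ln12_17_6_ok))))))) (B (M (nat_lit 365) (B (L (nat_lit 333) ln12_14_6 ln12_14_6_ok) (M (nat_lit 462) (B (M (nat_lit 397) (B (L (nat_lit 492) ln12_15_6 ln12_15_6_ok) (L (nat_lit 494) ln13_11_4 ln13_11_4_ok))) (M (nat_lit 463) (B (L (nat_lit 427) ln15_14_3 ln15_14_3_ok) (L (nat_lit 464) ln16_14_3 ln16_14_3_ok))))))) (M (nat_lit 462) (B (M (nat_lit 427) (B (L (nat_lit 426) ln10_13_0 ln10_13_0_ok) (L (nat_lit 463) ln15_14_3 ln15_14_3_ok))) (M (nat_lit 494) (B (M (nat_lit 365) (B (L (nat_lit 333) ln12_14_6 ln12_14_6_ok) (L (nat_lit 397) ln13_11_4 ln13_11_4_ok))) (M (nat_lit 459) (B (L (nat_lit 491) ln12_11_5 ln12_11_5_ok) (L (nat_lit 495) ln11_14_0 ln11_14_0_ok))))))))))))))))))) (B c41_n2730 (B (M (nat_lit 430) (B (M (nat_lit 395) (B (L (nat_lit 431) ln15_13_3 ln15_13_3_ok) (M (nat_lit 394) (B (L (nat_lit 397) ln10_12_0 ln10_12_0_ok) (L (nat_lit 427) ln14_13_3 ln14_13_3_ok)))))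 (B (M (nat_lit 431) (B (L (nat_lit 395) ln15_13_3 ln15_13_3_ok) (M (nat_lit 400) (B (L (nat_lit 399) ln12_13_2 ln12_13_2_ok) (M (nat_lit 432) (B (L (nat_lit 397) ln16_13_3 ln16_13_3_ok) (L (nat_lit 401) ln13_13_2 ln13_13_2_ok))))))) (B (M (nat_lit 461) (B (M (nat_lit 364) (B (L (nat_lit 332) ln12_10_4 ln12_10_4_ok) (M (nat_lit 493) (B (L (nat_lit 397) ln13_15_7 ln13_15_7_ok) (L (nat_lit 525) ln13_16_7 ln13_16_7_ok))))) (B (M (nat_lit 427) (B (M (nat_lit 462) (B (L (nat_lit 426) ln10_13_0 ln10_13_0_ok) (L (nat_lit 463) ln11_13_0 ln11_13_0_ok))) (B (M (nat_lit 431) (B (M (nat_lit 399) (B (L (nat_lit 398) ln11_13_2 ln11_13_2_ok) (L (nat_lit 400) ln12_13_2 ln12_13_2_ok))) (M (nat_lit 463) (B (L (nat_lit 462) ln11_13_0 ln11_13_0_ok) (L (nat_lit 464) ln12_13_0 ln12_13_0_ok))))) (M (nat_lit 426) (B (M (nat_lit 397) (B (L (nat_lit 425) ln9_13_2 ln9_13_2_ok) (L (nat_lit 398) ln10_13_2 ln10_13_2_ok)))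 (M (nat_lit 458) (B (L (nat_lit 457) ln13_13_1 ln13_13_1_ok) (L (nat_lit 459) ln14_13_1 ln14_13_1_ok)))))))) (M (nat_lit 398) (B (M (nat_lit 493) (B (L (nat_lit 525) ln13_16_7 ln13_16_7_ok) (M (nat_lit 366) (B (L (nat_lit 334) ln14_10_5 ln14_10_5_ok) (L (nat_lit 462) ln14_11_5 ln14_11_5_ok))))) (M (nat_lit 399) (B (L (nat_lit 427) ln11_13_2 ln11_13_2_ok) (M (nat_lit 400) (B (L (nat_lit 401) ln17_12_1 ln17_12_1_ok) (L (nat_lit 431) ln12_13_2 ln12_13_2_ok)))))))))) (B (M (nat_lit 431) (B (L (nat_lit 395) ln15_13_3 ln15_13_3_ok) (M (nat_lit 427) (B (M (nat_lit 399) (B (L (nat_lit 398) ln11_13_2 ln11_13_2_ok) (L (nat_lit 400) ln12_13_2 ln12_13_2_ok))) (M (nat_lit 463) (B (L (nat_lit 462) ln11_13_0 ln11_13_0_ok) (L (nat_lit 464) ln12_13_0 ln12_13_0_ok))))))) (M (nat_lit 427) (B (M (nat_lit 398) (B (L (nat_lit 399) ln11_13_2 ln11_13_2_ok) (M (nat_lit 426) (B (L (nat_lit 397) ln10_13_2 ln10_13_2_ok)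 (M (nat_lit 462) (B (L (nat_lit 461) ln10_13_0 ln10_13_0_ok) (L (nat_lit 463) ln11_13_0 ln11_13_0_ok))))))) (B (M (nat_lit 426) (B (M (nat_lit 458) (B (L (nat_lit 457) ln13_13_1 ln13_13_1_ok) (L (nat_lit 459) ln14_13_1 ln14_13_1_ok))) (M (nat_lit 462) (B (L (nat_lit 461) ln10_13_0 ln10_13_0_ok) (L (nat_lit 463) ln11_13_0 ln11_13_0_ok))))) (M (nat_lit 395) (B (L (nat_lit 394) ln14_13_3 ln14_13_3_ok) (M (nat_lit 459) (B (L (nat_lit 458) ln14_13_1 ln14_13_1_ok) (M (nat_lit 491) (B (L (nat_lit 364) ln11_15_6 ln11_15_6_ok) (L (nat_lit 523) ln11_16_6 ln11_16_6_ok))))))))))))))) c41_n2802))))))))) (nat_lit 1386334847221798047169638878925036799968406779833514899637066259859226863686603287896039777716422623628704219945445734162783797248) (nat_lit 235872651963234194321127316268038632277888826655514000783026297509544510085651416101583786405586640875359030561982039311457068564426021129727823989966475259802055344128)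 (nat_lit 235872651963234194321127316268038632277888826655514000783026297509544510085651416101583786405586640875359030561982039311457068564426021129727823989966475259802055344128) (by decide +kernel)
noncomputable def c41_n2855 : Cert := (M (nat_lit 364) (B (M (nat_lit 461) (B (L (nat_lit 332) ln12_10_4 ln12_10_4_ok) (M (nat_lit 493) (B (L (nat_lit 460) ln12_11_4 ln12_11_4_ok) (L (nat_lit 525) ln13_16_7 ln13_16_7_ok))))) (B (M (nat_lit 365) (B (M (nat_lit 460) (B (L (nat_lit 333) ln12_14_6 ln12_14_6_ok) (M (nat_lit 492) (B (L (nat_lit 397) ln12_15_6 ln12_15_6_ok) (M (nat_lit 363) (B (L (nat_lit 331) ln12_14_7 ln12_14_7_ok) (L (nat_lit 395) ln12_15_7 ln12_15_7_ok))))))) (B (M (nat_lit 460) (B (L (nat_lit 333) ln12_14_6 ln12_14_6_ok) (M (nat_lit 493) (B (L (nat_lit 461) ln12_11_4 ln12_11_4_ok) (M (nat_lit 492) (B (L (nat_lit 397) ln12_15_6 ln12_15_6_ok) (L (nat_lit 525) ln12_12_4 ln12_12_4_ok)))))))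 (B (M (nat_lit 397) (B (M (nat_lit 366) (B (M (nat_lit 461) (B (L (nat_lit 334) ln13_14_6 ln13_14_6_ok) (L (nat_lit 493) ln13_15_7 ln13_15_7_ok))) (M (nat_lit 367) (B (L (nat_lit 395) ln15_11_1 ln15_11_1_ok) (L (nat_lit 368) ln16_11_1 ln16_11_1_ok))))) (M (nat_lit 363) (B (M (nat_lit 460) (B (L (nat_lit 331) ln12_14_7 ln12_14_7_ok) (L (nat_lit 492) ln12_15_6 ln12_15_6_ok))) (M (nat_lit 398) (B (L (nat_lit 362) ln10_11_0 ln10_11_0_ok) (L (nat_lit 399) ln15_12_3 ln15_12_3_ok))))))) (B (M (nat_lit 460) (B (L (nat_lit 333) ln12_14_6 ln12_14_6_ok) (M (nat_lit 492) (B (M (nat_lit 363) (B (L (nat_lit 331) ln12_14_7 ln12_14_7_ok) (L (nat_lit 395) ln12_15_7 ln12_15_7_ok))) (M (nat_lit 493) (B (L (nat_lit 461) ln12_11_4 ln12_11_4_ok) (L (nat_lit 525) ln12_12_4 ln12_12_4_ok))))))) (M (nat_lit 397) (B (M (nat_lit 462) (B (M (nat_lit 333) (B (L (nat_lit 301) ln13_9_5 ln13_9_5_ok) (L (nat_lit 430)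 ln13_10_4 ln13_10_4_ok))) (M (nat_lit 461) (B (L (nat_lit 493) ln13_15_7 ln13_15_7_ok) (L (nat_lit 494) ln13_11_4 ln13_11_4_ok))))) (B (M (nat_lit 366) (B (M (nat_lit 461) (B (L (nat_lit 334) ln13_14_6 ln13_14_6_ok) (L (nat_lit 493) ln13_15_7 ln13_15_7_ok))) (M (nat_lit 367) (B (L (nat_lit 395) ln15_11_1 ln15_11_1_ok) (L (nat_lit 368) ln16_11_1 ln16_11_1_ok))))) (M (nat_lit 430) (B (M (nat_lit 333) (B (L (nat_lit 301) ln13_9_5 ln13_9_5_ok) (L (nat_lit 462) ln13_10_4 ln13_10_4_ok))) (M (nat_lit 431) (B (L (nat_lit 395) ln15_13_3 ln15_13_3_ok) (L (nat_lit 432) ln16_13_3 ln16_13_3_ok))))))))))))) (B (M (nat_lit 461) (B (L (nat_lit 332) ln12_10_4 ln12_10_4_ok) (M (nat_lit 493) (B (L (nat_lit 397) ln13_15_7 ln13_15_7_ok) (L (nat_lit 525) ln13_16_7 ln13_16_7_ok))))) (B (M (nat_lit 460) (B (M (nat_lit 492) (B (M (nat_lit 363) (B (L (nat_lit 331) ln12_14_7 ln12_14_7_ok) (L (nat_lit 395) ln12_15_7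 ln12_15_7_ok))) (M (nat_lit 365) (B (L (nat_lit 333) ln12_14_6 ln12_14_6_ok) (L (nat_lit 397) ln12_15_6 ln12_15_6_ok))))) (B (M (nat_lit 492) (B (M (nat_lit 365) (B (L (nat_lit 333) ln12_14_6 ln12_14_6_ok) (L (nat_lit 397) ln12_15_6 ln12_15_6_ok))) (B (M (nat_lit 397) (B (L (nat_lit 365) ln12_15_6 ln12_15_6_ok) (L (nat_lit 524) ln12_16_6 ln12_16_6_ok))) (B (M (nat_lit 524) (B (L (nat_lit 397) ln12_16_6 ln12_16_6_ok) (M (nat_lit 523) (B (L (nat_lit 491) ln12_12_5 ln12_12_5_ok) (L (nat_lit 555) ln12_13_5 ln12_13_5_ok))))) (M (nat_lit 524) (B (M (nat_lit 523) (B (L (nat_lit 491) ln12_12_5 ln12_12_5_ok) (L (nat_lit 555) ln12_13_5 ln12_13_5_ok))) (M (nat_lit 525) (B (L (nat_lit 493) ln12_12_4 ln12_12_4_ok) (L (nat_lit 557) ln12_13_4 ln12_13_4_ok))))))))) (B (M (nat_lit 363) (B (L (nat_lit 331) ln12_14_7 ln12_14_7_ok) (M (nat_lit 492) (B (L (nat_lit 395) ln12_15_7 ln12_15_7_ok) (M (nat_lit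 397) (B (L (nat_lit 365) ln12_15_6 ln12_15_6_ok) (L (nat_lit 524) ln12_16_6 ln12_16_6_ok))))))) (B (M (nat_lit 492) (B (M (nat_lit 363) (B (L (nat_lit 331) ln12_14_7 ln12_14_7_ok) (L (nat_lit 395) ln12_15_7 ln12_15_7_ok))) (M (nat_lit 524) (B (L (nat_lit 397) ln12_16_6 ln12_16_6_ok) (M (nat_lit 525) (B (L (nat_lit 493) ln12_12_4 ln12_12_4_ok) (L (nat_lit 557) ln12_13_4 ln12_13_4_ok))))))) (M (nat_lit 332) (B (M (nat_lit 331) (B (L (nat_lit 299) ln12_13_7 ln12_13_7_ok) (L (nat_lit 363) ln12_14_7 ln12_14_7_ok))) (M (nat_lit 333) (B (L (nat_lit 301) ln12_13_6 ln12_13_6_ok) (L (nat_lit 365) ln12_14_6 ln12_14_6_ok)))))))))) (M (nat_lit 460) (B (M (nat_lit 333) (B (L (nat_lit 365) ln12_14_6 ln12_14_6_ok) (M (nat_lit 332) (B (L (nat_lit 301) ln12_13_6 ln12_13_6_ok) (L (nat_lit 461) ln12_10_4 ln12_10_4_ok))))) (B (M (nat_lit 332) (B (L (nat_lit 461) ln12_10_4 ln12_10_4_ok) (M (nat_lit 331)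 (B (L (nat_lit 299) ln12_13_7 ln12_13_7_ok) (L (nat_lit 363) ln12_14_7 ln12_14_7_ok))))) (M (nat_lit 492) (B (M (nat_lit 363) (B (L (nat_lit 331) ln12_14_7 ln12_14_7_ok) (L (nat_lit 395) ln12_15_7 ln12_15_7_ok))) (M (nat_lit 365) (B (L (nat_lit 333) ln12_14_6 ln12_14_6_ok) (L (nat_lit 397) ln12_15_6 ln12_15_6_ok)))))))))))))
theorem c41_s2872 : Sem (nat_lit 1386334847221798047169638878925036799968406779833514899637066259859226863686603287896039777716422623628704219945445734162783797248) (nat_lit 825554280841600030608870219547455646483657767345542470063064650877470005051894890593862675911858805302537316416782591744630079439020140027421632911266301239201112260608) (nat_lit 825554280841600030608870219547455646483657767345542470063064650877470005051894890593862675911858805302537316416782591744630079439020140027421632911266301239201112260608) :=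
  sem_of_chk (M (nat_lit 428) (B (M (nat_lit 364) (B (M (nat_lit 461) (B (L (nat_lit 332) ln12_10_4 ln12_10_4_ok) (M (nat_lit 493) (B (L (nat_lit 397) ln13_15_7 ln13_15_7_ok) (L (nat_lit 525) ln13_16_7 ln13_16_7_ok))))) (B (M (nat_lit 460) (B (M (nat_lit 365) (B (L (nat_lit 333) ln12_14_6 ln12_14_6_ok) (M (nat_lit 492) (B (L (nat_lit 397) ln12_15_6 ln12_15_6_ok) (M (nat_lit 491) (B (L (nat_lit 459) ln12_11_5 ln12_11_5_ok) (L (nat_lit 523) ln12_12_5 ln12_12_5_ok))))))) (B (M (nat_lit 492) (B (M (nat_lit 491) (B (L (nat_lit 459) ln12_11_5 ln12_11_5_ok) (L (nat_lit 523) ln12_12_5 ln12_12_5_ok))) (M (nat_lit 493) (B (L (nat_lit 461) ln12_11_4 ln12_11_4_ok) (L (nat_lit 525) ln12_12_4 ln12_12_4_ok))))) (B (M (nat_lit 492) (B (M (nat_lit 365) (B (L (nat_lit 333) ln12_14_6 ln12_14_6_ok) (L (nat_lit 397) ln12_15_6 ln12_15_6_ok))) (M (nat_lit 493) (B (L (nat_lit 461) ln12_11_4 ln12_11_4_ok)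 (L (nat_lit 525) ln12_12_4 ln12_12_4_ok))))) (M (nat_lit 461) (B (L (nat_lit 493) ln12_11_4 ln12_11_4_ok) (M (nat_lit 459) (B (L (nat_lit 491) ln12_11_5 ln12_11_5_ok) (M (nat_lit 430) (B (L (nat_lit 431) ln15_13_1 ln15_13_1_ok) (L (nat_lit 458) ln10_14_2 ln10_14_2_ok))))))))))) (B (M (nat_lit 461) (B (L (nat_lit 332) ln12_10_4 ln12_10_4_ok) (M (nat_lit 493) (B (L (nat_lit 460) ln12_11_4 ln12_11_4_ok) (L (nat_lit 525) ln13_16_7 ln13_16_7_ok))))) (M (nat_lit 460) (B (M (nat_lit 365) (B (L (nat_lit 333) ln12_14_6 ln12_14_6_ok) (M (nat_lit 492) (B (L (nat_lit 397) ln12_15_6 ln12_15_6_ok) (M (nat_lit 491) (B (L (nat_lit 459) ln12_11_5 ln12_11_5_ok) (L (nat_lit 523) ln12_12_5 ln12_12_5_ok))))))) (B (M (nat_lit 332) (B (M (nat_lit 331) (B (L (nat_lit 299) ln12_13_7 ln12_13_7_ok) (L (nat_lit 363) ln12_14_7 ln12_14_7_ok))) (M (nat_lit 459) (B (L (nat_lit 427) ln12_10_5 ln12_10_5_ok) (L (nat_lit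 491) ln12_11_5 ln12_11_5_ok))))) (M (nat_lit 365) (B (L (nat_lit 333) ln12_14_6 ln12_14_6_ok) (M (nat_lit 332) (B (M (nat_lit 331) (B (L (nat_lit 299) ln12_13_7 ln12_13_7_ok) (L (nat_lit 363) ln12_14_7 ln12_14_7_ok))) (M (nat_lit 397) (B (L (nat_lit 300) ln12_9_4 ln12_9_4_ok) (L (nat_lit 492) ln12_15_6 ln12_15_6_ok)))))))))))))) (B (M (nat_lit 427) (B (M (nat_lit 459) (B (M (nat_lit 430) (B (L (nat_lit 458) ln14_13_1 ln14_13_1_ok) (M (nat_lit 431) (B (L (nat_lit 395) ln15_13_3 ln15_13_3_ok) (L (nat_lit 460) ln15_13_1 ln15_13_1_ok))))) (B (M (nat_lit 460) (B (M (nat_lit 491) (B (L (nat_lit 364) ln12_11_5 ln12_11_5_ok) (L (nat_lit 523) ln11_16_6 ln11_16_6_ok))) (M (nat_lit 430) (B (L (nat_lit 458) ln14_13_1 ln14_13_1_ok) (L (nat_lit 431) ln15_13_1 ln15_13_1_ok))))) (B (M (nat_lit 491) (B (L (nat_lit 523) ln11_16_6 ln11_16_6_ok) (M (nat_lit 364) (B (L (nat_lit 395) ln11_15_6 ln11_15_6_ok)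 (L (nat_lit 460) ln12_11_5 ln12_11_5_ok))))) (M (nat_lit 395) (B (M (nat_lit 491) (B (L (nat_lit 364) ln11_15_6 ln11_15_6_ok) (L (nat_lit 523) ln11_16_6 ln11_16_6_ok))) (M (nat_lit 430) (B (L (nat_lit 431) ln15_13_3 ln15_13_3_ok) (L (nat_lit 458) ln14_13_1 ln14_13_1_ok))))))))) (B (M (nat_lit 430) (B (M (nat_lit 431) (B (L (nat_lit 395) ln15_13_3 ln15_13_3_ok) (M (nat_lit 399) (B (L (nat_lit 398) ln11_13_2 ln11_13_2_ok) (L (nat_lit 400) ln12_13_2 ln12_13_2_ok))))) (M (nat_lit 426) (B (M (nat_lit 458) (B (L (nat_lit 457) ln13_13_1 ln13_13_1_ok) (L (nat_lit 459) ln14_13_1 ln14_13_1_ok))) (M (nat_lit 462) (B (L (nat_lit 461) ln10_13_0 ln10_13_0_ok) (L (nat_lit 463) ln11_13_0 ln11_13_0_ok))))))) (M (nat_lit 461) (B (M (nat_lit 462) (B (L (nat_lit 426) ln10_13_0 ln10_13_0_ok) (M (nat_lit 463) (B (L (nat_lit 460) ln15_14_3 ln15_14_3_ok) (L (nat_lit 464) ln16_14_3 ln16_14_3_ok))))) (M (nat_lit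 364) (B (L (nat_lit 332) ln12_10_4 ln12_10_4_ok) (M (nat_lit 493) (B (L (nat_lit 397) ln13_15_7 ln13_15_7_ok) (L (nat_lit 525) ln13_16_7 ln13_16_7_ok)))))))))) (B (M (nat_lit 427) (B (M (nat_lit 459) (B (M (nat_lit 430) (B (L (nat_lit 458) ln14_13_1 ln14_13_1_ok) (M (nat_lit 431) (B (L (nat_lit 395) ln15_13_3 ln15_13_3_ok) (L (nat_lit 460) ln15_13_1 ln15_13_1_ok))))) (B (M (nat_lit 460) (B (M (nat_lit 491) (B (L (nat_lit 364) ln12_11_5 ln12_11_5_ok) (L (nat_lit 523) ln11_16_6 ln11_16_6_ok))) (M (nat_lit 430) (B (L (nat_lit 458) ln14_13_1 ln14_13_1_ok) (L (nat_lit 431) ln15_13_1 ln15_13_1_ok))))) (B (M (nat_lit 491) (B (L (nat_lit 523) ln11_16_6 ln11_16_6_ok) (M (nat_lit 364) (B (L (nat_lit 395) ln11_15_6 ln11_15_6_ok) (L (nat_lit 460) ln12_11_5 ln12_11_5_ok))))) (M (nat_lit 395) (B (M (nat_lit 491) (B (L (nat_lit 364) ln11_15_6 ln11_15_6_ok) (L (nat_lit 523) ln11_16_6 ln11_16_6_ok)))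 (M (nat_lit 430) (B (L (nat_lit 431) ln15_13_3 ln15_13_3_ok) (L (nat_lit 458) ln14_13_1 ln14_13_1_ok))))))))) (B (M (nat_lit 430) (B (M (nat_lit 431) (B (L (nat_lit 395) ln15_13_3 ln15_13_3_ok) (M (nat_lit 459) (B (L (nat_lit 458) ln14_13_1 ln14_13_1_ok) (L (nat_lit 460) ln15_13_1 ln15_13_1_ok))))) (M (nat_lit 426) (B (M (nat_lit 397) (B (L (nat_lit 425) ln9_13_2 ln9_13_2_ok) (L (nat_lit 398) ln10_13_2 ln10_13_2_ok))) (M (nat_lit 462) (B (L (nat_lit 461) ln10_13_0 ln10_13_0_ok) (L (nat_lit 463) ln11_13_0 ln11_13_0_ok))))))) (B (M (nat_lit 461) (B (M (nat_lit 462) (B (L (nat_lit 426) ln10_13_0 ln10_13_0_ok) (M (nat_lit 463) (B (L (nat_lit 430) ln11_13_0 ln11_13_0_ok) (L (nat_lit 460) ln15_14_3 ln15_14_3_ok))))) (B (M (nat_lit 493) (B (L (nat_lit 525) ln13_16_7 ln13_16_7_ok) (M (nat_lit 364) (B (L (nat_lit 397) ln13_15_7 ln13_15_7_ok) (L (nat_lit 460) ln12_11_4 ln12_11_4_ok))))) (M (nat_lit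 462) (B (L (nat_lit 426) ln10_13_0 ln10_13_0_ok) (M (nat_lit 463) (B (L (nat_lit 430) ln11_13_0 ln11_13_0_ok) (L (nat_lit 464) ln16_14_3 ln16_14_3_ok)))))))) (B (M (nat_lit 461) (B (M (nat_lit 462) (B (L (nat_lit 426) ln10_13_0 ln10_13_0_ok) (M (nat_lit 463) (B (L (nat_lit 460) ln15_14_3 ln15_14_3_ok) (L (nat_lit 464) ln16_14_3 ln16_14_3_ok))))) (B (M (nat_lit 493) (B (L (nat_lit 525) ln13_16_7 ln13_16_7_ok) (M (nat_lit 364) (B (L (nat_lit 397) ln13_15_7 ln13_15_7_ok) (L (nat_lit 460) ln12_11_4 ln12_11_4_ok))))) (M (nat_lit 426) (B (L (nat_lit 462) ln10_13_0 ln10_13_0_ok) (M (nat_lit 397) (B (L (nat_lit 425) ln9_13_2 ln9_13_2_ok) (L (nat_lit 398) ln10_13_2 ln10_13_2_ok)))))))) (M (nat_lit 430) (B (M (nat_lit 431) (B (L (nat_lit 395) ln15_13_3 ln15_13_3_ok) (M (nat_lit 399) (B (L (nat_lit 398) ln11_13_2 ln11_13_2_ok) (L (nat_lit 400) ln12_13_2 ln12_13_2_ok))))) (B (M (nat_lit 426) (B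 (M (nat_lit 397) (B (L (nat_lit 425) ln9_13_2 ln9_13_2_ok) (L (nat_lit 398) ln10_13_2 ln10_13_2_ok))) (M (nat_lit 462) (B (L (nat_lit 461) ln10_13_0 ln10_13_0_ok) (L (nat_lit 463) ln11_13_0 ln11_13_0_ok))))) (M (nat_lit 431) (B (L (nat_lit 395) ln15_13_3 ln15_13_3_ok) (M (nat_lit 463) (B (L (nat_lit 462) ln11_13_0 ln11_13_0_ok) (L (nat_lit 464) ln12_13_0 ln12_13_0_ok))))))))))))) (B c41_n1817 (B (M (nat_lit 430) (B (M (nat_lit 431) (B (L (nat_lit 395) ln15_13_3 ln15_13_3_ok) (M (nat_lit 432) (B (M (nat_lit 400) (B (L (nat_lit 399) ln12_13_2 ln12_13_2_ok) (L (nat_lit 401) ln13_13_2 ln13_13_2_ok))) (M (nat_lit 460) (B (L (nat_lit 459) ln15_13_1 ln15_13_1_ok) (L (nat_lit 461) ln16_13_1 ln16_13_1_ok))))))) (B (M (nat_lit 427) (B (M (nat_lit 426) (B (M (nat_lit 458) (B (L (nat_lit 457) ln13_13_1 ln13_13_1_ok) (L (nat_lit 459) ln14_13_1 ln14_13_1_ok))) (M (nat_lit 462) (B (L (nat_lit 461)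 ln10_13_0 ln10_13_0_ok) (L (nat_lit 463) ln11_13_0 ln11_13_0_ok))))) (B (M (nat_lit 459) (B (L (nat_lit 458) ln14_13_1 ln14_13_1_ok) (M (nat_lit 364) (B (L (nat_lit 332) ln12_10_5 ln12_10_5_ok) (M (nat_lit 491) (B (L (nat_lit 460) ln12_11_5 ln12_11_5_ok) (L (nat_lit 523) ln11_16_6 ln11_16_6_ok))))))) (M (nat_lit 461) (B (M (nat_lit 462) (B (L (nat_lit 426) ln10_13_0 ln10_13_0_ok) (L (nat_lit 463) ln11_13_0 ln11_13_0_ok))) (M (nat_lit 364) (B (L (nat_lit 332) ln12_10_4 ln12_10_4_ok) (M (nat_lit 493) (B (L (nat_lit 460) ln12_11_4 ln12_11_4_ok) (L (nat_lit 525) ln13_16_7 ln13_16_7_ok)))))))))) (M (nat_lit 431) (B (L (nat_lit 395) ln15_13_3 ln15_13_3_ok) (M (nat_lit 427) (B (M (nat_lit 399) (B (L (nat_lit 398) ln11_13_2 ln11_13_2_ok) (L (nat_lit 400) ln12_13_2 ln12_13_2_ok))) (M (nat_lit 463) (B (L (nat_lit 462) ln11_13_0 ln11_13_0_ok) (L (nat_lit 464) ln12_13_0 ln12_13_0_ok))))))))))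 (B (M (nat_lit 364) (B (M (nat_lit 461) (B (L (nat_lit 332) ln12_10_4 ln12_10_4_ok) (M (nat_lit 493) (B (L (nat_lit 460) ln12_11_4 ln12_11_4_ok) (L (nat_lit 525) ln13_16_7 ln13_16_7_ok))))) (B (M (nat_lit 461) (B (M (nat_lit 493) (B (L (nat_lit 397) ln13_15_7 ln13_15_7_ok) (L (nat_lit 460) ln12_11_4 ln12_11_4_ok))) (B (M (nat_lit 493) (B (L (nat_lit 460) ln12_11_4 ln12_11_4_ok) (L (nat_lit 525) ln13_16_7 ln13_16_7_ok))) (B (M (nat_lit 493) (B (L (nat_lit 397) ln13_15_7 ln13_15_7_ok) (L (nat_lit 525) ln13_16_7 ln13_16_7_ok))) (M (nat_lit 460) (B (M (nat_lit 459) (B (L (nat_lit 491) ln12_11_5 ln12_11_5_ok) (M (nat_lit 430) (B (L (nat_lit 431) ln15_13_1 ln15_13_1_ok) (L (nat_lit 458) ln10_14_2 ln10_14_2_ok))))) (M (nat_lit 492) (B (M (nat_lit 363) (B (L (nat_lit 331) ln12_14_7 ln12_14_7_ok) (L (nat_lit 395) ln12_15_7 ln12_15_7_ok))) (M (nat_lit 524) (B (L (nat_lit 397) ln12_16_6 ln12_16_6_ok)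 (L (nat_lit 556) ln12_17_6 ln12_17_6_ok))))))))))) (B (M (nat_lit 461) (B (L (nat_lit 332) ln12_10_4 ln12_10_4_ok) (M (nat_lit 493) (B (L (nat_lit 397) ln13_15_7 ln13_15_7_ok) (L (nat_lit 525) ln13_16_7 ln13_16_7_ok))))) (M (nat_lit 460) (B (M (nat_lit 363) (B (L (nat_lit 331) ln12_14_7 ln12_14_7_ok) (M (nat_lit 492) (B (L (nat_lit 395) ln12_15_7 ln12_15_7_ok) (M (nat_lit 397) (B (L (nat_lit 365) ln12_15_6 ln12_15_6_ok) (L (nat_lit 524) ln12_16_6 ln12_16_6_ok))))))) (B (M (nat_lit 365) (B (L (nat_lit 333) ln12_14_6 ln12_14_6_ok) (M (nat_lit 492) (B (L (nat_lit 397) ln12_15_6 ln12_15_6_ok) (M (nat_lit 491) (B (L (nat_lit 459) ln12_11_5 ln12_11_5_ok) (L (nat_lit 523) ln12_12_5 ln12_12_5_ok))))))) (B (M (nat_lit 492) (B (M (nat_lit 363) (B (L (nat_lit 331) ln12_14_7 ln12_14_7_ok) (L (nat_lit 395) ln12_15_7 ln12_15_7_ok))) (M (nat_lit 491) (B (L (nat_lit 459) ln12_11_5 ln12_11_5_ok) (L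 (nat_lit 523) ln12_12_5 ln12_12_5_ok))))) (M (nat_lit 332) (B (M (nat_lit 331) (B (L (nat_lit 299) ln12_13_7 ln12_13_7_ok) (L (nat_lit 363) ln12_14_7 ln12_14_7_ok))) (M (nat_lit 333) (B (L (nat_lit 301) ln12_13_6 ln12_13_6_ok) (L (nat_lit 365) ln12_14_6 ln12_14_6_ok))))))))))))) (B (M (nat_lit 461) (B (M (nat_lit 493) (B (L (nat_lit 525) ln13_16_7 ln13_16_7_ok) (M (nat_lit 364) (B (L (nat_lit 332) ln12_10_4 ln12_10_4_ok) (L (nat_lit 460) ln12_11_4 ln12_11_4_ok))))) (B (M (nat_lit 493) (B (L (nat_lit 525) ln13_16_7 ln13_16_7_ok) (M (nat_lit 364) (B (L (nat_lit 397) ln13_15_7 ln13_15_7_ok) (L (nat_lit 460) ln12_11_4 ln12_11_4_ok))))) (B (M (nat_lit 493) (B (L (nat_lit 525) ln13_16_7 ln13_16_7_ok) (M (nat_lit 397) (B (M (nat_lit 398) (B (L (nat_lit 366) ln13_15_6 ln13_15_6_ok) (M (nat_lit 399) (B (L (nat_lit 427) ln15_12_1 ln15_12_1_ok) (L (nat_lit 400) ln16_12_1 ln16_12_1_ok))))) (M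 (nat_lit 365) (B (M (nat_lit 333) (B (L (nat_lit 301) ln13_9_5 ln13_9_5_ok) (L (nat_lit 460) ln13_10_5 ln13_10_5_ok))) (M (nat_lit 494) (B (L (nat_lit 462) ln13_11_4 ln13_11_4_ok) (L (nat_lit 526) ln13_12_4 ln13_12_4_ok))))))))) (B (M (nat_lit 493) (B (L (nat_lit 525) ln13_16_7 ln13_16_7_ok) (M (nat_lit 364) (B (L (nat_lit 332) ln12_10_4 ln12_10_4_ok) (L (nat_lit 397) ln13_15_7 ln13_15_7_ok))))) (M (nat_lit 364) (B (L (nat_lit 332) ln12_10_4 ln12_10_4_ok) (M (nat_lit 460) (B (M (nat_lit 365) (B (L (nat_lit 333) ln12_14_6 ln12_14_6_ok) (M (nat_lit 492) (B (L (nat_lit 397) ln12_15_6 ln12_15_6_ok) (M (nat_lit 491) (B (L (nat_lit 459) ln12_11_5 ln12_11_5_ok) (L (nat_lit 523) ln12_12_5 ln12_12_5_ok))))))) (B (M (nat_lit 492) (B (M (nat_lit 491) (B (L (nat_lit 459) ln12_11_5 ln12_11_5_ok) (L (nat_lit 523) ln12_12_5 ln12_12_5_ok))) (M (nat_lit 524) (B (L (nat_lit 397) ln12_16_6 ln12_16_6_ok)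 (L (nat_lit 556) ln12_17_6 ln12_17_6_ok))))) (B (M (nat_lit 427) (B (M (nat_lit 426) (B (L (nat_lit 425) ln9_13_0 ln9_13_0_ok) (L (nat_lit 462) ln10_13_0 ln10_13_0_ok))) (M (nat_lit 492) (B (M (nat_lit 491) (B (L (nat_lit 459) ln12_11_5 ln12_11_5_ok) (L (nat_lit 523) ln12_12_5 ln12_12_5_ok))) (M (nat_lit 524) (B (L (nat_lit 395) ln12_16_7 ln12_16_7_ok) (L (nat_lit 556) ln12_17_6 ln12_17_6_ok))))))) (B (M (nat_lit 365) (B (L (nat_lit 333) ln12_14_6 ln12_14_6_ok) (M (nat_lit 462) (B (M (nat_lit 397) (B (L (nat_lit 492) ln12_15_6 ln12_15_6_ok) (L (nat_lit 494) ln13_11_4 ln13_11_4_ok))) (M (nat_lit 463) (B (L (nat_lit 427) ln15_14_3 ln15_14_3_ok) (L (nat_lit 464) ln16_14_3 ln16_14_3_ok))))))) (M (nat_lit 462) (B (M (nat_lit 427) (B (L (nat_lit 426) ln10_13_0 ln10_13_0_ok) (L (nat_lit 463) ln15_14_3 ln15_14_3_ok))) (M (nat_lit 494) (B (M (nat_lit 365) (B (L (nat_lit 333) ln12_14_6 ln12_14_6_ok)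 (L (nat_lit 397) ln13_11_4 ln13_11_4_ok))) (M (nat_lit 459) (B (L (nat_lit 491) ln12_11_5 ln12_11_5_ok) (L (nat_lit 495) ln11_14_0 ln11_14_0_ok))))))))))))))))))) (B c41_n2855 (B (M (nat_lit 430) (B (M (nat_lit 431) (B (L (nat_lit 395) ln15_13_3 ln15_13_3_ok) (M (nat_lit 400) (B (L (nat_lit 399) ln12_13_2 ln12_13_2_ok) (M (nat_lit 432) (B (L (nat_lit 397) ln16_13_3 ln16_13_3_ok) (L (nat_lit 401) ln13_13_2 ln13_13_2_ok))))))) (B (M (nat_lit 461) (B (M (nat_lit 364) (B (L (nat_lit 332) ln12_10_4 ln12_10_4_ok) (M (nat_lit 493) (B (L (nat_lit 397) ln13_15_7 ln13_15_7_ok) (L (nat_lit 525) ln13_16_7 ln13_16_7_ok))))) (B (M (nat_lit 427) (B (M (nat_lit 462) (B (L (nat_lit 426) ln10_13_0 ln10_13_0_ok) (L (nat_lit 463) ln11_13_0 ln11_13_0_ok))) (B (M (nat_lit 431) (B (M (nat_lit 399) (B (L (nat_lit 398) ln11_13_2 ln11_13_2_ok) (L (nat_lit 400) ln12_13_2 ln12_13_2_ok))) (M (nat_lit 463) (B (L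 (nat_lit 462) ln11_13_0 ln11_13_0_ok) (L (nat_lit 464) ln12_13_0 ln12_13_0_ok))))) (M (nat_lit 426) (B (M (nat_lit 397) (B (L (nat_lit 425) ln9_13_2 ln9_13_2_ok) (L (nat_lit 398) ln10_13_2 ln10_13_2_ok))) (M (nat_lit 458) (B (L (nat_lit 457) ln13_13_1 ln13_13_1_ok) (L (nat_lit 459) ln14_13_1 ln14_13_1_ok)))))))) (M (nat_lit 398) (B (M (nat_lit 493) (B (L (nat_lit 525) ln13_16_7 ln13_16_7_ok) (M (nat_lit 366) (B (L (nat_lit 334) ln14_10_5 ln14_10_5_ok) (L (nat_lit 462) ln14_11_5 ln14_11_5_ok))))) (M (nat_lit 399) (B (L (nat_lit 427) ln11_13_2 ln11_13_2_ok) (M (nat_lit 400) (B (L (nat_lit 401) ln17_12_1 ln17_12_1_ok) (L (nat_lit 431) ln12_13_2 ln12_13_2_ok)))))))))) (B (M (nat_lit 431) (B (L (nat_lit 395) ln15_13_3 ln15_13_3_ok) (M (nat_lit 427) (B (M (nat_lit 399) (B (L (nat_lit 398) ln11_13_2 ln11_13_2_ok) (L (nat_lit 400) ln12_13_2 ln12_13_2_ok))) (M (nat_lit 463) (B (L (nat_lit 462)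 ln11_13_0 ln11_13_0_ok) (L (nat_lit 464) ln12_13_0 ln12_13_0_ok))))))) (B (M (nat_lit 427) (B (M (nat_lit 431) (B (L (nat_lit 395) ln15_13_3 ln15_13_3_ok) (M (nat_lit 463) (B (L (nat_lit 462) ln11_13_0 ln11_13_0_ok) (L (nat_lit 464) ln12_13_0 ln12_13_0_ok))))) (B (M (nat_lit 426) (B (M (nat_lit 458) (B (L (nat_lit 457) ln13_13_1 ln13_13_1_ok) (L (nat_lit 459) ln14_13_1 ln14_13_1_ok))) (M (nat_lit 462) (B (L (nat_lit 461) ln10_13_0 ln10_13_0_ok) (L (nat_lit 463) ln11_13_0 ln11_13_0_ok))))) (M (nat_lit 397) (B (M (nat_lit 431) (B (L (nat_lit 395) ln15_13_3 ln15_13_3_ok) (L (nat_lit 432) ln16_13_3 ln16_13_3_ok))) (M (nat_lit 426) (B (L (nat_lit 425) ln9_13_2 ln9_13_2_ok) (L (nat_lit 398) ln10_13_2 ln10_13_2_ok)))))))) (M (nat_lit 427) (B (M (nat_lit 398) (B (L (nat_lit 399) ln11_13_2 ln11_13_2_ok) (M (nat_lit 426) (B (L (nat_lit 397) ln10_13_2 ln10_13_2_ok) (M (nat_lit 462) (B (L (nat_lit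 461) ln10_13_0 ln10_13_0_ok) (L (nat_lit 463) ln11_13_0 ln11_13_0_ok))))))) (B (M (nat_lit 426) (B (M (nat_lit 458) (B (L (nat_lit 457) ln13_13_1 ln13_13_1_ok) (L (nat_lit 459) ln14_13_1 ln14_13_1_ok))) (M (nat_lit 462) (B (L (nat_lit 461) ln10_13_0 ln10_13_0_ok) (L (nat_lit 463) ln11_13_0 ln11_13_0_ok))))) (M (nat_lit 459) (B (L (nat_lit 458) ln14_13_1 ln14_13_1_ok) (M (nat_lit 364) (B (L (nat_lit 332) ln12_10_5 ln12_10_5_ok) (M (nat_lit 491) (B (L (nat_lit 395) ln11_15_6 ln11_15_6_ok) (L (nat_lit 523) ln11_16_6 ln11_16_6_ok))))))))))))))) (M (nat_lit 430) (B (M (nat_lit 431) (B (L (nat_lit 395) ln15_13_3 ln15_13_3_ok) (M (nat_lit 400) (B (L (nat_lit 399) ln12_13_2 ln12_13_2_ok) (M (nat_lit 432) (B (L (nat_lit 397) ln16_13_3 ln16_13_3_ok) (L (nat_lit 401) ln13_13_2 ln13_13_2_ok))))))) (B (M (nat_lit 431) (B (M (nat_lit 400) (B (L (nat_lit 399) ln12_13_2 ln12_13_2_ok) (M (nat_lit 432)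 (B (L (nat_lit 397) ln16_13_3 ln16_13_3_ok) (L (nat_lit 401) ln13_13_2 ln13_13_2_ok))))) (M (nat_lit 427) (B (M (nat_lit 459) (B (L (nat_lit 458) ln14_13_1 ln14_13_1_ok) (L (nat_lit 460) ln15_13_1 ln15_13_1_ok))) (M (nat_lit 463) (B (L (nat_lit 462) ln11_13_0 ln11_13_0_ok) (L (nat_lit 464) ln12_13_0 ln12_13_0_ok))))))) (B (M (nat_lit 431) (B (L (nat_lit 395) ln15_13_3 ln15_13_3_ok) (M (nat_lit 427) (B (M (nat_lit 459) (B (L (nat_lit 458) ln14_13_1 ln14_13_1_ok) (L (nat_lit 460) ln15_13_1 ln15_13_1_ok))) (M (nat_lit 463) (B (L (nat_lit 462) ln11_13_0 ln11_13_0_ok) (L (nat_lit 464) ln12_13_0 ln12_13_0_ok))))))) (M (nat_lit 427) (B (M (nat_lit 459) (B (L (nat_lit 458) ln14_13_1 ln14_13_1_ok) (M (nat_lit 364) (B (L (nat_lit 332) ln12_10_5 ln12_10_5_ok) (M (nat_lit 491) (B (L (nat_lit 395) ln11_15_6 ln11_15_6_ok) (L (nat_lit 523) ln11_16_6 ln11_16_6_ok))))))) (M (nat_lit 398) (B (L (nat_lit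 399) ln11_13_2 ln11_13_2_ok) (M (nat_lit 397) (B (L (nat_lit 426) ln10_13_2 ln10_13_2_ok) (M (nat_lit 462) (B (L (nat_lit 463) ln11_13_0 ln11_13_0_ok) (M (nat_lit 365) (B (L (nat_lit 333) ln13_10_4 ln13_10_4_ok) (L (nat_lit 494) ln14_15_7 ln14_15_7_ok))))))))))))))))))))))))) (nat_lit 1386334847221798047169638878925036799968406779833514899637066259859226863686603287896039777716422623628704219945445734162783797248) (nat_lit 825554280841600030608870219547455646483657767345542470063064650877470005051894890593862675911858805302537316416782591744630079439020140027421632911266301239201112260608) (nat_lit 825554280841600030608870219547455646483657767345542470063064650877470005051894890593862675911858805302537316416782591744630079439020140027421632911266301239201112260608) (by decide +kernel)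
noncomputable def c41_n2890 : Cert := (M (nat_lit 461) (B (M (nat_lit 493) (B (L (nat_lit 525) ln13_16_7 ln13_16_7_ok) (M (nat_lit 364) (B (L (nat_lit 397) ln13_15_7 ln13_15_7_ok) (L (nat_lit 460) ln12_11_4 ln12_11_4_ok))))) (B (M (nat_lit 493) (B (L (nat_lit 525) ln13_16_7 ln13_16_7_ok) (M (nat_lit 397) (B (M (nat_lit 398) (B (L (nat_lit 366) ln13_15_6 ln13_15_6_ok) (M (nat_lit 399) (B (L (nat_lit 427) ln15_12_1 ln15_12_1_ok) (L (nat_lit 400) ln16_12_1 ln16_12_1_ok))))) (M (nat_lit 365) (B (M (nat_lit 333) (B (L (nat_lit 301) ln13_9_5 ln13_9_5_ok) (L (nat_lit 460) ln13_10_5 ln13_10_5_ok))) (M (nat_lit 494) (B (L (nat_lit 462) ln13_11_4 ln13_11_4_ok) (L (nat_lit 526) ln13_12_4 ln13_12_4_ok))))))))) (B (M (nat_lit 493) (B (L (nat_lit 525) ln13_16_7 ln13_16_7_ok) (M (nat_lit 430) (B (M (nat_lit 460) (B (L (nat_lit 364) ln12_11_4 ln12_11_4_ok) (M (nat_lit 431) (B (L (nat_lit 459) ln15_13_1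 ln15_13_1_ok) (L (nat_lit 432) ln16_13_1 ln16_13_1_ok))))) (B (M (nat_lit 398) (B (M (nat_lit 366) (B (L (nat_lit 334) ln14_10_5 ln14_10_5_ok) (L (nat_lit 462) ln14_11_5 ln14_11_5_ok))) (M (nat_lit 399) (B (L (nat_lit 427) ln11_13_2 ln11_13_2_ok) (M (nat_lit 400) (B (L (nat_lit 401) ln17_12_1 ln17_12_1_ok) (L (nat_lit 431) ln12_13_2 ln12_13_2_ok))))))) (M (nat_lit 427) (B (M (nat_lit 462) (B (L (nat_lit 426) ln10_13_0 ln10_13_0_ok) (L (nat_lit 463) ln11_13_0 ln11_13_0_ok))) (B (M (nat_lit 462) (B (L (nat_lit 463) ln11_13_0 ln11_13_0_ok) (M (nat_lit 398) (B (L (nat_lit 366) ln14_11_5 ln14_11_5_ok) (L (nat_lit 399) ln11_13_2 ln11_13_2_ok))))) (M (nat_lit 426) (B (M (nat_lit 460) (B (L (nat_lit 364) ln12_11_4 ln12_11_4_ok) (L (nat_lit 425) ln9_13_0 ln9_13_0_ok))) (M (nat_lit 458) (B (L (nat_lit 457) ln13_13_1 ln13_13_1_ok) (L (nat_lit 459) ln14_13_1 ln14_13_1_ok))))))))))))) (B (M (nat_lit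 493) (B (L (nat_lit 525) ln13_16_7 ln13_16_7_ok) (M (nat_lit 397) (B (L (nat_lit 364) ln13_15_7 ln13_15_7_ok) (M (nat_lit 398) (B (L (nat_lit 366) ln13_15_6 ln13_15_6_ok) (M (nat_lit 399) (B (L (nat_lit 427) ln15_12_1 ln15_12_1_ok) (L (nat_lit 400) ln16_12_1 ln16_12_1_ok))))))))) (M (nat_lit 427) (B (M (nat_lit 462) (B (L (nat_lit 426) ln10_13_0 ln10_13_0_ok) (M (nat_lit 463) (B (L (nat_lit 430) ln11_13_0 ln11_13_0_ok) (L (nat_lit 460) ln15_14_3 ln15_14_3_ok))))) (B (M (nat_lit 459) (B (M (nat_lit 458) (B (L (nat_lit 430) ln14_13_1 ln14_13_1_ok) (M (nat_lit 457) (B (L (nat_lit 456) ln8_14_2 ln8_14_2_ok) (L (nat_lit 460) ln9_14_2 ln9_14_2_ok))))) (B (M (nat_lit 491) (B (L (nat_lit 523) ln11_16_6 ln11_16_6_ok) (M (nat_lit 460) (B (L (nat_lit 364) ln12_11_5 ln12_11_5_ok) (M (nat_lit 462) (B (L (nat_lit 463) ln15_14_3 ln15_14_3_ok) (L (nat_lit 490) ln14_14_1 ln14_14_1_ok))))))) (M (nat_lit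 430) (B (L (nat_lit 458) ln14_13_1 ln14_13_1_ok) (M (nat_lit 431) (B (M (nat_lit 399) (B (L (nat_lit 398) ln11_13_2 ln11_13_2_ok) (L (nat_lit 400) ln12_13_2 ln12_13_2_ok))) (M (nat_lit 463) (B (L (nat_lit 462) ln11_13_0 ln11_13_0_ok) (L (nat_lit 464) ln12_13_0 ln12_13_0_ok)))))))))) (B (M (nat_lit 462) (B (L (nat_lit 426) ln10_13_0 ln10_13_0_ok) (M (nat_lit 463) (B (L (nat_lit 460) ln15_14_3 ln15_14_3_ok) (L (nat_lit 464) ln16_14_3 ln16_14_3_ok))))) (B (M (nat_lit 462) (B (L (nat_lit 426) ln10_13_0 ln10_13_0_ok) (M (nat_lit 463) (B (L (nat_lit 430) ln11_13_0 ln11_13_0_ok) (L (nat_lit 464) ln16_14_3 ln16_14_3_ok))))) (M (nat_lit 426) (B (M (nat_lit 397) (B (L (nat_lit 425) ln9_13_2 ln9_13_2_ok) (L (nat_lit 398) ln10_13_2 ln10_13_2_ok))) (B (M (nat_lit 425) (B (L (nat_lit 460) ln9_13_0 ln9_13_0_ok) (M (nat_lit 457) (B (L (nat_lit 456) ln12_13_1 ln12_13_1_ok) (L (nat_lit 458) ln13_13_1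 ln13_13_1_ok))))) (M (nat_lit 430) (B (M (nat_lit 398) (B (L (nat_lit 397) ln10_13_2 ln10_13_2_ok) (L (nat_lit 399) ln11_13_2 ln11_13_2_ok))) (M (nat_lit 458) (B (L (nat_lit 457) ln13_13_1 ln13_13_1_ok) (L (nat_lit 459) ln14_13_1 ln14_13_1_ok))))))))))))))))))
noncomputable def c41_n2921 : Cert := (M (nat_lit 398) (B (M (nat_lit 399) (B (L (nat_lit 427) ln11_13_2 ln11_13_2_ok) (M (nat_lit 400) (B (L (nat_lit 397) ln16_12_1 ln16_12_1_ok) (L (nat_lit 401) ln17_12_1 ln17_12_1_ok))))) (B (M (nat_lit 427) (B (L (nat_lit 399) ln11_13_2 ln11_13_2_ok) (M (nat_lit 462) (B (L (nat_lit 463) ln11_13_0 ln11_13_0_ok) (M (nat_lit 461) (B (L (nat_lit 426) ln10_13_0 ln10_13_0_ok) (M (nat_lit 366) (B (L (nat_lit 334) ln14_10_5 ln14_10_5_ok) (L (nat_lit 493) ln14_11_5 ln14_11_5_ok))))))))) (B (M (nat_lit 462) (B (M (nat_lit 427) (B (L (nat_lit 463) ln11_13_0 ln11_13_0_ok) (M (nat_lit 426) (B (L (nat_lit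 397) ln10_13_2 ln10_13_2_ok) (L (nat_lit 461) ln10_13_0 ln10_13_0_ok))))) (B (M (nat_lit 461) (B (M (nat_lit 366) (B (L (nat_lit 334) ln14_10_5 ln14_10_5_ok) (L (nat_lit 493) ln14_11_5 ln14_11_5_ok))) (M (nat_lit 427) (B (L (nat_lit 426) ln10_13_0 ln10_13_0_ok) (L (nat_lit 463) ln11_13_0 ln11_13_0_ok))))) (B (M (nat_lit 366) (B (M (nat_lit 461) (B (L (nat_lit 334) ln14_10_5 ln14_10_5_ok) (L (nat_lit 493) ln14_11_5 ln14_11_5_ok))) (M (nat_lit 463) (B (L (nat_lit 495) ln14_11_4 ln14_11_4_ok) (L (nat_lit 427) ln11_13_0 ln11_13_0_ok))))) (B (M (nat_lit 366) (B (M (nat_lit 461) (B (L (nat_lit 334) ln14_10_5 ln14_10_5_ok) (L (nat_lit 493) ln14_11_5 ln14_11_5_ok))) (M (nat_lit 494) (B (M (nat_lit 365) (B (L (nat_lit 333) ln14_14_7 ln14_14_7_ok) (L (nat_lit 397) ln14_15_7 ln14_15_7_ok))) (M (nat_lit 495) (B (L (nat_lit 463) ln14_11_4 ln14_11_4_ok) (L (nat_lit 527) ln14_12_4 ln14_12_4_ok)))))))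 (B (M (nat_lit 397) (B (M (nat_lit 365) (B (L (nat_lit 333) ln13_10_4 ln13_10_4_ok) (L (nat_lit 494) ln14_15_7 ln14_15_7_ok))) (M (nat_lit 427) (B (L (nat_lit 426) ln10_13_2 ln10_13_2_ok) (L (nat_lit 463) ln11_13_0 ln11_13_0_ok))))) (M (nat_lit 366) (B (M (nat_lit 461) (B (L (nat_lit 334) ln14_10_5 ln14_10_5_ok) (L (nat_lit 493) ln14_11_5 ln14_11_5_ok))) (B (M (nat_lit 494) (B (M (nat_lit 365) (B (L (nat_lit 333) ln14_14_7 ln14_14_7_ok) (L (nat_lit 397) ln14_15_7 ln14_15_7_ok))) (M (nat_lit 493) (B (L (nat_lit 461) ln14_11_5 ln14_11_5_ok) (L (nat_lit 525) ln14_12_5 ln14_12_5_ok))))) (M (nat_lit 334) (B (M (nat_lit 333) (B (L (nat_lit 301) ln14_13_7 ln14_13_7_ok) (L (nat_lit 365) ln14_14_7 ln14_14_7_ok))) (M (nat_lit 335) (B (L (nat_lit 303) ln14_13_6 ln14_13_6_ok) (L (nat_lit 367) ln14_14_6 ln14_14_6_ok)))))))))))))) (M (nat_lit 366) (B (M (nat_lit 461) (B (L (nat_lit 334) ln14_10_5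 ln14_10_5_ok) (M (nat_lit 493) (B (L (nat_lit 397) ln13_15_6 ln13_15_6_ok) (L (nat_lit 462) ln14_11_5 ln14_11_5_ok))))) (B (M (nat_lit 462) (B (M (nat_lit 461) (B (L (nat_lit 493) ln14_11_5 ln14_11_5_ok) (M (nat_lit 463) (B (L (nat_lit 495) ln14_11_4 ln14_11_4_ok) (L (nat_lit 464) ln16_14_3 ln16_14_3_ok))))) (M (nat_lit 399) (B (M (nat_lit 367) (B (L (nat_lit 335) ln14_14_6 ln14_14_6_ok) (L (nat_lit 494) ln14_15_6 ln14_15_6_ok))) (M (nat_lit 400) (B (L (nat_lit 397) ln16_12_1 ln16_12_1_ok) (L (nat_lit 401) ln17_12_1 ln17_12_1_ok))))))) (B (M (nat_lit 461) (B (L (nat_lit 334) ln14_10_5 ln14_10_5_ok) (M (nat_lit 493) (B (L (nat_lit 462) ln14_11_5 ln14_11_5_ok) (L (nat_lit 525) ln13_16_7 ln13_16_7_ok))))) (B (M (nat_lit 334) (B (M (nat_lit 302) (B (L (nat_lit 397) ln14_9_5 ln14_9_5_ok) (M (nat_lit 303) (B (L (nat_lit 271) ln14_12_6 ln14_12_6_ok) (L (nat_lit 335) ln14_13_6 ln14_13_6_ok)))))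 (B (M (nat_lit 302) (B (L (nat_lit 397) ln14_9_5 ln14_9_5_ok) (M (nat_lit 301) (B (L (nat_lit 269) ln14_12_7 ln14_12_7_ok) (L (nat_lit 333) ln14_13_7 ln14_13_7_ok))))) (M (nat_lit 462) (B (M (nat_lit 333) (B (L (nat_lit 301) ln14_13_7 ln14_13_7_ok) (L (nat_lit 365) ln14_14_7 ln14_14_7_ok))) (M (nat_lit 335) (B (L (nat_lit 303) ln14_13_6 ln14_13_6_ok) (L (nat_lit 367) ln14_14_6 ln14_14_6_ok)))))))) (M (nat_lit 461) (B (L (nat_lit 334) ln14_10_5 ln14_10_5_ok) (M (nat_lit 493) (B (L (nat_lit 397) ln13_15_6 ln13_15_6_ok) (L (nat_lit 525) ln13_16_7 ln13_16_7_ok))))))))))))))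
theorem c41_s2922 : Sem (nat_lit 2079502270752001762064242424960807725827516048677469043429686155012882190638009693656033379242457518153052022685796627120027336704) (nat_lit 823775719407473396824138722449902164865384940746544139634436356928084800566246879689084795751370040799151073134853812137515929639539268066951246609364247642112) (nat_lit 823775719407473396824138722449902164865384940746544139634436356928084800566246879689084795751370040799151073134853812137515929639539268066951246609364247642112) :=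
  sem_of_chk (M (nat_lit 430) (B (M (nat_lit 431) (B (M (nat_lit 400) (B (L (nat_lit 399) ln12_13_2 ln12_13_2_ok) (M (nat_lit 432) (B (L (nat_lit 397) ln16_13_3 ln16_13_3_ok) (L (nat_lit 401) ln13_13_2 ln13_13_2_ok))))) (M (nat_lit 427) (B (M (nat_lit 459) (B (L (nat_lit 458) ln14_13_1 ln14_13_1_ok) (L (nat_lit 460) ln15_13_1 ln15_13_1_ok))) (M (nat_lit 463) (B (L (nat_lit 462) ln11_13_0 ln11_13_0_ok) (L (nat_lit 464) ln12_13_0 ln12_13_0_ok))))))) (B (M (nat_lit 427) (B (M (nat_lit 426) (B (M (nat_lit 458) (B (L (nat_lit 457) ln13_13_1 ln13_13_1_ok) (L (nat_lit 459) ln14_13_1 ln14_13_1_ok))) (M (nat_lit 462) (B (L (nat_lit 461) ln10_13_0 ln10_13_0_ok) (L (nat_lit 463) ln11_13_0 ln11_13_0_ok))))) (B (M (nat_lit 431) (B (M (nat_lit 399) (B (L (nat_lit 398) ln11_13_2 ln11_13_2_ok) (L (nat_lit 400) ln12_13_2 ln12_13_2_ok))) (M (nat_lit 463) (B (L (nat_lit 462) ln11_13_0 ln11_13_0_ok) (L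 (nat_lit 464) ln12_13_0 ln12_13_0_ok))))) (M (nat_lit 431) (B (M (nat_lit 399) (B (L (nat_lit 398) ln11_13_2 ln11_13_2_ok) (L (nat_lit 400) ln12_13_2 ln12_13_2_ok))) (M (nat_lit 459) (B (L (nat_lit 458) ln14_13_1 ln14_13_1_ok) (L (nat_lit 460) ln15_13_1 ln15_13_1_ok)))))))) (B (M (nat_lit 427) (B (M (nat_lit 426) (B (M (nat_lit 397) (B (L (nat_lit 425) ln9_13_2 ln9_13_2_ok) (L (nat_lit 398) ln10_13_2 ln10_13_2_ok))) (M (nat_lit 458) (B (L (nat_lit 457) ln13_13_1 ln13_13_1_ok) (L (nat_lit 459) ln14_13_1 ln14_13_1_ok))))) (B (M (nat_lit 426) (B (M (nat_lit 458) (B (L (nat_lit 457) ln13_13_1 ln13_13_1_ok) (L (nat_lit 459) ln14_13_1 ln14_13_1_ok))) (M (nat_lit 462) (B (L (nat_lit 461) ln10_13_0 ln10_13_0_ok) (L (nat_lit 463) ln11_13_0 ln11_13_0_ok))))) (B (M (nat_lit 431) (B (M (nat_lit 459) (B (L (nat_lit 458) ln14_13_1 ln14_13_1_ok) (L (nat_lit 460) ln15_13_1 ln15_13_1_ok))) (M (nat_lit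 463) (B (L (nat_lit 462) ln11_13_0 ln11_13_0_ok) (L (nat_lit 464) ln12_13_0 ln12_13_0_ok))))) (M (nat_lit 426) (B (M (nat_lit 397) (B (L (nat_lit 425) ln9_13_2 ln9_13_2_ok) (L (nat_lit 398) ln10_13_2 ln10_13_2_ok))) (M (nat_lit 462) (B (L (nat_lit 461) ln10_13_0 ln10_13_0_ok) (L (nat_lit 463) ln11_13_0 ln11_13_0_ok))))))))) (B c41_n1947 (B c41_n2921 (M (nat_lit 431) (B (M (nat_lit 460) (B (L (nat_lit 459) ln15_13_1 ln15_13_1_ok) (M (nat_lit 432) (B (L (nat_lit 397) ln16_13_3 ln16_13_3_ok) (L (nat_lit 461) ln16_13_1 ln16_13_1_ok))))) (B (M (nat_lit 427) (B (M (nat_lit 399) (B (L (nat_lit 398) ln11_13_2 ln11_13_2_ok) (L (nat_lit 400) ln12_13_2 ln12_13_2_ok))) (M (nat_lit 459) (B (L (nat_lit 458) ln14_13_1 ln14_13_1_ok) (L (nat_lit 460) ln15_13_1 ln15_13_1_ok))))) (M (nat_lit 400) (B (L (nat_lit 399) ln12_13_2 ln12_13_2_ok) (M (nat_lit 432) (B (L (nat_lit 397) ln16_13_3 ln16_13_3_ok)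 (L (nat_lit 401) ln13_13_2 ln13_13_2_ok)))))))))))))) (nat_lit 2079502270752001762064242424960807725827516048677469043429686155012882190638009693656033379242457518153052022685796627120027336704) (nat_lit 823775719407473396824138722449902164865384940746544139634436356928084800566246879689084795751370040799151073134853812137515929639539268066951246609364247642112) (nat_lit 823775719407473396824138722449902164865384940746544139634436356928084800566246879689084795751370040799151073134853812137515929639539268066951246609364247642112) (by decide +kernel)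
theorem c41_s3114 : Sem (nat_lit 2079502270752001762064242424960807725827516048677469043429686155012882190638009693656033379242457518153052022685796627120027336704) (nat_lit 2026130649693226623645563157575347032939076399333669943144154185618032065855909948871868022224770889348763700810060723148602983002230766908471290102849206578503584942329153191936) (nat_lit 2026130649693226623645563157575347032939076399333669943144154185618032065855909948871868022224770889348763700810060723148602983002230766908471290102849206578503584942329153191936) :=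
  sem_of_chk (M (nat_lit 430) (B (M (nat_lit 461) (B (M (nat_lit 364) (B (L (nat_lit 332) ln12_10_4 ln12_10_4_ok) (M (nat_lit 493) (B (L (nat_lit 460) ln12_11_4 ln12_11_4_ok) (L (nat_lit 525) ln13_16_7 ln13_16_7_ok))))) (B (M (nat_lit 460) (B (M (nat_lit 493) (B (L (nat_lit 364) ln12_11_4 ln12_11_4_ok) (L (nat_lit 525) ln13_16_7 ln13_16_7_ok))) (M (nat_lit 459) (B (L (nat_lit 431) ln15_13_1 ln15_13_1_ok) (L (nat_lit 458) ln10_14_2 ln10_14_2_ok))))) (B (M (nat_lit 427) (B (M (nat_lit 462) (B (L (nat_lit 426) ln10_13_0 ln10_13_0_ok) (L (nat_lit 463) ln11_13_0 ln11_13_0_ok))) (M (nat_lit 431) (B (M (nat_lit 399) (B (L (nat_lit 398) ln11_13_2 ln11_13_2_ok) (L (nat_lit 400) ln12_13_2 ln12_13_2_ok))) (M (nat_lit 459) (B (L (nat_lit 458) ln14_13_1 ln14_13_1_ok) (L (nat_lit 460) ln15_13_1 ln15_13_1_ok))))))) (M (nat_lit 398) (B (M (nat_lit 493) (B (L (nat_lit 525) ln13_16_7 ln13_16_7_ok) (M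 (nat_lit 366) (B (L (nat_lit 334) ln14_10_5 ln14_10_5_ok) (L (nat_lit 462) ln14_11_5 ln14_11_5_ok))))) (M (nat_lit 399) (B (L (nat_lit 427) ln11_13_2 ln11_13_2_ok) (M (nat_lit 400) (B (L (nat_lit 401) ln17_12_1 ln17_12_1_ok) (L (nat_lit 431) ln12_13_2 ln12_13_2_ok))))))))))) (B (M (nat_lit 427) (B (M (nat_lit 426) (B (M (nat_lit 458) (B (L (nat_lit 457) ln13_13_1 ln13_13_1_ok) (L (nat_lit 459) ln14_13_1 ln14_13_1_ok))) (M (nat_lit 462) (B (L (nat_lit 461) ln10_13_0 ln10_13_0_ok) (L (nat_lit 463) ln11_13_0 ln11_13_0_ok))))) (B (M (nat_lit 431) (B (M (nat_lit 399) (B (L (nat_lit 398) ln11_13_2 ln11_13_2_ok) (L (nat_lit 400) ln12_13_2 ln12_13_2_ok))) (M (nat_lit 463) (B (L (nat_lit 462) ln11_13_0 ln11_13_0_ok) (L (nat_lit 464) ln12_13_0 ln12_13_0_ok))))) (M (nat_lit 431) (B (M (nat_lit 399) (B (L (nat_lit 398) ln11_13_2 ln11_13_2_ok) (L (nat_lit 400) ln12_13_2 ln12_13_2_ok))) (M (nat_lit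 459) (B (L (nat_lit 458) ln14_13_1 ln14_13_1_ok) (L (nat_lit 460) ln15_13_1 ln15_13_1_ok)))))))) (B (M (nat_lit 427) (B (M (nat_lit 426) (B (M (nat_lit 458) (B (L (nat_lit 457) ln13_13_1 ln13_13_1_ok) (L (nat_lit 459) ln14_13_1 ln14_13_1_ok))) (M (nat_lit 462) (B (L (nat_lit 461) ln10_13_0 ln10_13_0_ok) (L (nat_lit 463) ln11_13_0 ln11_13_0_ok))))) (B (M (nat_lit 459) (B (L (nat_lit 458) ln14_13_1 ln14_13_1_ok) (M (nat_lit 364) (B (L (nat_lit 332) ln12_10_5 ln12_10_5_ok) (M (nat_lit 491) (B (L (nat_lit 460) ln12_11_5 ln12_11_5_ok) (L (nat_lit 523) ln11_16_6 ln11_16_6_ok))))))) (M (nat_lit 461) (B (M (nat_lit 462) (B (L (nat_lit 426) ln10_13_0 ln10_13_0_ok) (L (nat_lit 463) ln11_13_0 ln11_13_0_ok))) (M (nat_lit 364) (B (L (nat_lit 332) ln12_10_4 ln12_10_4_ok) (M (nat_lit 493) (B (L (nat_lit 460) ln12_11_4 ln12_11_4_ok) (L (nat_lit 525) ln13_16_7 ln13_16_7_ok)))))))))) (B (M (nat_lit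 431) (B (M (nat_lit 427) (B (M (nat_lit 459) (B (L (nat_lit 458) ln14_13_1 ln14_13_1_ok) (L (nat_lit 460) ln15_13_1 ln15_13_1_ok))) (M (nat_lit 463) (B (L (nat_lit 462) ln11_13_0 ln11_13_0_ok) (L (nat_lit 464) ln12_13_0 ln12_13_0_ok))))) (B (M (nat_lit 432) (B (M (nat_lit 400) (B (L (nat_lit 399) ln12_13_2 ln12_13_2_ok) (L (nat_lit 401) ln13_13_2 ln13_13_2_ok))) (M (nat_lit 460) (B (L (nat_lit 459) ln15_13_1 ln15_13_1_ok) (L (nat_lit 461) ln16_13_1 ln16_13_1_ok))))) (M (nat_lit 427) (B (M (nat_lit 399) (B (L (nat_lit 398) ln11_13_2 ln11_13_2_ok) (L (nat_lit 400) ln12_13_2 ln12_13_2_ok))) (M (nat_lit 463) (B (L (nat_lit 462) ln11_13_0 ln11_13_0_ok) (L (nat_lit 464) ln12_13_0 ln12_13_0_ok)))))))) (B (M (nat_lit 460) (B (M (nat_lit 459) (B (L (nat_lit 431) ln15_13_1 ln15_13_1_ok) (M (nat_lit 458) (B (L (nat_lit 457) ln9_14_2 ln9_14_2_ok) (L (nat_lit 461) ln10_14_2 ln10_14_2_ok))))) (B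 (M (nat_lit 364) (B (M (nat_lit 461) (B (L (nat_lit 332) ln12_10_4 ln12_10_4_ok) (L (nat_lit 493) ln12_11_4 ln12_11_4_ok))) (B (M (nat_lit 459) (B (L (nat_lit 491) ln12_11_5 ln12_11_5_ok) (M (nat_lit 458) (B (L (nat_lit 457) ln9_14_2 ln9_14_2_ok) (L (nat_lit 461) ln10_14_2 ln10_14_2_ok))))) (M (nat_lit 332) (B (M (nat_lit 331) (B (L (nat_lit 299) ln12_13_7 ln12_13_7_ok) (L (nat_lit 363) ln12_14_7 ln12_14_7_ok))) (M (nat_lit 333) (B (L (nat_lit 301) ln12_13_6 ln12_13_6_ok) (L (nat_lit 365) ln12_14_6 ln12_14_6_ok)))))))) (B (M (nat_lit 461) (B (M (nat_lit 364) (B (L (nat_lit 332) ln12_10_4 ln12_10_4_ok) (L (nat_lit 493) ln12_11_4 ln12_11_4_ok))) (M (nat_lit 459) (B (L (nat_lit 431) ln15_13_1 ln15_13_1_ok) (L (nat_lit 458) ln10_14_2 ln10_14_2_ok))))) (B (M (nat_lit 364) (B (M (nat_lit 459) (B (L (nat_lit 491) ln12_11_5 ln12_11_5_ok) (L (nat_lit 431) ln15_13_1 ln15_13_1_ok))) (M (nat_lit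 461) (B (L (nat_lit 332) ln12_10_4 ln12_10_4_ok) (L (nat_lit 493) ln12_11_4 ln12_11_4_ok))))) (B (M (nat_lit 492) (B (M (nat_lit 525) (B (L (nat_lit 493) ln12_12_4 ln12_12_4_ok) (M (nat_lit 524) (B (L (nat_lit 557) ln12_13_4 ln12_13_4_ok) (M (nat_lit 523) (B (L (nat_lit 491) ln12_12_5 ln12_12_5_ok) (L (nat_lit 555) ln12_13_5 ln12_13_5_ok))))))) (B (M (nat_lit 364) (B (M (nat_lit 461) (B (L (nat_lit 332) ln12_10_4 ln12_10_4_ok) (L (nat_lit 493) ln12_11_4 ln12_11_4_ok))) (B (M (nat_lit 493) (B (L (nat_lit 461) ln12_11_4 ln12_11_4_ok) (L (nat_lit 525) ln12_12_4 ln12_12_4_ok))) (M (nat_lit 332) (B (M (nat_lit 331) (B (L (nat_lit 299) ln12_13_7 ln12_13_7_ok) (L (nat_lit 363) ln12_14_7 ln12_14_7_ok))) (M (nat_lit 333) (B (L (nat_lit 301) ln12_13_6 ln12_13_6_ok) (L (nat_lit 365) ln12_14_6 ln12_14_6_ok)))))))) (B (M (nat_lit 524) (B (M (nat_lit 523) (B (L (nat_lit 491) ln12_12_5 ln12_12_5_ok)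 (L (nat_lit 555) ln12_13_5 ln12_13_5_ok))) (M (nat_lit 556) (B (L (nat_lit 461) ln12_17_6 ln12_17_6_ok) (M (nat_lit 557) (B (L (nat_lit 525) ln12_13_4 ln12_13_4_ok) (L (nat_lit 589) ln12_14_4 ln12_14_4_ok))))))) (M (nat_lit 461) (B (M (nat_lit 364) (B (L (nat_lit 332) ln12_10_4 ln12_10_4_ok) (L (nat_lit 493) ln12_11_4 ln12_11_4_ok))) (M (nat_lit 524) (B (L (nat_lit 556) ln12_17_6 ln12_17_6_ok) (M (nat_lit 523) (B (L (nat_lit 491) ln12_12_5 ln12_12_5_ok) (L (nat_lit 555) ln12_13_5 ln12_13_5_ok))))))))))) (M (nat_lit 459) (B (L (nat_lit 431) ln15_13_1 ln15_13_1_ok) (M (nat_lit 491) (B (L (nat_lit 364) ln12_11_5 ln12_11_5_ok) (M (nat_lit 523) (B (L (nat_lit 492) ln12_12_5 ln12_12_5_ok) (L (nat_lit 555) ln11_17_6 ln11_17_6_ok))))))))))))) (B (M (nat_lit 461) (B (M (nat_lit 364) (B (L (nat_lit 332) ln12_10_4 ln12_10_4_ok) (M (nat_lit 493) (B (L (nat_lit 460) ln12_11_4 ln12_11_4_ok) (L (nat_lit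 525) ln13_16_7 ln13_16_7_ok))))) (B (M (nat_lit 460) (B (M (nat_lit 493) (B (L (nat_lit 364) ln12_11_4 ln12_11_4_ok) (L (nat_lit 525) ln13_16_7 ln13_16_7_ok))) (M (nat_lit 431) (B (L (nat_lit 459) ln15_13_1 ln15_13_1_ok) (L (nat_lit 432) ln16_13_1 ln16_13_1_ok))))) (B (M (nat_lit 398) (B (M (nat_lit 493) (B (L (nat_lit 525) ln13_16_7 ln13_16_7_ok) (M (nat_lit 366) (B (L (nat_lit 334) ln14_10_5 ln14_10_5_ok) (L (nat_lit 462) ln14_11_5 ln14_11_5_ok))))) (M (nat_lit 399) (B (L (nat_lit 427) ln11_13_2 ln11_13_2_ok) (M (nat_lit 400) (B (L (nat_lit 401) ln17_12_1 ln17_12_1_ok) (L (nat_lit 431) ln12_13_2 ln12_13_2_ok))))))) (M (nat_lit 427) (B (M (nat_lit 462) (B (L (nat_lit 426) ln10_13_0 ln10_13_0_ok) (L (nat_lit 463) ln11_13_0 ln11_13_0_ok))) (M (nat_lit 431) (B (M (nat_lit 399) (B (L (nat_lit 398) ln11_13_2 ln11_13_2_ok) (L (nat_lit 400) ln12_13_2 ln12_13_2_ok))) (M (nat_lit 460) (B (L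 (nat_lit 459) ln15_13_1 ln15_13_1_ok) (L (nat_lit 432) ln16_13_1 ln16_13_1_ok))))))))))) (B (M (nat_lit 461) (B (M (nat_lit 364) (B (L (nat_lit 332) ln12_10_4 ln12_10_4_ok) (M (nat_lit 493) (B (L (nat_lit 460) ln12_11_4 ln12_11_4_ok) (L (nat_lit 525) ln13_16_7 ln13_16_7_ok))))) (B (M (nat_lit 398) (B (M (nat_lit 427) (B (L (nat_lit 399) ln11_13_2 ln11_13_2_ok) (M (nat_lit 462) (B (L (nat_lit 426) ln10_13_0 ln10_13_0_ok) (L (nat_lit 463) ln11_13_0 ln11_13_0_ok))))) (B (M (nat_lit 493) (B (L (nat_lit 525) ln13_16_7 ln13_16_7_ok) (M (nat_lit 366) (B (L (nat_lit 334) ln14_10_5 ln14_10_5_ok) (L (nat_lit 462) ln14_11_5 ln14_11_5_ok))))) (M (nat_lit 399) (B (L (nat_lit 427) ln11_13_2 ln11_13_2_ok) (M (nat_lit 400) (B (L (nat_lit 401) ln17_12_1 ln17_12_1_ok) (L (nat_lit 431) ln12_13_2 ln12_13_2_ok)))))))) (M (nat_lit 431) (B (M (nat_lit 400) (B (L (nat_lit 399) ln12_13_2 ln12_13_2_ok) (M (nat_lit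 432) (B (L (nat_lit 401) ln13_13_2 ln13_13_2_ok) (L (nat_lit 460) ln16_13_1 ln16_13_1_ok))))) (B (M (nat_lit 462) (B (M (nat_lit 427) (B (L (nat_lit 426) ln10_13_0 ln10_13_0_ok) (L (nat_lit 463) ln11_13_0 ln11_13_0_ok))) (M (nat_lit 432) (B (L (nat_lit 460) ln16_13_1 ln16_13_1_ok) (L (nat_lit 433) ln17_13_1 ln17_13_1_ok))))) (M (nat_lit 427) (B (M (nat_lit 399) (B (L (nat_lit 398) ln11_13_2 ln11_13_2_ok) (L (nat_lit 400) ln12_13_2 ln12_13_2_ok))) (M (nat_lit 462) (B (L (nat_lit 426) ln10_13_0 ln10_13_0_ok) (L (nat_lit 463) ln11_13_0 ln11_13_0_ok))))))))))) (B (M (nat_lit 364) (B (M (nat_lit 332) (B (L (nat_lit 461) ln12_10_4 ln12_10_4_ok) (M (nat_lit 301) (B (L (nat_lit 333) ln12_13_6 ln12_13_6_ok) (M (nat_lit 300) (B (L (nat_lit 269) ln12_12_6 ln12_12_6_ok) (M (nat_lit 299) (B (L (nat_lit 267) ln12_12_7 ln12_12_7_ok) (L (nat_lit 331) ln12_13_7 ln12_13_7_ok))))))))) (B (M (nat_lit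 427) (B (M (nat_lit 332) (B (L (nat_lit 459) ln12_10_5 ln12_10_5_ok) (L (nat_lit 461) ln12_10_4 ln12_10_4_ok))) (M (nat_lit 431) (B (M (nat_lit 399) (B (L (nat_lit 398) ln11_13_2 ln11_13_2_ok) (L (nat_lit 400) ln12_13_2 ln12_13_2_ok))) (M (nat_lit 463) (B (L (nat_lit 462) ln11_13_0 ln11_13_0_ok) (L (nat_lit 464) ln12_13_0 ln12_13_0_ok))))))) (B (M (nat_lit 399) (B (M (nat_lit 398) (B (L (nat_lit 427) ln11_13_2 ln11_13_2_ok) (M (nat_lit 400) (B (L (nat_lit 401) ln17_12_1 ln17_12_1_ok) (L (nat_lit 431) ln12_13_2 ln12_13_2_ok))))) (B (M (nat_lit 431) (B (L (nat_lit 400) ln12_13_2 ln12_13_2_ok) (M (nat_lit 463) (B (L (nat_lit 464) ln12_13_0 ln12_13_0_ok) (M (nat_lit 462) (B (L (nat_lit 427) ln11_13_0 ln11_13_0_ok) (M (nat_lit 367) (B (L (nat_lit 335) ln15_10_5 ln15_10_5_ok) (L (nat_lit 494) ln15_11_5 ln15_11_5_ok))))))))) (B (M (nat_lit 427) (B (L (nat_lit 398) ln11_13_2 ln11_13_2_ok)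 (M (nat_lit 426) (B (M (nat_lit 458) (B (L (nat_lit 457) ln13_13_1 ln13_13_1_ok) (L (nat_lit 459) ln14_13_1 ln14_13_1_ok))) (M (nat_lit 462) (B (L (nat_lit 461) ln10_13_0 ln10_13_0_ok) (L (nat_lit 463) ln11_13_0 ln11_13_0_ok))))))) (M (nat_lit 398) (B (M (nat_lit 400) (B (L (nat_lit 401) ln17_12_1 ln17_12_1_ok) (L (nat_lit 431) ln12_13_2 ln12_13_2_ok))) (B (M (nat_lit 462) (B (M (nat_lit 367) (B (L (nat_lit 494) ln14_15_6 ln14_15_6_ok) (M (nat_lit 335) (B (L (nat_lit 303) ln15_9_5 ln15_9_5_ok) (L (nat_lit 366) ln14_14_6 ln14_14_6_ok))))) (B (M (nat_lit 367) (B (L (nat_lit 494) ln14_15_6 ln14_15_6_ok) (M (nat_lit 335) (B (L (nat_lit 366) ln14_14_6 ln14_14_6_ok) (L (nat_lit 431) ln15_10_5 ln15_10_5_ok))))) (B (M (nat_lit 366) (B (M (nat_lit 365) (B (L (nat_lit 333) ln14_14_7 ln14_14_7_ok) (L (nat_lit 363) ln11_11_0 ln11_11_0_ok))) (M (nat_lit 461) (B (L (nat_lit 334) ln14_10_5 ln14_10_5_ok)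 (L (nat_lit 493) ln14_11_5 ln14_11_5_ok))))) (M (nat_lit 367) (B (L (nat_lit 494) ln14_15_6 ln14_15_6_ok) (M (nat_lit 335) (B (L (nat_lit 303) ln15_9_5 ln15_9_5_ok) (L (nat_lit 431) ln15_10_5 ln15_10_5_ok))))))))) (M (nat_lit 366) (B (M (nat_lit 365) (B (L (nat_lit 363) ln11_11_0 ln11_11_0_ok) (M (nat_lit 400) (B (L (nat_lit 367) ln12_11_0 ln12_11_0_ok) (L (nat_lit 401) ln17_12_3 ln17_12_3_ok))))) (M (nat_lit 461) (B (L (nat_lit 334) ln14_10_5 ln14_10_5_ok) (M (nat_lit 493) (B (L (nat_lit 462) ln14_11_5 ln14_11_5_ok) (L (nat_lit 525) ln13_16_7 ln13_16_7_ok)))))))))))))) (M (nat_lit 427) (B (M (nat_lit 459) (B (L (nat_lit 332) ln12_10_5 ln12_10_5_ok) (L (nat_lit 458) ln14_13_1 ln14_13_1_ok))) (M (nat_lit 431) (B (M (nat_lit 399) (B (L (nat_lit 398) ln11_13_2 ln11_13_2_ok) (L (nat_lit 400) ln12_13_2 ln12_13_2_ok))) (M (nat_lit 463) (B (L (nat_lit 462) ln11_13_0 ln11_13_0_ok) (L (nat_lit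 464) ln12_13_0 ln12_13_0_ok))))))))))) (M (nat_lit 427) (B (M (nat_lit 431) (B (M (nat_lit 399) (B (L (nat_lit 398) ln11_13_2 ln11_13_2_ok) (L (nat_lit 400) ln12_13_2 ln12_13_2_ok))) (M (nat_lit 459) (B (L (nat_lit 458) ln14_13_1 ln14_13_1_ok) (L (nat_lit 460) ln15_13_1 ln15_13_1_ok))))) (B (M (nat_lit 431) (B (M (nat_lit 459) (B (L (nat_lit 458) ln14_13_1 ln14_13_1_ok) (L (nat_lit 460) ln15_13_1 ln15_13_1_ok))) (M (nat_lit 463) (B (L (nat_lit 462) ln11_13_0 ln11_13_0_ok) (L (nat_lit 464) ln12_13_0 ln12_13_0_ok))))) (B (M (nat_lit 459) (B (L (nat_lit 458) ln14_13_1 ln14_13_1_ok) (M (nat_lit 364) (B (L (nat_lit 332) ln12_10_5 ln12_10_5_ok) (M (nat_lit 491) (B (L (nat_lit 460) ln12_11_5 ln12_11_5_ok) (L (nat_lit 523) ln11_16_6 ln11_16_6_ok))))))) (M (nat_lit 431) (B (M (nat_lit 399) (B (L (nat_lit 398) ln11_13_2 ln11_13_2_ok) (L (nat_lit 400) ln12_13_2 ln12_13_2_ok))) (M (nat_lit 463)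 (B (L (nat_lit 462) ln11_13_0 ln11_13_0_ok) (L (nat_lit 464) ln12_13_0 ln12_13_0_ok)))))))))))))))))) (nat_lit 2079502270752001762064242424960807725827516048677469043429686155012882190638009693656033379242457518153052022685796627120027336704) (nat_lit 2026130649693226623645563157575347032939076399333669943144154185618032065855909948871868022224770889348763700810060723148602983002230766908471290102849206578503584942329153191936) (nat_lit 2026130649693226623645563157575347032939076399333669943144154185618032065855909948871868022224770889348763700810060723148602983002230766908471290102849206578503584942329153191936) (by decide +kernel)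
noncomputable def c41_n3198 : Cert := (M (nat_lit 460) (B (M (nat_lit 364) (B (L (nat_lit 332) ln12_10_4 ln12_10_4_ok) (M (nat_lit 365) (B (L (nat_lit 333) ln12_14_6 ln12_14_6_ok) (M (nat_lit 492) (B (L (nat_lit 397) ln12_15_6 ln12_15_6_ok) (M (nat_lit 491) (B (L (nat_lit 459) ln12_11_5 ln12_11_5_ok) (L (nat_lit 523) ln12_12_5 ln12_12_5_ok))))))))) (B (M (nat_lit 491) (B (M (nat_lit 492) (B (L (nat_lit 523) ln12_12_5 ln12_12_5_ok) (M (nat_lit 397) (B (L (nat_lit 365) ln12_15_6 ln12_15_6_ok) (L (nat_lit 524) ln12_16_6 ln12_16_6_ok))))) (B (M (nat_lit 459) (B (L (nat_lit 364) ln12_11_5 ln12_11_5_ok) (M (nat_lit 523) (B (L (nat_lit 427) ln11_16_6 ln11_16_6_ok) (L (nat_lit 492) ln12_12_5 ln12_12_5_ok))))) (M (nat_lit 462) (B (M (nat_lit 427) (B (L (nat_lit 426) ln10_13_0 ln10_13_0_ok) (L (nat_lit 463) ln15_14_3 ln15_14_3_ok))) (M (nat_lit 459) (B (L (nat_lit 364) ln12_11_5 ln12_11_5_ok)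 (L (nat_lit 490) ln14_14_1 ln14_14_1_ok)))))))) (B (M (nat_lit 462) (B (M (nat_lit 427) (B (L (nat_lit 426) ln10_13_0 ln10_13_0_ok) (L (nat_lit 463) ln15_14_3 ln15_14_3_ok))) (B (M (nat_lit 463) (B (L (nat_lit 427) ln15_14_3 ln15_14_3_ok) (L (nat_lit 464) ln16_14_3 ln16_14_3_ok))) (B (M (nat_lit 492) (B (M (nat_lit 397) (B (L (nat_lit 365) ln12_15_6 ln12_15_6_ok) (L (nat_lit 524) ln12_16_6 ln12_16_6_ok))) (M (nat_lit 463) (B (L (nat_lit 464) ln16_14_3 ln16_14_3_ok) (L (nat_lit 491) ln15_14_1 ln15_14_1_ok))))) (M (nat_lit 459) (B (M (nat_lit 427) (B (L (nat_lit 426) ln10_13_0 ln10_13_0_ok) (M (nat_lit 491) (B (L (nat_lit 523) ln11_16_6 ln11_16_6_ok) (L (nat_lit 490) ln14_14_1 ln14_14_1_ok))))) (B (M (nat_lit 491) (B (L (nat_lit 490) ln14_14_1 ln14_14_1_ok) (M (nat_lit 523) (B (L (nat_lit 427) ln11_16_6 ln11_16_6_ok) (L (nat_lit 492) ln12_12_5 ln12_12_5_ok))))) (B (M (nat_lit 492) (B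 (M (nat_lit 491) (B (L (nat_lit 523) ln12_12_5 ln12_12_5_ok) (L (nat_lit 490) ln14_14_1 ln14_14_1_ok))) (M (nat_lit 397) (B (L (nat_lit 365) ln12_15_6 ln12_15_6_ok) (L (nat_lit 524) ln12_16_6 ln12_16_6_ok))))) (M (nat_lit 426) (B (L (nat_lit 427) ln10_13_0 ln10_13_0_ok) (M (nat_lit 458) (B (L (nat_lit 425) ln13_14_3 ln13_14_3_ok) (L (nat_lit 457) ln9_14_2 ln9_14_2_ok))))))))))))) (B (M (nat_lit 462) (B (M (nat_lit 427) (B (L (nat_lit 426) ln10_13_0 ln10_13_0_ok) (L (nat_lit 463) ln15_14_3 ln15_14_3_ok))) (B (M (nat_lit 463) (B (L (nat_lit 427) ln15_14_3 ln15_14_3_ok) (L (nat_lit 464) ln16_14_3 ln16_14_3_ok))) (B (M (nat_lit 491) (B (M (nat_lit 364) (B (L (nat_lit 332) ln12_10_4 ln12_10_4_ok) (L (nat_lit 459) ln12_11_5 ln12_11_5_ok))) (M (nat_lit 463) (B (L (nat_lit 464) ln16_14_3 ln16_14_3_ok) (L (nat_lit 492) ln15_14_1 ln15_14_1_ok))))) (M (nat_lit 426) (B (L (nat_lit 427) ln10_13_0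 ln10_13_0_ok) (M (nat_lit 459) (B (M (nat_lit 364) (B (L (nat_lit 332) ln12_10_4 ln12_10_4_ok) (L (nat_lit 491) ln12_11_5 ln12_11_5_ok))) (M (nat_lit 458) (B (L (nat_lit 425) ln13_14_3 ln13_14_3_ok) (L (nat_lit 457) ln9_14_2 ln9_14_2_ok))))))))))) (B (M (nat_lit 365) (B (M (nat_lit 364) (B (L (nat_lit 332) ln12_10_4 ln12_10_4_ok) (L (nat_lit 333) ln12_14_6 ln12_14_6_ok))) (B (M (nat_lit 333) (B (L (nat_lit 364) ln12_14_6 ln12_14_6_ok) (L (nat_lit 397) ln13_10_5 ln13_10_5_ok))) (M (nat_lit 462) (B (M (nat_lit 397) (B (L (nat_lit 492) ln12_15_6 ln12_15_6_ok) (L (nat_lit 494) ln13_11_4 ln13_11_4_ok))) (M (nat_lit 463) (B (L (nat_lit 427) ln15_14_3 ln15_14_3_ok) (L (nat_lit 464) ln16_14_3 ln16_14_3_ok)))))))) (M (nat_lit 364) (B (L (nat_lit 332) ln12_10_4 ln12_10_4_ok) (M (nat_lit 462) (B (M (nat_lit 427) (B (L (nat_lit 426) ln10_13_0 ln10_13_0_ok) (L (nat_lit 463) ln15_14_3 ln15_14_3_ok)))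 (M (nat_lit 494) (B (M (nat_lit 365) (B (L (nat_lit 333) ln12_14_6 ln12_14_6_ok) (L (nat_lit 397) ln13_11_4 ln13_11_4_ok))) (M (nat_lit 459) (B (L (nat_lit 491) ln12_11_5 ln12_11_5_ok) (L (nat_lit 495) ln11_14_0 ln11_14_0_ok)))))))))))))))
noncomputable def c41_n3199 : Cert := (M (nat_lit 461) (B (M (nat_lit 493) (B (L (nat_lit 525) ln13_16_7 ln13_16_7_ok) (M (nat_lit 364) (B (L (nat_lit 332) ln12_10_4 ln12_10_4_ok) (L (nat_lit 460) ln12_11_4 ln12_11_4_ok))))) (B (M (nat_lit 493) (B (L (nat_lit 525) ln13_16_7 ln13_16_7_ok) (M (nat_lit 364) (B (L (nat_lit 397) ln13_15_7 ln13_15_7_ok) (L (nat_lit 460) ln12_11_4 ln12_11_4_ok))))) (B (M (nat_lit 493) (B (L (nat_lit 525) ln13_16_7 ln13_16_7_ok) (M (nat_lit 397) (B (M (nat_lit 398) (B (L (nat_lit 366) ln13_15_6 ln13_15_6_ok) (M (nat_lit 399) (B (L (nat_lit 427) ln15_12_1 ln15_12_1_ok) (L (nat_lit 400) ln16_12_1 ln16_12_1_ok))))) (M (nat_lit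 365) (B (M (nat_lit 333) (B (L (nat_lit 301) ln13_9_5 ln13_9_5_ok) (L (nat_lit 460) ln13_10_5 ln13_10_5_ok))) (M (nat_lit 494) (B (L (nat_lit 462) ln13_11_4 ln13_11_4_ok) (L (nat_lit 526) ln13_12_4 ln13_12_4_ok))))))))) (B (M (nat_lit 493) (B (L (nat_lit 525) ln13_16_7 ln13_16_7_ok) (M (nat_lit 364) (B (L (nat_lit 332) ln12_10_4 ln12_10_4_ok) (L (nat_lit 397) ln13_15_7 ln13_15_7_ok))))) c41_n3198)))))
noncomputable def c41_n3241 : Cert := (M (nat_lit 364) (B (M (nat_lit 461) (B (L (nat_lit 332) ln12_10_4 ln12_10_4_ok) (M (nat_lit 493) (B (L (nat_lit 460) ln12_11_4 ln12_11_4_ok) (L (nat_lit 525) ln13_16_7 ln13_16_7_ok))))) (B (M (nat_lit 460) (B (M (nat_lit 492) (B (M (nat_lit 365) (B (L (nat_lit 333) ln12_14_6 ln12_14_6_ok) (L (nat_lit 397) ln12_15_6 ln12_15_6_ok))) (M (nat_lit 493) (B (L (nat_lit 461) ln12_11_4 ln12_11_4_ok) (L (nat_lit 525) ln12_12_4 ln12_12_4_ok))))) (B (M (nat_lit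 492) (B (M (nat_lit 493) (B (L (nat_lit 461) ln12_11_4 ln12_11_4_ok) (L (nat_lit 525) ln12_12_4 ln12_12_4_ok))) (M (nat_lit 397) (B (L (nat_lit 365) ln12_15_6 ln12_15_6_ok) (L (nat_lit 524) ln12_16_6 ln12_16_6_ok))))) (B (M (nat_lit 492) (B (M (nat_lit 493) (B (L (nat_lit 461) ln12_11_4 ln12_11_4_ok) (L (nat_lit 525) ln12_12_4 ln12_12_4_ok))) (B (M (nat_lit 524) (B (L (nat_lit 397) ln12_16_6 ln12_16_6_ok) (M (nat_lit 525) (B (L (nat_lit 493) ln12_12_4 ln12_12_4_ok) (L (nat_lit 557) ln12_13_4 ln12_13_4_ok))))) (M (nat_lit 524) (B (L (nat_lit 397) ln12_16_6 ln12_16_6_ok) (M (nat_lit 523) (B (L (nat_lit 491) ln12_12_5 ln12_12_5_ok) (L (nat_lit 555) ln12_13_5 ln12_13_5_ok)))))))) (B (M (nat_lit 492) (B (M (nat_lit 493) (B (L (nat_lit 461) ln12_11_4 ln12_11_4_ok) (L (nat_lit 525) ln12_12_4 ln12_12_4_ok))) (B (M (nat_lit 524) (B (M (nat_lit 523) (B (L (nat_lit 491) ln12_12_5 ln12_12_5_ok)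 (L (nat_lit 555) ln12_13_5 ln12_13_5_ok))) (M (nat_lit 525) (B (L (nat_lit 493) ln12_12_4 ln12_12_4_ok) (L (nat_lit 557) ln12_13_4 ln12_13_4_ok))))) (B (M (nat_lit 524) (B (M (nat_lit 523) (B (L (nat_lit 491) ln12_12_5 ln12_12_5_ok) (L (nat_lit 555) ln12_13_5 ln12_13_5_ok))) (M (nat_lit 556) (B (L (nat_lit 461) ln12_17_6 ln12_17_6_ok) (M (nat_lit 557) (B (L (nat_lit 525) ln12_13_4 ln12_13_4_ok) (L (nat_lit 589) ln12_14_4 ln12_14_4_ok))))))) (M (nat_lit 524) (B (M (nat_lit 523) (B (L (nat_lit 491) ln12_12_5 ln12_12_5_ok) (L (nat_lit 555) ln12_13_5 ln12_13_5_ok))) (M (nat_lit 461) (B (L (nat_lit 493) ln12_11_4 ln12_11_4_ok) (L (nat_lit 556) ln12_17_6 ln12_17_6_ok))))))))) (B (M (nat_lit 492) (B (M (nat_lit 365) (B (L (nat_lit 333) ln12_14_6 ln12_14_6_ok) (L (nat_lit 397) ln12_15_6 ln12_15_6_ok))) (B (M (nat_lit 397) (B (L (nat_lit 365) ln12_15_6 ln12_15_6_ok) (L (nat_lit 524) ln12_16_6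 ln12_16_6_ok))) (B (M (nat_lit 524) (B (L (nat_lit 397) ln12_16_6 ln12_16_6_ok) (M (nat_lit 523) (B (L (nat_lit 491) ln12_12_5 ln12_12_5_ok) (L (nat_lit 555) ln12_13_5 ln12_13_5_ok))))) (M (nat_lit 524) (B (M (nat_lit 523) (B (L (nat_lit 491) ln12_12_5 ln12_12_5_ok) (L (nat_lit 555) ln12_13_5 ln12_13_5_ok))) (M (nat_lit 525) (B (L (nat_lit 493) ln12_12_4 ln12_12_4_ok) (L (nat_lit 557) ln12_13_4 ln12_13_4_ok))))))))) (B (M (nat_lit 461) (B (L (nat_lit 493) ln12_11_4 ln12_11_4_ok) (M (nat_lit 365) (B (L (nat_lit 333) ln12_14_6 ln12_14_6_ok) (M (nat_lit 397) (B (M (nat_lit 462) (B (L (nat_lit 494) ln13_11_4 ln13_11_4_ok) (M (nat_lit 427) (B (L (nat_lit 426) ln10_13_0 ln10_13_0_ok) (L (nat_lit 463) ln15_14_3 ln15_14_3_ok))))) (M (nat_lit 363) (B (L (nat_lit 331) ln12_14_7 ln12_14_7_ok) (M (nat_lit 362) (B (L (nat_lit 361) ln9_11_0 ln9_11_0_ok) (L (nat_lit 398) ln10_11_0 ln10_11_0_ok)))))))))))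 (M (nat_lit 365) (B (L (nat_lit 333) ln12_14_6 ln12_14_6_ok) (M (nat_lit 397) (B (L (nat_lit 492) ln12_15_6 ln12_15_6_ok) (M (nat_lit 363) (B (L (nat_lit 331) ln12_14_7 ln12_14_7_ok) (M (nat_lit 362) (B (L (nat_lit 361) ln9_11_0 ln9_11_0_ok) (L (nat_lit 398) ln10_11_0 ln10_11_0_ok)))))))))))))))) (B (M (nat_lit 461) (B (L (nat_lit 332) ln12_10_4 ln12_10_4_ok) (M (nat_lit 493) (B (L (nat_lit 397) ln13_15_7 ln13_15_7_ok) (L (nat_lit 525) ln13_16_7 ln13_16_7_ok))))) (M (nat_lit 332) (B (M (nat_lit 300) (B (L (nat_lit 397) ln12_9_4 ln12_9_4_ok) (M (nat_lit 299) (B (L (nat_lit 267) ln12_12_7 ln12_12_7_ok) (L (nat_lit 331) ln12_13_7 ln12_13_7_ok))))) (B (M (nat_lit 300) (B (L (nat_lit 397) ln12_9_4 ln12_9_4_ok) (M (nat_lit 301) (B (L (nat_lit 269) ln12_12_6 ln12_12_6_ok) (L (nat_lit 333) ln12_13_6 ln12_13_6_ok))))) (M (nat_lit 460) (B (M (nat_lit 331) (B (L (nat_lit 299) ln12_13_7 ln12_13_7_ok)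 (L (nat_lit 363) ln12_14_7 ln12_14_7_ok))) (M (nat_lit 333) (B (L (nat_lit 301) ln12_13_6 ln12_13_6_ok) (L (nat_lit 365) ln12_14_6 ln12_14_6_ok))))))))))))
noncomputable def c41_n3470 : Cert := (M (nat_lit 366) (B (M (nat_lit 461) (B (L (nat_lit 493) ln13_15_6 ln13_15_6_ok) (M (nat_lit 334) (B (L (nat_lit 302) ln14_9_5 ln14_9_5_ok) (L (nat_lit 430) ln14_10_5 ln14_10_5_ok))))) (B (M (nat_lit 461) (B (L (nat_lit 493) ln13_15_6 ln13_15_6_ok) (M (nat_lit 334) (B (L (nat_lit 365) ln13_14_6 ln13_14_6_ok) (L (nat_lit 430) ln14_10_5 ln14_10_5_ok))))) (B (M (nat_lit 462) (B (M (nat_lit 461) (B (L (nat_lit 493) ln13_15_6 ln13_15_6_ok) (M (nat_lit 365) (B (L (nat_lit 494) ln13_11_4 ln13_11_4_ok) (M (nat_lit 333) (B (L (nat_lit 301) ln13_9_5 ln13_9_5_ok) (L (nat_lit 430) ln14_14_7 ln14_14_7_ok))))))) (B (M (nat_lit 430) (B (M (nat_lit 461) (B (L (nat_lit 493) ln13_15_6 ln13_15_6_ok) (M (nat_lit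 463) (B (L (nat_lit 495) ln14_11_4 ln14_11_4_ok) (L (nat_lit 464) ln16_14_3 ln16_14_3_ok))))) (M (nat_lit 365) (B (L (nat_lit 333) ln14_14_7 ln14_14_7_ok) (M (nat_lit 367) (B (L (nat_lit 335) ln14_14_6 ln14_14_6_ok) (L (nat_lit 368) ln16_11_1 ln16_11_1_ok))))))) (B (M (nat_lit 461) (B (L (nat_lit 493) ln13_15_6 ln13_15_6_ok) (M (nat_lit 430) (B (M (nat_lit 463) (B (L (nat_lit 495) ln14_11_4 ln14_11_4_ok) (L (nat_lit 464) ln16_14_3 ln16_14_3_ok))) (M (nat_lit 494) (B (L (nat_lit 365) ln14_15_7 ln14_15_7_ok) (L (nat_lit 526) ln14_16_7 ln14_16_7_ok))))))) (B (M (nat_lit 430) (B (M (nat_lit 461) (B (L (nat_lit 493) ln13_15_6 ln13_15_6_ok) (M (nat_lit 463) (B (L (nat_lit 495) ln14_11_4 ln14_11_4_ok) (L (nat_lit 464) ln16_14_3 ln16_14_3_ok))))) (B (M (nat_lit 431) (B (L (nat_lit 432) ln16_13_3 ln16_13_3_ok) (M (nat_lit 463) (B (L (nat_lit 495) ln14_11_4 ln14_11_4_ok) (L (nat_lit 464) ln12_13_0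 ln12_13_0_ok))))) (M (nat_lit 493) (B (L (nat_lit 461) ln13_15_6 ln13_15_6_ok) (M (nat_lit 494) (B (L (nat_lit 526) ln14_16_7 ln14_16_7_ok) (L (nat_lit 525) ln14_12_5 ln14_12_5_ok)))))))) (B (M (nat_lit 332) (B (M (nat_lit 364) (B (L (nat_lit 300) ln12_9_4 ln12_9_4_ok) (L (nat_lit 461) ln12_10_4 ln12_10_4_ok))) (B (M (nat_lit 461) (B (L (nat_lit 364) ln12_10_4 ln12_10_4_ok) (L (nat_lit 493) ln13_15_6 ln13_15_6_ok))) (B (M (nat_lit 365) (B (M (nat_lit 333) (B (L (nat_lit 300) ln13_13_7 ln13_13_7_ok) (L (nat_lit 301) ln13_9_5 ln13_9_5_ok))) (M (nat_lit 461) (B (L (nat_lit 494) ln13_11_4 ln13_11_4_ok) (L (nat_lit 493) ln13_15_6 ln13_15_6_ok))))) (M (nat_lit 333) (B (M (nat_lit 300) (B (L (nat_lit 365) ln13_13_7 ln13_13_7_ok) (L (nat_lit 364) ln12_9_4 ln12_9_4_ok))) (B (M (nat_lit 301) (B (L (nat_lit 364) ln12_13_6 ln12_13_6_ok) (L (nat_lit 365) ln13_9_5 ln13_9_5_ok))) (B (M (nat_lit 365)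 (B (L (nat_lit 300) ln13_13_7 ln13_13_7_ok) (L (nat_lit 301) ln13_9_5 ln13_9_5_ok))) (M (nat_lit 364) (B (L (nat_lit 300) ln12_9_4 ln12_9_4_ok) (L (nat_lit 301) ln12_13_6 ln12_13_6_ok))))))))))) (M (nat_lit 430) (B (M (nat_lit 365) (B (L (nat_lit 333) ln14_14_7 ln14_14_7_ok) (L (nat_lit 494) ln14_15_7 ln14_15_7_ok))) (M (nat_lit 431) (B (L (nat_lit 432) ln16_13_3 ln16_13_3_ok) (M (nat_lit 463) (B (L (nat_lit 495) ln14_11_4 ln14_11_4_ok) (L (nat_lit 464) ln12_13_0 ln12_13_0_ok))))))))))))) (B (M (nat_lit 461) (B (L (nat_lit 493) ln13_15_6 ln13_15_6_ok) (M (nat_lit 334) (B (L (nat_lit 302) ln14_9_5 ln14_9_5_ok) (L (nat_lit 365) ln13_14_6 ln13_14_6_ok))))) (M (nat_lit 430) (B (M (nat_lit 431) (B (L (nat_lit 432) ln16_13_3 ln16_13_3_ok) (M (nat_lit 334) (B (L (nat_lit 302) ln14_9_5 ln14_9_5_ok) (L (nat_lit 463) ln14_10_4 ln14_10_4_ok))))) (B (M (nat_lit 431) (B (L (nat_lit 432) ln16_13_3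 ln16_13_3_ok) (M (nat_lit 463) (B (L (nat_lit 334) ln14_10_4 ln14_10_4_ok) (M (nat_lit 495) (B (L (nat_lit 462) ln14_11_4 ln14_11_4_ok) (L (nat_lit 527) ln15_16_7 ln15_16_7_ok))))))) (B (M (nat_lit 462) (B (M (nat_lit 365) (B (L (nat_lit 333) ln14_14_7 ln14_14_7_ok) (L (nat_lit 494) ln14_15_7 ln14_15_7_ok))) (B (M (nat_lit 494) (B (L (nat_lit 365) ln14_15_7 ln14_15_7_ok) (L (nat_lit 526) ln14_16_7 ln14_16_7_ok))) (B (M (nat_lit 494) (B (L (nat_lit 526) ln14_16_7 ln14_16_7_ok) (M (nat_lit 495) (B (L (nat_lit 463) ln14_11_4 ln14_11_4_ok) (L (nat_lit 527) ln14_12_4 ln14_12_4_ok))))) (M (nat_lit 365) (B (L (nat_lit 333) ln14_14_7 ln14_14_7_ok) (M (nat_lit 367) (B (L (nat_lit 335) ln14_14_6 ln14_14_6_ok) (L (nat_lit 368) ln16_11_1 ln16_11_1_ok))))))))) (M (nat_lit 462) (B (M (nat_lit 365) (B (L (nat_lit 333) ln14_14_7 ln14_14_7_ok) (L (nat_lit 494) ln14_15_7 ln14_15_7_ok))) (M (nat_lit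 334) (B (L (nat_lit 302) ln14_9_5 ln14_9_5_ok) (M (nat_lit 335) (B (L (nat_lit 303) ln14_13_6 ln14_13_6_ok) (L (nat_lit 367) ln14_14_6 ln14_14_6_ok))))))))))))))))
theorem c41_s3471 : Sem (nat_lit 2079502271074782996825105998667797622327892532968682267533339094116714610205590646408138528571163187313069251615284523616620773376) (nat_lit 768857338113641837036607090474315214453501633071060469709284154970340141264281204954287201381289207231543778903294300136622861051382783020652570270630315819008) (nat_lit 768857338113641837036607090474315214453501633071060469709284154970340141264281204954287201381289207231543778903294300136622861051382783020652570270630315819008) :=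
  sem_of_chk (M (nat_lit 398) (B (M (nat_lit 364) (B (M (nat_lit 399) (B (L (nat_lit 363) ln15_12_3 ln15_12_3_ok) (L (nat_lit 400) ln16_12_1 ln16_12_1_ok))) (M (nat_lit 461) (B (L (nat_lit 332) ln12_10_4 ln12_10_4_ok) (L (nat_lit 493) ln13_15_7 ln13_15_7_ok))))) (B (M (nat_lit 399) (B (L (nat_lit 400) ln16_12_1 ln16_12_1_ok) (M (nat_lit 430) (B (M (nat_lit 367) (B (L (nat_lit 368) ln12_12_2 ln12_12_2_ok) (M (nat_lit 462) (B (L (nat_lit 494) ln14_15_6 ln14_15_6_ok) (M (nat_lit 335) (B (L (nat_lit 303) ln15_9_5 ln15_9_5_ok) (L (nat_lit 366) ln14_14_6 ln14_14_6_ok))))))) (B (M (nat_lit 431) (B (L (nat_lit 432) ln12_12_0 ln12_12_0_ok) (M (nat_lit 463) (B (L (nat_lit 464) ln12_13_0 ln12_13_0_ok) (M (nat_lit 366) (B (L (nat_lit 334) ln14_10_4 ln14_10_4_ok) (L (nat_lit 495) ln15_15_7 ln15_15_7_ok))))))) (M (nat_lit 431) (B (L (nat_lit 432) ln12_12_0 ln12_12_0_ok) (M (nat_lit 367) (B (L (nat_lit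 368) ln12_12_2 ln12_12_2_ok) (M (nat_lit 335) (B (L (nat_lit 303) ln15_9_5 ln15_9_5_ok) (L (nat_lit 462) ln15_10_5 ln15_10_5_ok)))))))))))) c41_n3470))) (nat_lit 2079502271074782996825105998667797622327892532968682267533339094116714610205590646408138528571163187313069251615284523616620773376) (nat_lit 768857338113641837036607090474315214453501633071060469709284154970340141264281204954287201381289207231543778903294300136622861051382783020652570270630315819008) (nat_lit 768857338113641837036607090474315214453501633071060469709284154970340141264281204954287201381289207231543778903294300136622861051382783020652570270630315819008) (by decide +kernel)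
theorem c41_s3502 : Sem (nat_lit 2079502270752001762064242424960807725827516048677469043429686155012882190638009693656033379242457518153052022685796627120027336704) (nat_lit 768857338113641837039212080462797191045142119083824719636895895063670586286859738928072807937250906219394909186844528306256620130688462558693653210701452279808) (nat_lit 768857338113641837039212080462797191045142119083824719636895895063670586286859738928072807937250906219394909186844528306256620130688462558693653210701452279808) :=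
  sem_of_chk (M (nat_lit 397) (B (M (nat_lit 461) (B (M (nat_lit 493) (B (L (nat_lit 364) ln13_15_7 ln13_15_7_ok) (L (nat_lit 525) ln13_16_7 ln13_16_7_ok))) (M (nat_lit 427) (B (M (nat_lit 398) (B (L (nat_lit 399) ln15_12_1 ln15_12_1_ok) (L (nat_lit 426) ln10_13_2 ln10_13_2_ok))) (B (M (nat_lit 426) (B (L (nat_lit 425) ln9_13_2 ln9_13_2_ok) (L (nat_lit 462) ln10_13_0 ln10_13_0_ok))) (M (nat_lit 430) (B (M (nat_lit 399) (B (L (nat_lit 398) ln15_12_1 ln15_12_1_ok) (M (nat_lit 431) (B (L (nat_lit 432) ln16_13_3 ln16_13_3_ok) (L (nat_lit 400) ln12_13_2 ln12_13_2_ok))))) (M (nat_lit 462) (B (L (nat_lit 463) ln11_13_0 ln11_13_0_ok) (M (nat_lit 365) (B (L (nat_lit 333) ln13_10_4 ln13_10_4_ok) (L (nat_lit 494) ln13_11_4 ln13_11_4_ok)))))))))))) (B (M (nat_lit 461) (B (M (nat_lit 493) (B (L (nat_lit 364) ln13_15_7 ln13_15_7_ok) (L (nat_lit 525) ln13_16_7 ln13_16_7_ok))) (M (nat_lit 427) (B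 (M (nat_lit 398) (B (L (nat_lit 399) ln15_12_1 ln15_12_1_ok) (L (nat_lit 426) ln10_13_2 ln10_13_2_ok))) (B (M (nat_lit 426) (B (L (nat_lit 425) ln9_13_2 ln9_13_2_ok) (L (nat_lit 462) ln10_13_0 ln10_13_0_ok))) (M (nat_lit 430) (B (M (nat_lit 399) (B (L (nat_lit 398) ln15_12_1 ln15_12_1_ok) (M (nat_lit 431) (B (L (nat_lit 432) ln16_13_3 ln16_13_3_ok) (L (nat_lit 400) ln12_13_2 ln12_13_2_ok))))) (M (nat_lit 462) (B (L (nat_lit 463) ln11_13_0 ln11_13_0_ok) (M (nat_lit 494) (B (L (nat_lit 365) ln13_11_4 ln13_11_4_ok) (L (nat_lit 526) ln14_16_7 ln14_16_7_ok)))))))))))) (B (M (nat_lit 461) (B (M (nat_lit 493) (B (L (nat_lit 525) ln13_16_7 ln13_16_7_ok) (M (nat_lit 398) (B (L (nat_lit 366) ln13_15_6 ln13_15_6_ok) (M (nat_lit 399) (B (L (nat_lit 427) ln15_12_1 ln15_12_1_ok) (L (nat_lit 400) ln16_12_1 ln16_12_1_ok))))))) (B (M (nat_lit 427) (B (M (nat_lit 398) (B (L (nat_lit 399) ln15_12_1 ln15_12_1_ok)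 (L (nat_lit 426) ln10_13_2 ln10_13_2_ok))) (B (M (nat_lit 426) (B (L (nat_lit 425) ln9_13_2 ln9_13_2_ok) (L (nat_lit 462) ln10_13_0 ln10_13_0_ok))) (M (nat_lit 430) (B (M (nat_lit 399) (B (L (nat_lit 398) ln15_12_1 ln15_12_1_ok) (M (nat_lit 431) (B (L (nat_lit 432) ln16_13_3 ln16_13_3_ok) (L (nat_lit 400) ln12_13_2 ln12_13_2_ok))))) (M (nat_lit 462) (B (L (nat_lit 463) ln11_13_0 ln11_13_0_ok) (M (nat_lit 494) (B (L (nat_lit 365) ln13_11_4 ln13_11_4_ok) (L (nat_lit 526) ln14_16_7 ln14_16_7_ok)))))))))) (M (nat_lit 365) (B (M (nat_lit 462) (B (L (nat_lit 494) ln13_11_4 ln13_11_4_ok) (M (nat_lit 333) (B (L (nat_lit 301) ln13_9_5 ln13_9_5_ok) (L (nat_lit 430) ln13_10_4 ln13_10_4_ok))))) (B (M (nat_lit 493) (B (L (nat_lit 525) ln13_16_7 ln13_16_7_ok) (M (nat_lit 494) (B (L (nat_lit 462) ln13_11_4 ln13_11_4_ok) (L (nat_lit 526) ln13_12_4 ln13_12_4_ok))))) (M (nat_lit 333) (B (L (nat_lit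 301) ln13_9_5 ln13_9_5_ok) (M (nat_lit 334) (B (L (nat_lit 302) ln13_13_6 ln13_13_6_ok) (L (nat_lit 366) ln13_14_6 ln13_14_6_ok))))))))))) (B (M (nat_lit 430) (B (M (nat_lit 431) (B (L (nat_lit 432) ln16_13_3 ln16_13_3_ok) (M (nat_lit 399) (B (L (nat_lit 400) ln12_13_2 ln12_13_2_ok) (M (nat_lit 427) (B (L (nat_lit 398) ln15_12_1 ln15_12_1_ok) (M (nat_lit 463) (B (L (nat_lit 462) ln11_13_0 ln11_13_0_ok) (L (nat_lit 464) ln12_13_0 ln12_13_0_ok))))))))) (B (M (nat_lit 427) (B (M (nat_lit 431) (B (L (nat_lit 432) ln16_13_3 ln16_13_3_ok) (M (nat_lit 463) (B (L (nat_lit 462) ln11_13_0 ln11_13_0_ok) (L (nat_lit 464) ln12_13_0 ln12_13_0_ok))))) (B (M (nat_lit 462) (B (L (nat_lit 463) ln11_13_0 ln11_13_0_ok) (M (nat_lit 426) (B (L (nat_lit 425) ln9_13_2 ln9_13_2_ok) (L (nat_lit 461) ln10_13_0 ln10_13_0_ok))))) (M (nat_lit 426) (B (L (nat_lit 425) ln9_13_2 ln9_13_2_ok) (M (nat_lit 458) (B (L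 (nat_lit 457) ln13_13_1 ln13_13_1_ok) (L (nat_lit 459) ln14_13_1 ln14_13_1_ok)))))))) (B (M (nat_lit 431) (B (L (nat_lit 432) ln16_13_3 ln16_13_3_ok) (M (nat_lit 398) (B (M (nat_lit 399) (B (L (nat_lit 400) ln16_12_1 ln16_12_1_ok) (M (nat_lit 463) (B (L (nat_lit 464) ln12_13_0 ln12_13_0_ok) (M (nat_lit 366) (B (L (nat_lit 334) ln14_10_4 ln14_10_4_ok) (L (nat_lit 495) ln15_15_7 ln15_15_7_ok))))))) (B (M (nat_lit 364) (B (M (nat_lit 332) (B (L (nat_lit 300) ln12_9_4 ln12_9_4_ok) (L (nat_lit 461) ln12_10_4 ln12_10_4_ok))) (M (nat_lit 399) (B (L (nat_lit 363) ln15_12_3 ln15_12_3_ok) (L (nat_lit 400) ln16_12_1 ln16_12_1_ok))))) (M (nat_lit 463) (B (L (nat_lit 464) ln12_13_0 ln12_13_0_ok) (M (nat_lit 366) (B (L (nat_lit 334) ln14_10_4 ln14_10_4_ok) (M (nat_lit 495) (B (L (nat_lit 462) ln14_11_4 ln14_11_4_ok) (L (nat_lit 527) ln15_16_7 ln15_16_7_ok)))))))))))) (B (M (nat_lit 398) (B (M (nat_lit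 399) (B (L (nat_lit 427) ln15_12_1 ln15_12_1_ok) (L (nat_lit 400) ln16_12_1 ln16_12_1_ok))) (B (M (nat_lit 493) (B (M (nat_lit 461) (B (L (nat_lit 364) ln13_15_7 ln13_15_7_ok) (L (nat_lit 366) ln13_15_6 ln13_15_6_ok))) (B (M (nat_lit 461) (B (L (nat_lit 366) ln13_15_6 ln13_15_6_ok) (L (nat_lit 525) ln13_16_7 ln13_16_7_ok))) (B (M (nat_lit 461) (B (L (nat_lit 364) ln13_15_7 ln13_15_7_ok) (L (nat_lit 525) ln13_16_7 ln13_16_7_ok))) (M (nat_lit 462) (B (M (nat_lit 494) (B (L (nat_lit 526) ln14_16_7 ln14_16_7_ok) (L (nat_lit 525) ln14_12_5 ln14_12_5_ok))) (M (nat_lit 427) (B (L (nat_lit 426) ln10_13_2 ln10_13_2_ok) (L (nat_lit 463) ln11_13_0 ln11_13_0_ok))))))))) (M (nat_lit 364) (B (M (nat_lit 332) (B (L (nat_lit 300) ln12_9_4 ln12_9_4_ok) (L (nat_lit 461) ln12_10_4 ln12_10_4_ok))) (M (nat_lit 399) (B (L (nat_lit 363) ln15_12_3 ln15_12_3_ok) (L (nat_lit 400) ln16_12_1 ln16_12_1_ok))))))))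 (M (nat_lit 427) (B (M (nat_lit 398) (B (L (nat_lit 399) ln15_12_1 ln15_12_1_ok) (L (nat_lit 426) ln10_13_2 ln10_13_2_ok))) (B (M (nat_lit 426) (B (L (nat_lit 425) ln9_13_2 ln9_13_2_ok) (M (nat_lit 458) (B (L (nat_lit 457) ln13_13_1 ln13_13_1_ok) (L (nat_lit 459) ln14_13_1 ln14_13_1_ok))))) (M (nat_lit 399) (B (L (nat_lit 398) ln15_12_1 ln15_12_1_ok) (M (nat_lit 431) (B (L (nat_lit 432) ln16_13_3 ln16_13_3_ok) (L (nat_lit 400) ln12_13_2 ln12_13_2_ok))))))))))))) (B (M (nat_lit 461) (B (M (nat_lit 493) (B (L (nat_lit 364) ln13_15_7 ln13_15_7_ok) (L (nat_lit 525) ln13_16_7 ln13_16_7_ok))) (M (nat_lit 365) (B (M (nat_lit 462) (B (L (nat_lit 494) ln13_11_4 ln13_11_4_ok) (M (nat_lit 333) (B (L (nat_lit 301) ln13_9_5 ln13_9_5_ok) (L (nat_lit 430) ln13_10_4 ln13_10_4_ok))))) (B (M (nat_lit 333) (B (M (nat_lit 334) (B (L (nat_lit 302) ln13_13_6 ln13_13_6_ok) (L (nat_lit 366) ln13_14_6 ln13_14_6_ok)))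 (M (nat_lit 462) (B (L (nat_lit 430) ln13_10_4 ln13_10_4_ok) (L (nat_lit 494) ln13_11_4 ln13_11_4_ok))))) (B (M (nat_lit 462) (B (L (nat_lit 494) ln13_11_4 ln13_11_4_ok) (M (nat_lit 427) (B (L (nat_lit 426) ln10_13_0 ln10_13_0_ok) (M (nat_lit 463) (B (L (nat_lit 430) ln11_13_0 ln11_13_0_ok) (L (nat_lit 464) ln16_14_3 ln16_14_3_ok))))))) (M (nat_lit 333) (B (L (nat_lit 301) ln13_9_5 ln13_9_5_ok) (M (nat_lit 334) (B (L (nat_lit 302) ln13_13_6 ln13_13_6_ok) (L (nat_lit 366) ln13_14_6 ln13_14_6_ok))))))))))) (B (M (nat_lit 461) (B (M (nat_lit 364) (B (L (nat_lit 332) ln12_10_4 ln12_10_4_ok) (L (nat_lit 493) ln13_15_7 ln13_15_7_ok))) (B (M (nat_lit 493) (B (L (nat_lit 364) ln13_15_7 ln13_15_7_ok) (L (nat_lit 525) ln13_16_7 ln13_16_7_ok))) (B (M (nat_lit 493) (B (L (nat_lit 525) ln13_16_7 ln13_16_7_ok) (M (nat_lit 398) (B (L (nat_lit 366) ln13_15_6 ln13_15_6_ok) (M (nat_lit 399) (B (L (nat_lit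 427) ln15_12_1 ln15_12_1_ok) (L (nat_lit 400) ln16_12_1 ln16_12_1_ok))))))) (M (nat_lit 462) (B (M (nat_lit 365) (B (L (nat_lit 494) ln13_11_4 ln13_11_4_ok) (M (nat_lit 333) (B (L (nat_lit 301) ln13_9_5 ln13_9_5_ok) (L (nat_lit 430) ln13_10_4 ln13_10_4_ok))))) (B (M (nat_lit 430) (B (M (nat_lit 365) (B (L (nat_lit 333) ln13_10_4 ln13_10_4_ok) (L (nat_lit 494) ln13_11_4 ln13_11_4_ok))) (M (nat_lit 463) (B (L (nat_lit 427) ln11_13_0 ln11_13_0_ok) (L (nat_lit 464) ln16_14_3 ln16_14_3_ok))))) (B (M (nat_lit 399) (B (M (nat_lit 398) (B (L (nat_lit 427) ln15_12_1 ln15_12_1_ok) (L (nat_lit 400) ln16_12_1 ln16_12_1_ok))) (B (M (nat_lit 430) (B (M (nat_lit 431) (B (L (nat_lit 432) ln16_13_3 ln16_13_3_ok) (L (nat_lit 400) ln12_13_2 ln12_13_2_ok))) (M (nat_lit 463) (B (L (nat_lit 427) ln11_13_0 ln11_13_0_ok) (L (nat_lit 464) ln16_14_3 ln16_14_3_ok))))) (B (M (nat_lit 364) (B (L (nat_lit 332)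 ln12_10_4 ln12_10_4_ok) (M (nat_lit 398) (B (L (nat_lit 363) ln15_12_3 ln15_12_3_ok) (L (nat_lit 427) ln15_12_1 ln15_12_1_ok))))) (M (nat_lit 364) (B (L (nat_lit 332) ln12_10_4 ln12_10_4_ok) (M (nat_lit 398) (B (L (nat_lit 363) ln15_12_3 ln15_12_3_ok) (L (nat_lit 400) ln16_12_1 ln16_12_1_ok))))))))) (M (nat_lit 365) (B (L (nat_lit 494) ln13_11_4 ln13_11_4_ok) (M (nat_lit 332) (B (L (nat_lit 364) ln13_14_7 ln13_14_7_ok) (M (nat_lit 333) (B (L (nat_lit 300) ln13_13_7 ln13_13_7_ok) (L (nat_lit 301) ln13_9_5 ln13_9_5_ok))))))))))))))) (B (K (nat_lit 2079502271074782996825105998667797622327892532968682267533339094116714610205590646408138528571163187313069251615284523616620773376) (nat_lit 768857338113641837036607090474315214453501633071060469709284154970340141264281204954287201381289207231543778903294300136622861051382783020652570270630315819008) (nat_lit 768857338113641837036607090474315214453501633071060469709284154970340141264281204954287201381289207231543778903294300136622861051382783020652570270630315819008)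 c41_s3471) (B (M (nat_lit 461) (B (M (nat_lit 364) (B (L (nat_lit 332) ln12_10_4 ln12_10_4_ok) (L (nat_lit 493) ln13_15_7 ln13_15_7_ok))) (B (M (nat_lit 493) (B (L (nat_lit 364) ln13_15_7 ln13_15_7_ok) (L (nat_lit 525) ln13_16_7 ln13_16_7_ok))) (B (M (nat_lit 493) (B (L (nat_lit 525) ln13_16_7 ln13_16_7_ok) (M (nat_lit 398) (B (L (nat_lit 366) ln13_15_6 ln13_15_6_ok) (M (nat_lit 399) (B (L (nat_lit 427) ln15_12_1 ln15_12_1_ok) (L (nat_lit 400) ln16_12_1 ln16_12_1_ok))))))) (M (nat_lit 365) (B (M (nat_lit 332) (B (L (nat_lit 364) ln13_14_7 ln13_14_7_ok) (M (nat_lit 333) (B (L (nat_lit 300) ln13_13_7 ln13_13_7_ok) (L (nat_lit 301) ln13_9_5 ln13_9_5_ok))))) (B (M (nat_lit 333) (B (L (nat_lit 301) ln13_9_5 ln13_9_5_ok) (M (nat_lit 334) (B (L (nat_lit 302) ln13_13_6 ln13_13_6_ok) (L (nat_lit 366) ln13_14_6 ln13_14_6_ok))))) (B (M (nat_lit 333) (B (M (nat_lit 332) (B (L (nat_lit 300) ln13_13_7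 ln13_13_7_ok) (L (nat_lit 364) ln13_14_7 ln13_14_7_ok))) (M (nat_lit 334) (B (L (nat_lit 302) ln13_13_6 ln13_13_6_ok) (L (nat_lit 366) ln13_14_6 ln13_14_6_ok))))) (M (nat_lit 364) (B (L (nat_lit 332) ln13_14_7 ln13_14_7_ok) (M (nat_lit 366) (B (L (nat_lit 334) ln13_14_6 ln13_14_6_ok) (M (nat_lit 399) (B (M (nat_lit 367) (B (L (nat_lit 400) ln12_11_0 ln12_11_0_ok) (L (nat_lit 368) ln16_11_1 ln16_11_1_ok))) (B (M (nat_lit 398) (B (L (nat_lit 363) ln11_11_0 ln11_11_0_ok) (L (nat_lit 400) ln16_12_3 ln16_12_3_ok))) (M (nat_lit 398) (B (L (nat_lit 363) ln11_11_0 ln11_11_0_ok) (L (nat_lit 427) ln15_12_1 ln15_12_1_ok)))))))))))))))))) (M (nat_lit 427) (B (M (nat_lit 398) (B (L (nat_lit 399) ln15_12_1 ln15_12_1_ok) (L (nat_lit 426) ln10_13_2 ln10_13_2_ok))) (B (M (nat_lit 430) (B (M (nat_lit 431) (B (L (nat_lit 432) ln16_13_3 ln16_13_3_ok) (M (nat_lit 463) (B (L (nat_lit 462) ln11_13_0 ln11_13_0_ok)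 (L (nat_lit 464) ln12_13_0 ln12_13_0_ok))))) (M (nat_lit 426) (B (L (nat_lit 425) ln9_13_2 ln9_13_2_ok) (M (nat_lit 458) (B (L (nat_lit 457) ln13_13_1 ln13_13_1_ok) (L (nat_lit 459) ln14_13_1 ln14_13_1_ok))))))) (M (nat_lit 430) (B (M (nat_lit 399) (B (L (nat_lit 398) ln15_12_1 ln15_12_1_ok) (M (nat_lit 431) (B (L (nat_lit 432) ln16_13_3 ln16_13_3_ok) (L (nat_lit 400) ln12_13_2 ln12_13_2_ok))))) (B (M (nat_lit 431) (B (L (nat_lit 432) ln16_13_3 ln16_13_3_ok) (M (nat_lit 463) (B (L (nat_lit 462) ln11_13_0 ln11_13_0_ok) (L (nat_lit 464) ln12_13_0 ln12_13_0_ok))))) (M (nat_lit 398) (B (L (nat_lit 399) ln15_12_1 ln15_12_1_ok) (M (nat_lit 462) (B (L (nat_lit 463) ln11_13_0 ln11_13_0_ok) (M (nat_lit 365) (B (L (nat_lit 333) ln13_10_4 ln13_10_4_ok) (L (nat_lit 494) ln14_15_7 ln14_15_7_ok)))))))))))))))))))))) (nat_lit 2079502270752001762064242424960807725827516048677469043429686155012882190638009693656033379242457518153052022685796627120027336704)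 (nat_lit 768857338113641837039212080462797191045142119083824719636895895063670586286859738928072807937250906219394909186844528306256620130688462558693653210701452279808) (nat_lit 768857338113641837039212080462797191045142119083824719636895895063670586286859738928072807937250906219394909186844528306256620130688462558693653210701452279808) (by decide +kernel)
theorem c41_s3555 : Sem (nat_lit 2079502270752001762064242424960807725827516048677469043429686155012882190638009693656033379242457518153052022685796627120027336704) (nat_lit 589681629070580170867300090853745389676130326384090815809254294307786516684752270110355570186118235523833990489944734655589371793995271940000676392010037701259114315776) (nat_lit 589681629070580170867300090853745389676130326384090815809254294307786516684752270110355570186118235523833990489944734655589371793995271940000676392010037701259114315776) :=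
  sem_of_chk (M (nat_lit 430) (B (M (nat_lit 431) (B (M (nat_lit 400) (B (L (nat_lit 399) ln12_13_2 ln12_13_2_ok) (M (nat_lit 432) (B (L (nat_lit 397) ln16_13_3 ln16_13_3_ok) (L (nat_lit 401) ln13_13_2 ln13_13_2_ok))))) (M (nat_lit 427) (B (M (nat_lit 459) (B (L (nat_lit 458) ln14_13_1 ln14_13_1_ok) (L (nat_lit 460) ln15_13_1 ln15_13_1_ok))) (M (nat_lit 463) (B (L (nat_lit 462) ln11_13_0 ln11_13_0_ok) (L (nat_lit 464) ln12_13_0 ln12_13_0_ok))))))) (B (M (nat_lit 427) (B (M (nat_lit 431) (B (M (nat_lit 399) (B (L (nat_lit 398) ln11_13_2 ln11_13_2_ok) (L (nat_lit 400) ln12_13_2 ln12_13_2_ok))) (M (nat_lit 459) (B (L (nat_lit 458) ln14_13_1 ln14_13_1_ok) (L (nat_lit 460) ln15_13_1 ln15_13_1_ok))))) (B (M (nat_lit 431) (B (M (nat_lit 459) (B (L (nat_lit 458) ln14_13_1 ln14_13_1_ok) (L (nat_lit 460) ln15_13_1 ln15_13_1_ok))) (M (nat_lit 463) (B (L (nat_lit 462) ln11_13_0 ln11_13_0_ok) (L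 (nat_lit 464) ln12_13_0 ln12_13_0_ok))))) (B (M (nat_lit 459) (B (L (nat_lit 458) ln14_13_1 ln14_13_1_ok) (M (nat_lit 364) (B (L (nat_lit 332) ln12_10_5 ln12_10_5_ok) (M (nat_lit 491) (B (L (nat_lit 460) ln12_11_5 ln12_11_5_ok) (L (nat_lit 523) ln11_16_6 ln11_16_6_ok))))))) (M (nat_lit 431) (B (M (nat_lit 399) (B (L (nat_lit 398) ln11_13_2 ln11_13_2_ok) (L (nat_lit 400) ln12_13_2 ln12_13_2_ok))) (M (nat_lit 463) (B (L (nat_lit 462) ln11_13_0 ln11_13_0_ok) (L (nat_lit 464) ln12_13_0 ln12_13_0_ok))))))))) (B (M (nat_lit 427) (B (M (nat_lit 459) (B (L (nat_lit 458) ln14_13_1 ln14_13_1_ok) (M (nat_lit 364) (B (L (nat_lit 332) ln12_10_5 ln12_10_5_ok) (M (nat_lit 491) (B (L (nat_lit 460) ln12_11_5 ln12_11_5_ok) (L (nat_lit 523) ln11_16_6 ln11_16_6_ok))))))) (B (M (nat_lit 431) (B (M (nat_lit 459) (B (L (nat_lit 458) ln14_13_1 ln14_13_1_ok) (L (nat_lit 460) ln15_13_1 ln15_13_1_ok))) (M (nat_lit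 463) (B (L (nat_lit 462) ln11_13_0 ln11_13_0_ok) (L (nat_lit 464) ln12_13_0 ln12_13_0_ok))))) (M (nat_lit 397) (B (M (nat_lit 426) (B (L (nat_lit 425) ln9_13_2 ln9_13_2_ok) (L (nat_lit 398) ln10_13_2 ln10_13_2_ok))) (M (nat_lit 431) (B (L (nat_lit 432) ln16_13_3 ln16_13_3_ok) (M (nat_lit 463) (B (L (nat_lit 462) ln11_13_0 ln11_13_0_ok) (L (nat_lit 464) ln12_13_0 ln12_13_0_ok)))))))))) (B (M (nat_lit 460) (B (M (nat_lit 431) (B (L (nat_lit 459) ln15_13_1 ln15_13_1_ok) (M (nat_lit 432) (B (L (nat_lit 397) ln16_13_3 ln16_13_3_ok) (M (nat_lit 400) (B (L (nat_lit 399) ln12_13_2 ln12_13_2_ok) (L (nat_lit 401) ln13_13_2 ln13_13_2_ok))))))) (B (M (nat_lit 459) (B (L (nat_lit 431) ln15_13_1 ln15_13_1_ok) (M (nat_lit 491) (B (L (nat_lit 364) ln12_11_5 ln12_11_5_ok) (M (nat_lit 523) (B (L (nat_lit 492) ln12_12_5 ln12_12_5_ok) (L (nat_lit 555) ln11_17_6 ln11_17_6_ok))))))) (B (M (nat_lit 492)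 (B (M (nat_lit 397) (B (L (nat_lit 365) ln12_15_6 ln12_15_6_ok) (L (nat_lit 524) ln12_16_6 ln12_16_6_ok))) (B (M (nat_lit 524) (B (L (nat_lit 397) ln12_16_6 ln12_16_6_ok) (M (nat_lit 523) (B (L (nat_lit 491) ln12_12_5 ln12_12_5_ok) (L (nat_lit 555) ln12_13_5 ln12_13_5_ok))))) (B (M (nat_lit 525) (B (L (nat_lit 493) ln12_12_4 ln12_12_4_ok) (M (nat_lit 524) (B (L (nat_lit 557) ln12_13_4 ln12_13_4_ok) (M (nat_lit 523) (B (L (nat_lit 491) ln12_12_5 ln12_12_5_ok) (L (nat_lit 555) ln12_13_5 ln12_13_5_ok))))))) (M (nat_lit 364) (B (M (nat_lit 365) (B (L (nat_lit 333) ln12_14_6 ln12_14_6_ok) (L (nat_lit 397) ln12_15_6 ln12_15_6_ok))) (M (nat_lit 491) (B (L (nat_lit 459) ln12_11_5 ln12_11_5_ok) (L (nat_lit 523) ln12_12_5 ln12_12_5_ok))))))))) (M (nat_lit 364) (B (M (nat_lit 332) (B (M (nat_lit 331) (B (L (nat_lit 299) ln12_13_7 ln12_13_7_ok) (L (nat_lit 363) ln12_14_7 ln12_14_7_ok))) (M (nat_lit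 333) (B (L (nat_lit 301) ln12_13_6 ln12_13_6_ok) (L (nat_lit 365) ln12_14_6 ln12_14_6_ok))))) (B (M (nat_lit 492) (B (M (nat_lit 365) (B (L (nat_lit 333) ln12_14_6 ln12_14_6_ok) (L (nat_lit 397) ln12_15_6 ln12_15_6_ok))) (B (M (nat_lit 397) (B (L (nat_lit 365) ln12_15_6 ln12_15_6_ok) (L (nat_lit 524) ln12_16_6 ln12_16_6_ok))) (B (M (nat_lit 524) (B (L (nat_lit 397) ln12_16_6 ln12_16_6_ok) (M (nat_lit 523) (B (L (nat_lit 491) ln12_12_5 ln12_12_5_ok) (L (nat_lit 555) ln12_13_5 ln12_13_5_ok))))) (M (nat_lit 524) (B (M (nat_lit 523) (B (L (nat_lit 491) ln12_12_5 ln12_12_5_ok) (L (nat_lit 555) ln12_13_5 ln12_13_5_ok))) (M (nat_lit 525) (B (L (nat_lit 493) ln12_12_4 ln12_12_4_ok) (L (nat_lit 557) ln12_13_4 ln12_13_4_ok))))))))) (B (M (nat_lit 397) (B (M (nat_lit 492) (B (L (nat_lit 365) ln12_15_6 ln12_15_6_ok) (L (nat_lit 524) ln12_16_6 ln12_16_6_ok))) (M (nat_lit 332) (B (L (nat_lit 300)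 ln12_9_4 ln12_9_4_ok) (M (nat_lit 331) (B (L (nat_lit 299) ln12_13_7 ln12_13_7_ok) (L (nat_lit 363) ln12_14_7 ln12_14_7_ok))))))) (M (nat_lit 332) (B (M (nat_lit 331) (B (L (nat_lit 299) ln12_13_7 ln12_13_7_ok) (L (nat_lit 363) ln12_14_7 ln12_14_7_ok))) (M (nat_lit 300) (B (L (nat_lit 397) ln12_9_4 ln12_9_4_ok) (M (nat_lit 301) (B (L (nat_lit 269) ln12_12_6 ln12_12_6_ok) (L (nat_lit 333) ln12_13_6 ln12_13_6_ok))))))))))))))) (B (M (nat_lit 427) (B (M (nat_lit 459) (B (L (nat_lit 458) ln14_13_1 ln14_13_1_ok) (M (nat_lit 364) (B (L (nat_lit 332) ln12_10_5 ln12_10_5_ok) (M (nat_lit 491) (B (L (nat_lit 460) ln12_11_5 ln12_11_5_ok) (L (nat_lit 523) ln11_16_6 ln11_16_6_ok))))))) (B (M (nat_lit 426) (B (M (nat_lit 397) (B (L (nat_lit 425) ln9_13_2 ln9_13_2_ok) (L (nat_lit 398) ln10_13_2 ln10_13_2_ok))) (M (nat_lit 458) (B (L (nat_lit 457) ln13_13_1 ln13_13_1_ok) (L (nat_lit 459) ln14_13_1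 ln14_13_1_ok))))) (M (nat_lit 398) (B (L (nat_lit 399) ln11_13_2 ln11_13_2_ok) (M (nat_lit 397) (B (L (nat_lit 426) ln10_13_2 ln10_13_2_ok) (M (nat_lit 462) (B (L (nat_lit 463) ln11_13_0 ln11_13_0_ok) (M (nat_lit 365) (B (L (nat_lit 333) ln13_10_4 ln13_10_4_ok) (L (nat_lit 494) ln14_15_7 ln14_15_7_ok)))))))))))) (M (nat_lit 427) (B (M (nat_lit 431) (B (M (nat_lit 399) (B (L (nat_lit 398) ln11_13_2 ln11_13_2_ok) (L (nat_lit 400) ln12_13_2 ln12_13_2_ok))) (M (nat_lit 463) (B (L (nat_lit 462) ln11_13_0 ln11_13_0_ok) (L (nat_lit 464) ln12_13_0 ln12_13_0_ok))))) (B (M (nat_lit 431) (B (M (nat_lit 463) (B (L (nat_lit 462) ln11_13_0 ln11_13_0_ok) (L (nat_lit 464) ln12_13_0 ln12_13_0_ok))) (M (nat_lit 400) (B (L (nat_lit 399) ln12_13_2 ln12_13_2_ok) (M (nat_lit 432) (B (L (nat_lit 397) ln16_13_3 ln16_13_3_ok) (L (nat_lit 401) ln13_13_2 ln13_13_2_ok))))))) (B (M (nat_lit 397) (B (M (nat_lit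 426) (B (L (nat_lit 425) ln9_13_2 ln9_13_2_ok) (L (nat_lit 398) ln10_13_2 ln10_13_2_ok))) (M (nat_lit 431) (B (L (nat_lit 432) ln16_13_3 ln16_13_3_ok) (M (nat_lit 463) (B (L (nat_lit 462) ln11_13_0 ln11_13_0_ok) (L (nat_lit 464) ln12_13_0 ln12_13_0_ok))))))) (M (nat_lit 426) (B (M (nat_lit 397) (B (L (nat_lit 425) ln9_13_2 ln9_13_2_ok) (L (nat_lit 398) ln10_13_2 ln10_13_2_ok))) (B (M (nat_lit 425) (B (M (nat_lit 393) (B (L (nat_lit 392) ln12_13_3 ln12_13_3_ok) (L (nat_lit 394) ln13_13_3 ln13_13_3_ok))) (M (nat_lit 457) (B (L (nat_lit 456) ln12_13_1 ln12_13_1_ok) (L (nat_lit 458) ln13_13_1 ln13_13_1_ok))))) (M (nat_lit 398) (B (L (nat_lit 397) ln10_13_2 ln10_13_2_ok) (L (nat_lit 399) ln11_13_2 ln11_13_2_ok)))))))))))))))) (nat_lit 2079502270752001762064242424960807725827516048677469043429686155012882190638009693656033379242457518153052022685796627120027336704) (nat_lit 589681629070580170867300090853745389676130326384090815809254294307786516684752270110355570186118235523833990489944734655589371793995271940000676392010037701259114315776)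 (nat_lit 589681629070580170867300090853745389676130326384090815809254294307786516684752270110355570186118235523833990489944734655589371793995271940000676392010037701259114315776) (by decide +kernel)
theorem c41_s3574 : Sem (nat_lit 1386334847221798047169638878925036799968406779833514899637066259859226863686603287896039777716422623628704219945445734162783797248) (nat_lit 2026130649693226624304583733053375692589802956242530114307036145940201892381940058805515277061985796691057845195662689026491056780355783822174373731852200404945528426246545866752) (nat_lit 2026130649693226624304583733053375692589802956242530114307036145940201892381940058805515277061985796691057845195662689026491056780355783822174373731852200404945528426246545866752) :=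
  sem_of_chk (M (nat_lit 428) (B (M (nat_lit 364) (B (M (nat_lit 461) (B (L (nat_lit 332) ln12_10_4 ln12_10_4_ok) (M (nat_lit 493) (B (L (nat_lit 397) ln13_15_7 ln13_15_7_ok) (L (nat_lit 525) ln13_16_7 ln13_16_7_ok))))) (B (M (nat_lit 460) (B (M (nat_lit 365) (B (L (nat_lit 333) ln12_14_6 ln12_14_6_ok) (M (nat_lit 492) (B (L (nat_lit 397) ln12_15_6 ln12_15_6_ok) (M (nat_lit 491) (B (L (nat_lit 459) ln12_11_5 ln12_11_5_ok) (L (nat_lit 523) ln12_12_5 ln12_12_5_ok))))))) (B (M (nat_lit 492) (B (M (nat_lit 491) (B (L (nat_lit 459) ln12_11_5 ln12_11_5_ok) (L (nat_lit 523) ln12_12_5 ln12_12_5_ok))) (M (nat_lit 493) (B (L (nat_lit 461) ln12_11_4 ln12_11_4_ok) (L (nat_lit 525) ln12_12_4 ln12_12_4_ok))))) (B (M (nat_lit 492) (B (M (nat_lit 365) (B (L (nat_lit 333) ln12_14_6 ln12_14_6_ok) (L (nat_lit 397) ln12_15_6 ln12_15_6_ok))) (M (nat_lit 493) (B (L (nat_lit 461) ln12_11_4 ln12_11_4_ok)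 (L (nat_lit 525) ln12_12_4 ln12_12_4_ok))))) (M (nat_lit 461) (B (L (nat_lit 493) ln12_11_4 ln12_11_4_ok) (M (nat_lit 459) (B (L (nat_lit 491) ln12_11_5 ln12_11_5_ok) (M (nat_lit 430) (B (L (nat_lit 431) ln15_13_1 ln15_13_1_ok) (L (nat_lit 458) ln10_14_2 ln10_14_2_ok))))))))))) (B (M (nat_lit 461) (B (L (nat_lit 332) ln12_10_4 ln12_10_4_ok) (M (nat_lit 493) (B (L (nat_lit 460) ln12_11_4 ln12_11_4_ok) (L (nat_lit 525) ln13_16_7 ln13_16_7_ok))))) (M (nat_lit 460) (B (M (nat_lit 365) (B (L (nat_lit 333) ln12_14_6 ln12_14_6_ok) (M (nat_lit 492) (B (L (nat_lit 397) ln12_15_6 ln12_15_6_ok) (M (nat_lit 491) (B (L (nat_lit 459) ln12_11_5 ln12_11_5_ok) (L (nat_lit 523) ln12_12_5 ln12_12_5_ok))))))) (B (M (nat_lit 332) (B (M (nat_lit 331) (B (L (nat_lit 299) ln12_13_7 ln12_13_7_ok) (L (nat_lit 363) ln12_14_7 ln12_14_7_ok))) (M (nat_lit 459) (B (L (nat_lit 427) ln12_10_5 ln12_10_5_ok) (L (nat_lit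 491) ln12_11_5 ln12_11_5_ok))))) (M (nat_lit 365) (B (L (nat_lit 333) ln12_14_6 ln12_14_6_ok) (M (nat_lit 332) (B (M (nat_lit 331) (B (L (nat_lit 299) ln12_13_7 ln12_13_7_ok) (L (nat_lit 363) ln12_14_7 ln12_14_7_ok))) (M (nat_lit 397) (B (L (nat_lit 300) ln12_9_4 ln12_9_4_ok) (L (nat_lit 492) ln12_15_6 ln12_15_6_ok)))))))))))))) (B (M (nat_lit 364) (B (M (nat_lit 461) (B (L (nat_lit 332) ln12_10_4 ln12_10_4_ok) (M (nat_lit 493) (B (L (nat_lit 397) ln13_15_7 ln13_15_7_ok) (L (nat_lit 525) ln13_16_7 ln13_16_7_ok))))) (B (M (nat_lit 460) (B (M (nat_lit 365) (B (L (nat_lit 333) ln12_14_6 ln12_14_6_ok) (M (nat_lit 492) (B (L (nat_lit 397) ln12_15_6 ln12_15_6_ok) (M (nat_lit 491) (B (L (nat_lit 459) ln12_11_5 ln12_11_5_ok) (L (nat_lit 523) ln12_12_5 ln12_12_5_ok))))))) (B (M (nat_lit 492) (B (M (nat_lit 491) (B (L (nat_lit 459) ln12_11_5 ln12_11_5_ok) (L (nat_lit 523) ln12_12_5 ln12_12_5_ok)))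 (M (nat_lit 493) (B (L (nat_lit 461) ln12_11_4 ln12_11_4_ok) (L (nat_lit 525) ln12_12_4 ln12_12_4_ok))))) (B (M (nat_lit 492) (B (M (nat_lit 365) (B (L (nat_lit 333) ln12_14_6 ln12_14_6_ok) (L (nat_lit 397) ln12_15_6 ln12_15_6_ok))) (M (nat_lit 493) (B (L (nat_lit 461) ln12_11_4 ln12_11_4_ok) (L (nat_lit 525) ln12_12_4 ln12_12_4_ok))))) (M (nat_lit 461) (B (L (nat_lit 493) ln12_11_4 ln12_11_4_ok) (M (nat_lit 459) (B (L (nat_lit 491) ln12_11_5 ln12_11_5_ok) (M (nat_lit 430) (B (L (nat_lit 431) ln15_13_1 ln15_13_1_ok) (L (nat_lit 458) ln10_14_2 ln10_14_2_ok))))))))))) (B (M (nat_lit 461) (B (L (nat_lit 332) ln12_10_4 ln12_10_4_ok) (M (nat_lit 493) (B (L (nat_lit 460) ln12_11_4 ln12_11_4_ok) (L (nat_lit 525) ln13_16_7 ln13_16_7_ok))))) (B (M (nat_lit 460) (B (M (nat_lit 365) (B (L (nat_lit 333) ln12_14_6 ln12_14_6_ok) (M (nat_lit 492) (B (L (nat_lit 397) ln12_15_6 ln12_15_6_ok) (M (nat_lit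 491) (B (L (nat_lit 459) ln12_11_5 ln12_11_5_ok) (L (nat_lit 523) ln12_12_5 ln12_12_5_ok))))))) (B (M (nat_lit 492) (B (M (nat_lit 491) (B (L (nat_lit 459) ln12_11_5 ln12_11_5_ok) (L (nat_lit 523) ln12_12_5 ln12_12_5_ok))) (M (nat_lit 397) (B (L (nat_lit 365) ln12_15_6 ln12_15_6_ok) (L (nat_lit 524) ln12_16_6 ln12_16_6_ok))))) (B (M (nat_lit 459) (B (L (nat_lit 491) ln12_11_5 ln12_11_5_ok) (M (nat_lit 430) (B (L (nat_lit 431) ln15_13_1 ln15_13_1_ok) (M (nat_lit 427) (B (L (nat_lit 332) ln12_10_5 ln12_10_5_ok) (L (nat_lit 458) ln14_13_1 ln14_13_1_ok))))))) (B (M (nat_lit 492) (B (M (nat_lit 365) (B (L (nat_lit 333) ln12_14_6 ln12_14_6_ok) (L (nat_lit 397) ln12_15_6 ln12_15_6_ok))) (B (M (nat_lit 397) (B (L (nat_lit 365) ln12_15_6 ln12_15_6_ok) (L (nat_lit 524) ln12_16_6 ln12_16_6_ok))) (B (M (nat_lit 524) (B (L (nat_lit 397) ln12_16_6 ln12_16_6_ok) (M (nat_lit 523) (B (L (nat_lit 491)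 ln12_12_5 ln12_12_5_ok) (L (nat_lit 555) ln12_13_5 ln12_13_5_ok))))) (M (nat_lit 524) (B (M (nat_lit 523) (B (L (nat_lit 491) ln12_12_5 ln12_12_5_ok) (L (nat_lit 555) ln12_13_5 ln12_13_5_ok))) (M (nat_lit 525) (B (L (nat_lit 493) ln12_12_4 ln12_12_4_ok) (L (nat_lit 557) ln12_13_4 ln12_13_4_ok))))))))) (M (nat_lit 397) (B (M (nat_lit 365) (B (L (nat_lit 333) ln12_14_6 ln12_14_6_ok) (L (nat_lit 492) ln12_15_6 ln12_15_6_ok))) (M (nat_lit 427) (B (M (nat_lit 332) (B (L (nat_lit 300) ln12_9_4 ln12_9_4_ok) (L (nat_lit 459) ln12_10_5 ln12_10_5_ok))) (M (nat_lit 426) (B (L (nat_lit 425) ln9_13_2 ln9_13_2_ok) (L (nat_lit 398) ln10_13_2 ln10_13_2_ok)))))))))))) (M (nat_lit 332) (B (L (nat_lit 461) ln12_10_4 ln12_10_4_ok) (M (nat_lit 300) (B (L (nat_lit 397) ln12_9_4 ln12_9_4_ok) (M (nat_lit 301) (B (L (nat_lit 269) ln12_12_6 ln12_12_6_ok) (L (nat_lit 333) ln12_13_6 ln12_13_6_ok)))))))))))) (B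 (M (nat_lit 364) (B (M (nat_lit 461) (B (L (nat_lit 332) ln12_10_4 ln12_10_4_ok) (M (nat_lit 493) (B (L (nat_lit 397) ln13_15_7 ln13_15_7_ok) (L (nat_lit 460) ln12_11_4 ln12_11_4_ok))))) (B (M (nat_lit 460) (B (M (nat_lit 365) (B (L (nat_lit 333) ln12_14_6 ln12_14_6_ok) (M (nat_lit 492) (B (L (nat_lit 397) ln12_15_6 ln12_15_6_ok) (M (nat_lit 491) (B (L (nat_lit 459) ln12_11_5 ln12_11_5_ok) (L (nat_lit 523) ln12_12_5 ln12_12_5_ok))))))) (B (M (nat_lit 492) (B (M (nat_lit 491) (B (L (nat_lit 459) ln12_11_5 ln12_11_5_ok) (L (nat_lit 523) ln12_12_5 ln12_12_5_ok))) (M (nat_lit 493) (B (L (nat_lit 461) ln12_11_4 ln12_11_4_ok) (L (nat_lit 525) ln12_12_4 ln12_12_4_ok))))) (B (M (nat_lit 492) (B (M (nat_lit 365) (B (L (nat_lit 333) ln12_14_6 ln12_14_6_ok) (L (nat_lit 397) ln12_15_6 ln12_15_6_ok))) (M (nat_lit 493) (B (L (nat_lit 461) ln12_11_4 ln12_11_4_ok) (L (nat_lit 525) ln12_12_4 ln12_12_4_ok)))))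 (M (nat_lit 461) (B (L (nat_lit 493) ln12_11_4 ln12_11_4_ok) (M (nat_lit 459) (B (L (nat_lit 491) ln12_11_5 ln12_11_5_ok) (M (nat_lit 430) (B (L (nat_lit 431) ln15_13_1 ln15_13_1_ok) (L (nat_lit 458) ln10_14_2 ln10_14_2_ok))))))))))) (B (M (nat_lit 461) (B (L (nat_lit 332) ln12_10_4 ln12_10_4_ok) (M (nat_lit 493) (B (L (nat_lit 460) ln12_11_4 ln12_11_4_ok) (L (nat_lit 525) ln13_16_7 ln13_16_7_ok))))) (B (M (nat_lit 461) (B (L (nat_lit 332) ln12_10_4 ln12_10_4_ok) (M (nat_lit 493) (B (L (nat_lit 397) ln13_15_7 ln13_15_7_ok) (L (nat_lit 525) ln13_16_7 ln13_16_7_ok))))) (M (nat_lit 460) (B (M (nat_lit 365) (B (L (nat_lit 333) ln12_14_6 ln12_14_6_ok) (M (nat_lit 492) (B (L (nat_lit 397) ln12_15_6 ln12_15_6_ok) (M (nat_lit 491) (B (L (nat_lit 459) ln12_11_5 ln12_11_5_ok) (L (nat_lit 523) ln12_12_5 ln12_12_5_ok))))))) (B (M (nat_lit 332) (B (M (nat_lit 331) (B (L (nat_lit 299) ln12_13_7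 ln12_13_7_ok) (L (nat_lit 363) ln12_14_7 ln12_14_7_ok))) (M (nat_lit 459) (B (L (nat_lit 427) ln12_10_5 ln12_10_5_ok) (L (nat_lit 491) ln12_11_5 ln12_11_5_ok))))) (M (nat_lit 332) (B (M (nat_lit 331) (B (L (nat_lit 299) ln12_13_7 ln12_13_7_ok) (L (nat_lit 363) ln12_14_7 ln12_14_7_ok))) (M (nat_lit 333) (B (L (nat_lit 301) ln12_13_6 ln12_13_6_ok) (L (nat_lit 365) ln12_14_6 ln12_14_6_ok))))))))))))) (B c41_n2890 (B (M (nat_lit 364) (B (M (nat_lit 461) (B (L (nat_lit 332) ln12_10_4 ln12_10_4_ok) (M (nat_lit 493) (B (L (nat_lit 397) ln13_15_7 ln13_15_7_ok) (L (nat_lit 525) ln13_16_7 ln13_16_7_ok))))) (B (M (nat_lit 460) (B (M (nat_lit 461) (B (L (nat_lit 493) ln12_11_4 ln12_11_4_ok) (M (nat_lit 459) (B (L (nat_lit 491) ln12_11_5 ln12_11_5_ok) (M (nat_lit 430) (B (L (nat_lit 431) ln15_13_1 ln15_13_1_ok) (L (nat_lit 458) ln10_14_2 ln10_14_2_ok))))))) (B (M (nat_lit 492) (B (M (nat_lit 493)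 (B (L (nat_lit 461) ln12_11_4 ln12_11_4_ok) (L (nat_lit 525) ln12_12_4 ln12_12_4_ok))) (M (nat_lit 397) (B (L (nat_lit 365) ln12_15_6 ln12_15_6_ok) (L (nat_lit 524) ln12_16_6 ln12_16_6_ok))))) (M (nat_lit 459) (B (L (nat_lit 491) ln12_11_5 ln12_11_5_ok) (M (nat_lit 430) (B (L (nat_lit 431) ln15_13_1 ln15_13_1_ok) (M (nat_lit 458) (B (L (nat_lit 427) ln14_13_1 ln14_13_1_ok) (L (nat_lit 457) ln9_14_2 ln9_14_2_ok)))))))))) (B (M (nat_lit 461) (B (L (nat_lit 332) ln12_10_4 ln12_10_4_ok) (M (nat_lit 493) (B (L (nat_lit 460) ln12_11_4 ln12_11_4_ok) (L (nat_lit 525) ln13_16_7 ln13_16_7_ok))))) (M (nat_lit 460) (B (M (nat_lit 459) (B (L (nat_lit 491) ln12_11_5 ln12_11_5_ok) (M (nat_lit 430) (B (L (nat_lit 431) ln15_13_1 ln15_13_1_ok) (M (nat_lit 427) (B (L (nat_lit 332) ln12_10_5 ln12_10_5_ok) (L (nat_lit 458) ln14_13_1 ln14_13_1_ok))))))) (B (M (nat_lit 459) (B (L (nat_lit 491) ln12_11_5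 ln12_11_5_ok) (M (nat_lit 430) (B (L (nat_lit 431) ln15_13_1 ln15_13_1_ok) (M (nat_lit 458) (B (L (nat_lit 427) ln14_13_1 ln14_13_1_ok) (L (nat_lit 457) ln9_14_2 ln9_14_2_ok))))))) (M (nat_lit 397) (B (M (nat_lit 492) (B (L (nat_lit 365) ln12_15_6 ln12_15_6_ok) (L (nat_lit 524) ln12_16_6 ln12_16_6_ok))) (M (nat_lit 332) (B (L (nat_lit 300) ln12_9_4 ln12_9_4_ok) (M (nat_lit 331) (B (L (nat_lit 299) ln12_13_7 ln12_13_7_ok) (L (nat_lit 363) ln12_14_7 ln12_14_7_ok)))))))))))))) (B (K (nat_lit 2079502270752001762064242424960807725827516048677469043429686155012882190638009693656033379242457518153052022685796627120027336704) (nat_lit 823775719407473396824138722449902164865384940746544139634436356928084800566246879689084795751370040799151073134853812137515929639539268066951246609364247642112) (nat_lit 823775719407473396824138722449902164865384940746544139634436356928084800566246879689084795751370040799151073134853812137515929639539268066951246609364247642112)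 c41_s2922) (B (M (nat_lit 427) (B (M (nat_lit 459) (B (M (nat_lit 364) (B (L (nat_lit 332) ln12_10_5 ln12_10_5_ok) (M (nat_lit 491) (B (L (nat_lit 460) ln12_11_5 ln12_11_5_ok) (L (nat_lit 523) ln11_16_6 ln11_16_6_ok))))) (M (nat_lit 458) (B (L (nat_lit 430) ln14_13_1 ln14_13_1_ok) (M (nat_lit 457) (B (L (nat_lit 426) ln13_13_1 ln13_13_1_ok) (L (nat_lit 456) ln8_14_2 ln8_14_2_ok))))))) (B (M (nat_lit 461) (B (M (nat_lit 493) (B (L (nat_lit 525) ln13_16_7 ln13_16_7_ok) (M (nat_lit 364) (B (L (nat_lit 397) ln13_15_7 ln13_15_7_ok) (L (nat_lit 460) ln12_11_4 ln12_11_4_ok))))) (B (M (nat_lit 462) (B (L (nat_lit 426) ln10_13_0 ln10_13_0_ok) (M (nat_lit 463) (B (L (nat_lit 430) ln11_13_0 ln11_13_0_ok) (L (nat_lit 460) ln15_14_3 ln15_14_3_ok))))) (M (nat_lit 426) (B (L (nat_lit 462) ln10_13_0 ln10_13_0_ok) (M (nat_lit 397) (B (L (nat_lit 425) ln9_13_2 ln9_13_2_ok) (L (nat_lit 398) ln10_13_2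 ln10_13_2_ok)))))))) (B (M (nat_lit 426) (B (M (nat_lit 397) (B (L (nat_lit 425) ln9_13_2 ln9_13_2_ok) (L (nat_lit 398) ln10_13_2 ln10_13_2_ok))) (M (nat_lit 430) (B (M (nat_lit 458) (B (L (nat_lit 457) ln13_13_1 ln13_13_1_ok) (L (nat_lit 459) ln14_13_1 ln14_13_1_ok))) (M (nat_lit 462) (B (L (nat_lit 461) ln10_13_0 ln10_13_0_ok) (L (nat_lit 463) ln11_13_0 ln11_13_0_ok))))))) (B (M (nat_lit 459) (B (M (nat_lit 364) (B (L (nat_lit 332) ln12_10_5 ln12_10_5_ok) (M (nat_lit 491) (B (L (nat_lit 460) ln12_11_5 ln12_11_5_ok) (L (nat_lit 523) ln11_16_6 ln11_16_6_ok))))) (B (M (nat_lit 458) (B (L (nat_lit 430) ln14_13_1 ln14_13_1_ok) (M (nat_lit 457) (B (L (nat_lit 456) ln8_14_2 ln8_14_2_ok) (L (nat_lit 460) ln9_14_2 ln9_14_2_ok))))) (M (nat_lit 430) (B (L (nat_lit 458) ln14_13_1 ln14_13_1_ok) (M (nat_lit 431) (B (M (nat_lit 399) (B (L (nat_lit 398) ln11_13_2 ln11_13_2_ok) (L (nat_lit 400) ln12_13_2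 ln12_13_2_ok))) (M (nat_lit 463) (B (L (nat_lit 462) ln11_13_0 ln11_13_0_ok) (L (nat_lit 464) ln12_13_0 ln12_13_0_ok)))))))))) (M (nat_lit 461) (B (M (nat_lit 462) (B (L (nat_lit 426) ln10_13_0 ln10_13_0_ok) (M (nat_lit 463) (B (L (nat_lit 460) ln15_14_3 ln15_14_3_ok) (L (nat_lit 464) ln16_14_3 ln16_14_3_ok))))) (M (nat_lit 364) (B (L (nat_lit 332) ln12_10_4 ln12_10_4_ok) (M (nat_lit 493) (B (L (nat_lit 397) ln13_15_7 ln13_15_7_ok) (L (nat_lit 525) ln13_16_7 ln13_16_7_ok)))))))))))) (B (K (nat_lit 2079502270752001762064242424960807725827516048677469043429686155012882190638009693656033379242457518153052022685796627120027336704) (nat_lit 2026130649693226623645563157575347032939076399333669943144154185618032065855909948871868022224770889348763700810060723148602983002230766908471290102849206578503584942329153191936) (nat_lit 2026130649693226623645563157575347032939076399333669943144154185618032065855909948871868022224770889348763700810060723148602983002230766908471290102849206578503584942329153191936)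 c41_s3114) (B (M (nat_lit 364) (B (M (nat_lit 461) (B (L (nat_lit 332) ln12_10_4 ln12_10_4_ok) (M (nat_lit 493) (B (L (nat_lit 460) ln12_11_4 ln12_11_4_ok) (L (nat_lit 525) ln13_16_7 ln13_16_7_ok))))) (B (M (nat_lit 460) (B (M (nat_lit 461) (B (L (nat_lit 493) ln12_11_4 ln12_11_4_ok) (M (nat_lit 459) (B (L (nat_lit 491) ln12_11_5 ln12_11_5_ok) (M (nat_lit 430) (B (L (nat_lit 431) ln15_13_1 ln15_13_1_ok) (L (nat_lit 458) ln10_14_2 ln10_14_2_ok))))))) (B (M (nat_lit 492) (B (M (nat_lit 493) (B (L (nat_lit 461) ln12_11_4 ln12_11_4_ok) (L (nat_lit 525) ln12_12_4 ln12_12_4_ok))) (M (nat_lit 397) (B (L (nat_lit 365) ln12_15_6 ln12_15_6_ok) (L (nat_lit 524) ln12_16_6 ln12_16_6_ok))))) (M (nat_lit 365) (B (L (nat_lit 333) ln12_14_6 ln12_14_6_ok) (M (nat_lit 492) (B (L (nat_lit 397) ln12_15_6 ln12_15_6_ok) (M (nat_lit 491) (B (L (nat_lit 459) ln12_11_5 ln12_11_5_ok) (L (nat_lit 523) ln12_12_5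 ln12_12_5_ok)))))))))) (B (M (nat_lit 461) (B (L (nat_lit 332) ln12_10_4 ln12_10_4_ok) (M (nat_lit 493) (B (L (nat_lit 397) ln13_15_7 ln13_15_7_ok) (L (nat_lit 525) ln13_16_7 ln13_16_7_ok))))) (M (nat_lit 332) (B (M (nat_lit 300) (B (L (nat_lit 397) ln12_9_4 ln12_9_4_ok) (M (nat_lit 299) (B (L (nat_lit 267) ln12_12_7 ln12_12_7_ok) (L (nat_lit 331) ln12_13_7 ln12_13_7_ok))))) (B (M (nat_lit 300) (B (L (nat_lit 397) ln12_9_4 ln12_9_4_ok) (M (nat_lit 301) (B (L (nat_lit 269) ln12_12_6 ln12_12_6_ok) (L (nat_lit 333) ln12_13_6 ln12_13_6_ok))))) (M (nat_lit 460) (B (M (nat_lit 331) (B (L (nat_lit 299) ln12_13_7 ln12_13_7_ok) (L (nat_lit 363) ln12_14_7 ln12_14_7_ok))) (M (nat_lit 333) (B (L (nat_lit 301) ln12_13_6 ln12_13_6_ok) (L (nat_lit 365) ln12_14_6 ln12_14_6_ok)))))))))))) (B c41_n3199 (B (M (nat_lit 364) (B (M (nat_lit 461) (B (L (nat_lit 332) ln12_10_4 ln12_10_4_ok) (M (nat_lit 493)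 (B (L (nat_lit 397) ln13_15_7 ln13_15_7_ok) (L (nat_lit 525) ln13_16_7 ln13_16_7_ok))))) (B (M (nat_lit 460) (B (M (nat_lit 365) (B (L (nat_lit 333) ln12_14_6 ln12_14_6_ok) (M (nat_lit 492) (B (L (nat_lit 397) ln12_15_6 ln12_15_6_ok) (M (nat_lit 491) (B (L (nat_lit 459) ln12_11_5 ln12_11_5_ok) (L (nat_lit 523) ln12_12_5 ln12_12_5_ok))))))) (B (M (nat_lit 492) (B (M (nat_lit 493) (B (L (nat_lit 461) ln12_11_4 ln12_11_4_ok) (L (nat_lit 525) ln12_12_4 ln12_12_4_ok))) (M (nat_lit 397) (B (L (nat_lit 365) ln12_15_6 ln12_15_6_ok) (L (nat_lit 524) ln12_16_6 ln12_16_6_ok))))) (B (M (nat_lit 492) (B (M (nat_lit 491) (B (L (nat_lit 459) ln12_11_5 ln12_11_5_ok) (L (nat_lit 523) ln12_12_5 ln12_12_5_ok))) (M (nat_lit 493) (B (L (nat_lit 461) ln12_11_4 ln12_11_4_ok) (L (nat_lit 525) ln12_12_4 ln12_12_4_ok))))) (M (nat_lit 461) (B (L (nat_lit 493) ln12_11_4 ln12_11_4_ok) (M (nat_lit 462) (B (M (nat_lit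 427) (B (L (nat_lit 426) ln10_13_0 ln10_13_0_ok) (L (nat_lit 463) ln15_14_3 ln15_14_3_ok))) (M (nat_lit 494) (B (M (nat_lit 365) (B (L (nat_lit 333) ln12_14_6 ln12_14_6_ok) (L (nat_lit 397) ln13_11_4 ln13_11_4_ok))) (M (nat_lit 459) (B (L (nat_lit 491) ln12_11_5 ln12_11_5_ok) (L (nat_lit 495) ln11_14_0 ln11_14_0_ok))))))))))))) (B (M (nat_lit 461) (B (L (nat_lit 332) ln12_10_4 ln12_10_4_ok) (M (nat_lit 493) (B (L (nat_lit 460) ln12_11_4 ln12_11_4_ok) (L (nat_lit 525) ln13_16_7 ln13_16_7_ok))))) (M (nat_lit 332) (B (M (nat_lit 300) (B (L (nat_lit 397) ln12_9_4 ln12_9_4_ok) (M (nat_lit 299) (B (L (nat_lit 267) ln12_12_7 ln12_12_7_ok) (L (nat_lit 331) ln12_13_7 ln12_13_7_ok))))) (B (M (nat_lit 300) (B (L (nat_lit 397) ln12_9_4 ln12_9_4_ok) (M (nat_lit 301) (B (L (nat_lit 269) ln12_12_6 ln12_12_6_ok) (L (nat_lit 333) ln12_13_6 ln12_13_6_ok))))) (M (nat_lit 460) (B (M (nat_lit 331) (B (L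 (nat_lit 299) ln12_13_7 ln12_13_7_ok) (L (nat_lit 363) ln12_14_7 ln12_14_7_ok))) (M (nat_lit 333) (B (L (nat_lit 301) ln12_13_6 ln12_13_6_ok) (L (nat_lit 365) ln12_14_6 ln12_14_6_ok)))))))))))) (B c41_n3241 (B (K (nat_lit 2079502270752001762064242424960807725827516048677469043429686155012882190638009693656033379242457518153052022685796627120027336704) (nat_lit 768857338113641837039212080462797191045142119083824719636895895063670586286859738928072807937250906219394909186844528306256620130688462558693653210701452279808) (nat_lit 768857338113641837039212080462797191045142119083824719636895895063670586286859738928072807937250906219394909186844528306256620130688462558693653210701452279808) c41_s3502) (B (K (nat_lit 2079502270752001762064242424960807725827516048677469043429686155012882190638009693656033379242457518153052022685796627120027336704) (nat_lit 589681629070580170867300090853745389676130326384090815809254294307786516684752270110355570186118235523833990489944734655589371793995271940000676392010037701259114315776)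 (nat_lit 589681629070580170867300090853745389676130326384090815809254294307786516684752270110355570186118235523833990489944734655589371793995271940000676392010037701259114315776) c41_s3555) (M (nat_lit 364) (B (M (nat_lit 332) (B (L (nat_lit 461) ln12_10_4 ln12_10_4_ok) (M (nat_lit 300) (B (L (nat_lit 397) ln12_9_4 ln12_9_4_ok) (M (nat_lit 301) (B (L (nat_lit 269) ln12_12_6 ln12_12_6_ok) (L (nat_lit 333) ln12_13_6 ln12_13_6_ok))))))) (B (M (nat_lit 332) (B (L (nat_lit 461) ln12_10_4 ln12_10_4_ok) (M (nat_lit 460) (B (M (nat_lit 333) (B (L (nat_lit 301) ln12_13_6 ln12_13_6_ok) (L (nat_lit 365) ln12_14_6 ln12_14_6_ok))) (M (nat_lit 459) (B (L (nat_lit 427) ln12_10_5 ln12_10_5_ok) (L (nat_lit 491) ln12_11_5 ln12_11_5_ok))))))) (B (M (nat_lit 460) (B (M (nat_lit 459) (B (L (nat_lit 491) ln12_11_5 ln12_11_5_ok) (M (nat_lit 332) (B (L (nat_lit 427) ln12_10_5 ln12_10_5_ok) (L (nat_lit 461)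 ln12_10_4 ln12_10_4_ok))))) (B (M (nat_lit 365) (B (L (nat_lit 333) ln12_14_6 ln12_14_6_ok) (M (nat_lit 492) (B (L (nat_lit 397) ln12_15_6 ln12_15_6_ok) (M (nat_lit 491) (B (L (nat_lit 459) ln12_11_5 ln12_11_5_ok) (L (nat_lit 523) ln12_12_5 ln12_12_5_ok))))))) (M (nat_lit 397) (B (M (nat_lit 332) (B (L (nat_lit 300) ln12_9_4 ln12_9_4_ok) (L (nat_lit 461) ln12_10_4 ln12_10_4_ok))) (M (nat_lit 365) (B (L (nat_lit 333) ln12_14_6 ln12_14_6_ok) (L (nat_lit 492) ln12_15_6 ln12_15_6_ok)))))))) (B (M (nat_lit 460) (B (M (nat_lit 365) (B (L (nat_lit 333) ln12_14_6 ln12_14_6_ok) (M (nat_lit 492) (B (L (nat_lit 397) ln12_15_6 ln12_15_6_ok) (M (nat_lit 491) (B (L (nat_lit 459) ln12_11_5 ln12_11_5_ok) (L (nat_lit 523) ln12_12_5 ln12_12_5_ok))))))) (B (M (nat_lit 459) (B (L (nat_lit 491) ln12_11_5 ln12_11_5_ok) (M (nat_lit 430) (B (L (nat_lit 431) ln15_13_1 ln15_13_1_ok) (M (nat_lit 458) (B (L (nat_lit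 427) ln14_13_1 ln14_13_1_ok) (L (nat_lit 457) ln9_14_2 ln9_14_2_ok))))))) (M (nat_lit 365) (B (L (nat_lit 333) ln12_14_6 ln12_14_6_ok) (M (nat_lit 397) (B (L (nat_lit 492) ln12_15_6 ln12_15_6_ok) (M (nat_lit 363) (B (L (nat_lit 331) ln12_14_7 ln12_14_7_ok) (M (nat_lit 362) (B (L (nat_lit 361) ln9_11_0 ln9_11_0_ok) (L (nat_lit 398) ln10_11_0 ln10_11_0_ok)))))))))))) (M (nat_lit 332) (B (L (nat_lit 461) ln12_10_4 ln12_10_4_ok) (M (nat_lit 397) (B (L (nat_lit 300) ln12_9_4 ln12_9_4_ok) (M (nat_lit 427) (B (L (nat_lit 459) ln12_10_5 ln12_10_5_ok) (M (nat_lit 398) (B (L (nat_lit 399) ln15_12_1 ln15_12_1_ok) (L (nat_lit 426) ln10_13_2 ln10_13_2_ok))))))))))))))))))))))))))))) (nat_lit 1386334847221798047169638878925036799968406779833514899637066259859226863686603287896039777716422623628704219945445734162783797248) (nat_lit 2026130649693226624304583733053375692589802956242530114307036145940201892381940058805515277061985796691057845195662689026491056780355783822174373731852200404945528426246545866752)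 (nat_lit 2026130649693226624304583733053375692589802956242530114307036145940201892381940058805515277061985796691057845195662689026491056780355783822174373731852200404945528426246545866752) (by decide +kernel)
theorem c41_s3594 : Sem (nat_lit 2079502270752001762064242424960807725827516048677469043429686155012882190638009693656033379242457518153052022685796627120027336704) (nat_lit 2026130649693226623645563157575347032939076399333669943144154185618032065855909948871868022224770889348763700810060723148602983002230766908471290102849206578503584942329153191936) (nat_lit 2026130649693226623645563157575347032939076399333669943144154185618032065855909948871868022224770889348763700810060723148602983002230766908471290102849206578503584942329153191936) :=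
  sem_of_chk (M (nat_lit 430) (B (M (nat_lit 461) (B (M (nat_lit 364) (B (L (nat_lit 332) ln12_10_4 ln12_10_4_ok) (M (nat_lit 493) (B (L (nat_lit 460) ln12_11_4 ln12_11_4_ok) (L (nat_lit 525) ln13_16_7 ln13_16_7_ok))))) (B (M (nat_lit 460) (B (M (nat_lit 493) (B (L (nat_lit 364) ln12_11_4 ln12_11_4_ok) (L (nat_lit 525) ln13_16_7 ln13_16_7_ok))) (M (nat_lit 459) (B (L (nat_lit 431) ln15_13_1 ln15_13_1_ok) (L (nat_lit 458) ln10_14_2 ln10_14_2_ok))))) (B (M (nat_lit 427) (B (M (nat_lit 462) (B (L (nat_lit 426) ln10_13_0 ln10_13_0_ok) (L (nat_lit 463) ln11_13_0 ln11_13_0_ok))) (M (nat_lit 431) (B (M (nat_lit 399) (B (L (nat_lit 398) ln11_13_2 ln11_13_2_ok) (L (nat_lit 400) ln12_13_2 ln12_13_2_ok))) (M (nat_lit 459) (B (L (nat_lit 458) ln14_13_1 ln14_13_1_ok) (L (nat_lit 460) ln15_13_1 ln15_13_1_ok))))))) (M (nat_lit 398) (B (M (nat_lit 493) (B (L (nat_lit 525) ln13_16_7 ln13_16_7_ok) (M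 (nat_lit 366) (B (L (nat_lit 334) ln14_10_5 ln14_10_5_ok) (L (nat_lit 462) ln14_11_5 ln14_11_5_ok))))) (M (nat_lit 399) (B (L (nat_lit 427) ln11_13_2 ln11_13_2_ok) (M (nat_lit 400) (B (L (nat_lit 401) ln17_12_1 ln17_12_1_ok) (L (nat_lit 431) ln12_13_2 ln12_13_2_ok))))))))))) (B (M (nat_lit 427) (B (M (nat_lit 426) (B (M (nat_lit 458) (B (L (nat_lit 457) ln13_13_1 ln13_13_1_ok) (L (nat_lit 459) ln14_13_1 ln14_13_1_ok))) (M (nat_lit 462) (B (L (nat_lit 461) ln10_13_0 ln10_13_0_ok) (L (nat_lit 463) ln11_13_0 ln11_13_0_ok))))) (B (M (nat_lit 431) (B (M (nat_lit 399) (B (L (nat_lit 398) ln11_13_2 ln11_13_2_ok) (L (nat_lit 400) ln12_13_2 ln12_13_2_ok))) (M (nat_lit 463) (B (L (nat_lit 462) ln11_13_0 ln11_13_0_ok) (L (nat_lit 464) ln12_13_0 ln12_13_0_ok))))) (M (nat_lit 431) (B (M (nat_lit 399) (B (L (nat_lit 398) ln11_13_2 ln11_13_2_ok) (L (nat_lit 400) ln12_13_2 ln12_13_2_ok))) (M (nat_lit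 459) (B (L (nat_lit 458) ln14_13_1 ln14_13_1_ok) (L (nat_lit 460) ln15_13_1 ln15_13_1_ok)))))))) (B (M (nat_lit 427) (B (M (nat_lit 426) (B (M (nat_lit 458) (B (L (nat_lit 457) ln13_13_1 ln13_13_1_ok) (L (nat_lit 459) ln14_13_1 ln14_13_1_ok))) (M (nat_lit 462) (B (L (nat_lit 461) ln10_13_0 ln10_13_0_ok) (L (nat_lit 463) ln11_13_0 ln11_13_0_ok))))) (B (M (nat_lit 459) (B (L (nat_lit 458) ln14_13_1 ln14_13_1_ok) (M (nat_lit 364) (B (L (nat_lit 332) ln12_10_5 ln12_10_5_ok) (M (nat_lit 491) (B (L (nat_lit 460) ln12_11_5 ln12_11_5_ok) (L (nat_lit 523) ln11_16_6 ln11_16_6_ok))))))) (M (nat_lit 461) (B (M (nat_lit 462) (B (L (nat_lit 426) ln10_13_0 ln10_13_0_ok) (L (nat_lit 463) ln11_13_0 ln11_13_0_ok))) (M (nat_lit 364) (B (L (nat_lit 332) ln12_10_4 ln12_10_4_ok) (M (nat_lit 493) (B (L (nat_lit 460) ln12_11_4 ln12_11_4_ok) (L (nat_lit 525) ln13_16_7 ln13_16_7_ok)))))))))) (B (M (nat_lit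 431) (B (M (nat_lit 427) (B (M (nat_lit 459) (B (L (nat_lit 458) ln14_13_1 ln14_13_1_ok) (L (nat_lit 460) ln15_13_1 ln15_13_1_ok))) (M (nat_lit 463) (B (L (nat_lit 462) ln11_13_0 ln11_13_0_ok) (L (nat_lit 464) ln12_13_0 ln12_13_0_ok))))) (B (M (nat_lit 432) (B (M (nat_lit 400) (B (L (nat_lit 399) ln12_13_2 ln12_13_2_ok) (L (nat_lit 401) ln13_13_2 ln13_13_2_ok))) (M (nat_lit 460) (B (L (nat_lit 459) ln15_13_1 ln15_13_1_ok) (L (nat_lit 461) ln16_13_1 ln16_13_1_ok))))) (M (nat_lit 427) (B (M (nat_lit 399) (B (L (nat_lit 398) ln11_13_2 ln11_13_2_ok) (L (nat_lit 400) ln12_13_2 ln12_13_2_ok))) (M (nat_lit 463) (B (L (nat_lit 462) ln11_13_0 ln11_13_0_ok) (L (nat_lit 464) ln12_13_0 ln12_13_0_ok)))))))) (B (M (nat_lit 460) (B (M (nat_lit 431) (B (L (nat_lit 459) ln15_13_1 ln15_13_1_ok) (M (nat_lit 432) (B (L (nat_lit 461) ln16_13_1 ln16_13_1_ok) (M (nat_lit 400) (B (L (nat_lit 399) ln12_13_2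 ln12_13_2_ok) (L (nat_lit 401) ln13_13_2 ln13_13_2_ok))))))) (B (M (nat_lit 461) (B (M (nat_lit 364) (B (L (nat_lit 332) ln12_10_4 ln12_10_4_ok) (L (nat_lit 493) ln12_11_4 ln12_11_4_ok))) (M (nat_lit 431) (B (L (nat_lit 459) ln15_13_1 ln15_13_1_ok) (L (nat_lit 432) ln16_13_1 ln16_13_1_ok))))) (B (M (nat_lit 364) (B (M (nat_lit 461) (B (L (nat_lit 332) ln12_10_4 ln12_10_4_ok) (L (nat_lit 493) ln12_11_4 ln12_11_4_ok))) (B (M (nat_lit 459) (B (L (nat_lit 491) ln12_11_5 ln12_11_5_ok) (M (nat_lit 461) (B (L (nat_lit 493) ln12_11_4 ln12_11_4_ok) (L (nat_lit 458) ln10_14_2 ln10_14_2_ok))))) (M (nat_lit 332) (B (M (nat_lit 331) (B (L (nat_lit 299) ln12_13_7 ln12_13_7_ok) (L (nat_lit 363) ln12_14_7 ln12_14_7_ok))) (M (nat_lit 333) (B (L (nat_lit 301) ln12_13_6 ln12_13_6_ok) (L (nat_lit 365) ln12_14_6 ln12_14_6_ok)))))))) (B (M (nat_lit 492) (B (M (nat_lit 525) (B (L (nat_lit 493) ln12_12_4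 ln12_12_4_ok) (M (nat_lit 524) (B (L (nat_lit 557) ln12_13_4 ln12_13_4_ok) (M (nat_lit 523) (B (L (nat_lit 491) ln12_12_5 ln12_12_5_ok) (L (nat_lit 555) ln12_13_5 ln12_13_5_ok))))))) (B (M (nat_lit 364) (B (M (nat_lit 461) (B (L (nat_lit 332) ln12_10_4 ln12_10_4_ok) (L (nat_lit 493) ln12_11_4 ln12_11_4_ok))) (B (M (nat_lit 493) (B (L (nat_lit 461) ln12_11_4 ln12_11_4_ok) (L (nat_lit 525) ln12_12_4 ln12_12_4_ok))) (M (nat_lit 332) (B (M (nat_lit 331) (B (L (nat_lit 299) ln12_13_7 ln12_13_7_ok) (L (nat_lit 363) ln12_14_7 ln12_14_7_ok))) (M (nat_lit 333) (B (L (nat_lit 301) ln12_13_6 ln12_13_6_ok) (L (nat_lit 365) ln12_14_6 ln12_14_6_ok)))))))) (B (M (nat_lit 524) (B (M (nat_lit 523) (B (L (nat_lit 491) ln12_12_5 ln12_12_5_ok) (L (nat_lit 555) ln12_13_5 ln12_13_5_ok))) (M (nat_lit 556) (B (L (nat_lit 461) ln12_17_6 ln12_17_6_ok) (M (nat_lit 557) (B (L (nat_lit 525) ln12_13_4 ln12_13_4_ok)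 (L (nat_lit 589) ln12_14_4 ln12_14_4_ok))))))) (M (nat_lit 461) (B (M (nat_lit 364) (B (L (nat_lit 332) ln12_10_4 ln12_10_4_ok) (L (nat_lit 493) ln12_11_4 ln12_11_4_ok))) (M (nat_lit 524) (B (L (nat_lit 556) ln12_17_6 ln12_17_6_ok) (M (nat_lit 523) (B (L (nat_lit 491) ln12_12_5 ln12_12_5_ok) (L (nat_lit 555) ln12_13_5 ln12_13_5_ok))))))))))) (M (nat_lit 459) (B (L (nat_lit 431) ln15_13_1 ln15_13_1_ok) (M (nat_lit 491) (B (L (nat_lit 364) ln12_11_5 ln12_11_5_ok) (M (nat_lit 523) (B (L (nat_lit 492) ln12_12_5 ln12_12_5_ok) (L (nat_lit 555) ln11_17_6 ln11_17_6_ok)))))))))))) (B (M (nat_lit 461) (B (M (nat_lit 364) (B (L (nat_lit 332) ln12_10_4 ln12_10_4_ok) (M (nat_lit 493) (B (L (nat_lit 460) ln12_11_4 ln12_11_4_ok) (L (nat_lit 525) ln13_16_7 ln13_16_7_ok))))) (B (M (nat_lit 460) (B (M (nat_lit 493) (B (L (nat_lit 364) ln12_11_4 ln12_11_4_ok) (L (nat_lit 525) ln13_16_7 ln13_16_7_ok)))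 (M (nat_lit 431) (B (L (nat_lit 459) ln15_13_1 ln15_13_1_ok) (L (nat_lit 432) ln16_13_1 ln16_13_1_ok))))) (B (M (nat_lit 398) (B (M (nat_lit 493) (B (L (nat_lit 525) ln13_16_7 ln13_16_7_ok) (M (nat_lit 366) (B (L (nat_lit 334) ln14_10_5 ln14_10_5_ok) (L (nat_lit 462) ln14_11_5 ln14_11_5_ok))))) (M (nat_lit 399) (B (L (nat_lit 427) ln11_13_2 ln11_13_2_ok) (M (nat_lit 400) (B (L (nat_lit 401) ln17_12_1 ln17_12_1_ok) (L (nat_lit 431) ln12_13_2 ln12_13_2_ok))))))) (M (nat_lit 427) (B (M (nat_lit 462) (B (L (nat_lit 426) ln10_13_0 ln10_13_0_ok) (L (nat_lit 463) ln11_13_0 ln11_13_0_ok))) (M (nat_lit 431) (B (M (nat_lit 399) (B (L (nat_lit 398) ln11_13_2 ln11_13_2_ok) (L (nat_lit 400) ln12_13_2 ln12_13_2_ok))) (M (nat_lit 460) (B (L (nat_lit 459) ln15_13_1 ln15_13_1_ok) (L (nat_lit 432) ln16_13_1 ln16_13_1_ok))))))))))) (B (M (nat_lit 461) (B (M (nat_lit 364) (B (L (nat_lit 332) ln12_10_4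 ln12_10_4_ok) (M (nat_lit 493) (B (L (nat_lit 460) ln12_11_4 ln12_11_4_ok) (L (nat_lit 525) ln13_16_7 ln13_16_7_ok))))) (B (M (nat_lit 398) (B (M (nat_lit 427) (B (L (nat_lit 399) ln11_13_2 ln11_13_2_ok) (M (nat_lit 462) (B (L (nat_lit 426) ln10_13_0 ln10_13_0_ok) (L (nat_lit 463) ln11_13_0 ln11_13_0_ok))))) (B (M (nat_lit 493) (B (L (nat_lit 525) ln13_16_7 ln13_16_7_ok) (M (nat_lit 366) (B (L (nat_lit 334) ln14_10_5 ln14_10_5_ok) (L (nat_lit 462) ln14_11_5 ln14_11_5_ok))))) (M (nat_lit 399) (B (L (nat_lit 427) ln11_13_2 ln11_13_2_ok) (M (nat_lit 400) (B (L (nat_lit 401) ln17_12_1 ln17_12_1_ok) (L (nat_lit 431) ln12_13_2 ln12_13_2_ok)))))))) (M (nat_lit 431) (B (M (nat_lit 400) (B (L (nat_lit 399) ln12_13_2 ln12_13_2_ok) (M (nat_lit 432) (B (L (nat_lit 401) ln13_13_2 ln13_13_2_ok) (L (nat_lit 460) ln16_13_1 ln16_13_1_ok))))) (B (M (nat_lit 462) (B (M (nat_lit 427) (B (L (nat_lit 426)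 ln10_13_0 ln10_13_0_ok) (L (nat_lit 463) ln11_13_0 ln11_13_0_ok))) (M (nat_lit 432) (B (L (nat_lit 460) ln16_13_1 ln16_13_1_ok) (L (nat_lit 433) ln17_13_1 ln17_13_1_ok))))) (M (nat_lit 427) (B (M (nat_lit 399) (B (L (nat_lit 398) ln11_13_2 ln11_13_2_ok) (L (nat_lit 400) ln12_13_2 ln12_13_2_ok))) (M (nat_lit 463) (B (L (nat_lit 462) ln11_13_0 ln11_13_0_ok) (L (nat_lit 464) ln12_13_0 ln12_13_0_ok))))))))))) (B (M (nat_lit 364) (B (M (nat_lit 332) (B (L (nat_lit 461) ln12_10_4 ln12_10_4_ok) (M (nat_lit 301) (B (L (nat_lit 333) ln12_13_6 ln12_13_6_ok) (M (nat_lit 300) (B (L (nat_lit 269) ln12_12_6 ln12_12_6_ok) (M (nat_lit 299) (B (L (nat_lit 267) ln12_12_7 ln12_12_7_ok) (L (nat_lit 331) ln12_13_7 ln12_13_7_ok))))))))) (B (M (nat_lit 427) (B (M (nat_lit 332) (B (L (nat_lit 459) ln12_10_5 ln12_10_5_ok) (L (nat_lit 461) ln12_10_4 ln12_10_4_ok))) (M (nat_lit 431) (B (M (nat_lit 399) (B (L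 (nat_lit 398) ln11_13_2 ln11_13_2_ok) (L (nat_lit 400) ln12_13_2 ln12_13_2_ok))) (M (nat_lit 463) (B (L (nat_lit 462) ln11_13_0 ln11_13_0_ok) (L (nat_lit 464) ln12_13_0 ln12_13_0_ok))))))) (B (M (nat_lit 399) (B (M (nat_lit 398) (B (L (nat_lit 427) ln11_13_2 ln11_13_2_ok) (M (nat_lit 400) (B (L (nat_lit 401) ln17_12_1 ln17_12_1_ok) (L (nat_lit 431) ln12_13_2 ln12_13_2_ok))))) (B (M (nat_lit 431) (B (L (nat_lit 400) ln12_13_2 ln12_13_2_ok) (M (nat_lit 463) (B (L (nat_lit 464) ln12_13_0 ln12_13_0_ok) (M (nat_lit 462) (B (L (nat_lit 427) ln11_13_0 ln11_13_0_ok) (M (nat_lit 367) (B (L (nat_lit 335) ln15_10_5 ln15_10_5_ok) (L (nat_lit 494) ln15_11_5 ln15_11_5_ok))))))))) (B (M (nat_lit 427) (B (L (nat_lit 398) ln11_13_2 ln11_13_2_ok) (M (nat_lit 426) (B (M (nat_lit 458) (B (L (nat_lit 457) ln13_13_1 ln13_13_1_ok) (L (nat_lit 459) ln14_13_1 ln14_13_1_ok))) (M (nat_lit 462) (B (L (nat_lit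 461) ln10_13_0 ln10_13_0_ok) (L (nat_lit 463) ln11_13_0 ln11_13_0_ok))))))) (M (nat_lit 398) (B (M (nat_lit 400) (B (L (nat_lit 401) ln17_12_1 ln17_12_1_ok) (L (nat_lit 431) ln12_13_2 ln12_13_2_ok))) (B (M (nat_lit 462) (B (M (nat_lit 367) (B (L (nat_lit 494) ln14_15_6 ln14_15_6_ok) (M (nat_lit 335) (B (L (nat_lit 303) ln15_9_5 ln15_9_5_ok) (L (nat_lit 366) ln14_14_6 ln14_14_6_ok))))) (B (M (nat_lit 367) (B (L (nat_lit 494) ln14_15_6 ln14_15_6_ok) (M (nat_lit 335) (B (L (nat_lit 366) ln14_14_6 ln14_14_6_ok) (L (nat_lit 431) ln15_10_5 ln15_10_5_ok))))) (B (M (nat_lit 366) (B (M (nat_lit 365) (B (L (nat_lit 333) ln14_14_7 ln14_14_7_ok) (L (nat_lit 363) ln11_11_0 ln11_11_0_ok))) (M (nat_lit 461) (B (L (nat_lit 334) ln14_10_5 ln14_10_5_ok) (L (nat_lit 493) ln14_11_5 ln14_11_5_ok))))) (M (nat_lit 367) (B (L (nat_lit 494) ln14_15_6 ln14_15_6_ok) (M (nat_lit 335) (B (L (nat_lit 303) ln15_9_5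 ln15_9_5_ok) (L (nat_lit 431) ln15_10_5 ln15_10_5_ok))))))))) (M (nat_lit 366) (B (M (nat_lit 365) (B (L (nat_lit 363) ln11_11_0 ln11_11_0_ok) (M (nat_lit 400) (B (L (nat_lit 367) ln12_11_0 ln12_11_0_ok) (L (nat_lit 401) ln17_12_3 ln17_12_3_ok))))) (M (nat_lit 461) (B (L (nat_lit 334) ln14_10_5 ln14_10_5_ok) (M (nat_lit 493) (B (L (nat_lit 462) ln14_11_5 ln14_11_5_ok) (L (nat_lit 525) ln13_16_7 ln13_16_7_ok)))))))))))))) (M (nat_lit 427) (B (M (nat_lit 459) (B (L (nat_lit 332) ln12_10_5 ln12_10_5_ok) (L (nat_lit 458) ln14_13_1 ln14_13_1_ok))) (M (nat_lit 431) (B (M (nat_lit 399) (B (L (nat_lit 398) ln11_13_2 ln11_13_2_ok) (L (nat_lit 400) ln12_13_2 ln12_13_2_ok))) (M (nat_lit 463) (B (L (nat_lit 462) ln11_13_0 ln11_13_0_ok) (L (nat_lit 464) ln12_13_0 ln12_13_0_ok))))))))))) (M (nat_lit 427) (B (M (nat_lit 431) (B (M (nat_lit 399) (B (L (nat_lit 398) ln11_13_2 ln11_13_2_ok) (L (nat_lit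 400) ln12_13_2 ln12_13_2_ok))) (M (nat_lit 459) (B (L (nat_lit 458) ln14_13_1 ln14_13_1_ok) (L (nat_lit 460) ln15_13_1 ln15_13_1_ok))))) (B (M (nat_lit 431) (B (M (nat_lit 459) (B (L (nat_lit 458) ln14_13_1 ln14_13_1_ok) (L (nat_lit 460) ln15_13_1 ln15_13_1_ok))) (M (nat_lit 463) (B (L (nat_lit 462) ln11_13_0 ln11_13_0_ok) (L (nat_lit 464) ln12_13_0 ln12_13_0_ok))))) (B (M (nat_lit 459) (B (L (nat_lit 458) ln14_13_1 ln14_13_1_ok) (M (nat_lit 364) (B (L (nat_lit 332) ln12_10_5 ln12_10_5_ok) (M (nat_lit 491) (B (L (nat_lit 460) ln12_11_5 ln12_11_5_ok) (L (nat_lit 523) ln11_16_6 ln11_16_6_ok))))))) (M (nat_lit 431) (B (M (nat_lit 399) (B (L (nat_lit 398) ln11_13_2 ln11_13_2_ok) (L (nat_lit 400) ln12_13_2 ln12_13_2_ok))) (M (nat_lit 463) (B (L (nat_lit 462) ln11_13_0 ln11_13_0_ok) (L (nat_lit 464) ln12_13_0 ln12_13_0_ok)))))))))))))))))) (nat_lit 2079502270752001762064242424960807725827516048677469043429686155012882190638009693656033379242457518153052022685796627120027336704)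 (nat_lit 2026130649693226623645563157575347032939076399333669943144154185618032065855909948871868022224770889348763700810060723148602983002230766908471290102849206578503584942329153191936) (nat_lit 2026130649693226623645563157575347032939076399333669943144154185618032065855909948871868022224770889348763700810060723148602983002230766908471290102849206578503584942329153191936) (by decide +kernel)
noncomputable def c41_n3626 : Cert := (M (nat_lit 430) (B (M (nat_lit 395) (B (L (nat_lit 431) ln15_13_3 ln15_13_3_ok) (M (nat_lit 394) (B (L (nat_lit 393) ln9_12_0 ln9_12_0_ok) (L (nat_lit 427) ln14_13_3 ln14_13_3_ok))))) (B (M (nat_lit 431) (B (L (nat_lit 395) ln15_13_3 ln15_13_3_ok) (M (nat_lit 427) (B (M (nat_lit 399) (B (L (nat_lit 398) ln11_13_2 ln11_13_2_ok) (L (nat_lit 400) ln12_13_2 ln12_13_2_ok))) (M (nat_lit 463) (B (L (nat_lit 462) ln11_13_0 ln11_13_0_ok) (L (nat_lit 464) ln12_13_0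 ln12_13_0_ok))))))) (B (M (nat_lit 461) (B (M (nat_lit 364) (B (L (nat_lit 332) ln12_10_4 ln12_10_4_ok) (M (nat_lit 493) (B (L (nat_lit 460) ln12_11_4 ln12_11_4_ok) (L (nat_lit 525) ln13_16_7 ln13_16_7_ok))))) (B (M (nat_lit 460) (B (M (nat_lit 493) (B (L (nat_lit 364) ln12_11_4 ln12_11_4_ok) (L (nat_lit 525) ln13_16_7 ln13_16_7_ok))) (M (nat_lit 431) (B (L (nat_lit 459) ln15_13_1 ln15_13_1_ok) (L (nat_lit 432) ln16_13_1 ln16_13_1_ok))))) (B (M (nat_lit 431) (B (M (nat_lit 460) (B (L (nat_lit 459) ln15_13_1 ln15_13_1_ok) (L (nat_lit 432) ln16_13_1 ln16_13_1_ok))) (M (nat_lit 427) (B (M (nat_lit 399) (B (L (nat_lit 398) ln11_13_2 ln11_13_2_ok) (L (nat_lit 400) ln12_13_2 ln12_13_2_ok))) (M (nat_lit 463) (B (L (nat_lit 462) ln11_13_0 ln11_13_0_ok) (L (nat_lit 464) ln12_13_0 ln12_13_0_ok))))))) (M (nat_lit 398) (B (M (nat_lit 493) (B (L (nat_lit 525) ln13_16_7 ln13_16_7_ok) (M (nat_lit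 366) (B (L (nat_lit 334) ln14_10_5 ln14_10_5_ok) (L (nat_lit 462) ln14_11_5 ln14_11_5_ok))))) (M (nat_lit 399) (B (L (nat_lit 427) ln11_13_2 ln11_13_2_ok) (M (nat_lit 400) (B (L (nat_lit 401) ln17_12_1 ln17_12_1_ok) (L (nat_lit 431) ln12_13_2 ln12_13_2_ok))))))))))) (B (M (nat_lit 431) (B (L (nat_lit 395) ln15_13_3 ln15_13_3_ok) (M (nat_lit 432) (B (M (nat_lit 400) (B (L (nat_lit 399) ln12_13_2 ln12_13_2_ok) (L (nat_lit 401) ln13_13_2 ln13_13_2_ok))) (M (nat_lit 460) (B (L (nat_lit 459) ln15_13_1 ln15_13_1_ok) (L (nat_lit 461) ln16_13_1 ln16_13_1_ok))))))) (M (nat_lit 364) (B (M (nat_lit 461) (B (L (nat_lit 332) ln12_10_4 ln12_10_4_ok) (M (nat_lit 493) (B (L (nat_lit 460) ln12_11_4 ln12_11_4_ok) (L (nat_lit 525) ln13_16_7 ln13_16_7_ok))))) (B (M (nat_lit 460) (B (M (nat_lit 459) (B (L (nat_lit 491) ln12_11_5 ln12_11_5_ok) (M (nat_lit 461) (B (L (nat_lit 493) ln12_11_4 ln12_11_4_ok)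 (L (nat_lit 458) ln10_14_2 ln10_14_2_ok))))) (M (nat_lit 395) (B (M (nat_lit 363) (B (L (nat_lit 331) ln12_14_7 ln12_14_7_ok) (L (nat_lit 492) ln12_15_7 ln12_15_7_ok))) (M (nat_lit 394) (B (L (nat_lit 393) ln9_12_0 ln9_12_0_ok) (L (nat_lit 427) ln14_13_3 ln14_13_3_ok))))))) (B (M (nat_lit 332) (B (L (nat_lit 461) ln12_10_4 ln12_10_4_ok) (M (nat_lit 427) (B (L (nat_lit 459) ln12_10_5 ln12_10_5_ok) (M (nat_lit 395) (B (L (nat_lit 300) ln12_9_5 ln12_9_5_ok) (L (nat_lit 394) ln14_13_3 ln14_13_3_ok))))))) (M (nat_lit 460) (B (M (nat_lit 459) (B (L (nat_lit 491) ln12_11_5 ln12_11_5_ok) (M (nat_lit 427) (B (L (nat_lit 332) ln12_10_5 ln12_10_5_ok) (L (nat_lit 458) ln14_13_1 ln14_13_1_ok))))) (B (M (nat_lit 395) (B (M (nat_lit 363) (B (L (nat_lit 331) ln12_14_7 ln12_14_7_ok) (L (nat_lit 492) ln12_15_7 ln12_15_7_ok))) (M (nat_lit 394) (B (L (nat_lit 393) ln9_12_0 ln9_12_0_ok) (L (nat_lit 427)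 ln14_13_3 ln14_13_3_ok))))) (M (nat_lit 332) (B (M (nat_lit 331) (B (L (nat_lit 299) ln12_13_7 ln12_13_7_ok) (L (nat_lit 363) ln12_14_7 ln12_14_7_ok))) (M (nat_lit 333) (B (L (nat_lit 301) ln12_13_6 ln12_13_6_ok) (L (nat_lit 365) ln12_14_6 ln12_14_6_ok)))))))))))))))))
noncomputable def c41_n3735 : Cert := (M (nat_lit 333) (B (M (nat_lit 365) (B (L (nat_lit 460) ln12_14_6 ln12_14_6_ok) (M (nat_lit 301) (B (L (nat_lit 269) ln13_8_5 ln13_8_5_ok) (L (nat_lit 332) ln12_13_6 ln12_13_6_ok))))) (B (M (nat_lit 331) (B (M (nat_lit 332) (B (L (nat_lit 299) ln12_13_7 ln12_13_7_ok) (L (nat_lit 301) ln12_13_6 ln12_13_6_ok))) (M (nat_lit 460) (B (L (nat_lit 363) ln12_14_7 ln12_14_7_ok) (L (nat_lit 365) ln12_14_6 ln12_14_6_ok))))) (B (M (nat_lit 460) (B (L (nat_lit 365) ln12_14_6 ln12_14_6_ok) (M (nat_lit 492) (B (M (nat_lit 363) (B (L (nat_lit 331) ln12_14_7 ln12_14_7_ok) (L (nat_lit 395) ln12_15_7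 ln12_15_7_ok))) (M (nat_lit 491) (B (L (nat_lit 459) ln12_11_5 ln12_11_5_ok) (L (nat_lit 523) ln12_12_5 ln12_12_5_ok))))))) (B (M (nat_lit 332) (B (L (nat_lit 301) ln12_13_6 ln12_13_6_ok) (M (nat_lit 331) (B (L (nat_lit 299) ln12_13_7 ln12_13_7_ok) (M (nat_lit 363) (B (L (nat_lit 460) ln12_14_7 ln12_14_7_ok) (M (nat_lit 334) (B (L (nat_lit 362) ln14_10_1 ln14_10_1_ok) (L (nat_lit 335) ln15_10_1 ln15_10_1_ok))))))))) (M (nat_lit 365) (B (M (nat_lit 301) (B (L (nat_lit 269) ln13_8_5 ln13_8_5_ok) (L (nat_lit 332) ln12_13_6 ln12_13_6_ok))) (B (M (nat_lit 332) (B (L (nat_lit 301) ln12_13_6 ln12_13_6_ok) (M (nat_lit 331) (B (L (nat_lit 299) ln12_13_7 ln12_13_7_ok) (M (nat_lit 366) (B (L (nat_lit 330) ln10_10_0 ln10_10_0_ok) (L (nat_lit 367) ln15_11_3 ln15_11_3_ok))))))) (B (M (nat_lit 366) (B (M (nat_lit 395) (B (L (nat_lit 367) ln15_11_1 ln15_11_1_ok) (M (nat_lit 394) (B (L (nat_lit 363)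 ln14_11_1 ln14_11_1_ok) (L (nat_lit 393) ln9_12_2 ln9_12_2_ok))))) (B (M (nat_lit 367) (B (L (nat_lit 395) ln15_11_1 ln15_11_1_ok) (M (nat_lit 332) (B (L (nat_lit 331) ln15_11_3 ln15_11_3_ok) (L (nat_lit 368) ln16_11_3 ln16_11_3_ok))))) (B (M (nat_lit 363) (B (M (nat_lit 334) (B (L (nat_lit 362) ln10_11_2 ln10_11_2_ok) (L (nat_lit 335) ln11_11_2 ln11_11_2_ok))) (M (nat_lit 395) (B (L (nat_lit 394) ln14_11_1 ln14_11_1_ok) (M (nat_lit 331) (B (L (nat_lit 299) ln11_9_4 ln11_9_4_ok) (L (nat_lit 330) ln14_11_3 ln14_11_3_ok))))))) (M (nat_lit 399) (B (M (nat_lit 363) (B (L (nat_lit 398) ln11_11_0 ln11_11_0_ok) (M (nat_lit 334) (B (L (nat_lit 362) ln10_11_2 ln10_11_2_ok) (L (nat_lit 335) ln11_11_2 ln11_11_2_ok))))) (M (nat_lit 367) (B (L (nat_lit 400) ln12_11_0 ln12_11_0_ok) (M (nat_lit 332) (B (L (nat_lit 331) ln15_11_3 ln15_11_3_ok) (L (nat_lit 368) ln16_11_3 ln16_11_3_ok))))))))))) (M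 (nat_lit 366) (B (M (nat_lit 395) (B (L (nat_lit 367) ln15_11_1 ln15_11_1_ok) (M (nat_lit 394) (B (L (nat_lit 363) ln14_11_1 ln14_11_1_ok) (L (nat_lit 393) ln9_12_2 ln9_12_2_ok))))) (B (M (nat_lit 301) (B (L (nat_lit 269) ln13_8_5 ln13_8_5_ok) (M (nat_lit 430) (B (M (nat_lit 398) (B (L (nat_lit 334) ln14_13_7 ln14_13_7_ok) (L (nat_lit 462) ln14_14_7 ln14_14_7_ok))) (M (nat_lit 395) (B (L (nat_lit 367) ln15_11_1 ln15_11_1_ok) (L (nat_lit 431) ln15_13_3 ln15_13_3_ok))))))) (B (M (nat_lit 430) (B (M (nat_lit 395) (B (L (nat_lit 431) ln15_13_3 ln15_13_3_ok) (M (nat_lit 394) (B (L (nat_lit 363) ln14_11_1 ln14_11_1_ok) (L (nat_lit 393) ln9_12_2 ln9_12_2_ok))))) (M (nat_lit 398) (B (L (nat_lit 462) ln14_14_7 ln14_14_7_ok) (M (nat_lit 301) (B (L (nat_lit 269) ln13_8_5 ln13_8_5_ok) (L (nat_lit 334) ln14_13_7 ln14_13_7_ok))))))) (M (nat_lit 398) (B (M (nat_lit 363) (B (L (nat_lit 399) ln11_11_0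 ln11_11_0_ok) (M (nat_lit 334) (B (L (nat_lit 362) ln10_11_2 ln10_11_2_ok) (L (nat_lit 335) ln11_11_2 ln11_11_2_ok))))) (B (M (nat_lit 399) (B (L (nat_lit 363) ln11_11_0 ln11_11_0_ok) (M (nat_lit 400) (B (L (nat_lit 367) ln12_11_0 ln12_11_0_ok) (L (nat_lit 401) ln17_12_3 ln17_12_3_ok))))) (M (nat_lit 430) (B (L (nat_lit 462) ln14_14_7 ln14_14_7_ok) (M (nat_lit 301) (B (L (nat_lit 269) ln13_8_5 ln13_8_5_ok) (L (nat_lit 334) ln14_13_7 ln14_13_7_ok)))))))))))))))))))))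
theorem c41_s3736 : Sem (nat_lit 2079502270752001762064242424960807725827516048677469043429686155012882190638009693656033379242457518153052022685796627120027336704) (nat_lit 137295953247365581540040849083072196457488371532636914308978947116561798333782134669638927939575512624051623259334164365946918910220610800889334923385836142592) (nat_lit 137295953247365581540040849083072196457488371532636914308978947116561798333782134669638927939575512624051623259334164365946918910220610800889334923385836142592) :=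
  sem_of_chk (M (nat_lit 364) (B (M (nat_lit 461) (B (L (nat_lit 332) ln12_10_4 ln12_10_4_ok) (M (nat_lit 493) (B (L (nat_lit 460) ln12_11_4 ln12_11_4_ok) (L (nat_lit 525) ln13_16_7 ln13_16_7_ok))))) (B (M (nat_lit 460) (B (M (nat_lit 461) (B (L (nat_lit 493) ln12_11_4 ln12_11_4_ok) (M (nat_lit 459) (B (L (nat_lit 491) ln12_11_5 ln12_11_5_ok) (M (nat_lit 430) (B (L (nat_lit 431) ln15_13_1 ln15_13_1_ok) (L (nat_lit 458) ln10_14_2 ln10_14_2_ok))))))) (B (M (nat_lit 492) (B (M (nat_lit 363) (B (L (nat_lit 331) ln12_14_7 ln12_14_7_ok) (L (nat_lit 395) ln12_15_7 ln12_15_7_ok))) (M (nat_lit 493) (B (L (nat_lit 461) ln12_11_4 ln12_11_4_ok) (L (nat_lit 525) ln12_12_4 ln12_12_4_ok))))) (M (nat_lit 492) (B (M (nat_lit 363) (B (L (nat_lit 331) ln12_14_7 ln12_14_7_ok) (L (nat_lit 395) ln12_15_7 ln12_15_7_ok))) (M (nat_lit 491) (B (L (nat_lit 459) ln12_11_5 ln12_11_5_ok) (L (nat_lit 523) ln12_12_5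 ln12_12_5_ok)))))))) (B (M (nat_lit 332) (B (L (nat_lit 461) ln12_10_4 ln12_10_4_ok) (M (nat_lit 300) (B (M (nat_lit 299) (B (L (nat_lit 267) ln12_12_7 ln12_12_7_ok) (L (nat_lit 331) ln12_13_7 ln12_13_7_ok))) (M (nat_lit 301) (B (L (nat_lit 269) ln12_12_6 ln12_12_6_ok) (L (nat_lit 333) ln12_13_6 ln12_13_6_ok))))))) c41_n3735)))) (nat_lit 2079502270752001762064242424960807725827516048677469043429686155012882190638009693656033379242457518153052022685796627120027336704) (nat_lit 137295953247365581540040849083072196457488371532636914308978947116561798333782134669638927939575512624051623259334164365946918910220610800889334923385836142592) (nat_lit 137295953247365581540040849083072196457488371532636914308978947116561798333782134669638927939575512624051623259334164365946918910220610800889334923385836142592) (by decide +kernel)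
theorem c41_s3884 : Sem (nat_lit 4852171964953511930332872502530638903389047245126088924626078970403461603335530554884034072678773513540447540879572173073149853696) (nat_lit 137295953247365581563113617539313808068483348272590215700540574045407988881326994927917831990277643889751480919676669113749705166443796586239685297360521396224) (nat_lit 137295953247365581563113617539313808068483348272590215700540574045407988881326994927917831990277643889751480919676669113749705166443796586239685297360521396224) :=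
  sem_of_chk (M (nat_lit 398) (B (M (nat_lit 427) (B (L (nat_lit 399) ln11_13_2 ln11_13_2_ok) (M (nat_lit 462) (B (L (nat_lit 463) ln11_13_0 ln11_13_0_ok) (M (nat_lit 461) (B (L (nat_lit 426) ln10_13_0 ln10_13_0_ok) (M (nat_lit 366) (B (L (nat_lit 334) ln14_10_5 ln14_10_5_ok) (L (nat_lit 493) ln14_11_5 ln14_11_5_ok))))))))) (B (M (nat_lit 461) (B (M (nat_lit 427) (B (L (nat_lit 399) ln11_13_2 ln11_13_2_ok) (M (nat_lit 462) (B (L (nat_lit 426) ln10_13_0 ln10_13_0_ok) (L (nat_lit 463) ln11_13_0 ln11_13_0_ok))))) (M (nat_lit 493) (B (L (nat_lit 525) ln13_16_7 ln13_16_7_ok) (M (nat_lit 364) (B (L (nat_lit 332) ln12_10_4 ln12_10_4_ok) (L (nat_lit 460) ln12_11_4 ln12_11_4_ok))))))) (B (M (nat_lit 460) (B (M (nat_lit 363) (B (L (nat_lit 492) ln12_15_7 ln12_15_7_ok) (M (nat_lit 331) (B (L (nat_lit 299) ln11_9_4 ln11_9_4_ok) (L (nat_lit 427) ln11_10_4 ln11_10_4_ok))))) (B (M (nat_lit 363) (B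 (L (nat_lit 492) ln12_15_7 ln12_15_7_ok) (M (nat_lit 331) (B (L (nat_lit 364) ln12_14_7 ln12_14_7_ok) (L (nat_lit 427) ln11_10_4 ln11_10_4_ok))))) (B (M (nat_lit 364) (B (M (nat_lit 461) (B (L (nat_lit 332) ln12_10_4 ln12_10_4_ok) (L (nat_lit 493) ln12_11_4 ln12_11_4_ok))) (M (nat_lit 492) (B (L (nat_lit 363) ln12_15_7 ln12_15_7_ok) (M (nat_lit 491) (B (L (nat_lit 459) ln12_11_5 ln12_11_5_ok) (L (nat_lit 523) ln12_12_5 ln12_12_5_ok))))))) (M (nat_lit 364) (B (M (nat_lit 461) (B (L (nat_lit 332) ln12_10_4 ln12_10_4_ok) (L (nat_lit 493) ln12_11_4 ln12_11_4_ok))) (B (M (nat_lit 366) (B (M (nat_lit 461) (B (L (nat_lit 334) ln14_10_5 ln14_10_5_ok) (L (nat_lit 493) ln12_11_4 ln12_11_4_ok))) (M (nat_lit 365) (B (L (nat_lit 333) ln12_14_6 ln12_14_6_ok) (L (nat_lit 367) ln15_11_1 ln15_11_1_ok))))) (M (nat_lit 332) (B (M (nat_lit 333) (B (L (nat_lit 301) ln12_13_6 ln12_13_6_ok) (L (nat_lit 365)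 ln12_14_6 ln12_14_6_ok))) (M (nat_lit 459) (B (L (nat_lit 427) ln12_10_5 ln12_10_5_ok) (L (nat_lit 491) ln12_11_5 ln12_11_5_ok)))))))))))) (B (M (nat_lit 364) (B (M (nat_lit 461) (B (L (nat_lit 332) ln12_10_4 ln12_10_4_ok) (M (nat_lit 493) (B (L (nat_lit 460) ln12_11_4 ln12_11_4_ok) (L (nat_lit 525) ln13_16_7 ln13_16_7_ok))))) (B (M (nat_lit 460) (B (M (nat_lit 492) (B (L (nat_lit 363) ln12_15_7 ln12_15_7_ok) (M (nat_lit 491) (B (L (nat_lit 459) ln12_11_5 ln12_11_5_ok) (L (nat_lit 523) ln12_12_5 ln12_12_5_ok))))) (M (nat_lit 366) (B (M (nat_lit 461) (B (L (nat_lit 334) ln14_10_5 ln14_10_5_ok) (L (nat_lit 493) ln12_11_4 ln12_11_4_ok))) (M (nat_lit 365) (B (L (nat_lit 333) ln12_14_6 ln12_14_6_ok) (L (nat_lit 367) ln15_11_1 ln15_11_1_ok))))))) (B (M (nat_lit 461) (B (L (nat_lit 332) ln12_10_4 ln12_10_4_ok) (M (nat_lit 493) (B (L (nat_lit 525) ln13_16_7 ln13_16_7_ok) (M (nat_lit 366) (B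 (L (nat_lit 334) ln14_10_5 ln14_10_5_ok) (L (nat_lit 462) ln14_11_5 ln14_11_5_ok))))))) (M (nat_lit 365) (B (M (nat_lit 460) (B (L (nat_lit 333) ln12_14_6 ln12_14_6_ok) (M (nat_lit 363) (B (L (nat_lit 331) ln12_14_7 ln12_14_7_ok) (L (nat_lit 492) ln12_15_7 ln12_15_7_ok))))) (B (M (nat_lit 366) (B (L (nat_lit 367) ln15_11_1 ln15_11_1_ok) (M (nat_lit 333) (B (L (nat_lit 460) ln12_14_6 ln12_14_6_ok) (L (nat_lit 462) ln14_14_7 ln14_14_7_ok))))) (B (M (nat_lit 363) (B (M (nat_lit 331) (B (L (nat_lit 299) ln11_9_4 ln11_9_4_ok) (L (nat_lit 460) ln12_14_7 ln12_14_7_ok))) (M (nat_lit 366) (B (L (nat_lit 399) ln11_11_0 ln11_11_0_ok) (L (nat_lit 367) ln15_11_1 ln15_11_1_ok))))) (M (nat_lit 333) (B (M (nat_lit 301) (B (L (nat_lit 269) ln13_8_5 ln13_8_5_ok) (L (nat_lit 332) ln12_13_6 ln12_13_6_ok))) (M (nat_lit 366) (B (L (nat_lit 462) ln14_14_7 ln14_14_7_ok) (L (nat_lit 367) ln15_11_1 ln15_11_1_ok)))))))))))))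 (M (nat_lit 364) (B (M (nat_lit 427) (B (L (nat_lit 399) ln11_13_2 ln11_13_2_ok) (M (nat_lit 332) (B (L (nat_lit 300) ln12_9_5 ln12_9_5_ok) (L (nat_lit 459) ln12_10_5 ln12_10_5_ok))))) (B (M (nat_lit 427) (B (L (nat_lit 399) ln11_13_2 ln11_13_2_ok) (M (nat_lit 459) (B (L (nat_lit 332) ln12_10_5 ln12_10_5_ok) (L (nat_lit 491) ln11_15_6 ln11_15_6_ok))))) (B (M (nat_lit 365) (B (M (nat_lit 366) (B (L (nat_lit 367) ln15_11_1 ln15_11_1_ok) (M (nat_lit 333) (B (L (nat_lit 460) ln12_14_6 ln12_14_6_ok) (L (nat_lit 462) ln14_14_7 ln14_14_7_ok))))) (B (M (nat_lit 366) (B (L (nat_lit 367) ln15_11_1 ln15_11_1_ok) (M (nat_lit 399) (B (L (nat_lit 363) ln11_11_0 ln11_11_0_ok) (L (nat_lit 427) ln11_13_2 ln11_13_2_ok))))) (M (nat_lit 460) (B (L (nat_lit 333) ln12_14_6 ln12_14_6_ok) (M (nat_lit 363) (B (L (nat_lit 331) ln12_14_7 ln12_14_7_ok) (L (nat_lit 492) ln12_15_7 ln12_15_7_ok)))))))) (B (M (nat_lit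 460) (B (M (nat_lit 363) (B (L (nat_lit 331) ln12_14_7 ln12_14_7_ok) (L (nat_lit 492) ln12_15_7 ln12_15_7_ok))) (B (M (nat_lit 492) (B (L (nat_lit 363) ln12_15_7 ln12_15_7_ok) (M (nat_lit 491) (B (L (nat_lit 459) ln12_11_5 ln12_11_5_ok) (L (nat_lit 523) ln12_12_5 ln12_12_5_ok))))) (M (nat_lit 332) (B (M (nat_lit 333) (B (L (nat_lit 301) ln12_13_6 ln12_13_6_ok) (L (nat_lit 365) ln12_14_6 ln12_14_6_ok))) (M (nat_lit 459) (B (L (nat_lit 427) ln12_10_5 ln12_10_5_ok) (L (nat_lit 491) ln12_11_5 ln12_11_5_ok)))))))) (M (nat_lit 365) (B (M (nat_lit 460) (B (L (nat_lit 333) ln12_14_6 ln12_14_6_ok) (M (nat_lit 363) (B (L (nat_lit 331) ln12_14_7 ln12_14_7_ok) (L (nat_lit 492) ln12_15_7 ln12_15_7_ok))))) (B (M (nat_lit 366) (B (L (nat_lit 367) ln15_11_1 ln15_11_1_ok) (M (nat_lit 333) (B (L (nat_lit 460) ln12_14_6 ln12_14_6_ok) (L (nat_lit 462) ln14_14_7 ln14_14_7_ok))))) (B (M (nat_lit 363) (B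 (M (nat_lit 331) (B (L (nat_lit 299) ln11_9_4 ln11_9_4_ok) (L (nat_lit 460) ln12_14_7 ln12_14_7_ok))) (M (nat_lit 366) (B (L (nat_lit 399) ln11_11_0 ln11_11_0_ok) (L (nat_lit 367) ln15_11_1 ln15_11_1_ok))))) (M (nat_lit 333) (B (M (nat_lit 301) (B (L (nat_lit 269) ln13_8_5 ln13_8_5_ok) (L (nat_lit 332) ln12_13_6 ln12_13_6_ok))) (M (nat_lit 366) (B (L (nat_lit 462) ln14_14_7 ln14_14_7_ok) (L (nat_lit 367) ln15_11_1 ln15_11_1_ok))))))))))))))))))) (nat_lit 4852171964953511930332872502530638903389047245126088924626078970403461603335530554884034072678773513540447540879572173073149853696) (nat_lit 137295953247365581563113617539313808068483348272590215700540574045407988881326994927917831990277643889751480919676669113749705166443796586239685297360521396224) (nat_lit 137295953247365581563113617539313808068483348272590215700540574045407988881326994927917831990277643889751480919676669113749705166443796586239685297360521396224)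 (by decide +kernel)
noncomputable def c41_n3930 : Cert := (M (nat_lit 430) (B (M (nat_lit 395) (B (L (nat_lit 431) ln15_13_3 ln15_13_3_ok) (M (nat_lit 394) (B (L (nat_lit 393) ln9_12_0 ln9_12_0_ok) (L (nat_lit 427) ln14_13_3 ln14_13_3_ok))))) (B (M (nat_lit 461) (B (M (nat_lit 364) (B (L (nat_lit 332) ln12_10_4 ln12_10_4_ok) (M (nat_lit 493) (B (L (nat_lit 460) ln12_11_4 ln12_11_4_ok) (L (nat_lit 525) ln13_16_7 ln13_16_7_ok))))) (B (M (nat_lit 431) (B (L (nat_lit 395) ln15_13_3 ln15_13_3_ok) (M (nat_lit 460) (B (L (nat_lit 459) ln15_13_1 ln15_13_1_ok) (L (nat_lit 432) ln16_13_1 ln16_13_1_ok))))) (M (nat_lit 427) (B (M (nat_lit 395) (B (L (nat_lit 394) ln14_13_3 ln14_13_3_ok) (L (nat_lit 431) ln15_13_3 ln15_13_3_ok))) (M (nat_lit 462) (B (L (nat_lit 426) ln10_13_0 ln10_13_0_ok) (L (nat_lit 463) ln11_13_0 ln11_13_0_ok)))))))) (B (M (nat_lit 431) (B (L (nat_lit 395) ln15_13_3 ln15_13_3_ok)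 (M (nat_lit 432) (B (M (nat_lit 400) (B (L (nat_lit 399) ln12_13_2 ln12_13_2_ok) (L (nat_lit 401) ln13_13_2 ln13_13_2_ok))) (M (nat_lit 460) (B (L (nat_lit 459) ln15_13_1 ln15_13_1_ok) (L (nat_lit 461) ln16_13_1 ln16_13_1_ok))))))) (B (M (nat_lit 461) (B (M (nat_lit 364) (B (L (nat_lit 332) ln12_10_4 ln12_10_4_ok) (M (nat_lit 493) (B (L (nat_lit 460) ln12_11_4 ln12_11_4_ok) (L (nat_lit 525) ln13_16_7 ln13_16_7_ok))))) (B (M (nat_lit 460) (B (M (nat_lit 493) (B (L (nat_lit 364) ln12_11_4 ln12_11_4_ok) (L (nat_lit 525) ln13_16_7 ln13_16_7_ok))) (M (nat_lit 431) (B (L (nat_lit 459) ln15_13_1 ln15_13_1_ok) (L (nat_lit 432) ln16_13_1 ln16_13_1_ok))))) (B (M (nat_lit 398) (B (M (nat_lit 493) (B (L (nat_lit 525) ln13_16_7 ln13_16_7_ok) (M (nat_lit 366) (B (L (nat_lit 334) ln14_10_5 ln14_10_5_ok) (L (nat_lit 462) ln14_11_5 ln14_11_5_ok))))) (M (nat_lit 399) (B (L (nat_lit 427) ln11_13_2 ln11_13_2_ok)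 (M (nat_lit 400) (B (L (nat_lit 401) ln17_12_1 ln17_12_1_ok) (L (nat_lit 431) ln12_13_2 ln12_13_2_ok))))))) (M (nat_lit 427) (B (M (nat_lit 462) (B (L (nat_lit 426) ln10_13_0 ln10_13_0_ok) (L (nat_lit 463) ln11_13_0 ln11_13_0_ok))) (M (nat_lit 431) (B (M (nat_lit 399) (B (L (nat_lit 398) ln11_13_2 ln11_13_2_ok) (L (nat_lit 400) ln12_13_2 ln12_13_2_ok))) (M (nat_lit 460) (B (L (nat_lit 459) ln15_13_1 ln15_13_1_ok) (L (nat_lit 432) ln16_13_1 ln16_13_1_ok))))))))))) (M (nat_lit 395) (B (M (nat_lit 394) (B (L (nat_lit 393) ln9_12_0 ln9_12_0_ok) (L (nat_lit 427) ln14_13_3 ln14_13_3_ok))) (B (M (nat_lit 461) (B (M (nat_lit 364) (B (L (nat_lit 332) ln12_10_4 ln12_10_4_ok) (M (nat_lit 493) (B (L (nat_lit 460) ln12_11_4 ln12_11_4_ok) (L (nat_lit 525) ln13_16_7 ln13_16_7_ok))))) (M (nat_lit 427) (B (L (nat_lit 394) ln14_13_3 ln14_13_3_ok) (M (nat_lit 462) (B (L (nat_lit 426) ln10_13_0 ln10_13_0_ok)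 (L (nat_lit 463) ln11_13_0 ln11_13_0_ok))))))) (B (K (nat_lit 4852171964953511930332872502530638903389047245126088924626078970403461603335530554884034072678773513540447540879572173073149853696) (nat_lit 137295953247365581563113617539313808068483348272590215700540574045407988881326994927917831990277643889751480919676669113749705166443796586239685297360521396224) (nat_lit 137295953247365581563113617539313808068483348272590215700540574045407988881326994927917831990277643889751480919676669113749705166443796586239685297360521396224) c41_s3884) (M (nat_lit 394) (B (L (nat_lit 393) ln9_12_0 ln9_12_0_ok) (M (nat_lit 364) (B (M (nat_lit 461) (B (L (nat_lit 332) ln12_10_4 ln12_10_4_ok) (M (nat_lit 493) (B (L (nat_lit 460) ln12_11_4 ln12_11_4_ok) (L (nat_lit 525) ln13_16_7 ln13_16_7_ok))))) (B (M (nat_lit 460) (B (M (nat_lit 363) (B (L (nat_lit 331) ln12_14_7 ln12_14_7_ok) (L (nat_lit 492) ln12_15_7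 ln12_15_7_ok))) (B (M (nat_lit 363) (B (L (nat_lit 492) ln12_15_7 ln12_15_7_ok) (M (nat_lit 365) (B (L (nat_lit 333) ln12_14_6 ln12_14_6_ok) (L (nat_lit 366) ln14_11_1 ln14_11_1_ok))))) (B (M (nat_lit 492) (B (M (nat_lit 491) (B (L (nat_lit 459) ln12_11_5 ln12_11_5_ok) (L (nat_lit 523) ln12_12_5 ln12_12_5_ok))) (M (nat_lit 493) (B (L (nat_lit 461) ln12_11_4 ln12_11_4_ok) (L (nat_lit 525) ln12_12_4 ln12_12_4_ok))))) (M (nat_lit 363) (B (L (nat_lit 331) ln12_14_7 ln12_14_7_ok) (M (nat_lit 365) (B (L (nat_lit 333) ln12_14_6 ln12_14_6_ok) (L (nat_lit 366) ln14_11_1 ln14_11_1_ok))))))))) (B (M (nat_lit 332) (B (L (nat_lit 461) ln12_10_4 ln12_10_4_ok) (M (nat_lit 300) (B (M (nat_lit 299) (B (L (nat_lit 267) ln12_12_7 ln12_12_7_ok) (L (nat_lit 331) ln12_13_7 ln12_13_7_ok))) (M (nat_lit 301) (B (L (nat_lit 269) ln12_12_6 ln12_12_6_ok) (L (nat_lit 333) ln12_13_6 ln12_13_6_ok))))))) (M (nat_lit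 365) (B (M (nat_lit 366) (B (L (nat_lit 363) ln14_11_1 ln14_11_1_ok) (L (nat_lit 367) ln15_11_1 ln15_11_1_ok))) (M (nat_lit 333) (B (L (nat_lit 460) ln12_14_6 ln12_14_6_ok) (M (nat_lit 301) (B (L (nat_lit 269) ln13_8_5 ln13_8_5_ok) (L (nat_lit 332) ln12_13_6 ln12_13_6_ok))))))))))))))))))))))
noncomputable def c41_n4029 : Cert := (M (nat_lit 427) (B (M (nat_lit 426) (B (M (nat_lit 394) (B (L (nat_lit 393) ln13_13_3 ln13_13_3_ok) (L (nat_lit 395) ln14_13_3 ln14_13_3_ok))) (M (nat_lit 462) (B (L (nat_lit 461) ln10_13_0 ln10_13_0_ok) (L (nat_lit 463) ln11_13_0 ln11_13_0_ok))))) (B (M (nat_lit 461) (B (M (nat_lit 462) (B (L (nat_lit 426) ln10_13_0 ln10_13_0_ok) (L (nat_lit 463) ln11_13_0 ln11_13_0_ok))) (M (nat_lit 364) (B (L (nat_lit 332) ln12_10_4 ln12_10_4_ok) (M (nat_lit 493) (B (L (nat_lit 460) ln12_11_4 ln12_11_4_ok) (L (nat_lit 525) ln13_16_7 ln13_16_7_ok))))))) (B (M (nat_lit 398)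 (B (L (nat_lit 399) ln11_13_2 ln11_13_2_ok) (M (nat_lit 365) (B (M (nat_lit 462) (B (L (nat_lit 463) ln11_13_0 ln11_13_0_ok) (M (nat_lit 366) (B (L (nat_lit 333) ln14_14_7 ln14_14_7_ok) (M (nat_lit 461) (B (L (nat_lit 334) ln14_10_5 ln14_10_5_ok) (L (nat_lit 493) ln14_11_5 ln14_11_5_ok))))))) (B (M (nat_lit 366) (B (M (nat_lit 462) (B (L (nat_lit 463) ln11_13_0 ln11_13_0_ok) (M (nat_lit 461) (B (L (nat_lit 334) ln14_10_5 ln14_10_5_ok) (L (nat_lit 493) ln14_11_5 ln14_11_5_ok))))) (B (M (nat_lit 367) (B (M (nat_lit 462) (B (L (nat_lit 335) ln14_14_6 ln14_14_6_ok) (L (nat_lit 463) ln11_13_0 ln11_13_0_ok))) (M (nat_lit 395) (B (L (nat_lit 364) ln15_11_1 ln15_11_1_ok) (L (nat_lit 394) ln14_13_3 ln14_13_3_ok))))) (M (nat_lit 364) (B (M (nat_lit 461) (B (L (nat_lit 332) ln12_10_4 ln12_10_4_ok) (L (nat_lit 334) ln14_10_5 ln14_10_5_ok))) (M (nat_lit 395) (B (L (nat_lit 367) ln15_11_1 ln15_11_1_ok)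 (L (nat_lit 394) ln14_13_3 ln14_13_3_ok)))))))) (B (M (nat_lit 461) (B (M (nat_lit 462) (B (L (nat_lit 463) ln11_13_0 ln11_13_0_ok) (M (nat_lit 366) (B (L (nat_lit 333) ln14_14_7 ln14_14_7_ok) (L (nat_lit 493) ln14_11_5 ln14_11_5_ok))))) (B (M (nat_lit 493) (B (M (nat_lit 364) (B (L (nat_lit 332) ln12_10_4 ln12_10_4_ok) (L (nat_lit 460) ln12_11_4 ln12_11_4_ok))) (M (nat_lit 462) (B (L (nat_lit 366) ln14_11_5 ln14_11_5_ok) (L (nat_lit 463) ln11_13_0 ln11_13_0_ok))))) (B (M (nat_lit 364) (B (L (nat_lit 332) ln12_10_4 ln12_10_4_ok) (M (nat_lit 460) (B (L (nat_lit 333) ln12_14_6 ln12_14_6_ok) (L (nat_lit 493) ln12_11_4 ln12_11_4_ok))))) (M (nat_lit 333) (B (M (nat_lit 364) (B (L (nat_lit 332) ln12_10_4 ln12_10_4_ok) (L (nat_lit 460) ln12_14_6 ln12_14_6_ok))) (M (nat_lit 462) (B (L (nat_lit 366) ln14_14_7 ln14_14_7_ok) (L (nat_lit 463) ln11_13_0 ln11_13_0_ok))))))))) (B (M (nat_lit 460)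 (B (M (nat_lit 364) (B (L (nat_lit 333) ln12_14_6 ln12_14_6_ok) (M (nat_lit 461) (B (L (nat_lit 332) ln12_10_4 ln12_10_4_ok) (L (nat_lit 493) ln12_11_4 ln12_11_4_ok))))) (M (nat_lit 395) (B (L (nat_lit 394) ln14_13_3 ln14_13_3_ok) (M (nat_lit 363) (B (L (nat_lit 331) ln11_10_4 ln11_10_4_ok) (L (nat_lit 492) ln12_15_7 ln12_15_7_ok))))))) (M (nat_lit 460) (B (M (nat_lit 395) (B (L (nat_lit 394) ln14_13_3 ln14_13_3_ok) (M (nat_lit 363) (B (L (nat_lit 331) ln11_10_4 ln11_10_4_ok) (L (nat_lit 492) ln12_15_7 ln12_15_7_ok))))) (M (nat_lit 462) (B (L (nat_lit 463) ln11_13_0 ln11_13_0_ok) (M (nat_lit 333) (B (L (nat_lit 364) ln12_14_6 ln12_14_6_ok) (L (nat_lit 366) ln14_14_7 ln14_14_7_ok)))))))))))))) (M (nat_lit 426) (B (M (nat_lit 394) (B (L (nat_lit 393) ln13_13_3 ln13_13_3_ok) (L (nat_lit 395) ln14_13_3 ln14_13_3_ok))) (B (M (nat_lit 425) (B (M (nat_lit 395) (B (L (nat_lit 394) ln14_13_3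 ln14_13_3_ok) (L (nat_lit 424) ln8_13_2 ln8_13_2_ok))) (M (nat_lit 457) (B (L (nat_lit 456) ln12_13_1 ln12_13_1_ok) (L (nat_lit 458) ln13_13_1 ln13_13_1_ok))))) (B (M (nat_lit 425) (B (M (nat_lit 457) (B (L (nat_lit 456) ln12_13_1 ln12_13_1_ok) (L (nat_lit 458) ln13_13_1 ln13_13_1_ok))) (M (nat_lit 424) (B (L (nat_lit 395) ln8_13_2 ln8_13_2_ok) (M (nat_lit 392) (B (L (nat_lit 391) ln11_13_3 ln11_13_3_ok) (L (nat_lit 393) ln12_13_3 ln12_13_3_ok))))))) (M (nat_lit 425) (B (M (nat_lit 393) (B (L (nat_lit 392) ln12_13_3 ln12_13_3_ok) (L (nat_lit 394) ln13_13_3 ln13_13_3_ok))) (M (nat_lit 457) (B (L (nat_lit 456) ln12_13_1 ln12_13_1_ok) (L (nat_lit 458) ln13_13_1 ln13_13_1_ok)))))))))))))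
theorem c41_s4030 : Sem (nat_lit 2079502270752001762064242424960807725827516048677469043429686155012882190638009693656033379242457518153052022685796627120027336704) (nat_lit 109836762600449801719586894216855956199476293541839771058970602687831857026374254215438825765608040798955490331736004988727918020637117327770433074687704563712) (nat_lit 109836762600449801719586894216855956199476293541839771058970602687831857026374254215438825765608040798955490331736004988727918020637117327770433074687704563712) :=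
  sem_of_chk (M (nat_lit 430) (B (M (nat_lit 395) (B (L (nat_lit 431) ln15_13_3 ln15_13_3_ok) (M (nat_lit 394) (B (L (nat_lit 393) ln9_12_0 ln9_12_0_ok) (L (nat_lit 427) ln14_13_3 ln14_13_3_ok))))) (B (M (nat_lit 461) (B (M (nat_lit 364) (B (L (nat_lit 332) ln12_10_4 ln12_10_4_ok) (M (nat_lit 493) (B (L (nat_lit 460) ln12_11_4 ln12_11_4_ok) (L (nat_lit 525) ln13_16_7 ln13_16_7_ok))))) (M (nat_lit 427) (B (M (nat_lit 395) (B (L (nat_lit 394) ln14_13_3 ln14_13_3_ok) (L (nat_lit 431) ln15_13_3 ln15_13_3_ok))) (M (nat_lit 462) (B (L (nat_lit 426) ln10_13_0 ln10_13_0_ok) (L (nat_lit 463) ln11_13_0 ln11_13_0_ok))))))) (B (M (nat_lit 431) (B (L (nat_lit 395) ln15_13_3 ln15_13_3_ok) (M (nat_lit 427) (B (M (nat_lit 399) (B (L (nat_lit 398) ln11_13_2 ln11_13_2_ok) (L (nat_lit 400) ln12_13_2 ln12_13_2_ok))) (M (nat_lit 463) (B (L (nat_lit 462) ln11_13_0 ln11_13_0_ok) (L (nat_lit 464) ln12_13_0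 ln12_13_0_ok))))))) (B (M (nat_lit 461) (B (M (nat_lit 364) (B (L (nat_lit 332) ln12_10_4 ln12_10_4_ok) (M (nat_lit 493) (B (L (nat_lit 460) ln12_11_4 ln12_11_4_ok) (L (nat_lit 525) ln13_16_7 ln13_16_7_ok))))) (B (M (nat_lit 398) (B (M (nat_lit 427) (B (L (nat_lit 399) ln11_13_2 ln11_13_2_ok) (M (nat_lit 462) (B (L (nat_lit 426) ln10_13_0 ln10_13_0_ok) (L (nat_lit 463) ln11_13_0 ln11_13_0_ok))))) (B (M (nat_lit 493) (B (L (nat_lit 525) ln13_16_7 ln13_16_7_ok) (M (nat_lit 366) (B (L (nat_lit 334) ln14_10_5 ln14_10_5_ok) (L (nat_lit 462) ln14_11_5 ln14_11_5_ok))))) (M (nat_lit 399) (B (L (nat_lit 427) ln11_13_2 ln11_13_2_ok) (M (nat_lit 400) (B (L (nat_lit 401) ln17_12_1 ln17_12_1_ok) (L (nat_lit 431) ln12_13_2 ln12_13_2_ok)))))))) (M (nat_lit 431) (B (M (nat_lit 400) (B (L (nat_lit 399) ln12_13_2 ln12_13_2_ok) (M (nat_lit 432) (B (L (nat_lit 401) ln13_13_2 ln13_13_2_ok) (L (nat_lit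 460) ln16_13_1 ln16_13_1_ok))))) (B (M (nat_lit 462) (B (M (nat_lit 427) (B (L (nat_lit 426) ln10_13_0 ln10_13_0_ok) (L (nat_lit 463) ln11_13_0 ln11_13_0_ok))) (M (nat_lit 432) (B (L (nat_lit 460) ln16_13_1 ln16_13_1_ok) (L (nat_lit 433) ln17_13_1 ln17_13_1_ok))))) (M (nat_lit 427) (B (M (nat_lit 399) (B (L (nat_lit 398) ln11_13_2 ln11_13_2_ok) (L (nat_lit 400) ln12_13_2 ln12_13_2_ok))) (M (nat_lit 463) (B (L (nat_lit 462) ln11_13_0 ln11_13_0_ok) (L (nat_lit 464) ln12_13_0 ln12_13_0_ok))))))))))) (B (M (nat_lit 461) (B (M (nat_lit 364) (B (L (nat_lit 332) ln12_10_4 ln12_10_4_ok) (M (nat_lit 493) (B (L (nat_lit 460) ln12_11_4 ln12_11_4_ok) (L (nat_lit 525) ln13_16_7 ln13_16_7_ok))))) (B (M (nat_lit 460) (B (M (nat_lit 493) (B (L (nat_lit 364) ln12_11_4 ln12_11_4_ok) (L (nat_lit 525) ln13_16_7 ln13_16_7_ok))) (M (nat_lit 431) (B (L (nat_lit 395) ln15_13_3 ln15_13_3_ok) (L (nat_lit 432)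 ln16_13_1 ln16_13_1_ok))))) (B (M (nat_lit 431) (B (L (nat_lit 395) ln15_13_3 ln15_13_3_ok) (M (nat_lit 400) (B (L (nat_lit 399) ln12_13_2 ln12_13_2_ok) (M (nat_lit 432) (B (L (nat_lit 401) ln13_13_2 ln13_13_2_ok) (L (nat_lit 460) ln16_13_1 ln16_13_1_ok))))))) (M (nat_lit 364) (B (L (nat_lit 332) ln12_10_4 ln12_10_4_ok) (M (nat_lit 395) (B (L (nat_lit 431) ln15_13_3 ln15_13_3_ok) (M (nat_lit 366) (B (M (nat_lit 365) (B (L (nat_lit 367) ln15_11_1 ln15_11_1_ok) (M (nat_lit 394) (B (L (nat_lit 363) ln14_11_1 ln14_11_1_ok) (L (nat_lit 393) ln9_12_2 ln9_12_2_ok))))) (M (nat_lit 493) (B (L (nat_lit 525) ln13_16_7 ln13_16_7_ok) (M (nat_lit 398) (B (L (nat_lit 334) ln14_10_5 ln14_10_5_ok) (L (nat_lit 462) ln14_11_5 ln14_11_5_ok))))))))))))))) c41_n4029)))))) (nat_lit 2079502270752001762064242424960807725827516048677469043429686155012882190638009693656033379242457518153052022685796627120027336704)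 (nat_lit 109836762600449801719586894216855956199476293541839771058970602687831857026374254215438825765608040798955490331736004988727918020637117327770433074687704563712) (nat_lit 109836762600449801719586894216855956199476293541839771058970602687831857026374254215438825765608040798955490331736004988727918020637117327770433074687704563712) (by decide +kernel)
theorem c41_s4066 : Sem (nat_lit 2079502270752001762064242424960807725827516048677469043429686155012882190638009693656033379242457518153052022685796627120027336704) (nat_lit 549183812995855667190838406981975473296178253920069854607112383643287660554242306195517755254753834415684592697602283185125726496504345426509907844593300275200) (nat_lit 549183812995855667190838406981975473296178253920069854607112383643287660554242306195517755254753834415684592697602283185125726496504345426509907844593300275200) :=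
  sem_of_chk (M (nat_lit 430) (B (M (nat_lit 395) (B (L (nat_lit 431) ln15_13_3 ln15_13_3_ok) (M (nat_lit 394) (B (L (nat_lit 393) ln9_12_0 ln9_12_0_ok) (L (nat_lit 427) ln14_13_3 ln14_13_3_ok))))) (B (M (nat_lit 427) (B (M (nat_lit 395) (B (L (nat_lit 394) ln14_13_3 ln14_13_3_ok) (L (nat_lit 431) ln15_13_3 ln15_13_3_ok))) (B (M (nat_lit 431) (B (L (nat_lit 395) ln15_13_3 ln15_13_3_ok) (M (nat_lit 399) (B (L (nat_lit 398) ln11_13_2 ln11_13_2_ok) (L (nat_lit 400) ln12_13_2 ln12_13_2_ok))))) (M (nat_lit 426) (B (M (nat_lit 458) (B (L (nat_lit 457) ln13_13_1 ln13_13_1_ok) (L (nat_lit 459) ln14_13_1 ln14_13_1_ok))) (M (nat_lit 462) (B (L (nat_lit 461) ln10_13_0 ln10_13_0_ok) (L (nat_lit 463) ln11_13_0 ln11_13_0_ok)))))))) (B (M (nat_lit 431) (B (L (nat_lit 395) ln15_13_3 ln15_13_3_ok) (M (nat_lit 427) (B (M (nat_lit 399) (B (L (nat_lit 398) ln11_13_2 ln11_13_2_ok) (L (nat_lit 400) ln12_13_2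 ln12_13_2_ok))) (M (nat_lit 463) (B (L (nat_lit 462) ln11_13_0 ln11_13_0_ok) (L (nat_lit 464) ln12_13_0 ln12_13_0_ok))))))) (B (M (nat_lit 364) (B (M (nat_lit 332) (B (L (nat_lit 461) ln12_10_4 ln12_10_4_ok) (M (nat_lit 301) (B (L (nat_lit 333) ln12_13_6 ln12_13_6_ok) (M (nat_lit 300) (B (L (nat_lit 269) ln12_12_6 ln12_12_6_ok) (M (nat_lit 299) (B (L (nat_lit 267) ln12_12_7 ln12_12_7_ok) (L (nat_lit 331) ln12_13_7 ln12_13_7_ok))))))))) (B (M (nat_lit 427) (B (M (nat_lit 332) (B (L (nat_lit 459) ln12_10_5 ln12_10_5_ok) (L (nat_lit 461) ln12_10_4 ln12_10_4_ok))) (M (nat_lit 431) (B (M (nat_lit 399) (B (L (nat_lit 398) ln11_13_2 ln11_13_2_ok) (L (nat_lit 400) ln12_13_2 ln12_13_2_ok))) (M (nat_lit 463) (B (L (nat_lit 462) ln11_13_0 ln11_13_0_ok) (L (nat_lit 464) ln12_13_0 ln12_13_0_ok))))))) (B (M (nat_lit 399) (B (M (nat_lit 398) (B (L (nat_lit 427) ln11_13_2 ln11_13_2_ok) (M (nat_lit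 400) (B (L (nat_lit 401) ln17_12_1 ln17_12_1_ok) (L (nat_lit 431) ln12_13_2 ln12_13_2_ok))))) (B (M (nat_lit 431) (B (L (nat_lit 400) ln12_13_2 ln12_13_2_ok) (M (nat_lit 463) (B (L (nat_lit 464) ln12_13_0 ln12_13_0_ok) (M (nat_lit 462) (B (L (nat_lit 427) ln11_13_0 ln11_13_0_ok) (M (nat_lit 367) (B (L (nat_lit 335) ln15_10_5 ln15_10_5_ok) (L (nat_lit 494) ln15_11_5 ln15_11_5_ok))))))))) (B (M (nat_lit 427) (B (L (nat_lit 398) ln11_13_2 ln11_13_2_ok) (M (nat_lit 426) (B (M (nat_lit 458) (B (L (nat_lit 457) ln13_13_1 ln13_13_1_ok) (L (nat_lit 459) ln14_13_1 ln14_13_1_ok))) (M (nat_lit 462) (B (L (nat_lit 461) ln10_13_0 ln10_13_0_ok) (L (nat_lit 463) ln11_13_0 ln11_13_0_ok))))))) (M (nat_lit 398) (B (M (nat_lit 400) (B (L (nat_lit 401) ln17_12_1 ln17_12_1_ok) (L (nat_lit 431) ln12_13_2 ln12_13_2_ok))) (B (M (nat_lit 462) (B (M (nat_lit 367) (B (L (nat_lit 494) ln14_15_6 ln14_15_6_ok)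 (M (nat_lit 335) (B (L (nat_lit 303) ln15_9_5 ln15_9_5_ok) (L (nat_lit 366) ln14_14_6 ln14_14_6_ok))))) (B (M (nat_lit 367) (B (L (nat_lit 494) ln14_15_6 ln14_15_6_ok) (M (nat_lit 335) (B (L (nat_lit 366) ln14_14_6 ln14_14_6_ok) (L (nat_lit 431) ln15_10_5 ln15_10_5_ok))))) (B (M (nat_lit 366) (B (M (nat_lit 365) (B (L (nat_lit 333) ln14_14_7 ln14_14_7_ok) (L (nat_lit 363) ln11_11_0 ln11_11_0_ok))) (M (nat_lit 461) (B (L (nat_lit 334) ln14_10_5 ln14_10_5_ok) (L (nat_lit 493) ln14_11_5 ln14_11_5_ok))))) (M (nat_lit 367) (B (L (nat_lit 494) ln14_15_6 ln14_15_6_ok) (M (nat_lit 335) (B (L (nat_lit 303) ln15_9_5 ln15_9_5_ok) (L (nat_lit 431) ln15_10_5 ln15_10_5_ok))))))))) (M (nat_lit 366) (B (M (nat_lit 365) (B (L (nat_lit 363) ln11_11_0 ln11_11_0_ok) (M (nat_lit 400) (B (L (nat_lit 367) ln12_11_0 ln12_11_0_ok) (L (nat_lit 401) ln17_12_3 ln17_12_3_ok))))) (M (nat_lit 461) (B (L (nat_lit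 334) ln14_10_5 ln14_10_5_ok) (M (nat_lit 493) (B (L (nat_lit 462) ln14_11_5 ln14_11_5_ok) (L (nat_lit 525) ln13_16_7 ln13_16_7_ok)))))))))))))) (M (nat_lit 427) (B (M (nat_lit 459) (B (L (nat_lit 332) ln12_10_5 ln12_10_5_ok) (L (nat_lit 458) ln14_13_1 ln14_13_1_ok))) (M (nat_lit 431) (B (M (nat_lit 399) (B (L (nat_lit 398) ln11_13_2 ln11_13_2_ok) (L (nat_lit 400) ln12_13_2 ln12_13_2_ok))) (M (nat_lit 463) (B (L (nat_lit 462) ln11_13_0 ln11_13_0_ok) (L (nat_lit 464) ln12_13_0 ln12_13_0_ok))))))))))) (B (M (nat_lit 431) (B (L (nat_lit 395) ln15_13_3 ln15_13_3_ok) (M (nat_lit 463) (B (L (nat_lit 464) ln12_13_0 ln12_13_0_ok) (M (nat_lit 366) (B (M (nat_lit 398) (B (L (nat_lit 334) ln14_10_4 ln14_10_4_ok) (M (nat_lit 399) (B (L (nat_lit 495) ln15_15_7 ln15_15_7_ok) (L (nat_lit 400) ln12_13_2 ln12_13_2_ok))))) (B (M (nat_lit 495) (B (M (nat_lit 399) (B (L (nat_lit 398) ln15_15_7 ln15_15_7_ok)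 (L (nat_lit 400) ln12_13_2 ln12_13_2_ok))) (B (M (nat_lit 400) (B (L (nat_lit 399) ln12_13_2 ln12_13_2_ok) (M (nat_lit 432) (B (L (nat_lit 401) ln13_13_2 ln13_13_2_ok) (L (nat_lit 527) ln15_16_6 ln15_16_6_ok))))) (M (nat_lit 398) (B (L (nat_lit 462) ln14_11_4 ln14_11_4_ok) (L (nat_lit 527) ln15_16_7 ln15_16_7_ok)))))) (B (M (nat_lit 399) (B (L (nat_lit 400) ln12_13_2 ln12_13_2_ok) (M (nat_lit 367) (B (L (nat_lit 334) ln15_14_7 ln15_14_7_ok) (M (nat_lit 462) (B (L (nat_lit 335) ln15_10_5 ln15_10_5_ok) (L (nat_lit 494) ln15_11_5 ln15_11_5_ok))))))) (M (nat_lit 398) (B (L (nat_lit 334) ln14_10_4 ln14_10_4_ok) (M (nat_lit 495) (B (L (nat_lit 462) ln14_11_4 ln14_11_4_ok) (L (nat_lit 527) ln15_16_7 ln15_16_7_ok))))))))))))) (M (nat_lit 427) (B (M (nat_lit 395) (B (L (nat_lit 394) ln14_13_3 ln14_13_3_ok) (M (nat_lit 459) (B (L (nat_lit 458) ln14_13_1 ln14_13_1_ok) (M (nat_lit 364) (B (L (nat_lit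 332) ln12_10_5 ln12_10_5_ok) (L (nat_lit 491) ln11_15_6 ln11_15_6_ok))))))) (B (M (nat_lit 426) (B (M (nat_lit 394) (B (L (nat_lit 393) ln13_13_3 ln13_13_3_ok) (L (nat_lit 395) ln14_13_3 ln14_13_3_ok))) (M (nat_lit 462) (B (L (nat_lit 461) ln10_13_0 ln10_13_0_ok) (L (nat_lit 463) ln11_13_0 ln11_13_0_ok))))) (M (nat_lit 426) (B (M (nat_lit 458) (B (L (nat_lit 457) ln13_13_1 ln13_13_1_ok) (L (nat_lit 459) ln14_13_1 ln14_13_1_ok))) (M (nat_lit 462) (B (L (nat_lit 461) ln10_13_0 ln10_13_0_ok) (L (nat_lit 463) ln11_13_0 ln11_13_0_ok)))))))))))))) (nat_lit 2079502270752001762064242424960807725827516048677469043429686155012882190638009693656033379242457518153052022685796627120027336704) (nat_lit 549183812995855667190838406981975473296178253920069854607112383643287660554242306195517755254753834415684592697602283185125726496504345426509907844593300275200) (nat_lit 549183812995855667190838406981975473296178253920069854607112383643287660554242306195517755254753834415684592697602283185125726496504345426509907844593300275200)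 (by decide +kernel)
theorem c41_s4170 : Sem (nat_lit 2426085982517103619511544197978693188757070683099446115325996102589709854113712896536030180005474965415225924055972073598649106432) (nat_lit 506532663042472366377835668382684639541061807298248969562824729080929241878582738449780757681558650472230240425776315475555041817279137884521083280533597954178771791992999378944) (nat_lit 506532663042472366377835668382684639541061807298248969562824729080929241878582738449780757681558650472230240425776315475555041817279137884521083280533597954178771791992999378944) :=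
  sem_of_chk (M (nat_lit 364) (B (M (nat_lit 459) (B (L (nat_lit 332) ln12_10_5 ln12_10_5_ok) (M (nat_lit 491) (B (L (nat_lit 395) ln11_15_6 ln11_15_6_ok) (L (nat_lit 523) ln11_16_6 ln11_16_6_ok))))) (B (M (nat_lit 460) (B (M (nat_lit 363) (B (L (nat_lit 331) ln12_14_7 ln12_14_7_ok) (M (nat_lit 492) (B (L (nat_lit 395) ln12_15_7 ln12_15_7_ok) (M (nat_lit 491) (B (L (nat_lit 459) ln12_11_5 ln12_11_5_ok) (L (nat_lit 523) ln12_12_5 ln12_12_5_ok))))))) (B (M (nat_lit 492) (B (M (nat_lit 395) (B (L (nat_lit 363) ln12_15_7 ln12_15_7_ok) (L (nat_lit 524) ln12_16_7 ln12_16_7_ok))) (M (nat_lit 491) (B (L (nat_lit 459) ln12_11_5 ln12_11_5_ok) (L (nat_lit 523) ln12_12_5 ln12_12_5_ok))))) (B (M (nat_lit 492) (B (M (nat_lit 491) (B (L (nat_lit 459) ln12_11_5 ln12_11_5_ok) (L (nat_lit 523) ln12_12_5 ln12_12_5_ok))) (B (M (nat_lit 524) (B (L (nat_lit 395) ln12_16_7 ln12_16_7_ok) (M (nat_lit 523)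 (B (L (nat_lit 491) ln12_12_5 ln12_12_5_ok) (L (nat_lit 555) ln12_13_5 ln12_13_5_ok))))) (M (nat_lit 524) (B (L (nat_lit 395) ln12_16_7 ln12_16_7_ok) (M (nat_lit 525) (B (L (nat_lit 493) ln12_12_4 ln12_12_4_ok) (L (nat_lit 557) ln12_13_4 ln12_13_4_ok)))))))) (B (M (nat_lit 492) (B (M (nat_lit 491) (B (L (nat_lit 459) ln12_11_5 ln12_11_5_ok) (L (nat_lit 523) ln12_12_5 ln12_12_5_ok))) (B (M (nat_lit 524) (B (M (nat_lit 523) (B (L (nat_lit 491) ln12_12_5 ln12_12_5_ok) (L (nat_lit 555) ln12_13_5 ln12_13_5_ok))) (M (nat_lit 525) (B (L (nat_lit 493) ln12_12_4 ln12_12_4_ok) (L (nat_lit 557) ln12_13_4 ln12_13_4_ok))))) (B (M (nat_lit 524) (B (M (nat_lit 525) (B (L (nat_lit 493) ln12_12_4 ln12_12_4_ok) (L (nat_lit 557) ln12_13_4 ln12_13_4_ok))) (M (nat_lit 556) (B (L (nat_lit 459) ln12_17_7 ln12_17_7_ok) (M (nat_lit 555) (B (L (nat_lit 523) ln12_13_5 ln12_13_5_ok) (L (nat_lit 587) ln12_14_5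 ln12_14_5_ok))))))) (M (nat_lit 524) (B (M (nat_lit 459) (B (L (nat_lit 491) ln12_11_5 ln12_11_5_ok) (L (nat_lit 556) ln12_17_7 ln12_17_7_ok))) (M (nat_lit 525) (B (L (nat_lit 493) ln12_12_4 ln12_12_4_ok) (L (nat_lit 557) ln12_13_4 ln12_13_4_ok))))))))) (B (M (nat_lit 492) (B (M (nat_lit 363) (B (L (nat_lit 331) ln12_14_7 ln12_14_7_ok) (L (nat_lit 395) ln12_15_7 ln12_15_7_ok))) (B (M (nat_lit 395) (B (L (nat_lit 363) ln12_15_7 ln12_15_7_ok) (L (nat_lit 524) ln12_16_7 ln12_16_7_ok))) (B (M (nat_lit 524) (B (L (nat_lit 395) ln12_16_7 ln12_16_7_ok) (M (nat_lit 523) (B (L (nat_lit 491) ln12_12_5 ln12_12_5_ok) (L (nat_lit 555) ln12_13_5 ln12_13_5_ok))))) (M (nat_lit 524) (B (M (nat_lit 523) (B (L (nat_lit 491) ln12_12_5 ln12_12_5_ok) (L (nat_lit 555) ln12_13_5 ln12_13_5_ok))) (M (nat_lit 525) (B (L (nat_lit 493) ln12_12_4 ln12_12_4_ok) (L (nat_lit 557) ln12_13_4 ln12_13_4_ok))))))))) (B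 (M (nat_lit 365) (B (L (nat_lit 333) ln12_14_6 ln12_14_6_ok) (M (nat_lit 363) (B (L (nat_lit 331) ln12_14_7 ln12_14_7_ok) (M (nat_lit 395) (B (L (nat_lit 492) ln12_15_7 ln12_15_7_ok) (M (nat_lit 394) (B (L (nat_lit 366) ln14_11_1 ln14_11_1_ok) (L (nat_lit 393) ln9_12_2 ln9_12_2_ok))))))))) (M (nat_lit 363) (B (L (nat_lit 331) ln12_14_7 ln12_14_7_ok) (M (nat_lit 395) (B (M (nat_lit 365) (B (L (nat_lit 333) ln12_14_6 ln12_14_6_ok) (M (nat_lit 394) (B (L (nat_lit 366) ln14_11_1 ln14_11_1_ok) (L (nat_lit 393) ln9_12_2 ln9_12_2_ok))))) (M (nat_lit 459) (B (L (nat_lit 491) ln11_15_6 ln11_15_6_ok) (M (nat_lit 458) (B (L (nat_lit 490) ln11_11_5 ln11_11_5_ok) (L (nat_lit 457) ln9_14_2 ln9_14_2_ok)))))))))))))))) (B (M (nat_lit 459) (B (L (nat_lit 332) ln12_10_5 ln12_10_5_ok) (M (nat_lit 491) (B (L (nat_lit 460) ln12_11_5 ln12_11_5_ok) (L (nat_lit 523) ln11_16_6 ln11_16_6_ok))))) (B (M (nat_lit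 460) (B (M (nat_lit 333) (B (L (nat_lit 365) ln12_14_6 ln12_14_6_ok) (M (nat_lit 332) (B (L (nat_lit 301) ln12_13_6 ln12_13_6_ok) (M (nat_lit 331) (B (L (nat_lit 299) ln12_13_7 ln12_13_7_ok) (L (nat_lit 363) ln12_14_7 ln12_14_7_ok))))))) (B (M (nat_lit 395) (B (M (nat_lit 363) (B (L (nat_lit 331) ln12_14_7 ln12_14_7_ok) (L (nat_lit 492) ln12_15_7 ln12_15_7_ok))) (M (nat_lit 333) (B (L (nat_lit 365) ln12_14_6 ln12_14_6_ok) (M (nat_lit 332) (B (L (nat_lit 300) ln12_9_5 ln12_9_5_ok) (L (nat_lit 301) ln12_13_6 ln12_13_6_ok))))))) (B (M (nat_lit 492) (B (M (nat_lit 363) (B (L (nat_lit 331) ln12_14_7 ln12_14_7_ok) (L (nat_lit 395) ln12_15_7 ln12_15_7_ok))) (B (M (nat_lit 395) (B (L (nat_lit 363) ln12_15_7 ln12_15_7_ok) (L (nat_lit 524) ln12_16_7 ln12_16_7_ok))) (B (M (nat_lit 524) (B (L (nat_lit 395) ln12_16_7 ln12_16_7_ok) (M (nat_lit 523) (B (L (nat_lit 491) ln12_12_5 ln12_12_5_ok) (L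 (nat_lit 555) ln12_13_5 ln12_13_5_ok))))) (M (nat_lit 524) (B (M (nat_lit 523) (B (L (nat_lit 491) ln12_12_5 ln12_12_5_ok) (L (nat_lit 555) ln12_13_5 ln12_13_5_ok))) (M (nat_lit 525) (B (L (nat_lit 493) ln12_12_4 ln12_12_4_ok) (L (nat_lit 557) ln12_13_4 ln12_13_4_ok))))))))) (B (M (nat_lit 395) (B (M (nat_lit 492) (B (L (nat_lit 363) ln12_15_7 ln12_15_7_ok) (L (nat_lit 524) ln12_16_7 ln12_16_7_ok))) (M (nat_lit 333) (B (L (nat_lit 365) ln12_14_6 ln12_14_6_ok) (M (nat_lit 332) (B (L (nat_lit 300) ln12_9_5 ln12_9_5_ok) (L (nat_lit 301) ln12_13_6 ln12_13_6_ok))))))) (M (nat_lit 332) (B (M (nat_lit 333) (B (L (nat_lit 301) ln12_13_6 ln12_13_6_ok) (L (nat_lit 365) ln12_14_6 ln12_14_6_ok))) (M (nat_lit 300) (B (L (nat_lit 395) ln12_9_5 ln12_9_5_ok) (M (nat_lit 299) (B (L (nat_lit 267) ln12_12_7 ln12_12_7_ok) (L (nat_lit 331) ln12_13_7 ln12_13_7_ok)))))))))))) (M (nat_lit 332) (B (L (nat_lit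 459) ln12_10_5 ln12_10_5_ok) (M (nat_lit 300) (B (L (nat_lit 395) ln12_9_5 ln12_9_5_ok) (M (nat_lit 299) (B (L (nat_lit 267) ln12_12_7 ln12_12_7_ok) (L (nat_lit 331) ln12_13_7 ln12_13_7_ok)))))))))))) (nat_lit 2426085982517103619511544197978693188757070683099446115325996102589709854113712896536030180005474965415225924055972073598649106432) (nat_lit 506532663042472366377835668382684639541061807298248969562824729080929241878582738449780757681558650472230240425776315475555041817279137884521083280533597954178771791992999378944) (nat_lit 506532663042472366377835668382684639541061807298248969562824729080929241878582738449780757681558650472230240425776315475555041817279137884521083280533597954178771791992999378944) (by decide +kernel)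
noncomputable def c41_n4220 : Cert := (M (nat_lit 364) (B (M (nat_lit 459) (B (L (nat_lit 332) ln12_10_5 ln12_10_5_ok) (M (nat_lit 491) (B (L (nat_lit 460) ln12_11_5 ln12_11_5_ok) (L (nat_lit 523) ln11_16_6 ln11_16_6_ok))))) (B (M (nat_lit 460) (B (M (nat_lit 363) (B (L (nat_lit 331) ln12_14_7 ln12_14_7_ok) (M (nat_lit 492) (B (L (nat_lit 395) ln12_15_7 ln12_15_7_ok) (M (nat_lit 491) (B (L (nat_lit 459) ln12_11_5 ln12_11_5_ok) (L (nat_lit 523) ln12_12_5 ln12_12_5_ok))))))) (B (M (nat_lit 492) (B (M (nat_lit 395) (B (L (nat_lit 363) ln12_15_7 ln12_15_7_ok) (L (nat_lit 524) ln12_16_7 ln12_16_7_ok))) (M (nat_lit 491) (B (L (nat_lit 459) ln12_11_5 ln12_11_5_ok) (L (nat_lit 523) ln12_12_5 ln12_12_5_ok))))) (B (M (nat_lit 430) (B (M (nat_lit 395) (B (L (nat_lit 394) ln14_13_3 ln14_13_3_ok) (L (nat_lit 431) ln15_13_3 ln15_13_3_ok))) (B (M (nat_lit 431) (B (L (nat_lit 395) ln15_13_3 ln15_13_3_ok)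 (L (nat_lit 459) ln15_13_1 ln15_13_1_ok))) (B (M (nat_lit 459) (B (L (nat_lit 491) ln12_11_5 ln12_11_5_ok) (L (nat_lit 431) ln15_13_1 ln15_13_1_ok))) (M (nat_lit 492) (B (M (nat_lit 395) (B (L (nat_lit 394) ln14_13_3 ln14_13_3_ok) (L (nat_lit 524) ln12_16_7 ln12_16_7_ok))) (M (nat_lit 491) (B (L (nat_lit 459) ln12_11_5 ln12_11_5_ok) (L (nat_lit 523) ln12_12_5 ln12_12_5_ok))))))))) (B (M (nat_lit 492) (B (M (nat_lit 491) (B (L (nat_lit 459) ln12_11_5 ln12_11_5_ok) (L (nat_lit 523) ln12_12_5 ln12_12_5_ok))) (B (M (nat_lit 524) (B (M (nat_lit 523) (B (L (nat_lit 491) ln12_12_5 ln12_12_5_ok) (L (nat_lit 555) ln12_13_5 ln12_13_5_ok))) (M (nat_lit 525) (B (L (nat_lit 493) ln12_12_4 ln12_12_4_ok) (L (nat_lit 557) ln12_13_4 ln12_13_4_ok))))) (B (M (nat_lit 524) (B (M (nat_lit 525) (B (L (nat_lit 493) ln12_12_4 ln12_12_4_ok) (L (nat_lit 557) ln12_13_4 ln12_13_4_ok))) (M (nat_lit 556) (B (L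 (nat_lit 459) ln12_17_7 ln12_17_7_ok) (M (nat_lit 555) (B (L (nat_lit 523) ln12_13_5 ln12_13_5_ok) (L (nat_lit 587) ln12_14_5 ln12_14_5_ok))))))) (M (nat_lit 524) (B (M (nat_lit 459) (B (L (nat_lit 491) ln12_11_5 ln12_11_5_ok) (L (nat_lit 556) ln12_17_7 ln12_17_7_ok))) (M (nat_lit 525) (B (L (nat_lit 493) ln12_12_4 ln12_12_4_ok) (L (nat_lit 557) ln12_13_4 ln12_13_4_ok))))))))) (B (M (nat_lit 395) (B (M (nat_lit 363) (B (L (nat_lit 331) ln12_14_7 ln12_14_7_ok) (L (nat_lit 492) ln12_15_7 ln12_15_7_ok))) (M (nat_lit 430) (B (L (nat_lit 394) ln14_13_3 ln14_13_3_ok) (L (nat_lit 431) ln15_13_3 ln15_13_3_ok))))) (M (nat_lit 365) (B (L (nat_lit 333) ln12_14_6 ln12_14_6_ok) (M (nat_lit 363) (B (L (nat_lit 331) ln12_14_7 ln12_14_7_ok) (M (nat_lit 394) (B (M (nat_lit 393) (B (L (nat_lit 362) ln13_11_1 ln13_11_1_ok) (L (nat_lit 395) ln9_12_2 ln9_12_2_ok))) (B (M (nat_lit 395) (B (L (nat_lit 366)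 ln14_11_1 ln14_11_1_ok) (L (nat_lit 393) ln9_12_2 ln9_12_2_ok))) (B (M (nat_lit 395) (B (L (nat_lit 366) ln14_11_1 ln14_11_1_ok) (L (nat_lit 430) ln14_13_3 ln14_13_3_ok))) (M (nat_lit 393) (B (L (nat_lit 362) ln13_11_1 ln13_11_1_ok) (L (nat_lit 426) ln13_13_3 ln13_13_3_ok))))))))))))))))) (B (M (nat_lit 332) (B (M (nat_lit 300) (B (L (nat_lit 395) ln12_9_5 ln12_9_5_ok) (M (nat_lit 299) (B (L (nat_lit 267) ln12_12_7 ln12_12_7_ok) (L (nat_lit 331) ln12_13_7 ln12_13_7_ok))))) (B (M (nat_lit 395) (B (L (nat_lit 300) ln12_9_5 ln12_9_5_ok) (M (nat_lit 394) (B (L (nat_lit 393) ln9_12_0 ln9_12_0_ok) (L (nat_lit 430) ln14_13_3 ln14_13_3_ok))))) (M (nat_lit 460) (B (M (nat_lit 331) (B (L (nat_lit 299) ln12_13_7 ln12_13_7_ok) (L (nat_lit 363) ln12_14_7 ln12_14_7_ok))) (M (nat_lit 333) (B (L (nat_lit 301) ln12_13_6 ln12_13_6_ok) (L (nat_lit 365) ln12_14_6 ln12_14_6_ok)))))))) (M (nat_lit 459)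 (B (L (nat_lit 332) ln12_10_5 ln12_10_5_ok) (M (nat_lit 491) (B (L (nat_lit 395) ln11_15_6 ln11_15_6_ok) (L (nat_lit 523) ln11_16_6 ln11_16_6_ok)))))))))
theorem c41_s4252 : Sem (nat_lit 2079502270752001762064242424960807725827516048677469043429686155012882190638009693656033379242457518153052022685796627120027336704) (nat_lit 506532663042472366377835668382684639624607557632651061536582283073297868134411946401241354818388209767607165261402921464890759184617750239657567892208979017136702090139534360576) (nat_lit 506532663042472366377835668382684639624607557632651061536582283073297868134411946401241354818388209767607165261402921464890759184617750239657567892208979017136702090139534360576) :=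
  sem_of_chk (M (nat_lit 427) (B (M (nat_lit 459) (B (M (nat_lit 430) (B (L (nat_lit 458) ln14_13_1 ln14_13_1_ok) (M (nat_lit 431) (B (L (nat_lit 395) ln15_13_3 ln15_13_3_ok) (L (nat_lit 460) ln15_13_1 ln15_13_1_ok))))) (B (M (nat_lit 460) (B (M (nat_lit 491) (B (L (nat_lit 364) ln12_11_5 ln12_11_5_ok) (L (nat_lit 523) ln11_16_6 ln11_16_6_ok))) (M (nat_lit 430) (B (L (nat_lit 458) ln14_13_1 ln14_13_1_ok) (L (nat_lit 431) ln15_13_1 ln15_13_1_ok))))) (B (M (nat_lit 491) (B (L (nat_lit 523) ln11_16_6 ln11_16_6_ok) (M (nat_lit 364) (B (L (nat_lit 395) ln11_15_6 ln11_15_6_ok) (L (nat_lit 460) ln12_11_5 ln12_11_5_ok))))) (M (nat_lit 395) (B (M (nat_lit 491) (B (L (nat_lit 364) ln11_15_6 ln11_15_6_ok) (L (nat_lit 523) ln11_16_6 ln11_16_6_ok))) (M (nat_lit 430) (B (L (nat_lit 431) ln15_13_3 ln15_13_3_ok) (L (nat_lit 458) ln14_13_1 ln14_13_1_ok))))))))) (B (M (nat_lit 430) (B (M (nat_lit 395)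 (B (L (nat_lit 394) ln14_13_3 ln14_13_3_ok) (L (nat_lit 431) ln15_13_3 ln15_13_3_ok))) (B (M (nat_lit 431) (B (L (nat_lit 395) ln15_13_3 ln15_13_3_ok) (M (nat_lit 399) (B (L (nat_lit 398) ln11_13_2 ln11_13_2_ok) (L (nat_lit 400) ln12_13_2 ln12_13_2_ok))))) (B (M (nat_lit 431) (B (M (nat_lit 399) (B (L (nat_lit 398) ln11_13_2 ln11_13_2_ok) (L (nat_lit 400) ln12_13_2 ln12_13_2_ok))) (M (nat_lit 463) (B (L (nat_lit 462) ln11_13_0 ln11_13_0_ok) (L (nat_lit 464) ln12_13_0 ln12_13_0_ok))))) (M (nat_lit 426) (B (M (nat_lit 394) (B (L (nat_lit 393) ln13_13_3 ln13_13_3_ok) (L (nat_lit 395) ln14_13_3 ln14_13_3_ok))) (M (nat_lit 458) (B (L (nat_lit 457) ln13_13_1 ln13_13_1_ok) (L (nat_lit 459) ln14_13_1 ln14_13_1_ok))))))))) (B (M (nat_lit 459) (B (M (nat_lit 364) (B (L (nat_lit 332) ln12_10_5 ln12_10_5_ok) (M (nat_lit 491) (B (L (nat_lit 460) ln12_11_5 ln12_11_5_ok) (L (nat_lit 523) ln11_16_6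 ln11_16_6_ok))))) (M (nat_lit 458) (B (L (nat_lit 430) ln14_13_1 ln14_13_1_ok) (M (nat_lit 457) (B (L (nat_lit 426) ln13_13_1 ln13_13_1_ok) (L (nat_lit 456) ln8_14_2 ln8_14_2_ok))))))) (B (K (nat_lit 2426085982517103619511544197978693188757070683099446115325996102589709854113712896536030180005474965415225924055972073598649106432) (nat_lit 506532663042472366377835668382684639541061807298248969562824729080929241878582738449780757681558650472230240425776315475555041817279137884521083280533597954178771791992999378944) (nat_lit 506532663042472366377835668382684639541061807298248969562824729080929241878582738449780757681558650472230240425776315475555041817279137884521083280533597954178771791992999378944) c41_s4170) (B c41_n4220 (M (nat_lit 426) (B (M (nat_lit 393) (B (L (nat_lit 394) ln13_13_3 ln13_13_3_ok) (M (nat_lit 425) (B (L (nat_lit 392) ln12_13_3 ln12_13_3_ok) (M (nat_lit 457) (B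 (L (nat_lit 456) ln12_13_1 ln12_13_1_ok) (L (nat_lit 458) ln13_13_1 ln13_13_1_ok))))))) (B (M (nat_lit 430) (B (M (nat_lit 394) (B (L (nat_lit 393) ln13_13_3 ln13_13_3_ok) (L (nat_lit 395) ln14_13_3 ln14_13_3_ok))) (B (M (nat_lit 395) (B (L (nat_lit 394) ln14_13_3 ln14_13_3_ok) (L (nat_lit 431) ln15_13_3 ln15_13_3_ok))) (B (M (nat_lit 431) (B (L (nat_lit 395) ln15_13_3 ln15_13_3_ok) (M (nat_lit 399) (B (L (nat_lit 398) ln11_13_2 ln11_13_2_ok) (L (nat_lit 400) ln12_13_2 ln12_13_2_ok))))) (M (nat_lit 431) (B (M (nat_lit 399) (B (L (nat_lit 398) ln11_13_2 ln11_13_2_ok) (L (nat_lit 400) ln12_13_2 ln12_13_2_ok))) (M (nat_lit 463) (B (L (nat_lit 462) ln11_13_0 ln11_13_0_ok) (L (nat_lit 464) ln12_13_0 ln12_13_0_ok))))))))) (B (M (nat_lit 430) (B (M (nat_lit 395) (B (L (nat_lit 394) ln14_13_3 ln14_13_3_ok) (L (nat_lit 431) ln15_13_3 ln15_13_3_ok))) (B (M (nat_lit 431) (B (L (nat_lit 395) ln15_13_3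 ln15_13_3_ok) (M (nat_lit 399) (B (L (nat_lit 398) ln11_13_2 ln11_13_2_ok) (L (nat_lit 400) ln12_13_2 ln12_13_2_ok))))) (B (M (nat_lit 431) (B (M (nat_lit 399) (B (L (nat_lit 398) ln11_13_2 ln11_13_2_ok) (L (nat_lit 400) ln12_13_2 ln12_13_2_ok))) (M (nat_lit 463) (B (L (nat_lit 462) ln11_13_0 ln11_13_0_ok) (L (nat_lit 464) ln12_13_0 ln12_13_0_ok))))) (M (nat_lit 425) (B (M (nat_lit 395) (B (L (nat_lit 394) ln14_13_3 ln14_13_3_ok) (L (nat_lit 424) ln8_13_2 ln8_13_2_ok))) (M (nat_lit 457) (B (L (nat_lit 456) ln12_13_1 ln12_13_1_ok) (L (nat_lit 458) ln13_13_1 ln13_13_1_ok))))))))) (M (nat_lit 425) (B (M (nat_lit 457) (B (L (nat_lit 456) ln12_13_1 ln12_13_1_ok) (L (nat_lit 458) ln13_13_1 ln13_13_1_ok))) (M (nat_lit 424) (B (L (nat_lit 395) ln8_13_2 ln8_13_2_ok) (M (nat_lit 392) (B (L (nat_lit 391) ln11_13_3 ln11_13_3_ok) (L (nat_lit 393) ln12_13_3 ln12_13_3_ok))))))))))))))))) (nat_lit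 2079502270752001762064242424960807725827516048677469043429686155012882190638009693656033379242457518153052022685796627120027336704) (nat_lit 506532663042472366377835668382684639624607557632651061536582283073297868134411946401241354818388209767607165261402921464890759184617750239657567892208979017136702090139534360576) (nat_lit 506532663042472366377835668382684639624607557632651061536582283073297868134411946401241354818388209767607165261402921464890759184617750239657567892208979017136702090139534360576) (by decide +kernel)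
theorem c41_s4277 : Sem (nat_lit 1386334847221798047169638878925036799968406779833514899637066259859226863686603287896039777716422623628704219945445734162783797248) (nat_lit 2532663311910144709840819371182020539895840000507075058513873897490308470626708845980976690587162054089828777279318665716941471804854291122788389534129155732069956678635304779776) (nat_lit 2532663311910144709840819371182020539895840000507075058513873897490308470626708845980976690587162054089828777279318665716941471804854291122788389534129155732069956678635304779776) :=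
  sem_of_chk (M (nat_lit 428) (B (M (nat_lit 430) (B (M (nat_lit 395) (B (L (nat_lit 431) ln15_13_3 ln15_13_3_ok) (M (nat_lit 394) (B (L (nat_lit 393) ln9_12_0 ln9_12_0_ok) (L (nat_lit 427) ln14_13_3 ln14_13_3_ok))))) (B (M (nat_lit 461) (B (M (nat_lit 364) (B (L (nat_lit 332) ln12_10_4 ln12_10_4_ok) (M (nat_lit 493) (B (L (nat_lit 460) ln12_11_4 ln12_11_4_ok) (L (nat_lit 525) ln13_16_7 ln13_16_7_ok))))) (B (M (nat_lit 431) (B (L (nat_lit 395) ln15_13_3 ln15_13_3_ok) (M (nat_lit 460) (B (L (nat_lit 459) ln15_13_1 ln15_13_1_ok) (L (nat_lit 432) ln16_13_1 ln16_13_1_ok))))) (M (nat_lit 427) (B (M (nat_lit 395) (B (L (nat_lit 394) ln14_13_3 ln14_13_3_ok) (L (nat_lit 431) ln15_13_3 ln15_13_3_ok))) (M (nat_lit 462) (B (L (nat_lit 426) ln10_13_0 ln10_13_0_ok) (L (nat_lit 463) ln11_13_0 ln11_13_0_ok)))))))) (B (M (nat_lit 431) (B (L (nat_lit 395) ln15_13_3 ln15_13_3_ok) (M (nat_lit 427) (B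 (M (nat_lit 399) (B (L (nat_lit 398) ln11_13_2 ln11_13_2_ok) (L (nat_lit 400) ln12_13_2 ln12_13_2_ok))) (M (nat_lit 459) (B (L (nat_lit 458) ln14_13_1 ln14_13_1_ok) (L (nat_lit 460) ln15_13_1 ln15_13_1_ok))))))) (B (M (nat_lit 461) (B (M (nat_lit 364) (B (L (nat_lit 332) ln12_10_4 ln12_10_4_ok) (M (nat_lit 493) (B (L (nat_lit 460) ln12_11_4 ln12_11_4_ok) (L (nat_lit 525) ln13_16_7 ln13_16_7_ok))))) (B (M (nat_lit 460) (B (M (nat_lit 493) (B (L (nat_lit 364) ln12_11_4 ln12_11_4_ok) (L (nat_lit 525) ln13_16_7 ln13_16_7_ok))) (M (nat_lit 459) (B (L (nat_lit 431) ln15_13_1 ln15_13_1_ok) (L (nat_lit 458) ln10_14_2 ln10_14_2_ok))))) (B (M (nat_lit 427) (B (M (nat_lit 462) (B (L (nat_lit 426) ln10_13_0 ln10_13_0_ok) (L (nat_lit 463) ln11_13_0 ln11_13_0_ok))) (M (nat_lit 431) (B (M (nat_lit 399) (B (L (nat_lit 398) ln11_13_2 ln11_13_2_ok) (L (nat_lit 400) ln12_13_2 ln12_13_2_ok))) (M (nat_lit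 459) (B (L (nat_lit 458) ln14_13_1 ln14_13_1_ok) (L (nat_lit 460) ln15_13_1 ln15_13_1_ok))))))) (M (nat_lit 398) (B (M (nat_lit 493) (B (L (nat_lit 525) ln13_16_7 ln13_16_7_ok) (M (nat_lit 366) (B (L (nat_lit 334) ln14_10_5 ln14_10_5_ok) (L (nat_lit 462) ln14_11_5 ln14_11_5_ok))))) (M (nat_lit 399) (B (L (nat_lit 427) ln11_13_2 ln11_13_2_ok) (M (nat_lit 400) (B (L (nat_lit 401) ln17_12_1 ln17_12_1_ok) (L (nat_lit 431) ln12_13_2 ln12_13_2_ok))))))))))) (B (M (nat_lit 431) (B (L (nat_lit 395) ln15_13_3 ln15_13_3_ok) (M (nat_lit 432) (B (M (nat_lit 400) (B (L (nat_lit 399) ln12_13_2 ln12_13_2_ok) (L (nat_lit 401) ln13_13_2 ln13_13_2_ok))) (M (nat_lit 460) (B (L (nat_lit 459) ln15_13_1 ln15_13_1_ok) (L (nat_lit 461) ln16_13_1 ln16_13_1_ok))))))) (M (nat_lit 427) (B (M (nat_lit 459) (B (L (nat_lit 458) ln14_13_1 ln14_13_1_ok) (M (nat_lit 364) (B (L (nat_lit 332) ln12_10_5 ln12_10_5_ok)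 (M (nat_lit 491) (B (L (nat_lit 460) ln12_11_5 ln12_11_5_ok) (L (nat_lit 523) ln11_16_6 ln11_16_6_ok))))))) (M (nat_lit 426) (B (M (nat_lit 394) (B (L (nat_lit 393) ln13_13_3 ln13_13_3_ok) (L (nat_lit 395) ln14_13_3 ln14_13_3_ok))) (M (nat_lit 462) (B (L (nat_lit 461) ln10_13_0 ln10_13_0_ok) (L (nat_lit 463) ln11_13_0 ln11_13_0_ok))))))))))))) (B (M (nat_lit 430) (B (M (nat_lit 395) (B (L (nat_lit 431) ln15_13_3 ln15_13_3_ok) (M (nat_lit 394) (B (L (nat_lit 393) ln9_12_0 ln9_12_0_ok) (L (nat_lit 427) ln14_13_3 ln14_13_3_ok))))) (B (M (nat_lit 431) (B (L (nat_lit 395) ln15_13_3 ln15_13_3_ok) (M (nat_lit 427) (B (M (nat_lit 459) (B (L (nat_lit 458) ln14_13_1 ln14_13_1_ok) (L (nat_lit 460) ln15_13_1 ln15_13_1_ok))) (M (nat_lit 463) (B (L (nat_lit 462) ln11_13_0 ln11_13_0_ok) (L (nat_lit 464) ln12_13_0 ln12_13_0_ok))))))) (B (M (nat_lit 427) (B (M (nat_lit 426) (B (M (nat_lit 458) (B (L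 (nat_lit 457) ln13_13_1 ln13_13_1_ok) (L (nat_lit 459) ln14_13_1 ln14_13_1_ok))) (M (nat_lit 462) (B (L (nat_lit 461) ln10_13_0 ln10_13_0_ok) (L (nat_lit 463) ln11_13_0 ln11_13_0_ok))))) (B (M (nat_lit 431) (B (M (nat_lit 399) (B (L (nat_lit 398) ln11_13_2 ln11_13_2_ok) (L (nat_lit 400) ln12_13_2 ln12_13_2_ok))) (M (nat_lit 463) (B (L (nat_lit 462) ln11_13_0 ln11_13_0_ok) (L (nat_lit 464) ln12_13_0 ln12_13_0_ok))))) (M (nat_lit 431) (B (M (nat_lit 399) (B (L (nat_lit 398) ln11_13_2 ln11_13_2_ok) (L (nat_lit 400) ln12_13_2 ln12_13_2_ok))) (M (nat_lit 459) (B (L (nat_lit 458) ln14_13_1 ln14_13_1_ok) (L (nat_lit 460) ln15_13_1 ln15_13_1_ok)))))))) (B (M (nat_lit 431) (B (L (nat_lit 395) ln15_13_3 ln15_13_3_ok) (M (nat_lit 432) (B (M (nat_lit 400) (B (L (nat_lit 399) ln12_13_2 ln12_13_2_ok) (L (nat_lit 401) ln13_13_2 ln13_13_2_ok))) (M (nat_lit 460) (B (L (nat_lit 459) ln15_13_1 ln15_13_1_ok)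 (L (nat_lit 461) ln16_13_1 ln16_13_1_ok))))))) (M (nat_lit 427) (B (M (nat_lit 426) (B (M (nat_lit 458) (B (L (nat_lit 457) ln13_13_1 ln13_13_1_ok) (L (nat_lit 459) ln14_13_1 ln14_13_1_ok))) (M (nat_lit 462) (B (L (nat_lit 461) ln10_13_0 ln10_13_0_ok) (L (nat_lit 463) ln11_13_0 ln11_13_0_ok))))) (B (M (nat_lit 395) (B (L (nat_lit 394) ln14_13_3 ln14_13_3_ok) (M (nat_lit 459) (B (L (nat_lit 458) ln14_13_1 ln14_13_1_ok) (M (nat_lit 491) (B (L (nat_lit 364) ln11_15_6 ln11_15_6_ok) (L (nat_lit 523) ln11_16_6 ln11_16_6_ok))))))) (M (nat_lit 426) (B (M (nat_lit 394) (B (L (nat_lit 393) ln13_13_3 ln13_13_3_ok) (L (nat_lit 395) ln14_13_3 ln14_13_3_ok))) (M (nat_lit 462) (B (L (nat_lit 461) ln10_13_0 ln10_13_0_ok) (L (nat_lit 463) ln11_13_0 ln11_13_0_ok))))))))))))) (B (M (nat_lit 430) (B (M (nat_lit 395) (B (L (nat_lit 431) ln15_13_3 ln15_13_3_ok) (M (nat_lit 394) (B (L (nat_lit 393) ln9_12_0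 ln9_12_0_ok) (L (nat_lit 427) ln14_13_3 ln14_13_3_ok))))) (B (M (nat_lit 431) (B (L (nat_lit 395) ln15_13_3 ln15_13_3_ok) (M (nat_lit 427) (B (M (nat_lit 399) (B (L (nat_lit 398) ln11_13_2 ln11_13_2_ok) (L (nat_lit 400) ln12_13_2 ln12_13_2_ok))) (M (nat_lit 459) (B (L (nat_lit 458) ln14_13_1 ln14_13_1_ok) (L (nat_lit 460) ln15_13_1 ln15_13_1_ok))))))) (B (M (nat_lit 427) (B (M (nat_lit 426) (B (M (nat_lit 458) (B (L (nat_lit 457) ln13_13_1 ln13_13_1_ok) (L (nat_lit 459) ln14_13_1 ln14_13_1_ok))) (M (nat_lit 462) (B (L (nat_lit 461) ln10_13_0 ln10_13_0_ok) (L (nat_lit 463) ln11_13_0 ln11_13_0_ok))))) (B (M (nat_lit 431) (B (M (nat_lit 399) (B (L (nat_lit 398) ln11_13_2 ln11_13_2_ok) (L (nat_lit 400) ln12_13_2 ln12_13_2_ok))) (M (nat_lit 463) (B (L (nat_lit 462) ln11_13_0 ln11_13_0_ok) (L (nat_lit 464) ln12_13_0 ln12_13_0_ok))))) (M (nat_lit 431) (B (M (nat_lit 399) (B (L (nat_lit 398)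 ln11_13_2 ln11_13_2_ok) (L (nat_lit 400) ln12_13_2 ln12_13_2_ok))) (M (nat_lit 459) (B (L (nat_lit 458) ln14_13_1 ln14_13_1_ok) (L (nat_lit 460) ln15_13_1 ln15_13_1_ok)))))))) (B (M (nat_lit 431) (B (L (nat_lit 395) ln15_13_3 ln15_13_3_ok) (M (nat_lit 432) (B (M (nat_lit 400) (B (L (nat_lit 399) ln12_13_2 ln12_13_2_ok) (L (nat_lit 401) ln13_13_2 ln13_13_2_ok))) (M (nat_lit 460) (B (L (nat_lit 459) ln15_13_1 ln15_13_1_ok) (L (nat_lit 461) ln16_13_1 ln16_13_1_ok))))))) (M (nat_lit 427) (B (M (nat_lit 426) (B (M (nat_lit 458) (B (L (nat_lit 457) ln13_13_1 ln13_13_1_ok) (L (nat_lit 459) ln14_13_1 ln14_13_1_ok))) (M (nat_lit 462) (B (L (nat_lit 461) ln10_13_0 ln10_13_0_ok) (L (nat_lit 463) ln11_13_0 ln11_13_0_ok))))) (B (M (nat_lit 395) (B (L (nat_lit 394) ln14_13_3 ln14_13_3_ok) (M (nat_lit 459) (B (L (nat_lit 458) ln14_13_1 ln14_13_1_ok) (M (nat_lit 363) (B (M (nat_lit 331) (B (L (nat_lit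 299) ln11_9_4 ln11_9_4_ok) (L (nat_lit 460) ln11_10_4 ln11_10_4_ok))) (B (M (nat_lit 460) (B (L (nat_lit 331) ln11_10_4 ln11_10_4_ok) (L (nat_lit 492) ln12_15_7 ln12_15_7_ok))) (B (M (nat_lit 492) (B (L (nat_lit 460) ln12_15_7 ln12_15_7_ok) (M (nat_lit 491) (B (L (nat_lit 524) ln11_12_4 ln11_12_4_ok) (L (nat_lit 523) ln11_16_6 ln11_16_6_ok))))) (M (nat_lit 331) (B (L (nat_lit 299) ln11_9_4 ln11_9_4_ok) (M (nat_lit 330) (B (L (nat_lit 298) ln11_13_7 ln11_13_7_ok) (L (nat_lit 362) ln11_14_7 ln11_14_7_ok))))))))))))) (M (nat_lit 398) (B (L (nat_lit 399) ln11_13_2 ln11_13_2_ok) (M (nat_lit 462) (B (L (nat_lit 463) ln11_13_0 ln11_13_0_ok) (M (nat_lit 461) (B (L (nat_lit 426) ln10_13_0 ln10_13_0_ok) (M (nat_lit 366) (B (L (nat_lit 334) ln14_10_5 ln14_10_5_ok) (L (nat_lit 493) ln14_11_5 ln14_11_5_ok))))))))))))))))) (B c41_n2728 (B (M (nat_lit 430) (B (M (nat_lit 431) (B (L (nat_lit 395)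 ln15_13_3 ln15_13_3_ok) (M (nat_lit 432) (B (M (nat_lit 400) (B (L (nat_lit 399) ln12_13_2 ln12_13_2_ok) (L (nat_lit 401) ln13_13_2 ln13_13_2_ok))) (M (nat_lit 460) (B (L (nat_lit 459) ln15_13_1 ln15_13_1_ok) (L (nat_lit 461) ln16_13_1 ln16_13_1_ok))))))) (B (M (nat_lit 427) (B (M (nat_lit 426) (B (M (nat_lit 458) (B (L (nat_lit 457) ln13_13_1 ln13_13_1_ok) (L (nat_lit 459) ln14_13_1 ln14_13_1_ok))) (M (nat_lit 462) (B (L (nat_lit 461) ln10_13_0 ln10_13_0_ok) (L (nat_lit 463) ln11_13_0 ln11_13_0_ok))))) (B (M (nat_lit 459) (B (L (nat_lit 458) ln14_13_1 ln14_13_1_ok) (M (nat_lit 364) (B (L (nat_lit 332) ln12_10_5 ln12_10_5_ok) (M (nat_lit 491) (B (L (nat_lit 460) ln12_11_5 ln12_11_5_ok) (L (nat_lit 523) ln11_16_6 ln11_16_6_ok))))))) (M (nat_lit 461) (B (M (nat_lit 462) (B (L (nat_lit 426) ln10_13_0 ln10_13_0_ok) (L (nat_lit 463) ln11_13_0 ln11_13_0_ok))) (M (nat_lit 364) (B (L (nat_lit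 332) ln12_10_4 ln12_10_4_ok) (M (nat_lit 493) (B (L (nat_lit 460) ln12_11_4 ln12_11_4_ok) (L (nat_lit 525) ln13_16_7 ln13_16_7_ok)))))))))) (M (nat_lit 431) (B (L (nat_lit 395) ln15_13_3 ln15_13_3_ok) (M (nat_lit 427) (B (M (nat_lit 399) (B (L (nat_lit 398) ln11_13_2 ln11_13_2_ok) (L (nat_lit 400) ln12_13_2 ln12_13_2_ok))) (M (nat_lit 463) (B (L (nat_lit 462) ln11_13_0 ln11_13_0_ok) (L (nat_lit 464) ln12_13_0 ln12_13_0_ok)))))))))) (B (K (nat_lit 2079502270752001762064242424960807725827516048677469043429686155012882190638009693656033379242457518153052022685796627120027336704) (nat_lit 2026130649693226623645563157575347032939076399333669943144154185618032065855909948871868022224770889348763700810060723148602983002230766908471290102849206578503584942329153191936) (nat_lit 2026130649693226623645563157575347032939076399333669943144154185618032065855909948871868022224770889348763700810060723148602983002230766908471290102849206578503584942329153191936)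 c41_s3594) (B (M (nat_lit 430) (B (M (nat_lit 395) (B (L (nat_lit 431) ln15_13_3 ln15_13_3_ok) (M (nat_lit 394) (B (L (nat_lit 393) ln9_12_0 ln9_12_0_ok) (L (nat_lit 427) ln14_13_3 ln14_13_3_ok))))) (B (M (nat_lit 461) (B (M (nat_lit 364) (B (L (nat_lit 332) ln12_10_4 ln12_10_4_ok) (M (nat_lit 493) (B (L (nat_lit 460) ln12_11_4 ln12_11_4_ok) (L (nat_lit 525) ln13_16_7 ln13_16_7_ok))))) (M (nat_lit 427) (B (M (nat_lit 395) (B (L (nat_lit 394) ln14_13_3 ln14_13_3_ok) (L (nat_lit 431) ln15_13_3 ln15_13_3_ok))) (M (nat_lit 462) (B (L (nat_lit 426) ln10_13_0 ln10_13_0_ok) (L (nat_lit 463) ln11_13_0 ln11_13_0_ok))))))) (B (M (nat_lit 431) (B (L (nat_lit 395) ln15_13_3 ln15_13_3_ok) (M (nat_lit 460) (B (L (nat_lit 459) ln15_13_1 ln15_13_1_ok) (M (nat_lit 461) (B (L (nat_lit 432) ln16_13_1 ln16_13_1_ok) (M (nat_lit 364) (B (L (nat_lit 332) ln12_10_4 ln12_10_4_ok) (L (nat_lit 493) ln12_11_4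 ln12_11_4_ok))))))))) (M (nat_lit 427) (B (M (nat_lit 426) (B (M (nat_lit 458) (B (L (nat_lit 457) ln13_13_1 ln13_13_1_ok) (L (nat_lit 459) ln14_13_1 ln14_13_1_ok))) (M (nat_lit 462) (B (L (nat_lit 461) ln10_13_0 ln10_13_0_ok) (L (nat_lit 463) ln11_13_0 ln11_13_0_ok))))) (B (M (nat_lit 459) (B (L (nat_lit 458) ln14_13_1 ln14_13_1_ok) (M (nat_lit 364) (B (L (nat_lit 332) ln12_10_5 ln12_10_5_ok) (M (nat_lit 491) (B (L (nat_lit 460) ln12_11_5 ln12_11_5_ok) (L (nat_lit 523) ln11_16_6 ln11_16_6_ok))))))) (M (nat_lit 461) (B (M (nat_lit 462) (B (L (nat_lit 426) ln10_13_0 ln10_13_0_ok) (L (nat_lit 463) ln11_13_0 ln11_13_0_ok))) (M (nat_lit 364) (B (L (nat_lit 332) ln12_10_4 ln12_10_4_ok) (M (nat_lit 493) (B (L (nat_lit 460) ln12_11_4 ln12_11_4_ok) (L (nat_lit 525) ln13_16_7 ln13_16_7_ok)))))))))))))) (B c41_n3626 (B (K (nat_lit 2079502270752001762064242424960807725827516048677469043429686155012882190638009693656033379242457518153052022685796627120027336704)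 (nat_lit 137295953247365581540040849083072196457488371532636914308978947116561798333782134669638927939575512624051623259334164365946918910220610800889334923385836142592) (nat_lit 137295953247365581540040849083072196457488371532636914308978947116561798333782134669638927939575512624051623259334164365946918910220610800889334923385836142592) c41_s3736) (B (M (nat_lit 364) (B (M (nat_lit 461) (B (L (nat_lit 332) ln12_10_4 ln12_10_4_ok) (M (nat_lit 493) (B (L (nat_lit 460) ln12_11_4 ln12_11_4_ok) (L (nat_lit 525) ln13_16_7 ln13_16_7_ok))))) (B (M (nat_lit 460) (B (M (nat_lit 492) (B (M (nat_lit 491) (B (L (nat_lit 459) ln12_11_5 ln12_11_5_ok) (L (nat_lit 523) ln12_12_5 ln12_12_5_ok))) (M (nat_lit 493) (B (L (nat_lit 461) ln12_11_4 ln12_11_4_ok) (L (nat_lit 525) ln12_12_4 ln12_12_4_ok))))) (B (M (nat_lit 492) (B (M (nat_lit 363) (B (L (nat_lit 331) ln12_14_7 ln12_14_7_ok) (L (nat_lit 395)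 ln12_15_7 ln12_15_7_ok))) (M (nat_lit 493) (B (L (nat_lit 461) ln12_11_4 ln12_11_4_ok) (L (nat_lit 525) ln12_12_4 ln12_12_4_ok))))) (B (M (nat_lit 492) (B (M (nat_lit 363) (B (L (nat_lit 331) ln12_14_7 ln12_14_7_ok) (L (nat_lit 395) ln12_15_7 ln12_15_7_ok))) (M (nat_lit 491) (B (L (nat_lit 459) ln12_11_5 ln12_11_5_ok) (L (nat_lit 523) ln12_12_5 ln12_12_5_ok))))) (M (nat_lit 461) (B (L (nat_lit 493) ln12_11_4 ln12_11_4_ok) (M (nat_lit 459) (B (L (nat_lit 491) ln12_11_5 ln12_11_5_ok) (M (nat_lit 462) (B (M (nat_lit 427) (B (L (nat_lit 426) ln10_13_0 ln10_13_0_ok) (L (nat_lit 463) ln15_14_3 ln15_14_3_ok))) (B (M (nat_lit 463) (B (L (nat_lit 427) ln15_14_3 ln15_14_3_ok) (L (nat_lit 464) ln16_14_3 ln16_14_3_ok))) (B (M (nat_lit 463) (B (L (nat_lit 464) ln16_14_3 ln16_14_3_ok) (M (nat_lit 495) (B (L (nat_lit 494) ln11_14_0 ln11_14_0_ok) (L (nat_lit 496) ln12_14_0 ln12_14_0_ok))))) (M (nat_lit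 426) (B (L (nat_lit 427) ln10_13_0 ln10_13_0_ok) (M (nat_lit 458) (B (L (nat_lit 425) ln13_14_3 ln13_14_3_ok) (L (nat_lit 457) ln9_14_2 ln9_14_2_ok))))))))))))))))) (B (M (nat_lit 332) (B (L (nat_lit 461) ln12_10_4 ln12_10_4_ok) (M (nat_lit 300) (B (M (nat_lit 299) (B (L (nat_lit 267) ln12_12_7 ln12_12_7_ok) (L (nat_lit 331) ln12_13_7 ln12_13_7_ok))) (M (nat_lit 301) (B (L (nat_lit 269) ln12_12_6 ln12_12_6_ok) (L (nat_lit 333) ln12_13_6 ln12_13_6_ok))))))) (M (nat_lit 460) (B (M (nat_lit 459) (B (L (nat_lit 491) ln12_11_5 ln12_11_5_ok) (M (nat_lit 333) (B (L (nat_lit 365) ln12_14_6 ln12_14_6_ok) (M (nat_lit 332) (B (L (nat_lit 301) ln12_13_6 ln12_13_6_ok) (L (nat_lit 427) ln12_10_5 ln12_10_5_ok))))))) (B (M (nat_lit 492) (B (M (nat_lit 363) (B (L (nat_lit 331) ln12_14_7 ln12_14_7_ok) (L (nat_lit 395) ln12_15_7 ln12_15_7_ok))) (M (nat_lit 491) (B (L (nat_lit 459) ln12_11_5 ln12_11_5_ok)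 (L (nat_lit 523) ln12_12_5 ln12_12_5_ok))))) (M (nat_lit 332) (B (M (nat_lit 331) (B (L (nat_lit 299) ln12_13_7 ln12_13_7_ok) (L (nat_lit 363) ln12_14_7 ln12_14_7_ok))) (M (nat_lit 333) (B (L (nat_lit 301) ln12_13_6 ln12_13_6_ok) (L (nat_lit 365) ln12_14_6 ln12_14_6_ok)))))))))))) (B c41_n3930 (B (K (nat_lit 2079502270752001762064242424960807725827516048677469043429686155012882190638009693656033379242457518153052022685796627120027336704) (nat_lit 109836762600449801719586894216855956199476293541839771058970602687831857026374254215438825765608040798955490331736004988727918020637117327770433074687704563712) (nat_lit 109836762600449801719586894216855956199476293541839771058970602687831857026374254215438825765608040798955490331736004988727918020637117327770433074687704563712) c41_s4030) (B (K (nat_lit 2079502270752001762064242424960807725827516048677469043429686155012882190638009693656033379242457518153052022685796627120027336704)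 (nat_lit 549183812995855667190838406981975473296178253920069854607112383643287660554242306195517755254753834415684592697602283185125726496504345426509907844593300275200) (nat_lit 549183812995855667190838406981975473296178253920069854607112383643287660554242306195517755254753834415684592697602283185125726496504345426509907844593300275200) c41_s4066) (B (K (nat_lit 2079502270752001762064242424960807725827516048677469043429686155012882190638009693656033379242457518153052022685796627120027336704) (nat_lit 506532663042472366377835668382684639624607557632651061536582283073297868134411946401241354818388209767607165261402921464890759184617750239657567892208979017136702090139534360576) (nat_lit 506532663042472366377835668382684639624607557632651061536582283073297868134411946401241354818388209767607165261402921464890759184617750239657567892208979017136702090139534360576) c41_s4252) (M (nat_lit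 459) (B (M (nat_lit 364) (B (M (nat_lit 332) (B (L (nat_lit 427) ln12_10_5 ln12_10_5_ok) (L (nat_lit 461) ln12_10_4 ln12_10_4_ok))) (B (M (nat_lit 491) (B (L (nat_lit 460) ln12_11_5 ln12_11_5_ok) (M (nat_lit 427) (B (L (nat_lit 395) ln11_15_6 ln11_15_6_ok) (L (nat_lit 523) ln11_16_6 ln11_16_6_ok))))) (M (nat_lit 461) (B (L (nat_lit 332) ln12_10_4 ln12_10_4_ok) (M (nat_lit 460) (B (L (nat_lit 491) ln12_11_5 ln12_11_5_ok) (L (nat_lit 493) ln12_11_4 ln12_11_4_ok)))))))) (B (M (nat_lit 430) (B (M (nat_lit 431) (B (L (nat_lit 395) ln15_13_3 ln15_13_3_ok) (L (nat_lit 460) ln15_13_1 ln15_13_1_ok))) (B (M (nat_lit 458) (B (L (nat_lit 427) ln14_13_1 ln14_13_1_ok) (M (nat_lit 460) (B (L (nat_lit 457) ln9_14_2 ln9_14_2_ok) (L (nat_lit 461) ln10_14_2 ln10_14_2_ok))))) (M (nat_lit 427) (B (L (nat_lit 458) ln14_13_1 ln14_13_1_ok) (M (nat_lit 395) (B (L (nat_lit 394) ln14_13_3 ln14_13_3_ok) (L (nat_lit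 431) ln15_13_3 ln15_13_3_ok)))))))) (B (M (nat_lit 427) (B (M (nat_lit 364) (B (L (nat_lit 332) ln12_10_5 ln12_10_5_ok) (M (nat_lit 491) (B (L (nat_lit 460) ln12_11_5 ln12_11_5_ok) (L (nat_lit 523) ln11_16_6 ln11_16_6_ok))))) (M (nat_lit 458) (B (L (nat_lit 430) ln14_13_1 ln14_13_1_ok) (M (nat_lit 457) (B (L (nat_lit 426) ln13_13_1 ln13_13_1_ok) (L (nat_lit 456) ln8_14_2 ln8_14_2_ok))))))) (B (M (nat_lit 460) (B (M (nat_lit 430) (B (L (nat_lit 431) ln15_13_1 ln15_13_1_ok) (M (nat_lit 458) (B (L (nat_lit 457) ln9_14_2 ln9_14_2_ok) (L (nat_lit 461) ln10_14_2 ln10_14_2_ok))))) (B (M (nat_lit 364) (B (L (nat_lit 491) ln12_11_5 ln12_11_5_ok) (M (nat_lit 461) (B (L (nat_lit 332) ln12_10_4 ln12_10_4_ok) (L (nat_lit 493) ln12_11_4 ln12_11_4_ok))))) (M (nat_lit 491) (B (L (nat_lit 364) ln12_11_5 ln12_11_5_ok) (M (nat_lit 523) (B (L (nat_lit 492) ln12_12_5 ln12_12_5_ok) (L (nat_lit 555) ln11_17_6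 ln11_17_6_ok)))))))) (M (nat_lit 427) (B (M (nat_lit 458) (B (L (nat_lit 430) ln14_13_1 ln14_13_1_ok) (M (nat_lit 457) (B (L (nat_lit 426) ln13_13_1 ln13_13_1_ok) (L (nat_lit 456) ln8_14_2 ln8_14_2_ok))))) (M (nat_lit 364) (B (L (nat_lit 332) ln12_10_5 ln12_10_5_ok) (M (nat_lit 491) (B (L (nat_lit 395) ln11_15_6 ln11_15_6_ok) (L (nat_lit 523) ln11_16_6 ln11_16_6_ok))))))))))))))))))))))))))) (nat_lit 1386334847221798047169638878925036799968406779833514899637066259859226863686603287896039777716422623628704219945445734162783797248) (nat_lit 2532663311910144709840819371182020539895840000507075058513873897490308470626708845980976690587162054089828777279318665716941471804854291122788389534129155732069956678635304779776) (nat_lit 2532663311910144709840819371182020539895840000507075058513873897490308470626708845980976690587162054089828777279318665716941471804854291122788389534129155732069956678635304779776)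 (by decide +kernel)
noncomputable def c41_n4352 : Cert := (M (nat_lit 427) (B (M (nat_lit 426) (B (M (nat_lit 425) (B (L (nat_lit 397) ln9_13_2 ln9_13_2_ok) (M (nat_lit 393) (B (L (nat_lit 392) ln12_13_3 ln12_13_3_ok) (L (nat_lit 394) ln13_13_3 ln13_13_3_ok))))) (M (nat_lit 430) (B (M (nat_lit 458) (B (L (nat_lit 457) ln13_13_1 ln13_13_1_ok) (L (nat_lit 459) ln14_13_1 ln14_13_1_ok))) (M (nat_lit 462) (B (L (nat_lit 461) ln10_13_0 ln10_13_0_ok) (L (nat_lit 463) ln11_13_0 ln11_13_0_ok))))))) (B (M (nat_lit 395) (B (M (nat_lit 394) (B (L (nat_lit 393) ln9_12_0 ln9_12_0_ok) (L (nat_lit 430) ln14_13_3 ln14_13_3_ok))) (B (M (nat_lit 430) (B (L (nat_lit 394) ln14_13_3 ln14_13_3_ok) (L (nat_lit 431) ln15_13_3 ln15_13_3_ok))) (M (nat_lit 491) (B (M (nat_lit 524) (B (L (nat_lit 460) ln12_16_7 ln12_16_7_ok) (L (nat_lit 459) ln11_12_4 ln11_12_4_ok))) (B (M (nat_lit 460) (B (L (nat_lit 524) ln12_16_7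 ln12_16_7_ok) (L (nat_lit 523) ln12_12_5 ln12_12_5_ok))) (B (M (nat_lit 459) (B (L (nat_lit 524) ln11_12_4 ln11_12_4_ok) (L (nat_lit 523) ln11_16_6 ln11_16_6_ok))) (M (nat_lit 523) (B (L (nat_lit 459) ln11_16_6 ln11_16_6_ok) (L (nat_lit 460) ln12_12_5 ln12_12_5_ok)))))))))) (B (M (nat_lit 395) (B (M (nat_lit 430) (B (L (nat_lit 394) ln14_13_3 ln14_13_3_ok) (L (nat_lit 431) ln15_13_3 ln15_13_3_ok))) (M (nat_lit 491) (B (M (nat_lit 524) (B (L (nat_lit 460) ln12_16_7 ln12_16_7_ok) (L (nat_lit 459) ln11_12_4 ln11_12_4_ok))) (B (M (nat_lit 460) (B (L (nat_lit 524) ln12_16_7 ln12_16_7_ok) (L (nat_lit 523) ln12_12_5 ln12_12_5_ok))) (B (M (nat_lit 459) (B (L (nat_lit 524) ln11_12_4 ln11_12_4_ok) (L (nat_lit 523) ln11_16_6 ln11_16_6_ok))) (M (nat_lit 523) (B (L (nat_lit 459) ln11_16_6 ln11_16_6_ok) (L (nat_lit 460) ln12_12_5 ln12_12_5_ok))))))))) (B (M (nat_lit 461) (B (M (nat_lit 462) (B (L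 (nat_lit 426) ln10_13_0 ln10_13_0_ok) (M (nat_lit 463) (B (L (nat_lit 460) ln15_14_3 ln15_14_3_ok) (L (nat_lit 464) ln16_14_3 ln16_14_3_ok))))) (B (M (nat_lit 524) (B (M (nat_lit 460) (B (L (nat_lit 395) ln12_16_7 ln12_16_7_ok) (L (nat_lit 397) ln12_16_6 ln12_16_6_ok))) (B (M (nat_lit 460) (B (L (nat_lit 397) ln12_16_6 ln12_16_6_ok) (L (nat_lit 556) ln12_17_6 ln12_17_6_ok))) (B (M (nat_lit 460) (B (L (nat_lit 395) ln12_16_7 ln12_16_7_ok) (L (nat_lit 556) ln12_17_6 ln12_17_6_ok))) (M (nat_lit 493) (B (L (nat_lit 525) ln13_16_7 ln13_16_7_ok) (L (nat_lit 397) ln13_12_5 ln13_12_5_ok))))))) (M (nat_lit 462) (B (L (nat_lit 426) ln10_13_0 ln10_13_0_ok) (M (nat_lit 463) (B (L (nat_lit 430) ln11_13_0 ln11_13_0_ok) (L (nat_lit 464) ln16_14_3 ln16_14_3_ok)))))))) (M (nat_lit 461) (B (M (nat_lit 462) (B (L (nat_lit 426) ln10_13_0 ln10_13_0_ok) (M (nat_lit 463) (B (L (nat_lit 460) ln15_14_3 ln15_14_3_ok)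 (L (nat_lit 464) ln16_14_3 ln16_14_3_ok))))) (B (M (nat_lit 524) (B (M (nat_lit 460) (B (L (nat_lit 395) ln12_16_7 ln12_16_7_ok) (L (nat_lit 397) ln12_16_6 ln12_16_6_ok))) (B (M (nat_lit 460) (B (L (nat_lit 397) ln12_16_6 ln12_16_6_ok) (L (nat_lit 556) ln12_17_6 ln12_17_6_ok))) (B (M (nat_lit 460) (B (L (nat_lit 395) ln12_16_7 ln12_16_7_ok) (L (nat_lit 556) ln12_17_6 ln12_17_6_ok))) (M (nat_lit 493) (B (L (nat_lit 525) ln13_16_7 ln13_16_7_ok) (L (nat_lit 397) ln13_12_5 ln13_12_5_ok))))))) (M (nat_lit 397) (B (M (nat_lit 426) (B (L (nat_lit 425) ln9_13_2 ln9_13_2_ok) (L (nat_lit 462) ln10_13_0 ln10_13_0_ok))) (M (nat_lit 493) (B (L (nat_lit 525) ln13_16_7 ln13_16_7_ok) (L (nat_lit 524) ln13_12_5 ln13_12_5_ok)))))))))))))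
theorem c41_s4531 : Sem (nat_lit 2079502270752001762064242424960807725827516048677469043429686155012882190638009693656033379242457518153052022685796627120027336704) (nat_lit 825554280841600030818252138314249877426234412282095200464004028508347075590581954209239665100197786725557173454671150798084343941291885460595732483695641238191883681792) (nat_lit 825554280841600030818252138314249877426234412282095200464004028508347075590581954209239665100197786725557173454671150798084343941291885460595732483695641238191883681792) :=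
  sem_of_chk (M (nat_lit 492) (B (M (nat_lit 395) (B (M (nat_lit 460) (B (L (nat_lit 363) ln12_15_7 ln12_15_7_ok) (M (nat_lit 397) (B (L (nat_lit 365) ln12_15_6 ln12_15_6_ok) (L (nat_lit 524) ln12_16_6 ln12_16_6_ok))))) (M (nat_lit 430) (B (L (nat_lit 431) ln15_13_3 ln15_13_3_ok) (M (nat_lit 394) (B (L (nat_lit 393) ln9_12_0 ln9_12_0_ok) (L (nat_lit 427) ln14_13_3 ln14_13_3_ok))))))) (B c41_n4352 (B (M (nat_lit 395) (B (M (nat_lit 430) (B (L (nat_lit 431) ln15_13_3 ln15_13_3_ok) (M (nat_lit 394) (B (L (nat_lit 397) ln10_12_0 ln10_12_0_ok) (L (nat_lit 427) ln14_13_3 ln14_13_3_ok))))) (B (M (nat_lit 460) (B (L (nat_lit 363) ln12_15_7 ln12_15_7_ok) (M (nat_lit 397) (B (L (nat_lit 365) ln12_15_6 ln12_15_6_ok) (L (nat_lit 524) ln12_16_6 ln12_16_6_ok))))) (M (nat_lit 427) (B (M (nat_lit 430) (B (L (nat_lit 394) ln14_13_3 ln14_13_3_ok) (L (nat_lit 431) ln15_13_3 ln15_13_3_ok))) (M (nat_lit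 460) (B (L (nat_lit 363) ln12_15_7 ln12_15_7_ok) (L (nat_lit 524) ln12_16_7 ln12_16_7_ok)))))))) (B (M (nat_lit 461) (B (M (nat_lit 493) (B (L (nat_lit 525) ln13_16_7 ln13_16_7_ok) (M (nat_lit 397) (B (L (nat_lit 524) ln13_12_5 ln13_12_5_ok) (M (nat_lit 365) (B (L (nat_lit 460) ln12_15_6 ln12_15_6_ok) (M (nat_lit 494) (B (L (nat_lit 462) ln13_11_4 ln13_11_4_ok) (L (nat_lit 526) ln13_12_4 ln13_12_4_ok))))))))) (B (M (nat_lit 524) (B (M (nat_lit 397) (B (L (nat_lit 460) ln12_16_6 ln12_16_6_ok) (L (nat_lit 493) ln13_12_5 ln13_12_5_ok))) (B (M (nat_lit 460) (B (L (nat_lit 556) ln12_17_6 ln12_17_6_ok) (M (nat_lit 395) (B (L (nat_lit 363) ln12_15_7 ln12_15_7_ok) (L (nat_lit 427) ln12_16_7 ln12_16_7_ok))))) (M (nat_lit 493) (B (L (nat_lit 525) ln13_16_7 ln13_16_7_ok) (L (nat_lit 397) ln13_12_5 ln13_12_5_ok)))))) (B (M (nat_lit 460) (B (M (nat_lit 524) (B (L (nat_lit 556) ln12_17_6 ln12_17_6_ok)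 (M (nat_lit 523) (B (L (nat_lit 491) ln12_12_5 ln12_12_5_ok) (L (nat_lit 555) ln12_13_5 ln12_13_5_ok))))) (B (M (nat_lit 395) (B (L (nat_lit 363) ln12_15_7 ln12_15_7_ok) (M (nat_lit 524) (B (L (nat_lit 427) ln12_16_7 ln12_16_7_ok) (L (nat_lit 556) ln12_17_6 ln12_17_6_ok))))) (M (nat_lit 493) (B (L (nat_lit 525) ln13_16_7 ln13_16_7_ok) (M (nat_lit 491) (B (L (nat_lit 523) ln12_12_5 ln12_12_5_ok) (M (nat_lit 462) (B (L (nat_lit 463) ln15_14_1 ln15_14_1_ok) (L (nat_lit 490) ln10_15_2 ln10_15_2_ok)))))))))) (B (M (nat_lit 397) (B (M (nat_lit 493) (B (L (nat_lit 525) ln13_16_7 ln13_16_7_ok) (L (nat_lit 524) ln13_12_5 ln13_12_5_ok))) (M (nat_lit 430) (B (M (nat_lit 431) (B (L (nat_lit 395) ln15_13_3 ln15_13_3_ok) (L (nat_lit 432) ln16_13_3 ln16_13_3_ok))) (M (nat_lit 462) (B (M (nat_lit 494) (B (L (nat_lit 365) ln13_11_4 ln13_11_4_ok) (L (nat_lit 526) ln14_16_7 ln14_16_7_ok))) (M (nat_lit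 463) (B (L (nat_lit 427) ln11_13_0 ln11_13_0_ok) (L (nat_lit 464) ln16_14_3 ln16_14_3_ok))))))))) (B (M (nat_lit 460) (B (M (nat_lit 397) (B (L (nat_lit 365) ln12_15_6 ln12_15_6_ok) (L (nat_lit 524) ln12_16_6 ln12_16_6_ok))) (B (M (nat_lit 524) (B (L (nat_lit 397) ln12_16_6 ln12_16_6_ok) (L (nat_lit 556) ln12_17_6 ln12_17_6_ok))) (B (M (nat_lit 395) (B (L (nat_lit 363) ln12_15_7 ln12_15_7_ok) (M (nat_lit 524) (B (L (nat_lit 427) ln12_16_7 ln12_16_7_ok) (L (nat_lit 556) ln12_17_6 ln12_17_6_ok))))) (M (nat_lit 491) (B (L (nat_lit 523) ln12_12_5 ln12_12_5_ok) (M (nat_lit 462) (B (L (nat_lit 463) ln15_14_1 ln15_14_1_ok) (M (nat_lit 490) (B (L (nat_lit 459) ln14_14_1 ln14_14_1_ok) (L (nat_lit 489) ln9_15_2 ln9_15_2_ok))))))))))) (M (nat_lit 460) (B (M (nat_lit 493) (B (L (nat_lit 525) ln13_16_7 ln13_16_7_ok) (M (nat_lit 491) (B (L (nat_lit 523) ln12_12_5 ln12_12_5_ok) (M (nat_lit 462) (B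 (L (nat_lit 463) ln15_14_1 ln15_14_1_ok) (L (nat_lit 490) ln10_15_2 ln10_15_2_ok))))))) (B (M (nat_lit 493) (B (L (nat_lit 525) ln13_16_7 ln13_16_7_ok) (M (nat_lit 494) (B (M (nat_lit 397) (B (L (nat_lit 365) ln12_15_6 ln12_15_6_ok) (L (nat_lit 526) ln13_12_4 ln13_12_4_ok))) (M (nat_lit 495) (B (L (nat_lit 459) ln15_15_3 ln15_15_3_ok) (L (nat_lit 496) ln16_15_3 ln16_15_3_ok))))))) (M (nat_lit 491) (B (L (nat_lit 523) ln12_12_5 ln12_12_5_ok) (M (nat_lit 462) (B (L (nat_lit 463) ln15_14_1 ln15_14_1_ok) (M (nat_lit 490) (B (L (nat_lit 459) ln14_14_1 ln14_14_1_ok) (L (nat_lit 489) ln9_15_2 ln9_15_2_ok)))))))))))))))) (B (M (nat_lit 461) (B (M (nat_lit 493) (B (L (nat_lit 525) ln13_16_7 ln13_16_7_ok) (M (nat_lit 397) (B (L (nat_lit 524) ln13_12_5 ln13_12_5_ok) (M (nat_lit 365) (B (L (nat_lit 460) ln12_15_6 ln12_15_6_ok) (M (nat_lit 494) (B (L (nat_lit 462) ln13_11_4 ln13_11_4_ok) (L (nat_lit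 526) ln13_12_4 ln13_12_4_ok))))))))) (B (M (nat_lit 524) (B (M (nat_lit 397) (B (L (nat_lit 460) ln12_16_6 ln12_16_6_ok) (L (nat_lit 493) ln13_12_5 ln13_12_5_ok))) (B (M (nat_lit 460) (B (L (nat_lit 556) ln12_17_6 ln12_17_6_ok) (M (nat_lit 525) (B (L (nat_lit 493) ln13_16_7 ln13_16_7_ok) (L (nat_lit 557) ln12_13_4 ln12_13_4_ok))))) (B (M (nat_lit 493) (B (L (nat_lit 525) ln13_16_7 ln13_16_7_ok) (L (nat_lit 397) ln13_12_5 ln13_12_5_ok))) (M (nat_lit 460) (B (L (nat_lit 397) ln12_16_6 ln12_16_6_ok) (L (nat_lit 556) ln12_17_6 ln12_17_6_ok))))))) (B (M (nat_lit 460) (B (M (nat_lit 525) (B (L (nat_lit 493) ln13_16_7 ln13_16_7_ok) (M (nat_lit 524) (B (L (nat_lit 557) ln12_13_4 ln12_13_4_ok) (L (nat_lit 556) ln12_17_6 ln12_17_6_ok))))) (M (nat_lit 491) (B (L (nat_lit 523) ln12_12_5 ln12_12_5_ok) (M (nat_lit 462) (B (L (nat_lit 463) ln15_14_1 ln15_14_1_ok) (M (nat_lit 490) (B (L (nat_lit 459)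 ln14_14_1 ln14_14_1_ok) (L (nat_lit 489) ln9_15_2 ln9_15_2_ok))))))))) (B (M (nat_lit 493) (B (L (nat_lit 525) ln13_16_7 ln13_16_7_ok) (M (nat_lit 462) (B (M (nat_lit 397) (B (L (nat_lit 524) ln13_12_5 ln13_12_5_ok) (M (nat_lit 494) (B (L (nat_lit 365) ln13_11_4 ln13_11_4_ok) (L (nat_lit 526) ln13_12_4 ln13_12_4_ok))))) (M (nat_lit 427) (B (L (nat_lit 426) ln10_13_0 ln10_13_0_ok) (M (nat_lit 463) (B (L (nat_lit 430) ln11_13_0 ln11_13_0_ok) (L (nat_lit 464) ln16_14_3 ln16_14_3_ok))))))))) (B (M (nat_lit 460) (B (M (nat_lit 397) (B (L (nat_lit 365) ln12_15_6 ln12_15_6_ok) (L (nat_lit 524) ln12_16_6 ln12_16_6_ok))) (M (nat_lit 491) (B (L (nat_lit 523) ln12_12_5 ln12_12_5_ok) (M (nat_lit 462) (B (L (nat_lit 463) ln15_14_1 ln15_14_1_ok) (M (nat_lit 490) (B (L (nat_lit 459) ln14_14_1 ln14_14_1_ok) (L (nat_lit 489) ln9_15_2 ln9_15_2_ok))))))))) (M (nat_lit 460) (B (M (nat_lit 493) (B (L (nat_lit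 525) ln13_16_7 ln13_16_7_ok) (M (nat_lit 491) (B (L (nat_lit 523) ln12_12_5 ln12_12_5_ok) (M (nat_lit 462) (B (L (nat_lit 463) ln15_14_1 ln15_14_1_ok) (L (nat_lit 490) ln10_15_2 ln10_15_2_ok))))))) (B (M (nat_lit 493) (B (L (nat_lit 525) ln13_16_7 ln13_16_7_ok) (M (nat_lit 494) (B (M (nat_lit 397) (B (L (nat_lit 365) ln12_15_6 ln12_15_6_ok) (L (nat_lit 526) ln13_12_4 ln13_12_4_ok))) (M (nat_lit 495) (B (L (nat_lit 459) ln15_15_3 ln15_15_3_ok) (L (nat_lit 496) ln16_15_3 ln16_15_3_ok))))))) (M (nat_lit 491) (B (L (nat_lit 523) ln12_12_5 ln12_12_5_ok) (M (nat_lit 462) (B (L (nat_lit 463) ln15_14_1 ln15_14_1_ok) (M (nat_lit 490) (B (L (nat_lit 459) ln14_14_1 ln14_14_1_ok) (L (nat_lit 489) ln9_15_2 ln9_15_2_ok)))))))))))))))) (B (M (nat_lit 460) (B (M (nat_lit 395) (B (L (nat_lit 363) ln12_15_7 ln12_15_7_ok) (M (nat_lit 524) (B (L (nat_lit 427) ln12_16_7 ln12_16_7_ok) (M (nat_lit 523) (B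 (L (nat_lit 491) ln12_12_5 ln12_12_5_ok) (L (nat_lit 555) ln12_13_5 ln12_13_5_ok))))))) (B (M (nat_lit 524) (B (M (nat_lit 523) (B (L (nat_lit 491) ln12_12_5 ln12_12_5_ok) (L (nat_lit 555) ln12_13_5 ln12_13_5_ok))) (M (nat_lit 525) (B (L (nat_lit 493) ln12_12_4 ln12_12_4_ok) (L (nat_lit 557) ln12_13_4 ln12_13_4_ok))))) (B (M (nat_lit 524) (B (M (nat_lit 395) (B (L (nat_lit 363) ln12_15_7 ln12_15_7_ok) (L (nat_lit 427) ln12_16_7 ln12_16_7_ok))) (M (nat_lit 525) (B (L (nat_lit 493) ln12_12_4 ln12_12_4_ok) (L (nat_lit 557) ln12_13_4 ln12_13_4_ok))))) (M (nat_lit 395) (B (L (nat_lit 363) ln12_15_7 ln12_15_7_ok) (M (nat_lit 430) (B (L (nat_lit 431) ln15_13_3 ln15_13_3_ok) (M (nat_lit 394) (B (L (nat_lit 393) ln9_12_0 ln9_12_0_ok) (L (nat_lit 427) ln14_13_3 ln14_13_3_ok))))))))))) (B (M (nat_lit 395) (B (M (nat_lit 430) (B (L (nat_lit 431) ln15_13_3 ln15_13_3_ok) (M (nat_lit 394) (B (L (nat_lit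 393) ln9_12_0 ln9_12_0_ok) (L (nat_lit 397) ln10_12_0 ln10_12_0_ok))))) (B (M (nat_lit 460) (B (L (nat_lit 363) ln12_15_7 ln12_15_7_ok) (M (nat_lit 397) (B (L (nat_lit 365) ln12_15_6 ln12_15_6_ok) (L (nat_lit 524) ln12_16_6 ln12_16_6_ok))))) (M (nat_lit 460) (B (L (nat_lit 363) ln12_15_7 ln12_15_7_ok) (M (nat_lit 524) (B (M (nat_lit 523) (B (L (nat_lit 491) ln12_12_5 ln12_12_5_ok) (L (nat_lit 555) ln12_13_5 ln12_13_5_ok))) (M (nat_lit 525) (B (L (nat_lit 493) ln12_12_4 ln12_12_4_ok) (L (nat_lit 557) ln12_13_4 ln12_13_4_ok)))))))))) (B (M (nat_lit 460) (B (M (nat_lit 397) (B (L (nat_lit 365) ln12_15_6 ln12_15_6_ok) (L (nat_lit 524) ln12_16_6 ln12_16_6_ok))) (B (M (nat_lit 524) (B (L (nat_lit 397) ln12_16_6 ln12_16_6_ok) (M (nat_lit 523) (B (L (nat_lit 491) ln12_12_5 ln12_12_5_ok) (L (nat_lit 555) ln12_13_5 ln12_13_5_ok))))) (B (M (nat_lit 524) (B (M (nat_lit 523) (B (L (nat_lit 491)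 ln12_12_5 ln12_12_5_ok) (L (nat_lit 555) ln12_13_5 ln12_13_5_ok))) (M (nat_lit 525) (B (L (nat_lit 493) ln12_12_4 ln12_12_4_ok) (L (nat_lit 557) ln12_13_4 ln12_13_4_ok))))) (M (nat_lit 461) (B (M (nat_lit 493) (B (L (nat_lit 525) ln13_16_7 ln13_16_7_ok) (M (nat_lit 491) (B (L (nat_lit 523) ln12_12_5 ln12_12_5_ok) (M (nat_lit 462) (B (L (nat_lit 463) ln15_14_1 ln15_14_1_ok) (L (nat_lit 490) ln10_15_2 ln10_15_2_ok))))))) (B (M (nat_lit 493) (B (L (nat_lit 525) ln13_16_7 ln13_16_7_ok) (M (nat_lit 494) (B (M (nat_lit 397) (B (L (nat_lit 365) ln12_15_6 ln12_15_6_ok) (L (nat_lit 526) ln13_12_4 ln13_12_4_ok))) (M (nat_lit 495) (B (L (nat_lit 459) ln15_15_3 ln15_15_3_ok) (L (nat_lit 496) ln16_15_3 ln16_15_3_ok))))))) (M (nat_lit 491) (B (L (nat_lit 523) ln12_12_5 ln12_12_5_ok) (M (nat_lit 462) (B (L (nat_lit 463) ln15_14_1 ln15_14_1_ok) (M (nat_lit 490) (B (L (nat_lit 459) ln14_14_1 ln14_14_1_ok)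 (L (nat_lit 489) ln9_15_2 ln9_15_2_ok)))))))))))))) (B (M (nat_lit 430) (B (M (nat_lit 395) (B (L (nat_lit 431) ln15_13_3 ln15_13_3_ok) (M (nat_lit 394) (B (L (nat_lit 393) ln9_12_0 ln9_12_0_ok) (L (nat_lit 397) ln10_12_0 ln10_12_0_ok))))) (B (M (nat_lit 395) (B (L (nat_lit 431) ln15_13_3 ln15_13_3_ok) (M (nat_lit 394) (B (L (nat_lit 397) ln10_12_0 ln10_12_0_ok) (L (nat_lit 427) ln14_13_3 ln14_13_3_ok))))) (B (M (nat_lit 431) (B (L (nat_lit 395) ln15_13_3 ln15_13_3_ok) (M (nat_lit 400) (B (L (nat_lit 399) ln12_13_2 ln12_13_2_ok) (M (nat_lit 432) (B (L (nat_lit 397) ln16_13_3 ln16_13_3_ok) (L (nat_lit 401) ln13_13_2 ln13_13_2_ok))))))) (B (M (nat_lit 427) (B (M (nat_lit 462) (B (L (nat_lit 463) ln11_13_0 ln11_13_0_ok) (M (nat_lit 426) (B (L (nat_lit 461) ln10_13_0 ln10_13_0_ok) (M (nat_lit 458) (B (L (nat_lit 457) ln13_13_1 ln13_13_1_ok) (L (nat_lit 459) ln14_13_1 ln14_13_1_ok)))))))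 (B (M (nat_lit 431) (B (M (nat_lit 463) (B (L (nat_lit 462) ln11_13_0 ln11_13_0_ok) (L (nat_lit 464) ln12_13_0 ln12_13_0_ok))) (M (nat_lit 400) (B (L (nat_lit 399) ln12_13_2 ln12_13_2_ok) (M (nat_lit 432) (B (L (nat_lit 397) ln16_13_3 ln16_13_3_ok) (L (nat_lit 401) ln13_13_2 ln13_13_2_ok))))))) (M (nat_lit 426) (B (M (nat_lit 458) (B (L (nat_lit 457) ln13_13_1 ln13_13_1_ok) (L (nat_lit 459) ln14_13_1 ln14_13_1_ok))) (M (nat_lit 393) (B (L (nat_lit 394) ln13_13_3 ln13_13_3_ok) (M (nat_lit 425) (B (L (nat_lit 392) ln12_13_3 ln12_13_3_ok) (L (nat_lit 397) ln9_13_2 ln9_13_2_ok)))))))))) (B (M (nat_lit 395) (B (L (nat_lit 431) ln15_13_3 ln15_13_3_ok) (M (nat_lit 394) (B (L (nat_lit 393) ln9_12_0 ln9_12_0_ok) (L (nat_lit 427) ln14_13_3 ln14_13_3_ok))))) (M (nat_lit 395) (B (M (nat_lit 394) (B (L (nat_lit 393) ln9_12_0 ln9_12_0_ok) (L (nat_lit 397) ln10_12_0 ln10_12_0_ok))) (B (M (nat_lit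 394) (B (L (nat_lit 397) ln10_12_0 ln10_12_0_ok) (L (nat_lit 427) ln14_13_3 ln14_13_3_ok))) (B (M (nat_lit 427) (B (M (nat_lit 459) (B (L (nat_lit 458) ln14_13_1 ln14_13_1_ok) (M (nat_lit 491) (B (L (nat_lit 524) ln11_12_4 ln11_12_4_ok) (L (nat_lit 523) ln11_16_6 ln11_16_6_ok))))) (M (nat_lit 426) (B (M (nat_lit 425) (B (L (nat_lit 424) ln8_13_2 ln8_13_2_ok) (L (nat_lit 397) ln9_13_2 ln9_13_2_ok))) (M (nat_lit 462) (B (L (nat_lit 461) ln10_13_0 ln10_13_0_ok) (L (nat_lit 463) ln11_13_0 ln11_13_0_ok))))))) (M (nat_lit 394) (B (L (nat_lit 393) ln9_12_0 ln9_12_0_ok) (L (nat_lit 427) ln14_13_3 ln14_13_3_ok))))))))))))) (M (nat_lit 460) (B (M (nat_lit 395) (B (L (nat_lit 363) ln12_15_7 ln12_15_7_ok) (M (nat_lit 430) (B (L (nat_lit 431) ln15_13_3 ln15_13_3_ok) (M (nat_lit 394) (B (L (nat_lit 393) ln9_12_0 ln9_12_0_ok) (L (nat_lit 427) ln14_13_3 ln14_13_3_ok))))))) (M (nat_lit 461) (B (M (nat_lit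 493) (B (L (nat_lit 525) ln13_16_7 ln13_16_7_ok) (M (nat_lit 491) (B (L (nat_lit 523) ln12_12_5 ln12_12_5_ok) (M (nat_lit 462) (B (L (nat_lit 463) ln15_14_1 ln15_14_1_ok) (L (nat_lit 490) ln10_15_2 ln10_15_2_ok))))))) (B (M (nat_lit 493) (B (L (nat_lit 525) ln13_16_7 ln13_16_7_ok) (M (nat_lit 494) (B (M (nat_lit 397) (B (L (nat_lit 365) ln12_15_6 ln12_15_6_ok) (L (nat_lit 526) ln13_12_4 ln13_12_4_ok))) (M (nat_lit 495) (B (L (nat_lit 459) ln15_15_3 ln15_15_3_ok) (L (nat_lit 496) ln16_15_3 ln16_15_3_ok))))))) (M (nat_lit 491) (B (L (nat_lit 523) ln12_12_5 ln12_12_5_ok) (M (nat_lit 462) (B (L (nat_lit 463) ln15_14_1 ln15_14_1_ok) (M (nat_lit 490) (B (L (nat_lit 459) ln14_14_1 ln14_14_1_ok) (L (nat_lit 489) ln9_15_2 ln9_15_2_ok)))))))))))))))))))))) (nat_lit 2079502270752001762064242424960807725827516048677469043429686155012882190638009693656033379242457518153052022685796627120027336704)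 (nat_lit 825554280841600030818252138314249877426234412282095200464004028508347075590581954209239665100197786725557173454671150798084343941291885460595732483695641238191883681792) (nat_lit 825554280841600030818252138314249877426234412282095200464004028508347075590581954209239665100197786725557173454671150798084343941291885460595732483695641238191883681792) (by decide +kernel)
noncomputable def c41_n4658 : Cert := (M (nat_lit 461) (B (M (nat_lit 493) (B (L (nat_lit 525) ln13_16_7 ln13_16_7_ok) (M (nat_lit 364) (B (L (nat_lit 332) ln12_10_4 ln12_10_4_ok) (L (nat_lit 460) ln12_11_4 ln12_11_4_ok))))) (B (M (nat_lit 493) (B (L (nat_lit 525) ln13_16_7 ln13_16_7_ok) (M (nat_lit 364) (B (L (nat_lit 397) ln13_15_7 ln13_15_7_ok) (L (nat_lit 460) ln12_11_4 ln12_11_4_ok))))) (B (M (nat_lit 462) (B (M (nat_lit 427) (B (L (nat_lit 426) ln10_13_0 ln10_13_0_ok) (M (nat_lit 463) (B (L (nat_lit 430)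 ln11_13_0 ln11_13_0_ok) (L (nat_lit 464) ln16_14_3 ln16_14_3_ok))))) (B (M (nat_lit 463) (B (L (nat_lit 464) ln16_14_3 ln16_14_3_ok) (M (nat_lit 427) (B (L (nat_lit 430) ln11_13_0 ln11_13_0_ok) (L (nat_lit 460) ln15_14_3 ln15_14_3_ok))))) (B (M (nat_lit 463) (B (L (nat_lit 464) ln16_14_3 ln16_14_3_ok) (M (nat_lit 492) (B (M (nat_lit 493) (B (L (nat_lit 525) ln13_16_7 ln13_16_7_ok) (M (nat_lit 491) (B (L (nat_lit 490) ln10_15_2 ln10_15_2_ok) (L (nat_lit 494) ln11_15_2 ln11_15_2_ok))))) (B (M (nat_lit 460) (B (L (nat_lit 491) ln15_14_1 ln15_14_1_ok) (M (nat_lit 397) (B (L (nat_lit 365) ln12_15_6 ln12_15_6_ok) (L (nat_lit 524) ln12_16_6 ln12_16_6_ok))))) (M (nat_lit 397) (B (M (nat_lit 365) (B (L (nat_lit 460) ln12_15_6 ln12_15_6_ok) (L (nat_lit 494) ln13_11_4 ln13_11_4_ok))) (B (M (nat_lit 524) (B (L (nat_lit 460) ln12_16_6 ln12_16_6_ok) (L (nat_lit 493) ln13_12_5 ln13_12_5_ok))) (M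 (nat_lit 493) (B (L (nat_lit 525) ln13_16_7 ln13_16_7_ok) (L (nat_lit 524) ln13_12_5 ln13_12_5_ok))))))))))) (M (nat_lit 492) (B (M (nat_lit 493) (B (L (nat_lit 525) ln13_16_7 ln13_16_7_ok) (M (nat_lit 397) (B (L (nat_lit 524) ln13_12_5 ln13_12_5_ok) (M (nat_lit 494) (B (L (nat_lit 365) ln13_11_4 ln13_11_4_ok) (L (nat_lit 526) ln13_12_4 ln13_12_4_ok))))))) (B (M (nat_lit 395) (B (M (nat_lit 430) (B (L (nat_lit 431) ln15_13_3 ln15_13_3_ok) (M (nat_lit 427) (B (L (nat_lit 394) ln14_13_3 ln14_13_3_ok) (L (nat_lit 426) ln10_13_0 ln10_13_0_ok))))) (M (nat_lit 491) (B (M (nat_lit 460) (B (L (nat_lit 363) ln12_15_7 ln12_15_7_ok) (L (nat_lit 523) ln12_12_5 ln12_12_5_ok))) (M (nat_lit 493) (B (L (nat_lit 525) ln13_16_7 ln13_16_7_ok) (L (nat_lit 490) ln10_15_2 ln10_15_2_ok))))))) (M (nat_lit 427) (B (L (nat_lit 426) ln10_13_0 ln10_13_0_ok) (M (nat_lit 395) (B (M (nat_lit 394) (B (L (nat_lit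 393) ln9_12_0 ln9_12_0_ok) (L (nat_lit 430) ln14_13_3 ln14_13_3_ok))) (M (nat_lit 460) (B (L (nat_lit 363) ln12_15_7 ln12_15_7_ok) (L (nat_lit 524) ln12_16_7 ln12_16_7_ok)))))))))))))) (B (M (nat_lit 493) (B (L (nat_lit 525) ln13_16_7 ln13_16_7_ok) (M (nat_lit 364) (B (L (nat_lit 332) ln12_10_4 ln12_10_4_ok) (L (nat_lit 397) ln13_15_7 ln13_15_7_ok))))) (M (nat_lit 364) (B (L (nat_lit 332) ln12_10_4 ln12_10_4_ok) (M (nat_lit 365) (B (M (nat_lit 333) (B (L (nat_lit 460) ln12_14_6 ln12_14_6_ok) (M (nat_lit 301) (B (L (nat_lit 269) ln13_8_5 ln13_8_5_ok) (L (nat_lit 397) ln13_9_5 ln13_9_5_ok))))) (B (M (nat_lit 460) (B (L (nat_lit 333) ln12_14_6 ln12_14_6_ok) (M (nat_lit 492) (B (L (nat_lit 397) ln12_15_6 ln12_15_6_ok) (M (nat_lit 363) (B (L (nat_lit 331) ln12_14_7 ln12_14_7_ok) (L (nat_lit 395) ln12_15_7 ln12_15_7_ok))))))) (B (M (nat_lit 366) (B (M (nat_lit 395) (B (L (nat_lit 367) ln15_11_1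 ln15_11_1_ok) (M (nat_lit 394) (B (L (nat_lit 363) ln14_11_1 ln14_11_1_ok) (L (nat_lit 393) ln9_12_2 ln9_12_2_ok))))) (B (M (nat_lit 397) (B (L (nat_lit 334) ln13_14_6 ln13_14_6_ok) (M (nat_lit 367) (B (L (nat_lit 395) ln15_11_1 ln15_11_1_ok) (L (nat_lit 368) ln16_11_1 ln16_11_1_ok))))) (M (nat_lit 363) (B (M (nat_lit 331) (B (L (nat_lit 330) ln14_11_3 ln14_11_3_ok) (L (nat_lit 460) ln12_14_7 ln12_14_7_ok))) (M (nat_lit 334) (B (L (nat_lit 335) ln11_11_2 ln11_11_2_ok) (L (nat_lit 397) ln13_14_6 ln13_14_6_ok)))))))) (B (M (nat_lit 395) (B (M (nat_lit 394) (B (L (nat_lit 393) ln9_12_2 ln9_12_2_ok) (M (nat_lit 366) (B (L (nat_lit 363) ln14_11_1 ln14_11_1_ok) (L (nat_lit 367) ln15_11_1 ln15_11_1_ok))))) (B (M (nat_lit 430) (B (L (nat_lit 431) ln15_13_3 ln15_13_3_ok) (M (nat_lit 394) (B (L (nat_lit 393) ln9_12_2 ln9_12_2_ok) (L (nat_lit 427) ln14_13_3 ln14_13_3_ok))))) (M (nat_lit 460)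 (B (L (nat_lit 333) ln12_14_6 ln12_14_6_ok) (M (nat_lit 363) (B (L (nat_lit 331) ln12_14_7 ln12_14_7_ok) (L (nat_lit 492) ln12_15_7 ln12_15_7_ok)))))))) (M (nat_lit 397) (B (M (nat_lit 366) (B (L (nat_lit 334) ln13_14_6 ln13_14_6_ok) (M (nat_lit 367) (B (L (nat_lit 395) ln15_11_1 ln15_11_1_ok) (L (nat_lit 368) ln16_11_1 ln16_11_1_ok))))) (B (M (nat_lit 430) (B (M (nat_lit 333) (B (L (nat_lit 301) ln13_9_5 ln13_9_5_ok) (L (nat_lit 462) ln13_10_4 ln13_10_4_ok))) (M (nat_lit 431) (B (L (nat_lit 395) ln15_13_3 ln15_13_3_ok) (L (nat_lit 432) ln16_13_3 ln16_13_3_ok))))) (M (nat_lit 333) (B (L (nat_lit 301) ln13_9_5 ln13_9_5_ok) (M (nat_lit 334) (B (L (nat_lit 302) ln13_13_6 ln13_13_6_ok) (L (nat_lit 366) ln13_14_6 ln13_14_6_ok))))))))))))))))))))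
noncomputable def c41_n4689 : Cert := (M (nat_lit 430) (B (M (nat_lit 395) (B (L (nat_lit 431) ln15_13_3 ln15_13_3_ok) (M (nat_lit 394) (B (L (nat_lit 393) ln9_12_0 ln9_12_0_ok) (L (nat_lit 427) ln14_13_3 ln14_13_3_ok))))) (B (M (nat_lit 395) (B (L (nat_lit 431) ln15_13_3 ln15_13_3_ok) (M (nat_lit 394) (B (L (nat_lit 397) ln10_12_0 ln10_12_0_ok) (L (nat_lit 427) ln14_13_3 ln14_13_3_ok))))) (B (M (nat_lit 431) (B (L (nat_lit 395) ln15_13_3 ln15_13_3_ok) (M (nat_lit 400) (B (L (nat_lit 399) ln12_13_2 ln12_13_2_ok) (M (nat_lit 432) (B (L (nat_lit 397) ln16_13_3 ln16_13_3_ok) (L (nat_lit 401) ln13_13_2 ln13_13_2_ok))))))) (B (M (nat_lit 431) (B (M (nat_lit 400) (B (L (nat_lit 399) ln12_13_2 ln12_13_2_ok) (M (nat_lit 432) (B (L (nat_lit 397) ln16_13_3 ln16_13_3_ok) (L (nat_lit 401) ln13_13_2 ln13_13_2_ok))))) (M (nat_lit 427) (B (M (nat_lit 459) (B (L (nat_lit 458) ln14_13_1 ln14_13_1_ok)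 (L (nat_lit 460) ln15_13_1 ln15_13_1_ok))) (M (nat_lit 463) (B (L (nat_lit 462) ln11_13_0 ln11_13_0_ok) (L (nat_lit 464) ln12_13_0 ln12_13_0_ok))))))) (M (nat_lit 460) (B (M (nat_lit 427) (B (M (nat_lit 395) (B (L (nat_lit 394) ln14_13_3 ln14_13_3_ok) (M (nat_lit 363) (B (L (nat_lit 331) ln11_10_4 ln11_10_4_ok) (L (nat_lit 492) ln12_15_7 ln12_15_7_ok))))) (M (nat_lit 459) (B (L (nat_lit 458) ln14_13_1 ln14_13_1_ok) (M (nat_lit 364) (B (L (nat_lit 332) ln12_10_5 ln12_10_5_ok) (L (nat_lit 491) ln12_11_5 ln12_11_5_ok))))))) (B (M (nat_lit 427) (B (M (nat_lit 459) (B (L (nat_lit 458) ln14_13_1 ln14_13_1_ok) (M (nat_lit 364) (B (L (nat_lit 332) ln12_10_5 ln12_10_5_ok) (L (nat_lit 491) ln12_11_5 ln12_11_5_ok))))) (M (nat_lit 395) (B (L (nat_lit 394) ln14_13_3 ln14_13_3_ok) (M (nat_lit 492) (B (L (nat_lit 363) ln12_15_7 ln12_15_7_ok) (L (nat_lit 524) ln12_16_7 ln12_16_7_ok))))))) (B (M (nat_lit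 427) (B (M (nat_lit 395) (B (L (nat_lit 394) ln14_13_3 ln14_13_3_ok) (M (nat_lit 492) (B (L (nat_lit 363) ln12_15_7 ln12_15_7_ok) (L (nat_lit 524) ln12_16_7 ln12_16_7_ok))))) (M (nat_lit 459) (B (L (nat_lit 458) ln14_13_1 ln14_13_1_ok) (M (nat_lit 491) (B (L (nat_lit 364) ln12_11_5 ln12_11_5_ok) (L (nat_lit 523) ln11_16_6 ln11_16_6_ok))))))) (B (M (nat_lit 492) (B (M (nat_lit 397) (B (L (nat_lit 365) ln12_15_6 ln12_15_6_ok) (L (nat_lit 524) ln12_16_6 ln12_16_6_ok))) (M (nat_lit 459) (B (M (nat_lit 491) (B (L (nat_lit 364) ln12_11_5 ln12_11_5_ok) (L (nat_lit 523) ln12_12_5 ln12_12_5_ok))) (M (nat_lit 458) (B (L (nat_lit 427) ln14_13_1 ln14_13_1_ok) (L (nat_lit 457) ln9_14_2 ln9_14_2_ok))))))) (B (M (nat_lit 395) (B (M (nat_lit 394) (B (L (nat_lit 393) ln9_12_0 ln9_12_0_ok) (L (nat_lit 397) ln10_12_0 ln10_12_0_ok))) (B (M (nat_lit 394) (B (L (nat_lit 397) ln10_12_0 ln10_12_0_ok) (L (nat_lit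 427) ln14_13_3 ln14_13_3_ok))) (B (M (nat_lit 492) (B (L (nat_lit 363) ln12_15_7 ln12_15_7_ok) (M (nat_lit 397) (B (L (nat_lit 365) ln12_15_6 ln12_15_6_ok) (L (nat_lit 524) ln12_16_6 ln12_16_6_ok))))) (M (nat_lit 394) (B (L (nat_lit 393) ln9_12_0 ln9_12_0_ok) (L (nat_lit 427) ln14_13_3 ln14_13_3_ok))))))) (B (M (nat_lit 395) (B (M (nat_lit 394) (B (L (nat_lit 393) ln9_12_0 ln9_12_0_ok) (L (nat_lit 397) ln10_12_0 ln10_12_0_ok))) (B (M (nat_lit 492) (B (L (nat_lit 363) ln12_15_7 ln12_15_7_ok) (M (nat_lit 397) (B (L (nat_lit 365) ln12_15_6 ln12_15_6_ok) (L (nat_lit 524) ln12_16_6 ln12_16_6_ok))))) (M (nat_lit 363) (B (L (nat_lit 492) ln12_15_7 ln12_15_7_ok) (M (nat_lit 331) (B (L (nat_lit 299) ln11_9_4 ln11_9_4_ok) (L (nat_lit 364) ln12_14_7 ln12_14_7_ok)))))))) (M (nat_lit 364) (B (M (nat_lit 459) (B (L (nat_lit 491) ln12_11_5 ln12_11_5_ok) (M (nat_lit 427) (B (L (nat_lit 332) ln12_10_5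 ln12_10_5_ok) (L (nat_lit 458) ln14_13_1 ln14_13_1_ok))))) (B (M (nat_lit 459) (B (L (nat_lit 491) ln12_11_5 ln12_11_5_ok) (M (nat_lit 458) (B (L (nat_lit 427) ln14_13_1 ln14_13_1_ok) (L (nat_lit 457) ln9_14_2 ln9_14_2_ok))))) (M (nat_lit 332) (B (M (nat_lit 331) (B (L (nat_lit 299) ln12_13_7 ln12_13_7_ok) (L (nat_lit 363) ln12_14_7 ln12_14_7_ok))) (M (nat_lit 333) (B (L (nat_lit 301) ln12_13_6 ln12_13_6_ok) (L (nat_lit 365) ln12_14_6 ln12_14_6_ok))))))))))))))))))))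
noncomputable def c41_n4749 : Cert := (M (nat_lit 492) (B (M (nat_lit 493) (B (L (nat_lit 525) ln13_16_7 ln13_16_7_ok) (M (nat_lit 397) (B (L (nat_lit 524) ln13_12_5 ln13_12_5_ok) (M (nat_lit 365) (B (L (nat_lit 460) ln12_15_6 ln12_15_6_ok) (M (nat_lit 494) (B (L (nat_lit 462) ln13_11_4 ln13_11_4_ok) (L (nat_lit 526) ln13_12_4 ln13_12_4_ok))))))))) (B (M (nat_lit 427) (B (M (nat_lit 462) (B (L (nat_lit 426) ln10_13_0 ln10_13_0_ok) (M (nat_lit 463) (B (L (nat_lit 430) ln11_13_0 ln11_13_0_ok) (L (nat_lit 460) ln15_14_3 ln15_14_3_ok))))) (B (M (nat_lit 395) (B (M (nat_lit 394) (B (L (nat_lit 393) ln9_12_0 ln9_12_0_ok) (L (nat_lit 430) ln14_13_3 ln14_13_3_ok))) (M (nat_lit 460) (B (L (nat_lit 363) ln12_15_7 ln12_15_7_ok) (L (nat_lit 524) ln12_16_7 ln12_16_7_ok))))) (B (M (nat_lit 462) (B (L (nat_lit 426) ln10_13_0 ln10_13_0_ok) (M (nat_lit 463) (B (L (nat_lit 460) ln15_14_3 ln15_14_3_ok)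 (L (nat_lit 464) ln16_14_3 ln16_14_3_ok))))) (M (nat_lit 462) (B (L (nat_lit 426) ln10_13_0 ln10_13_0_ok) (M (nat_lit 463) (B (L (nat_lit 430) ln11_13_0 ln11_13_0_ok) (L (nat_lit 464) ln16_14_3 ln16_14_3_ok))))))))) (B (M (nat_lit 430) (B (M (nat_lit 395) (B (L (nat_lit 431) ln15_13_3 ln15_13_3_ok) (M (nat_lit 394) (B (L (nat_lit 393) ln9_12_0 ln9_12_0_ok) (L (nat_lit 427) ln14_13_3 ln14_13_3_ok))))) (B (M (nat_lit 395) (B (L (nat_lit 431) ln15_13_3 ln15_13_3_ok) (M (nat_lit 394) (B (L (nat_lit 397) ln10_12_0 ln10_12_0_ok) (L (nat_lit 427) ln14_13_3 ln14_13_3_ok))))) (B (M (nat_lit 397) (B (M (nat_lit 493) (B (L (nat_lit 525) ln13_16_7 ln13_16_7_ok) (L (nat_lit 524) ln13_12_5 ln13_12_5_ok))) (M (nat_lit 462) (B (M (nat_lit 494) (B (L (nat_lit 365) ln13_11_4 ln13_11_4_ok) (L (nat_lit 526) ln14_16_7 ln14_16_7_ok))) (M (nat_lit 463) (B (L (nat_lit 427) ln11_13_0 ln11_13_0_ok) (L (nat_lit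 464) ln16_14_3 ln16_14_3_ok))))))) (M (nat_lit 395) (B (L (nat_lit 431) ln15_13_3 ln15_13_3_ok) (M (nat_lit 394) (B (L (nat_lit 393) ln9_12_0 ln9_12_0_ok) (L (nat_lit 397) ln10_12_0 ln10_12_0_ok))))))))) (B (M (nat_lit 397) (B (M (nat_lit 460) (B (L (nat_lit 365) ln12_15_6 ln12_15_6_ok) (L (nat_lit 524) ln12_16_6 ln12_16_6_ok))) (B (M (nat_lit 524) (B (L (nat_lit 460) ln12_16_6 ln12_16_6_ok) (L (nat_lit 493) ln13_12_5 ln13_12_5_ok))) (B (M (nat_lit 493) (B (L (nat_lit 525) ln13_16_7 ln13_16_7_ok) (L (nat_lit 524) ln13_12_5 ln13_12_5_ok))) (M (nat_lit 395) (B (M (nat_lit 460) (B (L (nat_lit 363) ln12_15_7 ln12_15_7_ok) (L (nat_lit 365) ln12_15_6 ln12_15_6_ok))) (M (nat_lit 394) (B (L (nat_lit 393) ln9_12_0 ln9_12_0_ok) (L (nat_lit 430) ln10_12_0 ln10_12_0_ok))))))))) (M (nat_lit 460) (B (M (nat_lit 397) (B (L (nat_lit 365) ln12_15_6 ln12_15_6_ok) (M (nat_lit 395) (B (L (nat_lit 363)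 ln12_15_7 ln12_15_7_ok) (M (nat_lit 394) (B (L (nat_lit 393) ln9_12_0 ln9_12_0_ok) (L (nat_lit 430) ln10_12_0 ln10_12_0_ok))))))) (B (M (nat_lit 493) (B (L (nat_lit 525) ln13_16_7 ln13_16_7_ok) (M (nat_lit 494) (B (M (nat_lit 397) (B (L (nat_lit 365) ln12_15_6 ln12_15_6_ok) (L (nat_lit 526) ln13_12_4 ln13_12_4_ok))) (M (nat_lit 495) (B (L (nat_lit 459) ln15_15_3 ln15_15_3_ok) (L (nat_lit 496) ln16_15_3 ln16_15_3_ok))))))) (M (nat_lit 395) (B (L (nat_lit 363) ln12_15_7 ln12_15_7_ok) (M (nat_lit 430) (B (L (nat_lit 431) ln15_13_3 ln15_13_3_ok) (M (nat_lit 394) (B (L (nat_lit 393) ln9_12_0 ln9_12_0_ok) (L (nat_lit 427) ln14_13_3 ln14_13_3_ok)))))))))))))))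
theorem c41_s4750 : Sem (nat_lit 2079502270752001762064242424960807725827516048677469043429686155012882190638009693656033379242457518153052022685796627120027336704) (nat_lit 384428669363701288057689513903912656890498771465073256527149574324401790648727481917429922771680255284996602895236896437175687346127948153100827964694585147392) (nat_lit 384428669363701288057689513903912656890498771465073256527149574324401790648727481917429922771680255284996602895236896437175687346127948153100827964694585147392) :=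
  sem_of_chk (M (nat_lit 461) (B (M (nat_lit 493) (B (L (nat_lit 525) ln13_16_7 ln13_16_7_ok) (M (nat_lit 364) (B (L (nat_lit 332) ln12_10_4 ln12_10_4_ok) (L (nat_lit 397) ln13_15_7 ln13_15_7_ok))))) (B (M (nat_lit 493) (B (L (nat_lit 525) ln13_16_7 ln13_16_7_ok) (M (nat_lit 364) (B (L (nat_lit 397) ln13_15_7 ln13_15_7_ok) (L (nat_lit 460) ln12_11_4 ln12_11_4_ok))))) (B c41_n4749 (B (M (nat_lit 493) (B (L (nat_lit 525) ln13_16_7 ln13_16_7_ok) (M (nat_lit 364) (B (L (nat_lit 332) ln12_10_4 ln12_10_4_ok) (L (nat_lit 460) ln12_11_4 ln12_11_4_ok))))) (M (nat_lit 364) (B (L (nat_lit 332) ln12_10_4 ln12_10_4_ok) (M (nat_lit 365) (B (M (nat_lit 333) (B (L (nat_lit 460) ln12_14_6 ln12_14_6_ok) (M (nat_lit 301) (B (L (nat_lit 269) ln13_8_5 ln13_8_5_ok) (L (nat_lit 397) ln13_9_5 ln13_9_5_ok))))) (B (M (nat_lit 460) (B (L (nat_lit 333) ln12_14_6 ln12_14_6_ok) (M (nat_lit 492) (B (L (nat_lit 397)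 ln12_15_6 ln12_15_6_ok) (M (nat_lit 363) (B (L (nat_lit 331) ln12_14_7 ln12_14_7_ok) (L (nat_lit 395) ln12_15_7 ln12_15_7_ok))))))) (B (M (nat_lit 366) (B (M (nat_lit 395) (B (L (nat_lit 367) ln15_11_1 ln15_11_1_ok) (M (nat_lit 394) (B (L (nat_lit 363) ln14_11_1 ln14_11_1_ok) (L (nat_lit 393) ln9_12_2 ln9_12_2_ok))))) (B (M (nat_lit 397) (B (L (nat_lit 334) ln13_14_6 ln13_14_6_ok) (M (nat_lit 367) (B (L (nat_lit 395) ln15_11_1 ln15_11_1_ok) (L (nat_lit 368) ln16_11_1 ln16_11_1_ok))))) (M (nat_lit 363) (B (M (nat_lit 331) (B (L (nat_lit 330) ln14_11_3 ln14_11_3_ok) (L (nat_lit 460) ln12_14_7 ln12_14_7_ok))) (M (nat_lit 334) (B (L (nat_lit 335) ln11_11_2 ln11_11_2_ok) (L (nat_lit 397) ln13_14_6 ln13_14_6_ok)))))))) (B (M (nat_lit 395) (B (M (nat_lit 394) (B (L (nat_lit 393) ln9_12_2 ln9_12_2_ok) (M (nat_lit 366) (B (L (nat_lit 363) ln14_11_1 ln14_11_1_ok) (L (nat_lit 367) ln15_11_1 ln15_11_1_ok)))))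 (B (M (nat_lit 430) (B (L (nat_lit 431) ln15_13_3 ln15_13_3_ok) (M (nat_lit 394) (B (L (nat_lit 393) ln9_12_2 ln9_12_2_ok) (L (nat_lit 427) ln14_13_3 ln14_13_3_ok))))) (M (nat_lit 460) (B (L (nat_lit 333) ln12_14_6 ln12_14_6_ok) (M (nat_lit 363) (B (L (nat_lit 331) ln12_14_7 ln12_14_7_ok) (L (nat_lit 492) ln12_15_7 ln12_15_7_ok)))))))) (M (nat_lit 397) (B (M (nat_lit 366) (B (L (nat_lit 334) ln13_14_6 ln13_14_6_ok) (M (nat_lit 367) (B (L (nat_lit 395) ln15_11_1 ln15_11_1_ok) (L (nat_lit 368) ln16_11_1 ln16_11_1_ok))))) (B (M (nat_lit 430) (B (M (nat_lit 333) (B (L (nat_lit 301) ln13_9_5 ln13_9_5_ok) (L (nat_lit 462) ln13_10_4 ln13_10_4_ok))) (M (nat_lit 431) (B (L (nat_lit 395) ln15_13_3 ln15_13_3_ok) (L (nat_lit 432) ln16_13_3 ln16_13_3_ok))))) (M (nat_lit 333) (B (L (nat_lit 301) ln13_9_5 ln13_9_5_ok) (M (nat_lit 334) (B (L (nat_lit 302) ln13_13_6 ln13_13_6_ok) (L (nat_lit 366) ln13_14_6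 ln13_14_6_ok)))))))))))))))))))) (nat_lit 2079502270752001762064242424960807725827516048677469043429686155012882190638009693656033379242457518153052022685796627120027336704) (nat_lit 384428669363701288057689513903912656890498771465073256527149574324401790648727481917429922771680255284996602895236896437175687346127948153100827964694585147392) (nat_lit 384428669363701288057689513903912656890498771465073256527149574324401790648727481917429922771680255284996602895236896437175687346127948153100827964694585147392) (by decide +kernel)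
theorem c41_s4751 : Sem (nat_lit 1386334847221798047169638878925036799968406779833514899637066259859226863686603287896039777716422623628704219945445734162783797248) (nat_lit 825554280841600030818252138314435948140347255069606031074807684973722234118192306383508523484347154118426139595704543223012792124801996757789416161377245510473525231616) (nat_lit 825554280841600030818252138314435948140347255069606031074807684973722234118192306383508523484347154118426139595704543223012792124801996757789416161377245510473525231616) :=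
  sem_of_chk (M (nat_lit 428) (B (M (nat_lit 430) (B (M (nat_lit 395) (B (L (nat_lit 431) ln15_13_3 ln15_13_3_ok) (M (nat_lit 394) (B (L (nat_lit 393) ln9_12_0 ln9_12_0_ok) (L (nat_lit 427) ln14_13_3 ln14_13_3_ok))))) (B (M (nat_lit 461) (B (M (nat_lit 364) (B (L (nat_lit 332) ln12_10_4 ln12_10_4_ok) (M (nat_lit 493) (B (L (nat_lit 460) ln12_11_4 ln12_11_4_ok) (L (nat_lit 525) ln13_16_7 ln13_16_7_ok))))) (M (nat_lit 427) (B (M (nat_lit 395) (B (L (nat_lit 394) ln14_13_3 ln14_13_3_ok) (L (nat_lit 431) ln15_13_3 ln15_13_3_ok))) (M (nat_lit 462) (B (L (nat_lit 426) ln10_13_0 ln10_13_0_ok) (L (nat_lit 463) ln11_13_0 ln11_13_0_ok))))))) (B (M (nat_lit 431) (B (L (nat_lit 395) ln15_13_3 ln15_13_3_ok) (M (nat_lit 460) (B (L (nat_lit 459) ln15_13_1 ln15_13_1_ok) (M (nat_lit 461) (B (L (nat_lit 432) ln16_13_1 ln16_13_1_ok) (M (nat_lit 364) (B (L (nat_lit 332) ln12_10_4 ln12_10_4_ok) (L (nat_lit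 493) ln12_11_4 ln12_11_4_ok))))))))) (M (nat_lit 427) (B (M (nat_lit 426) (B (M (nat_lit 458) (B (L (nat_lit 457) ln13_13_1 ln13_13_1_ok) (L (nat_lit 459) ln14_13_1 ln14_13_1_ok))) (M (nat_lit 462) (B (L (nat_lit 461) ln10_13_0 ln10_13_0_ok) (L (nat_lit 463) ln11_13_0 ln11_13_0_ok))))) (B (M (nat_lit 459) (B (L (nat_lit 458) ln14_13_1 ln14_13_1_ok) (M (nat_lit 364) (B (L (nat_lit 332) ln12_10_5 ln12_10_5_ok) (M (nat_lit 491) (B (L (nat_lit 460) ln12_11_5 ln12_11_5_ok) (L (nat_lit 523) ln11_16_6 ln11_16_6_ok))))))) (M (nat_lit 461) (B (M (nat_lit 462) (B (L (nat_lit 426) ln10_13_0 ln10_13_0_ok) (L (nat_lit 463) ln11_13_0 ln11_13_0_ok))) (M (nat_lit 364) (B (L (nat_lit 332) ln12_10_4 ln12_10_4_ok) (M (nat_lit 493) (B (L (nat_lit 460) ln12_11_4 ln12_11_4_ok) (L (nat_lit 525) ln13_16_7 ln13_16_7_ok)))))))))))))) (B (M (nat_lit 427) (B (M (nat_lit 459) (B (M (nat_lit 430) (B (L (nat_lit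 458) ln14_13_1 ln14_13_1_ok) (M (nat_lit 431) (B (L (nat_lit 395) ln15_13_3 ln15_13_3_ok) (L (nat_lit 460) ln15_13_1 ln15_13_1_ok))))) (B (M (nat_lit 460) (B (M (nat_lit 491) (B (L (nat_lit 364) ln12_11_5 ln12_11_5_ok) (L (nat_lit 523) ln11_16_6 ln11_16_6_ok))) (M (nat_lit 430) (B (L (nat_lit 458) ln14_13_1 ln14_13_1_ok) (L (nat_lit 431) ln15_13_1 ln15_13_1_ok))))) (B (M (nat_lit 491) (B (L (nat_lit 523) ln11_16_6 ln11_16_6_ok) (M (nat_lit 364) (B (L (nat_lit 395) ln11_15_6 ln11_15_6_ok) (L (nat_lit 460) ln12_11_5 ln12_11_5_ok))))) (M (nat_lit 395) (B (M (nat_lit 491) (B (L (nat_lit 364) ln11_15_6 ln11_15_6_ok) (L (nat_lit 523) ln11_16_6 ln11_16_6_ok))) (M (nat_lit 430) (B (L (nat_lit 431) ln15_13_3 ln15_13_3_ok) (L (nat_lit 458) ln14_13_1 ln14_13_1_ok))))))))) (B (M (nat_lit 430) (B (M (nat_lit 395) (B (L (nat_lit 394) ln14_13_3 ln14_13_3_ok) (L (nat_lit 431) ln15_13_3 ln15_13_3_ok)))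 (M (nat_lit 426) (B (M (nat_lit 458) (B (L (nat_lit 457) ln13_13_1 ln13_13_1_ok) (L (nat_lit 459) ln14_13_1 ln14_13_1_ok))) (M (nat_lit 462) (B (L (nat_lit 461) ln10_13_0 ln10_13_0_ok) (L (nat_lit 463) ln11_13_0 ln11_13_0_ok))))))) (B (M (nat_lit 461) (B (M (nat_lit 462) (B (L (nat_lit 426) ln10_13_0 ln10_13_0_ok) (M (nat_lit 463) (B (L (nat_lit 430) ln11_13_0 ln11_13_0_ok) (L (nat_lit 460) ln15_14_3 ln15_14_3_ok))))) (B (M (nat_lit 493) (B (L (nat_lit 525) ln13_16_7 ln13_16_7_ok) (M (nat_lit 364) (B (L (nat_lit 397) ln13_15_7 ln13_15_7_ok) (L (nat_lit 460) ln12_11_4 ln12_11_4_ok))))) (M (nat_lit 462) (B (L (nat_lit 426) ln10_13_0 ln10_13_0_ok) (M (nat_lit 463) (B (L (nat_lit 430) ln11_13_0 ln11_13_0_ok) (L (nat_lit 464) ln16_14_3 ln16_14_3_ok)))))))) (M (nat_lit 461) (B (M (nat_lit 462) (B (L (nat_lit 426) ln10_13_0 ln10_13_0_ok) (M (nat_lit 463) (B (L (nat_lit 460) ln15_14_3 ln15_14_3_ok)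 (L (nat_lit 464) ln16_14_3 ln16_14_3_ok))))) (B (M (nat_lit 493) (B (L (nat_lit 525) ln13_16_7 ln13_16_7_ok) (M (nat_lit 364) (B (L (nat_lit 397) ln13_15_7 ln13_15_7_ok) (L (nat_lit 460) ln12_11_4 ln12_11_4_ok))))) (M (nat_lit 397) (B (M (nat_lit 493) (B (L (nat_lit 364) ln13_15_7 ln13_15_7_ok) (L (nat_lit 525) ln13_16_7 ln13_16_7_ok))) (M (nat_lit 426) (B (L (nat_lit 425) ln9_13_2 ln9_13_2_ok) (L (nat_lit 462) ln10_13_0 ln10_13_0_ok)))))))))))) (B (K (nat_lit 2079502270752001762064242424960807725827516048677469043429686155012882190638009693656033379242457518153052022685796627120027336704) (nat_lit 825554280841600030818252138314249877426234412282095200464004028508347075590581954209239665100197786725557173454671150798084343941291885460595732483695641238191883681792) (nat_lit 825554280841600030818252138314249877426234412282095200464004028508347075590581954209239665100197786725557173454671150798084343941291885460595732483695641238191883681792)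 c41_s4531) (B (M (nat_lit 459) (B (M (nat_lit 427) (B (M (nat_lit 458) (B (L (nat_lit 430) ln14_13_1 ln14_13_1_ok) (M (nat_lit 457) (B (L (nat_lit 426) ln13_13_1 ln13_13_1_ok) (L (nat_lit 456) ln8_14_2 ln8_14_2_ok))))) (M (nat_lit 364) (B (L (nat_lit 332) ln12_10_5 ln12_10_5_ok) (M (nat_lit 491) (B (L (nat_lit 395) ln11_15_6 ln11_15_6_ok) (L (nat_lit 523) ln11_16_6 ln11_16_6_ok))))))) (B (M (nat_lit 430) (B (M (nat_lit 431) (B (L (nat_lit 395) ln15_13_3 ln15_13_3_ok) (L (nat_lit 460) ln15_13_1 ln15_13_1_ok))) (B (M (nat_lit 458) (B (L (nat_lit 427) ln14_13_1 ln14_13_1_ok) (M (nat_lit 460) (B (L (nat_lit 457) ln9_14_2 ln9_14_2_ok) (L (nat_lit 461) ln10_14_2 ln10_14_2_ok))))) (M (nat_lit 463) (B (M (nat_lit 427) (B (L (nat_lit 458) ln14_13_1 ln14_13_1_ok) (L (nat_lit 462) ln11_13_0 ln11_13_0_ok))) (M (nat_lit 431) (B (L (nat_lit 395) ln15_13_3 ln15_13_3_ok) (L (nat_lit 464) ln12_13_0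 ln12_13_0_ok)))))))) (B (M (nat_lit 460) (B (M (nat_lit 430) (B (L (nat_lit 431) ln15_13_1 ln15_13_1_ok) (M (nat_lit 458) (B (L (nat_lit 457) ln9_14_2 ln9_14_2_ok) (L (nat_lit 461) ln10_14_2 ln10_14_2_ok))))) (B (M (nat_lit 364) (B (L (nat_lit 491) ln12_11_5 ln12_11_5_ok) (M (nat_lit 461) (B (L (nat_lit 332) ln12_10_4 ln12_10_4_ok) (L (nat_lit 493) ln12_11_4 ln12_11_4_ok))))) (M (nat_lit 491) (B (L (nat_lit 364) ln12_11_5 ln12_11_5_ok) (M (nat_lit 523) (B (L (nat_lit 492) ln12_12_5 ln12_12_5_ok) (L (nat_lit 555) ln11_17_6 ln11_17_6_ok)))))))) (M (nat_lit 364) (B (M (nat_lit 332) (B (L (nat_lit 427) ln12_10_5 ln12_10_5_ok) (L (nat_lit 461) ln12_10_4 ln12_10_4_ok))) (B (M (nat_lit 491) (B (L (nat_lit 460) ln12_11_5 ln12_11_5_ok) (M (nat_lit 427) (B (L (nat_lit 395) ln11_15_6 ln11_15_6_ok) (L (nat_lit 523) ln11_16_6 ln11_16_6_ok))))) (M (nat_lit 461) (B (L (nat_lit 332) ln12_10_4 ln12_10_4_ok)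 (M (nat_lit 460) (B (L (nat_lit 491) ln12_11_5 ln12_11_5_ok) (L (nat_lit 493) ln12_11_4 ln12_11_4_ok)))))))))))) (B (M (nat_lit 364) (B (M (nat_lit 461) (B (L (nat_lit 332) ln12_10_4 ln12_10_4_ok) (M (nat_lit 493) (B (L (nat_lit 460) ln12_11_4 ln12_11_4_ok) (L (nat_lit 525) ln13_16_7 ln13_16_7_ok))))) (B (M (nat_lit 460) (B (M (nat_lit 365) (B (L (nat_lit 333) ln12_14_6 ln12_14_6_ok) (M (nat_lit 492) (B (L (nat_lit 397) ln12_15_6 ln12_15_6_ok) (M (nat_lit 491) (B (L (nat_lit 459) ln12_11_5 ln12_11_5_ok) (L (nat_lit 523) ln12_12_5 ln12_12_5_ok))))))) (B (M (nat_lit 492) (B (M (nat_lit 491) (B (L (nat_lit 459) ln12_11_5 ln12_11_5_ok) (L (nat_lit 523) ln12_12_5 ln12_12_5_ok))) (M (nat_lit 493) (B (L (nat_lit 461) ln12_11_4 ln12_11_4_ok) (L (nat_lit 525) ln12_12_4 ln12_12_4_ok))))) (B (M (nat_lit 492) (B (M (nat_lit 365) (B (L (nat_lit 333) ln12_14_6 ln12_14_6_ok) (L (nat_lit 397) ln12_15_6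 ln12_15_6_ok))) (M (nat_lit 493) (B (L (nat_lit 461) ln12_11_4 ln12_11_4_ok) (L (nat_lit 525) ln12_12_4 ln12_12_4_ok))))) (M (nat_lit 461) (B (L (nat_lit 493) ln12_11_4 ln12_11_4_ok) (M (nat_lit 459) (B (L (nat_lit 491) ln12_11_5 ln12_11_5_ok) (M (nat_lit 430) (B (L (nat_lit 431) ln15_13_1 ln15_13_1_ok) (L (nat_lit 458) ln10_14_2 ln10_14_2_ok))))))))))) (B (M (nat_lit 461) (B (L (nat_lit 332) ln12_10_4 ln12_10_4_ok) (M (nat_lit 493) (B (L (nat_lit 397) ln13_15_7 ln13_15_7_ok) (L (nat_lit 525) ln13_16_7 ln13_16_7_ok))))) (M (nat_lit 460) (B (M (nat_lit 332) (B (M (nat_lit 331) (B (L (nat_lit 299) ln12_13_7 ln12_13_7_ok) (L (nat_lit 363) ln12_14_7 ln12_14_7_ok))) (M (nat_lit 333) (B (L (nat_lit 301) ln12_13_6 ln12_13_6_ok) (L (nat_lit 365) ln12_14_6 ln12_14_6_ok))))) (B (M (nat_lit 365) (B (L (nat_lit 333) ln12_14_6 ln12_14_6_ok) (M (nat_lit 492) (B (L (nat_lit 397) ln12_15_6 ln12_15_6_ok)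 (M (nat_lit 491) (B (L (nat_lit 459) ln12_11_5 ln12_11_5_ok) (L (nat_lit 523) ln12_12_5 ln12_12_5_ok))))))) (B (M (nat_lit 492) (B (M (nat_lit 491) (B (L (nat_lit 459) ln12_11_5 ln12_11_5_ok) (L (nat_lit 523) ln12_12_5 ln12_12_5_ok))) (M (nat_lit 397) (B (L (nat_lit 365) ln12_15_6 ln12_15_6_ok) (L (nat_lit 524) ln12_16_6 ln12_16_6_ok))))) (M (nat_lit 332) (B (M (nat_lit 331) (B (L (nat_lit 299) ln12_13_7 ln12_13_7_ok) (L (nat_lit 363) ln12_14_7 ln12_14_7_ok))) (M (nat_lit 459) (B (L (nat_lit 427) ln12_10_5 ln12_10_5_ok) (L (nat_lit 491) ln12_11_5 ln12_11_5_ok))))))))))))) (B (M (nat_lit 364) (B (M (nat_lit 461) (B (L (nat_lit 332) ln12_10_4 ln12_10_4_ok) (M (nat_lit 493) (B (L (nat_lit 397) ln13_15_7 ln13_15_7_ok) (L (nat_lit 525) ln13_16_7 ln13_16_7_ok))))) (B (M (nat_lit 461) (B (M (nat_lit 493) (B (L (nat_lit 397) ln13_15_7 ln13_15_7_ok) (L (nat_lit 460) ln12_11_4 ln12_11_4_ok)))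 (B (M (nat_lit 493) (B (L (nat_lit 460) ln12_11_4 ln12_11_4_ok) (L (nat_lit 525) ln13_16_7 ln13_16_7_ok))) (B (M (nat_lit 493) (B (L (nat_lit 397) ln13_15_7 ln13_15_7_ok) (L (nat_lit 525) ln13_16_7 ln13_16_7_ok))) (M (nat_lit 460) (B (M (nat_lit 459) (B (L (nat_lit 491) ln12_11_5 ln12_11_5_ok) (M (nat_lit 430) (B (L (nat_lit 431) ln15_13_1 ln15_13_1_ok) (L (nat_lit 458) ln10_14_2 ln10_14_2_ok))))) (M (nat_lit 492) (B (M (nat_lit 363) (B (L (nat_lit 331) ln12_14_7 ln12_14_7_ok) (L (nat_lit 395) ln12_15_7 ln12_15_7_ok))) (M (nat_lit 524) (B (L (nat_lit 397) ln12_16_6 ln12_16_6_ok) (L (nat_lit 556) ln12_17_6 ln12_17_6_ok))))))))))) (B (M (nat_lit 461) (B (L (nat_lit 332) ln12_10_4 ln12_10_4_ok) (M (nat_lit 493) (B (L (nat_lit 460) ln12_11_4 ln12_11_4_ok) (L (nat_lit 525) ln13_16_7 ln13_16_7_ok))))) (M (nat_lit 460) (B (M (nat_lit 365) (B (L (nat_lit 333) ln12_14_6 ln12_14_6_ok) (M (nat_lit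 492) (B (L (nat_lit 397) ln12_15_6 ln12_15_6_ok) (M (nat_lit 491) (B (L (nat_lit 459) ln12_11_5 ln12_11_5_ok) (L (nat_lit 523) ln12_12_5 ln12_12_5_ok))))))) (B (M (nat_lit 492) (B (M (nat_lit 363) (B (L (nat_lit 331) ln12_14_7 ln12_14_7_ok) (L (nat_lit 395) ln12_15_7 ln12_15_7_ok))) (M (nat_lit 491) (B (L (nat_lit 459) ln12_11_5 ln12_11_5_ok) (L (nat_lit 523) ln12_12_5 ln12_12_5_ok))))) (B (M (nat_lit 492) (B (M (nat_lit 363) (B (L (nat_lit 331) ln12_14_7 ln12_14_7_ok) (L (nat_lit 395) ln12_15_7 ln12_15_7_ok))) (M (nat_lit 365) (B (L (nat_lit 333) ln12_14_6 ln12_14_6_ok) (L (nat_lit 397) ln12_15_6 ln12_15_6_ok))))) (M (nat_lit 332) (B (M (nat_lit 331) (B (L (nat_lit 299) ln12_13_7 ln12_13_7_ok) (L (nat_lit 363) ln12_14_7 ln12_14_7_ok))) (M (nat_lit 333) (B (L (nat_lit 301) ln12_13_6 ln12_13_6_ok) (L (nat_lit 365) ln12_14_6 ln12_14_6_ok))))))))))))) (B (M (nat_lit 364) (B (M (nat_lit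 461) (B (L (nat_lit 332) ln12_10_4 ln12_10_4_ok) (M (nat_lit 493) (B (L (nat_lit 460) ln12_11_4 ln12_11_4_ok) (L (nat_lit 525) ln13_16_7 ln13_16_7_ok))))) (B (M (nat_lit 461) (B (M (nat_lit 493) (B (L (nat_lit 397) ln13_15_7 ln13_15_7_ok) (L (nat_lit 460) ln12_11_4 ln12_11_4_ok))) (B (M (nat_lit 493) (B (L (nat_lit 460) ln12_11_4 ln12_11_4_ok) (L (nat_lit 525) ln13_16_7 ln13_16_7_ok))) (B (M (nat_lit 493) (B (L (nat_lit 397) ln13_15_7 ln13_15_7_ok) (L (nat_lit 525) ln13_16_7 ln13_16_7_ok))) (M (nat_lit 460) (B (M (nat_lit 492) (B (M (nat_lit 363) (B (L (nat_lit 331) ln12_14_7 ln12_14_7_ok) (L (nat_lit 395) ln12_15_7 ln12_15_7_ok))) (M (nat_lit 491) (B (L (nat_lit 459) ln12_11_5 ln12_11_5_ok) (L (nat_lit 523) ln12_12_5 ln12_12_5_ok))))) (B (M (nat_lit 365) (B (L (nat_lit 333) ln12_14_6 ln12_14_6_ok) (M (nat_lit 492) (B (L (nat_lit 397) ln12_15_6 ln12_15_6_ok) (M (nat_lit 491) (B (L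 (nat_lit 459) ln12_11_5 ln12_11_5_ok) (L (nat_lit 523) ln12_12_5 ln12_12_5_ok))))))) (B (M (nat_lit 365) (B (L (nat_lit 333) ln12_14_6 ln12_14_6_ok) (M (nat_lit 492) (B (L (nat_lit 397) ln12_15_6 ln12_15_6_ok) (M (nat_lit 363) (B (L (nat_lit 331) ln12_14_7 ln12_14_7_ok) (L (nat_lit 395) ln12_15_7 ln12_15_7_ok))))))) (M (nat_lit 462) (B (M (nat_lit 427) (B (L (nat_lit 426) ln10_13_0 ln10_13_0_ok) (L (nat_lit 463) ln15_14_3 ln15_14_3_ok))) (M (nat_lit 494) (B (M (nat_lit 365) (B (L (nat_lit 333) ln12_14_6 ln12_14_6_ok) (L (nat_lit 397) ln13_11_4 ln13_11_4_ok))) (M (nat_lit 459) (B (L (nat_lit 491) ln12_11_5 ln12_11_5_ok) (L (nat_lit 495) ln11_14_0 ln11_14_0_ok))))))))))))))) (B (M (nat_lit 461) (B (L (nat_lit 332) ln12_10_4 ln12_10_4_ok) (M (nat_lit 493) (B (L (nat_lit 397) ln13_15_7 ln13_15_7_ok) (L (nat_lit 525) ln13_16_7 ln13_16_7_ok))))) (M (nat_lit 460) (B (M (nat_lit 332) (B (M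 (nat_lit 331) (B (L (nat_lit 299) ln12_13_7 ln12_13_7_ok) (L (nat_lit 363) ln12_14_7 ln12_14_7_ok))) (M (nat_lit 333) (B (L (nat_lit 301) ln12_13_6 ln12_13_6_ok) (L (nat_lit 365) ln12_14_6 ln12_14_6_ok))))) (B (M (nat_lit 492) (B (M (nat_lit 363) (B (L (nat_lit 331) ln12_14_7 ln12_14_7_ok) (L (nat_lit 395) ln12_15_7 ln12_15_7_ok))) (M (nat_lit 491) (B (L (nat_lit 459) ln12_11_5 ln12_11_5_ok) (L (nat_lit 523) ln12_12_5 ln12_12_5_ok))))) (M (nat_lit 365) (B (L (nat_lit 333) ln12_14_6 ln12_14_6_ok) (M (nat_lit 492) (B (L (nat_lit 397) ln12_15_6 ln12_15_6_ok) (M (nat_lit 491) (B (L (nat_lit 459) ln12_11_5 ln12_11_5_ok) (L (nat_lit 523) ln12_12_5 ln12_12_5_ok)))))))))))))) (B c41_n4658 (B (M (nat_lit 430) (B (M (nat_lit 395) (B (L (nat_lit 431) ln15_13_3 ln15_13_3_ok) (M (nat_lit 394) (B (L (nat_lit 393) ln9_12_0 ln9_12_0_ok) (L (nat_lit 397) ln10_12_0 ln10_12_0_ok))))) (B (M (nat_lit 395)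 (B (L (nat_lit 431) ln15_13_3 ln15_13_3_ok) (M (nat_lit 394) (B (L (nat_lit 397) ln10_12_0 ln10_12_0_ok) (L (nat_lit 427) ln14_13_3 ln14_13_3_ok))))) (B (M (nat_lit 431) (B (L (nat_lit 395) ln15_13_3 ln15_13_3_ok) (M (nat_lit 400) (B (L (nat_lit 399) ln12_13_2 ln12_13_2_ok) (M (nat_lit 432) (B (L (nat_lit 397) ln16_13_3 ln16_13_3_ok) (L (nat_lit 401) ln13_13_2 ln13_13_2_ok))))))) (B (M (nat_lit 427) (B (M (nat_lit 426) (B (M (nat_lit 458) (B (L (nat_lit 457) ln13_13_1 ln13_13_1_ok) (L (nat_lit 459) ln14_13_1 ln14_13_1_ok))) (M (nat_lit 462) (B (L (nat_lit 461) ln10_13_0 ln10_13_0_ok) (L (nat_lit 463) ln11_13_0 ln11_13_0_ok))))) (B (M (nat_lit 431) (B (M (nat_lit 463) (B (L (nat_lit 462) ln11_13_0 ln11_13_0_ok) (L (nat_lit 464) ln12_13_0 ln12_13_0_ok))) (M (nat_lit 400) (B (L (nat_lit 399) ln12_13_2 ln12_13_2_ok) (M (nat_lit 432) (B (L (nat_lit 397) ln16_13_3 ln16_13_3_ok) (L (nat_lit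 401) ln13_13_2 ln13_13_2_ok))))))) (M (nat_lit 426) (B (M (nat_lit 458) (B (L (nat_lit 457) ln13_13_1 ln13_13_1_ok) (L (nat_lit 459) ln14_13_1 ln14_13_1_ok))) (M (nat_lit 393) (B (L (nat_lit 394) ln13_13_3 ln13_13_3_ok) (M (nat_lit 425) (B (L (nat_lit 392) ln12_13_3 ln12_13_3_ok) (L (nat_lit 397) ln9_13_2 ln9_13_2_ok)))))))))) (B (M (nat_lit 395) (B (L (nat_lit 431) ln15_13_3 ln15_13_3_ok) (M (nat_lit 394) (B (L (nat_lit 393) ln9_12_0 ln9_12_0_ok) (L (nat_lit 427) ln14_13_3 ln14_13_3_ok))))) (M (nat_lit 395) (B (M (nat_lit 394) (B (L (nat_lit 393) ln9_12_0 ln9_12_0_ok) (L (nat_lit 397) ln10_12_0 ln10_12_0_ok))) (B (M (nat_lit 394) (B (L (nat_lit 397) ln10_12_0 ln10_12_0_ok) (L (nat_lit 427) ln14_13_3 ln14_13_3_ok))) (B (M (nat_lit 427) (B (M (nat_lit 459) (B (L (nat_lit 458) ln14_13_1 ln14_13_1_ok) (M (nat_lit 364) (B (L (nat_lit 332) ln12_10_5 ln12_10_5_ok) (L (nat_lit 491) ln11_15_6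 ln11_15_6_ok))))) (M (nat_lit 426) (B (M (nat_lit 425) (B (L (nat_lit 424) ln8_13_2 ln8_13_2_ok) (L (nat_lit 397) ln9_13_2 ln9_13_2_ok))) (M (nat_lit 462) (B (L (nat_lit 461) ln10_13_0 ln10_13_0_ok) (L (nat_lit 463) ln11_13_0 ln11_13_0_ok))))))) (M (nat_lit 394) (B (L (nat_lit 393) ln9_12_0 ln9_12_0_ok) (L (nat_lit 427) ln14_13_3 ln14_13_3_ok))))))))))))) (B c41_n4689 (K (nat_lit 2079502270752001762064242424960807725827516048677469043429686155012882190638009693656033379242457518153052022685796627120027336704) (nat_lit 384428669363701288057689513903912656890498771465073256527149574324401790648727481917429922771680255284996602895236896437175687346127948153100827964694585147392) (nat_lit 384428669363701288057689513903912656890498771465073256527149574324401790648727481917429922771680255284996602895236896437175687346127948153100827964694585147392) c41_s4750)))))))))))) (nat_lit 1386334847221798047169638878925036799968406779833514899637066259859226863686603287896039777716422623628704219945445734162783797248)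 (nat_lit 825554280841600030818252138314435948140347255069606031074807684973722234118192306383508523484347154118426139595704543223012792124801996757789416161377245510473525231616) (nat_lit 825554280841600030818252138314435948140347255069606031074807684973722234118192306383508523484347154118426139595704543223012792124801996757789416161377245510473525231616) (by decide +kernel)
noncomputable def c41_n4797 : Cert := (M (nat_lit 461) (B (M (nat_lit 493) (B (L (nat_lit 525) ln13_16_7 ln13_16_7_ok) (M (nat_lit 364) (B (L (nat_lit 397) ln13_15_7 ln13_15_7_ok) (L (nat_lit 460) ln12_11_4 ln12_11_4_ok))))) (B (M (nat_lit 493) (B (L (nat_lit 525) ln13_16_7 ln13_16_7_ok) (M (nat_lit 492) (B (M (nat_lit 397) (B (L (nat_lit 524) ln13_12_5 ln13_12_5_ok) (M (nat_lit 365) (B (L (nat_lit 460) ln12_15_6 ln12_15_6_ok) (M (nat_lit 494) (B (L (nat_lit 462) ln13_11_4 ln13_11_4_ok) (L (nat_lit 526) ln13_12_4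 ln13_12_4_ok))))))) (B (M (nat_lit 524) (B (L (nat_lit 397) ln13_12_5 ln13_12_5_ok) (M (nat_lit 460) (B (L (nat_lit 556) ln12_17_6 ln12_17_6_ok) (M (nat_lit 395) (B (L (nat_lit 363) ln12_15_7 ln12_15_7_ok) (L (nat_lit 427) ln12_16_7 ln12_16_7_ok))))))) (B (M (nat_lit 460) (B (M (nat_lit 491) (B (L (nat_lit 523) ln12_12_5 ln12_12_5_ok) (M (nat_lit 462) (B (L (nat_lit 463) ln15_14_1 ln15_14_1_ok) (L (nat_lit 490) ln10_15_2 ln10_15_2_ok))))) (M (nat_lit 395) (B (L (nat_lit 363) ln12_15_7 ln12_15_7_ok) (M (nat_lit 524) (B (L (nat_lit 427) ln12_16_7 ln12_16_7_ok) (L (nat_lit 556) ln12_17_6 ln12_17_6_ok))))))) (B (M (nat_lit 397) (B (L (nat_lit 524) ln13_12_5 ln13_12_5_ok) (M (nat_lit 365) (B (M (nat_lit 366) (B (L (nat_lit 334) ln13_14_6 ln13_14_6_ok) (L (nat_lit 398) ln13_15_6 ln13_15_6_ok))) (M (nat_lit 494) (B (L (nat_lit 462) ln13_11_4 ln13_11_4_ok) (L (nat_lit 526) ln13_12_4 ln13_12_4_ok)))))))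 (M (nat_lit 460) (B (M (nat_lit 491) (B (L (nat_lit 523) ln12_12_5 ln12_12_5_ok) (M (nat_lit 462) (B (L (nat_lit 463) ln15_14_1 ln15_14_1_ok) (L (nat_lit 490) ln10_15_2 ln10_15_2_ok))))) (M (nat_lit 494) (B (M (nat_lit 397) (B (L (nat_lit 365) ln12_15_6 ln12_15_6_ok) (L (nat_lit 526) ln13_12_4 ln13_12_4_ok))) (M (nat_lit 495) (B (L (nat_lit 459) ln15_15_3 ln15_15_3_ok) (L (nat_lit 496) ln16_15_3 ln16_15_3_ok)))))))))))))) (B (M (nat_lit 493) (B (L (nat_lit 525) ln13_16_7 ln13_16_7_ok) (M (nat_lit 364) (B (L (nat_lit 332) ln12_10_4 ln12_10_4_ok) (L (nat_lit 460) ln12_11_4 ln12_11_4_ok))))) (B (M (nat_lit 493) (B (L (nat_lit 525) ln13_16_7 ln13_16_7_ok) (M (nat_lit 364) (B (L (nat_lit 332) ln12_10_4 ln12_10_4_ok) (L (nat_lit 397) ln13_15_7 ln13_15_7_ok))))) (M (nat_lit 364) (B (L (nat_lit 332) ln12_10_4 ln12_10_4_ok) (M (nat_lit 460) (B (M (nat_lit 365) (B (L (nat_lit 333) ln12_14_6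 ln12_14_6_ok) (M (nat_lit 492) (B (L (nat_lit 397) ln12_15_6 ln12_15_6_ok) (M (nat_lit 363) (B (L (nat_lit 331) ln12_14_7 ln12_14_7_ok) (L (nat_lit 395) ln12_15_7 ln12_15_7_ok))))))) (B (M (nat_lit 492) (B (M (nat_lit 365) (B (L (nat_lit 333) ln12_14_6 ln12_14_6_ok) (L (nat_lit 397) ln12_15_6 ln12_15_6_ok))) (M (nat_lit 491) (B (L (nat_lit 459) ln12_11_5 ln12_11_5_ok) (L (nat_lit 523) ln12_12_5 ln12_12_5_ok))))) (B (M (nat_lit 492) (B (M (nat_lit 363) (B (L (nat_lit 331) ln12_14_7 ln12_14_7_ok) (L (nat_lit 395) ln12_15_7 ln12_15_7_ok))) (M (nat_lit 524) (B (L (nat_lit 397) ln12_16_6 ln12_16_6_ok) (L (nat_lit 556) ln12_17_6 ln12_17_6_ok))))) (B (M (nat_lit 492) (B (M (nat_lit 363) (B (L (nat_lit 331) ln12_14_7 ln12_14_7_ok) (L (nat_lit 395) ln12_15_7 ln12_15_7_ok))) (M (nat_lit 491) (B (L (nat_lit 459) ln12_11_5 ln12_11_5_ok) (L (nat_lit 523) ln12_12_5 ln12_12_5_ok))))) (M (nat_lit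 462) (B (M (nat_lit 427) (B (L (nat_lit 426) ln10_13_0 ln10_13_0_ok) (L (nat_lit 463) ln15_14_3 ln15_14_3_ok))) (M (nat_lit 494) (B (M (nat_lit 365) (B (L (nat_lit 333) ln12_14_6 ln12_14_6_ok) (L (nat_lit 397) ln13_11_4 ln13_11_4_ok))) (M (nat_lit 459) (B (L (nat_lit 491) ln12_11_5 ln12_11_5_ok) (L (nat_lit 495) ln11_14_0 ln11_14_0_ok)))))))))))))))))))
noncomputable def c41_n4824 : Cert := (M (nat_lit 364) (B (M (nat_lit 461) (B (L (nat_lit 332) ln12_10_4 ln12_10_4_ok) (M (nat_lit 493) (B (L (nat_lit 460) ln12_11_4 ln12_11_4_ok) (L (nat_lit 525) ln13_16_7 ln13_16_7_ok))))) (B (M (nat_lit 397) (B (M (nat_lit 365) (B (M (nat_lit 333) (B (L (nat_lit 301) ln13_9_5 ln13_9_5_ok) (L (nat_lit 460) ln12_14_6 ln12_14_6_ok))) (B (M (nat_lit 460) (B (L (nat_lit 333) ln12_14_6 ln12_14_6_ok) (L (nat_lit 492) ln12_15_6 ln12_15_6_ok))) (M (nat_lit 366) (B (M (nat_lit 461) (B (L (nat_lit 334) ln13_14_6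 ln13_14_6_ok) (L (nat_lit 493) ln13_15_7 ln13_15_7_ok))) (M (nat_lit 367) (B (L (nat_lit 395) ln15_11_1 ln15_11_1_ok) (L (nat_lit 368) ln16_11_1 ln16_11_1_ok)))))))) (B (M (nat_lit 365) (B (M (nat_lit 460) (B (L (nat_lit 333) ln12_14_6 ln12_14_6_ok) (L (nat_lit 492) ln12_15_6 ln12_15_6_ok))) (M (nat_lit 366) (B (M (nat_lit 461) (B (L (nat_lit 334) ln13_14_6 ln13_14_6_ok) (L (nat_lit 493) ln13_15_7 ln13_15_7_ok))) (M (nat_lit 367) (B (L (nat_lit 395) ln15_11_1 ln15_11_1_ok) (L (nat_lit 368) ln16_11_1 ln16_11_1_ok))))))) (B (M (nat_lit 395) (B (M (nat_lit 430) (B (L (nat_lit 394) ln10_12_0 ln10_12_0_ok) (L (nat_lit 431) ln15_13_3 ln15_13_3_ok))) (M (nat_lit 363) (B (M (nat_lit 331) (B (L (nat_lit 299) ln11_9_4 ln11_9_4_ok) (L (nat_lit 460) ln12_14_7 ln12_14_7_ok))) (M (nat_lit 362) (B (L (nat_lit 361) ln9_11_0 ln9_11_0_ok) (L (nat_lit 398) ln14_12_3 ln14_12_3_ok))))))) (B (M (nat_lit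 365) (B (M (nat_lit 333) (B (L (nat_lit 301) ln13_9_5 ln13_9_5_ok) (L (nat_lit 460) ln12_14_6 ln12_14_6_ok))) (B (M (nat_lit 460) (B (L (nat_lit 333) ln12_14_6 ln12_14_6_ok) (L (nat_lit 492) ln12_15_6 ln12_15_6_ok))) (B (M (nat_lit 363) (B (M (nat_lit 460) (B (L (nat_lit 331) ln12_14_7 ln12_14_7_ok) (L (nat_lit 492) ln12_15_6 ln12_15_6_ok))) (M (nat_lit 362) (B (L (nat_lit 361) ln9_11_0 ln9_11_0_ok) (L (nat_lit 398) ln10_11_0 ln10_11_0_ok))))) (M (nat_lit 462) (B (M (nat_lit 333) (B (L (nat_lit 301) ln13_9_5 ln13_9_5_ok) (L (nat_lit 430) ln13_10_4 ln13_10_4_ok))) (M (nat_lit 461) (B (L (nat_lit 493) ln13_15_7 ln13_15_7_ok) (L (nat_lit 494) ln13_11_4 ln13_11_4_ok))))))))) (M (nat_lit 365) (B (M (nat_lit 430) (B (M (nat_lit 333) (B (L (nat_lit 301) ln13_9_5 ln13_9_5_ok) (L (nat_lit 462) ln13_10_4 ln13_10_4_ok))) (M (nat_lit 431) (B (L (nat_lit 395) ln15_13_3 ln15_13_3_ok) (L (nat_lit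 432) ln16_13_3 ln16_13_3_ok))))) (B (M (nat_lit 366) (B (M (nat_lit 461) (B (L (nat_lit 334) ln13_14_6 ln13_14_6_ok) (L (nat_lit 493) ln13_15_7 ln13_15_7_ok))) (M (nat_lit 367) (B (L (nat_lit 395) ln15_11_1 ln15_11_1_ok) (L (nat_lit 368) ln16_11_1 ln16_11_1_ok))))) (M (nat_lit 462) (B (M (nat_lit 333) (B (L (nat_lit 301) ln13_9_5 ln13_9_5_ok) (L (nat_lit 430) ln13_10_4 ln13_10_4_ok))) (M (nat_lit 461) (B (L (nat_lit 493) ln13_15_7 ln13_15_7_ok) (L (nat_lit 494) ln13_11_4 ln13_11_4_ok))))))))))))) (B (M (nat_lit 461) (B (L (nat_lit 332) ln12_10_4 ln12_10_4_ok) (M (nat_lit 493) (B (L (nat_lit 397) ln13_15_7 ln13_15_7_ok) (L (nat_lit 525) ln13_16_7 ln13_16_7_ok))))) (M (nat_lit 460) (B (M (nat_lit 492) (B (M (nat_lit 363) (B (L (nat_lit 331) ln12_14_7 ln12_14_7_ok) (L (nat_lit 395) ln12_15_7 ln12_15_7_ok))) (M (nat_lit 365) (B (L (nat_lit 333) ln12_14_6 ln12_14_6_ok) (L (nat_lit 397)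 ln12_15_6 ln12_15_6_ok))))) (B (M (nat_lit 395) (B (M (nat_lit 430) (B (L (nat_lit 431) ln15_13_3 ln15_13_3_ok) (M (nat_lit 394) (B (L (nat_lit 393) ln9_12_0 ln9_12_0_ok) (L (nat_lit 427) ln14_13_3 ln14_13_3_ok))))) (B (M (nat_lit 430) (B (L (nat_lit 431) ln15_13_3 ln15_13_3_ok) (M (nat_lit 394) (B (L (nat_lit 397) ln10_12_0 ln10_12_0_ok) (L (nat_lit 427) ln14_13_3 ln14_13_3_ok))))) (B (M (nat_lit 332) (B (M (nat_lit 300) (B (L (nat_lit 427) ln12_9_5 ln12_9_5_ok) (L (nat_lit 397) ln12_9_4 ln12_9_4_ok))) (M (nat_lit 333) (B (L (nat_lit 301) ln12_13_6 ln12_13_6_ok) (L (nat_lit 365) ln12_14_6 ln12_14_6_ok))))) (M (nat_lit 430) (B (L (nat_lit 431) ln15_13_3 ln15_13_3_ok) (M (nat_lit 394) (B (L (nat_lit 393) ln9_12_0 ln9_12_0_ok) (L (nat_lit 397) ln10_12_0 ln10_12_0_ok))))))))) (B (M (nat_lit 395) (B (M (nat_lit 363) (B (L (nat_lit 331) ln12_14_7 ln12_14_7_ok) (L (nat_lit 492) ln12_15_7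 ln12_15_7_ok))) (M (nat_lit 430) (B (L (nat_lit 431) ln15_13_3 ln15_13_3_ok) (M (nat_lit 394) (B (L (nat_lit 393) ln9_12_0 ln9_12_0_ok) (L (nat_lit 397) ln10_12_0 ln10_12_0_ok))))))) (M (nat_lit 332) (B (M (nat_lit 331) (B (L (nat_lit 299) ln12_13_7 ln12_13_7_ok) (L (nat_lit 363) ln12_14_7 ln12_14_7_ok))) (M (nat_lit 333) (B (L (nat_lit 301) ln12_13_6 ln12_13_6_ok) (L (nat_lit 365) ln12_14_6 ln12_14_6_ok)))))))))))))
noncomputable def c41_n4904 : Cert := (M (nat_lit 397) (B (M (nat_lit 394) (B (L (nat_lit 393) ln9_12_0 ln9_12_0_ok) (M (nat_lit 398) (B (M (nat_lit 362) (B (L (nat_lit 361) ln13_12_3 ln13_12_3_ok) (L (nat_lit 363) ln14_12_3 ln14_12_3_ok))) (M (nat_lit 426) (B (L (nat_lit 425) ln13_12_1 ln13_12_1_ok) (L (nat_lit 427) ln14_12_1 ln14_12_1_ok))))))) (B (M (nat_lit 461) (B (M (nat_lit 364) (B (L (nat_lit 332) ln12_10_4 ln12_10_4_ok) (L (nat_lit 493) ln13_15_7 ln13_15_7_ok)))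 (B (M (nat_lit 493) (B (L (nat_lit 364) ln13_15_7 ln13_15_7_ok) (L (nat_lit 525) ln13_16_7 ln13_16_7_ok))) (M (nat_lit 426) (B (M (nat_lit 394) (B (L (nat_lit 393) ln9_12_0 ln9_12_0_ok) (L (nat_lit 425) ln13_12_1 ln13_12_1_ok))) (M (nat_lit 427) (B (L (nat_lit 398) ln14_12_1 ln14_12_1_ok) (L (nat_lit 462) ln10_13_0 ln10_13_0_ok)))))))) (B (M (nat_lit 461) (B (M (nat_lit 364) (B (L (nat_lit 332) ln12_10_4 ln12_10_4_ok) (L (nat_lit 493) ln13_15_7 ln13_15_7_ok))) (B (M (nat_lit 493) (B (L (nat_lit 364) ln13_15_7 ln13_15_7_ok) (L (nat_lit 525) ln13_16_7 ln13_16_7_ok))) (B (M (nat_lit 366) (B (M (nat_lit 365) (B (L (nat_lit 334) ln13_14_6 ln13_14_6_ok) (L (nat_lit 394) ln10_12_2 ln10_12_2_ok))) (M (nat_lit 493) (B (L (nat_lit 398) ln13_15_6 ln13_15_6_ok) (L (nat_lit 525) ln13_16_7 ln13_16_7_ok))))) (M (nat_lit 365) (B (M (nat_lit 366) (B (L (nat_lit 334) ln13_14_6 ln13_14_6_ok) (L (nat_lit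 394) ln10_12_2 ln10_12_2_ok))) (M (nat_lit 332) (B (L (nat_lit 364) ln13_14_7 ln13_14_7_ok) (M (nat_lit 333) (B (L (nat_lit 300) ln13_13_7 ln13_13_7_ok) (L (nat_lit 301) ln13_9_5 ln13_9_5_ok))))))))))) (B (M (nat_lit 461) (B (M (nat_lit 364) (B (L (nat_lit 332) ln12_10_4 ln12_10_4_ok) (L (nat_lit 493) ln13_15_7 ln13_15_7_ok))) (B (M (nat_lit 493) (B (L (nat_lit 364) ln13_15_7 ln13_15_7_ok) (L (nat_lit 525) ln13_16_7 ln13_16_7_ok))) (B (M (nat_lit 493) (B (L (nat_lit 525) ln13_16_7 ln13_16_7_ok) (M (nat_lit 365) (B (M (nat_lit 366) (B (L (nat_lit 334) ln13_14_6 ln13_14_6_ok) (L (nat_lit 398) ln13_15_6 ln13_15_6_ok))) (M (nat_lit 494) (B (L (nat_lit 462) ln13_11_4 ln13_11_4_ok) (L (nat_lit 526) ln13_12_4 ln13_12_4_ok))))))) (M (nat_lit 365) (B (M (nat_lit 332) (B (L (nat_lit 364) ln13_14_7 ln13_14_7_ok) (M (nat_lit 333) (B (L (nat_lit 300) ln13_13_7 ln13_13_7_ok) (L (nat_lit 301) ln13_9_5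 ln13_9_5_ok))))) (B (M (nat_lit 366) (B (L (nat_lit 334) ln13_14_6 ln13_14_6_ok) (M (nat_lit 364) (B (L (nat_lit 332) ln13_14_7 ln13_14_7_ok) (L (nat_lit 367) ln15_11_1 ln15_11_1_ok))))) (B (M (nat_lit 366) (B (L (nat_lit 334) ln13_14_6 ln13_14_6_ok) (M (nat_lit 367) (B (L (nat_lit 364) ln15_11_1 ln15_11_1_ok) (L (nat_lit 368) ln16_11_1 ln16_11_1_ok))))) (M (nat_lit 366) (B (L (nat_lit 334) ln13_14_6 ln13_14_6_ok) (M (nat_lit 367) (B (L (nat_lit 368) ln16_11_1 ln16_11_1_ok) (L (nat_lit 398) ln11_12_2 ln11_12_2_ok))))))))))))) (M (nat_lit 461) (B (M (nat_lit 364) (B (L (nat_lit 332) ln12_10_4 ln12_10_4_ok) (L (nat_lit 493) ln13_15_7 ln13_15_7_ok))) (B (M (nat_lit 493) (B (L (nat_lit 364) ln13_15_7 ln13_15_7_ok) (L (nat_lit 525) ln13_16_7 ln13_16_7_ok))) (B (M (nat_lit 365) (B (M (nat_lit 366) (B (L (nat_lit 334) ln13_14_6 ln13_14_6_ok) (L (nat_lit 394) ln10_12_2 ln10_12_2_ok))) (B (M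 (nat_lit 394) (B (L (nat_lit 366) ln10_12_2 ln10_12_2_ok) (L (nat_lit 393) ln9_12_0 ln9_12_0_ok))) (M (nat_lit 493) (B (L (nat_lit 525) ln13_16_7 ln13_16_7_ok) (M (nat_lit 494) (B (L (nat_lit 462) ln13_11_4 ln13_11_4_ok) (L (nat_lit 526) ln13_12_4 ln13_12_4_ok)))))))) (M (nat_lit 365) (B (M (nat_lit 366) (B (L (nat_lit 334) ln13_14_6 ln13_14_6_ok) (L (nat_lit 394) ln10_12_2 ln10_12_2_ok))) (B (M (nat_lit 394) (B (L (nat_lit 366) ln10_12_2 ln10_12_2_ok) (L (nat_lit 393) ln9_12_0 ln9_12_0_ok))) (B (M (nat_lit 426) (B (M (nat_lit 394) (B (L (nat_lit 393) ln9_12_0 ln9_12_0_ok) (L (nat_lit 425) ln13_12_1 ln13_12_1_ok))) (B (M (nat_lit 425) (B (L (nat_lit 394) ln13_12_1 ln13_12_1_ok) (L (nat_lit 427) ln9_13_2 ln9_13_2_ok))) (B (M (nat_lit 427) (B (L (nat_lit 425) ln9_13_2 ln9_13_2_ok) (L (nat_lit 462) ln10_13_0 ln10_13_0_ok))) (M (nat_lit 462) (B (L (nat_lit 494) ln13_11_4 ln13_11_4_ok)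 (L (nat_lit 427) ln10_13_0 ln10_13_0_ok))))))) (M (nat_lit 366) (B (L (nat_lit 334) ln13_14_6 ln13_14_6_ok) (M (nat_lit 364) (B (L (nat_lit 332) ln13_14_7 ln13_14_7_ok) (L (nat_lit 367) ln15_11_1 ln15_11_1_ok))))))))))))))))))
theorem c41_s4905 : Sem (nat_lit 2079502270752001762064242424960807725827516048677469043429686155012882190638009693656033379242457518153052022685796627120027336704) (nat_lit 329510287769382699766656903900221758517405672365628177177487496497711216502713597147670829559450097009854054355360677635977553454457424294845535897425436213248) (nat_lit 329510287769382699766656903900221758517405672365628177177487496497711216502713597147670829559450097009854054355360677635977553454457424294845535897425436213248) :=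
  sem_of_chk (M (nat_lit 395) (B (M (nat_lit 430) (B (L (nat_lit 431) ln15_13_3 ln15_13_3_ok) (M (nat_lit 394) (B (L (nat_lit 393) ln9_12_0 ln9_12_0_ok) (L (nat_lit 397) ln10_12_0 ln10_12_0_ok))))) (B (M (nat_lit 430) (B (L (nat_lit 431) ln15_13_3 ln15_13_3_ok) (M (nat_lit 394) (B (L (nat_lit 397) ln10_12_0 ln10_12_0_ok) (L (nat_lit 427) ln14_13_3 ln14_13_3_ok))))) (B (M (nat_lit 430) (B (L (nat_lit 431) ln15_13_3 ln15_13_3_ok) (M (nat_lit 427) (B (M (nat_lit 459) (B (L (nat_lit 458) ln14_13_1 ln14_13_1_ok) (M (nat_lit 364) (B (L (nat_lit 332) ln12_10_5 ln12_10_5_ok) (L (nat_lit 491) ln11_15_6 ln11_15_6_ok))))) (M (nat_lit 426) (B (M (nat_lit 425) (B (L (nat_lit 424) ln8_13_2 ln8_13_2_ok) (L (nat_lit 397) ln9_13_2 ln9_13_2_ok))) (M (nat_lit 462) (B (L (nat_lit 461) ln10_13_0 ln10_13_0_ok) (L (nat_lit 463) ln11_13_0 ln11_13_0_ok))))))))) (B (M (nat_lit 430) (B (L (nat_lit 431) ln15_13_3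 ln15_13_3_ok) (M (nat_lit 394) (B (L (nat_lit 393) ln9_12_0 ln9_12_0_ok) (L (nat_lit 427) ln14_13_3 ln14_13_3_ok))))) c41_n4904))))) (nat_lit 2079502270752001762064242424960807725827516048677469043429686155012882190638009693656033379242457518153052022685796627120027336704) (nat_lit 329510287769382699766656903900221758517405672365628177177487496497711216502713597147670829559450097009854054355360677635977553454457424294845535897425436213248) (nat_lit 329510287769382699766656903900221758517405672365628177177487496497711216502713597147670829559450097009854054355360677635977553454457424294845535897425436213248) (by decide +kernel)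
theorem c41_s4908 : Sem (nat_lit 1386334847221798047169638878925036799968406779833514899637066259859226863686603287896039777716422623628704219945445734162783797248) (nat_lit 353808977752636957106720699863104350351427511162033347962170587365130245741198151172570056485320243874476290137669325077543349474994931781925179929327586168457262006272) (nat_lit 353808977752636957106720699863104350351427511162033347962170587365130245741198151172570056485320243874476290137669325077543349474994931781925179929327586168457262006272) :=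
  sem_of_chk (M (nat_lit 428) (B (M (nat_lit 430) (B (M (nat_lit 395) (B (L (nat_lit 431) ln15_13_3 ln15_13_3_ok) (M (nat_lit 394) (B (L (nat_lit 393) ln9_12_0 ln9_12_0_ok) (L (nat_lit 427) ln14_13_3 ln14_13_3_ok))))) (B (M (nat_lit 461) (B (M (nat_lit 364) (B (L (nat_lit 332) ln12_10_4 ln12_10_4_ok) (M (nat_lit 493) (B (L (nat_lit 460) ln12_11_4 ln12_11_4_ok) (L (nat_lit 525) ln13_16_7 ln13_16_7_ok))))) (M (nat_lit 427) (B (M (nat_lit 395) (B (L (nat_lit 394) ln14_13_3 ln14_13_3_ok) (L (nat_lit 431) ln15_13_3 ln15_13_3_ok))) (M (nat_lit 462) (B (L (nat_lit 426) ln10_13_0 ln10_13_0_ok) (L (nat_lit 463) ln11_13_0 ln11_13_0_ok))))))) (B (M (nat_lit 431) (B (L (nat_lit 395) ln15_13_3 ln15_13_3_ok) (M (nat_lit 460) (B (L (nat_lit 459) ln15_13_1 ln15_13_1_ok) (M (nat_lit 461) (B (L (nat_lit 432) ln16_13_1 ln16_13_1_ok) (M (nat_lit 364) (B (L (nat_lit 332) ln12_10_4 ln12_10_4_ok) (L (nat_lit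 493) ln12_11_4 ln12_11_4_ok))))))))) (M (nat_lit 427) (B (M (nat_lit 426) (B (M (nat_lit 458) (B (L (nat_lit 457) ln13_13_1 ln13_13_1_ok) (L (nat_lit 459) ln14_13_1 ln14_13_1_ok))) (M (nat_lit 462) (B (L (nat_lit 461) ln10_13_0 ln10_13_0_ok) (L (nat_lit 463) ln11_13_0 ln11_13_0_ok))))) (B (M (nat_lit 459) (B (L (nat_lit 458) ln14_13_1 ln14_13_1_ok) (M (nat_lit 364) (B (L (nat_lit 332) ln12_10_5 ln12_10_5_ok) (M (nat_lit 491) (B (L (nat_lit 460) ln12_11_5 ln12_11_5_ok) (L (nat_lit 523) ln11_16_6 ln11_16_6_ok))))))) (M (nat_lit 461) (B (M (nat_lit 462) (B (L (nat_lit 426) ln10_13_0 ln10_13_0_ok) (L (nat_lit 463) ln11_13_0 ln11_13_0_ok))) (M (nat_lit 364) (B (L (nat_lit 332) ln12_10_4 ln12_10_4_ok) (M (nat_lit 493) (B (L (nat_lit 460) ln12_11_4 ln12_11_4_ok) (L (nat_lit 525) ln13_16_7 ln13_16_7_ok)))))))))))))) (B (M (nat_lit 427) (B (M (nat_lit 459) (B (M (nat_lit 430) (B (L (nat_lit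 458) ln14_13_1 ln14_13_1_ok) (M (nat_lit 431) (B (L (nat_lit 395) ln15_13_3 ln15_13_3_ok) (L (nat_lit 460) ln15_13_1 ln15_13_1_ok))))) (B (M (nat_lit 460) (B (M (nat_lit 491) (B (L (nat_lit 364) ln12_11_5 ln12_11_5_ok) (L (nat_lit 523) ln11_16_6 ln11_16_6_ok))) (M (nat_lit 430) (B (L (nat_lit 458) ln14_13_1 ln14_13_1_ok) (L (nat_lit 431) ln15_13_1 ln15_13_1_ok))))) (B (M (nat_lit 491) (B (L (nat_lit 523) ln11_16_6 ln11_16_6_ok) (M (nat_lit 364) (B (L (nat_lit 395) ln11_15_6 ln11_15_6_ok) (L (nat_lit 460) ln12_11_5 ln12_11_5_ok))))) (M (nat_lit 395) (B (M (nat_lit 491) (B (L (nat_lit 364) ln11_15_6 ln11_15_6_ok) (L (nat_lit 523) ln11_16_6 ln11_16_6_ok))) (M (nat_lit 430) (B (L (nat_lit 431) ln15_13_3 ln15_13_3_ok) (L (nat_lit 458) ln14_13_1 ln14_13_1_ok))))))))) (B (M (nat_lit 430) (B (M (nat_lit 395) (B (L (nat_lit 394) ln14_13_3 ln14_13_3_ok) (L (nat_lit 431) ln15_13_3 ln15_13_3_ok)))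 (M (nat_lit 426) (B (M (nat_lit 397) (B (L (nat_lit 425) ln9_13_2 ln9_13_2_ok) (L (nat_lit 398) ln10_13_2 ln10_13_2_ok))) (M (nat_lit 458) (B (L (nat_lit 457) ln13_13_1 ln13_13_1_ok) (L (nat_lit 459) ln14_13_1 ln14_13_1_ok))))))) (B (M (nat_lit 461) (B (M (nat_lit 493) (B (L (nat_lit 525) ln13_16_7 ln13_16_7_ok) (M (nat_lit 364) (B (L (nat_lit 397) ln13_15_7 ln13_15_7_ok) (L (nat_lit 460) ln12_11_4 ln12_11_4_ok))))) (B (M (nat_lit 462) (B (L (nat_lit 426) ln10_13_0 ln10_13_0_ok) (M (nat_lit 463) (B (L (nat_lit 430) ln11_13_0 ln11_13_0_ok) (L (nat_lit 460) ln15_14_3 ln15_14_3_ok))))) (M (nat_lit 426) (B (L (nat_lit 462) ln10_13_0 ln10_13_0_ok) (M (nat_lit 397) (B (L (nat_lit 425) ln9_13_2 ln9_13_2_ok) (L (nat_lit 398) ln10_13_2 ln10_13_2_ok)))))))) (M (nat_lit 461) (B (M (nat_lit 462) (B (L (nat_lit 426) ln10_13_0 ln10_13_0_ok) (M (nat_lit 463) (B (L (nat_lit 460) ln15_14_3 ln15_14_3_ok)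 (L (nat_lit 464) ln16_14_3 ln16_14_3_ok))))) (B (M (nat_lit 493) (B (L (nat_lit 525) ln13_16_7 ln13_16_7_ok) (M (nat_lit 364) (B (L (nat_lit 397) ln13_15_7 ln13_15_7_ok) (L (nat_lit 460) ln12_11_4 ln12_11_4_ok))))) (M (nat_lit 397) (B (M (nat_lit 493) (B (L (nat_lit 364) ln13_15_7 ln13_15_7_ok) (L (nat_lit 525) ln13_16_7 ln13_16_7_ok))) (M (nat_lit 426) (B (L (nat_lit 425) ln9_13_2 ln9_13_2_ok) (L (nat_lit 462) ln10_13_0 ln10_13_0_ok)))))))))))) (B (M (nat_lit 395) (B (M (nat_lit 430) (B (L (nat_lit 431) ln15_13_3 ln15_13_3_ok) (M (nat_lit 394) (B (L (nat_lit 393) ln9_12_0 ln9_12_0_ok) (L (nat_lit 397) ln10_12_0 ln10_12_0_ok))))) (B (M (nat_lit 430) (B (L (nat_lit 431) ln15_13_3 ln15_13_3_ok) (M (nat_lit 394) (B (L (nat_lit 397) ln10_12_0 ln10_12_0_ok) (L (nat_lit 427) ln14_13_3 ln14_13_3_ok))))) (B (M (nat_lit 427) (B (M (nat_lit 430) (B (L (nat_lit 431) ln15_13_3 ln15_13_3_ok) (M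 (nat_lit 462) (B (L (nat_lit 463) ln11_13_0 ln11_13_0_ok) (M (nat_lit 426) (B (L (nat_lit 461) ln10_13_0 ln10_13_0_ok) (M (nat_lit 458) (B (L (nat_lit 457) ln13_13_1 ln13_13_1_ok) (L (nat_lit 459) ln14_13_1 ln14_13_1_ok))))))))) (B (M (nat_lit 459) (B (M (nat_lit 430) (B (L (nat_lit 431) ln15_13_3 ln15_13_3_ok) (L (nat_lit 458) ln14_13_1 ln14_13_1_ok))) (M (nat_lit 363) (B (M (nat_lit 331) (B (L (nat_lit 299) ln11_9_4 ln11_9_4_ok) (L (nat_lit 460) ln11_10_4 ln11_10_4_ok))) (B (M (nat_lit 460) (B (L (nat_lit 331) ln11_10_4 ln11_10_4_ok) (L (nat_lit 492) ln12_15_7 ln12_15_7_ok))) (B (M (nat_lit 492) (B (L (nat_lit 460) ln12_15_7 ln12_15_7_ok) (M (nat_lit 491) (B (L (nat_lit 524) ln11_12_4 ln11_12_4_ok) (L (nat_lit 523) ln11_16_6 ln11_16_6_ok))))) (M (nat_lit 331) (B (L (nat_lit 299) ln11_9_4 ln11_9_4_ok) (M (nat_lit 330) (B (L (nat_lit 298) ln11_13_7 ln11_13_7_ok) (L (nat_lit 362) ln11_14_7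 ln11_14_7_ok))))))))))) (B (M (nat_lit 426) (B (M (nat_lit 397) (B (L (nat_lit 398) ln14_12_1 ln14_12_1_ok) (L (nat_lit 425) ln9_13_2 ln9_13_2_ok))) (B (M (nat_lit 425) (B (L (nat_lit 424) ln8_13_2 ln8_13_2_ok) (M (nat_lit 457) (B (L (nat_lit 456) ln12_13_1 ln12_13_1_ok) (L (nat_lit 458) ln13_13_1 ln13_13_1_ok))))) (M (nat_lit 458) (B (L (nat_lit 457) ln13_13_1 ln13_13_1_ok) (M (nat_lit 363) (B (L (nat_lit 331) ln11_10_5 ln11_10_5_ok) (M (nat_lit 490) (B (L (nat_lit 459) ln11_11_5 ln11_11_5_ok) (L (nat_lit 522) ln10_16_6 ln10_16_6_ok)))))))))) (M (nat_lit 430) (B (L (nat_lit 431) ln15_13_3 ln15_13_3_ok) (M (nat_lit 426) (B (M (nat_lit 425) (B (L (nat_lit 424) ln8_13_2 ln8_13_2_ok) (L (nat_lit 397) ln9_13_2 ln9_13_2_ok))) (M (nat_lit 462) (B (L (nat_lit 461) ln10_13_0 ln10_13_0_ok) (L (nat_lit 463) ln11_13_0 ln11_13_0_ok))))))))))) (B (M (nat_lit 430) (B (L (nat_lit 431) ln15_13_3 ln15_13_3_ok)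 (M (nat_lit 394) (B (L (nat_lit 393) ln9_12_0 ln9_12_0_ok) (L (nat_lit 427) ln14_13_3 ln14_13_3_ok))))) (M (nat_lit 394) (B (L (nat_lit 393) ln9_12_0 ln9_12_0_ok) (M (nat_lit 397) (B (M (nat_lit 365) (B (L (nat_lit 366) ln10_12_2 ln10_12_2_ok) (M (nat_lit 333) (B (L (nat_lit 301) ln13_9_5 ln13_9_5_ok) (L (nat_lit 460) ln13_10_5 ln13_10_5_ok))))) (M (nat_lit 398) (B (M (nat_lit 362) (B (L (nat_lit 361) ln13_12_3 ln13_12_3_ok) (L (nat_lit 363) ln14_12_3 ln14_12_3_ok))) (M (nat_lit 426) (B (L (nat_lit 425) ln13_12_1 ln13_12_1_ok) (L (nat_lit 427) ln14_12_1 ln14_12_1_ok)))))))))))))) (B (M (nat_lit 459) (B (M (nat_lit 427) (B (M (nat_lit 458) (B (L (nat_lit 430) ln14_13_1 ln14_13_1_ok) (M (nat_lit 457) (B (L (nat_lit 426) ln13_13_1 ln13_13_1_ok) (L (nat_lit 456) ln8_14_2 ln8_14_2_ok))))) (M (nat_lit 364) (B (L (nat_lit 332) ln12_10_5 ln12_10_5_ok) (M (nat_lit 491) (B (L (nat_lit 395) ln11_15_6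 ln11_15_6_ok) (L (nat_lit 523) ln11_16_6 ln11_16_6_ok))))))) (B (M (nat_lit 430) (B (M (nat_lit 431) (B (L (nat_lit 395) ln15_13_3 ln15_13_3_ok) (L (nat_lit 460) ln15_13_1 ln15_13_1_ok))) (B (M (nat_lit 458) (B (L (nat_lit 427) ln14_13_1 ln14_13_1_ok) (M (nat_lit 460) (B (L (nat_lit 457) ln9_14_2 ln9_14_2_ok) (L (nat_lit 461) ln10_14_2 ln10_14_2_ok))))) (M (nat_lit 463) (B (M (nat_lit 427) (B (L (nat_lit 458) ln14_13_1 ln14_13_1_ok) (L (nat_lit 462) ln11_13_0 ln11_13_0_ok))) (M (nat_lit 431) (B (L (nat_lit 395) ln15_13_3 ln15_13_3_ok) (L (nat_lit 464) ln12_13_0 ln12_13_0_ok)))))))) (B (M (nat_lit 460) (B (M (nat_lit 430) (B (L (nat_lit 431) ln15_13_1 ln15_13_1_ok) (M (nat_lit 458) (B (L (nat_lit 457) ln9_14_2 ln9_14_2_ok) (L (nat_lit 461) ln10_14_2 ln10_14_2_ok))))) (B (M (nat_lit 364) (B (L (nat_lit 491) ln12_11_5 ln12_11_5_ok) (M (nat_lit 461) (B (L (nat_lit 332) ln12_10_4 ln12_10_4_ok)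 (L (nat_lit 493) ln12_11_4 ln12_11_4_ok))))) (M (nat_lit 491) (B (L (nat_lit 364) ln12_11_5 ln12_11_5_ok) (M (nat_lit 523) (B (L (nat_lit 492) ln12_12_5 ln12_12_5_ok) (L (nat_lit 555) ln11_17_6 ln11_17_6_ok)))))))) (M (nat_lit 364) (B (M (nat_lit 332) (B (L (nat_lit 427) ln12_10_5 ln12_10_5_ok) (L (nat_lit 461) ln12_10_4 ln12_10_4_ok))) (B (M (nat_lit 491) (B (L (nat_lit 460) ln12_11_5 ln12_11_5_ok) (M (nat_lit 427) (B (L (nat_lit 395) ln11_15_6 ln11_15_6_ok) (L (nat_lit 523) ln11_16_6 ln11_16_6_ok))))) (M (nat_lit 461) (B (L (nat_lit 332) ln12_10_4 ln12_10_4_ok) (M (nat_lit 460) (B (L (nat_lit 491) ln12_11_5 ln12_11_5_ok) (L (nat_lit 493) ln12_11_4 ln12_11_4_ok)))))))))))) (B (M (nat_lit 364) (B (M (nat_lit 461) (B (L (nat_lit 332) ln12_10_4 ln12_10_4_ok) (M (nat_lit 493) (B (L (nat_lit 397) ln13_15_7 ln13_15_7_ok) (L (nat_lit 525) ln13_16_7 ln13_16_7_ok))))) (B (M (nat_lit 460) (B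 (M (nat_lit 365) (B (L (nat_lit 333) ln12_14_6 ln12_14_6_ok) (M (nat_lit 492) (B (L (nat_lit 397) ln12_15_6 ln12_15_6_ok) (M (nat_lit 491) (B (L (nat_lit 459) ln12_11_5 ln12_11_5_ok) (L (nat_lit 523) ln12_12_5 ln12_12_5_ok))))))) (B (M (nat_lit 492) (B (M (nat_lit 491) (B (L (nat_lit 459) ln12_11_5 ln12_11_5_ok) (L (nat_lit 523) ln12_12_5 ln12_12_5_ok))) (M (nat_lit 493) (B (L (nat_lit 461) ln12_11_4 ln12_11_4_ok) (L (nat_lit 525) ln12_12_4 ln12_12_4_ok))))) (B (M (nat_lit 492) (B (M (nat_lit 365) (B (L (nat_lit 333) ln12_14_6 ln12_14_6_ok) (L (nat_lit 397) ln12_15_6 ln12_15_6_ok))) (M (nat_lit 493) (B (L (nat_lit 461) ln12_11_4 ln12_11_4_ok) (L (nat_lit 525) ln12_12_4 ln12_12_4_ok))))) (M (nat_lit 461) (B (L (nat_lit 493) ln12_11_4 ln12_11_4_ok) (M (nat_lit 459) (B (L (nat_lit 491) ln12_11_5 ln12_11_5_ok) (M (nat_lit 430) (B (L (nat_lit 431) ln15_13_1 ln15_13_1_ok) (L (nat_lit 458)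 ln10_14_2 ln10_14_2_ok))))))))))) (B (M (nat_lit 461) (B (L (nat_lit 332) ln12_10_4 ln12_10_4_ok) (M (nat_lit 493) (B (L (nat_lit 460) ln12_11_4 ln12_11_4_ok) (L (nat_lit 525) ln13_16_7 ln13_16_7_ok))))) (M (nat_lit 332) (B (M (nat_lit 300) (B (L (nat_lit 397) ln12_9_4 ln12_9_4_ok) (M (nat_lit 301) (B (L (nat_lit 269) ln12_12_6 ln12_12_6_ok) (L (nat_lit 333) ln12_13_6 ln12_13_6_ok))))) (M (nat_lit 460) (B (M (nat_lit 331) (B (L (nat_lit 299) ln12_13_7 ln12_13_7_ok) (L (nat_lit 363) ln12_14_7 ln12_14_7_ok))) (M (nat_lit 459) (B (L (nat_lit 427) ln12_10_5 ln12_10_5_ok) (L (nat_lit 491) ln12_11_5 ln12_11_5_ok))))))))))) (B (M (nat_lit 364) (B (M (nat_lit 461) (B (L (nat_lit 332) ln12_10_4 ln12_10_4_ok) (M (nat_lit 493) (B (L (nat_lit 397) ln13_15_7 ln13_15_7_ok) (L (nat_lit 525) ln13_16_7 ln13_16_7_ok))))) (B (M (nat_lit 461) (B (M (nat_lit 493) (B (L (nat_lit 397) ln13_15_7 ln13_15_7_ok)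 (L (nat_lit 460) ln12_11_4 ln12_11_4_ok))) (B (M (nat_lit 493) (B (L (nat_lit 460) ln12_11_4 ln12_11_4_ok) (L (nat_lit 525) ln13_16_7 ln13_16_7_ok))) (B (M (nat_lit 493) (B (L (nat_lit 397) ln13_15_7 ln13_15_7_ok) (L (nat_lit 525) ln13_16_7 ln13_16_7_ok))) (M (nat_lit 460) (B (M (nat_lit 459) (B (L (nat_lit 491) ln12_11_5 ln12_11_5_ok) (M (nat_lit 430) (B (L (nat_lit 431) ln15_13_1 ln15_13_1_ok) (L (nat_lit 458) ln10_14_2 ln10_14_2_ok))))) (M (nat_lit 492) (B (M (nat_lit 363) (B (L (nat_lit 331) ln12_14_7 ln12_14_7_ok) (L (nat_lit 395) ln12_15_7 ln12_15_7_ok))) (M (nat_lit 524) (B (L (nat_lit 397) ln12_16_6 ln12_16_6_ok) (L (nat_lit 556) ln12_17_6 ln12_17_6_ok))))))))))) (B (M (nat_lit 461) (B (L (nat_lit 332) ln12_10_4 ln12_10_4_ok) (M (nat_lit 493) (B (L (nat_lit 460) ln12_11_4 ln12_11_4_ok) (L (nat_lit 525) ln13_16_7 ln13_16_7_ok))))) (M (nat_lit 460) (B (M (nat_lit 365) (B (L (nat_lit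 333) ln12_14_6 ln12_14_6_ok) (M (nat_lit 492) (B (L (nat_lit 397) ln12_15_6 ln12_15_6_ok) (M (nat_lit 491) (B (L (nat_lit 459) ln12_11_5 ln12_11_5_ok) (L (nat_lit 523) ln12_12_5 ln12_12_5_ok))))))) (B (M (nat_lit 492) (B (M (nat_lit 363) (B (L (nat_lit 331) ln12_14_7 ln12_14_7_ok) (L (nat_lit 395) ln12_15_7 ln12_15_7_ok))) (M (nat_lit 491) (B (L (nat_lit 459) ln12_11_5 ln12_11_5_ok) (L (nat_lit 523) ln12_12_5 ln12_12_5_ok))))) (B (M (nat_lit 492) (B (M (nat_lit 363) (B (L (nat_lit 331) ln12_14_7 ln12_14_7_ok) (L (nat_lit 395) ln12_15_7 ln12_15_7_ok))) (M (nat_lit 365) (B (L (nat_lit 333) ln12_14_6 ln12_14_6_ok) (L (nat_lit 397) ln12_15_6 ln12_15_6_ok))))) (M (nat_lit 332) (B (M (nat_lit 331) (B (L (nat_lit 299) ln12_13_7 ln12_13_7_ok) (L (nat_lit 363) ln12_14_7 ln12_14_7_ok))) (M (nat_lit 333) (B (L (nat_lit 301) ln12_13_6 ln12_13_6_ok) (L (nat_lit 365) ln12_14_6 ln12_14_6_ok)))))))))))))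 (B c41_n4797 (B c41_n4824 (B (K (nat_lit 2079502270752001762064242424960807725827516048677469043429686155012882190638009693656033379242457518153052022685796627120027336704) (nat_lit 329510287769382699766656903900221758517405672365628177177487496497711216502713597147670829559450097009854054355360677635977553454457424294845535897425436213248) (nat_lit 329510287769382699766656903900221758517405672365628177177487496497711216502713597147670829559450097009854054355360677635977553454457424294845535897425436213248) c41_s4905) (M (nat_lit 430) (B (M (nat_lit 395) (B (L (nat_lit 431) ln15_13_3 ln15_13_3_ok) (M (nat_lit 394) (B (L (nat_lit 393) ln9_12_0 ln9_12_0_ok) (L (nat_lit 397) ln10_12_0 ln10_12_0_ok))))) (B (M (nat_lit 395) (B (L (nat_lit 431) ln15_13_3 ln15_13_3_ok) (M (nat_lit 394) (B (L (nat_lit 397) ln10_12_0 ln10_12_0_ok) (L (nat_lit 427) ln14_13_3 ln14_13_3_ok))))) (B (M (nat_lit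 431) (B (L (nat_lit 395) ln15_13_3 ln15_13_3_ok) (M (nat_lit 427) (B (M (nat_lit 459) (B (L (nat_lit 458) ln14_13_1 ln14_13_1_ok) (L (nat_lit 460) ln15_13_1 ln15_13_1_ok))) (M (nat_lit 463) (B (L (nat_lit 462) ln11_13_0 ln11_13_0_ok) (L (nat_lit 464) ln12_13_0 ln12_13_0_ok))))))) (B (M (nat_lit 427) (B (M (nat_lit 459) (B (L (nat_lit 458) ln14_13_1 ln14_13_1_ok) (M (nat_lit 364) (B (L (nat_lit 332) ln12_10_5 ln12_10_5_ok) (M (nat_lit 491) (B (L (nat_lit 460) ln12_11_5 ln12_11_5_ok) (L (nat_lit 523) ln11_16_6 ln11_16_6_ok))))))) (B (M (nat_lit 431) (B (M (nat_lit 459) (B (L (nat_lit 458) ln14_13_1 ln14_13_1_ok) (L (nat_lit 460) ln15_13_1 ln15_13_1_ok))) (M (nat_lit 463) (B (L (nat_lit 462) ln11_13_0 ln11_13_0_ok) (L (nat_lit 464) ln12_13_0 ln12_13_0_ok))))) (M (nat_lit 397) (B (M (nat_lit 426) (B (L (nat_lit 425) ln9_13_2 ln9_13_2_ok) (L (nat_lit 398) ln10_13_2 ln10_13_2_ok))) (M (nat_lit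 431) (B (L (nat_lit 432) ln16_13_3 ln16_13_3_ok) (M (nat_lit 463) (B (L (nat_lit 462) ln11_13_0 ln11_13_0_ok) (L (nat_lit 464) ln12_13_0 ln12_13_0_ok)))))))))) (M (nat_lit 427) (B (M (nat_lit 459) (B (L (nat_lit 458) ln14_13_1 ln14_13_1_ok) (M (nat_lit 364) (B (L (nat_lit 332) ln12_10_5 ln12_10_5_ok) (M (nat_lit 491) (B (L (nat_lit 460) ln12_11_5 ln12_11_5_ok) (L (nat_lit 523) ln11_16_6 ln11_16_6_ok))))))) (M (nat_lit 426) (B (M (nat_lit 394) (B (L (nat_lit 393) ln13_13_3 ln13_13_3_ok) (L (nat_lit 395) ln14_13_3 ln14_13_3_ok))) (M (nat_lit 397) (B (L (nat_lit 425) ln9_13_2 ln9_13_2_ok) (L (nat_lit 398) ln10_13_2 ln10_13_2_ok)))))))))))))))))))))) (nat_lit 1386334847221798047169638878925036799968406779833514899637066259859226863686603287896039777716422623628704219945445734162783797248) (nat_lit 353808977752636957106720699863104350351427511162033347962170587365130245741198151172570056485320243874476290137669325077543349474994931781925179929327586168457262006272)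 (nat_lit 353808977752636957106720699863104350351427511162033347962170587365130245741198151172570056485320243874476290137669325077543349474994931781925179929327586168457262006272) (by decide +kernel)
noncomputable def c41_n4923 : Cert := (M (nat_lit 430) (B (M (nat_lit 395) (B (L (nat_lit 431) ln15_13_3 ln15_13_3_ok) (M (nat_lit 394) (B (L (nat_lit 397) ln10_12_0 ln10_12_0_ok) (L (nat_lit 427) ln14_13_3 ln14_13_3_ok))))) (B (M (nat_lit 461) (B (M (nat_lit 364) (B (L (nat_lit 332) ln12_10_4 ln12_10_4_ok) (M (nat_lit 493) (B (L (nat_lit 397) ln13_15_7 ln13_15_7_ok) (L (nat_lit 525) ln13_16_7 ln13_16_7_ok))))) (B (M (nat_lit 431) (B (L (nat_lit 395) ln15_13_3 ln15_13_3_ok) (M (nat_lit 432) (B (L (nat_lit 397) ln16_13_3 ln16_13_3_ok) (L (nat_lit 460) ln16_13_1 ln16_13_1_ok))))) (M (nat_lit 364) (B (L (nat_lit 332) ln12_10_4 ln12_10_4_ok) (M (nat_lit 493) (B (L (nat_lit 460) ln12_11_4 ln12_11_4_ok)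 (L (nat_lit 525) ln13_16_7 ln13_16_7_ok)))))))) (B (M (nat_lit 461) (B (M (nat_lit 364) (B (L (nat_lit 332) ln12_10_4 ln12_10_4_ok) (M (nat_lit 493) (B (L (nat_lit 397) ln13_15_7 ln13_15_7_ok) (L (nat_lit 525) ln13_16_7 ln13_16_7_ok))))) (B (M (nat_lit 493) (B (L (nat_lit 525) ln13_16_7 ln13_16_7_ok) (M (nat_lit 364) (B (L (nat_lit 397) ln13_15_7 ln13_15_7_ok) (L (nat_lit 460) ln12_11_4 ln12_11_4_ok))))) (B (M (nat_lit 427) (B (M (nat_lit 462) (B (L (nat_lit 426) ln10_13_0 ln10_13_0_ok) (L (nat_lit 463) ln11_13_0 ln11_13_0_ok))) (M (nat_lit 431) (B (M (nat_lit 399) (B (L (nat_lit 398) ln11_13_2 ln11_13_2_ok) (L (nat_lit 400) ln12_13_2 ln12_13_2_ok))) (M (nat_lit 432) (B (L (nat_lit 397) ln16_13_3 ln16_13_3_ok) (L (nat_lit 460) ln16_13_1 ln16_13_1_ok))))))) (M (nat_lit 364) (B (L (nat_lit 332) ln12_10_4 ln12_10_4_ok) (M (nat_lit 493) (B (L (nat_lit 460) ln12_11_4 ln12_11_4_ok) (L (nat_lit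 525) ln13_16_7 ln13_16_7_ok))))))))) (B (M (nat_lit 395) (B (L (nat_lit 431) ln15_13_3 ln15_13_3_ok) (M (nat_lit 394) (B (L (nat_lit 393) ln9_12_0 ln9_12_0_ok) (L (nat_lit 427) ln14_13_3 ln14_13_3_ok))))) (M (nat_lit 397) (B (M (nat_lit 398) (B (M (nat_lit 427) (B (L (nat_lit 399) ln15_12_1 ln15_12_1_ok) (L (nat_lit 426) ln10_13_2 ln10_13_2_ok))) (M (nat_lit 366) (B (M (nat_lit 334) (B (L (nat_lit 302) ln14_9_5 ln14_9_5_ok) (L (nat_lit 461) ln14_10_5 ln14_10_5_ok))) (M (nat_lit 395) (B (L (nat_lit 367) ln11_12_2 ln11_12_2_ok) (L (nat_lit 394) ln10_12_0 ln10_12_0_ok))))))) (B (M (nat_lit 398) (B (M (nat_lit 399) (B (L (nat_lit 427) ln15_12_1 ln15_12_1_ok) (L (nat_lit 400) ln16_12_1 ln16_12_1_ok))) (B (M (nat_lit 462) (B (M (nat_lit 365) (B (L (nat_lit 333) ln13_10_4 ln13_10_4_ok) (L (nat_lit 494) ln14_15_7 ln14_15_7_ok))) (M (nat_lit 427) (B (L (nat_lit 426) ln10_13_2 ln10_13_2_ok)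 (L (nat_lit 463) ln11_13_0 ln11_13_0_ok))))) (M (nat_lit 364) (B (M (nat_lit 332) (B (L (nat_lit 300) ln12_9_4 ln12_9_4_ok) (L (nat_lit 461) ln12_10_4 ln12_10_4_ok))) (M (nat_lit 399) (B (L (nat_lit 363) ln15_12_3 ln15_12_3_ok) (L (nat_lit 400) ln16_12_1 ln16_12_1_ok)))))))) (B (M (nat_lit 461) (B (M (nat_lit 364) (B (L (nat_lit 332) ln12_10_4 ln12_10_4_ok) (L (nat_lit 493) ln13_15_7 ln13_15_7_ok))) (M (nat_lit 462) (B (M (nat_lit 365) (B (L (nat_lit 333) ln13_10_4 ln13_10_4_ok) (L (nat_lit 494) ln13_11_4 ln13_11_4_ok))) (M (nat_lit 463) (B (L (nat_lit 427) ln11_13_0 ln11_13_0_ok) (L (nat_lit 464) ln16_14_3 ln16_14_3_ok))))))) (B (M (nat_lit 398) (B (M (nat_lit 363) (B (M (nat_lit 395) (B (L (nat_lit 362) ln14_12_3 ln14_12_3_ok) (L (nat_lit 394) ln10_12_0 ln10_12_0_ok))) (M (nat_lit 399) (B (L (nat_lit 364) ln15_12_3 ln15_12_3_ok) (L (nat_lit 400) ln16_12_1 ln16_12_1_ok))))) (B (M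 (nat_lit 364) (B (M (nat_lit 332) (B (L (nat_lit 300) ln12_9_4 ln12_9_4_ok) (L (nat_lit 461) ln12_10_4 ln12_10_4_ok))) (M (nat_lit 399) (B (L (nat_lit 363) ln15_12_3 ln15_12_3_ok) (L (nat_lit 400) ln16_12_1 ln16_12_1_ok))))) (M (nat_lit 366) (B (M (nat_lit 334) (B (L (nat_lit 302) ln14_9_5 ln14_9_5_ok) (L (nat_lit 461) ln14_10_5 ln14_10_5_ok))) (M (nat_lit 395) (B (L (nat_lit 367) ln11_12_2 ln11_12_2_ok) (L (nat_lit 394) ln10_12_0 ln10_12_0_ok)))))))) (M (nat_lit 398) (B (M (nat_lit 399) (B (L (nat_lit 427) ln15_12_1 ln15_12_1_ok) (L (nat_lit 400) ln16_12_1 ln16_12_1_ok))) (B (M (nat_lit 462) (B (M (nat_lit 365) (B (L (nat_lit 333) ln13_10_4 ln13_10_4_ok) (L (nat_lit 494) ln14_15_7 ln14_15_7_ok))) (M (nat_lit 427) (B (L (nat_lit 426) ln10_13_2 ln10_13_2_ok) (L (nat_lit 463) ln11_13_0 ln11_13_0_ok))))) (M (nat_lit 363) (B (M (nat_lit 395) (B (L (nat_lit 362) ln14_12_3 ln14_12_3_ok)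 (L (nat_lit 394) ln10_12_0 ln10_12_0_ok))) (M (nat_lit 399) (B (L (nat_lit 364) ln15_12_3 ln15_12_3_ok) (L (nat_lit 400) ln16_12_1 ln16_12_1_ok))))))))))))))))))
noncomputable def c41_n4935 : Cert := (M (nat_lit 430) (B (M (nat_lit 395) (B (L (nat_lit 431) ln15_13_3 ln15_13_3_ok) (M (nat_lit 394) (B (L (nat_lit 393) ln9_12_0 ln9_12_0_ok) (L (nat_lit 427) ln14_13_3 ln14_13_3_ok))))) (B (M (nat_lit 395) (B (L (nat_lit 431) ln15_13_3 ln15_13_3_ok) (M (nat_lit 394) (B (L (nat_lit 397) ln10_12_0 ln10_12_0_ok) (L (nat_lit 427) ln14_13_3 ln14_13_3_ok))))) (B (M (nat_lit 427) (B (M (nat_lit 431) (B (L (nat_lit 395) ln15_13_3 ln15_13_3_ok) (M (nat_lit 399) (B (L (nat_lit 398) ln11_13_2 ln11_13_2_ok) (L (nat_lit 400) ln12_13_2 ln12_13_2_ok))))) (M (nat_lit 426) (B (M (nat_lit 458) (B (L (nat_lit 457) ln13_13_1 ln13_13_1_ok) (L (nat_lit 459) ln14_13_1 ln14_13_1_ok))) (M (nat_lit 462) (B (L (nat_lit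 461) ln10_13_0 ln10_13_0_ok) (L (nat_lit 463) ln11_13_0 ln11_13_0_ok))))))) (B (M (nat_lit 461) (B (M (nat_lit 364) (B (L (nat_lit 332) ln12_10_4 ln12_10_4_ok) (M (nat_lit 493) (B (L (nat_lit 397) ln13_15_7 ln13_15_7_ok) (L (nat_lit 525) ln13_16_7 ln13_16_7_ok))))) (B (M (nat_lit 427) (B (M (nat_lit 462) (B (L (nat_lit 426) ln10_13_0 ln10_13_0_ok) (L (nat_lit 463) ln11_13_0 ln11_13_0_ok))) (B (M (nat_lit 431) (B (M (nat_lit 399) (B (L (nat_lit 398) ln11_13_2 ln11_13_2_ok) (L (nat_lit 400) ln12_13_2 ln12_13_2_ok))) (M (nat_lit 463) (B (L (nat_lit 462) ln11_13_0 ln11_13_0_ok) (L (nat_lit 464) ln12_13_0 ln12_13_0_ok))))) (M (nat_lit 397) (B (M (nat_lit 493) (B (L (nat_lit 364) ln13_15_7 ln13_15_7_ok) (L (nat_lit 525) ln13_16_7 ln13_16_7_ok))) (M (nat_lit 398) (B (L (nat_lit 399) ln15_12_1 ln15_12_1_ok) (L (nat_lit 426) ln10_13_2 ln10_13_2_ok)))))))) (B (M (nat_lit 427) (B (M (nat_lit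 462) (B (L (nat_lit 426) ln10_13_0 ln10_13_0_ok) (L (nat_lit 463) ln11_13_0 ln11_13_0_ok))) (B (M (nat_lit 431) (B (M (nat_lit 399) (B (L (nat_lit 398) ln11_13_2 ln11_13_2_ok) (L (nat_lit 400) ln12_13_2 ln12_13_2_ok))) (M (nat_lit 463) (B (L (nat_lit 462) ln11_13_0 ln11_13_0_ok) (L (nat_lit 464) ln12_13_0 ln12_13_0_ok))))) (M (nat_lit 398) (B (L (nat_lit 399) ln11_13_2 ln11_13_2_ok) (M (nat_lit 426) (B (L (nat_lit 397) ln10_13_2 ln10_13_2_ok) (M (nat_lit 458) (B (L (nat_lit 457) ln13_13_1 ln13_13_1_ok) (L (nat_lit 459) ln14_13_1 ln14_13_1_ok)))))))))) (M (nat_lit 398) (B (M (nat_lit 427) (B (L (nat_lit 399) ln11_13_2 ln11_13_2_ok) (M (nat_lit 462) (B (L (nat_lit 426) ln10_13_0 ln10_13_0_ok) (L (nat_lit 463) ln11_13_0 ln11_13_0_ok))))) (B (M (nat_lit 493) (B (L (nat_lit 525) ln13_16_7 ln13_16_7_ok) (M (nat_lit 366) (B (L (nat_lit 334) ln14_10_5 ln14_10_5_ok) (L (nat_lit 462) ln14_11_5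 ln14_11_5_ok))))) (M (nat_lit 399) (B (L (nat_lit 427) ln11_13_2 ln11_13_2_ok) (M (nat_lit 400) (B (L (nat_lit 401) ln17_12_1 ln17_12_1_ok) (L (nat_lit 431) ln12_13_2 ln12_13_2_ok)))))))))))) (B (M (nat_lit 395) (B (L (nat_lit 431) ln15_13_3 ln15_13_3_ok) (M (nat_lit 394) (B (L (nat_lit 393) ln9_12_0 ln9_12_0_ok) (L (nat_lit 397) ln10_12_0 ln10_12_0_ok))))) (M (nat_lit 395) (B (M (nat_lit 394) (B (L (nat_lit 393) ln9_12_0 ln9_12_0_ok) (L (nat_lit 397) ln10_12_0 ln10_12_0_ok))) (B (M (nat_lit 394) (B (L (nat_lit 397) ln10_12_0 ln10_12_0_ok) (L (nat_lit 427) ln14_13_3 ln14_13_3_ok))) (B (M (nat_lit 427) (B (M (nat_lit 459) (B (L (nat_lit 458) ln14_13_1 ln14_13_1_ok) (M (nat_lit 364) (B (L (nat_lit 332) ln12_10_5 ln12_10_5_ok) (L (nat_lit 491) ln11_15_6 ln11_15_6_ok))))) (M (nat_lit 426) (B (M (nat_lit 398) (B (L (nat_lit 397) ln14_12_1 ln14_12_1_ok) (L (nat_lit 399) ln11_13_2 ln11_13_2_ok)))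 (M (nat_lit 462) (B (L (nat_lit 461) ln10_13_0 ln10_13_0_ok) (L (nat_lit 463) ln11_13_0 ln11_13_0_ok))))))) (M (nat_lit 394) (B (L (nat_lit 393) ln9_12_0 ln9_12_0_ok) (L (nat_lit 427) ln14_13_3 ln14_13_3_ok)))))))))))))
theorem c41_s4936 : Sem (nat_lit 1386334847221798047169638878925036799968406779833514899637066259859226863686603287896039777716422623628704219945445734162783797248) (nat_lit 353808977738907361578675896924108105832375644229587289427412802083117012851540906024371200327904911958427867127305451346561047663179992006909294599000522031541918892032) (nat_lit 353808977738907361578675896924108105832375644229587289427412802083117012851540906024371200327904911958427867127305451346561047663179992006909294599000522031541918892032) :=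
  sem_of_chk (M (nat_lit 428) (B (M (nat_lit 461) (B (M (nat_lit 493) (B (L (nat_lit 525) ln13_16_7 ln13_16_7_ok) (M (nat_lit 364) (B (L (nat_lit 332) ln12_10_4 ln12_10_4_ok) (L (nat_lit 397) ln13_15_7 ln13_15_7_ok))))) (B (M (nat_lit 493) (B (L (nat_lit 525) ln13_16_7 ln13_16_7_ok) (M (nat_lit 364) (B (L (nat_lit 397) ln13_15_7 ln13_15_7_ok) (L (nat_lit 460) ln12_11_4 ln12_11_4_ok))))) (B (M (nat_lit 493) (B (L (nat_lit 525) ln13_16_7 ln13_16_7_ok) (M (nat_lit 397) (B (M (nat_lit 398) (B (L (nat_lit 366) ln13_15_6 ln13_15_6_ok) (M (nat_lit 399) (B (L (nat_lit 427) ln15_12_1 ln15_12_1_ok) (L (nat_lit 400) ln16_12_1 ln16_12_1_ok))))) (M (nat_lit 365) (B (M (nat_lit 333) (B (L (nat_lit 301) ln13_9_5 ln13_9_5_ok) (L (nat_lit 460) ln13_10_5 ln13_10_5_ok))) (M (nat_lit 494) (B (L (nat_lit 462) ln13_11_4 ln13_11_4_ok) (L (nat_lit 526) ln13_12_4 ln13_12_4_ok))))))))) (B (M (nat_lit 493) (B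 (L (nat_lit 525) ln13_16_7 ln13_16_7_ok) (M (nat_lit 364) (B (L (nat_lit 332) ln12_10_4 ln12_10_4_ok) (L (nat_lit 460) ln12_11_4 ln12_11_4_ok))))) (M (nat_lit 364) (B (L (nat_lit 332) ln12_10_4 ln12_10_4_ok) (M (nat_lit 460) (B (M (nat_lit 459) (B (L (nat_lit 491) ln12_11_5 ln12_11_5_ok) (M (nat_lit 430) (B (L (nat_lit 431) ln15_13_1 ln15_13_1_ok) (L (nat_lit 458) ln10_14_2 ln10_14_2_ok))))) (M (nat_lit 492) (B (M (nat_lit 363) (B (L (nat_lit 331) ln12_14_7 ln12_14_7_ok) (L (nat_lit 395) ln12_15_7 ln12_15_7_ok))) (M (nat_lit 524) (B (L (nat_lit 397) ln12_16_6 ln12_16_6_ok) (L (nat_lit 556) ln12_17_6 ln12_17_6_ok)))))))))))))) (B (M (nat_lit 459) (B (M (nat_lit 364) (B (M (nat_lit 332) (B (L (nat_lit 427) ln12_10_5 ln12_10_5_ok) (L (nat_lit 461) ln12_10_4 ln12_10_4_ok))) (B (M (nat_lit 491) (B (L (nat_lit 460) ln12_11_5 ln12_11_5_ok) (M (nat_lit 427) (B (L (nat_lit 395) ln11_15_6 ln11_15_6_ok)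 (L (nat_lit 523) ln11_16_6 ln11_16_6_ok))))) (M (nat_lit 461) (B (L (nat_lit 332) ln12_10_4 ln12_10_4_ok) (M (nat_lit 460) (B (L (nat_lit 491) ln12_11_5 ln12_11_5_ok) (L (nat_lit 493) ln12_11_4 ln12_11_4_ok)))))))) (B (M (nat_lit 430) (B (M (nat_lit 431) (B (L (nat_lit 395) ln15_13_3 ln15_13_3_ok) (L (nat_lit 460) ln15_13_1 ln15_13_1_ok))) (B (M (nat_lit 458) (B (L (nat_lit 427) ln14_13_1 ln14_13_1_ok) (M (nat_lit 460) (B (L (nat_lit 457) ln9_14_2 ln9_14_2_ok) (L (nat_lit 461) ln10_14_2 ln10_14_2_ok))))) (M (nat_lit 427) (B (L (nat_lit 458) ln14_13_1 ln14_13_1_ok) (M (nat_lit 395) (B (L (nat_lit 394) ln14_13_3 ln14_13_3_ok) (L (nat_lit 431) ln15_13_3 ln15_13_3_ok)))))))) (B (M (nat_lit 427) (B (M (nat_lit 364) (B (L (nat_lit 332) ln12_10_5 ln12_10_5_ok) (M (nat_lit 491) (B (L (nat_lit 460) ln12_11_5 ln12_11_5_ok) (L (nat_lit 523) ln11_16_6 ln11_16_6_ok))))) (M (nat_lit 458) (B (L (nat_lit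 430) ln14_13_1 ln14_13_1_ok) (M (nat_lit 457) (B (L (nat_lit 426) ln13_13_1 ln13_13_1_ok) (L (nat_lit 456) ln8_14_2 ln8_14_2_ok))))))) (B (M (nat_lit 460) (B (M (nat_lit 430) (B (L (nat_lit 431) ln15_13_1 ln15_13_1_ok) (M (nat_lit 458) (B (L (nat_lit 457) ln9_14_2 ln9_14_2_ok) (L (nat_lit 461) ln10_14_2 ln10_14_2_ok))))) (B (M (nat_lit 364) (B (L (nat_lit 491) ln12_11_5 ln12_11_5_ok) (M (nat_lit 461) (B (L (nat_lit 332) ln12_10_4 ln12_10_4_ok) (L (nat_lit 493) ln12_11_4 ln12_11_4_ok))))) (M (nat_lit 491) (B (L (nat_lit 364) ln12_11_5 ln12_11_5_ok) (M (nat_lit 523) (B (L (nat_lit 492) ln12_12_5 ln12_12_5_ok) (L (nat_lit 555) ln11_17_6 ln11_17_6_ok)))))))) (M (nat_lit 427) (B (M (nat_lit 458) (B (L (nat_lit 430) ln14_13_1 ln14_13_1_ok) (M (nat_lit 457) (B (L (nat_lit 426) ln13_13_1 ln13_13_1_ok) (L (nat_lit 456) ln8_14_2 ln8_14_2_ok))))) (M (nat_lit 364) (B (L (nat_lit 332) ln12_10_5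 ln12_10_5_ok) (M (nat_lit 491) (B (L (nat_lit 395) ln11_15_6 ln11_15_6_ok) (L (nat_lit 523) ln11_16_6 ln11_16_6_ok)))))))))))) (B (M (nat_lit 427) (B (M (nat_lit 459) (B (M (nat_lit 430) (B (L (nat_lit 458) ln14_13_1 ln14_13_1_ok) (M (nat_lit 431) (B (L (nat_lit 395) ln15_13_3 ln15_13_3_ok) (L (nat_lit 460) ln15_13_1 ln15_13_1_ok))))) (B (M (nat_lit 460) (B (M (nat_lit 491) (B (L (nat_lit 364) ln12_11_5 ln12_11_5_ok) (L (nat_lit 523) ln11_16_6 ln11_16_6_ok))) (M (nat_lit 430) (B (L (nat_lit 458) ln14_13_1 ln14_13_1_ok) (L (nat_lit 431) ln15_13_1 ln15_13_1_ok))))) (B (M (nat_lit 491) (B (L (nat_lit 523) ln11_16_6 ln11_16_6_ok) (M (nat_lit 364) (B (L (nat_lit 395) ln11_15_6 ln11_15_6_ok) (L (nat_lit 460) ln12_11_5 ln12_11_5_ok))))) (M (nat_lit 395) (B (M (nat_lit 491) (B (L (nat_lit 364) ln11_15_6 ln11_15_6_ok) (L (nat_lit 523) ln11_16_6 ln11_16_6_ok))) (M (nat_lit 430) (B (L (nat_lit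 431) ln15_13_3 ln15_13_3_ok) (L (nat_lit 458) ln14_13_1 ln14_13_1_ok))))))))) (B (M (nat_lit 430) (B (M (nat_lit 395) (B (L (nat_lit 394) ln14_13_3 ln14_13_3_ok) (L (nat_lit 431) ln15_13_3 ln15_13_3_ok))) (B (M (nat_lit 431) (B (L (nat_lit 395) ln15_13_3 ln15_13_3_ok) (M (nat_lit 399) (B (L (nat_lit 398) ln11_13_2 ln11_13_2_ok) (L (nat_lit 400) ln12_13_2 ln12_13_2_ok))))) (B (M (nat_lit 431) (B (M (nat_lit 399) (B (L (nat_lit 398) ln11_13_2 ln11_13_2_ok) (L (nat_lit 400) ln12_13_2 ln12_13_2_ok))) (M (nat_lit 463) (B (L (nat_lit 462) ln11_13_0 ln11_13_0_ok) (L (nat_lit 464) ln12_13_0 ln12_13_0_ok))))) (M (nat_lit 426) (B (M (nat_lit 394) (B (L (nat_lit 393) ln13_13_3 ln13_13_3_ok) (L (nat_lit 395) ln14_13_3 ln14_13_3_ok))) (M (nat_lit 462) (B (L (nat_lit 461) ln10_13_0 ln10_13_0_ok) (L (nat_lit 463) ln11_13_0 ln11_13_0_ok))))))))) (M (nat_lit 461) (B (M (nat_lit 462) (B (L (nat_lit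 426) ln10_13_0 ln10_13_0_ok) (M (nat_lit 463) (B (L (nat_lit 460) ln15_14_3 ln15_14_3_ok) (L (nat_lit 464) ln16_14_3 ln16_14_3_ok))))) (B (M (nat_lit 493) (B (L (nat_lit 525) ln13_16_7 ln13_16_7_ok) (M (nat_lit 364) (B (L (nat_lit 397) ln13_15_7 ln13_15_7_ok) (L (nat_lit 460) ln12_11_4 ln12_11_4_ok))))) (M (nat_lit 397) (B (M (nat_lit 493) (B (L (nat_lit 364) ln13_15_7 ln13_15_7_ok) (L (nat_lit 525) ln13_16_7 ln13_16_7_ok))) (M (nat_lit 398) (B (L (nat_lit 399) ln15_12_1 ln15_12_1_ok) (L (nat_lit 426) ln10_13_2 ln10_13_2_ok))))))))))) (B (M (nat_lit 430) (B (M (nat_lit 395) (B (L (nat_lit 431) ln15_13_3 ln15_13_3_ok) (M (nat_lit 394) (B (L (nat_lit 397) ln10_12_0 ln10_12_0_ok) (L (nat_lit 427) ln14_13_3 ln14_13_3_ok))))) (B (M (nat_lit 431) (B (L (nat_lit 395) ln15_13_3 ln15_13_3_ok) (M (nat_lit 400) (B (L (nat_lit 399) ln12_13_2 ln12_13_2_ok) (M (nat_lit 432) (B (L (nat_lit 397) ln16_13_3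 ln16_13_3_ok) (L (nat_lit 401) ln13_13_2 ln13_13_2_ok))))))) (B (M (nat_lit 431) (B (M (nat_lit 400) (B (L (nat_lit 399) ln12_13_2 ln12_13_2_ok) (M (nat_lit 432) (B (L (nat_lit 397) ln16_13_3 ln16_13_3_ok) (L (nat_lit 401) ln13_13_2 ln13_13_2_ok))))) (B (M (nat_lit 427) (B (M (nat_lit 399) (B (L (nat_lit 398) ln11_13_2 ln11_13_2_ok) (L (nat_lit 400) ln12_13_2 ln12_13_2_ok))) (M (nat_lit 463) (B (L (nat_lit 462) ln11_13_0 ln11_13_0_ok) (L (nat_lit 464) ln12_13_0 ln12_13_0_ok))))) (M (nat_lit 460) (B (L (nat_lit 459) ln15_13_1 ln15_13_1_ok) (M (nat_lit 432) (B (L (nat_lit 397) ln16_13_3 ln16_13_3_ok) (L (nat_lit 461) ln16_13_1 ln16_13_1_ok)))))))) (B (M (nat_lit 395) (B (L (nat_lit 431) ln15_13_3 ln15_13_3_ok) (M (nat_lit 394) (B (L (nat_lit 393) ln9_12_0 ln9_12_0_ok) (L (nat_lit 427) ln14_13_3 ln14_13_3_ok))))) (M (nat_lit 427) (B (M (nat_lit 398) (B (L (nat_lit 399) ln11_13_2 ln11_13_2_ok)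 (M (nat_lit 426) (B (L (nat_lit 397) ln10_13_2 ln10_13_2_ok) (M (nat_lit 462) (B (L (nat_lit 461) ln10_13_0 ln10_13_0_ok) (L (nat_lit 463) ln11_13_0 ln11_13_0_ok))))))) (B (M (nat_lit 426) (B (M (nat_lit 394) (B (L (nat_lit 393) ln13_13_3 ln13_13_3_ok) (L (nat_lit 395) ln14_13_3 ln14_13_3_ok))) (M (nat_lit 458) (B (L (nat_lit 457) ln13_13_1 ln13_13_1_ok) (L (nat_lit 459) ln14_13_1 ln14_13_1_ok))))) (M (nat_lit 398) (B (L (nat_lit 399) ln11_13_2 ln11_13_2_ok) (M (nat_lit 397) (B (M (nat_lit 462) (B (L (nat_lit 463) ln11_13_0 ln11_13_0_ok) (M (nat_lit 365) (B (L (nat_lit 333) ln13_10_4 ln13_10_4_ok) (L (nat_lit 494) ln14_15_7 ln14_15_7_ok))))) (M (nat_lit 366) (B (M (nat_lit 395) (B (L (nat_lit 367) ln11_12_2 ln11_12_2_ok) (L (nat_lit 394) ln10_12_0 ln10_12_0_ok))) (M (nat_lit 461) (B (L (nat_lit 334) ln14_10_5 ln14_10_5_ok) (L (nat_lit 493) ln13_15_6 ln13_15_6_ok))))))))))))))))) (B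 (M (nat_lit 364) (B (M (nat_lit 461) (B (L (nat_lit 332) ln12_10_4 ln12_10_4_ok) (M (nat_lit 493) (B (L (nat_lit 397) ln13_15_7 ln13_15_7_ok) (L (nat_lit 525) ln13_16_7 ln13_16_7_ok))))) (B (M (nat_lit 460) (B (M (nat_lit 365) (B (L (nat_lit 333) ln12_14_6 ln12_14_6_ok) (M (nat_lit 492) (B (L (nat_lit 397) ln12_15_6 ln12_15_6_ok) (M (nat_lit 491) (B (L (nat_lit 459) ln12_11_5 ln12_11_5_ok) (L (nat_lit 523) ln12_12_5 ln12_12_5_ok))))))) (B (M (nat_lit 492) (B (M (nat_lit 491) (B (L (nat_lit 459) ln12_11_5 ln12_11_5_ok) (L (nat_lit 523) ln12_12_5 ln12_12_5_ok))) (M (nat_lit 493) (B (L (nat_lit 461) ln12_11_4 ln12_11_4_ok) (L (nat_lit 525) ln12_12_4 ln12_12_4_ok))))) (B (M (nat_lit 492) (B (M (nat_lit 365) (B (L (nat_lit 333) ln12_14_6 ln12_14_6_ok) (L (nat_lit 397) ln12_15_6 ln12_15_6_ok))) (M (nat_lit 493) (B (L (nat_lit 461) ln12_11_4 ln12_11_4_ok) (L (nat_lit 525) ln12_12_4 ln12_12_4_ok)))))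 (M (nat_lit 461) (B (L (nat_lit 493) ln12_11_4 ln12_11_4_ok) (M (nat_lit 459) (B (L (nat_lit 491) ln12_11_5 ln12_11_5_ok) (M (nat_lit 430) (B (L (nat_lit 431) ln15_13_1 ln15_13_1_ok) (L (nat_lit 458) ln10_14_2 ln10_14_2_ok))))))))))) (B (M (nat_lit 461) (B (L (nat_lit 332) ln12_10_4 ln12_10_4_ok) (M (nat_lit 493) (B (L (nat_lit 460) ln12_11_4 ln12_11_4_ok) (L (nat_lit 525) ln13_16_7 ln13_16_7_ok))))) (M (nat_lit 332) (B (M (nat_lit 300) (B (L (nat_lit 397) ln12_9_4 ln12_9_4_ok) (M (nat_lit 299) (B (L (nat_lit 267) ln12_12_7 ln12_12_7_ok) (L (nat_lit 331) ln12_13_7 ln12_13_7_ok))))) (B (M (nat_lit 300) (B (L (nat_lit 397) ln12_9_4 ln12_9_4_ok) (M (nat_lit 301) (B (L (nat_lit 269) ln12_12_6 ln12_12_6_ok) (L (nat_lit 333) ln12_13_6 ln12_13_6_ok))))) (M (nat_lit 460) (B (M (nat_lit 331) (B (L (nat_lit 299) ln12_13_7 ln12_13_7_ok) (L (nat_lit 363) ln12_14_7 ln12_14_7_ok))) (M (nat_lit 333)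 (B (L (nat_lit 301) ln12_13_6 ln12_13_6_ok) (L (nat_lit 365) ln12_14_6 ln12_14_6_ok)))))))))))) (B (M (nat_lit 461) (B (M (nat_lit 493) (B (L (nat_lit 525) ln13_16_7 ln13_16_7_ok) (M (nat_lit 364) (B (L (nat_lit 397) ln13_15_7 ln13_15_7_ok) (L (nat_lit 460) ln12_11_4 ln12_11_4_ok))))) (B (M (nat_lit 493) (B (L (nat_lit 525) ln13_16_7 ln13_16_7_ok) (M (nat_lit 397) (B (M (nat_lit 398) (B (L (nat_lit 366) ln13_15_6 ln13_15_6_ok) (M (nat_lit 399) (B (L (nat_lit 427) ln15_12_1 ln15_12_1_ok) (L (nat_lit 400) ln16_12_1 ln16_12_1_ok))))) (M (nat_lit 365) (B (M (nat_lit 333) (B (L (nat_lit 301) ln13_9_5 ln13_9_5_ok) (L (nat_lit 460) ln13_10_5 ln13_10_5_ok))) (M (nat_lit 494) (B (L (nat_lit 462) ln13_11_4 ln13_11_4_ok) (L (nat_lit 526) ln13_12_4 ln13_12_4_ok))))))))) (B (M (nat_lit 493) (B (L (nat_lit 525) ln13_16_7 ln13_16_7_ok) (M (nat_lit 364) (B (L (nat_lit 332) ln12_10_4 ln12_10_4_ok)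 (L (nat_lit 460) ln12_11_4 ln12_11_4_ok))))) (B (M (nat_lit 493) (B (L (nat_lit 525) ln13_16_7 ln13_16_7_ok) (M (nat_lit 364) (B (L (nat_lit 332) ln12_10_4 ln12_10_4_ok) (L (nat_lit 397) ln13_15_7 ln13_15_7_ok))))) (M (nat_lit 364) (B (L (nat_lit 332) ln12_10_4 ln12_10_4_ok) (M (nat_lit 460) (B (M (nat_lit 365) (B (L (nat_lit 333) ln12_14_6 ln12_14_6_ok) (M (nat_lit 492) (B (L (nat_lit 397) ln12_15_6 ln12_15_6_ok) (M (nat_lit 363) (B (L (nat_lit 331) ln12_14_7 ln12_14_7_ok) (L (nat_lit 395) ln12_15_7 ln12_15_7_ok))))))) (B (M (nat_lit 492) (B (M (nat_lit 365) (B (L (nat_lit 333) ln12_14_6 ln12_14_6_ok) (L (nat_lit 397) ln12_15_6 ln12_15_6_ok))) (M (nat_lit 491) (B (L (nat_lit 459) ln12_11_5 ln12_11_5_ok) (L (nat_lit 523) ln12_12_5 ln12_12_5_ok))))) (B (M (nat_lit 492) (B (M (nat_lit 363) (B (L (nat_lit 331) ln12_14_7 ln12_14_7_ok) (L (nat_lit 395) ln12_15_7 ln12_15_7_ok))) (M (nat_lit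 524) (B (L (nat_lit 397) ln12_16_6 ln12_16_6_ok) (L (nat_lit 556) ln12_17_6 ln12_17_6_ok))))) (B (M (nat_lit 492) (B (M (nat_lit 363) (B (L (nat_lit 331) ln12_14_7 ln12_14_7_ok) (L (nat_lit 395) ln12_15_7 ln12_15_7_ok))) (M (nat_lit 491) (B (L (nat_lit 459) ln12_11_5 ln12_11_5_ok) (L (nat_lit 523) ln12_12_5 ln12_12_5_ok))))) (M (nat_lit 462) (B (M (nat_lit 427) (B (L (nat_lit 426) ln10_13_0 ln10_13_0_ok) (L (nat_lit 463) ln15_14_3 ln15_14_3_ok))) (M (nat_lit 494) (B (M (nat_lit 365) (B (L (nat_lit 333) ln12_14_6 ln12_14_6_ok) (L (nat_lit 397) ln13_11_4 ln13_11_4_ok))) (M (nat_lit 459) (B (L (nat_lit 491) ln12_11_5 ln12_11_5_ok) (L (nat_lit 495) ln11_14_0 ln11_14_0_ok))))))))))))))))))) (B c41_n4923 (B c41_n4935 (M (nat_lit 430) (B (M (nat_lit 395) (B (L (nat_lit 431) ln15_13_3 ln15_13_3_ok) (M (nat_lit 394) (B (L (nat_lit 393) ln9_12_0 ln9_12_0_ok) (L (nat_lit 397) ln10_12_0 ln10_12_0_ok)))))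 (B (M (nat_lit 395) (B (L (nat_lit 431) ln15_13_3 ln15_13_3_ok) (M (nat_lit 394) (B (L (nat_lit 397) ln10_12_0 ln10_12_0_ok) (L (nat_lit 427) ln14_13_3 ln14_13_3_ok))))) (B (M (nat_lit 431) (B (L (nat_lit 395) ln15_13_3 ln15_13_3_ok) (M (nat_lit 400) (B (L (nat_lit 399) ln12_13_2 ln12_13_2_ok) (M (nat_lit 432) (B (L (nat_lit 397) ln16_13_3 ln16_13_3_ok) (L (nat_lit 401) ln13_13_2 ln13_13_2_ok))))))) (B (M (nat_lit 431) (B (M (nat_lit 400) (B (L (nat_lit 399) ln12_13_2 ln12_13_2_ok) (M (nat_lit 432) (B (L (nat_lit 397) ln16_13_3 ln16_13_3_ok) (L (nat_lit 401) ln13_13_2 ln13_13_2_ok))))) (M (nat_lit 427) (B (M (nat_lit 459) (B (L (nat_lit 458) ln14_13_1 ln14_13_1_ok) (L (nat_lit 460) ln15_13_1 ln15_13_1_ok))) (M (nat_lit 463) (B (L (nat_lit 462) ln11_13_0 ln11_13_0_ok) (L (nat_lit 464) ln12_13_0 ln12_13_0_ok))))))) (B (M (nat_lit 395) (B (L (nat_lit 431) ln15_13_3 ln15_13_3_ok) (M (nat_lit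 394) (B (L (nat_lit 393) ln9_12_0 ln9_12_0_ok) (L (nat_lit 427) ln14_13_3 ln14_13_3_ok))))) (M (nat_lit 427) (B (M (nat_lit 395) (B (L (nat_lit 394) ln14_13_3 ln14_13_3_ok) (M (nat_lit 459) (B (L (nat_lit 458) ln14_13_1 ln14_13_1_ok) (M (nat_lit 491) (B (L (nat_lit 364) ln11_15_6 ln11_15_6_ok) (L (nat_lit 523) ln11_16_6 ln11_16_6_ok))))))) (B (M (nat_lit 426) (B (M (nat_lit 394) (B (L (nat_lit 393) ln13_13_3 ln13_13_3_ok) (L (nat_lit 395) ln14_13_3 ln14_13_3_ok))) (M (nat_lit 398) (B (L (nat_lit 397) ln10_13_2 ln10_13_2_ok) (L (nat_lit 399) ln11_13_2 ln11_13_2_ok))))) (B (M (nat_lit 459) (B (L (nat_lit 458) ln14_13_1 ln14_13_1_ok) (M (nat_lit 364) (B (L (nat_lit 332) ln12_10_5 ln12_10_5_ok) (M (nat_lit 491) (B (L (nat_lit 395) ln11_15_6 ln11_15_6_ok) (L (nat_lit 523) ln11_16_6 ln11_16_6_ok))))))) (M (nat_lit 459) (B (L (nat_lit 458) ln14_13_1 ln14_13_1_ok) (M (nat_lit 364) (B (L (nat_lit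 332) ln12_10_5 ln12_10_5_ok) (M (nat_lit 491) (B (L (nat_lit 460) ln12_11_5 ln12_11_5_ok) (L (nat_lit 523) ln11_16_6 ln11_16_6_ok)))))))))))))))))))))))))) (nat_lit 1386334847221798047169638878925036799968406779833514899637066259859226863686603287896039777716422623628704219945445734162783797248) (nat_lit 353808977738907361578675896924108105832375644229587289427412802083117012851540906024371200327904911958427867127305451346561047663179992006909294599000522031541918892032) (nat_lit 353808977738907361578675896924108105832375644229587289427412802083117012851540906024371200327904911958427867127305451346561047663179992006909294599000522031541918892032) (by decide +kernel)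
noncomputable def c41_n5078 : Cert := (M (nat_lit 460) (B (M (nat_lit 493) (B (L (nat_lit 525) ln13_16_7 ln13_16_7_ok) (M (nat_lit 492) (B (M (nat_lit 491) (B (L (nat_lit 523) ln12_12_5 ln12_12_5_ok) (M (nat_lit 462) (B (L (nat_lit 463) ln15_14_1 ln15_14_1_ok) (L (nat_lit 490) ln10_15_2 ln10_15_2_ok))))) (M (nat_lit 395) (B (L (nat_lit 363) ln12_15_7 ln12_15_7_ok) (M (nat_lit 524) (B (L (nat_lit 427) ln12_16_7 ln12_16_7_ok) (L (nat_lit 556) ln12_17_6 ln12_17_6_ok))))))))) (B (M (nat_lit 493) (B (L (nat_lit 525) ln13_16_7 ln13_16_7_ok) (M (nat_lit 491) (B (M (nat_lit 492) (B (L (nat_lit 523) ln12_12_5 ln12_12_5_ok) (M (nat_lit 462) (B (L (nat_lit 463) ln15_14_1 ln15_14_1_ok) (L (nat_lit 490) ln10_15_2 ln10_15_2_ok))))) (B (M (nat_lit 523) (B (L (nat_lit 492) ln12_12_5 ln12_12_5_ok) (M (nat_lit 459) (B (L (nat_lit 427) ln11_16_6 ln11_16_6_ok) (L (nat_lit 555) ln11_17_6 ln11_17_6_ok)))))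 (B (M (nat_lit 459) (B (M (nat_lit 523) (B (L (nat_lit 427) ln11_16_6 ln11_16_6_ok) (L (nat_lit 555) ln11_17_6 ln11_17_6_ok))) (M (nat_lit 430) (B (L (nat_lit 431) ln15_13_1 ln15_13_1_ok) (L (nat_lit 458) ln10_14_2 ln10_14_2_ok))))) (M (nat_lit 462) (B (M (nat_lit 463) (B (L (nat_lit 427) ln15_14_3 ln15_14_3_ok) (L (nat_lit 464) ln16_14_3 ln16_14_3_ok))) (B (M (nat_lit 463) (B (L (nat_lit 464) ln16_14_3 ln16_14_3_ok) (L (nat_lit 492) ln15_14_1 ln15_14_1_ok))) (M (nat_lit 490) (B (L (nat_lit 459) ln14_14_1 ln14_14_1_ok) (L (nat_lit 492) ln10_15_2 ln10_15_2_ok)))))))))))) (B (M (nat_lit 492) (B (M (nat_lit 525) (B (L (nat_lit 493) ln13_16_7 ln13_16_7_ok) (M (nat_lit 524) (B (L (nat_lit 557) ln12_13_4 ln12_13_4_ok) (L (nat_lit 556) ln12_17_6 ln12_17_6_ok))))) (B (M (nat_lit 524) (B (L (nat_lit 556) ln12_17_6 ln12_17_6_ok) (M (nat_lit 523) (B (L (nat_lit 491) ln12_12_5 ln12_12_5_ok) (L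 (nat_lit 555) ln12_13_5 ln12_13_5_ok))))) (M (nat_lit 493) (B (L (nat_lit 525) ln13_16_7 ln13_16_7_ok) (M (nat_lit 491) (B (L (nat_lit 523) ln12_12_5 ln12_12_5_ok) (M (nat_lit 462) (B (L (nat_lit 463) ln15_14_1 ln15_14_1_ok) (L (nat_lit 490) ln10_15_2 ln10_15_2_ok)))))))))) (B (M (nat_lit 430) (B (M (nat_lit 431) (B (L (nat_lit 395) ln15_13_3 ln15_13_3_ok) (L (nat_lit 459) ln15_13_1 ln15_13_1_ok))) (B (M (nat_lit 431) (B (L (nat_lit 459) ln15_13_1 ln15_13_1_ok) (L (nat_lit 432) ln16_13_1 ln16_13_1_ok))) (M (nat_lit 492) (B (M (nat_lit 525) (B (L (nat_lit 493) ln13_16_7 ln13_16_7_ok) (M (nat_lit 524) (B (L (nat_lit 557) ln12_13_4 ln12_13_4_ok) (L (nat_lit 556) ln12_17_6 ln12_17_6_ok))))) (M (nat_lit 395) (B (L (nat_lit 363) ln12_15_7 ln12_15_7_ok) (M (nat_lit 394) (B (L (nat_lit 393) ln9_12_0 ln9_12_0_ok) (L (nat_lit 427) ln14_13_3 ln14_13_3_ok)))))))))) (M (nat_lit 462) (B (M (nat_lit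 463) (B (L (nat_lit 427) ln15_14_3 ln15_14_3_ok) (L (nat_lit 464) ln16_14_3 ln16_14_3_ok))) (B (M (nat_lit 431) (B (M (nat_lit 430) (B (L (nat_lit 395) ln15_13_3 ln15_13_3_ok) (L (nat_lit 459) ln15_13_1 ln15_13_1_ok))) (B (M (nat_lit 430) (B (L (nat_lit 459) ln15_13_1 ln15_13_1_ok) (L (nat_lit 432) ln16_13_1 ln16_13_1_ok))) (M (nat_lit 463) (B (L (nat_lit 464) ln16_14_3 ln16_14_3_ok) (L (nat_lit 432) ln12_14_2 ln12_14_2_ok)))))) (M (nat_lit 459) (B (M (nat_lit 430) (B (L (nat_lit 431) ln15_13_1 ln15_13_1_ok) (L (nat_lit 458) ln10_14_2 ln10_14_2_ok))) (M (nat_lit 491) (B (L (nat_lit 490) ln14_14_1 ln14_14_1_ok) (M (nat_lit 523) (B (L (nat_lit 427) ln11_16_6 ln11_16_6_ok) (L (nat_lit 555) ln11_17_6 ln11_17_6_ok)))))))))))))))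
noncomputable def c41_n5167 : Cert := (M (nat_lit 430) (B (M (nat_lit 395) (B (L (nat_lit 431) ln15_13_3 ln15_13_3_ok) (M (nat_lit 394) (B (L (nat_lit 393) ln9_12_0 ln9_12_0_ok) (L (nat_lit 427) ln14_13_3 ln14_13_3_ok))))) (B (M (nat_lit 395) (B (L (nat_lit 431) ln15_13_3 ln15_13_3_ok) (M (nat_lit 394) (B (L (nat_lit 397) ln10_12_0 ln10_12_0_ok) (L (nat_lit 427) ln14_13_3 ln14_13_3_ok))))) (B (M (nat_lit 431) (B (L (nat_lit 395) ln15_13_3 ln15_13_3_ok) (M (nat_lit 432) (B (L (nat_lit 397) ln16_13_3 ln16_13_3_ok) (L (nat_lit 460) ln16_13_1 ln16_13_1_ok))))) (B (M (nat_lit 431) (B (M (nat_lit 460) (B (L (nat_lit 459) ln15_13_1 ln15_13_1_ok) (L (nat_lit 432) ln16_13_1 ln16_13_1_ok))) (M (nat_lit 427) (B (M (nat_lit 399) (B (L (nat_lit 398) ln11_13_2 ln11_13_2_ok) (L (nat_lit 400) ln12_13_2 ln12_13_2_ok))) (M (nat_lit 463) (B (L (nat_lit 462) ln11_13_0 ln11_13_0_ok) (L (nat_lit 464) ln12_13_0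 ln12_13_0_ok))))))) (M (nat_lit 460) (B (M (nat_lit 397) (B (M (nat_lit 365) (B (L (nat_lit 333) ln13_10_5 ln13_10_5_ok) (L (nat_lit 492) ln12_15_6 ln12_15_6_ok))) (B (M (nat_lit 492) (B (L (nat_lit 365) ln12_15_6 ln12_15_6_ok) (L (nat_lit 524) ln12_16_6 ln12_16_6_ok))) (B (M (nat_lit 395) (B (L (nat_lit 394) ln10_12_0 ln10_12_0_ok) (M (nat_lit 492) (B (L (nat_lit 363) ln12_15_7 ln12_15_7_ok) (L (nat_lit 524) ln12_16_6 ln12_16_6_ok))))) (M (nat_lit 462) (B (M (nat_lit 365) (B (L (nat_lit 333) ln13_10_5 ln13_10_5_ok) (L (nat_lit 494) ln13_11_4 ln13_11_4_ok))) (M (nat_lit 463) (B (L (nat_lit 427) ln11_13_0 ln11_13_0_ok) (L (nat_lit 464) ln16_14_3 ln16_14_3_ok))))))))) (B (M (nat_lit 397) (B (M (nat_lit 492) (B (L (nat_lit 365) ln12_15_6 ln12_15_6_ok) (L (nat_lit 524) ln12_16_6 ln12_16_6_ok))) (B (M (nat_lit 395) (B (L (nat_lit 394) ln10_12_0 ln10_12_0_ok) (M (nat_lit 492) (B (L (nat_lit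 363) ln12_15_7 ln12_15_7_ok) (L (nat_lit 524) ln12_16_6 ln12_16_6_ok))))) (M (nat_lit 462) (B (M (nat_lit 494) (B (L (nat_lit 365) ln13_11_4 ln13_11_4_ok) (L (nat_lit 526) ln14_16_7 ln14_16_7_ok))) (M (nat_lit 463) (B (L (nat_lit 427) ln11_13_0 ln11_13_0_ok) (L (nat_lit 464) ln16_14_3 ln16_14_3_ok)))))))) (B (M (nat_lit 462) (B (M (nat_lit 463) (B (L (nat_lit 427) ln11_13_0 ln11_13_0_ok) (L (nat_lit 464) ln16_14_3 ln16_14_3_ok))) (M (nat_lit 494) (B (M (nat_lit 397) (B (L (nat_lit 365) ln13_11_4 ln13_11_4_ok) (L (nat_lit 526) ln14_16_7 ln14_16_7_ok))) (M (nat_lit 459) (B (L (nat_lit 458) ln10_14_2 ln10_14_2_ok) (L (nat_lit 495) ln11_14_0 ln11_14_0_ok))))))) (B (M (nat_lit 395) (B (M (nat_lit 394) (B (L (nat_lit 393) ln9_12_0 ln9_12_0_ok) (L (nat_lit 397) ln10_12_0 ln10_12_0_ok))) (B (M (nat_lit 394) (B (L (nat_lit 397) ln10_12_0 ln10_12_0_ok) (L (nat_lit 427) ln14_13_3 ln14_13_3_ok)))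 (M (nat_lit 492) (B (L (nat_lit 363) ln12_15_7 ln12_15_7_ok) (M (nat_lit 524) (B (L (nat_lit 427) ln12_16_7 ln12_16_7_ok) (L (nat_lit 556) ln12_17_6 ln12_17_6_ok)))))))) (B (M (nat_lit 492) (B (M (nat_lit 395) (B (L (nat_lit 363) ln12_15_7 ln12_15_7_ok) (M (nat_lit 394) (B (L (nat_lit 393) ln9_12_0 ln9_12_0_ok) (L (nat_lit 427) ln14_13_3 ln14_13_3_ok))))) (M (nat_lit 524) (B (L (nat_lit 556) ln12_17_6 ln12_17_6_ok) (M (nat_lit 523) (B (L (nat_lit 491) ln12_12_5 ln12_12_5_ok) (L (nat_lit 555) ln12_13_5 ln12_13_5_ok))))))) (M (nat_lit 492) (B (M (nat_lit 397) (B (L (nat_lit 365) ln12_15_6 ln12_15_6_ok) (L (nat_lit 524) ln12_16_6 ln12_16_6_ok))) (B (M (nat_lit 524) (B (L (nat_lit 397) ln12_16_6 ln12_16_6_ok) (L (nat_lit 556) ln12_17_6 ln12_17_6_ok))) (B (M (nat_lit 524) (B (L (nat_lit 556) ln12_17_6 ln12_17_6_ok) (M (nat_lit 523) (B (L (nat_lit 491) ln12_12_5 ln12_12_5_ok) (L (nat_lit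 555) ln12_13_5 ln12_13_5_ok))))) (M (nat_lit 397) (B (L (nat_lit 365) ln12_15_6 ln12_15_6_ok) (M (nat_lit 395) (B (L (nat_lit 363) ln12_15_7 ln12_15_7_ok) (L (nat_lit 394) ln10_12_0 ln10_12_0_ok))))))))))))))))))))
theorem c41_s5168 : Sem (nat_lit 2079502270752001762064242424960807725827516048677469043429686155012882190638009693656033379242457518153052022685796627120027336704) (nat_lit 825554280841600030612066890062607081100800066968431410186936904885736259553525531681427957967520674443877823954063398544457415852594973260813907712459313552328650391552) (nat_lit 825554280841600030612066890062607081100800066968431410186936904885736259553525531681427957967520674443877823954063398544457415852594973260813907712459313552328650391552) :=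
  sem_of_chk (M (nat_lit 461) (B (M (nat_lit 493) (B (L (nat_lit 525) ln13_16_7 ln13_16_7_ok) (M (nat_lit 397) (B (M (nat_lit 398) (B (L (nat_lit 366) ln13_15_6 ln13_15_6_ok) (M (nat_lit 399) (B (L (nat_lit 427) ln15_12_1 ln15_12_1_ok) (L (nat_lit 400) ln16_12_1 ln16_12_1_ok))))) (M (nat_lit 365) (B (M (nat_lit 333) (B (L (nat_lit 301) ln13_9_5 ln13_9_5_ok) (L (nat_lit 460) ln13_10_5 ln13_10_5_ok))) (M (nat_lit 494) (B (L (nat_lit 462) ln13_11_4 ln13_11_4_ok) (L (nat_lit 526) ln13_12_4 ln13_12_4_ok))))))))) (B (M (nat_lit 493) (B (L (nat_lit 525) ln13_16_7 ln13_16_7_ok) (M (nat_lit 397) (B (M (nat_lit 398) (B (L (nat_lit 366) ln13_15_6 ln13_15_6_ok) (M (nat_lit 399) (B (L (nat_lit 427) ln15_12_1 ln15_12_1_ok) (L (nat_lit 400) ln16_12_1 ln16_12_1_ok))))) (M (nat_lit 365) (B (M (nat_lit 460) (B (L (nat_lit 333) ln13_10_5 ln13_10_5_ok) (L (nat_lit 492) ln12_15_6 ln12_15_6_ok))) (M (nat_lit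 494) (B (L (nat_lit 462) ln13_11_4 ln13_11_4_ok) (L (nat_lit 526) ln13_12_4 ln13_12_4_ok))))))))) (B (M (nat_lit 493) (B (L (nat_lit 525) ln13_16_7 ln13_16_7_ok) (M (nat_lit 397) (B (M (nat_lit 398) (B (L (nat_lit 366) ln13_15_6 ln13_15_6_ok) (M (nat_lit 399) (B (L (nat_lit 427) ln15_12_1 ln15_12_1_ok) (L (nat_lit 400) ln16_12_1 ln16_12_1_ok))))) (M (nat_lit 492) (B (L (nat_lit 524) ln13_12_5 ln13_12_5_ok) (M (nat_lit 365) (B (L (nat_lit 460) ln12_15_6 ln12_15_6_ok) (M (nat_lit 494) (B (L (nat_lit 462) ln13_11_4 ln13_11_4_ok) (L (nat_lit 526) ln13_12_4 ln13_12_4_ok))))))))))) (B (M (nat_lit 398) (B (M (nat_lit 493) (B (L (nat_lit 525) ln13_16_7 ln13_16_7_ok) (M (nat_lit 366) (B (L (nat_lit 397) ln13_15_6 ln13_15_6_ok) (M (nat_lit 430) (B (L (nat_lit 334) ln14_10_5 ln14_10_5_ok) (L (nat_lit 462) ln14_11_5 ln14_11_5_ok))))))) (B (M (nat_lit 397) (B (M (nat_lit 493) (B (L (nat_lit 366)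 ln13_15_6 ln13_15_6_ok) (L (nat_lit 525) ln13_16_7 ln13_16_7_ok))) (M (nat_lit 399) (B (L (nat_lit 427) ln15_12_1 ln15_12_1_ok) (L (nat_lit 400) ln16_12_1 ln16_12_1_ok))))) (B (M (nat_lit 399) (B (M (nat_lit 397) (B (L (nat_lit 427) ln15_12_1 ln15_12_1_ok) (L (nat_lit 400) ln16_12_1 ln16_12_1_ok))) (B (M (nat_lit 430) (B (L (nat_lit 427) ln11_13_2 ln11_13_2_ok) (M (nat_lit 431) (B (L (nat_lit 395) ln15_13_3 ln15_13_3_ok) (L (nat_lit 400) ln12_13_2 ln12_13_2_ok))))) (B (M (nat_lit 427) (B (L (nat_lit 397) ln15_12_1 ln15_12_1_ok) (L (nat_lit 430) ln11_13_2 ln11_13_2_ok))) (M (nat_lit 431) (B (M (nat_lit 397) (B (L (nat_lit 432) ln12_12_0 ln12_12_0_ok) (L (nat_lit 400) ln16_12_1 ln16_12_1_ok))) (B (M (nat_lit 430) (B (L (nat_lit 395) ln15_13_3 ln15_13_3_ok) (L (nat_lit 400) ln12_13_2 ln12_13_2_ok))) (M (nat_lit 430) (B (L (nat_lit 395) ln15_13_3 ln15_13_3_ok) (M (nat_lit 432) (B (L (nat_lit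 397) ln12_12_0 ln12_12_0_ok) (L (nat_lit 460) ln16_13_1 ln16_13_1_ok)))))))))))) (M (nat_lit 430) (B (M (nat_lit 395) (B (L (nat_lit 431) ln15_13_3 ln15_13_3_ok) (M (nat_lit 427) (B (L (nat_lit 394) ln14_13_3 ln14_13_3_ok) (L (nat_lit 399) ln11_13_2 ln11_13_2_ok))))) (M (nat_lit 493) (B (L (nat_lit 525) ln13_16_7 ln13_16_7_ok) (M (nat_lit 366) (B (L (nat_lit 334) ln14_10_5 ln14_10_5_ok) (L (nat_lit 462) ln14_11_5 ln14_11_5_ok))))))))))) (B (M (nat_lit 397) (B (M (nat_lit 493) (B (L (nat_lit 525) ln13_16_7 ln13_16_7_ok) (M (nat_lit 492) (B (L (nat_lit 524) ln13_12_5 ln13_12_5_ok) (M (nat_lit 365) (B (L (nat_lit 460) ln12_15_6 ln12_15_6_ok) (M (nat_lit 494) (B (L (nat_lit 462) ln13_11_4 ln13_11_4_ok) (L (nat_lit 526) ln13_12_4 ln13_12_4_ok))))))))) (B (M (nat_lit 398) (B (M (nat_lit 399) (B (L (nat_lit 427) ln15_12_1 ln15_12_1_ok) (L (nat_lit 400) ln16_12_1 ln16_12_1_ok))) (M (nat_lit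 395) (B (M (nat_lit 430) (B (L (nat_lit 394) ln10_12_0 ln10_12_0_ok) (L (nat_lit 431) ln11_12_0 ln11_12_0_ok))) (M (nat_lit 492) (B (M (nat_lit 363) (B (L (nat_lit 362) ln14_12_3 ln14_12_3_ok) (L (nat_lit 460) ln12_15_7 ln12_15_7_ok))) (B (M (nat_lit 460) (B (L (nat_lit 363) ln12_15_7 ln12_15_7_ok) (L (nat_lit 524) ln12_16_6 ln12_16_6_ok))) (M (nat_lit 493) (B (L (nat_lit 525) ln13_16_7 ln13_16_7_ok) (L (nat_lit 524) ln13_12_5 ln13_12_5_ok)))))))))) (M (nat_lit 430) (B (M (nat_lit 395) (B (L (nat_lit 394) ln10_12_0 ln10_12_0_ok) (L (nat_lit 431) ln15_13_3 ln15_13_3_ok))) (M (nat_lit 462) (B (M (nat_lit 365) (B (L (nat_lit 333) ln13_10_4 ln13_10_4_ok) (L (nat_lit 494) ln13_11_4 ln13_11_4_ok))) (M (nat_lit 463) (B (L (nat_lit 427) ln11_13_0 ln11_13_0_ok) (L (nat_lit 464) ln16_14_3 ln16_14_3_ok)))))))))) (B c41_n5078 (B (M (nat_lit 493) (B (L (nat_lit 525) ln13_16_7 ln13_16_7_ok) (M (nat_lit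 397) (B (M (nat_lit 492) (B (L (nat_lit 524) ln13_12_5 ln13_12_5_ok) (M (nat_lit 365) (B (L (nat_lit 460) ln12_15_6 ln12_15_6_ok) (M (nat_lit 494) (B (L (nat_lit 462) ln13_11_4 ln13_11_4_ok) (L (nat_lit 526) ln13_12_4 ln13_12_4_ok))))))) (B (M (nat_lit 395) (B (M (nat_lit 394) (B (L (nat_lit 393) ln9_12_0 ln9_12_0_ok) (L (nat_lit 430) ln10_12_0 ln10_12_0_ok))) (M (nat_lit 363) (B (M (nat_lit 398) (B (L (nat_lit 362) ln14_12_3 ln14_12_3_ok) (L (nat_lit 366) ln13_15_6 ln13_15_6_ok))) (M (nat_lit 492) (B (L (nat_lit 460) ln12_15_7 ln12_15_7_ok) (L (nat_lit 524) ln13_12_5 ln13_12_5_ok))))))) (M (nat_lit 365) (B (M (nat_lit 366) (B (L (nat_lit 334) ln13_14_6 ln13_14_6_ok) (L (nat_lit 398) ln13_15_6 ln13_15_6_ok))) (M (nat_lit 494) (B (L (nat_lit 462) ln13_11_4 ln13_11_4_ok) (L (nat_lit 526) ln13_12_4 ln13_12_4_ok)))))))))) (B (M (nat_lit 397) (B (M (nat_lit 493) (B (L (nat_lit 525) ln13_16_7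 ln13_16_7_ok) (M (nat_lit 398) (B (L (nat_lit 366) ln13_15_6 ln13_15_6_ok) (M (nat_lit 399) (B (L (nat_lit 427) ln15_12_1 ln15_12_1_ok) (L (nat_lit 400) ln16_12_1 ln16_12_1_ok))))))) (B (M (nat_lit 430) (B (M (nat_lit 395) (B (L (nat_lit 394) ln10_12_0 ln10_12_0_ok) (L (nat_lit 431) ln15_13_3 ln15_13_3_ok))) (M (nat_lit 462) (B (M (nat_lit 365) (B (L (nat_lit 333) ln13_10_4 ln13_10_4_ok) (L (nat_lit 494) ln13_11_4 ln13_11_4_ok))) (M (nat_lit 463) (B (L (nat_lit 427) ln11_13_0 ln11_13_0_ok) (L (nat_lit 464) ln16_14_3 ln16_14_3_ok))))))) (M (nat_lit 493) (B (L (nat_lit 525) ln13_16_7 ln13_16_7_ok) (M (nat_lit 365) (B (M (nat_lit 366) (B (L (nat_lit 334) ln13_14_6 ln13_14_6_ok) (L (nat_lit 398) ln13_15_6 ln13_15_6_ok))) (M (nat_lit 494) (B (L (nat_lit 462) ln13_11_4 ln13_11_4_ok) (L (nat_lit 526) ln13_12_4 ln13_12_4_ok)))))))))) (B (M (nat_lit 493) (B (L (nat_lit 525) ln13_16_7 ln13_16_7_ok)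 (M (nat_lit 397) (B (M (nat_lit 398) (B (L (nat_lit 366) ln13_15_6 ln13_15_6_ok) (M (nat_lit 399) (B (L (nat_lit 427) ln15_12_1 ln15_12_1_ok) (L (nat_lit 400) ln16_12_1 ln16_12_1_ok))))) (M (nat_lit 492) (B (L (nat_lit 524) ln13_12_5 ln13_12_5_ok) (M (nat_lit 395) (B (M (nat_lit 460) (B (L (nat_lit 363) ln12_15_7 ln12_15_7_ok) (L (nat_lit 365) ln12_15_6 ln12_15_6_ok))) (M (nat_lit 394) (B (L (nat_lit 393) ln9_12_0 ln9_12_0_ok) (L (nat_lit 430) ln10_12_0 ln10_12_0_ok))))))))))) c41_n5167)))))))))) (nat_lit 2079502270752001762064242424960807725827516048677469043429686155012882190638009693656033379242457518153052022685796627120027336704) (nat_lit 825554280841600030612066890062607081100800066968431410186936904885736259553525531681427957967520674443877823954063398544457415852594973260813907712459313552328650391552) (nat_lit 825554280841600030612066890062607081100800066968431410186936904885736259553525531681427957967520674443877823954063398544457415852594973260813907712459313552328650391552)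 (by decide +kernel)
noncomputable def c41_n5184 : Cert := (M (nat_lit 430) (B (M (nat_lit 395) (B (L (nat_lit 431) ln15_13_3 ln15_13_3_ok) (M (nat_lit 394) (B (L (nat_lit 393) ln9_12_0 ln9_12_0_ok) (L (nat_lit 427) ln14_13_3 ln14_13_3_ok))))) (B (M (nat_lit 431) (B (L (nat_lit 395) ln15_13_3 ln15_13_3_ok) (M (nat_lit 427) (B (M (nat_lit 399) (B (L (nat_lit 398) ln11_13_2 ln11_13_2_ok) (L (nat_lit 400) ln12_13_2 ln12_13_2_ok))) (M (nat_lit 463) (B (L (nat_lit 462) ln11_13_0 ln11_13_0_ok) (L (nat_lit 464) ln12_13_0 ln12_13_0_ok))))))) (B (M (nat_lit 461) (B (M (nat_lit 364) (B (L (nat_lit 332) ln12_10_4 ln12_10_4_ok) (M (nat_lit 493) (B (L (nat_lit 460) ln12_11_4 ln12_11_4_ok) (L (nat_lit 525) ln13_16_7 ln13_16_7_ok))))) (B (M (nat_lit 460) (B (M (nat_lit 493) (B (L (nat_lit 364) ln12_11_4 ln12_11_4_ok) (L (nat_lit 525) ln13_16_7 ln13_16_7_ok))) (M (nat_lit 431) (B (L (nat_lit 459) ln15_13_1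 ln15_13_1_ok) (L (nat_lit 432) ln16_13_1 ln16_13_1_ok))))) (B (M (nat_lit 431) (B (M (nat_lit 460) (B (L (nat_lit 459) ln15_13_1 ln15_13_1_ok) (L (nat_lit 432) ln16_13_1 ln16_13_1_ok))) (M (nat_lit 427) (B (M (nat_lit 399) (B (L (nat_lit 398) ln11_13_2 ln11_13_2_ok) (L (nat_lit 400) ln12_13_2 ln12_13_2_ok))) (M (nat_lit 463) (B (L (nat_lit 462) ln11_13_0 ln11_13_0_ok) (L (nat_lit 464) ln12_13_0 ln12_13_0_ok))))))) (M (nat_lit 398) (B (M (nat_lit 493) (B (L (nat_lit 525) ln13_16_7 ln13_16_7_ok) (M (nat_lit 366) (B (L (nat_lit 334) ln14_10_5 ln14_10_5_ok) (L (nat_lit 462) ln14_11_5 ln14_11_5_ok))))) (M (nat_lit 399) (B (L (nat_lit 427) ln11_13_2 ln11_13_2_ok) (M (nat_lit 400) (B (L (nat_lit 401) ln17_12_1 ln17_12_1_ok) (L (nat_lit 431) ln12_13_2 ln12_13_2_ok))))))))))) (B (M (nat_lit 431) (B (L (nat_lit 395) ln15_13_3 ln15_13_3_ok) (M (nat_lit 432) (B (M (nat_lit 400) (B (L (nat_lit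 399) ln12_13_2 ln12_13_2_ok) (L (nat_lit 401) ln13_13_2 ln13_13_2_ok))) (M (nat_lit 460) (B (L (nat_lit 459) ln15_13_1 ln15_13_1_ok) (L (nat_lit 461) ln16_13_1 ln16_13_1_ok))))))) (M (nat_lit 364) (B (M (nat_lit 461) (B (L (nat_lit 332) ln12_10_4 ln12_10_4_ok) (M (nat_lit 493) (B (L (nat_lit 460) ln12_11_4 ln12_11_4_ok) (L (nat_lit 525) ln13_16_7 ln13_16_7_ok))))) (B (M (nat_lit 460) (B (M (nat_lit 459) (B (L (nat_lit 491) ln12_11_5 ln12_11_5_ok) (M (nat_lit 461) (B (L (nat_lit 493) ln12_11_4 ln12_11_4_ok) (L (nat_lit 458) ln10_14_2 ln10_14_2_ok))))) (M (nat_lit 395) (B (M (nat_lit 363) (B (L (nat_lit 331) ln12_14_7 ln12_14_7_ok) (L (nat_lit 492) ln12_15_7 ln12_15_7_ok))) (M (nat_lit 394) (B (L (nat_lit 393) ln9_12_0 ln9_12_0_ok) (L (nat_lit 427) ln14_13_3 ln14_13_3_ok))))))) (B (M (nat_lit 332) (B (L (nat_lit 461) ln12_10_4 ln12_10_4_ok) (M (nat_lit 427) (B (L (nat_lit 459) ln12_10_5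 ln12_10_5_ok) (M (nat_lit 395) (B (L (nat_lit 300) ln12_9_5 ln12_9_5_ok) (L (nat_lit 394) ln14_13_3 ln14_13_3_ok))))))) (M (nat_lit 460) (B (M (nat_lit 459) (B (L (nat_lit 491) ln12_11_5 ln12_11_5_ok) (M (nat_lit 458) (B (L (nat_lit 427) ln14_13_1 ln14_13_1_ok) (L (nat_lit 457) ln9_14_2 ln9_14_2_ok))))) (B (M (nat_lit 492) (B (M (nat_lit 363) (B (L (nat_lit 331) ln12_14_7 ln12_14_7_ok) (L (nat_lit 395) ln12_15_7 ln12_15_7_ok))) (M (nat_lit 491) (B (L (nat_lit 459) ln12_11_5 ln12_11_5_ok) (L (nat_lit 523) ln12_12_5 ln12_12_5_ok))))) (M (nat_lit 395) (B (M (nat_lit 363) (B (L (nat_lit 331) ln12_14_7 ln12_14_7_ok) (L (nat_lit 492) ln12_15_7 ln12_15_7_ok))) (M (nat_lit 394) (B (L (nat_lit 393) ln9_12_0 ln9_12_0_ok) (L (nat_lit 427) ln14_13_3 ln14_13_3_ok)))))))))))))))))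
noncomputable def c41_n5208 : Cert := (M (nat_lit 430) (B (M (nat_lit 395) (B (L (nat_lit 431) ln15_13_3 ln15_13_3_ok) (M (nat_lit 394) (B (L (nat_lit 393) ln9_12_0 ln9_12_0_ok) (L (nat_lit 397) ln10_12_0 ln10_12_0_ok))))) (B (M (nat_lit 431) (B (L (nat_lit 395) ln15_13_3 ln15_13_3_ok) (M (nat_lit 400) (B (L (nat_lit 399) ln12_13_2 ln12_13_2_ok) (M (nat_lit 432) (B (L (nat_lit 397) ln16_13_3 ln16_13_3_ok) (L (nat_lit 401) ln13_13_2 ln13_13_2_ok))))))) (B (M (nat_lit 460) (B (M (nat_lit 431) (B (L (nat_lit 459) ln15_13_1 ln15_13_1_ok) (M (nat_lit 432) (B (L (nat_lit 397) ln16_13_3 ln16_13_3_ok) (L (nat_lit 461) ln16_13_1 ln16_13_1_ok))))) (B (M (nat_lit 461) (B (M (nat_lit 364) (B (L (nat_lit 332) ln12_10_4 ln12_10_4_ok) (L (nat_lit 493) ln12_11_4 ln12_11_4_ok))) (M (nat_lit 431) (B (L (nat_lit 459) ln15_13_1 ln15_13_1_ok) (L (nat_lit 432) ln16_13_1 ln16_13_1_ok))))) (B (M (nat_lit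 364) (B (M (nat_lit 461) (B (L (nat_lit 332) ln12_10_4 ln12_10_4_ok) (L (nat_lit 493) ln12_11_4 ln12_11_4_ok))) (M (nat_lit 492) (B (M (nat_lit 365) (B (L (nat_lit 333) ln12_14_6 ln12_14_6_ok) (L (nat_lit 397) ln12_15_6 ln12_15_6_ok))) (M (nat_lit 491) (B (L (nat_lit 459) ln12_11_5 ln12_11_5_ok) (L (nat_lit 523) ln12_12_5 ln12_12_5_ok))))))) (B (M (nat_lit 364) (B (M (nat_lit 461) (B (L (nat_lit 332) ln12_10_4 ln12_10_4_ok) (L (nat_lit 493) ln12_11_4 ln12_11_4_ok))) (B (M (nat_lit 492) (B (M (nat_lit 365) (B (L (nat_lit 333) ln12_14_6 ln12_14_6_ok) (L (nat_lit 397) ln12_15_6 ln12_15_6_ok))) (M (nat_lit 493) (B (L (nat_lit 461) ln12_11_4 ln12_11_4_ok) (L (nat_lit 525) ln12_12_4 ln12_12_4_ok))))) (M (nat_lit 332) (B (M (nat_lit 331) (B (L (nat_lit 299) ln12_13_7 ln12_13_7_ok) (L (nat_lit 363) ln12_14_7 ln12_14_7_ok))) (M (nat_lit 333) (B (L (nat_lit 301) ln12_13_6 ln12_13_6_ok) (L (nat_lit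 365) ln12_14_6 ln12_14_6_ok)))))))) (M (nat_lit 397) (B (M (nat_lit 365) (B (L (nat_lit 333) ln13_10_5 ln13_10_5_ok) (L (nat_lit 492) ln12_15_6 ln12_15_6_ok))) (M (nat_lit 431) (B (L (nat_lit 432) ln16_13_3 ln16_13_3_ok) (L (nat_lit 459) ln15_13_1 ln15_13_1_ok)))))))))) (B (M (nat_lit 431) (B (L (nat_lit 395) ln15_13_3 ln15_13_3_ok) (M (nat_lit 432) (B (M (nat_lit 400) (B (L (nat_lit 399) ln12_13_2 ln12_13_2_ok) (L (nat_lit 401) ln13_13_2 ln13_13_2_ok))) (M (nat_lit 460) (B (L (nat_lit 459) ln15_13_1 ln15_13_1_ok) (L (nat_lit 461) ln16_13_1 ln16_13_1_ok))))))) (M (nat_lit 364) (B (M (nat_lit 461) (B (L (nat_lit 332) ln12_10_4 ln12_10_4_ok) (M (nat_lit 493) (B (L (nat_lit 397) ln13_15_7 ln13_15_7_ok) (L (nat_lit 460) ln12_11_4 ln12_11_4_ok))))) (B (M (nat_lit 460) (B (M (nat_lit 459) (B (L (nat_lit 491) ln12_11_5 ln12_11_5_ok) (M (nat_lit 461) (B (L (nat_lit 493) ln12_11_4 ln12_11_4_ok)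 (L (nat_lit 458) ln10_14_2 ln10_14_2_ok))))) (M (nat_lit 395) (B (M (nat_lit 363) (B (L (nat_lit 331) ln12_14_7 ln12_14_7_ok) (L (nat_lit 492) ln12_15_7 ln12_15_7_ok))) (M (nat_lit 394) (B (L (nat_lit 393) ln9_12_0 ln9_12_0_ok) (L (nat_lit 397) ln10_12_0 ln10_12_0_ok))))))) (B (M (nat_lit 461) (B (L (nat_lit 332) ln12_10_4 ln12_10_4_ok) (M (nat_lit 493) (B (L (nat_lit 460) ln12_11_4 ln12_11_4_ok) (L (nat_lit 525) ln13_16_7 ln13_16_7_ok))))) (B (M (nat_lit 461) (B (L (nat_lit 332) ln12_10_4 ln12_10_4_ok) (M (nat_lit 493) (B (L (nat_lit 397) ln13_15_7 ln13_15_7_ok) (L (nat_lit 525) ln13_16_7 ln13_16_7_ok))))) (M (nat_lit 332) (B (M (nat_lit 300) (B (L (nat_lit 397) ln12_9_4 ln12_9_4_ok) (M (nat_lit 301) (B (L (nat_lit 269) ln12_12_6 ln12_12_6_ok) (L (nat_lit 333) ln12_13_6 ln12_13_6_ok))))) (B (M (nat_lit 300) (B (L (nat_lit 397) ln12_9_4 ln12_9_4_ok) (M (nat_lit 299) (B (L (nat_lit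 267) ln12_12_7 ln12_12_7_ok) (L (nat_lit 331) ln12_13_7 ln12_13_7_ok))))) (M (nat_lit 460) (B (M (nat_lit 331) (B (L (nat_lit 299) ln12_13_7 ln12_13_7_ok) (L (nat_lit 363) ln12_14_7 ln12_14_7_ok))) (M (nat_lit 333) (B (L (nat_lit 301) ln12_13_6 ln12_13_6_ok) (L (nat_lit 365) ln12_14_6 ln12_14_6_ok))))))))))))))))))
noncomputable def c41_n5210 : Cert := (M (nat_lit 364) (B (M (nat_lit 461) (B (L (nat_lit 332) ln12_10_4 ln12_10_4_ok) (M (nat_lit 493) (B (L (nat_lit 397) ln13_15_7 ln13_15_7_ok) (L (nat_lit 525) ln13_16_7 ln13_16_7_ok))))) (B (M (nat_lit 397) (B (M (nat_lit 363) (B (M (nat_lit 398) (B (L (nat_lit 399) ln15_12_3 ln15_12_3_ok) (M (nat_lit 362) (B (L (nat_lit 361) ln9_11_0 ln9_11_0_ok) (L (nat_lit 365) ln10_11_0 ln10_11_0_ok))))) (B (M (nat_lit 398) (B (L (nat_lit 399) ln15_12_3 ln15_12_3_ok) (M (nat_lit 362) (B (L (nat_lit 365) ln10_11_0 ln10_11_0_ok) (L (nat_lit 395) ln14_12_3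 ln14_12_3_ok))))) (B (M (nat_lit 460) (B (L (nat_lit 331) ln12_14_7 ln12_14_7_ok) (M (nat_lit 492) (B (L (nat_lit 395) ln12_15_7 ln12_15_7_ok) (L (nat_lit 365) ln12_15_6 ln12_15_6_ok))))) (M (nat_lit 398) (B (L (nat_lit 399) ln15_12_3 ln15_12_3_ok) (M (nat_lit 362) (B (L (nat_lit 361) ln9_11_0 ln9_11_0_ok) (L (nat_lit 395) ln14_12_3 ln14_12_3_ok))))))))) (B (M (nat_lit 365) (B (M (nat_lit 333) (B (L (nat_lit 301) ln13_9_5 ln13_9_5_ok) (L (nat_lit 460) ln12_14_6 ln12_14_6_ok))) (B (M (nat_lit 460) (B (L (nat_lit 333) ln12_14_6 ln12_14_6_ok) (L (nat_lit 492) ln12_15_6 ln12_15_6_ok))) (M (nat_lit 366) (B (M (nat_lit 461) (B (L (nat_lit 334) ln13_14_6 ln13_14_6_ok) (L (nat_lit 493) ln13_15_7 ln13_15_7_ok))) (M (nat_lit 367) (B (L (nat_lit 395) ln15_11_1 ln15_11_1_ok) (L (nat_lit 368) ln16_11_1 ln16_11_1_ok)))))))) (B (M (nat_lit 395) (B (M (nat_lit 430) (B (L (nat_lit 394) ln10_12_0 ln10_12_0_ok)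 (L (nat_lit 431) ln15_13_3 ln15_13_3_ok))) (M (nat_lit 363) (B (M (nat_lit 331) (B (L (nat_lit 299) ln11_9_4 ln11_9_4_ok) (L (nat_lit 460) ln12_14_7 ln12_14_7_ok))) (M (nat_lit 362) (B (L (nat_lit 361) ln9_11_0 ln9_11_0_ok) (L (nat_lit 398) ln14_12_3 ln14_12_3_ok))))))) (B (M (nat_lit 365) (B (M (nat_lit 333) (B (L (nat_lit 301) ln13_9_5 ln13_9_5_ok) (L (nat_lit 460) ln12_14_6 ln12_14_6_ok))) (B (M (nat_lit 460) (B (L (nat_lit 333) ln12_14_6 ln12_14_6_ok) (L (nat_lit 492) ln12_15_6 ln12_15_6_ok))) (B (M (nat_lit 363) (B (M (nat_lit 460) (B (L (nat_lit 331) ln12_14_7 ln12_14_7_ok) (L (nat_lit 492) ln12_15_6 ln12_15_6_ok))) (M (nat_lit 398) (B (L (nat_lit 362) ln10_11_0 ln10_11_0_ok) (L (nat_lit 399) ln15_12_3 ln15_12_3_ok))))) (M (nat_lit 462) (B (M (nat_lit 333) (B (L (nat_lit 301) ln13_9_5 ln13_9_5_ok) (L (nat_lit 430) ln13_10_4 ln13_10_4_ok))) (M (nat_lit 461) (B (L (nat_lit 493)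 ln13_15_7 ln13_15_7_ok) (L (nat_lit 494) ln13_11_4 ln13_11_4_ok))))))))) (M (nat_lit 365) (B (M (nat_lit 430) (B (M (nat_lit 333) (B (L (nat_lit 301) ln13_9_5 ln13_9_5_ok) (L (nat_lit 462) ln13_10_4 ln13_10_4_ok))) (M (nat_lit 431) (B (L (nat_lit 395) ln15_13_3 ln15_13_3_ok) (L (nat_lit 432) ln16_13_3 ln16_13_3_ok))))) (B (M (nat_lit 366) (B (M (nat_lit 461) (B (L (nat_lit 334) ln13_14_6 ln13_14_6_ok) (L (nat_lit 493) ln13_15_7 ln13_15_7_ok))) (M (nat_lit 367) (B (L (nat_lit 395) ln15_11_1 ln15_11_1_ok) (L (nat_lit 368) ln16_11_1 ln16_11_1_ok))))) (M (nat_lit 462) (B (M (nat_lit 333) (B (L (nat_lit 301) ln13_9_5 ln13_9_5_ok) (L (nat_lit 430) ln13_10_4 ln13_10_4_ok))) (M (nat_lit 461) (B (L (nat_lit 493) ln13_15_7 ln13_15_7_ok) (L (nat_lit 494) ln13_11_4 ln13_11_4_ok))))))))))))) (B (M (nat_lit 461) (B (L (nat_lit 332) ln12_10_4 ln12_10_4_ok) (M (nat_lit 493) (B (L (nat_lit 460) ln12_11_4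 ln12_11_4_ok) (L (nat_lit 525) ln13_16_7 ln13_16_7_ok))))) (M (nat_lit 332) (B (M (nat_lit 300) (B (L (nat_lit 397) ln12_9_4 ln12_9_4_ok) (M (nat_lit 299) (B (L (nat_lit 267) ln12_12_7 ln12_12_7_ok) (L (nat_lit 331) ln12_13_7 ln12_13_7_ok))))) (B (M (nat_lit 300) (B (L (nat_lit 397) ln12_9_4 ln12_9_4_ok) (M (nat_lit 301) (B (L (nat_lit 269) ln12_12_6 ln12_12_6_ok) (L (nat_lit 333) ln12_13_6 ln12_13_6_ok))))) (M (nat_lit 460) (B (M (nat_lit 331) (B (L (nat_lit 299) ln12_13_7 ln12_13_7_ok) (L (nat_lit 363) ln12_14_7 ln12_14_7_ok))) (M (nat_lit 333) (B (L (nat_lit 301) ln12_13_6 ln12_13_6_ok) (L (nat_lit 365) ln12_14_6 ln12_14_6_ok))))))))))))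
noncomputable def c41_n5235 : Cert := (M (nat_lit 430) (B (M (nat_lit 395) (B (L (nat_lit 431) ln15_13_3 ln15_13_3_ok) (M (nat_lit 394) (B (L (nat_lit 393) ln9_12_0 ln9_12_0_ok) (L (nat_lit 397) ln10_12_0 ln10_12_0_ok))))) (B (M (nat_lit 395) (B (L (nat_lit 431) ln15_13_3 ln15_13_3_ok) (M (nat_lit 394) (B (L (nat_lit 397) ln10_12_0 ln10_12_0_ok) (L (nat_lit 427) ln14_13_3 ln14_13_3_ok))))) (B (M (nat_lit 431) (B (L (nat_lit 395) ln15_13_3 ln15_13_3_ok) (M (nat_lit 400) (B (L (nat_lit 399) ln12_13_2 ln12_13_2_ok) (M (nat_lit 432) (B (L (nat_lit 397) ln16_13_3 ln16_13_3_ok) (L (nat_lit 401) ln13_13_2 ln13_13_2_ok))))))) (B (M (nat_lit 461) (B (M (nat_lit 364) (B (L (nat_lit 332) ln12_10_4 ln12_10_4_ok) (M (nat_lit 493) (B (L (nat_lit 397) ln13_15_7 ln13_15_7_ok) (L (nat_lit 525) ln13_16_7 ln13_16_7_ok))))) (B (M (nat_lit 398) (B (M (nat_lit 493) (B (L (nat_lit 525) ln13_16_7 ln13_16_7_ok)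 (M (nat_lit 366) (B (L (nat_lit 334) ln14_10_5 ln14_10_5_ok) (L (nat_lit 462) ln14_11_5 ln14_11_5_ok))))) (M (nat_lit 399) (B (L (nat_lit 427) ln11_13_2 ln11_13_2_ok) (M (nat_lit 400) (B (L (nat_lit 401) ln17_12_1 ln17_12_1_ok) (L (nat_lit 431) ln12_13_2 ln12_13_2_ok))))))) (M (nat_lit 431) (B (M (nat_lit 400) (B (L (nat_lit 399) ln12_13_2 ln12_13_2_ok) (M (nat_lit 432) (B (L (nat_lit 397) ln16_13_3 ln16_13_3_ok) (L (nat_lit 401) ln13_13_2 ln13_13_2_ok))))) (B (M (nat_lit 427) (B (M (nat_lit 399) (B (L (nat_lit 398) ln11_13_2 ln11_13_2_ok) (L (nat_lit 400) ln12_13_2 ln12_13_2_ok))) (M (nat_lit 463) (B (L (nat_lit 462) ln11_13_0 ln11_13_0_ok) (L (nat_lit 464) ln12_13_0 ln12_13_0_ok))))) (M (nat_lit 462) (B (M (nat_lit 463) (B (L (nat_lit 427) ln11_13_0 ln11_13_0_ok) (L (nat_lit 464) ln12_13_0 ln12_13_0_ok))) (M (nat_lit 432) (B (L (nat_lit 397) ln16_13_3 ln16_13_3_ok) (L (nat_lit 433)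 ln17_13_1 ln17_13_1_ok))))))))))) (B (M (nat_lit 395) (B (L (nat_lit 431) ln15_13_3 ln15_13_3_ok) (M (nat_lit 394) (B (L (nat_lit 393) ln9_12_0 ln9_12_0_ok) (L (nat_lit 427) ln14_13_3 ln14_13_3_ok))))) (M (nat_lit 395) (B (M (nat_lit 394) (B (L (nat_lit 393) ln9_12_0 ln9_12_0_ok) (L (nat_lit 397) ln10_12_0 ln10_12_0_ok))) (B (M (nat_lit 394) (B (L (nat_lit 397) ln10_12_0 ln10_12_0_ok) (L (nat_lit 427) ln14_13_3 ln14_13_3_ok))) (B (M (nat_lit 398) (B (M (nat_lit 399) (B (L (nat_lit 427) ln11_13_2 ln11_13_2_ok) (M (nat_lit 400) (B (L (nat_lit 397) ln16_12_1 ln16_12_1_ok) (L (nat_lit 401) ln17_12_1 ln17_12_1_ok))))) (B (M (nat_lit 427) (B (L (nat_lit 399) ln11_13_2 ln11_13_2_ok) (M (nat_lit 459) (B (L (nat_lit 458) ln14_13_1 ln14_13_1_ok) (M (nat_lit 364) (B (L (nat_lit 332) ln12_10_5 ln12_10_5_ok) (L (nat_lit 491) ln11_15_6 ln11_15_6_ok))))))) (B (M (nat_lit 366) (B (M (nat_lit 461)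 (B (L (nat_lit 334) ln14_10_5 ln14_10_5_ok) (M (nat_lit 493) (B (L (nat_lit 462) ln14_11_5 ln14_11_5_ok) (L (nat_lit 525) ln13_16_7 ln13_16_7_ok))))) (B (M (nat_lit 462) (B (M (nat_lit 367) (B (L (nat_lit 335) ln14_14_6 ln14_14_6_ok) (L (nat_lit 397) ln11_12_2 ln11_12_2_ok))) (M (nat_lit 463) (B (L (nat_lit 495) ln14_11_4 ln14_11_4_ok) (L (nat_lit 427) ln11_13_0 ln11_13_0_ok))))) (M (nat_lit 397) (B (L (nat_lit 367) ln11_12_2 ln11_12_2_ok) (M (nat_lit 461) (B (L (nat_lit 334) ln14_10_5 ln14_10_5_ok) (L (nat_lit 493) ln13_15_6 ln13_15_6_ok)))))))) (M (nat_lit 397) (B (M (nat_lit 366) (B (L (nat_lit 367) ln11_12_2 ln11_12_2_ok) (M (nat_lit 334) (B (L (nat_lit 302) ln14_9_5 ln14_9_5_ok) (L (nat_lit 461) ln14_10_5 ln14_10_5_ok))))) (M (nat_lit 399) (B (L (nat_lit 400) ln16_12_1 ln16_12_1_ok) (M (nat_lit 363) (B (L (nat_lit 362) ln14_12_3 ln14_12_3_ok) (L (nat_lit 364) ln15_12_3 ln15_12_3_ok)))))))))))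 (M (nat_lit 394) (B (L (nat_lit 393) ln9_12_0 ln9_12_0_ok) (L (nat_lit 427) ln14_13_3 ln14_13_3_ok)))))))))))))
theorem c41_s5236 : Sem (nat_lit 1386334847221798047169638878925036799968406779833514899637066259859226863686603287896039777716422623628704219945445734162783797248) (nat_lit 825554280841600030612066890062979222550513942678053886325215411524175799312718597499708473234419825890795782166454660080018041482941651637829265574106778981574268420096) (nat_lit 825554280841600030612066890062979222550513942678053886325215411524175799312718597499708473234419825890795782166454660080018041482941651637829265574106778981574268420096) :=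
  sem_of_chk (M (nat_lit 428) (B (M (nat_lit 461) (B (M (nat_lit 493) (B (L (nat_lit 525) ln13_16_7 ln13_16_7_ok) (M (nat_lit 364) (B (L (nat_lit 332) ln12_10_4 ln12_10_4_ok) (L (nat_lit 397) ln13_15_7 ln13_15_7_ok))))) (B (M (nat_lit 493) (B (L (nat_lit 525) ln13_16_7 ln13_16_7_ok) (M (nat_lit 364) (B (L (nat_lit 397) ln13_15_7 ln13_15_7_ok) (L (nat_lit 460) ln12_11_4 ln12_11_4_ok))))) (B (M (nat_lit 493) (B (L (nat_lit 525) ln13_16_7 ln13_16_7_ok) (M (nat_lit 397) (B (M (nat_lit 398) (B (L (nat_lit 366) ln13_15_6 ln13_15_6_ok) (M (nat_lit 399) (B (L (nat_lit 427) ln15_12_1 ln15_12_1_ok) (L (nat_lit 400) ln16_12_1 ln16_12_1_ok))))) (M (nat_lit 365) (B (M (nat_lit 333) (B (L (nat_lit 301) ln13_9_5 ln13_9_5_ok) (L (nat_lit 460) ln13_10_5 ln13_10_5_ok))) (M (nat_lit 494) (B (L (nat_lit 462) ln13_11_4 ln13_11_4_ok) (L (nat_lit 526) ln13_12_4 ln13_12_4_ok))))))))) (B (M (nat_lit 493) (B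 (L (nat_lit 525) ln13_16_7 ln13_16_7_ok) (M (nat_lit 364) (B (L (nat_lit 332) ln12_10_4 ln12_10_4_ok) (L (nat_lit 460) ln12_11_4 ln12_11_4_ok))))) (M (nat_lit 364) (B (L (nat_lit 332) ln12_10_4 ln12_10_4_ok) (M (nat_lit 460) (B (M (nat_lit 459) (B (L (nat_lit 491) ln12_11_5 ln12_11_5_ok) (M (nat_lit 430) (B (L (nat_lit 431) ln15_13_1 ln15_13_1_ok) (L (nat_lit 458) ln10_14_2 ln10_14_2_ok))))) (M (nat_lit 492) (B (M (nat_lit 363) (B (L (nat_lit 331) ln12_14_7 ln12_14_7_ok) (L (nat_lit 395) ln12_15_7 ln12_15_7_ok))) (M (nat_lit 524) (B (L (nat_lit 397) ln12_16_6 ln12_16_6_ok) (L (nat_lit 556) ln12_17_6 ln12_17_6_ok)))))))))))))) (B (M (nat_lit 460) (B (M (nat_lit 459) (B (M (nat_lit 430) (B (L (nat_lit 431) ln15_13_1 ln15_13_1_ok) (M (nat_lit 458) (B (L (nat_lit 427) ln14_13_1 ln14_13_1_ok) (L (nat_lit 457) ln9_14_2 ln9_14_2_ok))))) (B (M (nat_lit 430) (B (L (nat_lit 431) ln15_13_1 ln15_13_1_ok)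 (M (nat_lit 458) (B (L (nat_lit 457) ln9_14_2 ln9_14_2_ok) (L (nat_lit 461) ln10_14_2 ln10_14_2_ok))))) (M (nat_lit 364) (B (L (nat_lit 491) ln12_11_5 ln12_11_5_ok) (M (nat_lit 332) (B (L (nat_lit 427) ln12_10_5 ln12_10_5_ok) (L (nat_lit 461) ln12_10_4 ln12_10_4_ok)))))))) (B (M (nat_lit 395) (B (M (nat_lit 363) (B (L (nat_lit 492) ln12_15_7 ln12_15_7_ok) (M (nat_lit 331) (B (L (nat_lit 299) ln11_9_4 ln11_9_4_ok) (L (nat_lit 427) ln11_10_4 ln11_10_4_ok))))) (B (M (nat_lit 430) (B (L (nat_lit 431) ln15_13_3 ln15_13_3_ok) (M (nat_lit 394) (B (L (nat_lit 393) ln9_12_0 ln9_12_0_ok) (L (nat_lit 427) ln14_13_3 ln14_13_3_ok))))) (M (nat_lit 430) (B (L (nat_lit 431) ln15_13_3 ln15_13_3_ok) (M (nat_lit 394) (B (L (nat_lit 393) ln9_12_0 ln9_12_0_ok) (L (nat_lit 397) ln10_12_0 ln10_12_0_ok)))))))) (M (nat_lit 364) (B (M (nat_lit 461) (B (L (nat_lit 332) ln12_10_4 ln12_10_4_ok) (L (nat_lit 493)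 ln12_11_4 ln12_11_4_ok))) (M (nat_lit 492) (B (M (nat_lit 363) (B (L (nat_lit 331) ln12_14_7 ln12_14_7_ok) (L (nat_lit 395) ln12_15_7 ln12_15_7_ok))) (M (nat_lit 365) (B (L (nat_lit 333) ln12_14_6 ln12_14_6_ok) (L (nat_lit 397) ln12_15_6 ln12_15_6_ok)))))))))) (B (M (nat_lit 460) (B (M (nat_lit 459) (B (M (nat_lit 430) (B (L (nat_lit 431) ln15_13_1 ln15_13_1_ok) (M (nat_lit 458) (B (L (nat_lit 427) ln14_13_1 ln14_13_1_ok) (L (nat_lit 457) ln9_14_2 ln9_14_2_ok))))) (B (M (nat_lit 430) (B (L (nat_lit 431) ln15_13_1 ln15_13_1_ok) (M (nat_lit 458) (B (L (nat_lit 457) ln9_14_2 ln9_14_2_ok) (L (nat_lit 461) ln10_14_2 ln10_14_2_ok))))) (M (nat_lit 364) (B (L (nat_lit 491) ln12_11_5 ln12_11_5_ok) (M (nat_lit 332) (B (L (nat_lit 427) ln12_10_5 ln12_10_5_ok) (L (nat_lit 461) ln12_10_4 ln12_10_4_ok)))))))) (B (M (nat_lit 395) (B (M (nat_lit 430) (B (L (nat_lit 431) ln15_13_3 ln15_13_3_ok) (M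 (nat_lit 394) (B (L (nat_lit 393) ln9_12_0 ln9_12_0_ok) (L (nat_lit 427) ln14_13_3 ln14_13_3_ok))))) (B (M (nat_lit 430) (B (L (nat_lit 431) ln15_13_3 ln15_13_3_ok) (M (nat_lit 394) (B (L (nat_lit 397) ln10_12_0 ln10_12_0_ok) (L (nat_lit 427) ln14_13_3 ln14_13_3_ok))))) (M (nat_lit 492) (B (L (nat_lit 363) ln12_15_7 ln12_15_7_ok) (M (nat_lit 397) (B (L (nat_lit 365) ln12_15_6 ln12_15_6_ok) (L (nat_lit 524) ln12_16_6 ln12_16_6_ok)))))))) (B (M (nat_lit 459) (B (M (nat_lit 430) (B (L (nat_lit 431) ln15_13_1 ln15_13_1_ok) (M (nat_lit 458) (B (L (nat_lit 457) ln9_14_2 ln9_14_2_ok) (L (nat_lit 461) ln10_14_2 ln10_14_2_ok))))) (B (M (nat_lit 364) (B (L (nat_lit 491) ln12_11_5 ln12_11_5_ok) (M (nat_lit 461) (B (L (nat_lit 332) ln12_10_4 ln12_10_4_ok) (L (nat_lit 493) ln12_11_4 ln12_11_4_ok))))) (M (nat_lit 492) (B (M (nat_lit 491) (B (L (nat_lit 364) ln12_11_5 ln12_11_5_ok) (L (nat_lit 523)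 ln12_12_5 ln12_12_5_ok))) (M (nat_lit 397) (B (L (nat_lit 365) ln12_15_6 ln12_15_6_ok) (L (nat_lit 524) ln12_16_6 ln12_16_6_ok)))))))) (M (nat_lit 364) (B (M (nat_lit 461) (B (L (nat_lit 332) ln12_10_4 ln12_10_4_ok) (L (nat_lit 493) ln12_11_4 ln12_11_4_ok))) (M (nat_lit 365) (B (L (nat_lit 333) ln12_14_6 ln12_14_6_ok) (M (nat_lit 492) (B (L (nat_lit 397) ln12_15_6 ln12_15_6_ok) (M (nat_lit 491) (B (L (nat_lit 459) ln12_11_5 ln12_11_5_ok) (L (nat_lit 523) ln12_12_5 ln12_12_5_ok))))))))))))) (B (M (nat_lit 460) (B (M (nat_lit 459) (B (M (nat_lit 430) (B (L (nat_lit 431) ln15_13_1 ln15_13_1_ok) (M (nat_lit 458) (B (L (nat_lit 427) ln14_13_1 ln14_13_1_ok) (L (nat_lit 457) ln9_14_2 ln9_14_2_ok))))) (B (M (nat_lit 430) (B (L (nat_lit 431) ln15_13_1 ln15_13_1_ok) (M (nat_lit 458) (B (L (nat_lit 457) ln9_14_2 ln9_14_2_ok) (L (nat_lit 461) ln10_14_2 ln10_14_2_ok))))) (M (nat_lit 491) (B (L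 (nat_lit 364) ln12_11_5 ln12_11_5_ok) (M (nat_lit 523) (B (L (nat_lit 427) ln11_16_6 ln11_16_6_ok) (L (nat_lit 555) ln11_17_6 ln11_17_6_ok)))))))) (B (M (nat_lit 395) (B (M (nat_lit 430) (B (L (nat_lit 431) ln15_13_3 ln15_13_3_ok) (M (nat_lit 394) (B (L (nat_lit 393) ln9_12_0 ln9_12_0_ok) (L (nat_lit 427) ln14_13_3 ln14_13_3_ok))))) (B (M (nat_lit 430) (B (L (nat_lit 431) ln15_13_3 ln15_13_3_ok) (M (nat_lit 394) (B (L (nat_lit 397) ln10_12_0 ln10_12_0_ok) (L (nat_lit 427) ln14_13_3 ln14_13_3_ok))))) (M (nat_lit 492) (B (L (nat_lit 363) ln12_15_7 ln12_15_7_ok) (M (nat_lit 397) (B (L (nat_lit 365) ln12_15_6 ln12_15_6_ok) (L (nat_lit 524) ln12_16_6 ln12_16_6_ok)))))))) (B (M (nat_lit 459) (B (M (nat_lit 430) (B (L (nat_lit 431) ln15_13_1 ln15_13_1_ok) (M (nat_lit 458) (B (L (nat_lit 457) ln9_14_2 ln9_14_2_ok) (L (nat_lit 461) ln10_14_2 ln10_14_2_ok))))) (M (nat_lit 492) (B (M (nat_lit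 491) (B (L (nat_lit 364) ln12_11_5 ln12_11_5_ok) (L (nat_lit 523) ln12_12_5 ln12_12_5_ok))) (M (nat_lit 397) (B (L (nat_lit 365) ln12_15_6 ln12_15_6_ok) (L (nat_lit 524) ln12_16_6 ln12_16_6_ok))))))) (M (nat_lit 492) (B (M (nat_lit 397) (B (L (nat_lit 365) ln12_15_6 ln12_15_6_ok) (L (nat_lit 524) ln12_16_6 ln12_16_6_ok))) (M (nat_lit 364) (B (M (nat_lit 363) (B (L (nat_lit 331) ln12_14_7 ln12_14_7_ok) (L (nat_lit 395) ln12_15_7 ln12_15_7_ok))) (M (nat_lit 491) (B (L (nat_lit 459) ln12_11_5 ln12_11_5_ok) (L (nat_lit 523) ln12_12_5 ln12_12_5_ok))))))))))) (B (M (nat_lit 430) (B (M (nat_lit 395) (B (L (nat_lit 431) ln15_13_3 ln15_13_3_ok) (M (nat_lit 394) (B (L (nat_lit 393) ln9_12_0 ln9_12_0_ok) (L (nat_lit 397) ln10_12_0 ln10_12_0_ok))))) (B (M (nat_lit 395) (B (L (nat_lit 431) ln15_13_3 ln15_13_3_ok) (M (nat_lit 394) (B (L (nat_lit 397) ln10_12_0 ln10_12_0_ok) (L (nat_lit 427) ln14_13_3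 ln14_13_3_ok))))) (B (M (nat_lit 431) (B (L (nat_lit 395) ln15_13_3 ln15_13_3_ok) (M (nat_lit 400) (B (L (nat_lit 399) ln12_13_2 ln12_13_2_ok) (M (nat_lit 432) (B (L (nat_lit 397) ln16_13_3 ln16_13_3_ok) (L (nat_lit 401) ln13_13_2 ln13_13_2_ok))))))) (B (M (nat_lit 431) (B (M (nat_lit 400) (B (L (nat_lit 399) ln12_13_2 ln12_13_2_ok) (M (nat_lit 432) (B (L (nat_lit 397) ln16_13_3 ln16_13_3_ok) (L (nat_lit 401) ln13_13_2 ln13_13_2_ok))))) (M (nat_lit 427) (B (M (nat_lit 459) (B (L (nat_lit 458) ln14_13_1 ln14_13_1_ok) (L (nat_lit 460) ln15_13_1 ln15_13_1_ok))) (M (nat_lit 463) (B (L (nat_lit 462) ln11_13_0 ln11_13_0_ok) (L (nat_lit 464) ln12_13_0 ln12_13_0_ok))))))) (B (M (nat_lit 395) (B (L (nat_lit 431) ln15_13_3 ln15_13_3_ok) (M (nat_lit 394) (B (L (nat_lit 393) ln9_12_0 ln9_12_0_ok) (L (nat_lit 427) ln14_13_3 ln14_13_3_ok))))) (M (nat_lit 364) (B (M (nat_lit 461) (B (L (nat_lit 332)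 ln12_10_4 ln12_10_4_ok) (M (nat_lit 493) (B (L (nat_lit 397) ln13_15_7 ln13_15_7_ok) (L (nat_lit 460) ln12_11_4 ln12_11_4_ok))))) (B (M (nat_lit 460) (B (M (nat_lit 459) (B (L (nat_lit 491) ln12_11_5 ln12_11_5_ok) (M (nat_lit 461) (B (L (nat_lit 493) ln12_11_4 ln12_11_4_ok) (L (nat_lit 458) ln10_14_2 ln10_14_2_ok))))) (B (M (nat_lit 492) (B (M (nat_lit 365) (B (L (nat_lit 333) ln12_14_6 ln12_14_6_ok) (L (nat_lit 397) ln12_15_6 ln12_15_6_ok))) (M (nat_lit 493) (B (L (nat_lit 461) ln12_11_4 ln12_11_4_ok) (L (nat_lit 525) ln12_12_4 ln12_12_4_ok))))) (M (nat_lit 459) (B (L (nat_lit 491) ln12_11_5 ln12_11_5_ok) (M (nat_lit 458) (B (L (nat_lit 427) ln14_13_1 ln14_13_1_ok) (L (nat_lit 457) ln9_14_2 ln9_14_2_ok)))))))) (B (M (nat_lit 461) (B (L (nat_lit 332) ln12_10_4 ln12_10_4_ok) (M (nat_lit 493) (B (L (nat_lit 460) ln12_11_4 ln12_11_4_ok) (L (nat_lit 525) ln13_16_7 ln13_16_7_ok))))) (B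 (M (nat_lit 461) (B (L (nat_lit 332) ln12_10_4 ln12_10_4_ok) (M (nat_lit 493) (B (L (nat_lit 397) ln13_15_7 ln13_15_7_ok) (L (nat_lit 525) ln13_16_7 ln13_16_7_ok))))) (M (nat_lit 332) (B (M (nat_lit 300) (B (L (nat_lit 397) ln12_9_4 ln12_9_4_ok) (M (nat_lit 299) (B (L (nat_lit 267) ln12_12_7 ln12_12_7_ok) (L (nat_lit 331) ln12_13_7 ln12_13_7_ok))))) (M (nat_lit 460) (B (M (nat_lit 333) (B (L (nat_lit 301) ln12_13_6 ln12_13_6_ok) (L (nat_lit 365) ln12_14_6 ln12_14_6_ok))) (M (nat_lit 459) (B (L (nat_lit 427) ln12_10_5 ln12_10_5_ok) (L (nat_lit 491) ln12_11_5 ln12_11_5_ok)))))))))))))))))) (B (K (nat_lit 2079502270752001762064242424960807725827516048677469043429686155012882190638009693656033379242457518153052022685796627120027336704) (nat_lit 825554280841600030612066890062607081100800066968431410186936904885736259553525531681427957967520674443877823954063398544457415852594973260813907712459313552328650391552)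 (nat_lit 825554280841600030612066890062607081100800066968431410186936904885736259553525531681427957967520674443877823954063398544457415852594973260813907712459313552328650391552) c41_s5168) (B (M (nat_lit 460) (B (M (nat_lit 459) (B (M (nat_lit 430) (B (L (nat_lit 431) ln15_13_1 ln15_13_1_ok) (M (nat_lit 458) (B (L (nat_lit 427) ln14_13_1 ln14_13_1_ok) (L (nat_lit 457) ln9_14_2 ln9_14_2_ok))))) (B (M (nat_lit 430) (B (L (nat_lit 431) ln15_13_1 ln15_13_1_ok) (M (nat_lit 458) (B (L (nat_lit 457) ln9_14_2 ln9_14_2_ok) (L (nat_lit 461) ln10_14_2 ln10_14_2_ok))))) (M (nat_lit 364) (B (L (nat_lit 491) ln12_11_5 ln12_11_5_ok) (M (nat_lit 332) (B (L (nat_lit 427) ln12_10_5 ln12_10_5_ok) (L (nat_lit 461) ln12_10_4 ln12_10_4_ok)))))))) (B (M (nat_lit 459) (B (M (nat_lit 430) (B (L (nat_lit 431) ln15_13_1 ln15_13_1_ok) (M (nat_lit 458) (B (L (nat_lit 427) ln14_13_1 ln14_13_1_ok) (L (nat_lit 457)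 ln9_14_2 ln9_14_2_ok))))) (B (M (nat_lit 430) (B (L (nat_lit 431) ln15_13_1 ln15_13_1_ok) (M (nat_lit 458) (B (L (nat_lit 457) ln9_14_2 ln9_14_2_ok) (L (nat_lit 461) ln10_14_2 ln10_14_2_ok))))) (M (nat_lit 491) (B (L (nat_lit 364) ln12_11_5 ln12_11_5_ok) (M (nat_lit 523) (B (L (nat_lit 427) ln11_16_6 ln11_16_6_ok) (L (nat_lit 492) ln12_12_5 ln12_12_5_ok)))))))) (B (M (nat_lit 395) (B (M (nat_lit 430) (B (L (nat_lit 431) ln15_13_3 ln15_13_3_ok) (M (nat_lit 394) (B (L (nat_lit 393) ln9_12_0 ln9_12_0_ok) (L (nat_lit 427) ln14_13_3 ln14_13_3_ok))))) (B (M (nat_lit 430) (B (L (nat_lit 431) ln15_13_3 ln15_13_3_ok) (M (nat_lit 394) (B (L (nat_lit 397) ln10_12_0 ln10_12_0_ok) (L (nat_lit 427) ln14_13_3 ln14_13_3_ok))))) (B (M (nat_lit 492) (B (L (nat_lit 363) ln12_15_7 ln12_15_7_ok) (M (nat_lit 524) (B (L (nat_lit 427) ln12_16_7 ln12_16_7_ok) (L (nat_lit 397) ln12_16_6 ln12_16_6_ok))))) (M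 (nat_lit 430) (B (L (nat_lit 431) ln15_13_3 ln15_13_3_ok) (M (nat_lit 394) (B (L (nat_lit 393) ln9_12_0 ln9_12_0_ok) (L (nat_lit 397) ln10_12_0 ln10_12_0_ok))))))))) (B (M (nat_lit 395) (B (M (nat_lit 430) (B (L (nat_lit 431) ln15_13_3 ln15_13_3_ok) (M (nat_lit 394) (B (L (nat_lit 393) ln9_12_0 ln9_12_0_ok) (L (nat_lit 397) ln10_12_0 ln10_12_0_ok))))) (M (nat_lit 364) (B (M (nat_lit 363) (B (L (nat_lit 331) ln12_14_7 ln12_14_7_ok) (L (nat_lit 492) ln12_15_7 ln12_15_7_ok))) (M (nat_lit 461) (B (L (nat_lit 332) ln12_10_4 ln12_10_4_ok) (L (nat_lit 493) ln12_11_4 ln12_11_4_ok))))))) (M (nat_lit 364) (B (M (nat_lit 461) (B (L (nat_lit 332) ln12_10_4 ln12_10_4_ok) (L (nat_lit 493) ln12_11_4 ln12_11_4_ok))) (M (nat_lit 492) (B (M (nat_lit 363) (B (L (nat_lit 331) ln12_14_7 ln12_14_7_ok) (L (nat_lit 395) ln12_15_7 ln12_15_7_ok))) (M (nat_lit 491) (B (L (nat_lit 459) ln12_11_5 ln12_11_5_ok)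 (L (nat_lit 523) ln12_12_5 ln12_12_5_ok)))))))))))) (B (M (nat_lit 364) (B (M (nat_lit 461) (B (L (nat_lit 332) ln12_10_4 ln12_10_4_ok) (M (nat_lit 493) (B (L (nat_lit 397) ln13_15_7 ln13_15_7_ok) (L (nat_lit 525) ln13_16_7 ln13_16_7_ok))))) (B (M (nat_lit 460) (B (M (nat_lit 365) (B (L (nat_lit 333) ln12_14_6 ln12_14_6_ok) (M (nat_lit 492) (B (L (nat_lit 397) ln12_15_6 ln12_15_6_ok) (M (nat_lit 491) (B (L (nat_lit 459) ln12_11_5 ln12_11_5_ok) (L (nat_lit 523) ln12_12_5 ln12_12_5_ok))))))) (B (M (nat_lit 492) (B (M (nat_lit 491) (B (L (nat_lit 459) ln12_11_5 ln12_11_5_ok) (L (nat_lit 523) ln12_12_5 ln12_12_5_ok))) (M (nat_lit 493) (B (L (nat_lit 461) ln12_11_4 ln12_11_4_ok) (L (nat_lit 525) ln12_12_4 ln12_12_4_ok))))) (B (M (nat_lit 492) (B (M (nat_lit 365) (B (L (nat_lit 333) ln12_14_6 ln12_14_6_ok) (L (nat_lit 397) ln12_15_6 ln12_15_6_ok))) (M (nat_lit 493) (B (L (nat_lit 461) ln12_11_4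 ln12_11_4_ok) (L (nat_lit 525) ln12_12_4 ln12_12_4_ok))))) (M (nat_lit 461) (B (L (nat_lit 493) ln12_11_4 ln12_11_4_ok) (M (nat_lit 459) (B (L (nat_lit 491) ln12_11_5 ln12_11_5_ok) (M (nat_lit 430) (B (L (nat_lit 431) ln15_13_1 ln15_13_1_ok) (L (nat_lit 458) ln10_14_2 ln10_14_2_ok))))))))))) (B (M (nat_lit 461) (B (L (nat_lit 332) ln12_10_4 ln12_10_4_ok) (M (nat_lit 493) (B (L (nat_lit 460) ln12_11_4 ln12_11_4_ok) (L (nat_lit 525) ln13_16_7 ln13_16_7_ok))))) (M (nat_lit 332) (B (M (nat_lit 300) (B (L (nat_lit 397) ln12_9_4 ln12_9_4_ok) (M (nat_lit 301) (B (L (nat_lit 269) ln12_12_6 ln12_12_6_ok) (L (nat_lit 333) ln12_13_6 ln12_13_6_ok))))) (M (nat_lit 460) (B (M (nat_lit 331) (B (L (nat_lit 299) ln12_13_7 ln12_13_7_ok) (L (nat_lit 363) ln12_14_7 ln12_14_7_ok))) (M (nat_lit 459) (B (L (nat_lit 427) ln12_10_5 ln12_10_5_ok) (L (nat_lit 491) ln12_11_5 ln12_11_5_ok))))))))))) (B c41_n5184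 (B c41_n5208 (B (M (nat_lit 461) (B (M (nat_lit 493) (B (L (nat_lit 525) ln13_16_7 ln13_16_7_ok) (M (nat_lit 364) (B (L (nat_lit 332) ln12_10_4 ln12_10_4_ok) (L (nat_lit 397) ln13_15_7 ln13_15_7_ok))))) (B (M (nat_lit 493) (B (L (nat_lit 525) ln13_16_7 ln13_16_7_ok) (M (nat_lit 364) (B (L (nat_lit 397) ln13_15_7 ln13_15_7_ok) (L (nat_lit 460) ln12_11_4 ln12_11_4_ok))))) (B (M (nat_lit 493) (B (L (nat_lit 525) ln13_16_7 ln13_16_7_ok) (M (nat_lit 397) (B (M (nat_lit 398) (B (L (nat_lit 366) ln13_15_6 ln13_15_6_ok) (M (nat_lit 399) (B (L (nat_lit 427) ln15_12_1 ln15_12_1_ok) (L (nat_lit 400) ln16_12_1 ln16_12_1_ok))))) (M (nat_lit 365) (B (M (nat_lit 460) (B (L (nat_lit 333) ln13_10_5 ln13_10_5_ok) (L (nat_lit 492) ln12_15_6 ln12_15_6_ok))) (M (nat_lit 494) (B (L (nat_lit 462) ln13_11_4 ln13_11_4_ok) (L (nat_lit 526) ln13_12_4 ln13_12_4_ok))))))))) (B (M (nat_lit 493) (B (L (nat_lit 525)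 ln13_16_7 ln13_16_7_ok) (M (nat_lit 364) (B (L (nat_lit 332) ln12_10_4 ln12_10_4_ok) (L (nat_lit 460) ln12_11_4 ln12_11_4_ok))))) (M (nat_lit 364) (B (L (nat_lit 332) ln12_10_4 ln12_10_4_ok) (M (nat_lit 460) (B (M (nat_lit 365) (B (L (nat_lit 333) ln12_14_6 ln12_14_6_ok) (M (nat_lit 492) (B (L (nat_lit 397) ln12_15_6 ln12_15_6_ok) (M (nat_lit 363) (B (L (nat_lit 331) ln12_14_7 ln12_14_7_ok) (L (nat_lit 395) ln12_15_7 ln12_15_7_ok))))))) (B (M (nat_lit 492) (B (M (nat_lit 491) (B (L (nat_lit 459) ln12_11_5 ln12_11_5_ok) (L (nat_lit 523) ln12_12_5 ln12_12_5_ok))) (M (nat_lit 524) (B (L (nat_lit 397) ln12_16_6 ln12_16_6_ok) (L (nat_lit 556) ln12_17_6 ln12_17_6_ok))))) (B (M (nat_lit 492) (B (M (nat_lit 363) (B (L (nat_lit 331) ln12_14_7 ln12_14_7_ok) (L (nat_lit 395) ln12_15_7 ln12_15_7_ok))) (M (nat_lit 491) (B (L (nat_lit 459) ln12_11_5 ln12_11_5_ok) (L (nat_lit 523) ln12_12_5 ln12_12_5_ok)))))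 (M (nat_lit 462) (B (M (nat_lit 463) (B (L (nat_lit 427) ln15_14_3 ln15_14_3_ok) (L (nat_lit 464) ln16_14_3 ln16_14_3_ok))) (M (nat_lit 494) (B (M (nat_lit 365) (B (L (nat_lit 333) ln12_14_6 ln12_14_6_ok) (L (nat_lit 397) ln13_11_4 ln13_11_4_ok))) (M (nat_lit 459) (B (L (nat_lit 491) ln12_11_5 ln12_11_5_ok) (L (nat_lit 495) ln11_14_0 ln11_14_0_ok)))))))))))))))))) (B c41_n5210 (B c41_n5235 c41_n4689)))))))))))))) (nat_lit 1386334847221798047169638878925036799968406779833514899637066259859226863686603287896039777716422623628704219945445734162783797248) (nat_lit 825554280841600030612066890062979222550513942678053886325215411524175799312718597499708473234419825890795782166454660080018041482941651637829265574106778981574268420096) (nat_lit 825554280841600030612066890062979222550513942678053886325215411524175799312718597499708473234419825890795782166454660080018041482941651637829265574106778981574268420096)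 (by decide +kernel)
noncomputable def c41_n5505 : Cert := (M (nat_lit 365) (B (M (nat_lit 366) (B (M (nat_lit 395) (B (L (nat_lit 394) ln10_12_2 ln10_12_2_ok) (M (nat_lit 367) (B (L (nat_lit 368) ln16_11_1 ln16_11_1_ok) (L (nat_lit 398) ln11_12_2 ln11_12_2_ok))))) (B (M (nat_lit 334) (B (L (nat_lit 461) ln13_14_6 ln13_14_6_ok) (M (nat_lit 302) (B (L (nat_lit 270) ln14_8_5 ln14_8_5_ok) (L (nat_lit 398) ln14_9_5 ln14_9_5_ok))))) (M (nat_lit 334) (B (L (nat_lit 461) ln13_14_6 ln13_14_6_ok) (M (nat_lit 302) (B (L (nat_lit 270) ln14_8_5 ln14_8_5_ok) (L (nat_lit 333) ln13_13_6 ln13_13_6_ok)))))))) (B (M (nat_lit 366) (B (M (nat_lit 395) (B (L (nat_lit 394) ln10_12_2 ln10_12_2_ok) (M (nat_lit 367) (B (L (nat_lit 368) ln16_11_1 ln16_11_1_ok) (L (nat_lit 398) ln11_12_2 ln11_12_2_ok))))) (B (M (nat_lit 334) (B (L (nat_lit 461) ln13_14_6 ln13_14_6_ok) (M (nat_lit 302) (B (L (nat_lit 333) ln13_13_6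 ln13_13_6_ok) (L (nat_lit 398) ln14_9_5 ln14_9_5_ok))))) (M (nat_lit 333) (B (M (nat_lit 334) (B (L (nat_lit 302) ln13_13_6 ln13_13_6_ok) (L (nat_lit 461) ln13_14_6 ln13_14_6_ok))) (M (nat_lit 428) (B (L (nat_lit 301) ln13_9_5 ln13_9_5_ok) (L (nat_lit 460) ln13_10_5 ln13_10_5_ok)))))))) (B (M (nat_lit 430) (B (M (nat_lit 462) (B (L (nat_lit 333) ln13_10_4 ln13_10_4_ok) (M (nat_lit 494) (B (L (nat_lit 398) ln14_15_7 ln14_15_7_ok) (L (nat_lit 461) ln13_11_4 ln13_11_4_ok))))) (B (M (nat_lit 395) (B (L (nat_lit 394) ln10_12_0 ln10_12_0_ok) (M (nat_lit 431) (B (L (nat_lit 398) ln11_12_0 ln11_12_0_ok) (L (nat_lit 432) ln16_13_3 ln16_13_3_ok))))) (M (nat_lit 395) (B (L (nat_lit 394) ln10_12_0 ln10_12_0_ok) (M (nat_lit 431) (B (L (nat_lit 428) ln15_13_3 ln15_13_3_ok) (L (nat_lit 432) ln16_13_3 ln16_13_3_ok)))))))) (B (M (nat_lit 366) (B (M (nat_lit 395) (B (L (nat_lit 394) ln10_12_2 ln10_12_2_ok)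 (M (nat_lit 367) (B (L (nat_lit 368) ln16_11_1 ln16_11_1_ok) (L (nat_lit 398) ln11_12_2 ln11_12_2_ok))))) (B (M (nat_lit 334) (B (L (nat_lit 461) ln13_14_6 ln13_14_6_ok) (M (nat_lit 302) (B (L (nat_lit 270) ln14_8_5 ln14_8_5_ok) (L (nat_lit 398) ln14_9_5 ln14_9_5_ok))))) (M (nat_lit 461) (B (L (nat_lit 334) ln13_14_6 ln13_14_6_ok) (M (nat_lit 493) (B (M (nat_lit 492) (B (L (nat_lit 460) ln13_11_5 ln13_11_5_ok) (L (nat_lit 524) ln13_12_5 ln13_12_5_ok))) (M (nat_lit 494) (B (L (nat_lit 462) ln13_11_4 ln13_11_4_ok) (L (nat_lit 526) ln13_12_4 ln13_12_4_ok)))))))))) (B (M (nat_lit 430) (B (M (nat_lit 462) (B (L (nat_lit 333) ln13_10_4 ln13_10_4_ok) (M (nat_lit 494) (B (L (nat_lit 398) ln14_15_7 ln14_15_7_ok) (L (nat_lit 461) ln13_11_4 ln13_11_4_ok))))) (B (M (nat_lit 431) (B (L (nat_lit 432) ln16_13_3 ln16_13_3_ok) (M (nat_lit 395) (B (L (nat_lit 398) ln11_12_0 ln11_12_0_ok) (L (nat_lit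 428) ln15_13_3 ln15_13_3_ok))))) (M (nat_lit 462) (B (L (nat_lit 333) ln13_10_4 ln13_10_4_ok) (M (nat_lit 494) (B (L (nat_lit 461) ln13_11_4 ln13_11_4_ok) (L (nat_lit 526) ln14_16_7 ln14_16_7_ok)))))))) (B (M (nat_lit 333) (B (M (nat_lit 428) (B (L (nat_lit 301) ln13_9_5 ln13_9_5_ok) (L (nat_lit 460) ln13_10_5 ln13_10_5_ok))) (M (nat_lit 461) (B (M (nat_lit 334) (B (L (nat_lit 302) ln13_13_6 ln13_13_6_ok) (L (nat_lit 366) ln13_14_6 ln13_14_6_ok))) (M (nat_lit 462) (B (L (nat_lit 430) ln13_10_4 ln13_10_4_ok) (L (nat_lit 494) ln13_11_4 ln13_11_4_ok))))))) (M (nat_lit 430) (B (M (nat_lit 462) (B (L (nat_lit 333) ln13_10_4 ln13_10_4_ok) (M (nat_lit 494) (B (L (nat_lit 398) ln14_15_7 ln14_15_7_ok) (L (nat_lit 526) ln14_16_7 ln14_16_7_ok))))) (B (M (nat_lit 395) (B (L (nat_lit 394) ln10_12_0 ln10_12_0_ok) (M (nat_lit 431) (B (L (nat_lit 398) ln11_12_0 ln11_12_0_ok) (L (nat_lit 432) ln16_13_3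 ln16_13_3_ok))))) (M (nat_lit 395) (B (L (nat_lit 394) ln10_12_0 ln10_12_0_ok) (M (nat_lit 431) (B (L (nat_lit 428) ln15_13_3 ln15_13_3_ok) (L (nat_lit 432) ln16_13_3 ln16_13_3_ok)))))))))))))))
noncomputable def c41_n5577 : Cert := (M (nat_lit 461) (B (M (nat_lit 364) (B (L (nat_lit 493) ln13_15_7 ln13_15_7_ok) (M (nat_lit 332) (B (L (nat_lit 300) ln12_9_4 ln12_9_4_ok) (L (nat_lit 428) ln12_10_4 ln12_10_4_ok))))) (B (M (nat_lit 364) (B (L (nat_lit 493) ln13_15_7 ln13_15_7_ok) (M (nat_lit 332) (B (L (nat_lit 365) ln13_14_7 ln13_14_7_ok) (L (nat_lit 428) ln12_10_4 ln12_10_4_ok))))) (B (M (nat_lit 493) (B (L (nat_lit 364) ln13_15_7 ln13_15_7_ok) (M (nat_lit 525) (B (L (nat_lit 428) ln13_16_7 ln13_16_7_ok) (M (nat_lit 524) (B (L (nat_lit 492) ln13_12_5 ln13_12_5_ok) (L (nat_lit 556) ln13_13_5 ln13_13_5_ok))))))) (B (M (nat_lit 493) (B (M (nat_lit 525) (B (L (nat_lit 428) ln13_16_7 ln13_16_7_ok)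 (M (nat_lit 524) (B (L (nat_lit 492) ln13_12_5 ln13_12_5_ok) (L (nat_lit 556) ln13_13_5 ln13_13_5_ok))))) (B (M (nat_lit 365) (B (M (nat_lit 492) (B (L (nat_lit 460) ln13_11_5 ln13_11_5_ok) (L (nat_lit 524) ln13_12_5 ln13_12_5_ok))) (M (nat_lit 494) (B (L (nat_lit 462) ln13_11_4 ln13_11_4_ok) (L (nat_lit 526) ln13_12_4 ln13_12_4_ok))))) (M (nat_lit 525) (B (L (nat_lit 428) ln13_16_7 ln13_16_7_ok) (M (nat_lit 526) (B (L (nat_lit 494) ln13_12_4 ln13_12_4_ok) (L (nat_lit 558) ln13_13_4 ln13_13_4_ok)))))))) (B (M (nat_lit 364) (B (L (nat_lit 493) ln13_15_7 ln13_15_7_ok) (M (nat_lit 332) (B (L (nat_lit 300) ln12_9_4 ln12_9_4_ok) (L (nat_lit 365) ln13_14_7 ln13_14_7_ok))))) (M (nat_lit 364) (B (M (nat_lit 332) (B (L (nat_lit 300) ln12_9_4 ln12_9_4_ok) (L (nat_lit 365) ln13_14_7 ln13_14_7_ok))) (B (M (nat_lit 332) (B (L (nat_lit 365) ln13_14_7 ln13_14_7_ok) (L (nat_lit 428) ln12_10_4 ln12_10_4_ok)))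 (B (M (nat_lit 460) (B (M (nat_lit 492) (B (L (nat_lit 365) ln13_11_5 ln13_11_5_ok) (M (nat_lit 524) (B (L (nat_lit 428) ln12_16_6 ln12_16_6_ok) (L (nat_lit 556) ln12_17_6 ln12_17_6_ok))))) (B (M (nat_lit 428) (B (M (nat_lit 459) (B (L (nat_lit 491) ln12_11_5 ln12_11_5_ok) (M (nat_lit 430) (B (L (nat_lit 431) ln15_13_1 ln15_13_1_ok) (L (nat_lit 458) ln10_14_2 ln10_14_2_ok))))) (M (nat_lit 492) (B (L (nat_lit 524) ln12_16_6 ln12_16_6_ok) (M (nat_lit 363) (B (L (nat_lit 331) ln12_14_7 ln12_14_7_ok) (L (nat_lit 395) ln12_15_7 ln12_15_7_ok))))))) (B (M (nat_lit 430) (B (M (nat_lit 365) (B (L (nat_lit 492) ln13_11_5 ln13_11_5_ok) (M (nat_lit 462) (B (L (nat_lit 333) ln13_10_4 ln13_10_4_ok) (L (nat_lit 494) ln13_11_4 ln13_11_4_ok))))) (M (nat_lit 431) (B (L (nat_lit 432) ln16_13_3 ln16_13_3_ok) (M (nat_lit 395) (B (L (nat_lit 394) ln10_12_0 ln10_12_0_ok) (L (nat_lit 398) ln11_12_0 ln11_12_0_ok)))))))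 (M (nat_lit 462) (B (M (nat_lit 365) (B (L (nat_lit 494) ln13_11_4 ln13_11_4_ok) (M (nat_lit 333) (B (L (nat_lit 428) ln12_14_6 ln12_14_6_ok) (L (nat_lit 430) ln13_10_4 ln13_10_4_ok))))) (B (M (nat_lit 459) (B (M (nat_lit 430) (B (L (nat_lit 458) ln10_14_2 ln10_14_2_ok) (L (nat_lit 431) ln11_14_2 ln11_14_2_ok))) (M (nat_lit 494) (B (L (nat_lit 365) ln13_11_4 ln13_11_4_ok) (L (nat_lit 495) ln11_14_0 ln11_14_0_ok))))) (B (M (nat_lit 459) (B (M (nat_lit 430) (B (L (nat_lit 458) ln10_14_2 ln10_14_2_ok) (L (nat_lit 431) ln11_14_2 ln11_14_2_ok))) (M (nat_lit 491) (B (L (nat_lit 428) ln12_11_5 ln12_11_5_ok) (L (nat_lit 490) ln14_14_1 ln14_14_1_ok))))) (M (nat_lit 459) (B (M (nat_lit 491) (B (L (nat_lit 428) ln12_11_5 ln12_11_5_ok) (L (nat_lit 490) ln14_14_1 ln14_14_1_ok))) (M (nat_lit 494) (B (L (nat_lit 365) ln13_11_4 ln13_11_4_ok) (L (nat_lit 495) ln11_14_0 ln11_14_0_ok))))))))))))) (M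 (nat_lit 332) (B (L (nat_lit 300) ln12_9_4 ln12_9_4_ok) (L (nat_lit 428) ln12_10_4 ln12_10_4_ok)))))))))))))
noncomputable def c41_n5818 : Cert := (M (nat_lit 398) (B (M (nat_lit 395) (B (L (nat_lit 394) ln10_12_0 ln10_12_0_ok) (M (nat_lit 363) (B (L (nat_lit 362) ln14_12_3 ln14_12_3_ok) (M (nat_lit 399) (B (L (nat_lit 364) ln15_12_3 ln15_12_3_ok) (M (nat_lit 367) (B (L (nat_lit 366) ln11_12_2 ln11_12_2_ok) (L (nat_lit 368) ln12_12_2 ln12_12_2_ok))))))))) (B (M (nat_lit 395) (B (L (nat_lit 394) ln10_12_0 ln10_12_0_ok) (M (nat_lit 399) (B (M (nat_lit 367) (B (L (nat_lit 366) ln11_12_2 ln11_12_2_ok) (L (nat_lit 368) ln12_12_2 ln12_12_2_ok))) (M (nat_lit 400) (B (L (nat_lit 428) ln16_12_1 ln16_12_1_ok) (L (nat_lit 401) ln17_12_1 ln17_12_1_ok))))))) (B (M (nat_lit 395) (B (L (nat_lit 394) ln10_12_0 ln10_12_0_ok) (M (nat_lit 399) (B (M (nat_lit 363) (B (L (nat_lit 362) ln14_12_3 ln14_12_3_ok)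 (L (nat_lit 364) ln15_12_3 ln15_12_3_ok))) (M (nat_lit 400) (B (L (nat_lit 428) ln16_12_1 ln16_12_1_ok) (L (nat_lit 401) ln17_12_1 ln17_12_1_ok))))))) (B (M (nat_lit 399) (B (M (nat_lit 400) (B (L (nat_lit 428) ln16_12_1 ln16_12_1_ok) (L (nat_lit 401) ln17_12_1 ln17_12_1_ok))) (M (nat_lit 395) (B (M (nat_lit 363) (B (L (nat_lit 362) ln14_12_3 ln14_12_3_ok) (L (nat_lit 364) ln15_12_3 ln15_12_3_ok))) (M (nat_lit 367) (B (L (nat_lit 366) ln11_12_2 ln11_12_2_ok) (L (nat_lit 368) ln12_12_2 ln12_12_2_ok))))))) (B (M (nat_lit 462) (B (M (nat_lit 365) (B (L (nat_lit 333) ln13_10_4 ln13_10_4_ok) (L (nat_lit 494) ln14_15_7 ln14_15_7_ok))) (B (M (nat_lit 494) (B (L (nat_lit 365) ln14_15_7 ln14_15_7_ok) (L (nat_lit 526) ln14_16_7 ln14_16_7_ok))) (B (M (nat_lit 399) (B (M (nat_lit 367) (B (L (nat_lit 368) ln12_12_2 ln12_12_2_ok) (L (nat_lit 494) ln14_15_6 ln14_15_6_ok))) (M (nat_lit 400) (B (L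 (nat_lit 428) ln16_12_1 ln16_12_1_ok) (L (nat_lit 401) ln17_12_1 ln17_12_1_ok))))) (M (nat_lit 366) (B (M (nat_lit 365) (B (L (nat_lit 333) ln14_14_7 ln14_14_7_ok) (M (nat_lit 367) (B (L (nat_lit 335) ln14_14_6 ln14_14_6_ok) (L (nat_lit 368) ln16_11_1 ln16_11_1_ok))))) (B (M (nat_lit 367) (B (L (nat_lit 335) ln14_14_6 ln14_14_6_ok) (M (nat_lit 368) (B (L (nat_lit 365) ln16_11_1 ln16_11_1_ok) (L (nat_lit 399) ln12_12_2 ln12_12_2_ok))))) (B (M (nat_lit 333) (B (L (nat_lit 365) ln14_14_7 ln14_14_7_ok) (M (nat_lit 334) (B (L (nat_lit 301) ln14_13_7 ln14_13_7_ok) (L (nat_lit 302) ln14_9_5 ln14_9_5_ok))))) (M (nat_lit 399) (B (M (nat_lit 367) (B (L (nat_lit 335) ln14_14_6 ln14_14_6_ok) (L (nat_lit 368) ln12_12_2 ln12_12_2_ok))) (M (nat_lit 400) (B (L (nat_lit 428) ln16_12_1 ln16_12_1_ok) (L (nat_lit 401) ln17_12_1 ln17_12_1_ok))))))))))))) (M (nat_lit 462) (B (M (nat_lit 365) (B (L (nat_lit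 333) ln13_10_4 ln13_10_4_ok) (L (nat_lit 494) ln14_15_7 ln14_15_7_ok))) (B (M (nat_lit 494) (B (L (nat_lit 365) ln14_15_7 ln14_15_7_ok) (L (nat_lit 526) ln14_16_7 ln14_16_7_ok))) (B (M (nat_lit 494) (B (L (nat_lit 526) ln14_16_7 ln14_16_7_ok) (M (nat_lit 366) (B (M (nat_lit 367) (B (L (nat_lit 335) ln14_14_6 ln14_14_6_ok) (L (nat_lit 395) ln11_12_2 ln11_12_2_ok))) (M (nat_lit 495) (B (L (nat_lit 463) ln14_11_4 ln14_11_4_ok) (L (nat_lit 527) ln14_12_4 ln14_12_4_ok))))))) (M (nat_lit 333) (B (L (nat_lit 365) ln13_10_4 ln13_10_4_ok) (M (nat_lit 366) (B (M (nat_lit 334) (B (L (nat_lit 301) ln14_13_7 ln14_13_7_ok) (L (nat_lit 302) ln14_9_5 ln14_9_5_ok))) (M (nat_lit 395) (B (L (nat_lit 367) ln11_12_2 ln11_12_2_ok) (L (nat_lit 394) ln10_12_0 ln10_12_0_ok)))))))))))))))))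
theorem c41_s5819 : Sem (nat_lit 1386334847544579281930502452632026696468783264124728123740719198963059283254184240648144927045128292788721448874933630659377233920) (nat_lit 659020575538765399485679705189354129614854624158858878925815266507315299278061387999664698719778968187095433172863228971337942788896130966961843943008223887360) (nat_lit 659020575538765399485679705189354129614854624158858878925815266507315299278061387999664698719778968187095433172863228971337942788896130966961843943008223887360) :=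
  sem_of_chk (M (nat_lit 430) (B (M (nat_lit 431) (B (L (nat_lit 432) ln16_13_3 ln16_13_3_ok) (M (nat_lit 395) (B (L (nat_lit 394) ln10_12_0 ln10_12_0_ok) (L (nat_lit 398) ln11_12_0 ln11_12_0_ok))))) (B (M (nat_lit 431) (B (L (nat_lit 432) ln16_13_3 ln16_13_3_ok) (M (nat_lit 395) (B (L (nat_lit 398) ln11_12_0 ln11_12_0_ok) (L (nat_lit 428) ln15_13_3 ln15_13_3_ok))))) (B (M (nat_lit 399) (B (M (nat_lit 431) (B (L (nat_lit 432) ln16_13_3 ln16_13_3_ok) (M (nat_lit 428) (B (L (nat_lit 400) ln12_13_2 ln12_13_2_ok) (M (nat_lit 460) (B (L (nat_lit 459) ln15_13_1 ln15_13_1_ok) (M (nat_lit 365) (B (L (nat_lit 333) ln13_10_5 ln13_10_5_ok) (L (nat_lit 492) ln12_15_6 ln12_15_6_ok))))))))) (B (M (nat_lit 400) (B (M (nat_lit 398) (B (L (nat_lit 428) ln16_12_1 ln16_12_1_ok) (L (nat_lit 401) ln17_12_1 ln17_12_1_ok))) (B (M (nat_lit 431) (B (L (nat_lit 432) ln16_13_3 ln16_13_3_ok) (L (nat_lit 428)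 ln12_13_2 ln12_13_2_ok))) (M (nat_lit 398) (B (L (nat_lit 401) ln17_12_1 ln17_12_1_ok) (M (nat_lit 432) (B (L (nat_lit 431) ln12_12_0 ln12_12_0_ok) (L (nat_lit 433) ln13_12_0 ln13_12_0_ok)))))))) (B (M (nat_lit 462) (B (M (nat_lit 494) (B (L (nat_lit 526) ln14_16_7 ln14_16_7_ok) (M (nat_lit 398) (B (L (nat_lit 365) ln14_15_7 ln14_15_7_ok) (L (nat_lit 367) ln14_15_6 ln14_15_6_ok))))) (B (M (nat_lit 367) (B (M (nat_lit 431) (B (L (nat_lit 335) ln15_10_5 ln15_10_5_ok) (L (nat_lit 432) ln16_13_3 ln16_13_3_ok))) (M (nat_lit 398) (B (L (nat_lit 368) ln12_12_2 ln12_12_2_ok) (L (nat_lit 494) ln14_15_6 ln14_15_6_ok))))) (B (M (nat_lit 494) (B (L (nat_lit 526) ln14_16_7 ln14_16_7_ok) (M (nat_lit 365) (B (L (nat_lit 333) ln13_10_4 ln13_10_4_ok) (L (nat_lit 398) ln14_15_7 ln14_15_7_ok))))) (B (M (nat_lit 431) (B (L (nat_lit 432) ln16_13_3 ln16_13_3_ok) (M (nat_lit 494) (B (L (nat_lit 526) ln14_16_7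 ln14_16_7_ok) (M (nat_lit 367) (B (L (nat_lit 335) ln15_10_5 ln15_10_5_ok) (L (nat_lit 463) ln15_11_5 ln15_11_5_ok))))))) (M (nat_lit 365) (B (L (nat_lit 333) ln13_10_4 ln13_10_4_ok) (M (nat_lit 367) (B (M (nat_lit 431) (B (L (nat_lit 335) ln15_10_5 ln15_10_5_ok) (L (nat_lit 432) ln16_13_3 ln16_13_3_ok))) (M (nat_lit 368) (B (L (nat_lit 366) ln16_11_1 ln16_11_1_ok) (L (nat_lit 398) ln12_12_2 ln12_12_2_ok)))))))))))) (M (nat_lit 398) (B (M (nat_lit 400) (B (L (nat_lit 428) ln16_12_1 ln16_12_1_ok) (L (nat_lit 401) ln17_12_1 ln17_12_1_ok))) (M (nat_lit 367) (B (L (nat_lit 368) ln12_12_2 ln12_12_2_ok) (M (nat_lit 462) (B (L (nat_lit 494) ln14_15_6 ln14_15_6_ok) (M (nat_lit 335) (B (L (nat_lit 303) ln15_9_5 ln15_9_5_ok) (L (nat_lit 366) ln14_14_6 ln14_14_6_ok))))))))))))) (B (M (nat_lit 431) (B (L (nat_lit 432) ln16_13_3 ln16_13_3_ok) (M (nat_lit 395) (B (L (nat_lit 394) ln10_12_0 ln10_12_0_ok)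 (L (nat_lit 428) ln15_13_3 ln15_13_3_ok))))) c41_n5818))))) (nat_lit 1386334847544579281930502452632026696468783264124728123740719198963059283254184240648144927045128292788721448874933630659377233920) (nat_lit 659020575538765399485679705189354129614854624158858878925815266507315299278061387999664698719778968187095433172863228971337942788896130966961843943008223887360) (nat_lit 659020575538765399485679705189354129614854624158858878925815266507315299278061387999664698719778968187095433172863228971337942788896130966961843943008223887360) (by decide +kernel)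
theorem c41_s5820 : Sem (nat_lit 1386334847221798047169638878925036799968406779833514899637066259859226863686603287896039777716422623628704219945445734162783797248) (nat_lit 1179363258580507391992549214881537234956539333257288917899717694331634534427267657647246965667968648221143718656585732173840565729496036291205488580425041853473968095232) (nat_lit 1179363258580507391992549214881537234956539333257288917899717694331634534427267657647246965667968648221143718656585732173840565729496036291205488580425041853473968095232) :=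
  sem_of_chk (M (nat_lit 397) (B (M (nat_lit 461) (B (M (nat_lit 364) (B (L (nat_lit 493) ln13_15_7 ln13_15_7_ok) (M (nat_lit 332) (B (L (nat_lit 300) ln12_9_4 ln12_9_4_ok) (L (nat_lit 428) ln12_10_4 ln12_10_4_ok))))) (B (M (nat_lit 364) (B (L (nat_lit 493) ln13_15_7 ln13_15_7_ok) (M (nat_lit 332) (B (L (nat_lit 365) ln13_14_7 ln13_14_7_ok) (L (nat_lit 428) ln12_10_4 ln12_10_4_ok))))) (B (M (nat_lit 493) (B (L (nat_lit 364) ln13_15_7 ln13_15_7_ok) (M (nat_lit 525) (B (L (nat_lit 428) ln13_16_7 ln13_16_7_ok) (M (nat_lit 398) (B (L (nat_lit 366) ln13_15_6 ln13_15_6_ok) (L (nat_lit 430) ln13_16_6 ln13_16_6_ok))))))) (B (M (nat_lit 493) (B (M (nat_lit 525) (B (L (nat_lit 428) ln13_16_7 ln13_16_7_ok) (M (nat_lit 398) (B (L (nat_lit 366) ln13_15_6 ln13_15_6_ok) (L (nat_lit 430) ln13_16_6 ln13_16_6_ok))))) (B (M (nat_lit 525) (B (L (nat_lit 428) ln13_16_7 ln13_16_7_ok) (M (nat_lit 524) (B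 (L (nat_lit 492) ln13_12_5 ln13_12_5_ok) (L (nat_lit 556) ln13_13_5 ln13_13_5_ok))))) (M (nat_lit 365) (B (M (nat_lit 366) (B (L (nat_lit 334) ln13_14_6 ln13_14_6_ok) (L (nat_lit 398) ln13_15_6 ln13_15_6_ok))) (M (nat_lit 492) (B (L (nat_lit 460) ln13_11_5 ln13_11_5_ok) (L (nat_lit 524) ln13_12_5 ln13_12_5_ok)))))))) (B (M (nat_lit 364) (B (L (nat_lit 493) ln13_15_7 ln13_15_7_ok) (M (nat_lit 332) (B (L (nat_lit 300) ln12_9_4 ln12_9_4_ok) (L (nat_lit 365) ln13_14_7 ln13_14_7_ok))))) (M (nat_lit 364) (B (M (nat_lit 332) (B (L (nat_lit 300) ln12_9_4 ln12_9_4_ok) (L (nat_lit 365) ln13_14_7 ln13_14_7_ok))) (B (M (nat_lit 332) (B (L (nat_lit 365) ln13_14_7 ln13_14_7_ok) (L (nat_lit 428) ln12_10_4 ln12_10_4_ok))) (B (M (nat_lit 365) (B (M (nat_lit 366) (B (L (nat_lit 334) ln13_14_6 ln13_14_6_ok) (M (nat_lit 367) (B (L (nat_lit 395) ln15_11_1 ln15_11_1_ok) (L (nat_lit 368) ln16_11_1 ln16_11_1_ok)))))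 (M (nat_lit 333) (B (M (nat_lit 460) (B (L (nat_lit 428) ln12_14_6 ln12_14_6_ok) (L (nat_lit 492) ln13_11_5 ln13_11_5_ok))) (M (nat_lit 462) (B (L (nat_lit 430) ln13_10_4 ln13_10_4_ok) (L (nat_lit 494) ln13_11_4 ln13_11_4_ok))))))) (M (nat_lit 332) (B (L (nat_lit 300) ln12_9_4 ln12_9_4_ok) (L (nat_lit 428) ln12_10_4 ln12_10_4_ok))))))))))))) (B (M (nat_lit 365) (B (M (nat_lit 366) (B (M (nat_lit 461) (B (L (nat_lit 334) ln13_14_6 ln13_14_6_ok) (M (nat_lit 493) (B (L (nat_lit 364) ln13_15_7 ln13_15_7_ok) (L (nat_lit 398) ln13_15_6 ln13_15_6_ok))))) (B (M (nat_lit 395) (B (L (nat_lit 394) ln10_12_2 ln10_12_2_ok) (M (nat_lit 367) (B (L (nat_lit 364) ln15_11_1 ln15_11_1_ok) (L (nat_lit 368) ln16_11_1 ln16_11_1_ok))))) (M (nat_lit 395) (B (L (nat_lit 394) ln10_12_2 ln10_12_2_ok) (M (nat_lit 367) (B (L (nat_lit 368) ln16_11_1 ln16_11_1_ok) (L (nat_lit 398) ln11_12_2 ln11_12_2_ok))))))))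 (B (M (nat_lit 461) (B (M (nat_lit 493) (B (L (nat_lit 364) ln13_15_7 ln13_15_7_ok) (M (nat_lit 492) (B (L (nat_lit 460) ln13_11_5 ln13_11_5_ok) (L (nat_lit 524) ln13_12_5 ln13_12_5_ok))))) (B (M (nat_lit 493) (B (M (nat_lit 492) (B (L (nat_lit 460) ln13_11_5 ln13_11_5_ok) (L (nat_lit 524) ln13_12_5 ln13_12_5_ok))) (M (nat_lit 494) (B (L (nat_lit 462) ln13_11_4 ln13_11_4_ok) (L (nat_lit 526) ln13_12_4 ln13_12_4_ok))))) (B (M (nat_lit 493) (B (L (nat_lit 364) ln13_15_7 ln13_15_7_ok) (M (nat_lit 494) (B (L (nat_lit 462) ln13_11_4 ln13_11_4_ok) (L (nat_lit 526) ln13_12_4 ln13_12_4_ok))))) (M (nat_lit 333) (B (M (nat_lit 428) (B (L (nat_lit 301) ln13_9_5 ln13_9_5_ok) (L (nat_lit 460) ln13_10_5 ln13_10_5_ok))) (M (nat_lit 462) (B (L (nat_lit 430) ln13_10_4 ln13_10_4_ok) (L (nat_lit 494) ln13_11_4 ln13_11_4_ok))))))))) (B (M (nat_lit 366) (B (M (nat_lit 395) (B (L (nat_lit 394) ln10_12_2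 ln10_12_2_ok) (M (nat_lit 367) (B (L (nat_lit 368) ln16_11_1 ln16_11_1_ok) (L (nat_lit 398) ln11_12_2 ln11_12_2_ok))))) (B (M (nat_lit 334) (B (L (nat_lit 461) ln13_14_6 ln13_14_6_ok) (M (nat_lit 302) (B (L (nat_lit 270) ln14_8_5 ln14_8_5_ok) (L (nat_lit 398) ln14_9_5 ln14_9_5_ok))))) (M (nat_lit 334) (B (L (nat_lit 461) ln13_14_6 ln13_14_6_ok) (M (nat_lit 302) (B (L (nat_lit 270) ln14_8_5 ln14_8_5_ok) (L (nat_lit 333) ln13_13_6 ln13_13_6_ok)))))))) (M (nat_lit 430) (B (M (nat_lit 462) (B (L (nat_lit 333) ln13_10_4 ln13_10_4_ok) (M (nat_lit 494) (B (L (nat_lit 398) ln14_15_7 ln14_15_7_ok) (L (nat_lit 526) ln14_16_7 ln14_16_7_ok))))) (B (M (nat_lit 395) (B (L (nat_lit 394) ln10_12_0 ln10_12_0_ok) (M (nat_lit 431) (B (L (nat_lit 398) ln11_12_0 ln11_12_0_ok) (L (nat_lit 432) ln16_13_3 ln16_13_3_ok))))) (M (nat_lit 395) (B (L (nat_lit 394) ln10_12_0 ln10_12_0_ok) (M (nat_lit 431) (B (L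 (nat_lit 428) ln15_13_3 ln15_13_3_ok) (L (nat_lit 432) ln16_13_3 ln16_13_3_ok)))))))))))) (B (M (nat_lit 398) (B (M (nat_lit 364) (B (M (nat_lit 399) (B (L (nat_lit 363) ln15_12_3 ln15_12_3_ok) (M (nat_lit 400) (B (L (nat_lit 365) ln16_12_3 ln16_12_3_ok) (L (nat_lit 428) ln16_12_1 ln16_12_1_ok))))) (B (M (nat_lit 461) (B (L (nat_lit 493) ln13_15_7 ln13_15_7_ok) (M (nat_lit 332) (B (L (nat_lit 300) ln12_9_4 ln12_9_4_ok) (L (nat_lit 428) ln12_10_4 ln12_10_4_ok))))) (M (nat_lit 461) (B (L (nat_lit 493) ln13_15_7 ln13_15_7_ok) (M (nat_lit 332) (B (L (nat_lit 300) ln12_9_4 ln12_9_4_ok) (L (nat_lit 365) ln13_14_7 ln13_14_7_ok)))))))) (B (M (nat_lit 364) (B (M (nat_lit 461) (B (L (nat_lit 493) ln13_15_7 ln13_15_7_ok) (M (nat_lit 332) (B (L (nat_lit 365) ln13_14_7 ln13_14_7_ok) (L (nat_lit 428) ln12_10_4 ln12_10_4_ok))))) (B (M (nat_lit 363) (B (L (nat_lit 399) ln15_12_3 ln15_12_3_ok) (M (nat_lit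 362) (B (L (nat_lit 365) ln10_11_0 ln10_11_0_ok) (L (nat_lit 395) ln14_12_3 ln14_12_3_ok))))) (M (nat_lit 395) (B (M (nat_lit 363) (B (L (nat_lit 362) ln14_12_3 ln14_12_3_ok) (L (nat_lit 399) ln15_12_3 ln15_12_3_ok))) (M (nat_lit 430) (B (L (nat_lit 394) ln10_12_0 ln10_12_0_ok) (L (nat_lit 431) ln11_12_0 ln11_12_0_ok)))))))) (B (M (nat_lit 395) (B (M (nat_lit 430) (B (L (nat_lit 394) ln10_12_0 ln10_12_0_ok) (L (nat_lit 431) ln11_12_0 ln11_12_0_ok))) (M (nat_lit 399) (B (M (nat_lit 363) (B (L (nat_lit 362) ln14_12_3 ln14_12_3_ok) (L (nat_lit 364) ln15_12_3 ln15_12_3_ok))) (M (nat_lit 367) (B (L (nat_lit 366) ln11_12_2 ln11_12_2_ok) (L (nat_lit 368) ln12_12_2 ln12_12_2_ok))))))) (B (M (nat_lit 366) (B (M (nat_lit 461) (B (L (nat_lit 493) ln13_15_6 ln13_15_6_ok) (M (nat_lit 334) (B (L (nat_lit 302) ln14_9_5 ln14_9_5_ok) (L (nat_lit 430) ln14_10_5 ln14_10_5_ok))))) (M (nat_lit 367) (B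 (L (nat_lit 395) ln11_12_2 ln11_12_2_ok) (M (nat_lit 368) (B (L (nat_lit 369) ln17_11_1 ln17_11_1_ok) (L (nat_lit 399) ln12_12_2 ln12_12_2_ok))))))) (M (nat_lit 366) (B (M (nat_lit 367) (B (L (nat_lit 395) ln11_12_2 ln11_12_2_ok) (M (nat_lit 368) (B (L (nat_lit 365) ln16_11_1 ln16_11_1_ok) (L (nat_lit 369) ln17_11_1 ln17_11_1_ok))))) (M (nat_lit 461) (B (L (nat_lit 493) ln13_15_6 ln13_15_6_ok) (M (nat_lit 334) (B (L (nat_lit 302) ln14_9_5 ln14_9_5_ok) (L (nat_lit 430) ln14_10_5 ln14_10_5_ok)))))))))))) (B (M (nat_lit 461) (B (M (nat_lit 364) (B (L (nat_lit 493) ln13_15_7 ln13_15_7_ok) (M (nat_lit 332) (B (L (nat_lit 365) ln13_14_7 ln13_14_7_ok) (L (nat_lit 428) ln12_10_4 ln12_10_4_ok))))) (B (M (nat_lit 493) (B (L (nat_lit 364) ln13_15_7 ln13_15_7_ok) (M (nat_lit 525) (B (L (nat_lit 428) ln13_16_7 ln13_16_7_ok) (M (nat_lit 398) (B (L (nat_lit 366) ln13_15_6 ln13_15_6_ok) (L (nat_lit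 430) ln13_16_6 ln13_16_6_ok))))))) (B (M (nat_lit 493) (B (M (nat_lit 525) (B (L (nat_lit 428) ln13_16_7 ln13_16_7_ok) (M (nat_lit 398) (B (L (nat_lit 366) ln13_15_6 ln13_15_6_ok) (L (nat_lit 430) ln13_16_6 ln13_16_6_ok))))) (M (nat_lit 365) (B (M (nat_lit 492) (B (L (nat_lit 460) ln13_11_5 ln13_11_5_ok) (L (nat_lit 524) ln13_12_5 ln13_12_5_ok))) (M (nat_lit 494) (B (L (nat_lit 462) ln13_11_4 ln13_11_4_ok) (L (nat_lit 526) ln13_12_4 ln13_12_4_ok))))))) (B (M (nat_lit 364) (B (L (nat_lit 493) ln13_15_7 ln13_15_7_ok) (M (nat_lit 332) (B (L (nat_lit 300) ln12_9_4 ln12_9_4_ok) (L (nat_lit 365) ln13_14_7 ln13_14_7_ok))))) (M (nat_lit 364) (B (M (nat_lit 332) (B (L (nat_lit 300) ln12_9_4 ln12_9_4_ok) (L (nat_lit 365) ln13_14_7 ln13_14_7_ok))) (B (M (nat_lit 332) (B (L (nat_lit 365) ln13_14_7 ln13_14_7_ok) (L (nat_lit 428) ln12_10_4 ln12_10_4_ok))) (B (M (nat_lit 460) (B (M (nat_lit 492)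 (B (L (nat_lit 365) ln13_11_5 ln13_11_5_ok) (M (nat_lit 524) (B (L (nat_lit 428) ln12_16_6 ln12_16_6_ok) (L (nat_lit 556) ln12_17_6 ln12_17_6_ok))))) (B (M (nat_lit 428) (B (M (nat_lit 459) (B (L (nat_lit 491) ln12_11_5 ln12_11_5_ok) (M (nat_lit 430) (B (L (nat_lit 431) ln15_13_1 ln15_13_1_ok) (L (nat_lit 458) ln10_14_2 ln10_14_2_ok))))) (M (nat_lit 492) (B (L (nat_lit 524) ln12_16_6 ln12_16_6_ok) (M (nat_lit 363) (B (L (nat_lit 331) ln12_14_7 ln12_14_7_ok) (L (nat_lit 395) ln12_15_7 ln12_15_7_ok))))))) (B (M (nat_lit 430) (B (M (nat_lit 365) (B (L (nat_lit 492) ln13_11_5 ln13_11_5_ok) (M (nat_lit 462) (B (L (nat_lit 333) ln13_10_4 ln13_10_4_ok) (L (nat_lit 494) ln13_11_4 ln13_11_4_ok))))) (M (nat_lit 431) (B (L (nat_lit 432) ln16_13_3 ln16_13_3_ok) (M (nat_lit 395) (B (L (nat_lit 394) ln10_12_0 ln10_12_0_ok) (L (nat_lit 398) ln11_12_0 ln11_12_0_ok))))))) (M (nat_lit 462) (B (M (nat_lit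 365) (B (L (nat_lit 494) ln13_11_4 ln13_11_4_ok) (M (nat_lit 333) (B (L (nat_lit 428) ln12_14_6 ln12_14_6_ok) (L (nat_lit 430) ln13_10_4 ln13_10_4_ok))))) (B (M (nat_lit 459) (B (M (nat_lit 430) (B (L (nat_lit 458) ln10_14_2 ln10_14_2_ok) (L (nat_lit 431) ln11_14_2 ln11_14_2_ok))) (M (nat_lit 494) (B (L (nat_lit 365) ln13_11_4 ln13_11_4_ok) (L (nat_lit 495) ln11_14_0 ln11_14_0_ok))))) (B (M (nat_lit 459) (B (M (nat_lit 430) (B (L (nat_lit 458) ln10_14_2 ln10_14_2_ok) (L (nat_lit 431) ln11_14_2 ln11_14_2_ok))) (M (nat_lit 491) (B (L (nat_lit 428) ln12_11_5 ln12_11_5_ok) (L (nat_lit 490) ln14_14_1 ln14_14_1_ok))))) (M (nat_lit 459) (B (M (nat_lit 491) (B (L (nat_lit 428) ln12_11_5 ln12_11_5_ok) (L (nat_lit 490) ln14_14_1 ln14_14_1_ok))) (M (nat_lit 494) (B (L (nat_lit 365) ln13_11_4 ln13_11_4_ok) (L (nat_lit 495) ln11_14_0 ln11_14_0_ok))))))))))))) (M (nat_lit 332) (B (L (nat_lit 300)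 ln12_9_4 ln12_9_4_ok) (L (nat_lit 428) ln12_10_4 ln12_10_4_ok)))))))))))) (B c41_n5505 (B (M (nat_lit 395) (B (M (nat_lit 430) (B (L (nat_lit 394) ln10_12_0 ln10_12_0_ok) (M (nat_lit 431) (B (L (nat_lit 428) ln15_13_3 ln15_13_3_ok) (L (nat_lit 432) ln16_13_3 ln16_13_3_ok))))) (B (M (nat_lit 430) (B (M (nat_lit 431) (B (L (nat_lit 398) ln11_12_0 ln11_12_0_ok) (L (nat_lit 428) ln15_13_3 ln15_13_3_ok))) (B (M (nat_lit 431) (B (L (nat_lit 428) ln15_13_3 ln15_13_3_ok) (L (nat_lit 432) ln16_13_3 ln16_13_3_ok))) (B (M (nat_lit 431) (B (L (nat_lit 398) ln11_12_0 ln11_12_0_ok) (L (nat_lit 432) ln16_13_3 ln16_13_3_ok))) (M (nat_lit 398) (B (M (nat_lit 366) (B (L (nat_lit 367) ln11_12_2 ln11_12_2_ok) (M (nat_lit 461) (B (L (nat_lit 334) ln14_10_5 ln14_10_5_ok) (L (nat_lit 493) ln13_15_6 ln13_15_6_ok))))) (M (nat_lit 399) (B (M (nat_lit 363) (B (L (nat_lit 362) ln14_12_3 ln14_12_3_ok) (L (nat_lit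 364) ln15_12_3 ln15_12_3_ok))) (M (nat_lit 400) (B (L (nat_lit 428) ln16_12_1 ln16_12_1_ok) (L (nat_lit 401) ln17_12_1 ln17_12_1_ok))))))))))) (B (M (nat_lit 430) (B (L (nat_lit 394) ln10_12_0 ln10_12_0_ok) (M (nat_lit 431) (B (L (nat_lit 398) ln11_12_0 ln11_12_0_ok) (L (nat_lit 432) ln16_13_3 ln16_13_3_ok))))) (B (M (nat_lit 398) (B (M (nat_lit 399) (B (M (nat_lit 363) (B (L (nat_lit 362) ln14_12_3 ln14_12_3_ok) (L (nat_lit 364) ln15_12_3 ln15_12_3_ok))) (M (nat_lit 367) (B (L (nat_lit 366) ln11_12_2 ln11_12_2_ok) (L (nat_lit 368) ln12_12_2 ln12_12_2_ok))))) (B (M (nat_lit 364) (B (M (nat_lit 461) (B (L (nat_lit 493) ln13_15_7 ln13_15_7_ok) (M (nat_lit 332) (B (L (nat_lit 300) ln12_9_4 ln12_9_4_ok) (L (nat_lit 428) ln12_10_4 ln12_10_4_ok))))) (M (nat_lit 399) (B (L (nat_lit 363) ln15_12_3 ln15_12_3_ok) (M (nat_lit 367) (B (L (nat_lit 366) ln11_12_2 ln11_12_2_ok) (L (nat_lit 368) ln12_12_2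 ln12_12_2_ok))))))) (B (M (nat_lit 399) (B (M (nat_lit 367) (B (L (nat_lit 366) ln11_12_2 ln11_12_2_ok) (L (nat_lit 368) ln12_12_2 ln12_12_2_ok))) (M (nat_lit 400) (B (L (nat_lit 428) ln16_12_1 ln16_12_1_ok) (M (nat_lit 432) (B (L (nat_lit 431) ln12_12_0 ln12_12_0_ok) (L (nat_lit 433) ln13_12_0 ln13_12_0_ok))))))) (B (M (nat_lit 364) (B (M (nat_lit 363) (B (L (nat_lit 362) ln14_12_3 ln14_12_3_ok) (L (nat_lit 399) ln15_12_3 ln15_12_3_ok))) (M (nat_lit 461) (B (L (nat_lit 493) ln13_15_7 ln13_15_7_ok) (M (nat_lit 332) (B (L (nat_lit 300) ln12_9_4 ln12_9_4_ok) (L (nat_lit 428) ln12_10_4 ln12_10_4_ok))))))) (M (nat_lit 394) (B (M (nat_lit 362) (B (L (nat_lit 361) ln13_12_3 ln13_12_3_ok) (L (nat_lit 363) ln14_12_3 ln14_12_3_ok))) (M (nat_lit 393) (B (L (nat_lit 428) ln9_12_0 ln9_12_0_ok) (M (nat_lit 425) (B (L (nat_lit 424) ln12_12_1 ln12_12_1_ok) (L (nat_lit 426) ln13_12_1 ln13_12_1_ok))))))))))))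 (M (nat_lit 394) (B (L (nat_lit 430) ln10_12_0 ln10_12_0_ok) (M (nat_lit 393) (B (L (nat_lit 428) ln9_12_0 ln9_12_0_ok) (M (nat_lit 425) (B (L (nat_lit 424) ln12_12_1 ln12_12_1_ok) (L (nat_lit 426) ln13_12_1 ln13_12_1_ok)))))))))))) (B c41_n5577 (B (M (nat_lit 461) (B (M (nat_lit 364) (B (L (nat_lit 493) ln13_15_7 ln13_15_7_ok) (M (nat_lit 332) (B (L (nat_lit 300) ln12_9_4 ln12_9_4_ok) (L (nat_lit 365) ln13_14_7 ln13_14_7_ok))))) (B (M (nat_lit 364) (B (L (nat_lit 493) ln13_15_7 ln13_15_7_ok) (M (nat_lit 332) (B (L (nat_lit 365) ln13_14_7 ln13_14_7_ok) (L (nat_lit 428) ln12_10_4 ln12_10_4_ok))))) (B (M (nat_lit 493) (B (L (nat_lit 364) ln13_15_7 ln13_15_7_ok) (M (nat_lit 525) (B (L (nat_lit 428) ln13_16_7 ln13_16_7_ok) (M (nat_lit 524) (B (L (nat_lit 492) ln13_12_5 ln13_12_5_ok) (L (nat_lit 556) ln13_13_5 ln13_13_5_ok))))))) (B (M (nat_lit 493) (B (M (nat_lit 525) (B (L (nat_lit 428)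 ln13_16_7 ln13_16_7_ok) (M (nat_lit 524) (B (L (nat_lit 492) ln13_12_5 ln13_12_5_ok) (L (nat_lit 556) ln13_13_5 ln13_13_5_ok))))) (B (M (nat_lit 365) (B (M (nat_lit 492) (B (L (nat_lit 460) ln13_11_5 ln13_11_5_ok) (L (nat_lit 524) ln13_12_5 ln13_12_5_ok))) (M (nat_lit 494) (B (L (nat_lit 462) ln13_11_4 ln13_11_4_ok) (L (nat_lit 526) ln13_12_4 ln13_12_4_ok))))) (M (nat_lit 525) (B (L (nat_lit 428) ln13_16_7 ln13_16_7_ok) (M (nat_lit 526) (B (L (nat_lit 494) ln13_12_4 ln13_12_4_ok) (L (nat_lit 558) ln13_13_4 ln13_13_4_ok)))))))) (M (nat_lit 365) (B (M (nat_lit 460) (B (L (nat_lit 492) ln13_11_5 ln13_11_5_ok) (M (nat_lit 462) (B (L (nat_lit 494) ln13_11_4 ln13_11_4_ok) (M (nat_lit 333) (B (L (nat_lit 428) ln13_10_5 ln13_10_5_ok) (L (nat_lit 430) ln13_10_4 ln13_10_4_ok))))))) (B (M (nat_lit 460) (B (L (nat_lit 492) ln13_11_5 ln13_11_5_ok) (M (nat_lit 459) (B (M (nat_lit 462) (B (L (nat_lit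 494) ln13_11_4 ln13_11_4_ok) (M (nat_lit 430) (B (L (nat_lit 458) ln10_14_2 ln10_14_2_ok) (L (nat_lit 431) ln11_14_2 ln11_14_2_ok))))) (B (M (nat_lit 491) (B (M (nat_lit 364) (B (L (nat_lit 332) ln13_14_7 ln13_14_7_ok) (L (nat_lit 428) ln12_11_5 ln12_11_5_ok))) (M (nat_lit 462) (B (L (nat_lit 494) ln13_11_4 ln13_11_4_ok) (L (nat_lit 490) ln14_14_1 ln14_14_1_ok))))) (M (nat_lit 430) (B (L (nat_lit 458) ln10_14_2 ln10_14_2_ok) (M (nat_lit 431) (B (L (nat_lit 432) ln16_13_3 ln16_13_3_ok) (L (nat_lit 428) ln15_13_1 ln15_13_1_ok)))))))))) (B (M (nat_lit 333) (B (M (nat_lit 334) (B (L (nat_lit 302) ln13_13_6 ln13_13_6_ok) (L (nat_lit 366) ln13_14_6 ln13_14_6_ok))) (M (nat_lit 462) (B (L (nat_lit 430) ln13_10_4 ln13_10_4_ok) (L (nat_lit 494) ln13_11_4 ln13_11_4_ok))))) (M (nat_lit 333) (B (M (nat_lit 334) (B (L (nat_lit 302) ln13_13_6 ln13_13_6_ok) (L (nat_lit 366) ln13_14_6 ln13_14_6_ok)))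 (M (nat_lit 460) (B (L (nat_lit 428) ln13_10_5 ln13_10_5_ok) (L (nat_lit 492) ln13_11_5 ln13_11_5_ok)))))))))))))) (B (M (nat_lit 366) (B (M (nat_lit 398) (B (M (nat_lit 461) (B (L (nat_lit 493) ln13_15_6 ln13_15_6_ok) (M (nat_lit 334) (B (L (nat_lit 302) ln14_9_5 ln14_9_5_ok) (L (nat_lit 430) ln14_10_5 ln14_10_5_ok))))) (B (M (nat_lit 395) (B (L (nat_lit 367) ln11_12_2 ln11_12_2_ok) (M (nat_lit 430) (B (L (nat_lit 394) ln10_12_0 ln10_12_0_ok) (L (nat_lit 431) ln11_12_0 ln11_12_0_ok))))) (M (nat_lit 367) (B (L (nat_lit 395) ln11_12_2 ln11_12_2_ok) (M (nat_lit 368) (B (L (nat_lit 369) ln17_11_1 ln17_11_1_ok) (L (nat_lit 399) ln12_12_2 ln12_12_2_ok)))))))) (B (M (nat_lit 398) (B (M (nat_lit 367) (B (L (nat_lit 395) ln11_12_2 ln11_12_2_ok) (M (nat_lit 368) (B (L (nat_lit 369) ln17_11_1 ln17_11_1_ok) (L (nat_lit 399) ln12_12_2 ln12_12_2_ok))))) (M (nat_lit 461) (B (L (nat_lit 493) ln13_15_6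 ln13_15_6_ok) (M (nat_lit 334) (B (L (nat_lit 365) ln13_14_6 ln13_14_6_ok) (L (nat_lit 430) ln14_10_5 ln14_10_5_ok))))))) (B (M (nat_lit 395) (B (M (nat_lit 394) (B (L (nat_lit 365) ln10_12_2 ln10_12_2_ok) (L (nat_lit 430) ln10_12_0 ln10_12_0_ok))) (B (M (nat_lit 430) (B (L (nat_lit 394) ln10_12_0 ln10_12_0_ok) (M (nat_lit 398) (B (L (nat_lit 367) ln11_12_2 ln11_12_2_ok) (L (nat_lit 431) ln11_12_0 ln11_12_0_ok))))) (M (nat_lit 367) (B (L (nat_lit 398) ln11_12_2 ln11_12_2_ok) (M (nat_lit 365) (B (L (nat_lit 364) ln15_11_1 ln15_11_1_ok) (L (nat_lit 368) ln16_11_1 ln16_11_1_ok)))))))) (B (M (nat_lit 461) (B (M (nat_lit 493) (B (L (nat_lit 364) ln13_15_7 ln13_15_7_ok) (L (nat_lit 398) ln13_15_6 ln13_15_6_ok))) (B (M (nat_lit 398) (B (L (nat_lit 493) ln13_15_6 ln13_15_6_ok) (M (nat_lit 334) (B (L (nat_lit 365) ln13_14_6 ln13_14_6_ok) (L (nat_lit 430) ln14_10_5 ln14_10_5_ok))))) (B (M (nat_lit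 365) (B (L (nat_lit 334) ln13_14_6 ln13_14_6_ok) (M (nat_lit 364) (B (L (nat_lit 332) ln13_14_7 ln13_14_7_ok) (L (nat_lit 493) ln13_15_7 ln13_15_7_ok))))) (M (nat_lit 334) (B (L (nat_lit 365) ln13_14_6 ln13_14_6_ok) (M (nat_lit 398) (B (L (nat_lit 302) ln14_9_5 ln14_9_5_ok) (L (nat_lit 430) ln14_10_5 ln14_10_5_ok))))))))) (M (nat_lit 365) (B (M (nat_lit 395) (B (L (nat_lit 394) ln10_12_2 ln10_12_2_ok) (M (nat_lit 367) (B (L (nat_lit 364) ln15_11_1 ln15_11_1_ok) (L (nat_lit 368) ln16_11_1 ln16_11_1_ok))))) (M (nat_lit 334) (B (L (nat_lit 461) ln13_14_6 ln13_14_6_ok) (M (nat_lit 302) (B (L (nat_lit 270) ln14_8_5 ln14_8_5_ok) (L (nat_lit 333) ln13_13_6 ln13_13_6_ok)))))))))))) (B (M (nat_lit 461) (B (M (nat_lit 364) (B (L (nat_lit 493) ln13_15_7 ln13_15_7_ok) (M (nat_lit 332) (B (L (nat_lit 300) ln12_9_4 ln12_9_4_ok) (L (nat_lit 365) ln13_14_7 ln13_14_7_ok))))) (B (M (nat_lit 364) (B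 (L (nat_lit 493) ln13_15_7 ln13_15_7_ok) (M (nat_lit 332) (B (L (nat_lit 365) ln13_14_7 ln13_14_7_ok) (L (nat_lit 428) ln12_10_4 ln12_10_4_ok))))) (B (M (nat_lit 493) (B (L (nat_lit 364) ln13_15_7 ln13_15_7_ok) (M (nat_lit 525) (B (L (nat_lit 428) ln13_16_7 ln13_16_7_ok) (M (nat_lit 524) (B (L (nat_lit 492) ln13_12_5 ln13_12_5_ok) (L (nat_lit 556) ln13_13_5 ln13_13_5_ok))))))) (B (M (nat_lit 493) (B (M (nat_lit 525) (B (L (nat_lit 428) ln13_16_7 ln13_16_7_ok) (M (nat_lit 524) (B (L (nat_lit 492) ln13_12_5 ln13_12_5_ok) (L (nat_lit 556) ln13_13_5 ln13_13_5_ok))))) (B (M (nat_lit 365) (B (M (nat_lit 492) (B (L (nat_lit 460) ln13_11_5 ln13_11_5_ok) (L (nat_lit 524) ln13_12_5 ln13_12_5_ok))) (M (nat_lit 494) (B (L (nat_lit 462) ln13_11_4 ln13_11_4_ok) (L (nat_lit 526) ln13_12_4 ln13_12_4_ok))))) (M (nat_lit 525) (B (L (nat_lit 428) ln13_16_7 ln13_16_7_ok) (M (nat_lit 526) (B (L (nat_lit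 494) ln13_12_4 ln13_12_4_ok) (L (nat_lit 558) ln13_13_4 ln13_13_4_ok)))))))) (M (nat_lit 365) (B (M (nat_lit 364) (B (L (nat_lit 332) ln13_14_7 ln13_14_7_ok) (M (nat_lit 366) (B (L (nat_lit 334) ln13_14_6 ln13_14_6_ok) (M (nat_lit 367) (B (L (nat_lit 395) ln15_11_1 ln15_11_1_ok) (L (nat_lit 368) ln16_11_1 ln16_11_1_ok))))))) (B (M (nat_lit 333) (B (M (nat_lit 334) (B (L (nat_lit 302) ln13_13_6 ln13_13_6_ok) (L (nat_lit 366) ln13_14_6 ln13_14_6_ok))) (M (nat_lit 460) (B (L (nat_lit 428) ln13_10_5 ln13_10_5_ok) (L (nat_lit 492) ln13_11_5 ln13_11_5_ok))))) (M (nat_lit 333) (B (M (nat_lit 332) (B (L (nat_lit 300) ln13_13_7 ln13_13_7_ok) (L (nat_lit 364) ln13_14_7 ln13_14_7_ok))) (M (nat_lit 460) (B (L (nat_lit 428) ln13_10_5 ln13_10_5_ok) (L (nat_lit 492) ln13_11_5 ln13_11_5_ok))))))))))))) (K (nat_lit 1386334847544579281930502452632026696468783264124728123740719198963059283254184240648144927045128292788721448874933630659377233920)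 (nat_lit 659020575538765399485679705189354129614854624158858878925815266507315299278061387999664698719778968187095433172863228971337942788896130966961843943008223887360) (nat_lit 659020575538765399485679705189354129614854624158858878925815266507315299278061387999664698719778968187095433172863228971337942788896130966961843943008223887360) c41_s5819)))))))))))) (nat_lit 1386334847221798047169638878925036799968406779833514899637066259859226863686603287896039777716422623628704219945445734162783797248) (nat_lit 1179363258580507391992549214881537234956539333257288917899717694331634534427267657647246965667968648221143718656585732173840565729496036291205488580425041853473968095232) (nat_lit 1179363258580507391992549214881537234956539333257288917899717694331634534427267657647246965667968648221143718656585732173840565729496036291205488580425041853473968095232) (by decide +kernel)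
noncomputable def c41_n5944 : Cert := (M (nat_lit 461) (B (M (nat_lit 364) (B (L (nat_lit 493) ln13_15_7 ln13_15_7_ok) (M (nat_lit 332) (B (L (nat_lit 300) ln12_9_4 ln12_9_4_ok) (L (nat_lit 365) ln13_14_7 ln13_14_7_ok))))) (B (M (nat_lit 493) (B (L (nat_lit 364) ln13_15_7 ln13_15_7_ok) (M (nat_lit 525) (B (M (nat_lit 524) (B (L (nat_lit 492) ln13_12_5 ln13_12_5_ok) (L (nat_lit 556) ln13_13_5 ln13_13_5_ok))) (M (nat_lit 526) (B (L (nat_lit 494) ln13_12_4 ln13_12_4_ok) (L (nat_lit 558) ln13_13_4 ln13_13_4_ok))))))) (B (M (nat_lit 430) (B (M (nat_lit 395) (B (L (nat_lit 394) ln10_12_0 ln10_12_0_ok) (M (nat_lit 431) (B (L (nat_lit 398) ln11_12_0 ln11_12_0_ok) (L (nat_lit 432) ln16_13_3 ln16_13_3_ok))))) (B (M (nat_lit 398) (B (M (nat_lit 366) (B (L (nat_lit 334) ln14_10_5 ln14_10_5_ok) (L (nat_lit 493) ln13_15_6 ln13_15_6_ok))) (M (nat_lit 431) (B (L (nat_lit 395) ln11_12_0 ln11_12_0_ok)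 (L (nat_lit 432) ln16_13_3 ln16_13_3_ok))))) (B (M (nat_lit 460) (B (M (nat_lit 431) (B (L (nat_lit 432) ln16_13_3 ln16_13_3_ok) (M (nat_lit 459) (B (L (nat_lit 458) ln10_14_2 ln10_14_2_ok) (L (nat_lit 462) ln11_14_2 ln11_14_2_ok))))) (M (nat_lit 492) (B (L (nat_lit 365) ln13_11_5 ln13_11_5_ok) (M (nat_lit 524) (B (L (nat_lit 493) ln13_12_5 ln13_12_5_ok) (L (nat_lit 556) ln12_17_6 ln12_17_6_ok))))))) (M (nat_lit 493) (B (M (nat_lit 398) (B (L (nat_lit 366) ln13_15_6 ln13_15_6_ok) (L (nat_lit 525) ln13_16_6 ln13_16_6_ok))) (B (M (nat_lit 525) (B (L (nat_lit 398) ln13_16_6 ln13_16_6_ok) (M (nat_lit 526) (B (L (nat_lit 494) ln13_12_4 ln13_12_4_ok) (L (nat_lit 558) ln13_13_4 ln13_13_4_ok))))) (B (M (nat_lit 525) (B (M (nat_lit 524) (B (L (nat_lit 492) ln13_12_5 ln13_12_5_ok) (L (nat_lit 556) ln13_13_5 ln13_13_5_ok))) (M (nat_lit 526) (B (L (nat_lit 494) ln13_12_4 ln13_12_4_ok) (L (nat_lit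 558) ln13_13_4 ln13_13_4_ok))))) (M (nat_lit 365) (B (M (nat_lit 366) (B (L (nat_lit 334) ln13_14_6 ln13_14_6_ok) (L (nat_lit 398) ln13_15_6 ln13_15_6_ok))) (M (nat_lit 492) (B (L (nat_lit 460) ln13_11_5 ln13_11_5_ok) (L (nat_lit 524) ln13_12_5 ln13_12_5_ok))))))))))))) (M (nat_lit 395) (B (M (nat_lit 430) (B (L (nat_lit 394) ln10_12_0 ln10_12_0_ok) (M (nat_lit 431) (B (L (nat_lit 398) ln11_12_0 ln11_12_0_ok) (L (nat_lit 432) ln16_13_3 ln16_13_3_ok))))) (B (M (nat_lit 398) (B (M (nat_lit 366) (B (L (nat_lit 367) ln11_12_2 ln11_12_2_ok) (M (nat_lit 430) (B (L (nat_lit 334) ln14_10_5 ln14_10_5_ok) (L (nat_lit 431) ln11_12_0 ln11_12_0_ok))))) (M (nat_lit 364) (B (M (nat_lit 332) (B (L (nat_lit 300) ln12_9_4 ln12_9_4_ok) (L (nat_lit 365) ln13_14_7 ln13_14_7_ok))) (M (nat_lit 363) (B (L (nat_lit 362) ln14_12_3 ln14_12_3_ok) (L (nat_lit 399) ln15_12_3 ln15_12_3_ok))))))) (B (M (nat_lit 394)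 (B (L (nat_lit 430) ln10_12_0 ln10_12_0_ok) (M (nat_lit 365) (B (L (nat_lit 366) ln10_12_2 ln10_12_2_ok) (M (nat_lit 364) (B (L (nat_lit 332) ln13_14_7 ln13_14_7_ok) (L (nat_lit 393) ln9_12_2 ln9_12_2_ok))))))) (M (nat_lit 398) (B (M (nat_lit 366) (B (L (nat_lit 367) ln11_12_2 ln11_12_2_ok) (M (nat_lit 334) (B (L (nat_lit 302) ln14_9_5 ln14_9_5_ok) (L (nat_lit 365) ln13_14_6 ln13_14_6_ok))))) (B (M (nat_lit 364) (B (M (nat_lit 332) (B (L (nat_lit 300) ln12_9_4 ln12_9_4_ok) (L (nat_lit 365) ln13_14_7 ln13_14_7_ok))) (M (nat_lit 363) (B (L (nat_lit 362) ln14_12_3 ln14_12_3_ok) (L (nat_lit 399) ln15_12_3 ln15_12_3_ok))))) (M (nat_lit 399) (B (M (nat_lit 363) (B (L (nat_lit 362) ln14_12_3 ln14_12_3_ok) (L (nat_lit 364) ln15_12_3 ln15_12_3_ok))) (M (nat_lit 367) (B (L (nat_lit 366) ln11_12_2 ln11_12_2_ok) (L (nat_lit 368) ln12_12_2 ln12_12_2_ok))))))))))))))))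
theorem c41_s6093 : Sem (nat_lit 5954262830815946494924639916186612279381438054865524503499325227866527167970548189073657983639811400520728604882673162480605386449499455488) (nat_lit 70326751358637178643233288207228048693239256925077829175616654160184669757228499103782339445813914308199473350500137069880434278721669088216495423488) (nat_lit 70326751358637178643233288207228048693239256925077829175616654160184669757228499103782339445813914308199473350500137069880434278721669088216495423488) :=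
  sem_of_chk (M (nat_lit 460) (B (M (nat_lit 365) (B (L (nat_lit 492) ln13_11_5 ln13_11_5_ok) (M (nat_lit 462) (B (L (nat_lit 494) ln13_11_4 ln13_11_4_ok) (M (nat_lit 430) (B (L (nat_lit 333) ln13_10_4 ln13_10_4_ok) (M (nat_lit 431) (B (L (nat_lit 432) ln16_13_3 ln16_13_3_ok) (L (nat_lit 459) ln11_14_2 ln11_14_2_ok))))))))) (B (M (nat_lit 398) (B (M (nat_lit 363) (B (L (nat_lit 399) ln15_12_3 ln15_12_3_ok) (M (nat_lit 362) (B (L (nat_lit 361) ln9_11_0 ln9_11_0_ok) (L (nat_lit 395) ln14_12_3 ln14_12_3_ok))))) (B (M (nat_lit 365) (B (L (nat_lit 492) ln13_11_5 ln13_11_5_ok) (M (nat_lit 399) (B (L (nat_lit 363) ln15_12_3 ln15_12_3_ok) (L (nat_lit 400) ln16_12_3 ln16_12_3_ok))))) (M (nat_lit 395) (B (M (nat_lit 430) (B (L (nat_lit 394) ln10_12_0 ln10_12_0_ok) (L (nat_lit 431) ln11_12_0 ln11_12_0_ok))) (B (M (nat_lit 459) (B (M (nat_lit 427) (B (L (nat_lit 491) ln11_15_6 ln11_15_6_ok) (L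 (nat_lit 426) ln14_12_1 ln14_12_1_ok))) (M (nat_lit 430) (B (L (nat_lit 431) ln11_12_0 ln11_12_0_ok) (L (nat_lit 458) ln10_14_2 ln10_14_2_ok))))) (M (nat_lit 365) (B (L (nat_lit 492) ln13_11_5 ln13_11_5_ok) (M (nat_lit 366) (B (L (nat_lit 367) ln15_11_1 ln15_11_1_ok) (L (nat_lit 394) ln10_12_2 ln10_12_2_ok))))))))))) (B (M (nat_lit 395) (B (M (nat_lit 430) (B (L (nat_lit 394) ln10_12_0 ln10_12_0_ok) (M (nat_lit 431) (B (L (nat_lit 398) ln11_12_0 ln11_12_0_ok) (L (nat_lit 432) ln16_13_3 ln16_13_3_ok))))) (B (M (nat_lit 398) (B (M (nat_lit 363) (B (L (nat_lit 362) ln14_12_3 ln14_12_3_ok) (L (nat_lit 399) ln15_12_3 ln15_12_3_ok))) (M (nat_lit 459) (B (M (nat_lit 427) (B (L (nat_lit 491) ln11_15_6 ln11_15_6_ok) (L (nat_lit 426) ln14_12_1 ln14_12_1_ok))) (M (nat_lit 430) (B (L (nat_lit 431) ln11_12_0 ln11_12_0_ok) (L (nat_lit 458) ln10_14_2 ln10_14_2_ok))))))) (B (M (nat_lit 430) (B (L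 (nat_lit 394) ln10_12_0 ln10_12_0_ok) (M (nat_lit 431) (B (L (nat_lit 432) ln16_13_3 ln16_13_3_ok) (M (nat_lit 459) (B (L (nat_lit 458) ln10_14_2 ln10_14_2_ok) (L (nat_lit 462) ln11_14_2 ln11_14_2_ok))))))) (M (nat_lit 427) (B (M (nat_lit 398) (B (L (nat_lit 426) ln14_12_1 ln14_12_1_ok) (M (nat_lit 363) (B (L (nat_lit 362) ln14_12_3 ln14_12_3_ok) (L (nat_lit 399) ln15_12_3 ln15_12_3_ok))))) (B (M (nat_lit 459) (B (L (nat_lit 491) ln11_15_6 ln11_15_6_ok) (M (nat_lit 426) (B (L (nat_lit 398) ln14_12_1 ln14_12_1_ok) (L (nat_lit 462) ln14_14_3 ln14_14_3_ok))))) (B (M (nat_lit 426) (B (M (nat_lit 425) (B (L (nat_lit 394) ln13_12_1 ln13_12_1_ok) (L (nat_lit 424) ln8_13_2 ln8_13_2_ok))) (M (nat_lit 459) (B (L (nat_lit 491) ln11_15_6 ln11_15_6_ok) (L (nat_lit 462) ln14_14_3 ln14_14_3_ok))))) (M (nat_lit 363) (B (M (nat_lit 362) (B (L (nat_lit 361) ln9_11_0 ln9_11_0_ok) (L (nat_lit 398) ln14_12_3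 ln14_12_3_ok))) (M (nat_lit 459) (B (L (nat_lit 492) ln11_11_4 ln11_11_4_ok) (L (nat_lit 491) ln11_15_6 ln11_15_6_ok))))))))))))) (B (M (nat_lit 395) (B (M (nat_lit 365) (B (L (nat_lit 492) ln13_11_5 ln13_11_5_ok) (M (nat_lit 366) (B (L (nat_lit 367) ln15_11_1 ln15_11_1_ok) (L (nat_lit 394) ln10_12_2 ln10_12_2_ok))))) (B (M (nat_lit 427) (B (M (nat_lit 398) (B (L (nat_lit 426) ln14_12_1 ln14_12_1_ok) (M (nat_lit 363) (B (L (nat_lit 362) ln14_12_3 ln14_12_3_ok) (L (nat_lit 399) ln15_12_3 ln15_12_3_ok))))) (B (M (nat_lit 459) (B (L (nat_lit 491) ln11_15_6 ln11_15_6_ok) (M (nat_lit 426) (B (L (nat_lit 398) ln14_12_1 ln14_12_1_ok) (L (nat_lit 462) ln14_14_3 ln14_14_3_ok))))) (B (M (nat_lit 426) (B (M (nat_lit 425) (B (L (nat_lit 394) ln13_12_1 ln13_12_1_ok) (L (nat_lit 424) ln8_13_2 ln8_13_2_ok))) (M (nat_lit 459) (B (L (nat_lit 491) ln11_15_6 ln11_15_6_ok) (L (nat_lit 462) ln14_14_3 ln14_14_3_ok)))))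 (M (nat_lit 363) (B (M (nat_lit 362) (B (L (nat_lit 361) ln9_11_0 ln9_11_0_ok) (L (nat_lit 398) ln14_12_3 ln14_12_3_ok))) (M (nat_lit 459) (B (L (nat_lit 492) ln11_11_4 ln11_11_4_ok) (L (nat_lit 491) ln11_15_6 ln11_15_6_ok))))))))) (B (M (nat_lit 427) (B (M (nat_lit 459) (B (L (nat_lit 491) ln11_15_6 ln11_15_6_ok) (M (nat_lit 426) (B (L (nat_lit 398) ln14_12_1 ln14_12_1_ok) (L (nat_lit 462) ln14_14_3 ln14_14_3_ok))))) (B (M (nat_lit 459) (B (L (nat_lit 491) ln11_15_6 ln11_15_6_ok) (M (nat_lit 492) (B (L (nat_lit 363) ln11_11_4 ln11_11_4_ok) (L (nat_lit 365) ln13_11_5 ln13_11_5_ok))))) (M (nat_lit 398) (B (L (nat_lit 426) ln14_12_1 ln14_12_1_ok) (M (nat_lit 363) (B (L (nat_lit 362) ln14_12_3 ln14_12_3_ok) (L (nat_lit 399) ln15_12_3 ln15_12_3_ok)))))))) (M (nat_lit 398) (B (M (nat_lit 363) (B (L (nat_lit 362) ln14_12_3 ln14_12_3_ok) (L (nat_lit 399) ln15_12_3 ln15_12_3_ok))) (M (nat_lit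 394) (B (M (nat_lit 365) (B (L (nat_lit 393) ln9_12_2 ln9_12_2_ok) (L (nat_lit 366) ln10_12_2 ln10_12_2_ok))) (M (nat_lit 426) (B (L (nat_lit 425) ln13_12_1 ln13_12_1_ok) (L (nat_lit 427) ln14_12_1 ln14_12_1_ok))))))))))) (B (M (nat_lit 430) (B (M (nat_lit 365) (B (L (nat_lit 492) ln13_11_5 ln13_11_5_ok) (M (nat_lit 462) (B (L (nat_lit 333) ln13_10_4 ln13_10_4_ok) (L (nat_lit 494) ln13_11_4 ln13_11_4_ok))))) (M (nat_lit 431) (B (L (nat_lit 432) ln16_13_3 ln16_13_3_ok) (M (nat_lit 395) (B (L (nat_lit 394) ln10_12_0 ln10_12_0_ok) (L (nat_lit 398) ln11_12_0 ln11_12_0_ok))))))) (M (nat_lit 398) (B (M (nat_lit 363) (B (L (nat_lit 399) ln15_12_3 ln15_12_3_ok) (M (nat_lit 362) (B (L (nat_lit 361) ln9_11_0 ln9_11_0_ok) (L (nat_lit 395) ln14_12_3 ln14_12_3_ok))))) (B (M (nat_lit 363) (B (L (nat_lit 399) ln15_12_3 ln15_12_3_ok) (M (nat_lit 362) (B (L (nat_lit 365) ln10_11_0 ln10_11_0_ok) (L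 (nat_lit 395) ln14_12_3 ln14_12_3_ok))))) (B (M (nat_lit 430) (B (M (nat_lit 431) (B (L (nat_lit 395) ln11_12_0 ln11_12_0_ok) (L (nat_lit 432) ln16_13_3 ln16_13_3_ok))) (M (nat_lit 399) (B (L (nat_lit 363) ln15_12_3 ln15_12_3_ok) (M (nat_lit 400) (B (L (nat_lit 365) ln16_12_3 ln16_12_3_ok) (L (nat_lit 401) ln17_12_1 ln17_12_1_ok))))))) (B (M (nat_lit 395) (B (M (nat_lit 430) (B (L (nat_lit 394) ln10_12_0 ln10_12_0_ok) (L (nat_lit 431) ln11_12_0 ln11_12_0_ok))) (B (M (nat_lit 399) (B (M (nat_lit 367) (B (L (nat_lit 366) ln11_12_2 ln11_12_2_ok) (L (nat_lit 368) ln12_12_2 ln12_12_2_ok))) (M (nat_lit 431) (B (L (nat_lit 430) ln11_12_0 ln11_12_0_ok) (L (nat_lit 432) ln12_12_0 ln12_12_0_ok))))) (M (nat_lit 394) (B (M (nat_lit 365) (B (L (nat_lit 393) ln9_12_2 ln9_12_2_ok) (L (nat_lit 366) ln10_12_2 ln10_12_2_ok))) (M (nat_lit 426) (B (L (nat_lit 425) ln13_12_1 ln13_12_1_ok) (L (nat_lit 427)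 ln14_12_1 ln14_12_1_ok)))))))) (B (M (nat_lit 363) (B (L (nat_lit 399) ln15_12_3 ln15_12_3_ok) (M (nat_lit 362) (B (L (nat_lit 361) ln9_11_0 ln9_11_0_ok) (L (nat_lit 365) ln10_11_0 ln10_11_0_ok))))) (M (nat_lit 395) (B (M (nat_lit 430) (B (L (nat_lit 394) ln10_12_0 ln10_12_0_ok) (L (nat_lit 431) ln11_12_0 ln11_12_0_ok))) (B (M (nat_lit 459) (B (M (nat_lit 427) (B (L (nat_lit 491) ln11_15_6 ln11_15_6_ok) (L (nat_lit 426) ln14_12_1 ln14_12_1_ok))) (M (nat_lit 430) (B (L (nat_lit 431) ln11_12_0 ln11_12_0_ok) (L (nat_lit 458) ln10_14_2 ln10_14_2_ok))))) (M (nat_lit 394) (B (M (nat_lit 365) (B (L (nat_lit 393) ln9_12_2 ln9_12_2_ok) (L (nat_lit 366) ln10_12_2 ln10_12_2_ok))) (M (nat_lit 426) (B (L (nat_lit 425) ln13_12_1 ln13_12_1_ok) (L (nat_lit 427) ln14_12_1 ln14_12_1_ok)))))))))))))))))))) (nat_lit 5954262830815946494924639916186612279381438054865524503499325227866527167970548189073657983639811400520728604882673162480605386449499455488)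 (nat_lit 70326751358637178643233288207228048693239256925077829175616654160184669757228499103782339445813914308199473350500137069880434278721669088216495423488) (nat_lit 70326751358637178643233288207228048693239256925077829175616654160184669757228499103782339445813914308199473350500137069880434278721669088216495423488) (by decide +kernel)
noncomputable def c41_n6142 : Cert := (M (nat_lit 461) (B (M (nat_lit 364) (B (L (nat_lit 493) ln13_15_7 ln13_15_7_ok) (M (nat_lit 332) (B (L (nat_lit 300) ln12_9_4 ln12_9_4_ok) (L (nat_lit 365) ln13_14_7 ln13_14_7_ok))))) (B (M (nat_lit 493) (B (L (nat_lit 364) ln13_15_7 ln13_15_7_ok) (M (nat_lit 525) (B (M (nat_lit 524) (B (L (nat_lit 492) ln13_12_5 ln13_12_5_ok) (L (nat_lit 556) ln13_13_5 ln13_13_5_ok))) (M (nat_lit 526) (B (L (nat_lit 494) ln13_12_4 ln13_12_4_ok) (L (nat_lit 558) ln13_13_4 ln13_13_4_ok))))))) (B (M (nat_lit 430) (B (M (nat_lit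 395) (B (L (nat_lit 394) ln10_12_0 ln10_12_0_ok) (M (nat_lit 431) (B (L (nat_lit 398) ln11_12_0 ln11_12_0_ok) (L (nat_lit 432) ln16_13_3 ln16_13_3_ok))))) (B (M (nat_lit 398) (B (M (nat_lit 431) (B (L (nat_lit 395) ln11_12_0 ln11_12_0_ok) (L (nat_lit 432) ln16_13_3 ln16_13_3_ok))) (M (nat_lit 493) (B (L (nat_lit 366) ln13_15_6 ln13_15_6_ok) (L (nat_lit 525) ln13_16_6 ln13_16_6_ok))))) (B (M (nat_lit 365) (B (M (nat_lit 462) (B (L (nat_lit 333) ln13_10_4 ln13_10_4_ok) (L (nat_lit 494) ln13_11_4 ln13_11_4_ok))) (M (nat_lit 493) (B (M (nat_lit 492) (B (L (nat_lit 460) ln13_11_5 ln13_11_5_ok) (L (nat_lit 524) ln13_12_5 ln13_12_5_ok))) (M (nat_lit 398) (B (L (nat_lit 366) ln13_15_6 ln13_15_6_ok) (L (nat_lit 525) ln13_16_6 ln13_16_6_ok))))))) (M (nat_lit 460) (B (M (nat_lit 431) (B (L (nat_lit 432) ln16_13_3 ln16_13_3_ok) (M (nat_lit 459) (B (L (nat_lit 458) ln10_14_2 ln10_14_2_ok) (L (nat_lit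 462) ln11_14_2 ln11_14_2_ok))))) (M (nat_lit 492) (B (L (nat_lit 365) ln13_11_5 ln13_11_5_ok) (M (nat_lit 524) (B (L (nat_lit 493) ln13_12_5 ln13_12_5_ok) (L (nat_lit 556) ln12_17_6 ln12_17_6_ok))))))))))) (M (nat_lit 364) (B (M (nat_lit 332) (B (L (nat_lit 300) ln12_9_4 ln12_9_4_ok) (L (nat_lit 365) ln13_14_7 ln13_14_7_ok))) (B (M (nat_lit 430) (B (M (nat_lit 395) (B (L (nat_lit 394) ln10_12_0 ln10_12_0_ok) (M (nat_lit 431) (B (L (nat_lit 398) ln11_12_0 ln11_12_0_ok) (L (nat_lit 432) ln16_13_3 ln16_13_3_ok))))) (M (nat_lit 365) (B (L (nat_lit 332) ln13_14_7 ln13_14_7_ok) (M (nat_lit 462) (B (L (nat_lit 333) ln13_10_4 ln13_10_4_ok) (L (nat_lit 494) ln13_11_4 ln13_11_4_ok))))))) (B (K (nat_lit 5954262830815946494924639916186612279381438054865524503499325227866527167970548189073657983639811400520728604882673162480605386449499455488) (nat_lit 70326751358637178643233288207228048693239256925077829175616654160184669757228499103782339445813914308199473350500137069880434278721669088216495423488)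 (nat_lit 70326751358637178643233288207228048693239256925077829175616654160184669757228499103782339445813914308199473350500137069880434278721669088216495423488) c41_s6093) (M (nat_lit 332) (B (L (nat_lit 300) ln12_9_4 ln12_9_4_ok) (M (nat_lit 395) (B (M (nat_lit 430) (B (L (nat_lit 394) ln10_12_0 ln10_12_0_ok) (M (nat_lit 431) (B (L (nat_lit 398) ln11_12_0 ln11_12_0_ok) (L (nat_lit 432) ln16_13_3 ln16_13_3_ok))))) (B (M (nat_lit 398) (B (M (nat_lit 363) (B (L (nat_lit 362) ln14_12_3 ln14_12_3_ok) (L (nat_lit 399) ln15_12_3 ln15_12_3_ok))) (B (M (nat_lit 427) (B (L (nat_lit 426) ln14_12_1 ln14_12_1_ok) (M (nat_lit 363) (B (L (nat_lit 459) ln11_14_6 ln11_14_6_ok) (L (nat_lit 399) ln15_12_3 ln15_12_3_ok))))) (B (M (nat_lit 399) (B (M (nat_lit 367) (B (L (nat_lit 366) ln11_12_2 ln11_12_2_ok) (L (nat_lit 368) ln12_12_2 ln12_12_2_ok))) (M (nat_lit 431) (B (L (nat_lit 430) ln11_12_0 ln11_12_0_ok)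 (L (nat_lit 432) ln12_12_0 ln12_12_0_ok))))) (M (nat_lit 427) (B (L (nat_lit 426) ln14_12_1 ln14_12_1_ok) (M (nat_lit 363) (B (L (nat_lit 459) ln11_14_6 ln11_14_6_ok) (L (nat_lit 362) ln14_12_3 ln14_12_3_ok))))))))) (B (M (nat_lit 394) (B (L (nat_lit 430) ln10_12_0 ln10_12_0_ok) (M (nat_lit 393) (B (M (nat_lit 361) (B (L (nat_lit 360) ln12_12_3 ln12_12_3_ok) (L (nat_lit 362) ln13_12_3 ln13_12_3_ok))) (M (nat_lit 425) (B (L (nat_lit 424) ln12_12_1 ln12_12_1_ok) (L (nat_lit 426) ln13_12_1 ln13_12_1_ok))))))) (M (nat_lit 427) (B (M (nat_lit 459) (B (L (nat_lit 363) ln11_14_6 ln11_14_6_ok) (L (nat_lit 491) ln11_15_6 ln11_15_6_ok))) (M (nat_lit 426) (B (L (nat_lit 398) ln14_12_1 ln14_12_1_ok) (M (nat_lit 425) (B (L (nat_lit 394) ln13_12_1 ln13_12_1_ok) (L (nat_lit 424) ln8_13_2 ln8_13_2_ok)))))))))))))))))))))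
theorem c41_s6332 : Sem (nat_lit 1386334847544579281930502452632026696468783264124728123740719198963059283254184240648144927045128292788721448874933630659377233920) (nat_lit 1179363258141160341643495071931337041079338391680722326067078865064727544680858635520161701472576973115304411195672356740256687084927995320565438280231577860280143577088) (nat_lit 1179363258141160341643495071931337041079338391680722326067078865064727544680858635520161701472576973115304411195672356740256687084927995320565438280231577860280143577088) :=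
  sem_of_chk (M (nat_lit 461) (B (M (nat_lit 430) (B (M (nat_lit 395) (B (L (nat_lit 394) ln10_12_0 ln10_12_0_ok) (M (nat_lit 431) (B (L (nat_lit 398) ln11_12_0 ln11_12_0_ok) (L (nat_lit 432) ln16_13_3 ln16_13_3_ok))))) (B (M (nat_lit 398) (B (M (nat_lit 366) (B (L (nat_lit 334) ln14_10_5 ln14_10_5_ok) (L (nat_lit 493) ln13_15_6 ln13_15_6_ok))) (M (nat_lit 431) (B (L (nat_lit 395) ln11_12_0 ln11_12_0_ok) (L (nat_lit 432) ln16_13_3 ln16_13_3_ok))))) (B (M (nat_lit 365) (B (M (nat_lit 462) (B (L (nat_lit 333) ln13_10_4 ln13_10_4_ok) (L (nat_lit 494) ln13_11_4 ln13_11_4_ok))) (M (nat_lit 493) (B (M (nat_lit 366) (B (L (nat_lit 334) ln13_14_6 ln13_14_6_ok) (L (nat_lit 398) ln13_15_6 ln13_15_6_ok))) (M (nat_lit 492) (B (L (nat_lit 460) ln13_11_5 ln13_11_5_ok) (L (nat_lit 524) ln13_12_5 ln13_12_5_ok))))))) (M (nat_lit 460) (B (M (nat_lit 431) (B (L (nat_lit 432) ln16_13_3 ln16_13_3_ok) (M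 (nat_lit 459) (B (L (nat_lit 458) ln10_14_2 ln10_14_2_ok) (L (nat_lit 462) ln11_14_2 ln11_14_2_ok))))) (M (nat_lit 492) (B (L (nat_lit 365) ln13_11_5 ln13_11_5_ok) (M (nat_lit 524) (B (L (nat_lit 493) ln13_12_5 ln13_12_5_ok) (L (nat_lit 556) ln12_17_6 ln12_17_6_ok))))))))))) (B (M (nat_lit 493) (B (M (nat_lit 525) (B (M (nat_lit 524) (B (L (nat_lit 492) ln13_12_5 ln13_12_5_ok) (L (nat_lit 556) ln13_13_5 ln13_13_5_ok))) (M (nat_lit 526) (B (L (nat_lit 494) ln13_12_4 ln13_12_4_ok) (L (nat_lit 558) ln13_13_4 ln13_13_4_ok))))) (B (M (nat_lit 525) (B (M (nat_lit 398) (B (L (nat_lit 366) ln13_15_6 ln13_15_6_ok) (L (nat_lit 430) ln13_16_6 ln13_16_6_ok))) (M (nat_lit 526) (B (L (nat_lit 494) ln13_12_4 ln13_12_4_ok) (L (nat_lit 558) ln13_13_4 ln13_13_4_ok))))) (B (M (nat_lit 525) (B (M (nat_lit 398) (B (L (nat_lit 366) ln13_15_6 ln13_15_6_ok) (L (nat_lit 430) ln13_16_6 ln13_16_6_ok))) (M (nat_lit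 524) (B (L (nat_lit 492) ln13_12_5 ln13_12_5_ok) (L (nat_lit 556) ln13_13_5 ln13_13_5_ok))))) (M (nat_lit 365) (B (M (nat_lit 366) (B (L (nat_lit 334) ln13_14_6 ln13_14_6_ok) (L (nat_lit 398) ln13_15_6 ln13_15_6_ok))) (M (nat_lit 492) (B (L (nat_lit 460) ln13_11_5 ln13_11_5_ok) (L (nat_lit 524) ln13_12_5 ln13_12_5_ok))))))))) (B (M (nat_lit 493) (B (M (nat_lit 525) (B (M (nat_lit 398) (B (L (nat_lit 366) ln13_15_6 ln13_15_6_ok) (L (nat_lit 430) ln13_16_6 ln13_16_6_ok))) (M (nat_lit 524) (B (L (nat_lit 492) ln13_12_5 ln13_12_5_ok) (L (nat_lit 556) ln13_13_5 ln13_13_5_ok))))) (B (M (nat_lit 525) (B (M (nat_lit 524) (B (L (nat_lit 492) ln13_12_5 ln13_12_5_ok) (L (nat_lit 556) ln13_13_5 ln13_13_5_ok))) (M (nat_lit 526) (B (L (nat_lit 494) ln13_12_4 ln13_12_4_ok) (L (nat_lit 558) ln13_13_4 ln13_13_4_ok))))) (B (M (nat_lit 525) (B (M (nat_lit 398) (B (L (nat_lit 366) ln13_15_6 ln13_15_6_ok)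 (L (nat_lit 430) ln13_16_6 ln13_16_6_ok))) (M (nat_lit 526) (B (L (nat_lit 494) ln13_12_4 ln13_12_4_ok) (L (nat_lit 558) ln13_13_4 ln13_13_4_ok))))) (M (nat_lit 365) (B (M (nat_lit 492) (B (L (nat_lit 460) ln13_11_5 ln13_11_5_ok) (L (nat_lit 524) ln13_12_5 ln13_12_5_ok))) (M (nat_lit 494) (B (L (nat_lit 462) ln13_11_4 ln13_11_4_ok) (L (nat_lit 526) ln13_12_4 ln13_12_4_ok))))))))) (B (M (nat_lit 398) (B (M (nat_lit 366) (B (L (nat_lit 493) ln13_15_6 ln13_15_6_ok) (M (nat_lit 334) (B (L (nat_lit 302) ln14_9_5 ln14_9_5_ok) (L (nat_lit 430) ln14_10_5 ln14_10_5_ok))))) (B (M (nat_lit 430) (B (M (nat_lit 366) (B (L (nat_lit 334) ln14_10_5 ln14_10_5_ok) (L (nat_lit 493) ln13_15_6 ln13_15_6_ok))) (M (nat_lit 395) (B (L (nat_lit 394) ln10_12_0 ln10_12_0_ok) (L (nat_lit 431) ln11_12_0 ln11_12_0_ok))))) (B (M (nat_lit 430) (B (M (nat_lit 395) (B (L (nat_lit 394) ln10_12_0 ln10_12_0_ok) (L (nat_lit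 431) ln11_12_0 ln11_12_0_ok))) (M (nat_lit 493) (B (L (nat_lit 366) ln13_15_6 ln13_15_6_ok) (L (nat_lit 525) ln13_16_6 ln13_16_6_ok))))) (B (M (nat_lit 399) (B (M (nat_lit 432) (B (L (nat_lit 431) ln12_12_0 ln12_12_0_ok) (M (nat_lit 400) (B (L (nat_lit 433) ln13_12_0 ln13_12_0_ok) (M (nat_lit 368) (B (L (nat_lit 367) ln12_12_2 ln12_12_2_ok) (L (nat_lit 369) ln13_12_2 ln13_12_2_ok))))))) (B (M (nat_lit 395) (B (M (nat_lit 430) (B (L (nat_lit 394) ln10_12_0 ln10_12_0_ok) (L (nat_lit 431) ln11_12_0 ln11_12_0_ok))) (B (M (nat_lit 431) (B (L (nat_lit 430) ln11_12_0 ln11_12_0_ok) (L (nat_lit 432) ln12_12_0 ln12_12_0_ok))) (M (nat_lit 394) (B (M (nat_lit 362) (B (L (nat_lit 361) ln13_12_3 ln13_12_3_ok) (L (nat_lit 363) ln14_12_3 ln14_12_3_ok))) (M (nat_lit 426) (B (L (nat_lit 425) ln13_12_1 ln13_12_1_ok) (L (nat_lit 427) ln14_12_1 ln14_12_1_ok)))))))) (B (M (nat_lit 400) (B (M (nat_lit 368)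 (B (L (nat_lit 367) ln12_12_2 ln12_12_2_ok) (L (nat_lit 369) ln13_12_2 ln13_12_2_ok))) (M (nat_lit 401) (B (L (nat_lit 430) ln17_12_1 ln17_12_1_ok) (M (nat_lit 433) (B (L (nat_lit 432) ln13_12_0 ln13_12_0_ok) (L (nat_lit 434) ln14_12_0 ln14_12_0_ok))))))) (M (nat_lit 430) (B (M (nat_lit 395) (B (L (nat_lit 394) ln10_12_0 ln10_12_0_ok) (L (nat_lit 431) ln11_12_0 ln11_12_0_ok))) (M (nat_lit 494) (B (M (nat_lit 367) (B (L (nat_lit 368) ln12_12_2 ln12_12_2_ok) (L (nat_lit 462) ln14_15_6 ln14_15_6_ok))) (M (nat_lit 493) (B (L (nat_lit 526) ln13_12_4 ln13_12_4_ok) (L (nat_lit 525) ln13_16_6 ln13_16_6_ok))))))))))) (B (M (nat_lit 366) (B (L (nat_lit 493) ln13_15_6 ln13_15_6_ok) (M (nat_lit 367) (B (L (nat_lit 395) ln11_12_2 ln11_12_2_ok) (M (nat_lit 368) (B (L (nat_lit 369) ln17_11_1 ln17_11_1_ok) (L (nat_lit 399) ln12_12_2 ln12_12_2_ok))))))) (M (nat_lit 395) (B (M (nat_lit 430) (B (L (nat_lit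 394) ln10_12_0 ln10_12_0_ok) (L (nat_lit 431) ln11_12_0 ln11_12_0_ok))) (B (M (nat_lit 366) (B (L (nat_lit 367) ln11_12_2 ln11_12_2_ok) (M (nat_lit 430) (B (L (nat_lit 334) ln14_10_5 ln14_10_5_ok) (L (nat_lit 431) ln11_12_0 ln11_12_0_ok))))) (M (nat_lit 394) (B (M (nat_lit 362) (B (L (nat_lit 361) ln13_12_3 ln13_12_3_ok) (L (nat_lit 363) ln14_12_3 ln14_12_3_ok))) (M (nat_lit 426) (B (L (nat_lit 425) ln13_12_1 ln13_12_1_ok) (L (nat_lit 427) ln14_12_1 ln14_12_1_ok)))))))))))))) (B (M (nat_lit 430) (B (M (nat_lit 395) (B (L (nat_lit 394) ln10_12_0 ln10_12_0_ok) (M (nat_lit 431) (B (L (nat_lit 398) ln11_12_0 ln11_12_0_ok) (L (nat_lit 432) ln16_13_3 ln16_13_3_ok))))) (B (M (nat_lit 493) (B (M (nat_lit 525) (B (L (nat_lit 398) ln13_16_6 ln13_16_6_ok) (M (nat_lit 524) (B (L (nat_lit 492) ln13_12_5 ln13_12_5_ok) (L (nat_lit 556) ln13_13_5 ln13_13_5_ok))))) (B (M (nat_lit 365) (B (M (nat_lit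 492) (B (L (nat_lit 460) ln13_11_5 ln13_11_5_ok) (L (nat_lit 524) ln13_12_5 ln13_12_5_ok))) (M (nat_lit 494) (B (L (nat_lit 462) ln13_11_4 ln13_11_4_ok) (L (nat_lit 526) ln13_12_4 ln13_12_4_ok))))) (M (nat_lit 525) (B (L (nat_lit 398) ln13_16_6 ln13_16_6_ok) (M (nat_lit 526) (B (L (nat_lit 494) ln13_12_4 ln13_12_4_ok) (L (nat_lit 558) ln13_13_4 ln13_13_4_ok)))))))) (M (nat_lit 460) (B (M (nat_lit 431) (B (L (nat_lit 432) ln16_13_3 ln16_13_3_ok) (M (nat_lit 459) (B (L (nat_lit 458) ln10_14_2 ln10_14_2_ok) (L (nat_lit 462) ln11_14_2 ln11_14_2_ok))))) (M (nat_lit 492) (B (L (nat_lit 365) ln13_11_5 ln13_11_5_ok) (M (nat_lit 524) (B (L (nat_lit 493) ln13_12_5 ln13_12_5_ok) (L (nat_lit 556) ln12_17_6 ln12_17_6_ok)))))))))) (B (M (nat_lit 395) (B (M (nat_lit 394) (B (L (nat_lit 430) ln10_12_0 ln10_12_0_ok) (M (nat_lit 425) (B (L (nat_lit 426) ln13_12_1 ln13_12_1_ok) (M (nat_lit 393) (B (L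 (nat_lit 424) ln12_12_1 ln12_12_1_ok) (M (nat_lit 361) (B (L (nat_lit 360) ln12_12_3 ln12_12_3_ok) (L (nat_lit 362) ln13_12_3 ln13_12_3_ok))))))))) (B (M (nat_lit 365) (B (M (nat_lit 366) (B (L (nat_lit 334) ln13_14_6 ln13_14_6_ok) (L (nat_lit 394) ln10_12_2 ln10_12_2_ok))) (B (M (nat_lit 394) (B (L (nat_lit 366) ln10_12_2 ln10_12_2_ok) (L (nat_lit 430) ln10_12_0 ln10_12_0_ok))) (B (M (nat_lit 430) (B (L (nat_lit 394) ln10_12_0 ln10_12_0_ok) (M (nat_lit 462) (B (L (nat_lit 333) ln13_10_4 ln13_10_4_ok) (L (nat_lit 494) ln13_11_4 ln13_11_4_ok))))) (M (nat_lit 493) (B (M (nat_lit 492) (B (L (nat_lit 460) ln13_11_5 ln13_11_5_ok) (L (nat_lit 524) ln13_12_5 ln13_12_5_ok))) (M (nat_lit 494) (B (L (nat_lit 462) ln13_11_4 ln13_11_4_ok) (L (nat_lit 526) ln13_12_4 ln13_12_4_ok))))))))) (B (M (nat_lit 492) (B (M (nat_lit 460) (B (L (nat_lit 365) ln13_11_5 ln13_11_5_ok) (M (nat_lit 524) (B (L (nat_lit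 493) ln13_12_5 ln13_12_5_ok) (L (nat_lit 556) ln12_17_6 ln12_17_6_ok))))) (B (M (nat_lit 460) (B (M (nat_lit 524) (B (L (nat_lit 493) ln13_12_5 ln13_12_5_ok) (L (nat_lit 556) ln12_17_6 ln12_17_6_ok))) (B (M (nat_lit 459) (B (M (nat_lit 430) (B (L (nat_lit 458) ln10_14_2 ln10_14_2_ok) (M (nat_lit 431) (B (L (nat_lit 432) ln16_13_3 ln16_13_3_ok) (L (nat_lit 462) ln11_14_2 ln11_14_2_ok))))) (M (nat_lit 427) (B (L (nat_lit 363) ln11_11_4 ln11_11_4_ok) (M (nat_lit 524) (B (L (nat_lit 491) ln11_12_4 ln11_12_4_ok) (L (nat_lit 556) ln12_17_7 ln12_17_7_ok))))))) (M (nat_lit 462) (B (M (nat_lit 491) (B (L (nat_lit 463) ln15_14_1 ln15_14_1_ok) (M (nat_lit 490) (B (L (nat_lit 459) ln14_14_1 ln14_14_1_ok) (L (nat_lit 489) ln9_15_2 ln9_15_2_ok))))) (B (M (nat_lit 491) (B (L (nat_lit 463) ln15_14_1 ln15_14_1_ok) (M (nat_lit 490) (B (L (nat_lit 489) ln9_15_2 ln9_15_2_ok) (L (nat_lit 493) ln10_15_2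 ln10_15_2_ok))))) (M (nat_lit 459) (B (M (nat_lit 427) (B (L (nat_lit 363) ln11_11_4 ln11_11_4_ok) (L (nat_lit 426) ln14_14_3 ln14_14_3_ok))) (M (nat_lit 430) (B (L (nat_lit 458) ln10_14_2 ln10_14_2_ok) (L (nat_lit 431) ln11_14_2 ln11_14_2_ok))))))))))) (B (M (nat_lit 493) (B (L (nat_lit 524) ln13_12_5 ln13_12_5_ok) (M (nat_lit 494) (B (L (nat_lit 526) ln13_12_4 ln13_12_4_ok) (M (nat_lit 462) (B (L (nat_lit 365) ln13_11_4 ln13_11_4_ok) (M (nat_lit 463) (B (L (nat_lit 464) ln16_14_1 ln16_14_1_ok) (L (nat_lit 491) ln11_15_2 ln11_15_2_ok))))))))) (M (nat_lit 365) (B (L (nat_lit 460) ln13_11_5 ln13_11_5_ok) (M (nat_lit 333) (B (M (nat_lit 334) (B (L (nat_lit 302) ln13_13_6 ln13_13_6_ok) (L (nat_lit 366) ln13_14_6 ln13_14_6_ok))) (M (nat_lit 462) (B (L (nat_lit 430) ln13_10_4 ln13_10_4_ok) (L (nat_lit 494) ln13_11_4 ln13_11_4_ok))))))))))) (M (nat_lit 365) (B (M (nat_lit 366) (B (L (nat_lit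 334) ln13_14_6 ln13_14_6_ok) (L (nat_lit 394) ln10_12_2 ln10_12_2_ok))) (M (nat_lit 493) (B (M (nat_lit 492) (B (L (nat_lit 460) ln13_11_5 ln13_11_5_ok) (L (nat_lit 524) ln13_12_5 ln13_12_5_ok))) (M (nat_lit 494) (B (L (nat_lit 462) ln13_11_4 ln13_11_4_ok) (L (nat_lit 526) ln13_12_4 ln13_12_4_ok))))))))))) (B (M (nat_lit 493) (B (M (nat_lit 365) (B (M (nat_lit 366) (B (L (nat_lit 334) ln13_14_6 ln13_14_6_ok) (L (nat_lit 398) ln13_15_6 ln13_15_6_ok))) (M (nat_lit 492) (B (L (nat_lit 460) ln13_11_5 ln13_11_5_ok) (L (nat_lit 524) ln13_12_5 ln13_12_5_ok))))) (B (M (nat_lit 525) (B (M (nat_lit 524) (B (L (nat_lit 492) ln13_12_5 ln13_12_5_ok) (L (nat_lit 556) ln13_13_5 ln13_13_5_ok))) (M (nat_lit 526) (B (L (nat_lit 494) ln13_12_4 ln13_12_4_ok) (L (nat_lit 558) ln13_13_4 ln13_13_4_ok))))) (M (nat_lit 365) (B (M (nat_lit 366) (B (L (nat_lit 334) ln13_14_6 ln13_14_6_ok) (L (nat_lit 398) ln13_15_6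 ln13_15_6_ok))) (M (nat_lit 494) (B (L (nat_lit 462) ln13_11_4 ln13_11_4_ok) (L (nat_lit 526) ln13_12_4 ln13_12_4_ok)))))))) (B (M (nat_lit 365) (B (M (nat_lit 333) (B (M (nat_lit 334) (B (L (nat_lit 302) ln13_13_6 ln13_13_6_ok) (L (nat_lit 366) ln13_14_6 ln13_14_6_ok))) (M (nat_lit 462) (B (L (nat_lit 430) ln13_10_4 ln13_10_4_ok) (L (nat_lit 494) ln13_11_4 ln13_11_4_ok))))) (B (M (nat_lit 366) (B (L (nat_lit 334) ln13_14_6 ln13_14_6_ok) (M (nat_lit 395) (B (L (nat_lit 394) ln10_12_2 ln10_12_2_ok) (M (nat_lit 367) (B (L (nat_lit 368) ln16_11_1 ln16_11_1_ok) (L (nat_lit 398) ln11_12_2 ln11_12_2_ok))))))) (M (nat_lit 430) (B (M (nat_lit 462) (B (L (nat_lit 333) ln13_10_4 ln13_10_4_ok) (L (nat_lit 494) ln13_11_4 ln13_11_4_ok))) (M (nat_lit 395) (B (L (nat_lit 394) ln10_12_0 ln10_12_0_ok) (M (nat_lit 431) (B (L (nat_lit 398) ln11_12_0 ln11_12_0_ok) (L (nat_lit 432) ln16_13_3 ln16_13_3_ok))))))))))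 (M (nat_lit 430) (B (M (nat_lit 395) (B (L (nat_lit 394) ln10_12_0 ln10_12_0_ok) (M (nat_lit 431) (B (L (nat_lit 398) ln11_12_0 ln11_12_0_ok) (L (nat_lit 432) ln16_13_3 ln16_13_3_ok))))) (B (M (nat_lit 398) (B (M (nat_lit 366) (B (L (nat_lit 334) ln14_10_5 ln14_10_5_ok) (L (nat_lit 493) ln13_15_6 ln13_15_6_ok))) (M (nat_lit 431) (B (L (nat_lit 395) ln11_12_0 ln11_12_0_ok) (L (nat_lit 432) ln16_13_3 ln16_13_3_ok))))) (B (M (nat_lit 460) (B (M (nat_lit 431) (B (L (nat_lit 432) ln16_13_3 ln16_13_3_ok) (M (nat_lit 459) (B (L (nat_lit 458) ln10_14_2 ln10_14_2_ok) (L (nat_lit 462) ln11_14_2 ln11_14_2_ok))))) (M (nat_lit 492) (B (L (nat_lit 365) ln13_11_5 ln13_11_5_ok) (M (nat_lit 524) (B (L (nat_lit 493) ln13_12_5 ln13_12_5_ok) (L (nat_lit 556) ln12_17_6 ln12_17_6_ok))))))) (M (nat_lit 398) (B (M (nat_lit 366) (B (L (nat_lit 334) ln14_10_5 ln14_10_5_ok) (L (nat_lit 493) ln13_15_6 ln13_15_6_ok)))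 (B (M (nat_lit 493) (B (L (nat_lit 366) ln13_15_6 ln13_15_6_ok) (L (nat_lit 525) ln13_16_6 ln13_16_6_ok))) (B (M (nat_lit 493) (B (L (nat_lit 525) ln13_16_6 ln13_16_6_ok) (M (nat_lit 365) (B (M (nat_lit 333) (B (L (nat_lit 301) ln13_9_4 ln13_9_4_ok) (L (nat_lit 462) ln13_10_4 ln13_10_4_ok))) (M (nat_lit 492) (B (L (nat_lit 460) ln13_11_5 ln13_11_5_ok) (L (nat_lit 524) ln13_12_5 ln13_12_5_ok))))))) (M (nat_lit 395) (B (L (nat_lit 394) ln10_12_0 ln10_12_0_ok) (M (nat_lit 366) (B (L (nat_lit 334) ln14_10_5 ln14_10_5_ok) (L (nat_lit 367) ln11_12_2 ln11_12_2_ok)))))))))))))))))))))) (nat_lit 1386334847544579281930502452632026696468783264124728123740719198963059283254184240648144927045128292788721448874933630659377233920) (nat_lit 1179363258141160341643495071931337041079338391680722326067078865064727544680858635520161701472576973115304411195672356740256687084927995320565438280231577860280143577088)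 (nat_lit 1179363258141160341643495071931337041079338391680722326067078865064727544680858635520161701472576973115304411195672356740256687084927995320565438280231577860280143577088) (by decide +kernel)
noncomputable def c41_n6405 : Cert := (M (nat_lit 395) (B (M (nat_lit 430) (B (L (nat_lit 394) ln10_12_0 ln10_12_0_ok) (M (nat_lit 431) (B (L (nat_lit 398) ln11_12_0 ln11_12_0_ok) (L (nat_lit 432) ln16_13_3 ln16_13_3_ok))))) (B (M (nat_lit 398) (B (M (nat_lit 366) (B (L (nat_lit 367) ln11_12_2 ln11_12_2_ok) (M (nat_lit 430) (B (L (nat_lit 334) ln14_10_5 ln14_10_5_ok) (L (nat_lit 431) ln11_12_0 ln11_12_0_ok))))) (B (M (nat_lit 399) (B (M (nat_lit 363) (B (L (nat_lit 362) ln14_12_3 ln14_12_3_ok) (L (nat_lit 364) ln15_12_3 ln15_12_3_ok))) (M (nat_lit 431) (B (L (nat_lit 430) ln11_12_0 ln11_12_0_ok) (L (nat_lit 432) ln12_12_0 ln12_12_0_ok))))) (M (nat_lit 399) (B (M (nat_lit 363) (B (L (nat_lit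 362) ln14_12_3 ln14_12_3_ok) (L (nat_lit 364) ln15_12_3 ln15_12_3_ok))) (M (nat_lit 367) (B (L (nat_lit 366) ln11_12_2 ln11_12_2_ok) (L (nat_lit 368) ln12_12_2 ln12_12_2_ok)))))))) (B (M (nat_lit 394) (B (L (nat_lit 430) ln10_12_0 ln10_12_0_ok) (M (nat_lit 425) (B (L (nat_lit 426) ln13_12_1 ln13_12_1_ok) (M (nat_lit 393) (B (L (nat_lit 424) ln12_12_1 ln12_12_1_ok) (M (nat_lit 361) (B (L (nat_lit 360) ln12_12_3 ln12_12_3_ok) (L (nat_lit 362) ln13_12_3 ln13_12_3_ok))))))))) (M (nat_lit 426) (B (M (nat_lit 427) (B (L (nat_lit 398) ln14_12_1 ln14_12_1_ok) (M (nat_lit 425) (B (L (nat_lit 394) ln13_12_1 ln13_12_1_ok) (L (nat_lit 424) ln8_13_2 ln8_13_2_ok))))) (B (M (nat_lit 427) (B (L (nat_lit 398) ln14_12_1 ln14_12_1_ok) (M (nat_lit 459) (B (M (nat_lit 460) (B (L (nat_lit 462) ln14_14_3 ln14_14_3_ok) (M (nat_lit 425) (B (L (nat_lit 424) ln8_13_2 ln8_13_2_ok) (L (nat_lit 458) ln13_14_3 ln13_14_3_ok)))))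 (M (nat_lit 364) (B (L (nat_lit 491) ln11_15_6 ln11_15_6_ok) (M (nat_lit 332) (B (L (nat_lit 300) ln12_9_5 ln12_9_5_ok) (L (nat_lit 363) ln11_14_6 ln11_14_6_ok))))))))) (B (M (nat_lit 427) (B (M (nat_lit 425) (B (L (nat_lit 394) ln13_12_1 ln13_12_1_ok) (L (nat_lit 424) ln8_13_2 ln8_13_2_ok))) (B (M (nat_lit 459) (B (M (nat_lit 460) (B (L (nat_lit 462) ln14_14_3 ln14_14_3_ok) (M (nat_lit 425) (B (L (nat_lit 424) ln8_13_2 ln8_13_2_ok) (L (nat_lit 458) ln13_14_3 ln13_14_3_ok))))) (M (nat_lit 364) (B (L (nat_lit 491) ln11_15_6 ln11_15_6_ok) (M (nat_lit 332) (B (L (nat_lit 300) ln12_9_5 ln12_9_5_ok) (L (nat_lit 363) ln11_14_6 ln11_14_6_ok))))))) (B (M (nat_lit 394) (B (L (nat_lit 425) ln13_12_1 ln13_12_1_ok) (M (nat_lit 362) (B (L (nat_lit 361) ln13_12_3 ln13_12_3_ok) (M (nat_lit 459) (B (L (nat_lit 330) ln10_10_4 ln10_10_4_ok) (L (nat_lit 491) ln11_15_7 ln11_15_7_ok))))))) (M (nat_lit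 459) (B (M (nat_lit 364) (B (L (nat_lit 491) ln11_15_6 ln11_15_6_ok) (M (nat_lit 332) (B (L (nat_lit 300) ln12_9_5 ln12_9_5_ok) (L (nat_lit 363) ln11_14_6 ln11_14_6_ok))))) (B (M (nat_lit 491) (B (L (nat_lit 364) ln11_15_6 ln11_15_6_ok) (M (nat_lit 394) (B (L (nat_lit 362) ln11_15_7 ln11_15_7_ok) (L (nat_lit 523) ln11_16_7 ln11_16_7_ok))))) (M (nat_lit 363) (B (M (nat_lit 458) (B (L (nat_lit 331) ln11_10_5 ln11_10_5_ok) (L (nat_lit 490) ln11_11_5 ln11_11_5_ok))) (M (nat_lit 460) (B (L (nat_lit 492) ln11_11_4 ln11_11_4_ok) (L (nat_lit 462) ln14_14_3 ln14_14_3_ok)))))))))))) (B (M (nat_lit 362) (B (M (nat_lit 394) (B (L (nat_lit 361) ln13_12_3 ln13_12_3_ok) (L (nat_lit 425) ln13_12_1 ln13_12_1_ok))) (M (nat_lit 398) (B (L (nat_lit 363) ln14_12_3 ln14_12_3_ok) (L (nat_lit 427) ln14_12_1 ln14_12_1_ok))))) (B (M (nat_lit 427) (B (L (nat_lit 398) ln14_12_1 ln14_12_1_ok) (M (nat_lit 459)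 (B (M (nat_lit 364) (B (L (nat_lit 491) ln11_15_6 ln11_15_6_ok) (M (nat_lit 332) (B (L (nat_lit 300) ln12_9_5 ln12_9_5_ok) (L (nat_lit 363) ln11_14_6 ln11_14_6_ok))))) (B (M (nat_lit 491) (B (L (nat_lit 364) ln11_15_6 ln11_15_6_ok) (M (nat_lit 394) (B (L (nat_lit 362) ln11_15_7 ln11_15_7_ok) (L (nat_lit 523) ln11_16_7 ln11_16_7_ok))))) (M (nat_lit 363) (B (M (nat_lit 458) (B (L (nat_lit 331) ln11_10_5 ln11_10_5_ok) (L (nat_lit 490) ln11_11_5 ln11_11_5_ok))) (M (nat_lit 460) (B (L (nat_lit 492) ln11_11_4 ln11_11_4_ok) (L (nat_lit 462) ln14_14_3 ln14_14_3_ok)))))))))) (M (nat_lit 394) (B (L (nat_lit 425) ln13_12_1 ln13_12_1_ok) (M (nat_lit 362) (B (L (nat_lit 361) ln13_12_3 ln13_12_3_ok) (M (nat_lit 363) (B (L (nat_lit 398) ln14_12_3 ln14_12_3_ok) (M (nat_lit 331) (B (L (nat_lit 299) ln11_9_5 ln11_9_5_ok) (L (nat_lit 458) ln10_14_6 ln10_14_6_ok)))))))))))))))))))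
theorem c41_s6406 : Sem (nat_lit 1386334847544579281930502452632026696468783264124728123740719198963059283254184240648144927045128292788721448874933630659377233920) (nat_lit 1179363258168619532282419175462051702300041246999585238508448830026834004384974623929146015728484590554003434747068207571470527751321017837542731860609578065265088790528) (nat_lit 1179363258168619532282419175462051702300041246999585238508448830026834004384974623929146015728484590554003434747068207571470527751321017837542731860609578065265088790528) :=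
  sem_of_chk (M (nat_lit 461) (B (M (nat_lit 493) (B (L (nat_lit 364) ln13_15_7 ln13_15_7_ok) (M (nat_lit 525) (B (M (nat_lit 398) (B (L (nat_lit 366) ln13_15_6 ln13_15_6_ok) (L (nat_lit 430) ln13_16_6 ln13_16_6_ok))) (M (nat_lit 524) (B (L (nat_lit 492) ln13_12_5 ln13_12_5_ok) (L (nat_lit 556) ln13_13_5 ln13_13_5_ok))))))) (B (M (nat_lit 398) (B (M (nat_lit 493) (B (L (nat_lit 366) ln13_15_6 ln13_15_6_ok) (M (nat_lit 525) (B (L (nat_lit 430) ln13_16_6 ln13_16_6_ok) (M (nat_lit 524) (B (L (nat_lit 492) ln13_12_5 ln13_12_5_ok) (L (nat_lit 556) ln13_13_5 ln13_13_5_ok))))))) (B (M (nat_lit 399) (B (M (nat_lit 432) (B (L (nat_lit 431) ln12_12_0 ln12_12_0_ok) (M (nat_lit 400) (B (L (nat_lit 433) ln13_12_0 ln13_12_0_ok) (M (nat_lit 368) (B (L (nat_lit 367) ln12_12_2 ln12_12_2_ok) (L (nat_lit 369) ln13_12_2 ln13_12_2_ok))))))) (B (M (nat_lit 395) (B (M (nat_lit 430) (B (L (nat_lit 394) ln10_12_0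 ln10_12_0_ok) (L (nat_lit 431) ln11_12_0 ln11_12_0_ok))) (B (M (nat_lit 431) (B (L (nat_lit 430) ln11_12_0 ln11_12_0_ok) (L (nat_lit 432) ln12_12_0 ln12_12_0_ok))) (M (nat_lit 394) (B (M (nat_lit 362) (B (L (nat_lit 361) ln13_12_3 ln13_12_3_ok) (L (nat_lit 363) ln14_12_3 ln14_12_3_ok))) (M (nat_lit 426) (B (L (nat_lit 425) ln13_12_1 ln13_12_1_ok) (L (nat_lit 427) ln14_12_1 ln14_12_1_ok)))))))) (B (M (nat_lit 400) (B (M (nat_lit 368) (B (L (nat_lit 367) ln12_12_2 ln12_12_2_ok) (L (nat_lit 369) ln13_12_2 ln13_12_2_ok))) (M (nat_lit 401) (B (L (nat_lit 430) ln17_12_1 ln17_12_1_ok) (M (nat_lit 433) (B (L (nat_lit 432) ln13_12_0 ln13_12_0_ok) (L (nat_lit 434) ln14_12_0 ln14_12_0_ok))))))) (M (nat_lit 430) (B (M (nat_lit 395) (B (L (nat_lit 394) ln10_12_0 ln10_12_0_ok) (L (nat_lit 431) ln11_12_0 ln11_12_0_ok))) (M (nat_lit 494) (B (M (nat_lit 367) (B (L (nat_lit 368) ln12_12_2 ln12_12_2_ok)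 (L (nat_lit 462) ln14_15_6 ln14_15_6_ok))) (M (nat_lit 493) (B (L (nat_lit 526) ln13_12_4 ln13_12_4_ok) (L (nat_lit 525) ln13_16_6 ln13_16_6_ok))))))))))) (B (M (nat_lit 366) (B (L (nat_lit 493) ln13_15_6 ln13_15_6_ok) (M (nat_lit 367) (B (L (nat_lit 395) ln11_12_2 ln11_12_2_ok) (M (nat_lit 368) (B (L (nat_lit 369) ln17_11_1 ln17_11_1_ok) (L (nat_lit 399) ln12_12_2 ln12_12_2_ok))))))) (M (nat_lit 395) (B (M (nat_lit 430) (B (L (nat_lit 394) ln10_12_0 ln10_12_0_ok) (L (nat_lit 431) ln11_12_0 ln11_12_0_ok))) (B (M (nat_lit 366) (B (L (nat_lit 367) ln11_12_2 ln11_12_2_ok) (M (nat_lit 430) (B (L (nat_lit 334) ln14_10_5 ln14_10_5_ok) (L (nat_lit 431) ln11_12_0 ln11_12_0_ok))))) (M (nat_lit 394) (B (M (nat_lit 362) (B (L (nat_lit 361) ln13_12_3 ln13_12_3_ok) (L (nat_lit 363) ln14_12_3 ln14_12_3_ok))) (M (nat_lit 426) (B (L (nat_lit 425) ln13_12_1 ln13_12_1_ok) (L (nat_lit 427) ln14_12_1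 ln14_12_1_ok)))))))))))) (B (M (nat_lit 493) (B (L (nat_lit 364) ln13_15_7 ln13_15_7_ok) (M (nat_lit 525) (B (M (nat_lit 524) (B (L (nat_lit 492) ln13_12_5 ln13_12_5_ok) (L (nat_lit 556) ln13_13_5 ln13_13_5_ok))) (M (nat_lit 526) (B (L (nat_lit 494) ln13_12_4 ln13_12_4_ok) (L (nat_lit 558) ln13_13_4 ln13_13_4_ok))))))) (B (M (nat_lit 493) (B (L (nat_lit 364) ln13_15_7 ln13_15_7_ok) (M (nat_lit 525) (B (M (nat_lit 398) (B (L (nat_lit 366) ln13_15_6 ln13_15_6_ok) (L (nat_lit 430) ln13_16_6 ln13_16_6_ok))) (M (nat_lit 526) (B (L (nat_lit 494) ln13_12_4 ln13_12_4_ok) (L (nat_lit 558) ln13_13_4 ln13_13_4_ok))))))) c41_n6405))))) (nat_lit 1386334847544579281930502452632026696468783264124728123740719198963059283254184240648144927045128292788721448874933630659377233920) (nat_lit 1179363258168619532282419175462051702300041246999585238508448830026834004384974623929146015728484590554003434747068207571470527751321017837542731860609578065265088790528)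 (nat_lit 1179363258168619532282419175462051702300041246999585238508448830026834004384974623929146015728484590554003434747068207571470527751321017837542731860609578065265088790528) (by decide +kernel)
theorem c41_s6477 : Sem (nat_lit 1386334847544579281930502452632026696468783264124728123740719198963059283254184240648144927045128292788721448874933630659377233920) (nat_lit 1179363258141160341641896736602124099037041632571929104017831156918064487751089081567254383511853603842055532073890231295906259906101488844918682701458131667213495566336) (nat_lit 1179363258141160341641896736602124099037041632571929104017831156918064487751089081567254383511853603842055532073890231295906259906101488844918682701458131667213495566336) :=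
  sem_of_chk (M (nat_lit 461) (B (M (nat_lit 364) (B (L (nat_lit 493) ln13_15_7 ln13_15_7_ok) (M (nat_lit 332) (B (L (nat_lit 300) ln12_9_4 ln12_9_4_ok) (L (nat_lit 365) ln13_14_7 ln13_14_7_ok))))) (B (M (nat_lit 430) (B (M (nat_lit 395) (B (L (nat_lit 394) ln10_12_0 ln10_12_0_ok) (M (nat_lit 431) (B (L (nat_lit 398) ln11_12_0 ln11_12_0_ok) (L (nat_lit 432) ln16_13_3 ln16_13_3_ok))))) (M (nat_lit 365) (B (M (nat_lit 364) (B (L (nat_lit 332) ln13_14_7 ln13_14_7_ok) (L (nat_lit 493) ln13_15_7 ln13_15_7_ok))) (M (nat_lit 462) (B (L (nat_lit 333) ln13_10_4 ln13_10_4_ok) (L (nat_lit 494) ln13_11_4 ln13_11_4_ok))))))) (B (M (nat_lit 493) (B (L (nat_lit 364) ln13_15_7 ln13_15_7_ok) (M (nat_lit 525) (B (M (nat_lit 524) (B (L (nat_lit 492) ln13_12_5 ln13_12_5_ok) (L (nat_lit 556) ln13_13_5 ln13_13_5_ok))) (M (nat_lit 526) (B (L (nat_lit 494) ln13_12_4 ln13_12_4_ok) (L (nat_lit 558) ln13_13_4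 ln13_13_4_ok))))))) (B (M (nat_lit 430) (B (M (nat_lit 395) (B (L (nat_lit 394) ln10_12_0 ln10_12_0_ok) (M (nat_lit 431) (B (L (nat_lit 398) ln11_12_0 ln11_12_0_ok) (L (nat_lit 432) ln16_13_3 ln16_13_3_ok))))) (B (M (nat_lit 493) (B (M (nat_lit 525) (B (L (nat_lit 398) ln13_16_6 ln13_16_6_ok) (M (nat_lit 524) (B (L (nat_lit 492) ln13_12_5 ln13_12_5_ok) (L (nat_lit 556) ln13_13_5 ln13_13_5_ok))))) (B (M (nat_lit 365) (B (M (nat_lit 492) (B (L (nat_lit 460) ln13_11_5 ln13_11_5_ok) (L (nat_lit 524) ln13_12_5 ln13_12_5_ok))) (M (nat_lit 494) (B (L (nat_lit 462) ln13_11_4 ln13_11_4_ok) (L (nat_lit 526) ln13_12_4 ln13_12_4_ok))))) (M (nat_lit 525) (B (L (nat_lit 398) ln13_16_6 ln13_16_6_ok) (M (nat_lit 526) (B (L (nat_lit 494) ln13_12_4 ln13_12_4_ok) (L (nat_lit 558) ln13_13_4 ln13_13_4_ok)))))))) (M (nat_lit 460) (B (M (nat_lit 365) (B (L (nat_lit 492) ln13_11_5 ln13_11_5_ok) (M (nat_lit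 462) (B (L (nat_lit 333) ln13_10_4 ln13_10_4_ok) (L (nat_lit 494) ln13_11_4 ln13_11_4_ok))))) (B (M (nat_lit 431) (B (L (nat_lit 432) ln16_13_3 ln16_13_3_ok) (M (nat_lit 459) (B (L (nat_lit 458) ln10_14_2 ln10_14_2_ok) (L (nat_lit 462) ln11_14_2 ln11_14_2_ok))))) (M (nat_lit 492) (B (L (nat_lit 365) ln13_11_5 ln13_11_5_ok) (M (nat_lit 524) (B (L (nat_lit 493) ln13_12_5 ln13_12_5_ok) (L (nat_lit 556) ln12_17_6 ln12_17_6_ok))))))))))) (M (nat_lit 365) (B (M (nat_lit 333) (B (M (nat_lit 332) (B (L (nat_lit 300) ln13_13_7 ln13_13_7_ok) (L (nat_lit 364) ln13_14_7 ln13_14_7_ok))) (M (nat_lit 462) (B (L (nat_lit 430) ln13_10_4 ln13_10_4_ok) (L (nat_lit 494) ln13_11_4 ln13_11_4_ok))))) (B (M (nat_lit 430) (B (M (nat_lit 462) (B (L (nat_lit 333) ln13_10_4 ln13_10_4_ok) (L (nat_lit 494) ln13_11_4 ln13_11_4_ok))) (M (nat_lit 395) (B (L (nat_lit 394) ln10_12_0 ln10_12_0_ok) (M (nat_lit 431) (B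 (L (nat_lit 398) ln11_12_0 ln11_12_0_ok) (L (nat_lit 432) ln16_13_3 ln16_13_3_ok))))))) (B (M (nat_lit 460) (B (L (nat_lit 492) ln13_11_5 ln13_11_5_ok) (M (nat_lit 427) (B (M (nat_lit 462) (B (L (nat_lit 494) ln13_11_4 ln13_11_4_ok) (M (nat_lit 459) (B (L (nat_lit 426) ln14_14_3 ln14_14_3_ok) (M (nat_lit 430) (B (L (nat_lit 458) ln10_14_2 ln10_14_2_ok) (L (nat_lit 431) ln11_14_2 ln11_14_2_ok))))))) (B (M (nat_lit 459) (B (M (nat_lit 462) (B (L (nat_lit 494) ln13_11_4 ln13_11_4_ok) (M (nat_lit 430) (B (L (nat_lit 458) ln10_14_2 ln10_14_2_ok) (L (nat_lit 431) ln11_14_2 ln11_14_2_ok))))) (B (M (nat_lit 491) (B (M (nat_lit 364) (B (L (nat_lit 332) ln13_14_7 ln13_14_7_ok) (L (nat_lit 395) ln11_15_6 ln11_15_6_ok))) (M (nat_lit 462) (B (L (nat_lit 494) ln13_11_4 ln13_11_4_ok) (L (nat_lit 490) ln14_14_1 ln14_14_1_ok))))) (M (nat_lit 395) (B (M (nat_lit 364) (B (L (nat_lit 332) ln13_14_7 ln13_14_7_ok)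 (L (nat_lit 491) ln11_15_6 ln11_15_6_ok))) (M (nat_lit 430) (B (L (nat_lit 394) ln10_12_0 ln10_12_0_ok) (L (nat_lit 458) ln10_14_2 ln10_14_2_ok)))))))) (B (M (nat_lit 398) (B (M (nat_lit 462) (B (L (nat_lit 494) ln13_11_4 ln13_11_4_ok) (M (nat_lit 426) (B (L (nat_lit 395) ln14_12_1 ln14_12_1_ok) (L (nat_lit 459) ln14_14_3 ln14_14_3_ok))))) (M (nat_lit 364) (B (L (nat_lit 332) ln13_14_7 ln13_14_7_ok) (M (nat_lit 363) (B (L (nat_lit 362) ln10_11_0 ln10_11_0_ok) (L (nat_lit 399) ln15_12_3 ln15_12_3_ok))))))) (M (nat_lit 398) (B (M (nat_lit 364) (B (L (nat_lit 332) ln13_14_7 ln13_14_7_ok) (M (nat_lit 363) (B (L (nat_lit 362) ln10_11_0 ln10_11_0_ok) (L (nat_lit 399) ln15_12_3 ln15_12_3_ok))))) (M (nat_lit 395) (B (L (nat_lit 426) ln14_12_1 ln14_12_1_ok) (M (nat_lit 430) (B (L (nat_lit 394) ln10_12_0 ln10_12_0_ok) (L (nat_lit 431) ln11_12_0 ln11_12_0_ok))))))))))))) (M (nat_lit 333) (B (M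 (nat_lit 332) (B (L (nat_lit 300) ln13_13_7 ln13_13_7_ok) (L (nat_lit 364) ln13_14_7 ln13_14_7_ok))) (B (M (nat_lit 301) (B (M (nat_lit 364) (B (L (nat_lit 269) ln13_8_5 ln13_8_5_ok) (L (nat_lit 332) ln13_14_7 ln13_14_7_ok))) (M (nat_lit 302) (B (L (nat_lit 270) ln13_12_6 ln13_12_6_ok) (L (nat_lit 334) ln13_13_6 ln13_13_6_ok))))) (B (M (nat_lit 301) (B (M (nat_lit 302) (B (L (nat_lit 270) ln13_12_6 ln13_12_6_ok) (L (nat_lit 334) ln13_13_6 ln13_13_6_ok))) (M (nat_lit 269) (B (L (nat_lit 364) ln13_8_5 ln13_8_5_ok) (M (nat_lit 268) (B (L (nat_lit 236) ln13_11_7 ln13_11_7_ok) (L (nat_lit 300) ln13_12_7 ln13_12_7_ok))))))) (M (nat_lit 301) (B (M (nat_lit 300) (B (L (nat_lit 268) ln13_12_7 ln13_12_7_ok) (L (nat_lit 332) ln13_13_7 ln13_13_7_ok))) (M (nat_lit 302) (B (L (nat_lit 270) ln13_12_6 ln13_12_6_ok) (L (nat_lit 334) ln13_13_6 ln13_13_6_ok)))))))))))))))))) (nat_lit 1386334847544579281930502452632026696468783264124728123740719198963059283254184240648144927045128292788721448874933630659377233920)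 (nat_lit 1179363258141160341641896736602124099037041632571929104017831156918064487751089081567254383511853603842055532073890231295906259906101488844918682701458131667213495566336) (nat_lit 1179363258141160341641896736602124099037041632571929104017831156918064487751089081567254383511853603842055532073890231295906259906101488844918682701458131667213495566336) (by decide +kernel)
noncomputable def c41_n6505 : Cert := (M (nat_lit 461) (B (M (nat_lit 364) (B (L (nat_lit 493) ln13_15_7 ln13_15_7_ok) (M (nat_lit 332) (B (L (nat_lit 300) ln12_9_4 ln12_9_4_ok) (L (nat_lit 365) ln13_14_7 ln13_14_7_ok))))) (B (M (nat_lit 493) (B (L (nat_lit 364) ln13_15_7 ln13_15_7_ok) (M (nat_lit 525) (B (M (nat_lit 524) (B (L (nat_lit 492) ln13_12_5 ln13_12_5_ok) (L (nat_lit 556) ln13_13_5 ln13_13_5_ok))) (M (nat_lit 526) (B (L (nat_lit 494) ln13_12_4 ln13_12_4_ok) (L (nat_lit 558) ln13_13_4 ln13_13_4_ok)))))))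 (B (M (nat_lit 395) (B (M (nat_lit 394) (B (L (nat_lit 430) ln10_12_0 ln10_12_0_ok) (M (nat_lit 425) (B (L (nat_lit 426) ln13_12_1 ln13_12_1_ok) (M (nat_lit 393) (B (L (nat_lit 424) ln12_12_1 ln12_12_1_ok) (M (nat_lit 361) (B (L (nat_lit 360) ln12_12_3 ln12_12_3_ok) (L (nat_lit 362) ln13_12_3 ln13_12_3_ok))))))))) (B (M (nat_lit 365) (B (M (nat_lit 366) (B (L (nat_lit 334) ln13_14_6 ln13_14_6_ok) (L (nat_lit 394) ln10_12_2 ln10_12_2_ok))) (B (M (nat_lit 394) (B (L (nat_lit 366) ln10_12_2 ln10_12_2_ok) (L (nat_lit 430) ln10_12_0 ln10_12_0_ok))) (B (M (nat_lit 430) (B (L (nat_lit 394) ln10_12_0 ln10_12_0_ok) (M (nat_lit 462) (B (L (nat_lit 333) ln13_10_4 ln13_10_4_ok) (L (nat_lit 494) ln13_11_4 ln13_11_4_ok))))) (M (nat_lit 493) (B (M (nat_lit 492) (B (L (nat_lit 460) ln13_11_5 ln13_11_5_ok) (L (nat_lit 524) ln13_12_5 ln13_12_5_ok))) (M (nat_lit 494) (B (L (nat_lit 462) ln13_11_4 ln13_11_4_ok)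 (L (nat_lit 526) ln13_12_4 ln13_12_4_ok))))))))) (B (M (nat_lit 492) (B (M (nat_lit 460) (B (L (nat_lit 365) ln13_11_5 ln13_11_5_ok) (M (nat_lit 524) (B (L (nat_lit 493) ln13_12_5 ln13_12_5_ok) (L (nat_lit 556) ln12_17_6 ln12_17_6_ok))))) (B (M (nat_lit 460) (B (M (nat_lit 524) (B (L (nat_lit 493) ln13_12_5 ln13_12_5_ok) (L (nat_lit 556) ln12_17_6 ln12_17_6_ok))) (B (M (nat_lit 459) (B (M (nat_lit 430) (B (L (nat_lit 458) ln10_14_2 ln10_14_2_ok) (M (nat_lit 431) (B (L (nat_lit 432) ln16_13_3 ln16_13_3_ok) (L (nat_lit 462) ln11_14_2 ln11_14_2_ok))))) (M (nat_lit 427) (B (L (nat_lit 363) ln11_11_4 ln11_11_4_ok) (M (nat_lit 524) (B (L (nat_lit 491) ln11_12_4 ln11_12_4_ok) (L (nat_lit 556) ln12_17_7 ln12_17_7_ok))))))) (M (nat_lit 462) (B (M (nat_lit 491) (B (L (nat_lit 463) ln15_14_1 ln15_14_1_ok) (M (nat_lit 490) (B (L (nat_lit 459) ln14_14_1 ln14_14_1_ok) (L (nat_lit 489) ln9_15_2 ln9_15_2_ok)))))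 (B (M (nat_lit 491) (B (L (nat_lit 463) ln15_14_1 ln15_14_1_ok) (M (nat_lit 490) (B (L (nat_lit 489) ln9_15_2 ln9_15_2_ok) (L (nat_lit 493) ln10_15_2 ln10_15_2_ok))))) (M (nat_lit 459) (B (M (nat_lit 427) (B (L (nat_lit 363) ln11_11_4 ln11_11_4_ok) (L (nat_lit 426) ln14_14_3 ln14_14_3_ok))) (M (nat_lit 430) (B (L (nat_lit 458) ln10_14_2 ln10_14_2_ok) (L (nat_lit 431) ln11_14_2 ln11_14_2_ok))))))))))) (B (M (nat_lit 493) (B (L (nat_lit 524) ln13_12_5 ln13_12_5_ok) (M (nat_lit 494) (B (L (nat_lit 526) ln13_12_4 ln13_12_4_ok) (M (nat_lit 462) (B (L (nat_lit 365) ln13_11_4 ln13_11_4_ok) (M (nat_lit 463) (B (L (nat_lit 464) ln16_14_1 ln16_14_1_ok) (L (nat_lit 491) ln11_15_2 ln11_15_2_ok))))))))) (M (nat_lit 365) (B (L (nat_lit 460) ln13_11_5 ln13_11_5_ok) (M (nat_lit 333) (B (M (nat_lit 334) (B (L (nat_lit 302) ln13_13_6 ln13_13_6_ok) (L (nat_lit 366) ln13_14_6 ln13_14_6_ok))) (M (nat_lit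 462) (B (L (nat_lit 430) ln13_10_4 ln13_10_4_ok) (L (nat_lit 494) ln13_11_4 ln13_11_4_ok))))))))))) (M (nat_lit 365) (B (M (nat_lit 366) (B (L (nat_lit 334) ln13_14_6 ln13_14_6_ok) (L (nat_lit 394) ln10_12_2 ln10_12_2_ok))) (M (nat_lit 493) (B (M (nat_lit 492) (B (L (nat_lit 460) ln13_11_5 ln13_11_5_ok) (L (nat_lit 524) ln13_12_5 ln13_12_5_ok))) (M (nat_lit 494) (B (L (nat_lit 462) ln13_11_4 ln13_11_4_ok) (L (nat_lit 526) ln13_12_4 ln13_12_4_ok))))))))))) (M (nat_lit 365) (B (M (nat_lit 333) (B (M (nat_lit 334) (B (L (nat_lit 302) ln13_13_6 ln13_13_6_ok) (L (nat_lit 366) ln13_14_6 ln13_14_6_ok))) (M (nat_lit 462) (B (L (nat_lit 430) ln13_10_4 ln13_10_4_ok) (L (nat_lit 494) ln13_11_4 ln13_11_4_ok))))) (B (M (nat_lit 333) (B (M (nat_lit 332) (B (L (nat_lit 300) ln13_13_7 ln13_13_7_ok) (L (nat_lit 364) ln13_14_7 ln13_14_7_ok))) (M (nat_lit 462) (B (L (nat_lit 430) ln13_10_4 ln13_10_4_ok)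 (L (nat_lit 494) ln13_11_4 ln13_11_4_ok))))) (M (nat_lit 364) (B (L (nat_lit 332) ln13_14_7 ln13_14_7_ok) (M (nat_lit 366) (B (L (nat_lit 334) ln13_14_6 ln13_14_6_ok) (M (nat_lit 367) (B (L (nat_lit 395) ln15_11_1 ln15_11_1_ok) (L (nat_lit 368) ln16_11_1 ln16_11_1_ok))))))))))))))
noncomputable def c41_n6600 : Cert := (M (nat_lit 461) (B (M (nat_lit 493) (B (L (nat_lit 364) ln13_15_7 ln13_15_7_ok) (M (nat_lit 524) (B (L (nat_lit 492) ln13_12_5 ln13_12_5_ok) (M (nat_lit 525) (B (L (nat_lit 556) ln13_13_5 ln13_13_5_ok) (M (nat_lit 526) (B (L (nat_lit 494) ln13_12_4 ln13_12_4_ok) (L (nat_lit 558) ln13_13_4 ln13_13_4_ok))))))))) (B (M (nat_lit 398) (B (M (nat_lit 366) (B (L (nat_lit 367) ln11_12_2 ln11_12_2_ok) (L (nat_lit 493) ln13_15_6 ln13_15_6_ok))) (M (nat_lit 394) (B (M (nat_lit 362) (B (L (nat_lit 361) ln13_12_3 ln13_12_3_ok) (L (nat_lit 363) ln14_12_3 ln14_12_3_ok))) (M (nat_lit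 426) (B (L (nat_lit 425) ln13_12_1 ln13_12_1_ok) (L (nat_lit 427) ln14_12_1 ln14_12_1_ok))))))) (M (nat_lit 426) (B (M (nat_lit 427) (B (L (nat_lit 398) ln14_12_1 ln14_12_1_ok) (M (nat_lit 425) (B (L (nat_lit 394) ln13_12_1 ln13_12_1_ok) (L (nat_lit 424) ln8_13_2 ln8_13_2_ok))))) (B (M (nat_lit 427) (B (L (nat_lit 398) ln14_12_1 ln14_12_1_ok) (M (nat_lit 459) (B (M (nat_lit 460) (B (L (nat_lit 462) ln14_14_3 ln14_14_3_ok) (M (nat_lit 425) (B (L (nat_lit 424) ln8_13_2 ln8_13_2_ok) (L (nat_lit 458) ln13_14_3 ln13_14_3_ok))))) (M (nat_lit 364) (B (L (nat_lit 491) ln11_15_6 ln11_15_6_ok) (M (nat_lit 332) (B (L (nat_lit 300) ln12_9_5 ln12_9_5_ok) (L (nat_lit 363) ln11_14_6 ln11_14_6_ok))))))))) (B (M (nat_lit 427) (B (M (nat_lit 425) (B (L (nat_lit 394) ln13_12_1 ln13_12_1_ok) (L (nat_lit 424) ln8_13_2 ln8_13_2_ok))) (B (M (nat_lit 459) (B (M (nat_lit 364) (B (L (nat_lit 491) ln11_15_6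 ln11_15_6_ok) (M (nat_lit 332) (B (L (nat_lit 300) ln12_9_5 ln12_9_5_ok) (L (nat_lit 363) ln11_14_6 ln11_14_6_ok))))) (M (nat_lit 460) (B (L (nat_lit 462) ln14_14_3 ln14_14_3_ok) (M (nat_lit 425) (B (L (nat_lit 424) ln8_13_2 ln8_13_2_ok) (L (nat_lit 458) ln13_14_3 ln13_14_3_ok))))))) (B (M (nat_lit 459) (B (M (nat_lit 460) (B (L (nat_lit 462) ln14_14_3 ln14_14_3_ok) (M (nat_lit 425) (B (L (nat_lit 394) ln13_12_1 ln13_12_1_ok) (L (nat_lit 458) ln13_14_3 ln13_14_3_ok))))) (M (nat_lit 364) (B (L (nat_lit 491) ln11_15_6 ln11_15_6_ok) (M (nat_lit 332) (B (L (nat_lit 300) ln12_9_5 ln12_9_5_ok) (L (nat_lit 363) ln11_14_6 ln11_14_6_ok))))))) (M (nat_lit 459) (B (M (nat_lit 364) (B (L (nat_lit 491) ln11_15_6 ln11_15_6_ok) (M (nat_lit 332) (B (L (nat_lit 300) ln12_9_5 ln12_9_5_ok) (L (nat_lit 363) ln11_14_6 ln11_14_6_ok))))) (B (M (nat_lit 491) (B (L (nat_lit 364) ln11_15_6 ln11_15_6_ok) (M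 (nat_lit 394) (B (L (nat_lit 362) ln11_15_7 ln11_15_7_ok) (L (nat_lit 523) ln11_16_7 ln11_16_7_ok))))) (M (nat_lit 363) (B (M (nat_lit 458) (B (L (nat_lit 331) ln11_10_5 ln11_10_5_ok) (L (nat_lit 490) ln11_11_5 ln11_11_5_ok))) (M (nat_lit 460) (B (L (nat_lit 492) ln11_11_4 ln11_11_4_ok) (L (nat_lit 462) ln14_14_3 ln14_14_3_ok)))))))))))) (B (M (nat_lit 362) (B (M (nat_lit 394) (B (L (nat_lit 361) ln13_12_3 ln13_12_3_ok) (L (nat_lit 425) ln13_12_1 ln13_12_1_ok))) (M (nat_lit 398) (B (L (nat_lit 363) ln14_12_3 ln14_12_3_ok) (L (nat_lit 427) ln14_12_1 ln14_12_1_ok))))) (B (M (nat_lit 427) (B (L (nat_lit 398) ln14_12_1 ln14_12_1_ok) (M (nat_lit 459) (B (M (nat_lit 364) (B (L (nat_lit 491) ln11_15_6 ln11_15_6_ok) (M (nat_lit 332) (B (L (nat_lit 300) ln12_9_5 ln12_9_5_ok) (L (nat_lit 363) ln11_14_6 ln11_14_6_ok))))) (B (M (nat_lit 491) (B (L (nat_lit 364) ln11_15_6 ln11_15_6_ok) (M (nat_lit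 394) (B (L (nat_lit 362) ln11_15_7 ln11_15_7_ok) (L (nat_lit 523) ln11_16_7 ln11_16_7_ok))))) (M (nat_lit 363) (B (M (nat_lit 458) (B (L (nat_lit 331) ln11_10_5 ln11_10_5_ok) (L (nat_lit 490) ln11_11_5 ln11_11_5_ok))) (M (nat_lit 460) (B (L (nat_lit 492) ln11_11_4 ln11_11_4_ok) (L (nat_lit 462) ln14_14_3 ln14_14_3_ok)))))))))) (M (nat_lit 394) (B (L (nat_lit 425) ln13_12_1 ln13_12_1_ok) (M (nat_lit 362) (B (L (nat_lit 361) ln13_12_3 ln13_12_3_ok) (M (nat_lit 363) (B (L (nat_lit 398) ln14_12_3 ln14_12_3_ok) (M (nat_lit 331) (B (L (nat_lit 299) ln11_9_5 ln11_9_5_ok) (L (nat_lit 458) ln10_14_6 ln10_14_6_ok))))))))))))))))))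
theorem c41_s6696 : Sem (nat_lit 1386334847544579281930502452632026696468783264124728123740719198963059283254184240648144927045128292788721448874933630659377233920) (nat_lit 1179363258168619532282419175462051702214088486474093228226129964109714522868134791582379637169461882174566864328817700078050078647305001781506831280568370943310197424128) (nat_lit 1179363258168619532282419175462051702214088486474093228226129964109714522868134791582379637169461882174566864328817700078050078647305001781506831280568370943310197424128) :=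
  sem_of_chk (M (nat_lit 395) (B (M (nat_lit 461) (B (M (nat_lit 364) (B (L (nat_lit 493) ln13_15_7 ln13_15_7_ok) (M (nat_lit 332) (B (L (nat_lit 300) ln12_9_4 ln12_9_4_ok) (L (nat_lit 365) ln13_14_7 ln13_14_7_ok))))) (B (M (nat_lit 365) (B (M (nat_lit 364) (B (L (nat_lit 332) ln13_14_7 ln13_14_7_ok) (L (nat_lit 493) ln13_15_7 ln13_15_7_ok))) (M (nat_lit 366) (B (L (nat_lit 334) ln13_14_6 ln13_14_6_ok) (L (nat_lit 394) ln10_12_2 ln10_12_2_ok))))) (B (M (nat_lit 366) (B (M (nat_lit 365) (B (L (nat_lit 334) ln13_14_6 ln13_14_6_ok) (L (nat_lit 394) ln10_12_2 ln10_12_2_ok))) (M (nat_lit 493) (B (L (nat_lit 364) ln13_15_7 ln13_15_7_ok) (L (nat_lit 398) ln13_15_6 ln13_15_6_ok))))) (B (M (nat_lit 366) (B (M (nat_lit 365) (B (L (nat_lit 334) ln13_14_6 ln13_14_6_ok) (L (nat_lit 394) ln10_12_2 ln10_12_2_ok))) (M (nat_lit 398) (B (L (nat_lit 367) ln11_12_2 ln11_12_2_ok) (L (nat_lit 493) ln13_15_6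 ln13_15_6_ok))))) (B (M (nat_lit 398) (B (M (nat_lit 366) (B (L (nat_lit 367) ln11_12_2 ln11_12_2_ok) (L (nat_lit 493) ln13_15_6 ln13_15_6_ok))) (B (M (nat_lit 364) (B (L (nat_lit 493) ln13_15_7 ln13_15_7_ok) (M (nat_lit 363) (B (L (nat_lit 362) ln14_12_3 ln14_12_3_ok) (L (nat_lit 399) ln15_12_3 ln15_12_3_ok))))) (M (nat_lit 399) (B (M (nat_lit 363) (B (L (nat_lit 362) ln14_12_3 ln14_12_3_ok) (L (nat_lit 364) ln15_12_3 ln15_12_3_ok))) (M (nat_lit 367) (B (L (nat_lit 366) ln11_12_2 ln11_12_2_ok) (L (nat_lit 368) ln12_12_2 ln12_12_2_ok)))))))) (M (nat_lit 398) (B (M (nat_lit 366) (B (L (nat_lit 367) ln11_12_2 ln11_12_2_ok) (M (nat_lit 334) (B (L (nat_lit 302) ln14_9_5 ln14_9_5_ok) (L (nat_lit 365) ln13_14_6 ln13_14_6_ok))))) (B (M (nat_lit 364) (B (M (nat_lit 332) (B (L (nat_lit 300) ln12_9_4 ln12_9_4_ok) (L (nat_lit 365) ln13_14_7 ln13_14_7_ok))) (M (nat_lit 363) (B (L (nat_lit 362)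 ln14_12_3 ln14_12_3_ok) (L (nat_lit 399) ln15_12_3 ln15_12_3_ok))))) (M (nat_lit 399) (B (M (nat_lit 363) (B (L (nat_lit 362) ln14_12_3 ln14_12_3_ok) (L (nat_lit 364) ln15_12_3 ln15_12_3_ok))) (M (nat_lit 367) (B (L (nat_lit 366) ln11_12_2 ln11_12_2_ok) (L (nat_lit 368) ln12_12_2 ln12_12_2_ok)))))))))))))) (B (M (nat_lit 398) (B (M (nat_lit 394) (B (M (nat_lit 366) (B (L (nat_lit 365) ln10_12_2 ln10_12_2_ok) (L (nat_lit 367) ln11_12_2 ln11_12_2_ok))) (M (nat_lit 426) (B (L (nat_lit 425) ln13_12_1 ln13_12_1_ok) (L (nat_lit 427) ln14_12_1 ln14_12_1_ok))))) (B (M (nat_lit 399) (B (M (nat_lit 363) (B (L (nat_lit 362) ln14_12_3 ln14_12_3_ok) (L (nat_lit 364) ln15_12_3 ln15_12_3_ok))) (M (nat_lit 367) (B (L (nat_lit 366) ln11_12_2 ln11_12_2_ok) (L (nat_lit 368) ln12_12_2 ln12_12_2_ok))))) (M (nat_lit 394) (B (M (nat_lit 362) (B (L (nat_lit 361) ln13_12_3 ln13_12_3_ok) (L (nat_lit 363) ln14_12_3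 ln14_12_3_ok))) (M (nat_lit 426) (B (L (nat_lit 425) ln13_12_1 ln13_12_1_ok) (L (nat_lit 427) ln14_12_1 ln14_12_1_ok)))))))) (B (M (nat_lit 461) (B (M (nat_lit 364) (B (L (nat_lit 493) ln13_15_7 ln13_15_7_ok) (M (nat_lit 332) (B (L (nat_lit 300) ln12_9_4 ln12_9_4_ok) (L (nat_lit 365) ln13_14_7 ln13_14_7_ok))))) (B (M (nat_lit 365) (B (M (nat_lit 364) (B (L (nat_lit 332) ln13_14_7 ln13_14_7_ok) (L (nat_lit 493) ln13_15_7 ln13_15_7_ok))) (M (nat_lit 366) (B (L (nat_lit 334) ln13_14_6 ln13_14_6_ok) (L (nat_lit 394) ln10_12_2 ln10_12_2_ok))))) (B (M (nat_lit 366) (B (M (nat_lit 365) (B (L (nat_lit 334) ln13_14_6 ln13_14_6_ok) (L (nat_lit 394) ln10_12_2 ln10_12_2_ok))) (M (nat_lit 493) (B (L (nat_lit 364) ln13_15_7 ln13_15_7_ok) (L (nat_lit 398) ln13_15_6 ln13_15_6_ok))))) (B (M (nat_lit 366) (B (M (nat_lit 365) (B (L (nat_lit 334) ln13_14_6 ln13_14_6_ok) (L (nat_lit 394) ln10_12_2 ln10_12_2_ok)))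 (M (nat_lit 398) (B (L (nat_lit 367) ln11_12_2 ln11_12_2_ok) (L (nat_lit 493) ln13_15_6 ln13_15_6_ok))))) (B (M (nat_lit 364) (B (L (nat_lit 493) ln13_15_7 ln13_15_7_ok) (M (nat_lit 427) (B (M (nat_lit 426) (B (L (nat_lit 398) ln14_12_1 ln14_12_1_ok) (M (nat_lit 425) (B (L (nat_lit 394) ln13_12_1 ln13_12_1_ok) (L (nat_lit 424) ln8_13_2 ln8_13_2_ok))))) (M (nat_lit 332) (B (L (nat_lit 300) ln12_9_5 ln12_9_5_ok) (M (nat_lit 459) (B (L (nat_lit 363) ln11_14_6 ln11_14_6_ok) (L (nat_lit 491) ln11_15_6 ln11_15_6_ok))))))))) (M (nat_lit 426) (B (M (nat_lit 427) (B (L (nat_lit 398) ln14_12_1 ln14_12_1_ok) (M (nat_lit 425) (B (L (nat_lit 394) ln13_12_1 ln13_12_1_ok) (L (nat_lit 424) ln8_13_2 ln8_13_2_ok))))) (B (M (nat_lit 398) (B (L (nat_lit 427) ln14_12_1 ln14_12_1_ok) (M (nat_lit 366) (B (L (nat_lit 367) ln11_12_2 ln11_12_2_ok) (M (nat_lit 334) (B (L (nat_lit 302) ln14_9_5 ln14_9_5_ok) (L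 (nat_lit 365) ln13_14_6 ln13_14_6_ok))))))) (M (nat_lit 394) (B (L (nat_lit 425) ln13_12_1 ln13_12_1_ok) (M (nat_lit 365) (B (L (nat_lit 366) ln10_12_2 ln10_12_2_ok) (M (nat_lit 364) (B (L (nat_lit 332) ln13_14_7 ln13_14_7_ok) (L (nat_lit 393) ln9_12_2 ln9_12_2_ok)))))))))))))))) (B (M (nat_lit 394) (B (M (nat_lit 393) (B (M (nat_lit 361) (B (L (nat_lit 360) ln12_12_3 ln12_12_3_ok) (L (nat_lit 362) ln13_12_3 ln13_12_3_ok))) (M (nat_lit 425) (B (L (nat_lit 424) ln12_12_1 ln12_12_1_ok) (L (nat_lit 426) ln13_12_1 ln13_12_1_ok))))) (B (M (nat_lit 393) (B (M (nat_lit 365) (B (L (nat_lit 364) ln9_12_2 ln9_12_2_ok) (L (nat_lit 366) ln10_12_2 ln10_12_2_ok))) (M (nat_lit 425) (B (L (nat_lit 424) ln12_12_1 ln12_12_1_ok) (L (nat_lit 426) ln13_12_1 ln13_12_1_ok))))) (B (M (nat_lit 398) (B (M (nat_lit 366) (B (L (nat_lit 365) ln10_12_2 ln10_12_2_ok) (L (nat_lit 367) ln11_12_2 ln11_12_2_ok))) (M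 (nat_lit 426) (B (L (nat_lit 425) ln13_12_1 ln13_12_1_ok) (L (nat_lit 427) ln14_12_1 ln14_12_1_ok))))) (M (nat_lit 393) (B (M (nat_lit 361) (B (L (nat_lit 360) ln12_12_3 ln12_12_3_ok) (L (nat_lit 362) ln13_12_3 ln13_12_3_ok))) (M (nat_lit 365) (B (L (nat_lit 364) ln9_12_2 ln9_12_2_ok) (L (nat_lit 366) ln10_12_2 ln10_12_2_ok))))))))) (B (M (nat_lit 394) (B (M (nat_lit 398) (B (M (nat_lit 366) (B (L (nat_lit 365) ln10_12_2 ln10_12_2_ok) (L (nat_lit 367) ln11_12_2 ln11_12_2_ok))) (M (nat_lit 426) (B (L (nat_lit 425) ln13_12_1 ln13_12_1_ok) (L (nat_lit 427) ln14_12_1 ln14_12_1_ok))))) (B (M (nat_lit 393) (B (M (nat_lit 361) (B (L (nat_lit 360) ln12_12_3 ln12_12_3_ok) (L (nat_lit 362) ln13_12_3 ln13_12_3_ok))) (M (nat_lit 425) (B (L (nat_lit 424) ln12_12_1 ln12_12_1_ok) (L (nat_lit 426) ln13_12_1 ln13_12_1_ok))))) (M (nat_lit 398) (B (M (nat_lit 362) (B (L (nat_lit 361) ln13_12_3 ln13_12_3_ok)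 (L (nat_lit 363) ln14_12_3 ln14_12_3_ok))) (M (nat_lit 366) (B (L (nat_lit 365) ln10_12_2 ln10_12_2_ok) (L (nat_lit 367) ln11_12_2 ln11_12_2_ok)))))))) (B c41_n6600 (B (M (nat_lit 364) (B (M (nat_lit 461) (B (L (nat_lit 493) ln13_15_7 ln13_15_7_ok) (M (nat_lit 332) (B (L (nat_lit 300) ln12_9_4 ln12_9_4_ok) (L (nat_lit 365) ln13_14_7 ln13_14_7_ok))))) (B (M (nat_lit 394) (B (M (nat_lit 393) (B (L (nat_lit 365) ln9_12_2 ln9_12_2_ok) (M (nat_lit 425) (B (L (nat_lit 424) ln12_12_1 ln12_12_1_ok) (L (nat_lit 426) ln13_12_1 ln13_12_1_ok))))) (B (M (nat_lit 398) (B (M (nat_lit 362) (B (L (nat_lit 361) ln13_12_3 ln13_12_3_ok) (L (nat_lit 363) ln14_12_3 ln14_12_3_ok))) (M (nat_lit 426) (B (L (nat_lit 425) ln13_12_1 ln13_12_1_ok) (L (nat_lit 427) ln14_12_1 ln14_12_1_ok))))) (M (nat_lit 393) (B (L (nat_lit 365) ln9_12_2 ln9_12_2_ok) (M (nat_lit 361) (B (L (nat_lit 360) ln12_12_3 ln12_12_3_ok)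 (L (nat_lit 362) ln13_12_3 ln13_12_3_ok)))))))) (M (nat_lit 427) (B (M (nat_lit 332) (B (L (nat_lit 300) ln12_9_5 ln12_9_5_ok) (M (nat_lit 459) (B (L (nat_lit 363) ln11_14_6 ln11_14_6_ok) (L (nat_lit 491) ln11_15_6 ln11_15_6_ok))))) (M (nat_lit 426) (B (L (nat_lit 398) ln14_12_1 ln14_12_1_ok) (M (nat_lit 425) (B (L (nat_lit 394) ln13_12_1 ln13_12_1_ok) (L (nat_lit 424) ln8_13_2 ln8_13_2_ok)))))))))) (B (M (nat_lit 461) (B (M (nat_lit 364) (B (L (nat_lit 493) ln13_15_7 ln13_15_7_ok) (M (nat_lit 332) (B (L (nat_lit 300) ln12_9_4 ln12_9_4_ok) (L (nat_lit 365) ln13_14_7 ln13_14_7_ok))))) (B (M (nat_lit 364) (B (L (nat_lit 493) ln13_15_7 ln13_15_7_ok) (M (nat_lit 365) (B (L (nat_lit 332) ln13_14_7 ln13_14_7_ok) (M (nat_lit 366) (B (L (nat_lit 334) ln13_14_6 ln13_14_6_ok) (L (nat_lit 367) ln15_11_1 ln15_11_1_ok))))))) (B (M (nat_lit 398) (B (M (nat_lit 366) (B (L (nat_lit 367) ln11_12_2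 ln11_12_2_ok) (L (nat_lit 493) ln13_15_6 ln13_15_6_ok))) (B (M (nat_lit 364) (B (L (nat_lit 493) ln13_15_7 ln13_15_7_ok) (M (nat_lit 363) (B (L (nat_lit 362) ln14_12_3 ln14_12_3_ok) (L (nat_lit 399) ln15_12_3 ln15_12_3_ok))))) (M (nat_lit 366) (B (L (nat_lit 367) ln11_12_2 ln11_12_2_ok) (M (nat_lit 334) (B (L (nat_lit 302) ln14_9_5 ln14_9_5_ok) (L (nat_lit 365) ln13_14_6 ln13_14_6_ok)))))))) (B (M (nat_lit 365) (B (M (nat_lit 366) (B (L (nat_lit 334) ln13_14_6 ln13_14_6_ok) (M (nat_lit 367) (B (L (nat_lit 368) ln16_11_1 ln16_11_1_ok) (L (nat_lit 398) ln11_12_2 ln11_12_2_ok))))) (M (nat_lit 493) (B (M (nat_lit 492) (B (L (nat_lit 460) ln13_11_5 ln13_11_5_ok) (L (nat_lit 524) ln13_12_5 ln13_12_5_ok))) (M (nat_lit 494) (B (L (nat_lit 462) ln13_11_4 ln13_11_4_ok) (L (nat_lit 526) ln13_12_4 ln13_12_4_ok))))))) (B (M (nat_lit 398) (B (M (nat_lit 366) (B (L (nat_lit 367) ln11_12_2 ln11_12_2_ok)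 (L (nat_lit 493) ln13_15_6 ln13_15_6_ok))) (B (M (nat_lit 364) (B (L (nat_lit 493) ln13_15_7 ln13_15_7_ok) (M (nat_lit 363) (B (L (nat_lit 362) ln14_12_3 ln14_12_3_ok) (L (nat_lit 399) ln15_12_3 ln15_12_3_ok))))) (M (nat_lit 399) (B (M (nat_lit 363) (B (L (nat_lit 362) ln14_12_3 ln14_12_3_ok) (L (nat_lit 364) ln15_12_3 ln15_12_3_ok))) (M (nat_lit 367) (B (L (nat_lit 366) ln11_12_2 ln11_12_2_ok) (L (nat_lit 368) ln12_12_2 ln12_12_2_ok)))))))) (M (nat_lit 398) (B (M (nat_lit 366) (B (L (nat_lit 367) ln11_12_2 ln11_12_2_ok) (M (nat_lit 334) (B (L (nat_lit 302) ln14_9_5 ln14_9_5_ok) (L (nat_lit 365) ln13_14_6 ln13_14_6_ok))))) (B (M (nat_lit 364) (B (M (nat_lit 332) (B (L (nat_lit 300) ln12_9_4 ln12_9_4_ok) (L (nat_lit 365) ln13_14_7 ln13_14_7_ok))) (M (nat_lit 363) (B (L (nat_lit 362) ln14_12_3 ln14_12_3_ok) (L (nat_lit 399) ln15_12_3 ln15_12_3_ok))))) (M (nat_lit 399) (B (M (nat_lit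 363) (B (L (nat_lit 362) ln14_12_3 ln14_12_3_ok) (L (nat_lit 364) ln15_12_3 ln15_12_3_ok))) (M (nat_lit 367) (B (L (nat_lit 366) ln11_12_2 ln11_12_2_ok) (L (nat_lit 368) ln12_12_2 ln12_12_2_ok)))))))))))))) (M (nat_lit 365) (B (M (nat_lit 366) (B (L (nat_lit 394) ln10_12_2 ln10_12_2_ok) (M (nat_lit 367) (B (L (nat_lit 364) ln15_11_1 ln15_11_1_ok) (L (nat_lit 368) ln16_11_1 ln16_11_1_ok))))) (B (M (nat_lit 366) (B (L (nat_lit 394) ln10_12_2 ln10_12_2_ok) (M (nat_lit 334) (B (L (nat_lit 461) ln13_14_6 ln13_14_6_ok) (M (nat_lit 302) (B (L (nat_lit 270) ln14_8_5 ln14_8_5_ok) (L (nat_lit 333) ln13_13_6 ln13_13_6_ok))))))) (M (nat_lit 333) (B (M (nat_lit 300) (B (L (nat_lit 332) ln13_13_7 ln13_13_7_ok) (M (nat_lit 301) (B (L (nat_lit 268) ln13_12_7 ln13_12_7_ok) (M (nat_lit 302) (B (L (nat_lit 270) ln13_12_6 ln13_12_6_ok) (L (nat_lit 334) ln13_13_6 ln13_13_6_ok))))))) (B (M (nat_lit 461)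 (B (M (nat_lit 332) (B (L (nat_lit 300) ln13_13_7 ln13_13_7_ok) (L (nat_lit 364) ln13_14_7 ln13_14_7_ok))) (B (M (nat_lit 364) (B (L (nat_lit 332) ln13_14_7 ln13_14_7_ok) (L (nat_lit 493) ln13_15_7 ln13_15_7_ok))) (B (M (nat_lit 493) (B (L (nat_lit 364) ln13_15_7 ln13_15_7_ok) (M (nat_lit 492) (B (L (nat_lit 460) ln13_11_5 ln13_11_5_ok) (L (nat_lit 524) ln13_12_5 ln13_12_5_ok))))) (M (nat_lit 493) (B (M (nat_lit 492) (B (L (nat_lit 460) ln13_11_5 ln13_11_5_ok) (L (nat_lit 524) ln13_12_5 ln13_12_5_ok))) (M (nat_lit 494) (B (L (nat_lit 462) ln13_11_4 ln13_11_4_ok) (L (nat_lit 526) ln13_12_4 ln13_12_4_ok))))))))) (B (M (nat_lit 461) (B (M (nat_lit 364) (B (L (nat_lit 332) ln13_14_7 ln13_14_7_ok) (L (nat_lit 493) ln13_15_7 ln13_15_7_ok))) (B (M (nat_lit 493) (B (L (nat_lit 364) ln13_15_7 ln13_15_7_ok) (M (nat_lit 492) (B (L (nat_lit 460) ln13_11_5 ln13_11_5_ok) (L (nat_lit 524) ln13_12_5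 ln13_12_5_ok))))) (B (M (nat_lit 493) (B (M (nat_lit 492) (B (L (nat_lit 460) ln13_11_5 ln13_11_5_ok) (L (nat_lit 524) ln13_12_5 ln13_12_5_ok))) (M (nat_lit 494) (B (L (nat_lit 462) ln13_11_4 ln13_11_4_ok) (L (nat_lit 526) ln13_12_4 ln13_12_4_ok))))) (M (nat_lit 301) (B (M (nat_lit 364) (B (L (nat_lit 269) ln13_8_5 ln13_8_5_ok) (L (nat_lit 332) ln13_14_7 ln13_14_7_ok))) (M (nat_lit 302) (B (L (nat_lit 270) ln13_12_6 ln13_12_6_ok) (L (nat_lit 334) ln13_13_6 ln13_13_6_ok))))))))) (M (nat_lit 301) (B (M (nat_lit 302) (B (L (nat_lit 270) ln13_12_6 ln13_12_6_ok) (L (nat_lit 334) ln13_13_6 ln13_13_6_ok))) (M (nat_lit 269) (B (L (nat_lit 364) ln13_8_5 ln13_8_5_ok) (M (nat_lit 268) (B (L (nat_lit 236) ln13_11_7 ln13_11_7_ok) (L (nat_lit 300) ln13_12_7 ln13_12_7_ok))))))))))))))))))))))) (nat_lit 1386334847544579281930502452632026696468783264124728123740719198963059283254184240648144927045128292788721448874933630659377233920)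 (nat_lit 1179363258168619532282419175462051702214088486474093228226129964109714522868134791582379637169461882174566864328817700078050078647305001781506831280568370943310197424128) (nat_lit 1179363258168619532282419175462051702214088486474093228226129964109714522868134791582379637169461882174566864328817700078050078647305001781506831280568370943310197424128) (by decide +kernel)
noncomputable def c41_n6753 : Cert := (M (nat_lit 395) (B (M (nat_lit 430) (B (L (nat_lit 394) ln10_12_0 ln10_12_0_ok) (M (nat_lit 431) (B (L (nat_lit 398) ln11_12_0 ln11_12_0_ok) (L (nat_lit 432) ln16_13_3 ln16_13_3_ok))))) (B (M (nat_lit 398) (B (M (nat_lit 399) (B (M (nat_lit 363) (B (L (nat_lit 362) ln14_12_3 ln14_12_3_ok) (L (nat_lit 364) ln15_12_3 ln15_12_3_ok))) (M (nat_lit 367) (B (L (nat_lit 366) ln11_12_2 ln11_12_2_ok) (L (nat_lit 368) ln12_12_2 ln12_12_2_ok))))) (B (M (nat_lit 365) (B (M (nat_lit 430)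 (B (L (nat_lit 431) ln11_12_0 ln11_12_0_ok) (M (nat_lit 333) (B (L (nat_lit 301) ln13_9_4 ln13_9_4_ok) (L (nat_lit 462) ln13_10_4 ln13_10_4_ok))))) (M (nat_lit 399) (B (M (nat_lit 364) (B (L (nat_lit 363) ln15_12_3 ln15_12_3_ok) (L (nat_lit 400) ln16_12_3 ln16_12_3_ok))) (M (nat_lit 367) (B (L (nat_lit 366) ln11_12_2 ln11_12_2_ok) (L (nat_lit 368) ln12_12_2 ln12_12_2_ok))))))) (B (M (nat_lit 430) (B (L (nat_lit 431) ln11_12_0 ln11_12_0_ok) (M (nat_lit 365) (B (M (nat_lit 333) (B (L (nat_lit 301) ln13_9_4 ln13_9_4_ok) (L (nat_lit 462) ln13_10_4 ln13_10_4_ok))) (M (nat_lit 399) (B (M (nat_lit 367) (B (L (nat_lit 366) ln11_12_2 ln11_12_2_ok) (L (nat_lit 368) ln12_12_2 ln12_12_2_ok))) (M (nat_lit 400) (B (L (nat_lit 364) ln16_12_3 ln16_12_3_ok) (L (nat_lit 401) ln17_12_1 ln17_12_1_ok))))))))) (B (M (nat_lit 430) (B (L (nat_lit 431) ln11_12_0 ln11_12_0_ok) (M (nat_lit 366) (B (L (nat_lit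 367) ln11_12_2 ln11_12_2_ok) (M (nat_lit 462) (B (M (nat_lit 365) (B (L (nat_lit 333) ln14_14_7 ln14_14_7_ok) (L (nat_lit 494) ln14_15_7 ln14_15_7_ok))) (B (M (nat_lit 494) (B (L (nat_lit 365) ln14_15_7 ln14_15_7_ok) (L (nat_lit 526) ln14_16_7 ln14_16_7_ok))) (B (M (nat_lit 494) (B (L (nat_lit 526) ln14_16_7 ln14_16_7_ok) (M (nat_lit 495) (B (L (nat_lit 463) ln14_11_4 ln14_11_4_ok) (L (nat_lit 527) ln14_12_4 ln14_12_4_ok))))) (M (nat_lit 333) (B (L (nat_lit 365) ln14_14_7 ln14_14_7_ok) (M (nat_lit 334) (B (L (nat_lit 301) ln14_13_7 ln14_13_7_ok) (L (nat_lit 302) ln14_9_5 ln14_9_5_ok))))))))))))) (M (nat_lit 427) (B (L (nat_lit 426) ln14_12_1 ln14_12_1_ok) (M (nat_lit 363) (B (L (nat_lit 362) ln14_12_3 ln14_12_3_ok) (M (nat_lit 364) (B (L (nat_lit 399) ln15_12_3 ln15_12_3_ok) (M (nat_lit 332) (B (L (nat_lit 300) ln12_9_5 ln12_9_5_ok) (L (nat_lit 459) ln11_14_6 ln11_14_6_ok))))))))))))))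 (B (M (nat_lit 394) (B (L (nat_lit 430) ln10_12_0 ln10_12_0_ok) (M (nat_lit 393) (B (M (nat_lit 361) (B (L (nat_lit 360) ln12_12_3 ln12_12_3_ok) (L (nat_lit 362) ln13_12_3 ln13_12_3_ok))) (M (nat_lit 365) (B (L (nat_lit 364) ln9_12_2 ln9_12_2_ok) (L (nat_lit 366) ln10_12_2 ln10_12_2_ok))))))) (M (nat_lit 398) (B (M (nat_lit 394) (B (M (nat_lit 366) (B (L (nat_lit 365) ln10_12_2 ln10_12_2_ok) (L (nat_lit 367) ln11_12_2 ln11_12_2_ok))) (M (nat_lit 426) (B (L (nat_lit 425) ln13_12_1 ln13_12_1_ok) (L (nat_lit 427) ln14_12_1 ln14_12_1_ok))))) (B (M (nat_lit 399) (B (M (nat_lit 363) (B (L (nat_lit 362) ln14_12_3 ln14_12_3_ok) (L (nat_lit 364) ln15_12_3 ln15_12_3_ok))) (M (nat_lit 367) (B (L (nat_lit 366) ln11_12_2 ln11_12_2_ok) (L (nat_lit 368) ln12_12_2 ln12_12_2_ok))))) (M (nat_lit 394) (B (M (nat_lit 362) (B (L (nat_lit 361) ln13_12_3 ln13_12_3_ok) (L (nat_lit 363) ln14_12_3 ln14_12_3_ok)))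 (M (nat_lit 426) (B (L (nat_lit 425) ln13_12_1 ln13_12_1_ok) (L (nat_lit 427) ln14_12_1 ln14_12_1_ok))))))))))))
theorem c41_s6754 : Sem (nat_lit 1386334847221798047169638878925036799968406779833514899637066259859226863686603287896039777716422623628704219945445734162783797248) (nat_lit 1179363258607966582634669989046860728854785308481229181218392137097444610185413963561446952257714279966941372971087952785790672377500683450003366684856553352265153380352) (nat_lit 1179363258607966582634669989046860728854785308481229181218392137097444610185413963561446952257714279966941372971087952785790672377500683450003366684856553352265153380352) :=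
  sem_of_chk (M (nat_lit 397) (B (M (nat_lit 461) (B (M (nat_lit 364) (B (L (nat_lit 493) ln13_15_7 ln13_15_7_ok) (M (nat_lit 332) (B (L (nat_lit 300) ln12_9_4 ln12_9_4_ok) (L (nat_lit 365) ln13_14_7 ln13_14_7_ok))))) (B (M (nat_lit 430) (B (M (nat_lit 395) (B (L (nat_lit 394) ln10_12_0 ln10_12_0_ok) (M (nat_lit 431) (B (L (nat_lit 398) ln11_12_0 ln11_12_0_ok) (L (nat_lit 432) ln16_13_3 ln16_13_3_ok))))) (M (nat_lit 365) (B (M (nat_lit 364) (B (L (nat_lit 332) ln13_14_7 ln13_14_7_ok) (L (nat_lit 493) ln13_15_7 ln13_15_7_ok))) (M (nat_lit 462) (B (L (nat_lit 333) ln13_10_4 ln13_10_4_ok) (L (nat_lit 494) ln13_11_4 ln13_11_4_ok))))))) (B (M (nat_lit 493) (B (L (nat_lit 364) ln13_15_7 ln13_15_7_ok) (M (nat_lit 525) (B (M (nat_lit 524) (B (L (nat_lit 492) ln13_12_5 ln13_12_5_ok) (L (nat_lit 556) ln13_13_5 ln13_13_5_ok))) (M (nat_lit 526) (B (L (nat_lit 494) ln13_12_4 ln13_12_4_ok) (L (nat_lit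 558) ln13_13_4 ln13_13_4_ok))))))) (B (M (nat_lit 430) (B (M (nat_lit 395) (B (L (nat_lit 394) ln10_12_0 ln10_12_0_ok) (M (nat_lit 431) (B (L (nat_lit 398) ln11_12_0 ln11_12_0_ok) (L (nat_lit 432) ln16_13_3 ln16_13_3_ok))))) (B (M (nat_lit 398) (B (M (nat_lit 366) (B (L (nat_lit 334) ln14_10_5 ln14_10_5_ok) (L (nat_lit 493) ln13_15_6 ln13_15_6_ok))) (M (nat_lit 431) (B (L (nat_lit 395) ln11_12_0 ln11_12_0_ok) (L (nat_lit 432) ln16_13_3 ln16_13_3_ok))))) (B (M (nat_lit 365) (B (M (nat_lit 462) (B (L (nat_lit 333) ln13_10_4 ln13_10_4_ok) (L (nat_lit 494) ln13_11_4 ln13_11_4_ok))) (M (nat_lit 493) (B (M (nat_lit 366) (B (L (nat_lit 334) ln13_14_6 ln13_14_6_ok) (L (nat_lit 398) ln13_15_6 ln13_15_6_ok))) (M (nat_lit 492) (B (L (nat_lit 460) ln13_11_5 ln13_11_5_ok) (L (nat_lit 524) ln13_12_5 ln13_12_5_ok))))))) (M (nat_lit 460) (B (M (nat_lit 431) (B (L (nat_lit 432) ln16_13_3 ln16_13_3_ok)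 (M (nat_lit 459) (B (L (nat_lit 458) ln10_14_2 ln10_14_2_ok) (L (nat_lit 462) ln11_14_2 ln11_14_2_ok))))) (M (nat_lit 492) (B (L (nat_lit 365) ln13_11_5 ln13_11_5_ok) (M (nat_lit 524) (B (L (nat_lit 493) ln13_12_5 ln13_12_5_ok) (L (nat_lit 556) ln12_17_6 ln12_17_6_ok))))))))))) (M (nat_lit 365) (B (M (nat_lit 364) (B (L (nat_lit 332) ln13_14_7 ln13_14_7_ok) (M (nat_lit 366) (B (L (nat_lit 334) ln13_14_6 ln13_14_6_ok) (M (nat_lit 367) (B (L (nat_lit 395) ln15_11_1 ln15_11_1_ok) (L (nat_lit 368) ln16_11_1 ln16_11_1_ok))))))) (B (M (nat_lit 333) (B (M (nat_lit 334) (B (L (nat_lit 302) ln13_13_6 ln13_13_6_ok) (L (nat_lit 366) ln13_14_6 ln13_14_6_ok))) (M (nat_lit 462) (B (L (nat_lit 430) ln13_10_4 ln13_10_4_ok) (L (nat_lit 494) ln13_11_4 ln13_11_4_ok))))) (M (nat_lit 333) (B (M (nat_lit 332) (B (L (nat_lit 300) ln13_13_7 ln13_13_7_ok) (L (nat_lit 364) ln13_14_7 ln13_14_7_ok))) (M (nat_lit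 462) (B (L (nat_lit 430) ln13_10_4 ln13_10_4_ok) (L (nat_lit 494) ln13_11_4 ln13_11_4_ok))))))))))))) (B (M (nat_lit 366) (B (M (nat_lit 398) (B (M (nat_lit 461) (B (L (nat_lit 493) ln13_15_6 ln13_15_6_ok) (M (nat_lit 334) (B (L (nat_lit 302) ln14_9_5 ln14_9_5_ok) (L (nat_lit 430) ln14_10_5 ln14_10_5_ok))))) (B (M (nat_lit 395) (B (L (nat_lit 367) ln11_12_2 ln11_12_2_ok) (M (nat_lit 430) (B (L (nat_lit 394) ln10_12_0 ln10_12_0_ok) (L (nat_lit 431) ln11_12_0 ln11_12_0_ok))))) (M (nat_lit 367) (B (L (nat_lit 395) ln11_12_2 ln11_12_2_ok) (M (nat_lit 368) (B (L (nat_lit 369) ln17_11_1 ln17_11_1_ok) (L (nat_lit 399) ln12_12_2 ln12_12_2_ok)))))))) (B (M (nat_lit 398) (B (M (nat_lit 367) (B (L (nat_lit 395) ln11_12_2 ln11_12_2_ok) (M (nat_lit 368) (B (L (nat_lit 369) ln17_11_1 ln17_11_1_ok) (L (nat_lit 399) ln12_12_2 ln12_12_2_ok))))) (M (nat_lit 461) (B (L (nat_lit 493) ln13_15_6 ln13_15_6_ok)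 (M (nat_lit 334) (B (L (nat_lit 365) ln13_14_6 ln13_14_6_ok) (L (nat_lit 430) ln14_10_5 ln14_10_5_ok))))))) (B (M (nat_lit 395) (B (M (nat_lit 394) (B (L (nat_lit 365) ln10_12_2 ln10_12_2_ok) (L (nat_lit 430) ln10_12_0 ln10_12_0_ok))) (B (M (nat_lit 430) (B (L (nat_lit 394) ln10_12_0 ln10_12_0_ok) (M (nat_lit 398) (B (L (nat_lit 367) ln11_12_2 ln11_12_2_ok) (L (nat_lit 431) ln11_12_0 ln11_12_0_ok))))) (M (nat_lit 367) (B (L (nat_lit 398) ln11_12_2 ln11_12_2_ok) (M (nat_lit 365) (B (L (nat_lit 364) ln15_11_1 ln15_11_1_ok) (L (nat_lit 368) ln16_11_1 ln16_11_1_ok)))))))) (B (M (nat_lit 461) (B (M (nat_lit 493) (B (L (nat_lit 364) ln13_15_7 ln13_15_7_ok) (L (nat_lit 398) ln13_15_6 ln13_15_6_ok))) (B (M (nat_lit 398) (B (L (nat_lit 493) ln13_15_6 ln13_15_6_ok) (M (nat_lit 334) (B (L (nat_lit 365) ln13_14_6 ln13_14_6_ok) (L (nat_lit 430) ln14_10_5 ln14_10_5_ok))))) (B (M (nat_lit 365) (B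 (L (nat_lit 334) ln13_14_6 ln13_14_6_ok) (M (nat_lit 364) (B (L (nat_lit 332) ln13_14_7 ln13_14_7_ok) (L (nat_lit 493) ln13_15_7 ln13_15_7_ok))))) (M (nat_lit 334) (B (L (nat_lit 365) ln13_14_6 ln13_14_6_ok) (M (nat_lit 398) (B (L (nat_lit 302) ln14_9_5 ln14_9_5_ok) (L (nat_lit 430) ln14_10_5 ln14_10_5_ok))))))))) (M (nat_lit 365) (B (M (nat_lit 395) (B (L (nat_lit 394) ln10_12_2 ln10_12_2_ok) (M (nat_lit 367) (B (L (nat_lit 364) ln15_11_1 ln15_11_1_ok) (L (nat_lit 368) ln16_11_1 ln16_11_1_ok))))) (M (nat_lit 334) (B (L (nat_lit 461) ln13_14_6 ln13_14_6_ok) (M (nat_lit 302) (B (L (nat_lit 270) ln14_8_5 ln14_8_5_ok) (L (nat_lit 333) ln13_13_6 ln13_13_6_ok)))))))))))) (B (M (nat_lit 461) (B (M (nat_lit 364) (B (L (nat_lit 493) ln13_15_7 ln13_15_7_ok) (M (nat_lit 332) (B (L (nat_lit 300) ln12_9_4 ln12_9_4_ok) (L (nat_lit 365) ln13_14_7 ln13_14_7_ok))))) (B (M (nat_lit 493) (B (L (nat_lit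 364) ln13_15_7 ln13_15_7_ok) (M (nat_lit 525) (B (M (nat_lit 524) (B (L (nat_lit 492) ln13_12_5 ln13_12_5_ok) (L (nat_lit 556) ln13_13_5 ln13_13_5_ok))) (M (nat_lit 526) (B (L (nat_lit 494) ln13_12_4 ln13_12_4_ok) (L (nat_lit 558) ln13_13_4 ln13_13_4_ok))))))) (B (M (nat_lit 430) (B (M (nat_lit 395) (B (L (nat_lit 394) ln10_12_0 ln10_12_0_ok) (M (nat_lit 431) (B (L (nat_lit 398) ln11_12_0 ln11_12_0_ok) (L (nat_lit 432) ln16_13_3 ln16_13_3_ok))))) (B (M (nat_lit 398) (B (M (nat_lit 366) (B (L (nat_lit 334) ln14_10_5 ln14_10_5_ok) (L (nat_lit 493) ln13_15_6 ln13_15_6_ok))) (M (nat_lit 431) (B (L (nat_lit 395) ln11_12_0 ln11_12_0_ok) (L (nat_lit 432) ln16_13_3 ln16_13_3_ok))))) (B (M (nat_lit 365) (B (M (nat_lit 462) (B (L (nat_lit 333) ln13_10_4 ln13_10_4_ok) (L (nat_lit 494) ln13_11_4 ln13_11_4_ok))) (M (nat_lit 493) (B (M (nat_lit 366) (B (L (nat_lit 334) ln13_14_6 ln13_14_6_ok) (L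 (nat_lit 398) ln13_15_6 ln13_15_6_ok))) (M (nat_lit 492) (B (L (nat_lit 460) ln13_11_5 ln13_11_5_ok) (L (nat_lit 524) ln13_12_5 ln13_12_5_ok))))))) (M (nat_lit 460) (B (M (nat_lit 431) (B (L (nat_lit 432) ln16_13_3 ln16_13_3_ok) (M (nat_lit 459) (B (L (nat_lit 458) ln10_14_2 ln10_14_2_ok) (L (nat_lit 462) ln11_14_2 ln11_14_2_ok))))) (M (nat_lit 492) (B (L (nat_lit 365) ln13_11_5 ln13_11_5_ok) (M (nat_lit 524) (B (L (nat_lit 493) ln13_12_5 ln13_12_5_ok) (L (nat_lit 556) ln12_17_6 ln12_17_6_ok))))))))))) (M (nat_lit 365) (B (M (nat_lit 364) (B (L (nat_lit 332) ln13_14_7 ln13_14_7_ok) (M (nat_lit 366) (B (L (nat_lit 334) ln13_14_6 ln13_14_6_ok) (M (nat_lit 367) (B (L (nat_lit 395) ln15_11_1 ln15_11_1_ok) (L (nat_lit 368) ln16_11_1 ln16_11_1_ok))))))) (B (M (nat_lit 366) (B (L (nat_lit 334) ln13_14_6 ln13_14_6_ok) (M (nat_lit 395) (B (L (nat_lit 394) ln10_12_2 ln10_12_2_ok) (M (nat_lit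 367) (B (L (nat_lit 364) ln15_11_1 ln15_11_1_ok) (L (nat_lit 368) ln16_11_1 ln16_11_1_ok))))))) (B (M (nat_lit 333) (B (M (nat_lit 332) (B (L (nat_lit 300) ln13_13_7 ln13_13_7_ok) (L (nat_lit 364) ln13_14_7 ln13_14_7_ok))) (M (nat_lit 462) (B (L (nat_lit 430) ln13_10_4 ln13_10_4_ok) (L (nat_lit 494) ln13_11_4 ln13_11_4_ok))))) (M (nat_lit 366) (B (L (nat_lit 334) ln13_14_6 ln13_14_6_ok) (M (nat_lit 395) (B (L (nat_lit 394) ln10_12_2 ln10_12_2_ok) (M (nat_lit 367) (B (L (nat_lit 368) ln16_11_1 ln16_11_1_ok) (L (nat_lit 398) ln11_12_2 ln11_12_2_ok))))))))))))))) (B (M (nat_lit 366) (B (M (nat_lit 395) (B (M (nat_lit 394) (B (L (nat_lit 365) ln10_12_2 ln10_12_2_ok) (L (nat_lit 430) ln10_12_0 ln10_12_0_ok))) (B (M (nat_lit 430) (B (L (nat_lit 394) ln10_12_0 ln10_12_0_ok) (M (nat_lit 398) (B (L (nat_lit 367) ln11_12_2 ln11_12_2_ok) (L (nat_lit 431) ln11_12_0 ln11_12_0_ok))))) (M (nat_lit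 367) (B (L (nat_lit 398) ln11_12_2 ln11_12_2_ok) (M (nat_lit 365) (B (L (nat_lit 364) ln15_11_1 ln15_11_1_ok) (L (nat_lit 368) ln16_11_1 ln16_11_1_ok)))))))) (B (M (nat_lit 398) (B (M (nat_lit 367) (B (L (nat_lit 395) ln11_12_2 ln11_12_2_ok) (M (nat_lit 368) (B (L (nat_lit 369) ln17_11_1 ln17_11_1_ok) (L (nat_lit 399) ln12_12_2 ln12_12_2_ok))))) (M (nat_lit 461) (B (L (nat_lit 493) ln13_15_6 ln13_15_6_ok) (M (nat_lit 334) (B (L (nat_lit 365) ln13_14_6 ln13_14_6_ok) (L (nat_lit 430) ln14_10_5 ln14_10_5_ok))))))) (B (M (nat_lit 398) (B (M (nat_lit 461) (B (L (nat_lit 493) ln13_15_6 ln13_15_6_ok) (M (nat_lit 334) (B (L (nat_lit 302) ln14_9_5 ln14_9_5_ok) (L (nat_lit 430) ln14_10_5 ln14_10_5_ok))))) (B (M (nat_lit 395) (B (L (nat_lit 367) ln11_12_2 ln11_12_2_ok) (M (nat_lit 430) (B (L (nat_lit 394) ln10_12_0 ln10_12_0_ok) (L (nat_lit 431) ln11_12_0 ln11_12_0_ok))))) (M (nat_lit 367) (B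 (L (nat_lit 395) ln11_12_2 ln11_12_2_ok) (M (nat_lit 368) (B (L (nat_lit 369) ln17_11_1 ln17_11_1_ok) (L (nat_lit 399) ln12_12_2 ln12_12_2_ok)))))))) (B (M (nat_lit 461) (B (M (nat_lit 493) (B (L (nat_lit 364) ln13_15_7 ln13_15_7_ok) (L (nat_lit 398) ln13_15_6 ln13_15_6_ok))) (B (M (nat_lit 398) (B (L (nat_lit 493) ln13_15_6 ln13_15_6_ok) (M (nat_lit 334) (B (L (nat_lit 365) ln13_14_6 ln13_14_6_ok) (L (nat_lit 430) ln14_10_5 ln14_10_5_ok))))) (B (M (nat_lit 492) (B (M (nat_lit 365) (B (L (nat_lit 334) ln13_14_6 ln13_14_6_ok) (L (nat_lit 460) ln13_11_5 ln13_11_5_ok))) (M (nat_lit 493) (B (L (nat_lit 364) ln13_15_7 ln13_15_7_ok) (L (nat_lit 524) ln13_12_5 ln13_12_5_ok))))) (M (nat_lit 334) (B (L (nat_lit 365) ln13_14_6 ln13_14_6_ok) (M (nat_lit 398) (B (L (nat_lit 302) ln14_9_5 ln14_9_5_ok) (L (nat_lit 430) ln14_10_5 ln14_10_5_ok))))))))) (M (nat_lit 365) (B (M (nat_lit 395) (B (L (nat_lit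 394) ln10_12_2 ln10_12_2_ok) (M (nat_lit 367) (B (L (nat_lit 364) ln15_11_1 ln15_11_1_ok) (L (nat_lit 368) ln16_11_1 ln16_11_1_ok))))) (M (nat_lit 334) (B (L (nat_lit 461) ln13_14_6 ln13_14_6_ok) (M (nat_lit 302) (B (L (nat_lit 270) ln14_8_5 ln14_8_5_ok) (L (nat_lit 333) ln13_13_6 ln13_13_6_ok)))))))))))) (B c41_n5944 (B c41_n6142 (B (K (nat_lit 1386334847544579281930502452632026696468783264124728123740719198963059283254184240648144927045128292788721448874933630659377233920) (nat_lit 1179363258141160341643495071931337041079338391680722326067078865064727544680858635520161701472576973115304411195672356740256687084927995320565438280231577860280143577088) (nat_lit 1179363258141160341643495071931337041079338391680722326067078865064727544680858635520161701472576973115304411195672356740256687084927995320565438280231577860280143577088) c41_s6332) (B (K (nat_lit 1386334847544579281930502452632026696468783264124728123740719198963059283254184240648144927045128292788721448874933630659377233920)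 (nat_lit 1179363258168619532282419175462051702300041246999585238508448830026834004384974623929146015728484590554003434747068207571470527751321017837542731860609578065265088790528) (nat_lit 1179363258168619532282419175462051702300041246999585238508448830026834004384974623929146015728484590554003434747068207571470527751321017837542731860609578065265088790528) c41_s6406) (B (K (nat_lit 1386334847544579281930502452632026696468783264124728123740719198963059283254184240648144927045128292788721448874933630659377233920) (nat_lit 1179363258141160341641896736602124099037041632571929104017831156918064487751089081567254383511853603842055532073890231295906259906101488844918682701458131667213495566336) (nat_lit 1179363258141160341641896736602124099037041632571929104017831156918064487751089081567254383511853603842055532073890231295906259906101488844918682701458131667213495566336) c41_s6477) (B (M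 (nat_lit 461) (B (M (nat_lit 364) (B (L (nat_lit 493) ln13_15_7 ln13_15_7_ok) (M (nat_lit 332) (B (L (nat_lit 300) ln12_9_4 ln12_9_4_ok) (L (nat_lit 365) ln13_14_7 ln13_14_7_ok))))) (B (M (nat_lit 493) (B (L (nat_lit 364) ln13_15_7 ln13_15_7_ok) (M (nat_lit 525) (B (M (nat_lit 524) (B (L (nat_lit 492) ln13_12_5 ln13_12_5_ok) (L (nat_lit 556) ln13_13_5 ln13_13_5_ok))) (M (nat_lit 526) (B (L (nat_lit 494) ln13_12_4 ln13_12_4_ok) (L (nat_lit 558) ln13_13_4 ln13_13_4_ok))))))) (B (M (nat_lit 365) (B (M (nat_lit 333) (B (M (nat_lit 334) (B (L (nat_lit 302) ln13_13_6 ln13_13_6_ok) (L (nat_lit 366) ln13_14_6 ln13_14_6_ok))) (M (nat_lit 462) (B (L (nat_lit 430) ln13_10_4 ln13_10_4_ok) (L (nat_lit 494) ln13_11_4 ln13_11_4_ok))))) (B (M (nat_lit 493) (B (M (nat_lit 492) (B (L (nat_lit 460) ln13_11_5 ln13_11_5_ok) (L (nat_lit 524) ln13_12_5 ln13_12_5_ok))) (M (nat_lit 494) (B (L (nat_lit 462)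 ln13_11_4 ln13_11_4_ok) (L (nat_lit 526) ln13_12_4 ln13_12_4_ok))))) (M (nat_lit 493) (B (M (nat_lit 366) (B (L (nat_lit 334) ln13_14_6 ln13_14_6_ok) (L (nat_lit 398) ln13_15_6 ln13_15_6_ok))) (M (nat_lit 492) (B (L (nat_lit 460) ln13_11_5 ln13_11_5_ok) (L (nat_lit 524) ln13_12_5 ln13_12_5_ok)))))))) (M (nat_lit 365) (B (M (nat_lit 333) (B (M (nat_lit 334) (B (L (nat_lit 302) ln13_13_6 ln13_13_6_ok) (L (nat_lit 366) ln13_14_6 ln13_14_6_ok))) (M (nat_lit 462) (B (L (nat_lit 430) ln13_10_4 ln13_10_4_ok) (L (nat_lit 494) ln13_11_4 ln13_11_4_ok))))) (B (M (nat_lit 333) (B (M (nat_lit 332) (B (L (nat_lit 300) ln13_13_7 ln13_13_7_ok) (L (nat_lit 364) ln13_14_7 ln13_14_7_ok))) (M (nat_lit 462) (B (L (nat_lit 430) ln13_10_4 ln13_10_4_ok) (L (nat_lit 494) ln13_11_4 ln13_11_4_ok))))) (M (nat_lit 364) (B (L (nat_lit 332) ln13_14_7 ln13_14_7_ok) (M (nat_lit 366) (B (L (nat_lit 334) ln13_14_6 ln13_14_6_ok)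 (M (nat_lit 367) (B (L (nat_lit 395) ln15_11_1 ln15_11_1_ok) (L (nat_lit 368) ln16_11_1 ln16_11_1_ok)))))))))))))) (B (M (nat_lit 461) (B (M (nat_lit 364) (B (L (nat_lit 493) ln13_15_7 ln13_15_7_ok) (M (nat_lit 332) (B (L (nat_lit 300) ln12_9_4 ln12_9_4_ok) (L (nat_lit 365) ln13_14_7 ln13_14_7_ok))))) (B (M (nat_lit 493) (B (L (nat_lit 364) ln13_15_7 ln13_15_7_ok) (M (nat_lit 525) (B (M (nat_lit 524) (B (L (nat_lit 492) ln13_12_5 ln13_12_5_ok) (L (nat_lit 556) ln13_13_5 ln13_13_5_ok))) (M (nat_lit 526) (B (L (nat_lit 494) ln13_12_4 ln13_12_4_ok) (L (nat_lit 558) ln13_13_4 ln13_13_4_ok))))))) (B (M (nat_lit 365) (B (M (nat_lit 333) (B (M (nat_lit 334) (B (L (nat_lit 302) ln13_13_6 ln13_13_6_ok) (L (nat_lit 366) ln13_14_6 ln13_14_6_ok))) (M (nat_lit 462) (B (L (nat_lit 430) ln13_10_4 ln13_10_4_ok) (L (nat_lit 494) ln13_11_4 ln13_11_4_ok))))) (B (M (nat_lit 493) (B (M (nat_lit 492) (B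 (L (nat_lit 460) ln13_11_5 ln13_11_5_ok) (L (nat_lit 524) ln13_12_5 ln13_12_5_ok))) (M (nat_lit 494) (B (L (nat_lit 462) ln13_11_4 ln13_11_4_ok) (L (nat_lit 526) ln13_12_4 ln13_12_4_ok))))) (M (nat_lit 493) (B (M (nat_lit 366) (B (L (nat_lit 334) ln13_14_6 ln13_14_6_ok) (L (nat_lit 398) ln13_15_6 ln13_15_6_ok))) (M (nat_lit 492) (B (L (nat_lit 460) ln13_11_5 ln13_11_5_ok) (L (nat_lit 524) ln13_12_5 ln13_12_5_ok)))))))) (M (nat_lit 365) (B (M (nat_lit 333) (B (M (nat_lit 334) (B (L (nat_lit 302) ln13_13_6 ln13_13_6_ok) (L (nat_lit 366) ln13_14_6 ln13_14_6_ok))) (M (nat_lit 462) (B (L (nat_lit 430) ln13_10_4 ln13_10_4_ok) (L (nat_lit 494) ln13_11_4 ln13_11_4_ok))))) (B (M (nat_lit 333) (B (M (nat_lit 332) (B (L (nat_lit 300) ln13_13_7 ln13_13_7_ok) (L (nat_lit 364) ln13_14_7 ln13_14_7_ok))) (M (nat_lit 462) (B (L (nat_lit 430) ln13_10_4 ln13_10_4_ok) (L (nat_lit 494) ln13_11_4 ln13_11_4_ok)))))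 (M (nat_lit 364) (B (L (nat_lit 332) ln13_14_7 ln13_14_7_ok) (M (nat_lit 366) (B (L (nat_lit 334) ln13_14_6 ln13_14_6_ok) (M (nat_lit 363) (B (M (nat_lit 362) (B (L (nat_lit 361) ln9_11_0 ln9_11_0_ok) (L (nat_lit 398) ln10_11_0 ln10_11_0_ok))) (B (M (nat_lit 398) (B (L (nat_lit 362) ln10_11_0 ln10_11_0_ok) (L (nat_lit 399) ln11_11_0 ln11_11_0_ok))) (B (M (nat_lit 399) (B (L (nat_lit 398) ln11_11_0 ln11_11_0_ok) (M (nat_lit 367) (B (L (nat_lit 400) ln12_11_0 ln12_11_0_ok) (L (nat_lit 368) ln16_11_1 ln16_11_1_ok))))) (M (nat_lit 362) (B (L (nat_lit 361) ln9_11_0 ln9_11_0_ok) (M (nat_lit 330) (B (L (nat_lit 329) ln13_11_3 ln13_11_3_ok) (L (nat_lit 331) ln14_11_3 ln14_11_3_ok)))))))))))))))))))) (B c41_n6505 (B (K (nat_lit 1386334847544579281930502452632026696468783264124728123740719198963059283254184240648144927045128292788721448874933630659377233920) (nat_lit 1179363258168619532282419175462051702214088486474093228226129964109714522868134791582379637169461882174566864328817700078050078647305001781506831280568370943310197424128)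 (nat_lit 1179363258168619532282419175462051702214088486474093228226129964109714522868134791582379637169461882174566864328817700078050078647305001781506831280568370943310197424128) c41_s6696) c41_n6753)))))))))))))) (nat_lit 1386334847221798047169638878925036799968406779833514899637066259859226863686603287896039777716422623628704219945445734162783797248) (nat_lit 1179363258607966582634669989046860728854785308481229181218392137097444610185413963561446952257714279966941372971087952785790672377500683450003366684856553352265153380352) (nat_lit 1179363258607966582634669989046860728854785308481229181218392137097444610185413963561446952257714279966941372971087952785790672377500683450003366684856553352265153380352) (by decide +kernel)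
theorem c41_s6799 : Sem (nat_lit 5954262831509113918132062396282775570385837752578025598503436755117483203237837978526166781103184508316224095151584552317312083661638598656) (nat_lit 235872651633723906817068269327796965633731552396374968197327837832510466740771394136442917477511280295340795636049100723222539608708500952267302007196251123279728738304) (nat_lit 235872651633723906817068269327796965633731552396374968197327837832510466740771394136442917477511280295340795636049100723222539608708500952267302007196251123279728738304) :=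
  sem_of_chk (M (nat_lit 460) (B (M (nat_lit 492) (B (M (nat_lit 397) (B (L (nat_lit 365) ln12_15_6 ln12_15_6_ok) (L (nat_lit 524) ln12_16_6 ln12_16_6_ok))) (B (M (nat_lit 524) (B (L (nat_lit 397) ln12_16_6 ln12_16_6_ok) (L (nat_lit 556) ln12_17_6 ln12_17_6_ok))) (B (M (nat_lit 395) (B (L (nat_lit 363) ln12_15_7 ln12_15_7_ok) (M (nat_lit 524) (B (L (nat_lit 427) ln12_16_7 ln12_16_7_ok) (L (nat_lit 556) ln12_17_6 ln12_17_6_ok))))) (M (nat_lit 364) (B (M (nat_lit 363) (B (L (nat_lit 331) ln12_14_7 ln12_14_7_ok) (L (nat_lit 395) ln12_15_7 ln12_15_7_ok))) (M (nat_lit 365) (B (L (nat_lit 333) ln12_14_6 ln12_14_6_ok) (L (nat_lit 397) ln12_15_6 ln12_15_6_ok))))))))) (B (M (nat_lit 492) (B (M (nat_lit 397) (B (L (nat_lit 365) ln12_15_6 ln12_15_6_ok) (L (nat_lit 524) ln12_16_6 ln12_16_6_ok))) (B (M (nat_lit 524) (B (L (nat_lit 397) ln12_16_6 ln12_16_6_ok) (L (nat_lit 556) ln12_17_6 ln12_17_6_ok)))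 (B (M (nat_lit 395) (B (L (nat_lit 363) ln12_15_7 ln12_15_7_ok) (M (nat_lit 524) (B (L (nat_lit 427) ln12_16_7 ln12_16_7_ok) (L (nat_lit 556) ln12_17_6 ln12_17_6_ok))))) (M (nat_lit 364) (B (M (nat_lit 365) (B (L (nat_lit 333) ln12_14_6 ln12_14_6_ok) (L (nat_lit 397) ln12_15_6 ln12_15_6_ok))) (M (nat_lit 491) (B (L (nat_lit 459) ln12_11_5 ln12_11_5_ok) (L (nat_lit 523) ln12_12_5 ln12_12_5_ok))))))))) (B (M (nat_lit 492) (B (M (nat_lit 397) (B (L (nat_lit 365) ln12_15_6 ln12_15_6_ok) (L (nat_lit 524) ln12_16_6 ln12_16_6_ok))) (B (M (nat_lit 524) (B (L (nat_lit 397) ln12_16_6 ln12_16_6_ok) (L (nat_lit 556) ln12_17_6 ln12_17_6_ok))) (B (M (nat_lit 395) (B (L (nat_lit 363) ln12_15_7 ln12_15_7_ok) (M (nat_lit 524) (B (L (nat_lit 427) ln12_16_7 ln12_16_7_ok) (L (nat_lit 556) ln12_17_6 ln12_17_6_ok))))) (M (nat_lit 364) (B (M (nat_lit 363) (B (L (nat_lit 331) ln12_14_7 ln12_14_7_ok) (L (nat_lit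 395) ln12_15_7 ln12_15_7_ok))) (M (nat_lit 491) (B (L (nat_lit 459) ln12_11_5 ln12_11_5_ok) (L (nat_lit 523) ln12_12_5 ln12_12_5_ok))))))))) (B (M (nat_lit 492) (B (M (nat_lit 397) (B (L (nat_lit 365) ln12_15_6 ln12_15_6_ok) (L (nat_lit 524) ln12_16_6 ln12_16_6_ok))) (B (M (nat_lit 524) (B (L (nat_lit 397) ln12_16_6 ln12_16_6_ok) (L (nat_lit 556) ln12_17_6 ln12_17_6_ok))) (B (M (nat_lit 427) (B (M (nat_lit 524) (B (L (nat_lit 395) ln12_16_7 ln12_16_7_ok) (L (nat_lit 556) ln12_17_6 ln12_17_6_ok))) (M (nat_lit 462) (B (L (nat_lit 426) ln10_13_0 ln10_13_0_ok) (L (nat_lit 463) ln15_14_3 ln15_14_3_ok))))) (M (nat_lit 364) (B (M (nat_lit 365) (B (L (nat_lit 333) ln12_14_6 ln12_14_6_ok) (L (nat_lit 397) ln12_15_6 ln12_15_6_ok))) (M (nat_lit 491) (B (L (nat_lit 459) ln12_11_5 ln12_11_5_ok) (L (nat_lit 523) ln12_12_5 ln12_12_5_ok))))))))) (B (M (nat_lit 397) (B (M (nat_lit 365) (B (L (nat_lit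 333) ln13_10_5 ln13_10_5_ok) (L (nat_lit 492) ln12_15_6 ln12_15_6_ok))) (B (M (nat_lit 492) (B (L (nat_lit 365) ln12_15_6 ln12_15_6_ok) (L (nat_lit 524) ln12_16_6 ln12_16_6_ok))) (B (M (nat_lit 395) (B (M (nat_lit 492) (B (L (nat_lit 363) ln12_15_7 ln12_15_7_ok) (L (nat_lit 524) ln12_16_6 ln12_16_6_ok))) (M (nat_lit 426) (B (M (nat_lit 394) (B (L (nat_lit 393) ln9_12_0 ln9_12_0_ok) (L (nat_lit 425) ln13_12_1 ln13_12_1_ok))) (M (nat_lit 427) (B (L (nat_lit 398) ln14_12_1 ln14_12_1_ok) (L (nat_lit 462) ln10_13_0 ln10_13_0_ok))))))) (M (nat_lit 462) (B (M (nat_lit 365) (B (L (nat_lit 333) ln13_10_5 ln13_10_5_ok) (L (nat_lit 494) ln13_11_4 ln13_11_4_ok))) (M (nat_lit 463) (B (L (nat_lit 427) ln15_14_3 ln15_14_3_ok) (L (nat_lit 464) ln16_14_3 ln16_14_3_ok))))))))) (B (M (nat_lit 492) (B (M (nat_lit 524) (B (L (nat_lit 397) ln12_16_6 ln12_16_6_ok) (L (nat_lit 556) ln12_17_6 ln12_17_6_ok)))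 (B (M (nat_lit 395) (B (L (nat_lit 363) ln12_15_7 ln12_15_7_ok) (M (nat_lit 524) (B (L (nat_lit 427) ln12_16_7 ln12_16_7_ok) (L (nat_lit 556) ln12_17_6 ln12_17_6_ok))))) (M (nat_lit 364) (B (M (nat_lit 363) (B (L (nat_lit 331) ln12_14_7 ln12_14_7_ok) (L (nat_lit 395) ln12_15_7 ln12_15_7_ok))) (M (nat_lit 491) (B (L (nat_lit 459) ln12_11_5 ln12_11_5_ok) (L (nat_lit 523) ln12_12_5 ln12_12_5_ok)))))))) (B (M (nat_lit 397) (B (M (nat_lit 365) (B (L (nat_lit 333) ln13_10_5 ln13_10_5_ok) (L (nat_lit 492) ln12_15_6 ln12_15_6_ok))) (B (M (nat_lit 492) (B (L (nat_lit 365) ln12_15_6 ln12_15_6_ok) (L (nat_lit 524) ln12_16_6 ln12_16_6_ok))) (B (M (nat_lit 462) (B (M (nat_lit 427) (B (L (nat_lit 426) ln10_13_0 ln10_13_0_ok) (L (nat_lit 463) ln15_14_3 ln15_14_3_ok))) (B (M (nat_lit 463) (B (L (nat_lit 427) ln15_14_3 ln15_14_3_ok) (L (nat_lit 464) ln16_14_3 ln16_14_3_ok))) (B (M (nat_lit 463) (B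 (L (nat_lit 464) ln16_14_3 ln16_14_3_ok) (M (nat_lit 492) (B (L (nat_lit 524) ln12_16_6 ln12_16_6_ok) (L (nat_lit 491) ln15_14_1 ln15_14_1_ok))))) (M (nat_lit 491) (B (M (nat_lit 492) (B (L (nat_lit 523) ln12_12_5 ln12_12_5_ok) (L (nat_lit 524) ln12_16_6 ln12_16_6_ok))) (M (nat_lit 459) (B (L (nat_lit 364) ln12_11_5 ln12_11_5_ok) (L (nat_lit 490) ln14_14_1 ln14_14_1_ok))))))))) (M (nat_lit 462) (B (M (nat_lit 365) (B (L (nat_lit 333) ln13_10_5 ln13_10_5_ok) (L (nat_lit 494) ln13_11_4 ln13_11_4_ok))) (M (nat_lit 463) (B (L (nat_lit 427) ln15_14_3 ln15_14_3_ok) (L (nat_lit 464) ln16_14_3 ln16_14_3_ok))))))))) (B (M (nat_lit 462) (B (M (nat_lit 427) (B (L (nat_lit 426) ln10_13_0 ln10_13_0_ok) (L (nat_lit 463) ln15_14_3 ln15_14_3_ok))) (B (M (nat_lit 463) (B (L (nat_lit 427) ln15_14_3 ln15_14_3_ok) (L (nat_lit 464) ln16_14_3 ln16_14_3_ok))) (B (M (nat_lit 463) (B (L (nat_lit 464) ln16_14_3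 ln16_14_3_ok) (M (nat_lit 459) (B (M (nat_lit 491) (B (L (nat_lit 364) ln12_11_5 ln12_11_5_ok) (L (nat_lit 490) ln14_14_1 ln14_14_1_ok))) (M (nat_lit 495) (B (L (nat_lit 494) ln11_14_0 ln11_14_0_ok) (L (nat_lit 496) ln12_14_0 ln12_14_0_ok))))))) (M (nat_lit 426) (B (L (nat_lit 427) ln10_13_0 ln10_13_0_ok) (M (nat_lit 459) (B (M (nat_lit 458) (B (L (nat_lit 425) ln13_14_3 ln13_14_3_ok) (L (nat_lit 457) ln9_14_2 ln9_14_2_ok))) (M (nat_lit 491) (B (L (nat_lit 364) ln12_11_5 ln12_11_5_ok) (L (nat_lit 490) ln14_14_1 ln14_14_1_ok))))))))))) (M (nat_lit 492) (B (M (nat_lit 397) (B (L (nat_lit 365) ln12_15_6 ln12_15_6_ok) (L (nat_lit 524) ln12_16_6 ln12_16_6_ok))) (M (nat_lit 364) (B (M (nat_lit 363) (B (L (nat_lit 331) ln12_14_7 ln12_14_7_ok) (L (nat_lit 395) ln12_15_7 ln12_15_7_ok))) (M (nat_lit 491) (B (L (nat_lit 459) ln12_11_5 ln12_11_5_ok) (L (nat_lit 523) ln12_12_5 ln12_12_5_ok))))))))))))))))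 (nat_lit 5954262831509113918132062396282775570385837752578025598503436755117483203237837978526166781103184508316224095151584552317312083661638598656) (nat_lit 235872651633723906817068269327796965633731552396374968197327837832510466740771394136442917477511280295340795636049100723222539608708500952267302007196251123279728738304) (nat_lit 235872651633723906817068269327796965633731552396374968197327837832510466740771394136442917477511280295340795636049100723222539608708500952267302007196251123279728738304) (by decide +kernel)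
noncomputable def c41_n6803 : Cert := (M (nat_lit 461) (B (M (nat_lit 493) (B (L (nat_lit 525) ln13_16_7 ln13_16_7_ok) (M (nat_lit 364) (B (L (nat_lit 397) ln13_15_7 ln13_15_7_ok) (L (nat_lit 460) ln12_11_4 ln12_11_4_ok))))) (B (M (nat_lit 493) (B (L (nat_lit 525) ln13_16_7 ln13_16_7_ok) (M (nat_lit 397) (B (M (nat_lit 398) (B (L (nat_lit 366) ln13_15_6 ln13_15_6_ok) (M (nat_lit 399) (B (L (nat_lit 427) ln15_12_1 ln15_12_1_ok) (L (nat_lit 400) ln16_12_1 ln16_12_1_ok))))) (M (nat_lit 492) (B (L (nat_lit 524) ln13_12_5 ln13_12_5_ok) (M (nat_lit 365) (B (L (nat_lit 460) ln12_15_6 ln12_15_6_ok) (M (nat_lit 494) (B (L (nat_lit 462) ln13_11_4 ln13_11_4_ok) (L (nat_lit 526) ln13_12_4 ln13_12_4_ok))))))))))) (B (M (nat_lit 493) (B (L (nat_lit 525) ln13_16_7 ln13_16_7_ok) (M (nat_lit 364) (B (L (nat_lit 332) ln12_10_4 ln12_10_4_ok) (L (nat_lit 460) ln12_11_4 ln12_11_4_ok))))) (B (M (nat_lit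 493) (B (L (nat_lit 525) ln13_16_7 ln13_16_7_ok) (M (nat_lit 364) (B (L (nat_lit 332) ln12_10_4 ln12_10_4_ok) (L (nat_lit 397) ln13_15_7 ln13_15_7_ok))))) (M (nat_lit 460) (B (M (nat_lit 364) (B (L (nat_lit 332) ln12_10_4 ln12_10_4_ok) (M (nat_lit 492) (B (M (nat_lit 363) (B (L (nat_lit 331) ln12_14_7 ln12_14_7_ok) (L (nat_lit 395) ln12_15_7 ln12_15_7_ok))) (M (nat_lit 491) (B (L (nat_lit 459) ln12_11_5 ln12_11_5_ok) (L (nat_lit 523) ln12_12_5 ln12_12_5_ok))))))) (B (M (nat_lit 364) (B (L (nat_lit 332) ln12_10_4 ln12_10_4_ok) (M (nat_lit 492) (B (M (nat_lit 491) (B (L (nat_lit 459) ln12_11_5 ln12_11_5_ok) (L (nat_lit 523) ln12_12_5 ln12_12_5_ok))) (M (nat_lit 524) (B (L (nat_lit 397) ln12_16_6 ln12_16_6_ok) (L (nat_lit 556) ln12_17_6 ln12_17_6_ok))))))) (B (M (nat_lit 492) (B (M (nat_lit 397) (B (L (nat_lit 365) ln12_15_6 ln12_15_6_ok) (L (nat_lit 524) ln12_16_6 ln12_16_6_ok))) (B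 (M (nat_lit 524) (B (L (nat_lit 397) ln12_16_6 ln12_16_6_ok) (L (nat_lit 556) ln12_17_6 ln12_17_6_ok))) (B (M (nat_lit 395) (B (L (nat_lit 363) ln12_15_7 ln12_15_7_ok) (M (nat_lit 524) (B (L (nat_lit 427) ln12_16_7 ln12_16_7_ok) (L (nat_lit 556) ln12_17_6 ln12_17_6_ok))))) (M (nat_lit 364) (B (M (nat_lit 363) (B (L (nat_lit 331) ln12_14_7 ln12_14_7_ok) (L (nat_lit 395) ln12_15_7 ln12_15_7_ok))) (M (nat_lit 491) (B (L (nat_lit 459) ln12_11_5 ln12_11_5_ok) (L (nat_lit 523) ln12_12_5 ln12_12_5_ok))))))))) (B (M (nat_lit 492) (B (M (nat_lit 397) (B (L (nat_lit 365) ln12_15_6 ln12_15_6_ok) (L (nat_lit 524) ln12_16_6 ln12_16_6_ok))) (B (M (nat_lit 524) (B (L (nat_lit 397) ln12_16_6 ln12_16_6_ok) (L (nat_lit 556) ln12_17_6 ln12_17_6_ok))) (B (M (nat_lit 395) (B (L (nat_lit 363) ln12_15_7 ln12_15_7_ok) (M (nat_lit 524) (B (L (nat_lit 427) ln12_16_7 ln12_16_7_ok) (L (nat_lit 556) ln12_17_6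 ln12_17_6_ok))))) (M (nat_lit 491) (B (L (nat_lit 523) ln12_12_5 ln12_12_5_ok) (M (nat_lit 462) (B (L (nat_lit 463) ln15_14_1 ln15_14_1_ok) (M (nat_lit 490) (B (L (nat_lit 459) ln14_14_1 ln14_14_1_ok) (L (nat_lit 489) ln9_15_2 ln9_15_2_ok))))))))))) (B (M (nat_lit 364) (B (L (nat_lit 332) ln12_10_4 ln12_10_4_ok) (M (nat_lit 492) (B (M (nat_lit 363) (B (L (nat_lit 331) ln12_14_7 ln12_14_7_ok) (L (nat_lit 395) ln12_15_7 ln12_15_7_ok))) (M (nat_lit 524) (B (L (nat_lit 397) ln12_16_6 ln12_16_6_ok) (L (nat_lit 556) ln12_17_6 ln12_17_6_ok))))))) (M (nat_lit 462) (B (M (nat_lit 427) (B (L (nat_lit 426) ln10_13_0 ln10_13_0_ok) (L (nat_lit 463) ln15_14_3 ln15_14_3_ok))) (B (M (nat_lit 463) (B (L (nat_lit 427) ln15_14_3 ln15_14_3_ok) (L (nat_lit 464) ln16_14_3 ln16_14_3_ok))) (B (M (nat_lit 463) (B (L (nat_lit 464) ln16_14_3 ln16_14_3_ok) (M (nat_lit 459) (B (M (nat_lit 491) (B (L (nat_lit 364)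 ln12_11_5 ln12_11_5_ok) (L (nat_lit 490) ln14_14_1 ln14_14_1_ok))) (M (nat_lit 495) (B (L (nat_lit 494) ln11_14_0 ln11_14_0_ok) (L (nat_lit 496) ln12_14_0 ln12_14_0_ok))))))) (M (nat_lit 426) (B (L (nat_lit 427) ln10_13_0 ln10_13_0_ok) (M (nat_lit 459) (B (M (nat_lit 458) (B (L (nat_lit 425) ln13_14_3 ln13_14_3_ok) (L (nat_lit 457) ln9_14_2 ln9_14_2_ok))) (M (nat_lit 491) (B (L (nat_lit 364) ln12_11_5 ln12_11_5_ok) (L (nat_lit 490) ln14_14_1 ln14_14_1_ok))))))))))))))))))))))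
theorem c41_s6815 : Sem (nat_lit 2079502270752001762064242424960807725827516048677469043429686155012882190638009693656033379242457518153052022685796627120027336704) (nat_lit 411887859809226825471423261193574799927313188856584891184722876330809148931876437897046151152769048519730737861168558160677132308403467200328120635738690682880) (nat_lit 411887859809226825471423261193574799927313188856584891184722876330809148931876437897046151152769048519730737861168558160677132308403467200328120635738690682880) :=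
  sem_of_chk (M (nat_lit 397) (B (M (nat_lit 398) (B (M (nat_lit 399) (B (L (nat_lit 427) ln15_12_1 ln15_12_1_ok) (L (nat_lit 400) ln16_12_1 ln16_12_1_ok))) (M (nat_lit 365) (B (M (nat_lit 460) (B (L (nat_lit 333) ln13_10_5 ln13_10_5_ok) (L (nat_lit 492) ln12_15_6 ln12_15_6_ok))) (M (nat_lit 366) (B (M (nat_lit 334) (B (L (nat_lit 302) ln14_9_5 ln14_9_5_ok) (L (nat_lit 461) ln13_14_6 ln13_14_6_ok))) (M (nat_lit 367) (B (L (nat_lit 368) ln16_11_1 ln16_11_1_ok) (L (nat_lit 395) ln11_12_2 ln11_12_2_ok))))))))) (B (M (nat_lit 398) (B (M (nat_lit 399) (B (L (nat_lit 427) ln15_12_1 ln15_12_1_ok) (L (nat_lit 400) ln16_12_1 ln16_12_1_ok))) (M (nat_lit 365) (B (M (nat_lit 460) (B (L (nat_lit 333) ln13_10_5 ln13_10_5_ok) (L (nat_lit 492) ln12_15_6 ln12_15_6_ok))) (M (nat_lit 366) (B (M (nat_lit 367) (B (L (nat_lit 368) ln16_11_1 ln16_11_1_ok) (L (nat_lit 395) ln11_12_2 ln11_12_2_ok))) (M (nat_lit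 461) (B (L (nat_lit 334) ln13_14_6 ln13_14_6_ok) (L (nat_lit 493) ln13_15_6 ln13_15_6_ok))))))))) (B (M (nat_lit 398) (B (M (nat_lit 399) (B (L (nat_lit 427) ln15_12_1 ln15_12_1_ok) (L (nat_lit 400) ln16_12_1 ln16_12_1_ok))) (B (M (nat_lit 427) (B (L (nat_lit 426) ln10_13_2 ln10_13_2_ok) (M (nat_lit 395) (B (M (nat_lit 363) (B (L (nat_lit 362) ln14_12_3 ln14_12_3_ok) (M (nat_lit 331) (B (L (nat_lit 299) ln11_9_4 ln11_9_4_ok) (L (nat_lit 460) ln11_10_4 ln11_10_4_ok))))) (M (nat_lit 394) (B (L (nat_lit 393) ln9_12_0 ln9_12_0_ok) (M (nat_lit 366) (B (L (nat_lit 365) ln10_12_2 ln10_12_2_ok) (L (nat_lit 367) ln11_12_2 ln11_12_2_ok))))))))) (M (nat_lit 395) (B (M (nat_lit 366) (B (L (nat_lit 367) ln11_12_2 ln11_12_2_ok) (M (nat_lit 394) (B (L (nat_lit 365) ln10_12_2 ln10_12_2_ok) (L (nat_lit 393) ln9_12_0 ln9_12_0_ok))))) (B (M (nat_lit 399) (B (L (nat_lit 400) ln16_12_1 ln16_12_1_ok) (M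 (nat_lit 367) (B (L (nat_lit 366) ln11_12_2 ln11_12_2_ok) (L (nat_lit 368) ln12_12_2 ln12_12_2_ok))))) (M (nat_lit 394) (B (L (nat_lit 393) ln9_12_0 ln9_12_0_ok) (M (nat_lit 362) (B (L (nat_lit 361) ln13_12_3 ln13_12_3_ok) (L (nat_lit 363) ln14_12_3 ln14_12_3_ok))))))))))) (B (M (nat_lit 398) (B (M (nat_lit 399) (B (L (nat_lit 427) ln15_12_1 ln15_12_1_ok) (L (nat_lit 400) ln16_12_1 ln16_12_1_ok))) (B (M (nat_lit 395) (B (M (nat_lit 426) (B (L (nat_lit 427) ln14_12_1 ln14_12_1_ok) (M (nat_lit 394) (B (L (nat_lit 393) ln9_12_0 ln9_12_0_ok) (L (nat_lit 425) ln13_12_1 ln13_12_1_ok))))) (B (M (nat_lit 394) (B (M (nat_lit 362) (B (L (nat_lit 361) ln13_12_3 ln13_12_3_ok) (L (nat_lit 363) ln14_12_3 ln14_12_3_ok))) (M (nat_lit 426) (B (L (nat_lit 425) ln13_12_1 ln13_12_1_ok) (L (nat_lit 427) ln14_12_1 ln14_12_1_ok))))) (B (M (nat_lit 427) (B (L (nat_lit 426) ln14_12_1 ln14_12_1_ok) (M (nat_lit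 363) (B (L (nat_lit 362) ln14_12_3 ln14_12_3_ok) (M (nat_lit 331) (B (L (nat_lit 299) ln11_9_4 ln11_9_4_ok) (L (nat_lit 460) ln11_10_4 ln11_10_4_ok))))))) (M (nat_lit 394) (B (L (nat_lit 393) ln9_12_0 ln9_12_0_ok) (M (nat_lit 362) (B (L (nat_lit 361) ln13_12_3 ln13_12_3_ok) (L (nat_lit 363) ln14_12_3 ln14_12_3_ok))))))))) (M (nat_lit 395) (B (M (nat_lit 394) (B (L (nat_lit 393) ln9_12_0 ln9_12_0_ok) (M (nat_lit 362) (B (L (nat_lit 361) ln13_12_3 ln13_12_3_ok) (L (nat_lit 363) ln14_12_3 ln14_12_3_ok))))) (M (nat_lit 399) (B (L (nat_lit 400) ln16_12_1 ln16_12_1_ok) (M (nat_lit 367) (B (L (nat_lit 366) ln11_12_2 ln11_12_2_ok) (L (nat_lit 368) ln12_12_2 ln12_12_2_ok)))))))))) (B (M (nat_lit 461) (B (M (nat_lit 493) (B (L (nat_lit 525) ln13_16_7 ln13_16_7_ok) (M (nat_lit 492) (B (L (nat_lit 524) ln13_12_5 ln13_12_5_ok) (M (nat_lit 365) (B (L (nat_lit 460) ln12_15_6 ln12_15_6_ok) (M (nat_lit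 494) (B (L (nat_lit 462) ln13_11_4 ln13_11_4_ok) (L (nat_lit 526) ln13_12_4 ln13_12_4_ok))))))))) (B (M (nat_lit 493) (B (L (nat_lit 525) ln13_16_7 ln13_16_7_ok) (M (nat_lit 492) (B (L (nat_lit 524) ln13_12_5 ln13_12_5_ok) (M (nat_lit 460) (B (M (nat_lit 494) (B (L (nat_lit 526) ln13_12_4 ln13_12_4_ok) (M (nat_lit 459) (B (L (nat_lit 458) ln10_14_0 ln10_14_0_ok) (L (nat_lit 495) ln15_15_3 ln15_15_3_ok))))) (M (nat_lit 491) (B (L (nat_lit 523) ln12_12_5 ln12_12_5_ok) (M (nat_lit 462) (B (L (nat_lit 463) ln15_14_1 ln15_14_1_ok) (L (nat_lit 490) ln10_15_2 ln10_15_2_ok))))))))))) (B (M (nat_lit 493) (B (L (nat_lit 525) ln13_16_7 ln13_16_7_ok) (M (nat_lit 492) (B (L (nat_lit 524) ln13_12_5 ln13_12_5_ok) (M (nat_lit 494) (B (L (nat_lit 526) ln13_12_4 ln13_12_4_ok) (M (nat_lit 462) (B (L (nat_lit 365) ln13_11_4 ln13_11_4_ok) (M (nat_lit 463) (B (L (nat_lit 464) ln16_14_3 ln16_14_3_ok) (L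 (nat_lit 491) ln11_15_2 ln11_15_2_ok))))))))))) (B (M (nat_lit 493) (B (L (nat_lit 525) ln13_16_7 ln13_16_7_ok) (M (nat_lit 492) (B (L (nat_lit 524) ln13_12_5 ln13_12_5_ok) (M (nat_lit 460) (B (L (nat_lit 365) ln12_15_6 ln12_15_6_ok) (M (nat_lit 494) (B (L (nat_lit 526) ln13_12_4 ln13_12_4_ok) (M (nat_lit 459) (B (L (nat_lit 458) ln10_14_0 ln10_14_0_ok) (L (nat_lit 495) ln15_15_3 ln15_15_3_ok))))))))))) (B (M (nat_lit 493) (B (L (nat_lit 525) ln13_16_7 ln13_16_7_ok) (M (nat_lit 365) (B (M (nat_lit 333) (B (L (nat_lit 301) ln13_9_5 ln13_9_5_ok) (L (nat_lit 460) ln13_10_5 ln13_10_5_ok))) (M (nat_lit 494) (B (L (nat_lit 462) ln13_11_4 ln13_11_4_ok) (L (nat_lit 526) ln13_12_4 ln13_12_4_ok))))))) (B (M (nat_lit 460) (B (M (nat_lit 365) (B (L (nat_lit 333) ln13_10_5 ln13_10_5_ok) (L (nat_lit 492) ln12_15_6 ln12_15_6_ok))) (B (M (nat_lit 492) (B (L (nat_lit 365) ln12_15_6 ln12_15_6_ok) (L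 (nat_lit 524) ln12_16_6 ln12_16_6_ok))) (B (M (nat_lit 395) (B (M (nat_lit 492) (B (L (nat_lit 363) ln12_15_7 ln12_15_7_ok) (L (nat_lit 524) ln12_16_6 ln12_16_6_ok))) (M (nat_lit 426) (B (M (nat_lit 394) (B (L (nat_lit 393) ln9_12_0 ln9_12_0_ok) (L (nat_lit 425) ln13_12_1 ln13_12_1_ok))) (M (nat_lit 427) (B (L (nat_lit 398) ln14_12_1 ln14_12_1_ok) (L (nat_lit 462) ln10_13_0 ln10_13_0_ok))))))) (M (nat_lit 462) (B (M (nat_lit 365) (B (L (nat_lit 333) ln13_10_5 ln13_10_5_ok) (L (nat_lit 494) ln13_11_4 ln13_11_4_ok))) (M (nat_lit 463) (B (L (nat_lit 427) ln15_14_3 ln15_14_3_ok) (L (nat_lit 464) ln16_14_3 ln16_14_3_ok))))))))) (M (nat_lit 493) (B (L (nat_lit 525) ln13_16_7 ln13_16_7_ok) (M (nat_lit 395) (B (M (nat_lit 492) (B (L (nat_lit 524) ln13_12_5 ln13_12_5_ok) (M (nat_lit 460) (B (L (nat_lit 363) ln12_15_7 ln12_15_7_ok) (L (nat_lit 365) ln12_15_6 ln12_15_6_ok))))) (M (nat_lit 426)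 (B (M (nat_lit 394) (B (L (nat_lit 393) ln9_12_0 ln9_12_0_ok) (L (nat_lit 425) ln13_12_1 ln13_12_1_ok))) (M (nat_lit 427) (B (L (nat_lit 398) ln14_12_1 ln14_12_1_ok) (L (nat_lit 462) ln10_13_0 ln10_13_0_ok)))))))))))))))) (B (M (nat_lit 461) (B (M (nat_lit 493) (B (L (nat_lit 525) ln13_16_7 ln13_16_7_ok) (M (nat_lit 398) (B (L (nat_lit 366) ln13_15_6 ln13_15_6_ok) (M (nat_lit 399) (B (L (nat_lit 427) ln15_12_1 ln15_12_1_ok) (L (nat_lit 400) ln16_12_1 ln16_12_1_ok))))))) (B (M (nat_lit 493) (B (L (nat_lit 525) ln13_16_7 ln13_16_7_ok) (M (nat_lit 365) (B (M (nat_lit 333) (B (L (nat_lit 301) ln13_9_5 ln13_9_5_ok) (L (nat_lit 460) ln13_10_5 ln13_10_5_ok))) (M (nat_lit 494) (B (L (nat_lit 462) ln13_11_4 ln13_11_4_ok) (L (nat_lit 526) ln13_12_4 ln13_12_4_ok))))))) (M (nat_lit 365) (B (M (nat_lit 333) (B (L (nat_lit 301) ln13_9_5 ln13_9_5_ok) (L (nat_lit 460) ln13_10_5 ln13_10_5_ok))) (B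 (M (nat_lit 460) (B (L (nat_lit 333) ln13_10_5 ln13_10_5_ok) (L (nat_lit 492) ln12_15_6 ln12_15_6_ok))) (B (M (nat_lit 460) (B (L (nat_lit 492) ln12_15_6 ln12_15_6_ok) (M (nat_lit 462) (B (L (nat_lit 494) ln13_11_4 ln13_11_4_ok) (M (nat_lit 427) (B (L (nat_lit 426) ln10_13_0 ln10_13_0_ok) (L (nat_lit 463) ln15_14_3 ln15_14_3_ok))))))) (M (nat_lit 333) (B (L (nat_lit 301) ln13_9_5 ln13_9_5_ok) (M (nat_lit 334) (B (L (nat_lit 302) ln13_13_6 ln13_13_6_ok) (L (nat_lit 366) ln13_14_6 ln13_14_6_ok)))))))))))) (B (M (nat_lit 365) (B (M (nat_lit 333) (B (L (nat_lit 301) ln13_9_5 ln13_9_5_ok) (L (nat_lit 460) ln13_10_5 ln13_10_5_ok))) (B (M (nat_lit 460) (B (L (nat_lit 333) ln13_10_5 ln13_10_5_ok) (L (nat_lit 492) ln12_15_6 ln12_15_6_ok))) (B (M (nat_lit 461) (B (M (nat_lit 492) (B (L (nat_lit 460) ln12_15_6 ln12_15_6_ok) (M (nat_lit 493) (B (L (nat_lit 525) ln13_16_7 ln13_16_7_ok) (L (nat_lit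 524) ln13_12_5 ln13_12_5_ok))))) (B (M (nat_lit 493) (B (L (nat_lit 525) ln13_16_7 ln13_16_7_ok) (M (nat_lit 494) (B (L (nat_lit 462) ln13_11_4 ln13_11_4_ok) (L (nat_lit 526) ln13_12_4 ln13_12_4_ok))))) (M (nat_lit 460) (B (L (nat_lit 492) ln12_15_6 ln12_15_6_ok) (M (nat_lit 462) (B (L (nat_lit 494) ln13_11_4 ln13_11_4_ok) (M (nat_lit 427) (B (L (nat_lit 426) ln10_13_0 ln10_13_0_ok) (L (nat_lit 463) ln15_14_3 ln15_14_3_ok)))))))))) (M (nat_lit 461) (B (M (nat_lit 493) (B (L (nat_lit 525) ln13_16_7 ln13_16_7_ok) (M (nat_lit 494) (B (L (nat_lit 462) ln13_11_4 ln13_11_4_ok) (L (nat_lit 526) ln13_12_4 ln13_12_4_ok))))) (M (nat_lit 333) (B (L (nat_lit 301) ln13_9_5 ln13_9_5_ok) (M (nat_lit 334) (B (L (nat_lit 302) ln13_13_6 ln13_13_6_ok) (L (nat_lit 366) ln13_14_6 ln13_14_6_ok))))))))))) (B (M (nat_lit 365) (B (M (nat_lit 333) (B (L (nat_lit 301) ln13_9_5 ln13_9_5_ok) (L (nat_lit 460) ln13_10_5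 ln13_10_5_ok))) (B (M (nat_lit 460) (B (L (nat_lit 333) ln13_10_5 ln13_10_5_ok) (L (nat_lit 492) ln12_15_6 ln12_15_6_ok))) (M (nat_lit 461) (B (M (nat_lit 366) (B (L (nat_lit 334) ln13_14_6 ln13_14_6_ok) (M (nat_lit 493) (B (L (nat_lit 398) ln13_15_6 ln13_15_6_ok) (L (nat_lit 525) ln13_16_7 ln13_16_7_ok))))) (B (M (nat_lit 493) (B (L (nat_lit 525) ln13_16_7 ln13_16_7_ok) (M (nat_lit 494) (B (L (nat_lit 462) ln13_11_4 ln13_11_4_ok) (L (nat_lit 526) ln13_12_4 ln13_12_4_ok))))) (M (nat_lit 366) (B (L (nat_lit 334) ln13_14_6 ln13_14_6_ok) (M (nat_lit 395) (B (L (nat_lit 394) ln10_12_2 ln10_12_2_ok) (M (nat_lit 367) (B (L (nat_lit 368) ln16_11_1 ln16_11_1_ok) (L (nat_lit 398) ln11_12_2 ln11_12_2_ok))))))))))))) (M (nat_lit 398) (B (M (nat_lit 399) (B (L (nat_lit 427) ln15_12_1 ln15_12_1_ok) (L (nat_lit 400) ln16_12_1 ln16_12_1_ok))) (M (nat_lit 395) (B (M (nat_lit 366) (B (L (nat_lit 367)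 ln11_12_2 ln11_12_2_ok) (M (nat_lit 394) (B (L (nat_lit 365) ln10_12_2 ln10_12_2_ok) (L (nat_lit 393) ln9_12_0 ln9_12_0_ok))))) (B (M (nat_lit 394) (B (L (nat_lit 393) ln9_12_0 ln9_12_0_ok) (M (nat_lit 362) (B (L (nat_lit 361) ln13_12_3 ln13_12_3_ok) (L (nat_lit 363) ln14_12_3 ln14_12_3_ok))))) (B (M (nat_lit 394) (B (M (nat_lit 362) (B (L (nat_lit 361) ln13_12_3 ln13_12_3_ok) (L (nat_lit 363) ln14_12_3 ln14_12_3_ok))) (M (nat_lit 366) (B (L (nat_lit 365) ln10_12_2 ln10_12_2_ok) (L (nat_lit 367) ln11_12_2 ln11_12_2_ok))))) (M (nat_lit 366) (B (L (nat_lit 367) ln11_12_2 ln11_12_2_ok) (M (nat_lit 461) (B (L (nat_lit 493) ln13_15_6 ln13_15_6_ok) (M (nat_lit 334) (B (L (nat_lit 302) ln14_9_5 ln14_9_5_ok) (L (nat_lit 365) ln13_14_6 ln13_14_6_ok)))))))))))))))))))))) (nat_lit 2079502270752001762064242424960807725827516048677469043429686155012882190638009693656033379242457518153052022685796627120027336704)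 (nat_lit 411887859809226825471423261193574799927313188856584891184722876330809148931876437897046151152769048519730737861168558160677132308403467200328120635738690682880) (nat_lit 411887859809226825471423261193574799927313188856584891184722876330809148931876437897046151152769048519730737861168558160677132308403467200328120635738690682880) (by decide +kernel)
noncomputable def c41_n6855 : Cert := (M (nat_lit 492) (B (M (nat_lit 524) (B (M (nat_lit 397) (B (L (nat_lit 460) ln12_16_6 ln12_16_6_ok) (L (nat_lit 493) ln13_12_5 ln13_12_5_ok))) (B (M (nat_lit 460) (B (L (nat_lit 556) ln12_17_6 ln12_17_6_ok) (M (nat_lit 395) (B (L (nat_lit 363) ln12_15_7 ln12_15_7_ok) (L (nat_lit 427) ln12_16_7 ln12_16_7_ok))))) (M (nat_lit 493) (B (L (nat_lit 525) ln13_16_7 ln13_16_7_ok) (L (nat_lit 397) ln13_12_5 ln13_12_5_ok)))))) (B (M (nat_lit 427) (B (M (nat_lit 462) (B (L (nat_lit 426) ln10_13_0 ln10_13_0_ok)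 (M (nat_lit 463) (B (L (nat_lit 460) ln15_14_3 ln15_14_3_ok) (L (nat_lit 464) ln16_14_3 ln16_14_3_ok))))) (B (M (nat_lit 524) (B (M (nat_lit 460) (B (L (nat_lit 395) ln12_16_7 ln12_16_7_ok) (L (nat_lit 397) ln12_16_6 ln12_16_6_ok))) (B (M (nat_lit 460) (B (L (nat_lit 397) ln12_16_6 ln12_16_6_ok) (L (nat_lit 556) ln12_17_6 ln12_17_6_ok))) (B (M (nat_lit 460) (B (L (nat_lit 395) ln12_16_7 ln12_16_7_ok) (L (nat_lit 556) ln12_17_6 ln12_17_6_ok))) (M (nat_lit 493) (B (L (nat_lit 525) ln13_16_7 ln13_16_7_ok) (L (nat_lit 397) ln13_12_5 ln13_12_5_ok))))))) (M (nat_lit 397) (B (M (nat_lit 398) (B (L (nat_lit 399) ln15_12_1 ln15_12_1_ok) (L (nat_lit 426) ln10_13_2 ln10_13_2_ok))) (M (nat_lit 493) (B (L (nat_lit 525) ln13_16_7 ln13_16_7_ok) (L (nat_lit 524) ln13_12_5 ln13_12_5_ok)))))))) (B (M (nat_lit 524) (B (M (nat_lit 397) (B (L (nat_lit 460) ln12_16_6 ln12_16_6_ok) (L (nat_lit 493) ln13_12_5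 ln13_12_5_ok))) (B (M (nat_lit 460) (B (L (nat_lit 556) ln12_17_6 ln12_17_6_ok) (M (nat_lit 523) (B (L (nat_lit 491) ln12_12_5 ln12_12_5_ok) (L (nat_lit 555) ln12_13_5 ln12_13_5_ok))))) (M (nat_lit 493) (B (L (nat_lit 525) ln13_16_7 ln13_16_7_ok) (L (nat_lit 397) ln13_12_5 ln13_12_5_ok)))))) (B (M (nat_lit 493) (B (L (nat_lit 525) ln13_16_7 ln13_16_7_ok) (M (nat_lit 460) (B (M (nat_lit 491) (B (L (nat_lit 523) ln12_12_5 ln12_12_5_ok) (M (nat_lit 462) (B (L (nat_lit 463) ln15_14_1 ln15_14_1_ok) (L (nat_lit 490) ln10_15_2 ln10_15_2_ok))))) (M (nat_lit 395) (B (L (nat_lit 363) ln12_15_7 ln12_15_7_ok) (M (nat_lit 524) (B (L (nat_lit 427) ln12_16_7 ln12_16_7_ok) (L (nat_lit 556) ln12_17_6 ln12_17_6_ok))))))))) (B (M (nat_lit 493) (B (L (nat_lit 525) ln13_16_7 ln13_16_7_ok) (M (nat_lit 397) (B (L (nat_lit 524) ln13_12_5 ln13_12_5_ok) (M (nat_lit 398) (B (L (nat_lit 366) ln13_15_6 ln13_15_6_ok)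 (M (nat_lit 399) (B (L (nat_lit 427) ln15_12_1 ln15_12_1_ok) (L (nat_lit 400) ln16_12_1 ln16_12_1_ok))))))))) (B (M (nat_lit 460) (B (M (nat_lit 395) (B (L (nat_lit 363) ln12_15_7 ln12_15_7_ok) (M (nat_lit 524) (B (L (nat_lit 427) ln12_16_7 ln12_16_7_ok) (L (nat_lit 556) ln12_17_6 ln12_17_6_ok))))) (B (M (nat_lit 524) (B (L (nat_lit 556) ln12_17_6 ln12_17_6_ok) (M (nat_lit 523) (B (L (nat_lit 491) ln12_12_5 ln12_12_5_ok) (L (nat_lit 555) ln12_13_5 ln12_13_5_ok))))) (M (nat_lit 491) (B (L (nat_lit 523) ln12_12_5 ln12_12_5_ok) (M (nat_lit 462) (B (L (nat_lit 463) ln15_14_1 ln15_14_1_ok) (M (nat_lit 490) (B (L (nat_lit 459) ln14_14_1 ln14_14_1_ok) (L (nat_lit 489) ln9_15_2 ln9_15_2_ok)))))))))) (M (nat_lit 462) (B (M (nat_lit 427) (B (L (nat_lit 426) ln10_13_0 ln10_13_0_ok) (M (nat_lit 463) (B (L (nat_lit 460) ln15_14_3 ln15_14_3_ok) (L (nat_lit 464) ln16_14_3 ln16_14_3_ok))))) (B (M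 (nat_lit 463) (B (L (nat_lit 464) ln16_14_3 ln16_14_3_ok) (M (nat_lit 460) (B (L (nat_lit 427) ln15_14_3 ln15_14_3_ok) (L (nat_lit 491) ln15_14_1 ln15_14_1_ok))))) (B (M (nat_lit 491) (B (M (nat_lit 460) (B (L (nat_lit 523) ln12_12_5 ln12_12_5_ok) (L (nat_lit 463) ln15_14_1 ln15_14_1_ok))) (M (nat_lit 493) (B (L (nat_lit 525) ln13_16_7 ln13_16_7_ok) (L (nat_lit 490) ln10_15_2 ln10_15_2_ok))))) (B (M (nat_lit 463) (B (L (nat_lit 464) ln16_14_3 ln16_14_3_ok) (M (nat_lit 493) (B (L (nat_lit 525) ln13_16_7 ln13_16_7_ok) (M (nat_lit 491) (B (L (nat_lit 490) ln10_15_2 ln10_15_2_ok) (L (nat_lit 494) ln11_15_2 ln11_15_2_ok))))))) (M (nat_lit 427) (B (L (nat_lit 426) ln10_13_0 ln10_13_0_ok) (M (nat_lit 491) (B (M (nat_lit 523) (B (L (nat_lit 459) ln11_16_6 ln11_16_6_ok) (L (nat_lit 460) ln12_12_5 ln12_12_5_ok))) (M (nat_lit 493) (B (L (nat_lit 525) ln13_16_7 ln13_16_7_ok) (L (nat_lit 490) ln10_15_2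 ln10_15_2_ok)))))))))))))))))))
theorem c41_s6856 : Sem (nat_lit 2079502270752001762064242424960807725827516048677469043429686155012882190638009693656033379242457518153052022685796627120027336704) (nat_lit 353808977519233836663878304811295440471562665950012329881519356971732407899127376976991802785341059736614729358631113528753918527365455727857569219483742342304113885184) (nat_lit 353808977519233836663878304811295440471562665950012329881519356971732407899127376976991802785341059736614729358631113528753918527365455727857569219483742342304113885184) :=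
  sem_of_chk (M (nat_lit 461) (B (M (nat_lit 493) (B (L (nat_lit 525) ln13_16_7 ln13_16_7_ok) (M (nat_lit 364) (B (L (nat_lit 332) ln12_10_4 ln12_10_4_ok) (L (nat_lit 460) ln12_11_4 ln12_11_4_ok))))) (B (M (nat_lit 493) (B (L (nat_lit 525) ln13_16_7 ln13_16_7_ok) (M (nat_lit 364) (B (L (nat_lit 397) ln13_15_7 ln13_15_7_ok) (L (nat_lit 460) ln12_11_4 ln12_11_4_ok))))) (B c41_n6855 (B (M (nat_lit 493) (B (L (nat_lit 525) ln13_16_7 ln13_16_7_ok) (M (nat_lit 364) (B (L (nat_lit 332) ln12_10_4 ln12_10_4_ok) (L (nat_lit 397) ln13_15_7 ln13_15_7_ok))))) (M (nat_lit 460) (B (M (nat_lit 364) (B (L (nat_lit 332) ln12_10_4 ln12_10_4_ok) (M (nat_lit 492) (B (M (nat_lit 363) (B (L (nat_lit 331) ln12_14_7 ln12_14_7_ok) (L (nat_lit 395) ln12_15_7 ln12_15_7_ok))) (M (nat_lit 491) (B (L (nat_lit 459) ln12_11_5 ln12_11_5_ok) (L (nat_lit 523) ln12_12_5 ln12_12_5_ok))))))) (B (M (nat_lit 364) (B (L (nat_lit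 332) ln12_10_4 ln12_10_4_ok) (M (nat_lit 492) (B (M (nat_lit 491) (B (L (nat_lit 459) ln12_11_5 ln12_11_5_ok) (L (nat_lit 523) ln12_12_5 ln12_12_5_ok))) (M (nat_lit 524) (B (L (nat_lit 397) ln12_16_6 ln12_16_6_ok) (L (nat_lit 556) ln12_17_6 ln12_17_6_ok))))))) (B (M (nat_lit 492) (B (M (nat_lit 524) (B (L (nat_lit 397) ln12_16_6 ln12_16_6_ok) (L (nat_lit 556) ln12_17_6 ln12_17_6_ok))) (M (nat_lit 364) (B (M (nat_lit 363) (B (L (nat_lit 331) ln12_14_7 ln12_14_7_ok) (L (nat_lit 395) ln12_15_7 ln12_15_7_ok))) (M (nat_lit 491) (B (L (nat_lit 459) ln12_11_5 ln12_11_5_ok) (L (nat_lit 523) ln12_12_5 ln12_12_5_ok))))))) (B (M (nat_lit 462) (B (M (nat_lit 427) (B (L (nat_lit 426) ln10_13_0 ln10_13_0_ok) (L (nat_lit 463) ln15_14_3 ln15_14_3_ok))) (B (M (nat_lit 463) (B (L (nat_lit 427) ln15_14_3 ln15_14_3_ok) (L (nat_lit 464) ln16_14_3 ln16_14_3_ok))) (B (M (nat_lit 492) (B (M (nat_lit 524)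 (B (L (nat_lit 397) ln12_16_6 ln12_16_6_ok) (L (nat_lit 556) ln12_17_6 ln12_17_6_ok))) (M (nat_lit 463) (B (L (nat_lit 464) ln16_14_3 ln16_14_3_ok) (L (nat_lit 491) ln15_14_1 ln15_14_1_ok))))) (M (nat_lit 492) (B (M (nat_lit 427) (B (L (nat_lit 426) ln10_13_0 ln10_13_0_ok) (M (nat_lit 395) (B (L (nat_lit 363) ln12_15_7 ln12_15_7_ok) (L (nat_lit 524) ln12_16_7 ln12_16_7_ok))))) (M (nat_lit 491) (B (L (nat_lit 523) ln12_12_5 ln12_12_5_ok) (M (nat_lit 490) (B (L (nat_lit 459) ln14_14_1 ln14_14_1_ok) (L (nat_lit 489) ln9_15_2 ln9_15_2_ok))))))))))) (B (M (nat_lit 364) (B (L (nat_lit 332) ln12_10_4 ln12_10_4_ok) (M (nat_lit 492) (B (M (nat_lit 363) (B (L (nat_lit 331) ln12_14_7 ln12_14_7_ok) (L (nat_lit 395) ln12_15_7 ln12_15_7_ok))) (M (nat_lit 524) (B (L (nat_lit 397) ln12_16_6 ln12_16_6_ok) (L (nat_lit 556) ln12_17_6 ln12_17_6_ok))))))) (M (nat_lit 462) (B (M (nat_lit 427) (B (L (nat_lit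 426) ln10_13_0 ln10_13_0_ok) (L (nat_lit 463) ln15_14_3 ln15_14_3_ok))) (B (M (nat_lit 463) (B (L (nat_lit 427) ln15_14_3 ln15_14_3_ok) (L (nat_lit 464) ln16_14_3 ln16_14_3_ok))) (B (M (nat_lit 463) (B (L (nat_lit 464) ln16_14_3 ln16_14_3_ok) (M (nat_lit 459) (B (M (nat_lit 364) (B (L (nat_lit 332) ln12_10_4 ln12_10_4_ok) (L (nat_lit 491) ln12_11_5 ln12_11_5_ok))) (M (nat_lit 495) (B (L (nat_lit 494) ln11_14_0 ln11_14_0_ok) (L (nat_lit 496) ln12_14_0 ln12_14_0_ok))))))) (M (nat_lit 426) (B (L (nat_lit 427) ln10_13_0 ln10_13_0_ok) (M (nat_lit 459) (B (M (nat_lit 458) (B (L (nat_lit 425) ln13_14_3 ln13_14_3_ok) (L (nat_lit 457) ln9_14_2 ln9_14_2_ok))) (M (nat_lit 491) (B (L (nat_lit 364) ln12_11_5 ln12_11_5_ok) (L (nat_lit 490) ln14_14_1 ln14_14_1_ok)))))))))))))))))))))) (nat_lit 2079502270752001762064242424960807725827516048677469043429686155012882190638009693656033379242457518153052022685796627120027336704)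 (nat_lit 353808977519233836663878304811295440471562665950012329881519356971732407899127376976991802785341059736614729358631113528753918527365455727857569219483742342304113885184) (nat_lit 353808977519233836663878304811295440471562665950012329881519356971732407899127376976991802785341059736614729358631113528753918527365455727857569219483742342304113885184) (by decide +kernel)
noncomputable def c41_n6863 : Cert := (M (nat_lit 461) (B (M (nat_lit 493) (B (L (nat_lit 525) ln13_16_7 ln13_16_7_ok) (M (nat_lit 364) (B (L (nat_lit 332) ln12_10_4 ln12_10_4_ok) (L (nat_lit 397) ln13_15_7 ln13_15_7_ok))))) (B (M (nat_lit 493) (B (L (nat_lit 525) ln13_16_7 ln13_16_7_ok) (M (nat_lit 364) (B (L (nat_lit 397) ln13_15_7 ln13_15_7_ok) (L (nat_lit 460) ln12_11_4 ln12_11_4_ok))))) (B (M (nat_lit 493) (B (L (nat_lit 525) ln13_16_7 ln13_16_7_ok) (M (nat_lit 397) (B (M (nat_lit 398) (B (L (nat_lit 366)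 ln13_15_6 ln13_15_6_ok) (M (nat_lit 399) (B (L (nat_lit 427) ln15_12_1 ln15_12_1_ok) (L (nat_lit 400) ln16_12_1 ln16_12_1_ok))))) (M (nat_lit 492) (B (L (nat_lit 524) ln13_12_5 ln13_12_5_ok) (M (nat_lit 365) (B (L (nat_lit 460) ln12_15_6 ln12_15_6_ok) (M (nat_lit 494) (B (L (nat_lit 462) ln13_11_4 ln13_11_4_ok) (L (nat_lit 526) ln13_12_4 ln13_12_4_ok))))))))))) (B (M (nat_lit 493) (B (L (nat_lit 525) ln13_16_7 ln13_16_7_ok) (M (nat_lit 364) (B (L (nat_lit 332) ln12_10_4 ln12_10_4_ok) (L (nat_lit 460) ln12_11_4 ln12_11_4_ok))))) (M (nat_lit 460) (B (M (nat_lit 364) (B (L (nat_lit 332) ln12_10_4 ln12_10_4_ok) (M (nat_lit 365) (B (L (nat_lit 333) ln12_14_6 ln12_14_6_ok) (M (nat_lit 492) (B (L (nat_lit 397) ln12_15_6 ln12_15_6_ok) (M (nat_lit 491) (B (L (nat_lit 459) ln12_11_5 ln12_11_5_ok) (L (nat_lit 523) ln12_12_5 ln12_12_5_ok))))))))) (B (M (nat_lit 491) (B (M (nat_lit 492) (B (L (nat_lit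 523) ln12_12_5 ln12_12_5_ok) (M (nat_lit 397) (B (L (nat_lit 365) ln12_15_6 ln12_15_6_ok) (L (nat_lit 524) ln12_16_6 ln12_16_6_ok))))) (B (M (nat_lit 459) (B (L (nat_lit 364) ln12_11_5 ln12_11_5_ok) (M (nat_lit 523) (B (L (nat_lit 427) ln11_16_6 ln11_16_6_ok) (L (nat_lit 492) ln12_12_5 ln12_12_5_ok))))) (M (nat_lit 462) (B (M (nat_lit 427) (B (L (nat_lit 426) ln10_13_0 ln10_13_0_ok) (L (nat_lit 463) ln15_14_3 ln15_14_3_ok))) (M (nat_lit 459) (B (L (nat_lit 364) ln12_11_5 ln12_11_5_ok) (L (nat_lit 490) ln14_14_1 ln14_14_1_ok)))))))) (B (M (nat_lit 462) (B (M (nat_lit 427) (B (L (nat_lit 426) ln10_13_0 ln10_13_0_ok) (L (nat_lit 463) ln15_14_3 ln15_14_3_ok))) (B (M (nat_lit 463) (B (L (nat_lit 427) ln15_14_3 ln15_14_3_ok) (L (nat_lit 464) ln16_14_3 ln16_14_3_ok))) (B (M (nat_lit 492) (B (M (nat_lit 397) (B (L (nat_lit 365) ln12_15_6 ln12_15_6_ok) (L (nat_lit 524) ln12_16_6 ln12_16_6_ok)))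 (M (nat_lit 463) (B (L (nat_lit 464) ln16_14_3 ln16_14_3_ok) (L (nat_lit 491) ln15_14_1 ln15_14_1_ok))))) (M (nat_lit 492) (B (M (nat_lit 397) (B (L (nat_lit 365) ln12_15_6 ln12_15_6_ok) (L (nat_lit 524) ln12_16_6 ln12_16_6_ok))) (M (nat_lit 491) (B (L (nat_lit 523) ln12_12_5 ln12_12_5_ok) (M (nat_lit 490) (B (L (nat_lit 459) ln14_14_1 ln14_14_1_ok) (L (nat_lit 489) ln9_15_2 ln9_15_2_ok))))))))))) (B (M (nat_lit 462) (B (M (nat_lit 427) (B (L (nat_lit 426) ln10_13_0 ln10_13_0_ok) (L (nat_lit 463) ln15_14_3 ln15_14_3_ok))) (B (M (nat_lit 463) (B (L (nat_lit 427) ln15_14_3 ln15_14_3_ok) (L (nat_lit 464) ln16_14_3 ln16_14_3_ok))) (B (M (nat_lit 463) (B (L (nat_lit 464) ln16_14_3 ln16_14_3_ok) (M (nat_lit 459) (B (M (nat_lit 364) (B (L (nat_lit 332) ln12_10_4 ln12_10_4_ok) (L (nat_lit 491) ln12_11_5 ln12_11_5_ok))) (M (nat_lit 495) (B (L (nat_lit 494) ln11_14_0 ln11_14_0_ok) (L (nat_lit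 496) ln12_14_0 ln12_14_0_ok))))))) (M (nat_lit 426) (B (L (nat_lit 427) ln10_13_0 ln10_13_0_ok) (M (nat_lit 459) (B (M (nat_lit 458) (B (L (nat_lit 425) ln13_14_3 ln13_14_3_ok) (L (nat_lit 457) ln9_14_2 ln9_14_2_ok))) (M (nat_lit 491) (B (L (nat_lit 364) ln12_11_5 ln12_11_5_ok) (L (nat_lit 490) ln14_14_1 ln14_14_1_ok))))))))))) (M (nat_lit 365) (B (M (nat_lit 364) (B (L (nat_lit 332) ln12_10_4 ln12_10_4_ok) (L (nat_lit 333) ln12_14_6 ln12_14_6_ok))) (B (M (nat_lit 333) (B (L (nat_lit 364) ln12_14_6 ln12_14_6_ok) (L (nat_lit 397) ln13_10_5 ln13_10_5_ok))) (M (nat_lit 462) (B (M (nat_lit 397) (B (L (nat_lit 492) ln12_15_6 ln12_15_6_ok) (L (nat_lit 494) ln13_11_4 ln13_11_4_ok))) (M (nat_lit 463) (B (L (nat_lit 427) ln15_14_3 ln15_14_3_ok) (L (nat_lit 464) ln16_14_3 ln16_14_3_ok))))))))))))))))))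
theorem c41_s6899 : Sem (nat_lit 2079502270752001762064242424960807725827516048677469043429686155012882190638009693656033379242457518153052022685796627120027336704) (nat_lit 825554280841600030818252138265499350490220934592343111178139729404322072606573289405951239799379326950505100682384750871865442389009871765527745000723962540636216754176) (nat_lit 825554280841600030818252138265499350490220934592343111178139729404322072606573289405951239799379326950505100682384750871865442389009871765527745000723962540636216754176) :=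
  sem_of_chk (M (nat_lit 461) (B (M (nat_lit 493) (B (L (nat_lit 525) ln13_16_7 ln13_16_7_ok) (M (nat_lit 364) (B (L (nat_lit 332) ln12_10_4 ln12_10_4_ok) (L (nat_lit 460) ln12_11_4 ln12_11_4_ok))))) (B (M (nat_lit 493) (B (L (nat_lit 525) ln13_16_7 ln13_16_7_ok) (M (nat_lit 364) (B (L (nat_lit 397) ln13_15_7 ln13_15_7_ok) (L (nat_lit 460) ln12_11_4 ln12_11_4_ok))))) (B (M (nat_lit 492) (B (M (nat_lit 493) (B (L (nat_lit 525) ln13_16_7 ln13_16_7_ok) (M (nat_lit 397) (B (L (nat_lit 524) ln13_12_5 ln13_12_5_ok) (M (nat_lit 365) (B (L (nat_lit 460) ln12_15_6 ln12_15_6_ok) (M (nat_lit 494) (B (L (nat_lit 462) ln13_11_4 ln13_11_4_ok) (L (nat_lit 526) ln13_12_4 ln13_12_4_ok))))))))) (B (M (nat_lit 524) (B (M (nat_lit 397) (B (L (nat_lit 460) ln12_16_6 ln12_16_6_ok) (L (nat_lit 493) ln13_12_5 ln13_12_5_ok))) (B (M (nat_lit 460) (B (L (nat_lit 556) ln12_17_6 ln12_17_6_ok) (M (nat_lit 523)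 (B (L (nat_lit 491) ln12_12_5 ln12_12_5_ok) (L (nat_lit 555) ln12_13_5 ln12_13_5_ok))))) (M (nat_lit 493) (B (L (nat_lit 525) ln13_16_7 ln13_16_7_ok) (L (nat_lit 397) ln13_12_5 ln13_12_5_ok)))))) (B (M (nat_lit 460) (B (M (nat_lit 525) (B (L (nat_lit 493) ln13_16_7 ln13_16_7_ok) (M (nat_lit 524) (B (L (nat_lit 557) ln12_13_4 ln12_13_4_ok) (L (nat_lit 556) ln12_17_6 ln12_17_6_ok))))) (B (M (nat_lit 524) (B (L (nat_lit 556) ln12_17_6 ln12_17_6_ok) (M (nat_lit 523) (B (L (nat_lit 491) ln12_12_5 ln12_12_5_ok) (L (nat_lit 555) ln12_13_5 ln12_13_5_ok))))) (M (nat_lit 493) (B (L (nat_lit 525) ln13_16_7 ln13_16_7_ok) (M (nat_lit 491) (B (L (nat_lit 523) ln12_12_5 ln12_12_5_ok) (M (nat_lit 462) (B (L (nat_lit 463) ln15_14_1 ln15_14_1_ok) (L (nat_lit 490) ln10_15_2 ln10_15_2_ok)))))))))) (B (M (nat_lit 493) (B (L (nat_lit 525) ln13_16_7 ln13_16_7_ok) (M (nat_lit 397) (B (L (nat_lit 524) ln13_12_5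 ln13_12_5_ok) (M (nat_lit 365) (B (M (nat_lit 366) (B (L (nat_lit 334) ln13_14_6 ln13_14_6_ok) (L (nat_lit 398) ln13_15_6 ln13_15_6_ok))) (M (nat_lit 494) (B (L (nat_lit 462) ln13_11_4 ln13_11_4_ok) (L (nat_lit 526) ln13_12_4 ln13_12_4_ok))))))))) (B (M (nat_lit 460) (B (M (nat_lit 397) (B (L (nat_lit 365) ln12_15_6 ln12_15_6_ok) (L (nat_lit 524) ln12_16_6 ln12_16_6_ok))) (B (M (nat_lit 524) (B (L (nat_lit 397) ln12_16_6 ln12_16_6_ok) (L (nat_lit 556) ln12_17_6 ln12_17_6_ok))) (B (M (nat_lit 524) (B (L (nat_lit 556) ln12_17_6 ln12_17_6_ok) (M (nat_lit 523) (B (L (nat_lit 491) ln12_12_5 ln12_12_5_ok) (L (nat_lit 555) ln12_13_5 ln12_13_5_ok))))) (M (nat_lit 491) (B (L (nat_lit 523) ln12_12_5 ln12_12_5_ok) (M (nat_lit 462) (B (L (nat_lit 463) ln15_14_1 ln15_14_1_ok) (M (nat_lit 490) (B (L (nat_lit 459) ln14_14_1 ln14_14_1_ok) (L (nat_lit 489) ln9_15_2 ln9_15_2_ok))))))))))) (M (nat_lit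 493) (B (L (nat_lit 525) ln13_16_7 ln13_16_7_ok) (M (nat_lit 460) (B (M (nat_lit 491) (B (L (nat_lit 523) ln12_12_5 ln12_12_5_ok) (M (nat_lit 462) (B (L (nat_lit 463) ln15_14_1 ln15_14_1_ok) (L (nat_lit 490) ln10_15_2 ln10_15_2_ok))))) (M (nat_lit 494) (B (M (nat_lit 397) (B (L (nat_lit 365) ln12_15_6 ln12_15_6_ok) (L (nat_lit 526) ln13_12_4 ln13_12_4_ok))) (M (nat_lit 495) (B (L (nat_lit 459) ln15_15_3 ln15_15_3_ok) (L (nat_lit 496) ln16_15_3 ln16_15_3_ok))))))))))))))) (B (M (nat_lit 493) (B (L (nat_lit 525) ln13_16_7 ln13_16_7_ok) (M (nat_lit 364) (B (L (nat_lit 332) ln12_10_4 ln12_10_4_ok) (L (nat_lit 397) ln13_15_7 ln13_15_7_ok))))) (M (nat_lit 365) (B (M (nat_lit 364) (B (L (nat_lit 332) ln12_10_4 ln12_10_4_ok) (M (nat_lit 333) (B (L (nat_lit 460) ln12_14_6 ln12_14_6_ok) (M (nat_lit 301) (B (L (nat_lit 269) ln13_8_5 ln13_8_5_ok) (L (nat_lit 397) ln13_9_5 ln13_9_5_ok))))))) (B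 (M (nat_lit 460) (B (M (nat_lit 364) (B (L (nat_lit 332) ln12_10_4 ln12_10_4_ok) (L (nat_lit 333) ln12_14_6 ln12_14_6_ok))) (B (M (nat_lit 333) (B (L (nat_lit 364) ln12_14_6 ln12_14_6_ok) (L (nat_lit 397) ln13_10_5 ln13_10_5_ok))) (B (M (nat_lit 363) (B (M (nat_lit 364) (B (L (nat_lit 331) ln12_14_7 ln12_14_7_ok) (L (nat_lit 332) ln12_10_4 ln12_10_4_ok))) (M (nat_lit 492) (B (L (nat_lit 395) ln12_15_7 ln12_15_7_ok) (L (nat_lit 397) ln12_15_6 ln12_15_6_ok))))) (M (nat_lit 397) (B (L (nat_lit 333) ln13_10_5 ln13_10_5_ok) (L (nat_lit 492) ln12_15_6 ln12_15_6_ok))))))) (B (M (nat_lit 397) (B (M (nat_lit 333) (B (L (nat_lit 301) ln13_9_5 ln13_9_5_ok) (L (nat_lit 460) ln13_10_5 ln13_10_5_ok))) (B (M (nat_lit 460) (B (L (nat_lit 333) ln13_10_5 ln13_10_5_ok) (L (nat_lit 492) ln12_15_6 ln12_15_6_ok))) (M (nat_lit 366) (B (L (nat_lit 334) ln13_14_6 ln13_14_6_ok) (M (nat_lit 395) (B (L (nat_lit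 394) ln10_12_2 ln10_12_2_ok) (M (nat_lit 367) (B (L (nat_lit 368) ln16_11_1 ln16_11_1_ok) (L (nat_lit 398) ln11_12_2 ln11_12_2_ok)))))))))) (B (M (nat_lit 364) (B (L (nat_lit 332) ln12_10_4 ln12_10_4_ok) (M (nat_lit 397) (B (M (nat_lit 366) (B (L (nat_lit 334) ln13_14_6 ln13_14_6_ok) (M (nat_lit 367) (B (L (nat_lit 395) ln15_11_1 ln15_11_1_ok) (L (nat_lit 368) ln16_11_1 ln16_11_1_ok))))) (M (nat_lit 363) (B (M (nat_lit 460) (B (L (nat_lit 331) ln12_14_7 ln12_14_7_ok) (L (nat_lit 492) ln12_15_6 ln12_15_6_ok))) (M (nat_lit 362) (B (L (nat_lit 361) ln9_11_0 ln9_11_0_ok) (L (nat_lit 398) ln10_11_0 ln10_11_0_ok))))))))) (B (M (nat_lit 364) (B (L (nat_lit 332) ln12_10_4 ln12_10_4_ok) (M (nat_lit 460) (B (L (nat_lit 333) ln12_14_6 ln12_14_6_ok) (M (nat_lit 492) (B (M (nat_lit 363) (B (L (nat_lit 331) ln12_14_7 ln12_14_7_ok) (L (nat_lit 395) ln12_15_7 ln12_15_7_ok))) (M (nat_lit 491) (B (L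 (nat_lit 459) ln12_11_5 ln12_11_5_ok) (L (nat_lit 523) ln12_12_5 ln12_12_5_ok))))))))) (M (nat_lit 397) (B (M (nat_lit 332) (B (L (nat_lit 364) ln13_14_7 ln13_14_7_ok) (M (nat_lit 333) (B (L (nat_lit 300) ln13_13_7 ln13_13_7_ok) (L (nat_lit 301) ln13_9_5 ln13_9_5_ok))))) (B (M (nat_lit 333) (B (L (nat_lit 301) ln13_9_5 ln13_9_5_ok) (M (nat_lit 334) (B (L (nat_lit 302) ln13_13_6 ln13_13_6_ok) (L (nat_lit 366) ln13_14_6 ln13_14_6_ok))))) (B (M (nat_lit 333) (B (M (nat_lit 332) (B (L (nat_lit 300) ln13_13_7 ln13_13_7_ok) (L (nat_lit 364) ln13_14_7 ln13_14_7_ok))) (M (nat_lit 334) (B (L (nat_lit 302) ln13_13_6 ln13_13_6_ok) (L (nat_lit 366) ln13_14_6 ln13_14_6_ok))))) (M (nat_lit 364) (B (L (nat_lit 332) ln13_14_7 ln13_14_7_ok) (M (nat_lit 366) (B (L (nat_lit 334) ln13_14_6 ln13_14_6_ok) (M (nat_lit 367) (B (L (nat_lit 395) ln15_11_1 ln15_11_1_ok) (L (nat_lit 368) ln16_11_1 ln16_11_1_ok))))))))))))))))))))))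 (nat_lit 2079502270752001762064242424960807725827516048677469043429686155012882190638009693656033379242457518153052022685796627120027336704) (nat_lit 825554280841600030818252138265499350490220934592343111178139729404322072606573289405951239799379326950505100682384750871865442389009871765527745000723962540636216754176) (nat_lit 825554280841600030818252138265499350490220934592343111178139729404322072606573289405951239799379326950505100682384750871865442389009871765527745000723962540636216754176) (by decide +kernel)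
theorem c41_s7051 : Sem (nat_lit 2079502270752001762064242424960807725827516048677469043429686155012882190638009693656033379242457518153052022685796627120027336704) (nat_lit 329510287762989358711048417630593767302886810161517806566933145209886612479755251108711351661490639101576107306861165560894098709363735029761258805742987640832) (nat_lit 329510287762989358711048417630593767302886810161517806566933145209886612479755251108711351661490639101576107306861165560894098709363735029761258805742987640832) :=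
  sem_of_chk (M (nat_lit 397) (B (M (nat_lit 398) (B (M (nat_lit 399) (B (L (nat_lit 427) ln15_12_1 ln15_12_1_ok) (L (nat_lit 400) ln16_12_1 ln16_12_1_ok))) (M (nat_lit 461) (B (M (nat_lit 364) (B (L (nat_lit 332) ln12_10_4 ln12_10_4_ok) (L (nat_lit 493) ln13_15_7 ln13_15_7_ok))) (B (M (nat_lit 493) (B (L (nat_lit 364) ln13_15_7 ln13_15_7_ok) (L (nat_lit 366) ln13_15_6 ln13_15_6_ok))) (B (M (nat_lit 493) (B (L (nat_lit 366) ln13_15_6 ln13_15_6_ok) (L (nat_lit 525) ln13_16_7 ln13_16_7_ok))) (M (nat_lit 365) (B (M (nat_lit 332) (B (L (nat_lit 364) ln13_14_7 ln13_14_7_ok) (M (nat_lit 333) (B (L (nat_lit 300) ln13_13_7 ln13_13_7_ok) (L (nat_lit 301) ln13_9_5 ln13_9_5_ok))))) (M (nat_lit 366) (B (L (nat_lit 334) ln13_14_6 ln13_14_6_ok) (M (nat_lit 367) (B (L (nat_lit 368) ln16_11_1 ln16_11_1_ok) (L (nat_lit 395) ln11_12_2 ln11_12_2_ok))))))))))))) (B (M (nat_lit 398) (B (M (nat_lit 399)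 (B (L (nat_lit 427) ln15_12_1 ln15_12_1_ok) (L (nat_lit 400) ln16_12_1 ln16_12_1_ok))) (M (nat_lit 461) (B (M (nat_lit 364) (B (L (nat_lit 332) ln12_10_4 ln12_10_4_ok) (L (nat_lit 493) ln13_15_7 ln13_15_7_ok))) (B (M (nat_lit 493) (B (L (nat_lit 364) ln13_15_7 ln13_15_7_ok) (L (nat_lit 366) ln13_15_6 ln13_15_6_ok))) (B (M (nat_lit 366) (B (L (nat_lit 493) ln13_15_6 ln13_15_6_ok) (M (nat_lit 334) (B (L (nat_lit 302) ln14_9_5 ln14_9_5_ok) (L (nat_lit 365) ln13_14_6 ln13_14_6_ok))))) (M (nat_lit 395) (B (M (nat_lit 394) (B (L (nat_lit 393) ln9_12_0 ln9_12_0_ok) (M (nat_lit 362) (B (L (nat_lit 361) ln13_12_3 ln13_12_3_ok) (L (nat_lit 363) ln14_12_3 ln14_12_3_ok))))) (B (M (nat_lit 366) (B (L (nat_lit 367) ln11_12_2 ln11_12_2_ok) (M (nat_lit 394) (B (L (nat_lit 365) ln10_12_2 ln10_12_2_ok) (L (nat_lit 393) ln9_12_0 ln9_12_0_ok))))) (M (nat_lit 366) (B (L (nat_lit 367) ln11_12_2 ln11_12_2_ok)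 (M (nat_lit 334) (B (L (nat_lit 302) ln14_9_5 ln14_9_5_ok) (L (nat_lit 365) ln13_14_6 ln13_14_6_ok)))))))))))))) (B (M (nat_lit 398) (B (M (nat_lit 399) (B (L (nat_lit 427) ln15_12_1 ln15_12_1_ok) (L (nat_lit 400) ln16_12_1 ln16_12_1_ok))) (M (nat_lit 461) (B (M (nat_lit 493) (B (L (nat_lit 364) ln13_15_7 ln13_15_7_ok) (L (nat_lit 366) ln13_15_6 ln13_15_6_ok))) (B (M (nat_lit 493) (B (L (nat_lit 366) ln13_15_6 ln13_15_6_ok) (L (nat_lit 525) ln13_16_7 ln13_16_7_ok))) (B (M (nat_lit 493) (B (L (nat_lit 364) ln13_15_7 ln13_15_7_ok) (L (nat_lit 525) ln13_16_7 ln13_16_7_ok))) (M (nat_lit 395) (B (M (nat_lit 394) (B (L (nat_lit 393) ln9_12_0 ln9_12_0_ok) (M (nat_lit 362) (B (L (nat_lit 361) ln13_12_3 ln13_12_3_ok) (L (nat_lit 363) ln14_12_3 ln14_12_3_ok))))) (B (M (nat_lit 366) (B (L (nat_lit 367) ln11_12_2 ln11_12_2_ok) (M (nat_lit 394) (B (L (nat_lit 365) ln10_12_2 ln10_12_2_ok) (L (nat_lit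 393) ln9_12_0 ln9_12_0_ok))))) (M (nat_lit 366) (B (L (nat_lit 367) ln11_12_2 ln11_12_2_ok) (M (nat_lit 334) (B (L (nat_lit 302) ln14_9_5 ln14_9_5_ok) (L (nat_lit 365) ln13_14_6 ln13_14_6_ok)))))))))))))) (B (M (nat_lit 427) (B (M (nat_lit 398) (B (L (nat_lit 399) ln15_12_1 ln15_12_1_ok) (L (nat_lit 426) ln10_13_2 ln10_13_2_ok))) (B (M (nat_lit 461) (B (M (nat_lit 364) (B (L (nat_lit 332) ln12_10_4 ln12_10_4_ok) (L (nat_lit 493) ln13_15_7 ln13_15_7_ok))) (M (nat_lit 426) (B (L (nat_lit 425) ln9_13_2 ln9_13_2_ok) (L (nat_lit 462) ln10_13_0 ln10_13_0_ok))))) (M (nat_lit 395) (B (M (nat_lit 398) (B (L (nat_lit 399) ln15_12_1 ln15_12_1_ok) (M (nat_lit 394) (B (L (nat_lit 393) ln9_12_0 ln9_12_0_ok) (M (nat_lit 366) (B (L (nat_lit 365) ln10_12_2 ln10_12_2_ok) (L (nat_lit 367) ln11_12_2 ln11_12_2_ok))))))) (B (M (nat_lit 332) (B (M (nat_lit 364) (B (L (nat_lit 300) ln12_9_5 ln12_9_5_ok) (L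 (nat_lit 459) ln12_10_5 ln12_10_5_ok))) (B (M (nat_lit 364) (B (L (nat_lit 459) ln12_10_5 ln12_10_5_ok) (L (nat_lit 461) ln12_10_4 ln12_10_4_ok))) (M (nat_lit 363) (B (M (nat_lit 331) (B (L (nat_lit 299) ln11_9_4 ln11_9_4_ok) (L (nat_lit 300) ln11_13_6 ln11_13_6_ok))) (M (nat_lit 398) (B (L (nat_lit 362) ln14_12_3 ln14_12_3_ok) (L (nat_lit 399) ln15_12_1 ln15_12_1_ok)))))))) (M (nat_lit 365) (B (M (nat_lit 394) (B (L (nat_lit 366) ln10_12_2 ln10_12_2_ok) (L (nat_lit 393) ln9_12_0 ln9_12_0_ok))) (M (nat_lit 332) (B (M (nat_lit 333) (B (L (nat_lit 300) ln13_13_7 ln13_13_7_ok) (L (nat_lit 301) ln13_9_5 ln13_9_5_ok))) (M (nat_lit 364) (B (L (nat_lit 461) ln13_14_7 ln13_14_7_ok) (L (nat_lit 459) ln12_10_5 ln12_10_5_ok))))))))))))) (B (M (nat_lit 398) (B (M (nat_lit 399) (B (L (nat_lit 427) ln15_12_1 ln15_12_1_ok) (L (nat_lit 400) ln16_12_1 ln16_12_1_ok))) (M (nat_lit 395) (B (M (nat_lit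 366) (B (L (nat_lit 367) ln11_12_2 ln11_12_2_ok) (M (nat_lit 394) (B (L (nat_lit 365) ln10_12_2 ln10_12_2_ok) (L (nat_lit 393) ln9_12_0 ln9_12_0_ok))))) (B (M (nat_lit 394) (B (L (nat_lit 393) ln9_12_0 ln9_12_0_ok) (M (nat_lit 362) (B (L (nat_lit 361) ln13_12_3 ln13_12_3_ok) (L (nat_lit 363) ln14_12_3 ln14_12_3_ok))))) (B (M (nat_lit 394) (B (M (nat_lit 362) (B (L (nat_lit 361) ln13_12_3 ln13_12_3_ok) (L (nat_lit 363) ln14_12_3 ln14_12_3_ok))) (M (nat_lit 366) (B (L (nat_lit 365) ln10_12_2 ln10_12_2_ok) (L (nat_lit 367) ln11_12_2 ln11_12_2_ok))))) (M (nat_lit 366) (B (L (nat_lit 367) ln11_12_2 ln11_12_2_ok) (M (nat_lit 461) (B (L (nat_lit 493) ln13_15_6 ln13_15_6_ok) (M (nat_lit 334) (B (L (nat_lit 302) ln14_9_5 ln14_9_5_ok) (L (nat_lit 365) ln13_14_6 ln13_14_6_ok))))))))))))) (B (M (nat_lit 398) (B (M (nat_lit 399) (B (L (nat_lit 427) ln15_12_1 ln15_12_1_ok) (L (nat_lit 400) ln16_12_1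 ln16_12_1_ok))) (B (M (nat_lit 395) (B (M (nat_lit 426) (B (L (nat_lit 427) ln14_12_1 ln14_12_1_ok) (M (nat_lit 394) (B (L (nat_lit 393) ln9_12_0 ln9_12_0_ok) (L (nat_lit 425) ln13_12_1 ln13_12_1_ok))))) (B (M (nat_lit 394) (B (M (nat_lit 362) (B (L (nat_lit 361) ln13_12_3 ln13_12_3_ok) (L (nat_lit 363) ln14_12_3 ln14_12_3_ok))) (M (nat_lit 426) (B (L (nat_lit 425) ln13_12_1 ln13_12_1_ok) (L (nat_lit 427) ln14_12_1 ln14_12_1_ok))))) (B (M (nat_lit 427) (B (L (nat_lit 426) ln14_12_1 ln14_12_1_ok) (M (nat_lit 363) (B (L (nat_lit 362) ln14_12_3 ln14_12_3_ok) (M (nat_lit 332) (B (M (nat_lit 331) (B (L (nat_lit 299) ln11_9_4 ln11_9_4_ok) (L (nat_lit 300) ln11_13_6 ln11_13_6_ok))) (B (M (nat_lit 300) (B (L (nat_lit 331) ln11_13_6 ln11_13_6_ok) (L (nat_lit 364) ln12_9_5 ln12_9_5_ok))) (M (nat_lit 364) (B (L (nat_lit 459) ln11_14_6 ln11_14_6_ok) (L (nat_lit 461) ln12_10_4 ln12_10_4_ok))))))))))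 (M (nat_lit 394) (B (L (nat_lit 393) ln9_12_0 ln9_12_0_ok) (M (nat_lit 362) (B (L (nat_lit 361) ln13_12_3 ln13_12_3_ok) (L (nat_lit 363) ln14_12_3 ln14_12_3_ok))))))))) (M (nat_lit 364) (B (M (nat_lit 399) (B (L (nat_lit 363) ln15_12_3 ln15_12_3_ok) (L (nat_lit 400) ln16_12_1 ln16_12_1_ok))) (M (nat_lit 461) (B (L (nat_lit 332) ln12_10_4 ln12_10_4_ok) (L (nat_lit 493) ln13_15_7 ln13_15_7_ok)))))))) (B (M (nat_lit 461) (B (M (nat_lit 364) (B (L (nat_lit 332) ln12_10_4 ln12_10_4_ok) (L (nat_lit 493) ln13_15_7 ln13_15_7_ok))) (B (M (nat_lit 493) (B (L (nat_lit 364) ln13_15_7 ln13_15_7_ok) (L (nat_lit 525) ln13_16_7 ln13_16_7_ok))) (B (M (nat_lit 493) (B (L (nat_lit 525) ln13_16_7 ln13_16_7_ok) (M (nat_lit 398) (B (L (nat_lit 366) ln13_15_6 ln13_15_6_ok) (M (nat_lit 399) (B (L (nat_lit 427) ln15_12_1 ln15_12_1_ok) (L (nat_lit 400) ln16_12_1 ln16_12_1_ok))))))) (M (nat_lit 365) (B (M (nat_lit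 332) (B (L (nat_lit 364) ln13_14_7 ln13_14_7_ok) (M (nat_lit 333) (B (L (nat_lit 300) ln13_13_7 ln13_13_7_ok) (L (nat_lit 301) ln13_9_5 ln13_9_5_ok))))) (B (M (nat_lit 333) (B (L (nat_lit 301) ln13_9_5 ln13_9_5_ok) (M (nat_lit 334) (B (L (nat_lit 302) ln13_13_6 ln13_13_6_ok) (L (nat_lit 366) ln13_14_6 ln13_14_6_ok))))) (B (M (nat_lit 333) (B (M (nat_lit 332) (B (L (nat_lit 300) ln13_13_7 ln13_13_7_ok) (L (nat_lit 364) ln13_14_7 ln13_14_7_ok))) (M (nat_lit 334) (B (L (nat_lit 302) ln13_13_6 ln13_13_6_ok) (L (nat_lit 366) ln13_14_6 ln13_14_6_ok))))) (M (nat_lit 364) (B (L (nat_lit 332) ln13_14_7 ln13_14_7_ok) (M (nat_lit 366) (B (L (nat_lit 334) ln13_14_6 ln13_14_6_ok) (M (nat_lit 399) (B (M (nat_lit 367) (B (L (nat_lit 400) ln12_11_0 ln12_11_0_ok) (L (nat_lit 368) ln16_11_1 ln16_11_1_ok))) (B (M (nat_lit 398) (B (L (nat_lit 363) ln11_11_0 ln11_11_0_ok) (L (nat_lit 400) ln16_12_3 ln16_12_3_ok)))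 (M (nat_lit 398) (B (L (nat_lit 363) ln11_11_0 ln11_11_0_ok) (L (nat_lit 427) ln15_12_1 ln15_12_1_ok)))))))))))))))))) (B (M (nat_lit 461) (B (M (nat_lit 364) (B (L (nat_lit 332) ln12_10_4 ln12_10_4_ok) (L (nat_lit 493) ln13_15_7 ln13_15_7_ok))) (B (M (nat_lit 493) (B (L (nat_lit 364) ln13_15_7 ln13_15_7_ok) (L (nat_lit 525) ln13_16_7 ln13_16_7_ok))) (B (M (nat_lit 365) (B (M (nat_lit 493) (B (L (nat_lit 525) ln13_16_7 ln13_16_7_ok) (M (nat_lit 494) (B (L (nat_lit 462) ln13_11_4 ln13_11_4_ok) (L (nat_lit 526) ln13_12_4 ln13_12_4_ok))))) (M (nat_lit 333) (B (L (nat_lit 301) ln13_9_5 ln13_9_5_ok) (M (nat_lit 334) (B (L (nat_lit 302) ln13_13_6 ln13_13_6_ok) (L (nat_lit 366) ln13_14_6 ln13_14_6_ok))))))) (M (nat_lit 365) (B (M (nat_lit 332) (B (L (nat_lit 364) ln13_14_7 ln13_14_7_ok) (M (nat_lit 333) (B (L (nat_lit 300) ln13_13_7 ln13_13_7_ok) (L (nat_lit 301) ln13_9_5 ln13_9_5_ok)))))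 (B (M (nat_lit 333) (B (L (nat_lit 301) ln13_9_5 ln13_9_5_ok) (M (nat_lit 334) (B (L (nat_lit 302) ln13_13_6 ln13_13_6_ok) (L (nat_lit 366) ln13_14_6 ln13_14_6_ok))))) (B (M (nat_lit 333) (B (M (nat_lit 332) (B (L (nat_lit 300) ln13_13_7 ln13_13_7_ok) (L (nat_lit 364) ln13_14_7 ln13_14_7_ok))) (M (nat_lit 334) (B (L (nat_lit 302) ln13_13_6 ln13_13_6_ok) (L (nat_lit 366) ln13_14_6 ln13_14_6_ok))))) (M (nat_lit 364) (B (L (nat_lit 332) ln13_14_7 ln13_14_7_ok) (M (nat_lit 366) (B (L (nat_lit 334) ln13_14_6 ln13_14_6_ok) (M (nat_lit 367) (B (L (nat_lit 395) ln15_11_1 ln15_11_1_ok) (L (nat_lit 368) ln16_11_1 ln16_11_1_ok))))))))))))))) (M (nat_lit 398) (B (M (nat_lit 399) (B (L (nat_lit 427) ln15_12_1 ln15_12_1_ok) (L (nat_lit 400) ln16_12_1 ln16_12_1_ok))) (B (M (nat_lit 332) (B (M (nat_lit 427) (B (L (nat_lit 426) ln10_13_2 ln10_13_2_ok) (M (nat_lit 364) (B (L (nat_lit 300) ln12_9_4 ln12_9_4_ok)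 (L (nat_lit 459) ln12_10_5 ln12_10_5_ok))))) (B (M (nat_lit 334) (B (M (nat_lit 366) (B (L (nat_lit 302) ln14_9_5 ln14_9_5_ok) (M (nat_lit 395) (B (L (nat_lit 367) ln11_12_2 ln11_12_2_ok) (M (nat_lit 394) (B (L (nat_lit 365) ln10_12_2 ln10_12_2_ok) (L (nat_lit 393) ln9_12_0 ln9_12_0_ok))))))) (B (M (nat_lit 364) (B (M (nat_lit 427) (B (L (nat_lit 459) ln12_10_5 ln12_10_5_ok) (L (nat_lit 426) ln10_13_2 ln10_13_2_ok))) (M (nat_lit 363) (B (M (nat_lit 333) (B (L (nat_lit 301) ln12_13_6 ln12_13_6_ok) (L (nat_lit 335) ln15_10_1 ln15_10_1_ok))) (M (nat_lit 362) (B (L (nat_lit 361) ln9_11_0 ln9_11_0_ok) (L (nat_lit 395) ln14_12_3 ln14_12_3_ok))))))) (M (nat_lit 427) (B (L (nat_lit 426) ln10_13_2 ln10_13_2_ok) (M (nat_lit 333) (B (M (nat_lit 364) (B (L (nat_lit 301) ln12_13_6 ln12_13_6_ok) (L (nat_lit 459) ln12_10_5 ln12_10_5_ok))) (M (nat_lit 302) (B (L (nat_lit 365) ln13_13_6 ln13_13_6_ok)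 (L (nat_lit 366) ln14_9_5 ln14_9_5_ok)))))))))) (B (M (nat_lit 427) (B (L (nat_lit 426) ln10_13_2 ln10_13_2_ok) (M (nat_lit 395) (B (M (nat_lit 366) (B (L (nat_lit 367) ln11_12_2 ln11_12_2_ok) (M (nat_lit 394) (B (L (nat_lit 365) ln10_12_2 ln10_12_2_ok) (L (nat_lit 393) ln9_12_0 ln9_12_0_ok))))) (M (nat_lit 363) (B (L (nat_lit 362) ln14_12_3 ln14_12_3_ok) (M (nat_lit 331) (B (L (nat_lit 299) ln11_9_4 ln11_9_4_ok) (L (nat_lit 300) ln11_13_6 ln11_13_6_ok))))))))) (M (nat_lit 333) (B (M (nat_lit 300) (B (L (nat_lit 365) ln13_13_7 ln13_13_7_ok) (L (nat_lit 364) ln12_9_4 ln12_9_4_ok))) (B (M (nat_lit 301) (B (L (nat_lit 364) ln12_13_6 ln12_13_6_ok) (L (nat_lit 365) ln13_9_5 ln13_9_5_ok))) (B (M (nat_lit 365) (B (L (nat_lit 300) ln13_13_7 ln13_13_7_ok) (L (nat_lit 301) ln13_9_5 ln13_9_5_ok))) (M (nat_lit 364) (B (L (nat_lit 300) ln12_9_4 ln12_9_4_ok) (L (nat_lit 301) ln12_13_6 ln12_13_6_ok)))))))))))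 (M (nat_lit 399) (B (L (nat_lit 400) ln16_12_1 ln16_12_1_ok) (M (nat_lit 395) (B (M (nat_lit 363) (B (L (nat_lit 362) ln14_12_3 ln14_12_3_ok) (L (nat_lit 364) ln15_12_3 ln15_12_3_ok))) (M (nat_lit 367) (B (L (nat_lit 366) ln11_12_2 ln11_12_2_ok) (L (nat_lit 368) ln12_12_2 ln12_12_2_ok))))))))))))))))))) (nat_lit 2079502270752001762064242424960807725827516048677469043429686155012882190638009693656033379242457518153052022685796627120027336704) (nat_lit 329510287762989358711048417630593767302886810161517806566933145209886612479755251108711351661490639101576107306861165560894098709363735029761258805742987640832) (nat_lit 329510287762989358711048417630593767302886810161517806566933145209886612479755251108711351661490639101576107306861165560894098709363735029761258805742987640832) (by decide +kernel)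
theorem c41_s7382 : Sem (nat_lit 1488565709436905182597016920618875711317065232515143436133960971351635417069121137610048965517821161510899162402685155093675491255430152192) (nat_lit 235872651757290264418112238746734313456985850126208889252965780253167767451239278837896970839469544703420384466920884887223563770765566334682756668309058614179011756032) (nat_lit 235872651757290264418112238746734313456985850126208889252965780253167767451239278837896970839469544703420384466920884887223563770765566334682756668309058614179011756032) :=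
  sem_of_chk (M (nat_lit 427) (B (M (nat_lit 397) (B (M (nat_lit 398) (B (L (nat_lit 399) ln15_12_1 ln15_12_1_ok) (L (nat_lit 426) ln10_13_2 ln10_13_2_ok))) (M (nat_lit 395) (B (M (nat_lit 394) (B (L (nat_lit 393) ln9_12_0 ln9_12_0_ok) (M (nat_lit 362) (B (L (nat_lit 361) ln13_12_3 ln13_12_3_ok) (L (nat_lit 491) ln11_15_7 ln11_15_7_ok))))) (B (M (nat_lit 394) (B (L (nat_lit 393) ln9_12_0 ln9_12_0_ok) (M (nat_lit 491) (B (L (nat_lit 362) ln11_15_7 ln11_15_7_ok) (L (nat_lit 523) ln11_16_6 ln11_16_6_ok))))) (B (M (nat_lit 365) (B (M (nat_lit 333) (B (L (nat_lit 301) ln13_9_5 ln13_9_5_ok) (L (nat_lit 460) ln13_10_5 ln13_10_5_ok))) (M (nat_lit 394) (B (L (nat_lit 366) ln10_12_2 ln10_12_2_ok) (L (nat_lit 393) ln9_12_0 ln9_12_0_ok))))) (M (nat_lit 492) (B (M (nat_lit 460) (B (L (nat_lit 363) ln12_15_7 ln12_15_7_ok) (L (nat_lit 365) ln12_15_6 ln12_15_6_ok))) (M (nat_lit 491) (B (L (nat_lit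 524) ln11_12_4 ln11_12_4_ok) (L (nat_lit 523) ln11_16_6 ln11_16_6_ok))))))))))) (B (M (nat_lit 397) (B (M (nat_lit 398) (B (L (nat_lit 399) ln15_12_1 ln15_12_1_ok) (L (nat_lit 426) ln10_13_2 ln10_13_2_ok))) (M (nat_lit 395) (B (M (nat_lit 394) (B (L (nat_lit 393) ln9_12_0 ln9_12_0_ok) (M (nat_lit 491) (B (L (nat_lit 362) ln11_15_7 ln11_15_7_ok) (L (nat_lit 523) ln11_16_6 ln11_16_6_ok))))) (B (M (nat_lit 365) (B (M (nat_lit 394) (B (L (nat_lit 366) ln10_12_2 ln10_12_2_ok) (L (nat_lit 393) ln9_12_0 ln9_12_0_ok))) (M (nat_lit 460) (B (L (nat_lit 333) ln13_10_5 ln13_10_5_ok) (L (nat_lit 492) ln12_15_6 ln12_15_6_ok))))) (M (nat_lit 492) (B (M (nat_lit 460) (B (L (nat_lit 363) ln12_15_7 ln12_15_7_ok) (L (nat_lit 365) ln12_15_6 ln12_15_6_ok))) (M (nat_lit 491) (B (L (nat_lit 524) ln11_12_4 ln11_12_4_ok) (L (nat_lit 523) ln11_16_6 ln11_16_6_ok)))))))))) (B (M (nat_lit 397) (B (M (nat_lit 398)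 (B (L (nat_lit 399) ln15_12_1 ln15_12_1_ok) (L (nat_lit 426) ln10_13_2 ln10_13_2_ok))) (B (M (nat_lit 394) (B (M (nat_lit 393) (B (L (nat_lit 395) ln9_12_0 ln9_12_0_ok) (L (nat_lit 426) ln13_13_3 ln13_13_3_ok))) (B (M (nat_lit 362) (B (M (nat_lit 426) (B (L (nat_lit 330) ln10_10_4 ln10_10_4_ok) (L (nat_lit 425) ln9_13_2 ln9_13_2_ok))) (M (nat_lit 395) (B (L (nat_lit 361) ln13_12_3 ln13_12_3_ok) (L (nat_lit 491) ln11_15_7 ln11_15_7_ok))))) (B (M (nat_lit 426) (B (L (nat_lit 393) ln13_13_3 ln13_13_3_ok) (L (nat_lit 425) ln9_13_2 ln9_13_2_ok))) (M (nat_lit 395) (B (L (nat_lit 393) ln9_12_0 ln9_12_0_ok) (M (nat_lit 491) (B (L (nat_lit 362) ln11_15_7 ln11_15_7_ok) (L (nat_lit 523) ln11_16_6 ln11_16_6_ok))))))))) (M (nat_lit 395) (B (M (nat_lit 394) (B (L (nat_lit 393) ln9_12_0 ln9_12_0_ok) (M (nat_lit 491) (B (L (nat_lit 362) ln11_15_7 ln11_15_7_ok) (L (nat_lit 523) ln11_16_6 ln11_16_6_ok)))))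 (B (M (nat_lit 492) (B (M (nat_lit 460) (B (L (nat_lit 363) ln12_15_7 ln12_15_7_ok) (L (nat_lit 365) ln12_15_6 ln12_15_6_ok))) (M (nat_lit 491) (B (L (nat_lit 524) ln11_12_4 ln11_12_4_ok) (L (nat_lit 523) ln11_16_6 ln11_16_6_ok))))) (M (nat_lit 363) (B (M (nat_lit 331) (B (L (nat_lit 299) ln11_9_4 ln11_9_4_ok) (L (nat_lit 460) ln11_10_4 ln11_10_4_ok))) (M (nat_lit 362) (B (L (nat_lit 330) ln11_14_7 ln11_14_7_ok) (L (nat_lit 398) ln14_12_3 ln14_12_3_ok))))))))))) (B (M (nat_lit 395) (B (M (nat_lit 397) (B (M (nat_lit 398) (B (L (nat_lit 426) ln14_12_1 ln14_12_1_ok) (L (nat_lit 399) ln15_12_1 ln15_12_1_ok))) (M (nat_lit 365) (B (M (nat_lit 333) (B (L (nat_lit 301) ln13_9_5 ln13_9_5_ok) (L (nat_lit 460) ln13_10_5 ln13_10_5_ok))) (M (nat_lit 394) (B (L (nat_lit 366) ln10_12_2 ln10_12_2_ok) (L (nat_lit 393) ln9_12_0 ln9_12_0_ok))))))) (B (M (nat_lit 397) (B (M (nat_lit 398) (B (L (nat_lit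 426) ln14_12_1 ln14_12_1_ok) (L (nat_lit 399) ln15_12_1 ln15_12_1_ok))) (M (nat_lit 365) (B (M (nat_lit 394) (B (L (nat_lit 366) ln10_12_2 ln10_12_2_ok) (L (nat_lit 393) ln9_12_0 ln9_12_0_ok))) (M (nat_lit 460) (B (L (nat_lit 333) ln13_10_5 ln13_10_5_ok) (L (nat_lit 492) ln12_15_6 ln12_15_6_ok))))))) (B (M (nat_lit 397) (B (M (nat_lit 398) (B (L (nat_lit 426) ln14_12_1 ln14_12_1_ok) (L (nat_lit 399) ln15_12_1 ln15_12_1_ok))) (M (nat_lit 492) (B (M (nat_lit 460) (B (L (nat_lit 363) ln12_15_7 ln12_15_7_ok) (L (nat_lit 365) ln12_15_6 ln12_15_6_ok))) (M (nat_lit 491) (B (L (nat_lit 524) ln11_12_4 ln11_12_4_ok) (L (nat_lit 523) ln11_16_6 ln11_16_6_ok))))))) (B (M (nat_lit 492) (B (M (nat_lit 460) (B (L (nat_lit 363) ln12_15_7 ln12_15_7_ok) (L (nat_lit 524) ln12_16_7 ln12_16_7_ok))) (B (M (nat_lit 491) (B (L (nat_lit 524) ln11_12_4 ln11_12_4_ok) (L (nat_lit 523) ln11_16_6 ln11_16_6_ok)))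 (M (nat_lit 458) (B (M (nat_lit 363) (B (L (nat_lit 460) ln12_15_7 ln12_15_7_ok) (L (nat_lit 490) ln11_11_5 ln11_11_5_ok))) (B (M (nat_lit 457) (B (L (nat_lit 456) ln8_14_2 ln8_14_2_ok) (L (nat_lit 460) ln9_14_2 ln9_14_2_ok))) (M (nat_lit 457) (B (L (nat_lit 426) ln13_13_1 ln13_13_1_ok) (L (nat_lit 456) ln8_14_2 ln8_14_2_ok))))))))) (B (M (nat_lit 491) (B (L (nat_lit 523) ln11_16_6 ln11_16_6_ok) (M (nat_lit 363) (B (M (nat_lit 331) (B (L (nat_lit 299) ln11_9_4 ln11_9_4_ok) (L (nat_lit 460) ln11_10_4 ln11_10_4_ok))) (B (M (nat_lit 460) (B (L (nat_lit 331) ln11_10_4 ln11_10_4_ok) (L (nat_lit 492) ln12_15_7 ln12_15_7_ok))) (B (M (nat_lit 492) (B (L (nat_lit 460) ln12_15_7 ln12_15_7_ok) (L (nat_lit 524) ln11_12_4 ln11_12_4_ok))) (M (nat_lit 490) (B (L (nat_lit 458) ln11_11_5 ln11_11_5_ok) (L (nat_lit 522) ln11_12_5 ln11_12_5_ok))))))))) (M (nat_lit 426) (B (M (nat_lit 397) (B (L (nat_lit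 398) ln14_12_1 ln14_12_1_ok) (L (nat_lit 425) ln9_13_2 ln9_13_2_ok))) (M (nat_lit 458) (B (L (nat_lit 457) ln13_13_1 ln13_13_1_ok) (M (nat_lit 363) (B (L (nat_lit 331) ln11_10_5 ln11_10_5_ok) (L (nat_lit 490) ln11_11_5 ln11_11_5_ok))))))))))))) (B (M (nat_lit 426) (B (M (nat_lit 397) (B (L (nat_lit 425) ln9_13_2 ln9_13_2_ok) (L (nat_lit 398) ln10_13_2 ln10_13_2_ok))) (M (nat_lit 394) (B (L (nat_lit 393) ln13_13_3 ln13_13_3_ok) (M (nat_lit 491) (B (L (nat_lit 523) ln11_16_7 ln11_16_7_ok) (M (nat_lit 362) (B (L (nat_lit 330) ln10_10_4 ln10_10_4_ok) (L (nat_lit 458) ln10_11_4 ln10_11_4_ok))))))))) (B (M (nat_lit 397) (B (M (nat_lit 398) (B (L (nat_lit 399) ln15_12_1 ln15_12_1_ok) (L (nat_lit 426) ln10_13_2 ln10_13_2_ok))) (B (M (nat_lit 395) (B (M (nat_lit 426) (B (L (nat_lit 425) ln9_13_2 ln9_13_2_ok) (M (nat_lit 458) (B (L (nat_lit 457) ln13_13_1 ln13_13_1_ok) (M (nat_lit 363) (B (L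 (nat_lit 331) ln11_10_5 ln11_10_5_ok) (L (nat_lit 490) ln11_11_5 ln11_11_5_ok))))))) (M (nat_lit 365) (B (M (nat_lit 460) (B (L (nat_lit 333) ln13_10_5 ln13_10_5_ok) (L (nat_lit 492) ln12_15_6 ln12_15_6_ok))) (M (nat_lit 394) (B (L (nat_lit 366) ln10_12_2 ln10_12_2_ok) (M (nat_lit 491) (B (L (nat_lit 362) ln11_15_7 ln11_15_7_ok) (L (nat_lit 523) ln11_16_6 ln11_16_6_ok))))))))) (M (nat_lit 398) (B (L (nat_lit 399) ln15_12_1 ln15_12_1_ok) (M (nat_lit 395) (B (M (nat_lit 363) (B (L (nat_lit 362) ln14_12_3 ln14_12_3_ok) (M (nat_lit 331) (B (L (nat_lit 299) ln11_9_4 ln11_9_4_ok) (L (nat_lit 460) ln11_10_4 ln11_10_4_ok))))) (B (M (nat_lit 491) (B (L (nat_lit 523) ln11_16_6 ln11_16_6_ok) (M (nat_lit 362) (B (L (nat_lit 363) ln14_12_3 ln14_12_3_ok) (L (nat_lit 394) ln11_15_7 ln11_15_7_ok))))) (M (nat_lit 365) (B (M (nat_lit 333) (B (L (nat_lit 301) ln13_9_5 ln13_9_5_ok) (L (nat_lit 460) ln13_10_5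 ln13_10_5_ok))) (M (nat_lit 366) (B (L (nat_lit 394) ln10_12_2 ln10_12_2_ok) (L (nat_lit 367) ln11_12_2 ln11_12_2_ok))))))))))))) (B (M (nat_lit 491) (B (L (nat_lit 523) ln11_16_6 ln11_16_6_ok) (M (nat_lit 492) (B (M (nat_lit 524) (B (L (nat_lit 395) ln11_12_4 ln11_12_4_ok) (M (nat_lit 460) (B (L (nat_lit 397) ln12_16_6 ln12_16_6_ok) (L (nat_lit 556) ln12_17_7 ln12_17_7_ok))))) (B (M (nat_lit 397) (B (M (nat_lit 398) (B (L (nat_lit 399) ln15_12_1 ln15_12_1_ok) (L (nat_lit 426) ln10_13_2 ln10_13_2_ok))) (M (nat_lit 460) (B (L (nat_lit 365) ln12_15_6 ln12_15_6_ok) (L (nat_lit 524) ln12_16_6 ln12_16_6_ok))))) (B (M (nat_lit 395) (B (L (nat_lit 524) ln11_12_4 ln11_12_4_ok) (M (nat_lit 363) (B (L (nat_lit 460) ln12_15_7 ln12_15_7_ok) (M (nat_lit 490) (B (L (nat_lit 458) ln11_11_5 ln11_11_5_ok) (L (nat_lit 522) ln11_12_5 ln11_12_5_ok))))))) (B (M (nat_lit 395) (B (L (nat_lit 524) ln11_12_4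 ln11_12_4_ok) (M (nat_lit 458) (B (M (nat_lit 490) (B (L (nat_lit 363) ln11_11_5 ln11_11_5_ok) (L (nat_lit 522) ln11_12_5 ln11_12_5_ok))) (M (nat_lit 457) (B (L (nat_lit 426) ln13_13_1 ln13_13_1_ok) (L (nat_lit 456) ln8_14_2 ln8_14_2_ok))))))) (M (nat_lit 460) (B (M (nat_lit 397) (B (L (nat_lit 365) ln12_15_6 ln12_15_6_ok) (M (nat_lit 398) (B (L (nat_lit 399) ln15_12_1 ln15_12_1_ok) (L (nat_lit 426) ln10_13_2 ln10_13_2_ok))))) (M (nat_lit 493) (B (L (nat_lit 525) ln12_12_4 ln12_12_4_ok) (M (nat_lit 458) (B (L (nat_lit 457) ln9_14_2 ln9_14_2_ok) (L (nat_lit 494) ln14_15_3 ln14_15_3_ok)))))))))))))) (B (M (nat_lit 395) (B (M (nat_lit 394) (B (L (nat_lit 393) ln9_12_0 ln9_12_0_ok) (M (nat_lit 491) (B (L (nat_lit 362) ln11_15_7 ln11_15_7_ok) (L (nat_lit 523) ln11_16_6 ln11_16_6_ok))))) (M (nat_lit 363) (B (M (nat_lit 460) (B (L (nat_lit 331) ln11_10_4 ln11_10_4_ok) (L (nat_lit 492) ln12_15_7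 ln12_15_7_ok))) (M (nat_lit 458) (B (L (nat_lit 490) ln11_11_5 ln11_11_5_ok) (M (nat_lit 457) (B (L (nat_lit 426) ln13_13_1 ln13_13_1_ok) (L (nat_lit 456) ln8_14_2 ln8_14_2_ok))))))))) (B (M (nat_lit 491) (B (L (nat_lit 523) ln11_16_6 ln11_16_6_ok) (M (nat_lit 395) (B (M (nat_lit 394) (B (L (nat_lit 362) ln11_15_7 ln11_15_7_ok) (L (nat_lit 393) ln9_12_0 ln9_12_0_ok))) (M (nat_lit 363) (B (M (nat_lit 331) (B (L (nat_lit 299) ln11_9_4 ln11_9_4_ok) (L (nat_lit 460) ln11_10_4 ln11_10_4_ok))) (B (M (nat_lit 460) (B (L (nat_lit 331) ln11_10_4 ln11_10_4_ok) (L (nat_lit 492) ln12_15_7 ln12_15_7_ok))) (B (M (nat_lit 492) (B (L (nat_lit 460) ln12_15_7 ln12_15_7_ok) (L (nat_lit 524) ln11_12_4 ln11_12_4_ok))) (M (nat_lit 490) (B (L (nat_lit 458) ln11_11_5 ln11_11_5_ok) (L (nat_lit 522) ln11_12_5 ln11_12_5_ok))))))))))) (M (nat_lit 395) (B (M (nat_lit 397) (B (M (nat_lit 398) (B (L (nat_lit 426)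 ln14_12_1 ln14_12_1_ok) (L (nat_lit 399) ln15_12_1 ln15_12_1_ok))) (M (nat_lit 365) (B (M (nat_lit 333) (B (L (nat_lit 301) ln13_9_5 ln13_9_5_ok) (L (nat_lit 460) ln13_10_5 ln13_10_5_ok))) (M (nat_lit 394) (B (L (nat_lit 366) ln10_12_2 ln10_12_2_ok) (L (nat_lit 393) ln9_12_0 ln9_12_0_ok))))))) (B (M (nat_lit 397) (B (M (nat_lit 398) (B (L (nat_lit 426) ln14_12_1 ln14_12_1_ok) (L (nat_lit 399) ln15_12_1 ln15_12_1_ok))) (M (nat_lit 365) (B (M (nat_lit 394) (B (L (nat_lit 366) ln10_12_2 ln10_12_2_ok) (L (nat_lit 393) ln9_12_0 ln9_12_0_ok))) (M (nat_lit 460) (B (L (nat_lit 333) ln13_10_5 ln13_10_5_ok) (L (nat_lit 492) ln12_15_6 ln12_15_6_ok))))))) (B (M (nat_lit 426) (B (M (nat_lit 397) (B (L (nat_lit 398) ln14_12_1 ln14_12_1_ok) (L (nat_lit 425) ln9_13_2 ln9_13_2_ok))) (M (nat_lit 458) (B (L (nat_lit 457) ln13_13_1 ln13_13_1_ok) (M (nat_lit 363) (B (L (nat_lit 331) ln11_10_5 ln11_10_5_ok)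 (L (nat_lit 490) ln11_11_5 ln11_11_5_ok))))))) (B (M (nat_lit 363) (B (M (nat_lit 460) (B (L (nat_lit 331) ln11_10_4 ln11_10_4_ok) (L (nat_lit 492) ln12_15_7 ln12_15_7_ok))) (M (nat_lit 458) (B (L (nat_lit 490) ln11_11_5 ln11_11_5_ok) (M (nat_lit 457) (B (L (nat_lit 426) ln13_13_1 ln13_13_1_ok) (L (nat_lit 456) ln8_14_2 ln8_14_2_ok))))))) (M (nat_lit 397) (B (M (nat_lit 366) (B (M (nat_lit 394) (B (L (nat_lit 365) ln10_12_2 ln10_12_2_ok) (L (nat_lit 393) ln9_12_0 ln9_12_0_ok))) (M (nat_lit 398) (B (L (nat_lit 367) ln11_12_2 ln11_12_2_ok) (L (nat_lit 399) ln15_12_1 ln15_12_1_ok))))) (B (M (nat_lit 363) (B (M (nat_lit 331) (B (L (nat_lit 299) ln11_9_4 ln11_9_4_ok) (L (nat_lit 460) ln11_10_4 ln11_10_4_ok))) (M (nat_lit 362) (B (L (nat_lit 330) ln11_14_7 ln11_14_7_ok) (L (nat_lit 398) ln14_12_3 ln14_12_3_ok))))) (M (nat_lit 365) (B (M (nat_lit 394) (B (L (nat_lit 366) ln10_12_2 ln10_12_2_ok)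 (L (nat_lit 393) ln9_12_0 ln9_12_0_ok))) (M (nat_lit 460) (B (L (nat_lit 333) ln13_10_5 ln13_10_5_ok) (L (nat_lit 492) ln12_15_6 ln12_15_6_ok))))))))))))))))))))))) (nat_lit 1488565709436905182597016920618875711317065232515143436133960971351635417069121137610048965517821161510899162402685155093675491255430152192) (nat_lit 235872651757290264418112238746734313456985850126208889252965780253167767451239278837896970839469544703420384466920884887223563770765566334682756668309058614179011756032) (nat_lit 235872651757290264418112238746734313456985850126208889252965780253167767451239278837896970839469544703420384466920884887223563770765566334682756668309058614179011756032) (by decide +kernel)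
noncomputable def c41_n7549 : Cert := (M (nat_lit 364) (B (M (nat_lit 332) (B (L (nat_lit 427) ln12_10_5 ln12_10_5_ok) (M (nat_lit 300) (B (L (nat_lit 397) ln12_9_4 ln12_9_4_ok) (M (nat_lit 301) (B (L (nat_lit 269) ln12_12_6 ln12_12_6_ok) (L (nat_lit 333) ln12_13_6 ln12_13_6_ok))))))) (B (M (nat_lit 332) (B (L (nat_lit 427) ln12_10_5 ln12_10_5_ok) (M (nat_lit 300) (B (L (nat_lit 397) ln12_9_4 ln12_9_4_ok) (M (nat_lit 299) (B (L (nat_lit 267) ln12_12_7 ln12_12_7_ok) (L (nat_lit 331) ln12_13_7 ln12_13_7_ok))))))) (B (M (nat_lit 332) (B (L (nat_lit 427) ln12_10_5 ln12_10_5_ok) (M (nat_lit 460) (B (M (nat_lit 331) (B (L (nat_lit 299) ln12_13_7 ln12_13_7_ok) (L (nat_lit 363) ln12_14_7 ln12_14_7_ok))) (M (nat_lit 333) (B (L (nat_lit 301) ln12_13_6 ln12_13_6_ok) (L (nat_lit 365) ln12_14_6 ln12_14_6_ok))))))) (B (M (nat_lit 365) (B (M (nat_lit 333) (B (L (nat_lit 460) ln12_14_6 ln12_14_6_ok)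 (M (nat_lit 301) (B (L (nat_lit 269) ln13_8_5 ln13_8_5_ok) (L (nat_lit 397) ln13_9_5 ln13_9_5_ok))))) (B (M (nat_lit 460) (B (L (nat_lit 333) ln12_14_6 ln12_14_6_ok) (M (nat_lit 492) (B (L (nat_lit 397) ln12_15_6 ln12_15_6_ok) (M (nat_lit 363) (B (L (nat_lit 331) ln12_14_7 ln12_14_7_ok) (L (nat_lit 395) ln12_15_7 ln12_15_7_ok))))))) (B (M (nat_lit 395) (B (M (nat_lit 394) (B (L (nat_lit 393) ln9_12_2 ln9_12_2_ok) (M (nat_lit 366) (B (L (nat_lit 363) ln14_11_1 ln14_11_1_ok) (L (nat_lit 367) ln15_11_1 ln15_11_1_ok))))) (B (M (nat_lit 394) (B (L (nat_lit 393) ln9_12_2 ln9_12_2_ok) (M (nat_lit 366) (B (L (nat_lit 367) ln15_11_1 ln15_11_1_ok) (L (nat_lit 397) ln10_12_2 ln10_12_2_ok))))) (M (nat_lit 363) (B (M (nat_lit 460) (B (L (nat_lit 331) ln12_14_7 ln12_14_7_ok) (L (nat_lit 492) ln12_15_7 ln12_15_7_ok))) (M (nat_lit 362) (B (M (nat_lit 330) (B (L (nat_lit 329) ln13_11_3 ln13_11_3_ok)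 (L (nat_lit 427) ln11_14_7 ln11_14_7_ok))) (M (nat_lit 361) (B (L (nat_lit 360) ln8_11_0 ln8_11_0_ok) (L (nat_lit 397) ln9_11_0 ln9_11_0_ok)))))))))) (B (M (nat_lit 460) (B (L (nat_lit 333) ln12_14_6 ln12_14_6_ok) (M (nat_lit 363) (B (L (nat_lit 331) ln12_14_7 ln12_14_7_ok) (M (nat_lit 395) (B (L (nat_lit 492) ln12_15_7 ln12_15_7_ok) (M (nat_lit 366) (B (L (nat_lit 394) ln14_11_1 ln14_11_1_ok) (L (nat_lit 367) ln15_11_1 ln15_11_1_ok))))))))) (M (nat_lit 366) (B (M (nat_lit 395) (B (L (nat_lit 367) ln15_11_1 ln15_11_1_ok) (M (nat_lit 394) (B (L (nat_lit 363) ln14_11_1 ln14_11_1_ok) (L (nat_lit 393) ln9_12_2 ln9_12_2_ok))))) (B (M (nat_lit 395) (B (L (nat_lit 367) ln15_11_1 ln15_11_1_ok) (M (nat_lit 394) (B (L (nat_lit 393) ln9_12_2 ln9_12_2_ok) (L (nat_lit 397) ln10_12_2 ln10_12_2_ok))))) (B (M (nat_lit 363) (B (M (nat_lit 331) (B (L (nat_lit 330) ln14_11_3 ln14_11_3_ok) (M (nat_lit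 395) (B (L (nat_lit 299) ln11_9_4 ln11_9_4_ok) (L (nat_lit 394) ln14_11_1 ln14_11_1_ok))))) (M (nat_lit 333) (B (M (nat_lit 301) (B (L (nat_lit 269) ln13_8_5 ln13_8_5_ok) (L (nat_lit 397) ln13_9_5 ln13_9_5_ok))) (M (nat_lit 334) (B (L (nat_lit 362) ln10_11_2 ln10_11_2_ok) (L (nat_lit 335) ln11_11_2 ln11_11_2_ok))))))) (B (M (nat_lit 367) (B (L (nat_lit 395) ln15_11_1 ln15_11_1_ok) (M (nat_lit 363) (B (M (nat_lit 335) (B (L (nat_lit 334) ln11_11_2 ln11_11_2_ok) (L (nat_lit 336) ln12_11_2 ln12_11_2_ok))) (M (nat_lit 399) (B (L (nat_lit 398) ln11_11_0 ln11_11_0_ok) (L (nat_lit 400) ln12_11_0 ln12_11_0_ok))))))) (M (nat_lit 363) (B (M (nat_lit 362) (B (M (nat_lit 330) (B (L (nat_lit 329) ln13_11_3 ln13_11_3_ok) (L (nat_lit 331) ln14_11_3 ln14_11_3_ok))) (M (nat_lit 398) (B (L (nat_lit 397) ln10_11_0 ln10_11_0_ok) (L (nat_lit 399) ln11_11_0 ln11_11_0_ok))))) (B (M (nat_lit 333) (B (M (nat_lit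 301) (B (L (nat_lit 269) ln13_8_5 ln13_8_5_ok) (L (nat_lit 397) ln13_9_5 ln13_9_5_ok))) (M (nat_lit 334) (B (L (nat_lit 362) ln10_11_2 ln10_11_2_ok) (L (nat_lit 335) ln11_11_2 ln11_11_2_ok))))) (M (nat_lit 367) (B (M (nat_lit 335) (B (L (nat_lit 334) ln11_11_2 ln11_11_2_ok) (L (nat_lit 336) ln12_11_2 ln12_11_2_ok))) (M (nat_lit 399) (B (L (nat_lit 398) ln11_11_0 ln11_11_0_ok) (L (nat_lit 400) ln12_11_0 ln12_11_0_ok)))))))))))))))))) (M (nat_lit 332) (B (M (nat_lit 300) (B (L (nat_lit 397) ln12_9_4 ln12_9_4_ok) (M (nat_lit 301) (B (L (nat_lit 269) ln12_12_6 ln12_12_6_ok) (L (nat_lit 333) ln12_13_6 ln12_13_6_ok))))) (B (M (nat_lit 300) (B (L (nat_lit 397) ln12_9_4 ln12_9_4_ok) (M (nat_lit 299) (B (L (nat_lit 267) ln12_12_7 ln12_12_7_ok) (L (nat_lit 331) ln12_13_7 ln12_13_7_ok))))) (M (nat_lit 460) (B (M (nat_lit 331) (B (L (nat_lit 299) ln12_13_7 ln12_13_7_ok) (L (nat_lit 363) ln12_14_7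 ln12_14_7_ok))) (M (nat_lit 333) (B (L (nat_lit 301) ln12_13_6 ln12_13_6_ok) (L (nat_lit 365) ln12_14_6 ln12_14_6_ok)))))))))))))
theorem c41_s7550 : Sem (nat_lit 2079502270752001762064242424960807725827516048677469043429686155012882190638009693656033379242457518153052022685796627120027336704) (nat_lit 825554280635656100705855142027639893370112193730715058137015758753399032812282192098586905218487787116933343553650533079394583131973244400982230877331330624101323636736) (nat_lit 825554280635656100705855142027639893370112193730715058137015758753399032812282192098586905218487787116933343553650533079394583131973244400982230877331330624101323636736) :=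
  sem_of_chk (M (nat_lit 459) (B (M (nat_lit 364) (B (M (nat_lit 427) (B (L (nat_lit 332) ln12_10_5 ln12_10_5_ok) (M (nat_lit 491) (B (L (nat_lit 395) ln11_15_6 ln11_15_6_ok) (L (nat_lit 523) ln11_16_6 ln11_16_6_ok))))) (B (M (nat_lit 491) (B (L (nat_lit 460) ln12_11_5 ln12_11_5_ok) (M (nat_lit 427) (B (L (nat_lit 395) ln11_15_6 ln11_15_6_ok) (L (nat_lit 523) ln11_16_6 ln11_16_6_ok))))) (B (M (nat_lit 427) (B (L (nat_lit 332) ln12_10_5 ln12_10_5_ok) (M (nat_lit 491) (B (L (nat_lit 460) ln12_11_5 ln12_11_5_ok) (L (nat_lit 523) ln11_16_6 ln11_16_6_ok))))) (M (nat_lit 332) (B (M (nat_lit 300) (B (L (nat_lit 397) ln12_9_4 ln12_9_4_ok) (M (nat_lit 301) (B (L (nat_lit 269) ln12_12_6 ln12_12_6_ok) (L (nat_lit 333) ln12_13_6 ln12_13_6_ok))))) (B (M (nat_lit 300) (B (L (nat_lit 397) ln12_9_4 ln12_9_4_ok) (M (nat_lit 299) (B (L (nat_lit 267) ln12_12_7 ln12_12_7_ok) (L (nat_lit 331) ln12_13_7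 ln12_13_7_ok))))) (M (nat_lit 460) (B (M (nat_lit 331) (B (L (nat_lit 299) ln12_13_7 ln12_13_7_ok) (L (nat_lit 363) ln12_14_7 ln12_14_7_ok))) (M (nat_lit 333) (B (L (nat_lit 301) ln12_13_6 ln12_13_6_ok) (L (nat_lit 365) ln12_14_6 ln12_14_6_ok)))))))))))) (B (M (nat_lit 364) (B (M (nat_lit 427) (B (L (nat_lit 332) ln12_10_5 ln12_10_5_ok) (M (nat_lit 491) (B (L (nat_lit 460) ln12_11_5 ln12_11_5_ok) (L (nat_lit 523) ln11_16_6 ln11_16_6_ok))))) (B (M (nat_lit 491) (B (L (nat_lit 460) ln12_11_5 ln12_11_5_ok) (M (nat_lit 427) (B (L (nat_lit 395) ln11_15_6 ln11_15_6_ok) (L (nat_lit 523) ln11_16_6 ln11_16_6_ok))))) (B (M (nat_lit 332) (B (M (nat_lit 300) (B (L (nat_lit 397) ln12_9_4 ln12_9_4_ok) (M (nat_lit 301) (B (L (nat_lit 269) ln12_12_6 ln12_12_6_ok) (L (nat_lit 333) ln12_13_6 ln12_13_6_ok))))) (M (nat_lit 460) (B (L (nat_lit 491) ln12_11_5 ln12_11_5_ok) (M (nat_lit 331) (B (L (nat_lit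 299) ln12_13_7 ln12_13_7_ok) (L (nat_lit 363) ln12_14_7 ln12_14_7_ok))))))) (B (M (nat_lit 427) (B (L (nat_lit 332) ln12_10_5 ln12_10_5_ok) (M (nat_lit 491) (B (L (nat_lit 395) ln11_15_6 ln11_15_6_ok) (L (nat_lit 523) ln11_16_6 ln11_16_6_ok))))) (M (nat_lit 332) (B (L (nat_lit 427) ln12_10_5 ln12_10_5_ok) (M (nat_lit 300) (B (L (nat_lit 397) ln12_9_4 ln12_9_4_ok) (M (nat_lit 301) (B (L (nat_lit 269) ln12_12_6 ln12_12_6_ok) (L (nat_lit 333) ln12_13_6 ln12_13_6_ok)))))))))))) (B (M (nat_lit 364) (B (M (nat_lit 427) (B (L (nat_lit 332) ln12_10_5 ln12_10_5_ok) (M (nat_lit 491) (B (L (nat_lit 395) ln11_15_6 ln11_15_6_ok) (L (nat_lit 523) ln11_16_6 ln11_16_6_ok))))) (B (M (nat_lit 491) (B (L (nat_lit 460) ln12_11_5 ln12_11_5_ok) (M (nat_lit 427) (B (L (nat_lit 395) ln11_15_6 ln11_15_6_ok) (L (nat_lit 523) ln11_16_6 ln11_16_6_ok))))) (B (M (nat_lit 427) (B (L (nat_lit 332) ln12_10_5 ln12_10_5_ok)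 (M (nat_lit 491) (B (L (nat_lit 460) ln12_11_5 ln12_11_5_ok) (L (nat_lit 523) ln11_16_6 ln11_16_6_ok))))) (B (M (nat_lit 332) (B (M (nat_lit 300) (B (L (nat_lit 397) ln12_9_4 ln12_9_4_ok) (M (nat_lit 299) (B (L (nat_lit 267) ln12_12_7 ln12_12_7_ok) (L (nat_lit 331) ln12_13_7 ln12_13_7_ok))))) (M (nat_lit 460) (B (L (nat_lit 491) ln12_11_5 ln12_11_5_ok) (M (nat_lit 333) (B (L (nat_lit 301) ln12_13_6 ln12_13_6_ok) (L (nat_lit 365) ln12_14_6 ln12_14_6_ok))))))) (M (nat_lit 332) (B (L (nat_lit 427) ln12_10_5 ln12_10_5_ok) (M (nat_lit 300) (B (L (nat_lit 397) ln12_9_4 ln12_9_4_ok) (M (nat_lit 299) (B (L (nat_lit 267) ln12_12_7 ln12_12_7_ok) (L (nat_lit 331) ln12_13_7 ln12_13_7_ok)))))))))))) (B (M (nat_lit 364) (B (M (nat_lit 427) (B (L (nat_lit 332) ln12_10_5 ln12_10_5_ok) (M (nat_lit 491) (B (L (nat_lit 460) ln12_11_5 ln12_11_5_ok) (L (nat_lit 523) ln11_16_6 ln11_16_6_ok))))) (B (M (nat_lit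 491) (B (L (nat_lit 460) ln12_11_5 ln12_11_5_ok) (M (nat_lit 427) (B (L (nat_lit 395) ln11_15_6 ln11_15_6_ok) (L (nat_lit 523) ln11_16_6 ln11_16_6_ok))))) (B (M (nat_lit 460) (B (L (nat_lit 491) ln12_11_5 ln12_11_5_ok) (M (nat_lit 492) (B (M (nat_lit 363) (B (L (nat_lit 331) ln12_14_7 ln12_14_7_ok) (L (nat_lit 395) ln12_15_7 ln12_15_7_ok))) (M (nat_lit 365) (B (L (nat_lit 333) ln12_14_6 ln12_14_6_ok) (L (nat_lit 397) ln12_15_6 ln12_15_6_ok))))))) (B (M (nat_lit 427) (B (L (nat_lit 332) ln12_10_5 ln12_10_5_ok) (M (nat_lit 491) (B (L (nat_lit 395) ln11_15_6 ln11_15_6_ok) (L (nat_lit 523) ln11_16_6 ln11_16_6_ok))))) (M (nat_lit 332) (B (L (nat_lit 427) ln12_10_5 ln12_10_5_ok) (M (nat_lit 300) (B (L (nat_lit 397) ln12_9_4 ln12_9_4_ok) (M (nat_lit 301) (B (L (nat_lit 269) ln12_12_6 ln12_12_6_ok) (L (nat_lit 333) ln12_13_6 ln12_13_6_ok)))))))))))) (B (M (nat_lit 364) (B (M (nat_lit 427)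 (B (L (nat_lit 332) ln12_10_5 ln12_10_5_ok) (M (nat_lit 491) (B (L (nat_lit 395) ln11_15_6 ln11_15_6_ok) (L (nat_lit 523) ln11_16_6 ln11_16_6_ok))))) (B (M (nat_lit 491) (B (L (nat_lit 460) ln12_11_5 ln12_11_5_ok) (M (nat_lit 427) (B (L (nat_lit 395) ln11_15_6 ln11_15_6_ok) (L (nat_lit 523) ln11_16_6 ln11_16_6_ok))))) (B (M (nat_lit 427) (B (L (nat_lit 332) ln12_10_5 ln12_10_5_ok) (M (nat_lit 491) (B (L (nat_lit 460) ln12_11_5 ln12_11_5_ok) (L (nat_lit 523) ln11_16_6 ln11_16_6_ok))))) (B (M (nat_lit 460) (B (L (nat_lit 491) ln12_11_5 ln12_11_5_ok) (M (nat_lit 492) (B (M (nat_lit 363) (B (L (nat_lit 331) ln12_14_7 ln12_14_7_ok) (L (nat_lit 395) ln12_15_7 ln12_15_7_ok))) (M (nat_lit 365) (B (L (nat_lit 333) ln12_14_6 ln12_14_6_ok) (L (nat_lit 397) ln12_15_6 ln12_15_6_ok))))))) (M (nat_lit 332) (B (L (nat_lit 427) ln12_10_5 ln12_10_5_ok) (M (nat_lit 460) (B (M (nat_lit 331) (B (L (nat_lit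 299) ln12_13_7 ln12_13_7_ok) (L (nat_lit 363) ln12_14_7 ln12_14_7_ok))) (M (nat_lit 333) (B (L (nat_lit 301) ln12_13_6 ln12_13_6_ok) (L (nat_lit 365) ln12_14_6 ln12_14_6_ok)))))))))))) (B (M (nat_lit 364) (B (M (nat_lit 427) (B (L (nat_lit 332) ln12_10_5 ln12_10_5_ok) (M (nat_lit 491) (B (L (nat_lit 460) ln12_11_5 ln12_11_5_ok) (L (nat_lit 523) ln11_16_6 ln11_16_6_ok))))) (B (M (nat_lit 491) (B (L (nat_lit 460) ln12_11_5 ln12_11_5_ok) (M (nat_lit 427) (B (L (nat_lit 395) ln11_15_6 ln11_15_6_ok) (L (nat_lit 523) ln11_16_6 ln11_16_6_ok))))) (B (M (nat_lit 460) (B (L (nat_lit 491) ln12_11_5 ln12_11_5_ok) (M (nat_lit 492) (B (M (nat_lit 363) (B (L (nat_lit 331) ln12_14_7 ln12_14_7_ok) (L (nat_lit 395) ln12_15_7 ln12_15_7_ok))) (M (nat_lit 365) (B (L (nat_lit 333) ln12_14_6 ln12_14_6_ok) (L (nat_lit 397) ln12_15_6 ln12_15_6_ok))))))) (B (M (nat_lit 427) (B (L (nat_lit 332) ln12_10_5 ln12_10_5_ok)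 (M (nat_lit 491) (B (L (nat_lit 395) ln11_15_6 ln11_15_6_ok) (L (nat_lit 523) ln11_16_6 ln11_16_6_ok))))) (M (nat_lit 332) (B (L (nat_lit 427) ln12_10_5 ln12_10_5_ok) (M (nat_lit 300) (B (L (nat_lit 397) ln12_9_4 ln12_9_4_ok) (M (nat_lit 299) (B (L (nat_lit 267) ln12_12_7 ln12_12_7_ok) (L (nat_lit 331) ln12_13_7 ln12_13_7_ok)))))))))))) (B (M (nat_lit 364) (B (M (nat_lit 427) (B (L (nat_lit 332) ln12_10_5 ln12_10_5_ok) (M (nat_lit 491) (B (L (nat_lit 395) ln11_15_6 ln11_15_6_ok) (L (nat_lit 523) ln11_16_6 ln11_16_6_ok))))) (B (M (nat_lit 491) (B (L (nat_lit 460) ln12_11_5 ln12_11_5_ok) (M (nat_lit 427) (B (L (nat_lit 395) ln11_15_6 ln11_15_6_ok) (L (nat_lit 523) ln11_16_6 ln11_16_6_ok))))) (B (M (nat_lit 427) (B (L (nat_lit 332) ln12_10_5 ln12_10_5_ok) (M (nat_lit 491) (B (L (nat_lit 460) ln12_11_5 ln12_11_5_ok) (L (nat_lit 523) ln11_16_6 ln11_16_6_ok))))) (B (M (nat_lit 332) (B (M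 (nat_lit 300) (B (L (nat_lit 397) ln12_9_4 ln12_9_4_ok) (M (nat_lit 301) (B (L (nat_lit 269) ln12_12_6 ln12_12_6_ok) (L (nat_lit 333) ln12_13_6 ln12_13_6_ok))))) (B (M (nat_lit 460) (B (L (nat_lit 491) ln12_11_5 ln12_11_5_ok) (M (nat_lit 333) (B (L (nat_lit 301) ln12_13_6 ln12_13_6_ok) (L (nat_lit 365) ln12_14_6 ln12_14_6_ok))))) (B (M (nat_lit 460) (B (L (nat_lit 491) ln12_11_5 ln12_11_5_ok) (M (nat_lit 397) (B (L (nat_lit 300) ln12_9_4 ln12_9_4_ok) (M (nat_lit 365) (B (L (nat_lit 333) ln12_14_6 ln12_14_6_ok) (L (nat_lit 492) ln12_15_6 ln12_15_6_ok))))))) (M (nat_lit 460) (B (L (nat_lit 491) ln12_11_5 ln12_11_5_ok) (M (nat_lit 397) (B (L (nat_lit 300) ln12_9_4 ln12_9_4_ok) (M (nat_lit 492) (B (L (nat_lit 365) ln12_15_6 ln12_15_6_ok) (L (nat_lit 524) ln12_16_6 ln12_16_6_ok))))))))))) (M (nat_lit 332) (B (L (nat_lit 427) ln12_10_5 ln12_10_5_ok) (M (nat_lit 300) (B (L (nat_lit 397) ln12_9_4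 ln12_9_4_ok) (M (nat_lit 301) (B (L (nat_lit 269) ln12_12_6 ln12_12_6_ok) (L (nat_lit 333) ln12_13_6 ln12_13_6_ok)))))))))))) (B (M (nat_lit 460) (B (M (nat_lit 491) (B (L (nat_lit 364) ln12_11_5 ln12_11_5_ok) (M (nat_lit 523) (B (L (nat_lit 427) ln11_16_6 ln11_16_6_ok) (L (nat_lit 492) ln12_12_5 ln12_12_5_ok))))) (B (M (nat_lit 395) (B (M (nat_lit 492) (B (L (nat_lit 363) ln12_15_7 ln12_15_7_ok) (M (nat_lit 397) (B (L (nat_lit 365) ln12_15_6 ln12_15_6_ok) (L (nat_lit 524) ln12_16_6 ln12_16_6_ok))))) (B (M (nat_lit 427) (B (M (nat_lit 394) (B (L (nat_lit 393) ln9_12_0 ln9_12_0_ok) (M (nat_lit 491) (B (L (nat_lit 362) ln11_15_7 ln11_15_7_ok) (L (nat_lit 523) ln11_16_6 ln11_16_6_ok))))) (M (nat_lit 397) (B (M (nat_lit 365) (B (L (nat_lit 333) ln13_10_5 ln13_10_5_ok) (L (nat_lit 492) ln12_15_6 ln12_15_6_ok))) (M (nat_lit 398) (B (L (nat_lit 426) ln14_12_1 ln14_12_1_ok) (L (nat_lit 399)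 ln15_12_1 ln15_12_1_ok))))))) (B (M (nat_lit 492) (B (L (nat_lit 363) ln12_15_7 ln12_15_7_ok) (M (nat_lit 524) (B (L (nat_lit 427) ln12_16_7 ln12_16_7_ok) (L (nat_lit 397) ln12_16_6 ln12_16_6_ok))))) (B (M (nat_lit 363) (B (L (nat_lit 492) ln12_15_7 ln12_15_7_ok) (M (nat_lit 427) (B (L (nat_lit 331) ln11_10_4 ln11_10_4_ok) (M (nat_lit 458) (B (L (nat_lit 490) ln11_11_5 ln11_11_5_ok) (L (nat_lit 457) ln9_14_2 ln9_14_2_ok))))))) (M (nat_lit 427) (B (M (nat_lit 394) (B (L (nat_lit 393) ln9_12_0 ln9_12_0_ok) (M (nat_lit 491) (B (L (nat_lit 362) ln11_15_7 ln11_15_7_ok) (L (nat_lit 523) ln11_16_6 ln11_16_6_ok))))) (M (nat_lit 363) (B (L (nat_lit 331) ln11_10_4 ln11_10_4_ok) (M (nat_lit 458) (B (L (nat_lit 490) ln11_11_5 ln11_11_5_ok) (L (nat_lit 457) ln9_14_2 ln9_14_2_ok)))))))))))) (B (M (nat_lit 491) (B (L (nat_lit 364) ln12_11_5 ln12_11_5_ok) (M (nat_lit 523) (B (L (nat_lit 492) ln12_12_5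 ln12_12_5_ok) (L (nat_lit 555) ln11_17_6 ln11_17_6_ok))))) (B (M (nat_lit 492) (B (M (nat_lit 397) (B (L (nat_lit 365) ln12_15_6 ln12_15_6_ok) (L (nat_lit 524) ln12_16_6 ln12_16_6_ok))) (B (M (nat_lit 395) (B (L (nat_lit 363) ln12_15_7 ln12_15_7_ok) (M (nat_lit 524) (B (L (nat_lit 427) ln12_16_7 ln12_16_7_ok) (L (nat_lit 397) ln12_16_6 ln12_16_6_ok))))) (B (M (nat_lit 524) (B (M (nat_lit 395) (B (L (nat_lit 363) ln12_15_7 ln12_15_7_ok) (L (nat_lit 427) ln12_16_7 ln12_16_7_ok))) (M (nat_lit 525) (B (L (nat_lit 493) ln12_12_4 ln12_12_4_ok) (L (nat_lit 557) ln12_13_4 ln12_13_4_ok))))) (M (nat_lit 364) (B (M (nat_lit 363) (B (L (nat_lit 331) ln12_14_7 ln12_14_7_ok) (L (nat_lit 395) ln12_15_7 ln12_15_7_ok))) (M (nat_lit 365) (B (L (nat_lit 333) ln12_14_6 ln12_14_6_ok) (L (nat_lit 397) ln12_15_6 ln12_15_6_ok))))))))) (M (nat_lit 491) (B (L (nat_lit 364) ln12_11_5 ln12_11_5_ok) (M (nat_lit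 523) (B (L (nat_lit 427) ln11_16_6 ln11_16_6_ok) (L (nat_lit 555) ln11_17_6 ln11_17_6_ok)))))))))) (B (M (nat_lit 364) (B (M (nat_lit 427) (B (L (nat_lit 332) ln12_10_5 ln12_10_5_ok) (M (nat_lit 491) (B (L (nat_lit 460) ln12_11_5 ln12_11_5_ok) (L (nat_lit 523) ln11_16_6 ln11_16_6_ok))))) (B (M (nat_lit 491) (B (L (nat_lit 460) ln12_11_5 ln12_11_5_ok) (M (nat_lit 427) (B (L (nat_lit 395) ln11_15_6 ln11_15_6_ok) (L (nat_lit 523) ln11_16_6 ln11_16_6_ok))))) (B (M (nat_lit 460) (B (L (nat_lit 491) ln12_11_5 ln12_11_5_ok) (M (nat_lit 492) (B (M (nat_lit 363) (B (L (nat_lit 331) ln12_14_7 ln12_14_7_ok) (L (nat_lit 395) ln12_15_7 ln12_15_7_ok))) (M (nat_lit 397) (B (L (nat_lit 365) ln12_15_6 ln12_15_6_ok) (L (nat_lit 524) ln12_16_6 ln12_16_6_ok))))))) (B (M (nat_lit 427) (B (L (nat_lit 332) ln12_10_5 ln12_10_5_ok) (M (nat_lit 491) (B (L (nat_lit 395) ln11_15_6 ln11_15_6_ok) (L (nat_lit 523)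 ln11_16_6 ln11_16_6_ok))))) (M (nat_lit 332) (B (L (nat_lit 427) ln12_10_5 ln12_10_5_ok) (M (nat_lit 300) (B (L (nat_lit 397) ln12_9_4 ln12_9_4_ok) (M (nat_lit 299) (B (L (nat_lit 267) ln12_12_7 ln12_12_7_ok) (L (nat_lit 331) ln12_13_7 ln12_13_7_ok)))))))))))) (B (K (nat_lit 1488565709436905182597016920618875711317065232515143436133960971351635417069121137610048965517821161510899162402685155093675491255430152192) (nat_lit 235872651757290264418112238746734313456985850126208889252965780253167767451239278837896970839469544703420384466920884887223563770765566334682756668309058614179011756032) (nat_lit 235872651757290264418112238746734313456985850126208889252965780253167767451239278837896970839469544703420384466920884887223563770765566334682756668309058614179011756032) c41_s7382) (B (M (nat_lit 364) (B (M (nat_lit 427) (B (L (nat_lit 332) ln12_10_5 ln12_10_5_ok) (M (nat_lit 491) (B (L (nat_lit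 460) ln12_11_5 ln12_11_5_ok) (L (nat_lit 523) ln11_16_6 ln11_16_6_ok))))) (B (M (nat_lit 460) (B (L (nat_lit 491) ln12_11_5 ln12_11_5_ok) (M (nat_lit 365) (B (L (nat_lit 333) ln12_14_6 ln12_14_6_ok) (M (nat_lit 397) (B (L (nat_lit 492) ln12_15_6 ln12_15_6_ok) (M (nat_lit 363) (B (L (nat_lit 331) ln12_14_7 ln12_14_7_ok) (M (nat_lit 362) (B (L (nat_lit 361) ln9_11_0 ln9_11_0_ok) (L (nat_lit 398) ln10_11_0 ln10_11_0_ok))))))))))) (M (nat_lit 332) (B (L (nat_lit 427) ln12_10_5 ln12_10_5_ok) (M (nat_lit 300) (B (L (nat_lit 397) ln12_9_4 ln12_9_4_ok) (M (nat_lit 299) (B (L (nat_lit 267) ln12_12_7 ln12_12_7_ok) (L (nat_lit 331) ln12_13_7 ln12_13_7_ok)))))))))) (B (M (nat_lit 364) (B (M (nat_lit 427) (B (L (nat_lit 332) ln12_10_5 ln12_10_5_ok) (M (nat_lit 491) (B (L (nat_lit 460) ln12_11_5 ln12_11_5_ok) (L (nat_lit 523) ln11_16_6 ln11_16_6_ok))))) (B (M (nat_lit 491) (B (L (nat_lit 460) ln12_11_5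 ln12_11_5_ok) (M (nat_lit 427) (B (L (nat_lit 395) ln11_15_6 ln11_15_6_ok) (L (nat_lit 523) ln11_16_6 ln11_16_6_ok))))) (B (M (nat_lit 332) (B (M (nat_lit 460) (B (L (nat_lit 491) ln12_11_5 ln12_11_5_ok) (M (nat_lit 333) (B (L (nat_lit 301) ln12_13_6 ln12_13_6_ok) (L (nat_lit 365) ln12_14_6 ln12_14_6_ok))))) (B (M (nat_lit 460) (B (L (nat_lit 491) ln12_11_5 ln12_11_5_ok) (M (nat_lit 331) (B (L (nat_lit 299) ln12_13_7 ln12_13_7_ok) (L (nat_lit 363) ln12_14_7 ln12_14_7_ok))))) (M (nat_lit 300) (B (M (nat_lit 299) (B (L (nat_lit 267) ln12_12_7 ln12_12_7_ok) (L (nat_lit 331) ln12_13_7 ln12_13_7_ok))) (M (nat_lit 301) (B (L (nat_lit 269) ln12_12_6 ln12_12_6_ok) (L (nat_lit 333) ln12_13_6 ln12_13_6_ok)))))))) (B (M (nat_lit 427) (B (L (nat_lit 332) ln12_10_5 ln12_10_5_ok) (M (nat_lit 491) (B (L (nat_lit 395) ln11_15_6 ln11_15_6_ok) (L (nat_lit 523) ln11_16_6 ln11_16_6_ok))))) (M (nat_lit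 332) (B (L (nat_lit 427) ln12_10_5 ln12_10_5_ok) (M (nat_lit 300) (B (M (nat_lit 299) (B (L (nat_lit 267) ln12_12_7 ln12_12_7_ok) (L (nat_lit 331) ln12_13_7 ln12_13_7_ok))) (M (nat_lit 301) (B (L (nat_lit 269) ln12_12_6 ln12_12_6_ok) (L (nat_lit 333) ln12_13_6 ln12_13_6_ok)))))))))))) (B (M (nat_lit 460) (B (M (nat_lit 491) (B (L (nat_lit 364) ln12_11_5 ln12_11_5_ok) (M (nat_lit 523) (B (L (nat_lit 492) ln12_12_5 ln12_12_5_ok) (L (nat_lit 555) ln11_17_6 ln11_17_6_ok))))) (B (M (nat_lit 492) (B (M (nat_lit 397) (B (L (nat_lit 365) ln12_15_6 ln12_15_6_ok) (L (nat_lit 524) ln12_16_6 ln12_16_6_ok))) (B (M (nat_lit 524) (B (L (nat_lit 397) ln12_16_6 ln12_16_6_ok) (M (nat_lit 523) (B (L (nat_lit 491) ln12_12_5 ln12_12_5_ok) (L (nat_lit 555) ln12_13_5 ln12_13_5_ok))))) (B (M (nat_lit 524) (B (M (nat_lit 523) (B (L (nat_lit 491) ln12_12_5 ln12_12_5_ok) (L (nat_lit 555) ln12_13_5 ln12_13_5_ok)))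 (M (nat_lit 525) (B (L (nat_lit 493) ln12_12_4 ln12_12_4_ok) (L (nat_lit 557) ln12_13_4 ln12_13_4_ok))))) (M (nat_lit 493) (B (L (nat_lit 525) ln12_12_4 ln12_12_4_ok) (M (nat_lit 458) (B (L (nat_lit 457) ln9_14_2 ln9_14_2_ok) (M (nat_lit 491) (B (L (nat_lit 523) ln12_12_5 ln12_12_5_ok) (L (nat_lit 494) ln14_15_3 ln14_15_3_ok))))))))))) (B (M (nat_lit 364) (B (M (nat_lit 492) (B (M (nat_lit 363) (B (L (nat_lit 331) ln12_14_7 ln12_14_7_ok) (L (nat_lit 395) ln12_15_7 ln12_15_7_ok))) (M (nat_lit 365) (B (L (nat_lit 333) ln12_14_6 ln12_14_6_ok) (L (nat_lit 397) ln12_15_6 ln12_15_6_ok))))) (B (M (nat_lit 332) (B (M (nat_lit 333) (B (L (nat_lit 301) ln12_13_6 ln12_13_6_ok) (L (nat_lit 365) ln12_14_6 ln12_14_6_ok))) (B (M (nat_lit 397) (B (L (nat_lit 300) ln12_9_4 ln12_9_4_ok) (M (nat_lit 492) (B (L (nat_lit 365) ln12_15_6 ln12_15_6_ok) (L (nat_lit 524) ln12_16_6 ln12_16_6_ok))))) (M (nat_lit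 300) (B (L (nat_lit 397) ln12_9_4 ln12_9_4_ok) (M (nat_lit 301) (B (L (nat_lit 269) ln12_12_6 ln12_12_6_ok) (L (nat_lit 333) ln12_13_6 ln12_13_6_ok)))))))) (B (M (nat_lit 492) (B (M (nat_lit 363) (B (L (nat_lit 331) ln12_14_7 ln12_14_7_ok) (L (nat_lit 395) ln12_15_7 ln12_15_7_ok))) (M (nat_lit 397) (B (L (nat_lit 365) ln12_15_6 ln12_15_6_ok) (L (nat_lit 524) ln12_16_6 ln12_16_6_ok))))) (B (M (nat_lit 492) (B (M (nat_lit 363) (B (L (nat_lit 331) ln12_14_7 ln12_14_7_ok) (L (nat_lit 395) ln12_15_7 ln12_15_7_ok))) (M (nat_lit 525) (B (L (nat_lit 493) ln12_12_4 ln12_12_4_ok) (M (nat_lit 524) (B (L (nat_lit 397) ln12_16_6 ln12_16_6_ok) (L (nat_lit 557) ln12_13_4 ln12_13_4_ok))))))) (M (nat_lit 332) (B (M (nat_lit 331) (B (L (nat_lit 299) ln12_13_7 ln12_13_7_ok) (L (nat_lit 363) ln12_14_7 ln12_14_7_ok))) (M (nat_lit 333) (B (L (nat_lit 301) ln12_13_6 ln12_13_6_ok) (L (nat_lit 365) ln12_14_6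 ln12_14_6_ok)))))))))) (M (nat_lit 364) (B (L (nat_lit 491) ln12_11_5 ln12_11_5_ok) (M (nat_lit 332) (B (M (nat_lit 331) (B (L (nat_lit 299) ln12_13_7 ln12_13_7_ok) (L (nat_lit 363) ln12_14_7 ln12_14_7_ok))) (M (nat_lit 333) (B (L (nat_lit 301) ln12_13_6 ln12_13_6_ok) (L (nat_lit 365) ln12_14_6 ln12_14_6_ok))))))))))) (B (M (nat_lit 427) (B (M (nat_lit 364) (B (L (nat_lit 332) ln12_10_5 ln12_10_5_ok) (M (nat_lit 491) (B (L (nat_lit 395) ln11_15_6 ln11_15_6_ok) (L (nat_lit 523) ln11_16_6 ln11_16_6_ok))))) (B (M (nat_lit 491) (B (L (nat_lit 523) ln11_16_6 ln11_16_6_ok) (M (nat_lit 395) (B (L (nat_lit 364) ln11_15_6 ln11_15_6_ok) (M (nat_lit 394) (B (L (nat_lit 362) ln11_15_7 ln11_15_7_ok) (L (nat_lit 393) ln9_12_0 ln9_12_0_ok))))))) (B (M (nat_lit 395) (B (M (nat_lit 394) (B (L (nat_lit 393) ln9_12_0 ln9_12_0_ok) (M (nat_lit 491) (B (L (nat_lit 362) ln11_15_7 ln11_15_7_ok) (L (nat_lit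 523) ln11_16_6 ln11_16_6_ok))))) (M (nat_lit 426) (B (M (nat_lit 397) (B (L (nat_lit 398) ln14_12_1 ln14_12_1_ok) (L (nat_lit 425) ln9_13_2 ln9_13_2_ok))) (M (nat_lit 458) (B (L (nat_lit 457) ln13_13_1 ln13_13_1_ok) (M (nat_lit 363) (B (L (nat_lit 331) ln11_10_5 ln11_10_5_ok) (L (nat_lit 490) ln11_11_5 ln11_11_5_ok))))))))) (B (M (nat_lit 426) (B (M (nat_lit 397) (B (L (nat_lit 425) ln9_13_2 ln9_13_2_ok) (L (nat_lit 398) ln10_13_2 ln10_13_2_ok))) (M (nat_lit 394) (B (L (nat_lit 393) ln13_13_3 ln13_13_3_ok) (M (nat_lit 491) (B (L (nat_lit 523) ln11_16_7 ln11_16_7_ok) (M (nat_lit 362) (B (L (nat_lit 330) ln10_10_4 ln10_10_4_ok) (L (nat_lit 458) ln10_11_4 ln10_11_4_ok))))))))) (M (nat_lit 364) (B (L (nat_lit 332) ln12_10_5 ln12_10_5_ok) (M (nat_lit 426) (B (M (nat_lit 397) (B (L (nat_lit 425) ln9_13_2 ln9_13_2_ok) (L (nat_lit 398) ln10_13_2 ln10_13_2_ok))) (B (M (nat_lit 425) (B (M (nat_lit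 393) (B (L (nat_lit 392) ln12_13_3 ln12_13_3_ok) (L (nat_lit 394) ln13_13_3 ln13_13_3_ok))) (M (nat_lit 457) (B (L (nat_lit 456) ln12_13_1 ln12_13_1_ok) (L (nat_lit 458) ln13_13_1 ln13_13_1_ok))))) (M (nat_lit 363) (B (M (nat_lit 458) (B (L (nat_lit 457) ln13_13_1 ln13_13_1_ok) (M (nat_lit 395) (B (L (nat_lit 331) ln11_10_5 ln11_10_5_ok) (L (nat_lit 490) ln11_11_5 ln11_11_5_ok))))) (M (nat_lit 362) (B (M (nat_lit 394) (B (L (nat_lit 330) ln10_10_4 ln10_10_4_ok) (L (nat_lit 393) ln13_13_3 ln13_13_3_ok))) (M (nat_lit 397) (B (L (nat_lit 361) ln9_11_0 ln9_11_0_ok) (L (nat_lit 398) ln10_13_2 ln10_13_2_ok))))))))))))))))) c41_n7549))))))))))))))) (nat_lit 2079502270752001762064242424960807725827516048677469043429686155012882190638009693656033379242457518153052022685796627120027336704) (nat_lit 825554280635656100705855142027639893370112193730715058137015758753399032812282192098586905218487787116933343553650533079394583131973244400982230877331330624101323636736)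 (nat_lit 825554280635656100705855142027639893370112193730715058137015758753399032812282192098586905218487787116933343553650533079394583131973244400982230877331330624101323636736) (by decide +kernel)
noncomputable def c41_n7628 : Cert := (M (nat_lit 365) (B (M (nat_lit 333) (B (L (nat_lit 460) ln12_14_6 ln12_14_6_ok) (M (nat_lit 301) (B (L (nat_lit 269) ln13_8_5 ln13_8_5_ok) (L (nat_lit 397) ln13_9_5 ln13_9_5_ok))))) (B (M (nat_lit 460) (B (L (nat_lit 333) ln12_14_6 ln12_14_6_ok) (M (nat_lit 492) (B (L (nat_lit 397) ln12_15_6 ln12_15_6_ok) (M (nat_lit 363) (B (L (nat_lit 331) ln12_14_7 ln12_14_7_ok) (L (nat_lit 395) ln12_15_7 ln12_15_7_ok))))))) (B (M (nat_lit 397) (B (M (nat_lit 363) (B (M (nat_lit 460) (B (L (nat_lit 331) ln12_14_7 ln12_14_7_ok) (L (nat_lit 492) ln12_15_6 ln12_15_6_ok))) (M (nat_lit 362) (B (L (nat_lit 361) ln9_11_0 ln9_11_0_ok) (L (nat_lit 398) ln10_11_0 ln10_11_0_ok)))))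 (B (M (nat_lit 398) (B (M (nat_lit 399) (B (L (nat_lit 400) ln16_12_3 ln16_12_3_ok) (L (nat_lit 427) ln15_12_1 ln15_12_1_ok))) (M (nat_lit 366) (B (M (nat_lit 334) (B (L (nat_lit 302) ln14_9_5 ln14_9_5_ok) (L (nat_lit 461) ln13_14_6 ln13_14_6_ok))) (M (nat_lit 395) (B (L (nat_lit 367) ln15_11_1 ln15_11_1_ok) (L (nat_lit 394) ln10_12_2 ln10_12_2_ok))))))) (M (nat_lit 366) (B (M (nat_lit 395) (B (L (nat_lit 367) ln15_11_1 ln15_11_1_ok) (L (nat_lit 394) ln10_12_2 ln10_12_2_ok))) (M (nat_lit 363) (B (M (nat_lit 331) (B (L (nat_lit 330) ln14_11_3 ln14_11_3_ok) (L (nat_lit 460) ln12_14_7 ln12_14_7_ok))) (M (nat_lit 334) (B (L (nat_lit 335) ln11_11_2 ln11_11_2_ok) (L (nat_lit 461) ln13_14_6 ln13_14_6_ok)))))))))) (B (M (nat_lit 460) (B (L (nat_lit 333) ln12_14_6 ln12_14_6_ok) (M (nat_lit 492) (B (M (nat_lit 363) (B (L (nat_lit 331) ln12_14_7 ln12_14_7_ok) (L (nat_lit 395) ln12_15_7 ln12_15_7_ok)))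 (M (nat_lit 491) (B (L (nat_lit 459) ln12_11_5 ln12_11_5_ok) (L (nat_lit 523) ln12_12_5 ln12_12_5_ok))))))) (M (nat_lit 366) (B (M (nat_lit 395) (B (L (nat_lit 367) ln15_11_1 ln15_11_1_ok) (M (nat_lit 394) (B (L (nat_lit 363) ln14_11_1 ln14_11_1_ok) (L (nat_lit 393) ln9_12_2 ln9_12_2_ok))))) (B (M (nat_lit 395) (B (L (nat_lit 367) ln15_11_1 ln15_11_1_ok) (M (nat_lit 394) (B (L (nat_lit 393) ln9_12_2 ln9_12_2_ok) (L (nat_lit 397) ln10_12_2 ln10_12_2_ok))))) (B (M (nat_lit 363) (B (M (nat_lit 395) (B (L (nat_lit 394) ln14_11_1 ln14_11_1_ok) (M (nat_lit 331) (B (L (nat_lit 299) ln11_9_4 ln11_9_4_ok) (L (nat_lit 330) ln14_11_3 ln14_11_3_ok))))) (M (nat_lit 333) (B (M (nat_lit 301) (B (L (nat_lit 269) ln13_8_5 ln13_8_5_ok) (L (nat_lit 397) ln13_9_5 ln13_9_5_ok))) (M (nat_lit 334) (B (L (nat_lit 362) ln10_11_2 ln10_11_2_ok) (L (nat_lit 335) ln11_11_2 ln11_11_2_ok))))))) (B (M (nat_lit 397)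 (B (M (nat_lit 367) (B (L (nat_lit 395) ln15_11_1 ln15_11_1_ok) (L (nat_lit 368) ln16_11_1 ln16_11_1_ok))) (M (nat_lit 333) (B (L (nat_lit 301) ln13_9_5 ln13_9_5_ok) (M (nat_lit 334) (B (L (nat_lit 302) ln13_13_6 ln13_13_6_ok) (L (nat_lit 461) ln13_14_6 ln13_14_6_ok))))))) (M (nat_lit 397) (B (M (nat_lit 333) (B (L (nat_lit 301) ln13_9_5 ln13_9_5_ok) (M (nat_lit 334) (B (L (nat_lit 302) ln13_13_6 ln13_13_6_ok) (L (nat_lit 461) ln13_14_6 ln13_14_6_ok))))) (B (M (nat_lit 334) (B (L (nat_lit 461) ln13_14_6 ln13_14_6_ok) (M (nat_lit 302) (B (L (nat_lit 333) ln13_13_6 ln13_13_6_ok) (L (nat_lit 398) ln14_9_5 ln14_9_5_ok))))) (M (nat_lit 399) (B (M (nat_lit 367) (B (L (nat_lit 400) ln12_11_0 ln12_11_0_ok) (L (nat_lit 368) ln16_11_1 ln16_11_1_ok))) (B (M (nat_lit 398) (B (L (nat_lit 363) ln11_11_0 ln11_11_0_ok) (L (nat_lit 400) ln16_12_3 ln16_12_3_ok))) (M (nat_lit 398) (B (L (nat_lit 363)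 ln11_11_0 ln11_11_0_ok) (L (nat_lit 427) ln15_12_1 ln15_12_1_ok)))))))))))))))))))
theorem c41_s7629 : Sem (nat_lit 2079502270752001762064242424960807725827516048677469043429686155012882190638009693656033379242457518153052022685796627120027336704) (nat_lit 27459190659702461963489019417782510348590098263240931540077232866488584041813419624961029244947365224409856943664913276968842293722687006263871454032034791424) (nat_lit 27459190659702461963489019417782510348590098263240931540077232866488584041813419624961029244947365224409856943664913276968842293722687006263871454032034791424) :=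
  sem_of_chk (M (nat_lit 364) (B (M (nat_lit 332) (B (L (nat_lit 461) ln12_10_4 ln12_10_4_ok) (M (nat_lit 300) (B (L (nat_lit 397) ln12_9_4 ln12_9_4_ok) (M (nat_lit 301) (B (L (nat_lit 269) ln12_12_6 ln12_12_6_ok) (L (nat_lit 333) ln12_13_6 ln12_13_6_ok))))))) (B (M (nat_lit 332) (B (L (nat_lit 461) ln12_10_4 ln12_10_4_ok) (M (nat_lit 300) (B (L (nat_lit 397) ln12_9_4 ln12_9_4_ok) (M (nat_lit 427) (B (L (nat_lit 395) ln12_9_5 ln12_9_5_ok) (L (nat_lit 459) ln12_10_5 ln12_10_5_ok))))))) (B (M (nat_lit 460) (B (M (nat_lit 459) (B (L (nat_lit 491) ln12_11_5 ln12_11_5_ok) (M (nat_lit 332) (B (L (nat_lit 427) ln12_10_5 ln12_10_5_ok) (L (nat_lit 461) ln12_10_4 ln12_10_4_ok))))) (B (M (nat_lit 492) (B (M (nat_lit 363) (B (L (nat_lit 331) ln12_14_7 ln12_14_7_ok) (L (nat_lit 395) ln12_15_7 ln12_15_7_ok))) (M (nat_lit 491) (B (L (nat_lit 459) ln12_11_5 ln12_11_5_ok) (L (nat_lit 523) ln12_12_5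 ln12_12_5_ok))))) (M (nat_lit 332) (B (L (nat_lit 461) ln12_10_4 ln12_10_4_ok) (M (nat_lit 331) (B (L (nat_lit 299) ln12_13_7 ln12_13_7_ok) (L (nat_lit 363) ln12_14_7 ln12_14_7_ok)))))))) (B c41_n7628 (M (nat_lit 332) (B (M (nat_lit 300) (B (L (nat_lit 397) ln12_9_4 ln12_9_4_ok) (M (nat_lit 427) (B (L (nat_lit 395) ln12_9_5 ln12_9_5_ok) (L (nat_lit 459) ln12_10_5 ln12_10_5_ok))))) (M (nat_lit 460) (B (M (nat_lit 331) (B (L (nat_lit 299) ln12_13_7 ln12_13_7_ok) (L (nat_lit 363) ln12_14_7 ln12_14_7_ok))) (M (nat_lit 333) (B (L (nat_lit 301) ln12_13_6 ln12_13_6_ok) (L (nat_lit 365) ln12_14_6 ln12_14_6_ok)))))))))))) (nat_lit 2079502270752001762064242424960807725827516048677469043429686155012882190638009693656033379242457518153052022685796627120027336704) (nat_lit 27459190659702461963489019417782510348590098263240931540077232866488584041813419624961029244947365224409856943664913276968842293722687006263871454032034791424)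 (nat_lit 27459190659702461963489019417782510348590098263240931540077232866488584041813419624961029244947365224409856943664913276968842293722687006263871454032034791424) (by decide +kernel)
theorem c41_s7630 : Sem (nat_lit 1386334847221798047169638878925036799968406779833514899637066259859226863686603287896039777716422623628704219945445734162783797248) (nat_lit 825554280855329626138513357744399749719058030676809622639228833548204975382982635782569510672086479269710216738065072745805598407918482737836210860056887606125696909312) (nat_lit 825554280855329626138513357744399749719058030676809622639228833548204975382982635782569510672086479269710216738065072745805598407918482737836210860056887606125696909312) :=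
  sem_of_chk (M (nat_lit 428) (B (M (nat_lit 461) (B (M (nat_lit 493) (B (L (nat_lit 525) ln13_16_7 ln13_16_7_ok) (M (nat_lit 364) (B (L (nat_lit 397) ln13_15_7 ln13_15_7_ok) (L (nat_lit 460) ln12_11_4 ln12_11_4_ok))))) (B (M (nat_lit 493) (B (L (nat_lit 525) ln13_16_7 ln13_16_7_ok) (M (nat_lit 397) (B (M (nat_lit 398) (B (L (nat_lit 366) ln13_15_6 ln13_15_6_ok) (M (nat_lit 399) (B (L (nat_lit 427) ln15_12_1 ln15_12_1_ok) (L (nat_lit 400) ln16_12_1 ln16_12_1_ok))))) (M (nat_lit 365) (B (M (nat_lit 333) (B (L (nat_lit 301) ln13_9_5 ln13_9_5_ok) (L (nat_lit 460) ln13_10_5 ln13_10_5_ok))) (M (nat_lit 494) (B (L (nat_lit 462) ln13_11_4 ln13_11_4_ok) (L (nat_lit 526) ln13_12_4 ln13_12_4_ok))))))))) (B (M (nat_lit 493) (B (L (nat_lit 525) ln13_16_7 ln13_16_7_ok) (M (nat_lit 364) (B (L (nat_lit 332) ln12_10_4 ln12_10_4_ok) (L (nat_lit 460) ln12_11_4 ln12_11_4_ok))))) (B (M (nat_lit 493) (B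 (L (nat_lit 525) ln13_16_7 ln13_16_7_ok) (M (nat_lit 364) (B (L (nat_lit 332) ln12_10_4 ln12_10_4_ok) (L (nat_lit 397) ln13_15_7 ln13_15_7_ok))))) (M (nat_lit 364) (B (L (nat_lit 332) ln12_10_4 ln12_10_4_ok) (M (nat_lit 460) (B (M (nat_lit 365) (B (L (nat_lit 333) ln12_14_6 ln12_14_6_ok) (M (nat_lit 492) (B (L (nat_lit 397) ln12_15_6 ln12_15_6_ok) (M (nat_lit 363) (B (L (nat_lit 331) ln12_14_7 ln12_14_7_ok) (L (nat_lit 395) ln12_15_7 ln12_15_7_ok))))))) (B (M (nat_lit 492) (B (M (nat_lit 365) (B (L (nat_lit 333) ln12_14_6 ln12_14_6_ok) (L (nat_lit 397) ln12_15_6 ln12_15_6_ok))) (M (nat_lit 491) (B (L (nat_lit 459) ln12_11_5 ln12_11_5_ok) (L (nat_lit 523) ln12_12_5 ln12_12_5_ok))))) (B (M (nat_lit 492) (B (M (nat_lit 363) (B (L (nat_lit 331) ln12_14_7 ln12_14_7_ok) (L (nat_lit 395) ln12_15_7 ln12_15_7_ok))) (M (nat_lit 524) (B (L (nat_lit 397) ln12_16_6 ln12_16_6_ok) (L (nat_lit 556)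 ln12_17_6 ln12_17_6_ok))))) (B (M (nat_lit 492) (B (M (nat_lit 363) (B (L (nat_lit 331) ln12_14_7 ln12_14_7_ok) (L (nat_lit 395) ln12_15_7 ln12_15_7_ok))) (M (nat_lit 491) (B (L (nat_lit 459) ln12_11_5 ln12_11_5_ok) (L (nat_lit 523) ln12_12_5 ln12_12_5_ok))))) (M (nat_lit 462) (B (M (nat_lit 427) (B (L (nat_lit 426) ln10_13_0 ln10_13_0_ok) (L (nat_lit 463) ln15_14_3 ln15_14_3_ok))) (M (nat_lit 494) (B (M (nat_lit 365) (B (L (nat_lit 333) ln12_14_6 ln12_14_6_ok) (L (nat_lit 397) ln13_11_4 ln13_11_4_ok))) (M (nat_lit 459) (B (L (nat_lit 491) ln12_11_5 ln12_11_5_ok) (L (nat_lit 495) ln11_14_0 ln11_14_0_ok))))))))))))))))))) (B (M (nat_lit 461) (B (M (nat_lit 493) (B (L (nat_lit 525) ln13_16_7 ln13_16_7_ok) (M (nat_lit 364) (B (L (nat_lit 332) ln12_10_4 ln12_10_4_ok) (L (nat_lit 397) ln13_15_7 ln13_15_7_ok))))) (B (M (nat_lit 493) (B (L (nat_lit 525) ln13_16_7 ln13_16_7_ok) (M (nat_lit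 364) (B (L (nat_lit 397) ln13_15_7 ln13_15_7_ok) (L (nat_lit 460) ln12_11_4 ln12_11_4_ok))))) (B (M (nat_lit 493) (B (L (nat_lit 525) ln13_16_7 ln13_16_7_ok) (M (nat_lit 397) (B (M (nat_lit 398) (B (L (nat_lit 366) ln13_15_6 ln13_15_6_ok) (M (nat_lit 399) (B (L (nat_lit 427) ln15_12_1 ln15_12_1_ok) (L (nat_lit 400) ln16_12_1 ln16_12_1_ok))))) (M (nat_lit 365) (B (M (nat_lit 460) (B (L (nat_lit 333) ln13_10_5 ln13_10_5_ok) (L (nat_lit 492) ln12_15_6 ln12_15_6_ok))) (M (nat_lit 494) (B (L (nat_lit 462) ln13_11_4 ln13_11_4_ok) (L (nat_lit 526) ln13_12_4 ln13_12_4_ok))))))))) (B (M (nat_lit 493) (B (L (nat_lit 525) ln13_16_7 ln13_16_7_ok) (M (nat_lit 364) (B (L (nat_lit 332) ln12_10_4 ln12_10_4_ok) (L (nat_lit 460) ln12_11_4 ln12_11_4_ok))))) (M (nat_lit 364) (B (L (nat_lit 332) ln12_10_4 ln12_10_4_ok) (M (nat_lit 460) (B (M (nat_lit 365) (B (L (nat_lit 333) ln12_14_6 ln12_14_6_ok) (M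 (nat_lit 492) (B (L (nat_lit 397) ln12_15_6 ln12_15_6_ok) (M (nat_lit 363) (B (L (nat_lit 331) ln12_14_7 ln12_14_7_ok) (L (nat_lit 395) ln12_15_7 ln12_15_7_ok))))))) (B (M (nat_lit 492) (B (M (nat_lit 365) (B (L (nat_lit 333) ln12_14_6 ln12_14_6_ok) (L (nat_lit 397) ln12_15_6 ln12_15_6_ok))) (M (nat_lit 491) (B (L (nat_lit 459) ln12_11_5 ln12_11_5_ok) (L (nat_lit 523) ln12_12_5 ln12_12_5_ok))))) (B (M (nat_lit 492) (B (M (nat_lit 363) (B (L (nat_lit 331) ln12_14_7 ln12_14_7_ok) (L (nat_lit 395) ln12_15_7 ln12_15_7_ok))) (M (nat_lit 524) (B (L (nat_lit 397) ln12_16_6 ln12_16_6_ok) (L (nat_lit 556) ln12_17_6 ln12_17_6_ok))))) (B (M (nat_lit 492) (B (M (nat_lit 363) (B (L (nat_lit 331) ln12_14_7 ln12_14_7_ok) (L (nat_lit 395) ln12_15_7 ln12_15_7_ok))) (M (nat_lit 491) (B (L (nat_lit 459) ln12_11_5 ln12_11_5_ok) (L (nat_lit 523) ln12_12_5 ln12_12_5_ok))))) (M (nat_lit 462) (B (M (nat_lit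 427) (B (L (nat_lit 426) ln10_13_0 ln10_13_0_ok) (L (nat_lit 463) ln15_14_3 ln15_14_3_ok))) (M (nat_lit 494) (B (M (nat_lit 365) (B (L (nat_lit 333) ln12_14_6 ln12_14_6_ok) (L (nat_lit 397) ln13_11_4 ln13_11_4_ok))) (M (nat_lit 459) (B (L (nat_lit 491) ln12_11_5 ln12_11_5_ok) (L (nat_lit 495) ln11_14_0 ln11_14_0_ok))))))))))))))))))) (B (M (nat_lit 461) (B (M (nat_lit 493) (B (L (nat_lit 525) ln13_16_7 ln13_16_7_ok) (M (nat_lit 364) (B (L (nat_lit 332) ln12_10_4 ln12_10_4_ok) (L (nat_lit 460) ln12_11_4 ln12_11_4_ok))))) (B (M (nat_lit 493) (B (L (nat_lit 525) ln13_16_7 ln13_16_7_ok) (M (nat_lit 364) (B (L (nat_lit 397) ln13_15_7 ln13_15_7_ok) (L (nat_lit 460) ln12_11_4 ln12_11_4_ok))))) (B (M (nat_lit 493) (B (L (nat_lit 525) ln13_16_7 ln13_16_7_ok) (M (nat_lit 397) (B (M (nat_lit 398) (B (L (nat_lit 366) ln13_15_6 ln13_15_6_ok) (M (nat_lit 399) (B (L (nat_lit 427) ln15_12_1 ln15_12_1_ok)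 (L (nat_lit 400) ln16_12_1 ln16_12_1_ok))))) (M (nat_lit 365) (B (M (nat_lit 460) (B (L (nat_lit 333) ln13_10_5 ln13_10_5_ok) (L (nat_lit 492) ln12_15_6 ln12_15_6_ok))) (M (nat_lit 494) (B (L (nat_lit 462) ln13_11_4 ln13_11_4_ok) (L (nat_lit 526) ln13_12_4 ln13_12_4_ok))))))))) (B (M (nat_lit 493) (B (L (nat_lit 525) ln13_16_7 ln13_16_7_ok) (M (nat_lit 364) (B (L (nat_lit 332) ln12_10_4 ln12_10_4_ok) (L (nat_lit 397) ln13_15_7 ln13_15_7_ok))))) (M (nat_lit 364) (B (L (nat_lit 332) ln12_10_4 ln12_10_4_ok) (M (nat_lit 460) (B (M (nat_lit 365) (B (L (nat_lit 333) ln12_14_6 ln12_14_6_ok) (M (nat_lit 492) (B (L (nat_lit 397) ln12_15_6 ln12_15_6_ok) (M (nat_lit 491) (B (L (nat_lit 459) ln12_11_5 ln12_11_5_ok) (L (nat_lit 523) ln12_12_5 ln12_12_5_ok))))))) (B (M (nat_lit 492) (B (M (nat_lit 491) (B (L (nat_lit 459) ln12_11_5 ln12_11_5_ok) (L (nat_lit 523) ln12_12_5 ln12_12_5_ok))) (M (nat_lit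 524) (B (L (nat_lit 397) ln12_16_6 ln12_16_6_ok) (L (nat_lit 556) ln12_17_6 ln12_17_6_ok))))) (B (M (nat_lit 427) (B (M (nat_lit 462) (B (L (nat_lit 426) ln10_13_0 ln10_13_0_ok) (L (nat_lit 463) ln15_14_3 ln15_14_3_ok))) (M (nat_lit 492) (B (M (nat_lit 395) (B (L (nat_lit 363) ln12_15_7 ln12_15_7_ok) (L (nat_lit 524) ln12_16_7 ln12_16_7_ok))) (M (nat_lit 491) (B (L (nat_lit 459) ln12_11_5 ln12_11_5_ok) (L (nat_lit 523) ln12_12_5 ln12_12_5_ok))))))) (B (M (nat_lit 365) (B (L (nat_lit 333) ln12_14_6 ln12_14_6_ok) (M (nat_lit 462) (B (M (nat_lit 397) (B (L (nat_lit 492) ln12_15_6 ln12_15_6_ok) (L (nat_lit 494) ln13_11_4 ln13_11_4_ok))) (M (nat_lit 463) (B (L (nat_lit 427) ln15_14_3 ln15_14_3_ok) (L (nat_lit 464) ln16_14_3 ln16_14_3_ok))))))) (M (nat_lit 462) (B (M (nat_lit 427) (B (L (nat_lit 426) ln10_13_0 ln10_13_0_ok) (L (nat_lit 463) ln15_14_3 ln15_14_3_ok))) (M (nat_lit 494) (B (M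 (nat_lit 365) (B (L (nat_lit 333) ln12_14_6 ln12_14_6_ok) (L (nat_lit 397) ln13_11_4 ln13_11_4_ok))) (M (nat_lit 459) (B (L (nat_lit 491) ln12_11_5 ln12_11_5_ok) (L (nat_lit 495) ln11_14_0 ln11_14_0_ok))))))))))))))))))) (B (M (nat_lit 461) (B (M (nat_lit 493) (B (L (nat_lit 525) ln13_16_7 ln13_16_7_ok) (M (nat_lit 364) (B (L (nat_lit 397) ln13_15_7 ln13_15_7_ok) (L (nat_lit 460) ln12_11_4 ln12_11_4_ok))))) (B (M (nat_lit 493) (B (L (nat_lit 525) ln13_16_7 ln13_16_7_ok) (M (nat_lit 397) (B (M (nat_lit 398) (B (L (nat_lit 366) ln13_15_6 ln13_15_6_ok) (M (nat_lit 399) (B (L (nat_lit 427) ln15_12_1 ln15_12_1_ok) (L (nat_lit 400) ln16_12_1 ln16_12_1_ok))))) (M (nat_lit 365) (B (M (nat_lit 460) (B (L (nat_lit 333) ln13_10_5 ln13_10_5_ok) (L (nat_lit 492) ln12_15_6 ln12_15_6_ok))) (M (nat_lit 494) (B (L (nat_lit 462) ln13_11_4 ln13_11_4_ok) (L (nat_lit 526) ln13_12_4 ln13_12_4_ok)))))))))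 (B (M (nat_lit 493) (B (L (nat_lit 525) ln13_16_7 ln13_16_7_ok) (M (nat_lit 460) (B (L (nat_lit 364) ln12_11_4 ln12_11_4_ok) (M (nat_lit 492) (B (M (nat_lit 491) (B (L (nat_lit 523) ln12_12_5 ln12_12_5_ok) (M (nat_lit 462) (B (L (nat_lit 463) ln15_14_1 ln15_14_1_ok) (L (nat_lit 490) ln10_15_2 ln10_15_2_ok))))) (M (nat_lit 395) (B (L (nat_lit 363) ln12_15_7 ln12_15_7_ok) (M (nat_lit 524) (B (L (nat_lit 427) ln12_16_7 ln12_16_7_ok) (L (nat_lit 556) ln12_17_6 ln12_17_6_ok))))))))))) (B (M (nat_lit 493) (B (L (nat_lit 525) ln13_16_7 ln13_16_7_ok) (M (nat_lit 397) (B (L (nat_lit 364) ln13_15_7 ln13_15_7_ok) (M (nat_lit 398) (B (L (nat_lit 366) ln13_15_6 ln13_15_6_ok) (M (nat_lit 399) (B (L (nat_lit 427) ln15_12_1 ln15_12_1_ok) (L (nat_lit 400) ln16_12_1 ln16_12_1_ok))))))))) (K (nat_lit 5954262831509113918132062396282775570385837752578025598503436755117483203237837978526166781103184508316224095151584552317312083661638598656)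 (nat_lit 235872651633723906817068269327796965633731552396374968197327837832510466740771394136442917477511280295340795636049100723222539608708500952267302007196251123279728738304) (nat_lit 235872651633723906817068269327796965633731552396374968197327837832510466740771394136442917477511280295340795636049100723222539608708500952267302007196251123279728738304) c41_s6799)))))) (B c41_n6803 (B (M (nat_lit 461) (B (M (nat_lit 493) (B (L (nat_lit 525) ln13_16_7 ln13_16_7_ok) (M (nat_lit 364) (B (L (nat_lit 332) ln12_10_4 ln12_10_4_ok) (L (nat_lit 397) ln13_15_7 ln13_15_7_ok))))) (B (M (nat_lit 493) (B (L (nat_lit 525) ln13_16_7 ln13_16_7_ok) (M (nat_lit 364) (B (L (nat_lit 397) ln13_15_7 ln13_15_7_ok) (L (nat_lit 460) ln12_11_4 ln12_11_4_ok))))) (B (M (nat_lit 493) (B (L (nat_lit 525) ln13_16_7 ln13_16_7_ok) (M (nat_lit 397) (B (M (nat_lit 398) (B (L (nat_lit 366) ln13_15_6 ln13_15_6_ok) (M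 (nat_lit 399) (B (L (nat_lit 427) ln15_12_1 ln15_12_1_ok) (L (nat_lit 400) ln16_12_1 ln16_12_1_ok))))) (M (nat_lit 492) (B (L (nat_lit 524) ln13_12_5 ln13_12_5_ok) (M (nat_lit 365) (B (L (nat_lit 460) ln12_15_6 ln12_15_6_ok) (M (nat_lit 494) (B (L (nat_lit 462) ln13_11_4 ln13_11_4_ok) (L (nat_lit 526) ln13_12_4 ln13_12_4_ok))))))))))) (B (M (nat_lit 493) (B (L (nat_lit 525) ln13_16_7 ln13_16_7_ok) (M (nat_lit 364) (B (L (nat_lit 332) ln12_10_4 ln12_10_4_ok) (L (nat_lit 460) ln12_11_4 ln12_11_4_ok))))) (M (nat_lit 364) (B (L (nat_lit 332) ln12_10_4 ln12_10_4_ok) (M (nat_lit 460) (B (M (nat_lit 365) (B (L (nat_lit 333) ln12_14_6 ln12_14_6_ok) (M (nat_lit 492) (B (L (nat_lit 397) ln12_15_6 ln12_15_6_ok) (M (nat_lit 491) (B (L (nat_lit 459) ln12_11_5 ln12_11_5_ok) (L (nat_lit 523) ln12_12_5 ln12_12_5_ok))))))) (B (M (nat_lit 492) (B (M (nat_lit 491) (B (L (nat_lit 459) ln12_11_5 ln12_11_5_ok)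 (L (nat_lit 523) ln12_12_5 ln12_12_5_ok))) (M (nat_lit 397) (B (L (nat_lit 365) ln12_15_6 ln12_15_6_ok) (L (nat_lit 524) ln12_16_6 ln12_16_6_ok))))) (B (M (nat_lit 492) (B (M (nat_lit 491) (B (L (nat_lit 459) ln12_11_5 ln12_11_5_ok) (L (nat_lit 523) ln12_12_5 ln12_12_5_ok))) (M (nat_lit 524) (B (L (nat_lit 397) ln12_16_6 ln12_16_6_ok) (L (nat_lit 556) ln12_17_6 ln12_17_6_ok))))) (B (M (nat_lit 427) (B (M (nat_lit 462) (B (L (nat_lit 426) ln10_13_0 ln10_13_0_ok) (L (nat_lit 463) ln15_14_3 ln15_14_3_ok))) (M (nat_lit 492) (B (M (nat_lit 491) (B (L (nat_lit 459) ln12_11_5 ln12_11_5_ok) (L (nat_lit 523) ln12_12_5 ln12_12_5_ok))) (M (nat_lit 524) (B (L (nat_lit 395) ln12_16_7 ln12_16_7_ok) (L (nat_lit 556) ln12_17_6 ln12_17_6_ok))))))) (B (M (nat_lit 365) (B (L (nat_lit 333) ln12_14_6 ln12_14_6_ok) (M (nat_lit 462) (B (M (nat_lit 397) (B (L (nat_lit 492) ln12_15_6 ln12_15_6_ok) (L (nat_lit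 494) ln13_11_4 ln13_11_4_ok))) (M (nat_lit 463) (B (L (nat_lit 427) ln15_14_3 ln15_14_3_ok) (L (nat_lit 464) ln16_14_3 ln16_14_3_ok))))))) (M (nat_lit 462) (B (M (nat_lit 427) (B (L (nat_lit 426) ln10_13_0 ln10_13_0_ok) (L (nat_lit 463) ln15_14_3 ln15_14_3_ok))) (M (nat_lit 494) (B (M (nat_lit 365) (B (L (nat_lit 333) ln12_14_6 ln12_14_6_ok) (L (nat_lit 397) ln13_11_4 ln13_11_4_ok))) (M (nat_lit 459) (B (L (nat_lit 491) ln12_11_5 ln12_11_5_ok) (L (nat_lit 495) ln11_14_0 ln11_14_0_ok)))))))))))))))))))) (B (K (nat_lit 2079502270752001762064242424960807725827516048677469043429686155012882190638009693656033379242457518153052022685796627120027336704) (nat_lit 411887859809226825471423261193574799927313188856584891184722876330809148931876437897046151152769048519730737861168558160677132308403467200328120635738690682880) (nat_lit 411887859809226825471423261193574799927313188856584891184722876330809148931876437897046151152769048519730737861168558160677132308403467200328120635738690682880)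 c41_s6815) (B (K (nat_lit 2079502270752001762064242424960807725827516048677469043429686155012882190638009693656033379242457518153052022685796627120027336704) (nat_lit 353808977519233836663878304811295440471562665950012329881519356971732407899127376976991802785341059736614729358631113528753918527365455727857569219483742342304113885184) (nat_lit 353808977519233836663878304811295440471562665950012329881519356971732407899127376976991802785341059736614729358631113528753918527365455727857569219483742342304113885184) c41_s6856) (B (M (nat_lit 364) (B (M (nat_lit 461) (B (L (nat_lit 332) ln12_10_4 ln12_10_4_ok) (M (nat_lit 493) (B (L (nat_lit 397) ln13_15_7 ln13_15_7_ok) (L (nat_lit 525) ln13_16_7 ln13_16_7_ok))))) (B (M (nat_lit 461) (B (M (nat_lit 493) (B (L (nat_lit 397) ln13_15_7 ln13_15_7_ok) (L (nat_lit 460) ln12_11_4 ln12_11_4_ok))) (B (M (nat_lit 493) (B (L (nat_lit 460) ln12_11_4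 ln12_11_4_ok) (L (nat_lit 525) ln13_16_7 ln13_16_7_ok))) (B (M (nat_lit 493) (B (L (nat_lit 397) ln13_15_7 ln13_15_7_ok) (L (nat_lit 525) ln13_16_7 ln13_16_7_ok))) (M (nat_lit 460) (B (M (nat_lit 365) (B (L (nat_lit 333) ln12_14_6 ln12_14_6_ok) (M (nat_lit 492) (B (L (nat_lit 397) ln12_15_6 ln12_15_6_ok) (M (nat_lit 491) (B (L (nat_lit 459) ln12_11_5 ln12_11_5_ok) (L (nat_lit 523) ln12_12_5 ln12_12_5_ok))))))) (B (M (nat_lit 492) (B (M (nat_lit 491) (B (L (nat_lit 459) ln12_11_5 ln12_11_5_ok) (L (nat_lit 523) ln12_12_5 ln12_12_5_ok))) (M (nat_lit 397) (B (L (nat_lit 365) ln12_15_6 ln12_15_6_ok) (L (nat_lit 524) ln12_16_6 ln12_16_6_ok))))) (B (M (nat_lit 492) (B (M (nat_lit 491) (B (L (nat_lit 459) ln12_11_5 ln12_11_5_ok) (L (nat_lit 523) ln12_12_5 ln12_12_5_ok))) (M (nat_lit 524) (B (L (nat_lit 397) ln12_16_6 ln12_16_6_ok) (L (nat_lit 556) ln12_17_6 ln12_17_6_ok))))) (B (M (nat_lit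 427) (B (M (nat_lit 462) (B (L (nat_lit 426) ln10_13_0 ln10_13_0_ok) (L (nat_lit 463) ln15_14_3 ln15_14_3_ok))) (M (nat_lit 492) (B (M (nat_lit 491) (B (L (nat_lit 459) ln12_11_5 ln12_11_5_ok) (L (nat_lit 523) ln12_12_5 ln12_12_5_ok))) (M (nat_lit 524) (B (L (nat_lit 395) ln12_16_7 ln12_16_7_ok) (L (nat_lit 556) ln12_17_6 ln12_17_6_ok))))))) (B (M (nat_lit 365) (B (L (nat_lit 333) ln12_14_6 ln12_14_6_ok) (M (nat_lit 462) (B (M (nat_lit 397) (B (L (nat_lit 492) ln12_15_6 ln12_15_6_ok) (L (nat_lit 494) ln13_11_4 ln13_11_4_ok))) (M (nat_lit 463) (B (L (nat_lit 427) ln15_14_3 ln15_14_3_ok) (L (nat_lit 464) ln16_14_3 ln16_14_3_ok))))))) (M (nat_lit 462) (B (M (nat_lit 427) (B (L (nat_lit 426) ln10_13_0 ln10_13_0_ok) (L (nat_lit 463) ln15_14_3 ln15_14_3_ok))) (M (nat_lit 494) (B (M (nat_lit 365) (B (L (nat_lit 333) ln12_14_6 ln12_14_6_ok) (L (nat_lit 397) ln13_11_4 ln13_11_4_ok))) (M (nat_lit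 459) (B (L (nat_lit 491) ln12_11_5 ln12_11_5_ok) (L (nat_lit 495) ln11_14_0 ln11_14_0_ok))))))))))))))))) (B (M (nat_lit 461) (B (L (nat_lit 332) ln12_10_4 ln12_10_4_ok) (M (nat_lit 493) (B (L (nat_lit 460) ln12_11_4 ln12_11_4_ok) (L (nat_lit 525) ln13_16_7 ln13_16_7_ok))))) (M (nat_lit 332) (B (M (nat_lit 300) (B (L (nat_lit 397) ln12_9_4 ln12_9_4_ok) (M (nat_lit 427) (B (L (nat_lit 395) ln12_9_5 ln12_9_5_ok) (L (nat_lit 459) ln12_10_5 ln12_10_5_ok))))) (B (M (nat_lit 460) (B (M (nat_lit 331) (B (L (nat_lit 299) ln12_13_7 ln12_13_7_ok) (L (nat_lit 363) ln12_14_7 ln12_14_7_ok))) (M (nat_lit 459) (B (L (nat_lit 427) ln12_10_5 ln12_10_5_ok) (L (nat_lit 491) ln12_11_5 ln12_11_5_ok))))) (M (nat_lit 300) (B (L (nat_lit 397) ln12_9_4 ln12_9_4_ok) (M (nat_lit 299) (B (L (nat_lit 267) ln12_12_7 ln12_12_7_ok) (L (nat_lit 331) ln12_13_7 ln12_13_7_ok)))))))))))) (B c41_n6863 (B (M (nat_lit 364)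 (B (M (nat_lit 461) (B (L (nat_lit 332) ln12_10_4 ln12_10_4_ok) (M (nat_lit 493) (B (L (nat_lit 460) ln12_11_4 ln12_11_4_ok) (L (nat_lit 525) ln13_16_7 ln13_16_7_ok))))) (B (M (nat_lit 460) (B (M (nat_lit 492) (B (M (nat_lit 491) (B (L (nat_lit 459) ln12_11_5 ln12_11_5_ok) (L (nat_lit 523) ln12_12_5 ln12_12_5_ok))) (M (nat_lit 493) (B (L (nat_lit 461) ln12_11_4 ln12_11_4_ok) (L (nat_lit 525) ln12_12_4 ln12_12_4_ok))))) (B (M (nat_lit 492) (B (M (nat_lit 363) (B (L (nat_lit 331) ln12_14_7 ln12_14_7_ok) (L (nat_lit 395) ln12_15_7 ln12_15_7_ok))) (M (nat_lit 493) (B (L (nat_lit 461) ln12_11_4 ln12_11_4_ok) (L (nat_lit 525) ln12_12_4 ln12_12_4_ok))))) (B (M (nat_lit 492) (B (M (nat_lit 363) (B (L (nat_lit 331) ln12_14_7 ln12_14_7_ok) (L (nat_lit 395) ln12_15_7 ln12_15_7_ok))) (M (nat_lit 491) (B (L (nat_lit 459) ln12_11_5 ln12_11_5_ok) (L (nat_lit 523) ln12_12_5 ln12_12_5_ok))))) (M (nat_lit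 461) (B (L (nat_lit 493) ln12_11_4 ln12_11_4_ok) (M (nat_lit 459) (B (L (nat_lit 491) ln12_11_5 ln12_11_5_ok) (M (nat_lit 462) (B (M (nat_lit 427) (B (L (nat_lit 426) ln10_13_0 ln10_13_0_ok) (L (nat_lit 463) ln15_14_3 ln15_14_3_ok))) (B (M (nat_lit 463) (B (L (nat_lit 427) ln15_14_3 ln15_14_3_ok) (L (nat_lit 464) ln16_14_3 ln16_14_3_ok))) (B (M (nat_lit 463) (B (L (nat_lit 464) ln16_14_3 ln16_14_3_ok) (M (nat_lit 495) (B (L (nat_lit 494) ln11_14_0 ln11_14_0_ok) (L (nat_lit 496) ln12_14_0 ln12_14_0_ok))))) (M (nat_lit 426) (B (L (nat_lit 427) ln10_13_0 ln10_13_0_ok) (M (nat_lit 458) (B (L (nat_lit 425) ln13_14_3 ln13_14_3_ok) (L (nat_lit 457) ln9_14_2 ln9_14_2_ok))))))))))))))))) (B (M (nat_lit 332) (B (L (nat_lit 461) ln12_10_4 ln12_10_4_ok) (M (nat_lit 300) (B (M (nat_lit 301) (B (L (nat_lit 269) ln12_12_6 ln12_12_6_ok) (L (nat_lit 333) ln12_13_6 ln12_13_6_ok))) (M (nat_lit 427) (B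 (L (nat_lit 395) ln12_9_5 ln12_9_5_ok) (L (nat_lit 459) ln12_10_5 ln12_10_5_ok))))))) (M (nat_lit 460) (B (M (nat_lit 459) (B (L (nat_lit 491) ln12_11_5 ln12_11_5_ok) (M (nat_lit 333) (B (L (nat_lit 365) ln12_14_6 ln12_14_6_ok) (M (nat_lit 332) (B (L (nat_lit 301) ln12_13_6 ln12_13_6_ok) (L (nat_lit 427) ln12_10_5 ln12_10_5_ok))))))) (B (M (nat_lit 492) (B (M (nat_lit 363) (B (L (nat_lit 331) ln12_14_7 ln12_14_7_ok) (L (nat_lit 395) ln12_15_7 ln12_15_7_ok))) (M (nat_lit 491) (B (L (nat_lit 459) ln12_11_5 ln12_11_5_ok) (L (nat_lit 523) ln12_12_5 ln12_12_5_ok))))) (M (nat_lit 332) (B (M (nat_lit 331) (B (L (nat_lit 299) ln12_13_7 ln12_13_7_ok) (L (nat_lit 363) ln12_14_7 ln12_14_7_ok))) (M (nat_lit 333) (B (L (nat_lit 301) ln12_13_6 ln12_13_6_ok) (L (nat_lit 365) ln12_14_6 ln12_14_6_ok)))))))))))) (B (M (nat_lit 461) (B (M (nat_lit 493) (B (L (nat_lit 525) ln13_16_7 ln13_16_7_ok) (M (nat_lit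 364) (B (L (nat_lit 332) ln12_10_4 ln12_10_4_ok) (L (nat_lit 397) ln13_15_7 ln13_15_7_ok))))) (B (M (nat_lit 493) (B (L (nat_lit 525) ln13_16_7 ln13_16_7_ok) (M (nat_lit 364) (B (L (nat_lit 397) ln13_15_7 ln13_15_7_ok) (L (nat_lit 460) ln12_11_4 ln12_11_4_ok))))) (B (M (nat_lit 493) (B (L (nat_lit 525) ln13_16_7 ln13_16_7_ok) (M (nat_lit 397) (B (M (nat_lit 398) (B (L (nat_lit 366) ln13_15_6 ln13_15_6_ok) (M (nat_lit 399) (B (L (nat_lit 427) ln15_12_1 ln15_12_1_ok) (L (nat_lit 400) ln16_12_1 ln16_12_1_ok))))) (M (nat_lit 365) (B (M (nat_lit 460) (B (L (nat_lit 333) ln13_10_5 ln13_10_5_ok) (L (nat_lit 492) ln12_15_6 ln12_15_6_ok))) (M (nat_lit 494) (B (L (nat_lit 462) ln13_11_4 ln13_11_4_ok) (L (nat_lit 526) ln13_12_4 ln13_12_4_ok))))))))) (B (M (nat_lit 493) (B (L (nat_lit 525) ln13_16_7 ln13_16_7_ok) (M (nat_lit 364) (B (L (nat_lit 332) ln12_10_4 ln12_10_4_ok) (L (nat_lit 460) ln12_11_4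 ln12_11_4_ok))))) (M (nat_lit 364) (B (L (nat_lit 332) ln12_10_4 ln12_10_4_ok) (M (nat_lit 460) (B (M (nat_lit 365) (B (L (nat_lit 333) ln12_14_6 ln12_14_6_ok) (M (nat_lit 492) (B (L (nat_lit 397) ln12_15_6 ln12_15_6_ok) (M (nat_lit 363) (B (L (nat_lit 331) ln12_14_7 ln12_14_7_ok) (L (nat_lit 395) ln12_15_7 ln12_15_7_ok))))))) (B (M (nat_lit 492) (B (M (nat_lit 491) (B (L (nat_lit 459) ln12_11_5 ln12_11_5_ok) (L (nat_lit 523) ln12_12_5 ln12_12_5_ok))) (M (nat_lit 524) (B (L (nat_lit 397) ln12_16_6 ln12_16_6_ok) (L (nat_lit 556) ln12_17_6 ln12_17_6_ok))))) (B (M (nat_lit 492) (B (M (nat_lit 363) (B (L (nat_lit 331) ln12_14_7 ln12_14_7_ok) (L (nat_lit 395) ln12_15_7 ln12_15_7_ok))) (M (nat_lit 491) (B (L (nat_lit 459) ln12_11_5 ln12_11_5_ok) (L (nat_lit 523) ln12_12_5 ln12_12_5_ok))))) (M (nat_lit 462) (B (M (nat_lit 463) (B (L (nat_lit 427) ln15_14_3 ln15_14_3_ok) (L (nat_lit 464) ln16_14_3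 ln16_14_3_ok))) (M (nat_lit 494) (B (M (nat_lit 365) (B (L (nat_lit 333) ln12_14_6 ln12_14_6_ok) (L (nat_lit 397) ln13_11_4 ln13_11_4_ok))) (M (nat_lit 459) (B (L (nat_lit 491) ln12_11_5 ln12_11_5_ok) (L (nat_lit 495) ln11_14_0 ln11_14_0_ok)))))))))))))))))) (B (K (nat_lit 2079502270752001762064242424960807725827516048677469043429686155012882190638009693656033379242457518153052022685796627120027336704) (nat_lit 825554280841600030818252138265499350490220934592343111178139729404322072606573289405951239799379326950505100682384750871865442389009871765527745000723962540636216754176) (nat_lit 825554280841600030818252138265499350490220934592343111178139729404322072606573289405951239799379326950505100682384750871865442389009871765527745000723962540636216754176) c41_s6899) (B (M (nat_lit 364) (B (M (nat_lit 461) (B (L (nat_lit 332) ln12_10_4 ln12_10_4_ok) (M (nat_lit 493) (B (L (nat_lit 460)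 ln12_11_4 ln12_11_4_ok) (L (nat_lit 525) ln13_16_7 ln13_16_7_ok))))) (B (M (nat_lit 460) (B (M (nat_lit 492) (B (M (nat_lit 365) (B (L (nat_lit 333) ln12_14_6 ln12_14_6_ok) (L (nat_lit 397) ln12_15_6 ln12_15_6_ok))) (M (nat_lit 493) (B (L (nat_lit 461) ln12_11_4 ln12_11_4_ok) (L (nat_lit 525) ln12_12_4 ln12_12_4_ok))))) (B (M (nat_lit 492) (B (M (nat_lit 363) (B (L (nat_lit 331) ln12_14_7 ln12_14_7_ok) (L (nat_lit 395) ln12_15_7 ln12_15_7_ok))) (M (nat_lit 493) (B (L (nat_lit 461) ln12_11_4 ln12_11_4_ok) (L (nat_lit 525) ln12_12_4 ln12_12_4_ok))))) (B (M (nat_lit 492) (B (M (nat_lit 363) (B (L (nat_lit 331) ln12_14_7 ln12_14_7_ok) (L (nat_lit 395) ln12_15_7 ln12_15_7_ok))) (M (nat_lit 365) (B (L (nat_lit 333) ln12_14_6 ln12_14_6_ok) (L (nat_lit 397) ln12_15_6 ln12_15_6_ok))))) (M (nat_lit 365) (B (L (nat_lit 333) ln12_14_6 ln12_14_6_ok) (M (nat_lit 397) (B (M (nat_lit 363) (B (L (nat_lit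 331) ln12_14_7 ln12_14_7_ok) (M (nat_lit 362) (B (L (nat_lit 361) ln9_11_0 ln9_11_0_ok) (L (nat_lit 398) ln10_11_0 ln10_11_0_ok))))) (M (nat_lit 366) (B (M (nat_lit 461) (B (L (nat_lit 334) ln13_14_6 ln13_14_6_ok) (L (nat_lit 493) ln13_15_7 ln13_15_7_ok))) (M (nat_lit 367) (B (L (nat_lit 395) ln15_11_1 ln15_11_1_ok) (L (nat_lit 368) ln16_11_1 ln16_11_1_ok))))))))))))) (B (M (nat_lit 461) (B (L (nat_lit 332) ln12_10_4 ln12_10_4_ok) (M (nat_lit 493) (B (L (nat_lit 397) ln13_15_7 ln13_15_7_ok) (L (nat_lit 525) ln13_16_7 ln13_16_7_ok))))) (M (nat_lit 332) (B (M (nat_lit 300) (B (L (nat_lit 397) ln12_9_4 ln12_9_4_ok) (M (nat_lit 299) (B (L (nat_lit 267) ln12_12_7 ln12_12_7_ok) (L (nat_lit 331) ln12_13_7 ln12_13_7_ok))))) (B (M (nat_lit 300) (B (L (nat_lit 397) ln12_9_4 ln12_9_4_ok) (M (nat_lit 301) (B (L (nat_lit 269) ln12_12_6 ln12_12_6_ok) (L (nat_lit 333) ln12_13_6 ln12_13_6_ok)))))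 (M (nat_lit 460) (B (M (nat_lit 331) (B (L (nat_lit 299) ln12_13_7 ln12_13_7_ok) (L (nat_lit 363) ln12_14_7 ln12_14_7_ok))) (M (nat_lit 333) (B (L (nat_lit 301) ln12_13_6 ln12_13_6_ok) (L (nat_lit 365) ln12_14_6 ln12_14_6_ok)))))))))))) (B (K (nat_lit 2079502270752001762064242424960807725827516048677469043429686155012882190638009693656033379242457518153052022685796627120027336704) (nat_lit 329510287762989358711048417630593767302886810161517806566933145209886612479755251108711351661490639101576107306861165560894098709363735029761258805742987640832) (nat_lit 329510287762989358711048417630593767302886810161517806566933145209886612479755251108711351661490639101576107306861165560894098709363735029761258805742987640832) c41_s7051) (B (K (nat_lit 2079502270752001762064242424960807725827516048677469043429686155012882190638009693656033379242457518153052022685796627120027336704) (nat_lit 825554280635656100705855142027639893370112193730715058137015758753399032812282192098586905218487787116933343553650533079394583131973244400982230877331330624101323636736)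 (nat_lit 825554280635656100705855142027639893370112193730715058137015758753399032812282192098586905218487787116933343553650533079394583131973244400982230877331330624101323636736) c41_s7550) (K (nat_lit 2079502270752001762064242424960807725827516048677469043429686155012882190638009693656033379242457518153052022685796627120027336704) (nat_lit 27459190659702461963489019417782510348590098263240931540077232866488584041813419624961029244947365224409856943664913276968842293722687006263871454032034791424) (nat_lit 27459190659702461963489019417782510348590098263240931540077232866488584041813419624961029244947365224409856943664913276968842293722687006263871454032034791424) c41_s7629)))))))))))))))))) (nat_lit 1386334847221798047169638878925036799968406779833514899637066259859226863686603287896039777716422623628704219945445734162783797248) (nat_lit 825554280855329626138513357744399749719058030676809622639228833548204975382982635782569510672086479269710216738065072745805598407918482737836210860056887606125696909312)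 (nat_lit 825554280855329626138513357744399749719058030676809622639228833548204975382982635782569510672086479269710216738065072745805598407918482737836210860056887606125696909312) (by decide +kernel)
theorem c41_s7683 : Sem (nat_lit 1386334847544579281930502452632026696468783264124728123740719198963059283254184240648144927045128292788721448874933630659377233920) (nat_lit 164755143932641407686516822312993950304112041412779707941338193103206705604919793188732047153347977758853693430385421551795947842382468057658047768541093953536) (nat_lit 164755143932641407686516822312993950304112041412779707941338193103206705604919793188732047153347977758853693430385421551795947842382468057658047768541093953536) :=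
  sem_of_chk (M (nat_lit 428) (B (M (nat_lit 398) (B (M (nat_lit 399) (B (L (nat_lit 427) ln15_12_1 ln15_12_1_ok) (L (nat_lit 400) ln16_12_1 ln16_12_1_ok))) (B (M (nat_lit 430) (B (M (nat_lit 395) (B (L (nat_lit 394) ln10_12_0 ln10_12_0_ok) (L (nat_lit 431) ln11_12_0 ln11_12_0_ok))) (M (nat_lit 462) (B (M (nat_lit 365) (B (L (nat_lit 333) ln13_10_4 ln13_10_4_ok) (L (nat_lit 494) ln14_15_7 ln14_15_7_ok))) (M (nat_lit 427) (B (L (nat_lit 426) ln10_13_2 ln10_13_2_ok) (L (nat_lit 463) ln11_13_0 ln11_13_0_ok))))))) (M (nat_lit 364) (B (M (nat_lit 399) (B (L (nat_lit 363) ln15_12_3 ln15_12_3_ok) (L (nat_lit 400) ln16_12_1 ln16_12_1_ok))) (M (nat_lit 461) (B (L (nat_lit 332) ln12_10_4 ln12_10_4_ok) (L (nat_lit 493) ln13_15_7 ln13_15_7_ok)))))))) (B (M (nat_lit 398) (B (M (nat_lit 399) (B (L (nat_lit 427) ln15_12_1 ln15_12_1_ok) (L (nat_lit 400) ln16_12_1 ln16_12_1_ok))) (B (M (nat_lit 430)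 (B (M (nat_lit 395) (B (L (nat_lit 394) ln10_12_0 ln10_12_0_ok) (L (nat_lit 431) ln11_12_0 ln11_12_0_ok))) (M (nat_lit 462) (B (M (nat_lit 365) (B (L (nat_lit 333) ln13_10_4 ln13_10_4_ok) (L (nat_lit 494) ln14_15_7 ln14_15_7_ok))) (M (nat_lit 427) (B (L (nat_lit 426) ln10_13_2 ln10_13_2_ok) (L (nat_lit 463) ln11_13_0 ln11_13_0_ok))))))) (M (nat_lit 399) (B (L (nat_lit 400) ln16_12_1 ln16_12_1_ok) (M (nat_lit 395) (B (M (nat_lit 363) (B (L (nat_lit 362) ln14_12_3 ln14_12_3_ok) (L (nat_lit 364) ln15_12_3 ln15_12_3_ok))) (M (nat_lit 367) (B (L (nat_lit 366) ln11_12_2 ln11_12_2_ok) (L (nat_lit 368) ln12_12_2 ln12_12_2_ok)))))))))) (B (M (nat_lit 427) (B (M (nat_lit 398) (B (L (nat_lit 399) ln15_12_1 ln15_12_1_ok) (L (nat_lit 426) ln10_13_2 ln10_13_2_ok))) (B (M (nat_lit 461) (B (M (nat_lit 364) (B (L (nat_lit 332) ln12_10_4 ln12_10_4_ok) (L (nat_lit 493) ln13_15_7 ln13_15_7_ok))) (M (nat_lit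 426) (B (L (nat_lit 425) ln9_13_2 ln9_13_2_ok) (L (nat_lit 462) ln10_13_0 ln10_13_0_ok))))) (M (nat_lit 395) (B (M (nat_lit 394) (B (L (nat_lit 393) ln9_12_0 ln9_12_0_ok) (L (nat_lit 430) ln10_12_0 ln10_12_0_ok))) (B (M (nat_lit 430) (B (L (nat_lit 394) ln10_12_0 ln10_12_0_ok) (L (nat_lit 431) ln15_13_3 ln15_13_3_ok))) (M (nat_lit 363) (B (M (nat_lit 331) (B (L (nat_lit 299) ln11_9_4 ln11_9_4_ok) (L (nat_lit 460) ln11_10_4 ln11_10_4_ok))) (M (nat_lit 398) (B (L (nat_lit 362) ln14_12_3 ln14_12_3_ok) (L (nat_lit 399) ln15_12_1 ln15_12_1_ok))))))))))) (B (M (nat_lit 398) (B (M (nat_lit 399) (B (L (nat_lit 427) ln15_12_1 ln15_12_1_ok) (L (nat_lit 400) ln16_12_1 ln16_12_1_ok))) (B (M (nat_lit 430) (B (M (nat_lit 395) (B (L (nat_lit 394) ln10_12_0 ln10_12_0_ok) (L (nat_lit 431) ln11_12_0 ln11_12_0_ok))) (M (nat_lit 462) (B (M (nat_lit 365) (B (L (nat_lit 333) ln13_10_4 ln13_10_4_ok) (L (nat_lit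 494) ln14_15_7 ln14_15_7_ok))) (M (nat_lit 427) (B (L (nat_lit 426) ln10_13_2 ln10_13_2_ok) (L (nat_lit 463) ln11_13_0 ln11_13_0_ok))))))) (M (nat_lit 399) (B (L (nat_lit 400) ln16_12_1 ln16_12_1_ok) (M (nat_lit 395) (B (M (nat_lit 367) (B (L (nat_lit 366) ln11_12_2 ln11_12_2_ok) (L (nat_lit 368) ln12_12_2 ln12_12_2_ok))) (M (nat_lit 431) (B (L (nat_lit 430) ln11_12_0 ln11_12_0_ok) (L (nat_lit 432) ln12_12_0 ln12_12_0_ok)))))))))) (B (M (nat_lit 398) (B (M (nat_lit 399) (B (L (nat_lit 427) ln15_12_1 ln15_12_1_ok) (L (nat_lit 400) ln16_12_1 ln16_12_1_ok))) (B (M (nat_lit 430) (B (M (nat_lit 431) (B (L (nat_lit 395) ln11_12_0 ln11_12_0_ok) (L (nat_lit 432) ln16_13_3 ln16_13_3_ok))) (M (nat_lit 462) (B (M (nat_lit 365) (B (L (nat_lit 333) ln13_10_4 ln13_10_4_ok) (L (nat_lit 494) ln14_15_7 ln14_15_7_ok))) (M (nat_lit 427) (B (L (nat_lit 426) ln10_13_2 ln10_13_2_ok) (L (nat_lit 463) ln11_13_0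 ln11_13_0_ok))))))) (M (nat_lit 364) (B (M (nat_lit 399) (B (L (nat_lit 363) ln15_12_3 ln15_12_3_ok) (L (nat_lit 400) ln16_12_1 ln16_12_1_ok))) (M (nat_lit 461) (B (L (nat_lit 332) ln12_10_4 ln12_10_4_ok) (L (nat_lit 493) ln13_15_7 ln13_15_7_ok)))))))) (B (M (nat_lit 461) (B (M (nat_lit 493) (B (L (nat_lit 364) ln13_15_7 ln13_15_7_ok) (L (nat_lit 525) ln13_16_7 ln13_16_7_ok))) (M (nat_lit 462) (B (M (nat_lit 365) (B (L (nat_lit 494) ln13_11_4 ln13_11_4_ok) (M (nat_lit 333) (B (L (nat_lit 301) ln13_9_5 ln13_9_5_ok) (L (nat_lit 430) ln13_10_4 ln13_10_4_ok))))) (B (M (nat_lit 365) (B (L (nat_lit 494) ln13_11_4 ln13_11_4_ok) (M (nat_lit 333) (B (L (nat_lit 460) ln13_10_5 ln13_10_5_ok) (L (nat_lit 430) ln13_10_4 ln13_10_4_ok))))) (B (M (nat_lit 427) (B (L (nat_lit 426) ln10_13_0 ln10_13_0_ok) (M (nat_lit 463) (B (L (nat_lit 430) ln11_13_0 ln11_13_0_ok) (L (nat_lit 464) ln16_14_3 ln16_14_3_ok)))))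 (M (nat_lit 365) (B (L (nat_lit 494) ln13_11_4 ln13_11_4_ok) (M (nat_lit 333) (B (L (nat_lit 301) ln13_9_5 ln13_9_5_ok) (L (nat_lit 460) ln13_10_5 ln13_10_5_ok))))))))))) (B (M (nat_lit 461) (B (M (nat_lit 364) (B (L (nat_lit 332) ln12_10_4 ln12_10_4_ok) (L (nat_lit 493) ln13_15_7 ln13_15_7_ok))) (B (M (nat_lit 493) (B (L (nat_lit 364) ln13_15_7 ln13_15_7_ok) (L (nat_lit 525) ln13_16_7 ln13_16_7_ok))) (B (M (nat_lit 493) (B (L (nat_lit 525) ln13_16_7 ln13_16_7_ok) (M (nat_lit 398) (B (L (nat_lit 366) ln13_15_6 ln13_15_6_ok) (M (nat_lit 399) (B (L (nat_lit 427) ln15_12_1 ln15_12_1_ok) (L (nat_lit 400) ln16_12_1 ln16_12_1_ok))))))) (M (nat_lit 430) (B (M (nat_lit 395) (B (L (nat_lit 394) ln10_12_0 ln10_12_0_ok) (L (nat_lit 431) ln15_13_3 ln15_13_3_ok))) (M (nat_lit 462) (B (M (nat_lit 365) (B (L (nat_lit 333) ln13_10_4 ln13_10_4_ok) (L (nat_lit 494) ln13_11_4 ln13_11_4_ok))) (M (nat_lit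 463) (B (L (nat_lit 427) ln11_13_0 ln11_13_0_ok) (L (nat_lit 464) ln16_14_3 ln16_14_3_ok))))))))))) (B (M (nat_lit 365) (B (M (nat_lit 333) (B (L (nat_lit 301) ln13_9_5 ln13_9_5_ok) (L (nat_lit 460) ln13_10_5 ln13_10_5_ok))) (B (M (nat_lit 460) (B (L (nat_lit 333) ln13_10_5 ln13_10_5_ok) (L (nat_lit 492) ln12_15_6 ln12_15_6_ok))) (B (M (nat_lit 364) (B (M (nat_lit 332) (B (L (nat_lit 300) ln12_9_4 ln12_9_4_ok) (L (nat_lit 461) ln13_14_7 ln13_14_7_ok))) (M (nat_lit 363) (B (M (nat_lit 460) (B (L (nat_lit 331) ln12_14_7 ln12_14_7_ok) (L (nat_lit 492) ln12_15_6 ln12_15_6_ok))) (M (nat_lit 398) (B (L (nat_lit 362) ln10_11_0 ln10_11_0_ok) (L (nat_lit 399) ln15_12_3 ln15_12_3_ok))))))) (M (nat_lit 430) (B (M (nat_lit 333) (B (L (nat_lit 301) ln13_9_5 ln13_9_5_ok) (L (nat_lit 462) ln13_10_4 ln13_10_4_ok))) (M (nat_lit 431) (B (L (nat_lit 395) ln15_13_3 ln15_13_3_ok) (L (nat_lit 432) ln16_13_3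 ln16_13_3_ok))))))))) (B (M (nat_lit 461) (B (M (nat_lit 364) (B (L (nat_lit 332) ln12_10_4 ln12_10_4_ok) (L (nat_lit 493) ln13_15_7 ln13_15_7_ok))) (B (M (nat_lit 493) (B (L (nat_lit 364) ln13_15_7 ln13_15_7_ok) (L (nat_lit 525) ln13_16_7 ln13_16_7_ok))) (B (M (nat_lit 493) (B (L (nat_lit 525) ln13_16_7 ln13_16_7_ok) (M (nat_lit 398) (B (L (nat_lit 366) ln13_15_6 ln13_15_6_ok) (M (nat_lit 399) (B (L (nat_lit 427) ln15_12_1 ln15_12_1_ok) (L (nat_lit 400) ln16_12_1 ln16_12_1_ok))))))) (M (nat_lit 460) (B (M (nat_lit 365) (B (L (nat_lit 333) ln13_10_5 ln13_10_5_ok) (L (nat_lit 492) ln12_15_6 ln12_15_6_ok))) (B (M (nat_lit 492) (B (L (nat_lit 365) ln12_15_6 ln12_15_6_ok) (L (nat_lit 524) ln12_16_6 ln12_16_6_ok))) (B (M (nat_lit 492) (B (L (nat_lit 524) ln12_16_6 ln12_16_6_ok) (M (nat_lit 364) (B (L (nat_lit 332) ln12_10_4 ln12_10_4_ok) (M (nat_lit 363) (B (L (nat_lit 331) ln12_14_7 ln12_14_7_ok)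 (L (nat_lit 395) ln12_15_7 ln12_15_7_ok))))))) (M (nat_lit 462) (B (M (nat_lit 365) (B (L (nat_lit 333) ln13_10_5 ln13_10_5_ok) (L (nat_lit 494) ln13_11_4 ln13_11_4_ok))) (M (nat_lit 463) (B (L (nat_lit 427) ln15_14_3 ln15_14_3_ok) (L (nat_lit 464) ln16_14_3 ln16_14_3_ok))))))))))))) (M (nat_lit 365) (B (M (nat_lit 333) (B (L (nat_lit 301) ln13_9_5 ln13_9_5_ok) (L (nat_lit 460) ln13_10_5 ln13_10_5_ok))) (B (M (nat_lit 460) (B (L (nat_lit 333) ln13_10_5 ln13_10_5_ok) (L (nat_lit 492) ln12_15_6 ln12_15_6_ok))) (B (M (nat_lit 364) (B (M (nat_lit 332) (B (L (nat_lit 300) ln12_9_4 ln12_9_4_ok) (L (nat_lit 461) ln13_14_7 ln13_14_7_ok))) (M (nat_lit 363) (B (M (nat_lit 460) (B (L (nat_lit 331) ln12_14_7 ln12_14_7_ok) (L (nat_lit 492) ln12_15_6 ln12_15_6_ok))) (M (nat_lit 398) (B (L (nat_lit 362) ln10_11_0 ln10_11_0_ok) (L (nat_lit 399) ln15_12_3 ln15_12_3_ok))))))) (M (nat_lit 461) (B (M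 (nat_lit 364) (B (L (nat_lit 332) ln13_14_7 ln13_14_7_ok) (L (nat_lit 493) ln13_15_7 ln13_15_7_ok))) (B (M (nat_lit 493) (B (L (nat_lit 364) ln13_15_7 ln13_15_7_ok) (L (nat_lit 525) ln13_16_7 ln13_16_7_ok))) (B (M (nat_lit 398) (B (M (nat_lit 493) (B (L (nat_lit 366) ln13_15_6 ln13_15_6_ok) (L (nat_lit 525) ln13_16_7 ln13_16_7_ok))) (M (nat_lit 399) (B (L (nat_lit 427) ln15_12_1 ln15_12_1_ok) (L (nat_lit 400) ln16_12_1 ln16_12_1_ok))))) (M (nat_lit 332) (B (L (nat_lit 364) ln13_14_7 ln13_14_7_ok) (M (nat_lit 333) (B (L (nat_lit 300) ln13_13_7 ln13_13_7_ok) (L (nat_lit 301) ln13_9_5 ln13_9_5_ok))))))))))))))))))))))) (nat_lit 1386334847544579281930502452632026696468783264124728123740719198963059283254184240648144927045128292788721448874933630659377233920) (nat_lit 164755143932641407686516822312993950304112041412779707941338193103206705604919793188732047153347977758853693430385421551795947842382468057658047768541093953536)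 (nat_lit 164755143932641407686516822312993950304112041412779707941338193103206705604919793188732047153347977758853693430385421551795947842382468057658047768541093953536) (by decide +kernel)
theorem c41_s7710 : Sem (nat_lit 1386334847544579281930502452632026696468783264124728123740719198963059283254184240648144927045128292788721448874933630659377233920) (nat_lit 384428669056820918567426213590955936168578986174872664336400151684193006514933234470366350499757651802763762893471231566051177736838224038788688696439935598592) (nat_lit 384428669056820918567426213590955936168578986174872664336400151684193006514933234470366350499757651802763762893471231566051177736838224038788688696439935598592) :=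
  sem_of_chk (M (nat_lit 428) (B (M (nat_lit 461) (B (M (nat_lit 493) (B (L (nat_lit 364) ln13_15_7 ln13_15_7_ok) (L (nat_lit 525) ln13_16_7 ln13_16_7_ok))) (M (nat_lit 462) (B (M (nat_lit 365) (B (L (nat_lit 494) ln13_11_4 ln13_11_4_ok) (M (nat_lit 333) (B (L (nat_lit 301) ln13_9_5 ln13_9_5_ok) (L (nat_lit 430) ln13_10_4 ln13_10_4_ok))))) (B (M (nat_lit 365) (B (L (nat_lit 494) ln13_11_4 ln13_11_4_ok) (M (nat_lit 333) (B (L (nat_lit 460) ln13_10_5 ln13_10_5_ok) (L (nat_lit 430) ln13_10_4 ln13_10_4_ok))))) (B (M (nat_lit 427) (B (L (nat_lit 426) ln10_13_0 ln10_13_0_ok) (M (nat_lit 463) (B (L (nat_lit 430) ln11_13_0 ln11_13_0_ok) (L (nat_lit 464) ln16_14_3 ln16_14_3_ok))))) (M (nat_lit 365) (B (L (nat_lit 494) ln13_11_4 ln13_11_4_ok) (M (nat_lit 333) (B (L (nat_lit 301) ln13_9_5 ln13_9_5_ok) (L (nat_lit 460) ln13_10_5 ln13_10_5_ok))))))))))) (B (M (nat_lit 398) (B (M (nat_lit 399) (B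 (L (nat_lit 427) ln15_12_1 ln15_12_1_ok) (L (nat_lit 400) ln16_12_1 ln16_12_1_ok))) (B (M (nat_lit 430) (B (M (nat_lit 395) (B (L (nat_lit 394) ln10_12_0 ln10_12_0_ok) (L (nat_lit 431) ln11_12_0 ln11_12_0_ok))) (B (M (nat_lit 431) (B (L (nat_lit 395) ln11_12_0 ln11_12_0_ok) (L (nat_lit 432) ln16_13_3 ln16_13_3_ok))) (M (nat_lit 462) (B (M (nat_lit 365) (B (L (nat_lit 333) ln13_10_4 ln13_10_4_ok) (L (nat_lit 494) ln14_15_7 ln14_15_7_ok))) (M (nat_lit 427) (B (L (nat_lit 426) ln10_13_2 ln10_13_2_ok) (L (nat_lit 463) ln11_13_0 ln11_13_0_ok)))))))) (M (nat_lit 364) (B (M (nat_lit 399) (B (L (nat_lit 363) ln15_12_3 ln15_12_3_ok) (L (nat_lit 400) ln16_12_1 ln16_12_1_ok))) (M (nat_lit 461) (B (L (nat_lit 332) ln12_10_4 ln12_10_4_ok) (L (nat_lit 493) ln13_15_7 ln13_15_7_ok)))))))) (B (M (nat_lit 398) (B (M (nat_lit 399) (B (L (nat_lit 427) ln15_12_1 ln15_12_1_ok) (L (nat_lit 400) ln16_12_1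 ln16_12_1_ok))) (B (M (nat_lit 430) (B (M (nat_lit 395) (B (L (nat_lit 394) ln10_12_0 ln10_12_0_ok) (L (nat_lit 431) ln11_12_0 ln11_12_0_ok))) (B (M (nat_lit 431) (B (L (nat_lit 395) ln11_12_0 ln11_12_0_ok) (L (nat_lit 432) ln16_13_3 ln16_13_3_ok))) (M (nat_lit 462) (B (M (nat_lit 494) (B (L (nat_lit 365) ln14_15_7 ln14_15_7_ok) (L (nat_lit 526) ln14_16_7 ln14_16_7_ok))) (M (nat_lit 427) (B (L (nat_lit 426) ln10_13_2 ln10_13_2_ok) (L (nat_lit 463) ln11_13_0 ln11_13_0_ok)))))))) (M (nat_lit 364) (B (M (nat_lit 399) (B (L (nat_lit 363) ln15_12_3 ln15_12_3_ok) (L (nat_lit 400) ln16_12_1 ln16_12_1_ok))) (M (nat_lit 461) (B (L (nat_lit 332) ln12_10_4 ln12_10_4_ok) (L (nat_lit 493) ln13_15_7 ln13_15_7_ok)))))))) (B (M (nat_lit 398) (B (M (nat_lit 399) (B (L (nat_lit 427) ln15_12_1 ln15_12_1_ok) (L (nat_lit 400) ln16_12_1 ln16_12_1_ok))) (B (M (nat_lit 430) (B (M (nat_lit 395) (B (L (nat_lit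 394) ln10_12_0 ln10_12_0_ok) (L (nat_lit 431) ln11_12_0 ln11_12_0_ok))) (B (M (nat_lit 431) (B (L (nat_lit 395) ln11_12_0 ln11_12_0_ok) (L (nat_lit 432) ln16_13_3 ln16_13_3_ok))) (M (nat_lit 462) (B (M (nat_lit 494) (B (L (nat_lit 365) ln14_15_7 ln14_15_7_ok) (L (nat_lit 526) ln14_16_7 ln14_16_7_ok))) (M (nat_lit 427) (B (L (nat_lit 426) ln10_13_2 ln10_13_2_ok) (L (nat_lit 463) ln11_13_0 ln11_13_0_ok)))))))) (M (nat_lit 395) (B (M (nat_lit 394) (B (L (nat_lit 393) ln9_12_0 ln9_12_0_ok) (L (nat_lit 430) ln10_12_0 ln10_12_0_ok))) (B (M (nat_lit 430) (B (L (nat_lit 394) ln10_12_0 ln10_12_0_ok) (L (nat_lit 431) ln11_12_0 ln11_12_0_ok))) (B (M (nat_lit 399) (B (L (nat_lit 400) ln16_12_1 ln16_12_1_ok) (M (nat_lit 431) (B (L (nat_lit 430) ln11_12_0 ln11_12_0_ok) (L (nat_lit 432) ln12_12_0 ln12_12_0_ok))))) (M (nat_lit 394) (B (L (nat_lit 393) ln9_12_0 ln9_12_0_ok) (M (nat_lit 362) (B (L (nat_lit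 361) ln13_12_3 ln13_12_3_ok) (L (nat_lit 363) ln14_12_3 ln14_12_3_ok)))))))))))) (B (M (nat_lit 427) (B (M (nat_lit 398) (B (L (nat_lit 399) ln15_12_1 ln15_12_1_ok) (L (nat_lit 426) ln10_13_2 ln10_13_2_ok))) (B (M (nat_lit 461) (B (M (nat_lit 364) (B (L (nat_lit 332) ln12_10_4 ln12_10_4_ok) (L (nat_lit 493) ln13_15_7 ln13_15_7_ok))) (M (nat_lit 426) (B (L (nat_lit 425) ln9_13_2 ln9_13_2_ok) (L (nat_lit 462) ln10_13_0 ln10_13_0_ok))))) (M (nat_lit 395) (B (M (nat_lit 394) (B (L (nat_lit 393) ln9_12_0 ln9_12_0_ok) (L (nat_lit 430) ln10_12_0 ln10_12_0_ok))) (B (M (nat_lit 430) (B (L (nat_lit 394) ln10_12_0 ln10_12_0_ok) (L (nat_lit 431) ln15_13_3 ln15_13_3_ok))) (M (nat_lit 363) (B (M (nat_lit 331) (B (L (nat_lit 299) ln11_9_4 ln11_9_4_ok) (L (nat_lit 460) ln11_10_4 ln11_10_4_ok))) (M (nat_lit 398) (B (L (nat_lit 362) ln14_12_3 ln14_12_3_ok) (L (nat_lit 399) ln15_12_1 ln15_12_1_ok)))))))))))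 (B (M (nat_lit 461) (B (M (nat_lit 364) (B (L (nat_lit 332) ln12_10_4 ln12_10_4_ok) (L (nat_lit 493) ln13_15_7 ln13_15_7_ok))) (B (M (nat_lit 493) (B (L (nat_lit 364) ln13_15_7 ln13_15_7_ok) (L (nat_lit 525) ln13_16_7 ln13_16_7_ok))) (B (M (nat_lit 493) (B (L (nat_lit 525) ln13_16_7 ln13_16_7_ok) (M (nat_lit 365) (B (M (nat_lit 333) (B (L (nat_lit 301) ln13_9_5 ln13_9_5_ok) (L (nat_lit 460) ln13_10_5 ln13_10_5_ok))) (M (nat_lit 494) (B (L (nat_lit 462) ln13_11_4 ln13_11_4_ok) (L (nat_lit 526) ln13_12_4 ln13_12_4_ok))))))) (M (nat_lit 430) (B (M (nat_lit 395) (B (L (nat_lit 394) ln10_12_0 ln10_12_0_ok) (L (nat_lit 431) ln15_13_3 ln15_13_3_ok))) (M (nat_lit 462) (B (M (nat_lit 365) (B (L (nat_lit 333) ln13_10_4 ln13_10_4_ok) (L (nat_lit 494) ln13_11_4 ln13_11_4_ok))) (M (nat_lit 463) (B (L (nat_lit 427) ln11_13_0 ln11_13_0_ok) (L (nat_lit 464) ln16_14_3 ln16_14_3_ok))))))))))) (B (M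 (nat_lit 365) (B (M (nat_lit 333) (B (L (nat_lit 301) ln13_9_5 ln13_9_5_ok) (L (nat_lit 460) ln13_10_5 ln13_10_5_ok))) (B (M (nat_lit 460) (B (L (nat_lit 333) ln13_10_5 ln13_10_5_ok) (L (nat_lit 492) ln12_15_6 ln12_15_6_ok))) (B (M (nat_lit 364) (B (M (nat_lit 332) (B (L (nat_lit 300) ln12_9_4 ln12_9_4_ok) (L (nat_lit 461) ln13_14_7 ln13_14_7_ok))) (M (nat_lit 363) (B (M (nat_lit 460) (B (L (nat_lit 331) ln12_14_7 ln12_14_7_ok) (L (nat_lit 492) ln12_15_6 ln12_15_6_ok))) (M (nat_lit 398) (B (L (nat_lit 362) ln10_11_0 ln10_11_0_ok) (L (nat_lit 399) ln15_12_3 ln15_12_3_ok))))))) (M (nat_lit 430) (B (M (nat_lit 333) (B (L (nat_lit 301) ln13_9_5 ln13_9_5_ok) (L (nat_lit 462) ln13_10_4 ln13_10_4_ok))) (M (nat_lit 431) (B (L (nat_lit 395) ln15_13_3 ln15_13_3_ok) (L (nat_lit 432) ln16_13_3 ln16_13_3_ok))))))))) (B (M (nat_lit 461) (B (M (nat_lit 364) (B (L (nat_lit 332) ln12_10_4 ln12_10_4_ok)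 (L (nat_lit 493) ln13_15_7 ln13_15_7_ok))) (B (M (nat_lit 493) (B (L (nat_lit 364) ln13_15_7 ln13_15_7_ok) (L (nat_lit 525) ln13_16_7 ln13_16_7_ok))) (B (M (nat_lit 493) (B (L (nat_lit 525) ln13_16_7 ln13_16_7_ok) (M (nat_lit 365) (B (M (nat_lit 333) (B (L (nat_lit 301) ln13_9_5 ln13_9_5_ok) (L (nat_lit 460) ln13_10_5 ln13_10_5_ok))) (M (nat_lit 494) (B (L (nat_lit 462) ln13_11_4 ln13_11_4_ok) (L (nat_lit 526) ln13_12_4 ln13_12_4_ok))))))) (M (nat_lit 460) (B (M (nat_lit 365) (B (L (nat_lit 333) ln13_10_5 ln13_10_5_ok) (L (nat_lit 492) ln12_15_6 ln12_15_6_ok))) (B (M (nat_lit 492) (B (L (nat_lit 365) ln12_15_6 ln12_15_6_ok) (L (nat_lit 524) ln12_16_6 ln12_16_6_ok))) (B (M (nat_lit 492) (B (L (nat_lit 524) ln12_16_6 ln12_16_6_ok) (M (nat_lit 364) (B (L (nat_lit 332) ln12_10_4 ln12_10_4_ok) (M (nat_lit 363) (B (L (nat_lit 331) ln12_14_7 ln12_14_7_ok) (L (nat_lit 395) ln12_15_7 ln12_15_7_ok)))))))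 (M (nat_lit 462) (B (M (nat_lit 365) (B (L (nat_lit 333) ln13_10_5 ln13_10_5_ok) (L (nat_lit 494) ln13_11_4 ln13_11_4_ok))) (M (nat_lit 463) (B (L (nat_lit 427) ln15_14_3 ln15_14_3_ok) (L (nat_lit 464) ln16_14_3 ln16_14_3_ok))))))))))))) (M (nat_lit 365) (B (M (nat_lit 333) (B (L (nat_lit 301) ln13_9_5 ln13_9_5_ok) (L (nat_lit 460) ln13_10_5 ln13_10_5_ok))) (B (M (nat_lit 460) (B (L (nat_lit 333) ln13_10_5 ln13_10_5_ok) (L (nat_lit 492) ln12_15_6 ln12_15_6_ok))) (B (M (nat_lit 364) (B (M (nat_lit 332) (B (L (nat_lit 300) ln12_9_4 ln12_9_4_ok) (L (nat_lit 461) ln13_14_7 ln13_14_7_ok))) (B (M (nat_lit 461) (B (L (nat_lit 332) ln13_14_7 ln13_14_7_ok) (L (nat_lit 493) ln13_15_7 ln13_15_7_ok))) (M (nat_lit 363) (B (M (nat_lit 460) (B (L (nat_lit 331) ln12_14_7 ln12_14_7_ok) (L (nat_lit 492) ln12_15_6 ln12_15_6_ok))) (M (nat_lit 398) (B (L (nat_lit 362) ln10_11_0 ln10_11_0_ok) (L (nat_lit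 399) ln15_12_3 ln15_12_3_ok)))))))) (M (nat_lit 427) (B (M (nat_lit 398) (B (L (nat_lit 399) ln15_12_1 ln15_12_1_ok) (L (nat_lit 426) ln10_13_2 ln10_13_2_ok))) (M (nat_lit 332) (B (M (nat_lit 333) (B (L (nat_lit 300) ln13_13_7 ln13_13_7_ok) (L (nat_lit 301) ln13_9_5 ln13_9_5_ok))) (M (nat_lit 364) (B (L (nat_lit 461) ln13_14_7 ln13_14_7_ok) (L (nat_lit 459) ln12_10_5 ln12_10_5_ok)))))))))))))))))))) (nat_lit 1386334847544579281930502452632026696468783264124728123740719198963059283254184240648144927045128292788721448874933630659377233920) (nat_lit 384428669056820918567426213590955936168578986174872664336400151684193006514933234470366350499757651802763762893471231566051177736838224038788688696439935598592) (nat_lit 384428669056820918567426213590955936168578986174872664336400151684193006514933234470366350499757651802763762893471231566051177736838224038788688696439935598592) (by decide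 +kernel)
theorem c41_s7761 : Sem (nat_lit 1386334847221798047169638878925036799968406779833514899637066259859226863686603287896039777716422623628704219945445734162783797248) (nat_lit 1179363258141160341734600181623014675440449318538872512518405922819418352426065416046658674153793569816038558562379790598950183802296395810074556463024055324648132313088) (nat_lit 1179363258141160341734600181623014675440449318538872512518405922819418352426065416046658674153793569816038558562379790598950183802296395810074556463024055324648132313088) :=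
  sem_of_chk (M (nat_lit 397) (B (M (nat_lit 461) (B (M (nat_lit 364) (B (L (nat_lit 493) ln13_15_7 ln13_15_7_ok) (M (nat_lit 332) (B (L (nat_lit 300) ln12_9_4 ln12_9_4_ok) (L (nat_lit 428) ln12_10_4 ln12_10_4_ok))))) (B (M (nat_lit 364) (B (L (nat_lit 493) ln13_15_7 ln13_15_7_ok) (M (nat_lit 332) (B (L (nat_lit 365) ln13_14_7 ln13_14_7_ok) (L (nat_lit 428) ln12_10_4 ln12_10_4_ok))))) (B (M (nat_lit 493) (B (L (nat_lit 364) ln13_15_7 ln13_15_7_ok) (M (nat_lit 525) (B (L (nat_lit 428) ln13_16_7 ln13_16_7_ok) (M (nat_lit 398) (B (L (nat_lit 366) ln13_15_6 ln13_15_6_ok) (L (nat_lit 430) ln13_16_6 ln13_16_6_ok))))))) (B (M (nat_lit 493) (B (M (nat_lit 525) (B (L (nat_lit 428) ln13_16_7 ln13_16_7_ok) (M (nat_lit 398) (B (L (nat_lit 366) ln13_15_6 ln13_15_6_ok) (L (nat_lit 430) ln13_16_6 ln13_16_6_ok))))) (B (M (nat_lit 525) (B (L (nat_lit 428) ln13_16_7 ln13_16_7_ok) (M (nat_lit 524) (B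 (L (nat_lit 492) ln13_12_5 ln13_12_5_ok) (L (nat_lit 556) ln13_13_5 ln13_13_5_ok))))) (M (nat_lit 365) (B (M (nat_lit 366) (B (L (nat_lit 334) ln13_14_6 ln13_14_6_ok) (L (nat_lit 398) ln13_15_6 ln13_15_6_ok))) (M (nat_lit 492) (B (L (nat_lit 460) ln13_11_5 ln13_11_5_ok) (L (nat_lit 524) ln13_12_5 ln13_12_5_ok)))))))) (B (M (nat_lit 364) (B (L (nat_lit 493) ln13_15_7 ln13_15_7_ok) (M (nat_lit 332) (B (L (nat_lit 300) ln12_9_4 ln12_9_4_ok) (L (nat_lit 365) ln13_14_7 ln13_14_7_ok))))) (M (nat_lit 364) (B (M (nat_lit 332) (B (L (nat_lit 300) ln12_9_4 ln12_9_4_ok) (L (nat_lit 365) ln13_14_7 ln13_14_7_ok))) (B (M (nat_lit 332) (B (L (nat_lit 365) ln13_14_7 ln13_14_7_ok) (L (nat_lit 428) ln12_10_4 ln12_10_4_ok))) (B (M (nat_lit 365) (B (M (nat_lit 366) (B (L (nat_lit 334) ln13_14_6 ln13_14_6_ok) (M (nat_lit 367) (B (L (nat_lit 395) ln15_11_1 ln15_11_1_ok) (L (nat_lit 368) ln16_11_1 ln16_11_1_ok)))))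 (M (nat_lit 333) (B (M (nat_lit 460) (B (L (nat_lit 428) ln12_14_6 ln12_14_6_ok) (L (nat_lit 492) ln13_11_5 ln13_11_5_ok))) (M (nat_lit 462) (B (L (nat_lit 430) ln13_10_4 ln13_10_4_ok) (L (nat_lit 494) ln13_11_4 ln13_11_4_ok))))))) (M (nat_lit 332) (B (L (nat_lit 300) ln12_9_4 ln12_9_4_ok) (L (nat_lit 428) ln12_10_4 ln12_10_4_ok))))))))))))) (B (M (nat_lit 366) (B (M (nat_lit 398) (B (M (nat_lit 461) (B (L (nat_lit 493) ln13_15_6 ln13_15_6_ok) (M (nat_lit 334) (B (L (nat_lit 302) ln14_9_5 ln14_9_5_ok) (L (nat_lit 430) ln14_10_5 ln14_10_5_ok))))) (B (M (nat_lit 395) (B (L (nat_lit 367) ln11_12_2 ln11_12_2_ok) (M (nat_lit 430) (B (L (nat_lit 394) ln10_12_0 ln10_12_0_ok) (L (nat_lit 431) ln11_12_0 ln11_12_0_ok))))) (M (nat_lit 367) (B (L (nat_lit 395) ln11_12_2 ln11_12_2_ok) (M (nat_lit 368) (B (L (nat_lit 369) ln17_11_1 ln17_11_1_ok) (L (nat_lit 399) ln12_12_2 ln12_12_2_ok)))))))) (B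 (M (nat_lit 398) (B (M (nat_lit 367) (B (L (nat_lit 395) ln11_12_2 ln11_12_2_ok) (M (nat_lit 368) (B (L (nat_lit 369) ln17_11_1 ln17_11_1_ok) (L (nat_lit 399) ln12_12_2 ln12_12_2_ok))))) (M (nat_lit 461) (B (L (nat_lit 493) ln13_15_6 ln13_15_6_ok) (M (nat_lit 334) (B (L (nat_lit 365) ln13_14_6 ln13_14_6_ok) (L (nat_lit 430) ln14_10_5 ln14_10_5_ok))))))) (B (M (nat_lit 395) (B (M (nat_lit 394) (B (L (nat_lit 365) ln10_12_2 ln10_12_2_ok) (L (nat_lit 430) ln10_12_0 ln10_12_0_ok))) (B (M (nat_lit 430) (B (L (nat_lit 394) ln10_12_0 ln10_12_0_ok) (M (nat_lit 398) (B (L (nat_lit 367) ln11_12_2 ln11_12_2_ok) (L (nat_lit 431) ln11_12_0 ln11_12_0_ok))))) (M (nat_lit 367) (B (L (nat_lit 398) ln11_12_2 ln11_12_2_ok) (M (nat_lit 365) (B (L (nat_lit 364) ln15_11_1 ln15_11_1_ok) (L (nat_lit 368) ln16_11_1 ln16_11_1_ok)))))))) (B (M (nat_lit 461) (B (M (nat_lit 493) (B (L (nat_lit 364) ln13_15_7 ln13_15_7_ok)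 (L (nat_lit 398) ln13_15_6 ln13_15_6_ok))) (B (M (nat_lit 398) (B (L (nat_lit 493) ln13_15_6 ln13_15_6_ok) (M (nat_lit 334) (B (L (nat_lit 365) ln13_14_6 ln13_14_6_ok) (L (nat_lit 430) ln14_10_5 ln14_10_5_ok))))) (B (M (nat_lit 365) (B (L (nat_lit 334) ln13_14_6 ln13_14_6_ok) (M (nat_lit 364) (B (L (nat_lit 332) ln13_14_7 ln13_14_7_ok) (L (nat_lit 493) ln13_15_7 ln13_15_7_ok))))) (M (nat_lit 334) (B (L (nat_lit 365) ln13_14_6 ln13_14_6_ok) (M (nat_lit 398) (B (L (nat_lit 302) ln14_9_5 ln14_9_5_ok) (L (nat_lit 430) ln14_10_5 ln14_10_5_ok))))))))) (M (nat_lit 365) (B (M (nat_lit 395) (B (L (nat_lit 394) ln10_12_2 ln10_12_2_ok) (M (nat_lit 367) (B (L (nat_lit 364) ln15_11_1 ln15_11_1_ok) (L (nat_lit 368) ln16_11_1 ln16_11_1_ok))))) (M (nat_lit 334) (B (L (nat_lit 461) ln13_14_6 ln13_14_6_ok) (M (nat_lit 302) (B (L (nat_lit 270) ln14_8_5 ln14_8_5_ok) (L (nat_lit 333) ln13_13_6 ln13_13_6_ok))))))))))))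 (B (M (nat_lit 366) (B (M (nat_lit 395) (B (M (nat_lit 394) (B (L (nat_lit 365) ln10_12_2 ln10_12_2_ok) (L (nat_lit 430) ln10_12_0 ln10_12_0_ok))) (B (M (nat_lit 430) (B (L (nat_lit 394) ln10_12_0 ln10_12_0_ok) (M (nat_lit 398) (B (L (nat_lit 367) ln11_12_2 ln11_12_2_ok) (L (nat_lit 431) ln11_12_0 ln11_12_0_ok))))) (M (nat_lit 367) (B (L (nat_lit 398) ln11_12_2 ln11_12_2_ok) (M (nat_lit 365) (B (L (nat_lit 364) ln15_11_1 ln15_11_1_ok) (L (nat_lit 368) ln16_11_1 ln16_11_1_ok)))))))) (B (M (nat_lit 398) (B (M (nat_lit 367) (B (L (nat_lit 395) ln11_12_2 ln11_12_2_ok) (M (nat_lit 368) (B (L (nat_lit 369) ln17_11_1 ln17_11_1_ok) (L (nat_lit 399) ln12_12_2 ln12_12_2_ok))))) (M (nat_lit 461) (B (L (nat_lit 493) ln13_15_6 ln13_15_6_ok) (M (nat_lit 334) (B (L (nat_lit 365) ln13_14_6 ln13_14_6_ok) (L (nat_lit 430) ln14_10_5 ln14_10_5_ok))))))) (B (M (nat_lit 398) (B (M (nat_lit 461) (B (L (nat_lit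 493) ln13_15_6 ln13_15_6_ok) (M (nat_lit 334) (B (L (nat_lit 302) ln14_9_5 ln14_9_5_ok) (L (nat_lit 430) ln14_10_5 ln14_10_5_ok))))) (B (M (nat_lit 395) (B (L (nat_lit 367) ln11_12_2 ln11_12_2_ok) (M (nat_lit 430) (B (L (nat_lit 394) ln10_12_0 ln10_12_0_ok) (L (nat_lit 431) ln11_12_0 ln11_12_0_ok))))) (M (nat_lit 367) (B (L (nat_lit 395) ln11_12_2 ln11_12_2_ok) (M (nat_lit 368) (B (L (nat_lit 369) ln17_11_1 ln17_11_1_ok) (L (nat_lit 399) ln12_12_2 ln12_12_2_ok)))))))) (B (M (nat_lit 461) (B (M (nat_lit 493) (B (L (nat_lit 364) ln13_15_7 ln13_15_7_ok) (L (nat_lit 398) ln13_15_6 ln13_15_6_ok))) (B (M (nat_lit 398) (B (L (nat_lit 493) ln13_15_6 ln13_15_6_ok) (M (nat_lit 334) (B (L (nat_lit 365) ln13_14_6 ln13_14_6_ok) (L (nat_lit 430) ln14_10_5 ln14_10_5_ok))))) (B (M (nat_lit 492) (B (M (nat_lit 365) (B (L (nat_lit 334) ln13_14_6 ln13_14_6_ok) (L (nat_lit 460) ln13_11_5 ln13_11_5_ok)))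 (M (nat_lit 493) (B (L (nat_lit 364) ln13_15_7 ln13_15_7_ok) (L (nat_lit 524) ln13_12_5 ln13_12_5_ok))))) (M (nat_lit 334) (B (L (nat_lit 365) ln13_14_6 ln13_14_6_ok) (M (nat_lit 398) (B (L (nat_lit 302) ln14_9_5 ln14_9_5_ok) (L (nat_lit 430) ln14_10_5 ln14_10_5_ok))))))))) (M (nat_lit 365) (B (M (nat_lit 395) (B (L (nat_lit 394) ln10_12_2 ln10_12_2_ok) (M (nat_lit 367) (B (L (nat_lit 364) ln15_11_1 ln15_11_1_ok) (L (nat_lit 368) ln16_11_1 ln16_11_1_ok))))) (M (nat_lit 334) (B (L (nat_lit 461) ln13_14_6 ln13_14_6_ok) (M (nat_lit 302) (B (L (nat_lit 270) ln14_8_5 ln14_8_5_ok) (L (nat_lit 333) ln13_13_6 ln13_13_6_ok)))))))))))) (B (M (nat_lit 398) (B (M (nat_lit 364) (B (M (nat_lit 399) (B (L (nat_lit 363) ln15_12_3 ln15_12_3_ok) (M (nat_lit 400) (B (L (nat_lit 365) ln16_12_3 ln16_12_3_ok) (L (nat_lit 428) ln16_12_1 ln16_12_1_ok))))) (B (M (nat_lit 461) (B (L (nat_lit 493) ln13_15_7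 ln13_15_7_ok) (M (nat_lit 332) (B (L (nat_lit 300) ln12_9_4 ln12_9_4_ok) (L (nat_lit 428) ln12_10_4 ln12_10_4_ok))))) (M (nat_lit 461) (B (L (nat_lit 493) ln13_15_7 ln13_15_7_ok) (M (nat_lit 332) (B (L (nat_lit 300) ln12_9_4 ln12_9_4_ok) (L (nat_lit 365) ln13_14_7 ln13_14_7_ok)))))))) (B (M (nat_lit 364) (B (M (nat_lit 363) (B (L (nat_lit 399) ln15_12_3 ln15_12_3_ok) (M (nat_lit 362) (B (L (nat_lit 361) ln9_11_0 ln9_11_0_ok) (L (nat_lit 365) ln10_11_0 ln10_11_0_ok))))) (B (M (nat_lit 363) (B (L (nat_lit 399) ln15_12_3 ln15_12_3_ok) (M (nat_lit 362) (B (L (nat_lit 365) ln10_11_0 ln10_11_0_ok) (L (nat_lit 395) ln14_12_3 ln14_12_3_ok))))) (B (M (nat_lit 461) (B (L (nat_lit 493) ln13_15_7 ln13_15_7_ok) (M (nat_lit 332) (B (L (nat_lit 365) ln13_14_7 ln13_14_7_ok) (L (nat_lit 428) ln12_10_4 ln12_10_4_ok))))) (M (nat_lit 363) (B (L (nat_lit 399) ln15_12_3 ln15_12_3_ok) (M (nat_lit 362) (B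 (L (nat_lit 361) ln9_11_0 ln9_11_0_ok) (L (nat_lit 395) ln14_12_3 ln14_12_3_ok))))))))) (B (M (nat_lit 395) (B (M (nat_lit 430) (B (L (nat_lit 394) ln10_12_0 ln10_12_0_ok) (L (nat_lit 431) ln11_12_0 ln11_12_0_ok))) (B (M (nat_lit 399) (B (M (nat_lit 363) (B (L (nat_lit 362) ln14_12_3 ln14_12_3_ok) (L (nat_lit 364) ln15_12_3 ln15_12_3_ok))) (M (nat_lit 431) (B (L (nat_lit 430) ln11_12_0 ln11_12_0_ok) (L (nat_lit 432) ln12_12_0 ln12_12_0_ok))))) (M (nat_lit 394) (B (M (nat_lit 362) (B (L (nat_lit 361) ln13_12_3 ln13_12_3_ok) (L (nat_lit 363) ln14_12_3 ln14_12_3_ok))) (M (nat_lit 426) (B (L (nat_lit 425) ln13_12_1 ln13_12_1_ok) (L (nat_lit 427) ln14_12_1 ln14_12_1_ok)))))))) (B (M (nat_lit 395) (B (M (nat_lit 430) (B (L (nat_lit 394) ln10_12_0 ln10_12_0_ok) (L (nat_lit 431) ln11_12_0 ln11_12_0_ok))) (B (M (nat_lit 399) (B (M (nat_lit 427) (B (L (nat_lit 426) ln14_12_1 ln14_12_1_ok) (L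 (nat_lit 428) ln15_12_1 ln15_12_1_ok))) (M (nat_lit 431) (B (L (nat_lit 430) ln11_12_0 ln11_12_0_ok) (L (nat_lit 432) ln12_12_0 ln12_12_0_ok))))) (M (nat_lit 394) (B (M (nat_lit 366) (B (L (nat_lit 365) ln10_12_2 ln10_12_2_ok) (L (nat_lit 367) ln11_12_2 ln11_12_2_ok))) (M (nat_lit 426) (B (L (nat_lit 425) ln13_12_1 ln13_12_1_ok) (L (nat_lit 427) ln14_12_1 ln14_12_1_ok)))))))) (M (nat_lit 366) (B (M (nat_lit 395) (B (L (nat_lit 367) ln11_12_2 ln11_12_2_ok) (M (nat_lit 430) (B (L (nat_lit 394) ln10_12_0 ln10_12_0_ok) (L (nat_lit 431) ln11_12_0 ln11_12_0_ok))))) (B (M (nat_lit 461) (B (L (nat_lit 493) ln13_15_6 ln13_15_6_ok) (M (nat_lit 334) (B (L (nat_lit 302) ln14_9_5 ln14_9_5_ok) (L (nat_lit 430) ln14_10_5 ln14_10_5_ok))))) (M (nat_lit 461) (B (L (nat_lit 493) ln13_15_6 ln13_15_6_ok) (M (nat_lit 334) (B (L (nat_lit 302) ln14_9_5 ln14_9_5_ok) (L (nat_lit 365) ln13_14_6 ln13_14_6_ok)))))))))))))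 (B (K (nat_lit 1386334847544579281930502452632026696468783264124728123740719198963059283254184240648144927045128292788721448874933630659377233920) (nat_lit 164755143932641407686516822312993950304112041412779707941338193103206705604919793188732047153347977758853693430385421551795947842382468057658047768541093953536) (nat_lit 164755143932641407686516822312993950304112041412779707941338193103206705604919793188732047153347977758853693430385421551795947842382468057658047768541093953536) c41_s7683) (B (M (nat_lit 395) (B (M (nat_lit 430) (B (L (nat_lit 394) ln10_12_0 ln10_12_0_ok) (M (nat_lit 431) (B (L (nat_lit 398) ln11_12_0 ln11_12_0_ok) (L (nat_lit 432) ln16_13_3 ln16_13_3_ok))))) (B (M (nat_lit 398) (B (M (nat_lit 430) (B (L (nat_lit 431) ln11_12_0 ln11_12_0_ok) (M (nat_lit 366) (B (L (nat_lit 367) ln11_12_2 ln11_12_2_ok) (M (nat_lit 461) (B (L (nat_lit 334) ln14_10_5 ln14_10_5_ok)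 (L (nat_lit 493) ln13_15_6 ln13_15_6_ok))))))) (B (M (nat_lit 399) (B (M (nat_lit 367) (B (L (nat_lit 366) ln11_12_2 ln11_12_2_ok) (L (nat_lit 368) ln12_12_2 ln12_12_2_ok))) (M (nat_lit 427) (B (L (nat_lit 426) ln14_12_1 ln14_12_1_ok) (L (nat_lit 428) ln15_12_1 ln15_12_1_ok))))) (M (nat_lit 399) (B (M (nat_lit 427) (B (L (nat_lit 426) ln14_12_1 ln14_12_1_ok) (L (nat_lit 428) ln15_12_1 ln15_12_1_ok))) (M (nat_lit 431) (B (L (nat_lit 430) ln11_12_0 ln11_12_0_ok) (L (nat_lit 432) ln12_12_0 ln12_12_0_ok)))))))) (B (M (nat_lit 430) (B (L (nat_lit 394) ln10_12_0 ln10_12_0_ok) (M (nat_lit 431) (B (L (nat_lit 428) ln15_13_3 ln15_13_3_ok) (L (nat_lit 432) ln16_13_3 ln16_13_3_ok))))) (M (nat_lit 394) (B (M (nat_lit 393) (B (L (nat_lit 428) ln9_12_0 ln9_12_0_ok) (M (nat_lit 425) (B (L (nat_lit 424) ln12_12_1 ln12_12_1_ok) (L (nat_lit 426) ln13_12_1 ln13_12_1_ok))))) (B (M (nat_lit 398) (B (M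 (nat_lit 362) (B (L (nat_lit 361) ln13_12_3 ln13_12_3_ok) (L (nat_lit 363) ln14_12_3 ln14_12_3_ok))) (M (nat_lit 426) (B (L (nat_lit 425) ln13_12_1 ln13_12_1_ok) (L (nat_lit 427) ln14_12_1 ln14_12_1_ok))))) (M (nat_lit 393) (B (L (nat_lit 428) ln9_12_0 ln9_12_0_ok) (M (nat_lit 361) (B (L (nat_lit 360) ln12_12_3 ln12_12_3_ok) (L (nat_lit 362) ln13_12_3 ln13_12_3_ok)))))))))))) (B (K (nat_lit 1386334847544579281930502452632026696468783264124728123740719198963059283254184240648144927045128292788721448874933630659377233920) (nat_lit 384428669056820918567426213590955936168578986174872664336400151684193006514933234470366350499757651802763762893471231566051177736838224038788688696439935598592) (nat_lit 384428669056820918567426213590955936168578986174872664336400151684193006514933234470366350499757651802763762893471231566051177736838224038788688696439935598592) c41_s7710) (B (M (nat_lit 461)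 (B (M (nat_lit 364) (B (L (nat_lit 493) ln13_15_7 ln13_15_7_ok) (M (nat_lit 332) (B (L (nat_lit 365) ln13_14_7 ln13_14_7_ok) (L (nat_lit 428) ln12_10_4 ln12_10_4_ok))))) (B (M (nat_lit 493) (B (L (nat_lit 364) ln13_15_7 ln13_15_7_ok) (M (nat_lit 525) (B (L (nat_lit 428) ln13_16_7 ln13_16_7_ok) (M (nat_lit 524) (B (L (nat_lit 492) ln13_12_5 ln13_12_5_ok) (L (nat_lit 556) ln13_13_5 ln13_13_5_ok))))))) (B (M (nat_lit 493) (B (M (nat_lit 525) (B (L (nat_lit 428) ln13_16_7 ln13_16_7_ok) (M (nat_lit 524) (B (L (nat_lit 492) ln13_12_5 ln13_12_5_ok) (L (nat_lit 556) ln13_13_5 ln13_13_5_ok))))) (B (M (nat_lit 365) (B (M (nat_lit 492) (B (L (nat_lit 460) ln13_11_5 ln13_11_5_ok) (L (nat_lit 524) ln13_12_5 ln13_12_5_ok))) (M (nat_lit 494) (B (L (nat_lit 462) ln13_11_4 ln13_11_4_ok) (L (nat_lit 526) ln13_12_4 ln13_12_4_ok))))) (M (nat_lit 525) (B (L (nat_lit 428) ln13_16_7 ln13_16_7_ok) (M (nat_lit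 526) (B (L (nat_lit 494) ln13_12_4 ln13_12_4_ok) (L (nat_lit 558) ln13_13_4 ln13_13_4_ok)))))))) (B (M (nat_lit 364) (B (L (nat_lit 493) ln13_15_7 ln13_15_7_ok) (M (nat_lit 332) (B (L (nat_lit 300) ln12_9_4 ln12_9_4_ok) (L (nat_lit 365) ln13_14_7 ln13_14_7_ok))))) (M (nat_lit 365) (B (M (nat_lit 460) (B (L (nat_lit 492) ln13_11_5 ln13_11_5_ok) (M (nat_lit 462) (B (L (nat_lit 494) ln13_11_4 ln13_11_4_ok) (M (nat_lit 333) (B (L (nat_lit 428) ln13_10_5 ln13_10_5_ok) (L (nat_lit 430) ln13_10_4 ln13_10_4_ok))))))) (B (M (nat_lit 428) (B (M (nat_lit 460) (B (L (nat_lit 492) ln12_15_6 ln12_15_6_ok) (M (nat_lit 462) (B (L (nat_lit 494) ln13_11_4 ln13_11_4_ok) (M (nat_lit 427) (B (L (nat_lit 426) ln10_13_0 ln10_13_0_ok) (L (nat_lit 463) ln15_14_3 ln15_14_3_ok))))))) (B (M (nat_lit 460) (B (L (nat_lit 492) ln12_15_6 ln12_15_6_ok) (M (nat_lit 462) (B (L (nat_lit 494) ln13_11_4 ln13_11_4_ok) (M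 (nat_lit 463) (B (L (nat_lit 427) ln15_14_3 ln15_14_3_ok) (L (nat_lit 464) ln16_14_3 ln16_14_3_ok))))))) (B (M (nat_lit 364) (B (L (nat_lit 332) ln13_14_7 ln13_14_7_ok) (M (nat_lit 363) (B (M (nat_lit 460) (B (L (nat_lit 331) ln12_14_7 ln12_14_7_ok) (L (nat_lit 492) ln12_15_6 ln12_15_6_ok))) (M (nat_lit 362) (B (L (nat_lit 361) ln9_11_0 ln9_11_0_ok) (L (nat_lit 398) ln10_11_0 ln10_11_0_ok))))))) (M (nat_lit 462) (B (L (nat_lit 494) ln13_11_4 ln13_11_4_ok) (M (nat_lit 427) (B (L (nat_lit 426) ln10_13_0 ln10_13_0_ok) (M (nat_lit 463) (B (L (nat_lit 430) ln11_13_0 ln11_13_0_ok) (L (nat_lit 464) ln16_14_3 ln16_14_3_ok))))))))))) (B (M (nat_lit 333) (B (M (nat_lit 332) (B (L (nat_lit 300) ln13_13_7 ln13_13_7_ok) (L (nat_lit 364) ln13_14_7 ln13_14_7_ok))) (M (nat_lit 462) (B (L (nat_lit 430) ln13_10_4 ln13_10_4_ok) (L (nat_lit 494) ln13_11_4 ln13_11_4_ok))))) (M (nat_lit 333) (B (M (nat_lit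 332) (B (L (nat_lit 300) ln13_13_7 ln13_13_7_ok) (L (nat_lit 364) ln13_14_7 ln13_14_7_ok))) (M (nat_lit 460) (B (L (nat_lit 428) ln13_10_5 ln13_10_5_ok) (L (nat_lit 492) ln13_11_5 ln13_11_5_ok)))))))))))))) (B (M (nat_lit 461) (B (M (nat_lit 364) (B (L (nat_lit 493) ln13_15_7 ln13_15_7_ok) (M (nat_lit 332) (B (L (nat_lit 300) ln12_9_4 ln12_9_4_ok) (L (nat_lit 365) ln13_14_7 ln13_14_7_ok))))) (B (M (nat_lit 364) (B (L (nat_lit 493) ln13_15_7 ln13_15_7_ok) (M (nat_lit 332) (B (L (nat_lit 365) ln13_14_7 ln13_14_7_ok) (L (nat_lit 428) ln12_10_4 ln12_10_4_ok))))) (B (M (nat_lit 493) (B (L (nat_lit 364) ln13_15_7 ln13_15_7_ok) (M (nat_lit 525) (B (L (nat_lit 428) ln13_16_7 ln13_16_7_ok) (M (nat_lit 524) (B (L (nat_lit 492) ln13_12_5 ln13_12_5_ok) (L (nat_lit 556) ln13_13_5 ln13_13_5_ok))))))) (B (M (nat_lit 493) (B (M (nat_lit 525) (B (L (nat_lit 428) ln13_16_7 ln13_16_7_ok) (M (nat_lit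 524) (B (L (nat_lit 492) ln13_12_5 ln13_12_5_ok) (L (nat_lit 556) ln13_13_5 ln13_13_5_ok))))) (B (M (nat_lit 365) (B (M (nat_lit 492) (B (L (nat_lit 460) ln13_11_5 ln13_11_5_ok) (L (nat_lit 524) ln13_12_5 ln13_12_5_ok))) (M (nat_lit 494) (B (L (nat_lit 462) ln13_11_4 ln13_11_4_ok) (L (nat_lit 526) ln13_12_4 ln13_12_4_ok))))) (M (nat_lit 525) (B (L (nat_lit 428) ln13_16_7 ln13_16_7_ok) (M (nat_lit 526) (B (L (nat_lit 494) ln13_12_4 ln13_12_4_ok) (L (nat_lit 558) ln13_13_4 ln13_13_4_ok)))))))) (M (nat_lit 364) (B (M (nat_lit 332) (B (L (nat_lit 300) ln12_9_4 ln12_9_4_ok) (L (nat_lit 365) ln13_14_7 ln13_14_7_ok))) (B (M (nat_lit 332) (B (L (nat_lit 365) ln13_14_7 ln13_14_7_ok) (L (nat_lit 428) ln12_10_4 ln12_10_4_ok))) (B (M (nat_lit 365) (B (M (nat_lit 366) (B (L (nat_lit 334) ln13_14_6 ln13_14_6_ok) (M (nat_lit 367) (B (L (nat_lit 395) ln15_11_1 ln15_11_1_ok) (L (nat_lit 368) ln16_11_1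 ln16_11_1_ok))))) (M (nat_lit 333) (B (M (nat_lit 301) (B (L (nat_lit 269) ln13_8_5 ln13_8_5_ok) (L (nat_lit 428) ln13_9_5 ln13_9_5_ok))) (M (nat_lit 462) (B (L (nat_lit 430) ln13_10_4 ln13_10_4_ok) (L (nat_lit 494) ln13_11_4 ln13_11_4_ok))))))) (M (nat_lit 332) (B (L (nat_lit 300) ln12_9_4 ln12_9_4_ok) (L (nat_lit 428) ln12_10_4 ln12_10_4_ok)))))))))))) (B (M (nat_lit 461) (B (M (nat_lit 364) (B (L (nat_lit 493) ln13_15_7 ln13_15_7_ok) (M (nat_lit 332) (B (L (nat_lit 300) ln12_9_4 ln12_9_4_ok) (L (nat_lit 365) ln13_14_7 ln13_14_7_ok))))) (B (M (nat_lit 364) (B (L (nat_lit 493) ln13_15_7 ln13_15_7_ok) (M (nat_lit 332) (B (L (nat_lit 365) ln13_14_7 ln13_14_7_ok) (L (nat_lit 428) ln12_10_4 ln12_10_4_ok))))) (B (M (nat_lit 493) (B (L (nat_lit 364) ln13_15_7 ln13_15_7_ok) (M (nat_lit 525) (B (L (nat_lit 428) ln13_16_7 ln13_16_7_ok) (M (nat_lit 524) (B (L (nat_lit 492) ln13_12_5 ln13_12_5_ok)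 (L (nat_lit 556) ln13_13_5 ln13_13_5_ok))))))) (B (M (nat_lit 493) (B (M (nat_lit 525) (B (L (nat_lit 428) ln13_16_7 ln13_16_7_ok) (M (nat_lit 524) (B (L (nat_lit 492) ln13_12_5 ln13_12_5_ok) (L (nat_lit 556) ln13_13_5 ln13_13_5_ok))))) (B (M (nat_lit 365) (B (M (nat_lit 492) (B (L (nat_lit 460) ln13_11_5 ln13_11_5_ok) (L (nat_lit 524) ln13_12_5 ln13_12_5_ok))) (M (nat_lit 494) (B (L (nat_lit 462) ln13_11_4 ln13_11_4_ok) (L (nat_lit 526) ln13_12_4 ln13_12_4_ok))))) (M (nat_lit 525) (B (L (nat_lit 428) ln13_16_7 ln13_16_7_ok) (M (nat_lit 526) (B (L (nat_lit 494) ln13_12_4 ln13_12_4_ok) (L (nat_lit 558) ln13_13_4 ln13_13_4_ok)))))))) (M (nat_lit 365) (B (M (nat_lit 364) (B (L (nat_lit 332) ln13_14_7 ln13_14_7_ok) (M (nat_lit 366) (B (L (nat_lit 334) ln13_14_6 ln13_14_6_ok) (M (nat_lit 367) (B (L (nat_lit 395) ln15_11_1 ln15_11_1_ok) (L (nat_lit 368) ln16_11_1 ln16_11_1_ok))))))) (B (M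 (nat_lit 333) (B (M (nat_lit 334) (B (L (nat_lit 302) ln13_13_6 ln13_13_6_ok) (L (nat_lit 366) ln13_14_6 ln13_14_6_ok))) (M (nat_lit 460) (B (L (nat_lit 428) ln13_10_5 ln13_10_5_ok) (L (nat_lit 492) ln13_11_5 ln13_11_5_ok))))) (M (nat_lit 333) (B (M (nat_lit 332) (B (L (nat_lit 300) ln13_13_7 ln13_13_7_ok) (L (nat_lit 364) ln13_14_7 ln13_14_7_ok))) (M (nat_lit 460) (B (L (nat_lit 428) ln13_10_5 ln13_10_5_ok) (L (nat_lit 492) ln13_11_5 ln13_11_5_ok))))))))))))) (M (nat_lit 430) (B (M (nat_lit 431) (B (L (nat_lit 432) ln16_13_3 ln16_13_3_ok) (M (nat_lit 395) (B (L (nat_lit 394) ln10_12_0 ln10_12_0_ok) (L (nat_lit 398) ln11_12_0 ln11_12_0_ok))))) (B (M (nat_lit 431) (B (L (nat_lit 432) ln16_13_3 ln16_13_3_ok) (M (nat_lit 395) (B (L (nat_lit 398) ln11_12_0 ln11_12_0_ok) (L (nat_lit 428) ln15_13_3 ln15_13_3_ok))))) (B (M (nat_lit 431) (B (L (nat_lit 432) ln16_13_3 ln16_13_3_ok) (M (nat_lit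 428) (B (M (nat_lit 460) (B (L (nat_lit 459) ln15_13_1 ln15_13_1_ok) (M (nat_lit 365) (B (L (nat_lit 333) ln13_10_5 ln13_10_5_ok) (L (nat_lit 492) ln12_15_6 ln12_15_6_ok))))) (M (nat_lit 427) (B (M (nat_lit 426) (B (L (nat_lit 425) ln9_13_2 ln9_13_2_ok) (L (nat_lit 398) ln10_13_2 ln10_13_2_ok))) (M (nat_lit 463) (B (L (nat_lit 462) ln11_13_0 ln11_13_0_ok) (L (nat_lit 464) ln12_13_0 ln12_13_0_ok))))))))) (B (M (nat_lit 431) (B (L (nat_lit 432) ln16_13_3 ln16_13_3_ok) (M (nat_lit 395) (B (L (nat_lit 394) ln10_12_0 ln10_12_0_ok) (L (nat_lit 428) ln15_13_3 ln15_13_3_ok))))) (M (nat_lit 395) (B (L (nat_lit 394) ln10_12_0 ln10_12_0_ok) (M (nat_lit 398) (B (M (nat_lit 363) (B (L (nat_lit 362) ln14_12_3 ln14_12_3_ok) (M (nat_lit 399) (B (L (nat_lit 364) ln15_12_3 ln15_12_3_ok) (M (nat_lit 367) (B (L (nat_lit 366) ln11_12_2 ln11_12_2_ok) (L (nat_lit 368) ln12_12_2 ln12_12_2_ok))))))) (B (M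 (nat_lit 399) (B (M (nat_lit 367) (B (L (nat_lit 366) ln11_12_2 ln11_12_2_ok) (L (nat_lit 368) ln12_12_2 ln12_12_2_ok))) (M (nat_lit 427) (B (L (nat_lit 426) ln14_12_1 ln14_12_1_ok) (L (nat_lit 428) ln15_12_1 ln15_12_1_ok))))) (B (M (nat_lit 399) (B (M (nat_lit 363) (B (L (nat_lit 362) ln14_12_3 ln14_12_3_ok) (L (nat_lit 364) ln15_12_3 ln15_12_3_ok))) (M (nat_lit 427) (B (L (nat_lit 426) ln14_12_1 ln14_12_1_ok) (L (nat_lit 428) ln15_12_1 ln15_12_1_ok))))) (M (nat_lit 462) (B (M (nat_lit 365) (B (L (nat_lit 333) ln13_10_4 ln13_10_4_ok) (L (nat_lit 494) ln14_15_7 ln14_15_7_ok))) (B (M (nat_lit 494) (B (L (nat_lit 365) ln14_15_7 ln14_15_7_ok) (L (nat_lit 526) ln14_16_7 ln14_16_7_ok))) (M (nat_lit 463) (B (M (nat_lit 366) (B (L (nat_lit 367) ln11_12_2 ln11_12_2_ok) (L (nat_lit 495) ln14_11_4 ln14_11_4_ok))) (M (nat_lit 427) (B (L (nat_lit 426) ln14_12_1 ln14_12_1_ok) (L (nat_lit 428) ln11_13_0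 ln11_13_0_ok)))))))))))))))))))))))))))))) (nat_lit 1386334847221798047169638878925036799968406779833514899637066259859226863686603287896039777716422623628704219945445734162783797248) (nat_lit 1179363258141160341734600181623014675440449318538872512518405922819418352426065416046658674153793569816038558562379790598950183802296395810074556463024055324648132313088) (nat_lit 1179363258141160341734600181623014675440449318538872512518405922819418352426065416046658674153793569816038558562379790598950183802296395810074556463024055324648132313088) (by decide +kernel)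
theorem c41_s7764 : Sem (nat_lit 1386334847544579281930502452632026696468783264124728123740719198963059283254184240648144927045128292788721448874933630659377233920) (nat_lit 164755143932641407686516822312993950304091867585607153967981506234675432074651592362225568844653988232630719620838414979962903738059966980849954775010056863744) (nat_lit 164755143932641407686516822312993950304091867585607153967981506234675432074651592362225568844653988232630719620838414979962903738059966980849954775010056863744) :=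
  sem_of_chk (M (nat_lit 428) (B (M (nat_lit 461) (B (M (nat_lit 493) (B (L (nat_lit 364) ln13_15_7 ln13_15_7_ok) (L (nat_lit 525) ln13_16_7 ln13_16_7_ok))) (M (nat_lit 462) (B (M (nat_lit 365) (B (L (nat_lit 494) ln13_11_4 ln13_11_4_ok) (M (nat_lit 333) (B (L (nat_lit 301) ln13_9_5 ln13_9_5_ok) (L (nat_lit 430) ln13_10_4 ln13_10_4_ok))))) (B (M (nat_lit 365) (B (L (nat_lit 494) ln13_11_4 ln13_11_4_ok) (M (nat_lit 333) (B (L (nat_lit 460) ln13_10_5 ln13_10_5_ok) (L (nat_lit 430) ln13_10_4 ln13_10_4_ok))))) (B (M (nat_lit 427) (B (L (nat_lit 426) ln10_13_0 ln10_13_0_ok) (M (nat_lit 463) (B (L (nat_lit 430) ln11_13_0 ln11_13_0_ok) (L (nat_lit 464) ln16_14_3 ln16_14_3_ok))))) (M (nat_lit 365) (B (L (nat_lit 494) ln13_11_4 ln13_11_4_ok) (M (nat_lit 333) (B (L (nat_lit 301) ln13_9_5 ln13_9_5_ok) (L (nat_lit 460) ln13_10_5 ln13_10_5_ok))))))))))) (B (M (nat_lit 398) (B (M (nat_lit 399) (B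 (L (nat_lit 427) ln15_12_1 ln15_12_1_ok) (L (nat_lit 400) ln16_12_1 ln16_12_1_ok))) (B (M (nat_lit 430) (B (M (nat_lit 395) (B (L (nat_lit 394) ln10_12_0 ln10_12_0_ok) (L (nat_lit 431) ln11_12_0 ln11_12_0_ok))) (M (nat_lit 462) (B (M (nat_lit 365) (B (L (nat_lit 333) ln13_10_4 ln13_10_4_ok) (L (nat_lit 494) ln14_15_7 ln14_15_7_ok))) (M (nat_lit 427) (B (L (nat_lit 426) ln10_13_2 ln10_13_2_ok) (L (nat_lit 463) ln11_13_0 ln11_13_0_ok))))))) (M (nat_lit 364) (B (M (nat_lit 399) (B (L (nat_lit 363) ln15_12_3 ln15_12_3_ok) (L (nat_lit 400) ln16_12_1 ln16_12_1_ok))) (M (nat_lit 461) (B (L (nat_lit 332) ln12_10_4 ln12_10_4_ok) (L (nat_lit 493) ln13_15_7 ln13_15_7_ok)))))))) (B (M (nat_lit 427) (B (M (nat_lit 398) (B (L (nat_lit 399) ln15_12_1 ln15_12_1_ok) (L (nat_lit 426) ln10_13_2 ln10_13_2_ok))) (B (M (nat_lit 461) (B (M (nat_lit 364) (B (L (nat_lit 332) ln12_10_4 ln12_10_4_ok) (L (nat_lit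 493) ln13_15_7 ln13_15_7_ok))) (M (nat_lit 426) (B (L (nat_lit 425) ln9_13_2 ln9_13_2_ok) (L (nat_lit 462) ln10_13_0 ln10_13_0_ok))))) (M (nat_lit 395) (B (M (nat_lit 430) (B (L (nat_lit 394) ln10_12_0 ln10_12_0_ok) (L (nat_lit 431) ln15_13_3 ln15_13_3_ok))) (M (nat_lit 363) (B (M (nat_lit 331) (B (L (nat_lit 299) ln11_9_4 ln11_9_4_ok) (L (nat_lit 460) ln11_10_4 ln11_10_4_ok))) (M (nat_lit 398) (B (L (nat_lit 362) ln14_12_3 ln14_12_3_ok) (L (nat_lit 399) ln15_12_1 ln15_12_1_ok)))))))))) (B (M (nat_lit 398) (B (M (nat_lit 399) (B (L (nat_lit 427) ln15_12_1 ln15_12_1_ok) (L (nat_lit 400) ln16_12_1 ln16_12_1_ok))) (B (M (nat_lit 430) (B (M (nat_lit 395) (B (L (nat_lit 394) ln10_12_0 ln10_12_0_ok) (L (nat_lit 431) ln11_12_0 ln11_12_0_ok))) (M (nat_lit 462) (B (M (nat_lit 365) (B (L (nat_lit 333) ln13_10_4 ln13_10_4_ok) (L (nat_lit 494) ln14_15_7 ln14_15_7_ok))) (M (nat_lit 427) (B (L (nat_lit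 426) ln10_13_2 ln10_13_2_ok) (L (nat_lit 463) ln11_13_0 ln11_13_0_ok))))))) (M (nat_lit 399) (B (L (nat_lit 400) ln16_12_1 ln16_12_1_ok) (M (nat_lit 395) (B (M (nat_lit 367) (B (L (nat_lit 366) ln11_12_2 ln11_12_2_ok) (L (nat_lit 368) ln12_12_2 ln12_12_2_ok))) (M (nat_lit 431) (B (L (nat_lit 430) ln11_12_0 ln11_12_0_ok) (L (nat_lit 432) ln12_12_0 ln12_12_0_ok)))))))))) (B (M (nat_lit 461) (B (M (nat_lit 364) (B (L (nat_lit 332) ln12_10_4 ln12_10_4_ok) (L (nat_lit 493) ln13_15_7 ln13_15_7_ok))) (B (M (nat_lit 493) (B (L (nat_lit 364) ln13_15_7 ln13_15_7_ok) (L (nat_lit 525) ln13_16_7 ln13_16_7_ok))) (B (M (nat_lit 493) (B (L (nat_lit 525) ln13_16_7 ln13_16_7_ok) (M (nat_lit 398) (B (L (nat_lit 366) ln13_15_6 ln13_15_6_ok) (M (nat_lit 399) (B (L (nat_lit 427) ln15_12_1 ln15_12_1_ok) (L (nat_lit 400) ln16_12_1 ln16_12_1_ok))))))) (M (nat_lit 430) (B (M (nat_lit 395) (B (L (nat_lit 394)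 ln10_12_0 ln10_12_0_ok) (L (nat_lit 431) ln15_13_3 ln15_13_3_ok))) (M (nat_lit 462) (B (M (nat_lit 365) (B (L (nat_lit 333) ln13_10_4 ln13_10_4_ok) (L (nat_lit 494) ln13_11_4 ln13_11_4_ok))) (M (nat_lit 463) (B (L (nat_lit 427) ln11_13_0 ln11_13_0_ok) (L (nat_lit 464) ln16_14_3 ln16_14_3_ok))))))))))) (B (M (nat_lit 365) (B (M (nat_lit 333) (B (L (nat_lit 301) ln13_9_5 ln13_9_5_ok) (L (nat_lit 460) ln13_10_5 ln13_10_5_ok))) (B (M (nat_lit 460) (B (L (nat_lit 333) ln13_10_5 ln13_10_5_ok) (L (nat_lit 492) ln12_15_6 ln12_15_6_ok))) (B (M (nat_lit 364) (B (M (nat_lit 332) (B (L (nat_lit 300) ln12_9_4 ln12_9_4_ok) (L (nat_lit 461) ln13_14_7 ln13_14_7_ok))) (M (nat_lit 363) (B (M (nat_lit 460) (B (L (nat_lit 331) ln12_14_7 ln12_14_7_ok) (L (nat_lit 492) ln12_15_6 ln12_15_6_ok))) (M (nat_lit 398) (B (L (nat_lit 362) ln10_11_0 ln10_11_0_ok) (L (nat_lit 399) ln15_12_3 ln15_12_3_ok))))))) (M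 (nat_lit 430) (B (M (nat_lit 333) (B (L (nat_lit 301) ln13_9_5 ln13_9_5_ok) (L (nat_lit 462) ln13_10_4 ln13_10_4_ok))) (M (nat_lit 431) (B (L (nat_lit 395) ln15_13_3 ln15_13_3_ok) (L (nat_lit 432) ln16_13_3 ln16_13_3_ok))))))))) (B (M (nat_lit 461) (B (M (nat_lit 364) (B (L (nat_lit 332) ln12_10_4 ln12_10_4_ok) (L (nat_lit 493) ln13_15_7 ln13_15_7_ok))) (B (M (nat_lit 493) (B (L (nat_lit 364) ln13_15_7 ln13_15_7_ok) (L (nat_lit 525) ln13_16_7 ln13_16_7_ok))) (B (M (nat_lit 493) (B (L (nat_lit 525) ln13_16_7 ln13_16_7_ok) (M (nat_lit 398) (B (L (nat_lit 366) ln13_15_6 ln13_15_6_ok) (M (nat_lit 399) (B (L (nat_lit 427) ln15_12_1 ln15_12_1_ok) (L (nat_lit 400) ln16_12_1 ln16_12_1_ok))))))) (M (nat_lit 460) (B (M (nat_lit 365) (B (L (nat_lit 333) ln13_10_5 ln13_10_5_ok) (L (nat_lit 492) ln12_15_6 ln12_15_6_ok))) (B (M (nat_lit 492) (B (L (nat_lit 365) ln12_15_6 ln12_15_6_ok) (L (nat_lit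 524) ln12_16_6 ln12_16_6_ok))) (B (M (nat_lit 492) (B (L (nat_lit 524) ln12_16_6 ln12_16_6_ok) (M (nat_lit 364) (B (L (nat_lit 332) ln12_10_4 ln12_10_4_ok) (M (nat_lit 363) (B (L (nat_lit 331) ln12_14_7 ln12_14_7_ok) (L (nat_lit 395) ln12_15_7 ln12_15_7_ok))))))) (M (nat_lit 462) (B (M (nat_lit 365) (B (L (nat_lit 333) ln13_10_5 ln13_10_5_ok) (L (nat_lit 494) ln13_11_4 ln13_11_4_ok))) (M (nat_lit 463) (B (L (nat_lit 427) ln15_14_3 ln15_14_3_ok) (L (nat_lit 464) ln16_14_3 ln16_14_3_ok))))))))))))) (M (nat_lit 365) (B (M (nat_lit 333) (B (L (nat_lit 301) ln13_9_5 ln13_9_5_ok) (L (nat_lit 460) ln13_10_5 ln13_10_5_ok))) (B (M (nat_lit 460) (B (L (nat_lit 333) ln13_10_5 ln13_10_5_ok) (L (nat_lit 492) ln12_15_6 ln12_15_6_ok))) (B (M (nat_lit 364) (B (M (nat_lit 332) (B (L (nat_lit 300) ln12_9_4 ln12_9_4_ok) (L (nat_lit 461) ln13_14_7 ln13_14_7_ok))) (M (nat_lit 363) (B (M (nat_lit 460) (B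 (L (nat_lit 331) ln12_14_7 ln12_14_7_ok) (L (nat_lit 492) ln12_15_6 ln12_15_6_ok))) (M (nat_lit 398) (B (L (nat_lit 362) ln10_11_0 ln10_11_0_ok) (L (nat_lit 399) ln15_12_3 ln15_12_3_ok))))))) (M (nat_lit 461) (B (M (nat_lit 364) (B (L (nat_lit 332) ln13_14_7 ln13_14_7_ok) (L (nat_lit 493) ln13_15_7 ln13_15_7_ok))) (B (M (nat_lit 493) (B (L (nat_lit 364) ln13_15_7 ln13_15_7_ok) (L (nat_lit 525) ln13_16_7 ln13_16_7_ok))) (B (M (nat_lit 398) (B (M (nat_lit 493) (B (L (nat_lit 366) ln13_15_6 ln13_15_6_ok) (L (nat_lit 525) ln13_16_7 ln13_16_7_ok))) (M (nat_lit 399) (B (L (nat_lit 427) ln15_12_1 ln15_12_1_ok) (L (nat_lit 400) ln16_12_1 ln16_12_1_ok))))) (M (nat_lit 332) (B (L (nat_lit 364) ln13_14_7 ln13_14_7_ok) (M (nat_lit 333) (B (L (nat_lit 300) ln13_13_7 ln13_13_7_ok) (L (nat_lit 301) ln13_9_5 ln13_9_5_ok))))))))))))))))))))) (nat_lit 1386334847544579281930502452632026696468783264124728123740719198963059283254184240648144927045128292788721448874933630659377233920)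 (nat_lit 164755143932641407686516822312993950304091867585607153967981506234675432074651592362225568844653988232630719620838414979962903738059966980849954775010056863744) (nat_lit 164755143932641407686516822312993950304091867585607153967981506234675432074651592362225568844653988232630719620838414979962903738059966980849954775010056863744) (by decide +kernel)
theorem c41_s7778 : Sem (nat_lit 1386334847544579281930502452632026696468783264124728123740719198963059283254184240648144927045128292788721448874933630659377233920) (nat_lit 384428669056820918565937647883598533256713797189145477076687207308974105597208541715937922929007423329568749812062437211949691988266089829572716838773495693312) (nat_lit 384428669056820918565937647883598533256713797189145477076687207308974105597208541715937922929007423329568749812062437211949691988266089829572716838773495693312) :=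
  sem_of_chk (M (nat_lit 428) (B (M (nat_lit 461) (B (M (nat_lit 493) (B (L (nat_lit 364) ln13_15_7 ln13_15_7_ok) (L (nat_lit 525) ln13_16_7 ln13_16_7_ok))) (M (nat_lit 462) (B (M (nat_lit 365) (B (L (nat_lit 494) ln13_11_4 ln13_11_4_ok) (M (nat_lit 333) (B (L (nat_lit 301) ln13_9_5 ln13_9_5_ok) (L (nat_lit 430) ln13_10_4 ln13_10_4_ok))))) (B (M (nat_lit 365) (B (L (nat_lit 494) ln13_11_4 ln13_11_4_ok) (M (nat_lit 333) (B (L (nat_lit 460) ln13_10_5 ln13_10_5_ok) (L (nat_lit 430) ln13_10_4 ln13_10_4_ok))))) (B (M (nat_lit 427) (B (L (nat_lit 426) ln10_13_0 ln10_13_0_ok) (M (nat_lit 463) (B (L (nat_lit 430) ln11_13_0 ln11_13_0_ok) (L (nat_lit 464) ln16_14_3 ln16_14_3_ok))))) (M (nat_lit 365) (B (L (nat_lit 494) ln13_11_4 ln13_11_4_ok) (M (nat_lit 333) (B (L (nat_lit 301) ln13_9_5 ln13_9_5_ok) (L (nat_lit 460) ln13_10_5 ln13_10_5_ok))))))))))) (B (M (nat_lit 398) (B (M (nat_lit 399) (B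 (L (nat_lit 427) ln15_12_1 ln15_12_1_ok) (L (nat_lit 400) ln16_12_1 ln16_12_1_ok))) (B (M (nat_lit 430) (B (M (nat_lit 395) (B (L (nat_lit 394) ln10_12_0 ln10_12_0_ok) (L (nat_lit 431) ln11_12_0 ln11_12_0_ok))) (M (nat_lit 462) (B (M (nat_lit 365) (B (L (nat_lit 333) ln13_10_4 ln13_10_4_ok) (L (nat_lit 494) ln14_15_7 ln14_15_7_ok))) (M (nat_lit 427) (B (L (nat_lit 426) ln10_13_2 ln10_13_2_ok) (L (nat_lit 463) ln11_13_0 ln11_13_0_ok))))))) (M (nat_lit 364) (B (M (nat_lit 399) (B (L (nat_lit 363) ln15_12_3 ln15_12_3_ok) (L (nat_lit 400) ln16_12_1 ln16_12_1_ok))) (M (nat_lit 461) (B (L (nat_lit 332) ln12_10_4 ln12_10_4_ok) (L (nat_lit 493) ln13_15_7 ln13_15_7_ok)))))))) (B (M (nat_lit 398) (B (M (nat_lit 399) (B (L (nat_lit 427) ln15_12_1 ln15_12_1_ok) (L (nat_lit 400) ln16_12_1 ln16_12_1_ok))) (B (M (nat_lit 430) (B (M (nat_lit 395) (B (L (nat_lit 394) ln10_12_0 ln10_12_0_ok) (L (nat_lit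 431) ln11_12_0 ln11_12_0_ok))) (M (nat_lit 462) (B (M (nat_lit 494) (B (L (nat_lit 365) ln14_15_7 ln14_15_7_ok) (L (nat_lit 526) ln14_16_7 ln14_16_7_ok))) (M (nat_lit 427) (B (L (nat_lit 426) ln10_13_2 ln10_13_2_ok) (L (nat_lit 463) ln11_13_0 ln11_13_0_ok))))))) (M (nat_lit 364) (B (M (nat_lit 399) (B (L (nat_lit 363) ln15_12_3 ln15_12_3_ok) (L (nat_lit 400) ln16_12_1 ln16_12_1_ok))) (M (nat_lit 461) (B (L (nat_lit 332) ln12_10_4 ln12_10_4_ok) (L (nat_lit 493) ln13_15_7 ln13_15_7_ok)))))))) (B (M (nat_lit 430) (B (M (nat_lit 431) (B (L (nat_lit 395) ln15_13_3 ln15_13_3_ok) (L (nat_lit 432) ln16_13_3 ln16_13_3_ok))) (M (nat_lit 462) (B (M (nat_lit 427) (B (L (nat_lit 463) ln11_13_0 ln11_13_0_ok) (M (nat_lit 426) (B (L (nat_lit 425) ln9_13_2 ln9_13_2_ok) (L (nat_lit 461) ln10_13_0 ln10_13_0_ok))))) (M (nat_lit 365) (B (L (nat_lit 333) ln13_10_4 ln13_10_4_ok) (M (nat_lit 494) (B (L (nat_lit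 398) ln14_15_7 ln14_15_7_ok) (L (nat_lit 526) ln14_16_7 ln14_16_7_ok))))))))) (B (M (nat_lit 427) (B (M (nat_lit 398) (B (L (nat_lit 399) ln15_12_1 ln15_12_1_ok) (L (nat_lit 426) ln10_13_2 ln10_13_2_ok))) (B (M (nat_lit 461) (B (M (nat_lit 364) (B (L (nat_lit 332) ln12_10_4 ln12_10_4_ok) (L (nat_lit 493) ln13_15_7 ln13_15_7_ok))) (M (nat_lit 426) (B (L (nat_lit 425) ln9_13_2 ln9_13_2_ok) (L (nat_lit 462) ln10_13_0 ln10_13_0_ok))))) (M (nat_lit 395) (B (M (nat_lit 430) (B (L (nat_lit 394) ln10_12_0 ln10_12_0_ok) (L (nat_lit 431) ln15_13_3 ln15_13_3_ok))) (M (nat_lit 363) (B (M (nat_lit 331) (B (L (nat_lit 299) ln11_9_4 ln11_9_4_ok) (L (nat_lit 460) ln11_10_4 ln11_10_4_ok))) (M (nat_lit 398) (B (L (nat_lit 362) ln14_12_3 ln14_12_3_ok) (L (nat_lit 399) ln15_12_1 ln15_12_1_ok)))))))))) (B (M (nat_lit 461) (B (M (nat_lit 364) (B (L (nat_lit 332) ln12_10_4 ln12_10_4_ok) (L (nat_lit 493)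 ln13_15_7 ln13_15_7_ok))) (B (M (nat_lit 493) (B (L (nat_lit 364) ln13_15_7 ln13_15_7_ok) (L (nat_lit 525) ln13_16_7 ln13_16_7_ok))) (B (M (nat_lit 493) (B (L (nat_lit 525) ln13_16_7 ln13_16_7_ok) (M (nat_lit 365) (B (M (nat_lit 333) (B (L (nat_lit 301) ln13_9_5 ln13_9_5_ok) (L (nat_lit 460) ln13_10_5 ln13_10_5_ok))) (M (nat_lit 494) (B (L (nat_lit 462) ln13_11_4 ln13_11_4_ok) (L (nat_lit 526) ln13_12_4 ln13_12_4_ok))))))) (M (nat_lit 430) (B (M (nat_lit 395) (B (L (nat_lit 394) ln10_12_0 ln10_12_0_ok) (L (nat_lit 431) ln15_13_3 ln15_13_3_ok))) (M (nat_lit 462) (B (M (nat_lit 365) (B (L (nat_lit 333) ln13_10_4 ln13_10_4_ok) (L (nat_lit 494) ln13_11_4 ln13_11_4_ok))) (M (nat_lit 463) (B (L (nat_lit 427) ln11_13_0 ln11_13_0_ok) (L (nat_lit 464) ln16_14_3 ln16_14_3_ok))))))))))) (B (M (nat_lit 365) (B (M (nat_lit 333) (B (L (nat_lit 301) ln13_9_5 ln13_9_5_ok) (L (nat_lit 460) ln13_10_5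 ln13_10_5_ok))) (B (M (nat_lit 460) (B (L (nat_lit 333) ln13_10_5 ln13_10_5_ok) (L (nat_lit 492) ln12_15_6 ln12_15_6_ok))) (B (M (nat_lit 364) (B (M (nat_lit 332) (B (L (nat_lit 300) ln12_9_4 ln12_9_4_ok) (L (nat_lit 461) ln13_14_7 ln13_14_7_ok))) (M (nat_lit 363) (B (M (nat_lit 460) (B (L (nat_lit 331) ln12_14_7 ln12_14_7_ok) (L (nat_lit 492) ln12_15_6 ln12_15_6_ok))) (M (nat_lit 398) (B (L (nat_lit 362) ln10_11_0 ln10_11_0_ok) (L (nat_lit 399) ln15_12_3 ln15_12_3_ok))))))) (M (nat_lit 430) (B (M (nat_lit 333) (B (L (nat_lit 301) ln13_9_5 ln13_9_5_ok) (L (nat_lit 462) ln13_10_4 ln13_10_4_ok))) (M (nat_lit 431) (B (L (nat_lit 395) ln15_13_3 ln15_13_3_ok) (L (nat_lit 432) ln16_13_3 ln16_13_3_ok))))))))) (B (M (nat_lit 461) (B (M (nat_lit 364) (B (L (nat_lit 332) ln12_10_4 ln12_10_4_ok) (L (nat_lit 493) ln13_15_7 ln13_15_7_ok))) (B (M (nat_lit 493) (B (L (nat_lit 364) ln13_15_7 ln13_15_7_ok)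 (L (nat_lit 525) ln13_16_7 ln13_16_7_ok))) (B (M (nat_lit 493) (B (L (nat_lit 525) ln13_16_7 ln13_16_7_ok) (M (nat_lit 365) (B (M (nat_lit 333) (B (L (nat_lit 301) ln13_9_5 ln13_9_5_ok) (L (nat_lit 460) ln13_10_5 ln13_10_5_ok))) (M (nat_lit 494) (B (L (nat_lit 462) ln13_11_4 ln13_11_4_ok) (L (nat_lit 526) ln13_12_4 ln13_12_4_ok))))))) (M (nat_lit 460) (B (M (nat_lit 365) (B (L (nat_lit 333) ln13_10_5 ln13_10_5_ok) (L (nat_lit 492) ln12_15_6 ln12_15_6_ok))) (B (M (nat_lit 492) (B (L (nat_lit 365) ln12_15_6 ln12_15_6_ok) (L (nat_lit 524) ln12_16_6 ln12_16_6_ok))) (B (M (nat_lit 492) (B (L (nat_lit 524) ln12_16_6 ln12_16_6_ok) (M (nat_lit 364) (B (L (nat_lit 332) ln12_10_4 ln12_10_4_ok) (M (nat_lit 363) (B (L (nat_lit 331) ln12_14_7 ln12_14_7_ok) (L (nat_lit 395) ln12_15_7 ln12_15_7_ok))))))) (M (nat_lit 462) (B (M (nat_lit 365) (B (L (nat_lit 333) ln13_10_5 ln13_10_5_ok) (L (nat_lit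 494) ln13_11_4 ln13_11_4_ok))) (M (nat_lit 463) (B (L (nat_lit 427) ln15_14_3 ln15_14_3_ok) (L (nat_lit 464) ln16_14_3 ln16_14_3_ok))))))))))))) (B (M (nat_lit 398) (B (M (nat_lit 399) (B (L (nat_lit 427) ln15_12_1 ln15_12_1_ok) (L (nat_lit 400) ln16_12_1 ln16_12_1_ok))) (B (M (nat_lit 430) (B (M (nat_lit 395) (B (L (nat_lit 394) ln10_12_0 ln10_12_0_ok) (L (nat_lit 431) ln11_12_0 ln11_12_0_ok))) (M (nat_lit 462) (B (M (nat_lit 494) (B (L (nat_lit 365) ln14_15_7 ln14_15_7_ok) (L (nat_lit 526) ln14_16_7 ln14_16_7_ok))) (M (nat_lit 427) (B (L (nat_lit 426) ln10_13_2 ln10_13_2_ok) (L (nat_lit 463) ln11_13_0 ln11_13_0_ok))))))) (M (nat_lit 399) (B (L (nat_lit 400) ln16_12_1 ln16_12_1_ok) (M (nat_lit 395) (B (M (nat_lit 363) (B (L (nat_lit 362) ln14_12_3 ln14_12_3_ok) (L (nat_lit 364) ln15_12_3 ln15_12_3_ok))) (M (nat_lit 431) (B (L (nat_lit 430) ln11_12_0 ln11_12_0_ok) (L (nat_lit 432)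 ln12_12_0 ln12_12_0_ok)))))))))) (M (nat_lit 364) (B (M (nat_lit 332) (B (L (nat_lit 300) ln12_9_4 ln12_9_4_ok) (L (nat_lit 461) ln12_10_4 ln12_10_4_ok))) (M (nat_lit 363) (B (M (nat_lit 398) (B (L (nat_lit 399) ln15_12_3 ln15_12_3_ok) (M (nat_lit 362) (B (L (nat_lit 361) ln9_11_0 ln9_11_0_ok) (L (nat_lit 365) ln10_11_0 ln10_11_0_ok))))) (B (M (nat_lit 398) (B (L (nat_lit 399) ln15_12_3 ln15_12_3_ok) (M (nat_lit 362) (B (L (nat_lit 365) ln10_11_0 ln10_11_0_ok) (L (nat_lit 395) ln14_12_3 ln14_12_3_ok))))) (B (M (nat_lit 460) (B (L (nat_lit 331) ln12_14_7 ln12_14_7_ok) (M (nat_lit 492) (B (L (nat_lit 395) ln12_15_7 ln12_15_7_ok) (L (nat_lit 365) ln12_15_6 ln12_15_6_ok))))) (M (nat_lit 398) (B (L (nat_lit 399) ln15_12_3 ln15_12_3_ok) (M (nat_lit 362) (B (L (nat_lit 361) ln9_11_0 ln9_11_0_ok) (L (nat_lit 395) ln14_12_3 ln14_12_3_ok))))))))))))))))))))) (nat_lit 1386334847544579281930502452632026696468783264124728123740719198963059283254184240648144927045128292788721448874933630659377233920)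 (nat_lit 384428669056820918565937647883598533256713797189145477076687207308974105597208541715937922929007423329568749812062437211949691988266089829572716838773495693312) (nat_lit 384428669056820918565937647883598533256713797189145477076687207308974105597208541715937922929007423329568749812062437211949691988266089829572716838773495693312) (by decide +kernel)
theorem c41_s7782 : Sem (nat_lit 1386334847221798047169638878925036799968406779833514899637066259859226863686603287896039777716422623628704219945445734162783797248) (nat_lit 1179363258141160341734600181621526109733048592668201185556669291474807236878758455067692907945214142750680727130951711398902406040619328051210851243482040287056317382656) (nat_lit 1179363258141160341734600181621526109733048592668201185556669291474807236878758455067692907945214142750680727130951711398902406040619328051210851243482040287056317382656) :=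
  sem_of_chk (M (nat_lit 397) (B (M (nat_lit 461) (B (M (nat_lit 364) (B (L (nat_lit 493) ln13_15_7 ln13_15_7_ok) (M (nat_lit 332) (B (L (nat_lit 300) ln12_9_4 ln12_9_4_ok) (L (nat_lit 428) ln12_10_4 ln12_10_4_ok))))) (B (M (nat_lit 364) (B (L (nat_lit 493) ln13_15_7 ln13_15_7_ok) (M (nat_lit 332) (B (L (nat_lit 365) ln13_14_7 ln13_14_7_ok) (L (nat_lit 428) ln12_10_4 ln12_10_4_ok))))) (B (M (nat_lit 493) (B (L (nat_lit 364) ln13_15_7 ln13_15_7_ok) (M (nat_lit 525) (B (L (nat_lit 428) ln13_16_7 ln13_16_7_ok) (M (nat_lit 398) (B (L (nat_lit 366) ln13_15_6 ln13_15_6_ok) (L (nat_lit 430) ln13_16_6 ln13_16_6_ok))))))) (B (M (nat_lit 493) (B (M (nat_lit 525) (B (L (nat_lit 428) ln13_16_7 ln13_16_7_ok) (M (nat_lit 398) (B (L (nat_lit 366) ln13_15_6 ln13_15_6_ok) (L (nat_lit 430) ln13_16_6 ln13_16_6_ok))))) (B (M (nat_lit 525) (B (L (nat_lit 428) ln13_16_7 ln13_16_7_ok) (M (nat_lit 524) (B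 (L (nat_lit 492) ln13_12_5 ln13_12_5_ok) (L (nat_lit 556) ln13_13_5 ln13_13_5_ok))))) (M (nat_lit 365) (B (M (nat_lit 366) (B (L (nat_lit 334) ln13_14_6 ln13_14_6_ok) (L (nat_lit 398) ln13_15_6 ln13_15_6_ok))) (M (nat_lit 492) (B (L (nat_lit 460) ln13_11_5 ln13_11_5_ok) (L (nat_lit 524) ln13_12_5 ln13_12_5_ok)))))))) (B (M (nat_lit 364) (B (L (nat_lit 493) ln13_15_7 ln13_15_7_ok) (M (nat_lit 332) (B (L (nat_lit 300) ln12_9_4 ln12_9_4_ok) (L (nat_lit 365) ln13_14_7 ln13_14_7_ok))))) (M (nat_lit 364) (B (M (nat_lit 332) (B (L (nat_lit 300) ln12_9_4 ln12_9_4_ok) (L (nat_lit 365) ln13_14_7 ln13_14_7_ok))) (B (M (nat_lit 332) (B (L (nat_lit 365) ln13_14_7 ln13_14_7_ok) (L (nat_lit 428) ln12_10_4 ln12_10_4_ok))) (B (M (nat_lit 365) (B (M (nat_lit 366) (B (L (nat_lit 334) ln13_14_6 ln13_14_6_ok) (M (nat_lit 367) (B (L (nat_lit 395) ln15_11_1 ln15_11_1_ok) (L (nat_lit 368) ln16_11_1 ln16_11_1_ok)))))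 (M (nat_lit 333) (B (M (nat_lit 460) (B (L (nat_lit 428) ln12_14_6 ln12_14_6_ok) (L (nat_lit 492) ln13_11_5 ln13_11_5_ok))) (M (nat_lit 462) (B (L (nat_lit 430) ln13_10_4 ln13_10_4_ok) (L (nat_lit 494) ln13_11_4 ln13_11_4_ok))))))) (M (nat_lit 332) (B (L (nat_lit 300) ln12_9_4 ln12_9_4_ok) (L (nat_lit 428) ln12_10_4 ln12_10_4_ok))))))))))))) (B (M (nat_lit 366) (B (M (nat_lit 398) (B (M (nat_lit 461) (B (L (nat_lit 493) ln13_15_6 ln13_15_6_ok) (M (nat_lit 334) (B (L (nat_lit 302) ln14_9_5 ln14_9_5_ok) (L (nat_lit 430) ln14_10_5 ln14_10_5_ok))))) (B (M (nat_lit 395) (B (L (nat_lit 367) ln11_12_2 ln11_12_2_ok) (M (nat_lit 430) (B (L (nat_lit 394) ln10_12_0 ln10_12_0_ok) (L (nat_lit 431) ln11_12_0 ln11_12_0_ok))))) (M (nat_lit 367) (B (L (nat_lit 395) ln11_12_2 ln11_12_2_ok) (M (nat_lit 368) (B (L (nat_lit 369) ln17_11_1 ln17_11_1_ok) (L (nat_lit 399) ln12_12_2 ln12_12_2_ok)))))))) (B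 (M (nat_lit 398) (B (M (nat_lit 367) (B (L (nat_lit 395) ln11_12_2 ln11_12_2_ok) (M (nat_lit 368) (B (L (nat_lit 369) ln17_11_1 ln17_11_1_ok) (L (nat_lit 399) ln12_12_2 ln12_12_2_ok))))) (M (nat_lit 461) (B (L (nat_lit 493) ln13_15_6 ln13_15_6_ok) (M (nat_lit 334) (B (L (nat_lit 365) ln13_14_6 ln13_14_6_ok) (L (nat_lit 430) ln14_10_5 ln14_10_5_ok))))))) (B (M (nat_lit 395) (B (M (nat_lit 394) (B (L (nat_lit 365) ln10_12_2 ln10_12_2_ok) (L (nat_lit 430) ln10_12_0 ln10_12_0_ok))) (B (M (nat_lit 430) (B (L (nat_lit 394) ln10_12_0 ln10_12_0_ok) (M (nat_lit 398) (B (L (nat_lit 367) ln11_12_2 ln11_12_2_ok) (L (nat_lit 431) ln11_12_0 ln11_12_0_ok))))) (M (nat_lit 367) (B (L (nat_lit 398) ln11_12_2 ln11_12_2_ok) (M (nat_lit 365) (B (L (nat_lit 364) ln15_11_1 ln15_11_1_ok) (L (nat_lit 368) ln16_11_1 ln16_11_1_ok)))))))) (B (M (nat_lit 461) (B (M (nat_lit 493) (B (L (nat_lit 364) ln13_15_7 ln13_15_7_ok)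 (L (nat_lit 398) ln13_15_6 ln13_15_6_ok))) (B (M (nat_lit 398) (B (L (nat_lit 493) ln13_15_6 ln13_15_6_ok) (M (nat_lit 334) (B (L (nat_lit 365) ln13_14_6 ln13_14_6_ok) (L (nat_lit 430) ln14_10_5 ln14_10_5_ok))))) (B (M (nat_lit 365) (B (L (nat_lit 334) ln13_14_6 ln13_14_6_ok) (M (nat_lit 364) (B (L (nat_lit 332) ln13_14_7 ln13_14_7_ok) (L (nat_lit 493) ln13_15_7 ln13_15_7_ok))))) (M (nat_lit 334) (B (L (nat_lit 365) ln13_14_6 ln13_14_6_ok) (M (nat_lit 398) (B (L (nat_lit 302) ln14_9_5 ln14_9_5_ok) (L (nat_lit 430) ln14_10_5 ln14_10_5_ok))))))))) (M (nat_lit 365) (B (M (nat_lit 395) (B (L (nat_lit 394) ln10_12_2 ln10_12_2_ok) (M (nat_lit 367) (B (L (nat_lit 364) ln15_11_1 ln15_11_1_ok) (L (nat_lit 368) ln16_11_1 ln16_11_1_ok))))) (M (nat_lit 334) (B (L (nat_lit 461) ln13_14_6 ln13_14_6_ok) (M (nat_lit 302) (B (L (nat_lit 270) ln14_8_5 ln14_8_5_ok) (L (nat_lit 333) ln13_13_6 ln13_13_6_ok))))))))))))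 (B (M (nat_lit 366) (B (M (nat_lit 395) (B (M (nat_lit 394) (B (L (nat_lit 365) ln10_12_2 ln10_12_2_ok) (L (nat_lit 430) ln10_12_0 ln10_12_0_ok))) (B (M (nat_lit 430) (B (L (nat_lit 394) ln10_12_0 ln10_12_0_ok) (M (nat_lit 398) (B (L (nat_lit 367) ln11_12_2 ln11_12_2_ok) (L (nat_lit 431) ln11_12_0 ln11_12_0_ok))))) (M (nat_lit 367) (B (L (nat_lit 398) ln11_12_2 ln11_12_2_ok) (M (nat_lit 365) (B (L (nat_lit 364) ln15_11_1 ln15_11_1_ok) (L (nat_lit 368) ln16_11_1 ln16_11_1_ok)))))))) (B (M (nat_lit 398) (B (M (nat_lit 367) (B (L (nat_lit 395) ln11_12_2 ln11_12_2_ok) (M (nat_lit 368) (B (L (nat_lit 369) ln17_11_1 ln17_11_1_ok) (L (nat_lit 399) ln12_12_2 ln12_12_2_ok))))) (M (nat_lit 461) (B (L (nat_lit 493) ln13_15_6 ln13_15_6_ok) (M (nat_lit 334) (B (L (nat_lit 365) ln13_14_6 ln13_14_6_ok) (L (nat_lit 430) ln14_10_5 ln14_10_5_ok))))))) (B (M (nat_lit 398) (B (M (nat_lit 461) (B (L (nat_lit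 493) ln13_15_6 ln13_15_6_ok) (M (nat_lit 334) (B (L (nat_lit 302) ln14_9_5 ln14_9_5_ok) (L (nat_lit 430) ln14_10_5 ln14_10_5_ok))))) (B (M (nat_lit 395) (B (L (nat_lit 367) ln11_12_2 ln11_12_2_ok) (M (nat_lit 430) (B (L (nat_lit 394) ln10_12_0 ln10_12_0_ok) (L (nat_lit 431) ln11_12_0 ln11_12_0_ok))))) (M (nat_lit 367) (B (L (nat_lit 395) ln11_12_2 ln11_12_2_ok) (M (nat_lit 368) (B (L (nat_lit 369) ln17_11_1 ln17_11_1_ok) (L (nat_lit 399) ln12_12_2 ln12_12_2_ok)))))))) (B (M (nat_lit 461) (B (M (nat_lit 493) (B (L (nat_lit 364) ln13_15_7 ln13_15_7_ok) (L (nat_lit 398) ln13_15_6 ln13_15_6_ok))) (B (M (nat_lit 398) (B (L (nat_lit 493) ln13_15_6 ln13_15_6_ok) (M (nat_lit 334) (B (L (nat_lit 365) ln13_14_6 ln13_14_6_ok) (L (nat_lit 430) ln14_10_5 ln14_10_5_ok))))) (B (M (nat_lit 492) (B (M (nat_lit 365) (B (L (nat_lit 334) ln13_14_6 ln13_14_6_ok) (L (nat_lit 460) ln13_11_5 ln13_11_5_ok)))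 (M (nat_lit 493) (B (L (nat_lit 364) ln13_15_7 ln13_15_7_ok) (L (nat_lit 524) ln13_12_5 ln13_12_5_ok))))) (M (nat_lit 334) (B (L (nat_lit 365) ln13_14_6 ln13_14_6_ok) (M (nat_lit 398) (B (L (nat_lit 302) ln14_9_5 ln14_9_5_ok) (L (nat_lit 430) ln14_10_5 ln14_10_5_ok))))))))) (M (nat_lit 365) (B (M (nat_lit 395) (B (L (nat_lit 394) ln10_12_2 ln10_12_2_ok) (M (nat_lit 367) (B (L (nat_lit 364) ln15_11_1 ln15_11_1_ok) (L (nat_lit 368) ln16_11_1 ln16_11_1_ok))))) (M (nat_lit 334) (B (L (nat_lit 461) ln13_14_6 ln13_14_6_ok) (M (nat_lit 302) (B (L (nat_lit 270) ln14_8_5 ln14_8_5_ok) (L (nat_lit 333) ln13_13_6 ln13_13_6_ok)))))))))))) (B (M (nat_lit 398) (B (M (nat_lit 364) (B (M (nat_lit 399) (B (L (nat_lit 363) ln15_12_3 ln15_12_3_ok) (M (nat_lit 400) (B (L (nat_lit 365) ln16_12_3 ln16_12_3_ok) (L (nat_lit 428) ln16_12_1 ln16_12_1_ok))))) (B (M (nat_lit 461) (B (L (nat_lit 493) ln13_15_7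 ln13_15_7_ok) (M (nat_lit 332) (B (L (nat_lit 300) ln12_9_4 ln12_9_4_ok) (L (nat_lit 428) ln12_10_4 ln12_10_4_ok))))) (M (nat_lit 461) (B (L (nat_lit 493) ln13_15_7 ln13_15_7_ok) (M (nat_lit 332) (B (L (nat_lit 300) ln12_9_4 ln12_9_4_ok) (L (nat_lit 365) ln13_14_7 ln13_14_7_ok)))))))) (B (M (nat_lit 364) (B (M (nat_lit 363) (B (L (nat_lit 399) ln15_12_3 ln15_12_3_ok) (M (nat_lit 362) (B (L (nat_lit 361) ln9_11_0 ln9_11_0_ok) (L (nat_lit 365) ln10_11_0 ln10_11_0_ok))))) (B (M (nat_lit 363) (B (L (nat_lit 399) ln15_12_3 ln15_12_3_ok) (M (nat_lit 362) (B (L (nat_lit 365) ln10_11_0 ln10_11_0_ok) (L (nat_lit 395) ln14_12_3 ln14_12_3_ok))))) (B (M (nat_lit 461) (B (L (nat_lit 493) ln13_15_7 ln13_15_7_ok) (M (nat_lit 332) (B (L (nat_lit 365) ln13_14_7 ln13_14_7_ok) (L (nat_lit 428) ln12_10_4 ln12_10_4_ok))))) (M (nat_lit 363) (B (L (nat_lit 399) ln15_12_3 ln15_12_3_ok) (M (nat_lit 362) (B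 (L (nat_lit 361) ln9_11_0 ln9_11_0_ok) (L (nat_lit 395) ln14_12_3 ln14_12_3_ok))))))))) (B (M (nat_lit 395) (B (M (nat_lit 430) (B (L (nat_lit 394) ln10_12_0 ln10_12_0_ok) (L (nat_lit 431) ln11_12_0 ln11_12_0_ok))) (B (M (nat_lit 399) (B (M (nat_lit 363) (B (L (nat_lit 362) ln14_12_3 ln14_12_3_ok) (L (nat_lit 364) ln15_12_3 ln15_12_3_ok))) (M (nat_lit 431) (B (L (nat_lit 430) ln11_12_0 ln11_12_0_ok) (L (nat_lit 432) ln12_12_0 ln12_12_0_ok))))) (M (nat_lit 394) (B (M (nat_lit 362) (B (L (nat_lit 361) ln13_12_3 ln13_12_3_ok) (L (nat_lit 363) ln14_12_3 ln14_12_3_ok))) (M (nat_lit 426) (B (L (nat_lit 425) ln13_12_1 ln13_12_1_ok) (L (nat_lit 427) ln14_12_1 ln14_12_1_ok)))))))) (B (M (nat_lit 395) (B (M (nat_lit 430) (B (L (nat_lit 394) ln10_12_0 ln10_12_0_ok) (L (nat_lit 431) ln11_12_0 ln11_12_0_ok))) (B (M (nat_lit 399) (B (M (nat_lit 427) (B (L (nat_lit 426) ln14_12_1 ln14_12_1_ok) (L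 (nat_lit 428) ln15_12_1 ln15_12_1_ok))) (M (nat_lit 431) (B (L (nat_lit 430) ln11_12_0 ln11_12_0_ok) (L (nat_lit 432) ln12_12_0 ln12_12_0_ok))))) (M (nat_lit 394) (B (M (nat_lit 366) (B (L (nat_lit 365) ln10_12_2 ln10_12_2_ok) (L (nat_lit 367) ln11_12_2 ln11_12_2_ok))) (M (nat_lit 426) (B (L (nat_lit 425) ln13_12_1 ln13_12_1_ok) (L (nat_lit 427) ln14_12_1 ln14_12_1_ok)))))))) (M (nat_lit 366) (B (M (nat_lit 395) (B (L (nat_lit 367) ln11_12_2 ln11_12_2_ok) (M (nat_lit 430) (B (L (nat_lit 394) ln10_12_0 ln10_12_0_ok) (L (nat_lit 431) ln11_12_0 ln11_12_0_ok))))) (B (M (nat_lit 461) (B (L (nat_lit 493) ln13_15_6 ln13_15_6_ok) (M (nat_lit 334) (B (L (nat_lit 302) ln14_9_5 ln14_9_5_ok) (L (nat_lit 430) ln14_10_5 ln14_10_5_ok))))) (M (nat_lit 461) (B (L (nat_lit 493) ln13_15_6 ln13_15_6_ok) (M (nat_lit 334) (B (L (nat_lit 302) ln14_9_5 ln14_9_5_ok) (L (nat_lit 365) ln13_14_6 ln13_14_6_ok)))))))))))))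 (B (K (nat_lit 1386334847544579281930502452632026696468783264124728123740719198963059283254184240648144927045128292788721448874933630659377233920) (nat_lit 164755143932641407686516822312993950304091867585607153967981506234675432074651592362225568844653988232630719620838414979962903738059966980849954775010056863744) (nat_lit 164755143932641407686516822312993950304091867585607153967981506234675432074651592362225568844653988232630719620838414979962903738059966980849954775010056863744) c41_s7764) (B (M (nat_lit 395) (B (M (nat_lit 430) (B (L (nat_lit 394) ln10_12_0 ln10_12_0_ok) (M (nat_lit 431) (B (L (nat_lit 428) ln15_13_3 ln15_13_3_ok) (L (nat_lit 432) ln16_13_3 ln16_13_3_ok))))) (B (M (nat_lit 398) (B (M (nat_lit 399) (B (M (nat_lit 367) (B (L (nat_lit 366) ln11_12_2 ln11_12_2_ok) (L (nat_lit 368) ln12_12_2 ln12_12_2_ok))) (M (nat_lit 427) (B (L (nat_lit 426) ln14_12_1 ln14_12_1_ok)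 (L (nat_lit 428) ln15_12_1 ln15_12_1_ok))))) (B (M (nat_lit 399) (B (M (nat_lit 427) (B (L (nat_lit 426) ln14_12_1 ln14_12_1_ok) (L (nat_lit 428) ln15_12_1 ln15_12_1_ok))) (M (nat_lit 431) (B (L (nat_lit 430) ln11_12_0 ln11_12_0_ok) (L (nat_lit 432) ln12_12_0 ln12_12_0_ok))))) (M (nat_lit 430) (B (L (nat_lit 431) ln11_12_0 ln11_12_0_ok) (M (nat_lit 366) (B (L (nat_lit 367) ln11_12_2 ln11_12_2_ok) (M (nat_lit 461) (B (L (nat_lit 334) ln14_10_5 ln14_10_5_ok) (L (nat_lit 493) ln13_15_6 ln13_15_6_ok)))))))))) (B (M (nat_lit 430) (B (L (nat_lit 394) ln10_12_0 ln10_12_0_ok) (M (nat_lit 431) (B (L (nat_lit 398) ln11_12_0 ln11_12_0_ok) (L (nat_lit 432) ln16_13_3 ln16_13_3_ok))))) (M (nat_lit 398) (B (M (nat_lit 399) (B (M (nat_lit 367) (B (L (nat_lit 366) ln11_12_2 ln11_12_2_ok) (L (nat_lit 368) ln12_12_2 ln12_12_2_ok))) (M (nat_lit 427) (B (L (nat_lit 426) ln14_12_1 ln14_12_1_ok) (L (nat_lit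 428) ln15_12_1 ln15_12_1_ok))))) (B (M (nat_lit 394) (B (M (nat_lit 362) (B (L (nat_lit 361) ln13_12_3 ln13_12_3_ok) (L (nat_lit 363) ln14_12_3 ln14_12_3_ok))) (M (nat_lit 426) (B (L (nat_lit 425) ln13_12_1 ln13_12_1_ok) (L (nat_lit 427) ln14_12_1 ln14_12_1_ok))))) (M (nat_lit 394) (B (M (nat_lit 362) (B (L (nat_lit 361) ln13_12_3 ln13_12_3_ok) (L (nat_lit 363) ln14_12_3 ln14_12_3_ok))) (M (nat_lit 366) (B (L (nat_lit 365) ln10_12_2 ln10_12_2_ok) (L (nat_lit 367) ln11_12_2 ln11_12_2_ok)))))))))))) (B (M (nat_lit 395) (B (M (nat_lit 430) (B (L (nat_lit 394) ln10_12_0 ln10_12_0_ok) (M (nat_lit 431) (B (L (nat_lit 398) ln11_12_0 ln11_12_0_ok) (L (nat_lit 432) ln16_13_3 ln16_13_3_ok))))) (B (M (nat_lit 430) (B (M (nat_lit 431) (B (L (nat_lit 398) ln11_12_0 ln11_12_0_ok) (L (nat_lit 428) ln15_13_3 ln15_13_3_ok))) (B (M (nat_lit 431) (B (L (nat_lit 428) ln15_13_3 ln15_13_3_ok) (L (nat_lit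 432) ln16_13_3 ln16_13_3_ok))) (B (M (nat_lit 431) (B (L (nat_lit 398) ln11_12_0 ln11_12_0_ok) (L (nat_lit 432) ln16_13_3 ln16_13_3_ok))) (M (nat_lit 398) (B (M (nat_lit 366) (B (L (nat_lit 367) ln11_12_2 ln11_12_2_ok) (M (nat_lit 461) (B (L (nat_lit 334) ln14_10_5 ln14_10_5_ok) (L (nat_lit 493) ln13_15_6 ln13_15_6_ok))))) (M (nat_lit 399) (B (M (nat_lit 363) (B (L (nat_lit 362) ln14_12_3 ln14_12_3_ok) (L (nat_lit 364) ln15_12_3 ln15_12_3_ok))) (M (nat_lit 400) (B (L (nat_lit 428) ln16_12_1 ln16_12_1_ok) (L (nat_lit 401) ln17_12_1 ln17_12_1_ok))))))))))) (B (M (nat_lit 430) (B (L (nat_lit 394) ln10_12_0 ln10_12_0_ok) (M (nat_lit 431) (B (L (nat_lit 428) ln15_13_3 ln15_13_3_ok) (L (nat_lit 432) ln16_13_3 ln16_13_3_ok))))) (M (nat_lit 398) (B (M (nat_lit 399) (B (M (nat_lit 367) (B (L (nat_lit 366) ln11_12_2 ln11_12_2_ok) (L (nat_lit 368) ln12_12_2 ln12_12_2_ok))) (M (nat_lit 427) (B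 (L (nat_lit 426) ln14_12_1 ln14_12_1_ok) (L (nat_lit 428) ln15_12_1 ln15_12_1_ok))))) (B (M (nat_lit 399) (B (M (nat_lit 363) (B (L (nat_lit 362) ln14_12_3 ln14_12_3_ok) (L (nat_lit 364) ln15_12_3 ln15_12_3_ok))) (M (nat_lit 427) (B (L (nat_lit 426) ln14_12_1 ln14_12_1_ok) (L (nat_lit 428) ln15_12_1 ln15_12_1_ok))))) (B (M (nat_lit 394) (B (M (nat_lit 362) (B (L (nat_lit 361) ln13_12_3 ln13_12_3_ok) (L (nat_lit 363) ln14_12_3 ln14_12_3_ok))) (M (nat_lit 426) (B (L (nat_lit 425) ln13_12_1 ln13_12_1_ok) (L (nat_lit 427) ln14_12_1 ln14_12_1_ok))))) (M (nat_lit 399) (B (M (nat_lit 363) (B (L (nat_lit 362) ln14_12_3 ln14_12_3_ok) (L (nat_lit 364) ln15_12_3 ln15_12_3_ok))) (M (nat_lit 367) (B (L (nat_lit 366) ln11_12_2 ln11_12_2_ok) (L (nat_lit 368) ln12_12_2 ln12_12_2_ok))))))))))))) (B (K (nat_lit 1386334847544579281930502452632026696468783264124728123740719198963059283254184240648144927045128292788721448874933630659377233920)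 (nat_lit 384428669056820918565937647883598533256713797189145477076687207308974105597208541715937922929007423329568749812062437211949691988266089829572716838773495693312) (nat_lit 384428669056820918565937647883598533256713797189145477076687207308974105597208541715937922929007423329568749812062437211949691988266089829572716838773495693312) c41_s7778) (B (M (nat_lit 461) (B (M (nat_lit 364) (B (L (nat_lit 493) ln13_15_7 ln13_15_7_ok) (M (nat_lit 332) (B (L (nat_lit 365) ln13_14_7 ln13_14_7_ok) (L (nat_lit 428) ln12_10_4 ln12_10_4_ok))))) (B (M (nat_lit 493) (B (L (nat_lit 364) ln13_15_7 ln13_15_7_ok) (M (nat_lit 525) (B (L (nat_lit 428) ln13_16_7 ln13_16_7_ok) (M (nat_lit 524) (B (L (nat_lit 492) ln13_12_5 ln13_12_5_ok) (L (nat_lit 556) ln13_13_5 ln13_13_5_ok))))))) (B (M (nat_lit 493) (B (M (nat_lit 525) (B (L (nat_lit 428) ln13_16_7 ln13_16_7_ok) (M (nat_lit 524) (B (L (nat_lit 492)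 ln13_12_5 ln13_12_5_ok) (L (nat_lit 556) ln13_13_5 ln13_13_5_ok))))) (B (M (nat_lit 365) (B (M (nat_lit 492) (B (L (nat_lit 460) ln13_11_5 ln13_11_5_ok) (L (nat_lit 524) ln13_12_5 ln13_12_5_ok))) (M (nat_lit 494) (B (L (nat_lit 462) ln13_11_4 ln13_11_4_ok) (L (nat_lit 526) ln13_12_4 ln13_12_4_ok))))) (M (nat_lit 525) (B (L (nat_lit 428) ln13_16_7 ln13_16_7_ok) (M (nat_lit 526) (B (L (nat_lit 494) ln13_12_4 ln13_12_4_ok) (L (nat_lit 558) ln13_13_4 ln13_13_4_ok)))))))) (B (M (nat_lit 364) (B (L (nat_lit 493) ln13_15_7 ln13_15_7_ok) (M (nat_lit 332) (B (L (nat_lit 300) ln12_9_4 ln12_9_4_ok) (L (nat_lit 365) ln13_14_7 ln13_14_7_ok))))) (M (nat_lit 365) (B (M (nat_lit 460) (B (L (nat_lit 492) ln13_11_5 ln13_11_5_ok) (M (nat_lit 462) (B (L (nat_lit 494) ln13_11_4 ln13_11_4_ok) (M (nat_lit 333) (B (L (nat_lit 428) ln13_10_5 ln13_10_5_ok) (L (nat_lit 430) ln13_10_4 ln13_10_4_ok))))))) (B (M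 (nat_lit 428) (B (M (nat_lit 460) (B (L (nat_lit 492) ln12_15_6 ln12_15_6_ok) (M (nat_lit 462) (B (L (nat_lit 494) ln13_11_4 ln13_11_4_ok) (M (nat_lit 427) (B (L (nat_lit 426) ln10_13_0 ln10_13_0_ok) (L (nat_lit 463) ln15_14_3 ln15_14_3_ok))))))) (B (M (nat_lit 460) (B (L (nat_lit 492) ln12_15_6 ln12_15_6_ok) (M (nat_lit 462) (B (L (nat_lit 494) ln13_11_4 ln13_11_4_ok) (M (nat_lit 463) (B (L (nat_lit 427) ln15_14_3 ln15_14_3_ok) (L (nat_lit 464) ln16_14_3 ln16_14_3_ok))))))) (B (M (nat_lit 364) (B (L (nat_lit 332) ln13_14_7 ln13_14_7_ok) (M (nat_lit 363) (B (M (nat_lit 460) (B (L (nat_lit 331) ln12_14_7 ln12_14_7_ok) (L (nat_lit 492) ln12_15_6 ln12_15_6_ok))) (M (nat_lit 362) (B (L (nat_lit 361) ln9_11_0 ln9_11_0_ok) (L (nat_lit 398) ln10_11_0 ln10_11_0_ok))))))) (M (nat_lit 462) (B (L (nat_lit 494) ln13_11_4 ln13_11_4_ok) (M (nat_lit 427) (B (L (nat_lit 426) ln10_13_0 ln10_13_0_ok)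 (M (nat_lit 463) (B (L (nat_lit 430) ln11_13_0 ln11_13_0_ok) (L (nat_lit 464) ln16_14_3 ln16_14_3_ok))))))))))) (B (M (nat_lit 333) (B (M (nat_lit 332) (B (L (nat_lit 300) ln13_13_7 ln13_13_7_ok) (L (nat_lit 364) ln13_14_7 ln13_14_7_ok))) (M (nat_lit 462) (B (L (nat_lit 430) ln13_10_4 ln13_10_4_ok) (L (nat_lit 494) ln13_11_4 ln13_11_4_ok))))) (M (nat_lit 333) (B (M (nat_lit 332) (B (L (nat_lit 300) ln13_13_7 ln13_13_7_ok) (L (nat_lit 364) ln13_14_7 ln13_14_7_ok))) (M (nat_lit 460) (B (L (nat_lit 428) ln13_10_5 ln13_10_5_ok) (L (nat_lit 492) ln13_11_5 ln13_11_5_ok)))))))))))))) (B (M (nat_lit 461) (B (M (nat_lit 364) (B (L (nat_lit 493) ln13_15_7 ln13_15_7_ok) (M (nat_lit 332) (B (L (nat_lit 300) ln12_9_4 ln12_9_4_ok) (L (nat_lit 365) ln13_14_7 ln13_14_7_ok))))) (B (M (nat_lit 364) (B (L (nat_lit 493) ln13_15_7 ln13_15_7_ok) (M (nat_lit 332) (B (L (nat_lit 365) ln13_14_7 ln13_14_7_ok)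 (L (nat_lit 428) ln12_10_4 ln12_10_4_ok))))) (B (M (nat_lit 493) (B (L (nat_lit 364) ln13_15_7 ln13_15_7_ok) (M (nat_lit 525) (B (L (nat_lit 428) ln13_16_7 ln13_16_7_ok) (M (nat_lit 524) (B (L (nat_lit 492) ln13_12_5 ln13_12_5_ok) (L (nat_lit 556) ln13_13_5 ln13_13_5_ok))))))) (B (M (nat_lit 493) (B (M (nat_lit 525) (B (L (nat_lit 428) ln13_16_7 ln13_16_7_ok) (M (nat_lit 524) (B (L (nat_lit 492) ln13_12_5 ln13_12_5_ok) (L (nat_lit 556) ln13_13_5 ln13_13_5_ok))))) (B (M (nat_lit 365) (B (M (nat_lit 492) (B (L (nat_lit 460) ln13_11_5 ln13_11_5_ok) (L (nat_lit 524) ln13_12_5 ln13_12_5_ok))) (M (nat_lit 494) (B (L (nat_lit 462) ln13_11_4 ln13_11_4_ok) (L (nat_lit 526) ln13_12_4 ln13_12_4_ok))))) (M (nat_lit 525) (B (L (nat_lit 428) ln13_16_7 ln13_16_7_ok) (M (nat_lit 526) (B (L (nat_lit 494) ln13_12_4 ln13_12_4_ok) (L (nat_lit 558) ln13_13_4 ln13_13_4_ok)))))))) (M (nat_lit 365) (B (M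 (nat_lit 364) (B (L (nat_lit 332) ln13_14_7 ln13_14_7_ok) (M (nat_lit 366) (B (L (nat_lit 334) ln13_14_6 ln13_14_6_ok) (M (nat_lit 367) (B (L (nat_lit 395) ln15_11_1 ln15_11_1_ok) (L (nat_lit 368) ln16_11_1 ln16_11_1_ok))))))) (B (M (nat_lit 333) (B (M (nat_lit 334) (B (L (nat_lit 302) ln13_13_6 ln13_13_6_ok) (L (nat_lit 366) ln13_14_6 ln13_14_6_ok))) (M (nat_lit 460) (B (L (nat_lit 428) ln13_10_5 ln13_10_5_ok) (L (nat_lit 492) ln13_11_5 ln13_11_5_ok))))) (M (nat_lit 333) (B (M (nat_lit 332) (B (L (nat_lit 300) ln13_13_7 ln13_13_7_ok) (L (nat_lit 364) ln13_14_7 ln13_14_7_ok))) (M (nat_lit 460) (B (L (nat_lit 428) ln13_10_5 ln13_10_5_ok) (L (nat_lit 492) ln13_11_5 ln13_11_5_ok))))))))))))) (M (nat_lit 395) (B (M (nat_lit 430) (B (L (nat_lit 394) ln10_12_0 ln10_12_0_ok) (M (nat_lit 431) (B (L (nat_lit 428) ln15_13_3 ln15_13_3_ok) (L (nat_lit 432) ln16_13_3 ln16_13_3_ok))))) (B (M (nat_lit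 430) (B (M (nat_lit 431) (B (L (nat_lit 398) ln11_12_0 ln11_12_0_ok) (L (nat_lit 428) ln15_13_3 ln15_13_3_ok))) (B (M (nat_lit 431) (B (L (nat_lit 428) ln15_13_3 ln15_13_3_ok) (L (nat_lit 432) ln16_13_3 ln16_13_3_ok))) (B (M (nat_lit 431) (B (L (nat_lit 398) ln11_12_0 ln11_12_0_ok) (L (nat_lit 432) ln16_13_3 ln16_13_3_ok))) (M (nat_lit 398) (B (M (nat_lit 363) (B (L (nat_lit 362) ln14_12_3 ln14_12_3_ok) (M (nat_lit 399) (B (L (nat_lit 364) ln15_12_3 ln15_12_3_ok) (M (nat_lit 367) (B (L (nat_lit 366) ln11_12_2 ln11_12_2_ok) (L (nat_lit 368) ln12_12_2 ln12_12_2_ok))))))) (B (M (nat_lit 399) (B (M (nat_lit 367) (B (L (nat_lit 366) ln11_12_2 ln11_12_2_ok) (L (nat_lit 368) ln12_12_2 ln12_12_2_ok))) (M (nat_lit 427) (B (L (nat_lit 426) ln14_12_1 ln14_12_1_ok) (L (nat_lit 428) ln15_12_1 ln15_12_1_ok))))) (B (M (nat_lit 399) (B (M (nat_lit 363) (B (L (nat_lit 362) ln14_12_3 ln14_12_3_ok) (L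 (nat_lit 364) ln15_12_3 ln15_12_3_ok))) (M (nat_lit 427) (B (L (nat_lit 426) ln14_12_1 ln14_12_1_ok) (L (nat_lit 428) ln15_12_1 ln15_12_1_ok))))) (M (nat_lit 462) (B (M (nat_lit 365) (B (L (nat_lit 333) ln13_10_4 ln13_10_4_ok) (L (nat_lit 494) ln14_15_7 ln14_15_7_ok))) (B (M (nat_lit 494) (B (L (nat_lit 365) ln14_15_7 ln14_15_7_ok) (L (nat_lit 526) ln14_16_7 ln14_16_7_ok))) (M (nat_lit 463) (B (M (nat_lit 366) (B (L (nat_lit 367) ln11_12_2 ln11_12_2_ok) (L (nat_lit 495) ln14_11_4 ln14_11_4_ok))) (M (nat_lit 427) (B (L (nat_lit 426) ln14_12_1 ln14_12_1_ok) (L (nat_lit 428) ln11_13_0 ln11_13_0_ok)))))))))))))))) (B (M (nat_lit 430) (B (L (nat_lit 394) ln10_12_0 ln10_12_0_ok) (M (nat_lit 431) (B (L (nat_lit 398) ln11_12_0 ln11_12_0_ok) (L (nat_lit 432) ln16_13_3 ln16_13_3_ok))))) (M (nat_lit 398) (B (M (nat_lit 399) (B (M (nat_lit 363) (B (L (nat_lit 362) ln14_12_3 ln14_12_3_ok) (L (nat_lit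 364) ln15_12_3 ln15_12_3_ok))) (M (nat_lit 427) (B (L (nat_lit 426) ln14_12_1 ln14_12_1_ok) (L (nat_lit 428) ln15_12_1 ln15_12_1_ok))))) (B (M (nat_lit 399) (B (M (nat_lit 367) (B (L (nat_lit 366) ln11_12_2 ln11_12_2_ok) (L (nat_lit 368) ln12_12_2 ln12_12_2_ok))) (M (nat_lit 427) (B (L (nat_lit 426) ln14_12_1 ln14_12_1_ok) (L (nat_lit 428) ln15_12_1 ln15_12_1_ok))))) (M (nat_lit 394) (B (M (nat_lit 362) (B (L (nat_lit 361) ln13_12_3 ln13_12_3_ok) (L (nat_lit 363) ln14_12_3 ln14_12_3_ok))) (M (nat_lit 366) (B (L (nat_lit 365) ln10_12_2 ln10_12_2_ok) (L (nat_lit 367) ln11_12_2 ln11_12_2_ok))))))))))))))))))))))) (nat_lit 1386334847221798047169638878925036799968406779833514899637066259859226863686603287896039777716422623628704219945445734162783797248) (nat_lit 1179363258141160341734600181621526109733048592668201185556669291474807236878758455067692907945214142750680727130951711398902406040619328051210851243482040287056317382656)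 (nat_lit 1179363258141160341734600181621526109733048592668201185556669291474807236878758455067692907945214142750680727130951711398902406040619328051210851243482040287056317382656) (by decide +kernel)
noncomputable def c41_n7823 : Cert := (M (nat_lit 430) (B (M (nat_lit 431) (B (L (nat_lit 432) ln16_13_3 ln16_13_3_ok) (M (nat_lit 395) (B (L (nat_lit 394) ln10_12_0 ln10_12_0_ok) (L (nat_lit 428) ln15_13_3 ln15_13_3_ok))))) (B (M (nat_lit 431) (B (L (nat_lit 432) ln16_13_3 ln16_13_3_ok) (M (nat_lit 395) (B (L (nat_lit 398) ln11_12_0 ln11_12_0_ok) (L (nat_lit 428) ln15_13_3 ln15_13_3_ok))))) (B (M (nat_lit 462) (B (M (nat_lit 365) (B (L (nat_lit 333) ln13_10_4 ln13_10_4_ok) (M (nat_lit 494) (B (L (nat_lit 398) ln14_15_7 ln14_15_7_ok) (L (nat_lit 526) ln14_16_7 ln14_16_7_ok))))) (B (M (nat_lit 494) (B (L (nat_lit 526) ln14_16_7 ln14_16_7_ok) (M (nat_lit 365) (B (L (nat_lit 398) ln14_15_7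 ln14_15_7_ok) (L (nat_lit 461) ln13_11_4 ln13_11_4_ok))))) (B (M (nat_lit 494) (B (L (nat_lit 526) ln14_16_7 ln14_16_7_ok) (M (nat_lit 398) (B (M (nat_lit 399) (B (L (nat_lit 367) ln14_15_6 ln14_15_6_ok) (M (nat_lit 428) (B (L (nat_lit 427) ln15_12_1 ln15_12_1_ok) (L (nat_lit 400) ln16_12_1 ln16_12_1_ok))))) (M (nat_lit 493) (B (L (nat_lit 525) ln14_12_5 ln14_12_5_ok) (M (nat_lit 461) (B (L (nat_lit 364) ln13_15_7 ln13_15_7_ok) (L (nat_lit 366) ln13_15_6 ln13_15_6_ok))))))))) (B (M (nat_lit 365) (B (L (nat_lit 333) ln13_10_4 ln13_10_4_ok) (M (nat_lit 494) (B (L (nat_lit 461) ln13_11_4 ln13_11_4_ok) (L (nat_lit 526) ln14_16_7 ln14_16_7_ok))))) (M (nat_lit 399) (B (M (nat_lit 431) (B (L (nat_lit 432) ln16_13_3 ln16_13_3_ok) (M (nat_lit 428) (B (L (nat_lit 400) ln12_13_2 ln12_13_2_ok) (M (nat_lit 463) (B (L (nat_lit 427) ln11_13_0 ln11_13_0_ok) (L (nat_lit 464) ln12_13_0 ln12_13_0_ok)))))))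 (B (M (nat_lit 365) (B (L (nat_lit 333) ln13_10_4 ln13_10_4_ok) (M (nat_lit 367) (B (M (nat_lit 431) (B (L (nat_lit 335) ln15_10_5 ln15_10_5_ok) (L (nat_lit 432) ln16_13_3 ln16_13_3_ok))) (M (nat_lit 368) (B (L (nat_lit 366) ln16_11_1 ln16_11_1_ok) (L (nat_lit 398) ln12_12_2 ln12_12_2_ok))))))) (M (nat_lit 365) (B (L (nat_lit 333) ln13_10_4 ln13_10_4_ok) (M (nat_lit 364) (B (M (nat_lit 332) (B (L (nat_lit 300) ln12_9_4 ln12_9_4_ok) (L (nat_lit 461) ln13_14_7 ln13_14_7_ok))) (M (nat_lit 398) (B (L (nat_lit 363) ln15_12_3 ln15_12_3_ok) (L (nat_lit 400) ln16_12_3 ln16_12_3_ok))))))))))))))) (B (M (nat_lit 431) (B (L (nat_lit 432) ln16_13_3 ln16_13_3_ok) (M (nat_lit 395) (B (L (nat_lit 394) ln10_12_0 ln10_12_0_ok) (L (nat_lit 398) ln11_12_0 ln11_12_0_ok))))) (M (nat_lit 395) (B (L (nat_lit 394) ln10_12_0 ln10_12_0_ok) (M (nat_lit 398) (B (M (nat_lit 363) (B (L (nat_lit 362) ln14_12_3 ln14_12_3_ok)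 (M (nat_lit 399) (B (L (nat_lit 364) ln15_12_3 ln15_12_3_ok) (M (nat_lit 367) (B (L (nat_lit 366) ln11_12_2 ln11_12_2_ok) (L (nat_lit 368) ln12_12_2 ln12_12_2_ok))))))) (B (M (nat_lit 399) (B (M (nat_lit 367) (B (L (nat_lit 366) ln11_12_2 ln11_12_2_ok) (L (nat_lit 368) ln12_12_2 ln12_12_2_ok))) (M (nat_lit 427) (B (L (nat_lit 426) ln14_12_1 ln14_12_1_ok) (L (nat_lit 428) ln15_12_1 ln15_12_1_ok))))) (B (M (nat_lit 399) (B (M (nat_lit 363) (B (L (nat_lit 362) ln14_12_3 ln14_12_3_ok) (L (nat_lit 364) ln15_12_3 ln15_12_3_ok))) (M (nat_lit 427) (B (L (nat_lit 426) ln14_12_1 ln14_12_1_ok) (L (nat_lit 428) ln15_12_1 ln15_12_1_ok))))) (M (nat_lit 462) (B (M (nat_lit 365) (B (L (nat_lit 333) ln13_10_4 ln13_10_4_ok) (L (nat_lit 494) ln14_15_7 ln14_15_7_ok))) (B (M (nat_lit 494) (B (L (nat_lit 365) ln14_15_7 ln14_15_7_ok) (L (nat_lit 526) ln14_16_7 ln14_16_7_ok))) (M (nat_lit 463) (B (M (nat_lit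 366) (B (L (nat_lit 367) ln11_12_2 ln11_12_2_ok) (L (nat_lit 495) ln14_11_4 ln14_11_4_ok))) (M (nat_lit 427) (B (L (nat_lit 426) ln14_12_1 ln14_12_1_ok) (L (nat_lit 428) ln11_13_0 ln11_13_0_ok)))))))))))))))))))
noncomputable def c41_n7861 : Cert := (M (nat_lit 461) (B (M (nat_lit 364) (B (L (nat_lit 493) ln13_15_7 ln13_15_7_ok) (M (nat_lit 332) (B (L (nat_lit 300) ln12_9_4 ln12_9_4_ok) (L (nat_lit 428) ln12_10_4 ln12_10_4_ok))))) (B (M (nat_lit 493) (B (L (nat_lit 364) ln13_15_7 ln13_15_7_ok) (M (nat_lit 525) (B (L (nat_lit 428) ln13_16_7 ln13_16_7_ok) (M (nat_lit 524) (B (L (nat_lit 492) ln13_12_5 ln13_12_5_ok) (L (nat_lit 556) ln13_13_5 ln13_13_5_ok))))))) (B (M (nat_lit 398) (B (M (nat_lit 493) (B (L (nat_lit 366) ln13_15_6 ln13_15_6_ok) (M (nat_lit 525) (B (L (nat_lit 428) ln13_16_7 ln13_16_7_ok) (L (nat_lit 430) ln13_16_6 ln13_16_6_ok))))) (B (M (nat_lit 395) (B (M (nat_lit 430)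 (B (L (nat_lit 394) ln10_12_0 ln10_12_0_ok) (L (nat_lit 431) ln11_12_0 ln11_12_0_ok))) (B (M (nat_lit 399) (B (M (nat_lit 427) (B (L (nat_lit 426) ln14_12_1 ln14_12_1_ok) (L (nat_lit 428) ln15_12_1 ln15_12_1_ok))) (M (nat_lit 431) (B (L (nat_lit 430) ln11_12_0 ln11_12_0_ok) (L (nat_lit 432) ln12_12_0 ln12_12_0_ok))))) (M (nat_lit 394) (B (M (nat_lit 362) (B (L (nat_lit 361) ln13_12_3 ln13_12_3_ok) (L (nat_lit 363) ln14_12_3 ln14_12_3_ok))) (M (nat_lit 426) (B (L (nat_lit 425) ln13_12_1 ln13_12_1_ok) (L (nat_lit 427) ln14_12_1 ln14_12_1_ok)))))))) (B (M (nat_lit 430) (B (M (nat_lit 395) (B (L (nat_lit 394) ln10_12_0 ln10_12_0_ok) (L (nat_lit 431) ln11_12_0 ln11_12_0_ok))) (M (nat_lit 493) (B (L (nat_lit 366) ln13_15_6 ln13_15_6_ok) (L (nat_lit 525) ln13_16_6 ln13_16_6_ok))))) (M (nat_lit 428) (B (M (nat_lit 493) (B (L (nat_lit 366) ln13_15_6 ln13_15_6_ok) (L (nat_lit 525) ln13_16_7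 ln13_16_7_ok))) (M (nat_lit 427) (B (L (nat_lit 399) ln15_12_1 ln15_12_1_ok) (L (nat_lit 426) ln10_13_2 ln10_13_2_ok))))))))) (B (M (nat_lit 493) (B (L (nat_lit 364) ln13_15_7 ln13_15_7_ok) (M (nat_lit 525) (B (M (nat_lit 524) (B (L (nat_lit 492) ln13_12_5 ln13_12_5_ok) (L (nat_lit 556) ln13_13_5 ln13_13_5_ok))) (M (nat_lit 526) (B (L (nat_lit 494) ln13_12_4 ln13_12_4_ok) (L (nat_lit 558) ln13_13_4 ln13_13_4_ok))))))) (M (nat_lit 395) (B (M (nat_lit 430) (B (L (nat_lit 394) ln10_12_0 ln10_12_0_ok) (M (nat_lit 431) (B (L (nat_lit 398) ln11_12_0 ln11_12_0_ok) (L (nat_lit 428) ln15_13_3 ln15_13_3_ok))))) (B (M (nat_lit 398) (B (M (nat_lit 366) (B (L (nat_lit 367) ln11_12_2 ln11_12_2_ok) (M (nat_lit 430) (B (L (nat_lit 334) ln14_10_5 ln14_10_5_ok) (L (nat_lit 431) ln11_12_0 ln11_12_0_ok))))) (M (nat_lit 364) (B (M (nat_lit 332) (B (L (nat_lit 300) ln12_9_4 ln12_9_4_ok) (L (nat_lit 428)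 ln12_10_4 ln12_10_4_ok))) (M (nat_lit 363) (B (L (nat_lit 362) ln14_12_3 ln14_12_3_ok) (L (nat_lit 399) ln15_12_3 ln15_12_3_ok))))))) (B (M (nat_lit 430) (B (L (nat_lit 394) ln10_12_0 ln10_12_0_ok) (M (nat_lit 431) (B (L (nat_lit 428) ln15_13_3 ln15_13_3_ok) (L (nat_lit 432) ln16_13_3 ln16_13_3_ok))))) (B (M (nat_lit 430) (B (L (nat_lit 394) ln10_12_0 ln10_12_0_ok) (M (nat_lit 431) (B (L (nat_lit 398) ln11_12_0 ln11_12_0_ok) (L (nat_lit 432) ln16_13_3 ln16_13_3_ok))))) (M (nat_lit 394) (B (M (nat_lit 393) (B (L (nat_lit 428) ln9_12_0 ln9_12_0_ok) (M (nat_lit 425) (B (L (nat_lit 424) ln12_12_1 ln12_12_1_ok) (L (nat_lit 426) ln13_12_1 ln13_12_1_ok))))) (B (M (nat_lit 398) (B (M (nat_lit 362) (B (L (nat_lit 361) ln13_12_3 ln13_12_3_ok) (L (nat_lit 363) ln14_12_3 ln14_12_3_ok))) (M (nat_lit 426) (B (L (nat_lit 425) ln13_12_1 ln13_12_1_ok) (L (nat_lit 427) ln14_12_1 ln14_12_1_ok))))) (M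 (nat_lit 393) (B (L (nat_lit 428) ln9_12_0 ln9_12_0_ok) (M (nat_lit 361) (B (L (nat_lit 360) ln12_12_3 ln12_12_3_ok) (L (nat_lit 362) ln13_12_3 ln13_12_3_ok))))))))))))))))))
theorem c41_s7965 : Sem (nat_lit 1386334847544579281930502452632026696468783264124728123740719198963059283254184240648144927045128292788721448874933630659377233920) (nat_lit 219673525207292944374580593762010237531767162348791019435294845067277492745782160508013927705626350549819014198314590097956636992898381224163553155895527473152) (nat_lit 219673525207292944374580593762010237531767162348791019435294845067277492745782160508013927705626350549819014198314590097956636992898381224163553155895527473152) :=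
  sem_of_chk (M (nat_lit 430) (B (M (nat_lit 431) (B (L (nat_lit 432) ln16_13_3 ln16_13_3_ok) (M (nat_lit 395) (B (L (nat_lit 394) ln10_12_0 ln10_12_0_ok) (L (nat_lit 398) ln11_12_0 ln11_12_0_ok))))) (B (M (nat_lit 431) (B (L (nat_lit 432) ln16_13_3 ln16_13_3_ok) (M (nat_lit 395) (B (L (nat_lit 398) ln11_12_0 ln11_12_0_ok) (L (nat_lit 428) ln15_13_3 ln15_13_3_ok))))) (B (M (nat_lit 462) (B (M (nat_lit 365) (B (L (nat_lit 333) ln13_10_4 ln13_10_4_ok) (M (nat_lit 494) (B (L (nat_lit 398) ln14_15_7 ln14_15_7_ok) (L (nat_lit 526) ln14_16_7 ln14_16_7_ok))))) (B (M (nat_lit 494) (B (L (nat_lit 526) ln14_16_7 ln14_16_7_ok) (M (nat_lit 365) (B (L (nat_lit 398) ln14_15_7 ln14_15_7_ok) (L (nat_lit 461) ln13_11_4 ln13_11_4_ok))))) (B (M (nat_lit 494) (B (L (nat_lit 526) ln14_16_7 ln14_16_7_ok) (M (nat_lit 399) (B (M (nat_lit 431) (B (L (nat_lit 432) ln16_13_3 ln16_13_3_ok) (M (nat_lit 367) (B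 (L (nat_lit 335) ln15_10_5 ln15_10_5_ok) (L (nat_lit 463) ln15_11_5 ln15_11_5_ok))))) (B (M (nat_lit 398) (B (L (nat_lit 367) ln14_15_6 ln14_15_6_ok) (M (nat_lit 428) (B (L (nat_lit 427) ln15_12_1 ln15_12_1_ok) (L (nat_lit 400) ln16_12_1 ln16_12_1_ok))))) (M (nat_lit 428) (B (M (nat_lit 398) (B (L (nat_lit 427) ln15_12_1 ln15_12_1_ok) (L (nat_lit 400) ln16_12_1 ln16_12_1_ok))) (B (M (nat_lit 431) (B (L (nat_lit 432) ln16_13_3 ln16_13_3_ok) (L (nat_lit 400) ln12_13_2 ln12_13_2_ok))) (M (nat_lit 427) (B (L (nat_lit 398) ln15_12_1 ln15_12_1_ok) (L (nat_lit 463) ln11_13_0 ln11_13_0_ok))))))))))) (B (M (nat_lit 365) (B (L (nat_lit 333) ln13_10_4 ln13_10_4_ok) (M (nat_lit 494) (B (L (nat_lit 461) ln13_11_4 ln13_11_4_ok) (L (nat_lit 526) ln14_16_7 ln14_16_7_ok))))) (M (nat_lit 399) (B (M (nat_lit 431) (B (L (nat_lit 432) ln16_13_3 ln16_13_3_ok) (M (nat_lit 428) (B (L (nat_lit 400) ln12_13_2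 ln12_13_2_ok) (M (nat_lit 463) (B (L (nat_lit 427) ln11_13_0 ln11_13_0_ok) (L (nat_lit 464) ln12_13_0 ln12_13_0_ok))))))) (B (M (nat_lit 364) (B (M (nat_lit 461) (B (L (nat_lit 493) ln13_15_7 ln13_15_7_ok) (M (nat_lit 332) (B (L (nat_lit 300) ln12_9_4 ln12_9_4_ok) (L (nat_lit 428) ln12_10_4 ln12_10_4_ok))))) (M (nat_lit 367) (B (M (nat_lit 431) (B (L (nat_lit 335) ln15_10_5 ln15_10_5_ok) (L (nat_lit 432) ln16_13_3 ln16_13_3_ok))) (M (nat_lit 398) (B (L (nat_lit 363) ln15_12_3 ln15_12_3_ok) (L (nat_lit 368) ln12_12_2 ln12_12_2_ok))))))) (M (nat_lit 365) (B (L (nat_lit 333) ln13_10_4 ln13_10_4_ok) (M (nat_lit 364) (B (M (nat_lit 332) (B (L (nat_lit 300) ln12_9_4 ln12_9_4_ok) (L (nat_lit 461) ln13_14_7 ln13_14_7_ok))) (M (nat_lit 398) (B (L (nat_lit 363) ln15_12_3 ln15_12_3_ok) (L (nat_lit 400) ln16_12_3 ln16_12_3_ok))))))))))))))) (B (M (nat_lit 431) (B (L (nat_lit 432) ln16_13_3 ln16_13_3_ok)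 (M (nat_lit 395) (B (L (nat_lit 394) ln10_12_0 ln10_12_0_ok) (L (nat_lit 428) ln15_13_3 ln15_13_3_ok))))) (M (nat_lit 364) (B (M (nat_lit 461) (B (L (nat_lit 493) ln13_15_7 ln13_15_7_ok) (M (nat_lit 332) (B (L (nat_lit 300) ln12_9_4 ln12_9_4_ok) (L (nat_lit 428) ln12_10_4 ln12_10_4_ok))))) (B (M (nat_lit 461) (B (L (nat_lit 493) ln13_15_7 ln13_15_7_ok) (M (nat_lit 332) (B (L (nat_lit 365) ln13_14_7 ln13_14_7_ok) (L (nat_lit 428) ln12_10_4 ln12_10_4_ok))))) (B (M (nat_lit 427) (B (M (nat_lit 395) (B (L (nat_lit 394) ln10_12_0 ln10_12_0_ok) (M (nat_lit 398) (B (L (nat_lit 426) ln14_12_1 ln14_12_1_ok) (M (nat_lit 363) (B (L (nat_lit 362) ln14_12_3 ln14_12_3_ok) (L (nat_lit 399) ln15_12_3 ln15_12_3_ok))))))) (B (M (nat_lit 398) (B (M (nat_lit 395) (B (L (nat_lit 394) ln10_12_0 ln10_12_0_ok) (L (nat_lit 426) ln14_12_1 ln14_12_1_ok))) (B (M (nat_lit 426) (B (L (nat_lit 395) ln14_12_1 ln14_12_1_ok)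 (L (nat_lit 428) ln10_13_2 ln10_13_2_ok))) (M (nat_lit 399) (B (L (nat_lit 363) ln15_12_3 ln15_12_3_ok) (L (nat_lit 428) ln15_12_1 ln15_12_1_ok)))))) (B (M (nat_lit 462) (B (M (nat_lit 461) (B (L (nat_lit 493) ln13_15_7 ln13_15_7_ok) (M (nat_lit 365) (B (L (nat_lit 333) ln13_10_4 ln13_10_4_ok) (L (nat_lit 494) ln13_11_4 ln13_11_4_ok))))) (B (M (nat_lit 461) (B (L (nat_lit 493) ln13_15_7 ln13_15_7_ok) (M (nat_lit 494) (B (L (nat_lit 365) ln13_11_4 ln13_11_4_ok) (L (nat_lit 526) ln14_16_7 ln14_16_7_ok))))) (M (nat_lit 459) (B (M (nat_lit 395) (B (L (nat_lit 491) ln11_15_6 ln11_15_6_ok) (L (nat_lit 394) ln10_12_0 ln10_12_0_ok))) (M (nat_lit 428) (B (L (nat_lit 458) ln14_13_1 ln14_13_1_ok) (L (nat_lit 463) ln11_13_0 ln11_13_0_ok)))))))) (M (nat_lit 461) (B (L (nat_lit 493) ln13_15_7 ln13_15_7_ok) (M (nat_lit 462) (B (M (nat_lit 365) (B (L (nat_lit 333) ln13_10_4 ln13_10_4_ok) (L (nat_lit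 494) ln13_11_4 ln13_11_4_ok))) (M (nat_lit 428) (B (L (nat_lit 426) ln10_13_0 ln10_13_0_ok) (L (nat_lit 463) ln11_13_0 ln11_13_0_ok))))))))))) (B (M (nat_lit 461) (B (L (nat_lit 493) ln13_15_7 ln13_15_7_ok) (M (nat_lit 332) (B (L (nat_lit 300) ln12_9_4 ln12_9_4_ok) (L (nat_lit 365) ln13_14_7 ln13_14_7_ok))))) (M (nat_lit 395) (B (L (nat_lit 394) ln10_12_0 ln10_12_0_ok) (M (nat_lit 427) (B (M (nat_lit 398) (B (L (nat_lit 426) ln14_12_1 ln14_12_1_ok) (M (nat_lit 363) (B (L (nat_lit 362) ln14_12_3 ln14_12_3_ok) (L (nat_lit 399) ln15_12_3 ln15_12_3_ok))))) (B (M (nat_lit 398) (B (L (nat_lit 426) ln14_12_1 ln14_12_1_ok) (M (nat_lit 399) (B (L (nat_lit 363) ln15_12_3 ln15_12_3_ok) (L (nat_lit 428) ln15_12_1 ln15_12_1_ok))))) (M (nat_lit 332) (B (L (nat_lit 300) ln12_9_5 ln12_9_5_ok) (M (nat_lit 459) (B (L (nat_lit 428) ln12_10_5 ln12_10_5_ok) (L (nat_lit 491) ln11_15_6 ln11_15_6_ok))))))))))))))))))))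 (nat_lit 1386334847544579281930502452632026696468783264124728123740719198963059283254184240648144927045128292788721448874933630659377233920) (nat_lit 219673525207292944374580593762010237531767162348791019435294845067277492745782160508013927705626350549819014198314590097956636992898381224163553155895527473152) (nat_lit 219673525207292944374580593762010237531767162348791019435294845067277492745782160508013927705626350549819014198314590097956636992898381224163553155895527473152) (by decide +kernel)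
noncomputable def c41_n8074 : Cert := (M (nat_lit 430) (B (M (nat_lit 431) (B (L (nat_lit 432) ln16_13_3 ln16_13_3_ok) (M (nat_lit 395) (B (L (nat_lit 394) ln10_12_0 ln10_12_0_ok) (L (nat_lit 428) ln15_13_3 ln15_13_3_ok))))) (B (M (nat_lit 431) (B (L (nat_lit 432) ln16_13_3 ln16_13_3_ok) (M (nat_lit 395) (B (L (nat_lit 398) ln11_12_0 ln11_12_0_ok) (L (nat_lit 428) ln15_13_3 ln15_13_3_ok))))) (B (M (nat_lit 399) (B (M (nat_lit 431) (B (L (nat_lit 432) ln16_13_3 ln16_13_3_ok) (M (nat_lit 428) (B (L (nat_lit 400) ln12_13_2 ln12_13_2_ok) (M (nat_lit 427) (B (L (nat_lit 398) ln15_12_1 ln15_12_1_ok) (M (nat_lit 463) (B (L (nat_lit 462) ln11_13_0 ln11_13_0_ok) (L (nat_lit 464) ln12_13_0 ln12_13_0_ok))))))))) (B (M (nat_lit 431) (B (L (nat_lit 432) ln16_13_3 ln16_13_3_ok) (M (nat_lit 462) (B (M (nat_lit 428) (B (L (nat_lit 400) ln12_13_2 ln12_13_2_ok) (M (nat_lit 463) (B (L (nat_lit 427) ln11_13_0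 ln11_13_0_ok) (L (nat_lit 464) ln12_13_0 ln12_13_0_ok))))) (M (nat_lit 365) (B (L (nat_lit 333) ln13_10_4 ln13_10_4_ok) (M (nat_lit 494) (B (L (nat_lit 461) ln13_11_4 ln13_11_4_ok) (L (nat_lit 526) ln14_16_7 ln14_16_7_ok))))))))) (B (M (nat_lit 398) (B (M (nat_lit 428) (B (L (nat_lit 427) ln15_12_1 ln15_12_1_ok) (M (nat_lit 364) (B (L (nat_lit 363) ln15_12_3 ln15_12_3_ok) (M (nat_lit 332) (B (L (nat_lit 300) ln12_9_4 ln12_9_4_ok) (L (nat_lit 461) ln12_10_4 ln12_10_4_ok))))))) (B (M (nat_lit 428) (B (L (nat_lit 427) ln15_12_1 ln15_12_1_ok) (M (nat_lit 364) (B (L (nat_lit 363) ln15_12_3 ln15_12_3_ok) (M (nat_lit 461) (B (L (nat_lit 332) ln12_10_4 ln12_10_4_ok) (L (nat_lit 493) ln13_15_7 ln13_15_7_ok))))))) (B (M (nat_lit 431) (B (L (nat_lit 432) ln12_12_0 ln12_12_0_ok) (M (nat_lit 463) (B (M (nat_lit 366) (B (L (nat_lit 334) ln14_10_4 ln14_10_4_ok) (L (nat_lit 495) ln15_15_7 ln15_15_7_ok)))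 (M (nat_lit 428) (B (L (nat_lit 427) ln15_12_1 ln15_12_1_ok) (L (nat_lit 464) ln12_13_0 ln12_13_0_ok))))))) (M (nat_lit 364) (B (L (nat_lit 363) ln15_12_3 ln15_12_3_ok) (M (nat_lit 461) (B (L (nat_lit 493) ln13_15_7 ln13_15_7_ok) (M (nat_lit 332) (B (L (nat_lit 300) ln12_9_4 ln12_9_4_ok) (L (nat_lit 365) ln13_14_7 ln13_14_7_ok))))))))))) (M (nat_lit 365) (B (M (nat_lit 462) (B (L (nat_lit 333) ln13_10_4 ln13_10_4_ok) (M (nat_lit 494) (B (L (nat_lit 461) ln13_11_4 ln13_11_4_ok) (L (nat_lit 526) ln14_16_7 ln14_16_7_ok))))) (B (M (nat_lit 364) (B (M (nat_lit 332) (B (L (nat_lit 300) ln12_9_4 ln12_9_4_ok) (L (nat_lit 461) ln13_14_7 ln13_14_7_ok))) (M (nat_lit 398) (B (L (nat_lit 363) ln15_12_3 ln15_12_3_ok) (L (nat_lit 400) ln16_12_3 ln16_12_3_ok))))) (M (nat_lit 462) (B (L (nat_lit 333) ln13_10_4 ln13_10_4_ok) (M (nat_lit 494) (B (L (nat_lit 398) ln14_15_7 ln14_15_7_ok) (L (nat_lit 526)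 ln14_16_7 ln14_16_7_ok)))))))))))) (B (M (nat_lit 431) (B (L (nat_lit 432) ln16_13_3 ln16_13_3_ok) (M (nat_lit 395) (B (L (nat_lit 394) ln10_12_0 ln10_12_0_ok) (L (nat_lit 398) ln11_12_0 ln11_12_0_ok))))) (M (nat_lit 398) (B (M (nat_lit 395) (B (L (nat_lit 394) ln10_12_0 ln10_12_0_ok) (M (nat_lit 399) (B (M (nat_lit 363) (B (L (nat_lit 362) ln14_12_3 ln14_12_3_ok) (L (nat_lit 364) ln15_12_3 ln15_12_3_ok))) (M (nat_lit 427) (B (L (nat_lit 426) ln14_12_1 ln14_12_1_ok) (L (nat_lit 428) ln15_12_1 ln15_12_1_ok))))))) (B (M (nat_lit 427) (B (M (nat_lit 395) (B (L (nat_lit 394) ln10_12_0 ln10_12_0_ok) (L (nat_lit 426) ln14_12_1 ln14_12_1_ok))) (B (M (nat_lit 426) (B (L (nat_lit 395) ln14_12_1 ln14_12_1_ok) (L (nat_lit 428) ln10_13_2 ln10_13_2_ok))) (B (M (nat_lit 428) (B (L (nat_lit 399) ln15_12_1 ln15_12_1_ok) (L (nat_lit 426) ln10_13_2 ln10_13_2_ok))) (M (nat_lit 462) (B (M (nat_lit 365)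 (B (L (nat_lit 333) ln13_10_4 ln13_10_4_ok) (L (nat_lit 494) ln14_15_7 ln14_15_7_ok))) (M (nat_lit 428) (B (L (nat_lit 399) ln15_12_1 ln15_12_1_ok) (L (nat_lit 463) ln11_13_0 ln11_13_0_ok))))))))) (B (M (nat_lit 365) (B (M (nat_lit 462) (B (L (nat_lit 333) ln13_10_4 ln13_10_4_ok) (L (nat_lit 494) ln14_15_7 ln14_15_7_ok))) (M (nat_lit 364) (B (M (nat_lit 363) (B (L (nat_lit 362) ln10_11_0 ln10_11_0_ok) (L (nat_lit 399) ln15_12_3 ln15_12_3_ok))) (M (nat_lit 461) (B (L (nat_lit 332) ln13_14_7 ln13_14_7_ok) (L (nat_lit 493) ln13_15_7 ln13_15_7_ok))))))) (M (nat_lit 461) (B (M (nat_lit 366) (B (L (nat_lit 334) ln14_10_5 ln14_10_5_ok) (L (nat_lit 493) ln13_15_6 ln13_15_6_ok))) (B (M (nat_lit 493) (B (L (nat_lit 364) ln13_15_7 ln13_15_7_ok) (L (nat_lit 525) ln13_16_6 ln13_16_6_ok))) (M (nat_lit 462) (B (M (nat_lit 365) (B (L (nat_lit 333) ln13_10_4 ln13_10_4_ok) (L (nat_lit 494) ln14_15_7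 ln14_15_7_ok))) (M (nat_lit 463) (B (M (nat_lit 366) (B (L (nat_lit 334) ln14_10_5 ln14_10_5_ok) (L (nat_lit 495) ln14_11_4 ln14_11_4_ok))) (M (nat_lit 428) (B (L (nat_lit 427) ln11_13_0 ln11_13_0_ok) (L (nat_lit 464) ln16_14_3 ln16_14_3_ok)))))))))))))))))))
theorem c41_s8295 : Sem (nat_lit 1386334847544579281930502452632026696468783264124728123740719198963059283254184240648144927045128292788721448874933630659377233920) (nat_lit 235872651935775003674211536371481755611284839287759243068151667465243375965534873703667419033417191010382798204930800615033659989912293756630108076040010317086515527680) (nat_lit 235872651935775003674211536371481755611284839287759243068151667465243375965534873703667419033417191010382798204930800615033659989912293756630108076040010317086515527680) :=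
  sem_of_chk (M (nat_lit 399) (B (M (nat_lit 364) (B (M (nat_lit 398) (B (L (nat_lit 363) ln15_12_3 ln15_12_3_ok) (M (nat_lit 400) (B (L (nat_lit 365) ln16_12_3 ln16_12_3_ok) (L (nat_lit 428) ln16_12_1 ln16_12_1_ok))))) (B (M (nat_lit 461) (B (L (nat_lit 493) ln13_15_7 ln13_15_7_ok) (M (nat_lit 332) (B (L (nat_lit 300) ln12_9_4 ln12_9_4_ok) (L (nat_lit 428) ln12_10_4 ln12_10_4_ok))))) (M (nat_lit 461) (B (L (nat_lit 493) ln13_15_7 ln13_15_7_ok) (M (nat_lit 332) (B (L (nat_lit 300) ln12_9_4 ln12_9_4_ok) (L (nat_lit 365) ln13_14_7 ln13_14_7_ok)))))))) (B (M (nat_lit 364) (B (M (nat_lit 461) (B (L (nat_lit 493) ln13_15_7 ln13_15_7_ok) (M (nat_lit 332) (B (L (nat_lit 365) ln13_14_7 ln13_14_7_ok) (L (nat_lit 428) ln12_10_4 ln12_10_4_ok))))) (B (M (nat_lit 398) (B (L (nat_lit 363) ln15_12_3 ln15_12_3_ok) (M (nat_lit 400) (B (L (nat_lit 365) ln16_12_3 ln16_12_3_ok) (L (nat_lit 428) ln16_12_1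 ln16_12_1_ok))))) (B (M (nat_lit 398) (B (L (nat_lit 363) ln15_12_3 ln15_12_3_ok) (M (nat_lit 428) (B (L (nat_lit 427) ln15_12_1 ln15_12_1_ok) (L (nat_lit 400) ln16_12_1 ln16_12_1_ok))))) (M (nat_lit 365) (B (M (nat_lit 461) (B (L (nat_lit 332) ln13_14_7 ln13_14_7_ok) (L (nat_lit 493) ln13_15_7 ln13_15_7_ok))) (M (nat_lit 398) (B (L (nat_lit 363) ln15_12_3 ln15_12_3_ok) (L (nat_lit 400) ln16_12_3 ln16_12_3_ok))))))))) (B (M (nat_lit 461) (B (M (nat_lit 364) (B (L (nat_lit 493) ln13_15_7 ln13_15_7_ok) (M (nat_lit 398) (B (L (nat_lit 363) ln15_12_3 ln15_12_3_ok) (M (nat_lit 400) (B (L (nat_lit 365) ln16_12_3 ln16_12_3_ok) (L (nat_lit 428) ln16_12_1 ln16_12_1_ok))))))) (B (M (nat_lit 398) (B (M (nat_lit 493) (B (L (nat_lit 364) ln13_15_7 ln13_15_7_ok) (L (nat_lit 366) ln13_15_6 ln13_15_6_ok))) (M (nat_lit 428) (B (L (nat_lit 427) ln15_12_1 ln15_12_1_ok) (L (nat_lit 400) ln16_12_1 ln16_12_1_ok)))))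 (B (M (nat_lit 398) (B (M (nat_lit 428) (B (L (nat_lit 427) ln15_12_1 ln15_12_1_ok) (L (nat_lit 400) ln16_12_1 ln16_12_1_ok))) (M (nat_lit 366) (B (L (nat_lit 493) ln13_15_6 ln13_15_6_ok) (M (nat_lit 334) (B (L (nat_lit 302) ln14_9_5 ln14_9_5_ok) (L (nat_lit 430) ln14_10_5 ln14_10_5_ok))))))) (B (M (nat_lit 364) (B (L (nat_lit 493) ln13_15_7 ln13_15_7_ok) (M (nat_lit 365) (B (M (nat_lit 366) (B (L (nat_lit 334) ln13_14_6 ln13_14_6_ok) (M (nat_lit 367) (B (L (nat_lit 400) ln12_11_0 ln12_11_0_ok) (L (nat_lit 368) ln16_11_1 ln16_11_1_ok))))) (M (nat_lit 333) (B (M (nat_lit 301) (B (L (nat_lit 269) ln13_8_5 ln13_8_5_ok) (L (nat_lit 428) ln13_9_5 ln13_9_5_ok))) (M (nat_lit 462) (B (L (nat_lit 430) ln13_10_4 ln13_10_4_ok) (L (nat_lit 494) ln13_11_4 ln13_11_4_ok))))))))) (B (M (nat_lit 365) (B (M (nat_lit 493) (B (L (nat_lit 364) ln13_15_7 ln13_15_7_ok) (M (nat_lit 494) (B (L (nat_lit 462)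 ln13_11_4 ln13_11_4_ok) (L (nat_lit 526) ln13_12_4 ln13_12_4_ok))))) (B (M (nat_lit 333) (B (M (nat_lit 334) (B (L (nat_lit 302) ln13_13_6 ln13_13_6_ok) (L (nat_lit 366) ln13_14_6 ln13_14_6_ok))) (M (nat_lit 462) (B (L (nat_lit 430) ln13_10_4 ln13_10_4_ok) (L (nat_lit 494) ln13_11_4 ln13_11_4_ok))))) (M (nat_lit 493) (B (L (nat_lit 364) ln13_15_7 ln13_15_7_ok) (M (nat_lit 366) (B (L (nat_lit 334) ln13_14_6 ln13_14_6_ok) (L (nat_lit 398) ln13_15_6 ln13_15_6_ok)))))))) (M (nat_lit 428) (B (M (nat_lit 398) (B (L (nat_lit 427) ln15_12_1 ln15_12_1_ok) (L (nat_lit 400) ln16_12_1 ln16_12_1_ok))) (B (M (nat_lit 430) (B (M (nat_lit 431) (B (L (nat_lit 432) ln16_13_3 ln16_13_3_ok) (L (nat_lit 400) ln12_13_2 ln12_13_2_ok))) (M (nat_lit 462) (B (M (nat_lit 365) (B (L (nat_lit 333) ln13_10_4 ln13_10_4_ok) (L (nat_lit 494) ln13_11_4 ln13_11_4_ok))) (M (nat_lit 463) (B (L (nat_lit 427) ln11_13_0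 ln11_13_0_ok) (L (nat_lit 464) ln16_14_3 ln16_14_3_ok))))))) (B (M (nat_lit 427) (B (L (nat_lit 398) ln15_12_1 ln15_12_1_ok) (M (nat_lit 426) (B (L (nat_lit 425) ln9_13_2 ln9_13_2_ok) (L (nat_lit 462) ln10_13_0 ln10_13_0_ok))))) (M (nat_lit 431) (B (M (nat_lit 398) (B (L (nat_lit 432) ln12_12_0 ln12_12_0_ok) (L (nat_lit 400) ln16_12_1 ln16_12_1_ok))) (B (M (nat_lit 430) (B (L (nat_lit 432) ln16_13_3 ln16_13_3_ok) (L (nat_lit 400) ln12_13_2 ln12_13_2_ok))) (B (M (nat_lit 432) (B (L (nat_lit 398) ln12_12_0 ln12_12_0_ok) (L (nat_lit 430) ln16_13_3 ln16_13_3_ok))) (M (nat_lit 400) (B (L (nat_lit 398) ln16_12_1 ln16_12_1_ok) (L (nat_lit 430) ln12_13_2 ln12_13_2_ok))))))))))))))))) (B (M (nat_lit 461) (B (M (nat_lit 364) (B (L (nat_lit 493) ln13_15_7 ln13_15_7_ok) (M (nat_lit 332) (B (L (nat_lit 300) ln12_9_4 ln12_9_4_ok) (L (nat_lit 365) ln13_14_7 ln13_14_7_ok))))) (B (M (nat_lit 364) (B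 (L (nat_lit 493) ln13_15_7 ln13_15_7_ok) (M (nat_lit 332) (B (L (nat_lit 365) ln13_14_7 ln13_14_7_ok) (L (nat_lit 428) ln12_10_4 ln12_10_4_ok))))) (B (M (nat_lit 398) (B (M (nat_lit 493) (B (L (nat_lit 364) ln13_15_7 ln13_15_7_ok) (L (nat_lit 366) ln13_15_6 ln13_15_6_ok))) (M (nat_lit 428) (B (L (nat_lit 427) ln15_12_1 ln15_12_1_ok) (L (nat_lit 400) ln16_12_1 ln16_12_1_ok))))) (B (M (nat_lit 398) (B (M (nat_lit 428) (B (L (nat_lit 427) ln15_12_1 ln15_12_1_ok) (L (nat_lit 400) ln16_12_1 ln16_12_1_ok))) (M (nat_lit 366) (B (L (nat_lit 493) ln13_15_6 ln13_15_6_ok) (M (nat_lit 334) (B (L (nat_lit 302) ln14_9_5 ln14_9_5_ok) (L (nat_lit 430) ln14_10_5 ln14_10_5_ok))))))) (M (nat_lit 364) (B (M (nat_lit 332) (B (L (nat_lit 300) ln12_9_4 ln12_9_4_ok) (L (nat_lit 365) ln13_14_7 ln13_14_7_ok))) (B (M (nat_lit 332) (B (L (nat_lit 365) ln13_14_7 ln13_14_7_ok) (L (nat_lit 428) ln12_10_4 ln12_10_4_ok)))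 (B (M (nat_lit 365) (B (M (nat_lit 366) (B (L (nat_lit 334) ln13_14_6 ln13_14_6_ok) (M (nat_lit 367) (B (L (nat_lit 400) ln12_11_0 ln12_11_0_ok) (L (nat_lit 368) ln16_11_1 ln16_11_1_ok))))) (M (nat_lit 333) (B (M (nat_lit 301) (B (L (nat_lit 269) ln13_8_5 ln13_8_5_ok) (L (nat_lit 428) ln13_9_5 ln13_9_5_ok))) (M (nat_lit 462) (B (L (nat_lit 430) ln13_10_4 ln13_10_4_ok) (L (nat_lit 494) ln13_11_4 ln13_11_4_ok))))))) (M (nat_lit 332) (B (L (nat_lit 300) ln12_9_4 ln12_9_4_ok) (L (nat_lit 428) ln12_10_4 ln12_10_4_ok)))))))))))) (B (M (nat_lit 398) (B (M (nat_lit 428) (B (L (nat_lit 427) ln15_12_1 ln15_12_1_ok) (L (nat_lit 400) ln16_12_1 ln16_12_1_ok))) (B (M (nat_lit 430) (B (M (nat_lit 431) (B (L (nat_lit 432) ln12_12_0 ln12_12_0_ok) (M (nat_lit 367) (B (L (nat_lit 368) ln12_12_2 ln12_12_2_ok) (M (nat_lit 335) (B (L (nat_lit 303) ln15_9_5 ln15_9_5_ok) (L (nat_lit 462) ln15_10_5 ln15_10_5_ok)))))))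 (B (M (nat_lit 431) (B (L (nat_lit 432) ln12_12_0 ln12_12_0_ok) (M (nat_lit 367) (B (L (nat_lit 368) ln12_12_2 ln12_12_2_ok) (M (nat_lit 462) (B (L (nat_lit 335) ln15_10_5 ln15_10_5_ok) (L (nat_lit 494) ln14_15_6 ln14_15_6_ok))))))) (B (M (nat_lit 431) (B (L (nat_lit 432) ln12_12_0 ln12_12_0_ok) (M (nat_lit 463) (B (M (nat_lit 366) (B (L (nat_lit 334) ln14_10_4 ln14_10_4_ok) (L (nat_lit 495) ln15_15_7 ln15_15_7_ok))) (M (nat_lit 428) (B (L (nat_lit 427) ln15_12_1 ln15_12_1_ok) (L (nat_lit 464) ln12_13_0 ln12_13_0_ok))))))) (M (nat_lit 367) (B (L (nat_lit 368) ln12_12_2 ln12_12_2_ok) (M (nat_lit 462) (B (L (nat_lit 494) ln14_15_6 ln14_15_6_ok) (M (nat_lit 335) (B (L (nat_lit 303) ln15_9_5 ln15_9_5_ok) (L (nat_lit 366) ln14_14_6 ln14_14_6_ok))))))))))) (B (M (nat_lit 400) (B (L (nat_lit 428) ln16_12_1 ln16_12_1_ok) (M (nat_lit 368) (B (L (nat_lit 367) ln12_12_2 ln12_12_2_ok) (L (nat_lit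 369) ln13_12_2 ln13_12_2_ok))))) (M (nat_lit 400) (B (M (nat_lit 368) (B (L (nat_lit 367) ln12_12_2 ln12_12_2_ok) (L (nat_lit 369) ln13_12_2 ln13_12_2_ok))) (M (nat_lit 432) (B (L (nat_lit 431) ln12_12_0 ln12_12_0_ok) (L (nat_lit 433) ln13_12_0 ln13_12_0_ok))))))))) (B (M (nat_lit 461) (B (M (nat_lit 364) (B (L (nat_lit 493) ln13_15_7 ln13_15_7_ok) (M (nat_lit 332) (B (L (nat_lit 365) ln13_14_7 ln13_14_7_ok) (L (nat_lit 428) ln12_10_4 ln12_10_4_ok))))) (B (M (nat_lit 493) (B (L (nat_lit 364) ln13_15_7 ln13_15_7_ok) (M (nat_lit 525) (B (L (nat_lit 428) ln13_16_7 ln13_16_7_ok) (M (nat_lit 524) (B (L (nat_lit 492) ln13_12_5 ln13_12_5_ok) (L (nat_lit 556) ln13_13_5 ln13_13_5_ok))))))) (B (M (nat_lit 365) (B (M (nat_lit 333) (B (M (nat_lit 334) (B (L (nat_lit 302) ln13_13_6 ln13_13_6_ok) (L (nat_lit 366) ln13_14_6 ln13_14_6_ok))) (M (nat_lit 462) (B (L (nat_lit 430) ln13_10_4 ln13_10_4_ok)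 (L (nat_lit 494) ln13_11_4 ln13_11_4_ok))))) (B (M (nat_lit 493) (B (M (nat_lit 494) (B (L (nat_lit 462) ln13_11_4 ln13_11_4_ok) (L (nat_lit 526) ln13_12_4 ln13_12_4_ok))) (M (nat_lit 525) (B (L (nat_lit 428) ln13_16_7 ln13_16_7_ok) (M (nat_lit 524) (B (L (nat_lit 492) ln13_12_5 ln13_12_5_ok) (L (nat_lit 556) ln13_13_5 ln13_13_5_ok))))))) (M (nat_lit 333) (B (M (nat_lit 334) (B (L (nat_lit 302) ln13_13_6 ln13_13_6_ok) (L (nat_lit 366) ln13_14_6 ln13_14_6_ok))) (M (nat_lit 300) (B (L (nat_lit 332) ln13_13_7 ln13_13_7_ok) (M (nat_lit 301) (B (L (nat_lit 268) ln13_12_7 ln13_12_7_ok) (L (nat_lit 428) ln13_9_5 ln13_9_5_ok)))))))))) (B (M (nat_lit 364) (B (L (nat_lit 493) ln13_15_7 ln13_15_7_ok) (M (nat_lit 332) (B (L (nat_lit 300) ln12_9_4 ln12_9_4_ok) (L (nat_lit 365) ln13_14_7 ln13_14_7_ok))))) (M (nat_lit 364) (B (M (nat_lit 332) (B (L (nat_lit 300) ln12_9_4 ln12_9_4_ok) (L (nat_lit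 365) ln13_14_7 ln13_14_7_ok))) (B (M (nat_lit 332) (B (L (nat_lit 365) ln13_14_7 ln13_14_7_ok) (L (nat_lit 428) ln12_10_4 ln12_10_4_ok))) (B (M (nat_lit 365) (B (M (nat_lit 366) (B (L (nat_lit 334) ln13_14_6 ln13_14_6_ok) (M (nat_lit 367) (B (L (nat_lit 400) ln12_11_0 ln12_11_0_ok) (L (nat_lit 368) ln16_11_1 ln16_11_1_ok))))) (M (nat_lit 333) (B (M (nat_lit 301) (B (L (nat_lit 269) ln13_8_5 ln13_8_5_ok) (L (nat_lit 428) ln13_9_5 ln13_9_5_ok))) (M (nat_lit 462) (B (L (nat_lit 430) ln13_10_4 ln13_10_4_ok) (L (nat_lit 494) ln13_11_4 ln13_11_4_ok))))))) (M (nat_lit 332) (B (L (nat_lit 300) ln12_9_4 ln12_9_4_ok) (L (nat_lit 428) ln12_10_4 ln12_10_4_ok)))))))))))) (B (M (nat_lit 398) (B (M (nat_lit 428) (B (L (nat_lit 427) ln15_12_1 ln15_12_1_ok) (M (nat_lit 364) (B (L (nat_lit 363) ln15_12_3 ln15_12_3_ok) (M (nat_lit 461) (B (L (nat_lit 332) ln12_10_4 ln12_10_4_ok) (L (nat_lit 493) ln13_15_7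 ln13_15_7_ok))))))) (B (M (nat_lit 430) (B (M (nat_lit 431) (B (L (nat_lit 432) ln12_12_0 ln12_12_0_ok) (M (nat_lit 367) (B (L (nat_lit 368) ln12_12_2 ln12_12_2_ok) (M (nat_lit 462) (B (L (nat_lit 335) ln15_10_5 ln15_10_5_ok) (L (nat_lit 494) ln14_15_6 ln14_15_6_ok))))))) (B (M (nat_lit 431) (B (L (nat_lit 432) ln12_12_0 ln12_12_0_ok) (M (nat_lit 463) (B (M (nat_lit 366) (B (L (nat_lit 334) ln14_10_4 ln14_10_4_ok) (L (nat_lit 495) ln15_15_7 ln15_15_7_ok))) (M (nat_lit 428) (B (L (nat_lit 427) ln15_12_1 ln15_12_1_ok) (L (nat_lit 464) ln12_13_0 ln12_13_0_ok))))))) (M (nat_lit 367) (B (L (nat_lit 368) ln12_12_2 ln12_12_2_ok) (M (nat_lit 462) (B (L (nat_lit 494) ln14_15_6 ln14_15_6_ok) (M (nat_lit 335) (B (L (nat_lit 303) ln15_9_5 ln15_9_5_ok) (L (nat_lit 366) ln14_14_6 ln14_14_6_ok)))))))))) (B (M (nat_lit 364) (B (L (nat_lit 363) ln15_12_3 ln15_12_3_ok) (M (nat_lit 461) (B (L (nat_lit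 493) ln13_15_7 ln13_15_7_ok) (M (nat_lit 332) (B (L (nat_lit 300) ln12_9_4 ln12_9_4_ok) (L (nat_lit 428) ln12_10_4 ln12_10_4_ok))))))) (M (nat_lit 364) (B (L (nat_lit 363) ln15_12_3 ln15_12_3_ok) (M (nat_lit 461) (B (L (nat_lit 493) ln13_15_7 ln13_15_7_ok) (M (nat_lit 332) (B (L (nat_lit 300) ln12_9_4 ln12_9_4_ok) (L (nat_lit 365) ln13_14_7 ln13_14_7_ok))))))))))) (M (nat_lit 364) (B (M (nat_lit 461) (B (L (nat_lit 493) ln13_15_7 ln13_15_7_ok) (M (nat_lit 332) (B (L (nat_lit 300) ln12_9_4 ln12_9_4_ok) (L (nat_lit 365) ln13_14_7 ln13_14_7_ok))))) (B (M (nat_lit 365) (B (M (nat_lit 461) (B (L (nat_lit 332) ln13_14_7 ln13_14_7_ok) (L (nat_lit 493) ln13_15_7 ln13_15_7_ok))) (M (nat_lit 398) (B (L (nat_lit 363) ln15_12_3 ln15_12_3_ok) (L (nat_lit 400) ln16_12_3 ln16_12_3_ok))))) (B (M (nat_lit 398) (B (L (nat_lit 363) ln15_12_3 ln15_12_3_ok) (M (nat_lit 400) (B (L (nat_lit 365) ln16_12_3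 ln16_12_3_ok) (M (nat_lit 368) (B (L (nat_lit 367) ln12_12_2 ln12_12_2_ok) (L (nat_lit 369) ln13_12_2 ln13_12_2_ok))))))) (M (nat_lit 398) (B (L (nat_lit 363) ln15_12_3 ln15_12_3_ok) (M (nat_lit 400) (B (M (nat_lit 368) (B (L (nat_lit 367) ln12_12_2 ln12_12_2_ok) (L (nat_lit 369) ln13_12_2 ln13_12_2_ok))) (M (nat_lit 432) (B (L (nat_lit 431) ln12_12_0 ln12_12_0_ok) (L (nat_lit 433) ln13_12_0 ln13_12_0_ok))))))))))))))))))) (nat_lit 1386334847544579281930502452632026696468783264124728123740719198963059283254184240648144927045128292788721448874933630659377233920) (nat_lit 235872651935775003674211536371481755611284839287759243068151667465243375965534873703667419033417191010382798204930800615033659989912293756630108076040010317086515527680) (nat_lit 235872651935775003674211536371481755611284839287759243068151667465243375965534873703667419033417191010382798204930800615033659989912293756630108076040010317086515527680)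 (by decide +kernel)
noncomputable def c41_n8359 : Cert := (M (nat_lit 461) (B (M (nat_lit 364) (B (L (nat_lit 493) ln13_15_7 ln13_15_7_ok) (M (nat_lit 332) (B (L (nat_lit 300) ln12_9_4 ln12_9_4_ok) (L (nat_lit 365) ln13_14_7 ln13_14_7_ok))))) (B (M (nat_lit 364) (B (L (nat_lit 493) ln13_15_7 ln13_15_7_ok) (M (nat_lit 332) (B (L (nat_lit 365) ln13_14_7 ln13_14_7_ok) (L (nat_lit 428) ln12_10_4 ln12_10_4_ok))))) (B (M (nat_lit 493) (B (L (nat_lit 364) ln13_15_7 ln13_15_7_ok) (M (nat_lit 525) (B (L (nat_lit 428) ln13_16_7 ln13_16_7_ok) (M (nat_lit 524) (B (L (nat_lit 492) ln13_12_5 ln13_12_5_ok) (L (nat_lit 556) ln13_13_5 ln13_13_5_ok))))))) (B (M (nat_lit 493) (B (M (nat_lit 525) (B (L (nat_lit 428) ln13_16_7 ln13_16_7_ok) (M (nat_lit 524) (B (L (nat_lit 492) ln13_12_5 ln13_12_5_ok) (L (nat_lit 556) ln13_13_5 ln13_13_5_ok))))) (M (nat_lit 365) (B (M (nat_lit 366) (B (L (nat_lit 334) ln13_14_6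 ln13_14_6_ok) (L (nat_lit 398) ln13_15_6 ln13_15_6_ok))) (M (nat_lit 494) (B (L (nat_lit 462) ln13_11_4 ln13_11_4_ok) (L (nat_lit 526) ln13_12_4 ln13_12_4_ok))))))) (M (nat_lit 398) (B (M (nat_lit 365) (B (M (nat_lit 364) (B (L (nat_lit 332) ln13_14_7 ln13_14_7_ok) (M (nat_lit 399) (B (L (nat_lit 363) ln15_12_3 ln15_12_3_ok) (L (nat_lit 400) ln16_12_3 ln16_12_3_ok))))) (M (nat_lit 366) (B (L (nat_lit 334) ln13_14_6 ln13_14_6_ok) (M (nat_lit 367) (B (L (nat_lit 368) ln16_11_1 ln16_11_1_ok) (L (nat_lit 395) ln11_12_2 ln11_12_2_ok))))))) (B (M (nat_lit 395) (B (M (nat_lit 366) (B (L (nat_lit 367) ln11_12_2 ln11_12_2_ok) (M (nat_lit 334) (B (L (nat_lit 302) ln14_9_5 ln14_9_5_ok) (L (nat_lit 365) ln13_14_6 ln13_14_6_ok))))) (M (nat_lit 399) (B (M (nat_lit 363) (B (L (nat_lit 362) ln14_12_3 ln14_12_3_ok) (L (nat_lit 364) ln15_12_3 ln15_12_3_ok))) (M (nat_lit 427) (B (L (nat_lit 426) ln14_12_1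 ln14_12_1_ok) (L (nat_lit 428) ln15_12_1 ln15_12_1_ok))))))) (B (M (nat_lit 364) (B (M (nat_lit 332) (B (L (nat_lit 300) ln12_9_4 ln12_9_4_ok) (L (nat_lit 428) ln12_10_4 ln12_10_4_ok))) (M (nat_lit 363) (B (L (nat_lit 399) ln15_12_3 ln15_12_3_ok) (M (nat_lit 362) (B (L (nat_lit 361) ln9_11_0 ln9_11_0_ok) (L (nat_lit 395) ln14_12_3 ln14_12_3_ok))))))) (B (M (nat_lit 366) (B (M (nat_lit 334) (B (L (nat_lit 302) ln14_9_5 ln14_9_5_ok) (L (nat_lit 365) ln13_14_6 ln13_14_6_ok))) (B (M (nat_lit 365) (B (L (nat_lit 334) ln13_14_6 ln13_14_6_ok) (M (nat_lit 367) (B (L (nat_lit 368) ln16_11_1 ln16_11_1_ok) (L (nat_lit 395) ln11_12_2 ln11_12_2_ok))))) (B (M (nat_lit 367) (B (L (nat_lit 395) ln11_12_2 ln11_12_2_ok) (M (nat_lit 368) (B (L (nat_lit 365) ln16_11_1 ln16_11_1_ok) (L (nat_lit 399) ln12_12_2 ln12_12_2_ok))))) (M (nat_lit 399) (B (M (nat_lit 367) (B (L (nat_lit 395) ln11_12_2 ln11_12_2_ok)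 (L (nat_lit 368) ln12_12_2 ln12_12_2_ok))) (M (nat_lit 428) (B (L (nat_lit 427) ln15_12_1 ln15_12_1_ok) (L (nat_lit 400) ln16_12_1 ln16_12_1_ok))))))))) (B (M (nat_lit 364) (B (M (nat_lit 332) (B (L (nat_lit 300) ln12_9_4 ln12_9_4_ok) (L (nat_lit 365) ln13_14_7 ln13_14_7_ok))) (B (M (nat_lit 332) (B (L (nat_lit 365) ln13_14_7 ln13_14_7_ok) (L (nat_lit 428) ln12_10_4 ln12_10_4_ok))) (B (M (nat_lit 399) (B (L (nat_lit 363) ln15_12_3 ln15_12_3_ok) (M (nat_lit 400) (B (L (nat_lit 365) ln16_12_3 ln16_12_3_ok) (L (nat_lit 428) ln16_12_1 ln16_12_1_ok))))) (M (nat_lit 332) (B (L (nat_lit 300) ln12_9_4 ln12_9_4_ok) (L (nat_lit 428) ln12_10_4 ln12_10_4_ok))))))) (M (nat_lit 395) (B (M (nat_lit 366) (B (L (nat_lit 367) ln11_12_2 ln11_12_2_ok) (M (nat_lit 334) (B (L (nat_lit 302) ln14_9_5 ln14_9_5_ok) (L (nat_lit 365) ln13_14_6 ln13_14_6_ok))))) (B (M (nat_lit 366) (B (L (nat_lit 367) ln11_12_2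 ln11_12_2_ok) (M (nat_lit 365) (B (L (nat_lit 334) ln13_14_6 ln13_14_6_ok) (L (nat_lit 394) ln10_12_2 ln10_12_2_ok))))) (B (M (nat_lit 394) (B (M (nat_lit 362) (B (L (nat_lit 361) ln13_12_3 ln13_12_3_ok) (L (nat_lit 363) ln14_12_3 ln14_12_3_ok))) (M (nat_lit 366) (B (L (nat_lit 365) ln10_12_2 ln10_12_2_ok) (L (nat_lit 367) ln11_12_2 ln11_12_2_ok))))) (M (nat_lit 394) (B (M (nat_lit 362) (B (L (nat_lit 361) ln13_12_3 ln13_12_3_ok) (L (nat_lit 363) ln14_12_3 ln14_12_3_ok))) (M (nat_lit 426) (B (L (nat_lit 425) ln13_12_1 ln13_12_1_ok) (L (nat_lit 427) ln14_12_1 ln14_12_1_ok))))))))))))))))))))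
theorem c41_s8361 : Sem (nat_lit 1386334847221798047169638878925036799968406779833514899637066259859226863686603287896039777716422623628704219945445734162783797248) (nat_lit 1179363258141160341740993522651828978991464082850687913251374415359272114232243793149347388181235420588637677869330046204128457566592750839265558662003674844170175905792) (nat_lit 1179363258141160341740993522651828978991464082850687913251374415359272114232243793149347388181235420588637677869330046204128457566592750839265558662003674844170175905792) :=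
  sem_of_chk (M (nat_lit 397) (B (M (nat_lit 395) (B (M (nat_lit 430) (B (L (nat_lit 394) ln10_12_0 ln10_12_0_ok) (M (nat_lit 431) (B (L (nat_lit 428) ln15_13_3 ln15_13_3_ok) (L (nat_lit 432) ln16_13_3 ln16_13_3_ok))))) (B (M (nat_lit 398) (B (M (nat_lit 399) (B (M (nat_lit 367) (B (L (nat_lit 366) ln11_12_2 ln11_12_2_ok) (L (nat_lit 368) ln12_12_2 ln12_12_2_ok))) (M (nat_lit 427) (B (L (nat_lit 426) ln14_12_1 ln14_12_1_ok) (L (nat_lit 428) ln15_12_1 ln15_12_1_ok))))) (B (M (nat_lit 399) (B (M (nat_lit 427) (B (L (nat_lit 426) ln14_12_1 ln14_12_1_ok) (L (nat_lit 428) ln15_12_1 ln15_12_1_ok))) (M (nat_lit 431) (B (L (nat_lit 430) ln11_12_0 ln11_12_0_ok) (L (nat_lit 432) ln12_12_0 ln12_12_0_ok))))) (M (nat_lit 430) (B (L (nat_lit 431) ln11_12_0 ln11_12_0_ok) (M (nat_lit 366) (B (L (nat_lit 367) ln11_12_2 ln11_12_2_ok) (M (nat_lit 461) (B (L (nat_lit 334) ln14_10_5 ln14_10_5_ok) (L (nat_lit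 493) ln13_15_6 ln13_15_6_ok)))))))))) (B (M (nat_lit 430) (B (L (nat_lit 394) ln10_12_0 ln10_12_0_ok) (M (nat_lit 431) (B (L (nat_lit 398) ln11_12_0 ln11_12_0_ok) (L (nat_lit 432) ln16_13_3 ln16_13_3_ok))))) (M (nat_lit 398) (B (M (nat_lit 399) (B (M (nat_lit 367) (B (L (nat_lit 366) ln11_12_2 ln11_12_2_ok) (L (nat_lit 368) ln12_12_2 ln12_12_2_ok))) (M (nat_lit 427) (B (L (nat_lit 426) ln14_12_1 ln14_12_1_ok) (L (nat_lit 428) ln15_12_1 ln15_12_1_ok))))) (B (M (nat_lit 394) (B (M (nat_lit 362) (B (L (nat_lit 361) ln13_12_3 ln13_12_3_ok) (L (nat_lit 363) ln14_12_3 ln14_12_3_ok))) (M (nat_lit 426) (B (L (nat_lit 425) ln13_12_1 ln13_12_1_ok) (L (nat_lit 427) ln14_12_1 ln14_12_1_ok))))) (M (nat_lit 394) (B (M (nat_lit 362) (B (L (nat_lit 361) ln13_12_3 ln13_12_3_ok) (L (nat_lit 363) ln14_12_3 ln14_12_3_ok))) (M (nat_lit 366) (B (L (nat_lit 365) ln10_12_2 ln10_12_2_ok) (L (nat_lit 367) ln11_12_2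 ln11_12_2_ok)))))))))))) (B c41_n7823 (B (M (nat_lit 366) (B (M (nat_lit 398) (B (M (nat_lit 461) (B (L (nat_lit 493) ln13_15_6 ln13_15_6_ok) (M (nat_lit 334) (B (L (nat_lit 302) ln14_9_5 ln14_9_5_ok) (L (nat_lit 430) ln14_10_5 ln14_10_5_ok))))) (B (M (nat_lit 395) (B (L (nat_lit 367) ln11_12_2 ln11_12_2_ok) (M (nat_lit 430) (B (L (nat_lit 394) ln10_12_0 ln10_12_0_ok) (L (nat_lit 431) ln11_12_0 ln11_12_0_ok))))) (M (nat_lit 367) (B (L (nat_lit 395) ln11_12_2 ln11_12_2_ok) (M (nat_lit 368) (B (L (nat_lit 369) ln17_11_1 ln17_11_1_ok) (L (nat_lit 399) ln12_12_2 ln12_12_2_ok)))))))) (B (M (nat_lit 398) (B (M (nat_lit 367) (B (L (nat_lit 395) ln11_12_2 ln11_12_2_ok) (M (nat_lit 368) (B (L (nat_lit 369) ln17_11_1 ln17_11_1_ok) (L (nat_lit 399) ln12_12_2 ln12_12_2_ok))))) (M (nat_lit 461) (B (L (nat_lit 493) ln13_15_6 ln13_15_6_ok) (M (nat_lit 334) (B (L (nat_lit 365) ln13_14_6 ln13_14_6_ok)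 (L (nat_lit 430) ln14_10_5 ln14_10_5_ok))))))) (B (M (nat_lit 395) (B (M (nat_lit 394) (B (L (nat_lit 365) ln10_12_2 ln10_12_2_ok) (L (nat_lit 430) ln10_12_0 ln10_12_0_ok))) (B (M (nat_lit 430) (B (L (nat_lit 394) ln10_12_0 ln10_12_0_ok) (M (nat_lit 398) (B (L (nat_lit 367) ln11_12_2 ln11_12_2_ok) (L (nat_lit 431) ln11_12_0 ln11_12_0_ok))))) (M (nat_lit 367) (B (L (nat_lit 398) ln11_12_2 ln11_12_2_ok) (M (nat_lit 365) (B (L (nat_lit 364) ln15_11_1 ln15_11_1_ok) (L (nat_lit 368) ln16_11_1 ln16_11_1_ok)))))))) (B (M (nat_lit 461) (B (M (nat_lit 493) (B (L (nat_lit 364) ln13_15_7 ln13_15_7_ok) (L (nat_lit 398) ln13_15_6 ln13_15_6_ok))) (B (M (nat_lit 398) (B (L (nat_lit 493) ln13_15_6 ln13_15_6_ok) (M (nat_lit 334) (B (L (nat_lit 365) ln13_14_6 ln13_14_6_ok) (L (nat_lit 430) ln14_10_5 ln14_10_5_ok))))) (B (M (nat_lit 365) (B (L (nat_lit 334) ln13_14_6 ln13_14_6_ok) (M (nat_lit 364) (B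 (L (nat_lit 332) ln13_14_7 ln13_14_7_ok) (L (nat_lit 493) ln13_15_7 ln13_15_7_ok))))) (M (nat_lit 334) (B (L (nat_lit 365) ln13_14_6 ln13_14_6_ok) (M (nat_lit 398) (B (L (nat_lit 302) ln14_9_5 ln14_9_5_ok) (L (nat_lit 430) ln14_10_5 ln14_10_5_ok))))))))) (M (nat_lit 365) (B (M (nat_lit 395) (B (L (nat_lit 394) ln10_12_2 ln10_12_2_ok) (M (nat_lit 367) (B (L (nat_lit 364) ln15_11_1 ln15_11_1_ok) (L (nat_lit 368) ln16_11_1 ln16_11_1_ok))))) (M (nat_lit 334) (B (L (nat_lit 461) ln13_14_6 ln13_14_6_ok) (M (nat_lit 302) (B (L (nat_lit 270) ln14_8_5 ln14_8_5_ok) (L (nat_lit 333) ln13_13_6 ln13_13_6_ok)))))))))))) (B c41_n7861 (B (K (nat_lit 1386334847544579281930502452632026696468783264124728123740719198963059283254184240648144927045128292788721448874933630659377233920) (nat_lit 219673525207292944374580593762010237531767162348791019435294845067277492745782160508013927705626350549819014198314590097956636992898381224163553155895527473152)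 (nat_lit 219673525207292944374580593762010237531767162348791019435294845067277492745782160508013927705626350549819014198314590097956636992898381224163553155895527473152) c41_s7965) (B c41_n8074 (B (M (nat_lit 398) (B (M (nat_lit 364) (B (M (nat_lit 399) (B (L (nat_lit 363) ln15_12_3 ln15_12_3_ok) (M (nat_lit 400) (B (L (nat_lit 365) ln16_12_3 ln16_12_3_ok) (L (nat_lit 428) ln16_12_1 ln16_12_1_ok))))) (B (M (nat_lit 461) (B (L (nat_lit 493) ln13_15_7 ln13_15_7_ok) (M (nat_lit 332) (B (L (nat_lit 300) ln12_9_4 ln12_9_4_ok) (L (nat_lit 428) ln12_10_4 ln12_10_4_ok))))) (M (nat_lit 461) (B (L (nat_lit 493) ln13_15_7 ln13_15_7_ok) (M (nat_lit 332) (B (L (nat_lit 300) ln12_9_4 ln12_9_4_ok) (L (nat_lit 365) ln13_14_7 ln13_14_7_ok)))))))) (B (M (nat_lit 364) (B (M (nat_lit 399) (B (L (nat_lit 363) ln15_12_3 ln15_12_3_ok) (M (nat_lit 428) (B (L (nat_lit 427) ln15_12_1 ln15_12_1_ok) (L (nat_lit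 400) ln16_12_1 ln16_12_1_ok))))) (B (M (nat_lit 461) (B (L (nat_lit 493) ln13_15_7 ln13_15_7_ok) (M (nat_lit 332) (B (L (nat_lit 365) ln13_14_7 ln13_14_7_ok) (L (nat_lit 428) ln12_10_4 ln12_10_4_ok))))) (M (nat_lit 365) (B (M (nat_lit 461) (B (L (nat_lit 332) ln13_14_7 ln13_14_7_ok) (L (nat_lit 493) ln13_15_7 ln13_15_7_ok))) (M (nat_lit 399) (B (L (nat_lit 363) ln15_12_3 ln15_12_3_ok) (L (nat_lit 400) ln16_12_3 ln16_12_3_ok)))))))) (B (M (nat_lit 399) (B (M (nat_lit 428) (B (L (nat_lit 427) ln15_12_1 ln15_12_1_ok) (L (nat_lit 400) ln16_12_1 ln16_12_1_ok))) (M (nat_lit 395) (B (M (nat_lit 367) (B (L (nat_lit 366) ln11_12_2 ln11_12_2_ok) (L (nat_lit 368) ln12_12_2 ln12_12_2_ok))) (M (nat_lit 431) (B (L (nat_lit 430) ln11_12_0 ln11_12_0_ok) (L (nat_lit 432) ln12_12_0 ln12_12_0_ok))))))) (M (nat_lit 366) (B (M (nat_lit 367) (B (L (nat_lit 395) ln11_12_2 ln11_12_2_ok) (M (nat_lit 368) (B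 (L (nat_lit 365) ln16_11_1 ln16_11_1_ok) (L (nat_lit 369) ln17_11_1 ln17_11_1_ok))))) (M (nat_lit 461) (B (L (nat_lit 493) ln13_15_6 ln13_15_6_ok) (M (nat_lit 334) (B (L (nat_lit 302) ln14_9_5 ln14_9_5_ok) (L (nat_lit 430) ln14_10_5 ln14_10_5_ok))))))))))) (B (K (nat_lit 1386334847544579281930502452632026696468783264124728123740719198963059283254184240648144927045128292788721448874933630659377233920) (nat_lit 235872651935775003674211536371481755611284839287759243068151667465243375965534873703667419033417191010382798204930800615033659989912293756630108076040010317086515527680) (nat_lit 235872651935775003674211536371481755611284839287759243068151667465243375965534873703667419033417191010382798204930800615033659989912293756630108076040010317086515527680) c41_s8295) (B (M (nat_lit 461) (B (M (nat_lit 364) (B (L (nat_lit 493) ln13_15_7 ln13_15_7_ok) (M (nat_lit 332) (B (L (nat_lit 300)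 ln12_9_4 ln12_9_4_ok) (L (nat_lit 428) ln12_10_4 ln12_10_4_ok))))) (B (M (nat_lit 364) (B (L (nat_lit 493) ln13_15_7 ln13_15_7_ok) (M (nat_lit 332) (B (L (nat_lit 365) ln13_14_7 ln13_14_7_ok) (L (nat_lit 428) ln12_10_4 ln12_10_4_ok))))) (B (M (nat_lit 493) (B (L (nat_lit 364) ln13_15_7 ln13_15_7_ok) (M (nat_lit 525) (B (L (nat_lit 428) ln13_16_7 ln13_16_7_ok) (M (nat_lit 524) (B (L (nat_lit 492) ln13_12_5 ln13_12_5_ok) (L (nat_lit 556) ln13_13_5 ln13_13_5_ok))))))) (B (M (nat_lit 365) (B (M (nat_lit 333) (B (M (nat_lit 334) (B (L (nat_lit 302) ln13_13_6 ln13_13_6_ok) (L (nat_lit 366) ln13_14_6 ln13_14_6_ok))) (M (nat_lit 462) (B (L (nat_lit 430) ln13_10_4 ln13_10_4_ok) (L (nat_lit 494) ln13_11_4 ln13_11_4_ok))))) (B (M (nat_lit 493) (B (M (nat_lit 494) (B (L (nat_lit 462) ln13_11_4 ln13_11_4_ok) (L (nat_lit 526) ln13_12_4 ln13_12_4_ok))) (M (nat_lit 525) (B (L (nat_lit 428) ln13_16_7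 ln13_16_7_ok) (M (nat_lit 524) (B (L (nat_lit 492) ln13_12_5 ln13_12_5_ok) (L (nat_lit 556) ln13_13_5 ln13_13_5_ok))))))) (M (nat_lit 333) (B (M (nat_lit 334) (B (L (nat_lit 302) ln13_13_6 ln13_13_6_ok) (L (nat_lit 366) ln13_14_6 ln13_14_6_ok))) (M (nat_lit 300) (B (L (nat_lit 332) ln13_13_7 ln13_13_7_ok) (M (nat_lit 301) (B (L (nat_lit 268) ln13_12_7 ln13_12_7_ok) (L (nat_lit 428) ln13_9_5 ln13_9_5_ok)))))))))) (B (M (nat_lit 364) (B (L (nat_lit 493) ln13_15_7 ln13_15_7_ok) (M (nat_lit 332) (B (L (nat_lit 300) ln12_9_4 ln12_9_4_ok) (L (nat_lit 365) ln13_14_7 ln13_14_7_ok))))) (M (nat_lit 364) (B (M (nat_lit 332) (B (L (nat_lit 300) ln12_9_4 ln12_9_4_ok) (L (nat_lit 365) ln13_14_7 ln13_14_7_ok))) (B (M (nat_lit 332) (B (L (nat_lit 365) ln13_14_7 ln13_14_7_ok) (L (nat_lit 428) ln12_10_4 ln12_10_4_ok))) (B (M (nat_lit 365) (B (M (nat_lit 366) (B (L (nat_lit 334) ln13_14_6 ln13_14_6_ok)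 (M (nat_lit 367) (B (L (nat_lit 395) ln15_11_1 ln15_11_1_ok) (L (nat_lit 368) ln16_11_1 ln16_11_1_ok))))) (M (nat_lit 333) (B (M (nat_lit 301) (B (L (nat_lit 269) ln13_8_5 ln13_8_5_ok) (L (nat_lit 428) ln13_9_5 ln13_9_5_ok))) (M (nat_lit 462) (B (L (nat_lit 430) ln13_10_4 ln13_10_4_ok) (L (nat_lit 494) ln13_11_4 ln13_11_4_ok))))))) (M (nat_lit 332) (B (L (nat_lit 300) ln12_9_4 ln12_9_4_ok) (L (nat_lit 428) ln12_10_4 ln12_10_4_ok))))))))))))) (B c41_n8359 (M (nat_lit 395) (B (M (nat_lit 430) (B (L (nat_lit 394) ln10_12_0 ln10_12_0_ok) (M (nat_lit 431) (B (L (nat_lit 428) ln15_13_3 ln15_13_3_ok) (L (nat_lit 432) ln16_13_3 ln16_13_3_ok))))) (B (M (nat_lit 430) (B (M (nat_lit 431) (B (L (nat_lit 398) ln11_12_0 ln11_12_0_ok) (L (nat_lit 428) ln15_13_3 ln15_13_3_ok))) (B (M (nat_lit 431) (B (L (nat_lit 428) ln15_13_3 ln15_13_3_ok) (L (nat_lit 432) ln16_13_3 ln16_13_3_ok))) (B (M (nat_lit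 431) (B (L (nat_lit 398) ln11_12_0 ln11_12_0_ok) (L (nat_lit 432) ln16_13_3 ln16_13_3_ok))) (M (nat_lit 398) (B (M (nat_lit 363) (B (L (nat_lit 362) ln14_12_3 ln14_12_3_ok) (M (nat_lit 399) (B (L (nat_lit 364) ln15_12_3 ln15_12_3_ok) (M (nat_lit 367) (B (L (nat_lit 366) ln11_12_2 ln11_12_2_ok) (L (nat_lit 368) ln12_12_2 ln12_12_2_ok))))))) (B (M (nat_lit 399) (B (M (nat_lit 367) (B (L (nat_lit 366) ln11_12_2 ln11_12_2_ok) (L (nat_lit 368) ln12_12_2 ln12_12_2_ok))) (M (nat_lit 427) (B (L (nat_lit 426) ln14_12_1 ln14_12_1_ok) (L (nat_lit 428) ln15_12_1 ln15_12_1_ok))))) (B (M (nat_lit 399) (B (M (nat_lit 363) (B (L (nat_lit 362) ln14_12_3 ln14_12_3_ok) (L (nat_lit 364) ln15_12_3 ln15_12_3_ok))) (M (nat_lit 427) (B (L (nat_lit 426) ln14_12_1 ln14_12_1_ok) (L (nat_lit 428) ln15_12_1 ln15_12_1_ok))))) (M (nat_lit 462) (B (M (nat_lit 365) (B (L (nat_lit 333) ln13_10_4 ln13_10_4_ok) (L (nat_lit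 494) ln14_15_7 ln14_15_7_ok))) (B (M (nat_lit 494) (B (L (nat_lit 365) ln14_15_7 ln14_15_7_ok) (L (nat_lit 526) ln14_16_7 ln14_16_7_ok))) (M (nat_lit 463) (B (M (nat_lit 366) (B (L (nat_lit 367) ln11_12_2 ln11_12_2_ok) (L (nat_lit 495) ln14_11_4 ln14_11_4_ok))) (M (nat_lit 427) (B (L (nat_lit 426) ln14_12_1 ln14_12_1_ok) (L (nat_lit 428) ln11_13_0 ln11_13_0_ok)))))))))))))))) (B (M (nat_lit 430) (B (L (nat_lit 394) ln10_12_0 ln10_12_0_ok) (M (nat_lit 431) (B (L (nat_lit 398) ln11_12_0 ln11_12_0_ok) (L (nat_lit 432) ln16_13_3 ln16_13_3_ok))))) (M (nat_lit 394) (B (M (nat_lit 393) (B (L (nat_lit 428) ln9_12_0 ln9_12_0_ok) (M (nat_lit 425) (B (L (nat_lit 424) ln12_12_1 ln12_12_1_ok) (L (nat_lit 426) ln13_12_1 ln13_12_1_ok))))) (B (M (nat_lit 398) (B (M (nat_lit 362) (B (L (nat_lit 361) ln13_12_3 ln13_12_3_ok) (L (nat_lit 363) ln14_12_3 ln14_12_3_ok))) (M (nat_lit 426) (B (L (nat_lit 425)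 ln13_12_1 ln13_12_1_ok) (L (nat_lit 427) ln14_12_1 ln14_12_1_ok))))) (M (nat_lit 393) (B (L (nat_lit 428) ln9_12_0 ln9_12_0_ok) (M (nat_lit 361) (B (L (nat_lit 360) ln12_12_3 ln12_12_3_ok) (L (nat_lit 362) ln13_12_3 ln13_12_3_ok))))))))))))))))))))))) (nat_lit 1386334847221798047169638878925036799968406779833514899637066259859226863686603287896039777716422623628704219945445734162783797248) (nat_lit 1179363258141160341740993522651828978991464082850687913251374415359272114232243793149347388181235420588637677869330046204128457566592750839265558662003674844170175905792) (nat_lit 1179363258141160341740993522651828978991464082850687913251374415359272114232243793149347388181235420588637677869330046204128457566592750839265558662003674844170175905792) (by decide +kernel)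
noncomputable def c41_n8402 : Cert := (M (nat_lit 395) (B (M (nat_lit 430) (B (L (nat_lit 431) ln15_13_3 ln15_13_3_ok) (M (nat_lit 394) (B (L (nat_lit 393) ln9_12_0 ln9_12_0_ok) (L (nat_lit 397) ln10_12_0 ln10_12_0_ok))))) (B (M (nat_lit 430) (B (L (nat_lit 431) ln15_13_3 ln15_13_3_ok) (M (nat_lit 394) (B (L (nat_lit 397) ln10_12_0 ln10_12_0_ok) (L (nat_lit 427) ln14_13_3 ln14_13_3_ok))))) (B (M (nat_lit 427) (B (M (nat_lit 430) (B (L (nat_lit 431) ln15_13_3 ln15_13_3_ok) (M (nat_lit 398) (B (L (nat_lit 399) ln11_13_2 ln11_13_2_ok) (M (nat_lit 426) (B (L (nat_lit 397) ln14_12_1 ln14_12_1_ok) (M (nat_lit 458) (B (L (nat_lit 457) ln13_13_1 ln13_13_1_ok) (L (nat_lit 459) ln14_13_1 ln14_13_1_ok))))))))) (B (M (nat_lit 492) (B (M (nat_lit 460) (B (L (nat_lit 363) ln12_15_7 ln12_15_7_ok) (L (nat_lit 524) ln12_16_7 ln12_16_7_ok))) (B (M (nat_lit 491) (B (M (nat_lit 524) (B (L (nat_lit 460)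 ln12_16_7 ln12_16_7_ok) (L (nat_lit 459) ln11_12_4 ln11_12_4_ok))) (B (M (nat_lit 460) (B (L (nat_lit 524) ln12_16_7 ln12_16_7_ok) (L (nat_lit 523) ln12_12_5 ln12_12_5_ok))) (B (M (nat_lit 459) (B (L (nat_lit 524) ln11_12_4 ln11_12_4_ok) (L (nat_lit 523) ln11_16_6 ln11_16_6_ok))) (M (nat_lit 523) (B (L (nat_lit 459) ln11_16_6 ln11_16_6_ok) (L (nat_lit 460) ln12_12_5 ln12_12_5_ok))))))) (B (M (nat_lit 459) (B (M (nat_lit 491) (B (L (nat_lit 524) ln11_12_4 ln11_12_4_ok) (L (nat_lit 523) ln11_16_6 ln11_16_6_ok))) (M (nat_lit 430) (B (L (nat_lit 431) ln15_13_3 ln15_13_3_ok) (L (nat_lit 458) ln14_13_1 ln14_13_1_ok))))) (M (nat_lit 363) (B (L (nat_lit 460) ln12_15_7 ln12_15_7_ok) (M (nat_lit 458) (B (M (nat_lit 331) (B (L (nat_lit 299) ln11_9_4 ln11_9_4_ok) (L (nat_lit 426) ln11_10_5 ln11_10_5_ok))) (M (nat_lit 430) (B (L (nat_lit 431) ln15_13_3 ln15_13_3_ok) (L (nat_lit 459) ln14_13_1 ln14_13_1_ok)))))))))))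 (B (M (nat_lit 430) (B (L (nat_lit 431) ln15_13_3 ln15_13_3_ok) (M (nat_lit 363) (B (M (nat_lit 460) (B (L (nat_lit 331) ln11_10_4 ln11_10_4_ok) (L (nat_lit 492) ln12_15_7 ln12_15_7_ok))) (M (nat_lit 362) (B (M (nat_lit 459) (B (L (nat_lit 330) ln11_14_7 ln11_14_7_ok) (L (nat_lit 458) ln14_13_1 ln14_13_1_ok))) (M (nat_lit 398) (B (L (nat_lit 397) ln14_12_3 ln14_12_3_ok) (L (nat_lit 399) ln11_13_2 ln11_13_2_ok))))))))) (B (M (nat_lit 426) (B (M (nat_lit 397) (B (L (nat_lit 398) ln14_12_1 ln14_12_1_ok) (L (nat_lit 425) ln9_13_2 ln9_13_2_ok))) (B (M (nat_lit 425) (B (L (nat_lit 424) ln8_13_2 ln8_13_2_ok) (M (nat_lit 457) (B (L (nat_lit 456) ln12_13_1 ln12_13_1_ok) (L (nat_lit 458) ln13_13_1 ln13_13_1_ok))))) (M (nat_lit 458) (B (L (nat_lit 457) ln13_13_1 ln13_13_1_ok) (M (nat_lit 363) (B (L (nat_lit 331) ln11_10_5 ln11_10_5_ok) (M (nat_lit 490) (B (L (nat_lit 459) ln11_11_5 ln11_11_5_ok)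 (L (nat_lit 522) ln10_16_6 ln10_16_6_ok)))))))))) (M (nat_lit 398) (B (M (nat_lit 397) (B (L (nat_lit 426) ln14_12_1 ln14_12_1_ok) (L (nat_lit 399) ln15_12_1 ln15_12_1_ok))) (B (M (nat_lit 430) (B (L (nat_lit 431) ln15_13_3 ln15_13_3_ok) (L (nat_lit 399) ln11_13_2 ln11_13_2_ok))) (M (nat_lit 363) (B (M (nat_lit 331) (B (L (nat_lit 299) ln11_9_4 ln11_9_4_ok) (L (nat_lit 460) ln11_10_4 ln11_10_4_ok))) (M (nat_lit 397) (B (L (nat_lit 362) ln14_12_3 ln14_12_3_ok) (L (nat_lit 426) ln14_12_1 ln14_12_1_ok))))))))))))) (B (M (nat_lit 430) (B (L (nat_lit 431) ln15_13_3 ln15_13_3_ok) (M (nat_lit 394) (B (L (nat_lit 393) ln9_12_0 ln9_12_0_ok) (L (nat_lit 427) ln14_13_3 ln14_13_3_ok))))) (M (nat_lit 394) (B (L (nat_lit 393) ln9_12_0 ln9_12_0_ok) (M (nat_lit 397) (B (M (nat_lit 365) (B (L (nat_lit 366) ln10_12_2 ln10_12_2_ok) (M (nat_lit 333) (B (L (nat_lit 301) ln13_9_5 ln13_9_5_ok) (L (nat_lit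 460) ln13_10_5 ln13_10_5_ok))))) (M (nat_lit 398) (B (M (nat_lit 362) (B (L (nat_lit 361) ln13_12_3 ln13_12_3_ok) (L (nat_lit 363) ln14_12_3 ln14_12_3_ok))) (M (nat_lit 399) (B (L (nat_lit 427) ln15_12_1 ln15_12_1_ok) (L (nat_lit 400) ln16_12_1 ln16_12_1_ok))))))))))))))
noncomputable def c41_n8408 : Cert := (M (nat_lit 460) (B (M (nat_lit 427) (B (M (nat_lit 395) (B (L (nat_lit 394) ln14_13_3 ln14_13_3_ok) (M (nat_lit 363) (B (L (nat_lit 331) ln11_10_4 ln11_10_4_ok) (L (nat_lit 492) ln12_15_7 ln12_15_7_ok))))) (M (nat_lit 459) (B (L (nat_lit 458) ln14_13_1 ln14_13_1_ok) (M (nat_lit 364) (B (L (nat_lit 332) ln12_10_5 ln12_10_5_ok) (L (nat_lit 491) ln12_11_5 ln12_11_5_ok))))))) (B (M (nat_lit 427) (B (M (nat_lit 459) (B (L (nat_lit 458) ln14_13_1 ln14_13_1_ok) (M (nat_lit 364) (B (L (nat_lit 332) ln12_10_5 ln12_10_5_ok) (L (nat_lit 491) ln12_11_5 ln12_11_5_ok))))) (M (nat_lit 395) (B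 (L (nat_lit 394) ln14_13_3 ln14_13_3_ok) (M (nat_lit 492) (B (L (nat_lit 363) ln12_15_7 ln12_15_7_ok) (L (nat_lit 524) ln12_16_7 ln12_16_7_ok))))))) (B (M (nat_lit 427) (B (M (nat_lit 395) (B (L (nat_lit 394) ln14_13_3 ln14_13_3_ok) (M (nat_lit 492) (B (L (nat_lit 363) ln12_15_7 ln12_15_7_ok) (L (nat_lit 524) ln12_16_7 ln12_16_7_ok))))) (M (nat_lit 459) (B (L (nat_lit 458) ln14_13_1 ln14_13_1_ok) (M (nat_lit 491) (B (L (nat_lit 364) ln12_11_5 ln12_11_5_ok) (L (nat_lit 523) ln11_16_6 ln11_16_6_ok))))))) (B (M (nat_lit 427) (B (M (nat_lit 459) (B (L (nat_lit 458) ln14_13_1 ln14_13_1_ok) (M (nat_lit 491) (B (L (nat_lit 364) ln12_11_5 ln12_11_5_ok) (L (nat_lit 523) ln11_16_6 ln11_16_6_ok))))) (M (nat_lit 397) (B (M (nat_lit 365) (B (L (nat_lit 333) ln13_10_5 ln13_10_5_ok) (L (nat_lit 492) ln12_15_6 ln12_15_6_ok))) (M (nat_lit 398) (B (L (nat_lit 399) ln15_12_1 ln15_12_1_ok) (L (nat_lit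 426) ln10_13_2 ln10_13_2_ok))))))) (B (M (nat_lit 427) (B (M (nat_lit 395) (B (L (nat_lit 394) ln14_13_3 ln14_13_3_ok) (M (nat_lit 363) (B (L (nat_lit 331) ln11_10_4 ln11_10_4_ok) (L (nat_lit 492) ln12_15_7 ln12_15_7_ok))))) (M (nat_lit 426) (B (M (nat_lit 397) (B (L (nat_lit 425) ln9_13_2 ln9_13_2_ok) (L (nat_lit 398) ln10_13_2 ln10_13_2_ok))) (M (nat_lit 458) (B (L (nat_lit 457) ln13_13_1 ln13_13_1_ok) (L (nat_lit 459) ln14_13_1 ln14_13_1_ok))))))) (B (M (nat_lit 492) (B (M (nat_lit 397) (B (L (nat_lit 365) ln12_15_6 ln12_15_6_ok) (L (nat_lit 524) ln12_16_6 ln12_16_6_ok))) (M (nat_lit 364) (B (M (nat_lit 363) (B (L (nat_lit 331) ln12_14_7 ln12_14_7_ok) (L (nat_lit 395) ln12_15_7 ln12_15_7_ok))) (M (nat_lit 491) (B (L (nat_lit 459) ln12_11_5 ln12_11_5_ok) (L (nat_lit 523) ln12_12_5 ln12_12_5_ok))))))) (B (M (nat_lit 395) (B (M (nat_lit 394) (B (L (nat_lit 397) ln10_12_0 ln10_12_0_ok)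 (L (nat_lit 427) ln14_13_3 ln14_13_3_ok))) (B (M (nat_lit 492) (B (L (nat_lit 363) ln12_15_7 ln12_15_7_ok) (M (nat_lit 397) (B (L (nat_lit 365) ln12_15_6 ln12_15_6_ok) (L (nat_lit 524) ln12_16_6 ln12_16_6_ok))))) (M (nat_lit 427) (B (L (nat_lit 394) ln14_13_3 ln14_13_3_ok) (M (nat_lit 363) (B (L (nat_lit 331) ln11_10_4 ln11_10_4_ok) (L (nat_lit 492) ln12_15_7 ln12_15_7_ok)))))))) (M (nat_lit 364) (B (M (nat_lit 459) (B (L (nat_lit 491) ln12_11_5 ln12_11_5_ok) (M (nat_lit 427) (B (L (nat_lit 332) ln12_10_5 ln12_10_5_ok) (L (nat_lit 458) ln14_13_1 ln14_13_1_ok))))) (B (M (nat_lit 459) (B (L (nat_lit 491) ln12_11_5 ln12_11_5_ok) (M (nat_lit 458) (B (L (nat_lit 427) ln14_13_1 ln14_13_1_ok) (L (nat_lit 457) ln9_14_2 ln9_14_2_ok))))) (M (nat_lit 332) (B (M (nat_lit 331) (B (L (nat_lit 299) ln12_13_7 ln12_13_7_ok) (L (nat_lit 363) ln12_14_7 ln12_14_7_ok))) (M (nat_lit 333) (B (L (nat_lit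 301) ln12_13_6 ln12_13_6_ok) (L (nat_lit 365) ln12_14_6 ln12_14_6_ok))))))))))))))))
noncomputable def c41_n8409 : Cert := (M (nat_lit 430) (B (M (nat_lit 395) (B (L (nat_lit 431) ln15_13_3 ln15_13_3_ok) (M (nat_lit 394) (B (L (nat_lit 397) ln10_12_0 ln10_12_0_ok) (L (nat_lit 427) ln14_13_3 ln14_13_3_ok))))) (B (M (nat_lit 431) (B (L (nat_lit 395) ln15_13_3 ln15_13_3_ok) (M (nat_lit 400) (B (L (nat_lit 399) ln12_13_2 ln12_13_2_ok) (M (nat_lit 432) (B (L (nat_lit 397) ln16_13_3 ln16_13_3_ok) (L (nat_lit 401) ln13_13_2 ln13_13_2_ok))))))) (B (M (nat_lit 431) (B (M (nat_lit 400) (B (L (nat_lit 399) ln12_13_2 ln12_13_2_ok) (M (nat_lit 432) (B (L (nat_lit 397) ln16_13_3 ln16_13_3_ok) (L (nat_lit 401) ln13_13_2 ln13_13_2_ok))))) (M (nat_lit 427) (B (M (nat_lit 459) (B (L (nat_lit 458) ln14_13_1 ln14_13_1_ok) (L (nat_lit 460) ln15_13_1 ln15_13_1_ok))) (M (nat_lit 463) (B (L (nat_lit 462)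 ln11_13_0 ln11_13_0_ok) (L (nat_lit 464) ln12_13_0 ln12_13_0_ok))))))) (B (M (nat_lit 431) (B (L (nat_lit 395) ln15_13_3 ln15_13_3_ok) (M (nat_lit 427) (B (M (nat_lit 459) (B (L (nat_lit 458) ln14_13_1 ln14_13_1_ok) (L (nat_lit 460) ln15_13_1 ln15_13_1_ok))) (M (nat_lit 463) (B (L (nat_lit 462) ln11_13_0 ln11_13_0_ok) (L (nat_lit 464) ln12_13_0 ln12_13_0_ok))))))) c41_n8408)))))
theorem c41_s8585 : Sem (nat_lit 2079502270752001762064242424960807725827516048677469043429686155012882190638009693656033379242457518153052022685796627120027336704) (nat_lit 27459190659702462042196931202926459147409032367606470160441065355409728991792779482488392115939339433687172600756250186073942802901556806398194140803059679232) (nat_lit 27459190659702462042196931202926459147409032367606470160441065355409728991792779482488392115939339433687172600756250186073942802901556806398194140803059679232) :=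
  sem_of_chk (M (nat_lit 364) (B (M (nat_lit 430) (B (M (nat_lit 395) (B (L (nat_lit 431) ln15_13_3 ln15_13_3_ok) (M (nat_lit 394) (B (L (nat_lit 393) ln9_12_0 ln9_12_0_ok) (L (nat_lit 427) ln14_13_3 ln14_13_3_ok))))) (B (M (nat_lit 427) (B (M (nat_lit 395) (B (L (nat_lit 394) ln14_13_3 ln14_13_3_ok) (L (nat_lit 431) ln15_13_3 ln15_13_3_ok))) (M (nat_lit 459) (B (L (nat_lit 332) ln12_10_5 ln12_10_5_ok) (L (nat_lit 458) ln14_13_1 ln14_13_1_ok))))) (B (M (nat_lit 459) (B (M (nat_lit 427) (B (L (nat_lit 332) ln12_10_5 ln12_10_5_ok) (L (nat_lit 458) ln14_13_1 ln14_13_1_ok))) (M (nat_lit 431) (B (L (nat_lit 395) ln15_13_3 ln15_13_3_ok) (L (nat_lit 460) ln15_13_1 ln15_13_1_ok))))) (B (M (nat_lit 459) (B (M (nat_lit 427) (B (L (nat_lit 332) ln12_10_5 ln12_10_5_ok) (L (nat_lit 458) ln14_13_1 ln14_13_1_ok))) (M (nat_lit 460) (B (L (nat_lit 491) ln12_11_5 ln12_11_5_ok) (L (nat_lit 431) ln15_13_1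 ln15_13_1_ok))))) (B (M (nat_lit 460) (B (M (nat_lit 431) (B (L (nat_lit 395) ln15_13_3 ln15_13_3_ok) (L (nat_lit 459) ln15_13_1 ln15_13_1_ok))) (B (M (nat_lit 459) (B (L (nat_lit 491) ln12_11_5 ln12_11_5_ok) (L (nat_lit 431) ln15_13_1 ln15_13_1_ok))) (B (M (nat_lit 492) (B (M (nat_lit 363) (B (L (nat_lit 331) ln12_14_7 ln12_14_7_ok) (L (nat_lit 395) ln12_15_7 ln12_15_7_ok))) (M (nat_lit 491) (B (L (nat_lit 459) ln12_11_5 ln12_11_5_ok) (L (nat_lit 523) ln12_12_5 ln12_12_5_ok))))) (M (nat_lit 395) (B (L (nat_lit 431) ln15_13_3 ln15_13_3_ok) (M (nat_lit 363) (B (L (nat_lit 331) ln12_14_7 ln12_14_7_ok) (L (nat_lit 492) ln12_15_7 ln12_15_7_ok))))))))) (M (nat_lit 460) (B (M (nat_lit 459) (B (L (nat_lit 491) ln12_11_5 ln12_11_5_ok) (M (nat_lit 427) (B (L (nat_lit 332) ln12_10_5 ln12_10_5_ok) (L (nat_lit 458) ln14_13_1 ln14_13_1_ok))))) (B (M (nat_lit 395) (B (M (nat_lit 363) (B (L (nat_lit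 331) ln12_14_7 ln12_14_7_ok) (L (nat_lit 492) ln12_15_7 ln12_15_7_ok))) (M (nat_lit 394) (B (L (nat_lit 393) ln9_12_0 ln9_12_0_ok) (L (nat_lit 427) ln14_13_3 ln14_13_3_ok))))) (M (nat_lit 492) (B (M (nat_lit 363) (B (L (nat_lit 331) ln12_14_7 ln12_14_7_ok) (L (nat_lit 395) ln12_15_7 ln12_15_7_ok))) (M (nat_lit 491) (B (L (nat_lit 459) ln12_11_5 ln12_11_5_ok) (L (nat_lit 523) ln12_12_5 ln12_12_5_ok)))))))))))))) (B (M (nat_lit 430) (B (M (nat_lit 395) (B (L (nat_lit 431) ln15_13_3 ln15_13_3_ok) (M (nat_lit 394) (B (L (nat_lit 393) ln9_12_0 ln9_12_0_ok) (L (nat_lit 427) ln14_13_3 ln14_13_3_ok))))) (B (M (nat_lit 427) (B (M (nat_lit 395) (B (L (nat_lit 394) ln14_13_3 ln14_13_3_ok) (L (nat_lit 431) ln15_13_3 ln15_13_3_ok))) (M (nat_lit 459) (B (L (nat_lit 332) ln12_10_5 ln12_10_5_ok) (L (nat_lit 458) ln14_13_1 ln14_13_1_ok))))) (B (M (nat_lit 459) (B (M (nat_lit 427) (B (L (nat_lit 332)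 ln12_10_5 ln12_10_5_ok) (L (nat_lit 458) ln14_13_1 ln14_13_1_ok))) (M (nat_lit 431) (B (L (nat_lit 395) ln15_13_3 ln15_13_3_ok) (L (nat_lit 460) ln15_13_1 ln15_13_1_ok))))) (B (M (nat_lit 459) (B (M (nat_lit 427) (B (L (nat_lit 332) ln12_10_5 ln12_10_5_ok) (L (nat_lit 458) ln14_13_1 ln14_13_1_ok))) (M (nat_lit 460) (B (L (nat_lit 491) ln12_11_5 ln12_11_5_ok) (L (nat_lit 431) ln15_13_1 ln15_13_1_ok))))) (B (M (nat_lit 395) (B (L (nat_lit 431) ln15_13_3 ln15_13_3_ok) (M (nat_lit 365) (B (M (nat_lit 333) (B (L (nat_lit 460) ln12_14_6 ln12_14_6_ok) (M (nat_lit 301) (B (L (nat_lit 269) ln13_8_5 ln13_8_5_ok) (L (nat_lit 332) ln12_13_6 ln12_13_6_ok))))) (M (nat_lit 394) (B (L (nat_lit 393) ln9_12_2 ln9_12_2_ok) (M (nat_lit 366) (B (L (nat_lit 363) ln14_11_1 ln14_11_1_ok) (L (nat_lit 367) ln15_11_1 ln15_11_1_ok))))))))) (M (nat_lit 333) (B (M (nat_lit 365) (B (L (nat_lit 460) ln12_14_6 ln12_14_6_ok)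 (M (nat_lit 301) (B (L (nat_lit 269) ln13_8_5 ln13_8_5_ok) (L (nat_lit 332) ln12_13_6 ln12_13_6_ok))))) (B (M (nat_lit 459) (B (M (nat_lit 332) (B (L (nat_lit 301) ln12_13_6 ln12_13_6_ok) (L (nat_lit 427) ln12_10_5 ln12_10_5_ok))) (M (nat_lit 460) (B (L (nat_lit 365) ln12_14_6 ln12_14_6_ok) (L (nat_lit 491) ln12_11_5 ln12_11_5_ok))))) (B (M (nat_lit 459) (B (M (nat_lit 460) (B (L (nat_lit 365) ln12_14_6 ln12_14_6_ok) (L (nat_lit 491) ln12_11_5 ln12_11_5_ok))) (M (nat_lit 427) (B (L (nat_lit 332) ln12_10_5 ln12_10_5_ok) (L (nat_lit 458) ln14_13_1 ln14_13_1_ok))))) (B (M (nat_lit 460) (B (L (nat_lit 365) ln12_14_6 ln12_14_6_ok) (M (nat_lit 459) (B (L (nat_lit 491) ln12_11_5 ln12_11_5_ok) (M (nat_lit 458) (B (L (nat_lit 427) ln14_13_1 ln14_13_1_ok) (L (nat_lit 457) ln9_14_2 ln9_14_2_ok))))))) (M (nat_lit 332) (B (L (nat_lit 301) ln12_13_6 ln12_13_6_ok) (M (nat_lit 427) (B (L (nat_lit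 459) ln12_10_5 ln12_10_5_ok) (M (nat_lit 395) (B (L (nat_lit 300) ln12_9_5 ln12_9_5_ok) (L (nat_lit 394) ln14_13_3 ln14_13_3_ok)))))))))))))))))) (B (M (nat_lit 430) (B (M (nat_lit 395) (B (L (nat_lit 431) ln15_13_3 ln15_13_3_ok) (M (nat_lit 394) (B (L (nat_lit 393) ln9_12_0 ln9_12_0_ok) (L (nat_lit 427) ln14_13_3 ln14_13_3_ok))))) (B (M (nat_lit 395) (B (L (nat_lit 431) ln15_13_3 ln15_13_3_ok) (M (nat_lit 427) (B (L (nat_lit 394) ln14_13_3 ln14_13_3_ok) (M (nat_lit 459) (B (L (nat_lit 491) ln11_15_6 ln11_15_6_ok) (L (nat_lit 458) ln14_13_1 ln14_13_1_ok))))))) (B (M (nat_lit 427) (B (M (nat_lit 395) (B (L (nat_lit 431) ln15_13_3 ln15_13_3_ok) (M (nat_lit 459) (B (L (nat_lit 491) ln11_15_6 ln11_15_6_ok) (L (nat_lit 458) ln14_13_1 ln14_13_1_ok))))) (B (M (nat_lit 459) (B (L (nat_lit 458) ln14_13_1 ln14_13_1_ok) (M (nat_lit 491) (B (L (nat_lit 460) ln12_11_5 ln12_11_5_ok) (L (nat_lit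 523) ln11_16_6 ln11_16_6_ok))))) (M (nat_lit 431) (B (L (nat_lit 395) ln15_13_3 ln15_13_3_ok) (M (nat_lit 399) (B (L (nat_lit 398) ln11_13_2 ln11_13_2_ok) (L (nat_lit 400) ln12_13_2 ln12_13_2_ok)))))))) (B (M (nat_lit 427) (B (M (nat_lit 459) (B (L (nat_lit 458) ln14_13_1 ln14_13_1_ok) (M (nat_lit 491) (B (L (nat_lit 460) ln12_11_5 ln12_11_5_ok) (L (nat_lit 523) ln11_16_6 ln11_16_6_ok))))) (M (nat_lit 431) (B (M (nat_lit 399) (B (L (nat_lit 398) ln11_13_2 ln11_13_2_ok) (L (nat_lit 400) ln12_13_2 ln12_13_2_ok))) (M (nat_lit 463) (B (L (nat_lit 462) ln11_13_0 ln11_13_0_ok) (L (nat_lit 464) ln12_13_0 ln12_13_0_ok))))))) (B (M (nat_lit 460) (B (M (nat_lit 431) (B (L (nat_lit 395) ln15_13_3 ln15_13_3_ok) (L (nat_lit 459) ln15_13_1 ln15_13_1_ok))) (B (M (nat_lit 459) (B (L (nat_lit 491) ln12_11_5 ln12_11_5_ok) (L (nat_lit 431) ln15_13_1 ln15_13_1_ok))) (B (M (nat_lit 492) (B (M (nat_lit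 363) (B (L (nat_lit 331) ln12_14_7 ln12_14_7_ok) (L (nat_lit 395) ln12_15_7 ln12_15_7_ok))) (M (nat_lit 491) (B (L (nat_lit 459) ln12_11_5 ln12_11_5_ok) (L (nat_lit 523) ln12_12_5 ln12_12_5_ok))))) (M (nat_lit 395) (B (L (nat_lit 431) ln15_13_3 ln15_13_3_ok) (M (nat_lit 363) (B (L (nat_lit 331) ln12_14_7 ln12_14_7_ok) (L (nat_lit 492) ln12_15_7 ln12_15_7_ok))))))))) (M (nat_lit 460) (B (M (nat_lit 459) (B (L (nat_lit 491) ln12_11_5 ln12_11_5_ok) (M (nat_lit 458) (B (L (nat_lit 427) ln14_13_1 ln14_13_1_ok) (L (nat_lit 457) ln9_14_2 ln9_14_2_ok))))) (B (M (nat_lit 492) (B (M (nat_lit 363) (B (L (nat_lit 331) ln12_14_7 ln12_14_7_ok) (L (nat_lit 395) ln12_15_7 ln12_15_7_ok))) (M (nat_lit 491) (B (L (nat_lit 459) ln12_11_5 ln12_11_5_ok) (L (nat_lit 523) ln12_12_5 ln12_12_5_ok))))) (M (nat_lit 395) (B (M (nat_lit 363) (B (L (nat_lit 331) ln12_14_7 ln12_14_7_ok) (L (nat_lit 492) ln12_15_7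 ln12_15_7_ok))) (M (nat_lit 394) (B (L (nat_lit 393) ln9_12_0 ln9_12_0_ok) (L (nat_lit 427) ln14_13_3 ln14_13_3_ok)))))))))))))) (B (M (nat_lit 332) (B (M (nat_lit 300) (B (M (nat_lit 299) (B (L (nat_lit 267) ln12_12_7 ln12_12_7_ok) (L (nat_lit 331) ln12_13_7 ln12_13_7_ok))) (M (nat_lit 427) (B (L (nat_lit 395) ln12_9_5 ln12_9_5_ok) (L (nat_lit 459) ln12_10_5 ln12_10_5_ok))))) (B (M (nat_lit 300) (B (M (nat_lit 301) (B (L (nat_lit 269) ln12_12_6 ln12_12_6_ok) (L (nat_lit 333) ln12_13_6 ln12_13_6_ok))) (M (nat_lit 427) (B (L (nat_lit 395) ln12_9_5 ln12_9_5_ok) (L (nat_lit 459) ln12_10_5 ln12_10_5_ok))))) (B (M (nat_lit 460) (B (M (nat_lit 333) (B (L (nat_lit 301) ln12_13_6 ln12_13_6_ok) (L (nat_lit 365) ln12_14_6 ln12_14_6_ok))) (M (nat_lit 459) (B (L (nat_lit 427) ln12_10_5 ln12_10_5_ok) (L (nat_lit 491) ln12_11_5 ln12_11_5_ok))))) (M (nat_lit 300) (B (M (nat_lit 299) (B (L (nat_lit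 267) ln12_12_7 ln12_12_7_ok) (L (nat_lit 331) ln12_13_7 ln12_13_7_ok))) (M (nat_lit 301) (B (L (nat_lit 269) ln12_12_6 ln12_12_6_ok) (L (nat_lit 333) ln12_13_6 ln12_13_6_ok))))))))) (B (M (nat_lit 332) (B (M (nat_lit 460) (B (M (nat_lit 333) (B (L (nat_lit 301) ln12_13_6 ln12_13_6_ok) (L (nat_lit 365) ln12_14_6 ln12_14_6_ok))) (M (nat_lit 459) (B (L (nat_lit 427) ln12_10_5 ln12_10_5_ok) (L (nat_lit 491) ln12_11_5 ln12_11_5_ok))))) (B (M (nat_lit 460) (B (M (nat_lit 331) (B (L (nat_lit 299) ln12_13_7 ln12_13_7_ok) (L (nat_lit 363) ln12_14_7 ln12_14_7_ok))) (M (nat_lit 459) (B (L (nat_lit 427) ln12_10_5 ln12_10_5_ok) (L (nat_lit 491) ln12_11_5 ln12_11_5_ok))))) (M (nat_lit 300) (B (M (nat_lit 299) (B (L (nat_lit 267) ln12_12_7 ln12_12_7_ok) (L (nat_lit 331) ln12_13_7 ln12_13_7_ok))) (M (nat_lit 301) (B (L (nat_lit 269) ln12_12_6 ln12_12_6_ok) (L (nat_lit 333) ln12_13_6 ln12_13_6_ok))))))))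 (B c41_n3735 (B (M (nat_lit 395) (B (M (nat_lit 430) (B (L (nat_lit 431) ln15_13_3 ln15_13_3_ok) (M (nat_lit 394) (B (L (nat_lit 393) ln9_12_0 ln9_12_0_ok) (L (nat_lit 427) ln14_13_3 ln14_13_3_ok))))) (B (M (nat_lit 365) (B (M (nat_lit 333) (B (L (nat_lit 460) ln12_14_6 ln12_14_6_ok) (M (nat_lit 301) (B (L (nat_lit 269) ln13_8_5 ln13_8_5_ok) (L (nat_lit 332) ln12_13_6 ln12_13_6_ok))))) (M (nat_lit 394) (B (M (nat_lit 366) (B (L (nat_lit 363) ln14_11_1 ln14_11_1_ok) (L (nat_lit 367) ln15_11_1 ln15_11_1_ok))) (M (nat_lit 430) (B (L (nat_lit 427) ln14_13_3 ln14_13_3_ok) (L (nat_lit 431) ln15_13_3 ln15_13_3_ok))))))) (B (M (nat_lit 332) (B (M (nat_lit 300) (B (L (nat_lit 427) ln12_9_5 ln12_9_5_ok) (M (nat_lit 301) (B (L (nat_lit 269) ln12_12_6 ln12_12_6_ok) (L (nat_lit 333) ln12_13_6 ln12_13_6_ok))))) (B (M (nat_lit 300) (B (L (nat_lit 427) ln12_9_5 ln12_9_5_ok) (M (nat_lit 299) (B (L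 (nat_lit 267) ln12_12_7 ln12_12_7_ok) (L (nat_lit 331) ln12_13_7 ln12_13_7_ok))))) (M (nat_lit 460) (B (M (nat_lit 331) (B (L (nat_lit 299) ln12_13_7 ln12_13_7_ok) (L (nat_lit 363) ln12_14_7 ln12_14_7_ok))) (M (nat_lit 333) (B (L (nat_lit 301) ln12_13_6 ln12_13_6_ok) (L (nat_lit 365) ln12_14_6 ln12_14_6_ok)))))))) (M (nat_lit 365) (B (M (nat_lit 333) (B (L (nat_lit 460) ln12_14_6 ln12_14_6_ok) (M (nat_lit 301) (B (L (nat_lit 269) ln13_8_5 ln13_8_5_ok) (L (nat_lit 332) ln12_13_6 ln12_13_6_ok))))) (M (nat_lit 394) (B (L (nat_lit 393) ln9_12_2 ln9_12_2_ok) (M (nat_lit 366) (B (L (nat_lit 363) ln14_11_1 ln14_11_1_ok) (L (nat_lit 367) ln15_11_1 ln15_11_1_ok))))))))))) (M (nat_lit 427) (B (M (nat_lit 459) (B (L (nat_lit 332) ln12_10_5 ln12_10_5_ok) (M (nat_lit 491) (B (L (nat_lit 395) ln11_15_6 ln11_15_6_ok) (L (nat_lit 523) ln11_16_6 ln11_16_6_ok))))) (B (M (nat_lit 459) (B (M (nat_lit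 491) (B (L (nat_lit 395) ln11_15_6 ln11_15_6_ok) (L (nat_lit 523) ln11_16_6 ln11_16_6_ok))) (M (nat_lit 458) (B (L (nat_lit 430) ln14_13_1 ln14_13_1_ok) (M (nat_lit 457) (B (L (nat_lit 426) ln13_13_1 ln13_13_1_ok) (L (nat_lit 456) ln8_14_2 ln8_14_2_ok))))))) (B (M (nat_lit 459) (B (L (nat_lit 332) ln12_10_5 ln12_10_5_ok) (M (nat_lit 458) (B (L (nat_lit 430) ln14_13_1 ln14_13_1_ok) (M (nat_lit 457) (B (L (nat_lit 426) ln13_13_1 ln13_13_1_ok) (L (nat_lit 456) ln8_14_2 ln8_14_2_ok))))))) (M (nat_lit 426) (B (M (nat_lit 393) (B (L (nat_lit 394) ln13_13_3 ln13_13_3_ok) (M (nat_lit 425) (B (L (nat_lit 392) ln12_13_3 ln12_13_3_ok) (M (nat_lit 457) (B (L (nat_lit 456) ln12_13_1 ln12_13_1_ok) (L (nat_lit 458) ln13_13_1 ln13_13_1_ok))))))) (B (M (nat_lit 430) (B (M (nat_lit 394) (B (L (nat_lit 393) ln13_13_3 ln13_13_3_ok) (L (nat_lit 395) ln14_13_3 ln14_13_3_ok))) (B (M (nat_lit 395) (B (L (nat_lit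 394) ln14_13_3 ln14_13_3_ok) (L (nat_lit 431) ln15_13_3 ln15_13_3_ok))) (B (M (nat_lit 431) (B (L (nat_lit 395) ln15_13_3 ln15_13_3_ok) (M (nat_lit 399) (B (L (nat_lit 398) ln11_13_2 ln11_13_2_ok) (L (nat_lit 400) ln12_13_2 ln12_13_2_ok))))) (M (nat_lit 431) (B (M (nat_lit 399) (B (L (nat_lit 398) ln11_13_2 ln11_13_2_ok) (L (nat_lit 400) ln12_13_2 ln12_13_2_ok))) (M (nat_lit 463) (B (L (nat_lit 462) ln11_13_0 ln11_13_0_ok) (L (nat_lit 464) ln12_13_0 ln12_13_0_ok))))))))) (B (M (nat_lit 430) (B (M (nat_lit 395) (B (L (nat_lit 394) ln14_13_3 ln14_13_3_ok) (L (nat_lit 431) ln15_13_3 ln15_13_3_ok))) (B (M (nat_lit 431) (B (L (nat_lit 395) ln15_13_3 ln15_13_3_ok) (M (nat_lit 399) (B (L (nat_lit 398) ln11_13_2 ln11_13_2_ok) (L (nat_lit 400) ln12_13_2 ln12_13_2_ok))))) (B (M (nat_lit 431) (B (M (nat_lit 399) (B (L (nat_lit 398) ln11_13_2 ln11_13_2_ok) (L (nat_lit 400) ln12_13_2 ln12_13_2_ok)))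 (M (nat_lit 463) (B (L (nat_lit 462) ln11_13_0 ln11_13_0_ok) (L (nat_lit 464) ln12_13_0 ln12_13_0_ok))))) (M (nat_lit 425) (B (M (nat_lit 395) (B (L (nat_lit 394) ln14_13_3 ln14_13_3_ok) (L (nat_lit 424) ln8_13_2 ln8_13_2_ok))) (M (nat_lit 457) (B (L (nat_lit 456) ln12_13_1 ln12_13_1_ok) (L (nat_lit 458) ln13_13_1 ln13_13_1_ok))))))))) (M (nat_lit 425) (B (M (nat_lit 457) (B (L (nat_lit 456) ln12_13_1 ln12_13_1_ok) (L (nat_lit 458) ln13_13_1 ln13_13_1_ok))) (M (nat_lit 424) (B (L (nat_lit 395) ln8_13_2 ln8_13_2_ok) (M (nat_lit 392) (B (L (nat_lit 391) ln11_13_3 ln11_13_3_ok) (L (nat_lit 393) ln12_13_3 ln12_13_3_ok))))))))))))))))))))))) (nat_lit 2079502270752001762064242424960807725827516048677469043429686155012882190638009693656033379242457518153052022685796627120027336704) (nat_lit 27459190659702462042196931202926459147409032367606470160441065355409728991792779482488392115939339433687172600756250186073942802901556806398194140803059679232)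 (nat_lit 27459190659702462042196931202926459147409032367606470160441065355409728991792779482488392115939339433687172600756250186073942802901556806398194140803059679232) (by decide +kernel)
noncomputable def c41_n8745 : Cert := (M (nat_lit 365) (B (M (nat_lit 460) (B (L (nat_lit 333) ln12_14_6 ln12_14_6_ok) (M (nat_lit 492) (B (L (nat_lit 397) ln12_15_6 ln12_15_6_ok) (M (nat_lit 363) (B (L (nat_lit 331) ln12_14_7 ln12_14_7_ok) (L (nat_lit 395) ln12_15_7 ln12_15_7_ok))))))) (B (M (nat_lit 395) (B (M (nat_lit 394) (B (L (nat_lit 393) ln9_12_2 ln9_12_2_ok) (L (nat_lit 397) ln10_12_0 ln10_12_0_ok))) (B (M (nat_lit 394) (B (L (nat_lit 397) ln10_12_0 ln10_12_0_ok) (M (nat_lit 366) (B (L (nat_lit 363) ln14_11_1 ln14_11_1_ok) (L (nat_lit 367) ln15_11_1 ln15_11_1_ok))))) (B (M (nat_lit 460) (B (L (nat_lit 333) ln12_14_6 ln12_14_6_ok) (M (nat_lit 492) (B (L (nat_lit 363) ln12_15_7 ln12_15_7_ok)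 (L (nat_lit 397) ln12_15_6 ln12_15_6_ok))))) (M (nat_lit 394) (B (L (nat_lit 393) ln9_12_2 ln9_12_2_ok) (M (nat_lit 366) (B (L (nat_lit 363) ln14_11_1 ln14_11_1_ok) (L (nat_lit 367) ln15_11_1 ln15_11_1_ok))))))))) (B (M (nat_lit 366) (B (M (nat_lit 395) (B (L (nat_lit 367) ln15_11_1 ln15_11_1_ok) (M (nat_lit 394) (B (L (nat_lit 363) ln14_11_1 ln14_11_1_ok) (L (nat_lit 393) ln9_12_2 ln9_12_2_ok))))) (B (M (nat_lit 395) (B (L (nat_lit 367) ln15_11_1 ln15_11_1_ok) (M (nat_lit 394) (B (L (nat_lit 393) ln9_12_2 ln9_12_2_ok) (L (nat_lit 397) ln10_12_2 ln10_12_2_ok))))) (B (M (nat_lit 363) (B (M (nat_lit 331) (B (L (nat_lit 330) ln14_11_3 ln14_11_3_ok) (M (nat_lit 299) (B (L (nat_lit 267) ln11_8_4 ln11_8_4_ok) (L (nat_lit 332) ln12_13_7 ln12_13_7_ok))))) (B (M (nat_lit 395) (B (L (nat_lit 394) ln14_11_1 ln14_11_1_ok) (M (nat_lit 331) (B (L (nat_lit 299) ln11_9_4 ln11_9_4_ok) (L (nat_lit 330)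 ln14_11_3 ln14_11_3_ok))))) (M (nat_lit 362) (B (M (nat_lit 394) (B (L (nat_lit 393) ln13_11_1 ln13_11_1_ok) (L (nat_lit 395) ln14_11_1 ln14_11_1_ok))) (M (nat_lit 398) (B (L (nat_lit 397) ln10_11_0 ln10_11_0_ok) (L (nat_lit 399) ln11_11_0 ln11_11_0_ok)))))))) (B (M (nat_lit 395) (B (L (nat_lit 367) ln15_11_1 ln15_11_1_ok) (M (nat_lit 394) (B (L (nat_lit 363) ln14_11_1 ln14_11_1_ok) (L (nat_lit 397) ln10_12_2 ln10_12_2_ok))))) (M (nat_lit 331) (B (M (nat_lit 332) (B (L (nat_lit 299) ln12_13_7 ln12_13_7_ok) (L (nat_lit 367) ln15_11_3 ln15_11_3_ok))) (M (nat_lit 363) (B (L (nat_lit 330) ln14_11_3 ln14_11_3_ok) (L (nat_lit 460) ln12_14_7 ln12_14_7_ok)))))))))) (B (M (nat_lit 333) (B (L (nat_lit 460) ln12_14_6 ln12_14_6_ok) (M (nat_lit 366) (B (M (nat_lit 462) (B (L (nat_lit 398) ln14_14_7 ln14_14_7_ok) (L (nat_lit 397) ln13_10_4 ln13_10_4_ok))) (M (nat_lit 367) (B (L (nat_lit 395) ln15_11_1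 ln15_11_1_ok) (M (nat_lit 332) (B (L (nat_lit 331) ln15_11_3 ln15_11_3_ok) (L (nat_lit 368) ln16_11_3 ln16_11_3_ok))))))))) (B (M (nat_lit 460) (B (L (nat_lit 333) ln12_14_6 ln12_14_6_ok) (M (nat_lit 332) (B (M (nat_lit 331) (B (L (nat_lit 299) ln12_13_7 ln12_13_7_ok) (L (nat_lit 363) ln12_14_7 ln12_14_7_ok))) (M (nat_lit 397) (B (L (nat_lit 300) ln12_9_4 ln12_9_4_ok) (L (nat_lit 492) ln12_15_6 ln12_15_6_ok))))))) (B (M (nat_lit 460) (B (L (nat_lit 333) ln12_14_6 ln12_14_6_ok) (M (nat_lit 363) (B (L (nat_lit 331) ln12_14_7 ln12_14_7_ok) (M (nat_lit 395) (B (L (nat_lit 492) ln12_15_7 ln12_15_7_ok) (M (nat_lit 366) (B (L (nat_lit 394) ln14_11_1 ln14_11_1_ok) (L (nat_lit 367) ln15_11_1 ln15_11_1_ok))))))))) (M (nat_lit 366) (B (M (nat_lit 395) (B (L (nat_lit 367) ln15_11_1 ln15_11_1_ok) (M (nat_lit 394) (B (L (nat_lit 363) ln14_11_1 ln14_11_1_ok) (L (nat_lit 393) ln9_12_2 ln9_12_2_ok)))))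 (B (M (nat_lit 395) (B (L (nat_lit 367) ln15_11_1 ln15_11_1_ok) (M (nat_lit 394) (B (L (nat_lit 393) ln9_12_2 ln9_12_2_ok) (L (nat_lit 397) ln10_12_2 ln10_12_2_ok))))) (M (nat_lit 363) (B (M (nat_lit 331) (B (L (nat_lit 330) ln14_11_3 ln14_11_3_ok) (M (nat_lit 299) (B (L (nat_lit 267) ln11_8_4 ln11_8_4_ok) (L (nat_lit 332) ln12_13_7 ln12_13_7_ok))))) (M (nat_lit 333) (B (M (nat_lit 334) (B (L (nat_lit 362) ln10_11_2 ln10_11_2_ok) (L (nat_lit 335) ln11_11_2 ln11_11_2_ok))) (M (nat_lit 398) (B (L (nat_lit 462) ln14_14_7 ln14_14_7_ok) (L (nat_lit 399) ln11_11_0 ln11_11_0_ok)))))))))))))))))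
noncomputable def c41_n8838 : Cert := (M (nat_lit 365) (B (M (nat_lit 333) (B (L (nat_lit 460) ln12_14_6 ln12_14_6_ok) (M (nat_lit 301) (B (L (nat_lit 269) ln13_8_5 ln13_8_5_ok) (L (nat_lit 397) ln13_9_5 ln13_9_5_ok))))) (B (M (nat_lit 333) (B (L (nat_lit 460) ln12_14_6 ln12_14_6_ok) (M (nat_lit 397) (B (L (nat_lit 301) ln13_9_5 ln13_9_5_ok) (L (nat_lit 462) ln13_10_4 ln13_10_4_ok))))) (B (M (nat_lit 460) (B (L (nat_lit 333) ln12_14_6 ln12_14_6_ok) (M (nat_lit 492) (B (L (nat_lit 397) ln12_15_6 ln12_15_6_ok) (M (nat_lit 363) (B (L (nat_lit 331) ln12_14_7 ln12_14_7_ok) (L (nat_lit 395) ln12_15_7 ln12_15_7_ok))))))) (B (M (nat_lit 363) (B (M (nat_lit 460) (B (L (nat_lit 331) ln12_14_7 ln12_14_7_ok) (M (nat_lit 492) (B (L (nat_lit 395) ln12_15_7 ln12_15_7_ok) (L (nat_lit 397) ln12_15_6 ln12_15_6_ok))))) (B (M (nat_lit 398) (B (M (nat_lit 397) (B (L (nat_lit 362) ln10_11_0 ln10_11_0_ok)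 (L (nat_lit 399) ln15_12_3 ln15_12_3_ok))) (B (M (nat_lit 399) (B (L (nat_lit 366) ln11_11_0 ln11_11_0_ok) (L (nat_lit 397) ln15_12_3 ln15_12_3_ok))) (B (M (nat_lit 366) (B (L (nat_lit 399) ln11_11_0 ln11_11_0_ok) (M (nat_lit 395) (B (L (nat_lit 394) ln14_11_1 ln14_11_1_ok) (L (nat_lit 367) ln15_11_1 ln15_11_1_ok))))) (M (nat_lit 394) (B (M (nat_lit 362) (B (L (nat_lit 393) ln13_11_1 ln13_11_1_ok) (L (nat_lit 397) ln10_11_0 ln10_11_0_ok))) (B (M (nat_lit 395) (B (L (nat_lit 393) ln9_12_2 ln9_12_2_ok) (L (nat_lit 397) ln10_12_0 ln10_12_0_ok))) (B (M (nat_lit 397) (B (L (nat_lit 362) ln10_11_0 ln10_11_0_ok) (L (nat_lit 395) ln10_12_0 ln10_12_0_ok))) (M (nat_lit 393) (B (L (nat_lit 362) ln13_11_1 ln13_11_1_ok) (L (nat_lit 395) ln9_12_2 ln9_12_2_ok))))))))))) (B (M (nat_lit 397) (B (M (nat_lit 362) (B (L (nat_lit 361) ln9_11_0 ln9_11_0_ok) (L (nat_lit 398) ln10_11_0 ln10_11_0_ok))) (M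 (nat_lit 460) (B (L (nat_lit 331) ln12_14_7 ln12_14_7_ok) (L (nat_lit 492) ln12_15_6 ln12_15_6_ok))))) (M (nat_lit 395) (B (M (nat_lit 460) (B (L (nat_lit 331) ln12_14_7 ln12_14_7_ok) (L (nat_lit 492) ln12_15_7 ln12_15_7_ok))) (M (nat_lit 394) (B (L (nat_lit 366) ln14_11_1 ln14_11_1_ok) (L (nat_lit 393) ln9_12_2 ln9_12_2_ok))))))))) (B (M (nat_lit 460) (B (L (nat_lit 333) ln12_14_6 ln12_14_6_ok) (M (nat_lit 363) (B (L (nat_lit 331) ln12_14_7 ln12_14_7_ok) (M (nat_lit 395) (B (L (nat_lit 492) ln12_15_7 ln12_15_7_ok) (M (nat_lit 366) (B (L (nat_lit 394) ln14_11_1 ln14_11_1_ok) (L (nat_lit 367) ln15_11_1 ln15_11_1_ok))))))))) (M (nat_lit 333) (B (M (nat_lit 301) (B (L (nat_lit 269) ln13_8_5 ln13_8_5_ok) (L (nat_lit 397) ln13_9_5 ln13_9_5_ok))) (B (M (nat_lit 397) (B (L (nat_lit 301) ln13_9_5 ln13_9_5_ok) (L (nat_lit 462) ln13_10_4 ln13_10_4_ok))) (B (M (nat_lit 395) (B (M (nat_lit 394)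 (B (L (nat_lit 393) ln9_12_2 ln9_12_2_ok) (L (nat_lit 397) ln10_12_0 ln10_12_0_ok))) (B (M (nat_lit 397) (B (L (nat_lit 462) ln13_10_4 ln13_10_4_ok) (L (nat_lit 394) ln10_12_0 ln10_12_0_ok))) (B (M (nat_lit 462) (B (L (nat_lit 397) ln13_10_4 ln13_10_4_ok) (M (nat_lit 366) (B (L (nat_lit 398) ln14_14_7 ln14_14_7_ok) (L (nat_lit 367) ln15_11_1 ln15_11_1_ok))))) (M (nat_lit 394) (B (L (nat_lit 393) ln9_12_2 ln9_12_2_ok) (M (nat_lit 366) (B (L (nat_lit 363) ln14_11_1 ln14_11_1_ok) (L (nat_lit 367) ln15_11_1 ln15_11_1_ok))))))))) (M (nat_lit 366) (B (M (nat_lit 398) (B (L (nat_lit 462) ln14_14_7 ln14_14_7_ok) (M (nat_lit 301) (B (L (nat_lit 269) ln13_8_5 ln13_8_5_ok) (L (nat_lit 334) ln14_13_7 ln14_13_7_ok))))) (M (nat_lit 395) (B (L (nat_lit 367) ln15_11_1 ln15_11_1_ok) (M (nat_lit 394) (B (L (nat_lit 363) ln14_11_1 ln14_11_1_ok) (L (nat_lit 393) ln9_12_2 ln9_12_2_ok)))))))))))))))))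
theorem c41_s8941 : Sem (nat_lit 4852171964872816621642656609103891429263953124053285618600165735627503498443635316696007785346597096250443233647200198949001494528) (nat_lit 471745303294907003558604781876731121148912172554609926289082887663850029292002496571608887223615668019289994673138937884494983192642156647934901654729557572361276882944) (nat_lit 471745303294907003558604781876731121148912172554609926289082887663850029292002496571608887223615668019289994673138937884494983192642156647934901654729557572361276882944) :=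
  sem_of_chk (M (nat_lit 364) (B (M (nat_lit 332) (B (M (nat_lit 300) (B (L (nat_lit 397) ln12_9_4 ln12_9_4_ok) (M (nat_lit 301) (B (L (nat_lit 269) ln12_12_6 ln12_12_6_ok) (L (nat_lit 333) ln12_13_6 ln12_13_6_ok))))) (B (M (nat_lit 300) (B (L (nat_lit 397) ln12_9_4 ln12_9_4_ok) (M (nat_lit 299) (B (L (nat_lit 267) ln12_12_7 ln12_12_7_ok) (L (nat_lit 331) ln12_13_7 ln12_13_7_ok))))) (M (nat_lit 460) (B (M (nat_lit 331) (B (L (nat_lit 299) ln12_13_7 ln12_13_7_ok) (L (nat_lit 363) ln12_14_7 ln12_14_7_ok))) (M (nat_lit 333) (B (L (nat_lit 301) ln12_13_6 ln12_13_6_ok) (L (nat_lit 365) ln12_14_6 ln12_14_6_ok)))))))) (B (M (nat_lit 460) (B (M (nat_lit 332) (B (M (nat_lit 331) (B (L (nat_lit 299) ln12_13_7 ln12_13_7_ok) (L (nat_lit 363) ln12_14_7 ln12_14_7_ok))) (M (nat_lit 333) (B (L (nat_lit 301) ln12_13_6 ln12_13_6_ok) (L (nat_lit 365) ln12_14_6 ln12_14_6_ok))))) (B (M (nat_lit 395) (B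 (M (nat_lit 363) (B (L (nat_lit 331) ln12_14_7 ln12_14_7_ok) (L (nat_lit 492) ln12_15_7 ln12_15_7_ok))) (M (nat_lit 394) (B (L (nat_lit 393) ln9_12_0 ln9_12_0_ok) (L (nat_lit 397) ln10_12_0 ln10_12_0_ok))))) (M (nat_lit 492) (B (M (nat_lit 365) (B (L (nat_lit 333) ln12_14_6 ln12_14_6_ok) (L (nat_lit 397) ln12_15_6 ln12_15_6_ok))) (M (nat_lit 491) (B (L (nat_lit 459) ln12_11_5 ln12_11_5_ok) (L (nat_lit 523) ln12_12_5 ln12_12_5_ok)))))))) (B (M (nat_lit 395) (B (M (nat_lit 394) (B (L (nat_lit 393) ln9_12_0 ln9_12_0_ok) (L (nat_lit 397) ln10_12_0 ln10_12_0_ok))) (B (M (nat_lit 365) (B (M (nat_lit 460) (B (L (nat_lit 333) ln12_14_6 ln12_14_6_ok) (M (nat_lit 363) (B (L (nat_lit 331) ln12_14_7 ln12_14_7_ok) (L (nat_lit 492) ln12_15_7 ln12_15_7_ok))))) (B (M (nat_lit 394) (B (L (nat_lit 397) ln10_12_0 ln10_12_0_ok) (M (nat_lit 366) (B (L (nat_lit 363) ln14_11_1 ln14_11_1_ok) (L (nat_lit 367)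 ln15_11_1 ln15_11_1_ok))))) (M (nat_lit 397) (B (L (nat_lit 394) ln10_12_0 ln10_12_0_ok) (M (nat_lit 460) (B (L (nat_lit 333) ln12_14_6 ln12_14_6_ok) (L (nat_lit 492) ln12_15_6 ln12_15_6_ok)))))))) (B (M (nat_lit 332) (B (M (nat_lit 300) (B (L (nat_lit 397) ln12_9_4 ln12_9_4_ok) (M (nat_lit 301) (B (L (nat_lit 269) ln12_12_6 ln12_12_6_ok) (L (nat_lit 333) ln12_13_6 ln12_13_6_ok))))) (B (M (nat_lit 363) (B (M (nat_lit 300) (B (L (nat_lit 268) ln12_8_5 ln12_8_5_ok) (L (nat_lit 397) ln12_9_4 ln12_9_4_ok))) (M (nat_lit 460) (B (L (nat_lit 331) ln12_14_7 ln12_14_7_ok) (L (nat_lit 492) ln12_15_7 ln12_15_7_ok))))) (M (nat_lit 460) (B (M (nat_lit 333) (B (L (nat_lit 301) ln12_13_6 ln12_13_6_ok) (L (nat_lit 365) ln12_14_6 ln12_14_6_ok))) (M (nat_lit 363) (B (L (nat_lit 331) ln12_14_7 ln12_14_7_ok) (L (nat_lit 492) ln12_15_7 ln12_15_7_ok)))))))) (M (nat_lit 365) (B (M (nat_lit 460) (B (L (nat_lit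 333) ln12_14_6 ln12_14_6_ok) (M (nat_lit 363) (B (L (nat_lit 331) ln12_14_7 ln12_14_7_ok) (L (nat_lit 492) ln12_15_7 ln12_15_7_ok))))) (B (M (nat_lit 394) (B (L (nat_lit 393) ln9_12_2 ln9_12_2_ok) (M (nat_lit 366) (B (L (nat_lit 363) ln14_11_1 ln14_11_1_ok) (L (nat_lit 367) ln15_11_1 ln15_11_1_ok))))) (M (nat_lit 333) (B (L (nat_lit 460) ln12_14_6 ln12_14_6_ok) (M (nat_lit 301) (B (L (nat_lit 269) ln13_8_5 ln13_8_5_ok) (L (nat_lit 332) ln12_13_6 ln12_13_6_ok)))))))))))) (B c41_n8745 (B (M (nat_lit 395) (B (M (nat_lit 394) (B (L (nat_lit 393) ln9_12_0 ln9_12_0_ok) (L (nat_lit 397) ln10_12_0 ln10_12_0_ok))) (B (M (nat_lit 365) (B (M (nat_lit 460) (B (L (nat_lit 333) ln12_14_6 ln12_14_6_ok) (M (nat_lit 492) (B (L (nat_lit 363) ln12_15_7 ln12_15_7_ok) (L (nat_lit 397) ln12_15_6 ln12_15_6_ok))))) (B (M (nat_lit 394) (B (L (nat_lit 397) ln10_12_0 ln10_12_0_ok) (M (nat_lit 366) (B (L (nat_lit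 363) ln14_11_1 ln14_11_1_ok) (L (nat_lit 367) ln15_11_1 ln15_11_1_ok))))) (B (M (nat_lit 397) (B (L (nat_lit 394) ln10_12_0 ln10_12_0_ok) (M (nat_lit 460) (B (L (nat_lit 333) ln12_14_6 ln12_14_6_ok) (L (nat_lit 492) ln12_15_6 ln12_15_6_ok))))) (M (nat_lit 333) (B (L (nat_lit 460) ln12_14_6 ln12_14_6_ok) (M (nat_lit 301) (B (L (nat_lit 269) ln13_8_5 ln13_8_5_ok) (L (nat_lit 332) ln12_13_6 ln12_13_6_ok))))))))) (B (M (nat_lit 332) (B (M (nat_lit 300) (B (L (nat_lit 397) ln12_9_4 ln12_9_4_ok) (M (nat_lit 301) (B (L (nat_lit 269) ln12_12_6 ln12_12_6_ok) (L (nat_lit 333) ln12_13_6 ln12_13_6_ok))))) (B (M (nat_lit 300) (B (L (nat_lit 397) ln12_9_4 ln12_9_4_ok) (M (nat_lit 268) (B (L (nat_lit 363) ln12_8_5 ln12_8_5_ok) (M (nat_lit 267) (B (L (nat_lit 235) ln12_11_7 ln12_11_7_ok) (L (nat_lit 299) ln12_12_7 ln12_12_7_ok))))))) (M (nat_lit 460) (B (M (nat_lit 333) (B (L (nat_lit 301) ln12_13_6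 ln12_13_6_ok) (L (nat_lit 365) ln12_14_6 ln12_14_6_ok))) (M (nat_lit 492) (B (L (nat_lit 363) ln12_15_7 ln12_15_7_ok) (M (nat_lit 491) (B (L (nat_lit 459) ln12_11_5 ln12_11_5_ok) (L (nat_lit 523) ln12_12_5 ln12_12_5_ok)))))))))) (M (nat_lit 365) (B (M (nat_lit 333) (B (L (nat_lit 460) ln12_14_6 ln12_14_6_ok) (M (nat_lit 301) (B (L (nat_lit 269) ln13_8_5 ln13_8_5_ok) (L (nat_lit 332) ln12_13_6 ln12_13_6_ok))))) (M (nat_lit 394) (B (L (nat_lit 393) ln9_12_2 ln9_12_2_ok) (M (nat_lit 366) (B (L (nat_lit 363) ln14_11_1 ln14_11_1_ok) (L (nat_lit 367) ln15_11_1 ln15_11_1_ok))))))))))) (B c41_n8838 (B (M (nat_lit 460) (B (M (nat_lit 492) (B (M (nat_lit 363) (B (L (nat_lit 331) ln12_14_7 ln12_14_7_ok) (L (nat_lit 395) ln12_15_7 ln12_15_7_ok))) (M (nat_lit 491) (B (L (nat_lit 459) ln12_11_5 ln12_11_5_ok) (L (nat_lit 523) ln12_12_5 ln12_12_5_ok))))) (B (M (nat_lit 492) (B (M (nat_lit 491) (B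 (L (nat_lit 459) ln12_11_5 ln12_11_5_ok) (L (nat_lit 523) ln12_12_5 ln12_12_5_ok))) (M (nat_lit 397) (B (L (nat_lit 365) ln12_15_6 ln12_15_6_ok) (L (nat_lit 524) ln12_16_6 ln12_16_6_ok))))) (B (M (nat_lit 395) (B (M (nat_lit 363) (B (L (nat_lit 331) ln12_14_7 ln12_14_7_ok) (L (nat_lit 492) ln12_15_7 ln12_15_7_ok))) (M (nat_lit 394) (B (L (nat_lit 393) ln9_12_0 ln9_12_0_ok) (L (nat_lit 397) ln10_12_0 ln10_12_0_ok))))) (M (nat_lit 332) (B (M (nat_lit 331) (B (L (nat_lit 299) ln12_13_7 ln12_13_7_ok) (L (nat_lit 363) ln12_14_7 ln12_14_7_ok))) (B (M (nat_lit 300) (B (L (nat_lit 397) ln12_9_4 ln12_9_4_ok) (M (nat_lit 268) (B (M (nat_lit 269) (B (L (nat_lit 237) ln12_11_6 ln12_11_6_ok) (L (nat_lit 301) ln12_12_6 ln12_12_6_ok))) (M (nat_lit 363) (B (L (nat_lit 395) ln12_8_5 ln12_8_5_ok) (L (nat_lit 331) ln12_14_7 ln12_14_7_ok))))))) (M (nat_lit 300) (B (L (nat_lit 397) ln12_9_4 ln12_9_4_ok)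 (M (nat_lit 268) (B (M (nat_lit 267) (B (L (nat_lit 235) ln12_11_7 ln12_11_7_ok) (L (nat_lit 299) ln12_12_7 ln12_12_7_ok))) (M (nat_lit 269) (B (L (nat_lit 237) ln12_11_6 ln12_11_6_ok) (L (nat_lit 301) ln12_12_6 ln12_12_6_ok)))))))))))))) (B (M (nat_lit 333) (B (M (nat_lit 365) (B (L (nat_lit 460) ln12_14_6 ln12_14_6_ok) (M (nat_lit 301) (B (L (nat_lit 269) ln13_8_5 ln13_8_5_ok) (L (nat_lit 397) ln13_9_5 ln13_9_5_ok))))) (B (M (nat_lit 365) (B (L (nat_lit 460) ln12_14_6 ln12_14_6_ok) (M (nat_lit 301) (B (L (nat_lit 332) ln12_13_6 ln12_13_6_ok) (L (nat_lit 397) ln13_9_5 ln13_9_5_ok))))) (B (M (nat_lit 332) (B (M (nat_lit 397) (B (L (nat_lit 300) ln12_9_4 ln12_9_4_ok) (M (nat_lit 365) (B (L (nat_lit 460) ln12_14_6 ln12_14_6_ok) (L (nat_lit 462) ln13_10_4 ln13_10_4_ok))))) (B (M (nat_lit 365) (B (L (nat_lit 460) ln12_14_6 ln12_14_6_ok) (M (nat_lit 331) (B (L (nat_lit 299) ln12_13_7 ln12_13_7_ok)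 (M (nat_lit 366) (B (L (nat_lit 330) ln10_10_0 ln10_10_0_ok) (L (nat_lit 367) ln15_11_3 ln15_11_3_ok))))))) (M (nat_lit 300) (B (L (nat_lit 397) ln12_9_4 ln12_9_4_ok) (M (nat_lit 299) (B (L (nat_lit 267) ln12_12_7 ln12_12_7_ok) (L (nat_lit 331) ln12_13_7 ln12_13_7_ok)))))))) (B (M (nat_lit 332) (B (L (nat_lit 301) ln12_13_6 ln12_13_6_ok) (M (nat_lit 300) (B (L (nat_lit 397) ln12_9_4 ln12_9_4_ok) (M (nat_lit 299) (B (L (nat_lit 267) ln12_12_7 ln12_12_7_ok) (L (nat_lit 331) ln12_13_7 ln12_13_7_ok))))))) (M (nat_lit 365) (B (L (nat_lit 460) ln12_14_6 ln12_14_6_ok) (M (nat_lit 301) (B (L (nat_lit 269) ln13_8_5 ln13_8_5_ok) (L (nat_lit 332) ln12_13_6 ln12_13_6_ok)))))))))) (B (M (nat_lit 460) (B (M (nat_lit 492) (B (M (nat_lit 363) (B (L (nat_lit 331) ln12_14_7 ln12_14_7_ok) (L (nat_lit 395) ln12_15_7 ln12_15_7_ok))) (M (nat_lit 491) (B (L (nat_lit 459) ln12_11_5 ln12_11_5_ok) (L (nat_lit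 523) ln12_12_5 ln12_12_5_ok))))) (B (M (nat_lit 395) (B (M (nat_lit 394) (B (L (nat_lit 393) ln9_12_0 ln9_12_0_ok) (L (nat_lit 397) ln10_12_0 ln10_12_0_ok))) (M (nat_lit 492) (B (L (nat_lit 363) ln12_15_7 ln12_15_7_ok) (M (nat_lit 491) (B (L (nat_lit 459) ln12_11_5 ln12_11_5_ok) (L (nat_lit 523) ln12_12_5 ln12_12_5_ok))))))) (B (M (nat_lit 492) (B (M (nat_lit 491) (B (L (nat_lit 459) ln12_11_5 ln12_11_5_ok) (L (nat_lit 523) ln12_12_5 ln12_12_5_ok))) (M (nat_lit 525) (B (L (nat_lit 493) ln12_12_4 ln12_12_4_ok) (M (nat_lit 524) (B (L (nat_lit 397) ln12_16_6 ln12_16_6_ok) (L (nat_lit 557) ln12_13_4 ln12_13_4_ok))))))) (B (M (nat_lit 395) (B (M (nat_lit 363) (B (L (nat_lit 331) ln12_14_7 ln12_14_7_ok) (L (nat_lit 492) ln12_15_7 ln12_15_7_ok))) (M (nat_lit 394) (B (L (nat_lit 393) ln9_12_0 ln9_12_0_ok) (L (nat_lit 397) ln10_12_0 ln10_12_0_ok))))) (M (nat_lit 332) (B (M (nat_lit 331) (B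 (L (nat_lit 299) ln12_13_7 ln12_13_7_ok) (L (nat_lit 363) ln12_14_7 ln12_14_7_ok))) (M (nat_lit 300) (B (L (nat_lit 397) ln12_9_4 ln12_9_4_ok) (M (nat_lit 301) (B (L (nat_lit 269) ln12_12_6 ln12_12_6_ok) (L (nat_lit 333) ln12_13_6 ln12_13_6_ok)))))))))))) (B (M (nat_lit 333) (B (M (nat_lit 365) (B (L (nat_lit 460) ln12_14_6 ln12_14_6_ok) (M (nat_lit 301) (B (L (nat_lit 269) ln13_8_5 ln13_8_5_ok) (L (nat_lit 332) ln12_13_6 ln12_13_6_ok))))) (B (M (nat_lit 331) (B (M (nat_lit 332) (B (L (nat_lit 299) ln12_13_7 ln12_13_7_ok) (L (nat_lit 301) ln12_13_6 ln12_13_6_ok))) (M (nat_lit 460) (B (L (nat_lit 363) ln12_14_7 ln12_14_7_ok) (L (nat_lit 365) ln12_14_6 ln12_14_6_ok))))) (B (M (nat_lit 365) (B (L (nat_lit 460) ln12_14_6 ln12_14_6_ok) (M (nat_lit 366) (B (M (nat_lit 395) (B (L (nat_lit 367) ln15_11_1 ln15_11_1_ok) (M (nat_lit 394) (B (L (nat_lit 363) ln14_11_1 ln14_11_1_ok) (L (nat_lit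 393) ln9_12_2 ln9_12_2_ok))))) (B (M (nat_lit 367) (B (L (nat_lit 395) ln15_11_1 ln15_11_1_ok) (M (nat_lit 332) (B (L (nat_lit 331) ln15_11_3 ln15_11_3_ok) (L (nat_lit 368) ln16_11_3 ln16_11_3_ok))))) (M (nat_lit 363) (B (M (nat_lit 334) (B (L (nat_lit 362) ln10_11_2 ln10_11_2_ok) (L (nat_lit 335) ln11_11_2 ln11_11_2_ok))) (M (nat_lit 398) (B (L (nat_lit 462) ln14_14_7 ln14_14_7_ok) (L (nat_lit 399) ln11_11_0 ln11_11_0_ok)))))))))) (B (M (nat_lit 365) (B (L (nat_lit 460) ln12_14_6 ln12_14_6_ok) (M (nat_lit 366) (B (M (nat_lit 398) (B (L (nat_lit 462) ln14_14_7 ln14_14_7_ok) (M (nat_lit 301) (B (L (nat_lit 269) ln13_8_5 ln13_8_5_ok) (L (nat_lit 334) ln14_13_7 ln14_13_7_ok))))) (M (nat_lit 395) (B (L (nat_lit 367) ln15_11_1 ln15_11_1_ok) (M (nat_lit 394) (B (L (nat_lit 363) ln14_11_1 ln14_11_1_ok) (L (nat_lit 393) ln9_12_2 ln9_12_2_ok))))))))) (B (M (nat_lit 332) (B (L (nat_lit 301)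 ln12_13_6 ln12_13_6_ok) (M (nat_lit 331) (B (L (nat_lit 299) ln12_13_7 ln12_13_7_ok) (M (nat_lit 363) (B (L (nat_lit 460) ln12_14_7 ln12_14_7_ok) (M (nat_lit 334) (B (L (nat_lit 362) ln14_10_1 ln14_10_1_ok) (L (nat_lit 335) ln15_10_1 ln15_10_1_ok))))))))) (M (nat_lit 365) (B (M (nat_lit 301) (B (L (nat_lit 269) ln13_8_5 ln13_8_5_ok) (L (nat_lit 332) ln12_13_6 ln12_13_6_ok))) (B (M (nat_lit 366) (B (M (nat_lit 395) (B (L (nat_lit 367) ln15_11_1 ln15_11_1_ok) (M (nat_lit 394) (B (L (nat_lit 363) ln14_11_1 ln14_11_1_ok) (L (nat_lit 393) ln9_12_2 ln9_12_2_ok))))) (M (nat_lit 398) (B (L (nat_lit 462) ln14_14_7 ln14_14_7_ok) (M (nat_lit 301) (B (L (nat_lit 332) ln12_13_6 ln12_13_6_ok) (L (nat_lit 334) ln14_13_7 ln14_13_7_ok))))))) (B (M (nat_lit 366) (B (M (nat_lit 395) (B (L (nat_lit 367) ln15_11_1 ln15_11_1_ok) (M (nat_lit 394) (B (L (nat_lit 363) ln14_11_1 ln14_11_1_ok) (L (nat_lit 393)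 ln9_12_2 ln9_12_2_ok))))) (B (M (nat_lit 367) (B (L (nat_lit 395) ln15_11_1 ln15_11_1_ok) (M (nat_lit 332) (B (L (nat_lit 331) ln15_11_3 ln15_11_3_ok) (L (nat_lit 368) ln16_11_3 ln16_11_3_ok))))) (M (nat_lit 363) (B (M (nat_lit 334) (B (L (nat_lit 362) ln10_11_2 ln10_11_2_ok) (L (nat_lit 335) ln11_11_2 ln11_11_2_ok))) (M (nat_lit 398) (B (L (nat_lit 462) ln14_14_7 ln14_14_7_ok) (L (nat_lit 399) ln11_11_0 ln11_11_0_ok)))))))) (M (nat_lit 366) (B (M (nat_lit 395) (B (L (nat_lit 367) ln15_11_1 ln15_11_1_ok) (M (nat_lit 394) (B (L (nat_lit 363) ln14_11_1 ln14_11_1_ok) (L (nat_lit 393) ln9_12_2 ln9_12_2_ok))))) (M (nat_lit 398) (B (L (nat_lit 462) ln14_14_7 ln14_14_7_ok) (M (nat_lit 301) (B (L (nat_lit 269) ln13_8_5 ln13_8_5_ok) (L (nat_lit 334) ln14_13_7 ln14_13_7_ok))))))))))))))))) (M (nat_lit 332) (B (M (nat_lit 300) (B (L (nat_lit 397) ln12_9_4 ln12_9_4_ok) (M (nat_lit 299) (B (L (nat_lit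 267) ln12_12_7 ln12_12_7_ok) (L (nat_lit 331) ln12_13_7 ln12_13_7_ok))))) (B (M (nat_lit 300) (B (L (nat_lit 397) ln12_9_4 ln12_9_4_ok) (M (nat_lit 301) (B (L (nat_lit 269) ln12_12_6 ln12_12_6_ok) (L (nat_lit 333) ln12_13_6 ln12_13_6_ok))))) (B (M (nat_lit 333) (B (L (nat_lit 301) ln12_13_6 ln12_13_6_ok) (M (nat_lit 365) (B (M (nat_lit 331) (B (L (nat_lit 299) ln12_13_7 ln12_13_7_ok) (M (nat_lit 366) (B (L (nat_lit 330) ln10_10_0 ln10_10_0_ok) (L (nat_lit 367) ln15_11_3 ln15_11_3_ok))))) (M (nat_lit 334) (B (M (nat_lit 397) (B (L (nat_lit 302) ln13_13_6 ln13_13_6_ok) (L (nat_lit 462) ln13_10_4 ln13_10_4_ok))) (M (nat_lit 335) (B (L (nat_lit 363) ln15_10_1 ln15_10_1_ok) (L (nat_lit 336) ln16_10_1 ln16_10_1_ok))))))))) (M (nat_lit 301) (B (L (nat_lit 333) ln12_13_6 ln12_13_6_ok) (M (nat_lit 300) (B (L (nat_lit 269) ln12_12_6 ln12_12_6_ok) (M (nat_lit 299) (B (L (nat_lit 267) ln12_12_7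 ln12_12_7_ok) (L (nat_lit 331) ln12_13_7 ln12_13_7_ok)))))))))))))))))))))) (nat_lit 4852171964872816621642656609103891429263953124053285618600165735627503498443635316696007785346597096250443233647200198949001494528) (nat_lit 471745303294907003558604781876731121148912172554609926289082887663850029292002496571608887223615668019289994673138937884494983192642156647934901654729557572361276882944) (nat_lit 471745303294907003558604781876731121148912172554609926289082887663850029292002496571608887223615668019289994673138937884494983192642156647934901654729557572361276882944) (by decide +kernel)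
noncomputable def c41_n8942 : Cert := (M (nat_lit 430) (B (M (nat_lit 395) (B (L (nat_lit 431) ln15_13_3 ln15_13_3_ok) (M (nat_lit 394) (B (L (nat_lit 393) ln9_12_0 ln9_12_0_ok) (L (nat_lit 397) ln10_12_0 ln10_12_0_ok))))) (B (M (nat_lit 431) (B (L (nat_lit 395) ln15_13_3 ln15_13_3_ok) (M (nat_lit 400) (B (L (nat_lit 399) ln12_13_2 ln12_13_2_ok) (M (nat_lit 432) (B (L (nat_lit 397) ln16_13_3 ln16_13_3_ok) (L (nat_lit 401) ln13_13_2 ln13_13_2_ok))))))) (B (M (nat_lit 460) (B (M (nat_lit 431) (B (L (nat_lit 459) ln15_13_1 ln15_13_1_ok) (M (nat_lit 432) (B (L (nat_lit 397) ln16_13_3 ln16_13_3_ok) (M (nat_lit 400) (B (L (nat_lit 399) ln12_13_2 ln12_13_2_ok) (L (nat_lit 401) ln13_13_2 ln13_13_2_ok))))))) (B (M (nat_lit 459) (B (L (nat_lit 431) ln15_13_1 ln15_13_1_ok) (M (nat_lit 491) (B (L (nat_lit 364) ln12_11_5 ln12_11_5_ok) (M (nat_lit 523) (B (L (nat_lit 492) ln12_12_5 ln12_12_5_ok)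 (L (nat_lit 555) ln11_17_6 ln11_17_6_ok))))))) (B (M (nat_lit 492) (B (M (nat_lit 397) (B (L (nat_lit 365) ln12_15_6 ln12_15_6_ok) (L (nat_lit 524) ln12_16_6 ln12_16_6_ok))) (B (M (nat_lit 524) (B (L (nat_lit 397) ln12_16_6 ln12_16_6_ok) (M (nat_lit 523) (B (L (nat_lit 491) ln12_12_5 ln12_12_5_ok) (L (nat_lit 555) ln12_13_5 ln12_13_5_ok))))) (B (M (nat_lit 525) (B (L (nat_lit 493) ln12_12_4 ln12_12_4_ok) (M (nat_lit 524) (B (L (nat_lit 557) ln12_13_4 ln12_13_4_ok) (M (nat_lit 523) (B (L (nat_lit 491) ln12_12_5 ln12_12_5_ok) (L (nat_lit 555) ln12_13_5 ln12_13_5_ok))))))) (M (nat_lit 364) (B (M (nat_lit 365) (B (L (nat_lit 333) ln12_14_6 ln12_14_6_ok) (L (nat_lit 397) ln12_15_6 ln12_15_6_ok))) (M (nat_lit 491) (B (L (nat_lit 459) ln12_11_5 ln12_11_5_ok) (L (nat_lit 523) ln12_12_5 ln12_12_5_ok))))))))) (M (nat_lit 364) (B (M (nat_lit 332) (B (M (nat_lit 331) (B (L (nat_lit 299) ln12_13_7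 ln12_13_7_ok) (L (nat_lit 363) ln12_14_7 ln12_14_7_ok))) (M (nat_lit 333) (B (L (nat_lit 301) ln12_13_6 ln12_13_6_ok) (L (nat_lit 365) ln12_14_6 ln12_14_6_ok))))) (B (M (nat_lit 492) (B (M (nat_lit 365) (B (L (nat_lit 333) ln12_14_6 ln12_14_6_ok) (L (nat_lit 397) ln12_15_6 ln12_15_6_ok))) (B (M (nat_lit 397) (B (L (nat_lit 365) ln12_15_6 ln12_15_6_ok) (L (nat_lit 524) ln12_16_6 ln12_16_6_ok))) (B (M (nat_lit 524) (B (L (nat_lit 397) ln12_16_6 ln12_16_6_ok) (M (nat_lit 523) (B (L (nat_lit 491) ln12_12_5 ln12_12_5_ok) (L (nat_lit 555) ln12_13_5 ln12_13_5_ok))))) (M (nat_lit 524) (B (M (nat_lit 523) (B (L (nat_lit 491) ln12_12_5 ln12_12_5_ok) (L (nat_lit 555) ln12_13_5 ln12_13_5_ok))) (M (nat_lit 525) (B (L (nat_lit 493) ln12_12_4 ln12_12_4_ok) (L (nat_lit 557) ln12_13_4 ln12_13_4_ok))))))))) (B (M (nat_lit 397) (B (M (nat_lit 492) (B (L (nat_lit 365) ln12_15_6 ln12_15_6_ok) (L (nat_lit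 524) ln12_16_6 ln12_16_6_ok))) (M (nat_lit 332) (B (L (nat_lit 300) ln12_9_4 ln12_9_4_ok) (M (nat_lit 331) (B (L (nat_lit 299) ln12_13_7 ln12_13_7_ok) (L (nat_lit 363) ln12_14_7 ln12_14_7_ok))))))) (M (nat_lit 332) (B (M (nat_lit 331) (B (L (nat_lit 299) ln12_13_7 ln12_13_7_ok) (L (nat_lit 363) ln12_14_7 ln12_14_7_ok))) (M (nat_lit 300) (B (L (nat_lit 397) ln12_9_4 ln12_9_4_ok) (M (nat_lit 301) (B (L (nat_lit 269) ln12_12_6 ln12_12_6_ok) (L (nat_lit 333) ln12_13_6 ln12_13_6_ok))))))))))))))) (B (M (nat_lit 431) (B (L (nat_lit 395) ln15_13_3 ln15_13_3_ok) (M (nat_lit 399) (B (L (nat_lit 400) ln12_13_2 ln12_13_2_ok) (M (nat_lit 463) (B (L (nat_lit 464) ln12_13_0 ln12_13_0_ok) (M (nat_lit 367) (B (M (nat_lit 462) (B (L (nat_lit 335) ln15_10_5 ln15_10_5_ok) (L (nat_lit 494) ln15_11_5 ln15_11_5_ok))) (B (M (nat_lit 495) (B (M (nat_lit 366) (B (L (nat_lit 334) ln15_14_7 ln15_14_7_ok) (L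 (nat_lit 398) ln15_15_7 ln15_15_7_ok))) (M (nat_lit 494) (B (L (nat_lit 462) ln15_11_5 ln15_11_5_ok) (L (nat_lit 526) ln15_12_5 ln15_12_5_ok))))) (M (nat_lit 335) (B (M (nat_lit 334) (B (L (nat_lit 302) ln15_13_7 ln15_13_7_ok) (L (nat_lit 366) ln15_14_7 ln15_14_7_ok))) (M (nat_lit 336) (B (L (nat_lit 304) ln15_13_6 ln15_13_6_ok) (L (nat_lit 368) ln15_14_6 ln15_14_6_ok)))))))))))))) (K (nat_lit 4852171964872816621642656609103891429263953124053285618600165735627503498443635316696007785346597096250443233647200198949001494528) (nat_lit 471745303294907003558604781876731121148912172554609926289082887663850029292002496571608887223615668019289994673138937884494983192642156647934901654729557572361276882944) (nat_lit 471745303294907003558604781876731121148912172554609926289082887663850029292002496571608887223615668019289994673138937884494983192642156647934901654729557572361276882944) c41_s8941))))))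
theorem c41_s8943 : Sem (nat_lit 2079502270752001762064242424960807725827516048677469043429686155012882190638009693656033379242457518153052022685796627120027336704) (nat_lit 825554280635656100705855142027639893370112193730715058137015758753399032812282192098586905218487787116933343553650533079394583131973244400982230877331330624101323636736) (nat_lit 825554280635656100705855142027639893370112193730715058137015758753399032812282192098586905218487787116933343553650533079394583131973244400982230877331330624101323636736) :=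
  sem_of_chk (M (nat_lit 459) (B (M (nat_lit 364) (B (M (nat_lit 427) (B (L (nat_lit 332) ln12_10_5 ln12_10_5_ok) (M (nat_lit 491) (B (L (nat_lit 460) ln12_11_5 ln12_11_5_ok) (L (nat_lit 523) ln11_16_6 ln11_16_6_ok))))) (B (M (nat_lit 491) (B (L (nat_lit 460) ln12_11_5 ln12_11_5_ok) (M (nat_lit 427) (B (L (nat_lit 395) ln11_15_6 ln11_15_6_ok) (L (nat_lit 523) ln11_16_6 ln11_16_6_ok))))) (B (M (nat_lit 332) (B (M (nat_lit 300) (B (L (nat_lit 397) ln12_9_4 ln12_9_4_ok) (M (nat_lit 301) (B (L (nat_lit 269) ln12_12_6 ln12_12_6_ok) (L (nat_lit 333) ln12_13_6 ln12_13_6_ok))))) (M (nat_lit 460) (B (L (nat_lit 491) ln12_11_5 ln12_11_5_ok) (M (nat_lit 331) (B (L (nat_lit 299) ln12_13_7 ln12_13_7_ok) (L (nat_lit 363) ln12_14_7 ln12_14_7_ok))))))) (B (M (nat_lit 427) (B (L (nat_lit 332) ln12_10_5 ln12_10_5_ok) (M (nat_lit 491) (B (L (nat_lit 395) ln11_15_6 ln11_15_6_ok) (L (nat_lit 523) ln11_16_6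 ln11_16_6_ok))))) (M (nat_lit 332) (B (L (nat_lit 427) ln12_10_5 ln12_10_5_ok) (M (nat_lit 300) (B (L (nat_lit 397) ln12_9_4 ln12_9_4_ok) (M (nat_lit 301) (B (L (nat_lit 269) ln12_12_6 ln12_12_6_ok) (L (nat_lit 333) ln12_13_6 ln12_13_6_ok)))))))))))) (B (M (nat_lit 364) (B (M (nat_lit 427) (B (L (nat_lit 332) ln12_10_5 ln12_10_5_ok) (M (nat_lit 491) (B (L (nat_lit 395) ln11_15_6 ln11_15_6_ok) (L (nat_lit 523) ln11_16_6 ln11_16_6_ok))))) (B (M (nat_lit 491) (B (L (nat_lit 460) ln12_11_5 ln12_11_5_ok) (M (nat_lit 427) (B (L (nat_lit 395) ln11_15_6 ln11_15_6_ok) (L (nat_lit 523) ln11_16_6 ln11_16_6_ok))))) (B (M (nat_lit 427) (B (L (nat_lit 332) ln12_10_5 ln12_10_5_ok) (M (nat_lit 491) (B (L (nat_lit 460) ln12_11_5 ln12_11_5_ok) (L (nat_lit 523) ln11_16_6 ln11_16_6_ok))))) (B (M (nat_lit 332) (B (M (nat_lit 300) (B (L (nat_lit 397) ln12_9_4 ln12_9_4_ok) (M (nat_lit 299) (B (L (nat_lit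 267) ln12_12_7 ln12_12_7_ok) (L (nat_lit 331) ln12_13_7 ln12_13_7_ok))))) (M (nat_lit 460) (B (L (nat_lit 491) ln12_11_5 ln12_11_5_ok) (M (nat_lit 333) (B (L (nat_lit 301) ln12_13_6 ln12_13_6_ok) (L (nat_lit 365) ln12_14_6 ln12_14_6_ok))))))) (M (nat_lit 332) (B (L (nat_lit 427) ln12_10_5 ln12_10_5_ok) (M (nat_lit 300) (B (L (nat_lit 397) ln12_9_4 ln12_9_4_ok) (M (nat_lit 299) (B (L (nat_lit 267) ln12_12_7 ln12_12_7_ok) (L (nat_lit 331) ln12_13_7 ln12_13_7_ok)))))))))))) (B (M (nat_lit 364) (B (M (nat_lit 427) (B (L (nat_lit 332) ln12_10_5 ln12_10_5_ok) (M (nat_lit 491) (B (L (nat_lit 460) ln12_11_5 ln12_11_5_ok) (L (nat_lit 523) ln11_16_6 ln11_16_6_ok))))) (B (M (nat_lit 491) (B (L (nat_lit 460) ln12_11_5 ln12_11_5_ok) (M (nat_lit 427) (B (L (nat_lit 395) ln11_15_6 ln11_15_6_ok) (L (nat_lit 523) ln11_16_6 ln11_16_6_ok))))) (B (M (nat_lit 460) (B (L (nat_lit 491) ln12_11_5 ln12_11_5_ok)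 (M (nat_lit 492) (B (M (nat_lit 363) (B (L (nat_lit 331) ln12_14_7 ln12_14_7_ok) (L (nat_lit 395) ln12_15_7 ln12_15_7_ok))) (M (nat_lit 365) (B (L (nat_lit 333) ln12_14_6 ln12_14_6_ok) (L (nat_lit 397) ln12_15_6 ln12_15_6_ok))))))) (B (M (nat_lit 427) (B (L (nat_lit 332) ln12_10_5 ln12_10_5_ok) (M (nat_lit 491) (B (L (nat_lit 395) ln11_15_6 ln11_15_6_ok) (L (nat_lit 523) ln11_16_6 ln11_16_6_ok))))) (M (nat_lit 332) (B (L (nat_lit 427) ln12_10_5 ln12_10_5_ok) (M (nat_lit 300) (B (L (nat_lit 397) ln12_9_4 ln12_9_4_ok) (M (nat_lit 301) (B (L (nat_lit 269) ln12_12_6 ln12_12_6_ok) (L (nat_lit 333) ln12_13_6 ln12_13_6_ok)))))))))))) (B (M (nat_lit 364) (B (M (nat_lit 427) (B (L (nat_lit 332) ln12_10_5 ln12_10_5_ok) (M (nat_lit 491) (B (L (nat_lit 395) ln11_15_6 ln11_15_6_ok) (L (nat_lit 523) ln11_16_6 ln11_16_6_ok))))) (B (M (nat_lit 491) (B (L (nat_lit 460) ln12_11_5 ln12_11_5_ok) (M (nat_lit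 427) (B (L (nat_lit 395) ln11_15_6 ln11_15_6_ok) (L (nat_lit 523) ln11_16_6 ln11_16_6_ok))))) (B (M (nat_lit 427) (B (L (nat_lit 332) ln12_10_5 ln12_10_5_ok) (M (nat_lit 491) (B (L (nat_lit 460) ln12_11_5 ln12_11_5_ok) (L (nat_lit 523) ln11_16_6 ln11_16_6_ok))))) (B (M (nat_lit 460) (B (L (nat_lit 491) ln12_11_5 ln12_11_5_ok) (M (nat_lit 492) (B (M (nat_lit 363) (B (L (nat_lit 331) ln12_14_7 ln12_14_7_ok) (L (nat_lit 395) ln12_15_7 ln12_15_7_ok))) (M (nat_lit 365) (B (L (nat_lit 333) ln12_14_6 ln12_14_6_ok) (L (nat_lit 397) ln12_15_6 ln12_15_6_ok))))))) (M (nat_lit 332) (B (L (nat_lit 427) ln12_10_5 ln12_10_5_ok) (M (nat_lit 460) (B (M (nat_lit 331) (B (L (nat_lit 299) ln12_13_7 ln12_13_7_ok) (L (nat_lit 363) ln12_14_7 ln12_14_7_ok))) (M (nat_lit 333) (B (L (nat_lit 301) ln12_13_6 ln12_13_6_ok) (L (nat_lit 365) ln12_14_6 ln12_14_6_ok)))))))))))) (B (M (nat_lit 364) (B (M (nat_lit 427)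 (B (L (nat_lit 332) ln12_10_5 ln12_10_5_ok) (M (nat_lit 491) (B (L (nat_lit 460) ln12_11_5 ln12_11_5_ok) (L (nat_lit 523) ln11_16_6 ln11_16_6_ok))))) (B (M (nat_lit 491) (B (L (nat_lit 460) ln12_11_5 ln12_11_5_ok) (M (nat_lit 427) (B (L (nat_lit 395) ln11_15_6 ln11_15_6_ok) (L (nat_lit 523) ln11_16_6 ln11_16_6_ok))))) (B (M (nat_lit 460) (B (L (nat_lit 491) ln12_11_5 ln12_11_5_ok) (M (nat_lit 492) (B (M (nat_lit 363) (B (L (nat_lit 331) ln12_14_7 ln12_14_7_ok) (L (nat_lit 395) ln12_15_7 ln12_15_7_ok))) (M (nat_lit 365) (B (L (nat_lit 333) ln12_14_6 ln12_14_6_ok) (L (nat_lit 397) ln12_15_6 ln12_15_6_ok))))))) (B (M (nat_lit 427) (B (L (nat_lit 332) ln12_10_5 ln12_10_5_ok) (M (nat_lit 491) (B (L (nat_lit 395) ln11_15_6 ln11_15_6_ok) (L (nat_lit 523) ln11_16_6 ln11_16_6_ok))))) (M (nat_lit 332) (B (L (nat_lit 427) ln12_10_5 ln12_10_5_ok) (M (nat_lit 300) (B (L (nat_lit 397) ln12_9_4 ln12_9_4_ok)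 (M (nat_lit 299) (B (L (nat_lit 267) ln12_12_7 ln12_12_7_ok) (L (nat_lit 331) ln12_13_7 ln12_13_7_ok)))))))))))) (B (M (nat_lit 364) (B (M (nat_lit 427) (B (L (nat_lit 332) ln12_10_5 ln12_10_5_ok) (M (nat_lit 491) (B (L (nat_lit 395) ln11_15_6 ln11_15_6_ok) (L (nat_lit 523) ln11_16_6 ln11_16_6_ok))))) (B (M (nat_lit 491) (B (L (nat_lit 460) ln12_11_5 ln12_11_5_ok) (M (nat_lit 427) (B (L (nat_lit 395) ln11_15_6 ln11_15_6_ok) (L (nat_lit 523) ln11_16_6 ln11_16_6_ok))))) (B (M (nat_lit 427) (B (L (nat_lit 332) ln12_10_5 ln12_10_5_ok) (M (nat_lit 491) (B (L (nat_lit 460) ln12_11_5 ln12_11_5_ok) (L (nat_lit 523) ln11_16_6 ln11_16_6_ok))))) (B (M (nat_lit 332) (B (M (nat_lit 300) (B (L (nat_lit 397) ln12_9_4 ln12_9_4_ok) (M (nat_lit 301) (B (L (nat_lit 269) ln12_12_6 ln12_12_6_ok) (L (nat_lit 333) ln12_13_6 ln12_13_6_ok))))) (B (M (nat_lit 460) (B (L (nat_lit 491) ln12_11_5 ln12_11_5_ok)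 (M (nat_lit 333) (B (L (nat_lit 301) ln12_13_6 ln12_13_6_ok) (L (nat_lit 365) ln12_14_6 ln12_14_6_ok))))) (B (M (nat_lit 460) (B (L (nat_lit 491) ln12_11_5 ln12_11_5_ok) (M (nat_lit 397) (B (L (nat_lit 300) ln12_9_4 ln12_9_4_ok) (M (nat_lit 365) (B (L (nat_lit 333) ln12_14_6 ln12_14_6_ok) (L (nat_lit 492) ln12_15_6 ln12_15_6_ok))))))) (M (nat_lit 460) (B (L (nat_lit 491) ln12_11_5 ln12_11_5_ok) (M (nat_lit 397) (B (L (nat_lit 300) ln12_9_4 ln12_9_4_ok) (M (nat_lit 492) (B (L (nat_lit 365) ln12_15_6 ln12_15_6_ok) (L (nat_lit 524) ln12_16_6 ln12_16_6_ok))))))))))) (M (nat_lit 332) (B (L (nat_lit 427) ln12_10_5 ln12_10_5_ok) (M (nat_lit 300) (B (L (nat_lit 397) ln12_9_4 ln12_9_4_ok) (M (nat_lit 301) (B (L (nat_lit 269) ln12_12_6 ln12_12_6_ok) (L (nat_lit 333) ln12_13_6 ln12_13_6_ok)))))))))))) (B (M (nat_lit 460) (B (M (nat_lit 491) (B (L (nat_lit 364) ln12_11_5 ln12_11_5_ok) (M (nat_lit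 523) (B (L (nat_lit 427) ln11_16_6 ln11_16_6_ok) (L (nat_lit 492) ln12_12_5 ln12_12_5_ok))))) (B (M (nat_lit 395) (B (M (nat_lit 492) (B (L (nat_lit 363) ln12_15_7 ln12_15_7_ok) (M (nat_lit 397) (B (L (nat_lit 365) ln12_15_6 ln12_15_6_ok) (L (nat_lit 524) ln12_16_6 ln12_16_6_ok))))) (B (M (nat_lit 427) (B (M (nat_lit 394) (B (L (nat_lit 393) ln9_12_0 ln9_12_0_ok) (M (nat_lit 491) (B (L (nat_lit 362) ln11_15_7 ln11_15_7_ok) (L (nat_lit 523) ln11_16_6 ln11_16_6_ok))))) (M (nat_lit 397) (B (M (nat_lit 365) (B (L (nat_lit 333) ln13_10_5 ln13_10_5_ok) (L (nat_lit 492) ln12_15_6 ln12_15_6_ok))) (M (nat_lit 398) (B (L (nat_lit 426) ln14_12_1 ln14_12_1_ok) (L (nat_lit 399) ln15_12_1 ln15_12_1_ok))))))) (B (M (nat_lit 492) (B (L (nat_lit 363) ln12_15_7 ln12_15_7_ok) (M (nat_lit 524) (B (L (nat_lit 427) ln12_16_7 ln12_16_7_ok) (L (nat_lit 397) ln12_16_6 ln12_16_6_ok))))) (B (M (nat_lit 363)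 (B (L (nat_lit 492) ln12_15_7 ln12_15_7_ok) (M (nat_lit 427) (B (L (nat_lit 331) ln11_10_4 ln11_10_4_ok) (M (nat_lit 458) (B (L (nat_lit 490) ln11_11_5 ln11_11_5_ok) (L (nat_lit 457) ln9_14_2 ln9_14_2_ok))))))) (M (nat_lit 427) (B (M (nat_lit 394) (B (L (nat_lit 393) ln9_12_0 ln9_12_0_ok) (M (nat_lit 491) (B (L (nat_lit 362) ln11_15_7 ln11_15_7_ok) (L (nat_lit 523) ln11_16_6 ln11_16_6_ok))))) (M (nat_lit 363) (B (L (nat_lit 331) ln11_10_4 ln11_10_4_ok) (M (nat_lit 458) (B (L (nat_lit 490) ln11_11_5 ln11_11_5_ok) (L (nat_lit 457) ln9_14_2 ln9_14_2_ok)))))))))))) (B (M (nat_lit 491) (B (L (nat_lit 364) ln12_11_5 ln12_11_5_ok) (M (nat_lit 523) (B (L (nat_lit 492) ln12_12_5 ln12_12_5_ok) (L (nat_lit 555) ln11_17_6 ln11_17_6_ok))))) (B (M (nat_lit 492) (B (M (nat_lit 397) (B (L (nat_lit 365) ln12_15_6 ln12_15_6_ok) (L (nat_lit 524) ln12_16_6 ln12_16_6_ok))) (B (M (nat_lit 395) (B (L (nat_lit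 363) ln12_15_7 ln12_15_7_ok) (M (nat_lit 524) (B (L (nat_lit 427) ln12_16_7 ln12_16_7_ok) (L (nat_lit 397) ln12_16_6 ln12_16_6_ok))))) (B (M (nat_lit 524) (B (M (nat_lit 395) (B (L (nat_lit 363) ln12_15_7 ln12_15_7_ok) (L (nat_lit 427) ln12_16_7 ln12_16_7_ok))) (M (nat_lit 525) (B (L (nat_lit 493) ln12_12_4 ln12_12_4_ok) (L (nat_lit 557) ln12_13_4 ln12_13_4_ok))))) (M (nat_lit 364) (B (M (nat_lit 363) (B (L (nat_lit 331) ln12_14_7 ln12_14_7_ok) (L (nat_lit 395) ln12_15_7 ln12_15_7_ok))) (M (nat_lit 365) (B (L (nat_lit 333) ln12_14_6 ln12_14_6_ok) (L (nat_lit 397) ln12_15_6 ln12_15_6_ok))))))))) (M (nat_lit 491) (B (L (nat_lit 364) ln12_11_5 ln12_11_5_ok) (M (nat_lit 523) (B (L (nat_lit 427) ln11_16_6 ln11_16_6_ok) (L (nat_lit 555) ln11_17_6 ln11_17_6_ok)))))))))) (B (M (nat_lit 364) (B (M (nat_lit 427) (B (L (nat_lit 332) ln12_10_5 ln12_10_5_ok) (M (nat_lit 491) (B (L (nat_lit 460)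 ln12_11_5 ln12_11_5_ok) (L (nat_lit 523) ln11_16_6 ln11_16_6_ok))))) (B (M (nat_lit 491) (B (L (nat_lit 460) ln12_11_5 ln12_11_5_ok) (M (nat_lit 427) (B (L (nat_lit 395) ln11_15_6 ln11_15_6_ok) (L (nat_lit 523) ln11_16_6 ln11_16_6_ok))))) (B (M (nat_lit 460) (B (L (nat_lit 491) ln12_11_5 ln12_11_5_ok) (M (nat_lit 492) (B (M (nat_lit 363) (B (L (nat_lit 331) ln12_14_7 ln12_14_7_ok) (L (nat_lit 395) ln12_15_7 ln12_15_7_ok))) (M (nat_lit 397) (B (L (nat_lit 365) ln12_15_6 ln12_15_6_ok) (L (nat_lit 524) ln12_16_6 ln12_16_6_ok))))))) (B (M (nat_lit 427) (B (L (nat_lit 332) ln12_10_5 ln12_10_5_ok) (M (nat_lit 491) (B (L (nat_lit 395) ln11_15_6 ln11_15_6_ok) (L (nat_lit 523) ln11_16_6 ln11_16_6_ok))))) (M (nat_lit 332) (B (L (nat_lit 427) ln12_10_5 ln12_10_5_ok) (M (nat_lit 300) (B (L (nat_lit 397) ln12_9_4 ln12_9_4_ok) (M (nat_lit 299) (B (L (nat_lit 267) ln12_12_7 ln12_12_7_ok) (L (nat_lit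 331) ln12_13_7 ln12_13_7_ok)))))))))))) (B (K (nat_lit 1488565709436905182597016920618875711317065232515143436133960971351635417069121137610048965517821161510899162402685155093675491255430152192) (nat_lit 235872651757290264418112238746734313456985850126208889252965780253167767451239278837896970839469544703420384466920884887223563770765566334682756668309058614179011756032) (nat_lit 235872651757290264418112238746734313456985850126208889252965780253167767451239278837896970839469544703420384466920884887223563770765566334682756668309058614179011756032) c41_s7382) (B (M (nat_lit 364) (B (M (nat_lit 427) (B (L (nat_lit 332) ln12_10_5 ln12_10_5_ok) (M (nat_lit 491) (B (L (nat_lit 460) ln12_11_5 ln12_11_5_ok) (L (nat_lit 523) ln11_16_6 ln11_16_6_ok))))) (B (M (nat_lit 460) (B (L (nat_lit 491) ln12_11_5 ln12_11_5_ok) (M (nat_lit 365) (B (L (nat_lit 333) ln12_14_6 ln12_14_6_ok) (M (nat_lit 397)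 (B (L (nat_lit 492) ln12_15_6 ln12_15_6_ok) (M (nat_lit 363) (B (L (nat_lit 331) ln12_14_7 ln12_14_7_ok) (M (nat_lit 362) (B (L (nat_lit 361) ln9_11_0 ln9_11_0_ok) (L (nat_lit 398) ln10_11_0 ln10_11_0_ok))))))))))) (M (nat_lit 332) (B (L (nat_lit 427) ln12_10_5 ln12_10_5_ok) (M (nat_lit 300) (B (L (nat_lit 397) ln12_9_4 ln12_9_4_ok) (M (nat_lit 299) (B (L (nat_lit 267) ln12_12_7 ln12_12_7_ok) (L (nat_lit 331) ln12_13_7 ln12_13_7_ok)))))))))) (B (M (nat_lit 364) (B (M (nat_lit 427) (B (L (nat_lit 332) ln12_10_5 ln12_10_5_ok) (M (nat_lit 491) (B (L (nat_lit 460) ln12_11_5 ln12_11_5_ok) (L (nat_lit 523) ln11_16_6 ln11_16_6_ok))))) (B (M (nat_lit 491) (B (L (nat_lit 460) ln12_11_5 ln12_11_5_ok) (M (nat_lit 427) (B (L (nat_lit 395) ln11_15_6 ln11_15_6_ok) (L (nat_lit 523) ln11_16_6 ln11_16_6_ok))))) (B (M (nat_lit 332) (B (M (nat_lit 460) (B (L (nat_lit 491) ln12_11_5 ln12_11_5_ok) (M (nat_lit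 333) (B (L (nat_lit 301) ln12_13_6 ln12_13_6_ok) (L (nat_lit 365) ln12_14_6 ln12_14_6_ok))))) (B (M (nat_lit 460) (B (L (nat_lit 491) ln12_11_5 ln12_11_5_ok) (M (nat_lit 331) (B (L (nat_lit 299) ln12_13_7 ln12_13_7_ok) (L (nat_lit 363) ln12_14_7 ln12_14_7_ok))))) (M (nat_lit 300) (B (M (nat_lit 299) (B (L (nat_lit 267) ln12_12_7 ln12_12_7_ok) (L (nat_lit 331) ln12_13_7 ln12_13_7_ok))) (M (nat_lit 301) (B (L (nat_lit 269) ln12_12_6 ln12_12_6_ok) (L (nat_lit 333) ln12_13_6 ln12_13_6_ok)))))))) (B (M (nat_lit 427) (B (L (nat_lit 332) ln12_10_5 ln12_10_5_ok) (M (nat_lit 491) (B (L (nat_lit 395) ln11_15_6 ln11_15_6_ok) (L (nat_lit 523) ln11_16_6 ln11_16_6_ok))))) (M (nat_lit 332) (B (L (nat_lit 427) ln12_10_5 ln12_10_5_ok) (M (nat_lit 300) (B (M (nat_lit 299) (B (L (nat_lit 267) ln12_12_7 ln12_12_7_ok) (L (nat_lit 331) ln12_13_7 ln12_13_7_ok))) (M (nat_lit 301) (B (L (nat_lit 269) ln12_12_6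 ln12_12_6_ok) (L (nat_lit 333) ln12_13_6 ln12_13_6_ok)))))))))))) (B (M (nat_lit 460) (B (M (nat_lit 491) (B (L (nat_lit 364) ln12_11_5 ln12_11_5_ok) (M (nat_lit 523) (B (L (nat_lit 492) ln12_12_5 ln12_12_5_ok) (L (nat_lit 555) ln11_17_6 ln11_17_6_ok))))) (B (M (nat_lit 492) (B (M (nat_lit 397) (B (L (nat_lit 365) ln12_15_6 ln12_15_6_ok) (L (nat_lit 524) ln12_16_6 ln12_16_6_ok))) (B (M (nat_lit 524) (B (L (nat_lit 397) ln12_16_6 ln12_16_6_ok) (M (nat_lit 523) (B (L (nat_lit 491) ln12_12_5 ln12_12_5_ok) (L (nat_lit 555) ln12_13_5 ln12_13_5_ok))))) (B (M (nat_lit 524) (B (M (nat_lit 523) (B (L (nat_lit 491) ln12_12_5 ln12_12_5_ok) (L (nat_lit 555) ln12_13_5 ln12_13_5_ok))) (M (nat_lit 525) (B (L (nat_lit 493) ln12_12_4 ln12_12_4_ok) (L (nat_lit 557) ln12_13_4 ln12_13_4_ok))))) (M (nat_lit 493) (B (L (nat_lit 525) ln12_12_4 ln12_12_4_ok) (M (nat_lit 458) (B (L (nat_lit 457) ln9_14_2 ln9_14_2_ok)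 (M (nat_lit 491) (B (L (nat_lit 523) ln12_12_5 ln12_12_5_ok) (L (nat_lit 494) ln14_15_3 ln14_15_3_ok))))))))))) (B (M (nat_lit 364) (B (M (nat_lit 492) (B (M (nat_lit 363) (B (L (nat_lit 331) ln12_14_7 ln12_14_7_ok) (L (nat_lit 395) ln12_15_7 ln12_15_7_ok))) (M (nat_lit 365) (B (L (nat_lit 333) ln12_14_6 ln12_14_6_ok) (L (nat_lit 397) ln12_15_6 ln12_15_6_ok))))) (B (M (nat_lit 332) (B (M (nat_lit 333) (B (L (nat_lit 301) ln12_13_6 ln12_13_6_ok) (L (nat_lit 365) ln12_14_6 ln12_14_6_ok))) (B (M (nat_lit 397) (B (L (nat_lit 300) ln12_9_4 ln12_9_4_ok) (M (nat_lit 492) (B (L (nat_lit 365) ln12_15_6 ln12_15_6_ok) (L (nat_lit 524) ln12_16_6 ln12_16_6_ok))))) (M (nat_lit 300) (B (L (nat_lit 397) ln12_9_4 ln12_9_4_ok) (M (nat_lit 301) (B (L (nat_lit 269) ln12_12_6 ln12_12_6_ok) (L (nat_lit 333) ln12_13_6 ln12_13_6_ok)))))))) (B (M (nat_lit 492) (B (M (nat_lit 363) (B (L (nat_lit 331) ln12_14_7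 ln12_14_7_ok) (L (nat_lit 395) ln12_15_7 ln12_15_7_ok))) (M (nat_lit 397) (B (L (nat_lit 365) ln12_15_6 ln12_15_6_ok) (L (nat_lit 524) ln12_16_6 ln12_16_6_ok))))) (B (M (nat_lit 492) (B (M (nat_lit 363) (B (L (nat_lit 331) ln12_14_7 ln12_14_7_ok) (L (nat_lit 395) ln12_15_7 ln12_15_7_ok))) (M (nat_lit 525) (B (L (nat_lit 493) ln12_12_4 ln12_12_4_ok) (M (nat_lit 524) (B (L (nat_lit 397) ln12_16_6 ln12_16_6_ok) (L (nat_lit 557) ln12_13_4 ln12_13_4_ok))))))) (M (nat_lit 332) (B (M (nat_lit 331) (B (L (nat_lit 299) ln12_13_7 ln12_13_7_ok) (L (nat_lit 363) ln12_14_7 ln12_14_7_ok))) (M (nat_lit 333) (B (L (nat_lit 301) ln12_13_6 ln12_13_6_ok) (L (nat_lit 365) ln12_14_6 ln12_14_6_ok)))))))))) (M (nat_lit 364) (B (L (nat_lit 491) ln12_11_5 ln12_11_5_ok) (M (nat_lit 332) (B (M (nat_lit 331) (B (L (nat_lit 299) ln12_13_7 ln12_13_7_ok) (L (nat_lit 363) ln12_14_7 ln12_14_7_ok))) (M (nat_lit 333)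 (B (L (nat_lit 301) ln12_13_6 ln12_13_6_ok) (L (nat_lit 365) ln12_14_6 ln12_14_6_ok))))))))))) (B (M (nat_lit 427) (B (M (nat_lit 364) (B (L (nat_lit 332) ln12_10_5 ln12_10_5_ok) (M (nat_lit 491) (B (L (nat_lit 395) ln11_15_6 ln11_15_6_ok) (L (nat_lit 523) ln11_16_6 ln11_16_6_ok))))) (B (M (nat_lit 491) (B (L (nat_lit 523) ln11_16_6 ln11_16_6_ok) (M (nat_lit 395) (B (L (nat_lit 364) ln11_15_6 ln11_15_6_ok) (M (nat_lit 394) (B (L (nat_lit 362) ln11_15_7 ln11_15_7_ok) (L (nat_lit 393) ln9_12_0 ln9_12_0_ok))))))) (B (M (nat_lit 395) (B (M (nat_lit 394) (B (L (nat_lit 393) ln9_12_0 ln9_12_0_ok) (M (nat_lit 491) (B (L (nat_lit 362) ln11_15_7 ln11_15_7_ok) (L (nat_lit 523) ln11_16_6 ln11_16_6_ok))))) (M (nat_lit 426) (B (M (nat_lit 397) (B (L (nat_lit 398) ln14_12_1 ln14_12_1_ok) (L (nat_lit 425) ln9_13_2 ln9_13_2_ok))) (M (nat_lit 458) (B (L (nat_lit 457) ln13_13_1 ln13_13_1_ok) (M (nat_lit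 363) (B (L (nat_lit 331) ln11_10_5 ln11_10_5_ok) (L (nat_lit 490) ln11_11_5 ln11_11_5_ok))))))))) (B (M (nat_lit 426) (B (M (nat_lit 397) (B (L (nat_lit 425) ln9_13_2 ln9_13_2_ok) (L (nat_lit 398) ln10_13_2 ln10_13_2_ok))) (M (nat_lit 394) (B (L (nat_lit 393) ln13_13_3 ln13_13_3_ok) (M (nat_lit 491) (B (L (nat_lit 523) ln11_16_7 ln11_16_7_ok) (M (nat_lit 362) (B (L (nat_lit 330) ln10_10_4 ln10_10_4_ok) (L (nat_lit 458) ln10_11_4 ln10_11_4_ok))))))))) (M (nat_lit 364) (B (L (nat_lit 332) ln12_10_5 ln12_10_5_ok) (M (nat_lit 426) (B (M (nat_lit 397) (B (L (nat_lit 425) ln9_13_2 ln9_13_2_ok) (L (nat_lit 398) ln10_13_2 ln10_13_2_ok))) (B (M (nat_lit 425) (B (M (nat_lit 393) (B (L (nat_lit 392) ln12_13_3 ln12_13_3_ok) (L (nat_lit 394) ln13_13_3 ln13_13_3_ok))) (M (nat_lit 457) (B (L (nat_lit 456) ln12_13_1 ln12_13_1_ok) (L (nat_lit 458) ln13_13_1 ln13_13_1_ok))))) (M (nat_lit 363) (B (M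 (nat_lit 458) (B (L (nat_lit 457) ln13_13_1 ln13_13_1_ok) (M (nat_lit 395) (B (L (nat_lit 331) ln11_10_5 ln11_10_5_ok) (L (nat_lit 490) ln11_11_5 ln11_11_5_ok))))) (M (nat_lit 362) (B (M (nat_lit 394) (B (L (nat_lit 330) ln10_10_4 ln10_10_4_ok) (L (nat_lit 393) ln13_13_3 ln13_13_3_ok))) (M (nat_lit 397) (B (L (nat_lit 361) ln9_11_0 ln9_11_0_ok) (L (nat_lit 398) ln10_13_2 ln10_13_2_ok))))))))))))))))) c41_n7549)))))))))))))) (nat_lit 2079502270752001762064242424960807725827516048677469043429686155012882190638009693656033379242457518153052022685796627120027336704) (nat_lit 825554280635656100705855142027639893370112193730715058137015758753399032812282192098586905218487787116933343553650533079394583131973244400982230877331330624101323636736) (nat_lit 825554280635656100705855142027639893370112193730715058137015758753399032812282192098586905218487787116933343553650533079394583131973244400982230877331330624101323636736)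 (by decide +kernel)
noncomputable def c41_n9039 : Cert := (M (nat_lit 462) (B (M (nat_lit 427) (B (L (nat_lit 463) ln11_13_0 ln11_13_0_ok) (M (nat_lit 398) (B (L (nat_lit 399) ln11_13_2 ln11_13_2_ok) (M (nat_lit 397) (B (L (nat_lit 426) ln10_13_2 ln10_13_2_ok) (M (nat_lit 365) (B (L (nat_lit 333) ln13_10_5 ln13_10_5_ok) (L (nat_lit 492) ln12_15_6 ln12_15_6_ok))))))))) (B (M (nat_lit 427) (B (L (nat_lit 463) ln11_13_0 ln11_13_0_ok) (M (nat_lit 426) (B (M (nat_lit 394) (B (L (nat_lit 393) ln13_13_3 ln13_13_3_ok) (L (nat_lit 395) ln14_13_3 ln14_13_3_ok))) (M (nat_lit 398) (B (L (nat_lit 397) ln10_13_2 ln10_13_2_ok) (L (nat_lit 399) ln11_13_2 ln11_13_2_ok))))))) (B (M (nat_lit 492) (B (M (nat_lit 427) (B (L (nat_lit 463) ln11_13_0 ln11_13_0_ok) (M (nat_lit 395) (B (L (nat_lit 394) ln14_13_3 ln14_13_3_ok) (L (nat_lit 524) ln12_16_7 ln12_16_7_ok))))) (B (M (nat_lit 524) (B (M (nat_lit 427)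 (B (L (nat_lit 395) ln12_16_7 ln12_16_7_ok) (L (nat_lit 463) ln11_13_0 ln11_13_0_ok))) (M (nat_lit 523) (B (L (nat_lit 491) ln12_12_5 ln12_12_5_ok) (L (nat_lit 555) ln12_13_5 ln12_13_5_ok))))) (B (M (nat_lit 524) (B (M (nat_lit 523) (B (L (nat_lit 491) ln12_12_5 ln12_12_5_ok) (L (nat_lit 555) ln12_13_5 ln12_13_5_ok))) (M (nat_lit 525) (B (L (nat_lit 493) ln12_12_4 ln12_12_4_ok) (L (nat_lit 557) ln12_13_4 ln12_13_4_ok))))) (M (nat_lit 493) (B (L (nat_lit 525) ln12_12_4 ln12_12_4_ok) (M (nat_lit 463) (B (L (nat_lit 427) ln11_13_0 ln11_13_0_ok) (M (nat_lit 491) (B (L (nat_lit 523) ln12_12_5 ln12_12_5_ok) (L (nat_lit 494) ln11_15_2 ln11_15_2_ok))))))))))) (B (M (nat_lit 492) (B (M (nat_lit 397) (B (L (nat_lit 365) ln12_15_6 ln12_15_6_ok) (L (nat_lit 524) ln12_16_6 ln12_16_6_ok))) (B (M (nat_lit 524) (B (L (nat_lit 397) ln12_16_6 ln12_16_6_ok) (M (nat_lit 523) (B (L (nat_lit 491) ln12_12_5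 ln12_12_5_ok) (L (nat_lit 555) ln12_13_5 ln12_13_5_ok))))) (B (M (nat_lit 524) (B (M (nat_lit 523) (B (L (nat_lit 491) ln12_12_5 ln12_12_5_ok) (L (nat_lit 555) ln12_13_5 ln12_13_5_ok))) (M (nat_lit 525) (B (L (nat_lit 493) ln12_12_4 ln12_12_4_ok) (L (nat_lit 557) ln12_13_4 ln12_13_4_ok))))) (M (nat_lit 493) (B (L (nat_lit 525) ln12_12_4 ln12_12_4_ok) (M (nat_lit 494) (B (M (nat_lit 397) (B (L (nat_lit 365) ln12_15_6 ln12_15_6_ok) (L (nat_lit 526) ln14_16_7 ln14_16_7_ok))) (M (nat_lit 491) (B (L (nat_lit 523) ln12_12_5 ln12_12_5_ok) (L (nat_lit 463) ln11_15_2 ln11_15_2_ok))))))))))) (M (nat_lit 398) (B (M (nat_lit 427) (B (L (nat_lit 399) ln11_13_2 ln11_13_2_ok) (M (nat_lit 397) (B (L (nat_lit 426) ln10_13_2 ln10_13_2_ok) (M (nat_lit 365) (B (L (nat_lit 333) ln13_10_5 ln13_10_5_ok) (L (nat_lit 492) ln12_15_6 ln12_15_6_ok))))))) (B (M (nat_lit 397) (B (M (nat_lit 365) (B (L (nat_lit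 492) ln12_15_6 ln12_15_6_ok) (L (nat_lit 494) ln14_15_7 ln14_15_7_ok))) (M (nat_lit 427) (B (L (nat_lit 399) ln15_12_1 ln15_12_1_ok) (L (nat_lit 426) ln10_13_2 ln10_13_2_ok))))) (B (M (nat_lit 399) (B (L (nat_lit 427) ln11_13_2 ln11_13_2_ok) (M (nat_lit 367) (B (L (nat_lit 494) ln14_15_6 ln14_15_6_ok) (M (nat_lit 335) (B (L (nat_lit 303) ln15_9_5 ln15_9_5_ok) (L (nat_lit 366) ln14_14_6 ln14_14_6_ok))))))) (M (nat_lit 365) (B (M (nat_lit 333) (B (L (nat_lit 364) ln12_14_6 ln12_14_6_ok) (L (nat_lit 366) ln14_14_7 ln14_14_7_ok))) (M (nat_lit 397) (B (L (nat_lit 492) ln12_15_6 ln12_15_6_ok) (L (nat_lit 494) ln14_15_7 ln14_15_7_ok))))))))))))))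
noncomputable def c41_n9165 : Cert := (M (nat_lit 398) (B (M (nat_lit 427) (B (L (nat_lit 399) ln11_13_2 ln11_13_2_ok) (M (nat_lit 394) (B (L (nat_lit 395) ln14_13_3 ln14_13_3_ok) (M (nat_lit 426) (B (L (nat_lit 393) ln13_13_3 ln13_13_3_ok) (L (nat_lit 397) ln10_13_2 ln10_13_2_ok))))))) (B (M (nat_lit 397) (B (M (nat_lit 399) (B (L (nat_lit 427) ln15_12_1 ln15_12_1_ok) (L (nat_lit 400) ln16_12_1 ln16_12_1_ok))) (B (M (nat_lit 462) (B (M (nat_lit 365) (B (L (nat_lit 333) ln13_10_5 ln13_10_5_ok) (L (nat_lit 494) ln14_15_7 ln14_15_7_ok))) (M (nat_lit 427) (B (L (nat_lit 426) ln10_13_2 ln10_13_2_ok) (L (nat_lit 463) ln11_13_0 ln11_13_0_ok))))) (M (nat_lit 363) (B (M (nat_lit 395) (B (L (nat_lit 362) ln14_12_3 ln14_12_3_ok) (L (nat_lit 394) ln10_12_0 ln10_12_0_ok))) (M (nat_lit 399) (B (L (nat_lit 364) ln15_12_3 ln15_12_3_ok) (L (nat_lit 400) ln16_12_1 ln16_12_1_ok)))))))) (B (M (nat_lit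 427) (B (L (nat_lit 399) ln11_13_2 ln11_13_2_ok) (M (nat_lit 397) (B (L (nat_lit 426) ln10_13_2 ln10_13_2_ok) (M (nat_lit 365) (B (L (nat_lit 333) ln13_10_5 ln13_10_5_ok) (M (nat_lit 462) (B (L (nat_lit 494) ln14_15_7 ln14_15_7_ok) (L (nat_lit 463) ln11_13_0 ln11_13_0_ok))))))))) (B (M (nat_lit 364) (B (M (nat_lit 365) (B (L (nat_lit 333) ln12_14_6 ln12_14_6_ok) (M (nat_lit 399) (B (L (nat_lit 427) ln11_13_2 ln11_13_2_ok) (M (nat_lit 363) (B (L (nat_lit 331) ln12_14_7 ln12_14_7_ok) (L (nat_lit 366) ln11_11_0 ln11_11_0_ok))))))) (B (M (nat_lit 427) (B (L (nat_lit 399) ln11_13_2 ln11_13_2_ok) (M (nat_lit 332) (B (M (nat_lit 395) (B (L (nat_lit 300) ln12_9_5 ln12_9_5_ok) (L (nat_lit 394) ln14_13_3 ln14_13_3_ok))) (M (nat_lit 333) (B (L (nat_lit 301) ln12_13_6 ln12_13_6_ok) (L (nat_lit 365) ln12_14_6 ln12_14_6_ok))))))) (B (M (nat_lit 427) (B (L (nat_lit 399) ln11_13_2 ln11_13_2_ok) (M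 (nat_lit 332) (B (M (nat_lit 331) (B (L (nat_lit 299) ln12_13_7 ln12_13_7_ok) (L (nat_lit 363) ln12_14_7 ln12_14_7_ok))) (M (nat_lit 395) (B (L (nat_lit 300) ln12_9_5 ln12_9_5_ok) (L (nat_lit 394) ln14_13_3 ln14_13_3_ok))))))) (M (nat_lit 332) (B (M (nat_lit 331) (B (L (nat_lit 299) ln12_13_7 ln12_13_7_ok) (L (nat_lit 363) ln12_14_7 ln12_14_7_ok))) (M (nat_lit 333) (B (L (nat_lit 301) ln12_13_6 ln12_13_6_ok) (L (nat_lit 365) ln12_14_6 ln12_14_6_ok))))))))) (B (M (nat_lit 397) (B (M (nat_lit 462) (B (M (nat_lit 365) (B (L (nat_lit 333) ln13_10_5 ln13_10_5_ok) (L (nat_lit 494) ln14_15_7 ln14_15_7_ok))) (M (nat_lit 427) (B (L (nat_lit 426) ln10_13_2 ln10_13_2_ok) (L (nat_lit 463) ln11_13_0 ln11_13_0_ok))))) (B (M (nat_lit 427) (B (L (nat_lit 426) ln10_13_2 ln10_13_2_ok) (M (nat_lit 395) (B (L (nat_lit 394) ln10_12_0 ln10_12_0_ok) (M (nat_lit 363) (B (L (nat_lit 331) ln11_10_4 ln11_10_4_ok)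 (L (nat_lit 362) ln14_12_3 ln14_12_3_ok))))))) (B (M (nat_lit 395) (B (L (nat_lit 394) ln10_12_0 ln10_12_0_ok) (M (nat_lit 363) (B (L (nat_lit 362) ln14_12_3 ln14_12_3_ok) (M (nat_lit 331) (B (L (nat_lit 299) ln11_9_4 ln11_9_4_ok) (L (nat_lit 427) ln11_10_4 ln11_10_4_ok))))))) (M (nat_lit 395) (B (L (nat_lit 394) ln10_12_0 ln10_12_0_ok) (M (nat_lit 363) (B (L (nat_lit 362) ln14_12_3 ln14_12_3_ok) (M (nat_lit 331) (B (L (nat_lit 299) ln11_9_4 ln11_9_4_ok) (L (nat_lit 364) ln12_14_7 ln12_14_7_ok))))))))))) (M (nat_lit 397) (B (M (nat_lit 395) (B (L (nat_lit 394) ln10_12_0 ln10_12_0_ok) (M (nat_lit 363) (B (L (nat_lit 362) ln14_12_3 ln14_12_3_ok) (M (nat_lit 331) (B (L (nat_lit 299) ln11_9_4 ln11_9_4_ok) (L (nat_lit 364) ln12_14_7 ln12_14_7_ok))))))) (B (M (nat_lit 363) (B (M (nat_lit 395) (B (L (nat_lit 362) ln14_12_3 ln14_12_3_ok) (L (nat_lit 394) ln10_12_0 ln10_12_0_ok))) (M (nat_lit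 399) (B (L (nat_lit 364) ln15_12_3 ln15_12_3_ok) (L (nat_lit 400) ln16_12_1 ln16_12_1_ok))))) (B (M (nat_lit 367) (B (M (nat_lit 395) (B (L (nat_lit 366) ln11_12_2 ln11_12_2_ok) (L (nat_lit 394) ln10_12_0 ln10_12_0_ok))) (M (nat_lit 399) (B (L (nat_lit 368) ln12_12_2 ln12_12_2_ok) (L (nat_lit 400) ln16_12_1 ln16_12_1_ok))))) (M (nat_lit 364) (B (M (nat_lit 363) (B (L (nat_lit 331) ln12_14_7 ln12_14_7_ok) (L (nat_lit 399) ln15_12_3 ln15_12_3_ok))) (B (M (nat_lit 399) (B (L (nat_lit 363) ln15_12_3 ln15_12_3_ok) (L (nat_lit 400) ln16_12_1 ln16_12_1_ok))) (M (nat_lit 333) (B (L (nat_lit 365) ln12_14_6 ln12_14_6_ok) (M (nat_lit 332) (B (L (nat_lit 300) ln12_9_4 ln12_9_4_ok) (L (nat_lit 301) ln12_13_6 ln12_13_6_ok))))))))))))))))))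
theorem c41_s9166 : Sem (nat_lit 4852171964872816621642656609103891429263953124053285618600165735627503498443635316696007785346597096250443233647200198949001494528) (nat_lit 589681629290253695991479601682741051890507551906081986076382803075755397387927657549174357104962625237721667507367884277427229324838357743121289814790834922063325560832) (nat_lit 589681629290253695991479601682741051890507551906081986076382803075755397387927657549174357104962625237721667507367884277427229324838357743121289814790834922063325560832) :=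
  sem_of_chk (M (nat_lit 460) (B (M (nat_lit 427) (B (M (nat_lit 395) (B (L (nat_lit 394) ln14_13_3 ln14_13_3_ok) (M (nat_lit 363) (B (L (nat_lit 331) ln11_10_4 ln11_10_4_ok) (L (nat_lit 492) ln12_15_7 ln12_15_7_ok))))) (B (M (nat_lit 426) (B (M (nat_lit 394) (B (L (nat_lit 393) ln13_13_3 ln13_13_3_ok) (L (nat_lit 395) ln14_13_3 ln14_13_3_ok))) (M (nat_lit 398) (B (L (nat_lit 397) ln10_13_2 ln10_13_2_ok) (L (nat_lit 399) ln11_13_2 ln11_13_2_ok))))) (M (nat_lit 397) (B (M (nat_lit 365) (B (L (nat_lit 333) ln13_10_5 ln13_10_5_ok) (L (nat_lit 492) ln12_15_6 ln12_15_6_ok))) (M (nat_lit 398) (B (L (nat_lit 399) ln15_12_1 ln15_12_1_ok) (L (nat_lit 426) ln10_13_2 ln10_13_2_ok)))))))) (B (M (nat_lit 427) (B (M (nat_lit 395) (B (L (nat_lit 394) ln14_13_3 ln14_13_3_ok) (M (nat_lit 492) (B (L (nat_lit 363) ln12_15_7 ln12_15_7_ok) (L (nat_lit 524) ln12_16_7 ln12_16_7_ok))))) (B (M (nat_lit 426)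 (B (M (nat_lit 394) (B (L (nat_lit 393) ln13_13_3 ln13_13_3_ok) (L (nat_lit 395) ln14_13_3 ln14_13_3_ok))) (M (nat_lit 398) (B (L (nat_lit 397) ln10_13_2 ln10_13_2_ok) (L (nat_lit 399) ln11_13_2 ln11_13_2_ok))))) (M (nat_lit 397) (B (M (nat_lit 365) (B (L (nat_lit 333) ln13_10_5 ln13_10_5_ok) (L (nat_lit 492) ln12_15_6 ln12_15_6_ok))) (M (nat_lit 398) (B (L (nat_lit 399) ln15_12_1 ln15_12_1_ok) (L (nat_lit 426) ln10_13_2 ln10_13_2_ok)))))))) (B (M (nat_lit 427) (B (M (nat_lit 395) (B (L (nat_lit 394) ln14_13_3 ln14_13_3_ok) (M (nat_lit 492) (B (L (nat_lit 363) ln12_15_7 ln12_15_7_ok) (L (nat_lit 524) ln12_16_7 ln12_16_7_ok))))) (B (M (nat_lit 426) (B (M (nat_lit 394) (B (L (nat_lit 393) ln13_13_3 ln13_13_3_ok) (L (nat_lit 395) ln14_13_3 ln14_13_3_ok))) (M (nat_lit 398) (B (L (nat_lit 397) ln10_13_2 ln10_13_2_ok) (L (nat_lit 399) ln11_13_2 ln11_13_2_ok))))) (M (nat_lit 397) (B (M (nat_lit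 398) (B (L (nat_lit 399) ln15_12_1 ln15_12_1_ok) (L (nat_lit 426) ln10_13_2 ln10_13_2_ok))) (M (nat_lit 492) (B (L (nat_lit 365) ln12_15_6 ln12_15_6_ok) (L (nat_lit 524) ln12_16_6 ln12_16_6_ok)))))))) (B c41_n9039 (B (M (nat_lit 395) (B (M (nat_lit 394) (B (L (nat_lit 393) ln9_12_0 ln9_12_0_ok) (L (nat_lit 397) ln10_12_0 ln10_12_0_ok))) (M (nat_lit 363) (B (L (nat_lit 492) ln12_15_7 ln12_15_7_ok) (M (nat_lit 331) (B (L (nat_lit 299) ln11_9_4 ln11_9_4_ok) (L (nat_lit 364) ln12_14_7 ln12_14_7_ok))))))) (B (M (nat_lit 395) (B (M (nat_lit 394) (B (L (nat_lit 397) ln10_12_0 ln10_12_0_ok) (L (nat_lit 427) ln14_13_3 ln14_13_3_ok))) (M (nat_lit 363) (B (L (nat_lit 492) ln12_15_7 ln12_15_7_ok) (M (nat_lit 331) (B (L (nat_lit 299) ln11_9_4 ln11_9_4_ok) (L (nat_lit 364) ln12_14_7 ln12_14_7_ok))))))) (B (M (nat_lit 365) (B (M (nat_lit 333) (B (L (nat_lit 364) ln12_14_6 ln12_14_6_ok) (L (nat_lit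 397) ln13_10_5 ln13_10_5_ok))) (B (M (nat_lit 492) (B (L (nat_lit 397) ln12_15_6 ln12_15_6_ok) (M (nat_lit 524) (B (M (nat_lit 523) (B (L (nat_lit 491) ln12_12_5 ln12_12_5_ok) (L (nat_lit 555) ln12_13_5 ln12_13_5_ok))) (M (nat_lit 525) (B (L (nat_lit 493) ln12_12_4 ln12_12_4_ok) (L (nat_lit 557) ln12_13_4 ln12_13_4_ok))))))) (M (nat_lit 492) (B (M (nat_lit 364) (B (L (nat_lit 333) ln12_14_6 ln12_14_6_ok) (M (nat_lit 363) (B (L (nat_lit 331) ln12_14_7 ln12_14_7_ok) (L (nat_lit 395) ln12_15_7 ln12_15_7_ok))))) (M (nat_lit 524) (B (M (nat_lit 523) (B (L (nat_lit 491) ln12_12_5 ln12_12_5_ok) (L (nat_lit 555) ln12_13_5 ln12_13_5_ok))) (M (nat_lit 525) (B (L (nat_lit 493) ln12_12_4 ln12_12_4_ok) (L (nat_lit 557) ln12_13_4 ln12_13_4_ok)))))))))) (B (M (nat_lit 364) (B (M (nat_lit 332) (B (M (nat_lit 331) (B (L (nat_lit 299) ln12_13_7 ln12_13_7_ok) (L (nat_lit 363) ln12_14_7 ln12_14_7_ok)))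 (M (nat_lit 333) (B (L (nat_lit 301) ln12_13_6 ln12_13_6_ok) (L (nat_lit 365) ln12_14_6 ln12_14_6_ok))))) (B (M (nat_lit 492) (B (M (nat_lit 365) (B (L (nat_lit 333) ln12_14_6 ln12_14_6_ok) (L (nat_lit 397) ln12_15_6 ln12_15_6_ok))) (B (M (nat_lit 397) (B (L (nat_lit 365) ln12_15_6 ln12_15_6_ok) (L (nat_lit 524) ln12_16_6 ln12_16_6_ok))) (B (M (nat_lit 524) (B (L (nat_lit 397) ln12_16_6 ln12_16_6_ok) (M (nat_lit 523) (B (L (nat_lit 491) ln12_12_5 ln12_12_5_ok) (L (nat_lit 555) ln12_13_5 ln12_13_5_ok))))) (M (nat_lit 524) (B (M (nat_lit 523) (B (L (nat_lit 491) ln12_12_5 ln12_12_5_ok) (L (nat_lit 555) ln12_13_5 ln12_13_5_ok))) (M (nat_lit 525) (B (L (nat_lit 493) ln12_12_4 ln12_12_4_ok) (L (nat_lit 557) ln12_13_4 ln12_13_4_ok))))))))) (B (M (nat_lit 397) (B (M (nat_lit 492) (B (L (nat_lit 365) ln12_15_6 ln12_15_6_ok) (L (nat_lit 524) ln12_16_6 ln12_16_6_ok))) (M (nat_lit 332) (B (L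 (nat_lit 300) ln12_9_4 ln12_9_4_ok) (M (nat_lit 331) (B (L (nat_lit 299) ln12_13_7 ln12_13_7_ok) (L (nat_lit 363) ln12_14_7 ln12_14_7_ok))))))) (M (nat_lit 332) (B (M (nat_lit 331) (B (L (nat_lit 299) ln12_13_7 ln12_13_7_ok) (L (nat_lit 363) ln12_14_7 ln12_14_7_ok))) (M (nat_lit 300) (B (L (nat_lit 397) ln12_9_4 ln12_9_4_ok) (M (nat_lit 301) (B (L (nat_lit 269) ln12_12_6 ln12_12_6_ok) (L (nat_lit 333) ln12_13_6 ln12_13_6_ok))))))))))) (B (M (nat_lit 395) (B (M (nat_lit 394) (B (L (nat_lit 393) ln9_12_0 ln9_12_0_ok) (L (nat_lit 427) ln14_13_3 ln14_13_3_ok))) (M (nat_lit 363) (B (L (nat_lit 492) ln12_15_7 ln12_15_7_ok) (M (nat_lit 331) (B (L (nat_lit 299) ln11_9_4 ln11_9_4_ok) (L (nat_lit 364) ln12_14_7 ln12_14_7_ok))))))) c41_n9165)))))))))) (nat_lit 4852171964872816621642656609103891429263953124053285618600165735627503498443635316696007785346597096250443233647200198949001494528) (nat_lit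 589681629290253695991479601682741051890507551906081986076382803075755397387927657549174357104962625237721667507367884277427229324838357743121289814790834922063325560832) (nat_lit 589681629290253695991479601682741051890507551906081986076382803075755397387927657549174357104962625237721667507367884277427229324838357743121289814790834922063325560832) (by decide +kernel)
noncomputable def c41_n9312 : Cert := (M (nat_lit 364) (B (M (nat_lit 332) (B (L (nat_lit 300) ln12_9_4 ln12_9_4_ok) (M (nat_lit 333) (B (L (nat_lit 301) ln12_13_6 ln12_13_6_ok) (M (nat_lit 460) (B (L (nat_lit 365) ln12_14_6 ln12_14_6_ok) (M (nat_lit 331) (B (L (nat_lit 299) ln12_13_7 ln12_13_7_ok) (L (nat_lit 363) ln12_14_7 ln12_14_7_ok))))))))) (B (M (nat_lit 430) (B (M (nat_lit 431) (B (L (nat_lit 395) ln15_13_3 ln15_13_3_ok) (L (nat_lit 432) ln16_13_3 ln16_13_3_ok))) (M (nat_lit 333) (B (M (nat_lit 332) (B (L (nat_lit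 300) ln12_9_4 ln12_9_4_ok) (L (nat_lit 301) ln12_13_6 ln12_13_6_ok))) (B (M (nat_lit 301) (B (L (nat_lit 332) ln12_13_6 ln12_13_6_ok) (L (nat_lit 365) ln13_9_5 ln13_9_5_ok))) (M (nat_lit 365) (B (L (nat_lit 460) ln12_14_6 ln12_14_6_ok) (L (nat_lit 462) ln13_10_4 ln13_10_4_ok)))))))) (B (M (nat_lit 460) (B (M (nat_lit 365) (B (L (nat_lit 333) ln12_14_6 ln12_14_6_ok) (L (nat_lit 492) ln12_15_6 ln12_15_6_ok))) (B (M (nat_lit 492) (B (L (nat_lit 365) ln12_15_6 ln12_15_6_ok) (M (nat_lit 363) (B (L (nat_lit 331) ln12_14_7 ln12_14_7_ok) (L (nat_lit 395) ln12_15_7 ln12_15_7_ok))))) (B (M (nat_lit 395) (B (M (nat_lit 363) (B (L (nat_lit 331) ln12_14_7 ln12_14_7_ok) (L (nat_lit 492) ln12_15_7 ln12_15_7_ok))) (M (nat_lit 430) (B (L (nat_lit 394) ln10_12_0 ln10_12_0_ok) (L (nat_lit 431) ln15_13_3 ln15_13_3_ok))))) (M (nat_lit 332) (B (M (nat_lit 331) (B (L (nat_lit 299) ln12_13_7 ln12_13_7_ok)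 (L (nat_lit 363) ln12_14_7 ln12_14_7_ok))) (M (nat_lit 333) (B (L (nat_lit 301) ln12_13_6 ln12_13_6_ok) (L (nat_lit 365) ln12_14_6 ln12_14_6_ok))))))))) (B (M (nat_lit 460) (B (M (nat_lit 365) (B (L (nat_lit 333) ln12_14_6 ln12_14_6_ok) (L (nat_lit 492) ln12_15_6 ln12_15_6_ok))) (M (nat_lit 332) (B (L (nat_lit 300) ln12_9_4 ln12_9_4_ok) (M (nat_lit 331) (B (L (nat_lit 299) ln12_13_7 ln12_13_7_ok) (L (nat_lit 363) ln12_14_7 ln12_14_7_ok))))))) (B (M (nat_lit 365) (B (M (nat_lit 333) (B (L (nat_lit 301) ln13_9_5 ln13_9_5_ok) (L (nat_lit 460) ln12_14_6 ln12_14_6_ok))) (B (M (nat_lit 460) (B (L (nat_lit 333) ln12_14_6 ln12_14_6_ok) (L (nat_lit 492) ln12_15_6 ln12_15_6_ok))) (B (M (nat_lit 394) (B (M (nat_lit 395) (B (L (nat_lit 393) ln9_12_2 ln9_12_2_ok) (L (nat_lit 366) ln10_12_2 ln10_12_2_ok))) (B (M (nat_lit 395) (B (L (nat_lit 393) ln9_12_2 ln9_12_2_ok) (L (nat_lit 430) ln10_12_0 ln10_12_0_ok)))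 (B (M (nat_lit 395) (B (L (nat_lit 366) ln10_12_2 ln10_12_2_ok) (L (nat_lit 430) ln10_12_0 ln10_12_0_ok))) (M (nat_lit 363) (B (M (nat_lit 460) (B (L (nat_lit 331) ln12_14_7 ln12_14_7_ok) (L (nat_lit 492) ln12_15_6 ln12_15_6_ok))) (M (nat_lit 362) (B (L (nat_lit 361) ln9_11_0 ln9_11_0_ok) (L (nat_lit 393) ln13_11_1 ln13_11_1_ok))))))))) (M (nat_lit 430) (B (M (nat_lit 333) (B (L (nat_lit 301) ln13_9_5 ln13_9_5_ok) (L (nat_lit 462) ln13_10_4 ln13_10_4_ok))) (M (nat_lit 431) (B (L (nat_lit 395) ln15_13_3 ln15_13_3_ok) (L (nat_lit 432) ln16_13_3 ln16_13_3_ok))))))))) (B (M (nat_lit 430) (B (M (nat_lit 395) (B (L (nat_lit 394) ln10_12_0 ln10_12_0_ok) (L (nat_lit 431) ln15_13_3 ln15_13_3_ok))) (B (M (nat_lit 431) (B (L (nat_lit 395) ln15_13_3 ln15_13_3_ok) (L (nat_lit 432) ln16_13_3 ln16_13_3_ok))) (B (M (nat_lit 459) (B (M (nat_lit 332) (B (L (nat_lit 300) ln12_9_4 ln12_9_4_ok) (L (nat_lit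 427) ln12_10_5 ln12_10_5_ok))) (M (nat_lit 431) (B (L (nat_lit 432) ln16_13_3 ln16_13_3_ok) (L (nat_lit 460) ln15_13_1 ln15_13_1_ok))))) (M (nat_lit 427) (B (M (nat_lit 459) (B (L (nat_lit 332) ln12_10_5 ln12_10_5_ok) (L (nat_lit 458) ln14_13_1 ln14_13_1_ok))) (M (nat_lit 394) (B (L (nat_lit 395) ln10_12_0 ln10_12_0_ok) (M (nat_lit 426) (B (L (nat_lit 393) ln13_13_3 ln13_13_3_ok) (L (nat_lit 425) ln9_13_2 ln9_13_2_ok))))))))))) (M (nat_lit 332) (B (L (nat_lit 300) ln12_9_4 ln12_9_4_ok) (M (nat_lit 430) (B (M (nat_lit 431) (B (L (nat_lit 395) ln15_13_3 ln15_13_3_ok) (L (nat_lit 432) ln16_13_3 ln16_13_3_ok))) (M (nat_lit 462) (B (M (nat_lit 333) (B (L (nat_lit 301) ln12_13_6 ln12_13_6_ok) (L (nat_lit 365) ln13_10_4 ln13_10_4_ok))) (M (nat_lit 427) (B (L (nat_lit 459) ln12_10_5 ln12_10_5_ok) (L (nat_lit 463) ln11_13_0 ln11_13_0_ok))))))))))))))))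
theorem c41_s9343 : Sem (nat_lit 2079502270752001762064242424960807725827516048677469043429686155012882190638009693656033379242457518153052022685796627120027336704) (nat_lit 54918381344978288071262284263690046439475012783530414139896212756378378501393415291397063535446195568281557742641399155752200054322353235976848968585243000832) (nat_lit 54918381344978288071262284263690046439475012783530414139896212756378378501393415291397063535446195568281557742641399155752200054322353235976848968585243000832) :=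
  sem_of_chk (M (nat_lit 397) (B (M (nat_lit 364) (B (M (nat_lit 332) (B (L (nat_lit 300) ln12_9_4 ln12_9_4_ok) (M (nat_lit 427) (B (L (nat_lit 459) ln12_10_5 ln12_10_5_ok) (M (nat_lit 426) (B (L (nat_lit 425) ln9_13_2 ln9_13_2_ok) (L (nat_lit 398) ln10_13_2 ln10_13_2_ok))))))) (B (M (nat_lit 363) (B (M (nat_lit 398) (B (L (nat_lit 399) ln15_12_3 ln15_12_3_ok) (M (nat_lit 362) (B (L (nat_lit 361) ln9_11_0 ln9_11_0_ok) (L (nat_lit 365) ln10_11_0 ln10_11_0_ok))))) (B (M (nat_lit 398) (B (L (nat_lit 399) ln15_12_3 ln15_12_3_ok) (M (nat_lit 362) (B (L (nat_lit 365) ln10_11_0 ln10_11_0_ok) (L (nat_lit 395) ln14_12_3 ln14_12_3_ok))))) (B (M (nat_lit 460) (B (L (nat_lit 331) ln12_14_7 ln12_14_7_ok) (M (nat_lit 492) (B (L (nat_lit 395) ln12_15_7 ln12_15_7_ok) (L (nat_lit 365) ln12_15_6 ln12_15_6_ok))))) (M (nat_lit 398) (B (L (nat_lit 399) ln15_12_3 ln15_12_3_ok) (M (nat_lit 362) (B (L (nat_lit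 361) ln9_11_0 ln9_11_0_ok) (L (nat_lit 395) ln14_12_3 ln14_12_3_ok))))))))) (M (nat_lit 460) (B (M (nat_lit 365) (B (L (nat_lit 333) ln12_14_6 ln12_14_6_ok) (L (nat_lit 492) ln12_15_6 ln12_15_6_ok))) (M (nat_lit 332) (B (L (nat_lit 300) ln12_9_4 ln12_9_4_ok) (M (nat_lit 331) (B (L (nat_lit 299) ln12_13_7 ln12_13_7_ok) (L (nat_lit 363) ln12_14_7 ln12_14_7_ok)))))))))) (B (M (nat_lit 364) (B (M (nat_lit 332) (B (L (nat_lit 300) ln12_9_4 ln12_9_4_ok) (M (nat_lit 427) (B (L (nat_lit 459) ln12_10_5 ln12_10_5_ok) (M (nat_lit 426) (B (L (nat_lit 425) ln9_13_2 ln9_13_2_ok) (L (nat_lit 398) ln10_13_2 ln10_13_2_ok))))))) (B (M (nat_lit 363) (B (M (nat_lit 398) (B (L (nat_lit 399) ln15_12_3 ln15_12_3_ok) (M (nat_lit 362) (B (L (nat_lit 361) ln9_11_0 ln9_11_0_ok) (L (nat_lit 365) ln10_11_0 ln10_11_0_ok))))) (B (M (nat_lit 398) (B (L (nat_lit 399) ln15_12_3 ln15_12_3_ok) (M (nat_lit 362) (B (L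 (nat_lit 365) ln10_11_0 ln10_11_0_ok) (L (nat_lit 395) ln14_12_3 ln14_12_3_ok))))) (B (M (nat_lit 460) (B (L (nat_lit 331) ln12_14_7 ln12_14_7_ok) (M (nat_lit 492) (B (L (nat_lit 395) ln12_15_7 ln12_15_7_ok) (L (nat_lit 365) ln12_15_6 ln12_15_6_ok))))) (M (nat_lit 398) (B (L (nat_lit 399) ln15_12_3 ln15_12_3_ok) (M (nat_lit 362) (B (L (nat_lit 361) ln9_11_0 ln9_11_0_ok) (L (nat_lit 395) ln14_12_3 ln14_12_3_ok))))))))) (M (nat_lit 430) (B (M (nat_lit 431) (B (L (nat_lit 395) ln15_13_3 ln15_13_3_ok) (L (nat_lit 432) ln16_13_3 ln16_13_3_ok))) (M (nat_lit 333) (B (M (nat_lit 332) (B (L (nat_lit 300) ln12_9_4 ln12_9_4_ok) (L (nat_lit 301) ln12_13_6 ln12_13_6_ok))) (B (M (nat_lit 301) (B (L (nat_lit 332) ln12_13_6 ln12_13_6_ok) (L (nat_lit 365) ln13_9_5 ln13_9_5_ok))) (M (nat_lit 365) (B (L (nat_lit 460) ln12_14_6 ln12_14_6_ok) (L (nat_lit 462) ln13_10_4 ln13_10_4_ok))))))))))) (B (M (nat_lit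 430) (B (M (nat_lit 395) (B (L (nat_lit 394) ln10_12_0 ln10_12_0_ok) (L (nat_lit 431) ln15_13_3 ln15_13_3_ok))) (B (M (nat_lit 431) (B (L (nat_lit 395) ln15_13_3 ln15_13_3_ok) (L (nat_lit 432) ln16_13_3 ln16_13_3_ok))) (B (M (nat_lit 431) (B (L (nat_lit 432) ln16_13_3 ln16_13_3_ok) (M (nat_lit 460) (B (L (nat_lit 459) ln15_13_1 ln15_13_1_ok) (M (nat_lit 492) (B (L (nat_lit 365) ln12_15_6 ln12_15_6_ok) (L (nat_lit 524) ln12_16_6 ln12_16_6_ok))))))) (M (nat_lit 398) (B (M (nat_lit 399) (B (L (nat_lit 427) ln15_12_1 ln15_12_1_ok) (L (nat_lit 400) ln16_12_1 ln16_12_1_ok))) (B (M (nat_lit 462) (B (M (nat_lit 365) (B (L (nat_lit 333) ln13_10_4 ln13_10_4_ok) (L (nat_lit 494) ln14_15_7 ln14_15_7_ok))) (M (nat_lit 427) (B (L (nat_lit 426) ln10_13_2 ln10_13_2_ok) (L (nat_lit 463) ln11_13_0 ln11_13_0_ok))))) (M (nat_lit 363) (B (M (nat_lit 395) (B (L (nat_lit 362) ln14_12_3 ln14_12_3_ok) (L (nat_lit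 394) ln10_12_0 ln10_12_0_ok))) (M (nat_lit 399) (B (L (nat_lit 364) ln15_12_3 ln15_12_3_ok) (L (nat_lit 400) ln16_12_1 ln16_12_1_ok)))))))))))) (B (M (nat_lit 364) (B (M (nat_lit 332) (B (L (nat_lit 300) ln12_9_4 ln12_9_4_ok) (M (nat_lit 427) (B (L (nat_lit 459) ln12_10_5 ln12_10_5_ok) (M (nat_lit 426) (B (L (nat_lit 425) ln9_13_2 ln9_13_2_ok) (L (nat_lit 398) ln10_13_2 ln10_13_2_ok))))))) (B (M (nat_lit 363) (B (M (nat_lit 398) (B (L (nat_lit 399) ln15_12_3 ln15_12_3_ok) (M (nat_lit 362) (B (L (nat_lit 361) ln9_11_0 ln9_11_0_ok) (L (nat_lit 365) ln10_11_0 ln10_11_0_ok))))) (B (M (nat_lit 398) (B (L (nat_lit 399) ln15_12_3 ln15_12_3_ok) (M (nat_lit 362) (B (L (nat_lit 365) ln10_11_0 ln10_11_0_ok) (L (nat_lit 395) ln14_12_3 ln14_12_3_ok))))) (B (M (nat_lit 460) (B (L (nat_lit 331) ln12_14_7 ln12_14_7_ok) (M (nat_lit 492) (B (L (nat_lit 395) ln12_15_7 ln12_15_7_ok) (L (nat_lit 365) ln12_15_6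 ln12_15_6_ok))))) (M (nat_lit 398) (B (L (nat_lit 399) ln15_12_3 ln15_12_3_ok) (M (nat_lit 362) (B (L (nat_lit 361) ln9_11_0 ln9_11_0_ok) (L (nat_lit 395) ln14_12_3 ln14_12_3_ok))))))))) (M (nat_lit 332) (B (L (nat_lit 300) ln12_9_4 ln12_9_4_ok) (M (nat_lit 460) (B (M (nat_lit 331) (B (L (nat_lit 299) ln12_13_7 ln12_13_7_ok) (L (nat_lit 363) ln12_14_7 ln12_14_7_ok))) (M (nat_lit 492) (B (L (nat_lit 365) ln12_15_6 ln12_15_6_ok) (L (nat_lit 524) ln12_16_6 ln12_16_6_ok)))))))))) (B (M (nat_lit 398) (B (M (nat_lit 399) (B (L (nat_lit 427) ln15_12_1 ln15_12_1_ok) (L (nat_lit 400) ln16_12_1 ln16_12_1_ok))) (B (M (nat_lit 430) (B (M (nat_lit 431) (B (L (nat_lit 395) ln11_12_0 ln11_12_0_ok) (L (nat_lit 432) ln16_13_3 ln16_13_3_ok))) (M (nat_lit 462) (B (M (nat_lit 365) (B (L (nat_lit 333) ln13_10_4 ln13_10_4_ok) (L (nat_lit 494) ln14_15_7 ln14_15_7_ok))) (M (nat_lit 427) (B (L (nat_lit 426)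 ln10_13_2 ln10_13_2_ok) (L (nat_lit 463) ln11_13_0 ln11_13_0_ok))))))) (M (nat_lit 399) (B (L (nat_lit 400) ln16_12_1 ln16_12_1_ok) (M (nat_lit 395) (B (M (nat_lit 367) (B (L (nat_lit 366) ln11_12_2 ln11_12_2_ok) (L (nat_lit 368) ln12_12_2 ln12_12_2_ok))) (M (nat_lit 431) (B (L (nat_lit 430) ln11_12_0 ln11_12_0_ok) (L (nat_lit 432) ln12_12_0 ln12_12_0_ok)))))))))) (B (M (nat_lit 427) (B (M (nat_lit 398) (B (L (nat_lit 399) ln15_12_1 ln15_12_1_ok) (L (nat_lit 426) ln10_13_2 ln10_13_2_ok))) (B (M (nat_lit 430) (B (M (nat_lit 395) (B (L (nat_lit 394) ln10_12_0 ln10_12_0_ok) (L (nat_lit 431) ln15_13_3 ln15_13_3_ok))) (B (M (nat_lit 431) (B (L (nat_lit 395) ln15_13_3 ln15_13_3_ok) (L (nat_lit 432) ln16_13_3 ln16_13_3_ok))) (B (M (nat_lit 431) (B (L (nat_lit 432) ln16_13_3 ln16_13_3_ok) (M (nat_lit 459) (B (L (nat_lit 458) ln14_13_1 ln14_13_1_ok) (L (nat_lit 460) ln15_13_1 ln15_13_1_ok)))))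 (M (nat_lit 394) (B (L (nat_lit 395) ln10_12_0 ln10_12_0_ok) (M (nat_lit 426) (B (L (nat_lit 393) ln13_13_3 ln13_13_3_ok) (L (nat_lit 425) ln9_13_2 ln9_13_2_ok))))))))) (M (nat_lit 395) (B (M (nat_lit 394) (B (L (nat_lit 393) ln9_12_0 ln9_12_0_ok) (L (nat_lit 430) ln10_12_0 ln10_12_0_ok))) (B (M (nat_lit 430) (B (L (nat_lit 394) ln10_12_0 ln10_12_0_ok) (L (nat_lit 431) ln15_13_3 ln15_13_3_ok))) (M (nat_lit 363) (B (M (nat_lit 331) (B (L (nat_lit 299) ln11_9_4 ln11_9_4_ok) (L (nat_lit 460) ln11_10_4 ln11_10_4_ok))) (M (nat_lit 398) (B (L (nat_lit 362) ln14_12_3 ln14_12_3_ok) (L (nat_lit 399) ln15_12_1 ln15_12_1_ok))))))))))) (B (M (nat_lit 364) (B (M (nat_lit 332) (B (L (nat_lit 300) ln12_9_4 ln12_9_4_ok) (M (nat_lit 427) (B (L (nat_lit 459) ln12_10_5 ln12_10_5_ok) (M (nat_lit 426) (B (L (nat_lit 425) ln9_13_2 ln9_13_2_ok) (L (nat_lit 398) ln10_13_2 ln10_13_2_ok))))))) (B (M (nat_lit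 332) (B (M (nat_lit 427) (B (L (nat_lit 459) ln12_10_5 ln12_10_5_ok) (M (nat_lit 426) (B (L (nat_lit 425) ln9_13_2 ln9_13_2_ok) (L (nat_lit 398) ln10_13_2 ln10_13_2_ok))))) (M (nat_lit 460) (B (M (nat_lit 331) (B (L (nat_lit 299) ln12_13_7 ln12_13_7_ok) (L (nat_lit 363) ln12_14_7 ln12_14_7_ok))) (M (nat_lit 492) (B (L (nat_lit 365) ln12_15_6 ln12_15_6_ok) (L (nat_lit 524) ln12_16_6 ln12_16_6_ok))))))) (B (M (nat_lit 365) (B (M (nat_lit 333) (B (L (nat_lit 301) ln13_9_5 ln13_9_5_ok) (L (nat_lit 460) ln12_14_6 ln12_14_6_ok))) (B (M (nat_lit 460) (B (L (nat_lit 333) ln12_14_6 ln12_14_6_ok) (L (nat_lit 492) ln12_15_6 ln12_15_6_ok))) (B (M (nat_lit 363) (B (M (nat_lit 460) (B (L (nat_lit 331) ln12_14_7 ln12_14_7_ok) (L (nat_lit 492) ln12_15_6 ln12_15_6_ok))) (M (nat_lit 398) (B (L (nat_lit 362) ln10_11_0 ln10_11_0_ok) (L (nat_lit 399) ln15_12_3 ln15_12_3_ok))))) (M (nat_lit 430) (B (M (nat_lit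 333) (B (L (nat_lit 301) ln13_9_5 ln13_9_5_ok) (L (nat_lit 462) ln13_10_4 ln13_10_4_ok))) (M (nat_lit 399) (B (M (nat_lit 398) (B (L (nat_lit 363) ln15_12_3 ln15_12_3_ok) (L (nat_lit 400) ln16_12_3 ln16_12_3_ok))) (B (M (nat_lit 398) (B (L (nat_lit 400) ln16_12_3 ln16_12_3_ok) (L (nat_lit 427) ln15_12_1 ln15_12_1_ok))) (B (M (nat_lit 431) (B (L (nat_lit 432) ln16_13_3 ln16_13_3_ok) (L (nat_lit 400) ln12_13_2 ln12_13_2_ok))) (M (nat_lit 398) (B (L (nat_lit 363) ln15_12_3 ln15_12_3_ok) (L (nat_lit 427) ln15_12_1 ln15_12_1_ok))))))))))))) (M (nat_lit 332) (B (L (nat_lit 300) ln12_9_4 ln12_9_4_ok) (M (nat_lit 460) (B (M (nat_lit 331) (B (L (nat_lit 299) ln12_13_7 ln12_13_7_ok) (L (nat_lit 363) ln12_14_7 ln12_14_7_ok))) (M (nat_lit 492) (B (L (nat_lit 365) ln12_15_6 ln12_15_6_ok) (L (nat_lit 524) ln12_16_6 ln12_16_6_ok))))))))))) (B c41_n9312 (B (M (nat_lit 395) (B (M (nat_lit 394) (B (L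 (nat_lit 393) ln9_12_0 ln9_12_0_ok) (L (nat_lit 430) ln10_12_0 ln10_12_0_ok))) (B (M (nat_lit 430) (B (L (nat_lit 394) ln10_12_0 ln10_12_0_ok) (L (nat_lit 431) ln15_13_3 ln15_13_3_ok))) (M (nat_lit 363) (B (M (nat_lit 398) (B (L (nat_lit 362) ln14_12_3 ln14_12_3_ok) (M (nat_lit 399) (B (L (nat_lit 364) ln15_12_3 ln15_12_3_ok) (L (nat_lit 427) ln15_12_1 ln15_12_1_ok))))) (B (M (nat_lit 460) (B (L (nat_lit 492) ln12_15_7 ln12_15_7_ok) (M (nat_lit 331) (B (L (nat_lit 299) ln11_9_4 ln11_9_4_ok) (L (nat_lit 427) ln11_10_4 ln11_10_4_ok))))) (M (nat_lit 398) (B (L (nat_lit 362) ln14_12_3 ln14_12_3_ok) (M (nat_lit 399) (B (L (nat_lit 364) ln15_12_3 ln15_12_3_ok) (L (nat_lit 400) ln16_12_1 ln16_12_1_ok))))))))))) (M (nat_lit 430) (B (M (nat_lit 395) (B (L (nat_lit 394) ln10_12_0 ln10_12_0_ok) (L (nat_lit 431) ln15_13_3 ln15_13_3_ok))) (B (M (nat_lit 431) (B (L (nat_lit 395) ln15_13_3 ln15_13_3_ok)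 (L (nat_lit 432) ln16_13_3 ln16_13_3_ok))) (B (M (nat_lit 431) (B (L (nat_lit 432) ln16_13_3 ln16_13_3_ok) (M (nat_lit 460) (B (L (nat_lit 459) ln15_13_1 ln15_13_1_ok) (M (nat_lit 492) (B (L (nat_lit 365) ln12_15_6 ln12_15_6_ok) (L (nat_lit 524) ln12_16_6 ln12_16_6_ok))))))) (M (nat_lit 398) (B (M (nat_lit 363) (B (M (nat_lit 395) (B (L (nat_lit 362) ln14_12_3 ln14_12_3_ok) (L (nat_lit 394) ln10_12_0 ln10_12_0_ok))) (M (nat_lit 399) (B (L (nat_lit 364) ln15_12_3 ln15_12_3_ok) (L (nat_lit 400) ln16_12_1 ln16_12_1_ok))))) (B (M (nat_lit 366) (B (M (nat_lit 395) (B (L (nat_lit 367) ln11_12_2 ln11_12_2_ok) (L (nat_lit 394) ln10_12_0 ln10_12_0_ok))) (M (nat_lit 333) (B (M (nat_lit 334) (B (L (nat_lit 301) ln14_13_7 ln14_13_7_ok) (L (nat_lit 302) ln14_9_5 ln14_9_5_ok))) (M (nat_lit 365) (B (L (nat_lit 462) ln14_14_7 ln14_14_7_ok) (L (nat_lit 460) ln13_10_5 ln13_10_5_ok))))))) (M (nat_lit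 364) (B (M (nat_lit 399) (B (L (nat_lit 363) ln15_12_3 ln15_12_3_ok) (L (nat_lit 400) ln16_12_1 ln16_12_1_ok))) (M (nat_lit 333) (B (M (nat_lit 332) (B (L (nat_lit 300) ln12_9_4 ln12_9_4_ok) (L (nat_lit 301) ln12_13_6 ln12_13_6_ok))) (B (M (nat_lit 301) (B (L (nat_lit 332) ln12_13_6 ln12_13_6_ok) (L (nat_lit 365) ln13_9_5 ln13_9_5_ok))) (M (nat_lit 365) (B (L (nat_lit 460) ln12_14_6 ln12_14_6_ok) (L (nat_lit 462) ln13_10_4 ln13_10_4_ok))))))))))))))))))))))))) (nat_lit 2079502270752001762064242424960807725827516048677469043429686155012882190638009693656033379242457518153052022685796627120027336704) (nat_lit 54918381344978288071262284263690046439475012783530414139896212756378378501393415291397063535446195568281557742641399155752200054322353235976848968585243000832) (nat_lit 54918381344978288071262284263690046439475012783530414139896212756378378501393415291397063535446195568281557742641399155752200054322353235976848968585243000832)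 (by decide +kernel)
theorem c41_s9344 : Sem (nat_lit 1386334847221798047169638878925036799968406779833514899637066259859226863686603287896039777716422623628704219945445734162783797248) (nat_lit 825554280855329625932328109487174832010788696024036398805123657959323762452395512214999417257764499767875703807421607122607493152070513370963239164155289001711491874816) (nat_lit 825554280855329625932328109487174832010788696024036398805123657959323762452395512214999417257764499767875703807421607122607493152070513370963239164155289001711491874816) :=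
  sem_of_chk (M (nat_lit 428) (B (M (nat_lit 430) (B (M (nat_lit 395) (B (L (nat_lit 431) ln15_13_3 ln15_13_3_ok) (M (nat_lit 394) (B (L (nat_lit 393) ln9_12_0 ln9_12_0_ok) (L (nat_lit 397) ln10_12_0 ln10_12_0_ok))))) (B (M (nat_lit 395) (B (L (nat_lit 431) ln15_13_3 ln15_13_3_ok) (M (nat_lit 394) (B (L (nat_lit 397) ln10_12_0 ln10_12_0_ok) (L (nat_lit 427) ln14_13_3 ln14_13_3_ok))))) (B (M (nat_lit 431) (B (L (nat_lit 395) ln15_13_3 ln15_13_3_ok) (M (nat_lit 427) (B (M (nat_lit 459) (B (L (nat_lit 458) ln14_13_1 ln14_13_1_ok) (L (nat_lit 460) ln15_13_1 ln15_13_1_ok))) (M (nat_lit 463) (B (L (nat_lit 462) ln11_13_0 ln11_13_0_ok) (L (nat_lit 464) ln12_13_0 ln12_13_0_ok))))))) (B (M (nat_lit 427) (B (M (nat_lit 459) (B (L (nat_lit 458) ln14_13_1 ln14_13_1_ok) (M (nat_lit 364) (B (L (nat_lit 332) ln12_10_5 ln12_10_5_ok) (M (nat_lit 491) (B (L (nat_lit 460) ln12_11_5 ln12_11_5_ok) (L (nat_lit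 523) ln11_16_6 ln11_16_6_ok))))))) (B (M (nat_lit 431) (B (M (nat_lit 459) (B (L (nat_lit 458) ln14_13_1 ln14_13_1_ok) (L (nat_lit 460) ln15_13_1 ln15_13_1_ok))) (M (nat_lit 463) (B (L (nat_lit 462) ln11_13_0 ln11_13_0_ok) (L (nat_lit 464) ln12_13_0 ln12_13_0_ok))))) (M (nat_lit 397) (B (M (nat_lit 426) (B (L (nat_lit 425) ln9_13_2 ln9_13_2_ok) (L (nat_lit 398) ln10_13_2 ln10_13_2_ok))) (M (nat_lit 431) (B (L (nat_lit 432) ln16_13_3 ln16_13_3_ok) (M (nat_lit 463) (B (L (nat_lit 462) ln11_13_0 ln11_13_0_ok) (L (nat_lit 464) ln12_13_0 ln12_13_0_ok)))))))))) (M (nat_lit 427) (B (M (nat_lit 459) (B (L (nat_lit 458) ln14_13_1 ln14_13_1_ok) (M (nat_lit 364) (B (L (nat_lit 332) ln12_10_5 ln12_10_5_ok) (M (nat_lit 491) (B (L (nat_lit 460) ln12_11_5 ln12_11_5_ok) (L (nat_lit 523) ln11_16_6 ln11_16_6_ok))))))) (M (nat_lit 426) (B (M (nat_lit 394) (B (L (nat_lit 393) ln13_13_3 ln13_13_3_ok) (L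 (nat_lit 395) ln14_13_3 ln14_13_3_ok))) (M (nat_lit 397) (B (L (nat_lit 425) ln9_13_2 ln9_13_2_ok) (L (nat_lit 398) ln10_13_2 ln10_13_2_ok)))))))))))) (B (M (nat_lit 430) (B (M (nat_lit 395) (B (L (nat_lit 431) ln15_13_3 ln15_13_3_ok) (M (nat_lit 394) (B (L (nat_lit 397) ln10_12_0 ln10_12_0_ok) (L (nat_lit 427) ln14_13_3 ln14_13_3_ok))))) (B (M (nat_lit 431) (B (L (nat_lit 395) ln15_13_3 ln15_13_3_ok) (M (nat_lit 400) (B (L (nat_lit 399) ln12_13_2 ln12_13_2_ok) (M (nat_lit 432) (B (L (nat_lit 397) ln16_13_3 ln16_13_3_ok) (L (nat_lit 401) ln13_13_2 ln13_13_2_ok))))))) (B (M (nat_lit 431) (B (M (nat_lit 400) (B (L (nat_lit 399) ln12_13_2 ln12_13_2_ok) (M (nat_lit 432) (B (L (nat_lit 397) ln16_13_3 ln16_13_3_ok) (L (nat_lit 401) ln13_13_2 ln13_13_2_ok))))) (M (nat_lit 427) (B (M (nat_lit 459) (B (L (nat_lit 458) ln14_13_1 ln14_13_1_ok) (L (nat_lit 460) ln15_13_1 ln15_13_1_ok))) (M (nat_lit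 463) (B (L (nat_lit 462) ln11_13_0 ln11_13_0_ok) (L (nat_lit 464) ln12_13_0 ln12_13_0_ok))))))) (B (M (nat_lit 395) (B (L (nat_lit 431) ln15_13_3 ln15_13_3_ok) (M (nat_lit 394) (B (L (nat_lit 393) ln9_12_0 ln9_12_0_ok) (L (nat_lit 427) ln14_13_3 ln14_13_3_ok))))) (M (nat_lit 427) (B (M (nat_lit 395) (B (L (nat_lit 394) ln14_13_3 ln14_13_3_ok) (M (nat_lit 459) (B (L (nat_lit 458) ln14_13_1 ln14_13_1_ok) (M (nat_lit 491) (B (L (nat_lit 364) ln11_15_6 ln11_15_6_ok) (L (nat_lit 523) ln11_16_6 ln11_16_6_ok))))))) (B (M (nat_lit 426) (B (M (nat_lit 394) (B (L (nat_lit 393) ln13_13_3 ln13_13_3_ok) (L (nat_lit 395) ln14_13_3 ln14_13_3_ok))) (M (nat_lit 398) (B (L (nat_lit 397) ln10_13_2 ln10_13_2_ok) (L (nat_lit 399) ln11_13_2 ln11_13_2_ok))))) (M (nat_lit 426) (B (M (nat_lit 398) (B (L (nat_lit 397) ln10_13_2 ln10_13_2_ok) (L (nat_lit 399) ln11_13_2 ln11_13_2_ok))) (M (nat_lit 458) (B (L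 (nat_lit 457) ln13_13_1 ln13_13_1_ok) (L (nat_lit 459) ln14_13_1 ln14_13_1_ok))))))))))))) (B c41_n8402 (B c41_n8409 (B (M (nat_lit 430) (B (M (nat_lit 431) (B (L (nat_lit 395) ln15_13_3 ln15_13_3_ok) (M (nat_lit 400) (B (L (nat_lit 399) ln12_13_2 ln12_13_2_ok) (M (nat_lit 432) (B (L (nat_lit 397) ln16_13_3 ln16_13_3_ok) (L (nat_lit 401) ln13_13_2 ln13_13_2_ok))))))) (B (M (nat_lit 431) (B (M (nat_lit 400) (B (L (nat_lit 399) ln12_13_2 ln12_13_2_ok) (M (nat_lit 432) (B (L (nat_lit 397) ln16_13_3 ln16_13_3_ok) (L (nat_lit 401) ln13_13_2 ln13_13_2_ok))))) (M (nat_lit 427) (B (M (nat_lit 459) (B (L (nat_lit 458) ln14_13_1 ln14_13_1_ok) (L (nat_lit 460) ln15_13_1 ln15_13_1_ok))) (M (nat_lit 463) (B (L (nat_lit 462) ln11_13_0 ln11_13_0_ok) (L (nat_lit 464) ln12_13_0 ln12_13_0_ok))))))) (B (M (nat_lit 431) (B (L (nat_lit 395) ln15_13_3 ln15_13_3_ok) (M (nat_lit 427) (B (M (nat_lit 459) (B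 (L (nat_lit 458) ln14_13_1 ln14_13_1_ok) (L (nat_lit 460) ln15_13_1 ln15_13_1_ok))) (M (nat_lit 463) (B (L (nat_lit 462) ln11_13_0 ln11_13_0_ok) (L (nat_lit 464) ln12_13_0 ln12_13_0_ok))))))) (M (nat_lit 427) (B (M (nat_lit 426) (B (M (nat_lit 398) (B (L (nat_lit 397) ln10_13_2 ln10_13_2_ok) (L (nat_lit 399) ln11_13_2 ln11_13_2_ok))) (M (nat_lit 458) (B (L (nat_lit 457) ln13_13_1 ln13_13_1_ok) (L (nat_lit 459) ln14_13_1 ln14_13_1_ok))))) (B (M (nat_lit 459) (B (L (nat_lit 458) ln14_13_1 ln14_13_1_ok) (M (nat_lit 364) (B (L (nat_lit 332) ln12_10_5 ln12_10_5_ok) (M (nat_lit 491) (B (L (nat_lit 395) ln11_15_6 ln11_15_6_ok) (L (nat_lit 523) ln11_16_6 ln11_16_6_ok))))))) (M (nat_lit 398) (B (L (nat_lit 399) ln11_13_2 ln11_13_2_ok) (M (nat_lit 397) (B (L (nat_lit 426) ln10_13_2 ln10_13_2_ok) (M (nat_lit 462) (B (L (nat_lit 463) ln11_13_0 ln11_13_0_ok) (M (nat_lit 365) (B (L (nat_lit 333)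 ln13_10_4 ln13_10_4_ok) (L (nat_lit 494) ln14_15_7 ln14_15_7_ok)))))))))))))))) (B (K (nat_lit 2079502270752001762064242424960807725827516048677469043429686155012882190638009693656033379242457518153052022685796627120027336704) (nat_lit 589681629070580170867300090853745389676130326384090815809254294307786516684752270110355570186118235523833990489944734655589371793995271940000676392010037701259114315776) (nat_lit 589681629070580170867300090853745389676130326384090815809254294307786516684752270110355570186118235523833990489944734655589371793995271940000676392010037701259114315776) c41_s3555) (B (K (nat_lit 2079502270752001762064242424960807725827516048677469043429686155012882190638009693656033379242457518153052022685796627120027336704) (nat_lit 27459190659702462042196931202926459147409032367606470160441065355409728991792779482488392115939339433687172600756250186073942802901556806398194140803059679232)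 (nat_lit 27459190659702462042196931202926459147409032367606470160441065355409728991792779482488392115939339433687172600756250186073942802901556806398194140803059679232) c41_s8585) (B c41_n4689 (B c41_n8942 (B (K (nat_lit 2079502270752001762064242424960807725827516048677469043429686155012882190638009693656033379242457518153052022685796627120027336704) (nat_lit 825554280635656100705855142027639893370112193730715058137015758753399032812282192098586905218487787116933343553650533079394583131973244400982230877331330624101323636736) (nat_lit 825554280635656100705855142027639893370112193730715058137015758753399032812282192098586905218487787116933343553650533079394583131973244400982230877331330624101323636736) c41_s8943) (B (M (nat_lit 430) (B (M (nat_lit 395) (B (L (nat_lit 431) ln15_13_3 ln15_13_3_ok) (M (nat_lit 394) (B (L (nat_lit 393) ln9_12_0 ln9_12_0_ok) (L (nat_lit 397) ln10_12_0 ln10_12_0_ok)))))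 (B (M (nat_lit 395) (B (L (nat_lit 431) ln15_13_3 ln15_13_3_ok) (M (nat_lit 394) (B (L (nat_lit 397) ln10_12_0 ln10_12_0_ok) (L (nat_lit 427) ln14_13_3 ln14_13_3_ok))))) (B (M (nat_lit 431) (B (L (nat_lit 395) ln15_13_3 ln15_13_3_ok) (M (nat_lit 400) (B (L (nat_lit 399) ln12_13_2 ln12_13_2_ok) (M (nat_lit 432) (B (L (nat_lit 397) ln16_13_3 ln16_13_3_ok) (L (nat_lit 401) ln13_13_2 ln13_13_2_ok))))))) (B (M (nat_lit 427) (B (M (nat_lit 431) (B (M (nat_lit 399) (B (L (nat_lit 398) ln11_13_2 ln11_13_2_ok) (L (nat_lit 400) ln12_13_2 ln12_13_2_ok))) (M (nat_lit 463) (B (L (nat_lit 462) ln11_13_0 ln11_13_0_ok) (L (nat_lit 464) ln12_13_0 ln12_13_0_ok))))) (B (M (nat_lit 431) (B (M (nat_lit 463) (B (L (nat_lit 462) ln11_13_0 ln11_13_0_ok) (L (nat_lit 464) ln12_13_0 ln12_13_0_ok))) (M (nat_lit 400) (B (L (nat_lit 399) ln12_13_2 ln12_13_2_ok) (M (nat_lit 432) (B (L (nat_lit 397) ln16_13_3 ln16_13_3_ok)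 (L (nat_lit 401) ln13_13_2 ln13_13_2_ok))))))) (B (M (nat_lit 397) (B (M (nat_lit 426) (B (L (nat_lit 425) ln9_13_2 ln9_13_2_ok) (L (nat_lit 398) ln10_13_2 ln10_13_2_ok))) (M (nat_lit 431) (B (L (nat_lit 432) ln16_13_3 ln16_13_3_ok) (M (nat_lit 463) (B (L (nat_lit 462) ln11_13_0 ln11_13_0_ok) (L (nat_lit 464) ln12_13_0 ln12_13_0_ok))))))) (M (nat_lit 426) (B (M (nat_lit 397) (B (L (nat_lit 425) ln9_13_2 ln9_13_2_ok) (L (nat_lit 398) ln10_13_2 ln10_13_2_ok))) (B (M (nat_lit 425) (B (M (nat_lit 393) (B (L (nat_lit 392) ln12_13_3 ln12_13_3_ok) (L (nat_lit 394) ln13_13_3 ln13_13_3_ok))) (M (nat_lit 457) (B (L (nat_lit 456) ln12_13_1 ln12_13_1_ok) (L (nat_lit 458) ln13_13_1 ln13_13_1_ok))))) (M (nat_lit 398) (B (L (nat_lit 397) ln10_13_2 ln10_13_2_ok) (L (nat_lit 399) ln11_13_2 ln11_13_2_ok)))))))))) (B (M (nat_lit 395) (B (L (nat_lit 431) ln15_13_3 ln15_13_3_ok) (M (nat_lit 394) (B (L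 (nat_lit 393) ln9_12_0 ln9_12_0_ok) (L (nat_lit 427) ln14_13_3 ln14_13_3_ok))))) (K (nat_lit 4852171964872816621642656609103891429263953124053285618600165735627503498443635316696007785346597096250443233647200198949001494528) (nat_lit 589681629290253695991479601682741051890507551906081986076382803075755397387927657549174357104962625237721667507367884277427229324838357743121289814790834922063325560832) (nat_lit 589681629290253695991479601682741051890507551906081986076382803075755397387927657549174357104962625237721667507367884277427229324838357743121289814790834922063325560832) c41_s9166))))))) (B (M (nat_lit 430) (B (M (nat_lit 395) (B (L (nat_lit 431) ln15_13_3 ln15_13_3_ok) (M (nat_lit 394) (B (L (nat_lit 393) ln9_12_0 ln9_12_0_ok) (L (nat_lit 427) ln14_13_3 ln14_13_3_ok))))) (B (M (nat_lit 395) (B (L (nat_lit 431) ln15_13_3 ln15_13_3_ok) (M (nat_lit 394) (B (L (nat_lit 397) ln10_12_0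 ln10_12_0_ok) (L (nat_lit 427) ln14_13_3 ln14_13_3_ok))))) (B (M (nat_lit 427) (B (M (nat_lit 431) (B (L (nat_lit 395) ln15_13_3 ln15_13_3_ok) (M (nat_lit 399) (B (L (nat_lit 398) ln11_13_2 ln11_13_2_ok) (L (nat_lit 400) ln12_13_2 ln12_13_2_ok))))) (B (M (nat_lit 426) (B (M (nat_lit 397) (B (L (nat_lit 425) ln9_13_2 ln9_13_2_ok) (L (nat_lit 398) ln10_13_2 ln10_13_2_ok))) (M (nat_lit 458) (B (L (nat_lit 457) ln13_13_1 ln13_13_1_ok) (L (nat_lit 459) ln14_13_1 ln14_13_1_ok))))) (M (nat_lit 431) (B (L (nat_lit 395) ln15_13_3 ln15_13_3_ok) (M (nat_lit 463) (B (L (nat_lit 462) ln11_13_0 ln11_13_0_ok) (L (nat_lit 464) ln12_13_0 ln12_13_0_ok)))))))) (B (M (nat_lit 427) (B (M (nat_lit 426) (B (M (nat_lit 398) (B (L (nat_lit 397) ln10_13_2 ln10_13_2_ok) (L (nat_lit 399) ln11_13_2 ln11_13_2_ok))) (M (nat_lit 458) (B (L (nat_lit 457) ln13_13_1 ln13_13_1_ok) (L (nat_lit 459) ln14_13_1 ln14_13_1_ok)))))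 (B (M (nat_lit 431) (B (M (nat_lit 399) (B (L (nat_lit 398) ln11_13_2 ln11_13_2_ok) (L (nat_lit 400) ln12_13_2 ln12_13_2_ok))) (M (nat_lit 463) (B (L (nat_lit 462) ln11_13_0 ln11_13_0_ok) (L (nat_lit 464) ln12_13_0 ln12_13_0_ok))))) (M (nat_lit 397) (B (M (nat_lit 426) (B (L (nat_lit 425) ln9_13_2 ln9_13_2_ok) (M (nat_lit 458) (B (L (nat_lit 457) ln13_13_1 ln13_13_1_ok) (L (nat_lit 459) ln14_13_1 ln14_13_1_ok))))) (M (nat_lit 431) (B (L (nat_lit 432) ln16_13_3 ln16_13_3_ok) (M (nat_lit 463) (B (L (nat_lit 462) ln11_13_0 ln11_13_0_ok) (L (nat_lit 464) ln12_13_0 ln12_13_0_ok)))))))))) (B (M (nat_lit 395) (B (L (nat_lit 431) ln15_13_3 ln15_13_3_ok) (M (nat_lit 394) (B (L (nat_lit 393) ln9_12_0 ln9_12_0_ok) (L (nat_lit 397) ln10_12_0 ln10_12_0_ok))))) (M (nat_lit 427) (B (M (nat_lit 395) (B (L (nat_lit 394) ln14_13_3 ln14_13_3_ok) (M (nat_lit 459) (B (L (nat_lit 458) ln14_13_1 ln14_13_1_ok)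 (M (nat_lit 491) (B (L (nat_lit 364) ln11_15_6 ln11_15_6_ok) (L (nat_lit 523) ln11_16_6 ln11_16_6_ok))))))) (B (M (nat_lit 426) (B (M (nat_lit 394) (B (L (nat_lit 393) ln13_13_3 ln13_13_3_ok) (L (nat_lit 395) ln14_13_3 ln14_13_3_ok))) (M (nat_lit 398) (B (L (nat_lit 397) ln10_13_2 ln10_13_2_ok) (L (nat_lit 399) ln11_13_2 ln11_13_2_ok))))) (M (nat_lit 426) (B (M (nat_lit 398) (B (L (nat_lit 397) ln10_13_2 ln10_13_2_ok) (L (nat_lit 399) ln11_13_2 ln11_13_2_ok))) (M (nat_lit 458) (B (L (nat_lit 457) ln13_13_1 ln13_13_1_ok) (L (nat_lit 459) ln14_13_1 ln14_13_1_ok)))))))))))))) (K (nat_lit 2079502270752001762064242424960807725827516048677469043429686155012882190638009693656033379242457518153052022685796627120027336704) (nat_lit 54918381344978288071262284263690046439475012783530414139896212756378378501393415291397063535446195568281557742641399155752200054322353235976848968585243000832) (nat_lit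 54918381344978288071262284263690046439475012783530414139896212756378378501393415291397063535446195568281557742641399155752200054322353235976848968585243000832) c41_s9343)))))))))))))) (nat_lit 1386334847221798047169638878925036799968406779833514899637066259859226863686603287896039777716422623628704219945445734162783797248) (nat_lit 825554280855329625932328109487174832010788696024036398805123657959323762452395512214999417257764499767875703807421607122607493152070513370963239164155289001711491874816) (nat_lit 825554280855329625932328109487174832010788696024036398805123657959323762452395512214999417257764499767875703807421607122607493152070513370963239164155289001711491874816) (by decide +kernel)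
theorem c41_s9431 : Sem (nat_lit 2079502270752001762064242424960807725827516048677469043429686155012882190638009693656033379242457518153052022685796627120027336704) (nat_lit 109836762696349917171338872036111644355604564134813733554324078167119174577100833436666901437462501288457353712712308143062105477920856070218231941433443483648) (nat_lit 109836762696349917171338872036111644355604564134813733554324078167119174577100833436666901437462501288457353712712308143062105477920856070218231941433443483648) :=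
  sem_of_chk (M (nat_lit 398) (B (M (nat_lit 399) (B (M (nat_lit 397) (B (L (nat_lit 427) ln15_12_1 ln15_12_1_ok) (L (nat_lit 400) ln16_12_1 ln16_12_1_ok))) (B (M (nat_lit 430) (B (L (nat_lit 427) ln11_13_2 ln11_13_2_ok) (M (nat_lit 400) (B (L (nat_lit 401) ln17_12_1 ln17_12_1_ok) (L (nat_lit 431) ln12_13_2 ln12_13_2_ok))))) (B (M (nat_lit 427) (B (L (nat_lit 397) ln15_12_1 ln15_12_1_ok) (L (nat_lit 430) ln11_13_2 ln11_13_2_ok))) (M (nat_lit 400) (B (L (nat_lit 397) ln16_12_1 ln16_12_1_ok) (M (nat_lit 430) (B (L (nat_lit 401) ln17_12_1 ln17_12_1_ok) (L (nat_lit 431) ln12_13_2 ln12_13_2_ok))))))))) (B (M (nat_lit 430) (B (M (nat_lit 395) (B (L (nat_lit 431) ln15_13_3 ln15_13_3_ok) (M (nat_lit 427) (B (L (nat_lit 394) ln14_13_3 ln14_13_3_ok) (L (nat_lit 399) ln11_13_2 ln11_13_2_ok))))) (B (M (nat_lit 431) (B (L (nat_lit 395) ln15_13_3 ln15_13_3_ok) (M (nat_lit 399) (B (L (nat_lit 427)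 ln11_13_2 ln11_13_2_ok) (L (nat_lit 400) ln12_13_2 ln12_13_2_ok))))) (B (M (nat_lit 399) (B (L (nat_lit 427) ln11_13_2 ln11_13_2_ok) (M (nat_lit 400) (B (L (nat_lit 401) ln17_12_1 ln17_12_1_ok) (L (nat_lit 431) ln12_13_2 ln12_13_2_ok))))) (B (M (nat_lit 395) (B (L (nat_lit 431) ln15_13_3 ln15_13_3_ok) (M (nat_lit 394) (B (L (nat_lit 393) ln9_12_0 ln9_12_0_ok) (L (nat_lit 427) ln14_13_3 ln14_13_3_ok))))) (B (M (nat_lit 431) (B (L (nat_lit 395) ln15_13_3 ln15_13_3_ok) (M (nat_lit 399) (B (L (nat_lit 400) ln12_13_2 ln12_13_2_ok) (M (nat_lit 463) (B (L (nat_lit 464) ln12_13_0 ln12_13_0_ok) (M (nat_lit 366) (B (L (nat_lit 334) ln14_10_4 ln14_10_4_ok) (L (nat_lit 495) ln15_15_7 ln15_15_7_ok))))))))) (M (nat_lit 427) (B (L (nat_lit 399) ln11_13_2 ln11_13_2_ok) (M (nat_lit 395) (B (L (nat_lit 394) ln14_13_3 ln14_13_3_ok) (M (nat_lit 459) (B (L (nat_lit 458) ln14_13_1 ln14_13_1_ok) (M (nat_lit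 364) (B (L (nat_lit 332) ln12_10_5 ln12_10_5_ok) (L (nat_lit 491) ln11_15_6 ln11_15_6_ok))))))))))))))) (B (M (nat_lit 395) (B (M (nat_lit 430) (B (L (nat_lit 431) ln15_13_3 ln15_13_3_ok) (M (nat_lit 394) (B (L (nat_lit 393) ln9_12_0 ln9_12_0_ok) (L (nat_lit 427) ln14_13_3 ln14_13_3_ok))))) (B (M (nat_lit 430) (B (L (nat_lit 431) ln15_13_3 ln15_13_3_ok) (M (nat_lit 394) (B (L (nat_lit 397) ln10_12_0 ln10_12_0_ok) (L (nat_lit 427) ln14_13_3 ln14_13_3_ok))))) (B (M (nat_lit 397) (B (M (nat_lit 430) (B (L (nat_lit 431) ln11_12_0 ln11_12_0_ok) (M (nat_lit 366) (B (L (nat_lit 367) ln11_12_2 ln11_12_2_ok) (M (nat_lit 334) (B (L (nat_lit 302) ln14_9_5 ln14_9_5_ok) (L (nat_lit 461) ln14_10_5 ln14_10_5_ok))))))) (B (M (nat_lit 430) (B (L (nat_lit 431) ln11_12_0 ln11_12_0_ok) (M (nat_lit 366) (B (L (nat_lit 367) ln11_12_2 ln11_12_2_ok) (M (nat_lit 461) (B (L (nat_lit 334) ln14_10_5 ln14_10_5_ok)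 (L (nat_lit 493) ln13_15_6 ln13_15_6_ok))))))) (B (M (nat_lit 427) (B (L (nat_lit 426) ln14_12_1 ln14_12_1_ok) (M (nat_lit 459) (B (M (nat_lit 364) (B (L (nat_lit 332) ln12_10_5 ln12_10_5_ok) (L (nat_lit 491) ln11_15_6 ln11_15_6_ok))) (M (nat_lit 430) (B (L (nat_lit 431) ln11_12_0 ln11_12_0_ok) (L (nat_lit 458) ln14_13_1 ln14_13_1_ok))))))) (M (nat_lit 366) (B (L (nat_lit 367) ln11_12_2 ln11_12_2_ok) (M (nat_lit 461) (B (L (nat_lit 493) ln13_15_6 ln13_15_6_ok) (M (nat_lit 334) (B (L (nat_lit 302) ln14_9_5 ln14_9_5_ok) (L (nat_lit 365) ln13_14_6 ln13_14_6_ok))))))))))) (B (M (nat_lit 430) (B (L (nat_lit 431) ln15_13_3 ln15_13_3_ok) (M (nat_lit 394) (B (L (nat_lit 393) ln9_12_0 ln9_12_0_ok) (L (nat_lit 397) ln10_12_0 ln10_12_0_ok))))) (M (nat_lit 394) (B (L (nat_lit 393) ln9_12_0 ln9_12_0_ok) (M (nat_lit 397) (B (M (nat_lit 362) (B (L (nat_lit 361) ln13_12_3 ln13_12_3_ok) (L (nat_lit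 363) ln14_12_3 ln14_12_3_ok))) (M (nat_lit 366) (B (L (nat_lit 365) ln10_12_2 ln10_12_2_ok) (L (nat_lit 367) ln11_12_2 ln11_12_2_ok)))))))))))) (B (M (nat_lit 397) (B (M (nat_lit 364) (B (M (nat_lit 399) (B (L (nat_lit 363) ln15_12_3 ln15_12_3_ok) (L (nat_lit 400) ln16_12_1 ln16_12_1_ok))) (M (nat_lit 461) (B (L (nat_lit 332) ln12_10_4 ln12_10_4_ok) (L (nat_lit 493) ln13_15_7 ln13_15_7_ok))))) (B (M (nat_lit 399) (B (L (nat_lit 400) ln16_12_1 ln16_12_1_ok) (M (nat_lit 395) (B (M (nat_lit 367) (B (L (nat_lit 366) ln11_12_2 ln11_12_2_ok) (L (nat_lit 368) ln12_12_2 ln12_12_2_ok))) (M (nat_lit 431) (B (L (nat_lit 430) ln11_12_0 ln11_12_0_ok) (L (nat_lit 432) ln12_12_0 ln12_12_0_ok))))))) (M (nat_lit 366) (B (M (nat_lit 461) (B (L (nat_lit 493) ln13_15_6 ln13_15_6_ok) (M (nat_lit 334) (B (L (nat_lit 302) ln14_9_5 ln14_9_5_ok) (L (nat_lit 430) ln14_10_5 ln14_10_5_ok))))) (B (M (nat_lit 461)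 (B (L (nat_lit 493) ln13_15_6 ln13_15_6_ok) (M (nat_lit 334) (B (L (nat_lit 365) ln13_14_6 ln13_14_6_ok) (L (nat_lit 430) ln14_10_5 ln14_10_5_ok))))) (M (nat_lit 395) (B (L (nat_lit 367) ln11_12_2 ln11_12_2_ok) (M (nat_lit 394) (B (L (nat_lit 365) ln10_12_2 ln10_12_2_ok) (L (nat_lit 393) ln9_12_0 ln9_12_0_ok))))))))))) (M (nat_lit 397) (B (M (nat_lit 399) (B (L (nat_lit 427) ln15_12_1 ln15_12_1_ok) (L (nat_lit 400) ln16_12_1 ln16_12_1_ok))) (M (nat_lit 461) (B (M (nat_lit 364) (B (L (nat_lit 332) ln12_10_4 ln12_10_4_ok) (L (nat_lit 493) ln13_15_7 ln13_15_7_ok))) (B (M (nat_lit 493) (B (L (nat_lit 364) ln13_15_7 ln13_15_7_ok) (L (nat_lit 366) ln13_15_6 ln13_15_6_ok))) (B (M (nat_lit 493) (B (L (nat_lit 366) ln13_15_6 ln13_15_6_ok) (L (nat_lit 525) ln13_16_7 ln13_16_7_ok))) (M (nat_lit 365) (B (M (nat_lit 332) (B (L (nat_lit 364) ln13_14_7 ln13_14_7_ok) (M (nat_lit 333) (B (L (nat_lit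 300) ln13_13_7 ln13_13_7_ok) (L (nat_lit 301) ln13_9_5 ln13_9_5_ok))))) (M (nat_lit 366) (B (L (nat_lit 334) ln13_14_6 ln13_14_6_ok) (M (nat_lit 367) (B (L (nat_lit 368) ln16_11_1 ln16_11_1_ok) (L (nat_lit 395) ln11_12_2 ln11_12_2_ok)))))))))))))))))) (nat_lit 2079502270752001762064242424960807725827516048677469043429686155012882190638009693656033379242457518153052022685796627120027336704) (nat_lit 109836762696349917171338872036111644355604564134813733554324078167119174577100833436666901437462501288457353712712308143062105477920856070218231941433443483648) (nat_lit 109836762696349917171338872036111644355604564134813733554324078167119174577100833436666901437462501288457353712712308143062105477920856070218231941433443483648) (by decide +kernel)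
theorem c41_s9438 : Sem (nat_lit 1386334847221798047169638878925036799968406779833514899637066259859226863686603287896039777716422623628704219945445734162783797248) (nat_lit 117936325967887501888252496472634732201778141585158388224640699108109267891035626167913523201431856418743551230117425429592826468353240062003336594011429074945414529024) (nat_lit 117936325967887501888252496472634732201778141585158388224640699108109267891035626167913523201431856418743551230117425429592826468353240062003336594011429074945414529024) :=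
  sem_of_chk (M (nat_lit 428) (B (M (nat_lit 430) (B (M (nat_lit 395) (B (L (nat_lit 431) ln15_13_3 ln15_13_3_ok) (M (nat_lit 394) (B (L (nat_lit 393) ln9_12_0 ln9_12_0_ok) (L (nat_lit 397) ln10_12_0 ln10_12_0_ok))))) (B (M (nat_lit 395) (B (L (nat_lit 431) ln15_13_3 ln15_13_3_ok) (M (nat_lit 394) (B (L (nat_lit 397) ln10_12_0 ln10_12_0_ok) (L (nat_lit 427) ln14_13_3 ln14_13_3_ok))))) (B (M (nat_lit 431) (B (L (nat_lit 395) ln15_13_3 ln15_13_3_ok) (M (nat_lit 400) (B (L (nat_lit 399) ln12_13_2 ln12_13_2_ok) (M (nat_lit 432) (B (L (nat_lit 397) ln16_13_3 ln16_13_3_ok) (L (nat_lit 401) ln13_13_2 ln13_13_2_ok))))))) (B (M (nat_lit 431) (B (M (nat_lit 460) (B (L (nat_lit 459) ln15_13_1 ln15_13_1_ok) (M (nat_lit 432) (B (L (nat_lit 397) ln16_13_3 ln16_13_3_ok) (L (nat_lit 461) ln16_13_1 ln16_13_1_ok))))) (B (M (nat_lit 427) (B (M (nat_lit 399) (B (L (nat_lit 398) ln11_13_2 ln11_13_2_ok)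 (L (nat_lit 400) ln12_13_2 ln12_13_2_ok))) (M (nat_lit 459) (B (L (nat_lit 458) ln14_13_1 ln14_13_1_ok) (L (nat_lit 460) ln15_13_1 ln15_13_1_ok))))) (M (nat_lit 400) (B (L (nat_lit 399) ln12_13_2 ln12_13_2_ok) (M (nat_lit 432) (B (L (nat_lit 397) ln16_13_3 ln16_13_3_ok) (L (nat_lit 401) ln13_13_2 ln13_13_2_ok)))))))) (B (M (nat_lit 395) (B (L (nat_lit 431) ln15_13_3 ln15_13_3_ok) (M (nat_lit 394) (B (L (nat_lit 393) ln9_12_0 ln9_12_0_ok) (L (nat_lit 427) ln14_13_3 ln14_13_3_ok))))) (M (nat_lit 427) (B (M (nat_lit 395) (B (L (nat_lit 394) ln14_13_3 ln14_13_3_ok) (M (nat_lit 459) (B (L (nat_lit 458) ln14_13_1 ln14_13_1_ok) (M (nat_lit 491) (B (L (nat_lit 364) ln11_15_6 ln11_15_6_ok) (L (nat_lit 523) ln11_16_6 ln11_16_6_ok))))))) (B (M (nat_lit 426) (B (M (nat_lit 394) (B (L (nat_lit 393) ln13_13_3 ln13_13_3_ok) (L (nat_lit 395) ln14_13_3 ln14_13_3_ok))) (M (nat_lit 398) (B (L (nat_lit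 397) ln10_13_2 ln10_13_2_ok) (L (nat_lit 399) ln11_13_2 ln11_13_2_ok))))) (M (nat_lit 426) (B (M (nat_lit 398) (B (L (nat_lit 397) ln10_13_2 ln10_13_2_ok) (L (nat_lit 399) ln11_13_2 ln11_13_2_ok))) (M (nat_lit 458) (B (L (nat_lit 457) ln13_13_1 ln13_13_1_ok) (L (nat_lit 459) ln14_13_1 ln14_13_1_ok)))))))))))))) (B (M (nat_lit 430) (B (M (nat_lit 395) (B (L (nat_lit 431) ln15_13_3 ln15_13_3_ok) (M (nat_lit 394) (B (L (nat_lit 397) ln10_12_0 ln10_12_0_ok) (L (nat_lit 427) ln14_13_3 ln14_13_3_ok))))) (B (M (nat_lit 431) (B (L (nat_lit 395) ln15_13_3 ln15_13_3_ok) (M (nat_lit 400) (B (L (nat_lit 399) ln12_13_2 ln12_13_2_ok) (M (nat_lit 432) (B (L (nat_lit 397) ln16_13_3 ln16_13_3_ok) (L (nat_lit 401) ln13_13_2 ln13_13_2_ok))))))) (B (M (nat_lit 431) (B (M (nat_lit 460) (B (L (nat_lit 459) ln15_13_1 ln15_13_1_ok) (M (nat_lit 432) (B (L (nat_lit 397) ln16_13_3 ln16_13_3_ok) (L (nat_lit 461)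 ln16_13_1 ln16_13_1_ok))))) (B (M (nat_lit 427) (B (M (nat_lit 399) (B (L (nat_lit 398) ln11_13_2 ln11_13_2_ok) (L (nat_lit 400) ln12_13_2 ln12_13_2_ok))) (M (nat_lit 459) (B (L (nat_lit 458) ln14_13_1 ln14_13_1_ok) (L (nat_lit 460) ln15_13_1 ln15_13_1_ok))))) (M (nat_lit 400) (B (L (nat_lit 399) ln12_13_2 ln12_13_2_ok) (M (nat_lit 432) (B (L (nat_lit 397) ln16_13_3 ln16_13_3_ok) (L (nat_lit 401) ln13_13_2 ln13_13_2_ok)))))))) (B (M (nat_lit 395) (B (L (nat_lit 431) ln15_13_3 ln15_13_3_ok) (M (nat_lit 394) (B (L (nat_lit 393) ln9_12_0 ln9_12_0_ok) (L (nat_lit 427) ln14_13_3 ln14_13_3_ok))))) (M (nat_lit 395) (B (M (nat_lit 394) (B (L (nat_lit 393) ln9_12_0 ln9_12_0_ok) (L (nat_lit 397) ln10_12_0 ln10_12_0_ok))) (B (M (nat_lit 394) (B (L (nat_lit 397) ln10_12_0 ln10_12_0_ok) (L (nat_lit 427) ln14_13_3 ln14_13_3_ok))) (B (M (nat_lit 427) (B (M (nat_lit 398) (B (L (nat_lit 399) ln11_13_2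 ln11_13_2_ok) (M (nat_lit 426) (B (L (nat_lit 397) ln14_12_1 ln14_12_1_ok) (M (nat_lit 458) (B (L (nat_lit 457) ln13_13_1 ln13_13_1_ok) (L (nat_lit 459) ln14_13_1 ln14_13_1_ok))))))) (B (M (nat_lit 460) (B (M (nat_lit 492) (B (L (nat_lit 363) ln12_15_7 ln12_15_7_ok) (L (nat_lit 524) ln12_16_7 ln12_16_7_ok))) (M (nat_lit 426) (B (M (nat_lit 425) (B (L (nat_lit 424) ln8_13_2 ln8_13_2_ok) (L (nat_lit 461) ln9_13_0 ln9_13_0_ok))) (M (nat_lit 458) (B (L (nat_lit 457) ln13_13_1 ln13_13_1_ok) (L (nat_lit 459) ln14_13_1 ln14_13_1_ok))))))) (B (M (nat_lit 363) (B (M (nat_lit 460) (B (L (nat_lit 331) ln11_10_4 ln11_10_4_ok) (L (nat_lit 492) ln12_15_7 ln12_15_7_ok))) (M (nat_lit 362) (B (M (nat_lit 459) (B (L (nat_lit 330) ln11_14_7 ln11_14_7_ok) (L (nat_lit 458) ln14_13_1 ln14_13_1_ok))) (M (nat_lit 398) (B (L (nat_lit 397) ln14_12_3 ln14_12_3_ok) (L (nat_lit 399) ln11_13_2 ln11_13_2_ok)))))))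 (M (nat_lit 398) (B (L (nat_lit 399) ln11_13_2 ln11_13_2_ok) (M (nat_lit 363) (B (M (nat_lit 331) (B (L (nat_lit 299) ln11_9_4 ln11_9_4_ok) (L (nat_lit 460) ln11_10_4 ln11_10_4_ok))) (M (nat_lit 397) (B (L (nat_lit 362) ln14_12_3 ln14_12_3_ok) (L (nat_lit 426) ln14_12_1 ln14_12_1_ok))))))))))) (M (nat_lit 394) (B (L (nat_lit 393) ln9_12_0 ln9_12_0_ok) (L (nat_lit 427) ln14_13_3 ln14_13_3_ok)))))))))))) (B (M (nat_lit 459) (B (M (nat_lit 364) (B (M (nat_lit 332) (B (L (nat_lit 427) ln12_10_5 ln12_10_5_ok) (L (nat_lit 461) ln12_10_4 ln12_10_4_ok))) (B (M (nat_lit 491) (B (L (nat_lit 460) ln12_11_5 ln12_11_5_ok) (M (nat_lit 427) (B (L (nat_lit 395) ln11_15_6 ln11_15_6_ok) (L (nat_lit 523) ln11_16_6 ln11_16_6_ok))))) (M (nat_lit 461) (B (L (nat_lit 332) ln12_10_4 ln12_10_4_ok) (M (nat_lit 460) (B (L (nat_lit 491) ln12_11_5 ln12_11_5_ok) (L (nat_lit 493) ln12_11_4 ln12_11_4_ok)))))))) (B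 (M (nat_lit 430) (B (M (nat_lit 431) (B (L (nat_lit 395) ln15_13_3 ln15_13_3_ok) (L (nat_lit 460) ln15_13_1 ln15_13_1_ok))) (B (M (nat_lit 458) (B (L (nat_lit 427) ln14_13_1 ln14_13_1_ok) (M (nat_lit 460) (B (L (nat_lit 457) ln9_14_2 ln9_14_2_ok) (L (nat_lit 461) ln10_14_2 ln10_14_2_ok))))) (M (nat_lit 427) (B (L (nat_lit 458) ln14_13_1 ln14_13_1_ok) (M (nat_lit 395) (B (L (nat_lit 394) ln14_13_3 ln14_13_3_ok) (L (nat_lit 431) ln15_13_3 ln15_13_3_ok)))))))) (B (M (nat_lit 427) (B (M (nat_lit 364) (B (L (nat_lit 332) ln12_10_5 ln12_10_5_ok) (M (nat_lit 491) (B (L (nat_lit 460) ln12_11_5 ln12_11_5_ok) (L (nat_lit 523) ln11_16_6 ln11_16_6_ok))))) (M (nat_lit 458) (B (L (nat_lit 430) ln14_13_1 ln14_13_1_ok) (M (nat_lit 457) (B (L (nat_lit 426) ln13_13_1 ln13_13_1_ok) (L (nat_lit 456) ln8_14_2 ln8_14_2_ok))))))) (B (M (nat_lit 460) (B (M (nat_lit 430) (B (L (nat_lit 431) ln15_13_1 ln15_13_1_ok)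 (M (nat_lit 458) (B (L (nat_lit 457) ln9_14_2 ln9_14_2_ok) (L (nat_lit 461) ln10_14_2 ln10_14_2_ok))))) (B (M (nat_lit 364) (B (L (nat_lit 491) ln12_11_5 ln12_11_5_ok) (M (nat_lit 461) (B (L (nat_lit 332) ln12_10_4 ln12_10_4_ok) (L (nat_lit 493) ln12_11_4 ln12_11_4_ok))))) (M (nat_lit 491) (B (L (nat_lit 364) ln12_11_5 ln12_11_5_ok) (M (nat_lit 523) (B (L (nat_lit 492) ln12_12_5 ln12_12_5_ok) (L (nat_lit 555) ln11_17_6 ln11_17_6_ok)))))))) (M (nat_lit 427) (B (M (nat_lit 458) (B (L (nat_lit 430) ln14_13_1 ln14_13_1_ok) (M (nat_lit 457) (B (L (nat_lit 426) ln13_13_1 ln13_13_1_ok) (L (nat_lit 456) ln8_14_2 ln8_14_2_ok))))) (M (nat_lit 364) (B (L (nat_lit 332) ln12_10_5 ln12_10_5_ok) (M (nat_lit 491) (B (L (nat_lit 395) ln11_15_6 ln11_15_6_ok) (L (nat_lit 523) ln11_16_6 ln11_16_6_ok)))))))))))) (B (M (nat_lit 459) (B (M (nat_lit 460) (B (M (nat_lit 364) (B (L (nat_lit 491) ln12_11_5 ln12_11_5_ok)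 (M (nat_lit 332) (B (L (nat_lit 427) ln12_10_5 ln12_10_5_ok) (L (nat_lit 461) ln12_10_4 ln12_10_4_ok))))) (B (M (nat_lit 430) (B (L (nat_lit 431) ln15_13_1 ln15_13_1_ok) (M (nat_lit 458) (B (L (nat_lit 427) ln14_13_1 ln14_13_1_ok) (L (nat_lit 457) ln9_14_2 ln9_14_2_ok))))) (M (nat_lit 430) (B (L (nat_lit 431) ln15_13_1 ln15_13_1_ok) (M (nat_lit 458) (B (L (nat_lit 457) ln9_14_2 ln9_14_2_ok) (L (nat_lit 461) ln10_14_2 ln10_14_2_ok)))))))) (B (M (nat_lit 430) (B (M (nat_lit 431) (B (L (nat_lit 395) ln15_13_3 ln15_13_3_ok) (L (nat_lit 460) ln15_13_1 ln15_13_1_ok))) (B (M (nat_lit 458) (B (L (nat_lit 427) ln14_13_1 ln14_13_1_ok) (M (nat_lit 460) (B (L (nat_lit 457) ln9_14_2 ln9_14_2_ok) (L (nat_lit 461) ln10_14_2 ln10_14_2_ok))))) (M (nat_lit 399) (B (M (nat_lit 427) (B (L (nat_lit 398) ln11_13_2 ln11_13_2_ok) (L (nat_lit 458) ln14_13_1 ln14_13_1_ok))) (M (nat_lit 431) (B (L (nat_lit 395)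 ln15_13_3 ln15_13_3_ok) (L (nat_lit 400) ln12_13_2 ln12_13_2_ok)))))))) (B (M (nat_lit 460) (B (M (nat_lit 364) (B (L (nat_lit 491) ln12_11_5 ln12_11_5_ok) (M (nat_lit 461) (B (L (nat_lit 332) ln12_10_4 ln12_10_4_ok) (L (nat_lit 493) ln12_11_4 ln12_11_4_ok))))) (B (M (nat_lit 430) (B (L (nat_lit 431) ln15_13_1 ln15_13_1_ok) (M (nat_lit 458) (B (L (nat_lit 457) ln9_14_2 ln9_14_2_ok) (L (nat_lit 461) ln10_14_2 ln10_14_2_ok))))) (M (nat_lit 492) (B (M (nat_lit 491) (B (L (nat_lit 364) ln12_11_5 ln12_11_5_ok) (L (nat_lit 523) ln12_12_5 ln12_12_5_ok))) (M (nat_lit 397) (B (L (nat_lit 365) ln12_15_6 ln12_15_6_ok) (L (nat_lit 524) ln12_16_6 ln12_16_6_ok)))))))) (B (M (nat_lit 364) (B (M (nat_lit 332) (B (L (nat_lit 427) ln12_10_5 ln12_10_5_ok) (L (nat_lit 461) ln12_10_4 ln12_10_4_ok))) (B (M (nat_lit 491) (B (L (nat_lit 460) ln12_11_5 ln12_11_5_ok) (M (nat_lit 427) (B (L (nat_lit 395) ln11_15_6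 ln11_15_6_ok) (L (nat_lit 523) ln11_16_6 ln11_16_6_ok))))) (M (nat_lit 461) (B (L (nat_lit 332) ln12_10_4 ln12_10_4_ok) (M (nat_lit 460) (B (L (nat_lit 491) ln12_11_5 ln12_11_5_ok) (L (nat_lit 493) ln12_11_4 ln12_11_4_ok)))))))) (M (nat_lit 427) (B (M (nat_lit 458) (B (L (nat_lit 430) ln14_13_1 ln14_13_1_ok) (M (nat_lit 457) (B (L (nat_lit 426) ln13_13_1 ln13_13_1_ok) (L (nat_lit 456) ln8_14_2 ln8_14_2_ok))))) (M (nat_lit 364) (B (L (nat_lit 332) ln12_10_5 ln12_10_5_ok) (M (nat_lit 491) (B (L (nat_lit 395) ln11_15_6 ln11_15_6_ok) (L (nat_lit 523) ln11_16_6 ln11_16_6_ok)))))))))))) (B (M (nat_lit 364) (B (M (nat_lit 461) (B (L (nat_lit 332) ln12_10_4 ln12_10_4_ok) (M (nat_lit 493) (B (L (nat_lit 397) ln13_15_7 ln13_15_7_ok) (L (nat_lit 525) ln13_16_7 ln13_16_7_ok))))) (B (M (nat_lit 460) (B (M (nat_lit 365) (B (L (nat_lit 333) ln12_14_6 ln12_14_6_ok) (M (nat_lit 492) (B (L (nat_lit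 397) ln12_15_6 ln12_15_6_ok) (M (nat_lit 491) (B (L (nat_lit 459) ln12_11_5 ln12_11_5_ok) (L (nat_lit 523) ln12_12_5 ln12_12_5_ok))))))) (B (M (nat_lit 492) (B (M (nat_lit 491) (B (L (nat_lit 459) ln12_11_5 ln12_11_5_ok) (L (nat_lit 523) ln12_12_5 ln12_12_5_ok))) (M (nat_lit 493) (B (L (nat_lit 461) ln12_11_4 ln12_11_4_ok) (L (nat_lit 525) ln12_12_4 ln12_12_4_ok))))) (B (M (nat_lit 492) (B (M (nat_lit 365) (B (L (nat_lit 333) ln12_14_6 ln12_14_6_ok) (L (nat_lit 397) ln12_15_6 ln12_15_6_ok))) (M (nat_lit 493) (B (L (nat_lit 461) ln12_11_4 ln12_11_4_ok) (L (nat_lit 525) ln12_12_4 ln12_12_4_ok))))) (M (nat_lit 461) (B (L (nat_lit 493) ln12_11_4 ln12_11_4_ok) (M (nat_lit 459) (B (L (nat_lit 491) ln12_11_5 ln12_11_5_ok) (M (nat_lit 430) (B (L (nat_lit 431) ln15_13_1 ln15_13_1_ok) (L (nat_lit 458) ln10_14_2 ln10_14_2_ok))))))))))) (B (M (nat_lit 461) (B (L (nat_lit 332) ln12_10_4 ln12_10_4_ok)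 (M (nat_lit 493) (B (L (nat_lit 460) ln12_11_4 ln12_11_4_ok) (L (nat_lit 525) ln13_16_7 ln13_16_7_ok))))) (M (nat_lit 332) (B (M (nat_lit 300) (B (L (nat_lit 397) ln12_9_4 ln12_9_4_ok) (M (nat_lit 299) (B (L (nat_lit 267) ln12_12_7 ln12_12_7_ok) (L (nat_lit 331) ln12_13_7 ln12_13_7_ok))))) (B (M (nat_lit 300) (B (L (nat_lit 397) ln12_9_4 ln12_9_4_ok) (M (nat_lit 301) (B (L (nat_lit 269) ln12_12_6 ln12_12_6_ok) (L (nat_lit 333) ln12_13_6 ln12_13_6_ok))))) (M (nat_lit 460) (B (M (nat_lit 331) (B (L (nat_lit 299) ln12_13_7 ln12_13_7_ok) (L (nat_lit 363) ln12_14_7 ln12_14_7_ok))) (M (nat_lit 333) (B (L (nat_lit 301) ln12_13_6 ln12_13_6_ok) (L (nat_lit 365) ln12_14_6 ln12_14_6_ok)))))))))))) (B (M (nat_lit 364) (B (M (nat_lit 461) (B (L (nat_lit 332) ln12_10_4 ln12_10_4_ok) (M (nat_lit 493) (B (L (nat_lit 397) ln13_15_7 ln13_15_7_ok) (L (nat_lit 525) ln13_16_7 ln13_16_7_ok))))) (B (M (nat_lit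 460) (B (M (nat_lit 492) (B (M (nat_lit 363) (B (L (nat_lit 331) ln12_14_7 ln12_14_7_ok) (L (nat_lit 395) ln12_15_7 ln12_15_7_ok))) (M (nat_lit 365) (B (L (nat_lit 333) ln12_14_6 ln12_14_6_ok) (L (nat_lit 397) ln12_15_6 ln12_15_6_ok))))) (B (M (nat_lit 492) (B (M (nat_lit 365) (B (L (nat_lit 333) ln12_14_6 ln12_14_6_ok) (L (nat_lit 397) ln12_15_6 ln12_15_6_ok))) (M (nat_lit 493) (B (L (nat_lit 461) ln12_11_4 ln12_11_4_ok) (L (nat_lit 525) ln12_12_4 ln12_12_4_ok))))) (B (M (nat_lit 492) (B (M (nat_lit 363) (B (L (nat_lit 331) ln12_14_7 ln12_14_7_ok) (L (nat_lit 395) ln12_15_7 ln12_15_7_ok))) (M (nat_lit 493) (B (L (nat_lit 461) ln12_11_4 ln12_11_4_ok) (L (nat_lit 525) ln12_12_4 ln12_12_4_ok))))) (M (nat_lit 365) (B (L (nat_lit 333) ln12_14_6 ln12_14_6_ok) (M (nat_lit 397) (B (M (nat_lit 363) (B (L (nat_lit 331) ln12_14_7 ln12_14_7_ok) (M (nat_lit 362) (B (L (nat_lit 361) ln9_11_0 ln9_11_0_ok)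 (L (nat_lit 398) ln10_11_0 ln10_11_0_ok))))) (M (nat_lit 366) (B (M (nat_lit 461) (B (L (nat_lit 334) ln13_14_6 ln13_14_6_ok) (L (nat_lit 493) ln13_15_7 ln13_15_7_ok))) (M (nat_lit 367) (B (L (nat_lit 395) ln15_11_1 ln15_11_1_ok) (L (nat_lit 368) ln16_11_1 ln16_11_1_ok))))))))))))) (B (M (nat_lit 461) (B (L (nat_lit 332) ln12_10_4 ln12_10_4_ok) (M (nat_lit 493) (B (L (nat_lit 460) ln12_11_4 ln12_11_4_ok) (L (nat_lit 525) ln13_16_7 ln13_16_7_ok))))) (M (nat_lit 332) (B (M (nat_lit 300) (B (L (nat_lit 397) ln12_9_4 ln12_9_4_ok) (M (nat_lit 299) (B (L (nat_lit 267) ln12_12_7 ln12_12_7_ok) (L (nat_lit 331) ln12_13_7 ln12_13_7_ok))))) (B (M (nat_lit 300) (B (L (nat_lit 397) ln12_9_4 ln12_9_4_ok) (M (nat_lit 301) (B (L (nat_lit 269) ln12_12_6 ln12_12_6_ok) (L (nat_lit 333) ln12_13_6 ln12_13_6_ok))))) (M (nat_lit 460) (B (M (nat_lit 331) (B (L (nat_lit 299) ln12_13_7 ln12_13_7_ok) (L (nat_lit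 363) ln12_14_7 ln12_14_7_ok))) (M (nat_lit 333) (B (L (nat_lit 301) ln12_13_6 ln12_13_6_ok) (L (nat_lit 365) ln12_14_6 ln12_14_6_ok)))))))))))) (B (K (nat_lit 2079502270752001762064242424960807725827516048677469043429686155012882190638009693656033379242457518153052022685796627120027336704) (nat_lit 109836762696349917171338872036111644355604564134813733554324078167119174577100833436666901437462501288457353712712308143062105477920856070218231941433443483648) (nat_lit 109836762696349917171338872036111644355604564134813733554324078167119174577100833436666901437462501288457353712712308143062105477920856070218231941433443483648) c41_s9431) (M (nat_lit 430) (B (M (nat_lit 395) (B (L (nat_lit 431) ln15_13_3 ln15_13_3_ok) (M (nat_lit 394) (B (L (nat_lit 397) ln10_12_0 ln10_12_0_ok) (L (nat_lit 427) ln14_13_3 ln14_13_3_ok))))) (B (M (nat_lit 431) (B (L (nat_lit 395) ln15_13_3 ln15_13_3_ok) (M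 (nat_lit 400) (B (L (nat_lit 399) ln12_13_2 ln12_13_2_ok) (M (nat_lit 432) (B (L (nat_lit 397) ln16_13_3 ln16_13_3_ok) (L (nat_lit 401) ln13_13_2 ln13_13_2_ok))))))) (B (M (nat_lit 427) (B (M (nat_lit 426) (B (M (nat_lit 398) (B (L (nat_lit 397) ln10_13_2 ln10_13_2_ok) (L (nat_lit 399) ln11_13_2 ln11_13_2_ok))) (M (nat_lit 458) (B (L (nat_lit 457) ln13_13_1 ln13_13_1_ok) (L (nat_lit 459) ln14_13_1 ln14_13_1_ok))))) (B (M (nat_lit 431) (B (M (nat_lit 399) (B (L (nat_lit 398) ln11_13_2 ln11_13_2_ok) (L (nat_lit 400) ln12_13_2 ln12_13_2_ok))) (M (nat_lit 459) (B (L (nat_lit 458) ln14_13_1 ln14_13_1_ok) (L (nat_lit 460) ln15_13_1 ln15_13_1_ok))))) (B (M (nat_lit 459) (B (L (nat_lit 458) ln14_13_1 ln14_13_1_ok) (M (nat_lit 460) (B (L (nat_lit 431) ln15_13_1 ln15_13_1_ok) (M (nat_lit 364) (B (L (nat_lit 332) ln12_10_5 ln12_10_5_ok) (L (nat_lit 491) ln12_11_5 ln12_11_5_ok))))))) (M (nat_lit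 431) (B (M (nat_lit 399) (B (L (nat_lit 398) ln11_13_2 ln11_13_2_ok) (L (nat_lit 400) ln12_13_2 ln12_13_2_ok))) (B (M (nat_lit 400) (B (L (nat_lit 399) ln12_13_2 ln12_13_2_ok) (M (nat_lit 432) (B (L (nat_lit 397) ln16_13_3 ln16_13_3_ok) (L (nat_lit 401) ln13_13_2 ln13_13_2_ok))))) (M (nat_lit 397) (B (L (nat_lit 432) ln16_13_3 ln16_13_3_ok) (M (nat_lit 426) (B (L (nat_lit 425) ln9_13_2 ln9_13_2_ok) (L (nat_lit 398) ln10_13_2 ln10_13_2_ok)))))))))))) (B (M (nat_lit 395) (B (L (nat_lit 431) ln15_13_3 ln15_13_3_ok) (M (nat_lit 394) (B (L (nat_lit 393) ln9_12_0 ln9_12_0_ok) (L (nat_lit 427) ln14_13_3 ln14_13_3_ok))))) (M (nat_lit 427) (B (M (nat_lit 395) (B (L (nat_lit 394) ln14_13_3 ln14_13_3_ok) (M (nat_lit 459) (B (L (nat_lit 458) ln14_13_1 ln14_13_1_ok) (M (nat_lit 491) (B (L (nat_lit 364) ln11_15_6 ln11_15_6_ok) (L (nat_lit 523) ln11_16_6 ln11_16_6_ok))))))) (B (M (nat_lit 426) (B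 (M (nat_lit 394) (B (L (nat_lit 393) ln13_13_3 ln13_13_3_ok) (L (nat_lit 395) ln14_13_3 ln14_13_3_ok))) (M (nat_lit 398) (B (L (nat_lit 397) ln10_13_2 ln10_13_2_ok) (L (nat_lit 399) ln11_13_2 ln11_13_2_ok))))) (B (M (nat_lit 459) (B (L (nat_lit 458) ln14_13_1 ln14_13_1_ok) (M (nat_lit 364) (B (L (nat_lit 332) ln12_10_5 ln12_10_5_ok) (M (nat_lit 491) (B (L (nat_lit 395) ln11_15_6 ln11_15_6_ok) (L (nat_lit 523) ln11_16_6 ln11_16_6_ok))))))) (M (nat_lit 459) (B (L (nat_lit 458) ln14_13_1 ln14_13_1_ok) (M (nat_lit 364) (B (L (nat_lit 332) ln12_10_5 ln12_10_5_ok) (M (nat_lit 491) (B (L (nat_lit 460) ln12_11_5 ln12_11_5_ok) (L (nat_lit 523) ln11_16_6 ln11_16_6_ok)))))))))))))))))))))))) (nat_lit 1386334847221798047169638878925036799968406779833514899637066259859226863686603287896039777716422623628704219945445734162783797248) (nat_lit 117936325967887501888252496472634732201778141585158388224640699108109267891035626167913523201431856418743551230117425429592826468353240062003336594011429074945414529024)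 (nat_lit 117936325967887501888252496472634732201778141585158388224640699108109267891035626167913523201431856418743551230117425429592826468353240062003336594011429074945414529024) (by decide +kernel)
noncomputable def c41_n9442 : Cert := (M (nat_lit 461) (B (M (nat_lit 493) (B (L (nat_lit 525) ln13_16_7 ln13_16_7_ok) (M (nat_lit 364) (B (L (nat_lit 332) ln12_10_4 ln12_10_4_ok) (L (nat_lit 397) ln13_15_7 ln13_15_7_ok))))) (B (M (nat_lit 493) (B (L (nat_lit 525) ln13_16_7 ln13_16_7_ok) (M (nat_lit 364) (B (L (nat_lit 397) ln13_15_7 ln13_15_7_ok) (L (nat_lit 460) ln12_11_4 ln12_11_4_ok))))) (B (M (nat_lit 493) (B (L (nat_lit 525) ln13_16_7 ln13_16_7_ok) (M (nat_lit 397) (B (M (nat_lit 398) (B (L (nat_lit 366) ln13_15_6 ln13_15_6_ok) (M (nat_lit 399) (B (L (nat_lit 427) ln15_12_1 ln15_12_1_ok) (L (nat_lit 400) ln16_12_1 ln16_12_1_ok))))) (M (nat_lit 492) (B (L (nat_lit 524) ln13_12_5 ln13_12_5_ok)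 (M (nat_lit 365) (B (L (nat_lit 460) ln12_15_6 ln12_15_6_ok) (M (nat_lit 494) (B (L (nat_lit 462) ln13_11_4 ln13_11_4_ok) (L (nat_lit 526) ln13_12_4 ln13_12_4_ok))))))))))) (B (M (nat_lit 493) (B (L (nat_lit 525) ln13_16_7 ln13_16_7_ok) (M (nat_lit 364) (B (L (nat_lit 332) ln12_10_4 ln12_10_4_ok) (L (nat_lit 460) ln12_11_4 ln12_11_4_ok))))) (M (nat_lit 365) (B (M (nat_lit 364) (B (L (nat_lit 332) ln12_10_4 ln12_10_4_ok) (M (nat_lit 333) (B (L (nat_lit 460) ln12_14_6 ln12_14_6_ok) (M (nat_lit 301) (B (L (nat_lit 269) ln13_8_5 ln13_8_5_ok) (L (nat_lit 397) ln13_9_5 ln13_9_5_ok))))))) (B (M (nat_lit 460) (B (M (nat_lit 364) (B (L (nat_lit 332) ln12_10_4 ln12_10_4_ok) (L (nat_lit 333) ln12_14_6 ln12_14_6_ok))) (B (M (nat_lit 333) (B (L (nat_lit 364) ln12_14_6 ln12_14_6_ok) (L (nat_lit 397) ln13_10_5 ln13_10_5_ok))) (B (M (nat_lit 363) (B (M (nat_lit 364) (B (L (nat_lit 331) ln12_14_7 ln12_14_7_ok)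 (L (nat_lit 332) ln12_10_4 ln12_10_4_ok))) (M (nat_lit 492) (B (L (nat_lit 395) ln12_15_7 ln12_15_7_ok) (L (nat_lit 397) ln12_15_6 ln12_15_6_ok))))) (M (nat_lit 397) (B (L (nat_lit 333) ln13_10_5 ln13_10_5_ok) (L (nat_lit 492) ln12_15_6 ln12_15_6_ok))))))) (B (M (nat_lit 397) (B (M (nat_lit 333) (B (L (nat_lit 301) ln13_9_5 ln13_9_5_ok) (L (nat_lit 460) ln13_10_5 ln13_10_5_ok))) (B (M (nat_lit 460) (B (L (nat_lit 333) ln13_10_5 ln13_10_5_ok) (L (nat_lit 492) ln12_15_6 ln12_15_6_ok))) (M (nat_lit 398) (B (M (nat_lit 399) (B (L (nat_lit 427) ln15_12_1 ln15_12_1_ok) (L (nat_lit 400) ln16_12_1 ln16_12_1_ok))) (M (nat_lit 366) (B (L (nat_lit 334) ln13_14_6 ln13_14_6_ok) (M (nat_lit 367) (B (L (nat_lit 368) ln16_11_1 ln16_11_1_ok) (L (nat_lit 395) ln11_12_2 ln11_12_2_ok)))))))))) (B (M (nat_lit 364) (B (L (nat_lit 332) ln12_10_4 ln12_10_4_ok) (M (nat_lit 397) (B (M (nat_lit 366) (B (L (nat_lit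 334) ln13_14_6 ln13_14_6_ok) (M (nat_lit 367) (B (L (nat_lit 395) ln15_11_1 ln15_11_1_ok) (L (nat_lit 368) ln16_11_1 ln16_11_1_ok))))) (M (nat_lit 363) (B (M (nat_lit 460) (B (L (nat_lit 331) ln12_14_7 ln12_14_7_ok) (L (nat_lit 492) ln12_15_6 ln12_15_6_ok))) (M (nat_lit 362) (B (L (nat_lit 361) ln9_11_0 ln9_11_0_ok) (L (nat_lit 398) ln10_11_0 ln10_11_0_ok))))))))) (B (M (nat_lit 364) (B (L (nat_lit 332) ln12_10_4 ln12_10_4_ok) (M (nat_lit 460) (B (L (nat_lit 333) ln12_14_6 ln12_14_6_ok) (M (nat_lit 492) (B (M (nat_lit 363) (B (L (nat_lit 331) ln12_14_7 ln12_14_7_ok) (L (nat_lit 395) ln12_15_7 ln12_15_7_ok))) (M (nat_lit 491) (B (L (nat_lit 459) ln12_11_5 ln12_11_5_ok) (L (nat_lit 523) ln12_12_5 ln12_12_5_ok))))))))) (M (nat_lit 397) (B (M (nat_lit 332) (B (L (nat_lit 364) ln13_14_7 ln13_14_7_ok) (M (nat_lit 333) (B (L (nat_lit 300) ln13_13_7 ln13_13_7_ok) (L (nat_lit 301) ln13_9_5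 ln13_9_5_ok))))) (B (M (nat_lit 333) (B (L (nat_lit 301) ln13_9_5 ln13_9_5_ok) (M (nat_lit 334) (B (L (nat_lit 302) ln13_13_6 ln13_13_6_ok) (L (nat_lit 366) ln13_14_6 ln13_14_6_ok))))) (B (M (nat_lit 333) (B (M (nat_lit 332) (B (L (nat_lit 300) ln13_13_7 ln13_13_7_ok) (L (nat_lit 364) ln13_14_7 ln13_14_7_ok))) (M (nat_lit 334) (B (L (nat_lit 302) ln13_13_6 ln13_13_6_ok) (L (nat_lit 366) ln13_14_6 ln13_14_6_ok))))) (M (nat_lit 364) (B (L (nat_lit 332) ln13_14_7 ln13_14_7_ok) (M (nat_lit 366) (B (L (nat_lit 334) ln13_14_6 ln13_14_6_ok) (M (nat_lit 367) (B (L (nat_lit 395) ln15_11_1 ln15_11_1_ok) (L (nat_lit 368) ln16_11_1 ln16_11_1_ok))))))))))))))))))))))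
theorem c41_s9474 : Sem (nat_lit 2079502270752001762064242424960807725827516048677469043429686155012882190638009693656033379242457518153052022685796627120027336704) (nat_lit 89506774455500049181192005897877444118588937483642472410449277116800571131881791332420880940636783309116719450577825007714082614734621709657513656320) (nat_lit 89506774455500049181192005897877444118588937483642472410449277116800571131881791332420880940636783309116719450577825007714082614734621709657513656320) :=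
  sem_of_chk (M (nat_lit 397) (B (M (nat_lit 364) (B (M (nat_lit 332) (B (L (nat_lit 300) ln12_9_4 ln12_9_4_ok) (L (nat_lit 461) ln12_10_4 ln12_10_4_ok))) (M (nat_lit 363) (B (M (nat_lit 398) (B (L (nat_lit 399) ln15_12_3 ln15_12_3_ok) (M (nat_lit 362) (B (L (nat_lit 361) ln9_11_0 ln9_11_0_ok) (L (nat_lit 365) ln10_11_0 ln10_11_0_ok))))) (B (M (nat_lit 398) (B (L (nat_lit 399) ln15_12_3 ln15_12_3_ok) (M (nat_lit 362) (B (L (nat_lit 365) ln10_11_0 ln10_11_0_ok) (L (nat_lit 395) ln14_12_3 ln14_12_3_ok))))) (B (M (nat_lit 460) (B (L (nat_lit 331) ln12_14_7 ln12_14_7_ok) (M (nat_lit 492) (B (L (nat_lit 395) ln12_15_7 ln12_15_7_ok) (L (nat_lit 365) ln12_15_6 ln12_15_6_ok))))) (M (nat_lit 398) (B (L (nat_lit 399) ln15_12_3 ln15_12_3_ok) (M (nat_lit 362) (B (L (nat_lit 361) ln9_11_0 ln9_11_0_ok) (L (nat_lit 395) ln14_12_3 ln14_12_3_ok))))))))))) (B (M (nat_lit 364) (B (M (nat_lit 461) (B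 (L (nat_lit 332) ln12_10_4 ln12_10_4_ok) (L (nat_lit 493) ln13_15_7 ln13_15_7_ok))) (M (nat_lit 363) (B (M (nat_lit 398) (B (L (nat_lit 399) ln15_12_3 ln15_12_3_ok) (M (nat_lit 362) (B (L (nat_lit 361) ln9_11_0 ln9_11_0_ok) (L (nat_lit 365) ln10_11_0 ln10_11_0_ok))))) (B (M (nat_lit 398) (B (L (nat_lit 399) ln15_12_3 ln15_12_3_ok) (M (nat_lit 362) (B (L (nat_lit 365) ln10_11_0 ln10_11_0_ok) (L (nat_lit 395) ln14_12_3 ln14_12_3_ok))))) (B (M (nat_lit 460) (B (L (nat_lit 331) ln12_14_7 ln12_14_7_ok) (M (nat_lit 492) (B (L (nat_lit 395) ln12_15_7 ln12_15_7_ok) (L (nat_lit 365) ln12_15_6 ln12_15_6_ok))))) (M (nat_lit 398) (B (L (nat_lit 399) ln15_12_3 ln15_12_3_ok) (M (nat_lit 362) (B (L (nat_lit 361) ln9_11_0 ln9_11_0_ok) (L (nat_lit 395) ln14_12_3 ln14_12_3_ok))))))))))) (B (M (nat_lit 364) (B (M (nat_lit 332) (B (L (nat_lit 300) ln12_9_4 ln12_9_4_ok) (L (nat_lit 461) ln12_10_4 ln12_10_4_ok)))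 (B (M (nat_lit 461) (B (L (nat_lit 332) ln12_10_4 ln12_10_4_ok) (L (nat_lit 493) ln13_15_7 ln13_15_7_ok))) (B (M (nat_lit 365) (B (M (nat_lit 333) (B (L (nat_lit 301) ln13_9_5 ln13_9_5_ok) (L (nat_lit 460) ln12_14_6 ln12_14_6_ok))) (B (M (nat_lit 460) (B (L (nat_lit 333) ln12_14_6 ln12_14_6_ok) (L (nat_lit 492) ln12_15_6 ln12_15_6_ok))) (M (nat_lit 366) (B (M (nat_lit 461) (B (L (nat_lit 334) ln13_14_6 ln13_14_6_ok) (L (nat_lit 493) ln13_15_7 ln13_15_7_ok))) (M (nat_lit 367) (B (L (nat_lit 395) ln15_11_1 ln15_11_1_ok) (L (nat_lit 368) ln16_11_1 ln16_11_1_ok)))))))) (M (nat_lit 430) (B (M (nat_lit 395) (B (L (nat_lit 394) ln10_12_0 ln10_12_0_ok) (L (nat_lit 431) ln15_13_3 ln15_13_3_ok))) (B (M (nat_lit 431) (B (L (nat_lit 395) ln15_13_3 ln15_13_3_ok) (L (nat_lit 432) ln16_13_3 ln16_13_3_ok))) (M (nat_lit 333) (B (M (nat_lit 332) (B (L (nat_lit 300) ln12_9_4 ln12_9_4_ok) (L (nat_lit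 301) ln12_13_6 ln12_13_6_ok))) (B (M (nat_lit 301) (B (L (nat_lit 332) ln12_13_6 ln12_13_6_ok) (L (nat_lit 365) ln13_9_5 ln13_9_5_ok))) (M (nat_lit 365) (B (L (nat_lit 460) ln12_14_6 ln12_14_6_ok) (L (nat_lit 462) ln13_10_4 ln13_10_4_ok))))))))))))) (B (M (nat_lit 398) (B (M (nat_lit 399) (B (L (nat_lit 427) ln15_12_1 ln15_12_1_ok) (L (nat_lit 400) ln16_12_1 ln16_12_1_ok))) (M (nat_lit 365) (B (M (nat_lit 333) (B (L (nat_lit 301) ln13_9_5 ln13_9_5_ok) (L (nat_lit 460) ln13_10_5 ln13_10_5_ok))) (B (M (nat_lit 460) (B (L (nat_lit 333) ln13_10_5 ln13_10_5_ok) (L (nat_lit 492) ln12_15_6 ln12_15_6_ok))) (M (nat_lit 366) (B (M (nat_lit 334) (B (L (nat_lit 302) ln14_9_5 ln14_9_5_ok) (L (nat_lit 461) ln13_14_6 ln13_14_6_ok))) (M (nat_lit 367) (B (L (nat_lit 368) ln16_11_1 ln16_11_1_ok) (L (nat_lit 395) ln11_12_2 ln11_12_2_ok)))))))))) (B (M (nat_lit 364) (B (M (nat_lit 461) (B (L (nat_lit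 332) ln12_10_4 ln12_10_4_ok) (L (nat_lit 493) ln13_15_7 ln13_15_7_ok))) (M (nat_lit 395) (B (M (nat_lit 430) (B (L (nat_lit 394) ln10_12_0 ln10_12_0_ok) (L (nat_lit 431) ln15_13_3 ln15_13_3_ok))) (M (nat_lit 363) (B (M (nat_lit 331) (B (L (nat_lit 299) ln11_9_4 ln11_9_4_ok) (L (nat_lit 460) ln12_14_7 ln12_14_7_ok))) (M (nat_lit 362) (B (L (nat_lit 361) ln9_11_0 ln9_11_0_ok) (L (nat_lit 398) ln14_12_3 ln14_12_3_ok))))))))) (B (M (nat_lit 364) (B (M (nat_lit 332) (B (L (nat_lit 300) ln12_9_4 ln12_9_4_ok) (L (nat_lit 461) ln12_10_4 ln12_10_4_ok))) (B (M (nat_lit 461) (B (L (nat_lit 332) ln12_10_4 ln12_10_4_ok) (L (nat_lit 493) ln13_15_7 ln13_15_7_ok))) (B (M (nat_lit 365) (B (M (nat_lit 333) (B (L (nat_lit 301) ln13_9_5 ln13_9_5_ok) (L (nat_lit 460) ln12_14_6 ln12_14_6_ok))) (B (M (nat_lit 460) (B (L (nat_lit 333) ln12_14_6 ln12_14_6_ok) (L (nat_lit 492) ln12_15_6 ln12_15_6_ok))) (B (M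 (nat_lit 363) (B (M (nat_lit 460) (B (L (nat_lit 331) ln12_14_7 ln12_14_7_ok) (L (nat_lit 492) ln12_15_6 ln12_15_6_ok))) (M (nat_lit 398) (B (L (nat_lit 362) ln10_11_0 ln10_11_0_ok) (L (nat_lit 399) ln15_12_3 ln15_12_3_ok))))) (M (nat_lit 462) (B (M (nat_lit 333) (B (L (nat_lit 301) ln13_9_5 ln13_9_5_ok) (L (nat_lit 430) ln13_10_4 ln13_10_4_ok))) (M (nat_lit 461) (B (L (nat_lit 493) ln13_15_7 ln13_15_7_ok) (L (nat_lit 494) ln13_11_4 ln13_11_4_ok))))))))) (M (nat_lit 460) (B (M (nat_lit 365) (B (L (nat_lit 333) ln12_14_6 ln12_14_6_ok) (L (nat_lit 492) ln12_15_6 ln12_15_6_ok))) (M (nat_lit 332) (B (L (nat_lit 300) ln12_9_4 ln12_9_4_ok) (M (nat_lit 331) (B (L (nat_lit 299) ln12_13_7 ln12_13_7_ok) (L (nat_lit 363) ln12_14_7 ln12_14_7_ok))))))))))) (B (M (nat_lit 430) (B (M (nat_lit 395) (B (L (nat_lit 394) ln10_12_0 ln10_12_0_ok) (L (nat_lit 431) ln15_13_3 ln15_13_3_ok))) (B (M (nat_lit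 431) (B (L (nat_lit 395) ln15_13_3 ln15_13_3_ok) (L (nat_lit 432) ln16_13_3 ln16_13_3_ok))) (B (M (nat_lit 427) (B (M (nat_lit 398) (B (L (nat_lit 399) ln15_12_1 ln15_12_1_ok) (L (nat_lit 426) ln10_13_2 ln10_13_2_ok))) (B (M (nat_lit 461) (B (M (nat_lit 364) (B (L (nat_lit 332) ln12_10_4 ln12_10_4_ok) (L (nat_lit 493) ln13_15_7 ln13_15_7_ok))) (M (nat_lit 426) (B (L (nat_lit 425) ln9_13_2 ln9_13_2_ok) (L (nat_lit 462) ln10_13_0 ln10_13_0_ok))))) (M (nat_lit 399) (B (L (nat_lit 398) ln15_12_1 ln15_12_1_ok) (M (nat_lit 431) (B (L (nat_lit 432) ln16_13_3 ln16_13_3_ok) (L (nat_lit 400) ln12_13_2 ln12_13_2_ok)))))))) (M (nat_lit 398) (B (M (nat_lit 427) (B (L (nat_lit 399) ln15_12_1 ln15_12_1_ok) (L (nat_lit 426) ln10_13_2 ln10_13_2_ok))) (M (nat_lit 366) (B (M (nat_lit 334) (B (L (nat_lit 302) ln14_9_5 ln14_9_5_ok) (L (nat_lit 461) ln14_10_5 ln14_10_5_ok))) (M (nat_lit 395) (B (L (nat_lit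 367) ln11_12_2 ln11_12_2_ok) (L (nat_lit 394) ln10_12_0 ln10_12_0_ok))))))))))) (M (nat_lit 427) (B (M (nat_lit 398) (B (L (nat_lit 399) ln15_12_1 ln15_12_1_ok) (L (nat_lit 426) ln10_13_2 ln10_13_2_ok))) (B (M (nat_lit 365) (B (M (nat_lit 460) (B (L (nat_lit 333) ln13_10_5 ln13_10_5_ok) (L (nat_lit 492) ln12_15_6 ln12_15_6_ok))) (M (nat_lit 394) (B (M (nat_lit 395) (B (L (nat_lit 366) ln10_12_2 ln10_12_2_ok) (L (nat_lit 393) ln9_12_0 ln9_12_0_ok))) (B (M (nat_lit 395) (B (L (nat_lit 393) ln9_12_0 ln9_12_0_ok) (L (nat_lit 430) ln10_12_0 ln10_12_0_ok))) (B (M (nat_lit 395) (B (L (nat_lit 366) ln10_12_2 ln10_12_2_ok) (L (nat_lit 430) ln10_12_0 ln10_12_0_ok))) (M (nat_lit 426) (B (L (nat_lit 393) ln13_13_3 ln13_13_3_ok) (L (nat_lit 425) ln9_13_2 ln9_13_2_ok))))))))) (M (nat_lit 395) (B (M (nat_lit 394) (B (L (nat_lit 393) ln9_12_0 ln9_12_0_ok) (L (nat_lit 430) ln10_12_0 ln10_12_0_ok)))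 (B (M (nat_lit 430) (B (L (nat_lit 394) ln10_12_0 ln10_12_0_ok) (L (nat_lit 431) ln15_13_3 ln15_13_3_ok))) (M (nat_lit 363) (B (M (nat_lit 331) (B (L (nat_lit 299) ln11_9_4 ln11_9_4_ok) (L (nat_lit 460) ln11_10_4 ln11_10_4_ok))) (M (nat_lit 398) (B (L (nat_lit 362) ln14_12_3 ln14_12_3_ok) (L (nat_lit 399) ln15_12_1 ln15_12_1_ok))))))))))))))))))) (nat_lit 2079502270752001762064242424960807725827516048677469043429686155012882190638009693656033379242457518153052022685796627120027336704) (nat_lit 89506774455500049181192005897877444118588937483642472410449277116800571131881791332420880940636783309116719450577825007714082614734621709657513656320) (nat_lit 89506774455500049181192005897877444118588937483642472410449277116800571131881791332420880940636783309116719450577825007714082614734621709657513656320) (by decide +kernel)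
theorem c41_s9563 : Sem (nat_lit 2079502270752001762064242424960807725827516048677469043429686155012882190638009693656033379242457518153052022685796627120027336704) (nat_lit 137295953234578899475527625629483915963264709353716069297889160300727350442167579661099337655943812219000624306775907859487824172781725284212691707621210587136) (nat_lit 137295953234578899475527625629483915963264709353716069297889160300727350442167579661099337655943812219000624306775907859487824172781725284212691707621210587136) :=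
  sem_of_chk (M (nat_lit 461) (B (M (nat_lit 493) (B (L (nat_lit 525) ln13_16_7 ln13_16_7_ok) (M (nat_lit 364) (B (L (nat_lit 332) ln12_10_4 ln12_10_4_ok) (L (nat_lit 397) ln13_15_7 ln13_15_7_ok))))) (B (M (nat_lit 493) (B (L (nat_lit 525) ln13_16_7 ln13_16_7_ok) (M (nat_lit 397) (B (L (nat_lit 364) ln13_15_7 ln13_15_7_ok) (M (nat_lit 398) (B (L (nat_lit 366) ln13_15_6 ln13_15_6_ok) (M (nat_lit 399) (B (L (nat_lit 427) ln15_12_1 ln15_12_1_ok) (L (nat_lit 400) ln16_12_1 ln16_12_1_ok))))))))) (B (M (nat_lit 430) (B (M (nat_lit 395) (B (L (nat_lit 431) ln15_13_3 ln15_13_3_ok) (M (nat_lit 394) (B (L (nat_lit 393) ln9_12_0 ln9_12_0_ok) (L (nat_lit 427) ln14_13_3 ln14_13_3_ok))))) (B (M (nat_lit 395) (B (L (nat_lit 431) ln15_13_3 ln15_13_3_ok) (M (nat_lit 394) (B (L (nat_lit 397) ln10_12_0 ln10_12_0_ok) (L (nat_lit 427) ln14_13_3 ln14_13_3_ok))))) (B (M (nat_lit 398) (B (M (nat_lit 427)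 (B (L (nat_lit 399) ln11_13_2 ln11_13_2_ok) (M (nat_lit 426) (B (L (nat_lit 397) ln10_13_2 ln10_13_2_ok) (L (nat_lit 462) ln10_13_0 ln10_13_0_ok))))) (B (M (nat_lit 493) (B (L (nat_lit 525) ln13_16_7 ln13_16_7_ok) (M (nat_lit 366) (B (L (nat_lit 334) ln14_10_5 ln14_10_5_ok) (L (nat_lit 462) ln14_11_5 ln14_11_5_ok))))) (M (nat_lit 493) (B (L (nat_lit 525) ln13_16_7 ln13_16_7_ok) (M (nat_lit 366) (B (L (nat_lit 334) ln14_10_5 ln14_10_5_ok) (L (nat_lit 397) ln13_15_6 ln13_15_6_ok)))))))) (M (nat_lit 395) (B (L (nat_lit 431) ln15_13_3 ln15_13_3_ok) (M (nat_lit 394) (B (L (nat_lit 393) ln9_12_0 ln9_12_0_ok) (L (nat_lit 397) ln10_12_0 ln10_12_0_ok))))))))) (B (M (nat_lit 427) (B (M (nat_lit 426) (B (L (nat_lit 462) ln10_13_0 ln10_13_0_ok) (M (nat_lit 394) (B (L (nat_lit 393) ln13_13_3 ln13_13_3_ok) (M (nat_lit 430) (B (L (nat_lit 395) ln14_13_3 ln14_13_3_ok) (M (nat_lit 458) (B (L (nat_lit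 457) ln13_13_1 ln13_13_1_ok) (L (nat_lit 459) ln14_13_1 ln14_13_1_ok))))))))) (B (M (nat_lit 430) (B (M (nat_lit 395) (B (L (nat_lit 394) ln14_13_3 ln14_13_3_ok) (L (nat_lit 431) ln15_13_3 ln15_13_3_ok))) (M (nat_lit 426) (B (L (nat_lit 462) ln10_13_0 ln10_13_0_ok) (M (nat_lit 458) (B (L (nat_lit 457) ln13_13_1 ln13_13_1_ok) (L (nat_lit 459) ln14_13_1 ln14_13_1_ok))))))) (B (M (nat_lit 430) (B (M (nat_lit 426) (B (L (nat_lit 462) ln10_13_0 ln10_13_0_ok) (M (nat_lit 458) (B (L (nat_lit 457) ln13_13_1 ln13_13_1_ok) (L (nat_lit 459) ln14_13_1 ln14_13_1_ok))))) (M (nat_lit 431) (B (L (nat_lit 395) ln15_13_3 ln15_13_3_ok) (M (nat_lit 399) (B (L (nat_lit 398) ln11_13_2 ln11_13_2_ok) (L (nat_lit 400) ln12_13_2 ln12_13_2_ok))))))) (B (M (nat_lit 426) (B (L (nat_lit 462) ln10_13_0 ln10_13_0_ok) (M (nat_lit 425) (B (M (nat_lit 393) (B (L (nat_lit 392) ln12_13_3 ln12_13_3_ok) (L (nat_lit 394)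 ln13_13_3 ln13_13_3_ok))) (M (nat_lit 457) (B (L (nat_lit 456) ln12_13_1 ln12_13_1_ok) (L (nat_lit 458) ln13_13_1 ln13_13_1_ok))))))) (B (M (nat_lit 430) (B (M (nat_lit 395) (B (L (nat_lit 394) ln14_13_3 ln14_13_3_ok) (L (nat_lit 431) ln15_13_3 ln15_13_3_ok))) (M (nat_lit 398) (B (L (nat_lit 399) ln11_13_2 ln11_13_2_ok) (M (nat_lit 493) (B (L (nat_lit 525) ln13_16_7 ln13_16_7_ok) (M (nat_lit 366) (B (L (nat_lit 334) ln14_10_5 ln14_10_5_ok) (L (nat_lit 462) ln14_11_5 ln14_11_5_ok))))))))) (M (nat_lit 459) (B (M (nat_lit 364) (B (L (nat_lit 332) ln12_10_5 ln12_10_5_ok) (M (nat_lit 491) (B (L (nat_lit 395) ln11_15_6 ln11_15_6_ok) (L (nat_lit 523) ln11_16_6 ln11_16_6_ok))))) (B (M (nat_lit 430) (B (L (nat_lit 458) ln14_13_1 ln14_13_1_ok) (M (nat_lit 395) (B (L (nat_lit 394) ln14_13_3 ln14_13_3_ok) (L (nat_lit 431) ln15_13_3 ln15_13_3_ok))))) (M (nat_lit 458) (B (L (nat_lit 430) ln14_13_1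 ln14_13_1_ok) (M (nat_lit 457) (B (L (nat_lit 426) ln13_13_1 ln13_13_1_ok) (L (nat_lit 456) ln8_14_2 ln8_14_2_ok)))))))))))))) (M (nat_lit 395) (B (M (nat_lit 430) (B (L (nat_lit 431) ln15_13_3 ln15_13_3_ok) (M (nat_lit 394) (B (L (nat_lit 393) ln9_12_0 ln9_12_0_ok) (L (nat_lit 427) ln14_13_3 ln14_13_3_ok))))) (B (M (nat_lit 430) (B (L (nat_lit 431) ln15_13_3 ln15_13_3_ok) (M (nat_lit 394) (B (L (nat_lit 397) ln10_12_0 ln10_12_0_ok) (L (nat_lit 427) ln14_13_3 ln14_13_3_ok))))) (B (M (nat_lit 427) (B (M (nat_lit 426) (B (L (nat_lit 462) ln10_13_0 ln10_13_0_ok) (M (nat_lit 397) (B (L (nat_lit 398) ln14_12_1 ln14_12_1_ok) (L (nat_lit 425) ln9_13_2 ln9_13_2_ok))))) (M (nat_lit 459) (B (M (nat_lit 364) (B (L (nat_lit 332) ln12_10_5 ln12_10_5_ok) (L (nat_lit 491) ln11_15_6 ln11_15_6_ok))) (M (nat_lit 430) (B (L (nat_lit 431) ln15_13_3 ln15_13_3_ok) (L (nat_lit 458) ln14_13_1 ln14_13_1_ok)))))))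 (B (M (nat_lit 430) (B (L (nat_lit 431) ln15_13_3 ln15_13_3_ok) (M (nat_lit 394) (B (L (nat_lit 393) ln9_12_0 ln9_12_0_ok) (L (nat_lit 397) ln10_12_0 ln10_12_0_ok))))) (M (nat_lit 397) (B (M (nat_lit 426) (B (M (nat_lit 394) (B (L (nat_lit 393) ln9_12_0 ln9_12_0_ok) (L (nat_lit 425) ln13_12_1 ln13_12_1_ok))) (M (nat_lit 427) (B (L (nat_lit 398) ln14_12_1 ln14_12_1_ok) (L (nat_lit 462) ln10_13_0 ln10_13_0_ok))))) (B (M (nat_lit 365) (B (M (nat_lit 366) (B (L (nat_lit 334) ln13_14_6 ln13_14_6_ok) (L (nat_lit 394) ln10_12_2 ln10_12_2_ok))) (M (nat_lit 332) (B (L (nat_lit 364) ln13_14_7 ln13_14_7_ok) (M (nat_lit 333) (B (L (nat_lit 300) ln13_13_7 ln13_13_7_ok) (L (nat_lit 301) ln13_9_5 ln13_9_5_ok))))))) (M (nat_lit 398) (B (M (nat_lit 427) (B (L (nat_lit 426) ln14_12_1 ln14_12_1_ok) (L (nat_lit 399) ln15_12_1 ln15_12_1_ok))) (M (nat_lit 366) (B (L (nat_lit 367) ln11_12_2 ln11_12_2_ok)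 (M (nat_lit 334) (B (L (nat_lit 302) ln14_9_5 ln14_9_5_ok) (L (nat_lit 365) ln13_14_6 ln13_14_6_ok)))))))))))))))))))) (nat_lit 2079502270752001762064242424960807725827516048677469043429686155012882190638009693656033379242457518153052022685796627120027336704) (nat_lit 137295953234578899475527625629483915963264709353716069297889160300727350442167579661099337655943812219000624306775907859487824172781725284212691707621210587136) (nat_lit 137295953234578899475527625629483915963264709353716069297889160300727350442167579661099337655943812219000624306775907859487824172781725284212691707621210587136) (by decide +kernel)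
theorem c41_s9564 : Sem (nat_lit 1386334847221798047169638878925036799968406779833514899637066259859226863686603287896039777716422623628704219945445734162783797248) (nat_lit 117936326187561026961285279044135712759130519051058561647242385771737254416057121677010849596905993671956438681028570968939601481226873850651174804573230645152244039680) (nat_lit 117936326187561026961285279044135712759130519051058561647242385771737254416057121677010849596905993671956438681028570968939601481226873850651174804573230645152244039680) :=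
  sem_of_chk (M (nat_lit 428) (B (M (nat_lit 430) (B (M (nat_lit 395) (B (L (nat_lit 431) ln15_13_3 ln15_13_3_ok) (M (nat_lit 394) (B (L (nat_lit 393) ln9_12_0 ln9_12_0_ok) (L (nat_lit 397) ln10_12_0 ln10_12_0_ok))))) (B (M (nat_lit 395) (B (L (nat_lit 431) ln15_13_3 ln15_13_3_ok) (M (nat_lit 394) (B (L (nat_lit 397) ln10_12_0 ln10_12_0_ok) (L (nat_lit 427) ln14_13_3 ln14_13_3_ok))))) (B (M (nat_lit 431) (B (L (nat_lit 395) ln15_13_3 ln15_13_3_ok) (M (nat_lit 400) (B (L (nat_lit 399) ln12_13_2 ln12_13_2_ok) (M (nat_lit 432) (B (L (nat_lit 397) ln16_13_3 ln16_13_3_ok) (L (nat_lit 401) ln13_13_2 ln13_13_2_ok))))))) (B (M (nat_lit 431) (B (M (nat_lit 460) (B (L (nat_lit 459) ln15_13_1 ln15_13_1_ok) (M (nat_lit 432) (B (L (nat_lit 397) ln16_13_3 ln16_13_3_ok) (L (nat_lit 461) ln16_13_1 ln16_13_1_ok))))) (B (M (nat_lit 427) (B (M (nat_lit 399) (B (L (nat_lit 398) ln11_13_2 ln11_13_2_ok)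 (L (nat_lit 400) ln12_13_2 ln12_13_2_ok))) (M (nat_lit 459) (B (L (nat_lit 458) ln14_13_1 ln14_13_1_ok) (L (nat_lit 460) ln15_13_1 ln15_13_1_ok))))) (M (nat_lit 400) (B (L (nat_lit 399) ln12_13_2 ln12_13_2_ok) (M (nat_lit 432) (B (L (nat_lit 397) ln16_13_3 ln16_13_3_ok) (L (nat_lit 401) ln13_13_2 ln13_13_2_ok)))))))) (B (M (nat_lit 395) (B (L (nat_lit 431) ln15_13_3 ln15_13_3_ok) (M (nat_lit 394) (B (L (nat_lit 393) ln9_12_0 ln9_12_0_ok) (L (nat_lit 427) ln14_13_3 ln14_13_3_ok))))) (M (nat_lit 427) (B (M (nat_lit 395) (B (L (nat_lit 394) ln14_13_3 ln14_13_3_ok) (M (nat_lit 459) (B (L (nat_lit 458) ln14_13_1 ln14_13_1_ok) (M (nat_lit 491) (B (L (nat_lit 364) ln11_15_6 ln11_15_6_ok) (L (nat_lit 523) ln11_16_6 ln11_16_6_ok))))))) (B (M (nat_lit 426) (B (M (nat_lit 394) (B (L (nat_lit 393) ln13_13_3 ln13_13_3_ok) (L (nat_lit 395) ln14_13_3 ln14_13_3_ok))) (M (nat_lit 398) (B (L (nat_lit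 397) ln10_13_2 ln10_13_2_ok) (L (nat_lit 399) ln11_13_2 ln11_13_2_ok))))) (M (nat_lit 426) (B (M (nat_lit 398) (B (L (nat_lit 397) ln10_13_2 ln10_13_2_ok) (L (nat_lit 399) ln11_13_2 ln11_13_2_ok))) (M (nat_lit 458) (B (L (nat_lit 457) ln13_13_1 ln13_13_1_ok) (L (nat_lit 459) ln14_13_1 ln14_13_1_ok)))))))))))))) (B (M (nat_lit 430) (B (M (nat_lit 395) (B (L (nat_lit 431) ln15_13_3 ln15_13_3_ok) (M (nat_lit 394) (B (L (nat_lit 397) ln10_12_0 ln10_12_0_ok) (L (nat_lit 427) ln14_13_3 ln14_13_3_ok))))) (B (M (nat_lit 431) (B (L (nat_lit 395) ln15_13_3 ln15_13_3_ok) (M (nat_lit 400) (B (L (nat_lit 399) ln12_13_2 ln12_13_2_ok) (M (nat_lit 432) (B (L (nat_lit 397) ln16_13_3 ln16_13_3_ok) (L (nat_lit 401) ln13_13_2 ln13_13_2_ok))))))) (B (M (nat_lit 431) (B (M (nat_lit 460) (B (L (nat_lit 459) ln15_13_1 ln15_13_1_ok) (M (nat_lit 432) (B (L (nat_lit 397) ln16_13_3 ln16_13_3_ok) (L (nat_lit 461)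 ln16_13_1 ln16_13_1_ok))))) (B (M (nat_lit 427) (B (M (nat_lit 399) (B (L (nat_lit 398) ln11_13_2 ln11_13_2_ok) (L (nat_lit 400) ln12_13_2 ln12_13_2_ok))) (M (nat_lit 459) (B (L (nat_lit 458) ln14_13_1 ln14_13_1_ok) (L (nat_lit 460) ln15_13_1 ln15_13_1_ok))))) (M (nat_lit 400) (B (L (nat_lit 399) ln12_13_2 ln12_13_2_ok) (M (nat_lit 432) (B (L (nat_lit 397) ln16_13_3 ln16_13_3_ok) (L (nat_lit 401) ln13_13_2 ln13_13_2_ok)))))))) (B (M (nat_lit 395) (B (L (nat_lit 431) ln15_13_3 ln15_13_3_ok) (M (nat_lit 394) (B (L (nat_lit 393) ln9_12_0 ln9_12_0_ok) (L (nat_lit 427) ln14_13_3 ln14_13_3_ok))))) (M (nat_lit 395) (B (M (nat_lit 394) (B (L (nat_lit 393) ln9_12_0 ln9_12_0_ok) (L (nat_lit 397) ln10_12_0 ln10_12_0_ok))) (B (M (nat_lit 394) (B (L (nat_lit 397) ln10_12_0 ln10_12_0_ok) (L (nat_lit 427) ln14_13_3 ln14_13_3_ok))) (B (M (nat_lit 427) (B (M (nat_lit 398) (B (L (nat_lit 399) ln11_13_2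 ln11_13_2_ok) (M (nat_lit 426) (B (L (nat_lit 397) ln14_12_1 ln14_12_1_ok) (M (nat_lit 458) (B (L (nat_lit 457) ln13_13_1 ln13_13_1_ok) (L (nat_lit 459) ln14_13_1 ln14_13_1_ok))))))) (B (M (nat_lit 460) (B (M (nat_lit 492) (B (L (nat_lit 363) ln12_15_7 ln12_15_7_ok) (L (nat_lit 524) ln12_16_7 ln12_16_7_ok))) (M (nat_lit 426) (B (M (nat_lit 425) (B (L (nat_lit 424) ln8_13_2 ln8_13_2_ok) (L (nat_lit 461) ln9_13_0 ln9_13_0_ok))) (M (nat_lit 458) (B (L (nat_lit 457) ln13_13_1 ln13_13_1_ok) (L (nat_lit 459) ln14_13_1 ln14_13_1_ok))))))) (B (M (nat_lit 363) (B (M (nat_lit 460) (B (L (nat_lit 331) ln11_10_4 ln11_10_4_ok) (L (nat_lit 492) ln12_15_7 ln12_15_7_ok))) (M (nat_lit 362) (B (M (nat_lit 459) (B (L (nat_lit 330) ln11_14_7 ln11_14_7_ok) (L (nat_lit 458) ln14_13_1 ln14_13_1_ok))) (M (nat_lit 398) (B (L (nat_lit 397) ln14_12_3 ln14_12_3_ok) (L (nat_lit 399) ln11_13_2 ln11_13_2_ok)))))))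 (M (nat_lit 398) (B (L (nat_lit 399) ln11_13_2 ln11_13_2_ok) (M (nat_lit 363) (B (M (nat_lit 331) (B (L (nat_lit 299) ln11_9_4 ln11_9_4_ok) (L (nat_lit 460) ln11_10_4 ln11_10_4_ok))) (M (nat_lit 397) (B (L (nat_lit 362) ln14_12_3 ln14_12_3_ok) (L (nat_lit 426) ln14_12_1 ln14_12_1_ok))))))))))) (M (nat_lit 394) (B (L (nat_lit 393) ln9_12_0 ln9_12_0_ok) (L (nat_lit 427) ln14_13_3 ln14_13_3_ok)))))))))))) (B (M (nat_lit 459) (B (M (nat_lit 364) (B (M (nat_lit 332) (B (L (nat_lit 427) ln12_10_5 ln12_10_5_ok) (L (nat_lit 461) ln12_10_4 ln12_10_4_ok))) (B (M (nat_lit 491) (B (L (nat_lit 460) ln12_11_5 ln12_11_5_ok) (M (nat_lit 427) (B (L (nat_lit 395) ln11_15_6 ln11_15_6_ok) (L (nat_lit 523) ln11_16_6 ln11_16_6_ok))))) (M (nat_lit 461) (B (L (nat_lit 332) ln12_10_4 ln12_10_4_ok) (M (nat_lit 460) (B (L (nat_lit 491) ln12_11_5 ln12_11_5_ok) (L (nat_lit 493) ln12_11_4 ln12_11_4_ok)))))))) (B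 (M (nat_lit 430) (B (M (nat_lit 431) (B (L (nat_lit 395) ln15_13_3 ln15_13_3_ok) (L (nat_lit 460) ln15_13_1 ln15_13_1_ok))) (B (M (nat_lit 458) (B (L (nat_lit 427) ln14_13_1 ln14_13_1_ok) (M (nat_lit 460) (B (L (nat_lit 457) ln9_14_2 ln9_14_2_ok) (L (nat_lit 461) ln10_14_2 ln10_14_2_ok))))) (M (nat_lit 427) (B (L (nat_lit 458) ln14_13_1 ln14_13_1_ok) (M (nat_lit 395) (B (L (nat_lit 394) ln14_13_3 ln14_13_3_ok) (L (nat_lit 431) ln15_13_3 ln15_13_3_ok)))))))) (B (M (nat_lit 427) (B (M (nat_lit 364) (B (L (nat_lit 332) ln12_10_5 ln12_10_5_ok) (M (nat_lit 491) (B (L (nat_lit 460) ln12_11_5 ln12_11_5_ok) (L (nat_lit 523) ln11_16_6 ln11_16_6_ok))))) (M (nat_lit 458) (B (L (nat_lit 430) ln14_13_1 ln14_13_1_ok) (M (nat_lit 457) (B (L (nat_lit 426) ln13_13_1 ln13_13_1_ok) (L (nat_lit 456) ln8_14_2 ln8_14_2_ok))))))) (B (M (nat_lit 460) (B (M (nat_lit 430) (B (L (nat_lit 431) ln15_13_1 ln15_13_1_ok)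 (M (nat_lit 458) (B (L (nat_lit 457) ln9_14_2 ln9_14_2_ok) (L (nat_lit 461) ln10_14_2 ln10_14_2_ok))))) (B (M (nat_lit 364) (B (L (nat_lit 491) ln12_11_5 ln12_11_5_ok) (M (nat_lit 461) (B (L (nat_lit 332) ln12_10_4 ln12_10_4_ok) (L (nat_lit 493) ln12_11_4 ln12_11_4_ok))))) (M (nat_lit 491) (B (L (nat_lit 364) ln12_11_5 ln12_11_5_ok) (M (nat_lit 523) (B (L (nat_lit 492) ln12_12_5 ln12_12_5_ok) (L (nat_lit 555) ln11_17_6 ln11_17_6_ok)))))))) (M (nat_lit 427) (B (M (nat_lit 458) (B (L (nat_lit 430) ln14_13_1 ln14_13_1_ok) (M (nat_lit 457) (B (L (nat_lit 426) ln13_13_1 ln13_13_1_ok) (L (nat_lit 456) ln8_14_2 ln8_14_2_ok))))) (M (nat_lit 364) (B (L (nat_lit 332) ln12_10_5 ln12_10_5_ok) (M (nat_lit 491) (B (L (nat_lit 395) ln11_15_6 ln11_15_6_ok) (L (nat_lit 523) ln11_16_6 ln11_16_6_ok)))))))))))) (B (M (nat_lit 459) (B (M (nat_lit 460) (B (M (nat_lit 364) (B (L (nat_lit 491) ln12_11_5 ln12_11_5_ok)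 (M (nat_lit 332) (B (L (nat_lit 427) ln12_10_5 ln12_10_5_ok) (L (nat_lit 461) ln12_10_4 ln12_10_4_ok))))) (B (M (nat_lit 430) (B (L (nat_lit 431) ln15_13_1 ln15_13_1_ok) (M (nat_lit 458) (B (L (nat_lit 427) ln14_13_1 ln14_13_1_ok) (L (nat_lit 457) ln9_14_2 ln9_14_2_ok))))) (M (nat_lit 430) (B (L (nat_lit 431) ln15_13_1 ln15_13_1_ok) (M (nat_lit 458) (B (L (nat_lit 457) ln9_14_2 ln9_14_2_ok) (L (nat_lit 461) ln10_14_2 ln10_14_2_ok)))))))) (B (M (nat_lit 430) (B (M (nat_lit 431) (B (L (nat_lit 395) ln15_13_3 ln15_13_3_ok) (L (nat_lit 460) ln15_13_1 ln15_13_1_ok))) (B (M (nat_lit 458) (B (L (nat_lit 427) ln14_13_1 ln14_13_1_ok) (M (nat_lit 460) (B (L (nat_lit 457) ln9_14_2 ln9_14_2_ok) (L (nat_lit 461) ln10_14_2 ln10_14_2_ok))))) (M (nat_lit 399) (B (M (nat_lit 427) (B (L (nat_lit 398) ln11_13_2 ln11_13_2_ok) (L (nat_lit 458) ln14_13_1 ln14_13_1_ok))) (M (nat_lit 431) (B (L (nat_lit 395)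 ln15_13_3 ln15_13_3_ok) (L (nat_lit 400) ln12_13_2 ln12_13_2_ok)))))))) (B (M (nat_lit 460) (B (M (nat_lit 364) (B (L (nat_lit 491) ln12_11_5 ln12_11_5_ok) (M (nat_lit 461) (B (L (nat_lit 332) ln12_10_4 ln12_10_4_ok) (L (nat_lit 493) ln12_11_4 ln12_11_4_ok))))) (B (M (nat_lit 430) (B (L (nat_lit 431) ln15_13_1 ln15_13_1_ok) (M (nat_lit 458) (B (L (nat_lit 457) ln9_14_2 ln9_14_2_ok) (L (nat_lit 461) ln10_14_2 ln10_14_2_ok))))) (M (nat_lit 492) (B (M (nat_lit 491) (B (L (nat_lit 364) ln12_11_5 ln12_11_5_ok) (L (nat_lit 523) ln12_12_5 ln12_12_5_ok))) (M (nat_lit 397) (B (L (nat_lit 365) ln12_15_6 ln12_15_6_ok) (L (nat_lit 524) ln12_16_6 ln12_16_6_ok)))))))) (B (M (nat_lit 364) (B (M (nat_lit 332) (B (L (nat_lit 427) ln12_10_5 ln12_10_5_ok) (L (nat_lit 461) ln12_10_4 ln12_10_4_ok))) (B (M (nat_lit 491) (B (L (nat_lit 460) ln12_11_5 ln12_11_5_ok) (M (nat_lit 427) (B (L (nat_lit 395) ln11_15_6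 ln11_15_6_ok) (L (nat_lit 523) ln11_16_6 ln11_16_6_ok))))) (M (nat_lit 461) (B (L (nat_lit 332) ln12_10_4 ln12_10_4_ok) (M (nat_lit 460) (B (L (nat_lit 491) ln12_11_5 ln12_11_5_ok) (L (nat_lit 493) ln12_11_4 ln12_11_4_ok)))))))) (M (nat_lit 427) (B (M (nat_lit 458) (B (L (nat_lit 430) ln14_13_1 ln14_13_1_ok) (M (nat_lit 457) (B (L (nat_lit 426) ln13_13_1 ln13_13_1_ok) (L (nat_lit 456) ln8_14_2 ln8_14_2_ok))))) (M (nat_lit 364) (B (L (nat_lit 332) ln12_10_5 ln12_10_5_ok) (M (nat_lit 491) (B (L (nat_lit 395) ln11_15_6 ln11_15_6_ok) (L (nat_lit 523) ln11_16_6 ln11_16_6_ok)))))))))))) (B (M (nat_lit 364) (B (M (nat_lit 461) (B (L (nat_lit 332) ln12_10_4 ln12_10_4_ok) (M (nat_lit 493) (B (L (nat_lit 397) ln13_15_7 ln13_15_7_ok) (L (nat_lit 525) ln13_16_7 ln13_16_7_ok))))) (B (M (nat_lit 460) (B (M (nat_lit 365) (B (L (nat_lit 333) ln12_14_6 ln12_14_6_ok) (M (nat_lit 492) (B (L (nat_lit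 397) ln12_15_6 ln12_15_6_ok) (M (nat_lit 491) (B (L (nat_lit 459) ln12_11_5 ln12_11_5_ok) (L (nat_lit 523) ln12_12_5 ln12_12_5_ok))))))) (B (M (nat_lit 492) (B (M (nat_lit 491) (B (L (nat_lit 459) ln12_11_5 ln12_11_5_ok) (L (nat_lit 523) ln12_12_5 ln12_12_5_ok))) (M (nat_lit 493) (B (L (nat_lit 461) ln12_11_4 ln12_11_4_ok) (L (nat_lit 525) ln12_12_4 ln12_12_4_ok))))) (B (M (nat_lit 492) (B (M (nat_lit 365) (B (L (nat_lit 333) ln12_14_6 ln12_14_6_ok) (L (nat_lit 397) ln12_15_6 ln12_15_6_ok))) (M (nat_lit 493) (B (L (nat_lit 461) ln12_11_4 ln12_11_4_ok) (L (nat_lit 525) ln12_12_4 ln12_12_4_ok))))) (M (nat_lit 461) (B (L (nat_lit 493) ln12_11_4 ln12_11_4_ok) (M (nat_lit 459) (B (L (nat_lit 491) ln12_11_5 ln12_11_5_ok) (M (nat_lit 430) (B (L (nat_lit 431) ln15_13_1 ln15_13_1_ok) (L (nat_lit 458) ln10_14_2 ln10_14_2_ok))))))))))) (B (M (nat_lit 461) (B (L (nat_lit 332) ln12_10_4 ln12_10_4_ok)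 (M (nat_lit 493) (B (L (nat_lit 460) ln12_11_4 ln12_11_4_ok) (L (nat_lit 525) ln13_16_7 ln13_16_7_ok))))) (M (nat_lit 332) (B (M (nat_lit 300) (B (L (nat_lit 397) ln12_9_4 ln12_9_4_ok) (M (nat_lit 299) (B (L (nat_lit 267) ln12_12_7 ln12_12_7_ok) (L (nat_lit 331) ln12_13_7 ln12_13_7_ok))))) (B (M (nat_lit 300) (B (L (nat_lit 397) ln12_9_4 ln12_9_4_ok) (M (nat_lit 301) (B (L (nat_lit 269) ln12_12_6 ln12_12_6_ok) (L (nat_lit 333) ln12_13_6 ln12_13_6_ok))))) (M (nat_lit 460) (B (M (nat_lit 331) (B (L (nat_lit 299) ln12_13_7 ln12_13_7_ok) (L (nat_lit 363) ln12_14_7 ln12_14_7_ok))) (M (nat_lit 333) (B (L (nat_lit 301) ln12_13_6 ln12_13_6_ok) (L (nat_lit 365) ln12_14_6 ln12_14_6_ok)))))))))))) (B c41_n9442 (B (K (nat_lit 2079502270752001762064242424960807725827516048677469043429686155012882190638009693656033379242457518153052022685796627120027336704) (nat_lit 89506774455500049181192005897877444118588937483642472410449277116800571131881791332420880940636783309116719450577825007714082614734621709657513656320)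 (nat_lit 89506774455500049181192005897877444118588937483642472410449277116800571131881791332420880940636783309116719450577825007714082614734621709657513656320) c41_s9474) (B (K (nat_lit 2079502270752001762064242424960807725827516048677469043429686155012882190638009693656033379242457518153052022685796627120027336704) (nat_lit 137295953234578899475527625629483915963264709353716069297889160300727350442167579661099337655943812219000624306775907859487824172781725284212691707621210587136) (nat_lit 137295953234578899475527625629483915963264709353716069297889160300727350442167579661099337655943812219000624306775907859487824172781725284212691707621210587136) c41_s9563) (M (nat_lit 430) (B (M (nat_lit 395) (B (L (nat_lit 431) ln15_13_3 ln15_13_3_ok) (M (nat_lit 394) (B (L (nat_lit 397) ln10_12_0 ln10_12_0_ok) (L (nat_lit 427) ln14_13_3 ln14_13_3_ok))))) (B (M (nat_lit 431) (B (L (nat_lit 395)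 ln15_13_3 ln15_13_3_ok) (M (nat_lit 400) (B (L (nat_lit 399) ln12_13_2 ln12_13_2_ok) (M (nat_lit 432) (B (L (nat_lit 397) ln16_13_3 ln16_13_3_ok) (L (nat_lit 401) ln13_13_2 ln13_13_2_ok))))))) (B (M (nat_lit 427) (B (M (nat_lit 426) (B (M (nat_lit 398) (B (L (nat_lit 397) ln10_13_2 ln10_13_2_ok) (L (nat_lit 399) ln11_13_2 ln11_13_2_ok))) (M (nat_lit 458) (B (L (nat_lit 457) ln13_13_1 ln13_13_1_ok) (L (nat_lit 459) ln14_13_1 ln14_13_1_ok))))) (B (M (nat_lit 431) (B (M (nat_lit 399) (B (L (nat_lit 398) ln11_13_2 ln11_13_2_ok) (L (nat_lit 400) ln12_13_2 ln12_13_2_ok))) (M (nat_lit 459) (B (L (nat_lit 458) ln14_13_1 ln14_13_1_ok) (L (nat_lit 460) ln15_13_1 ln15_13_1_ok))))) (B (M (nat_lit 459) (B (L (nat_lit 458) ln14_13_1 ln14_13_1_ok) (M (nat_lit 460) (B (L (nat_lit 431) ln15_13_1 ln15_13_1_ok) (M (nat_lit 364) (B (L (nat_lit 332) ln12_10_5 ln12_10_5_ok) (L (nat_lit 491) ln12_11_5 ln12_11_5_ok)))))))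 (M (nat_lit 431) (B (M (nat_lit 399) (B (L (nat_lit 398) ln11_13_2 ln11_13_2_ok) (L (nat_lit 400) ln12_13_2 ln12_13_2_ok))) (B (M (nat_lit 400) (B (L (nat_lit 399) ln12_13_2 ln12_13_2_ok) (M (nat_lit 432) (B (L (nat_lit 397) ln16_13_3 ln16_13_3_ok) (L (nat_lit 401) ln13_13_2 ln13_13_2_ok))))) (M (nat_lit 397) (B (L (nat_lit 432) ln16_13_3 ln16_13_3_ok) (M (nat_lit 426) (B (L (nat_lit 425) ln9_13_2 ln9_13_2_ok) (L (nat_lit 398) ln10_13_2 ln10_13_2_ok)))))))))))) (B (M (nat_lit 395) (B (L (nat_lit 431) ln15_13_3 ln15_13_3_ok) (M (nat_lit 394) (B (L (nat_lit 393) ln9_12_0 ln9_12_0_ok) (L (nat_lit 427) ln14_13_3 ln14_13_3_ok))))) (M (nat_lit 427) (B (M (nat_lit 395) (B (L (nat_lit 394) ln14_13_3 ln14_13_3_ok) (M (nat_lit 459) (B (L (nat_lit 458) ln14_13_1 ln14_13_1_ok) (M (nat_lit 491) (B (L (nat_lit 364) ln11_15_6 ln11_15_6_ok) (L (nat_lit 523) ln11_16_6 ln11_16_6_ok))))))) (B (M (nat_lit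 426) (B (M (nat_lit 394) (B (L (nat_lit 393) ln13_13_3 ln13_13_3_ok) (L (nat_lit 395) ln14_13_3 ln14_13_3_ok))) (M (nat_lit 398) (B (L (nat_lit 397) ln10_13_2 ln10_13_2_ok) (L (nat_lit 399) ln11_13_2 ln11_13_2_ok))))) (B (M (nat_lit 459) (B (L (nat_lit 458) ln14_13_1 ln14_13_1_ok) (M (nat_lit 364) (B (L (nat_lit 332) ln12_10_5 ln12_10_5_ok) (M (nat_lit 491) (B (L (nat_lit 395) ln11_15_6 ln11_15_6_ok) (L (nat_lit 523) ln11_16_6 ln11_16_6_ok))))))) (M (nat_lit 459) (B (L (nat_lit 458) ln14_13_1 ln14_13_1_ok) (M (nat_lit 364) (B (L (nat_lit 332) ln12_10_5 ln12_10_5_ok) (M (nat_lit 491) (B (L (nat_lit 460) ln12_11_5 ln12_11_5_ok) (L (nat_lit 523) ln11_16_6 ln11_16_6_ok))))))))))))))))))))))))) (nat_lit 1386334847221798047169638878925036799968406779833514899637066259859226863686603287896039777716422623628704219945445734162783797248) (nat_lit 117936326187561026961285279044135712759130519051058561647242385771737254416057121677010849596905993671956438681028570968939601481226873850651174804573230645152244039680)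 (nat_lit 117936326187561026961285279044135712759130519051058561647242385771737254416057121677010849596905993671956438681028570968939601481226873850651174804573230645152244039680) (by decide +kernel)
noncomputable def c41_n9622 : Cert := (M (nat_lit 461) (B (M (nat_lit 493) (B (L (nat_lit 525) ln13_16_7 ln13_16_7_ok) (M (nat_lit 364) (B (L (nat_lit 332) ln12_10_4 ln12_10_4_ok) (L (nat_lit 460) ln12_11_4 ln12_11_4_ok))))) (B (M (nat_lit 493) (B (L (nat_lit 525) ln13_16_7 ln13_16_7_ok) (M (nat_lit 364) (B (L (nat_lit 397) ln13_15_7 ln13_15_7_ok) (L (nat_lit 460) ln12_11_4 ln12_11_4_ok))))) (B (M (nat_lit 397) (B (M (nat_lit 493) (B (L (nat_lit 525) ln13_16_7 ln13_16_7_ok) (M (nat_lit 365) (B (M (nat_lit 366) (B (L (nat_lit 334) ln13_14_6 ln13_14_6_ok) (L (nat_lit 398) ln13_15_6 ln13_15_6_ok))) (M (nat_lit 494) (B (L (nat_lit 462) ln13_11_4 ln13_11_4_ok) (L (nat_lit 526) ln13_12_4 ln13_12_4_ok)))))))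 (B (M (nat_lit 493) (B (L (nat_lit 525) ln13_16_7 ln13_16_7_ok) (M (nat_lit 365) (B (M (nat_lit 333) (B (L (nat_lit 301) ln13_9_5 ln13_9_5_ok) (L (nat_lit 460) ln13_10_5 ln13_10_5_ok))) (M (nat_lit 494) (B (L (nat_lit 462) ln13_11_4 ln13_11_4_ok) (L (nat_lit 526) ln13_12_4 ln13_12_4_ok))))))) (B (M (nat_lit 398) (B (M (nat_lit 493) (B (L (nat_lit 366) ln13_15_6 ln13_15_6_ok) (L (nat_lit 525) ln13_16_7 ln13_16_7_ok))) (M (nat_lit 395) (B (M (nat_lit 394) (B (L (nat_lit 393) ln9_12_0 ln9_12_0_ok) (L (nat_lit 430) ln10_12_0 ln10_12_0_ok))) (B (M (nat_lit 430) (B (L (nat_lit 394) ln10_12_0 ln10_12_0_ok) (L (nat_lit 431) ln11_12_0 ln11_12_0_ok))) (B (M (nat_lit 431) (B (L (nat_lit 430) ln11_12_0 ln11_12_0_ok) (M (nat_lit 399) (B (L (nat_lit 432) ln12_12_0 ln12_12_0_ok) (L (nat_lit 400) ln16_12_1 ln16_12_1_ok))))) (M (nat_lit 394) (B (L (nat_lit 393) ln9_12_0 ln9_12_0_ok) (M (nat_lit 362)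 (B (L (nat_lit 361) ln13_12_3 ln13_12_3_ok) (L (nat_lit 363) ln14_12_3 ln14_12_3_ok))))))))))) (M (nat_lit 365) (B (M (nat_lit 333) (B (L (nat_lit 301) ln13_9_5 ln13_9_5_ok) (L (nat_lit 460) ln13_10_5 ln13_10_5_ok))) (M (nat_lit 366) (B (L (nat_lit 334) ln13_14_6 ln13_14_6_ok) (M (nat_lit 395) (B (L (nat_lit 394) ln10_12_2 ln10_12_2_ok) (M (nat_lit 367) (B (L (nat_lit 368) ln16_11_1 ln16_11_1_ok) (L (nat_lit 398) ln11_12_2 ln11_12_2_ok))))))))))))) (B (M (nat_lit 493) (B (L (nat_lit 525) ln13_16_7 ln13_16_7_ok) (M (nat_lit 364) (B (L (nat_lit 332) ln12_10_4 ln12_10_4_ok) (L (nat_lit 397) ln13_15_7 ln13_15_7_ok))))) (M (nat_lit 364) (B (L (nat_lit 332) ln12_10_4 ln12_10_4_ok) (M (nat_lit 365) (B (M (nat_lit 333) (B (L (nat_lit 460) ln12_14_6 ln12_14_6_ok) (M (nat_lit 301) (B (L (nat_lit 269) ln13_8_5 ln13_8_5_ok) (L (nat_lit 397) ln13_9_5 ln13_9_5_ok))))) (B (M (nat_lit 460) (B (L (nat_lit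 333) ln12_14_6 ln12_14_6_ok) (M (nat_lit 459) (B (L (nat_lit 491) ln12_11_5 ln12_11_5_ok) (M (nat_lit 430) (B (L (nat_lit 431) ln15_13_1 ln15_13_1_ok) (L (nat_lit 458) ln10_14_2 ln10_14_2_ok))))))) (B (M (nat_lit 366) (B (M (nat_lit 395) (B (L (nat_lit 367) ln15_11_1 ln15_11_1_ok) (M (nat_lit 394) (B (L (nat_lit 363) ln14_11_1 ln14_11_1_ok) (L (nat_lit 393) ln9_12_2 ln9_12_2_ok))))) (B (M (nat_lit 397) (B (L (nat_lit 334) ln13_14_6 ln13_14_6_ok) (M (nat_lit 367) (B (L (nat_lit 395) ln15_11_1 ln15_11_1_ok) (L (nat_lit 368) ln16_11_1 ln16_11_1_ok))))) (M (nat_lit 363) (B (M (nat_lit 331) (B (L (nat_lit 330) ln14_11_3 ln14_11_3_ok) (L (nat_lit 460) ln12_14_7 ln12_14_7_ok))) (M (nat_lit 334) (B (L (nat_lit 335) ln11_11_2 ln11_11_2_ok) (L (nat_lit 397) ln13_14_6 ln13_14_6_ok)))))))) (M (nat_lit 397) (B (M (nat_lit 366) (B (L (nat_lit 334) ln13_14_6 ln13_14_6_ok) (M (nat_lit 367) (B (L (nat_lit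 395) ln15_11_1 ln15_11_1_ok) (L (nat_lit 368) ln16_11_1 ln16_11_1_ok))))) (B (M (nat_lit 430) (B (M (nat_lit 333) (B (L (nat_lit 301) ln13_9_5 ln13_9_5_ok) (L (nat_lit 462) ln13_10_4 ln13_10_4_ok))) (M (nat_lit 431) (B (L (nat_lit 395) ln15_13_3 ln15_13_3_ok) (L (nat_lit 432) ln16_13_3 ln16_13_3_ok))))) (M (nat_lit 333) (B (L (nat_lit 301) ln13_9_5 ln13_9_5_ok) (M (nat_lit 334) (B (L (nat_lit 302) ln13_13_6 ln13_13_6_ok) (L (nat_lit 366) ln13_14_6 ln13_14_6_ok)))))))))))))))))))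
theorem c41_s9712 : Sem (nat_lit 2079502270752001762064242424960807725827516048677469043429686155012882190638009693656033379242457518153052022685796627120027336704) (nat_lit 109836762587663119574318981096888677866263552852214504693514342450498203317015716559112192419146446406348139875771757893147071405494676572242235490085829083136) (nat_lit 109836762587663119574318981096888677866263552852214504693514342450498203317015716559112192419146446406348139875771757893147071405494676572242235490085829083136) :=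
  sem_of_chk (M (nat_lit 397) (B (M (nat_lit 364) (B (M (nat_lit 332) (B (L (nat_lit 300) ln12_9_4 ln12_9_4_ok) (L (nat_lit 461) ln12_10_4 ln12_10_4_ok))) (B (M (nat_lit 461) (B (L (nat_lit 332) ln12_10_4 ln12_10_4_ok) (L (nat_lit 493) ln13_15_7 ln13_15_7_ok))) (B (M (nat_lit 365) (B (M (nat_lit 333) (B (L (nat_lit 301) ln13_9_5 ln13_9_5_ok) (L (nat_lit 460) ln12_14_6 ln12_14_6_ok))) (M (nat_lit 366) (B (M (nat_lit 461) (B (L (nat_lit 334) ln13_14_6 ln13_14_6_ok) (L (nat_lit 493) ln13_15_7 ln13_15_7_ok))) (M (nat_lit 367) (B (L (nat_lit 395) ln15_11_1 ln15_11_1_ok) (L (nat_lit 368) ln16_11_1 ln16_11_1_ok))))))) (M (nat_lit 427) (B (M (nat_lit 332) (B (L (nat_lit 300) ln12_9_4 ln12_9_4_ok) (L (nat_lit 459) ln12_10_5 ln12_10_5_ok))) (M (nat_lit 398) (B (L (nat_lit 399) ln15_12_1 ln15_12_1_ok) (L (nat_lit 426) ln10_13_2 ln10_13_2_ok))))))))) (B (M (nat_lit 364) (B (M (nat_lit 461) (B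 (L (nat_lit 332) ln12_10_4 ln12_10_4_ok) (L (nat_lit 493) ln13_15_7 ln13_15_7_ok))) (B (M (nat_lit 365) (B (M (nat_lit 333) (B (L (nat_lit 301) ln13_9_5 ln13_9_5_ok) (L (nat_lit 460) ln12_14_6 ln12_14_6_ok))) (M (nat_lit 366) (B (M (nat_lit 461) (B (L (nat_lit 334) ln13_14_6 ln13_14_6_ok) (L (nat_lit 493) ln13_15_7 ln13_15_7_ok))) (M (nat_lit 367) (B (L (nat_lit 395) ln15_11_1 ln15_11_1_ok) (L (nat_lit 368) ln16_11_1 ln16_11_1_ok))))))) (M (nat_lit 332) (B (M (nat_lit 427) (B (L (nat_lit 459) ln12_10_5 ln12_10_5_ok) (M (nat_lit 426) (B (L (nat_lit 425) ln9_13_2 ln9_13_2_ok) (L (nat_lit 398) ln10_13_2 ln10_13_2_ok))))) (M (nat_lit 333) (B (L (nat_lit 301) ln12_13_6 ln12_13_6_ok) (M (nat_lit 460) (B (L (nat_lit 365) ln12_14_6 ln12_14_6_ok) (M (nat_lit 331) (B (L (nat_lit 299) ln12_13_7 ln12_13_7_ok) (L (nat_lit 363) ln12_14_7 ln12_14_7_ok)))))))))))) (B (M (nat_lit 364) (B (M (nat_lit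 332) (B (L (nat_lit 300) ln12_9_4 ln12_9_4_ok) (L (nat_lit 461) ln12_10_4 ln12_10_4_ok))) (B (M (nat_lit 461) (B (L (nat_lit 332) ln12_10_4 ln12_10_4_ok) (L (nat_lit 493) ln13_15_7 ln13_15_7_ok))) (B (M (nat_lit 365) (B (M (nat_lit 363) (B (M (nat_lit 460) (B (L (nat_lit 331) ln12_14_7 ln12_14_7_ok) (L (nat_lit 333) ln12_14_6 ln12_14_6_ok))) (M (nat_lit 398) (B (L (nat_lit 362) ln10_11_0 ln10_11_0_ok) (L (nat_lit 399) ln15_12_3 ln15_12_3_ok))))) (M (nat_lit 366) (B (M (nat_lit 461) (B (L (nat_lit 334) ln13_14_6 ln13_14_6_ok) (L (nat_lit 493) ln13_15_7 ln13_15_7_ok))) (M (nat_lit 367) (B (L (nat_lit 395) ln15_11_1 ln15_11_1_ok) (L (nat_lit 368) ln16_11_1 ln16_11_1_ok))))))) (M (nat_lit 427) (B (M (nat_lit 332) (B (L (nat_lit 300) ln12_9_4 ln12_9_4_ok) (L (nat_lit 459) ln12_10_5 ln12_10_5_ok))) (M (nat_lit 398) (B (L (nat_lit 399) ln15_12_1 ln15_12_1_ok) (L (nat_lit 426) ln10_13_2 ln10_13_2_ok)))))))))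 (B (M (nat_lit 398) (B (M (nat_lit 399) (B (L (nat_lit 427) ln15_12_1 ln15_12_1_ok) (L (nat_lit 400) ln16_12_1 ln16_12_1_ok))) (M (nat_lit 365) (B (M (nat_lit 333) (B (L (nat_lit 301) ln13_9_5 ln13_9_5_ok) (L (nat_lit 460) ln13_10_5 ln13_10_5_ok))) (M (nat_lit 366) (B (M (nat_lit 334) (B (L (nat_lit 302) ln14_9_5 ln14_9_5_ok) (L (nat_lit 461) ln13_14_6 ln13_14_6_ok))) (M (nat_lit 367) (B (L (nat_lit 368) ln16_11_1 ln16_11_1_ok) (L (nat_lit 395) ln11_12_2 ln11_12_2_ok))))))))) (B (M (nat_lit 364) (B (M (nat_lit 332) (B (L (nat_lit 300) ln12_9_4 ln12_9_4_ok) (L (nat_lit 461) ln12_10_4 ln12_10_4_ok))) (B (M (nat_lit 461) (B (L (nat_lit 332) ln12_10_4 ln12_10_4_ok) (L (nat_lit 493) ln13_15_7 ln13_15_7_ok))) (M (nat_lit 398) (B (M (nat_lit 399) (B (L (nat_lit 363) ln15_12_3 ln15_12_3_ok) (L (nat_lit 427) ln15_12_1 ln15_12_1_ok))) (B (M (nat_lit 399) (B (L (nat_lit 427) ln15_12_1 ln15_12_1_ok)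 (L (nat_lit 400) ln16_12_1 ln16_12_1_ok))) (B (M (nat_lit 395) (B (M (nat_lit 426) (B (L (nat_lit 427) ln14_12_1 ln14_12_1_ok) (M (nat_lit 394) (B (L (nat_lit 393) ln9_12_0 ln9_12_0_ok) (L (nat_lit 425) ln13_12_1 ln13_12_1_ok))))) (M (nat_lit 363) (B (L (nat_lit 362) ln14_12_3 ln14_12_3_ok) (M (nat_lit 331) (B (L (nat_lit 299) ln11_9_4 ln11_9_4_ok) (L (nat_lit 460) ln12_14_7 ln12_14_7_ok))))))) (M (nat_lit 399) (B (L (nat_lit 363) ln15_12_3 ln15_12_3_ok) (L (nat_lit 400) ln16_12_1 ln16_12_1_ok)))))))))) (B (M (nat_lit 364) (B (M (nat_lit 332) (B (L (nat_lit 300) ln12_9_4 ln12_9_4_ok) (L (nat_lit 461) ln12_10_4 ln12_10_4_ok))) (B (M (nat_lit 461) (B (L (nat_lit 332) ln12_10_4 ln12_10_4_ok) (L (nat_lit 493) ln13_15_7 ln13_15_7_ok))) (B (M (nat_lit 365) (B (M (nat_lit 333) (B (L (nat_lit 301) ln13_9_5 ln13_9_5_ok) (L (nat_lit 460) ln12_14_6 ln12_14_6_ok))) (M (nat_lit 399) (B (M (nat_lit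 398) (B (L (nat_lit 363) ln15_12_3 ln15_12_3_ok) (L (nat_lit 400) ln16_12_3 ln16_12_3_ok))) (B (M (nat_lit 398) (B (L (nat_lit 400) ln16_12_3 ln16_12_3_ok) (L (nat_lit 427) ln15_12_1 ln15_12_1_ok))) (B (M (nat_lit 366) (B (M (nat_lit 461) (B (L (nat_lit 334) ln13_14_6 ln13_14_6_ok) (L (nat_lit 493) ln13_15_7 ln13_15_7_ok))) (M (nat_lit 367) (B (L (nat_lit 400) ln12_11_0 ln12_11_0_ok) (L (nat_lit 368) ln16_11_1 ln16_11_1_ok))))) (M (nat_lit 398) (B (L (nat_lit 363) ln15_12_3 ln15_12_3_ok) (L (nat_lit 427) ln15_12_1 ln15_12_1_ok))))))))) (M (nat_lit 427) (B (M (nat_lit 332) (B (L (nat_lit 300) ln12_9_4 ln12_9_4_ok) (L (nat_lit 459) ln12_10_5 ln12_10_5_ok))) (M (nat_lit 398) (B (L (nat_lit 399) ln15_12_1 ln15_12_1_ok) (L (nat_lit 426) ln10_13_2 ln10_13_2_ok))))))))) (B (M (nat_lit 364) (B (M (nat_lit 332) (B (L (nat_lit 300) ln12_9_4 ln12_9_4_ok) (L (nat_lit 461) ln12_10_4 ln12_10_4_ok)))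 (B (M (nat_lit 461) (B (L (nat_lit 332) ln12_10_4 ln12_10_4_ok) (L (nat_lit 493) ln13_15_7 ln13_15_7_ok))) (B (M (nat_lit 365) (B (M (nat_lit 333) (B (L (nat_lit 301) ln13_9_5 ln13_9_5_ok) (L (nat_lit 460) ln12_14_6 ln12_14_6_ok))) (M (nat_lit 366) (B (M (nat_lit 461) (B (L (nat_lit 334) ln13_14_6 ln13_14_6_ok) (L (nat_lit 493) ln13_15_7 ln13_15_7_ok))) (M (nat_lit 367) (B (L (nat_lit 395) ln15_11_1 ln15_11_1_ok) (L (nat_lit 368) ln16_11_1 ln16_11_1_ok))))))) (M (nat_lit 332) (B (L (nat_lit 300) ln12_9_4 ln12_9_4_ok) (M (nat_lit 333) (B (L (nat_lit 301) ln12_13_6 ln12_13_6_ok) (M (nat_lit 460) (B (L (nat_lit 365) ln12_14_6 ln12_14_6_ok) (M (nat_lit 331) (B (L (nat_lit 299) ln12_13_7 ln12_13_7_ok) (L (nat_lit 363) ln12_14_7 ln12_14_7_ok))))))))))))) (B (M (nat_lit 461) (B (M (nat_lit 364) (B (L (nat_lit 332) ln12_10_4 ln12_10_4_ok) (L (nat_lit 493) ln13_15_7 ln13_15_7_ok))) (B (M (nat_lit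 493) (B (L (nat_lit 364) ln13_15_7 ln13_15_7_ok) (L (nat_lit 525) ln13_16_7 ln13_16_7_ok))) (B (M (nat_lit 493) (B (L (nat_lit 525) ln13_16_7 ln13_16_7_ok) (M (nat_lit 398) (B (L (nat_lit 366) ln13_15_6 ln13_15_6_ok) (M (nat_lit 399) (B (L (nat_lit 427) ln15_12_1 ln15_12_1_ok) (L (nat_lit 400) ln16_12_1 ln16_12_1_ok))))))) (M (nat_lit 398) (B (M (nat_lit 399) (B (L (nat_lit 427) ln15_12_1 ln15_12_1_ok) (L (nat_lit 400) ln16_12_1 ln16_12_1_ok))) (M (nat_lit 365) (B (M (nat_lit 332) (B (L (nat_lit 364) ln13_14_7 ln13_14_7_ok) (M (nat_lit 333) (B (L (nat_lit 300) ln13_13_7 ln13_13_7_ok) (L (nat_lit 301) ln13_9_5 ln13_9_5_ok))))) (M (nat_lit 366) (B (L (nat_lit 334) ln13_14_6 ln13_14_6_ok) (M (nat_lit 367) (B (L (nat_lit 368) ln16_11_1 ln16_11_1_ok) (L (nat_lit 395) ln11_12_2 ln11_12_2_ok))))))))))))) (M (nat_lit 395) (B (M (nat_lit 394) (B (L (nat_lit 393) ln9_12_0 ln9_12_0_ok) (M (nat_lit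 365) (B (L (nat_lit 366) ln10_12_2 ln10_12_2_ok) (M (nat_lit 333) (B (L (nat_lit 301) ln13_9_5 ln13_9_5_ok) (L (nat_lit 460) ln13_10_5 ln13_10_5_ok))))))) (B (M (nat_lit 398) (B (M (nat_lit 427) (B (L (nat_lit 426) ln14_12_1 ln14_12_1_ok) (L (nat_lit 399) ln15_12_1 ln15_12_1_ok))) (B (M (nat_lit 426) (B (L (nat_lit 427) ln14_12_1 ln14_12_1_ok) (M (nat_lit 394) (B (L (nat_lit 393) ln9_12_0 ln9_12_0_ok) (L (nat_lit 425) ln13_12_1 ln13_12_1_ok))))) (B (M (nat_lit 399) (B (L (nat_lit 427) ln15_12_1 ln15_12_1_ok) (L (nat_lit 400) ln16_12_1 ln16_12_1_ok))) (M (nat_lit 399) (B (L (nat_lit 400) ln16_12_1 ln16_12_1_ok) (M (nat_lit 367) (B (L (nat_lit 366) ln11_12_2 ln11_12_2_ok) (L (nat_lit 368) ln12_12_2 ln12_12_2_ok))))))))) (B (M (nat_lit 398) (B (M (nat_lit 427) (B (L (nat_lit 426) ln14_12_1 ln14_12_1_ok) (L (nat_lit 399) ln15_12_1 ln15_12_1_ok))) (B (M (nat_lit 426) (B (L (nat_lit 427)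 ln14_12_1 ln14_12_1_ok) (M (nat_lit 394) (B (L (nat_lit 393) ln9_12_0 ln9_12_0_ok) (L (nat_lit 425) ln13_12_1 ln13_12_1_ok))))) (B (M (nat_lit 399) (B (L (nat_lit 427) ln15_12_1 ln15_12_1_ok) (L (nat_lit 400) ln16_12_1 ln16_12_1_ok))) (M (nat_lit 399) (B (L (nat_lit 400) ln16_12_1 ln16_12_1_ok) (M (nat_lit 363) (B (L (nat_lit 362) ln14_12_3 ln14_12_3_ok) (L (nat_lit 364) ln15_12_3 ln15_12_3_ok))))))))) (B (M (nat_lit 398) (B (M (nat_lit 427) (B (L (nat_lit 426) ln14_12_1 ln14_12_1_ok) (L (nat_lit 399) ln15_12_1 ln15_12_1_ok))) (M (nat_lit 365) (B (M (nat_lit 333) (B (L (nat_lit 301) ln13_9_5 ln13_9_5_ok) (L (nat_lit 460) ln13_10_5 ln13_10_5_ok))) (M (nat_lit 366) (B (L (nat_lit 394) ln10_12_2 ln10_12_2_ok) (L (nat_lit 367) ln11_12_2 ln11_12_2_ok))))))) (M (nat_lit 363) (B (M (nat_lit 398) (B (L (nat_lit 362) ln14_12_3 ln14_12_3_ok) (M (nat_lit 399) (B (L (nat_lit 364) ln15_12_3 ln15_12_3_ok)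 (L (nat_lit 400) ln16_12_1 ln16_12_1_ok))))) (B (M (nat_lit 331) (B (L (nat_lit 299) ln11_9_4 ln11_9_4_ok) (M (nat_lit 460) (B (L (nat_lit 364) ln12_14_7 ln12_14_7_ok) (L (nat_lit 427) ln11_10_4 ln11_10_4_ok))))) (M (nat_lit 398) (B (L (nat_lit 362) ln14_12_3 ln14_12_3_ok) (M (nat_lit 427) (B (L (nat_lit 426) ln14_12_1 ln14_12_1_ok) (L (nat_lit 399) ln15_12_1 ln15_12_1_ok)))))))))))))))))))))) (nat_lit 2079502270752001762064242424960807725827516048677469043429686155012882190638009693656033379242457518153052022685796627120027336704) (nat_lit 109836762587663119574318981096888677866263552852214504693514342450498203317015716559112192419146446406348139875771757893147071405494676572242235490085829083136) (nat_lit 109836762587663119574318981096888677866263552852214504693514342450498203317015716559112192419146446406348139875771757893147071405494676572242235490085829083136) (by decide +kernel)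
theorem c41_s9715 : Sem (nat_lit 1386334847221798047169638878925036799968406779833514899637066259859226863686603287896039777716422623628704219945445734162783797248) (nat_lit 356969478409905138677753953298741902690207147368029358380042078743832551889869813431987251365456690363308450360541924162816666785426508962918245048153767149568) (nat_lit 356969478409905138677753953298741902690207147368029358380042078743832551889869813431987251365456690363308450360541924162816666785426508962918245048153767149568) :=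
  sem_of_chk (M (nat_lit 428) (B (M (nat_lit 430) (B (M (nat_lit 395) (B (L (nat_lit 431) ln15_13_3 ln15_13_3_ok) (M (nat_lit 394) (B (L (nat_lit 393) ln9_12_0 ln9_12_0_ok) (L (nat_lit 397) ln10_12_0 ln10_12_0_ok))))) (B (M (nat_lit 395) (B (L (nat_lit 431) ln15_13_3 ln15_13_3_ok) (M (nat_lit 394) (B (L (nat_lit 397) ln10_12_0 ln10_12_0_ok) (L (nat_lit 427) ln14_13_3 ln14_13_3_ok))))) (B (M (nat_lit 431) (B (L (nat_lit 395) ln15_13_3 ln15_13_3_ok) (M (nat_lit 400) (B (L (nat_lit 399) ln12_13_2 ln12_13_2_ok) (M (nat_lit 432) (B (L (nat_lit 397) ln16_13_3 ln16_13_3_ok) (L (nat_lit 401) ln13_13_2 ln13_13_2_ok))))))) (B (M (nat_lit 431) (B (M (nat_lit 460) (B (L (nat_lit 459) ln15_13_1 ln15_13_1_ok) (M (nat_lit 432) (B (L (nat_lit 397) ln16_13_3 ln16_13_3_ok) (L (nat_lit 461) ln16_13_1 ln16_13_1_ok))))) (B (M (nat_lit 427) (B (M (nat_lit 399) (B (L (nat_lit 398) ln11_13_2 ln11_13_2_ok)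 (L (nat_lit 400) ln12_13_2 ln12_13_2_ok))) (M (nat_lit 459) (B (L (nat_lit 458) ln14_13_1 ln14_13_1_ok) (L (nat_lit 460) ln15_13_1 ln15_13_1_ok))))) (M (nat_lit 400) (B (L (nat_lit 399) ln12_13_2 ln12_13_2_ok) (M (nat_lit 432) (B (L (nat_lit 397) ln16_13_3 ln16_13_3_ok) (L (nat_lit 401) ln13_13_2 ln13_13_2_ok)))))))) (B (M (nat_lit 395) (B (L (nat_lit 431) ln15_13_3 ln15_13_3_ok) (M (nat_lit 394) (B (L (nat_lit 393) ln9_12_0 ln9_12_0_ok) (L (nat_lit 427) ln14_13_3 ln14_13_3_ok))))) (M (nat_lit 427) (B (M (nat_lit 395) (B (L (nat_lit 394) ln14_13_3 ln14_13_3_ok) (M (nat_lit 459) (B (L (nat_lit 458) ln14_13_1 ln14_13_1_ok) (M (nat_lit 491) (B (L (nat_lit 364) ln11_15_6 ln11_15_6_ok) (L (nat_lit 523) ln11_16_6 ln11_16_6_ok))))))) (B (M (nat_lit 426) (B (M (nat_lit 394) (B (L (nat_lit 393) ln13_13_3 ln13_13_3_ok) (L (nat_lit 395) ln14_13_3 ln14_13_3_ok))) (M (nat_lit 398) (B (L (nat_lit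 397) ln10_13_2 ln10_13_2_ok) (L (nat_lit 399) ln11_13_2 ln11_13_2_ok))))) (M (nat_lit 426) (B (M (nat_lit 398) (B (L (nat_lit 397) ln10_13_2 ln10_13_2_ok) (L (nat_lit 399) ln11_13_2 ln11_13_2_ok))) (M (nat_lit 458) (B (L (nat_lit 457) ln13_13_1 ln13_13_1_ok) (L (nat_lit 459) ln14_13_1 ln14_13_1_ok)))))))))))))) (B (M (nat_lit 430) (B (M (nat_lit 395) (B (L (nat_lit 431) ln15_13_3 ln15_13_3_ok) (M (nat_lit 394) (B (L (nat_lit 397) ln10_12_0 ln10_12_0_ok) (L (nat_lit 427) ln14_13_3 ln14_13_3_ok))))) (B (M (nat_lit 431) (B (L (nat_lit 395) ln15_13_3 ln15_13_3_ok) (M (nat_lit 400) (B (L (nat_lit 399) ln12_13_2 ln12_13_2_ok) (M (nat_lit 432) (B (L (nat_lit 397) ln16_13_3 ln16_13_3_ok) (L (nat_lit 401) ln13_13_2 ln13_13_2_ok))))))) (B (M (nat_lit 431) (B (M (nat_lit 400) (B (L (nat_lit 399) ln12_13_2 ln12_13_2_ok) (M (nat_lit 432) (B (L (nat_lit 397) ln16_13_3 ln16_13_3_ok) (L (nat_lit 401)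 ln13_13_2 ln13_13_2_ok))))) (B (M (nat_lit 427) (B (M (nat_lit 399) (B (L (nat_lit 398) ln11_13_2 ln11_13_2_ok) (L (nat_lit 400) ln12_13_2 ln12_13_2_ok))) (M (nat_lit 463) (B (L (nat_lit 462) ln11_13_0 ln11_13_0_ok) (L (nat_lit 464) ln12_13_0 ln12_13_0_ok))))) (M (nat_lit 460) (B (L (nat_lit 459) ln15_13_1 ln15_13_1_ok) (M (nat_lit 432) (B (L (nat_lit 397) ln16_13_3 ln16_13_3_ok) (L (nat_lit 461) ln16_13_1 ln16_13_1_ok)))))))) (B (M (nat_lit 395) (B (L (nat_lit 431) ln15_13_3 ln15_13_3_ok) (M (nat_lit 394) (B (L (nat_lit 393) ln9_12_0 ln9_12_0_ok) (L (nat_lit 427) ln14_13_3 ln14_13_3_ok))))) (M (nat_lit 427) (B (M (nat_lit 426) (B (M (nat_lit 398) (B (L (nat_lit 397) ln10_13_2 ln10_13_2_ok) (L (nat_lit 399) ln11_13_2 ln11_13_2_ok))) (M (nat_lit 458) (B (L (nat_lit 457) ln13_13_1 ln13_13_1_ok) (L (nat_lit 459) ln14_13_1 ln14_13_1_ok))))) (B (M (nat_lit 426) (B (M (nat_lit 458) (B (L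 (nat_lit 457) ln13_13_1 ln13_13_1_ok) (L (nat_lit 459) ln14_13_1 ln14_13_1_ok))) (M (nat_lit 462) (B (L (nat_lit 461) ln10_13_0 ln10_13_0_ok) (L (nat_lit 463) ln11_13_0 ln11_13_0_ok))))) (M (nat_lit 398) (B (L (nat_lit 399) ln11_13_2 ln11_13_2_ok) (M (nat_lit 397) (B (M (nat_lit 462) (B (L (nat_lit 463) ln11_13_0 ln11_13_0_ok) (M (nat_lit 365) (B (L (nat_lit 333) ln13_10_4 ln13_10_4_ok) (L (nat_lit 494) ln14_15_7 ln14_15_7_ok))))) (M (nat_lit 366) (B (M (nat_lit 334) (B (L (nat_lit 302) ln14_9_5 ln14_9_5_ok) (L (nat_lit 461) ln14_10_5 ln14_10_5_ok))) (M (nat_lit 395) (B (L (nat_lit 367) ln11_12_2 ln11_12_2_ok) (L (nat_lit 394) ln10_12_0 ln10_12_0_ok))))))))))))))))) (B (M (nat_lit 427) (B (M (nat_lit 459) (B (M (nat_lit 430) (B (L (nat_lit 458) ln14_13_1 ln14_13_1_ok) (M (nat_lit 431) (B (L (nat_lit 395) ln15_13_3 ln15_13_3_ok) (L (nat_lit 460) ln15_13_1 ln15_13_1_ok))))) (B (M (nat_lit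 460) (B (M (nat_lit 491) (B (L (nat_lit 364) ln12_11_5 ln12_11_5_ok) (L (nat_lit 523) ln11_16_6 ln11_16_6_ok))) (M (nat_lit 430) (B (L (nat_lit 458) ln14_13_1 ln14_13_1_ok) (L (nat_lit 431) ln15_13_1 ln15_13_1_ok))))) (B (M (nat_lit 491) (B (L (nat_lit 523) ln11_16_6 ln11_16_6_ok) (M (nat_lit 364) (B (L (nat_lit 395) ln11_15_6 ln11_15_6_ok) (L (nat_lit 460) ln12_11_5 ln12_11_5_ok))))) (M (nat_lit 395) (B (M (nat_lit 491) (B (L (nat_lit 364) ln11_15_6 ln11_15_6_ok) (L (nat_lit 523) ln11_16_6 ln11_16_6_ok))) (M (nat_lit 430) (B (L (nat_lit 431) ln15_13_3 ln15_13_3_ok) (L (nat_lit 458) ln14_13_1 ln14_13_1_ok))))))))) (B (M (nat_lit 430) (B (M (nat_lit 395) (B (L (nat_lit 394) ln14_13_3 ln14_13_3_ok) (L (nat_lit 431) ln15_13_3 ln15_13_3_ok))) (M (nat_lit 426) (B (M (nat_lit 397) (B (L (nat_lit 425) ln9_13_2 ln9_13_2_ok) (L (nat_lit 398) ln10_13_2 ln10_13_2_ok))) (M (nat_lit 462) (B (L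 (nat_lit 461) ln10_13_0 ln10_13_0_ok) (L (nat_lit 463) ln11_13_0 ln11_13_0_ok))))))) (B (M (nat_lit 461) (B (M (nat_lit 462) (B (L (nat_lit 426) ln10_13_0 ln10_13_0_ok) (M (nat_lit 463) (B (L (nat_lit 430) ln11_13_0 ln11_13_0_ok) (L (nat_lit 460) ln15_14_3 ln15_14_3_ok))))) (M (nat_lit 364) (B (L (nat_lit 332) ln12_10_4 ln12_10_4_ok) (M (nat_lit 493) (B (L (nat_lit 397) ln13_15_7 ln13_15_7_ok) (L (nat_lit 525) ln13_16_7 ln13_16_7_ok))))))) (M (nat_lit 461) (B (M (nat_lit 364) (B (L (nat_lit 332) ln12_10_4 ln12_10_4_ok) (M (nat_lit 493) (B (L (nat_lit 397) ln13_15_7 ln13_15_7_ok) (L (nat_lit 525) ln13_16_7 ln13_16_7_ok))))) (B (M (nat_lit 493) (B (L (nat_lit 525) ln13_16_7 ln13_16_7_ok) (M (nat_lit 364) (B (L (nat_lit 397) ln13_15_7 ln13_15_7_ok) (L (nat_lit 460) ln12_11_4 ln12_11_4_ok))))) (B (M (nat_lit 426) (B (L (nat_lit 462) ln10_13_0 ln10_13_0_ok) (M (nat_lit 425) (B (L (nat_lit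 397) ln9_13_2 ln9_13_2_ok) (L (nat_lit 460) ln9_13_0 ln9_13_0_ok))))) (M (nat_lit 364) (B (L (nat_lit 332) ln12_10_4 ln12_10_4_ok) (M (nat_lit 493) (B (L (nat_lit 460) ln12_11_4 ln12_11_4_ok) (L (nat_lit 525) ln13_16_7 ln13_16_7_ok))))))))))))) (B (M (nat_lit 427) (B (M (nat_lit 459) (B (M (nat_lit 430) (B (L (nat_lit 458) ln14_13_1 ln14_13_1_ok) (M (nat_lit 431) (B (L (nat_lit 395) ln15_13_3 ln15_13_3_ok) (L (nat_lit 460) ln15_13_1 ln15_13_1_ok))))) (B (M (nat_lit 460) (B (M (nat_lit 491) (B (L (nat_lit 364) ln12_11_5 ln12_11_5_ok) (L (nat_lit 523) ln11_16_6 ln11_16_6_ok))) (M (nat_lit 430) (B (L (nat_lit 458) ln14_13_1 ln14_13_1_ok) (L (nat_lit 431) ln15_13_1 ln15_13_1_ok))))) (B (M (nat_lit 491) (B (L (nat_lit 523) ln11_16_6 ln11_16_6_ok) (M (nat_lit 364) (B (L (nat_lit 395) ln11_15_6 ln11_15_6_ok) (L (nat_lit 460) ln12_11_5 ln12_11_5_ok))))) (M (nat_lit 395) (B (M (nat_lit 491)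 (B (L (nat_lit 364) ln11_15_6 ln11_15_6_ok) (L (nat_lit 523) ln11_16_6 ln11_16_6_ok))) (M (nat_lit 430) (B (L (nat_lit 431) ln15_13_3 ln15_13_3_ok) (L (nat_lit 458) ln14_13_1 ln14_13_1_ok))))))))) (B (M (nat_lit 430) (B (M (nat_lit 431) (B (L (nat_lit 395) ln15_13_3 ln15_13_3_ok) (M (nat_lit 399) (B (L (nat_lit 398) ln11_13_2 ln11_13_2_ok) (L (nat_lit 400) ln12_13_2 ln12_13_2_ok))))) (B (M (nat_lit 426) (B (M (nat_lit 397) (B (L (nat_lit 425) ln9_13_2 ln9_13_2_ok) (L (nat_lit 398) ln10_13_2 ln10_13_2_ok))) (M (nat_lit 462) (B (L (nat_lit 461) ln10_13_0 ln10_13_0_ok) (L (nat_lit 463) ln11_13_0 ln11_13_0_ok))))) (M (nat_lit 431) (B (L (nat_lit 395) ln15_13_3 ln15_13_3_ok) (M (nat_lit 459) (B (L (nat_lit 458) ln14_13_1 ln14_13_1_ok) (L (nat_lit 460) ln15_13_1 ln15_13_1_ok)))))))) (B (M (nat_lit 461) (B (M (nat_lit 462) (B (L (nat_lit 426) ln10_13_0 ln10_13_0_ok) (M (nat_lit 463) (B (L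 (nat_lit 460) ln15_14_3 ln15_14_3_ok) (L (nat_lit 464) ln16_14_3 ln16_14_3_ok))))) (B (M (nat_lit 493) (B (L (nat_lit 525) ln13_16_7 ln13_16_7_ok) (M (nat_lit 364) (B (L (nat_lit 397) ln13_15_7 ln13_15_7_ok) (L (nat_lit 460) ln12_11_4 ln12_11_4_ok))))) (M (nat_lit 397) (B (M (nat_lit 493) (B (L (nat_lit 364) ln13_15_7 ln13_15_7_ok) (L (nat_lit 525) ln13_16_7 ln13_16_7_ok))) (M (nat_lit 426) (B (L (nat_lit 425) ln9_13_2 ln9_13_2_ok) (L (nat_lit 462) ln10_13_0 ln10_13_0_ok)))))))) (M (nat_lit 459) (B (M (nat_lit 364) (B (L (nat_lit 332) ln12_10_5 ln12_10_5_ok) (M (nat_lit 491) (B (L (nat_lit 395) ln11_15_6 ln11_15_6_ok) (L (nat_lit 523) ln11_16_6 ln11_16_6_ok))))) (M (nat_lit 458) (B (L (nat_lit 430) ln14_13_1 ln14_13_1_ok) (M (nat_lit 457) (B (L (nat_lit 426) ln13_13_1 ln13_13_1_ok) (L (nat_lit 456) ln8_14_2 ln8_14_2_ok))))))))))) (B (M (nat_lit 364) (B (M (nat_lit 461) (B (L (nat_lit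 332) ln12_10_4 ln12_10_4_ok) (M (nat_lit 493) (B (L (nat_lit 397) ln13_15_7 ln13_15_7_ok) (L (nat_lit 525) ln13_16_7 ln13_16_7_ok))))) (B (M (nat_lit 427) (B (M (nat_lit 459) (B (M (nat_lit 491) (B (L (nat_lit 460) ln12_11_5 ln12_11_5_ok) (L (nat_lit 523) ln11_16_6 ln11_16_6_ok))) (M (nat_lit 458) (B (L (nat_lit 430) ln14_13_1 ln14_13_1_ok) (M (nat_lit 457) (B (L (nat_lit 426) ln13_13_1 ln13_13_1_ok) (L (nat_lit 456) ln8_14_2 ln8_14_2_ok))))))) (B (M (nat_lit 430) (B (M (nat_lit 459) (B (L (nat_lit 458) ln14_13_1 ln14_13_1_ok) (M (nat_lit 491) (B (L (nat_lit 460) ln12_11_5 ln12_11_5_ok) (L (nat_lit 523) ln11_16_6 ln11_16_6_ok))))) (M (nat_lit 431) (B (M (nat_lit 399) (B (L (nat_lit 398) ln11_13_2 ln11_13_2_ok) (L (nat_lit 400) ln12_13_2 ln12_13_2_ok))) (M (nat_lit 463) (B (L (nat_lit 462) ln11_13_0 ln11_13_0_ok) (L (nat_lit 464) ln12_13_0 ln12_13_0_ok))))))) (B (M (nat_lit 461) (B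 (M (nat_lit 493) (B (L (nat_lit 397) ln13_15_7 ln13_15_7_ok) (L (nat_lit 460) ln12_11_4 ln12_11_4_ok))) (B (M (nat_lit 493) (B (L (nat_lit 460) ln12_11_4 ln12_11_4_ok) (L (nat_lit 525) ln13_16_7 ln13_16_7_ok))) (B (M (nat_lit 493) (B (L (nat_lit 397) ln13_15_7 ln13_15_7_ok) (L (nat_lit 525) ln13_16_7 ln13_16_7_ok))) (M (nat_lit 462) (B (L (nat_lit 426) ln10_13_0 ln10_13_0_ok) (M (nat_lit 463) (B (L (nat_lit 460) ln15_14_3 ln15_14_3_ok) (L (nat_lit 464) ln16_14_3 ln16_14_3_ok))))))))) (M (nat_lit 461) (B (M (nat_lit 493) (B (L (nat_lit 397) ln13_15_7 ln13_15_7_ok) (L (nat_lit 525) ln13_16_7 ln13_16_7_ok))) (M (nat_lit 462) (B (L (nat_lit 426) ln10_13_0 ln10_13_0_ok) (M (nat_lit 463) (B (L (nat_lit 430) ln11_13_0 ln11_13_0_ok) (L (nat_lit 464) ln16_14_3 ln16_14_3_ok))))))))))) (B (M (nat_lit 461) (B (L (nat_lit 332) ln12_10_4 ln12_10_4_ok) (M (nat_lit 493) (B (L (nat_lit 460) ln12_11_4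 ln12_11_4_ok) (L (nat_lit 525) ln13_16_7 ln13_16_7_ok))))) (M (nat_lit 332) (B (M (nat_lit 300) (B (L (nat_lit 397) ln12_9_4 ln12_9_4_ok) (M (nat_lit 301) (B (L (nat_lit 269) ln12_12_6 ln12_12_6_ok) (L (nat_lit 333) ln12_13_6 ln12_13_6_ok))))) (M (nat_lit 460) (B (M (nat_lit 331) (B (L (nat_lit 299) ln12_13_7 ln12_13_7_ok) (L (nat_lit 363) ln12_14_7 ln12_14_7_ok))) (M (nat_lit 459) (B (L (nat_lit 427) ln12_10_5 ln12_10_5_ok) (L (nat_lit 491) ln12_11_5 ln12_11_5_ok))))))))))) (B (M (nat_lit 430) (B (M (nat_lit 395) (B (L (nat_lit 431) ln15_13_3 ln15_13_3_ok) (M (nat_lit 394) (B (L (nat_lit 393) ln9_12_0 ln9_12_0_ok) (L (nat_lit 427) ln14_13_3 ln14_13_3_ok))))) (B (M (nat_lit 431) (B (L (nat_lit 395) ln15_13_3 ln15_13_3_ok) (M (nat_lit 427) (B (M (nat_lit 459) (B (L (nat_lit 458) ln14_13_1 ln14_13_1_ok) (L (nat_lit 460) ln15_13_1 ln15_13_1_ok))) (M (nat_lit 463) (B (L (nat_lit 462) ln11_13_0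 ln11_13_0_ok) (L (nat_lit 464) ln12_13_0 ln12_13_0_ok))))))) (B (M (nat_lit 461) (B (M (nat_lit 364) (B (L (nat_lit 332) ln12_10_4 ln12_10_4_ok) (M (nat_lit 493) (B (L (nat_lit 460) ln12_11_4 ln12_11_4_ok) (L (nat_lit 525) ln13_16_7 ln13_16_7_ok))))) (B (M (nat_lit 460) (B (M (nat_lit 493) (B (L (nat_lit 364) ln12_11_4 ln12_11_4_ok) (L (nat_lit 525) ln13_16_7 ln13_16_7_ok))) (M (nat_lit 459) (B (L (nat_lit 431) ln15_13_1 ln15_13_1_ok) (L (nat_lit 458) ln10_14_2 ln10_14_2_ok))))) (B (M (nat_lit 427) (B (M (nat_lit 462) (B (L (nat_lit 426) ln10_13_0 ln10_13_0_ok) (L (nat_lit 463) ln11_13_0 ln11_13_0_ok))) (M (nat_lit 431) (B (M (nat_lit 399) (B (L (nat_lit 398) ln11_13_2 ln11_13_2_ok) (L (nat_lit 400) ln12_13_2 ln12_13_2_ok))) (M (nat_lit 459) (B (L (nat_lit 458) ln14_13_1 ln14_13_1_ok) (L (nat_lit 460) ln15_13_1 ln15_13_1_ok))))))) (M (nat_lit 398) (B (M (nat_lit 493) (B (L (nat_lit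 525) ln13_16_7 ln13_16_7_ok) (M (nat_lit 366) (B (L (nat_lit 334) ln14_10_5 ln14_10_5_ok) (L (nat_lit 462) ln14_11_5 ln14_11_5_ok))))) (M (nat_lit 399) (B (L (nat_lit 427) ln11_13_2 ln11_13_2_ok) (M (nat_lit 400) (B (L (nat_lit 401) ln17_12_1 ln17_12_1_ok) (L (nat_lit 431) ln12_13_2 ln12_13_2_ok))))))))))) (B (M (nat_lit 431) (B (L (nat_lit 395) ln15_13_3 ln15_13_3_ok) (M (nat_lit 432) (B (M (nat_lit 400) (B (L (nat_lit 399) ln12_13_2 ln12_13_2_ok) (L (nat_lit 401) ln13_13_2 ln13_13_2_ok))) (M (nat_lit 460) (B (L (nat_lit 459) ln15_13_1 ln15_13_1_ok) (L (nat_lit 461) ln16_13_1 ln16_13_1_ok))))))) (M (nat_lit 427) (B (M (nat_lit 426) (B (M (nat_lit 458) (B (L (nat_lit 457) ln13_13_1 ln13_13_1_ok) (L (nat_lit 459) ln14_13_1 ln14_13_1_ok))) (M (nat_lit 462) (B (L (nat_lit 461) ln10_13_0 ln10_13_0_ok) (L (nat_lit 463) ln11_13_0 ln11_13_0_ok))))) (B (M (nat_lit 395) (B (L (nat_lit 394)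 ln14_13_3 ln14_13_3_ok) (M (nat_lit 459) (B (L (nat_lit 458) ln14_13_1 ln14_13_1_ok) (M (nat_lit 491) (B (L (nat_lit 364) ln11_15_6 ln11_15_6_ok) (L (nat_lit 523) ln11_16_6 ln11_16_6_ok))))))) (M (nat_lit 426) (B (M (nat_lit 394) (B (L (nat_lit 393) ln13_13_3 ln13_13_3_ok) (L (nat_lit 395) ln14_13_3 ln14_13_3_ok))) (M (nat_lit 462) (B (L (nat_lit 461) ln10_13_0 ln10_13_0_ok) (L (nat_lit 463) ln11_13_0 ln11_13_0_ok))))))))))))) (B (M (nat_lit 427) (B (M (nat_lit 459) (B (M (nat_lit 430) (B (L (nat_lit 458) ln14_13_1 ln14_13_1_ok) (M (nat_lit 431) (B (L (nat_lit 395) ln15_13_3 ln15_13_3_ok) (L (nat_lit 460) ln15_13_1 ln15_13_1_ok))))) (B (M (nat_lit 460) (B (M (nat_lit 491) (B (L (nat_lit 364) ln12_11_5 ln12_11_5_ok) (L (nat_lit 523) ln11_16_6 ln11_16_6_ok))) (M (nat_lit 430) (B (L (nat_lit 458) ln14_13_1 ln14_13_1_ok) (L (nat_lit 431) ln15_13_1 ln15_13_1_ok))))) (B (M (nat_lit 491)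 (B (L (nat_lit 523) ln11_16_6 ln11_16_6_ok) (M (nat_lit 364) (B (L (nat_lit 395) ln11_15_6 ln11_15_6_ok) (L (nat_lit 460) ln12_11_5 ln12_11_5_ok))))) (M (nat_lit 395) (B (M (nat_lit 491) (B (L (nat_lit 364) ln11_15_6 ln11_15_6_ok) (L (nat_lit 523) ln11_16_6 ln11_16_6_ok))) (M (nat_lit 430) (B (L (nat_lit 431) ln15_13_3 ln15_13_3_ok) (L (nat_lit 458) ln14_13_1 ln14_13_1_ok))))))))) (B (M (nat_lit 430) (B (M (nat_lit 395) (B (L (nat_lit 394) ln14_13_3 ln14_13_3_ok) (L (nat_lit 431) ln15_13_3 ln15_13_3_ok))) (B (M (nat_lit 431) (B (L (nat_lit 395) ln15_13_3 ln15_13_3_ok) (M (nat_lit 463) (B (L (nat_lit 462) ln11_13_0 ln11_13_0_ok) (L (nat_lit 464) ln12_13_0 ln12_13_0_ok))))) (B (M (nat_lit 431) (B (M (nat_lit 459) (B (L (nat_lit 458) ln14_13_1 ln14_13_1_ok) (L (nat_lit 460) ln15_13_1 ln15_13_1_ok))) (M (nat_lit 463) (B (L (nat_lit 462) ln11_13_0 ln11_13_0_ok) (L (nat_lit 464) ln12_13_0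 ln12_13_0_ok))))) (M (nat_lit 426) (B (M (nat_lit 394) (B (L (nat_lit 393) ln13_13_3 ln13_13_3_ok) (L (nat_lit 395) ln14_13_3 ln14_13_3_ok))) (M (nat_lit 458) (B (L (nat_lit 457) ln13_13_1 ln13_13_1_ok) (L (nat_lit 459) ln14_13_1 ln14_13_1_ok))))))))) (B (M (nat_lit 461) (B (M (nat_lit 364) (B (L (nat_lit 332) ln12_10_4 ln12_10_4_ok) (M (nat_lit 493) (B (L (nat_lit 397) ln13_15_7 ln13_15_7_ok) (L (nat_lit 525) ln13_16_7 ln13_16_7_ok))))) (B (M (nat_lit 493) (B (L (nat_lit 525) ln13_16_7 ln13_16_7_ok) (M (nat_lit 364) (B (L (nat_lit 397) ln13_15_7 ln13_15_7_ok) (L (nat_lit 460) ln12_11_4 ln12_11_4_ok))))) (B (M (nat_lit 426) (B (L (nat_lit 462) ln10_13_0 ln10_13_0_ok) (M (nat_lit 425) (B (L (nat_lit 397) ln9_13_2 ln9_13_2_ok) (L (nat_lit 460) ln9_13_0 ln9_13_0_ok))))) (M (nat_lit 364) (B (L (nat_lit 332) ln12_10_4 ln12_10_4_ok) (M (nat_lit 493) (B (L (nat_lit 460) ln12_11_4 ln12_11_4_ok)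 (L (nat_lit 525) ln13_16_7 ln13_16_7_ok))))))))) (M (nat_lit 459) (B (M (nat_lit 364) (B (L (nat_lit 332) ln12_10_5 ln12_10_5_ok) (M (nat_lit 491) (B (L (nat_lit 395) ln11_15_6 ln11_15_6_ok) (L (nat_lit 523) ln11_16_6 ln11_16_6_ok))))) (M (nat_lit 458) (B (L (nat_lit 430) ln14_13_1 ln14_13_1_ok) (M (nat_lit 457) (B (L (nat_lit 426) ln13_13_1 ln13_13_1_ok) (L (nat_lit 456) ln8_14_2 ln8_14_2_ok))))))))))) (B (M (nat_lit 430) (B (M (nat_lit 395) (B (L (nat_lit 431) ln15_13_3 ln15_13_3_ok) (M (nat_lit 394) (B (L (nat_lit 393) ln9_12_0 ln9_12_0_ok) (L (nat_lit 427) ln14_13_3 ln14_13_3_ok))))) (B (M (nat_lit 395) (B (L (nat_lit 431) ln15_13_3 ln15_13_3_ok) (M (nat_lit 394) (B (L (nat_lit 397) ln10_12_0 ln10_12_0_ok) (L (nat_lit 427) ln14_13_3 ln14_13_3_ok))))) (B (M (nat_lit 431) (B (L (nat_lit 395) ln15_13_3 ln15_13_3_ok) (M (nat_lit 400) (B (L (nat_lit 399) ln12_13_2 ln12_13_2_ok) (M (nat_lit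 432) (B (L (nat_lit 397) ln16_13_3 ln16_13_3_ok) (L (nat_lit 401) ln13_13_2 ln13_13_2_ok))))))) (B (M (nat_lit 431) (B (M (nat_lit 400) (B (L (nat_lit 399) ln12_13_2 ln12_13_2_ok) (M (nat_lit 432) (B (L (nat_lit 397) ln16_13_3 ln16_13_3_ok) (L (nat_lit 401) ln13_13_2 ln13_13_2_ok))))) (M (nat_lit 427) (B (M (nat_lit 459) (B (L (nat_lit 458) ln14_13_1 ln14_13_1_ok) (L (nat_lit 460) ln15_13_1 ln15_13_1_ok))) (M (nat_lit 463) (B (L (nat_lit 462) ln11_13_0 ln11_13_0_ok) (L (nat_lit 464) ln12_13_0 ln12_13_0_ok))))))) (M (nat_lit 364) (B (M (nat_lit 461) (B (L (nat_lit 332) ln12_10_4 ln12_10_4_ok) (M (nat_lit 493) (B (L (nat_lit 397) ln13_15_7 ln13_15_7_ok) (L (nat_lit 460) ln12_11_4 ln12_11_4_ok))))) (B (M (nat_lit 459) (B (M (nat_lit 427) (B (L (nat_lit 458) ln14_13_1 ln14_13_1_ok) (M (nat_lit 395) (B (L (nat_lit 491) ln11_15_6 ln11_15_6_ok) (L (nat_lit 394) ln14_13_3 ln14_13_3_ok)))))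 (B (M (nat_lit 427) (B (L (nat_lit 458) ln14_13_1 ln14_13_1_ok) (M (nat_lit 491) (B (L (nat_lit 395) ln11_15_6 ln11_15_6_ok) (L (nat_lit 460) ln12_11_5 ln12_11_5_ok))))) (B (M (nat_lit 460) (B (L (nat_lit 491) ln12_11_5 ln12_11_5_ok) (M (nat_lit 458) (B (L (nat_lit 427) ln14_13_1 ln14_13_1_ok) (L (nat_lit 457) ln9_14_2 ln9_14_2_ok))))) (B (M (nat_lit 460) (B (L (nat_lit 491) ln12_11_5 ln12_11_5_ok) (M (nat_lit 458) (B (L (nat_lit 457) ln9_14_2 ln9_14_2_ok) (L (nat_lit 461) ln10_14_2 ln10_14_2_ok))))) (B (M (nat_lit 395) (B (M (nat_lit 491) (B (L (nat_lit 427) ln11_15_6 ln11_15_6_ok) (L (nat_lit 460) ln12_11_5 ln12_11_5_ok))) (M (nat_lit 394) (B (L (nat_lit 393) ln9_12_0 ln9_12_0_ok) (L (nat_lit 397) ln10_12_0 ln10_12_0_ok))))) (M (nat_lit 458) (B (L (nat_lit 427) ln14_13_1 ln14_13_1_ok) (M (nat_lit 460) (B (L (nat_lit 457) ln9_14_2 ln9_14_2_ok) (L (nat_lit 461) ln10_14_2 ln10_14_2_ok)))))))))))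 (B (M (nat_lit 461) (B (L (nat_lit 332) ln12_10_4 ln12_10_4_ok) (M (nat_lit 493) (B (L (nat_lit 460) ln12_11_4 ln12_11_4_ok) (L (nat_lit 525) ln13_16_7 ln13_16_7_ok))))) (B (M (nat_lit 461) (B (L (nat_lit 332) ln12_10_4 ln12_10_4_ok) (M (nat_lit 493) (B (L (nat_lit 397) ln13_15_7 ln13_15_7_ok) (L (nat_lit 525) ln13_16_7 ln13_16_7_ok))))) (M (nat_lit 460) (B (M (nat_lit 459) (B (L (nat_lit 491) ln12_11_5 ln12_11_5_ok) (M (nat_lit 427) (B (L (nat_lit 332) ln12_10_5 ln12_10_5_ok) (L (nat_lit 458) ln14_13_1 ln14_13_1_ok))))) (B (M (nat_lit 459) (B (L (nat_lit 491) ln12_11_5 ln12_11_5_ok) (M (nat_lit 458) (B (L (nat_lit 427) ln14_13_1 ln14_13_1_ok) (L (nat_lit 457) ln9_14_2 ln9_14_2_ok))))) (M (nat_lit 332) (B (M (nat_lit 331) (B (L (nat_lit 299) ln12_13_7 ln12_13_7_ok) (L (nat_lit 363) ln12_14_7 ln12_14_7_ok))) (M (nat_lit 333) (B (L (nat_lit 301) ln12_13_6 ln12_13_6_ok) (L (nat_lit 365)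 ln12_14_6 ln12_14_6_ok)))))))))))))))))) (B c41_n9622 (B (K (nat_lit 2079502270752001762064242424960807725827516048677469043429686155012882190638009693656033379242457518153052022685796627120027336704) (nat_lit 109836762587663119574318981096888677866263552852214504693514342450498203317015716559112192419146446406348139875771757893147071405494676572242235490085829083136) (nat_lit 109836762587663119574318981096888677866263552852214504693514342450498203317015716559112192419146446406348139875771757893147071405494676572242235490085829083136) c41_s9712) (B c41_n4923 (B (M (nat_lit 430) (B (M (nat_lit 395) (B (L (nat_lit 431) ln15_13_3 ln15_13_3_ok) (M (nat_lit 394) (B (L (nat_lit 393) ln9_12_0 ln9_12_0_ok) (L (nat_lit 397) ln10_12_0 ln10_12_0_ok))))) (B (M (nat_lit 395) (B (L (nat_lit 431) ln15_13_3 ln15_13_3_ok) (M (nat_lit 394) (B (L (nat_lit 397) ln10_12_0 ln10_12_0_ok) (L (nat_lit 427)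 ln14_13_3 ln14_13_3_ok))))) (B (M (nat_lit 427) (B (M (nat_lit 431) (B (L (nat_lit 395) ln15_13_3 ln15_13_3_ok) (M (nat_lit 463) (B (L (nat_lit 462) ln11_13_0 ln11_13_0_ok) (L (nat_lit 464) ln12_13_0 ln12_13_0_ok))))) (M (nat_lit 426) (B (M (nat_lit 397) (B (L (nat_lit 425) ln9_13_2 ln9_13_2_ok) (L (nat_lit 398) ln10_13_2 ln10_13_2_ok))) (M (nat_lit 458) (B (L (nat_lit 457) ln13_13_1 ln13_13_1_ok) (L (nat_lit 459) ln14_13_1 ln14_13_1_ok))))))) (B (M (nat_lit 461) (B (M (nat_lit 364) (B (L (nat_lit 332) ln12_10_4 ln12_10_4_ok) (M (nat_lit 493) (B (L (nat_lit 397) ln13_15_7 ln13_15_7_ok) (L (nat_lit 525) ln13_16_7 ln13_16_7_ok))))) (B (M (nat_lit 427) (B (M (nat_lit 462) (B (L (nat_lit 426) ln10_13_0 ln10_13_0_ok) (L (nat_lit 463) ln11_13_0 ln11_13_0_ok))) (B (M (nat_lit 431) (B (M (nat_lit 399) (B (L (nat_lit 398) ln11_13_2 ln11_13_2_ok) (L (nat_lit 400) ln12_13_2 ln12_13_2_ok))) (M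 (nat_lit 463) (B (L (nat_lit 462) ln11_13_0 ln11_13_0_ok) (L (nat_lit 464) ln12_13_0 ln12_13_0_ok))))) (M (nat_lit 426) (B (M (nat_lit 397) (B (L (nat_lit 425) ln9_13_2 ln9_13_2_ok) (L (nat_lit 398) ln10_13_2 ln10_13_2_ok))) (M (nat_lit 458) (B (L (nat_lit 457) ln13_13_1 ln13_13_1_ok) (L (nat_lit 459) ln14_13_1 ln14_13_1_ok)))))))) (M (nat_lit 398) (B (M (nat_lit 493) (B (L (nat_lit 525) ln13_16_7 ln13_16_7_ok) (M (nat_lit 366) (B (L (nat_lit 334) ln14_10_5 ln14_10_5_ok) (L (nat_lit 462) ln14_11_5 ln14_11_5_ok))))) (M (nat_lit 399) (B (L (nat_lit 427) ln11_13_2 ln11_13_2_ok) (M (nat_lit 400) (B (L (nat_lit 401) ln17_12_1 ln17_12_1_ok) (L (nat_lit 431) ln12_13_2 ln12_13_2_ok)))))))))) (B (M (nat_lit 395) (B (L (nat_lit 431) ln15_13_3 ln15_13_3_ok) (M (nat_lit 394) (B (L (nat_lit 393) ln9_12_0 ln9_12_0_ok) (L (nat_lit 427) ln14_13_3 ln14_13_3_ok))))) (M (nat_lit 395) (B (M (nat_lit 394)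 (B (L (nat_lit 393) ln9_12_0 ln9_12_0_ok) (L (nat_lit 397) ln10_12_0 ln10_12_0_ok))) (B (M (nat_lit 394) (B (L (nat_lit 397) ln10_12_0 ln10_12_0_ok) (L (nat_lit 427) ln14_13_3 ln14_13_3_ok))) (B (M (nat_lit 427) (B (M (nat_lit 459) (B (L (nat_lit 458) ln14_13_1 ln14_13_1_ok) (M (nat_lit 364) (B (L (nat_lit 332) ln12_10_5 ln12_10_5_ok) (L (nat_lit 491) ln11_15_6 ln11_15_6_ok))))) (M (nat_lit 426) (B (M (nat_lit 425) (B (L (nat_lit 424) ln8_13_2 ln8_13_2_ok) (L (nat_lit 397) ln9_13_2 ln9_13_2_ok))) (M (nat_lit 462) (B (L (nat_lit 461) ln10_13_0 ln10_13_0_ok) (L (nat_lit 463) ln11_13_0 ln11_13_0_ok))))))) (M (nat_lit 394) (B (L (nat_lit 393) ln9_12_0 ln9_12_0_ok) (L (nat_lit 427) ln14_13_3 ln14_13_3_ok))))))))))))) (M (nat_lit 430) (B (M (nat_lit 395) (B (L (nat_lit 431) ln15_13_3 ln15_13_3_ok) (M (nat_lit 394) (B (L (nat_lit 393) ln9_12_0 ln9_12_0_ok) (L (nat_lit 397) ln10_12_0 ln10_12_0_ok)))))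 (B (M (nat_lit 395) (B (L (nat_lit 431) ln15_13_3 ln15_13_3_ok) (M (nat_lit 394) (B (L (nat_lit 397) ln10_12_0 ln10_12_0_ok) (L (nat_lit 427) ln14_13_3 ln14_13_3_ok))))) (B (M (nat_lit 431) (B (L (nat_lit 395) ln15_13_3 ln15_13_3_ok) (M (nat_lit 400) (B (L (nat_lit 399) ln12_13_2 ln12_13_2_ok) (M (nat_lit 432) (B (L (nat_lit 397) ln16_13_3 ln16_13_3_ok) (L (nat_lit 401) ln13_13_2 ln13_13_2_ok))))))) (B (M (nat_lit 431) (B (M (nat_lit 400) (B (L (nat_lit 399) ln12_13_2 ln12_13_2_ok) (M (nat_lit 432) (B (L (nat_lit 397) ln16_13_3 ln16_13_3_ok) (L (nat_lit 401) ln13_13_2 ln13_13_2_ok))))) (M (nat_lit 427) (B (M (nat_lit 459) (B (L (nat_lit 458) ln14_13_1 ln14_13_1_ok) (L (nat_lit 460) ln15_13_1 ln15_13_1_ok))) (M (nat_lit 463) (B (L (nat_lit 462) ln11_13_0 ln11_13_0_ok) (L (nat_lit 464) ln12_13_0 ln12_13_0_ok))))))) (B (M (nat_lit 395) (B (L (nat_lit 431) ln15_13_3 ln15_13_3_ok) (M (nat_lit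 394) (B (L (nat_lit 393) ln9_12_0 ln9_12_0_ok) (L (nat_lit 427) ln14_13_3 ln14_13_3_ok))))) (M (nat_lit 427) (B (M (nat_lit 395) (B (L (nat_lit 394) ln14_13_3 ln14_13_3_ok) (M (nat_lit 459) (B (L (nat_lit 458) ln14_13_1 ln14_13_1_ok) (M (nat_lit 491) (B (L (nat_lit 364) ln11_15_6 ln11_15_6_ok) (L (nat_lit 523) ln11_16_6 ln11_16_6_ok))))))) (B (M (nat_lit 426) (B (M (nat_lit 394) (B (L (nat_lit 393) ln13_13_3 ln13_13_3_ok) (L (nat_lit 395) ln14_13_3 ln14_13_3_ok))) (M (nat_lit 398) (B (L (nat_lit 397) ln10_13_2 ln10_13_2_ok) (L (nat_lit 399) ln11_13_2 ln11_13_2_ok))))) (B (M (nat_lit 459) (B (L (nat_lit 458) ln14_13_1 ln14_13_1_ok) (M (nat_lit 364) (B (L (nat_lit 332) ln12_10_5 ln12_10_5_ok) (M (nat_lit 491) (B (L (nat_lit 395) ln11_15_6 ln11_15_6_ok) (L (nat_lit 523) ln11_16_6 ln11_16_6_ok))))))) (M (nat_lit 459) (B (L (nat_lit 458) ln14_13_1 ln14_13_1_ok) (M (nat_lit 364) (B (L (nat_lit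 332) ln12_10_5 ln12_10_5_ok) (M (nat_lit 491) (B (L (nat_lit 460) ln12_11_5 ln12_11_5_ok) (L (nat_lit 523) ln11_16_6 ln11_16_6_ok)))))))))))))))))))))))))))))) (nat_lit 1386334847221798047169638878925036799968406779833514899637066259859226863686603287896039777716422623628704219945445734162783797248) (nat_lit 356969478409905138677753953298741902690207147368029358380042078743832551889869813431987251365456690363308450360541924162816666785426508962918245048153767149568) (nat_lit 356969478409905138677753953298741902690207147368029358380042078743832551889869813431987251365456690363308450360541924162816666785426508962918245048153767149568) (by decide +kernel)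
noncomputable def c41_n9759 : Cert := (M (nat_lit 364) (B (M (nat_lit 332) (B (L (nat_lit 461) ln12_10_4 ln12_10_4_ok) (M (nat_lit 300) (B (L (nat_lit 397) ln12_9_4 ln12_9_4_ok) (M (nat_lit 299) (B (L (nat_lit 267) ln12_12_7 ln12_12_7_ok) (L (nat_lit 331) ln12_13_7 ln12_13_7_ok))))))) (B (M (nat_lit 332) (B (L (nat_lit 461) ln12_10_4 ln12_10_4_ok) (M (nat_lit 300) (B (L (nat_lit 397) ln12_9_4 ln12_9_4_ok) (M (nat_lit 427) (B (L (nat_lit 395) ln12_9_5 ln12_9_5_ok) (L (nat_lit 459) ln12_10_5 ln12_10_5_ok))))))) (B (M (nat_lit 332) (B (L (nat_lit 461) ln12_10_4 ln12_10_4_ok) (M (nat_lit 460) (B (M (nat_lit 333) (B (L (nat_lit 301) ln12_13_6 ln12_13_6_ok) (L (nat_lit 365) ln12_14_6 ln12_14_6_ok))) (M (nat_lit 459) (B (L (nat_lit 427) ln12_10_5 ln12_10_5_ok) (L (nat_lit 491) ln12_11_5 ln12_11_5_ok))))))) (B c41_n7628 (M (nat_lit 332) (B (M (nat_lit 300) (B (L (nat_lit 397) ln12_9_4 ln12_9_4_ok)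 (M (nat_lit 427) (B (L (nat_lit 395) ln12_9_5 ln12_9_5_ok) (L (nat_lit 459) ln12_10_5 ln12_10_5_ok))))) (M (nat_lit 460) (B (M (nat_lit 331) (B (L (nat_lit 299) ln12_13_7 ln12_13_7_ok) (L (nat_lit 363) ln12_14_7 ln12_14_7_ok))) (M (nat_lit 333) (B (L (nat_lit 301) ln12_13_6 ln12_13_6_ok) (L (nat_lit 365) ln12_14_6 ln12_14_6_ok))))))))))))
noncomputable def c41_n9764 : Cert := (M (nat_lit 430) (B (M (nat_lit 395) (B (L (nat_lit 431) ln15_13_3 ln15_13_3_ok) (M (nat_lit 394) (B (L (nat_lit 393) ln9_12_0 ln9_12_0_ok) (L (nat_lit 397) ln10_12_0 ln10_12_0_ok))))) (B (M (nat_lit 395) (B (L (nat_lit 431) ln15_13_3 ln15_13_3_ok) (M (nat_lit 394) (B (L (nat_lit 397) ln10_12_0 ln10_12_0_ok) (L (nat_lit 427) ln14_13_3 ln14_13_3_ok))))) (B (M (nat_lit 431) (B (L (nat_lit 395) ln15_13_3 ln15_13_3_ok) (M (nat_lit 400) (B (L (nat_lit 399) ln12_13_2 ln12_13_2_ok) (M (nat_lit 432) (B (L (nat_lit 397)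 ln16_13_3 ln16_13_3_ok) (L (nat_lit 401) ln13_13_2 ln13_13_2_ok))))))) (B (M (nat_lit 427) (B (M (nat_lit 398) (B (L (nat_lit 399) ln11_13_2 ln11_13_2_ok) (M (nat_lit 426) (B (L (nat_lit 397) ln10_13_2 ln10_13_2_ok) (M (nat_lit 462) (B (L (nat_lit 461) ln10_13_0 ln10_13_0_ok) (L (nat_lit 463) ln11_13_0 ln11_13_0_ok))))))) (B (M (nat_lit 431) (B (M (nat_lit 399) (B (L (nat_lit 398) ln11_13_2 ln11_13_2_ok) (L (nat_lit 400) ln12_13_2 ln12_13_2_ok))) (M (nat_lit 463) (B (L (nat_lit 462) ln11_13_0 ln11_13_0_ok) (L (nat_lit 464) ln12_13_0 ln12_13_0_ok))))) (B (M (nat_lit 431) (B (M (nat_lit 463) (B (L (nat_lit 462) ln11_13_0 ln11_13_0_ok) (L (nat_lit 464) ln12_13_0 ln12_13_0_ok))) (M (nat_lit 400) (B (L (nat_lit 399) ln12_13_2 ln12_13_2_ok) (M (nat_lit 432) (B (L (nat_lit 397) ln16_13_3 ln16_13_3_ok) (L (nat_lit 401) ln13_13_2 ln13_13_2_ok))))))) (B (M (nat_lit 426) (B (M (nat_lit 397) (B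 (L (nat_lit 425) ln9_13_2 ln9_13_2_ok) (L (nat_lit 398) ln10_13_2 ln10_13_2_ok))) (M (nat_lit 462) (B (L (nat_lit 461) ln10_13_0 ln10_13_0_ok) (L (nat_lit 463) ln11_13_0 ln11_13_0_ok))))) (M (nat_lit 431) (B (M (nat_lit 399) (B (L (nat_lit 398) ln11_13_2 ln11_13_2_ok) (L (nat_lit 400) ln12_13_2 ln12_13_2_ok))) (B (M (nat_lit 400) (B (L (nat_lit 399) ln12_13_2 ln12_13_2_ok) (M (nat_lit 432) (B (L (nat_lit 397) ln16_13_3 ln16_13_3_ok) (L (nat_lit 401) ln13_13_2 ln13_13_2_ok))))) (M (nat_lit 397) (B (L (nat_lit 432) ln16_13_3 ln16_13_3_ok) (M (nat_lit 426) (B (L (nat_lit 425) ln9_13_2 ln9_13_2_ok) (L (nat_lit 398) ln10_13_2 ln10_13_2_ok))))))))))))) (B (M (nat_lit 395) (B (L (nat_lit 431) ln15_13_3 ln15_13_3_ok) (M (nat_lit 394) (B (L (nat_lit 393) ln9_12_0 ln9_12_0_ok) (L (nat_lit 427) ln14_13_3 ln14_13_3_ok))))) (M (nat_lit 427) (B (M (nat_lit 398) (B (L (nat_lit 399) ln11_13_2 ln11_13_2_ok)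 (M (nat_lit 426) (B (L (nat_lit 397) ln10_13_2 ln10_13_2_ok) (M (nat_lit 462) (B (L (nat_lit 461) ln10_13_0 ln10_13_0_ok) (L (nat_lit 463) ln11_13_0 ln11_13_0_ok))))))) (B (M (nat_lit 426) (B (M (nat_lit 462) (B (L (nat_lit 461) ln10_13_0 ln10_13_0_ok) (L (nat_lit 463) ln11_13_0 ln11_13_0_ok))) (M (nat_lit 425) (B (M (nat_lit 395) (B (L (nat_lit 394) ln14_13_3 ln14_13_3_ok) (L (nat_lit 424) ln8_13_2 ln8_13_2_ok))) (M (nat_lit 457) (B (L (nat_lit 456) ln12_13_1 ln12_13_1_ok) (L (nat_lit 458) ln13_13_1 ln13_13_1_ok))))))) (B (M (nat_lit 398) (B (L (nat_lit 399) ln11_13_2 ln11_13_2_ok) (M (nat_lit 397) (B (M (nat_lit 462) (B (L (nat_lit 463) ln11_13_0 ln11_13_0_ok) (M (nat_lit 365) (B (L (nat_lit 333) ln13_10_4 ln13_10_4_ok) (L (nat_lit 494) ln14_15_7 ln14_15_7_ok))))) (M (nat_lit 366) (B (M (nat_lit 334) (B (L (nat_lit 302) ln14_9_5 ln14_9_5_ok) (L (nat_lit 461) ln14_10_5 ln14_10_5_ok)))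 (M (nat_lit 395) (B (L (nat_lit 367) ln11_12_2 ln11_12_2_ok) (L (nat_lit 394) ln10_12_0 ln10_12_0_ok))))))))) (M (nat_lit 426) (B (M (nat_lit 397) (B (L (nat_lit 425) ln9_13_2 ln9_13_2_ok) (L (nat_lit 398) ln10_13_2 ln10_13_2_ok))) (B (M (nat_lit 425) (B (M (nat_lit 395) (B (L (nat_lit 394) ln14_13_3 ln14_13_3_ok) (L (nat_lit 424) ln8_13_2 ln8_13_2_ok))) (M (nat_lit 457) (B (L (nat_lit 456) ln12_13_1 ln12_13_1_ok) (L (nat_lit 458) ln13_13_1 ln13_13_1_ok))))) (M (nat_lit 398) (B (L (nat_lit 397) ln10_13_2 ln10_13_2_ok) (L (nat_lit 399) ln11_13_2 ln11_13_2_ok))))))))))))))))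
theorem c41_s9767 : Sem (nat_lit 1386334847221798047169638878925036799968406779833514899637066259859226863686603287896039777716422623628704219945445734162783797248) (nat_lit 82377571991894068016383617155747151746196926173950884011907818542491717647338285847077863782553961839445832583847322228387100969933241111164967305984102891520) (nat_lit 82377571991894068016383617155747151746196926173950884011907818542491717647338285847077863782553961839445832583847322228387100969933241111164967305984102891520) :=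
  sem_of_chk (M (nat_lit 428) (B (M (nat_lit 430) (B (M (nat_lit 395) (B (L (nat_lit 431) ln15_13_3 ln15_13_3_ok) (M (nat_lit 394) (B (L (nat_lit 393) ln9_12_0 ln9_12_0_ok) (L (nat_lit 397) ln10_12_0 ln10_12_0_ok))))) (B (M (nat_lit 395) (B (L (nat_lit 431) ln15_13_3 ln15_13_3_ok) (M (nat_lit 394) (B (L (nat_lit 397) ln10_12_0 ln10_12_0_ok) (L (nat_lit 427) ln14_13_3 ln14_13_3_ok))))) (B (M (nat_lit 431) (B (L (nat_lit 395) ln15_13_3 ln15_13_3_ok) (M (nat_lit 400) (B (L (nat_lit 399) ln12_13_2 ln12_13_2_ok) (M (nat_lit 432) (B (L (nat_lit 397) ln16_13_3 ln16_13_3_ok) (L (nat_lit 401) ln13_13_2 ln13_13_2_ok))))))) (B (M (nat_lit 431) (B (M (nat_lit 460) (B (L (nat_lit 459) ln15_13_1 ln15_13_1_ok) (M (nat_lit 432) (B (L (nat_lit 397) ln16_13_3 ln16_13_3_ok) (L (nat_lit 461) ln16_13_1 ln16_13_1_ok))))) (B (M (nat_lit 427) (B (M (nat_lit 399) (B (L (nat_lit 398) ln11_13_2 ln11_13_2_ok)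 (L (nat_lit 400) ln12_13_2 ln12_13_2_ok))) (M (nat_lit 459) (B (L (nat_lit 458) ln14_13_1 ln14_13_1_ok) (L (nat_lit 460) ln15_13_1 ln15_13_1_ok))))) (M (nat_lit 400) (B (L (nat_lit 399) ln12_13_2 ln12_13_2_ok) (M (nat_lit 432) (B (L (nat_lit 397) ln16_13_3 ln16_13_3_ok) (L (nat_lit 401) ln13_13_2 ln13_13_2_ok)))))))) (B (M (nat_lit 395) (B (L (nat_lit 431) ln15_13_3 ln15_13_3_ok) (M (nat_lit 394) (B (L (nat_lit 393) ln9_12_0 ln9_12_0_ok) (L (nat_lit 427) ln14_13_3 ln14_13_3_ok))))) (M (nat_lit 427) (B (M (nat_lit 395) (B (L (nat_lit 394) ln14_13_3 ln14_13_3_ok) (M (nat_lit 459) (B (L (nat_lit 458) ln14_13_1 ln14_13_1_ok) (M (nat_lit 491) (B (L (nat_lit 364) ln11_15_6 ln11_15_6_ok) (L (nat_lit 523) ln11_16_6 ln11_16_6_ok))))))) (B (M (nat_lit 426) (B (M (nat_lit 394) (B (L (nat_lit 393) ln13_13_3 ln13_13_3_ok) (L (nat_lit 395) ln14_13_3 ln14_13_3_ok))) (M (nat_lit 398) (B (L (nat_lit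 397) ln10_13_2 ln10_13_2_ok) (L (nat_lit 399) ln11_13_2 ln11_13_2_ok))))) (M (nat_lit 426) (B (M (nat_lit 398) (B (L (nat_lit 397) ln10_13_2 ln10_13_2_ok) (L (nat_lit 399) ln11_13_2 ln11_13_2_ok))) (M (nat_lit 458) (B (L (nat_lit 457) ln13_13_1 ln13_13_1_ok) (L (nat_lit 459) ln14_13_1 ln14_13_1_ok)))))))))))))) (B (M (nat_lit 430) (B (M (nat_lit 395) (B (L (nat_lit 431) ln15_13_3 ln15_13_3_ok) (M (nat_lit 394) (B (L (nat_lit 393) ln9_12_0 ln9_12_0_ok) (L (nat_lit 427) ln14_13_3 ln14_13_3_ok))))) (B (M (nat_lit 395) (B (L (nat_lit 431) ln15_13_3 ln15_13_3_ok) (M (nat_lit 394) (B (L (nat_lit 397) ln10_12_0 ln10_12_0_ok) (L (nat_lit 427) ln14_13_3 ln14_13_3_ok))))) (B (M (nat_lit 431) (B (L (nat_lit 395) ln15_13_3 ln15_13_3_ok) (M (nat_lit 400) (B (L (nat_lit 399) ln12_13_2 ln12_13_2_ok) (M (nat_lit 432) (B (L (nat_lit 397) ln16_13_3 ln16_13_3_ok) (L (nat_lit 401) ln13_13_2 ln13_13_2_ok)))))))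 (B (M (nat_lit 431) (B (M (nat_lit 400) (B (L (nat_lit 399) ln12_13_2 ln12_13_2_ok) (M (nat_lit 432) (B (L (nat_lit 397) ln16_13_3 ln16_13_3_ok) (L (nat_lit 401) ln13_13_2 ln13_13_2_ok))))) (M (nat_lit 427) (B (M (nat_lit 459) (B (L (nat_lit 458) ln14_13_1 ln14_13_1_ok) (L (nat_lit 460) ln15_13_1 ln15_13_1_ok))) (M (nat_lit 463) (B (L (nat_lit 462) ln11_13_0 ln11_13_0_ok) (L (nat_lit 464) ln12_13_0 ln12_13_0_ok))))))) (M (nat_lit 427) (B (M (nat_lit 398) (B (L (nat_lit 399) ln11_13_2 ln11_13_2_ok) (M (nat_lit 426) (B (L (nat_lit 397) ln10_13_2 ln10_13_2_ok) (M (nat_lit 462) (B (L (nat_lit 461) ln10_13_0 ln10_13_0_ok) (L (nat_lit 463) ln11_13_0 ln11_13_0_ok))))))) (B (M (nat_lit 426) (B (M (nat_lit 394) (B (L (nat_lit 393) ln13_13_3 ln13_13_3_ok) (L (nat_lit 395) ln14_13_3 ln14_13_3_ok))) (M (nat_lit 458) (B (L (nat_lit 457) ln13_13_1 ln13_13_1_ok) (L (nat_lit 459) ln14_13_1 ln14_13_1_ok)))))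 (M (nat_lit 398) (B (L (nat_lit 399) ln11_13_2 ln11_13_2_ok) (M (nat_lit 397) (B (M (nat_lit 462) (B (L (nat_lit 463) ln11_13_0 ln11_13_0_ok) (M (nat_lit 365) (B (L (nat_lit 333) ln13_10_4 ln13_10_4_ok) (L (nat_lit 494) ln14_15_7 ln14_15_7_ok))))) (M (nat_lit 366) (B (M (nat_lit 334) (B (L (nat_lit 302) ln14_9_5 ln14_9_5_ok) (L (nat_lit 461) ln14_10_5 ln14_10_5_ok))) (M (nat_lit 395) (B (L (nat_lit 367) ln11_12_2 ln11_12_2_ok) (L (nat_lit 394) ln10_12_0 ln10_12_0_ok))))))))))))))))) (B (M (nat_lit 459) (B (M (nat_lit 460) (B (M (nat_lit 364) (B (L (nat_lit 491) ln12_11_5 ln12_11_5_ok) (M (nat_lit 332) (B (L (nat_lit 427) ln12_10_5 ln12_10_5_ok) (L (nat_lit 461) ln12_10_4 ln12_10_4_ok))))) (B (M (nat_lit 430) (B (L (nat_lit 431) ln15_13_1 ln15_13_1_ok) (M (nat_lit 458) (B (L (nat_lit 427) ln14_13_1 ln14_13_1_ok) (L (nat_lit 457) ln9_14_2 ln9_14_2_ok))))) (M (nat_lit 430) (B (L (nat_lit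 431) ln15_13_1 ln15_13_1_ok) (M (nat_lit 458) (B (L (nat_lit 457) ln9_14_2 ln9_14_2_ok) (L (nat_lit 461) ln10_14_2 ln10_14_2_ok)))))))) (B (M (nat_lit 430) (B (M (nat_lit 431) (B (L (nat_lit 395) ln15_13_3 ln15_13_3_ok) (L (nat_lit 460) ln15_13_1 ln15_13_1_ok))) (B (M (nat_lit 458) (B (L (nat_lit 427) ln14_13_1 ln14_13_1_ok) (M (nat_lit 460) (B (L (nat_lit 457) ln9_14_2 ln9_14_2_ok) (L (nat_lit 461) ln10_14_2 ln10_14_2_ok))))) (M (nat_lit 427) (B (L (nat_lit 458) ln14_13_1 ln14_13_1_ok) (M (nat_lit 395) (B (L (nat_lit 394) ln14_13_3 ln14_13_3_ok) (L (nat_lit 431) ln15_13_3 ln15_13_3_ok)))))))) (B (M (nat_lit 460) (B (M (nat_lit 430) (B (L (nat_lit 431) ln15_13_1 ln15_13_1_ok) (M (nat_lit 458) (B (L (nat_lit 457) ln9_14_2 ln9_14_2_ok) (L (nat_lit 461) ln10_14_2 ln10_14_2_ok))))) (M (nat_lit 492) (B (M (nat_lit 491) (B (L (nat_lit 364) ln12_11_5 ln12_11_5_ok) (L (nat_lit 523) ln12_12_5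 ln12_12_5_ok))) (M (nat_lit 397) (B (L (nat_lit 365) ln12_15_6 ln12_15_6_ok) (L (nat_lit 524) ln12_16_6 ln12_16_6_ok))))))) (B (M (nat_lit 364) (B (M (nat_lit 332) (B (L (nat_lit 427) ln12_10_5 ln12_10_5_ok) (L (nat_lit 461) ln12_10_4 ln12_10_4_ok))) (B (M (nat_lit 491) (B (L (nat_lit 460) ln12_11_5 ln12_11_5_ok) (M (nat_lit 427) (B (L (nat_lit 395) ln11_15_6 ln11_15_6_ok) (L (nat_lit 523) ln11_16_6 ln11_16_6_ok))))) (M (nat_lit 333) (B (M (nat_lit 332) (B (L (nat_lit 301) ln12_13_6 ln12_13_6_ok) (L (nat_lit 461) ln12_10_4 ln12_10_4_ok))) (M (nat_lit 460) (B (L (nat_lit 365) ln12_14_6 ln12_14_6_ok) (L (nat_lit 491) ln12_11_5 ln12_11_5_ok)))))))) (M (nat_lit 427) (B (M (nat_lit 430) (B (L (nat_lit 458) ln14_13_1 ln14_13_1_ok) (M (nat_lit 395) (B (L (nat_lit 394) ln14_13_3 ln14_13_3_ok) (L (nat_lit 431) ln15_13_3 ln15_13_3_ok))))) (B (M (nat_lit 364) (B (L (nat_lit 332) ln12_10_5 ln12_10_5_ok)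 (M (nat_lit 491) (B (L (nat_lit 395) ln11_15_6 ln11_15_6_ok) (L (nat_lit 523) ln11_16_6 ln11_16_6_ok))))) (M (nat_lit 458) (B (L (nat_lit 430) ln14_13_1 ln14_13_1_ok) (M (nat_lit 457) (B (L (nat_lit 426) ln13_13_1 ln13_13_1_ok) (L (nat_lit 456) ln8_14_2 ln8_14_2_ok))))))))))))) (B (M (nat_lit 459) (B (M (nat_lit 460) (B (M (nat_lit 364) (B (L (nat_lit 491) ln12_11_5 ln12_11_5_ok) (M (nat_lit 332) (B (L (nat_lit 427) ln12_10_5 ln12_10_5_ok) (L (nat_lit 461) ln12_10_4 ln12_10_4_ok))))) (B (M (nat_lit 430) (B (L (nat_lit 431) ln15_13_1 ln15_13_1_ok) (M (nat_lit 458) (B (L (nat_lit 427) ln14_13_1 ln14_13_1_ok) (L (nat_lit 457) ln9_14_2 ln9_14_2_ok))))) (M (nat_lit 430) (B (L (nat_lit 431) ln15_13_1 ln15_13_1_ok) (M (nat_lit 458) (B (L (nat_lit 457) ln9_14_2 ln9_14_2_ok) (L (nat_lit 461) ln10_14_2 ln10_14_2_ok)))))))) (B (M (nat_lit 430) (B (M (nat_lit 431) (B (L (nat_lit 395) ln15_13_3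 ln15_13_3_ok) (L (nat_lit 460) ln15_13_1 ln15_13_1_ok))) (B (M (nat_lit 458) (B (L (nat_lit 427) ln14_13_1 ln14_13_1_ok) (M (nat_lit 460) (B (L (nat_lit 457) ln9_14_2 ln9_14_2_ok) (L (nat_lit 461) ln10_14_2 ln10_14_2_ok))))) (M (nat_lit 463) (B (M (nat_lit 427) (B (L (nat_lit 458) ln14_13_1 ln14_13_1_ok) (L (nat_lit 462) ln11_13_0 ln11_13_0_ok))) (M (nat_lit 431) (B (L (nat_lit 395) ln15_13_3 ln15_13_3_ok) (L (nat_lit 464) ln12_13_0 ln12_13_0_ok)))))))) (B (M (nat_lit 460) (B (M (nat_lit 430) (B (L (nat_lit 431) ln15_13_1 ln15_13_1_ok) (M (nat_lit 458) (B (L (nat_lit 457) ln9_14_2 ln9_14_2_ok) (L (nat_lit 461) ln10_14_2 ln10_14_2_ok))))) (M (nat_lit 492) (B (M (nat_lit 491) (B (L (nat_lit 364) ln12_11_5 ln12_11_5_ok) (L (nat_lit 523) ln12_12_5 ln12_12_5_ok))) (M (nat_lit 397) (B (L (nat_lit 365) ln12_15_6 ln12_15_6_ok) (L (nat_lit 524) ln12_16_6 ln12_16_6_ok))))))) (B (M (nat_lit 364)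 (B (M (nat_lit 332) (B (L (nat_lit 427) ln12_10_5 ln12_10_5_ok) (L (nat_lit 461) ln12_10_4 ln12_10_4_ok))) (B (M (nat_lit 491) (B (L (nat_lit 460) ln12_11_5 ln12_11_5_ok) (M (nat_lit 427) (B (L (nat_lit 395) ln11_15_6 ln11_15_6_ok) (L (nat_lit 523) ln11_16_6 ln11_16_6_ok))))) (M (nat_lit 333) (B (M (nat_lit 332) (B (L (nat_lit 301) ln12_13_6 ln12_13_6_ok) (L (nat_lit 461) ln12_10_4 ln12_10_4_ok))) (M (nat_lit 460) (B (L (nat_lit 365) ln12_14_6 ln12_14_6_ok) (L (nat_lit 491) ln12_11_5 ln12_11_5_ok)))))))) (M (nat_lit 427) (B (M (nat_lit 458) (B (L (nat_lit 430) ln14_13_1 ln14_13_1_ok) (M (nat_lit 457) (B (L (nat_lit 426) ln13_13_1 ln13_13_1_ok) (L (nat_lit 456) ln8_14_2 ln8_14_2_ok))))) (M (nat_lit 364) (B (L (nat_lit 332) ln12_10_5 ln12_10_5_ok) (M (nat_lit 491) (B (L (nat_lit 395) ln11_15_6 ln11_15_6_ok) (L (nat_lit 523) ln11_16_6 ln11_16_6_ok)))))))))))) (B (M (nat_lit 364) (B (M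 (nat_lit 332) (B (L (nat_lit 461) ln12_10_4 ln12_10_4_ok) (M (nat_lit 300) (B (L (nat_lit 397) ln12_9_4 ln12_9_4_ok) (M (nat_lit 301) (B (L (nat_lit 269) ln12_12_6 ln12_12_6_ok) (L (nat_lit 333) ln12_13_6 ln12_13_6_ok))))))) (B (M (nat_lit 460) (B (M (nat_lit 459) (B (L (nat_lit 491) ln12_11_5 ln12_11_5_ok) (M (nat_lit 332) (B (L (nat_lit 427) ln12_10_5 ln12_10_5_ok) (L (nat_lit 461) ln12_10_4 ln12_10_4_ok))))) (B (M (nat_lit 365) (B (L (nat_lit 333) ln12_14_6 ln12_14_6_ok) (M (nat_lit 492) (B (L (nat_lit 397) ln12_15_6 ln12_15_6_ok) (M (nat_lit 491) (B (L (nat_lit 459) ln12_11_5 ln12_11_5_ok) (L (nat_lit 523) ln12_12_5 ln12_12_5_ok))))))) (M (nat_lit 397) (B (M (nat_lit 332) (B (L (nat_lit 300) ln12_9_4 ln12_9_4_ok) (L (nat_lit 461) ln12_10_4 ln12_10_4_ok))) (M (nat_lit 365) (B (L (nat_lit 333) ln12_14_6 ln12_14_6_ok) (L (nat_lit 492) ln12_15_6 ln12_15_6_ok)))))))) (B (M (nat_lit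 460) (B (M (nat_lit 459) (B (L (nat_lit 491) ln12_11_5 ln12_11_5_ok) (M (nat_lit 332) (B (L (nat_lit 427) ln12_10_5 ln12_10_5_ok) (L (nat_lit 461) ln12_10_4 ln12_10_4_ok))))) (B (M (nat_lit 365) (B (L (nat_lit 333) ln12_14_6 ln12_14_6_ok) (M (nat_lit 492) (B (L (nat_lit 397) ln12_15_6 ln12_15_6_ok) (M (nat_lit 491) (B (L (nat_lit 459) ln12_11_5 ln12_11_5_ok) (L (nat_lit 523) ln12_12_5 ln12_12_5_ok))))))) (M (nat_lit 333) (B (L (nat_lit 365) ln12_14_6 ln12_14_6_ok) (M (nat_lit 332) (B (L (nat_lit 301) ln12_13_6 ln12_13_6_ok) (L (nat_lit 461) ln12_10_4 ln12_10_4_ok)))))))) (B (M (nat_lit 460) (B (M (nat_lit 365) (B (L (nat_lit 333) ln12_14_6 ln12_14_6_ok) (M (nat_lit 492) (B (L (nat_lit 397) ln12_15_6 ln12_15_6_ok) (M (nat_lit 491) (B (L (nat_lit 459) ln12_11_5 ln12_11_5_ok) (L (nat_lit 523) ln12_12_5 ln12_12_5_ok))))))) (B (M (nat_lit 459) (B (L (nat_lit 491) ln12_11_5 ln12_11_5_ok)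 (M (nat_lit 430) (B (L (nat_lit 431) ln15_13_1 ln15_13_1_ok) (M (nat_lit 458) (B (L (nat_lit 427) ln14_13_1 ln14_13_1_ok) (L (nat_lit 457) ln9_14_2 ln9_14_2_ok))))))) (M (nat_lit 365) (B (L (nat_lit 333) ln12_14_6 ln12_14_6_ok) (M (nat_lit 397) (B (L (nat_lit 492) ln12_15_6 ln12_15_6_ok) (M (nat_lit 363) (B (L (nat_lit 331) ln12_14_7 ln12_14_7_ok) (M (nat_lit 398) (B (L (nat_lit 362) ln10_11_0 ln10_11_0_ok) (L (nat_lit 399) ln15_12_3 ln15_12_3_ok)))))))))))) (B (M (nat_lit 332) (B (L (nat_lit 461) ln12_10_4 ln12_10_4_ok) (M (nat_lit 397) (B (L (nat_lit 300) ln12_9_4 ln12_9_4_ok) (M (nat_lit 427) (B (L (nat_lit 459) ln12_10_5 ln12_10_5_ok) (M (nat_lit 426) (B (L (nat_lit 425) ln9_13_2 ln9_13_2_ok) (L (nat_lit 398) ln10_13_2 ln10_13_2_ok))))))))) (M (nat_lit 332) (B (L (nat_lit 461) ln12_10_4 ln12_10_4_ok) (M (nat_lit 460) (B (M (nat_lit 333) (B (L (nat_lit 301) ln12_13_6 ln12_13_6_ok)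 (L (nat_lit 365) ln12_14_6 ln12_14_6_ok))) (M (nat_lit 459) (B (L (nat_lit 427) ln12_10_5 ln12_10_5_ok) (L (nat_lit 491) ln12_11_5 ln12_11_5_ok))))))))))))) (B (M (nat_lit 430) (B (M (nat_lit 395) (B (L (nat_lit 431) ln15_13_3 ln15_13_3_ok) (M (nat_lit 394) (B (L (nat_lit 393) ln9_12_0 ln9_12_0_ok) (L (nat_lit 427) ln14_13_3 ln14_13_3_ok))))) (B (M (nat_lit 427) (B (M (nat_lit 395) (B (L (nat_lit 394) ln14_13_3 ln14_13_3_ok) (L (nat_lit 431) ln15_13_3 ln15_13_3_ok))) (B (M (nat_lit 431) (B (L (nat_lit 395) ln15_13_3 ln15_13_3_ok) (M (nat_lit 399) (B (L (nat_lit 398) ln11_13_2 ln11_13_2_ok) (L (nat_lit 400) ln12_13_2 ln12_13_2_ok))))) (M (nat_lit 426) (B (M (nat_lit 458) (B (L (nat_lit 457) ln13_13_1 ln13_13_1_ok) (L (nat_lit 459) ln14_13_1 ln14_13_1_ok))) (M (nat_lit 462) (B (L (nat_lit 461) ln10_13_0 ln10_13_0_ok) (L (nat_lit 463) ln11_13_0 ln11_13_0_ok)))))))) (B (M (nat_lit 427)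 (B (M (nat_lit 431) (B (L (nat_lit 395) ln15_13_3 ln15_13_3_ok) (M (nat_lit 399) (B (L (nat_lit 398) ln11_13_2 ln11_13_2_ok) (L (nat_lit 400) ln12_13_2 ln12_13_2_ok))))) (M (nat_lit 426) (B (M (nat_lit 458) (B (L (nat_lit 457) ln13_13_1 ln13_13_1_ok) (L (nat_lit 459) ln14_13_1 ln14_13_1_ok))) (M (nat_lit 462) (B (L (nat_lit 461) ln10_13_0 ln10_13_0_ok) (L (nat_lit 463) ln11_13_0 ln11_13_0_ok))))))) (B (M (nat_lit 427) (B (M (nat_lit 426) (B (M (nat_lit 458) (B (L (nat_lit 457) ln13_13_1 ln13_13_1_ok) (L (nat_lit 459) ln14_13_1 ln14_13_1_ok))) (M (nat_lit 462) (B (L (nat_lit 461) ln10_13_0 ln10_13_0_ok) (L (nat_lit 463) ln11_13_0 ln11_13_0_ok))))) (B (M (nat_lit 431) (B (M (nat_lit 399) (B (L (nat_lit 398) ln11_13_2 ln11_13_2_ok) (L (nat_lit 400) ln12_13_2 ln12_13_2_ok))) (M (nat_lit 463) (B (L (nat_lit 462) ln11_13_0 ln11_13_0_ok) (L (nat_lit 464) ln12_13_0 ln12_13_0_ok))))) (M (nat_lit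 431) (B (M (nat_lit 399) (B (L (nat_lit 398) ln11_13_2 ln11_13_2_ok) (L (nat_lit 400) ln12_13_2 ln12_13_2_ok))) (M (nat_lit 459) (B (L (nat_lit 458) ln14_13_1 ln14_13_1_ok) (L (nat_lit 460) ln15_13_1 ln15_13_1_ok)))))))) (B (M (nat_lit 431) (B (L (nat_lit 395) ln15_13_3 ln15_13_3_ok) (M (nat_lit 432) (B (M (nat_lit 400) (B (L (nat_lit 399) ln12_13_2 ln12_13_2_ok) (L (nat_lit 401) ln13_13_2 ln13_13_2_ok))) (M (nat_lit 460) (B (L (nat_lit 459) ln15_13_1 ln15_13_1_ok) (L (nat_lit 461) ln16_13_1 ln16_13_1_ok))))))) (M (nat_lit 427) (B (M (nat_lit 395) (B (L (nat_lit 394) ln14_13_3 ln14_13_3_ok) (M (nat_lit 459) (B (L (nat_lit 458) ln14_13_1 ln14_13_1_ok) (M (nat_lit 364) (B (L (nat_lit 332) ln12_10_5 ln12_10_5_ok) (L (nat_lit 491) ln11_15_6 ln11_15_6_ok))))))) (B (M (nat_lit 426) (B (M (nat_lit 394) (B (L (nat_lit 393) ln13_13_3 ln13_13_3_ok) (L (nat_lit 395) ln14_13_3 ln14_13_3_ok)))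 (M (nat_lit 462) (B (L (nat_lit 461) ln10_13_0 ln10_13_0_ok) (L (nat_lit 463) ln11_13_0 ln11_13_0_ok))))) (M (nat_lit 426) (B (M (nat_lit 458) (B (L (nat_lit 457) ln13_13_1 ln13_13_1_ok) (L (nat_lit 459) ln14_13_1 ln14_13_1_ok))) (M (nat_lit 462) (B (L (nat_lit 461) ln10_13_0 ln10_13_0_ok) (L (nat_lit 463) ln11_13_0 ln11_13_0_ok)))))))))))))) (B (M (nat_lit 460) (B (M (nat_lit 395) (B (M (nat_lit 430) (B (L (nat_lit 431) ln15_13_3 ln15_13_3_ok) (M (nat_lit 394) (B (L (nat_lit 393) ln9_12_0 ln9_12_0_ok) (L (nat_lit 427) ln14_13_3 ln14_13_3_ok))))) (B (M (nat_lit 430) (B (L (nat_lit 431) ln15_13_3 ln15_13_3_ok) (M (nat_lit 394) (B (L (nat_lit 397) ln10_12_0 ln10_12_0_ok) (L (nat_lit 427) ln14_13_3 ln14_13_3_ok))))) (B (M (nat_lit 492) (B (L (nat_lit 363) ln12_15_7 ln12_15_7_ok) (M (nat_lit 524) (B (L (nat_lit 427) ln12_16_7 ln12_16_7_ok) (L (nat_lit 397) ln12_16_6 ln12_16_6_ok))))) (M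 (nat_lit 430) (B (L (nat_lit 431) ln15_13_3 ln15_13_3_ok) (M (nat_lit 394) (B (L (nat_lit 393) ln9_12_0 ln9_12_0_ok) (L (nat_lit 397) ln10_12_0 ln10_12_0_ok))))))))) (B (M (nat_lit 364) (B (M (nat_lit 459) (B (L (nat_lit 491) ln12_11_5 ln12_11_5_ok) (M (nat_lit 332) (B (L (nat_lit 427) ln12_10_5 ln12_10_5_ok) (L (nat_lit 461) ln12_10_4 ln12_10_4_ok))))) (B (M (nat_lit 365) (B (L (nat_lit 333) ln12_14_6 ln12_14_6_ok) (M (nat_lit 492) (B (L (nat_lit 397) ln12_15_6 ln12_15_6_ok) (M (nat_lit 491) (B (L (nat_lit 459) ln12_11_5 ln12_11_5_ok) (L (nat_lit 523) ln12_12_5 ln12_12_5_ok))))))) (M (nat_lit 333) (B (L (nat_lit 365) ln12_14_6 ln12_14_6_ok) (M (nat_lit 332) (B (L (nat_lit 301) ln12_13_6 ln12_13_6_ok) (L (nat_lit 461) ln12_10_4 ln12_10_4_ok)))))))) (B (M (nat_lit 395) (B (M (nat_lit 430) (B (L (nat_lit 431) ln15_13_3 ln15_13_3_ok) (M (nat_lit 394) (B (L (nat_lit 393) ln9_12_0 ln9_12_0_ok)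 (L (nat_lit 427) ln14_13_3 ln14_13_3_ok))))) (B (M (nat_lit 363) (B (L (nat_lit 492) ln12_15_7 ln12_15_7_ok) (M (nat_lit 331) (B (L (nat_lit 299) ln11_9_4 ln11_9_4_ok) (L (nat_lit 427) ln11_10_4 ln11_10_4_ok))))) (M (nat_lit 363) (B (L (nat_lit 492) ln12_15_7 ln12_15_7_ok) (M (nat_lit 331) (B (L (nat_lit 299) ln11_9_4 ln11_9_4_ok) (L (nat_lit 364) ln12_14_7 ln12_14_7_ok)))))))) (B (M (nat_lit 395) (B (M (nat_lit 430) (B (L (nat_lit 431) ln15_13_3 ln15_13_3_ok) (M (nat_lit 394) (B (L (nat_lit 393) ln9_12_0 ln9_12_0_ok) (L (nat_lit 397) ln10_12_0 ln10_12_0_ok))))) (M (nat_lit 363) (B (L (nat_lit 492) ln12_15_7 ln12_15_7_ok) (M (nat_lit 331) (B (L (nat_lit 299) ln11_9_4 ln11_9_4_ok) (L (nat_lit 364) ln12_14_7 ln12_14_7_ok))))))) (M (nat_lit 459) (B (M (nat_lit 430) (B (L (nat_lit 431) ln15_13_1 ln15_13_1_ok) (M (nat_lit 458) (B (L (nat_lit 427) ln14_13_1 ln14_13_1_ok) (L (nat_lit 457)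 ln9_14_2 ln9_14_2_ok))))) (B (M (nat_lit 430) (B (L (nat_lit 431) ln15_13_1 ln15_13_1_ok) (M (nat_lit 458) (B (L (nat_lit 457) ln9_14_2 ln9_14_2_ok) (L (nat_lit 461) ln10_14_2 ln10_14_2_ok))))) (M (nat_lit 364) (B (L (nat_lit 491) ln12_11_5 ln12_11_5_ok) (M (nat_lit 332) (B (L (nat_lit 427) ln12_10_5 ln12_10_5_ok) (L (nat_lit 461) ln12_10_4 ln12_10_4_ok))))))))))))) (B (M (nat_lit 364) (B (M (nat_lit 332) (B (L (nat_lit 461) ln12_10_4 ln12_10_4_ok) (M (nat_lit 300) (B (L (nat_lit 397) ln12_9_4 ln12_9_4_ok) (M (nat_lit 301) (B (L (nat_lit 269) ln12_12_6 ln12_12_6_ok) (L (nat_lit 333) ln12_13_6 ln12_13_6_ok))))))) (B (M (nat_lit 332) (B (L (nat_lit 461) ln12_10_4 ln12_10_4_ok) (M (nat_lit 300) (B (L (nat_lit 397) ln12_9_4 ln12_9_4_ok) (M (nat_lit 299) (B (L (nat_lit 267) ln12_12_7 ln12_12_7_ok) (L (nat_lit 331) ln12_13_7 ln12_13_7_ok))))))) (B (M (nat_lit 460) (B (M (nat_lit 333) (B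 (L (nat_lit 365) ln12_14_6 ln12_14_6_ok) (M (nat_lit 332) (B (L (nat_lit 301) ln12_13_6 ln12_13_6_ok) (L (nat_lit 461) ln12_10_4 ln12_10_4_ok))))) (B (M (nat_lit 332) (B (L (nat_lit 461) ln12_10_4 ln12_10_4_ok) (M (nat_lit 331) (B (L (nat_lit 299) ln12_13_7 ln12_13_7_ok) (L (nat_lit 363) ln12_14_7 ln12_14_7_ok))))) (M (nat_lit 365) (B (L (nat_lit 333) ln12_14_6 ln12_14_6_ok) (M (nat_lit 492) (B (L (nat_lit 397) ln12_15_6 ln12_15_6_ok) (M (nat_lit 491) (B (L (nat_lit 459) ln12_11_5 ln12_11_5_ok) (L (nat_lit 523) ln12_12_5 ln12_12_5_ok)))))))))) (B (M (nat_lit 460) (B (M (nat_lit 365) (B (L (nat_lit 333) ln12_14_6 ln12_14_6_ok) (M (nat_lit 492) (B (L (nat_lit 397) ln12_15_6 ln12_15_6_ok) (M (nat_lit 491) (B (L (nat_lit 459) ln12_11_5 ln12_11_5_ok) (L (nat_lit 523) ln12_12_5 ln12_12_5_ok))))))) (B (M (nat_lit 492) (B (M (nat_lit 363) (B (L (nat_lit 331) ln12_14_7 ln12_14_7_ok) (L (nat_lit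 395) ln12_15_7 ln12_15_7_ok))) (M (nat_lit 491) (B (L (nat_lit 459) ln12_11_5 ln12_11_5_ok) (L (nat_lit 523) ln12_12_5 ln12_12_5_ok))))) (B (M (nat_lit 492) (B (M (nat_lit 363) (B (L (nat_lit 331) ln12_14_7 ln12_14_7_ok) (L (nat_lit 395) ln12_15_7 ln12_15_7_ok))) (M (nat_lit 365) (B (L (nat_lit 333) ln12_14_6 ln12_14_6_ok) (L (nat_lit 397) ln12_15_6 ln12_15_6_ok))))) (M (nat_lit 459) (B (L (nat_lit 491) ln12_11_5 ln12_11_5_ok) (M (nat_lit 430) (B (L (nat_lit 431) ln15_13_1 ln15_13_1_ok) (M (nat_lit 458) (B (L (nat_lit 457) ln9_14_2 ln9_14_2_ok) (L (nat_lit 461) ln10_14_2 ln10_14_2_ok))))))))))) (B (M (nat_lit 460) (B (M (nat_lit 332) (B (L (nat_lit 461) ln12_10_4 ln12_10_4_ok) (M (nat_lit 331) (B (L (nat_lit 299) ln12_13_7 ln12_13_7_ok) (L (nat_lit 363) ln12_14_7 ln12_14_7_ok))))) (B (M (nat_lit 333) (B (L (nat_lit 365) ln12_14_6 ln12_14_6_ok) (M (nat_lit 332) (B (L (nat_lit 301) ln12_13_6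 ln12_13_6_ok) (L (nat_lit 461) ln12_10_4 ln12_10_4_ok))))) (M (nat_lit 492) (B (M (nat_lit 363) (B (L (nat_lit 331) ln12_14_7 ln12_14_7_ok) (L (nat_lit 395) ln12_15_7 ln12_15_7_ok))) (M (nat_lit 491) (B (L (nat_lit 459) ln12_11_5 ln12_11_5_ok) (L (nat_lit 523) ln12_12_5 ln12_12_5_ok)))))))) (M (nat_lit 332) (B (M (nat_lit 300) (B (L (nat_lit 397) ln12_9_4 ln12_9_4_ok) (M (nat_lit 299) (B (L (nat_lit 267) ln12_12_7 ln12_12_7_ok) (L (nat_lit 331) ln12_13_7 ln12_13_7_ok))))) (B (M (nat_lit 300) (B (L (nat_lit 397) ln12_9_4 ln12_9_4_ok) (M (nat_lit 301) (B (L (nat_lit 269) ln12_12_6 ln12_12_6_ok) (L (nat_lit 333) ln12_13_6 ln12_13_6_ok))))) (M (nat_lit 460) (B (M (nat_lit 331) (B (L (nat_lit 299) ln12_13_7 ln12_13_7_ok) (L (nat_lit 363) ln12_14_7 ln12_14_7_ok))) (M (nat_lit 333) (B (L (nat_lit 301) ln12_13_6 ln12_13_6_ok) (L (nat_lit 365) ln12_14_6 ln12_14_6_ok)))))))))))))) (B c41_n9759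 (B c41_n9764 (M (nat_lit 430) (B (M (nat_lit 395) (B (L (nat_lit 431) ln15_13_3 ln15_13_3_ok) (M (nat_lit 394) (B (L (nat_lit 393) ln9_12_0 ln9_12_0_ok) (L (nat_lit 427) ln14_13_3 ln14_13_3_ok))))) (B (M (nat_lit 395) (B (L (nat_lit 431) ln15_13_3 ln15_13_3_ok) (M (nat_lit 394) (B (L (nat_lit 397) ln10_12_0 ln10_12_0_ok) (L (nat_lit 427) ln14_13_3 ln14_13_3_ok))))) (B (M (nat_lit 431) (B (L (nat_lit 395) ln15_13_3 ln15_13_3_ok) (M (nat_lit 400) (B (L (nat_lit 399) ln12_13_2 ln12_13_2_ok) (M (nat_lit 432) (B (L (nat_lit 397) ln16_13_3 ln16_13_3_ok) (L (nat_lit 401) ln13_13_2 ln13_13_2_ok))))))) (B (M (nat_lit 431) (B (M (nat_lit 400) (B (L (nat_lit 399) ln12_13_2 ln12_13_2_ok) (M (nat_lit 432) (B (L (nat_lit 397) ln16_13_3 ln16_13_3_ok) (L (nat_lit 401) ln13_13_2 ln13_13_2_ok))))) (M (nat_lit 427) (B (M (nat_lit 459) (B (L (nat_lit 458) ln14_13_1 ln14_13_1_ok) (L (nat_lit 460) ln15_13_1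 ln15_13_1_ok))) (M (nat_lit 463) (B (L (nat_lit 462) ln11_13_0 ln11_13_0_ok) (L (nat_lit 464) ln12_13_0 ln12_13_0_ok))))))) (M (nat_lit 427) (B (M (nat_lit 395) (B (L (nat_lit 394) ln14_13_3 ln14_13_3_ok) (M (nat_lit 459) (B (L (nat_lit 458) ln14_13_1 ln14_13_1_ok) (M (nat_lit 364) (B (L (nat_lit 332) ln12_10_5 ln12_10_5_ok) (L (nat_lit 491) ln11_15_6 ln11_15_6_ok))))))) (B (M (nat_lit 426) (B (M (nat_lit 394) (B (L (nat_lit 393) ln13_13_3 ln13_13_3_ok) (L (nat_lit 395) ln14_13_3 ln14_13_3_ok))) (M (nat_lit 398) (B (L (nat_lit 397) ln10_13_2 ln10_13_2_ok) (L (nat_lit 399) ln11_13_2 ln11_13_2_ok))))) (M (nat_lit 426) (B (M (nat_lit 398) (B (L (nat_lit 397) ln10_13_2 ln10_13_2_ok) (L (nat_lit 399) ln11_13_2 ln11_13_2_ok))) (M (nat_lit 458) (B (L (nat_lit 457) ln13_13_1 ln13_13_1_ok) (L (nat_lit 459) ln14_13_1 ln14_13_1_ok)))))))))))))))))))))))) (nat_lit 1386334847221798047169638878925036799968406779833514899637066259859226863686603287896039777716422623628704219945445734162783797248)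 (nat_lit 82377571991894068016383617155747151746196926173950884011907818542491717647338285847077863782553961839445832583847322228387100969933241111164967305984102891520) (nat_lit 82377571991894068016383617155747151746196926173950884011907818542491717647338285847077863782553961839445832583847322228387100969933241111164967305984102891520) (by decide +kernel)
def c41_U : ℕ := 7597989935022816173838699460170822702629543668064721307333227504326916303775463174952528039370251068294170707563067620597096088187118657854689533901643073782103920616922922614784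
noncomputable def c41_kids : Cert := (B (K (nat_lit 1386334847221798047169638878925036799968406779833514899637066259859226863686603287896039777716422623628704219945445734162783797248) (nat_lit 235872651963234194321127316268224702991308502019514801505018180643695729142516606019307714236997094396121640578415466561593132672791984299132174827025789774643834388480) (nat_lit 235872651963234194321127316268224702991308502019514801505018180643695729142516606019307714236997094396121640578415466561593132672791984299132174827025789774643834388480) c41_s438) (B (K (nat_lit 1386334847221798047169638878925036799968406779833514899637066259859226863686603287896039777716422623628704219945445734162783797248) (nat_lit 825554280841600030608870219547455646483657767345602991543981085896279972327954929252322069366854199483836158891190529323737530004273876940163983214439238166158229110784) (nat_lit 825554280841600030608870219547455646483657767345602991543981085896279972327954929252322069366854199483836158891190529323737530004273876940163983214439238166158229110784)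 c41_s608) (B (K (nat_lit 1386334847221798047169638878925036799968406779833514899637066259859226863686603287896039777716422623628704219945445734162783797248) (nat_lit 235872651963234194321127316268038632277888826655534174610198851482901196954178615559899318259920582292676201331882910184216743263757792953151616304175041579920725639168) (nat_lit 235872651963234194321127316268038632277888826655534174610198851482901196954178615559899318259920582292676201331882910184216743263757792953151616304175041579920725639168) c41_s636) (B (K (nat_lit 1386334847221798047169638878925036799968406779833514899637066259859226863686603287896039777716422623628704219945445734162783797248) (nat_lit 235872651963234194321127316268038632277888826655534174610198851482901196954174541487946649287748045401299382575560807247429411391256520672252907541575514906508358844416) (nat_lit 235872651963234194321127316268038632277888826655534174610198851482901196954174541487946649287748045401299382575560807247429411391256520672252907541575514906508358844416)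 c41_s657) (B (K (nat_lit 1386334847221798047169638878925036799968406779833514899637066259859226863686603287896039777716422623628704219945445734162783797248) (nat_lit 235872651963234194321127316268038632277888826655534174610800078384086923759063663978887807319258850668245001434519561577071972392347722457556538542665686999777396391936) (nat_lit 235872651963234194321127316268038632277888826655534174610800078384086923759063663978887807319258850668245001434519561577071972392347722457556538542665686999777396391936) c41_s791) (B (K (nat_lit 1386334847221798047169638878925036799968406779833514899637066259859226863686603287896039777716422623628704219945445734162783797248) (nat_lit 825554280841600030816653803056488089404416878960636140855213702258407352099035751913271855435014088454083552377425746239507250429928931928776548886364968216107948179456) (nat_lit 825554280841600030816653803056488089404416878960636140855213702258407352099035751913271855435014088454083552377425746239507250429928931928776548886364968216107948179456)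 c41_s1208) (B (K (nat_lit 1386334847221798047169638878925036799968406779833514899637066259859226863686603287896039777716422623628704219945445734162783797248) (nat_lit 235872651963234194218833859771284198839976648629671701104034711530393573249819926651507304328391084910736918050652163441824939244023875877859584799363960261910988849152) (nat_lit 235872651963234194218833859771284198839976648629671701104034711530393573249819926651507304328391084910736918050652163441824939244023875877859584799363960261910988849152) c41_s1320) (B (K (nat_lit 1386334847221798047169638878925036799968406779833514899637066259859226863686603287896039777716422623628704219945445734162783797248) (nat_lit 235872651963234194321127316268038632277888826655534174609902935117436697955863938741961232786664827458291283560957397186033540724389520760389291453007457839093966176256) (nat_lit 235872651963234194321127316268038632277888826655534174609902935117436697955863938741961232786664827458291283560957397186033540724389520760389291453007457839093966176256)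 c41_s1473) (B (K (nat_lit 1386334847221798047169638878925036799968406779833514899637066259859226863686603287896039777716422623628704219945445734162783797248) (nat_lit 235872651963234194321127316268038632277888826655534174610790684213760202927610838742242900162991791186377916695623250445830191810587946561803177214367529966497140047872) (nat_lit 235872651963234194321127316268038632277888826655534174610790684213760202927610838742242900162991791186377916695623250445830191810587946561803177214367529966497140047872) c41_s1513) (B (K (nat_lit 1386334847221798047169638878925036799968406779833514899637066259859226863686603287896039777716422623628704219945445734162783797248) (nat_lit 825554280841600030612066890062979222528592522908911193841640694784561343592588136184769020202749770238080956778648095034651400318692324808265700127466309746433422524416) (nat_lit 825554280841600030612066890062979222528592522908911193841640694784561343592588136184769020202749770238080956778648095034651400318692324808265700127466309746433422524416)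 c41_s1729) (B (K (nat_lit 1386334847221798047169638878925036799968406779833514899637066259859226863686603287896039777716422623628704219945445734162783797248) (nat_lit 851234910057585847230823124495188170176009973970512657604400744434412804754368490679198758038923688257046911053254794331092561593333831560188490653603989553152) (nat_lit 851234910057585847230823124495188170176009973970512657604400744434412804754368490679198758038923688257046911053254794331092561593333831560188490653603989553152) c41_s2494) (B (K (nat_lit 1386334847221798047169638878925036799968406779833514899637066259859226863686603287896039777716422623628704219945445734162783797248) (nat_lit 5065326623820289419283480477672086896013729179647151207488180704302364362539063660195882073457223575177725424126924873534624435687133021920554531338059155479309025003285055012864) (nat_lit 5065326623820289419283480477672086896013729179647151207488180704302364362539063660195882073457223575177725424126924873534624435687133021920554531338059155479309025003285055012864)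 c41_s2643) (B (K (nat_lit 1386334847221798047169638878925036799968406779833514899637066259859226863686603287896039777716422623628704219945445734162783797248) (nat_lit 235872651963234194321127316268038632277888826655534174609752628392139172629279011983766715216912783775161151089232130563855479346782185820007614717110832642099922337792) (nat_lit 235872651963234194321127316268038632277888826655534174609752628392139172629279011983766715216912783775161151089232130563855479346782185820007614717110832642099922337792) c41_s2718) (B (K (nat_lit 1386334847221798047169638878925036799968406779833514899637066259859226863686603287896039777716422623628704219945445734162783797248) (nat_lit 235872651963234194321127316268038632277888826655514000783026297509544510085651416101583786405586640875359030561982039311457068564426021129727823989966475259802055344128) (nat_lit 235872651963234194321127316268038632277888826655514000783026297509544510085651416101583786405586640875359030561982039311457068564426021129727823989966475259802055344128)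 c41_s2803) (B (K (nat_lit 1386334847221798047169638878925036799968406779833514899637066259859226863686603287896039777716422623628704219945445734162783797248) (nat_lit 825554280841600030608870219547455646483657767345542470063064650877470005051894890593862675911858805302537316416782591744630079439020140027421632911266301239201112260608) (nat_lit 825554280841600030608870219547455646483657767345542470063064650877470005051894890593862675911858805302537316416782591744630079439020140027421632911266301239201112260608) c41_s2872) (B (K (nat_lit 1386334847221798047169638878925036799968406779833514899637066259859226863686603287896039777716422623628704219945445734162783797248) (nat_lit 2026130649693226624304583733053375692589802956242530114307036145940201892381940058805515277061985796691057845195662689026491056780355783822174373731852200404945528426246545866752) (nat_lit 2026130649693226624304583733053375692589802956242530114307036145940201892381940058805515277061985796691057845195662689026491056780355783822174373731852200404945528426246545866752)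 c41_s3574) (B (K (nat_lit 1386334847221798047169638878925036799968406779833514899637066259859226863686603287896039777716422623628704219945445734162783797248) (nat_lit 2532663311910144709840819371182020539895840000507075058513873897490308470626708845980976690587162054089828777279318665716941471804854291122788389534129155732069956678635304779776) (nat_lit 2532663311910144709840819371182020539895840000507075058513873897490308470626708845980976690587162054089828777279318665716941471804854291122788389534129155732069956678635304779776) c41_s4277) (B (K (nat_lit 1386334847221798047169638878925036799968406779833514899637066259859226863686603287896039777716422623628704219945445734162783797248) (nat_lit 825554280841600030818252138314435948140347255069606031074807684973722234118192306383508523484347154118426139595704543223012792124801996757789416161377245510473525231616) (nat_lit 825554280841600030818252138314435948140347255069606031074807684973722234118192306383508523484347154118426139595704543223012792124801996757789416161377245510473525231616)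 c41_s4751) (B (K (nat_lit 1386334847221798047169638878925036799968406779833514899637066259859226863686603287896039777716422623628704219945445734162783797248) (nat_lit 353808977752636957106720699863104350351427511162033347962170587365130245741198151172570056485320243874476290137669325077543349474994931781925179929327586168457262006272) (nat_lit 353808977752636957106720699863104350351427511162033347962170587365130245741198151172570056485320243874476290137669325077543349474994931781925179929327586168457262006272) c41_s4908) (B (K (nat_lit 1386334847221798047169638878925036799968406779833514899637066259859226863686603287896039777716422623628704219945445734162783797248) (nat_lit 353808977738907361578675896924108105832375644229587289427412802083117012851540906024371200327904911958427867127305451346561047663179992006909294599000522031541918892032) (nat_lit 353808977738907361578675896924108105832375644229587289427412802083117012851540906024371200327904911958427867127305451346561047663179992006909294599000522031541918892032)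 c41_s4936) (B (K (nat_lit 1386334847221798047169638878925036799968406779833514899637066259859226863686603287896039777716422623628704219945445734162783797248) (nat_lit 825554280841600030612066890062979222550513942678053886325215411524175799312718597499708473234419825890795782166454660080018041482941651637829265574106778981574268420096) (nat_lit 825554280841600030612066890062979222550513942678053886325215411524175799312718597499708473234419825890795782166454660080018041482941651637829265574106778981574268420096) c41_s5236) (B (K (nat_lit 1386334847221798047169638878925036799968406779833514899637066259859226863686603287896039777716422623628704219945445734162783797248) (nat_lit 1179363258580507391992549214881537234956539333257288917899717694331634534427267657647246965667968648221143718656585732173840565729496036291205488580425041853473968095232) (nat_lit 1179363258580507391992549214881537234956539333257288917899717694331634534427267657647246965667968648221143718656585732173840565729496036291205488580425041853473968095232)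 c41_s5820) (B (K (nat_lit 1386334847221798047169638878925036799968406779833514899637066259859226863686603287896039777716422623628704219945445734162783797248) (nat_lit 1179363258607966582634669989046860728854785308481229181218392137097444610185413963561446952257714279966941372971087952785790672377500683450003366684856553352265153380352) (nat_lit 1179363258607966582634669989046860728854785308481229181218392137097444610185413963561446952257714279966941372971087952785790672377500683450003366684856553352265153380352) c41_s6754) (B (K (nat_lit 1386334847221798047169638878925036799968406779833514899637066259859226863686603287896039777716422623628704219945445734162783797248) (nat_lit 825554280855329626138513357744399749719058030676809622639228833548204975382982635782569510672086479269710216738065072745805598407918482737836210860056887606125696909312) (nat_lit 825554280855329626138513357744399749719058030676809622639228833548204975382982635782569510672086479269710216738065072745805598407918482737836210860056887606125696909312)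 c41_s7630) (B (K (nat_lit 1386334847221798047169638878925036799968406779833514899637066259859226863686603287896039777716422623628704219945445734162783797248) (nat_lit 1179363258141160341734600181623014675440449318538872512518405922819418352426065416046658674153793569816038558562379790598950183802296395810074556463024055324648132313088) (nat_lit 1179363258141160341734600181623014675440449318538872512518405922819418352426065416046658674153793569816038558562379790598950183802296395810074556463024055324648132313088) c41_s7761) (B (K (nat_lit 1386334847221798047169638878925036799968406779833514899637066259859226863686603287896039777716422623628704219945445734162783797248) (nat_lit 1179363258141160341734600181621526109733048592668201185556669291474807236878758455067692907945214142750680727130951711398902406040619328051210851243482040287056317382656) (nat_lit 1179363258141160341734600181621526109733048592668201185556669291474807236878758455067692907945214142750680727130951711398902406040619328051210851243482040287056317382656)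 c41_s7782) (B (K (nat_lit 1386334847221798047169638878925036799968406779833514899637066259859226863686603287896039777716422623628704219945445734162783797248) (nat_lit 1179363258141160341740993522651828978991464082850687913251374415359272114232243793149347388181235420588637677869330046204128457566592750839265558662003674844170175905792) (nat_lit 1179363258141160341740993522651828978991464082850687913251374415359272114232243793149347388181235420588637677869330046204128457566592750839265558662003674844170175905792) c41_s8361) (B (K (nat_lit 1386334847221798047169638878925036799968406779833514899637066259859226863686603287896039777716422623628704219945445734162783797248) (nat_lit 825554280855329625932328109487174832010788696024036398805123657959323762452395512214999417257764499767875703807421607122607493152070513370963239164155289001711491874816) (nat_lit 825554280855329625932328109487174832010788696024036398805123657959323762452395512214999417257764499767875703807421607122607493152070513370963239164155289001711491874816)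 c41_s9344) (B (K (nat_lit 1386334847221798047169638878925036799968406779833514899637066259859226863686603287896039777716422623628704219945445734162783797248) (nat_lit 117936325967887501888252496472634732201778141585158388224640699108109267891035626167913523201431856418743551230117425429592826468353240062003336594011429074945414529024) (nat_lit 117936325967887501888252496472634732201778141585158388224640699108109267891035626167913523201431856418743551230117425429592826468353240062003336594011429074945414529024) c41_s9438) (B (K (nat_lit 1386334847221798047169638878925036799968406779833514899637066259859226863686603287896039777716422623628704219945445734162783797248) (nat_lit 117936326187561026961285279044135712759130519051058561647242385771737254416057121677010849596905993671956438681028570968939601481226873850651174804573230645152244039680) (nat_lit 117936326187561026961285279044135712759130519051058561647242385771737254416057121677010849596905993671956438681028570968939601481226873850651174804573230645152244039680)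 c41_s9564) (B (K (nat_lit 1386334847221798047169638878925036799968406779833514899637066259859226863686603287896039777716422623628704219945445734162783797248) (nat_lit 356969478409905138677753953298741902690207147368029358380042078743832551889869813431987251365456690363308450360541924162816666785426508962918245048153767149568) (nat_lit 356969478409905138677753953298741902690207147368029358380042078743832551889869813431987251365456690363308450360541924162816666785426508962918245048153767149568) c41_s9715) (K (nat_lit 1386334847221798047169638878925036799968406779833514899637066259859226863686603287896039777716422623628704219945445734162783797248) (nat_lit 82377571991894068016383617155747151746196926173950884011907818542491717647338285847077863782553961839445832583847322228387100969933241111164967305984102891520) (nat_lit 82377571991894068016383617155747151746196926173950884011907818542491717647338285847077863782553961839445832583847322228387100969933241111164967305984102891520)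 c41_s9767))))))))))))))))))))))))))))))))
theorem c41_win : ∃ n, ∀ B : Set Cell, Avoids B c41_U → MakerForces n (cellsOf (1 <<< 429)) B :=
  forces_of_chk (1 <<< 429) (nat_lit 396) c41_kids c41_U c41_U (by decide +kernel)

end Vale.Agent.Lib.P062.Data
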