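import Vale.Agent.Lib.P062.Data.far_0
import Vale.Agent.Lib.P062.Data.c50_0
import Vale.Agent.Lib.P062.Data.c41_0
import Vale.Agent.Lib.P062.Data.c40_0
import Vale.Agent.Lib.P062.Data.c33_0
import Vale.Agent.Lib.P062.Data.c32_0
import Vale.Agent.Lib.P062.Data.c31_0
import Vale.Agent.Lib.P062.Data.c30_0
import Vale.Agent.Lib.P062.Data.c22_0
import Vale.Agent.Lib.P062.Data.c21_0
import Vale.Agent.Lib.P062.Data.c20_0
import Vale.Agent.Lib.P062.Data.c11_0
import Vale.Agent.Lib.P062.Symmetry
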