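import Vale.Agent.Lib.P062.Data.c10_lines

namespace Vale.Agent.Lib.P062.Data
noncomputable def c10_d46 : Cert := (B (M (nat_lit 556) (B (M (nat_lit 558) (B (M (nat_lit 557) (B (M (nat_lit 523) (B (L (nat_lit 559) ln15_17_3 ln15_17_3_ok) (M (nat_lit 522) (B (L (nat_lit 525) ln10_16_0 ln10_16_0_ok) (L (nat_lit 521) ln9_16_0 ln9_16_0_ok))))) (B (M (nat_lit 555) (B (M (nat_lit 554) (B (M (nat_lit 590) (B (L (nat_lit 591) ln11_17_0 ln11_17_0_ok) (L (nat_lit 589) ln10_17_0 ln10_17_0_ok))) (M (nat_lit 522) (B (L (nat_lit 523) ln14_17_3 ln14_17_3_ok) (L (nat_lit 521) ln13_17_3 ln13_17_3_ok))))) (B (M (nat_lit 554) (B (M (nat_lit 586) (B (L (nat_lit 587) ln14_17_1 ln14_17_1_ok) (L (nat_lit 585) ln13_17_1 ln13_17_1_ok))) (M (nat_lit 522) (B (L (nat_lit 523) ln14_17_3 ln14_17_3_ok) (L (nat_lit 521) ln13_17_3 ln13_17_3_ok))))) (B (M (nat_lit 587) (B (L (nat_lit 586) ln14_17_1 ln14_17_1_ok) (M (nat_lit 619)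 (B (L (nat_lit 651) ln11_20_6_c10 ln11_20_6_c10_ok) (M (nat_lit 620) (B (M (nat_lit 523) (B (L (nat_lit 652) ln11_16_4 ln11_16_4_ok) (L (nat_lit 522) ln14_17_3 ln14_17_3_ok))) (B (M (nat_lit 590) (B (L (nat_lit 591) ln11_17_0 ln11_17_0_ok) (M (nat_lit 618) (B (M (nat_lit 523) (B (L (nat_lit 650) ln11_16_5 ln11_16_5_ok) (L (nat_lit 522) ln14_17_3 ln14_17_3_ok))) (M (nat_lit 589) (B (L (nat_lit 621) ln10_19_2_c10 ln10_19_2_c10_ok) (L (nat_lit 588) ln14_18_1_c10 ln14_18_1_c10_ok))))))) (M (nat_lit 589) (B (M (nat_lit 590) (B (L (nat_lit 591) ln11_17_0 ln11_17_0_ok) (M (nat_lit 621) (B (L (nat_lit 653) ln13_20_7_c10 ln13_20_7_c10_ok) (L (nat_lit 618) ln10_19_2_c10 ln10_19_2_c10_ok))))) (B (M (nat_lit 590) (B (L (nat_lit 591) ln11_17_0 ln11_17_0_ok) (M (nat_lit 618) (B (L (nat_lit 621) ln10_19_2_c10 ln10_19_2_c10_ok) (L (nat_lit 588) ln14_18_1_c10 ln14_18_1_c10_ok))))) (B (M (nat_lit 588) (B (M (nat_lit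 652) (B (L (nat_lit 684) ln12_21_6_c10 ln12_21_6_c10_ok) (L (nat_lit 525) ln12_20_6_c10 ln12_20_6_c10_ok))) (M (nat_lit 590) (B (L (nat_lit 591) ln11_17_0 ln11_17_0_ok) (L (nat_lit 618) ln14_18_1_c10 ln14_18_1_c10_ok))))) (M (nat_lit 652) (B (M (nat_lit 684) (B (L (nat_lit 716) ln12_22_7_c10 ln12_22_7_c10_ok) (L (nat_lit 588) ln12_21_6_c10 ln12_21_6_c10_ok))) (B (M (nat_lit 588) (B (L (nat_lit 684) ln12_21_6_c10 ln12_21_6_c10_ok) (L (nat_lit 525) ln12_20_6_c10 ln12_20_6_c10_ok))) (B (M (nat_lit 525) (B (L (nat_lit 621) ln13_16_5_c10 ln13_16_5_c10_ok) (L (nat_lit 588) ln12_20_6_c10 ln12_20_6_c10_ok))) (M (nat_lit 621) (B (L (nat_lit 653) ln13_20_7_c10 ln13_20_7_c10_ok) (L (nat_lit 525) ln13_16_5_c10 ln13_16_5_c10_ok)))))))))))))))))) (M (nat_lit 590) (B (L (nat_lit 591) ln11_17_0 ln11_17_0_ok) (M (nat_lit 554) (B (L (nat_lit 589) ln10_17_0 ln10_17_0_ok) (M (nat_lit 586) (B (L (nat_lit 587) ln14_17_1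 ln14_17_1_ok) (L (nat_lit 585) ln13_17_1 ln13_17_1_ok))))))))))) (B (M (nat_lit 523) (B (L (nat_lit 559) ln15_17_3 ln15_17_3_ok) (M (nat_lit 522) (B (L (nat_lit 555) ln14_17_3 ln14_17_3_ok) (L (nat_lit 521) ln9_16_0 ln9_16_0_ok))))) (M (nat_lit 559) (B (M (nat_lit 560) (B (L (nat_lit 525) ln16_17_3 ln16_17_3_ok) (M (nat_lit 588) (B (L (nat_lit 589) ln16_17_1_c10 ln16_17_1_c10_ok) (L (nat_lit 587) ln15_17_1_c10 ln15_17_1_c10_ok))))) (B (M (nat_lit 560) (B (L (nat_lit 525) ln16_17_3 ln16_17_3_ok) (M (nat_lit 592) (B (L (nat_lit 593) ln13_17_0_c10 ln13_17_0_c10_ok) (L (nat_lit 591) ln12_17_0_c10 ln12_17_0_c10_ok))))) (M (nat_lit 555) (B (M (nat_lit 591) (B (L (nat_lit 592) ln12_17_0_c10 ln12_17_0_c10_ok) (L (nat_lit 590) ln11_17_0 ln11_17_0_ok))) (M (nat_lit 587) (B (L (nat_lit 588) ln15_17_1_c10 ln15_17_1_c10_ok) (L (nat_lit 586) ln14_17_1 ln14_17_1_ok)))))))))))) (M (nat_lit 494) (B (L (nat_lit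 526) ln14_17_7 ln14_17_7_ok) (L (nat_lit 495) ln11_14_0 ln11_14_0_ok))))) (L (nat_lit 492) ln12_17_6 ln12_17_6_ok))) (B (M (nat_lit 523) (B (M (nat_lit 525) (B (M (nat_lit 522) (B (M (nat_lit 494) (B (L (nat_lit 495) ln11_14_0 ln11_14_0_ok) (M (nat_lit 558) (B (L (nat_lit 526) ln14_17_7 ln14_17_7_ok) (L (nat_lit 557) ln10_16_0 ln10_16_0_ok))))) (M (nat_lit 521) (B (M (nat_lit 489) (B (L (nat_lit 488) ln12_16_3 ln12_16_3_ok) (L (nat_lit 490) ln13_16_3 ln13_16_3_ok))) (M (nat_lit 553) (B (L (nat_lit 552) ln12_16_1 ln12_16_1_ok) (L (nat_lit 554) ln13_16_1 ln13_16_1_ok))))))) (B (M (nat_lit 526) (B (M (nat_lit 555) (B (L (nat_lit 554) ln14_16_1 ln14_16_1_ok) (L (nat_lit 492) ln12_13_5 ln12_13_5_ok))) (M (nat_lit 558) (B (L (nat_lit 559) ln11_16_0 ln11_16_0_ok) (L (nat_lit 494) ln14_17_7 ln14_17_7_ok))))) (M (nat_lit 492) (B (L (nat_lit 557) ln12_13_4 ln12_13_4_ok) (L (nat_lit 555) ln12_13_5 ln12_13_5_ok))))))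 (B (M (nat_lit 522) (B (M (nat_lit 525) (B (M (nat_lit 557) (B (L (nat_lit 492) ln12_13_4 ln12_13_4_ok) (L (nat_lit 558) ln10_16_0 ln10_16_0_ok))) (M (nat_lit 521) (B (M (nat_lit 489) (B (L (nat_lit 488) ln12_16_3 ln12_16_3_ok) (L (nat_lit 490) ln13_16_3 ln13_16_3_ok))) (M (nat_lit 553) (B (L (nat_lit 552) ln12_16_1 ln12_16_1_ok) (L (nat_lit 554) ln13_16_1 ln13_16_1_ok))))))) (B (M (nat_lit 525) (B (M (nat_lit 490) (B (L (nat_lit 491) ln14_14_1 ln14_14_1_ok) (L (nat_lit 489) ln13_16_3 ln13_16_3_ok))) (M (nat_lit 557) (B (L (nat_lit 492) ln12_13_4 ln12_13_4_ok) (L (nat_lit 558) ln10_16_0 ln10_16_0_ok))))) (B (M (nat_lit 525) (B (M (nat_lit 557) (B (L (nat_lit 492) ln12_13_4 ln12_13_4_ok) (L (nat_lit 558) ln10_16_0 ln10_16_0_ok))) (M (nat_lit 554) (B (L (nat_lit 491) ln11_13_5 ln11_13_5_ok) (L (nat_lit 553) ln13_16_1 ln13_16_1_ok))))) (M (nat_lit 491) (B (L (nat_lit 554) ln11_13_5 ln11_13_5_ok)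 (L (nat_lit 490) ln14_14_1 ln14_14_1_ok))))))) (B (M (nat_lit 491) (B (L (nat_lit 555) ln11_17_6 ln11_17_6_ok) (L (nat_lit 490) ln14_14_1 ln14_14_1_ok))) (M (nat_lit 555) (B (L (nat_lit 492) ln12_13_5 ln12_13_5_ok) (L (nat_lit 491) ln11_17_6 ln11_17_6_ok))))))) (B (M (nat_lit 492) (B (M (nat_lit 491) (B (M (nat_lit 526) (B (M (nat_lit 525) (B (L (nat_lit 557) ln12_13_4 ln12_13_4_ok) (L (nat_lit 527) ln15_16_3 ln15_16_3_ok))) (M (nat_lit 494) (B (L (nat_lit 495) ln11_14_0 ln11_14_0_ok) (L (nat_lit 558) ln14_17_7 ln14_17_7_ok))))) (L (nat_lit 490) ln14_14_1 ln14_14_1_ok))) (L (nat_lit 556) ln12_17_6 ln12_17_6_ok))) (M (nat_lit 491) (B (M (nat_lit 523) (B (L (nat_lit 555) ln11_17_6 ln11_17_6_ok) (L (nat_lit 556) ln11_13_4 ln11_13_4_ok))) (L (nat_lit 490) ln14_14_1 ln14_14_1_ok))))))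
theorem c10_s2 : Sem (nat_lit 8931394246223919741660702096143128740880192478464903044691016872442593480537265575446063142856511203595172621904809346577872911053935869952) (nat_lit 344728266524137510402434499354379170964440561339356860303318163716471329896370751182399760632308046534766331168330842117286309959844707633087538765873985161393202650593689944847796166184884705047922182317512375402496) (nat_lit 344728266524137510402434499354379170964440561339356860303318163716471329896370751182399760632308046534766331168330842117286309959844707633087538765873985161393202650593689944847796166184884705047922182317512375402496) :=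
  sem_of_chk (M (nat_lit 462) (B (M (nat_lit 459) (B (M (nat_lit 427) (B (M (nat_lit 524) c10_d46) (L (nat_lit 426) ln10_13_0 ln10_13_0_ok))) (B (M (nat_lit 458) (B (M (nat_lit 426) (B (L (nat_lit 425) ln13_14_3 ln13_14_3_ok) (L (nat_lit 427) ln10_13_0 ln10_13_0_ok))) (B (M (nat_lit 427) (B (L (nat_lit 426) ln10_13_0 ln10_13_0_ok) (L (nat_lit 457) ln9_14_2 ln9_14_2_ok))) (L (nat_lit 457) ln9_14_2 ln9_14_2_ok)))) (M (nat_lit 490) (B (M (nat_lit 458) (B (L (nat_lit 457) ln9_14_2 ln9_14_2_ok) (L (nat_lit 489) ln13_14_1 ln13_14_1_ok))) (L (nat_lit 491) ln14_14_1 ln14_14_1_ok)))))) (B (M (nat_lit 463) (B (L (nat_lit 464) ln16_14_3 ln16_14_3_ok) (M (nat_lit 431) (B (L (nat_lit 432) ln12_14_2 ln12_14_2_ok) (M (nat_lit 495) (B (L (nat_lit 496) ln12_14_0 ln12_14_0_ok) (M (nat_lit 494) (B (L (nat_lit 459) ln11_14_0 ln11_14_0_ok) (M (nat_lit 526) (B (L (nat_lit 558) ln14_17_6_c10 ln14_17_6_c10_ok) (L (nat_lit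 399) ln15_12_5 ln15_12_5_ok))))))))))) (M (nat_lit 463) (B (L (nat_lit 464) ln16_14_3 ln16_14_3_ok) (L (nat_lit 427) ln15_14_3 ln15_14_3_ok)))))) (nat_lit 8931394246223919741660702096143128740880192478464903044691016872442593480537265575446063142856511203595172621904809346577872911053935869952) (nat_lit 344728266524137510402434499354379170964440561339356860303318163716471329896370751182399760632308046534766331168330842117286309959844707633087538765873985161393202650593689944847796166184884705047922182317512375402496) (nat_lit 344728266524137510402434499354379170964440561339356860303318163716471329896370751182399760632308046534766331168330842117286309959844707633087538765873985161393202650593689944847796166184884705047922182317512375402496) (by decide +kernel)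
noncomputable def c10_d47 : Cert := (B (M (nat_lit 558) (B (M (nat_lit 559) (B (M (nat_lit 527) (B (L (nat_lit 528) ln12_17_2_c10 ln12_17_2_c10_ok) (L (nat_lit 526) ln11_17_2 ln11_17_2_ok))) (M (nat_lit 587) (B (L (nat_lit 588) ln15_17_1_c10 ln15_17_1_c10_ok) (L (nat_lit 586) ln14_17_1 ln14_17_1_ok))))) (B (M (nat_lit 526) (B (L (nat_lit 527) ln11_17_2 ln11_17_2_ok) (L (nat_lit 525) ln10_17_2 ln10_17_2_ok))) (B (M (nat_lit 559) (B (M (nat_lit 587) (B (L (nat_lit 588) ln15_17_1_c10 ln15_17_1_c10_ok) (L (nat_lit 586) ln14_17_1 ln14_17_1_ok))) (M (nat_lit 560) (B (M (nat_lit 592) (B (L (nat_lit 593) ln13_17_0_c10 ln13_17_0_c10_ok) (L (nat_lit 591) ln12_17_0_c10 ln12_17_0_c10_ok))) (M (nat_lit 525) (B (L (nat_lit 524) ln16_17_3 ln16_17_3_ok) (L (nat_lit 526) ln10_17_2 ln10_17_2_ok))))))) (M (nat_lit 559) (B (M (nat_lit 587) (B (L (nat_lit 588) ln15_17_1_c10 ln15_17_1_c10_ok) (L (nat_lit 586) ln14_17_1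 ln14_17_1_ok))) (M (nat_lit 560) (B (M (nat_lit 528) (B (L (nat_lit 529) ln13_17_2_c10 ln13_17_2_c10_ok) (L (nat_lit 527) ln12_17_2_c10 ln12_17_2_c10_ok))) (M (nat_lit 592) (B (L (nat_lit 593) ln13_17_0_c10 ln13_17_0_c10_ok) (L (nat_lit 591) ln12_17_0_c10 ln12_17_0_c10_ok))))))))))) (B (M (nat_lit 524) (B (M (nat_lit 589) (B (L (nat_lit 590) ln10_17_0 ln10_17_0_ok) (M (nat_lit 492) (B (L (nat_lit 460) ln12_14_4 ln12_14_4_ok) (M (nat_lit 621) (B (L (nat_lit 588) ln12_15_4 ln12_15_4_ok) (L (nat_lit 653) ln13_20_7_c10 ln13_20_7_c10_ok))))))) (B (M (nat_lit 589) (B (L (nat_lit 590) ln10_17_0 ln10_17_0_ok) (M (nat_lit 621) (B (L (nat_lit 653) ln13_20_7_c10 ln13_20_7_c10_ok) (M (nat_lit 492) (B (L (nat_lit 588) ln12_15_4 ln12_15_4_ok) (L (nat_lit 525) ln13_19_7 ln13_19_7_ok))))))) (B (M (nat_lit 558) (B (M (nat_lit 590) (B (L (nat_lit 591) ln11_17_0 ln11_17_0_ok) (M (nat_lit 586) (B (L (nat_lit 587)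 ln14_17_1 ln14_17_1_ok) (L (nat_lit 585) ln13_17_1 ln13_17_1_ok))))) (B (M (nat_lit 587) (B (L (nat_lit 586) ln14_17_1 ln14_17_1_ok) (M (nat_lit 559) (B (L (nat_lit 588) ln15_17_1_c10 ln15_17_1_c10_ok) (M (nat_lit 591) (B (L (nat_lit 590) ln11_17_0 ln11_17_0_ok) (L (nat_lit 592) ln12_17_0_c10 ln12_17_0_c10_ok))))))) (B (M (nat_lit 559) (B (M (nat_lit 591) (B (L (nat_lit 590) ln11_17_0 ln11_17_0_ok) (L (nat_lit 592) ln12_17_0_c10 ln12_17_0_c10_ok))) (M (nat_lit 528) (B (L (nat_lit 527) ln12_17_2_c10 ln12_17_2_c10_ok) (M (nat_lit 560) (B (L (nat_lit 525) ln16_17_3 ln16_17_3_ok) (L (nat_lit 529) ln13_17_2_c10 ln13_17_2_c10_ok))))))) (M (nat_lit 559) (B (M (nat_lit 587) (B (L (nat_lit 586) ln14_17_1 ln14_17_1_ok) (L (nat_lit 588) ln15_17_1_c10 ln15_17_1_c10_ok))) (M (nat_lit 528) (B (L (nat_lit 527) ln12_17_2_c10 ln12_17_2_c10_ok) (M (nat_lit 560) (B (L (nat_lit 525) ln16_17_3 ln16_17_3_ok) (L (nat_lit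 529) ln13_17_2_c10 ln13_17_2_c10_ok))))))))))) (B (M (nat_lit 589) (B (L (nat_lit 590) ln10_17_0 ln10_17_0_ok) (M (nat_lit 492) (B (L (nat_lit 460) ln12_14_4 ln12_14_4_ok) (M (nat_lit 621) (B (L (nat_lit 525) ln13_19_7 ln13_19_7_ok) (L (nat_lit 653) ln13_20_7_c10 ln13_20_7_c10_ok))))))) (M (nat_lit 587) (B (M (nat_lit 586) (B (L (nat_lit 558) ln14_17_1 ln14_17_1_ok) (L (nat_lit 585) ln13_17_1 ln13_17_1_ok))) (M (nat_lit 492) (B (L (nat_lit 460) ln12_14_5 ln12_14_5_ok) (M (nat_lit 619) (B (L (nat_lit 651) ln11_20_6_c10 ln11_20_6_c10_ok) (L (nat_lit 588) ln12_15_5 ln12_15_5_ok)))))))))))) (B (M (nat_lit 558) (B (M (nat_lit 526) (B (L (nat_lit 527) ln11_17_2 ln11_17_2_ok) (L (nat_lit 525) ln10_17_2 ln10_17_2_ok))) (M (nat_lit 586) (B (L (nat_lit 587) ln14_17_1 ln14_17_1_ok) (L (nat_lit 585) ln13_17_1 ln13_17_1_ok))))) (B (M (nat_lit 558) (B (M (nat_lit 586) (B (L (nat_lit 585) ln13_17_1 ln13_17_1_ok)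 (L (nat_lit 587) ln14_17_1 ln14_17_1_ok))) (M (nat_lit 590) (B (L (nat_lit 589) ln10_17_0 ln10_17_0_ok) (L (nat_lit 591) ln11_17_0 ln11_17_0_ok))))) (M (nat_lit 589) (B (L (nat_lit 590) ln10_17_0 ln10_17_0_ok) (M (nat_lit 525) (B (L (nat_lit 526) ln10_17_2 ln10_17_2_ok) (M (nat_lit 621) (B (M (nat_lit 653) (B (M (nat_lit 686) (B (L (nat_lit 654) ln13_17_4_c10 ln13_17_4_c10_ok) (M (nat_lit 685) (B (L (nat_lit 718) ln13_18_4_c10 ln13_18_4_c10_ok) (M (nat_lit 684) (B (L (nat_lit 652) ln13_17_5_c10 ln13_17_5_c10_ok) (L (nat_lit 716) ln13_18_5_c10 ln13_18_5_c10_ok))))))) (B (M (nat_lit 685) (B (L (nat_lit 524) ln13_20_7_c10 ln13_20_7_c10_ok) (M (nat_lit 684) (B (L (nat_lit 652) ln13_17_5_c10 ln13_17_5_c10_ok) (L (nat_lit 716) ln13_18_5_c10 ln13_18_5_c10_ok))))) (B (M (nat_lit 685) (B (L (nat_lit 524) ln13_20_7_c10 ln13_20_7_c10_ok) (M (nat_lit 686) (B (L (nat_lit 654) ln13_17_4_c10 ln13_17_4_c10_ok)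 (L (nat_lit 718) ln13_18_4_c10 ln13_18_4_c10_ok))))) (L (nat_lit 524) ln13_20_7_c10 ln13_20_7_c10_ok))))) (B (M (nat_lit 653) (B (L (nat_lit 524) ln13_20_7_c10 ln13_20_7_c10_ok) (M (nat_lit 685) (B (M (nat_lit 686) (B (L (nat_lit 718) ln13_18_4_c10 ln13_18_4_c10_ok) (L (nat_lit 654) ln13_17_4_c10 ln13_17_4_c10_ok))) (L (nat_lit 588) ln13_21_7_c10 ln13_21_7_c10_ok))))) (B (M (nat_lit 652) (B (M (nat_lit 684) (B (L (nat_lit 653) ln13_17_5_c10 ln13_17_5_c10_ok) (L (nat_lit 620) ln13_16_5_c10 ln13_16_5_c10_ok))) (B (M (nat_lit 622) (B (L (nat_lit 620) ln13_16_5_c10 ln13_16_5_c10_ok) (L (nat_lit 654) ln13_16_4_c10 ln13_16_4_c10_ok))) (M (nat_lit 653) (B (L (nat_lit 684) ln13_17_5_c10 ln13_17_5_c10_ok) (M (nat_lit 654) (B (L (nat_lit 686) ln13_17_4_c10 ln13_17_4_c10_ok) (L (nat_lit 622) ln13_16_4_c10 ln13_16_4_c10_ok)))))))) (B (M (nat_lit 524) (B (L (nat_lit 653) ln13_20_7_c10 ln13_20_7_c10_ok) (L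 (nat_lit 492) ln13_19_7 ln13_19_7_ok))) (M (nat_lit 620) (B (L (nat_lit 652) ln13_16_5_c10 ln13_16_5_c10_ok) (M (nat_lit 622) (B (L (nat_lit 654) ln13_16_4_c10 ln13_16_4_c10_ok) (M (nat_lit 623) (B (M (nat_lit 588) (B (L (nat_lit 624) ln16_19_3_c10 ln16_19_3_c10_ok) (L (nat_lit 587) ln15_19_3_c10 ln15_19_3_c10_ok))) (B (M (nat_lit 619) (B (M (nat_lit 587) (B (L (nat_lit 588) ln15_19_3_c10 ln15_19_3_c10_ok) (L (nat_lit 586) ln14_19_3_c10 ln14_19_3_c10_ok))) (B (M (nat_lit 618) (B (M (nat_lit 650) (B (L (nat_lit 651) ln14_19_1_c10 ln14_19_1_c10_ok) (L (nat_lit 649) ln13_19_1_c10 ln13_19_1_c10_ok))) (M (nat_lit 586) (B (L (nat_lit 587) ln14_19_3_c10 ln14_19_3_c10_ok) (L (nat_lit 585) ln13_17_1 ln13_17_1_ok))))) (B (M (nat_lit 618) (B (M (nat_lit 650) (B (L (nat_lit 651) ln14_19_1_c10 ln14_19_1_c10_ok) (L (nat_lit 649) ln13_19_1_c10 ln13_19_1_c10_ok))) (M (nat_lit 617) (B (L (nat_lit 588) ln9_19_2_c10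 ln9_19_2_c10_ok) (M (nat_lit 585) (B (L (nat_lit 586) ln13_17_1 ln13_17_1_ok) (L (nat_lit 584) ln12_19_3_c10 ln12_19_3_c10_ok))))))) (M (nat_lit 618) (B (M (nat_lit 650) (B (L (nat_lit 651) ln14_19_1_c10 ln14_19_1_c10_ok) (L (nat_lit 649) ln13_19_1_c10 ln13_19_1_c10_ok))) (M (nat_lit 588) (B (L (nat_lit 587) ln15_19_3_c10 ln15_19_3_c10_ok) (L (nat_lit 617) ln9_19_2_c10 ln9_19_2_c10_ok))))))))) (M (nat_lit 624) (B (M (nat_lit 656) (B (L (nat_lit 657) ln13_19_0_c10 ln13_19_0_c10_ok) (L (nat_lit 655) ln12_19_0_c10 ln12_19_0_c10_ok))) (M (nat_lit 592) (B (L (nat_lit 593) ln13_19_2_c10 ln13_19_2_c10_ok) (L (nat_lit 591) ln12_19_2_c10 ln12_19_2_c10_ok)))))))))))))))))))))))))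
noncomputable def c10_d48 : Cert := (B (M (nat_lit 553) (B (M (nat_lit 557) (B (M (nat_lit 525) (B (L (nat_lit 524) ln9_17_2 ln9_17_2_ok) (L (nat_lit 526) ln10_17_2 ln10_17_2_ok))) (M (nat_lit 585) (B (L (nat_lit 584) ln12_17_1 ln12_17_1_ok) (L (nat_lit 586) ln13_17_1 ln13_17_1_ok))))) (B (M (nat_lit 552) (B (M (nat_lit 584) (B (L (nat_lit 583) ln11_17_1_c10 ln11_17_1_c10_ok) (L (nat_lit 585) ln12_17_1 ln12_17_1_ok))) (M (nat_lit 551) (B (M (nat_lit 519) (B (L (nat_lit 518) ln10_17_3_c10 ln10_17_3_c10_ok) (L (nat_lit 520) ln11_17_3_c10 ln11_17_3_c10_ok))) (M (nat_lit 587) (B (L (nat_lit 586) ln7_17_0_c10 ln7_17_0_c10_ok) (L (nat_lit 588) ln8_17_0 ln8_17_0_ok))))))) (B (M (nat_lit 587) (B (M (nat_lit 588) (B (L (nat_lit 552) ln8_17_0 ln8_17_0_ok) (M (nat_lit 524) (B (L (nat_lit 492) ln12_18_7 ln12_18_7_ok) (L (nat_lit 525) ln9_17_2 ln9_17_2_ok))))) (B (M (nat_lit 586) (B (M (nat_lit 552) (B (L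 (nat_lit 551) ln7_17_0_c10 ln7_17_0_c10_ok) (L (nat_lit 588) ln8_17_0 ln8_17_0_ok))) (M (nat_lit 557) (B (L (nat_lit 585) ln13_17_1 ln13_17_1_ok) (L (nat_lit 558) ln14_17_1 ln14_17_1_ok))))) (M (nat_lit 557) (B (M (nat_lit 525) (B (L (nat_lit 524) ln9_17_2 ln9_17_2_ok) (L (nat_lit 526) ln10_17_2 ln10_17_2_ok))) (M (nat_lit 586) (B (L (nat_lit 585) ln13_17_1 ln13_17_1_ok) (L (nat_lit 558) ln14_17_1 ln14_17_1_ok)))))))) (M (nat_lit 552) (B (M (nat_lit 524) (B (L (nat_lit 525) ln9_17_2 ln9_17_2_ok) (M (nat_lit 588) (B (L (nat_lit 492) ln12_18_7 ln12_18_7_ok) (L (nat_lit 587) ln8_17_0 ln8_17_0_ok))))) (M (nat_lit 551) (B (M (nat_lit 519) (B (L (nat_lit 518) ln10_17_3_c10 ln10_17_3_c10_ok) (L (nat_lit 520) ln11_17_3_c10 ln11_17_3_c10_ok))) (M (nat_lit 583) (B (L (nat_lit 582) ln10_17_1_c10 ln10_17_1_c10_ok) (L (nat_lit 584) ln11_17_1_c10 ln11_17_1_c10_ok))))))))))) (B (M (nat_lit 553) (B (M (nat_lit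 525) (B (L (nat_lit 524) ln9_17_2 ln9_17_2_ok) (M (nat_lit 557) (B (L (nat_lit 526) ln10_17_2 ln10_17_2_ok) (M (nat_lit 589) (B (L (nat_lit 590) ln10_17_0 ln10_17_0_ok) (L (nat_lit 588) ln9_17_0 ln9_17_0_ok))))))) (M (nat_lit 520) (B (L (nat_lit 521) ln12_17_3 ln12_17_3_ok) (M (nat_lit 552) (B (L (nat_lit 519) ln11_17_3_c10 ln11_17_3_c10_ok) (M (nat_lit 584) (B (L (nat_lit 585) ln12_17_1 ln12_17_1_ok) (L (nat_lit 583) ln11_17_1_c10 ln11_17_1_c10_ok))))))))) (B (M (nat_lit 557) (B (M (nat_lit 526) (B (L (nat_lit 525) ln10_17_2 ln10_17_2_ok) (M (nat_lit 558) (B (L (nat_lit 527) ln11_17_2 ln11_17_2_ok) (M (nat_lit 590) (B (L (nat_lit 589) ln10_17_0 ln10_17_0_ok) (L (nat_lit 591) ln11_17_0 ln11_17_0_ok))))))) (B (M (nat_lit 558) (B (M (nat_lit 586) (B (L (nat_lit 585) ln13_17_1 ln13_17_1_ok) (L (nat_lit 587) ln14_17_1 ln14_17_1_ok))) (M (nat_lit 590) (B (L (nat_lit 589) ln10_17_0 ln10_17_0_ok) (L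 (nat_lit 591) ln11_17_0 ln11_17_0_ok))))) (B (M (nat_lit 558) (B (M (nat_lit 586) (B (L (nat_lit 585) ln13_17_1 ln13_17_1_ok) (L (nat_lit 587) ln14_17_1 ln14_17_1_ok))) (M (nat_lit 526) (B (L (nat_lit 525) ln10_17_2 ln10_17_2_ok) (L (nat_lit 527) ln11_17_2 ln11_17_2_ok))))) (M (nat_lit 553) (B (M (nat_lit 585) (B (L (nat_lit 584) ln12_17_1 ln12_17_1_ok) (L (nat_lit 586) ln13_17_1 ln13_17_1_ok))) (M (nat_lit 525) (B (L (nat_lit 524) ln9_17_2 ln9_17_2_ok) (L (nat_lit 526) ln10_17_2 ln10_17_2_ok))))))))) (B (M (nat_lit 553) (B (M (nat_lit 552) (B (M (nat_lit 588) (B (L (nat_lit 589) ln9_17_0 ln9_17_0_ok) (L (nat_lit 587) ln8_17_0 ln8_17_0_ok))) (M (nat_lit 520) (B (L (nat_lit 521) ln12_17_3 ln12_17_3_ok) (L (nat_lit 519) ln11_17_3_c10 ln11_17_3_c10_ok))))) (B (M (nat_lit 584) (B (L (nat_lit 585) ln12_17_1 ln12_17_1_ok) (M (nat_lit 552) (B (L (nat_lit 583) ln11_17_1_c10 ln11_17_1_c10_ok) (M (nat_lit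 520) (B (L (nat_lit 521) ln12_17_3 ln12_17_3_ok) (L (nat_lit 519) ln11_17_3_c10 ln11_17_3_c10_ok))))))) (B (M (nat_lit 552) (B (M (nat_lit 588) (B (L (nat_lit 589) ln9_17_0 ln9_17_0_ok) (L (nat_lit 587) ln8_17_0 ln8_17_0_ok))) (M (nat_lit 584) (B (L (nat_lit 585) ln12_17_1 ln12_17_1_ok) (L (nat_lit 583) ln11_17_1_c10 ln11_17_1_c10_ok))))) (M (nat_lit 557) (B (M (nat_lit 589) (B (L (nat_lit 590) ln10_17_0 ln10_17_0_ok) (L (nat_lit 588) ln9_17_0 ln9_17_0_ok))) (M (nat_lit 585) (B (L (nat_lit 586) ln13_17_1 ln13_17_1_ok) (L (nat_lit 584) ln12_17_1 ln12_17_1_ok))))))))) (B (M (nat_lit 589) (B (M (nat_lit 590) (B (L (nat_lit 557) ln10_17_0 ln10_17_0_ok) (M (nat_lit 588) (B (L (nat_lit 587) ln14_18_3_c10 ln14_18_3_c10_ok) (L (nat_lit 553) ln9_17_0 ln9_17_0_ok))))) (B (M (nat_lit 524) (B (M (nat_lit 553) (B (L (nat_lit 588) ln9_17_0 ln9_17_0_ok) (L (nat_lit 525) ln9_17_2 ln9_17_2_ok))) (B (M (nat_lit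 525) (B (L (nat_lit 553) ln9_17_2 ln9_17_2_ok) (M (nat_lit 526) (B (L (nat_lit 557) ln10_17_2 ln10_17_2_ok) (L (nat_lit 527) ln15_16_1 ln15_16_1_ok))))) (M (nat_lit 492) (B (L (nat_lit 460) ln12_17_6 ln12_17_6_ok) (L (nat_lit 588) ln12_18_7 ln12_18_7_ok)))))) (B (M (nat_lit 557) (B (L (nat_lit 590) ln10_17_0 ln10_17_0_ok) (M (nat_lit 525) (B (L (nat_lit 526) ln10_17_2 ln10_17_2_ok) (M (nat_lit 524) (B (L (nat_lit 553) ln9_17_2 ln9_17_2_ok) (M (nat_lit 492) (B (L (nat_lit 621) ln13_19_7 ln13_19_7_ok) (L (nat_lit 460) ln12_14_4 ln12_14_4_ok))))))))) (B (M (nat_lit 588) (B (L (nat_lit 553) ln9_17_0 ln9_17_0_ok) (M (nat_lit 590) (B (L (nat_lit 591) ln15_18_3_c10 ln15_18_3_c10_ok) (L (nat_lit 587) ln14_18_3_c10 ln14_18_3_c10_ok))))) (M (nat_lit 590) (B (L (nat_lit 557) ln10_17_0 ln10_17_0_ok) (M (nat_lit 588) (B (L (nat_lit 591) ln15_18_3_c10 ln15_18_3_c10_ok) (L (nat_lit 587) ln14_18_3_c10 ln14_18_3_c10_ok))))))))))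 (M (nat_lit 557) (B (M (nat_lit 558) (B (M (nat_lit 527) (B (L (nat_lit 526) ln11_17_2 ln11_17_2_ok) (M (nat_lit 559) (B (L (nat_lit 528) ln12_17_2_c10 ln12_17_2_c10_ok) (M (nat_lit 591) (B (L (nat_lit 590) ln11_17_0 ln11_17_0_ok) (L (nat_lit 592) ln12_17_0_c10 ln12_17_0_c10_ok))))))) (B (M (nat_lit 559) (B (M (nat_lit 587) (B (L (nat_lit 586) ln14_17_1 ln14_17_1_ok) (L (nat_lit 588) ln15_17_1_c10 ln15_17_1_c10_ok))) (M (nat_lit 591) (B (L (nat_lit 590) ln11_17_0 ln11_17_0_ok) (L (nat_lit 592) ln12_17_0_c10 ln12_17_0_c10_ok))))) (B (M (nat_lit 559) (B (M (nat_lit 587) (B (L (nat_lit 586) ln14_17_1 ln14_17_1_ok) (L (nat_lit 588) ln15_17_1_c10 ln15_17_1_c10_ok))) (M (nat_lit 527) (B (L (nat_lit 526) ln11_17_2 ln11_17_2_ok) (L (nat_lit 528) ln12_17_2_c10 ln12_17_2_c10_ok))))) (M (nat_lit 586) (B (L (nat_lit 585) ln13_17_1 ln13_17_1_ok) (L (nat_lit 587) ln14_17_1 ln14_17_1_ok))))))) (B (M (nat_lit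 558) (B (M (nat_lit 526) (B (L (nat_lit 527) ln11_17_2 ln11_17_2_ok) (L (nat_lit 525) ln10_17_2 ln10_17_2_ok))) (M (nat_lit 590) (B (L (nat_lit 591) ln11_17_0 ln11_17_0_ok) (L (nat_lit 589) ln10_17_0 ln10_17_0_ok))))) c10_d47))))))))
noncomputable def c10_d49 : Cert := (B (M (nat_lit 554) (B (M (nat_lit 555) (B (M (nat_lit 556) (B (M (nat_lit 553) (B (M (nat_lit 588) (B (L (nat_lit 589) ln9_17_0 ln9_17_0_ok) (M (nat_lit 524) (B (L (nat_lit 525) ln9_17_2 ln9_17_2_ok) (L (nat_lit 492) ln12_18_7 ln12_18_7_ok))))) (M (nat_lit 552) (B (M (nat_lit 584) (B (L (nat_lit 585) ln12_17_1 ln12_17_1_ok) (L (nat_lit 583) ln11_17_1_c10 ln11_17_1_c10_ok))) (M (nat_lit 520) (B (L (nat_lit 521) ln12_17_3 ln12_17_3_ok) (L (nat_lit 519) ln11_17_3_c10 ln11_17_3_c10_ok))))))) (B (M (nat_lit 553) (B (M (nat_lit 588) (B (L (nat_lit 589) ln9_17_0 ln9_17_0_ok) (M (nat_lit 524) (B (L (nat_lit 492) ln12_18_7 ln12_18_7_ok)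 (L (nat_lit 525) ln9_17_2 ln9_17_2_ok))))) (B (M (nat_lit 557) (B (M (nat_lit 585) (B (L (nat_lit 584) ln12_17_1 ln12_17_1_ok) (L (nat_lit 586) ln13_17_1 ln13_17_1_ok))) (M (nat_lit 589) (B (L (nat_lit 588) ln9_17_0 ln9_17_0_ok) (L (nat_lit 590) ln10_17_0 ln10_17_0_ok))))) (M (nat_lit 557) (B (M (nat_lit 525) (B (L (nat_lit 524) ln9_17_2 ln9_17_2_ok) (L (nat_lit 526) ln10_17_2 ln10_17_2_ok))) (M (nat_lit 585) (B (L (nat_lit 584) ln12_17_1 ln12_17_1_ok) (L (nat_lit 586) ln13_17_1 ln13_17_1_ok)))))))) c10_d48))) (B (M (nat_lit 556) (B (M (nat_lit 524) (B (L (nat_lit 523) ln11_13_4 ln11_13_4_ok) (M (nat_lit 525) (B (L (nat_lit 553) ln9_17_2 ln9_17_2_ok) (M (nat_lit 526) (B (L (nat_lit 527) ln15_16_1 ln15_16_1_ok) (L (nat_lit 557) ln10_17_2 ln10_17_2_ok))))))) (B (M (nat_lit 523) (B (L (nat_lit 588) ln11_14_4 ln11_14_4_ok) (L (nat_lit 524) ln11_13_4 ln11_13_4_ok))) (B (M (nat_lit 588) (B (L (nat_lit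 523) ln11_14_4 ln11_14_4_ok) (M (nat_lit 589) (B (L (nat_lit 553) ln9_17_0 ln9_17_0_ok) (M (nat_lit 590) (B (L (nat_lit 557) ln10_17_0 ln10_17_0_ok) (L (nat_lit 587) ln14_18_3_c10 ln14_18_3_c10_ok))))))) (M (nat_lit 553) (B (M (nat_lit 525) (B (L (nat_lit 524) ln9_17_2 ln9_17_2_ok) (M (nat_lit 557) (B (L (nat_lit 526) ln10_17_2 ln10_17_2_ok) (M (nat_lit 589) (B (L (nat_lit 590) ln10_17_0 ln10_17_0_ok) (L (nat_lit 588) ln9_17_0 ln9_17_0_ok))))))) (M (nat_lit 520) (B (L (nat_lit 521) ln12_17_3 ln12_17_3_ok) (M (nat_lit 552) (B (L (nat_lit 519) ln11_17_3_c10 ln11_17_3_c10_ok) (M (nat_lit 584) (B (L (nat_lit 585) ln12_17_1 ln12_17_1_ok) (L (nat_lit 583) ln11_17_1_c10 ln11_17_1_c10_ok))))))))))))) (B (M (nat_lit 556) (B (M (nat_lit 523) (B (L (nat_lit 586) ln11_14_5 ln11_14_5_ok) (L (nat_lit 588) ln11_14_4 ln11_14_4_ok))) (B (M (nat_lit 553) (B (M (nat_lit 552) (B (M (nat_lit 520) (B (L (nat_lit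 519) ln11_17_3_c10 ln11_17_3_c10_ok) (L (nat_lit 521) ln12_17_3 ln12_17_3_ok))) (M (nat_lit 588) (B (L (nat_lit 587) ln8_17_0 ln8_17_0_ok) (L (nat_lit 589) ln9_17_0 ln9_17_0_ok))))) (B (M (nat_lit 552) (B (M (nat_lit 584) (B (L (nat_lit 583) ln11_17_1_c10 ln11_17_1_c10_ok) (L (nat_lit 585) ln12_17_1 ln12_17_1_ok))) (M (nat_lit 588) (B (L (nat_lit 587) ln8_17_0 ln8_17_0_ok) (L (nat_lit 589) ln9_17_0 ln9_17_0_ok))))) (B (M (nat_lit 557) (B (M (nat_lit 585) (B (L (nat_lit 584) ln12_17_1 ln12_17_1_ok) (L (nat_lit 586) ln13_17_1 ln13_17_1_ok))) (M (nat_lit 589) (B (L (nat_lit 588) ln9_17_0 ln9_17_0_ok) (L (nat_lit 590) ln10_17_0 ln10_17_0_ok))))) (M (nat_lit 552) (B (M (nat_lit 520) (B (L (nat_lit 519) ln11_17_3_c10 ln11_17_3_c10_ok) (L (nat_lit 521) ln12_17_3 ln12_17_3_ok))) (M (nat_lit 584) (B (L (nat_lit 583) ln11_17_1_c10 ln11_17_1_c10_ok) (L (nat_lit 585) ln12_17_1 ln12_17_1_ok))))))))) (B (M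 (nat_lit 588) (B (L (nat_lit 523) ln11_14_4 ln11_14_4_ok) (M (nat_lit 589) (B (L (nat_lit 553) ln9_17_0 ln9_17_0_ok) (M (nat_lit 590) (B (L (nat_lit 557) ln10_17_0 ln10_17_0_ok) (L (nat_lit 587) ln14_18_3_c10 ln14_18_3_c10_ok))))))) (M (nat_lit 586) (B (L (nat_lit 523) ln11_14_5 ln11_14_5_ok) (M (nat_lit 585) (B (L (nat_lit 557) ln13_17_1 ln13_17_1_ok) (M (nat_lit 584) (B (L (nat_lit 553) ln12_17_1 ln12_17_1_ok) (L (nat_lit 583) ln7_18_2_c10 ln7_18_2_c10_ok))))))))))) (B (M (nat_lit 523) (B (M (nat_lit 524) (B (M (nat_lit 525) (B (L (nat_lit 526) ln14_16_1 ln14_16_1_ok) (M (nat_lit 553) (B (L (nat_lit 556) ln11_13_4 ln11_13_4_ok) (L (nat_lit 552) ln8_17_2 ln8_17_2_ok))))) (M (nat_lit 587) (B (L (nat_lit 458) ln11_18_7 ln11_18_7_ok) (M (nat_lit 492) (B (L (nat_lit 619) ln11_19_6 ln11_19_6_ok) (L (nat_lit 460) ln11_18_6 ln11_18_6_ok))))))) (L (nat_lit 586) ln11_14_5 ln11_14_5_ok))) (B (M (nat_lit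 523) (B (M (nat_lit 587) (B (L (nat_lit 458) ln11_18_7 ln11_18_7_ok) (M (nat_lit 619) (B (M (nat_lit 620) (B (L (nat_lit 652) ln11_16_4 ln11_16_4_ok) (L (nat_lit 588) ln11_15_4 ln11_15_4_ok))) (M (nat_lit 492) (B (L (nat_lit 524) ln11_19_6 ln11_19_6_ok) (L (nat_lit 460) ln11_18_6 ln11_18_6_ok))))))) (L (nat_lit 586) ln11_14_5 ln11_14_5_ok))) (M (nat_lit 523) (B (M (nat_lit 556) (B (L (nat_lit 524) ln11_13_4 ln11_13_4_ok) (L (nat_lit 588) ln11_14_4 ln11_14_4_ok))) (L (nat_lit 586) ln11_14_5 ln11_14_5_ok))))))))) (B (M (nat_lit 522) (B (L (nat_lit 458) ln10_17_6 ln10_17_6_ok) (L (nat_lit 523) ln11_13_5 ln11_13_5_ok))) (B (M (nat_lit 522) (B (L (nat_lit 458) ln10_17_6 ln10_17_6_ok) (L (nat_lit 586) ln10_18_6 ln10_18_6_ok))) (M (nat_lit 522) (B (L (nat_lit 586) ln10_18_6 ln10_18_6_ok) (L (nat_lit 523) ln11_13_5 ln11_13_5_ok))))))) (B (M (nat_lit 523) (B (M (nat_lit 554) (B (L (nat_lit 522) ln11_13_5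 ln11_13_5_ok) (M (nat_lit 555) (B (L (nat_lit 586) ln11_14_5 ln11_14_5_ok) (M (nat_lit 556) (B (L (nat_lit 588) ln11_14_4 ln11_14_4_ok) (L (nat_lit 524) ln11_13_4 ln11_13_4_ok))))))) (B (M (nat_lit 522) (B (L (nat_lit 554) ln11_13_5 ln11_13_5_ok) (M (nat_lit 524) (B (L (nat_lit 556) ln11_13_4 ln11_13_4_ok) (M (nat_lit 489) (B (L (nat_lit 525) ln13_16_3 ln13_16_3_ok) (L (nat_lit 488) ln8_15_0 ln8_15_0_ok))))))) (B (M (nat_lit 555) (B (M (nat_lit 554) (B (L (nat_lit 586) ln11_14_5 ln11_14_5_ok) (L (nat_lit 522) ln11_13_5 ln11_13_5_ok))) (B (M (nat_lit 522) (B (L (nat_lit 554) ln11_13_5 ln11_13_5_ok) (M (nat_lit 587) (B (L (nat_lit 619) ln11_19_7 ln11_19_7_ok) (L (nat_lit 458) ln11_18_7 ln11_18_7_ok))))) (B (M (nat_lit 587) (B (L (nat_lit 458) ln11_18_7 ln11_18_7_ok) (M (nat_lit 619) (B (L (nat_lit 522) ln11_19_7 ln11_19_7_ok) (M (nat_lit 620) (B (L (nat_lit 652) ln11_16_4 ln11_16_4_ok) (L (nat_lit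 588) ln11_15_4 ln11_15_4_ok))))))) (M (nat_lit 587) (B (L (nat_lit 458) ln11_18_7 ln11_18_7_ok) (M (nat_lit 586) (B (L (nat_lit 618) ln11_15_5 ln11_15_5_ok) (L (nat_lit 554) ln11_14_5 ln11_14_5_ok))))))))) (B (M (nat_lit 555) (B (M (nat_lit 556) (B (L (nat_lit 588) ln11_14_4 ln11_14_4_ok) (L (nat_lit 524) ln11_13_4 ln11_13_4_ok))) (M (nat_lit 587) (B (L (nat_lit 458) ln11_18_7 ln11_18_7_ok) (M (nat_lit 619) (B (L (nat_lit 522) ln11_19_7 ln11_19_7_ok) (M (nat_lit 618) (B (L (nat_lit 650) ln11_16_5 ln11_16_5_ok) (L (nat_lit 586) ln11_15_5 ln11_15_5_ok))))))))) (M (nat_lit 555) (B (M (nat_lit 556) (B (L (nat_lit 588) ln11_14_4 ln11_14_4_ok) (L (nat_lit 524) ln11_13_4 ln11_13_4_ok))) (M (nat_lit 587) (B (L (nat_lit 458) ln11_18_7 ln11_18_7_ok) (M (nat_lit 586) (B (L (nat_lit 618) ln11_15_5 ln11_15_5_ok) (L (nat_lit 554) ln11_14_5 ln11_14_5_ok)))))))))))) (M (nat_lit 460) (B (M (nat_lit 489) (B (L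 (nat_lit 492) ln9_15_2 ln9_15_2_ok) (L (nat_lit 488) ln8_15_2 ln8_15_2_ok))) (L (nat_lit 462) ln14_14_1 ln14_14_1_ok)))))
theorem c10_s13 : Sem (nat_lit 6393341038489980628389444244666989674276745996359529094161042786576679801289203340128052746141035569505536831098520558987460583016844709498682605568) (nat_lit 1723641332781214161179077318039256560156148175530559011494551540598915086290758886606498064152400992517912751303924817924195362289214757786202515723766118376659484231700331478103064249239203153470279525754234847887360) (nat_lit 1723641332781214161179077318039256560156148175530559011494551540598915086290758886606498064152400992517912751303924817924195362289214757786202515723766118376659484231700331478103064249239203153470279525754234847887360) :=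
  sem_of_chk (M (nat_lit 490) c10_d49) (nat_lit 6393341038489980628389444244666989674276745996359529094161042786576679801289203340128052746141035569505536831098520558987460583016844709498682605568) (nat_lit 1723641332781214161179077318039256560156148175530559011494551540598915086290758886606498064152400992517912751303924817924195362289214757786202515723766118376659484231700331478103064249239203153470279525754234847887360) (nat_lit 1723641332781214161179077318039256560156148175530559011494551540598915086290758886606498064152400992517912751303924817924195362289214757786202515723766118376659484231700331478103064249239203153470279525754234847887360) (by decide +kernel)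
noncomputable def c10_d50 : Cert := (B (M (nat_lit 424) (B (M (nat_lit 425) (B (L (nat_lit 396) ln12_12_1 ln12_12_1_ok) (M (nat_lit 423) (B (L (nat_lit 422) ln6_13_2_c10 ln6_13_2_c10_ok) (L (nat_lit 392) ln11_12_1 ln11_12_1_ok))))) (B (M (nat_lit 392) (B (L (nat_lit 423) ln11_12_1 ln11_12_1_ok) (M (nat_lit 360) (B (L (nat_lit 359) ln11_12_3 ln11_12_3_ok) (M (nat_lit 396) (B (L (nat_lit 425) ln12_12_1 ln12_12_1_ok) (L (nat_lit 361) ln12_12_3 ln12_12_3_ok))))))) (B (M (nat_lit 361) (B (M (nat_lit 396) (B (L (nat_lit 425) ln12_12_1 ln12_12_1_ok) (L (nat_lit 360) ln12_12_3 ln12_12_3_ok))) (B (M (nat_lit 360) (B (L (nat_lit 396) ln12_12_3 ln12_12_3_ok) (M (nat_lit 392) (B (L (nat_lit 359) ln11_12_3 ln11_12_3_ok) (M (nat_lit 456) (B (L (nat_lit 488) ln8_15_6_c10 ln8_15_6_c10_ok) (L (nat_lit 329) ln8_14_6_c10 ln8_14_6_c10_ok))))))) (B (M (nat_lit 456) (B (M (nat_lit 488) (B (L (nat_lit 392) ln8_15_6_c10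 ln8_15_6_c10_ok) (M (nat_lit 425) (B (L (nat_lit 457) ln9_11_5_c10 ln9_11_5_c10_ok) (L (nat_lit 329) ln9_10_5_c10 ln9_10_5_c10_ok))))) (B (M (nat_lit 329) (B (L (nat_lit 425) ln9_10_5_c10 ln9_10_5_c10_ok) (M (nat_lit 392) (B (L (nat_lit 360) ln8_14_6_c10 ln8_14_6_c10_ok) (L (nat_lit 297) ln9_9_5_c10 ln9_9_5_c10_ok))))) (B (M (nat_lit 392) (B (L (nat_lit 488) ln8_15_6_c10 ln8_15_6_c10_ok) (M (nat_lit 329) (B (L (nat_lit 360) ln8_14_6_c10 ln8_14_6_c10_ok) (L (nat_lit 297) ln9_9_5_c10 ln9_9_5_c10_ok))))) (B (M (nat_lit 425) (B (L (nat_lit 329) ln9_10_5_c10 ln9_10_5_c10_ok) (M (nat_lit 488) (B (L (nat_lit 520) ln8_16_6_c10 ln8_16_6_c10_ok) (L (nat_lit 457) ln9_11_5_c10 ln9_11_5_c10_ok))))) (M (nat_lit 488) (B (L (nat_lit 392) ln8_15_6_c10 ln8_15_6_c10_ok) (M (nat_lit 425) (B (L (nat_lit 520) ln8_16_6_c10 ln8_16_6_c10_ok) (L (nat_lit 457) ln9_11_5_c10 ln9_11_5_c10_ok)))))))))) (M (nat_lit 425) (B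 (L (nat_lit 396) ln12_12_1 ln12_12_1_ok) (M (nat_lit 456) (B (L (nat_lit 329) ln9_10_5_c10 ln9_10_5_c10_ok) (M (nat_lit 488) (B (L (nat_lit 520) ln8_16_6_c10 ln8_16_6_c10_ok) (L (nat_lit 457) ln9_11_5_c10 ln9_11_5_c10_ok))))))))))) (B (M (nat_lit 392) (B (L (nat_lit 423) ln11_12_1 ln11_12_1_ok) (M (nat_lit 360) (B (L (nat_lit 359) ln11_12_3 ln11_12_3_ok) (M (nat_lit 361) (B (L (nat_lit 396) ln12_12_3 ln12_12_3_ok) (M (nat_lit 456) (B (L (nat_lit 488) ln8_15_6_c10 ln8_15_6_c10_ok) (L (nat_lit 329) ln8_14_6_c10 ln8_14_6_c10_ok))))))))) (B (M (nat_lit 490) (B (M (nat_lit 522) (B (L (nat_lit 491) ln11_12_5 ln11_12_5_ok) (L (nat_lit 458) ln11_11_5 ln11_11_5_ok))) (B (M (nat_lit 425) (B (L (nat_lit 396) ln12_12_1 ln12_12_1_ok) (L (nat_lit 458) ln11_11_5 ln11_11_5_ok))) (M (nat_lit 488) (B (M (nat_lit 425) (B (L (nat_lit 396) ln12_12_1 ln12_12_1_ok) (M (nat_lit 456) (B (L (nat_lit 520) ln8_16_6_c10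 ln8_16_6_c10_ok) (M (nat_lit 361) (B (L (nat_lit 457) ln9_11_5_c10 ln9_11_5_c10_ok) (L (nat_lit 329) ln9_10_5_c10 ln9_10_5_c10_ok))))))) (M (nat_lit 491) (B (L (nat_lit 522) ln11_12_5 ln11_12_5_ok) (M (nat_lit 524) (B (L (nat_lit 492) ln11_12_4 ln11_12_4_ok) (M (nat_lit 523) (B (L (nat_lit 556) ln11_13_4 ln11_13_4_ok) (L (nat_lit 489) ln8_15_0 ln8_15_0_ok)))))))))))) (M (nat_lit 456) (B (M (nat_lit 392) (B (L (nat_lit 423) ln11_12_1 ln11_12_1_ok) (M (nat_lit 360) (B (L (nat_lit 359) ln11_12_3 ln11_12_3_ok) (M (nat_lit 361) (B (L (nat_lit 488) ln8_15_6_c10 ln8_15_6_c10_ok) (L (nat_lit 329) ln8_14_6_c10 ln8_14_6_c10_ok))))))) (B (M (nat_lit 458) (B (M (nat_lit 423) (B (L (nat_lit 457) ln11_14_3 ln11_14_3_ok) (L (nat_lit 392) ln11_12_1 ln11_12_1_ok))) (L (nat_lit 490) ln11_11_5 ln11_11_5_ok))) (B (M (nat_lit 361) (B (M (nat_lit 392) (B (L (nat_lit 488) ln8_15_6_c10 ln8_15_6_c10_ok) (M (nat_lit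 329) (B (L (nat_lit 425) ln9_10_5_c10 ln9_10_5_c10_ok) (L (nat_lit 360) ln8_14_6_c10 ln8_14_6_c10_ok))))) (B (M (nat_lit 329) (B (L (nat_lit 425) ln9_10_5_c10 ln9_10_5_c10_ok) (M (nat_lit 392) (B (L (nat_lit 360) ln8_14_6_c10 ln8_14_6_c10_ok) (L (nat_lit 297) ln9_9_5_c10 ln9_9_5_c10_ok))))) (B (M (nat_lit 392) (B (L (nat_lit 488) ln8_15_6_c10 ln8_15_6_c10_ok) (M (nat_lit 329) (B (L (nat_lit 360) ln8_14_6_c10 ln8_14_6_c10_ok) (L (nat_lit 297) ln9_9_5_c10 ln9_9_5_c10_ok))))) (B (M (nat_lit 425) (B (L (nat_lit 329) ln9_10_5_c10 ln9_10_5_c10_ok) (M (nat_lit 488) (B (L (nat_lit 520) ln8_16_6_c10 ln8_16_6_c10_ok) (L (nat_lit 457) ln9_11_5_c10 ln9_11_5_c10_ok))))) (M (nat_lit 488) (B (L (nat_lit 392) ln8_15_6_c10 ln8_15_6_c10_ok) (M (nat_lit 425) (B (L (nat_lit 520) ln8_16_6_c10 ln8_16_6_c10_ok) (L (nat_lit 457) ln9_11_5_c10 ln9_11_5_c10_ok)))))))))) (M (nat_lit 458) (B (L (nat_lit 490) ln11_11_5 ln11_11_5_ok)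 (M (nat_lit 457) (B (L (nat_lit 423) ln11_14_3 ln11_14_3_ok) (M (nat_lit 488) (B (L (nat_lit 487) ln11_14_1 ln11_14_1_ok) (M (nat_lit 425) (B (L (nat_lit 520) ln8_16_6_c10 ln8_16_6_c10_ok) (L (nat_lit 361) ln9_11_5_c10 ln9_11_5_c10_ok))))))))))))))))))) (B (M (nat_lit 396) (B (M (nat_lit 490) (B (M (nat_lit 522) (B (L (nat_lit 491) ln11_12_5 ln11_12_5_ok) (L (nat_lit 458) ln11_11_5 ln11_11_5_ok))) (B (M (nat_lit 425) (B (L (nat_lit 424) ln12_12_1 ln12_12_1_ok) (L (nat_lit 458) ln11_11_5 ln11_11_5_ok))) (M (nat_lit 489) (B (M (nat_lit 522) (B (L (nat_lit 491) ln11_12_5 ln11_12_5_ok) (M (nat_lit 425) (B (L (nat_lit 457) ln9_12_4 ln9_12_4_ok) (L (nat_lit 424) ln12_12_1 ln12_12_1_ok))))) (B (M (nat_lit 488) (B (M (nat_lit 425) (B (L (nat_lit 424) ln12_12_1 ln12_12_1_ok) (M (nat_lit 457) (B (L (nat_lit 520) ln9_12_5_c10 ln9_12_5_c10_ok) (M (nat_lit 361) (B (L (nat_lit 456) ln9_11_5_c10 ln9_11_5_c10_ok)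 (L (nat_lit 360) ln12_12_3 ln12_12_3_ok))))))) (B (M (nat_lit 456) (B (M (nat_lit 491) (B (L (nat_lit 455) ln11_15_3 ln11_15_3_ok) (M (nat_lit 524) (B (L (nat_lit 523) ln8_15_0 ln8_15_0_ok) (L (nat_lit 492) ln11_12_4 ln11_12_4_ok))))) (B (M (nat_lit 491) (B (L (nat_lit 455) ln11_15_3 ln11_15_3_ok) (M (nat_lit 492) (B (L (nat_lit 524) ln11_12_4 ln11_12_4_ok) (L (nat_lit 457) ln12_15_3 ln12_15_3_ok))))) (M (nat_lit 425) (B (L (nat_lit 424) ln12_12_1 ln12_12_1_ok) (M (nat_lit 361) (B (L (nat_lit 457) ln9_11_5_c10 ln9_11_5_c10_ok) (L (nat_lit 360) ln12_12_3 ln12_12_3_ok)))))))) (B (M (nat_lit 491) (B (M (nat_lit 524) (B (L (nat_lit 523) ln8_15_0 ln8_15_0_ok) (L (nat_lit 492) ln11_12_4 ln11_12_4_ok))) (M (nat_lit 520) (B (L (nat_lit 519) ln11_15_1 ln11_15_1_ok) (M (nat_lit 425) (B (L (nat_lit 457) ln9_12_5_c10 ln9_12_5_c10_ok) (L (nat_lit 424) ln12_12_1 ln12_12_1_ok))))))) (M (nat_lit 491) (B (M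 (nat_lit 524) (B (L (nat_lit 523) ln8_15_0 ln8_15_0_ok) (L (nat_lit 492) ln11_12_4 ln11_12_4_ok))) (M (nat_lit 487) (B (M (nat_lit 519) (B (L (nat_lit 518) ln10_15_1 ln10_15_1_ok) (L (nat_lit 520) ln11_15_1 ln11_15_1_ok))) (M (nat_lit 455) (B (L (nat_lit 454) ln10_15_3 ln10_15_3_ok) (L (nat_lit 456) ln11_15_3 ln11_15_3_ok))))))))))) (B (M (nat_lit 425) (B (L (nat_lit 424) ln12_12_1 ln12_12_1_ok) (M (nat_lit 457) (B (L (nat_lit 522) ln9_12_4 ln9_12_4_ok) (M (nat_lit 488) (B (L (nat_lit 520) ln9_12_5_c10 ln9_12_5_c10_ok) (M (nat_lit 361) (B (L (nat_lit 456) ln9_11_5_c10 ln9_11_5_c10_ok) (L (nat_lit 360) ln12_12_3 ln12_12_3_ok))))))))) (M (nat_lit 491) (B (L (nat_lit 522) ln11_12_5 ln11_12_5_ok) (M (nat_lit 524) (B (L (nat_lit 492) ln11_12_4 ln11_12_4_ok) (M (nat_lit 523) (B (L (nat_lit 556) ln11_13_4 ln11_13_4_ok) (L (nat_lit 488) ln8_15_0 ln8_15_0_ok)))))))))))))) (L (nat_lit 428) ln9_12_0 ln9_12_0_ok)))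 (B (M (nat_lit 392) (B (L (nat_lit 428) ln8_12_0 ln8_12_0_ok) (M (nat_lit 359) (B (L (nat_lit 360) ln11_12_3 ln11_12_3_ok) (M (nat_lit 423) (B (L (nat_lit 424) ln11_12_1 ln11_12_1_ok) (M (nat_lit 391) (B (L (nat_lit 358) ln10_12_3_c10 ln10_12_3_c10_ok) (L (nat_lit 422) ln10_12_1_c10 ln10_12_1_c10_ok))))))))) (M (nat_lit 428) (B (L (nat_lit 396) ln9_12_0 ln9_12_0_ok) (L (nat_lit 392) ln8_12_0 ln8_12_0_ok))))))
theorem c10_s19 : Sem (nat_lit 7442828538519933118171628043138940840321789388389130514873123439225193202285603004404846869852250707160144421232589589674220262377622863872) (nat_lit 235872651653460199734713761133312789452362613053429118413065292675754203129780625473981930386352905803246864971073552544336863677742658576718234465079047932634382467072) (nat_lit 235872651653460199734713761133312789452362613053429118413065292675754203129780625473981930386352905803246864971073552544336863677742658576718234465079047932634382467072)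 :=
  sem_of_chk (M (nat_lit 393) c10_d50) (nat_lit 7442828538519933118171628043138940840321789388389130514873123439225193202285603004404846869852250707160144421232589589674220262377622863872) (nat_lit 235872651653460199734713761133312789452362613053429118413065292675754203129780625473981930386352905803246864971073552544336863677742658576718234465079047932634382467072) (nat_lit 235872651653460199734713761133312789452362613053429118413065292675754203129780625473981930386352905803246864971073552544336863677742658576718234465079047932634382467072) (by decide +kernel)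
theorem c10_s20 : Sem (nat_lit 7442828538519933118171628043138940840321789388389130514873123439225193202285603004404846869852250707160144421232589589674220262377622863872) (nat_lit 17161994156520073412677210936267765715554721937632079641876465580476105177654348910250925651885830371482037890550303029466367075399602266019188571468174721024) (nat_lit 17161994156520073412677210936267765715554721937632079641876465580476105177654348910250925651885830371482037890550303029466367075399602266019188571468174721024) :=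
  sem_of_chk (M (nat_lit 393) (B (M (nat_lit 425) (B (M (nat_lit 457) (B (M (nat_lit 361) (B (M (nat_lit 360) (B (L (nat_lit 328) ln9_14_7_c10 ln9_14_7_c10_ok) (M (nat_lit 362) (B (L (nat_lit 489) ln9_15_6 ln9_15_6_ok) (L (nat_lit 359) ln7_11_0 ln7_11_0_ok))))) (B (M (nat_lit 360) (B (L (nat_lit 328) ln9_14_7_c10 ln9_14_7_c10_ok) (M (nat_lit 359) (B (L (nat_lit 362) ln7_11_0 ln7_11_0_ok) (L (nat_lit 358) ln6_11_0_c10 ln6_11_0_c10_ok))))) (B (M (nat_lit 329) (B (M (nat_lit 456) (B (L (nat_lit 488) ln9_11_5_c10 ln9_11_5_c10_ok) (L (nat_lit 424) ln9_10_5_c10 ln9_10_5_c10_ok))) (M (nat_lit 328) (B (L (nat_lit 360) ln9_14_7_c10 ln9_14_7_c10_ok) (L (nat_lit 296) ln9_13_7_c10 ln9_13_7_c10_ok))))) (M (nat_lit 489) (B (L (nat_lit 362) ln9_15_6 ln9_15_6_ok) (M (nat_lit 488) (B (L (nat_lit 520) ln9_12_5_c10 ln9_12_5_c10_ok) (L (nat_lit 456) ln9_11_5_c10 ln9_11_5_c10_ok))))))))) (B (M (nat_lit 458) (B (L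 (nat_lit 490) ln11_11_5 ln11_11_5_ok) (M (nat_lit 456) (B (L (nat_lit 428) ln8_14_2 ln8_14_2_ok) (M (nat_lit 455) (B (M (nat_lit 423) (B (L (nat_lit 422) ln10_14_3 ln10_14_3_ok) (L (nat_lit 424) ln11_14_3 ln11_14_3_ok))) (M (nat_lit 487) (B (L (nat_lit 486) ln10_14_1_c10 ln10_14_1_c10_ok) (L (nat_lit 488) ln11_14_1 ln11_14_1_ok))))))))) (M (nat_lit 489) (B (M (nat_lit 490) (B (L (nat_lit 458) ln11_11_5 ln11_11_5_ok) (L (nat_lit 522) ln9_12_4 ln9_12_4_ok))) (L (nat_lit 362) ln9_15_6 ln9_15_6_ok)))))) (B (M (nat_lit 361) (B (M (nat_lit 457) (B (M (nat_lit 458) (B (M (nat_lit 456) (B (L (nat_lit 428) ln8_14_2 ln8_14_2_ok) (L (nat_lit 488) ln9_11_5_c10 ln9_11_5_c10_ok))) (L (nat_lit 490) ln9_11_4 ln9_11_4_ok))) (B (M (nat_lit 489) (B (M (nat_lit 490) (B (L (nat_lit 458) ln9_11_4 ln9_11_4_ok) (L (nat_lit 522) ln9_12_4 ln9_12_4_ok))) (L (nat_lit 362) ln9_15_6 ln9_15_6_ok))) (M (nat_lit 489) (B (M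 (nat_lit 488) (B (L (nat_lit 456) ln9_11_5_c10 ln9_11_5_c10_ok) (L (nat_lit 520) ln9_12_5_c10 ln9_12_5_c10_ok))) (L (nat_lit 362) ln9_15_6 ln9_15_6_ok)))))) (B (M (nat_lit 360) (B (L (nat_lit 396) ln12_12_3 ln12_12_3_ok) (M (nat_lit 328) (B (L (nat_lit 457) ln9_14_7_c10 ln9_14_7_c10_ok) (M (nat_lit 296) (B (L (nat_lit 329) ln9_13_7_c10 ln9_13_7_c10_ok) (L (nat_lit 264) ln8_8_4_c10 ln8_8_4_c10_ok))))))) (M (nat_lit 396) (B (L (nat_lit 428) ln9_12_0 ln9_12_0_ok) (L (nat_lit 360) ln12_12_3 ln12_12_3_ok)))))) (B (M (nat_lit 361) (B (M (nat_lit 396) (B (L (nat_lit 424) ln12_12_1 ln12_12_1_ok) (L (nat_lit 360) ln12_12_3 ln12_12_3_ok))) (B (M (nat_lit 360) (B (L (nat_lit 396) ln12_12_3 ln12_12_3_ok) (M (nat_lit 359) (B (L (nat_lit 362) ln7_11_0 ln7_11_0_ok) (L (nat_lit 358) ln6_11_0_c10 ln6_11_0_c10_ok))))) (B (M (nat_lit 360) (B (M (nat_lit 359) (B (L (nat_lit 362) ln7_11_0 ln7_11_0_ok) (L (nat_lit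 358) ln6_11_0_c10 ln6_11_0_c10_ok))) (M (nat_lit 328) (B (L (nat_lit 457) ln9_14_7_c10 ln9_14_7_c10_ok) (M (nat_lit 296) (B (L (nat_lit 329) ln9_13_7_c10 ln9_13_7_c10_ok) (L (nat_lit 264) ln8_8_4_c10 ln8_8_4_c10_ok))))))) (M (nat_lit 424) (B (L (nat_lit 396) ln12_12_1 ln12_12_1_ok) (M (nat_lit 456) (B (L (nat_lit 329) ln9_10_5_c10 ln9_10_5_c10_ok) (M (nat_lit 488) (B (L (nat_lit 520) ln8_16_6_c10 ln8_16_6_c10_ok) (L (nat_lit 457) ln9_11_5_c10 ln9_11_5_c10_ok))))))))))) (M (nat_lit 396) (B (L (nat_lit 428) ln9_12_0 ln9_12_0_ok) (L (nat_lit 424) ln12_12_1 ln12_12_1_ok))))))) (B (M (nat_lit 392) (B (M (nat_lit 391) (B (L (nat_lit 362) ln7_12_2_c10 ln7_12_2_c10_ok) (M (nat_lit 359) (B (L (nat_lit 358) ln10_12_3_c10 ln10_12_3_c10_ok) (L (nat_lit 360) ln11_12_3 ln11_12_3_ok))))) (B (M (nat_lit 360) (B (L (nat_lit 359) ln11_12_3 ln11_12_3_ok) (M (nat_lit 424) (B (L (nat_lit 423) ln11_12_1 ln11_12_1_ok)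 (M (nat_lit 361) (B (M (nat_lit 329) (B (L (nat_lit 456) ln8_14_6_c10 ln8_14_6_c10_ok) (L (nat_lit 297) ln9_9_5_c10 ln9_9_5_c10_ok))) (M (nat_lit 328) (B (M (nat_lit 425) (B (L (nat_lit 457) ln8_10_4_c10 ln8_10_4_c10_ok) (L (nat_lit 296) ln8_9_4_c10 ln8_9_4_c10_ok))) (M (nat_lit 327) (B (L (nat_lit 295) ln8_13_7_c10 ln8_13_7_c10_ok) (L (nat_lit 362) ln11_11_3 ln11_11_3_ok))))))))))) (B (M (nat_lit 391) (B (L (nat_lit 362) ln7_12_2_c10 ln7_12_2_c10_ok) (M (nat_lit 423) (B (L (nat_lit 422) ln10_12_1_c10 ln10_12_1_c10_ok) (L (nat_lit 424) ln11_12_1 ln11_12_1_ok))))) (M (nat_lit 391) (B (M (nat_lit 423) (B (L (nat_lit 422) ln10_12_1_c10 ln10_12_1_c10_ok) (L (nat_lit 424) ln11_12_1 ln11_12_1_ok))) (M (nat_lit 359) (B (L (nat_lit 358) ln10_12_3_c10 ln10_12_3_c10_ok) (L (nat_lit 360) ln11_12_3 ln11_12_3_ok))))))))) (M (nat_lit 428) (B (L (nat_lit 396) ln9_12_0 ln9_12_0_ok) (L (nat_lit 392) ln8_12_0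 ln8_12_0_ok)))))) (nat_lit 7442828538519933118171628043138940840321789388389130514873123439225193202285603004404846869852250707160144421232589589674220262377622863872) (nat_lit 17161994156520073412677210936267765715554721937632079641876465580476105177654348910250925651885830371482037890550303029466367075399602266019188571468174721024) (nat_lit 17161994156520073412677210936267765715554721937632079641876465580476105177654348910250925651885830371482037890550303029466367075399602266019188571468174721024) (by decide +kernel)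
theorem c10_s22 : Sem (nat_lit 11164242806956763361724542930949954360387412368405372498011588490284763320381227860305654526517742114202174164724156242151434631932433924096) (nat_lit 93035356731499163983197498696727525058658545547361644095188976126280246276866107320735263314799411062846370033071415276228553066479091712) (nat_lit 93035356731499163983197498696727525058658545547361644095188976126280246276866107320735263314799411062846370033071415276228553066479091712) :=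
  sem_of_chk (M (nat_lit 328) (B (M (nat_lit 296) (B (M (nat_lit 265) (B (L (nat_lit 297) ln8_12_6_c10 ln8_12_6_c10_ok) (M (nat_lit 264) (B (L (nat_lit 233) ln8_11_6_c10 ln8_11_6_c10_ok) (M (nat_lit 263) (B (L (nat_lit 295) ln8_12_7_c10 ln8_12_7_c10_ok) (L (nat_lit 231) ln8_11_7_c10 ln8_11_7_c10_ok))))))) (B (M (nat_lit 264) (B (M (nat_lit 391) (B (L (nat_lit 423) ln8_9_5_c10 ln8_9_5_c10_ok) (L (nat_lit 359) ln8_8_5_c10 ln8_8_5_c10_ok))) (M (nat_lit 263) (B (L (nat_lit 295) ln8_12_7_c10 ln8_12_7_c10_ok) (L (nat_lit 231) ln8_11_7_c10 ln8_11_7_c10_ok))))) (B (M (nat_lit 264) (B (M (nat_lit 391) (B (L (nat_lit 423) ln8_9_5_c10 ln8_9_5_c10_ok) (L (nat_lit 359) ln8_8_5_c10 ln8_8_5_c10_ok))) (M (nat_lit 265) (B (L (nat_lit 297) ln8_12_6_c10 ln8_12_6_c10_ok) (L (nat_lit 233) ln8_11_6_c10 ln8_11_6_c10_ok))))) (M (nat_lit 423) (B (L (nat_lit 455) ln8_10_5_c10 ln8_10_5_c10_ok) (L (nat_lit 391) ln8_9_5_c10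 ln8_9_5_c10_ok))))))) (B (M (nat_lit 296) (B (M (nat_lit 297) (B (L (nat_lit 265) ln8_12_6_c10 ln8_12_6_c10_ok) (L (nat_lit 329) ln8_13_6_c10 ln8_13_6_c10_ok))) (M (nat_lit 295) (B (L (nat_lit 263) ln8_12_7_c10 ln8_12_7_c10_ok) (L (nat_lit 327) ln8_13_7_c10 ln8_13_7_c10_ok))))) (B (M (nat_lit 296) (B (M (nat_lit 264) (B (M (nat_lit 265) (B (L (nat_lit 233) ln8_11_6_c10 ln8_11_6_c10_ok) (L (nat_lit 297) ln8_12_6_c10 ln8_12_6_c10_ok))) (M (nat_lit 391) (B (L (nat_lit 359) ln8_8_5_c10 ln8_8_5_c10_ok) (L (nat_lit 423) ln8_9_5_c10 ln8_9_5_c10_ok))))) (B (M (nat_lit 297) (B (L (nat_lit 265) ln8_12_6_c10 ln8_12_6_c10_ok) (L (nat_lit 329) ln8_13_6_c10 ln8_13_6_c10_ok))) (B (M (nat_lit 264) (B (M (nat_lit 391) (B (L (nat_lit 359) ln8_8_5_c10 ln8_8_5_c10_ok) (L (nat_lit 423) ln8_9_5_c10 ln8_9_5_c10_ok))) (M (nat_lit 232) (B (M (nat_lit 231) (B (L (nat_lit 199) ln8_10_7_c10 ln8_10_7_c10_ok) (L (nat_lit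 263) ln8_11_7_c10 ln8_11_7_c10_ok))) (M (nat_lit 329) (B (L (nat_lit 361) ln8_7_4_c10 ln8_7_4_c10_ok) (L (nat_lit 297) ln8_13_6_c10 ln8_13_6_c10_ok))))))) (M (nat_lit 264) (B (M (nat_lit 391) (B (L (nat_lit 359) ln8_8_5_c10 ln8_8_5_c10_ok) (L (nat_lit 423) ln8_9_5_c10 ln8_9_5_c10_ok))) (M (nat_lit 232) (B (M (nat_lit 233) (B (L (nat_lit 201) ln8_10_6_c10 ln8_10_6_c10_ok) (L (nat_lit 265) ln8_11_6_c10 ln8_11_6_c10_ok))) (M (nat_lit 231) (B (L (nat_lit 199) ln8_10_7_c10 ln8_10_7_c10_ok) (L (nat_lit 263) ln8_11_7_c10 ln8_11_7_c10_ok))))))))))) (B (M (nat_lit 296) (B (M (nat_lit 297) (B (L (nat_lit 265) ln8_12_6_c10 ln8_12_6_c10_ok) (L (nat_lit 329) ln8_13_6_c10 ln8_13_6_c10_ok))) (M (nat_lit 423) (B (L (nat_lit 391) ln8_9_5_c10 ln8_9_5_c10_ok) (L (nat_lit 455) ln8_10_5_c10 ln8_10_5_c10_ok))))) (B (M (nat_lit 296) (B (M (nat_lit 423) (B (L (nat_lit 455) ln8_10_5_c10 ln8_10_5_c10_ok) (L (nat_lit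 391) ln8_9_5_c10 ln8_9_5_c10_ok))) (M (nat_lit 295) (B (L (nat_lit 327) ln8_13_7_c10 ln8_13_7_c10_ok) (L (nat_lit 263) ln8_12_7_c10 ln8_12_7_c10_ok))))) (M (nat_lit 327) (B (L (nat_lit 295) ln8_13_7_c10 ln8_13_7_c10_ok) (M (nat_lit 329) (B (L (nat_lit 297) ln8_13_6_c10 ln8_13_6_c10_ok) (M (nat_lit 326) (B (M (nat_lit 325) (B (L (nat_lit 361) ln5_10_0_c10 ln5_10_0_c10_ok) (M (nat_lit 293) (B (L (nat_lit 294) ln9_10_3_c10 ln9_10_3_c10_ok) (L (nat_lit 292) ln8_10_3_c10 ln8_10_3_c10_ok))))) (B (M (nat_lit 325) (B (L (nat_lit 361) ln5_10_0_c10 ln5_10_0_c10_ok) (M (nat_lit 357) (B (L (nat_lit 356) ln8_10_1_c10 ln8_10_1_c10_ok) (L (nat_lit 358) ln9_10_1_c10 ln9_10_1_c10_ok))))) (M (nat_lit 358) (B (L (nat_lit 357) ln9_10_1_c10 ln9_10_1_c10_ok) (M (nat_lit 423) (B (L (nat_lit 455) ln8_10_5_c10 ln8_10_5_c10_ok) (M (nat_lit 294) (B (L (nat_lit 293) ln9_10_3_c10 ln9_10_3_c10_ok) (M (nat_lit 391) (B (L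 (nat_lit 390) ln6_9_4_c10 ln6_9_4_c10_ok) (L (nat_lit 359) ln7_13_7_c10 ln7_13_7_c10_ok)))))))))))))))))))))) (nat_lit 11164242806956763361724542930949954360387412368405372498011588490284763320381227860305654526517742114202174164724156242151434631932433924096) (nat_lit 93035356731499163983197498696727525058658545547361644095188976126280246276866107320735263314799411062846370033071415276228553066479091712) (nat_lit 93035356731499163983197498696727525058658545547361644095188976126280246276866107320735263314799411062846370033071415276228553066479091712) (by decide +kernel)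
noncomputable def c10_d51 : Cert := (B (M (nat_lit 457) (B (M (nat_lit 523) (B (M (nat_lit 522) (B (L (nat_lit 554) ln11_13_5 ln11_13_5_ok) (M (nat_lit 524) (B (L (nat_lit 556) ln11_13_4 ln11_13_4_ok) (M (nat_lit 521) (B (M (nat_lit 456) (B (L (nat_lit 455) ln7_14_2 ln7_14_2_ok) (M (nat_lit 488) (B (L (nat_lit 487) ln11_14_1 ln11_14_1_ok) (M (nat_lit 424) (B (L (nat_lit 423) ln11_14_3 ln11_14_3_ok) (M (nat_lit 520) (B (L (nat_lit 553) ln8_13_4_c10 ln8_13_4_c10_ok) (M (nat_lit 551) (B (L (nat_lit 519) ln8_13_5_c10 ln8_13_5_c10_ok) (L (nat_lit 552) ln11_16_1 ln11_16_1_ok))))))))))) (B (M (nat_lit 456) (B (M (nat_lit 490) (B (L (nat_lit 455) ln7_14_0 ln7_14_0_ok) (L (nat_lit 553) ln10_13_5 ln10_13_5_ok))) (B (M (nat_lit 488) (B (L (nat_lit 487) ln11_14_1 ln11_14_1_ok) (M (nat_lit 553) (B (L (nat_lit 490) ln10_13_5 ln10_13_5_ok) (M (nat_lit 424) (B (L (nat_lit 423) ln11_14_3 ln11_14_3_ok) (L (nat_lit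 520) ln8_13_4_c10 ln8_13_4_c10_ok))))))) (M (nat_lit 487) (B (L (nat_lit 488) ln11_14_1 ln11_14_1_ok) (L (nat_lit 455) ln7_14_2 ln7_14_2_ok)))))) (B (M (nat_lit 487) (B (M (nat_lit 488) (B (L (nat_lit 520) ln11_16_3_c10 ln11_16_3_c10_ok) (L (nat_lit 456) ln11_14_1 ln11_14_1_ok))) (B (M (nat_lit 456) (B (L (nat_lit 488) ln11_14_1 ln11_14_1_ok) (L (nat_lit 455) ln7_14_2 ln7_14_2_ok))) (B (M (nat_lit 519) (B (M (nat_lit 520) (B (L (nat_lit 486) ln10_16_3_c10 ln10_16_3_c10_ok) (L (nat_lit 490) ln7_16_2 ln7_16_2_ok))) (B (M (nat_lit 520) (B (L (nat_lit 490) ln7_16_2 ln7_16_2_ok) (M (nat_lit 551) (B (L (nat_lit 550) ln10_16_1_c10 ln10_16_1_c10_ok) (L (nat_lit 552) ln11_16_1 ln11_16_1_ok))))) (M (nat_lit 455) (B (L (nat_lit 456) ln7_14_2 ln7_14_2_ok) (M (nat_lit 551) (B (M (nat_lit 583) (B (M (nat_lit 582) (B (L (nat_lit 614) ln7_15_5_c10 ln7_15_5_c10_ok) (L (nat_lit 550) ln7_14_5_c10 ln7_14_5_c10_ok)))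 (M (nat_lit 584) (B (L (nat_lit 616) ln7_15_4_c10 ln7_15_4_c10_ok) (L (nat_lit 552) ln7_14_4_c10 ln7_14_4_c10_ok))))) (B (M (nat_lit 583) (B (M (nat_lit 454) (B (L (nat_lit 486) ln7_18_7_c10 ln7_18_7_c10_ok) (L (nat_lit 422) ln7_17_7_c10 ln7_17_7_c10_ok))) (M (nat_lit 584) (B (L (nat_lit 616) ln7_15_4_c10 ln7_15_4_c10_ok) (L (nat_lit 552) ln7_14_4_c10 ln7_14_4_c10_ok))))) (M (nat_lit 423) (B (M (nat_lit 550) (B (L (nat_lit 582) ln7_14_5_c10 ln7_14_5_c10_ok) (L (nat_lit 518) ln7_13_5_c10 ln7_13_5_c10_ok))) (M (nat_lit 422) (B (L (nat_lit 454) ln7_17_7_c10 ln7_17_7_c10_ok) (L (nat_lit 390) ln7_16_7_c10 ln7_16_7_c10_ok))))))))))))) (M (nat_lit 520) (B (L (nat_lit 488) ln11_16_3_c10 ln11_16_3_c10_ok) (M (nat_lit 519) (B (L (nat_lit 486) ln10_16_3_c10 ln10_16_3_c10_ok) (L (nat_lit 490) ln7_16_2 ln7_16_2_ok))))))))) (M (nat_lit 553) (B (L (nat_lit 490) ln10_13_5 ln10_13_5_ok) (L (nat_lit 552) ln12_16_1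 ln12_16_1_ok))))))))))) (L (nat_lit 555) ln11_17_7 ln11_17_7_ok))) (B (M (nat_lit 523) (B (M (nat_lit 524) (B (L (nat_lit 556) ln11_13_4 ln11_13_4_ok) (M (nat_lit 522) (B (L (nat_lit 554) ln11_13_5 ln11_13_5_ok) (M (nat_lit 521) (B (M (nat_lit 490) (B (L (nat_lit 553) ln10_13_5 ln10_13_5_ok) (M (nat_lit 520) (B (L (nat_lit 519) ln7_16_2 ln7_16_2_ok) (L (nat_lit 492) ln8_16_2 ln8_16_2_ok))))) (B (M (nat_lit 553) (B (L (nat_lit 490) ln10_13_5 ln10_13_5_ok) (L (nat_lit 552) ln12_16_1 ln12_16_1_ok))) (M (nat_lit 520) (B (L (nat_lit 492) ln8_16_2 ln8_16_2_ok) (M (nat_lit 551) (B (L (nat_lit 552) ln11_16_1 ln11_16_1_ok) (M (nat_lit 487) (B (L (nat_lit 488) ln11_16_3_c10 ln11_16_3_c10_ok) (M (nat_lit 519) (B (L (nat_lit 550) ln10_16_1_c10 ln10_16_1_c10_ok) (L (nat_lit 486) ln10_16_3_c10 ln10_16_3_c10_ok)))))))))))))))) (L (nat_lit 555) ln11_17_7 ln11_17_7_ok))) (M (nat_lit 456) (B (L (nat_lit 492)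 ln8_14_0 ln8_14_0_ok) (L (nat_lit 455) ln7_14_2 ln7_14_2_ok)))))) (B (M (nat_lit 523) (B (M (nat_lit 522) (B (L (nat_lit 554) ln11_13_5 ln11_13_5_ok) (M (nat_lit 524) (B (L (nat_lit 556) ln11_13_4 ln11_13_4_ok) (M (nat_lit 521) (B (M (nat_lit 553) (B (L (nat_lit 490) ln10_13_5 ln10_13_5_ok) (L (nat_lit 552) ln12_16_1 ln12_16_1_ok))) (B (M (nat_lit 489) (B (L (nat_lit 488) ln12_16_3 ln12_16_3_ok) (M (nat_lit 553) (B (L (nat_lit 552) ln12_16_1 ln12_16_1_ok) (L (nat_lit 457) ln9_17_6 ln9_17_6_ok))))) (B (M (nat_lit 520) (B (M (nat_lit 519) (B (L (nat_lit 490) ln7_16_2 ln7_16_2_ok) (M (nat_lit 487) (B (L (nat_lit 486) ln10_16_3_c10 ln10_16_3_c10_ok) (L (nat_lit 488) ln11_16_3_c10 ln11_16_3_c10_ok))))) (B (M (nat_lit 488) (B (L (nat_lit 487) ln11_16_3_c10 ln11_16_3_c10_ok) (L (nat_lit 489) ln12_16_3 ln12_16_3_ok))) (M (nat_lit 519) (B (L (nat_lit 490) ln7_16_2 ln7_16_2_ok) (M (nat_lit 551) (B (L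 (nat_lit 550) ln10_16_1_c10 ln10_16_1_c10_ok) (L (nat_lit 552) ln11_16_1 ln11_16_1_ok)))))))) (M (nat_lit 520) (B (M (nat_lit 488) (B (L (nat_lit 487) ln11_16_3_c10 ln11_16_3_c10_ok) (L (nat_lit 489) ln12_16_3 ln12_16_3_ok))) (M (nat_lit 490) (B (L (nat_lit 519) ln7_16_2 ln7_16_2_ok) (L (nat_lit 553) ln10_13_5 ln10_13_5_ok))))))))))))) (L (nat_lit 555) ln11_17_7 ln11_17_7_ok))) (B (M (nat_lit 523) (B (M (nat_lit 522) (B (M (nat_lit 521) (B (M (nat_lit 524) (B (L (nat_lit 556) ln11_13_4 ln11_13_4_ok) (M (nat_lit 489) (B (L (nat_lit 488) ln12_16_3 ln12_16_3_ok) (M (nat_lit 553) (B (L (nat_lit 457) ln9_17_6 ln9_17_6_ok) (L (nat_lit 552) ln12_16_1 ln12_16_1_ok))))))) (B (M (nat_lit 520) (B (L (nat_lit 492) ln8_16_2 ln8_16_2_ok) (M (nat_lit 524) (B (M (nat_lit 552) (B (L (nat_lit 551) ln11_16_1 ln11_16_1_ok) (L (nat_lit 553) ln12_16_1 ln12_16_1_ok))) (L (nat_lit 556) ln11_13_4 ln11_13_4_ok))))) (B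 (M (nat_lit 524) (B (L (nat_lit 556) ln11_13_4 ln11_13_4_ok) (M (nat_lit 488) (B (L (nat_lit 489) ln12_16_3 ln12_16_3_ok) (M (nat_lit 520) (B (L (nat_lit 492) ln8_16_2 ln8_16_2_ok) (L (nat_lit 487) ln11_16_3_c10 ln11_16_3_c10_ok))))))) (M (nat_lit 457) (B (M (nat_lit 489) (B (L (nat_lit 553) ln9_17_6 ln9_17_6_ok) (L (nat_lit 488) ln12_14_1 ln12_14_1_ok))) (M (nat_lit 492) (B (L (nat_lit 456) ln8_14_0 ln8_14_0_ok) (L (nat_lit 520) ln8_16_2 ln8_16_2_ok))))))))) (L (nat_lit 554) ln11_13_5 ln11_13_5_ok))) (L (nat_lit 555) ln11_17_7 ln11_17_7_ok))) (B (M (nat_lit 490) (B (M (nat_lit 522) (B (L (nat_lit 554) ln10_17_6 ln10_17_6_ok) (M (nat_lit 523) (B (L (nat_lit 555) ln10_13_4 ln10_13_4_ok) (M (nat_lit 521) (B (L (nat_lit 553) ln10_13_5 ln10_13_5_ok) (M (nat_lit 520) (B (L (nat_lit 519) ln7_16_2 ln7_16_2_ok) (L (nat_lit 492) ln8_16_2 ln8_16_2_ok))))))))) (L (nat_lit 489) ln13_14_1 ln13_14_1_ok)))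 (M (nat_lit 457) (B (M (nat_lit 456) (B (L (nat_lit 492) ln8_14_0 ln8_14_0_ok) (L (nat_lit 455) ln7_14_2 ln7_14_2_ok))) (M (nat_lit 489) (B (L (nat_lit 488) ln12_14_1 ln12_14_1_ok) (L (nat_lit 490) ln13_14_1 ln13_14_1_ok)))))))))
theorem c10_s38 : Sem (nat_lit 8187111392371926429855643588104584529868739662010080344203152980095452954938199152290875249941103567677609341053486645714689456498412617728) (nat_lit 339928315513534963489347076483866596341084467416966012561876615930740432205484603570186992900453088435197831322484779183792243153223004077831206080426908364751606555620801001446025723904) (nat_lit 339928315513534963489347076483866596341084467416966012561876615930740432205484603570186992900453088435197831322484779183792243153223004077831206080426908364751606555620801001446025723904) :=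
  sem_of_chk (M (nat_lit 460) (B (M (nat_lit 491) c10_d51) (L (nat_lit 462) ln14_14_3 ln14_14_3_ok))) (nat_lit 8187111392371926429855643588104584529868739662010080344203152980095452954938199152290875249941103567677609341053486645714689456498412617728) (nat_lit 339928315513534963489347076483866596341084467416966012561876615930740432205484603570186992900453088435197831322484779183792243153223004077831206080426908364751606555620801001446025723904) (nat_lit 339928315513534963489347076483866596341084467416966012561876615930740432205484603570186992900453088435197831322484779183792243153223004077831206080426908364751606555620801001446025723904) (by decide +kernel)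
noncomputable def c10_d52 : Cert := (B (M (nat_lit 330) (B (M (nat_lit 361) (B (M (nat_lit 329) (B (M (nat_lit 393) (B (M (nat_lit 298) (B (L (nat_lit 266) ln10_8_4 ln10_8_4_ok) (L (nat_lit 425) ln9_10_4_c10 ln9_10_4_c10_ok))) (B (L (nat_lit 425) ln9_10_4_c10 ln9_10_4_c10_ok) (M (nat_lit 297) (B (M (nat_lit 266) (B (L (nat_lit 298) ln10_8_4 ln10_8_4_ok) (M (nat_lit 265) (B (L (nat_lit 234) ln9_11_6_c10 ln9_11_6_c10_ok) (L (nat_lit 233) ln9_7_4_c10 ln9_7_4_c10_ok))))) (B (M (nat_lit 265) (B (L (nat_lit 233) ln9_7_4_c10 ln9_7_4_c10_ok) (M (nat_lit 264) (B (L (nat_lit 232) ln9_11_7_c10 ln9_11_7_c10_ok) (L (nat_lit 296) ln9_12_7_c10 ln9_12_7_c10_ok))))) (B (M (nat_lit 265) (B (M (nat_lit 266) (B (L (nat_lit 234) ln9_11_6_c10 ln9_11_6_c10_ok) (L (nat_lit 298) ln10_8_4 ln10_8_4_ok))) (M (nat_lit 264) (B (L (nat_lit 232) ln9_11_7_c10 ln9_11_7_c10_ok) (L (nat_lit 296) ln9_12_7_c10 ln9_12_7_c10_ok)))))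 (M (nat_lit 298) (B (L (nat_lit 266) ln10_8_4 ln10_8_4_ok) (M (nat_lit 327) (B (L (nat_lit 328) ln7_10_0_c10 ln7_10_0_c10_ok) (M (nat_lit 296) (B (L (nat_lit 264) ln9_12_7_c10 ln9_12_7_c10_ok) (M (nat_lit 295) (B (L (nat_lit 326) ln10_9_1_c10 ln10_9_1_c10_ok) (L (nat_lit 294) ln6_9_0_c10 ln6_9_0_c10_ok)))))))))))))))) (B (M (nat_lit 360) (B (M (nat_lit 327) (B (L (nat_lit 328) ln7_10_0_c10 ln7_10_0_c10_ok) (M (nat_lit 359) (B (L (nat_lit 358) ln6_11_2_c10 ln6_11_2_c10_ok) (L (nat_lit 326) ln10_11_3 ln10_11_3_ok))))) (B (M (nat_lit 359) (B (M (nat_lit 391) (B (L (nat_lit 390) ln10_11_1 ln10_11_1_ok) (L (nat_lit 392) ln11_11_1 ln11_11_1_ok))) (M (nat_lit 327) (B (L (nat_lit 326) ln10_11_3 ln10_11_3_ok) (L (nat_lit 328) ln7_10_0_c10 ln7_10_0_c10_ok))))) (B (M (nat_lit 391) (B (L (nat_lit 392) ln11_11_1 ln11_11_1_ok) (M (nat_lit 359) (B (L (nat_lit 390) ln10_11_1 ln10_11_1_ok) (L (nat_lit 358) ln6_11_2_c10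 ln6_11_2_c10_ok))))) (M (nat_lit 328) (B (L (nat_lit 327) ln7_10_0_c10 ln7_10_0_c10_ok) (M (nat_lit 425) (B (L (nat_lit 393) ln9_10_4_c10 ln9_10_4_c10_ok) (M (nat_lit 392) (B (L (nat_lit 391) ln11_11_1 ln11_11_1_ok) (M (nat_lit 424) (B (L (nat_lit 456) ln8_14_6_c10 ln8_14_6_c10_ok) (L (nat_lit 457) ln8_10_4_c10 ln8_10_4_c10_ok))))))))))))) (B (M (nat_lit 393) (B (M (nat_lit 298) (B (L (nat_lit 266) ln10_8_4 ln10_8_4_ok) (L (nat_lit 425) ln9_10_4_c10 ln9_10_4_c10_ok))) (B (L (nat_lit 425) ln9_10_4_c10 ln9_10_4_c10_ok) (M (nat_lit 297) (B (M (nat_lit 266) (B (L (nat_lit 298) ln10_8_4 ln10_8_4_ok) (M (nat_lit 265) (B (L (nat_lit 233) ln9_7_4_c10 ln9_7_4_c10_ok) (L (nat_lit 234) ln9_11_6_c10 ln9_11_6_c10_ok))))) (B (M (nat_lit 392) (B (L (nat_lit 424) ln9_9_5_c10 ln9_9_5_c10_ok) (M (nat_lit 360) (B (L (nat_lit 265) ln9_8_5_c10 ln9_8_5_c10_ok) (L (nat_lit 391) ln11_11_1 ln11_11_1_ok))))) (M (nat_lit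 392) (B (L (nat_lit 424) ln9_9_5_c10 ln9_9_5_c10_ok) (M (nat_lit 391) (B (L (nat_lit 360) ln11_11_1 ln11_11_1_ok) (L (nat_lit 390) ln6_12_2_c10 ln6_12_2_c10_ok))))))))))) (M (nat_lit 360) (B (M (nat_lit 359) (B (L (nat_lit 358) ln6_11_2_c10 ln6_11_2_c10_ok) (M (nat_lit 327) (B (L (nat_lit 326) ln10_11_3 ln10_11_3_ok) (L (nat_lit 328) ln7_10_0_c10 ln7_10_0_c10_ok))))) (B (M (nat_lit 359) (B (L (nat_lit 358) ln6_11_2_c10 ln6_11_2_c10_ok) (M (nat_lit 391) (B (L (nat_lit 390) ln10_11_1 ln10_11_1_ok) (L (nat_lit 392) ln11_11_1 ln11_11_1_ok))))) (B (M (nat_lit 327) (B (L (nat_lit 328) ln7_10_0_c10 ln7_10_0_c10_ok) (M (nat_lit 359) (B (L (nat_lit 326) ln10_11_3 ln10_11_3_ok) (M (nat_lit 391) (B (L (nat_lit 390) ln10_11_1 ln10_11_1_ok) (L (nat_lit 392) ln11_11_1 ln11_11_1_ok))))))) (M (nat_lit 328) (B (L (nat_lit 327) ln7_10_0_c10 ln7_10_0_c10_ok) (M (nat_lit 392) (B (L (nat_lit 391) ln11_11_1 ln11_11_1_ok)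 (M (nat_lit 424) (B (L (nat_lit 297) ln8_13_6_c10 ln8_13_6_c10_ok) (L (nat_lit 456) ln8_14_6_c10 ln8_14_6_c10_ok))))))))))))))) (B (M (nat_lit 425) (B (M (nat_lit 424) (B (L (nat_lit 396) ln8_13_2 ln8_13_2_ok) (M (nat_lit 455) (B (L (nat_lit 456) ln11_13_1_c10 ln11_13_1_c10_ok) (M (nat_lit 391) (B (L (nat_lit 392) ln11_13_3 ln11_13_3_ok) (M (nat_lit 423) (B (L (nat_lit 454) ln10_13_1_c10 ln10_13_1_c10_ok) (L (nat_lit 390) ln10_13_3_c10 ln10_13_3_c10_ok))))))))) (M (nat_lit 393) (B (L (nat_lit 329) ln9_10_4_c10 ln9_10_4_c10_ok) (L (nat_lit 457) ln9_14_6_c10 ln9_14_6_c10_ok))))) (B (M (nat_lit 360) (B (L (nat_lit 396) ln8_11_0 ln8_11_0_ok) (M (nat_lit 327) (B (L (nat_lit 328) ln11_11_3 ln11_11_3_ok) (M (nat_lit 391) (B (L (nat_lit 392) ln11_11_1 ln11_11_1_ok) (M (nat_lit 359) (B (L (nat_lit 326) ln10_11_3 ln10_11_3_ok) (L (nat_lit 390) ln10_11_1 ln10_11_1_ok))))))))) (M (nat_lit 425) (B (M (nat_lit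 393) (B (L (nat_lit 329) ln9_10_4_c10 ln9_10_4_c10_ok) (L (nat_lit 457) ln9_14_6_c10 ln9_14_6_c10_ok))) (M (nat_lit 396) (B (L (nat_lit 424) ln8_13_2 ln8_13_2_ok) (L (nat_lit 360) ln8_11_0 ln8_11_0_ok))))))))) (L (nat_lit 459) ln11_14_7 ln11_14_7_ok))) (B (M (nat_lit 361) (B (M (nat_lit 394) (B (M (nat_lit 360) (B (L (nat_lit 359) ln7_11_0 ln7_11_0_ok) (M (nat_lit 392) (B (L (nat_lit 391) ln11_11_1 ln11_11_1_ok) (M (nat_lit 328) (B (L (nat_lit 327) ln11_11_3 ln11_11_3_ok) (M (nat_lit 457) (B (L (nat_lit 489) ln10_11_5 ln10_11_5_ok) (M (nat_lit 425) (B (L (nat_lit 393) ln9_14_7_c10 ln9_14_7_c10_ok) (L (nat_lit 424) ln8_10_4_c10 ln8_10_4_c10_ok))))))))))) (L (nat_lit 329) ln10_14_7 ln10_14_7_ok))) (B (M (nat_lit 425) (B (M (nat_lit 424) (B (L (nat_lit 396) ln8_13_2 ln8_13_2_ok) (M (nat_lit 455) (B (L (nat_lit 456) ln11_13_1_c10 ln11_13_1_c10_ok) (M (nat_lit 391) (B (L (nat_lit 392) ln11_13_3 ln11_13_3_ok)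 (M (nat_lit 423) (B (L (nat_lit 454) ln10_13_1_c10 ln10_13_1_c10_ok) (L (nat_lit 390) ln10_13_3_c10 ln10_13_3_c10_ok))))))))) (M (nat_lit 329) (B (L (nat_lit 393) ln9_10_4_c10 ln9_10_4_c10_ok) (L (nat_lit 394) ln10_14_7 ln10_14_7_ok))))) (B (M (nat_lit 360) (B (L (nat_lit 396) ln8_11_0 ln8_11_0_ok) (M (nat_lit 327) (B (L (nat_lit 328) ln11_11_3 ln11_11_3_ok) (M (nat_lit 391) (B (L (nat_lit 392) ln11_11_1 ln11_11_1_ok) (M (nat_lit 359) (B (L (nat_lit 326) ln10_11_3 ln10_11_3_ok) (L (nat_lit 390) ln10_11_1 ln10_11_1_ok))))))))) (M (nat_lit 394) (B (M (nat_lit 360) (B (L (nat_lit 396) ln8_11_0 ln8_11_0_ok) (L (nat_lit 359) ln7_11_0 ln7_11_0_ok))) (L (nat_lit 329) ln10_14_7 ln10_14_7_ok))))))) (M (nat_lit 330) (B (M (nat_lit 298) (B (L (nat_lit 394) ln10_9_4 ln10_9_4_ok) (L (nat_lit 266) ln10_8_4 ln10_8_4_ok))) (L (nat_lit 459) ln11_14_7 ln11_14_7_ok)))))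
theorem c10_s67 : Sem (nat_lit 5954262831335822062168816158962850493761100876103733384091218394238442296629798836724711580336448181607123291969041254335243134419456753664) (nat_lit 13729595325056225206179779402076437136332843899646366012762921032018968449859184963036882193683268548248496767743092706825585273446720363869331131038647189504) (nat_lit 13729595325056225206179779402076437136332843899646366012762921032018968449859184963036882193683268548248496767743092706825585273446720363869331131038647189504) :=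
  sem_of_chk (M (nat_lit 458) (B (M (nat_lit 362) c10_d52) (B (M (nat_lit 490) (B (L (nat_lit 459) ln11_11_5 ln11_11_5_ok) (L (nat_lit 522) ln10_16_6 ln10_16_6_ok))) (M (nat_lit 490) (B (L (nat_lit 394) ln10_15_6 ln10_15_6_ok) (L (nat_lit 522) ln10_16_6 ln10_16_6_ok)))))) (nat_lit 5954262831335822062168816158962850493761100876103733384091218394238442296629798836724711580336448181607123291969041254335243134419456753664) (nat_lit 13729595325056225206179779402076437136332843899646366012762921032018968449859184963036882193683268548248496767743092706825585273446720363869331131038647189504) (nat_lit 13729595325056225206179779402076437136332843899646366012762921032018968449859184963036882193683268548248496767743092706825585273446720363869331131038647189504) (by decide +kernel)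
theorem c10_s70 : Sem (nat_lit 7442828538693224974013831317517483780117358382791360771547710322160391558686037783696750852198235963875564936218674386743121998554859569152) (nat_lit 1716199424223080164504135240793070520584939410064935701858969045069564628576697911981183215317126503914517604119764642302507352512955592048735528955729149952) (nat_lit 1716199424223080164504135240793070520584939410064935701858969045069564628576697911981183215317126503914517604119764642302507352512955592048735528955729149952) :=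
  sem_of_chk (M (nat_lit 362) (B (M (nat_lit 394) (B (M (nat_lit 424) (B (M (nat_lit 392) (B (M (nat_lit 360) (B (M (nat_lit 361) (B (L (nat_lit 391) ln11_11_1 ln11_11_1_ok) (L (nat_lit 359) ln7_11_0 ln7_11_0_ok))) (B (M (nat_lit 328) (B (M (nat_lit 296) (B (M (nat_lit 297) (B (L (nat_lit 265) ln8_12_6_c10 ln8_12_6_c10_ok) (L (nat_lit 329) ln8_13_6_c10 ln8_13_6_c10_ok))) (M (nat_lit 423) (B (L (nat_lit 391) ln8_9_5_c10 ln8_9_5_c10_ok) (L (nat_lit 455) ln8_10_5_c10 ln8_10_5_c10_ok))))) (B (M (nat_lit 296) (B (M (nat_lit 295) (B (L (nat_lit 263) ln8_12_7_c10 ln8_12_7_c10_ok) (L (nat_lit 327) ln8_13_7_c10 ln8_13_7_c10_ok))) (M (nat_lit 423) (B (L (nat_lit 391) ln8_9_5_c10 ln8_9_5_c10_ok) (L (nat_lit 455) ln8_10_5_c10 ln8_10_5_c10_ok))))) (B (M (nat_lit 456) (B (M (nat_lit 327) (B (L (nat_lit 295) ln8_13_7_c10 ln8_13_7_c10_ok) (L (nat_lit 359) ln8_14_7_c10 ln8_14_7_c10_ok))) (M (nat_lit 455) (B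 (L (nat_lit 423) ln8_10_5_c10 ln8_10_5_c10_ok) (L (nat_lit 487) ln8_11_5_c10 ln8_11_5_c10_ok))))) (M (nat_lit 296) (B (M (nat_lit 297) (B (L (nat_lit 265) ln8_12_6_c10 ln8_12_6_c10_ok) (L (nat_lit 329) ln8_13_6_c10 ln8_13_6_c10_ok))) (M (nat_lit 295) (B (L (nat_lit 263) ln8_12_7_c10 ln8_12_7_c10_ok) (L (nat_lit 327) ln8_13_7_c10 ln8_13_7_c10_ok))))))))) (B (M (nat_lit 361) (B (L (nat_lit 391) ln11_11_1 ln11_11_1_ok) (M (nat_lit 328) (B (L (nat_lit 327) ln11_11_3 ln11_11_3_ok) (M (nat_lit 329) (B (L (nat_lit 297) ln8_13_6_c10 ln8_13_6_c10_ok) (L (nat_lit 456) ln8_14_6_c10 ln8_14_6_c10_ok))))))) (M (nat_lit 361) (B (L (nat_lit 359) ln7_11_0 ln7_11_0_ok) (M (nat_lit 328) (B (L (nat_lit 327) ln11_11_3 ln11_11_3_ok) (M (nat_lit 329) (B (L (nat_lit 297) ln8_13_6_c10 ln8_13_6_c10_ok) (L (nat_lit 456) ln8_14_6_c10 ln8_14_6_c10_ok))))))))))) (B (M (nat_lit 360) (B (M (nat_lit 393) (B (L (nat_lit 423)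 ln11_12_1 ln11_12_1_ok) (L (nat_lit 359) ln11_12_3 ln11_12_3_ok))) (B (M (nat_lit 359) (B (L (nat_lit 393) ln11_12_3 ln11_12_3_ok) (L (nat_lit 361) ln7_11_0 ln7_11_0_ok))) (B (M (nat_lit 423) (B (L (nat_lit 393) ln11_12_1 ln11_12_1_ok) (M (nat_lit 455) (B (L (nat_lit 328) ln8_10_5_c10 ln8_10_5_c10_ok) (M (nat_lit 487) (B (L (nat_lit 519) ln7_16_6_c10 ln7_16_6_c10_ok) (L (nat_lit 456) ln8_11_5_c10 ln8_11_5_c10_ok))))))) (M (nat_lit 361) (B (L (nat_lit 359) ln7_11_0 ln7_11_0_ok) (M (nat_lit 329) (B (L (nat_lit 456) ln8_14_6_c10 ln8_14_6_c10_ok) (M (nat_lit 297) (B (L (nat_lit 328) ln8_13_6_c10 ln8_13_6_c10_ok) (L (nat_lit 265) ln9_8_4_c10 ln9_8_4_c10_ok))))))))))) (B (M (nat_lit 393) (B (L (nat_lit 391) ln7_12_0_c10 ln7_12_0_c10_ok) (M (nat_lit 360) (B (L (nat_lit 359) ln11_12_3 ln11_12_3_ok) (M (nat_lit 361) (B (L (nat_lit 396) ln8_11_0 ln8_11_0_ok) (M (nat_lit 329) (B (L (nat_lit 297) ln9_9_4_c10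 ln9_9_4_c10_ok) (L (nat_lit 456) ln8_14_6_c10 ln8_14_6_c10_ok))))))))) (M (nat_lit 393) (B (L (nat_lit 391) ln7_12_0_c10 ln7_12_0_c10_ok) (L (nat_lit 423) ln11_12_1 ln11_12_1_ok))))))) (B (M (nat_lit 425) (B (L (nat_lit 423) ln7_13_2 ln7_13_2_ok) (M (nat_lit 392) (B (L (nat_lit 391) ln11_13_3 ln11_13_3_ok) (M (nat_lit 456) (B (L (nat_lit 455) ln11_13_1_c10 ln11_13_1_c10_ok) (M (nat_lit 393) (B (M (nat_lit 361) (B (L (nat_lit 488) ln8_15_6_c10 ln8_15_6_c10_ok) (L (nat_lit 329) ln9_10_5_c10 ln9_10_5_c10_ok))) (M (nat_lit 360) (B (M (nat_lit 457) (B (L (nat_lit 489) ln8_11_4_c10 ln8_11_4_c10_ok) (L (nat_lit 328) ln8_10_4_c10 ln8_10_4_c10_ok))) (L (nat_lit 359) ln11_12_3 ln11_12_3_ok))))))))))) (M (nat_lit 425) (B (L (nat_lit 460) ln8_13_0 ln8_13_0_ok) (L (nat_lit 396) ln8_13_2 ln8_13_2_ok)))))) (L (nat_lit 491) ln11_15_7 ln11_15_7_ok))) (L (nat_lit 330) ln11_14_7 ln11_14_7_ok))) (nat_lit 7442828538693224974013831317517483780117358382791360771547710322160391558686037783696750852198235963875564936218674386743121998554859569152)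 (nat_lit 1716199424223080164504135240793070520584939410064935701858969045069564628576697911981183215317126503914517604119764642302507352512955592048735528955729149952) (nat_lit 1716199424223080164504135240793070520584939410064935701858969045069564628576697911981183215317126503914517604119764642302507352512955592048735528955729149952) (by decide +kernel)
theorem c10_s79 : Sem (nat_lit 5954262831162530206286265230239199607252158144638956066880229858290287322841385004986859978896449781225614568337954303650155411180145868800) (nat_lit 294840814535290085410873767965064507116940702384061133024019532635347700271506902244268991594004818594098187138118735103870507353089723985130005291488325573556182188032) (nat_lit 294840814535290085410873767965064507116940702384061133024019532635347700271506902244268991594004818594098187138118735103870507353089723985130005291488325573556182188032) :=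
  sem_of_chk (M (nat_lit 459) (B (M (nat_lit 491) (B (M (nat_lit 524) (B (L (nat_lit 492) ln11_12_4 ln11_12_4_ok) (M (nat_lit 523) (B (L (nat_lit 556) ln11_13_4 ln11_13_4_ok) (M (nat_lit 522) (B (L (nat_lit 490) ln11_12_5 ln11_12_5_ok) (L (nat_lit 554) ln11_13_5 ln11_13_5_ok))))))) (B (M (nat_lit 523) (B (M (nat_lit 394) (B (L (nat_lit 362) ln11_15_7 ln11_15_7_ok) (L (nat_lit 426) ln11_16_7 ln11_16_7_ok))) (M (nat_lit 522) (B (L (nat_lit 490) ln11_12_5 ln11_12_5_ok) (L (nat_lit 554) ln11_13_5 ln11_13_5_ok))))) (B (M (nat_lit 523) (B (M (nat_lit 394) (B (L (nat_lit 362) ln11_15_7 ln11_15_7_ok) (L (nat_lit 426) ln11_16_7 ln11_16_7_ok))) (M (nat_lit 524) (B (L (nat_lit 492) ln11_12_4 ln11_12_4_ok) (L (nat_lit 556) ln11_13_4 ln11_13_4_ok))))) (M (nat_lit 362) (B (L (nat_lit 330) ln11_14_7 ln11_14_7_ok) (L (nat_lit 394) ln11_15_7 ln11_15_7_ok))))))) (B (M (nat_lit 490) (B (M (nat_lit 522) (B (L (nat_lit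 491) ln11_12_5 ln11_12_5_ok) (L (nat_lit 458) ln11_11_5 ln11_11_5_ok))) (B (M (nat_lit 460) (B (L (nat_lit 458) ln11_11_5 ln11_11_5_ok) (L (nat_lit 492) ln11_11_4 ln11_11_4_ok))) (M (nat_lit 491) (B (L (nat_lit 522) ln11_12_5 ln11_12_5_ok) (M (nat_lit 492) (B (L (nat_lit 524) ln11_12_4 ln11_12_4_ok) (L (nat_lit 460) ln11_11_4 ln11_11_4_ok)))))))) (B (M (nat_lit 491) (B (M (nat_lit 492) (B (L (nat_lit 524) ln11_12_4 ln11_12_4_ok) (L (nat_lit 460) ln11_11_4 ln11_11_4_ok))) (M (nat_lit 362) (B (L (nat_lit 394) ln11_15_7 ln11_15_7_ok) (L (nat_lit 330) ln11_14_7 ln11_14_7_ok))))) (B (M (nat_lit 491) (B (M (nat_lit 362) (B (L (nat_lit 330) ln11_14_7 ln11_14_7_ok) (L (nat_lit 394) ln11_15_7 ln11_15_7_ok))) (M (nat_lit 490) (B (L (nat_lit 458) ln11_11_5 ln11_11_5_ok) (L (nat_lit 522) ln11_12_5 ln11_12_5_ok))))) (M (nat_lit 458) (B (L (nat_lit 490) ln11_11_5 ln11_11_5_ok) (M (nat_lit 460) (B (L (nat_lit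 492) ln11_11_4 ln11_11_4_ok) (M (nat_lit 457) (B (M (nat_lit 424) (B (L (nat_lit 425) ln12_14_3 ln12_14_3_ok) (M (nat_lit 456) (B (L (nat_lit 423) ln11_14_3 ln11_14_3_ok) (M (nat_lit 488) (B (L (nat_lit 487) ln11_14_1 ln11_14_1_ok) (L (nat_lit 489) ln12_14_1 ln12_14_1_ok))))))) (B (M (nat_lit 426) (B (L (nat_lit 425) ln13_14_3 ln13_14_3_ok) (M (nat_lit 362) (B (L (nat_lit 330) ln11_14_7 ln11_14_7_ok) (M (nat_lit 489) (B (L (nat_lit 488) ln12_14_1 ln12_14_1_ok) (L (nat_lit 394) ln10_11_5 ln10_11_5_ok))))))) (B (M (nat_lit 456) (B (M (nat_lit 424) (B (L (nat_lit 423) ln11_14_3 ln11_14_3_ok) (L (nat_lit 425) ln12_14_3 ln12_14_3_ok))) (B (M (nat_lit 426) (B (L (nat_lit 455) ln7_14_2 ln7_14_2_ok) (L (nat_lit 425) ln13_14_3 ln13_14_3_ok))) (M (nat_lit 455) (B (L (nat_lit 426) ln7_14_2 ln7_14_2_ok) (M (nat_lit 423) (B (L (nat_lit 422) ln10_14_3 ln10_14_3_ok) (L (nat_lit 424) ln11_14_3 ln11_14_3_ok))))))))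 (M (nat_lit 456) (B (M (nat_lit 488) (B (L (nat_lit 487) ln11_14_1 ln11_14_1_ok) (L (nat_lit 489) ln12_14_1 ln12_14_1_ok))) (M (nat_lit 455) (B (L (nat_lit 426) ln7_14_2 ln7_14_2_ok) (M (nat_lit 423) (B (L (nat_lit 422) ln10_14_3 ln10_14_3_ok) (L (nat_lit 424) ln11_14_3 ln11_14_3_ok)))))))))))))))))))) (nat_lit 5954262831162530206286265230239199607252158144638956066880229858290287322841385004986859978896449781225614568337954303650155411180145868800) (nat_lit 294840814535290085410873767965064507116940702384061133024019532635347700271506902244268991594004818594098187138118735103870507353089723985130005291488325573556182188032) (nat_lit 294840814535290085410873767965064507116940702384061133024019532635347700271506902244268991594004818594098187138118735103870507353089723985130005291488325573556182188032) (by decide +kernel)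
theorem c10_s86 : Sem (nat_lit 8373182105834924757887603523795042305717255007337322218010764911098648590918290583488738297471852927888718144782466832169318219449314050048) (nat_lit 158291457407161184593636891404374390978358009790618337180830038580447641763868482613260207403114254888848166336218951841472279842882051584053912197132411721658497792719965913088) (nat_lit 158291457407161184593636891404374390978358009790618337180830038580447641763868482613260207403114254888848166336218951841472279842882051584053912197132411721658497792719965913088) :=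
  sem_of_chk (M (nat_lit 488) (B (M (nat_lit 392) (B (M (nat_lit 391) (B (L (nat_lit 359) ln8_15_7_c10 ln8_15_7_c10_ok) (M (nat_lit 393) (B (L (nat_lit 394) ln7_12_0_c10 ln7_12_0_c10_ok) (L (nat_lit 361) ln8_15_6_c10 ln8_15_6_c10_ok))))) (M (nat_lit 520) (B (M (nat_lit 519) (B (L (nat_lit 551) ln8_13_5_c10 ln8_13_5_c10_ok) (L (nat_lit 487) ln8_12_5_c10 ln8_12_5_c10_ok))) (M (nat_lit 521) (B (L (nat_lit 553) ln8_13_4_c10 ln8_13_4_c10_ok) (L (nat_lit 489) ln8_12_4_c10 ln8_12_4_c10_ok))))))) (B (M (nat_lit 392) (B (M (nat_lit 391) (B (L (nat_lit 359) ln8_15_7_c10 ln8_15_7_c10_ok) (M (nat_lit 393) (B (L (nat_lit 394) ln7_12_0_c10 ln7_12_0_c10_ok) (L (nat_lit 361) ln8_15_6_c10 ln8_15_6_c10_ok))))) (B (M (nat_lit 360) (B (M (nat_lit 487) (B (L (nat_lit 519) ln8_12_5_c10 ln8_12_5_c10_ok) (L (nat_lit 455) ln8_11_5_c10 ln8_11_5_c10_ok))) (M (nat_lit 361) (B (L (nat_lit 393) ln8_15_6_c10 ln8_15_6_c10_ok)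 (L (nat_lit 329) ln8_14_6_c10 ln8_14_6_c10_ok))))) (M (nat_lit 360) (B (M (nat_lit 487) (B (L (nat_lit 519) ln8_12_5_c10 ln8_12_5_c10_ok) (L (nat_lit 455) ln8_11_5_c10 ln8_11_5_c10_ok))) (M (nat_lit 359) (B (L (nat_lit 391) ln8_15_7_c10 ln8_15_7_c10_ok) (L (nat_lit 327) ln8_14_7_c10 ln8_14_7_c10_ok)))))))) (B (M (nat_lit 391) (B (M (nat_lit 392) (B (L (nat_lit 359) ln8_15_7_c10 ln8_15_7_c10_ok) (M (nat_lit 393) (B (L (nat_lit 394) ln7_12_0_c10 ln7_12_0_c10_ok) (L (nat_lit 361) ln8_15_6_c10 ln8_15_6_c10_ok))))) (B (M (nat_lit 392) (B (M (nat_lit 393) (B (L (nat_lit 394) ln7_12_0_c10 ln7_12_0_c10_ok) (L (nat_lit 361) ln8_15_6_c10 ln8_15_6_c10_ok))) (M (nat_lit 520) (B (L (nat_lit 423) ln8_16_7_c10 ln8_16_7_c10_ok) (M (nat_lit 521) (B (L (nat_lit 553) ln8_13_4_c10 ln8_13_4_c10_ok) (L (nat_lit 489) ln8_12_4_c10 ln8_12_4_c10_ok))))))) (M (nat_lit 423) (B (L (nat_lit 520) ln8_16_7_c10 ln8_16_7_c10_ok)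 (M (nat_lit 359) (B (L (nat_lit 455) ln7_11_4_c10 ln7_11_4_c10_ok) (L (nat_lit 327) ln7_10_4_c10 ln7_10_4_c10_ok)))))))) (B (M (nat_lit 521) (B (M (nat_lit 553) (B (L (nat_lit 520) ln8_13_4_c10 ln8_13_4_c10_ok) (M (nat_lit 489) (B (L (nat_lit 392) ln8_12_4_c10 ln8_12_4_c10_ok) (L (nat_lit 585) ln9_18_7_c10 ln9_18_7_c10_ok))))) (B (M (nat_lit 392) (B (L (nat_lit 489) ln8_12_4_c10 ln8_12_4_c10_ok) (M (nat_lit 360) (B (M (nat_lit 487) (B (L (nat_lit 519) ln8_12_5_c10 ln8_12_5_c10_ok) (L (nat_lit 455) ln8_11_5_c10 ln8_11_5_c10_ok))) (M (nat_lit 361) (B (L (nat_lit 393) ln8_15_6_c10 ln8_15_6_c10_ok) (L (nat_lit 329) ln8_14_6_c10 ln8_14_6_c10_ok))))))) (M (nat_lit 520) (B (L (nat_lit 553) ln8_13_4_c10 ln8_13_4_c10_ok) (M (nat_lit 523) (B (M (nat_lit 491) (B (L (nat_lit 555) ln11_17_7 ln11_17_7_ok) (L (nat_lit 394) ln11_16_7 ln11_16_7_ok))) (M (nat_lit 522) (B (L (nat_lit 487) ln11_16_3_c10 ln11_16_3_c10_ok)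 (M (nat_lit 551) (B (L (nat_lit 519) ln8_13_5_c10 ln8_13_5_c10_ok) (L (nat_lit 552) ln11_16_1 ln11_16_1_ok)))))))))))) (B (M (nat_lit 520) (B (M (nat_lit 552) (B (M (nat_lit 551) (B (L (nat_lit 583) ln8_14_5_c10 ln8_14_5_c10_ok) (L (nat_lit 519) ln8_13_5_c10 ln8_13_5_c10_ok))) (M (nat_lit 553) (B (L (nat_lit 585) ln8_14_4_c10 ln8_14_4_c10_ok) (L (nat_lit 521) ln8_13_4_c10 ln8_13_4_c10_ok))))) (B (M (nat_lit 423) (B (L (nat_lit 391) ln8_16_7_c10 ln8_16_7_c10_ok) (M (nat_lit 552) (B (L (nat_lit 455) ln8_17_7_c10 ln8_17_7_c10_ok) (M (nat_lit 553) (B (L (nat_lit 585) ln8_14_4_c10 ln8_14_4_c10_ok) (L (nat_lit 521) ln8_13_4_c10 ln8_13_4_c10_ok))))))) (B (M (nat_lit 519) (B (L (nat_lit 551) ln8_13_5_c10 ln8_13_5_c10_ok) (M (nat_lit 521) (B (L (nat_lit 553) ln8_13_4_c10 ln8_13_4_c10_ok) (M (nat_lit 523) (B (M (nat_lit 491) (B (L (nat_lit 555) ln11_17_7 ln11_17_7_ok) (L (nat_lit 394) ln11_16_7 ln11_16_7_ok)))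 (B (M (nat_lit 491) (B (L (nat_lit 555) ln11_17_7 ln11_17_7_ok) (M (nat_lit 522) (B (L (nat_lit 487) ln11_16_3_c10 ln11_16_3_c10_ok) (L (nat_lit 554) ln11_13_5 ln11_13_5_ok))))) (B (M (nat_lit 491) (B (L (nat_lit 394) ln11_16_7 ln11_16_7_ok) (M (nat_lit 522) (B (L (nat_lit 487) ln11_16_3_c10 ln11_16_3_c10_ok) (L (nat_lit 554) ln11_13_5 ln11_13_5_ok))))) (M (nat_lit 522) (B (L (nat_lit 487) ln11_16_3_c10 ln11_16_3_c10_ok) (M (nat_lit 555) (B (L (nat_lit 554) ln7_16_0_c10 ln7_16_0_c10_ok) (L (nat_lit 556) ln8_16_0 ln8_16_0_ok))))))))))))) (M (nat_lit 552) (B (M (nat_lit 551) (B (L (nat_lit 583) ln8_14_5_c10 ln8_14_5_c10_ok) (L (nat_lit 519) ln8_13_5_c10 ln8_13_5_c10_ok))) (M (nat_lit 423) (B (L (nat_lit 455) ln8_17_7_c10 ln8_17_7_c10_ok) (L (nat_lit 391) ln8_16_7_c10 ln8_16_7_c10_ok))))))))) (M (nat_lit 392) (B (M (nat_lit 520) (B (M (nat_lit 391) (B (L (nat_lit 423) ln8_16_7_c10 ln8_16_7_c10_ok)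 (L (nat_lit 359) ln8_15_7_c10 ln8_15_7_c10_ok))) (M (nat_lit 521) (B (L (nat_lit 553) ln8_13_4_c10 ln8_13_4_c10_ok) (L (nat_lit 489) ln8_12_4_c10 ln8_12_4_c10_ok))))) (B (M (nat_lit 520) (B (M (nat_lit 519) (B (L (nat_lit 551) ln8_13_5_c10 ln8_13_5_c10_ok) (L (nat_lit 487) ln8_12_5_c10 ln8_12_5_c10_ok))) (M (nat_lit 521) (B (L (nat_lit 553) ln8_13_4_c10 ln8_13_4_c10_ok) (L (nat_lit 489) ln8_12_4_c10 ln8_12_4_c10_ok))))) (M (nat_lit 360) (B (M (nat_lit 487) (B (L (nat_lit 519) ln8_12_5_c10 ln8_12_5_c10_ok) (L (nat_lit 455) ln8_11_5_c10 ln8_11_5_c10_ok))) (M (nat_lit 361) (B (L (nat_lit 393) ln8_15_6_c10 ln8_15_6_c10_ok) (L (nat_lit 329) ln8_14_6_c10 ln8_14_6_c10_ok)))))))))))))) (nat_lit 8373182105834924757887603523795042305717255007337322218010764911098648590918290583488738297471852927888718144782466832169318219449314050048) (nat_lit 158291457407161184593636891404374390978358009790618337180830038580447641763868482613260207403114254888848166336218951841472279842882051584053912197132411721658497792719965913088)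 (nat_lit 158291457407161184593636891404374390978358009790618337180830038580447641763868482613260207403114254888848166336218951841472279842882051584053912197132411721658497792719965913088) (by decide +kernel)
theorem c10_s91 : Sem (nat_lit 5954262830815946494440468064139258622131906539230539000934078872806075061271132354550578193372942037532254438881195279021764289825886699520) (nat_lit 1266331655955072354700736160289015961684087061612632756667671752346049979712771479027338472714400561153852659696447429146114433692238467194990447083022316136162895271134033346560) (nat_lit 1266331655955072354700736160289015961684087061612632756667671752346049979712771479027338472714400561153852659696447429146114433692238467194990447083022316136162895271134033346560) :=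
  sem_of_chk (M (nat_lit 366) (B (M (nat_lit 395) (B (M (nat_lit 427) (B (M (nat_lit 459) (B (M (nat_lit 491) (B (M (nat_lit 490) (B (L (nat_lit 522) ln11_12_5 ln11_12_5_ok) (L (nat_lit 458) ln11_11_5 ln11_11_5_ok))) (B (M (nat_lit 523) (B (L (nat_lit 396) ln11_15_6 ln11_15_6_ok) (M (nat_lit 555) (B (M (nat_lit 556) (B (L (nat_lit 588) ln11_14_4 ln11_14_4_ok) (L (nat_lit 524) ln11_13_4 ln11_13_4_ok))) (M (nat_lit 458) (B (L (nat_lit 426) ln11_17_7 ln11_17_7_ok) (L (nat_lit 490) ln11_11_5 ln11_11_5_ok))))))) (M (nat_lit 523) (B (L (nat_lit 396) ln11_15_6 ln11_15_6_ok) (M (nat_lit 555) (B (M (nat_lit 554) (B (L (nat_lit 586) ln11_14_5 ln11_14_5_ok) (L (nat_lit 522) ln11_13_5 ln11_13_5_ok))) (M (nat_lit 556) (B (L (nat_lit 588) ln11_14_4 ln11_14_4_ok) (L (nat_lit 524) ln11_13_4 ln11_13_4_ok)))))))))) (B (M (nat_lit 458) (B (L (nat_lit 490) ln11_11_5 ln11_11_5_ok) (M (nat_lit 460) (B (L (nat_lit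 492) ln11_11_4 ln11_11_4_ok) (M (nat_lit 457) (B (L (nat_lit 428) ln9_14_2 ln9_14_2_ok) (M (nat_lit 424) (B (L (nat_lit 425) ln12_14_3 ln12_14_3_ok) (M (nat_lit 456) (B (L (nat_lit 423) ln11_14_3 ln11_14_3_ok) (M (nat_lit 488) (B (L (nat_lit 487) ln11_14_1 ln11_14_1_ok) (L (nat_lit 489) ln12_14_1 ln12_14_1_ok))))))))))))) (M (nat_lit 491) (B (M (nat_lit 492) (B (L (nat_lit 460) ln11_11_4 ln11_11_4_ok) (L (nat_lit 524) ln11_12_4 ln11_12_4_ok))) (L (nat_lit 396) ln11_15_6 ln11_15_6_ok)))))) (B (M (nat_lit 428) (B (M (nat_lit 426) (B (L (nat_lit 462) ln10_13_0 ln10_13_0_ok) (M (nat_lit 425) (B (M (nat_lit 457) (B (L (nat_lit 456) ln12_13_1 ln12_13_1_ok) (L (nat_lit 458) ln13_13_1 ln13_13_1_ok))) (M (nat_lit 424) (B (M (nat_lit 392) (B (L (nat_lit 391) ln11_13_3 ln11_13_3_ok) (L (nat_lit 393) ln12_13_3 ln12_13_3_ok))) (L (nat_lit 396) ln8_13_2 ln8_13_2_ok))))))) (B (M (nat_lit 396) (B (M (nat_lit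 460) (B (L (nat_lit 333) ln12_14_6 ln12_14_6_ok) (L (nat_lit 492) ln12_15_7 ln12_15_7_ok))) (L (nat_lit 332) ln12_10_4 ln12_10_4_ok))) (M (nat_lit 462) (B (M (nat_lit 463) (B (L (nat_lit 460) ln15_14_3 ln15_14_3_ok) (L (nat_lit 464) ln16_14_3 ln16_14_3_ok))) (L (nat_lit 426) ln10_13_0 ln10_13_0_ok)))))) (B (M (nat_lit 459) (B (L (nat_lit 332) ln11_14_6 ln11_14_6_ok) (M (nat_lit 490) (B (L (nat_lit 458) ln11_11_5 ln11_11_5_ok) (M (nat_lit 492) (B (L (nat_lit 460) ln11_11_4 ln11_11_4_ok) (M (nat_lit 491) (B (L (nat_lit 522) ln11_12_5 ln11_12_5_ok) (L (nat_lit 524) ln11_12_4 ln11_12_4_ok))))))))) (M (nat_lit 332) (B (M (nat_lit 396) (B (L (nat_lit 428) ln12_10_4 ln12_10_4_ok) (L (nat_lit 300) ln12_9_5 ln12_9_5_ok))) (L (nat_lit 459) ln11_14_6 ln11_14_6_ok))))))) (L (nat_lit 394) ln14_11_1 ln14_11_1_ok))) (B (M (nat_lit 367) (B (M (nat_lit 335) (B (L (nat_lit 334) ln11_11_2 ln11_11_2_ok) (L (nat_lit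 336) ln12_11_2 ln12_11_2_ok))) (B (M (nat_lit 368) (B (M (nat_lit 400) (B (L (nat_lit 399) ln12_11_0 ln12_11_0_ok) (L (nat_lit 401) ln13_11_0 ln13_11_0_ok))) (M (nat_lit 336) (B (L (nat_lit 335) ln12_11_2 ln12_11_2_ok) (L (nat_lit 337) ln13_11_2 ln13_11_2_ok))))) (B (M (nat_lit 368) (B (M (nat_lit 400) (B (L (nat_lit 399) ln12_11_0 ln12_11_0_ok) (L (nat_lit 401) ln13_11_0 ln13_11_0_ok))) (M (nat_lit 369) (B (M (nat_lit 333) (B (L (nat_lit 332) ln16_11_3 ln16_11_3_ok) (L (nat_lit 334) ln17_11_3 ln17_11_3_ok))) (M (nat_lit 337) (B (L (nat_lit 336) ln13_11_2 ln13_11_2_ok) (L (nat_lit 338) ln14_11_2 ln14_11_2_ok))))))) (M (nat_lit 368) (B (M (nat_lit 400) (B (L (nat_lit 399) ln12_11_0 ln12_11_0_ok) (L (nat_lit 401) ln13_11_0 ln13_11_0_ok))) (M (nat_lit 333) (B (L (nat_lit 332) ln16_11_3 ln16_11_3_ok) (M (nat_lit 334) (B (L (nat_lit 335) ln11_11_2 ln11_11_2_ok) (L (nat_lit 369) ln17_11_3 ln17_11_3_ok)))))))))))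 (M (nat_lit 367) (B (M (nat_lit 395) (B (L (nat_lit 394) ln14_11_1 ln14_11_1_ok) (L (nat_lit 396) ln15_11_1 ln15_11_1_ok))) (M (nat_lit 399) (B (L (nat_lit 398) ln11_11_0 ln11_11_0_ok) (L (nat_lit 400) ln12_11_0 ln12_11_0_ok)))))))) (nat_lit 5954262830815946494440468064139258622131906539230539000934078872806075061271132354550578193372942037532254438881195279021764289825886699520) (nat_lit 1266331655955072354700736160289015961684087061612632756667671752346049979712771479027338472714400561153852659696447429146114433692238467194990447083022316136162895271134033346560) (nat_lit 1266331655955072354700736160289015961684087061612632756667671752346049979712771479027338472714400561153852659696447429146114433692238467194990447083022316136162895271134033346560) (by decide +kernel)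
theorem c10_s99 : Sem (nat_lit 5954262830815946494440468064139258622131906539230539000934078872806075061271132354550578193372942037532254438881195279021764289825886699520) (nat_lit 15983352582827860201637730999479028449478824974758954968077197393389797912932295712685821769358133946163122787931173493705601624326868604020018118656) (nat_lit 15983352582827860201637730999479028449478824974758954968077197393389797912932295712685821769358133946163122787931173493705601624326868604020018118656) :=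
  sem_of_chk (M (nat_lit 331) (B (M (nat_lit 330) (B (L (nat_lit 366) ln14_11_3 ln14_11_3_ok) (M (nat_lit 329) (B (L (nat_lit 328) ln8_10_0 ln8_10_0_ok) (L (nat_lit 332) ln9_10_0 ln9_10_0_ok))))) (B (M (nat_lit 366) (B (L (nat_lit 330) ln14_11_3 ln14_11_3_ok) (M (nat_lit 367) (B (L (nat_lit 332) ln15_11_3 ln15_11_3_ok) (M (nat_lit 335) (B (L (nat_lit 334) ln11_11_2 ln11_11_2_ok) (L (nat_lit 336) ln12_11_2 ln12_11_2_ok))))))) (B (M (nat_lit 395) (B (M (nat_lit 366) (B (L (nat_lit 394) ln14_11_1 ln14_11_1_ok) (M (nat_lit 367) (B (L (nat_lit 332) ln15_11_3 ln15_11_3_ok) (L (nat_lit 396) ln15_11_1 ln15_11_1_ok))))) (B (M (nat_lit 299) (B (M (nat_lit 396) (B (L (nat_lit 267) ln11_8_4 ln11_8_4_ok) (L (nat_lit 428) ln11_9_4 ln11_9_4_ok))) (B (M (nat_lit 427) (B (M (nat_lit 428) (B (L (nat_lit 396) ln11_9_4 ln11_9_4_ok) (L (nat_lit 460) ln11_10_4 ln11_10_4_ok))) (M (nat_lit 459) (B (L (nat_lit 332)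 ln11_14_6 ln11_14_6_ok) (M (nat_lit 458) (B (L (nat_lit 426) ln11_10_5 ln11_10_5_ok) (L (nat_lit 490) ln11_11_5 ln11_11_5_ok))))))) (M (nat_lit 267) (B (M (nat_lit 266) (B (L (nat_lit 234) ln11_11_7 ln11_11_7_ok) (L (nat_lit 298) ln11_12_7 ln11_12_7_ok))) (M (nat_lit 235) (B (L (nat_lit 332) ln11_7_4 ln11_7_4_ok) (M (nat_lit 236) (B (L (nat_lit 204) ln11_10_6 ln11_10_6_ok) (L (nat_lit 268) ln11_11_6 ln11_11_6_ok)))))))))) (B (M (nat_lit 299) (B (M (nat_lit 394) (B (L (nat_lit 426) ln11_9_5 ln11_9_5_ok) (L (nat_lit 366) ln14_11_1 ln14_11_1_ok))) (M (nat_lit 396) (B (L (nat_lit 267) ln11_8_4 ln11_8_4_ok) (L (nat_lit 428) ln11_9_4 ln11_9_4_ok))))) (M (nat_lit 366) (B (L (nat_lit 394) ln14_11_1 ln14_11_1_ok) (M (nat_lit 335) (B (L (nat_lit 334) ln11_11_2 ln11_11_2_ok) (M (nat_lit 367) (B (L (nat_lit 332) ln15_11_3 ln15_11_3_ok) (L (nat_lit 336) ln12_11_2 ln12_11_2_ok))))))))))) (B (M (nat_lit 366)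 (B (L (nat_lit 330) ln14_11_3 ln14_11_3_ok) (M (nat_lit 367) (B (M (nat_lit 395) (B (L (nat_lit 394) ln14_11_1 ln14_11_1_ok) (L (nat_lit 396) ln15_11_1 ln15_11_1_ok))) (M (nat_lit 335) (B (L (nat_lit 334) ln11_11_2 ln11_11_2_ok) (L (nat_lit 336) ln12_11_2 ln12_11_2_ok))))))) (M (nat_lit 299) (B (M (nat_lit 396) (B (L (nat_lit 267) ln11_8_4 ln11_8_4_ok) (M (nat_lit 428) (B (L (nat_lit 395) ln11_9_4 ln11_9_4_ok) (L (nat_lit 332) ln12_10_4 ln12_10_4_ok))))) (B (M (nat_lit 395) (B (M (nat_lit 394) (B (L (nat_lit 426) ln11_9_5 ln11_9_5_ok) (M (nat_lit 396) (B (L (nat_lit 393) ln9_12_2 ln9_12_2_ok) (L (nat_lit 428) ln11_9_4 ln11_9_4_ok))))) (B (M (nat_lit 427) (B (M (nat_lit 298) (B (L (nat_lit 266) ln11_12_7 ln11_12_7_ok) (L (nat_lit 330) ln11_13_7 ln11_13_7_ok))) (M (nat_lit 428) (B (L (nat_lit 396) ln11_9_4 ln11_9_4_ok) (L (nat_lit 460) ln11_10_4 ln11_10_4_ok))))) (M (nat_lit 427) (B (M (nat_lit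 298) (B (L (nat_lit 266) ln11_12_7 ln11_12_7_ok) (L (nat_lit 330) ln11_13_7 ln11_13_7_ok))) (M (nat_lit 426) (B (L (nat_lit 394) ln11_9_5 ln11_9_5_ok) (L (nat_lit 458) ln11_10_5 ln11_10_5_ok)))))))) (B (M (nat_lit 396) (B (L (nat_lit 267) ln11_8_4 ln11_8_4_ok) (M (nat_lit 428) (B (L (nat_lit 332) ln12_10_4 ln12_10_4_ok) (L (nat_lit 460) ln12_14_7 ln12_14_7_ok))))) (B (M (nat_lit 395) (B (M (nat_lit 427) (B (M (nat_lit 298) (B (L (nat_lit 266) ln11_12_7 ln11_12_7_ok) (L (nat_lit 330) ln11_13_7 ln11_13_7_ok))) (M (nat_lit 426) (B (L (nat_lit 394) ln11_9_5 ln11_9_5_ok) (L (nat_lit 458) ln11_10_5 ln11_10_5_ok))))) (B (M (nat_lit 427) (B (M (nat_lit 426) (B (L (nat_lit 394) ln11_9_5 ln11_9_5_ok) (L (nat_lit 458) ln11_10_5 ln11_10_5_ok))) (M (nat_lit 459) (B (L (nat_lit 332) ln11_14_6 ln11_14_6_ok) (M (nat_lit 460) (B (L (nat_lit 428) ln11_10_4 ln11_10_4_ok) (L (nat_lit 492) ln11_11_4 ln11_11_4_ok)))))))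 (B (M (nat_lit 427) (B (M (nat_lit 298) (B (L (nat_lit 266) ln11_12_7 ln11_12_7_ok) (L (nat_lit 330) ln11_13_7 ln11_13_7_ok))) (M (nat_lit 459) (B (L (nat_lit 332) ln11_14_6 ln11_14_6_ok) (M (nat_lit 460) (B (L (nat_lit 428) ln11_10_4 ln11_10_4_ok) (L (nat_lit 492) ln11_11_4 ln11_11_4_ok))))))) (M (nat_lit 267) (B (M (nat_lit 266) (B (L (nat_lit 234) ln11_11_7 ln11_11_7_ok) (L (nat_lit 298) ln11_12_7 ln11_12_7_ok))) (M (nat_lit 235) (B (L (nat_lit 332) ln11_7_4 ln11_7_4_ok) (M (nat_lit 236) (B (L (nat_lit 204) ln11_10_6 ln11_10_6_ok) (L (nat_lit 268) ln11_11_6 ln11_11_6_ok))))))))))) (M (nat_lit 267) (B (L (nat_lit 396) ln11_8_4 ln11_8_4_ok) (M (nat_lit 235) (B (L (nat_lit 332) ln11_7_4 ln11_7_4_ok) (M (nat_lit 236) (B (L (nat_lit 204) ln11_10_6 ln11_10_6_ok) (L (nat_lit 268) ln11_11_6 ln11_11_6_ok))))))))))))))))) (nat_lit 5954262830815946494440468064139258622131906539230539000934078872806075061271132354550578193372942037532254438881195279021764289825886699520)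 (nat_lit 15983352582827860201637730999479028449478824974758954968077197393389797912932295712685821769358133946163122787931173493705601624326868604020018118656) (nat_lit 15983352582827860201637730999479028449478824974758954968077197393389797912932295712685821769358133946163122787931173493705601624326868604020018118656) (by decide +kernel)
noncomputable def c10_d53 : Cert := (B (M (nat_lit 271) (B (M (nat_lit 272) (B (M (nat_lit 304) (B (L (nat_lit 305) ln13_8_0_c10 ln13_8_0_c10_ok) (L (nat_lit 303) ln12_8_0_c10 ln12_8_0_c10_ok))) (M (nat_lit 240) (B (L (nat_lit 241) ln13_8_2_c10 ln13_8_2_c10_ok) (L (nat_lit 239) ln12_8_2_c10 ln12_8_2_c10_ok))))) (B (M (nat_lit 267) (B (M (nat_lit 239) (B (L (nat_lit 240) ln12_8_2_c10 ln12_8_2_c10_ok) (L (nat_lit 238) ln11_8_2_c10 ln11_8_2_c10_ok))) (M (nat_lit 299) (B (L (nat_lit 300) ln15_8_1 ln15_8_1_ok) (L (nat_lit 298) ln14_8_1_c10 ln14_8_1_c10_ok))))) (B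 (M (nat_lit 238) (B (M (nat_lit 299) (B (L (nat_lit 300) ln15_8_1 ln15_8_1_ok) (M (nat_lit 267) (B (L (nat_lit 239) ln11_8_2_c10 ln11_8_2_c10_ok) (L (nat_lit 298) ln14_8_1_c10 ln14_8_1_c10_ok))))) (M (nat_lit 272) (B (M (nat_lit 304) (B (L (nat_lit 305) ln13_8_0_c10 ln13_8_0_c10_ok) (L (nat_lit 303) ln12_8_0_c10 ln12_8_0_c10_ok))) (M (nat_lit 237) (B (L (nat_lit 273) ln17_8_3_c10 ln17_8_3_c10_ok) (L (nat_lit 236) ln16_8_3_c10 ln16_8_3_c10_ok))))))) (M (nat_lit 272) (B (M (nat_lit 304) (B (L (nat_lit 305) ln13_8_0_c10 ln13_8_0_c10_ok) (L (nat_lit 303) ln12_8_0_c10 ln12_8_0_c10_ok))) (M (nat_lit 273) (B (M (nat_lit 241) (B (L (nat_lit 242) ln14_8_2_c10 ln14_8_2_c10_ok) (L (nat_lit 240) ln13_8_2_c10 ln13_8_2_c10_ok))) (M (nat_lit 237) (B (L (nat_lit 238) ln17_8_3_c10 ln17_8_3_c10_ok) (L (nat_lit 236) ln16_8_3_c10 ln16_8_3_c10_ok))))))))))) (B (M (nat_lit 271) (B (M (nat_lit 272) (B (M (nat_lit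 236) (B (L (nat_lit 235) ln15_8_3_c10 ln15_8_3_c10_ok) (L (nat_lit 237) ln16_8_3_c10 ln16_8_3_c10_ok))) (M (nat_lit 304) (B (L (nat_lit 303) ln12_8_0_c10 ln12_8_0_c10_ok) (L (nat_lit 305) ln13_8_0_c10 ln13_8_0_c10_ok))))) (B (M (nat_lit 272) (B (M (nat_lit 240) (B (L (nat_lit 239) ln12_8_2_c10 ln12_8_2_c10_ok) (L (nat_lit 241) ln13_8_2_c10 ln13_8_2_c10_ok))) (M (nat_lit 304) (B (L (nat_lit 303) ln12_8_0_c10 ln12_8_0_c10_ok) (L (nat_lit 305) ln13_8_0_c10 ln13_8_0_c10_ok))))) (B (M (nat_lit 272) (B (M (nat_lit 236) (B (L (nat_lit 235) ln15_8_3_c10 ln15_8_3_c10_ok) (L (nat_lit 237) ln16_8_3_c10 ln16_8_3_c10_ok))) (M (nat_lit 240) (B (L (nat_lit 239) ln12_8_2_c10 ln12_8_2_c10_ok) (L (nat_lit 241) ln13_8_2_c10 ln13_8_2_c10_ok))))) (M (nat_lit 300) (B (L (nat_lit 299) ln15_8_1 ln15_8_1_ok) (M (nat_lit 236) (B (L (nat_lit 235) ln15_8_3_c10 ln15_8_3_c10_ok) (L (nat_lit 332) ln12_7_4_c10 ln12_7_4_c10_ok)))))))))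 (B (M (nat_lit 271) (B (M (nat_lit 235) (B (L (nat_lit 236) ln15_8_3_c10 ln15_8_3_c10_ok) (M (nat_lit 267) (B (L (nat_lit 234) ln14_8_3_c10 ln14_8_3_c10_ok) (M (nat_lit 299) (B (L (nat_lit 298) ln14_8_1_c10 ln14_8_1_c10_ok) (L (nat_lit 300) ln15_8_1 ln15_8_1_ok))))))) (M (nat_lit 240) (B (L (nat_lit 239) ln12_8_2_c10 ln12_8_2_c10_ok) (M (nat_lit 272) (B (L (nat_lit 241) ln13_8_2_c10 ln13_8_2_c10_ok) (M (nat_lit 304) (B (L (nat_lit 303) ln12_8_0_c10 ln12_8_0_c10_ok) (L (nat_lit 305) ln13_8_0_c10 ln13_8_0_c10_ok))))))))) (B (M (nat_lit 235) (B (M (nat_lit 234) (B (L (nat_lit 267) ln14_8_3_c10 ln14_8_3_c10_ok) (M (nat_lit 236) (B (L (nat_lit 237) ln10_7_0_c10 ln10_7_0_c10_ok) (L (nat_lit 271) ln15_8_3_c10 ln15_8_3_c10_ok))))) (B (M (nat_lit 300) (B (M (nat_lit 271) (B (L (nat_lit 236) ln15_8_3_c10 ln15_8_3_c10_ok) (L (nat_lit 299) ln15_8_1 ln15_8_1_ok))) (B (M (nat_lit 299) (B (L (nat_lit 271)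 ln15_8_1 ln15_8_1_ok) (M (nat_lit 298) (B (L (nat_lit 267) ln14_8_1_c10 ln14_8_1_c10_ok) (L (nat_lit 297) ln9_9_2 ln9_9_2_ok))))) (M (nat_lit 332) (B (L (nat_lit 267) ln12_11_7 ln12_11_7_ok) (L (nat_lit 236) ln12_7_4_c10 ln12_7_4_c10_ok)))))) (B (M (nat_lit 267) (B (L (nat_lit 234) ln14_8_3_c10 ln14_8_3_c10_ok) (M (nat_lit 299) (B (L (nat_lit 298) ln14_8_1_c10 ln14_8_1_c10_ok) (M (nat_lit 300) (B (L (nat_lit 271) ln15_8_1 ln15_8_1_ok) (L (nat_lit 332) ln12_11_7 ln12_11_7_ok))))))) (B (M (nat_lit 236) (B (L (nat_lit 271) ln15_8_3_c10 ln15_8_3_c10_ok) (M (nat_lit 234) (B (L (nat_lit 233) ln9_7_0_c10 ln9_7_0_c10_ok) (L (nat_lit 237) ln10_7_0_c10 ln10_7_0_c10_ok))))) (M (nat_lit 234) (B (L (nat_lit 267) ln14_8_3_c10 ln14_8_3_c10_ok) (M (nat_lit 236) (B (L (nat_lit 233) ln9_7_0_c10 ln9_7_0_c10_ok) (L (nat_lit 237) ln10_7_0_c10 ln10_7_0_c10_ok)))))))))) (B (M (nat_lit 271) (B (M (nat_lit 272) (B (M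 (nat_lit 236) (B (L (nat_lit 235) ln15_8_3_c10 ln15_8_3_c10_ok) (L (nat_lit 237) ln16_8_3_c10 ln16_8_3_c10_ok))) (M (nat_lit 304) (B (L (nat_lit 303) ln12_8_0_c10 ln12_8_0_c10_ok) (L (nat_lit 305) ln13_8_0_c10 ln13_8_0_c10_ok))))) (B (M (nat_lit 240) (B (L (nat_lit 239) ln12_8_2_c10 ln12_8_2_c10_ok) (M (nat_lit 272) (B (L (nat_lit 241) ln13_8_2_c10 ln13_8_2_c10_ok) (M (nat_lit 304) (B (L (nat_lit 303) ln12_8_0_c10 ln12_8_0_c10_ok) (L (nat_lit 305) ln13_8_0_c10 ln13_8_0_c10_ok))))))) (B (M (nat_lit 272) (B (M (nat_lit 236) (B (L (nat_lit 235) ln15_8_3_c10 ln15_8_3_c10_ok) (L (nat_lit 237) ln16_8_3_c10 ln16_8_3_c10_ok))) (M (nat_lit 240) (B (L (nat_lit 239) ln12_8_2_c10 ln12_8_2_c10_ok) (L (nat_lit 241) ln13_8_2_c10 ln13_8_2_c10_ok))))) (M (nat_lit 267) (B (M (nat_lit 235) (B (L (nat_lit 234) ln14_8_3_c10 ln14_8_3_c10_ok) (L (nat_lit 236) ln15_8_3_c10 ln15_8_3_c10_ok))) (M (nat_lit 239) (B (L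 (nat_lit 238) ln11_8_2_c10 ln11_8_2_c10_ok) (L (nat_lit 240) ln12_8_2_c10 ln12_8_2_c10_ok))))))))) (M (nat_lit 267) (B (M (nat_lit 298) (B (L (nat_lit 299) ln14_8_1_c10 ln14_8_1_c10_ok) (M (nat_lit 266) (B (L (nat_lit 297) ln13_8_1_c10 ln13_8_1_c10_ok) (M (nat_lit 234) (B (L (nat_lit 235) ln14_8_3_c10 ln14_8_3_c10_ok) (L (nat_lit 233) ln13_8_3_c10 ln13_8_3_c10_ok))))))) (B (M (nat_lit 266) (B (M (nat_lit 238) (B (L (nat_lit 239) ln11_8_2_c10 ln11_8_2_c10_ok) (L (nat_lit 237) ln10_8_2_c10 ln10_8_2_c10_ok))) (M (nat_lit 234) (B (L (nat_lit 235) ln14_8_3_c10 ln14_8_3_c10_ok) (L (nat_lit 233) ln13_8_3_c10 ln13_8_3_c10_ok))))) (B (M (nat_lit 266) (B (M (nat_lit 238) (B (L (nat_lit 239) ln11_8_2_c10 ln11_8_2_c10_ok) (L (nat_lit 237) ln10_8_2_c10 ln10_8_2_c10_ok))) (M (nat_lit 298) (B (L (nat_lit 299) ln14_8_1_c10 ln14_8_1_c10_ok) (L (nat_lit 297) ln13_8_1_c10 ln13_8_1_c10_ok))))) (M (nat_lit 271)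 (B (M (nat_lit 239) (B (L (nat_lit 240) ln12_8_2_c10 ln12_8_2_c10_ok) (L (nat_lit 238) ln11_8_2_c10 ln11_8_2_c10_ok))) (M (nat_lit 299) (B (L (nat_lit 300) ln15_8_1 ln15_8_1_ok) (L (nat_lit 298) ln14_8_1_c10 ln14_8_1_c10_ok))))))))))))))
theorem c10_s105 : Sem (nat_lit 5954262830815946494440468064289565347481925883210258045313536496008941657169740892617281914025221909693428251243657037075753803068483829760) (nat_lit 2098078025945613229104183330412256143217254290614693338257199270219298075536484359877205970294877482895316408046557593600) (nat_lit 2098078025945613229104183330412256143217254290614693338257199270219298075536484359877205970294877482895316408046557593600) :=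
  sem_of_chk (M (nat_lit 269) (B (M (nat_lit 270) (B (M (nat_lit 268) (B (M (nat_lit 267) (B (M (nat_lit 266) (B (M (nat_lit 297) (B (L (nat_lit 298) ln13_8_1_c10 ln13_8_1_c10_ok) (M (nat_lit 265) (B (L (nat_lit 296) ln12_8_1_c10 ln12_8_1_c10_ok) (M (nat_lit 233) (B (L (nat_lit 234) ln13_8_3_c10 ln13_8_3_c10_ok) (L (nat_lit 232) ln12_8_3_c10 ln12_8_3_c10_ok))))))) (B (M (nat_lit 265) (B (M (nat_lit 237) (B (L (nat_lit 238) ln10_8_2_c10 ln10_8_2_c10_ok) (L (nat_lit 236) ln9_8_2_c10 ln9_8_2_c10_ok))) (M (nat_lit 233) (B (L (nat_lit 234) ln13_8_3_c10 ln13_8_3_c10_ok) (L (nat_lit 232) ln12_8_3_c10 ln12_8_3_c10_ok))))) (B (M (nat_lit 265) (B (M (nat_lit 237) (B (L (nat_lit 238) ln10_8_2_c10 ln10_8_2_c10_ok) (L (nat_lit 236) ln9_8_2_c10 ln9_8_2_c10_ok))) (M (nat_lit 297) (B (L (nat_lit 298) ln13_8_1_c10 ln13_8_1_c10_ok) (L (nat_lit 296) ln12_8_1_c10 ln12_8_1_c10_ok))))) (M (nat_lit 238) (B (L (nat_lit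 239) ln11_8_2_c10 ln11_8_2_c10_ok) (L (nat_lit 237) ln10_8_2_c10 ln10_8_2_c10_ok))))))) (B (M (nat_lit 266) (B (M (nat_lit 298) (B (L (nat_lit 297) ln13_8_1_c10 ln13_8_1_c10_ok) (L (nat_lit 299) ln14_8_1_c10 ln14_8_1_c10_ok))) (M (nat_lit 234) (B (L (nat_lit 233) ln13_8_3_c10 ln13_8_3_c10_ok) (L (nat_lit 235) ln14_8_3_c10 ln14_8_3_c10_ok))))) (B (M (nat_lit 266) (B (M (nat_lit 265) (B (M (nat_lit 297) (B (L (nat_lit 296) ln12_8_1_c10 ln12_8_1_c10_ok) (L (nat_lit 298) ln13_8_1_c10 ln13_8_1_c10_ok))) (M (nat_lit 237) (B (L (nat_lit 236) ln9_8_2_c10 ln9_8_2_c10_ok) (L (nat_lit 238) ln10_8_2_c10 ln10_8_2_c10_ok))))) (B (M (nat_lit 298) (B (L (nat_lit 297) ln13_8_1_c10 ln13_8_1_c10_ok) (L (nat_lit 299) ln14_8_1_c10 ln14_8_1_c10_ok))) (B (M (nat_lit 265) (B (M (nat_lit 237) (B (L (nat_lit 236) ln9_8_2_c10 ln9_8_2_c10_ok) (L (nat_lit 238) ln10_8_2_c10 ln10_8_2_c10_ok))) (M (nat_lit 264) (B (M (nat_lit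 232) (B (L (nat_lit 231) ln11_8_3_c10 ln11_8_3_c10_ok) (L (nat_lit 233) ln12_8_3_c10 ln12_8_3_c10_ok))) (M (nat_lit 299) (B (L (nat_lit 300) ln8_8_0_c10 ln8_8_0_c10_ok) (L (nat_lit 298) ln14_8_1_c10 ln14_8_1_c10_ok))))))) (M (nat_lit 265) (B (M (nat_lit 237) (B (L (nat_lit 236) ln9_8_2_c10 ln9_8_2_c10_ok) (L (nat_lit 238) ln10_8_2_c10 ln10_8_2_c10_ok))) (M (nat_lit 264) (B (M (nat_lit 296) (B (L (nat_lit 295) ln11_8_1_c10 ln11_8_1_c10_ok) (L (nat_lit 297) ln12_8_1_c10 ln12_8_1_c10_ok))) (M (nat_lit 232) (B (L (nat_lit 231) ln11_8_3_c10 ln11_8_3_c10_ok) (L (nat_lit 233) ln12_8_3_c10 ln12_8_3_c10_ok))))))))))) (B (M (nat_lit 266) (B (M (nat_lit 298) (B (L (nat_lit 297) ln13_8_1_c10 ln13_8_1_c10_ok) (L (nat_lit 299) ln14_8_1_c10 ln14_8_1_c10_ok))) (M (nat_lit 238) (B (L (nat_lit 237) ln10_8_2_c10 ln10_8_2_c10_ok) (L (nat_lit 239) ln11_8_2_c10 ln11_8_2_c10_ok))))) (B (M (nat_lit 266) (B (M (nat_lit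 238) (B (L (nat_lit 239) ln11_8_2_c10 ln11_8_2_c10_ok) (L (nat_lit 237) ln10_8_2_c10 ln10_8_2_c10_ok))) (M (nat_lit 234) (B (L (nat_lit 235) ln14_8_3_c10 ln14_8_3_c10_ok) (L (nat_lit 233) ln13_8_3_c10 ln13_8_3_c10_ok))))) (M (nat_lit 235) (B (L (nat_lit 234) ln14_8_3_c10 ln14_8_3_c10_ok) (M (nat_lit 299) (B (L (nat_lit 298) ln14_8_1_c10 ln14_8_1_c10_ok) (M (nat_lit 203) (B (M (nat_lit 171) (B (L (nat_lit 300) ln11_5_4_c10 ln11_5_4_c10_ok) (M (nat_lit 170) (B (L (nat_lit 202) ln11_9_7_c10 ln11_9_7_c10_ok) (L (nat_lit 138) ln11_8_7_c10 ln11_8_7_c10_ok))))) (B (M (nat_lit 171) (B (L (nat_lit 300) ln11_5_4_c10 ln11_5_4_c10_ok) (M (nat_lit 172) (B (L (nat_lit 140) ln11_8_6_c10 ln11_8_6_c10_ok) (L (nat_lit 204) ln11_9_6_c10 ln11_9_6_c10_ok))))) (M (nat_lit 204) (B (L (nat_lit 172) ln11_9_6_c10 ln11_9_6_c10_ok) (M (nat_lit 238) (B (L (nat_lit 239) ln11_8_2_c10 ln11_8_2_c10_ok) (M (nat_lit 202) (B (L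 (nat_lit 170) ln11_9_7_c10 ln11_9_7_c10_ok) (M (nat_lit 237) (B (L (nat_lit 205) ln10_6_0_c10 ln10_6_0_c10_ok) (L (nat_lit 236) ln14_7_3_c10 ln14_7_3_c10_ok)))))))))))))))))))))) c10_d53)) (B (M (nat_lit 271) (B (M (nat_lit 302) (B (L (nat_lit 239) ln14_11_6_c10 ln14_11_6_c10_ok) (L (nat_lit 237) ln14_11_7_c10 ln14_11_7_c10_ok))) (B (M (nat_lit 272) (B (M (nat_lit 237) (B (L (nat_lit 236) ln16_8_3_c10 ln16_8_3_c10_ok) (L (nat_lit 302) ln14_11_7_c10 ln14_11_7_c10_ok))) (M (nat_lit 273) (B (M (nat_lit 241) (B (L (nat_lit 242) ln14_8_2_c10 ln14_8_2_c10_ok) (L (nat_lit 240) ln13_8_2_c10 ln13_8_2_c10_ok))) (M (nat_lit 305) (B (L (nat_lit 306) ln14_8_0_c10 ln14_8_0_c10_ok) (L (nat_lit 304) ln13_8_0_c10 ln13_8_0_c10_ok))))))) (B (M (nat_lit 239) (B (L (nat_lit 302) ln14_11_6_c10 ln14_11_6_c10_ok) (M (nat_lit 240) (B (L (nat_lit 268) ln12_8_2_c10 ln12_8_2_c10_ok) (M (nat_lit 241) (B (L (nat_lit 242)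 ln18_7_1_c10 ln18_7_1_c10_ok) (L (nat_lit 272) ln13_8_2_c10 ln13_8_2_c10_ok))))))) (M (nat_lit 272) (B (M (nat_lit 273) (B (M (nat_lit 241) (B (L (nat_lit 242) ln14_8_2_c10 ln14_8_2_c10_ok) (L (nat_lit 240) ln13_8_2_c10 ln13_8_2_c10_ok))) (M (nat_lit 305) (B (L (nat_lit 306) ln14_8_0_c10 ln14_8_0_c10_ok) (L (nat_lit 304) ln13_8_0_c10 ln13_8_0_c10_ok))))) (M (nat_lit 236) (B (L (nat_lit 237) ln16_8_3_c10 ln16_8_3_c10_ok) (M (nat_lit 268) (B (L (nat_lit 235) ln15_8_3_c10 ln15_8_3_c10_ok) (M (nat_lit 300) (B (L (nat_lit 332) ln12_7_4_c10 ln12_7_4_c10_ok) (L (nat_lit 299) ln15_8_1 ln15_8_1_ok))))))))))))) (B (M (nat_lit 302) (B (L (nat_lit 238) ln14_7_5_c10 ln14_7_5_c10_ok) (M (nat_lit 271) (B (L (nat_lit 239) ln14_11_6_c10 ln14_11_6_c10_ok) (M (nat_lit 303) (B (L (nat_lit 398) ln14_12_6 ln14_12_6_ok) (M (nat_lit 304) (B (L (nat_lit 305) ln17_9_1 ln17_9_1_ok) (L (nat_lit 268) ln12_8_0_c10 ln12_8_0_c10_ok)))))))))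 (M (nat_lit 302) (B (L (nat_lit 238) ln14_7_5_c10 ln14_7_5_c10_ok) (L (nat_lit 237) ln14_11_7_c10 ln14_11_7_c10_ok))))))) (B (M (nat_lit 301) (B (L (nat_lit 396) ln13_8_5 ln13_8_5_ok) (L (nat_lit 237) ln13_7_4 ln13_7_4_ok))) (M (nat_lit 398) (B (L (nat_lit 301) ln13_8_4 ln13_8_4_ok) (L (nat_lit 399) ln11_11_0 ln11_11_0_ok)))))) (nat_lit 5954262830815946494440468064289565347481925883210258045313536496008941657169740892617281914025221909693428251243657037075753803068483829760) (nat_lit 2098078025945613229104183330412256143217254290614693338257199270219298075536484359877205970294877482895316408046557593600) (nat_lit 2098078025945613229104183330412256143217254290614693338257199270219298075536484359877205970294877482895316408046557593600) (by decide +kernel)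
theorem c10_s107 : Sem (nat_lit 5954262830815946494521163372829474515558654013355633122006882178831988296047090459442473431560968324864430856171199586254136263950035058688) (nat_lit 68647976623682790763694020282321174298648569254426210075243266647476457123797123618210931914437916474865460637400261317357224572780533141330353462358870851584) (nat_lit 68647976623682790763694020282321174298648569254426210075243266647476457123797123618210931914437916474865460637400261317357224572780533141330353462358870851584) :=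
  sem_of_chk (M (nat_lit 427) (B (M (nat_lit 332) (B (L (nat_lit 459) ln11_14_6 ln11_14_6_ok) (M (nat_lit 300) (B (L (nat_lit 268) ln12_8_5 ln12_8_5_ok) (L (nat_lit 331) ln11_13_6 ln11_13_6_ok))))) (B (M (nat_lit 332) (B (L (nat_lit 459) ln11_14_6 ln11_14_6_ok) (M (nat_lit 300) (B (L (nat_lit 331) ln11_13_6 ln11_13_6_ok) (L (nat_lit 396) ln12_9_5 ln12_9_5_ok))))) (B (M (nat_lit 459) (B (L (nat_lit 332) ln11_14_6 ln11_14_6_ok) (M (nat_lit 490) (B (L (nat_lit 458) ln11_11_5 ln11_11_5_ok) (M (nat_lit 492) (B (L (nat_lit 460) ln11_11_4 ln11_11_4_ok) (M (nat_lit 491) (B (L (nat_lit 522) ln11_12_5 ln11_12_5_ok) (L (nat_lit 524) ln11_12_4 ln11_12_4_ok))))))))) (B (M (nat_lit 459) (B (M (nat_lit 491) (B (L (nat_lit 396) ln11_15_6 ln11_15_6_ok) (M (nat_lit 492) (B (L (nat_lit 524) ln11_12_4 ln11_12_4_ok) (L (nat_lit 460) ln11_11_4 ln11_11_4_ok))))) (B (M (nat_lit 331) (B (M (nat_lit 458) (B (L (nat_lit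 490) ln11_11_5 ln11_11_5_ok) (L (nat_lit 426) ln11_10_5 ln11_10_5_ok))) (M (nat_lit 460) (B (L (nat_lit 492) ln11_11_4 ln11_11_4_ok) (L (nat_lit 428) ln11_10_4 ln11_10_4_ok))))) (M (nat_lit 491) (B (L (nat_lit 396) ln11_15_6 ln11_15_6_ok) (M (nat_lit 490) (B (L (nat_lit 522) ln11_12_5 ln11_12_5_ok) (L (nat_lit 458) ln11_11_5 ln11_11_5_ok)))))))) (M (nat_lit 331) (B (M (nat_lit 299) (B (M (nat_lit 396) (B (L (nat_lit 267) ln11_8_4 ln11_8_4_ok) (L (nat_lit 428) ln11_9_4 ln11_9_4_ok))) (M (nat_lit 300) (B (L (nat_lit 268) ln11_12_6 ln11_12_6_ok) (L (nat_lit 332) ln11_13_6 ln11_13_6_ok))))) (B (M (nat_lit 299) (B (M (nat_lit 300) (B (L (nat_lit 332) ln11_13_6 ln11_13_6_ok) (L (nat_lit 268) ln11_12_6 ln11_12_6_ok))) (B (M (nat_lit 267) (B (M (nat_lit 268) (B (L (nat_lit 300) ln11_12_6 ln11_12_6_ok) (L (nat_lit 236) ln11_11_6 ln11_11_6_ok))) (M (nat_lit 266) (B (L (nat_lit 298) ln11_12_7 ln11_12_7_ok)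 (L (nat_lit 234) ln11_11_7 ln11_11_7_ok))))) (B (M (nat_lit 267) (B (M (nat_lit 266) (B (L (nat_lit 298) ln11_12_7 ln11_12_7_ok) (L (nat_lit 234) ln11_11_7 ln11_11_7_ok))) (M (nat_lit 236) (B (L (nat_lit 268) ln11_11_6 ln11_11_6_ok) (M (nat_lit 235) (B (L (nat_lit 332) ln11_7_4 ln11_7_4_ok) (L (nat_lit 204) ln11_10_6 ln11_10_6_ok))))))) (M (nat_lit 267) (B (M (nat_lit 332) (B (L (nat_lit 300) ln11_13_6 ln11_13_6_ok) (L (nat_lit 235) ln11_7_4 ln11_7_4_ok))) (M (nat_lit 266) (B (L (nat_lit 298) ln11_12_7 ln11_12_7_ok) (L (nat_lit 234) ln11_11_7 ln11_11_7_ok))))))))) (B (M (nat_lit 299) (B (M (nat_lit 396) (B (L (nat_lit 267) ln11_8_4 ln11_8_4_ok) (L (nat_lit 428) ln11_9_4 ln11_9_4_ok))) (B (M (nat_lit 428) (B (L (nat_lit 396) ln11_9_4 ln11_9_4_ok) (L (nat_lit 460) ln11_10_4 ln11_10_4_ok))) (M (nat_lit 267) (B (M (nat_lit 266) (B (L (nat_lit 234) ln11_11_7 ln11_11_7_ok) (L (nat_lit 298) ln11_12_7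 ln11_12_7_ok))) (M (nat_lit 268) (B (L (nat_lit 236) ln11_11_6 ln11_11_6_ok) (L (nat_lit 300) ln11_12_6 ln11_12_6_ok)))))))) (B (M (nat_lit 299) (B (M (nat_lit 428) (B (L (nat_lit 460) ln11_10_4 ln11_10_4_ok) (L (nat_lit 396) ln11_9_4 ln11_9_4_ok))) (B (M (nat_lit 396) (B (L (nat_lit 428) ln11_9_4 ln11_9_4_ok) (L (nat_lit 267) ln11_8_4 ln11_8_4_ok))) (B (M (nat_lit 267) (B (L (nat_lit 396) ln11_8_4 ln11_8_4_ok) (M (nat_lit 266) (B (L (nat_lit 298) ln11_12_7 ln11_12_7_ok) (L (nat_lit 234) ln11_11_7 ln11_11_7_ok))))) (M (nat_lit 267) (B (M (nat_lit 266) (B (L (nat_lit 298) ln11_12_7 ln11_12_7_ok) (L (nat_lit 234) ln11_11_7 ln11_11_7_ok))) (M (nat_lit 236) (B (L (nat_lit 268) ln11_11_6 ln11_11_6_ok) (M (nat_lit 235) (B (L (nat_lit 332) ln11_7_4 ln11_7_4_ok) (L (nat_lit 204) ln11_10_6 ln11_10_6_ok))))))))))) (B (M (nat_lit 299) (B (M (nat_lit 428) (B (L (nat_lit 460) ln11_10_4 ln11_10_4_ok) (L (nat_lit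 396) ln11_9_4 ln11_9_4_ok))) (B (M (nat_lit 396) (B (L (nat_lit 428) ln11_9_4 ln11_9_4_ok) (L (nat_lit 267) ln11_8_4 ln11_8_4_ok))) (B (M (nat_lit 332) (B (L (nat_lit 300) ln11_13_6 ln11_13_6_ok) (M (nat_lit 267) (B (L (nat_lit 396) ln11_8_4 ln11_8_4_ok) (L (nat_lit 235) ln11_7_4 ln11_7_4_ok))))) (M (nat_lit 267) (B (M (nat_lit 332) (B (L (nat_lit 235) ln11_7_4 ln11_7_4_ok) (L (nat_lit 300) ln11_13_6 ln11_13_6_ok))) (M (nat_lit 266) (B (L (nat_lit 298) ln11_12_7 ln11_12_7_ok) (L (nat_lit 234) ln11_11_7 ln11_11_7_ok))))))))) (M (nat_lit 332) (B (L (nat_lit 300) ln11_13_6 ln11_13_6_ok) (M (nat_lit 428) (B (L (nat_lit 460) ln11_10_4 ln11_10_4_ok) (L (nat_lit 396) ln12_10_4 ln12_10_4_ok)))))))))))))))) (nat_lit 5954262830815946494521163372829474515558654013355633122006882178831988296047090459442473431560968324864430856171199586254136263950035058688) (nat_lit 68647976623682790763694020282321174298648569254426210075243266647476457123797123618210931914437916474865460637400261317357224572780533141330353462358870851584)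 (nat_lit 68647976623682790763694020282321174298648569254426210075243266647476457123797123618210931914437916474865460637400261317357224572780533141330353462358870851584) (by decide +kernel)
theorem c10_s123 : Sem (nat_lit 5954262831509113918132062396414293955021172413339836511923639628650521425976703891285775075508988213722642167985551696226859131031426957312) (nat_lit 27459190651710785666865109341732610220369181914132630330319855053120797286936822662950453623958810798097046195104601801688513726694555855814785941643527716864) (nat_lit 27459190651710785666865109341732610220369181914132630330319855053120797286936822662950453623958810798097046195104601801688513726694555855814785941643527716864) :=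
  sem_of_chk (M (nat_lit 362) (B (M (nat_lit 394) (B (M (nat_lit 330) (B (M (nat_lit 426) (B (M (nat_lit 331) (B (L (nat_lit 458) ln10_14_6 ln10_14_6_ok) (L (nat_lit 299) ln10_13_6 ln10_13_6_ok))) (B (M (nat_lit 298) (B (M (nat_lit 299) (B (L (nat_lit 331) ln10_13_6 ln10_13_6_ok) (L (nat_lit 267) ln10_12_6_c10 ln10_12_6_c10_ok))) (M (nat_lit 266) (B (L (nat_lit 395) ln10_8_4 ln10_8_4_ok) (M (nat_lit 265) (B (L (nat_lit 297) ln10_12_7_c10 ln10_12_7_c10_ok) (L (nat_lit 233) ln10_11_7_c10 ln10_11_7_c10_ok))))))) (M (nat_lit 458) (B (M (nat_lit 457) (B (L (nat_lit 489) ln10_11_5 ln10_11_5_ok) (L (nat_lit 425) ln10_10_5 ln10_10_5_ok))) (M (nat_lit 490) (B (L (nat_lit 395) ln10_15_6 ln10_15_6_ok) (M (nat_lit 491) (B (L (nat_lit 523) ln10_12_4 ln10_12_4_ok) (L (nat_lit 459) ln10_11_4 ln10_11_4_ok)))))))))) (L (nat_lit 329) ln13_11_3 ln13_11_3_ok))) (L (nat_lit 393) ln13_11_1 ln13_11_1_ok))) (B (M (nat_lit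 361) (B (M (nat_lit 394) (B (M (nat_lit 331) (B (M (nat_lit 360) (B (M (nat_lit 359) (B (L (nat_lit 330) ln7_11_2 ln7_11_2_ok) (M (nat_lit 358) (B (M (nat_lit 390) (B (L (nat_lit 391) ln10_11_1 ln10_11_1_ok) (L (nat_lit 389) ln9_11_1_c10 ln9_11_1_c10_ok))) (M (nat_lit 326) (B (L (nat_lit 327) ln10_11_3 ln10_11_3_ok) (L (nat_lit 325) ln9_11_3_c10 ln9_11_3_c10_ok))))))) (L (nat_lit 395) ln8_11_0 ln8_11_0_ok))) (B (M (nat_lit 299) (B (M (nat_lit 426) (B (L (nat_lit 330) ln10_13_6 ln10_13_6_ok) (L (nat_lit 458) ln10_14_6 ln10_14_6_ok))) (L (nat_lit 267) ln11_8_4 ln11_8_4_ok))) (M (nat_lit 395) (B (L (nat_lit 360) ln8_11_0 ln8_11_0_ok) (L (nat_lit 299) ln11_9_4 ln11_9_4_ok)))))) (L (nat_lit 393) ln13_11_1 ln13_11_1_ok))) (B (M (nat_lit 360) (B (L (nat_lit 395) ln8_11_0 ln8_11_0_ok) (M (nat_lit 359) (B (M (nat_lit 327) (B (L (nat_lit 328) ln11_11_3 ln11_11_3_ok) (L (nat_lit 326) ln10_11_3 ln10_11_3_ok)))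 (M (nat_lit 391) (B (L (nat_lit 392) ln11_11_1 ln11_11_1_ok) (L (nat_lit 390) ln10_11_1 ln10_11_1_ok))))))) (M (nat_lit 393) (B (L (nat_lit 394) ln13_11_1 ln13_11_1_ok) (L (nat_lit 392) ln12_11_1 ln12_11_1_ok)))))) (B (M (nat_lit 361) (B (M (nat_lit 329) (B (L (nat_lit 328) ln12_11_3 ln12_11_3_ok) (L (nat_lit 330) ln13_11_3 ln13_11_3_ok))) (B (M (nat_lit 360) (B (L (nat_lit 395) ln8_11_0 ln8_11_0_ok) (M (nat_lit 359) (B (M (nat_lit 330) (B (L (nat_lit 329) ln13_11_3 ln13_11_3_ok) (L (nat_lit 331) ln7_11_2 ln7_11_2_ok))) (M (nat_lit 391) (B (L (nat_lit 390) ln10_11_1 ln10_11_1_ok) (L (nat_lit 392) ln11_11_1 ln11_11_1_ok))))))) (M (nat_lit 360) (B (L (nat_lit 395) ln8_11_0 ln8_11_0_ok) (M (nat_lit 359) (B (M (nat_lit 327) (B (L (nat_lit 326) ln10_11_3 ln10_11_3_ok) (L (nat_lit 328) ln11_11_3 ln11_11_3_ok))) (M (nat_lit 391) (B (L (nat_lit 390) ln10_11_1 ln10_11_1_ok) (L (nat_lit 392) ln11_11_1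 ln11_11_1_ok)))))))))) (B (M (nat_lit 361) (B (M (nat_lit 393) (B (L (nat_lit 394) ln13_11_1 ln13_11_1_ok) (L (nat_lit 392) ln12_11_1 ln12_11_1_ok))) (B (M (nat_lit 360) (B (M (nat_lit 328) (B (L (nat_lit 329) ln12_11_3 ln12_11_3_ok) (L (nat_lit 327) ln11_11_3 ln11_11_3_ok))) (M (nat_lit 392) (B (L (nat_lit 393) ln12_11_1 ln12_11_1_ok) (L (nat_lit 391) ln11_11_1 ln11_11_1_ok))))) (B (M (nat_lit 360) (B (M (nat_lit 328) (B (L (nat_lit 329) ln12_11_3 ln12_11_3_ok) (L (nat_lit 327) ln11_11_3 ln11_11_3_ok))) (M (nat_lit 359) (B (L (nat_lit 395) ln8_11_0 ln8_11_0_ok) (M (nat_lit 391) (B (L (nat_lit 392) ln11_11_1 ln11_11_1_ok) (L (nat_lit 390) ln10_11_1 ln10_11_1_ok))))))) (M (nat_lit 360) (B (M (nat_lit 328) (B (L (nat_lit 329) ln12_11_3 ln12_11_3_ok) (L (nat_lit 327) ln11_11_3 ln11_11_3_ok))) (L (nat_lit 395) ln8_11_0 ln8_11_0_ok))))))) (M (nat_lit 361) (B (M (nat_lit 329) (B (L (nat_lit 328) ln12_11_3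 ln12_11_3_ok) (L (nat_lit 330) ln13_11_3 ln13_11_3_ok))) (M (nat_lit 393) (B (L (nat_lit 394) ln13_11_1 ln13_11_1_ok) (L (nat_lit 392) ln12_11_1 ln12_11_1_ok)))))))))) (nat_lit 5954262831509113918132062396414293955021172413339836511923639628650521425976703891285775075508988213722642167985551696226859131031426957312) (nat_lit 27459190651710785666865109341732610220369181914132630330319855053120797286936822662950453623958810798097046195104601801688513726694555855814785941643527716864) (nat_lit 27459190651710785666865109341732610220369181914132630330319855053120797286936822662950453623958810798097046195104601801688513726694555855814785941643527716864) (by decide +kernel)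
noncomputable def c10_d54 : Cert := (B (M (nat_lit 361) (B (M (nat_lit 360) (B (L (nat_lit 332) ln12_10_1 ln12_10_1_ok) (M (nat_lit 359) (B (L (nat_lit 358) ln6_11_2_c10 ln6_11_2_c10_ok) (L (nat_lit 362) ln7_11_2 ln7_11_2_ok))))) (B (M (nat_lit 332) (B (L (nat_lit 360) ln12_10_1 ln12_10_1_ok) (M (nat_lit 333) (B (L (nat_lit 362) ln13_10_1 ln13_10_1_ok) (M (nat_lit 297) (B (L (nat_lit 296) ln12_10_3 ln12_10_3_ok) (L (nat_lit 298) ln13_10_3 ln13_10_3_ok))))))) (B (M (nat_lit 297) (B (M (nat_lit 332) (B (L (nat_lit 296) ln12_10_3 ln12_10_3_ok) (M (nat_lit 333) (B (L (nat_lit 298) ln13_10_3 ln13_10_3_ok) (L (nat_lit 362) ln13_10_1 ln13_10_1_ok))))) (B (M (nat_lit 298) (B (M (nat_lit 393) (B (L (nat_lit 266) ln9_12_6_c10 ln9_12_6_c10_ok) (L (nat_lit 425) ln9_13_6_c10 ln9_13_6_c10_ok))) (M (nat_lit 265) (B (M (nat_lit 233) (B (L (nat_lit 201) ln9_6_4_c10 ln9_6_4_c10_ok) (L (nat_lit 362) ln9_7_4_c10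 ln9_7_4_c10_ok))) (M (nat_lit 300) (B (M (nat_lit 264) (B (L (nat_lit 232) ln9_11_7_c10 ln9_11_7_c10_ok) (L (nat_lit 299) ln12_9_3 ln12_9_3_ok))) (B (M (nat_lit 299) (B (L (nat_lit 264) ln12_9_3 ln12_9_3_ok) (L (nat_lit 301) ln13_9_1 ln13_9_1_ok))) (M (nat_lit 332) (B (L (nat_lit 333) ln13_10_3 ln13_10_3_ok) (L (nat_lit 301) ln9_10_2 ln9_10_2_ok)))))))))) (B (M (nat_lit 332) (B (L (nat_lit 296) ln12_10_3 ln12_10_3_ok) (M (nat_lit 333) (B (L (nat_lit 362) ln13_10_1 ln13_10_1_ok) (M (nat_lit 301) (B (L (nat_lit 300) ln9_10_2 ln9_10_2_ok) (L (nat_lit 302) ln10_10_2 ln10_10_2_ok))))))) (B (M (nat_lit 393) (B (M (nat_lit 296) (B (L (nat_lit 264) ln9_12_7_c10 ln9_12_7_c10_ok) (L (nat_lit 332) ln12_10_3 ln12_10_3_ok))) (M (nat_lit 298) (B (L (nat_lit 266) ln9_12_6_c10 ln9_12_6_c10_ok) (L (nat_lit 425) ln9_13_6_c10 ln9_13_6_c10_ok))))) (M (nat_lit 265) (B (M (nat_lit 233) (B (L (nat_lit 362) ln9_7_4_c10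 ln9_7_4_c10_ok) (M (nat_lit 234) (B (L (nat_lit 202) ln9_10_6_c10 ln9_10_6_c10_ok) (L (nat_lit 266) ln9_11_6_c10 ln9_11_6_c10_ok))))) (B (M (nat_lit 266) (B (L (nat_lit 234) ln9_11_6_c10 ln9_11_6_c10_ok) (M (nat_lit 393) (B (L (nat_lit 298) ln9_12_6_c10 ln9_12_6_c10_ok) (M (nat_lit 264) (B (L (nat_lit 232) ln9_11_7_c10 ln9_11_7_c10_ok) (L (nat_lit 296) ln9_12_7_c10 ln9_12_7_c10_ok))))))) (B (M (nat_lit 298) (B (M (nat_lit 233) (B (L (nat_lit 201) ln9_6_4_c10 ln9_6_4_c10_ok) (L (nat_lit 362) ln9_7_4_c10 ln9_7_4_c10_ok))) (M (nat_lit 393) (B (L (nat_lit 266) ln9_12_6_c10 ln9_12_6_c10_ok) (M (nat_lit 264) (B (L (nat_lit 232) ln9_11_7_c10 ln9_11_7_c10_ok) (L (nat_lit 296) ln9_12_7_c10 ln9_12_7_c10_ok))))))) (M (nat_lit 233) (B (L (nat_lit 362) ln9_7_4_c10 ln9_7_4_c10_ok) (M (nat_lit 296) (B (M (nat_lit 298) (B (L (nat_lit 295) ln7_9_0_c10 ln7_9_0_c10_ok) (L (nat_lit 201) ln9_6_4_c10 ln9_6_4_c10_ok)))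 (M (nat_lit 264) (B (L (nat_lit 232) ln9_11_7_c10 ln9_11_7_c10_ok) (L (nat_lit 393) ln9_12_7_c10 ln9_12_7_c10_ok)))))))))))))))) (B (M (nat_lit 332) (B (L (nat_lit 360) ln12_10_1 ln12_10_1_ok) (M (nat_lit 333) (B (M (nat_lit 297) (B (L (nat_lit 296) ln12_10_3 ln12_10_3_ok) (L (nat_lit 298) ln13_10_3 ln13_10_3_ok))) (M (nat_lit 301) (B (L (nat_lit 300) ln9_10_2 ln9_10_2_ok) (L (nat_lit 302) ln10_10_2 ln10_10_2_ok))))))) (M (nat_lit 393) (B (M (nat_lit 298) (B (L (nat_lit 425) ln9_13_6_c10 ln9_13_6_c10_ok) (M (nat_lit 266) (B (L (nat_lit 297) ln9_12_6_c10 ln9_12_6_c10_ok) (L (nat_lit 234) ln10_7_4 ln10_7_4_ok))))) (B (M (nat_lit 298) (B (L (nat_lit 425) ln9_13_6_c10 ln9_13_6_c10_ok) (M (nat_lit 266) (B (L (nat_lit 234) ln10_7_4 ln10_7_4_ok) (L (nat_lit 362) ln10_8_5_c10 ln10_8_5_c10_ok))))) (B (M (nat_lit 297) (B (M (nat_lit 298) (B (L (nat_lit 266) ln9_12_6_c10 ln9_12_6_c10_ok) (M (nat_lit 296)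 (B (L (nat_lit 295) ln7_9_0_c10 ln7_9_0_c10_ok) (L (nat_lit 264) ln9_12_7_c10 ln9_12_7_c10_ok))))) (B (M (nat_lit 265) (B (M (nat_lit 392) (B (L (nat_lit 360) ln9_8_5_c10 ln9_8_5_c10_ok) (L (nat_lit 424) ln9_9_5_c10 ln9_9_5_c10_ok))) (M (nat_lit 266) (B (L (nat_lit 234) ln9_11_6_c10 ln9_11_6_c10_ok) (L (nat_lit 298) ln9_12_6_c10 ln9_12_6_c10_ok))))) (M (nat_lit 265) (B (M (nat_lit 264) (B (L (nat_lit 232) ln9_11_7_c10 ln9_11_7_c10_ok) (L (nat_lit 296) ln9_12_7_c10 ln9_12_7_c10_ok))) (M (nat_lit 392) (B (L (nat_lit 360) ln9_8_5_c10 ln9_8_5_c10_ok) (L (nat_lit 424) ln9_9_5_c10 ln9_9_5_c10_ok)))))))) (B (M (nat_lit 298) (B (L (nat_lit 425) ln9_13_6_c10 ln9_13_6_c10_ok) (M (nat_lit 266) (B (L (nat_lit 297) ln9_12_6_c10 ln9_12_6_c10_ok) (L (nat_lit 362) ln10_8_5_c10 ln10_8_5_c10_ok))))) (B (M (nat_lit 425) (B (L (nat_lit 298) ln9_13_6_c10 ln9_13_6_c10_ok) (M (nat_lit 457) (B (L (nat_lit 362) ln9_14_6_c10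 ln9_14_6_c10_ok) (M (nat_lit 458) (B (L (nat_lit 426) ln9_10_4_c10 ln9_10_4_c10_ok) (L (nat_lit 490) ln9_11_4 ln9_11_4_ok))))))) (M (nat_lit 297) (B (M (nat_lit 265) (B (M (nat_lit 264) (B (L (nat_lit 232) ln9_11_7_c10 ln9_11_7_c10_ok) (L (nat_lit 296) ln9_12_7_c10 ln9_12_7_c10_ok))) (M (nat_lit 392) (B (L (nat_lit 360) ln9_8_5_c10 ln9_8_5_c10_ok) (L (nat_lit 424) ln9_9_5_c10 ln9_9_5_c10_ok))))) (B (M (nat_lit 425) (B (M (nat_lit 424) (B (L (nat_lit 392) ln9_9_5_c10 ln9_9_5_c10_ok) (L (nat_lit 456) ln9_10_5_c10 ln9_10_5_c10_ok))) (M (nat_lit 457) (B (L (nat_lit 362) ln9_14_6_c10 ln9_14_6_c10_ok) (M (nat_lit 458) (B (L (nat_lit 426) ln9_10_4_c10 ln9_10_4_c10_ok) (L (nat_lit 490) ln9_11_4 ln9_11_4_ok))))))) (M (nat_lit 265) (B (M (nat_lit 264) (B (L (nat_lit 232) ln9_11_7_c10 ln9_11_7_c10_ok) (L (nat_lit 296) ln9_12_7_c10 ln9_12_7_c10_ok))) (M (nat_lit 233) (B (L (nat_lit 362) ln9_7_4_c10 ln9_7_4_c10_ok)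 (M (nat_lit 234) (B (L (nat_lit 202) ln9_10_6_c10 ln9_10_6_c10_ok) (L (nat_lit 266) ln9_11_6_c10 ln9_11_6_c10_ok))))))))))))))))))))) (B (M (nat_lit 328) (B (M (nat_lit 332) (B (M (nat_lit 296) (B (L (nat_lit 295) ln11_10_3_c10 ln11_10_3_c10_ok) (L (nat_lit 297) ln12_10_3 ln12_10_3_ok))) (M (nat_lit 300) (B (L (nat_lit 299) ln8_10_2_c10 ln8_10_2_c10_ok) (L (nat_lit 301) ln9_10_2 ln9_10_2_ok))))) (B (M (nat_lit 327) (B (M (nat_lit 299) (B (L (nat_lit 298) ln7_10_2_c10 ln7_10_2_c10_ok) (L (nat_lit 300) ln8_10_2_c10 ln8_10_2_c10_ok))) (M (nat_lit 326) (B (M (nat_lit 358) (B (L (nat_lit 357) ln9_10_1_c10 ln9_10_1_c10_ok) (L (nat_lit 359) ln10_10_1_c10 ln10_10_1_c10_ok))) (L (nat_lit 362) ln7_10_0_c10 ln7_10_0_c10_ok))))) (M (nat_lit 327) (B (M (nat_lit 295) (B (L (nat_lit 294) ln10_10_3_c10 ln10_10_3_c10_ok) (L (nat_lit 296) ln11_10_3_c10 ln11_10_3_c10_ok))) (M (nat_lit 326) (B (M (nat_lit 358)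 (B (L (nat_lit 357) ln9_10_1_c10 ln9_10_1_c10_ok) (L (nat_lit 359) ln10_10_1_c10 ln10_10_1_c10_ok))) (L (nat_lit 362) ln7_10_0_c10 ln7_10_0_c10_ok)))))))) (B (M (nat_lit 332) (B (M (nat_lit 333) (B (M (nat_lit 297) (B (L (nat_lit 296) ln12_10_3 ln12_10_3_ok) (L (nat_lit 298) ln13_10_3 ln13_10_3_ok))) (M (nat_lit 301) (B (L (nat_lit 300) ln9_10_2 ln9_10_2_ok) (L (nat_lit 302) ln10_10_2 ln10_10_2_ok))))) (B (M (nat_lit 333) (B (M (nat_lit 361) (B (L (nat_lit 360) ln12_10_1 ln12_10_1_ok) (L (nat_lit 362) ln13_10_1 ln13_10_1_ok))) (M (nat_lit 301) (B (L (nat_lit 300) ln9_10_2 ln9_10_2_ok) (L (nat_lit 302) ln10_10_2 ln10_10_2_ok))))) (B (M (nat_lit 333) (B (M (nat_lit 297) (B (L (nat_lit 296) ln12_10_3 ln12_10_3_ok) (L (nat_lit 298) ln13_10_3 ln13_10_3_ok))) (M (nat_lit 361) (B (L (nat_lit 360) ln12_10_1 ln12_10_1_ok) (L (nat_lit 362) ln13_10_1 ln13_10_1_ok))))) (M (nat_lit 328) (B (M (nat_lit 296)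 (B (L (nat_lit 295) ln11_10_3_c10 ln11_10_3_c10_ok) (L (nat_lit 297) ln12_10_3 ln12_10_3_ok))) (M (nat_lit 360) (B (L (nat_lit 359) ln11_10_1_c10 ln11_10_1_c10_ok) (L (nat_lit 361) ln12_10_1 ln12_10_1_ok))))))))) (B (M (nat_lit 328) (B (M (nat_lit 296) (B (L (nat_lit 295) ln11_10_3_c10 ln11_10_3_c10_ok) (M (nat_lit 360) (B (L (nat_lit 359) ln11_10_1_c10 ln11_10_1_c10_ok) (M (nat_lit 332) (B (L (nat_lit 297) ln12_10_3 ln12_10_3_ok) (L (nat_lit 361) ln12_10_1 ln12_10_1_ok))))))) (B (M (nat_lit 327) (B (M (nat_lit 359) (B (L (nat_lit 358) ln10_10_1_c10 ln10_10_1_c10_ok) (L (nat_lit 360) ln11_10_1_c10 ln11_10_1_c10_ok))) (M (nat_lit 326) (B (M (nat_lit 298) (B (L (nat_lit 297) ln6_10_2_c10 ln6_10_2_c10_ok) (L (nat_lit 299) ln7_10_2_c10 ln7_10_2_c10_ok))) (L (nat_lit 362) ln7_10_0_c10 ln7_10_0_c10_ok))))) (B (M (nat_lit 327) (B (M (nat_lit 295) (B (L (nat_lit 294) ln10_10_3_c10 ln10_10_3_c10_ok)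 (L (nat_lit 296) ln11_10_3_c10 ln11_10_3_c10_ok))) (M (nat_lit 326) (B (M (nat_lit 298) (B (L (nat_lit 297) ln6_10_2_c10 ln6_10_2_c10_ok) (L (nat_lit 299) ln7_10_2_c10 ln7_10_2_c10_ok))) (L (nat_lit 362) ln7_10_0_c10 ln7_10_0_c10_ok))))) (M (nat_lit 327) (B (M (nat_lit 295) (B (L (nat_lit 294) ln10_10_3_c10 ln10_10_3_c10_ok) (L (nat_lit 296) ln11_10_3_c10 ln11_10_3_c10_ok))) (M (nat_lit 359) (B (L (nat_lit 358) ln10_10_1_c10 ln10_10_1_c10_ok) (L (nat_lit 360) ln11_10_1_c10 ln11_10_1_c10_ok))))))))) (M (nat_lit 328) (B (M (nat_lit 299) (B (L (nat_lit 300) ln8_10_2_c10 ln8_10_2_c10_ok) (M (nat_lit 295) (B (L (nat_lit 296) ln11_10_3_c10 ln11_10_3_c10_ok) (M (nat_lit 327) (B (L (nat_lit 294) ln10_10_3_c10 ln10_10_3_c10_ok) (L (nat_lit 298) ln7_10_2_c10 ln7_10_2_c10_ok))))))) (B (M (nat_lit 327) (B (M (nat_lit 359) (B (L (nat_lit 358) ln10_10_1_c10 ln10_10_1_c10_ok) (L (nat_lit 360) ln11_10_1_c10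 ln11_10_1_c10_ok))) (M (nat_lit 299) (B (L (nat_lit 298) ln7_10_2_c10 ln7_10_2_c10_ok) (L (nat_lit 300) ln8_10_2_c10 ln8_10_2_c10_ok))))) (M (nat_lit 296) (B (L (nat_lit 295) ln11_10_3_c10 ln11_10_3_c10_ok) (M (nat_lit 360) (B (L (nat_lit 359) ln11_10_1_c10 ln11_10_1_c10_ok) (M (nat_lit 264) (B (M (nat_lit 361) (B (L (nat_lit 232) ln8_7_4_c10 ln8_7_4_c10_ok) (L (nat_lit 393) ln8_8_4_c10 ln8_8_4_c10_ok))) (B (M (nat_lit 392) (B (M (nat_lit 265) (B (L (nat_lit 233) ln8_11_6_c10 ln8_11_6_c10_ok) (L (nat_lit 297) ln8_12_6_c10 ln8_12_6_c10_ok))) (M (nat_lit 393) (B (L (nat_lit 361) ln8_8_4_c10 ln8_8_4_c10_ok) (L (nat_lit 425) ln8_9_4_c10 ln8_9_4_c10_ok))))) (M (nat_lit 232) (B (M (nat_lit 231) (B (L (nat_lit 199) ln8_10_7_c10 ln8_10_7_c10_ok) (L (nat_lit 263) ln8_11_7_c10 ln8_11_7_c10_ok))) (M (nat_lit 233) (B (L (nat_lit 201) ln8_10_6_c10 ln8_10_6_c10_ok) (L (nat_lit 265) ln8_11_6_c10 ln8_11_6_c10_ok)))))))))))))))))))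
noncomputable def c10_d55 : Cert := (B (M (nat_lit 328) (B (M (nat_lit 332) (B (M (nat_lit 296) (B (L (nat_lit 295) ln11_10_3_c10 ln11_10_3_c10_ok) (L (nat_lit 297) ln12_10_3 ln12_10_3_ok))) (M (nat_lit 300) (B (L (nat_lit 299) ln8_10_2_c10 ln8_10_2_c10_ok) (L (nat_lit 301) ln9_10_2 ln9_10_2_ok))))) (B (M (nat_lit 332) (B (M (nat_lit 360) (B (L (nat_lit 359) ln11_10_1_c10 ln11_10_1_c10_ok) (L (nat_lit 361) ln12_10_1 ln12_10_1_ok))) (M (nat_lit 300) (B (L (nat_lit 299) ln8_10_2_c10 ln8_10_2_c10_ok) (L (nat_lit 301) ln9_10_2 ln9_10_2_ok))))) (B (M (nat_lit 296) (B (L (nat_lit 295) ln11_10_3_c10 ln11_10_3_c10_ok) (M (nat_lit 360) (B (L (nat_lit 359) ln11_10_1_c10 ln11_10_1_c10_ok) (M (nat_lit 332) (B (L (nat_lit 297) ln12_10_3 ln12_10_3_ok) (L (nat_lit 361) ln12_10_1 ln12_10_1_ok))))))) (M (nat_lit 327) (B (M (nat_lit 295) (B (L (nat_lit 294) ln10_10_3_c10 ln10_10_3_c10_ok) (L (nat_lit 296) ln11_10_3_c10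 ln11_10_3_c10_ok))) (M (nat_lit 359) (B (L (nat_lit 358) ln10_10_1_c10 ln10_10_1_c10_ok) (L (nat_lit 360) ln11_10_1_c10 ln11_10_1_c10_ok))))))))) (B (M (nat_lit 328) (B (M (nat_lit 296) (B (L (nat_lit 295) ln11_10_3_c10 ln11_10_3_c10_ok) (M (nat_lit 360) (B (L (nat_lit 359) ln11_10_1_c10 ln11_10_1_c10_ok) (M (nat_lit 332) (B (L (nat_lit 297) ln12_10_3 ln12_10_3_ok) (L (nat_lit 361) ln12_10_1 ln12_10_1_ok))))))) (B (M (nat_lit 332) (B (M (nat_lit 360) (B (L (nat_lit 359) ln11_10_1_c10 ln11_10_1_c10_ok) (L (nat_lit 361) ln12_10_1 ln12_10_1_ok))) (M (nat_lit 300) (B (L (nat_lit 299) ln8_10_2_c10 ln8_10_2_c10_ok) (L (nat_lit 301) ln9_10_2 ln9_10_2_ok))))) (B (M (nat_lit 332) (B (M (nat_lit 296) (B (L (nat_lit 295) ln11_10_3_c10 ln11_10_3_c10_ok) (L (nat_lit 297) ln12_10_3 ln12_10_3_ok))) (M (nat_lit 300) (B (L (nat_lit 299) ln8_10_2_c10 ln8_10_2_c10_ok) (L (nat_lit 301) ln9_10_2 ln9_10_2_ok)))))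 (M (nat_lit 327) (B (M (nat_lit 359) (B (L (nat_lit 358) ln10_10_1_c10 ln10_10_1_c10_ok) (L (nat_lit 360) ln11_10_1_c10 ln11_10_1_c10_ok))) (M (nat_lit 299) (B (L (nat_lit 298) ln7_10_2_c10 ln7_10_2_c10_ok) (L (nat_lit 300) ln8_10_2_c10 ln8_10_2_c10_ok))))))))) (B (M (nat_lit 328) (B (M (nat_lit 332) (B (M (nat_lit 360) (B (L (nat_lit 359) ln11_10_1_c10 ln11_10_1_c10_ok) (L (nat_lit 361) ln12_10_1 ln12_10_1_ok))) (M (nat_lit 300) (B (L (nat_lit 299) ln8_10_2_c10 ln8_10_2_c10_ok) (L (nat_lit 301) ln9_10_2 ln9_10_2_ok))))) (B (M (nat_lit 332) (B (M (nat_lit 296) (B (L (nat_lit 295) ln11_10_3_c10 ln11_10_3_c10_ok) (L (nat_lit 297) ln12_10_3 ln12_10_3_ok))) (M (nat_lit 300) (B (L (nat_lit 299) ln8_10_2_c10 ln8_10_2_c10_ok) (L (nat_lit 301) ln9_10_2 ln9_10_2_ok))))) (B (M (nat_lit 296) (B (L (nat_lit 295) ln11_10_3_c10 ln11_10_3_c10_ok) (M (nat_lit 360) (B (L (nat_lit 359) ln11_10_1_c10 ln11_10_1_c10_ok)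 (M (nat_lit 332) (B (L (nat_lit 297) ln12_10_3 ln12_10_3_ok) (L (nat_lit 361) ln12_10_1 ln12_10_1_ok))))))) (M (nat_lit 327) (B (M (nat_lit 295) (B (L (nat_lit 294) ln10_10_3_c10 ln10_10_3_c10_ok) (L (nat_lit 296) ln11_10_3_c10 ln11_10_3_c10_ok))) (M (nat_lit 299) (B (L (nat_lit 298) ln7_10_2_c10 ln7_10_2_c10_ok) (L (nat_lit 300) ln8_10_2_c10 ln8_10_2_c10_ok))))))))) (B (M (nat_lit 332) (B (M (nat_lit 333) (B (M (nat_lit 297) (B (L (nat_lit 296) ln12_10_3 ln12_10_3_ok) (L (nat_lit 298) ln13_10_3 ln13_10_3_ok))) (M (nat_lit 361) (B (L (nat_lit 360) ln12_10_1 ln12_10_1_ok) (L (nat_lit 362) ln13_10_1 ln13_10_1_ok))))) (B (M (nat_lit 333) (B (M (nat_lit 361) (B (L (nat_lit 360) ln12_10_1 ln12_10_1_ok) (L (nat_lit 362) ln13_10_1 ln13_10_1_ok))) (M (nat_lit 301) (B (L (nat_lit 300) ln9_10_2 ln9_10_2_ok) (L (nat_lit 302) ln10_10_2 ln10_10_2_ok))))) (B (M (nat_lit 333) (B (M (nat_lit 297) (B (L (nat_lit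 296) ln12_10_3 ln12_10_3_ok) (L (nat_lit 298) ln13_10_3 ln13_10_3_ok))) (M (nat_lit 301) (B (L (nat_lit 300) ln9_10_2 ln9_10_2_ok) (L (nat_lit 302) ln10_10_2 ln10_10_2_ok))))) (M (nat_lit 328) (B (M (nat_lit 360) (B (L (nat_lit 359) ln11_10_1_c10 ln11_10_1_c10_ok) (L (nat_lit 361) ln12_10_1 ln12_10_1_ok))) (M (nat_lit 300) (B (L (nat_lit 299) ln8_10_2_c10 ln8_10_2_c10_ok) (L (nat_lit 301) ln9_10_2 ln9_10_2_ok))))))))) (B (M (nat_lit 332) (B (M (nat_lit 333) (B (M (nat_lit 297) (B (L (nat_lit 296) ln12_10_3 ln12_10_3_ok) (L (nat_lit 298) ln13_10_3 ln13_10_3_ok))) (M (nat_lit 361) (B (L (nat_lit 360) ln12_10_1 ln12_10_1_ok) (L (nat_lit 362) ln13_10_1 ln13_10_1_ok))))) (B (M (nat_lit 333) (B (M (nat_lit 361) (B (L (nat_lit 360) ln12_10_1 ln12_10_1_ok) (L (nat_lit 362) ln13_10_1 ln13_10_1_ok))) (M (nat_lit 301) (B (L (nat_lit 300) ln9_10_2 ln9_10_2_ok) (L (nat_lit 302) ln10_10_2 ln10_10_2_ok)))))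 (B (M (nat_lit 333) (B (M (nat_lit 297) (B (L (nat_lit 296) ln12_10_3 ln12_10_3_ok) (L (nat_lit 298) ln13_10_3 ln13_10_3_ok))) (M (nat_lit 301) (B (L (nat_lit 300) ln9_10_2 ln9_10_2_ok) (L (nat_lit 302) ln10_10_2 ln10_10_2_ok))))) (M (nat_lit 328) (B (M (nat_lit 296) (B (L (nat_lit 295) ln11_10_3_c10 ln11_10_3_c10_ok) (L (nat_lit 297) ln12_10_3 ln12_10_3_ok))) (M (nat_lit 300) (B (L (nat_lit 299) ln8_10_2_c10 ln8_10_2_c10_ok) (L (nat_lit 301) ln9_10_2 ln9_10_2_ok))))))))) (B (M (nat_lit 328) (B (M (nat_lit 332) (B (M (nat_lit 360) (B (L (nat_lit 359) ln11_10_1_c10 ln11_10_1_c10_ok) (L (nat_lit 361) ln12_10_1 ln12_10_1_ok))) (M (nat_lit 300) (B (L (nat_lit 299) ln8_10_2_c10 ln8_10_2_c10_ok) (L (nat_lit 301) ln9_10_2 ln9_10_2_ok))))) (B (M (nat_lit 361) (B (M (nat_lit 332) (B (L (nat_lit 360) ln12_10_1 ln12_10_1_ok) (M (nat_lit 300) (B (L (nat_lit 299) ln8_10_2_c10 ln8_10_2_c10_ok) (L (nat_lit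 301) ln9_10_2 ln9_10_2_ok))))) (B (M (nat_lit 327) (B (M (nat_lit 299) (B (L (nat_lit 298) ln7_10_2_c10 ln7_10_2_c10_ok) (L (nat_lit 300) ln8_10_2_c10 ln8_10_2_c10_ok))) (L (nat_lit 362) ln7_10_0_c10 ln7_10_0_c10_ok))) (M (nat_lit 362) (B (L (nat_lit 327) ln7_10_0_c10 ln7_10_0_c10_ok) (M (nat_lit 332) (B (L (nat_lit 360) ln12_10_1 ln12_10_1_ok) (L (nat_lit 333) ln13_10_1 ln13_10_1_ok)))))))) (B (M (nat_lit 327) (B (M (nat_lit 299) (B (L (nat_lit 298) ln7_10_2_c10 ln7_10_2_c10_ok) (L (nat_lit 300) ln8_10_2_c10 ln8_10_2_c10_ok))) (M (nat_lit 326) (B (M (nat_lit 358) (B (L (nat_lit 357) ln9_10_1_c10 ln9_10_1_c10_ok) (L (nat_lit 359) ln10_10_1_c10 ln10_10_1_c10_ok))) (L (nat_lit 362) ln7_10_0_c10 ln7_10_0_c10_ok))))) (M (nat_lit 327) (B (M (nat_lit 359) (B (L (nat_lit 358) ln10_10_1_c10 ln10_10_1_c10_ok) (L (nat_lit 360) ln11_10_1_c10 ln11_10_1_c10_ok))) (B (M (nat_lit 361) (B (L (nat_lit 362) ln7_10_0_c10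 ln7_10_0_c10_ok) (M (nat_lit 360) (B (L (nat_lit 359) ln11_10_1_c10 ln11_10_1_c10_ok) (L (nat_lit 332) ln12_10_1 ln12_10_1_ok))))) (L (nat_lit 362) ln7_10_0_c10 ln7_10_0_c10_ok)))))))) c10_d54))))))
theorem c10_s144 : Sem (nat_lit 5954262830815946494440468064101681940814086959758656347158566987049417004584658744911941175137704004949650562783374222817278530108444901376) (nat_lit 3196670516826071039175743858997315426865583407943977352629495626797395534962489024196238930878807453328821537229844116478417371452728863309030227968) (nat_lit 3196670516826071039175743858997315426865583407943977352629495626797395534962489024196238930878807453328821537229844116478417371452728863309030227968) :=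
  sem_of_chk (M (nat_lit 329) c10_d55) (nat_lit 5954262830815946494440468064101681940814086959758656347158566987049417004584658744911941175137704004949650562783374222817278530108444901376) (nat_lit 3196670516826071039175743858997315426865583407943977352629495626797395534962489024196238930878807453328821537229844116478417371452728863309030227968) (nat_lit 3196670516826071039175743858997315426865583407943977352629495626797395534962489024196238930878807453328821537229844116478417371452728863309030227968) (by decide +kernel)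
theorem c10_s171 : Sem (nat_lit 5954262830815946494440468064139258622131906539230539000934078872806075061271132354550578193372942037532254438881195279021764289825886699520) (nat_lit 4465697123111959871143045369194483020717163580981524955287080423752652632612982361392167335292666438723946739240344576657172948737656356864) (nat_lit 4465697123111959871143045369194483020717163580981524955287080423752652632612982361392167335292666438723946739240344576657172948737656356864) :=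
  sem_of_chk (M (nat_lit 362) (B (M (nat_lit 333) (B (L (nat_lit 334) ln10_11_2 ln10_11_2_ok) (M (nat_lit 361) (B (L (nat_lit 332) ln9_11_2 ln9_11_2_ok) (M (nat_lit 329) (B (L (nat_lit 330) ln13_11_3 ln13_11_3_ok) (L (nat_lit 328) ln12_11_3 ln12_11_3_ok))))))) (B (M (nat_lit 329) (B (L (nat_lit 330) ln13_11_3 ln13_11_3_ok) (M (nat_lit 361) (B (L (nat_lit 328) ln12_11_3 ln12_11_3_ok) (M (nat_lit 393) (B (L (nat_lit 394) ln13_11_1 ln13_11_1_ok) (L (nat_lit 392) ln12_11_1 ln12_11_1_ok))))))) (B (M (nat_lit 333) (B (L (nat_lit 334) ln10_11_2 ln10_11_2_ok) (M (nat_lit 361) (B (L (nat_lit 332) ln9_11_2 ln9_11_2_ok) (M (nat_lit 393) (B (L (nat_lit 394) ln13_11_1 ln13_11_1_ok) (L (nat_lit 392) ln12_11_1 ln12_11_1_ok))))))) (M (nat_lit 333) (B (L (nat_lit 334) ln10_11_2 ln10_11_2_ok) (M (nat_lit 396) (B (M (nat_lit 428) (B (L (nat_lit 460) ln12_14_6 ln12_14_6_ok) (M (nat_lit 301) (B (L (nat_lit 269)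 ln13_8_5 ln13_8_5_ok) (L (nat_lit 332) ln12_10_4 ln12_10_4_ok))))) (B (M (nat_lit 428) (B (L (nat_lit 460) ln12_14_6 ln12_14_6_ok) (L (nat_lit 332) ln12_10_4 ln12_10_4_ok))) (B (M (nat_lit 330) (B (L (nat_lit 329) ln13_11_3 ln13_11_3_ok) (M (nat_lit 394) (B (L (nat_lit 393) ln13_11_1 ln13_11_1_ok) (M (nat_lit 299) (B (M (nat_lit 267) (B (L (nat_lit 331) ln11_8_4 ln11_8_4_ok) (L (nat_lit 298) ln10_12_6_c10 ln10_12_6_c10_ok))) (B (M (nat_lit 395) (B (M (nat_lit 428) (B (L (nat_lit 460) ln12_14_6 ln12_14_6_ok) (L (nat_lit 331) ln11_9_4 ln11_9_4_ok))) (M (nat_lit 298) (B (L (nat_lit 266) ln10_8_4 ln10_8_4_ok) (L (nat_lit 427) ln10_9_4 ln10_9_4_ok))))) (B (M (nat_lit 298) (B (L (nat_lit 267) ln10_12_6_c10 ln10_12_6_c10_ok) (M (nat_lit 395) (B (L (nat_lit 266) ln10_8_4 ln10_8_4_ok) (L (nat_lit 427) ln10_9_4 ln10_9_4_ok))))) (M (nat_lit 331) (B (L (nat_lit 267) ln11_8_4 ln11_8_4_ok) (M (nat_lit 428)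 (B (L (nat_lit 460) ln12_14_6 ln12_14_6_ok) (L (nat_lit 395) ln11_9_4 ln11_9_4_ok))))))))))))) (M (nat_lit 330) (B (L (nat_lit 329) ln13_11_3 ln13_11_3_ok) (M (nat_lit 299) (B (M (nat_lit 394) (B (L (nat_lit 393) ln13_11_1 ln13_11_1_ok) (M (nat_lit 267) (B (L (nat_lit 331) ln11_8_4 ln11_8_4_ok) (L (nat_lit 298) ln10_12_6_c10 ln10_12_6_c10_ok))))) (B (M (nat_lit 298) (B (M (nat_lit 395) (B (L (nat_lit 266) ln10_8_4 ln10_8_4_ok) (M (nat_lit 427) (B (L (nat_lit 459) ln11_14_7 ln11_14_7_ok) (L (nat_lit 394) ln10_9_4 ln10_9_4_ok))))) (B (M (nat_lit 297) (B (M (nat_lit 332) (B (L (nat_lit 300) ln9_9_0 ln9_9_0_ok) (L (nat_lit 331) ln13_10_3 ln13_10_3_ok))) (M (nat_lit 394) (B (L (nat_lit 393) ln13_11_1 ln13_11_1_ok) (L (nat_lit 265) ln10_12_7_c10 ln10_12_7_c10_ok))))) (M (nat_lit 395) (B (L (nat_lit 266) ln10_8_4 ln10_8_4_ok) (M (nat_lit 427) (B (L (nat_lit 331) ln11_13_7 ln11_13_7_ok) (L (nat_lit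 459) ln11_14_7 ln11_14_7_ok)))))))) (B (M (nat_lit 394) (B (L (nat_lit 393) ln13_11_1 ln13_11_1_ok) (M (nat_lit 298) (B (L (nat_lit 267) ln10_12_6_c10 ln10_12_6_c10_ok) (M (nat_lit 395) (B (L (nat_lit 266) ln10_8_4 ln10_8_4_ok) (L (nat_lit 427) ln10_9_4 ln10_9_4_ok))))))) (M (nat_lit 331) (B (L (nat_lit 267) ln11_8_4 ln11_8_4_ok) (M (nat_lit 301) (B (L (nat_lit 269) ln13_8_5 ln13_8_5_ok) (M (nat_lit 302) (B (L (nat_lit 332) ln10_10_2 ln10_10_2_ok) (L (nat_lit 300) ln14_9_1_c10 ln14_9_1_c10_ok))))))))))))))))))))))) (nat_lit 5954262830815946494440468064139258622131906539230539000934078872806075061271132354550578193372942037532254438881195279021764289825886699520) (nat_lit 4465697123111959871143045369194483020717163580981524955287080423752652632612982361392167335292666438723946739240344576657172948737656356864) (nat_lit 4465697123111959871143045369194483020717163580981524955287080423752652632612982361392167335292666438723946739240344576657172948737656356864)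 (by decide +kernel)
theorem c10_s189 : Sem (nat_lit 20839919904693236361007865009656479088805549285201202130586497225381475443893278772482817183946149193610266214248817219767709894472535900160) (nat_lit 36855101816911260676009585157986042840418733788474607708585466461455651760342515413488559319970721283941857872812403959388100198707426022218198531060949230217039183872) (nat_lit 36855101816911260676009585157986042840418733788474607708585466461455651760342515413488559319970721283941857872812403959388100198707426022218198531060949230217039183872) :=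
  sem_of_chk (M (nat_lit 392) (B (M (nat_lit 391) (B (L (nat_lit 427) ln11_13_3 ln11_13_3_ok) (M (nat_lit 390) (B (L (nat_lit 393) ln6_12_0_c10 ln6_12_0_c10_ok) (L (nat_lit 389) ln5_12_0_c10 ln5_12_0_c10_ok))))) (B (M (nat_lit 360) (B (M (nat_lit 457) (B (L (nat_lit 328) ln8_10_4_c10 ln8_10_4_c10_ok) (M (nat_lit 489) (B (L (nat_lit 521) ln9_16_7 ln9_16_7_ok) (L (nat_lit 456) ln8_11_4_c10 ln8_11_4_c10_ok))))) (B (M (nat_lit 457) (B (L (nat_lit 328) ln8_10_4_c10 ln8_10_4_c10_ok) (M (nat_lit 489) (B (L (nat_lit 393) ln9_15_7 ln9_15_7_ok) (L (nat_lit 456) ln8_11_4_c10 ln8_11_4_c10_ok))))) (B (M (nat_lit 328) (B (L (nat_lit 457) ln8_10_4_c10 ln8_10_4_c10_ok) (M (nat_lit 296) (B (L (nat_lit 393) ln8_9_4_c10 ln8_9_4_c10_ok) (M (nat_lit 297) (B (L (nat_lit 329) ln8_13_6_c10 ln8_13_6_c10_ok) (L (nat_lit 265) ln8_12_6_c10 ln8_12_6_c10_ok))))))) (B (M (nat_lit 456) (B (M (nat_lit 359) (B (L (nat_lit 327)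 ln8_14_7_c10 ln8_14_7_c10_ok) (M (nat_lit 488) (B (L (nat_lit 391) ln8_15_7_c10 ln8_15_7_c10_ok) (M (nat_lit 487) (B (L (nat_lit 519) ln8_12_5_c10 ln8_12_5_c10_ok) (L (nat_lit 455) ln8_11_5_c10 ln8_11_5_c10_ok))))))) (B (M (nat_lit 328) (B (M (nat_lit 327) (B (L (nat_lit 359) ln8_14_7_c10 ln8_14_7_c10_ok) (L (nat_lit 295) ln8_13_7_c10 ln8_13_7_c10_ok))) (M (nat_lit 297) (B (L (nat_lit 329) ln8_13_6_c10 ln8_13_6_c10_ok) (M (nat_lit 296) (B (L (nat_lit 393) ln8_9_4_c10 ln8_9_4_c10_ok) (L (nat_lit 265) ln8_12_6_c10 ln8_12_6_c10_ok))))))) (M (nat_lit 488) (B (M (nat_lit 487) (B (L (nat_lit 519) ln8_12_5_c10 ln8_12_5_c10_ok) (L (nat_lit 455) ln8_11_5_c10 ln8_11_5_c10_ok))) (M (nat_lit 520) (B (L (nat_lit 393) ln8_16_6_c10 ln8_16_6_c10_ok) (M (nat_lit 521) (B (L (nat_lit 553) ln8_13_4_c10 ln8_13_4_c10_ok) (L (nat_lit 489) ln8_12_4_c10 ln8_12_4_c10_ok)))))))))) (M (nat_lit 456) (B (M (nat_lit 455)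 (B (L (nat_lit 487) ln8_11_5_c10 ln8_11_5_c10_ok) (M (nat_lit 457) (B (L (nat_lit 454) ln6_14_2_c10 ln6_14_2_c10_ok) (L (nat_lit 489) ln8_11_4_c10 ln8_11_4_c10_ok))))) (B (M (nat_lit 359) (B (L (nat_lit 327) ln8_14_7_c10 ln8_14_7_c10_ok) (M (nat_lit 488) (B (L (nat_lit 391) ln8_15_7_c10 ln8_15_7_c10_ok) (M (nat_lit 487) (B (L (nat_lit 519) ln8_12_5_c10 ln8_12_5_c10_ok) (L (nat_lit 455) ln8_11_5_c10 ln8_11_5_c10_ok))))))) (M (nat_lit 488) (B (M (nat_lit 489) (B (L (nat_lit 521) ln8_12_4_c10 ln8_12_4_c10_ok) (L (nat_lit 457) ln8_11_4_c10 ln8_11_4_c10_ok))) (M (nat_lit 359) (B (L (nat_lit 391) ln8_15_7_c10 ln8_15_7_c10_ok) (L (nat_lit 327) ln8_14_7_c10 ln8_14_7_c10_ok))))))))))))) (B (M (nat_lit 456) (B (M (nat_lit 427) (B (L (nat_lit 455) ln11_13_1_c10 ln11_13_1_c10_ok) (L (nat_lit 391) ln11_13_3 ln11_13_3_ok))) (B (M (nat_lit 360) (B (M (nat_lit 457) (B (L (nat_lit 489) ln8_11_4_c10 ln8_11_4_c10_ok)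 (L (nat_lit 328) ln8_10_4_c10 ln8_10_4_c10_ok))) (M (nat_lit 359) (B (L (nat_lit 327) ln8_14_7_c10 ln8_14_7_c10_ok) (M (nat_lit 488) (B (L (nat_lit 391) ln8_15_7_c10 ln8_15_7_c10_ok) (M (nat_lit 487) (B (L (nat_lit 519) ln8_12_5_c10 ln8_12_5_c10_ok) (L (nat_lit 455) ln8_11_5_c10 ln8_11_5_c10_ok))))))))) (B (M (nat_lit 488) (B (M (nat_lit 391) (B (L (nat_lit 427) ln11_13_3 ln11_13_3_ok) (L (nat_lit 359) ln8_15_7_c10 ln8_15_7_c10_ok))) (M (nat_lit 520) (B (M (nat_lit 521) (B (L (nat_lit 553) ln8_13_4_c10 ln8_13_4_c10_ok) (L (nat_lit 489) ln8_12_4_c10 ln8_12_4_c10_ok))) (M (nat_lit 519) (B (L (nat_lit 551) ln8_13_5_c10 ln8_13_5_c10_ok) (L (nat_lit 487) ln8_12_5_c10 ln8_12_5_c10_ok))))))) (M (nat_lit 455) (B (L (nat_lit 427) ln11_13_1_c10 ln11_13_1_c10_ok) (M (nat_lit 454) (B (L (nat_lit 457) ln6_14_2_c10 ln6_14_2_c10_ok) (L (nat_lit 453) ln5_14_2_c10 ln5_14_2_c10_ok))))))))) (M (nat_lit 456) (B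 (M (nat_lit 455) (B (L (nat_lit 427) ln11_13_1_c10 ln11_13_1_c10_ok) (M (nat_lit 454) (B (L (nat_lit 457) ln6_14_2_c10 ln6_14_2_c10_ok) (L (nat_lit 453) ln5_14_2_c10 ln5_14_2_c10_ok))))) (B (M (nat_lit 488) (B (M (nat_lit 520) (B (L (nat_lit 393) ln8_16_6_c10 ln8_16_6_c10_ok) (M (nat_lit 521) (B (L (nat_lit 553) ln8_13_4_c10 ln8_13_4_c10_ok) (L (nat_lit 489) ln8_12_4_c10 ln8_12_4_c10_ok))))) (B (M (nat_lit 520) (B (L (nat_lit 393) ln8_16_6_c10 ln8_16_6_c10_ok) (M (nat_lit 519) (B (L (nat_lit 551) ln8_13_5_c10 ln8_13_5_c10_ok) (L (nat_lit 487) ln8_12_5_c10 ln8_12_5_c10_ok))))) (M (nat_lit 360) (B (M (nat_lit 489) (B (L (nat_lit 521) ln8_12_4_c10 ln8_12_4_c10_ok) (L (nat_lit 457) ln8_11_4_c10 ln8_11_4_c10_ok))) (M (nat_lit 487) (B (L (nat_lit 519) ln8_12_5_c10 ln8_12_5_c10_ok) (L (nat_lit 455) ln8_11_5_c10 ln8_11_5_c10_ok)))))))) (B (M (nat_lit 455) (B (L (nat_lit 427) ln11_13_1_c10 ln11_13_1_c10_ok)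 (M (nat_lit 487) (B (L (nat_lit 360) ln8_11_5_c10 ln8_11_5_c10_ok) (M (nat_lit 519) (B (L (nat_lit 488) ln8_12_5_c10 ln8_12_5_c10_ok) (L (nat_lit 551) ln7_17_6_c10 ln7_17_6_c10_ok))))))) (M (nat_lit 360) (B (M (nat_lit 457) (B (L (nat_lit 489) ln8_11_4_c10 ln8_11_4_c10_ok) (L (nat_lit 328) ln8_10_4_c10 ln8_10_4_c10_ok))) (B (M (nat_lit 328) (B (L (nat_lit 457) ln8_10_4_c10 ln8_10_4_c10_ok) (M (nat_lit 327) (B (L (nat_lit 359) ln8_14_7_c10 ln8_14_7_c10_ok) (L (nat_lit 295) ln8_13_7_c10 ln8_13_7_c10_ok))))) (B (M (nat_lit 328) (B (M (nat_lit 327) (B (L (nat_lit 359) ln8_14_7_c10 ln8_14_7_c10_ok) (L (nat_lit 295) ln8_13_7_c10 ln8_13_7_c10_ok))) (M (nat_lit 297) (B (L (nat_lit 329) ln8_13_6_c10 ln8_13_6_c10_ok) (M (nat_lit 296) (B (L (nat_lit 393) ln8_9_4_c10 ln8_9_4_c10_ok) (L (nat_lit 265) ln8_12_6_c10 ln8_12_6_c10_ok))))))) (M (nat_lit 488) (B (M (nat_lit 489) (B (L (nat_lit 521) ln8_12_4_c10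 ln8_12_4_c10_ok) (L (nat_lit 457) ln8_11_4_c10 ln8_11_4_c10_ok))) (M (nat_lit 520) (B (L (nat_lit 393) ln8_16_6_c10 ln8_16_6_c10_ok) (M (nat_lit 519) (B (L (nat_lit 551) ln8_13_5_c10 ln8_13_5_c10_ok) (L (nat_lit 487) ln8_12_5_c10 ln8_12_5_c10_ok))))))))))))))))))) (nat_lit 20839919904693236361007865009656479088805549285201202130586497225381475443893278772482817183946149193610266214248817219767709894472535900160) (nat_lit 36855101816911260676009585157986042840418733788474607708585466461455651760342515413488559319970721283941857872812403959388100198707426022218198531060949230217039183872) (nat_lit 36855101816911260676009585157986042840418733788474607708585466461455651760342515413488559319970721283941857872812403959388100198707426022218198531060949230217039183872) (by decide +kernel)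
theorem c10_s192 : Sem (nat_lit 20839919904693236361007865009656479088805549285201202130586497225381475443893278772482817183946149193610266214248817219767709894472535900160) (nat_lit 126633165605826663977847697343664183780196930912916041560072511702954816412455519573104607493423239027718908698619619515017740653818693698489708834068896118913637541740409782272) (nat_lit 126633165605826663977847697343664183780196930912916041560072511702954816412455519573104607493423239027718908698619619515017740653818693698489708834068896118913637541740409782272) :=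
  sem_of_chk (M (nat_lit 456) (B (M (nat_lit 455) (B (L (nat_lit 427) ln11_13_1_c10 ln11_13_1_c10_ok) (M (nat_lit 454) (B (L (nat_lit 457) ln6_14_2_c10 ln6_14_2_c10_ok) (L (nat_lit 453) ln5_14_2_c10 ln5_14_2_c10_ok))))) (B (M (nat_lit 488) (B (M (nat_lit 393) (B (L (nat_lit 520) ln8_16_6_c10 ln8_16_6_c10_ok) (M (nat_lit 361) (B (L (nat_lit 329) ln9_10_5_c10 ln9_10_5_c10_ok) (L (nat_lit 392) ln8_15_6_c10 ln8_15_6_c10_ok))))) (B (M (nat_lit 393) (B (L (nat_lit 520) ln8_16_6_c10 ln8_16_6_c10_ok) (M (nat_lit 361) (B (L (nat_lit 457) ln9_11_5_c10 ln9_11_5_c10_ok) (L (nat_lit 392) ln8_15_6_c10 ln8_15_6_c10_ok))))) (B (M (nat_lit 520) (B (L (nat_lit 393) ln8_16_6_c10 ln8_16_6_c10_ok) (M (nat_lit 552) (B (L (nat_lit 457) ln8_17_6_c10 ln8_17_6_c10_ok) (M (nat_lit 553) (B (L (nat_lit 521) ln8_13_4_c10 ln8_13_4_c10_ok) (L (nat_lit 585) ln8_14_4_c10 ln8_14_4_c10_ok))))))) (B (M (nat_lit 392) (B (M (nat_lit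 487) (B (L (nat_lit 519) ln8_12_5_c10 ln8_12_5_c10_ok) (M (nat_lit 360) (B (L (nat_lit 455) ln8_11_5_c10 ln8_11_5_c10_ok) (M (nat_lit 359) (B (L (nat_lit 327) ln8_14_7_c10 ln8_14_7_c10_ok) (L (nat_lit 391) ln8_15_7_c10 ln8_15_7_c10_ok))))))) (B (M (nat_lit 520) (B (M (nat_lit 519) (B (L (nat_lit 487) ln8_12_5_c10 ln8_12_5_c10_ok) (L (nat_lit 551) ln8_13_5_c10 ln8_13_5_c10_ok))) (M (nat_lit 553) (B (L (nat_lit 521) ln8_13_4_c10 ln8_13_4_c10_ok) (M (nat_lit 552) (B (L (nat_lit 457) ln8_17_6_c10 ln8_17_6_c10_ok) (L (nat_lit 585) ln8_14_4_c10 ln8_14_4_c10_ok))))))) (M (nat_lit 360) (B (M (nat_lit 359) (B (L (nat_lit 327) ln8_14_7_c10 ln8_14_7_c10_ok) (L (nat_lit 391) ln8_15_7_c10 ln8_15_7_c10_ok))) (M (nat_lit 328) (B (L (nat_lit 457) ln8_10_4_c10 ln8_10_4_c10_ok) (M (nat_lit 329) (B (L (nat_lit 297) ln8_13_6_c10 ln8_13_6_c10_ok) (L (nat_lit 361) ln8_14_6_c10 ln8_14_6_c10_ok)))))))))) (M (nat_lit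 392) (B (M (nat_lit 391) (B (L (nat_lit 359) ln8_15_7_c10 ln8_15_7_c10_ok) (M (nat_lit 393) (B (L (nat_lit 390) ln6_12_0_c10 ln6_12_0_c10_ok) (L (nat_lit 361) ln8_15_6_c10 ln8_15_6_c10_ok))))) (B (M (nat_lit 487) (B (L (nat_lit 519) ln8_12_5_c10 ln8_12_5_c10_ok) (M (nat_lit 360) (B (L (nat_lit 455) ln8_11_5_c10 ln8_11_5_c10_ok) (M (nat_lit 359) (B (L (nat_lit 327) ln8_14_7_c10 ln8_14_7_c10_ok) (L (nat_lit 391) ln8_15_7_c10 ln8_15_7_c10_ok))))))) (M (nat_lit 360) (B (M (nat_lit 361) (B (L (nat_lit 329) ln8_14_6_c10 ln8_14_6_c10_ok) (L (nat_lit 393) ln8_15_6_c10 ln8_15_6_c10_ok))) (M (nat_lit 487) (B (L (nat_lit 455) ln8_11_5_c10 ln8_11_5_c10_ok) (L (nat_lit 519) ln8_12_5_c10 ln8_12_5_c10_ok))))))))))))) (B (M (nat_lit 392) (B (M (nat_lit 427) (B (L (nat_lit 391) ln11_13_3 ln11_13_3_ok) (L (nat_lit 455) ln11_13_1_c10 ln11_13_1_c10_ok))) (B (M (nat_lit 488) (B (M (nat_lit 393) (B (L (nat_lit 361)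 ln8_15_6_c10 ln8_15_6_c10_ok) (L (nat_lit 520) ln8_16_6_c10 ln8_16_6_c10_ok))) (M (nat_lit 487) (B (L (nat_lit 519) ln8_12_5_c10 ln8_12_5_c10_ok) (M (nat_lit 360) (B (L (nat_lit 455) ln8_11_5_c10 ln8_11_5_c10_ok) (M (nat_lit 359) (B (L (nat_lit 327) ln8_14_7_c10 ln8_14_7_c10_ok) (L (nat_lit 391) ln8_15_7_c10 ln8_15_7_c10_ok))))))))) (B (M (nat_lit 360) (B (M (nat_lit 455) (B (L (nat_lit 427) ln11_13_1_c10 ln11_13_1_c10_ok) (L (nat_lit 487) ln8_11_5_c10 ln8_11_5_c10_ok))) (M (nat_lit 328) (B (M (nat_lit 329) (B (L (nat_lit 297) ln8_13_6_c10 ln8_13_6_c10_ok) (L (nat_lit 361) ln8_14_6_c10 ln8_14_6_c10_ok))) (M (nat_lit 327) (B (L (nat_lit 295) ln8_13_7_c10 ln8_13_7_c10_ok) (L (nat_lit 359) ln8_14_7_c10 ln8_14_7_c10_ok))))))) (M (nat_lit 391) (B (L (nat_lit 427) ln11_13_3 ln11_13_3_ok) (M (nat_lit 390) (B (L (nat_lit 393) ln6_12_0_c10 ln6_12_0_c10_ok) (L (nat_lit 389) ln5_12_0_c10 ln5_12_0_c10_ok)))))))))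 (M (nat_lit 392) (B (M (nat_lit 391) (B (L (nat_lit 427) ln11_13_3 ln11_13_3_ok) (M (nat_lit 390) (B (L (nat_lit 393) ln6_12_0_c10 ln6_12_0_c10_ok) (L (nat_lit 389) ln5_12_0_c10 ln5_12_0_c10_ok))))) (B (M (nat_lit 360) (B (M (nat_lit 328) (B (L (nat_lit 457) ln8_10_4_c10 ln8_10_4_c10_ok) (M (nat_lit 329) (B (L (nat_lit 297) ln8_13_6_c10 ln8_13_6_c10_ok) (L (nat_lit 361) ln8_14_6_c10 ln8_14_6_c10_ok))))) (B (M (nat_lit 328) (B (L (nat_lit 457) ln8_10_4_c10 ln8_10_4_c10_ok) (M (nat_lit 327) (B (L (nat_lit 295) ln8_13_7_c10 ln8_13_7_c10_ok) (L (nat_lit 359) ln8_14_7_c10 ln8_14_7_c10_ok))))) (M (nat_lit 488) (B (M (nat_lit 361) (B (L (nat_lit 329) ln8_14_6_c10 ln8_14_6_c10_ok) (L (nat_lit 393) ln8_15_6_c10 ln8_15_6_c10_ok))) (M (nat_lit 359) (B (L (nat_lit 327) ln8_14_7_c10 ln8_14_7_c10_ok) (L (nat_lit 391) ln8_15_7_c10 ln8_15_7_c10_ok)))))))) (B (M (nat_lit 391) (B (L (nat_lit 427) ln11_13_3 ln11_13_3_ok)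 (M (nat_lit 359) (B (L (nat_lit 488) ln8_15_7_c10 ln8_15_7_c10_ok) (M (nat_lit 327) (B (L (nat_lit 360) ln8_14_7_c10 ln8_14_7_c10_ok) (L (nat_lit 295) ln7_9_4_c10 ln7_9_4_c10_ok))))))) (M (nat_lit 488) (B (M (nat_lit 393) (B (L (nat_lit 361) ln8_15_6_c10 ln8_15_6_c10_ok) (L (nat_lit 520) ln8_16_6_c10 ln8_16_6_c10_ok))) (B (M (nat_lit 520) (B (L (nat_lit 393) ln8_16_6_c10 ln8_16_6_c10_ok) (M (nat_lit 519) (B (L (nat_lit 487) ln8_12_5_c10 ln8_12_5_c10_ok) (L (nat_lit 551) ln8_13_5_c10 ln8_13_5_c10_ok))))) (B (M (nat_lit 520) (B (M (nat_lit 519) (B (L (nat_lit 487) ln8_12_5_c10 ln8_12_5_c10_ok) (L (nat_lit 551) ln8_13_5_c10 ln8_13_5_c10_ok))) (M (nat_lit 553) (B (L (nat_lit 521) ln8_13_4_c10 ln8_13_4_c10_ok) (M (nat_lit 552) (B (L (nat_lit 457) ln8_17_6_c10 ln8_17_6_c10_ok) (L (nat_lit 585) ln8_14_4_c10 ln8_14_4_c10_ok))))))) (M (nat_lit 360) (B (M (nat_lit 361) (B (L (nat_lit 329) ln8_14_6_c10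 ln8_14_6_c10_ok) (L (nat_lit 393) ln8_15_6_c10 ln8_15_6_c10_ok))) (M (nat_lit 328) (B (L (nat_lit 457) ln8_10_4_c10 ln8_10_4_c10_ok) (M (nat_lit 327) (B (L (nat_lit 295) ln8_13_7_c10 ln8_13_7_c10_ok) (L (nat_lit 359) ln8_14_7_c10 ln8_14_7_c10_ok))))))))))))))))))) (nat_lit 20839919904693236361007865009656479088805549285201202130586497225381475443893278772482817183946149193610266214248817219767709894472535900160) (nat_lit 126633165605826663977847697343664183780196930912916041560072511702954816412455519573104607493423239027718908698619619515017740653818693698489708834068896118913637541740409782272) (nat_lit 126633165605826663977847697343664183780196930912916041560072511702954816412455519573104607493423239027718908698619619515017740653818693698489708834068896118913637541740409782272) (by decide +kernel)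
theorem c10_s198 : Sem (nat_lit 20839919904714897842993183875746935449619167126634299295237870792374994815616830501450048634126148993657954804702703088603345859877449760768) (nat_lit 8580997077161181218895113022080993658868119902424760384880955889228821049972973770744679421569313672818077017389195633378285607711089077793818068010569564160) (nat_lit 8580997077161181218895113022080993658868119902424760384880955889228821049972973770744679421569313672818077017389195633378285607711089077793818068010569564160) :=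
  sem_of_chk (M (nat_lit 422) (B (M (nat_lit 454) (B (L (nat_lit 453) ln9_13_1_c10 ln9_13_1_c10_ok) (M (nat_lit 458) (B (L (nat_lit 457) ln6_13_0_c10 ln6_13_0_c10_ok) (L (nat_lit 459) ln7_13_0 ln7_13_0_ok))))) (B (M (nat_lit 457) (B (L (nat_lit 458) ln6_13_0_c10 ln6_13_0_c10_ok) (M (nat_lit 421) (B (L (nat_lit 456) ln5_13_0_c10 ln5_13_0_c10_ok) (M (nat_lit 453) (B (L (nat_lit 454) ln9_13_1_c10 ln9_13_1_c10_ok) (L (nat_lit 452) ln8_13_1_c10 ln8_13_1_c10_ok))))))) (B (M (nat_lit 421) (B (M (nat_lit 453) (B (L (nat_lit 454) ln9_13_1_c10 ln9_13_1_c10_ok) (L (nat_lit 452) ln8_13_1_c10 ln8_13_1_c10_ok))) (M (nat_lit 420) (B (M (nat_lit 392) (B (L (nat_lit 393) ln5_13_2_c10 ln5_13_2_c10_ok) (L (nat_lit 391) ln4_13_2_c10 ln4_13_2_c10_ok))) (M (nat_lit 456) (B (L (nat_lit 457) ln5_13_0_c10 ln5_13_0_c10_ok) (L (nat_lit 455) ln4_13_0_c10 ln4_13_0_c10_ok))))))) (B (M (nat_lit 455) (B (L (nat_lit 454) ln10_13_1_c10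 ln10_13_1_c10_ok) (M (nat_lit 392) (B (M (nat_lit 360) (B (L (nat_lit 328) ln8_10_5_c10 ln8_10_5_c10_ok) (M (nat_lit 487) (B (L (nat_lit 456) ln8_11_5_c10 ln8_11_5_c10_ok) (L (nat_lit 519) ln7_16_6_c10 ln7_16_6_c10_ok))))) (B (M (nat_lit 487) (B (L (nat_lit 519) ln7_16_6_c10 ln7_16_6_c10_ok) (M (nat_lit 360) (B (L (nat_lit 456) ln8_11_5_c10 ln8_11_5_c10_ok) (L (nat_lit 391) ln7_15_6_c10 ln7_15_6_c10_ok))))) (B (M (nat_lit 421) (B (L (nat_lit 393) ln5_13_2_c10 ln5_13_2_c10_ok) (M (nat_lit 420) (B (L (nat_lit 391) ln4_13_2_c10 ln4_13_2_c10_ok) (L (nat_lit 456) ln4_13_0_c10 ln4_13_0_c10_ok))))) (M (nat_lit 360) (B (L (nat_lit 328) ln8_10_5_c10 ln8_10_5_c10_ok) (M (nat_lit 487) (B (L (nat_lit 391) ln7_15_6_c10 ln7_15_6_c10_ok) (L (nat_lit 519) ln7_16_6_c10 ln7_16_6_c10_ok))))))))))) (M (nat_lit 392) (B (M (nat_lit 421) (B (L (nat_lit 393) ln5_13_2_c10 ln5_13_2_c10_ok) (M (nat_lit 457) (B (L (nat_lit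 458) ln6_13_0_c10 ln6_13_0_c10_ok) (L (nat_lit 456) ln5_13_0_c10 ln5_13_0_c10_ok))))) (B (M (nat_lit 421) (B (L (nat_lit 393) ln5_13_2_c10 ln5_13_2_c10_ok) (M (nat_lit 420) (B (L (nat_lit 391) ln4_13_2_c10 ln4_13_2_c10_ok) (M (nat_lit 456) (B (L (nat_lit 457) ln5_13_0_c10 ln5_13_0_c10_ok) (L (nat_lit 455) ln4_13_0_c10 ln4_13_0_c10_ok))))))) (B (M (nat_lit 457) (B (L (nat_lit 458) ln6_13_0_c10 ln6_13_0_c10_ok) (M (nat_lit 489) (B (L (nat_lit 521) ln9_16_7 ln9_16_7_ok) (M (nat_lit 360) (B (L (nat_lit 328) ln8_10_4_c10 ln8_10_4_c10_ok) (L (nat_lit 456) ln8_11_4_c10 ln8_11_4_c10_ok))))))) (B (M (nat_lit 455) (B (M (nat_lit 421) (B (L (nat_lit 393) ln5_13_2_c10 ln5_13_2_c10_ok) (M (nat_lit 420) (B (L (nat_lit 391) ln4_13_2_c10 ln4_13_2_c10_ok) (L (nat_lit 456) ln4_13_0_c10 ln4_13_0_c10_ok))))) (B (M (nat_lit 360) (B (L (nat_lit 328) ln8_10_5_c10 ln8_10_5_c10_ok) (M (nat_lit 487) (B (L (nat_lit 391)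 ln7_15_6_c10 ln7_15_6_c10_ok) (L (nat_lit 519) ln7_16_6_c10 ln7_16_6_c10_ok))))) (M (nat_lit 360) (B (L (nat_lit 328) ln8_10_5_c10 ln8_10_5_c10_ok) (M (nat_lit 487) (B (L (nat_lit 456) ln8_11_5_c10 ln8_11_5_c10_ok) (L (nat_lit 519) ln7_16_6_c10 ln7_16_6_c10_ok)))))))) (M (nat_lit 393) (B (L (nat_lit 421) ln5_13_2_c10 ln5_13_2_c10_ok) (M (nat_lit 457) (B (L (nat_lit 458) ln6_13_0_c10 ln6_13_0_c10_ok) (M (nat_lit 360) (B (L (nat_lit 489) ln9_15_7 ln9_15_7_ok) (L (nat_lit 328) ln8_10_4_c10 ln8_10_4_c10_ok))))))))))))))))) (nat_lit 20839919904714897842993183875746935449619167126634299295237870792374994815616830501450048634126148993657954804702703088603345859877449760768) (nat_lit 8580997077161181218895113022080993658868119902424760384880955889228821049972973770744679421569313672818077017389195633378285607711089077793818068010569564160) (nat_lit 8580997077161181218895113022080993658868119902424760384880955889228821049972973770744679421569313672818077017389195633378285607711089077793818068010569564160)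 (by decide +kernel)
noncomputable def c10_d56 : Cert := (B (M (nat_lit 423) (B (M (nat_lit 394) (B (L (nat_lit 395) ln7_13_2 ln7_13_2_ok) (M (nat_lit 422) (B (L (nat_lit 393) ln6_13_2_c10 ln6_13_2_c10_ok) (M (nat_lit 458) (B (L (nat_lit 459) ln7_13_0 ln7_13_0_ok) (L (nat_lit 457) ln6_13_0_c10 ln6_13_0_c10_ok))))))) (B (M (nat_lit 422) (B (M (nat_lit 458) (B (L (nat_lit 459) ln7_13_0 ln7_13_0_ok) (L (nat_lit 457) ln6_13_0_c10 ln6_13_0_c10_ok))) (M (nat_lit 454) (B (L (nat_lit 455) ln10_13_1_c10 ln10_13_1_c10_ok) (L (nat_lit 453) ln9_13_1_c10 ln9_13_1_c10_ok))))) (B (M (nat_lit 422) (B (M (nat_lit 394) (B (L (nat_lit 395) ln7_13_2 ln7_13_2_ok) (L (nat_lit 393) ln6_13_2_c10 ln6_13_2_c10_ok))) (M (nat_lit 454) (B (L (nat_lit 455) ln10_13_1_c10 ln10_13_1_c10_ok) (L (nat_lit 453) ln9_13_1_c10 ln9_13_1_c10_ok))))) (M (nat_lit 427) (B (L (nat_lit 459) ln8_13_0 ln8_13_0_ok) (M (nat_lit 455) (B (L (nat_lit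 456) ln11_13_1_c10 ln11_13_1_c10_ok) (L (nat_lit 454) ln10_13_1_c10 ln10_13_1_c10_ok))))))))) (B (M (nat_lit 392) (B (M (nat_lit 391) (B (L (nat_lit 427) ln11_13_3 ln11_13_3_ok) (M (nat_lit 390) (B (L (nat_lit 393) ln6_12_0_c10 ln6_12_0_c10_ok) (L (nat_lit 389) ln5_12_0_c10 ln5_12_0_c10_ok))))) (B (M (nat_lit 360) (B (M (nat_lit 457) (B (L (nat_lit 328) ln8_10_4_c10 ln8_10_4_c10_ok) (M (nat_lit 489) (B (L (nat_lit 393) ln9_15_7 ln9_15_7_ok) (L (nat_lit 521) ln9_16_7 ln9_16_7_ok))))) (B (M (nat_lit 457) (B (L (nat_lit 328) ln8_10_4_c10 ln8_10_4_c10_ok) (M (nat_lit 489) (B (L (nat_lit 521) ln9_16_7 ln9_16_7_ok) (L (nat_lit 456) ln8_11_4_c10 ln8_11_4_c10_ok))))) (B (M (nat_lit 328) (B (M (nat_lit 296) (B (L (nat_lit 393) ln8_9_4_c10 ln8_9_4_c10_ok) (M (nat_lit 297) (B (L (nat_lit 265) ln8_12_6_c10 ln8_12_6_c10_ok) (L (nat_lit 329) ln8_13_6_c10 ln8_13_6_c10_ok))))) (B (M (nat_lit 296) (B (L (nat_lit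 393) ln8_9_4_c10 ln8_9_4_c10_ok) (M (nat_lit 295) (B (L (nat_lit 263) ln8_12_7_c10 ln8_12_7_c10_ok) (L (nat_lit 327) ln8_13_7_c10 ln8_13_7_c10_ok))))) (M (nat_lit 456) (B (M (nat_lit 329) (B (L (nat_lit 297) ln8_13_6_c10 ln8_13_6_c10_ok) (L (nat_lit 361) ln8_14_6_c10 ln8_14_6_c10_ok))) (M (nat_lit 327) (B (L (nat_lit 295) ln8_13_7_c10 ln8_13_7_c10_ok) (L (nat_lit 359) ln8_14_7_c10 ln8_14_7_c10_ok)))))))) (M (nat_lit 456) (B (M (nat_lit 457) (B (L (nat_lit 489) ln8_11_4_c10 ln8_11_4_c10_ok) (M (nat_lit 455) (B (L (nat_lit 454) ln6_14_2_c10 ln6_14_2_c10_ok) (L (nat_lit 487) ln8_11_5_c10 ln8_11_5_c10_ok))))) (M (nat_lit 488) (B (M (nat_lit 361) (B (L (nat_lit 329) ln8_14_6_c10 ln8_14_6_c10_ok) (L (nat_lit 393) ln8_15_6_c10 ln8_15_6_c10_ok))) (M (nat_lit 359) (B (L (nat_lit 327) ln8_14_7_c10 ln8_14_7_c10_ok) (L (nat_lit 391) ln8_15_7_c10 ln8_15_7_c10_ok))))))))))) (B (M (nat_lit 456) (B (M (nat_lit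 427) (B (L (nat_lit 391) ln11_13_3 ln11_13_3_ok) (L (nat_lit 455) ln11_13_1_c10 ln11_13_1_c10_ok))) (B (M (nat_lit 360) (B (M (nat_lit 457) (B (L (nat_lit 328) ln8_10_4_c10 ln8_10_4_c10_ok) (L (nat_lit 489) ln8_11_4_c10 ln8_11_4_c10_ok))) (M (nat_lit 488) (B (M (nat_lit 359) (B (L (nat_lit 327) ln8_14_7_c10 ln8_14_7_c10_ok) (L (nat_lit 391) ln8_15_7_c10 ln8_15_7_c10_ok))) (M (nat_lit 487) (B (L (nat_lit 455) ln8_11_5_c10 ln8_11_5_c10_ok) (L (nat_lit 519) ln8_12_5_c10 ln8_12_5_c10_ok))))))) (B (M (nat_lit 455) (B (L (nat_lit 427) ln11_13_1_c10 ln11_13_1_c10_ok) (M (nat_lit 454) (B (L (nat_lit 457) ln6_14_2_c10 ln6_14_2_c10_ok) (L (nat_lit 453) ln5_14_2_c10 ln5_14_2_c10_ok))))) (M (nat_lit 360) (B (M (nat_lit 457) (B (L (nat_lit 328) ln8_10_4_c10 ln8_10_4_c10_ok) (L (nat_lit 489) ln8_11_4_c10 ln8_11_4_c10_ok))) (M (nat_lit 359) (B (L (nat_lit 327) ln8_14_7_c10 ln8_14_7_c10_ok) (M (nat_lit 391)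 (B (L (nat_lit 427) ln11_13_3 ln11_13_3_ok) (L (nat_lit 488) ln8_15_7_c10 ln8_15_7_c10_ok))))))))))) (M (nat_lit 456) (B (M (nat_lit 455) (B (L (nat_lit 427) ln11_13_1_c10 ln11_13_1_c10_ok) (M (nat_lit 454) (B (L (nat_lit 457) ln6_14_2_c10 ln6_14_2_c10_ok) (L (nat_lit 453) ln5_14_2_c10 ln5_14_2_c10_ok))))) (B (M (nat_lit 360) (B (M (nat_lit 457) (B (L (nat_lit 328) ln8_10_4_c10 ln8_10_4_c10_ok) (L (nat_lit 489) ln8_11_4_c10 ln8_11_4_c10_ok))) (B (M (nat_lit 328) (B (M (nat_lit 329) (B (L (nat_lit 297) ln8_13_6_c10 ln8_13_6_c10_ok) (L (nat_lit 361) ln8_14_6_c10 ln8_14_6_c10_ok))) (M (nat_lit 327) (B (L (nat_lit 295) ln8_13_7_c10 ln8_13_7_c10_ok) (L (nat_lit 359) ln8_14_7_c10 ln8_14_7_c10_ok))))) (M (nat_lit 457) (B (L (nat_lit 489) ln8_11_4_c10 ln8_11_4_c10_ok) (M (nat_lit 455) (B (L (nat_lit 454) ln6_14_2_c10 ln6_14_2_c10_ok) (L (nat_lit 487) ln8_11_5_c10 ln8_11_5_c10_ok)))))))) (B (M (nat_lit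 360) (B (M (nat_lit 455) (B (L (nat_lit 427) ln11_13_1_c10 ln11_13_1_c10_ok) (L (nat_lit 487) ln8_11_5_c10 ln8_11_5_c10_ok))) (M (nat_lit 328) (B (M (nat_lit 329) (B (L (nat_lit 297) ln8_13_6_c10 ln8_13_6_c10_ok) (L (nat_lit 361) ln8_14_6_c10 ln8_14_6_c10_ok))) (M (nat_lit 327) (B (L (nat_lit 295) ln8_13_7_c10 ln8_13_7_c10_ok) (L (nat_lit 359) ln8_14_7_c10 ln8_14_7_c10_ok))))))) (M (nat_lit 360) (B (M (nat_lit 457) (B (L (nat_lit 328) ln8_10_4_c10 ln8_10_4_c10_ok) (L (nat_lit 489) ln8_11_4_c10 ln8_11_4_c10_ok))) (B (M (nat_lit 328) (B (M (nat_lit 329) (B (L (nat_lit 297) ln8_13_6_c10 ln8_13_6_c10_ok) (L (nat_lit 361) ln8_14_6_c10 ln8_14_6_c10_ok))) (M (nat_lit 327) (B (L (nat_lit 295) ln8_13_7_c10 ln8_13_7_c10_ok) (L (nat_lit 359) ln8_14_7_c10 ln8_14_7_c10_ok))))) (M (nat_lit 488) (B (M (nat_lit 361) (B (L (nat_lit 329) ln8_14_6_c10 ln8_14_6_c10_ok) (L (nat_lit 393) ln8_15_6_c10 ln8_15_6_c10_ok)))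 (M (nat_lit 489) (B (L (nat_lit 457) ln8_11_4_c10 ln8_11_4_c10_ok) (L (nat_lit 521) ln8_12_4_c10 ln8_12_4_c10_ok)))))))))))))))) (M (nat_lit 423) (B (M (nat_lit 394) (B (L (nat_lit 395) ln7_13_2 ln7_13_2_ok) (M (nat_lit 422) (B (L (nat_lit 393) ln6_13_2_c10 ln6_13_2_c10_ok) (M (nat_lit 458) (B (L (nat_lit 459) ln7_13_0 ln7_13_0_ok) (L (nat_lit 457) ln6_13_0_c10 ln6_13_0_c10_ok))))))) (B (M (nat_lit 422) (B (M (nat_lit 458) (B (L (nat_lit 459) ln7_13_0 ln7_13_0_ok) (L (nat_lit 457) ln6_13_0_c10 ln6_13_0_c10_ok))) (M (nat_lit 390) (B (L (nat_lit 391) ln10_13_3_c10 ln10_13_3_c10_ok) (L (nat_lit 389) ln9_13_3_c10 ln9_13_3_c10_ok))))) (B (M (nat_lit 422) (B (M (nat_lit 394) (B (L (nat_lit 395) ln7_13_2 ln7_13_2_ok) (L (nat_lit 393) ln6_13_2_c10 ln6_13_2_c10_ok))) (M (nat_lit 390) (B (L (nat_lit 391) ln10_13_3_c10 ln10_13_3_c10_ok) (L (nat_lit 389) ln9_13_3_c10 ln9_13_3_c10_ok))))) (M (nat_lit 427)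 (B (L (nat_lit 459) ln8_13_0 ln8_13_0_ok) (M (nat_lit 391) (B (L (nat_lit 392) ln11_13_3 ln11_13_3_ok) (L (nat_lit 390) ln10_13_3_c10 ln10_13_3_c10_ok)))))))))))
theorem c10_s208 : Sem (nat_lit 20839919904649913397037227277475566367178313602335007801283750091394436700446175314548354283586149593514889033341045482096437963662708178944) (nat_lit 12013395908025653705255328013670094550182488382413232063953026043649691217183922692240069386457706308502182398952578817530015760810858971604532958394314653696) (nat_lit 12013395908025653705255328013670094550182488382413232063953026043649691217183922692240069386457706308502182398952578817530015760810858971604532958394314653696) :=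
  sem_of_chk (M (nat_lit 424) (B (M (nat_lit 423) (B (M (nat_lit 394) (B (L (nat_lit 395) ln7_13_2 ln7_13_2_ok) (M (nat_lit 422) (B (L (nat_lit 393) ln6_13_2_c10 ln6_13_2_c10_ok) (M (nat_lit 458) (B (L (nat_lit 459) ln7_13_0 ln7_13_0_ok) (L (nat_lit 457) ln6_13_0_c10 ln6_13_0_c10_ok))))))) (M (nat_lit 427) (B (M (nat_lit 391) (B (L (nat_lit 392) ln11_13_3 ln11_13_3_ok) (L (nat_lit 390) ln10_13_3_c10 ln10_13_3_c10_ok))) (M (nat_lit 455) (B (L (nat_lit 456) ln11_13_1_c10 ln11_13_1_c10_ok) (L (nat_lit 454) ln10_13_1_c10 ln10_13_1_c10_ok))))))) (B (M (nat_lit 423) (B (M (nat_lit 422) (B (M (nat_lit 458) (B (L (nat_lit 459) ln7_13_0 ln7_13_0_ok) (L (nat_lit 457) ln6_13_0_c10 ln6_13_0_c10_ok))) (M (nat_lit 390) (B (L (nat_lit 391) ln10_13_3_c10 ln10_13_3_c10_ok) (L (nat_lit 389) ln9_13_3_c10 ln9_13_3_c10_ok))))) (B (M (nat_lit 422) (B (M (nat_lit 390) (B (L (nat_lit 391) ln10_13_3_c10 ln10_13_3_c10_ok)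 (L (nat_lit 389) ln9_13_3_c10 ln9_13_3_c10_ok))) (M (nat_lit 454) (B (L (nat_lit 455) ln10_13_1_c10 ln10_13_1_c10_ok) (L (nat_lit 453) ln9_13_1_c10 ln9_13_1_c10_ok))))) (B (M (nat_lit 422) (B (M (nat_lit 458) (B (L (nat_lit 459) ln7_13_0 ln7_13_0_ok) (L (nat_lit 457) ln6_13_0_c10 ln6_13_0_c10_ok))) (M (nat_lit 454) (B (L (nat_lit 455) ln10_13_1_c10 ln10_13_1_c10_ok) (L (nat_lit 453) ln9_13_1_c10 ln9_13_1_c10_ok))))) (M (nat_lit 427) (B (M (nat_lit 391) (B (L (nat_lit 392) ln11_13_3 ln11_13_3_ok) (L (nat_lit 390) ln10_13_3_c10 ln10_13_3_c10_ok))) (M (nat_lit 455) (B (L (nat_lit 456) ln11_13_1_c10 ln11_13_1_c10_ok) (L (nat_lit 454) ln10_13_1_c10 ln10_13_1_c10_ok))))))))) (B (M (nat_lit 423) (B (M (nat_lit 394) (B (L (nat_lit 395) ln7_13_2 ln7_13_2_ok) (M (nat_lit 422) (B (L (nat_lit 393) ln6_13_2_c10 ln6_13_2_c10_ok) (M (nat_lit 458) (B (L (nat_lit 459) ln7_13_0 ln7_13_0_ok) (L (nat_lit 457) ln6_13_0_c10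 ln6_13_0_c10_ok))))))) (B (M (nat_lit 422) (B (M (nat_lit 458) (B (L (nat_lit 459) ln7_13_0 ln7_13_0_ok) (L (nat_lit 457) ln6_13_0_c10 ln6_13_0_c10_ok))) (M (nat_lit 390) (B (L (nat_lit 391) ln10_13_3_c10 ln10_13_3_c10_ok) (L (nat_lit 389) ln9_13_3_c10 ln9_13_3_c10_ok))))) (B (M (nat_lit 422) (B (M (nat_lit 394) (B (L (nat_lit 395) ln7_13_2 ln7_13_2_ok) (L (nat_lit 393) ln6_13_2_c10 ln6_13_2_c10_ok))) (M (nat_lit 390) (B (L (nat_lit 391) ln10_13_3_c10 ln10_13_3_c10_ok) (L (nat_lit 389) ln9_13_3_c10 ln9_13_3_c10_ok))))) (M (nat_lit 391) (B (L (nat_lit 390) ln10_13_3_c10 ln10_13_3_c10_ok) (M (nat_lit 455) (B (L (nat_lit 454) ln10_13_1_c10 ln10_13_1_c10_ok) (M (nat_lit 359) (B (M (nat_lit 456) (B (L (nat_lit 327) ln7_10_4_c10 ln7_10_4_c10_ok) (L (nat_lit 488) ln7_11_4_c10 ln7_11_4_c10_ok))) (B (M (nat_lit 327) (B (M (nat_lit 328) (B (L (nat_lit 296) ln7_13_6_c10 ln7_13_6_c10_ok) (L (nat_lit 360)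 ln7_14_6_c10 ln7_14_6_c10_ok))) (M (nat_lit 326) (B (L (nat_lit 294) ln7_13_7_c10 ln7_13_7_c10_ok) (L (nat_lit 358) ln7_14_7_c10 ln7_14_7_c10_ok))))) (M (nat_lit 487) (B (M (nat_lit 360) (B (L (nat_lit 328) ln7_14_6_c10 ln7_14_6_c10_ok) (L (nat_lit 392) ln7_15_6_c10 ln7_15_6_c10_ok))) (M (nat_lit 488) (B (L (nat_lit 456) ln7_11_4_c10 ln7_11_4_c10_ok) (L (nat_lit 520) ln7_12_4_c10 ln7_12_4_c10_ok)))))))))))))))) (B (M (nat_lit 423) (B (M (nat_lit 422) (B (M (nat_lit 394) (B (L (nat_lit 395) ln7_13_2 ln7_13_2_ok) (L (nat_lit 393) ln6_13_2_c10 ln6_13_2_c10_ok))) (M (nat_lit 454) (B (L (nat_lit 455) ln10_13_1_c10 ln10_13_1_c10_ok) (L (nat_lit 453) ln9_13_1_c10 ln9_13_1_c10_ok))))) (B (M (nat_lit 422) (B (M (nat_lit 390) (B (L (nat_lit 391) ln10_13_3_c10 ln10_13_3_c10_ok) (L (nat_lit 389) ln9_13_3_c10 ln9_13_3_c10_ok))) (M (nat_lit 454) (B (L (nat_lit 455) ln10_13_1_c10 ln10_13_1_c10_ok) (L (nat_lit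 453) ln9_13_1_c10 ln9_13_1_c10_ok))))) (B (M (nat_lit 422) (B (M (nat_lit 394) (B (L (nat_lit 395) ln7_13_2 ln7_13_2_ok) (L (nat_lit 393) ln6_13_2_c10 ln6_13_2_c10_ok))) (M (nat_lit 390) (B (L (nat_lit 391) ln10_13_3_c10 ln10_13_3_c10_ok) (L (nat_lit 389) ln9_13_3_c10 ln9_13_3_c10_ok))))) (M (nat_lit 427) (B (M (nat_lit 391) (B (L (nat_lit 392) ln11_13_3 ln11_13_3_ok) (L (nat_lit 390) ln10_13_3_c10 ln10_13_3_c10_ok))) (M (nat_lit 455) (B (L (nat_lit 456) ln11_13_1_c10 ln11_13_1_c10_ok) (L (nat_lit 454) ln10_13_1_c10 ln10_13_1_c10_ok))))))))) (B (M (nat_lit 423) (B (M (nat_lit 422) (B (M (nat_lit 394) (B (L (nat_lit 395) ln7_13_2 ln7_13_2_ok) (L (nat_lit 393) ln6_13_2_c10 ln6_13_2_c10_ok))) (M (nat_lit 390) (B (L (nat_lit 391) ln10_13_3_c10 ln10_13_3_c10_ok) (L (nat_lit 389) ln9_13_3_c10 ln9_13_3_c10_ok))))) (B (M (nat_lit 422) (B (M (nat_lit 390) (B (L (nat_lit 391) ln10_13_3_c10 ln10_13_3_c10_ok)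 (L (nat_lit 389) ln9_13_3_c10 ln9_13_3_c10_ok))) (M (nat_lit 454) (B (L (nat_lit 455) ln10_13_1_c10 ln10_13_1_c10_ok) (L (nat_lit 453) ln9_13_1_c10 ln9_13_1_c10_ok))))) (B (M (nat_lit 422) (B (M (nat_lit 394) (B (L (nat_lit 395) ln7_13_2 ln7_13_2_ok) (L (nat_lit 393) ln6_13_2_c10 ln6_13_2_c10_ok))) (M (nat_lit 454) (B (L (nat_lit 455) ln10_13_1_c10 ln10_13_1_c10_ok) (L (nat_lit 453) ln9_13_1_c10 ln9_13_1_c10_ok))))) (M (nat_lit 427) (B (L (nat_lit 459) ln8_13_0 ln8_13_0_ok) (M (nat_lit 455) (B (L (nat_lit 456) ln11_13_1_c10 ln11_13_1_c10_ok) (L (nat_lit 454) ln10_13_1_c10 ln10_13_1_c10_ok))))))))) (B (M (nat_lit 423) (B (M (nat_lit 427) (B (L (nat_lit 459) ln8_13_0 ln8_13_0_ok) (M (nat_lit 391) (B (L (nat_lit 392) ln11_13_3 ln11_13_3_ok) (L (nat_lit 390) ln10_13_3_c10 ln10_13_3_c10_ok))))) (M (nat_lit 422) (B (M (nat_lit 394) (B (L (nat_lit 395) ln7_13_2 ln7_13_2_ok) (L (nat_lit 393) ln6_13_2_c10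 ln6_13_2_c10_ok))) (M (nat_lit 454) (B (L (nat_lit 455) ln10_13_1_c10 ln10_13_1_c10_ok) (L (nat_lit 453) ln9_13_1_c10 ln9_13_1_c10_ok))))))) c10_d56))))))) (nat_lit 20839919904649913397037227277475566367178313602335007801283750091394436700446175314548354283586149593514889033341045482096437963662708178944) (nat_lit 12013395908025653705255328013670094550182488382413232063953026043649691217183922692240069386457706308502182398952578817530015760810858971604532958394314653696) (nat_lit 12013395908025653705255328013670094550182488382413232063953026043649691217183922692240069386457706308502182398952578817530015760810858971604532958394314653696) (by decide +kernel)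
noncomputable def c10_d57 : Cert := (B (M (nat_lit 455) (B (M (nat_lit 454) (B (L (nat_lit 457) ln6_14_2_c10 ln6_14_2_c10_ok) (L (nat_lit 453) ln5_14_2_c10 ln5_14_2_c10_ok))) (B (M (nat_lit 488) (B (M (nat_lit 393) (B (L (nat_lit 520) ln8_16_6_c10 ln8_16_6_c10_ok) (M (nat_lit 392) (B (L (nat_lit 361) ln8_15_6_c10 ln8_15_6_c10_ok) (M (nat_lit 487) (B (L (nat_lit 519) ln8_12_5_c10 ln8_12_5_c10_ok) (L (nat_lit 360) ln8_11_5_c10 ln8_11_5_c10_ok))))))) (B (M (nat_lit 489) (B (M (nat_lit 392) (B (L (nat_lit 521) ln8_12_4_c10 ln8_12_4_c10_ok) (M (nat_lit 487) (B (L (nat_lit 519) ln8_12_5_c10 ln8_12_5_c10_ok) (L (nat_lit 360) ln8_11_5_c10 ln8_11_5_c10_ok))))) (B (M (nat_lit 454) (B (L (nat_lit 453) ln5_14_0_c10 ln5_14_0_c10_ok) (M (nat_lit 490) (B (L (nat_lit 491) ln11_15_3 ln11_15_3_ok) (L (nat_lit 487) ln10_15_3 ln10_15_3_ok))))) (M (nat_lit 521) (B (L (nat_lit 392) ln8_12_4_c10 ln8_12_4_c10_ok) (M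 (nat_lit 553) (B (L (nat_lit 585) ln9_18_7_c10 ln9_18_7_c10_ok) (L (nat_lit 520) ln8_13_4_c10 ln8_13_4_c10_ok)))))))) (B (M (nat_lit 392) (B (M (nat_lit 487) (B (L (nat_lit 519) ln8_12_5_c10 ln8_12_5_c10_ok) (L (nat_lit 360) ln8_11_5_c10 ln8_11_5_c10_ok))) (M (nat_lit 393) (B (L (nat_lit 361) ln8_15_6_c10 ln8_15_6_c10_ok) (M (nat_lit 391) (B (L (nat_lit 390) ln6_12_0_c10 ln6_12_0_c10_ok) (L (nat_lit 359) ln8_15_7_c10 ln8_15_7_c10_ok))))))) (B (M (nat_lit 520) (B (L (nat_lit 393) ln8_16_6_c10 ln8_16_6_c10_ok) (M (nat_lit 552) (B (M (nat_lit 553) (B (L (nat_lit 585) ln8_14_4_c10 ln8_14_4_c10_ok) (L (nat_lit 521) ln8_13_4_c10 ln8_13_4_c10_ok))) (M (nat_lit 551) (B (L (nat_lit 583) ln8_14_5_c10 ln8_14_5_c10_ok) (L (nat_lit 519) ln8_13_5_c10 ln8_13_5_c10_ok))))))) (M (nat_lit 393) (B (L (nat_lit 520) ln8_16_6_c10 ln8_16_6_c10_ok) (M (nat_lit 392) (B (L (nat_lit 361) ln8_15_6_c10 ln8_15_6_c10_ok)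 (M (nat_lit 391) (B (L (nat_lit 390) ln6_12_0_c10 ln6_12_0_c10_ok) (L (nat_lit 359) ln8_15_7_c10 ln8_15_7_c10_ok)))))))))))) (M (nat_lit 488) (B (M (nat_lit 393) (B (L (nat_lit 520) ln8_16_6_c10 ln8_16_6_c10_ok) (M (nat_lit 361) (B (L (nat_lit 457) ln9_11_5_c10 ln9_11_5_c10_ok) (L (nat_lit 392) ln8_15_6_c10 ln8_15_6_c10_ok))))) (B (M (nat_lit 393) (B (L (nat_lit 520) ln8_16_6_c10 ln8_16_6_c10_ok) (M (nat_lit 392) (B (L (nat_lit 361) ln8_15_6_c10 ln8_15_6_c10_ok) (M (nat_lit 487) (B (L (nat_lit 519) ln8_12_5_c10 ln8_12_5_c10_ok) (L (nat_lit 360) ln8_11_5_c10 ln8_11_5_c10_ok))))))) (B (M (nat_lit 520) (B (M (nat_lit 552) (B (L (nat_lit 457) ln8_17_6_c10 ln8_17_6_c10_ok) (M (nat_lit 551) (B (L (nat_lit 583) ln8_14_5_c10 ln8_14_5_c10_ok) (L (nat_lit 519) ln8_13_5_c10 ln8_13_5_c10_ok))))) (B (M (nat_lit 392) (B (M (nat_lit 521) (B (L (nat_lit 553) ln8_13_4_c10 ln8_13_4_c10_ok) (L (nat_lit 489) ln8_12_4_c10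 ln8_12_4_c10_ok))) (M (nat_lit 519) (B (L (nat_lit 551) ln8_13_5_c10 ln8_13_5_c10_ok) (L (nat_lit 487) ln8_12_5_c10 ln8_12_5_c10_ok))))) (M (nat_lit 552) (B (L (nat_lit 457) ln8_17_6_c10 ln8_17_6_c10_ok) (M (nat_lit 553) (B (L (nat_lit 585) ln8_14_4_c10 ln8_14_4_c10_ok) (L (nat_lit 521) ln8_13_4_c10 ln8_13_4_c10_ok)))))))) (B (M (nat_lit 392) (B (M (nat_lit 487) (B (L (nat_lit 519) ln8_12_5_c10 ln8_12_5_c10_ok) (L (nat_lit 360) ln8_11_5_c10 ln8_11_5_c10_ok))) (M (nat_lit 393) (B (L (nat_lit 361) ln8_15_6_c10 ln8_15_6_c10_ok) (M (nat_lit 391) (B (L (nat_lit 390) ln6_12_0_c10 ln6_12_0_c10_ok) (L (nat_lit 359) ln8_15_7_c10 ln8_15_7_c10_ok))))))) (M (nat_lit 520) (B (L (nat_lit 393) ln8_16_6_c10 ln8_16_6_c10_ok) (M (nat_lit 552) (B (L (nat_lit 457) ln8_17_6_c10 ln8_17_6_c10_ok) (M (nat_lit 551) (B (L (nat_lit 583) ln8_14_5_c10 ln8_14_5_c10_ok) (L (nat_lit 519) ln8_13_5_c10 ln8_13_5_c10_ok)))))))))))))))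 (B (M (nat_lit 392) (B (M (nat_lit 427) (B (L (nat_lit 455) ln11_13_1_c10 ln11_13_1_c10_ok) (L (nat_lit 391) ln11_13_3 ln11_13_3_ok))) (B (M (nat_lit 391) (B (M (nat_lit 390) (B (L (nat_lit 393) ln6_12_0_c10 ln6_12_0_c10_ok) (L (nat_lit 389) ln5_12_0_c10 ln5_12_0_c10_ok))) (M (nat_lit 359) (B (L (nat_lit 488) ln8_15_7_c10 ln8_15_7_c10_ok) (M (nat_lit 327) (B (L (nat_lit 360) ln8_14_7_c10 ln8_14_7_c10_ok) (L (nat_lit 295) ln7_9_4_c10 ln7_9_4_c10_ok))))))) (M (nat_lit 455) (B (L (nat_lit 427) ln11_13_1_c10 ln11_13_1_c10_ok) (M (nat_lit 487) (B (L (nat_lit 360) ln8_11_5_c10 ln8_11_5_c10_ok) (M (nat_lit 519) (B (L (nat_lit 488) ln8_12_5_c10 ln8_12_5_c10_ok) (L (nat_lit 551) ln7_17_6_c10 ln7_17_6_c10_ok)))))))))) (M (nat_lit 392) (B (M (nat_lit 391) (B (L (nat_lit 427) ln11_13_3 ln11_13_3_ok) (M (nat_lit 390) (B (L (nat_lit 393) ln6_12_0_c10 ln6_12_0_c10_ok) (L (nat_lit 389) ln5_12_0_c10 ln5_12_0_c10_ok)))))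 (B (M (nat_lit 391) (B (M (nat_lit 390) (B (L (nat_lit 393) ln6_12_0_c10 ln6_12_0_c10_ok) (L (nat_lit 389) ln5_12_0_c10 ln5_12_0_c10_ok))) (M (nat_lit 359) (B (L (nat_lit 488) ln8_15_7_c10 ln8_15_7_c10_ok) (M (nat_lit 327) (B (L (nat_lit 360) ln8_14_7_c10 ln8_14_7_c10_ok) (L (nat_lit 295) ln7_9_4_c10 ln7_9_4_c10_ok))))))) (B (M (nat_lit 391) (B (L (nat_lit 427) ln11_13_3 ln11_13_3_ok) (M (nat_lit 359) (B (L (nat_lit 488) ln8_15_7_c10 ln8_15_7_c10_ok) (M (nat_lit 327) (B (L (nat_lit 360) ln8_14_7_c10 ln8_14_7_c10_ok) (L (nat_lit 295) ln7_9_4_c10 ln7_9_4_c10_ok))))))) (M (nat_lit 360) (B (M (nat_lit 457) (B (L (nat_lit 489) ln8_11_4_c10 ln8_11_4_c10_ok) (L (nat_lit 328) ln8_10_4_c10 ln8_10_4_c10_ok))) (B (M (nat_lit 328) (B (L (nat_lit 457) ln8_10_4_c10 ln8_10_4_c10_ok) (M (nat_lit 327) (B (L (nat_lit 359) ln8_14_7_c10 ln8_14_7_c10_ok) (L (nat_lit 295) ln8_13_7_c10 ln8_13_7_c10_ok))))) (B (M (nat_lit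 327) (B (L (nat_lit 359) ln8_14_7_c10 ln8_14_7_c10_ok) (M (nat_lit 393) (B (M (nat_lit 328) (B (L (nat_lit 296) ln8_9_4_c10 ln8_9_4_c10_ok) (L (nat_lit 295) ln8_13_7_c10 ln8_13_7_c10_ok))) (M (nat_lit 488) (B (L (nat_lit 520) ln8_16_6_c10 ln8_16_6_c10_ok) (L (nat_lit 361) ln8_15_6_c10 ln8_15_6_c10_ok))))))) (M (nat_lit 488) (B (M (nat_lit 489) (B (L (nat_lit 521) ln8_12_4_c10 ln8_12_4_c10_ok) (L (nat_lit 457) ln8_11_4_c10 ln8_11_4_c10_ok))) (M (nat_lit 393) (B (L (nat_lit 520) ln8_16_6_c10 ln8_16_6_c10_ok) (L (nat_lit 361) ln8_15_6_c10 ln8_15_6_c10_ok)))))))))))))))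
noncomputable def c10_d58 : Cert := (B (M (nat_lit 423) (B (M (nat_lit 422) (B (M (nat_lit 458) (B (L (nat_lit 459) ln7_13_0 ln7_13_0_ok) (L (nat_lit 457) ln6_13_0_c10 ln6_13_0_c10_ok))) (M (nat_lit 454) (B (L (nat_lit 455) ln10_13_1_c10 ln10_13_1_c10_ok) (L (nat_lit 453) ln9_13_1_c10 ln9_13_1_c10_ok))))) (B (M (nat_lit 422) (B (M (nat_lit 394) (B (L (nat_lit 395) ln7_13_2 ln7_13_2_ok) (L (nat_lit 393) ln6_13_2_c10 ln6_13_2_c10_ok))) (M (nat_lit 454) (B (L (nat_lit 455) ln10_13_1_c10 ln10_13_1_c10_ok) (L (nat_lit 453) ln9_13_1_c10 ln9_13_1_c10_ok))))) (B (M (nat_lit 422) (B (M (nat_lit 458) (B (L (nat_lit 459) ln7_13_0 ln7_13_0_ok) (L (nat_lit 457) ln6_13_0_c10 ln6_13_0_c10_ok))) (M (nat_lit 394) (B (L (nat_lit 395) ln7_13_2 ln7_13_2_ok) (L (nat_lit 393) ln6_13_2_c10 ln6_13_2_c10_ok))))) (M (nat_lit 427) (B (L (nat_lit 459) ln8_13_0 ln8_13_0_ok) (M (nat_lit 395) (B (L (nat_lit 396) ln8_13_2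 ln8_13_2_ok) (L (nat_lit 394) ln7_13_2 ln7_13_2_ok))))))))) (B (M (nat_lit 423) (B (M (nat_lit 395) (B (L (nat_lit 394) ln7_13_2 ln7_13_2_ok) (M (nat_lit 455) (B (L (nat_lit 454) ln10_13_1_c10 ln10_13_1_c10_ok) (M (nat_lit 427) (B (L (nat_lit 396) ln8_13_2 ln8_13_2_ok) (L (nat_lit 456) ln11_13_1_c10 ln11_13_1_c10_ok))))))) (B (M (nat_lit 458) (B (L (nat_lit 459) ln7_13_0 ln7_13_0_ok) (M (nat_lit 422) (B (L (nat_lit 457) ln6_13_0_c10 ln6_13_0_c10_ok) (M (nat_lit 454) (B (L (nat_lit 455) ln10_13_1_c10 ln10_13_1_c10_ok) (L (nat_lit 453) ln9_13_1_c10 ln9_13_1_c10_ok))))))) (M (nat_lit 395) (B (L (nat_lit 394) ln7_13_2 ln7_13_2_ok) (M (nat_lit 391) (B (L (nat_lit 390) ln10_13_3_c10 ln10_13_3_c10_ok) (M (nat_lit 427) (B (L (nat_lit 396) ln8_13_2 ln8_13_2_ok) (L (nat_lit 392) ln11_13_3 ln11_13_3_ok)))))))))) (B (M (nat_lit 423) (B (M (nat_lit 422) (B (M (nat_lit 458) (B (L (nat_lit 459) ln7_13_0 ln7_13_0_ok)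 (L (nat_lit 457) ln6_13_0_c10 ln6_13_0_c10_ok))) (M (nat_lit 394) (B (L (nat_lit 395) ln7_13_2 ln7_13_2_ok) (L (nat_lit 393) ln6_13_2_c10 ln6_13_2_c10_ok))))) (B (M (nat_lit 422) (B (M (nat_lit 394) (B (L (nat_lit 395) ln7_13_2 ln7_13_2_ok) (L (nat_lit 393) ln6_13_2_c10 ln6_13_2_c10_ok))) (M (nat_lit 454) (B (L (nat_lit 455) ln10_13_1_c10 ln10_13_1_c10_ok) (L (nat_lit 453) ln9_13_1_c10 ln9_13_1_c10_ok))))) (B (M (nat_lit 422) (B (M (nat_lit 458) (B (L (nat_lit 459) ln7_13_0 ln7_13_0_ok) (L (nat_lit 457) ln6_13_0_c10 ln6_13_0_c10_ok))) (M (nat_lit 454) (B (L (nat_lit 455) ln10_13_1_c10 ln10_13_1_c10_ok) (L (nat_lit 453) ln9_13_1_c10 ln9_13_1_c10_ok))))) (M (nat_lit 427) (B (L (nat_lit 459) ln8_13_0 ln8_13_0_ok) (M (nat_lit 455) (B (L (nat_lit 456) ln11_13_1_c10 ln11_13_1_c10_ok) (L (nat_lit 454) ln10_13_1_c10 ln10_13_1_c10_ok))))))))) (B (M (nat_lit 423) (B (M (nat_lit 422) (B (M (nat_lit 394)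 (B (L (nat_lit 395) ln7_13_2 ln7_13_2_ok) (L (nat_lit 393) ln6_13_2_c10 ln6_13_2_c10_ok))) (M (nat_lit 454) (B (L (nat_lit 455) ln10_13_1_c10 ln10_13_1_c10_ok) (L (nat_lit 453) ln9_13_1_c10 ln9_13_1_c10_ok))))) (B (M (nat_lit 422) (B (M (nat_lit 454) (B (L (nat_lit 455) ln10_13_1_c10 ln10_13_1_c10_ok) (L (nat_lit 453) ln9_13_1_c10 ln9_13_1_c10_ok))) (M (nat_lit 390) (B (L (nat_lit 391) ln10_13_3_c10 ln10_13_3_c10_ok) (L (nat_lit 389) ln9_13_3_c10 ln9_13_3_c10_ok))))) (B (M (nat_lit 422) (B (M (nat_lit 394) (B (L (nat_lit 395) ln7_13_2 ln7_13_2_ok) (L (nat_lit 393) ln6_13_2_c10 ln6_13_2_c10_ok))) (M (nat_lit 390) (B (L (nat_lit 391) ln10_13_3_c10 ln10_13_3_c10_ok) (L (nat_lit 389) ln9_13_3_c10 ln9_13_3_c10_ok))))) (M (nat_lit 427) (B (M (nat_lit 455) (B (L (nat_lit 456) ln11_13_1_c10 ln11_13_1_c10_ok) (L (nat_lit 454) ln10_13_1_c10 ln10_13_1_c10_ok))) (M (nat_lit 391) (B (L (nat_lit 392) ln11_13_3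 ln11_13_3_ok) (L (nat_lit 390) ln10_13_3_c10 ln10_13_3_c10_ok))))))))) (B (M (nat_lit 458) (B (L (nat_lit 459) ln13_14_3 ln13_14_3_ok) (M (nat_lit 394) (B (M (nat_lit 423) (B (L (nat_lit 395) ln7_13_2 ln7_13_2_ok) (M (nat_lit 422) (B (L (nat_lit 457) ln6_13_0_c10 ln6_13_0_c10_ok) (L (nat_lit 393) ln6_13_2_c10 ln6_13_2_c10_ok))))) (B (M (nat_lit 362) (B (M (nat_lit 457) (B (L (nat_lit 489) ln10_11_5 ln10_11_5_ok) (L (nat_lit 330) ln10_10_5 ln10_10_5_ok))) (B (M (nat_lit 490) (B (M (nat_lit 489) (B (L (nat_lit 521) ln10_12_5 ln10_12_5_ok) (L (nat_lit 457) ln10_11_5 ln10_11_5_ok))) (M (nat_lit 393) (B (L (nat_lit 522) ln10_16_7 ln10_16_7_ok) (L (nat_lit 361) ln10_15_7 ln10_15_7_ok))))) (B (M (nat_lit 330) (B (L (nat_lit 457) ln10_10_5 ln10_10_5_ok) (M (nat_lit 331) (B (L (nat_lit 363) ln10_14_6 ln10_14_6_ok) (L (nat_lit 299) ln10_13_6 ln10_13_6_ok))))) (M (nat_lit 331) (B (L (nat_lit 363) ln10_14_6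 ln10_14_6_ok) (M (nat_lit 393) (B (M (nat_lit 490) (B (L (nat_lit 522) ln10_16_7 ln10_16_7_ok) (L (nat_lit 361) ln10_15_7 ln10_15_7_ok))) (M (nat_lit 330) (B (L (nat_lit 299) ln10_13_6 ln10_13_6_ok) (L (nat_lit 298) ln10_9_5_c10 ln10_9_5_c10_ok))))))))))) (B (M (nat_lit 490) (B (M (nat_lit 395) (B (L (nat_lit 363) ln10_15_6 ln10_15_6_ok) (L (nat_lit 423) ln7_13_2 ln7_13_2_ok))) (M (nat_lit 393) (B (L (nat_lit 522) ln10_16_7 ln10_16_7_ok) (L (nat_lit 361) ln10_15_7 ln10_15_7_ok))))) (M (nat_lit 457) (B (M (nat_lit 423) (B (L (nat_lit 395) ln7_13_2 ln7_13_2_ok) (L (nat_lit 422) ln6_13_0_c10 ln6_13_0_c10_ok))) (M (nat_lit 489) (B (L (nat_lit 362) ln10_11_5 ln10_11_5_ok) (L (nat_lit 521) ln9_16_6 ln9_16_6_ok))))))))))) (B (M (nat_lit 423) (B (M (nat_lit 422) (B (M (nat_lit 458) (B (L (nat_lit 459) ln7_13_0 ln7_13_0_ok) (L (nat_lit 457) ln6_13_0_c10 ln6_13_0_c10_ok))) (M (nat_lit 454) (B (L (nat_lit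 455) ln10_13_1_c10 ln10_13_1_c10_ok) (L (nat_lit 453) ln9_13_1_c10 ln9_13_1_c10_ok))))) (B (M (nat_lit 422) (B (M (nat_lit 454) (B (L (nat_lit 455) ln10_13_1_c10 ln10_13_1_c10_ok) (L (nat_lit 453) ln9_13_1_c10 ln9_13_1_c10_ok))) (M (nat_lit 390) (B (L (nat_lit 391) ln10_13_3_c10 ln10_13_3_c10_ok) (L (nat_lit 389) ln9_13_3_c10 ln9_13_3_c10_ok))))) (B (M (nat_lit 422) (B (M (nat_lit 458) (B (L (nat_lit 459) ln7_13_0 ln7_13_0_ok) (L (nat_lit 457) ln6_13_0_c10 ln6_13_0_c10_ok))) (M (nat_lit 390) (B (L (nat_lit 391) ln10_13_3_c10 ln10_13_3_c10_ok) (L (nat_lit 389) ln9_13_3_c10 ln9_13_3_c10_ok))))) (M (nat_lit 427) (B (M (nat_lit 455) (B (L (nat_lit 456) ln11_13_1_c10 ln11_13_1_c10_ok) (L (nat_lit 454) ln10_13_1_c10 ln10_13_1_c10_ok))) (M (nat_lit 391) (B (L (nat_lit 392) ln11_13_3 ln11_13_3_ok) (L (nat_lit 390) ln10_13_3_c10 ln10_13_3_c10_ok))))))))) (M (nat_lit 456) (B (M (nat_lit 455) (B (L (nat_lit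 427) ln11_13_1_c10 ln11_13_1_c10_ok) (M (nat_lit 454) (B (L (nat_lit 457) ln6_14_2_c10 ln6_14_2_c10_ok) (L (nat_lit 453) ln5_14_2_c10 ln5_14_2_c10_ok))))) c10_d57))))))))
theorem c10_s212 : Sem (nat_lit 20839919904649913397037227277475566367178313602335007801283750091394436700446175314548354283586149593514889033341045482096437963662708178944) (nat_lit 158291456994384044351321615365628590341222909914417507530188733872527733118566201083988554079780483409094119721227478582265308949980608535800822578235216556648789865614681309184) (nat_lit 158291456994384044351321615365628590341222909914417507530188733872527733118566201083988554079780483409094119721227478582265308949980608535800822578235216556648789865614681309184) :=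
  sem_of_chk (M (nat_lit 424) c10_d58) (nat_lit 20839919904649913397037227277475566367178313602335007801283750091394436700446175314548354283586149593514889033341045482096437963662708178944) (nat_lit 158291456994384044351321615365628590341222909914417507530188733872527733118566201083988554079780483409094119721227478582265308949980608535800822578235216556648789865614681309184) (nat_lit 158291456994384044351321615365628590341222909914417507530188733872527733118566201083988554079780483409094119721227478582265308949980608535800822578235216556648789865614681309184) (by decide +kernel)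
theorem c10_s216 : Sem (nat_lit 20839919904693236361007865009656479088805549285201202130586497225381475443893278772482817183946149193610266214248817219767709894472535900160) (nat_lit 6864797661728944974046183815870989852348854956101813851731170888977178239851020618832727574816994682835494864257983504075366994303267796574737341810976227328) (nat_lit 6864797661728944974046183815870989852348854956101813851731170888977178239851020618832727574816994682835494864257983504075366994303267796574737341810976227328) :=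
  sem_of_chk (M (nat_lit 423) (B (M (nat_lit 391) (B (L (nat_lit 390) ln10_13_3_c10 ln10_13_3_c10_ok) (M (nat_lit 395) (B (L (nat_lit 394) ln7_13_2 ln7_13_2_ok) (M (nat_lit 427) (B (L (nat_lit 396) ln8_13_2 ln8_13_2_ok) (L (nat_lit 392) ln11_13_3 ln11_13_3_ok))))))) (B (M (nat_lit 394) (B (L (nat_lit 395) ln7_13_2 ln7_13_2_ok) (M (nat_lit 422) (B (L (nat_lit 393) ln6_13_2_c10 ln6_13_2_c10_ok) (M (nat_lit 390) (B (L (nat_lit 391) ln10_13_3_c10 ln10_13_3_c10_ok) (L (nat_lit 389) ln9_13_3_c10 ln9_13_3_c10_ok))))))) (B (M (nat_lit 422) (B (M (nat_lit 390) (B (L (nat_lit 391) ln10_13_3_c10 ln10_13_3_c10_ok) (L (nat_lit 389) ln9_13_3_c10 ln9_13_3_c10_ok))) (M (nat_lit 421) (B (M (nat_lit 457) (B (L (nat_lit 458) ln6_13_0_c10 ln6_13_0_c10_ok) (L (nat_lit 456) ln5_13_0_c10 ln5_13_0_c10_ok))) (M (nat_lit 393) (B (L (nat_lit 394) ln6_13_2_c10 ln6_13_2_c10_ok) (L (nat_lit 392) ln5_13_2_c10 ln5_13_2_c10_ok)))))))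 (B (M (nat_lit 392) (B (M (nat_lit 391) (B (L (nat_lit 427) ln11_13_3 ln11_13_3_ok) (L (nat_lit 390) ln10_13_3_c10 ln10_13_3_c10_ok))) (M (nat_lit 457) (B (M (nat_lit 489) (B (L (nat_lit 521) ln9_16_7 ln9_16_7_ok) (M (nat_lit 360) (B (L (nat_lit 393) ln9_15_7 ln9_15_7_ok) (L (nat_lit 328) ln8_10_4_c10 ln8_10_4_c10_ok))))) (B (M (nat_lit 360) (B (L (nat_lit 328) ln8_10_4_c10 ln8_10_4_c10_ok) (M (nat_lit 489) (B (L (nat_lit 393) ln9_15_7 ln9_15_7_ok) (L (nat_lit 456) ln8_11_4_c10 ln8_11_4_c10_ok))))) (B (M (nat_lit 422) (B (L (nat_lit 458) ln6_13_0_c10 ln6_13_0_c10_ok) (M (nat_lit 421) (B (L (nat_lit 456) ln5_13_0_c10 ln5_13_0_c10_ok) (L (nat_lit 393) ln5_13_2_c10 ln5_13_2_c10_ok))))) (M (nat_lit 489) (B (L (nat_lit 521) ln9_16_7 ln9_16_7_ok) (M (nat_lit 360) (B (L (nat_lit 456) ln8_11_4_c10 ln8_11_4_c10_ok) (L (nat_lit 328) ln8_10_4_c10 ln8_10_4_c10_ok))))))))))) (M (nat_lit 457) (B (M (nat_lit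 422) (B (L (nat_lit 458) ln6_13_0_c10 ln6_13_0_c10_ok) (M (nat_lit 394) (B (L (nat_lit 395) ln7_13_2 ln7_13_2_ok) (L (nat_lit 393) ln6_13_2_c10 ln6_13_2_c10_ok))))) (B (M (nat_lit 422) (B (L (nat_lit 458) ln6_13_0_c10 ln6_13_0_c10_ok) (M (nat_lit 421) (B (L (nat_lit 456) ln5_13_0_c10 ln5_13_0_c10_ok) (M (nat_lit 393) (B (L (nat_lit 394) ln6_13_2_c10 ln6_13_2_c10_ok) (L (nat_lit 392) ln5_13_2_c10 ln5_13_2_c10_ok))))))) (B (M (nat_lit 394) (B (L (nat_lit 395) ln7_13_2 ln7_13_2_ok) (M (nat_lit 362) (B (L (nat_lit 330) ln10_10_5 ln10_10_5_ok) (M (nat_lit 489) (B (L (nat_lit 521) ln9_16_6 ln9_16_6_ok) (L (nat_lit 393) ln9_15_6 ln9_15_6_ok))))))) (B (M (nat_lit 392) (B (M (nat_lit 422) (B (L (nat_lit 458) ln6_13_0_c10 ln6_13_0_c10_ok) (M (nat_lit 421) (B (L (nat_lit 456) ln5_13_0_c10 ln5_13_0_c10_ok) (L (nat_lit 393) ln5_13_2_c10 ln5_13_2_c10_ok))))) (B (M (nat_lit 489) (B (L (nat_lit 521) ln9_16_7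 ln9_16_7_ok) (M (nat_lit 360) (B (L (nat_lit 456) ln8_11_4_c10 ln8_11_4_c10_ok) (L (nat_lit 328) ln8_10_4_c10 ln8_10_4_c10_ok))))) (M (nat_lit 489) (B (L (nat_lit 521) ln9_16_7 ln9_16_7_ok) (M (nat_lit 360) (B (L (nat_lit 393) ln9_15_7 ln9_15_7_ok) (L (nat_lit 328) ln8_10_4_c10 ln8_10_4_c10_ok)))))))) (M (nat_lit 458) (B (L (nat_lit 422) ln6_13_0_c10 ln6_13_0_c10_ok) (M (nat_lit 394) (B (L (nat_lit 395) ln7_13_2 ln7_13_2_ok) (M (nat_lit 489) (B (L (nat_lit 362) ln10_11_5 ln10_11_5_ok) (L (nat_lit 521) ln9_16_6 ln9_16_6_ok))))))))))))))))) (nat_lit 20839919904693236361007865009656479088805549285201202130586497225381475443893278772482817183946149193610266214248817219767709894472535900160) (nat_lit 6864797661728944974046183815870989852348854956101813851731170888977178239851020618832727574816994682835494864257983504075366994303267796574737341810976227328) (nat_lit 6864797661728944974046183815870989852348854956101813851731170888977178239851020618832727574816994682835494864257983504075366994303267796574737341810976227328)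 (by decide +kernel)
theorem c10_s217 : Sem (nat_lit 20839919904693236361007865009656479088805549285201202130586497225381475443893278772482817183946149193610266214248817219767709894472535900160) (nat_lit 6864797661728944974208995690113205795823077439680734504082836048788705315861736561852606515300775399938010617941051167584021003501977199328308407905957183488) (nat_lit 6864797661728944974208995690113205795823077439680734504082836048788705315861736561852606515300775399938010617941051167584021003501977199328308407905957183488) :=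
  sem_of_chk (M (nat_lit 423) (B (M (nat_lit 455) (B (L (nat_lit 454) ln10_13_1_c10 ln10_13_1_c10_ok) (M (nat_lit 427) (B (L (nat_lit 456) ln11_13_1_c10 ln11_13_1_c10_ok) (M (nat_lit 395) (B (L (nat_lit 396) ln8_13_2 ln8_13_2_ok) (L (nat_lit 394) ln7_13_2 ln7_13_2_ok))))))) (B (M (nat_lit 394) (B (L (nat_lit 395) ln7_13_2 ln7_13_2_ok) (M (nat_lit 422) (B (L (nat_lit 393) ln6_13_2_c10 ln6_13_2_c10_ok) (M (nat_lit 454) (B (L (nat_lit 455) ln10_13_1_c10 ln10_13_1_c10_ok) (L (nat_lit 453) ln9_13_1_c10 ln9_13_1_c10_ok))))))) (B (M (nat_lit 422) (B (M (nat_lit 454) (B (L (nat_lit 455) ln10_13_1_c10 ln10_13_1_c10_ok) (L (nat_lit 453) ln9_13_1_c10 ln9_13_1_c10_ok))) (M (nat_lit 421) (B (M (nat_lit 393) (B (L (nat_lit 394) ln6_13_2_c10 ln6_13_2_c10_ok) (L (nat_lit 392) ln5_13_2_c10 ln5_13_2_c10_ok))) (M (nat_lit 457) (B (L (nat_lit 458) ln6_13_0_c10 ln6_13_0_c10_ok) (L (nat_lit 456) ln5_13_0_c10 ln5_13_0_c10_ok)))))))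 (B (M (nat_lit 422) (B (M (nat_lit 454) (B (L (nat_lit 455) ln10_13_1_c10 ln10_13_1_c10_ok) (L (nat_lit 453) ln9_13_1_c10 ln9_13_1_c10_ok))) (M (nat_lit 457) (B (L (nat_lit 458) ln6_13_0_c10 ln6_13_0_c10_ok) (M (nat_lit 392) (B (M (nat_lit 421) (B (L (nat_lit 393) ln5_13_2_c10 ln5_13_2_c10_ok) (L (nat_lit 456) ln5_13_0_c10 ln5_13_0_c10_ok))) (B (M (nat_lit 489) (B (L (nat_lit 521) ln9_16_7 ln9_16_7_ok) (M (nat_lit 360) (B (L (nat_lit 328) ln8_10_4_c10 ln8_10_4_c10_ok) (L (nat_lit 456) ln8_11_4_c10 ln8_11_4_c10_ok))))) (M (nat_lit 393) (B (L (nat_lit 421) ln5_13_2_c10 ln5_13_2_c10_ok) (M (nat_lit 489) (B (L (nat_lit 360) ln9_15_7 ln9_15_7_ok) (L (nat_lit 521) ln9_16_7 ln9_16_7_ok)))))))))))) (M (nat_lit 457) (B (M (nat_lit 422) (B (L (nat_lit 458) ln6_13_0_c10 ln6_13_0_c10_ok) (M (nat_lit 394) (B (L (nat_lit 395) ln7_13_2 ln7_13_2_ok) (L (nat_lit 393) ln6_13_2_c10 ln6_13_2_c10_ok))))) (B (M (nat_lit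 422) (B (L (nat_lit 458) ln6_13_0_c10 ln6_13_0_c10_ok) (M (nat_lit 421) (B (L (nat_lit 456) ln5_13_0_c10 ln5_13_0_c10_ok) (M (nat_lit 393) (B (L (nat_lit 394) ln6_13_2_c10 ln6_13_2_c10_ok) (L (nat_lit 392) ln5_13_2_c10 ln5_13_2_c10_ok))))))) (B (M (nat_lit 392) (B (M (nat_lit 489) (B (L (nat_lit 521) ln9_16_7 ln9_16_7_ok) (M (nat_lit 360) (B (L (nat_lit 393) ln9_15_7 ln9_15_7_ok) (L (nat_lit 328) ln8_10_4_c10 ln8_10_4_c10_ok))))) (B (M (nat_lit 489) (B (L (nat_lit 521) ln9_16_7 ln9_16_7_ok) (M (nat_lit 360) (B (L (nat_lit 328) ln8_10_4_c10 ln8_10_4_c10_ok) (L (nat_lit 456) ln8_11_4_c10 ln8_11_4_c10_ok))))) (M (nat_lit 422) (B (L (nat_lit 458) ln6_13_0_c10 ln6_13_0_c10_ok) (M (nat_lit 421) (B (L (nat_lit 393) ln5_13_2_c10 ln5_13_2_c10_ok) (L (nat_lit 456) ln5_13_0_c10 ln5_13_0_c10_ok)))))))) (B (M (nat_lit 394) (B (L (nat_lit 395) ln7_13_2 ln7_13_2_ok) (M (nat_lit 393) (B (L (nat_lit 422) ln6_13_2_c10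 ln6_13_2_c10_ok) (M (nat_lit 362) (B (L (nat_lit 330) ln10_10_5 ln10_10_5_ok) (L (nat_lit 489) ln9_15_6 ln9_15_6_ok))))))) (B (M (nat_lit 458) (B (L (nat_lit 422) ln6_13_0_c10 ln6_13_0_c10_ok) (M (nat_lit 394) (B (L (nat_lit 395) ln7_13_2 ln7_13_2_ok) (M (nat_lit 489) (B (L (nat_lit 362) ln10_11_5 ln10_11_5_ok) (L (nat_lit 521) ln9_16_6 ln9_16_6_ok))))))) (M (nat_lit 394) (B (L (nat_lit 395) ln7_13_2 ln7_13_2_ok) (M (nat_lit 362) (B (L (nat_lit 330) ln10_10_5 ln10_10_5_ok) (M (nat_lit 489) (B (L (nat_lit 393) ln9_15_6 ln9_15_6_ok) (L (nat_lit 521) ln9_16_6 ln9_16_6_ok)))))))))))))))))) (nat_lit 20839919904693236361007865009656479088805549285201202130586497225381475443893278772482817183946149193610266214248817219767709894472535900160) (nat_lit 6864797661728944974208995690113205795823077439680734504082836048788705315861736561852606515300775399938010617941051167584021003501977199328308407905957183488)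 (nat_lit 6864797661728944974208995690113205795823077439680734504082836048788705315861736561852606515300775399938010617941051167584021003501977199328308407905957183488) (by decide +kernel)
theorem c10_s221 : Sem (nat_lit 20839919904693236361007865009656479088805549285201202130586497225381475443893278772482817183946149193610266214248817219767709894472535900160) (nat_lit 158291456994384044337592020035777359362455531620338534850726684031388943475135516987463481152738143727655371788671129817527835672398172496908950547649396341895864910997666922496) (nat_lit 158291456994384044337592020035777359362455531620338534850726684031388943475135516987463481152738143727655371788671129817527835672398172496908950547649396341895864910997666922496) :=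
  sem_of_chk (M (nat_lit 456) (B (M (nat_lit 455) (B (L (nat_lit 427) ln11_13_1_c10 ln11_13_1_c10_ok) (M (nat_lit 454) (B (L (nat_lit 457) ln6_14_2_c10 ln6_14_2_c10_ok) (L (nat_lit 453) ln5_14_2_c10 ln5_14_2_c10_ok))))) (B (M (nat_lit 488) (B (M (nat_lit 393) (B (L (nat_lit 520) ln8_16_6_c10 ln8_16_6_c10_ok) (M (nat_lit 361) (B (L (nat_lit 457) ln9_11_5_c10 ln9_11_5_c10_ok) (L (nat_lit 329) ln9_10_5_c10 ln9_10_5_c10_ok))))) (B (M (nat_lit 393) (B (L (nat_lit 520) ln8_16_6_c10 ln8_16_6_c10_ok) (M (nat_lit 361) (B (L (nat_lit 329) ln9_10_5_c10 ln9_10_5_c10_ok) (L (nat_lit 392) ln8_15_6_c10 ln8_15_6_c10_ok))))) (B (M (nat_lit 520) (B (M (nat_lit 552) (B (L (nat_lit 457) ln8_17_6_c10 ln8_17_6_c10_ok) (M (nat_lit 553) (B (L (nat_lit 585) ln8_14_4_c10 ln8_14_4_c10_ok) (L (nat_lit 521) ln8_13_4_c10 ln8_13_4_c10_ok))))) (B (M (nat_lit 552) (B (L (nat_lit 457) ln8_17_6_c10 ln8_17_6_c10_ok) (M (nat_lit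 551) (B (L (nat_lit 583) ln8_14_5_c10 ln8_14_5_c10_ok) (L (nat_lit 519) ln8_13_5_c10 ln8_13_5_c10_ok))))) (M (nat_lit 392) (B (M (nat_lit 521) (B (L (nat_lit 553) ln8_13_4_c10 ln8_13_4_c10_ok) (L (nat_lit 489) ln8_12_4_c10 ln8_12_4_c10_ok))) (M (nat_lit 519) (B (L (nat_lit 551) ln8_13_5_c10 ln8_13_5_c10_ok) (L (nat_lit 487) ln8_12_5_c10 ln8_12_5_c10_ok)))))))) (M (nat_lit 392) (B (M (nat_lit 393) (B (L (nat_lit 361) ln8_15_6_c10 ln8_15_6_c10_ok) (M (nat_lit 391) (B (L (nat_lit 390) ln6_12_0_c10 ln6_12_0_c10_ok) (L (nat_lit 359) ln8_15_7_c10 ln8_15_7_c10_ok))))) (M (nat_lit 360) (B (M (nat_lit 489) (B (L (nat_lit 521) ln8_12_4_c10 ln8_12_4_c10_ok) (L (nat_lit 457) ln8_11_4_c10 ln8_11_4_c10_ok))) (M (nat_lit 487) (B (L (nat_lit 519) ln8_12_5_c10 ln8_12_5_c10_ok) (L (nat_lit 455) ln8_11_5_c10 ln8_11_5_c10_ok))))))))))) (B (M (nat_lit 392) (B (M (nat_lit 427) (B (L (nat_lit 455) ln11_13_1_c10 ln11_13_1_c10_ok)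 (L (nat_lit 391) ln11_13_3 ln11_13_3_ok))) (B (M (nat_lit 488) (B (M (nat_lit 393) (B (L (nat_lit 520) ln8_16_6_c10 ln8_16_6_c10_ok) (L (nat_lit 361) ln8_15_6_c10 ln8_15_6_c10_ok))) (M (nat_lit 360) (B (M (nat_lit 487) (B (L (nat_lit 519) ln8_12_5_c10 ln8_12_5_c10_ok) (L (nat_lit 455) ln8_11_5_c10 ln8_11_5_c10_ok))) (M (nat_lit 359) (B (L (nat_lit 391) ln8_15_7_c10 ln8_15_7_c10_ok) (L (nat_lit 327) ln8_14_7_c10 ln8_14_7_c10_ok))))))) (B (M (nat_lit 391) (B (L (nat_lit 427) ln11_13_3 ln11_13_3_ok) (M (nat_lit 390) (B (L (nat_lit 393) ln6_12_0_c10 ln6_12_0_c10_ok) (L (nat_lit 389) ln5_12_0_c10 ln5_12_0_c10_ok))))) (M (nat_lit 488) (B (M (nat_lit 393) (B (L (nat_lit 520) ln8_16_6_c10 ln8_16_6_c10_ok) (L (nat_lit 361) ln8_15_6_c10 ln8_15_6_c10_ok))) (M (nat_lit 487) (B (L (nat_lit 519) ln8_12_5_c10 ln8_12_5_c10_ok) (M (nat_lit 455) (B (L (nat_lit 427) ln11_13_1_c10 ln11_13_1_c10_ok) (L (nat_lit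 360) ln8_11_5_c10 ln8_11_5_c10_ok))))))))))) (M (nat_lit 392) (B (M (nat_lit 391) (B (L (nat_lit 427) ln11_13_3 ln11_13_3_ok) (M (nat_lit 390) (B (L (nat_lit 393) ln6_12_0_c10 ln6_12_0_c10_ok) (L (nat_lit 389) ln5_12_0_c10 ln5_12_0_c10_ok))))) (B (M (nat_lit 488) (B (M (nat_lit 393) (B (L (nat_lit 520) ln8_16_6_c10 ln8_16_6_c10_ok) (L (nat_lit 361) ln8_15_6_c10 ln8_15_6_c10_ok))) (B (M (nat_lit 520) (B (M (nat_lit 521) (B (L (nat_lit 553) ln8_13_4_c10 ln8_13_4_c10_ok) (L (nat_lit 489) ln8_12_4_c10 ln8_12_4_c10_ok))) (M (nat_lit 519) (B (L (nat_lit 551) ln8_13_5_c10 ln8_13_5_c10_ok) (L (nat_lit 487) ln8_12_5_c10 ln8_12_5_c10_ok))))) (M (nat_lit 393) (B (L (nat_lit 361) ln8_15_6_c10 ln8_15_6_c10_ok) (M (nat_lit 391) (B (L (nat_lit 390) ln6_12_0_c10 ln6_12_0_c10_ok) (L (nat_lit 359) ln8_15_7_c10 ln8_15_7_c10_ok)))))))) (B (M (nat_lit 488) (B (M (nat_lit 391) (B (L (nat_lit 427) ln11_13_3 ln11_13_3_ok)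 (L (nat_lit 359) ln8_15_7_c10 ln8_15_7_c10_ok))) (M (nat_lit 520) (B (M (nat_lit 521) (B (L (nat_lit 553) ln8_13_4_c10 ln8_13_4_c10_ok) (L (nat_lit 489) ln8_12_4_c10 ln8_12_4_c10_ok))) (M (nat_lit 519) (B (L (nat_lit 551) ln8_13_5_c10 ln8_13_5_c10_ok) (L (nat_lit 487) ln8_12_5_c10 ln8_12_5_c10_ok))))))) (M (nat_lit 488) (B (M (nat_lit 393) (B (L (nat_lit 520) ln8_16_6_c10 ln8_16_6_c10_ok) (L (nat_lit 361) ln8_15_6_c10 ln8_15_6_c10_ok))) (B (M (nat_lit 520) (B (M (nat_lit 521) (B (L (nat_lit 553) ln8_13_4_c10 ln8_13_4_c10_ok) (L (nat_lit 489) ln8_12_4_c10 ln8_12_4_c10_ok))) (M (nat_lit 519) (B (L (nat_lit 551) ln8_13_5_c10 ln8_13_5_c10_ok) (L (nat_lit 487) ln8_12_5_c10 ln8_12_5_c10_ok))))) (M (nat_lit 360) (B (M (nat_lit 489) (B (L (nat_lit 521) ln8_12_4_c10 ln8_12_4_c10_ok) (L (nat_lit 457) ln8_11_4_c10 ln8_11_4_c10_ok))) (M (nat_lit 361) (B (L (nat_lit 393) ln8_15_6_c10 ln8_15_6_c10_ok) (L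 (nat_lit 329) ln8_14_6_c10 ln8_14_6_c10_ok)))))))))))))))) (nat_lit 20839919904693236361007865009656479088805549285201202130586497225381475443893278772482817183946149193610266214248817219767709894472535900160) (nat_lit 158291456994384044337592020035777359362455531620338534850726684031388943475135516987463481152738143727655371788671129817527835672398172496908950547649396341895864910997666922496) (nat_lit 158291456994384044337592020035777359362455531620338534850726684031388943475135516987463481152738143727655371788671129817527835672398172496908950547649396341895864910997666922496) (by decide +kernel)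
theorem c10_s248 : Sem (nat_lit 20839919904693236361007865009656479088805549285201202130586497225381475443893278772482817183946149193610266214248817219767709894472535900160) (nat_lit 17161994154322362434813094629793765205811311345187555970067282228011941959454940757541770266602977115167778693934812502982705374185085792142053854228955267072) (nat_lit 17161994154322362434813094629793765205811311345187555970067282228011941959454940757541770266602977115167778693934812502982705374185085792142053854228955267072) :=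
  sem_of_chk (M (nat_lit 423) (B (M (nat_lit 455) (B (L (nat_lit 454) ln10_13_1_c10 ln10_13_1_c10_ok) (M (nat_lit 459) (B (L (nat_lit 458) ln7_13_0 ln7_13_0_ok) (L (nat_lit 427) ln8_13_0 ln8_13_0_ok))))) (B (M (nat_lit 458) (B (L (nat_lit 459) ln7_13_0 ln7_13_0_ok) (M (nat_lit 422) (B (L (nat_lit 457) ln6_13_0_c10 ln6_13_0_c10_ok) (M (nat_lit 454) (B (L (nat_lit 455) ln10_13_1_c10 ln10_13_1_c10_ok) (L (nat_lit 453) ln9_13_1_c10 ln9_13_1_c10_ok))))))) (B (M (nat_lit 422) (B (M (nat_lit 454) (B (L (nat_lit 455) ln10_13_1_c10 ln10_13_1_c10_ok) (L (nat_lit 453) ln9_13_1_c10 ln9_13_1_c10_ok))) (M (nat_lit 421) (B (M (nat_lit 393) (B (L (nat_lit 394) ln6_13_2_c10 ln6_13_2_c10_ok) (L (nat_lit 392) ln5_13_2_c10 ln5_13_2_c10_ok))) (M (nat_lit 457) (B (L (nat_lit 458) ln6_13_0_c10 ln6_13_0_c10_ok) (L (nat_lit 456) ln5_13_0_c10 ln5_13_0_c10_ok))))))) (B (M (nat_lit 456) (B (M (nat_lit 455) (B (L (nat_lit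 427) ln11_13_1_c10 ln11_13_1_c10_ok) (L (nat_lit 454) ln10_13_1_c10 ln10_13_1_c10_ok))) (M (nat_lit 393) (B (M (nat_lit 361) (B (L (nat_lit 329) ln9_10_5_c10 ln9_10_5_c10_ok) (M (nat_lit 488) (B (L (nat_lit 457) ln9_11_5_c10 ln9_11_5_c10_ok) (L (nat_lit 520) ln8_16_6_c10 ln8_16_6_c10_ok))))) (B (M (nat_lit 488) (B (L (nat_lit 520) ln8_16_6_c10 ln8_16_6_c10_ok) (M (nat_lit 361) (B (L (nat_lit 457) ln9_11_5_c10 ln9_11_5_c10_ok) (L (nat_lit 392) ln8_15_6_c10 ln8_15_6_c10_ok))))) (B (M (nat_lit 422) (B (L (nat_lit 394) ln6_13_2_c10 ln6_13_2_c10_ok) (M (nat_lit 421) (B (L (nat_lit 392) ln5_13_2_c10 ln5_13_2_c10_ok) (L (nat_lit 457) ln5_13_0_c10 ln5_13_0_c10_ok))))) (M (nat_lit 361) (B (L (nat_lit 329) ln9_10_5_c10 ln9_10_5_c10_ok) (M (nat_lit 488) (B (L (nat_lit 392) ln8_15_6_c10 ln8_15_6_c10_ok) (L (nat_lit 520) ln8_16_6_c10 ln8_16_6_c10_ok))))))))))) (M (nat_lit 393) (B (M (nat_lit 422) (B (L (nat_lit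 394) ln6_13_2_c10 ln6_13_2_c10_ok) (M (nat_lit 458) (B (L (nat_lit 459) ln7_13_0 ln7_13_0_ok) (L (nat_lit 457) ln6_13_0_c10 ln6_13_0_c10_ok))))) (B (M (nat_lit 422) (B (L (nat_lit 394) ln6_13_2_c10 ln6_13_2_c10_ok) (M (nat_lit 421) (B (L (nat_lit 392) ln5_13_2_c10 ln5_13_2_c10_ok) (M (nat_lit 457) (B (L (nat_lit 458) ln6_13_0_c10 ln6_13_0_c10_ok) (L (nat_lit 456) ln5_13_0_c10 ln5_13_0_c10_ok))))))) (B (M (nat_lit 458) (B (L (nat_lit 459) ln7_13_0 ln7_13_0_ok) (M (nat_lit 490) (B (L (nat_lit 522) ln10_16_7 ln10_16_7_ok) (M (nat_lit 361) (B (L (nat_lit 329) ln9_10_4_c10 ln9_10_4_c10_ok) (L (nat_lit 457) ln9_11_4 ln9_11_4_ok))))))) (B (M (nat_lit 456) (B (M (nat_lit 422) (B (L (nat_lit 394) ln6_13_2_c10 ln6_13_2_c10_ok) (M (nat_lit 421) (B (L (nat_lit 392) ln5_13_2_c10 ln5_13_2_c10_ok) (L (nat_lit 457) ln5_13_0_c10 ln5_13_0_c10_ok))))) (B (M (nat_lit 361) (B (L (nat_lit 329) ln9_10_5_c10 ln9_10_5_c10_ok)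 (M (nat_lit 488) (B (L (nat_lit 392) ln8_15_6_c10 ln8_15_6_c10_ok) (L (nat_lit 520) ln8_16_6_c10 ln8_16_6_c10_ok))))) (M (nat_lit 361) (B (L (nat_lit 329) ln9_10_5_c10 ln9_10_5_c10_ok) (M (nat_lit 488) (B (L (nat_lit 457) ln9_11_5_c10 ln9_11_5_c10_ok) (L (nat_lit 520) ln8_16_6_c10 ln8_16_6_c10_ok)))))))) (M (nat_lit 394) (B (L (nat_lit 422) ln6_13_2_c10 ln6_13_2_c10_ok) (M (nat_lit 458) (B (L (nat_lit 459) ln7_13_0 ln7_13_0_ok) (M (nat_lit 361) (B (L (nat_lit 490) ln10_15_7 ln10_15_7_ok) (L (nat_lit 329) ln9_10_4_c10 ln9_10_4_c10_ok))))))))))))))))) (nat_lit 20839919904693236361007865009656479088805549285201202130586497225381475443893278772482817183946149193610266214248817219767709894472535900160) (nat_lit 17161994154322362434813094629793765205811311345187555970067282228011941959454940757541770266602977115167778693934812502982705374185085792142053854228955267072) (nat_lit 17161994154322362434813094629793765205811311345187555970067282228011941959454940757541770266602977115167778693934812502982705374185085792142053854228955267072)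 (by decide +kernel)
theorem c10_s257 : Sem (nat_lit 20839919904714897842993183875746935449619167126634299295237870792374994815616830501450048634126148993657954804702703088603345859877449760768) (nat_lit 3432398830864472487023091907762203070291876549327256039356642713023811802714521773468208813620083509679895830688993351656174773520546947602280947666177228800) (nat_lit 3432398830864472487023091907762203070291876549327256039356642713023811802714521773468208813620083509679895830688993351656174773520546947602280947666177228800) :=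
  sem_of_chk (M (nat_lit 422) (B (M (nat_lit 390) (B (L (nat_lit 389) ln9_13_3_c10 ln9_13_3_c10_ok) (M (nat_lit 394) (B (L (nat_lit 393) ln6_13_2_c10 ln6_13_2_c10_ok) (L (nat_lit 395) ln7_13_2 ln7_13_2_ok))))) (B (M (nat_lit 393) (B (L (nat_lit 394) ln6_13_2_c10 ln6_13_2_c10_ok) (M (nat_lit 421) (B (L (nat_lit 392) ln5_13_2_c10 ln5_13_2_c10_ok) (M (nat_lit 389) (B (L (nat_lit 390) ln9_13_3_c10 ln9_13_3_c10_ok) (L (nat_lit 388) ln8_13_3_c10 ln8_13_3_c10_ok))))))) (B (M (nat_lit 421) (B (M (nat_lit 389) (B (L (nat_lit 390) ln9_13_3_c10 ln9_13_3_c10_ok) (L (nat_lit 388) ln8_13_3_c10 ln8_13_3_c10_ok))) (M (nat_lit 420) (B (M (nat_lit 456) (B (L (nat_lit 457) ln5_13_0_c10 ln5_13_0_c10_ok) (L (nat_lit 455) ln4_13_0_c10 ln4_13_0_c10_ok))) (M (nat_lit 392) (B (L (nat_lit 393) ln5_13_2_c10 ln5_13_2_c10_ok) (L (nat_lit 391) ln4_13_2_c10 ln4_13_2_c10_ok))))))) (B (M (nat_lit 391) (B (L (nat_lit 390) ln10_13_3_c10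 ln10_13_3_c10_ok) (M (nat_lit 456) (B (M (nat_lit 488) (B (L (nat_lit 520) ln8_16_7_c10 ln8_16_7_c10_ok) (M (nat_lit 359) (B (L (nat_lit 392) ln8_15_7_c10 ln8_15_7_c10_ok) (L (nat_lit 327) ln7_10_4_c10 ln7_10_4_c10_ok))))) (B (M (nat_lit 359) (B (L (nat_lit 327) ln7_10_4_c10 ln7_10_4_c10_ok) (M (nat_lit 488) (B (L (nat_lit 392) ln8_15_7_c10 ln8_15_7_c10_ok) (L (nat_lit 455) ln7_11_4_c10 ln7_11_4_c10_ok))))) (B (M (nat_lit 421) (B (L (nat_lit 457) ln5_13_0_c10 ln5_13_0_c10_ok) (M (nat_lit 420) (B (L (nat_lit 455) ln4_13_0_c10 ln4_13_0_c10_ok) (L (nat_lit 392) ln4_13_2_c10 ln4_13_2_c10_ok))))) (M (nat_lit 488) (B (L (nat_lit 520) ln8_16_7_c10 ln8_16_7_c10_ok) (M (nat_lit 359) (B (L (nat_lit 455) ln7_11_4_c10 ln7_11_4_c10_ok) (L (nat_lit 327) ln7_10_4_c10 ln7_10_4_c10_ok))))))))))) (M (nat_lit 456) (B (M (nat_lit 421) (B (L (nat_lit 457) ln5_13_0_c10 ln5_13_0_c10_ok) (M (nat_lit 393) (B (L (nat_lit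 394) ln6_13_2_c10 ln6_13_2_c10_ok) (L (nat_lit 392) ln5_13_2_c10 ln5_13_2_c10_ok))))) (B (M (nat_lit 421) (B (L (nat_lit 457) ln5_13_0_c10 ln5_13_0_c10_ok) (M (nat_lit 420) (B (L (nat_lit 455) ln4_13_0_c10 ln4_13_0_c10_ok) (M (nat_lit 392) (B (L (nat_lit 393) ln5_13_2_c10 ln5_13_2_c10_ok) (L (nat_lit 391) ln4_13_2_c10 ln4_13_2_c10_ok))))))) (B (M (nat_lit 393) (B (L (nat_lit 394) ln6_13_2_c10 ln6_13_2_c10_ok) (M (nat_lit 361) (B (L (nat_lit 329) ln9_10_5_c10 ln9_10_5_c10_ok) (M (nat_lit 488) (B (L (nat_lit 520) ln8_16_6_c10 ln8_16_6_c10_ok) (L (nat_lit 392) ln8_15_6_c10 ln8_15_6_c10_ok))))))) (B (M (nat_lit 391) (B (M (nat_lit 421) (B (L (nat_lit 457) ln5_13_0_c10 ln5_13_0_c10_ok) (M (nat_lit 420) (B (L (nat_lit 455) ln4_13_0_c10 ln4_13_0_c10_ok) (L (nat_lit 392) ln4_13_2_c10 ln4_13_2_c10_ok))))) (B (M (nat_lit 488) (B (L (nat_lit 520) ln8_16_7_c10 ln8_16_7_c10_ok) (M (nat_lit 359) (B (L (nat_lit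 455) ln7_11_4_c10 ln7_11_4_c10_ok) (L (nat_lit 327) ln7_10_4_c10 ln7_10_4_c10_ok))))) (M (nat_lit 488) (B (L (nat_lit 520) ln8_16_7_c10 ln8_16_7_c10_ok) (M (nat_lit 359) (B (L (nat_lit 392) ln8_15_7_c10 ln8_15_7_c10_ok) (L (nat_lit 327) ln7_10_4_c10 ln7_10_4_c10_ok)))))))) (M (nat_lit 457) (B (L (nat_lit 421) ln5_13_0_c10 ln5_13_0_c10_ok) (M (nat_lit 393) (B (L (nat_lit 394) ln6_13_2_c10 ln6_13_2_c10_ok) (M (nat_lit 488) (B (L (nat_lit 361) ln9_11_5_c10 ln9_11_5_c10_ok) (L (nat_lit 520) ln8_16_6_c10 ln8_16_6_c10_ok))))))))))))))))) (nat_lit 20839919904714897842993183875746935449619167126634299295237870792374994815616830501450048634126148993657954804702703088603345859877449760768) (nat_lit 3432398830864472487023091907762203070291876549327256039356642713023811802714521773468208813620083509679895830688993351656174773520546947602280947666177228800) (nat_lit 3432398830864472487023091907762203070291876549327256039356642713023811802714521773468208813620083509679895830688993351656174773520546947602280947666177228800)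 (by decide +kernel)
noncomputable def c10_d59 : Cert := (B (M (nat_lit 360) (B (M (nat_lit 457) (B (L (nat_lit 328) ln8_10_4_c10 ln8_10_4_c10_ok) (M (nat_lit 489) (B (L (nat_lit 393) ln9_15_7 ln9_15_7_ok) (L (nat_lit 521) ln9_16_7 ln9_16_7_ok))))) (B (M (nat_lit 457) (B (L (nat_lit 328) ln8_10_4_c10 ln8_10_4_c10_ok) (M (nat_lit 489) (B (L (nat_lit 521) ln9_16_7 ln9_16_7_ok) (L (nat_lit 456) ln8_11_4_c10 ln8_11_4_c10_ok))))) (B (M (nat_lit 328) (B (M (nat_lit 296) (B (L (nat_lit 393) ln8_9_4_c10 ln8_9_4_c10_ok) (M (nat_lit 297) (B (L (nat_lit 265) ln8_12_6_c10 ln8_12_6_c10_ok) (L (nat_lit 329) ln8_13_6_c10 ln8_13_6_c10_ok))))) (B (M (nat_lit 296) (B (L (nat_lit 393) ln8_9_4_c10 ln8_9_4_c10_ok) (M (nat_lit 295) (B (L (nat_lit 263) ln8_12_7_c10 ln8_12_7_c10_ok) (L (nat_lit 327) ln8_13_7_c10 ln8_13_7_c10_ok))))) (M (nat_lit 456) (B (M (nat_lit 329) (B (L (nat_lit 297) ln8_13_6_c10 ln8_13_6_c10_ok)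 (L (nat_lit 361) ln8_14_6_c10 ln8_14_6_c10_ok))) (M (nat_lit 327) (B (L (nat_lit 295) ln8_13_7_c10 ln8_13_7_c10_ok) (L (nat_lit 359) ln8_14_7_c10 ln8_14_7_c10_ok)))))))) (M (nat_lit 361) (B (M (nat_lit 329) (B (L (nat_lit 456) ln8_14_6_c10 ln8_14_6_c10_ok) (M (nat_lit 297) (B (L (nat_lit 265) ln9_8_5_c10 ln9_8_5_c10_ok) (L (nat_lit 393) ln9_9_5_c10 ln9_9_5_c10_ok))))) (B (M (nat_lit 456) (B (L (nat_lit 329) ln8_14_6_c10 ln8_14_6_c10_ok) (M (nat_lit 489) (B (L (nat_lit 457) ln8_11_4_c10 ln8_11_4_c10_ok) (M (nat_lit 488) (B (L (nat_lit 393) ln8_15_6_c10 ln8_15_6_c10_ok) (L (nat_lit 521) ln8_12_4_c10 ln8_12_4_c10_ok))))))) (B (M (nat_lit 456) (B (M (nat_lit 489) (B (L (nat_lit 457) ln8_11_4_c10 ln8_11_4_c10_ok) (M (nat_lit 488) (B (L (nat_lit 393) ln8_15_6_c10 ln8_15_6_c10_ok) (L (nat_lit 521) ln8_12_4_c10 ln8_12_4_c10_ok))))) (B (M (nat_lit 488) (B (M (nat_lit 489) (B (L (nat_lit 457) ln8_11_4_c10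 ln8_11_4_c10_ok) (L (nat_lit 521) ln8_12_4_c10 ln8_12_4_c10_ok))) (M (nat_lit 359) (B (L (nat_lit 327) ln8_14_7_c10 ln8_14_7_c10_ok) (L (nat_lit 391) ln8_15_7_c10 ln8_15_7_c10_ok))))) (B (M (nat_lit 488) (B (L (nat_lit 393) ln8_15_6_c10 ln8_15_6_c10_ok) (M (nat_lit 359) (B (L (nat_lit 327) ln8_14_7_c10 ln8_14_7_c10_ok) (L (nat_lit 391) ln8_15_7_c10 ln8_15_7_c10_ok))))) (M (nat_lit 362) (B (M (nat_lit 391) (B (L (nat_lit 363) ln11_11_1 ln11_11_1_ok) (M (nat_lit 359) (B (L (nat_lit 390) ln10_11_1 ln10_11_1_ok) (L (nat_lit 327) ln8_14_7_c10 ln8_14_7_c10_ok))))) (B (M (nat_lit 330) (B (M (nat_lit 359) (B (L (nat_lit 331) ln7_11_2 ln7_11_2_ok) (L (nat_lit 327) ln8_14_7_c10 ln8_14_7_c10_ok))) (M (nat_lit 457) (B (L (nat_lit 393) ln9_14_6_c10 ln9_14_6_c10_ok) (L (nat_lit 489) ln8_11_4_c10 ln8_11_4_c10_ok))))) (B (M (nat_lit 391) (B (L (nat_lit 363) ln11_11_1 ln11_11_1_ok) (M (nat_lit 390) (B (L (nat_lit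 393) ln6_12_0_c10 ln6_12_0_c10_ok) (L (nat_lit 359) ln10_11_1 ln10_11_1_ok))))) (M (nat_lit 391) (B (L (nat_lit 363) ln11_11_1 ln11_11_1_ok) (M (nat_lit 390) (B (L (nat_lit 393) ln6_12_0_c10 ln6_12_0_c10_ok) (L (nat_lit 423) ln10_13_3_c10 ln10_13_3_c10_ok))))))))))))) (B (M (nat_lit 391) (B (M (nat_lit 390) (B (L (nat_lit 423) ln10_13_3_c10 ln10_13_3_c10_ok) (L (nat_lit 389) ln5_12_0_c10 ln5_12_0_c10_ok))) (M (nat_lit 456) (B (L (nat_lit 329) ln8_14_6_c10 ln8_14_6_c10_ok) (M (nat_lit 359) (B (L (nat_lit 327) ln8_14_7_c10 ln8_14_7_c10_ok) (L (nat_lit 488) ln8_15_7_c10 ln8_15_7_c10_ok))))))) (M (nat_lit 362) (B (M (nat_lit 391) (B (L (nat_lit 363) ln11_11_1 ln11_11_1_ok) (M (nat_lit 390) (B (L (nat_lit 393) ln6_12_0_c10 ln6_12_0_c10_ok) (L (nat_lit 359) ln10_11_1 ln10_11_1_ok))))) (B (M (nat_lit 359) (B (M (nat_lit 391) (B (L (nat_lit 390) ln10_11_1 ln10_11_1_ok) (M (nat_lit 327) (B (L (nat_lit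 326) ln10_11_3 ln10_11_3_ok) (L (nat_lit 295) ln7_9_4_c10 ln7_9_4_c10_ok))))) (M (nat_lit 329) (B (M (nat_lit 330) (B (L (nat_lit 331) ln7_11_2 ln7_11_2_ok) (L (nat_lit 358) ln6_11_2_c10 ln6_11_2_c10_ok))) (M (nat_lit 297) (B (L (nat_lit 265) ln9_8_5_c10 ln9_8_5_c10_ok) (L (nat_lit 393) ln9_9_5_c10 ln9_9_5_c10_ok))))))) (B (M (nat_lit 391) (B (L (nat_lit 363) ln11_11_1 ln11_11_1_ok) (M (nat_lit 390) (B (L (nat_lit 359) ln10_11_1 ln10_11_1_ok) (L (nat_lit 423) ln10_13_3_c10 ln10_13_3_c10_ok))))) (B (M (nat_lit 391) (B (L (nat_lit 363) ln11_11_1 ln11_11_1_ok) (M (nat_lit 390) (B (L (nat_lit 393) ln6_12_0_c10 ln6_12_0_c10_ok) (L (nat_lit 423) ln10_13_3_c10 ln10_13_3_c10_ok))))) (M (nat_lit 330) (B (M (nat_lit 331) (B (L (nat_lit 359) ln7_11_2 ln7_11_2_ok) (M (nat_lit 332) (B (L (nat_lit 333) ln13_10_1 ln13_10_1_ok) (L (nat_lit 329) ln12_10_1 ln12_10_1_ok))))) (B (M (nat_lit 331) (B (L (nat_lit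 359) ln7_11_2 ln7_11_2_ok) (M (nat_lit 332) (B (L (nat_lit 363) ln8_11_2 ln8_11_2_ok) (L (nat_lit 329) ln12_10_1 ln12_10_1_ok))))) (B (M (nat_lit 393) (B (L (nat_lit 457) ln9_14_6_c10 ln9_14_6_c10_ok) (M (nat_lit 298) (B (L (nat_lit 266) ln10_8_5_c10 ln10_8_5_c10_ok) (L (nat_lit 329) ln9_13_6_c10 ln9_13_6_c10_ok))))) (M (nat_lit 331) (B (L (nat_lit 359) ln7_11_2 ln7_11_2_ok) (M (nat_lit 332) (B (L (nat_lit 333) ln13_10_1 ln13_10_1_ok) (L (nat_lit 363) ln8_11_2 ln8_11_2_ok))))))))))))))))))))))) (M (nat_lit 360) (B (M (nat_lit 457) (B (L (nat_lit 328) ln8_10_4_c10 ln8_10_4_c10_ok) (M (nat_lit 489) (B (L (nat_lit 456) ln8_11_4_c10 ln8_11_4_c10_ok) (L (nat_lit 393) ln9_15_7 ln9_15_7_ok))))) (B (M (nat_lit 456) (B (M (nat_lit 455) (B (L (nat_lit 487) ln8_11_5_c10 ln8_11_5_c10_ok) (L (nat_lit 427) ln11_13_1_c10 ln11_13_1_c10_ok))) (M (nat_lit 488) (B (M (nat_lit 361) (B (L (nat_lit 329) ln8_14_6_c10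 ln8_14_6_c10_ok) (L (nat_lit 393) ln8_15_6_c10 ln8_15_6_c10_ok))) (M (nat_lit 489) (B (L (nat_lit 457) ln8_11_4_c10 ln8_11_4_c10_ok) (L (nat_lit 521) ln8_12_4_c10 ln8_12_4_c10_ok))))))) (B (M (nat_lit 457) (B (L (nat_lit 328) ln8_10_4_c10 ln8_10_4_c10_ok) (M (nat_lit 489) (B (L (nat_lit 393) ln9_15_7 ln9_15_7_ok) (L (nat_lit 521) ln9_16_7 ln9_16_7_ok))))) (B (M (nat_lit 457) (B (L (nat_lit 328) ln8_10_4_c10 ln8_10_4_c10_ok) (M (nat_lit 489) (B (L (nat_lit 456) ln8_11_4_c10 ln8_11_4_c10_ok) (L (nat_lit 521) ln9_16_7 ln9_16_7_ok))))) (M (nat_lit 456) (B (M (nat_lit 455) (B (L (nat_lit 487) ln8_11_5_c10 ln8_11_5_c10_ok) (L (nat_lit 427) ln11_13_1_c10 ln11_13_1_c10_ok))) (M (nat_lit 328) (B (M (nat_lit 327) (B (L (nat_lit 295) ln8_13_7_c10 ln8_13_7_c10_ok) (L (nat_lit 359) ln8_14_7_c10 ln8_14_7_c10_ok))) (M (nat_lit 329) (B (L (nat_lit 297) ln8_13_6_c10 ln8_13_6_c10_ok) (L (nat_lit 361) ln8_14_6_c10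 ln8_14_6_c10_ok)))))))))))))
theorem c10_s271 : Sem (nat_lit 20839919904693236361007865009656479088805549285201202130586497225381475443893278772482817183946149193610266214248817219767709894472535900160) (nat_lit 6864797662927696416716277335736413302885813955683272410926771563439622497760412369632336799555086356022946446542906536858757556957647968626143001695011995648) (nat_lit 6864797662927696416716277335736413302885813955683272410926771563439622497760412369632336799555086356022946446542906536858757556957647968626143001695011995648) :=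
  sem_of_chk (M (nat_lit 392) (B (M (nat_lit 391) (B (L (nat_lit 427) ln11_13_3 ln11_13_3_ok) (M (nat_lit 390) (B (L (nat_lit 389) ln5_12_0_c10 ln5_12_0_c10_ok) (L (nat_lit 423) ln10_13_3_c10 ln10_13_3_c10_ok))))) (B (M (nat_lit 391) (B (L (nat_lit 427) ln11_13_3 ln11_13_3_ok) (M (nat_lit 390) (B (L (nat_lit 423) ln10_13_3_c10 ln10_13_3_c10_ok) (L (nat_lit 393) ln6_12_0_c10 ln6_12_0_c10_ok))))) (B (M (nat_lit 391) (B (L (nat_lit 427) ln11_13_3 ln11_13_3_ok) (M (nat_lit 390) (B (L (nat_lit 389) ln5_12_0_c10 ln5_12_0_c10_ok) (L (nat_lit 393) ln6_12_0_c10 ln6_12_0_c10_ok))))) c10_d59)))) (nat_lit 20839919904693236361007865009656479088805549285201202130586497225381475443893278772482817183946149193610266214248817219767709894472535900160) (nat_lit 6864797662927696416716277335736413302885813955683272410926771563439622497760412369632336799555086356022946446542906536858757556957647968626143001695011995648)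 (nat_lit 6864797662927696416716277335736413302885813955683272410926771563439622497760412369632336799555086356022946446542906536858757556957647968626143001695011995648) (by decide +kernel)
theorem c10_s302 : Sem (nat_lit 20839919904563267469136299467468243040968311306576724125601814824542818561135580730608205265846292373090681313944358956363619163917254656000) (nat_lit 4795005774401788348006831456907122377809858428647604740935748723544257071082180806449290091308329723919692194031006909079102356737445497056960446464) (nat_lit 4795005774401788348006831456907122377809858428647604740935748723544257071082180806449290091308329723919692194031006909079102356737445497056960446464) :=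
  sem_of_chk (M (nat_lit 361) (B (M (nat_lit 329) (B (L (nat_lit 458) ln10_14_7 ln10_14_7_ok) (M (nat_lit 297) (B (L (nat_lit 265) ln9_8_4_c10 ln9_8_4_c10_ok) (L (nat_lit 393) ln9_9_4_c10 ln9_9_4_c10_ok))))) (B (M (nat_lit 360) (B (M (nat_lit 359) (B (L (nat_lit 395) ln7_11_0 ln7_11_0_ok) (M (nat_lit 358) (B (L (nat_lit 393) ln6_11_0_c10 ln6_11_0_c10_ok) (M (nat_lit 326) (B (L (nat_lit 327) ln10_11_3 ln10_11_3_ok) (L (nat_lit 325) ln9_11_3_c10 ln9_11_3_c10_ok))))))) (B (M (nat_lit 359) (B (M (nat_lit 358) (B (L (nat_lit 393) ln6_11_0_c10 ln6_11_0_c10_ok) (M (nat_lit 326) (B (L (nat_lit 327) ln10_11_3 ln10_11_3_ok) (L (nat_lit 325) ln9_11_3_c10 ln9_11_3_c10_ok))))) (B (M (nat_lit 358) (B (M (nat_lit 326) (B (L (nat_lit 327) ln10_11_3 ln10_11_3_ok) (L (nat_lit 325) ln9_11_3_c10 ln9_11_3_c10_ok))) (M (nat_lit 390) (B (L (nat_lit 391) ln10_11_1 ln10_11_1_ok) (L (nat_lit 389) ln9_11_1_c10 ln9_11_1_c10_ok)))))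 (B (M (nat_lit 358) (B (L (nat_lit 393) ln6_11_0_c10 ln6_11_0_c10_ok) (M (nat_lit 390) (B (L (nat_lit 391) ln10_11_1 ln10_11_1_ok) (L (nat_lit 389) ln9_11_1_c10 ln9_11_1_c10_ok))))) (M (nat_lit 363) (B (M (nat_lit 327) (B (L (nat_lit 328) ln11_11_3 ln11_11_3_ok) (L (nat_lit 326) ln10_11_3 ln10_11_3_ok))) (M (nat_lit 391) (B (L (nat_lit 392) ln11_11_1 ln11_11_1_ok) (L (nat_lit 390) ln10_11_1 ln10_11_1_ok))))))))) (B (M (nat_lit 359) (B (L (nat_lit 395) ln7_11_0 ln7_11_0_ok) (M (nat_lit 363) (B (M (nat_lit 327) (B (L (nat_lit 328) ln11_11_3 ln11_11_3_ok) (L (nat_lit 326) ln10_11_3 ln10_11_3_ok))) (M (nat_lit 391) (B (L (nat_lit 392) ln11_11_1 ln11_11_1_ok) (L (nat_lit 390) ln10_11_1 ln10_11_1_ok))))))) (B (M (nat_lit 359) (B (L (nat_lit 395) ln7_11_0 ln7_11_0_ok) (M (nat_lit 358) (B (L (nat_lit 393) ln6_11_0_c10 ln6_11_0_c10_ok) (M (nat_lit 390) (B (L (nat_lit 391) ln10_11_1 ln10_11_1_ok) (L (nat_lit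 389) ln9_11_1_c10 ln9_11_1_c10_ok))))))) (M (nat_lit 363) (B (M (nat_lit 331) (B (L (nat_lit 332) ln8_11_2 ln8_11_2_ok) (M (nat_lit 299) (B (L (nat_lit 267) ln11_8_5 ln11_8_5_ok) (L (nat_lit 395) ln11_9_5 ln11_9_5_ok))))) (M (nat_lit 364) (B (M (nat_lit 328) (B (L (nat_lit 329) ln12_11_3 ln12_11_3_ok) (L (nat_lit 327) ln11_11_3 ln11_11_3_ok))) (M (nat_lit 392) (B (L (nat_lit 393) ln12_11_1 ln12_11_1_ok) (L (nat_lit 391) ln11_11_1 ln11_11_1_ok)))))))))))) (B (M (nat_lit 363) (B (M (nat_lit 331) (B (L (nat_lit 458) ln10_14_6 ln10_14_6_ok) (M (nat_lit 299) (B (L (nat_lit 267) ln11_8_5 ln11_8_5_ok) (L (nat_lit 395) ln11_9_5 ln11_9_5_ok))))) (B (M (nat_lit 458) (B (L (nat_lit 331) ln10_14_6 ln10_14_6_ok) (M (nat_lit 490) (B (L (nat_lit 395) ln10_15_6 ln10_15_6_ok) (L (nat_lit 393) ln10_15_7 ln10_15_7_ok))))) (B (M (nat_lit 393) (B (M (nat_lit 392) (B (L (nat_lit 364) ln12_11_1 ln12_11_1_ok) (L (nat_lit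 391) ln7_12_2_c10 ln7_12_2_c10_ok))) (M (nat_lit 360) (B (M (nat_lit 359) (B (L (nat_lit 395) ln7_11_0 ln7_11_0_ok) (L (nat_lit 358) ln6_11_0_c10 ln6_11_0_c10_ok))) (M (nat_lit 457) (B (M (nat_lit 458) (B (L (nat_lit 489) ln10_11_5 ln10_11_5_ok) (L (nat_lit 490) ln10_15_7 ln10_15_7_ok))) (B (M (nat_lit 425) (B (L (nat_lit 489) ln9_15_6 ln9_15_6_ok) (L (nat_lit 328) ln9_14_7_c10 ln9_14_7_c10_ok))) (M (nat_lit 328) (B (L (nat_lit 327) ln11_11_3 ln11_11_3_ok) (L (nat_lit 425) ln9_14_7_c10 ln9_14_7_c10_ok)))))))))) (B (M (nat_lit 393) (B (M (nat_lit 392) (B (L (nat_lit 364) ln12_11_1 ln12_11_1_ok) (L (nat_lit 391) ln7_12_2_c10 ln7_12_2_c10_ok))) (M (nat_lit 458) (B (L (nat_lit 331) ln10_14_6 ln10_14_6_ok) (L (nat_lit 490) ln10_15_7 ln10_15_7_ok))))) (M (nat_lit 393) (B (M (nat_lit 392) (B (L (nat_lit 364) ln12_11_1 ln12_11_1_ok) (L (nat_lit 391) ln7_12_2_c10 ln7_12_2_c10_ok))) (M (nat_lit 360) (B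 (M (nat_lit 359) (B (L (nat_lit 395) ln7_11_0 ln7_11_0_ok) (L (nat_lit 358) ln6_11_0_c10 ln6_11_0_c10_ok))) (B (M (nat_lit 327) (B (L (nat_lit 328) ln11_11_3 ln11_11_3_ok) (M (nat_lit 359) (B (L (nat_lit 326) ln10_11_3 ln10_11_3_ok) (L (nat_lit 358) ln6_11_0_c10 ln6_11_0_c10_ok))))) (M (nat_lit 331) (B (L (nat_lit 332) ln8_11_2 ln8_11_2_ok) (M (nat_lit 299) (B (L (nat_lit 267) ln11_8_5 ln11_8_5_ok) (L (nat_lit 395) ln11_9_5 ln11_9_5_ok))))))))))))))) (M (nat_lit 363) (B (M (nat_lit 458) (B (L (nat_lit 331) ln10_14_6 ln10_14_6_ok) (L (nat_lit 329) ln10_14_7 ln10_14_7_ok))) (B (M (nat_lit 329) (B (L (nat_lit 458) ln10_14_7 ln10_14_7_ok) (M (nat_lit 328) (B (L (nat_lit 364) ln12_11_3 ln12_11_3_ok) (M (nat_lit 327) (B (L (nat_lit 360) ln11_11_3 ln11_11_3_ok) (L (nat_lit 326) ln6_10_0_c10 ln6_10_0_c10_ok))))))) (M (nat_lit 360) (B (M (nat_lit 359) (B (L (nat_lit 395) ln7_11_0 ln7_11_0_ok) (M (nat_lit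 327) (B (L (nat_lit 328) ln11_11_3 ln11_11_3_ok) (L (nat_lit 326) ln10_11_3 ln10_11_3_ok))))) (B (M (nat_lit 359) (B (M (nat_lit 327) (B (L (nat_lit 328) ln11_11_3 ln11_11_3_ok) (L (nat_lit 326) ln10_11_3 ln10_11_3_ok))) (M (nat_lit 391) (B (L (nat_lit 392) ln11_11_1 ln11_11_1_ok) (L (nat_lit 390) ln10_11_1 ln10_11_1_ok))))) (B (M (nat_lit 359) (B (L (nat_lit 395) ln7_11_0 ln7_11_0_ok) (M (nat_lit 391) (B (L (nat_lit 392) ln11_11_1 ln11_11_1_ok) (L (nat_lit 390) ln10_11_1 ln10_11_1_ok))))) (M (nat_lit 331) (B (L (nat_lit 332) ln8_11_2 ln8_11_2_ok) (M (nat_lit 299) (B (L (nat_lit 267) ln11_8_5 ln11_8_5_ok) (L (nat_lit 395) ln11_9_5 ln11_9_5_ok)))))))))))))))) (nat_lit 20839919904563267469136299467468243040968311306576724125601814824542818561135580730608205265846292373090681313944358956363619163917254656000) (nat_lit 4795005774401788348006831456907122377809858428647604740935748723544257071082180806449290091308329723919692194031006909079102356737445497056960446464)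 (nat_lit 4795005774401788348006831456907122377809858428647604740935748723544257071082180806449290091308329723919692194031006909079102356737445497056960446464) (by decide +kernel)
noncomputable def c10_d60 : Cert := (B (M (nat_lit 360) (B (M (nat_lit 359) (B (L (nat_lit 395) ln7_11_0 ln7_11_0_ok) (M (nat_lit 358) (B (L (nat_lit 393) ln6_11_0_c10 ln6_11_0_c10_ok) (M (nat_lit 326) (B (L (nat_lit 327) ln10_11_3 ln10_11_3_ok) (L (nat_lit 325) ln9_11_3_c10 ln9_11_3_c10_ok))))))) (B (M (nat_lit 359) (B (M (nat_lit 358) (B (L (nat_lit 393) ln6_11_0_c10 ln6_11_0_c10_ok) (M (nat_lit 326) (B (L (nat_lit 327) ln10_11_3 ln10_11_3_ok) (L (nat_lit 325) ln9_11_3_c10 ln9_11_3_c10_ok))))) (B (M (nat_lit 358) (B (M (nat_lit 326) (B (L (nat_lit 327) ln10_11_3 ln10_11_3_ok) (L (nat_lit 325) ln9_11_3_c10 ln9_11_3_c10_ok))) (M (nat_lit 390) (B (L (nat_lit 391) ln10_11_1 ln10_11_1_ok) (L (nat_lit 389) ln9_11_1_c10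 ln9_11_1_c10_ok))))) (B (M (nat_lit 358) (B (L (nat_lit 393) ln6_11_0_c10 ln6_11_0_c10_ok) (M (nat_lit 390) (B (L (nat_lit 391) ln10_11_1 ln10_11_1_ok) (L (nat_lit 389) ln9_11_1_c10 ln9_11_1_c10_ok))))) (M (nat_lit 363) (B (M (nat_lit 327) (B (L (nat_lit 328) ln11_11_3 ln11_11_3_ok) (L (nat_lit 326) ln10_11_3 ln10_11_3_ok))) (M (nat_lit 391) (B (L (nat_lit 392) ln11_11_1 ln11_11_1_ok) (L (nat_lit 390) ln10_11_1 ln10_11_1_ok))))))))) (B (M (nat_lit 359) (B (L (nat_lit 395) ln7_11_0 ln7_11_0_ok) (M (nat_lit 358) (B (M (nat_lit 326) (B (L (nat_lit 327) ln10_11_3 ln10_11_3_ok) (L (nat_lit 325) ln9_11_3_c10 ln9_11_3_c10_ok))) (M (nat_lit 390) (B (L (nat_lit 391) ln10_11_1 ln10_11_1_ok) (L (nat_lit 389) ln9_11_1_c10 ln9_11_1_c10_ok))))))) (B (M (nat_lit 359) (B (L (nat_lit 395) ln7_11_0 ln7_11_0_ok) (M (nat_lit 358) (B (L (nat_lit 393) ln6_11_0_c10 ln6_11_0_c10_ok) (M (nat_lit 390) (B (L (nat_lit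 391) ln10_11_1 ln10_11_1_ok) (L (nat_lit 389) ln9_11_1_c10 ln9_11_1_c10_ok))))))) (M (nat_lit 392) (B (M (nat_lit 391) (B (L (nat_lit 363) ln11_11_1 ln11_11_1_ok) (M (nat_lit 390) (B (L (nat_lit 393) ln6_12_2_c10 ln6_12_2_c10_ok) (L (nat_lit 389) ln5_12_2_c10 ln5_12_2_c10_ok))))) (B (M (nat_lit 424) (B (M (nat_lit 329) (B (L (nat_lit 456) ln8_14_6_c10 ln8_14_6_c10_ok) (M (nat_lit 297) (B (L (nat_lit 265) ln9_8_4_c10 ln9_8_4_c10_ok) (L (nat_lit 328) ln8_13_6_c10 ln8_13_6_c10_ok))))) (B (M (nat_lit 329) (B (L (nat_lit 456) ln8_14_6_c10 ln8_14_6_c10_ok) (M (nat_lit 297) (B (L (nat_lit 393) ln9_9_4_c10 ln9_9_4_c10_ok) (L (nat_lit 328) ln8_13_6_c10 ln8_13_6_c10_ok))))) (B (M (nat_lit 393) (B (M (nat_lit 456) (B (L (nat_lit 329) ln8_14_6_c10 ln8_14_6_c10_ok) (L (nat_lit 488) ln8_15_6_c10 ln8_15_6_c10_ok))) (M (nat_lit 423) (B (L (nat_lit 395) ln11_12_1 ln11_12_1_ok) (M (nat_lit 391) (B (L (nat_lit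 390) ln6_12_2_c10 ln6_12_2_c10_ok) (L (nat_lit 422) ln10_12_1_c10 ln10_12_1_c10_ok))))))) (B (M (nat_lit 393) (B (M (nat_lit 423) (B (L (nat_lit 395) ln11_12_1 ln11_12_1_ok) (M (nat_lit 391) (B (L (nat_lit 390) ln6_12_2_c10 ln6_12_2_c10_ok) (L (nat_lit 422) ln10_12_1_c10 ln10_12_1_c10_ok))))) (M (nat_lit 457) (B (M (nat_lit 425) (B (L (nat_lit 330) ln10_10_5 ln10_10_5_ok) (L (nat_lit 489) ln9_15_6 ln9_15_6_ok))) (B (M (nat_lit 425) (B (L (nat_lit 489) ln9_15_6 ln9_15_6_ok) (L (nat_lit 328) ln8_10_4_c10 ln8_10_4_c10_ok))) (B (M (nat_lit 456) (B (L (nat_lit 488) ln8_15_6_c10 ln8_15_6_c10_ok) (L (nat_lit 489) ln8_11_4_c10 ln8_11_4_c10_ok))) (M (nat_lit 425) (B (L (nat_lit 330) ln10_10_5 ln10_10_5_ok) (L (nat_lit 328) ln8_10_4_c10 ln8_10_4_c10_ok))))))))) (M (nat_lit 328) (B (M (nat_lit 329) (B (L (nat_lit 297) ln8_13_6_c10 ln8_13_6_c10_ok) (M (nat_lit 327) (B (L (nat_lit 326) ln6_10_0_c10 ln6_10_0_c10_ok)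 (L (nat_lit 295) ln8_13_7_c10 ln8_13_7_c10_ok))))) (M (nat_lit 393) (B (M (nat_lit 423) (B (L (nat_lit 395) ln11_12_1 ln11_12_1_ok) (L (nat_lit 455) ln8_10_5_c10 ln8_10_5_c10_ok))) (M (nat_lit 425) (B (L (nat_lit 457) ln8_10_4_c10 ln8_10_4_c10_ok) (L (nat_lit 296) ln8_9_4_c10 ln8_9_4_c10_ok)))))))))))) (B (M (nat_lit 363) (B (L (nat_lit 391) ln11_11_1 ln11_11_1_ok) (M (nat_lit 328) (B (L (nat_lit 327) ln11_11_3 ln11_11_3_ok) (M (nat_lit 329) (B (L (nat_lit 364) ln12_11_3 ln12_11_3_ok) (M (nat_lit 297) (B (L (nat_lit 265) ln9_8_4_c10 ln9_8_4_c10_ok) (L (nat_lit 424) ln8_13_6_c10 ln8_13_6_c10_ok))))))))) (M (nat_lit 328) (B (M (nat_lit 363) (B (L (nat_lit 327) ln11_11_3 ln11_11_3_ok) (M (nat_lit 364) (B (L (nat_lit 329) ln12_11_3 ln12_11_3_ok) (L (nat_lit 393) ln12_11_1 ln12_11_1_ok))))) (B (M (nat_lit 424) (B (M (nat_lit 329) (B (L (nat_lit 297) ln8_13_6_c10 ln8_13_6_c10_ok) (L (nat_lit 456)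 ln8_14_6_c10 ln8_14_6_c10_ok))) (M (nat_lit 327) (B (L (nat_lit 363) ln11_11_3 ln11_11_3_ok) (L (nat_lit 295) ln8_13_7_c10 ln8_13_7_c10_ok))))) (B (M (nat_lit 424) (B (M (nat_lit 329) (B (L (nat_lit 297) ln8_13_6_c10 ln8_13_6_c10_ok) (L (nat_lit 456) ln8_14_6_c10 ln8_14_6_c10_ok))) (M (nat_lit 393) (B (M (nat_lit 423) (B (L (nat_lit 395) ln11_12_1 ln11_12_1_ok) (L (nat_lit 455) ln8_10_5_c10 ln8_10_5_c10_ok))) (M (nat_lit 425) (B (L (nat_lit 457) ln8_10_4_c10 ln8_10_4_c10_ok) (L (nat_lit 296) ln8_9_4_c10 ln8_9_4_c10_ok))))))) (M (nat_lit 393) (B (M (nat_lit 363) (B (L (nat_lit 364) ln12_11_1 ln12_11_1_ok) (L (nat_lit 327) ln11_11_3 ln11_11_3_ok))) (M (nat_lit 425) (B (L (nat_lit 457) ln9_14_7_c10 ln9_14_7_c10_ok) (L (nat_lit 296) ln8_9_4_c10 ln8_9_4_c10_ok)))))))))))))))))) (B (M (nat_lit 329) (B (L (nat_lit 458) ln10_14_7 ln10_14_7_ok) (M (nat_lit 297) (B (L (nat_lit 265) ln9_8_4_c10 ln9_8_4_c10_ok)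 (L (nat_lit 393) ln9_9_4_c10 ln9_9_4_c10_ok))))) (M (nat_lit 360) (B (M (nat_lit 359) (B (L (nat_lit 395) ln7_11_0 ln7_11_0_ok) (M (nat_lit 358) (B (L (nat_lit 393) ln6_11_0_c10 ln6_11_0_c10_ok) (M (nat_lit 390) (B (L (nat_lit 391) ln10_11_1 ln10_11_1_ok) (L (nat_lit 389) ln9_11_1_c10 ln9_11_1_c10_ok))))))) (B (M (nat_lit 359) (B (M (nat_lit 390) (B (L (nat_lit 391) ln10_11_1 ln10_11_1_ok) (M (nat_lit 358) (B (L (nat_lit 393) ln6_11_0_c10 ln6_11_0_c10_ok) (L (nat_lit 389) ln9_11_1_c10 ln9_11_1_c10_ok))))) (M (nat_lit 363) (B (M (nat_lit 331) (B (L (nat_lit 332) ln8_11_2 ln8_11_2_ok) (L (nat_lit 330) ln7_11_2 ln7_11_2_ok))) (M (nat_lit 327) (B (L (nat_lit 328) ln11_11_3 ln11_11_3_ok) (L (nat_lit 326) ln10_11_3 ln10_11_3_ok))))))) (B (M (nat_lit 359) (B (L (nat_lit 395) ln7_11_0 ln7_11_0_ok) (M (nat_lit 363) (B (M (nat_lit 331) (B (L (nat_lit 332) ln8_11_2 ln8_11_2_ok) (L (nat_lit 330) ln7_11_2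 ln7_11_2_ok))) (M (nat_lit 327) (B (L (nat_lit 328) ln11_11_3 ln11_11_3_ok) (L (nat_lit 326) ln10_11_3 ln10_11_3_ok))))))) (M (nat_lit 363) (B (M (nat_lit 331) (B (L (nat_lit 332) ln8_11_2 ln8_11_2_ok) (L (nat_lit 458) ln10_14_6 ln10_14_6_ok))) (M (nat_lit 392) (B (L (nat_lit 391) ln11_11_1 ln11_11_1_ok) (M (nat_lit 393) (B (L (nat_lit 364) ln12_11_1 ln12_11_1_ok) (M (nat_lit 328) (B (L (nat_lit 327) ln11_11_3 ln11_11_3_ok) (M (nat_lit 425) (B (L (nat_lit 457) ln9_14_7_c10 ln9_14_7_c10_ok) (L (nat_lit 296) ln8_9_4_c10 ln8_9_4_c10_ok)))))))))))))))))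
theorem c10_s303 : Sem (nat_lit 20839919904563267469136299467468243040968311306576724125601814824542818561135580730608205265846292373090681313944358956363619163917254656000) (nat_lit 2397502888038212384511093017345527028540526059175048892715452660211965210379812298781988473073064215245580066955755460727916435994395902126097170432) (nat_lit 2397502888038212384511093017345527028540526059175048892715452660211965210379812298781988473073064215245580066955755460727916435994395902126097170432) :=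
  sem_of_chk (M (nat_lit 361) (B (M (nat_lit 329) (B (M (nat_lit 297) (B (L (nat_lit 265) ln9_8_4_c10 ln9_8_4_c10_ok) (L (nat_lit 330) ln10_13_7_c10 ln10_13_7_c10_ok))) (L (nat_lit 458) ln10_14_7 ln10_14_7_ok))) (B (M (nat_lit 363) (B (M (nat_lit 329) (B (M (nat_lit 328) (B (L (nat_lit 364) ln12_11_3 ln12_11_3_ok) (M (nat_lit 327) (B (L (nat_lit 330) ln7_10_0_c10 ln7_10_0_c10_ok) (L (nat_lit 326) ln6_10_0_c10 ln6_10_0_c10_ok))))) (B (M (nat_lit 364) (B (L (nat_lit 328) ln12_11_3 ln12_11_3_ok) (L (nat_lit 393) ln13_11_1 ln13_11_1_ok))) (L (nat_lit 458) ln10_14_7 ln10_14_7_ok)))) (B (M (nat_lit 364) (B (L (nat_lit 393) ln13_11_1 ln13_11_1_ok) (L (nat_lit 332) ln13_14_7 ln13_14_7_ok))) (B (M (nat_lit 331) (B (M (nat_lit 332) (B (L (nat_lit 360) ln8_11_2 ln8_11_2_ok) (M (nat_lit 333) (B (L (nat_lit 334) ln14_10_1 ln14_10_1_ok) (L (nat_lit 364) ln9_11_2 ln9_11_2_ok))))) (B (M (nat_lit 332) (B (L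 (nat_lit 360) ln8_11_2 ln8_11_2_ok) (M (nat_lit 333) (B (L (nat_lit 330) ln13_10_1 ln13_10_1_ok) (L (nat_lit 364) ln9_11_2 ln9_11_2_ok))))) (M (nat_lit 299) (B (L (nat_lit 267) ln11_8_5 ln11_8_5_ok) (L (nat_lit 330) ln10_13_6 ln10_13_6_ok)))))) (M (nat_lit 360) (B (M (nat_lit 331) (B (L (nat_lit 332) ln8_11_2 ln8_11_2_ok) (M (nat_lit 327) (B (L (nat_lit 328) ln11_11_3 ln11_11_3_ok) (M (nat_lit 359) (B (L (nat_lit 330) ln7_11_2 ln7_11_2_ok) (L (nat_lit 326) ln10_11_3 ln10_11_3_ok))))))) (B (M (nat_lit 359) (B (M (nat_lit 327) (B (L (nat_lit 328) ln11_11_3 ln11_11_3_ok) (L (nat_lit 326) ln10_11_3 ln10_11_3_ok))) (M (nat_lit 391) (B (L (nat_lit 392) ln11_11_1 ln11_11_1_ok) (L (nat_lit 390) ln10_11_1 ln10_11_1_ok))))) (B (M (nat_lit 359) (B (M (nat_lit 331) (B (L (nat_lit 332) ln8_11_2 ln8_11_2_ok) (L (nat_lit 330) ln7_11_2 ln7_11_2_ok))) (M (nat_lit 391) (B (L (nat_lit 392) ln11_11_1 ln11_11_1_ok)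 (L (nat_lit 390) ln10_11_1 ln10_11_1_ok))))) (M (nat_lit 331) (B (L (nat_lit 332) ln8_11_2 ln8_11_2_ok) (M (nat_lit 299) (B (L (nat_lit 267) ln11_8_5 ln11_8_5_ok) (L (nat_lit 330) ln10_13_6 ln10_13_6_ok))))))))))))) c10_d60))) (nat_lit 20839919904563267469136299467468243040968311306576724125601814824542818561135580730608205265846292373090681313944358956363619163917254656000) (nat_lit 2397502888038212384511093017345527028540526059175048892715452660211965210379812298781988473073064215245580066955755460727916435994395902126097170432) (nat_lit 2397502888038212384511093017345527028540526059175048892715452660211965210379812298781988473073064215245580066955755460727916435994395902126097170432) (by decide +kernel)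
theorem c10_s326 : Sem (nat_lit 8931394323165503754481658153670348049985162940857813804920622417077344278730704448857942057155343404368412318944338361584051269924982620160) (nat_lit 37739624260517130932233815203992693640787242550884232796548580410252810875245112558803146053664845070755352894582892599572400205525288089531275415718134158180682083336192) (nat_lit 37739624260517130932233815203992693640787242550884232796548580410252810875245112558803146053664845070755352894582892599572400205525288089531275415718134158180682083336192) :=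
  sem_of_chk (M (nat_lit 402) (B (M (nat_lit 403) (B (L (nat_lit 431) ln15_13_2_c10 ln15_13_2_c10_ok) (M (nat_lit 404) (B (L (nat_lit 401) ln20_12_1_c10 ln20_12_1_c10_ok) (L (nat_lit 405) ln21_12_1_c10 ln21_12_1_c10_ok))))) (B (M (nat_lit 370) (B (M (nat_lit 465) (B (L (nat_lit 338) ln18_10_5_c10 ln18_10_5_c10_ok) (M (nat_lit 497) (B (L (nat_lit 529) ln17_16_6_c10 ln17_16_6_c10_ok) (L (nat_lit 466) ln18_11_5_c10 ln18_11_5_c10_ok))))) (B (M (nat_lit 465) (B (L (nat_lit 338) ln18_10_5_c10 ln18_10_5_c10_ok) (M (nat_lit 497) (B (L (nat_lit 401) ln17_15_6_c10 ln17_15_6_c10_ok) (L (nat_lit 466) ln18_11_5_c10 ln18_11_5_c10_ok))))) (B (M (nat_lit 338) (B (L (nat_lit 465) ln18_10_5_c10 ln18_10_5_c10_ok) (M (nat_lit 306) (B (L (nat_lit 401) ln18_9_5_c10 ln18_9_5_c10_ok) (M (nat_lit 305) (B (L (nat_lit 337) ln18_13_7_c10 ln18_13_7_c10_ok) (L (nat_lit 273) ln18_12_7_c10 ln18_12_7_c10_ok))))))) (B (M (nat_lit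 466) (B (M (nat_lit 371) (B (L (nat_lit 339) ln18_14_6_c10 ln18_14_6_c10_ok) (M (nat_lit 498) (B (L (nat_lit 403) ln18_15_6_c10 ln18_15_6_c10_ok) (M (nat_lit 499) (B (L (nat_lit 531) ln18_12_4_c10 ln18_12_4_c10_ok) (L (nat_lit 467) ln18_11_4_c10 ln18_11_4_c10_ok))))))) (B (M (nat_lit 338) (B (M (nat_lit 339) (B (L (nat_lit 371) ln18_14_6_c10 ln18_14_6_c10_ok) (L (nat_lit 307) ln18_13_6_c10 ln18_13_6_c10_ok))) (M (nat_lit 305) (B (L (nat_lit 337) ln18_13_7_c10 ln18_13_7_c10_ok) (M (nat_lit 306) (B (L (nat_lit 401) ln18_9_5_c10 ln18_9_5_c10_ok) (L (nat_lit 273) ln18_12_7_c10 ln18_12_7_c10_ok))))))) (M (nat_lit 498) (B (M (nat_lit 499) (B (L (nat_lit 531) ln18_12_4_c10 ln18_12_4_c10_ok) (L (nat_lit 467) ln18_11_4_c10 ln18_11_4_c10_ok))) (M (nat_lit 530) (B (L (nat_lit 401) ln18_16_7_c10 ln18_16_7_c10_ok) (M (nat_lit 529) (B (L (nat_lit 561) ln18_13_5_c10 ln18_13_5_c10_ok) (L (nat_lit 497) ln18_12_5_c10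 ln18_12_5_c10_ok)))))))))) (M (nat_lit 466) (B (M (nat_lit 467) (B (L (nat_lit 499) ln18_11_4_c10 ln18_11_4_c10_ok) (M (nat_lit 465) (B (L (nat_lit 468) ln20_14_3_c10 ln20_14_3_c10_ok) (L (nat_lit 497) ln18_11_5_c10 ln18_11_5_c10_ok))))) (B (M (nat_lit 371) (B (L (nat_lit 339) ln18_14_6_c10 ln18_14_6_c10_ok) (M (nat_lit 498) (B (L (nat_lit 403) ln18_15_6_c10 ln18_15_6_c10_ok) (M (nat_lit 499) (B (L (nat_lit 531) ln18_12_4_c10 ln18_12_4_c10_ok) (L (nat_lit 467) ln18_11_4_c10 ln18_11_4_c10_ok))))))) (M (nat_lit 498) (B (M (nat_lit 497) (B (L (nat_lit 529) ln18_12_5_c10 ln18_12_5_c10_ok) (L (nat_lit 465) ln18_11_5_c10 ln18_11_5_c10_ok))) (M (nat_lit 371) (B (L (nat_lit 403) ln18_15_6_c10 ln18_15_6_c10_ok) (L (nat_lit 339) ln18_14_6_c10 ln18_14_6_c10_ok))))))))))))) (B (M (nat_lit 466) (B (M (nat_lit 431) (B (L (nat_lit 467) ln15_13_0_c10 ln15_13_0_c10_ok) (L (nat_lit 403) ln15_13_2_c10 ln15_13_2_c10_ok)))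 (B (M (nat_lit 370) (B (M (nat_lit 465) (B (L (nat_lit 497) ln18_11_5_c10 ln18_11_5_c10_ok) (L (nat_lit 338) ln18_10_5_c10 ln18_10_5_c10_ok))) (M (nat_lit 371) (B (L (nat_lit 339) ln18_14_6_c10 ln18_14_6_c10_ok) (M (nat_lit 498) (B (L (nat_lit 403) ln18_15_6_c10 ln18_15_6_c10_ok) (M (nat_lit 499) (B (L (nat_lit 531) ln18_12_4_c10 ln18_12_4_c10_ok) (L (nat_lit 467) ln18_11_4_c10 ln18_11_4_c10_ok))))))))) (B (M (nat_lit 498) (B (M (nat_lit 403) (B (L (nat_lit 431) ln15_13_2_c10 ln15_13_2_c10_ok) (L (nat_lit 371) ln18_15_6_c10 ln18_15_6_c10_ok))) (M (nat_lit 530) (B (M (nat_lit 529) (B (L (nat_lit 561) ln18_13_5_c10 ln18_13_5_c10_ok) (L (nat_lit 497) ln18_12_5_c10 ln18_12_5_c10_ok))) (M (nat_lit 531) (B (L (nat_lit 563) ln18_13_4_c10 ln18_13_4_c10_ok) (L (nat_lit 499) ln18_12_4_c10 ln18_12_4_c10_ok))))))) (M (nat_lit 467) (B (L (nat_lit 431) ln15_13_0_c10 ln15_13_0_c10_ok) (M (nat_lit 468) (B (L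 (nat_lit 465) ln20_14_3_c10 ln20_14_3_c10_ok) (L (nat_lit 469) ln21_14_3_c10 ln21_14_3_c10_ok))))))))) (M (nat_lit 466) (B (M (nat_lit 467) (B (L (nat_lit 431) ln15_13_0_c10 ln15_13_0_c10_ok) (M (nat_lit 468) (B (L (nat_lit 465) ln20_14_3_c10 ln20_14_3_c10_ok) (L (nat_lit 469) ln21_14_3_c10 ln21_14_3_c10_ok))))) (B (M (nat_lit 498) (B (M (nat_lit 530) (B (L (nat_lit 401) ln18_16_7_c10 ln18_16_7_c10_ok) (M (nat_lit 529) (B (L (nat_lit 561) ln18_13_5_c10 ln18_13_5_c10_ok) (L (nat_lit 497) ln18_12_5_c10 ln18_12_5_c10_ok))))) (B (M (nat_lit 530) (B (L (nat_lit 401) ln18_16_7_c10 ln18_16_7_c10_ok) (M (nat_lit 531) (B (L (nat_lit 563) ln18_13_4_c10 ln18_13_4_c10_ok) (L (nat_lit 499) ln18_12_4_c10 ln18_12_4_c10_ok))))) (M (nat_lit 370) (B (M (nat_lit 497) (B (L (nat_lit 529) ln18_12_5_c10 ln18_12_5_c10_ok) (L (nat_lit 465) ln18_11_5_c10 ln18_11_5_c10_ok))) (M (nat_lit 499) (B (L (nat_lit 531) ln18_12_4_c10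 ln18_12_4_c10_ok) (L (nat_lit 467) ln18_11_4_c10 ln18_11_4_c10_ok)))))))) (B (M (nat_lit 467) (B (L (nat_lit 431) ln15_13_0_c10 ln15_13_0_c10_ok) (M (nat_lit 499) (B (L (nat_lit 370) ln18_11_4_c10 ln18_11_4_c10_ok) (M (nat_lit 531) (B (L (nat_lit 498) ln18_12_4_c10 ln18_12_4_c10_ok) (L (nat_lit 563) ln19_17_7_c10 ln19_17_7_c10_ok))))))) (M (nat_lit 370) (B (M (nat_lit 465) (B (L (nat_lit 497) ln18_11_5_c10 ln18_11_5_c10_ok) (L (nat_lit 338) ln18_10_5_c10 ln18_10_5_c10_ok))) (B (M (nat_lit 338) (B (L (nat_lit 465) ln18_10_5_c10 ln18_10_5_c10_ok) (M (nat_lit 339) (B (L (nat_lit 371) ln18_14_6_c10 ln18_14_6_c10_ok) (L (nat_lit 307) ln18_13_6_c10 ln18_13_6_c10_ok))))) (B (M (nat_lit 338) (B (M (nat_lit 339) (B (L (nat_lit 371) ln18_14_6_c10 ln18_14_6_c10_ok) (L (nat_lit 307) ln18_13_6_c10 ln18_13_6_c10_ok))) (M (nat_lit 305) (B (L (nat_lit 337) ln18_13_7_c10 ln18_13_7_c10_ok) (M (nat_lit 306) (B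 (L (nat_lit 401) ln18_9_5_c10 ln18_9_5_c10_ok) (L (nat_lit 273) ln18_12_7_c10 ln18_12_7_c10_ok))))))) (M (nat_lit 498) (B (M (nat_lit 497) (B (L (nat_lit 529) ln18_12_5_c10 ln18_12_5_c10_ok) (L (nat_lit 465) ln18_11_5_c10 ln18_11_5_c10_ok))) (M (nat_lit 530) (B (L (nat_lit 401) ln18_16_7_c10 ln18_16_7_c10_ok) (M (nat_lit 531) (B (L (nat_lit 563) ln18_13_4_c10 ln18_13_4_c10_ok) (L (nat_lit 499) ln18_12_4_c10 ln18_12_4_c10_ok))))))))))))))))))) (nat_lit 8931394323165503754481658153670348049985162940857813804920622417077344278730704448857942057155343404368412318944338361584051269924982620160) (nat_lit 37739624260517130932233815203992693640787242550884232796548580410252810875245112558803146053664845070755352894582892599572400205525288089531275415718134158180682083336192) (nat_lit 37739624260517130932233815203992693640787242550884232796548580410252810875245112558803146053664845070755352894582892599572400205525288089531275415718134158180682083336192)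 (by decide +kernel)
theorem c10_s327 : Sem (nat_lit 8931394323165503754481658153670348049985162940857813804920622417077344278730704448857942057155343404368412318944338361584051269924982620160) (nat_lit 1757388201402609913355823057391166979012985751906250732270305636897394142786631281689378812853505600093456347485441504186295074466673940530440577750667630739456) (nat_lit 1757388201402609913355823057391166979012985751906250732270305636897394142786631281689378812853505600093456347485441504186295074466673940530440577750667630739456) :=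
  sem_of_chk (M (nat_lit 435) (B (M (nat_lit 403) (B (L (nat_lit 404) ln16_13_2_c10 ln16_13_2_c10_ok) (M (nat_lit 399) (B (L (nat_lit 400) ln13_12_0 ln13_12_0_ok) (L (nat_lit 431) ln18_13_3 ln18_13_3_ok))))) (B (M (nat_lit 400) (B (L (nat_lit 399) ln13_12_0 ln13_12_0_ok) (M (nat_lit 436) (B (L (nat_lit 401) ln20_13_3_c10 ln20_13_3_c10_ok) (M (nat_lit 404) (B (L (nat_lit 403) ln16_13_2_c10 ln16_13_2_c10_ok) (L (nat_lit 405) ln17_13_2_c10 ln17_13_2_c10_ok))))))) (B (M (nat_lit 436) (B (M (nat_lit 404) (B (L (nat_lit 403) ln16_13_2_c10 ln16_13_2_c10_ok) (L (nat_lit 405) ln17_13_2_c10 ln17_13_2_c10_ok))) (M (nat_lit 437) (B (M (nat_lit 465) (B (L (nat_lit 464) ln20_13_1_c10 ln20_13_1_c10_ok) (L (nat_lit 466) ln21_13_1_c10 ln21_13_1_c10_ok))) (M (nat_lit 401) (B (L (nat_lit 400) ln20_13_3_c10 ln20_13_3_c10_ok) (L (nat_lit 402) ln21_13_3_c10 ln21_13_3_c10_ok))))))) (B (M (nat_lit 402) (B (M (nat_lit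 403) (B (L (nat_lit 431) ln15_13_2_c10 ln15_13_2_c10_ok) (L (nat_lit 404) ln16_13_2_c10 ln16_13_2_c10_ok))) (M (nat_lit 465) (B (M (nat_lit 497) (B (L (nat_lit 529) ln17_16_6_c10 ln17_16_6_c10_ok) (M (nat_lit 370) (B (L (nat_lit 401) ln17_15_6_c10 ln17_15_6_c10_ok) (L (nat_lit 338) ln18_10_5_c10 ln18_10_5_c10_ok))))) (B (M (nat_lit 370) (B (L (nat_lit 338) ln18_10_5_c10 ln18_10_5_c10_ok) (M (nat_lit 497) (B (L (nat_lit 401) ln17_15_6_c10 ln17_15_6_c10_ok) (L (nat_lit 466) ln18_11_5_c10 ln18_11_5_c10_ok))))) (B (M (nat_lit 436) (B (L (nat_lit 464) ln20_13_1_c10 ln20_13_1_c10_ok) (M (nat_lit 437) (B (L (nat_lit 466) ln21_13_1_c10 ln21_13_1_c10_ok) (L (nat_lit 401) ln21_13_3_c10 ln21_13_3_c10_ok))))) (M (nat_lit 497) (B (L (nat_lit 529) ln17_16_6_c10 ln17_16_6_c10_ok) (M (nat_lit 370) (B (L (nat_lit 466) ln18_11_5_c10 ln18_11_5_c10_ok) (L (nat_lit 338) ln18_10_5_c10 ln18_10_5_c10_ok)))))))))))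 (M (nat_lit 465) (B (M (nat_lit 436) (B (L (nat_lit 464) ln20_13_1_c10 ln20_13_1_c10_ok) (M (nat_lit 400) (B (L (nat_lit 399) ln13_12_0 ln13_12_0_ok) (L (nat_lit 401) ln20_13_3_c10 ln20_13_3_c10_ok))))) (B (M (nat_lit 436) (B (L (nat_lit 464) ln20_13_1_c10 ln20_13_1_c10_ok) (M (nat_lit 437) (B (L (nat_lit 466) ln21_13_1_c10 ln21_13_1_c10_ok) (M (nat_lit 401) (B (L (nat_lit 400) ln20_13_3_c10 ln20_13_3_c10_ok) (L (nat_lit 402) ln21_13_3_c10 ln21_13_3_c10_ok))))))) (B (M (nat_lit 400) (B (L (nat_lit 399) ln13_12_0 ln13_12_0_ok) (M (nat_lit 368) (B (L (nat_lit 336) ln16_10_4_c10 ln16_10_4_c10_ok) (M (nat_lit 497) (B (L (nat_lit 529) ln17_16_7_c10 ln17_16_7_c10_ok) (L (nat_lit 401) ln17_15_7_c10 ln17_15_7_c10_ok))))))) (B (M (nat_lit 402) (B (M (nat_lit 436) (B (L (nat_lit 464) ln20_13_1_c10 ln20_13_1_c10_ok) (M (nat_lit 437) (B (L (nat_lit 466) ln21_13_1_c10 ln21_13_1_c10_ok) (L (nat_lit 401) ln21_13_3_c10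 ln21_13_3_c10_ok))))) (B (M (nat_lit 497) (B (L (nat_lit 529) ln17_16_6_c10 ln17_16_6_c10_ok) (M (nat_lit 370) (B (L (nat_lit 466) ln18_11_5_c10 ln18_11_5_c10_ok) (L (nat_lit 338) ln18_10_5_c10 ln18_10_5_c10_ok))))) (M (nat_lit 497) (B (L (nat_lit 529) ln17_16_6_c10 ln17_16_6_c10_ok) (M (nat_lit 370) (B (L (nat_lit 401) ln17_15_6_c10 ln17_15_6_c10_ok) (L (nat_lit 338) ln18_10_5_c10 ln18_10_5_c10_ok)))))))) (M (nat_lit 464) (B (L (nat_lit 436) ln20_13_1_c10 ln20_13_1_c10_ok) (M (nat_lit 400) (B (L (nat_lit 399) ln13_12_0 ln13_12_0_ok) (M (nat_lit 497) (B (L (nat_lit 368) ln16_11_4 ln16_11_4_ok) (L (nat_lit 529) ln17_16_7_c10 ln17_16_7_c10_ok))))))))))))))))) (nat_lit 8931394323165503754481658153670348049985162940857813804920622417077344278730704448857942057155343404368412318944338361584051269924982620160) (nat_lit 1757388201402609913355823057391166979012985751906250732270305636897394142786631281689378812853505600093456347485441504186295074466673940530440577750667630739456)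 (nat_lit 1757388201402609913355823057391166979012985751906250732270305636897394142786631281689378812853505600093456347485441504186295074466673940530440577750667630739456) (by decide +kernel)
theorem c10_s334 : Sem (nat_lit 8931394411890933966347733660179601942563841450823800216946752822532690858398586298637961994434524399700878818060857112348965568452155670528) (nat_lit 8786941007013049571185269778842786781952065056608487193491964057428541375824303783853509717332752649530951880165212117498910970506356329806921559655622580895744) (nat_lit 8786941007013049571185269778842786781952065056608487193491964057428541375824303783853509717332752649530951880165212117498910970506356329806921559655622580895744) :=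
  sem_of_chk (M (nat_lit 436) (B (M (nat_lit 468) (B (L (nat_lit 469) ln17_13_0_c10 ln17_13_0_c10_ok) (M (nat_lit 464) (B (L (nat_lit 465) ln20_13_1_c10 ln20_13_1_c10_ok) (L (nat_lit 463) ln19_13_1_c10 ln19_13_1_c10_ok))))) (B (M (nat_lit 465) (B (L (nat_lit 464) ln20_13_1_c10 ln20_13_1_c10_ok) (M (nat_lit 437) (B (L (nat_lit 466) ln21_13_1_c10 ln21_13_1_c10_ok) (M (nat_lit 469) (B (L (nat_lit 468) ln17_13_0_c10 ln17_13_0_c10_ok) (L (nat_lit 470) ln18_13_0_c10 ln18_13_0_c10_ok))))))) (B (M (nat_lit 437) (B (M (nat_lit 469) (B (L (nat_lit 468) ln17_13_0_c10 ln17_13_0_c10_ok) (L (nat_lit 470) ln18_13_0_c10 ln18_13_0_c10_ok))) (M (nat_lit 438) (B (M (nat_lit 402) (B (L (nat_lit 401) ln21_13_3_c10 ln21_13_3_c10_ok) (L (nat_lit 403) ln22_13_3_c10 ln22_13_3_c10_ok))) (M (nat_lit 466) (B (L (nat_lit 465) ln21_13_1_c10 ln21_13_1_c10_ok) (L (nat_lit 467) ln22_13_1_c10 ln22_13_1_c10_ok))))))) (B (M (nat_lit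 467) (B (L (nat_lit 468) ln16_13_0_c10 ln16_13_0_c10_ok) (M (nat_lit 402) (B (M (nat_lit 370) (B (L (nat_lit 338) ln18_10_4_c10 ln18_10_4_c10_ok) (M (nat_lit 499) (B (L (nat_lit 466) ln18_11_4_c10 ln18_11_4_c10_ok) (L (nat_lit 531) ln19_16_7_c10 ln19_16_7_c10_ok))))) (B (M (nat_lit 499) (B (L (nat_lit 531) ln19_16_7_c10 ln19_16_7_c10_ok) (M (nat_lit 370) (B (L (nat_lit 466) ln18_11_4_c10 ln18_11_4_c10_ok) (L (nat_lit 403) ln19_15_7_c10 ln19_15_7_c10_ok))))) (B (M (nat_lit 437) (B (L (nat_lit 401) ln21_13_3_c10 ln21_13_3_c10_ok) (M (nat_lit 438) (B (L (nat_lit 403) ln22_13_3_c10 ln22_13_3_c10_ok) (L (nat_lit 466) ln22_13_1_c10 ln22_13_1_c10_ok))))) (M (nat_lit 370) (B (L (nat_lit 338) ln18_10_4_c10 ln18_10_4_c10_ok) (M (nat_lit 499) (B (L (nat_lit 403) ln19_15_7_c10 ln19_15_7_c10_ok) (L (nat_lit 531) ln19_16_7_c10 ln19_16_7_c10_ok))))))))))) (M (nat_lit 402) (B (M (nat_lit 437) (B (L (nat_lit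 401) ln21_13_3_c10 ln21_13_3_c10_ok) (M (nat_lit 465) (B (L (nat_lit 464) ln20_13_1_c10 ln20_13_1_c10_ok) (L (nat_lit 466) ln21_13_1_c10 ln21_13_1_c10_ok))))) (B (M (nat_lit 437) (B (L (nat_lit 401) ln21_13_3_c10 ln21_13_3_c10_ok) (M (nat_lit 438) (B (L (nat_lit 403) ln22_13_3_c10 ln22_13_3_c10_ok) (M (nat_lit 466) (B (L (nat_lit 465) ln21_13_1_c10 ln21_13_1_c10_ok) (L (nat_lit 467) ln22_13_1_c10 ln22_13_1_c10_ok))))))) (B (M (nat_lit 465) (B (L (nat_lit 464) ln20_13_1_c10 ln20_13_1_c10_ok) (M (nat_lit 497) (B (L (nat_lit 529) ln17_16_6_c10 ln17_16_6_c10_ok) (M (nat_lit 370) (B (L (nat_lit 338) ln18_10_5_c10 ln18_10_5_c10_ok) (L (nat_lit 466) ln18_11_5_c10 ln18_11_5_c10_ok))))))) (B (M (nat_lit 467) (B (M (nat_lit 437) (B (L (nat_lit 401) ln21_13_3_c10 ln21_13_3_c10_ok) (M (nat_lit 438) (B (L (nat_lit 403) ln22_13_3_c10 ln22_13_3_c10_ok) (L (nat_lit 466) ln22_13_1_c10 ln22_13_1_c10_ok))))) (B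 (M (nat_lit 370) (B (L (nat_lit 338) ln18_10_4_c10 ln18_10_4_c10_ok) (M (nat_lit 499) (B (L (nat_lit 403) ln19_15_7_c10 ln19_15_7_c10_ok) (L (nat_lit 531) ln19_16_7_c10 ln19_16_7_c10_ok))))) (M (nat_lit 370) (B (L (nat_lit 338) ln18_10_4_c10 ln18_10_4_c10_ok) (M (nat_lit 499) (B (L (nat_lit 466) ln18_11_4_c10 ln18_11_4_c10_ok) (L (nat_lit 531) ln19_16_7_c10 ln19_16_7_c10_ok)))))))) (M (nat_lit 401) (B (L (nat_lit 437) ln21_13_3_c10 ln21_13_3_c10_ok) (M (nat_lit 465) (B (L (nat_lit 464) ln20_13_1_c10 ln20_13_1_c10_ok) (M (nat_lit 370) (B (L (nat_lit 497) ln17_15_6_c10 ln17_15_6_c10_ok) (L (nat_lit 338) ln18_10_5_c10 ln18_10_5_c10_ok))))))))))))))))) (nat_lit 8931394411890933966347733660179601942563841450823800216946752822532690858398586298637961994434524399700878818060857112348965568452155670528) (nat_lit 8786941007013049571185269778842786781952065056608487193491964057428541375824303783853509717332752649530951880165212117498910970506356329806921559655622580895744)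 (nat_lit 8786941007013049571185269778842786781952065056608487193491964057428541375824303783853509717332752649530951880165212117498910970506356329806921559655622580895744) (by decide +kernel)
theorem c10_s356 : Sem (nat_lit 8931394411890933966347733660179601942563841450823800216946752822532690858398586298637961994434524399700878818060857112348965568452155670528) (nat_lit 3514776402805219826711646114771243279250779369313231262098866898567044043208924149974490319140968044633960516289731531345488413297598385132753492800005738594304) (nat_lit 3514776402805219826711646114771243279250779369313231262098866898567044043208924149974490319140968044633960516289731531345488413297598385132753492800005738594304) :=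
  sem_of_chk (M (nat_lit 436) (B (M (nat_lit 404) (B (L (nat_lit 405) ln17_13_2_c10 ln17_13_2_c10_ok) (M (nat_lit 400) (B (L (nat_lit 401) ln20_13_3_c10 ln20_13_3_c10_ok) (L (nat_lit 399) ln13_12_0 ln13_12_0_ok))))) (B (M (nat_lit 401) (B (L (nat_lit 400) ln20_13_3_c10 ln20_13_3_c10_ok) (M (nat_lit 437) (B (L (nat_lit 402) ln21_13_3_c10 ln21_13_3_c10_ok) (M (nat_lit 405) (B (L (nat_lit 404) ln17_13_2_c10 ln17_13_2_c10_ok) (L (nat_lit 406) ln18_13_2_c10 ln18_13_2_c10_ok))))))) (B (M (nat_lit 437) (B (M (nat_lit 405) (B (L (nat_lit 404) ln17_13_2_c10 ln17_13_2_c10_ok) (L (nat_lit 406) ln18_13_2_c10 ln18_13_2_c10_ok))) (M (nat_lit 438) (B (M (nat_lit 466) (B (L (nat_lit 465) ln21_13_1_c10 ln21_13_1_c10_ok) (L (nat_lit 467) ln22_13_1_c10 ln22_13_1_c10_ok))) (M (nat_lit 402) (B (L (nat_lit 401) ln21_13_3_c10 ln21_13_3_c10_ok) (L (nat_lit 403) ln22_13_3_c10 ln22_13_3_c10_ok))))))) (B (M (nat_lit 403)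 (B (L (nat_lit 404) ln16_13_2_c10 ln16_13_2_c10_ok) (M (nat_lit 466) (B (M (nat_lit 498) (B (L (nat_lit 530) ln18_16_6_c10 ln18_16_6_c10_ok) (M (nat_lit 371) (B (L (nat_lit 402) ln18_15_6_c10 ln18_15_6_c10_ok) (L (nat_lit 339) ln19_10_5_c10 ln19_10_5_c10_ok))))) (B (M (nat_lit 371) (B (L (nat_lit 339) ln19_10_5_c10 ln19_10_5_c10_ok) (M (nat_lit 498) (B (L (nat_lit 402) ln18_15_6_c10 ln18_15_6_c10_ok) (L (nat_lit 467) ln19_11_5_c10 ln19_11_5_c10_ok))))) (B (M (nat_lit 437) (B (L (nat_lit 465) ln21_13_1_c10 ln21_13_1_c10_ok) (M (nat_lit 438) (B (L (nat_lit 467) ln22_13_1_c10 ln22_13_1_c10_ok) (L (nat_lit 402) ln22_13_3_c10 ln22_13_3_c10_ok))))) (M (nat_lit 498) (B (L (nat_lit 530) ln18_16_6_c10 ln18_16_6_c10_ok) (M (nat_lit 371) (B (L (nat_lit 467) ln19_11_5_c10 ln19_11_5_c10_ok) (L (nat_lit 339) ln19_10_5_c10 ln19_10_5_c10_ok))))))))))) (M (nat_lit 466) (B (M (nat_lit 437) (B (L (nat_lit 465)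 ln21_13_1_c10 ln21_13_1_c10_ok) (M (nat_lit 401) (B (L (nat_lit 400) ln20_13_3_c10 ln20_13_3_c10_ok) (L (nat_lit 402) ln21_13_3_c10 ln21_13_3_c10_ok))))) (B (M (nat_lit 437) (B (L (nat_lit 465) ln21_13_1_c10 ln21_13_1_c10_ok) (M (nat_lit 438) (B (L (nat_lit 467) ln22_13_1_c10 ln22_13_1_c10_ok) (M (nat_lit 402) (B (L (nat_lit 401) ln21_13_3_c10 ln21_13_3_c10_ok) (L (nat_lit 403) ln22_13_3_c10 ln22_13_3_c10_ok))))))) (B (M (nat_lit 401) (B (L (nat_lit 400) ln20_13_3_c10 ln20_13_3_c10_ok) (M (nat_lit 369) (B (L (nat_lit 337) ln17_10_4_c10 ln17_10_4_c10_ok) (M (nat_lit 498) (B (L (nat_lit 530) ln18_16_7_c10 ln18_16_7_c10_ok) (L (nat_lit 402) ln18_15_7_c10 ln18_15_7_c10_ok))))))) (B (M (nat_lit 403) (B (M (nat_lit 437) (B (L (nat_lit 465) ln21_13_1_c10 ln21_13_1_c10_ok) (M (nat_lit 438) (B (L (nat_lit 467) ln22_13_1_c10 ln22_13_1_c10_ok) (L (nat_lit 402) ln22_13_3_c10 ln22_13_3_c10_ok))))) (B (M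 (nat_lit 498) (B (L (nat_lit 530) ln18_16_6_c10 ln18_16_6_c10_ok) (M (nat_lit 371) (B (L (nat_lit 467) ln19_11_5_c10 ln19_11_5_c10_ok) (L (nat_lit 339) ln19_10_5_c10 ln19_10_5_c10_ok))))) (M (nat_lit 498) (B (L (nat_lit 530) ln18_16_6_c10 ln18_16_6_c10_ok) (M (nat_lit 371) (B (L (nat_lit 402) ln18_15_6_c10 ln18_15_6_c10_ok) (L (nat_lit 339) ln19_10_5_c10 ln19_10_5_c10_ok)))))))) (M (nat_lit 465) (B (L (nat_lit 437) ln21_13_1_c10 ln21_13_1_c10_ok) (M (nat_lit 401) (B (L (nat_lit 400) ln20_13_3_c10 ln20_13_3_c10_ok) (M (nat_lit 498) (B (L (nat_lit 369) ln17_11_4_c10 ln17_11_4_c10_ok) (L (nat_lit 530) ln18_16_7_c10 ln18_16_7_c10_ok))))))))))))))))) (nat_lit 8931394411890933966347733660179601942563841450823800216946752822532690858398586298637961994434524399700878818060857112348965568452155670528) (nat_lit 3514776402805219826711646114771243279250779369313231262098866898567044043208924149974490319140968044633960516289731531345488413297598385132753492800005738594304)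 (nat_lit 3514776402805219826711646114771243279250779369313231262098866898567044043208924149974490319140968044633960516289731531345488413297598385132753492800005738594304) (by decide +kernel)
noncomputable def c10_d61 : Cert := (B (M (nat_lit 498) (B (M (nat_lit 401) (B (L (nat_lit 530) ln18_16_7_c10 ln18_16_7_c10_ok) (M (nat_lit 369) (B (L (nat_lit 465) ln17_11_4_c10 ln17_11_4_c10_ok) (L (nat_lit 337) ln17_10_4_c10 ln17_10_4_c10_ok))))) (B (M (nat_lit 401) (B (L (nat_lit 530) ln18_16_7_c10 ln18_16_7_c10_ok) (M (nat_lit 369) (B (L (nat_lit 337) ln17_10_4_c10 ln17_10_4_c10_ok) (L (nat_lit 402) ln18_15_7_c10 ln18_15_7_c10_ok))))) (B (M (nat_lit 530) (B (M (nat_lit 562) (B (L (nat_lit 465) ln18_17_7_c10 ln18_17_7_c10_ok) (M (nat_lit 561) (B (L (nat_lit 593) ln18_14_5_c10 ln18_14_5_c10_ok) (L (nat_lit 529) ln18_13_5_c10 ln18_13_5_c10_ok))))) (B (M (nat_lit 562) (B (L (nat_lit 465) ln18_17_7_c10 ln18_17_7_c10_ok)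 (M (nat_lit 563) (B (L (nat_lit 595) ln18_14_4_c10 ln18_14_4_c10_ok) (L (nat_lit 531) ln18_13_4_c10 ln18_13_4_c10_ok))))) (M (nat_lit 402) (B (M (nat_lit 529) (B (L (nat_lit 561) ln18_13_5_c10 ln18_13_5_c10_ok) (L (nat_lit 497) ln18_12_5_c10 ln18_12_5_c10_ok))) (M (nat_lit 531) (B (L (nat_lit 563) ln18_13_4_c10 ln18_13_4_c10_ok) (L (nat_lit 499) ln18_12_4_c10 ln18_12_4_c10_ok)))))))) (M (nat_lit 497) (B (M (nat_lit 529) (B (L (nat_lit 402) ln18_12_5_c10 ln18_12_5_c10_ok) (M (nat_lit 561) (B (L (nat_lit 593) ln17_18_6_c10 ln17_18_6_c10_ok) (L (nat_lit 465) ln17_17_6_c10 ln17_17_6_c10_ok))))) (B (M (nat_lit 402) (B (L (nat_lit 529) ln18_12_5_c10 ln18_12_5_c10_ok) (M (nat_lit 369) (B (L (nat_lit 401) ln18_15_7_c10 ln18_15_7_c10_ok) (M (nat_lit 370) (B (L (nat_lit 465) ln18_11_5_c10 ln18_11_5_c10_ok) (L (nat_lit 337) ln18_14_7_c10 ln18_14_7_c10_ok))))))) (B (M (nat_lit 402) (B (M (nat_lit 369) (B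 (L (nat_lit 401) ln18_15_7_c10 ln18_15_7_c10_ok) (M (nat_lit 370) (B (L (nat_lit 465) ln18_11_5_c10 ln18_11_5_c10_ok) (L (nat_lit 337) ln18_14_7_c10 ln18_14_7_c10_ok))))) (B (M (nat_lit 370) (B (M (nat_lit 369) (B (L (nat_lit 401) ln18_15_7_c10 ln18_15_7_c10_ok) (L (nat_lit 337) ln18_14_7_c10 ln18_14_7_c10_ok))) (M (nat_lit 499) (B (L (nat_lit 531) ln18_12_4_c10 ln18_12_4_c10_ok) (L (nat_lit 467) ln18_11_4_c10 ln18_11_4_c10_ok))))) (B (M (nat_lit 370) (B (L (nat_lit 465) ln18_11_5_c10 ln18_11_5_c10_ok) (M (nat_lit 499) (B (L (nat_lit 531) ln18_12_4_c10 ln18_12_4_c10_ok) (L (nat_lit 467) ln18_11_4_c10 ln18_11_4_c10_ok))))) (M (nat_lit 496) (B (M (nat_lit 467) (B (L (nat_lit 495) ln15_15_2_c10 ln15_15_2_c10_ok) (M (nat_lit 499) (B (L (nat_lit 468) ln16_15_2_c10 ln16_15_2_c10_ok) (L (nat_lit 531) ln18_12_4_c10 ln18_12_4_c10_ok))))) (B (M (nat_lit 528) (B (M (nat_lit 499) (B (L (nat_lit 527) ln19_15_1_c10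 ln19_15_1_c10_ok) (L (nat_lit 531) ln18_12_4_c10 ln18_12_4_c10_ok))) (M (nat_lit 401) (B (L (nat_lit 465) ln17_12_5_c10 ln17_12_5_c10_ok) (L (nat_lit 369) ln18_15_7_c10 ln18_15_7_c10_ok))))) (B (M (nat_lit 467) (B (L (nat_lit 495) ln15_15_2_c10 ln15_15_2_c10_ok) (M (nat_lit 468) (B (L (nat_lit 465) ln20_14_1_c10 ln20_14_1_c10_ok) (L (nat_lit 499) ln16_15_2_c10 ln16_15_2_c10_ok))))) (M (nat_lit 467) (B (L (nat_lit 495) ln15_15_2_c10 ln15_15_2_c10_ok) (M (nat_lit 468) (B (L (nat_lit 465) ln20_14_1_c10 ln20_14_1_c10_ok) (L (nat_lit 435) ln16_13_0_c10 ln16_13_0_c10_ok))))))))))))) (B (M (nat_lit 467) (B (M (nat_lit 468) (B (L (nat_lit 435) ln16_13_0_c10 ln16_13_0_c10_ok) (L (nat_lit 469) ln21_14_1_c10 ln21_14_1_c10_ok))) (M (nat_lit 402) (B (L (nat_lit 529) ln18_12_5_c10 ln18_12_5_c10_ok) (M (nat_lit 499) (B (L (nat_lit 531) ln18_12_4_c10 ln18_12_4_c10_ok) (L (nat_lit 370) ln18_11_4_c10 ln18_11_4_c10_ok)))))))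 (M (nat_lit 496) (B (M (nat_lit 467) (B (L (nat_lit 495) ln15_15_2_c10 ln15_15_2_c10_ok) (M (nat_lit 468) (B (L (nat_lit 465) ln20_14_1_c10 ln20_14_1_c10_ok) (L (nat_lit 499) ln16_15_2_c10 ln16_15_2_c10_ok))))) (B (M (nat_lit 499) (B (M (nat_lit 467) (B (L (nat_lit 468) ln16_15_2_c10 ln16_15_2_c10_ok) (M (nat_lit 531) (B (L (nat_lit 532) ln16_15_0_c10 ln16_15_0_c10_ok) (L (nat_lit 563) ln19_17_7_c10 ln19_17_7_c10_ok))))) (M (nat_lit 529) (B (M (nat_lit 528) (B (L (nat_lit 527) ln19_15_1_c10 ln19_15_1_c10_ok) (L (nat_lit 500) ln20_15_1_c10 ln20_15_1_c10_ok))) (M (nat_lit 561) (B (L (nat_lit 593) ln17_18_6_c10 ln17_18_6_c10_ok) (L (nat_lit 465) ln17_17_6_c10 ln17_17_6_c10_ok))))))) (B (M (nat_lit 467) (B (L (nat_lit 495) ln15_15_2_c10 ln15_15_2_c10_ok) (M (nat_lit 468) (B (L (nat_lit 499) ln16_15_2_c10 ln16_15_2_c10_ok) (L (nat_lit 435) ln16_13_0_c10 ln16_13_0_c10_ok))))) (B (M (nat_lit 467) (B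 (L (nat_lit 495) ln15_15_2_c10 ln15_15_2_c10_ok) (M (nat_lit 468) (B (L (nat_lit 465) ln20_14_1_c10 ln20_14_1_c10_ok) (L (nat_lit 435) ln16_13_0_c10 ln16_13_0_c10_ok))))) (M (nat_lit 528) (B (M (nat_lit 527) (B (L (nat_lit 499) ln19_15_1_c10 ln19_15_1_c10_ok) (M (nat_lit 526) (B (L (nat_lit 525) ln13_16_2 ln13_16_2_ok) (L (nat_lit 529) ln14_16_2 ln14_16_2_ok))))) (B (M (nat_lit 527) (B (L (nat_lit 499) ln19_15_1_c10 ln19_15_1_c10_ok) (M (nat_lit 526) (B (L (nat_lit 495) ln18_15_1_c10 ln18_15_1_c10_ok) (L (nat_lit 529) ln14_16_2 ln14_16_2_ok))))) (B (M (nat_lit 465) (B (L (nat_lit 401) ln17_12_5_c10 ln17_12_5_c10_ok) (M (nat_lit 560) (B (L (nat_lit 592) ln16_18_6_c10 ln16_18_6_c10_ok) (L (nat_lit 529) ln17_13_5_c10 ln17_13_5_c10_ok))))) (M (nat_lit 527) (B (L (nat_lit 499) ln19_15_1_c10 ln19_15_1_c10_ok) (M (nat_lit 526) (B (L (nat_lit 525) ln13_16_2 ln13_16_2_ok) (L (nat_lit 495) ln18_15_1_c10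 ln18_15_1_c10_ok))))))))))))))))))))))) (M (nat_lit 498) (B (M (nat_lit 401) (B (L (nat_lit 530) ln18_16_7_c10 ln18_16_7_c10_ok) (M (nat_lit 369) (B (L (nat_lit 402) ln18_15_7_c10 ln18_15_7_c10_ok) (L (nat_lit 465) ln17_11_4_c10 ln17_11_4_c10_ok))))) (B (M (nat_lit 402) (B (M (nat_lit 403) (B (L (nat_lit 371) ln18_15_6_c10 ln18_15_6_c10_ok) (L (nat_lit 431) ln15_13_2_c10 ln15_13_2_c10_ok))) (M (nat_lit 370) (B (M (nat_lit 497) (B (L (nat_lit 529) ln18_12_5_c10 ln18_12_5_c10_ok) (L (nat_lit 465) ln18_11_5_c10 ln18_11_5_c10_ok))) (M (nat_lit 369) (B (L (nat_lit 401) ln18_15_7_c10 ln18_15_7_c10_ok) (L (nat_lit 337) ln18_14_7_c10 ln18_14_7_c10_ok))))))) (B (M (nat_lit 401) (B (L (nat_lit 530) ln18_16_7_c10 ln18_16_7_c10_ok) (M (nat_lit 369) (B (L (nat_lit 465) ln17_11_4_c10 ln17_11_4_c10_ok) (L (nat_lit 337) ln17_10_4_c10 ln17_10_4_c10_ok))))) (B (M (nat_lit 401) (B (L (nat_lit 530) ln18_16_7_c10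 ln18_16_7_c10_ok) (M (nat_lit 369) (B (L (nat_lit 402) ln18_15_7_c10 ln18_15_7_c10_ok) (L (nat_lit 337) ln17_10_4_c10 ln17_10_4_c10_ok))))) (M (nat_lit 402) (B (M (nat_lit 403) (B (L (nat_lit 371) ln18_15_6_c10 ln18_15_6_c10_ok) (L (nat_lit 431) ln15_13_2_c10 ln15_13_2_c10_ok))) (M (nat_lit 530) (B (M (nat_lit 531) (B (L (nat_lit 563) ln18_13_4_c10 ln18_13_4_c10_ok) (L (nat_lit 499) ln18_12_4_c10 ln18_12_4_c10_ok))) (M (nat_lit 529) (B (L (nat_lit 561) ln18_13_5_c10 ln18_13_5_c10_ok) (L (nat_lit 497) ln18_12_5_c10 ln18_12_5_c10_ok)))))))))))))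
theorem c10_s359 : Sem (nat_lit 8931394323165503754481658153670348049985162940857813804920622417077344278730704448857942057155343404368412318944338361584051269924982620160) (nat_lit 178299497156964602586411520136380274821765081335752938541760408444399225011823258063241552997441753436661369089906686039569747596435424352213802876792773054368320152283907692167168) (nat_lit 178299497156964602586411520136380274821765081335752938541760408444399225011823258063241552997441753436661369089906686039569747596435424352213802876792773054368320152283907692167168) :=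
  sem_of_chk (M (nat_lit 466) (B (M (nat_lit 467) (B (L (nat_lit 431) ln15_13_0_c10 ln15_13_0_c10_ok) (M (nat_lit 468) (B (L (nat_lit 469) ln21_14_3_c10 ln21_14_3_c10_ok) (L (nat_lit 435) ln16_13_0_c10 ln16_13_0_c10_ok))))) (B (M (nat_lit 467) (B (L (nat_lit 431) ln15_13_0_c10 ln15_13_0_c10_ok) (M (nat_lit 468) (B (L (nat_lit 435) ln16_13_0_c10 ln16_13_0_c10_ok) (L (nat_lit 465) ln20_14_3_c10 ln20_14_3_c10_ok))))) (B (M (nat_lit 467) (B (L (nat_lit 431) ln15_13_0_c10 ln15_13_0_c10_ok) (M (nat_lit 468) (B (L (nat_lit 469) ln21_14_3_c10 ln21_14_3_c10_ok) (L (nat_lit 465) ln20_14_3_c10 ln20_14_3_c10_ok))))) c10_d61)))) (nat_lit 8931394323165503754481658153670348049985162940857813804920622417077344278730704448857942057155343404368412318944338361584051269924982620160) (nat_lit 178299497156964602586411520136380274821765081335752938541760408444399225011823258063241552997441753436661369089906686039569747596435424352213802876792773054368320152283907692167168)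 (nat_lit 178299497156964602586411520136380274821765081335752938541760408444399225011823258063241552997441753436661369089906686039569747596435424352213802876792773054368320152283907692167168) (by decide +kernel)
theorem c10_s379 : Sem (nat_lit 8931394256621431097518788932954815973983194743725289934426374236615926711123317465829479309420834064270636221093759615673793712985338806272) (nat_lit 9434906065129282738786887365590475850877076149741341600329523994187163520247184895358159156184660519744801483707666903533312032916548426147498533391317544544886528671744) (nat_lit 9434906065129282738786887365590475850877076149741341600329523994187163520247184895358159156184660519744801483707666903533312032916548426147498533391317544544886528671744) :=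
  sem_of_chk (M (nat_lit 464) (B (M (nat_lit 496) (B (M (nat_lit 527) (B (L (nat_lit 495) ln16_12_5_c10 ln16_12_5_c10_ok) (M (nat_lit 528) (B (L (nat_lit 559) ln16_13_5_c10 ln16_13_5_c10_ok) (M (nat_lit 529) (B (L (nat_lit 497) ln16_12_4 ln16_12_4_ok) (L (nat_lit 561) ln16_13_4_c10 ln16_13_4_c10_ok))))))) (B (M (nat_lit 528) (B (M (nat_lit 401) (B (L (nat_lit 369) ln16_15_6_c10 ln16_15_6_c10_ok) (L (nat_lit 433) ln16_16_6_c10 ln16_16_6_c10_ok))) (M (nat_lit 529) (B (L (nat_lit 497) ln16_12_4 ln16_12_4_ok) (L (nat_lit 561) ln16_13_4_c10 ln16_13_4_c10_ok))))) (B (M (nat_lit 528) (B (M (nat_lit 401) (B (L (nat_lit 369) ln16_15_6_c10 ln16_15_6_c10_ok) (L (nat_lit 433) ln16_16_6_c10 ln16_16_6_c10_ok))) (M (nat_lit 527) (B (L (nat_lit 495) ln16_12_5_c10 ln16_12_5_c10_ok) (L (nat_lit 559) ln16_13_5_c10 ln16_13_5_c10_ok))))) (M (nat_lit 369) (B (L (nat_lit 337) ln16_14_6_c10 ln16_14_6_c10_ok) (L (nat_lit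 401) ln16_15_6_c10 ln16_15_6_c10_ok))))))) (B (M (nat_lit 497) (B (M (nat_lit 529) (B (L (nat_lit 496) ln16_12_4 ln16_12_4_ok) (L (nat_lit 465) ln16_11_4 ln16_11_4_ok))) (B (M (nat_lit 463) (B (L (nat_lit 465) ln16_11_4 ln16_11_4_ok) (L (nat_lit 495) ln16_11_5_c10 ln16_11_5_c10_ok))) (M (nat_lit 496) (B (L (nat_lit 529) ln16_12_4 ln16_12_4_ok) (M (nat_lit 495) (B (L (nat_lit 527) ln16_12_5_c10 ln16_12_5_c10_ok) (L (nat_lit 463) ln16_11_5_c10 ln16_11_5_c10_ok)))))))) (B (M (nat_lit 496) (B (M (nat_lit 495) (B (L (nat_lit 527) ln16_12_5_c10 ln16_12_5_c10_ok) (L (nat_lit 463) ln16_11_5_c10 ln16_11_5_c10_ok))) (M (nat_lit 369) (B (L (nat_lit 401) ln16_15_6_c10 ln16_15_6_c10_ok) (L (nat_lit 337) ln16_14_6_c10 ln16_14_6_c10_ok))))) (B (M (nat_lit 496) (B (M (nat_lit 369) (B (L (nat_lit 337) ln16_14_6_c10 ln16_14_6_c10_ok) (L (nat_lit 401) ln16_15_6_c10 ln16_15_6_c10_ok))) (M (nat_lit 497) (B (L (nat_lit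 465) ln16_11_4 ln16_11_4_ok) (L (nat_lit 529) ln16_12_4 ln16_12_4_ok))))) (M (nat_lit 465) (B (L (nat_lit 497) ln16_11_4 ln16_11_4_ok) (M (nat_lit 463) (B (L (nat_lit 495) ln16_11_5_c10 ln16_11_5_c10_ok) (M (nat_lit 466) (B (M (nat_lit 435) (B (L (nat_lit 434) ln15_14_2_c10 ln15_14_2_c10_ok) (M (nat_lit 467) (B (L (nat_lit 436) ln16_14_2_c10 ln16_14_2_c10_ok) (M (nat_lit 499) (B (L (nat_lit 500) ln16_14_0_c10 ln16_14_0_c10_ok) (L (nat_lit 498) ln15_14_0_c10 ln15_14_0_c10_ok))))))) (B (M (nat_lit 433) (B (M (nat_lit 434) (B (L (nat_lit 435) ln19_13_1_c10 ln19_13_1_c10_ok) (L (nat_lit 462) ln13_14_2 ln13_14_2_ok))) (B (L (nat_lit 462) ln13_14_2 ln13_14_2_ok) (M (nat_lit 369) (B (L (nat_lit 337) ln16_14_6_c10 ln16_14_6_c10_ok) (M (nat_lit 498) (B (L (nat_lit 499) ln15_14_0_c10 ln15_14_0_c10_ok) (L (nat_lit 401) ln17_11_4_c10 ln17_11_4_c10_ok)))))))) (B (M (nat_lit 467) (B (M (nat_lit 435) (B (L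 (nat_lit 436) ln16_14_2_c10 ln16_14_2_c10_ok) (L (nat_lit 434) ln15_14_2_c10 ln15_14_2_c10_ok))) (B (M (nat_lit 433) (B (L (nat_lit 468) ln20_14_3_c10 ln20_14_3_c10_ok) (M (nat_lit 434) (B (L (nat_lit 435) ln19_13_1_c10 ln19_13_1_c10_ok) (L (nat_lit 462) ln13_14_2 ln13_14_2_ok))))) (M (nat_lit 433) (B (L (nat_lit 468) ln20_14_3_c10 ln20_14_3_c10_ok) (L (nat_lit 462) ln13_14_2 ln13_14_2_ok)))))) (M (nat_lit 433) (B (L (nat_lit 462) ln13_14_2 ln13_14_2_ok) (M (nat_lit 369) (B (L (nat_lit 337) ln16_14_6_c10 ln16_14_6_c10_ok) (M (nat_lit 498) (B (L (nat_lit 499) ln15_14_0_c10 ln15_14_0_c10_ok) (L (nat_lit 401) ln17_11_4_c10 ln17_11_4_c10_ok)))))))))))))))))))) (nat_lit 8931394256621431097518788932954815973983194743725289934426374236615926711123317465829479309420834064270636221093759615673793712985338806272) (nat_lit 9434906065129282738786887365590475850877076149741341600329523994187163520247184895358159156184660519744801483707666903533312032916548426147498533391317544544886528671744)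 (nat_lit 9434906065129282738786887365590475850877076149741341600329523994187163520247184895358159156184660519744801483707666903533312032916548426147498533391317544544886528671744) (by decide +kernel)
theorem c10_s384 : Sem (nat_lit 8931394256621431097518788932954815974123178790111402697586214379151454478505920309406644905352083383080873213042519674760098556314814251008) (nat_lit 5545339394697254415877167099670732018532776827207818001151091746049769757535402072228915361900242801094912148893279785969608818688) (nat_lit 5545339394697254415877167099670732018532776827207818001151091746049769757535402072228915361900242801094912148893279785969608818688) :=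
  sem_of_chk (M (nat_lit 304) (B (M (nat_lit 272) (B (M (nat_lit 369) (B (L (nat_lit 401) ln16_8_4_c10 ln16_8_4_c10_ok) (M (nat_lit 240) (B (L (nat_lit 337) ln16_7_4_c10 ln16_7_4_c10_ok) (M (nat_lit 367) (B (L (nat_lit 399) ln16_8_5 ln16_8_5_ok) (L (nat_lit 335) ln16_7_5_c10 ln16_7_5_c10_ok))))))) (M (nat_lit 273) (B (L (nat_lit 305) ln16_12_6_c10 ln16_12_6_c10_ok) (L (nat_lit 241) ln16_11_6_c10 ln16_11_6_c10_ok))))) (B (M (nat_lit 272) (B (M (nat_lit 240) (B (M (nat_lit 367) (B (L (nat_lit 399) ln16_8_5 ln16_8_5_ok) (L (nat_lit 335) ln16_7_5_c10 ln16_7_5_c10_ok))) (M (nat_lit 241) (B (L (nat_lit 273) ln16_11_6_c10 ln16_11_6_c10_ok) (L (nat_lit 209) ln16_10_6_c10 ln16_10_6_c10_ok))))) (B (M (nat_lit 240) (B (M (nat_lit 241) (B (L (nat_lit 273) ln16_11_6_c10 ln16_11_6_c10_ok) (L (nat_lit 209) ln16_10_6_c10 ln16_10_6_c10_ok))) (M (nat_lit 239) (B (L (nat_lit 271) ln16_11_7_c10 ln16_11_7_c10_ok)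 (L (nat_lit 207) ln16_10_7_c10 ln16_10_7_c10_ok))))) (B (M (nat_lit 240) (B (M (nat_lit 367) (B (L (nat_lit 399) ln16_8_5 ln16_8_5_ok) (L (nat_lit 335) ln16_7_5_c10 ln16_7_5_c10_ok))) (M (nat_lit 239) (B (L (nat_lit 271) ln16_11_7_c10 ln16_11_7_c10_ok) (L (nat_lit 207) ln16_10_7_c10 ln16_10_7_c10_ok))))) (M (nat_lit 273) (B (L (nat_lit 305) ln16_12_6_c10 ln16_12_6_c10_ok) (L (nat_lit 241) ln16_11_6_c10 ln16_11_6_c10_ok))))))) (B (M (nat_lit 272) (B (M (nat_lit 369) (B (L (nat_lit 401) ln16_8_4_c10 ln16_8_4_c10_ok) (M (nat_lit 240) (B (L (nat_lit 337) ln16_7_4_c10 ln16_7_4_c10_ok) (M (nat_lit 367) (B (L (nat_lit 399) ln16_8_5 ln16_8_5_ok) (L (nat_lit 335) ln16_7_5_c10 ln16_7_5_c10_ok))))))) (B (M (nat_lit 240) (B (M (nat_lit 367) (B (L (nat_lit 399) ln16_8_5 ln16_8_5_ok) (L (nat_lit 335) ln16_7_5_c10 ln16_7_5_c10_ok))) (M (nat_lit 241) (B (L (nat_lit 273) ln16_11_6_c10 ln16_11_6_c10_ok) (L (nat_lit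 209) ln16_10_6_c10 ln16_10_6_c10_ok))))) (B (M (nat_lit 240) (B (M (nat_lit 369) (B (L (nat_lit 401) ln16_8_4_c10 ln16_8_4_c10_ok) (L (nat_lit 337) ln16_7_4_c10 ln16_7_4_c10_ok))) (M (nat_lit 241) (B (L (nat_lit 273) ln16_11_6_c10 ln16_11_6_c10_ok) (L (nat_lit 209) ln16_10_6_c10 ln16_10_6_c10_ok))))) (M (nat_lit 273) (B (L (nat_lit 241) ln16_11_6_c10 ln16_11_6_c10_ok) (M (nat_lit 271) (B (L (nat_lit 239) ln16_11_7_c10 ln16_11_7_c10_ok) (M (nat_lit 274) (B (L (nat_lit 303) ln16_12_7_c10 ln16_12_7_c10_ok) (M (nat_lit 275) (B (M (nat_lit 307) (B (L (nat_lit 308) ln16_8_0_c10 ln16_8_0_c10_ok) (L (nat_lit 306) ln15_8_0_c10 ln15_8_0_c10_ok))) (M (nat_lit 243) (B (L (nat_lit 244) ln16_8_2_c10 ln16_8_2_c10_ok) (L (nat_lit 242) ln15_8_2_c10 ln15_8_2_c10_ok))))))))))))))) (B (M (nat_lit 272) (B (M (nat_lit 240) (B (M (nat_lit 369) (B (L (nat_lit 401) ln16_8_4_c10 ln16_8_4_c10_ok) (L (nat_lit 337) ln16_7_4_c10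 ln16_7_4_c10_ok))) (M (nat_lit 239) (B (L (nat_lit 271) ln16_11_7_c10 ln16_11_7_c10_ok) (L (nat_lit 207) ln16_10_7_c10 ln16_10_7_c10_ok))))) (B (M (nat_lit 240) (B (M (nat_lit 241) (B (L (nat_lit 273) ln16_11_6_c10 ln16_11_6_c10_ok) (L (nat_lit 209) ln16_10_6_c10 ln16_10_6_c10_ok))) (M (nat_lit 239) (B (L (nat_lit 271) ln16_11_7_c10 ln16_11_7_c10_ok) (L (nat_lit 207) ln16_10_7_c10 ln16_10_7_c10_ok))))) (B (M (nat_lit 240) (B (M (nat_lit 369) (B (L (nat_lit 401) ln16_8_4_c10 ln16_8_4_c10_ok) (L (nat_lit 337) ln16_7_4_c10 ln16_7_4_c10_ok))) (M (nat_lit 241) (B (L (nat_lit 273) ln16_11_6_c10 ln16_11_6_c10_ok) (L (nat_lit 209) ln16_10_6_c10 ln16_10_6_c10_ok))))) (M (nat_lit 273) (B (L (nat_lit 305) ln16_12_6_c10 ln16_12_6_c10_ok) (L (nat_lit 241) ln16_11_6_c10 ln16_11_6_c10_ok))))))) (B (M (nat_lit 272) (B (M (nat_lit 399) (B (L (nat_lit 431) ln16_9_5 ln16_9_5_ok) (L (nat_lit 367) ln16_8_5 ln16_8_5_ok)))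 (M (nat_lit 240) (B (M (nat_lit 369) (B (L (nat_lit 401) ln16_8_4_c10 ln16_8_4_c10_ok) (L (nat_lit 337) ln16_7_4_c10 ln16_7_4_c10_ok))) (M (nat_lit 239) (B (L (nat_lit 271) ln16_11_7_c10 ln16_11_7_c10_ok) (L (nat_lit 207) ln16_10_7_c10 ln16_10_7_c10_ok))))))) (M (nat_lit 305) (B (L (nat_lit 273) ln16_12_6_c10 ln16_12_6_c10_ok) (M (nat_lit 303) (B (L (nat_lit 271) ln16_12_7_c10 ln16_12_7_c10_ok) (M (nat_lit 306) (B (L (nat_lit 335) ln16_13_7 ln16_13_7_ok) (M (nat_lit 307) (B (M (nat_lit 339) (B (L (nat_lit 340) ln16_9_0_c10 ln16_9_0_c10_ok) (L (nat_lit 338) ln15_9_0_c10 ln15_9_0_c10_ok))) (M (nat_lit 275) (B (L (nat_lit 276) ln16_9_2_c10 ln16_9_2_c10_ok) (L (nat_lit 274) ln15_9_2_c10 ln15_9_2_c10_ok))))))))))))))))) (nat_lit 8931394256621431097518788932954815974123178790111402697586214379151454478505920309406644905352083383080873213042519674760098556314814251008) (nat_lit 5545339394697254415877167099670732018532776827207818001151091746049769757535402072228915361900242801094912148893279785969608818688)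 (nat_lit 5545339394697254415877167099670732018532776827207818001151091746049769757535402072228915361900242801094912148893279785969608818688) (by decide +kernel)
noncomputable def c10_d62 : Cert := (B (M (nat_lit 394) (B (M (nat_lit 393) (B (L (nat_lit 364) ln9_12_2 ln9_12_2_ok) (M (nat_lit 361) (B (L (nat_lit 360) ln12_12_3 ln12_12_3_ok) (L (nat_lit 362) ln13_12_3 ln13_12_3_ok))))) (B (M (nat_lit 398) (B (M (nat_lit 426) (B (L (nat_lit 425) ln13_12_1 ln13_12_1_ok) (L (nat_lit 427) ln14_12_1 ln14_12_1_ok))) (M (nat_lit 362) (B (L (nat_lit 361) ln13_12_3 ln13_12_3_ok) (L (nat_lit 363) ln14_12_3 ln14_12_3_ok))))) (M (nat_lit 393) (B (L (nat_lit 364) ln9_12_2 ln9_12_2_ok) (M (nat_lit 425) (B (L (nat_lit 424) ln12_12_1 ln12_12_1_ok) (L (nat_lit 426) ln13_12_1 ln13_12_1_ok)))))))) (M (nat_lit 398) (B (M (nat_lit 399) (B (M (nat_lit 364) (B (L (nat_lit 400) ln16_12_3 ln16_12_3_ok) (L (nat_lit 363)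 ln15_12_3 ln15_12_3_ok))) (M (nat_lit 367) (B (L (nat_lit 368) ln12_12_2 ln12_12_2_ok) (L (nat_lit 366) ln11_12_2 ln11_12_2_ok))))) (B (M (nat_lit 399) (B (M (nat_lit 367) (B (L (nat_lit 366) ln11_12_2 ln11_12_2_ok) (L (nat_lit 368) ln12_12_2 ln12_12_2_ok))) (B (M (nat_lit 400) (B (M (nat_lit 368) (B (L (nat_lit 367) ln12_12_2 ln12_12_2_ok) (L (nat_lit 369) ln13_12_2 ln13_12_2_ok))) (M (nat_lit 432) (B (L (nat_lit 431) ln12_12_0 ln12_12_0_ok) (L (nat_lit 433) ln13_12_0 ln13_12_0_ok))))) (B (M (nat_lit 400) (B (M (nat_lit 432) (B (L (nat_lit 431) ln12_12_0 ln12_12_0_ok) (L (nat_lit 433) ln13_12_0 ln13_12_0_ok))) (M (nat_lit 369) (B (L (nat_lit 368) ln13_12_2 ln13_12_2_ok) (M (nat_lit 401) (B (L (nat_lit 366) ln17_12_3 ln17_12_3_ok) (L (nat_lit 370) ln14_12_2 ln14_12_2_ok))))))) (M (nat_lit 400) (B (M (nat_lit 366) (B (L (nat_lit 367) ln11_12_2 ln11_12_2_ok) (L (nat_lit 401) ln17_12_3 ln17_12_3_ok)))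 (M (nat_lit 432) (B (L (nat_lit 431) ln12_12_0 ln12_12_0_ok) (L (nat_lit 433) ln13_12_0 ln13_12_0_ok))))))))) (B (M (nat_lit 399) (B (M (nat_lit 364) (B (L (nat_lit 400) ln16_12_3 ln16_12_3_ok) (L (nat_lit 363) ln15_12_3 ln15_12_3_ok))) (B (M (nat_lit 363) (B (L (nat_lit 364) ln15_12_3 ln15_12_3_ok) (L (nat_lit 362) ln14_12_3 ln14_12_3_ok))) (M (nat_lit 400) (B (M (nat_lit 432) (B (L (nat_lit 433) ln13_12_0 ln13_12_0_ok) (L (nat_lit 431) ln12_12_0 ln12_12_0_ok))) (M (nat_lit 368) (B (L (nat_lit 369) ln13_12_2 ln13_12_2_ok) (L (nat_lit 367) ln12_12_2 ln12_12_2_ok)))))))) (B (M (nat_lit 399) (B (M (nat_lit 363) (B (L (nat_lit 362) ln14_12_3 ln14_12_3_ok) (L (nat_lit 364) ln15_12_3 ln15_12_3_ok))) (B (M (nat_lit 364) (B (L (nat_lit 363) ln15_12_3 ln15_12_3_ok) (L (nat_lit 400) ln16_12_3 ln16_12_3_ok))) (B (M (nat_lit 400) (B (L (nat_lit 364) ln16_12_3 ln16_12_3_ok) (M (nat_lit 432) (B (L (nat_lit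 431) ln12_12_0 ln12_12_0_ok) (L (nat_lit 433) ln13_12_0 ln13_12_0_ok))))) (M (nat_lit 400) (B (M (nat_lit 432) (B (L (nat_lit 431) ln12_12_0 ln12_12_0_ok) (L (nat_lit 433) ln13_12_0 ln13_12_0_ok))) (M (nat_lit 369) (B (L (nat_lit 368) ln13_12_2 ln13_12_2_ok) (M (nat_lit 401) (B (L (nat_lit 366) ln17_12_3 ln17_12_3_ok) (L (nat_lit 370) ln14_12_2 ln14_12_2_ok))))))))))) (B (M (nat_lit 399) (B (M (nat_lit 363) (B (L (nat_lit 362) ln14_12_3 ln14_12_3_ok) (L (nat_lit 364) ln15_12_3 ln15_12_3_ok))) (B (M (nat_lit 364) (B (L (nat_lit 363) ln15_12_3 ln15_12_3_ok) (L (nat_lit 400) ln16_12_3 ln16_12_3_ok))) (B (M (nat_lit 366) (B (L (nat_lit 367) ln11_12_2 ln11_12_2_ok) (M (nat_lit 400) (B (L (nat_lit 364) ln16_12_3 ln16_12_3_ok) (L (nat_lit 401) ln17_12_3 ln17_12_3_ok))))) (M (nat_lit 400) (B (M (nat_lit 366) (B (L (nat_lit 401) ln17_12_3 ln17_12_3_ok) (L (nat_lit 367) ln11_12_2 ln11_12_2_ok))) (M (nat_lit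 432) (B (L (nat_lit 431) ln12_12_0 ln12_12_0_ok) (L (nat_lit 433) ln13_12_0 ln13_12_0_ok))))))))) (B (M (nat_lit 399) (B (M (nat_lit 363) (B (L (nat_lit 362) ln14_12_3 ln14_12_3_ok) (L (nat_lit 364) ln15_12_3 ln15_12_3_ok))) (M (nat_lit 367) (B (L (nat_lit 366) ln11_12_2 ln11_12_2_ok) (L (nat_lit 368) ln12_12_2 ln12_12_2_ok))))) (M (nat_lit 366) (B (L (nat_lit 367) ln11_12_2 ln11_12_2_ok) (M (nat_lit 363) (B (L (nat_lit 362) ln14_12_3 ln14_12_3_ok) (M (nat_lit 427) (B (L (nat_lit 426) ln14_12_1 ln14_12_1_ok) (M (nat_lit 331) (B (M (nat_lit 301) (B (L (nat_lit 269) ln13_8_4 ln13_8_4_ok) (M (nat_lit 300) (B (L (nat_lit 268) ln13_12_7 ln13_12_7_ok) (M (nat_lit 302) (B (L (nat_lit 270) ln13_12_6 ln13_12_6_ok) (M (nat_lit 299) (B (L (nat_lit 330) ln14_9_1_c10 ln14_9_1_c10_ok) (M (nat_lit 266) (B (L (nat_lit 267) ln14_9_3 ln14_9_3_ok) (L (nat_lit 298) ln11_12_7 ln11_12_7_ok))))))))))) (B (M (nat_lit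 301) (B (M (nat_lit 364) (B (L (nat_lit 269) ln13_8_4 ln13_8_4_ok) (L (nat_lit 330) ln14_11_3 ln14_11_3_ok))) (B (M (nat_lit 300) (B (L (nat_lit 268) ln13_12_7 ln13_12_7_ok) (M (nat_lit 330) (B (L (nat_lit 364) ln14_11_3 ln14_11_3_ok) (M (nat_lit 302) (B (L (nat_lit 270) ln13_12_6 ln13_12_6_ok) (L (nat_lit 299) ln14_9_1_c10 ln14_9_1_c10_ok))))))) (M (nat_lit 268) (B (L (nat_lit 300) ln13_12_7 ln13_12_7_ok) (L (nat_lit 269) ln13_8_4 ln13_8_4_ok)))))) (B (M (nat_lit 268) (B (M (nat_lit 300) (B (L (nat_lit 299) ln11_12_6 ln11_12_6_ok) (L (nat_lit 301) ln13_12_7 ln13_12_7_ok))) (B (M (nat_lit 301) (B (L (nat_lit 300) ln13_12_7 ln13_12_7_ok) (L (nat_lit 269) ln13_8_4 ln13_8_4_ok))) (B (M (nat_lit 267) (B (M (nat_lit 299) (B (L (nat_lit 236) ln11_11_6 ln11_11_6_ok) (L (nat_lit 364) ln11_8_4 ln11_8_4_ok))) (B (M (nat_lit 299) (B (L (nat_lit 364) ln11_8_4 ln11_8_4_ok) (M (nat_lit 266) (B (L (nat_lit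 234) ln11_11_7 ln11_11_7_ok) (L (nat_lit 298) ln11_12_7 ln11_12_7_ok))))) (M (nat_lit 269) (B (L (nat_lit 301) ln13_8_4 ln13_8_4_ok) (M (nat_lit 266) (B (M (nat_lit 265) (B (M (nat_lit 233) (B (L (nat_lit 232) ln12_8_3_c10 ln12_8_3_c10_ok) (L (nat_lit 234) ln13_8_3_c10 ln13_8_3_c10_ok))) (M (nat_lit 297) (B (L (nat_lit 296) ln12_8_1_c10 ln12_8_1_c10_ok) (L (nat_lit 298) ln13_8_1_c10 ln13_8_1_c10_ok))))) (B (M (nat_lit 265) (B (M (nat_lit 237) (B (L (nat_lit 236) ln9_8_2_c10 ln9_8_2_c10_ok) (L (nat_lit 238) ln10_8_2_c10 ln10_8_2_c10_ok))) (M (nat_lit 297) (B (L (nat_lit 296) ln12_8_1_c10 ln12_8_1_c10_ok) (L (nat_lit 298) ln13_8_1_c10 ln13_8_1_c10_ok))))) (M (nat_lit 270) (B (M (nat_lit 234) (B (L (nat_lit 233) ln13_8_3_c10 ln13_8_3_c10_ok) (L (nat_lit 235) ln14_8_3_c10 ln14_8_3_c10_ok))) (M (nat_lit 238) (B (L (nat_lit 237) ln10_8_2_c10 ln10_8_2_c10_ok) (L (nat_lit 239) ln11_8_2_c10 ln11_8_2_c10_ok)))))))))))))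 (M (nat_lit 299) (B (L (nat_lit 300) ln11_12_6 ln11_12_6_ok) (M (nat_lit 267) (B (L (nat_lit 236) ln11_11_6 ln11_11_6_ok) (L (nat_lit 364) ln11_8_4 ln11_8_4_ok))))))))) (M (nat_lit 330) (B (L (nat_lit 364) ln14_11_3 ln14_11_3_ok) (L (nat_lit 298) ln11_13_7 ln11_13_7_ok)))))))))))))))))))))
noncomputable def c10_d63 : Cert := (B (M (nat_lit 301) (B (L (nat_lit 428) ln13_9_5 ln13_9_5_ok) (M (nat_lit 269) (B (L (nat_lit 364) ln13_8_5 ln13_8_5_ok) (M (nat_lit 270) (B (L (nat_lit 302) ln13_12_6 ln13_12_6_ok) (L (nat_lit 238) ln13_11_6 ln13_11_6_ok))))))) (B (M (nat_lit 395) (B (M (nat_lit 394) (B (L (nat_lit 366) ln10_12_2 ln10_12_2_ok) (M (nat_lit 426) (B (L (nat_lit 425) ln13_12_1 ln13_12_1_ok) (M (nat_lit 428) (B (L (nat_lit 427) ln10_13_0 ln10_13_0_ok) (L (nat_lit 393) ln9_12_0 ln9_12_0_ok))))))) (B (M (nat_lit 394) (B (L (nat_lit 366) ln10_12_2 ln10_12_2_ok) (M (nat_lit 426) (B (L (nat_lit 425)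 ln13_12_1 ln13_12_1_ok) (M (nat_lit 427) (B (L (nat_lit 428) ln10_13_0 ln10_13_0_ok) (L (nat_lit 398) ln14_12_1 ln14_12_1_ok))))))) (B (M (nat_lit 394) (B (M (nat_lit 393) (B (L (nat_lit 428) ln9_12_0 ln9_12_0_ok) (M (nat_lit 361) (B (L (nat_lit 362) ln13_12_3 ln13_12_3_ok) (L (nat_lit 360) ln12_12_3 ln12_12_3_ok))))) (B (M (nat_lit 393) (B (M (nat_lit 361) (B (L (nat_lit 362) ln13_12_3 ln13_12_3_ok) (L (nat_lit 360) ln12_12_3 ln12_12_3_ok))) (M (nat_lit 425) (B (L (nat_lit 426) ln13_12_1 ln13_12_1_ok) (L (nat_lit 424) ln12_12_1 ln12_12_1_ok))))) (B (M (nat_lit 393) (B (L (nat_lit 428) ln9_12_0 ln9_12_0_ok) (M (nat_lit 425) (B (L (nat_lit 426) ln13_12_1 ln13_12_1_ok) (L (nat_lit 424) ln12_12_1 ln12_12_1_ok))))) (M (nat_lit 426) (B (L (nat_lit 425) ln13_12_1 ln13_12_1_ok) (M (nat_lit 427) (B (L (nat_lit 398) ln14_12_1 ln14_12_1_ok) (L (nat_lit 428) ln10_13_0 ln10_13_0_ok))))))))) (B (M (nat_lit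 394) (B (L (nat_lit 366) ln10_12_2 ln10_12_2_ok) (M (nat_lit 393) (B (L (nat_lit 364) ln9_12_2 ln9_12_2_ok) (L (nat_lit 428) ln9_12_0 ln9_12_0_ok))))) (B (M (nat_lit 366) (B (L (nat_lit 394) ln10_12_2 ln10_12_2_ok) (M (nat_lit 367) (B (L (nat_lit 368) ln16_11_1 ln16_11_1_ok) (L (nat_lit 398) ln11_12_2 ln11_12_2_ok))))) (M (nat_lit 366) (B (M (nat_lit 367) (B (L (nat_lit 368) ln16_11_1 ln16_11_1_ok) (L (nat_lit 364) ln15_11_1 ln15_11_1_ok))) (B (M (nat_lit 367) (B (L (nat_lit 368) ln16_11_1 ln16_11_1_ok) (L (nat_lit 398) ln11_12_2 ln11_12_2_ok))) (B (M (nat_lit 367) (B (L (nat_lit 398) ln11_12_2 ln11_12_2_ok) (L (nat_lit 364) ln15_11_1 ln15_11_1_ok))) (M (nat_lit 398) (B (M (nat_lit 399) (B (M (nat_lit 428) (B (L (nat_lit 427) ln15_12_1 ln15_12_1_ok) (L (nat_lit 400) ln16_12_1 ln16_12_1_ok))) (B (M (nat_lit 400) (B (L (nat_lit 401) ln17_12_3 ln17_12_3_ok) (M (nat_lit 432) (B (L (nat_lit 431)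 ln12_12_0 ln12_12_0_ok) (L (nat_lit 433) ln13_12_0 ln13_12_0_ok))))) (M (nat_lit 428) (B (L (nat_lit 427) ln15_12_1 ln15_12_1_ok) (M (nat_lit 431) (B (L (nat_lit 432) ln12_12_0 ln12_12_0_ok) (M (nat_lit 463) (B (L (nat_lit 495) ln15_15_7 ln15_15_7_ok) (L (nat_lit 464) ln16_14_3 ln16_14_3_ok)))))))))) (B (M (nat_lit 399) (B (M (nat_lit 428) (B (L (nat_lit 400) ln16_12_1 ln16_12_1_ok) (L (nat_lit 427) ln15_12_1 ln15_12_1_ok))) (B (M (nat_lit 463) (B (M (nat_lit 428) (B (L (nat_lit 464) ln16_14_3 ln16_14_3_ok) (L (nat_lit 427) ln15_12_1 ln15_12_1_ok))) (M (nat_lit 431) (B (L (nat_lit 432) ln12_12_0 ln12_12_0_ok) (L (nat_lit 495) ln15_15_7 ln15_15_7_ok))))) (M (nat_lit 400) (B (M (nat_lit 432) (B (L (nat_lit 433) ln13_12_0 ln13_12_0_ok) (L (nat_lit 431) ln12_12_0 ln12_12_0_ok))) (L (nat_lit 364) ln16_12_3 ln16_12_3_ok)))))) (B (M (nat_lit 399) (B (M (nat_lit 428) (B (L (nat_lit 427) ln15_12_1 ln15_12_1_ok)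 (L (nat_lit 400) ln16_12_1 ln16_12_1_ok))) (B (M (nat_lit 400) (B (L (nat_lit 428) ln16_12_1 ln16_12_1_ok) (L (nat_lit 401) ln17_12_3 ln17_12_3_ok))) (B (M (nat_lit 364) (B (L (nat_lit 363) ln11_11_0 ln11_11_0_ok) (L (nat_lit 400) ln16_12_3 ln16_12_3_ok))) (M (nat_lit 427) (B (L (nat_lit 426) ln14_12_1 ln14_12_1_ok) (L (nat_lit 428) ln15_12_1 ln15_12_1_ok))))))) (B (M (nat_lit 399) (B (M (nat_lit 400) (B (L (nat_lit 401) ln17_12_3 ln17_12_3_ok) (L (nat_lit 428) ln16_12_1 ln16_12_1_ok))) (B (M (nat_lit 400) (B (L (nat_lit 428) ln16_12_1 ln16_12_1_ok) (L (nat_lit 364) ln16_12_3 ln16_12_3_ok))) (M (nat_lit 363) (B (L (nat_lit 364) ln11_11_0 ln11_11_0_ok) (L (nat_lit 362) ln14_12_3 ln14_12_3_ok)))))) (B (M (nat_lit 399) (B (M (nat_lit 363) (B (L (nat_lit 364) ln11_11_0 ln11_11_0_ok) (L (nat_lit 362) ln14_12_3 ln14_12_3_ok))) (M (nat_lit 427) (B (L (nat_lit 428) ln15_12_1 ln15_12_1_ok) (L (nat_lit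 426) ln14_12_1 ln14_12_1_ok))))) (B (M (nat_lit 399) (B (M (nat_lit 363) (B (L (nat_lit 362) ln14_12_3 ln14_12_3_ok) (L (nat_lit 364) ln11_11_0 ln11_11_0_ok))) (B (M (nat_lit 364) (B (L (nat_lit 363) ln11_11_0 ln11_11_0_ok) (L (nat_lit 400) ln16_12_3 ln16_12_3_ok))) (B (M (nat_lit 400) (B (L (nat_lit 364) ln16_12_3 ln16_12_3_ok) (L (nat_lit 401) ln17_12_3 ln17_12_3_ok))) (M (nat_lit 400) (B (L (nat_lit 401) ln17_12_3 ln17_12_3_ok) (M (nat_lit 432) (B (L (nat_lit 431) ln12_12_0 ln12_12_0_ok) (L (nat_lit 433) ln13_12_0 ln13_12_0_ok))))))))) (M (nat_lit 427) (B (L (nat_lit 426) ln14_12_1 ln14_12_1_ok) (M (nat_lit 363) (B (L (nat_lit 362) ln14_12_3 ln14_12_3_ok) (M (nat_lit 331) (B (M (nat_lit 364) (B (L (nat_lit 330) ln14_11_3 ln14_11_3_ok) (M (nat_lit 299) (B (L (nat_lit 267) ln11_8_4 ln11_8_4_ok) (L (nat_lit 428) ln11_9_4 ln11_9_4_ok))))) (B (M (nat_lit 330) (B (L (nat_lit 364) ln14_11_3 ln14_11_3_ok)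 (L (nat_lit 298) ln11_13_7 ln11_13_7_ok))) (M (nat_lit 299) (B (L (nat_lit 428) ln11_9_4 ln11_9_4_ok) (M (nat_lit 266) (B (L (nat_lit 298) ln11_12_7 ln11_12_7_ok) (M (nat_lit 268) (B (L (nat_lit 300) ln11_12_6 ln11_12_6_ok) (M (nat_lit 267) (B (L (nat_lit 234) ln11_11_7 ln11_11_7_ok) (L (nat_lit 236) ln11_11_6 ln11_11_6_ok))))))))))))))))))))))))))))))))) (M (nat_lit 395) (B (M (nat_lit 366) (B (L (nat_lit 394) ln10_12_2 ln10_12_2_ok) (M (nat_lit 367) (B (L (nat_lit 368) ln16_11_1 ln16_11_1_ok) (L (nat_lit 398) ln11_12_2 ln11_12_2_ok))))) (B (M (nat_lit 366) (B (L (nat_lit 394) ln10_12_2 ln10_12_2_ok) (M (nat_lit 367) (B (L (nat_lit 398) ln11_12_2 ln11_12_2_ok) (L (nat_lit 364) ln15_11_1 ln15_11_1_ok))))) (B (M (nat_lit 394) (B (L (nat_lit 366) ln10_12_2 ln10_12_2_ok) (M (nat_lit 425) (B (L (nat_lit 426) ln13_12_1 ln13_12_1_ok) (M (nat_lit 361) (B (L (nat_lit 362) ln13_12_3 ln13_12_3_ok) (M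 (nat_lit 393) (B (L (nat_lit 424) ln12_12_1 ln12_12_1_ok) (L (nat_lit 360) ln12_12_3 ln12_12_3_ok))))))))) c10_d62))))))
theorem c10_s406 : Sem (nat_lit 5954262830815946494763249298843757173869822444059832046297328026069652590123990452668329862299680335109489129391678739375805842865898127360) (nat_lit 153440184828491329809043217712881781326067183008522396027866778734845343586575264218608475380209554025417809055813928919894210360187882500363472863232) (nat_lit 153440184828491329809043217712881781326067183008522396027866778734845343586575264218608475380209554025417809055813928919894210360187882500363472863232) :=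
  sem_of_chk (M (nat_lit 462) (B (L (nat_lit 494) ln13_11_4 ln13_11_4_ok) (M (nat_lit 396) (B (M (nat_lit 301) (B (L (nat_lit 428) ln13_9_5 ln13_9_5_ok) (M (nat_lit 270) (B (L (nat_lit 302) ln13_12_6 ln13_12_6_ok) (M (nat_lit 268) (B (L (nat_lit 300) ln13_12_7 ln13_12_7_ok) (M (nat_lit 269) (B (L (nat_lit 238) ln13_11_6 ln13_11_6_ok) (L (nat_lit 236) ln13_11_7 ln13_11_7_ok))))))))) (B (M (nat_lit 301) (B (L (nat_lit 428) ln13_9_5 ln13_9_5_ok) (M (nat_lit 269) (B (L (nat_lit 364) ln13_8_5 ln13_8_5_ok) (M (nat_lit 268) (B (L (nat_lit 236) ln13_11_7 ln13_11_7_ok) (L (nat_lit 300) ln13_12_7 ln13_12_7_ok))))))) c10_d63))))) (nat_lit 5954262830815946494763249298843757173869822444059832046297328026069652590123990452668329862299680335109489129391678739375805842865898127360) (nat_lit 153440184828491329809043217712881781326067183008522396027866778734845343586575264218608475380209554025417809055813928919894210360187882500363472863232)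 (nat_lit 153440184828491329809043217712881781326067183008522396027866778734845343586575264218608475380209554025417809055813928919894210360187882500363472863232) (by decide +kernel)
theorem c10_s415 : Sem (nat_lit 383600461868783388222986614096266462235883586976421838006897082937082378022292168646313495504118652032479925772076346627612894864867166214612093763584) (nat_lit 8818994923302881348195200955421754801986153761310491674633687882605350337330600013800791662914512617472) (nat_lit 8818994923302881348195200955421754801986153761310491674633687882605350337330600013800791662914512617472) :=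
  sem_of_chk (M (nat_lit 305) (B (M (nat_lit 306) (B (M (nat_lit 339) (B (L (nat_lit 338) ln15_9_0_c10 ln15_9_0_c10_ok) (M (nat_lit 307) (B (L (nat_lit 340) ln16_9_0_c10 ln16_9_0_c10_ok) (M (nat_lit 275) (B (L (nat_lit 274) ln15_9_2_c10 ln15_9_2_c10_ok) (L (nat_lit 276) ln16_9_2_c10 ln16_9_2_c10_ok))))))) (B (M (nat_lit 307) (B (M (nat_lit 271) (B (L (nat_lit 270) ln18_9_3_c10 ln18_9_3_c10_ok) (L (nat_lit 272) ln19_9_3_c10 ln19_9_3_c10_ok))) (M (nat_lit 275) (B (L (nat_lit 274) ln15_9_2_c10 ln15_9_2_c10_ok) (L (nat_lit 276) ln16_9_2_c10 ln16_9_2_c10_ok))))) (B (M (nat_lit 307) (B (M (nat_lit 271) (B (L (nat_lit 270) ln18_9_3_c10 ln18_9_3_c10_ok) (L (nat_lit 272) ln19_9_3_c10 ln19_9_3_c10_ok))) (M (nat_lit 339) (B (L (nat_lit 338) ln15_9_0_c10 ln15_9_0_c10_ok) (L (nat_lit 340) ln16_9_0_c10 ln16_9_0_c10_ok))))) (M (nat_lit 270) (B (L (nat_lit 269) ln17_9_3_c10 ln17_9_3_c10_ok) (L (nat_lit 271)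 ln18_9_3_c10 ln18_9_3_c10_ok))))))) (B (M (nat_lit 306) (B (M (nat_lit 338) (B (L (nat_lit 339) ln15_9_0_c10 ln15_9_0_c10_ok) (L (nat_lit 337) ln14_9_0_c10 ln14_9_0_c10_ok))) (M (nat_lit 274) (B (L (nat_lit 275) ln15_9_2_c10 ln15_9_2_c10_ok) (L (nat_lit 273) ln14_9_2_c10 ln14_9_2_c10_ok))))) (B (M (nat_lit 306) (B (M (nat_lit 307) (B (M (nat_lit 339) (B (L (nat_lit 340) ln16_9_0_c10 ln16_9_0_c10_ok) (L (nat_lit 338) ln15_9_0_c10 ln15_9_0_c10_ok))) (M (nat_lit 271) (B (L (nat_lit 272) ln19_9_3_c10 ln19_9_3_c10_ok) (L (nat_lit 270) ln18_9_3_c10 ln18_9_3_c10_ok))))) (B (M (nat_lit 338) (B (L (nat_lit 339) ln15_9_0_c10 ln15_9_0_c10_ok) (L (nat_lit 337) ln14_9_0_c10 ln14_9_0_c10_ok))) (B (M (nat_lit 307) (B (M (nat_lit 271) (B (L (nat_lit 272) ln19_9_3_c10 ln19_9_3_c10_ok) (L (nat_lit 270) ln18_9_3_c10 ln18_9_3_c10_ok))) (M (nat_lit 308) (B (M (nat_lit 276) (B (L (nat_lit 277) ln17_9_2_c10 ln17_9_2_c10_ok)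 (L (nat_lit 275) ln16_9_2_c10 ln16_9_2_c10_ok))) (M (nat_lit 337) (B (L (nat_lit 336) ln20_9_1_c10 ln20_9_1_c10_ok) (L (nat_lit 338) ln14_9_0_c10 ln14_9_0_c10_ok))))))) (M (nat_lit 307) (B (M (nat_lit 271) (B (L (nat_lit 272) ln19_9_3_c10 ln19_9_3_c10_ok) (L (nat_lit 270) ln18_9_3_c10 ln18_9_3_c10_ok))) (M (nat_lit 308) (B (M (nat_lit 340) (B (L (nat_lit 341) ln17_9_0_c10 ln17_9_0_c10_ok) (L (nat_lit 339) ln16_9_0_c10 ln16_9_0_c10_ok))) (M (nat_lit 276) (B (L (nat_lit 277) ln17_9_2_c10 ln17_9_2_c10_ok) (L (nat_lit 275) ln16_9_2_c10 ln16_9_2_c10_ok))))))))))) (B (M (nat_lit 306) (B (M (nat_lit 338) (B (L (nat_lit 339) ln15_9_0_c10 ln15_9_0_c10_ok) (L (nat_lit 337) ln14_9_0_c10 ln14_9_0_c10_ok))) (M (nat_lit 270) (B (L (nat_lit 271) ln18_9_3_c10 ln18_9_3_c10_ok) (L (nat_lit 269) ln17_9_3_c10 ln17_9_3_c10_ok))))) (B (M (nat_lit 306) (B (M (nat_lit 270) (B (L (nat_lit 269) ln17_9_3_c10 ln17_9_3_c10_ok)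 (L (nat_lit 271) ln18_9_3_c10 ln18_9_3_c10_ok))) (M (nat_lit 274) (B (L (nat_lit 273) ln14_9_2_c10 ln14_9_2_c10_ok) (L (nat_lit 275) ln15_9_2_c10 ln15_9_2_c10_ok))))) (M (nat_lit 273) (B (L (nat_lit 274) ln14_9_2_c10 ln14_9_2_c10_ok) (M (nat_lit 337) (B (L (nat_lit 338) ln14_9_0_c10 ln14_9_0_c10_ok) (M (nat_lit 241) (B (M (nat_lit 209) (B (L (nat_lit 336) ln17_6_5_c10 ln17_6_5_c10_ok) (M (nat_lit 210) (B (L (nat_lit 242) ln17_10_6_c10 ln17_10_6_c10_ok) (L (nat_lit 178) ln17_9_6_c10 ln17_9_6_c10_ok))))) (B (M (nat_lit 209) (B (L (nat_lit 336) ln17_6_5_c10 ln17_6_5_c10_ok) (M (nat_lit 208) (B (L (nat_lit 176) ln17_9_7_c10 ln17_9_7_c10_ok) (L (nat_lit 240) ln17_10_7_c10 ln17_10_7_c10_ok))))) (M (nat_lit 240) (B (L (nat_lit 208) ln17_10_7_c10 ln17_10_7_c10_ok) (M (nat_lit 270) (B (L (nat_lit 269) ln17_9_3_c10 ln17_9_3_c10_ok) (M (nat_lit 242) (B (L (nat_lit 210) ln17_10_6_c10 ln17_10_6_c10_ok) (M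 (nat_lit 271) (B (L (nat_lit 239) ln18_7_1_c10 ln18_7_1_c10_ok) (L (nat_lit 272) ln14_8_2_c10 ln14_8_2_c10_ok)))))))))))))))))))))) (nat_lit 383600461868783388222986614096266462235883586976421838006897082937082378022292168646313495504118652032479925772076346627612894864867166214612093763584) (nat_lit 8818994923302881348195200955421754801986153761310491674633687882605350337330600013800791662914512617472) (nat_lit 8818994923302881348195200955421754801986153761310491674633687882605350337330600013800791662914512617472) (by decide +kernel)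
theorem c10_s423 : Sem (nat_lit 28365829084147412802440749893646987148057637966728072401632767829403167910297527393961759160585358035538695489813749239076101700210179363573662284439241317016392607367230662901760) (nat_lit 27578261324499426562008880484513837692540930562499840383568216673448215313360330708940171584615074966506368238970324053670681823704201235714201799238639181134302817319784452281652749048155513228726464119058444249464832) (nat_lit 27578261324499426562008880484513837692540930562499840383568216673448215313360330708940171584615074966506368238970324053670681823704201235714201799238639181134302817319784452281652749048155513228726464119058444249464832) :=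
  sem_of_chk (M (nat_lit 593) (B (M (nat_lit 594) (B (M (nat_lit 563) (B (L (nat_lit 562) ln15_18_2_c10 ln15_18_2_c10_ok) (M (nat_lit 595) (B (L (nat_lit 564) ln16_18_2_c10 ln16_18_2_c10_ok) (M (nat_lit 627) (B (L (nat_lit 626) ln15_18_0_c10 ln15_18_0_c10_ok) (L (nat_lit 628) ln16_18_0_c10 ln16_18_0_c10_ok))))))) (B (M (nat_lit 595) (B (M (nat_lit 623) (B (L (nat_lit 622) ln18_18_1_c10 ln18_18_1_c10_ok) (L (nat_lit 624) ln19_18_1_c10 ln19_18_1_c10_ok))) (M (nat_lit 627) (B (L (nat_lit 626) ln15_18_0_c10 ln15_18_0_c10_ok) (L (nat_lit 628) ln16_18_0_c10 ln16_18_0_c10_ok))))) (B (M (nat_lit 595) (B (M (nat_lit 623) (B (L (nat_lit 622) ln18_18_1_c10 ln18_18_1_c10_ok) (L (nat_lit 624) ln19_18_1_c10 ln19_18_1_c10_ok))) (M (nat_lit 563) (B (L (nat_lit 562) ln15_18_2_c10 ln15_18_2_c10_ok) (L (nat_lit 564) ln16_18_2_c10 ln16_18_2_c10_ok))))) (M (nat_lit 622) (B (L (nat_lit 621) ln17_18_1_c10 ln17_18_1_c10_ok)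 (L (nat_lit 623) ln18_18_1_c10 ln18_18_1_c10_ok))))))) (B (M (nat_lit 594) (B (M (nat_lit 562) (B (L (nat_lit 563) ln15_18_2_c10 ln15_18_2_c10_ok) (L (nat_lit 561) ln14_18_2_c10 ln14_18_2_c10_ok))) (M (nat_lit 626) (B (L (nat_lit 627) ln15_18_0_c10 ln15_18_0_c10_ok) (L (nat_lit 625) ln14_18_0_c10 ln14_18_0_c10_ok))))) (B (M (nat_lit 594) (B (M (nat_lit 595) (B (M (nat_lit 563) (B (L (nat_lit 564) ln16_18_2_c10 ln16_18_2_c10_ok) (L (nat_lit 562) ln15_18_2_c10 ln15_18_2_c10_ok))) (M (nat_lit 623) (B (L (nat_lit 624) ln19_18_1_c10 ln19_18_1_c10_ok) (L (nat_lit 622) ln18_18_1_c10 ln18_18_1_c10_ok))))) (B (M (nat_lit 562) (B (L (nat_lit 563) ln15_18_2_c10 ln15_18_2_c10_ok) (L (nat_lit 561) ln14_18_2_c10 ln14_18_2_c10_ok))) (B (M (nat_lit 595) (B (M (nat_lit 623) (B (L (nat_lit 624) ln19_18_1_c10 ln19_18_1_c10_ok) (L (nat_lit 622) ln18_18_1_c10 ln18_18_1_c10_ok))) (M (nat_lit 596) (B (M (nat_lit 628)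 (B (L (nat_lit 629) ln17_18_0_c10 ln17_18_0_c10_ok) (L (nat_lit 627) ln16_18_0_c10 ln16_18_0_c10_ok))) (M (nat_lit 561) (B (L (nat_lit 560) ln20_18_3_c10 ln20_18_3_c10_ok) (L (nat_lit 562) ln14_18_2_c10 ln14_18_2_c10_ok))))))) (M (nat_lit 595) (B (M (nat_lit 623) (B (L (nat_lit 624) ln19_18_1_c10 ln19_18_1_c10_ok) (L (nat_lit 622) ln18_18_1_c10 ln18_18_1_c10_ok))) (M (nat_lit 596) (B (M (nat_lit 564) (B (L (nat_lit 565) ln17_18_2_c10 ln17_18_2_c10_ok) (L (nat_lit 563) ln16_18_2_c10 ln16_18_2_c10_ok))) (M (nat_lit 628) (B (L (nat_lit 629) ln17_18_0_c10 ln17_18_0_c10_ok) (L (nat_lit 627) ln16_18_0_c10 ln16_18_0_c10_ok))))))))))) (B (M (nat_lit 594) (B (M (nat_lit 562) (B (L (nat_lit 563) ln15_18_2_c10 ln15_18_2_c10_ok) (L (nat_lit 561) ln14_18_2_c10 ln14_18_2_c10_ok))) (M (nat_lit 622) (B (L (nat_lit 623) ln18_18_1_c10 ln18_18_1_c10_ok) (L (nat_lit 621) ln17_18_1_c10 ln17_18_1_c10_ok))))) (B (M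 (nat_lit 594) (B (M (nat_lit 622) (B (L (nat_lit 621) ln17_18_1_c10 ln17_18_1_c10_ok) (L (nat_lit 623) ln18_18_1_c10 ln18_18_1_c10_ok))) (M (nat_lit 626) (B (L (nat_lit 625) ln14_18_0_c10 ln14_18_0_c10_ok) (L (nat_lit 627) ln15_18_0_c10 ln15_18_0_c10_ok))))) (M (nat_lit 625) (B (L (nat_lit 626) ln14_18_0_c10 ln14_18_0_c10_ok) (M (nat_lit 561) (B (L (nat_lit 562) ln14_18_2_c10 ln14_18_2_c10_ok) (M (nat_lit 657) (B (M (nat_lit 689) (B (L (nat_lit 560) ln17_21_7_c10 ln17_21_7_c10_ok) (M (nat_lit 690) (B (L (nat_lit 658) ln17_17_4_c10 ln17_17_4_c10_ok) (L (nat_lit 722) ln17_18_4_c10 ln17_18_4_c10_ok))))) (B (M (nat_lit 689) (B (L (nat_lit 560) ln17_21_7_c10 ln17_21_7_c10_ok) (M (nat_lit 688) (B (L (nat_lit 720) ln17_18_5_c10 ln17_18_5_c10_ok) (L (nat_lit 656) ln17_17_5_c10 ln17_17_5_c10_ok))))) (M (nat_lit 656) (B (L (nat_lit 688) ln17_17_5_c10 ln17_17_5_c10_ok) (M (nat_lit 622) (B (L (nat_lit 621)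 ln17_18_1_c10 ln17_18_1_c10_ok) (M (nat_lit 658) (B (L (nat_lit 690) ln17_17_4_c10 ln17_17_4_c10_ok) (M (nat_lit 623) (B (L (nat_lit 655) ln18_20_3_c10 ln18_20_3_c10_ok) (L (nat_lit 624) ln14_19_0_c10 ln14_19_0_c10_ok)))))))))))))))))))))) (nat_lit 28365829084147412802440749893646987148057637966728072401632767829403167910297527393961759160585358035538695489813749239076101700210179363573662284439241317016392607367230662901760) (nat_lit 27578261324499426562008880484513837692540930562499840383568216673448215313360330708940171584615074966506368238970324053670681823704201235714201799238639181134302817319784452281652749048155513228726464119058444249464832) (nat_lit 27578261324499426562008880484513837692540930562499840383568216673448215313360330708940171584615074966506368238970324053670681823704201235714201799238639181134302817319784452281652749048155513228726464119058444249464832) (by decide +kernel)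
theorem c10_s427 : Sem (nat_lit 28365829084147412802440749893646987148057637966728072401632767829403167910297527393961759160585358035538695489813749239076101700210179363573662284439241317016392607367230662901760) (nat_lit 4418524215420168443515352865916324598808859494405824923420971307256827820548864370772502397137323473623509630911522449414991258152630788932626722084278830494296453569477081234898018518433792) (nat_lit 4418524215420168443515352865916324598808859494405824923420971307256827820548864370772502397137323473623509630911522449414991258152630788932626722084278830494296453569477081234898018518433792) :=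
  sem_of_chk (M (nat_lit 593) (B (M (nat_lit 589) (B (M (nat_lit 625) (B (L (nat_lit 626) ln14_18_0_c10 ln14_18_0_c10_ok) (L (nat_lit 624) ln13_18_0_c10 ln13_18_0_c10_ok))) (M (nat_lit 621) (B (L (nat_lit 622) ln17_18_1_c10 ln17_18_1_c10_ok) (L (nat_lit 620) ln16_18_1_c10 ln16_18_1_c10_ok))))) (B (M (nat_lit 589) (B (M (nat_lit 621) (B (L (nat_lit 622) ln17_18_1_c10 ln17_18_1_c10_ok) (L (nat_lit 620) ln16_18_1_c10 ln16_18_1_c10_ok))) (B (M (nat_lit 588) (B (M (nat_lit 560) (B (L (nat_lit 561) ln13_18_2_c10 ln13_18_2_c10_ok) (L (nat_lit 559) ln12_18_2_c10 ln12_18_2_c10_ok))) (M (nat_lit 620) (B (L (nat_lit 621) ln16_18_1_c10 ln16_18_1_c10_ok) (L (nat_lit 619) ln15_18_1_c10 ln15_18_1_c10_ok))))) (M (nat_lit 560) (B (L (nat_lit 561) ln13_18_2_c10 ln13_18_2_c10_ok) (M (nat_lit 559) (B (L (nat_lit 588) ln12_18_2_c10 ln12_18_2_c10_ok) (M (nat_lit 594) (B (L (nat_lit 595) ln19_18_3_c10 ln19_18_3_c10_ok)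 (L (nat_lit 558) ln18_18_3_c10 ln18_18_3_c10_ok)))))))))) (B (M (nat_lit 589) (B (M (nat_lit 625) (B (L (nat_lit 626) ln14_18_0_c10 ln14_18_0_c10_ok) (L (nat_lit 624) ln13_18_0_c10 ln13_18_0_c10_ok))) (M (nat_lit 588) (B (M (nat_lit 560) (B (L (nat_lit 561) ln13_18_2_c10 ln13_18_2_c10_ok) (L (nat_lit 559) ln12_18_2_c10 ln12_18_2_c10_ok))) (M (nat_lit 620) (B (L (nat_lit 621) ln16_18_1_c10 ln16_18_1_c10_ok) (L (nat_lit 619) ln15_18_1_c10 ln15_18_1_c10_ok))))))) (B (M (nat_lit 560) (B (M (nat_lit 589) (B (L (nat_lit 561) ln13_18_2_c10 ln13_18_2_c10_ok) (M (nat_lit 625) (B (L (nat_lit 626) ln14_18_0_c10 ln14_18_0_c10_ok) (L (nat_lit 624) ln13_18_0_c10 ln13_18_0_c10_ok))))) (B (M (nat_lit 559) (B (M (nat_lit 594) (B (L (nat_lit 595) ln19_18_3_c10 ln19_18_3_c10_ok) (L (nat_lit 558) ln18_18_3_c10 ln18_18_3_c10_ok))) (M (nat_lit 589) (B (L (nat_lit 561) ln13_18_2_c10 ln13_18_2_c10_ok) (L (nat_lit 588)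 ln12_18_2_c10 ln12_18_2_c10_ok))))) (M (nat_lit 594) (B (M (nat_lit 626) (B (L (nat_lit 627) ln15_18_0_c10 ln15_18_0_c10_ok) (L (nat_lit 625) ln14_18_0_c10 ln14_18_0_c10_ok))) (M (nat_lit 559) (B (L (nat_lit 595) ln19_18_3_c10 ln19_18_3_c10_ok) (L (nat_lit 558) ln18_18_3_c10 ln18_18_3_c10_ok)))))))) (M (nat_lit 594) (B (M (nat_lit 626) (B (L (nat_lit 627) ln15_18_0_c10 ln15_18_0_c10_ok) (L (nat_lit 625) ln14_18_0_c10 ln14_18_0_c10_ok))) (B (M (nat_lit 595) (B (M (nat_lit 559) (B (L (nat_lit 560) ln19_18_3_c10 ln19_18_3_c10_ok) (L (nat_lit 558) ln18_18_3_c10 ln18_18_3_c10_ok))) (M (nat_lit 596) (B (M (nat_lit 564) (B (L (nat_lit 565) ln17_18_2_c10 ln17_18_2_c10_ok) (L (nat_lit 563) ln16_18_2_c10 ln16_18_2_c10_ok))) (M (nat_lit 625) (B (L (nat_lit 624) ln20_18_1_c10 ln20_18_1_c10_ok) (L (nat_lit 626) ln14_18_0_c10 ln14_18_0_c10_ok))))))) (M (nat_lit 595) (B (M (nat_lit 559) (B (L (nat_lit 560)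 ln19_18_3_c10 ln19_18_3_c10_ok) (L (nat_lit 558) ln18_18_3_c10 ln18_18_3_c10_ok))) (M (nat_lit 596) (B (M (nat_lit 628) (B (L (nat_lit 629) ln17_18_0_c10 ln17_18_0_c10_ok) (L (nat_lit 627) ln16_18_0_c10 ln16_18_0_c10_ok))) (M (nat_lit 564) (B (L (nat_lit 565) ln17_18_2_c10 ln17_18_2_c10_ok) (L (nat_lit 563) ln16_18_2_c10 ln16_18_2_c10_ok))))))))))))))) (nat_lit 28365829084147412802440749893646987148057637966728072401632767829403167910297527393961759160585358035538695489813749239076101700210179363573662284439241317016392607367230662901760) (nat_lit 4418524215420168443515352865916324598808859494405824923420971307256827820548864370772502397137323473623509630911522449414991258152630788932626722084278830494296453569477081234898018518433792) (nat_lit 4418524215420168443515352865916324598808859494405824923420971307256827820548864370772502397137323473623509630911522449414991258152630788932626722084278830494296453569477081234898018518433792)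 (by decide +kernel)
theorem c10_s432 : Sem (nat_lit 179013548899091572664880704632125070353884004832785184145640603834274570101060341069321343139366404085287401632017748727938770516514056120212129841152) (nat_lit 1757388203857652869611368178410116237029805069532196940512806096772878311208892931933391799972834751370713409530485524259658700146076002880932631080386934341632) (nat_lit 1757388203857652869611368178410116237029805069532196940512806096772878311208892931933391799972834751370713409530485524259658700146076002880932631080386934341632) :=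
  sem_of_chk (M (nat_lit 402) (B (M (nat_lit 434) (B (M (nat_lit 466) (B (M (nat_lit 371) (B (M (nat_lit 337) (B (L (nat_lit 305) ln18_13_7_c10 ln18_13_7_c10_ok) (L (nat_lit 335) ln15_10_0_c10 ln15_10_0_c10_ok))) (M (nat_lit 403) (B (L (nat_lit 401) ln19_12_3_c10 ln19_12_3_c10_ok) (L (nat_lit 498) ln18_15_6_c10 ln18_15_6_c10_ok))))) (M (nat_lit 465) (B (L (nat_lit 433) ln18_10_5_c10 ln18_10_5_c10_ok) (L (nat_lit 497) ln18_11_5_c10 ln18_11_5_c10_ok))))) (B (M (nat_lit 466) (B (M (nat_lit 467) (B (L (nat_lit 435) ln18_10_4_c10 ln18_10_4_c10_ok) (L (nat_lit 499) ln18_11_4_c10 ln18_11_4_c10_ok))) (M (nat_lit 498) (B (M (nat_lit 497) (B (L (nat_lit 465) ln18_11_5_c10 ln18_11_5_c10_ok) (L (nat_lit 529) ln18_12_5_c10 ln18_12_5_c10_ok))) (M (nat_lit 403) (B (L (nat_lit 401) ln19_12_3_c10 ln19_12_3_c10_ok) (L (nat_lit 371) ln18_15_6_c10 ln18_15_6_c10_ok))))))) (B (M (nat_lit 466) (B (M (nat_lit 465)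 (B (L (nat_lit 433) ln18_10_5_c10 ln18_10_5_c10_ok) (L (nat_lit 497) ln18_11_5_c10 ln18_11_5_c10_ok))) (M (nat_lit 467) (B (L (nat_lit 499) ln18_11_4_c10 ln18_11_4_c10_ok) (L (nat_lit 435) ln18_10_4_c10 ln18_10_4_c10_ok))))) (M (nat_lit 435) (B (M (nat_lit 401) (B (M (nat_lit 436) (B (L (nat_lit 433) ln20_13_3_c10 ln20_13_3_c10_ok) (L (nat_lit 437) ln21_13_3_c10 ln21_13_3_c10_ok))) (L (nat_lit 403) ln19_12_3_c10 ln19_12_3_c10_ok))) (L (nat_lit 467) ln18_10_4_c10 ln18_10_4_c10_ok))))))) (B (M (nat_lit 403) (B (M (nat_lit 435) (B (L (nat_lit 306) ln18_9_4_c10 ln18_9_4_c10_ok) (M (nat_lit 467) (B (L (nat_lit 499) ln19_15_7_c10 ln19_15_7_c10_ok) (L (nat_lit 434) ln18_10_4_c10 ln18_10_4_c10_ok))))) (B (M (nat_lit 435) (B (L (nat_lit 306) ln18_9_4_c10 ln18_9_4_c10_ok) (M (nat_lit 467) (B (L (nat_lit 434) ln18_10_4_c10 ln18_10_4_c10_ok) (L (nat_lit 371) ln19_14_7_c10 ln19_14_7_c10_ok))))) (B (M (nat_lit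 435) (B (L (nat_lit 306) ln18_9_4_c10 ln18_9_4_c10_ok) (M (nat_lit 467) (B (L (nat_lit 499) ln19_15_7_c10 ln19_15_7_c10_ok) (L (nat_lit 371) ln19_14_7_c10 ln19_14_7_c10_ok))))) (B (M (nat_lit 306) (B (L (nat_lit 435) ln18_9_4_c10 ln18_9_4_c10_ok) (M (nat_lit 274) (B (L (nat_lit 371) ln18_8_4_c10 ln18_8_4_c10_ok) (M (nat_lit 275) (B (L (nat_lit 243) ln18_11_6_c10 ln18_11_6_c10_ok) (L (nat_lit 307) ln18_12_6_c10 ln18_12_6_c10_ok))))))) (L (nat_lit 401) ln19_12_3_c10 ln19_12_3_c10_ok)))))) (B (M (nat_lit 337) (B (M (nat_lit 305) (B (L (nat_lit 434) ln18_13_7_c10 ln18_13_7_c10_ok) (M (nat_lit 273) (B (L (nat_lit 306) ln18_12_7_c10 ln18_12_7_c10_ok) (L (nat_lit 241) ln17_7_4_c10 ln17_7_4_c10_ok))))) (M (nat_lit 335) (B (L (nat_lit 371) ln15_10_0_c10 ln15_10_0_c10_ok) (M (nat_lit 303) (B (L (nat_lit 302) ln18_10_3_c10 ln18_10_3_c10_ok) (L (nat_lit 271) ln15_8_4 ln15_8_4_ok))))))) (M (nat_lit 306)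 (B (M (nat_lit 403) (B (L (nat_lit 401) ln19_12_3_c10 ln19_12_3_c10_ok) (L (nat_lit 435) ln18_9_4_c10 ln18_9_4_c10_ok))) (M (nat_lit 274) (B (M (nat_lit 273) (B (L (nat_lit 305) ln18_12_7_c10 ln18_12_7_c10_ok) (L (nat_lit 241) ln18_11_7_c10 ln18_11_7_c10_ok))) (M (nat_lit 275) (B (L (nat_lit 307) ln18_12_6_c10 ln18_12_6_c10_ok) (L (nat_lit 243) ln18_11_6_c10 ln18_11_6_c10_ok))))))))))) (nat_lit 179013548899091572664880704632125070353884004832785184145640603834274570101060341069321343139366404085287401632017748727938770516514056120212129841152) (nat_lit 1757388203857652869611368178410116237029805069532196940512806096772878311208892931933391799972834751370713409530485524259658700146076002880932631080386934341632) (nat_lit 1757388203857652869611368178410116237029805069532196940512806096772878311208892931933391799972834751370713409530485524259658700146076002880932631080386934341632) (by decide +kernel)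
theorem c10_s461 : Sem (nat_lit 230160277171285840712645919009284512287965328507846604554513794801903537837523796473883739811270398475008332989502064629320701868145729518905124192256) (nat_lit 747510271034881081159578754223156341603024783773260154653346925600456155837699782395101917985228486765554568735286218956043604613216493134078059124364194959079927735704486502171642617488317278584832) (nat_lit 747510271034881081159578754223156341603024783773260154653346925600456155837699782395101917985228486765554568735286218956043604613216493134078059124364194959079927735704486502171642617488317278584832) :=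
  sem_of_chk (M (nat_lit 528) (B (M (nat_lit 560) (B (M (nat_lit 591) (B (L (nat_lit 559) ln16_14_5_c10 ln16_14_5_c10_ok) (M (nat_lit 592) (B (L (nat_lit 623) ln16_15_5_c10 ln16_15_5_c10_ok) (M (nat_lit 593) (B (L (nat_lit 561) ln16_14_4_c10 ln16_14_4_c10_ok) (L (nat_lit 625) ln16_15_4_c10 ln16_15_4_c10_ok))))))) (B (M (nat_lit 592) (B (M (nat_lit 465) (B (L (nat_lit 433) ln16_17_6_c10 ln16_17_6_c10_ok) (L (nat_lit 497) ln16_18_6_c10 ln16_18_6_c10_ok))) (M (nat_lit 593) (B (L (nat_lit 561) ln16_14_4_c10 ln16_14_4_c10_ok) (L (nat_lit 625) ln16_15_4_c10 ln16_15_4_c10_ok))))) (B (M (nat_lit 592) (B (M (nat_lit 465) (B (L (nat_lit 433) ln16_17_6_c10 ln16_17_6_c10_ok) (L (nat_lit 497) ln16_18_6_c10 ln16_18_6_c10_ok))) (M (nat_lit 591) (B (L (nat_lit 559) ln16_14_5_c10 ln16_14_5_c10_ok) (L (nat_lit 623) ln16_15_5_c10 ln16_15_5_c10_ok))))) (M (nat_lit 433) (B (L (nat_lit 401) ln16_16_6_c10 ln16_16_6_c10_ok)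 (L (nat_lit 465) ln16_17_6_c10 ln16_17_6_c10_ok))))))) (B (M (nat_lit 560) (B (M (nat_lit 559) (B (L (nat_lit 591) ln16_14_5_c10 ln16_14_5_c10_ok) (L (nat_lit 527) ln16_13_5_c10 ln16_13_5_c10_ok))) (M (nat_lit 561) (B (L (nat_lit 593) ln16_14_4_c10 ln16_14_4_c10_ok) (L (nat_lit 529) ln16_13_4_c10 ln16_13_4_c10_ok))))) (B (M (nat_lit 560) (B (M (nat_lit 592) (B (M (nat_lit 591) (B (L (nat_lit 623) ln16_15_5_c10 ln16_15_5_c10_ok) (L (nat_lit 559) ln16_14_5_c10 ln16_14_5_c10_ok))) (M (nat_lit 465) (B (L (nat_lit 497) ln16_18_6_c10 ln16_18_6_c10_ok) (L (nat_lit 433) ln16_17_6_c10 ln16_17_6_c10_ok))))) (B (M (nat_lit 559) (B (L (nat_lit 591) ln16_14_5_c10 ln16_14_5_c10_ok) (L (nat_lit 527) ln16_13_5_c10 ln16_13_5_c10_ok))) (B (M (nat_lit 592) (B (M (nat_lit 465) (B (L (nat_lit 497) ln16_18_6_c10 ln16_18_6_c10_ok) (L (nat_lit 433) ln16_17_6_c10 ln16_17_6_c10_ok))) (M (nat_lit 624) (B (M (nat_lit 625)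 (B (L (nat_lit 657) ln16_16_4_c10 ln16_16_4_c10_ok) (L (nat_lit 593) ln16_15_4_c10 ln16_15_4_c10_ok))) (M (nat_lit 527) (B (L (nat_lit 495) ln16_19_7_c10 ln16_19_7_c10_ok) (L (nat_lit 559) ln16_13_5_c10 ln16_13_5_c10_ok))))))) (M (nat_lit 592) (B (M (nat_lit 465) (B (L (nat_lit 497) ln16_18_6_c10 ln16_18_6_c10_ok) (L (nat_lit 433) ln16_17_6_c10 ln16_17_6_c10_ok))) (M (nat_lit 624) (B (M (nat_lit 623) (B (L (nat_lit 655) ln16_16_5_c10 ln16_16_5_c10_ok) (L (nat_lit 591) ln16_15_5_c10 ln16_15_5_c10_ok))) (M (nat_lit 625) (B (L (nat_lit 657) ln16_16_4_c10 ln16_16_4_c10_ok) (L (nat_lit 593) ln16_15_4_c10 ln16_15_4_c10_ok))))))))))) (B (M (nat_lit 560) (B (M (nat_lit 559) (B (L (nat_lit 591) ln16_14_5_c10 ln16_14_5_c10_ok) (L (nat_lit 527) ln16_13_5_c10 ln16_13_5_c10_ok))) (M (nat_lit 433) (B (L (nat_lit 465) ln16_17_6_c10 ln16_17_6_c10_ok) (L (nat_lit 401) ln16_16_6_c10 ln16_16_6_c10_ok))))) (B (M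 (nat_lit 560) (B (M (nat_lit 433) (B (L (nat_lit 401) ln16_16_6_c10 ln16_16_6_c10_ok) (L (nat_lit 465) ln16_17_6_c10 ln16_17_6_c10_ok))) (M (nat_lit 561) (B (L (nat_lit 529) ln16_13_4_c10 ln16_13_4_c10_ok) (L (nat_lit 593) ln16_14_4_c10 ln16_14_4_c10_ok))))) (M (nat_lit 529) (B (L (nat_lit 561) ln16_13_4_c10 ln16_13_4_c10_ok) (M (nat_lit 527) (B (L (nat_lit 559) ln16_13_5_c10 ln16_13_5_c10_ok) (M (nat_lit 530) (B (M (nat_lit 531) (B (L (nat_lit 495) ln19_16_3_c10 ln19_16_3_c10_ok) (M (nat_lit 563) (B (L (nat_lit 562) ln15_16_0_c10 ln15_16_0_c10_ok) (L (nat_lit 564) ln16_16_0_c10 ln16_16_0_c10_ok))))) (B (M (nat_lit 531) (B (L (nat_lit 495) ln19_16_3_c10 ln19_16_3_c10_ok) (M (nat_lit 499) (B (L (nat_lit 500) ln16_16_2_c10 ln16_16_2_c10_ok) (L (nat_lit 498) ln15_16_2_c10 ln15_16_2_c10_ok))))) (M (nat_lit 498) (B (L (nat_lit 499) ln15_16_2_c10 ln15_16_2_c10_ok) (M (nat_lit 433) (B (L (nat_lit 401)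 ln16_16_6_c10 ln16_16_6_c10_ok) (M (nat_lit 562) (B (L (nat_lit 563) ln15_16_0_c10 ln15_16_0_c10_ok) (M (nat_lit 465) (B (L (nat_lit 466) ln18_17_7_c10 ln18_17_7_c10_ok) (L (nat_lit 497) ln17_13_4_c10 ln17_13_4_c10_ok)))))))))))))))))))))) (nat_lit 230160277171285840712645919009284512287965328507846604554513794801903537837523796473883739811270398475008332989502064629320701868145729518905124192256) (nat_lit 747510271034881081159578754223156341603024783773260154653346925600456155837699782395101917985228486765554568735286218956043604613216493134078059124364194959079927735704486502171642617488317278584832) (nat_lit 747510271034881081159578754223156341603024783773260154653346925600456155837699782395101917985228486765554568735286218956043604613216493134078059124364194959079927735704486502171642617488317278584832) (by decide +kernel)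
theorem c10_s465 : Sem (nat_lit 230160277171285840712645919009284512287965328507846604554513794801903537837523796473883739811270398475008332989502064629320701868145729518905124192256) (nat_lit 747510271034881081159578754115598412485066526022686799008888826744922441531563180260674229698086029919887217039421966099462900351467416230338760653087788377455322336232807792052901777224219137933312) (nat_lit 747510271034881081159578754115598412485066526022686799008888826744922441531563180260674229698086029919887217039421966099462900351467416230338760653087788377455322336232807792052901777224219137933312) :=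
  sem_of_chk (M (nat_lit 528) (B (M (nat_lit 400) (B (M (nat_lit 529) (B (L (nat_lit 561) ln16_13_4_c10 ln16_13_4_c10_ok) (L (nat_lit 497) ln16_12_4 ln16_12_4_ok))) (M (nat_lit 401) (B (L (nat_lit 433) ln16_16_6_c10 ln16_16_6_c10_ok) (L (nat_lit 369) ln16_15_6_c10 ln16_15_6_c10_ok))))) (B (M (nat_lit 400) (B (M (nat_lit 401) (B (L (nat_lit 433) ln16_16_6_c10 ln16_16_6_c10_ok) (L (nat_lit 369) ln16_15_6_c10 ln16_15_6_c10_ok))) (B (M (nat_lit 368) (B (M (nat_lit 495) (B (L (nat_lit 527) ln16_12_5_c10 ln16_12_5_c10_ok) (L (nat_lit 463) ln16_11_5_c10 ln16_11_5_c10_ok))) (M (nat_lit 369) (B (L (nat_lit 401) ln16_15_6_c10 ln16_15_6_c10_ok) (L (nat_lit 337) ln16_14_6_c10 ln16_14_6_c10_ok))))) (M (nat_lit 495) (B (L (nat_lit 527) ln16_12_5_c10 ln16_12_5_c10_ok) (M (nat_lit 463) (B (L (nat_lit 368) ln16_11_5_c10 ln16_11_5_c10_ok) (M (nat_lit 560) (B (L (nat_lit 592) ln16_18_7_c10 ln16_18_7_c10_ok) (L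 (nat_lit 431) ln16_17_7_c10 ln16_17_7_c10_ok)))))))))) (B (M (nat_lit 400) (B (M (nat_lit 529) (B (L (nat_lit 561) ln16_13_4_c10 ln16_13_4_c10_ok) (L (nat_lit 497) ln16_12_4 ln16_12_4_ok))) (M (nat_lit 368) (B (M (nat_lit 495) (B (L (nat_lit 527) ln16_12_5_c10 ln16_12_5_c10_ok) (L (nat_lit 463) ln16_11_5_c10 ln16_11_5_c10_ok))) (M (nat_lit 369) (B (L (nat_lit 401) ln16_15_6_c10 ln16_15_6_c10_ok) (L (nat_lit 337) ln16_14_6_c10 ln16_14_6_c10_ok))))))) (B (M (nat_lit 495) (B (M (nat_lit 400) (B (L (nat_lit 527) ln16_12_5_c10 ln16_12_5_c10_ok) (M (nat_lit 529) (B (L (nat_lit 561) ln16_13_4_c10 ln16_13_4_c10_ok) (L (nat_lit 497) ln16_12_4 ln16_12_4_ok))))) (B (M (nat_lit 463) (B (M (nat_lit 560) (B (L (nat_lit 592) ln16_18_7_c10 ln16_18_7_c10_ok) (L (nat_lit 431) ln16_17_7_c10 ln16_17_7_c10_ok))) (M (nat_lit 400) (B (L (nat_lit 527) ln16_12_5_c10 ln16_12_5_c10_ok) (L (nat_lit 368) ln16_11_5_c10 ln16_11_5_c10_ok)))))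 (M (nat_lit 560) (B (M (nat_lit 561) (B (L (nat_lit 593) ln16_14_4_c10 ln16_14_4_c10_ok) (L (nat_lit 529) ln16_13_4_c10 ln16_13_4_c10_ok))) (M (nat_lit 463) (B (L (nat_lit 592) ln16_18_7_c10 ln16_18_7_c10_ok) (L (nat_lit 431) ln16_17_7_c10 ln16_17_7_c10_ok)))))))) (M (nat_lit 560) (B (M (nat_lit 561) (B (L (nat_lit 593) ln16_14_4_c10 ln16_14_4_c10_ok) (L (nat_lit 529) ln16_13_4_c10 ln16_13_4_c10_ok))) (B (M (nat_lit 592) (B (M (nat_lit 463) (B (L (nat_lit 495) ln16_18_7_c10 ln16_18_7_c10_ok) (L (nat_lit 431) ln16_17_7_c10 ln16_17_7_c10_ok))) (M (nat_lit 624) (B (M (nat_lit 623) (B (L (nat_lit 655) ln16_16_5_c10 ln16_16_5_c10_ok) (L (nat_lit 591) ln16_15_5_c10 ln16_15_5_c10_ok))) (M (nat_lit 529) (B (L (nat_lit 497) ln16_19_6_c10 ln16_19_6_c10_ok) (L (nat_lit 561) ln16_13_4_c10 ln16_13_4_c10_ok))))))) (M (nat_lit 592) (B (M (nat_lit 463) (B (L (nat_lit 495) ln16_18_7_c10 ln16_18_7_c10_ok) (L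 (nat_lit 431) ln16_17_7_c10 ln16_17_7_c10_ok))) (M (nat_lit 624) (B (M (nat_lit 625) (B (L (nat_lit 657) ln16_16_4_c10 ln16_16_4_c10_ok) (L (nat_lit 593) ln16_15_4_c10 ln16_15_4_c10_ok))) (M (nat_lit 623) (B (L (nat_lit 655) ln16_16_5_c10 ln16_16_5_c10_ok) (L (nat_lit 591) ln16_15_5_c10 ln16_15_5_c10_ok))))))))))))))) (nat_lit 230160277171285840712645919009284512287965328507846604554513794801903537837523796473883739811270398475008332989502064629320701868145729518905124192256) (nat_lit 747510271034881081159578754115598412485066526022686799008888826744922441531563180260674229698086029919887217039421966099462900351467416230338760653087788377455322336232807792052901777224219137933312) (nat_lit 747510271034881081159578754115598412485066526022686799008888826744922441531563180260674229698086029919887217039421966099462900351467416230338760653087788377455322336232807792052901777224219137933312) (by decide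 +kernel)
theorem c10_s469 : Sem (nat_lit 28770034646410730089080739877149081567450810757958482127346627333379782728507911685240954261334516477179363643506919190467640497114772872883957923840) (nat_lit 11679847984920016893118418033111507847791659864502953632333297323803247079244382714042140849543803784242068860243567864070814402306039243195783915342230345443040679145609668277646093268708562567168) (nat_lit 11679847984920016893118418033111507847791659864502953632333297323803247079244382714042140849543803784242068860243567864070814402306039243195783915342230345443040679145609668277646093268708562567168) :=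
  sem_of_chk (M (nat_lit 522) (B (M (nat_lit 554) (B (M (nat_lit 587) (B (L (nat_lit 555) ln10_14_4 ln10_14_4_ok) (M (nat_lit 586) (B (L (nat_lit 619) ln10_15_4 ln10_15_4_ok) (M (nat_lit 585) (B (L (nat_lit 553) ln10_14_5 ln10_14_5_ok) (L (nat_lit 617) ln10_15_5 ln10_15_5_ok))))))) (B (M (nat_lit 586) (B (M (nat_lit 457) (B (L (nat_lit 425) ln10_17_7 ln10_17_7_ok) (L (nat_lit 489) ln10_18_7_c10 ln10_18_7_c10_ok))) (M (nat_lit 585) (B (L (nat_lit 553) ln10_14_5 ln10_14_5_ok) (L (nat_lit 617) ln10_15_5 ln10_15_5_ok))))) (B (M (nat_lit 586) (B (M (nat_lit 457) (B (L (nat_lit 425) ln10_17_7 ln10_17_7_ok) (L (nat_lit 489) ln10_18_7_c10 ln10_18_7_c10_ok))) (M (nat_lit 587) (B (L (nat_lit 555) ln10_14_4 ln10_14_4_ok) (L (nat_lit 619) ln10_15_4 ln10_15_4_ok))))) (M (nat_lit 425) (B (L (nat_lit 393) ln10_16_7 ln10_16_7_ok) (L (nat_lit 457) ln10_17_7 ln10_17_7_ok))))))) (B (M (nat_lit 554) (B (M (nat_lit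 555) (B (L (nat_lit 587) ln10_14_4 ln10_14_4_ok) (L (nat_lit 523) ln10_13_4 ln10_13_4_ok))) (M (nat_lit 553) (B (L (nat_lit 585) ln10_14_5 ln10_14_5_ok) (L (nat_lit 521) ln10_13_5 ln10_13_5_ok))))) (B (M (nat_lit 554) (B (M (nat_lit 586) (B (M (nat_lit 587) (B (L (nat_lit 619) ln10_15_4 ln10_15_4_ok) (L (nat_lit 555) ln10_14_4 ln10_14_4_ok))) (M (nat_lit 457) (B (L (nat_lit 489) ln10_18_7_c10 ln10_18_7_c10_ok) (L (nat_lit 425) ln10_17_7 ln10_17_7_ok))))) (B (M (nat_lit 555) (B (L (nat_lit 587) ln10_14_4 ln10_14_4_ok) (L (nat_lit 523) ln10_13_4 ln10_13_4_ok))) (B (M (nat_lit 586) (B (M (nat_lit 457) (B (L (nat_lit 489) ln10_18_7_c10 ln10_18_7_c10_ok) (L (nat_lit 425) ln10_17_7 ln10_17_7_ok))) (M (nat_lit 618) (B (M (nat_lit 617) (B (L (nat_lit 649) ln10_16_5 ln10_16_5_ok) (L (nat_lit 585) ln10_15_5 ln10_15_5_ok))) (M (nat_lit 523) (B (L (nat_lit 491) ln10_19_6 ln10_19_6_ok) (L (nat_lit 555) ln10_13_4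 ln10_13_4_ok))))))) (M (nat_lit 586) (B (M (nat_lit 457) (B (L (nat_lit 489) ln10_18_7_c10 ln10_18_7_c10_ok) (L (nat_lit 425) ln10_17_7 ln10_17_7_ok))) (M (nat_lit 618) (B (M (nat_lit 619) (B (L (nat_lit 651) ln10_16_4 ln10_16_4_ok) (L (nat_lit 587) ln10_15_4 ln10_15_4_ok))) (M (nat_lit 617) (B (L (nat_lit 649) ln10_16_5 ln10_16_5_ok) (L (nat_lit 585) ln10_15_5 ln10_15_5_ok))))))))))) (B (M (nat_lit 554) (B (M (nat_lit 555) (B (L (nat_lit 587) ln10_14_4 ln10_14_4_ok) (L (nat_lit 523) ln10_13_4 ln10_13_4_ok))) (M (nat_lit 425) (B (L (nat_lit 457) ln10_17_7 ln10_17_7_ok) (L (nat_lit 393) ln10_16_7 ln10_16_7_ok))))) (B (M (nat_lit 554) (B (M (nat_lit 425) (B (L (nat_lit 393) ln10_16_7 ln10_16_7_ok) (L (nat_lit 457) ln10_17_7 ln10_17_7_ok))) (M (nat_lit 553) (B (L (nat_lit 521) ln10_13_5 ln10_13_5_ok) (L (nat_lit 585) ln10_14_5 ln10_14_5_ok))))) (M (nat_lit 521) (B (L (nat_lit 553) ln10_13_5 ln10_13_5_ok)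 (M (nat_lit 523) (B (L (nat_lit 555) ln10_13_4 ln10_13_4_ok) (M (nat_lit 520) (B (M (nat_lit 519) (B (L (nat_lit 491) ln7_16_2 ln7_16_2_ok) (M (nat_lit 551) (B (L (nat_lit 552) ln11_16_1 ln11_16_1_ok) (L (nat_lit 550) ln10_16_1_c10 ln10_16_1_c10_ok))))) (B (M (nat_lit 519) (B (L (nat_lit 491) ln7_16_2 ln7_16_2_ok) (M (nat_lit 487) (B (L (nat_lit 486) ln10_16_3_c10 ln10_16_3_c10_ok) (L (nat_lit 488) ln11_16_3_c10 ln11_16_3_c10_ok))))) (M (nat_lit 488) (B (L (nat_lit 487) ln11_16_3_c10 ln11_16_3_c10_ok) (M (nat_lit 425) (B (L (nat_lit 393) ln10_16_7 ln10_16_7_ok) (M (nat_lit 552) (B (L (nat_lit 551) ln11_16_1 ln11_16_1_ok) (M (nat_lit 457) (B (L (nat_lit 456) ln8_17_6_c10 ln8_17_6_c10_ok) (L (nat_lit 489) ln9_13_5_c10 ln9_13_5_c10_ok)))))))))))))))))))))) (nat_lit 28770034646410730089080739877149081567450810757958482127346627333379782728507911685240954261334516477179363643506919190467640497114772872883957923840)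 (nat_lit 11679847984920016893118418033111507847791659864502953632333297323803247079244382714042140849543803784242068860243567864070814402306039243195783915342230345443040679145609668277646093268708562567168) (nat_lit 11679847984920016893118418033111507847791659864502953632333297323803247079244382714042140849543803784242068860243567864070814402306039243195783915342230345443040679145609668277646093268708562567168) (by decide +kernel)
theorem c10_s483 : Sem (nat_lit 20839919915480654392278910201391882264833254797226309034078309659991520807573229041605793484315136322418169375090824674936824626068561330176) (nat_lit 95268205293055143926540988310982715826348507650890199107008057378140319461134281230757158921221443588312565372403221519776461407074115387392) (nat_lit 95268205293055143926540988310982715826348507650890199107008057378140319461134281230757158921221443588312565372403221519776461407074115387392)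 :=
  sem_of_chk (M (nat_lit 336) (B (M (nat_lit 304) (B (M (nat_lit 271) (B (L (nat_lit 303) ln16_12_7_c10 ln16_12_7_c10_ok) (M (nat_lit 272) (B (L (nat_lit 239) ln16_11_7_c10 ln16_11_7_c10_ok) (M (nat_lit 273) (B (L (nat_lit 305) ln16_12_6_c10 ln16_12_6_c10_ok) (L (nat_lit 241) ln16_11_6_c10 ln16_11_6_c10_ok))))))) (B (M (nat_lit 272) (B (M (nat_lit 401) (B (L (nat_lit 433) ln16_9_4_c10 ln16_9_4_c10_ok) (L (nat_lit 369) ln16_8_4_c10 ln16_8_4_c10_ok))) (M (nat_lit 273) (B (L (nat_lit 305) ln16_12_6_c10 ln16_12_6_c10_ok) (L (nat_lit 241) ln16_11_6_c10 ln16_11_6_c10_ok))))) (B (M (nat_lit 272) (B (M (nat_lit 401) (B (L (nat_lit 433) ln16_9_4_c10 ln16_9_4_c10_ok) (L (nat_lit 369) ln16_8_4_c10 ln16_8_4_c10_ok))) (M (nat_lit 271) (B (L (nat_lit 303) ln16_12_7_c10 ln16_12_7_c10_ok) (L (nat_lit 239) ln16_11_7_c10 ln16_11_7_c10_ok))))) (M (nat_lit 433) (B (L (nat_lit 465) ln16_10_4_c10 ln16_10_4_c10_ok)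 (L (nat_lit 401) ln16_9_4_c10 ln16_9_4_c10_ok))))))) (B (M (nat_lit 304) (B (M (nat_lit 303) (B (L (nat_lit 271) ln16_12_7_c10 ln16_12_7_c10_ok) (L (nat_lit 335) ln16_13_7 ln16_13_7_ok))) (M (nat_lit 305) (B (L (nat_lit 273) ln16_12_6_c10 ln16_12_6_c10_ok) (L (nat_lit 337) ln16_13_6_c10 ln16_13_6_c10_ok))))) (B (M (nat_lit 304) (B (M (nat_lit 272) (B (M (nat_lit 271) (B (L (nat_lit 239) ln16_11_7_c10 ln16_11_7_c10_ok) (L (nat_lit 303) ln16_12_7_c10 ln16_12_7_c10_ok))) (M (nat_lit 401) (B (L (nat_lit 369) ln16_8_4_c10 ln16_8_4_c10_ok) (L (nat_lit 433) ln16_9_4_c10 ln16_9_4_c10_ok))))) (B (M (nat_lit 303) (B (L (nat_lit 271) ln16_12_7_c10 ln16_12_7_c10_ok) (L (nat_lit 335) ln16_13_7 ln16_13_7_ok))) (B (M (nat_lit 272) (B (M (nat_lit 401) (B (L (nat_lit 369) ln16_8_4_c10 ln16_8_4_c10_ok) (L (nat_lit 433) ln16_9_4_c10 ln16_9_4_c10_ok))) (M (nat_lit 240) (B (M (nat_lit 241) (B (L (nat_lit 209) ln16_10_6_c10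 ln16_10_6_c10_ok) (L (nat_lit 273) ln16_11_6_c10 ln16_11_6_c10_ok))) (M (nat_lit 335) (B (L (nat_lit 367) ln16_7_5_c10 ln16_7_5_c10_ok) (L (nat_lit 303) ln16_13_7 ln16_13_7_ok))))))) (M (nat_lit 272) (B (M (nat_lit 401) (B (L (nat_lit 369) ln16_8_4_c10 ln16_8_4_c10_ok) (L (nat_lit 433) ln16_9_4_c10 ln16_9_4_c10_ok))) (M (nat_lit 240) (B (M (nat_lit 239) (B (L (nat_lit 207) ln16_10_7_c10 ln16_10_7_c10_ok) (L (nat_lit 271) ln16_11_7_c10 ln16_11_7_c10_ok))) (M (nat_lit 241) (B (L (nat_lit 209) ln16_10_6_c10 ln16_10_6_c10_ok) (L (nat_lit 273) ln16_11_6_c10 ln16_11_6_c10_ok))))))))))) (B (M (nat_lit 304) (B (M (nat_lit 303) (B (L (nat_lit 271) ln16_12_7_c10 ln16_12_7_c10_ok) (L (nat_lit 335) ln16_13_7 ln16_13_7_ok))) (M (nat_lit 433) (B (L (nat_lit 401) ln16_9_4_c10 ln16_9_4_c10_ok) (L (nat_lit 465) ln16_10_4_c10 ln16_10_4_c10_ok))))) (B (M (nat_lit 304) (B (M (nat_lit 433) (B (L (nat_lit 465) ln16_10_4_c10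 ln16_10_4_c10_ok) (L (nat_lit 401) ln16_9_4_c10 ln16_9_4_c10_ok))) (M (nat_lit 305) (B (L (nat_lit 337) ln16_13_6_c10 ln16_13_6_c10_ok) (L (nat_lit 273) ln16_12_6_c10 ln16_12_6_c10_ok))))) (M (nat_lit 337) (B (L (nat_lit 305) ln16_13_6_c10 ln16_13_6_c10_ok) (M (nat_lit 335) (B (L (nat_lit 303) ln16_13_7 ln16_13_7_ok) (M (nat_lit 338) (B (M (nat_lit 339) (B (L (nat_lit 367) ln19_10_1_c10 ln19_10_1_c10_ok) (M (nat_lit 307) (B (L (nat_lit 306) ln15_10_2_c10 ln15_10_2_c10_ok) (L (nat_lit 308) ln16_10_2_c10 ln16_10_2_c10_ok))))) (B (M (nat_lit 339) (B (L (nat_lit 367) ln19_10_1_c10 ln19_10_1_c10_ok) (M (nat_lit 371) (B (L (nat_lit 372) ln16_10_0_c10 ln16_10_0_c10_ok) (L (nat_lit 370) ln15_10_0_c10 ln15_10_0_c10_ok))))) (M (nat_lit 370) (B (L (nat_lit 371) ln15_10_0_c10 ln15_10_0_c10_ok) (M (nat_lit 433) (B (L (nat_lit 465) ln16_10_4_c10 ln16_10_4_c10_ok) (M (nat_lit 306) (B (L (nat_lit 307) ln15_10_2_c10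 ln15_10_2_c10_ok) (M (nat_lit 401) (B (L (nat_lit 402) ln18_9_5_c10 ln18_9_5_c10_ok) (L (nat_lit 369) ln17_13_6_c10 ln17_13_6_c10_ok)))))))))))))))))))))) (nat_lit 20839919915480654392278910201391882264833254797226309034078309659991520807573229041605793484315136322418169375090824674936824626068561330176) (nat_lit 95268205293055143926540988310982715826348507650890199107008057378140319461134281230757158921221443588312565372403221519776461407074115387392) (nat_lit 95268205293055143926540988310982715826348507650890199107008057378140319461134281230757158921221443588312565372403221519776461407074115387392) (by decide +kernel)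
theorem c10_s491 : Sem (nat_lit 20839919904563267469136299467468243040968311306576724125601814824542818561135580730608205265846292373090681313944358956363619163917254656000) (nat_lit 372141426925996655932789994786910100234634182189446576380755904505120985107464429282941053259197644251385480132285661104914212265916366848) (nat_lit 372141426925996655932789994786910100234634182189446576380755904505120985107464429282941053259197644251385480132285661104914212265916366848) :=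
  sem_of_chk (M (nat_lit 330) (B (M (nat_lit 298) (B (M (nat_lit 267) (B (L (nat_lit 299) ln10_12_6_c10 ln10_12_6_c10_ok) (M (nat_lit 266) (B (L (nat_lit 235) ln10_11_6_c10 ln10_11_6_c10_ok) (M (nat_lit 265) (B (L (nat_lit 297) ln10_12_7_c10 ln10_12_7_c10_ok) (L (nat_lit 233) ln10_11_7_c10 ln10_11_7_c10_ok))))))) (B (M (nat_lit 266) (B (M (nat_lit 393) (B (L (nat_lit 425) ln10_9_5_c10 ln10_9_5_c10_ok) (L (nat_lit 361) ln10_8_5_c10 ln10_8_5_c10_ok))) (M (nat_lit 265) (B (L (nat_lit 297) ln10_12_7_c10 ln10_12_7_c10_ok) (L (nat_lit 233) ln10_11_7_c10 ln10_11_7_c10_ok))))) (B (M (nat_lit 266) (B (M (nat_lit 393) (B (L (nat_lit 425) ln10_9_5_c10 ln10_9_5_c10_ok) (L (nat_lit 361) ln10_8_5_c10 ln10_8_5_c10_ok))) (M (nat_lit 267) (B (L (nat_lit 299) ln10_12_6_c10 ln10_12_6_c10_ok) (L (nat_lit 235) ln10_11_6_c10 ln10_11_6_c10_ok))))) (M (nat_lit 425) (B (L (nat_lit 457) ln10_10_5 ln10_10_5_ok) (L (nat_lit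 393) ln10_9_5_c10 ln10_9_5_c10_ok))))))) (B (M (nat_lit 298) (B (M (nat_lit 299) (B (L (nat_lit 267) ln10_12_6_c10 ln10_12_6_c10_ok) (L (nat_lit 331) ln10_13_6 ln10_13_6_ok))) (M (nat_lit 297) (B (L (nat_lit 265) ln10_12_7_c10 ln10_12_7_c10_ok) (L (nat_lit 329) ln10_13_7_c10 ln10_13_7_c10_ok))))) (B (M (nat_lit 298) (B (M (nat_lit 266) (B (M (nat_lit 267) (B (L (nat_lit 235) ln10_11_6_c10 ln10_11_6_c10_ok) (L (nat_lit 299) ln10_12_6_c10 ln10_12_6_c10_ok))) (M (nat_lit 393) (B (L (nat_lit 361) ln10_8_5_c10 ln10_8_5_c10_ok) (L (nat_lit 425) ln10_9_5_c10 ln10_9_5_c10_ok))))) (B (M (nat_lit 299) (B (L (nat_lit 267) ln10_12_6_c10 ln10_12_6_c10_ok) (L (nat_lit 331) ln10_13_6 ln10_13_6_ok))) (B (M (nat_lit 266) (B (M (nat_lit 393) (B (L (nat_lit 361) ln10_8_5_c10 ln10_8_5_c10_ok) (L (nat_lit 425) ln10_9_5_c10 ln10_9_5_c10_ok))) (M (nat_lit 234) (B (M (nat_lit 233) (B (L (nat_lit 201) ln10_10_7_c10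 ln10_10_7_c10_ok) (L (nat_lit 265) ln10_11_7_c10 ln10_11_7_c10_ok))) (M (nat_lit 331) (B (L (nat_lit 363) ln10_7_4 ln10_7_4_ok) (L (nat_lit 299) ln10_13_6 ln10_13_6_ok))))))) (M (nat_lit 266) (B (M (nat_lit 393) (B (L (nat_lit 361) ln10_8_5_c10 ln10_8_5_c10_ok) (L (nat_lit 425) ln10_9_5_c10 ln10_9_5_c10_ok))) (M (nat_lit 234) (B (M (nat_lit 235) (B (L (nat_lit 203) ln10_10_6_c10 ln10_10_6_c10_ok) (L (nat_lit 267) ln10_11_6_c10 ln10_11_6_c10_ok))) (M (nat_lit 233) (B (L (nat_lit 201) ln10_10_7_c10 ln10_10_7_c10_ok) (L (nat_lit 265) ln10_11_7_c10 ln10_11_7_c10_ok))))))))))) (B (M (nat_lit 298) (B (M (nat_lit 299) (B (L (nat_lit 267) ln10_12_6_c10 ln10_12_6_c10_ok) (L (nat_lit 331) ln10_13_6 ln10_13_6_ok))) (M (nat_lit 425) (B (L (nat_lit 393) ln10_9_5_c10 ln10_9_5_c10_ok) (L (nat_lit 457) ln10_10_5 ln10_10_5_ok))))) (B (M (nat_lit 298) (B (M (nat_lit 425) (B (L (nat_lit 457) ln10_10_5 ln10_10_5_ok)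 (L (nat_lit 393) ln10_9_5_c10 ln10_9_5_c10_ok))) (M (nat_lit 297) (B (L (nat_lit 329) ln10_13_7_c10 ln10_13_7_c10_ok) (L (nat_lit 265) ln10_12_7_c10 ln10_12_7_c10_ok))))) (M (nat_lit 329) (B (L (nat_lit 297) ln10_13_7_c10 ln10_13_7_c10_ok) (M (nat_lit 331) (B (L (nat_lit 299) ln10_13_6 ln10_13_6_ok) (M (nat_lit 328) (B (M (nat_lit 327) (B (L (nat_lit 363) ln7_10_0_c10 ln7_10_0_c10_ok) (M (nat_lit 295) (B (L (nat_lit 296) ln11_10_3_c10 ln11_10_3_c10_ok) (L (nat_lit 294) ln10_10_3_c10 ln10_10_3_c10_ok))))) (B (M (nat_lit 327) (B (L (nat_lit 363) ln7_10_0_c10 ln7_10_0_c10_ok) (M (nat_lit 359) (B (L (nat_lit 358) ln10_10_1_c10 ln10_10_1_c10_ok) (L (nat_lit 360) ln11_10_1_c10 ln11_10_1_c10_ok))))) (M (nat_lit 360) (B (L (nat_lit 359) ln11_10_1_c10 ln11_10_1_c10_ok) (M (nat_lit 425) (B (L (nat_lit 457) ln10_10_5 ln10_10_5_ok) (M (nat_lit 296) (B (L (nat_lit 295) ln11_10_3_c10 ln11_10_3_c10_ok) (M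 (nat_lit 393) (B (L (nat_lit 392) ln8_9_4_c10 ln8_9_4_c10_ok) (L (nat_lit 361) ln9_13_7_c10 ln9_13_7_c10_ok)))))))))))))))))))))) (nat_lit 20839919904563267469136299467468243040968311306576724125601814824542818561135580730608205265846292373090681313944358956363619163917254656000) (nat_lit 372141426925996655932789994786910100234634182189446576380755904505120985107464429282941053259197644251385480132285661104914212265916366848) (nat_lit 372141426925996655932789994786910100234634182189446576380755904505120985107464429282941053259197644251385480132285661104914212265916366848) (by decide +kernel)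
noncomputable def c10_d64 : Cert := (B (M (nat_lit 491) (B (M (nat_lit 526) (B (L (nat_lit 490) ln10_15_0 ln10_15_0_ok) (L (nat_lit 527) ln11_15_0 ln11_15_0_ok))) (M (nat_lit 523) (B (L (nat_lit 522) ln14_15_1 ln14_15_1_ok) (L (nat_lit 524) ln15_15_1 ln15_15_1_ok))))) (B (M (nat_lit 491) (B (M (nat_lit 523) (B (L (nat_lit 524) ln15_15_1 ln15_15_1_ok) (L (nat_lit 522) ln14_15_1 ln14_15_1_ok))) (B (M (nat_lit 490) (B (M (nat_lit 522) (B (L (nat_lit 523) ln14_15_1 ln14_15_1_ok) (L (nat_lit 521) ln13_15_1 ln13_15_1_ok))) (M (nat_lit 458) (B (L (nat_lit 459) ln14_15_3 ln14_15_3_ok) (L (nat_lit 457) ln13_15_3 ln13_15_3_ok))))) (B (M (nat_lit 490) (B (M (nat_lit 458) (B (L (nat_lit 459) ln14_15_3 ln14_15_3_ok) (L (nat_lit 457) ln13_15_3 ln13_15_3_ok))) (M (nat_lit 521) (B (L (nat_lit 522) ln13_15_1 ln13_15_1_ok) (M (nat_lit 489) (B (L (nat_lit 524) ln9_15_0 ln9_15_0_ok) (L (nat_lit 520) ln12_15_1 ln12_15_1_ok)))))))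 (M (nat_lit 490) (B (M (nat_lit 524) (B (L (nat_lit 523) ln15_15_1 ln15_15_1_ok) (L (nat_lit 489) ln9_15_0 ln9_15_0_ok))) (M (nat_lit 458) (B (L (nat_lit 459) ln14_15_3 ln14_15_3_ok) (L (nat_lit 457) ln13_15_3 ln13_15_3_ok))))))))) (B (M (nat_lit 491) (B (M (nat_lit 526) (B (L (nat_lit 490) ln10_15_0 ln10_15_0_ok) (L (nat_lit 527) ln11_15_0 ln11_15_0_ok))) (B (M (nat_lit 527) (B (L (nat_lit 526) ln11_15_0 ln11_15_0_ok) (L (nat_lit 528) ln12_15_0 ln12_15_0_ok))) (M (nat_lit 490) (B (M (nat_lit 458) (B (L (nat_lit 457) ln13_15_3 ln13_15_3_ok) (L (nat_lit 459) ln14_15_3 ln14_15_3_ok))) (M (nat_lit 522) (B (L (nat_lit 521) ln13_15_1 ln13_15_1_ok) (L (nat_lit 523) ln14_15_1 ln14_15_1_ok)))))))) (B (M (nat_lit 491) (B (M (nat_lit 527) (B (L (nat_lit 528) ln12_15_0 ln12_15_0_ok) (L (nat_lit 526) ln11_15_0 ln11_15_0_ok))) (B (M (nat_lit 526) (B (L (nat_lit 527) ln11_15_0 ln11_15_0_ok) (L (nat_lit 490)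 ln10_15_0 ln10_15_0_ok))) (B (M (nat_lit 490) (B (L (nat_lit 526) ln10_15_0 ln10_15_0_ok) (M (nat_lit 458) (B (L (nat_lit 459) ln14_15_3 ln14_15_3_ok) (L (nat_lit 457) ln13_15_3 ln13_15_3_ok))))) (M (nat_lit 490) (B (M (nat_lit 458) (B (L (nat_lit 459) ln14_15_3 ln14_15_3_ok) (L (nat_lit 457) ln13_15_3 ln13_15_3_ok))) (M (nat_lit 521) (B (L (nat_lit 522) ln13_15_1 ln13_15_1_ok) (M (nat_lit 489) (B (L (nat_lit 524) ln9_15_0 ln9_15_0_ok) (L (nat_lit 520) ln12_15_1 ln12_15_1_ok))))))))))) (B (M (nat_lit 491) (B (M (nat_lit 527) (B (L (nat_lit 528) ln12_15_0 ln12_15_0_ok) (L (nat_lit 526) ln11_15_0 ln11_15_0_ok))) (B (M (nat_lit 526) (B (L (nat_lit 527) ln11_15_0 ln11_15_0_ok) (L (nat_lit 490) ln10_15_0 ln10_15_0_ok))) (B (M (nat_lit 524) (B (L (nat_lit 523) ln15_15_1 ln15_15_1_ok) (M (nat_lit 490) (B (L (nat_lit 526) ln10_15_0 ln10_15_0_ok) (L (nat_lit 489) ln9_15_0 ln9_15_0_ok))))) (M (nat_lit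 490) (B (M (nat_lit 524) (B (L (nat_lit 489) ln9_15_0 ln9_15_0_ok) (L (nat_lit 523) ln15_15_1 ln15_15_1_ok))) (M (nat_lit 458) (B (L (nat_lit 459) ln14_15_3 ln14_15_3_ok) (L (nat_lit 457) ln13_15_3 ln13_15_3_ok))))))))) (B (M (nat_lit 491) (B (M (nat_lit 527) (B (L (nat_lit 528) ln12_15_0 ln12_15_0_ok) (L (nat_lit 526) ln11_15_0 ln11_15_0_ok))) (M (nat_lit 523) (B (L (nat_lit 524) ln15_15_1 ln15_15_1_ok) (L (nat_lit 522) ln14_15_1 ln14_15_1_ok))))) (M (nat_lit 524) (B (L (nat_lit 523) ln15_15_1 ln15_15_1_ok) (M (nat_lit 527) (B (L (nat_lit 528) ln12_15_0 ln12_15_0_ok) (M (nat_lit 463) (B (L (nat_lit 464) ln12_15_2 ln12_15_2_ok) (M (nat_lit 559) (B (M (nat_lit 589) (B (L (nat_lit 621) ln13_19_7 ln13_19_7_ok) (M (nat_lit 590) (B (L (nat_lit 622) ln13_15_4_c10 ln13_15_4_c10_ok) (M (nat_lit 588) (B (L (nat_lit 620) ln13_15_5_c10 ln13_15_5_c10_ok) (M (nat_lit 591) (B (L (nat_lit 560) ln12_18_2_c10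 ln12_18_2_c10_ok) (M (nat_lit 624) (B (L (nat_lit 623) ln12_18_0_c10 ln12_18_0_c10_ok) (L (nat_lit 592) ln15_15_4_c10 ln15_15_4_c10_ok))))))))))) (B (M (nat_lit 589) (B (M (nat_lit 526) (B (L (nat_lit 621) ln13_19_6_c10 ln13_19_6_c10_ok) (L (nat_lit 560) ln12_16_0 ln12_16_0_ok))) (B (M (nat_lit 590) (B (L (nat_lit 622) ln13_15_4_c10 ln13_15_4_c10_ok) (M (nat_lit 560) (B (L (nat_lit 526) ln12_16_0 ln12_16_0_ok) (M (nat_lit 588) (B (L (nat_lit 620) ln13_15_5_c10 ln13_15_5_c10_ok) (L (nat_lit 591) ln12_18_2_c10 ln12_18_2_c10_ok))))))) (M (nat_lit 622) (B (L (nat_lit 590) ln13_15_4_c10 ln13_15_4_c10_ok) (L (nat_lit 621) ln13_19_7 ln13_19_7_ok)))))) (B (M (nat_lit 622) (B (M (nat_lit 590) (B (L (nat_lit 591) ln15_15_5_c10 ln15_15_5_c10_ok) (L (nat_lit 589) ln13_15_4_c10 ln13_15_4_c10_ok))) (B (M (nat_lit 589) (B (L (nat_lit 590) ln13_15_4_c10 ln13_15_4_c10_ok) (L (nat_lit 621) ln13_19_7 ln13_19_7_ok)))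 (B (M (nat_lit 623) (B (M (nat_lit 591) (B (L (nat_lit 654) ln15_16_5_c10 ln15_16_5_c10_ok) (L (nat_lit 526) ln15_19_7 ln15_19_7_ok))) (B (M (nat_lit 591) (B (L (nat_lit 526) ln15_19_7 ln15_19_7_ok) (M (nat_lit 624) (B (L (nat_lit 656) ln15_16_4_c10 ln15_16_4_c10_ok) (L (nat_lit 592) ln15_15_4_c10 ln15_15_4_c10_ok))))) (M (nat_lit 621) (B (L (nat_lit 589) ln13_19_7 ln13_19_7_ok) (M (nat_lit 624) (B (M (nat_lit 625) (B (M (nat_lit 657) (B (L (nat_lit 658) ln14_19_0_c10 ln14_19_0_c10_ok) (L (nat_lit 656) ln13_19_0_c10 ln13_19_0_c10_ok))) (M (nat_lit 593) (B (L (nat_lit 594) ln14_19_2_c10 ln14_19_2_c10_ok) (L (nat_lit 592) ln13_19_2_c10 ln13_19_2_c10_ok))))) (B (M (nat_lit 625) (B (M (nat_lit 653) (B (L (nat_lit 654) ln17_19_1_c10 ln17_19_1_c10_ok) (L (nat_lit 652) ln16_19_1_c10 ln16_19_1_c10_ok))) (M (nat_lit 593) (B (L (nat_lit 594) ln14_19_2_c10 ln14_19_2_c10_ok) (L (nat_lit 592) ln13_19_2_c10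 ln13_19_2_c10_ok))))) (M (nat_lit 620) (B (M (nat_lit 656) (B (L (nat_lit 657) ln13_19_0_c10 ln13_19_0_c10_ok) (L (nat_lit 655) ln12_19_0_c10 ln12_19_0_c10_ok))) (M (nat_lit 652) (B (L (nat_lit 653) ln16_19_1_c10 ln16_19_1_c10_ok) (L (nat_lit 651) ln15_19_1_c10 ln15_19_1_c10_ok))))))))))))) (M (nat_lit 591) (B (L (nat_lit 590) ln15_15_5_c10 ln15_15_5_c10_ok) (M (nat_lit 623) (B (L (nat_lit 654) ln15_16_5_c10 ln15_16_5_c10_ok) (L (nat_lit 526) ln15_19_7 ln15_19_7_ok))))))))) (M (nat_lit 560) (B (L (nat_lit 526) ln12_16_0 ln12_16_0_ok) (L (nat_lit 592) ln15_14_4_c10 ln15_14_4_c10_ok)))))))))))))))))))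
noncomputable def c10_d65 : Cert := (B (M (nat_lit 495) (B (M (nat_lit 496) (B (L (nat_lit 524) ln16_15_1 ln16_15_1_ok) (M (nat_lit 464) (B (L (nat_lit 465) ln13_15_2 ln13_15_2_ok) (M (nat_lit 462) (B (L (nat_lit 463) ln16_14_3 ln16_14_3_ok) (L (nat_lit 497) ln17_15_3 ln17_15_3_ok))))))) (B (M (nat_lit 496) (B (L (nat_lit 524) ln16_15_1 ln16_15_1_ok) (M (nat_lit 464) (B (L (nat_lit 465) ln13_15_2 ln13_15_2_ok) (M (nat_lit 463) (B (L (nat_lit 462) ln16_14_3 ln16_14_3_ok) (L (nat_lit 492) ln12_15_2 ln12_15_2_ok))))))) (B (M (nat_lit 496) (B (M (nat_lit 497) (B (L (nat_lit 462) ln17_15_3 ln17_15_3_ok) (M (nat_lit 529) (B (L (nat_lit 528) ln13_15_0 ln13_15_0_ok) (L (nat_lit 530) ln14_15_0 ln14_15_0_ok))))) (B (M (nat_lit 497) (B (M (nat_lit 529) (B (L (nat_lit 528) ln13_15_0 ln13_15_0_ok) (L (nat_lit 530) ln14_15_0 ln14_15_0_ok))) (M (nat_lit 465) (B (L (nat_lit 464) ln13_15_2 ln13_15_2_ok) (L (nat_lit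 466) ln14_15_2_c10 ln14_15_2_c10_ok))))) (B (M (nat_lit 497) (B (L (nat_lit 462) ln17_15_3 ln17_15_3_ok) (M (nat_lit 465) (B (L (nat_lit 464) ln13_15_2 ln13_15_2_ok) (L (nat_lit 466) ln14_15_2_c10 ln14_15_2_c10_ok))))) (M (nat_lit 464) (B (L (nat_lit 465) ln13_15_2 ln13_15_2_ok) (M (nat_lit 463) (B (L (nat_lit 492) ln12_15_2 ln12_15_2_ok) (L (nat_lit 462) ln16_14_3 ln16_14_3_ok))))))))) (B (M (nat_lit 496) (B (L (nat_lit 524) ln16_15_1 ln16_15_1_ok) (M (nat_lit 497) (B (L (nat_lit 526) ln17_15_1 ln17_15_1_ok) (L (nat_lit 462) ln17_15_3 ln17_15_3_ok))))) (B (M (nat_lit 524) (B (L (nat_lit 496) ln16_15_1 ln16_15_1_ok) (M (nat_lit 523) (B (L (nat_lit 522) ln10_16_2 ln10_16_2_ok) (L (nat_lit 492) ln15_15_1 ln15_15_1_ok))))) (M (nat_lit 524) (B (M (nat_lit 523) (B (L (nat_lit 522) ln10_16_2 ln10_16_2_ok) (L (nat_lit 526) ln11_16_2 ln11_16_2_ok))) (B (M (nat_lit 523) (B (L (nat_lit 522) ln10_16_2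 ln10_16_2_ok) (L (nat_lit 492) ln15_15_1 ln15_15_1_ok))) (B (M (nat_lit 523) (B (L (nat_lit 492) ln15_15_1 ln15_15_1_ok) (L (nat_lit 526) ln11_16_2 ln11_16_2_ok))) (M (nat_lit 492) (B (M (nat_lit 491) (B (M (nat_lit 462) (B (L (nat_lit 463) ln11_15_2 ln11_15_2_ok) (L (nat_lit 490) ln10_15_2 ln10_15_2_ok))) (B (M (nat_lit 490) (B (L (nat_lit 489) ln9_15_0 ln9_15_0_ok) (M (nat_lit 458) (B (L (nat_lit 459) ln14_15_3 ln14_15_3_ok) (L (nat_lit 457) ln13_15_3 ln13_15_3_ok))))) (M (nat_lit 462) (B (L (nat_lit 463) ln11_15_2 ln11_15_2_ok) (M (nat_lit 459) (B (L (nat_lit 458) ln14_15_3 ln14_15_3_ok) (M (nat_lit 427) (B (L (nat_lit 395) ln11_12_4 ln11_12_4_ok) (L (nat_lit 426) ln10_13_0 ln10_13_0_ok)))))))))) (B (M (nat_lit 491) (B (M (nat_lit 462) (B (L (nat_lit 490) ln10_15_2 ln10_15_2_ok) (L (nat_lit 463) ln11_15_2 ln11_15_2_ok))) (B (M (nat_lit 427) (B (M (nat_lit 462) (B (L (nat_lit 426) ln10_13_0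 ln10_13_0_ok) (L (nat_lit 463) ln11_15_2 ln11_15_2_ok))) (M (nat_lit 459) (B (L (nat_lit 458) ln14_15_3 ln14_15_3_ok) (L (nat_lit 395) ln11_12_4 ln11_12_4_ok))))) (M (nat_lit 490) (B (M (nat_lit 458) (B (L (nat_lit 457) ln13_15_3 ln13_15_3_ok) (L (nat_lit 459) ln14_15_3 ln14_15_3_ok))) (L (nat_lit 526) ln10_15_0 ln10_15_0_ok)))))) (B (M (nat_lit 491) (B (M (nat_lit 462) (B (L (nat_lit 463) ln11_15_2 ln11_15_2_ok) (L (nat_lit 490) ln10_15_2 ln10_15_2_ok))) (B (M (nat_lit 490) (B (L (nat_lit 462) ln10_15_2 ln10_15_2_ok) (L (nat_lit 489) ln9_15_0 ln9_15_0_ok))) (B (M (nat_lit 526) (B (L (nat_lit 527) ln11_15_0 ln11_15_0_ok) (L (nat_lit 490) ln10_15_0 ln10_15_0_ok))) (M (nat_lit 463) (B (L (nat_lit 464) ln12_15_2 ln12_15_2_ok) (L (nat_lit 462) ln11_15_2 ln11_15_2_ok))))))) (B (M (nat_lit 491) (B (M (nat_lit 490) (B (L (nat_lit 489) ln9_15_0 ln9_15_0_ok) (L (nat_lit 462) ln10_15_2 ln10_15_2_ok)))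 (B (M (nat_lit 490) (B (L (nat_lit 462) ln10_15_2 ln10_15_2_ok) (L (nat_lit 526) ln10_15_0 ln10_15_0_ok))) (M (nat_lit 527) (B (L (nat_lit 526) ln11_15_0 ln11_15_0_ok) (L (nat_lit 528) ln12_15_0 ln12_15_0_ok)))))) (B (M (nat_lit 491) (B (M (nat_lit 527) (B (L (nat_lit 526) ln11_15_0 ln11_15_0_ok) (L (nat_lit 528) ln12_15_0 ln12_15_0_ok))) (M (nat_lit 463) (B (L (nat_lit 462) ln11_15_2 ln11_15_2_ok) (L (nat_lit 464) ln12_15_2 ln12_15_2_ok))))) (B (M (nat_lit 491) (B (M (nat_lit 527) (B (L (nat_lit 528) ln12_15_0 ln12_15_0_ok) (L (nat_lit 526) ln11_15_0 ln11_15_0_ok))) (B (M (nat_lit 526) (B (L (nat_lit 527) ln11_15_0 ln11_15_0_ok) (L (nat_lit 490) ln10_15_0 ln10_15_0_ok))) (B (M (nat_lit 490) (B (L (nat_lit 526) ln10_15_0 ln10_15_0_ok) (L (nat_lit 489) ln9_15_0 ln9_15_0_ok))) (M (nat_lit 490) (B (L (nat_lit 489) ln9_15_0 ln9_15_0_ok) (M (nat_lit 458) (B (L (nat_lit 459) ln14_15_3 ln14_15_3_ok)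 (L (nat_lit 457) ln13_15_3 ln13_15_3_ok))))))))) (M (nat_lit 463) (B (L (nat_lit 464) ln12_15_2 ln12_15_2_ok) (M (nat_lit 527) (B (L (nat_lit 528) ln12_15_0 ln12_15_0_ok) (M (nat_lit 559) (B (M (nat_lit 526) (B (L (nat_lit 560) ln12_16_0 ln12_16_0_ok) (M (nat_lit 591) (B (L (nat_lit 623) ln15_19_7 ln15_19_7_ok) (L (nat_lit 462) ln15_18_7 ln15_18_7_ok))))) (B (M (nat_lit 560) (B (L (nat_lit 526) ln12_16_0 ln12_16_0_ok) (L (nat_lit 592) ln15_14_4_c10 ln15_14_4_c10_ok))) (M (nat_lit 591) (B (L (nat_lit 462) ln15_18_7 ln15_18_7_ok) (M (nat_lit 624) (B (L (nat_lit 592) ln15_15_4_c10 ln15_15_4_c10_ok) (M (nat_lit 622) (B (L (nat_lit 590) ln15_15_5_c10 ln15_15_5_c10_ok) (M (nat_lit 623) (B (L (nat_lit 656) ln15_16_4_c10 ln15_16_4_c10_ok) (L (nat_lit 654) ln15_16_5_c10 ln15_16_5_c10_ok))))))))))))))))))))))))))))))))) (M (nat_lit 495) (B (M (nat_lit 524) (B (L (nat_lit 496) ln16_15_1 ln16_15_1_ok) (M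 (nat_lit 523) (B (L (nat_lit 522) ln10_16_2 ln10_16_2_ok) (L (nat_lit 492) ln15_15_1 ln15_15_1_ok))))) (B (M (nat_lit 524) (B (L (nat_lit 496) ln16_15_1 ln16_15_1_ok) (M (nat_lit 523) (B (L (nat_lit 492) ln15_15_1 ln15_15_1_ok) (L (nat_lit 526) ln11_16_2 ln11_16_2_ok))))) (B (M (nat_lit 496) (B (L (nat_lit 524) ln16_15_1 ln16_15_1_ok) (M (nat_lit 465) (B (L (nat_lit 464) ln13_15_2 ln13_15_2_ok) (M (nat_lit 529) (B (L (nat_lit 528) ln13_15_0 ln13_15_0_ok) (M (nat_lit 497) (B (L (nat_lit 466) ln14_15_2_c10 ln14_15_2_c10_ok) (L (nat_lit 530) ln14_15_0 ln14_15_0_ok))))))))) (B (M (nat_lit 496) (B (M (nat_lit 497) (B (L (nat_lit 526) ln17_15_1 ln17_15_1_ok) (M (nat_lit 529) (B (L (nat_lit 530) ln14_15_0 ln14_15_0_ok) (L (nat_lit 528) ln13_15_0 ln13_15_0_ok))))) (B (M (nat_lit 492) (B (M (nat_lit 464) (B (L (nat_lit 465) ln13_15_2 ln13_15_2_ok) (L (nat_lit 463) ln12_15_2 ln12_15_2_ok))) (M (nat_lit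 528) (B (L (nat_lit 529) ln13_15_0 ln13_15_0_ok) (L (nat_lit 527) ln12_15_0 ln12_15_0_ok))))) (M (nat_lit 497) (B (L (nat_lit 526) ln17_15_1 ln17_15_1_ok) (M (nat_lit 465) (B (L (nat_lit 466) ln14_15_2_c10 ln14_15_2_c10_ok) (L (nat_lit 464) ln13_15_2 ln13_15_2_ok)))))))) (M (nat_lit 492) c10_d64)))))))
theorem c10_s504 : Sem (nat_lit 471745303212529431617857442193386895340211435029272104790018930303222451192294239345893258764852856991824633796569317721443457359206950307872383534307218333799242792960) (nat_lit 2382688988421133424652586988134979993987292027401769036023173337482900336619478552488134469204475562257564428907985929686131405276910905358857837384287567231176587411575284823259055503845504386596864) (nat_lit 2382688988421133424652586988134979993987292027401769036023173337482900336619478552488134469204475562257564428907985929686131405276910905358857837384287567231176587411575284823259055503845504386596864)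 :=
  sem_of_chk (M (nat_lit 428) (B (L (nat_lit 396) ln13_16_7 ln13_16_7_ok) (M (nat_lit 494) (B (M (nat_lit 589) (B (L (nat_lit 462) ln13_18_6 ln13_18_6_ok) (M (nat_lit 620) (B (L (nat_lit 588) ln13_15_5_c10 ln13_15_5_c10_ok) (M (nat_lit 622) (B (L (nat_lit 590) ln13_15_4_c10 ln13_15_4_c10_ok) (M (nat_lit 621) (B (L (nat_lit 652) ln13_16_5_c10 ln13_16_5_c10_ok) (L (nat_lit 654) ln13_16_4_c10 ln13_16_4_c10_ok))))))))) (B (M (nat_lit 589) (B (L (nat_lit 462) ln13_18_6 ln13_18_6_ok) (M (nat_lit 621) (B (L (nat_lit 526) ln13_19_6_c10 ln13_19_6_c10_ok) (M (nat_lit 622) (B (L (nat_lit 654) ln13_16_4_c10 ln13_16_4_c10_ok) (L (nat_lit 590) ln13_15_4_c10 ln13_15_4_c10_ok))))))) (B (M (nat_lit 589) (B (L (nat_lit 462) ln13_18_6 ln13_18_6_ok) (M (nat_lit 621) (B (L (nat_lit 526) ln13_19_6_c10 ln13_19_6_c10_ok) (M (nat_lit 620) (B (L (nat_lit 588) ln13_15_5_c10 ln13_15_5_c10_ok) (L (nat_lit 652) ln13_16_5_c10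 ln13_16_5_c10_ok))))))) c10_d65)))))) (nat_lit 471745303212529431617857442193386895340211435029272104790018930303222451192294239345893258764852856991824633796569317721443457359206950307872383534307218333799242792960) (nat_lit 2382688988421133424652586988134979993987292027401769036023173337482900336619478552488134469204475562257564428907985929686131405276910905358857837384287567231176587411575284823259055503845504386596864) (nat_lit 2382688988421133424652586988134979993987292027401769036023173337482900336619478552488134469204475562257564428907985929686131405276910905358857837384287567231176587411575284823259055503845504386596864) (by decide +kernel)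
noncomputable def c10_d66 : Cert := (B (M (nat_lit 301) (B (M (nat_lit 396) (B (L (nat_lit 428) ln13_9_5 ln13_9_5_ok) (M (nat_lit 268) (B (L (nat_lit 300) ln13_12_7 ln13_12_7_ok) (M (nat_lit 269) (B (L (nat_lit 236) ln13_11_7 ln13_11_7_ok) (L (nat_lit 364) ln13_8_5 ln13_8_5_ok))))))) (B (M (nat_lit 269) (B (M (nat_lit 270) (B (L (nat_lit 238) ln13_11_6 ln13_11_6_ok) (L (nat_lit 302) ln13_12_6 ln13_12_6_ok))) (M (nat_lit 396) (B (L (nat_lit 364) ln13_8_5 ln13_8_5_ok) (L (nat_lit 428) ln13_9_5 ln13_9_5_ok))))) (M (nat_lit 300) (B (L (nat_lit 268) ln13_12_7 ln13_12_7_ok) (M (nat_lit 302) (B (L (nat_lit 270) ln13_12_6 ln13_12_6_ok) (M (nat_lit 299) (B (L (nat_lit 334) ln13_13_6 ln13_13_6_ok) (M (nat_lit 298) (B (M (nat_lit 266) (B (L (nat_lit 265) ln13_9_3 ln13_9_3_ok) (L (nat_lit 267) ln14_9_3 ln14_9_3_ok))) (M (nat_lit 330) (B (L (nat_lit 329) ln13_9_1 ln13_9_1_ok) (L (nat_lit 331) ln14_9_1_c10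 ln14_9_1_c10_ok)))))))))))))) (B (M (nat_lit 302) (B (M (nat_lit 270) (B (L (nat_lit 301) ln13_12_6 ln13_12_6_ok) (L (nat_lit 334) ln13_13_6 ln13_13_6_ok))) (B (M (nat_lit 332) (B (L (nat_lit 334) ln13_13_6 ln13_13_6_ok) (L (nat_lit 300) ln13_13_7 ln13_13_7_ok))) (M (nat_lit 301) (B (L (nat_lit 270) ln13_12_6 ln13_12_6_ok) (M (nat_lit 300) (B (L (nat_lit 268) ln13_12_7 ln13_12_7_ok) (L (nat_lit 332) ln13_13_7 ln13_13_7_ok)))))))) (B (M (nat_lit 332) (B (L (nat_lit 300) ln13_13_7 ln13_13_7_ok) (M (nat_lit 334) (B (L (nat_lit 302) ln13_13_6 ln13_13_6_ok) (M (nat_lit 331) (B (L (nat_lit 366) ln13_14_6 ln13_14_6_ok) (M (nat_lit 330) (B (M (nat_lit 298) (B (L (nat_lit 299) ln14_10_3 ln14_10_3_ok) (L (nat_lit 297) ln13_10_3 ln13_10_3_ok))) (M (nat_lit 361) (B (L (nat_lit 362) ln13_10_1 ln13_10_1_ok) (M (nat_lit 329) (B (L (nat_lit 364) ln9_10_0 ln9_10_0_ok) (L (nat_lit 360) ln12_10_1 ln12_10_1_ok)))))))))))))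 (B (M (nat_lit 301) (B (M (nat_lit 300) (B (L (nat_lit 268) ln13_12_7 ln13_12_7_ok) (M (nat_lit 428) (B (L (nat_lit 396) ln13_9_5 ln13_9_5_ok) (L (nat_lit 460) ln13_10_5 ln13_10_5_ok))))) (B (M (nat_lit 396) (B (L (nat_lit 428) ln13_9_5 ln13_9_5_ok) (M (nat_lit 269) (B (L (nat_lit 364) ln13_8_5 ln13_8_5_ok) (M (nat_lit 268) (B (L (nat_lit 300) ln13_12_7 ln13_12_7_ok) (L (nat_lit 236) ln13_11_7 ln13_11_7_ok))))))) (B (M (nat_lit 269) (B (M (nat_lit 268) (B (L (nat_lit 300) ln13_12_7 ln13_12_7_ok) (L (nat_lit 236) ln13_11_7 ln13_11_7_ok))) (M (nat_lit 237) (B (M (nat_lit 366) (B (L (nat_lit 398) ln13_8_4 ln13_8_4_ok) (L (nat_lit 334) ln13_7_4 ln13_7_4_ok))) (M (nat_lit 364) (B (L (nat_lit 396) ln13_8_5 ln13_8_5_ok) (L (nat_lit 332) ln13_7_5 ln13_7_5_ok))))))) (B (M (nat_lit 332) (B (L (nat_lit 300) ln13_13_7 ln13_13_7_ok) (M (nat_lit 366) (B (M (nat_lit 367) (B (L (nat_lit 368) ln16_11_3 ln16_11_3_ok)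 (M (nat_lit 331) (B (L (nat_lit 364) ln15_11_3 ln15_11_3_ok) (L (nat_lit 330) ln10_10_0 ln10_10_0_ok))))) (B (M (nat_lit 331) (B (L (nat_lit 330) ln10_10_0 ln10_10_0_ok) (M (nat_lit 367) (B (L (nat_lit 364) ln15_11_3 ln15_11_3_ok) (L (nat_lit 334) ln11_10_0 ln11_10_0_ok))))) (B (M (nat_lit 269) (B (L (nat_lit 398) ln13_8_4 ln13_8_4_ok) (M (nat_lit 237) (B (L (nat_lit 334) ln13_7_4 ln13_7_4_ok) (L (nat_lit 364) ln13_7_5 ln13_7_5_ok))))) (M (nat_lit 367) (B (L (nat_lit 368) ln16_11_3 ln16_11_3_ok) (M (nat_lit 331) (B (L (nat_lit 334) ln11_10_0 ln11_10_0_ok) (L (nat_lit 330) ln10_10_0 ln10_10_0_ok))))))))))) (M (nat_lit 366) (B (M (nat_lit 269) (B (L (nat_lit 398) ln13_8_4 ln13_8_4_ok) (M (nat_lit 396) (B (L (nat_lit 428) ln13_9_5 ln13_9_5_ok) (L (nat_lit 364) ln13_8_5 ln13_8_5_ok))))) (B (M (nat_lit 269) (B (L (nat_lit 398) ln13_8_4 ln13_8_4_ok) (M (nat_lit 237) (B (L (nat_lit 334) ln13_7_4 ln13_7_4_ok)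 (M (nat_lit 364) (B (L (nat_lit 396) ln13_8_5 ln13_8_5_ok) (L (nat_lit 332) ln13_7_5 ln13_7_5_ok))))))) (B (M (nat_lit 396) (B (L (nat_lit 428) ln13_9_5 ln13_9_5_ok) (M (nat_lit 395) (B (L (nat_lit 394) ln10_12_2 ln10_12_2_ok) (M (nat_lit 367) (B (L (nat_lit 368) ln16_11_1 ln16_11_1_ok) (L (nat_lit 364) ln15_11_1 ln15_11_1_ok))))))) (B (M (nat_lit 332) (B (M (nat_lit 269) (B (L (nat_lit 398) ln13_8_4 ln13_8_4_ok) (M (nat_lit 237) (B (L (nat_lit 334) ln13_7_4 ln13_7_4_ok) (L (nat_lit 364) ln13_7_5 ln13_7_5_ok))))) (B (M (nat_lit 367) (B (L (nat_lit 368) ln16_11_3 ln16_11_3_ok) (M (nat_lit 331) (B (L (nat_lit 334) ln11_10_0 ln11_10_0_ok) (L (nat_lit 330) ln10_10_0 ln10_10_0_ok))))) (M (nat_lit 367) (B (L (nat_lit 368) ln16_11_3 ln16_11_3_ok) (M (nat_lit 331) (B (L (nat_lit 364) ln15_11_3 ln15_11_3_ok) (L (nat_lit 330) ln10_10_0 ln10_10_0_ok)))))))) (M (nat_lit 398) (B (L (nat_lit 269) ln13_8_4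 ln13_8_4_ok) (M (nat_lit 396) (B (L (nat_lit 428) ln13_9_5 ln13_9_5_ok) (M (nat_lit 367) (B (L (nat_lit 395) ln11_12_2 ln11_12_2_ok) (L (nat_lit 368) ln16_11_1 ln16_11_1_ok))))))))))))))))) (M (nat_lit 301) (B (M (nat_lit 302) (B (L (nat_lit 270) ln13_12_6 ln13_12_6_ok) (L (nat_lit 334) ln13_13_6 ln13_13_6_ok))) (B (M (nat_lit 396) (B (L (nat_lit 428) ln13_9_5 ln13_9_5_ok) (M (nat_lit 269) (B (L (nat_lit 364) ln13_8_5 ln13_8_5_ok) (M (nat_lit 270) (B (L (nat_lit 302) ln13_12_6 ln13_12_6_ok) (L (nat_lit 238) ln13_11_6 ln13_11_6_ok))))))) (M (nat_lit 366) (B (M (nat_lit 269) (B (L (nat_lit 398) ln13_8_4 ln13_8_4_ok) (M (nat_lit 396) (B (L (nat_lit 428) ln13_9_5 ln13_9_5_ok) (L (nat_lit 364) ln13_8_5 ln13_8_5_ok))))) (B (M (nat_lit 269) (B (L (nat_lit 398) ln13_8_4 ln13_8_4_ok) (M (nat_lit 237) (B (L (nat_lit 334) ln13_7_4 ln13_7_4_ok) (M (nat_lit 364) (B (L (nat_lit 396) ln13_8_5 ln13_8_5_ok)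 (L (nat_lit 332) ln13_7_5 ln13_7_5_ok))))))) (B (M (nat_lit 332) (B (M (nat_lit 367) (B (L (nat_lit 368) ln16_11_3 ln16_11_3_ok) (M (nat_lit 331) (B (L (nat_lit 364) ln15_11_3 ln15_11_3_ok) (L (nat_lit 330) ln10_10_0 ln10_10_0_ok))))) (B (M (nat_lit 367) (B (L (nat_lit 368) ln16_11_3 ln16_11_3_ok) (M (nat_lit 331) (B (L (nat_lit 330) ln10_10_0 ln10_10_0_ok) (L (nat_lit 334) ln11_10_0 ln11_10_0_ok))))) (M (nat_lit 269) (B (L (nat_lit 398) ln13_8_4 ln13_8_4_ok) (M (nat_lit 237) (B (L (nat_lit 364) ln13_7_5 ln13_7_5_ok) (L (nat_lit 334) ln13_7_4 ln13_7_4_ok)))))))) (B (M (nat_lit 396) (B (L (nat_lit 428) ln13_9_5 ln13_9_5_ok) (M (nat_lit 364) (B (L (nat_lit 269) ln13_8_5 ln13_8_5_ok) (M (nat_lit 395) (B (L (nat_lit 394) ln10_12_2 ln10_12_2_ok) (L (nat_lit 367) ln15_11_1 ln15_11_1_ok))))))) (B (M (nat_lit 398) (B (L (nat_lit 269) ln13_8_4 ln13_8_4_ok) (M (nat_lit 396) (B (L (nat_lit 428) ln13_9_5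 ln13_9_5_ok) (M (nat_lit 367) (B (L (nat_lit 395) ln11_12_2 ln11_12_2_ok) (L (nat_lit 368) ln16_11_1 ln16_11_1_ok))))))) (M (nat_lit 396) (B (L (nat_lit 428) ln13_9_5 ln13_9_5_ok) (M (nat_lit 395) (B (L (nat_lit 394) ln10_12_2 ln10_12_2_ok) (M (nat_lit 367) (B (L (nat_lit 364) ln15_11_1 ln15_11_1_ok) (L (nat_lit 368) ln16_11_1 ln16_11_1_ok))))))))))))))))))))
noncomputable def c10_d67 : Cert := (B (M (nat_lit 333) (B (M (nat_lit 301) (B (M (nat_lit 270) (B (L (nat_lit 302) ln13_12_6 ln13_12_6_ok) (M (nat_lit 269) (B (L (nat_lit 238) ln13_11_6 ln13_11_6_ok) (M (nat_lit 268) (B (L (nat_lit 300) ln13_12_7 ln13_12_7_ok) (L (nat_lit 236) ln13_11_7 ln13_11_7_ok))))))) (B (M (nat_lit 269) (B (M (nat_lit 396) (B (L (nat_lit 428) ln13_9_5 ln13_9_5_ok) (L (nat_lit 364) ln13_8_5 ln13_8_5_ok))) (M (nat_lit 268) (B (L (nat_lit 300) ln13_12_7 ln13_12_7_ok) (L (nat_lit 236) ln13_11_7 ln13_11_7_ok))))) (B (M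 (nat_lit 269) (B (M (nat_lit 396) (B (L (nat_lit 428) ln13_9_5 ln13_9_5_ok) (L (nat_lit 364) ln13_8_5 ln13_8_5_ok))) (M (nat_lit 270) (B (L (nat_lit 302) ln13_12_6 ln13_12_6_ok) (L (nat_lit 238) ln13_11_6 ln13_11_6_ok))))) (M (nat_lit 428) (B (L (nat_lit 460) ln13_10_5 ln13_10_5_ok) (L (nat_lit 396) ln13_9_5 ln13_9_5_ok))))))) c10_d66)) (B (M (nat_lit 333) (B (M (nat_lit 302) (B (L (nat_lit 334) ln13_13_6 ln13_13_6_ok) (M (nat_lit 301) (B (L (nat_lit 270) ln13_12_6 ln13_12_6_ok) (M (nat_lit 300) (B (L (nat_lit 332) ln13_13_7 ln13_13_7_ok) (L (nat_lit 268) ln13_12_7 ln13_12_7_ok))))))) (B (M (nat_lit 301) (B (M (nat_lit 428) (B (L (nat_lit 460) ln13_10_5 ln13_10_5_ok) (L (nat_lit 396) ln13_9_5 ln13_9_5_ok))) (M (nat_lit 300) (B (L (nat_lit 332) ln13_13_7 ln13_13_7_ok) (L (nat_lit 268) ln13_12_7 ln13_12_7_ok))))) (B (M (nat_lit 301) (B (M (nat_lit 428) (B (L (nat_lit 460) ln13_10_5 ln13_10_5_ok)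 (L (nat_lit 396) ln13_9_5 ln13_9_5_ok))) (M (nat_lit 302) (B (L (nat_lit 334) ln13_13_6 ln13_13_6_ok) (L (nat_lit 270) ln13_12_6 ln13_12_6_ok))))) (M (nat_lit 460) (B (L (nat_lit 492) ln13_11_5 ln13_11_5_ok) (L (nat_lit 428) ln13_10_5 ln13_10_5_ok))))))) (B (M (nat_lit 332) (B (M (nat_lit 300) (B (L (nat_lit 333) ln13_13_7 ln13_13_7_ok) (L (nat_lit 364) ln13_14_7 ln13_14_7_ok))) (B (M (nat_lit 366) (B (L (nat_lit 364) ln13_14_7 ln13_14_7_ok) (L (nat_lit 334) ln13_14_6 ln13_14_6_ok))) (M (nat_lit 333) (B (L (nat_lit 300) ln13_13_7 ln13_13_7_ok) (M (nat_lit 334) (B (L (nat_lit 302) ln13_13_6 ln13_13_6_ok) (L (nat_lit 366) ln13_14_6 ln13_14_6_ok)))))))) (B (M (nat_lit 333) (B (M (nat_lit 301) (B (M (nat_lit 302) (B (L (nat_lit 270) ln13_12_6 ln13_12_6_ok) (L (nat_lit 334) ln13_13_6 ln13_13_6_ok))) (M (nat_lit 428) (B (L (nat_lit 396) ln13_9_5 ln13_9_5_ok) (L (nat_lit 460) ln13_10_5 ln13_10_5_ok)))))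 (B (M (nat_lit 334) (B (L (nat_lit 302) ln13_13_6 ln13_13_6_ok) (L (nat_lit 366) ln13_14_6 ln13_14_6_ok))) (B (M (nat_lit 301) (B (M (nat_lit 428) (B (L (nat_lit 396) ln13_9_5 ln13_9_5_ok) (L (nat_lit 460) ln13_10_5 ln13_10_5_ok))) (M (nat_lit 269) (B (M (nat_lit 268) (B (L (nat_lit 236) ln13_11_7 ln13_11_7_ok) (L (nat_lit 300) ln13_12_7 ln13_12_7_ok))) (M (nat_lit 366) (B (L (nat_lit 398) ln13_8_4 ln13_8_4_ok) (L (nat_lit 334) ln13_14_6 ln13_14_6_ok))))))) (M (nat_lit 301) (B (M (nat_lit 428) (B (L (nat_lit 396) ln13_9_5 ln13_9_5_ok) (L (nat_lit 460) ln13_10_5 ln13_10_5_ok))) (M (nat_lit 269) (B (M (nat_lit 270) (B (L (nat_lit 238) ln13_11_6 ln13_11_6_ok) (L (nat_lit 302) ln13_12_6 ln13_12_6_ok))) (M (nat_lit 268) (B (L (nat_lit 236) ln13_11_7 ln13_11_7_ok) (L (nat_lit 300) ln13_12_7 ln13_12_7_ok))))))))))) (B (M (nat_lit 366) (B (L (nat_lit 334) ln13_14_6 ln13_14_6_ok) (M (nat_lit 364) (B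 (L (nat_lit 332) ln13_14_7 ln13_14_7_ok) (M (nat_lit 367) (B (M (nat_lit 396) (B (L (nat_lit 395) ln15_11_1 ln15_11_1_ok) (L (nat_lit 368) ln16_11_1 ln16_11_1_ok))) (B (M (nat_lit 368) (B (L (nat_lit 396) ln16_11_1 ln16_11_1_ok) (M (nat_lit 336) (B (L (nat_lit 335) ln12_11_2 ln12_11_2_ok) (L (nat_lit 337) ln13_11_2 ln13_11_2_ok))))) (B (M (nat_lit 368) (B (M (nat_lit 336) (B (L (nat_lit 335) ln12_11_2 ln12_11_2_ok) (L (nat_lit 337) ln13_11_2 ln13_11_2_ok))) (M (nat_lit 401) (B (L (nat_lit 400) ln13_11_0 ln13_11_0_ok) (M (nat_lit 369) (B (L (nat_lit 398) ln17_11_1 ln17_11_1_ok) (L (nat_lit 402) ln14_11_0 ln14_11_0_ok))))))) (M (nat_lit 363) (B (M (nat_lit 395) (B (L (nat_lit 394) ln14_11_1 ln14_11_1_ok) (L (nat_lit 396) ln15_11_1 ln15_11_1_ok))) (M (nat_lit 362) (B (L (nat_lit 398) ln10_11_0 ln10_11_0_ok) (M (nat_lit 330) (B (L (nat_lit 329) ln13_11_3 ln13_11_3_ok) (L (nat_lit 331) ln14_11_3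 ln14_11_3_ok))))))))))))))) (M (nat_lit 398) (B (M (nat_lit 364) (B (L (nat_lit 332) ln13_14_7 ln13_14_7_ok) (M (nat_lit 399) (B (L (nat_lit 400) ln16_12_3 ln16_12_3_ok) (M (nat_lit 363) (B (L (nat_lit 396) ln15_12_3 ln15_12_3_ok) (L (nat_lit 362) ln10_11_0 ln10_11_0_ok))))))) (B (M (nat_lit 364) (B (L (nat_lit 332) ln13_14_7 ln13_14_7_ok) (M (nat_lit 363) (B (L (nat_lit 362) ln10_11_0 ln10_11_0_ok) (M (nat_lit 399) (B (L (nat_lit 396) ln15_12_3 ln15_12_3_ok) (L (nat_lit 366) ln11_11_0 ln11_11_0_ok))))))) (B (M (nat_lit 333) (B (M (nat_lit 332) (B (L (nat_lit 300) ln13_13_7 ln13_13_7_ok) (M (nat_lit 460) (B (L (nat_lit 428) ln13_10_5 ln13_10_5_ok) (L (nat_lit 492) ln13_11_5 ln13_11_5_ok))))) (B (M (nat_lit 428) (B (L (nat_lit 460) ln13_10_5 ln13_10_5_ok) (M (nat_lit 301) (B (L (nat_lit 396) ln13_9_5 ln13_9_5_ok) (M (nat_lit 300) (B (L (nat_lit 332) ln13_13_7 ln13_13_7_ok) (L (nat_lit 268) ln13_12_7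 ln13_12_7_ok))))))) (B (M (nat_lit 301) (B (M (nat_lit 300) (B (L (nat_lit 332) ln13_13_7 ln13_13_7_ok) (L (nat_lit 268) ln13_12_7 ln13_12_7_ok))) (M (nat_lit 270) (B (L (nat_lit 302) ln13_12_6 ln13_12_6_ok) (M (nat_lit 269) (B (L (nat_lit 366) ln13_8_4 ln13_8_4_ok) (L (nat_lit 238) ln13_11_6 ln13_11_6_ok))))))) (M (nat_lit 301) (B (M (nat_lit 428) (B (L (nat_lit 460) ln13_10_5 ln13_10_5_ok) (L (nat_lit 396) ln13_9_5 ln13_9_5_ok))) (M (nat_lit 270) (B (L (nat_lit 302) ln13_12_6 ln13_12_6_ok) (M (nat_lit 269) (B (L (nat_lit 366) ln13_8_4 ln13_8_4_ok) (L (nat_lit 238) ln13_11_6 ln13_11_6_ok))))))))))) (B (M (nat_lit 364) (B (L (nat_lit 332) ln13_14_7 ln13_14_7_ok) (M (nat_lit 399) (B (L (nat_lit 400) ln16_12_3 ln16_12_3_ok) (M (nat_lit 363) (B (L (nat_lit 366) ln11_11_0 ln11_11_0_ok) (L (nat_lit 362) ln10_11_0 ln10_11_0_ok))))))) (M (nat_lit 428) (B (M (nat_lit 460) (B (L (nat_lit 333) ln13_10_5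 ln13_10_5_ok) (L (nat_lit 492) ln13_11_5 ln13_11_5_ok))) (M (nat_lit 399) (B (L (nat_lit 400) ln16_12_1 ln16_12_1_ok) (M (nat_lit 427) (B (L (nat_lit 426) ln10_13_2 ln10_13_2_ok) (L (nat_lit 396) ln15_12_1 ln15_12_1_ok)))))))))))))))))
theorem c10_s571 : Sem (nat_lit 5954262830815946494763249298768603811203561774969104571805089223376689777636098861358550851719243481454542035207245364041705138952691777536) (nat_lit 12786682065071435595666871088395566144512937030194299662338014207335492880798373249765205013750442956759470315202891290968723300526087824898844000256) (nat_lit 12786682065071435595666871088395566144512937030194299662338014207335492880798373249765205013750442956759470315202891290968723300526087824898844000256) :=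
  sem_of_chk (M (nat_lit 365) c10_d67) (nat_lit 5954262830815946494763249298768603811203561774969104571805089223376689777636098861358550851719243481454542035207245364041705138952691777536) (nat_lit 12786682065071435595666871088395566144512937030194299662338014207335492880798373249765205013750442956759470315202891290968723300526087824898844000256) (nat_lit 12786682065071435595666871088395566144512937030194299662338014207335492880798373249765205013750442956759470315202891290968723300526087824898844000256) (by decide +kernel)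

end Vale.Agent.Lib.P062.Data
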