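import Vale.Agent.Lib.P062.Data.c10_lines

namespace Vale.Agent.Lib.P062.Data
theorem c10_s10 : Sem (nat_lit 5954262830815946494440468064139258622131906539230539000934078872806075061271132354550578193372942037532254438881195279021764289825886699520) (nat_lit 7991676306299587175086062046319502121363433067359515031755323343250321916907964116179172378698482806483861243646750076607052827760264024675250601984) (nat_lit 7991676306299587175086062046319502121363433067359515031755323343250321916907964116179172378698482806483861243646750076607052827760264024675250601984) :=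
  sem_of_chk (M (nat_lit 362) (B (M (nat_lit 394) (B (M (nat_lit 330) (B (M (nat_lit 428) (B (M (nat_lit 426) (B (M (nat_lit 366) (B (M (nat_lit 367) (B (M (nat_lit 368) (B (M (nat_lit 332) (B (L (nat_lit 396) ln12_10_4 ln12_10_4_ok) (L (nat_lit 333) ln16_11_3 ln16_11_3_ok))) (M (nat_lit 336) (B (L (nat_lit 335) ln12_11_2 ln12_11_2_ok) (L (nat_lit 337) ln13_11_2 ln13_11_2_ok))))) (M (nat_lit 399) (B (L (nat_lit 398) ln11_11_0 ln11_11_0_ok) (L (nat_lit 400) ln12_11_0 ln12_11_0_ok))))) (B (M (nat_lit 333) (B (M (nat_lit 367) (B (M (nat_lit 399) (B (L (nat_lit 398) ln11_11_0 ln11_11_0_ok) (L (nat_lit 400) ln12_11_0 ln12_11_0_ok))) (M (nat_lit 332) (B (L (nat_lit 396) ln12_10_4 ln12_10_4_ok) (L (nat_lit 368) ln16_11_3 ln16_11_3_ok))))) (L (nat_lit 334) ln10_11_2 ln10_11_2_ok))) (B (M (nat_lit 367) (B (M (nat_lit 335) (B (L (nat_lit 334) ln11_11_2 ln11_11_2_ok) (L (nat_lit 336) ln12_11_2 ln12_11_2_ok))) (M (nat_lit 399) (B (L (nat_lit 398) ln11_11_0 ln11_11_0_ok) (L (nat_lit 400) ln12_11_0 ln12_11_0_ok)))))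 (M (nat_lit 334) (B (L (nat_lit 333) ln10_11_2 ln10_11_2_ok) (L (nat_lit 335) ln11_11_2 ln11_11_2_ok))))))) (M (nat_lit 427) (B (L (nat_lit 462) ln10_13_0 ln10_13_0_ok) (L (nat_lit 459) ln10_10_4 ln10_10_4_ok))))) (B (M (nat_lit 426) (B (M (nat_lit 457) (B (M (nat_lit 458) (B (M (nat_lit 459) (B (L (nat_lit 460) ln9_14_2 ln9_14_2_ok) (L (nat_lit 491) ln10_11_4 ln10_11_4_ok))) (L (nat_lit 489) ln10_11_5 ln10_11_5_ok))) (L (nat_lit 425) ln10_10_5 ln10_10_5_ok))) (B (M (nat_lit 457) (B (M (nat_lit 458) (B (L (nat_lit 427) ln13_13_1 ln13_13_1_ok) (L (nat_lit 489) ln10_11_5 ln10_11_5_ok))) (L (nat_lit 425) ln10_10_5 ln10_10_5_ok))) (M (nat_lit 427) (B (L (nat_lit 462) ln10_13_0 ln10_13_0_ok) (L (nat_lit 459) ln10_10_4 ln10_10_4_ok)))))) (M (nat_lit 396) (B (M (nat_lit 333) (B (L (nat_lit 334) ln10_11_2 ln10_11_2_ok) (L (nat_lit 460) ln12_14_6 ln12_14_6_ok))) (L (nat_lit 332) ln12_10_4 ln12_10_4_ok)))))) (L (nat_lit 329) ln13_11_3 ln13_11_3_ok))) (L (nat_lit 393) ln13_11_1 ln13_11_1_ok))) (B (M (nat_lit 361)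 (B (M (nat_lit 329) (B (L (nat_lit 330) ln13_11_3 ln13_11_3_ok) (L (nat_lit 328) ln12_11_3 ln12_11_3_ok))) (M (nat_lit 393) (B (L (nat_lit 394) ln13_11_1 ln13_11_1_ok) (L (nat_lit 392) ln12_11_1 ln12_11_1_ok))))) (B (M (nat_lit 361) (B (M (nat_lit 333) (B (L (nat_lit 332) ln9_11_2 ln9_11_2_ok) (L (nat_lit 334) ln10_11_2 ln10_11_2_ok))) (M (nat_lit 329) (B (L (nat_lit 330) ln13_11_3 ln13_11_3_ok) (L (nat_lit 328) ln12_11_3 ln12_11_3_ok))))) (M (nat_lit 361) (B (M (nat_lit 333) (B (L (nat_lit 332) ln9_11_2 ln9_11_2_ok) (L (nat_lit 334) ln10_11_2 ln10_11_2_ok))) (M (nat_lit 393) (B (L (nat_lit 394) ln13_11_1 ln13_11_1_ok) (L (nat_lit 392) ln12_11_1 ln12_11_1_ok))))))))) (nat_lit 5954262830815946494440468064139258622131906539230539000934078872806075061271132354550578193372942037532254438881195279021764289825886699520) (nat_lit 7991676306299587175086062046319502121363433067359515031755323343250321916907964116179172378698482806483861243646750076607052827760264024675250601984) (nat_lit 7991676306299587175086062046319502121363433067359515031755323343250321916907964116179172378698482806483861243646750076607052827760264024675250601984)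 (by decide +kernel)
theorem c10_s12 : Sem (nat_lit 5954262830815946494440468064139258622131906539230539000934078872806075061271132354550578193372942037532254438881195279021764289825886699520) (nat_lit 744282853851993311883232088763148421742472137758475090320839436871003032867473360429385605588587145044116530626020384124405271106548662272) (nat_lit 744282853851993311883232088763148421742472137758475090320839436871003032867473360429385605588587145044116530626020384124405271106548662272) :=
  sem_of_chk (M (nat_lit 362) (B (M (nat_lit 361) (B (M (nat_lit 393) (B (L (nat_lit 392) ln12_11_1 ln12_11_1_ok) (L (nat_lit 394) ln13_11_1 ln13_11_1_ok))) (M (nat_lit 329) (B (L (nat_lit 328) ln12_11_3 ln12_11_3_ok) (L (nat_lit 330) ln13_11_3 ln13_11_3_ok))))) (B (M (nat_lit 330) (B (L (nat_lit 329) ln13_11_3 ln13_11_3_ok) (M (nat_lit 331) (B (L (nat_lit 366) ln14_11_3 ln14_11_3_ok) (M (nat_lit 394) (B (L (nat_lit 393) ln13_11_1 ln13_11_1_ok) (M (nat_lit 426) (B (L (nat_lit 458) ln10_14_6 ln10_14_6_ok) (L (nat_lit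 299) ln10_13_6 ln10_13_6_ok))))))))) (B (M (nat_lit 361) (B (M (nat_lit 329) (B (L (nat_lit 328) ln12_11_3 ln12_11_3_ok) (L (nat_lit 330) ln13_11_3 ln13_11_3_ok))) (B (M (nat_lit 331) (B (M (nat_lit 332) (B (L (nat_lit 360) ln8_11_2 ln8_11_2_ok) (L (nat_lit 333) ln9_11_2 ln9_11_2_ok))) (M (nat_lit 330) (B (L (nat_lit 329) ln13_11_3 ln13_11_3_ok) (L (nat_lit 366) ln14_11_3 ln14_11_3_ok))))) (M (nat_lit 360) (B (M (nat_lit 332) (B (L (nat_lit 331) ln8_11_2 ln8_11_2_ok) (L (nat_lit 333) ln9_11_2 ln9_11_2_ok))) (M (nat_lit 359) (B (M (nat_lit 391) (B (L (nat_lit 390) ln10_11_1 ln10_11_1_ok) (L (nat_lit 392) ln11_11_1 ln11_11_1_ok))) (M (nat_lit 327) (B (L (nat_lit 326) ln10_11_3 ln10_11_3_ok) (L (nat_lit 328) ln11_11_3 ln11_11_3_ok)))))))))) (B (M (nat_lit 361) (B (M (nat_lit 393) (B (L (nat_lit 392) ln12_11_1 ln12_11_1_ok) (L (nat_lit 394) ln13_11_1 ln13_11_1_ok))) (M (nat_lit 332) (B (L (nat_lit 333) ln9_11_2 ln9_11_2_ok) (M (nat_lit 331) (B (L (nat_lit 360) ln8_11_2 ln8_11_2_ok) (M (nat_lit 366) (B (L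 (nat_lit 330) ln14_11_3 ln14_11_3_ok) (L (nat_lit 367) ln15_11_3 ln15_11_3_ok))))))))) (M (nat_lit 361) (B (M (nat_lit 393) (B (L (nat_lit 392) ln12_11_1 ln12_11_1_ok) (L (nat_lit 394) ln13_11_1 ln13_11_1_ok))) (M (nat_lit 360) (B (M (nat_lit 328) (B (L (nat_lit 327) ln11_11_3 ln11_11_3_ok) (L (nat_lit 329) ln12_11_3 ln12_11_3_ok))) (M (nat_lit 332) (B (L (nat_lit 331) ln8_11_2 ln8_11_2_ok) (L (nat_lit 333) ln9_11_2 ln9_11_2_ok)))))))))))) (nat_lit 5954262830815946494440468064139258622131906539230539000934078872806075061271132354550578193372942037532254438881195279021764289825886699520) (nat_lit 744282853851993311883232088763148421742472137758475090320839436871003032867473360429385605588587145044116530626020384124405271106548662272) (nat_lit 744282853851993311883232088763148421742472137758475090320839436871003032867473360429385605588587145044116530626020384124405271106548662272) (by decide +kernel)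
theorem c10_s16 : Sem (nat_lit 5954262831162530206346786711761558612487766416690338025357703687189958503998528429288116024324991608994282721085570015708496848797231480832) (nat_lit 14080426540981611386870499259192214495952514936917227710438977009348416740614980066112746017546829824) (nat_lit 14080426540981611386870499259192214495952514936917227710438977009348416740614980066112746017546829824) :=
  sem_of_chk (M (nat_lit 296) (B (M (nat_lit 327) (B (L (nat_lit 328) ln11_9_1 ln11_9_1_ok) (M (nat_lit 295) (B (L (nat_lit 326) ln10_9_1_c10 ln10_9_1_c10_ok) (M (nat_lit 263) (B (L (nat_lit 262) ln10_9_3_c10 ln10_9_3_c10_ok) (L (nat_lit 264) ln11_9_3 ln11_9_3_ok))))))) (B (M (nat_lit 295) (B (M (nat_lit 327) (B (L (nat_lit 326) ln10_9_1_c10 ln10_9_1_c10_ok) (L (nat_lit 328) ln11_9_1 ln11_9_1_ok))) (M (nat_lit 267) (B (L (nat_lit 266) ln7_9_2 ln7_9_2_ok) (L (nat_lit 268) ln8_9_2 ln8_9_2_ok))))) (B (M (nat_lit 295) (B (M (nat_lit 267) (B (L (nat_lit 268) ln8_9_2 ln8_9_2_ok) (L (nat_lit 266) ln7_9_2 ln7_9_2_ok)))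 (M (nat_lit 263) (B (L (nat_lit 264) ln11_9_3 ln11_9_3_ok) (L (nat_lit 262) ln10_9_3_c10 ln10_9_3_c10_ok))))) (M (nat_lit 267) (B (L (nat_lit 268) ln8_9_2 ln8_9_2_ok) (M (nat_lit 331) (B (L (nat_lit 332) ln8_9_0 ln8_9_0_ok) (M (nat_lit 264) (B (L (nat_lit 263) ln11_9_3 ln11_9_3_ok) (M (nat_lit 328) (B (L (nat_lit 327) ln11_9_1 ln11_9_1_ok) (M (nat_lit 235) (B (M (nat_lit 236) (B (L (nat_lit 204) ln11_10_6 ln11_10_6_ok) (M (nat_lit 265) (B (L (nat_lit 266) ln8_8_2_c10 ln8_8_2_c10_ok) (M (nat_lit 233) (B (L (nat_lit 201) ln9_6_5_c10 ln9_6_5_c10_ok) (L (nat_lit 234) ln12_7_1_c10 ln12_7_1_c10_ok))))))) (B (M (nat_lit 203) (B (M (nat_lit 204) (B (L (nat_lit 236) ln11_10_6 ln11_10_6_ok) (L (nat_lit 172) ln11_9_6_c10 ln11_9_6_c10_ok))) (M (nat_lit 170) (B (L (nat_lit 202) ln11_9_7_c10 ln11_9_7_c10_ok) (M (nat_lit 171) (B (L (nat_lit 266) ln11_5_5_c10 ln11_5_5_c10_ok) (L (nat_lit 138) ln11_8_7_c10 ln11_8_7_c10_ok))))))) (B (M (nat_lit 203) (B (M (nat_lit 202) (B (L (nat_lit 234) ln11_10_7 ln11_10_7_ok) (L (nat_lit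 170) ln11_9_7_c10 ln11_9_7_c10_ok))) (M (nat_lit 172) (B (L (nat_lit 204) ln11_9_6_c10 ln11_9_6_c10_ok) (M (nat_lit 171) (B (L (nat_lit 140) ln11_8_6_c10 ln11_8_6_c10_ok) (L (nat_lit 266) ln11_5_5_c10 ln11_5_5_c10_ok))))))) (B (M (nat_lit 204) (B (L (nat_lit 236) ln11_10_6 ln11_10_6_ok) (M (nat_lit 203) (B (L (nat_lit 172) ln11_9_6_c10 ln11_9_6_c10_ok) (M (nat_lit 202) (B (L (nat_lit 170) ln11_9_7_c10 ln11_9_7_c10_ok) (L (nat_lit 234) ln11_10_7 ln11_10_7_ok))))))) (M (nat_lit 202) (B (L (nat_lit 234) ln11_10_7 ln11_10_7_ok) (M (nat_lit 203) (B (L (nat_lit 170) ln11_9_7_c10 ln11_9_7_c10_ok) (M (nat_lit 171) (B (L (nat_lit 266) ln11_5_5_c10 ln11_5_5_c10_ok) (M (nat_lit 172) (B (L (nat_lit 140) ln11_8_6_c10 ln11_8_6_c10_ok) (M (nat_lit 201) (B (L (nat_lit 200) ln8_6_2_c10 ln8_6_2_c10_ok) (M (nat_lit 233) (B (L (nat_lit 265) ln9_6_5_c10 ln9_6_5_c10_ok) (L (nat_lit 232) ln8_10_6_c10 ln8_10_6_c10_ok)))))))))))))))))))))))))))))) (nat_lit 5954262831162530206346786711761558612487766416690338025357703687189958503998528429288116024324991608994282721085570015708496848797231480832)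 (nat_lit 14080426540981611386870499259192214495952514936917227710438977009348416740614980066112746017546829824) (nat_lit 14080426540981611386870499259192214495952514936917227710438977009348416740614980066112746017546829824) (by decide +kernel)
theorem c10_s21 : Sem (nat_lit 7442828538519933118171628043138940840321789388389130514873123439225193202285603004404846869852250707160144421232589589674220262377622863872) (nat_lit 8790843918992329118353103144586075173201169876637794456835504488003402036253339727759064858427369019573851016118988294125658320177409197478850330624) (nat_lit 8790843918992329118353103144586075173201169876637794456835504488003402036253339727759064858427369019573851016118988294125658320177409197478850330624) :=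
  sem_of_chk (M (nat_lit 362) (B (M (nat_lit 393) (B (M (nat_lit 361) (B (M (nat_lit 425) (B (M (nat_lit 329) (B (M (nat_lit 456) (B (L (nat_lit 424) ln9_10_5_c10 ln9_10_5_c10_ok) (M (nat_lit 457) (B (L (nat_lit 488) ln9_11_5_c10 ln9_11_5_c10_ok) (L (nat_lit 489) ln9_15_6 ln9_15_6_ok))))) (M (nat_lit 297) (B (L (nat_lit 265) ln9_8_4_c10 ln9_8_4_c10_ok) (M (nat_lit 296) (B (L (nat_lit 328) ln9_13_7_c10 ln9_13_7_c10_ok) (L (nat_lit 264) ln9_12_7_c10 ln9_12_7_c10_ok))))))) (B (M (nat_lit 457) (B (M (nat_lit 456) (B (M (nat_lit 428) (B (L (nat_lit 396) ln9_12_0 ln9_12_0_ok) (L (nat_lit 458) ln8_14_2 ln8_14_2_ok))) (L (nat_lit 488) ln9_11_5_c10 ln9_11_5_c10_ok))) (L (nat_lit 489) ln9_15_6 ln9_15_6_ok))) (M (nat_lit 396) (B (L (nat_lit 428) ln9_12_0 ln9_12_0_ok) (L (nat_lit 424) ln12_12_1 ln12_12_1_ok)))))) (B (M (nat_lit 360) (B (L (nat_lit 359) ln7_11_0 ln7_11_0_ok) (M (nat_lit 328) (B (L (nat_lit 327) ln11_11_3 ln11_11_3_ok) (M (nat_lit 296) (B (L (nat_lit 264) ln8_8_4_c10 ln8_8_4_c10_ok) (M (nat_lit 425)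 (B (L (nat_lit 457) ln9_14_7_c10 ln9_14_7_c10_ok) (L (nat_lit 329) ln9_13_7_c10 ln9_13_7_c10_ok))))))))) (M (nat_lit 396) (B (L (nat_lit 428) ln9_12_0 ln9_12_0_ok) (L (nat_lit 360) ln8_11_0 ln8_11_0_ok)))))) (B (M (nat_lit 392) (B (L (nat_lit 391) ln7_12_2_c10 ln7_12_2_c10_ok) (M (nat_lit 360) (B (L (nat_lit 359) ln11_12_3 ln11_12_3_ok) (M (nat_lit 396) (B (L (nat_lit 361) ln8_11_0 ln8_11_0_ok) (M (nat_lit 424) (B (L (nat_lit 425) ln12_12_1 ln12_12_1_ok) (L (nat_lit 423) ln11_12_1 ln11_12_1_ok))))))))) (M (nat_lit 392) (B (L (nat_lit 391) ln7_12_2_c10 ln7_12_2_c10_ok) (L (nat_lit 428) ln8_12_0 ln8_12_0_ok)))))) (L (nat_lit 491) ln11_15_7 ln11_15_7_ok))) (nat_lit 7442828538519933118171628043138940840321789388389130514873123439225193202285603004404846869852250707160144421232589589674220262377622863872) (nat_lit 8790843918992329118353103144586075173201169876637794456835504488003402036253339727759064858427369019573851016118988294125658320177409197478850330624) (nat_lit 8790843918992329118353103144586075173201169876637794456835504488003402036253339727759064858427369019573851016118988294125658320177409197478850330624)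 (by decide +kernel)
theorem c10_s26 : Sem (nat_lit 11164242806956763361724542930949954360387412368405372498011588490284763320381227860305654526517742114202174164724156242151434631932433924096) (nat_lit 1716199416231403872345922286858702096475643186302988914207387572381091366067402048496606145512414661989426235653587145074187718963891747458074240796097249280) (nat_lit 1716199416231403872345922286858702096475643186302988914207387572381091366067402048496606145512414661989426235653587145074187718963891747458074240796097249280) :=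
  sem_of_chk (M (nat_lit 328) (B (M (nat_lit 456) (B (M (nat_lit 327) (B (L (nat_lit 295) ln8_13_7_c10 ln8_13_7_c10_ok) (L (nat_lit 359) ln8_14_7_c10 ln8_14_7_c10_ok))) (M (nat_lit 455) (B (L (nat_lit 423) ln8_10_5_c10 ln8_10_5_c10_ok) (L (nat_lit 487) ln8_11_5_c10 ln8_11_5_c10_ok))))) (B (M (nat_lit 456) (B (M (nat_lit 455) (B (L (nat_lit 423) ln8_10_5_c10 ln8_10_5_c10_ok) (L (nat_lit 487) ln8_11_5_c10 ln8_11_5_c10_ok))) (B (M (nat_lit 488) (B (M (nat_lit 361) (B (L (nat_lit 329) ln8_14_6_c10 ln8_14_6_c10_ok) (L (nat_lit 393) ln8_15_6_c10 ln8_15_6_c10_ok))) (M (nat_lit 487) (B (L (nat_lit 455) ln8_11_5_c10 ln8_11_5_c10_ok) (L (nat_lit 519) ln8_12_5_c10 ln8_12_5_c10_ok))))) (M (nat_lit 361) (B (L (nat_lit 329) ln8_14_6_c10 ln8_14_6_c10_ok) (M (nat_lit 393) (B (L (nat_lit 488) ln8_15_6_c10 ln8_15_6_c10_ok) (M (nat_lit 296) (B (L (nat_lit 264) ln8_8_4_c10 ln8_8_4_c10_ok) (L (nat_lit 425) ln8_9_4_c10 ln8_9_4_c10_ok)))))))))) (B (M (nat_lit 456) (B (M (nat_lit 327) (B (L (nat_lit 295) ln8_13_7_c10 ln8_13_7_c10_ok)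 (L (nat_lit 359) ln8_14_7_c10 ln8_14_7_c10_ok))) (M (nat_lit 488) (B (M (nat_lit 361) (B (L (nat_lit 329) ln8_14_6_c10 ln8_14_6_c10_ok) (L (nat_lit 393) ln8_15_6_c10 ln8_15_6_c10_ok))) (M (nat_lit 487) (B (L (nat_lit 455) ln8_11_5_c10 ln8_11_5_c10_ok) (L (nat_lit 519) ln8_12_5_c10 ln8_12_5_c10_ok))))))) (B (M (nat_lit 361) (B (M (nat_lit 456) (B (L (nat_lit 329) ln8_14_6_c10 ln8_14_6_c10_ok) (M (nat_lit 327) (B (L (nat_lit 295) ln8_13_7_c10 ln8_13_7_c10_ok) (L (nat_lit 359) ln8_14_7_c10 ln8_14_7_c10_ok))))) (B (M (nat_lit 393) (B (M (nat_lit 296) (B (L (nat_lit 264) ln8_8_4_c10 ln8_8_4_c10_ok) (L (nat_lit 425) ln8_9_4_c10 ln8_9_4_c10_ok))) (M (nat_lit 456) (B (L (nat_lit 329) ln8_14_6_c10 ln8_14_6_c10_ok) (L (nat_lit 488) ln8_15_6_c10 ln8_15_6_c10_ok))))) (M (nat_lit 296) (B (M (nat_lit 295) (B (L (nat_lit 263) ln8_12_7_c10 ln8_12_7_c10_ok) (L (nat_lit 327) ln8_13_7_c10 ln8_13_7_c10_ok))) (M (nat_lit 393) (B (L (nat_lit 264) ln8_8_4_c10 ln8_8_4_c10_ok) (L (nat_lit 425) ln8_9_4_c10 ln8_9_4_c10_ok))))))))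 (M (nat_lit 296) (B (M (nat_lit 295) (B (L (nat_lit 263) ln8_12_7_c10 ln8_12_7_c10_ok) (L (nat_lit 327) ln8_13_7_c10 ln8_13_7_c10_ok))) (B (M (nat_lit 264) (B (M (nat_lit 393) (B (L (nat_lit 361) ln8_8_4_c10 ln8_8_4_c10_ok) (L (nat_lit 425) ln8_9_4_c10 ln8_9_4_c10_ok))) (M (nat_lit 232) (B (M (nat_lit 233) (B (L (nat_lit 201) ln8_10_6_c10 ln8_10_6_c10_ok) (L (nat_lit 265) ln8_11_6_c10 ln8_11_6_c10_ok))) (M (nat_lit 327) (B (L (nat_lit 359) ln8_7_5_c10 ln8_7_5_c10_ok) (L (nat_lit 295) ln8_13_7_c10 ln8_13_7_c10_ok))))))) (M (nat_lit 264) (B (M (nat_lit 393) (B (L (nat_lit 361) ln8_8_4_c10 ln8_8_4_c10_ok) (L (nat_lit 425) ln8_9_4_c10 ln8_9_4_c10_ok))) (M (nat_lit 232) (B (M (nat_lit 231) (B (L (nat_lit 199) ln8_10_7_c10 ln8_10_7_c10_ok) (L (nat_lit 263) ln8_11_7_c10 ln8_11_7_c10_ok))) (M (nat_lit 233) (B (L (nat_lit 201) ln8_10_6_c10 ln8_10_6_c10_ok) (L (nat_lit 265) ln8_11_6_c10 ln8_11_6_c10_ok))))))))))))))) (nat_lit 11164242806956763361724542930949954360387412368405372498011588490284763320381227860305654526517742114202174164724156242151434631932433924096)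 (nat_lit 1716199416231403872345922286858702096475643186302988914207387572381091366067402048496606145512414661989426235653587145074187718963891747458074240796097249280) (nat_lit 1716199416231403872345922286858702096475643186302988914207387572381091366067402048496606145512414661989426235653587145074187718963891747458074240796097249280) (by decide +kernel)
theorem c10_s39 : Sem (nat_lit 6884616398477521846002240710895301072647623763587147770017871330163742711474072584070751406516052001954188291887831546145253368251837054976) (nat_lit 36855101844370451335712047112194785425723429411999336838500344703859039446091229485260327639652104207688903022736801917346509829965734467849792136569681731965937516544) (nat_lit 36855101844370451335712047112194785425723429411999336838500344703859039446091229485260327639652104207688903022736801917346509829965734467849792136569681731965937516544) :=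
  sem_of_chk (M (nat_lit 392) (B (M (nat_lit 360) (B (M (nat_lit 328) (B (M (nat_lit 423) (B (M (nat_lit 457) (B (L (nat_lit 489) ln8_11_4_c10 ln8_11_4_c10_ok) (L (nat_lit 459) ln11_14_3 ln11_14_3_ok))) (M (nat_lit 391) (B (L (nat_lit 393) ln7_12_0_c10 ln7_12_0_c10_ok) (L (nat_lit 296) ln8_9_5_c10 ln8_9_5_c10_ok))))) (M (nat_lit 329) (B (L (nat_lit 361) ln8_14_6_c10 ln8_14_6_c10_ok) (L (nat_lit 297) ln8_13_6_c10 ln8_13_6_c10_ok))))) (B (M (nat_lit 328) (B (M (nat_lit 327) (B (L (nat_lit 359) ln8_14_7_c10 ln8_14_7_c10_ok) (L (nat_lit 295) ln8_13_7_c10 ln8_13_7_c10_ok))) (M (nat_lit 296) (B (M (nat_lit 297) (B (L (nat_lit 329) ln8_13_6_c10 ln8_13_6_c10_ok) (L (nat_lit 265) ln8_12_6_c10 ln8_12_6_c10_ok))) (M (nat_lit 391) (B (L (nat_lit 393) ln7_12_0_c10 ln7_12_0_c10_ok) (L (nat_lit 423) ln8_9_5_c10 ln8_9_5_c10_ok))))))) (B (M (nat_lit 328) (B (M (nat_lit 329) (B (L (nat_lit 361) ln8_14_6_c10 ln8_14_6_c10_ok) (L (nat_lit 297) ln8_13_6_c10 ln8_13_6_c10_ok))) (M (nat_lit 327) (B (L (nat_lit 295) ln8_13_7_c10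 ln8_13_7_c10_ok) (L (nat_lit 359) ln8_14_7_c10 ln8_14_7_c10_ok))))) (M (nat_lit 359) (B (M (nat_lit 393) (B (M (nat_lit 358) (B (L (nat_lit 361) ln6_11_0_c10 ln6_11_0_c10_ok) (L (nat_lit 357) ln5_11_0_c10 ln5_11_0_c10_ok))) (L (nat_lit 391) ln7_12_0_c10 ln7_12_0_c10_ok))) (L (nat_lit 327) ln8_14_7_c10 ln8_14_7_c10_ok))))))) (B (M (nat_lit 391) (B (M (nat_lit 359) (B (L (nat_lit 488) ln8_15_7_c10 ln8_15_7_c10_ok) (M (nat_lit 327) (B (L (nat_lit 295) ln7_9_4_c10 ln7_9_4_c10_ok) (L (nat_lit 360) ln8_14_7_c10 ln8_14_7_c10_ok))))) (B (M (nat_lit 359) (B (L (nat_lit 488) ln8_15_7_c10 ln8_15_7_c10_ok) (M (nat_lit 327) (B (L (nat_lit 360) ln8_14_7_c10 ln8_14_7_c10_ok) (L (nat_lit 423) ln7_10_4_c10 ln7_10_4_c10_ok))))) (B (M (nat_lit 359) (B (L (nat_lit 488) ln8_15_7_c10 ln8_15_7_c10_ok) (M (nat_lit 327) (B (L (nat_lit 295) ln7_9_4_c10 ln7_9_4_c10_ok) (L (nat_lit 423) ln7_10_4_c10 ln7_10_4_c10_ok))))) (B (M (nat_lit 488) (B (L (nat_lit 359) ln8_15_7_c10 ln8_15_7_c10_ok) (M (nat_lit 520) (B (L (nat_lit 423) ln8_16_7_c10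 ln8_16_7_c10_ok) (M (nat_lit 519) (B (L (nat_lit 551) ln8_13_5_c10 ln8_13_5_c10_ok) (L (nat_lit 487) ln8_12_5_c10 ln8_12_5_c10_ok))))))) (L (nat_lit 393) ln7_12_0_c10 ln7_12_0_c10_ok)))))) (B (M (nat_lit 457) (B (M (nat_lit 489) (B (L (nat_lit 360) ln8_11_4_c10 ln8_11_4_c10_ok) (M (nat_lit 521) (B (L (nat_lit 488) ln8_12_4_c10 ln8_12_4_c10_ok) (L (nat_lit 553) ln9_17_6 ln9_17_6_ok))))) (M (nat_lit 459) (B (L (nat_lit 423) ln11_14_3 ln11_14_3_ok) (M (nat_lit 491) (B (L (nat_lit 492) ln8_14_0 ln8_14_0_ok) (L (nat_lit 523) ln11_16_7 ln11_16_7_ok))))))) (M (nat_lit 488) (B (M (nat_lit 391) (B (L (nat_lit 393) ln7_12_0_c10 ln7_12_0_c10_ok) (L (nat_lit 359) ln8_15_7_c10 ln8_15_7_c10_ok))) (M (nat_lit 520) (B (M (nat_lit 521) (B (L (nat_lit 489) ln8_12_4_c10 ln8_12_4_c10_ok) (L (nat_lit 553) ln8_13_4_c10 ln8_13_4_c10_ok))) (M (nat_lit 519) (B (L (nat_lit 487) ln8_12_5_c10 ln8_12_5_c10_ok) (L (nat_lit 551) ln8_13_5_c10 ln8_13_5_c10_ok))))))))))) (nat_lit 6884616398477521846002240710895301072647623763587147770017871330163742711474072584070751406516052001954188291887831546145253368251837054976)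 (nat_lit 36855101844370451335712047112194785425723429411999336838500344703859039446091229485260327639652104207688903022736801917346509829965734467849792136569681731965937516544) (nat_lit 36855101844370451335712047112194785425723429411999336838500344703859039446091229485260327639652104207688903022736801917346509829965734467849792136569681731965937516544) (by decide +kernel)
theorem c10_s42 : Sem (nat_lit 6884616398477521846002240710895301072647623763587147770017871330163742711474072584070751406516052001954188291887831546145253368251837054976) (nat_lit 36855101816911260676009585161730715947751424186742433847239289068656984673445674423161978608305448489560708558724001293338412973783433485867395768677775979472603840512) (nat_lit 36855101816911260676009585161730715947751424186742433847239289068656984673445674423161978608305448489560708558724001293338412973783433485867395768677775979472603840512) :=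
  sem_of_chk (M (nat_lit 425) (B (M (nat_lit 459) (B (L (nat_lit 423) ln7_13_0 ln7_13_0_ok) (L (nat_lit 460) ln8_13_0 ln8_13_0_ok))) (M (nat_lit 392) (B (L (nat_lit 391) ln11_13_3 ln11_13_3_ok) (M (nat_lit 360) (B (M (nat_lit 329) (B (L (nat_lit 361) ln8_14_6_c10 ln8_14_6_c10_ok) (M (nat_lit 328) (B (L (nat_lit 297) ln8_13_6_c10 ln8_13_6_c10_ok) (M (nat_lit 327) (B (L (nat_lit 359) ln8_14_7_c10 ln8_14_7_c10_ok) (L (nat_lit 295) ln8_13_7_c10 ln8_13_7_c10_ok))))))) (B (M (nat_lit 488) (B (M (nat_lit 393) (B (L (nat_lit 520) ln8_16_6_c10 ln8_16_6_c10_ok) (L (nat_lit 361) ln8_15_6_c10 ln8_15_6_c10_ok))) (B (M (nat_lit 361) (B (L (nat_lit 393) ln8_15_6_c10 ln8_15_6_c10_ok) (L (nat_lit 329) ln8_14_6_c10 ln8_14_6_c10_ok))) (M (nat_lit 520) (B (M (nat_lit 519) (B (L (nat_lit 551) ln8_13_5_c10 ln8_13_5_c10_ok) (L (nat_lit 487) ln8_12_5_c10 ln8_12_5_c10_ok))) (M (nat_lit 521) (B (L (nat_lit 553) ln8_13_4_c10 ln8_13_4_c10_ok) (L (nat_lit 489) ln8_12_4_c10 ln8_12_4_c10_ok)))))))) (B (M (nat_lit 328) (B (M (nat_lit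 327) (B (L (nat_lit 359) ln8_14_7_c10 ln8_14_7_c10_ok) (L (nat_lit 295) ln8_13_7_c10 ln8_13_7_c10_ok))) (M (nat_lit 296) (B (L (nat_lit 393) ln8_9_4_c10 ln8_9_4_c10_ok) (M (nat_lit 297) (B (L (nat_lit 329) ln8_13_6_c10 ln8_13_6_c10_ok) (L (nat_lit 265) ln8_12_6_c10 ln8_12_6_c10_ok))))))) (M (nat_lit 328) (B (M (nat_lit 327) (B (L (nat_lit 359) ln8_14_7_c10 ln8_14_7_c10_ok) (L (nat_lit 295) ln8_13_7_c10 ln8_13_7_c10_ok))) (M (nat_lit 393) (B (L (nat_lit 296) ln8_9_4_c10 ln8_9_4_c10_ok) (M (nat_lit 488) (B (L (nat_lit 520) ln8_16_6_c10 ln8_16_6_c10_ok) (L (nat_lit 361) ln8_15_6_c10 ln8_15_6_c10_ok))))))))))))))) (nat_lit 6884616398477521846002240710895301072647623763587147770017871330163742711474072584070751406516052001954188291887831546145253368251837054976) (nat_lit 36855101816911260676009585161730715947751424186742433847239289068656984673445674423161978608305448489560708558724001293338412973783433485867395768677775979472603840512) (nat_lit 36855101816911260676009585161730715947751424186742433847239289068656984673445674423161978608305448489560708558724001293338412973783433485867395768677775979472603840512)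 (by decide +kernel)
theorem c10_s53 : Sem (nat_lit 4795005779983909752416656862972931875179797990645877843042118046731232043000663685386750379624359645780809951611648269571261603950197398593471512576) (nat_lit 117936325980758997374329320432593948797565468570490328953700928875700550817054038364370567804957997221334778637765834267940247979648368549011478867532144583010246721536) (nat_lit 117936325980758997374329320432593948797565468570490328953700928875700550817054038364370567804957997221334778637765834267940247979648368549011478867532144583010246721536) :=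
  sem_of_chk (M (nat_lit 488) (B (M (nat_lit 459) (B (L (nat_lit 487) ln7_15_2 ln7_15_2_ok) (L (nat_lit 460) ln13_14_1 ln13_14_1_ok))) (B (M (nat_lit 491) (B (M (nat_lit 459) (B (L (nat_lit 460) ln13_14_1 ln13_14_1_ok) (M (nat_lit 523) (B (L (nat_lit 524) ln8_15_0 ln8_15_0_ok) (L (nat_lit 555) ln11_17_7 ln11_17_7_ok))))) (B (M (nat_lit 492) (B (M (nat_lit 520) (B (L (nat_lit 519) ln11_15_1 ln11_15_1_ok) (L (nat_lit 521) ln12_15_1 ln12_15_1_ok))) (L (nat_lit 460) ln9_15_2 ln9_15_2_ok))) (M (nat_lit 492) (B (M (nat_lit 520) (B (L (nat_lit 519) ln11_15_1 ln11_15_1_ok) (L (nat_lit 521) ln12_15_1 ln12_15_1_ok))) (M (nat_lit 524) (B (L (nat_lit 523) ln8_15_0 ln8_15_0_ok) (L (nat_lit 525) ln9_15_0 ln9_15_0_ok)))))))) (M (nat_lit 491) (B (M (nat_lit 492) (B (M (nat_lit 456) (B (L (nat_lit 455) ln11_15_3 ln11_15_3_ok) (L (nat_lit 457) ln12_15_3 ln12_15_3_ok))) (M (nat_lit 524) (B (L (nat_lit 523) ln8_15_0 ln8_15_0_ok) (L (nat_lit 525) ln9_15_0 ln9_15_0_ok))))) (B (M (nat_lit 492) (B (M (nat_lit 520) (B (L (nat_lit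 519) ln11_15_1 ln11_15_1_ok) (L (nat_lit 521) ln12_15_1 ln12_15_1_ok))) (M (nat_lit 524) (B (L (nat_lit 523) ln8_15_0 ln8_15_0_ok) (L (nat_lit 525) ln9_15_0 ln9_15_0_ok))))) (B (M (nat_lit 492) (B (M (nat_lit 520) (B (L (nat_lit 519) ln11_15_1 ln11_15_1_ok) (L (nat_lit 521) ln12_15_1 ln12_15_1_ok))) (M (nat_lit 456) (B (L (nat_lit 455) ln11_15_3 ln11_15_3_ok) (L (nat_lit 457) ln12_15_3 ln12_15_3_ok))))) (M (nat_lit 487) (B (M (nat_lit 519) (B (L (nat_lit 518) ln10_15_1 ln10_15_1_ok) (L (nat_lit 520) ln11_15_1 ln11_15_1_ok))) (M (nat_lit 455) (B (L (nat_lit 454) ln10_15_3 ln10_15_3_ok) (L (nat_lit 456) ln11_15_3 ln11_15_3_ok)))))))))))) (nat_lit 4795005779983909752416656862972931875179797990645877843042118046731232043000663685386750379624359645780809951611648269571261603950197398593471512576) (nat_lit 117936325980758997374329320432593948797565468570490328953700928875700550817054038364370567804957997221334778637765834267940247979648368549011478867532144583010246721536) (nat_lit 117936325980758997374329320432593948797565468570490328953700928875700550817054038364370567804957997221334778637765834267940247979648368549011478867532144583010246721536)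 (by decide +kernel)
theorem c10_s58 : Sem (nat_lit 5954262831162530206346786711761558612488860042050947124840597262978032424703846808112642595698746800078181074691984620032815685767832535040) (nat_lit 86645927941275464371219613588710871564768917838233368701465184785704670275449471797581403731168900613202845634314142919042269184) (nat_lit 86645927941275464371219613588710871564768917838233368701465184785704670275449471797581403731168900613202845634314142919042269184) :=
  sem_of_chk (M (nat_lit 298) (B (M (nat_lit 266) (B (L (nat_lit 297) ln9_12_6_c10 ln9_12_6_c10_ok) (M (nat_lit 330) (B (L (nat_lit 362) ln10_8_4 ln10_8_4_ok) (L (nat_lit 425) ln9_13_6_c10 ln9_13_6_c10_ok))))) (B (M (nat_lit 328) (B (M (nat_lit 425) (B (L (nat_lit 330) ln9_13_6_c10 ln9_13_6_c10_ok) (L (nat_lit 296) ln9_13_7_c10 ln9_13_7_c10_ok))) (B (M (nat_lit 296) (B (L (nat_lit 425) ln9_13_7_c10 ln9_13_7_c10_ok) (M (nat_lit 264) (B (L (nat_lit 297) ln9_12_7_c10 ln9_12_7_c10_ok) (L (nat_lit 232) ln8_7_4_c10 ln8_7_4_c10_ok))))) (M (nat_lit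 327) (B (M (nat_lit 326) (B (L (nat_lit 297) ln6_10_2_c10 ln6_10_2_c10_ok) (L (nat_lit 362) ln6_10_0_c10 ln6_10_0_c10_ok))) (B (M (nat_lit 299) (B (L (nat_lit 330) ln7_10_2_c10 ln7_10_2_c10_ok) (M (nat_lit 297) (B (L (nat_lit 300) ln12_9_1 ln12_9_1_ok) (L (nat_lit 326) ln6_10_2_c10 ln6_10_2_c10_ok))))) (M (nat_lit 330) (B (L (nat_lit 299) ln7_10_2_c10 ln7_10_2_c10_ok) (L (nat_lit 362) ln10_9_4 ln10_9_4_ok))))))))) (B (M (nat_lit 297) (B (L (nat_lit 266) ln9_12_6_c10 ln9_12_6_c10_ok) (M (nat_lit 296) (B (L (nat_lit 264) ln9_12_7_c10 ln9_12_7_c10_ok) (M (nat_lit 328) (B (L (nat_lit 425) ln9_13_7_c10 ln9_13_7_c10_ok) (M (nat_lit 327) (B (L (nat_lit 299) ln11_9_1 ln11_9_1_ok) (L (nat_lit 326) ln6_10_2_c10 ln6_10_2_c10_ok))))))))) (B (M (nat_lit 330) (B (L (nat_lit 425) ln9_13_6_c10 ln9_13_6_c10_ok) (M (nat_lit 266) (B (L (nat_lit 234) ln10_7_5_c10 ln10_7_5_c10_ok) (L (nat_lit 362) ln10_8_4 ln10_8_4_ok))))) (M (nat_lit 266) (B (L (nat_lit 297) ln9_12_6_c10 ln9_12_6_c10_ok) (M (nat_lit 330) (B (L (nat_lit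 234) ln10_7_5_c10 ln10_7_5_c10_ok) (L (nat_lit 362) ln10_8_4 ln10_8_4_ok)))))))))) (nat_lit 5954262831162530206346786711761558612488860042050947124840597262978032424703846808112642595698746800078181074691984620032815685767832535040) (nat_lit 86645927941275464371219613588710871564768917838233368701465184785704670275449471797581403731168900613202845634314142919042269184) (nat_lit 86645927941275464371219613588710871564768917838233368701465184785704670275449471797581403731168900613202845634314142919042269184) (by decide +kernel)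
theorem c10_s72 : Sem (nat_lit 5954262831335822062168816158962850493761100876103733384091218394238442296629798836724711580336448181607123291969041254335243134419456753664) (nat_lit 4419179444562087692206888727160944074211891852678556399849914338529972284689102427443082133730377720986689897897347533521797326874683113472) (nat_lit 4419179444562087692206888727160944074211891852678556399849914338529972284689102427443082133730377720986689897897347533521797326874683113472) :=
  sem_of_chk (M (nat_lit 425) (B (M (nat_lit 424) (B (L (nat_lit 396) ln8_13_2 ln8_13_2_ok) (M (nat_lit 423) (B (L (nat_lit 394) ln7_13_2 ln7_13_2_ok) (M (nat_lit 455) (B (L (nat_lit 456) ln11_13_1_c10 ln11_13_1_c10_ok) (L (nat_lit 454) ln10_13_1_c10 ln10_13_1_c10_ok))))))) (B (M (nat_lit 424) (B (M (nat_lit 423) (B (L (nat_lit 394) ln7_13_2 ln7_13_2_ok) (M (nat_lit 455) (B (L (nat_lit 456) ln11_13_1_c10 ln11_13_1_c10_ok) (L (nat_lit 454) ln10_13_1_c10 ln10_13_1_c10_ok))))) (B (M (nat_lit 423) (B (M (nat_lit 455) (B (L (nat_lit 456) ln11_13_1_c10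 ln11_13_1_c10_ok) (L (nat_lit 454) ln10_13_1_c10 ln10_13_1_c10_ok))) (M (nat_lit 391) (B (L (nat_lit 392) ln11_13_3 ln11_13_3_ok) (L (nat_lit 390) ln10_13_3_c10 ln10_13_3_c10_ok))))) (B (M (nat_lit 423) (B (L (nat_lit 394) ln7_13_2 ln7_13_2_ok) (M (nat_lit 391) (B (L (nat_lit 392) ln11_13_3 ln11_13_3_ok) (L (nat_lit 390) ln10_13_3_c10 ln10_13_3_c10_ok))))) (M (nat_lit 428) (B (M (nat_lit 456) (B (L (nat_lit 457) ln12_13_1 ln12_13_1_ok) (L (nat_lit 455) ln11_13_1_c10 ln11_13_1_c10_ok))) (M (nat_lit 392) (B (L (nat_lit 393) ln12_13_3 ln12_13_3_ok) (L (nat_lit 391) ln11_13_3 ln11_13_3_ok))))))))) (B (M (nat_lit 424) (B (L (nat_lit 396) ln8_13_2 ln8_13_2_ok) (M (nat_lit 428) (B (M (nat_lit 456) (B (L (nat_lit 457) ln12_13_1 ln12_13_1_ok) (L (nat_lit 455) ln11_13_1_c10 ln11_13_1_c10_ok))) (M (nat_lit 392) (B (L (nat_lit 393) ln12_13_3 ln12_13_3_ok) (L (nat_lit 391) ln11_13_3 ln11_13_3_ok))))))) (B (M (nat_lit 424) (B (L (nat_lit 396) ln8_13_2 ln8_13_2_ok) (M (nat_lit 423) (B (L (nat_lit 394) ln7_13_2 ln7_13_2_ok)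 (M (nat_lit 391) (B (L (nat_lit 392) ln11_13_3 ln11_13_3_ok) (L (nat_lit 390) ln10_13_3_c10 ln10_13_3_c10_ok))))))) (M (nat_lit 428) (B (L (nat_lit 460) ln9_13_0 ln9_13_0_ok) (M (nat_lit 457) (B (L (nat_lit 458) ln13_13_1 ln13_13_1_ok) (L (nat_lit 456) ln12_13_1 ln12_13_1_ok)))))))))) (nat_lit 5954262831335822062168816158962850493761100876103733384091218394238442296629798836724711580336448181607123291969041254335243134419456753664) (nat_lit 4419179444562087692206888727160944074211891852678556399849914338529972284689102427443082133730377720986689897897347533521797326874683113472) (nat_lit 4419179444562087692206888727160944074211891852678556399849914338529972284689102427443082133730377720986689897897347533521797326874683113472) (by decide +kernel)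
theorem c10_s89 : Sem (nat_lit 5954262832028989485618324565167238146370124327837748531862369232005148957007496058784222747908415495800981769203384749843222053252551933952) (nat_lit 13729595329851230978767378294089803420323579397543628656357384518644704721726467299345883555807669029340437039496586358740141024914453642690190892691888275456) (nat_lit 13729595329851230978767378294089803420323579397543628656357384518644704721726467299345883555807669029340437039496586358740141024914453642690190892691888275456) :=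
  sem_of_chk (M (nat_lit 458) (B (M (nat_lit 395) (B (L (nat_lit 331) ln11_10_5 ln11_10_5_ok) (M (nat_lit 394) (B (L (nat_lit 393) ln13_13_3 ln13_13_3_ok) (L (nat_lit 490) ln10_15_6 ln10_15_6_ok))))) (B (M (nat_lit 395) (B (L (nat_lit 331) ln11_10_5 ln11_10_5_ok) (M (nat_lit 490) (B (L (nat_lit 394) ln10_15_6 ln10_15_6_ok) (L (nat_lit 522) ln10_16_6 ln10_16_6_ok))))) (B (M (nat_lit 395) (B (L (nat_lit 331) ln11_10_5 ln11_10_5_ok) (M (nat_lit 490) (B (L (nat_lit 522) ln10_16_6 ln10_16_6_ok) (L (nat_lit 459) ln11_11_5 ln11_11_5_ok))))) (B (M (nat_lit 394) (B (L (nat_lit 393) ln13_13_3 ln13_13_3_ok) (M (nat_lit 331) (B (L (nat_lit 362) ln10_14_6 ln10_14_6_ok) (L (nat_lit 395) ln11_10_5 ln11_10_5_ok))))) (B (M (nat_lit 490) (B (M (nat_lit 394) (B (L (nat_lit 393) ln13_13_3 ln13_13_3_ok) (L (nat_lit 395) ln10_15_6 ln10_15_6_ok))) (B (M (nat_lit 395) (B (L (nat_lit 394) ln10_15_6 ln10_15_6_ok) (L (nat_lit 522) ln10_16_6 ln10_16_6_ok))) (B (M (nat_lit 395) (B (L (nat_lit 522) ln10_16_6 ln10_16_6_ok) (L (nat_lit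 459) ln11_11_5 ln11_11_5_ok))) (M (nat_lit 393) (B (L (nat_lit 394) ln13_13_3 ln13_13_3_ok) (M (nat_lit 425) (B (L (nat_lit 392) ln12_13_3 ln12_13_3_ok) (L (nat_lit 522) ln10_16_7 ln10_16_7_ok))))))))) (M (nat_lit 394) (B (L (nat_lit 393) ln13_13_3 ln13_13_3_ok) (M (nat_lit 362) (B (L (nat_lit 331) ln10_14_6 ln10_14_6_ok) (M (nat_lit 459) (B (L (nat_lit 330) ln10_10_4 ln10_10_4_ok) (L (nat_lit 491) ln10_11_4 ln10_11_4_ok))))))))))))) (nat_lit 5954262832028989485618324565167238146370124327837748531862369232005148957007496058784222747908415495800981769203384749843222053252551933952) (nat_lit 13729595329851230978767378294089803420323579397543628656357384518644704721726467299345883555807669029340437039496586358740141024914453642690190892691888275456) (nat_lit 13729595329851230978767378294089803420323579397543628656357384518644704721726467299345883555807669029340437039496586358740141024914453642690190892691888275456) (by decide +kernel)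
theorem c10_s92 : Sem (nat_lit 5954262831509113917970671779033862168167677465089648269778033016598694956424787681501984599132935639058289333405543081762115182783130238976) (nat_lit 14699586360760875250371147262434368392591112405266520510392034555821141673283136536660133602502622416947665228000592404641960204154051756032) (nat_lit 14699586360760875250371147262434368392591112405266520510392034555821141673283136536660133602502622416947665228000592404641960204154051756032) :=
  sem_of_chk (M (nat_lit 332) (B (M (nat_lit 300) (B (M (nat_lit 268) (B (M (nat_lit 236) (B (L (nat_lit 331) ln12_7_5 ln12_7_5_ok) (M (nat_lit 235) (B (L (nat_lit 203) ln12_10_7_c10 ln12_10_7_c10_ok) (L (nat_lit 267) ln12_11_7 ln12_11_7_ok))))) (B (M (nat_lit 267) (B (L (nat_lit 235) ln12_11_7 ln12_11_7_ok) (M (nat_lit 269) (B (L (nat_lit 237) ln12_11_6 ln12_11_6_ok) (M (nat_lit 299) (B (M (nat_lit 298) (B (L (nat_lit 270) ln14_8_1_c10 ln14_8_1_c10_ok) (L (nat_lit 297) ln9_9_2 ln9_9_2_ok))) (M (nat_lit 266) (B (M (nat_lit 301) (B (L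 (nat_lit 302) ln10_8_0_c10 ln10_8_0_c10_ok) (L (nat_lit 265) ln9_8_0_c10 ln9_8_0_c10_ok))) (M (nat_lit 234) (B (L (nat_lit 233) ln13_8_3_c10 ln13_8_3_c10_ok) (L (nat_lit 331) ln11_11_7 ln11_11_7_ok))))))))))) (B (M (nat_lit 236) (B (L (nat_lit 331) ln12_7_5 ln12_7_5_ok) (M (nat_lit 237) (B (L (nat_lit 205) ln12_10_6_c10 ln12_10_6_c10_ok) (L (nat_lit 269) ln12_11_6 ln12_11_6_ok))))) (M (nat_lit 236) (B (M (nat_lit 237) (B (L (nat_lit 205) ln12_10_6_c10 ln12_10_6_c10_ok) (L (nat_lit 269) ln12_11_6 ln12_11_6_ok))) (M (nat_lit 235) (B (L (nat_lit 203) ln12_10_7_c10 ln12_10_7_c10_ok) (L (nat_lit 267) ln12_11_7 ln12_11_7_ok))))))))) (B (M (nat_lit 427) (B (M (nat_lit 426) (B (L (nat_lit 462) ln10_13_0 ln10_13_0_ok) (M (nat_lit 393) (B (L (nat_lit 394) ln13_13_3 ln13_13_3_ok) (M (nat_lit 457) (B (L (nat_lit 458) ln13_13_1 ln13_13_1_ok) (M (nat_lit 425) (B (L (nat_lit 392) ln12_13_3 ln12_13_3_ok) (L (nat_lit 456) ln12_13_1 ln12_13_1_ok))))))))) (M (nat_lit 395) (B (L (nat_lit 331) ln11_13_6 ln11_13_6_ok) (L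 (nat_lit 459) ln11_14_6 ln11_14_6_ok))))) (M (nat_lit 268) (B (L (nat_lit 395) ln12_8_5 ln12_8_5_ok) (M (nat_lit 237) (B (L (nat_lit 269) ln12_11_6 ln12_11_6_ok) (M (nat_lit 235) (B (L (nat_lit 267) ln12_11_7 ln12_11_7_ok) (M (nat_lit 236) (B (L (nat_lit 205) ln12_10_6_c10 ln12_10_6_c10_ok) (L (nat_lit 203) ln12_10_7_c10 ln12_10_7_c10_ok)))))))))))) (L (nat_lit 396) ln12_10_4 ln12_10_4_ok))) (nat_lit 5954262831509113917970671779033862168167677465089648269778033016598694956424787681501984599132935639058289333405543081762115182783130238976) (nat_lit 14699586360760875250371147262434368392591112405266520510392034555821141673283136536660133602502622416947665228000592404641960204154051756032) (nat_lit 14699586360760875250371147262434368392591112405266520510392034555821141673283136536660133602502622416947665228000592404641960204154051756032) (by decide +kernel)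
theorem c10_s93 : Sem (nat_lit 5954262831509113917970671779033862168167677465089648269778033016598694956424787681501984599132935639058289333405543081762115182783130238976) (nat_lit 68647976623682790847425841320481920666319772899539512993323513874757450278206072911001256700125491818404479113874132195384113671816576262766252919808445120512) (nat_lit 68647976623682790847425841320481920666319772899539512993323513874757450278206072911001256700125491818404479113874132195384113671816576262766252919808445120512) :=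
  sem_of_chk (M (nat_lit 427) (B (M (nat_lit 395) (B (M (nat_lit 460) (B (L (nat_lit 331) ln11_10_4 ln11_10_4_ok) (M (nat_lit 459) (B (L (nat_lit 492) ln11_11_4 ln11_11_4_ok) (L (nat_lit 332) ln11_14_6 ln11_14_6_ok))))) (B (M (nat_lit 331) (B (L (nat_lit 460) ln11_10_4 ln11_10_4_ok) (M (nat_lit 332) (B (L (nat_lit 300) ln11_13_6 ln11_13_6_ok) (M (nat_lit 330) (B (L (nat_lit 329) ln9_10_0 ln9_10_0_ok) (L (nat_lit 298) ln11_13_7 ln11_13_7_ok))))))) (B (M (nat_lit 459) (B (L (nat_lit 332) ln11_14_6 ln11_14_6_ok) (M (nat_lit 490) (B (L (nat_lit 458) ln11_11_5 ln11_11_5_ok) (M (nat_lit 492) (B (L (nat_lit 460) ln11_11_4 ln11_11_4_ok) (M (nat_lit 491) (B (L (nat_lit 522) ln11_12_5 ln11_12_5_ok) (L (nat_lit 524) ln11_12_4 ln11_12_4_ok))))))))) (B (M (nat_lit 332) (B (L (nat_lit 459) ln11_14_6 ln11_14_6_ok) (M (nat_lit 300) (B (L (nat_lit 331) ln11_13_6 ln11_13_6_ok) (L (nat_lit 268) ln12_8_5 ln12_8_5_ok))))) (M (nat_lit 460) (B (L (nat_lit 331) ln11_10_4 ln11_10_4_ok) (M (nat_lit 492) (B (L (nat_lit 459) ln11_11_4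 ln11_11_4_ok) (L (nat_lit 524) ln12_16_7 ln12_16_7_ok)))))))))) (B (M (nat_lit 426) (B (M (nat_lit 458) (B (L (nat_lit 457) ln13_13_1 ln13_13_1_ok) (M (nat_lit 395) (B (L (nat_lit 331) ln11_10_5 ln11_10_5_ok) (M (nat_lit 490) (B (L (nat_lit 522) ln10_16_6 ln10_16_6_ok) (L (nat_lit 459) ln11_11_5 ln11_11_5_ok))))))) (L (nat_lit 462) ln10_13_0 ln10_13_0_ok))) (M (nat_lit 462) (B (M (nat_lit 463) (B (L (nat_lit 460) ln15_14_3 ln15_14_3_ok) (L (nat_lit 464) ln16_14_3 ln16_14_3_ok))) (L (nat_lit 426) ln10_13_0 ln10_13_0_ok)))))) (nat_lit 5954262831509113917970671779033862168167677465089648269778033016598694956424787681501984599132935639058289333405543081762115182783130238976) (nat_lit 68647976623682790847425841320481920666319772899539512993323513874757450278206072911001256700125491818404479113874132195384113671816576262766252919808445120512) (nat_lit 68647976623682790847425841320481920666319772899539512993323513874757450278206072911001256700125491818404479113874132195384113671816576262766252919808445120512)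 (by decide +kernel)
theorem c10_s96 : Sem (nat_lit 5954262830815946494440468064139258622131906539230539000934078872806075061271132354550578193372942037532254438881195279021764289825886699520) (nat_lit 4801370867518765835061831532252961877722741521161204220707024310167238494664806136799583541226164399832778709296809508864) (nat_lit 4801370867518765835061831532252961877722741521161204220707024310167238494664806136799583541226164399832778709296809508864) :=
  sem_of_chk (M (nat_lit 366) (B (M (nat_lit 335) (B (L (nat_lit 334) ln11_11_2 ln11_11_2_ok) (M (nat_lit 367) (B (L (nat_lit 336) ln12_11_2 ln12_11_2_ok) (M (nat_lit 399) (B (L (nat_lit 400) ln12_11_0 ln12_11_0_ok) (L (nat_lit 398) ln11_11_0 ln11_11_0_ok))))))) (B (M (nat_lit 367) (B (M (nat_lit 399) (B (L (nat_lit 400) ln12_11_0 ln12_11_0_ok) (L (nat_lit 398) ln11_11_0 ln11_11_0_ok))) (M (nat_lit 331) (B (L (nat_lit 332) ln15_11_3 ln15_11_3_ok) (L (nat_lit 330) ln14_11_3 ln14_11_3_ok))))) (B (M (nat_lit 367) (B (M (nat_lit 335) (B (L (nat_lit 336)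 ln12_11_2 ln12_11_2_ok) (L (nat_lit 334) ln11_11_2 ln11_11_2_ok))) (M (nat_lit 395) (B (L (nat_lit 396) ln15_11_1 ln15_11_1_ok) (L (nat_lit 394) ln14_11_1 ln14_11_1_ok))))) (M (nat_lit 331) (B (L (nat_lit 330) ln14_11_3 ln14_11_3_ok) (M (nat_lit 395) (B (L (nat_lit 394) ln14_11_1 ln14_11_1_ok) (M (nat_lit 299) (B (M (nat_lit 267) (B (L (nat_lit 396) ln11_8_4 ln11_8_4_ok) (M (nat_lit 266) (B (L (nat_lit 298) ln11_12_7 ln11_12_7_ok) (L (nat_lit 234) ln11_11_7 ln11_11_7_ok))))) (B (M (nat_lit 267) (B (L (nat_lit 396) ln11_8_4 ln11_8_4_ok) (M (nat_lit 268) (B (L (nat_lit 236) ln11_11_6 ln11_11_6_ok) (L (nat_lit 300) ln11_12_6 ln11_12_6_ok))))) (M (nat_lit 300) (B (L (nat_lit 268) ln11_12_6 ln11_12_6_ok) (M (nat_lit 334) (B (L (nat_lit 335) ln11_11_2 ln11_11_2_ok) (M (nat_lit 298) (B (L (nat_lit 266) ln11_12_7 ln11_12_7_ok) (M (nat_lit 333) (B (L (nat_lit 301) ln10_9_0 ln10_9_0_ok) (L (nat_lit 332) ln14_10_3 ln14_10_3_ok)))))))))))))))))))) (nat_lit 5954262830815946494440468064139258622131906539230539000934078872806075061271132354550578193372942037532254438881195279021764289825886699520)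 (nat_lit 4801370867518765835061831532252961877722741521161204220707024310167238494664806136799583541226164399832778709296809508864) (nat_lit 4801370867518765835061831532252961877722741521161204220707024310167238494664806136799583541226164399832778709296809508864) (by decide +kernel)
theorem c10_s97 : Sem (nat_lit 5954262830815946494440468064139258622131906539230539000934078872806075061271132354550578193372942037532254438881195279021764289825886699520) (nat_lit 54918381303421571333730218684158387868749678904277933304623305800054411293028157062467720196975691243818996610642097364206717221540691984547490620313660555264) (nat_lit 54918381303421571333730218684158387868749678904277933304623305800054411293028157062467720196975691243818996610642097364206717221540691984547490620313660555264) :=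
  sem_of_chk (M (nat_lit 366) (B (M (nat_lit 367) (B (M (nat_lit 395) (B (L (nat_lit 394) ln14_11_1 ln14_11_1_ok) (L (nat_lit 396) ln15_11_1 ln15_11_1_ok))) (M (nat_lit 335) (B (L (nat_lit 334) ln11_11_2 ln11_11_2_ok) (L (nat_lit 336) ln12_11_2 ln12_11_2_ok))))) (B (M (nat_lit 367) (B (M (nat_lit 335) (B (L (nat_lit 334) ln11_11_2 ln11_11_2_ok) (L (nat_lit 336) ln12_11_2 ln12_11_2_ok))) (M (nat_lit 399) (B (L (nat_lit 398) ln11_11_0 ln11_11_0_ok) (L (nat_lit 400) ln12_11_0 ln12_11_0_ok))))) (B (M (nat_lit 367) (B (M (nat_lit 395) (B (L (nat_lit 394) ln14_11_1 ln14_11_1_ok) (L (nat_lit 396) ln15_11_1 ln15_11_1_ok))) (M (nat_lit 399) (B (L (nat_lit 398) ln11_11_0 ln11_11_0_ok) (L (nat_lit 400) ln12_11_0 ln12_11_0_ok))))) (M (nat_lit 331) (B (L (nat_lit 330) ln14_11_3 ln14_11_3_ok) (M (nat_lit 395) (B (L (nat_lit 394) ln14_11_1 ln14_11_1_ok) (M (nat_lit 427) (B (M (nat_lit 460) (B (L (nat_lit 428) ln11_10_4 ln11_10_4_ok) (M (nat_lit 459) (B (L (nat_lit 492) ln11_11_4 ln11_11_4_ok) (M (nat_lit 458) (B (L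 (nat_lit 426) ln11_10_5 ln11_10_5_ok) (L (nat_lit 490) ln11_11_5 ln11_11_5_ok))))))) (B (M (nat_lit 299) (B (M (nat_lit 396) (B (L (nat_lit 267) ln11_8_4 ln11_8_4_ok) (L (nat_lit 428) ln11_9_4 ln11_9_4_ok))) (B (M (nat_lit 428) (B (L (nat_lit 396) ln11_9_4 ln11_9_4_ok) (L (nat_lit 460) ln11_10_4 ln11_10_4_ok))) (M (nat_lit 267) (B (M (nat_lit 266) (B (L (nat_lit 234) ln11_11_7 ln11_11_7_ok) (L (nat_lit 298) ln11_12_7 ln11_12_7_ok))) (M (nat_lit 268) (B (L (nat_lit 236) ln11_11_6 ln11_11_6_ok) (L (nat_lit 300) ln11_12_6 ln11_12_6_ok)))))))) (B (M (nat_lit 459) (B (M (nat_lit 458) (B (L (nat_lit 426) ln11_10_5 ln11_10_5_ok) (L (nat_lit 490) ln11_11_5 ln11_11_5_ok))) (M (nat_lit 491) (B (L (nat_lit 396) ln11_15_6 ln11_15_6_ok) (M (nat_lit 492) (B (L (nat_lit 460) ln11_11_4 ln11_11_4_ok) (L (nat_lit 524) ln11_12_4 ln11_12_4_ok))))))) (M (nat_lit 458) (B (L (nat_lit 426) ln11_10_5 ln11_10_5_ok) (M (nat_lit 396) (B (M (nat_lit 299) (B (L (nat_lit 267) ln11_8_4 ln11_8_4_ok) (L (nat_lit 428) ln11_9_4 ln11_9_4_ok)))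 (M (nat_lit 459) (B (L (nat_lit 490) ln11_11_5 ln11_11_5_ok) (L (nat_lit 491) ln11_15_6 ln11_15_6_ok))))))))))))))))))) (nat_lit 5954262830815946494440468064139258622131906539230539000934078872806075061271132354550578193372942037532254438881195279021764289825886699520) (nat_lit 54918381303421571333730218684158387868749678904277933304623305800054411293028157062467720196975691243818996610642097364206717221540691984547490620313660555264) (nat_lit 54918381303421571333730218684158387868749678904277933304623305800054411293028157062467720196975691243818996610642097364206717221540691984547490620313660555264) (by decide +kernel)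
theorem c10_s98 : Sem (nat_lit 5954262830815946494440468064139258622131906539230539000934078872806075061271132354550578193372942037532254438881195279021764289825886699520) (nat_lit 15983352582827860201637731003816401291577929246444991264259456178086030721241062311557964408385384557835882340331484598743287987424207915016408530944) (nat_lit 15983352582827860201637731003816401291577929246444991264259456178086030721241062311557964408385384557835882340331484598743287987424207915016408530944) :=
  sem_of_chk (M (nat_lit 366) (B (M (nat_lit 367) (B (M (nat_lit 331) (B (L (nat_lit 330) ln14_11_3 ln14_11_3_ok) (L (nat_lit 332) ln15_11_3 ln15_11_3_ok))) (M (nat_lit 399) (B (L (nat_lit 398) ln11_11_0 ln11_11_0_ok) (L (nat_lit 400) ln12_11_0 ln12_11_0_ok))))) (B (M (nat_lit 367) (B (M (nat_lit 399) (B (L (nat_lit 398) ln11_11_0 ln11_11_0_ok) (L (nat_lit 400) ln12_11_0 ln12_11_0_ok))) (M (nat_lit 335) (B (L (nat_lit 334) ln11_11_2 ln11_11_2_ok) (L (nat_lit 336) ln12_11_2 ln12_11_2_ok))))) (B (M (nat_lit 367) (B (M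 (nat_lit 331) (B (L (nat_lit 330) ln14_11_3 ln14_11_3_ok) (L (nat_lit 332) ln15_11_3 ln15_11_3_ok))) (M (nat_lit 335) (B (L (nat_lit 334) ln11_11_2 ln11_11_2_ok) (L (nat_lit 336) ln12_11_2 ln12_11_2_ok))))) (M (nat_lit 395) (B (L (nat_lit 394) ln14_11_1 ln14_11_1_ok) (M (nat_lit 331) (B (L (nat_lit 330) ln14_11_3 ln14_11_3_ok) (M (nat_lit 299) (B (M (nat_lit 268) (B (L (nat_lit 300) ln11_12_6 ln11_12_6_ok) (M (nat_lit 267) (B (L (nat_lit 236) ln11_11_6 ln11_11_6_ok) (M (nat_lit 266) (B (L (nat_lit 298) ln11_12_7 ln11_12_7_ok) (L (nat_lit 234) ln11_11_7 ln11_11_7_ok))))))) (B (M (nat_lit 427) (B (M (nat_lit 332) (B (L (nat_lit 459) ln11_14_6 ln11_14_6_ok) (L (nat_lit 300) ln11_13_6 ln11_13_6_ok))) (B (M (nat_lit 300) (B (L (nat_lit 332) ln11_13_6 ln11_13_6_ok) (L (nat_lit 268) ln11_12_6 ln11_12_6_ok))) (M (nat_lit 459) (B (M (nat_lit 458) (B (L (nat_lit 490) ln11_11_5 ln11_11_5_ok) (L (nat_lit 426) ln11_10_5 ln11_10_5_ok))) (M (nat_lit 460) (B (L (nat_lit 492) ln11_11_4 ln11_11_4_ok) (L (nat_lit 428)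 ln11_10_4 ln11_10_4_ok)))))))) (B (M (nat_lit 267) (B (M (nat_lit 266) (B (L (nat_lit 298) ln11_12_7 ln11_12_7_ok) (L (nat_lit 234) ln11_11_7 ln11_11_7_ok))) (M (nat_lit 235) (B (L (nat_lit 332) ln11_7_4 ln11_7_4_ok) (M (nat_lit 236) (B (L (nat_lit 268) ln11_11_6 ln11_11_6_ok) (L (nat_lit 204) ln11_10_6 ln11_10_6_ok))))))) (M (nat_lit 266) (B (L (nat_lit 298) ln11_12_7 ln11_12_7_ok) (M (nat_lit 332) (B (M (nat_lit 427) (B (L (nat_lit 459) ln11_14_6 ln11_14_6_ok) (L (nat_lit 300) ln11_13_6 ln11_13_6_ok))) (M (nat_lit 267) (B (L (nat_lit 234) ln11_11_7 ln11_11_7_ok) (L (nat_lit 235) ln11_7_4 ln11_7_4_ok))))))))))))))))))) (nat_lit 5954262830815946494440468064139258622131906539230539000934078872806075061271132354550578193372942037532254438881195279021764289825886699520) (nat_lit 15983352582827860201637731003816401291577929246444991264259456178086030721241062311557964408385384557835882340331484598743287987424207915016408530944) (nat_lit 15983352582827860201637731003816401291577929246444991264259456178086030721241062311557964408385384557835882340331484598743287987424207915016408530944)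 (by decide +kernel)
theorem c10_s100 : Sem (nat_lit 5954262831509113917970671779033862168167677465089648269778033016598694956424787681501984599132935639058289333405543081762115182783130238976) (nat_lit 68647976623682790847611912033988241958312283653824606504117640592599093716284295765739040000251943936220207078795049855488819682483546115022670899889097932800) (nat_lit 68647976623682790847611912033988241958312283653824606504117640592599093716284295765739040000251943936220207078795049855488819682483546115022670899889097932800) :=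
  sem_of_chk (M (nat_lit 427) (B (M (nat_lit 395) (B (M (nat_lit 460) (B (L (nat_lit 331) ln11_10_4 ln11_10_4_ok) (M (nat_lit 459) (B (L (nat_lit 492) ln11_11_4 ln11_11_4_ok) (L (nat_lit 332) ln11_14_6 ln11_14_6_ok))))) (B (M (nat_lit 332) (B (L (nat_lit 459) ln11_14_6 ln11_14_6_ok) (M (nat_lit 300) (B (L (nat_lit 268) ln12_8_5 ln12_8_5_ok) (L (nat_lit 331) ln11_13_6 ln11_13_6_ok))))) (B (M (nat_lit 460) (B (L (nat_lit 331) ln11_10_4 ln11_10_4_ok) (M (nat_lit 492) (B (L (nat_lit 524) ln12_16_7 ln12_16_7_ok) (L (nat_lit 459) ln11_11_4 ln11_11_4_ok))))) (B (M (nat_lit 331) (B (L (nat_lit 460) ln11_10_4 ln11_10_4_ok) (M (nat_lit 299) (B (M (nat_lit 300) (B (L (nat_lit 332) ln11_13_6 ln11_13_6_ok) (L (nat_lit 268) ln11_12_6 ln11_12_6_ok))) (B (M (nat_lit 267) (B (M (nat_lit 268) (B (L (nat_lit 300) ln11_12_6 ln11_12_6_ok) (L (nat_lit 236) ln11_11_6 ln11_11_6_ok))) (M (nat_lit 266) (B (L (nat_lit 298) ln11_12_7 ln11_12_7_ok) (L (nat_lit 234) ln11_11_7 ln11_11_7_ok))))) (B (M (nat_lit 267) (B (M (nat_lit 266)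 (B (L (nat_lit 298) ln11_12_7 ln11_12_7_ok) (L (nat_lit 234) ln11_11_7 ln11_11_7_ok))) (M (nat_lit 236) (B (L (nat_lit 268) ln11_11_6 ln11_11_6_ok) (M (nat_lit 235) (B (L (nat_lit 332) ln11_7_4 ln11_7_4_ok) (L (nat_lit 204) ln11_10_6 ln11_10_6_ok))))))) (M (nat_lit 267) (B (M (nat_lit 332) (B (L (nat_lit 235) ln11_7_4 ln11_7_4_ok) (L (nat_lit 300) ln11_13_6 ln11_13_6_ok))) (M (nat_lit 266) (B (L (nat_lit 298) ln11_12_7 ln11_12_7_ok) (L (nat_lit 234) ln11_11_7 ln11_11_7_ok))))))))))) (M (nat_lit 459) (B (L (nat_lit 332) ln11_14_6 ln11_14_6_ok) (M (nat_lit 491) (B (M (nat_lit 492) (B (L (nat_lit 524) ln11_12_4 ln11_12_4_ok) (L (nat_lit 460) ln11_11_4 ln11_11_4_ok))) (M (nat_lit 490) (B (L (nat_lit 522) ln11_12_5 ln11_12_5_ok) (L (nat_lit 458) ln11_11_5 ln11_11_5_ok)))))))))))) (B (M (nat_lit 426) (B (L (nat_lit 462) ln10_13_0 ln10_13_0_ok) (M (nat_lit 393) (B (L (nat_lit 394) ln13_13_3 ln13_13_3_ok) (M (nat_lit 457) (B (L (nat_lit 458) ln13_13_1 ln13_13_1_ok) (M (nat_lit 425) (B (L (nat_lit 392) ln12_13_3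 ln12_13_3_ok) (L (nat_lit 456) ln12_13_1 ln12_13_1_ok))))))))) (M (nat_lit 462) (B (M (nat_lit 463) (B (L (nat_lit 460) ln15_14_3 ln15_14_3_ok) (L (nat_lit 464) ln16_14_3 ln16_14_3_ok))) (L (nat_lit 426) ln10_13_0 ln10_13_0_ok)))))) (nat_lit 5954262831509113917970671779033862168167677465089648269778033016598694956424787681501984599132935639058289333405543081762115182783130238976) (nat_lit 68647976623682790847611912033988241958312283653824606504117640592599093716284295765739040000251943936220207078795049855488819682483546115022670899889097932800) (nat_lit 68647976623682790847611912033988241958312283653824606504117640592599093716284295765739040000251943936220207078795049855488819682483546115022670899889097932800) (by decide +kernel)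
theorem c10_s102 : Sem (nat_lit 5954262830815946494440468064139258622131906539230539000934078872806075061271132354550578193372942037532254438881195279021764289825886699520) (nat_lit 15983352582827860201637731003977791908958361033053514131333437825707477749035817792518146240508169367972354449516224724835037563393460168763692285952) (nat_lit 15983352582827860201637731003977791908958361033053514131333437825707477749035817792518146240508169367972354449516224724835037563393460168763692285952) :=
  sem_of_chk (M (nat_lit 366) (B (M (nat_lit 367) (B (M (nat_lit 331) (B (L (nat_lit 330) ln14_11_3 ln14_11_3_ok) (L (nat_lit 332) ln15_11_3 ln15_11_3_ok))) (M (nat_lit 399) (B (L (nat_lit 398) ln11_11_0 ln11_11_0_ok) (L (nat_lit 400) ln12_11_0 ln12_11_0_ok))))) (B (M (nat_lit 367) (B (M (nat_lit 395) (B (L (nat_lit 394) ln14_11_1 ln14_11_1_ok) (L (nat_lit 396) ln15_11_1 ln15_11_1_ok))) (M (nat_lit 399) (B (L (nat_lit 398) ln11_11_0 ln11_11_0_ok) (L (nat_lit 400) ln12_11_0 ln12_11_0_ok))))) (B (M (nat_lit 367) (B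 (M (nat_lit 395) (B (L (nat_lit 394) ln14_11_1 ln14_11_1_ok) (L (nat_lit 396) ln15_11_1 ln15_11_1_ok))) (M (nat_lit 331) (B (L (nat_lit 330) ln14_11_3 ln14_11_3_ok) (L (nat_lit 332) ln15_11_3 ln15_11_3_ok))))) (M (nat_lit 395) (B (L (nat_lit 394) ln14_11_1 ln14_11_1_ok) (M (nat_lit 331) (B (L (nat_lit 330) ln14_11_3 ln14_11_3_ok) (M (nat_lit 427) (B (M (nat_lit 332) (B (L (nat_lit 459) ln11_14_6 ln11_14_6_ok) (L (nat_lit 300) ln11_13_6 ln11_13_6_ok))) (B (M (nat_lit 299) (B (M (nat_lit 428) (B (L (nat_lit 460) ln11_10_4 ln11_10_4_ok) (L (nat_lit 396) ln11_9_4 ln11_9_4_ok))) (M (nat_lit 300) (B (L (nat_lit 332) ln11_13_6 ln11_13_6_ok) (L (nat_lit 268) ln11_12_6 ln11_12_6_ok))))) (M (nat_lit 459) (B (M (nat_lit 458) (B (L (nat_lit 490) ln11_11_5 ln11_11_5_ok) (L (nat_lit 426) ln11_10_5 ln11_10_5_ok))) (M (nat_lit 460) (B (L (nat_lit 492) ln11_11_4 ln11_11_4_ok) (L (nat_lit 428) ln11_10_4 ln11_10_4_ok)))))))))))))))) (nat_lit 5954262830815946494440468064139258622131906539230539000934078872806075061271132354550578193372942037532254438881195279021764289825886699520)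 (nat_lit 15983352582827860201637731003977791908958361033053514131333437825707477749035817792518146240508169367972354449516224724835037563393460168763692285952) (nat_lit 15983352582827860201637731003977791908958361033053514131333437825707477749035817792518146240508169367972354449516224724835037563393460168763692285952) (by decide +kernel)
theorem c10_s111 : Sem (nat_lit 5954262831509113917970671779033862168167677465089648269778033016598694956424787681501984599132935639058289333405543081762115182783130238976) (nat_lit 27459190651710785666865109342079193932125457722187829790530725860667425186997309106495203256817714207976975708281101976130750023171960336447294857510930874368) (nat_lit 27459190651710785666865109342079193932125457722187829790530725860667425186997309106495203256817714207976975708281101976130750023171960336447294857510930874368) :=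
  sem_of_chk (M (nat_lit 362) (B (M (nat_lit 361) (B (M (nat_lit 329) (B (L (nat_lit 328) ln12_11_3 ln12_11_3_ok) (L (nat_lit 330) ln13_11_3 ln13_11_3_ok))) (M (nat_lit 393) (B (L (nat_lit 392) ln12_11_1 ln12_11_1_ok) (L (nat_lit 394) ln13_11_1 ln13_11_1_ok))))) (B (M (nat_lit 393) (B (L (nat_lit 394) ln13_11_1 ln13_11_1_ok) (M (nat_lit 361) (B (L (nat_lit 392) ln12_11_1 ln12_11_1_ok) (M (nat_lit 333) (B (L (nat_lit 332) ln9_11_2 ln9_11_2_ok) (L (nat_lit 334) ln10_11_2 ln10_11_2_ok))))))) (B (M (nat_lit 361) (B (M (nat_lit 329) (B (L (nat_lit 328) ln12_11_3 ln12_11_3_ok) (L (nat_lit 330) ln13_11_3 ln13_11_3_ok))) (M (nat_lit 333) (B (L (nat_lit 332) ln9_11_2 ln9_11_2_ok) (L (nat_lit 334) ln10_11_2 ln10_11_2_ok))))) (M (nat_lit 394) (B (L (nat_lit 393) ln13_11_1 ln13_11_1_ok) (M (nat_lit 330) (B (L (nat_lit 329) ln13_11_3 ln13_11_3_ok) (M (nat_lit 298) (B (M (nat_lit 395) (B (L (nat_lit 266) ln10_8_4 ln10_8_4_ok) (L (nat_lit 427) ln10_9_4 ln10_9_4_ok))) (B (M (nat_lit 426) (B (M (nat_lit 427) (B (L (nat_lit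 395) ln10_9_4 ln10_9_4_ok) (L (nat_lit 459) ln10_10_4 ln10_10_4_ok))) (B (M (nat_lit 458) (B (M (nat_lit 457) (B (L (nat_lit 425) ln10_10_5 ln10_10_5_ok) (L (nat_lit 489) ln10_11_5 ln10_11_5_ok))) (M (nat_lit 459) (B (L (nat_lit 427) ln10_10_4 ln10_10_4_ok) (L (nat_lit 491) ln10_11_4 ln10_11_4_ok))))) (B (M (nat_lit 458) (B (M (nat_lit 457) (B (L (nat_lit 425) ln10_10_5 ln10_10_5_ok) (L (nat_lit 489) ln10_11_5 ln10_11_5_ok))) (M (nat_lit 490) (B (L (nat_lit 395) ln10_15_6 ln10_15_6_ok) (M (nat_lit 491) (B (L (nat_lit 459) ln10_11_4 ln10_11_4_ok) (L (nat_lit 523) ln10_12_4 ln10_12_4_ok))))))) (M (nat_lit 458) (B (M (nat_lit 457) (B (L (nat_lit 425) ln10_10_5 ln10_10_5_ok) (L (nat_lit 489) ln10_11_5 ln10_11_5_ok))) (M (nat_lit 395) (B (L (nat_lit 427) ln10_9_4 ln10_9_4_ok) (L (nat_lit 490) ln10_15_6 ln10_15_6_ok))))))))) (M (nat_lit 266) (B (M (nat_lit 265) (B (L (nat_lit 233) ln10_11_7_c10 ln10_11_7_c10_ok) (L (nat_lit 297) ln10_12_7_c10 ln10_12_7_c10_ok))) (M (nat_lit 267) (B (L (nat_lit 235) ln10_11_6_c10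 ln10_11_6_c10_ok) (L (nat_lit 299) ln10_12_6_c10 ln10_12_6_c10_ok)))))))))))))))) (nat_lit 5954262831509113917970671779033862168167677465089648269778033016598694956424787681501984599132935639058289333405543081762115182783130238976) (nat_lit 27459190651710785666865109342079193932125457722187829790530725860667425186997309106495203256817714207976975708281101976130750023171960336447294857510930874368) (nat_lit 27459190651710785666865109342079193932125457722187829790530725860667425186997309106495203256817714207976975708281101976130750023171960336447294857510930874368) (by decide +kernel)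
theorem c10_s118 : Sem (nat_lit 5954262831509113917970671779033862168180800969438346341324268029961400684616906698087343873751490262696749051400739337301456261845268561920) (nat_lit 346583711845797166151608921997050829907962857726253724055998314385987218162058232334146819903037698851544529139329190556843638784) (nat_lit 346583711845797166151608921997050829907962857726253724055998314385987218162058232334146819903037698851544529139329190556843638784) :=
  sem_of_chk (M (nat_lit 298) (B (M (nat_lit 333) (B (M (nat_lit 334) (B (L (nat_lit 299) ln14_10_3 ln14_10_3_ok) (L (nat_lit 362) ln14_10_1 ln14_10_1_ok))) (B (M (nat_lit 330) (B (L (nat_lit 297) ln13_10_3 ln13_10_3_ok) (M (nat_lit 362) (B (L (nat_lit 334) ln14_10_1 ln14_10_1_ok) (L (nat_lit 361) ln13_10_1 ln13_10_1_ok))))) (M (nat_lit 297) (B (L (nat_lit 330) ln13_10_3 ln13_10_3_ok) (M (nat_lit 299) (B (L (nat_lit 300) ln9_9_0 ln9_9_0_ok) (L (nat_lit 296) ln8_9_0 ln8_9_0_ok)))))))) (B (M (nat_lit 330) (B (M (nat_lit 266) (B (L (nat_lit 234) ln10_7_4 ln10_7_4_ok)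 (M (nat_lit 395) (B (L (nat_lit 299) ln11_12_7 ln11_12_7_ok) (L (nat_lit 427) ln11_13_7 ln11_13_7_ok))))) (B (M (nat_lit 297) (B (L (nat_lit 333) ln13_10_3 ln13_10_3_ok) (M (nat_lit 296) (B (L (nat_lit 299) ln8_9_0 ln8_9_0_ok) (L (nat_lit 295) ln7_9_0_c10 ln7_9_0_c10_ok))))) (M (nat_lit 395) (B (L (nat_lit 427) ln11_13_7 ln11_13_7_ok) (M (nat_lit 266) (B (L (nat_lit 234) ln10_7_4 ln10_7_4_ok) (L (nat_lit 362) ln10_8_4 ln10_8_4_ok)))))))) (B (M (nat_lit 330) (B (M (nat_lit 297) (B (L (nat_lit 333) ln13_10_3 ln13_10_3_ok) (M (nat_lit 296) (B (L (nat_lit 295) ln7_9_0_c10 ln7_9_0_c10_ok) (L (nat_lit 329) ln9_10_0 ln9_10_0_ok))))) (M (nat_lit 395) (B (L (nat_lit 427) ln11_13_7 ln11_13_7_ok) (M (nat_lit 266) (B (L (nat_lit 234) ln10_7_4 ln10_7_4_ok) (L (nat_lit 362) ln10_8_4 ln10_8_4_ok))))))) (B (M (nat_lit 395) (B (M (nat_lit 427) (B (L (nat_lit 300) ln11_13_6 ln11_13_6_ok) (L (nat_lit 330) ln11_13_7 ln11_13_7_ok))) (B (M (nat_lit 266) (B (L (nat_lit 299) ln11_12_7 ln11_12_7_ok) (M (nat_lit 330) (B (L (nat_lit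 234) ln10_7_4 ln10_7_4_ok) (L (nat_lit 427) ln11_13_7 ln11_13_7_ok))))) (B (M (nat_lit 300) (B (L (nat_lit 427) ln11_13_6 ln11_13_6_ok) (M (nat_lit 299) (B (L (nat_lit 268) ln12_8_5 ln12_8_5_ok) (L (nat_lit 266) ln11_12_7 ln11_12_7_ok))))) (M (nat_lit 266) (B (L (nat_lit 299) ln11_12_7 ln11_12_7_ok) (M (nat_lit 330) (B (L (nat_lit 234) ln10_7_4 ln10_7_4_ok) (L (nat_lit 362) ln10_8_4 ln10_8_4_ok))))))))) (M (nat_lit 299) (B (M (nat_lit 266) (B (L (nat_lit 395) ln11_12_7 ln11_12_7_ok) (M (nat_lit 234) (B (L (nat_lit 202) ln10_6_4_c10 ln10_6_4_c10_ok) (L (nat_lit 267) ln11_11_7 ln11_11_7_ok))))) (M (nat_lit 297) (B (L (nat_lit 296) ln8_9_0 ln8_9_0_ok) (M (nat_lit 333) (B (L (nat_lit 300) ln9_9_0 ln9_9_0_ok) (L (nat_lit 334) ln14_10_3 ln14_10_3_ok)))))))))))) (nat_lit 5954262831509113917970671779033862168180800969438346341324268029961400684616906698087343873751490262696749051400739337301456261845268561920) (nat_lit 346583711845797166151608921997050829907962857726253724055998314385987218162058232334146819903037698851544529139329190556843638784)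 (nat_lit 346583711845797166151608921997050829907962857726253724055998314385987218162058232334146819903037698851544529139329190556843638784) (by decide +kernel)
theorem c10_s122 : Sem (nat_lit 5954262831509113917970671779033862168167677465089648269778033016598694956424787681501984599132935639058289333405543081762115182783130238976) (nat_lit 173291856033854632531896942250182455330308712881765376795388918307362893135562190597085936158410440960725335734577451510106423296) (nat_lit 173291856033854632531896942250182455330308712881765376795388918307362893135562190597085936158410440960725335734577451510106423296) :=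
  sem_of_chk (M (nat_lit 362) (B (M (nat_lit 329) (B (L (nat_lit 330) ln13_11_3 ln13_11_3_ok) (M (nat_lit 361) (B (L (nat_lit 328) ln12_11_3 ln12_11_3_ok) (M (nat_lit 393) (B (L (nat_lit 392) ln12_11_1 ln12_11_1_ok) (L (nat_lit 394) ln13_11_1 ln13_11_1_ok))))))) (B (M (nat_lit 361) (B (M (nat_lit 329) (B (L (nat_lit 328) ln12_11_3 ln12_11_3_ok) (L (nat_lit 330) ln13_11_3 ln13_11_3_ok))) (M (nat_lit 333) (B (L (nat_lit 332) ln9_11_2 ln9_11_2_ok) (L (nat_lit 334) ln10_11_2 ln10_11_2_ok))))) (B (M (nat_lit 330) (B (L (nat_lit 329) ln13_11_3 ln13_11_3_ok) (M (nat_lit 298) (B (M (nat_lit 266) (B (L (nat_lit 395) ln10_8_4 ln10_8_4_ok) (M (nat_lit 234) (B (L (nat_lit 331) ln10_7_4 ln10_7_4_ok) (M (nat_lit 233) (B (L (nat_lit 265) ln10_11_7_c10 ln10_11_7_c10_ok) (L (nat_lit 201) ln10_10_7_c10 ln10_10_7_c10_ok))))))) (B (M (nat_lit 266) (B (M (nat_lit 394) (B (L (nat_lit 393) ln13_11_1 ln13_11_1_ok) (M (nat_lit 265) (B (L (nat_lit 297) ln10_12_7_c10 ln10_12_7_c10_ok) (L (nat_lit 233) ln10_11_7_c10 ln10_11_7_c10_ok)))))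 (B (M (nat_lit 234) (B (L (nat_lit 331) ln10_7_4 ln10_7_4_ok) (M (nat_lit 233) (B (L (nat_lit 265) ln10_11_7_c10 ln10_11_7_c10_ok) (L (nat_lit 201) ln10_10_7_c10 ln10_10_7_c10_ok))))) (M (nat_lit 394) (B (L (nat_lit 393) ln13_11_1 ln13_11_1_ok) (M (nat_lit 267) (B (L (nat_lit 299) ln10_12_6_c10 ln10_12_6_c10_ok) (L (nat_lit 235) ln10_11_6_c10 ln10_11_6_c10_ok)))))))) (B (M (nat_lit 266) (B (L (nat_lit 395) ln10_8_4 ln10_8_4_ok) (M (nat_lit 394) (B (L (nat_lit 393) ln13_11_1 ln13_11_1_ok) (M (nat_lit 267) (B (L (nat_lit 299) ln10_12_6_c10 ln10_12_6_c10_ok) (L (nat_lit 235) ln10_11_6_c10 ln10_11_6_c10_ok))))))) (M (nat_lit 394) (B (L (nat_lit 393) ln13_11_1 ln13_11_1_ok) (M (nat_lit 331) (B (M (nat_lit 299) (B (L (nat_lit 426) ln10_13_6 ln10_13_6_ok) (L (nat_lit 267) ln11_8_5 ln11_8_5_ok))) (M (nat_lit 333) (B (L (nat_lit 334) ln10_11_2 ln10_11_2_ok) (M (nat_lit 297) (B (L (nat_lit 265) ln10_12_7_c10 ln10_12_7_c10_ok) (L (nat_lit 332) ln13_10_3 ln13_10_3_ok))))))))))))))) (M (nat_lit 361) (B (M (nat_lit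 393) (B (L (nat_lit 392) ln12_11_1 ln12_11_1_ok) (L (nat_lit 394) ln13_11_1 ln13_11_1_ok))) (M (nat_lit 333) (B (L (nat_lit 332) ln9_11_2 ln9_11_2_ok) (L (nat_lit 334) ln10_11_2 ln10_11_2_ok))))))))) (nat_lit 5954262831509113917970671779033862168167677465089648269778033016598694956424787681501984599132935639058289333405543081762115182783130238976) (nat_lit 173291856033854632531896942250182455330308712881765376795388918307362893135562190597085936158410440960725335734577451510106423296) (nat_lit 173291856033854632531896942250182455330308712881765376795388918307362893135562190597085936158410440960725335734577451510106423296) (by decide +kernel)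
theorem c10_s126 : Sem (nat_lit 5954262831162530206286265230276776288576539476285187756428859250728298243623918122918176634440965125627448303433373487624311710428656828416) (nat_lit 1266331655955072354700736160289015961600727382000271609882746017403875412518505149796807411527624753826049720661988022512015252939777021107210519304712998218057459852764961046528) (nat_lit 1266331655955072354700736160289015961600727382000271609882746017403875412518505149796807411527624753826049720661988022512015252939777021107210519304712998218057459852764961046528) :=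
  sem_of_chk (M (nat_lit 459) (B (M (nat_lit 491) (B (M (nat_lit 490) (B (L (nat_lit 522) ln11_12_5 ln11_12_5_ok) (L (nat_lit 458) ln11_11_5 ln11_11_5_ok))) (B (M (nat_lit 523) (B (L (nat_lit 396) ln11_15_6 ln11_15_6_ok) (M (nat_lit 555) (B (M (nat_lit 556) (B (L (nat_lit 588) ln11_14_4 ln11_14_4_ok) (L (nat_lit 524) ln11_13_4 ln11_13_4_ok))) (M (nat_lit 458) (B (L (nat_lit 426) ln11_17_7 ln11_17_7_ok) (L (nat_lit 490) ln11_11_5 ln11_11_5_ok))))))) (M (nat_lit 523) (B (L (nat_lit 396) ln11_15_6 ln11_15_6_ok) (M (nat_lit 555) (B (M (nat_lit 554) (B (L (nat_lit 586) ln11_14_5 ln11_14_5_ok) (L (nat_lit 522) ln11_13_5 ln11_13_5_ok))) (M (nat_lit 556) (B (L (nat_lit 588) ln11_14_4 ln11_14_4_ok) (L (nat_lit 524) ln11_13_4 ln11_13_4_ok)))))))))) (B (M (nat_lit 458) (B (L (nat_lit 490) ln11_11_5 ln11_11_5_ok) (M (nat_lit 460) (B (L (nat_lit 492) ln11_11_4 ln11_11_4_ok) (M (nat_lit 457) (B (L (nat_lit 428) ln9_14_2 ln9_14_2_ok) (M (nat_lit 424) (B (L (nat_lit 425) ln12_14_3 ln12_14_3_ok) (M (nat_lit 456) (B (L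 (nat_lit 423) ln11_14_3 ln11_14_3_ok) (M (nat_lit 488) (B (L (nat_lit 487) ln11_14_1 ln11_14_1_ok) (L (nat_lit 489) ln12_14_1 ln12_14_1_ok))))))))))))) (M (nat_lit 492) (B (M (nat_lit 491) (B (L (nat_lit 396) ln11_15_6 ln11_15_6_ok) (L (nat_lit 524) ln11_12_4 ln11_12_4_ok))) (L (nat_lit 460) ln11_11_4 ln11_11_4_ok)))))) (nat_lit 5954262831162530206286265230276776288576539476285187756428859250728298243623918122918176634440965125627448303433373487624311710428656828416) (nat_lit 1266331655955072354700736160289015961600727382000271609882746017403875412518505149796807411527624753826049720661988022512015252939777021107210519304712998218057459852764961046528) (nat_lit 1266331655955072354700736160289015961600727382000271609882746017403875412518505149796807411527624753826049720661988022512015252939777021107210519304712998218057459852764961046528) (by decide +kernel)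
theorem c10_s128 : Sem (nat_lit 5954262830815946494440468064139258622131906539230539000934078872806075061271132354550578193372942037532254438881195279021764289825886699520) (nat_lit 27459190651710785666865109342079193932125457722187829790530725860667425186997309106495203256817714207976975708281101976130750023171960336447294857510930874368) (nat_lit 27459190651710785666865109342079193932125457722187829790530725860667425186997309106495203256817714207976975708281101976130750023171960336447294857510930874368) :=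
  sem_of_chk (M (nat_lit 362) (B (M (nat_lit 361) (B (M (nat_lit 329) (B (L (nat_lit 328) ln12_11_3 ln12_11_3_ok) (L (nat_lit 330) ln13_11_3 ln13_11_3_ok))) (M (nat_lit 393) (B (L (nat_lit 392) ln12_11_1 ln12_11_1_ok) (L (nat_lit 394) ln13_11_1 ln13_11_1_ok))))) (B (M (nat_lit 393) (B (L (nat_lit 394) ln13_11_1 ln13_11_1_ok) (M (nat_lit 361) (B (L (nat_lit 392) ln12_11_1 ln12_11_1_ok) (M (nat_lit 333) (B (L (nat_lit 332) ln9_11_2 ln9_11_2_ok) (L (nat_lit 334) ln10_11_2 ln10_11_2_ok))))))) (B (M (nat_lit 361) (B (M (nat_lit 329) (B (L (nat_lit 328) ln12_11_3 ln12_11_3_ok) (L (nat_lit 330) ln13_11_3 ln13_11_3_ok))) (M (nat_lit 333) (B (L (nat_lit 332) ln9_11_2 ln9_11_2_ok) (L (nat_lit 334) ln10_11_2 ln10_11_2_ok))))) (M (nat_lit 394) (B (L (nat_lit 393) ln13_11_1 ln13_11_1_ok) (M (nat_lit 330) (B (L (nat_lit 329) ln13_11_3 ln13_11_3_ok) (M (nat_lit 298) (B (M (nat_lit 395) (B (L (nat_lit 266) ln10_8_4 ln10_8_4_ok) (L (nat_lit 427) ln10_9_4 ln10_9_4_ok))) (B (M (nat_lit 426) (B (M (nat_lit 427) (B (L (nat_lit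 395) ln10_9_4 ln10_9_4_ok) (L (nat_lit 459) ln10_10_4 ln10_10_4_ok))) (B (M (nat_lit 458) (B (M (nat_lit 457) (B (L (nat_lit 425) ln10_10_5 ln10_10_5_ok) (L (nat_lit 489) ln10_11_5 ln10_11_5_ok))) (M (nat_lit 459) (B (L (nat_lit 427) ln10_10_4 ln10_10_4_ok) (L (nat_lit 491) ln10_11_4 ln10_11_4_ok))))) (B (M (nat_lit 458) (B (M (nat_lit 457) (B (L (nat_lit 425) ln10_10_5 ln10_10_5_ok) (L (nat_lit 489) ln10_11_5 ln10_11_5_ok))) (M (nat_lit 490) (B (L (nat_lit 395) ln10_15_6 ln10_15_6_ok) (M (nat_lit 491) (B (L (nat_lit 459) ln10_11_4 ln10_11_4_ok) (L (nat_lit 523) ln10_12_4 ln10_12_4_ok))))))) (M (nat_lit 458) (B (M (nat_lit 457) (B (L (nat_lit 425) ln10_10_5 ln10_10_5_ok) (L (nat_lit 489) ln10_11_5 ln10_11_5_ok))) (M (nat_lit 395) (B (L (nat_lit 427) ln10_9_4 ln10_9_4_ok) (L (nat_lit 490) ln10_15_6 ln10_15_6_ok))))))))) (M (nat_lit 266) (B (M (nat_lit 265) (B (L (nat_lit 233) ln10_11_7_c10 ln10_11_7_c10_ok) (L (nat_lit 297) ln10_12_7_c10 ln10_12_7_c10_ok))) (M (nat_lit 267) (B (L (nat_lit 235) ln10_11_6_c10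 ln10_11_6_c10_ok) (L (nat_lit 299) ln10_12_6_c10 ln10_12_6_c10_ok)))))))))))))))) (nat_lit 5954262830815946494440468064139258622131906539230539000934078872806075061271132354550578193372942037532254438881195279021764289825886699520) (nat_lit 27459190651710785666865109342079193932125457722187829790530725860667425186997309106495203256817714207976975708281101976130750023171960336447294857510930874368) (nat_lit 27459190651710785666865109342079193932125457722187829790530725860667425186997309106495203256817714207976975708281101976130750023171960336447294857510930874368) (by decide +kernel)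
theorem c10_s131 : Sem (nat_lit 5954262830815946494440468064139258622131906539230539000934078872806075061271132354550578193372942037532254438881195279021764289825886699520) (nat_lit 744282854545160735647956544229858558388311722617879492226777641007293024585298587663140550842391074989692057281377201539001768657933041664) (nat_lit 744282854545160735647956544229858558388311722617879492226777641007293024585298587663140550842391074989692057281377201539001768657933041664) :=
  sem_of_chk (M (nat_lit 394) (B (M (nat_lit 393) (B (L (nat_lit 362) ln13_11_1 ln13_11_1_ok) (M (nat_lit 395) (B (L (nat_lit 396) ln9_12_2 ln9_12_2_ok) (L (nat_lit 366) ln14_11_1 ln14_11_1_ok))))) (B (M (nat_lit 331) (B (M (nat_lit 366) (B (L (nat_lit 395) ln14_11_1 ln14_11_1_ok) (L (nat_lit 330) ln14_11_3 ln14_11_3_ok))) (B (M (nat_lit 330) (B (L (nat_lit 366) ln14_11_3 ln14_11_3_ok) (M (nat_lit 329) (B (L (nat_lit 362) ln13_11_3 ln13_11_3_ok) (L (nat_lit 328) ln8_10_0 ln8_10_0_ok))))) (B (M (nat_lit 299) (B (M (nat_lit 267) (B (L (nat_lit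 362) ln11_8_5 ln11_8_5_ok) (L (nat_lit 396) ln11_8_4 ln11_8_4_ok))) (B (M (nat_lit 426) (B (L (nat_lit 395) ln11_9_5 ln11_9_5_ok) (M (nat_lit 362) (B (L (nat_lit 458) ln10_14_6 ln10_14_6_ok) (L (nat_lit 267) ln11_8_5 ln11_8_5_ok))))) (B (M (nat_lit 395) (B (L (nat_lit 426) ln11_9_5 ln11_9_5_ok) (M (nat_lit 396) (B (L (nat_lit 428) ln11_9_4 ln11_9_4_ok) (L (nat_lit 267) ln11_8_4 ln11_8_4_ok))))) (M (nat_lit 426) (B (L (nat_lit 395) ln11_9_5 ln11_9_5_ok) (M (nat_lit 362) (B (L (nat_lit 458) ln10_14_6 ln10_14_6_ok) (L (nat_lit 330) ln10_13_6 ln10_13_6_ok))))))))) (M (nat_lit 299) (B (M (nat_lit 395) (B (L (nat_lit 426) ln11_9_5 ln11_9_5_ok) (L (nat_lit 366) ln14_11_1 ln14_11_1_ok))) (M (nat_lit 267) (B (L (nat_lit 362) ln11_8_5 ln11_8_5_ok) (L (nat_lit 396) ln11_8_4 ln11_8_4_ok))))))))) (B (M (nat_lit 362) (B (L (nat_lit 393) ln13_11_1 ln13_11_1_ok) (M (nat_lit 330) (B (L (nat_lit 329) ln13_11_3 ln13_11_3_ok) (M (nat_lit 331) (B (L (nat_lit 366) ln14_11_3 ln14_11_3_ok) (M (nat_lit 299) (B (L (nat_lit 426)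 ln10_13_6 ln10_13_6_ok) (L (nat_lit 267) ln11_8_5 ln11_8_5_ok))))))))) (B (M (nat_lit 395) (B (L (nat_lit 366) ln14_11_1 ln14_11_1_ok) (M (nat_lit 393) (B (L (nat_lit 392) ln8_12_2 ln8_12_2_ok) (L (nat_lit 396) ln9_12_2 ln9_12_2_ok))))) (M (nat_lit 393) (B (L (nat_lit 362) ln13_11_1 ln13_11_1_ok) (M (nat_lit 395) (B (L (nat_lit 392) ln8_12_2 ln8_12_2_ok) (L (nat_lit 396) ln9_12_2 ln9_12_2_ok)))))))))) (nat_lit 5954262830815946494440468064139258622131906539230539000934078872806075061271132354550578193372942037532254438881195279021764289825886699520) (nat_lit 744282854545160735647956544229858558388311722617879492226777641007293024585298587663140550842391074989692057281377201539001768657933041664) (nat_lit 744282854545160735647956544229858558388311722617879492226777641007293024585298587663140550842391074989692057281377201539001768657933041664) (by decide +kernel)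
theorem c10_s143 : Sem (nat_lit 5954262830815946494440468064101681940815180585121047853120753238162975815267335329627387781355916890252855539282973910778890286696956428288) (nat_lit 86645927961449291542599315660162466142589860942226139113887520168938785692029141803274429166168247497863550854841634160872783872) (nat_lit 86645927961449291542599315660162466142589860942226139113887520168938785692029141803274429166168247497863550854841634160872783872) :=
  sem_of_chk (M (nat_lit 296) (B (M (nat_lit 297) (B (L (nat_lit 332) ln12_10_3 ln12_10_3_ok) (M (nat_lit 295) (B (L (nat_lit 294) ln6_9_0_c10 ln6_9_0_c10_ok) (L (nat_lit 328) ln11_10_3_c10 ln11_10_3_c10_ok))))) (B (M (nat_lit 328) (B (L (nat_lit 295) ln11_10_3_c10 ln11_10_3_c10_ok) (M (nat_lit 360) (B (L (nat_lit 359) ln11_10_1_c10 ln11_10_1_c10_ok) (M (nat_lit 361) (B (L (nat_lit 332) ln12_10_1 ln12_10_1_ok) (M (nat_lit 264) (B (L (nat_lit 232) ln8_7_4_c10 ln8_7_4_c10_ok) (L (nat_lit 393) ln8_8_4_c10 ln8_8_4_c10_ok))))))))) (B (M (nat_lit 361) (B (M (nat_lit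 332) (B (L (nat_lit 297) ln12_10_3 ln12_10_3_ok) (L (nat_lit 360) ln12_10_1 ln12_10_1_ok))) (B (M (nat_lit 360) (B (L (nat_lit 332) ln12_10_1 ln12_10_1_ok) (M (nat_lit 328) (B (L (nat_lit 359) ln11_10_1_c10 ln11_10_1_c10_ok) (M (nat_lit 393) (B (L (nat_lit 264) ln8_8_4_c10 ln8_8_4_c10_ok) (L (nat_lit 425) ln9_13_7_c10 ln9_13_7_c10_ok))))))) (B (M (nat_lit 393) (B (M (nat_lit 425) (B (L (nat_lit 298) ln9_13_6_c10 ln9_13_6_c10_ok) (L (nat_lit 328) ln9_13_7_c10 ln9_13_7_c10_ok))) (B (M (nat_lit 328) (B (L (nat_lit 425) ln9_13_7_c10 ln9_13_7_c10_ok) (M (nat_lit 264) (B (L (nat_lit 297) ln9_12_7_c10 ln9_12_7_c10_ok) (L (nat_lit 360) ln8_8_4_c10 ln8_8_4_c10_ok))))) (B (M (nat_lit 298) (B (L (nat_lit 425) ln9_13_6_c10 ln9_13_6_c10_ok) (M (nat_lit 297) (B (L (nat_lit 266) ln9_12_6_c10 ln9_12_6_c10_ok) (L (nat_lit 264) ln9_12_7_c10 ln9_12_7_c10_ok))))) (M (nat_lit 264) (B (L (nat_lit 297) ln9_12_7_c10 ln9_12_7_c10_ok) (M (nat_lit 328) (B (L (nat_lit 232) ln8_7_4_c10 ln8_7_4_c10_ok) (L (nat_lit 360) ln8_8_4_c10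 ln8_8_4_c10_ok))))))))) (M (nat_lit 393) (B (M (nat_lit 297) (B (L (nat_lit 264) ln9_12_7_c10 ln9_12_7_c10_ok) (L (nat_lit 332) ln12_10_3 ln12_10_3_ok))) (M (nat_lit 425) (B (L (nat_lit 298) ln9_13_6_c10 ln9_13_6_c10_ok) (L (nat_lit 328) ln9_13_7_c10 ln9_13_7_c10_ok))))))))) (B (M (nat_lit 295) (B (L (nat_lit 328) ln11_10_3_c10 ln11_10_3_c10_ok) (M (nat_lit 297) (B (L (nat_lit 298) ln7_9_0_c10 ln7_9_0_c10_ok) (L (nat_lit 294) ln6_9_0_c10 ln6_9_0_c10_ok))))) (M (nat_lit 297) (B (L (nat_lit 332) ln12_10_3 ln12_10_3_ok) (M (nat_lit 295) (B (L (nat_lit 298) ln7_9_0_c10 ln7_9_0_c10_ok) (L (nat_lit 294) ln6_9_0_c10 ln6_9_0_c10_ok)))))))))) (nat_lit 5954262830815946494440468064101681940815180585121047853120753238162975815267335329627387781355916890252855539282973910778890286696956428288) (nat_lit 86645927961449291542599315660162466142589860942226139113887520168938785692029141803274429166168247497863550854841634160872783872) (nat_lit 86645927961449291542599315660162466142589860942226139113887520168938785692029141803274429166168247497863550854841634160872783872)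 (by decide +kernel)
theorem c10_s145 : Sem (nat_lit 5954262830815946494440468064101681940815180585121047853120753238162975815267335329627387781355916890252855539282973910778890286696956428288) (nat_lit 433229639807246457680704117768260273644091476459868032156595471889662762253037571020149317780322651846602214251217421667288481792) (nat_lit 433229639807246457680704117768260273644091476459868032156595471889662762253037571020149317780322651846602214251217421667288481792) :=
  sem_of_chk (M (nat_lit 298) (B (M (nat_lit 266) (B (L (nat_lit 234) ln10_7_4 ln10_7_4_ok) (M (nat_lit 395) (B (L (nat_lit 299) ln11_12_7 ln11_12_7_ok) (L (nat_lit 427) ln11_13_7 ln11_13_7_ok))))) (B (M (nat_lit 328) (B (M (nat_lit 327) (B (L (nat_lit 299) ln7_10_2_c10 ln7_10_2_c10_ok) (M (nat_lit 295) (B (L (nat_lit 296) ln11_10_3_c10 ln11_10_3_c10_ok) (L (nat_lit 294) ln10_10_3_c10 ln10_10_3_c10_ok))))) (B (M (nat_lit 327) (B (M (nat_lit 295) (B (L (nat_lit 296) ln11_10_3_c10 ln11_10_3_c10_ok) (L (nat_lit 294) ln10_10_3_c10 ln10_10_3_c10_ok)))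 (M (nat_lit 359) (B (L (nat_lit 360) ln11_10_1_c10 ln11_10_1_c10_ok) (L (nat_lit 358) ln10_10_1_c10 ln10_10_1_c10_ok))))) (B (M (nat_lit 327) (B (L (nat_lit 299) ln7_10_2_c10 ln7_10_2_c10_ok) (M (nat_lit 359) (B (L (nat_lit 360) ln11_10_1_c10 ln11_10_1_c10_ok) (L (nat_lit 358) ln10_10_1_c10 ln10_10_1_c10_ok))))) (M (nat_lit 332) (B (M (nat_lit 297) (B (L (nat_lit 333) ln13_10_3 ln13_10_3_ok) (L (nat_lit 296) ln12_10_3 ln12_10_3_ok))) (M (nat_lit 360) (B (L (nat_lit 361) ln12_10_1 ln12_10_1_ok) (L (nat_lit 359) ln11_10_1_c10 ln11_10_1_c10_ok))))))))) (M (nat_lit 361) (B (M (nat_lit 266) (B (L (nat_lit 234) ln10_7_4 ln10_7_4_ok) (M (nat_lit 393) (B (L (nat_lit 297) ln9_12_6_c10 ln9_12_6_c10_ok) (L (nat_lit 425) ln9_13_6_c10 ln9_13_6_c10_ok))))) (M (nat_lit 360) (B (L (nat_lit 332) ln12_10_1 ln12_10_1_ok) (M (nat_lit 359) (B (L (nat_lit 328) ln11_10_1_c10 ln11_10_1_c10_ok) (L (nat_lit 358) ln6_11_2_c10 ln6_11_2_c10_ok)))))))))) (nat_lit 5954262830815946494440468064101681940815180585121047853120753238162975815267335329627387781355916890252855539282973910778890286696956428288)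 (nat_lit 433229639807246457680704117768260273644091476459868032156595471889662762253037571020149317780322651846602214251217421667288481792) (nat_lit 433229639807246457680704117768260273644091476459868032156595471889662762253037571020149317780322651846602214251217421667288481792) (by decide +kernel)
theorem c10_s158 : Sem (nat_lit 5954262830815946494440468064101681940811899709034891853222361727865433606063510264561573696898111202468558680008852037543936685284513546240) (nat_lit 3196670520733556021898708746185697779210955737845086192699447132978210863880408746608475937202218706332490057115618476802253256805441543159744036864) (nat_lit 3196670520733556021898708746185697779210955737845086192699447132978210863880408746608475937202218706332490057115618476802253256805441543159744036864) :=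
  sem_of_chk (M (nat_lit 395) (B (M (nat_lit 427) (B (M (nat_lit 300) (B (L (nat_lit 268) ln11_12_6 ln11_12_6_ok) (L (nat_lit 332) ln11_13_6 ln11_13_6_ok))) (M (nat_lit 428) (B (L (nat_lit 396) ln11_9_4 ln11_9_4_ok) (L (nat_lit 460) ln11_10_4 ln11_10_4_ok))))) (B (M (nat_lit 427) (B (M (nat_lit 428) (B (L (nat_lit 396) ln11_9_4 ln11_9_4_ok) (L (nat_lit 460) ln11_10_4 ln11_10_4_ok))) (M (nat_lit 459) (B (M (nat_lit 332) (B (L (nat_lit 300) ln11_13_6 ln11_13_6_ok) (L (nat_lit 364) ln11_14_6 ln11_14_6_ok))) (M (nat_lit 458) (B (L (nat_lit 426) ln11_10_5 ln11_10_5_ok) (L (nat_lit 490) ln11_11_5 ln11_11_5_ok))))))) (B (M (nat_lit 427) (B (M (nat_lit 428) (B (L (nat_lit 396) ln11_9_4 ln11_9_4_ok) (L (nat_lit 460) ln11_10_4 ln11_10_4_ok))) (M (nat_lit 459) (B (M (nat_lit 330) (B (L (nat_lit 298) ln11_13_7 ln11_13_7_ok) (L (nat_lit 362) ln11_14_7 ln11_14_7_ok))) (M (nat_lit 458) (B (L (nat_lit 426) ln11_10_5 ln11_10_5_ok) (L (nat_lit 490) ln11_11_5 ln11_11_5_ok))))))) (B (M (nat_lit 427) (B (M (nat_lit 300)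 (B (L (nat_lit 268) ln11_12_6 ln11_12_6_ok) (L (nat_lit 332) ln11_13_6 ln11_13_6_ok))) (M (nat_lit 459) (B (M (nat_lit 330) (B (L (nat_lit 298) ln11_13_7 ln11_13_7_ok) (L (nat_lit 362) ln11_14_7 ln11_14_7_ok))) (M (nat_lit 458) (B (L (nat_lit 426) ln11_10_5 ln11_10_5_ok) (L (nat_lit 490) ln11_11_5 ln11_11_5_ok))))))) (M (nat_lit 396) (B (L (nat_lit 428) ln11_9_4 ln11_9_4_ok) (M (nat_lit 268) (B (L (nat_lit 300) ln11_12_6 ln11_12_6_ok) (M (nat_lit 267) (B (L (nat_lit 236) ln11_11_6 ln11_11_6_ok) (L (nat_lit 364) ln11_8_4 ln11_8_4_ok)))))))))))) (nat_lit 5954262830815946494440468064101681940811899709034891853222361727865433606063510264561573696898111202468558680008852037543936685284513546240) (nat_lit 3196670520733556021898708746185697779210955737845086192699447132978210863880408746608475937202218706332490057115618476802253256805441543159744036864) (nat_lit 3196670520733556021898708746185697779210955737845086192699447132978210863880408746608475937202218706332490057115618476802253256805441543159744036864)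 (by decide +kernel)
theorem c10_s173 : Sem (nat_lit 20839919904649913397037227277475566367178313602335007801283750091394436700446175314548354283586149593514889033341045482096437963662708178944) (nat_lit 633165827977536177515123223980649897206942381509220890934654698382347800410367055854896227656410230174679819115563063848434860845431545353662402164716430642226354742083442442240) (nat_lit 633165827977536177515123223980649897206942381509220890934654698382347800410367055854896227656410230174679819115563063848434860845431545353662402164716430642226354742083442442240) :=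
  sem_of_chk (M (nat_lit 458) (B (L (nat_lit 459) ln13_14_3 ln13_14_3_ok) (M (nat_lit 490) (B (M (nat_lit 393) (B (L (nat_lit 522) ln10_16_7 ln10_16_7_ok) (M (nat_lit 361) (B (L (nat_lit 329) ln9_10_4_c10 ln9_10_4_c10_ok) (L (nat_lit 394) ln10_15_7 ln10_15_7_ok))))) (B (M (nat_lit 393) (B (L (nat_lit 522) ln10_16_7 ln10_16_7_ok) (M (nat_lit 361) (B (L (nat_lit 394) ln10_15_7 ln10_15_7_ok) (L (nat_lit 457) ln9_11_4 ln9_11_4_ok))))) (B (M (nat_lit 522) (B (L (nat_lit 393) ln10_16_7 ln10_16_7_ok) (M (nat_lit 555) (B (L (nat_lit 523) ln10_13_4 ln10_13_4_ok) (M (nat_lit 553) (B (L (nat_lit 521) ln10_13_5 ln10_13_5_ok) (M (nat_lit 554) (B (L (nat_lit 587) ln10_14_4 ln10_14_4_ok) (L (nat_lit 585) ln10_14_5 ln10_14_5_ok))))))))) (B (M (nat_lit 394) (B (M (nat_lit 489) (B (L (nat_lit 521) ln10_12_5 ln10_12_5_ok) (M (nat_lit 362) (B (L (nat_lit 457) ln10_11_5 ln10_11_5_ok) (M (nat_lit 363) (B (L (nat_lit 395) ln10_15_6 ln10_15_6_ok) (L (nat_lit 331) ln10_14_6 ln10_14_6_ok))))))) (B (M (nat_lit 362) (B (M (nat_lit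 361) (B (L (nat_lit 393) ln10_15_7 ln10_15_7_ok) (L (nat_lit 329) ln10_14_7 ln10_14_7_ok))) (M (nat_lit 363) (B (L (nat_lit 395) ln10_15_6 ln10_15_6_ok) (L (nat_lit 331) ln10_14_6 ln10_14_6_ok))))) (B (M (nat_lit 362) (B (M (nat_lit 489) (B (L (nat_lit 521) ln10_12_5 ln10_12_5_ok) (L (nat_lit 457) ln10_11_5 ln10_11_5_ok))) (M (nat_lit 361) (B (L (nat_lit 393) ln10_15_7 ln10_15_7_ok) (L (nat_lit 329) ln10_14_7 ln10_14_7_ok))))) (M (nat_lit 393) (B (L (nat_lit 361) ln10_15_7 ln10_15_7_ok) (M (nat_lit 395) (B (L (nat_lit 363) ln10_15_6 ln10_15_6_ok) (M (nat_lit 424) (B (L (nat_lit 423) ln7_13_2 ln7_13_2_ok) (L (nat_lit 396) ln12_12_1 ln12_12_1_ok))))))))))) (M (nat_lit 522) (B (M (nat_lit 554) (B (L (nat_lit 457) ln10_17_7 ln10_17_7_ok) (M (nat_lit 553) (B (L (nat_lit 585) ln10_14_5 ln10_14_5_ok) (L (nat_lit 521) ln10_13_5 ln10_13_5_ok))))) (B (M (nat_lit 521) (B (L (nat_lit 553) ln10_13_5 ln10_13_5_ok) (M (nat_lit 489) (B (L (nat_lit 394) ln10_12_5 ln10_12_5_ok) (M (nat_lit 523) (B (L (nat_lit 555) ln10_13_4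 ln10_13_4_ok) (M (nat_lit 524) (B (L (nat_lit 525) ln13_16_3 ln13_16_3_ok) (L (nat_lit 488) ln12_16_3 ln12_16_3_ok))))))))) (M (nat_lit 554) (B (L (nat_lit 457) ln10_17_7 ln10_17_7_ok) (M (nat_lit 555) (B (L (nat_lit 587) ln10_14_4 ln10_14_4_ok) (L (nat_lit 523) ln10_13_4 ln10_13_4_ok))))))))))))))) (nat_lit 20839919904649913397037227277475566367178313602335007801283750091394436700446175314548354283586149593514889033341045482096437963662708178944) (nat_lit 633165827977536177515123223980649897206942381509220890934654698382347800410367055854896227656410230174679819115563063848434860845431545353662402164716430642226354742083442442240) (nat_lit 633165827977536177515123223980649897206942381509220890934654698382347800410367055854896227656410230174679819115563063848434860845431545353662402164716430642226354742083442442240) (by decide +kernel)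
theorem c10_s179 : Sem (nat_lit 21584202758328614853000082511097990957069816092741368555548397708368367948862273840480321538611056628315198064110864201916563382792483766272) (nat_lit 147420407267645042704038340629060075302283632165002133201457105781940370573681584568533157142600077009256824529516088705503700453263951353554897041406244124413954883584) (nat_lit 147420407267645042704038340629060075302283632165002133201457105781940370573681584568533157142600077009256824529516088705503700453263951353554897041406244124413954883584) :=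
  sem_of_chk (M (nat_lit 362) (B (M (nat_lit 329) (B (L (nat_lit 361) ln10_14_7 ln10_14_7_ok) (M (nat_lit 330) (B (L (nat_lit 297) ln10_13_7_c10 ln10_13_7_c10_ok) (M (nat_lit 331) (B (L (nat_lit 363) ln10_14_6 ln10_14_6_ok) (L (nat_lit 299) ln10_13_6 ln10_13_6_ok))))))) (B (M (nat_lit 490) (B (M (nat_lit 393) (B (L (nat_lit 522) ln10_16_7 ln10_16_7_ok) (L (nat_lit 361) ln10_15_7 ln10_15_7_ok))) (B (M (nat_lit 361) (B (L (nat_lit 393) ln10_15_7 ln10_15_7_ok) (L (nat_lit 329) ln10_14_7 ln10_14_7_ok))) (M (nat_lit 522) (B (M (nat_lit 523) (B (L (nat_lit 555) ln10_13_4 ln10_13_4_ok) (L (nat_lit 491) ln10_12_4 ln10_12_4_ok))) (M (nat_lit 521) (B (L (nat_lit 553) ln10_13_5 ln10_13_5_ok) (L (nat_lit 489) ln10_12_5 ln10_12_5_ok)))))))) (B (M (nat_lit 330) (B (M (nat_lit 331) (B (L (nat_lit 363) ln10_14_6 ln10_14_6_ok) (L (nat_lit 299) ln10_13_6 ln10_13_6_ok))) (M (nat_lit 298) (B (L (nat_lit 393) ln10_9_5_c10 ln10_9_5_c10_ok) (M (nat_lit 297) (B (L (nat_lit 329) ln10_13_7_c10 ln10_13_7_c10_ok) (L (nat_lit 265)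 ln10_12_7_c10 ln10_12_7_c10_ok))))))) (M (nat_lit 331) (B (L (nat_lit 363) ln10_14_6 ln10_14_6_ok) (M (nat_lit 393) (B (M (nat_lit 490) (B (L (nat_lit 522) ln10_16_7 ln10_16_7_ok) (L (nat_lit 361) ln10_15_7 ln10_15_7_ok))) (M (nat_lit 330) (B (L (nat_lit 299) ln10_13_6 ln10_13_6_ok) (L (nat_lit 298) ln10_9_5_c10 ln10_9_5_c10_ok))))))))))) (nat_lit 21584202758328614853000082511097990957069816092741368555548397708368367948862273840480321538611056628315198064110864201916563382792483766272) (nat_lit 147420407267645042704038340629060075302283632165002133201457105781940370573681584568533157142600077009256824529516088705503700453263951353554897041406244124413954883584) (nat_lit 147420407267645042704038340629060075302283632165002133201457105781940370573681584568533157142600077009256824529516088705503700453263951353554897041406244124413954883584) (by decide +kernel)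
theorem c10_s183 : Sem (nat_lit 20839919904649913397037227277475566367178313602335007801283750091394436700446175314548354283586149593514889033341045482096437963662708178944) (nat_lit 506532662423306655911390789381050076151555769670017829474021363880975210119572578872006294701128963846275959467018177706450826948685784372300995671177246430584875619987700580352) (nat_lit 506532662423306655911390789381050076151555769670017829474021363880975210119572578872006294701128963846275959467018177706450826948685784372300995671177246430584875619987700580352) :=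
  sem_of_chk (M (nat_lit 458) (B (L (nat_lit 459) ln13_14_3 ln13_14_3_ok) (M (nat_lit 490) (B (M (nat_lit 393) (B (L (nat_lit 522) ln10_16_7 ln10_16_7_ok) (M (nat_lit 361) (B (L (nat_lit 329) ln9_10_4_c10 ln9_10_4_c10_ok) (L (nat_lit 457) ln9_11_4 ln9_11_4_ok))))) (B (M (nat_lit 393) (B (L (nat_lit 522) ln10_16_7 ln10_16_7_ok) (M (nat_lit 361) (B (L (nat_lit 394) ln10_15_7 ln10_15_7_ok) (L (nat_lit 457) ln9_11_4 ln9_11_4_ok))))) (B (M (nat_lit 522) (B (L (nat_lit 393) ln10_16_7 ln10_16_7_ok) (M (nat_lit 554) (B (L (nat_lit 457) ln10_17_7 ln10_17_7_ok) (M (nat_lit 555) (B (L (nat_lit 523) ln10_13_4 ln10_13_4_ok) (L (nat_lit 587) ln10_14_4 ln10_14_4_ok))))))) (B (M (nat_lit 522) (B (M (nat_lit 554) (B (L (nat_lit 457) ln10_17_7 ln10_17_7_ok) (M (nat_lit 555) (B (L (nat_lit 523) ln10_13_4 ln10_13_4_ok) (L (nat_lit 587) ln10_14_4 ln10_14_4_ok))))) (B (M (nat_lit 394) (B (M (nat_lit 521) (B (L (nat_lit 489) ln10_12_5 ln10_12_5_ok) (L (nat_lit 553) ln10_13_5 ln10_13_5_ok))) (M (nat_lit 523) (B (L (nat_lit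 491) ln10_12_4 ln10_12_4_ok) (L (nat_lit 555) ln10_13_4 ln10_13_4_ok))))) (M (nat_lit 394) (B (M (nat_lit 521) (B (L (nat_lit 489) ln10_12_5 ln10_12_5_ok) (L (nat_lit 553) ln10_13_5 ln10_13_5_ok))) (M (nat_lit 362) (B (M (nat_lit 457) (B (L (nat_lit 330) ln10_10_5 ln10_10_5_ok) (L (nat_lit 554) ln10_17_7 ln10_17_7_ok))) (M (nat_lit 363) (B (L (nat_lit 331) ln10_14_6 ln10_14_6_ok) (L (nat_lit 395) ln10_15_6 ln10_15_6_ok)))))))))) (B (M (nat_lit 393) (B (L (nat_lit 522) ln10_16_7 ln10_16_7_ok) (M (nat_lit 361) (B (L (nat_lit 329) ln9_10_4_c10 ln9_10_4_c10_ok) (L (nat_lit 394) ln10_15_7 ln10_15_7_ok))))) (M (nat_lit 394) (B (M (nat_lit 361) (B (L (nat_lit 393) ln10_15_7 ln10_15_7_ok) (M (nat_lit 362) (B (L (nat_lit 329) ln10_14_7 ln10_14_7_ok) (M (nat_lit 363) (B (L (nat_lit 331) ln10_14_6 ln10_14_6_ok) (L (nat_lit 395) ln10_15_6 ln10_15_6_ok))))))) (B (M (nat_lit 362) (B (M (nat_lit 363) (B (L (nat_lit 331) ln10_14_6 ln10_14_6_ok) (L (nat_lit 395) ln10_15_6 ln10_15_6_ok))) (M (nat_lit 457) (B (L (nat_lit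 330) ln10_10_5 ln10_10_5_ok) (L (nat_lit 489) ln10_11_5 ln10_11_5_ok))))) (B (M (nat_lit 362) (B (M (nat_lit 361) (B (L (nat_lit 329) ln10_14_7 ln10_14_7_ok) (L (nat_lit 393) ln10_15_7 ln10_15_7_ok))) (M (nat_lit 457) (B (L (nat_lit 330) ln10_10_5 ln10_10_5_ok) (L (nat_lit 489) ln10_11_5 ln10_11_5_ok))))) (M (nat_lit 393) (B (L (nat_lit 361) ln10_15_7 ln10_15_7_ok) (M (nat_lit 395) (B (L (nat_lit 363) ln10_15_6 ln10_15_6_ok) (L (nat_lit 396) ln13_12_1 ln13_12_1_ok))))))))))))))))) (nat_lit 20839919904649913397037227277475566367178313602335007801283750091394436700446175314548354283586149593514889033341045482096437963662708178944) (nat_lit 506532662423306655911390789381050076151555769670017829474021363880975210119572578872006294701128963846275959467018177706450826948685784372300995671177246430584875619987700580352) (nat_lit 506532662423306655911390789381050076151555769670017829474021363880975210119572578872006294701128963846275959467018177706450826948685784372300995671177246430584875619987700580352) (by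 decide +kernel)
theorem c10_s188 : Sem (nat_lit 20839919904693236361007865009656479088805549285201202130586497225381475443893278772482817183946149193610266214248817219767709894472535900160) (nat_lit 1716199417030571501668734242724057760579248164654205688169727520667871733086561579786291902442091470149943655289166821044159139298099986590543574800560816128) (nat_lit 1716199417030571501668734242724057760579248164654205688169727520667871733086561579786291902442091470149943655289166821044159139298099986590543574800560816128) :=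
  sem_of_chk (M (nat_lit 455) (B (M (nat_lit 454) (B (L (nat_lit 423) ln10_13_1_c10 ln10_13_1_c10_ok) (M (nat_lit 456) (B (L (nat_lit 457) ln6_14_2_c10 ln6_14_2_c10_ok) (L (nat_lit 427) ln11_13_1_c10 ln11_13_1_c10_ok))))) (B (M (nat_lit 392) (B (M (nat_lit 427) (B (L (nat_lit 456) ln11_13_1_c10 ln11_13_1_c10_ok) (L (nat_lit 391) ln11_13_3 ln11_13_3_ok))) (B (M (nat_lit 391) (B (L (nat_lit 427) ln11_13_3 ln11_13_3_ok) (M (nat_lit 390) (B (L (nat_lit 423) ln10_13_3_c10 ln10_13_3_c10_ok) (L (nat_lit 389) ln5_12_0_c10 ln5_12_0_c10_ok))))) (B (M (nat_lit 360) (B (M (nat_lit 328) (B (L (nat_lit 423) ln8_10_5_c10 ln8_10_5_c10_ok) (L (nat_lit 457) ln8_10_4_c10 ln8_10_4_c10_ok))) (B (M (nat_lit 487) (B (L (nat_lit 456) ln8_11_5_c10 ln8_11_5_c10_ok) (M (nat_lit 423) (B (L (nat_lit 519) ln7_16_6_c10 ln7_16_6_c10_ok) (L (nat_lit 328) ln8_10_5_c10 ln8_10_5_c10_ok))))) (B (M (nat_lit 456) (B (L (nat_lit 487) ln8_11_5_c10 ln8_11_5_c10_ok) (M (nat_lit 457) (B (L (nat_lit 489) ln8_11_4_c10 ln8_11_4_c10_ok) (L (nat_lit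 328) ln8_10_4_c10 ln8_10_4_c10_ok))))) (M (nat_lit 487) (B (L (nat_lit 456) ln8_11_5_c10 ln8_11_5_c10_ok) (M (nat_lit 423) (B (L (nat_lit 519) ln7_16_6_c10 ln7_16_6_c10_ok) (L (nat_lit 391) ln7_15_6_c10 ln7_15_6_c10_ok))))))))) (M (nat_lit 360) (B (M (nat_lit 456) (B (L (nat_lit 487) ln8_11_5_c10 ln8_11_5_c10_ok) (L (nat_lit 427) ln11_13_1_c10 ln11_13_1_c10_ok))) (M (nat_lit 328) (B (L (nat_lit 423) ln8_10_5_c10 ln8_10_5_c10_ok) (L (nat_lit 457) ln8_10_4_c10 ln8_10_4_c10_ok))))))))) (B (M (nat_lit 423) (B (L (nat_lit 454) ln10_13_1_c10 ln10_13_1_c10_ok) (M (nat_lit 391) (B (L (nat_lit 390) ln10_13_3_c10 ln10_13_3_c10_ok) (M (nat_lit 392) (B (L (nat_lit 427) ln11_13_3 ln11_13_3_ok) (M (nat_lit 360) (B (L (nat_lit 487) ln7_15_6_c10 ln7_15_6_c10_ok) (L (nat_lit 328) ln8_10_5_c10 ln8_10_5_c10_ok))))))))) (B (M (nat_lit 456) (B (L (nat_lit 427) ln11_13_1_c10 ln11_13_1_c10_ok) (M (nat_lit 454) (B (L (nat_lit 453) ln5_14_2_c10 ln5_14_2_c10_ok) (L (nat_lit 457) ln6_14_2_c10 ln6_14_2_c10_ok))))) (M (nat_lit 454)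 (B (L (nat_lit 423) ln10_13_1_c10 ln10_13_1_c10_ok) (M (nat_lit 456) (B (L (nat_lit 453) ln5_14_2_c10 ln5_14_2_c10_ok) (L (nat_lit 457) ln6_14_2_c10 ln6_14_2_c10_ok)))))))))) (nat_lit 20839919904693236361007865009656479088805549285201202130586497225381475443893278772482817183946149193610266214248817219767709894472535900160) (nat_lit 1716199417030571501668734242724057760579248164654205688169727520667871733086561579786291902442091470149943655289166821044159139298099986590543574800560816128) (nat_lit 1716199417030571501668734242724057760579248164654205688169727520667871733086561579786291902442091470149943655289166821044159139298099986590543574800560816128) (by decide +kernel)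
theorem c10_s191 : Sem (nat_lit 20839919904693236361007865009656479088805549285201202130586497225381475443893278772482817183946149193610266214248817219767709894472535900160) (nat_lit 3432398830864472486720726998804522000714951165819988819376504298894944284248548132398806628813880688425050092695968212480623854906565545096137871720330559488) (nat_lit 3432398830864472486720726998804522000714951165819988819376504298894944284248548132398806628813880688425050092695968212480623854906565545096137871720330559488) :=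
  sem_of_chk (M (nat_lit 391) (B (M (nat_lit 390) (B (L (nat_lit 423) ln10_13_3_c10 ln10_13_3_c10_ok) (M (nat_lit 392) (B (L (nat_lit 393) ln6_12_0_c10 ln6_12_0_c10_ok) (L (nat_lit 427) ln11_13_3 ln11_13_3_ok))))) (B (M (nat_lit 456) (B (M (nat_lit 427) (B (L (nat_lit 392) ln11_13_3 ln11_13_3_ok) (L (nat_lit 455) ln11_13_1_c10 ln11_13_1_c10_ok))) (B (M (nat_lit 455) (B (L (nat_lit 427) ln11_13_1_c10 ln11_13_1_c10_ok) (M (nat_lit 454) (B (L (nat_lit 423) ln10_13_1_c10 ln10_13_1_c10_ok) (L (nat_lit 453) ln5_14_2_c10 ln5_14_2_c10_ok))))) (B (M (nat_lit 488) (B (M (nat_lit 520) (B (L (nat_lit 423) ln8_16_7_c10 ln8_16_7_c10_ok) (L (nat_lit 393) ln8_16_6_c10 ln8_16_6_c10_ok))) (B (M (nat_lit 359) (B (L (nat_lit 392) ln8_15_7_c10 ln8_15_7_c10_ok) (M (nat_lit 423) (B (L (nat_lit 327) ln7_10_4_c10 ln7_10_4_c10_ok) (L (nat_lit 520) ln8_16_7_c10 ln8_16_7_c10_ok))))) (B (M (nat_lit 392) (B (L (nat_lit 359) ln8_15_7_c10 ln8_15_7_c10_ok) (M (nat_lit 393) (B (L (nat_lit 361) ln8_15_6_c10 ln8_15_6_c10_ok) (L (nat_lit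 520) ln8_16_6_c10 ln8_16_6_c10_ok))))) (M (nat_lit 359) (B (L (nat_lit 392) ln8_15_7_c10 ln8_15_7_c10_ok) (M (nat_lit 423) (B (L (nat_lit 327) ln7_10_4_c10 ln7_10_4_c10_ok) (L (nat_lit 455) ln7_11_4_c10 ln7_11_4_c10_ok))))))))) (M (nat_lit 488) (B (M (nat_lit 392) (B (L (nat_lit 359) ln8_15_7_c10 ln8_15_7_c10_ok) (L (nat_lit 427) ln11_13_3 ln11_13_3_ok))) (M (nat_lit 520) (B (L (nat_lit 423) ln8_16_7_c10 ln8_16_7_c10_ok) (L (nat_lit 393) ln8_16_6_c10 ln8_16_6_c10_ok))))))))) (B (M (nat_lit 423) (B (L (nat_lit 390) ln10_13_3_c10 ln10_13_3_c10_ok) (M (nat_lit 455) (B (L (nat_lit 454) ln10_13_1_c10 ln10_13_1_c10_ok) (M (nat_lit 456) (B (L (nat_lit 427) ln11_13_1_c10 ln11_13_1_c10_ok) (M (nat_lit 488) (B (L (nat_lit 359) ln7_11_4_c10 ln7_11_4_c10_ok) (L (nat_lit 520) ln8_16_7_c10 ln8_16_7_c10_ok))))))))) (B (M (nat_lit 392) (B (L (nat_lit 427) ln11_13_3 ln11_13_3_ok) (M (nat_lit 390) (B (L (nat_lit 389) ln5_12_0_c10 ln5_12_0_c10_ok) (L (nat_lit 393) ln6_12_0_c10 ln6_12_0_c10_ok))))) (M (nat_lit 390) (B (L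 (nat_lit 423) ln10_13_3_c10 ln10_13_3_c10_ok) (M (nat_lit 392) (B (L (nat_lit 389) ln5_12_0_c10 ln5_12_0_c10_ok) (L (nat_lit 393) ln6_12_0_c10 ln6_12_0_c10_ok)))))))))) (nat_lit 20839919904693236361007865009656479088805549285201202130586497225381475443893278772482817183946149193610266214248817219767709894472535900160) (nat_lit 3432398830864472486720726998804522000714951165819988819376504298894944284248548132398806628813880688425050092695968212480623854906565545096137871720330559488) (nat_lit 3432398830864472486720726998804522000714951165819988819376504298894944284248548132398806628813880688425050092695968212480623854906565545096137871720330559488) (by decide +kernel)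
theorem c10_s199 : Sem (nat_lit 20839919904714897842993183875746935449619167126634299295237870792374994815616830501450048634126148993657954804702703088603345859877449760768) (nat_lit 8580997077161181217325141377602482775285993502080666772348865802635430124511123871312790689271184367294779868685874019355516958862101244009153670827676270592) (nat_lit 8580997077161181217325141377602482775285993502080666772348865802635430124511123871312790689271184367294779868685874019355516958862101244009153670827676270592) :=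
  sem_of_chk (M (nat_lit 422) (B (M (nat_lit 390) (B (L (nat_lit 389) ln9_13_3_c10 ln9_13_3_c10_ok) (L (nat_lit 391) ln10_13_3_c10 ln10_13_3_c10_ok))) (B (M (nat_lit 457) (B (L (nat_lit 458) ln6_13_0_c10 ln6_13_0_c10_ok) (M (nat_lit 421) (B (L (nat_lit 456) ln5_13_0_c10 ln5_13_0_c10_ok) (M (nat_lit 389) (B (L (nat_lit 390) ln9_13_3_c10 ln9_13_3_c10_ok) (L (nat_lit 388) ln8_13_3_c10 ln8_13_3_c10_ok))))))) (M (nat_lit 392) (B (M (nat_lit 421) (B (L (nat_lit 393) ln5_13_2_c10 ln5_13_2_c10_ok) (M (nat_lit 457) (B (L (nat_lit 458) ln6_13_0_c10 ln6_13_0_c10_ok) (L (nat_lit 456) ln5_13_0_c10 ln5_13_0_c10_ok))))) (B (M (nat_lit 421) (B (L (nat_lit 393) ln5_13_2_c10 ln5_13_2_c10_ok) (M (nat_lit 420) (B (L (nat_lit 391) ln4_13_2_c10 ln4_13_2_c10_ok) (M (nat_lit 456) (B (L (nat_lit 457) ln5_13_0_c10 ln5_13_0_c10_ok) (L (nat_lit 455) ln4_13_0_c10 ln4_13_0_c10_ok))))))) (B (M (nat_lit 455) (B (M (nat_lit 360) (B (L (nat_lit 328) ln8_10_5_c10 ln8_10_5_c10_ok) (M (nat_lit 487) (B (L (nat_lit 456) ln8_11_5_c10 ln8_11_5_c10_ok)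 (L (nat_lit 519) ln7_16_6_c10 ln7_16_6_c10_ok))))) (B (M (nat_lit 360) (B (L (nat_lit 328) ln8_10_5_c10 ln8_10_5_c10_ok) (M (nat_lit 487) (B (L (nat_lit 519) ln7_16_6_c10 ln7_16_6_c10_ok) (L (nat_lit 391) ln7_15_6_c10 ln7_15_6_c10_ok))))) (M (nat_lit 421) (B (L (nat_lit 393) ln5_13_2_c10 ln5_13_2_c10_ok) (M (nat_lit 420) (B (L (nat_lit 456) ln4_13_0_c10 ln4_13_0_c10_ok) (L (nat_lit 391) ln4_13_2_c10 ln4_13_2_c10_ok)))))))) (B (M (nat_lit 457) (B (L (nat_lit 458) ln6_13_0_c10 ln6_13_0_c10_ok) (M (nat_lit 456) (B (L (nat_lit 421) ln5_13_0_c10 ln5_13_0_c10_ok) (M (nat_lit 489) (B (L (nat_lit 521) ln9_16_7 ln9_16_7_ok) (L (nat_lit 360) ln8_11_4_c10 ln8_11_4_c10_ok))))))) (B (M (nat_lit 393) (B (L (nat_lit 421) ln5_13_2_c10 ln5_13_2_c10_ok) (M (nat_lit 457) (B (L (nat_lit 458) ln6_13_0_c10 ln6_13_0_c10_ok) (M (nat_lit 360) (B (L (nat_lit 489) ln9_15_7 ln9_15_7_ok) (L (nat_lit 328) ln8_10_4_c10 ln8_10_4_c10_ok))))))) (M (nat_lit 457) (B (L (nat_lit 458) ln6_13_0_c10 ln6_13_0_c10_ok) (M (nat_lit 489) (B (L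 (nat_lit 521) ln9_16_7 ln9_16_7_ok) (M (nat_lit 360) (B (L (nat_lit 456) ln8_11_4_c10 ln8_11_4_c10_ok) (L (nat_lit 328) ln8_10_4_c10 ln8_10_4_c10_ok)))))))))))))))) (nat_lit 20839919904714897842993183875746935449619167126634299295237870792374994815616830501450048634126148993657954804702703088603345859877449760768) (nat_lit 8580997077161181217325141377602482775285993502080666772348865802635430124511123871312790689271184367294779868685874019355516958862101244009153670827676270592) (nat_lit 8580997077161181217325141377602482775285993502080666772348865802635430124511123871312790689271184367294779868685874019355516958862101244009153670827676270592) (by decide +kernel)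
theorem c10_s205 : Sem (nat_lit 20839919904693236361007865009656479088805549285201202130586497225381475443893278772482817183946149193610266214248817219767709894472535900160) (nat_lit 1716199417030571501668734242724057760577987300455921064834934591384667137444799028129637008148717124761007792192478910304593882777943669290037762704870998016) (nat_lit 1716199417030571501668734242724057760577987300455921064834934591384667137444799028129637008148717124761007792192478910304593882777943669290037762704870998016) :=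
  sem_of_chk (M (nat_lit 455) (B (M (nat_lit 456) (B (L (nat_lit 427) ln11_13_1_c10 ln11_13_1_c10_ok) (M (nat_lit 454) (B (L (nat_lit 453) ln5_14_2_c10 ln5_14_2_c10_ok) (L (nat_lit 423) ln10_13_1_c10 ln10_13_1_c10_ok))))) (B (M (nat_lit 423) (B (L (nat_lit 454) ln10_13_1_c10 ln10_13_1_c10_ok) (M (nat_lit 391) (B (L (nat_lit 390) ln10_13_3_c10 ln10_13_3_c10_ok) (M (nat_lit 392) (B (L (nat_lit 427) ln11_13_3 ln11_13_3_ok) (M (nat_lit 487) (B (L (nat_lit 519) ln7_16_6_c10 ln7_16_6_c10_ok) (L (nat_lit 360) ln7_15_6_c10 ln7_15_6_c10_ok))))))))) (B (M (nat_lit 392) (B (M (nat_lit 427) (B (L (nat_lit 456) ln11_13_1_c10 ln11_13_1_c10_ok) (L (nat_lit 391) ln11_13_3 ln11_13_3_ok))) (B (M (nat_lit 391) (B (L (nat_lit 427) ln11_13_3 ln11_13_3_ok) (M (nat_lit 423) (B (L (nat_lit 390) ln10_13_3_c10 ln10_13_3_c10_ok) (M (nat_lit 360) (B (L (nat_lit 487) ln7_15_6_c10 ln7_15_6_c10_ok) (L (nat_lit 328) ln8_10_5_c10 ln8_10_5_c10_ok))))))) (B (M (nat_lit 360) (B (M (nat_lit 328) (B (L (nat_lit 457) ln8_10_4_c10 ln8_10_4_c10_ok)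 (L (nat_lit 423) ln8_10_5_c10 ln8_10_5_c10_ok))) (B (M (nat_lit 423) (B (L (nat_lit 328) ln8_10_5_c10 ln8_10_5_c10_ok) (M (nat_lit 487) (B (L (nat_lit 456) ln8_11_5_c10 ln8_11_5_c10_ok) (L (nat_lit 391) ln7_15_6_c10 ln7_15_6_c10_ok))))) (B (M (nat_lit 457) (B (L (nat_lit 328) ln8_10_4_c10 ln8_10_4_c10_ok) (M (nat_lit 456) (B (L (nat_lit 489) ln8_11_4_c10 ln8_11_4_c10_ok) (L (nat_lit 487) ln8_11_5_c10 ln8_11_5_c10_ok))))) (M (nat_lit 487) (B (L (nat_lit 456) ln8_11_5_c10 ln8_11_5_c10_ok) (M (nat_lit 423) (B (L (nat_lit 519) ln7_16_6_c10 ln7_16_6_c10_ok) (L (nat_lit 391) ln7_15_6_c10 ln7_15_6_c10_ok))))))))) (M (nat_lit 360) (B (M (nat_lit 456) (B (L (nat_lit 487) ln8_11_5_c10 ln8_11_5_c10_ok) (L (nat_lit 427) ln11_13_1_c10 ln11_13_1_c10_ok))) (M (nat_lit 328) (B (L (nat_lit 457) ln8_10_4_c10 ln8_10_4_c10_ok) (L (nat_lit 423) ln8_10_5_c10 ln8_10_5_c10_ok))))))))) (B (M (nat_lit 454) (B (L (nat_lit 423) ln10_13_1_c10 ln10_13_1_c10_ok) (M (nat_lit 456) (B (L (nat_lit 457) ln6_14_2_c10 ln6_14_2_c10_ok) (L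 (nat_lit 453) ln5_14_2_c10 ln5_14_2_c10_ok))))) (M (nat_lit 456) (B (L (nat_lit 427) ln11_13_1_c10 ln11_13_1_c10_ok) (M (nat_lit 454) (B (L (nat_lit 457) ln6_14_2_c10 ln6_14_2_c10_ok) (L (nat_lit 453) ln5_14_2_c10 ln5_14_2_c10_ok)))))))))) (nat_lit 20839919904693236361007865009656479088805549285201202130586497225381475443893278772482817183946149193610266214248817219767709894472535900160) (nat_lit 1716199417030571501668734242724057760577987300455921064834934591384667137444799028129637008148717124761007792192478910304593882777943669290037762704870998016) (nat_lit 1716199417030571501668734242724057760577987300455921064834934591384667137444799028129637008148717124761007792192478910304593882777943669290037762704870998016) (by decide +kernel)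
theorem c10_s206 : Sem (nat_lit 20839919904693236361007865009656479088805549285201202130586497225381475443893278772482817183946149193610266214248817219767709894472535900160) (nat_lit 2686395925383762057997592747566937843560454657137884131659210663365430748666897759654343982951235752461317414604893694045269850246424297472) (nat_lit 2686395925383762057997592747566937843560454657137884131659210663365430748666897759654343982951235752461317414604893694045269850246424297472) :=
  sem_of_chk (M (nat_lit 423) (B (M (nat_lit 422) (B (M (nat_lit 390) (B (L (nat_lit 389) ln9_13_3_c10 ln9_13_3_c10_ok) (L (nat_lit 391) ln10_13_3_c10 ln10_13_3_c10_ok))) (M (nat_lit 458) (B (L (nat_lit 457) ln6_13_0_c10 ln6_13_0_c10_ok) (L (nat_lit 459) ln7_13_0 ln7_13_0_ok))))) (B (M (nat_lit 427) (B (M (nat_lit 391) (B (L (nat_lit 390) ln10_13_3_c10 ln10_13_3_c10_ok) (L (nat_lit 392) ln11_13_3 ln11_13_3_ok))) (L (nat_lit 459) ln8_13_0 ln8_13_0_ok))) (B (M (nat_lit 422) (B (M (nat_lit 458) (B (L (nat_lit 457) ln6_13_0_c10 ln6_13_0_c10_ok)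 (L (nat_lit 459) ln7_13_0 ln7_13_0_ok))) (M (nat_lit 421) (B (M (nat_lit 453) (B (L (nat_lit 452) ln8_13_1_c10 ln8_13_1_c10_ok) (L (nat_lit 454) ln9_13_1_c10 ln9_13_1_c10_ok))) (M (nat_lit 392) (B (L (nat_lit 393) ln5_13_2_c10 ln5_13_2_c10_ok) (M (nat_lit 391) (B (L (nat_lit 420) ln4_13_2_c10 ln4_13_2_c10_ok) (L (nat_lit 427) ln11_13_3 ln11_13_3_ok))))))))) (B (M (nat_lit 422) (B (M (nat_lit 458) (B (L (nat_lit 457) ln6_13_0_c10 ln6_13_0_c10_ok) (L (nat_lit 459) ln7_13_0 ln7_13_0_ok))) (M (nat_lit 421) (B (M (nat_lit 389) (B (L (nat_lit 388) ln8_13_3_c10 ln8_13_3_c10_ok) (L (nat_lit 390) ln9_13_3_c10 ln9_13_3_c10_ok))) (M (nat_lit 453) (B (L (nat_lit 452) ln8_13_1_c10 ln8_13_1_c10_ok) (L (nat_lit 454) ln9_13_1_c10 ln9_13_1_c10_ok))))))) (M (nat_lit 422) (B (M (nat_lit 390) (B (L (nat_lit 389) ln9_13_3_c10 ln9_13_3_c10_ok) (L (nat_lit 391) ln10_13_3_c10 ln10_13_3_c10_ok))) (B (M (nat_lit 391) (B (L (nat_lit 390) ln10_13_3_c10 ln10_13_3_c10_ok) (M (nat_lit 392) (B (L (nat_lit 427) ln11_13_3 ln11_13_3_ok)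 (M (nat_lit 421) (B (L (nat_lit 420) ln4_13_2_c10 ln4_13_2_c10_ok) (L (nat_lit 393) ln5_13_2_c10 ln5_13_2_c10_ok))))))) (B (M (nat_lit 421) (B (M (nat_lit 453) (B (L (nat_lit 452) ln8_13_1_c10 ln8_13_1_c10_ok) (L (nat_lit 454) ln9_13_1_c10 ln9_13_1_c10_ok))) (M (nat_lit 392) (B (L (nat_lit 393) ln5_13_2_c10 ln5_13_2_c10_ok) (M (nat_lit 391) (B (L (nat_lit 420) ln4_13_2_c10 ln4_13_2_c10_ok) (L (nat_lit 427) ln11_13_3 ln11_13_3_ok))))))) (M (nat_lit 421) (B (M (nat_lit 389) (B (L (nat_lit 388) ln8_13_3_c10 ln8_13_3_c10_ok) (L (nat_lit 390) ln9_13_3_c10 ln9_13_3_c10_ok))) (M (nat_lit 453) (B (L (nat_lit 452) ln8_13_1_c10 ln8_13_1_c10_ok) (L (nat_lit 454) ln9_13_1_c10 ln9_13_1_c10_ok)))))))))))))) (nat_lit 20839919904693236361007865009656479088805549285201202130586497225381475443893278772482817183946149193610266214248817219767709894472535900160) (nat_lit 2686395925383762057997592747566937843560454657137884131659210663365430748666897759654343982951235752461317414604893694045269850246424297472) (nat_lit 2686395925383762057997592747566937843560454657137884131659210663365430748666897759654343982951235752461317414604893694045269850246424297472)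 (by decide +kernel)
theorem c10_s215 : Sem (nat_lit 20839919904693236361007865009656479088805549285201202130586497225381475443893278772482817183946149193610266214248817219767709894472535900160) (nat_lit 3432398830864472486697468159627062580217372803967572674277187775352950106319540446025026171594251954878611979073127778382679454215165027402264764468214890496) (nat_lit 3432398830864472486697468159627062580217372803967572674277187775352950106319540446025026171594251954878611979073127778382679454215165027402264764468214890496) :=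
  sem_of_chk (M (nat_lit 391) (B (M (nat_lit 392) (B (L (nat_lit 427) ln11_13_3 ln11_13_3_ok) (M (nat_lit 390) (B (L (nat_lit 389) ln5_12_0_c10 ln5_12_0_c10_ok) (L (nat_lit 423) ln10_13_3_c10 ln10_13_3_c10_ok))))) (B (M (nat_lit 423) (B (L (nat_lit 390) ln10_13_3_c10 ln10_13_3_c10_ok) (M (nat_lit 455) (B (L (nat_lit 454) ln10_13_1_c10 ln10_13_1_c10_ok) (M (nat_lit 456) (B (L (nat_lit 427) ln11_13_1_c10 ln11_13_1_c10_ok) (M (nat_lit 359) (B (L (nat_lit 327) ln7_10_4_c10 ln7_10_4_c10_ok) (L (nat_lit 488) ln7_11_4_c10 ln7_11_4_c10_ok))))))))) (B (M (nat_lit 456) (B (M (nat_lit 427) (B (L (nat_lit 392) ln11_13_3 ln11_13_3_ok) (L (nat_lit 455) ln11_13_1_c10 ln11_13_1_c10_ok))) (B (M (nat_lit 455) (B (L (nat_lit 427) ln11_13_1_c10 ln11_13_1_c10_ok) (M (nat_lit 423) (B (L (nat_lit 454) ln10_13_1_c10 ln10_13_1_c10_ok) (M (nat_lit 488) (B (L (nat_lit 359) ln7_11_4_c10 ln7_11_4_c10_ok) (L (nat_lit 520) ln8_16_7_c10 ln8_16_7_c10_ok))))))) (B (M (nat_lit 488) (B (M (nat_lit 520) (B (L (nat_lit 393) ln8_16_6_c10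 ln8_16_6_c10_ok) (L (nat_lit 423) ln8_16_7_c10 ln8_16_7_c10_ok))) (B (M (nat_lit 423) (B (L (nat_lit 520) ln8_16_7_c10 ln8_16_7_c10_ok) (M (nat_lit 359) (B (L (nat_lit 392) ln8_15_7_c10 ln8_15_7_c10_ok) (L (nat_lit 455) ln7_11_4_c10 ln7_11_4_c10_ok))))) (B (M (nat_lit 393) (B (L (nat_lit 520) ln8_16_6_c10 ln8_16_6_c10_ok) (M (nat_lit 392) (B (L (nat_lit 361) ln8_15_6_c10 ln8_15_6_c10_ok) (L (nat_lit 359) ln8_15_7_c10 ln8_15_7_c10_ok))))) (M (nat_lit 359) (B (L (nat_lit 392) ln8_15_7_c10 ln8_15_7_c10_ok) (M (nat_lit 423) (B (L (nat_lit 327) ln7_10_4_c10 ln7_10_4_c10_ok) (L (nat_lit 455) ln7_11_4_c10 ln7_11_4_c10_ok))))))))) (M (nat_lit 488) (B (M (nat_lit 392) (B (L (nat_lit 359) ln8_15_7_c10 ln8_15_7_c10_ok) (L (nat_lit 427) ln11_13_3 ln11_13_3_ok))) (M (nat_lit 520) (B (L (nat_lit 393) ln8_16_6_c10 ln8_16_6_c10_ok) (L (nat_lit 423) ln8_16_7_c10 ln8_16_7_c10_ok))))))))) (B (M (nat_lit 390) (B (L (nat_lit 423) ln10_13_3_c10 ln10_13_3_c10_ok) (M (nat_lit 392) (B (L (nat_lit 393) ln6_12_0_c10 ln6_12_0_c10_ok)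 (L (nat_lit 389) ln5_12_0_c10 ln5_12_0_c10_ok))))) (M (nat_lit 392) (B (L (nat_lit 427) ln11_13_3 ln11_13_3_ok) (M (nat_lit 390) (B (L (nat_lit 393) ln6_12_0_c10 ln6_12_0_c10_ok) (L (nat_lit 389) ln5_12_0_c10 ln5_12_0_c10_ok)))))))))) (nat_lit 20839919904693236361007865009656479088805549285201202130586497225381475443893278772482817183946149193610266214248817219767709894472535900160) (nat_lit 3432398830864472486697468159627062580217372803967572674277187775352950106319540446025026171594251954878611979073127778382679454215165027402264764468214890496) (nat_lit 3432398830864472486697468159627062580217372803967572674277187775352950106319540446025026171594251954878611979073127778382679454215165027402264764468214890496) (by decide +kernel)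
theorem c10_s219 : Sem (nat_lit 20839919904693236361007865009656479088805549285201202130586497225381475443893278772482817183946149193610266214248817219767709894472535900160) (nat_lit 18427550908455630338004792581586381988355292646812088139151786159282376086556672172675658160788095102322238626578790053359267521481401580289126336982455919632787177472) (nat_lit 18427550908455630338004792581586381988355292646812088139151786159282376086556672172675658160788095102322238626578790053359267521481401580289126336982455919632787177472) :=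
  sem_of_chk (M (nat_lit 423) (B (M (nat_lit 458) (B (L (nat_lit 459) ln7_13_0 ln7_13_0_ok) (M (nat_lit 454) (B (L (nat_lit 455) ln10_13_1_c10 ln10_13_1_c10_ok) (M (nat_lit 422) (B (L (nat_lit 453) ln9_13_1_c10 ln9_13_1_c10_ok) (L (nat_lit 457) ln6_13_0_c10 ln6_13_0_c10_ok))))))) (B (M (nat_lit 422) (B (M (nat_lit 390) (B (L (nat_lit 389) ln9_13_3_c10 ln9_13_3_c10_ok) (L (nat_lit 391) ln10_13_3_c10 ln10_13_3_c10_ok))) (M (nat_lit 458) (B (L (nat_lit 457) ln6_13_0_c10 ln6_13_0_c10_ok) (L (nat_lit 459) ln7_13_0 ln7_13_0_ok))))) (M (nat_lit 455) (B (L (nat_lit 454) ln10_13_1_c10 ln10_13_1_c10_ok) (M (nat_lit 391) (B (L (nat_lit 390) ln10_13_3_c10 ln10_13_3_c10_ok) (M (nat_lit 487) (B (M (nat_lit 392) (B (L (nat_lit 519) ln7_16_6_c10 ln7_16_6_c10_ok) (L (nat_lit 360) ln7_15_6_c10 ln7_15_6_c10_ok))) (B (M (nat_lit 359) (B (M (nat_lit 488) (B (L (nat_lit 520) ln7_12_4_c10 ln7_12_4_c10_ok) (L (nat_lit 456) ln7_11_4_c10 ln7_11_4_c10_ok))) (M (nat_lit 360) (B (L (nat_lit 392) ln7_15_6_c10 ln7_15_6_c10_ok) (L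 (nat_lit 328) ln7_14_6_c10 ln7_14_6_c10_ok))))) (M (nat_lit 519) (B (M (nat_lit 518) (B (L (nat_lit 550) ln7_13_5_c10 ln7_13_5_c10_ok) (L (nat_lit 486) ln7_12_5_c10 ln7_12_5_c10_ok))) (M (nat_lit 520) (B (L (nat_lit 552) ln7_13_4_c10 ln7_13_4_c10_ok) (L (nat_lit 488) ln7_12_4_c10 ln7_12_4_c10_ok))))))))))))))) (nat_lit 20839919904693236361007865009656479088805549285201202130586497225381475443893278772482817183946149193610266214248817219767709894472535900160) (nat_lit 18427550908455630338004792581586381988355292646812088139151786159282376086556672172675658160788095102322238626578790053359267521481401580289126336982455919632787177472) (nat_lit 18427550908455630338004792581586381988355292646812088139151786159282376086556672172675658160788095102322238626578790053359267521481401580289126336982455919632787177472) (by decide +kernel)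
theorem c10_s222 : Sem (nat_lit 20839919904649913397057401104652817425700548137322060292745529591955666374237981480512742675076220583398162354550473956901300494599809138688) (nat_lit 17161994155920697690923505070277032827124894484860095769559273682876682602131892322976238575712199831326361291315990222652644564143697272677408625438459166720) (nat_lit 17161994155920697690923505070277032827124894484860095769559273682876682602131892322976238575712199831326361291315990222652644564143697272677408625438459166720) :=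
  sem_of_chk (M (nat_lit 457) (B (M (nat_lit 489) (B (M (nat_lit 360) (B (L (nat_lit 328) ln9_14_7_c10 ln9_14_7_c10_ok) (L (nat_lit 392) ln9_15_7 ln9_15_7_ok))) (M (nat_lit 362) (B (L (nat_lit 330) ln9_14_6_c10 ln9_14_6_c10_ok) (L (nat_lit 394) ln9_15_6 ln9_15_6_ok))))) (B (M (nat_lit 489) (B (M (nat_lit 488) (B (L (nat_lit 456) ln9_11_5_c10 ln9_11_5_c10_ok) (L (nat_lit 520) ln9_12_5_c10 ln9_12_5_c10_ok))) (M (nat_lit 490) (B (L (nat_lit 458) ln9_11_4 ln9_11_4_ok) (L (nat_lit 522) ln9_12_4 ln9_12_4_ok))))) (M (nat_lit 394) (B (M (nat_lit 362) (B (L (nat_lit 330) ln10_10_5 ln10_10_5_ok) (M (nat_lit 360) (B (L (nat_lit 328) ln9_14_7_c10 ln9_14_7_c10_ok) (M (nat_lit 359) (B (L (nat_lit 358) ln6_11_0_c10 ln6_11_0_c10_ok) (L (nat_lit 395) ln7_11_0 ln7_11_0_ok))))))) (B (M (nat_lit 362) (B (L (nat_lit 330) ln10_10_5 ln10_10_5_ok) (M (nat_lit 360) (B (L (nat_lit 328) ln9_14_7_c10 ln9_14_7_c10_ok) (M (nat_lit 395) (B (L (nat_lit 359) ln7_11_0 ln7_11_0_ok) (L (nat_lit 396) ln12_12_3 ln12_12_3_ok))))))) (B (M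 (nat_lit 362) (B (L (nat_lit 330) ln10_10_5 ln10_10_5_ok) (M (nat_lit 363) (B (M (nat_lit 392) (B (L (nat_lit 391) ln7_12_2_c10 ln7_12_2_c10_ok) (L (nat_lit 364) ln12_11_1 ln12_11_1_ok))) (M (nat_lit 458) (B (L (nat_lit 490) ln9_11_4 ln9_11_4_ok) (L (nat_lit 331) ln10_14_6 ln10_14_6_ok))))))) (B (M (nat_lit 360) (B (L (nat_lit 328) ln9_14_7_c10 ln9_14_7_c10_ok) (M (nat_lit 395) (B (L (nat_lit 396) ln12_12_3 ln12_12_3_ok) (M (nat_lit 359) (B (L (nat_lit 358) ln6_11_0_c10 ln6_11_0_c10_ok) (L (nat_lit 362) ln7_11_0 ln7_11_0_ok))))))) (M (nat_lit 360) (B (L (nat_lit 328) ln9_14_7_c10 ln9_14_7_c10_ok) (M (nat_lit 395) (B (L (nat_lit 396) ln12_12_3 ln12_12_3_ok) (M (nat_lit 359) (B (L (nat_lit 358) ln6_11_0_c10 ln6_11_0_c10_ok) (L (nat_lit 392) ln11_12_3 ln11_12_3_ok))))))))))))))) (nat_lit 20839919904649913397057401104652817425700548137322060292745529591955666374237981480512742675076220583398162354550473956901300494599809138688) (nat_lit 17161994155920697690923505070277032827124894484860095769559273682876682602131892322976238575712199831326361291315990222652644564143697272677408625438459166720)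 (nat_lit 17161994155920697690923505070277032827124894484860095769559273682876682602131892322976238575712199831326361291315990222652644564143697272677408625438459166720) (by decide +kernel)
theorem c10_s224 : Sem (nat_lit 21584202758328614852979908683925436983713129224210095025280196881861889640168284314257347729064050056482153959788363125108470389261446676480) (nat_lit 20594392985186834920091773598918881823825580004829499934697490478839034463579707980898407127195685595068486861123854350068370319659464680733717963413068447744) (nat_lit 20594392985186834920091773598918881823825580004829499934697490478839034463579707980898407127195685595068486861123854350068370319659464680733717963413068447744) :=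
  sem_of_chk (M (nat_lit 394) (B (M (nat_lit 490) (B (L (nat_lit 522) ln10_16_7 ln10_16_7_ok) (M (nat_lit 395) (B (L (nat_lit 363) ln10_15_6 ln10_15_6_ok) (L (nat_lit 396) ln13_12_1 ln13_12_1_ok))))) (B (M (nat_lit 362) (B (M (nat_lit 457) (B (L (nat_lit 489) ln10_11_5 ln10_11_5_ok) (L (nat_lit 330) ln10_10_5 ln10_10_5_ok))) (M (nat_lit 363) (B (L (nat_lit 331) ln10_14_6 ln10_14_6_ok) (M (nat_lit 490) (B (L (nat_lit 522) ln10_16_7 ln10_16_7_ok) (L (nat_lit 395) ln10_15_6 ln10_15_6_ok))))))) (B (M (nat_lit 362) (B (M (nat_lit 457) (B (L (nat_lit 489) ln10_11_5 ln10_11_5_ok) (L (nat_lit 330) ln10_10_5 ln10_10_5_ok))) (B (M (nat_lit 330) (B (L (nat_lit 298) ln10_9_5_c10 ln10_9_5_c10_ok) (M (nat_lit 331) (B (L (nat_lit 299) ln10_13_6 ln10_13_6_ok) (L (nat_lit 363) ln10_14_6 ln10_14_6_ok))))) (M (nat_lit 363) (B (L (nat_lit 331) ln10_14_6 ln10_14_6_ok) (M (nat_lit 392) (B (L (nat_lit 391) ln7_12_2_c10 ln7_12_2_c10_ok) (L (nat_lit 364) ln13_11_1 ln13_11_1_ok)))))))) (M (nat_lit 489) (B (M (nat_lit 457) (B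 (L (nat_lit 362) ln10_11_5 ln10_11_5_ok) (L (nat_lit 521) ln9_16_6 ln9_16_6_ok))) (B (M (nat_lit 490) (B (L (nat_lit 522) ln10_16_7 ln10_16_7_ok) (L (nat_lit 521) ln10_12_5 ln10_12_5_ok))) (M (nat_lit 423) (B (M (nat_lit 424) (B (L (nat_lit 422) ln6_13_2_c10 ln6_13_2_c10_ok) (L (nat_lit 395) ln7_13_2 ln7_13_2_ok))) (B (M (nat_lit 424) (B (L (nat_lit 395) ln7_13_2 ln7_13_2_ok) (L (nat_lit 459) ln7_13_0 ln7_13_0_ok))) (M (nat_lit 392) (B (M (nat_lit 391) (B (L (nat_lit 390) ln6_12_0_c10 ln6_12_0_c10_ok) (L (nat_lit 422) ln10_12_1_c10 ln10_12_1_c10_ok))) (M (nat_lit 457) (B (L (nat_lit 360) ln9_15_7 ln9_15_7_ok) (L (nat_lit 362) ln10_11_5 ln10_11_5_ok))))))))))))))) (nat_lit 21584202758328614852979908683925436983713129224210095025280196881861889640168284314257347729064050056482153959788363125108470389261446676480) (nat_lit 20594392985186834920091773598918881823825580004829499934697490478839034463579707980898407127195685595068486861123854350068370319659464680733717963413068447744) (nat_lit 20594392985186834920091773598918881823825580004829499934697490478839034463579707980898407127195685595068486861123854350068370319659464680733717963413068447744)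 (by decide +kernel)
theorem c10_s249 : Sem (nat_lit 20839919904693236361007865009656479088805549285201202130586497225381475443893278772482817183946149193610266214248817219767709894472535900160) (nat_lit 17161994154322362434650282755551549262337088861608635317715617068200414883444224814521891326119196398065262940251744839474051364986376389388482788133974310912) (nat_lit 17161994154322362434650282755551549262337088861608635317715617068200414883444224814521891326119196398065262940251744839474051364986376389388482788133974310912) :=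
  sem_of_chk (M (nat_lit 423) (B (M (nat_lit 391) (B (L (nat_lit 390) ln10_13_3_c10 ln10_13_3_c10_ok) (M (nat_lit 427) (B (L (nat_lit 392) ln11_13_3 ln11_13_3_ok) (L (nat_lit 459) ln8_13_0 ln8_13_0_ok))))) (B (M (nat_lit 458) (B (L (nat_lit 459) ln7_13_0 ln7_13_0_ok) (M (nat_lit 422) (B (L (nat_lit 457) ln6_13_0_c10 ln6_13_0_c10_ok) (M (nat_lit 390) (B (L (nat_lit 391) ln10_13_3_c10 ln10_13_3_c10_ok) (L (nat_lit 389) ln9_13_3_c10 ln9_13_3_c10_ok))))))) (B (M (nat_lit 422) (B (M (nat_lit 390) (B (L (nat_lit 391) ln10_13_3_c10 ln10_13_3_c10_ok) (L (nat_lit 389) ln9_13_3_c10 ln9_13_3_c10_ok))) (M (nat_lit 421) (B (M (nat_lit 457) (B (L (nat_lit 458) ln6_13_0_c10 ln6_13_0_c10_ok) (L (nat_lit 456) ln5_13_0_c10 ln5_13_0_c10_ok))) (M (nat_lit 393) (B (L (nat_lit 394) ln6_13_2_c10 ln6_13_2_c10_ok) (L (nat_lit 392) ln5_13_2_c10 ln5_13_2_c10_ok))))))) (M (nat_lit 393) (B (M (nat_lit 422) (B (L (nat_lit 394) ln6_13_2_c10 ln6_13_2_c10_ok) (M (nat_lit 458) (B (L (nat_lit 459) ln7_13_0 ln7_13_0_ok) (L (nat_lit 457)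 ln6_13_0_c10 ln6_13_0_c10_ok))))) (B (M (nat_lit 422) (B (L (nat_lit 394) ln6_13_2_c10 ln6_13_2_c10_ok) (M (nat_lit 421) (B (L (nat_lit 392) ln5_13_2_c10 ln5_13_2_c10_ok) (M (nat_lit 457) (B (L (nat_lit 458) ln6_13_0_c10 ln6_13_0_c10_ok) (L (nat_lit 456) ln5_13_0_c10 ln5_13_0_c10_ok))))))) (B (M (nat_lit 456) (B (M (nat_lit 361) (B (L (nat_lit 329) ln9_10_5_c10 ln9_10_5_c10_ok) (M (nat_lit 488) (B (L (nat_lit 457) ln9_11_5_c10 ln9_11_5_c10_ok) (L (nat_lit 520) ln8_16_6_c10 ln8_16_6_c10_ok))))) (B (M (nat_lit 361) (B (L (nat_lit 329) ln9_10_5_c10 ln9_10_5_c10_ok) (M (nat_lit 488) (B (L (nat_lit 520) ln8_16_6_c10 ln8_16_6_c10_ok) (L (nat_lit 392) ln8_15_6_c10 ln8_15_6_c10_ok))))) (M (nat_lit 422) (B (L (nat_lit 394) ln6_13_2_c10 ln6_13_2_c10_ok) (M (nat_lit 421) (B (L (nat_lit 457) ln5_13_0_c10 ln5_13_0_c10_ok) (L (nat_lit 392) ln5_13_2_c10 ln5_13_2_c10_ok)))))))) (B (M (nat_lit 458) (B (L (nat_lit 459) ln7_13_0 ln7_13_0_ok) (M (nat_lit 457) (B (L (nat_lit 422) ln6_13_0_c10 ln6_13_0_c10_ok) (M (nat_lit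 490) (B (L (nat_lit 522) ln10_16_7 ln10_16_7_ok) (L (nat_lit 361) ln9_11_4 ln9_11_4_ok))))))) (B (M (nat_lit 394) (B (L (nat_lit 422) ln6_13_2_c10 ln6_13_2_c10_ok) (M (nat_lit 458) (B (L (nat_lit 459) ln7_13_0 ln7_13_0_ok) (M (nat_lit 361) (B (L (nat_lit 490) ln10_15_7 ln10_15_7_ok) (L (nat_lit 329) ln9_10_4_c10 ln9_10_4_c10_ok))))))) (M (nat_lit 458) (B (L (nat_lit 459) ln7_13_0 ln7_13_0_ok) (M (nat_lit 490) (B (L (nat_lit 522) ln10_16_7 ln10_16_7_ok) (M (nat_lit 361) (B (L (nat_lit 457) ln9_11_4 ln9_11_4_ok) (L (nat_lit 329) ln9_10_4_c10 ln9_10_4_c10_ok))))))))))))))))) (nat_lit 20839919904693236361007865009656479088805549285201202130586497225381475443893278772482817183946149193610266214248817219767709894472535900160) (nat_lit 17161994154322362434650282755551549262337088861608635317715617068200414883444224814521891326119196398065262940251744839474051364986376389388482788133974310912) (nat_lit 17161994154322362434650282755551549262337088861608635317715617068200414883444224814521891326119196398065262940251744839474051364986376389388482788133974310912)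 (by decide +kernel)
theorem c10_s251 : Sem (nat_lit 20839919904693236361007865009656479088805549285201202130586497225381475443893278772482817183946149193610266214248817219767709894472535900160) (nat_lit 6864797664925615491035066728633689824571584944975107737573799837981974492856509249043894529817647148591855868861830093605471596109752992061527328421192925184) (nat_lit 6864797664925615491035066728633689824571584944975107737573799837981974492856509249043894529817647148591855868861830093605471596109752992061527328421192925184) :=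
  sem_of_chk (M (nat_lit 423) (B (M (nat_lit 390) (B (L (nat_lit 391) ln10_13_3_c10 ln10_13_3_c10_ok) (M (nat_lit 422) (B (L (nat_lit 389) ln9_13_3_c10 ln9_13_3_c10_ok) (M (nat_lit 454) (B (L (nat_lit 455) ln10_13_1_c10 ln10_13_1_c10_ok) (L (nat_lit 453) ln9_13_1_c10 ln9_13_1_c10_ok))))))) (B (M (nat_lit 422) (B (M (nat_lit 394) (B (L (nat_lit 395) ln7_13_2 ln7_13_2_ok) (L (nat_lit 393) ln6_13_2_c10 ln6_13_2_c10_ok))) (M (nat_lit 454) (B (L (nat_lit 455) ln10_13_1_c10 ln10_13_1_c10_ok) (L (nat_lit 453) ln9_13_1_c10 ln9_13_1_c10_ok))))) (B (M (nat_lit 422) (B (M (nat_lit 394) (B (L (nat_lit 395) ln7_13_2 ln7_13_2_ok) (L (nat_lit 393) ln6_13_2_c10 ln6_13_2_c10_ok))) (M (nat_lit 390) (B (L (nat_lit 391) ln10_13_3_c10 ln10_13_3_c10_ok) (L (nat_lit 389) ln9_13_3_c10 ln9_13_3_c10_ok))))) (M (nat_lit 394) (B (L (nat_lit 395) ln7_13_2 ln7_13_2_ok) (M (nat_lit 458) (B (L (nat_lit 459) ln7_13_0 ln7_13_0_ok) (M (nat_lit 362) (B (M (nat_lit 457) (B (L (nat_lit 330) ln10_10_5 ln10_10_5_ok) (L (nat_lit 489) ln10_11_5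 ln10_11_5_ok))) (B (M (nat_lit 490) (B (M (nat_lit 361) (B (L (nat_lit 329) ln10_14_7 ln10_14_7_ok) (L (nat_lit 393) ln10_15_7 ln10_15_7_ok))) (M (nat_lit 489) (B (L (nat_lit 457) ln10_11_5 ln10_11_5_ok) (L (nat_lit 521) ln10_12_5 ln10_12_5_ok))))) (M (nat_lit 330) (B (M (nat_lit 331) (B (L (nat_lit 299) ln10_13_6 ln10_13_6_ok) (L (nat_lit 363) ln10_14_6 ln10_14_6_ok))) (M (nat_lit 329) (B (L (nat_lit 297) ln10_13_7_c10 ln10_13_7_c10_ok) (L (nat_lit 361) ln10_14_7 ln10_14_7_ok)))))))))))))))) (nat_lit 20839919904693236361007865009656479088805549285201202130586497225381475443893278772482817183946149193610266214248817219767709894472535900160) (nat_lit 6864797664925615491035066728633689824571584944975107737573799837981974492856509249043894529817647148591855868861830093605471596109752992061527328421192925184) (nat_lit 6864797664925615491035066728633689824571584944975107737573799837981974492856509249043894529817647148591855868861830093605471596109752992061527328421192925184) (by decide +kernel)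
theorem c10_s255 : Sem (nat_lit 20839919904714897842993183875746935449619167126634299295237870792374994815616830501450048634126148993657954804702703088603345859877449760768) (nat_lit 81405937137354083386230144539449760304747979947570057997732207150250574293096019671536077755898345714881025499621400167750643253782773760) (nat_lit 81405937137354083386230144539449760304747979947570057997732207150250574293096019671536077755898345714881025499621400167750643253782773760) :=
  sem_of_chk (M (nat_lit 422) (B (M (nat_lit 453) (B (L (nat_lit 454) ln9_13_1_c10 ln9_13_1_c10_ok) (M (nat_lit 421) (B (L (nat_lit 452) ln8_13_1_c10 ln8_13_1_c10_ok) (M (nat_lit 389) (B (L (nat_lit 390) ln9_13_3_c10 ln9_13_3_c10_ok) (L (nat_lit 388) ln8_13_3_c10 ln8_13_3_c10_ok))))))) (B (M (nat_lit 421) (B (M (nat_lit 393) (B (L (nat_lit 394) ln6_13_2_c10 ln6_13_2_c10_ok) (L (nat_lit 392) ln5_13_2_c10 ln5_13_2_c10_ok))) (M (nat_lit 389) (B (L (nat_lit 390) ln9_13_3_c10 ln9_13_3_c10_ok) (L (nat_lit 388) ln8_13_3_c10 ln8_13_3_c10_ok)))))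 (B (M (nat_lit 421) (B (M (nat_lit 393) (B (L (nat_lit 394) ln6_13_2_c10 ln6_13_2_c10_ok) (L (nat_lit 392) ln5_13_2_c10 ln5_13_2_c10_ok))) (M (nat_lit 453) (B (L (nat_lit 454) ln9_13_1_c10 ln9_13_1_c10_ok) (L (nat_lit 452) ln8_13_1_c10 ln8_13_1_c10_ok))))) (M (nat_lit 394) (B (L (nat_lit 395) ln7_13_2 ln7_13_2_ok) (L (nat_lit 393) ln6_13_2_c10 ln6_13_2_c10_ok))))))) (nat_lit 20839919904714897842993183875746935449619167126634299295237870792374994815616830501450048634126148993657954804702703088603345859877449760768) (nat_lit 81405937137354083386230144539449760304747979947570057997732207150250574293096019671536077755898345714881025499621400167750643253782773760) (nat_lit 81405937137354083386230144539449760304747979947570057997732207150250574293096019671536077755898345714881025499621400167750643253782773760) (by decide +kernel)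
theorem c10_s258 : Sem (nat_lit 20839919904714897842993183875746935449619167126634299295237870792374994815616830501450048634126148993657954804702703088603345859877449760768) (nat_lit 3432398830864472487104497844883311041948292482426500472105727818804481219647076438952235049086015763339258469342500896078325360829897341746694506589519347712) (nat_lit 3432398830864472487104497844883311041948292482426500472105727818804481219647076438952235049086015763339258469342500896078325360829897341746694506589519347712) :=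
  sem_of_chk (M (nat_lit 422) (B (M (nat_lit 454) (B (L (nat_lit 453) ln9_13_1_c10 ln9_13_1_c10_ok) (L (nat_lit 455) ln10_13_1_c10 ln10_13_1_c10_ok))) (B (M (nat_lit 393) (B (L (nat_lit 394) ln6_13_2_c10 ln6_13_2_c10_ok) (M (nat_lit 421) (B (L (nat_lit 392) ln5_13_2_c10 ln5_13_2_c10_ok) (M (nat_lit 453) (B (L (nat_lit 454) ln9_13_1_c10 ln9_13_1_c10_ok) (L (nat_lit 452) ln8_13_1_c10 ln8_13_1_c10_ok))))))) (M (nat_lit 456) (B (M (nat_lit 421) (B (L (nat_lit 457) ln5_13_0_c10 ln5_13_0_c10_ok) (M (nat_lit 393) (B (L (nat_lit 394) ln6_13_2_c10 ln6_13_2_c10_ok) (L (nat_lit 392) ln5_13_2_c10 ln5_13_2_c10_ok))))) (B (M (nat_lit 421) (B (L (nat_lit 457) ln5_13_0_c10 ln5_13_0_c10_ok) (M (nat_lit 420) (B (L (nat_lit 455) ln4_13_0_c10 ln4_13_0_c10_ok) (M (nat_lit 392) (B (L (nat_lit 393) ln5_13_2_c10 ln5_13_2_c10_ok) (L (nat_lit 391) ln4_13_2_c10 ln4_13_2_c10_ok))))))) (B (M (nat_lit 391) (B (M (nat_lit 488) (B (L (nat_lit 520) ln8_16_7_c10 ln8_16_7_c10_ok) (M (nat_lit 359) (B (L (nat_lit 392) ln8_15_7_c10 ln8_15_7_c10_ok)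 (L (nat_lit 327) ln7_10_4_c10 ln7_10_4_c10_ok))))) (B (M (nat_lit 488) (B (L (nat_lit 520) ln8_16_7_c10 ln8_16_7_c10_ok) (M (nat_lit 359) (B (L (nat_lit 327) ln7_10_4_c10 ln7_10_4_c10_ok) (L (nat_lit 455) ln7_11_4_c10 ln7_11_4_c10_ok))))) (M (nat_lit 421) (B (L (nat_lit 457) ln5_13_0_c10 ln5_13_0_c10_ok) (M (nat_lit 420) (B (L (nat_lit 392) ln4_13_2_c10 ln4_13_2_c10_ok) (L (nat_lit 455) ln4_13_0_c10 ln4_13_0_c10_ok)))))))) (B (M (nat_lit 393) (B (L (nat_lit 394) ln6_13_2_c10 ln6_13_2_c10_ok) (M (nat_lit 392) (B (L (nat_lit 421) ln5_13_2_c10 ln5_13_2_c10_ok) (M (nat_lit 361) (B (L (nat_lit 329) ln9_10_5_c10 ln9_10_5_c10_ok) (L (nat_lit 488) ln8_15_6_c10 ln8_15_6_c10_ok))))))) (B (M (nat_lit 457) (B (L (nat_lit 421) ln5_13_0_c10 ln5_13_0_c10_ok) (M (nat_lit 393) (B (L (nat_lit 394) ln6_13_2_c10 ln6_13_2_c10_ok) (M (nat_lit 488) (B (L (nat_lit 361) ln9_11_5_c10 ln9_11_5_c10_ok) (L (nat_lit 520) ln8_16_6_c10 ln8_16_6_c10_ok))))))) (M (nat_lit 393) (B (L (nat_lit 394) ln6_13_2_c10 ln6_13_2_c10_ok) (M (nat_lit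 361) (B (L (nat_lit 329) ln9_10_5_c10 ln9_10_5_c10_ok) (M (nat_lit 488) (B (L (nat_lit 392) ln8_15_6_c10 ln8_15_6_c10_ok) (L (nat_lit 520) ln8_16_6_c10 ln8_16_6_c10_ok)))))))))))))))) (nat_lit 20839919904714897842993183875746935449619167126634299295237870792374994815616830501450048634126148993657954804702703088603345859877449760768) (nat_lit 3432398830864472487104497844883311041948292482426500472105727818804481219647076438952235049086015763339258469342500896078325360829897341746694506589519347712) (nat_lit 3432398830864472487104497844883311041948292482426500472105727818804481219647076438952235049086015763339258469342500896078325360829897341746694506589519347712) (by decide +kernel)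
theorem c10_s259 : Sem (nat_lit 20839919904693236361007865009656479088805549285201202130586497225381475443893278772482817183946149193610266214248817219767709894472535900160) (nat_lit 63316582802913331988923848672631259518967730047962180327840444059757333428062886350897794918099706746816329762611952262587762619052042387797990524035903175554497795054513422336) (nat_lit 63316582802913331988923848672631259518967730047962180327840444059757333428062886350897794918099706746816329762611952262587762619052042387797990524035903175554497795054513422336) :=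
  sem_of_chk (M (nat_lit 423) (B (M (nat_lit 422) (B (M (nat_lit 390) (B (L (nat_lit 389) ln9_13_3_c10 ln9_13_3_c10_ok) (L (nat_lit 391) ln10_13_3_c10 ln10_13_3_c10_ok))) (M (nat_lit 454) (B (L (nat_lit 453) ln9_13_1_c10 ln9_13_1_c10_ok) (L (nat_lit 455) ln10_13_1_c10 ln10_13_1_c10_ok))))) (B (M (nat_lit 454) (B (L (nat_lit 455) ln10_13_1_c10 ln10_13_1_c10_ok) (M (nat_lit 422) (B (L (nat_lit 453) ln9_13_1_c10 ln9_13_1_c10_ok) (M (nat_lit 394) (B (L (nat_lit 393) ln6_13_2_c10 ln6_13_2_c10_ok) (L (nat_lit 395) ln7_13_2 ln7_13_2_ok))))))) (B (M (nat_lit 422) (B (M (nat_lit 390) (B (L (nat_lit 389) ln9_13_3_c10 ln9_13_3_c10_ok) (L (nat_lit 391) ln10_13_3_c10 ln10_13_3_c10_ok))) (M (nat_lit 394) (B (L (nat_lit 393) ln6_13_2_c10 ln6_13_2_c10_ok) (L (nat_lit 395) ln7_13_2 ln7_13_2_ok))))) (M (nat_lit 455) (B (L (nat_lit 454) ln10_13_1_c10 ln10_13_1_c10_ok) (M (nat_lit 391) (B (L (nat_lit 390) ln10_13_3_c10 ln10_13_3_c10_ok) (M (nat_lit 359) (B (M (nat_lit 456) (B (L (nat_lit 327) ln7_10_4_c10 ln7_10_4_c10_ok)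 (L (nat_lit 488) ln7_11_4_c10 ln7_11_4_c10_ok))) (B (M (nat_lit 487) (B (M (nat_lit 488) (B (L (nat_lit 456) ln7_11_4_c10 ln7_11_4_c10_ok) (L (nat_lit 520) ln7_12_4_c10 ln7_12_4_c10_ok))) (B (M (nat_lit 519) (B (M (nat_lit 518) (B (L (nat_lit 486) ln7_12_5_c10 ln7_12_5_c10_ok) (L (nat_lit 550) ln7_13_5_c10 ln7_13_5_c10_ok))) (M (nat_lit 520) (B (L (nat_lit 488) ln7_12_4_c10 ln7_12_4_c10_ok) (L (nat_lit 552) ln7_13_4_c10 ln7_13_4_c10_ok))))) (B (M (nat_lit 519) (B (M (nat_lit 518) (B (L (nat_lit 486) ln7_12_5_c10 ln7_12_5_c10_ok) (L (nat_lit 550) ln7_13_5_c10 ln7_13_5_c10_ok))) (M (nat_lit 551) (B (L (nat_lit 456) ln7_17_6_c10 ln7_17_6_c10_ok) (M (nat_lit 552) (B (L (nat_lit 520) ln7_13_4_c10 ln7_13_4_c10_ok) (L (nat_lit 584) ln7_14_4_c10 ln7_14_4_c10_ok))))))) (M (nat_lit 519) (B (M (nat_lit 518) (B (L (nat_lit 486) ln7_12_5_c10 ln7_12_5_c10_ok) (L (nat_lit 550) ln7_13_5_c10 ln7_13_5_c10_ok))) (M (nat_lit 456) (B (L (nat_lit 488) ln7_11_4_c10 ln7_11_4_c10_ok) (L (nat_lit 551) ln7_17_6_c10 ln7_17_6_c10_ok)))))))))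 (M (nat_lit 327) (B (M (nat_lit 326) (B (L (nat_lit 294) ln7_13_7_c10 ln7_13_7_c10_ok) (L (nat_lit 358) ln7_14_7_c10 ln7_14_7_c10_ok))) (M (nat_lit 328) (B (L (nat_lit 296) ln7_13_6_c10 ln7_13_6_c10_ok) (L (nat_lit 360) ln7_14_6_c10 ln7_14_6_c10_ok)))))))))))))))) (nat_lit 20839919904693236361007865009656479088805549285201202130586497225381475443893278772482817183946149193610266214248817219767709894472535900160) (nat_lit 63316582802913331988923848672631259518967730047962180327840444059757333428062886350897794918099706746816329762611952262587762619052042387797990524035903175554497795054513422336) (nat_lit 63316582802913331988923848672631259518967730047962180327840444059757333428062886350897794918099706746816329762611952262587762619052042387797990524035903175554497795054513422336) (by decide +kernel)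
theorem c10_s261 : Sem (nat_lit 20839919904714897842993183875746935449619167126634299295237870792374994815616830501450048634126148993657954804702703088603345859877449760768) (nat_lit 3432398832462807745517533364316844912285792472487553868786899918990987246428254624521947264908823574295927934430915046802735798054876496030763664210596462592) (nat_lit 3432398832462807745517533364316844912285792472487553868786899918990987246428254624521947264908823574295927934430915046802735798054876496030763664210596462592) :=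
  sem_of_chk (M (nat_lit 422) (B (M (nat_lit 389) (B (L (nat_lit 390) ln9_13_3_c10 ln9_13_3_c10_ok) (M (nat_lit 421) (B (L (nat_lit 388) ln8_13_3_c10 ln8_13_3_c10_ok) (M (nat_lit 453) (B (L (nat_lit 454) ln9_13_1_c10 ln9_13_1_c10_ok) (L (nat_lit 452) ln8_13_1_c10 ln8_13_1_c10_ok))))))) (B (M (nat_lit 421) (B (M (nat_lit 393) (B (L (nat_lit 394) ln6_13_2_c10 ln6_13_2_c10_ok) (L (nat_lit 392) ln5_13_2_c10 ln5_13_2_c10_ok))) (M (nat_lit 453) (B (L (nat_lit 454) ln9_13_1_c10 ln9_13_1_c10_ok) (L (nat_lit 452) ln8_13_1_c10 ln8_13_1_c10_ok))))) (B (M (nat_lit 421) (B (M (nat_lit 393) (B (L (nat_lit 394) ln6_13_2_c10 ln6_13_2_c10_ok) (L (nat_lit 392) ln5_13_2_c10 ln5_13_2_c10_ok))) (M (nat_lit 389) (B (L (nat_lit 390) ln9_13_3_c10 ln9_13_3_c10_ok) (L (nat_lit 388) ln8_13_3_c10 ln8_13_3_c10_ok))))) (M (nat_lit 393) (B (L (nat_lit 394) ln6_13_2_c10 ln6_13_2_c10_ok) (M (nat_lit 457) (B (L (nat_lit 458) ln6_13_0_c10 ln6_13_0_c10_ok) (M (nat_lit 361) (B (M (nat_lit 456) (B (L (nat_lit 329) ln9_10_5_c10 ln9_10_5_c10_ok)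 (L (nat_lit 488) ln9_11_5_c10 ln9_11_5_c10_ok))) (B (M (nat_lit 489) (B (M (nat_lit 360) (B (L (nat_lit 328) ln9_14_7_c10 ln9_14_7_c10_ok) (L (nat_lit 392) ln9_15_7 ln9_15_7_ok))) (M (nat_lit 488) (B (L (nat_lit 456) ln9_11_5_c10 ln9_11_5_c10_ok) (L (nat_lit 520) ln9_12_5_c10 ln9_12_5_c10_ok))))) (M (nat_lit 329) (B (M (nat_lit 330) (B (L (nat_lit 298) ln9_13_6_c10 ln9_13_6_c10_ok) (L (nat_lit 362) ln9_14_6_c10 ln9_14_6_c10_ok))) (M (nat_lit 328) (B (L (nat_lit 296) ln9_13_7_c10 ln9_13_7_c10_ok) (L (nat_lit 360) ln9_14_7_c10 ln9_14_7_c10_ok)))))))))))))))) (nat_lit 20839919904714897842993183875746935449619167126634299295237870792374994815616830501450048634126148993657954804702703088603345859877449760768) (nat_lit 3432398832462807745517533364316844912285792472487553868786899918990987246428254624521947264908823574295927934430915046802735798054876496030763664210596462592) (nat_lit 3432398832462807745517533364316844912285792472487553868786899918990987246428254624521947264908823574295927934430915046802735798054876496030763664210596462592)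 (by decide +kernel)
theorem c10_s262 : Sem (nat_lit 20839919904714897842993183875746935449619167126634299295237870792374994815616830501450048634126148993657954804702703088603345859877449760768) (nat_lit 73710203633822521352019170315913938582216897713660902786717419726397191467749681776568445414215075933919393924279941426357876532347243592840603563252821410541765394432) (nat_lit 73710203633822521352019170315913938582216897713660902786717419726397191467749681776568445414215075933919393924279941426357876532347243592840603563252821410541765394432) :=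
  sem_of_chk (M (nat_lit 422) (B (M (nat_lit 453) (B (L (nat_lit 454) ln9_13_1_c10 ln9_13_1_c10_ok) (M (nat_lit 421) (B (L (nat_lit 452) ln8_13_1_c10 ln8_13_1_c10_ok) (M (nat_lit 389) (B (L (nat_lit 390) ln9_13_3_c10 ln9_13_3_c10_ok) (L (nat_lit 388) ln8_13_3_c10 ln8_13_3_c10_ok))))))) (B (M (nat_lit 421) (B (M (nat_lit 457) (B (L (nat_lit 458) ln6_13_0_c10 ln6_13_0_c10_ok) (L (nat_lit 456) ln5_13_0_c10 ln5_13_0_c10_ok))) (M (nat_lit 389) (B (L (nat_lit 390) ln9_13_3_c10 ln9_13_3_c10_ok) (L (nat_lit 388) ln8_13_3_c10 ln8_13_3_c10_ok))))) (B (M (nat_lit 421) (B (M (nat_lit 457) (B (L (nat_lit 458) ln6_13_0_c10 ln6_13_0_c10_ok) (L (nat_lit 456) ln5_13_0_c10 ln5_13_0_c10_ok))) (M (nat_lit 453) (B (L (nat_lit 454) ln9_13_1_c10 ln9_13_1_c10_ok) (L (nat_lit 452) ln8_13_1_c10 ln8_13_1_c10_ok))))) (M (nat_lit 457) (B (L (nat_lit 458) ln6_13_0_c10 ln6_13_0_c10_ok) (M (nat_lit 393) (B (L (nat_lit 394) ln6_13_2_c10 ln6_13_2_c10_ok) (M (nat_lit 489) (B (M (nat_lit 392) (B (L (nat_lit 521) ln9_16_7 ln9_16_7_ok) (L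 (nat_lit 360) ln9_15_7 ln9_15_7_ok))) (B (M (nat_lit 361) (B (M (nat_lit 488) (B (L (nat_lit 520) ln9_12_5_c10 ln9_12_5_c10_ok) (L (nat_lit 456) ln9_11_5_c10 ln9_11_5_c10_ok))) (M (nat_lit 360) (B (L (nat_lit 392) ln9_15_7 ln9_15_7_ok) (L (nat_lit 328) ln9_14_7_c10 ln9_14_7_c10_ok))))) (M (nat_lit 521) (B (M (nat_lit 522) (B (L (nat_lit 554) ln9_13_4 ln9_13_4_ok) (L (nat_lit 490) ln9_12_4 ln9_12_4_ok))) (M (nat_lit 520) (B (L (nat_lit 552) ln9_13_5_c10 ln9_13_5_c10_ok) (L (nat_lit 488) ln9_12_5_c10 ln9_12_5_c10_ok)))))))))))))))) (nat_lit 20839919904714897842993183875746935449619167126634299295237870792374994815616830501450048634126148993657954804702703088603345859877449760768) (nat_lit 73710203633822521352019170315913938582216897713660902786717419726397191467749681776568445414215075933919393924279941426357876532347243592840603563252821410541765394432) (nat_lit 73710203633822521352019170315913938582216897713660902786717419726397191467749681776568445414215075933919393924279941426357876532347243592840603563252821410541765394432)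 (by decide +kernel)
theorem c10_s263 : Sem (nat_lit 20839919904714897842993183875746935449619167126634299295237870792374994815616830501450048634126148993657954804702703088603345859877449760768) (nat_lit 3432398832462807745436127427195736940544268206004097360939292086594007623676727722213715664640123006883394536750973527459930395634974684102207788828191621120) (nat_lit 3432398832462807745436127427195736940544268206004097360939292086594007623676727722213715664640123006883394536750973527459930395634974684102207788828191621120) :=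
  sem_of_chk (M (nat_lit 422) (B (M (nat_lit 421) (B (M (nat_lit 457) (B (L (nat_lit 458) ln6_13_0_c10 ln6_13_0_c10_ok) (L (nat_lit 456) ln5_13_0_c10 ln5_13_0_c10_ok))) (M (nat_lit 389) (B (L (nat_lit 390) ln9_13_3_c10 ln9_13_3_c10_ok) (L (nat_lit 388) ln8_13_3_c10 ln8_13_3_c10_ok))))) (B (M (nat_lit 421) (B (M (nat_lit 393) (B (L (nat_lit 394) ln6_13_2_c10 ln6_13_2_c10_ok) (L (nat_lit 392) ln5_13_2_c10 ln5_13_2_c10_ok))) (M (nat_lit 389) (B (L (nat_lit 390) ln9_13_3_c10 ln9_13_3_c10_ok) (L (nat_lit 388) ln8_13_3_c10 ln8_13_3_c10_ok))))) (B (M (nat_lit 421) (B (M (nat_lit 393) (B (L (nat_lit 394) ln6_13_2_c10 ln6_13_2_c10_ok) (L (nat_lit 392) ln5_13_2_c10 ln5_13_2_c10_ok))) (M (nat_lit 457) (B (L (nat_lit 458) ln6_13_0_c10 ln6_13_0_c10_ok) (L (nat_lit 456) ln5_13_0_c10 ln5_13_0_c10_ok))))) (M (nat_lit 393) (B (L (nat_lit 394) ln6_13_2_c10 ln6_13_2_c10_ok) (M (nat_lit 457) (B (L (nat_lit 458) ln6_13_0_c10 ln6_13_0_c10_ok) (M (nat_lit 361) (B (M (nat_lit 456) (B (L (nat_lit 329) ln9_10_5_c10 ln9_10_5_c10_ok)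 (L (nat_lit 488) ln9_11_5_c10 ln9_11_5_c10_ok))) (B (M (nat_lit 489) (B (M (nat_lit 360) (B (L (nat_lit 328) ln9_14_7_c10 ln9_14_7_c10_ok) (L (nat_lit 392) ln9_15_7 ln9_15_7_ok))) (M (nat_lit 488) (B (L (nat_lit 456) ln9_11_5_c10 ln9_11_5_c10_ok) (L (nat_lit 520) ln9_12_5_c10 ln9_12_5_c10_ok))))) (M (nat_lit 329) (B (M (nat_lit 330) (B (L (nat_lit 298) ln9_13_6_c10 ln9_13_6_c10_ok) (L (nat_lit 362) ln9_14_6_c10 ln9_14_6_c10_ok))) (M (nat_lit 328) (B (L (nat_lit 296) ln9_13_7_c10 ln9_13_7_c10_ok) (L (nat_lit 360) ln9_14_7_c10 ln9_14_7_c10_ok)))))))))))))))) (nat_lit 20839919904714897842993183875746935449619167126634299295237870792374994815616830501450048634126148993657954804702703088603345859877449760768) (nat_lit 3432398832462807745436127427195736940544268206004097360939292086594007623676727722213715664640123006883394536750973527459930395634974684102207788828191621120) (nat_lit 3432398832462807745436127427195736940544268206004097360939292086594007623676727722213715664640123006883394536750973527459930395634974684102207788828191621120)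 (by decide +kernel)
theorem c10_s264 : Sem (nat_lit 20839919904714897842993183875746935449619167126634299295237870792374994815616830501450048634126148993657954804702703088603345859877449760768) (nat_lit 73710203633822521352019170315913938582216897713656489762023423544725416215258465691822276483416783803892583715418665905519468844758765195020056452701051068206851031040) (nat_lit 73710203633822521352019170315913938582216897713656489762023423544725416215258465691822276483416783803892583715418665905519468844758765195020056452701051068206851031040) :=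
  sem_of_chk (M (nat_lit 422) (B (M (nat_lit 421) (B (M (nat_lit 393) (B (L (nat_lit 394) ln6_13_2_c10 ln6_13_2_c10_ok) (L (nat_lit 392) ln5_13_2_c10 ln5_13_2_c10_ok))) (M (nat_lit 453) (B (L (nat_lit 454) ln9_13_1_c10 ln9_13_1_c10_ok) (L (nat_lit 452) ln8_13_1_c10 ln8_13_1_c10_ok))))) (B (M (nat_lit 421) (B (M (nat_lit 457) (B (L (nat_lit 458) ln6_13_0_c10 ln6_13_0_c10_ok) (L (nat_lit 456) ln5_13_0_c10 ln5_13_0_c10_ok))) (M (nat_lit 453) (B (L (nat_lit 454) ln9_13_1_c10 ln9_13_1_c10_ok) (L (nat_lit 452) ln8_13_1_c10 ln8_13_1_c10_ok))))) (B (M (nat_lit 421) (B (M (nat_lit 457) (B (L (nat_lit 458) ln6_13_0_c10 ln6_13_0_c10_ok) (L (nat_lit 456) ln5_13_0_c10 ln5_13_0_c10_ok))) (M (nat_lit 393) (B (L (nat_lit 394) ln6_13_2_c10 ln6_13_2_c10_ok) (L (nat_lit 392) ln5_13_2_c10 ln5_13_2_c10_ok))))) (M (nat_lit 457) (B (L (nat_lit 458) ln6_13_0_c10 ln6_13_0_c10_ok) (M (nat_lit 393) (B (L (nat_lit 394) ln6_13_2_c10 ln6_13_2_c10_ok) (M (nat_lit 489) (B (M (nat_lit 392) (B (L (nat_lit 521) ln9_16_7 ln9_16_7_ok) (L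 (nat_lit 360) ln9_15_7 ln9_15_7_ok))) (B (M (nat_lit 361) (B (M (nat_lit 488) (B (L (nat_lit 520) ln9_12_5_c10 ln9_12_5_c10_ok) (L (nat_lit 456) ln9_11_5_c10 ln9_11_5_c10_ok))) (M (nat_lit 360) (B (L (nat_lit 392) ln9_15_7 ln9_15_7_ok) (L (nat_lit 328) ln9_14_7_c10 ln9_14_7_c10_ok))))) (M (nat_lit 521) (B (M (nat_lit 522) (B (L (nat_lit 554) ln9_13_4 ln9_13_4_ok) (L (nat_lit 490) ln9_12_4 ln9_12_4_ok))) (M (nat_lit 520) (B (L (nat_lit 552) ln9_13_5_c10 ln9_13_5_c10_ok) (L (nat_lit 488) ln9_12_5_c10 ln9_12_5_c10_ok)))))))))))))))) (nat_lit 20839919904714897842993183875746935449619167126634299295237870792374994815616830501450048634126148993657954804702703088603345859877449760768) (nat_lit 73710203633822521352019170315913938582216897713656489762023423544725416215258465691822276483416783803892583715418665905519468844758765195020056452701051068206851031040) (nat_lit 73710203633822521352019170315913938582216897713656489762023423544725416215258465691822276483416783803892583715418665905519468844758765195020056452701051068206851031040)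 (by decide +kernel)
theorem c10_s265 : Sem (nat_lit 20839919904714897842993183875746935449619167126634299295237870792374994815616830501450048634126148993657954804702703088603345859877449760768) (nat_lit 44226122219079619599980041285789771034945362848096535990779042969276543274715541662801886296864749584281703470553355288358439033157545375939910824114891353477378736128) (nat_lit 44226122219079619599980041285789771034945362848096535990779042969276543274715541662801886296864749584281703470553355288358439033157545375939910824114891353477378736128) :=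
  sem_of_chk (M (nat_lit 455) (B (L (nat_lit 454) ln10_13_1_c10 ln10_13_1_c10_ok) (M (nat_lit 456) (B (L (nat_lit 427) ln11_13_1_c10 ln11_13_1_c10_ok) (M (nat_lit 392) (B (M (nat_lit 360) (B (L (nat_lit 487) ln8_11_5_c10 ln8_11_5_c10_ok) (L (nat_lit 328) ln8_10_5_c10 ln8_10_5_c10_ok))) (B (M (nat_lit 488) (B (M (nat_lit 393) (B (L (nat_lit 520) ln8_16_6_c10 ln8_16_6_c10_ok) (L (nat_lit 361) ln8_15_6_c10 ln8_15_6_c10_ok))) (B (M (nat_lit 520) (B (L (nat_lit 552) ln8_17_7_c10 ln8_17_7_c10_ok) (M (nat_lit 521) (B (L (nat_lit 553) ln8_13_4_c10 ln8_13_4_c10_ok) (L (nat_lit 489) ln8_12_4_c10 ln8_12_4_c10_ok))))) (M (nat_lit 489) (B (L (nat_lit 521) ln8_12_4_c10 ln8_12_4_c10_ok) (M (nat_lit 490) (B (L (nat_lit 491) ln11_15_3 ln11_15_3_ok) (M (nat_lit 522) (B (M (nat_lit 487) (B (L (nat_lit 523) ln7_15_0 ln7_15_0_ok) (L (nat_lit 519) ln8_12_5_c10 ln8_12_5_c10_ok))) (M (nat_lit 393) (B (L (nat_lit 458) ln10_16_7 ln10_16_7_ok) (L (nat_lit 361) ln8_15_6_c10 ln8_15_6_c10_ok)))))))))))) (M (nat_lit 488) (B (M (nat_lit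 393) (B (L (nat_lit 520) ln8_16_6_c10 ln8_16_6_c10_ok) (L (nat_lit 361) ln8_15_6_c10 ln8_15_6_c10_ok))) (B (M (nat_lit 520) (B (L (nat_lit 552) ln8_17_7_c10 ln8_17_7_c10_ok) (M (nat_lit 521) (B (L (nat_lit 553) ln8_13_4_c10 ln8_13_4_c10_ok) (L (nat_lit 489) ln8_12_4_c10 ln8_12_4_c10_ok))))) (M (nat_lit 361) (B (L (nat_lit 393) ln8_15_6_c10 ln8_15_6_c10_ok) (M (nat_lit 360) (B (L (nat_lit 329) ln8_14_6_c10 ln8_14_6_c10_ok) (L (nat_lit 328) ln8_10_5_c10 ln8_10_5_c10_ok))))))))))))))) (nat_lit 20839919904714897842993183875746935449619167126634299295237870792374994815616830501450048634126148993657954804702703088603345859877449760768) (nat_lit 44226122219079619599980041285789771034945362848096535990779042969276543274715541662801886296864749584281703470553355288358439033157545375939910824114891353477378736128) (nat_lit 44226122219079619599980041285789771034945362848096535990779042969276543274715541662801886296864749584281703470553355288358439033157545375939910824114891353477378736128) (by decide +kernel)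
theorem c10_s267 : Sem (nat_lit 20839919904714897842993183875746935449619167126634299295237870792374994815616830501450048634126148993657954804702703088603345859877449760768) (nat_lit 10297196492593417459673745372928766302150286968092665826501819819194176689030749380866164711453113324045845291787490947326717407246094795558112476573401612288) (nat_lit 10297196492593417459673745372928766302150286968092665826501819819194176689030749380866164711453113324045845291787490947326717407246094795558112476573401612288) :=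
  sem_of_chk (M (nat_lit 391) (B (L (nat_lit 390) ln10_13_3_c10 ln10_13_3_c10_ok) (M (nat_lit 392) (B (L (nat_lit 427) ln11_13_3 ln11_13_3_ok) (M (nat_lit 456) (B (M (nat_lit 488) (B (L (nat_lit 359) ln8_15_7_c10 ln8_15_7_c10_ok) (L (nat_lit 520) ln8_16_7_c10 ln8_16_7_c10_ok))) (B (M (nat_lit 360) (B (M (nat_lit 457) (B (L (nat_lit 328) ln8_10_4_c10 ln8_10_4_c10_ok) (L (nat_lit 489) ln8_11_4_c10 ln8_11_4_c10_ok))) (B (M (nat_lit 328) (B (L (nat_lit 296) ln8_9_5_c10 ln8_9_5_c10_ok) (M (nat_lit 329) (B (L (nat_lit 297) ln8_13_6_c10 ln8_13_6_c10_ok) (L (nat_lit 361) ln8_14_6_c10 ln8_14_6_c10_ok))))) (M (nat_lit 361) (B (L (nat_lit 329) ln8_14_6_c10 ln8_14_6_c10_ok) (M (nat_lit 362) (B (L (nat_lit 363) ln11_11_1 ln11_11_1_ok) (M (nat_lit 330) (B (M (nat_lit 359) (B (L (nat_lit 331) ln7_11_2 ln7_11_2_ok) (L (nat_lit 327) ln7_10_4_c10 ln7_10_4_c10_ok))) (M (nat_lit 457) (B (L (nat_lit 394) ln10_10_5 ln10_10_5_ok) (L (nat_lit 489) ln8_11_4_c10 ln8_11_4_c10_ok)))))))))))) (M (nat_lit 360) (B (M (nat_lit 457)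 (B (L (nat_lit 328) ln8_10_4_c10 ln8_10_4_c10_ok) (L (nat_lit 489) ln8_11_4_c10 ln8_11_4_c10_ok))) (B (M (nat_lit 328) (B (L (nat_lit 296) ln8_9_5_c10 ln8_9_5_c10_ok) (M (nat_lit 329) (B (L (nat_lit 297) ln8_13_6_c10 ln8_13_6_c10_ok) (L (nat_lit 361) ln8_14_6_c10 ln8_14_6_c10_ok))))) (M (nat_lit 489) (B (L (nat_lit 457) ln8_11_4_c10 ln8_11_4_c10_ok) (M (nat_lit 488) (B (L (nat_lit 521) ln8_12_4_c10 ln8_12_4_c10_ok) (L (nat_lit 520) ln8_16_7_c10 ln8_16_7_c10_ok))))))))))))))) (nat_lit 20839919904714897842993183875746935449619167126634299295237870792374994815616830501450048634126148993657954804702703088603345859877449760768) (nat_lit 10297196492593417459673745372928766302150286968092665826501819819194176689030749380866164711453113324045845291787490947326717407246094795558112476573401612288) (nat_lit 10297196492593417459673745372928766302150286968092665826501819819194176689030749380866164711453113324045845291787490947326717407246094795558112476573401612288) (by decide +kernel)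
theorem c10_s269 : Sem (nat_lit 20839919904714897842993183875746935449619167126634299295237870792374994815616830501450048634126148993657954804702703088603345859877449760768) (nat_lit 10297196492593417459673745372593013331466105037552314662305513321010081771629248623405255119124854457508931126640698247862554712249013581552434345266544377856) (nat_lit 10297196492593417459673745372593013331466105037552314662305513321010081771629248623405255119124854457508931126640698247862554712249013581552434345266544377856) :=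
  sem_of_chk (M (nat_lit 394) (B (L (nat_lit 395) ln7_13_2 ln7_13_2_ok) (M (nat_lit 393) (B (L (nat_lit 422) ln6_13_2_c10 ln6_13_2_c10_ok) (M (nat_lit 457) (B (M (nat_lit 489) (B (L (nat_lit 362) ln9_15_6 ln9_15_6_ok) (L (nat_lit 521) ln9_16_6 ln9_16_6_ok))) (B (M (nat_lit 361) (B (M (nat_lit 456) (B (L (nat_lit 329) ln9_10_5_c10 ln9_10_5_c10_ok) (L (nat_lit 488) ln9_11_5_c10 ln9_11_5_c10_ok))) (B (M (nat_lit 329) (B (L (nat_lit 297) ln9_9_4_c10 ln9_9_4_c10_ok) (M (nat_lit 328) (B (L (nat_lit 296) ln9_13_7_c10 ln9_13_7_c10_ok) (L (nat_lit 360) ln9_14_7_c10 ln9_14_7_c10_ok))))) (M (nat_lit 360) (B (L (nat_lit 328) ln9_14_7_c10 ln9_14_7_c10_ok) (M (nat_lit 359) (B (L (nat_lit 358) ln6_11_0_c10 ln6_11_0_c10_ok) (M (nat_lit 327) (B (M (nat_lit 362) (B (L (nat_lit 326) ln10_11_3 ln10_11_3_ok) (L (nat_lit 330) ln10_10_5 ln10_10_5_ok))) (M (nat_lit 456) (B (L (nat_lit 391) ln7_10_4_c10 ln7_10_4_c10_ok) (L (nat_lit 488) ln9_11_5_c10 ln9_11_5_c10_ok)))))))))))) (M (nat_lit 361) (B (M (nat_lit 456) (B (L (nat_lit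 329) ln9_10_5_c10 ln9_10_5_c10_ok) (L (nat_lit 488) ln9_11_5_c10 ln9_11_5_c10_ok))) (B (M (nat_lit 329) (B (L (nat_lit 297) ln9_9_4_c10 ln9_9_4_c10_ok) (M (nat_lit 328) (B (L (nat_lit 296) ln9_13_7_c10 ln9_13_7_c10_ok) (L (nat_lit 360) ln9_14_7_c10 ln9_14_7_c10_ok))))) (M (nat_lit 488) (B (L (nat_lit 456) ln9_11_5_c10 ln9_11_5_c10_ok) (M (nat_lit 489) (B (L (nat_lit 520) ln9_12_5_c10 ln9_12_5_c10_ok) (L (nat_lit 521) ln9_16_6 ln9_16_6_ok))))))))))))))) (nat_lit 20839919904714897842993183875746935449619167126634299295237870792374994815616830501450048634126148993657954804702703088603345859877449760768) (nat_lit 10297196492593417459673745372593013331466105037552314662305513321010081771629248623405255119124854457508931126640698247862554712249013581552434345266544377856) (nat_lit 10297196492593417459673745372593013331466105037552314662305513321010081771629248623405255119124854457508931126640698247862554712249013581552434345266544377856) (by decide +kernel)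
theorem c10_s275 : Sem (nat_lit 20839919904693236361007865009656479088805549285201202130586497225381475443893278772482817183946149193610266214248817219767709894472535900160) (nat_lit 6864797664925615490872254854391473881088536412008194721878584173188015247353455444427431329280246013766789073501947054919860791269949368204415577656383242240) (nat_lit 6864797664925615490872254854391473881088536412008194721878584173188015247353455444427431329280246013766789073501947054919860791269949368204415577656383242240) :=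
  sem_of_chk (M (nat_lit 423) (B (M (nat_lit 422) (B (M (nat_lit 458) (B (L (nat_lit 459) ln7_13_0 ln7_13_0_ok) (L (nat_lit 457) ln6_13_0_c10 ln6_13_0_c10_ok))) (M (nat_lit 390) (B (L (nat_lit 391) ln10_13_3_c10 ln10_13_3_c10_ok) (L (nat_lit 389) ln9_13_3_c10 ln9_13_3_c10_ok))))) (B (M (nat_lit 422) (B (M (nat_lit 394) (B (L (nat_lit 395) ln7_13_2 ln7_13_2_ok) (L (nat_lit 393) ln6_13_2_c10 ln6_13_2_c10_ok))) (M (nat_lit 390) (B (L (nat_lit 391) ln10_13_3_c10 ln10_13_3_c10_ok) (L (nat_lit 389) ln9_13_3_c10 ln9_13_3_c10_ok))))) (B (M (nat_lit 422) (B (M (nat_lit 394) (B (L (nat_lit 395) ln7_13_2 ln7_13_2_ok) (L (nat_lit 393) ln6_13_2_c10 ln6_13_2_c10_ok))) (M (nat_lit 458) (B (L (nat_lit 459) ln7_13_0 ln7_13_0_ok) (L (nat_lit 457) ln6_13_0_c10 ln6_13_0_c10_ok))))) (M (nat_lit 394) (B (L (nat_lit 395) ln7_13_2 ln7_13_2_ok) (M (nat_lit 458) (B (L (nat_lit 459) ln7_13_0 ln7_13_0_ok) (M (nat_lit 362) (B (M (nat_lit 457) (B (L (nat_lit 330) ln10_10_5 ln10_10_5_ok) (L (nat_lit 489) ln10_11_5 ln10_11_5_ok)))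 (B (M (nat_lit 490) (B (M (nat_lit 361) (B (L (nat_lit 329) ln10_14_7 ln10_14_7_ok) (L (nat_lit 393) ln10_15_7 ln10_15_7_ok))) (M (nat_lit 489) (B (L (nat_lit 457) ln10_11_5 ln10_11_5_ok) (L (nat_lit 521) ln10_12_5 ln10_12_5_ok))))) (M (nat_lit 330) (B (M (nat_lit 331) (B (L (nat_lit 299) ln10_13_6 ln10_13_6_ok) (L (nat_lit 363) ln10_14_6 ln10_14_6_ok))) (M (nat_lit 329) (B (L (nat_lit 297) ln10_13_7_c10 ln10_13_7_c10_ok) (L (nat_lit 361) ln10_14_7 ln10_14_7_ok)))))))))))))))) (nat_lit 20839919904693236361007865009656479088805549285201202130586497225381475443893278772482817183946149193610266214248817219767709894472535900160) (nat_lit 6864797664925615490872254854391473881088536412008194721878584173188015247353455444427431329280246013766789073501947054919860791269949368204415577656383242240) (nat_lit 6864797664925615490872254854391473881088536412008194721878584173188015247353455444427431329280246013766789073501947054919860791269949368204415577656383242240) (by decide +kernel)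
theorem c10_s276 : Sem (nat_lit 20839919904693236361007865009656479088805549285201202130586497225381475443893278772482817183946149193610266214248817219767709894472535900160) (nat_lit 147420407267645042704038340631665065290191579483829930991079934073755616765722972138141499162217104407247766296012265015679054650831919585200309281544990385648892379136) (nat_lit 147420407267645042704038340631665065290191579483829930991079934073755616765722972138141499162217104407247766296012265015679054650831919585200309281544990385648892379136) :=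
  sem_of_chk (M (nat_lit 458) (B (L (nat_lit 459) ln13_14_3 ln13_14_3_ok) (M (nat_lit 394) (B (M (nat_lit 423) (B (L (nat_lit 395) ln7_13_2 ln7_13_2_ok) (M (nat_lit 422) (B (L (nat_lit 457) ln6_13_0_c10 ln6_13_0_c10_ok) (L (nat_lit 393) ln6_13_2_c10 ln6_13_2_c10_ok))))) (B (M (nat_lit 490) (B (M (nat_lit 393) (B (L (nat_lit 522) ln10_16_7 ln10_16_7_ok) (L (nat_lit 361) ln10_15_7 ln10_15_7_ok))) (B (M (nat_lit 522) (B (M (nat_lit 521) (B (L (nat_lit 553) ln10_13_5 ln10_13_5_ok) (L (nat_lit 489) ln10_12_5 ln10_12_5_ok))) (M (nat_lit 523) (B (L (nat_lit 555) ln10_13_4 ln10_13_4_ok) (L (nat_lit 491) ln10_12_4 ln10_12_4_ok))))) (M (nat_lit 362) (B (M (nat_lit 489) (B (L (nat_lit 521) ln10_12_5 ln10_12_5_ok) (L (nat_lit 457) ln10_11_5 ln10_11_5_ok))) (M (nat_lit 361) (B (L (nat_lit 393) ln10_15_7 ln10_15_7_ok) (L (nat_lit 329) ln10_14_7 ln10_14_7_ok)))))))) (B (M (nat_lit 393) (B (M (nat_lit 423) (B (L (nat_lit 422) ln6_13_2_c10 ln6_13_2_c10_ok) (L (nat_lit 395) ln7_13_2 ln7_13_2_ok))) (M (nat_lit 490) (B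 (L (nat_lit 522) ln10_16_7 ln10_16_7_ok) (L (nat_lit 361) ln10_15_7 ln10_15_7_ok))))) (M (nat_lit 457) (B (M (nat_lit 423) (B (L (nat_lit 422) ln6_13_0_c10 ln6_13_0_c10_ok) (L (nat_lit 395) ln7_13_2 ln7_13_2_ok))) (M (nat_lit 489) (B (L (nat_lit 521) ln9_16_6 ln9_16_6_ok) (L (nat_lit 362) ln10_11_5 ln10_11_5_ok))))))))))) (nat_lit 20839919904693236361007865009656479088805549285201202130586497225381475443893278772482817183946149193610266214248817219767709894472535900160) (nat_lit 147420407267645042704038340631665065290191579483829930991079934073755616765722972138141499162217104407247766296012265015679054650831919585200309281544990385648892379136) (nat_lit 147420407267645042704038340631665065290191579483829930991079934073755616765722972138141499162217104407247766296012265015679054650831919585200309281544990385648892379136) (by decide +kernel)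
theorem c10_s282 : Sem (nat_lit 20839919904563267469136299467468243040968311306576724125601814824542818561135580730608205265846292373090681313944358956363619163917254656000) (nat_lit 633165827977536177350368080143109437449543020409924937437680490484456476679378995943956729241357765899458613269738614179460560657661713735577775055182719900123685066310575718400) (nat_lit 633165827977536177350368080143109437449543020409924937437680490484456476679378995943956729241357765899458613269738614179460560657661713735577775055182719900123685066310575718400) :=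
  sem_of_chk (M (nat_lit 458) (B (M (nat_lit 490) (B (M (nat_lit 491) (B (L (nat_lit 523) ln10_12_4 ln10_12_4_ok) (L (nat_lit 459) ln10_11_4 ln10_11_4_ok))) (M (nat_lit 489) (B (L (nat_lit 521) ln10_12_5 ln10_12_5_ok) (L (nat_lit 457) ln10_11_5 ln10_11_5_ok))))) (B (M (nat_lit 457) (B (L (nat_lit 489) ln10_11_5 ln10_11_5_ok) (M (nat_lit 425) (B (L (nat_lit 330) ln10_10_5 ln10_10_5_ok) (L (nat_lit 459) ln13_14_3 ln13_14_3_ok))))) (B (M (nat_lit 490) (B (M (nat_lit 489) (B (L (nat_lit 521) ln10_12_5 ln10_12_5_ok) (L (nat_lit 457) ln10_11_5 ln10_11_5_ok))) (B (M (nat_lit 425) (B (M (nat_lit 393) (B (L (nat_lit 522) ln10_16_7 ln10_16_7_ok) (L (nat_lit 361) ln10_15_7 ln10_15_7_ok))) (M (nat_lit 457) (B (L (nat_lit 489) ln10_11_5 ln10_11_5_ok) (L (nat_lit 330) ln10_10_5 ln10_10_5_ok))))) (M (nat_lit 522) (B (M (nat_lit 393) (B (L (nat_lit 425) ln10_16_7 ln10_16_7_ok) (L (nat_lit 361) ln10_15_7 ln10_15_7_ok))) (M (nat_lit 554) (B (M (nat_lit 555) (B (L (nat_lit 587) ln10_14_4 ln10_14_4_ok) (L (nat_lit 523)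 ln10_13_4 ln10_13_4_ok))) (M (nat_lit 553) (B (L (nat_lit 585) ln10_14_5 ln10_14_5_ok) (L (nat_lit 521) ln10_13_5 ln10_13_5_ok)))))))))) (B (M (nat_lit 490) (B (M (nat_lit 491) (B (L (nat_lit 523) ln10_12_4 ln10_12_4_ok) (L (nat_lit 459) ln10_11_4 ln10_11_4_ok))) (M (nat_lit 393) (B (L (nat_lit 361) ln10_15_7 ln10_15_7_ok) (M (nat_lit 425) (B (L (nat_lit 522) ln10_16_7 ln10_16_7_ok) (M (nat_lit 330) (B (L (nat_lit 457) ln10_10_5 ln10_10_5_ok) (L (nat_lit 298) ln10_9_5_c10 ln10_9_5_c10_ok))))))))) (M (nat_lit 490) (B (M (nat_lit 491) (B (L (nat_lit 523) ln10_12_4 ln10_12_4_ok) (L (nat_lit 459) ln10_11_4 ln10_11_4_ok))) (M (nat_lit 522) (B (M (nat_lit 521) (B (L (nat_lit 553) ln10_13_5 ln10_13_5_ok) (L (nat_lit 489) ln10_12_5 ln10_12_5_ok))) (M (nat_lit 393) (B (L (nat_lit 425) ln10_16_7 ln10_16_7_ok) (L (nat_lit 361) ln10_15_7 ln10_15_7_ok)))))))))))) (nat_lit 20839919904563267469136299467468243040968311306576724125601814824542818561135580730608205265846292373090681313944358956363619163917254656000) (nat_lit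 633165827977536177350368080143109437449543020409924937437680490484456476679378995943956729241357765899458613269738614179460560657661713735577775055182719900123685066310575718400) (nat_lit 633165827977536177350368080143109437449543020409924937437680490484456476679378995943956729241357765899458613269738614179460560657661713735577775055182719900123685066310575718400) (by decide +kernel)
theorem c10_s283 : Sem (nat_lit 20839919904563267469136299467468243040968311306576724125601814824542818561135580730608205265846292373090681313944358956363619163917254656000) (nat_lit 3196670516267858898700102947192159167905306185660441332006840142356171188768828656099835872480559539135789623922643772752119376315373635267014426624) (nat_lit 3196670516267858898700102947192159167905306185660441332006840142356171188768828656099835872480559539135789623922643772752119376315373635267014426624) :=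
  sem_of_chk (M (nat_lit 330) (B (M (nat_lit 298) (B (M (nat_lit 299) (B (L (nat_lit 267) ln10_12_6_c10 ln10_12_6_c10_ok) (L (nat_lit 331) ln10_13_6 ln10_13_6_ok))) (M (nat_lit 297) (B (L (nat_lit 265) ln10_12_7_c10 ln10_12_7_c10_ok) (L (nat_lit 329) ln10_13_7_c10 ln10_13_7_c10_ok))))) (B (M (nat_lit 329) (B (L (nat_lit 297) ln10_13_7_c10 ln10_13_7_c10_ok) (M (nat_lit 361) (B (L (nat_lit 458) ln10_14_7 ln10_14_7_ok) (M (nat_lit 331) (B (L (nat_lit 299) ln10_13_6 ln10_13_6_ok) (M (nat_lit 332) (B (L (nat_lit 333) ln13_10_1 ln13_10_1_ok) (L (nat_lit 360) ln12_10_1 ln12_10_1_ok))))))))) (B (M (nat_lit 298) (B (M (nat_lit 297) (B (L (nat_lit 265) ln10_12_7_c10 ln10_12_7_c10_ok) (L (nat_lit 329) ln10_13_7_c10 ln10_13_7_c10_ok))) (B (M (nat_lit 361) (B (M (nat_lit 393) (B (L (nat_lit 266) ln10_8_5_c10 ln10_8_5_c10_ok) (L (nat_lit 425) ln10_9_5_c10 ln10_9_5_c10_ok))) (M (nat_lit 329) (B (L (nat_lit 297) ln10_13_7_c10 ln10_13_7_c10_ok) (L (nat_lit 458) ln10_14_7 ln10_14_7_ok))))) (M (nat_lit 266) (B (M (nat_lit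 393) (B (L (nat_lit 361) ln10_8_5_c10 ln10_8_5_c10_ok) (L (nat_lit 425) ln10_9_5_c10 ln10_9_5_c10_ok))) (M (nat_lit 234) (B (M (nat_lit 235) (B (L (nat_lit 203) ln10_10_6_c10 ln10_10_6_c10_ok) (L (nat_lit 267) ln10_11_6_c10 ln10_11_6_c10_ok))) (M (nat_lit 233) (B (L (nat_lit 201) ln10_10_7_c10 ln10_10_7_c10_ok) (L (nat_lit 265) ln10_11_7_c10 ln10_11_7_c10_ok)))))))))) (B (M (nat_lit 298) (B (M (nat_lit 299) (B (L (nat_lit 267) ln10_12_6_c10 ln10_12_6_c10_ok) (L (nat_lit 331) ln10_13_6 ln10_13_6_ok))) (M (nat_lit 393) (B (L (nat_lit 425) ln10_9_5_c10 ln10_9_5_c10_ok) (M (nat_lit 361) (B (L (nat_lit 266) ln10_8_5_c10 ln10_8_5_c10_ok) (M (nat_lit 458) (B (L (nat_lit 329) ln10_14_7 ln10_14_7_ok) (L (nat_lit 490) ln10_15_7 ln10_15_7_ok))))))))) (M (nat_lit 298) (B (M (nat_lit 299) (B (L (nat_lit 267) ln10_12_6_c10 ln10_12_6_c10_ok) (L (nat_lit 331) ln10_13_6 ln10_13_6_ok))) (M (nat_lit 266) (B (M (nat_lit 265) (B (L (nat_lit 233) ln10_11_7_c10 ln10_11_7_c10_ok) (L (nat_lit 297) ln10_12_7_c10 ln10_12_7_c10_ok)))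 (M (nat_lit 393) (B (L (nat_lit 361) ln10_8_5_c10 ln10_8_5_c10_ok) (L (nat_lit 425) ln10_9_5_c10 ln10_9_5_c10_ok)))))))))))) (nat_lit 20839919904563267469136299467468243040968311306576724125601814824542818561135580730608205265846292373090681313944358956363619163917254656000) (nat_lit 3196670516267858898700102947192159167905306185660441332006840142356171188768828656099835872480559539135789623922643772752119376315373635267014426624) (nat_lit 3196670516267858898700102947192159167905306185660441332006840142356171188768828656099835872480559539135789623922643772752119376315373635267014426624) (by decide +kernel)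
theorem c10_s284 : Sem (nat_lit 20839919904563267469136299467468243040968311306576724125601814824542818561135580730608205265846292373090681313944358956363619163917254656000) (nat_lit 147420407267645042705436883982485735880110016980539080071782319937271812628311188475113637032506468539678948169724683462144572858337051043568730143147507580922631290880) (nat_lit 147420407267645042705436883982485735880110016980539080071782319937271812628311188475113637032506468539678948169724683462144572858337051043568730143147507580922631290880) :=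
  sem_of_chk (M (nat_lit 458) (B (M (nat_lit 490) (B (M (nat_lit 523) (B (L (nat_lit 491) ln10_12_4 ln10_12_4_ok) (M (nat_lit 522) (B (L (nat_lit 555) ln10_13_4 ln10_13_4_ok) (M (nat_lit 521) (B (L (nat_lit 489) ln10_12_5 ln10_12_5_ok) (L (nat_lit 553) ln10_13_5 ln10_13_5_ok))))))) (B (M (nat_lit 522) (B (M (nat_lit 393) (B (L (nat_lit 361) ln10_15_7 ln10_15_7_ok) (L (nat_lit 425) ln10_16_7 ln10_16_7_ok))) (M (nat_lit 521) (B (L (nat_lit 489) ln10_12_5 ln10_12_5_ok) (L (nat_lit 553) ln10_13_5 ln10_13_5_ok))))) (B (M (nat_lit 522) (B (M (nat_lit 393) (B (L (nat_lit 361) ln10_15_7 ln10_15_7_ok) (L (nat_lit 425) ln10_16_7 ln10_16_7_ok))) (M (nat_lit 523) (B (L (nat_lit 491) ln10_12_4 ln10_12_4_ok) (L (nat_lit 555) ln10_13_4 ln10_13_4_ok))))) (M (nat_lit 361) (B (L (nat_lit 329) ln10_14_7 ln10_14_7_ok) (L (nat_lit 393) ln10_15_7 ln10_15_7_ok))))))) (B (M (nat_lit 489) (B (M (nat_lit 521) (B (L (nat_lit 490) ln10_12_5 ln10_12_5_ok) (L (nat_lit 457) ln10_11_5 ln10_11_5_ok))) (B (M (nat_lit 459) (B (L (nat_lit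 457) ln10_11_5 ln10_11_5_ok) (L (nat_lit 491) ln10_11_4 ln10_11_4_ok))) (M (nat_lit 490) (B (L (nat_lit 521) ln10_12_5 ln10_12_5_ok) (M (nat_lit 491) (B (L (nat_lit 523) ln10_12_4 ln10_12_4_ok) (L (nat_lit 459) ln10_11_4 ln10_11_4_ok)))))))) (B (M (nat_lit 490) (B (M (nat_lit 491) (B (L (nat_lit 523) ln10_12_4 ln10_12_4_ok) (L (nat_lit 459) ln10_11_4 ln10_11_4_ok))) (M (nat_lit 361) (B (L (nat_lit 393) ln10_15_7 ln10_15_7_ok) (L (nat_lit 329) ln10_14_7 ln10_14_7_ok))))) (B (M (nat_lit 490) (B (M (nat_lit 361) (B (L (nat_lit 329) ln10_14_7 ln10_14_7_ok) (L (nat_lit 393) ln10_15_7 ln10_15_7_ok))) (M (nat_lit 489) (B (L (nat_lit 457) ln10_11_5 ln10_11_5_ok) (L (nat_lit 521) ln10_12_5 ln10_12_5_ok))))) (M (nat_lit 457) (B (L (nat_lit 489) ln10_11_5 ln10_11_5_ok) (M (nat_lit 459) (B (L (nat_lit 491) ln10_11_4 ln10_11_4_ok) (M (nat_lit 456) (B (M (nat_lit 423) (B (L (nat_lit 424) ln11_14_3 ln11_14_3_ok) (M (nat_lit 455) (B (L (nat_lit 422) ln10_14_3 ln10_14_3_ok) (M (nat_lit 487) (B (L (nat_lit 486) ln10_14_1_c10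 ln10_14_1_c10_ok) (L (nat_lit 488) ln11_14_1 ln11_14_1_ok))))))) (L (nat_lit 425) ln13_14_3 ln13_14_3_ok)))))))))))) (nat_lit 20839919904563267469136299467468243040968311306576724125601814824542818561135580730608205265846292373090681313944358956363619163917254656000) (nat_lit 147420407267645042705436883982485735880110016980539080071782319937271812628311188475113637032506468539678948169724683462144572858337051043568730143147507580922631290880) (nat_lit 147420407267645042705436883982485735880110016980539080071782319937271812628311188475113637032506468539678948169724683462144572858337051043568730143147507580922631290880) (by decide +kernel)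
theorem c10_s289 : Sem (nat_lit 20839919904563267469136299467468243040968311306576724125601814824542818561135580730608205265846292373090681313944358956363619163917254656000) (nat_lit 372141426925996655922703081200633113565176453993256711532865323622620503556172741289225465703030520108806613788331156485133432537833537536) (nat_lit 372141426925996655922703081200633113565176453993256711532865323622620503556172741289225465703030520108806613788331156485133432537833537536) :=
  sem_of_chk (M (nat_lit 330) (B (M (nat_lit 297) (B (L (nat_lit 329) ln10_13_7_c10 ln10_13_7_c10_ok) (M (nat_lit 298) (B (L (nat_lit 265) ln10_12_7_c10 ln10_12_7_c10_ok) (M (nat_lit 299) (B (L (nat_lit 267) ln10_12_6_c10 ln10_12_6_c10_ok) (L (nat_lit 331) ln10_13_6 ln10_13_6_ok))))))) (B (M (nat_lit 298) (B (M (nat_lit 297) (B (L (nat_lit 265) ln10_12_7_c10 ln10_12_7_c10_ok) (L (nat_lit 329) ln10_13_7_c10 ln10_13_7_c10_ok))) (M (nat_lit 425) (B (L (nat_lit 393) ln10_9_5_c10 ln10_9_5_c10_ok) (L (nat_lit 457) ln10_10_5 ln10_10_5_ok)))))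 (B (M (nat_lit 329) (B (L (nat_lit 297) ln10_13_7_c10 ln10_13_7_c10_ok) (M (nat_lit 328) (B (M (nat_lit 327) (B (L (nat_lit 363) ln7_10_0_c10 ln7_10_0_c10_ok) (M (nat_lit 326) (B (L (nat_lit 361) ln6_10_0_c10 ln6_10_0_c10_ok) (M (nat_lit 294) (B (L (nat_lit 295) ln10_10_3_c10 ln10_10_3_c10_ok) (L (nat_lit 293) ln9_10_3_c10 ln9_10_3_c10_ok))))))) (B (M (nat_lit 327) (B (M (nat_lit 331) (B (L (nat_lit 299) ln10_13_6 ln10_13_6_ok) (M (nat_lit 295) (B (L (nat_lit 296) ln11_10_3_c10 ln11_10_3_c10_ok) (L (nat_lit 294) ln10_10_3_c10 ln10_10_3_c10_ok))))) (B (M (nat_lit 326) (B (L (nat_lit 361) ln6_10_0_c10 ln6_10_0_c10_ok) (M (nat_lit 294) (B (L (nat_lit 295) ln10_10_3_c10 ln10_10_3_c10_ok) (L (nat_lit 293) ln9_10_3_c10 ln9_10_3_c10_ok))))) (M (nat_lit 331) (B (L (nat_lit 299) ln10_13_6 ln10_13_6_ok) (M (nat_lit 359) (B (L (nat_lit 360) ln11_10_1_c10 ln11_10_1_c10_ok) (L (nat_lit 358) ln10_10_1_c10 ln10_10_1_c10_ok)))))))) (B (M (nat_lit 327) (B (L (nat_lit 363) ln7_10_0_c10 ln7_10_0_c10_ok) (M (nat_lit 331)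 (B (L (nat_lit 299) ln10_13_6 ln10_13_6_ok) (M (nat_lit 359) (B (L (nat_lit 360) ln11_10_1_c10 ln11_10_1_c10_ok) (L (nat_lit 358) ln10_10_1_c10 ln10_10_1_c10_ok))))))) (M (nat_lit 331) (B (L (nat_lit 299) ln10_13_6 ln10_13_6_ok) (M (nat_lit 361) (B (M (nat_lit 360) (B (L (nat_lit 332) ln12_10_1 ln12_10_1_ok) (L (nat_lit 359) ln11_10_1_c10 ln11_10_1_c10_ok))) (M (nat_lit 425) (B (L (nat_lit 457) ln10_10_5 ln10_10_5_ok) (M (nat_lit 296) (B (L (nat_lit 295) ln11_10_3_c10 ln11_10_3_c10_ok) (L (nat_lit 393) ln9_13_7_c10 ln9_13_7_c10_ok))))))))))))))) (M (nat_lit 298) (B (M (nat_lit 299) (B (L (nat_lit 267) ln10_12_6_c10 ln10_12_6_c10_ok) (L (nat_lit 331) ln10_13_6 ln10_13_6_ok))) (M (nat_lit 425) (B (L (nat_lit 393) ln10_9_5_c10 ln10_9_5_c10_ok) (L (nat_lit 457) ln10_10_5 ln10_10_5_ok))))))))) (nat_lit 20839919904563267469136299467468243040968311306576724125601814824542818561135580730608205265846292373090681313944358956363619163917254656000) (nat_lit 372141426925996655922703081200633113565176453993256711532865323622620503556172741289225465703030520108806613788331156485133432537833537536)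 (nat_lit 372141426925996655922703081200633113565176453993256711532865323622620503556172741289225465703030520108806613788331156485133432537833537536) (by decide +kernel)
theorem c10_s290 : Sem (nat_lit 20839919904563267469136299467468243040968311306576724125601814824542818561135580730608205265846292373090681313944358956363619163917254656000) (nat_lit 206388570155481626332812630958118201003465224345834051728141312142293198605540165571755912331630652035957189951953103478833272056879861221457198175956115680201554264064) (nat_lit 206388570155481626332812630958118201003465224345834051728141312142293198605540165571755912331630652035957189951953103478833272056879861221457198175956115680201554264064) :=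
  sem_of_chk (M (nat_lit 458) (B (M (nat_lit 490) (B (M (nat_lit 361) (B (L (nat_lit 329) ln10_14_7 ln10_14_7_ok) (L (nat_lit 393) ln10_15_7 ln10_15_7_ok))) (M (nat_lit 489) (B (L (nat_lit 457) ln10_11_5 ln10_11_5_ok) (L (nat_lit 521) ln10_12_5 ln10_12_5_ok))))) (B (M (nat_lit 330) (B (M (nat_lit 329) (B (L (nat_lit 297) ln10_13_7_c10 ln10_13_7_c10_ok) (L (nat_lit 361) ln10_14_7 ln10_14_7_ok))) (M (nat_lit 457) (B (L (nat_lit 425) ln10_10_5 ln10_10_5_ok) (L (nat_lit 489) ln10_11_5 ln10_11_5_ok))))) (B (M (nat_lit 490) (B (M (nat_lit 489) (B (L (nat_lit 457) ln10_11_5 ln10_11_5_ok) (L (nat_lit 521) ln10_12_5 ln10_12_5_ok))) (M (nat_lit 522) (B (M (nat_lit 523) (B (L (nat_lit 491) ln10_12_4 ln10_12_4_ok) (L (nat_lit 555) ln10_13_4 ln10_13_4_ok))) (M (nat_lit 393) (B (L (nat_lit 361) ln10_15_7 ln10_15_7_ok) (L (nat_lit 425) ln10_16_7 ln10_16_7_ok))))))) (B (M (nat_lit 490) (B (M (nat_lit 489) (B (L (nat_lit 457) ln10_11_5 ln10_11_5_ok) (L (nat_lit 521) ln10_12_5 ln10_12_5_ok))) (B (M (nat_lit 522) (B (M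 (nat_lit 523) (B (L (nat_lit 491) ln10_12_4 ln10_12_4_ok) (L (nat_lit 555) ln10_13_4 ln10_13_4_ok))) (M (nat_lit 521) (B (L (nat_lit 489) ln10_12_5 ln10_12_5_ok) (L (nat_lit 553) ln10_13_5 ln10_13_5_ok))))) (M (nat_lit 522) (B (M (nat_lit 523) (B (L (nat_lit 491) ln10_12_4 ln10_12_4_ok) (L (nat_lit 555) ln10_13_4 ln10_13_4_ok))) (M (nat_lit 425) (B (L (nat_lit 393) ln10_16_7 ln10_16_7_ok) (M (nat_lit 457) (B (L (nat_lit 330) ln10_10_5 ln10_10_5_ok) (L (nat_lit 554) ln10_17_7 ln10_17_7_ok)))))))))) (B (M (nat_lit 490) (B (M (nat_lit 361) (B (L (nat_lit 329) ln10_14_7 ln10_14_7_ok) (L (nat_lit 393) ln10_15_7 ln10_15_7_ok))) (M (nat_lit 522) (B (M (nat_lit 523) (B (L (nat_lit 491) ln10_12_4 ln10_12_4_ok) (L (nat_lit 555) ln10_13_4 ln10_13_4_ok))) (M (nat_lit 521) (B (L (nat_lit 489) ln10_12_5 ln10_12_5_ok) (L (nat_lit 553) ln10_13_5 ln10_13_5_ok))))))) (M (nat_lit 361) (B (L (nat_lit 329) ln10_14_7 ln10_14_7_ok) (M (nat_lit 393) (B (L (nat_lit 490) ln10_15_7 ln10_15_7_ok) (M (nat_lit 363) (B (L (nat_lit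 331) ln10_14_6 ln10_14_6_ok) (L (nat_lit 364) ln13_11_1 ln13_11_1_ok))))))))))))) (nat_lit 20839919904563267469136299467468243040968311306576724125601814824542818561135580730608205265846292373090681313944358956363619163917254656000) (nat_lit 206388570155481626332812630958118201003465224345834051728141312142293198605540165571755912331630652035957189951953103478833272056879861221457198175956115680201554264064) (nat_lit 206388570155481626332812630958118201003465224345834051728141312142293198605540165571755912331630652035957189951953103478833272056879861221457198175956115680201554264064) (by decide +kernel)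
theorem c10_s291 : Sem (nat_lit 20839919904563267469136299467468243040968311306576724125601814824542818561135580730608205265846292373090681313944358956363619163917254656000) (nat_lit 558212140410656466111459413985245569428950190539201347697531275290255881811463566699583858051511594624619259095980415868939987494509740032) (nat_lit 558212140410656466111459413985245569428950190539201347697531275290255881811463566699583858051511594624619259095980415868939987494509740032) :=
  sem_of_chk (M (nat_lit 330) (B (M (nat_lit 425) (B (L (nat_lit 457) ln10_10_5 ln10_10_5_ok) (M (nat_lit 298) (B (L (nat_lit 393) ln10_9_5_c10 ln10_9_5_c10_ok) (M (nat_lit 297) (B (L (nat_lit 329) ln10_13_7_c10 ln10_13_7_c10_ok) (L (nat_lit 265) ln10_12_7_c10 ln10_12_7_c10_ok))))))) (B (M (nat_lit 297) (B (L (nat_lit 329) ln10_13_7_c10 ln10_13_7_c10_ok) (M (nat_lit 298) (B (L (nat_lit 265) ln10_12_7_c10 ln10_12_7_c10_ok) (M (nat_lit 299) (B (L (nat_lit 331) ln10_13_6 ln10_13_6_ok) (L (nat_lit 267) ln10_12_6_c10 ln10_12_6_c10_ok)))))))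 (B (M (nat_lit 425) (B (L (nat_lit 457) ln10_10_5 ln10_10_5_ok) (M (nat_lit 298) (B (L (nat_lit 393) ln10_9_5_c10 ln10_9_5_c10_ok) (M (nat_lit 299) (B (L (nat_lit 331) ln10_13_6 ln10_13_6_ok) (L (nat_lit 267) ln10_12_6_c10 ln10_12_6_c10_ok))))))) (M (nat_lit 425) (B (L (nat_lit 457) ln10_10_5 ln10_10_5_ok) (M (nat_lit 395) (B (L (nat_lit 396) ln13_12_1 ln13_12_1_ok) (M (nat_lit 329) (B (L (nat_lit 297) ln10_13_7_c10 ln10_13_7_c10_ok) (M (nat_lit 360) (B (M (nat_lit 331) (B (L (nat_lit 299) ln10_13_6 ln10_13_6_ok) (M (nat_lit 359) (B (L (nat_lit 361) ln7_11_0 ln7_11_0_ok) (L (nat_lit 328) ln11_10_1_c10 ln11_10_1_c10_ok))))) (B (M (nat_lit 328) (B (M (nat_lit 363) (B (L (nat_lit 327) ln7_10_0_c10 ln7_10_0_c10_ok) (L (nat_lit 364) ln13_11_3 ln13_11_3_ok))) (M (nat_lit 296) (B (M (nat_lit 393) (B (L (nat_lit 392) ln8_9_4_c10 ln8_9_4_c10_ok) (L (nat_lit 361) ln9_13_7_c10 ln9_13_7_c10_ok))) (M (nat_lit 331) (B (L (nat_lit 299) ln10_13_6 ln10_13_6_ok) (L (nat_lit 295) ln11_10_3_c10 ln11_10_3_c10_ok))))))) (B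 (M (nat_lit 331) (B (L (nat_lit 299) ln10_13_6 ln10_13_6_ok) (M (nat_lit 328) (B (L (nat_lit 359) ln11_10_1_c10 ln11_10_1_c10_ok) (M (nat_lit 363) (B (L (nat_lit 327) ln7_10_0_c10 ln7_10_0_c10_ok) (L (nat_lit 364) ln8_10_0 ln8_10_0_ok))))))) (M (nat_lit 361) (B (L (nat_lit 359) ln7_11_0 ln7_11_0_ok) (M (nat_lit 424) (B (L (nat_lit 423) ln7_13_2 ln7_13_2_ok) (M (nat_lit 456) (B (L (nat_lit 393) ln9_10_5_c10 ln9_10_5_c10_ok) (L (nat_lit 392) ln8_14_6_c10 ln8_14_6_c10_ok))))))))))))))))))))) (nat_lit 20839919904563267469136299467468243040968311306576724125601814824542818561135580730608205265846292373090681313944358956363619163917254656000) (nat_lit 558212140410656466111459413985245569428950190539201347697531275290255881811463566699583858051511594624619259095980415868939987494509740032) (nat_lit 558212140410656466111459413985245569428950190539201347697531275290255881811463566699583858051511594624619259095980415868939987494509740032) (by decide +kernel)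
theorem c10_s300 : Sem (nat_lit 20839919904563267469136299467468243040968311306576724125601814824542818561135580730608205265846292373090681313944358956363619163917254656000) (nat_lit 6864797664925615489383689147434808385902572745211955656829550289524365464269608193986424582049658647957704942614348580296750875855566989832296963184388997120) (nat_lit 6864797664925615489383689147434808385902572745211955656829550289524365464269608193986424582049658647957704942614348580296750875855566989832296963184388997120) :=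
  sem_of_chk (M (nat_lit 330) (B (M (nat_lit 458) (B (M (nat_lit 329) (B (L (nat_lit 297) ln10_13_7_c10 ln10_13_7_c10_ok) (L (nat_lit 361) ln10_14_7 ln10_14_7_ok))) (M (nat_lit 457) (B (L (nat_lit 425) ln10_10_5 ln10_10_5_ok) (L (nat_lit 489) ln10_11_5 ln10_11_5_ok))))) (B (M (nat_lit 458) (B (M (nat_lit 457) (B (L (nat_lit 425) ln10_10_5 ln10_10_5_ok) (L (nat_lit 489) ln10_11_5 ln10_11_5_ok))) (B (M (nat_lit 490) (B (M (nat_lit 363) (B (L (nat_lit 331) ln10_14_6 ln10_14_6_ok) (L (nat_lit 395) ln10_15_6 ln10_15_6_ok))) (M (nat_lit 489) (B (L (nat_lit 457) ln10_11_5 ln10_11_5_ok) (L (nat_lit 521) ln10_12_5 ln10_12_5_ok))))) (M (nat_lit 363) (B (L (nat_lit 331) ln10_14_6 ln10_14_6_ok) (M (nat_lit 395) (B (L (nat_lit 490) ln10_15_6 ln10_15_6_ok) (M (nat_lit 298) (B (L (nat_lit 266) ln10_8_4 ln10_8_4_ok) (L (nat_lit 427) ln10_9_4 ln10_9_4_ok)))))))))) (B (M (nat_lit 458) (B (M (nat_lit 329) (B (L (nat_lit 297) ln10_13_7_c10 ln10_13_7_c10_ok) (L (nat_lit 361) ln10_14_7 ln10_14_7_ok))) (M (nat_lit 490) (B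 (M (nat_lit 363) (B (L (nat_lit 331) ln10_14_6 ln10_14_6_ok) (L (nat_lit 395) ln10_15_6 ln10_15_6_ok))) (M (nat_lit 489) (B (L (nat_lit 457) ln10_11_5 ln10_11_5_ok) (L (nat_lit 521) ln10_12_5 ln10_12_5_ok))))))) (B (M (nat_lit 363) (B (M (nat_lit 458) (B (L (nat_lit 331) ln10_14_6 ln10_14_6_ok) (M (nat_lit 329) (B (L (nat_lit 297) ln10_13_7_c10 ln10_13_7_c10_ok) (L (nat_lit 361) ln10_14_7 ln10_14_7_ok))))) (B (M (nat_lit 395) (B (M (nat_lit 298) (B (L (nat_lit 266) ln10_8_4 ln10_8_4_ok) (L (nat_lit 427) ln10_9_4 ln10_9_4_ok))) (M (nat_lit 458) (B (L (nat_lit 331) ln10_14_6 ln10_14_6_ok) (L (nat_lit 490) ln10_15_6 ln10_15_6_ok))))) (M (nat_lit 298) (B (M (nat_lit 297) (B (L (nat_lit 265) ln10_12_7_c10 ln10_12_7_c10_ok) (L (nat_lit 329) ln10_13_7_c10 ln10_13_7_c10_ok))) (M (nat_lit 395) (B (L (nat_lit 266) ln10_8_4 ln10_8_4_ok) (L (nat_lit 427) ln10_9_4 ln10_9_4_ok)))))))) (M (nat_lit 298) (B (M (nat_lit 297) (B (L (nat_lit 265) ln10_12_7_c10 ln10_12_7_c10_ok) (L (nat_lit 329) ln10_13_7_c10 ln10_13_7_c10_ok)))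 (B (M (nat_lit 266) (B (M (nat_lit 395) (B (L (nat_lit 363) ln10_8_4 ln10_8_4_ok) (L (nat_lit 427) ln10_9_4 ln10_9_4_ok))) (M (nat_lit 234) (B (M (nat_lit 235) (B (L (nat_lit 203) ln10_10_6_c10 ln10_10_6_c10_ok) (L (nat_lit 267) ln10_11_6_c10 ln10_11_6_c10_ok))) (M (nat_lit 329) (B (L (nat_lit 361) ln10_7_5_c10 ln10_7_5_c10_ok) (L (nat_lit 297) ln10_13_7_c10 ln10_13_7_c10_ok))))))) (M (nat_lit 266) (B (M (nat_lit 395) (B (L (nat_lit 363) ln10_8_4 ln10_8_4_ok) (L (nat_lit 427) ln10_9_4 ln10_9_4_ok))) (M (nat_lit 234) (B (M (nat_lit 233) (B (L (nat_lit 201) ln10_10_7_c10 ln10_10_7_c10_ok) (L (nat_lit 265) ln10_11_7_c10 ln10_11_7_c10_ok))) (M (nat_lit 235) (B (L (nat_lit 203) ln10_10_6_c10 ln10_10_6_c10_ok) (L (nat_lit 267) ln10_11_6_c10 ln10_11_6_c10_ok))))))))))))))) (nat_lit 20839919904563267469136299467468243040968311306576724125601814824542818561135580730608205265846292373090681313944358956363619163917254656000) (nat_lit 6864797664925615489383689147434808385902572745211955656829550289524365464269608193986424582049658647957704942614348580296750875855566989832296963184388997120)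 (nat_lit 6864797664925615489383689147434808385902572745211955656829550289524365464269608193986424582049658647957704942614348580296750875855566989832296963184388997120) (by decide +kernel)
theorem c10_s301 : Sem (nat_lit 20839919904563267469136299467468243040968311306576724125601814824542818561135580730608205265846292373090681313944358956363619163917254656000) (nat_lit 117936325823726750889651195466205648872946466954310743144385318592773228232995304602839978845808246464706339823652308044735793286482158130502913484672682232830599626752) (nat_lit 117936325823726750889651195466205648872946466954310743144385318592773228232995304602839978845808246464706339823652308044735793286482158130502913484672682232830599626752) :=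
  sem_of_chk (M (nat_lit 395) (B (M (nat_lit 361) (B (L (nat_lit 396) ln13_12_3 ln13_12_3_ok) (M (nat_lit 329) (B (L (nat_lit 458) ln10_14_7 ln10_14_7_ok) (M (nat_lit 297) (B (L (nat_lit 265) ln9_8_4_c10 ln9_8_4_c10_ok) (L (nat_lit 330) ln10_13_7_c10 ln10_13_7_c10_ok))))))) (B (M (nat_lit 425) (B (M (nat_lit 457) (B (L (nat_lit 330) ln10_10_5 ln10_10_5_ok) (M (nat_lit 489) (B (L (nat_lit 458) ln10_11_5 ln10_11_5_ok) (L (nat_lit 521) ln9_16_6 ln9_16_6_ok))))) (L (nat_lit 396) ln13_12_1 ln13_12_1_ok))) (B (M (nat_lit 458) (B (M (nat_lit 490) (B (L (nat_lit 363) ln10_15_6 ln10_15_6_ok) (M (nat_lit 489) (B (L (nat_lit 457) ln10_11_5 ln10_11_5_ok) (L (nat_lit 521) ln10_12_5 ln10_12_5_ok))))) (B (M (nat_lit 490) (B (M (nat_lit 489) (B (L (nat_lit 457) ln10_11_5 ln10_11_5_ok) (L (nat_lit 521) ln10_12_5 ln10_12_5_ok))) (M (nat_lit 522) (B (L (nat_lit 427) ln10_16_6 ln10_16_6_ok) (M (nat_lit 523) (B (L (nat_lit 491) ln10_12_4 ln10_12_4_ok) (L (nat_lit 555) ln10_13_4 ln10_13_4_ok))))))) (B (M (nat_lit 490) (B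 (L (nat_lit 363) ln10_15_6 ln10_15_6_ok) (M (nat_lit 522) (B (L (nat_lit 427) ln10_16_6 ln10_16_6_ok) (M (nat_lit 523) (B (L (nat_lit 491) ln10_12_4 ln10_12_4_ok) (L (nat_lit 555) ln10_13_4 ln10_13_4_ok))))))) (M (nat_lit 361) (B (L (nat_lit 329) ln10_14_7 ln10_14_7_ok) (M (nat_lit 360) (B (L (nat_lit 359) ln7_11_0 ln7_11_0_ok) (L (nat_lit 396) ln13_12_3 ln13_12_3_ok))))))))) (B (M (nat_lit 458) (B (M (nat_lit 490) (B (L (nat_lit 363) ln10_15_6 ln10_15_6_ok) (M (nat_lit 522) (B (L (nat_lit 427) ln10_16_6 ln10_16_6_ok) (M (nat_lit 523) (B (L (nat_lit 491) ln10_12_4 ln10_12_4_ok) (L (nat_lit 555) ln10_13_4 ln10_13_4_ok))))))) (M (nat_lit 330) (B (M (nat_lit 329) (B (L (nat_lit 297) ln10_13_7_c10 ln10_13_7_c10_ok) (L (nat_lit 361) ln10_14_7 ln10_14_7_ok))) (M (nat_lit 457) (B (L (nat_lit 425) ln10_10_5 ln10_10_5_ok) (L (nat_lit 489) ln10_11_5 ln10_11_5_ok))))))) (M (nat_lit 330) (B (M (nat_lit 298) (B (L (nat_lit 427) ln10_9_4 ln10_9_4_ok) (M (nat_lit 297) (B (L (nat_lit 265) ln10_12_7_c10 ln10_12_7_c10_ok)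 (L (nat_lit 329) ln10_13_7_c10 ln10_13_7_c10_ok))))) (B (M (nat_lit 298) (B (L (nat_lit 427) ln10_9_4 ln10_9_4_ok) (M (nat_lit 266) (B (L (nat_lit 363) ln10_8_4 ln10_8_4_ok) (M (nat_lit 267) (B (L (nat_lit 235) ln10_11_6_c10 ln10_11_6_c10_ok) (L (nat_lit 299) ln10_12_6_c10 ln10_12_6_c10_ok))))))) (M (nat_lit 425) (B (L (nat_lit 457) ln10_10_5 ln10_10_5_ok) (L (nat_lit 396) ln13_12_1 ln13_12_1_ok))))))))))) (nat_lit 20839919904563267469136299467468243040968311306576724125601814824542818561135580730608205265846292373090681313944358956363619163917254656000) (nat_lit 117936325823726750889651195466205648872946466954310743144385318592773228232995304602839978845808246464706339823652308044735793286482158130502913484672682232830599626752) (nat_lit 117936325823726750889651195466205648872946466954310743144385318592773228232995304602839978845808246464706339823652308044735793286482158130502913484672682232830599626752) (by decide +kernel)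
theorem c10_s306 : Sem (nat_lit 20839919904563267469136299467468243040968311306576724125601814824542818561135580730608205265846292373090681313944358956363619163917254656000) (nat_lit 6864797664925615489383689147088224674076949406228203623075039053729326888408136184940573228113078127685718702742300399125259000678433482824261200559093055488) (nat_lit 6864797664925615489383689147088224674076949406228203623075039053729326888408136184940573228113078127685718702742300399125259000678433482824261200559093055488) :=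
  sem_of_chk (M (nat_lit 330) (B (M (nat_lit 298) (B (M (nat_lit 297) (B (L (nat_lit 265) ln10_12_7_c10 ln10_12_7_c10_ok) (L (nat_lit 329) ln10_13_7_c10 ln10_13_7_c10_ok))) (M (nat_lit 425) (B (L (nat_lit 393) ln10_9_5_c10 ln10_9_5_c10_ok) (L (nat_lit 457) ln10_10_5 ln10_10_5_ok))))) (B (M (nat_lit 458) (B (M (nat_lit 329) (B (L (nat_lit 297) ln10_13_7_c10 ln10_13_7_c10_ok) (L (nat_lit 361) ln10_14_7 ln10_14_7_ok))) (M (nat_lit 457) (B (L (nat_lit 425) ln10_10_5 ln10_10_5_ok) (L (nat_lit 489) ln10_11_5 ln10_11_5_ok))))) (B (M (nat_lit 458) (B (M (nat_lit 457) (B (L (nat_lit 425) ln10_10_5 ln10_10_5_ok) (L (nat_lit 489) ln10_11_5 ln10_11_5_ok))) (B (M (nat_lit 490) (B (M (nat_lit 361) (B (L (nat_lit 329) ln10_14_7 ln10_14_7_ok) (L (nat_lit 393) ln10_15_7 ln10_15_7_ok))) (M (nat_lit 489) (B (L (nat_lit 457) ln10_11_5 ln10_11_5_ok) (L (nat_lit 521) ln10_12_5 ln10_12_5_ok))))) (M (nat_lit 361) (B (L (nat_lit 329) ln10_14_7 ln10_14_7_ok) (M (nat_lit 393) (B (L (nat_lit 490) ln10_15_7 ln10_15_7_ok) (M (nat_lit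 298) (B (L (nat_lit 266) ln10_8_5_c10 ln10_8_5_c10_ok) (L (nat_lit 425) ln10_9_5_c10 ln10_9_5_c10_ok)))))))))) (B (M (nat_lit 298) (B (M (nat_lit 425) (B (L (nat_lit 393) ln10_9_5_c10 ln10_9_5_c10_ok) (L (nat_lit 457) ln10_10_5 ln10_10_5_ok))) (M (nat_lit 266) (B (M (nat_lit 265) (B (L (nat_lit 233) ln10_11_7_c10 ln10_11_7_c10_ok) (L (nat_lit 297) ln10_12_7_c10 ln10_12_7_c10_ok))) (M (nat_lit 267) (B (L (nat_lit 235) ln10_11_6_c10 ln10_11_6_c10_ok) (L (nat_lit 299) ln10_12_6_c10 ln10_12_6_c10_ok))))))) (M (nat_lit 298) (B (M (nat_lit 297) (B (L (nat_lit 265) ln10_12_7_c10 ln10_12_7_c10_ok) (L (nat_lit 329) ln10_13_7_c10 ln10_13_7_c10_ok))) (B (M (nat_lit 329) (B (L (nat_lit 297) ln10_13_7_c10 ln10_13_7_c10_ok) (M (nat_lit 361) (B (L (nat_lit 458) ln10_14_7 ln10_14_7_ok) (M (nat_lit 266) (B (L (nat_lit 234) ln10_7_5_c10 ln10_7_5_c10_ok) (L (nat_lit 393) ln10_8_5_c10 ln10_8_5_c10_ok))))))) (B (M (nat_lit 266) (B (M (nat_lit 267) (B (L (nat_lit 235) ln10_11_6_c10 ln10_11_6_c10_ok) (L (nat_lit 299) ln10_12_6_c10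 ln10_12_6_c10_ok))) (M (nat_lit 361) (B (L (nat_lit 393) ln10_8_5_c10 ln10_8_5_c10_ok) (M (nat_lit 329) (B (L (nat_lit 234) ln10_7_5_c10 ln10_7_5_c10_ok) (L (nat_lit 458) ln10_14_7 ln10_14_7_ok))))))) (M (nat_lit 266) (B (M (nat_lit 265) (B (L (nat_lit 233) ln10_11_7_c10 ln10_11_7_c10_ok) (L (nat_lit 297) ln10_12_7_c10 ln10_12_7_c10_ok))) (M (nat_lit 267) (B (L (nat_lit 235) ln10_11_6_c10 ln10_11_6_c10_ok) (L (nat_lit 299) ln10_12_6_c10 ln10_12_6_c10_ok)))))))))))))) (nat_lit 20839919904563267469136299467468243040968311306576724125601814824542818561135580730608205265846292373090681313944358956363619163917254656000) (nat_lit 6864797664925615489383689147088224674076949406228203623075039053729326888408136184940573228113078127685718702742300399125259000678433482824261200559093055488) (nat_lit 6864797664925615489383689147088224674076949406228203623075039053729326888408136184940573228113078127685718702742300399125259000678433482824261200559093055488) (by decide +kernel)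
theorem c10_s310 : Sem (nat_lit 20839919904563267469136299467468243040968311306576724125601814824542818561135580730608205265846292373090681313944358956363619163917254656000) (nat_lit 744282853678701456164593505374972563194172644075234916123012523926223123846953795925963398222338182636313970207039852919856991822113931264) (nat_lit 744282853678701456164593505374972563194172644075234916123012523926223123846953795925963398222338182636313970207039852919856991822113931264) :=
  sem_of_chk (M (nat_lit 331) (B (M (nat_lit 299) (B (L (nat_lit 330) ln10_13_6 ln10_13_6_ok) (M (nat_lit 363) (B (L (nat_lit 395) ln11_9_5 ln11_9_5_ok) (L (nat_lit 458) ln10_14_6 ln10_14_6_ok))))) (B (M (nat_lit 361) (B (M (nat_lit 458) (B (L (nat_lit 363) ln10_14_6 ln10_14_6_ok) (L (nat_lit 329) ln10_14_7 ln10_14_7_ok))) (B (M (nat_lit 329) (B (L (nat_lit 458) ln10_14_7 ln10_14_7_ok) (M (nat_lit 297) (B (L (nat_lit 330) ln10_13_7_c10 ln10_13_7_c10_ok) (L (nat_lit 265) ln9_8_4_c10 ln9_8_4_c10_ok))))) (B (M (nat_lit 360) (B (M (nat_lit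 359) (B (L (nat_lit 330) ln7_11_2 ln7_11_2_ok) (L (nat_lit 395) ln7_11_0 ln7_11_0_ok))) (B (M (nat_lit 332) (B (L (nat_lit 363) ln8_11_2 ln8_11_2_ok) (M (nat_lit 330) (B (L (nat_lit 333) ln13_10_1 ln13_10_1_ok) (L (nat_lit 359) ln7_11_2 ln7_11_2_ok))))) (B (M (nat_lit 363) (B (L (nat_lit 332) ln8_11_2 ln8_11_2_ok) (M (nat_lit 395) (B (L (nat_lit 396) ln8_11_0 ln8_11_0_ok) (L (nat_lit 359) ln7_11_0 ln7_11_0_ok))))) (M (nat_lit 332) (B (L (nat_lit 363) ln8_11_2 ln8_11_2_ok) (M (nat_lit 330) (B (L (nat_lit 333) ln13_10_1 ln13_10_1_ok) (L (nat_lit 329) ln12_10_1 ln12_10_1_ok))))))))) (M (nat_lit 360) (B (M (nat_lit 363) (B (L (nat_lit 332) ln8_11_2 ln8_11_2_ok) (L (nat_lit 458) ln10_14_6 ln10_14_6_ok))) (M (nat_lit 359) (B (L (nat_lit 330) ln7_11_2 ln7_11_2_ok) (L (nat_lit 395) ln7_11_0 ln7_11_0_ok))))))))) (B (M (nat_lit 330) (B (L (nat_lit 299) ln10_13_6 ln10_13_6_ok) (M (nat_lit 329) (B (L (nat_lit 297) ln10_13_7_c10 ln10_13_7_c10_ok) (M (nat_lit 361) (B (L (nat_lit 458) ln10_14_7 ln10_14_7_ok) (M (nat_lit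 360) (B (L (nat_lit 332) ln12_10_1 ln12_10_1_ok) (L (nat_lit 359) ln7_11_2 ln7_11_2_ok))))))))) (B (M (nat_lit 363) (B (L (nat_lit 458) ln10_14_6 ln10_14_6_ok) (M (nat_lit 299) (B (L (nat_lit 267) ln11_8_5 ln11_8_5_ok) (L (nat_lit 395) ln11_9_5 ln11_9_5_ok))))) (M (nat_lit 299) (B (L (nat_lit 330) ln10_13_6 ln10_13_6_ok) (M (nat_lit 363) (B (L (nat_lit 267) ln11_8_5 ln11_8_5_ok) (L (nat_lit 395) ln11_9_5 ln11_9_5_ok)))))))))) (nat_lit 20839919904563267469136299467468243040968311306576724125601814824542818561135580730608205265846292373090681313944358956363619163917254656000) (nat_lit 744282853678701456164593505374972563194172644075234916123012523926223123846953795925963398222338182636313970207039852919856991822113931264) (nat_lit 744282853678701456164593505374972563194172644075234916123012523926223123846953795925963398222338182636313970207039852919856991822113931264) (by decide +kernel)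
theorem c10_s313 : Sem (nat_lit 20839919904563267469136299467468243040968311306576724125601814824542818561135580730608205265846292373090681313944358956363619163917254656000) (nat_lit 117936325823726750889651195466205648873011451400951349002325238146009649827819485765187469612741332265364094555902163573524311622745003990136870664537859847154988744704) (nat_lit 117936325823726750889651195466205648873011451400951349002325238146009649827819485765187469612741332265364094555902163573524311622745003990136870664537859847154988744704) :=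
  sem_of_chk (M (nat_lit 395) (B (M (nat_lit 396) (B (L (nat_lit 361) ln13_12_3 ln13_12_3_ok) (M (nat_lit 398) (B (L (nat_lit 363) ln14_12_3 ln14_12_3_ok) (L (nat_lit 425) ln13_12_1 ln13_12_1_ok))))) (B (M (nat_lit 396) (B (L (nat_lit 361) ln13_12_3 ln13_12_3_ok) (L (nat_lit 425) ln13_12_1 ln13_12_1_ok))) (B (M (nat_lit 458) (B (M (nat_lit 361) (B (L (nat_lit 329) ln10_14_7 ln10_14_7_ok) (L (nat_lit 396) ln13_12_3 ln13_12_3_ok))) (M (nat_lit 363) (B (L (nat_lit 331) ln10_14_6 ln10_14_6_ok) (L (nat_lit 490) ln10_15_6 ln10_15_6_ok))))) (B (M (nat_lit 396) (B (L (nat_lit 425) ln13_12_1 ln13_12_1_ok) (M (nat_lit 398) (B (L (nat_lit 363) ln14_12_3 ln14_12_3_ok) (L (nat_lit 427) ln14_12_1 ln14_12_1_ok))))) (M (nat_lit 458) (B (M (nat_lit 363) (B (L (nat_lit 490) ln10_15_6 ln10_15_6_ok) (L (nat_lit 331) ln10_14_6 ln10_14_6_ok))) (B (M (nat_lit 490) (B (L (nat_lit 363) ln10_15_6 ln10_15_6_ok) (M (nat_lit 489) (B (L (nat_lit 457) ln10_11_5 ln10_11_5_ok) (L (nat_lit 521) ln10_12_5 ln10_12_5_ok))))) (B (M (nat_lit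 490) (B (M (nat_lit 489) (B (L (nat_lit 457) ln10_11_5 ln10_11_5_ok) (L (nat_lit 521) ln10_12_5 ln10_12_5_ok))) (M (nat_lit 523) (B (L (nat_lit 491) ln10_12_4 ln10_12_4_ok) (M (nat_lit 522) (B (L (nat_lit 427) ln10_16_6 ln10_16_6_ok) (L (nat_lit 555) ln10_13_4 ln10_13_4_ok))))))) (M (nat_lit 361) (B (L (nat_lit 329) ln10_14_7 ln10_14_7_ok) (M (nat_lit 360) (B (L (nat_lit 359) ln7_11_0 ln7_11_0_ok) (M (nat_lit 392) (B (M (nat_lit 363) (B (L (nat_lit 391) ln11_11_1 ln11_11_1_ok) (L (nat_lit 331) ln10_14_6 ln10_14_6_ok))) (B (M (nat_lit 457) (B (L (nat_lit 489) ln10_11_5 ln10_11_5_ok) (M (nat_lit 328) (B (M (nat_lit 363) (B (L (nat_lit 327) ln11_11_3 ln11_11_3_ok) (L (nat_lit 331) ln10_14_6 ln10_14_6_ok))) (M (nat_lit 425) (B (L (nat_lit 424) ln8_10_4_c10 ln8_10_4_c10_ok) (L (nat_lit 393) ln9_14_7_c10 ln9_14_7_c10_ok))))))) (M (nat_lit 425) (B (M (nat_lit 457) (B (L (nat_lit 489) ln10_11_5 ln10_11_5_ok) (M (nat_lit 424) (B (L (nat_lit 423) ln7_13_2 ln7_13_2_ok) (L (nat_lit 328) ln8_10_4_c10 ln8_10_4_c10_ok)))))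 (B (M (nat_lit 457) (B (L (nat_lit 489) ln10_11_5 ln10_11_5_ok) (M (nat_lit 328) (B (L (nat_lit 424) ln8_10_4_c10 ln8_10_4_c10_ok) (L (nat_lit 393) ln9_14_7_c10 ln9_14_7_c10_ok))))) (B (M (nat_lit 393) (B (M (nat_lit 391) (B (L (nat_lit 390) ln6_12_0_c10 ln6_12_0_c10_ok) (L (nat_lit 427) ln7_12_0_c10 ln7_12_0_c10_ok))) (M (nat_lit 457) (B (L (nat_lit 489) ln10_11_5 ln10_11_5_ok) (L (nat_lit 328) ln9_14_7_c10 ln9_14_7_c10_ok))))) (M (nat_lit 391) (B (M (nat_lit 390) (B (L (nat_lit 389) ln5_12_2_c10 ln5_12_2_c10_ok) (L (nat_lit 393) ln6_12_0_c10 ln6_12_0_c10_ok))) (B (M (nat_lit 393) (B (L (nat_lit 390) ln6_12_0_c10 ln6_12_0_c10_ok) (L (nat_lit 427) ln7_12_0_c10 ln7_12_0_c10_ok))) (B (M (nat_lit 427) (B (L (nat_lit 424) ln11_13_3 ln11_13_3_ok) (L (nat_lit 393) ln7_12_0_c10 ln7_12_0_c10_ok))) (M (nat_lit 424) (B (L (nat_lit 423) ln7_13_2 ln7_13_2_ok) (L (nat_lit 427) ln11_13_3 ln11_13_3_ok))))))))))))))))))))))))))) (nat_lit 20839919904563267469136299467468243040968311306576724125601814824542818561135580730608205265846292373090681313944358956363619163917254656000)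 (nat_lit 117936325823726750889651195466205648873011451400951349002325238146009649827819485765187469612741332265364094555902163573524311622745003990136870664537859847154988744704) (nat_lit 117936325823726750889651195466205648873011451400951349002325238146009649827819485765187469612741332265364094555902163573524311622745003990136870664537859847154988744704) (by decide +kernel)
theorem c10_s322 : Sem (nat_lit 8931394323165503754481658153670348049985162940857813804920622417077344278730704448857942057155343404368412318944338361584051269924982620160) (nat_lit 3514776404441915132850885770031955481404650436055630624304407588884775238942867984012250340750425311733717383336133668029976061543808264903816786153408605192192) (nat_lit 3514776404441915132850885770031955481404650436055630624304407588884775238942867984012250340750425311733717383336133668029976061543808264903816786153408605192192) :=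
  sem_of_chk (M (nat_lit 435) (B (M (nat_lit 400) (B (L (nat_lit 399) ln13_12_0 ln13_12_0_ok) (M (nat_lit 404) (B (L (nat_lit 403) ln16_13_2_c10 ln16_13_2_c10_ok) (M (nat_lit 436) (B (L (nat_lit 405) ln17_13_2_c10 ln17_13_2_c10_ok) (L (nat_lit 401) ln20_13_3_c10 ln20_13_3_c10_ok))))))) (B (M (nat_lit 436) (B (M (nat_lit 468) (B (L (nat_lit 469) ln17_13_0_c10 ln17_13_0_c10_ok) (L (nat_lit 467) ln16_13_0_c10 ln16_13_0_c10_ok))) (M (nat_lit 400) (B (L (nat_lit 401) ln20_13_3_c10 ln20_13_3_c10_ok) (L (nat_lit 399) ln13_12_0 ln13_12_0_ok))))) (M (nat_lit 403) (B (L (nat_lit 404) ln16_13_2_c10 ln16_13_2_c10_ok) (M (nat_lit 467) (B (L (nat_lit 468) ln16_13_0_c10 ln16_13_0_c10_ok) (M (nat_lit 371) (B (M (nat_lit 466) (B (L (nat_lit 339) ln19_10_5_c10 ln19_10_5_c10_ok) (L (nat_lit 498) ln19_11_5_c10 ln19_11_5_c10_ok))) (B (M (nat_lit 499) (B (M (nat_lit 370) (B (L (nat_lit 338) ln19_14_7_c10 ln19_14_7_c10_ok) (L (nat_lit 402) ln19_15_7_c10 ln19_15_7_c10_ok))) (M (nat_lit 498) (B (L (nat_lit 466) ln19_11_5_c10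 ln19_11_5_c10_ok) (L (nat_lit 530) ln19_12_5_c10 ln19_12_5_c10_ok))))) (M (nat_lit 339) (B (M (nat_lit 340) (B (L (nat_lit 308) ln19_13_6_c10 ln19_13_6_c10_ok) (L (nat_lit 372) ln19_14_6_c10 ln19_14_6_c10_ok))) (M (nat_lit 338) (B (L (nat_lit 306) ln19_13_7_c10 ln19_13_7_c10_ok) (L (nat_lit 370) ln19_14_7_c10 ln19_14_7_c10_ok))))))))))))))) (nat_lit 8931394323165503754481658153670348049985162940857813804920622417077344278730704448857942057155343404368412318944338361584051269924982620160) (nat_lit 3514776404441915132850885770031955481404650436055630624304407588884775238942867984012250340750425311733717383336133668029976061543808264903816786153408605192192) (nat_lit 3514776404441915132850885770031955481404650436055630624304407588884775238942867984012250340750425311733717383336133668029976061543808264903816786153408605192192) (by decide +kernel)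
theorem c10_s323 : Sem (nat_lit 8931394323165503754481658153670348049985162940857813804920622417077344278730704448857942057155343404368412318944338361584051269924982620160) (nat_lit 7029552806019613481029869450508948361856703989967823963373201306549228913779275157935294531269300559572710493300911117032603956149764202372018976358843908358144) (nat_lit 7029552806019613481029869450508948361856703989967823963373201306549228913779275157935294531269300559572710493300911117032603956149764202372018976358843908358144) :=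
  sem_of_chk (M (nat_lit 467) (B (M (nat_lit 468) (B (L (nat_lit 435) ln16_13_0_c10 ln16_13_0_c10_ok) (M (nat_lit 466) (B (L (nat_lit 465) ln20_14_3_c10 ln20_14_3_c10_ok) (L (nat_lit 431) ln15_13_0_c10 ln15_13_0_c10_ok))))) (B (M (nat_lit 402) (B (M (nat_lit 431) (B (L (nat_lit 466) ln15_13_0_c10 ln15_13_0_c10_ok) (L (nat_lit 403) ln15_13_2_c10 ln15_13_2_c10_ok))) (B (M (nat_lit 403) (B (L (nat_lit 431) ln15_13_2_c10 ln15_13_2_c10_ok) (M (nat_lit 404) (B (L (nat_lit 435) ln16_13_2_c10 ln16_13_2_c10_ok) (L (nat_lit 405) ln21_12_1_c10 ln21_12_1_c10_ok))))) (B (M (nat_lit 370) (B (M (nat_lit 338) (B (L (nat_lit 435) ln18_10_4_c10 ln18_10_4_c10_ok) (L (nat_lit 465) ln18_10_5_c10 ln18_10_5_c10_ok))) (B (M (nat_lit 499) (B (L (nat_lit 466) ln18_11_4_c10 ln18_11_4_c10_ok) (M (nat_lit 435) (B (L (nat_lit 531) ln19_16_7_c10 ln19_16_7_c10_ok) (L (nat_lit 338) ln18_10_4_c10 ln18_10_4_c10_ok))))) (B (M (nat_lit 466) (B (L (nat_lit 499) ln18_11_4_c10 ln18_11_4_c10_ok) (M (nat_lit 465) (B (L (nat_lit 497) ln18_11_5_c10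 ln18_11_5_c10_ok) (L (nat_lit 338) ln18_10_5_c10 ln18_10_5_c10_ok))))) (M (nat_lit 499) (B (L (nat_lit 466) ln18_11_4_c10 ln18_11_4_c10_ok) (M (nat_lit 435) (B (L (nat_lit 531) ln19_16_7_c10 ln19_16_7_c10_ok) (L (nat_lit 403) ln19_15_7_c10 ln19_15_7_c10_ok))))))))) (M (nat_lit 370) (B (M (nat_lit 466) (B (L (nat_lit 499) ln18_11_4_c10 ln18_11_4_c10_ok) (L (nat_lit 431) ln15_13_0_c10 ln15_13_0_c10_ok))) (M (nat_lit 338) (B (L (nat_lit 435) ln18_10_4_c10 ln18_10_4_c10_ok) (L (nat_lit 465) ln18_10_5_c10 ln18_10_5_c10_ok))))))))) (B (M (nat_lit 435) (B (L (nat_lit 468) ln16_13_0_c10 ln16_13_0_c10_ok) (M (nat_lit 403) (B (L (nat_lit 404) ln16_13_2_c10 ln16_13_2_c10_ok) (M (nat_lit 402) (B (L (nat_lit 431) ln15_13_2_c10 ln15_13_2_c10_ok) (M (nat_lit 370) (B (L (nat_lit 499) ln19_15_7_c10 ln19_15_7_c10_ok) (L (nat_lit 338) ln18_10_4_c10 ln18_10_4_c10_ok))))))))) (B (M (nat_lit 466) (B (L (nat_lit 431) ln15_13_0_c10 ln15_13_0_c10_ok) (M (nat_lit 468) (B (L (nat_lit 469) ln21_14_3_c10 ln21_14_3_c10_ok) (L (nat_lit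 465) ln20_14_3_c10 ln20_14_3_c10_ok))))) (M (nat_lit 468) (B (L (nat_lit 435) ln16_13_0_c10 ln16_13_0_c10_ok) (M (nat_lit 466) (B (L (nat_lit 469) ln21_14_3_c10 ln21_14_3_c10_ok) (L (nat_lit 465) ln20_14_3_c10 ln20_14_3_c10_ok)))))))))) (nat_lit 8931394323165503754481658153670348049985162940857813804920622417077344278730704448857942057155343404368412318944338361584051269924982620160) (nat_lit 7029552806019613481029869450508948361856703989967823963373201306549228913779275157935294531269300559572710493300911117032603956149764202372018976358843908358144) (nat_lit 7029552806019613481029869450508948361856703989967823963373201306549228913779275157935294531269300559572710493300911117032603956149764202372018976358843908358144) (by decide +kernel)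
theorem c10_s325 : Sem (nat_lit 8931394323165503754481658153670348049985162940857813804920622417077344278730704448857942057155343404368412318944338361584051269924982620160) (nat_lit 3514776402805219827378523550519474530222191441465550989528490934481446660288929061847559846542536477905338351711297456788774239965367519036237877744596986888192) (nat_lit 3514776402805219827378523550519474530222191441465550989528490934481446660288929061847559846542536477905338351711297456788774239965367519036237877744596986888192) :=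
  sem_of_chk (M (nat_lit 403) (B (M (nat_lit 402) (B (L (nat_lit 431) ln15_13_2_c10 ln15_13_2_c10_ok) (M (nat_lit 404) (B (L (nat_lit 405) ln21_12_1_c10 ln21_12_1_c10_ok) (L (nat_lit 435) ln16_13_2_c10 ln16_13_2_c10_ok))))) (B (M (nat_lit 435) (B (L (nat_lit 404) ln16_13_2_c10 ln16_13_2_c10_ok) (M (nat_lit 467) (B (L (nat_lit 468) ln16_13_0_c10 ln16_13_0_c10_ok) (M (nat_lit 466) (B (L (nat_lit 431) ln15_13_0_c10 ln15_13_0_c10_ok) (M (nat_lit 371) (B (L (nat_lit 339) ln19_10_5_c10 ln19_10_5_c10_ok) (L (nat_lit 498) ln19_11_5_c10 ln19_11_5_c10_ok))))))))) (B (M (nat_lit 466) (B (M (nat_lit 431) (B (L (nat_lit 402) ln15_13_2_c10 ln15_13_2_c10_ok) (L (nat_lit 467) ln15_13_0_c10 ln15_13_0_c10_ok))) (B (M (nat_lit 467) (B (L (nat_lit 431) ln15_13_0_c10 ln15_13_0_c10_ok) (M (nat_lit 435) (B (L (nat_lit 468) ln16_13_0_c10 ln16_13_0_c10_ok) (M (nat_lit 498) (B (L (nat_lit 371) ln19_11_5_c10 ln19_11_5_c10_ok) (L (nat_lit 530) ln18_16_6_c10 ln18_16_6_c10_ok))))))) (B (M (nat_lit 498) (B (M (nat_lit 530) (B (L (nat_lit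 401) ln18_16_7_c10 ln18_16_7_c10_ok) (L (nat_lit 435) ln18_16_6_c10 ln18_16_6_c10_ok))) (B (M (nat_lit 435) (B (L (nat_lit 530) ln18_16_6_c10 ln18_16_6_c10_ok) (M (nat_lit 371) (B (L (nat_lit 402) ln18_15_6_c10 ln18_15_6_c10_ok) (L (nat_lit 467) ln19_11_5_c10 ln19_11_5_c10_ok))))) (B (M (nat_lit 401) (B (L (nat_lit 530) ln18_16_7_c10 ln18_16_7_c10_ok) (M (nat_lit 402) (B (L (nat_lit 369) ln18_15_7_c10 ln18_15_7_c10_ok) (L (nat_lit 371) ln18_15_6_c10 ln18_15_6_c10_ok))))) (M (nat_lit 371) (B (L (nat_lit 402) ln18_15_6_c10 ln18_15_6_c10_ok) (M (nat_lit 435) (B (L (nat_lit 339) ln19_10_5_c10 ln19_10_5_c10_ok) (L (nat_lit 467) ln19_11_5_c10 ln19_11_5_c10_ok))))))))) (M (nat_lit 498) (B (M (nat_lit 402) (B (L (nat_lit 371) ln18_15_6_c10 ln18_15_6_c10_ok) (L (nat_lit 431) ln15_13_2_c10 ln15_13_2_c10_ok))) (M (nat_lit 530) (B (L (nat_lit 401) ln18_16_7_c10 ln18_16_7_c10_ok) (L (nat_lit 435) ln18_16_6_c10 ln18_16_6_c10_ok))))))))) (B (M (nat_lit 404) (B (L (nat_lit 435) ln16_13_2_c10 ln16_13_2_c10_ok) (M (nat_lit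 402) (B (L (nat_lit 401) ln20_12_1_c10 ln20_12_1_c10_ok) (L (nat_lit 405) ln21_12_1_c10 ln21_12_1_c10_ok))))) (M (nat_lit 402) (B (L (nat_lit 431) ln15_13_2_c10 ln15_13_2_c10_ok) (M (nat_lit 404) (B (L (nat_lit 401) ln20_12_1_c10 ln20_12_1_c10_ok) (L (nat_lit 405) ln21_12_1_c10 ln21_12_1_c10_ok)))))))))) (nat_lit 8931394323165503754481658153670348049985162940857813804920622417077344278730704448857942057155343404368412318944338361584051269924982620160) (nat_lit 3514776402805219827378523550519474530222191441465550989528490934481446660288929061847559846542536477905338351711297456788774239965367519036237877744596986888192) (nat_lit 3514776402805219827378523550519474530222191441465550989528490934481446660288929061847559846542536477905338351711297456788774239965367519036237877744596986888192) (by decide +kernel)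
theorem c10_s328 : Sem (nat_lit 8931394323165503754481658153670348049985162940857813804920622417077344278730704448857942057155343404368412318944338361584051269924982620160) (nat_lit 1757388201402609916023332804975632996894646922863286700399987615249453756146201292127075373739768869101074455828822103112082361178328795244948924650835616464896) (nat_lit 1757388201402609916023332804975632996894646922863286700399987615249453756146201292127075373739768869101074455828822103112082361178328795244948924650835616464896) :=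
  sem_of_chk (M (nat_lit 435) (B (M (nat_lit 467) (B (L (nat_lit 468) ln16_13_0_c10 ln16_13_0_c10_ok) (M (nat_lit 431) (B (L (nat_lit 466) ln15_13_0_c10 ln15_13_0_c10_ok) (L (nat_lit 399) ln18_13_3 ln18_13_3_ok))))) (B (M (nat_lit 400) (B (L (nat_lit 399) ln13_12_0 ln13_12_0_ok) (M (nat_lit 436) (B (L (nat_lit 401) ln20_13_3_c10 ln20_13_3_c10_ok) (M (nat_lit 468) (B (L (nat_lit 467) ln16_13_0_c10 ln16_13_0_c10_ok) (L (nat_lit 469) ln17_13_0_c10 ln17_13_0_c10_ok))))))) (B (M (nat_lit 436) (B (M (nat_lit 468) (B (L (nat_lit 467) ln16_13_0_c10 ln16_13_0_c10_ok) (L (nat_lit 469) ln17_13_0_c10 ln17_13_0_c10_ok))) (M (nat_lit 437) (B (M (nat_lit 401) (B (L (nat_lit 400) ln20_13_3_c10 ln20_13_3_c10_ok) (L (nat_lit 402) ln21_13_3_c10 ln21_13_3_c10_ok))) (M (nat_lit 465) (B (L (nat_lit 464) ln20_13_1_c10 ln20_13_1_c10_ok) (L (nat_lit 466) ln21_13_1_c10 ln21_13_1_c10_ok))))))) (M (nat_lit 465) (B (M (nat_lit 436) (B (L (nat_lit 464) ln20_13_1_c10 ln20_13_1_c10_ok) (M (nat_lit 400) (B (L (nat_lit 399) ln13_12_0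 ln13_12_0_ok) (L (nat_lit 401) ln20_13_3_c10 ln20_13_3_c10_ok))))) (B (M (nat_lit 436) (B (L (nat_lit 464) ln20_13_1_c10 ln20_13_1_c10_ok) (M (nat_lit 437) (B (L (nat_lit 466) ln21_13_1_c10 ln21_13_1_c10_ok) (M (nat_lit 401) (B (L (nat_lit 400) ln20_13_3_c10 ln20_13_3_c10_ok) (L (nat_lit 402) ln21_13_3_c10 ln21_13_3_c10_ok))))))) (B (M (nat_lit 402) (B (M (nat_lit 497) (B (L (nat_lit 529) ln17_16_6_c10 ln17_16_6_c10_ok) (M (nat_lit 370) (B (L (nat_lit 401) ln17_15_6_c10 ln17_15_6_c10_ok) (L (nat_lit 338) ln18_10_5_c10 ln18_10_5_c10_ok))))) (B (M (nat_lit 497) (B (L (nat_lit 529) ln17_16_6_c10 ln17_16_6_c10_ok) (M (nat_lit 370) (B (L (nat_lit 338) ln18_10_5_c10 ln18_10_5_c10_ok) (L (nat_lit 466) ln18_11_5_c10 ln18_11_5_c10_ok))))) (M (nat_lit 436) (B (L (nat_lit 464) ln20_13_1_c10 ln20_13_1_c10_ok) (M (nat_lit 437) (B (L (nat_lit 401) ln21_13_3_c10 ln21_13_3_c10_ok) (L (nat_lit 466) ln21_13_1_c10 ln21_13_1_c10_ok)))))))) (B (M (nat_lit 400) (B (L (nat_lit 399) ln13_12_0 ln13_12_0_ok) (M (nat_lit 401)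 (B (L (nat_lit 436) ln20_13_3_c10 ln20_13_3_c10_ok) (M (nat_lit 368) (B (L (nat_lit 336) ln16_10_4_c10 ln16_10_4_c10_ok) (L (nat_lit 497) ln17_15_7_c10 ln17_15_7_c10_ok))))))) (B (M (nat_lit 464) (B (L (nat_lit 436) ln20_13_1_c10 ln20_13_1_c10_ok) (M (nat_lit 400) (B (L (nat_lit 399) ln13_12_0 ln13_12_0_ok) (M (nat_lit 497) (B (L (nat_lit 368) ln16_11_4 ln16_11_4_ok) (L (nat_lit 529) ln17_16_7_c10 ln17_16_7_c10_ok))))))) (M (nat_lit 400) (B (L (nat_lit 399) ln13_12_0 ln13_12_0_ok) (M (nat_lit 368) (B (L (nat_lit 336) ln16_10_4_c10 ln16_10_4_c10_ok) (M (nat_lit 497) (B (L (nat_lit 401) ln17_15_7_c10 ln17_15_7_c10_ok) (L (nat_lit 529) ln17_16_7_c10 ln17_16_7_c10_ok))))))))))))))))) (nat_lit 8931394323165503754481658153670348049985162940857813804920622417077344278730704448857942057155343404368412318944338361584051269924982620160) (nat_lit 1757388201402609916023332804975632996894646922863286700399987615249453756146201292127075373739768869101074455828822103112082361178328795244948924650835616464896) (nat_lit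 1757388201402609916023332804975632996894646922863286700399987615249453756146201292127075373739768869101074455828822103112082361178328795244948924650835616464896) (by decide +kernel)
theorem c10_s335 : Sem (nat_lit 8931394411890933966347733660179601942563841450823800216946752822532690858398586298637961994434524399700878818060857112348965568452155670528) (nat_lit 8786941007013049565826433232356136299599222472157541124650899980617420110905859892131365407367326288364163035128662315131041330775052490259378804029120164397056) (nat_lit 8786941007013049565826433232356136299599222472157541124650899980617420110905859892131365407367326288364163035128662315131041330775052490259378804029120164397056) :=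
  sem_of_chk (M (nat_lit 436) (B (M (nat_lit 404) (B (L (nat_lit 405) ln17_13_2_c10 ln17_13_2_c10_ok) (L (nat_lit 403) ln16_13_2_c10 ln16_13_2_c10_ok))) (B (M (nat_lit 465) (B (L (nat_lit 464) ln20_13_1_c10 ln20_13_1_c10_ok) (M (nat_lit 437) (B (L (nat_lit 466) ln21_13_1_c10 ln21_13_1_c10_ok) (M (nat_lit 405) (B (L (nat_lit 404) ln17_13_2_c10 ln17_13_2_c10_ok) (L (nat_lit 406) ln18_13_2_c10 ln18_13_2_c10_ok))))))) (M (nat_lit 402) (B (M (nat_lit 437) (B (L (nat_lit 401) ln21_13_3_c10 ln21_13_3_c10_ok) (M (nat_lit 465) (B (L (nat_lit 464) ln20_13_1_c10 ln20_13_1_c10_ok) (L (nat_lit 466) ln21_13_1_c10 ln21_13_1_c10_ok))))) (B (M (nat_lit 437) (B (L (nat_lit 401) ln21_13_3_c10 ln21_13_3_c10_ok) (M (nat_lit 438) (B (L (nat_lit 403) ln22_13_3_c10 ln22_13_3_c10_ok) (M (nat_lit 466) (B (L (nat_lit 465) ln21_13_1_c10 ln21_13_1_c10_ok) (L (nat_lit 467) ln22_13_1_c10 ln22_13_1_c10_ok))))))) (B (M (nat_lit 467) (B (M (nat_lit 370) (B (L (nat_lit 338) ln18_10_4_c10 ln18_10_4_c10_ok) (M (nat_lit 499) (B (L (nat_lit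 466) ln18_11_4_c10 ln18_11_4_c10_ok) (L (nat_lit 531) ln19_16_7_c10 ln19_16_7_c10_ok))))) (B (M (nat_lit 370) (B (L (nat_lit 338) ln18_10_4_c10 ln18_10_4_c10_ok) (M (nat_lit 499) (B (L (nat_lit 531) ln19_16_7_c10 ln19_16_7_c10_ok) (L (nat_lit 403) ln19_15_7_c10 ln19_15_7_c10_ok))))) (M (nat_lit 437) (B (L (nat_lit 401) ln21_13_3_c10 ln21_13_3_c10_ok) (M (nat_lit 438) (B (L (nat_lit 466) ln22_13_1_c10 ln22_13_1_c10_ok) (L (nat_lit 403) ln22_13_3_c10 ln22_13_3_c10_ok)))))))) (B (M (nat_lit 465) (B (L (nat_lit 464) ln20_13_1_c10 ln20_13_1_c10_ok) (M (nat_lit 466) (B (L (nat_lit 437) ln21_13_1_c10 ln21_13_1_c10_ok) (M (nat_lit 497) (B (L (nat_lit 529) ln17_16_6_c10 ln17_16_6_c10_ok) (L (nat_lit 370) ln18_11_5_c10 ln18_11_5_c10_ok))))))) (B (M (nat_lit 401) (B (L (nat_lit 437) ln21_13_3_c10 ln21_13_3_c10_ok) (M (nat_lit 465) (B (L (nat_lit 464) ln20_13_1_c10 ln20_13_1_c10_ok) (M (nat_lit 370) (B (L (nat_lit 497) ln17_15_6_c10 ln17_15_6_c10_ok) (L (nat_lit 338) ln18_10_5_c10 ln18_10_5_c10_ok))))))) (M (nat_lit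 465) (B (L (nat_lit 464) ln20_13_1_c10 ln20_13_1_c10_ok) (M (nat_lit 497) (B (L (nat_lit 529) ln17_16_6_c10 ln17_16_6_c10_ok) (M (nat_lit 370) (B (L (nat_lit 466) ln18_11_5_c10 ln18_11_5_c10_ok) (L (nat_lit 338) ln18_10_5_c10 ln18_10_5_c10_ok)))))))))))))))) (nat_lit 8931394411890933966347733660179601942563841450823800216946752822532690858398586298637961994434524399700878818060857112348965568452155670528) (nat_lit 8786941007013049565826433232356136299599222472157541124650899980617420110905859892131365407367326288364163035128662315131041330775052490259378804029120164397056) (nat_lit 8786941007013049565826433232356136299599222472157541124650899980617420110905859892131365407367326288364163035128662315131041330775052490259378804029120164397056) (by decide +kernel)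
theorem c10_s336 : Sem (nat_lit 8931394323165503754481658153670348049985162940857813804920622417077344278730704448857942057155343404368412318944338361584051269924982620160) (nat_lit 75479248521034261864467630405103524072385638676130367221011828010505451258460682163641396478310370132872640804430323330840803516660413748823871210158860690077786090504192) (nat_lit 75479248521034261864467630405103524072385638676130367221011828010505451258460682163641396478310370132872640804430323330840803516660413748823871210158860690077786090504192) :=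
  sem_of_chk (M (nat_lit 435) (B (M (nat_lit 464) (B (L (nat_lit 463) ln19_13_1_c10 ln19_13_1_c10_ok) (M (nat_lit 468) (B (L (nat_lit 467) ln16_13_0_c10 ln16_13_0_c10_ok) (M (nat_lit 436) (B (L (nat_lit 469) ln17_13_0_c10 ln17_13_0_c10_ok) (L (nat_lit 465) ln20_13_1_c10 ln20_13_1_c10_ok))))))) (B (M (nat_lit 436) (B (M (nat_lit 404) (B (L (nat_lit 405) ln17_13_2_c10 ln17_13_2_c10_ok) (L (nat_lit 403) ln16_13_2_c10 ln16_13_2_c10_ok))) (M (nat_lit 464) (B (L (nat_lit 465) ln20_13_1_c10 ln20_13_1_c10_ok) (L (nat_lit 463) ln19_13_1_c10 ln19_13_1_c10_ok))))) (M (nat_lit 467) (B (L (nat_lit 468) ln16_13_0_c10 ln16_13_0_c10_ok) (M (nat_lit 403) (B (L (nat_lit 404) ln16_13_2_c10 ln16_13_2_c10_ok) (M (nat_lit 499) (B (M (nat_lit 402) (B (L (nat_lit 531) ln19_16_7_c10 ln19_16_7_c10_ok) (L (nat_lit 370) ln19_15_7_c10 ln19_15_7_c10_ok))) (B (M (nat_lit 371) (B (M (nat_lit 498) (B (L (nat_lit 530) ln19_12_5_c10 ln19_12_5_c10_ok) (L (nat_lit 466) ln19_11_5_c10 ln19_11_5_c10_ok))) (M (nat_lit 370) (B (L (nat_lit 402)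 ln19_15_7_c10 ln19_15_7_c10_ok) (L (nat_lit 338) ln19_14_7_c10 ln19_14_7_c10_ok))))) (M (nat_lit 531) (B (M (nat_lit 532) (B (L (nat_lit 564) ln19_13_4_c10 ln19_13_4_c10_ok) (L (nat_lit 500) ln19_12_4_c10 ln19_12_4_c10_ok))) (M (nat_lit 530) (B (L (nat_lit 562) ln19_13_5_c10 ln19_13_5_c10_ok) (L (nat_lit 498) ln19_12_5_c10 ln19_12_5_c10_ok))))))))))))))) (nat_lit 8931394323165503754481658153670348049985162940857813804920622417077344278730704448857942057155343404368412318944338361584051269924982620160) (nat_lit 75479248521034261864467630405103524072385638676130367221011828010505451258460682163641396478310370132872640804430323330840803516660413748823871210158860690077786090504192) (nat_lit 75479248521034261864467630405103524072385638676130367221011828010505451258460682163641396478310370132872640804430323330840803516660413748823871210158860690077786090504192) (by decide +kernel)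
theorem c10_s337 : Sem (nat_lit 8931394323165503754481658153670348049985162940857813804920622417077344278730704448857942057155343404368412318944338361584051269924982620160) (nat_lit 3514776402805219828902814834853455111951486963825495474757298621329577105044376796039635890888125159604706566097768145831658483676991846621905834619249469947904) (nat_lit 3514776402805219828902814834853455111951486963825495474757298621329577105044376796039635890888125159604706566097768145831658483676991846621905834619249469947904) :=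
  sem_of_chk (M (nat_lit 403) (B (M (nat_lit 404) (B (L (nat_lit 435) ln16_13_2_c10 ln16_13_2_c10_ok) (M (nat_lit 402) (B (L (nat_lit 401) ln20_12_1_c10 ln20_12_1_c10_ok) (L (nat_lit 431) ln15_13_2_c10 ln15_13_2_c10_ok))))) (B (M (nat_lit 466) (B (M (nat_lit 431) (B (L (nat_lit 402) ln15_13_2_c10 ln15_13_2_c10_ok) (L (nat_lit 467) ln15_13_0_c10 ln15_13_0_c10_ok))) (B (M (nat_lit 467) (B (L (nat_lit 431) ln15_13_0_c10 ln15_13_0_c10_ok) (M (nat_lit 468) (B (L (nat_lit 435) ln16_13_0_c10 ln16_13_0_c10_ok) (L (nat_lit 469) ln21_14_3_c10 ln21_14_3_c10_ok))))) (B (M (nat_lit 498) (B (M (nat_lit 530) (B (L (nat_lit 435) ln18_16_6_c10 ln18_16_6_c10_ok) (L (nat_lit 401) ln18_16_7_c10 ln18_16_7_c10_ok))) (B (M (nat_lit 371) (B (L (nat_lit 402) ln18_15_6_c10 ln18_15_6_c10_ok) (M (nat_lit 435) (B (L (nat_lit 339) ln19_10_5_c10 ln19_10_5_c10_ok) (L (nat_lit 530) ln18_16_6_c10 ln18_16_6_c10_ok))))) (B (M (nat_lit 402) (B (L (nat_lit 371) ln18_15_6_c10 ln18_15_6_c10_ok) (M (nat_lit 401) (B (L (nat_lit 369) ln18_15_7_c10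 ln18_15_7_c10_ok) (L (nat_lit 530) ln18_16_7_c10 ln18_16_7_c10_ok))))) (M (nat_lit 371) (B (L (nat_lit 402) ln18_15_6_c10 ln18_15_6_c10_ok) (M (nat_lit 435) (B (L (nat_lit 339) ln19_10_5_c10 ln19_10_5_c10_ok) (L (nat_lit 467) ln19_11_5_c10 ln19_11_5_c10_ok))))))))) (M (nat_lit 498) (B (M (nat_lit 402) (B (L (nat_lit 371) ln18_15_6_c10 ln18_15_6_c10_ok) (L (nat_lit 431) ln15_13_2_c10 ln15_13_2_c10_ok))) (M (nat_lit 530) (B (L (nat_lit 435) ln18_16_6_c10 ln18_16_6_c10_ok) (L (nat_lit 401) ln18_16_7_c10 ln18_16_7_c10_ok))))))))) (B (M (nat_lit 435) (B (L (nat_lit 404) ln16_13_2_c10 ln16_13_2_c10_ok) (M (nat_lit 467) (B (L (nat_lit 468) ln16_13_0_c10 ln16_13_0_c10_ok) (M (nat_lit 466) (B (L (nat_lit 431) ln15_13_0_c10 ln15_13_0_c10_ok) (M (nat_lit 498) (B (L (nat_lit 371) ln19_11_5_c10 ln19_11_5_c10_ok) (L (nat_lit 530) ln18_16_6_c10 ln18_16_6_c10_ok))))))))) (B (M (nat_lit 402) (B (L (nat_lit 431) ln15_13_2_c10 ln15_13_2_c10_ok) (M (nat_lit 404) (B (L (nat_lit 405) ln21_12_1_c10 ln21_12_1_c10_ok) (L (nat_lit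 401) ln20_12_1_c10 ln20_12_1_c10_ok))))) (M (nat_lit 404) (B (L (nat_lit 435) ln16_13_2_c10 ln16_13_2_c10_ok) (M (nat_lit 402) (B (L (nat_lit 405) ln21_12_1_c10 ln21_12_1_c10_ok) (L (nat_lit 401) ln20_12_1_c10 ln20_12_1_c10_ok)))))))))) (nat_lit 8931394323165503754481658153670348049985162940857813804920622417077344278730704448857942057155343404368412318944338361584051269924982620160) (nat_lit 3514776402805219828902814834853455111951486963825495474757298621329577105044376796039635890888125159604706566097768145831658483676991846621905834619249469947904) (nat_lit 3514776402805219828902814834853455111951486963825495474757298621329577105044376796039635890888125159604706566097768145831658483676991846621905834619249469947904) (by decide +kernel)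
theorem c10_s338 : Sem (nat_lit 8931394323165503754481658153670348049985162940857813804920622417077344278730704448857942057155343404368412318944338361584051269924982620160) (nat_lit 7029552806019613481029869450508948361774071993869042888504211893045132533800724572564759378858719460163409769396372198804455304844799791766070074855715988570112) (nat_lit 7029552806019613481029869450508948361774071993869042888504211893045132533800724572564759378858719460163409769396372198804455304844799791766070074855715988570112) :=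
  sem_of_chk (M (nat_lit 467) (B (M (nat_lit 466) (B (L (nat_lit 431) ln15_13_0_c10 ln15_13_0_c10_ok) (M (nat_lit 468) (B (L (nat_lit 469) ln21_14_3_c10 ln21_14_3_c10_ok) (L (nat_lit 435) ln16_13_0_c10 ln16_13_0_c10_ok))))) (B (M (nat_lit 435) (B (L (nat_lit 468) ln16_13_0_c10 ln16_13_0_c10_ok) (M (nat_lit 403) (B (L (nat_lit 404) ln16_13_2_c10 ln16_13_2_c10_ok) (M (nat_lit 402) (B (L (nat_lit 431) ln15_13_2_c10 ln15_13_2_c10_ok) (M (nat_lit 499) (B (L (nat_lit 531) ln19_16_7_c10 ln19_16_7_c10_ok) (L (nat_lit 370) ln19_15_7_c10 ln19_15_7_c10_ok))))))))) (B (M (nat_lit 402) (B (M (nat_lit 431) (B (L (nat_lit 466) ln15_13_0_c10 ln15_13_0_c10_ok) (L (nat_lit 403) ln15_13_2_c10 ln15_13_2_c10_ok))) (B (M (nat_lit 403) (B (L (nat_lit 431) ln15_13_2_c10 ln15_13_2_c10_ok) (M (nat_lit 435) (B (L (nat_lit 404) ln16_13_2_c10 ln16_13_2_c10_ok) (M (nat_lit 370) (B (L (nat_lit 499) ln19_15_7_c10 ln19_15_7_c10_ok) (L (nat_lit 338) ln18_10_4_c10 ln18_10_4_c10_ok))))))) (B (M (nat_lit 370) (B (M (nat_lit 338) (B (L (nat_lit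 465) ln18_10_5_c10 ln18_10_5_c10_ok) (L (nat_lit 435) ln18_10_4_c10 ln18_10_4_c10_ok))) (B (M (nat_lit 435) (B (L (nat_lit 338) ln18_10_4_c10 ln18_10_4_c10_ok) (M (nat_lit 499) (B (L (nat_lit 466) ln18_11_4_c10 ln18_11_4_c10_ok) (L (nat_lit 403) ln19_15_7_c10 ln19_15_7_c10_ok))))) (B (M (nat_lit 465) (B (L (nat_lit 338) ln18_10_5_c10 ln18_10_5_c10_ok) (M (nat_lit 466) (B (L (nat_lit 497) ln18_11_5_c10 ln18_11_5_c10_ok) (L (nat_lit 499) ln18_11_4_c10 ln18_11_4_c10_ok))))) (M (nat_lit 499) (B (L (nat_lit 466) ln18_11_4_c10 ln18_11_4_c10_ok) (M (nat_lit 435) (B (L (nat_lit 531) ln19_16_7_c10 ln19_16_7_c10_ok) (L (nat_lit 403) ln19_15_7_c10 ln19_15_7_c10_ok))))))))) (M (nat_lit 370) (B (M (nat_lit 466) (B (L (nat_lit 499) ln18_11_4_c10 ln18_11_4_c10_ok) (L (nat_lit 431) ln15_13_0_c10 ln15_13_0_c10_ok))) (M (nat_lit 338) (B (L (nat_lit 465) ln18_10_5_c10 ln18_10_5_c10_ok) (L (nat_lit 435) ln18_10_4_c10 ln18_10_4_c10_ok))))))))) (B (M (nat_lit 468) (B (L (nat_lit 435) ln16_13_0_c10 ln16_13_0_c10_ok) (M (nat_lit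 466) (B (L (nat_lit 465) ln20_14_3_c10 ln20_14_3_c10_ok) (L (nat_lit 469) ln21_14_3_c10 ln21_14_3_c10_ok))))) (M (nat_lit 466) (B (L (nat_lit 431) ln15_13_0_c10 ln15_13_0_c10_ok) (M (nat_lit 468) (B (L (nat_lit 465) ln20_14_3_c10 ln20_14_3_c10_ok) (L (nat_lit 469) ln21_14_3_c10 ln21_14_3_c10_ok)))))))))) (nat_lit 8931394323165503754481658153670348049985162940857813804920622417077344278730704448857942057155343404368412318944338361584051269924982620160) (nat_lit 7029552806019613481029869450508948361774071993869042888504211893045132533800724572564759378858719460163409769396372198804455304844799791766070074855715988570112) (nat_lit 7029552806019613481029869450508948361774071993869042888504211893045132533800724572564759378858719460163409769396372198804455304844799791766070074855715988570112) (by decide +kernel)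
theorem c10_s339 : Sem (nat_lit 8931394323165503754481658153670348049985162940857813804920622417077344278730704448857942057155343404368412318944338361584051269924982620160) (nat_lit 75479248521034261864467630404912987661843891103414205280726454580274251535620280469004679003389433380152093683662616517487519219395513522952446044117303669539807239864320) (nat_lit 75479248521034261864467630404912987661843891103414205280726454580274251535620280469004679003389433380152093683662616517487519219395513522952446044117303669539807239864320) :=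
  sem_of_chk (M (nat_lit 435) (B (M (nat_lit 436) (B (M (nat_lit 468) (B (L (nat_lit 469) ln17_13_0_c10 ln17_13_0_c10_ok) (L (nat_lit 467) ln16_13_0_c10 ln16_13_0_c10_ok))) (M (nat_lit 404) (B (L (nat_lit 405) ln17_13_2_c10 ln17_13_2_c10_ok) (L (nat_lit 403) ln16_13_2_c10 ln16_13_2_c10_ok))))) (B (M (nat_lit 404) (B (L (nat_lit 403) ln16_13_2_c10 ln16_13_2_c10_ok) (M (nat_lit 436) (B (L (nat_lit 405) ln17_13_2_c10 ln17_13_2_c10_ok) (M (nat_lit 464) (B (L (nat_lit 465) ln20_13_1_c10 ln20_13_1_c10_ok) (L (nat_lit 463) ln19_13_1_c10 ln19_13_1_c10_ok))))))) (B (M (nat_lit 436) (B (M (nat_lit 468) (B (L (nat_lit 469) ln17_13_0_c10 ln17_13_0_c10_ok) (L (nat_lit 467) ln16_13_0_c10 ln16_13_0_c10_ok))) (M (nat_lit 464) (B (L (nat_lit 465) ln20_13_1_c10 ln20_13_1_c10_ok) (L (nat_lit 463) ln19_13_1_c10 ln19_13_1_c10_ok))))) (M (nat_lit 403) (B (L (nat_lit 404) ln16_13_2_c10 ln16_13_2_c10_ok) (M (nat_lit 467) (B (L (nat_lit 468) ln16_13_0_c10 ln16_13_0_c10_ok) (M (nat_lit 499) (B (M (nat_lit 402) (B (L (nat_lit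 531) ln19_16_7_c10 ln19_16_7_c10_ok) (L (nat_lit 370) ln19_15_7_c10 ln19_15_7_c10_ok))) (B (M (nat_lit 371) (B (M (nat_lit 370) (B (L (nat_lit 402) ln19_15_7_c10 ln19_15_7_c10_ok) (L (nat_lit 338) ln19_14_7_c10 ln19_14_7_c10_ok))) (B (M (nat_lit 339) (B (M (nat_lit 340) (B (L (nat_lit 372) ln19_14_6_c10 ln19_14_6_c10_ok) (L (nat_lit 308) ln19_13_6_c10 ln19_13_6_c10_ok))) (M (nat_lit 338) (B (L (nat_lit 370) ln19_14_7_c10 ln19_14_7_c10_ok) (L (nat_lit 306) ln19_13_7_c10 ln19_13_7_c10_ok))))) (B (M (nat_lit 339) (B (M (nat_lit 340) (B (L (nat_lit 372) ln19_14_6_c10 ln19_14_6_c10_ok) (L (nat_lit 308) ln19_13_6_c10 ln19_13_6_c10_ok))) (M (nat_lit 307) (B (L (nat_lit 402) ln19_9_5_c10 ln19_9_5_c10_ok) (M (nat_lit 306) (B (L (nat_lit 338) ln19_13_7_c10 ln19_13_7_c10_ok) (L (nat_lit 274) ln19_12_7_c10 ln19_12_7_c10_ok))))))) (M (nat_lit 339) (B (M (nat_lit 340) (B (L (nat_lit 372) ln19_14_6_c10 ln19_14_6_c10_ok) (L (nat_lit 308) ln19_13_6_c10 ln19_13_6_c10_ok))) (M (nat_lit 402) (B (L (nat_lit 370) ln19_15_7_c10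 ln19_15_7_c10_ok) (L (nat_lit 307) ln19_9_5_c10 ln19_9_5_c10_ok))))))))) (M (nat_lit 531) (B (M (nat_lit 532) (B (L (nat_lit 564) ln19_13_4_c10 ln19_13_4_c10_ok) (L (nat_lit 500) ln19_12_4_c10 ln19_12_4_c10_ok))) (M (nat_lit 530) (B (L (nat_lit 562) ln19_13_5_c10 ln19_13_5_c10_ok) (L (nat_lit 498) ln19_12_5_c10 ln19_12_5_c10_ok)))))))))))))))) (nat_lit 8931394323165503754481658153670348049985162940857813804920622417077344278730704448857942057155343404368412318944338361584051269924982620160) (nat_lit 75479248521034261864467630404912987661843891103414205280726454580274251535620280469004679003389433380152093683662616517487519219395513522952446044117303669539807239864320) (nat_lit 75479248521034261864467630404912987661843891103414205280726454580274251535620280469004679003389433380152093683662616517487519219395513522952446044117303669539807239864320) (by decide +kernel)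
theorem c10_s341 : Sem (nat_lit 8931394411890933966347733660179601942563841450823800216946752822532690858398586298637961994434524399700878818060857112348965568452155670528) (nat_lit 18869812130258565466116907606188147852841647787001992712215262604566256498808153042498012800067536020381103077098317583468498229605658159351679598404583571012626163957760) (nat_lit 18869812130258565466116907606188147852841647787001992712215262604566256498808153042498012800067536020381103077098317583468498229605658159351679598404583571012626163957760) :=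
  sem_of_chk (M (nat_lit 436) (B (M (nat_lit 469) (B (L (nat_lit 468) ln17_13_0_c10 ln17_13_0_c10_ok) (M (nat_lit 437) (B (L (nat_lit 470) ln18_13_0_c10 ln18_13_0_c10_ok) (M (nat_lit 405) (B (L (nat_lit 404) ln17_13_2_c10 ln17_13_2_c10_ok) (L (nat_lit 406) ln18_13_2_c10 ln18_13_2_c10_ok))))))) (B (M (nat_lit 437) (B (M (nat_lit 465) (B (L (nat_lit 464) ln20_13_1_c10 ln20_13_1_c10_ok) (L (nat_lit 466) ln21_13_1_c10 ln21_13_1_c10_ok))) (M (nat_lit 405) (B (L (nat_lit 404) ln17_13_2_c10 ln17_13_2_c10_ok) (L (nat_lit 406) ln18_13_2_c10 ln18_13_2_c10_ok))))) (B (M (nat_lit 437) (B (M (nat_lit 465) (B (L (nat_lit 464) ln20_13_1_c10 ln20_13_1_c10_ok) (L (nat_lit 466) ln21_13_1_c10 ln21_13_1_c10_ok))) (M (nat_lit 469) (B (L (nat_lit 468) ln17_13_0_c10 ln17_13_0_c10_ok) (L (nat_lit 470) ln18_13_0_c10 ln18_13_0_c10_ok))))) (M (nat_lit 465) (B (L (nat_lit 464) ln20_13_1_c10 ln20_13_1_c10_ok) (M (nat_lit 401) (B (L (nat_lit 400) ln20_13_3_c10 ln20_13_3_c10_ok) (M (nat_lit 497) (B (M (nat_lit 402) (B (L (nat_lit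 529) ln17_16_6_c10 ln17_16_6_c10_ok) (L (nat_lit 370) ln17_15_6_c10 ln17_15_6_c10_ok))) (B (M (nat_lit 369) (B (M (nat_lit 498) (B (L (nat_lit 530) ln17_12_4_c10 ln17_12_4_c10_ok) (L (nat_lit 466) ln17_11_4_c10 ln17_11_4_c10_ok))) (M (nat_lit 370) (B (L (nat_lit 402) ln17_15_6_c10 ln17_15_6_c10_ok) (L (nat_lit 338) ln17_14_6_c10 ln17_14_6_c10_ok))))) (M (nat_lit 529) (B (M (nat_lit 528) (B (L (nat_lit 560) ln17_13_5_c10 ln17_13_5_c10_ok) (L (nat_lit 496) ln17_12_5_c10 ln17_12_5_c10_ok))) (M (nat_lit 530) (B (L (nat_lit 562) ln17_13_4_c10 ln17_13_4_c10_ok) (L (nat_lit 498) ln17_12_4_c10 ln17_12_4_c10_ok)))))))))))))))) (nat_lit 8931394411890933966347733660179601942563841450823800216946752822532690858398586298637961994434524399700878818060857112348965568452155670528) (nat_lit 18869812130258565466116907606188147852841647787001992712215262604566256498808153042498012800067536020381103077098317583468498229605658159351679598404583571012626163957760) (nat_lit 18869812130258565466116907606188147852841647787001992712215262604566256498808153042498012800067536020381103077098317583468498229605658159351679598404583571012626163957760)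 (by decide +kernel)
theorem c10_s342 : Sem (nat_lit 8931394411890933966347733660179601942563841450823800216946752822532690858398586298637961994434524399700878818060857112348965568452155670528) (nat_lit 3514776403214393657700244624533962333436602468066262925154580222623115497337035237482403354669299360733364246321385507578717790332226495014100309119217245880320) (nat_lit 3514776403214393657700244624533962333436602468066262925154580222623115497337035237482403354669299360733364246321385507578717790332226495014100309119217245880320) :=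
  sem_of_chk (M (nat_lit 436) (B (M (nat_lit 405) (B (L (nat_lit 404) ln17_13_2_c10 ln17_13_2_c10_ok) (M (nat_lit 437) (B (L (nat_lit 406) ln18_13_2_c10 ln18_13_2_c10_ok) (M (nat_lit 469) (B (L (nat_lit 468) ln17_13_0_c10 ln17_13_0_c10_ok) (L (nat_lit 470) ln18_13_0_c10 ln18_13_0_c10_ok))))))) (B (M (nat_lit 437) (B (M (nat_lit 401) (B (L (nat_lit 400) ln20_13_3_c10 ln20_13_3_c10_ok) (L (nat_lit 402) ln21_13_3_c10 ln21_13_3_c10_ok))) (M (nat_lit 469) (B (L (nat_lit 468) ln17_13_0_c10 ln17_13_0_c10_ok) (L (nat_lit 470) ln18_13_0_c10 ln18_13_0_c10_ok))))) (B (M (nat_lit 437) (B (M (nat_lit 401) (B (L (nat_lit 400) ln20_13_3_c10 ln20_13_3_c10_ok) (L (nat_lit 402) ln21_13_3_c10 ln21_13_3_c10_ok))) (M (nat_lit 405) (B (L (nat_lit 404) ln17_13_2_c10 ln17_13_2_c10_ok) (L (nat_lit 406) ln18_13_2_c10 ln18_13_2_c10_ok))))) (M (nat_lit 401) (B (L (nat_lit 400) ln20_13_3_c10 ln20_13_3_c10_ok) (M (nat_lit 465) (B (L (nat_lit 464) ln20_13_1_c10 ln20_13_1_c10_ok) (M (nat_lit 369) (B (M (nat_lit 466) (B (L (nat_lit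 337) ln17_10_4_c10 ln17_10_4_c10_ok) (L (nat_lit 498) ln17_11_4_c10 ln17_11_4_c10_ok))) (B (M (nat_lit 497) (B (M (nat_lit 370) (B (L (nat_lit 338) ln17_14_6_c10 ln17_14_6_c10_ok) (L (nat_lit 402) ln17_15_6_c10 ln17_15_6_c10_ok))) (M (nat_lit 498) (B (L (nat_lit 466) ln17_11_4_c10 ln17_11_4_c10_ok) (L (nat_lit 530) ln17_12_4_c10 ln17_12_4_c10_ok))))) (M (nat_lit 337) (B (M (nat_lit 336) (B (L (nat_lit 304) ln17_13_7_c10 ln17_13_7_c10_ok) (L (nat_lit 368) ln17_14_7_c10 ln17_14_7_c10_ok))) (M (nat_lit 338) (B (L (nat_lit 306) ln17_13_6_c10 ln17_13_6_c10_ok) (L (nat_lit 370) ln17_14_6_c10 ln17_14_6_c10_ok)))))))))))))))) (nat_lit 8931394411890933966347733660179601942563841450823800216946752822532690858398586298637961994434524399700878818060857112348965568452155670528) (nat_lit 3514776403214393657700244624533962333436602468066262925154580222623115497337035237482403354669299360733364246321385507578717790332226495014100309119217245880320) (nat_lit 3514776403214393657700244624533962333436602468066262925154580222623115497337035237482403354669299360733364246321385507578717790332226495014100309119217245880320)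 (by decide +kernel)
theorem c10_s343 : Sem (nat_lit 8931394411890933966347733660179601942563841450823800216946752822532690858398586298637961994434524399700878818060857112348965568452155670528) (nat_lit 18869812130258565466116907606188147852841647786712780725869528842524793551543815712573085751270662986944069229165765049802612015807137879784304161283762415751678444699648) (nat_lit 18869812130258565466116907606188147852841647786712780725869528842524793551543815712573085751270662986944069229165765049802612015807137879784304161283762415751678444699648) :=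
  sem_of_chk (M (nat_lit 436) (B (M (nat_lit 437) (B (M (nat_lit 401) (B (L (nat_lit 400) ln20_13_3_c10 ln20_13_3_c10_ok) (L (nat_lit 402) ln21_13_3_c10 ln21_13_3_c10_ok))) (M (nat_lit 469) (B (L (nat_lit 468) ln17_13_0_c10 ln17_13_0_c10_ok) (L (nat_lit 470) ln18_13_0_c10 ln18_13_0_c10_ok))))) (B (M (nat_lit 437) (B (M (nat_lit 465) (B (L (nat_lit 464) ln20_13_1_c10 ln20_13_1_c10_ok) (L (nat_lit 466) ln21_13_1_c10 ln21_13_1_c10_ok))) (M (nat_lit 469) (B (L (nat_lit 468) ln17_13_0_c10 ln17_13_0_c10_ok) (L (nat_lit 470) ln18_13_0_c10 ln18_13_0_c10_ok))))) (B (M (nat_lit 437) (B (M (nat_lit 465) (B (L (nat_lit 464) ln20_13_1_c10 ln20_13_1_c10_ok) (L (nat_lit 466) ln21_13_1_c10 ln21_13_1_c10_ok))) (M (nat_lit 401) (B (L (nat_lit 400) ln20_13_3_c10 ln20_13_3_c10_ok) (L (nat_lit 402) ln21_13_3_c10 ln21_13_3_c10_ok))))) (M (nat_lit 465) (B (L (nat_lit 464) ln20_13_1_c10 ln20_13_1_c10_ok) (M (nat_lit 401) (B (L (nat_lit 400) ln20_13_3_c10 ln20_13_3_c10_ok) (M (nat_lit 497) (B (M (nat_lit 402) (B (L (nat_lit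 529) ln17_16_6_c10 ln17_16_6_c10_ok) (L (nat_lit 370) ln17_15_6_c10 ln17_15_6_c10_ok))) (B (M (nat_lit 369) (B (M (nat_lit 498) (B (L (nat_lit 530) ln17_12_4_c10 ln17_12_4_c10_ok) (L (nat_lit 466) ln17_11_4_c10 ln17_11_4_c10_ok))) (M (nat_lit 370) (B (L (nat_lit 402) ln17_15_6_c10 ln17_15_6_c10_ok) (L (nat_lit 338) ln17_14_6_c10 ln17_14_6_c10_ok))))) (M (nat_lit 529) (B (M (nat_lit 528) (B (L (nat_lit 560) ln17_13_5_c10 ln17_13_5_c10_ok) (L (nat_lit 496) ln17_12_5_c10 ln17_12_5_c10_ok))) (M (nat_lit 530) (B (L (nat_lit 562) ln17_13_4_c10 ln17_13_4_c10_ok) (L (nat_lit 498) ln17_12_4_c10 ln17_12_4_c10_ok)))))))))))))))) (nat_lit 8931394411890933966347733660179601942563841450823800216946752822532690858398586298637961994434524399700878818060857112348965568452155670528) (nat_lit 18869812130258565466116907606188147852841647786712780725869528842524793551543815712573085751270662986944069229165765049802612015807137879784304161283762415751678444699648) (nat_lit 18869812130258565466116907606188147852841647786712780725869528842524793551543815712573085751270662986944069229165765049802612015807137879784304161283762415751678444699648)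 (by decide +kernel)
theorem c10_s344 : Sem (nat_lit 8931394411890933966347733660179601942563841450823800216946752822532690858398586298637961994434524399700878818060857112348965568452155670528) (nat_lit 3514776403214393652365225129365030297384068139806457226853753318654658940692968167810137199459738974785575495968738095928622937341541348464262460057933555171328) (nat_lit 3514776403214393652365225129365030297384068139806457226853753318654658940692968167810137199459738974785575495968738095928622937341541348464262460057933555171328) :=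
  sem_of_chk (M (nat_lit 436) (B (M (nat_lit 437) (B (M (nat_lit 465) (B (L (nat_lit 464) ln20_13_1_c10 ln20_13_1_c10_ok) (L (nat_lit 466) ln21_13_1_c10 ln21_13_1_c10_ok))) (M (nat_lit 405) (B (L (nat_lit 404) ln17_13_2_c10 ln17_13_2_c10_ok) (L (nat_lit 406) ln18_13_2_c10 ln18_13_2_c10_ok))))) (B (M (nat_lit 437) (B (M (nat_lit 401) (B (L (nat_lit 400) ln20_13_3_c10 ln20_13_3_c10_ok) (L (nat_lit 402) ln21_13_3_c10 ln21_13_3_c10_ok))) (M (nat_lit 405) (B (L (nat_lit 404) ln17_13_2_c10 ln17_13_2_c10_ok) (L (nat_lit 406) ln18_13_2_c10 ln18_13_2_c10_ok))))) (B (M (nat_lit 437) (B (M (nat_lit 401) (B (L (nat_lit 400) ln20_13_3_c10 ln20_13_3_c10_ok) (L (nat_lit 402) ln21_13_3_c10 ln21_13_3_c10_ok))) (M (nat_lit 465) (B (L (nat_lit 464) ln20_13_1_c10 ln20_13_1_c10_ok) (L (nat_lit 466) ln21_13_1_c10 ln21_13_1_c10_ok))))) (M (nat_lit 401) (B (L (nat_lit 400) ln20_13_3_c10 ln20_13_3_c10_ok) (M (nat_lit 465) (B (L (nat_lit 464) ln20_13_1_c10 ln20_13_1_c10_ok) (M (nat_lit 369) (B (M (nat_lit 466) (B (L (nat_lit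 337) ln17_10_4_c10 ln17_10_4_c10_ok) (L (nat_lit 498) ln17_11_4_c10 ln17_11_4_c10_ok))) (B (M (nat_lit 497) (B (M (nat_lit 370) (B (L (nat_lit 338) ln17_14_6_c10 ln17_14_6_c10_ok) (L (nat_lit 402) ln17_15_6_c10 ln17_15_6_c10_ok))) (M (nat_lit 498) (B (L (nat_lit 466) ln17_11_4_c10 ln17_11_4_c10_ok) (L (nat_lit 530) ln17_12_4_c10 ln17_12_4_c10_ok))))) (M (nat_lit 337) (B (M (nat_lit 336) (B (L (nat_lit 304) ln17_13_7_c10 ln17_13_7_c10_ok) (L (nat_lit 368) ln17_14_7_c10 ln17_14_7_c10_ok))) (M (nat_lit 338) (B (L (nat_lit 306) ln17_13_6_c10 ln17_13_6_c10_ok) (L (nat_lit 370) ln17_14_6_c10 ln17_14_6_c10_ok)))))))))))))))) (nat_lit 8931394411890933966347733660179601942563841450823800216946752822532690858398586298637961994434524399700878818060857112348965568452155670528) (nat_lit 3514776403214393652365225129365030297384068139806457226853753318654658940692968167810137199459738974785575495968738095928622937341541348464262460057933555171328) (nat_lit 3514776403214393652365225129365030297384068139806457226853753318654658940692968167810137199459738974785575495968738095928622937341541348464262460057933555171328)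 (by decide +kernel)
theorem c10_s345 : Sem (nat_lit 8931394411890933966347733660179601942563841450823800216946752822532690858398586298637961994434524399700878818060857112348965568452155670528) (nat_lit 5272164604207829739352957630767622825710645779226785107100422820357161867074175295183490620991925482244572736840037502905628012671494953754846384776470721462272) (nat_lit 5272164604207829739352957630767622825710645779226785107100422820357161867074175295183490620991925482244572736840037502905628012671494953754846384776470721462272) :=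
  sem_of_chk (M (nat_lit 403) (B (L (nat_lit 404) ln16_13_2_c10 ln16_13_2_c10_ok) (M (nat_lit 402) (B (L (nat_lit 431) ln15_13_2_c10 ln15_13_2_c10_ok) (M (nat_lit 466) (B (M (nat_lit 498) (B (L (nat_lit 371) ln18_15_6_c10 ln18_15_6_c10_ok) (L (nat_lit 530) ln18_16_6_c10 ln18_16_6_c10_ok))) (B (M (nat_lit 370) (B (M (nat_lit 465) (B (L (nat_lit 338) ln18_10_5_c10 ln18_10_5_c10_ok) (L (nat_lit 497) ln18_11_5_c10 ln18_11_5_c10_ok))) (B (M (nat_lit 338) (B (L (nat_lit 306) ln18_9_4_c10 ln18_9_4_c10_ok) (M (nat_lit 337) (B (L (nat_lit 305) ln18_13_7_c10 ln18_13_7_c10_ok) (L (nat_lit 369) ln18_14_7_c10 ln18_14_7_c10_ok))))) (M (nat_lit 369) (B (L (nat_lit 337) ln18_14_7_c10 ln18_14_7_c10_ok) (M (nat_lit 368) (B (L (nat_lit 367) ln15_11_0_c10 ln15_11_0_c10_ok) (M (nat_lit 336) (B (M (nat_lit 371) (B (L (nat_lit 335) ln19_11_3_c10 ln19_11_3_c10_ok) (L (nat_lit 339) ln19_10_5_c10 ln19_10_5_c10_ok))) (M (nat_lit 465) (B (L (nat_lit 400) ln16_10_4_c10 ln16_10_4_c10_ok) (L (nat_lit 497) ln18_11_5_c10 ln18_11_5_c10_ok))))))))))))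 (M (nat_lit 370) (B (M (nat_lit 465) (B (L (nat_lit 338) ln18_10_5_c10 ln18_10_5_c10_ok) (L (nat_lit 497) ln18_11_5_c10 ln18_11_5_c10_ok))) (B (M (nat_lit 338) (B (L (nat_lit 306) ln18_9_4_c10 ln18_9_4_c10_ok) (M (nat_lit 337) (B (L (nat_lit 305) ln18_13_7_c10 ln18_13_7_c10_ok) (L (nat_lit 369) ln18_14_7_c10 ln18_14_7_c10_ok))))) (M (nat_lit 497) (B (L (nat_lit 465) ln18_11_5_c10 ln18_11_5_c10_ok) (M (nat_lit 498) (B (L (nat_lit 529) ln18_12_5_c10 ln18_12_5_c10_ok) (L (nat_lit 530) ln18_16_6_c10 ln18_16_6_c10_ok))))))))))))))) (nat_lit 8931394411890933966347733660179601942563841450823800216946752822532690858398586298637961994434524399700878818060857112348965568452155670528) (nat_lit 5272164604207829739352957630767622825710645779226785107100422820357161867074175295183490620991925482244572736840037502905628012671494953754846384776470721462272) (nat_lit 5272164604207829739352957630767622825710645779226785107100422820357161867074175295183490620991925482244572736840037502905628012671494953754846384776470721462272)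 (by decide +kernel)
theorem c10_s347 : Sem (nat_lit 8931394411890933966347733660179601942563841450823800216946752822532690858398586298637961994434524399700878818060857112348965568452155670528) (nat_lit 22643774562549006674319554313234480943887504225958848080581413046869388652950313380952821413292286837790125727128035577213024032274310056437373602412656168792862807293952) (nat_lit 22643774562549006674319554313234480943887504225958848080581413046869388652950313380952821413292286837790125727128035577213024032274310056437373602412656168792862807293952) :=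
  sem_of_chk (M (nat_lit 467) (B (L (nat_lit 468) ln16_13_0_c10 ln16_13_0_c10_ok) (M (nat_lit 466) (B (L (nat_lit 431) ln15_13_0_c10 ln15_13_0_c10_ok) (M (nat_lit 402) (B (M (nat_lit 370) (B (L (nat_lit 499) ln18_11_4_c10 ln18_11_4_c10_ok) (L (nat_lit 338) ln18_10_4_c10 ln18_10_4_c10_ok))) (B (M (nat_lit 498) (B (M (nat_lit 401) (B (L (nat_lit 530) ln18_16_7_c10 ln18_16_7_c10_ok) (L (nat_lit 369) ln18_15_7_c10 ln18_15_7_c10_ok))) (B (M (nat_lit 530) (B (L (nat_lit 562) ln18_17_6_c10 ln18_17_6_c10_ok) (M (nat_lit 529) (B (L (nat_lit 561) ln18_13_5_c10 ln18_13_5_c10_ok) (L (nat_lit 497) ln18_12_5_c10 ln18_12_5_c10_ok))))) (M (nat_lit 497) (B (L (nat_lit 529) ln18_12_5_c10 ln18_12_5_c10_ok) (M (nat_lit 496) (B (L (nat_lit 495) ln15_15_2_c10 ln15_15_2_c10_ok) (M (nat_lit 528) (B (M (nat_lit 499) (B (L (nat_lit 527) ln19_15_1_c10 ln19_15_1_c10_ok) (L (nat_lit 531) ln18_12_4_c10 ln18_12_4_c10_ok))) (M (nat_lit 401) (B (L (nat_lit 464) ln16_16_6_c10 ln16_16_6_c10_ok) (L (nat_lit 369) ln18_15_7_c10 ln18_15_7_c10_ok))))))))))))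 (M (nat_lit 498) (B (M (nat_lit 401) (B (L (nat_lit 530) ln18_16_7_c10 ln18_16_7_c10_ok) (L (nat_lit 369) ln18_15_7_c10 ln18_15_7_c10_ok))) (B (M (nat_lit 530) (B (L (nat_lit 562) ln18_17_6_c10 ln18_17_6_c10_ok) (M (nat_lit 529) (B (L (nat_lit 561) ln18_13_5_c10 ln18_13_5_c10_ok) (L (nat_lit 497) ln18_12_5_c10 ln18_12_5_c10_ok))))) (M (nat_lit 369) (B (L (nat_lit 401) ln18_15_7_c10 ln18_15_7_c10_ok) (M (nat_lit 370) (B (L (nat_lit 337) ln18_14_7_c10 ln18_14_7_c10_ok) (L (nat_lit 338) ln18_10_4_c10 ln18_10_4_c10_ok))))))))))))))) (nat_lit 8931394411890933966347733660179601942563841450823800216946752822532690858398586298637961994434524399700878818060857112348965568452155670528) (nat_lit 22643774562549006674319554313234480943887504225958848080581413046869388652950313380952821413292286837790125727128035577213024032274310056437373602412656168792862807293952) (nat_lit 22643774562549006674319554313234480943887504225958848080581413046869388652950313380952821413292286837790125727128035577213024032274310056437373602412656168792862807293952)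 (by decide +kernel)
theorem c10_s349 : Sem (nat_lit 8931394411890933966347733660179601942563841450823800216946752822532690858398586298637961994434524399700878818060857112348965568452155670528) (nat_lit 22643774576168765235189781138324362769892025778225426427278870000269590156654357331354565783994751787152232176923317907639520784976663232481234341946824372980417912897536) (nat_lit 22643774576168765235189781138324362769892025778225426427278870000269590156654357331354565783994751787152232176923317907639520784976663232481234341946824372980417912897536) :=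
  sem_of_chk (M (nat_lit 464) (B (L (nat_lit 463) ln19_13_1_c10 ln19_13_1_c10_ok) (M (nat_lit 465) (B (L (nat_lit 436) ln20_13_1_c10 ln20_13_1_c10_ok) (M (nat_lit 401) (B (M (nat_lit 369) (B (L (nat_lit 496) ln17_11_5_c10 ln17_11_5_c10_ok) (L (nat_lit 337) ln17_10_5_c10 ln17_10_5_c10_ok))) (B (M (nat_lit 497) (B (M (nat_lit 402) (B (L (nat_lit 529) ln17_16_6_c10 ln17_16_6_c10_ok) (L (nat_lit 370) ln17_15_6_c10 ln17_15_6_c10_ok))) (B (M (nat_lit 529) (B (L (nat_lit 561) ln17_17_7_c10 ln17_17_7_c10_ok) (M (nat_lit 530) (B (L (nat_lit 562) ln17_13_4_c10 ln17_13_4_c10_ok) (L (nat_lit 498) ln17_12_4_c10 ln17_12_4_c10_ok))))) (M (nat_lit 498) (B (L (nat_lit 530) ln17_12_4_c10 ln17_12_4_c10_ok) (M (nat_lit 499) (B (L (nat_lit 500) ln20_15_3_c10 ln20_15_3_c10_ok) (M (nat_lit 531) (B (M (nat_lit 496) (B (L (nat_lit 532) ln16_15_0_c10 ln16_15_0_c10_ok) (L (nat_lit 528) ln17_12_5_c10 ln17_12_5_c10_ok))) (M (nat_lit 402) (B (L (nat_lit 467) ln19_16_7_c10 ln19_16_7_c10_ok) (L (nat_lit 370) ln17_15_6_c10 ln17_15_6_c10_ok))))))))))))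 (M (nat_lit 497) (B (M (nat_lit 402) (B (L (nat_lit 529) ln17_16_6_c10 ln17_16_6_c10_ok) (L (nat_lit 370) ln17_15_6_c10 ln17_15_6_c10_ok))) (B (M (nat_lit 529) (B (L (nat_lit 561) ln17_17_7_c10 ln17_17_7_c10_ok) (M (nat_lit 530) (B (L (nat_lit 562) ln17_13_4_c10 ln17_13_4_c10_ok) (L (nat_lit 498) ln17_12_4_c10 ln17_12_4_c10_ok))))) (M (nat_lit 370) (B (L (nat_lit 402) ln17_15_6_c10 ln17_15_6_c10_ok) (M (nat_lit 369) (B (L (nat_lit 338) ln17_14_6_c10 ln17_14_6_c10_ok) (L (nat_lit 337) ln17_10_5_c10 ln17_10_5_c10_ok))))))))))))))) (nat_lit 8931394411890933966347733660179601942563841450823800216946752822532690858398586298637961994434524399700878818060857112348965568452155670528) (nat_lit 22643774576168765235189781138324362769892025778225426427278870000269590156654357331354565783994751787152232176923317907639520784976663232481234341946824372980417912897536) (nat_lit 22643774576168765235189781138324362769892025778225426427278870000269590156654357331354565783994751787152232176923317907639520784976663232481234341946824372980417912897536)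 (by decide +kernel)
theorem c10_s357 : Sem (nat_lit 8931394411890933966347733660179601942563841450823800216946752822532690858398586298637961994434524399700878818060857112348965568452155670528) (nat_lit 3514776402805219832046665609940175315012810586288259744063402895685161763990899317953468829157079252970926409165484308599748164044268025646052235014355336298496) (nat_lit 3514776402805219832046665609940175315012810586288259744063402895685161763990899317953468829157079252970926409165484308599748164044268025646052235014355336298496) :=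
  sem_of_chk (M (nat_lit 436) (B (M (nat_lit 468) (B (L (nat_lit 469) ln17_13_0_c10 ln17_13_0_c10_ok) (L (nat_lit 467) ln16_13_0_c10 ln16_13_0_c10_ok))) (B (M (nat_lit 401) (B (L (nat_lit 400) ln20_13_3_c10 ln20_13_3_c10_ok) (M (nat_lit 437) (B (L (nat_lit 402) ln21_13_3_c10 ln21_13_3_c10_ok) (M (nat_lit 469) (B (L (nat_lit 468) ln17_13_0_c10 ln17_13_0_c10_ok) (L (nat_lit 470) ln18_13_0_c10 ln18_13_0_c10_ok))))))) (M (nat_lit 466) (B (M (nat_lit 437) (B (L (nat_lit 465) ln21_13_1_c10 ln21_13_1_c10_ok) (M (nat_lit 401) (B (L (nat_lit 400) ln20_13_3_c10 ln20_13_3_c10_ok) (L (nat_lit 402) ln21_13_3_c10 ln21_13_3_c10_ok))))) (B (M (nat_lit 437) (B (L (nat_lit 465) ln21_13_1_c10 ln21_13_1_c10_ok) (M (nat_lit 438) (B (L (nat_lit 467) ln22_13_1_c10 ln22_13_1_c10_ok) (M (nat_lit 402) (B (L (nat_lit 401) ln21_13_3_c10 ln21_13_3_c10_ok) (L (nat_lit 403) ln22_13_3_c10 ln22_13_3_c10_ok))))))) (B (M (nat_lit 403) (B (M (nat_lit 498) (B (L (nat_lit 530) ln18_16_6_c10 ln18_16_6_c10_ok) (M (nat_lit 371) (B (L (nat_lit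 402) ln18_15_6_c10 ln18_15_6_c10_ok) (L (nat_lit 339) ln19_10_5_c10 ln19_10_5_c10_ok))))) (B (M (nat_lit 498) (B (L (nat_lit 530) ln18_16_6_c10 ln18_16_6_c10_ok) (M (nat_lit 371) (B (L (nat_lit 339) ln19_10_5_c10 ln19_10_5_c10_ok) (L (nat_lit 467) ln19_11_5_c10 ln19_11_5_c10_ok))))) (M (nat_lit 437) (B (L (nat_lit 465) ln21_13_1_c10 ln21_13_1_c10_ok) (M (nat_lit 438) (B (L (nat_lit 402) ln22_13_3_c10 ln22_13_3_c10_ok) (L (nat_lit 467) ln22_13_1_c10 ln22_13_1_c10_ok)))))))) (B (M (nat_lit 401) (B (L (nat_lit 400) ln20_13_3_c10 ln20_13_3_c10_ok) (M (nat_lit 402) (B (L (nat_lit 437) ln21_13_3_c10 ln21_13_3_c10_ok) (M (nat_lit 369) (B (L (nat_lit 337) ln17_10_4_c10 ln17_10_4_c10_ok) (L (nat_lit 498) ln18_15_7_c10 ln18_15_7_c10_ok))))))) (B (M (nat_lit 465) (B (L (nat_lit 437) ln21_13_1_c10 ln21_13_1_c10_ok) (M (nat_lit 401) (B (L (nat_lit 400) ln20_13_3_c10 ln20_13_3_c10_ok) (M (nat_lit 498) (B (L (nat_lit 369) ln17_11_4_c10 ln17_11_4_c10_ok) (L (nat_lit 530) ln18_16_7_c10 ln18_16_7_c10_ok))))))) (M (nat_lit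 401) (B (L (nat_lit 400) ln20_13_3_c10 ln20_13_3_c10_ok) (M (nat_lit 369) (B (L (nat_lit 337) ln17_10_4_c10 ln17_10_4_c10_ok) (M (nat_lit 498) (B (L (nat_lit 402) ln18_15_7_c10 ln18_15_7_c10_ok) (L (nat_lit 530) ln18_16_7_c10 ln18_16_7_c10_ok)))))))))))))))) (nat_lit 8931394411890933966347733660179601942563841450823800216946752822532690858398586298637961994434524399700878818060857112348965568452155670528) (nat_lit 3514776402805219832046665609940175315012810586288259744063402895685161763990899317953468829157079252970926409165484308599748164044268025646052235014355336298496) (nat_lit 3514776402805219832046665609940175315012810586288259744063402895685161763990899317953468829157079252970926409165484308599748164044268025646052235014355336298496) (by decide +kernel)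
theorem c10_s358 : Sem (nat_lit 8931394323165503754481658153670348049985162940857813804920622417077344278730704448857942057155343404368412318944338361584051269924982620160) (nat_lit 6001896933401475333423583742528114989450655276387224168040800061685245898198944060234018694794941159828276024561319273082810918178362031603712) (nat_lit 6001896933401475333423583742528114989450655276387224168040800061685245898198944060234018694794941159828276024561319273082810918178362031603712) :=
  sem_of_chk (M (nat_lit 435) (B (M (nat_lit 436) (B (M (nat_lit 468) (B (L (nat_lit 469) ln17_13_0_c10 ln17_13_0_c10_ok) (L (nat_lit 467) ln16_13_0_c10 ln16_13_0_c10_ok))) (M (nat_lit 400) (B (L (nat_lit 401) ln20_13_3_c10 ln20_13_3_c10_ok) (L (nat_lit 399) ln13_12_0 ln13_12_0_ok))))) (B (M (nat_lit 431) (B (M (nat_lit 467) (B (L (nat_lit 468) ln16_13_0_c10 ln16_13_0_c10_ok) (L (nat_lit 466) ln15_13_0_c10 ln15_13_0_c10_ok))) (L (nat_lit 399) ln18_13_3 ln18_13_3_ok))) (B (M (nat_lit 436) (B (M (nat_lit 400) (B (L (nat_lit 401)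 ln20_13_3_c10 ln20_13_3_c10_ok) (L (nat_lit 399) ln13_12_0 ln13_12_0_ok))) (M (nat_lit 437) (B (M (nat_lit 405) (B (L (nat_lit 406) ln18_13_2_c10 ln18_13_2_c10_ok) (L (nat_lit 404) ln17_13_2_c10 ln17_13_2_c10_ok))) (M (nat_lit 466) (B (L (nat_lit 465) ln21_13_1_c10 ln21_13_1_c10_ok) (M (nat_lit 467) (B (L (nat_lit 438) ln22_13_1_c10 ln22_13_1_c10_ok) (L (nat_lit 431) ln15_13_0_c10 ln15_13_0_c10_ok))))))))) (B (M (nat_lit 436) (B (M (nat_lit 400) (B (L (nat_lit 401) ln20_13_3_c10 ln20_13_3_c10_ok) (L (nat_lit 399) ln13_12_0 ln13_12_0_ok))) (M (nat_lit 437) (B (M (nat_lit 469) (B (L (nat_lit 470) ln18_13_0_c10 ln18_13_0_c10_ok) (L (nat_lit 468) ln17_13_0_c10 ln17_13_0_c10_ok))) (M (nat_lit 405) (B (L (nat_lit 406) ln18_13_2_c10 ln18_13_2_c10_ok) (L (nat_lit 404) ln17_13_2_c10 ln17_13_2_c10_ok))))))) (M (nat_lit 436) (B (M (nat_lit 468) (B (L (nat_lit 469) ln17_13_0_c10 ln17_13_0_c10_ok) (L (nat_lit 467) ln16_13_0_c10 ln16_13_0_c10_ok))) (B (M (nat_lit 467) (B (L (nat_lit 468) ln16_13_0_c10 ln16_13_0_c10_ok)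 (M (nat_lit 466) (B (L (nat_lit 431) ln15_13_0_c10 ln15_13_0_c10_ok) (M (nat_lit 437) (B (L (nat_lit 438) ln22_13_1_c10 ln22_13_1_c10_ok) (L (nat_lit 465) ln21_13_1_c10 ln21_13_1_c10_ok))))))) (B (M (nat_lit 437) (B (M (nat_lit 405) (B (L (nat_lit 406) ln18_13_2_c10 ln18_13_2_c10_ok) (L (nat_lit 404) ln17_13_2_c10 ln17_13_2_c10_ok))) (M (nat_lit 466) (B (L (nat_lit 465) ln21_13_1_c10 ln21_13_1_c10_ok) (M (nat_lit 467) (B (L (nat_lit 438) ln22_13_1_c10 ln22_13_1_c10_ok) (L (nat_lit 431) ln15_13_0_c10 ln15_13_0_c10_ok))))))) (M (nat_lit 437) (B (M (nat_lit 469) (B (L (nat_lit 470) ln18_13_0_c10 ln18_13_0_c10_ok) (L (nat_lit 468) ln17_13_0_c10 ln17_13_0_c10_ok))) (M (nat_lit 405) (B (L (nat_lit 406) ln18_13_2_c10 ln18_13_2_c10_ok) (L (nat_lit 404) ln17_13_2_c10 ln17_13_2_c10_ok)))))))))))))) (nat_lit 8931394323165503754481658153670348049985162940857813804920622417077344278730704448857942057155343404368412318944338361584051269924982620160) (nat_lit 6001896933401475333423583742528114989450655276387224168040800061685245898198944060234018694794941159828276024561319273082810918178362031603712)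 (nat_lit 6001896933401475333423583742528114989450655276387224168040800061685245898198944060234018694794941159828276024561319273082810918178362031603712) (by decide +kernel)
theorem c10_s366 : Sem (nat_lit 8931394323165503754481658153670348049985162940857813804920622417077344278730704448857942057155343404368412318944338361584051269924982620160) (nat_lit 9434906065129282733058453803094073926420823893356390362934764421262396775771907856286542875635331493472034614582882524901306007903568939892152080641881207875839222349824) (nat_lit 9434906065129282733058453803094073926420823893356390362934764421262396775771907856286542875635331493472034614582882524901306007903568939892152080641881207875839222349824) :=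
  sem_of_chk (M (nat_lit 435) (B (M (nat_lit 436) (B (M (nat_lit 400) (B (L (nat_lit 399) ln13_12_0 ln13_12_0_ok) (L (nat_lit 401) ln20_13_3_c10 ln20_13_3_c10_ok))) (M (nat_lit 468) (B (L (nat_lit 467) ln16_13_0_c10 ln16_13_0_c10_ok) (L (nat_lit 469) ln17_13_0_c10 ln17_13_0_c10_ok))))) (B (M (nat_lit 436) (B (M (nat_lit 464) (B (L (nat_lit 463) ln19_13_1_c10 ln19_13_1_c10_ok) (L (nat_lit 465) ln20_13_1_c10 ln20_13_1_c10_ok))) (M (nat_lit 468) (B (L (nat_lit 467) ln16_13_0_c10 ln16_13_0_c10_ok) (L (nat_lit 469) ln17_13_0_c10 ln17_13_0_c10_ok))))) (B (M (nat_lit 436) (B (M (nat_lit 464) (B (L (nat_lit 463) ln19_13_1_c10 ln19_13_1_c10_ok) (L (nat_lit 465) ln20_13_1_c10 ln20_13_1_c10_ok))) (M (nat_lit 400) (B (L (nat_lit 399) ln13_12_0 ln13_12_0_ok) (L (nat_lit 401) ln20_13_3_c10 ln20_13_3_c10_ok))))) (M (nat_lit 464) (B (L (nat_lit 463) ln19_13_1_c10 ln19_13_1_c10_ok) (M (nat_lit 400) (B (L (nat_lit 399) ln13_12_0 ln13_12_0_ok) (M (nat_lit 496) (B (M (nat_lit 401) (B (L (nat_lit 528) ln16_16_6_c10 ln16_16_6_c10_ok)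 (L (nat_lit 369) ln16_15_6_c10 ln16_15_6_c10_ok))) (B (M (nat_lit 368) (B (M (nat_lit 497) (B (L (nat_lit 529) ln16_12_4 ln16_12_4_ok) (L (nat_lit 465) ln16_11_4 ln16_11_4_ok))) (M (nat_lit 369) (B (L (nat_lit 401) ln16_15_6_c10 ln16_15_6_c10_ok) (L (nat_lit 337) ln16_14_6_c10 ln16_14_6_c10_ok))))) (M (nat_lit 528) (B (M (nat_lit 527) (B (L (nat_lit 559) ln16_13_5_c10 ln16_13_5_c10_ok) (L (nat_lit 495) ln16_12_5_c10 ln16_12_5_c10_ok))) (M (nat_lit 529) (B (L (nat_lit 561) ln16_13_4_c10 ln16_13_4_c10_ok) (L (nat_lit 497) ln16_12_4 ln16_12_4_ok)))))))))))))))) (nat_lit 8931394323165503754481658153670348049985162940857813804920622417077344278730704448857942057155343404368412318944338361584051269924982620160) (nat_lit 9434906065129282733058453803094073926420823893356390362934764421262396775771907856286542875635331493472034614582882524901306007903568939892152080641881207875839222349824) (nat_lit 9434906065129282733058453803094073926420823893356390362934764421262396775771907856286542875635331493472034614582882524901306007903568939892152080641881207875839222349824)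 (by decide +kernel)
theorem c10_s367 : Sem (nat_lit 8931394323165503754481658153670348049985162940857813804920622417077344278730704448857942057155343404368412318944338361584051269924982620160) (nat_lit 1757388201607196826182612564682515148547428076730361732406145185695160805384020559506632083011352563426511481151425941065051328887082955671720652398492917956608) (nat_lit 1757388201607196826182612564682515148547428076730361732406145185695160805384020559506632083011352563426511481151425941065051328887082955671720652398492917956608) :=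
  sem_of_chk (M (nat_lit 400) (B (L (nat_lit 399) ln13_12_0 ln13_12_0_ok) (M (nat_lit 464) (B (M (nat_lit 435) (B (L (nat_lit 463) ln19_13_1_c10 ln19_13_1_c10_ok) (M (nat_lit 436) (B (L (nat_lit 401) ln20_13_3_c10 ln20_13_3_c10_ok) (L (nat_lit 465) ln20_13_1_c10 ln20_13_1_c10_ok))))) (B (M (nat_lit 368) (B (M (nat_lit 465) (B (L (nat_lit 336) ln16_10_4_c10 ln16_10_4_c10_ok) (L (nat_lit 497) ln16_11_4 ln16_11_4_ok))) (B (M (nat_lit 336) (B (M (nat_lit 337) (B (L (nat_lit 305) ln16_13_6_c10 ln16_13_6_c10_ok) (L (nat_lit 369) ln16_14_6_c10 ln16_14_6_c10_ok))) (M (nat_lit 335) (B (L (nat_lit 303) ln16_13_7 ln16_13_7_ok) (L (nat_lit 367) ln16_14_7 ln16_14_7_ok))))) (M (nat_lit 496) (B (M (nat_lit 369) (B (L (nat_lit 337) ln16_14_6_c10 ln16_14_6_c10_ok) (L (nat_lit 401) ln16_15_6_c10 ln16_15_6_c10_ok))) (M (nat_lit 497) (B (L (nat_lit 465) ln16_11_4 ln16_11_4_ok) (L (nat_lit 529) ln16_12_4 ln16_12_4_ok)))))))) (B (M (nat_lit 465) (B (M (nat_lit 435) (B (L (nat_lit 436) ln20_13_1_c10 ln20_13_1_c10_ok) (L (nat_lit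 463) ln19_13_1_c10 ln19_13_1_c10_ok))) (M (nat_lit 368) (B (L (nat_lit 336) ln16_10_4_c10 ln16_10_4_c10_ok) (L (nat_lit 497) ln16_11_4 ln16_11_4_ok))))) (M (nat_lit 401) (B (M (nat_lit 435) (B (L (nat_lit 436) ln20_13_3_c10 ln20_13_3_c10_ok) (L (nat_lit 463) ln19_13_1_c10 ln19_13_1_c10_ok))) (M (nat_lit 369) (B (L (nat_lit 337) ln17_10_5_c10 ln17_10_5_c10_ok) (L (nat_lit 496) ln16_15_6_c10 ln16_15_6_c10_ok))))))))))) (nat_lit 8931394323165503754481658153670348049985162940857813804920622417077344278730704448857942057155343404368412318944338361584051269924982620160) (nat_lit 1757388201607196826182612564682515148547428076730361732406145185695160805384020559506632083011352563426511481151425941065051328887082955671720652398492917956608) (nat_lit 1757388201607196826182612564682515148547428076730361732406145185695160805384020559506632083011352563426511481151425941065051328887082955671720652398492917956608) (by decide +kernel)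
theorem c10_s377 : Sem (nat_lit 8931394256621431097518788932954815973983194743725289934426374236615926711123317465829479309420834064270636221093759615673793712985338806272) (nat_lit 40522612990562315350423557129159003996782661831910691237474909776249154262112233333404864391359465516547505818211435730773248521169577457829338451826485753095480902527857297719296) (nat_lit 40522612990562315350423557129159003996782661831910691237474909776249154262112233333404864391359465516547505818211435730773248521169577457829338451826485753095480902527857297719296) :=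
  sem_of_chk (M (nat_lit 464) (B (M (nat_lit 496) (B (M (nat_lit 495) (B (L (nat_lit 527) ln16_12_5_c10 ln16_12_5_c10_ok) (L (nat_lit 463) ln16_11_5_c10 ln16_11_5_c10_ok))) (M (nat_lit 497) (B (L (nat_lit 529) ln16_12_4 ln16_12_4_ok) (L (nat_lit 465) ln16_11_4 ln16_11_4_ok))))) (B (M (nat_lit 465) (B (L (nat_lit 497) ln16_11_4 ln16_11_4_ok) (M (nat_lit 433) (B (L (nat_lit 336) ln16_10_4_c10 ln16_10_4_c10_ok) (M (nat_lit 463) (B (L (nat_lit 495) ln16_11_5_c10 ln16_11_5_c10_ok) (L (nat_lit 462) ln13_14_2 ln13_14_2_ok))))))) (B (M (nat_lit 496) (B (M (nat_lit 497) (B (L (nat_lit 529) ln16_12_4 ln16_12_4_ok) (L (nat_lit 465) ln16_11_4 ln16_11_4_ok))) (B (M (nat_lit 433) (B (M (nat_lit 401) (B (L (nat_lit 528) ln16_16_6_c10 ln16_16_6_c10_ok) (L (nat_lit 369) ln16_15_6_c10 ln16_15_6_c10_ok))) (M (nat_lit 465) (B (L (nat_lit 497) ln16_11_4 ln16_11_4_ok) (L (nat_lit 336) ln16_10_4_c10 ln16_10_4_c10_ok))))) (M (nat_lit 528) (B (M (nat_lit 401) (B (L (nat_lit 433) ln16_16_6_c10 ln16_16_6_c10_ok) (L (nat_lit 369)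 ln16_15_6_c10 ln16_15_6_c10_ok))) (M (nat_lit 560) (B (M (nat_lit 559) (B (L (nat_lit 591) ln16_14_5_c10 ln16_14_5_c10_ok) (L (nat_lit 527) ln16_13_5_c10 ln16_13_5_c10_ok))) (M (nat_lit 561) (B (L (nat_lit 593) ln16_14_4_c10 ln16_14_4_c10_ok) (L (nat_lit 529) ln16_13_4_c10 ln16_13_4_c10_ok)))))))))) (B (M (nat_lit 496) (B (M (nat_lit 495) (B (L (nat_lit 527) ln16_12_5_c10 ln16_12_5_c10_ok) (L (nat_lit 463) ln16_11_5_c10 ln16_11_5_c10_ok))) (M (nat_lit 401) (B (L (nat_lit 369) ln16_15_6_c10 ln16_15_6_c10_ok) (M (nat_lit 433) (B (L (nat_lit 528) ln16_16_6_c10 ln16_16_6_c10_ok) (M (nat_lit 336) (B (L (nat_lit 465) ln16_10_4_c10 ln16_10_4_c10_ok) (L (nat_lit 304) ln16_9_4_c10 ln16_9_4_c10_ok))))))))) (M (nat_lit 496) (B (M (nat_lit 495) (B (L (nat_lit 527) ln16_12_5_c10 ln16_12_5_c10_ok) (L (nat_lit 463) ln16_11_5_c10 ln16_11_5_c10_ok))) (M (nat_lit 528) (B (M (nat_lit 529) (B (L (nat_lit 561) ln16_13_4_c10 ln16_13_4_c10_ok) (L (nat_lit 497) ln16_12_4 ln16_12_4_ok))) (M (nat_lit 401) (B (L (nat_lit 433)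 ln16_16_6_c10 ln16_16_6_c10_ok) (L (nat_lit 369) ln16_15_6_c10 ln16_15_6_c10_ok)))))))))))) (nat_lit 8931394256621431097518788932954815973983194743725289934426374236615926711123317465829479309420834064270636221093759615673793712985338806272) (nat_lit 40522612990562315350423557129159003996782661831910691237474909776249154262112233333404864391359465516547505818211435730773248521169577457829338451826485753095480902527857297719296) (nat_lit 40522612990562315350423557129159003996782661831910691237474909776249154262112233333404864391359465516547505818211435730773248521169577457829338451826485753095480902527857297719296) (by decide +kernel)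
theorem c10_s378 : Sem (nat_lit 8931394256621431097518788932954815973983194743725289934426374236615926711123317465829479309420834064270636221093759615673793712985338806272) (nat_lit 204586913041142969533442606788896450723696885101231343546105810424896141529289153793233236570046584688994159758203535671251069864057024179191658053632) (nat_lit 204586913041142969533442606788896450723696885101231343546105810424896141529289153793233236570046584688994159758203535671251069864057024179191658053632) :=
  sem_of_chk (M (nat_lit 336) (B (M (nat_lit 304) (B (M (nat_lit 303) (B (L (nat_lit 271) ln16_12_7_c10 ln16_12_7_c10_ok) (L (nat_lit 335) ln16_13_7 ln16_13_7_ok))) (M (nat_lit 305) (B (L (nat_lit 273) ln16_12_6_c10 ln16_12_6_c10_ok) (L (nat_lit 337) ln16_13_6_c10 ln16_13_6_c10_ok))))) (B (M (nat_lit 337) (B (L (nat_lit 305) ln16_13_6_c10 ln16_13_6_c10_ok) (M (nat_lit 369) (B (L (nat_lit 464) ln16_14_6_c10 ln16_14_6_c10_ok) (M (nat_lit 335) (B (L (nat_lit 303) ln16_13_7 ln16_13_7_ok) (M (nat_lit 334) (B (L (nat_lit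 333) ln13_10_0 ln13_10_0_ok) (L (nat_lit 370) ln14_10_0 ln14_10_0_ok))))))))) (B (M (nat_lit 304) (B (M (nat_lit 305) (B (L (nat_lit 273) ln16_12_6_c10 ln16_12_6_c10_ok) (L (nat_lit 337) ln16_13_6_c10 ln16_13_6_c10_ok))) (B (M (nat_lit 369) (B (M (nat_lit 401) (B (L (nat_lit 272) ln16_8_4_c10 ln16_8_4_c10_ok) (L (nat_lit 433) ln16_9_4_c10 ln16_9_4_c10_ok))) (M (nat_lit 337) (B (L (nat_lit 305) ln16_13_6_c10 ln16_13_6_c10_ok) (L (nat_lit 464) ln16_14_6_c10 ln16_14_6_c10_ok))))) (M (nat_lit 272) (B (M (nat_lit 401) (B (L (nat_lit 369) ln16_8_4_c10 ln16_8_4_c10_ok) (L (nat_lit 433) ln16_9_4_c10 ln16_9_4_c10_ok))) (M (nat_lit 240) (B (M (nat_lit 239) (B (L (nat_lit 207) ln16_10_7_c10 ln16_10_7_c10_ok) (L (nat_lit 271) ln16_11_7_c10 ln16_11_7_c10_ok))) (M (nat_lit 241) (B (L (nat_lit 209) ln16_10_6_c10 ln16_10_6_c10_ok) (L (nat_lit 273) ln16_11_6_c10 ln16_11_6_c10_ok)))))))))) (B (M (nat_lit 304) (B (M (nat_lit 303) (B (L (nat_lit 271) ln16_12_7_c10 ln16_12_7_c10_ok) (L (nat_lit 335) ln16_13_7 ln16_13_7_ok)))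 (M (nat_lit 401) (B (L (nat_lit 433) ln16_9_4_c10 ln16_9_4_c10_ok) (M (nat_lit 369) (B (L (nat_lit 272) ln16_8_4_c10 ln16_8_4_c10_ok) (M (nat_lit 464) (B (L (nat_lit 337) ln16_14_6_c10 ln16_14_6_c10_ok) (L (nat_lit 496) ln16_15_6_c10 ln16_15_6_c10_ok))))))))) (M (nat_lit 304) (B (M (nat_lit 303) (B (L (nat_lit 271) ln16_12_7_c10 ln16_12_7_c10_ok) (L (nat_lit 335) ln16_13_7 ln16_13_7_ok))) (M (nat_lit 272) (B (M (nat_lit 273) (B (L (nat_lit 241) ln16_11_6_c10 ln16_11_6_c10_ok) (L (nat_lit 305) ln16_12_6_c10 ln16_12_6_c10_ok))) (M (nat_lit 401) (B (L (nat_lit 369) ln16_8_4_c10 ln16_8_4_c10_ok) (L (nat_lit 433) ln16_9_4_c10 ln16_9_4_c10_ok)))))))))))) (nat_lit 8931394256621431097518788932954815973983194743725289934426374236615926711123317465829479309420834064270636221093759615673793712985338806272) (nat_lit 204586913041142969533442606788896450723696885101231343546105810424896141529289153793233236570046584688994159758203535671251069864057024179191658053632) (nat_lit 204586913041142969533442606788896450723696885101231343546105810424896141529289153793233236570046584688994159758203535671251069864057024179191658053632)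 (by decide +kernel)
theorem c10_s389 : Sem (nat_lit 68474022550917547568737145396602318662684999859472593283772792851408542631151818572994602695341320027556651816653916872863169515446572417024) (nat_lit 7547924852279165006587024031629199545919344094929124459184468711931753243092329903797281164639146407024150197165113562950303816615062430517687932469863043822195008602112) (nat_lit 7547924852279165006587024031629199545919344094929124459184468711931753243092329903797281164639146407024150197165113562950303816615062430517687932469863043822195008602112) :=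
  sem_of_chk (M (nat_lit 496) (B (M (nat_lit 463) (B (L (nat_lit 433) ln13_14_2 ln13_14_2_ok) (L (nat_lit 497) ln13_14_0 ln13_14_0_ok))) (B (M (nat_lit 400) (B (M (nat_lit 368) (B (M (nat_lit 367) (B (L (nat_lit 335) ln16_14_7 ln16_14_7_ok) (L (nat_lit 399) ln16_15_7 ln16_15_7_ok))) (M (nat_lit 497) (B (L (nat_lit 465) ln16_11_4 ln16_11_4_ok) (L (nat_lit 529) ln16_12_4 ln16_12_4_ok))))) (B (M (nat_lit 368) (B (M (nat_lit 369) (B (L (nat_lit 337) ln16_14_6_c10 ln16_14_6_c10_ok) (L (nat_lit 401) ln16_15_6_c10 ln16_15_6_c10_ok))) (M (nat_lit 497) (B (L (nat_lit 465) ln16_11_4 ln16_11_4_ok) (L (nat_lit 529) ln16_12_4 ln16_12_4_ok))))) (B (M (nat_lit 528) (B (M (nat_lit 401) (B (L (nat_lit 369) ln16_15_6_c10 ln16_15_6_c10_ok) (L (nat_lit 433) ln16_16_6_c10 ln16_16_6_c10_ok))) (M (nat_lit 529) (B (L (nat_lit 497) ln16_12_4 ln16_12_4_ok) (L (nat_lit 561) ln16_13_4_c10 ln16_13_4_c10_ok))))) (M (nat_lit 368) (B (M (nat_lit 367) (B (L (nat_lit 335) ln16_14_7 ln16_14_7_ok) (L (nat_lit 399) ln16_15_7 ln16_15_7_ok)))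 (M (nat_lit 369) (B (L (nat_lit 337) ln16_14_6_c10 ln16_14_6_c10_ok) (L (nat_lit 401) ln16_15_6_c10 ln16_15_6_c10_ok))))))))) (B (M (nat_lit 497) (B (L (nat_lit 463) ln13_14_0 ln13_14_0_ok) (M (nat_lit 529) (B (L (nat_lit 400) ln16_12_4 ln16_12_4_ok) (M (nat_lit 561) (B (L (nat_lit 528) ln16_13_4_c10 ln16_13_4_c10_ok) (L (nat_lit 465) ln17_17_7_c10 ln17_17_7_c10_ok))))))) (M (nat_lit 433) (B (L (nat_lit 463) ln13_14_2 ln13_14_2_ok) (M (nat_lit 401) (B (L (nat_lit 528) ln16_16_6_c10 ln16_16_6_c10_ok) (M (nat_lit 369) (B (L (nat_lit 400) ln16_15_6_c10 ln16_15_6_c10_ok) (L (nat_lit 337) ln17_10_5_c10 ln17_10_5_c10_ok))))))))))) (nat_lit 68474022550917547568737145396602318662684999859472593283772792851408542631151818572994602695341320027556651816653916872863169515446572417024) (nat_lit 7547924852279165006587024031629199545919344094929124459184468711931753243092329903797281164639146407024150197165113562950303816615062430517687932469863043822195008602112) (nat_lit 7547924852279165006587024031629199545919344094929124459184468711931753243092329903797281164639146407024150197165113562950303816615062430517687932469863043822195008602112)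 (by decide +kernel)
theorem c10_s394 : Sem (nat_lit 21584202758241968925018459392428634248426352321592664525955131179819344765362620990096764774341559628860189228745737756931989833359265103872) (nat_lit 29484081464512684799573980084062624309218159599162811395544749156846627954778205410069901125018213870327407204077181802224189716460378527300026881464915770235991097344) (nat_lit 29484081464512684799573980084062624309218159599162811395544749156846627954778205410069901125018213870327407204077181802224189716460378527300026881464915770235991097344) :=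
  sem_of_chk (M (nat_lit 490) (B (M (nat_lit 459) (B (L (nat_lit 425) ln13_14_3 ln13_14_3_ok) (L (nat_lit 489) ln13_14_1 ln13_14_1_ok))) (B (M (nat_lit 394) (B (M (nat_lit 362) (B (M (nat_lit 363) (B (L (nat_lit 331) ln10_14_6 ln10_14_6_ok) (L (nat_lit 395) ln10_15_6 ln10_15_6_ok))) (M (nat_lit 489) (B (L (nat_lit 457) ln10_11_5 ln10_11_5_ok) (L (nat_lit 521) ln10_12_5 ln10_12_5_ok))))) (B (M (nat_lit 362) (B (M (nat_lit 361) (B (L (nat_lit 329) ln10_14_7 ln10_14_7_ok) (L (nat_lit 393) ln10_15_7 ln10_15_7_ok))) (M (nat_lit 489) (B (L (nat_lit 457) ln10_11_5 ln10_11_5_ok) (L (nat_lit 521) ln10_12_5 ln10_12_5_ok))))) (B (M (nat_lit 522) (B (M (nat_lit 393) (B (L (nat_lit 361) ln10_15_7 ln10_15_7_ok) (L (nat_lit 425) ln10_16_7 ln10_16_7_ok))) (M (nat_lit 521) (B (L (nat_lit 489) ln10_12_5 ln10_12_5_ok) (L (nat_lit 553) ln10_13_5 ln10_13_5_ok))))) (M (nat_lit 362) (B (M (nat_lit 363) (B (L (nat_lit 331) ln10_14_6 ln10_14_6_ok) (L (nat_lit 395) ln10_15_6 ln10_15_6_ok))) (M (nat_lit 361) (B (L (nat_lit 329)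 ln10_14_7 ln10_14_7_ok) (L (nat_lit 393) ln10_15_7 ln10_15_7_ok))))))))) (B (M (nat_lit 489) (B (L (nat_lit 459) ln13_14_1 ln13_14_1_ok) (M (nat_lit 521) (B (L (nat_lit 394) ln10_12_5 ln10_12_5_ok) (M (nat_lit 553) (B (L (nat_lit 522) ln10_13_5 ln10_13_5_ok) (L (nat_lit 457) ln9_17_6 ln9_17_6_ok))))))) (M (nat_lit 425) (B (L (nat_lit 459) ln13_14_3 ln13_14_3_ok) (M (nat_lit 393) (B (L (nat_lit 522) ln10_16_7 ln10_16_7_ok) (M (nat_lit 361) (B (L (nat_lit 394) ln10_15_7 ln10_15_7_ok) (L (nat_lit 329) ln9_10_4_c10 ln9_10_4_c10_ok))))))))))) (nat_lit 21584202758241968925018459392428634248426352321592664525955131179819344765362620990096764774341559628860189228745737756931989833359265103872) (nat_lit 29484081464512684799573980084062624309218159599162811395544749156846627954778205410069901125018213870327407204077181802224189716460378527300026881464915770235991097344) (nat_lit 29484081464512684799573980084062624309218159599162811395544749156846627954778205410069901125018213870327407204077181802224189716460378527300026881464915770235991097344)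 (by decide +kernel)
theorem c10_s400 : Sem (nat_lit 5954262830815946494763249298843757173852324438261567950902348008252711619201165097221184162808274170258209505398083731990017737449713696768) (nat_lit 791175952681026872176117213502300901984270145085244152515292619511626199385802782346615561347237860298207986702363329452042315438798665020826797998080) (nat_lit 791175952681026872176117213502300901984270145085244152515292619511626199385802782346615561347237860298207986702363329452042315438798665020826797998080) :=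
  sem_of_chk (M (nat_lit 460) (B (L (nat_lit 492) ln13_11_5 ln13_11_5_ok) (M (nat_lit 462) (B (L (nat_lit 494) ln13_11_4 ln13_11_4_ok) (M (nat_lit 463) (B (M (nat_lit 428) (B (L (nat_lit 464) ln16_14_3 ln16_14_3_ok) (L (nat_lit 427) ln15_14_3 ln15_14_3_ok))) (B (M (nat_lit 459) (B (M (nat_lit 427) (B (L (nat_lit 428) ln15_14_3 ln15_14_3_ok) (L (nat_lit 426) ln14_14_3 ln14_14_3_ok))) (B (M (nat_lit 458) (B (M (nat_lit 490) (B (L (nat_lit 491) ln14_14_1 ln14_14_1_ok) (L (nat_lit 489) ln13_14_1 ln13_14_1_ok))) (M (nat_lit 426) (B (L (nat_lit 427) ln14_14_3 ln14_14_3_ok) (L (nat_lit 425) ln13_14_3 ln13_14_3_ok))))) (B (M (nat_lit 458) (B (M (nat_lit 490) (B (L (nat_lit 491) ln14_14_1 ln14_14_1_ok) (L (nat_lit 489) ln13_14_1 ln13_14_1_ok))) (M (nat_lit 457) (B (L (nat_lit 428) ln9_14_2 ln9_14_2_ok) (M (nat_lit 425) (B (L (nat_lit 426) ln13_14_3 ln13_14_3_ok) (L (nat_lit 424) ln12_14_3 ln12_14_3_ok))))))) (M (nat_lit 458) (B (M (nat_lit 490) (B (L (nat_lit 491) ln14_14_1 ln14_14_1_ok) (L (nat_lit 489) ln13_14_1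 ln13_14_1_ok))) (M (nat_lit 428) (B (L (nat_lit 427) ln15_14_3 ln15_14_3_ok) (L (nat_lit 457) ln9_14_2 ln9_14_2_ok))))))))) (M (nat_lit 464) (B (M (nat_lit 496) (B (L (nat_lit 497) ln13_14_0 ln13_14_0_ok) (L (nat_lit 495) ln12_14_0 ln12_14_0_ok))) (M (nat_lit 432) (B (L (nat_lit 433) ln13_14_2 ln13_14_2_ok) (L (nat_lit 431) ln12_14_2 ln12_14_2_ok)))))))))))) (nat_lit 5954262830815946494763249298843757173852324438261567950902348008252711619201165097221184162808274170258209505398083731990017737449713696768) (nat_lit 791175952681026872176117213502300901984270145085244152515292619511626199385802782346615561347237860298207986702363329452042315438798665020826797998080) (nat_lit 791175952681026872176117213502300901984270145085244152515292619511626199385802782346615561347237860298207986702363329452042315438798665020826797998080) (by decide +kernel)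
theorem c10_s410 : Sem (nat_lit 6078391946603017030059440820021257603129565138802089415107205437178356253900219102285957155629524740107757756277249073965565422096838948369818379774663250277100813536629813673984) (nat_lit 277381505394461615406393981153490670653942454862637025452174920413132409737386152454417653233870089194577686372739883307696954174498840141574167633373230212780264179645073022002746082983936) (nat_lit 277381505394461615406393981153490670653942454862637025452174920413132409737386152454417653233870089194577686372739883307696954174498840141574167633373230212780264179645073022002746082983936) :=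
  sem_of_chk (M (nat_lit 588) (B (M (nat_lit 557) (B (L (nat_lit 622) ln13_15_4_c10 ln13_15_4_c10_ok) (L (nat_lit 620) ln13_15_5_c10 ln13_15_5_c10_ok))) (B (M (nat_lit 591) (B (M (nat_lit 592) (B (M (nat_lit 560) (B (L (nat_lit 561) ln13_18_2_c10 ln13_18_2_c10_ok) (L (nat_lit 559) ln12_18_2_c10 ln12_18_2_c10_ok))) (M (nat_lit 620) (B (L (nat_lit 621) ln16_18_1_c10 ln16_18_1_c10_ok) (L (nat_lit 619) ln15_18_1_c10 ln15_18_1_c10_ok))))) (B (M (nat_lit 592) (B (M (nat_lit 624) (B (L (nat_lit 625) ln13_18_0_c10 ln13_18_0_c10_ok) (L (nat_lit 623) ln12_18_0_c10 ln12_18_0_c10_ok))) (M (nat_lit 620) (B (L (nat_lit 621) ln16_18_1_c10 ln16_18_1_c10_ok) (L (nat_lit 619) ln15_18_1_c10 ln15_18_1_c10_ok))))) (B (M (nat_lit 587) (B (M (nat_lit 623) (B (L (nat_lit 624) ln12_18_0_c10 ln12_18_0_c10_ok) (L (nat_lit 622) ln11_18_0_c10 ln11_18_0_c10_ok))) (M (nat_lit 619) (B (L (nat_lit 620) ln15_18_1_c10 ln15_18_1_c10_ok) (L (nat_lit 618) ln14_18_1_c10 ln14_18_1_c10_ok))))) (M (nat_lit 592) (B (M (nat_lit 560) (B (L (nat_lit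 561) ln13_18_2_c10 ln13_18_2_c10_ok) (L (nat_lit 559) ln12_18_2_c10 ln12_18_2_c10_ok))) (M (nat_lit 624) (B (L (nat_lit 625) ln13_18_0_c10 ln13_18_0_c10_ok) (L (nat_lit 623) ln12_18_0_c10 ln12_18_0_c10_ok))))))))) (B (M (nat_lit 620) (B (L (nat_lit 557) ln13_15_5_c10 ln13_15_5_c10_ok) (M (nat_lit 619) (B (L (nat_lit 591) ln15_18_1_c10 ln15_18_1_c10_ok) (M (nat_lit 618) (B (L (nat_lit 587) ln14_18_1_c10 ln14_18_1_c10_ok) (L (nat_lit 621) ln10_19_2_c10 ln10_19_2_c10_ok))))))) (M (nat_lit 622) (B (L (nat_lit 557) ln13_15_4_c10 ln13_15_4_c10_ok) (M (nat_lit 623) (B (L (nat_lit 587) ln11_18_0_c10 ln11_18_0_c10_ok) (M (nat_lit 624) (B (L (nat_lit 591) ln12_18_0_c10 ln12_18_0_c10_ok) (L (nat_lit 625) ln17_19_3_c10 ln17_19_3_c10_ok))))))))))) (nat_lit 6078391946603017030059440820021257603129565138802089415107205437178356253900219102285957155629524740107757756277249073965565422096838948369818379774663250277100813536629813673984) (nat_lit 277381505394461615406393981153490670653942454862637025452174920413132409737386152454417653233870089194577686372739883307696954174498840141574167633373230212780264179645073022002746082983936)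 (nat_lit 277381505394461615406393981153490670653942454862637025452174920413132409737386152454417653233870089194577686372739883307696954174498840141574167633373230212780264179645073022002746082983936) (by decide +kernel)
theorem c10_s412 : Sem (nat_lit 17404329762802738831934132754465279409129164007880131245549984505962047508750818816267932199949918218402502386932219598835822639573634862361973722682258466533537548686126349247630054260736) (nat_lit 1087770609402202334509475734601541868627683570564564647441553474937424116231143321124343819984683676252761370898748221559774808977850419104304389796468545393554667646332985742805277970792448) (nat_lit 1087770609402202334509475734601541868627683570564564647441553474937424116231143321124343819984683676252761370898748221559774808977850419104304389796468545393554667646332985742805277970792448) :=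
  sem_of_chk (M (nat_lit 592) (B (M (nat_lit 560) (B (L (nat_lit 463) ln16_18_7_c10 ln16_18_7_c10_ok) (M (nat_lit 624) (B (L (nat_lit 527) ln16_19_7_c10 ln16_19_7_c10_ok) (L (nat_lit 623) ln16_15_5_c10 ln16_15_5_c10_ok))))) (B (M (nat_lit 560) (B (L (nat_lit 463) ln16_18_7_c10 ln16_18_7_c10_ok) (M (nat_lit 624) (B (L (nat_lit 527) ln16_19_7_c10 ln16_19_7_c10_ok) (L (nat_lit 625) ln13_18_0_c10 ln13_18_0_c10_ok))))) (B (M (nat_lit 560) (B (L (nat_lit 463) ln16_18_7_c10 ln16_18_7_c10_ok) (M (nat_lit 624) (B (L (nat_lit 623) ln16_15_5_c10 ln16_15_5_c10_ok) (L (nat_lit 625) ln13_18_0_c10 ln13_18_0_c10_ok))))) (B (M (nat_lit 560) (B (L (nat_lit 463) ln16_18_7_c10 ln16_18_7_c10_ok) (L (nat_lit 623) ln16_15_5_c10 ln16_15_5_c10_ok))) (B (M (nat_lit 560) (B (L (nat_lit 623) ln16_15_5_c10 ln16_15_5_c10_ok) (M (nat_lit 625) (B (L (nat_lit 593) ln16_15_4_c10 ln16_15_4_c10_ok) (L (nat_lit 624) ln13_18_0_c10 ln13_18_0_c10_ok))))) (M (nat_lit 593) (B (L (nat_lit 621) ln17_18_1_c10 ln17_18_1_c10_ok) (M (nat_lit 562)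 (B (L (nat_lit 561) ln14_18_2_c10 ln14_18_2_c10_ok) (M (nat_lit 626) (B (L (nat_lit 625) ln14_18_0_c10 ln14_18_0_c10_ok) (M (nat_lit 594) (B (L (nat_lit 563) ln15_18_2_c10 ln15_18_2_c10_ok) (L (nat_lit 627) ln15_18_0_c10 ln15_18_0_c10_ok))))))))))))))) (nat_lit 17404329762802738831934132754465279409129164007880131245549984505962047508750818816267932199949918218402502386932219598835822639573634862361973722682258466533537548686126349247630054260736) (nat_lit 1087770609402202334509475734601541868627683570564564647441553474937424116231143321124343819984683676252761370898748221559774808977850419104304389796468545393554667646332985742805277970792448) (nat_lit 1087770609402202334509475734601541868627683570564564647441553474937424116231143321124343819984683676252761370898748221559774808977850419104304389796468545393554667646332985742805277970792448) (by decide +kernel)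
theorem c10_s413 : Sem (nat_lit 17404329762802738831934132754465279409129164007880131245549984505962047508750818816267932199949918218402502386932219598835822639573634862361973722682258466533537548686126349247630054260736) (nat_lit 1087770609402202334511362715813513292253555988833347574338506163274906133071196000993428786644705879991465592015694709502929009720150359319524797522901722115254954758491749476668804194893824) (nat_lit 1087770609402202334511362715813513292253555988833347574338506163274906133071196000993428786644705879991465592015694709502929009720150359319524797522901722115254954758491749476668804194893824) :=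
  sem_of_chk (M (nat_lit 592) (B (M (nat_lit 560) (B (L (nat_lit 463) ln16_18_7_c10 ln16_18_7_c10_ok) (M (nat_lit 624) (B (L (nat_lit 623) ln16_15_5_c10 ln16_15_5_c10_ok) (L (nat_lit 625) ln13_18_0_c10 ln13_18_0_c10_ok))))) (B (M (nat_lit 560) (B (L (nat_lit 463) ln16_18_7_c10 ln16_18_7_c10_ok) (L (nat_lit 623) ln16_15_5_c10 ln16_15_5_c10_ok))) (B (M (nat_lit 560) (B (L (nat_lit 623) ln16_15_5_c10 ln16_15_5_c10_ok) (M (nat_lit 464) (B (L (nat_lit 559) ln16_14_5_c10 ln16_14_5_c10_ok) (M (nat_lit 593) (B (L (nat_lit 625) ln16_15_4_c10 ln16_15_4_c10_ok) (L (nat_lit 561) ln16_14_4_c10 ln16_14_4_c10_ok))))))) (B (M (nat_lit 593) (B (L (nat_lit 621) ln17_18_1_c10 ln17_18_1_c10_ok) (M (nat_lit 625) (B (L (nat_lit 560) ln16_15_4_c10 ln16_15_4_c10_ok) (L (nat_lit 626) ln14_18_0_c10 ln14_18_0_c10_ok))))) (M (nat_lit 593) (B (L (nat_lit 621) ln17_18_1_c10 ln17_18_1_c10_ok) (M (nat_lit 562) (B (L (nat_lit 561) ln14_18_2_c10 ln14_18_2_c10_ok) (M (nat_lit 626) (B (L (nat_lit 625) ln14_18_0_c10 ln14_18_0_c10_ok) (M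 (nat_lit 594) (B (L (nat_lit 563) ln15_18_2_c10 ln15_18_2_c10_ok) (L (nat_lit 627) ln15_18_0_c10 ln15_18_0_c10_ok)))))))))))))) (nat_lit 17404329762802738831934132754465279409129164007880131245549984505962047508750818816267932199949918218402502386932219598835822639573634862361973722682258466533537548686126349247630054260736) (nat_lit 1087770609402202334511362715813513292253555988833347574338506163274906133071196000993428786644705879991465592015694709502929009720150359319524797522901722115254954758491749476668804194893824) (nat_lit 1087770609402202334511362715813513292253555988833347574338506163274906133071196000993428786644705879991465592015694709502929009720150359319524797522901722115254954758491749476668804194893824) (by decide +kernel)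
theorem c10_s419 : Sem (nat_lit 383600461868783388222986614096266462235883586976421838006897082937082378022292168646313495504118652032479925772076346627612894864867166214612093763584) (nat_lit 8364046772554125975851641101842989235682247984815320839493576269945832044411935045382312585802496868352) (nat_lit 8364046772554125975851641101842989235682247984815320839493576269945832044411935045382312585802496868352) :=
  sem_of_chk (M (nat_lit 305) (B (M (nat_lit 301) (B (M (nat_lit 273) (B (L (nat_lit 274) ln14_9_2_c10 ln14_9_2_c10_ok) (L (nat_lit 272) ln13_9_2 ln13_9_2_ok))) (M (nat_lit 269) (B (L (nat_lit 270) ln17_9_3_c10 ln17_9_3_c10_ok) (L (nat_lit 268) ln16_9_3_c10 ln16_9_3_c10_ok))))) (B (M (nat_lit 301) (B (M (nat_lit 269) (B (L (nat_lit 270) ln17_9_3_c10 ln17_9_3_c10_ok) (L (nat_lit 268) ln16_9_3_c10 ln16_9_3_c10_ok))) (B (M (nat_lit 300) (B (M (nat_lit 336) (B (L (nat_lit 337) ln13_9_0 ln13_9_0_ok) (L (nat_lit 335) ln12_9_0 ln12_9_0_ok))) (M (nat_lit 268) (B (L (nat_lit 269) ln16_9_3_c10 ln16_9_3_c10_ok)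 (L (nat_lit 267) ln15_9_3 ln15_9_3_ok))))) (M (nat_lit 336) (B (L (nat_lit 337) ln13_9_0 ln13_9_0_ok) (M (nat_lit 335) (B (L (nat_lit 300) ln12_9_0 ln12_9_0_ok) (M (nat_lit 306) (B (L (nat_lit 307) ln19_9_1_c10 ln19_9_1_c10_ok) (L (nat_lit 334) ln18_9_1_c10 ln18_9_1_c10_ok)))))))))) (B (M (nat_lit 301) (B (M (nat_lit 273) (B (L (nat_lit 274) ln14_9_2_c10 ln14_9_2_c10_ok) (L (nat_lit 272) ln13_9_2 ln13_9_2_ok))) (M (nat_lit 300) (B (M (nat_lit 336) (B (L (nat_lit 337) ln13_9_0 ln13_9_0_ok) (L (nat_lit 335) ln12_9_0 ln12_9_0_ok))) (M (nat_lit 268) (B (L (nat_lit 269) ln16_9_3_c10 ln16_9_3_c10_ok) (L (nat_lit 267) ln15_9_3 ln15_9_3_ok))))))) (B (M (nat_lit 336) (B (M (nat_lit 301) (B (L (nat_lit 337) ln13_9_0 ln13_9_0_ok) (M (nat_lit 273) (B (L (nat_lit 274) ln14_9_2_c10 ln14_9_2_c10_ok) (L (nat_lit 272) ln13_9_2 ln13_9_2_ok))))) (B (M (nat_lit 335) (B (M (nat_lit 306) (B (L (nat_lit 307) ln19_9_1_c10 ln19_9_1_c10_ok) (L (nat_lit 334) ln18_9_1_c10 ln18_9_1_c10_ok))) (M (nat_lit 301) (B (L (nat_lit 337)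 ln13_9_0 ln13_9_0_ok) (L (nat_lit 300) ln12_9_0 ln12_9_0_ok))))) (M (nat_lit 306) (B (M (nat_lit 274) (B (L (nat_lit 275) ln15_9_2_c10 ln15_9_2_c10_ok) (L (nat_lit 273) ln14_9_2_c10 ln14_9_2_c10_ok))) (M (nat_lit 335) (B (L (nat_lit 307) ln19_9_1_c10 ln19_9_1_c10_ok) (L (nat_lit 334) ln18_9_1_c10 ln18_9_1_c10_ok)))))))) (M (nat_lit 306) (B (M (nat_lit 274) (B (L (nat_lit 275) ln15_9_2_c10 ln15_9_2_c10_ok) (L (nat_lit 273) ln14_9_2_c10 ln14_9_2_c10_ok))) (B (M (nat_lit 307) (B (M (nat_lit 335) (B (L (nat_lit 336) ln19_9_1_c10 ln19_9_1_c10_ok) (L (nat_lit 334) ln18_9_1_c10 ln18_9_1_c10_ok))) (M (nat_lit 308) (B (M (nat_lit 340) (B (L (nat_lit 341) ln17_9_0_c10 ln17_9_0_c10_ok) (L (nat_lit 339) ln16_9_0_c10 ln16_9_0_c10_ok))) (M (nat_lit 273) (B (L (nat_lit 272) ln20_9_3_c10 ln20_9_3_c10_ok) (L (nat_lit 274) ln14_9_2_c10 ln14_9_2_c10_ok))))))) (M (nat_lit 307) (B (M (nat_lit 335) (B (L (nat_lit 336) ln19_9_1_c10 ln19_9_1_c10_ok) (L (nat_lit 334) ln18_9_1_c10 ln18_9_1_c10_ok))) (M (nat_lit 308) (B (M (nat_lit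 276) (B (L (nat_lit 277) ln17_9_2_c10 ln17_9_2_c10_ok) (L (nat_lit 275) ln16_9_2_c10 ln16_9_2_c10_ok))) (M (nat_lit 340) (B (L (nat_lit 341) ln17_9_0_c10 ln17_9_0_c10_ok) (L (nat_lit 339) ln16_9_0_c10 ln16_9_0_c10_ok))))))))))))))) (nat_lit 383600461868783388222986614096266462235883586976421838006897082937082378022292168646313495504118652032479925772076346627612894864867166214612093763584) (nat_lit 8364046772554125975851641101842989235682247984815320839493576269945832044411935045382312585802496868352) (nat_lit 8364046772554125975851641101842989235682247984815320839493576269945832044411935045382312585802496868352) (by decide +kernel)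
theorem c10_s428 : Sem (nat_lit 28365829084147412802440749893646987148057637966728072401632767829403167910297527393961759160585358035538695489813749239076101700210179363573662284439241317016392607367230662901760) (nat_lit 2014551168631697424932831233232642264719512227731714657745015778586405312101882866997483202061548652313532599947305140352259542412080334441496419765367307190394394539254275784131005661577216) (nat_lit 2014551168631697424932831233232642264719512227731714657745015778586405312101882866997483202061548652313532599947305140352259542412080334441496419765367307190394394539254275784131005661577216) :=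
  sem_of_chk (M (nat_lit 593) (B (M (nat_lit 594) (B (M (nat_lit 562) (B (L (nat_lit 563) ln15_18_2_c10 ln15_18_2_c10_ok) (L (nat_lit 561) ln14_18_2_c10 ln14_18_2_c10_ok))) (M (nat_lit 622) (B (L (nat_lit 623) ln18_18_1_c10 ln18_18_1_c10_ok) (L (nat_lit 621) ln17_18_1_c10 ln17_18_1_c10_ok))))) (B (M (nat_lit 589) (B (M (nat_lit 561) (B (L (nat_lit 562) ln14_18_2_c10 ln14_18_2_c10_ok) (L (nat_lit 560) ln13_18_2_c10 ln13_18_2_c10_ok))) (M (nat_lit 621) (B (L (nat_lit 622) ln17_18_1_c10 ln17_18_1_c10_ok) (L (nat_lit 620) ln16_18_1_c10 ln16_18_1_c10_ok))))) (B (M (nat_lit 594) (B (M (nat_lit 622) (B (L (nat_lit 623) ln18_18_1_c10 ln18_18_1_c10_ok) (L (nat_lit 621) ln17_18_1_c10 ln17_18_1_c10_ok))) (M (nat_lit 595) (B (M (nat_lit 559) (B (L (nat_lit 560) ln19_18_3_c10 ln19_18_3_c10_ok) (L (nat_lit 558) ln18_18_3_c10 ln18_18_3_c10_ok))) (M (nat_lit 627) (B (L (nat_lit 628) ln16_18_0_c10 ln16_18_0_c10_ok) (L (nat_lit 626) ln15_18_0_c10 ln15_18_0_c10_ok))))))) (M (nat_lit 594) (B (M (nat_lit 562) (B (L (nat_lit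 563) ln15_18_2_c10 ln15_18_2_c10_ok) (L (nat_lit 561) ln14_18_2_c10 ln14_18_2_c10_ok))) (M (nat_lit 595) (B (M (nat_lit 559) (B (L (nat_lit 560) ln19_18_3_c10 ln19_18_3_c10_ok) (L (nat_lit 558) ln18_18_3_c10 ln18_18_3_c10_ok))) (M (nat_lit 627) (B (L (nat_lit 628) ln16_18_0_c10 ln16_18_0_c10_ok) (L (nat_lit 626) ln15_18_0_c10 ln15_18_0_c10_ok))))))))))) (nat_lit 28365829084147412802440749893646987148057637966728072401632767829403167910297527393961759160585358035538695489813749239076101700210179363573662284439241317016392607367230662901760) (nat_lit 2014551168631697424932831233232642264719512227731714657745015778586405312101882866997483202061548652313532599947305140352259542412080334441496419765367307190394394539254275784131005661577216) (nat_lit 2014551168631697424932831233232642264719512227731714657745015778586405312101882866997483202061548652313532599947305140352259542412080334441496419765367307190394394539254275784131005661577216) (by decide +kernel)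
theorem c10_s430 : Sem (nat_lit 14182914542073706401275293328296338682683065883868180653600735940812069433788564002947135458129436863655206619560279744800337023682893022189283317721078355195382708625135659646976) (nat_lit 299004108856022408073304485880527442292154493577161040858195929128061549651188006331075435371539889011063595410038091219162330286316940487202797698445602559523484213630481326491509478997515158159360) (nat_lit 299004108856022408073304485880527442292154493577161040858195929128061549651188006331075435371539889011063595410038091219162330286316940487202797698445602559523484213630481326491509478997515158159360) :=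
  sem_of_chk (M (nat_lit 624) (B (M (nat_lit 625) (B (L (nat_lit 592) ln13_18_0_c10 ln13_18_0_c10_ok) (M (nat_lit 623) (B (L (nat_lit 622) ln17_19_3_c10 ln17_19_3_c10_ok) (L (nat_lit 588) ln12_18_0_c10 ln12_18_0_c10_ok))))) (B (M (nat_lit 559) (B (M (nat_lit 588) (B (L (nat_lit 623) ln12_18_0_c10 ln12_18_0_c10_ok) (L (nat_lit 560) ln12_18_2_c10 ln12_18_2_c10_ok))) (B (M (nat_lit 560) (B (L (nat_lit 588) ln12_18_2_c10 ln12_18_2_c10_ok) (M (nat_lit 561) (B (L (nat_lit 592) ln13_18_2_c10 ln13_18_2_c10_ok) (L (nat_lit 562) ln18_17_1_c10 ln18_17_1_c10_ok))))) (M (nat_lit 527) (B (L (nat_lit 592) ln15_15_4_c10 ln15_15_4_c10_ok) (M (nat_lit 623) (B (L (nat_lit 656) ln15_16_4_c10 ln15_16_4_c10_ok) (L (nat_lit 622) ln15_15_5_c10 ln15_15_5_c10_ok)))))))) (B (M (nat_lit 592) (B (L (nat_lit 625) ln13_18_0_c10 ln13_18_0_c10_ok) (M (nat_lit 560) (B (L (nat_lit 561) ln13_18_2_c10 ln13_18_2_c10_ok) (M (nat_lit 559) (B (L (nat_lit 588) ln12_18_2_c10 ln12_18_2_c10_ok) (L (nat_lit 527) ln15_15_4_c10 ln15_15_4_c10_ok)))))))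 (B (M (nat_lit 623) (B (L (nat_lit 588) ln12_18_0_c10 ln12_18_0_c10_ok) (M (nat_lit 625) (B (L (nat_lit 626) ln18_19_3_c10 ln18_19_3_c10_ok) (L (nat_lit 622) ln17_19_3_c10 ln17_19_3_c10_ok))))) (M (nat_lit 625) (B (L (nat_lit 592) ln13_18_0_c10 ln13_18_0_c10_ok) (M (nat_lit 623) (B (L (nat_lit 626) ln18_19_3_c10 ln18_19_3_c10_ok) (L (nat_lit 622) ln17_19_3_c10 ln17_19_3_c10_ok)))))))))) (nat_lit 14182914542073706401275293328296338682683065883868180653600735940812069433788564002947135458129436863655206619560279744800337023682893022189283317721078355195382708625135659646976) (nat_lit 299004108856022408073304485880527442292154493577161040858195929128061549651188006331075435371539889011063595410038091219162330286316940487202797698445602559523484213630481326491509478997515158159360) (nat_lit 299004108856022408073304485880527442292154493577161040858195929128061549651188006331075435371539889011063595410038091219162330286316940487202797698445602559523484213630481326491509478997515158159360) (by decide +kernel)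
theorem c10_s435 : Sem (nat_lit 179013548899091572664880704632125070353884004832785184145640603834274570101060341069321343139366404085287401632017748727938770516514056120212129841152) (nat_lit 1757388203857652869611368177877763655758608616494343870959469256244561665035042761701023546641596412957606000785266715814739508543125276638405182051443422527488) (nat_lit 1757388203857652869611368177877763655758608616494343870959469256244561665035042761701023546641596412957606000785266715814739508543125276638405182051443422527488) :=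
  sem_of_chk (M (nat_lit 369) (B (M (nat_lit 335) (B (L (nat_lit 371) ln19_11_3_c10 ln19_11_3_c10_ok) (L (nat_lit 334) ln18_11_3 ln18_11_3_ok))) (M (nat_lit 402) (B (L (nat_lit 403) ln15_11_0_c10 ln15_11_0_c10_ok) (M (nat_lit 434) (B (M (nat_lit 465) (B (L (nat_lit 433) ln18_10_5_c10 ln18_10_5_c10_ok) (M (nat_lit 466) (B (L (nat_lit 497) ln18_11_5_c10 ln18_11_5_c10_ok) (M (nat_lit 467) (B (L (nat_lit 435) ln18_10_4_c10 ln18_10_4_c10_ok) (L (nat_lit 499) ln18_11_4_c10 ln18_11_4_c10_ok))))))) (B (M (nat_lit 306) (B (M (nat_lit 401) (B (L (nat_lit 274) ln18_8_5_c10 ln18_8_5_c10_ok) (L (nat_lit 433) ln18_9_5_c10 ln18_9_5_c10_ok))) (B (M (nat_lit 433) (B (L (nat_lit 401) ln18_9_5_c10 ln18_9_5_c10_ok) (L (nat_lit 465) ln18_10_5_c10 ln18_10_5_c10_ok))) (M (nat_lit 274) (B (M (nat_lit 275) (B (L (nat_lit 243) ln18_11_6_c10 ln18_11_6_c10_ok) (L (nat_lit 307) ln18_12_6_c10 ln18_12_6_c10_ok))) (M (nat_lit 273) (B (L (nat_lit 241) ln18_11_7_c10 ln18_11_7_c10_ok) (L (nat_lit 305) ln18_12_7_c10 ln18_12_7_c10_ok))))))))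 (B (M (nat_lit 466) (B (M (nat_lit 467) (B (L (nat_lit 435) ln18_10_4_c10 ln18_10_4_c10_ok) (L (nat_lit 499) ln18_11_4_c10 ln18_11_4_c10_ok))) (M (nat_lit 498) (B (L (nat_lit 401) ln18_15_7_c10 ln18_15_7_c10_ok) (M (nat_lit 497) (B (L (nat_lit 465) ln18_11_5_c10 ln18_11_5_c10_ok) (L (nat_lit 529) ln18_12_5_c10 ln18_12_5_c10_ok))))))) (M (nat_lit 466) (B (M (nat_lit 467) (B (L (nat_lit 435) ln18_10_4_c10 ln18_10_4_c10_ok) (L (nat_lit 499) ln18_11_4_c10 ln18_11_4_c10_ok))) (M (nat_lit 401) (B (L (nat_lit 498) ln18_15_7_c10 ln18_15_7_c10_ok) (M (nat_lit 306) (B (L (nat_lit 274) ln18_8_5_c10 ln18_8_5_c10_ok) (L (nat_lit 433) ln18_9_5_c10 ln18_9_5_c10_ok))))))))))))))) (nat_lit 179013548899091572664880704632125070353884004832785184145640603834274570101060341069321343139366404085287401632017748727938770516514056120212129841152) (nat_lit 1757388203857652869611368177877763655758608616494343870959469256244561665035042761701023546641596412957606000785266715814739508543125276638405182051443422527488) (nat_lit 1757388203857652869611368177877763655758608616494343870959469256244561665035042761701023546641596412957606000785266715814739508543125276638405182051443422527488)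 (by decide +kernel)
theorem c10_s445 : Sem (nat_lit 179013548899091572664880704632125070351178483776869792081600063709755245052761738834463097324579765996655954539854950080463219134825796588300373327872) (nat_lit 22181357589118017188406914306613955208627419575683293719071194612876548453406566853720080631237721771077532927223178317571433693184) (nat_lit 22181357589118017188406914306613955208627419575683293719071194612876548453406566853720080631237721771077532927223178317571433693184) :=
  sem_of_chk (M (nat_lit 401) (B (L (nat_lit 433) ln16_9_4_c10 ln16_9_4_c10_ok) (M (nat_lit 369) (B (L (nat_lit 272) ln16_8_4_c10 ln16_8_4_c10_ok) (M (nat_lit 367) (B (M (nat_lit 366) (B (L (nat_lit 402) ln14_11_0 ln14_11_0_ok) (L (nat_lit 365) ln13_11_0 ln13_11_0_ok))) (B (M (nat_lit 370) (B (M (nat_lit 335) (B (L (nat_lit 371) ln19_11_3_c10 ln19_11_3_c10_ok) (L (nat_lit 334) ln18_11_3 ln18_11_3_ok))) (B (M (nat_lit 371) (B (L (nat_lit 372) ln20_11_1_c10 ln20_11_1_c10_ok) (M (nat_lit 339) (B (L (nat_lit 340) ln16_11_2_c10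 ln16_11_2_c10_ok) (L (nat_lit 338) ln15_11_2_c10 ln15_11_2_c10_ok))))) (M (nat_lit 338) (B (L (nat_lit 339) ln15_11_2_c10 ln15_11_2_c10_ok) (M (nat_lit 306) (B (L (nat_lit 274) ln18_8_5_c10 ln18_8_5_c10_ok) (M (nat_lit 307) (B (M (nat_lit 402) (B (L (nat_lit 275) ln18_12_6_c10 ln18_12_6_c10_ok) (L (nat_lit 403) ln15_11_0_c10 ln15_11_0_c10_ok))) (M (nat_lit 335) (B (L (nat_lit 305) ln19_9_1_c10 ln19_9_1_c10_ok) (L (nat_lit 334) ln18_11_3 ln18_11_3_ok)))))))))))) (M (nat_lit 370) (B (M (nat_lit 335) (B (L (nat_lit 371) ln19_11_3_c10 ln19_11_3_c10_ok) (L (nat_lit 334) ln18_11_3 ln18_11_3_ok))) (B (M (nat_lit 371) (B (L (nat_lit 372) ln20_11_1_c10 ln20_11_1_c10_ok) (M (nat_lit 339) (B (L (nat_lit 340) ln16_11_2_c10 ln16_11_2_c10_ok) (L (nat_lit 338) ln15_11_2_c10 ln15_11_2_c10_ok))))) (M (nat_lit 334) (B (L (nat_lit 335) ln18_11_3 ln18_11_3_ok) (M (nat_lit 366) (B (L (nat_lit 333) ln17_11_3 ln17_11_3_ok) (L (nat_lit 365) ln13_11_0 ln13_11_0_ok))))))))))))))) (nat_lit 179013548899091572664880704632125070351178483776869792081600063709755245052761738834463097324579765996655954539854950080463219134825796588300373327872)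 (nat_lit 22181357589118017188406914306613955208627419575683293719071194612876548453406566853720080631237721771077532927223178317571433693184) (nat_lit 22181357589118017188406914306613955208627419575683293719071194612876548453406566853720080631237721771077532927223178317571433693184) (by decide +kernel)
theorem c10_s449 : Sem (nat_lit 25573364130142871190293991001228867675461119795915005442807318385056134507788209737661646457654677079460545701201105089966755180806434772181820899328) (nat_lit 3398074842554229426622133464056685643918788976800337271945700547836583667283224627955379529091754463755671379567777229384593819026905479098702917747868168093696) (nat_lit 3398074842554229426622133464056685643918788976800337271945700547836583667283224627955379529091754463755671379567777229384593819026905479098702917747868168093696) :=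
  sem_of_chk (M (nat_lit 494) (B (L (nat_lit 526) ln13_12_4 ln13_12_4_ok) (M (nat_lit 492) (B (L (nat_lit 524) ln13_12_5 ln13_12_5_ok) (M (nat_lit 491) (B (M (nat_lit 462) (B (L (nat_lit 490) ln10_15_2 ln10_15_2_ok) (L (nat_lit 463) ln11_15_2 ln11_15_2_ok))) (B (M (nat_lit 495) (B (M (nat_lit 463) (B (L (nat_lit 462) ln11_15_2 ln11_15_2_ok) (L (nat_lit 464) ln12_15_2 ln12_15_2_ok))) (B (M (nat_lit 496) (B (M (nat_lit 528) (B (L (nat_lit 527) ln12_15_0 ln12_15_0_ok) (L (nat_lit 529) ln13_15_0 ln13_15_0_ok))) (M (nat_lit 464) (B (L (nat_lit 463) ln12_15_2 ln12_15_2_ok) (L (nat_lit 465) ln13_15_2 ln13_15_2_ok))))) (B (M (nat_lit 496) (B (M (nat_lit 528) (B (L (nat_lit 527) ln12_15_0 ln12_15_0_ok) (L (nat_lit 529) ln13_15_0 ln13_15_0_ok))) (M (nat_lit 497) (B (L (nat_lit 462) ln17_15_3 ln17_15_3_ok) (M (nat_lit 465) (B (L (nat_lit 464) ln13_15_2 ln13_15_2_ok) (L (nat_lit 466) ln14_15_2_c10 ln14_15_2_c10_ok))))))) (M (nat_lit 496) (B (M (nat_lit 528) (B (L (nat_lit 527) ln12_15_0 ln12_15_0_ok) (L (nat_lit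 529) ln13_15_0 ln13_15_0_ok))) (M (nat_lit 462) (B (L (nat_lit 463) ln11_15_2 ln11_15_2_ok) (L (nat_lit 497) ln17_15_3 ln17_15_3_ok))))))))) (M (nat_lit 490) (B (M (nat_lit 522) (B (L (nat_lit 521) ln13_15_1 ln13_15_1_ok) (L (nat_lit 523) ln14_15_1 ln14_15_1_ok))) (M (nat_lit 458) (B (L (nat_lit 457) ln13_15_3 ln13_15_3_ok) (L (nat_lit 459) ln14_15_3 ln14_15_3_ok)))))))))))) (nat_lit 25573364130142871190293991001228867675461119795915005442807318385056134507788209737661646457654677079460545701201105089966755180806434772181820899328) (nat_lit 3398074842554229426622133464056685643918788976800337271945700547836583667283224627955379529091754463755671379567777229384593819026905479098702917747868168093696) (nat_lit 3398074842554229426622133464056685643918788976800337271945700547836583667283224627955379529091754463755671379567777229384593819026905479098702917747868168093696) (by decide +kernel)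
theorem c10_s450 : Sem (nat_lit 5954262830815946494763249298768603811203561774969104571805089223376689777636098861358550851719243481454542035207245364041705138952691777536) (nat_lit 25573364124188608360517795646441251853358162402824153890646477751110568515971696711575342613843985322453656299797438808586539441115828738112937263104) (nat_lit 25573364124188608360517795646441251853358162402824153890646477751110568515971696711575342613843985322453656299797438808586539441115828738112937263104) :=
  sem_of_chk (M (nat_lit 364) (B (M (nat_lit 332) (B (L (nat_lit 365) ln13_14_7 ln13_14_7_ok) (M (nat_lit 396) (B (L (nat_lit 428) ln12_10_4 ln12_10_4_ok) (L (nat_lit 493) ln13_15_7 ln13_15_7_ok))))) (B (M (nat_lit 398) (B (M (nat_lit 493) (B (L (nat_lit 396) ln13_15_7 ln13_15_7_ok) (L (nat_lit 366) ln13_15_6 ln13_15_6_ok))) (B (M (nat_lit 366) (B (L (nat_lit 493) ln13_15_6 ln13_15_6_ok) (M (nat_lit 334) (B (L (nat_lit 365) ln13_14_6 ln13_14_6_ok) (L (nat_lit 302) ln14_9_5 ln14_9_5_ok))))) (B (M (nat_lit 399) (B (M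 (nat_lit 400) (B (L (nat_lit 365) ln16_12_3 ln16_12_3_ok) (L (nat_lit 428) ln16_12_1 ln16_12_1_ok))) (B (M (nat_lit 363) (B (L (nat_lit 396) ln15_12_3 ln15_12_3_ok) (M (nat_lit 365) (B (L (nat_lit 362) ln10_11_0 ln10_11_0_ok) (L (nat_lit 400) ln16_12_3 ln16_12_3_ok))))) (B (M (nat_lit 396) (B (L (nat_lit 363) ln15_12_3 ln15_12_3_ok) (M (nat_lit 428) (B (L (nat_lit 427) ln15_12_1 ln15_12_1_ok) (L (nat_lit 400) ln16_12_1 ln16_12_1_ok))))) (M (nat_lit 363) (B (L (nat_lit 396) ln15_12_3 ln15_12_3_ok) (M (nat_lit 365) (B (L (nat_lit 362) ln10_11_0 ln10_11_0_ok) (L (nat_lit 366) ln11_11_0 ln11_11_0_ok))))))))) (M (nat_lit 399) (B (M (nat_lit 396) (B (L (nat_lit 363) ln15_12_3 ln15_12_3_ok) (L (nat_lit 493) ln13_15_7 ln13_15_7_ok))) (M (nat_lit 400) (B (L (nat_lit 365) ln16_12_3 ln16_12_3_ok) (L (nat_lit 428) ln16_12_1 ln16_12_1_ok))))))))) (B (M (nat_lit 365) (B (L (nat_lit 332) ln13_14_7 ln13_14_7_ok) (M (nat_lit 366) (B (L (nat_lit 334) ln13_14_6 ln13_14_6_ok) (M (nat_lit 398) (B (L (nat_lit 493) ln13_15_6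 ln13_15_6_ok) (M (nat_lit 399) (B (L (nat_lit 363) ln11_11_0 ln11_11_0_ok) (L (nat_lit 400) ln16_12_3 ln16_12_3_ok))))))))) (B (M (nat_lit 396) (B (L (nat_lit 493) ln13_15_7 ln13_15_7_ok) (M (nat_lit 332) (B (L (nat_lit 300) ln12_9_4 ln12_9_4_ok) (L (nat_lit 428) ln12_10_4 ln12_10_4_ok))))) (M (nat_lit 332) (B (L (nat_lit 365) ln13_14_7 ln13_14_7_ok) (M (nat_lit 396) (B (L (nat_lit 300) ln12_9_4 ln12_9_4_ok) (L (nat_lit 428) ln12_10_4 ln12_10_4_ok)))))))))) (nat_lit 5954262830815946494763249298768603811203561774969104571805089223376689777636098861358550851719243481454542035207245364041705138952691777536) (nat_lit 25573364124188608360517795646441251853358162402824153890646477751110568515971696711575342613843985322453656299797438808586539441115828738112937263104) (nat_lit 25573364124188608360517795646441251853358162402824153890646477751110568515971696711575342613843985322453656299797438808586539441115828738112937263104) (by decide +kernel)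
theorem c10_s451 : Sem (nat_lit 76720092378520087920340758794032566832148876025833621505483447398119230230381523840761467286929032031000151833062199038055520561941131239170206859264) (nat_lit 2196735251957849304438208649017641559393320451925015372301324294003599743681293532472828554431411669496279719752440261021994582611919727195010381739816032141312) (nat_lit 2196735251957849304438208649017641559393320451925015372301324294003599743681293532472828554431411669496279719752440261021994582611919727195010381739816032141312) :=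
  sem_of_chk (M (nat_lit 368) (B (M (nat_lit 399) (B (L (nat_lit 433) ln13_12_0 ln13_12_0_ok) (L (nat_lit 369) ln13_12_2 ln13_12_2_ok))) (B (M (nat_lit 464) (B (M (nat_lit 496) (B (M (nat_lit 495) (B (L (nat_lit 527) ln16_12_5_c10 ln16_12_5_c10_ok) (L (nat_lit 463) ln16_11_5_c10 ln16_11_5_c10_ok))) (M (nat_lit 369) (B (L (nat_lit 401) ln16_15_6_c10 ln16_15_6_c10_ok) (L (nat_lit 337) ln16_14_6_c10 ln16_14_6_c10_ok))))) (B (M (nat_lit 496) (B (M (nat_lit 497) (B (L (nat_lit 529) ln16_12_4 ln16_12_4_ok) (L (nat_lit 465) ln16_11_4 ln16_11_4_ok))) (M (nat_lit 369) (B (L (nat_lit 401) ln16_15_6_c10 ln16_15_6_c10_ok) (L (nat_lit 337) ln16_14_6_c10 ln16_14_6_c10_ok))))) (B (M (nat_lit 336) (B (M (nat_lit 465) (B (L (nat_lit 497) ln16_11_4 ln16_11_4_ok) (L (nat_lit 433) ln16_10_4_c10 ln16_10_4_c10_ok))) (M (nat_lit 337) (B (L (nat_lit 369) ln16_14_6_c10 ln16_14_6_c10_ok) (L (nat_lit 305) ln16_13_6_c10 ln16_13_6_c10_ok))))) (M (nat_lit 496) (B (M (nat_lit 495) (B (L (nat_lit 527) ln16_12_5_c10 ln16_12_5_c10_ok)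 (L (nat_lit 463) ln16_11_5_c10 ln16_11_5_c10_ok))) (M (nat_lit 497) (B (L (nat_lit 529) ln16_12_4 ln16_12_4_ok) (L (nat_lit 465) ln16_11_4 ln16_11_4_ok))))))))) (B (M (nat_lit 369) (B (L (nat_lit 399) ln13_12_2 ln13_12_2_ok) (M (nat_lit 337) (B (L (nat_lit 464) ln16_14_6_c10 ln16_14_6_c10_ok) (M (nat_lit 305) (B (L (nat_lit 336) ln16_13_6_c10 ln16_13_6_c10_ok) (L (nat_lit 401) ln17_9_5_c10 ln17_9_5_c10_ok))))))) (M (nat_lit 433) (B (L (nat_lit 399) ln13_12_0 ln13_12_0_ok) (M (nat_lit 465) (B (L (nat_lit 336) ln16_10_4_c10 ln16_10_4_c10_ok) (M (nat_lit 497) (B (L (nat_lit 464) ln16_11_4 ln16_11_4_ok) (L (nat_lit 529) ln17_16_7_c10 ln17_16_7_c10_ok))))))))))) (nat_lit 76720092378520087920340758794032566832148876025833621505483447398119230230381523840761467286929032031000151833062199038055520561941131239170206859264) (nat_lit 2196735251957849304438208649017641559393320451925015372301324294003599743681293532472828554431411669496279719752440261021994582611919727195010381739816032141312) (nat_lit 2196735251957849304438208649017641559393320451925015372301324294003599743681293532472828554431411669496279719752440261021994582611919727195010381739816032141312)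 (by decide +kernel)
theorem c10_s456 : Sem (nat_lit 38360046192237175370206305111191528533778295555760518486504690880157080399214213656610394188905491795745471228443747722522642265813793040339254116352) (nat_lit 34323988311841395381847010140640711581696805668228797606944854121153804729245308433178432507833553398091615353840424841742111135036526160531850496577114210304) (nat_lit 34323988311841395381847010140640711581696805668228797606944854121153804729245308433178432507833553398091615353840424841742111135036526160531850496577114210304) :=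
  sem_of_chk (M (nat_lit 362) (B (M (nat_lit 395) (B (L (nat_lit 425) ln13_12_1 ln13_12_1_ok) (L (nat_lit 361) ln13_12_3 ln13_12_3_ok))) (B (M (nat_lit 458) (B (M (nat_lit 490) (B (M (nat_lit 491) (B (L (nat_lit 523) ln10_12_4 ln10_12_4_ok) (L (nat_lit 459) ln10_11_4 ln10_11_4_ok))) (M (nat_lit 361) (B (L (nat_lit 393) ln10_15_7 ln10_15_7_ok) (L (nat_lit 329) ln10_14_7 ln10_14_7_ok))))) (B (M (nat_lit 490) (B (M (nat_lit 489) (B (L (nat_lit 521) ln10_12_5 ln10_12_5_ok) (L (nat_lit 457) ln10_11_5 ln10_11_5_ok))) (M (nat_lit 361) (B (L (nat_lit 393) ln10_15_7 ln10_15_7_ok) (L (nat_lit 329) ln10_14_7 ln10_14_7_ok))))) (B (M (nat_lit 330) (B (M (nat_lit 457) (B (L (nat_lit 489) ln10_11_5 ln10_11_5_ok) (L (nat_lit 425) ln10_10_5 ln10_10_5_ok))) (M (nat_lit 329) (B (L (nat_lit 361) ln10_14_7 ln10_14_7_ok) (L (nat_lit 297) ln10_13_7_c10 ln10_13_7_c10_ok))))) (M (nat_lit 490) (B (M (nat_lit 491) (B (L (nat_lit 523) ln10_12_4 ln10_12_4_ok) (L (nat_lit 459) ln10_11_4 ln10_11_4_ok))) (M (nat_lit 489) (B (L (nat_lit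 521) ln10_12_5 ln10_12_5_ok) (L (nat_lit 457) ln10_11_5 ln10_11_5_ok))))))))) (B (M (nat_lit 361) (B (L (nat_lit 395) ln13_12_3 ln13_12_3_ok) (M (nat_lit 329) (B (L (nat_lit 458) ln10_14_7 ln10_14_7_ok) (M (nat_lit 297) (B (L (nat_lit 330) ln10_13_7_c10 ln10_13_7_c10_ok) (L (nat_lit 393) ln9_9_4_c10 ln9_9_4_c10_ok))))))) (M (nat_lit 425) (B (L (nat_lit 395) ln13_12_1 ln13_12_1_ok) (M (nat_lit 457) (B (L (nat_lit 330) ln10_10_5 ln10_10_5_ok) (M (nat_lit 489) (B (L (nat_lit 458) ln10_11_5 ln10_11_5_ok) (L (nat_lit 521) ln9_16_6 ln9_16_6_ok))))))))))) (nat_lit 38360046192237175370206305111191528533778295555760518486504690880157080399214213656610394188905491795745471228443747722522642265813793040339254116352) (nat_lit 34323988311841395381847010140640711581696805668228797606944854121153804729245308433178432507833553398091615353840424841742111135036526160531850496577114210304) (nat_lit 34323988311841395381847010140640711581696805668228797606944854121153804729245308433178432507833553398091615353840424841742111135036526160531850496577114210304)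 (by decide +kernel)
theorem c10_s466 : Sem (nat_lit 230160277171285840712645919009284512287965328507846604554513794801903537837523796473883739811270398475008332989502064629320701868145729518905124192256) (nat_lit 139234638045690252500387104911345597987784263670284650568321734033630410011894268964374415282780321812414629535565506217197310815220432320347058931925418932693402596788725539036809402515456) (nat_lit 139234638045690252500387104911345597987784263670284650568321734033630410011894268964374415282780321812414629535565506217197310815220432320347058931925418932693402596788725539036809402515456) :=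
  sem_of_chk (M (nat_lit 528) (B (M (nat_lit 560) (B (M (nat_lit 559) (B (L (nat_lit 591) ln16_14_5_c10 ln16_14_5_c10_ok) (L (nat_lit 527) ln16_13_5_c10 ln16_13_5_c10_ok))) (M (nat_lit 433) (B (L (nat_lit 465) ln16_17_6_c10 ln16_17_6_c10_ok) (L (nat_lit 401) ln16_16_6_c10 ln16_16_6_c10_ok))))) (B (M (nat_lit 400) (B (M (nat_lit 527) (B (L (nat_lit 559) ln16_13_5_c10 ln16_13_5_c10_ok) (L (nat_lit 495) ln16_12_5_c10 ln16_12_5_c10_ok))) (M (nat_lit 401) (B (L (nat_lit 433) ln16_16_6_c10 ln16_16_6_c10_ok) (L (nat_lit 369) ln16_15_6_c10 ln16_15_6_c10_ok))))) (B (M (nat_lit 560) (B (M (nat_lit 433) (B (L (nat_lit 465) ln16_17_6_c10 ln16_17_6_c10_ok) (L (nat_lit 401) ln16_16_6_c10 ln16_16_6_c10_ok))) (M (nat_lit 592) (B (M (nat_lit 463) (B (L (nat_lit 495) ln16_18_7_c10 ln16_18_7_c10_ok) (L (nat_lit 431) ln16_17_7_c10 ln16_17_7_c10_ok))) (M (nat_lit 593) (B (L (nat_lit 625) ln16_15_4_c10 ln16_15_4_c10_ok) (L (nat_lit 561) ln16_14_4_c10 ln16_14_4_c10_ok))))))) (M (nat_lit 560) (B (M (nat_lit 559) (B (L (nat_lit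 591) ln16_14_5_c10 ln16_14_5_c10_ok) (L (nat_lit 527) ln16_13_5_c10 ln16_13_5_c10_ok))) (M (nat_lit 592) (B (M (nat_lit 463) (B (L (nat_lit 495) ln16_18_7_c10 ln16_18_7_c10_ok) (L (nat_lit 431) ln16_17_7_c10 ln16_17_7_c10_ok))) (M (nat_lit 593) (B (L (nat_lit 625) ln16_15_4_c10 ln16_15_4_c10_ok) (L (nat_lit 561) ln16_14_4_c10 ln16_14_4_c10_ok))))))))))) (nat_lit 230160277171285840712645919009284512287965328507846604554513794801903537837523796473883739811270398475008332989502064629320701868145729518905124192256) (nat_lit 139234638045690252500387104911345597987784263670284650568321734033630410011894268964374415282780321812414629535565506217197310815220432320347058931925418932693402596788725539036809402515456) (nat_lit 139234638045690252500387104911345597987784263670284650568321734033630410011894268964374415282780321812414629535565506217197310815220432320347058931925418932693402596788725539036809402515456) (by decide +kernel)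
theorem c10_s468 : Sem (nat_lit 25573364177776973836821562960141815152512109219810974383811096170224881355060860306510018397442036275094756426159205544524761165463795625044838711296) (nat_lit 9434906064250588633380083408847190766836664364750585322417960710276660764512381191429585359225560747905255778630297532956047834930370122107157052937660276562551470292992) (nat_lit 9434906064250588633380083408847190766836664364750585322417960710276660764512381191429585359225560747905255778630297532956047834930370122107157052937660276562551470292992) :=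
  sem_of_chk (M (nat_lit 497) (B (M (nat_lit 529) (B (L (nat_lit 496) ln16_12_4 ln16_12_4_ok) (M (nat_lit 465) (B (L (nat_lit 433) ln17_16_7_c10 ln17_16_7_c10_ok) (L (nat_lit 368) ln16_11_4 ln16_11_4_ok))))) (B (M (nat_lit 463) (B (M (nat_lit 368) (B (L (nat_lit 465) ln16_11_4 ln16_11_4_ok) (L (nat_lit 495) ln16_11_5_c10 ln16_11_5_c10_ok))) (B (M (nat_lit 495) (B (L (nat_lit 368) ln16_11_5_c10 ln16_11_5_c10_ok) (M (nat_lit 527) (B (L (nat_lit 496) ln16_12_5_c10 ln16_12_5_c10_ok) (L (nat_lit 559) ln15_17_6 ln15_17_6_ok))))) (M (nat_lit 462) (B (L (nat_lit 496) ln13_14_0 ln13_14_0_ok) (M (nat_lit 465) (B (L (nat_lit 498) ln14_14_0_c10 ln14_14_0_c10_ok) (L (nat_lit 433) ln13_14_2 ln13_14_2_ok)))))))) (B (M (nat_lit 496) (B (L (nat_lit 529) ln16_12_4 ln16_12_4_ok) (M (nat_lit 495) (B (L (nat_lit 527) ln16_12_5_c10 ln16_12_5_c10_ok) (M (nat_lit 463) (B (L (nat_lit 368) ln16_11_5_c10 ln16_11_5_c10_ok) (L (nat_lit 462) ln13_14_0 ln13_14_0_ok))))))) (B (M (nat_lit 465) (B (L (nat_lit 368) ln16_11_4 ln16_11_4_ok)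 (M (nat_lit 529) (B (L (nat_lit 561) ln17_17_7_c10 ln17_17_7_c10_ok) (L (nat_lit 433) ln17_16_7_c10 ln17_16_7_c10_ok))))) (M (nat_lit 529) (B (L (nat_lit 496) ln16_12_4 ln16_12_4_ok) (M (nat_lit 465) (B (L (nat_lit 561) ln17_17_7_c10 ln17_17_7_c10_ok) (L (nat_lit 433) ln17_16_7_c10 ln17_16_7_c10_ok)))))))))) (nat_lit 25573364177776973836821562960141815152512109219810974383811096170224881355060860306510018397442036275094756426159205544524761165463795625044838711296) (nat_lit 9434906064250588633380083408847190766836664364750585322417960710276660764512381191429585359225560747905255778630297532956047834930370122107157052937660276562551470292992) (nat_lit 9434906064250588633380083408847190766836664364750585322417960710276660764512381191429585359225560747905255778630297532956047834930370122107157052937660276562551470292992) (by decide +kernel)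
theorem c10_s473 : Sem (nat_lit 28770034646410730089080739877149081567450810757958482127346627333379782728507911685240954261334516477179363643506919190467640497114772872883957923840) (nat_lit 11679847984920016893118418032967772950747409593661319799023091790039065860010987608920351725659784609841139166068520096873673537120543944517449132050429809531617445516372103496565122741130105978880) (nat_lit 11679847984920016893118418032967772950747409593661319799023091790039065860010987608920351725659784609841139166068520096873673537120543944517449132050429809531617445516372103496565122741130105978880) :=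
  sem_of_chk (M (nat_lit 522) (B (M (nat_lit 394) (B (M (nat_lit 521) (B (L (nat_lit 553) ln10_13_5 ln10_13_5_ok) (L (nat_lit 489) ln10_12_5 ln10_12_5_ok))) (M (nat_lit 393) (B (L (nat_lit 425) ln10_16_7 ln10_16_7_ok) (L (nat_lit 361) ln10_15_7 ln10_15_7_ok))))) (B (M (nat_lit 394) (B (M (nat_lit 393) (B (L (nat_lit 425) ln10_16_7 ln10_16_7_ok) (L (nat_lit 361) ln10_15_7 ln10_15_7_ok))) (B (M (nat_lit 362) (B (M (nat_lit 491) (B (L (nat_lit 523) ln10_12_4 ln10_12_4_ok) (L (nat_lit 459) ln10_11_4 ln10_11_4_ok))) (M (nat_lit 361) (B (L (nat_lit 393) ln10_15_7 ln10_15_7_ok) (L (nat_lit 329) ln10_14_7 ln10_14_7_ok))))) (M (nat_lit 491) (B (L (nat_lit 523) ln10_12_4 ln10_12_4_ok) (M (nat_lit 459) (B (L (nat_lit 362) ln10_11_4 ln10_11_4_ok) (M (nat_lit 554) (B (L (nat_lit 586) ln10_18_6 ln10_18_6_ok) (L (nat_lit 427) ln10_17_6 ln10_17_6_ok)))))))))) (B (M (nat_lit 394) (B (M (nat_lit 521) (B (L (nat_lit 553) ln10_13_5 ln10_13_5_ok) (L (nat_lit 489) ln10_12_5 ln10_12_5_ok))) (M (nat_lit 362) (B (M (nat_lit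 491) (B (L (nat_lit 523) ln10_12_4 ln10_12_4_ok) (L (nat_lit 459) ln10_11_4 ln10_11_4_ok))) (M (nat_lit 361) (B (L (nat_lit 393) ln10_15_7 ln10_15_7_ok) (L (nat_lit 329) ln10_14_7 ln10_14_7_ok))))))) (B (M (nat_lit 491) (B (M (nat_lit 394) (B (L (nat_lit 523) ln10_12_4 ln10_12_4_ok) (M (nat_lit 521) (B (L (nat_lit 553) ln10_13_5 ln10_13_5_ok) (L (nat_lit 489) ln10_12_5 ln10_12_5_ok))))) (B (M (nat_lit 459) (B (M (nat_lit 554) (B (L (nat_lit 586) ln10_18_6 ln10_18_6_ok) (L (nat_lit 427) ln10_17_6 ln10_17_6_ok))) (M (nat_lit 394) (B (L (nat_lit 523) ln10_12_4 ln10_12_4_ok) (L (nat_lit 362) ln10_11_4 ln10_11_4_ok))))) (M (nat_lit 554) (B (M (nat_lit 553) (B (L (nat_lit 585) ln10_14_5 ln10_14_5_ok) (L (nat_lit 521) ln10_13_5 ln10_13_5_ok))) (M (nat_lit 459) (B (L (nat_lit 586) ln10_18_6 ln10_18_6_ok) (L (nat_lit 427) ln10_17_6 ln10_17_6_ok)))))))) (M (nat_lit 554) (B (M (nat_lit 553) (B (L (nat_lit 585) ln10_14_5 ln10_14_5_ok) (L (nat_lit 521) ln10_13_5 ln10_13_5_ok))) (B (M (nat_lit 586) (B (M (nat_lit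 459) (B (L (nat_lit 491) ln10_18_6 ln10_18_6_ok) (L (nat_lit 427) ln10_17_6 ln10_17_6_ok))) (M (nat_lit 618) (B (M (nat_lit 619) (B (L (nat_lit 651) ln10_16_4 ln10_16_4_ok) (L (nat_lit 587) ln10_15_4 ln10_15_4_ok))) (M (nat_lit 521) (B (L (nat_lit 489) ln10_19_7_c10 ln10_19_7_c10_ok) (L (nat_lit 553) ln10_13_5 ln10_13_5_ok))))))) (M (nat_lit 586) (B (M (nat_lit 459) (B (L (nat_lit 491) ln10_18_6 ln10_18_6_ok) (L (nat_lit 427) ln10_17_6 ln10_17_6_ok))) (M (nat_lit 618) (B (M (nat_lit 617) (B (L (nat_lit 649) ln10_16_5 ln10_16_5_ok) (L (nat_lit 585) ln10_15_5 ln10_15_5_ok))) (M (nat_lit 619) (B (L (nat_lit 651) ln10_16_4 ln10_16_4_ok) (L (nat_lit 587) ln10_15_4 ln10_15_4_ok))))))))))))))) (nat_lit 28770034646410730089080739877149081567450810757958482127346627333379782728507911685240954261334516477179363643506919190467640497114772872883957923840) (nat_lit 11679847984920016893118418032967772950747409593661319799023091790039065860010987608920351725659784609841139166068520096873673537120543944517449132050429809531617445516372103496565122741130105978880)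 (nat_lit 11679847984920016893118418032967772950747409593661319799023091790039065860010987608920351725659784609841139166068520096873673537120543944517449132050429809531617445516372103496565122741130105978880) (by decide +kernel)
theorem c10_s478 : Sem (nat_lit 21584202758241968925018459392428634248426352321592664525955131179819344765362620990096764774341559628860189228745737756931989833359265103872) (nat_lit 29484081464512684799573980084062624309218159599162811395544749156846627954778205410069901125018213870327407204077181802224189716460378527300026881464915770235991097344) (nat_lit 29484081464512684799573980084062624309218159599162811395544749156846627954778205410069901125018213870327407204077181802224189716460378527300026881464915770235991097344) :=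
  sem_of_chk (M (nat_lit 490) (B (M (nat_lit 459) (B (L (nat_lit 425) ln13_14_3 ln13_14_3_ok) (L (nat_lit 489) ln13_14_1 ln13_14_1_ok))) (B (M (nat_lit 394) (B (M (nat_lit 362) (B (M (nat_lit 363) (B (L (nat_lit 331) ln10_14_6 ln10_14_6_ok) (L (nat_lit 395) ln10_15_6 ln10_15_6_ok))) (M (nat_lit 489) (B (L (nat_lit 457) ln10_11_5 ln10_11_5_ok) (L (nat_lit 521) ln10_12_5 ln10_12_5_ok))))) (B (M (nat_lit 362) (B (M (nat_lit 361) (B (L (nat_lit 329) ln10_14_7 ln10_14_7_ok) (L (nat_lit 393) ln10_15_7 ln10_15_7_ok))) (M (nat_lit 489) (B (L (nat_lit 457) ln10_11_5 ln10_11_5_ok) (L (nat_lit 521) ln10_12_5 ln10_12_5_ok))))) (B (M (nat_lit 522) (B (M (nat_lit 393) (B (L (nat_lit 361) ln10_15_7 ln10_15_7_ok) (L (nat_lit 425) ln10_16_7 ln10_16_7_ok))) (M (nat_lit 521) (B (L (nat_lit 489) ln10_12_5 ln10_12_5_ok) (L (nat_lit 553) ln10_13_5 ln10_13_5_ok))))) (M (nat_lit 362) (B (M (nat_lit 363) (B (L (nat_lit 331) ln10_14_6 ln10_14_6_ok) (L (nat_lit 395) ln10_15_6 ln10_15_6_ok))) (M (nat_lit 361) (B (L (nat_lit 329)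 ln10_14_7 ln10_14_7_ok) (L (nat_lit 393) ln10_15_7 ln10_15_7_ok))))))))) (B (M (nat_lit 489) (B (L (nat_lit 459) ln13_14_1 ln13_14_1_ok) (M (nat_lit 521) (B (L (nat_lit 394) ln10_12_5 ln10_12_5_ok) (M (nat_lit 553) (B (L (nat_lit 522) ln10_13_5 ln10_13_5_ok) (L (nat_lit 457) ln9_17_6 ln9_17_6_ok))))))) (M (nat_lit 425) (B (L (nat_lit 459) ln13_14_3 ln13_14_3_ok) (M (nat_lit 393) (B (L (nat_lit 522) ln10_16_7 ln10_16_7_ok) (M (nat_lit 361) (B (L (nat_lit 394) ln10_15_7 ln10_15_7_ok) (L (nat_lit 329) ln9_10_4_c10 ln9_10_4_c10_ok))))))))))) (nat_lit 21584202758241968925018459392428634248426352321592664525955131179819344765362620990096764774341559628860189228745737756931989833359265103872) (nat_lit 29484081464512684799573980084062624309218159599162811395544749156846627954778205410069901125018213870327407204077181802224189716460378527300026881464915770235991097344) (nat_lit 29484081464512684799573980084062624309218159599162811395544749156846627954778205410069901125018213870327407204077181802224189716460378527300026881464915770235991097344)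 (by decide +kernel)
theorem c10_s487 : Sem (nat_lit 20839919915480654392278910201391882264833254797226309034078309659991520807573229041605793484315136322418169375090824674936824626068561330176) (nat_lit 1757388201607196826158795513126347108255771006634882027317982008270292732334466511352681035784459304676199671705166794746034232672662689522076625475933151690752) (nat_lit 1757388201607196826158795513126347108255771006634882027317982008270292732334466511352681035784459304676199671705166794746034232672662689522076625475933151690752) :=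
  sem_of_chk (M (nat_lit 336) (B (M (nat_lit 464) (B (M (nat_lit 337) (B (L (nat_lit 305) ln16_13_6_c10 ln16_13_6_c10_ok) (L (nat_lit 369) ln16_14_6_c10 ln16_14_6_c10_ok))) (M (nat_lit 465) (B (L (nat_lit 433) ln16_10_4_c10 ln16_10_4_c10_ok) (L (nat_lit 497) ln16_11_4 ln16_11_4_ok))))) (B (M (nat_lit 464) (B (M (nat_lit 465) (B (L (nat_lit 433) ln16_10_4_c10 ln16_10_4_c10_ok) (L (nat_lit 497) ln16_11_4 ln16_11_4_ok))) (B (M (nat_lit 496) (B (M (nat_lit 367) (B (L (nat_lit 335) ln16_14_7 ln16_14_7_ok) (L (nat_lit 399) ln16_15_7 ln16_15_7_ok))) (M (nat_lit 497) (B (L (nat_lit 465) ln16_11_4 ln16_11_4_ok) (L (nat_lit 529) ln16_12_4 ln16_12_4_ok))))) (M (nat_lit 367) (B (L (nat_lit 335) ln16_14_7 ln16_14_7_ok) (M (nat_lit 399) (B (L (nat_lit 496) ln16_15_7 ln16_15_7_ok) (M (nat_lit 304) (B (L (nat_lit 272) ln16_8_5 ln16_8_5_ok) (L (nat_lit 431) ln16_9_5 ln16_9_5_ok)))))))))) (B (M (nat_lit 464) (B (M (nat_lit 337) (B (L (nat_lit 305) ln16_13_6_c10 ln16_13_6_c10_ok) (L (nat_lit 369) ln16_14_6_c10 ln16_14_6_c10_ok)))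 (M (nat_lit 496) (B (M (nat_lit 367) (B (L (nat_lit 335) ln16_14_7 ln16_14_7_ok) (L (nat_lit 399) ln16_15_7 ln16_15_7_ok))) (M (nat_lit 497) (B (L (nat_lit 465) ln16_11_4 ln16_11_4_ok) (L (nat_lit 529) ln16_12_4 ln16_12_4_ok))))))) (B (M (nat_lit 367) (B (M (nat_lit 464) (B (L (nat_lit 335) ln16_14_7 ln16_14_7_ok) (M (nat_lit 337) (B (L (nat_lit 305) ln16_13_6_c10 ln16_13_6_c10_ok) (L (nat_lit 369) ln16_14_6_c10 ln16_14_6_c10_ok))))) (B (M (nat_lit 399) (B (M (nat_lit 304) (B (L (nat_lit 272) ln16_8_5 ln16_8_5_ok) (L (nat_lit 431) ln16_9_5 ln16_9_5_ok))) (M (nat_lit 464) (B (L (nat_lit 335) ln16_14_7 ln16_14_7_ok) (L (nat_lit 496) ln16_15_7 ln16_15_7_ok))))) (M (nat_lit 304) (B (M (nat_lit 305) (B (L (nat_lit 273) ln16_12_6_c10 ln16_12_6_c10_ok) (L (nat_lit 337) ln16_13_6_c10 ln16_13_6_c10_ok))) (M (nat_lit 399) (B (L (nat_lit 272) ln16_8_5 ln16_8_5_ok) (L (nat_lit 431) ln16_9_5 ln16_9_5_ok)))))))) (M (nat_lit 304) (B (M (nat_lit 305) (B (L (nat_lit 273) ln16_12_6_c10 ln16_12_6_c10_ok) (L (nat_lit 337)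 ln16_13_6_c10 ln16_13_6_c10_ok))) (B (M (nat_lit 272) (B (M (nat_lit 399) (B (L (nat_lit 367) ln16_8_5 ln16_8_5_ok) (L (nat_lit 431) ln16_9_5 ln16_9_5_ok))) (M (nat_lit 240) (B (M (nat_lit 239) (B (L (nat_lit 207) ln16_10_7_c10 ln16_10_7_c10_ok) (L (nat_lit 271) ln16_11_7_c10 ln16_11_7_c10_ok))) (M (nat_lit 337) (B (L (nat_lit 369) ln16_7_4_c10 ln16_7_4_c10_ok) (L (nat_lit 305) ln16_13_6_c10 ln16_13_6_c10_ok))))))) (M (nat_lit 272) (B (M (nat_lit 399) (B (L (nat_lit 367) ln16_8_5 ln16_8_5_ok) (L (nat_lit 431) ln16_9_5 ln16_9_5_ok))) (M (nat_lit 240) (B (M (nat_lit 241) (B (L (nat_lit 209) ln16_10_6_c10 ln16_10_6_c10_ok) (L (nat_lit 273) ln16_11_6_c10 ln16_11_6_c10_ok))) (M (nat_lit 239) (B (L (nat_lit 207) ln16_10_7_c10 ln16_10_7_c10_ok) (L (nat_lit 271) ln16_11_7_c10 ln16_11_7_c10_ok))))))))))))))) (nat_lit 20839919915480654392278910201391882264833254797226309034078309659991520807573229041605793484315136322418169375090824674936824626068561330176) (nat_lit 1757388201607196826158795513126347108255771006634882027317982008270292732334466511352681035784459304676199671705166794746034232672662689522076625475933151690752)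 (nat_lit 1757388201607196826158795513126347108255771006634882027317982008270292732334466511352681035784459304676199671705166794746034232672662689522076625475933151690752) (by decide +kernel)
theorem c10_s495 : Sem (nat_lit 20839919904563267469136299467468243040968311306576724125601814824542818561135580730608205265846292373090681313944358956363619163917254656000) (nat_lit 6864797664925615489383689147434808385902572745211955656829550289524365464269608193986424582049658647957704942614348580296750875855566989832296963184388997120) (nat_lit 6864797664925615489383689147434808385902572745211955656829550289524365464269608193986424582049658647957704942614348580296750875855566989832296963184388997120) :=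
  sem_of_chk (M (nat_lit 330) (B (M (nat_lit 458) (B (M (nat_lit 329) (B (L (nat_lit 297) ln10_13_7_c10 ln10_13_7_c10_ok) (L (nat_lit 361) ln10_14_7 ln10_14_7_ok))) (M (nat_lit 457) (B (L (nat_lit 425) ln10_10_5 ln10_10_5_ok) (L (nat_lit 489) ln10_11_5 ln10_11_5_ok))))) (B (M (nat_lit 458) (B (M (nat_lit 457) (B (L (nat_lit 425) ln10_10_5 ln10_10_5_ok) (L (nat_lit 489) ln10_11_5 ln10_11_5_ok))) (B (M (nat_lit 490) (B (M (nat_lit 363) (B (L (nat_lit 331) ln10_14_6 ln10_14_6_ok) (L (nat_lit 395) ln10_15_6 ln10_15_6_ok))) (M (nat_lit 489) (B (L (nat_lit 457) ln10_11_5 ln10_11_5_ok) (L (nat_lit 521) ln10_12_5 ln10_12_5_ok))))) (M (nat_lit 363) (B (L (nat_lit 331) ln10_14_6 ln10_14_6_ok) (M (nat_lit 395) (B (L (nat_lit 490) ln10_15_6 ln10_15_6_ok) (M (nat_lit 298) (B (L (nat_lit 266) ln10_8_4 ln10_8_4_ok) (L (nat_lit 427) ln10_9_4 ln10_9_4_ok)))))))))) (B (M (nat_lit 458) (B (M (nat_lit 329) (B (L (nat_lit 297) ln10_13_7_c10 ln10_13_7_c10_ok) (L (nat_lit 361) ln10_14_7 ln10_14_7_ok))) (M (nat_lit 490) (B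 (M (nat_lit 363) (B (L (nat_lit 331) ln10_14_6 ln10_14_6_ok) (L (nat_lit 395) ln10_15_6 ln10_15_6_ok))) (M (nat_lit 489) (B (L (nat_lit 457) ln10_11_5 ln10_11_5_ok) (L (nat_lit 521) ln10_12_5 ln10_12_5_ok))))))) (B (M (nat_lit 363) (B (M (nat_lit 458) (B (L (nat_lit 331) ln10_14_6 ln10_14_6_ok) (M (nat_lit 329) (B (L (nat_lit 297) ln10_13_7_c10 ln10_13_7_c10_ok) (L (nat_lit 361) ln10_14_7 ln10_14_7_ok))))) (B (M (nat_lit 395) (B (M (nat_lit 298) (B (L (nat_lit 266) ln10_8_4 ln10_8_4_ok) (L (nat_lit 427) ln10_9_4 ln10_9_4_ok))) (M (nat_lit 458) (B (L (nat_lit 331) ln10_14_6 ln10_14_6_ok) (L (nat_lit 490) ln10_15_6 ln10_15_6_ok))))) (M (nat_lit 298) (B (M (nat_lit 297) (B (L (nat_lit 265) ln10_12_7_c10 ln10_12_7_c10_ok) (L (nat_lit 329) ln10_13_7_c10 ln10_13_7_c10_ok))) (M (nat_lit 395) (B (L (nat_lit 266) ln10_8_4 ln10_8_4_ok) (L (nat_lit 427) ln10_9_4 ln10_9_4_ok)))))))) (M (nat_lit 298) (B (M (nat_lit 297) (B (L (nat_lit 265) ln10_12_7_c10 ln10_12_7_c10_ok) (L (nat_lit 329) ln10_13_7_c10 ln10_13_7_c10_ok)))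 (B (M (nat_lit 266) (B (M (nat_lit 395) (B (L (nat_lit 363) ln10_8_4 ln10_8_4_ok) (L (nat_lit 427) ln10_9_4 ln10_9_4_ok))) (M (nat_lit 234) (B (M (nat_lit 235) (B (L (nat_lit 203) ln10_10_6_c10 ln10_10_6_c10_ok) (L (nat_lit 267) ln10_11_6_c10 ln10_11_6_c10_ok))) (M (nat_lit 329) (B (L (nat_lit 361) ln10_7_5_c10 ln10_7_5_c10_ok) (L (nat_lit 297) ln10_13_7_c10 ln10_13_7_c10_ok))))))) (M (nat_lit 266) (B (M (nat_lit 395) (B (L (nat_lit 363) ln10_8_4 ln10_8_4_ok) (L (nat_lit 427) ln10_9_4 ln10_9_4_ok))) (M (nat_lit 234) (B (M (nat_lit 233) (B (L (nat_lit 201) ln10_10_7_c10 ln10_10_7_c10_ok) (L (nat_lit 265) ln10_11_7_c10 ln10_11_7_c10_ok))) (M (nat_lit 235) (B (L (nat_lit 203) ln10_10_6_c10 ln10_10_6_c10_ok) (L (nat_lit 267) ln10_11_6_c10 ln10_11_6_c10_ok))))))))))))))) (nat_lit 20839919904563267469136299467468243040968311306576724125601814824542818561135580730608205265846292373090681313944358956363619163917254656000) (nat_lit 6864797664925615489383689147434808385902572745211955656829550289524365464269608193986424582049658647957704942614348580296750875855566989832296963184388997120)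 (nat_lit 6864797664925615489383689147434808385902572745211955656829550289524365464269608193986424582049658647957704942614348580296750875855566989832296963184388997120) (by decide +kernel)
theorem c10_s509 : Sem (nat_lit 8104522598772906494252742342257091767336812374892217769504608969371887559039114758906529464191305758008180816626552982146621377570760393326085538112442280215550221686797473153024) (nat_lit 1378913068022869341736116399168113349725742969566374303587244510708016504568694985303073950834930154944657710611633366736869470147347260573331161747660530099075968507549723137259915273423749333503866437024829600169984) (nat_lit 1378913068022869341736116399168113349725742969566374303587244510708016504568694985303073950834930154944657710611633366736869470147347260573331161747660530099075968507549723137259915273423749333503866437024829600169984) :=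
  sem_of_chk (M (nat_lit 623) (B (M (nat_lit 622) (B (L (nat_lit 654) ln15_16_5_c10 ln15_16_5_c10_ok) (M (nat_lit 495) (B (L (nat_lit 494) ln15_18_7 ln15_18_7_ok) (L (nat_lit 590) ln15_15_5_c10 ln15_15_5_c10_ok))))) (B (M (nat_lit 655) (B (M (nat_lit 656) (B (L (nat_lit 624) ln15_16_4_c10 ln15_16_4_c10_ok) (L (nat_lit 688) ln15_17_4_c10 ln15_17_4_c10_ok))) (M (nat_lit 654) (B (L (nat_lit 622) ln15_16_5_c10 ln15_16_5_c10_ok) (L (nat_lit 686) ln15_17_5_c10 ln15_17_5_c10_ok))))) (B (M (nat_lit 655) (B (M (nat_lit 656) (B (L (nat_lit 624) ln15_16_4_c10 ln15_16_4_c10_ok) (L (nat_lit 688) ln15_17_4_c10 ln15_17_4_c10_ok))) (M (nat_lit 687) (B (L (nat_lit 590) ln15_21_7_c10 ln15_21_7_c10_ok) (M (nat_lit 686) (B (L (nat_lit 654) ln15_17_5_c10 ln15_17_5_c10_ok) (L (nat_lit 718) ln15_18_5_c10 ln15_18_5_c10_ok))))))) (M (nat_lit 655) (B (M (nat_lit 656) (B (L (nat_lit 624) ln15_16_4_c10 ln15_16_4_c10_ok) (L (nat_lit 688) ln15_17_4_c10 ln15_17_4_c10_ok))) (M (nat_lit 495) (B (L (nat_lit 494) ln15_18_7 ln15_18_7_ok)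 (M (nat_lit 590) (B (L (nat_lit 622) ln15_15_5_c10 ln15_15_5_c10_ok) (L (nat_lit 687) ln15_21_7_c10 ln15_21_7_c10_ok))))))))))) (nat_lit 8104522598772906494252742342257091767336812374892217769504608969371887559039114758906529464191305758008180816626552982146621377570760393326085538112442280215550221686797473153024) (nat_lit 1378913068022869341736116399168113349725742969566374303587244510708016504568694985303073950834930154944657710611633366736869470147347260573331161747660530099075968507549723137259915273423749333503866437024829600169984) (nat_lit 1378913068022869341736116399168113349725742969566374303587244510708016504568694985303073950834930154944657710611633366736869470147347260573331161747660530099075968507549723137259915273423749333503866437024829600169984) (by decide +kernel)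
theorem c10_s529 : Sem (nat_lit 1415235909308078007116156332012652230943691839375361572065109288651202907422722889801558332792474808618212021577351258544776705647767764706538688658167589698094216773632) (nat_lit 64582914438671808551623015933085854783175153392981045286211865118968395920793095709387597915220560784120505296797464440506173804052835363329892892710219652573639568790111928713216) (nat_lit 64582914438671808551623015933085854783175153392981045286211865118968395920793095709387597915220560784120505296797464440506173804052835363329892892710219652573639568790111928713216) :=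
  sem_of_chk (M (nat_lit 556) (B (M (nat_lit 525) (B (L (nat_lit 590) ln13_14_4 ln13_14_4_ok) (L (nat_lit 588) ln13_14_5 ln13_14_5_ok))) (B (M (nat_lit 559) (B (M (nat_lit 560) (B (M (nat_lit 528) (B (L (nat_lit 529) ln13_17_2_c10 ln13_17_2_c10_ok) (L (nat_lit 527) ln12_17_2_c10 ln12_17_2_c10_ok))) (M (nat_lit 588) (B (L (nat_lit 589) ln16_17_1_c10 ln16_17_1_c10_ok) (L (nat_lit 587) ln15_17_1_c10 ln15_17_1_c10_ok))))) (B (M (nat_lit 560) (B (M (nat_lit 592) (B (L (nat_lit 593) ln13_17_0_c10 ln13_17_0_c10_ok) (L (nat_lit 591) ln12_17_0_c10 ln12_17_0_c10_ok))) (M (nat_lit 588) (B (L (nat_lit 589) ln16_17_1_c10 ln16_17_1_c10_ok) (L (nat_lit 587) ln15_17_1_c10 ln15_17_1_c10_ok))))) (B (M (nat_lit 555) (B (M (nat_lit 591) (B (L (nat_lit 592) ln12_17_0_c10 ln12_17_0_c10_ok) (L (nat_lit 590) ln11_17_0 ln11_17_0_ok))) (M (nat_lit 587) (B (L (nat_lit 588) ln15_17_1_c10 ln15_17_1_c10_ok) (L (nat_lit 586) ln14_17_1 ln14_17_1_ok))))) (M (nat_lit 560) (B (M (nat_lit 528) (B (L (nat_lit 529) ln13_17_2_c10 ln13_17_2_c10_ok)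 (L (nat_lit 527) ln12_17_2_c10 ln12_17_2_c10_ok))) (M (nat_lit 592) (B (L (nat_lit 593) ln13_17_0_c10 ln13_17_0_c10_ok) (L (nat_lit 591) ln12_17_0_c10 ln12_17_0_c10_ok))))))))) (B (M (nat_lit 588) (B (L (nat_lit 525) ln13_14_5 ln13_14_5_ok) (M (nat_lit 587) (B (L (nat_lit 559) ln15_17_1_c10 ln15_17_1_c10_ok) (M (nat_lit 586) (B (L (nat_lit 555) ln14_17_1 ln14_17_1_ok) (L (nat_lit 589) ln10_18_2 ln10_18_2_ok))))))) (M (nat_lit 590) (B (L (nat_lit 525) ln13_14_4 ln13_14_4_ok) (M (nat_lit 591) (B (L (nat_lit 555) ln11_17_0 ln11_17_0_ok) (M (nat_lit 592) (B (L (nat_lit 559) ln12_17_0_c10 ln12_17_0_c10_ok) (L (nat_lit 593) ln17_18_3_c10 ln17_18_3_c10_ok))))))))))) (nat_lit 1415235909308078007116156332012652230943691839375361572065109288651202907422722889801558332792474808618212021577351258544776705647767764706538688658167589698094216773632) (nat_lit 64582914438671808551623015933085854783175153392981045286211865118968395920793095709387597915220560784120505296797464440506173804052835363329892892710219652573639568790111928713216)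 (nat_lit 64582914438671808551623015933085854783175153392981045286211865118968395920793095709387597915220560784120505296797464440506173804052835363329892892710219652573639568790111928713216) (by decide +kernel)
theorem c10_s531 : Sem (nat_lit 3302217121718848683236933622506786676402152449583581786253212438774014988618797315844621695381304192388946209092733180994661997962730161022819405783883937719918914437120) (nat_lit 257318592432847997202923749186716611429825548185060310993252396859174994162519023928376192225776427878389148965817327386771667496039784267311213366769527480491396249050247214399488) (nat_lit 257318592432847997202923749186716611429825548185060310993252396859174994162519023928376192225776427878389148965817327386771667496039784267311213366769527480491396249050247214399488) :=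
  sem_of_chk (M (nat_lit 560) (B (M (nat_lit 556) (B (M (nat_lit 528) (B (L (nat_lit 529) ln13_17_2_c10 ln13_17_2_c10_ok) (L (nat_lit 527) ln12_17_2_c10 ln12_17_2_c10_ok))) (M (nat_lit 592) (B (L (nat_lit 593) ln13_17_0_c10 ln13_17_0_c10_ok) (L (nat_lit 591) ln12_17_0_c10 ln12_17_0_c10_ok))))) (B (M (nat_lit 592) (B (L (nat_lit 593) ln13_17_0_c10 ln13_17_0_c10_ok) (M (nat_lit 527) (B (M (nat_lit 463) (B (L (nat_lit 464) ln16_14_3 ln16_14_3_ok) (L (nat_lit 495) ln15_14_4_c10 ln15_14_4_c10_ok))) (M (nat_lit 556) (B (L (nat_lit 528) ln12_17_2_c10 ln12_17_2_c10_ok) (L (nat_lit 591) ln12_17_0_c10 ln12_17_0_c10_ok))))))) (B (M (nat_lit 561) (B (M (nat_lit 593) (B (L (nat_lit 594) ln14_17_0_c10 ln14_17_0_c10_ok) (L (nat_lit 592) ln13_17_0_c10 ln13_17_0_c10_ok))) (M (nat_lit 562) (B (M (nat_lit 530) (B (L (nat_lit 531) ln15_17_2_c10 ln15_17_2_c10_ok) (L (nat_lit 529) ln14_17_2_c10 ln14_17_2_c10_ok))) (M (nat_lit 590) (B (L (nat_lit 591) ln18_17_1_c10 ln18_17_1_c10_ok) (L (nat_lit 589) ln17_17_1_c10 ln17_17_1_c10_ok)))))))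 (B (M (nat_lit 528) (B (L (nat_lit 529) ln13_17_2_c10 ln13_17_2_c10_ok) (M (nat_lit 591) (B (M (nat_lit 464) (B (L (nat_lit 463) ln16_14_3 ln16_14_3_ok) (L (nat_lit 496) ln16_14_5_c10 ln16_14_5_c10_ok))) (M (nat_lit 556) (B (L (nat_lit 527) ln12_17_2_c10 ln12_17_2_c10_ok) (L (nat_lit 592) ln12_17_0_c10 ln12_17_0_c10_ok))))))) (B (M (nat_lit 561) (B (M (nat_lit 529) (B (L (nat_lit 530) ln14_17_2_c10 ln14_17_2_c10_ok) (L (nat_lit 528) ln13_17_2_c10 ln13_17_2_c10_ok))) (M (nat_lit 562) (B (M (nat_lit 594) (B (L (nat_lit 595) ln15_17_0_c10 ln15_17_0_c10_ok) (L (nat_lit 593) ln14_17_0_c10 ln14_17_0_c10_ok))) (M (nat_lit 590) (B (L (nat_lit 591) ln18_17_1_c10 ln18_17_1_c10_ok) (L (nat_lit 589) ln17_17_1_c10 ln17_17_1_c10_ok))))))) (M (nat_lit 561) (B (M (nat_lit 529) (B (L (nat_lit 530) ln14_17_2_c10 ln14_17_2_c10_ok) (L (nat_lit 528) ln13_17_2_c10 ln13_17_2_c10_ok))) (M (nat_lit 593) (B (L (nat_lit 594) ln14_17_0_c10 ln14_17_0_c10_ok) (L (nat_lit 592) ln13_17_0_c10 ln13_17_0_c10_ok))))))))))) (nat_lit 3302217121718848683236933622506786676402152449583581786253212438774014988618797315844621695381304192388946209092733180994661997962730161022819405783883937719918914437120)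 (nat_lit 257318592432847997202923749186716611429825548185060310993252396859174994162519023928376192225776427878389148965817327386771667496039784267311213366769527480491396249050247214399488) (nat_lit 257318592432847997202923749186716611429825548185060310993252396859174994162519023928376192225776427878389148965817327386771667496039784267311213366769527480491396249050247214399488) (by decide +kernel)
theorem c10_s533 : Sem (nat_lit 3302217121718848683236933622506786676402152449583581786253212438774014988618797315844621695381304192388946209092733180994661997962730161022819405783883937719918914437120) (nat_lit 4351082561761990989148842965196143678748958109411961161765363459566735727340365533898472710776099739469366618098062050147127427611090507478220847462663093171920043722981574661037048725504) (nat_lit 4351082561761990989148842965196143678748958109411961161765363459566735727340365533898472710776099739469366618098062050147127427611090507478220847462663093171920043722981574661037048725504) :=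
  sem_of_chk (M (nat_lit 589) (B (M (nat_lit 525) (B (L (nat_lit 494) ln13_18_6 ln13_18_6_ok) (M (nat_lit 588) (B (L (nat_lit 620) ln13_15_5_c10 ln13_15_5_c10_ok) (L (nat_lit 560) ln16_17_1_c10 ln16_17_1_c10_ok))))) (B (M (nat_lit 560) (B (L (nat_lit 588) ln16_17_1_c10 ln16_17_1_c10_ok) (M (nat_lit 561) (B (M (nat_lit 529) (B (L (nat_lit 530) ln14_17_2_c10 ln14_17_2_c10_ok) (L (nat_lit 528) ln13_17_2_c10 ln13_17_2_c10_ok))) (M (nat_lit 593) (B (L (nat_lit 594) ln14_17_0_c10 ln14_17_0_c10_ok) (L (nat_lit 592) ln13_17_0_c10 ln13_17_0_c10_ok))))))) (M (nat_lit 494) (B (L (nat_lit 525) ln13_18_6 ln13_18_6_ok) (M (nat_lit 495) (B (M (nat_lit 464) (B (L (nat_lit 463) ln16_14_3 ln16_14_3_ok) (M (nat_lit 496) (B (L (nat_lit 465) ln13_15_2 ln13_15_2_ok) (L (nat_lit 497) ln17_15_3 ln17_15_3_ok))))) (B (M (nat_lit 492) (B (M (nat_lit 463) (B (L (nat_lit 464) ln16_14_1 ln16_14_1_ok) (L (nat_lit 491) ln11_15_2 ln11_15_2_ok))) (M (nat_lit 527) (B (L (nat_lit 591) ln15_18_7 ln15_18_7_ok) (L (nat_lit 528) ln12_15_0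 ln12_15_0_ok))))) (M (nat_lit 528) (B (M (nat_lit 496) (B (L (nat_lit 497) ln17_15_3 ln17_15_3_ok) (L (nat_lit 529) ln13_15_0 ln13_15_0_ok))) (M (nat_lit 527) (B (L (nat_lit 591) ln15_18_7 ln15_18_7_ok) (L (nat_lit 492) ln12_15_0 ln12_15_0_ok))))))))))))) (nat_lit 3302217121718848683236933622506786676402152449583581786253212438774014988618797315844621695381304192388946209092733180994661997962730161022819405783883937719918914437120) (nat_lit 4351082561761990989148842965196143678748958109411961161765363459566735727340365533898472710776099739469366618098062050147127427611090507478220847462663093171920043722981574661037048725504) (nat_lit 4351082561761990989148842965196143678748958109411961161765363459566735727340365533898472710776099739469366618098062050147127427611090507478220847462663093171920043722981574661037048725504) (by decide +kernel)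
theorem c10_s534 : Sem (nat_lit 3302217121718848683236933622506786676402152449583581786253212438774014988618797315844621695381304192388946209092733180994661997962730161022819405783883937719918914437120) (nat_lit 255292461783744452208458602963849322449395126198300080541199956660525385886466846961106330346624256694565298120775922052558721425741836504575711033673368639158346528984191280873472) (nat_lit 255292461783744452208458602963849322449395126198300080541199956660525385886466846961106330346624256694565298120775922052558721425741836504575711033673368639158346528984191280873472) :=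
  sem_of_chk (M (nat_lit 463) (B (L (nat_lit 464) ln16_14_3 ln16_14_3_ok) (M (nat_lit 560) (B (M (nat_lit 592) (B (L (nat_lit 593) ln13_17_0_c10 ln13_17_0_c10_ok) (M (nat_lit 495) (B (L (nat_lit 527) ln15_14_4_c10 ln15_14_4_c10_ok) (M (nat_lit 528) (B (L (nat_lit 496) ln16_18_7_c10 ln16_18_7_c10_ok) (L (nat_lit 529) ln13_17_2_c10 ln13_17_2_c10_ok))))))) (B (M (nat_lit 593) (B (L (nat_lit 592) ln13_17_0_c10 ln13_17_0_c10_ok) (M (nat_lit 561) (B (L (nat_lit 594) ln14_17_0_c10 ln14_17_0_c10_ok) (M (nat_lit 529) (B (L (nat_lit 530) ln14_17_2_c10 ln14_17_2_c10_ok) (L (nat_lit 528) ln13_17_2_c10 ln13_17_2_c10_ok))))))) (B (M (nat_lit 495) (B (M (nat_lit 592) (B (L (nat_lit 527) ln15_14_4_c10 ln15_14_4_c10_ok) (L (nat_lit 593) ln13_17_0_c10 ln13_17_0_c10_ok))) (B (M (nat_lit 496) (B (M (nat_lit 592) (B (L (nat_lit 528) ln16_18_7_c10 ln16_18_7_c10_ok) (L (nat_lit 593) ln13_17_0_c10 ln13_17_0_c10_ok))) (M (nat_lit 497) (B (L (nat_lit 498) ln18_15_3 ln18_15_3_ok) (L (nat_lit 494) ln17_15_3 ln17_15_3_ok))))) (B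 (M (nat_lit 527) (B (L (nat_lit 592) ln15_14_4_c10 ln15_14_4_c10_ok) (L (nat_lit 590) ln15_14_5_c10 ln15_14_5_c10_ok))) (M (nat_lit 590) (B (L (nat_lit 527) ln15_14_5_c10 ln15_14_5_c10_ok) (L (nat_lit 525) ln13_14_4 ln13_14_4_ok))))))) (B (M (nat_lit 561) (B (M (nat_lit 593) (B (L (nat_lit 594) ln14_17_0_c10 ln14_17_0_c10_ok) (L (nat_lit 592) ln13_17_0_c10 ln13_17_0_c10_ok))) (M (nat_lit 562) (B (M (nat_lit 530) (B (L (nat_lit 531) ln15_17_2_c10 ln15_17_2_c10_ok) (L (nat_lit 529) ln14_17_2_c10 ln14_17_2_c10_ok))) (M (nat_lit 590) (B (L (nat_lit 525) ln13_14_4 ln13_14_4_ok) (L (nat_lit 591) ln18_17_1_c10 ln18_17_1_c10_ok))))))) (B (M (nat_lit 495) (B (M (nat_lit 527) (B (L (nat_lit 592) ln15_14_4_c10 ln15_14_4_c10_ok) (L (nat_lit 590) ln15_14_5_c10 ln15_14_5_c10_ok))) (B (M (nat_lit 496) (B (M (nat_lit 528) (B (L (nat_lit 592) ln16_18_7_c10 ln16_18_7_c10_ok) (L (nat_lit 529) ln13_17_2_c10 ln13_17_2_c10_ok))) (M (nat_lit 497) (B (L (nat_lit 498) ln18_15_3 ln18_15_3_ok) (L (nat_lit 494) ln17_15_3 ln17_15_3_ok)))))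 (M (nat_lit 590) (B (L (nat_lit 527) ln15_14_5_c10 ln15_14_5_c10_ok) (L (nat_lit 525) ln13_14_4 ln13_14_4_ok)))))) (M (nat_lit 561) (B (M (nat_lit 529) (B (L (nat_lit 530) ln14_17_2_c10 ln14_17_2_c10_ok) (L (nat_lit 528) ln13_17_2_c10 ln13_17_2_c10_ok))) (M (nat_lit 562) (B (M (nat_lit 594) (B (L (nat_lit 595) ln15_17_0_c10 ln15_17_0_c10_ok) (L (nat_lit 593) ln14_17_0_c10 ln14_17_0_c10_ok))) (M (nat_lit 590) (B (L (nat_lit 525) ln13_14_4 ln13_14_4_ok) (L (nat_lit 591) ln18_17_1_c10 ln18_17_1_c10_ok))))))))))))))) (nat_lit 3302217121718848683236933622506786676402152449583581786253212438774014988618797315844621695381304192388946209092733180994661997962730161022819405783883937719918914437120) (nat_lit 255292461783744452208458602963849322449395126198300080541199956660525385886466846961106330346624256694565298120775922052558721425741836504575711033673368639158346528984191280873472) (nat_lit 255292461783744452208458602963849322449395126198300080541199956660525385886466846961106330346624256694565298120775922052558721425741836504575711033673368639158346528984191280873472)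 (by decide +kernel)
theorem c10_s538 : Sem (nat_lit 25573364134608568312712783448286929082501673747721421003424472818629177445372627767079316647370812383361826986772918218107815557703130888694206038016) (nat_lit 6393341031047152090562678550378607321843322516090422404813065268835183379858008735142831011413121250630099925002239245470176172265135782815256805376) (nat_lit 6393341031047152090562678550378607321843322516090422404813065268835183379858008735142831011413121250630099925002239245470176172265135782815256805376) :=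
  sem_of_chk (M (nat_lit 364) (B (M (nat_lit 332) (B (L (nat_lit 363) ln11_14_6 ln11_14_6_ok) (M (nat_lit 396) (B (L (nat_lit 428) ln12_10_4 ln12_10_4_ok) (L (nat_lit 491) ln11_15_6 ln11_15_6_ok))))) (B (M (nat_lit 394) (B (M (nat_lit 491) (B (L (nat_lit 396) ln11_15_6 ln11_15_6_ok) (L (nat_lit 362) ln11_15_7 ln11_15_7_ok))) (B (M (nat_lit 362) (B (L (nat_lit 491) ln11_15_7 ln11_15_7_ok) (M (nat_lit 330) (B (L (nat_lit 363) ln11_14_7 ln11_14_7_ok) (L (nat_lit 298) ln10_9_4 ln10_9_4_ok))))) (M (nat_lit 393) (B (M (nat_lit 392) (B (L (nat_lit 363) ln8_12_2 ln8_12_2_ok) (L (nat_lit 428) ln8_12_0 ln8_12_0_ok))) (B (M (nat_lit 365) (B (L (nat_lit 396) ln9_12_2 ln9_12_2_ok) (M (nat_lit 363) (B (L (nat_lit 366) ln14_11_1 ln14_11_1_ok) (L (nat_lit 392) ln8_12_2 ln8_12_2_ok))))) (M (nat_lit 396) (B (L (nat_lit 365) ln9_12_2 ln9_12_2_ok) (L (nat_lit 428) ln12_11_4 ln12_11_4_ok))))))))) (B (M (nat_lit 363) (B (L (nat_lit 332) ln11_14_6 ln11_14_6_ok) (M (nat_lit 362) (B (L (nat_lit 330) ln11_14_7 ln11_14_7_ok) (M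 (nat_lit 394) (B (L (nat_lit 491) ln11_15_7 ln11_15_7_ok) (M (nat_lit 393) (B (L (nat_lit 365) ln13_11_1 ln13_11_1_ok) (L (nat_lit 392) ln8_12_2 ln8_12_2_ok))))))))) (B (M (nat_lit 396) (B (L (nat_lit 491) ln11_15_6 ln11_15_6_ok) (M (nat_lit 332) (B (L (nat_lit 300) ln12_9_5 ln12_9_5_ok) (L (nat_lit 428) ln12_10_4 ln12_10_4_ok))))) (M (nat_lit 332) (B (L (nat_lit 363) ln11_14_6 ln11_14_6_ok) (M (nat_lit 396) (B (L (nat_lit 300) ln12_9_5 ln12_9_5_ok) (L (nat_lit 428) ln12_10_4 ln12_10_4_ok)))))))))) (nat_lit 25573364134608568312712783448286929082501673747721421003424472818629177445372627767079316647370812383361826986772918218107815557703130888694206038016) (nat_lit 6393341031047152090562678550378607321843322516090422404813065268835183379858008735142831011413121250630099925002239245470176172265135782815256805376) (nat_lit 6393341031047152090562678550378607321843322516090422404813065268835183379858008735142831011413121250630099925002239245470176172265135782815256805376) (by decide +kernel)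
theorem c10_s551 : Sem (nat_lit 31966705165655720402582294574822638367984586850472534446258932150869135460449594522309745441552948702109126254377382564507688704661941322877339959296) (nat_lit 1266331655955072354700736160263842181285211028530075551308635750546663750731693156273012220966807494796088267493795923920781080713113339691838935543204229367130268454273104740352) (nat_lit 1266331655955072354700736160263842181285211028530075551308635750546663750731693156273012220966807494796088267493795923920781080713113339691838935543204229367130268454273104740352) :=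
  sem_of_chk (M (nat_lit 395) (B (M (nat_lit 364) (B (L (nat_lit 396) ln11_15_6 ln11_15_6_ok) (M (nat_lit 363) (B (L (nat_lit 332) ln11_14_6 ln11_14_6_ok) (M (nat_lit 362) (B (L (nat_lit 394) ln11_15_7 ln11_15_7_ok) (L (nat_lit 330) ln11_14_7 ln11_14_7_ok))))))) (B (M (nat_lit 523) (B (M (nat_lit 428) (B (L (nat_lit 555) ln11_17_6 ln11_17_6_ok) (L (nat_lit 396) ln11_16_6 ln11_16_6_ok))) (B (M (nat_lit 396) (B (L (nat_lit 428) ln11_16_6 ln11_16_6_ok) (L (nat_lit 364) ln11_15_6 ln11_15_6_ok))) (M (nat_lit 555) (B (M (nat_lit 554) (B (L (nat_lit 586) ln11_14_5 ln11_14_5_ok) (L (nat_lit 522) ln11_13_5 ln11_13_5_ok))) (M (nat_lit 556) (B (L (nat_lit 588) ln11_14_4 ln11_14_4_ok) (L (nat_lit 524) ln11_13_4 ln11_13_4_ok)))))))) (B (M (nat_lit 363) (B (M (nat_lit 362) (B (L (nat_lit 394) ln11_15_7 ln11_15_7_ok) (L (nat_lit 330) ln11_14_7 ln11_14_7_ok))) (M (nat_lit 331) (B (L (nat_lit 428) ln11_10_4 ln11_10_4_ok) (M (nat_lit 332) (B (L (nat_lit 364) ln11_14_6 ln11_14_6_ok) (L (nat_lit 300) ln11_13_6 ln11_13_6_ok)))))))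 (M (nat_lit 363) (B (M (nat_lit 362) (B (L (nat_lit 394) ln11_15_7 ln11_15_7_ok) (L (nat_lit 330) ln11_14_7 ln11_14_7_ok))) (M (nat_lit 428) (B (L (nat_lit 331) ln11_10_4 ln11_10_4_ok) (M (nat_lit 523) (B (L (nat_lit 555) ln11_17_6 ln11_17_6_ok) (L (nat_lit 396) ln11_16_6 ln11_16_6_ok))))))))))) (nat_lit 31966705165655720402582294574822638367984586850472534446258932150869135460449594522309745441552948702109126254377382564507688704661941322877339959296) (nat_lit 1266331655955072354700736160263842181285211028530075551308635750546663750731693156273012220966807494796088267493795923920781080713113339691838935543204229367130268454273104740352) (nat_lit 1266331655955072354700736160263842181285211028530075551308635750546663750731693156273012220966807494796088267493795923920781080713113339691838935543204229367130268454273104740352) (by decide +kernel)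
theorem c10_s555 : Sem (nat_lit 44753387223284327459902524380755300223219643210741598297185602260703205246993196768576974735309190797514417216682321711876370314450494100607074304000) (nat_lit 1013065324669708824695270304466658869585677826934333119239666342324684094316239146585326270888070783454188206023794286421608915118379362417157465470570284392629180493432866471936) (nat_lit 1013065324669708824695270304466658869585677826934333119239666342324684094316239146585326270888070783454188206023794286421608915118379362417157465470570284392629180493432866471936) :=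
  sem_of_chk (M (nat_lit 524) (B (M (nat_lit 556) (B (L (nat_lit 588) ln12_18_6 ln12_18_6_ok) (L (nat_lit 460) ln12_17_6 ln12_17_6_ok))) (B (M (nat_lit 459) (B (M (nat_lit 556) (B (L (nat_lit 460) ln12_17_6 ln12_17_6_ok) (M (nat_lit 427) (B (L (nat_lit 523) ln11_13_4 ln11_13_4_ok) (L (nat_lit 395) ln11_12_4 ln11_12_4_ok))))) (M (nat_lit 458) (B (L (nat_lit 494) ln14_15_3 ln14_15_3_ok) (M (nat_lit 457) (B (L (nat_lit 490) ln13_15_3 ln13_15_3_ok) (L (nat_lit 456) ln8_14_0 ln8_14_0_ok))))))) (B (M (nat_lit 490) (B (M (nat_lit 489) (B (L (nat_lit 460) ln9_15_2 ln9_15_2_ok) (M (nat_lit 457) (B (L (nat_lit 456) ln12_15_3 ln12_15_3_ok) (L (nat_lit 458) ln13_15_3 ln13_15_3_ok))))) (B (M (nat_lit 494) (B (M (nat_lit 458) (B (L (nat_lit 457) ln13_15_3 ln13_15_3_ok) (L (nat_lit 459) ln14_15_3 ln14_15_3_ok))) (M (nat_lit 495) (B (L (nat_lit 523) ln15_15_1 ln15_15_1_ok) (M (nat_lit 527) (B (L (nat_lit 526) ln11_15_0 ln11_15_0_ok) (L (nat_lit 528) ln12_15_0 ln12_15_0_ok))))))) (M (nat_lit 489) (B (L (nat_lit 460)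 ln9_15_2 ln9_15_2_ok) (M (nat_lit 520) (B (L (nat_lit 521) ln12_15_1 ln12_15_1_ok) (M (nat_lit 488) (B (L (nat_lit 519) ln11_15_1 ln11_15_1_ok) (L (nat_lit 523) ln8_15_0 ln8_15_0_ok)))))))))) (M (nat_lit 459) (B (M (nat_lit 458) (B (L (nat_lit 494) ln14_15_3 ln14_15_3_ok) (M (nat_lit 457) (B (L (nat_lit 490) ln13_15_3 ln13_15_3_ok) (L (nat_lit 456) ln8_14_0 ln8_14_0_ok))))) (M (nat_lit 556) (B (L (nat_lit 588) ln12_18_6 ln12_18_6_ok) (M (nat_lit 427) (B (L (nat_lit 523) ln11_13_4 ln11_13_4_ok) (L (nat_lit 395) ln11_12_4 ln11_12_4_ok))))))))))) (nat_lit 44753387223284327459902524380755300223219643210741598297185602260703205246993196768576974735309190797514417216682321711876370314450494100607074304000) (nat_lit 1013065324669708824695270304466658869585677826934333119239666342324684094316239146585326270888070783454188206023794286421608915118379362417157465470570284392629180493432866471936) (nat_lit 1013065324669708824695270304466658869585677826934333119239666342324684094316239146585326270888070783454188206023794286421608915118379362417157465470570284392629180493432866471936)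 (by decide +kernel)
theorem c10_s556 : Sem (nat_lit 44753387223284327459902524380755300223219643210741598297185602260703205246993196768576974735309190797514417216682321711876370314450494100607074304000) (nat_lit 1013065324669708823159271828012434945858477523139871386875630193917619508964227947592560983602845241791765486425793829745438865444535520431351420655633685339565741663295872434176) (nat_lit 1013065324669708823159271828012434945858477523139871386875630193917619508964227947592560983602845241791765486425793829745438865444535520431351420655633685339565741663295872434176) :=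
  sem_of_chk (M (nat_lit 524) (B (M (nat_lit 556) (B (L (nat_lit 588) ln12_18_6 ln12_18_6_ok) (L (nat_lit 460) ln12_17_6 ln12_17_6_ok))) (B (M (nat_lit 459) (B (M (nat_lit 556) (B (L (nat_lit 460) ln12_17_6 ln12_17_6_ok) (M (nat_lit 427) (B (L (nat_lit 523) ln11_13_4 ln11_13_4_ok) (L (nat_lit 395) ln11_12_4 ln11_12_4_ok))))) (M (nat_lit 458) (B (L (nat_lit 494) ln14_15_3 ln14_15_3_ok) (M (nat_lit 457) (B (L (nat_lit 490) ln13_15_3 ln13_15_3_ok) (L (nat_lit 456) ln8_14_0 ln8_14_0_ok))))))) (B (M (nat_lit 490) (B (M (nat_lit 489) (B (L (nat_lit 460) ln9_15_2 ln9_15_2_ok) (M (nat_lit 457) (B (L (nat_lit 456) ln12_15_3 ln12_15_3_ok) (L (nat_lit 458) ln13_15_3 ln13_15_3_ok))))) (B (M (nat_lit 494) (B (M (nat_lit 523) (B (L (nat_lit 522) ln14_15_1 ln14_15_1_ok) (L (nat_lit 495) ln15_15_1 ln15_15_1_ok))) (M (nat_lit 458) (B (L (nat_lit 457) ln13_15_3 ln13_15_3_ok) (L (nat_lit 459) ln14_15_3 ln14_15_3_ok))))) (M (nat_lit 523) (B (M (nat_lit 489) (B (L (nat_lit 488) ln8_15_0 ln8_15_0_ok) (L (nat_lit 460) ln9_15_2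 ln9_15_2_ok))) (M (nat_lit 494) (B (L (nat_lit 522) ln14_15_1 ln14_15_1_ok) (L (nat_lit 495) ln15_15_1 ln15_15_1_ok)))))))) (M (nat_lit 459) (B (M (nat_lit 458) (B (L (nat_lit 494) ln14_15_3 ln14_15_3_ok) (M (nat_lit 457) (B (L (nat_lit 490) ln13_15_3 ln13_15_3_ok) (L (nat_lit 456) ln8_14_0 ln8_14_0_ok))))) (M (nat_lit 556) (B (L (nat_lit 588) ln12_18_6 ln12_18_6_ok) (M (nat_lit 427) (B (L (nat_lit 523) ln11_13_4 ln11_13_4_ok) (L (nat_lit 395) ln11_12_4 ln11_12_4_ok))))))))))) (nat_lit 44753387223284327459902524380755300223219643210741598297185602260703205246993196768576974735309190797514417216682321711876370314450494100607074304000) (nat_lit 1013065324669708823159271828012434945858477523139871386875630193917619508964227947592560983602845241791765486425793829745438865444535520431351420655633685339565741663295872434176) (nat_lit 1013065324669708823159271828012434945858477523139871386875630193917619508964227947592560983602845241791765486425793829745438865444535520431351420655633685339565741663295872434176)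 (by decide +kernel)
theorem c10_s572 : Sem (nat_lit 5954262830815946495005335224839251491483804197344386935023499141454429481963973176034236566283322343451071287077258285738821061325136855040) (nat_lit 6393341032535717797876758498706895859381093021146932280392394026545703940556474276629847714330778808193374597832501330376833407034288244501013069824) (nat_lit 6393341032535717797876758498706895859381093021146932280392394026545703940556474276629847714330778808193374597832501330376833407034288244501013069824) :=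
  sem_of_chk (M (nat_lit 362) (B (M (nat_lit 361) (B (L (nat_lit 394) ln13_12_3 ln13_12_3_ok) (M (nat_lit 363) (B (L (nat_lit 364) ln9_11_0 ln9_11_0_ok) (L (nat_lit 398) ln14_12_3 ln14_12_3_ok))))) (B (M (nat_lit 427) (B (M (nat_lit 398) (B (L (nat_lit 363) ln14_12_3 ln14_12_3_ok) (L (nat_lit 426) ln14_12_1 ln14_12_1_ok))) (B (M (nat_lit 426) (B (L (nat_lit 398) ln14_12_1 ln14_12_1_ok) (M (nat_lit 425) (B (L (nat_lit 394) ln13_12_1 ln13_12_1_ok) (L (nat_lit 424) ln8_13_2 ln8_13_2_ok))))) (B (M (nat_lit 459) (B (M (nat_lit 491) (B (L (nat_lit 394) ln11_15_7 ln11_15_7_ok) (L (nat_lit 364) ln11_15_6 ln11_15_6_ok))) (B (M (nat_lit 330) (B (L (nat_lit 363) ln11_14_7 ln11_14_7_ok) (M (nat_lit 394) (B (L (nat_lit 298) ln10_9_4 ln10_9_4_ok) (L (nat_lit 491) ln11_15_7 ln11_15_7_ok))))) (B (M (nat_lit 363) (B (L (nat_lit 330) ln11_14_7 ln11_14_7_ok) (M (nat_lit 364) (B (L (nat_lit 332) ln11_14_6 ln11_14_6_ok) (L (nat_lit 491) ln11_15_6 ln11_15_6_ok))))) (M (nat_lit 330) (B (L (nat_lit 363) ln11_14_7 ln11_14_7_ok)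 (M (nat_lit 394) (B (L (nat_lit 298) ln10_9_4 ln10_9_4_ok) (L (nat_lit 426) ln10_10_4 ln10_10_4_ok))))))))) (M (nat_lit 459) (B (M (nat_lit 363) (B (L (nat_lit 330) ln11_14_7 ln11_14_7_ok) (L (nat_lit 398) ln14_12_3 ln14_12_3_ok))) (M (nat_lit 491) (B (L (nat_lit 394) ln11_15_7 ln11_15_7_ok) (L (nat_lit 364) ln11_15_6 ln11_15_6_ok))))))))) (B (M (nat_lit 394) (B (L (nat_lit 361) ln13_12_3 ln13_12_3_ok) (M (nat_lit 426) (B (L (nat_lit 425) ln13_12_1 ln13_12_1_ok) (M (nat_lit 427) (B (L (nat_lit 398) ln14_12_1 ln14_12_1_ok) (M (nat_lit 459) (B (L (nat_lit 330) ln10_10_4 ln10_10_4_ok) (L (nat_lit 491) ln11_15_7 ln11_15_7_ok))))))))) (B (M (nat_lit 363) (B (L (nat_lit 398) ln14_12_3 ln14_12_3_ok) (M (nat_lit 361) (B (L (nat_lit 360) ln8_11_0 ln8_11_0_ok) (L (nat_lit 364) ln9_11_0 ln9_11_0_ok))))) (M (nat_lit 361) (B (L (nat_lit 394) ln13_12_3 ln13_12_3_ok) (M (nat_lit 363) (B (L (nat_lit 360) ln8_11_0 ln8_11_0_ok) (L (nat_lit 364) ln9_11_0 ln9_11_0_ok)))))))))) (nat_lit 5954262830815946495005335224839251491483804197344386935023499141454429481963973176034236566283322343451071287077258285738821061325136855040)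 (nat_lit 6393341032535717797876758498706895859381093021146932280392394026545703940556474276629847714330778808193374597832501330376833407034288244501013069824) (nat_lit 6393341032535717797876758498706895859381093021146932280392394026545703940556474276629847714330778808193374597832501330376833407034288244501013069824) (by decide +kernel)
theorem c10_s587 : Sem (nat_lit 10419959952888155229975513539671640096565344398531610249883351783038884624700983282707087714552501678931161298796127532335853834862306787328) (nat_lit 235872651606264715846489599687960336040426688664414363054258613717578471777302874775727136381367748881368295835311792622013858559033376290574173331232028662717510320128) (nat_lit 235872651606264715846489599687960336040426688664414363054258613717578471777302874775727136381367748881368295835311792622013858559033376290574173331232028662717510320128) :=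
  sem_of_chk (M (nat_lit 492) (B (M (nat_lit 524) (B (L (nat_lit 556) ln12_17_6 ln12_17_6_ok) (M (nat_lit 397) (B (L (nat_lit 493) ln13_12_5 ln13_12_5_ok) (L (nat_lit 365) ln13_11_5 ln13_11_5_ok))))) (B (M (nat_lit 458) (B (M (nat_lit 457) (B (L (nat_lit 493) ln9_14_0 ln9_14_0_ok) (M (nat_lit 489) (B (L (nat_lit 490) ln13_14_1 ln13_14_1_ok) (L (nat_lit 488) ln12_14_1 ln12_14_1_ok))))) (B (M (nat_lit 457) (B (M (nat_lit 489) (B (L (nat_lit 490) ln13_14_1 ln13_14_1_ok) (L (nat_lit 488) ln12_14_1 ln12_14_1_ok))) (M (nat_lit 425) (B (L (nat_lit 426) ln13_14_3 ln13_14_3_ok) (L (nat_lit 424) ln12_14_3 ln12_14_3_ok))))) (B (M (nat_lit 457) (B (L (nat_lit 493) ln9_14_0 ln9_14_0_ok) (M (nat_lit 425) (B (L (nat_lit 426) ln13_14_3 ln13_14_3_ok) (L (nat_lit 424) ln12_14_3 ln12_14_3_ok))))) (M (nat_lit 462) (B (M (nat_lit 491) (B (L (nat_lit 463) ln15_14_1 ln15_14_1_ok) (L (nat_lit 490) ln14_14_1 ln14_14_1_ok))) (M (nat_lit 426) (B (L (nat_lit 427) ln14_14_3 ln14_14_3_ok) (L (nat_lit 425) ln13_14_3 ln13_14_3_ok)))))))))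 (M (nat_lit 427) (B (M (nat_lit 524) (B (L (nat_lit 556) ln12_17_6 ln12_17_6_ok) (M (nat_lit 395) (B (L (nat_lit 491) ln11_12_4 ln11_12_4_ok) (L (nat_lit 363) ln11_11_4 ln11_11_4_ok))))) (M (nat_lit 426) (B (L (nat_lit 462) ln14_14_3 ln14_14_3_ok) (M (nat_lit 425) (B (L (nat_lit 458) ln13_14_3 ln13_14_3_ok) (L (nat_lit 424) ln8_13_0 ln8_13_0_ok)))))))))) (nat_lit 10419959952888155229975513539671640096565344398531610249883351783038884624700983282707087714552501678931161298796127532335853834862306787328) (nat_lit 235872651606264715846489599687960336040426688664414363054258613717578471777302874775727136381367748881368295835311792622013858559033376290574173331232028662717510320128) (nat_lit 235872651606264715846489599687960336040426688664414363054258613717578471777302874775727136381367748881368295835311792622013858559033376290574173331232028662717510320128) (by decide +kernel)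
theorem c10_s589 : Sem (nat_lit 10419959952888155229975513539671640096565344398531610249883351783038884624700983282707087714552501678931161298796127532335853834862306787328) (nat_lit 58968162956484560254854583985721232272779628103692054904188317666370149689370790648874999986800204441629442267742888455423585000743405517847613835379435491020807077888) (nat_lit 58968162956484560254854583985721232272779628103692054904188317666370149689370790648874999986800204441629442267742888455423585000743405517847613835379435491020807077888) :=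
  sem_of_chk (M (nat_lit 490) (B (M (nat_lit 491) (B (L (nat_lit 462) ln14_14_1 ln14_14_1_ok) (M (nat_lit 489) (B (L (nat_lit 488) ln8_15_2 ln8_15_2_ok) (L (nat_lit 458) ln13_14_1 ln13_14_1_ok))))) (B (M (nat_lit 458) (B (L (nat_lit 489) ln13_14_1 ln13_14_1_ok) (M (nat_lit 426) (B (L (nat_lit 425) ln13_14_3 ln13_14_3_ok) (M (nat_lit 427) (B (L (nat_lit 462) ln14_14_3 ln14_14_3_ok) (M (nat_lit 522) (B (L (nat_lit 554) ln10_17_6 ln10_17_6_ok) (L (nat_lit 395) ln10_16_6 ln10_16_6_ok))))))))) (B (M (nat_lit 427) (B (M (nat_lit 462) (B (L (nat_lit 491) ln14_14_1 ln14_14_1_ok) (L (nat_lit 426) ln14_14_3 ln14_14_3_ok))) (B (M (nat_lit 426) (B (L (nat_lit 462) ln14_14_3 ln14_14_3_ok) (M (nat_lit 458) (B (L (nat_lit 425) ln13_14_3 ln13_14_3_ok) (M (nat_lit 395) (B (L (nat_lit 522) ln10_16_6 ln10_16_6_ok) (L (nat_lit 363) ln11_11_5 ln11_11_5_ok))))))) (B (M (nat_lit 395) (B (M (nat_lit 363) (B (L (nat_lit 492) ln11_11_4 ln11_11_4_ok) (L (nat_lit 458) ln11_11_5 ln11_11_5_ok))) (B (M (nat_lit 458) (B (L (nat_lit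 363) ln11_11_5 ln11_11_5_ok) (M (nat_lit 522) (B (L (nat_lit 491) ln11_12_5 ln11_12_5_ok) (L (nat_lit 426) ln10_16_6 ln10_16_6_ok))))) (B (M (nat_lit 492) (B (L (nat_lit 363) ln11_11_4 ln11_11_4_ok) (M (nat_lit 491) (B (L (nat_lit 524) ln11_12_4 ln11_12_4_ok) (L (nat_lit 522) ln11_12_5 ln11_12_5_ok))))) (M (nat_lit 522) (B (L (nat_lit 491) ln11_12_5 ln11_12_5_ok) (M (nat_lit 458) (B (L (nat_lit 554) ln10_17_6 ln10_17_6_ok) (L (nat_lit 426) ln10_16_6 ln10_16_6_ok))))))))) (M (nat_lit 395) (B (M (nat_lit 491) (B (L (nat_lit 522) ln11_12_5 ln11_12_5_ok) (L (nat_lit 462) ln14_14_1 ln14_14_1_ok))) (M (nat_lit 363) (B (L (nat_lit 492) ln11_11_4 ln11_11_4_ok) (L (nat_lit 458) ln11_11_5 ln11_11_5_ok))))))))) (B (M (nat_lit 489) (B (L (nat_lit 458) ln13_14_1 ln13_14_1_ok) (M (nat_lit 491) (B (L (nat_lit 492) ln9_15_2 ln9_15_2_ok) (L (nat_lit 488) ln8_15_2 ln8_15_2_ok))))) (M (nat_lit 491) (B (L (nat_lit 462) ln14_14_1 ln14_14_1_ok) (M (nat_lit 489) (B (L (nat_lit 492) ln9_15_2 ln9_15_2_ok) (L (nat_lit 488) ln8_15_2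 ln8_15_2_ok)))))))))) (nat_lit 10419959952888155229975513539671640096565344398531610249883351783038884624700983282707087714552501678931161298796127532335853834862306787328) (nat_lit 58968162956484560254854583985721232272779628103692054904188317666370149689370790648874999986800204441629442267742888455423585000743405517847613835379435491020807077888) (nat_lit 58968162956484560254854583985721232272779628103692054904188317666370149689370790648874999986800204441629442267742888455423585000743405517847613835379435491020807077888) (by decide +kernel)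

end Vale.Agent.Lib.P062.Data
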