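import Vale.Agent.Lib.P062.Data.c10_lines
import Vale.Agent.Lib.P062.Data.c10_l0_0
import Vale.Agent.Lib.P062.Data.c10_l0_1
import Vale.Agent.Lib.P062.Data.c10_l0_2
import Vale.Agent.Lib.P062.Data.c10_l0_3

namespace Vale.Agent.Lib.P062.Data
noncomputable def c10_d113 : Cert := (B (M (nat_lit 301) (B (M (nat_lit 270) (B (L (nat_lit 269) ln10_9_2 ln10_9_2_ok) (M (nat_lit 302) (B (L (nat_lit 271) ln11_9_2 ln11_9_2_ok) (M (nat_lit 334) (B (L (nat_lit 335) ln11_9_0_c10 ln11_9_0_c10_ok) (L (nat_lit 333) ln10_9_0 ln10_9_0_ok))))))) (B (M (nat_lit 297) (B (M (nat_lit 269) (B (L (nat_lit 270) ln10_9_2 ln10_9_2_ok) (L (nat_lit 268) ln9_9_2 ln9_9_2_ok))) (M (nat_lit 333) (B (L (nat_lit 334) ln10_9_0 ln10_9_0_ok) (L (nat_lit 332) ln9_9_0 ln9_9_0_ok))))) (B (M (nat_lit 302) (B (M (nat_lit 334) (B (L (nat_lit 333) ln10_9_0 ln10_9_0_ok) (L (nat_lit 335) ln11_9_0_c10 ln11_9_0_c10_ok))) (M (nat_lit 303)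 (B (M (nat_lit 267) (B (L (nat_lit 266) ln14_9_3 ln14_9_3_ok) (L (nat_lit 268) ln15_9_3 ln15_9_3_ok))) (M (nat_lit 271) (B (L (nat_lit 270) ln11_9_2 ln11_9_2_ok) (L (nat_lit 272) ln12_9_2 ln12_9_2_ok))))))) (B (M (nat_lit 302) (B (M (nat_lit 334) (B (L (nat_lit 335) ln11_9_0_c10 ln11_9_0_c10_ok) (L (nat_lit 333) ln10_9_0 ln10_9_0_ok))) (B (M (nat_lit 303) (B (M (nat_lit 267) (B (L (nat_lit 268) ln15_9_3 ln15_9_3_ok) (L (nat_lit 266) ln14_9_3 ln14_9_3_ok))) (M (nat_lit 304) (B (M (nat_lit 272) (B (L (nat_lit 273) ln13_9_2 ln13_9_2_ok) (L (nat_lit 271) ln12_9_2 ln12_9_2_ok))) (M (nat_lit 333) (B (L (nat_lit 332) ln16_9_1 ln16_9_1_ok) (L (nat_lit 334) ln10_9_0 ln10_9_0_ok))))))) (M (nat_lit 303) (B (M (nat_lit 267) (B (L (nat_lit 268) ln15_9_3 ln15_9_3_ok) (L (nat_lit 266) ln14_9_3 ln14_9_3_ok))) (M (nat_lit 304) (B (M (nat_lit 336) (B (L (nat_lit 337) ln13_9_0 ln13_9_0_ok) (L (nat_lit 335)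 ln12_9_0 ln12_9_0_ok))) (M (nat_lit 272) (B (L (nat_lit 273) ln13_9_2 ln13_9_2_ok) (L (nat_lit 271) ln12_9_2 ln12_9_2_ok)))))))))) (B (M (nat_lit 302) (B (M (nat_lit 270) (B (L (nat_lit 271) ln11_9_2 ln11_9_2_ok) (L (nat_lit 269) ln10_9_2 ln10_9_2_ok))) (M (nat_lit 303) (B (M (nat_lit 335) (B (L (nat_lit 336) ln12_9_0 ln12_9_0_ok) (L (nat_lit 334) ln11_9_0_c10 ln11_9_0_c10_ok))) (M (nat_lit 267) (B (L (nat_lit 268) ln15_9_3 ln15_9_3_ok) (L (nat_lit 266) ln14_9_3 ln14_9_3_ok))))))) (M (nat_lit 302) (B (M (nat_lit 270) (B (L (nat_lit 269) ln10_9_2 ln10_9_2_ok) (L (nat_lit 271) ln11_9_2 ln11_9_2_ok))) (B (M (nat_lit 303) (B (M (nat_lit 267) (B (L (nat_lit 266) ln14_9_3 ln14_9_3_ok) (L (nat_lit 268) ln15_9_3 ln15_9_3_ok))) (M (nat_lit 271) (B (L (nat_lit 270) ln11_9_2 ln11_9_2_ok) (L (nat_lit 272) ln12_9_2 ln12_9_2_ok))))) (M (nat_lit 267) (B (L (nat_lit 266) ln14_9_3 ln14_9_3_ok) (M (nat_lit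 268) (B (L (nat_lit 303) ln15_9_3 ln15_9_3_ok) (M (nat_lit 297) (B (L (nat_lit 296) ln8_9_2 ln8_9_2_ok) (L (nat_lit 269) ln9_9_2 ln9_9_2_ok)))))))))))))))) (B (M (nat_lit 301) (B (M (nat_lit 302) (B (M (nat_lit 335) (B (L (nat_lit 334) ln11_9_0_c10 ln11_9_0_c10_ok) (M (nat_lit 303) (B (L (nat_lit 336) ln12_9_0 ln12_9_0_ok) (M (nat_lit 271) (B (L (nat_lit 270) ln11_9_2 ln11_9_2_ok) (L (nat_lit 272) ln12_9_2 ln12_9_2_ok))))))) (B (M (nat_lit 303) (B (M (nat_lit 267) (B (L (nat_lit 266) ln14_9_3 ln14_9_3_ok) (L (nat_lit 268) ln15_9_3 ln15_9_3_ok))) (M (nat_lit 271) (B (L (nat_lit 270) ln11_9_2 ln11_9_2_ok) (L (nat_lit 272) ln12_9_2 ln12_9_2_ok))))) (B (M (nat_lit 303) (B (M (nat_lit 267) (B (L (nat_lit 266) ln14_9_3 ln14_9_3_ok) (L (nat_lit 268) ln15_9_3 ln15_9_3_ok))) (M (nat_lit 335) (B (L (nat_lit 334) ln11_9_0_c10 ln11_9_0_c10_ok) (L (nat_lit 336) ln12_9_0 ln12_9_0_ok))))) (M (nat_lit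 266) (B (L (nat_lit 265) ln13_9_3 ln13_9_3_ok) (L (nat_lit 267) ln14_9_3 ln14_9_3_ok))))))) (B (M (nat_lit 302) (B (M (nat_lit 334) (B (L (nat_lit 335) ln11_9_0_c10 ln11_9_0_c10_ok) (L (nat_lit 333) ln10_9_0 ln10_9_0_ok))) (M (nat_lit 270) (B (L (nat_lit 271) ln11_9_2 ln11_9_2_ok) (L (nat_lit 269) ln10_9_2 ln10_9_2_ok))))) (B (M (nat_lit 302) (B (M (nat_lit 303) (B (M (nat_lit 335) (B (L (nat_lit 336) ln12_9_0 ln12_9_0_ok) (L (nat_lit 334) ln11_9_0_c10 ln11_9_0_c10_ok))) (M (nat_lit 267) (B (L (nat_lit 268) ln15_9_3 ln15_9_3_ok) (L (nat_lit 266) ln14_9_3 ln14_9_3_ok))))) (B (M (nat_lit 334) (B (L (nat_lit 335) ln11_9_0_c10 ln11_9_0_c10_ok) (L (nat_lit 333) ln10_9_0 ln10_9_0_ok))) (B (M (nat_lit 303) (B (M (nat_lit 267) (B (L (nat_lit 268) ln15_9_3 ln15_9_3_ok) (L (nat_lit 266) ln14_9_3 ln14_9_3_ok))) (M (nat_lit 304) (B (M (nat_lit 272) (B (L (nat_lit 273) ln13_9_2 ln13_9_2_ok) (L (nat_lit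 271) ln12_9_2 ln12_9_2_ok))) (M (nat_lit 333) (B (L (nat_lit 332) ln16_9_1 ln16_9_1_ok) (L (nat_lit 334) ln10_9_0 ln10_9_0_ok))))))) (M (nat_lit 303) (B (M (nat_lit 267) (B (L (nat_lit 268) ln15_9_3 ln15_9_3_ok) (L (nat_lit 266) ln14_9_3 ln14_9_3_ok))) (M (nat_lit 304) (B (M (nat_lit 336) (B (L (nat_lit 337) ln13_9_0 ln13_9_0_ok) (L (nat_lit 335) ln12_9_0 ln12_9_0_ok))) (M (nat_lit 272) (B (L (nat_lit 273) ln13_9_2 ln13_9_2_ok) (L (nat_lit 271) ln12_9_2 ln12_9_2_ok))))))))))) (B (M (nat_lit 302) (B (M (nat_lit 334) (B (L (nat_lit 335) ln11_9_0_c10 ln11_9_0_c10_ok) (L (nat_lit 333) ln10_9_0 ln10_9_0_ok))) (M (nat_lit 266) (B (L (nat_lit 267) ln14_9_3 ln14_9_3_ok) (L (nat_lit 265) ln13_9_3 ln13_9_3_ok))))) (B (M (nat_lit 302) (B (M (nat_lit 266) (B (L (nat_lit 265) ln13_9_3 ln13_9_3_ok) (L (nat_lit 267) ln14_9_3 ln14_9_3_ok))) (M (nat_lit 270) (B (L (nat_lit 269) ln10_9_2 ln10_9_2_ok) (L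 (nat_lit 271) ln11_9_2 ln11_9_2_ok))))) (M (nat_lit 269) (B (L (nat_lit 270) ln10_9_2 ln10_9_2_ok) (M (nat_lit 333) (B (L (nat_lit 334) ln10_9_0 ln10_9_0_ok) (M (nat_lit 237) (B (M (nat_lit 205) (B (L (nat_lit 332) ln13_6_5_c10 ln13_6_5_c10_ok) (M (nat_lit 206) (B (L (nat_lit 238) ln13_10_6 ln13_10_6_ok) (L (nat_lit 174) ln13_9_6_c10 ln13_9_6_c10_ok))))) (B (M (nat_lit 205) (B (L (nat_lit 332) ln13_6_5_c10 ln13_6_5_c10_ok) (M (nat_lit 204) (B (L (nat_lit 172) ln13_9_7_c10 ln13_9_7_c10_ok) (L (nat_lit 236) ln13_10_7 ln13_10_7_ok))))) (M (nat_lit 236) (B (L (nat_lit 204) ln13_10_7 ln13_10_7_ok) (M (nat_lit 266) (B (L (nat_lit 265) ln13_9_3 ln13_9_3_ok) (M (nat_lit 238) (B (L (nat_lit 206) ln13_10_6 ln13_10_6_ok) (M (nat_lit 267) (B (L (nat_lit 235) ln14_7_1_c10 ln14_7_1_c10_ok) (L (nat_lit 268) ln10_8_2_c10 ln10_8_2_c10_ok)))))))))))))))))))))) (M (nat_lit 297) (B (M (nat_lit 328) (B (L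 (nat_lit 329) ln12_9_1 ln12_9_1_ok) (M (nat_lit 296) (B (L (nat_lit 327) ln11_9_1 ln11_9_1_ok) (M (nat_lit 264) (B (L (nat_lit 263) ln11_9_3 ln11_9_3_ok) (L (nat_lit 265) ln12_9_3 ln12_9_3_ok))))))) (B (M (nat_lit 296) (B (M (nat_lit 328) (B (L (nat_lit 327) ln11_9_1 ln11_9_1_ok) (L (nat_lit 329) ln12_9_1 ln12_9_1_ok))) (M (nat_lit 268) (B (L (nat_lit 267) ln8_9_2 ln8_9_2_ok) (L (nat_lit 269) ln9_9_2 ln9_9_2_ok))))) (B (M (nat_lit 296) (B (M (nat_lit 268) (B (L (nat_lit 269) ln9_9_2 ln9_9_2_ok) (L (nat_lit 267) ln8_9_2 ln8_9_2_ok))) (M (nat_lit 264) (B (L (nat_lit 265) ln12_9_3 ln12_9_3_ok) (L (nat_lit 263) ln11_9_3 ln11_9_3_ok))))) (M (nat_lit 268) (B (L (nat_lit 269) ln9_9_2 ln9_9_2_ok) (M (nat_lit 332) (B (L (nat_lit 333) ln9_9_0 ln9_9_0_ok) (M (nat_lit 265) (B (L (nat_lit 264) ln12_9_3 ln12_9_3_ok) (M (nat_lit 329) (B (L (nat_lit 328) ln12_9_1 ln12_9_1_ok) (M (nat_lit 236) (B (M (nat_lit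 237) (B (L (nat_lit 205) ln12_10_6_c10 ln12_10_6_c10_ok) (M (nat_lit 266) (B (L (nat_lit 267) ln9_8_2_c10 ln9_8_2_c10_ok) (M (nat_lit 234) (B (L (nat_lit 202) ln10_6_5_c10 ln10_6_5_c10_ok) (L (nat_lit 235) ln13_7_1_c10 ln13_7_1_c10_ok))))))) (B (M (nat_lit 204) (B (M (nat_lit 205) (B (L (nat_lit 237) ln12_10_6_c10 ln12_10_6_c10_ok) (L (nat_lit 173) ln12_9_6_c10 ln12_9_6_c10_ok))) (M (nat_lit 171) (B (L (nat_lit 203) ln12_9_7_c10 ln12_9_7_c10_ok) (M (nat_lit 172) (B (L (nat_lit 267) ln12_5_5_c10 ln12_5_5_c10_ok) (L (nat_lit 139) ln12_8_7_c10 ln12_8_7_c10_ok))))))) (B (M (nat_lit 204) (B (M (nat_lit 203) (B (L (nat_lit 235) ln12_10_7_c10 ln12_10_7_c10_ok) (L (nat_lit 171) ln12_9_7_c10 ln12_9_7_c10_ok))) (M (nat_lit 173) (B (L (nat_lit 205) ln12_9_6_c10 ln12_9_6_c10_ok) (M (nat_lit 172) (B (L (nat_lit 141) ln12_8_6_c10 ln12_8_6_c10_ok) (L (nat_lit 267) ln12_5_5_c10 ln12_5_5_c10_ok)))))))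 (B (M (nat_lit 205) (B (L (nat_lit 237) ln12_10_6_c10 ln12_10_6_c10_ok) (M (nat_lit 204) (B (L (nat_lit 173) ln12_9_6_c10 ln12_9_6_c10_ok) (M (nat_lit 203) (B (L (nat_lit 171) ln12_9_7_c10 ln12_9_7_c10_ok) (L (nat_lit 235) ln12_10_7_c10 ln12_10_7_c10_ok))))))) (M (nat_lit 203) (B (L (nat_lit 235) ln12_10_7_c10 ln12_10_7_c10_ok) (M (nat_lit 204) (B (L (nat_lit 171) ln12_9_7_c10 ln12_9_7_c10_ok) (M (nat_lit 172) (B (L (nat_lit 267) ln12_5_5_c10 ln12_5_5_c10_ok) (M (nat_lit 173) (B (L (nat_lit 141) ln12_8_6_c10 ln12_8_6_c10_ok) (M (nat_lit 202) (B (L (nat_lit 201) ln9_6_2_c10 ln9_6_2_c10_ok) (M (nat_lit 234) (B (L (nat_lit 266) ln10_6_5_c10 ln10_6_5_c10_ok) (L (nat_lit 233) ln9_10_6_c10 ln9_10_6_c10_ok))))))))))))))))))))))))))))))))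
noncomputable def c10_d114 : Cert := (B (M (nat_lit 297) (B (K (nat_lit 5954262831162530206346786711761558612487766416690338025357703687189958503998528429288116024324991608994282721085570015708496848797231480832) (nat_lit 14080426540981611386870499259192214495952514936917227710438977009348416740614980066112746017546829824) (nat_lit 14080426540981611386870499259192214495952514936917227710438977009348416740614980066112746017546829824) c10_s16) (B (M (nat_lit 392) (B (M (nat_lit 424) (B (L (nat_lit 423) ln11_12_1 ln11_12_1_ok) (M (nat_lit 360) (B (L (nat_lit 359) ln11_12_3 ln11_12_3_ok) (M (nat_lit 328) (B (M (nat_lit 296) (B (L (nat_lit 264) ln8_8_4_c10 ln8_8_4_c10_ok) (L (nat_lit 425) ln8_9_4_c10 ln8_9_4_c10_ok))) (B (M (nat_lit 425) (B (L (nat_lit 296) ln8_9_4_c10 ln8_9_4_c10_ok) (L (nat_lit 457) ln8_10_4_c10 ln8_10_4_c10_ok))) (B (M (nat_lit 457) (B (L (nat_lit 425) ln8_10_4_c10 ln8_10_4_c10_ok)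 (M (nat_lit 456) (B (L (nat_lit 489) ln8_11_4_c10 ln8_11_4_c10_ok) (L (nat_lit 488) ln8_15_6_c10 ln8_15_6_c10_ok))))) (M (nat_lit 295) (B (L (nat_lit 327) ln8_13_7_c10 ln8_13_7_c10_ok) (M (nat_lit 296) (B (L (nat_lit 263) ln8_12_7_c10 ln8_12_7_c10_ok) (L (nat_lit 264) ln8_8_4_c10 ln8_8_4_c10_ok))))))))))))) (B (M (nat_lit 360) (B (L (nat_lit 359) ln11_12_3 ln11_12_3_ok) (M (nat_lit 296) (B (M (nat_lit 265) (B (L (nat_lit 329) ln9_8_5_c10 ln9_8_5_c10_ok) (L (nat_lit 328) ln8_12_6_c10 ln8_12_6_c10_ok))) (B (M (nat_lit 329) (B (L (nat_lit 265) ln9_8_5_c10 ln9_8_5_c10_ok) (L (nat_lit 264) ln9_12_7_c10 ln9_12_7_c10_ok))) (B (M (nat_lit 328) (B (L (nat_lit 265) ln8_12_6_c10 ln8_12_6_c10_ok) (L (nat_lit 264) ln8_8_4_c10 ln8_8_4_c10_ok))) (M (nat_lit 264) (B (L (nat_lit 328) ln8_8_4_c10 ln8_8_4_c10_ok) (L (nat_lit 329) ln9_12_7_c10 ln9_12_7_c10_ok))))))))) (M (nat_lit 424) (B (L (nat_lit 423)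 ln11_12_1 ln11_12_1_ok) (L (nat_lit 329) ln9_9_5_c10 ln9_9_5_c10_ok)))))) (M (nat_lit 266) (B (L (nat_lit 331) ln11_12_7 ln11_12_7_ok) (L (nat_lit 329) ln9_12_6_c10 ln9_12_6_c10_ok)))))) (B (M (nat_lit 424) (B (M (nat_lit 297) (B (M (nat_lit 296) (B (M (nat_lit 327) (B (L (nat_lit 328) ln11_9_1 ln11_9_1_ok) (M (nat_lit 295) (B (L (nat_lit 326) ln10_9_1_c10 ln10_9_1_c10_ok) (M (nat_lit 263) (B (L (nat_lit 262) ln10_9_3_c10 ln10_9_3_c10_ok) (L (nat_lit 264) ln11_9_3 ln11_9_3_ok))))))) (B (M (nat_lit 295) (B (M (nat_lit 327) (B (L (nat_lit 326) ln10_9_1_c10 ln10_9_1_c10_ok) (L (nat_lit 328) ln11_9_1 ln11_9_1_ok))) (M (nat_lit 267) (B (L (nat_lit 266) ln7_9_2 ln7_9_2_ok) (L (nat_lit 268) ln8_9_2 ln8_9_2_ok))))) (B (M (nat_lit 295) (B (M (nat_lit 267) (B (L (nat_lit 268) ln8_9_2 ln8_9_2_ok) (L (nat_lit 266) ln7_9_2 ln7_9_2_ok))) (M (nat_lit 263) (B (L (nat_lit 264) ln11_9_3 ln11_9_3_ok) (L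 (nat_lit 262) ln10_9_3_c10 ln10_9_3_c10_ok))))) (M (nat_lit 267) (B (L (nat_lit 268) ln8_9_2 ln8_9_2_ok) (M (nat_lit 331) (B (L (nat_lit 332) ln8_9_0 ln8_9_0_ok) (M (nat_lit 264) (B (L (nat_lit 263) ln11_9_3 ln11_9_3_ok) (M (nat_lit 328) (B (L (nat_lit 327) ln11_9_1 ln11_9_1_ok) (M (nat_lit 235) (B (M (nat_lit 236) (B (L (nat_lit 204) ln11_10_6 ln11_10_6_ok) (M (nat_lit 265) (B (L (nat_lit 266) ln8_8_2_c10 ln8_8_2_c10_ok) (M (nat_lit 233) (B (L (nat_lit 201) ln9_6_5_c10 ln9_6_5_c10_ok) (L (nat_lit 234) ln12_7_1_c10 ln12_7_1_c10_ok))))))) (B (M (nat_lit 203) (B (M (nat_lit 204) (B (L (nat_lit 236) ln11_10_6 ln11_10_6_ok) (L (nat_lit 172) ln11_9_6_c10 ln11_9_6_c10_ok))) (M (nat_lit 170) (B (L (nat_lit 202) ln11_9_7_c10 ln11_9_7_c10_ok) (M (nat_lit 171) (B (L (nat_lit 266) ln11_5_5_c10 ln11_5_5_c10_ok) (L (nat_lit 138) ln11_8_7_c10 ln11_8_7_c10_ok))))))) (B (M (nat_lit 203) (B (M (nat_lit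 202) (B (L (nat_lit 234) ln11_10_7 ln11_10_7_ok) (L (nat_lit 170) ln11_9_7_c10 ln11_9_7_c10_ok))) (M (nat_lit 172) (B (L (nat_lit 204) ln11_9_6_c10 ln11_9_6_c10_ok) (M (nat_lit 171) (B (L (nat_lit 140) ln11_8_6_c10 ln11_8_6_c10_ok) (L (nat_lit 266) ln11_5_5_c10 ln11_5_5_c10_ok))))))) (B (M (nat_lit 204) (B (L (nat_lit 236) ln11_10_6 ln11_10_6_ok) (M (nat_lit 203) (B (L (nat_lit 172) ln11_9_6_c10 ln11_9_6_c10_ok) (M (nat_lit 202) (B (L (nat_lit 170) ln11_9_7_c10 ln11_9_7_c10_ok) (L (nat_lit 234) ln11_10_7 ln11_10_7_ok))))))) (M (nat_lit 202) (B (L (nat_lit 234) ln11_10_7 ln11_10_7_ok) (M (nat_lit 203) (B (L (nat_lit 170) ln11_9_7_c10 ln11_9_7_c10_ok) (M (nat_lit 171) (B (L (nat_lit 266) ln11_5_5_c10 ln11_5_5_c10_ok) (M (nat_lit 172) (B (L (nat_lit 140) ln11_8_6_c10 ln11_8_6_c10_ok) (M (nat_lit 201) (B (L (nat_lit 200) ln8_6_2_c10 ln8_6_2_c10_ok) (M (nat_lit 233) (B (L (nat_lit 265) ln9_6_5_c10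 ln9_6_5_c10_ok) (L (nat_lit 232) ln8_10_6_c10 ln8_10_6_c10_ok)))))))))))))))))))))))))))))) (M (nat_lit 392) (B (L (nat_lit 423) ln11_12_1 ln11_12_1_ok) (L (nat_lit 329) ln9_9_5_c10 ln9_9_5_c10_ok))))) (B (M (nat_lit 329) (B (M (nat_lit 266) (B (L (nat_lit 331) ln11_12_7 ln11_12_7_ok) (L (nat_lit 297) ln9_12_6_c10 ln9_12_6_c10_ok))) (M (nat_lit 425) (B (L (nat_lit 396) ln12_12_1 ln12_12_1_ok) (L (nat_lit 456) ln9_10_5_c10 ln9_10_5_c10_ok))))) (M (nat_lit 425) (B (M (nat_lit 423) (B (L (nat_lit 392) ln11_12_1 ln11_12_1_ok) (L (nat_lit 422) ln6_13_2_c10 ln6_13_2_c10_ok))) (L (nat_lit 396) ln12_12_1 ln12_12_1_ok)))))) (B (M (nat_lit 297) (B (K (nat_lit 5954262831162530206346786711761558612487766416690338025357703687189958503998528429288116024324991608994282721085570015708496848797231480832) (nat_lit 14080426540981611386870499259192214495952514936917227710438977009348416740614980066112746017546829824)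 (nat_lit 14080426540981611386870499259192214495952514936917227710438977009348416740614980066112746017546829824) c10_s16) (B (M (nat_lit 296) (B (M (nat_lit 268) (B (L (nat_lit 267) ln8_9_2 ln8_9_2_ok) (M (nat_lit 295) (B (M (nat_lit 263) (B (L (nat_lit 262) ln10_9_3_c10 ln10_9_3_c10_ok) (L (nat_lit 264) ln11_9_3 ln11_9_3_ok))) (M (nat_lit 327) (B (L (nat_lit 326) ln10_9_1_c10 ln10_9_1_c10_ok) (L (nat_lit 328) ln11_9_1 ln11_9_1_ok))))))) (B (M (nat_lit 425) (B (M (nat_lit 396) (B (L (nat_lit 360) ln12_12_3 ln12_12_3_ok) (L (nat_lit 424) ln12_12_1 ln12_12_1_ok))) (M (nat_lit 328) (B (L (nat_lit 329) ln9_13_7_c10 ln9_13_7_c10_ok) (L (nat_lit 327) ln11_9_1 ln11_9_1_ok))))) (M (nat_lit 264) (B (L (nat_lit 329) ln9_12_7_c10 ln9_12_7_c10_ok) (L (nat_lit 263) ln11_9_3 ln11_9_3_ok)))))) (M (nat_lit 266) (B (L (nat_lit 331) ln11_12_7 ln11_12_7_ok) (L (nat_lit 329) ln9_12_6_c10 ln9_12_6_c10_ok))))))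 (M (nat_lit 360) (B (M (nat_lit 359) (B (L (nat_lit 392) ln11_12_3 ln11_12_3_ok) (L (nat_lit 358) ln6_11_0_c10 ln6_11_0_c10_ok))) (L (nat_lit 396) ln12_12_3 ln12_12_3_ok))))))
noncomputable def c10_d115 : Cert := (B (M (nat_lit 266) (B (M (nat_lit 300) (B (M (nat_lit 265) (B (L (nat_lit 301) ln13_9_3 ln13_9_3_ok) (M (nat_lit 264) (B (L (nat_lit 263) ln7_8_0_c10 ln7_8_0_c10_ok) (L (nat_lit 267) ln8_8_0_c10 ln8_8_0_c10_ok))))) (B (M (nat_lit 265) (B (L (nat_lit 301) ln13_9_3 ln13_9_3_ok) (M (nat_lit 264) (B (L (nat_lit 297) ln12_9_3 ln12_9_3_ok) (L (nat_lit 267) ln8_8_0_c10 ln8_8_0_c10_ok))))) (B (M (nat_lit 301) (B (L (nat_lit 265) ln13_9_3 ln13_9_3_ok) (M (nat_lit 302) (B (L (nat_lit 267) ln14_9_3 ln14_9_3_ok) (M (nat_lit 334) (B (L (nat_lit 333) ln10_9_0 ln10_9_0_ok) (L (nat_lit 335) ln11_9_0_c10 ln11_9_0_c10_ok))))))) (B (M (nat_lit 301) (B (M (nat_lit 302) (B (L (nat_lit 267) ln14_9_3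 ln14_9_3_ok) (M (nat_lit 334) (B (L (nat_lit 333) ln10_9_0 ln10_9_0_ok) (L (nat_lit 335) ln11_9_0_c10 ln11_9_0_c10_ok))))) (B (M (nat_lit 302) (B (M (nat_lit 334) (B (L (nat_lit 333) ln10_9_0 ln10_9_0_ok) (L (nat_lit 335) ln11_9_0_c10 ln11_9_0_c10_ok))) (M (nat_lit 270) (B (L (nat_lit 269) ln10_9_2 ln10_9_2_ok) (L (nat_lit 271) ln11_9_2 ln11_9_2_ok))))) (B (M (nat_lit 302) (B (L (nat_lit 267) ln14_9_3 ln14_9_3_ok) (M (nat_lit 270) (B (L (nat_lit 269) ln10_9_2 ln10_9_2_ok) (L (nat_lit 271) ln11_9_2 ln11_9_2_ok))))) (M (nat_lit 297) (B (M (nat_lit 333) (B (L (nat_lit 332) ln9_9_0 ln9_9_0_ok) (L (nat_lit 334) ln10_9_0 ln10_9_0_ok))) (M (nat_lit 296) (B (M (nat_lit 328) (B (L (nat_lit 327) ln11_9_1 ln11_9_1_ok) (L (nat_lit 329) ln12_9_1 ln12_9_1_ok))) (M (nat_lit 295) (B (L (nat_lit 267) ln7_9_2 ln7_9_2_ok) (M (nat_lit 263) (B (L (nat_lit 262) ln10_9_3_c10 ln10_9_3_c10_ok) (L (nat_lit 264)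 ln11_9_3 ln11_9_3_ok))))))))))))) (B (M (nat_lit 265) (B (L (nat_lit 301) ln13_9_3 ln13_9_3_ok) (M (nat_lit 264) (B (L (nat_lit 263) ln7_8_0_c10 ln7_8_0_c10_ok) (L (nat_lit 297) ln12_9_3 ln12_9_3_ok))))) (M (nat_lit 297) (B (M (nat_lit 264) (B (L (nat_lit 265) ln12_9_3 ln12_9_3_ok) (M (nat_lit 296) (B (L (nat_lit 263) ln11_9_3 ln11_9_3_ok) (M (nat_lit 328) (B (L (nat_lit 327) ln11_9_1 ln11_9_1_ok) (L (nat_lit 329) ln12_9_1 ln12_9_1_ok))))))) (B (M (nat_lit 265) (B (L (nat_lit 264) ln12_9_3 ln12_9_3_ok) (M (nat_lit 329) (B (L (nat_lit 328) ln12_9_1 ln12_9_1_ok) (M (nat_lit 234) (B (L (nat_lit 361) ln9_11_6_c10 ln9_11_6_c10_ok) (L (nat_lit 202) ln10_6_5_c10 ln10_6_5_c10_ok))))))) (B (M (nat_lit 296) (B (M (nat_lit 264) (B (L (nat_lit 263) ln11_9_3 ln11_9_3_ok) (L (nat_lit 265) ln12_9_3 ln12_9_3_ok))) (B (M (nat_lit 265) (B (L (nat_lit 264) ln12_9_3 ln12_9_3_ok) (M (nat_lit 295) (B (L (nat_lit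 294) ln6_9_2_c10 ln6_9_2_c10_ok) (L (nat_lit 267) ln7_9_2 ln7_9_2_ok))))) (B (M (nat_lit 295) (B (L (nat_lit 267) ln7_9_2 ln7_9_2_ok) (M (nat_lit 294) (B (L (nat_lit 265) ln6_9_2_c10 ln6_9_2_c10_ok) (M (nat_lit 326) (B (L (nat_lit 325) ln9_9_1_c10 ln9_9_1_c10_ok) (L (nat_lit 327) ln10_9_1_c10 ln10_9_1_c10_ok))))))) (M (nat_lit 295) (B (L (nat_lit 267) ln7_9_2 ln7_9_2_ok) (M (nat_lit 263) (B (L (nat_lit 262) ln10_9_3_c10 ln10_9_3_c10_ok) (L (nat_lit 264) ln11_9_3 ln11_9_3_ok))))))))) (B (M (nat_lit 296) (B (M (nat_lit 328) (B (L (nat_lit 327) ln11_9_1 ln11_9_1_ok) (L (nat_lit 329) ln12_9_1 ln12_9_1_ok))) (M (nat_lit 295) (B (L (nat_lit 267) ln7_9_2 ln7_9_2_ok) (M (nat_lit 294) (B (L (nat_lit 265) ln6_9_2_c10 ln6_9_2_c10_ok) (M (nat_lit 262) (B (L (nat_lit 261) ln9_9_3_c10 ln9_9_3_c10_ok) (L (nat_lit 263) ln10_9_3_c10 ln10_9_3_c10_ok))))))))) (M (nat_lit 296) (B (M (nat_lit 328) (B (L (nat_lit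 327) ln11_9_1 ln11_9_1_ok) (L (nat_lit 329) ln12_9_1 ln12_9_1_ok))) (M (nat_lit 295) (B (L (nat_lit 267) ln7_9_2 ln7_9_2_ok) (M (nat_lit 263) (B (L (nat_lit 262) ln10_9_3_c10 ln10_9_3_c10_ok) (L (nat_lit 264) ln11_9_3 ln11_9_3_ok)))))))))))))))))) (L (nat_lit 331) ln11_12_7 ln11_12_7_ok))) (B (M (nat_lit 300) (B (M (nat_lit 332) (B (L (nat_lit 331) ln11_13_6 ln11_13_6_ok) (M (nat_lit 333) (B (L (nat_lit 297) ln9_9_0 ln9_9_0_ok) (M (nat_lit 334) (B (L (nat_lit 335) ln15_10_3 ln15_10_3_ok) (L (nat_lit 301) ln10_9_0 ln10_9_0_ok))))))) (B (M (nat_lit 331) (B (L (nat_lit 268) ln11_12_6 ln11_12_6_ok) (L (nat_lit 332) ln11_13_6 ln11_13_6_ok))) (B (M (nat_lit 268) (B (L (nat_lit 331) ln11_12_6 ln11_12_6_ok) (M (nat_lit 269) (B (L (nat_lit 297) ln9_9_2 ln9_9_2_ok) (M (nat_lit 270) (B (L (nat_lit 301) ln10_9_2 ln10_9_2_ok) (L (nat_lit 267) ln14_8_1_c10 ln14_8_1_c10_ok))))))) (M (nat_lit 297) (B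 (M (nat_lit 333) (B (L (nat_lit 332) ln9_9_0 ln9_9_0_ok) (M (nat_lit 301) (B (L (nat_lit 334) ln10_9_0 ln10_9_0_ok) (M (nat_lit 269) (B (L (nat_lit 270) ln10_9_2 ln10_9_2_ok) (L (nat_lit 268) ln9_9_2 ln9_9_2_ok))))))) (M (nat_lit 328) (B (L (nat_lit 329) ln12_9_1 ln12_9_1_ok) (M (nat_lit 296) (B (L (nat_lit 327) ln11_9_1 ln11_9_1_ok) (M (nat_lit 264) (B (L (nat_lit 265) ln12_9_3 ln12_9_3_ok) (L (nat_lit 263) ln11_9_3 ln11_9_3_ok))))))))))))) (B (M (nat_lit 300) (B (M (nat_lit 331) (B (L (nat_lit 266) ln11_12_7 ln11_12_7_ok) (L (nat_lit 268) ln11_12_6 ln11_12_6_ok))) (B (M (nat_lit 297) (B (M (nat_lit 296) (B (M (nat_lit 328) (B (L (nat_lit 327) ln11_9_1 ln11_9_1_ok) (L (nat_lit 329) ln12_9_1 ln12_9_1_ok))) (M (nat_lit 268) (B (L (nat_lit 267) ln8_9_2 ln8_9_2_ok) (L (nat_lit 269) ln9_9_2 ln9_9_2_ok))))) (B (M (nat_lit 296) (B (M (nat_lit 264) (B (L (nat_lit 263) ln11_9_3 ln11_9_3_ok) (L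 (nat_lit 265) ln12_9_3 ln12_9_3_ok))) (M (nat_lit 268) (B (L (nat_lit 267) ln8_9_2 ln8_9_2_ok) (L (nat_lit 269) ln9_9_2 ln9_9_2_ok))))) (B (M (nat_lit 301) (B (M (nat_lit 265) (B (L (nat_lit 264) ln12_9_3 ln12_9_3_ok) (L (nat_lit 266) ln13_9_3 ln13_9_3_ok))) (M (nat_lit 269) (B (L (nat_lit 268) ln9_9_2 ln9_9_2_ok) (L (nat_lit 270) ln10_9_2 ln10_9_2_ok))))) (M (nat_lit 296) (B (M (nat_lit 328) (B (L (nat_lit 327) ln11_9_1 ln11_9_1_ok) (L (nat_lit 329) ln12_9_1 ln12_9_1_ok))) (M (nat_lit 264) (B (L (nat_lit 263) ln11_9_3 ln11_9_3_ok) (L (nat_lit 265) ln12_9_3 ln12_9_3_ok))))))))) (B (M (nat_lit 268) (B (L (nat_lit 331) ln11_12_6 ln11_12_6_ok) (M (nat_lit 269) (B (L (nat_lit 297) ln9_9_2 ln9_9_2_ok) (M (nat_lit 270) (B (L (nat_lit 301) ln10_9_2 ln10_9_2_ok) (L (nat_lit 267) ln14_8_1_c10 ln14_8_1_c10_ok))))))) (M (nat_lit 266) (B (L (nat_lit 331) ln11_12_7 ln11_12_7_ok) (M (nat_lit 265) (B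 (L (nat_lit 301) ln13_9_3 ln13_9_3_ok) (M (nat_lit 264) (B (L (nat_lit 297) ln12_9_3 ln12_9_3_ok) (L (nat_lit 263) ln7_8_0_c10 ln7_8_0_c10_ok))))))))))) (M (nat_lit 331) (B (M (nat_lit 300) (B (L (nat_lit 332) ln11_13_6 ln11_13_6_ok) (L (nat_lit 268) ln11_12_6 ln11_12_6_ok))) (L (nat_lit 266) ln11_12_7 ln11_12_7_ok))))))
noncomputable def c10_d116 : Cert := (B (M (nat_lit 299) (B (M (nat_lit 300) (B (M (nat_lit 297) (B (M (nat_lit 333) (B (L (nat_lit 332) ln9_9_0 ln9_9_0_ok) (M (nat_lit 301) (B (L (nat_lit 334) ln10_9_0 ln10_9_0_ok) (M (nat_lit 269) (B (L (nat_lit 270) ln10_9_2 ln10_9_2_ok) (L (nat_lit 268) ln9_9_2 ln9_9_2_ok))))))) (M (nat_lit 328) (B (L (nat_lit 329) ln12_9_1 ln12_9_1_ok) (M (nat_lit 296) (B (L (nat_lit 327) ln11_9_1 ln11_9_1_ok) (M (nat_lit 264) (B (L (nat_lit 265) ln12_9_3 ln12_9_3_ok) (L (nat_lit 263) ln11_9_3 ln11_9_3_ok))))))))) (B (M (nat_lit 297) (B (M (nat_lit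 301) (B (M (nat_lit 333) (B (L (nat_lit 334) ln10_9_0 ln10_9_0_ok) (L (nat_lit 332) ln9_9_0 ln9_9_0_ok))) (M (nat_lit 265) (B (L (nat_lit 266) ln13_9_3 ln13_9_3_ok) (L (nat_lit 264) ln12_9_3 ln12_9_3_ok))))) (M (nat_lit 296) (B (M (nat_lit 268) (B (L (nat_lit 269) ln9_9_2 ln9_9_2_ok) (L (nat_lit 267) ln8_9_2 ln8_9_2_ok))) (M (nat_lit 328) (B (L (nat_lit 329) ln12_9_1 ln12_9_1_ok) (L (nat_lit 327) ln11_9_1 ln11_9_1_ok))))))) (B (M (nat_lit 301) (B (M (nat_lit 334) (B (L (nat_lit 333) ln10_9_0 ln10_9_0_ok) (M (nat_lit 302) (B (L (nat_lit 335) ln11_9_0_c10 ln11_9_0_c10_ok) (M (nat_lit 270) (B (L (nat_lit 269) ln10_9_2 ln10_9_2_ok) (L (nat_lit 271) ln11_9_2 ln11_9_2_ok))))))) (B (M (nat_lit 302) (B (M (nat_lit 266) (B (L (nat_lit 265) ln13_9_3 ln13_9_3_ok) (L (nat_lit 267) ln14_9_3 ln14_9_3_ok))) (M (nat_lit 270) (B (L (nat_lit 269) ln10_9_2 ln10_9_2_ok) (L (nat_lit 271) ln11_9_2 ln11_9_2_ok)))))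 (B (M (nat_lit 302) (B (M (nat_lit 266) (B (L (nat_lit 265) ln13_9_3 ln13_9_3_ok) (L (nat_lit 267) ln14_9_3 ln14_9_3_ok))) (M (nat_lit 334) (B (L (nat_lit 333) ln10_9_0 ln10_9_0_ok) (L (nat_lit 335) ln11_9_0_c10 ln11_9_0_c10_ok))))) (M (nat_lit 297) (B (M (nat_lit 265) (B (L (nat_lit 264) ln12_9_3 ln12_9_3_ok) (L (nat_lit 266) ln13_9_3 ln13_9_3_ok))) (M (nat_lit 333) (B (L (nat_lit 332) ln9_9_0 ln9_9_0_ok) (L (nat_lit 334) ln10_9_0 ln10_9_0_ok))))))))) (B (M (nat_lit 301) (B (M (nat_lit 302) (B (M (nat_lit 266) (B (L (nat_lit 265) ln13_9_3 ln13_9_3_ok) (L (nat_lit 267) ln14_9_3 ln14_9_3_ok))) (M (nat_lit 334) (B (L (nat_lit 333) ln10_9_0 ln10_9_0_ok) (L (nat_lit 335) ln11_9_0_c10 ln11_9_0_c10_ok))))) (B (M (nat_lit 270) (B (L (nat_lit 269) ln10_9_2 ln10_9_2_ok) (M (nat_lit 302) (B (L (nat_lit 271) ln11_9_2 ln11_9_2_ok) (M (nat_lit 334) (B (L (nat_lit 333) ln10_9_0 ln10_9_0_ok) (L (nat_lit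 335) ln11_9_0_c10 ln11_9_0_c10_ok))))))) (B (M (nat_lit 302) (B (M (nat_lit 266) (B (L (nat_lit 265) ln13_9_3 ln13_9_3_ok) (L (nat_lit 267) ln14_9_3 ln14_9_3_ok))) (M (nat_lit 270) (B (L (nat_lit 269) ln10_9_2 ln10_9_2_ok) (L (nat_lit 271) ln11_9_2 ln11_9_2_ok))))) (M (nat_lit 297) (B (M (nat_lit 265) (B (L (nat_lit 264) ln12_9_3 ln12_9_3_ok) (L (nat_lit 266) ln13_9_3 ln13_9_3_ok))) (M (nat_lit 269) (B (L (nat_lit 268) ln9_9_2 ln9_9_2_ok) (L (nat_lit 270) ln10_9_2 ln10_9_2_ok))))))))) (B (M (nat_lit 297) (B (M (nat_lit 296) (B (M (nat_lit 268) (B (L (nat_lit 269) ln9_9_2 ln9_9_2_ok) (L (nat_lit 267) ln8_9_2 ln8_9_2_ok))) (M (nat_lit 328) (B (L (nat_lit 329) ln12_9_1 ln12_9_1_ok) (L (nat_lit 327) ln11_9_1 ln11_9_1_ok))))) (B (M (nat_lit 264) (B (L (nat_lit 265) ln12_9_3 ln12_9_3_ok) (M (nat_lit 296) (B (L (nat_lit 263) ln11_9_3 ln11_9_3_ok) (M (nat_lit 328) (B (L (nat_lit 329) ln12_9_1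 ln12_9_1_ok) (L (nat_lit 327) ln11_9_1 ln11_9_1_ok))))))) (B (M (nat_lit 296) (B (M (nat_lit 268) (B (L (nat_lit 269) ln9_9_2 ln9_9_2_ok) (L (nat_lit 267) ln8_9_2 ln8_9_2_ok))) (M (nat_lit 264) (B (L (nat_lit 265) ln12_9_3 ln12_9_3_ok) (L (nat_lit 263) ln11_9_3 ln11_9_3_ok))))) (M (nat_lit 301) (B (M (nat_lit 269) (B (L (nat_lit 270) ln10_9_2 ln10_9_2_ok) (L (nat_lit 268) ln9_9_2 ln9_9_2_ok))) (M (nat_lit 265) (B (L (nat_lit 266) ln13_9_3 ln13_9_3_ok) (L (nat_lit 264) ln12_9_3 ln12_9_3_ok))))))))) (B (M (nat_lit 297) (B (M (nat_lit 296) (B (M (nat_lit 328) (B (L (nat_lit 327) ln11_9_1 ln11_9_1_ok) (L (nat_lit 329) ln12_9_1 ln12_9_1_ok))) (M (nat_lit 264) (B (L (nat_lit 263) ln11_9_3 ln11_9_3_ok) (L (nat_lit 265) ln12_9_3 ln12_9_3_ok))))) (B (M (nat_lit 301) (B (M (nat_lit 265) (B (L (nat_lit 264) ln12_9_3 ln12_9_3_ok) (L (nat_lit 266) ln13_9_3 ln13_9_3_ok))) (M (nat_lit 333) (B (L (nat_lit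 332) ln9_9_0 ln9_9_0_ok) (L (nat_lit 334) ln10_9_0 ln10_9_0_ok))))) (B (M (nat_lit 266) (B (M (nat_lit 333) (B (L (nat_lit 332) ln9_9_0 ln9_9_0_ok) (M (nat_lit 301) (B (L (nat_lit 265) ln13_9_3 ln13_9_3_ok) (L (nat_lit 334) ln10_9_0 ln10_9_0_ok))))) (M (nat_lit 296) (B (M (nat_lit 328) (B (L (nat_lit 327) ln11_9_1 ln11_9_1_ok) (L (nat_lit 329) ln12_9_1 ln12_9_1_ok))) (M (nat_lit 267) (B (L (nat_lit 295) ln7_9_2 ln7_9_2_ok) (L (nat_lit 268) ln8_9_2 ln8_9_2_ok))))))) (M (nat_lit 296) (B (M (nat_lit 328) (B (L (nat_lit 327) ln11_9_1 ln11_9_1_ok) (L (nat_lit 329) ln12_9_1 ln12_9_1_ok))) (M (nat_lit 295) (B (M (nat_lit 263) (B (L (nat_lit 262) ln10_9_3_c10 ln10_9_3_c10_ok) (L (nat_lit 264) ln11_9_3 ln11_9_3_ok))) (M (nat_lit 267) (B (L (nat_lit 266) ln7_9_2 ln7_9_2_ok) (L (nat_lit 268) ln8_9_2 ln8_9_2_ok))))))))))) (B (M (nat_lit 301) (B (M (nat_lit 302) (B (M (nat_lit 266) (B (L (nat_lit 265)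 ln13_9_3 ln13_9_3_ok) (L (nat_lit 267) ln14_9_3 ln14_9_3_ok))) (M (nat_lit 270) (B (L (nat_lit 269) ln10_9_2 ln10_9_2_ok) (L (nat_lit 271) ln11_9_2 ln11_9_2_ok))))) (B (M (nat_lit 302) (B (M (nat_lit 270) (B (L (nat_lit 269) ln10_9_2 ln10_9_2_ok) (L (nat_lit 271) ln11_9_2 ln11_9_2_ok))) (M (nat_lit 334) (B (L (nat_lit 333) ln10_9_0 ln10_9_0_ok) (L (nat_lit 335) ln11_9_0_c10 ln11_9_0_c10_ok))))) (B (M (nat_lit 302) (B (M (nat_lit 266) (B (L (nat_lit 265) ln13_9_3 ln13_9_3_ok) (L (nat_lit 267) ln14_9_3 ln14_9_3_ok))) (M (nat_lit 334) (B (L (nat_lit 333) ln10_9_0 ln10_9_0_ok) (L (nat_lit 335) ln11_9_0_c10 ln11_9_0_c10_ok))))) (M (nat_lit 297) (B (M (nat_lit 269) (B (L (nat_lit 268) ln9_9_2 ln9_9_2_ok) (L (nat_lit 270) ln10_9_2 ln10_9_2_ok))) (M (nat_lit 333) (B (L (nat_lit 332) ln9_9_0 ln9_9_0_ok) (L (nat_lit 334) ln10_9_0 ln10_9_0_ok))))))))) c10_d113)))))))) (B (M (nat_lit 361) c10_d114)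 c10_d115))) (B (M (nat_lit 361) (B (M (nat_lit 329) (B (M (nat_lit 297) (B (M (nat_lit 299) (B (M (nat_lit 328) (B (L (nat_lit 300) ln12_9_1 ln12_9_1_ok) (M (nat_lit 327) (B (L (nat_lit 326) ln6_10_2_c10 ln6_10_2_c10_ok) (L (nat_lit 330) ln7_10_2_c10 ln7_10_2_c10_ok))))) (B (M (nat_lit 328) (B (L (nat_lit 300) ln12_9_1 ln12_9_1_ok) (M (nat_lit 327) (B (L (nat_lit 296) ln11_9_1 ln11_9_1_ok) (L (nat_lit 330) ln7_10_2_c10 ln7_10_2_c10_ok))))) (B (M (nat_lit 300) (B (L (nat_lit 328) ln12_9_1 ln12_9_1_ok) (M (nat_lit 301) (B (L (nat_lit 330) ln13_9_1 ln13_9_1_ok) (M (nat_lit 269) (B (L (nat_lit 268) ln9_9_2 ln9_9_2_ok) (L (nat_lit 270) ln10_9_2 ln10_9_2_ok))))))) (B (M (nat_lit 300) (B (M (nat_lit 301) (B (L (nat_lit 330) ln13_9_1 ln13_9_1_ok) (M (nat_lit 269) (B (L (nat_lit 268) ln9_9_2 ln9_9_2_ok) (L (nat_lit 270) ln10_9_2 ln10_9_2_ok))))) (B (M (nat_lit 296) (B (L (nat_lit 264) ln9_12_7_c10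 ln9_12_7_c10_ok) (M (nat_lit 268) (B (L (nat_lit 267) ln8_9_2 ln8_9_2_ok) (L (nat_lit 269) ln9_9_2 ln9_9_2_ok))))) (M (nat_lit 301) (B (L (nat_lit 330) ln13_9_1 ln13_9_1_ok) (M (nat_lit 333) (B (L (nat_lit 332) ln9_9_0 ln9_9_0_ok) (L (nat_lit 334) ln10_9_0 ln10_9_0_ok)))))))) (B (M (nat_lit 328) (B (L (nat_lit 300) ln12_9_1 ln12_9_1_ok) (M (nat_lit 327) (B (L (nat_lit 326) ln6_10_2_c10 ln6_10_2_c10_ok) (L (nat_lit 296) ln11_9_1 ln11_9_1_ok))))) (M (nat_lit 296) (B (M (nat_lit 328) (B (L (nat_lit 327) ln11_9_1 ln11_9_1_ok) (L (nat_lit 264) ln9_12_7_c10 ln9_12_7_c10_ok))) (B (M (nat_lit 295) (B (M (nat_lit 327) (B (L (nat_lit 326) ln10_9_1_c10 ln10_9_1_c10_ok) (L (nat_lit 328) ln11_9_1 ln11_9_1_ok))) (B (M (nat_lit 328) (B (L (nat_lit 327) ln11_9_1 ln11_9_1_ok) (M (nat_lit 294) (B (L (nat_lit 293) ln5_9_0_c10 ln5_9_0_c10_ok) (L (nat_lit 330) ln6_9_0_c10 ln6_9_0_c10_ok))))) (B (M (nat_lit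 294) (B (L (nat_lit 330) ln6_9_0_c10 ln6_9_0_c10_ok) (M (nat_lit 293) (B (L (nat_lit 328) ln5_9_0_c10 ln5_9_0_c10_ok) (M (nat_lit 325) (B (L (nat_lit 324) ln8_9_1_c10 ln8_9_1_c10_ok) (L (nat_lit 326) ln9_9_1_c10 ln9_9_1_c10_ok))))))) (M (nat_lit 294) (B (L (nat_lit 330) ln6_9_0_c10 ln6_9_0_c10_ok) (M (nat_lit 326) (B (L (nat_lit 325) ln9_9_1_c10 ln9_9_1_c10_ok) (L (nat_lit 327) ln10_9_1_c10 ln10_9_1_c10_ok))))))))) (L (nat_lit 264) ln9_12_7_c10 ln9_12_7_c10_ok)))))))))) (L (nat_lit 266) ln9_12_6_c10 ln9_12_6_c10_ok))) (B (M (nat_lit 297) (B (L (nat_lit 266) ln9_12_6_c10 ln9_12_6_c10_ok) (M (nat_lit 296) (B (L (nat_lit 264) ln9_12_7_c10 ln9_12_7_c10_ok) (M (nat_lit 328) (B (L (nat_lit 425) ln9_13_7_c10 ln9_13_7_c10_ok) (M (nat_lit 327) (B (L (nat_lit 299) ln11_9_1 ln11_9_1_ok) (L (nat_lit 326) ln6_10_2_c10 ln6_10_2_c10_ok))))))))) (M (nat_lit 425) (B (M (nat_lit 424) (B (L (nat_lit 396)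 ln12_12_1 ln12_12_1_ok) (L (nat_lit 456) ln9_10_5_c10 ln9_10_5_c10_ok))) (L (nat_lit 330) ln9_13_6_c10 ln9_13_6_c10_ok)))))) (B (M (nat_lit 329) (B (M (nat_lit 297) (B (L (nat_lit 266) ln9_12_6_c10 ln9_12_6_c10_ok) (M (nat_lit 265) (B (M (nat_lit 392) (B (L (nat_lit 360) ln9_8_5_c10 ln9_8_5_c10_ok) (L (nat_lit 424) ln9_9_5_c10 ln9_9_5_c10_ok))) (M (nat_lit 233) (B (M (nat_lit 232) (B (L (nat_lit 200) ln9_10_7_c10 ln9_10_7_c10_ok) (L (nat_lit 264) ln9_11_7_c10 ln9_11_7_c10_ok))) (M (nat_lit 202) (B (L (nat_lit 234) ln9_10_6_c10 ln9_10_6_c10_ok) (M (nat_lit 201) (B (L (nat_lit 170) ln9_9_6_c10 ln9_9_6_c10_ok) (L (nat_lit 330) ln9_6_4_c10 ln9_6_4_c10_ok))))))))))) (B (M (nat_lit 297) (B (L (nat_lit 266) ln9_12_6_c10 ln9_12_6_c10_ok) (M (nat_lit 296) (B (L (nat_lit 264) ln9_12_7_c10 ln9_12_7_c10_ok) (M (nat_lit 328) (B (L (nat_lit 425) ln9_13_7_c10 ln9_13_7_c10_ok) (M (nat_lit 327) (B (L (nat_lit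 299) ln11_9_1 ln11_9_1_ok) (L (nat_lit 326) ln6_10_2_c10 ln6_10_2_c10_ok))))))))) (M (nat_lit 425) (B (L (nat_lit 330) ln9_13_6_c10 ln9_13_6_c10_ok) (M (nat_lit 457) (B (M (nat_lit 328) (B (L (nat_lit 296) ln9_13_7_c10 ln9_13_7_c10_ok) (L (nat_lit 360) ln9_14_7_c10 ln9_14_7_c10_ok))) (M (nat_lit 456) (B (L (nat_lit 424) ln9_10_5_c10 ln9_10_5_c10_ok) (L (nat_lit 488) ln9_11_5_c10 ln9_11_5_c10_ok)))))))))) (M (nat_lit 360) (B (M (nat_lit 359) (B (L (nat_lit 392) ln11_12_3 ln11_12_3_ok) (L (nat_lit 358) ln6_11_0_c10 ln6_11_0_c10_ok))) (L (nat_lit 396) ln12_12_3 ln12_12_3_ok)))))) (B (M (nat_lit 425) (B (M (nat_lit 361) (B (M (nat_lit 457) (B (M (nat_lit 360) (B (L (nat_lit 328) ln9_14_7_c10 ln9_14_7_c10_ok) (M (nat_lit 392) (B (L (nat_lit 359) ln11_12_3 ln11_12_3_ok) (L (nat_lit 489) ln9_15_7 ln9_15_7_ok))))) (B (M (nat_lit 360) (B (L (nat_lit 328) ln9_14_7_c10 ln9_14_7_c10_ok) (M (nat_lit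 359) (B (L (nat_lit 392) ln11_12_3 ln11_12_3_ok) (L (nat_lit 358) ln6_11_0_c10 ln6_11_0_c10_ok))))) (M (nat_lit 489) (B (M (nat_lit 490) (B (L (nat_lit 522) ln9_12_4 ln9_12_4_ok) (L (nat_lit 458) ln9_11_4 ln9_11_4_ok))) (M (nat_lit 488) (B (L (nat_lit 520) ln9_12_5_c10 ln9_12_5_c10_ok) (L (nat_lit 456) ln9_11_5_c10 ln9_11_5_c10_ok)))))))) (M (nat_lit 330) (B (L (nat_lit 331) ln11_13_7 ln11_13_7_ok) (L (nat_lit 329) ln9_13_6_c10 ln9_13_6_c10_ok))))) (B (M (nat_lit 361) (B (M (nat_lit 330) (B (L (nat_lit 331) ln11_13_7 ln11_13_7_ok) (L (nat_lit 329) ln9_13_6_c10 ln9_13_6_c10_ok))) (M (nat_lit 396) (B (L (nat_lit 360) ln12_12_3 ln12_12_3_ok) (L (nat_lit 424) ln12_12_1 ln12_12_1_ok))))) (M (nat_lit 424) (B (M (nat_lit 423) (B (L (nat_lit 392) ln11_12_1 ln11_12_1_ok) (L (nat_lit 422) ln6_13_2_c10 ln6_13_2_c10_ok))) (L (nat_lit 396) ln12_12_1 ln12_12_1_ok)))))) (M (nat_lit 331) (B (M (nat_lit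 299) (B (M (nat_lit 300) (B (L (nat_lit 332) ln11_13_6 ln11_13_6_ok) (L (nat_lit 268) ln11_12_6 ln11_12_6_ok))) (L (nat_lit 266) ln11_12_7 ln11_12_7_ok))) (L (nat_lit 330) ln11_13_7 ln11_13_7_ok))))))
noncomputable def c10_d117 : Cert := (B (M (nat_lit 199) (B (M (nat_lit 167) (B (L (nat_lit 200) ln8_9_7_c10 ln8_9_7_c10_ok) (M (nat_lit 231) (B (L (nat_lit 263) ln7_5_4_c10 ln7_5_4_c10_ok) (L (nat_lit 328) ln8_10_7_c10 ln8_10_7_c10_ok))))) (B (M (nat_lit 233) (B (M (nat_lit 328) (B (L (nat_lit 231) ln8_10_7_c10 ln8_10_7_c10_ok) (L (nat_lit 201) ln8_10_6_c10 ln8_10_6_c10_ok))) (B (M (nat_lit 201) (B (L (nat_lit 328) ln8_10_6_c10 ln8_10_6_c10_ok) (M (nat_lit 169) (B (L (nat_lit 200) ln8_9_6_c10 ln8_9_6_c10_ok) (L (nat_lit 137) ln9_4_5_c10 ln9_4_5_c10_ok))))) (B (M (nat_lit 234) (B (M (nat_lit 235) (B (L (nat_lit 200) ln11_7_3_c10 ln11_7_3_c10_ok) (L (nat_lit 263) ln11_7_1_c10 ln11_7_1_c10_ok)))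 (B (M (nat_lit 198) (B (L (nat_lit 231) ln10_7_3_c10 ln10_7_3_c10_ok) (M (nat_lit 200) (B (L (nat_lit 197) ln5_6_0_c10 ln5_6_0_c10_ok) (L (nat_lit 235) ln11_7_3_c10 ln11_7_3_c10_ok))))) (B (M (nat_lit 231) (B (L (nat_lit 198) ln10_7_3_c10 ln10_7_3_c10_ok) (M (nat_lit 263) (B (L (nat_lit 262) ln10_7_1_c10 ln10_7_1_c10_ok) (L (nat_lit 235) ln11_7_1_c10 ln11_7_1_c10_ok))))) (M (nat_lit 198) (B (L (nat_lit 231) ln10_7_3_c10 ln10_7_3_c10_ok) (M (nat_lit 200) (B (L (nat_lit 197) ln5_6_0_c10 ln5_6_0_c10_ok) (L (nat_lit 201) ln6_6_0_c10 ln6_6_0_c10_ok))))))))) (M (nat_lit 234) (B (M (nat_lit 231) (B (L (nat_lit 198) ln10_7_3_c10 ln10_7_3_c10_ok) (L (nat_lit 328) ln8_10_7_c10 ln8_10_7_c10_ok))) (M (nat_lit 235) (B (L (nat_lit 200) ln11_7_3_c10 ln11_7_3_c10_ok) (L (nat_lit 263) ln11_7_1_c10 ln11_7_1_c10_ok))))))))) (B (M (nat_lit 200) (B (L (nat_lit 167) ln8_9_7_c10 ln8_9_7_c10_ok) (M (nat_lit 201)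 (B (L (nat_lit 169) ln8_9_6_c10 ln8_9_6_c10_ok) (M (nat_lit 233) (B (L (nat_lit 328) ln8_10_6_c10 ln8_10_6_c10_ok) (M (nat_lit 234) (B (L (nat_lit 198) ln6_6_0_c10 ln6_6_0_c10_ok) (L (nat_lit 235) ln11_7_3_c10 ln11_7_3_c10_ok))))))))) (B (M (nat_lit 231) (B (L (nat_lit 328) ln8_10_7_c10 ln8_10_7_c10_ok) (M (nat_lit 167) (B (L (nat_lit 135) ln7_4_4_c10 ln7_4_4_c10_ok) (L (nat_lit 263) ln7_5_4_c10 ln7_5_4_c10_ok))))) (M (nat_lit 167) (B (L (nat_lit 200) ln8_9_7_c10 ln8_9_7_c10_ok) (M (nat_lit 231) (B (L (nat_lit 135) ln7_4_4_c10 ln7_4_4_c10_ok) (L (nat_lit 263) ln7_5_4_c10 ln7_5_4_c10_ok)))))))))) (M (nat_lit 233) (B (M (nat_lit 201) (B (L (nat_lit 328) ln8_10_6_c10 ln8_10_6_c10_ok) (M (nat_lit 169) (B (L (nat_lit 265) ln9_5_5_c10 ln9_5_5_c10_ok) (L (nat_lit 137) ln9_4_5_c10 ln9_4_5_c10_ok))))) (B (M (nat_lit 234) (B (M (nat_lit 263) (B (L (nat_lit 235) ln11_7_1_c10 ln11_7_1_c10_ok) (M (nat_lit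 262) (B (L (nat_lit 261) ln5_8_0_c10 ln5_8_0_c10_ok) (L (nat_lit 231) ln10_7_1_c10 ln10_7_1_c10_ok))))) (B (M (nat_lit 263) (B (L (nat_lit 235) ln11_7_1_c10 ln11_7_1_c10_ok) (M (nat_lit 262) (B (L (nat_lit 265) ln6_8_0_c10 ln6_8_0_c10_ok) (L (nat_lit 231) ln10_7_1_c10 ln10_7_1_c10_ok))))) (B (M (nat_lit 235) (B (L (nat_lit 263) ln11_7_1_c10 ln11_7_1_c10_ok) (M (nat_lit 236) (B (L (nat_lit 265) ln12_7_1_c10 ln12_7_1_c10_ok) (M (nat_lit 268) (B (L (nat_lit 267) ln8_7_0_c10 ln8_7_0_c10_ok) (L (nat_lit 269) ln9_7_0_c10 ln9_7_0_c10_ok))))))) (B (M (nat_lit 231) (B (M (nat_lit 202) (B (L (nat_lit 203) ln7_7_2_c10 ln7_7_2_c10_ok) (M (nat_lit 230) (B (L (nat_lit 201) ln6_7_2_c10 ln6_7_2_c10_ok) (M (nat_lit 198) (B (L (nat_lit 197) ln9_7_3_c10 ln9_7_3_c10_ok) (L (nat_lit 199) ln10_7_3_c10 ln10_7_3_c10_ok))))))) (B (M (nat_lit 235) (B (M (nat_lit 203) (B (L (nat_lit 202) ln7_7_2_c10 ln7_7_2_c10_ok)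 (L (nat_lit 204) ln8_7_2_c10 ln8_7_2_c10_ok))) (M (nat_lit 268) (B (L (nat_lit 267) ln8_7_0_c10 ln8_7_0_c10_ok) (M (nat_lit 236) (B (L (nat_lit 265) ln12_7_1_c10 ln12_7_1_c10_ok) (L (nat_lit 269) ln9_7_0_c10 ln9_7_0_c10_ok))))))) (M (nat_lit 230) (B (M (nat_lit 198) (B (L (nat_lit 197) ln9_7_3_c10 ln9_7_3_c10_ok) (L (nat_lit 199) ln10_7_3_c10 ln10_7_3_c10_ok))) (M (nat_lit 229) (B (L (nat_lit 265) ln5_7_0_c10 ln5_7_0_c10_ok) (M (nat_lit 261) (B (L (nat_lit 260) ln8_7_1_c10 ln8_7_1_c10_ok) (L (nat_lit 262) ln9_7_1_c10 ln9_7_1_c10_ok)))))))))) (M (nat_lit 231) (B (M (nat_lit 199) (B (L (nat_lit 198) ln10_7_3_c10 ln10_7_3_c10_ok) (M (nat_lit 263) (B (L (nat_lit 167) ln7_5_4_c10 ln7_5_4_c10_ok) (L (nat_lit 262) ln10_7_1_c10 ln10_7_1_c10_ok))))) (B (M (nat_lit 202) (B (L (nat_lit 203) ln7_7_2_c10 ln7_7_2_c10_ok) (M (nat_lit 230) (B (L (nat_lit 201) ln6_7_2_c10 ln6_7_2_c10_ok) (M (nat_lit 198)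 (B (L (nat_lit 197) ln9_7_3_c10 ln9_7_3_c10_ok) (L (nat_lit 199) ln10_7_3_c10 ln10_7_3_c10_ok))))))) (M (nat_lit 230) (B (M (nat_lit 262) (B (L (nat_lit 261) ln9_7_1_c10 ln9_7_1_c10_ok) (L (nat_lit 263) ln10_7_1_c10 ln10_7_1_c10_ok))) (M (nat_lit 202) (B (L (nat_lit 201) ln6_7_2_c10 ln6_7_2_c10_ok) (L (nat_lit 203) ln7_7_2_c10 ln7_7_2_c10_ok))))))))))))) (B (M (nat_lit 231) (B (M (nat_lit 328) (B (L (nat_lit 199) ln8_10_7_c10 ln8_10_7_c10_ok) (L (nat_lit 201) ln8_10_6_c10 ln8_10_6_c10_ok))) (B (M (nat_lit 234) (B (M (nat_lit 263) (B (L (nat_lit 262) ln10_7_1_c10 ln10_7_1_c10_ok) (L (nat_lit 235) ln11_7_1_c10 ln11_7_1_c10_ok))) (M (nat_lit 202) (B (L (nat_lit 203) ln7_7_2_c10 ln7_7_2_c10_ok) (M (nat_lit 230) (B (L (nat_lit 201) ln6_7_2_c10 ln6_7_2_c10_ok) (M (nat_lit 198) (B (L (nat_lit 197) ln9_7_3_c10 ln9_7_3_c10_ok) (L (nat_lit 199) ln10_7_3_c10 ln10_7_3_c10_ok))))))))) (B (M (nat_lit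 230) (B (M (nat_lit 201) (B (L (nat_lit 328) ln8_10_6_c10 ln8_10_6_c10_ok) (L (nat_lit 202) ln6_7_2_c10 ln6_7_2_c10_ok))) (M (nat_lit 229) (B (M (nat_lit 261) (B (L (nat_lit 260) ln8_7_1_c10 ln8_7_1_c10_ok) (L (nat_lit 262) ln9_7_1_c10 ln9_7_1_c10_ok))) (M (nat_lit 197) (B (L (nat_lit 196) ln8_7_3_c10 ln8_7_3_c10_ok) (L (nat_lit 198) ln9_7_3_c10 ln9_7_3_c10_ok))))))) (M (nat_lit 199) (B (L (nat_lit 328) ln8_10_7_c10 ln8_10_7_c10_ok) (M (nat_lit 167) (B (L (nat_lit 263) ln7_5_4_c10 ln7_5_4_c10_ok) (L (nat_lit 135) ln7_4_4_c10 ln7_4_4_c10_ok))))))))) (M (nat_lit 231) (B (M (nat_lit 199) (B (L (nat_lit 328) ln8_10_7_c10 ln8_10_7_c10_ok) (M (nat_lit 167) (B (L (nat_lit 263) ln7_5_4_c10 ln7_5_4_c10_ok) (L (nat_lit 135) ln7_4_4_c10 ln7_4_4_c10_ok))))) (B (M (nat_lit 230) (B (M (nat_lit 229) (B (L (nat_lit 265) ln5_7_0_c10 ln5_7_0_c10_ok) (M (nat_lit 261) (B (L (nat_lit 260) ln8_7_1_c10 ln8_7_1_c10_ok)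 (L (nat_lit 262) ln9_7_1_c10 ln9_7_1_c10_ok))))) (B (M (nat_lit 229) (B (L (nat_lit 265) ln5_7_0_c10 ln5_7_0_c10_ok) (M (nat_lit 197) (B (L (nat_lit 196) ln8_7_3_c10 ln8_7_3_c10_ok) (L (nat_lit 198) ln9_7_3_c10 ln9_7_3_c10_ok))))) (M (nat_lit 234) (B (M (nat_lit 262) (B (L (nat_lit 261) ln9_7_1_c10 ln9_7_1_c10_ok) (L (nat_lit 263) ln10_7_1_c10 ln10_7_1_c10_ok))) (M (nat_lit 198) (B (L (nat_lit 197) ln9_7_3_c10 ln9_7_3_c10_ok) (L (nat_lit 199) ln10_7_3_c10 ln10_7_3_c10_ok)))))))) (B (M (nat_lit 199) (B (L (nat_lit 328) ln8_10_7_c10 ln8_10_7_c10_ok) (M (nat_lit 198) (B (L (nat_lit 234) ln10_7_3_c10 ln10_7_3_c10_ok) (M (nat_lit 197) (B (L (nat_lit 230) ln9_7_3_c10 ln9_7_3_c10_ok) (L (nat_lit 196) ln4_6_0_c10 ln4_6_0_c10_ok))))))) (M (nat_lit 234) (B (M (nat_lit 263) (B (L (nat_lit 262) ln10_7_1_c10 ln10_7_1_c10_ok) (L (nat_lit 235) ln11_7_1_c10 ln11_7_1_c10_ok))) (B (M (nat_lit 235) (B (L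 (nat_lit 263) ln11_7_1_c10 ln11_7_1_c10_ok) (M (nat_lit 203) (B (L (nat_lit 202) ln7_7_2_c10 ln7_7_2_c10_ok) (L (nat_lit 204) ln8_7_2_c10 ln8_7_2_c10_ok))))) (B (M (nat_lit 235) (B (M (nat_lit 203) (B (L (nat_lit 202) ln7_7_2_c10 ln7_7_2_c10_ok) (L (nat_lit 204) ln8_7_2_c10 ln8_7_2_c10_ok))) (M (nat_lit 268) (B (L (nat_lit 267) ln8_7_0_c10 ln8_7_0_c10_ok) (M (nat_lit 236) (B (L (nat_lit 265) ln12_7_1_c10 ln12_7_1_c10_ok) (L (nat_lit 269) ln9_7_0_c10 ln9_7_0_c10_ok))))))) (M (nat_lit 230) (B (M (nat_lit 262) (B (L (nat_lit 261) ln9_7_1_c10 ln9_7_1_c10_ok) (L (nat_lit 263) ln10_7_1_c10 ln10_7_1_c10_ok))) (M (nat_lit 229) (B (L (nat_lit 265) ln5_7_0_c10 ln5_7_0_c10_ok) (M (nat_lit 197) (B (L (nat_lit 196) ln8_7_3_c10 ln8_7_3_c10_ok) (L (nat_lit 198) ln9_7_3_c10 ln9_7_3_c10_ok))))))))))))))))))))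
noncomputable def c10_d118 : Cert := (B (M (nat_lit 232) (B (M (nat_lit 200) (B (M (nat_lit 327) (B (L (nat_lit 295) ln8_6_5_c10 ln8_6_5_c10_ok) (M (nat_lit 328) (B (L (nat_lit 359) ln8_7_5_c10 ln8_7_5_c10_ok) (L (nat_lit 329) ln8_6_4_c10 ln8_6_4_c10_ok))))) (M (nat_lit 167) (B (L (nat_lit 199) ln8_9_7_c10 ln8_9_7_c10_ok) (M (nat_lit 168) (B (L (nat_lit 135) ln8_8_7_c10 ln8_8_7_c10_ok) (M (nat_lit 169) (B (L (nat_lit 201) ln8_9_6_c10 ln8_9_6_c10_ok) (L (nat_lit 137) ln8_8_6_c10 ln8_8_6_c10_ok))))))))) (B (M (nat_lit 200) (B (M (nat_lit 328) (B (L (nat_lit 329) ln8_6_4_c10 ln8_6_4_c10_ok) (M (nat_lit 199) (B (L (nat_lit 231) ln8_10_7_c10 ln8_10_7_c10_ok) (L (nat_lit 167) ln8_9_7_c10 ln8_9_7_c10_ok))))) (M (nat_lit 168) (B (M (nat_lit 295) (B (L (nat_lit 327) ln8_6_5_c10 ln8_6_5_c10_ok) (L (nat_lit 263) ln8_5_5_c10 ln8_5_5_c10_ok))) (M (nat_lit 169) (B (L (nat_lit 201) ln8_9_6_c10 ln8_9_6_c10_ok)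 (L (nat_lit 137) ln8_8_6_c10 ln8_8_6_c10_ok))))))) (B (M (nat_lit 200) (B (M (nat_lit 328) (B (M (nat_lit 327) (B (L (nat_lit 359) ln8_7_5_c10 ln8_7_5_c10_ok) (L (nat_lit 295) ln8_6_5_c10 ln8_6_5_c10_ok))) (M (nat_lit 201) (B (L (nat_lit 233) ln8_10_6_c10 ln8_10_6_c10_ok) (L (nat_lit 169) ln8_9_6_c10 ln8_9_6_c10_ok))))) (M (nat_lit 168) (B (L (nat_lit 329) ln8_6_4_c10 ln8_6_4_c10_ok) (M (nat_lit 167) (B (L (nat_lit 199) ln8_9_7_c10 ln8_9_7_c10_ok) (L (nat_lit 135) ln8_8_7_c10 ln8_8_7_c10_ok))))))) (B (M (nat_lit 200) (B (M (nat_lit 167) (B (L (nat_lit 199) ln8_9_7_c10 ln8_9_7_c10_ok) (M (nat_lit 168) (B (L (nat_lit 135) ln8_8_7_c10 ln8_8_7_c10_ok) (M (nat_lit 169) (B (L (nat_lit 201) ln8_9_6_c10 ln8_9_6_c10_ok) (L (nat_lit 137) ln8_8_6_c10 ln8_8_6_c10_ok))))))) (B (M (nat_lit 168) (B (L (nat_lit 329) ln8_6_4_c10 ln8_6_4_c10_ok) (M (nat_lit 169) (B (L (nat_lit 201) ln8_9_6_c10 ln8_9_6_c10_ok)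 (L (nat_lit 137) ln8_8_6_c10 ln8_8_6_c10_ok))))) (B (M (nat_lit 168) (B (L (nat_lit 329) ln8_6_4_c10 ln8_6_4_c10_ok) (M (nat_lit 167) (B (L (nat_lit 199) ln8_9_7_c10 ln8_9_7_c10_ok) (L (nat_lit 135) ln8_8_7_c10 ln8_8_7_c10_ok))))) (M (nat_lit 328) (B (L (nat_lit 329) ln8_6_4_c10 ln8_6_4_c10_ok) (M (nat_lit 199) (B (L (nat_lit 231) ln8_10_7_c10 ln8_10_7_c10_ok) (L (nat_lit 167) ln8_9_7_c10 ln8_9_7_c10_ok))))))))) (B (M (nat_lit 200) (B (M (nat_lit 169) (B (L (nat_lit 201) ln8_9_6_c10 ln8_9_6_c10_ok) (M (nat_lit 168) (B (L (nat_lit 137) ln8_8_6_c10 ln8_8_6_c10_ok) (M (nat_lit 167) (B (L (nat_lit 199) ln8_9_7_c10 ln8_9_7_c10_ok) (L (nat_lit 135) ln8_8_7_c10 ln8_8_7_c10_ok))))))) (B (M (nat_lit 168) (B (M (nat_lit 295) (B (L (nat_lit 327) ln8_6_5_c10 ln8_6_5_c10_ok) (L (nat_lit 263) ln8_5_5_c10 ln8_5_5_c10_ok))) (M (nat_lit 167) (B (L (nat_lit 199) ln8_9_7_c10 ln8_9_7_c10_ok) (L (nat_lit 135)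 ln8_8_7_c10 ln8_8_7_c10_ok))))) (B (M (nat_lit 168) (B (M (nat_lit 295) (B (L (nat_lit 327) ln8_6_5_c10 ln8_6_5_c10_ok) (L (nat_lit 263) ln8_5_5_c10 ln8_5_5_c10_ok))) (M (nat_lit 169) (B (L (nat_lit 201) ln8_9_6_c10 ln8_9_6_c10_ok) (L (nat_lit 137) ln8_8_6_c10 ln8_8_6_c10_ok))))) (M (nat_lit 328) (B (M (nat_lit 327) (B (L (nat_lit 359) ln8_7_5_c10 ln8_7_5_c10_ok) (L (nat_lit 295) ln8_6_5_c10 ln8_6_5_c10_ok))) (M (nat_lit 201) (B (L (nat_lit 233) ln8_10_6_c10 ln8_10_6_c10_ok) (L (nat_lit 169) ln8_9_6_c10 ln8_9_6_c10_ok))))))))) (B (M (nat_lit 200) (B (M (nat_lit 168) (B (L (nat_lit 329) ln8_6_4_c10 ln8_6_4_c10_ok) (M (nat_lit 169) (B (L (nat_lit 201) ln8_9_6_c10 ln8_9_6_c10_ok) (L (nat_lit 137) ln8_8_6_c10 ln8_8_6_c10_ok))))) (B (M (nat_lit 168) (B (M (nat_lit 295) (B (L (nat_lit 327) ln8_6_5_c10 ln8_6_5_c10_ok) (L (nat_lit 263) ln8_5_5_c10 ln8_5_5_c10_ok))) (M (nat_lit 169) (B (L (nat_lit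 201) ln8_9_6_c10 ln8_9_6_c10_ok) (L (nat_lit 137) ln8_8_6_c10 ln8_8_6_c10_ok))))) (B (M (nat_lit 168) (B (M (nat_lit 295) (B (L (nat_lit 327) ln8_6_5_c10 ln8_6_5_c10_ok) (L (nat_lit 263) ln8_5_5_c10 ln8_5_5_c10_ok))) (L (nat_lit 329) ln8_6_4_c10 ln8_6_4_c10_ok))) (M (nat_lit 327) (B (L (nat_lit 295) ln8_6_5_c10 ln8_6_5_c10_ok) (M (nat_lit 328) (B (L (nat_lit 359) ln8_7_5_c10 ln8_7_5_c10_ok) (L (nat_lit 329) ln8_6_4_c10 ln8_6_4_c10_ok))))))))) (B (M (nat_lit 200) (B (M (nat_lit 168) (B (M (nat_lit 295) (B (L (nat_lit 327) ln8_6_5_c10 ln8_6_5_c10_ok) (L (nat_lit 263) ln8_5_5_c10 ln8_5_5_c10_ok))) (M (nat_lit 167) (B (L (nat_lit 199) ln8_9_7_c10 ln8_9_7_c10_ok) (L (nat_lit 135) ln8_8_7_c10 ln8_8_7_c10_ok))))) (B (M (nat_lit 168) (B (L (nat_lit 329) ln8_6_4_c10 ln8_6_4_c10_ok) (M (nat_lit 167) (B (L (nat_lit 199) ln8_9_7_c10 ln8_9_7_c10_ok) (L (nat_lit 135) ln8_8_7_c10 ln8_8_7_c10_ok)))))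 (B (M (nat_lit 168) (B (L (nat_lit 329) ln8_6_4_c10 ln8_6_4_c10_ok) (M (nat_lit 295) (B (L (nat_lit 327) ln8_6_5_c10 ln8_6_5_c10_ok) (L (nat_lit 263) ln8_5_5_c10 ln8_5_5_c10_ok))))) (L (nat_lit 329) ln8_6_4_c10 ln8_6_4_c10_ok))))) c10_d117)))))))) (B (M (nat_lit 328) (B (M (nat_lit 327) (B (M (nat_lit 326) (B (L (nat_lit 295) ln10_9_1_c10 ln10_9_1_c10_ok) (L (nat_lit 325) ln5_10_2_c10 ln5_10_2_c10_ok))) (M (nat_lit 359) (B (L (nat_lit 232) ln8_7_5_c10 ln8_7_5_c10_ok) (M (nat_lit 391) (B (L (nat_lit 360) ln8_8_5_c10 ln8_8_5_c10_ok) (L (nat_lit 423) ln7_13_6_c10 ln7_13_6_c10_ok))))))) (B (M (nat_lit 232) (B (M (nat_lit 327) (B (L (nat_lit 359) ln8_7_5_c10 ln8_7_5_c10_ok) (M (nat_lit 326) (B (L (nat_lit 295) ln10_9_1_c10 ln10_9_1_c10_ok) (L (nat_lit 325) ln5_10_2_c10 ln5_10_2_c10_ok))))) (M (nat_lit 200) (B (M (nat_lit 201) (B (L (nat_lit 233) ln8_10_6_c10 ln8_10_6_c10_ok) (L (nat_lit 169)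 ln8_9_6_c10 ln8_9_6_c10_ok))) (M (nat_lit 199) (B (L (nat_lit 231) ln8_10_7_c10 ln8_10_7_c10_ok) (L (nat_lit 167) ln8_9_7_c10 ln8_9_7_c10_ok))))))) (B (M (nat_lit 263) (B (M (nat_lit 262) (B (L (nat_lit 265) ln6_8_0_c10 ln6_8_0_c10_ok) (L (nat_lit 295) ln10_9_3_c10 ln10_9_3_c10_ok))) (B (M (nat_lit 262) (B (L (nat_lit 295) ln10_9_3_c10 ln10_9_3_c10_ok) (L (nat_lit 261) ln5_8_0_c10 ln5_8_0_c10_ok))) (B (M (nat_lit 262) (B (L (nat_lit 265) ln6_8_0_c10 ln6_8_0_c10_ok) (L (nat_lit 261) ln5_8_0_c10 ln5_8_0_c10_ok))) (M (nat_lit 231) (B (L (nat_lit 360) ln8_11_7_c10 ln8_11_7_c10_ok) (M (nat_lit 199) (B (L (nat_lit 295) ln7_6_4_c10 ln7_6_4_c10_ok) (L (nat_lit 167) ln7_5_4_c10 ln7_5_4_c10_ok))))))))) (M (nat_lit 263) (B (M (nat_lit 262) (B (L (nat_lit 265) ln6_8_0_c10 ln6_8_0_c10_ok) (L (nat_lit 261) ln5_8_0_c10 ln5_8_0_c10_ok))) (M (nat_lit 231) (B (L (nat_lit 360) ln8_11_7_c10 ln8_11_7_c10_ok)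 (M (nat_lit 199) (B (L (nat_lit 232) ln8_10_7_c10 ln8_10_7_c10_ok) (L (nat_lit 167) ln7_5_4_c10 ln7_5_4_c10_ok))))))))))) (M (nat_lit 361) (B (L (nat_lit 360) ln12_12_3 ln12_12_3_ok) (L (nat_lit 329) ln9_12_7_c10 ln9_12_7_c10_ok)))))
noncomputable def c10_d119 : Cert := (B (M (nat_lit 300) (B (M (nat_lit 269) (B (L (nat_lit 268) ln9_9_2 ln9_9_2_ok) (M (nat_lit 301) (B (L (nat_lit 270) ln10_9_2 ln10_9_2_ok) (M (nat_lit 333) (B (L (nat_lit 334) ln10_9_0 ln10_9_0_ok) (L (nat_lit 332) ln9_9_0 ln9_9_0_ok))))))) (B (M (nat_lit 296) (B (M (nat_lit 268) (B (L (nat_lit 269) ln9_9_2 ln9_9_2_ok) (L (nat_lit 267) ln8_9_2 ln8_9_2_ok))) (M (nat_lit 332) (B (L (nat_lit 333) ln9_9_0 ln9_9_0_ok) (L (nat_lit 331) ln8_9_0 ln8_9_0_ok))))) (B (M (nat_lit 301) (B (M (nat_lit 333) (B (L (nat_lit 332) ln9_9_0 ln9_9_0_ok) (L (nat_lit 334) ln10_9_0 ln10_9_0_ok))) (M (nat_lit 302) (B (M (nat_lit 266) (B (L (nat_lit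 265) ln13_9_3 ln13_9_3_ok) (L (nat_lit 267) ln14_9_3 ln14_9_3_ok))) (M (nat_lit 270) (B (L (nat_lit 269) ln10_9_2 ln10_9_2_ok) (L (nat_lit 271) ln11_9_2 ln11_9_2_ok))))))) (B (M (nat_lit 301) (B (M (nat_lit 333) (B (L (nat_lit 334) ln10_9_0 ln10_9_0_ok) (L (nat_lit 332) ln9_9_0 ln9_9_0_ok))) (B (M (nat_lit 302) (B (M (nat_lit 266) (B (L (nat_lit 267) ln14_9_3 ln14_9_3_ok) (L (nat_lit 265) ln13_9_3 ln13_9_3_ok))) (M (nat_lit 303) (B (M (nat_lit 271) (B (L (nat_lit 272) ln12_9_2 ln12_9_2_ok) (L (nat_lit 270) ln11_9_2 ln11_9_2_ok))) (M (nat_lit 332) (B (L (nat_lit 331) ln15_9_1_c10 ln15_9_1_c10_ok) (L (nat_lit 333) ln9_9_0 ln9_9_0_ok))))))) (M (nat_lit 302) (B (M (nat_lit 266) (B (L (nat_lit 267) ln14_9_3 ln14_9_3_ok) (L (nat_lit 265) ln13_9_3 ln13_9_3_ok))) (M (nat_lit 303) (B (M (nat_lit 335) (B (L (nat_lit 336) ln12_9_0 ln12_9_0_ok) (L (nat_lit 334) ln11_9_0_c10 ln11_9_0_c10_ok))) (M (nat_lit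 271) (B (L (nat_lit 272) ln12_9_2 ln12_9_2_ok) (L (nat_lit 270) ln11_9_2 ln11_9_2_ok)))))))))) (B (M (nat_lit 301) (B (M (nat_lit 269) (B (L (nat_lit 270) ln10_9_2 ln10_9_2_ok) (L (nat_lit 268) ln9_9_2 ln9_9_2_ok))) (M (nat_lit 302) (B (M (nat_lit 334) (B (L (nat_lit 335) ln11_9_0_c10 ln11_9_0_c10_ok) (L (nat_lit 333) ln10_9_0 ln10_9_0_ok))) (M (nat_lit 266) (B (L (nat_lit 267) ln14_9_3 ln14_9_3_ok) (L (nat_lit 265) ln13_9_3 ln13_9_3_ok))))))) (M (nat_lit 301) (B (M (nat_lit 269) (B (L (nat_lit 268) ln9_9_2 ln9_9_2_ok) (L (nat_lit 270) ln10_9_2 ln10_9_2_ok))) (B (M (nat_lit 302) (B (M (nat_lit 266) (B (L (nat_lit 265) ln13_9_3 ln13_9_3_ok) (L (nat_lit 267) ln14_9_3 ln14_9_3_ok))) (M (nat_lit 270) (B (L (nat_lit 269) ln10_9_2 ln10_9_2_ok) (L (nat_lit 271) ln11_9_2 ln11_9_2_ok))))) (M (nat_lit 266) (B (L (nat_lit 265) ln13_9_3 ln13_9_3_ok) (M (nat_lit 267) (B (L (nat_lit 302) ln14_9_3 ln14_9_3_ok)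 (M (nat_lit 296) (B (L (nat_lit 295) ln7_9_2 ln7_9_2_ok) (L (nat_lit 268) ln8_9_2 ln8_9_2_ok)))))))))))))))) (B (M (nat_lit 300) (B (M (nat_lit 301) (B (M (nat_lit 334) (B (L (nat_lit 333) ln10_9_0 ln10_9_0_ok) (M (nat_lit 302) (B (L (nat_lit 335) ln11_9_0_c10 ln11_9_0_c10_ok) (M (nat_lit 270) (B (L (nat_lit 269) ln10_9_2 ln10_9_2_ok) (L (nat_lit 271) ln11_9_2 ln11_9_2_ok))))))) (B (M (nat_lit 302) (B (M (nat_lit 266) (B (L (nat_lit 265) ln13_9_3 ln13_9_3_ok) (L (nat_lit 267) ln14_9_3 ln14_9_3_ok))) (M (nat_lit 270) (B (L (nat_lit 269) ln10_9_2 ln10_9_2_ok) (L (nat_lit 271) ln11_9_2 ln11_9_2_ok))))) (B (M (nat_lit 302) (B (M (nat_lit 266) (B (L (nat_lit 265) ln13_9_3 ln13_9_3_ok) (L (nat_lit 267) ln14_9_3 ln14_9_3_ok))) (M (nat_lit 334) (B (L (nat_lit 333) ln10_9_0 ln10_9_0_ok) (L (nat_lit 335) ln11_9_0_c10 ln11_9_0_c10_ok))))) (M (nat_lit 265) (B (L (nat_lit 264) ln12_9_3 ln12_9_3_ok)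 (L (nat_lit 266) ln13_9_3 ln13_9_3_ok))))))) (B (M (nat_lit 301) (B (M (nat_lit 333) (B (L (nat_lit 334) ln10_9_0 ln10_9_0_ok) (L (nat_lit 332) ln9_9_0 ln9_9_0_ok))) (M (nat_lit 269) (B (L (nat_lit 270) ln10_9_2 ln10_9_2_ok) (L (nat_lit 268) ln9_9_2 ln9_9_2_ok))))) (B (M (nat_lit 301) (B (M (nat_lit 302) (B (M (nat_lit 334) (B (L (nat_lit 335) ln11_9_0_c10 ln11_9_0_c10_ok) (L (nat_lit 333) ln10_9_0 ln10_9_0_ok))) (M (nat_lit 266) (B (L (nat_lit 267) ln14_9_3 ln14_9_3_ok) (L (nat_lit 265) ln13_9_3 ln13_9_3_ok))))) (B (M (nat_lit 333) (B (L (nat_lit 334) ln10_9_0 ln10_9_0_ok) (L (nat_lit 332) ln9_9_0 ln9_9_0_ok))) (B (M (nat_lit 302) (B (M (nat_lit 266) (B (L (nat_lit 267) ln14_9_3 ln14_9_3_ok) (L (nat_lit 265) ln13_9_3 ln13_9_3_ok))) (M (nat_lit 303) (B (M (nat_lit 271) (B (L (nat_lit 272) ln12_9_2 ln12_9_2_ok) (L (nat_lit 270) ln11_9_2 ln11_9_2_ok))) (M (nat_lit 332) (B (L (nat_lit 331)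 ln15_9_1_c10 ln15_9_1_c10_ok) (L (nat_lit 333) ln9_9_0 ln9_9_0_ok))))))) (M (nat_lit 302) (B (M (nat_lit 266) (B (L (nat_lit 267) ln14_9_3 ln14_9_3_ok) (L (nat_lit 265) ln13_9_3 ln13_9_3_ok))) (M (nat_lit 303) (B (M (nat_lit 335) (B (L (nat_lit 336) ln12_9_0 ln12_9_0_ok) (L (nat_lit 334) ln11_9_0_c10 ln11_9_0_c10_ok))) (M (nat_lit 271) (B (L (nat_lit 272) ln12_9_2 ln12_9_2_ok) (L (nat_lit 270) ln11_9_2 ln11_9_2_ok))))))))))) (B (M (nat_lit 301) (B (M (nat_lit 333) (B (L (nat_lit 334) ln10_9_0 ln10_9_0_ok) (L (nat_lit 332) ln9_9_0 ln9_9_0_ok))) (M (nat_lit 265) (B (L (nat_lit 266) ln13_9_3 ln13_9_3_ok) (L (nat_lit 264) ln12_9_3 ln12_9_3_ok))))) (B (M (nat_lit 301) (B (M (nat_lit 265) (B (L (nat_lit 264) ln12_9_3 ln12_9_3_ok) (L (nat_lit 266) ln13_9_3 ln13_9_3_ok))) (M (nat_lit 269) (B (L (nat_lit 268) ln9_9_2 ln9_9_2_ok) (L (nat_lit 270) ln10_9_2 ln10_9_2_ok))))) (M (nat_lit 268) (B (L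 (nat_lit 269) ln9_9_2 ln9_9_2_ok) (M (nat_lit 332) (B (L (nat_lit 333) ln9_9_0 ln9_9_0_ok) (M (nat_lit 236) (B (M (nat_lit 204) (B (L (nat_lit 331) ln12_6_5_c10 ln12_6_5_c10_ok) (M (nat_lit 205) (B (L (nat_lit 237) ln12_10_6_c10 ln12_10_6_c10_ok) (L (nat_lit 173) ln12_9_6_c10 ln12_9_6_c10_ok))))) (B (M (nat_lit 204) (B (L (nat_lit 331) ln12_6_5_c10 ln12_6_5_c10_ok) (M (nat_lit 203) (B (L (nat_lit 171) ln12_9_7_c10 ln12_9_7_c10_ok) (L (nat_lit 235) ln12_10_7_c10 ln12_10_7_c10_ok))))) (M (nat_lit 235) (B (L (nat_lit 203) ln12_10_7_c10 ln12_10_7_c10_ok) (M (nat_lit 265) (B (L (nat_lit 264) ln12_9_3 ln12_9_3_ok) (M (nat_lit 237) (B (L (nat_lit 205) ln12_10_6_c10 ln12_10_6_c10_ok) (M (nat_lit 266) (B (L (nat_lit 234) ln13_7_1_c10 ln13_7_1_c10_ok) (L (nat_lit 267) ln9_8_2_c10 ln9_8_2_c10_ok)))))))))))))))))))))) (M (nat_lit 296) (B (M (nat_lit 327) (B (L (nat_lit 328) ln11_9_1 ln11_9_1_ok) (M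 (nat_lit 295) (B (L (nat_lit 326) ln10_9_1_c10 ln10_9_1_c10_ok) (M (nat_lit 263) (B (L (nat_lit 262) ln10_9_3_c10 ln10_9_3_c10_ok) (L (nat_lit 264) ln11_9_3 ln11_9_3_ok))))))) (B (M (nat_lit 295) (B (M (nat_lit 327) (B (L (nat_lit 326) ln10_9_1_c10 ln10_9_1_c10_ok) (L (nat_lit 328) ln11_9_1 ln11_9_1_ok))) (M (nat_lit 267) (B (L (nat_lit 266) ln7_9_2 ln7_9_2_ok) (L (nat_lit 268) ln8_9_2 ln8_9_2_ok))))) (B (M (nat_lit 295) (B (M (nat_lit 267) (B (L (nat_lit 268) ln8_9_2 ln8_9_2_ok) (L (nat_lit 266) ln7_9_2 ln7_9_2_ok))) (M (nat_lit 263) (B (L (nat_lit 264) ln11_9_3 ln11_9_3_ok) (L (nat_lit 262) ln10_9_3_c10 ln10_9_3_c10_ok))))) (M (nat_lit 267) (B (L (nat_lit 268) ln8_9_2 ln8_9_2_ok) (M (nat_lit 331) (B (L (nat_lit 332) ln8_9_0 ln8_9_0_ok) (M (nat_lit 264) (B (L (nat_lit 263) ln11_9_3 ln11_9_3_ok) (M (nat_lit 328) (B (L (nat_lit 327) ln11_9_1 ln11_9_1_ok) (M (nat_lit 235) (B (M (nat_lit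 236) (B (L (nat_lit 204) ln11_10_6 ln11_10_6_ok) (M (nat_lit 265) (B (L (nat_lit 266) ln8_8_2_c10 ln8_8_2_c10_ok) (M (nat_lit 233) (B (L (nat_lit 201) ln9_6_5_c10 ln9_6_5_c10_ok) (L (nat_lit 234) ln12_7_1_c10 ln12_7_1_c10_ok))))))) (B (M (nat_lit 203) (B (M (nat_lit 204) (B (L (nat_lit 236) ln11_10_6 ln11_10_6_ok) (L (nat_lit 172) ln11_9_6_c10 ln11_9_6_c10_ok))) (M (nat_lit 170) (B (L (nat_lit 202) ln11_9_7_c10 ln11_9_7_c10_ok) (M (nat_lit 171) (B (L (nat_lit 266) ln11_5_5_c10 ln11_5_5_c10_ok) (L (nat_lit 138) ln11_8_7_c10 ln11_8_7_c10_ok))))))) (B (M (nat_lit 203) (B (M (nat_lit 202) (B (L (nat_lit 234) ln11_10_7 ln11_10_7_ok) (L (nat_lit 170) ln11_9_7_c10 ln11_9_7_c10_ok))) (M (nat_lit 172) (B (L (nat_lit 204) ln11_9_6_c10 ln11_9_6_c10_ok) (M (nat_lit 171) (B (L (nat_lit 140) ln11_8_6_c10 ln11_8_6_c10_ok) (L (nat_lit 266) ln11_5_5_c10 ln11_5_5_c10_ok))))))) (B (M (nat_lit 204) (B (L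 (nat_lit 236) ln11_10_6 ln11_10_6_ok) (M (nat_lit 203) (B (L (nat_lit 172) ln11_9_6_c10 ln11_9_6_c10_ok) (M (nat_lit 202) (B (L (nat_lit 170) ln11_9_7_c10 ln11_9_7_c10_ok) (L (nat_lit 234) ln11_10_7 ln11_10_7_ok))))))) (M (nat_lit 202) (B (L (nat_lit 234) ln11_10_7 ln11_10_7_ok) (M (nat_lit 203) (B (L (nat_lit 170) ln11_9_7_c10 ln11_9_7_c10_ok) (M (nat_lit 171) (B (L (nat_lit 266) ln11_5_5_c10 ln11_5_5_c10_ok) (M (nat_lit 172) (B (L (nat_lit 140) ln11_8_6_c10 ln11_8_6_c10_ok) (M (nat_lit 201) (B (L (nat_lit 200) ln8_6_2_c10 ln8_6_2_c10_ok) (M (nat_lit 233) (B (L (nat_lit 265) ln9_6_5_c10 ln9_6_5_c10_ok) (L (nat_lit 232) ln8_10_6_c10 ln8_10_6_c10_ok))))))))))))))))))))))))))))))))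
noncomputable def c10_d120 : Cert := (B (M (nat_lit 299) (B (M (nat_lit 300) (B (M (nat_lit 333) (B (L (nat_lit 332) ln9_9_0 ln9_9_0_ok) (M (nat_lit 301) (B (L (nat_lit 334) ln10_9_0 ln10_9_0_ok) (M (nat_lit 269) (B (L (nat_lit 270) ln10_9_2 ln10_9_2_ok) (L (nat_lit 268) ln9_9_2 ln9_9_2_ok))))))) (B (M (nat_lit 301) (B (M (nat_lit 333) (B (L (nat_lit 334) ln10_9_0 ln10_9_0_ok) (L (nat_lit 332) ln9_9_0 ln9_9_0_ok))) (M (nat_lit 265) (B (L (nat_lit 266) ln13_9_3 ln13_9_3_ok) (L (nat_lit 264) ln12_9_3 ln12_9_3_ok))))) (B (M (nat_lit 301) (B (M (nat_lit 265) (B (L (nat_lit 264) ln12_9_3 ln12_9_3_ok) (L (nat_lit 266) ln13_9_3 ln13_9_3_ok))) (M (nat_lit 269) (B (L (nat_lit 268) ln9_9_2 ln9_9_2_ok) (L (nat_lit 270) ln10_9_2 ln10_9_2_ok))))) (M (nat_lit 265) (B (L (nat_lit 264) ln12_9_3 ln12_9_3_ok) (M (nat_lit 329) (B (L (nat_lit 328) ln12_9_1 ln12_9_1_ok) (M (nat_lit 268) (B (L (nat_lit 269)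 ln9_9_2 ln9_9_2_ok) (M (nat_lit 332) (B (L (nat_lit 333) ln9_9_0 ln9_9_0_ok) (M (nat_lit 233) (B (M (nat_lit 232) (B (L (nat_lit 200) ln9_10_7_c10 ln9_10_7_c10_ok) (M (nat_lit 267) (B (L (nat_lit 266) ln12_8_3_c10 ln12_8_3_c10_ok) (M (nat_lit 235) (B (L (nat_lit 203) ln11_6_4_c10 ln11_6_4_c10_ok) (L (nat_lit 234) ln8_7_0_c10 ln8_7_0_c10_ok))))))) (B (M (nat_lit 201) (B (M (nat_lit 200) (B (L (nat_lit 232) ln9_10_7_c10 ln9_10_7_c10_ok) (L (nat_lit 168) ln9_9_7_c10 ln9_9_7_c10_ok))) (M (nat_lit 170) (B (L (nat_lit 202) ln9_9_6_c10 ln9_9_6_c10_ok) (M (nat_lit 169) (B (L (nat_lit 266) ln9_5_4_c10 ln9_5_4_c10_ok) (L (nat_lit 138) ln9_8_6_c10 ln9_8_6_c10_ok))))))) (B (M (nat_lit 201) (B (M (nat_lit 202) (B (L (nat_lit 234) ln9_10_6_c10 ln9_10_6_c10_ok) (L (nat_lit 170) ln9_9_6_c10 ln9_9_6_c10_ok))) (M (nat_lit 168) (B (L (nat_lit 200) ln9_9_7_c10 ln9_9_7_c10_ok) (M (nat_lit 169) (B (L (nat_lit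 136) ln9_8_7_c10 ln9_8_7_c10_ok) (L (nat_lit 266) ln9_5_4_c10 ln9_5_4_c10_ok))))))) (B (M (nat_lit 200) (B (L (nat_lit 232) ln9_10_7_c10 ln9_10_7_c10_ok) (M (nat_lit 201) (B (L (nat_lit 168) ln9_9_7_c10 ln9_9_7_c10_ok) (M (nat_lit 202) (B (L (nat_lit 170) ln9_9_6_c10 ln9_9_6_c10_ok) (L (nat_lit 234) ln9_10_6_c10 ln9_10_6_c10_ok))))))) (M (nat_lit 202) (B (L (nat_lit 234) ln9_10_6_c10 ln9_10_6_c10_ok) (M (nat_lit 201) (B (L (nat_lit 170) ln9_9_6_c10 ln9_9_6_c10_ok) (M (nat_lit 169) (B (L (nat_lit 266) ln9_5_4_c10 ln9_5_4_c10_ok) (M (nat_lit 168) (B (L (nat_lit 136) ln9_8_7_c10 ln9_8_7_c10_ok) (M (nat_lit 203) (B (L (nat_lit 204) ln12_6_3_c10 ln12_6_3_c10_ok) (M (nat_lit 235) (B (L (nat_lit 267) ln11_6_4_c10 ln11_6_4_c10_ok) (L (nat_lit 236) ln12_10_7_c10 ln12_10_7_c10_ok)))))))))))))))))))))))))))))) (B (K (nat_lit 5954262831162530206508177329137293314175713698484747306309731625187033608452627999330491918757979765608406338778651232176471259639464329216)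 (nat_lit 65617521749601465663587444179480566819093147208606550280971195292763469529366052869188367965841522688) (nat_lit 65617521749601465663587444179480566819093147208606550280971195292763469529366052869188367965841522688) c10_s17) (M (nat_lit 361) (B (M (nat_lit 266) (B (L (nat_lit 331) ln11_12_7 ln11_12_7_ok) (L (nat_lit 329) ln9_12_6_c10 ln9_12_6_c10_ok))) (L (nat_lit 360) ln12_12_3 ln12_12_3_ok)))))) (B (M (nat_lit 299) (B (M (nat_lit 300) (B (M (nat_lit 301) (B (M (nat_lit 333) (B (L (nat_lit 334) ln10_9_0 ln10_9_0_ok) (L (nat_lit 332) ln9_9_0 ln9_9_0_ok))) (M (nat_lit 269) (B (L (nat_lit 270) ln10_9_2 ln10_9_2_ok) (L (nat_lit 268) ln9_9_2 ln9_9_2_ok))))) (B (M (nat_lit 296) (B (M (nat_lit 268) (B (L (nat_lit 269) ln9_9_2 ln9_9_2_ok) (L (nat_lit 267) ln8_9_2 ln8_9_2_ok))) (M (nat_lit 328) (B (L (nat_lit 329) ln12_9_1 ln12_9_1_ok) (L (nat_lit 327) ln11_9_1 ln11_9_1_ok))))) (B (M (nat_lit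 267) (B (M (nat_lit 328) (B (L (nat_lit 329) ln12_9_1 ln12_9_1_ok) (M (nat_lit 296) (B (L (nat_lit 268) ln8_9_2 ln8_9_2_ok) (L (nat_lit 327) ln11_9_1 ln11_9_1_ok))))) (M (nat_lit 301) (B (M (nat_lit 333) (B (L (nat_lit 334) ln10_9_0 ln10_9_0_ok) (L (nat_lit 332) ln9_9_0 ln9_9_0_ok))) (M (nat_lit 266) (B (L (nat_lit 302) ln14_9_3 ln14_9_3_ok) (L (nat_lit 265) ln13_9_3 ln13_9_3_ok))))))) (M (nat_lit 301) (B (M (nat_lit 333) (B (L (nat_lit 334) ln10_9_0 ln10_9_0_ok) (L (nat_lit 332) ln9_9_0 ln9_9_0_ok))) (M (nat_lit 302) (B (M (nat_lit 270) (B (L (nat_lit 271) ln11_9_2 ln11_9_2_ok) (L (nat_lit 269) ln10_9_2 ln10_9_2_ok))) (M (nat_lit 266) (B (L (nat_lit 267) ln14_9_3 ln14_9_3_ok) (L (nat_lit 265) ln13_9_3 ln13_9_3_ok))))))))))) (B (M (nat_lit 300) (B (M (nat_lit 268) (B (L (nat_lit 269) ln9_9_2 ln9_9_2_ok) (M (nat_lit 296) (B (L (nat_lit 267) ln8_9_2 ln8_9_2_ok) (M (nat_lit 332) (B (L (nat_lit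 333) ln9_9_0 ln9_9_0_ok) (L (nat_lit 331) ln8_9_0 ln8_9_0_ok))))))) (B (M (nat_lit 296) (B (M (nat_lit 268) (B (L (nat_lit 269) ln9_9_2 ln9_9_2_ok) (L (nat_lit 267) ln8_9_2 ln8_9_2_ok))) (M (nat_lit 328) (B (L (nat_lit 329) ln12_9_1 ln12_9_1_ok) (L (nat_lit 327) ln11_9_1 ln11_9_1_ok))))) (B (M (nat_lit 296) (B (M (nat_lit 332) (B (L (nat_lit 333) ln9_9_0 ln9_9_0_ok) (L (nat_lit 331) ln8_9_0 ln8_9_0_ok))) (M (nat_lit 328) (B (L (nat_lit 329) ln12_9_1 ln12_9_1_ok) (L (nat_lit 327) ln11_9_1 ln11_9_1_ok))))) (M (nat_lit 301) (B (M (nat_lit 333) (B (L (nat_lit 334) ln10_9_0 ln10_9_0_ok) (L (nat_lit 332) ln9_9_0 ln9_9_0_ok))) (M (nat_lit 269) (B (L (nat_lit 270) ln10_9_2 ln10_9_2_ok) (L (nat_lit 268) ln9_9_2 ln9_9_2_ok))))))))) (B (M (nat_lit 268) (B (M (nat_lit 269) (B (L (nat_lit 300) ln9_9_2 ln9_9_2_ok) (M (nat_lit 267) (B (L (nat_lit 266) ln13_8_1_c10 ln13_8_1_c10_ok) (L (nat_lit 296) ln8_9_2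 ln8_9_2_ok))))) (B (M (nat_lit 331) (B (M (nat_lit 296) (B (L (nat_lit 267) ln8_9_2 ln8_9_2_ok) (L (nat_lit 332) ln8_9_0 ln8_9_0_ok))) (B (M (nat_lit 332) (B (L (nat_lit 296) ln8_9_0 ln8_9_0_ok) (M (nat_lit 333) (B (L (nat_lit 300) ln9_9_0 ln9_9_0_ok) (L (nat_lit 334) ln14_10_3 ln14_10_3_ok))))) (L (nat_lit 300) ln11_12_6 ln11_12_6_ok)))) (B (M (nat_lit 300) (B (L (nat_lit 269) ln9_9_2 ln9_9_2_ok) (M (nat_lit 332) (B (L (nat_lit 333) ln9_9_0 ln9_9_0_ok) (L (nat_lit 331) ln11_12_6 ln11_12_6_ok))))) (M (nat_lit 267) (B (L (nat_lit 296) ln8_9_2 ln8_9_2_ok) (M (nat_lit 269) (B (L (nat_lit 270) ln14_8_1_c10 ln14_8_1_c10_ok) (L (nat_lit 266) ln13_8_1_c10 ln13_8_1_c10_ok))))))))) (M (nat_lit 361) (B (M (nat_lit 266) (B (L (nat_lit 331) ln11_12_7 ln11_12_7_ok) (L (nat_lit 329) ln9_12_6_c10 ln9_12_6_c10_ok))) (L (nat_lit 360) ln12_12_3 ln12_12_3_ok))))))) (B (M (nat_lit 299) (B (K (nat_lit 5954262831162530206508177329137293314175713698484747306309731625187033608452627999330491918757979765608406338778651232176471259639464329216)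 (nat_lit 65617521749601465663587444179480566819093147208606550280971195292763469529366052869188367965841522688) (nat_lit 65617521749601465663587444179480566819093147208606550280971195292763469529366052869188367965841522688) c10_s17) (B (M (nat_lit 300) (B (M (nat_lit 301) (B (M (nat_lit 265) (B (L (nat_lit 264) ln12_9_3 ln12_9_3_ok) (L (nat_lit 266) ln13_9_3 ln13_9_3_ok))) (M (nat_lit 333) (B (L (nat_lit 332) ln9_9_0 ln9_9_0_ok) (L (nat_lit 334) ln10_9_0 ln10_9_0_ok))))) (B (M (nat_lit 269) (B (L (nat_lit 268) ln9_9_2 ln9_9_2_ok) (M (nat_lit 301) (B (L (nat_lit 270) ln10_9_2 ln10_9_2_ok) (M (nat_lit 333) (B (L (nat_lit 332) ln9_9_0 ln9_9_0_ok) (L (nat_lit 334) ln10_9_0 ln10_9_0_ok))))))) (B (M (nat_lit 301) (B (M (nat_lit 265) (B (L (nat_lit 264) ln12_9_3 ln12_9_3_ok) (L (nat_lit 266) ln13_9_3 ln13_9_3_ok))) (M (nat_lit 269) (B (L (nat_lit 268) ln9_9_2 ln9_9_2_ok) (L (nat_lit 270) ln10_9_2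 ln10_9_2_ok))))) (M (nat_lit 296) (B (M (nat_lit 264) (B (L (nat_lit 263) ln11_9_3 ln11_9_3_ok) (L (nat_lit 265) ln12_9_3 ln12_9_3_ok))) (M (nat_lit 268) (B (L (nat_lit 267) ln8_9_2 ln8_9_2_ok) (L (nat_lit 269) ln9_9_2 ln9_9_2_ok))))))))) (M (nat_lit 361) (B (M (nat_lit 266) (B (L (nat_lit 331) ln11_12_7 ln11_12_7_ok) (L (nat_lit 329) ln9_12_6_c10 ln9_12_6_c10_ok))) (L (nat_lit 360) ln12_12_3 ln12_12_3_ok)))))) (M (nat_lit 361) (B (L (nat_lit 360) ln12_12_3 ln12_12_3_ok) (M (nat_lit 329) (B (L (nat_lit 266) ln9_12_6_c10 ln9_12_6_c10_ok) (M (nat_lit 296) (B (L (nat_lit 264) ln9_12_7_c10 ln9_12_7_c10_ok) (M (nat_lit 425) (B (L (nat_lit 328) ln9_13_7_c10 ln9_13_7_c10_ok) (L (nat_lit 424) ln12_12_1 ln12_12_1_ok))))))))))))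
noncomputable def c10_d121 : Cert := (B (M (nat_lit 296) (B (M (nat_lit 264) c10_d118) (B (M (nat_lit 328) (B (M (nat_lit 299) (B (L (nat_lit 327) ln11_9_1 ln11_9_1_ok) (M (nat_lit 268) (B (L (nat_lit 267) ln8_9_2 ln8_9_2_ok) (M (nat_lit 332) (B (L (nat_lit 331) ln8_9_0 ln8_9_0_ok) (M (nat_lit 300) (B (L (nat_lit 269) ln9_9_2 ln9_9_2_ok) (L (nat_lit 333) ln9_9_0 ln9_9_0_ok))))))))) (M (nat_lit 361) (B (M (nat_lit 425) (B (L (nat_lit 424) ln12_12_1 ln12_12_1_ok) (L (nat_lit 329) ln9_13_7_c10 ln9_13_7_c10_ok))) (L (nat_lit 360) ln12_12_3 ln12_12_3_ok))))) (B (M (nat_lit 299) (B (M (nat_lit 263) (B (L (nat_lit 264) ln11_9_3 ln11_9_3_ok) (M (nat_lit 295) (B (L (nat_lit 262) ln10_9_3_c10 ln10_9_3_c10_ok) (M (nat_lit 327) (B (L (nat_lit 326) ln10_9_1_c10 ln10_9_1_c10_ok) (L (nat_lit 328) ln11_9_1 ln11_9_1_ok))))))) (M (nat_lit 268) (B (L (nat_lit 267) ln8_9_2 ln8_9_2_ok) (M (nat_lit 300) (B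 (L (nat_lit 269) ln9_9_2 ln9_9_2_ok) (M (nat_lit 332) (B (L (nat_lit 331) ln8_9_0 ln8_9_0_ok) (L (nat_lit 333) ln9_9_0 ln9_9_0_ok))))))))) (M (nat_lit 264) (B (M (nat_lit 361) (B (L (nat_lit 329) ln9_12_7_c10 ln9_12_7_c10_ok) (L (nat_lit 360) ln12_12_3 ln12_12_3_ok))) (M (nat_lit 263) (B (L (nat_lit 299) ln11_9_3 ln11_9_3_ok) (M (nat_lit 262) (B (L (nat_lit 261) ln5_8_0_c10 ln5_8_0_c10_ok) (L (nat_lit 265) ln6_8_0_c10 ln6_8_0_c10_ok))))))))))) (B (M (nat_lit 299) (B (M (nat_lit 296) (B (M (nat_lit 332) (B (L (nat_lit 331) ln8_9_0 ln8_9_0_ok) (M (nat_lit 300) (B (L (nat_lit 333) ln9_9_0 ln9_9_0_ok) (M (nat_lit 268) (B (L (nat_lit 269) ln9_9_2 ln9_9_2_ok) (L (nat_lit 267) ln8_9_2 ln8_9_2_ok))))))) (M (nat_lit 327) (B (L (nat_lit 328) ln11_9_1 ln11_9_1_ok) (M (nat_lit 295) (B (L (nat_lit 326) ln10_9_1_c10 ln10_9_1_c10_ok) (M (nat_lit 263) (B (L (nat_lit 264) ln11_9_3 ln11_9_3_ok) (L (nat_lit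 262) ln10_9_3_c10 ln10_9_3_c10_ok))))))))) (B (M (nat_lit 296) (B (M (nat_lit 300) (B (M (nat_lit 332) (B (L (nat_lit 333) ln9_9_0 ln9_9_0_ok) (L (nat_lit 331) ln8_9_0 ln8_9_0_ok))) (M (nat_lit 264) (B (L (nat_lit 265) ln12_9_3 ln12_9_3_ok) (L (nat_lit 263) ln11_9_3 ln11_9_3_ok))))) (M (nat_lit 295) (B (M (nat_lit 267) (B (L (nat_lit 268) ln8_9_2 ln8_9_2_ok) (L (nat_lit 266) ln7_9_2 ln7_9_2_ok))) (M (nat_lit 327) (B (L (nat_lit 328) ln11_9_1 ln11_9_1_ok) (L (nat_lit 326) ln10_9_1_c10 ln10_9_1_c10_ok))))))) (B (M (nat_lit 300) (B (M (nat_lit 333) (B (L (nat_lit 332) ln9_9_0 ln9_9_0_ok) (M (nat_lit 301) (B (L (nat_lit 334) ln10_9_0 ln10_9_0_ok) (M (nat_lit 269) (B (L (nat_lit 268) ln9_9_2 ln9_9_2_ok) (L (nat_lit 270) ln10_9_2 ln10_9_2_ok))))))) (B (M (nat_lit 301) (B (M (nat_lit 265) (B (L (nat_lit 264) ln12_9_3 ln12_9_3_ok) (L (nat_lit 266) ln13_9_3 ln13_9_3_ok))) (M (nat_lit 269) (B (L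 (nat_lit 268) ln9_9_2 ln9_9_2_ok) (L (nat_lit 270) ln10_9_2 ln10_9_2_ok))))) (B (M (nat_lit 301) (B (M (nat_lit 265) (B (L (nat_lit 264) ln12_9_3 ln12_9_3_ok) (L (nat_lit 266) ln13_9_3 ln13_9_3_ok))) (M (nat_lit 333) (B (L (nat_lit 332) ln9_9_0 ln9_9_0_ok) (L (nat_lit 334) ln10_9_0 ln10_9_0_ok))))) (M (nat_lit 296) (B (M (nat_lit 264) (B (L (nat_lit 263) ln11_9_3 ln11_9_3_ok) (L (nat_lit 265) ln12_9_3 ln12_9_3_ok))) (M (nat_lit 332) (B (L (nat_lit 331) ln8_9_0 ln8_9_0_ok) (L (nat_lit 333) ln9_9_0 ln9_9_0_ok))))))))) (B (M (nat_lit 300) (B (M (nat_lit 301) (B (M (nat_lit 265) (B (L (nat_lit 264) ln12_9_3 ln12_9_3_ok) (L (nat_lit 266) ln13_9_3 ln13_9_3_ok))) (M (nat_lit 333) (B (L (nat_lit 332) ln9_9_0 ln9_9_0_ok) (L (nat_lit 334) ln10_9_0 ln10_9_0_ok))))) (B (M (nat_lit 269) (B (L (nat_lit 268) ln9_9_2 ln9_9_2_ok) (M (nat_lit 301) (B (L (nat_lit 270) ln10_9_2 ln10_9_2_ok) (M (nat_lit 333)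 (B (L (nat_lit 332) ln9_9_0 ln9_9_0_ok) (L (nat_lit 334) ln10_9_0 ln10_9_0_ok))))))) (B (M (nat_lit 301) (B (M (nat_lit 265) (B (L (nat_lit 264) ln12_9_3 ln12_9_3_ok) (L (nat_lit 266) ln13_9_3 ln13_9_3_ok))) (M (nat_lit 269) (B (L (nat_lit 268) ln9_9_2 ln9_9_2_ok) (L (nat_lit 270) ln10_9_2 ln10_9_2_ok))))) (M (nat_lit 296) (B (M (nat_lit 264) (B (L (nat_lit 263) ln11_9_3 ln11_9_3_ok) (L (nat_lit 265) ln12_9_3 ln12_9_3_ok))) (M (nat_lit 268) (B (L (nat_lit 267) ln8_9_2 ln8_9_2_ok) (L (nat_lit 269) ln9_9_2 ln9_9_2_ok))))))))) (B (M (nat_lit 296) (B (M (nat_lit 295) (B (M (nat_lit 267) (B (L (nat_lit 268) ln8_9_2 ln8_9_2_ok) (L (nat_lit 266) ln7_9_2 ln7_9_2_ok))) (M (nat_lit 327) (B (L (nat_lit 328) ln11_9_1 ln11_9_1_ok) (L (nat_lit 326) ln10_9_1_c10 ln10_9_1_c10_ok))))) (B (M (nat_lit 263) (B (L (nat_lit 264) ln11_9_3 ln11_9_3_ok) (M (nat_lit 295) (B (L (nat_lit 262) ln10_9_3_c10 ln10_9_3_c10_ok)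 (M (nat_lit 327) (B (L (nat_lit 328) ln11_9_1 ln11_9_1_ok) (L (nat_lit 326) ln10_9_1_c10 ln10_9_1_c10_ok))))))) (B (M (nat_lit 295) (B (M (nat_lit 267) (B (L (nat_lit 268) ln8_9_2 ln8_9_2_ok) (L (nat_lit 266) ln7_9_2 ln7_9_2_ok))) (M (nat_lit 263) (B (L (nat_lit 264) ln11_9_3 ln11_9_3_ok) (L (nat_lit 262) ln10_9_3_c10 ln10_9_3_c10_ok))))) (M (nat_lit 300) (B (M (nat_lit 268) (B (L (nat_lit 269) ln9_9_2 ln9_9_2_ok) (L (nat_lit 267) ln8_9_2 ln8_9_2_ok))) (M (nat_lit 264) (B (L (nat_lit 265) ln12_9_3 ln12_9_3_ok) (L (nat_lit 263) ln11_9_3 ln11_9_3_ok))))))))) (B (M (nat_lit 296) (B (M (nat_lit 295) (B (M (nat_lit 327) (B (L (nat_lit 326) ln10_9_1_c10 ln10_9_1_c10_ok) (L (nat_lit 328) ln11_9_1 ln11_9_1_ok))) (M (nat_lit 263) (B (L (nat_lit 262) ln10_9_3_c10 ln10_9_3_c10_ok) (L (nat_lit 264) ln11_9_3 ln11_9_3_ok))))) (B (M (nat_lit 300) (B (M (nat_lit 264) (B (L (nat_lit 263) ln11_9_3 ln11_9_3_ok)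 (L (nat_lit 265) ln12_9_3 ln12_9_3_ok))) (M (nat_lit 332) (B (L (nat_lit 331) ln8_9_0 ln8_9_0_ok) (L (nat_lit 333) ln9_9_0 ln9_9_0_ok))))) (B (M (nat_lit 265) (B (M (nat_lit 332) (B (L (nat_lit 331) ln8_9_0 ln8_9_0_ok) (M (nat_lit 300) (B (L (nat_lit 264) ln12_9_3 ln12_9_3_ok) (L (nat_lit 333) ln9_9_0 ln9_9_0_ok))))) (M (nat_lit 295) (B (M (nat_lit 327) (B (L (nat_lit 326) ln10_9_1_c10 ln10_9_1_c10_ok) (L (nat_lit 328) ln11_9_1 ln11_9_1_ok))) (M (nat_lit 266) (B (L (nat_lit 294) ln6_9_2_c10 ln6_9_2_c10_ok) (L (nat_lit 267) ln7_9_2 ln7_9_2_ok))))))) (M (nat_lit 295) (B (M (nat_lit 327) (B (L (nat_lit 326) ln10_9_1_c10 ln10_9_1_c10_ok) (L (nat_lit 328) ln11_9_1 ln11_9_1_ok))) (M (nat_lit 294) (B (M (nat_lit 262) (B (L (nat_lit 261) ln9_9_3_c10 ln9_9_3_c10_ok) (L (nat_lit 263) ln10_9_3_c10 ln10_9_3_c10_ok))) (M (nat_lit 266) (B (L (nat_lit 265) ln6_9_2_c10 ln6_9_2_c10_ok) (L (nat_lit 267)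 ln7_9_2 ln7_9_2_ok))))))))))) (B (M (nat_lit 300) (B (M (nat_lit 301) (B (M (nat_lit 265) (B (L (nat_lit 264) ln12_9_3 ln12_9_3_ok) (L (nat_lit 266) ln13_9_3 ln13_9_3_ok))) (M (nat_lit 269) (B (L (nat_lit 268) ln9_9_2 ln9_9_2_ok) (L (nat_lit 270) ln10_9_2 ln10_9_2_ok))))) (B (M (nat_lit 301) (B (M (nat_lit 269) (B (L (nat_lit 268) ln9_9_2 ln9_9_2_ok) (L (nat_lit 270) ln10_9_2 ln10_9_2_ok))) (M (nat_lit 333) (B (L (nat_lit 332) ln9_9_0 ln9_9_0_ok) (L (nat_lit 334) ln10_9_0 ln10_9_0_ok))))) (B (M (nat_lit 301) (B (M (nat_lit 265) (B (L (nat_lit 264) ln12_9_3 ln12_9_3_ok) (L (nat_lit 266) ln13_9_3 ln13_9_3_ok))) (M (nat_lit 333) (B (L (nat_lit 332) ln9_9_0 ln9_9_0_ok) (L (nat_lit 334) ln10_9_0 ln10_9_0_ok))))) (M (nat_lit 296) (B (M (nat_lit 268) (B (L (nat_lit 267) ln8_9_2 ln8_9_2_ok) (L (nat_lit 269) ln9_9_2 ln9_9_2_ok))) (M (nat_lit 332) (B (L (nat_lit 331) ln8_9_0 ln8_9_0_ok) (L (nat_lit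 333) ln9_9_0 ln9_9_0_ok))))))))) c10_d119)))))))) c10_d120))
theorem c10_s18 : Sem (nat_lit 5954262831162530206326612884584307553965531881701503127416631511303243940229364057432807597990462924891702776982956457266341398242220048384) (nat_lit 17161994155920697690923505071132661365444120559509290048314417857864027225256943731889297626595559757190171122591366634962695358363150258723489993779568443392) (nat_lit 17161994155920697690923505071132661365444120559509290048314417857864027225256943731889297626595559757190171122591366634962695358363150258723489993779568443392) :=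
  sem_of_chk (M (nat_lit 393) (B (M (nat_lit 298) c10_d116) (B (M (nat_lit 396) (B (M (nat_lit 298) (B (M (nat_lit 297) c10_d121) (B (M (nat_lit 361) (B (L (nat_lit 360) ln12_12_3 ln12_12_3_ok) (M (nat_lit 425) (B (L (nat_lit 424) ln12_12_1 ln12_12_1_ok) (M (nat_lit 329) (B (L (nat_lit 330) ln9_13_6_c10 ln9_13_6_c10_ok) (M (nat_lit 297) (B (L (nat_lit 266) ln9_12_6_c10 ln9_12_6_c10_ok) (M (nat_lit 296) (B (L (nat_lit 264) ln9_12_7_c10 ln9_12_7_c10_ok) (L (nat_lit 328) ln9_13_7_c10 ln9_13_7_c10_ok))))))))))) (B (M (nat_lit 331) (B (M (nat_lit 299) (B (L (nat_lit 266) ln11_12_7 ln11_12_7_ok) (M (nat_lit 300) (B (L (nat_lit 268) ln11_12_6 ln11_12_6_ok) (L (nat_lit 332) ln11_13_6 ln11_13_6_ok))))) (L (nat_lit 330) ln11_13_7 ln11_13_7_ok))) (M (nat_lit 425) (B (M (nat_lit 361) (B (M (nat_lit 330) (B (L (nat_lit 331) ln11_13_7 ln11_13_7_ok) (L (nat_lit 329) ln9_13_6_c10 ln9_13_6_c10_ok))) (L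 (nat_lit 360) ln12_12_3 ln12_12_3_ok))) (L (nat_lit 424) ln12_12_1 ln12_12_1_ok))))))) (L (nat_lit 428) ln9_12_0 ln9_12_0_ok))) (B (M (nat_lit 392) (B (L (nat_lit 428) ln8_12_0 ln8_12_0_ok) (M (nat_lit 359) (B (L (nat_lit 360) ln11_12_3 ln11_12_3_ok) (M (nat_lit 423) (B (L (nat_lit 424) ln11_12_1 ln11_12_1_ok) (M (nat_lit 391) (B (L (nat_lit 358) ln10_12_3_c10 ln10_12_3_c10_ok) (L (nat_lit 422) ln10_12_1_c10 ln10_12_1_c10_ok))))))))) (M (nat_lit 428) (B (L (nat_lit 396) ln9_12_0 ln9_12_0_ok) (L (nat_lit 392) ln8_12_0 ln8_12_0_ok))))))) (nat_lit 5954262831162530206326612884584307553965531881701503127416631511303243940229364057432807597990462924891702776982956457266341398242220048384) (nat_lit 17161994155920697690923505071132661365444120559509290048314417857864027225256943731889297626595559757190171122591366634962695358363150258723489993779568443392) (nat_lit 17161994155920697690923505071132661365444120559509290048314417857864027225256943731889297626595559757190171122591366634962695358363150258723489993779568443392)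 (by decide +kernel)
noncomputable def c10_d122 : Cert := (B (M (nat_lit 436) (B (M (nat_lit 437) (B (M (nat_lit 401) (B (L (nat_lit 400) ln20_13_3_c10 ln20_13_3_c10_ok) (L (nat_lit 402) ln21_13_3_c10 ln21_13_3_c10_ok))) (M (nat_lit 465) (B (L (nat_lit 464) ln20_13_1_c10 ln20_13_1_c10_ok) (L (nat_lit 466) ln21_13_1_c10 ln21_13_1_c10_ok))))) (B (M (nat_lit 437) (B (M (nat_lit 465) (B (L (nat_lit 464) ln20_13_1_c10 ln20_13_1_c10_ok) (L (nat_lit 466) ln21_13_1_c10 ln21_13_1_c10_ok))) (M (nat_lit 469) (B (L (nat_lit 468) ln17_13_0_c10 ln17_13_0_c10_ok) (L (nat_lit 470) ln18_13_0_c10 ln18_13_0_c10_ok))))) (B (M (nat_lit 464) (B (L (nat_lit 463) ln19_13_1_c10 ln19_13_1_c10_ok) (L (nat_lit 465) ln20_13_1_c10 ln20_13_1_c10_ok))) (M (nat_lit 437) (B (M (nat_lit 401) (B (L (nat_lit 400) ln20_13_3_c10 ln20_13_3_c10_ok) (L (nat_lit 402) ln21_13_3_c10 ln21_13_3_c10_ok))) (M (nat_lit 469) (B (L (nat_lit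 468) ln17_13_0_c10 ln17_13_0_c10_ok) (L (nat_lit 470) ln18_13_0_c10 ln18_13_0_c10_ok))))))))) (B (K (nat_lit 8931394411890933966347733660179601942563841450823800216946752822532690858398586298637961994434524399700878818060857112348965568452155670528) (nat_lit 18869812130258565466116907606188147852841647786712780725869528842524793551543815712573085751270662986944069229165765049802612015807137879784304161283762415751678444699648) (nat_lit 18869812130258565466116907606188147852841647786712780725869528842524793551543815712573085751270662986944069229165765049802612015807137879784304161283762415751678444699648) c10_s343) (B (K (nat_lit 8931394411890933966347733660179601942563841450823800216946752822532690858398586298637961994434524399700878818060857112348965568452155670528) (nat_lit 8786941007013049571185269778842786781952065056608487193491964057428541375824303783853509717332752649530951880165212117498910970506356329806921559655622580895744)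 (nat_lit 8786941007013049571185269778842786781952065056608487193491964057428541375824303783853509717332752649530951880165212117498910970506356329806921559655622580895744) c10_s334) (B (M (nat_lit 436) (B (M (nat_lit 464) (B (L (nat_lit 463) ln19_13_1_c10 ln19_13_1_c10_ok) (L (nat_lit 465) ln20_13_1_c10 ln20_13_1_c10_ok))) (M (nat_lit 468) (B (L (nat_lit 467) ln16_13_0_c10 ln16_13_0_c10_ok) (L (nat_lit 469) ln17_13_0_c10 ln17_13_0_c10_ok))))) (B (K (nat_lit 8931394411890933966347733660179601942563841450823800216946752822532690858398586298637961994434524399700878818060857112348965568452155670528) (nat_lit 22643774576168765235189781138324362769892025778225426427278870000269590156654357331354565783994751787152232176923317907639520784976663232481234341946824372980417912897536) (nat_lit 22643774576168765235189781138324362769892025778225426427278870000269590156654357331354565783994751787152232176923317907639520784976663232481234341946824372980417912897536)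 c10_s349) (B (K (nat_lit 8931394411890933966347733660179601942563841450823800216946752822532690858398586298637961994434524399700878818060857112348965568452155670528) (nat_lit 22643774562549006674319554313234480943887504225958848080581413046869388652950313380952821413292286837790125727128035577213024032274310056437373602412656168792862807293952) (nat_lit 22643774562549006674319554313234480943887504225958848080581413046869388652950313380952821413292286837790125727128035577213024032274310056437373602412656168792862807293952) c10_s347) (M (nat_lit 467) (B (L (nat_lit 468) ln16_13_0_c10 ln16_13_0_c10_ok) (M (nat_lit 466) (B (L (nat_lit 431) ln15_13_0_c10 ln15_13_0_c10_ok) (M (nat_lit 499) (B (M (nat_lit 531) (B (L (nat_lit 563) ln19_17_7_c10 ln19_17_7_c10_ok) (M (nat_lit 530) (B (L (nat_lit 562) ln19_13_5_c10 ln19_13_5_c10_ok) (M (nat_lit 403) (B (L (nat_lit 498) ln19_12_5_c10 ln19_12_5_c10_ok)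 (M (nat_lit 532) (B (L (nat_lit 500) ln19_12_4_c10 ln19_12_4_c10_ok) (L (nat_lit 564) ln19_13_4_c10 ln19_13_4_c10_ok))))))))) (B (M (nat_lit 531) (B (L (nat_lit 563) ln19_17_7_c10 ln19_17_7_c10_ok) (M (nat_lit 530) (B (L (nat_lit 562) ln19_13_5_c10 ln19_13_5_c10_ok) (M (nat_lit 498) (B (L (nat_lit 403) ln19_12_5_c10 ln19_12_5_c10_ok) (M (nat_lit 532) (B (L (nat_lit 564) ln19_13_4_c10 ln19_13_4_c10_ok) (M (nat_lit 533) (B (L (nat_lit 534) ln22_16_3_c10 ln22_16_3_c10_ok) (L (nat_lit 497) ln21_16_3_c10 ln21_16_3_c10_ok))))))))))) (B (M (nat_lit 531) (B (L (nat_lit 563) ln19_17_7_c10 ln19_17_7_c10_ok) (M (nat_lit 530) (B (L (nat_lit 562) ln19_13_5_c10 ln19_13_5_c10_ok) (M (nat_lit 498) (B (L (nat_lit 403) ln19_12_5_c10 ln19_12_5_c10_ok) (M (nat_lit 529) (B (L (nat_lit 561) ln18_13_5_c10 ln18_13_5_c10_ok) (M (nat_lit 500) (B (L (nat_lit 501) ln21_15_1_c10 ln21_15_1_c10_ok) (L (nat_lit 528)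 ln16_16_2_c10 ln16_16_2_c10_ok))))))))))) (B (M (nat_lit 531) (B (L (nat_lit 563) ln19_17_7_c10 ln19_17_7_c10_ok) (M (nat_lit 530) (B (L (nat_lit 562) ln19_13_5_c10 ln19_13_5_c10_ok) (M (nat_lit 498) (B (M (nat_lit 532) (B (L (nat_lit 564) ln19_13_4_c10 ln19_13_4_c10_ok) (M (nat_lit 533) (B (L (nat_lit 534) ln22_16_3_c10 ln22_16_3_c10_ok) (L (nat_lit 497) ln21_16_3_c10 ln21_16_3_c10_ok))))) (M (nat_lit 529) (B (L (nat_lit 561) ln18_13_5_c10 ln18_13_5_c10_ok) (M (nat_lit 500) (B (L (nat_lit 501) ln21_15_1_c10 ln21_15_1_c10_ok) (L (nat_lit 528) ln16_16_2_c10 ln16_16_2_c10_ok))))))))))) (B (M (nat_lit 498) (B (M (nat_lit 403) (B (L (nat_lit 371) ln19_11_5_c10 ln19_11_5_c10_ok) (L (nat_lit 530) ln19_12_5_c10 ln19_12_5_c10_ok))) (B (M (nat_lit 530) (B (L (nat_lit 403) ln19_12_5_c10 ln19_12_5_c10_ok) (L (nat_lit 562) ln18_17_6_c10 ln18_17_6_c10_ok))) (B (M (nat_lit 530) (B (L (nat_lit 562) ln18_17_6_c10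 ln18_17_6_c10_ok) (M (nat_lit 529) (B (L (nat_lit 561) ln18_13_5_c10 ln18_13_5_c10_ok) (M (nat_lit 500) (B (L (nat_lit 501) ln21_15_1_c10 ln21_15_1_c10_ok) (M (nat_lit 528) (B (L (nat_lit 497) ln20_15_1_c10 ln20_15_1_c10_ok) (L (nat_lit 527) ln15_16_2_c10 ln15_16_2_c10_ok))))))))) (M (nat_lit 500) (B (M (nat_lit 501) (B (L (nat_lit 502) ln22_15_3_c10 ln22_15_3_c10_ok) (L (nat_lit 465) ln21_15_3_c10 ln21_15_3_c10_ok))) (M (nat_lit 403) (B (L (nat_lit 532) ln19_12_4_c10 ln19_12_4_c10_ok) (L (nat_lit 371) ln19_11_5_c10 ln19_11_5_c10_ok))))))))) (B (M (nat_lit 531) (B (L (nat_lit 563) ln19_17_7_c10 ln19_17_7_c10_ok) (M (nat_lit 530) (B (L (nat_lit 562) ln19_13_5_c10 ln19_13_5_c10_ok) (M (nat_lit 532) (B (L (nat_lit 564) ln19_13_4_c10 ln19_13_4_c10_ok) (M (nat_lit 500) (B (L (nat_lit 403) ln19_12_4_c10 ln19_12_4_c10_ok) (M (nat_lit 501) (B (L (nat_lit 502) ln22_15_1_c10 ln22_15_1_c10_ok) (L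 (nat_lit 529) ln17_16_2_c10 ln17_16_2_c10_ok))))))))))) (M (nat_lit 531) (B (L (nat_lit 563) ln19_17_7_c10 ln19_17_7_c10_ok) (M (nat_lit 532) (B (L (nat_lit 564) ln19_13_4_c10 ln19_13_4_c10_ok) (M (nat_lit 500) (B (L (nat_lit 403) ln19_12_4_c10 ln19_12_4_c10_ok) (M (nat_lit 498) (B (M (nat_lit 501) (B (L (nat_lit 502) ln22_15_3_c10 ln22_15_3_c10_ok) (L (nat_lit 465) ln21_15_3_c10 ln21_15_3_c10_ok))) (M (nat_lit 533) (B (L (nat_lit 534) ln22_16_3_c10 ln22_16_3_c10_ok) (L (nat_lit 497) ln17_15_0_c10 ln17_15_0_c10_ok))))))))))))))))))))))))))))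
theorem c10_s350 : Sem (nat_lit 8931394323165503754481658153670348049985162940857813804920622417077344278730704448857942057155343404368412318944338361584051269924982620160) (nat_lit 116992835281501279758904573971886685273455131208274396479626926143890502311748657421542169708054835601204261811239623164347157357210747775713194370859455619923084243369984) (nat_lit 116992835281501279758904573971886685273455131208274396479626926143890502311748657421542169708054835601204261811239623164347157357210747775713194370859455619923084243369984) :=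
  sem_of_chk (M (nat_lit 435) c10_d122) (nat_lit 8931394323165503754481658153670348049985162940857813804920622417077344278730704448857942057155343404368412318944338361584051269924982620160) (nat_lit 116992835281501279758904573971886685273455131208274396479626926143890502311748657421542169708054835601204261811239623164347157357210747775713194370859455619923084243369984) (nat_lit 116992835281501279758904573971886685273455131208274396479626926143890502311748657421542169708054835601204261811239623164347157357210747775713194370859455619923084243369984) (by decide +kernel)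
noncomputable def c10_d123 : Cert := (B (M (nat_lit 591) (B (M (nat_lit 592) (B (M (nat_lit 560) (B (L (nat_lit 561) ln13_18_2_c10 ln13_18_2_c10_ok) (L (nat_lit 559) ln12_18_2_c10 ln12_18_2_c10_ok))) (M (nat_lit 624) (B (L (nat_lit 625) ln13_18_0_c10 ln13_18_0_c10_ok) (L (nat_lit 623) ln12_18_0_c10 ln12_18_0_c10_ok))))) (B (M (nat_lit 623) (B (L (nat_lit 624) ln12_18_0_c10 ln12_18_0_c10_ok) (M (nat_lit 622) (B (L (nat_lit 587) ln11_18_0_c10 ln11_18_0_c10_ok) (M (nat_lit 559) (B (L (nat_lit 560) ln12_18_2_c10 ln12_18_2_c10_ok) (L (nat_lit 527) ln15_15_5_c10 ln15_15_5_c10_ok))))))) (B (M (nat_lit 592) (B (M (nat_lit 624) (B (L (nat_lit 625) ln13_18_0_c10 ln13_18_0_c10_ok) (L (nat_lit 623) ln12_18_0_c10 ln12_18_0_c10_ok))) (B (M (nat_lit 622) (B (M (nat_lit 621) (B (L (nat_lit 593) ln17_18_1_c10 ln17_18_1_c10_ok) (L (nat_lit 620) ln16_18_1_c10 ln16_18_1_c10_ok))) (M (nat_lit 623) (B (L (nat_lit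 624) ln12_18_0_c10 ln12_18_0_c10_ok) (L (nat_lit 587) ln11_18_0_c10 ln11_18_0_c10_ok))))) (M (nat_lit 593) (B (M (nat_lit 621) (B (L (nat_lit 622) ln17_18_1_c10 ln17_18_1_c10_ok) (L (nat_lit 620) ln16_18_1_c10 ln16_18_1_c10_ok))) (M (nat_lit 594) (B (M (nat_lit 562) (B (L (nat_lit 563) ln15_18_2_c10 ln15_18_2_c10_ok) (L (nat_lit 561) ln14_18_2_c10 ln14_18_2_c10_ok))) (M (nat_lit 626) (B (L (nat_lit 627) ln15_18_0_c10 ln15_18_0_c10_ok) (L (nat_lit 625) ln14_18_0_c10 ln14_18_0_c10_ok)))))))))) (B (M (nat_lit 592) (B (M (nat_lit 560) (B (L (nat_lit 561) ln13_18_2_c10 ln13_18_2_c10_ok) (L (nat_lit 559) ln12_18_2_c10 ln12_18_2_c10_ok))) (M (nat_lit 621) (B (L (nat_lit 620) ln16_18_1_c10 ln16_18_1_c10_ok) (M (nat_lit 622) (B (L (nat_lit 593) ln17_18_1_c10 ln17_18_1_c10_ok) (M (nat_lit 587) (B (L (nat_lit 623) ln11_18_0_c10 ln11_18_0_c10_ok) (L (nat_lit 586) ln10_18_0_c10 ln10_18_0_c10_ok)))))))))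 (M (nat_lit 592) (B (M (nat_lit 560) (B (L (nat_lit 561) ln13_18_2_c10 ln13_18_2_c10_ok) (L (nat_lit 559) ln12_18_2_c10 ln12_18_2_c10_ok))) (M (nat_lit 593) (B (M (nat_lit 625) (B (L (nat_lit 626) ln14_18_0_c10 ln14_18_0_c10_ok) (L (nat_lit 624) ln13_18_0_c10 ln13_18_0_c10_ok))) (M (nat_lit 621) (B (L (nat_lit 622) ln17_18_1_c10 ln17_18_1_c10_ok) (L (nat_lit 620) ln16_18_1_c10 ln16_18_1_c10_ok)))))))))))) (M (nat_lit 587) (B (M (nat_lit 586) (B (M (nat_lit 553) (B (L (nat_lit 554) ln13_18_3 ln13_18_3_ok) (M (nat_lit 585) (B (L (nat_lit 552) ln12_18_3 ln12_18_3_ok) (M (nat_lit 617) (B (L (nat_lit 618) ln13_18_1_c10 ln13_18_1_c10_ok) (L (nat_lit 616) ln12_18_1 ln12_18_1_ok))))))) (B (M (nat_lit 585) (B (M (nat_lit 621) (B (L (nat_lit 622) ln10_18_0_c10 ln10_18_0_c10_ok) (L (nat_lit 620) ln9_18_0_c10 ln9_18_0_c10_ok))) (M (nat_lit 617) (B (L (nat_lit 618) ln13_18_1_c10 ln13_18_1_c10_ok) (L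 (nat_lit 616) ln12_18_1 ln12_18_1_ok))))) (B (M (nat_lit 585) (B (M (nat_lit 621) (B (L (nat_lit 622) ln10_18_0_c10 ln10_18_0_c10_ok) (L (nat_lit 620) ln9_18_0_c10 ln9_18_0_c10_ok))) (M (nat_lit 553) (B (L (nat_lit 554) ln13_18_3 ln13_18_3_ok) (L (nat_lit 552) ln12_18_3 ln12_18_3_ok))))) (M (nat_lit 622) (B (L (nat_lit 623) ln11_18_0_c10 ln11_18_0_c10_ok) (L (nat_lit 621) ln10_18_0_c10 ln10_18_0_c10_ok))))))) (B (M (nat_lit 618) (B (M (nat_lit 617) (B (L (nat_lit 586) ln13_18_1_c10 ln13_18_1_c10_ok) (L (nat_lit 619) ln14_18_1_c10 ln14_18_1_c10_ok))) (B (M (nat_lit 555) (B (L (nat_lit 619) ln14_18_1_c10 ln14_18_1_c10_ok) (L (nat_lit 554) ln14_18_3_c10 ln14_18_3_c10_ok))) (M (nat_lit 586) (B (L (nat_lit 617) ln13_18_1_c10 ln13_18_1_c10_ok) (M (nat_lit 554) (B (L (nat_lit 553) ln13_18_3 ln13_18_3_ok) (L (nat_lit 555) ln14_18_3_c10 ln14_18_3_c10_ok)))))))) (B (M (nat_lit 586) (B (M (nat_lit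 554) (B (L (nat_lit 553) ln13_18_3 ln13_18_3_ok) (L (nat_lit 555) ln14_18_3_c10 ln14_18_3_c10_ok))) (M (nat_lit 622) (B (L (nat_lit 621) ln10_18_0_c10 ln10_18_0_c10_ok) (L (nat_lit 623) ln11_18_0_c10 ln11_18_0_c10_ok))))) (B (M (nat_lit 586) (B (M (nat_lit 622) (B (L (nat_lit 623) ln11_18_0_c10 ln11_18_0_c10_ok) (L (nat_lit 621) ln10_18_0_c10 ln10_18_0_c10_ok))) (M (nat_lit 618) (B (L (nat_lit 619) ln14_18_1_c10 ln14_18_1_c10_ok) (L (nat_lit 617) ln13_18_1_c10 ln13_18_1_c10_ok))))) (M (nat_lit 619) (B (L (nat_lit 618) ln14_18_1_c10 ln14_18_1_c10_ok) (M (nat_lit 555) (B (L (nat_lit 554) ln14_18_3_c10 ln14_18_3_c10_ok) (M (nat_lit 651) (B (M (nat_lit 684) (B (L (nat_lit 652) ln11_17_4_c10 ln11_17_4_c10_ok) (M (nat_lit 683) (B (L (nat_lit 716) ln11_18_4_c10 ln11_18_4_c10_ok) (M (nat_lit 682) (B (L (nat_lit 714) ln11_18_5_c10 ln11_18_5_c10_ok) (L (nat_lit 650) ln11_17_5_c10 ln11_17_5_c10_ok)))))))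 (B (M (nat_lit 620) (B (M (nat_lit 652) (B (L (nat_lit 684) ln11_17_4_c10 ln11_17_4_c10_ok) (L (nat_lit 523) ln11_16_4 ln11_16_4_ok))) (B (M (nat_lit 523) (B (L (nat_lit 652) ln11_16_4 ln11_16_4_ok) (L (nat_lit 491) ln11_15_4 ln11_15_4_ok))) (M (nat_lit 622) (B (L (nat_lit 623) ln11_18_0_c10 ln11_18_0_c10_ok) (M (nat_lit 650) (B (L (nat_lit 682) ln11_17_5_c10 ln11_17_5_c10_ok) (L (nat_lit 621) ln14_19_1_c10 ln14_19_1_c10_ok)))))))) (B (M (nat_lit 683) (B (M (nat_lit 684) (B (L (nat_lit 716) ln11_18_4_c10 ln11_18_4_c10_ok) (L (nat_lit 652) ln11_17_4_c10 ln11_17_4_c10_ok))) (B (M (nat_lit 620) (B (L (nat_lit 715) ln11_22_6_c10 ln11_22_6_c10_ok) (M (nat_lit 652) (B (L (nat_lit 684) ln11_17_4_c10 ln11_17_4_c10_ok) (L (nat_lit 523) ln11_16_4 ln11_16_4_ok))))) (B (M (nat_lit 620) (B (L (nat_lit 715) ln11_22_6_c10 ln11_22_6_c10_ok) (M (nat_lit 523) (B (L (nat_lit 652) ln11_16_4 ln11_16_4_ok)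 (L (nat_lit 491) ln11_15_4 ln11_15_4_ok))))) (M (nat_lit 715) (B (L (nat_lit 620) ln11_22_6_c10 ln11_22_6_c10_ok) (M (nat_lit 716) (B (L (nat_lit 748) ln11_19_4_c10 ln11_19_4_c10_ok) (L (nat_lit 684) ln11_18_4_c10 ln11_18_4_c10_ok))))))))) (B (M (nat_lit 620) (B (M (nat_lit 523) (B (L (nat_lit 652) ln11_16_4 ln11_16_4_ok) (L (nat_lit 491) ln11_15_4 ln11_15_4_ok))) (M (nat_lit 622) (B (L (nat_lit 623) ln11_18_0_c10 ln11_18_0_c10_ok) (M (nat_lit 650) (B (L (nat_lit 682) ln11_17_5_c10 ln11_17_5_c10_ok) (L (nat_lit 621) ln14_19_1_c10 ln14_19_1_c10_ok))))))) (M (nat_lit 683) (B (M (nat_lit 682) (B (L (nat_lit 714) ln11_18_5_c10 ln11_18_5_c10_ok) (L (nat_lit 650) ln11_17_5_c10 ln11_17_5_c10_ok))) (M (nat_lit 715) (B (L (nat_lit 620) ln11_22_6_c10 ln11_22_6_c10_ok) (M (nat_lit 716) (B (L (nat_lit 748) ln11_19_4_c10 ln11_19_4_c10_ok) (L (nat_lit 684) ln11_18_4_c10 ln11_18_4_c10_ok))))))))))))))))))))))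
noncomputable def c10_d124 : Cert := (B (M (nat_lit 587) (B (M (nat_lit 586) (B (M (nat_lit 622) (B (L (nat_lit 623) ln11_18_0_c10 ln11_18_0_c10_ok) (L (nat_lit 621) ln10_18_0_c10 ln10_18_0_c10_ok))) (M (nat_lit 554) (B (L (nat_lit 555) ln14_18_3_c10 ln14_18_3_c10_ok) (L (nat_lit 553) ln13_18_3 ln13_18_3_ok))))) (B (M (nat_lit 618) (B (L (nat_lit 619) ln14_18_1_c10 ln14_18_1_c10_ok) (M (nat_lit 586) (B (L (nat_lit 617) ln13_18_1_c10 ln13_18_1_c10_ok) (M (nat_lit 554) (B (L (nat_lit 555) ln14_18_3_c10 ln14_18_3_c10_ok) (L (nat_lit 553) ln13_18_3 ln13_18_3_ok))))))) (B (M (nat_lit 586) (B (M (nat_lit 622) (B (L (nat_lit 623) ln11_18_0_c10 ln11_18_0_c10_ok) (L (nat_lit 621) ln10_18_0_c10 ln10_18_0_c10_ok))) (M (nat_lit 618) (B (L (nat_lit 619) ln14_18_1_c10 ln14_18_1_c10_ok) (L (nat_lit 617) ln13_18_1_c10 ln13_18_1_c10_ok))))) (M (nat_lit 591) (B (M (nat_lit 623) (B (L (nat_lit 624) ln12_18_0_c10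 ln12_18_0_c10_ok) (L (nat_lit 622) ln11_18_0_c10 ln11_18_0_c10_ok))) (M (nat_lit 619) (B (L (nat_lit 620) ln15_18_1_c10 ln15_18_1_c10_ok) (L (nat_lit 618) ln14_18_1_c10 ln14_18_1_c10_ok))))))))) (B (M (nat_lit 587) (B (M (nat_lit 586) (B (M (nat_lit 554) (B (L (nat_lit 553) ln13_18_3 ln13_18_3_ok) (L (nat_lit 555) ln14_18_3_c10 ln14_18_3_c10_ok))) (M (nat_lit 618) (B (L (nat_lit 617) ln13_18_1_c10 ln13_18_1_c10_ok) (L (nat_lit 619) ln14_18_1_c10 ln14_18_1_c10_ok))))) (B (M (nat_lit 591) (B (M (nat_lit 619) (B (L (nat_lit 618) ln14_18_1_c10 ln14_18_1_c10_ok) (L (nat_lit 620) ln15_18_1_c10 ln15_18_1_c10_ok))) (M (nat_lit 559) (B (L (nat_lit 558) ln11_18_2_c10 ln11_18_2_c10_ok) (L (nat_lit 560) ln12_18_2_c10 ln12_18_2_c10_ok))))) (B (M (nat_lit 620) (B (M (nat_lit 559) (B (L (nat_lit 558) ln11_18_2_c10 ln11_18_2_c10_ok) (M (nat_lit 591) (B (L (nat_lit 619) ln15_18_1_c10 ln15_18_1_c10_ok)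 (L (nat_lit 560) ln12_18_2_c10 ln12_18_2_c10_ok))))) (M (nat_lit 586) (B (M (nat_lit 554) (B (L (nat_lit 553) ln13_18_3 ln13_18_3_ok) (L (nat_lit 555) ln14_18_3_c10 ln14_18_3_c10_ok))) (M (nat_lit 621) (B (L (nat_lit 585) ln9_18_0_c10 ln9_18_0_c10_ok) (L (nat_lit 622) ln10_18_0_c10 ln10_18_0_c10_ok))))))) (M (nat_lit 586) (B (M (nat_lit 554) (B (L (nat_lit 553) ln13_18_3 ln13_18_3_ok) (L (nat_lit 555) ln14_18_3_c10 ln14_18_3_c10_ok))) (M (nat_lit 585) (B (M (nat_lit 617) (B (L (nat_lit 616) ln12_18_1 ln12_18_1_ok) (L (nat_lit 618) ln13_18_1_c10 ln13_18_1_c10_ok))) (M (nat_lit 621) (B (L (nat_lit 620) ln9_18_0_c10 ln9_18_0_c10_ok) (L (nat_lit 622) ln10_18_0_c10 ln10_18_0_c10_ok))))))))))) (B (M (nat_lit 591) (B (M (nat_lit 592) (B (M (nat_lit 620) (B (L (nat_lit 619) ln15_18_1_c10 ln15_18_1_c10_ok) (L (nat_lit 621) ln16_18_1_c10 ln16_18_1_c10_ok))) (M (nat_lit 624) (B (L (nat_lit 623) ln12_18_0_c10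 ln12_18_0_c10_ok) (L (nat_lit 625) ln13_18_0_c10 ln13_18_0_c10_ok))))) (B (M (nat_lit 592) (B (M (nat_lit 624) (B (L (nat_lit 623) ln12_18_0_c10 ln12_18_0_c10_ok) (L (nat_lit 625) ln13_18_0_c10 ln13_18_0_c10_ok))) (M (nat_lit 560) (B (L (nat_lit 559) ln12_18_2_c10 ln12_18_2_c10_ok) (L (nat_lit 561) ln13_18_2_c10 ln13_18_2_c10_ok))))) (B (M (nat_lit 592) (B (M (nat_lit 620) (B (L (nat_lit 619) ln15_18_1_c10 ln15_18_1_c10_ok) (L (nat_lit 621) ln16_18_1_c10 ln16_18_1_c10_ok))) (M (nat_lit 560) (B (L (nat_lit 559) ln12_18_2_c10 ln12_18_2_c10_ok) (L (nat_lit 561) ln13_18_2_c10 ln13_18_2_c10_ok))))) (M (nat_lit 587) (B (M (nat_lit 623) (B (L (nat_lit 622) ln11_18_0_c10 ln11_18_0_c10_ok) (L (nat_lit 624) ln12_18_0_c10 ln12_18_0_c10_ok))) (M (nat_lit 559) (B (L (nat_lit 558) ln11_18_2_c10 ln11_18_2_c10_ok) (L (nat_lit 560) ln12_18_2_c10 ln12_18_2_c10_ok))))))))) (B (M (nat_lit 591) (B (M (nat_lit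 624) (B (L (nat_lit 623) ln12_18_0_c10 ln12_18_0_c10_ok) (M (nat_lit 592) (B (L (nat_lit 625) ln13_18_0_c10 ln13_18_0_c10_ok) (M (nat_lit 560) (B (L (nat_lit 561) ln13_18_2_c10 ln13_18_2_c10_ok) (L (nat_lit 559) ln12_18_2_c10 ln12_18_2_c10_ok))))))) (B (M (nat_lit 592) (B (M (nat_lit 624) (B (L (nat_lit 625) ln13_18_0_c10 ln13_18_0_c10_ok) (L (nat_lit 623) ln12_18_0_c10 ln12_18_0_c10_ok))) (M (nat_lit 620) (B (L (nat_lit 621) ln16_18_1_c10 ln16_18_1_c10_ok) (L (nat_lit 619) ln15_18_1_c10 ln15_18_1_c10_ok))))) (B (M (nat_lit 623) (B (L (nat_lit 624) ln12_18_0_c10 ln12_18_0_c10_ok) (M (nat_lit 655) (B (M (nat_lit 687) (B (L (nat_lit 558) ln15_21_7_c10 ln15_21_7_c10_ok) (M (nat_lit 719) (B (L (nat_lit 622) ln15_22_7_c10 ln15_22_7_c10_ok) (M (nat_lit 720) (B (L (nat_lit 688) ln15_18_4_c10 ln15_18_4_c10_ok) (L (nat_lit 752) ln15_19_4_c10 ln15_19_4_c10_ok))))))) (B (M (nat_lit 687) (B (M (nat_lit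 559) (B (L (nat_lit 560) ln12_18_2_c10 ln12_18_2_c10_ok) (M (nat_lit 688) (B (L (nat_lit 656) ln15_17_4_c10 ln15_17_4_c10_ok) (L (nat_lit 720) ln15_18_4_c10 ln15_18_4_c10_ok))))) (B (M (nat_lit 719) (B (L (nat_lit 622) ln15_22_7_c10 ln15_22_7_c10_ok) (M (nat_lit 720) (B (L (nat_lit 688) ln15_18_4_c10 ln15_18_4_c10_ok) (L (nat_lit 752) ln15_19_4_c10 ln15_19_4_c10_ok))))) (M (nat_lit 559) (B (L (nat_lit 560) ln12_18_2_c10 ln12_18_2_c10_ok) (M (nat_lit 686) (B (L (nat_lit 654) ln15_17_5_c10 ln15_17_5_c10_ok) (L (nat_lit 718) ln15_18_5_c10 ln15_18_5_c10_ok)))))))) (B (M (nat_lit 687) (B (L (nat_lit 558) ln15_21_7_c10 ln15_21_7_c10_ok) (M (nat_lit 559) (B (L (nat_lit 560) ln12_18_2_c10 ln12_18_2_c10_ok) (M (nat_lit 686) (B (L (nat_lit 654) ln15_17_5_c10 ln15_17_5_c10_ok) (L (nat_lit 718) ln15_18_5_c10 ln15_18_5_c10_ok))))))) (M (nat_lit 559) (B (L (nat_lit 560) ln12_18_2_c10 ln12_18_2_c10_ok)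 (M (nat_lit 622) (B (M (nat_lit 654) (B (L (nat_lit 527) ln15_15_5_c10 ln15_15_5_c10_ok) (L (nat_lit 686) ln15_17_5_c10 ln15_17_5_c10_ok))) (M (nat_lit 620) (B (L (nat_lit 619) ln15_18_1_c10 ln15_18_1_c10_ok) (M (nat_lit 656) (B (L (nat_lit 688) ln15_17_4_c10 ln15_17_4_c10_ok) (L (nat_lit 621) ln12_19_0_c10 ln12_19_0_c10_ok))))))))))))))) (M (nat_lit 592) (B (M (nat_lit 560) (B (L (nat_lit 561) ln13_18_2_c10 ln13_18_2_c10_ok) (L (nat_lit 559) ln12_18_2_c10 ln12_18_2_c10_ok))) (M (nat_lit 620) (B (L (nat_lit 621) ln16_18_1_c10 ln16_18_1_c10_ok) (L (nat_lit 619) ln15_18_1_c10 ln15_18_1_c10_ok))))))))) c10_d123))))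
noncomputable def c10_d125 : Cert := (B (M (nat_lit 587) (B (M (nat_lit 618) (B (L (nat_lit 619) ln14_18_1_c10 ln14_18_1_c10_ok) (M (nat_lit 586) (B (L (nat_lit 617) ln13_18_1_c10 ln13_18_1_c10_ok) (M (nat_lit 554) (B (L (nat_lit 553) ln13_18_3 ln13_18_3_ok) (L (nat_lit 555) ln14_18_3_c10 ln14_18_3_c10_ok))))))) (B (M (nat_lit 586) (B (M (nat_lit 618) (B (L (nat_lit 617) ln13_18_1_c10 ln13_18_1_c10_ok) (L (nat_lit 619) ln14_18_1_c10 ln14_18_1_c10_ok))) (M (nat_lit 622) (B (L (nat_lit 621) ln10_18_0_c10 ln10_18_0_c10_ok) (L (nat_lit 623) ln11_18_0_c10 ln11_18_0_c10_ok))))) (B (M (nat_lit 619) (B (L (nat_lit 618) ln14_18_1_c10 ln14_18_1_c10_ok) (M (nat_lit 651) (B (M (nat_lit 683) (B (L (nat_lit 556) ln11_21_6_c10 ln11_21_6_c10_ok) (M (nat_lit 715) (B (L (nat_lit 620) ln11_22_6_c10 ln11_22_6_c10_ok) (M (nat_lit 714) (B (L (nat_lit 682) ln11_18_5_c10 ln11_18_5_c10_ok) (L (nat_lit 746) ln11_19_5_c10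 ln11_19_5_c10_ok))))))) (B (M (nat_lit 683) (B (M (nat_lit 555) (B (L (nat_lit 554) ln14_18_3_c10 ln14_18_3_c10_ok) (M (nat_lit 682) (B (L (nat_lit 650) ln11_17_5_c10 ln11_17_5_c10_ok) (L (nat_lit 714) ln11_18_5_c10 ln11_18_5_c10_ok))))) (B (M (nat_lit 715) (B (L (nat_lit 620) ln11_22_6_c10 ln11_22_6_c10_ok) (M (nat_lit 714) (B (L (nat_lit 682) ln11_18_5_c10 ln11_18_5_c10_ok) (L (nat_lit 746) ln11_19_5_c10 ln11_19_5_c10_ok))))) (M (nat_lit 555) (B (L (nat_lit 554) ln14_18_3_c10 ln14_18_3_c10_ok) (M (nat_lit 684) (B (L (nat_lit 652) ln11_17_4_c10 ln11_17_4_c10_ok) (L (nat_lit 716) ln11_18_4_c10 ln11_18_4_c10_ok)))))))) (B (M (nat_lit 683) (B (L (nat_lit 556) ln11_21_6_c10 ln11_21_6_c10_ok) (M (nat_lit 555) (B (L (nat_lit 554) ln14_18_3_c10 ln14_18_3_c10_ok) (M (nat_lit 684) (B (L (nat_lit 652) ln11_17_4_c10 ln11_17_4_c10_ok) (L (nat_lit 716) ln11_18_4_c10 ln11_18_4_c10_ok))))))) (M (nat_lit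 555) (B (L (nat_lit 554) ln14_18_3_c10 ln14_18_3_c10_ok) (M (nat_lit 620) (B (M (nat_lit 652) (B (L (nat_lit 523) ln11_16_4 ln11_16_4_ok) (L (nat_lit 684) ln11_17_4_c10 ln11_17_4_c10_ok))) (M (nat_lit 622) (B (L (nat_lit 623) ln11_18_0_c10 ln11_18_0_c10_ok) (M (nat_lit 650) (B (L (nat_lit 682) ln11_17_5_c10 ln11_17_5_c10_ok) (L (nat_lit 621) ln14_19_1_c10 ln14_19_1_c10_ok))))))))))))))) (M (nat_lit 586) (B (M (nat_lit 554) (B (L (nat_lit 553) ln13_18_3 ln13_18_3_ok) (L (nat_lit 555) ln14_18_3_c10 ln14_18_3_c10_ok))) (M (nat_lit 622) (B (L (nat_lit 621) ln10_18_0_c10 ln10_18_0_c10_ok) (L (nat_lit 623) ln11_18_0_c10 ln11_18_0_c10_ok))))))))) (B (M (nat_lit 587) (B (M (nat_lit 586) (B (M (nat_lit 554) (B (L (nat_lit 553) ln13_18_3 ln13_18_3_ok) (L (nat_lit 555) ln14_18_3_c10 ln14_18_3_c10_ok))) (M (nat_lit 618) (B (L (nat_lit 617) ln13_18_1_c10 ln13_18_1_c10_ok) (L (nat_lit 619) ln14_18_1_c10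 ln14_18_1_c10_ok))))) (B (M (nat_lit 619) (B (L (nat_lit 618) ln14_18_1_c10 ln14_18_1_c10_ok) (M (nat_lit 620) (B (L (nat_lit 591) ln15_18_1_c10 ln15_18_1_c10_ok) (M (nat_lit 555) (B (L (nat_lit 554) ln14_18_3_c10 ln14_18_3_c10_ok) (M (nat_lit 523) (B (L (nat_lit 491) ln11_15_4 ln11_15_4_ok) (L (nat_lit 652) ln11_16_4 ln11_16_4_ok))))))))) (B (M (nat_lit 586) (B (M (nat_lit 618) (B (L (nat_lit 617) ln13_18_1_c10 ln13_18_1_c10_ok) (L (nat_lit 619) ln14_18_1_c10 ln14_18_1_c10_ok))) (B (M (nat_lit 620) (B (M (nat_lit 621) (B (L (nat_lit 585) ln9_18_0_c10 ln9_18_0_c10_ok) (L (nat_lit 622) ln10_18_0_c10 ln10_18_0_c10_ok))) (M (nat_lit 619) (B (L (nat_lit 618) ln14_18_1_c10 ln14_18_1_c10_ok) (L (nat_lit 591) ln15_18_1_c10 ln15_18_1_c10_ok))))) (M (nat_lit 585) (B (M (nat_lit 621) (B (L (nat_lit 620) ln9_18_0_c10 ln9_18_0_c10_ok) (L (nat_lit 622) ln10_18_0_c10 ln10_18_0_c10_ok))) (M (nat_lit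 584) (B (M (nat_lit 552) (B (L (nat_lit 551) ln11_18_3 ln11_18_3_ok) (L (nat_lit 553) ln12_18_3 ln12_18_3_ok))) (M (nat_lit 616) (B (L (nat_lit 615) ln11_18_1 ln11_18_1_ok) (L (nat_lit 617) ln12_18_1 ln12_18_1_ok)))))))))) (B (M (nat_lit 586) (B (M (nat_lit 554) (B (L (nat_lit 553) ln13_18_3 ln13_18_3_ok) (L (nat_lit 555) ln14_18_3_c10 ln14_18_3_c10_ok))) (M (nat_lit 621) (B (L (nat_lit 622) ln10_18_0_c10 ln10_18_0_c10_ok) (M (nat_lit 620) (B (L (nat_lit 585) ln9_18_0_c10 ln9_18_0_c10_ok) (M (nat_lit 591) (B (L (nat_lit 619) ln15_18_1_c10 ln15_18_1_c10_ok) (L (nat_lit 592) ln16_18_1_c10 ln16_18_1_c10_ok))))))))) (M (nat_lit 586) (B (M (nat_lit 554) (B (L (nat_lit 553) ln13_18_3 ln13_18_3_ok) (L (nat_lit 555) ln14_18_3_c10 ln14_18_3_c10_ok))) (M (nat_lit 585) (B (M (nat_lit 617) (B (L (nat_lit 616) ln12_18_1 ln12_18_1_ok) (L (nat_lit 618) ln13_18_1_c10 ln13_18_1_c10_ok))) (M (nat_lit 621)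 (B (L (nat_lit 620) ln9_18_0_c10 ln9_18_0_c10_ok) (L (nat_lit 622) ln10_18_0_c10 ln10_18_0_c10_ok)))))))))))) (M (nat_lit 591) (B (M (nat_lit 592) (B (M (nat_lit 561) (B (L (nat_lit 560) ln13_18_2_c10 ln13_18_2_c10_ok) (M (nat_lit 593) (B (L (nat_lit 562) ln14_18_2_c10 ln14_18_2_c10_ok) (M (nat_lit 625) (B (L (nat_lit 624) ln13_18_0_c10 ln13_18_0_c10_ok) (L (nat_lit 626) ln14_18_0_c10 ln14_18_0_c10_ok))))))) (B (M (nat_lit 593) (B (M (nat_lit 621) (B (L (nat_lit 620) ln16_18_1_c10 ln16_18_1_c10_ok) (L (nat_lit 622) ln17_18_1_c10 ln17_18_1_c10_ok))) (M (nat_lit 625) (B (L (nat_lit 624) ln13_18_0_c10 ln13_18_0_c10_ok) (L (nat_lit 626) ln14_18_0_c10 ln14_18_0_c10_ok))))) (B (M (nat_lit 593) (B (M (nat_lit 621) (B (L (nat_lit 620) ln16_18_1_c10 ln16_18_1_c10_ok) (L (nat_lit 622) ln17_18_1_c10 ln17_18_1_c10_ok))) (M (nat_lit 561) (B (L (nat_lit 560) ln13_18_2_c10 ln13_18_2_c10_ok) (L (nat_lit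 562) ln14_18_2_c10 ln14_18_2_c10_ok))))) (M (nat_lit 620) (B (L (nat_lit 619) ln15_18_1_c10 ln15_18_1_c10_ok) (L (nat_lit 621) ln16_18_1_c10 ln16_18_1_c10_ok))))))) (B (M (nat_lit 624) (B (M (nat_lit 625) (B (L (nat_lit 592) ln13_18_0_c10 ln13_18_0_c10_ok) (L (nat_lit 623) ln12_18_0_c10 ln12_18_0_c10_ok))) (B (M (nat_lit 559) (B (L (nat_lit 623) ln12_18_0_c10 ln12_18_0_c10_ok) (L (nat_lit 560) ln12_18_2_c10 ln12_18_2_c10_ok))) (M (nat_lit 592) (B (L (nat_lit 625) ln13_18_0_c10 ln13_18_0_c10_ok) (M (nat_lit 560) (B (L (nat_lit 561) ln13_18_2_c10 ln13_18_2_c10_ok) (L (nat_lit 559) ln12_18_2_c10 ln12_18_2_c10_ok)))))))) (B (M (nat_lit 592) (B (M (nat_lit 560) (B (L (nat_lit 561) ln13_18_2_c10 ln13_18_2_c10_ok) (L (nat_lit 559) ln12_18_2_c10 ln12_18_2_c10_ok))) (M (nat_lit 620) (B (L (nat_lit 621) ln16_18_1_c10 ln16_18_1_c10_ok) (L (nat_lit 619) ln15_18_1_c10 ln15_18_1_c10_ok))))) (B (M (nat_lit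 592) (B (M (nat_lit 620) (B (L (nat_lit 619) ln15_18_1_c10 ln15_18_1_c10_ok) (L (nat_lit 621) ln16_18_1_c10 ln16_18_1_c10_ok))) (M (nat_lit 624) (B (L (nat_lit 623) ln12_18_0_c10 ln12_18_0_c10_ok) (L (nat_lit 625) ln13_18_0_c10 ln13_18_0_c10_ok))))) (M (nat_lit 623) (B (L (nat_lit 624) ln12_18_0_c10 ln12_18_0_c10_ok) (M (nat_lit 559) (B (L (nat_lit 560) ln12_18_2_c10 ln12_18_2_c10_ok) (M (nat_lit 655) (B (M (nat_lit 686) (B (L (nat_lit 654) ln15_17_5_c10 ln15_17_5_c10_ok) (M (nat_lit 687) (B (L (nat_lit 718) ln15_18_5_c10 ln15_18_5_c10_ok) (M (nat_lit 688) (B (L (nat_lit 720) ln15_18_4_c10 ln15_18_4_c10_ok) (L (nat_lit 656) ln15_17_4_c10 ln15_17_4_c10_ok))))))) (B (M (nat_lit 622) (B (M (nat_lit 654) (B (L (nat_lit 686) ln15_17_5_c10 ln15_17_5_c10_ok) (L (nat_lit 527) ln15_15_5_c10 ln15_15_5_c10_ok))) (B (L (nat_lit 527) ln15_15_5_c10 ln15_15_5_c10_ok) (M (nat_lit 620) (B (L (nat_lit 619)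 ln15_18_1_c10 ln15_18_1_c10_ok) (M (nat_lit 656) (B (L (nat_lit 688) ln15_17_4_c10 ln15_17_4_c10_ok) (L (nat_lit 621) ln12_19_0_c10 ln12_19_0_c10_ok)))))))) (B (M (nat_lit 687) (B (M (nat_lit 686) (B (L (nat_lit 718) ln15_18_5_c10 ln15_18_5_c10_ok) (L (nat_lit 654) ln15_17_5_c10 ln15_17_5_c10_ok))) (B (M (nat_lit 622) (B (L (nat_lit 719) ln15_22_7_c10 ln15_22_7_c10_ok) (M (nat_lit 654) (B (L (nat_lit 686) ln15_17_5_c10 ln15_17_5_c10_ok) (L (nat_lit 527) ln15_15_5_c10 ln15_15_5_c10_ok))))) (M (nat_lit 622) (B (L (nat_lit 719) ln15_22_7_c10 ln15_22_7_c10_ok) (L (nat_lit 527) ln15_15_5_c10 ln15_15_5_c10_ok)))))) (M (nat_lit 622) (B (L (nat_lit 527) ln15_15_5_c10 ln15_15_5_c10_ok) (M (nat_lit 620) (B (L (nat_lit 619) ln15_18_1_c10 ln15_18_1_c10_ok) (M (nat_lit 656) (B (L (nat_lit 688) ln15_17_4_c10 ln15_17_4_c10_ok) (L (nat_lit 621) ln12_19_0_c10 ln12_19_0_c10_ok))))))))))))))))))))))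
noncomputable def c10_d126 : Cert := (B (M (nat_lit 656) (B (M (nat_lit 621) (B (L (nat_lit 657) ln17_20_3_c10 ln17_20_3_c10_ok) (M (nat_lit 620) (B (L (nat_lit 619) ln11_19_0_c10 ln11_19_0_c10_ok) (L (nat_lit 653) ln16_20_3_c10 ln16_20_3_c10_ok))))) (B (M (nat_lit 625) (B (M (nat_lit 657) (B (L (nat_lit 621) ln17_20_3_c10 ln17_20_3_c10_ok) (L (nat_lit 626) ln14_20_2_c10 ln14_20_2_c10_ok))) (B (M (nat_lit 624) (B (L (nat_lit 653) ln13_20_2_c10 ln13_20_2_c10_ok) (M (nat_lit 626) (B (L (nat_lit 657) ln14_20_2_c10 ln14_20_2_c10_ok) (L (nat_lit 627) ln19_19_1_c10 ln19_19_1_c10_ok))))) (M (nat_lit 653) (B (L (nat_lit 624) ln13_20_2_c10 ln13_20_2_c10_ok) (M (nat_lit 685) (B (L (nat_lit 684) ln16_20_1_c10 ln16_20_1_c10_ok) (M (nat_lit 717) (B (L (nat_lit 621) ln13_22_6_c10 ln13_22_6_c10_ok) (L (nat_lit 749) ln13_23_6_c10 ln13_23_6_c10_ok)))))))))) (B (M (nat_lit 653) (B (M (nat_lit 685) (B (L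 (nat_lit 684) ln16_20_1_c10 ln16_20_1_c10_ok) (M (nat_lit 621) (B (L (nat_lit 717) ln13_22_6_c10 ln13_22_6_c10_ok) (L (nat_lit 620) ln16_20_3_c10 ln16_20_3_c10_ok))))) (B (M (nat_lit 652) (B (M (nat_lit 688) (B (L (nat_lit 689) ln13_20_0_c10 ln13_20_0_c10_ok) (L (nat_lit 687) ln12_20_0_c10 ln12_20_0_c10_ok))) (M (nat_lit 620) (B (L (nat_lit 621) ln16_20_3_c10 ln16_20_3_c10_ok) (L (nat_lit 619) ln15_20_3_c10 ln15_20_3_c10_ok))))) (M (nat_lit 652) (B (M (nat_lit 688) (B (L (nat_lit 689) ln13_20_0_c10 ln13_20_0_c10_ok) (L (nat_lit 687) ln12_20_0_c10 ln12_20_0_c10_ok))) (M (nat_lit 684) (B (L (nat_lit 685) ln16_20_1_c10 ln16_20_1_c10_ok) (L (nat_lit 683) ln15_20_1_c10 ln15_20_1_c10_ok)))))))) (B (M (nat_lit 657) (B (L (nat_lit 621) ln17_20_3_c10 ln17_20_3_c10_ok) (M (nat_lit 690) (B (L (nat_lit 689) ln14_20_0_c10 ln14_20_0_c10_ok) (M (nat_lit 626) (B (L (nat_lit 625) ln14_20_2_c10 ln14_20_2_c10_ok)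 (M (nat_lit 658) (B (L (nat_lit 691) ln15_20_0_c10 ln15_20_0_c10_ok) (L (nat_lit 627) ln15_20_2_c10 ln15_20_2_c10_ok))))))))) (M (nat_lit 625) (B (M (nat_lit 626) (B (L (nat_lit 657) ln14_20_2_c10 ln14_20_2_c10_ok) (M (nat_lit 624) (B (L (nat_lit 627) ln19_19_1_c10 ln19_19_1_c10_ok) (L (nat_lit 653) ln13_20_2_c10 ln13_20_2_c10_ok))))) (B (M (nat_lit 689) (B (M (nat_lit 657) (B (L (nat_lit 690) ln14_20_0_c10 ln14_20_0_c10_ok) (L (nat_lit 626) ln14_20_2_c10 ln14_20_2_c10_ok))) (M (nat_lit 653) (B (L (nat_lit 688) ln13_20_0_c10 ln13_20_0_c10_ok) (L (nat_lit 624) ln13_20_2_c10 ln13_20_2_c10_ok))))) (B (M (nat_lit 653) (B (L (nat_lit 624) ln13_20_2_c10 ln13_20_2_c10_ok) (M (nat_lit 652) (B (M (nat_lit 688) (B (L (nat_lit 689) ln13_20_0_c10 ln13_20_0_c10_ok) (L (nat_lit 687) ln12_20_0_c10 ln12_20_0_c10_ok))) (M (nat_lit 684) (B (L (nat_lit 685) ln16_20_1_c10 ln16_20_1_c10_ok) (L (nat_lit 683)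 ln15_20_1_c10 ln15_20_1_c10_ok))))))) (B (M (nat_lit 657) (B (L (nat_lit 626) ln14_20_2_c10 ln14_20_2_c10_ok) (M (nat_lit 689) (B (L (nat_lit 690) ln14_20_0_c10 ln14_20_0_c10_ok) (M (nat_lit 688) (B (L (nat_lit 653) ln13_20_0_c10 ln13_20_0_c10_ok) (M (nat_lit 720) (B (L (nat_lit 593) ln17_18_5_c10 ln17_18_5_c10_ok) (L (nat_lit 752) ln16_23_6_c10 ln16_23_6_c10_ok))))))))) (M (nat_lit 657) (B (L (nat_lit 626) ln14_20_2_c10 ln14_20_2_c10_ok) (M (nat_lit 688) (B (M (nat_lit 689) (B (L (nat_lit 690) ln14_20_0_c10 ln14_20_0_c10_ok) (M (nat_lit 593) (B (L (nat_lit 720) ln17_18_5_c10 ln17_18_5_c10_ok) (L (nat_lit 561) ln17_17_5_c10 ln17_17_5_c10_ok))))) (B (M (nat_lit 593) (B (L (nat_lit 561) ln17_17_5_c10 ln17_17_5_c10_ok) (M (nat_lit 720) (B (L (nat_lit 689) ln17_18_5_c10 ln17_18_5_c10_ok) (L (nat_lit 752) ln16_23_6_c10 ln16_23_6_c10_ok))))) (B (M (nat_lit 593) (B (L (nat_lit 561) ln17_17_5_c10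 ln17_17_5_c10_ok) (M (nat_lit 720) (B (L (nat_lit 752) ln16_23_6_c10 ln16_23_6_c10_ok) (L (nat_lit 624) ln16_22_6_c10 ln16_22_6_c10_ok))))) (M (nat_lit 658) (B (M (nat_lit 690) (B (L (nat_lit 691) ln15_20_0_c10 ln15_20_0_c10_ok) (L (nat_lit 689) ln14_20_0_c10 ln14_20_0_c10_ok))) (B (M (nat_lit 659) (B (L (nat_lit 687) ln19_20_1_c10 ln19_20_1_c10_ok) (M (nat_lit 660) (B (L (nat_lit 689) ln20_20_1_c10 ln20_20_1_c10_ok) (L (nat_lit 624) ln20_20_3_c10 ln20_20_3_c10_ok))))) (M (nat_lit 659) (B (L (nat_lit 687) ln19_20_1_c10 ln19_20_1_c10_ok) (M (nat_lit 691) (B (L (nat_lit 692) ln16_20_0_c10 ln16_20_0_c10_ok) (L (nat_lit 690) ln15_20_0_c10 ln15_20_0_c10_ok)))))))))))))))))))))))) (B (M (nat_lit 656) (B (M (nat_lit 621) (B (L (nat_lit 657) ln17_20_3_c10 ln17_20_3_c10_ok) (M (nat_lit 620) (B (L (nat_lit 619) ln11_19_0_c10 ln11_19_0_c10_ok) (L (nat_lit 623) ln12_19_0_c10 ln12_19_0_c10_ok)))))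 (B (M (nat_lit 621) (B (L (nat_lit 657) ln17_20_3_c10 ln17_20_3_c10_ok) (M (nat_lit 620) (B (L (nat_lit 653) ln16_20_3_c10 ln16_20_3_c10_ok) (L (nat_lit 623) ln12_19_0_c10 ln12_19_0_c10_ok))))) (B (M (nat_lit 657) (B (L (nat_lit 621) ln17_20_3_c10 ln17_20_3_c10_ok) (M (nat_lit 658) (B (L (nat_lit 623) ln18_20_3_c10 ln18_20_3_c10_ok) (M (nat_lit 626) (B (L (nat_lit 625) ln14_20_2_c10 ln14_20_2_c10_ok) (L (nat_lit 627) ln15_20_2_c10 ln15_20_2_c10_ok))))))) (B (M (nat_lit 657) (B (M (nat_lit 658) (B (L (nat_lit 623) ln18_20_3_c10 ln18_20_3_c10_ok) (M (nat_lit 626) (B (L (nat_lit 625) ln14_20_2_c10 ln14_20_2_c10_ok) (L (nat_lit 627) ln15_20_2_c10 ln15_20_2_c10_ok))))) (B (M (nat_lit 658) (B (M (nat_lit 626) (B (L (nat_lit 625) ln14_20_2_c10 ln14_20_2_c10_ok) (L (nat_lit 627) ln15_20_2_c10 ln15_20_2_c10_ok))) (M (nat_lit 690) (B (L (nat_lit 689) ln14_20_0_c10 ln14_20_0_c10_ok) (L (nat_lit 691)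 ln15_20_0_c10 ln15_20_0_c10_ok))))) (B (M (nat_lit 658) (B (L (nat_lit 623) ln18_20_3_c10 ln18_20_3_c10_ok) (M (nat_lit 690) (B (L (nat_lit 689) ln14_20_0_c10 ln14_20_0_c10_ok) (L (nat_lit 691) ln15_20_0_c10 ln15_20_0_c10_ok))))) (M (nat_lit 653) (B (M (nat_lit 625) (B (L (nat_lit 624) ln13_20_2_c10 ln13_20_2_c10_ok) (L (nat_lit 626) ln14_20_2_c10 ln14_20_2_c10_ok))) (M (nat_lit 652) (B (M (nat_lit 684) (B (L (nat_lit 683) ln15_20_1_c10 ln15_20_1_c10_ok) (L (nat_lit 685) ln16_20_1_c10 ln16_20_1_c10_ok))) (M (nat_lit 619) (B (L (nat_lit 620) ln15_20_3_c10 ln15_20_3_c10_ok) (M (nat_lit 651) (B (L (nat_lit 618) ln14_20_3_c10 ln14_20_3_c10_ok) (L (nat_lit 623) ln11_20_2_c10 ln11_20_2_c10_ok))))))))))))) (B (M (nat_lit 621) (B (L (nat_lit 657) ln17_20_3_c10 ln17_20_3_c10_ok) (M (nat_lit 620) (B (L (nat_lit 619) ln11_19_0_c10 ln11_19_0_c10_ok) (L (nat_lit 653) ln16_20_3_c10 ln16_20_3_c10_ok)))))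 (M (nat_lit 653) (B (M (nat_lit 652) (B (M (nat_lit 684) (B (L (nat_lit 683) ln15_20_1_c10 ln15_20_1_c10_ok) (L (nat_lit 685) ln16_20_1_c10 ln16_20_1_c10_ok))) (M (nat_lit 624) (B (L (nat_lit 623) ln12_20_2_c10 ln12_20_2_c10_ok) (L (nat_lit 625) ln13_20_2_c10 ln13_20_2_c10_ok))))) (B (M (nat_lit 652) (B (M (nat_lit 620) (B (L (nat_lit 619) ln15_20_3_c10 ln15_20_3_c10_ok) (L (nat_lit 621) ln16_20_3_c10 ln16_20_3_c10_ok))) (M (nat_lit 624) (B (L (nat_lit 623) ln12_20_2_c10 ln12_20_2_c10_ok) (L (nat_lit 625) ln13_20_2_c10 ln13_20_2_c10_ok))))) (M (nat_lit 685) (B (L (nat_lit 684) ln16_20_1_c10 ln16_20_1_c10_ok) (M (nat_lit 621) (B (L (nat_lit 620) ln16_20_3_c10 ln16_20_3_c10_ok) (L (nat_lit 717) ln13_22_6_c10 ln13_22_6_c10_ok)))))))))))))) (M (nat_lit 560) (B (L (nat_lit 464) ln16_14_5_c10 ln16_14_5_c10_ok) (L (nat_lit 623) ln15_20_6_c10 ln15_20_6_c10_ok)))))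
noncomputable def c10_d127 : Cert := (B (M (nat_lit 559) (B (M (nat_lit 464) (B (L (nat_lit 560) ln16_14_5_c10 ln16_14_5_c10_ok) (L (nat_lit 527) ln15_15_5_c10 ln15_15_5_c10_ok))) (B (L (nat_lit 527) ln15_15_5_c10 ln15_15_5_c10_ok) (M (nat_lit 560) (B (L (nat_lit 464) ln16_14_5_c10 ln16_14_5_c10_ok) (M (nat_lit 623) (B (L (nat_lit 592) ln16_15_5_c10 ln16_15_5_c10_ok) (L (nat_lit 655) ln15_20_6_c10 ln15_20_6_c10_ok)))))))) (B (K (nat_lit 17404329762802738831934132754465279409129164007880131245549984505962047508750818816267932199949918218402502386932219598835822639573634862361973722682258466533537548686126349247630054260736) (nat_lit 1087770609402202334509475734601541868627683570564564647441553474937424116231143321124343819984683676252761370898748221559774808977850419104304389796468545393554667646332985742805277970792448) (nat_lit 1087770609402202334509475734601541868627683570564564647441553474937424116231143321124343819984683676252761370898748221559774808977850419104304389796468545393554667646332985742805277970792448)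 c10_s412) (B (K (nat_lit 17404329762802738831934132754465279409129164007880131245549984505962047508750818816267932199949918218402502386932219598835822639573634862361973722682258466533537548686126349247630054260736) (nat_lit 1087770609402202334511362715813513292253555988833347574338506163274906133071196000993428786644705879991465592015694709502929009720150359319524797522901722115254954758491749476668804194893824) (nat_lit 1087770609402202334511362715813513292253555988833347574338506163274906133071196000993428786644705879991465592015694709502929009720150359319524797522901722115254954758491749476668804194893824) c10_s413) (B (M (nat_lit 559) (B (L (nat_lit 527) ln15_15_5_c10 ln15_15_5_c10_ok) (M (nat_lit 654) (B (L (nat_lit 686) ln14_21_6_c10 ln14_21_6_c10_ok) (M (nat_lit 655) (B (M (nat_lit 623) (B (L (nat_lit 560) ln15_20_6_c10 ln15_20_6_c10_ok) (M (nat_lit 656) (B (L (nat_lit 688) ln15_17_4_c10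 ln15_17_4_c10_ok) (M (nat_lit 657) (B (L (nat_lit 658) ln18_20_3_c10 ln18_20_3_c10_ok) (L (nat_lit 621) ln17_20_3_c10 ln17_20_3_c10_ok))))))) (B (M (nat_lit 656) (B (M (nat_lit 621) (B (L (nat_lit 657) ln17_20_3_c10 ln17_20_3_c10_ok) (M (nat_lit 620) (B (L (nat_lit 653) ln16_20_3_c10 ln16_20_3_c10_ok) (L (nat_lit 619) ln11_19_0_c10 ln11_19_0_c10_ok))))) (B (M (nat_lit 621) (B (L (nat_lit 657) ln17_20_3_c10 ln17_20_3_c10_ok) (M (nat_lit 620) (B (L (nat_lit 619) ln11_19_0_c10 ln11_19_0_c10_ok) (L (nat_lit 623) ln12_19_0_c10 ln12_19_0_c10_ok))))) (B (M (nat_lit 653) (B (M (nat_lit 688) (B (L (nat_lit 689) ln13_20_0_c10 ln13_20_0_c10_ok) (L (nat_lit 623) ln15_17_4_c10 ln15_17_4_c10_ok))) (M (nat_lit 652) (B (M (nat_lit 684) (B (L (nat_lit 683) ln15_20_1_c10 ln15_20_1_c10_ok) (L (nat_lit 685) ln16_20_1_c10 ln16_20_1_c10_ok))) (M (nat_lit 620) (B (L (nat_lit 619) ln15_20_3_c10 ln15_20_3_c10_ok)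 (L (nat_lit 621) ln16_20_3_c10 ln16_20_3_c10_ok))))))) (B (M (nat_lit 621) (B (L (nat_lit 657) ln17_20_3_c10 ln17_20_3_c10_ok) (M (nat_lit 620) (B (L (nat_lit 653) ln16_20_3_c10 ln16_20_3_c10_ok) (L (nat_lit 623) ln12_19_0_c10 ln12_19_0_c10_ok))))) (M (nat_lit 653) (B (M (nat_lit 688) (B (L (nat_lit 689) ln13_20_0_c10 ln13_20_0_c10_ok) (L (nat_lit 623) ln15_17_4_c10 ln15_17_4_c10_ok))) (B (M (nat_lit 652) (B (M (nat_lit 684) (B (L (nat_lit 683) ln15_20_1_c10 ln15_20_1_c10_ok) (L (nat_lit 685) ln16_20_1_c10 ln16_20_1_c10_ok))) (M (nat_lit 623) (B (L (nat_lit 651) ln11_20_2_c10 ln11_20_2_c10_ok) (L (nat_lit 624) ln12_20_2_c10 ln12_20_2_c10_ok))))) (M (nat_lit 652) (B (M (nat_lit 684) (B (L (nat_lit 683) ln15_20_1_c10 ln15_20_1_c10_ok) (L (nat_lit 685) ln16_20_1_c10 ln16_20_1_c10_ok))) (M (nat_lit 688) (B (L (nat_lit 687) ln12_20_0_c10 ln12_20_0_c10_ok) (L (nat_lit 689) ln13_20_0_c10 ln13_20_0_c10_ok)))))))))))))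 c10_d126))))))) (B (M (nat_lit 559) (B (L (nat_lit 527) ln15_15_5_c10 ln15_15_5_c10_ok) (M (nat_lit 560) (B (L (nat_lit 464) ln16_14_5_c10 ln16_14_5_c10_ok) (M (nat_lit 592) (B (L (nat_lit 463) ln16_18_7_c10 ln16_18_7_c10_ok) (M (nat_lit 593) (B (L (nat_lit 625) ln16_15_4_c10 ln16_15_4_c10_ok) (L (nat_lit 621) ln17_18_1_c10 ln17_18_1_c10_ok))))))))) (M (nat_lit 559) (B (L (nat_lit 527) ln15_15_5_c10 ln15_15_5_c10_ok) (M (nat_lit 654) (B (L (nat_lit 686) ln14_21_6_c10 ln14_21_6_c10_ok) (M (nat_lit 621) (B (M (nat_lit 592) (B (L (nat_lit 593) ln17_18_1_c10 ln17_18_1_c10_ok) (M (nat_lit 624) (B (L (nat_lit 625) ln13_18_0_c10 ln13_18_0_c10_ok) (M (nat_lit 656) (B (L (nat_lit 688) ln16_21_7_c10 ln16_21_7_c10_ok) (M (nat_lit 657) (B (L (nat_lit 655) ln17_20_3_c10 ln17_20_3_c10_ok) (L (nat_lit 623) ln13_19_0_c10 ln13_19_0_c10_ok))))))))) (B (M (nat_lit 620) (B (L (nat_lit 592) ln16_18_1_c10 ln16_18_1_c10_ok)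 (L (nat_lit 619) ln11_19_2_c10 ln11_19_2_c10_ok))) (M (nat_lit 620) (B (M (nat_lit 655) (B (M (nat_lit 656) (B (L (nat_lit 653) ln16_20_3_c10 ln16_20_3_c10_ok) (L (nat_lit 623) ln12_19_0_c10 ln12_19_0_c10_ok))) (L (nat_lit 619) ln11_19_0_c10 ln11_19_0_c10_ok))) (B (L (nat_lit 619) ln11_19_2_c10 ln11_19_2_c10_ok) (M (nat_lit 623) (B (M (nat_lit 624) (B (M (nat_lit 656) (B (L (nat_lit 657) ln13_19_0_c10 ln13_19_0_c10_ok) (L (nat_lit 655) ln12_19_0_c10 ln12_19_0_c10_ok))) (M (nat_lit 653) (B (L (nat_lit 625) ln17_19_1_c10 ln17_19_1_c10_ok) (L (nat_lit 652) ln16_19_1_c10 ln16_19_1_c10_ok))))) (B (M (nat_lit 624) (B (M (nat_lit 656) (B (L (nat_lit 657) ln13_19_0_c10 ln13_19_0_c10_ok) (L (nat_lit 655) ln12_19_0_c10 ln12_19_0_c10_ok))) (B (M (nat_lit 655) (B (L (nat_lit 656) ln12_19_0_c10 ln12_19_0_c10_ok) (L (nat_lit 625) ln17_19_3_c10 ln17_19_3_c10_ok))) (L (nat_lit 625) ln17_19_3_c10 ln17_19_3_c10_ok))))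 (B (M (nat_lit 655) (B (L (nat_lit 656) ln12_19_0_c10 ln12_19_0_c10_ok) (M (nat_lit 652) (B (L (nat_lit 651) ln15_19_1_c10 ln15_19_1_c10_ok) (M (nat_lit 653) (B (M (nat_lit 684) (B (L (nat_lit 683) ln15_20_1_c10 ln15_20_1_c10_ok) (L (nat_lit 716) ln12_22_6_c10 ln12_22_6_c10_ok))) (M (nat_lit 687) (B (L (nat_lit 688) ln12_20_0_c10 ln12_20_0_c10_ok) (L (nat_lit 719) ln15_22_7_c10 ln15_22_7_c10_ok))))))))) (M (nat_lit 624) (B (M (nat_lit 653) (B (L (nat_lit 625) ln17_19_1_c10 ln17_19_1_c10_ok) (L (nat_lit 652) ln16_19_1_c10 ln16_19_1_c10_ok))) (B (L (nat_lit 625) ln17_19_3_c10 ln17_19_3_c10_ok) (M (nat_lit 652) (B (L (nat_lit 653) ln16_19_1_c10 ln16_19_1_c10_ok) (L (nat_lit 651) ln15_19_1_c10 ln15_19_1_c10_ok)))))))))))))))))))))))))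
noncomputable def c10_d128 : Cert := (B (K (nat_lit 17404329762802738831934132754465279409129164007880131245549984505962047508750818816267932199949918218402502386932219598835822639573634862361973722682258466533537548686126349247630054260736) (nat_lit 1087770609402202334511362715813513292253555988833347574338506163274906133071196000993428786644705879991465592015694709502929009720150359319524797522901722115254954758491749476668804194893824) (nat_lit 1087770609402202334511362715813513292253555988833347574338506163274906133071196000993428786644705879991465592015694709502929009720150359319524797522901722115254954758491749476668804194893824) c10_s413) (B (M (nat_lit 559) (B (L (nat_lit 527) ln15_15_5_c10 ln15_15_5_c10_ok) (M (nat_lit 560) (B (L (nat_lit 464) ln16_14_5_c10 ln16_14_5_c10_ok) (M (nat_lit 592) (B (L (nat_lit 463) ln16_18_7_c10 ln16_18_7_c10_ok) (M (nat_lit 593) (B (L (nat_lit 625)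 ln16_15_4_c10 ln16_15_4_c10_ok) (L (nat_lit 621) ln17_18_1_c10 ln17_18_1_c10_ok))))))))) (B (M (nat_lit 559) (B (M (nat_lit 560) (B (L (nat_lit 588) ln12_18_2_c10 ln12_18_2_c10_ok) (L (nat_lit 464) ln16_14_5_c10 ln16_14_5_c10_ok))) (L (nat_lit 527) ln15_15_5_c10 ln15_15_5_c10_ok))) (M (nat_lit 623) (B (M (nat_lit 559) (B (L (nat_lit 527) ln15_15_5_c10 ln15_15_5_c10_ok) (M (nat_lit 655) (B (M (nat_lit 688) (B (L (nat_lit 656) ln15_17_4_c10 ln15_17_4_c10_ok) (M (nat_lit 687) (B (L (nat_lit 720) ln15_18_4_c10 ln15_18_4_c10_ok) (L (nat_lit 719) ln15_22_7_c10 ln15_22_7_c10_ok))))) (B (M (nat_lit 686) (B (L (nat_lit 654) ln15_17_5_c10 ln15_17_5_c10_ok) (M (nat_lit 687) (B (L (nat_lit 718) ln15_18_5_c10 ln15_18_5_c10_ok) (L (nat_lit 719) ln15_22_7_c10 ln15_22_7_c10_ok))))) (B (M (nat_lit 687) (B (M (nat_lit 686) (B (L (nat_lit 718) ln15_18_5_c10 ln15_18_5_c10_ok) (L (nat_lit 654) ln15_17_5_c10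 ln15_17_5_c10_ok))) (M (nat_lit 688) (B (L (nat_lit 720) ln15_18_4_c10 ln15_18_4_c10_ok) (L (nat_lit 656) ln15_17_4_c10 ln15_17_4_c10_ok))))) (M (nat_lit 654) (B (L (nat_lit 686) ln15_17_5_c10 ln15_17_5_c10_ok) (M (nat_lit 656) (B (L (nat_lit 688) ln15_17_4_c10 ln15_17_4_c10_ok) (M (nat_lit 653) (B (M (nat_lit 624) (B (L (nat_lit 625) ln17_19_1_c10 ln17_19_1_c10_ok) (L (nat_lit 652) ln12_20_2_c10 ln12_20_2_c10_ok))) (B (M (nat_lit 625) (B (L (nat_lit 624) ln17_19_1_c10 ln17_19_1_c10_ok) (M (nat_lit 657) (B (L (nat_lit 658) ln18_20_3_c10 ln18_20_3_c10_ok) (L (nat_lit 626) ln14_20_2_c10 ln14_20_2_c10_ok))))) (B (M (nat_lit 652) (B (L (nat_lit 624) ln12_20_2_c10 ln12_20_2_c10_ok) (L (nat_lit 651) ln11_20_2_c10 ln11_20_2_c10_ok))) (M (nat_lit 684) (B (L (nat_lit 685) ln16_20_1_c10 ln16_20_1_c10_ok) (M (nat_lit 652) (B (L (nat_lit 683) ln15_20_1_c10 ln15_20_1_c10_ok) (L (nat_lit 651) ln11_20_2_c10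 ln11_20_2_c10_ok))))))))))))))))))) (B (M (nat_lit 624) (B (L (nat_lit 588) ln12_18_0_c10 ln12_18_0_c10_ok) (L (nat_lit 625) ln17_19_3_c10 ln17_19_3_c10_ok))) (B (M (nat_lit 588) (B (L (nat_lit 624) ln12_18_0_c10 ln12_18_0_c10_ok) (L (nat_lit 587) ln11_18_0_c10 ln11_18_0_c10_ok))) (M (nat_lit 655) (B (M (nat_lit 687) (B (L (nat_lit 719) ln15_22_7_c10 ln15_22_7_c10_ok) (M (nat_lit 686) (B (L (nat_lit 718) ln15_18_5_c10 ln15_18_5_c10_ok) (M (nat_lit 559) (B (L (nat_lit 654) ln15_17_5_c10 ln15_17_5_c10_ok) (M (nat_lit 688) (B (L (nat_lit 656) ln15_17_4_c10 ln15_17_4_c10_ok) (L (nat_lit 720) ln15_18_4_c10 ln15_18_4_c10_ok))))))))) (B (M (nat_lit 687) (B (L (nat_lit 719) ln15_22_7_c10 ln15_22_7_c10_ok) (M (nat_lit 686) (B (L (nat_lit 718) ln15_18_5_c10 ln15_18_5_c10_ok) (M (nat_lit 654) (B (L (nat_lit 559) ln15_17_5_c10 ln15_17_5_c10_ok) (M (nat_lit 688) (B (L (nat_lit 720) ln15_18_4_c10 ln15_18_4_c10_ok)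 (M (nat_lit 689) (B (L (nat_lit 690) ln18_21_3_c10 ln18_21_3_c10_ok) (L (nat_lit 653) ln17_21_3_c10 ln17_21_3_c10_ok))))))))))) (B (M (nat_lit 687) (B (L (nat_lit 719) ln15_22_7_c10 ln15_22_7_c10_ok) (M (nat_lit 686) (B (L (nat_lit 718) ln15_18_5_c10 ln15_18_5_c10_ok) (M (nat_lit 654) (B (L (nat_lit 559) ln15_17_5_c10 ln15_17_5_c10_ok) (M (nat_lit 685) (B (L (nat_lit 717) ln14_18_5_c10 ln14_18_5_c10_ok) (M (nat_lit 656) (B (L (nat_lit 657) ln17_20_1_c10 ln17_20_1_c10_ok) (L (nat_lit 684) ln12_21_2_c10 ln12_21_2_c10_ok))))))))))) (B (M (nat_lit 687) (B (L (nat_lit 719) ln15_22_7_c10 ln15_22_7_c10_ok) (M (nat_lit 686) (B (L (nat_lit 718) ln15_18_5_c10 ln15_18_5_c10_ok) (M (nat_lit 654) (B (M (nat_lit 688) (B (L (nat_lit 720) ln15_18_4_c10 ln15_18_4_c10_ok) (M (nat_lit 689) (B (L (nat_lit 690) ln18_21_3_c10 ln18_21_3_c10_ok) (L (nat_lit 653) ln17_21_3_c10 ln17_21_3_c10_ok))))) (M (nat_lit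 685) (B (L (nat_lit 717) ln14_18_5_c10 ln14_18_5_c10_ok) (M (nat_lit 656) (B (L (nat_lit 657) ln17_20_1_c10 ln17_20_1_c10_ok) (L (nat_lit 684) ln12_21_2_c10 ln12_21_2_c10_ok))))))))))) (B (M (nat_lit 654) (B (M (nat_lit 559) (B (L (nat_lit 527) ln15_15_5_c10 ln15_15_5_c10_ok) (L (nat_lit 686) ln15_17_5_c10 ln15_17_5_c10_ok))) (B (M (nat_lit 686) (B (L (nat_lit 559) ln15_17_5_c10 ln15_17_5_c10_ok) (L (nat_lit 718) ln14_22_6_c10 ln14_22_6_c10_ok))) (B (M (nat_lit 686) (B (L (nat_lit 718) ln14_22_6_c10 ln14_22_6_c10_ok) (M (nat_lit 685) (B (L (nat_lit 717) ln14_18_5_c10 ln14_18_5_c10_ok) (M (nat_lit 656) (B (L (nat_lit 657) ln17_20_1_c10 ln17_20_1_c10_ok) (M (nat_lit 684) (B (L (nat_lit 653) ln16_20_1_c10 ln16_20_1_c10_ok) (L (nat_lit 683) ln11_21_2_c10 ln11_21_2_c10_ok))))))))) (M (nat_lit 656) (B (M (nat_lit 657) (B (L (nat_lit 658) ln18_20_3_c10 ln18_20_3_c10_ok) (L (nat_lit 621) ln17_20_3_c10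 ln17_20_3_c10_ok))) (M (nat_lit 559) (B (L (nat_lit 688) ln15_17_4_c10 ln15_17_4_c10_ok) (L (nat_lit 527) ln15_15_5_c10 ln15_15_5_c10_ok))))))))) (B (M (nat_lit 687) (B (L (nat_lit 719) ln15_22_7_c10 ln15_22_7_c10_ok) (M (nat_lit 686) (B (L (nat_lit 718) ln15_18_5_c10 ln15_18_5_c10_ok) (M (nat_lit 688) (B (L (nat_lit 720) ln15_18_4_c10 ln15_18_4_c10_ok) (M (nat_lit 656) (B (L (nat_lit 559) ln15_17_4_c10 ln15_17_4_c10_ok) (M (nat_lit 657) (B (L (nat_lit 658) ln18_20_1_c10 ln18_20_1_c10_ok) (L (nat_lit 685) ln13_21_2_c10 ln13_21_2_c10_ok))))))))))) (M (nat_lit 687) (B (L (nat_lit 719) ln15_22_7_c10 ln15_22_7_c10_ok) (M (nat_lit 688) (B (L (nat_lit 720) ln15_18_4_c10 ln15_18_4_c10_ok) (M (nat_lit 656) (B (L (nat_lit 559) ln15_17_4_c10 ln15_17_4_c10_ok) (M (nat_lit 654) (B (M (nat_lit 657) (B (L (nat_lit 658) ln18_20_3_c10 ln18_20_3_c10_ok) (L (nat_lit 621) ln17_20_3_c10 ln17_20_3_c10_ok)))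 (M (nat_lit 689) (B (L (nat_lit 690) ln18_21_3_c10 ln18_21_3_c10_ok) (L (nat_lit 653) ln13_20_0_c10 ln13_20_0_c10_ok)))))))))))))))))))))))))
noncomputable def c10_d129 : Cert := (B (M (nat_lit 588) (B (M (nat_lit 591) (B (M (nat_lit 619) (B (L (nat_lit 620) ln15_18_1_c10 ln15_18_1_c10_ok) (M (nat_lit 587) (B (L (nat_lit 618) ln14_18_1_c10 ln14_18_1_c10_ok) (M (nat_lit 555) (B (L (nat_lit 554) ln14_18_3_c10 ln14_18_3_c10_ok) (L (nat_lit 556) ln15_18_3_c10 ln15_18_3_c10_ok))))))) (M (nat_lit 624) (B (L (nat_lit 623) ln12_18_0_c10 ln12_18_0_c10_ok) (M (nat_lit 592) (B (L (nat_lit 625) ln13_18_0_c10 ln13_18_0_c10_ok) (M (nat_lit 560) (B (L (nat_lit 559) ln12_18_2_c10 ln12_18_2_c10_ok) (L (nat_lit 561) ln13_18_2_c10 ln13_18_2_c10_ok))))))))) (B (M (nat_lit 591) (B (M (nat_lit 587) (B (M (nat_lit 555) (B (L (nat_lit 554) ln14_18_3_c10 ln14_18_3_c10_ok) (L (nat_lit 556) ln15_18_3_c10 ln15_18_3_c10_ok)))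 (M (nat_lit 623) (B (L (nat_lit 622) ln11_18_0_c10 ln11_18_0_c10_ok) (L (nat_lit 624) ln12_18_0_c10 ln12_18_0_c10_ok))))) (M (nat_lit 592) (B (M (nat_lit 620) (B (L (nat_lit 619) ln15_18_1_c10 ln15_18_1_c10_ok) (L (nat_lit 621) ln16_18_1_c10 ln16_18_1_c10_ok))) (M (nat_lit 560) (B (L (nat_lit 559) ln12_18_2_c10 ln12_18_2_c10_ok) (L (nat_lit 561) ln13_18_2_c10 ln13_18_2_c10_ok))))))) (B (M (nat_lit 587) (B (M (nat_lit 554) (B (L (nat_lit 555) ln14_18_3_c10 ln14_18_3_c10_ok) (M (nat_lit 586) (B (L (nat_lit 553) ln13_18_3 ln13_18_3_ok) (M (nat_lit 618) (B (L (nat_lit 619) ln14_18_1_c10 ln14_18_1_c10_ok) (L (nat_lit 617) ln13_18_1_c10 ln13_18_1_c10_ok))))))) (B (M (nat_lit 586) (B (M (nat_lit 622) (B (L (nat_lit 623) ln11_18_0_c10 ln11_18_0_c10_ok) (L (nat_lit 621) ln10_18_0_c10 ln10_18_0_c10_ok))) (M (nat_lit 618) (B (L (nat_lit 619) ln14_18_1_c10 ln14_18_1_c10_ok) (L (nat_lit 617) ln13_18_1_c10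 ln13_18_1_c10_ok))))) (B (M (nat_lit 586) (B (M (nat_lit 622) (B (L (nat_lit 623) ln11_18_0_c10 ln11_18_0_c10_ok) (L (nat_lit 621) ln10_18_0_c10 ln10_18_0_c10_ok))) (M (nat_lit 554) (B (L (nat_lit 555) ln14_18_3_c10 ln14_18_3_c10_ok) (L (nat_lit 553) ln13_18_3 ln13_18_3_ok))))) (M (nat_lit 591) (B (M (nat_lit 623) (B (L (nat_lit 624) ln12_18_0_c10 ln12_18_0_c10_ok) (L (nat_lit 622) ln11_18_0_c10 ln11_18_0_c10_ok))) (M (nat_lit 555) (B (L (nat_lit 556) ln15_18_3_c10 ln15_18_3_c10_ok) (L (nat_lit 554) ln14_18_3_c10 ln14_18_3_c10_ok))))))))) (B (K (nat_lit 7091457271036853201571259146117732493513463144720653111395207714934863287936573630215573134376376252385149818438211180699548613277359401325845448825960604692887234875350885335040) (nat_lit 277381505393448550081488399678876159658815785649629593834891741564292352406082619632850595685641454609320069019815283899593308520886011469781175857338462544649896645947857513658568836907008)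 (nat_lit 277381505393448550081488399678876159658815785649629593834891741564292352406082619632850595685641454609320069019815283899593308520886011469781175857338462544649896645947857513658568836907008) c10_s411) (B (M (nat_lit 591) (B (M (nat_lit 592) (B (M (nat_lit 560) (B (L (nat_lit 561) ln13_18_2_c10 ln13_18_2_c10_ok) (L (nat_lit 559) ln12_18_2_c10 ln12_18_2_c10_ok))) (M (nat_lit 624) (B (L (nat_lit 625) ln13_18_0_c10 ln13_18_0_c10_ok) (L (nat_lit 623) ln12_18_0_c10 ln12_18_0_c10_ok))))) (B (M (nat_lit 587) (B (M (nat_lit 623) (B (L (nat_lit 624) ln12_18_0_c10 ln12_18_0_c10_ok) (L (nat_lit 622) ln11_18_0_c10 ln11_18_0_c10_ok))) (M (nat_lit 555) (B (L (nat_lit 556) ln15_18_3_c10 ln15_18_3_c10_ok) (L (nat_lit 554) ln14_18_3_c10 ln14_18_3_c10_ok))))) (B (M (nat_lit 622) (B (M (nat_lit 555) (B (L (nat_lit 556) ln15_18_3_c10 ln15_18_3_c10_ok) (M (nat_lit 587) (B (L (nat_lit 623) ln11_18_0_c10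 ln11_18_0_c10_ok) (L (nat_lit 554) ln14_18_3_c10 ln14_18_3_c10_ok))))) (M (nat_lit 592) (B (M (nat_lit 560) (B (L (nat_lit 561) ln13_18_2_c10 ln13_18_2_c10_ok) (L (nat_lit 559) ln12_18_2_c10 ln12_18_2_c10_ok))) (M (nat_lit 621) (B (L (nat_lit 593) ln17_18_1_c10 ln17_18_1_c10_ok) (L (nat_lit 620) ln16_18_1_c10 ln16_18_1_c10_ok))))))) (M (nat_lit 592) (B (M (nat_lit 560) (B (L (nat_lit 561) ln13_18_2_c10 ln13_18_2_c10_ok) (L (nat_lit 559) ln12_18_2_c10 ln12_18_2_c10_ok))) (M (nat_lit 593) (B (M (nat_lit 625) (B (L (nat_lit 626) ln14_18_0_c10 ln14_18_0_c10_ok) (L (nat_lit 624) ln13_18_0_c10 ln13_18_0_c10_ok))) (M (nat_lit 621) (B (L (nat_lit 622) ln17_18_1_c10 ln17_18_1_c10_ok) (L (nat_lit 620) ln16_18_1_c10 ln16_18_1_c10_ok))))))))))) (B (M (nat_lit 587) (B (M (nat_lit 586) (B (M (nat_lit 622) (B (L (nat_lit 623) ln11_18_0_c10 ln11_18_0_c10_ok) (L (nat_lit 621) ln10_18_0_c10 ln10_18_0_c10_ok)))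 (M (nat_lit 618) (B (L (nat_lit 619) ln14_18_1_c10 ln14_18_1_c10_ok) (L (nat_lit 617) ln13_18_1_c10 ln13_18_1_c10_ok))))) (B (M (nat_lit 586) (B (M (nat_lit 618) (B (L (nat_lit 619) ln14_18_1_c10 ln14_18_1_c10_ok) (L (nat_lit 617) ln13_18_1_c10 ln13_18_1_c10_ok))) (M (nat_lit 554) (B (L (nat_lit 555) ln14_18_3_c10 ln14_18_3_c10_ok) (L (nat_lit 553) ln13_18_3 ln13_18_3_ok))))) (B (M (nat_lit 586) (B (M (nat_lit 622) (B (L (nat_lit 623) ln11_18_0_c10 ln11_18_0_c10_ok) (L (nat_lit 621) ln10_18_0_c10 ln10_18_0_c10_ok))) (M (nat_lit 554) (B (L (nat_lit 555) ln14_18_3_c10 ln14_18_3_c10_ok) (L (nat_lit 553) ln13_18_3 ln13_18_3_ok))))) (M (nat_lit 591) (B (M (nat_lit 619) (B (L (nat_lit 620) ln15_18_1_c10 ln15_18_1_c10_ok) (L (nat_lit 618) ln14_18_1_c10 ln14_18_1_c10_ok))) (M (nat_lit 555) (B (L (nat_lit 556) ln15_18_3_c10 ln15_18_3_c10_ok) (L (nat_lit 554) ln14_18_3_c10 ln14_18_3_c10_ok)))))))))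 c10_d125))))))) (B (M (nat_lit 622) (B (L (nat_lit 557) ln13_15_4_c10 ln13_15_4_c10_ok) (M (nat_lit 591) c10_d127))) (M (nat_lit 622) (B (L (nat_lit 557) ln13_15_4_c10 ln13_15_4_c10_ok) (M (nat_lit 591) (B (M (nat_lit 559) (B (M (nat_lit 464) (B (L (nat_lit 560) ln16_14_5_c10 ln16_14_5_c10_ok) (L (nat_lit 527) ln15_15_5_c10 ln15_15_5_c10_ok))) (B (L (nat_lit 527) ln15_15_5_c10 ln15_15_5_c10_ok) (M (nat_lit 560) (B (L (nat_lit 464) ln16_14_5_c10 ln16_14_5_c10_ok) (M (nat_lit 623) (B (L (nat_lit 592) ln16_15_5_c10 ln16_15_5_c10_ok) (L (nat_lit 655) ln15_20_6_c10 ln15_20_6_c10_ok)))))))) (B (K (nat_lit 17404329762802738831934132754465279409129164007880131245549984505962047508750818816267932199949918218402502386932219598835822639573634862361973722682258466533537548686126349247630054260736) (nat_lit 1087770609402202334509475734601541868627683570564564647441553474937424116231143321124343819984683676252761370898748221559774808977850419104304389796468545393554667646332985742805277970792448)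 (nat_lit 1087770609402202334509475734601541868627683570564564647441553474937424116231143321124343819984683676252761370898748221559774808977850419104304389796468545393554667646332985742805277970792448) c10_s412) c10_d128)))))))
noncomputable def c10_d130 : Cert := (B (M (nat_lit 589) (B (M (nat_lit 557) (B (L (nat_lit 622) ln13_15_4_c10 ln13_15_4_c10_ok) (M (nat_lit 588) (B (L (nat_lit 620) ln13_15_5_c10 ln13_15_5_c10_ok) (L (nat_lit 556) ln13_14_5 ln13_14_5_ok))))) (B (M (nat_lit 588) (B (M (nat_lit 556) (B (L (nat_lit 557) ln13_14_5 ln13_14_5_ok) (M (nat_lit 555) (B (L (nat_lit 591) ln15_18_3_c10 ln15_18_3_c10_ok) (M (nat_lit 554) (B (L (nat_lit 553) ln9_17_0 ln9_17_0_ok) (L (nat_lit 587) ln14_18_3_c10 ln14_18_3_c10_ok))))))) (B (M (nat_lit 557) (B (L (nat_lit 620) ln13_15_5_c10 ln13_15_5_c10_ok) (L (nat_lit 556) ln13_14_5 ln13_14_5_ok))) (B (M (nat_lit 620) (B (L (nat_lit 557) ln13_15_5_c10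 ln13_15_5_c10_ok) (M (nat_lit 619) (B (L (nat_lit 591) ln15_18_1_c10 ln15_18_1_c10_ok) (M (nat_lit 618) (B (L (nat_lit 587) ln14_18_1_c10 ln14_18_1_c10_ok) (L (nat_lit 621) ln10_19_2_c10 ln10_19_2_c10_ok))))))) (M (nat_lit 591) (B (M (nat_lit 555) (B (L (nat_lit 556) ln15_18_3_c10 ln15_18_3_c10_ok) (M (nat_lit 587) (B (L (nat_lit 554) ln14_18_3_c10 ln14_18_3_c10_ok) (M (nat_lit 619) (B (L (nat_lit 618) ln14_18_1_c10 ln14_18_1_c10_ok) (L (nat_lit 620) ln15_18_1_c10 ln15_18_1_c10_ok))))))) (M (nat_lit 560) (B (L (nat_lit 559) ln12_18_2_c10 ln12_18_2_c10_ok) (M (nat_lit 592) (B (L (nat_lit 561) ln13_18_2_c10 ln13_18_2_c10_ok) (M (nat_lit 624) (B (L (nat_lit 623) ln16_15_5_c10 ln16_15_5_c10_ok) (L (nat_lit 625) ln13_18_0_c10 ln13_18_0_c10_ok))))))))))))) (B (K (nat_lit 6078391946603017030059440820021257603129565138802089415107205437178356253900219102285957155629524740107757756277249073965565422096838948369818379774663250277100813536629813673984)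 (nat_lit 277381505394461615406393981153490670653942454862637025452174920413132409737386152454417653233870089194577686372739883307696954174498840141574167633373230212780264179645073022002746082983936) (nat_lit 277381505394461615406393981153490670653942454862637025452174920413132409737386152454417653233870089194577686372739883307696954174498840141574167633373230212780264179645073022002746082983936) c10_s410) c10_d129)))) (M (nat_lit 558) (B (L (nat_lit 557) ln13_14_4 ln13_14_4_ok) (M (nat_lit 560) (B (M (nat_lit 463) (B (L (nat_lit 592) ln16_18_7_c10 ln16_18_7_c10_ok) (M (nat_lit 431) (B (L (nat_lit 399) ln15_12_4 ln15_12_4_ok) (L (nat_lit 464) ln16_17_7_c10 ln16_17_7_c10_ok))))) (B (M (nat_lit 463) (B (L (nat_lit 592) ln16_18_7_c10 ln16_18_7_c10_ok) (M (nat_lit 431) (B (L (nat_lit 464) ln16_17_7_c10 ln16_17_7_c10_ok) (L (nat_lit 527) ln15_13_4_c10 ln15_13_4_c10_ok))))) (B (M (nat_lit 592)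 (B (L (nat_lit 463) ln16_18_7_c10 ln16_18_7_c10_ok) (M (nat_lit 625) (B (L (nat_lit 593) ln16_15_4_c10 ln16_15_4_c10_ok) (M (nat_lit 623) (B (L (nat_lit 591) ln16_15_5_c10 ln16_15_5_c10_ok) (M (nat_lit 624) (B (L (nat_lit 657) ln16_16_4_c10 ln16_16_4_c10_ok) (L (nat_lit 655) ln16_16_5_c10 ln16_16_5_c10_ok))))))))) (B (M (nat_lit 592) (B (M (nat_lit 624) (B (L (nat_lit 527) ln16_19_7_c10 ln16_19_7_c10_ok) (M (nat_lit 623) (B (L (nat_lit 655) ln16_16_5_c10 ln16_16_5_c10_ok) (L (nat_lit 591) ln16_15_5_c10 ln16_15_5_c10_ok))))) (B (M (nat_lit 464) (B (M (nat_lit 593) (B (L (nat_lit 625) ln16_15_4_c10 ln16_15_4_c10_ok) (L (nat_lit 561) ln16_14_4_c10 ln16_14_4_c10_ok))) (M (nat_lit 591) (B (L (nat_lit 623) ln16_15_5_c10 ln16_15_5_c10_ok) (L (nat_lit 559) ln16_14_5_c10 ln16_14_5_c10_ok))))) (M (nat_lit 624) (B (L (nat_lit 527) ln16_19_7_c10 ln16_19_7_c10_ok) (M (nat_lit 625) (B (L (nat_lit 657)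 ln16_16_4_c10 ln16_16_4_c10_ok) (L (nat_lit 593) ln16_15_4_c10 ln16_15_4_c10_ok)))))))) (M (nat_lit 464) (B (M (nat_lit 432) (B (M (nat_lit 527) (B (L (nat_lit 400) ln16_12_5_c10 ln16_12_5_c10_ok) (L (nat_lit 559) ln16_13_5_c10 ln16_13_5_c10_ok))) (M (nat_lit 431) (B (L (nat_lit 399) ln16_16_7 ln16_16_7_ok) (L (nat_lit 463) ln16_17_7_c10 ln16_17_7_c10_ok))))) (B (M (nat_lit 432) (B (M (nat_lit 431) (B (L (nat_lit 463) ln16_17_7_c10 ln16_17_7_c10_ok) (L (nat_lit 399) ln16_16_7 ln16_16_7_ok))) (B (M (nat_lit 400) (B (M (nat_lit 399) (B (L (nat_lit 431) ln16_16_7 ln16_16_7_ok) (L (nat_lit 367) ln16_15_7 ln16_15_7_ok))) (M (nat_lit 401) (B (L (nat_lit 433) ln16_16_6_c10 ln16_16_6_c10_ok) (L (nat_lit 369) ln16_15_6_c10 ln16_15_6_c10_ok))))) (B (M (nat_lit 400) (B (M (nat_lit 401) (B (L (nat_lit 433) ln16_16_6_c10 ln16_16_6_c10_ok) (L (nat_lit 369) ln16_15_6_c10 ln16_15_6_c10_ok))) (M (nat_lit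 367) (B (L (nat_lit 399) ln16_15_7 ln16_15_7_ok) (M (nat_lit 368) (B (L (nat_lit 463) ln16_11_5_c10 ln16_11_5_c10_ok) (L (nat_lit 335) ln16_14_7 ln16_14_7_ok))))))) (M (nat_lit 400) (B (M (nat_lit 463) (B (L (nat_lit 431) ln16_17_7_c10 ln16_17_7_c10_ok) (L (nat_lit 368) ln16_11_5_c10 ln16_11_5_c10_ok))) (M (nat_lit 401) (B (L (nat_lit 433) ln16_16_6_c10 ln16_16_6_c10_ok) (L (nat_lit 369) ln16_15_6_c10 ln16_15_6_c10_ok))))))))) (B (M (nat_lit 432) (B (M (nat_lit 527) (B (L (nat_lit 400) ln16_12_5_c10 ln16_12_5_c10_ok) (L (nat_lit 559) ln16_13_5_c10 ln16_13_5_c10_ok))) (B (M (nat_lit 559) (B (L (nat_lit 527) ln16_13_5_c10 ln16_13_5_c10_ok) (L (nat_lit 591) ln16_14_5_c10 ln16_14_5_c10_ok))) (M (nat_lit 400) (B (M (nat_lit 401) (B (L (nat_lit 369) ln16_15_6_c10 ln16_15_6_c10_ok) (L (nat_lit 433) ln16_16_6_c10 ln16_16_6_c10_ok))) (M (nat_lit 399) (B (L (nat_lit 367) ln16_15_7 ln16_15_7_ok)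 (L (nat_lit 431) ln16_16_7 ln16_16_7_ok)))))))) (B (M (nat_lit 432) (B (M (nat_lit 559) (B (L (nat_lit 591) ln16_14_5_c10 ln16_14_5_c10_ok) (L (nat_lit 527) ln16_13_5_c10 ln16_13_5_c10_ok))) (B (M (nat_lit 527) (B (L (nat_lit 559) ln16_13_5_c10 ln16_13_5_c10_ok) (L (nat_lit 400) ln16_12_5_c10 ln16_12_5_c10_ok))) (B (M (nat_lit 400) (B (L (nat_lit 527) ln16_12_5_c10 ln16_12_5_c10_ok) (M (nat_lit 401) (B (L (nat_lit 433) ln16_16_6_c10 ln16_16_6_c10_ok) (L (nat_lit 369) ln16_15_6_c10 ln16_15_6_c10_ok))))) (M (nat_lit 400) (B (M (nat_lit 401) (B (L (nat_lit 433) ln16_16_6_c10 ln16_16_6_c10_ok) (L (nat_lit 369) ln16_15_6_c10 ln16_15_6_c10_ok))) (M (nat_lit 367) (B (L (nat_lit 399) ln16_15_7 ln16_15_7_ok) (M (nat_lit 368) (B (L (nat_lit 463) ln16_11_5_c10 ln16_11_5_c10_ok) (L (nat_lit 335) ln16_14_7 ln16_14_7_ok))))))))))) (B (M (nat_lit 432) (B (M (nat_lit 559) (B (L (nat_lit 591) ln16_14_5_c10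 ln16_14_5_c10_ok) (L (nat_lit 527) ln16_13_5_c10 ln16_13_5_c10_ok))) (B (M (nat_lit 527) (B (L (nat_lit 559) ln16_13_5_c10 ln16_13_5_c10_ok) (L (nat_lit 400) ln16_12_5_c10 ln16_12_5_c10_ok))) (B (M (nat_lit 463) (B (L (nat_lit 431) ln16_17_7_c10 ln16_17_7_c10_ok) (M (nat_lit 400) (B (L (nat_lit 527) ln16_12_5_c10 ln16_12_5_c10_ok) (L (nat_lit 368) ln16_11_5_c10 ln16_11_5_c10_ok))))) (M (nat_lit 400) (B (M (nat_lit 463) (B (L (nat_lit 368) ln16_11_5_c10 ln16_11_5_c10_ok) (L (nat_lit 431) ln16_17_7_c10 ln16_17_7_c10_ok))) (M (nat_lit 401) (B (L (nat_lit 433) ln16_16_6_c10 ln16_16_6_c10_ok) (L (nat_lit 369) ln16_15_6_c10 ln16_15_6_c10_ok))))))))) (M (nat_lit 463) (B (L (nat_lit 431) ln16_17_7_c10 ln16_17_7_c10_ok) (M (nat_lit 559) (B (L (nat_lit 591) ln16_14_5_c10 ln16_14_5_c10_ok) (L (nat_lit 527) ln15_14_5_c10 ln15_14_5_c10_ok)))))))))))))))))))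
noncomputable def c10_d131 : Cert := (B (M (nat_lit 589) (B (M (nat_lit 557) (B (L (nat_lit 622) ln13_15_4_c10 ln13_15_4_c10_ok) (L (nat_lit 558) ln13_14_4 ln13_14_4_ok))) (B (M (nat_lit 588) (B (M (nat_lit 557) (B (L (nat_lit 558) ln13_14_4 ln13_14_4_ok) (L (nat_lit 620) ln13_15_5_c10 ln13_15_5_c10_ok))) (B (M (nat_lit 620) (B (L (nat_lit 557) ln13_15_5_c10 ln13_15_5_c10_ok) (M (nat_lit 619) (B (L (nat_lit 591) ln15_18_1_c10 ln15_18_1_c10_ok) (M (nat_lit 618) (B (L (nat_lit 587) ln14_18_1_c10 ln14_18_1_c10_ok) (L (nat_lit 621) ln10_19_2_c10 ln10_19_2_c10_ok))))))) (B (M (nat_lit 591) (B (M (nat_lit 592) (B (M (nat_lit 624) (B (L (nat_lit 625) ln13_18_0_c10 ln13_18_0_c10_ok) (L (nat_lit 623) ln12_18_0_c10 ln12_18_0_c10_ok))) (M (nat_lit 620) (B (L (nat_lit 621) ln16_18_1_c10 ln16_18_1_c10_ok) (L (nat_lit 619) ln15_18_1_c10 ln15_18_1_c10_ok))))) (B (M (nat_lit 587) (B (M (nat_lit 559) (B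 (L (nat_lit 560) ln12_18_2_c10 ln12_18_2_c10_ok) (L (nat_lit 558) ln11_18_2_c10 ln11_18_2_c10_ok))) (M (nat_lit 619) (B (L (nat_lit 620) ln15_18_1_c10 ln15_18_1_c10_ok) (L (nat_lit 618) ln14_18_1_c10 ln14_18_1_c10_ok))))) (M (nat_lit 592) (B (M (nat_lit 560) (B (L (nat_lit 561) ln13_18_2_c10 ln13_18_2_c10_ok) (L (nat_lit 559) ln12_18_2_c10 ln12_18_2_c10_ok))) (M (nat_lit 624) (B (L (nat_lit 625) ln13_18_0_c10 ln13_18_0_c10_ok) (L (nat_lit 623) ln12_18_0_c10 ln12_18_0_c10_ok)))))))) (M (nat_lit 558) (B (L (nat_lit 557) ln13_14_4 ln13_14_4_ok) (M (nat_lit 559) (B (L (nat_lit 587) ln11_18_2_c10 ln11_18_2_c10_ok) (M (nat_lit 560) (B (L (nat_lit 561) ln17_17_1_c10 ln17_17_1_c10_ok) (L (nat_lit 591) ln12_18_2_c10 ln12_18_2_c10_ok))))))))))) (B (K (nat_lit 6078391946603017030059440820021257603129565138802089415107205437178356253900219102285957155629524740107757756277249073965565422096838948369818379774663250277100813536629813673984)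 (nat_lit 277381505394461615406393981153490670653942454862637025452174920413132409737386152454417653233870089194577686372739883307696954174498840141574167633373230212780264179645073022002746082983936) (nat_lit 277381505394461615406393981153490670653942454862637025452174920413132409737386152454417653233870089194577686372739883307696954174498840141574167633373230212780264179645073022002746082983936) c10_s410) (M (nat_lit 588) (B (M (nat_lit 587) (B (M (nat_lit 623) (B (L (nat_lit 622) ln11_18_0_c10 ln11_18_0_c10_ok) (M (nat_lit 591) (B (L (nat_lit 624) ln12_18_0_c10 ln12_18_0_c10_ok) (M (nat_lit 559) (B (L (nat_lit 560) ln12_18_2_c10 ln12_18_2_c10_ok) (L (nat_lit 558) ln11_18_2_c10 ln11_18_2_c10_ok))))))) (M (nat_lit 618) (B (L (nat_lit 619) ln14_18_1_c10 ln14_18_1_c10_ok) (M (nat_lit 586) (B (L (nat_lit 617) ln13_18_1_c10 ln13_18_1_c10_ok) (M (nat_lit 554) (B (L (nat_lit 555) ln14_18_3_c10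 ln14_18_3_c10_ok) (L (nat_lit 553) ln13_18_3 ln13_18_3_ok))))))))) (B (M (nat_lit 587) (B (M (nat_lit 591) (B (M (nat_lit 559) (B (L (nat_lit 560) ln12_18_2_c10 ln12_18_2_c10_ok) (L (nat_lit 558) ln11_18_2_c10 ln11_18_2_c10_ok))) (M (nat_lit 619) (B (L (nat_lit 620) ln15_18_1_c10 ln15_18_1_c10_ok) (L (nat_lit 618) ln14_18_1_c10 ln14_18_1_c10_ok))))) (M (nat_lit 586) (B (M (nat_lit 622) (B (L (nat_lit 623) ln11_18_0_c10 ln11_18_0_c10_ok) (L (nat_lit 621) ln10_18_0_c10 ln10_18_0_c10_ok))) (M (nat_lit 554) (B (L (nat_lit 555) ln14_18_3_c10 ln14_18_3_c10_ok) (L (nat_lit 553) ln13_18_3 ln13_18_3_ok))))))) (B (M (nat_lit 591) (B (M (nat_lit 560) (B (L (nat_lit 559) ln12_18_2_c10 ln12_18_2_c10_ok) (M (nat_lit 592) (B (L (nat_lit 561) ln13_18_2_c10 ln13_18_2_c10_ok) (M (nat_lit 624) (B (L (nat_lit 623) ln16_15_5_c10 ln16_15_5_c10_ok) (L (nat_lit 625) ln13_18_0_c10 ln13_18_0_c10_ok))))))) (B (M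 (nat_lit 592) (B (M (nat_lit 620) (B (L (nat_lit 619) ln15_18_1_c10 ln15_18_1_c10_ok) (L (nat_lit 621) ln16_18_1_c10 ln16_18_1_c10_ok))) (M (nat_lit 624) (B (L (nat_lit 623) ln12_18_0_c10 ln12_18_0_c10_ok) (L (nat_lit 625) ln13_18_0_c10 ln13_18_0_c10_ok))))) (B (M (nat_lit 592) (B (M (nat_lit 620) (B (L (nat_lit 619) ln15_18_1_c10 ln15_18_1_c10_ok) (L (nat_lit 621) ln16_18_1_c10 ln16_18_1_c10_ok))) (M (nat_lit 560) (B (L (nat_lit 559) ln12_18_2_c10 ln12_18_2_c10_ok) (L (nat_lit 561) ln13_18_2_c10 ln13_18_2_c10_ok))))) (M (nat_lit 587) (B (M (nat_lit 619) (B (L (nat_lit 618) ln14_18_1_c10 ln14_18_1_c10_ok) (L (nat_lit 620) ln15_18_1_c10 ln15_18_1_c10_ok))) (M (nat_lit 559) (B (L (nat_lit 558) ln11_18_2_c10 ln11_18_2_c10_ok) (L (nat_lit 560) ln12_18_2_c10 ln12_18_2_c10_ok))))))))) (B (K (nat_lit 7091457271036853201571259146117732493513463144720653111395207714934863287936573630215573134376376252385149818438211180699548613277359401325845448825960604692887234875350885335040)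 (nat_lit 277381505393448550081488399678876159658815785649629593834891741564292352406082619632850595685641454609320069019815283899593308520886011469781175857338462544649896645947857513658568836907008) (nat_lit 277381505393448550081488399678876159658815785649629593834891741564292352406082619632850595685641454609320069019815283899593308520886011469781175857338462544649896645947857513658568836907008) c10_s411) c10_d124))))))))) (B (M (nat_lit 560) (B (M (nat_lit 463) (B (L (nat_lit 592) ln16_18_7_c10 ln16_18_7_c10_ok) (M (nat_lit 431) (B (L (nat_lit 399) ln15_12_4 ln15_12_4_ok) (L (nat_lit 464) ln16_17_7_c10 ln16_17_7_c10_ok))))) (B (M (nat_lit 463) (B (L (nat_lit 592) ln16_18_7_c10 ln16_18_7_c10_ok) (M (nat_lit 431) (B (L (nat_lit 464) ln16_17_7_c10 ln16_17_7_c10_ok) (L (nat_lit 527) ln15_13_4_c10 ln15_13_4_c10_ok))))) (B (M (nat_lit 592) (B (L (nat_lit 463) ln16_18_7_c10 ln16_18_7_c10_ok)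 (M (nat_lit 625) (B (L (nat_lit 593) ln16_15_4_c10 ln16_15_4_c10_ok) (M (nat_lit 623) (B (L (nat_lit 591) ln16_15_5_c10 ln16_15_5_c10_ok) (M (nat_lit 624) (B (L (nat_lit 657) ln16_16_4_c10 ln16_16_4_c10_ok) (L (nat_lit 655) ln16_16_5_c10 ln16_16_5_c10_ok))))))))) (B (M (nat_lit 592) (B (M (nat_lit 624) (B (L (nat_lit 527) ln16_19_7_c10 ln16_19_7_c10_ok) (M (nat_lit 623) (B (L (nat_lit 655) ln16_16_5_c10 ln16_16_5_c10_ok) (L (nat_lit 591) ln16_15_5_c10 ln16_15_5_c10_ok))))) (B (M (nat_lit 464) (B (M (nat_lit 593) (B (L (nat_lit 625) ln16_15_4_c10 ln16_15_4_c10_ok) (L (nat_lit 561) ln16_14_4_c10 ln16_14_4_c10_ok))) (M (nat_lit 591) (B (L (nat_lit 623) ln16_15_5_c10 ln16_15_5_c10_ok) (L (nat_lit 559) ln16_14_5_c10 ln16_14_5_c10_ok))))) (M (nat_lit 624) (B (L (nat_lit 527) ln16_19_7_c10 ln16_19_7_c10_ok) (M (nat_lit 625) (B (L (nat_lit 657) ln16_16_4_c10 ln16_16_4_c10_ok) (L (nat_lit 593)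 ln16_15_4_c10 ln16_15_4_c10_ok)))))))) (M (nat_lit 464) (B (M (nat_lit 432) (B (M (nat_lit 527) (B (L (nat_lit 400) ln16_12_5_c10 ln16_12_5_c10_ok) (L (nat_lit 559) ln16_13_5_c10 ln16_13_5_c10_ok))) (M (nat_lit 431) (B (L (nat_lit 399) ln16_16_7 ln16_16_7_ok) (L (nat_lit 463) ln16_17_7_c10 ln16_17_7_c10_ok))))) (B (M (nat_lit 432) (B (M (nat_lit 431) (B (L (nat_lit 463) ln16_17_7_c10 ln16_17_7_c10_ok) (L (nat_lit 399) ln16_16_7 ln16_16_7_ok))) (B (M (nat_lit 400) (B (M (nat_lit 399) (B (L (nat_lit 431) ln16_16_7 ln16_16_7_ok) (L (nat_lit 367) ln16_15_7 ln16_15_7_ok))) (M (nat_lit 401) (B (L (nat_lit 433) ln16_16_6_c10 ln16_16_6_c10_ok) (L (nat_lit 369) ln16_15_6_c10 ln16_15_6_c10_ok))))) (B (M (nat_lit 400) (B (M (nat_lit 401) (B (L (nat_lit 433) ln16_16_6_c10 ln16_16_6_c10_ok) (L (nat_lit 369) ln16_15_6_c10 ln16_15_6_c10_ok))) (M (nat_lit 367) (B (L (nat_lit 399) ln16_15_7 ln16_15_7_ok)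 (M (nat_lit 368) (B (L (nat_lit 463) ln16_11_5_c10 ln16_11_5_c10_ok) (L (nat_lit 335) ln16_14_7 ln16_14_7_ok))))))) (M (nat_lit 400) (B (M (nat_lit 463) (B (L (nat_lit 431) ln16_17_7_c10 ln16_17_7_c10_ok) (L (nat_lit 368) ln16_11_5_c10 ln16_11_5_c10_ok))) (M (nat_lit 401) (B (L (nat_lit 433) ln16_16_6_c10 ln16_16_6_c10_ok) (L (nat_lit 369) ln16_15_6_c10 ln16_15_6_c10_ok))))))))) (B (M (nat_lit 432) (B (M (nat_lit 527) (B (L (nat_lit 400) ln16_12_5_c10 ln16_12_5_c10_ok) (L (nat_lit 559) ln16_13_5_c10 ln16_13_5_c10_ok))) (B (M (nat_lit 559) (B (L (nat_lit 527) ln16_13_5_c10 ln16_13_5_c10_ok) (L (nat_lit 591) ln16_14_5_c10 ln16_14_5_c10_ok))) (M (nat_lit 400) (B (M (nat_lit 401) (B (L (nat_lit 369) ln16_15_6_c10 ln16_15_6_c10_ok) (L (nat_lit 433) ln16_16_6_c10 ln16_16_6_c10_ok))) (M (nat_lit 399) (B (L (nat_lit 367) ln16_15_7 ln16_15_7_ok) (L (nat_lit 431) ln16_16_7 ln16_16_7_ok)))))))) (B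 (M (nat_lit 432) (B (M (nat_lit 559) (B (L (nat_lit 591) ln16_14_5_c10 ln16_14_5_c10_ok) (L (nat_lit 527) ln16_13_5_c10 ln16_13_5_c10_ok))) (B (M (nat_lit 527) (B (L (nat_lit 559) ln16_13_5_c10 ln16_13_5_c10_ok) (L (nat_lit 400) ln16_12_5_c10 ln16_12_5_c10_ok))) (B (M (nat_lit 400) (B (L (nat_lit 527) ln16_12_5_c10 ln16_12_5_c10_ok) (M (nat_lit 401) (B (L (nat_lit 433) ln16_16_6_c10 ln16_16_6_c10_ok) (L (nat_lit 369) ln16_15_6_c10 ln16_15_6_c10_ok))))) (M (nat_lit 400) (B (M (nat_lit 401) (B (L (nat_lit 433) ln16_16_6_c10 ln16_16_6_c10_ok) (L (nat_lit 369) ln16_15_6_c10 ln16_15_6_c10_ok))) (M (nat_lit 367) (B (L (nat_lit 399) ln16_15_7 ln16_15_7_ok) (M (nat_lit 368) (B (L (nat_lit 463) ln16_11_5_c10 ln16_11_5_c10_ok) (L (nat_lit 335) ln16_14_7 ln16_14_7_ok))))))))))) (B (M (nat_lit 432) (B (M (nat_lit 559) (B (L (nat_lit 591) ln16_14_5_c10 ln16_14_5_c10_ok) (L (nat_lit 527) ln16_13_5_c10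 ln16_13_5_c10_ok))) (B (M (nat_lit 527) (B (L (nat_lit 559) ln16_13_5_c10 ln16_13_5_c10_ok) (L (nat_lit 400) ln16_12_5_c10 ln16_12_5_c10_ok))) (B (M (nat_lit 463) (B (L (nat_lit 431) ln16_17_7_c10 ln16_17_7_c10_ok) (M (nat_lit 400) (B (L (nat_lit 527) ln16_12_5_c10 ln16_12_5_c10_ok) (L (nat_lit 368) ln16_11_5_c10 ln16_11_5_c10_ok))))) (M (nat_lit 400) (B (M (nat_lit 463) (B (L (nat_lit 368) ln16_11_5_c10 ln16_11_5_c10_ok) (L (nat_lit 431) ln16_17_7_c10 ln16_17_7_c10_ok))) (M (nat_lit 401) (B (L (nat_lit 433) ln16_16_6_c10 ln16_16_6_c10_ok) (L (nat_lit 369) ln16_15_6_c10 ln16_15_6_c10_ok))))))))) (M (nat_lit 559) (B (L (nat_lit 591) ln16_14_5_c10 ln16_14_5_c10_ok) (M (nat_lit 463) (B (L (nat_lit 431) ln16_17_7_c10 ln16_17_7_c10_ok) (M (nat_lit 561) (B (L (nat_lit 593) ln16_14_4_c10 ln16_14_4_c10_ok) (M (nat_lit 558) (B (L (nat_lit 527) ln15_14_5_c10 ln15_14_5_c10_ok) (L (nat_lit 589) ln17_17_1_c10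 ln17_17_1_c10_ok)))))))))))))))))))) c10_d130))
theorem c10_s414 : Sem (nat_lit 988530863442408260826177103290707237379191770639314049682091934708261283148415666443405383311476433561666275013716230633655965466879123782382285504303383707648) (nat_lit 28501485145821990750196498711023758829867659394825879634603269479574523298532157133349778695413215819443692653729311079293670876917343709922981162138040522206556357185403781610397427269551245525270767510652408693635117580550144) (nat_lit 28501485145821990750196498711023758829867659394825879634603269479574523298532157133349778695413215819443692653729311079293670876917343709922981162138040522206556357185403781610397427269551245525270767510652408693635117580550144) :=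
  sem_of_chk (M (nat_lit 590) (B (M (nat_lit 557) (B (L (nat_lit 558) ln13_14_4 ln13_14_4_ok) (M (nat_lit 589) (B (L (nat_lit 622) ln13_15_4_c10 ln13_15_4_c10_ok) (M (nat_lit 588) (B (L (nat_lit 620) ln13_15_5_c10 ln13_15_5_c10_ok) (L (nat_lit 556) ln13_14_5 ln13_14_5_ok))))))) c10_d131)) (nat_lit 988530863442408260826177103290707237379191770639314049682091934708261283148415666443405383311476433561666275013716230633655965466879123782382285504303383707648) (nat_lit 28501485145821990750196498711023758829867659394825879634603269479574523298532157133349778695413215819443692653729311079293670876917343709922981162138040522206556357185403781610397427269551245525270767510652408693635117580550144) (nat_lit 28501485145821990750196498711023758829867659394825879634603269479574523298532157133349778695413215819443692653729311079293670876917343709922981162138040522206556357185403781610397427269551245525270767510652408693635117580550144)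 (by decide +kernel)
noncomputable def c10_d132 : Cert := (B (M (nat_lit 425) (B (M (nat_lit 426) (B (L (nat_lit 428) ln9_13_0 ln9_13_0_ok) (L (nat_lit 424) ln8_13_0 ln8_13_0_ok))) (B (M (nat_lit 426) (B (L (nat_lit 458) ln13_14_3 ln13_14_3_ok) (L (nat_lit 428) ln9_13_0 ln9_13_0_ok))) (B (M (nat_lit 426) (B (L (nat_lit 424) ln8_13_0 ln8_13_0_ok) (L (nat_lit 458) ln13_14_3 ln13_14_3_ok))) (M (nat_lit 395) (B (M (nat_lit 492) (B (M (nat_lit 524) (B (L (nat_lit 428) ln12_16_7 ln12_16_7_ok) (L (nat_lit 491) ln11_12_4 ln11_12_4_ok))) (L (nat_lit 363) ln11_11_4 ln11_11_4_ok))) (B (M (nat_lit 363) (B (M (nat_lit 428) (B (L (nat_lit 331) ln11_10_4 ln11_10_4_ok) (L (nat_lit 492) ln11_11_4 ln11_11_4_ok))) (B (L (nat_lit 492) ln11_11_4 ln11_11_4_ok) (M (nat_lit 331) (B (L (nat_lit 428) ln11_10_4 ln11_10_4_ok) (M (nat_lit 332) (B (L (nat_lit 300) ln11_13_6 ln11_13_6_ok) (L (nat_lit 364) ln11_14_6 ln11_14_6_ok))))))))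 (B (M (nat_lit 492) (B (L (nat_lit 363) ln11_11_4 ln11_11_4_ok) (M (nat_lit 524) (B (L (nat_lit 556) ln12_17_6 ln12_17_6_ok) (L (nat_lit 491) ln11_12_4 ln11_12_4_ok))))) (B (M (nat_lit 363) (B (M (nat_lit 331) (B (L (nat_lit 428) ln11_10_4 ln11_10_4_ok) (M (nat_lit 332) (B (L (nat_lit 300) ln11_13_6 ln11_13_6_ok) (L (nat_lit 364) ln11_14_6 ln11_14_6_ok))))) (B (M (nat_lit 491) (B (M (nat_lit 362) (B (L (nat_lit 330) ln11_14_7 ln11_14_7_ok) (L (nat_lit 394) ln11_15_7 ln11_15_7_ok))) (M (nat_lit 364) (B (L (nat_lit 332) ln11_14_6 ln11_14_6_ok) (L (nat_lit 396) ln11_15_6 ln11_15_6_ok))))) (M (nat_lit 331) (B (L (nat_lit 428) ln11_10_4 ln11_10_4_ok) (M (nat_lit 330) (B (L (nat_lit 298) ln11_13_7 ln11_13_7_ok) (L (nat_lit 362) ln11_14_7 ln11_14_7_ok)))))))) (M (nat_lit 491) (B (M (nat_lit 523) (B (M (nat_lit 524) (B (L (nat_lit 492) ln11_12_4 ln11_12_4_ok) (L (nat_lit 556) ln11_13_4 ln11_13_4_ok)))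 (B (M (nat_lit 555) (B (M (nat_lit 556) (B (L (nat_lit 524) ln11_13_4 ln11_13_4_ok) (L (nat_lit 588) ln11_14_4 ln11_14_4_ok))) (M (nat_lit 554) (B (L (nat_lit 522) ln11_13_5 ln11_13_5_ok) (L (nat_lit 586) ln11_14_5 ln11_14_5_ok))))) (B (M (nat_lit 555) (B (M (nat_lit 554) (B (L (nat_lit 522) ln11_13_5 ln11_13_5_ok) (L (nat_lit 586) ln11_14_5 ln11_14_5_ok))) (M (nat_lit 588) (B (L (nat_lit 556) ln11_14_4 ln11_14_4_ok) (M (nat_lit 587) (B (L (nat_lit 492) ln11_18_6 ln11_18_6_ok) (L (nat_lit 620) ln11_15_4 ln11_15_4_ok))))))) (M (nat_lit 555) (B (M (nat_lit 492) (B (L (nat_lit 524) ln11_12_4 ln11_12_4_ok) (L (nat_lit 587) ln11_18_6 ln11_18_6_ok))) (M (nat_lit 554) (B (L (nat_lit 522) ln11_13_5 ln11_13_5_ok) (L (nat_lit 586) ln11_14_5 ln11_14_5_ok))))))))) (B (M (nat_lit 523) (B (M (nat_lit 428) (B (L (nat_lit 555) ln11_17_6 ln11_17_6_ok) (L (nat_lit 396) ln11_16_6 ln11_16_6_ok))) (B (M (nat_lit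 396) (B (L (nat_lit 428) ln11_16_6 ln11_16_6_ok) (L (nat_lit 364) ln11_15_6 ln11_15_6_ok))) (M (nat_lit 555) (B (M (nat_lit 554) (B (L (nat_lit 586) ln11_14_5 ln11_14_5_ok) (L (nat_lit 522) ln11_13_5 ln11_13_5_ok))) (M (nat_lit 556) (B (L (nat_lit 588) ln11_14_4 ln11_14_4_ok) (L (nat_lit 524) ln11_13_4 ln11_13_4_ok)))))))) (B (M (nat_lit 523) (B (M (nat_lit 524) (B (L (nat_lit 556) ln11_13_4 ln11_13_4_ok) (L (nat_lit 492) ln11_12_4 ln11_12_4_ok))) (M (nat_lit 428) (B (L (nat_lit 555) ln11_17_6 ln11_17_6_ok) (L (nat_lit 396) ln11_16_6 ln11_16_6_ok))))) (B (M (nat_lit 523) (B (M (nat_lit 396) (B (L (nat_lit 364) ln11_15_6 ln11_15_6_ok) (L (nat_lit 428) ln11_16_6 ln11_16_6_ok))) (B (M (nat_lit 428) (B (L (nat_lit 396) ln11_16_6 ln11_16_6_ok) (L (nat_lit 555) ln11_17_6 ln11_17_6_ok))) (B (M (nat_lit 555) (B (L (nat_lit 428) ln11_17_6 ln11_17_6_ok) (M (nat_lit 554) (B (L (nat_lit 522) ln11_13_5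 ln11_13_5_ok) (L (nat_lit 586) ln11_14_5 ln11_14_5_ok))))) (M (nat_lit 555) (B (M (nat_lit 554) (B (L (nat_lit 522) ln11_13_5 ln11_13_5_ok) (L (nat_lit 586) ln11_14_5 ln11_14_5_ok))) (M (nat_lit 588) (B (L (nat_lit 556) ln11_14_4 ln11_14_4_ok) (M (nat_lit 587) (B (L (nat_lit 492) ln11_18_6 ln11_18_6_ok) (L (nat_lit 620) ln11_15_4 ln11_15_4_ok))))))))))) (B (M (nat_lit 523) (B (M (nat_lit 396) (B (L (nat_lit 364) ln11_15_6 ln11_15_6_ok) (L (nat_lit 428) ln11_16_6 ln11_16_6_ok))) (B (M (nat_lit 428) (B (L (nat_lit 396) ln11_16_6 ln11_16_6_ok) (L (nat_lit 555) ln11_17_6 ln11_17_6_ok))) (B (M (nat_lit 492) (B (L (nat_lit 524) ln11_12_4 ln11_12_4_ok) (M (nat_lit 555) (B (L (nat_lit 428) ln11_17_6 ln11_17_6_ok) (L (nat_lit 587) ln11_18_6 ln11_18_6_ok))))) (M (nat_lit 555) (B (M (nat_lit 492) (B (L (nat_lit 587) ln11_18_6 ln11_18_6_ok) (L (nat_lit 524) ln11_12_4 ln11_12_4_ok))) (M (nat_lit 554)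 (B (L (nat_lit 522) ln11_13_5 ln11_13_5_ok) (L (nat_lit 586) ln11_14_5 ln11_14_5_ok))))))))) (B (M (nat_lit 523) (B (M (nat_lit 396) (B (L (nat_lit 364) ln11_15_6 ln11_15_6_ok) (L (nat_lit 428) ln11_16_6 ln11_16_6_ok))) (M (nat_lit 524) (B (L (nat_lit 492) ln11_12_4 ln11_12_4_ok) (L (nat_lit 556) ln11_13_4 ln11_13_4_ok))))) (M (nat_lit 492) (B (L (nat_lit 524) ln11_12_4 ln11_12_4_ok) (M (nat_lit 396) (B (L (nat_lit 364) ln11_15_6 ln11_15_6_ok) (M (nat_lit 394) (B (L (nat_lit 362) ln11_15_7 ln11_15_7_ok) (M (nat_lit 393) (B (L (nat_lit 424) ln12_12_1 ln12_12_1_ok) (M (nat_lit 392) (B (L (nat_lit 428) ln8_12_0 ln8_12_0_ok) (M (nat_lit 360) (B (L (nat_lit 361) ln12_12_3 ln12_12_3_ok) (L (nat_lit 359) ln11_12_3 ln11_12_3_ok))))))))))))))))))))))))))))) (B (M (nat_lit 395) (B (M (nat_lit 492) (B (L (nat_lit 363) ln11_11_4 ln11_11_4_ok) (M (nat_lit 524) (B (L (nat_lit 491) ln11_12_4 ln11_12_4_ok)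 (L (nat_lit 428) ln12_16_7 ln12_16_7_ok))))) (B (M (nat_lit 491) (B (M (nat_lit 490) (B (L (nat_lit 522) ln11_12_5 ln11_12_5_ok) (L (nat_lit 462) ln14_14_1 ln14_14_1_ok))) (M (nat_lit 523) (B (M (nat_lit 396) (B (L (nat_lit 364) ln11_15_6 ln11_15_6_ok) (L (nat_lit 428) ln11_16_6 ln11_16_6_ok))) (M (nat_lit 524) (B (L (nat_lit 492) ln11_12_4 ln11_12_4_ok) (L (nat_lit 556) ln11_13_4 ln11_13_4_ok))))))) (B (M (nat_lit 492) (B (L (nat_lit 363) ln11_11_4 ln11_11_4_ok) (M (nat_lit 524) (B (L (nat_lit 428) ln12_16_7 ln12_16_7_ok) (L (nat_lit 556) ln12_17_6 ln12_17_6_ok))))) (B (M (nat_lit 492) (B (L (nat_lit 363) ln11_11_4 ln11_11_4_ok) (M (nat_lit 524) (B (L (nat_lit 491) ln11_12_4 ln11_12_4_ok) (L (nat_lit 556) ln12_17_6 ln12_17_6_ok))))) (M (nat_lit 491) (B (M (nat_lit 490) (B (L (nat_lit 522) ln11_12_5 ln11_12_5_ok) (L (nat_lit 462) ln14_14_1 ln14_14_1_ok))) (M (nat_lit 363) (B (M (nat_lit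 362) (B (L (nat_lit 330) ln11_14_7 ln11_14_7_ok) (L (nat_lit 394) ln11_15_7 ln11_15_7_ok))) (M (nat_lit 364) (B (L (nat_lit 332) ln11_14_6 ln11_14_6_ok) (L (nat_lit 396) ln11_15_6 ln11_15_6_ok)))))))))))) (B (M (nat_lit 491) (B (M (nat_lit 462) (B (L (nat_lit 490) ln14_14_1 ln14_14_1_ok) (L (nat_lit 426) ln14_14_3 ln14_14_3_ok))) (B (M (nat_lit 426) (B (L (nat_lit 462) ln14_14_3 ln14_14_3_ok) (M (nat_lit 394) (B (L (nat_lit 523) ln11_16_7 ln11_16_7_ok) (M (nat_lit 362) (B (L (nat_lit 395) ln11_15_7 ln11_15_7_ok) (L (nat_lit 330) ln10_10_4 ln10_10_4_ok))))))) (B (M (nat_lit 395) (B (M (nat_lit 492) (B (L (nat_lit 524) ln11_12_4 ln11_12_4_ok) (L (nat_lit 363) ln11_11_4 ln11_11_4_ok))) (M (nat_lit 523) (B (M (nat_lit 522) (B (L (nat_lit 554) ln11_13_5 ln11_13_5_ok) (L (nat_lit 490) ln11_12_5 ln11_12_5_ok))) (M (nat_lit 394) (B (L (nat_lit 426) ln11_16_7 ln11_16_7_ok) (L (nat_lit 362) ln11_15_7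 ln11_15_7_ok))))))) (M (nat_lit 395) (B (M (nat_lit 490) (B (L (nat_lit 522) ln11_12_5 ln11_12_5_ok) (L (nat_lit 462) ln14_14_1 ln14_14_1_ok))) (M (nat_lit 492) (B (L (nat_lit 524) ln11_12_4 ln11_12_4_ok) (L (nat_lit 363) ln11_11_4 ln11_11_4_ok))))))))) (M (nat_lit 426) (B (M (nat_lit 425) (B (L (nat_lit 428) ln9_13_0 ln9_13_0_ok) (L (nat_lit 458) ln13_14_3 ln13_14_3_ok))) (L (nat_lit 462) ln14_14_3 ln14_14_3_ok))))))
noncomputable def c10_d133 : Cert := (B (M (nat_lit 491) (B (M (nat_lit 490) (B (L (nat_lit 462) ln14_14_1 ln14_14_1_ok) (M (nat_lit 489) (B (L (nat_lit 492) ln9_15_2 ln9_15_2_ok) (L (nat_lit 488) ln8_15_2 ln8_15_2_ok))))) (B (M (nat_lit 523) (B (M (nat_lit 428) (B (L (nat_lit 555) ln11_17_6 ln11_17_6_ok) (M (nat_lit 396) (B (L (nat_lit 364) ln12_11_4 ln12_11_4_ok) (L (nat_lit 427) ln11_16_6 ln11_16_6_ok))))) (B (M (nat_lit 428) (B (L (nat_lit 555) ln11_17_6 ln11_17_6_ok)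 (M (nat_lit 396) (B (L (nat_lit 492) ln12_12_5 ln12_12_5_ok) (L (nat_lit 427) ln11_16_6 ln11_16_6_ok))))) (B (M (nat_lit 555) (B (L (nat_lit 428) ln11_17_6 ln11_17_6_ok) (M (nat_lit 587) (B (L (nat_lit 492) ln11_18_6 ln11_18_6_ok) (M (nat_lit 588) (B (L (nat_lit 556) ln11_14_4 ln11_14_4_ok) (L (nat_lit 620) ln11_15_4 ln11_15_4_ok))))))) (B (M (nat_lit 427) (B (M (nat_lit 522) (B (L (nat_lit 554) ln11_13_5 ln11_13_5_ok) (M (nat_lit 395) (B (L (nat_lit 490) ln11_12_5 ln11_12_5_ok) (M (nat_lit 394) (B (L (nat_lit 362) ln11_15_7 ln11_15_7_ok) (L (nat_lit 426) ln11_16_7 ln11_16_7_ok))))))) (B (M (nat_lit 555) (B (M (nat_lit 554) (B (L (nat_lit 522) ln11_13_5 ln11_13_5_ok) (L (nat_lit 586) ln11_14_5 ln11_14_5_ok))) (M (nat_lit 588) (B (L (nat_lit 556) ln11_14_4 ln11_14_4_ok) (M (nat_lit 587) (B (L (nat_lit 492) ln11_18_6 ln11_18_6_ok) (L (nat_lit 620) ln11_15_4 ln11_15_4_ok))))))) (M (nat_lit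 395) (B (M (nat_lit 394) (B (L (nat_lit 362) ln11_15_7 ln11_15_7_ok) (L (nat_lit 426) ln11_16_7 ln11_16_7_ok))) (M (nat_lit 363) (B (L (nat_lit 492) ln11_11_4 ln11_11_4_ok) (M (nat_lit 364) (B (L (nat_lit 332) ln11_14_6 ln11_14_6_ok) (L (nat_lit 396) ln11_15_6 ln11_15_6_ok)))))))))) (M (nat_lit 427) (B (M (nat_lit 426) (B (L (nat_lit 394) ln11_16_7 ln11_16_7_ok) (M (nat_lit 428) (B (L (nat_lit 425) ln9_13_0 ln9_13_0_ok) (L (nat_lit 396) ln11_16_6 ln11_16_6_ok))))) (B (M (nat_lit 522) (B (L (nat_lit 554) ln11_13_5 ln11_13_5_ok) (M (nat_lit 395) (B (L (nat_lit 490) ln11_12_5 ln11_12_5_ok) (M (nat_lit 394) (B (L (nat_lit 362) ln11_15_7 ln11_15_7_ok) (L (nat_lit 426) ln11_16_7 ln11_16_7_ok))))))) (M (nat_lit 395) (B (M (nat_lit 396) (B (L (nat_lit 364) ln11_15_6 ln11_15_6_ok) (L (nat_lit 428) ln11_16_6 ln11_16_6_ok))) (M (nat_lit 522) (B (L (nat_lit 490) ln11_12_5 ln11_12_5_ok) (L (nat_lit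 554) ln11_13_5 ln11_13_5_ok))))))))))))) (B (M (nat_lit 427) (B (M (nat_lit 462) (B (L (nat_lit 426) ln14_14_3 ln14_14_3_ok) (L (nat_lit 490) ln14_14_1 ln14_14_1_ok))) (B (M (nat_lit 523) (B (M (nat_lit 428) (B (L (nat_lit 396) ln11_16_6 ln11_16_6_ok) (L (nat_lit 555) ln11_17_6 ln11_17_6_ok))) (M (nat_lit 522) (B (L (nat_lit 554) ln11_13_5 ln11_13_5_ok) (M (nat_lit 395) (B (L (nat_lit 490) ln11_12_5 ln11_12_5_ok) (M (nat_lit 394) (B (L (nat_lit 362) ln11_15_7 ln11_15_7_ok) (L (nat_lit 426) ln11_16_7 ln11_16_7_ok))))))))) (B (M (nat_lit 395) (B (M (nat_lit 490) (B (L (nat_lit 462) ln14_14_1 ln14_14_1_ok) (L (nat_lit 522) ln11_12_5 ln11_12_5_ok))) (M (nat_lit 363) (B (M (nat_lit 364) (B (L (nat_lit 332) ln11_14_6 ln11_14_6_ok) (L (nat_lit 396) ln11_15_6 ln11_15_6_ok))) (M (nat_lit 362) (B (L (nat_lit 330) ln11_14_7 ln11_14_7_ok) (L (nat_lit 394) ln11_15_7 ln11_15_7_ok))))))) (M (nat_lit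 426) (B (L (nat_lit 462) ln14_14_3 ln14_14_3_ok) (M (nat_lit 425) (B (L (nat_lit 428) ln9_13_0 ln9_13_0_ok) (L (nat_lit 424) ln8_13_0 ln8_13_0_ok))))))))) (M (nat_lit 427) (B (M (nat_lit 426) (B (L (nat_lit 462) ln14_14_3 ln14_14_3_ok) (M (nat_lit 425) (B (L (nat_lit 428) ln9_13_0 ln9_13_0_ok) (L (nat_lit 424) ln8_13_0 ln8_13_0_ok))))) (B (M (nat_lit 395) (B (M (nat_lit 363) (B (L (nat_lit 492) ln11_11_4 ln11_11_4_ok) (M (nat_lit 364) (B (L (nat_lit 332) ln11_14_6 ln11_14_6_ok) (L (nat_lit 396) ln11_15_6 ln11_15_6_ok))))) (B (M (nat_lit 363) (B (L (nat_lit 492) ln11_11_4 ln11_11_4_ok) (M (nat_lit 362) (B (L (nat_lit 330) ln11_14_7 ln11_14_7_ok) (L (nat_lit 394) ln11_15_7 ln11_15_7_ok))))) (M (nat_lit 523) (B (M (nat_lit 396) (B (L (nat_lit 364) ln11_15_6 ln11_15_6_ok) (L (nat_lit 428) ln11_16_6 ln11_16_6_ok))) (M (nat_lit 394) (B (L (nat_lit 362) ln11_15_7 ln11_15_7_ok) (L (nat_lit 426)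 ln11_16_7 ln11_16_7_ok)))))))) (B (M (nat_lit 426) (B (L (nat_lit 462) ln14_14_3 ln14_14_3_ok) (M (nat_lit 394) (B (L (nat_lit 523) ln11_16_7 ln11_16_7_ok) (M (nat_lit 362) (B (L (nat_lit 395) ln11_15_7 ln11_15_7_ok) (L (nat_lit 330) ln10_10_4 ln10_10_4_ok))))))) (M (nat_lit 523) (B (M (nat_lit 428) (B (L (nat_lit 396) ln11_16_6 ln11_16_6_ok) (L (nat_lit 555) ln11_17_6 ln11_17_6_ok))) (B (M (nat_lit 555) (B (L (nat_lit 428) ln11_17_6 ln11_17_6_ok) (M (nat_lit 554) (B (L (nat_lit 522) ln11_13_5 ln11_13_5_ok) (L (nat_lit 586) ln11_14_5 ln11_14_5_ok))))) (B (M (nat_lit 555) (B (M (nat_lit 554) (B (L (nat_lit 522) ln11_13_5 ln11_13_5_ok) (L (nat_lit 586) ln11_14_5 ln11_14_5_ok))) (M (nat_lit 588) (B (L (nat_lit 556) ln11_14_4 ln11_14_4_ok) (M (nat_lit 587) (B (L (nat_lit 492) ln11_18_6 ln11_18_6_ok) (L (nat_lit 620) ln11_15_4 ln11_15_4_ok))))))) (M (nat_lit 395) (B (M (nat_lit 396) (B (L (nat_lit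 364) ln11_15_6 ln11_15_6_ok) (L (nat_lit 428) ln11_16_6 ln11_16_6_ok))) (M (nat_lit 363) (B (L (nat_lit 492) ln11_11_4 ln11_11_4_ok) (M (nat_lit 362) (B (L (nat_lit 330) ln11_14_7 ln11_14_7_ok) (L (nat_lit 394) ln11_15_7 ln11_15_7_ok))))))))))))))))))) (B (M (nat_lit 458) (B (M (nat_lit 457) (B (L (nat_lit 428) ln9_14_2 ln9_14_2_ok) (M (nat_lit 425) (B (L (nat_lit 424) ln12_14_3 ln12_14_3_ok) (L (nat_lit 426) ln13_14_3 ln13_14_3_ok))))) (B (M (nat_lit 426) (B (L (nat_lit 425) ln13_14_3 ln13_14_3_ok) (M (nat_lit 490) (B (L (nat_lit 489) ln13_14_1 ln13_14_1_ok) (M (nat_lit 427) (B (M (nat_lit 395) (B (L (nat_lit 522) ln10_16_6 ln10_16_6_ok) (L (nat_lit 363) ln11_11_5 ln11_11_5_ok))) (M (nat_lit 394) (B (M (nat_lit 491) (B (L (nat_lit 523) ln10_12_4 ln10_12_4_ok) (L (nat_lit 362) ln10_11_4 ln10_11_4_ok))) (M (nat_lit 393) (B (L (nat_lit 361) ln10_15_7 ln10_15_7_ok) (L (nat_lit 428) ln13_13_3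 ln13_13_3_ok))))))))))) (B (M (nat_lit 457) (B (L (nat_lit 428) ln9_14_2 ln9_14_2_ok) (M (nat_lit 489) (B (L (nat_lit 488) ln12_14_1 ln12_14_1_ok) (L (nat_lit 490) ln13_14_1 ln13_14_1_ok))))) (M (nat_lit 457) (B (M (nat_lit 489) (B (L (nat_lit 488) ln12_14_1 ln12_14_1_ok) (L (nat_lit 490) ln13_14_1 ln13_14_1_ok))) (M (nat_lit 425) (B (L (nat_lit 424) ln12_14_3 ln12_14_3_ok) (L (nat_lit 426) ln13_14_3 ln13_14_3_ok))))))))) (B (M (nat_lit 490) (B (M (nat_lit 489) (B (L (nat_lit 458) ln13_14_1 ln13_14_1_ok) (M (nat_lit 491) (B (L (nat_lit 492) ln9_15_2 ln9_15_2_ok) (L (nat_lit 462) ln14_14_1 ln14_14_1_ok))))) (B (M (nat_lit 427) (B (M (nat_lit 462) (B (L (nat_lit 491) ln14_14_1 ln14_14_1_ok) (L (nat_lit 426) ln14_14_3 ln14_14_3_ok))) (B (M (nat_lit 426) (B (L (nat_lit 462) ln14_14_3 ln14_14_3_ok) (M (nat_lit 425) (B (L (nat_lit 458) ln13_14_3 ln13_14_3_ok) (L (nat_lit 424) ln8_13_0 ln8_13_0_ok)))))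 (B (M (nat_lit 395) (B (M (nat_lit 363) (B (L (nat_lit 458) ln11_11_5 ln11_11_5_ok) (L (nat_lit 492) ln11_11_4 ln11_11_4_ok))) (B (M (nat_lit 522) (B (L (nat_lit 491) ln11_12_5 ln11_12_5_ok) (M (nat_lit 458) (B (L (nat_lit 554) ln10_17_6 ln10_17_6_ok) (L (nat_lit 363) ln11_11_5 ln11_11_5_ok))))) (B (M (nat_lit 491) (B (L (nat_lit 522) ln11_12_5 ln11_12_5_ok) (M (nat_lit 492) (B (L (nat_lit 524) ln11_12_4 ln11_12_4_ok) (L (nat_lit 363) ln11_11_4 ln11_11_4_ok))))) (M (nat_lit 522) (B (L (nat_lit 491) ln11_12_5 ln11_12_5_ok) (M (nat_lit 458) (B (L (nat_lit 554) ln10_17_6 ln10_17_6_ok) (L (nat_lit 426) ln10_16_6 ln10_16_6_ok))))))))) (M (nat_lit 395) (B (M (nat_lit 491) (B (L (nat_lit 522) ln11_12_5 ln11_12_5_ok) (L (nat_lit 462) ln14_14_1 ln14_14_1_ok))) (M (nat_lit 363) (B (L (nat_lit 458) ln11_11_5 ln11_11_5_ok) (L (nat_lit 492) ln11_11_4 ln11_11_4_ok))))))))) (B (M (nat_lit 458) (B (L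 (nat_lit 489) ln13_14_1 ln13_14_1_ok) (M (nat_lit 426) (B (L (nat_lit 425) ln13_14_3 ln13_14_3_ok) (M (nat_lit 427) (B (L (nat_lit 462) ln14_14_3 ln14_14_3_ok) (M (nat_lit 395) (B (L (nat_lit 522) ln10_16_6 ln10_16_6_ok) (L (nat_lit 363) ln11_11_5 ln11_11_5_ok))))))))) (B (M (nat_lit 491) (B (L (nat_lit 462) ln14_14_1 ln14_14_1_ok) (M (nat_lit 489) (B (L (nat_lit 488) ln8_15_2 ln8_15_2_ok) (L (nat_lit 492) ln9_15_2 ln9_15_2_ok))))) (M (nat_lit 489) (B (L (nat_lit 458) ln13_14_1 ln13_14_1_ok) (M (nat_lit 491) (B (L (nat_lit 488) ln8_15_2 ln8_15_2_ok) (L (nat_lit 492) ln9_15_2 ln9_15_2_ok)))))))))) (B (M (nat_lit 458) (B (M (nat_lit 457) (B (L (nat_lit 428) ln9_14_2 ln9_14_2_ok) (M (nat_lit 489) (B (L (nat_lit 490) ln13_14_1 ln13_14_1_ok) (L (nat_lit 488) ln12_14_1 ln12_14_1_ok))))) (B (M (nat_lit 457) (B (L (nat_lit 428) ln9_14_2 ln9_14_2_ok) (M (nat_lit 425) (B (L (nat_lit 426) ln13_14_3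 ln13_14_3_ok) (L (nat_lit 424) ln12_14_3 ln12_14_3_ok))))) (M (nat_lit 490) (B (L (nat_lit 489) ln13_14_1 ln13_14_1_ok) (M (nat_lit 491) (B (L (nat_lit 462) ln14_14_1 ln14_14_1_ok) (M (nat_lit 426) (B (L (nat_lit 425) ln13_14_3 ln13_14_3_ok) (M (nat_lit 394) (B (L (nat_lit 523) ln10_12_4 ln10_12_4_ok) (L (nat_lit 362) ln10_11_4 ln10_11_4_ok)))))))))))) (M (nat_lit 458) (B (M (nat_lit 457) (B (L (nat_lit 428) ln9_14_2 ln9_14_2_ok) (M (nat_lit 425) (B (L (nat_lit 424) ln12_14_3 ln12_14_3_ok) (L (nat_lit 426) ln13_14_3 ln13_14_3_ok))))) (B (M (nat_lit 426) (B (L (nat_lit 425) ln13_14_3 ln13_14_3_ok) (M (nat_lit 427) (B (L (nat_lit 462) ln14_14_3 ln14_14_3_ok) (M (nat_lit 490) (B (L (nat_lit 489) ln13_14_1 ln13_14_1_ok) (M (nat_lit 522) (B (L (nat_lit 554) ln10_17_6 ln10_17_6_ok) (L (nat_lit 395) ln10_16_6 ln10_16_6_ok))))))))) (M (nat_lit 457) (B (L (nat_lit 428) ln9_14_2 ln9_14_2_ok) (M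 (nat_lit 489) (B (L (nat_lit 488) ln12_14_1 ln12_14_1_ok) (L (nat_lit 490) ln13_14_1 ln13_14_1_ok))))))))))))
noncomputable def c10_d134 : Cert := (B (M (nat_lit 427) (B (M (nat_lit 395) (B (M (nat_lit 491) (B (M (nat_lit 394) (B (M (nat_lit 393) (B (M (nat_lit 392) (B (M (nat_lit 391) (B (L (nat_lit 426) ln7_12_0_c10 ln7_12_0_c10_ok) (M (nat_lit 359) (B (L (nat_lit 360) ln11_12_3 ln11_12_3_ok) (L (nat_lit 358) ln10_12_3_c10 ln10_12_3_c10_ok))))) (B (M (nat_lit 391) (B (L (nat_lit 426) ln7_12_0_c10 ln7_12_0_c10_ok) (M (nat_lit 423) (B (L (nat_lit 424) ln11_12_1 ln11_12_1_ok) (L (nat_lit 422) ln10_12_1_c10 ln10_12_1_c10_ok))))) (M (nat_lit 360) (B (L (nat_lit 359) ln11_12_3 ln11_12_3_ok) (M (nat_lit 361) (B (L (nat_lit 396) ln12_12_3 ln12_12_3_ok) (M (nat_lit 424) (B (L (nat_lit 423) ln11_12_1 ln11_12_1_ok) (M (nat_lit 456) (B (L (nat_lit 329) ln8_14_6_c10 ln8_14_6_c10_ok) (L (nat_lit 488)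 ln8_15_6_c10 ln8_15_6_c10_ok)))))))))))) (B (M (nat_lit 392) (B (L (nat_lit 428) ln8_12_0 ln8_12_0_ok) (M (nat_lit 359) (B (L (nat_lit 360) ln11_12_3 ln11_12_3_ok) (M (nat_lit 423) (B (L (nat_lit 424) ln11_12_1 ln11_12_1_ok) (M (nat_lit 391) (B (L (nat_lit 358) ln10_12_3_c10 ln10_12_3_c10_ok) (L (nat_lit 422) ln10_12_1_c10 ln10_12_1_c10_ok))))))))) (M (nat_lit 428) (B (L (nat_lit 396) ln9_12_0 ln9_12_0_ok) (L (nat_lit 426) ln13_13_3 ln13_13_3_ok)))))) (L (nat_lit 362) ln11_15_7 ln11_15_7_ok))) (K (nat_lit 31966705165655720402582294574903333676674802743899281920384026271941938766475507757085703546444843940297152541709558981797693011894313297001488318464) (nat_lit 4351082438927820390637097028534468318408893128959099850518249634419763023697988979896082995457744263177644351574995467748524105805341569280417371155394267980456430791318630935534120206336) (nat_lit 4351082438927820390637097028534468318408893128959099850518249634419763023697988979896082995457744263177644351574995467748524105805341569280417371155394267980456430791318630935534120206336)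 c10_s537))) (B (K (nat_lit 25573364134608568312712783448286929082501673747721421003424472818629177445372627767079316647370812383361826986772918218107815557703130888694206038016) (nat_lit 6393341031047152090562678550378607321843322516090422404813065268835183379858008735142831011413121250630099925002239245470176172265135782815256805376) (nat_lit 6393341031047152090562678550378607321843322516090422404813065268835183379858008735142831011413121250630099925002239245470176172265135782815256805376) c10_s538) (B (K (nat_lit 25573364134608568312712783448286929082501673747721421003424472818629177445372627767079316647370812383361826986772918218107815557703130888694206038016) (nat_lit 19180023093141456269608533380050952054310685914433429521648328497771419288337601074996472824549203736026007050401737217267715310696519447039002542080) (nat_lit 19180023093141456269608533380050952054310685914433429521648328497771419288337601074996472824549203736026007050401737217267715310696519447039002542080)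 c10_s539) (M (nat_lit 492) (B (M (nat_lit 524) (B (L (nat_lit 428) ln12_16_7 ln12_16_7_ok) (L (nat_lit 556) ln12_17_6 ln12_17_6_ok))) (L (nat_lit 363) ln11_11_4 ln11_11_4_ok))))))) (B (M (nat_lit 395) (B (M (nat_lit 491) (B (M (nat_lit 394) (B (L (nat_lit 362) ln11_15_7 ln11_15_7_ok) (M (nat_lit 396) (B (L (nat_lit 364) ln11_15_6 ln11_15_6_ok) (M (nat_lit 393) (B (L (nat_lit 428) ln9_12_0 ln9_12_0_ok) (M (nat_lit 424) (B (L (nat_lit 425) ln12_12_1 ln12_12_1_ok) (M (nat_lit 392) (B (L (nat_lit 423) ln11_12_1 ln11_12_1_ok) (M (nat_lit 360) (B (L (nat_lit 359) ln11_12_3 ln11_12_3_ok) (L (nat_lit 361) ln12_12_3 ln12_12_3_ok))))))))))))) (K (nat_lit 31966705165655720402582294574903333676674802743899281920384026271941938766475507757085703546444843940297152541709558981797693011894313297001488318464) (nat_lit 4351082438927820390637097028534468318408893128959099850518249634419763023697988979896082995457744263177644351574995467748524105805341569280417371155394267980456430791318630935534120206336)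 (nat_lit 4351082438927820390637097028534468318408893128959099850518249634419763023697988979896082995457744263177644351574995467748524105805341569280417371155394267980456430791318630935534120206336) c10_s537))) (B (K (nat_lit 25573364134608568312712783448286929082501673747721421003424472818629177445372627767079316647370812383361826986772918218107815557703130888694206038016) (nat_lit 6393341031047152090562678550378607321843322516090422404813065268835183379858008735142831011413121250630099925002239245470176172265135782815256805376) (nat_lit 6393341031047152090562678550378607321843322516090422404813065268835183379858008735142831011413121250630099925002239245470176172265135782815256805376) c10_s538) (B (K (nat_lit 25573364134608568312712783448286929082501673747721421003424472818629177445372627767079316647370812383361826986772918218107815557703130888694206038016) (nat_lit 19180023093141456269608533380050952054310685914433429521648328497771419288337601074996472824549203736026007050401737217267715310696519447039002542080)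 (nat_lit 19180023093141456269608533380050952054310685914433429521648328497771419288337601074996472824549203736026007050401737217267715310696519447039002542080) c10_s539) (M (nat_lit 492) (B (M (nat_lit 524) (B (L (nat_lit 428) ln12_16_7 ln12_16_7_ok) (L (nat_lit 556) ln12_17_6 ln12_17_6_ok))) (L (nat_lit 363) ln11_11_4 ln11_11_4_ok))))))) (B (M (nat_lit 426) (B (M (nat_lit 425) (B (L (nat_lit 428) ln9_13_0 ln9_13_0_ok) (L (nat_lit 458) ln13_14_3 ln13_14_3_ok))) (L (nat_lit 462) ln14_14_3 ln14_14_3_ok))) (M (nat_lit 426) (B (M (nat_lit 425) (B (L (nat_lit 458) ln13_14_3 ln13_14_3_ok) (L (nat_lit 424) ln8_13_0 ln8_13_0_ok))) (L (nat_lit 462) ln14_14_3 ln14_14_3_ok))))))) (B (M (nat_lit 427) c10_d132) (B (M (nat_lit 491) (B (M (nat_lit 523) (B (M (nat_lit 427) (B (M (nat_lit 522) (B (M (nat_lit 521) (B (M (nat_lit 520) (B (M (nat_lit 524) (B (L (nat_lit 556) ln11_13_4 ln11_13_4_ok) (M (nat_lit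 552) (B (L (nat_lit 551) ln11_16_1 ln11_16_1_ok) (L (nat_lit 553) ln12_16_1 ln12_16_1_ok))))) (M (nat_lit 519) (B (L (nat_lit 490) ln7_16_2 ln7_16_2_ok) (M (nat_lit 487) (B (L (nat_lit 486) ln10_16_3_c10 ln10_16_3_c10_ok) (L (nat_lit 488) ln11_16_3_c10 ln11_16_3_c10_ok))))))) (B (M (nat_lit 520) (B (L (nat_lit 492) ln8_16_2 ln8_16_2_ok) (M (nat_lit 524) (B (M (nat_lit 552) (B (L (nat_lit 551) ln11_16_1 ln11_16_1_ok) (L (nat_lit 553) ln12_16_1 ln12_16_1_ok))) (L (nat_lit 556) ln11_13_4 ln11_13_4_ok))))) (M (nat_lit 490) (B (L (nat_lit 492) ln13_15_1 ln13_15_1_ok) (L (nat_lit 462) ln14_14_1 ln14_14_1_ok)))))) (L (nat_lit 554) ln11_13_5 ln11_13_5_ok))) (K (nat_lit 27459190672489144025583323598907867443900379568557808488050388283001104884459759668939833084955563661462133947675049686525870516506555279912237436041800187904) (nat_lit 693167423812637295376118365362365170753362268755809153325927123484823214630147842069633790387367202900096462770754255022001750016)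 (nat_lit 693167423812637295376118365362365170753362268755809153325927123484823214630147842069633790387367202900096462770754255022001750016) c10_s540))) (B (K (nat_lit 27459190672489144025583323598561283732135277711110506715032502820071550250037782597043523137378735997986430744795052885762853069244381378542061989563178418176) (nat_lit 5438853048216559408753373675512735281219116175774169824436569453862338004349601842342538904804750135761565739121989253931562000622466239041259179724448524396501271272484247524843030839296) (nat_lit 5438853048216559408753373675512735281219116175774169824436569453862338004349601842342538904804750135761565739121989253931562000622466239041259179724448524396501271272484247524843030839296) c10_s541) (B (M (nat_lit 555) (B (L (nat_lit 428) ln11_17_6 ln11_17_6_ok) (M (nat_lit 586) (B (L (nat_lit 554) ln11_14_5 ln11_14_5_ok) (M (nat_lit 588) (B (L (nat_lit 556) ln11_14_4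 ln11_14_4_ok) (M (nat_lit 587) (B (L (nat_lit 618) ln11_15_5 ln11_15_5_ok) (L (nat_lit 620) ln11_15_4 ln11_15_4_ok))))))))) (M (nat_lit 428) (B (M (nat_lit 396) (B (L (nat_lit 492) ln12_12_5 ln12_12_5_ok) (L (nat_lit 364) ln12_11_4 ln12_11_4_ok))) (L (nat_lit 555) ln11_17_6 ln11_17_6_ok))))))) (B (M (nat_lit 523) (B (M (nat_lit 427) (B (M (nat_lit 522) (B (L (nat_lit 554) ln11_13_5 ln11_13_5_ok) (M (nat_lit 524) (B (L (nat_lit 556) ln11_13_4 ln11_13_4_ok) (M (nat_lit 521) (B (L (nat_lit 492) ln9_16_2 ln9_16_2_ok) (M (nat_lit 488) (B (L (nat_lit 489) ln12_16_3 ln12_16_3_ok) (M (nat_lit 520) (B (L (nat_lit 487) ln11_16_3_c10 ln11_16_3_c10_ok) (M (nat_lit 552) (B (L (nat_lit 551) ln11_16_1 ln11_16_1_ok) (L (nat_lit 553) ln12_16_1 ln12_16_1_ok))))))))))))) (K (nat_lit 27459190672489144025583323598907867443900379568557808488050388283001104884459759668939833084955563661462133947675049686525870516506555279912237436041800187904)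 (nat_lit 693167423812637295376118365362365170753362268755809153325927123484823214630147842069633790387367202900096462770754255022001750016) (nat_lit 693167423812637295376118365362365170753362268755809153325927123484823214630147842069633790387367202900096462770754255022001750016) c10_s540))) (B (K (nat_lit 27459190672489144025583323598561283732135277711110506715032502820071550250037782597043523137378735997986430744795052885762853069244381378542061989563178418176) (nat_lit 5438853048216559408753373675512735281219116175774169824436569453862338004349601842342538904804750135761565739121989253931562000622466239041259179724448524396501271272484247524843030839296) (nat_lit 5438853048216559408753373675512735281219116175774169824436569453862338004349601842342538904804750135761565739121989253931562000622466239041259179724448524396501271272484247524843030839296) c10_s541) (B (M (nat_lit 555) (B (L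 (nat_lit 428) ln11_17_6 ln11_17_6_ok) (M (nat_lit 586) (B (L (nat_lit 554) ln11_14_5 ln11_14_5_ok) (M (nat_lit 588) (B (L (nat_lit 556) ln11_14_4 ln11_14_4_ok) (M (nat_lit 587) (B (L (nat_lit 618) ln11_15_5 ln11_15_5_ok) (L (nat_lit 620) ln11_15_4 ln11_15_4_ok))))))))) (M (nat_lit 428) (B (M (nat_lit 396) (B (L (nat_lit 492) ln12_12_5 ln12_12_5_ok) (L (nat_lit 364) ln12_11_4 ln12_11_4_ok))) (L (nat_lit 555) ln11_17_6 ln11_17_6_ok))))))) (B (M (nat_lit 458) (B (M (nat_lit 457) (B (L (nat_lit 492) ln9_14_0 ln9_14_0_ok) (L (nat_lit 428) ln9_14_2 ln9_14_2_ok))) (M (nat_lit 490) (B (L (nat_lit 489) ln13_14_1 ln13_14_1_ok) (L (nat_lit 462) ln14_14_1 ln14_14_1_ok))))) (M (nat_lit 490) (B (M (nat_lit 489) (B (L (nat_lit 458) ln13_14_1 ln13_14_1_ok) (L (nat_lit 488) ln8_15_2 ln8_15_2_ok))) (L (nat_lit 462) ln14_14_1 ln14_14_1_ok))))))) c10_d133)))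
noncomputable def c10_d135 : Cert := (B (M (nat_lit 426) (B (M (nat_lit 491) (B (M (nat_lit 523) (B (L (nat_lit 394) ln10_12_4 ln10_12_4_ok) (M (nat_lit 522) (B (L (nat_lit 521) ln13_15_1 ln13_15_1_ok) (L (nat_lit 555) ln10_13_4 ln10_13_4_ok))))) (B (M (nat_lit 523) (B (L (nat_lit 394) ln10_12_4 ln10_12_4_ok) (M (nat_lit 555) (B (L (nat_lit 522) ln10_13_4 ln10_13_4_ok) (L (nat_lit 587) ln11_18_6 ln11_18_6_ok))))) (B (M (nat_lit 522) (B (L (nat_lit 521) ln13_15_1 ln13_15_1_ok) (M (nat_lit 523) (B (L (nat_lit 555) ln10_13_4 ln10_13_4_ok) (L (nat_lit 494) ln14_15_1 ln14_15_1_ok))))) (L (nat_lit 489) ln9_15_2 ln9_15_2_ok))))) (B (M (nat_lit 522) (B (M (nat_lit 521) (B (L (nat_lit 553) ln10_13_5 ln10_13_5_ok) (L (nat_lit 491) ln13_15_1 ln13_15_1_ok))) (M (nat_lit 425) (B (L (nat_lit 393) ln10_16_7 ln10_16_7_ok) (L (nat_lit 427) ln9_13_0 ln9_13_0_ok))))) (B (M (nat_lit 522) (B (M (nat_lit 523)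 (B (L (nat_lit 555) ln10_13_4 ln10_13_4_ok) (M (nat_lit 491) (B (L (nat_lit 394) ln10_12_4 ln10_12_4_ok) (L (nat_lit 494) ln14_15_1 ln14_15_1_ok))))) (M (nat_lit 425) (B (L (nat_lit 393) ln10_16_7 ln10_16_7_ok) (L (nat_lit 427) ln9_13_0 ln9_13_0_ok))))) (B (M (nat_lit 394) (B (M (nat_lit 489) (B (L (nat_lit 521) ln10_12_5 ln10_12_5_ok) (L (nat_lit 491) ln9_15_2 ln9_15_2_ok))) (M (nat_lit 362) (B (M (nat_lit 361) (B (L (nat_lit 329) ln10_14_7 ln10_14_7_ok) (L (nat_lit 393) ln10_15_7 ln10_15_7_ok))) (M (nat_lit 363) (B (L (nat_lit 331) ln10_14_6 ln10_14_6_ok) (L (nat_lit 395) ln10_15_6 ln10_15_6_ok))))))) (K (nat_lit 41556716711482165684227735376472390466137916361088025262748780588742997085987404797656447811891531205901215896792649058810949171800038672988494626816) (nat_lit 29484081464512684796377309566678341130433234107813442007702800653493697616144933631316794022783350461721726531240757941832095749303040221133367404428053574637032833024)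 (nat_lit 29484081464512684796377309566678341130433234107813442007702800653493697616144933631316794022783350461721726531240757941832095749303040221133367404428053574637032833024) c10_s542)))))) (B (M (nat_lit 426) (B (M (nat_lit 491) (B (L (nat_lit 457) ln13_15_3 ln13_15_3_ok) (M (nat_lit 523) (B (L (nat_lit 394) ln10_12_4 ln10_12_4_ok) (M (nat_lit 555) (B (L (nat_lit 522) ln10_13_4 ln10_13_4_ok) (L (nat_lit 587) ln11_18_6 ln11_18_6_ok))))))) (B (M (nat_lit 522) (B (M (nat_lit 523) (B (L (nat_lit 555) ln10_13_4 ln10_13_4_ok) (M (nat_lit 491) (B (L (nat_lit 394) ln10_12_4 ln10_12_4_ok) (L (nat_lit 494) ln14_15_1 ln14_15_1_ok))))) (M (nat_lit 425) (B (L (nat_lit 393) ln10_16_7 ln10_16_7_ok) (L (nat_lit 427) ln9_13_0 ln9_13_0_ok))))) (B (M (nat_lit 457) (B (L (nat_lit 491) ln13_15_3 ln13_15_3_ok) (L (nat_lit 427) ln13_13_1 ln13_13_1_ok))) (M (nat_lit 427) (B (L (nat_lit 425) ln9_13_0 ln9_13_0_ok)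 (M (nat_lit 395) (B (L (nat_lit 522) ln10_16_6 ln10_16_6_ok) (M (nat_lit 363) (B (L (nat_lit 394) ln10_15_6 ln10_15_6_ok) (L (nat_lit 331) ln11_10_4 ln11_10_4_ok))))))))))) (B (M (nat_lit 426) (B (M (nat_lit 491) (B (L (nat_lit 457) ln13_15_3 ln13_15_3_ok) (L (nat_lit 489) ln9_15_2 ln9_15_2_ok))) (B (M (nat_lit 394) (B (M (nat_lit 489) (B (L (nat_lit 521) ln10_12_5 ln10_12_5_ok) (L (nat_lit 491) ln9_15_2 ln9_15_2_ok))) (M (nat_lit 362) (B (M (nat_lit 361) (B (L (nat_lit 329) ln10_14_7 ln10_14_7_ok) (L (nat_lit 393) ln10_15_7 ln10_15_7_ok))) (M (nat_lit 363) (B (L (nat_lit 331) ln10_14_6 ln10_14_6_ok) (L (nat_lit 395) ln10_15_6 ln10_15_6_ok))))))) (B (M (nat_lit 457) (B (L (nat_lit 491) ln13_15_3 ln13_15_3_ok) (L (nat_lit 427) ln13_13_1 ln13_13_1_ok))) (M (nat_lit 394) (B (M (nat_lit 393) (B (L (nat_lit 361) ln10_15_7 ln10_15_7_ok) (L (nat_lit 427) ln13_13_3 ln13_13_3_ok))) (M (nat_lit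 363) (B (L (nat_lit 395) ln10_15_6 ln10_15_6_ok) (M (nat_lit 489) (B (L (nat_lit 521) ln10_12_5 ln10_12_5_ok) (M (nat_lit 362) (B (L (nat_lit 457) ln10_11_5 ln10_11_5_ok) (L (nat_lit 331) ln10_14_6 ln10_14_6_ok))))))))))))) (M (nat_lit 426) (B (M (nat_lit 427) (B (M (nat_lit 395) (B (L (nat_lit 522) ln10_16_6 ln10_16_6_ok) (M (nat_lit 363) (B (L (nat_lit 394) ln10_15_6 ln10_15_6_ok) (L (nat_lit 331) ln11_10_4 ln11_10_4_ok))))) (L (nat_lit 425) ln9_13_0 ln9_13_0_ok))) (B (K (nat_lit 41556716711482165684227735376472390466137916361088025262748780588742997085987404797656447811891531205901215896792649058810949171800038672988494626816) (nat_lit 29484081464512684796377309566678341130433234107813442007702800653493697616144933631316794022783350461721726531240757941832095749303040221133367404428053574637032833024) (nat_lit 29484081464512684796377309566678341130433234107813442007702800653493697616144933631316794022783350461721726531240757941832095749303040221133367404428053574637032833024)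 c10_s542) (B (M (nat_lit 394) (B (M (nat_lit 427) (B (L (nat_lit 393) ln13_13_3 ln13_13_3_ok) (M (nat_lit 395) (B (L (nat_lit 363) ln10_15_6 ln10_15_6_ok) (L (nat_lit 522) ln10_16_6 ln10_16_6_ok))))) (B (M (nat_lit 522) (B (M (nat_lit 521) (B (L (nat_lit 489) ln10_12_5 ln10_12_5_ok) (L (nat_lit 553) ln10_13_5 ln10_13_5_ok))) (M (nat_lit 395) (B (L (nat_lit 363) ln10_15_6 ln10_15_6_ok) (L (nat_lit 427) ln10_16_6 ln10_16_6_ok))))) (M (nat_lit 362) (B (M (nat_lit 361) (B (L (nat_lit 329) ln10_14_7 ln10_14_7_ok) (L (nat_lit 393) ln10_15_7 ln10_15_7_ok))) (M (nat_lit 489) (B (L (nat_lit 457) ln10_11_5 ln10_11_5_ok) (L (nat_lit 521) ln10_12_5 ln10_12_5_ok)))))))) (B (M (nat_lit 522) (B (M (nat_lit 425) (B (L (nat_lit 393) ln10_16_7 ln10_16_7_ok) (L (nat_lit 427) ln9_13_0 ln9_13_0_ok))) (M (nat_lit 554) (B (M (nat_lit 553) (B (L (nat_lit 521) ln10_13_5 ln10_13_5_ok) (L (nat_lit 585) ln10_14_5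 ln10_14_5_ok))) (M (nat_lit 555) (B (L (nat_lit 523) ln10_13_4 ln10_13_4_ok) (L (nat_lit 587) ln10_14_4 ln10_14_4_ok))))))) (B (M (nat_lit 394) (B (M (nat_lit 393) (B (L (nat_lit 361) ln10_15_7 ln10_15_7_ok) (L (nat_lit 427) ln13_13_3 ln13_13_3_ok))) (M (nat_lit 363) (B (L (nat_lit 395) ln10_15_6 ln10_15_6_ok) (M (nat_lit 489) (B (L (nat_lit 521) ln10_12_5 ln10_12_5_ok) (M (nat_lit 362) (B (L (nat_lit 457) ln10_11_5 ln10_11_5_ok) (L (nat_lit 331) ln10_14_6 ln10_14_6_ok))))))))) (M (nat_lit 394) (B (M (nat_lit 363) (B (L (nat_lit 395) ln10_15_6 ln10_15_6_ok) (M (nat_lit 489) (B (L (nat_lit 521) ln10_12_5 ln10_12_5_ok) (M (nat_lit 362) (B (L (nat_lit 457) ln10_11_5 ln10_11_5_ok) (L (nat_lit 331) ln10_14_6 ln10_14_6_ok))))))) (B (M (nat_lit 362) (B (M (nat_lit 361) (B (L (nat_lit 329) ln10_14_7 ln10_14_7_ok) (L (nat_lit 393) ln10_15_7 ln10_15_7_ok))) (M (nat_lit 363) (B (L (nat_lit 331) ln10_14_6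 ln10_14_6_ok) (L (nat_lit 395) ln10_15_6 ln10_15_6_ok))))) (M (nat_lit 522) (B (M (nat_lit 393) (B (L (nat_lit 361) ln10_15_7 ln10_15_7_ok) (L (nat_lit 425) ln10_16_7 ln10_16_7_ok))) (M (nat_lit 521) (B (L (nat_lit 489) ln10_12_5 ln10_12_5_ok) (L (nat_lit 553) ln10_13_5 ln10_13_5_ok)))))))))))))))))
noncomputable def c10_d136 : Cert := (B (M (nat_lit 428) (B (M (nat_lit 525) (B (L (nat_lit 396) ln12_12_4 ln12_12_4_ok) (L (nat_lit 557) ln13_17_7 ln13_17_7_ok))) (B (M (nat_lit 524) (B (M (nat_lit 525) (B (L (nat_lit 557) ln12_13_4 ln12_13_4_ok) (M (nat_lit 523) (B (L (nat_lit 555) ln12_13_5 ln12_13_5_ok) (M (nat_lit 522) (B (L (nat_lit 521) ln9_16_2 ln9_16_2_ok) (L (nat_lit 494) ln10_16_2 ln10_16_2_ok))))))) (L (nat_lit 556) ln12_17_6 ln12_17_6_ok))) (B (M (nat_lit 396) (B (L (nat_lit 525) ln12_12_4 ln12_12_4_ok) (L (nat_lit 364) ln12_11_4 ln12_11_4_ok))) (M (nat_lit 524) (B (M (nat_lit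 523) (B (L (nat_lit 555) ln12_13_5 ln12_13_5_ok) (M (nat_lit 522) (B (L (nat_lit 521) ln9_16_2 ln9_16_2_ok) (M (nat_lit 494) (B (L (nat_lit 491) ln14_15_1 ln14_15_1_ok) (L (nat_lit 495) ln15_15_1 ln15_15_1_ok))))))) (B (M (nat_lit 523) (B (L (nat_lit 555) ln12_13_5 ln12_13_5_ok) (M (nat_lit 395) (B (L (nat_lit 427) ln12_16_7 ln12_16_7_ok) (M (nat_lit 396) (B (L (nat_lit 491) ln12_12_5 ln12_12_5_ok) (L (nat_lit 363) ln12_15_7 ln12_15_7_ok))))))) (M (nat_lit 396) (B (M (nat_lit 395) (B (L (nat_lit 427) ln12_16_7 ln12_16_7_ok) (L (nat_lit 363) ln12_15_7 ln12_15_7_ok))) (L (nat_lit 364) ln12_11_4 ln12_11_4_ok)))))))))) (B (M (nat_lit 494) (B (M (nat_lit 495) (B (L (nat_lit 459) ln15_15_3 ln15_15_3_ok) (L (nat_lit 496) ln16_15_3 ln16_15_3_ok))) (B (M (nat_lit 428) (B (M (nat_lit 524) (B (L (nat_lit 556) ln12_17_6 ln12_17_6_ok) (M (nat_lit 396) (B (L (nat_lit 364) ln12_11_4 ln12_11_4_ok) (M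 (nat_lit 395) (B (L (nat_lit 427) ln12_16_7 ln12_16_7_ok) (L (nat_lit 363) ln12_15_7 ln12_15_7_ok))))))) (B (M (nat_lit 491) (B (M (nat_lit 396) (B (L (nat_lit 523) ln12_12_5 ln12_12_5_ok) (L (nat_lit 364) ln12_11_4 ln12_11_4_ok))) (M (nat_lit 458) (B (L (nat_lit 459) ln10_14_0 ln10_14_0_ok) (M (nat_lit 490) (B (L (nat_lit 489) ln9_15_2 ln9_15_2_ok) (L (nat_lit 457) ln13_15_3 ln13_15_3_ok))))))) (M (nat_lit 427) (B (M (nat_lit 524) (B (L (nat_lit 556) ln12_17_6 ln12_17_6_ok) (L (nat_lit 395) ln12_16_7 ln12_16_7_ok))) (M (nat_lit 458) (B (L (nat_lit 459) ln10_14_0 ln10_14_0_ok) (M (nat_lit 426) (B (L (nat_lit 457) ln13_13_1 ln13_13_1_ok) (L (nat_lit 425) ln9_13_0 ln9_13_0_ok)))))))))) (M (nat_lit 495) (B (L (nat_lit 496) ln16_15_3 ln16_15_3_ok) (M (nat_lit 524) (B (L (nat_lit 556) ln12_17_6 ln12_17_6_ok) (L (nat_lit 523) ln15_15_1 ln15_15_1_ok)))))))) (B (M (nat_lit 523) (B (M (nat_lit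 428) (B (M (nat_lit 396) (B (L (nat_lit 491) ln12_12_5 ln12_12_5_ok) (L (nat_lit 525) ln12_12_4 ln12_12_4_ok))) (B (M (nat_lit 524) (B (L (nat_lit 555) ln12_13_5 ln12_13_5_ok) (M (nat_lit 525) (B (L (nat_lit 396) ln12_12_4 ln12_12_4_ok) (L (nat_lit 557) ln12_13_4 ln12_13_4_ok))))) (M (nat_lit 555) (B (L (nat_lit 524) ln12_13_5 ln12_13_5_ok) (M (nat_lit 491) (B (L (nat_lit 459) ln11_17_6 ln11_17_6_ok) (L (nat_lit 587) ln11_18_6 ln11_18_6_ok)))))))) (B (M (nat_lit 524) (B (M (nat_lit 522) (B (L (nat_lit 521) ln9_16_2 ln9_16_2_ok) (M (nat_lit 494) (B (L (nat_lit 491) ln14_15_1 ln14_15_1_ok) (L (nat_lit 495) ln15_15_1 ln15_15_1_ok))))) (B (M (nat_lit 555) (B (L (nat_lit 428) ln12_13_5 ln12_13_5_ok) (M (nat_lit 587) (B (L (nat_lit 491) ln11_18_6 ln11_18_6_ok) (L (nat_lit 619) ln11_19_6 ln11_19_6_ok))))) (M (nat_lit 494) (B (L (nat_lit 495) ln15_15_1 ln15_15_1_ok) (M (nat_lit 522) (B (L (nat_lit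 521) ln9_16_2 ln9_16_2_ok) (L (nat_lit 525) ln10_16_2 ln10_16_2_ok)))))))) (B (M (nat_lit 524) (B (M (nat_lit 555) (B (L (nat_lit 428) ln12_13_5 ln12_13_5_ok) (M (nat_lit 587) (B (L (nat_lit 619) ln11_19_6 ln11_19_6_ok) (L (nat_lit 556) ln12_14_5 ln12_14_5_ok))))) (M (nat_lit 494) (B (L (nat_lit 495) ln15_15_1 ln15_15_1_ok) (M (nat_lit 522) (B (L (nat_lit 521) ln9_16_2 ln9_16_2_ok) (L (nat_lit 525) ln10_16_2 ln10_16_2_ok))))))) (B (M (nat_lit 494) (B (M (nat_lit 495) (B (L (nat_lit 459) ln15_15_3 ln15_15_3_ok) (L (nat_lit 524) ln15_15_1 ln15_15_1_ok))) (B (M (nat_lit 522) (B (L (nat_lit 491) ln14_15_1 ln14_15_1_ok) (M (nat_lit 524) (B (L (nat_lit 521) ln9_16_2 ln9_16_2_ok) (L (nat_lit 495) ln15_15_1 ln15_15_1_ok))))) (B (M (nat_lit 459) (B (L (nat_lit 495) ln15_15_3 ln15_15_3_ok) (M (nat_lit 491) (B (L (nat_lit 458) ln10_14_0 ln10_14_0_ok) (L (nat_lit 522) ln14_15_1 ln14_15_1_ok))))) (M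 (nat_lit 522) (B (L (nat_lit 491) ln14_15_1 ln14_15_1_ok) (M (nat_lit 524) (B (L (nat_lit 521) ln9_16_2 ln9_16_2_ok) (L (nat_lit 525) ln10_16_2 ln10_16_2_ok))))))))) (M (nat_lit 491) (B (M (nat_lit 522) (B (L (nat_lit 494) ln14_15_1 ln14_15_1_ok) (M (nat_lit 521) (B (L (nat_lit 520) ln8_16_2 ln8_16_2_ok) (L (nat_lit 490) ln13_15_1 ln13_15_1_ok))))) (M (nat_lit 555) (B (L (nat_lit 587) ln11_18_6 ln11_18_6_ok) (M (nat_lit 428) (B (L (nat_lit 459) ln11_17_6 ln11_17_6_ok) (L (nat_lit 396) ln12_12_5 ln12_12_5_ok)))))))))))) (B (M (nat_lit 494) (B (M (nat_lit 459) (B (L (nat_lit 458) ln10_14_0 ln10_14_0_ok) (L (nat_lit 495) ln15_15_3 ln15_15_3_ok))) (B (M (nat_lit 495) (B (L (nat_lit 459) ln15_15_3 ln15_15_3_ok) (L (nat_lit 496) ln16_15_3 ln16_15_3_ok))) (B (M (nat_lit 495) (B (L (nat_lit 496) ln16_15_3 ln16_15_3_ok) (M (nat_lit 524) (B (L (nat_lit 523) ln15_15_1 ln15_15_1_ok) (L (nat_lit 556)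 ln12_17_6 ln12_17_6_ok))))) (M (nat_lit 491) (B (M (nat_lit 458) (B (L (nat_lit 459) ln10_14_0 ln10_14_0_ok) (M (nat_lit 490) (B (L (nat_lit 457) ln13_15_3 ln13_15_3_ok) (L (nat_lit 489) ln9_15_2 ln9_15_2_ok))))) (B (M (nat_lit 490) (B (L (nat_lit 489) ln9_15_2 ln9_15_2_ok) (M (nat_lit 522) (B (L (nat_lit 521) ln13_15_1 ln13_15_1_ok) (L (nat_lit 523) ln14_15_1 ln14_15_1_ok))))) (B (M (nat_lit 490) (B (M (nat_lit 458) (B (L (nat_lit 457) ln13_15_3 ln13_15_3_ok) (L (nat_lit 459) ln10_14_0 ln10_14_0_ok))) (M (nat_lit 522) (B (L (nat_lit 521) ln13_15_1 ln13_15_1_ok) (L (nat_lit 523) ln14_15_1 ln14_15_1_ok))))) (M (nat_lit 459) (B (L (nat_lit 458) ln10_14_0 ln10_14_0_ok) (M (nat_lit 556) (B (L (nat_lit 524) ln12_17_6 ln12_17_6_ok) (M (nat_lit 523) (B (L (nat_lit 522) ln14_15_1 ln14_15_1_ok) (M (nat_lit 555) (B (L (nat_lit 588) ln11_14_4 ln11_14_4_ok) (L (nat_lit 587) ln11_18_6 ln11_18_6_ok)))))))))))))))))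 (M (nat_lit 428) (B (M (nat_lit 396) (B (L (nat_lit 364) ln12_11_4 ln12_11_4_ok) (L (nat_lit 525) ln12_12_4 ln12_12_4_ok))) (B (M (nat_lit 525) (B (L (nat_lit 396) ln12_12_4 ln12_12_4_ok) (L (nat_lit 557) ln13_17_7 ln13_17_7_ok))) (B (M (nat_lit 525) (B (L (nat_lit 557) ln13_17_7 ln13_17_7_ok) (M (nat_lit 524) (B (M (nat_lit 427) (B (L (nat_lit 395) ln12_16_7 ln12_16_7_ok) (L (nat_lit 556) ln13_13_5 ln13_13_5_ok))) (M (nat_lit 523) (B (L (nat_lit 555) ln12_13_5 ln12_13_5_ok) (M (nat_lit 522) (B (L (nat_lit 521) ln9_16_2 ln9_16_2_ok) (L (nat_lit 494) ln10_16_2 ln10_16_2_ok))))))))) (M (nat_lit 524) (B (M (nat_lit 395) (B (L (nat_lit 427) ln12_16_7 ln12_16_7_ok) (M (nat_lit 396) (B (L (nat_lit 363) ln12_15_7 ln12_15_7_ok) (L (nat_lit 364) ln12_11_4 ln12_11_4_ok))))) (L (nat_lit 556) ln12_17_6 ln12_17_6_ok)))))))))))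
noncomputable def c10_d137 : Cert := (B (M (nat_lit 428) (B (M (nat_lit 525) (B (L (nat_lit 396) ln12_12_4 ln12_12_4_ok) (L (nat_lit 557) ln13_17_7 ln13_17_7_ok))) (M (nat_lit 458) (B (M (nat_lit 459) (B (L (nat_lit 457) ln9_14_0 ln9_14_0_ok) (L (nat_lit 494) ln10_14_0 ln10_14_0_ok))) (B (M (nat_lit 459) (B (L (nat_lit 494) ln10_14_0 ln10_14_0_ok) (M (nat_lit 490) (B (L (nat_lit 489) ln13_14_1 ln13_14_1_ok) (M (nat_lit 426) (B (L (nat_lit 425) ln13_14_3 ln13_14_3_ok) (M (nat_lit 522) (B (M (nat_lit 521) (B (L (nat_lit 553) ln10_13_5 ln10_13_5_ok) (L (nat_lit 491) ln13_15_1 ln13_15_1_ok))) (M (nat_lit 427) (B (L (nat_lit 395) ln10_16_6 ln10_16_6_ok) (L (nat_lit 554) ln10_17_6 ln10_17_6_ok))))))))))) (B (M (nat_lit 490) (B (M (nat_lit 491) (B (L (nat_lit 457) ln13_15_3 ln13_15_3_ok) (M (nat_lit 521) (B (L (nat_lit 522) ln13_15_1 ln13_15_1_ok) (L (nat_lit 489) ln9_15_2 ln9_15_2_ok))))) (B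 (M (nat_lit 491) (B (L (nat_lit 457) ln13_15_3 ln13_15_3_ok) (M (nat_lit 522) (B (L (nat_lit 521) ln13_15_1 ln13_15_1_ok) (M (nat_lit 523) (B (L (nat_lit 494) ln14_15_1 ln14_15_1_ok) (M (nat_lit 426) (B (L (nat_lit 394) ln10_12_4 ln10_12_4_ok) (L (nat_lit 555) ln10_13_4 ln10_13_4_ok))))))))) c10_d135))) (M (nat_lit 490) (B (M (nat_lit 457) (B (L (nat_lit 491) ln13_15_3 ln13_15_3_ok) (L (nat_lit 459) ln9_14_0 ln9_14_0_ok))) (B (M (nat_lit 522) (B (M (nat_lit 521) (B (L (nat_lit 491) ln13_15_1 ln13_15_1_ok) (M (nat_lit 553) (B (L (nat_lit 426) ln10_13_5 ln10_13_5_ok) (M (nat_lit 585) (B (L (nat_lit 489) ln9_18_6 ln9_18_6_ok) (L (nat_lit 554) ln10_14_5 ln10_14_5_ok))))))) (B (M (nat_lit 426) (B (M (nat_lit 521) (B (L (nat_lit 553) ln10_13_5 ln10_13_5_ok) (L (nat_lit 491) ln13_15_1 ln13_15_1_ok))) (M (nat_lit 425) (B (L (nat_lit 393) ln10_16_7 ln10_16_7_ok) (L (nat_lit 427) ln9_13_0 ln9_13_0_ok)))))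 (B (M (nat_lit 426) (B (M (nat_lit 425) (B (L (nat_lit 393) ln10_16_7 ln10_16_7_ok) (L (nat_lit 427) ln9_13_0 ln9_13_0_ok))) (B (M (nat_lit 394) (B (M (nat_lit 395) (B (L (nat_lit 363) ln10_15_6 ln10_15_6_ok) (L (nat_lit 427) ln10_16_6 ln10_16_6_ok))) (M (nat_lit 523) (B (L (nat_lit 491) ln10_12_4 ln10_12_4_ok) (L (nat_lit 555) ln10_13_4 ln10_13_4_ok))))) (M (nat_lit 394) (B (M (nat_lit 393) (B (L (nat_lit 361) ln10_15_7 ln10_15_7_ok) (L (nat_lit 425) ln10_16_7 ln10_16_7_ok))) (M (nat_lit 523) (B (L (nat_lit 491) ln10_12_4 ln10_12_4_ok) (L (nat_lit 555) ln10_13_4 ln10_13_4_ok)))))))) (B (M (nat_lit 491) (B (L (nat_lit 521) ln13_15_1 ln13_15_1_ok) (M (nat_lit 459) (B (L (nat_lit 489) ln13_14_1 ln13_14_1_ok) (M (nat_lit 427) (B (L (nat_lit 554) ln10_17_6 ln10_17_6_ok) (L (nat_lit 395) ln11_12_5 ln11_12_5_ok))))))) (M (nat_lit 426) (B (M (nat_lit 425) (B (L (nat_lit 393) ln10_16_7 ln10_16_7_ok)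 (L (nat_lit 427) ln9_13_0 ln9_13_0_ok))) (B (M (nat_lit 394) (B (M (nat_lit 521) (B (L (nat_lit 489) ln10_12_5 ln10_12_5_ok) (L (nat_lit 553) ln10_13_5 ln10_13_5_ok))) (M (nat_lit 395) (B (L (nat_lit 363) ln10_15_6 ln10_15_6_ok) (L (nat_lit 427) ln10_16_6 ln10_16_6_ok))))) (M (nat_lit 394) (B (M (nat_lit 393) (B (L (nat_lit 361) ln10_15_7 ln10_15_7_ok) (L (nat_lit 425) ln10_16_7 ln10_16_7_ok))) (M (nat_lit 521) (B (L (nat_lit 489) ln10_12_5 ln10_12_5_ok) (L (nat_lit 553) ln10_13_5 ln10_13_5_ok))))))))))))) (B (M (nat_lit 491) (B (L (nat_lit 457) ln13_15_3 ln13_15_3_ok) (M (nat_lit 521) (B (L (nat_lit 522) ln13_15_1 ln13_15_1_ok) (L (nat_lit 489) ln9_15_2 ln9_15_2_ok))))) (M (nat_lit 426) (B (M (nat_lit 459) (B (L (nat_lit 457) ln9_14_0 ln9_14_0_ok) (L (nat_lit 425) ln13_14_3 ln13_14_3_ok))) (B (M (nat_lit 427) (B (L (nat_lit 457) ln13_13_1 ln13_13_1_ok) (M (nat_lit 395) (B (L (nat_lit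 522) ln10_16_6 ln10_16_6_ok) (M (nat_lit 363) (B (L (nat_lit 394) ln10_15_6 ln10_15_6_ok) (L (nat_lit 331) ln11_10_4 ln11_10_4_ok))))))) (K (nat_lit 41556716711482165684227735376472390466137916361088025262748780588742997085987404797656447811891531205901215896792649058810949171800038672988494626816) (nat_lit 29484081464512684796377309566678341130433234107813442007702800653493697616144933631316794022783350461721726531240757941832095749303040221133367404428053574637032833024) (nat_lit 29484081464512684796377309566678341130433234107813442007702800653493697616144933631316794022783350461721726531240757941832095749303040221133367404428053574637032833024) c10_s542)))))))))))))) (B (M (nat_lit 524) (B (M (nat_lit 428) (B (M (nat_lit 525) (B (L (nat_lit 396) ln12_12_4 ln12_12_4_ok) (L (nat_lit 557) ln12_13_4 ln12_13_4_ok))) (L (nat_lit 556) ln12_17_6 ln12_17_6_ok))) (B (M (nat_lit 428) (B (M (nat_lit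 396) (B (L (nat_lit 525) ln12_12_4 ln12_12_4_ok) (M (nat_lit 523) (B (L (nat_lit 555) ln12_13_5 ln12_13_5_ok) (L (nat_lit 491) ln12_12_5 ln12_12_5_ok))))) (B (M (nat_lit 396) (B (M (nat_lit 523) (B (L (nat_lit 555) ln12_13_5 ln12_13_5_ok) (L (nat_lit 491) ln12_12_5 ln12_12_5_ok))) (M (nat_lit 395) (B (L (nat_lit 427) ln12_16_7 ln12_16_7_ok) (L (nat_lit 363) ln12_15_7 ln12_15_7_ok))))) (L (nat_lit 556) ln12_17_6 ln12_17_6_ok)))) (B (L (nat_lit 556) ln12_17_6 ln12_17_6_ok) (M (nat_lit 428) (B (M (nat_lit 396) (B (M (nat_lit 523) (B (L (nat_lit 491) ln12_12_5 ln12_12_5_ok) (L (nat_lit 555) ln12_13_5 ln12_13_5_ok))) (M (nat_lit 395) (B (L (nat_lit 363) ln12_15_7 ln12_15_7_ok) (L (nat_lit 427) ln12_16_7 ln12_16_7_ok))))) (B (M (nat_lit 525) (B (L (nat_lit 396) ln12_12_4 ln12_12_4_ok) (L (nat_lit 557) ln12_13_4 ln12_13_4_ok))) (M (nat_lit 523) (B (L (nat_lit 555) ln12_13_5 ln12_13_5_ok) (M (nat_lit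 525) (B (L (nat_lit 557) ln12_13_4 ln12_13_4_ok) (M (nat_lit 522) (B (L (nat_lit 521) ln9_16_2 ln9_16_2_ok) (M (nat_lit 490) (B (L (nat_lit 489) ln13_16_3 ln13_16_3_ok) (M (nat_lit 554) (B (L (nat_lit 553) ln13_16_1 ln13_16_1_ok) (M (nat_lit 427) (B (L (nat_lit 395) ln12_16_7 ln12_16_7_ok) (M (nat_lit 459) (B (L (nat_lit 491) ln11_13_5 ln11_13_5_ok) (L (nat_lit 458) ln10_17_6 ln10_17_6_ok)))))))))))))))))))))) (B (M (nat_lit 428) (B (M (nat_lit 427) (B (M (nat_lit 458) (B (M (nat_lit 426) (B (M (nat_lit 490) (B (M (nat_lit 521) (B (M (nat_lit 522) (B (L (nat_lit 491) ln13_15_1 ln13_15_1_ok) (L (nat_lit 553) ln10_13_5 ln10_13_5_ok))) (B (M (nat_lit 489) (B (L (nat_lit 394) ln10_12_5 ln10_12_5_ok) (M (nat_lit 553) (B (L (nat_lit 522) ln10_13_5 ln10_13_5_ok) (L (nat_lit 585) ln9_18_6 ln9_18_6_ok))))) (M (nat_lit 489) (B (L (nat_lit 394) ln10_12_5 ln10_12_5_ok) (L (nat_lit 491) ln9_15_2 ln9_15_2_ok))))))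 (B (M (nat_lit 522) (B (M (nat_lit 521) (B (L (nat_lit 491) ln13_15_1 ln13_15_1_ok) (L (nat_lit 553) ln10_13_5 ln10_13_5_ok))) (M (nat_lit 459) (B (L (nat_lit 494) ln10_14_0 ln10_14_0_ok) (L (nat_lit 554) ln10_17_6 ln10_17_6_ok))))) (M (nat_lit 459) (B (L (nat_lit 494) ln10_14_0 ln10_14_0_ok) (L (nat_lit 489) ln13_14_1 ln13_14_1_ok)))))) (L (nat_lit 425) ln9_13_0 ln9_13_0_ok))) (B (M (nat_lit 459) (B (L (nat_lit 457) ln9_14_0 ln9_14_0_ok) (L (nat_lit 494) ln10_14_0 ln10_14_0_ok))) (M (nat_lit 426) (B (L (nat_lit 425) ln9_13_0 ln9_13_0_ok) (L (nat_lit 457) ln13_13_1 ln13_13_1_ok)))))) (M (nat_lit 524) (B (L (nat_lit 556) ln12_17_6 ln12_17_6_ok) (L (nat_lit 395) ln12_16_7 ln12_16_7_ok))))) (M (nat_lit 525) (B (L (nat_lit 396) ln12_12_4 ln12_12_4_ok) (L (nat_lit 557) ln13_17_7 ln13_17_7_ok))))) c10_d136)))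
noncomputable def c10_d138 : Cert := (B (M (nat_lit 427) (B (M (nat_lit 426) (B (L (nat_lit 462) ln14_14_3 ln14_14_3_ok) (M (nat_lit 425) (B (L (nat_lit 424) ln8_13_0 ln8_13_0_ok) (L (nat_lit 428) ln9_13_0 ln9_13_0_ok))))) (B (M (nat_lit 462) (B (L (nat_lit 426) ln14_14_3 ln14_14_3_ok) (M (nat_lit 463) (B (L (nat_lit 428) ln15_14_3 ln15_14_3_ok) (M (nat_lit 495) (B (L (nat_lit 494) ln11_14_0 ln11_14_0_ok) (L (nat_lit 496) ln12_14_0 ln12_14_0_ok))))))) (B (M (nat_lit 491) (B (M (nat_lit 462) (B (L (nat_lit 490) ln14_14_1 ln14_14_1_ok) (M (nat_lit 463) (B (L (nat_lit 492) ln15_14_1 ln15_14_1_ok) (L (nat_lit 428) ln15_14_3 ln15_14_3_ok))))) (B (M (nat_lit 492) (B (M (nat_lit 524) (B (L (nat_lit 395) ln11_12_4 ln11_12_4_ok) (L (nat_lit 556) ln12_17_6 ln12_17_6_ok))) (M (nat_lit 523) (B (M (nat_lit 555) (B (L (nat_lit 587) ln11_18_6 ln11_18_6_ok) (L (nat_lit 428) ln11_17_6 ln11_17_6_ok))) (M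 (nat_lit 494) (B (L (nat_lit 522) ln14_15_1 ln14_15_1_ok) (M (nat_lit 462) (B (L (nat_lit 463) ln15_14_1 ln15_14_1_ok) (L (nat_lit 495) ln11_14_0 ln11_14_0_ok))))))))) (B (M (nat_lit 462) (B (L (nat_lit 490) ln14_14_1 ln14_14_1_ok) (M (nat_lit 463) (B (L (nat_lit 428) ln15_14_3 ln15_14_3_ok) (M (nat_lit 495) (B (L (nat_lit 494) ln11_14_0 ln11_14_0_ok) (L (nat_lit 496) ln12_14_0 ln12_14_0_ok))))))) (B (M (nat_lit 492) (B (M (nat_lit 462) (B (L (nat_lit 490) ln14_14_1 ln14_14_1_ok) (L (nat_lit 463) ln15_14_1 ln15_14_1_ok))) (M (nat_lit 524) (B (L (nat_lit 395) ln11_12_4 ln11_12_4_ok) (L (nat_lit 556) ln12_17_6 ln12_17_6_ok))))) (M (nat_lit 523) (B (M (nat_lit 555) (B (L (nat_lit 428) ln11_17_6 ln11_17_6_ok) (M (nat_lit 556) (B (L (nat_lit 588) ln11_14_4 ln11_14_4_ok) (L (nat_lit 524) ln11_13_4 ln11_13_4_ok))))) (B (M (nat_lit 395) (B (M (nat_lit 522) (B (L (nat_lit 554) ln11_13_5 ln11_13_5_ok)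 (L (nat_lit 490) ln11_12_5 ln11_12_5_ok))) (M (nat_lit 524) (B (L (nat_lit 556) ln11_13_4 ln11_13_4_ok) (L (nat_lit 492) ln11_12_4 ln11_12_4_ok))))) (M (nat_lit 554) (B (L (nat_lit 522) ln11_13_5 ln11_13_5_ok) (M (nat_lit 555) (B (L (nat_lit 586) ln11_14_5 ln11_14_5_ok) (L (nat_lit 428) ln11_17_6 ln11_17_6_ok))))))))))))) (B (M (nat_lit 462) (B (L (nat_lit 426) ln14_14_3 ln14_14_3_ok) (M (nat_lit 463) (B (M (nat_lit 491) (B (L (nat_lit 490) ln14_14_1 ln14_14_1_ok) (L (nat_lit 492) ln15_14_1 ln15_14_1_ok))) (M (nat_lit 495) (B (L (nat_lit 494) ln11_14_0 ln11_14_0_ok) (L (nat_lit 496) ln12_14_0 ln12_14_0_ok))))))) (M (nat_lit 395) (B (M (nat_lit 492) (B (L (nat_lit 363) ln11_11_4 ln11_11_4_ok) (M (nat_lit 524) (B (L (nat_lit 491) ln11_12_4 ln11_12_4_ok) (L (nat_lit 556) ln12_17_6 ln12_17_6_ok))))) (B (M (nat_lit 492) (B (L (nat_lit 363) ln11_11_4 ln11_11_4_ok) (M (nat_lit 524) (B (L (nat_lit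 556) ln12_17_6 ln12_17_6_ok) (L (nat_lit 428) ln12_16_7 ln12_16_7_ok))))) (B (M (nat_lit 491) (B (M (nat_lit 490) (B (L (nat_lit 522) ln11_12_5 ln11_12_5_ok) (M (nat_lit 492) (B (L (nat_lit 489) ln9_15_2 ln9_15_2_ok) (L (nat_lit 524) ln11_12_4 ln11_12_4_ok))))) (M (nat_lit 426) (B (M (nat_lit 425) (B (L (nat_lit 424) ln8_13_0 ln8_13_0_ok) (L (nat_lit 428) ln9_13_0 ln9_13_0_ok))) (M (nat_lit 394) (B (L (nat_lit 523) ln11_16_7 ln11_16_7_ok) (L (nat_lit 362) ln11_15_7 ln11_15_7_ok))))))) (B (M (nat_lit 363) (B (L (nat_lit 492) ln11_11_4 ln11_11_4_ok) (M (nat_lit 331) (B (L (nat_lit 428) ln11_10_4 ln11_10_4_ok) (M (nat_lit 332) (B (L (nat_lit 364) ln11_14_6 ln11_14_6_ok) (L (nat_lit 300) ln11_13_6 ln11_13_6_ok))))))) (M (nat_lit 491) (B (M (nat_lit 394) (B (L (nat_lit 362) ln11_15_7 ln11_15_7_ok) (M (nat_lit 523) (B (L (nat_lit 426) ln11_16_7 ln11_16_7_ok) (M (nat_lit 522) (B (L (nat_lit 554)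 ln11_13_5 ln11_13_5_ok) (L (nat_lit 490) ln11_12_5 ln11_12_5_ok))))))) (B (M (nat_lit 523) (B (M (nat_lit 394) (B (L (nat_lit 426) ln11_16_7 ln11_16_7_ok) (L (nat_lit 362) ln11_15_7 ln11_15_7_ok))) (M (nat_lit 555) (B (L (nat_lit 428) ln11_17_6 ln11_17_6_ok) (M (nat_lit 556) (B (L (nat_lit 588) ln11_14_4 ln11_14_4_ok) (L (nat_lit 524) ln11_13_4 ln11_13_4_ok))))))) (B (M (nat_lit 523) (B (M (nat_lit 522) (B (L (nat_lit 554) ln11_13_5 ln11_13_5_ok) (L (nat_lit 490) ln11_12_5 ln11_12_5_ok))) (M (nat_lit 555) (B (L (nat_lit 428) ln11_17_6 ln11_17_6_ok) (M (nat_lit 556) (B (L (nat_lit 588) ln11_14_4 ln11_14_4_ok) (L (nat_lit 524) ln11_13_4 ln11_13_4_ok))))))) (M (nat_lit 363) (B (M (nat_lit 362) (B (L (nat_lit 394) ln11_15_7 ln11_15_7_ok) (L (nat_lit 330) ln11_14_7 ln11_14_7_ok))) (M (nat_lit 331) (B (L (nat_lit 428) ln11_10_4 ln11_10_4_ok) (M (nat_lit 332) (B (L (nat_lit 364) ln11_14_6 ln11_14_6_ok)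 (L (nat_lit 300) ln11_13_6 ln11_13_6_ok))))))))))))))))))))) (B (M (nat_lit 462) (B (M (nat_lit 463) (B (M (nat_lit 491) (B (L (nat_lit 490) ln14_14_1 ln14_14_1_ok) (L (nat_lit 492) ln15_14_1 ln15_14_1_ok))) (M (nat_lit 495) (B (L (nat_lit 494) ln11_14_0 ln11_14_0_ok) (L (nat_lit 496) ln12_14_0 ln12_14_0_ok))))) (B (M (nat_lit 463) (B (M (nat_lit 495) (B (L (nat_lit 494) ln11_14_0 ln11_14_0_ok) (L (nat_lit 496) ln12_14_0 ln12_14_0_ok))) (M (nat_lit 464) (B (L (nat_lit 492) ln16_14_1 ln16_14_1_ok) (M (nat_lit 432) (B (L (nat_lit 431) ln12_14_2 ln12_14_2_ok) (L (nat_lit 433) ln13_14_2 ln13_14_2_ok))))))) (B (M (nat_lit 463) (B (M (nat_lit 495) (B (L (nat_lit 494) ln11_14_0 ln11_14_0_ok) (L (nat_lit 496) ln12_14_0 ln12_14_0_ok))) (M (nat_lit 464) (B (L (nat_lit 428) ln16_14_3 ln16_14_3_ok) (M (nat_lit 432) (B (L (nat_lit 431) ln12_14_2 ln12_14_2_ok) (L (nat_lit 433) ln13_14_2 ln13_14_2_ok)))))))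 (B (M (nat_lit 463) (B (M (nat_lit 491) (B (L (nat_lit 490) ln14_14_1 ln14_14_1_ok) (L (nat_lit 492) ln15_14_1 ln15_14_1_ok))) (M (nat_lit 464) (B (L (nat_lit 428) ln16_14_3 ln16_14_3_ok) (M (nat_lit 432) (B (L (nat_lit 431) ln12_14_2 ln12_14_2_ok) (L (nat_lit 433) ln13_14_2 ln13_14_2_ok))))))) (M (nat_lit 494) (B (L (nat_lit 495) ln11_14_0 ln11_14_0_ok) (M (nat_lit 490) (B (L (nat_lit 491) ln14_14_1 ln14_14_1_ok) (L (nat_lit 458) ln10_14_0 ln10_14_0_ok)))))))))) (B (M (nat_lit 458) (B (M (nat_lit 457) (B (M (nat_lit 489) (B (L (nat_lit 488) ln12_14_1 ln12_14_1_ok) (L (nat_lit 490) ln13_14_1 ln13_14_1_ok))) (L (nat_lit 492) ln9_14_0 ln9_14_0_ok))) (B (M (nat_lit 425) (B (L (nat_lit 426) ln13_14_3 ln13_14_3_ok) (M (nat_lit 457) (B (L (nat_lit 424) ln12_14_3 ln12_14_3_ok) (L (nat_lit 492) ln9_14_0 ln9_14_0_ok))))) (M (nat_lit 462) (B (M (nat_lit 426) (B (L (nat_lit 425) ln13_14_3 ln13_14_3_ok)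 (L (nat_lit 427) ln14_14_3 ln14_14_3_ok))) (L (nat_lit 494) ln10_14_0 ln10_14_0_ok)))))) (B (K (nat_lit 25573364134608568312366199736441131916364156081276788066369824063134397067450404584726530879003213942293803898677724353555637349100583468091435909120) (nat_lit 63134242694615576827488542313540443987526380917282164981485244931249029425013577096011713283378348758926976951278849642238405833775945305366602973184) (nat_lit 63134242694615576827488542313540443987526380917282164981485244931249029425013577096011713283378348758926976951278849642238405833775945305366602973184) c10_s545) (B (M (nat_lit 462) (B (M (nat_lit 463) (B (M (nat_lit 491) (B (L (nat_lit 490) ln14_14_1 ln14_14_1_ok) (L (nat_lit 492) ln15_14_1 ln15_14_1_ok))) (M (nat_lit 427) (B (L (nat_lit 426) ln14_14_3 ln14_14_3_ok) (L (nat_lit 428) ln15_14_3 ln15_14_3_ok))))) (B (M (nat_lit 463) (B (M (nat_lit 427) (B (L (nat_lit 426)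 ln14_14_3 ln14_14_3_ok) (L (nat_lit 428) ln15_14_3 ln15_14_3_ok))) (M (nat_lit 464) (B (M (nat_lit 496) (B (L (nat_lit 495) ln12_14_0 ln12_14_0_ok) (L (nat_lit 497) ln13_14_0 ln13_14_0_ok))) (M (nat_lit 432) (B (L (nat_lit 431) ln12_14_2 ln12_14_2_ok) (L (nat_lit 433) ln13_14_2 ln13_14_2_ok))))))) (B (M (nat_lit 463) (B (M (nat_lit 491) (B (L (nat_lit 490) ln14_14_1 ln14_14_1_ok) (L (nat_lit 492) ln15_14_1 ln15_14_1_ok))) (M (nat_lit 464) (B (M (nat_lit 496) (B (L (nat_lit 495) ln12_14_0 ln12_14_0_ok) (L (nat_lit 497) ln13_14_0 ln13_14_0_ok))) (M (nat_lit 432) (B (L (nat_lit 431) ln12_14_2 ln12_14_2_ok) (L (nat_lit 433) ln13_14_2 ln13_14_2_ok))))))) (M (nat_lit 458) (B (M (nat_lit 490) (B (L (nat_lit 489) ln13_14_1 ln13_14_1_ok) (L (nat_lit 491) ln14_14_1 ln14_14_1_ok))) (M (nat_lit 426) (B (L (nat_lit 425) ln13_14_3 ln13_14_3_ok) (L (nat_lit 427) ln14_14_3 ln14_14_3_ok))))))))) (K (nat_lit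 25573364134608568312366199736441131916364156081276788066369824063134397067450404584726530879003213942293803898677724353555637349100583468091435909120) (nat_lit 633165827977536177350368080156695287139029652894103444201614494742748469013332646854367091487129888551659748557234234382536812862996871417436437569736858554381213152875716280320) (nat_lit 633165827977536177350368080156695287139029652894103444201614494742748469013332646854367091487129888551659748557234234382536812862996871417436437569736858554381213152875716280320) c10_s546))))))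
noncomputable def c10_d139 : Cert := (B (M (nat_lit 523) (B (M (nat_lit 522) (B (L (nat_lit 492) ln14_15_1 ln14_15_1_ok) (M (nat_lit 427) (B (L (nat_lit 554) ln11_13_5 ln11_13_5_ok) (M (nat_lit 524) (B (L (nat_lit 556) ln11_13_4 ln11_13_4_ok) (L (nat_lit 525) ln10_16_2 ln10_16_2_ok))))))) (B (M (nat_lit 556) (B (M (nat_lit 492) (B (L (nat_lit 522) ln14_15_1 ln14_15_1_ok) (M (nat_lit 588) (B (L (nat_lit 524) ln12_17_6 ln12_17_6_ok) (L (nat_lit 555) ln11_14_4 ln11_14_4_ok))))) (B (M (nat_lit 524) (B (M (nat_lit 588) (B (L (nat_lit 555) ln11_14_4 ln11_14_4_ok) (L (nat_lit 620) ln12_19_7 ln12_19_7_ok))) (L (nat_lit 525) ln13_13_5 ln13_13_5_ok))) (B (M (nat_lit 492) (B (L (nat_lit 522) ln14_15_1 ln14_15_1_ok) (M (nat_lit 555) (B (L (nat_lit 588) ln11_14_4 ln11_14_4_ok) (L (nat_lit 587) ln11_18_6 ln11_18_6_ok))))) (M (nat_lit 492) (B (L (nat_lit 522) ln14_15_1 ln14_15_1_ok) (L (nat_lit 524)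 ln12_17_6 ln12_17_6_ok))))))) (B (M (nat_lit 524) (B (M (nat_lit 556) (B (L (nat_lit 427) ln11_13_4 ln11_13_4_ok) (L (nat_lit 525) ln13_13_5 ln13_13_5_ok))) (B (M (nat_lit 556) (B (L (nat_lit 525) ln13_13_5 ln13_13_5_ok) (M (nat_lit 588) (B (L (nat_lit 555) ln11_14_4 ln11_14_4_ok) (L (nat_lit 620) ln12_19_7 ln12_19_7_ok))))) (B (M (nat_lit 556) (B (L (nat_lit 427) ln11_13_4 ln11_13_4_ok) (M (nat_lit 588) (B (L (nat_lit 555) ln11_14_4 ln11_14_4_ok) (L (nat_lit 620) ln12_19_7 ln12_19_7_ok))))) (M (nat_lit 522) (B (L (nat_lit 525) ln10_16_2 ln10_16_2_ok) (M (nat_lit 554) (B (L (nat_lit 427) ln11_13_5 ln11_13_5_ok) (M (nat_lit 586) (B (L (nat_lit 490) ln10_18_6 ln10_18_6_ok) (L (nat_lit 618) ln10_19_6 ln10_19_6_ok))))))))))) (B (M (nat_lit 556) (B (M (nat_lit 524) (B (L (nat_lit 427) ln11_13_4 ln11_13_4_ok) (M (nat_lit 588) (B (L (nat_lit 555) ln11_14_4 ln11_14_4_ok) (L (nat_lit 620) ln12_19_7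 ln12_19_7_ok))))) (B (M (nat_lit 588) (B (L (nat_lit 555) ln11_14_4 ln11_14_4_ok) (M (nat_lit 524) (B (L (nat_lit 492) ln12_17_6 ln12_17_6_ok) (L (nat_lit 620) ln12_19_7 ln12_19_7_ok))))) (B (M (nat_lit 555) (B (L (nat_lit 588) ln11_14_4 ln11_14_4_ok) (M (nat_lit 586) (B (L (nat_lit 554) ln11_14_5 ln11_14_5_ok) (M (nat_lit 587) (B (L (nat_lit 492) ln11_18_6 ln11_18_6_ok) (L (nat_lit 618) ln11_15_5 ln11_15_5_ok))))))) (M (nat_lit 524) (B (L (nat_lit 427) ln11_13_4 ln11_13_4_ok) (L (nat_lit 492) ln12_17_6 ln12_17_6_ok))))))) (M (nat_lit 522) (B (L (nat_lit 492) ln14_15_1 ln14_15_1_ok) (M (nat_lit 554) (B (L (nat_lit 427) ln11_13_5 ln11_13_5_ok) (M (nat_lit 586) (B (L (nat_lit 490) ln10_18_6 ln10_18_6_ok) (L (nat_lit 555) ln11_14_5 ln11_14_5_ok)))))))))))) (B (M (nat_lit 523) (B (M (nat_lit 522) (B (L (nat_lit 492) ln14_15_1 ln14_15_1_ok) (M (nat_lit 554) (B (L (nat_lit 427) ln11_13_5 ln11_13_5_ok)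 (M (nat_lit 586) (B (L (nat_lit 555) ln11_14_5 ln11_14_5_ok) (L (nat_lit 618) ln10_19_6 ln10_19_6_ok))))))) (B (M (nat_lit 524) (B (M (nat_lit 522) (B (L (nat_lit 492) ln14_15_1 ln14_15_1_ok) (L (nat_lit 525) ln10_16_2 ln10_16_2_ok))) (B (M (nat_lit 556) (B (L (nat_lit 525) ln13_13_5 ln13_13_5_ok) (M (nat_lit 588) (B (L (nat_lit 555) ln11_14_4 ln11_14_4_ok) (L (nat_lit 620) ln12_19_7 ln12_19_7_ok))))) (M (nat_lit 556) (B (L (nat_lit 492) ln12_17_6 ln12_17_6_ok) (M (nat_lit 588) (B (L (nat_lit 555) ln11_14_4 ln11_14_4_ok) (L (nat_lit 620) ln12_19_7 ln12_19_7_ok)))))))) (B (M (nat_lit 524) (B (M (nat_lit 427) (B (L (nat_lit 556) ln11_13_4 ln11_13_4_ok) (M (nat_lit 522) (B (L (nat_lit 554) ln11_13_5 ln11_13_5_ok) (L (nat_lit 525) ln10_16_2 ln10_16_2_ok))))) (B (M (nat_lit 556) (B (L (nat_lit 525) ln13_13_5 ln13_13_5_ok) (M (nat_lit 588) (B (L (nat_lit 555) ln11_14_4 ln11_14_4_ok) (L (nat_lit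 620) ln12_19_7 ln12_19_7_ok))))) (B (M (nat_lit 556) (B (L (nat_lit 427) ln11_13_4 ln11_13_4_ok) (M (nat_lit 588) (B (L (nat_lit 555) ln11_14_4 ln11_14_4_ok) (L (nat_lit 620) ln12_19_7 ln12_19_7_ok))))) (M (nat_lit 427) (B (M (nat_lit 426) (B (L (nat_lit 394) ln11_16_7 ln11_16_7_ok) (L (nat_lit 462) ln14_14_3 ln14_14_3_ok))) (M (nat_lit 522) (B (L (nat_lit 554) ln11_13_5 ln11_13_5_ok) (L (nat_lit 525) ln10_16_2 ln10_16_2_ok))))))))) (B (M (nat_lit 555) (B (M (nat_lit 587) (B (L (nat_lit 492) ln11_18_6 ln11_18_6_ok) (M (nat_lit 586) (B (L (nat_lit 554) ln11_14_5 ln11_14_5_ok) (L (nat_lit 618) ln11_15_5 ln11_15_5_ok))))) (B (M (nat_lit 587) (B (M (nat_lit 586) (B (L (nat_lit 554) ln11_14_5 ln11_14_5_ok) (L (nat_lit 618) ln11_15_5 ln11_15_5_ok))) (M (nat_lit 588) (B (L (nat_lit 556) ln11_14_4 ln11_14_4_ok) (L (nat_lit 620) ln11_15_4 ln11_15_4_ok))))) (B (M (nat_lit 587) (B (L (nat_lit 492)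 ln11_18_6 ln11_18_6_ok) (M (nat_lit 588) (B (L (nat_lit 556) ln11_14_4 ln11_14_4_ok) (L (nat_lit 620) ln11_15_4 ln11_15_4_ok))))) (M (nat_lit 427) (B (M (nat_lit 426) (B (L (nat_lit 394) ln11_16_7 ln11_16_7_ok) (L (nat_lit 462) ln14_14_3 ln14_14_3_ok))) (M (nat_lit 556) (B (L (nat_lit 524) ln11_13_4 ln11_13_4_ok) (L (nat_lit 588) ln11_14_4 ln11_14_4_ok))))))))) (M (nat_lit 427) (B (M (nat_lit 426) (B (L (nat_lit 394) ln11_16_7 ln11_16_7_ok) (L (nat_lit 462) ln14_14_3 ln14_14_3_ok))) (M (nat_lit 522) (B (L (nat_lit 554) ln11_13_5 ln11_13_5_ok) (L (nat_lit 492) ln14_15_1 ln14_15_1_ok)))))))))) (M (nat_lit 427) (B (M (nat_lit 462) (B (L (nat_lit 426) ln14_14_3 ln14_14_3_ok) (L (nat_lit 490) ln14_14_1 ln14_14_1_ok))) (B (M (nat_lit 395) (B (M (nat_lit 490) (B (L (nat_lit 522) ln11_12_5 ln11_12_5_ok) (L (nat_lit 462) ln14_14_1 ln14_14_1_ok))) (M (nat_lit 363) (B (M (nat_lit 362) (B (L (nat_lit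 330) ln11_14_7 ln11_14_7_ok) (L (nat_lit 394) ln11_15_7 ln11_15_7_ok))) (M (nat_lit 364) (B (L (nat_lit 332) ln11_14_6 ln11_14_6_ok) (L (nat_lit 396) ln11_15_6 ln11_15_6_ok))))))) (B (M (nat_lit 395) (B (M (nat_lit 522) (B (L (nat_lit 490) ln11_12_5 ln11_12_5_ok) (M (nat_lit 523) (B (L (nat_lit 554) ln11_13_5 ln11_13_5_ok) (M (nat_lit 524) (B (L (nat_lit 556) ln11_13_4 ln11_13_4_ok) (L (nat_lit 525) ln10_16_2 ln10_16_2_ok))))))) (M (nat_lit 363) (B (M (nat_lit 362) (B (L (nat_lit 330) ln11_14_7 ln11_14_7_ok) (L (nat_lit 394) ln11_15_7 ln11_15_7_ok))) (M (nat_lit 364) (B (L (nat_lit 332) ln11_14_6 ln11_14_6_ok) (L (nat_lit 396) ln11_15_6 ln11_15_6_ok))))))) (M (nat_lit 426) (B (L (nat_lit 462) ln14_14_3 ln14_14_3_ok) (M (nat_lit 394) (B (L (nat_lit 523) ln11_16_7 ln11_16_7_ok) (M (nat_lit 362) (B (L (nat_lit 330) ln10_10_4 ln10_10_4_ok) (L (nat_lit 395) ln11_15_7 ln11_15_7_ok)))))))))))))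
noncomputable def c10_d140 : Cert := (B (M (nat_lit 491) (B (M (nat_lit 490) (B (L (nat_lit 462) ln14_14_1 ln14_14_1_ok) (M (nat_lit 489) (B (L (nat_lit 488) ln8_15_2 ln8_15_2_ok) (L (nat_lit 492) ln9_15_2 ln9_15_2_ok))))) (B (M (nat_lit 462) (B (L (nat_lit 490) ln14_14_1 ln14_14_1_ok) (M (nat_lit 463) (B (L (nat_lit 492) ln15_14_1 ln15_14_1_ok) (M (nat_lit 495) (B (L (nat_lit 494) ln11_14_0 ln11_14_0_ok) (L (nat_lit 496) ln12_14_0 ln12_14_0_ok))))))) (B (M (nat_lit 427) (B (M (nat_lit 462) (B (L (nat_lit 426) ln14_14_3 ln14_14_3_ok) (M (nat_lit 463) (B (L (nat_lit 492) ln15_14_1 ln15_14_1_ok) (L (nat_lit 428) ln15_14_3 ln15_14_3_ok))))) (B (M (nat_lit 523) (B (M (nat_lit 428) (B (L (nat_lit 555) ln11_17_6 ln11_17_6_ok) (L (nat_lit 396) ln11_16_6 ln11_16_6_ok))) (B (M (nat_lit 395) (B (M (nat_lit 396) (B (L (nat_lit 428) ln11_16_6 ln11_16_6_ok) (L (nat_lit 364) ln11_15_6 ln11_15_6_ok)))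 (M (nat_lit 363) (B (L (nat_lit 492) ln11_11_4 ln11_11_4_ok) (M (nat_lit 362) (B (L (nat_lit 394) ln11_15_7 ln11_15_7_ok) (L (nat_lit 330) ln11_14_7 ln11_14_7_ok))))))) (M (nat_lit 555) (B (M (nat_lit 554) (B (L (nat_lit 586) ln11_14_5 ln11_14_5_ok) (L (nat_lit 522) ln11_13_5 ln11_13_5_ok))) (M (nat_lit 587) (B (L (nat_lit 492) ln11_18_6 ln11_18_6_ok) (M (nat_lit 588) (B (L (nat_lit 620) ln11_15_4 ln11_15_4_ok) (L (nat_lit 556) ln11_14_4 ln11_14_4_ok)))))))))) (B (M (nat_lit 523) (B (M (nat_lit 426) (B (L (nat_lit 394) ln11_16_7 ln11_16_7_ok) (L (nat_lit 462) ln14_14_3 ln14_14_3_ok))) (M (nat_lit 428) (B (L (nat_lit 555) ln11_17_6 ln11_17_6_ok) (L (nat_lit 396) ln11_16_6 ln11_16_6_ok))))) (M (nat_lit 462) (B (L (nat_lit 426) ln14_14_3 ln14_14_3_ok) (M (nat_lit 495) (B (L (nat_lit 494) ln11_14_0 ln11_14_0_ok) (M (nat_lit 463) (B (L (nat_lit 492) ln15_14_1 ln15_14_1_ok) (L (nat_lit 496)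 ln12_14_0 ln12_14_0_ok))))))))))) (B (M (nat_lit 462) (B (L (nat_lit 490) ln14_14_1 ln14_14_1_ok) (M (nat_lit 463) (B (M (nat_lit 427) (B (L (nat_lit 426) ln14_14_3 ln14_14_3_ok) (L (nat_lit 428) ln15_14_3 ln15_14_3_ok))) (M (nat_lit 495) (B (L (nat_lit 494) ln11_14_0 ln11_14_0_ok) (L (nat_lit 496) ln12_14_0 ln12_14_0_ok))))))) (M (nat_lit 523) (B (M (nat_lit 428) (B (L (nat_lit 555) ln11_17_6 ln11_17_6_ok) (M (nat_lit 396) (B (L (nat_lit 427) ln11_16_6 ln11_16_6_ok) (L (nat_lit 492) ln12_12_5 ln12_12_5_ok))))) (B (M (nat_lit 427) (B (M (nat_lit 426) (B (L (nat_lit 394) ln11_16_7 ln11_16_7_ok) (M (nat_lit 428) (B (L (nat_lit 425) ln9_13_0 ln9_13_0_ok) (L (nat_lit 396) ln11_16_6 ln11_16_6_ok))))) (B (M (nat_lit 395) (B (M (nat_lit 522) (B (L (nat_lit 554) ln11_13_5 ln11_13_5_ok) (L (nat_lit 490) ln11_12_5 ln11_12_5_ok))) (M (nat_lit 396) (B (L (nat_lit 428) ln11_16_6 ln11_16_6_ok) (L (nat_lit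 364) ln11_15_6 ln11_15_6_ok))))) (M (nat_lit 395) (B (M (nat_lit 522) (B (L (nat_lit 554) ln11_13_5 ln11_13_5_ok) (L (nat_lit 490) ln11_12_5 ln11_12_5_ok))) (M (nat_lit 394) (B (L (nat_lit 426) ln11_16_7 ln11_16_7_ok) (L (nat_lit 362) ln11_15_7 ln11_15_7_ok)))))))) (B (M (nat_lit 428) (B (L (nat_lit 555) ln11_17_6 ln11_17_6_ok) (M (nat_lit 396) (B (L (nat_lit 492) ln12_12_5 ln12_12_5_ok) (L (nat_lit 364) ln12_11_4 ln12_11_4_ok))))) (B (M (nat_lit 427) (B (M (nat_lit 395) (B (M (nat_lit 522) (B (L (nat_lit 554) ln11_13_5 ln11_13_5_ok) (L (nat_lit 490) ln11_12_5 ln11_12_5_ok))) (M (nat_lit 394) (B (L (nat_lit 426) ln11_16_7 ln11_16_7_ok) (L (nat_lit 362) ln11_15_7 ln11_15_7_ok))))) (B (M (nat_lit 395) (B (M (nat_lit 394) (B (L (nat_lit 426) ln11_16_7 ln11_16_7_ok) (L (nat_lit 362) ln11_15_7 ln11_15_7_ok))) (M (nat_lit 363) (B (L (nat_lit 492) ln11_11_4 ln11_11_4_ok) (M (nat_lit 364) (B (L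 (nat_lit 396) ln11_15_6 ln11_15_6_ok) (L (nat_lit 332) ln11_14_6 ln11_14_6_ok))))))) (B (M (nat_lit 395) (B (M (nat_lit 522) (B (L (nat_lit 554) ln11_13_5 ln11_13_5_ok) (L (nat_lit 490) ln11_12_5 ln11_12_5_ok))) (M (nat_lit 363) (B (L (nat_lit 492) ln11_11_4 ln11_11_4_ok) (M (nat_lit 364) (B (L (nat_lit 396) ln11_15_6 ln11_15_6_ok) (L (nat_lit 332) ln11_14_6 ln11_14_6_ok))))))) (M (nat_lit 555) (B (M (nat_lit 554) (B (L (nat_lit 586) ln11_14_5 ln11_14_5_ok) (L (nat_lit 522) ln11_13_5 ln11_13_5_ok))) (M (nat_lit 587) (B (L (nat_lit 492) ln11_18_6 ln11_18_6_ok) (M (nat_lit 588) (B (L (nat_lit 620) ln11_15_4 ln11_15_4_ok) (L (nat_lit 556) ln11_14_4 ln11_14_4_ok))))))))))) (M (nat_lit 555) (B (L (nat_lit 428) ln11_17_6 ln11_17_6_ok) (M (nat_lit 587) (B (L (nat_lit 492) ln11_18_6 ln11_18_6_ok) (M (nat_lit 588) (B (L (nat_lit 620) ln11_15_4 ln11_15_4_ok) (L (nat_lit 556) ln11_14_4 ln11_14_4_ok)))))))))))))))))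 (B (M (nat_lit 458) (B (M (nat_lit 457) (B (M (nat_lit 489) (B (L (nat_lit 488) ln12_14_1 ln12_14_1_ok) (L (nat_lit 490) ln13_14_1 ln13_14_1_ok))) (L (nat_lit 492) ln9_14_0 ln9_14_0_ok))) (B (M (nat_lit 462) (B (M (nat_lit 490) (B (L (nat_lit 489) ln13_14_1 ln13_14_1_ok) (L (nat_lit 491) ln14_14_1 ln14_14_1_ok))) (L (nat_lit 494) ln10_14_0 ln10_14_0_ok))) (M (nat_lit 457) (B (L (nat_lit 492) ln9_14_0 ln9_14_0_ok) (M (nat_lit 456) (B (M (nat_lit 424) (B (L (nat_lit 423) ln11_14_3 ln11_14_3_ok) (L (nat_lit 425) ln12_14_3 ln12_14_3_ok))) (L (nat_lit 428) ln9_14_2 ln9_14_2_ok)))))))) (B (K (nat_lit 25573364134608568312366199736441131916364156081276788066369824063134397067450404584726530879003213942293803898677724353555637349100583468091435909120) (nat_lit 63134242694615576827488542313540443987526380917282164981485244931249029425013577096011713283378348758926976951278849642238405833775945305366602973184)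 (nat_lit 63134242694615576827488542313540443987526380917282164981485244931249029425013577096011713283378348758926976951278849642238405833775945305366602973184) c10_s545) (B (M (nat_lit 458) (B (M (nat_lit 457) (B (M (nat_lit 489) (B (L (nat_lit 488) ln12_14_1 ln12_14_1_ok) (L (nat_lit 490) ln13_14_1 ln13_14_1_ok))) (M (nat_lit 425) (B (L (nat_lit 424) ln12_14_3 ln12_14_3_ok) (L (nat_lit 426) ln13_14_3 ln13_14_3_ok))))) (B (M (nat_lit 426) (B (L (nat_lit 425) ln13_14_3 ln13_14_3_ok) (M (nat_lit 462) (B (L (nat_lit 427) ln14_14_3 ln14_14_3_ok) (M (nat_lit 490) (B (L (nat_lit 489) ln13_14_1 ln13_14_1_ok) (L (nat_lit 491) ln14_14_1 ln14_14_1_ok))))))) (B (M (nat_lit 457) (B (M (nat_lit 425) (B (L (nat_lit 424) ln12_14_3 ln12_14_3_ok) (L (nat_lit 426) ln13_14_3 ln13_14_3_ok))) (M (nat_lit 456) (B (L (nat_lit 492) ln9_14_0 ln9_14_0_ok) (L (nat_lit 428) ln9_14_2 ln9_14_2_ok))))) (M (nat_lit 457)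 (B (M (nat_lit 489) (B (L (nat_lit 488) ln12_14_1 ln12_14_1_ok) (L (nat_lit 490) ln13_14_1 ln13_14_1_ok))) (M (nat_lit 456) (B (L (nat_lit 492) ln9_14_0 ln9_14_0_ok) (L (nat_lit 428) ln9_14_2 ln9_14_2_ok))))))))) (K (nat_lit 25573364134608568312366199736441131916364156081276788066369824063134397067450404584726530879003213942293803898677724353555637349100583468091435909120) (nat_lit 633165827977536177350368080156695287139029652894103444201614494742748469013332646854367091487129888551659748557234234382536812862996871417436437569736858554381213152875716280320) (nat_lit 633165827977536177350368080156695287139029652894103444201614494742748469013332646854367091487129888551659748557234234382536812862996871417436437569736858554381213152875716280320) c10_s546)))))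
noncomputable def c10_d141 : Cert := (B (M (nat_lit 491) (B (M (nat_lit 490) (B (L (nat_lit 462) ln14_14_1 ln14_14_1_ok) (M (nat_lit 489) (B (L (nat_lit 488) ln8_15_2 ln8_15_2_ok) (L (nat_lit 492) ln9_15_2 ln9_15_2_ok))))) (B (M (nat_lit 523) (B (M (nat_lit 428) (B (L (nat_lit 555) ln11_17_6 ln11_17_6_ok) (M (nat_lit 396) (B (L (nat_lit 427) ln11_16_6 ln11_16_6_ok) (L (nat_lit 492) ln12_12_5 ln12_12_5_ok))))) (B (M (nat_lit 555) (B (L (nat_lit 428) ln11_17_6 ln11_17_6_ok) (M (nat_lit 587) (B (L (nat_lit 492) ln11_18_6 ln11_18_6_ok) (M (nat_lit 586) (B (L (nat_lit 554) ln11_14_5 ln11_14_5_ok) (L (nat_lit 618) ln11_15_5 ln11_15_5_ok))))))) (B (M (nat_lit 555) (B (M (nat_lit 587) (B (L (nat_lit 492) ln11_18_6 ln11_18_6_ok) (M (nat_lit 586) (B (L (nat_lit 554) ln11_14_5 ln11_14_5_ok) (L (nat_lit 618) ln11_15_5 ln11_15_5_ok))))) (B (M (nat_lit 587) (B (M (nat_lit 586) (B (L (nat_lit 554) ln11_14_5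 ln11_14_5_ok) (L (nat_lit 618) ln11_15_5 ln11_15_5_ok))) (M (nat_lit 588) (B (L (nat_lit 556) ln11_14_4 ln11_14_4_ok) (L (nat_lit 620) ln11_15_4 ln11_15_4_ok))))) (B (M (nat_lit 587) (B (L (nat_lit 492) ln11_18_6 ln11_18_6_ok) (M (nat_lit 588) (B (L (nat_lit 556) ln11_14_4 ln11_14_4_ok) (L (nat_lit 620) ln11_15_4 ln11_15_4_ok))))) (M (nat_lit 427) (B (M (nat_lit 554) (B (L (nat_lit 522) ln11_13_5 ln11_13_5_ok) (L (nat_lit 586) ln11_14_5 ln11_14_5_ok))) (M (nat_lit 556) (B (L (nat_lit 524) ln11_13_4 ln11_13_4_ok) (L (nat_lit 588) ln11_14_4 ln11_14_4_ok))))))))) (B (M (nat_lit 428) (B (L (nat_lit 555) ln11_17_6 ln11_17_6_ok) (M (nat_lit 427) (B (L (nat_lit 396) ln11_16_6 ln11_16_6_ok) (M (nat_lit 426) (B (L (nat_lit 394) ln11_16_7 ln11_16_7_ok) (L (nat_lit 425) ln9_13_0 ln9_13_0_ok))))))) (M (nat_lit 427) (B (M (nat_lit 426) (B (L (nat_lit 394) ln11_16_7 ln11_16_7_ok) (M (nat_lit 425) (B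 (L (nat_lit 424) ln8_13_0 ln8_13_0_ok) (L (nat_lit 428) ln9_13_0 ln9_13_0_ok))))) (M (nat_lit 395) (B (M (nat_lit 522) (B (L (nat_lit 490) ln11_12_5 ln11_12_5_ok) (L (nat_lit 554) ln11_13_5 ln11_13_5_ok))) (M (nat_lit 524) (B (L (nat_lit 492) ln11_12_4 ln11_12_4_ok) (L (nat_lit 556) ln11_13_4 ln11_13_4_ok)))))))))))) (B (M (nat_lit 523) (B (M (nat_lit 428) (B (L (nat_lit 555) ln11_17_6 ln11_17_6_ok) (M (nat_lit 396) (B (L (nat_lit 427) ln11_16_6 ln11_16_6_ok) (L (nat_lit 492) ln12_12_5 ln12_12_5_ok))))) (B (M (nat_lit 555) (B (L (nat_lit 428) ln11_17_6 ln11_17_6_ok) (M (nat_lit 587) (B (L (nat_lit 492) ln11_18_6 ln11_18_6_ok) (M (nat_lit 588) (B (L (nat_lit 556) ln11_14_4 ln11_14_4_ok) (L (nat_lit 620) ln11_15_4 ln11_15_4_ok))))))) (B (M (nat_lit 555) (B (M (nat_lit 587) (B (L (nat_lit 492) ln11_18_6 ln11_18_6_ok) (M (nat_lit 588) (B (L (nat_lit 556) ln11_14_4 ln11_14_4_ok) (L (nat_lit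 620) ln11_15_4 ln11_15_4_ok))))) (B (M (nat_lit 427) (B (M (nat_lit 426) (B (L (nat_lit 394) ln11_16_7 ln11_16_7_ok) (L (nat_lit 462) ln14_14_3 ln14_14_3_ok))) (M (nat_lit 556) (B (L (nat_lit 524) ln11_13_4 ln11_13_4_ok) (L (nat_lit 588) ln11_14_4 ln11_14_4_ok))))) (M (nat_lit 427) (B (M (nat_lit 426) (B (L (nat_lit 394) ln11_16_7 ln11_16_7_ok) (L (nat_lit 462) ln14_14_3 ln14_14_3_ok))) (M (nat_lit 554) (B (L (nat_lit 522) ln11_13_5 ln11_13_5_ok) (L (nat_lit 586) ln11_14_5 ln11_14_5_ok)))))))) (B (M (nat_lit 427) (B (M (nat_lit 428) (B (L (nat_lit 396) ln11_16_6 ln11_16_6_ok) (L (nat_lit 555) ln11_17_6 ln11_17_6_ok))) (M (nat_lit 426) (B (L (nat_lit 394) ln11_16_7 ln11_16_7_ok) (L (nat_lit 462) ln14_14_3 ln14_14_3_ok))))) (M (nat_lit 427) (B (M (nat_lit 426) (B (L (nat_lit 394) ln11_16_7 ln11_16_7_ok) (L (nat_lit 462) ln14_14_3 ln14_14_3_ok))) (B (M (nat_lit 428) (B (L (nat_lit 396) ln11_16_6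 ln11_16_6_ok) (M (nat_lit 462) (B (L (nat_lit 426) ln10_13_0 ln10_13_0_ok) (L (nat_lit 463) ln15_14_3 ln15_14_3_ok))))) (B (M (nat_lit 492) (B (M (nat_lit 524) (B (L (nat_lit 395) ln11_12_4 ln11_12_4_ok) (L (nat_lit 556) ln11_13_4 ln11_13_4_ok))) (M (nat_lit 494) (B (M (nat_lit 462) (B (L (nat_lit 495) ln11_14_0 ln11_14_0_ok) (L (nat_lit 463) ln15_14_1 ln15_14_1_ok))) (B (L (nat_lit 495) ln15_15_3 ln15_15_3_ok) (L (nat_lit 522) ln14_15_1 ln14_15_1_ok)))))) (M (nat_lit 428) (B (L (nat_lit 396) ln11_16_6 ln11_16_6_ok) (M (nat_lit 426) (B (L (nat_lit 394) ln11_16_7 ln11_16_7_ok) (L (nat_lit 425) ln9_13_0 ln9_13_0_ok)))))))))))))) (M (nat_lit 462) (B (L (nat_lit 490) ln14_14_1 ln14_14_1_ok) (M (nat_lit 427) (B (L (nat_lit 426) ln14_14_3 ln14_14_3_ok) (M (nat_lit 428) (B (L (nat_lit 463) ln15_14_3 ln15_14_3_ok) (M (nat_lit 523) (B (L (nat_lit 396) ln11_16_6 ln11_16_6_ok) (L (nat_lit 555) ln11_17_6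 ln11_17_6_ok))))))))))))) (B (M (nat_lit 458) (B (M (nat_lit 457) (B (M (nat_lit 489) (B (L (nat_lit 488) ln12_14_1 ln12_14_1_ok) (L (nat_lit 490) ln13_14_1 ln13_14_1_ok))) (L (nat_lit 492) ln9_14_0 ln9_14_0_ok))) (B (M (nat_lit 490) (B (L (nat_lit 489) ln13_14_1 ln13_14_1_ok) (M (nat_lit 426) (B (L (nat_lit 425) ln13_14_3 ln13_14_3_ok) (M (nat_lit 522) (B (M (nat_lit 427) (B (L (nat_lit 395) ln10_16_6 ln10_16_6_ok) (L (nat_lit 554) ln10_17_6 ln10_17_6_ok))) (B (M (nat_lit 554) (B (L (nat_lit 427) ln10_17_6 ln10_17_6_ok) (M (nat_lit 553) (B (L (nat_lit 521) ln10_13_5 ln10_13_5_ok) (L (nat_lit 585) ln10_14_5 ln10_14_5_ok))))) (B (M (nat_lit 554) (B (M (nat_lit 553) (B (L (nat_lit 521) ln10_13_5 ln10_13_5_ok) (L (nat_lit 585) ln10_14_5 ln10_14_5_ok))) (M (nat_lit 555) (B (L (nat_lit 523) ln10_13_4 ln10_13_4_ok) (L (nat_lit 587) ln10_14_4 ln10_14_4_ok))))) (M (nat_lit 394) (B (M (nat_lit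 395) (B (L (nat_lit 363) ln10_15_6 ln10_15_6_ok) (L (nat_lit 427) ln10_16_6 ln10_16_6_ok))) (M (nat_lit 523) (B (L (nat_lit 491) ln10_12_4 ln10_12_4_ok) (L (nat_lit 555) ln10_13_4 ln10_13_4_ok))))))))))))) (M (nat_lit 457) (B (M (nat_lit 425) (B (L (nat_lit 424) ln12_14_3 ln12_14_3_ok) (L (nat_lit 426) ln13_14_3 ln13_14_3_ok))) (L (nat_lit 492) ln9_14_0 ln9_14_0_ok)))))) (B (M (nat_lit 462) (B (M (nat_lit 491) (B (L (nat_lit 490) ln14_14_1 ln14_14_1_ok) (M (nat_lit 463) (B (L (nat_lit 492) ln15_14_1 ln15_14_1_ok) (M (nat_lit 427) (B (L (nat_lit 426) ln14_14_3 ln14_14_3_ok) (L (nat_lit 428) ln15_14_3 ln15_14_3_ok))))))) (B (M (nat_lit 463) (B (M (nat_lit 491) (B (L (nat_lit 490) ln14_14_1 ln14_14_1_ok) (L (nat_lit 492) ln15_14_1 ln15_14_1_ok))) (M (nat_lit 495) (B (L (nat_lit 494) ln11_14_0 ln11_14_0_ok) (L (nat_lit 496) ln12_14_0 ln12_14_0_ok))))) (M (nat_lit 458) (B (M (nat_lit 426) (B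 (L (nat_lit 425) ln13_14_3 ln13_14_3_ok) (L (nat_lit 427) ln14_14_3 ln14_14_3_ok))) (L (nat_lit 494) ln10_14_0 ln10_14_0_ok)))))) (B (M (nat_lit 458) (B (M (nat_lit 457) (B (M (nat_lit 425) (B (L (nat_lit 424) ln12_14_3 ln12_14_3_ok) (L (nat_lit 426) ln13_14_3 ln13_14_3_ok))) (L (nat_lit 492) ln9_14_0 ln9_14_0_ok))) (B (M (nat_lit 462) (B (M (nat_lit 426) (B (L (nat_lit 425) ln13_14_3 ln13_14_3_ok) (L (nat_lit 427) ln14_14_3 ln14_14_3_ok))) (L (nat_lit 494) ln10_14_0 ln10_14_0_ok))) (M (nat_lit 457) (B (L (nat_lit 492) ln9_14_0 ln9_14_0_ok) (M (nat_lit 456) (B (L (nat_lit 428) ln9_14_2 ln9_14_2_ok) (M (nat_lit 488) (B (L (nat_lit 487) ln11_14_1 ln11_14_1_ok) (L (nat_lit 489) ln12_14_1 ln12_14_1_ok)))))))))) (M (nat_lit 458) (B (M (nat_lit 462) (B (M (nat_lit 490) (B (L (nat_lit 489) ln13_14_1 ln13_14_1_ok) (L (nat_lit 491) ln14_14_1 ln14_14_1_ok))) (L (nat_lit 494) ln10_14_0 ln10_14_0_ok)))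 (B (M (nat_lit 457) (B (M (nat_lit 425) (B (L (nat_lit 424) ln12_14_3 ln12_14_3_ok) (L (nat_lit 426) ln13_14_3 ln13_14_3_ok))) (M (nat_lit 489) (B (L (nat_lit 488) ln12_14_1 ln12_14_1_ok) (L (nat_lit 490) ln13_14_1 ln13_14_1_ok))))) (M (nat_lit 462) (B (M (nat_lit 426) (B (L (nat_lit 425) ln13_14_3 ln13_14_3_ok) (L (nat_lit 427) ln14_14_3 ln14_14_3_ok))) (L (nat_lit 494) ln10_14_0 ln10_14_0_ok))))))))))
noncomputable def c10_d142 : Cert := (B (M (nat_lit 459) (B (M (nat_lit 458) (B (L (nat_lit 494) ln10_14_0 ln10_14_0_ok) (M (nat_lit 457) (B (L (nat_lit 428) ln9_14_2 ln9_14_2_ok) (L (nat_lit 492) ln9_14_0 ln9_14_0_ok))))) (B (M (nat_lit 494) (B (L (nat_lit 458) ln10_14_0 ln10_14_0_ok) (M (nat_lit 495) (B (L (nat_lit 462) ln11_14_0 ln11_14_0_ok) (L (nat_lit 492) ln15_15_3 ln15_15_3_ok))))) (B (M (nat_lit 427) (B (M (nat_lit 426) (B (L (nat_lit 462) ln14_14_3 ln14_14_3_ok) (M (nat_lit 425)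 (B (L (nat_lit 424) ln8_13_0 ln8_13_0_ok) (L (nat_lit 428) ln9_13_0 ln9_13_0_ok))))) (B (M (nat_lit 428) (B (M (nat_lit 396) (B (L (nat_lit 364) ln12_11_4 ln12_11_4_ok) (L (nat_lit 525) ln13_16_7 ln13_16_7_ok))) (M (nat_lit 462) (B (L (nat_lit 426) ln10_13_0 ln10_13_0_ok) (L (nat_lit 463) ln15_14_3 ln15_14_3_ok))))) (B (M (nat_lit 395) (B (M (nat_lit 492) (B (L (nat_lit 363) ln11_11_4 ln11_11_4_ok) (M (nat_lit 524) (B (L (nat_lit 428) ln12_16_7 ln12_16_7_ok) (L (nat_lit 491) ln11_12_4 ln11_12_4_ok))))) (B (M (nat_lit 524) (B (M (nat_lit 492) (B (L (nat_lit 428) ln12_16_7 ln12_16_7_ok) (L (nat_lit 491) ln11_12_4 ln11_12_4_ok))) (B (M (nat_lit 492) (B (L (nat_lit 491) ln11_12_4 ln11_12_4_ok) (L (nat_lit 556) ln12_17_6 ln12_17_6_ok))) (B (M (nat_lit 492) (B (L (nat_lit 428) ln12_16_7 ln12_16_7_ok) (L (nat_lit 556) ln12_17_6 ln12_17_6_ok))) (M (nat_lit 525) (B (L (nat_lit 556) ln13_13_5 ln13_13_5_ok)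 (M (nat_lit 428) (B (L (nat_lit 396) ln13_16_7 ln13_16_7_ok) (L (nat_lit 557) ln13_17_7 ln13_17_7_ok))))))))) (B (M (nat_lit 492) (B (L (nat_lit 363) ln11_11_4 ln11_11_4_ok) (M (nat_lit 524) (B (L (nat_lit 491) ln11_12_4 ln11_12_4_ok) (L (nat_lit 556) ln12_17_6 ln12_17_6_ok))))) (B (M (nat_lit 492) (B (L (nat_lit 363) ln11_11_4 ln11_11_4_ok) (M (nat_lit 524) (B (L (nat_lit 428) ln12_16_7 ln12_16_7_ok) (L (nat_lit 556) ln12_17_6 ln12_17_6_ok))))) (M (nat_lit 363) (B (M (nat_lit 428) (B (L (nat_lit 331) ln11_10_4 ln11_10_4_ok) (M (nat_lit 364) (B (L (nat_lit 332) ln11_14_6 ln11_14_6_ok) (L (nat_lit 396) ln12_11_4 ln12_11_4_ok))))) (B (M (nat_lit 364) (B (L (nat_lit 332) ln11_14_6 ln11_14_6_ok) (M (nat_lit 396) (B (L (nat_lit 491) ln11_15_6 ln11_15_6_ok) (L (nat_lit 428) ln12_11_4 ln12_11_4_ok))))) (B (M (nat_lit 428) (B (L (nat_lit 331) ln11_10_4 ln11_10_4_ok) (M (nat_lit 396) (B (L (nat_lit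 364) ln12_11_4 ln12_11_4_ok) (L (nat_lit 525) ln13_16_7 ln13_16_7_ok))))) (B (M (nat_lit 428) (B (L (nat_lit 331) ln11_10_4 ln11_10_4_ok) (M (nat_lit 525) (B (L (nat_lit 396) ln13_16_7 ln13_16_7_ok) (L (nat_lit 557) ln13_17_7 ln13_17_7_ok))))) (B (M (nat_lit 331) (B (L (nat_lit 428) ln11_10_4 ln11_10_4_ok) (M (nat_lit 332) (B (L (nat_lit 300) ln11_13_6 ln11_13_6_ok) (L (nat_lit 364) ln11_14_6 ln11_14_6_ok))))) (M (nat_lit 331) (B (M (nat_lit 330) (B (L (nat_lit 298) ln11_13_7 ln11_13_7_ok) (L (nat_lit 362) ln11_14_7 ln11_14_7_ok))) (M (nat_lit 332) (B (L (nat_lit 300) ln11_13_6 ln11_13_6_ok) (L (nat_lit 364) ln11_14_6 ln11_14_6_ok)))))))))))))))) (M (nat_lit 462) (B (L (nat_lit 426) ln14_14_3 ln14_14_3_ok) (M (nat_lit 491) (B (L (nat_lit 490) ln14_14_1 ln14_14_1_ok) (M (nat_lit 492) (B (L (nat_lit 463) ln15_14_1 ln15_14_1_ok) (M (nat_lit 395) (B (L (nat_lit 363) ln11_11_4 ln11_11_4_ok)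 (L (nat_lit 524) ln11_12_4 ln11_12_4_ok))))))))))))) (M (nat_lit 494) (B (L (nat_lit 458) ln10_14_0 ln10_14_0_ok) (M (nat_lit 495) (B (L (nat_lit 462) ln11_14_0 ln11_14_0_ok) (L (nat_lit 496) ln16_15_3 ln16_15_3_ok))))))))) (B (M (nat_lit 428) (B (M (nat_lit 427) (B (M (nat_lit 492) (B (M (nat_lit 459) (B (M (nat_lit 396) (B (L (nat_lit 364) ln12_11_4 ln12_11_4_ok) (M (nat_lit 395) (B (L (nat_lit 363) ln11_11_4 ln11_11_4_ok) (M (nat_lit 491) (B (L (nat_lit 523) ln12_12_5 ln12_12_5_ok) (M (nat_lit 394) (B (L (nat_lit 362) ln11_15_7 ln11_15_7_ok) (L (nat_lit 393) ln9_12_0 ln9_12_0_ok))))))))) (M (nat_lit 458) (B (L (nat_lit 457) ln9_14_0 ln9_14_0_ok) (L (nat_lit 494) ln10_14_0 ln10_14_0_ok))))) (B (M (nat_lit 524) (B (L (nat_lit 556) ln12_17_6 ln12_17_6_ok) (M (nat_lit 396) (B (M (nat_lit 523) (B (L (nat_lit 491) ln12_12_5 ln12_12_5_ok) (L (nat_lit 555) ln12_13_5 ln12_13_5_ok))) (L (nat_lit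 364) ln12_11_4 ln12_11_4_ok))))) (M (nat_lit 524) (B (L (nat_lit 556) ln12_17_6 ln12_17_6_ok) (L (nat_lit 395) ln12_16_7 ln12_16_7_ok)))))) (M (nat_lit 462) (B (L (nat_lit 426) ln10_13_0 ln10_13_0_ok) (L (nat_lit 463) ln15_14_3 ln15_14_3_ok))))) (B (K (nat_lit 25573364133120002605701964248126320472704126340956301485541305944521859283321075217823947258982581076192009717935317603830352019433055496913276633088) (nat_lit 825554280642520898330822376101819842535392363419621595853641253257241017756652417983956747143438164605756101560450484861504905799232539703437264579679249102737443389440) (nat_lit 825554280642520898330822376101819842535392363419621595853641253257241017756652417983956747143438164605756101560450484861504905799232539703437264579679249102737443389440) c10_s547) (M (nat_lit 525) (B (L (nat_lit 396) ln13_16_7 ln13_16_7_ok) (L (nat_lit 557) ln13_17_7 ln13_17_7_ok)))))) (B (M (nat_lit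 459) (B (M (nat_lit 494) (B (L (nat_lit 458) ln10_14_0 ln10_14_0_ok) (M (nat_lit 495) (B (L (nat_lit 462) ln11_14_0 ln11_14_0_ok) (L (nat_lit 496) ln16_15_3 ln16_15_3_ok))))) (B (M (nat_lit 494) (B (M (nat_lit 495) (B (L (nat_lit 462) ln11_14_0 ln11_14_0_ok) (L (nat_lit 492) ln15_15_3 ln15_15_3_ok))) (B (M (nat_lit 495) (B (L (nat_lit 492) ln15_15_3 ln15_15_3_ok) (L (nat_lit 496) ln16_15_3 ln16_15_3_ok))) (B (M (nat_lit 495) (B (L (nat_lit 462) ln11_14_0 ln11_14_0_ok) (L (nat_lit 496) ln16_15_3 ln16_15_3_ok))) (M (nat_lit 491) (B (M (nat_lit 490) (B (L (nat_lit 462) ln14_14_1 ln14_14_1_ok) (M (nat_lit 489) (B (L (nat_lit 488) ln8_15_2 ln8_15_2_ok) (L (nat_lit 492) ln9_15_2 ln9_15_2_ok))))) (B (M (nat_lit 428) (B (M (nat_lit 396) (B (L (nat_lit 364) ln12_11_4 ln12_11_4_ok) (M (nat_lit 523) (B (L (nat_lit 427) ln11_16_6 ln11_16_6_ok) (L (nat_lit 555) ln11_17_6 ln11_17_6_ok))))) (B (M (nat_lit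 523) (B (L (nat_lit 555) ln11_17_6 ln11_17_6_ok) (M (nat_lit 396) (B (L (nat_lit 427) ln11_16_6 ln11_16_6_ok) (L (nat_lit 492) ln12_12_5 ln12_12_5_ok))))) (B (M (nat_lit 523) (B (L (nat_lit 555) ln11_17_6 ln11_17_6_ok) (M (nat_lit 522) (B (L (nat_lit 492) ln14_15_1 ln14_15_1_ok) (M (nat_lit 525) (B (L (nat_lit 557) ln13_17_7 ln13_17_7_ok) (L (nat_lit 524) ln10_16_2 ln10_16_2_ok))))))) (M (nat_lit 396) (B (L (nat_lit 364) ln12_11_4 ln12_11_4_ok) (L (nat_lit 525) ln13_16_7 ln13_16_7_ok))))))) (M (nat_lit 428) (B (M (nat_lit 396) (B (L (nat_lit 364) ln12_11_4 ln12_11_4_ok) (L (nat_lit 525) ln13_16_7 ln13_16_7_ok))) (M (nat_lit 462) (B (L (nat_lit 490) ln14_14_1 ln14_14_1_ok) (M (nat_lit 463) (B (L (nat_lit 427) ln15_14_3 ln15_14_3_ok) (L (nat_lit 464) ln16_14_3 ln16_14_3_ok)))))))))))))) (B (M (nat_lit 494) (B (L (nat_lit 458) ln10_14_0 ln10_14_0_ok) (M (nat_lit 495) (B (L (nat_lit 492) ln15_15_3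 ln15_15_3_ok) (L (nat_lit 496) ln16_15_3 ln16_15_3_ok))))) (M (nat_lit 428) (B (M (nat_lit 396) (B (L (nat_lit 364) ln12_11_4 ln12_11_4_ok) (L (nat_lit 525) ln13_16_7 ln13_16_7_ok))) (B (M (nat_lit 525) (B (L (nat_lit 557) ln13_17_7 ln13_17_7_ok) (L (nat_lit 396) ln13_16_7 ln13_16_7_ok))) (M (nat_lit 458) (B (L (nat_lit 457) ln9_14_2 ln9_14_2_ok) (M (nat_lit 462) (B (M (nat_lit 490) (B (L (nat_lit 489) ln13_14_1 ln13_14_1_ok) (L (nat_lit 491) ln14_14_1 ln14_14_1_ok))) (B (M (nat_lit 463) (B (L (nat_lit 427) ln15_14_3 ln15_14_3_ok) (M (nat_lit 491) (B (L (nat_lit 490) ln14_14_1 ln14_14_1_ok) (L (nat_lit 492) ln15_14_1 ln15_14_1_ok))))) (M (nat_lit 463) (B (L (nat_lit 427) ln15_14_3 ln15_14_3_ok) (L (nat_lit 464) ln16_14_3 ln16_14_3_ok))))))))))))))) (M (nat_lit 428) (B (M (nat_lit 525) (B (L (nat_lit 557) ln13_17_7 ln13_17_7_ok) (L (nat_lit 396) ln13_16_7 ln13_16_7_ok))) (B (M (nat_lit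 396) (B (L (nat_lit 525) ln13_16_7 ln13_16_7_ok) (L (nat_lit 364) ln12_11_4 ln12_11_4_ok))) (B (M (nat_lit 396) (B (L (nat_lit 364) ln12_11_4 ln12_11_4_ok) (M (nat_lit 492) (B (M (nat_lit 524) (B (L (nat_lit 556) ln12_17_6 ln12_17_6_ok) (M (nat_lit 523) (B (L (nat_lit 555) ln12_13_5 ln12_13_5_ok) (L (nat_lit 491) ln12_12_5 ln12_12_5_ok))))) (B (M (nat_lit 524) (B (L (nat_lit 556) ln12_17_6 ln12_17_6_ok) (M (nat_lit 395) (B (L (nat_lit 427) ln12_16_7 ln12_16_7_ok) (L (nat_lit 363) ln12_15_7 ln12_15_7_ok))))) (M (nat_lit 491) (B (L (nat_lit 523) ln12_12_5 ln12_12_5_ok) (M (nat_lit 462) (B (L (nat_lit 490) ln10_15_2 ln10_15_2_ok) (L (nat_lit 463) ln15_14_1 ln15_14_1_ok)))))))))) (K (nat_lit 25573364133120002605701964248126320472704126340956301485541305944521859283321075217823947258982581076192009717935317603830352019433055496913276633088) (nat_lit 825554280642520898330822376101819842535392363419621595853641253257241017756652417983956747143438164605756101560450484861504905799232539703437264579679249102737443389440)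 (nat_lit 825554280642520898330822376101819842535392363419621595853641253257241017756652417983956747143438164605756101560450484861504905799232539703437264579679249102737443389440) c10_s547))))))))
noncomputable def c10_d143 : Cert := (B (M (nat_lit 459) (B (M (nat_lit 494) (B (L (nat_lit 458) ln10_14_0 ln10_14_0_ok) (M (nat_lit 495) (B (L (nat_lit 492) ln15_15_3 ln15_15_3_ok) (L (nat_lit 496) ln16_15_3 ln16_15_3_ok))))) (B (M (nat_lit 428) (B (M (nat_lit 396) (B (L (nat_lit 364) ln12_11_4 ln12_11_4_ok) (L (nat_lit 525) ln13_16_7 ln13_16_7_ok))) (B (M (nat_lit 525) (B (L (nat_lit 557) ln13_17_7 ln13_17_7_ok) (L (nat_lit 396) ln13_16_7 ln13_16_7_ok))) (B (M (nat_lit 525) (B (L (nat_lit 557) ln13_17_7 ln13_17_7_ok) (M (nat_lit 462) (B (M (nat_lit 491) (B (L (nat_lit 490) ln14_14_1 ln14_14_1_ok) (M (nat_lit 463) (B (L (nat_lit 492) ln15_14_1 ln15_14_1_ok) (M (nat_lit 495) (B (L (nat_lit 494)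 ln11_14_0 ln11_14_0_ok) (L (nat_lit 496) ln12_14_0 ln12_14_0_ok))))))) (B (M (nat_lit 524) (B (L (nat_lit 556) ln13_13_5 ln13_13_5_ok) (M (nat_lit 523) (B (M (nat_lit 491) (B (L (nat_lit 555) ln11_17_6 ln11_17_6_ok) (L (nat_lit 490) ln14_14_1 ln14_14_1_ok))) (M (nat_lit 494) (B (L (nat_lit 495) ln11_14_0 ln11_14_0_ok) (L (nat_lit 522) ln10_16_2 ln10_16_2_ok))))))) (B (M (nat_lit 463) (B (M (nat_lit 495) (B (L (nat_lit 494) ln11_14_0 ln11_14_0_ok) (L (nat_lit 496) ln12_14_0 ln12_14_0_ok))) (L (nat_lit 464) ln16_14_3 ln16_14_3_ok))) (M (nat_lit 463) (B (M (nat_lit 491) (B (L (nat_lit 490) ln14_14_1 ln14_14_1_ok) (L (nat_lit 492) ln15_14_1 ln15_14_1_ok))) (L (nat_lit 464) ln16_14_3 ln16_14_3_ok))))))))) (M (nat_lit 462) (B (M (nat_lit 491) (B (L (nat_lit 490) ln14_14_1 ln14_14_1_ok) (M (nat_lit 396) (B (L (nat_lit 364) ln12_11_4 ln12_11_4_ok) (M (nat_lit 492) (B (L (nat_lit 523) ln12_12_5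 ln12_12_5_ok) (L (nat_lit 463) ln15_14_1 ln15_14_1_ok))))))) (B (M (nat_lit 463) (B (M (nat_lit 491) (B (L (nat_lit 490) ln14_14_1 ln14_14_1_ok) (L (nat_lit 492) ln15_14_1 ln15_14_1_ok))) (M (nat_lit 495) (B (L (nat_lit 494) ln11_14_0 ln11_14_0_ok) (L (nat_lit 496) ln12_14_0 ln12_14_0_ok))))) (B (M (nat_lit 491) (B (L (nat_lit 490) ln14_14_1 ln14_14_1_ok) (M (nat_lit 396) (B (L (nat_lit 364) ln12_11_4 ln12_11_4_ok) (M (nat_lit 523) (B (L (nat_lit 492) ln12_12_5 ln12_12_5_ok) (L (nat_lit 555) ln11_17_6 ln11_17_6_ok))))))) (M (nat_lit 463) (B (M (nat_lit 495) (B (L (nat_lit 494) ln11_14_0 ln11_14_0_ok) (L (nat_lit 496) ln12_14_0 ln12_14_0_ok))) (L (nat_lit 464) ln16_14_3 ln16_14_3_ok))))))))))) (B (M (nat_lit 494) (B (L (nat_lit 458) ln10_14_0 ln10_14_0_ok) (M (nat_lit 495) (B (L (nat_lit 462) ln11_14_0 ln11_14_0_ok) (L (nat_lit 496) ln16_15_3 ln16_15_3_ok))))) (M (nat_lit 458) (B (M (nat_lit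 457) (B (L (nat_lit 492) ln9_14_0 ln9_14_0_ok) (M (nat_lit 489) (B (L (nat_lit 488) ln12_14_1 ln12_14_1_ok) (L (nat_lit 490) ln13_14_1 ln13_14_1_ok))))) (B (M (nat_lit 490) (B (L (nat_lit 489) ln13_14_1 ln13_14_1_ok) (M (nat_lit 491) (B (L (nat_lit 462) ln14_14_1 ln14_14_1_ok) (M (nat_lit 426) (B (L (nat_lit 425) ln13_14_3 ln13_14_3_ok) (M (nat_lit 394) (B (L (nat_lit 362) ln10_11_4 ln10_11_4_ok) (L (nat_lit 523) ln10_12_4 ln10_12_4_ok))))))))) (M (nat_lit 457) (B (L (nat_lit 492) ln9_14_0 ln9_14_0_ok) (M (nat_lit 425) (B (L (nat_lit 424) ln12_14_3 ln12_14_3_ok) (L (nat_lit 426) ln13_14_3 ln13_14_3_ok)))))))))))) (B (M (nat_lit 459) (B (M (nat_lit 494) (B (L (nat_lit 458) ln10_14_0 ln10_14_0_ok) (M (nat_lit 495) (B (L (nat_lit 496) ln16_15_3 ln16_15_3_ok) (L (nat_lit 462) ln11_14_0 ln11_14_0_ok))))) (B (M (nat_lit 428) (B (M (nat_lit 396) (B (L (nat_lit 364) ln12_11_4 ln12_11_4_ok) (L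 (nat_lit 525) ln13_16_7 ln13_16_7_ok))) (B (M (nat_lit 491) (B (M (nat_lit 462) (B (L (nat_lit 490) ln14_14_1 ln14_14_1_ok) (M (nat_lit 427) (B (L (nat_lit 426) ln10_13_0 ln10_13_0_ok) (L (nat_lit 463) ln15_14_3 ln15_14_3_ok))))) (B (M (nat_lit 396) (B (L (nat_lit 364) ln12_11_4 ln12_11_4_ok) (M (nat_lit 523) (B (L (nat_lit 555) ln11_17_6 ln11_17_6_ok) (L (nat_lit 427) ln11_16_6 ln11_16_6_ok))))) (M (nat_lit 490) (B (L (nat_lit 462) ln14_14_1 ln14_14_1_ok) (M (nat_lit 489) (B (L (nat_lit 488) ln8_15_2 ln8_15_2_ok) (L (nat_lit 458) ln13_14_1 ln13_14_1_ok)))))))) (M (nat_lit 458) (B (L (nat_lit 457) ln9_14_2 ln9_14_2_ok) (M (nat_lit 462) (B (M (nat_lit 490) (B (L (nat_lit 489) ln13_14_1 ln13_14_1_ok) (L (nat_lit 491) ln14_14_1 ln14_14_1_ok))) (M (nat_lit 426) (B (L (nat_lit 425) ln13_14_3 ln13_14_3_ok) (L (nat_lit 427) ln10_13_0 ln10_13_0_ok)))))))))) (B (M (nat_lit 428) (B (M (nat_lit 396)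 (B (L (nat_lit 364) ln12_11_4 ln12_11_4_ok) (L (nat_lit 525) ln13_16_7 ln13_16_7_ok))) (B (M (nat_lit 462) (B (M (nat_lit 427) (B (L (nat_lit 426) ln10_13_0 ln10_13_0_ok) (L (nat_lit 463) ln15_14_3 ln15_14_3_ok))) (B (M (nat_lit 427) (B (L (nat_lit 426) ln10_13_0 ln10_13_0_ok) (M (nat_lit 491) (B (L (nat_lit 490) ln14_14_1 ln14_14_1_ok) (M (nat_lit 396) (B (L (nat_lit 523) ln11_16_6 ln11_16_6_ok) (L (nat_lit 364) ln12_11_4 ln12_11_4_ok))))))) (B (M (nat_lit 463) (B (L (nat_lit 427) ln15_14_3 ln15_14_3_ok) (M (nat_lit 495) (B (L (nat_lit 494) ln11_14_0 ln11_14_0_ok) (L (nat_lit 496) ln12_14_0 ln12_14_0_ok))))) (M (nat_lit 463) (B (M (nat_lit 495) (B (L (nat_lit 494) ln11_14_0 ln11_14_0_ok) (L (nat_lit 496) ln12_14_0 ln12_14_0_ok))) (L (nat_lit 464) ln16_14_3 ln16_14_3_ok))))))) (M (nat_lit 462) (B (M (nat_lit 427) (B (L (nat_lit 426) ln10_13_0 ln10_13_0_ok) (L (nat_lit 463) ln15_14_3 ln15_14_3_ok)))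 (B (M (nat_lit 494) (B (L (nat_lit 495) ln11_14_0 ln11_14_0_ok) (M (nat_lit 491) (B (L (nat_lit 490) ln14_14_1 ln14_14_1_ok) (M (nat_lit 523) (B (L (nat_lit 555) ln11_17_6 ln11_17_6_ok) (M (nat_lit 522) (B (M (nat_lit 427) (B (L (nat_lit 554) ln11_13_5 ln11_13_5_ok) (L (nat_lit 426) ln10_13_0 ln10_13_0_ok))) (M (nat_lit 525) (B (L (nat_lit 557) ln13_17_7 ln13_17_7_ok) (L (nat_lit 524) ln10_16_2 ln10_16_2_ok))))))))))) (B (M (nat_lit 463) (B (L (nat_lit 427) ln15_14_3 ln15_14_3_ok) (M (nat_lit 495) (B (L (nat_lit 494) ln11_14_0 ln11_14_0_ok) (L (nat_lit 496) ln12_14_0 ln12_14_0_ok))))) (M (nat_lit 463) (B (M (nat_lit 495) (B (L (nat_lit 494) ln11_14_0 ln11_14_0_ok) (L (nat_lit 496) ln12_14_0 ln12_14_0_ok))) (L (nat_lit 464) ln16_14_3 ln16_14_3_ok)))))))))) (M (nat_lit 458) (B (L (nat_lit 494) ln10_14_0 ln10_14_0_ok) (M (nat_lit 457) (B (M (nat_lit 489) (B (L (nat_lit 488) ln12_14_1 ln12_14_1_ok)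 (L (nat_lit 490) ln13_14_1 ln13_14_1_ok))) (M (nat_lit 425) (B (L (nat_lit 424) ln12_14_3 ln12_14_3_ok) (L (nat_lit 426) ln13_14_3 ln13_14_3_ok))))))))))) c10_d142))
noncomputable def c10_d144 : Cert := (B (M (nat_lit 459) (B (M (nat_lit 458) (B (M (nat_lit 457) (B (M (nat_lit 425) (B (L (nat_lit 424) ln12_14_3 ln12_14_3_ok) (L (nat_lit 426) ln13_14_3 ln13_14_3_ok))) (M (nat_lit 489) (B (L (nat_lit 488) ln12_14_1 ln12_14_1_ok) (L (nat_lit 490) ln13_14_1 ln13_14_1_ok))))) (B (M (nat_lit 457) (B (M (nat_lit 489) (B (L (nat_lit 488) ln12_14_1 ln12_14_1_ok) (L (nat_lit 490) ln13_14_1 ln13_14_1_ok))) (L (nat_lit 492) ln9_14_0 ln9_14_0_ok))) (B (M (nat_lit 490) (B (L (nat_lit 489) ln13_14_1 ln13_14_1_ok) (M (nat_lit 426) (B (L (nat_lit 425) ln13_14_3 ln13_14_3_ok) (M (nat_lit 462) (B (L (nat_lit 427) ln14_14_3 ln14_14_3_ok) (L (nat_lit 491) ln14_14_1 ln14_14_1_ok))))))) (M (nat_lit 457) (B (M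 (nat_lit 425) (B (L (nat_lit 424) ln12_14_3 ln12_14_3_ok) (L (nat_lit 426) ln13_14_3 ln13_14_3_ok))) (L (nat_lit 492) ln9_14_0 ln9_14_0_ok))))))) (B (M (nat_lit 458) (B (M (nat_lit 490) (B (L (nat_lit 489) ln13_14_1 ln13_14_1_ok) (M (nat_lit 426) (B (L (nat_lit 425) ln13_14_3 ln13_14_3_ok) (M (nat_lit 462) (B (L (nat_lit 427) ln14_14_3 ln14_14_3_ok) (L (nat_lit 491) ln14_14_1 ln14_14_1_ok))))))) (B (M (nat_lit 462) (B (M (nat_lit 490) (B (L (nat_lit 489) ln13_14_1 ln13_14_1_ok) (L (nat_lit 491) ln14_14_1 ln14_14_1_ok))) (L (nat_lit 494) ln10_14_0 ln10_14_0_ok))) (B (M (nat_lit 457) (B (M (nat_lit 489) (B (L (nat_lit 488) ln12_14_1 ln12_14_1_ok) (L (nat_lit 490) ln13_14_1 ln13_14_1_ok))) (L (nat_lit 492) ln9_14_0 ln9_14_0_ok))) (M (nat_lit 462) (B (M (nat_lit 426) (B (L (nat_lit 425) ln13_14_3 ln13_14_3_ok) (L (nat_lit 427) ln14_14_3 ln14_14_3_ok))) (L (nat_lit 494) ln10_14_0 ln10_14_0_ok)))))))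 (B (M (nat_lit 462) (B (M (nat_lit 491) (B (L (nat_lit 490) ln14_14_1 ln14_14_1_ok) (M (nat_lit 463) (B (L (nat_lit 492) ln15_14_1 ln15_14_1_ok) (M (nat_lit 427) (B (L (nat_lit 426) ln14_14_3 ln14_14_3_ok) (L (nat_lit 428) ln15_14_3 ln15_14_3_ok))))))) (B (M (nat_lit 463) (B (M (nat_lit 491) (B (L (nat_lit 490) ln14_14_1 ln14_14_1_ok) (L (nat_lit 492) ln15_14_1 ln15_14_1_ok))) (M (nat_lit 495) (B (L (nat_lit 494) ln11_14_0 ln11_14_0_ok) (L (nat_lit 496) ln12_14_0 ln12_14_0_ok))))) (B (M (nat_lit 458) (B (M (nat_lit 490) (B (L (nat_lit 489) ln13_14_1 ln13_14_1_ok) (L (nat_lit 491) ln14_14_1 ln14_14_1_ok))) (L (nat_lit 494) ln10_14_0 ln10_14_0_ok))) (M (nat_lit 463) (B (M (nat_lit 427) (B (L (nat_lit 426) ln14_14_3 ln14_14_3_ok) (L (nat_lit 428) ln15_14_3 ln15_14_3_ok))) (M (nat_lit 495) (B (L (nat_lit 494) ln11_14_0 ln11_14_0_ok) (L (nat_lit 496) ln12_14_0 ln12_14_0_ok))))))))) (B (M (nat_lit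 458) (B (M (nat_lit 457) (B (M (nat_lit 489) (B (L (nat_lit 488) ln12_14_1 ln12_14_1_ok) (L (nat_lit 490) ln13_14_1 ln13_14_1_ok))) (L (nat_lit 492) ln9_14_0 ln9_14_0_ok))) (B (M (nat_lit 462) (B (M (nat_lit 490) (B (L (nat_lit 489) ln13_14_1 ln13_14_1_ok) (L (nat_lit 491) ln14_14_1 ln14_14_1_ok))) (L (nat_lit 494) ln10_14_0 ln10_14_0_ok))) (M (nat_lit 457) (B (L (nat_lit 492) ln9_14_0 ln9_14_0_ok) (M (nat_lit 456) (B (M (nat_lit 424) (B (L (nat_lit 423) ln11_14_3 ln11_14_3_ok) (L (nat_lit 425) ln12_14_3 ln12_14_3_ok))) (L (nat_lit 428) ln9_14_2 ln9_14_2_ok)))))))) c10_d141))))) (B (M (nat_lit 428) (B (M (nat_lit 458) (B (M (nat_lit 459) (B (L (nat_lit 494) ln10_14_0 ln10_14_0_ok) (L (nat_lit 457) ln9_14_2 ln9_14_2_ok))) (B (M (nat_lit 426) (B (M (nat_lit 457) (B (L (nat_lit 459) ln9_14_2 ln9_14_2_ok) (L (nat_lit 427) ln13_13_1 ln13_13_1_ok))) (B (M (nat_lit 425) (B (L (nat_lit 459) ln13_14_3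 ln13_14_3_ok) (L (nat_lit 427) ln9_13_0 ln9_13_0_ok))) (B (M (nat_lit 427) (B (L (nat_lit 457) ln13_13_1 ln13_13_1_ok) (L (nat_lit 425) ln9_13_0 ln9_13_0_ok))) (M (nat_lit 459) (B (L (nat_lit 457) ln9_14_2 ln9_14_2_ok) (L (nat_lit 425) ln13_14_3 ln13_14_3_ok))))))) (B (M (nat_lit 459) (B (L (nat_lit 494) ln10_14_0 ln10_14_0_ok) (M (nat_lit 426) (B (L (nat_lit 425) ln13_14_3 ln13_14_3_ok) (M (nat_lit 490) (B (L (nat_lit 489) ln13_14_1 ln13_14_1_ok) (M (nat_lit 427) (B (L (nat_lit 462) ln10_13_0 ln10_13_0_ok) (M (nat_lit 522) (B (L (nat_lit 554) ln10_17_6 ln10_17_6_ok) (L (nat_lit 395) ln10_16_6 ln10_16_6_ok))))))))))) (M (nat_lit 426) (B (M (nat_lit 427) (B (L (nat_lit 457) ln13_13_1 ln13_13_1_ok) (L (nat_lit 425) ln9_13_0 ln9_13_0_ok))) (B (M (nat_lit 427) (B (L (nat_lit 425) ln9_13_0 ln9_13_0_ok) (L (nat_lit 462) ln10_13_0 ln10_13_0_ok))) (B (M (nat_lit 427) (B (L (nat_lit 457) ln13_13_1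 ln13_13_1_ok) (L (nat_lit 462) ln10_13_0 ln10_13_0_ok))) (M (nat_lit 394) (B (M (nat_lit 396) (B (L (nat_lit 364) ln12_11_4 ln12_11_4_ok) (M (nat_lit 395) (B (L (nat_lit 393) ln9_12_0 ln9_12_0_ok) (M (nat_lit 363) (B (L (nat_lit 490) ln10_15_6 ln10_15_6_ok) (L (nat_lit 492) ln12_15_7 ln12_15_7_ok))))))) (B (M (nat_lit 396) (B (L (nat_lit 364) ln12_11_4 ln12_11_4_ok) (M (nat_lit 395) (B (L (nat_lit 393) ln9_12_0 ln9_12_0_ok) (M (nat_lit 363) (B (L (nat_lit 492) ln12_15_7 ln12_15_7_ok) (M (nat_lit 331) (B (L (nat_lit 362) ln10_14_6 ln10_14_6_ok) (L (nat_lit 299) ln11_9_4 ln11_9_4_ok))))))))) (B (M (nat_lit 490) (B (M (nat_lit 393) (B (L (nat_lit 361) ln10_15_7 ln10_15_7_ok) (M (nat_lit 395) (B (L (nat_lit 363) ln10_15_6 ln10_15_6_ok) (L (nat_lit 396) ln9_12_0 ln9_12_0_ok))))) (B (M (nat_lit 362) (B (M (nat_lit 489) (B (L (nat_lit 521) ln10_12_5 ln10_12_5_ok) (L (nat_lit 457) ln10_11_5 ln10_11_5_ok)))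 (M (nat_lit 363) (B (L (nat_lit 395) ln10_15_6 ln10_15_6_ok) (L (nat_lit 331) ln10_14_6 ln10_14_6_ok))))) (M (nat_lit 362) (B (M (nat_lit 489) (B (L (nat_lit 521) ln10_12_5 ln10_12_5_ok) (L (nat_lit 457) ln10_11_5 ln10_11_5_ok))) (M (nat_lit 361) (B (L (nat_lit 393) ln10_15_7 ln10_15_7_ok) (L (nat_lit 329) ln10_14_7 ln10_14_7_ok)))))))) (B (M (nat_lit 362) (B (M (nat_lit 457) (B (L (nat_lit 489) ln10_11_5 ln10_11_5_ok) (M (nat_lit 330) (B (L (nat_lit 425) ln10_10_5 ln10_10_5_ok) (M (nat_lit 329) (B (L (nat_lit 361) ln10_14_7 ln10_14_7_ok) (L (nat_lit 297) ln10_13_7_c10 ln10_13_7_c10_ok))))))) (M (nat_lit 363) (B (L (nat_lit 331) ln10_14_6 ln10_14_6_ok) (M (nat_lit 395) (B (L (nat_lit 490) ln10_15_6 ln10_15_6_ok) (M (nat_lit 396) (B (L (nat_lit 492) ln12_15_7 ln12_15_7_ok) (L (nat_lit 364) ln12_11_4 ln12_11_4_ok))))))))) (B (M (nat_lit 362) (B (M (nat_lit 489) (B (L (nat_lit 457) ln10_11_5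 ln10_11_5_ok) (M (nat_lit 490) (B (L (nat_lit 521) ln10_12_5 ln10_12_5_ok) (M (nat_lit 361) (B (L (nat_lit 393) ln10_15_7 ln10_15_7_ok) (L (nat_lit 329) ln10_14_7 ln10_14_7_ok))))))) (B (M (nat_lit 330) (B (M (nat_lit 457) (B (L (nat_lit 489) ln10_11_5 ln10_11_5_ok) (L (nat_lit 425) ln10_10_5 ln10_10_5_ok))) (M (nat_lit 331) (B (L (nat_lit 363) ln10_14_6 ln10_14_6_ok) (L (nat_lit 299) ln10_13_6 ln10_13_6_ok))))) (M (nat_lit 330) (B (M (nat_lit 329) (B (L (nat_lit 361) ln10_14_7 ln10_14_7_ok) (L (nat_lit 297) ln10_13_7_c10 ln10_13_7_c10_ok))) (M (nat_lit 331) (B (L (nat_lit 363) ln10_14_6 ln10_14_6_ok) (L (nat_lit 299) ln10_13_6 ln10_13_6_ok)))))))) (M (nat_lit 393) (B (M (nat_lit 396) (B (L (nat_lit 364) ln12_11_4 ln12_11_4_ok) (L (nat_lit 395) ln9_12_0 ln9_12_0_ok))) (M (nat_lit 361) (B (L (nat_lit 490) ln10_15_7 ln10_15_7_ok) (M (nat_lit 329) (B (L (nat_lit 425) ln9_10_4_c10 ln9_10_4_c10_ok)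 (L (nat_lit 362) ln10_14_7 ln10_14_7_ok))))))))))))))))))))) (B (K (nat_lit 25573364133120002605701964248126320472704126340956301485541305944521859283321075217823947258982581076192009717935317603830352019433055496913276633088) (nat_lit 825554280642520898330822376101819842535392363419621595853641253257241017756652417983956747143438164605756101560450484861504905799232539703437264579679249102737443389440) (nat_lit 825554280642520898330822376101819842535392363419621595853641253257241017756652417983956747143438164605756101560450484861504905799232539703437264579679249102737443389440) c10_s547) (M (nat_lit 525) (B (L (nat_lit 396) ln13_16_7 ln13_16_7_ok) (L (nat_lit 557) ln13_17_7 ln13_17_7_ok)))))) c10_d143))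
noncomputable def c10_d145 : Cert := (B (M (nat_lit 459) (B (K (nat_lit 25573364134608568312366199736441131916364156081276788066369824063134397067450404584726530879003213942293803898677724353555637349100583468091435909120) (nat_lit 380403791383775409178791972292998076703317072437128103958926131343875764859320278629170978433753726809065659187168261150896872398506543389895496302592) (nat_lit 380403791383775409178791972292998076703317072437128103958926131343875764859320278629170978433753726809065659187168261150896872398506543389895496302592) c10_s543) (B (K (nat_lit 25573364134608568312366199736441131916364156081276788066369824063134397067450404584726530879003213942293803898677724353555637349100583468091435909120) (nat_lit 380403791383775409178705326365056801238955246993873632593193742685270270591346201142276771517884801008345659986977506789081328923163999528275840860160) (nat_lit 380403791383775409178705326365056801238955246993873632593193742685270270591346201142276771517884801008345659986977506789081328923163999528275840860160)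 c10_s544) (B (M (nat_lit 462) (B (M (nat_lit 463) (B (M (nat_lit 427) (B (L (nat_lit 426) ln14_14_3 ln14_14_3_ok) (L (nat_lit 428) ln15_14_3 ln15_14_3_ok))) (M (nat_lit 495) (B (L (nat_lit 494) ln11_14_0 ln11_14_0_ok) (L (nat_lit 496) ln12_14_0 ln12_14_0_ok))))) (B (M (nat_lit 463) (B (M (nat_lit 495) (B (L (nat_lit 494) ln11_14_0 ln11_14_0_ok) (L (nat_lit 496) ln12_14_0 ln12_14_0_ok))) (M (nat_lit 464) (B (L (nat_lit 492) ln16_14_1 ln16_14_1_ok) (M (nat_lit 432) (B (L (nat_lit 431) ln12_14_2 ln12_14_2_ok) (L (nat_lit 433) ln13_14_2 ln13_14_2_ok))))))) (B (M (nat_lit 463) (B (M (nat_lit 427) (B (L (nat_lit 426) ln14_14_3 ln14_14_3_ok) (L (nat_lit 428) ln15_14_3 ln15_14_3_ok))) (M (nat_lit 464) (B (L (nat_lit 492) ln16_14_1 ln16_14_1_ok) (M (nat_lit 432) (B (L (nat_lit 431) ln12_14_2 ln12_14_2_ok) (L (nat_lit 433) ln13_14_2 ln13_14_2_ok))))))) (M (nat_lit 458) (B (M (nat_lit 426) (B (L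 (nat_lit 425) ln13_14_3 ln13_14_3_ok) (L (nat_lit 427) ln14_14_3 ln14_14_3_ok))) (L (nat_lit 494) ln10_14_0 ln10_14_0_ok))))))) c10_d138)))) (B (M (nat_lit 459) (B (M (nat_lit 494) (B (L (nat_lit 458) ln10_14_0 ln10_14_0_ok) (M (nat_lit 495) (B (L (nat_lit 462) ln11_14_0 ln11_14_0_ok) (L (nat_lit 496) ln16_15_3 ln16_15_3_ok))))) (B (M (nat_lit 494) (B (M (nat_lit 495) (B (L (nat_lit 462) ln11_14_0 ln11_14_0_ok) (L (nat_lit 492) ln15_15_3 ln15_15_3_ok))) (B (M (nat_lit 495) (B (L (nat_lit 492) ln15_15_3 ln15_15_3_ok) (L (nat_lit 496) ln16_15_3 ln16_15_3_ok))) (B (M (nat_lit 495) (B (L (nat_lit 462) ln11_14_0 ln11_14_0_ok) (L (nat_lit 496) ln16_15_3 ln16_15_3_ok))) (M (nat_lit 491) (B (M (nat_lit 462) (B (L (nat_lit 490) ln14_14_1 ln14_14_1_ok) (M (nat_lit 463) (B (L (nat_lit 492) ln15_14_1 ln15_14_1_ok) (M (nat_lit 464) (B (L (nat_lit 465) ln17_14_1 ln17_14_1_ok) (M (nat_lit 432) (B (L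 (nat_lit 431) ln12_14_2 ln12_14_2_ok) (L (nat_lit 433) ln13_14_2 ln13_14_2_ok))))))))) (B (M (nat_lit 462) (B (L (nat_lit 490) ln14_14_1 ln14_14_1_ok) (M (nat_lit 492) (B (L (nat_lit 463) ln15_14_1 ln15_14_1_ok) (M (nat_lit 427) (B (L (nat_lit 426) ln14_14_3 ln14_14_3_ok) (M (nat_lit 395) (B (L (nat_lit 363) ln11_11_4 ln11_11_4_ok) (L (nat_lit 524) ln11_12_4 ln11_12_4_ok))))))))) c10_d139))))))) (B (M (nat_lit 494) (B (L (nat_lit 458) ln10_14_0 ln10_14_0_ok) (M (nat_lit 495) (B (L (nat_lit 492) ln15_15_3 ln15_15_3_ok) (L (nat_lit 496) ln16_15_3 ln16_15_3_ok))))) (M (nat_lit 458) (B (M (nat_lit 457) (B (L (nat_lit 492) ln9_14_0 ln9_14_0_ok) (M (nat_lit 489) (B (L (nat_lit 488) ln12_14_1 ln12_14_1_ok) (L (nat_lit 490) ln13_14_1 ln13_14_1_ok))))) (B (M (nat_lit 462) (B (M (nat_lit 426) (B (L (nat_lit 425) ln13_14_3 ln13_14_3_ok) (L (nat_lit 427) ln14_14_3 ln14_14_3_ok))) (M (nat_lit 490)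 (B (L (nat_lit 489) ln13_14_1 ln13_14_1_ok) (L (nat_lit 491) ln14_14_1 ln14_14_1_ok))))) (M (nat_lit 457) (B (L (nat_lit 492) ln9_14_0 ln9_14_0_ok) (M (nat_lit 425) (B (L (nat_lit 424) ln12_14_3 ln12_14_3_ok) (L (nat_lit 426) ln13_14_3 ln13_14_3_ok)))))))))))) (B (M (nat_lit 459) (B (M (nat_lit 458) (B (M (nat_lit 426) (B (L (nat_lit 425) ln13_14_3 ln13_14_3_ok) (M (nat_lit 462) (B (L (nat_lit 427) ln14_14_3 ln14_14_3_ok) (M (nat_lit 490) (B (L (nat_lit 489) ln13_14_1 ln13_14_1_ok) (L (nat_lit 491) ln14_14_1 ln14_14_1_ok))))))) (B (M (nat_lit 462) (B (M (nat_lit 426) (B (L (nat_lit 425) ln13_14_3 ln13_14_3_ok) (L (nat_lit 427) ln14_14_3 ln14_14_3_ok))) (L (nat_lit 494) ln10_14_0 ln10_14_0_ok))) (B (M (nat_lit 462) (B (M (nat_lit 490) (B (L (nat_lit 489) ln13_14_1 ln13_14_1_ok) (L (nat_lit 491) ln14_14_1 ln14_14_1_ok))) (L (nat_lit 494) ln10_14_0 ln10_14_0_ok))) (M (nat_lit 457) (B (M (nat_lit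 489) (B (L (nat_lit 488) ln12_14_1 ln12_14_1_ok) (L (nat_lit 490) ln13_14_1 ln13_14_1_ok))) (L (nat_lit 492) ln9_14_0 ln9_14_0_ok))))))) (B (M (nat_lit 458) (B (M (nat_lit 426) (B (L (nat_lit 425) ln13_14_3 ln13_14_3_ok) (M (nat_lit 462) (B (L (nat_lit 427) ln14_14_3 ln14_14_3_ok) (M (nat_lit 490) (B (L (nat_lit 489) ln13_14_1 ln13_14_1_ok) (L (nat_lit 491) ln14_14_1 ln14_14_1_ok))))))) (B (M (nat_lit 462) (B (M (nat_lit 426) (B (L (nat_lit 425) ln13_14_3 ln13_14_3_ok) (L (nat_lit 427) ln14_14_3 ln14_14_3_ok))) (L (nat_lit 494) ln10_14_0 ln10_14_0_ok))) (B (M (nat_lit 462) (B (M (nat_lit 490) (B (L (nat_lit 489) ln13_14_1 ln13_14_1_ok) (L (nat_lit 491) ln14_14_1 ln14_14_1_ok))) (L (nat_lit 494) ln10_14_0 ln10_14_0_ok))) (M (nat_lit 425) (B (L (nat_lit 426) ln13_14_3 ln13_14_3_ok) (M (nat_lit 457) (B (L (nat_lit 424) ln12_14_3 ln12_14_3_ok) (L (nat_lit 492) ln9_14_0 ln9_14_0_ok)))))))))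 (B (K (nat_lit 25573364134608568312366199736441131916364156081276788066369824063134397067450404584726530879003213942293803898677724353555637349100583468091435909120) (nat_lit 380403791383775409178791972292998076703317072437128103958926131343875764859320278629170978433753726809065659187168261150896872398506543389895496302592) (nat_lit 380403791383775409178791972292998076703317072437128103958926131343875764859320278629170978433753726809065659187168261150896872398506543389895496302592) c10_s543) (B (K (nat_lit 25573364134608568312366199736441131916364156081276788066369824063134397067450404584726530879003213942293803898677724353555637349100583468091435909120) (nat_lit 380403791383775409178705326365056801238955246993873632593193742685270270591346201142276771517884801008345659986977506789081328923163999528275840860160) (nat_lit 380403791383775409178705326365056801238955246993873632593193742685270270591346201142276771517884801008345659986977506789081328923163999528275840860160)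 c10_s544) (B (M (nat_lit 458) (B (M (nat_lit 425) (B (L (nat_lit 426) ln13_14_3 ln13_14_3_ok) (M (nat_lit 457) (B (L (nat_lit 424) ln12_14_3 ln12_14_3_ok) (L (nat_lit 492) ln9_14_0 ln9_14_0_ok))))) (B (M (nat_lit 462) (B (M (nat_lit 426) (B (L (nat_lit 425) ln13_14_3 ln13_14_3_ok) (L (nat_lit 427) ln14_14_3 ln14_14_3_ok))) (L (nat_lit 494) ln10_14_0 ln10_14_0_ok))) (M (nat_lit 457) (B (L (nat_lit 492) ln9_14_0 ln9_14_0_ok) (M (nat_lit 456) (B (M (nat_lit 488) (B (L (nat_lit 487) ln11_14_1 ln11_14_1_ok) (L (nat_lit 489) ln12_14_1 ln12_14_1_ok))) (L (nat_lit 428) ln9_14_2 ln9_14_2_ok)))))))) c10_d140)))))) c10_d144)))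
theorem c10_s548 : Sem (nat_lit 25573364130142871190293991000906086440700256222208015546306941900764921283684556798557814038087096126708440551872399420806737951876946875685227462656) (nat_lit 7614394266920670611063498936783212694436450568738310985187132646781384076229522497083618471801404447944235950628252025938656754774767387627887667210090976390026638922874830861347885940736) (nat_lit 7614394266920670611063498936783212694436450568738310985187132646781384076229522497083618471801404447944235950628252025938656754774767387627887667210090976390026638922874830861347885940736) :=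
  sem_of_chk (M (nat_lit 460) (B (M (nat_lit 459) c10_d134) (B (M (nat_lit 492) c10_d137) c10_d145))) (nat_lit 25573364130142871190293991000906086440700256222208015546306941900764921283684556798557814038087096126708440551872399420806737951876946875685227462656) (nat_lit 7614394266920670611063498936783212694436450568738310985187132646781384076229522497083618471801404447944235950628252025938656754774767387627887667210090976390026638922874830861347885940736) (nat_lit 7614394266920670611063498936783212694436450568738310985187132646781384076229522497083618471801404447944235950628252025938656754774767387627887667210090976390026638922874830861347885940736) (by decide +kernel)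
noncomputable def c10_d146 : Cert := (B (M (nat_lit 492) (B (L (nat_lit 365) ln13_11_5 ln13_11_5_ok) (M (nat_lit 524) (B (L (nat_lit 556) ln12_17_6 ln12_17_6_ok) (L (nat_lit 428) ln12_16_6 ln12_16_6_ok))))) (B (M (nat_lit 492) (B (L (nat_lit 365) ln13_11_5 ln13_11_5_ok) (M (nat_lit 524) (B (L (nat_lit 493) ln13_12_5 ln13_12_5_ok) (L (nat_lit 428) ln12_16_6 ln12_16_6_ok))))) (B (M (nat_lit 365) (B (L (nat_lit 492) ln13_11_5 ln13_11_5_ok) (M (nat_lit 333) (B (L (nat_lit 428) ln13_10_5 ln13_10_5_ok) (M (nat_lit 332) (B (L (nat_lit 364) ln13_14_7 ln13_14_7_ok) (L (nat_lit 300) ln13_13_7 ln13_13_7_ok))))))) (B (M (nat_lit 365) (B (M (nat_lit 333) (B (L (nat_lit 428) ln13_10_5 ln13_10_5_ok) (M (nat_lit 332) (B (L (nat_lit 364) ln13_14_7 ln13_14_7_ok) (L (nat_lit 300) ln13_13_7 ln13_13_7_ok))))) (M (nat_lit 493) (B (M (nat_lit 494) (B (L (nat_lit 526) ln13_12_4 ln13_12_4_ok) (L (nat_lit 462)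 ln13_11_4 ln13_11_4_ok))) (M (nat_lit 366) (B (L (nat_lit 398) ln13_15_6 ln13_15_6_ok) (L (nat_lit 334) ln13_14_6 ln13_14_6_ok))))))) (B (M (nat_lit 492) (B (L (nat_lit 365) ln13_11_5 ln13_11_5_ok) (M (nat_lit 524) (B (L (nat_lit 556) ln12_17_6 ln12_17_6_ok) (L (nat_lit 493) ln13_12_5 ln13_12_5_ok))))) (M (nat_lit 493) (B (M (nat_lit 524) (B (L (nat_lit 492) ln13_12_5 ln13_12_5_ok) (M (nat_lit 525) (B (L (nat_lit 556) ln13_13_5 ln13_13_5_ok) (M (nat_lit 526) (B (L (nat_lit 558) ln13_13_4 ln13_13_4_ok) (L (nat_lit 494) ln13_12_4 ln13_12_4_ok))))))) (B (M (nat_lit 462) (B (M (nat_lit 492) (B (L (nat_lit 524) ln13_12_5 ln13_12_5_ok) (M (nat_lit 463) (B (L (nat_lit 464) ln16_14_1 ln16_14_1_ok) (L (nat_lit 491) ln15_14_1 ln15_14_1_ok))))) (B (M (nat_lit 427) (B (M (nat_lit 428) (B (L (nat_lit 463) ln15_14_3 ln15_14_3_ok) (L (nat_lit 426) ln10_13_0 ln10_13_0_ok))) (B (M (nat_lit 426) (B (L (nat_lit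 459) ln14_14_3 ln14_14_3_ok) (L (nat_lit 428) ln10_13_0 ln10_13_0_ok))) (B (M (nat_lit 494) (B (L (nat_lit 526) ln13_12_4 ln13_12_4_ok) (M (nat_lit 459) (B (L (nat_lit 458) ln10_14_0 ln10_14_0_ok) (L (nat_lit 426) ln14_14_3 ln14_14_3_ok))))) (M (nat_lit 463) (B (L (nat_lit 428) ln15_14_3 ln15_14_3_ok) (M (nat_lit 492) (B (L (nat_lit 464) ln16_14_1 ln16_14_1_ok) (L (nat_lit 491) ln15_14_1 ln15_14_1_ok))))))))) (B (M (nat_lit 463) (B (M (nat_lit 428) (B (L (nat_lit 464) ln16_14_3 ln16_14_3_ok) (L (nat_lit 427) ln15_14_3 ln15_14_3_ok))) (B (M (nat_lit 459) (B (M (nat_lit 494) (B (L (nat_lit 526) ln13_12_4 ln13_12_4_ok) (L (nat_lit 458) ln10_14_0 ln10_14_0_ok))) (M (nat_lit 427) (B (L (nat_lit 428) ln15_14_3 ln15_14_3_ok) (L (nat_lit 426) ln14_14_3 ln14_14_3_ok))))) (M (nat_lit 464) (B (M (nat_lit 494) (B (L (nat_lit 526) ln13_12_4 ln13_12_4_ok) (L (nat_lit 465) ln17_14_1 ln17_14_1_ok))) (M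 (nat_lit 432) (B (L (nat_lit 433) ln13_14_2 ln13_14_2_ok) (L (nat_lit 431) ln12_14_2 ln12_14_2_ok)))))))) (B (M (nat_lit 524) (B (L (nat_lit 492) ln13_12_5 ln13_12_5_ok) (M (nat_lit 428) (B (M (nat_lit 525) (B (L (nat_lit 557) ln13_17_7 ln13_17_7_ok) (L (nat_lit 556) ln13_13_5 ln13_13_5_ok))) (M (nat_lit 427) (B (L (nat_lit 463) ln15_14_3 ln15_14_3_ok) (L (nat_lit 426) ln10_13_0 ln10_13_0_ok))))))) (M (nat_lit 494) (B (L (nat_lit 526) ln13_12_4 ln13_12_4_ok) (M (nat_lit 525) (B (M (nat_lit 557) (B (L (nat_lit 589) ln13_18_6 ln13_18_6_ok) (L (nat_lit 428) ln13_17_7 ln13_17_7_ok))) (M (nat_lit 524) (B (L (nat_lit 556) ln13_13_5 ln13_13_5_ok) (L (nat_lit 492) ln13_12_5 ln13_12_5_ok)))))))))))) (B (M (nat_lit 492) (B (L (nat_lit 524) ln13_12_5 ln13_12_5_ok) (M (nat_lit 525) (B (M (nat_lit 526) (B (L (nat_lit 558) ln13_13_4 ln13_13_4_ok) (L (nat_lit 494) ln13_12_4 ln13_12_4_ok))) (M (nat_lit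 557) (B (L (nat_lit 589) ln13_18_7 ln13_18_7_ok) (L (nat_lit 428) ln13_17_7 ln13_17_7_ok))))))) (B (K (nat_lit 25573364133120002605008796824918897992570386368627520456182573159969118363632108261774124351598755623184121265737988378466021445622192500452626530304) (nat_lit 17404329755711281562548388113918199748473032958770695663963870055390261941337225976052677756561141459390819798849235302448045211394600012221290137436295358618219873640865411279934348853248) (nat_lit 17404329755711281562548388113918199748473032958770695663963870055390261941337225976052677756561141459390819798849235302448045211394600012221290137436295358618219873640865411279934348853248) c10_s583) (B (M (nat_lit 492) (B (L (nat_lit 524) ln13_12_5 ln13_12_5_ok) (M (nat_lit 459) (B (M (nat_lit 494) (B (L (nat_lit 526) ln13_12_4 ln13_12_4_ok) (L (nat_lit 458) ln10_14_0 ln10_14_0_ok))) (B (M (nat_lit 458) (B (L (nat_lit 494)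 ln10_14_0 ln10_14_0_ok) (L (nat_lit 457) ln9_14_0 ln9_14_0_ok))) (B (M (nat_lit 458) (B (L (nat_lit 457) ln9_14_0 ln9_14_0_ok) (M (nat_lit 462) (B (M (nat_lit 490) (B (L (nat_lit 491) ln14_14_1 ln14_14_1_ok) (L (nat_lit 489) ln13_14_1 ln13_14_1_ok))) (M (nat_lit 426) (B (L (nat_lit 427) ln14_14_3 ln14_14_3_ok) (L (nat_lit 425) ln13_14_3 ln13_14_3_ok))))))) (M (nat_lit 491) (B (M (nat_lit 462) (B (L (nat_lit 490) ln14_14_1 ln14_14_1_ok) (L (nat_lit 463) ln15_14_1 ln15_14_1_ok))) (M (nat_lit 523) (B (M (nat_lit 555) (B (L (nat_lit 587) ln11_18_6 ln11_18_6_ok) (L (nat_lit 428) ln11_17_6 ln11_17_6_ok))) (M (nat_lit 494) (B (L (nat_lit 526) ln13_12_4 ln13_12_4_ok) (L (nat_lit 522) ln14_15_1 ln14_15_1_ok))))))))))))) (B (K (nat_lit 25573364133120002605008796824918897992570386368627520456182573159969118363632108261774124351598755623184121265737988378466021445622192500452626530304) (nat_lit 17404329754698216237878679291019790231755742268494882213918767532348389942032467476336711788891646660516283137491379632708117247309017758838306470231429577002896713728658713297013432123392)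 (nat_lit 17404329754698216237878679291019790231755742268494882213918767532348389942032467476336711788891646660516283137491379632708117247309017758838306470231429577002896713728658713297013432123392) c10_s584) (M (nat_lit 525) (B (M (nat_lit 526) (B (L (nat_lit 558) ln13_13_4 ln13_13_4_ok) (L (nat_lit 494) ln13_12_4 ln13_12_4_ok))) (M (nat_lit 557) (B (L (nat_lit 428) ln13_17_7 ln13_17_7_ok) (M (nat_lit 556) (B (L (nat_lit 588) ln13_14_5 ln13_14_5_ok) (L (nat_lit 524) ln13_13_5 ln13_13_5_ok)))))))))))))))))))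
noncomputable def c10_d147 : Cert := (B (M (nat_lit 492) (B (M (nat_lit 524) (B (L (nat_lit 556) ln12_17_6 ln12_17_6_ok) (M (nat_lit 397) (B (L (nat_lit 428) ln12_16_6 ln12_16_6_ok) (L (nat_lit 365) ln13_11_5 ln13_11_5_ok))))) (B (M (nat_lit 397) (B (L (nat_lit 365) ln13_11_5 ln13_11_5_ok) (M (nat_lit 524) (B (L (nat_lit 493) ln13_12_5 ln13_12_5_ok) (L (nat_lit 428) ln12_16_6 ln12_16_6_ok))))) (B (M (nat_lit 458) (B (M (nat_lit 457) (B (L (nat_lit 493) ln9_14_0 ln9_14_0_ok) (L (nat_lit 428) ln9_14_2 ln9_14_2_ok))) (B (M (nat_lit 462) (B (M (nat_lit 426) (B (L (nat_lit 427) ln14_14_3 ln14_14_3_ok) (L (nat_lit 425) ln13_14_3 ln13_14_3_ok))) (M (nat_lit 491) (B (L (nat_lit 463) ln15_14_1 ln15_14_1_ok) (M (nat_lit 457) (B (L (nat_lit 456) ln8_14_0 ln8_14_0_ok) (L (nat_lit 428) ln9_14_2 ln9_14_2_ok))))))) (B (M (nat_lit 462) (B (M (nat_lit 426) (B (L (nat_lit 427) ln14_14_3 ln14_14_3_ok) (L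 (nat_lit 425) ln13_14_3 ln13_14_3_ok))) (M (nat_lit 463) (B (L (nat_lit 491) ln15_14_1 ln15_14_1_ok) (M (nat_lit 464) (B (L (nat_lit 493) ln16_14_1 ln16_14_1_ok) (L (nat_lit 428) ln16_14_3 ln16_14_3_ok))))))) (M (nat_lit 462) (B (M (nat_lit 426) (B (L (nat_lit 427) ln14_14_3 ln14_14_3_ok) (L (nat_lit 425) ln13_14_3 ln13_14_3_ok))) (M (nat_lit 493) (B (L (nat_lit 457) ln9_14_0 ln9_14_0_ok) (M (nat_lit 463) (B (L (nat_lit 464) ln16_14_1 ln16_14_1_ok) (L (nat_lit 491) ln15_14_1 ln15_14_1_ok))))))))))) (M (nat_lit 524) (B (L (nat_lit 556) ln12_17_6 ln12_17_6_ok) (M (nat_lit 397) (B (L (nat_lit 493) ln13_12_5 ln13_12_5_ok) (L (nat_lit 365) ln13_11_5 ln13_11_5_ok))))))))) (B (M (nat_lit 458) (B (M (nat_lit 457) (B (L (nat_lit 428) ln9_14_2 ln9_14_2_ok) (M (nat_lit 489) (B (L (nat_lit 490) ln13_14_1 ln13_14_1_ok) (L (nat_lit 488) ln12_14_1 ln12_14_1_ok))))) (B (M (nat_lit 457) (B (L (nat_lit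 428) ln9_14_2 ln9_14_2_ok) (M (nat_lit 425) (B (L (nat_lit 426) ln13_14_3 ln13_14_3_ok) (L (nat_lit 424) ln12_14_3 ln12_14_3_ok))))) (B (M (nat_lit 426) (B (L (nat_lit 425) ln13_14_3 ln13_14_3_ok) (M (nat_lit 490) (B (L (nat_lit 489) ln13_14_1 ln13_14_1_ok) (M (nat_lit 394) (B (M (nat_lit 491) (B (L (nat_lit 523) ln10_12_4 ln10_12_4_ok) (L (nat_lit 362) ln10_11_4 ln10_11_4_ok))) (M (nat_lit 427) (B (M (nat_lit 522) (B (L (nat_lit 554) ln10_17_6 ln10_17_6_ok) (L (nat_lit 395) ln10_16_6 ln10_16_6_ok))) (M (nat_lit 393) (B (L (nat_lit 361) ln10_15_7 ln10_15_7_ok) (L (nat_lit 428) ln13_13_3 ln13_13_3_ok))))))))))) (M (nat_lit 457) (B (M (nat_lit 489) (B (L (nat_lit 490) ln13_14_1 ln13_14_1_ok) (L (nat_lit 488) ln12_14_1 ln12_14_1_ok))) (M (nat_lit 425) (B (L (nat_lit 426) ln13_14_3 ln13_14_3_ok) (L (nat_lit 424) ln12_14_3 ln12_14_3_ok))))))))) (B (M (nat_lit 427) (B (M (nat_lit 426) (B (L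 (nat_lit 462) ln14_14_3 ln14_14_3_ok) (M (nat_lit 425) (B (L (nat_lit 428) ln9_13_0 ln9_13_0_ok) (L (nat_lit 424) ln8_13_0 ln8_13_0_ok))))) (B (M (nat_lit 426) (B (M (nat_lit 425) (B (L (nat_lit 428) ln9_13_0 ln9_13_0_ok) (L (nat_lit 424) ln8_13_0 ln8_13_0_ok))) (M (nat_lit 492) (B (M (nat_lit 524) (B (L (nat_lit 556) ln12_17_6 ln12_17_6_ok) (M (nat_lit 397) (B (L (nat_lit 493) ln13_12_5 ln13_12_5_ok) (L (nat_lit 365) ln13_11_5 ln13_11_5_ok))))) (B (M (nat_lit 524) (B (M (nat_lit 397) (B (L (nat_lit 493) ln13_12_5 ln13_12_5_ok) (L (nat_lit 365) ln13_11_5 ln13_11_5_ok))) (M (nat_lit 395) (B (L (nat_lit 491) ln11_12_4 ln11_12_4_ok) (L (nat_lit 363) ln11_11_4 ln11_11_4_ok))))) (M (nat_lit 395) (B (L (nat_lit 363) ln11_11_4 ln11_11_4_ok) (M (nat_lit 491) (B (M (nat_lit 490) (B (L (nat_lit 522) ln11_12_5 ln11_12_5_ok) (L (nat_lit 489) ln9_15_2 ln9_15_2_ok))) (M (nat_lit 394) (B (L (nat_lit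 523) ln11_16_7 ln11_16_7_ok) (L (nat_lit 362) ln11_15_7 ln11_15_7_ok)))))))))))) (B (M (nat_lit 492) (B (M (nat_lit 524) (B (L (nat_lit 556) ln12_17_6 ln12_17_6_ok) (M (nat_lit 397) (B (L (nat_lit 493) ln13_12_5 ln13_12_5_ok) (L (nat_lit 365) ln13_11_5 ln13_11_5_ok))))) (M (nat_lit 462) (B (L (nat_lit 426) ln14_14_3 ln14_14_3_ok) (M (nat_lit 491) (B (L (nat_lit 463) ln15_14_1 ln15_14_1_ok) (L (nat_lit 490) ln14_14_1 ln14_14_1_ok))))))) (M (nat_lit 491) (B (M (nat_lit 462) (B (L (nat_lit 490) ln14_14_1 ln14_14_1_ok) (M (nat_lit 463) (B (L (nat_lit 492) ln15_14_1 ln15_14_1_ok) (L (nat_lit 428) ln15_14_3 ln15_14_3_ok))))) (B (M (nat_lit 490) (B (L (nat_lit 462) ln14_14_1 ln14_14_1_ok) (M (nat_lit 522) (B (L (nat_lit 395) ln11_12_5 ln11_12_5_ok) (M (nat_lit 554) (B (L (nat_lit 586) ln10_18_6 ln10_18_6_ok) (L (nat_lit 523) ln11_13_5 ln11_13_5_ok))))))) (M (nat_lit 524) (B (M (nat_lit 556) (B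 (L (nat_lit 523) ln11_13_4 ln11_13_4_ok) (L (nat_lit 492) ln12_17_6 ln12_17_6_ok))) (B (M (nat_lit 492) (B (L (nat_lit 395) ln11_12_4 ln11_12_4_ok) (M (nat_lit 397) (B (L (nat_lit 493) ln13_12_5 ln13_12_5_ok) (L (nat_lit 428) ln12_16_6 ln12_16_6_ok))))) (M (nat_lit 523) (B (L (nat_lit 556) ln11_13_4 ln11_13_4_ok) (M (nat_lit 555) (B (L (nat_lit 428) ln11_17_6 ln11_17_6_ok) (M (nat_lit 554) (B (L (nat_lit 586) ln11_14_5 ln11_14_5_ok) (L (nat_lit 522) ln11_13_5 ln11_13_5_ok))))))))))))))))) (B (K (nat_lit 10419959952888155229975513539671640096565344398531610249883351783038884624700983282707087714552501678931161298796127532335853834862306787328) (nat_lit 235872651606264715846489599687960336040426688664414363054258613717578471777302874775727136381367748881368295835311792622013858559033376290574173331232028662717510320128) (nat_lit 235872651606264715846489599687960336040426688664414363054258613717578471777302874775727136381367748881368295835311792622013858559033376290574173331232028662717510320128)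 c10_s587) (B (M (nat_lit 458) (B (M (nat_lit 457) (B (L (nat_lit 428) ln9_14_2 ln9_14_2_ok) (M (nat_lit 489) (B (L (nat_lit 490) ln13_14_1 ln13_14_1_ok) (L (nat_lit 488) ln12_14_1 ln12_14_1_ok))))) (B (M (nat_lit 457) (B (L (nat_lit 428) ln9_14_2 ln9_14_2_ok) (M (nat_lit 425) (B (L (nat_lit 426) ln13_14_3 ln13_14_3_ok) (L (nat_lit 424) ln12_14_3 ln12_14_3_ok))))) (M (nat_lit 490) (B (L (nat_lit 489) ln13_14_1 ln13_14_1_ok) (M (nat_lit 491) (B (L (nat_lit 462) ln14_14_1 ln14_14_1_ok) (M (nat_lit 426) (B (L (nat_lit 425) ln13_14_3 ln13_14_3_ok) (M (nat_lit 394) (B (L (nat_lit 523) ln10_12_4 ln10_12_4_ok) (L (nat_lit 362) ln10_11_4 ln10_11_4_ok)))))))))))) (M (nat_lit 492) (B (M (nat_lit 524) (B (L (nat_lit 556) ln12_17_6 ln12_17_6_ok) (M (nat_lit 397) (B (L (nat_lit 428) ln12_16_6 ln12_16_6_ok) (L (nat_lit 365) ln13_11_5 ln13_11_5_ok))))) (B (M (nat_lit 397) (B (L (nat_lit 365) ln13_11_5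 ln13_11_5_ok) (M (nat_lit 524) (B (L (nat_lit 493) ln13_12_5 ln13_12_5_ok) (L (nat_lit 428) ln12_16_6 ln12_16_6_ok))))) (B (M (nat_lit 490) (B (M (nat_lit 491) (B (L (nat_lit 489) ln9_15_2 ln9_15_2_ok) (L (nat_lit 462) ln14_14_1 ln14_14_1_ok))) (B (M (nat_lit 458) (B (L (nat_lit 489) ln13_14_1 ln13_14_1_ok) (M (nat_lit 457) (B (L (nat_lit 493) ln9_14_0 ln9_14_0_ok) (L (nat_lit 428) ln9_14_2 ln9_14_2_ok))))) (M (nat_lit 491) (B (L (nat_lit 462) ln14_14_1 ln14_14_1_ok) (M (nat_lit 523) (B (M (nat_lit 555) (B (L (nat_lit 587) ln11_18_6 ln11_18_6_ok) (L (nat_lit 428) ln11_17_6 ln11_17_6_ok))) (M (nat_lit 522) (B (M (nat_lit 554) (B (L (nat_lit 586) ln10_18_6 ln10_18_6_ok) (L (nat_lit 427) ln11_13_5 ln11_13_5_ok))) (M (nat_lit 521) (B (L (nat_lit 520) ln8_16_2 ln8_16_2_ok) (L (nat_lit 493) ln13_15_1 ln13_15_1_ok)))))))))))) (M (nat_lit 524) (B (L (nat_lit 556) ln12_17_6 ln12_17_6_ok) (M (nat_lit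 397) (B (L (nat_lit 493) ln13_12_5 ln13_12_5_ok) (L (nat_lit 365) ln13_11_5 ln13_11_5_ok))))))))))))))
noncomputable def c10_d148 : Cert := (B (M (nat_lit 458) (B (M (nat_lit 457) (B (L (nat_lit 428) ln9_14_2 ln9_14_2_ok) (M (nat_lit 489) (B (L (nat_lit 490) ln13_14_1 ln13_14_1_ok) (L (nat_lit 488) ln12_14_1 ln12_14_1_ok))))) (B (M (nat_lit 457) (B (L (nat_lit 428) ln9_14_2 ln9_14_2_ok) (M (nat_lit 425) (B (L (nat_lit 426) ln13_14_3 ln13_14_3_ok) (L (nat_lit 424) ln12_14_3 ln12_14_3_ok))))) (B (M (nat_lit 426) (B (L (nat_lit 425) ln13_14_3 ln13_14_3_ok) (M (nat_lit 490) (B (L (nat_lit 489) ln13_14_1 ln13_14_1_ok) (M (nat_lit 394) (B (M (nat_lit 491) (B (L (nat_lit 523) ln10_12_4 ln10_12_4_ok) (L (nat_lit 362) ln10_11_4 ln10_11_4_ok))) (B (M (nat_lit 362) (B (L (nat_lit 491) ln10_11_4 ln10_11_4_ok) (M (nat_lit 361) (B (L (nat_lit 393) ln10_15_7 ln10_15_7_ok) (L (nat_lit 329) ln10_14_7 ln10_14_7_ok)))))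 (M (nat_lit 427) (B (M (nat_lit 522) (B (L (nat_lit 554) ln10_17_6 ln10_17_6_ok) (L (nat_lit 395) ln10_16_6 ln10_16_6_ok))) (M (nat_lit 393) (B (L (nat_lit 361) ln10_15_7 ln10_15_7_ok) (L (nat_lit 428) ln13_13_3 ln13_13_3_ok)))))))))))) (M (nat_lit 457) (B (M (nat_lit 489) (B (L (nat_lit 490) ln13_14_1 ln13_14_1_ok) (L (nat_lit 488) ln12_14_1 ln12_14_1_ok))) (M (nat_lit 425) (B (L (nat_lit 426) ln13_14_3 ln13_14_3_ok) (L (nat_lit 424) ln12_14_3 ln12_14_3_ok))))))))) (B (M (nat_lit 462) (B (M (nat_lit 427) (B (L (nat_lit 426) ln14_14_3 ln14_14_3_ok) (M (nat_lit 463) (B (L (nat_lit 428) ln15_14_3 ln15_14_3_ok) (M (nat_lit 495) (B (L (nat_lit 496) ln12_14_0 ln12_14_0_ok) (L (nat_lit 494) ln11_14_0 ln11_14_0_ok))))))) (B (M (nat_lit 463) (B (M (nat_lit 491) (B (L (nat_lit 492) ln15_14_1 ln15_14_1_ok) (L (nat_lit 490) ln14_14_1 ln14_14_1_ok))) (M (nat_lit 428) (B (L (nat_lit 464) ln16_14_3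 ln16_14_3_ok) (L (nat_lit 427) ln15_14_3 ln15_14_3_ok))))) (B (M (nat_lit 491) (B (L (nat_lit 490) ln14_14_1 ln14_14_1_ok) (M (nat_lit 523) (B (M (nat_lit 427) (B (L (nat_lit 426) ln14_14_3 ln14_14_3_ok) (M (nat_lit 556) (B (L (nat_lit 524) ln11_13_4 ln11_13_4_ok) (M (nat_lit 555) (B (L (nat_lit 588) ln11_14_4 ln11_14_4_ok) (L (nat_lit 428) ln11_17_6 ln11_17_6_ok))))))) (B (M (nat_lit 427) (B (L (nat_lit 426) ln14_14_3 ln14_14_3_ok) (M (nat_lit 555) (B (L (nat_lit 428) ln11_17_6 ln11_17_6_ok) (M (nat_lit 554) (B (L (nat_lit 586) ln11_14_5 ln11_14_5_ok) (L (nat_lit 522) ln11_13_5 ln11_13_5_ok))))))) (B (M (nat_lit 524) (B (M (nat_lit 427) (B (L (nat_lit 556) ln11_13_4 ln11_13_4_ok) (L (nat_lit 426) ln14_14_3 ln14_14_3_ok))) (B (M (nat_lit 492) (B (M (nat_lit 427) (B (L (nat_lit 395) ln11_12_4 ln11_12_4_ok) (L (nat_lit 426) ln14_14_3 ln14_14_3_ok))) (M (nat_lit 397) (B (L (nat_lit 428) ln12_16_6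 ln12_16_6_ok) (L (nat_lit 365) ln13_11_5 ln13_11_5_ok))))) (M (nat_lit 492) (B (L (nat_lit 556) ln12_17_6 ln12_17_6_ok) (M (nat_lit 397) (B (L (nat_lit 428) ln12_16_6 ln12_16_6_ok) (L (nat_lit 365) ln13_11_5 ln13_11_5_ok)))))))) (B (M (nat_lit 427) (B (L (nat_lit 426) ln14_14_3 ln14_14_3_ok) (M (nat_lit 555) (B (M (nat_lit 556) (B (L (nat_lit 588) ln11_14_4 ln11_14_4_ok) (L (nat_lit 524) ln11_13_4 ln11_13_4_ok))) (M (nat_lit 554) (B (L (nat_lit 586) ln11_14_5 ln11_14_5_ok) (L (nat_lit 522) ln11_13_5 ln11_13_5_ok))))))) (M (nat_lit 555) (B (L (nat_lit 428) ln11_17_6 ln11_17_6_ok) (M (nat_lit 587) (B (L (nat_lit 492) ln11_18_6 ln11_18_6_ok) (M (nat_lit 586) (B (L (nat_lit 618) ln11_15_5 ln11_15_5_ok) (L (nat_lit 554) ln11_14_5 ln11_14_5_ok)))))))))))))) (M (nat_lit 463) (B (M (nat_lit 495) (B (L (nat_lit 496) ln12_14_0 ln12_14_0_ok) (L (nat_lit 494) ln11_14_0 ln11_14_0_ok))) (M (nat_lit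 491) (B (L (nat_lit 492) ln15_14_1 ln15_14_1_ok) (L (nat_lit 490) ln14_14_1 ln14_14_1_ok))))))))) (B (K (nat_lit 10419959952888155229975513539671640096565344398531610249883351783038884624700983282707087714552501678931161298796127532335853834862306787328) (nat_lit 58968162956484560254854583985721232272779628103692054904188317666370149689370790648874999986800204441629442267742888455423585000743405517847613835379435491020807077888) (nat_lit 58968162956484560254854583985721232272779628103692054904188317666370149689370790648874999986800204441629442267742888455423585000743405517847613835379435491020807077888) c10_s589) (B (M (nat_lit 462) (B (M (nat_lit 463) (B (M (nat_lit 495) (B (L (nat_lit 496) ln12_14_0 ln12_14_0_ok) (L (nat_lit 494) ln11_14_0 ln11_14_0_ok))) (M (nat_lit 491) (B (L (nat_lit 492) ln15_14_1 ln15_14_1_ok) (L (nat_lit 490) ln14_14_1 ln14_14_1_ok))))) (B (M (nat_lit 458) (B (M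 (nat_lit 490) (B (L (nat_lit 491) ln14_14_1 ln14_14_1_ok) (L (nat_lit 489) ln13_14_1 ln13_14_1_ok))) (B (M (nat_lit 489) (B (L (nat_lit 490) ln13_14_1 ln13_14_1_ok) (M (nat_lit 457) (B (L (nat_lit 488) ln12_14_1 ln12_14_1_ok) (L (nat_lit 428) ln9_14_2 ln9_14_2_ok))))) (M (nat_lit 457) (B (L (nat_lit 428) ln9_14_2 ln9_14_2_ok) (M (nat_lit 425) (B (L (nat_lit 426) ln13_14_3 ln13_14_3_ok) (L (nat_lit 424) ln12_14_3 ln12_14_3_ok)))))))) (M (nat_lit 463) (B (M (nat_lit 495) (B (L (nat_lit 496) ln12_14_0 ln12_14_0_ok) (L (nat_lit 494) ln11_14_0 ln11_14_0_ok))) (M (nat_lit 464) (B (L (nat_lit 428) ln16_14_3 ln16_14_3_ok) (M (nat_lit 432) (B (L (nat_lit 433) ln13_14_2 ln13_14_2_ok) (L (nat_lit 431) ln12_14_2 ln12_14_2_ok)))))))))) (M (nat_lit 462) (B (M (nat_lit 463) (B (M (nat_lit 495) (B (L (nat_lit 496) ln12_14_0 ln12_14_0_ok) (L (nat_lit 494) ln11_14_0 ln11_14_0_ok))) (M (nat_lit 491) (B (L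 (nat_lit 492) ln15_14_1 ln15_14_1_ok) (L (nat_lit 490) ln14_14_1 ln14_14_1_ok))))) (B (M (nat_lit 463) (B (M (nat_lit 491) (B (L (nat_lit 492) ln15_14_1 ln15_14_1_ok) (L (nat_lit 490) ln14_14_1 ln14_14_1_ok))) (M (nat_lit 464) (B (L (nat_lit 428) ln16_14_3 ln16_14_3_ok) (M (nat_lit 432) (B (L (nat_lit 433) ln13_14_2 ln13_14_2_ok) (L (nat_lit 431) ln12_14_2 ln12_14_2_ok))))))) (B (M (nat_lit 458) (B (M (nat_lit 490) (B (L (nat_lit 491) ln14_14_1 ln14_14_1_ok) (L (nat_lit 489) ln13_14_1 ln13_14_1_ok))) (M (nat_lit 463) (B (M (nat_lit 495) (B (L (nat_lit 496) ln12_14_0 ln12_14_0_ok) (L (nat_lit 494) ln11_14_0 ln11_14_0_ok))) (M (nat_lit 428) (B (L (nat_lit 464) ln16_14_3 ln16_14_3_ok) (L (nat_lit 457) ln9_14_2 ln9_14_2_ok))))))) (B (M (nat_lit 463) (B (M (nat_lit 495) (B (L (nat_lit 496) ln12_14_0 ln12_14_0_ok) (L (nat_lit 494) ln11_14_0 ln11_14_0_ok))) (M (nat_lit 464) (B (L (nat_lit 428)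 ln16_14_3 ln16_14_3_ok) (M (nat_lit 432) (B (L (nat_lit 433) ln13_14_2 ln13_14_2_ok) (L (nat_lit 431) ln12_14_2 ln12_14_2_ok))))))) (M (nat_lit 458) (B (M (nat_lit 490) (B (L (nat_lit 491) ln14_14_1 ln14_14_1_ok) (L (nat_lit 489) ln13_14_1 ln13_14_1_ok))) (B (M (nat_lit 489) (B (L (nat_lit 490) ln13_14_1 ln13_14_1_ok) (M (nat_lit 457) (B (L (nat_lit 488) ln12_14_1 ln12_14_1_ok) (L (nat_lit 428) ln9_14_2 ln9_14_2_ok))))) (B (M (nat_lit 457) (B (L (nat_lit 428) ln9_14_2 ln9_14_2_ok) (M (nat_lit 456) (B (M (nat_lit 488) (B (L (nat_lit 489) ln12_14_1 ln12_14_1_ok) (L (nat_lit 487) ln11_14_1 ln11_14_1_ok))) (M (nat_lit 424) (B (L (nat_lit 425) ln12_14_3 ln12_14_3_ok) (L (nat_lit 423) ln11_14_3 ln11_14_3_ok))))))) (M (nat_lit 457) (B (L (nat_lit 428) ln9_14_2 ln9_14_2_ok) (M (nat_lit 456) (B (M (nat_lit 491) (B (L (nat_lit 492) ln8_14_0 ln8_14_0_ok) (L (nat_lit 490) ln14_14_1 ln14_14_1_ok)))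 (M (nat_lit 424) (B (L (nat_lit 425) ln12_14_3 ln12_14_3_ok) (L (nat_lit 423) ln11_14_3 ln11_14_3_ok))))))))))))))))))))
noncomputable def c10_d149 : Cert := (B (M (nat_lit 524) (B (M (nat_lit 427) (B (L (nat_lit 556) ln11_13_4 ln11_13_4_ok) (M (nat_lit 426) (B (L (nat_lit 394) ln11_16_7 ln11_16_7_ok) (L (nat_lit 462) ln14_14_3 ln14_14_3_ok))))) (B (M (nat_lit 494) (B (M (nat_lit 462) (B (L (nat_lit 495) ln11_14_0 ln11_14_0_ok) (M (nat_lit 526) (B (L (nat_lit 558) ln14_17_7 ln14_17_7_ok) (M (nat_lit 397) (B (L (nat_lit 493) ln13_12_4 ln13_12_4_ok) (L (nat_lit 365) ln13_11_4 ln13_11_4_ok))))))) (B (M (nat_lit 495) (B (L (nat_lit 462) ln11_14_0 ln11_14_0_ok) (M (nat_lit 493) (B (L (nat_lit 496) ln16_15_3 ln16_15_3_ok) (M (nat_lit 525) (B (L (nat_lit 526) ln11_16_2 ln11_16_2_ok) (L (nat_lit 522) ln10_16_2 ln10_16_2_ok))))))) (B (M (nat_lit 427) (B (M (nat_lit 462) (B (L (nat_lit 495) ln11_14_0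 ln11_14_0_ok) (L (nat_lit 426) ln14_14_3 ln14_14_3_ok))) (B (M (nat_lit 426) (B (L (nat_lit 394) ln11_16_7 ln11_16_7_ok) (L (nat_lit 462) ln14_14_3 ln14_14_3_ok))) (B (M (nat_lit 426) (B (L (nat_lit 394) ln11_16_7 ln11_16_7_ok) (M (nat_lit 425) (B (L (nat_lit 428) ln9_13_0 ln9_13_0_ok) (L (nat_lit 424) ln8_13_0 ln8_13_0_ok))))) (M (nat_lit 493) (B (M (nat_lit 522) (B (L (nat_lit 554) ln11_13_5 ln11_13_5_ok) (L (nat_lit 525) ln10_16_2 ln10_16_2_ok))) (M (nat_lit 495) (B (L (nat_lit 496) ln16_15_3 ln16_15_3_ok) (L (nat_lit 462) ln11_14_0 ln11_14_0_ok))))))))) (B (M (nat_lit 493) (B (M (nat_lit 526) (B (L (nat_lit 397) ln13_12_4 ln13_12_4_ok) (M (nat_lit 558) (B (L (nat_lit 590) ln14_18_7 ln14_18_7_ok) (L (nat_lit 462) ln14_17_7 ln14_17_7_ok))))) (B (M (nat_lit 526) (B (L (nat_lit 397) ln13_12_4 ln13_12_4_ok) (M (nat_lit 558) (B (L (nat_lit 525) ln13_13_4 ln13_13_4_ok) (L (nat_lit 462) ln14_17_7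 ln14_17_7_ok))))) (B (M (nat_lit 427) (B (M (nat_lit 522) (B (L (nat_lit 554) ln11_13_5 ln11_13_5_ok) (L (nat_lit 525) ln10_16_2 ln10_16_2_ok))) (M (nat_lit 426) (B (L (nat_lit 394) ln11_16_7 ln11_16_7_ok) (L (nat_lit 462) ln14_14_3 ln14_14_3_ok))))) (M (nat_lit 526) (B (L (nat_lit 397) ln13_12_4 ln13_12_4_ok) (M (nat_lit 525) (B (L (nat_lit 558) ln13_13_4 ln13_13_4_ok) (L (nat_lit 522) ln10_16_2 ln10_16_2_ok))))))))) (B (M (nat_lit 522) (B (M (nat_lit 462) (B (L (nat_lit 495) ln11_14_0 ln11_14_0_ok) (M (nat_lit 427) (B (L (nat_lit 554) ln11_13_5 ln11_13_5_ok) (L (nat_lit 426) ln14_14_3 ln14_14_3_ok))))) (B (M (nat_lit 526) (B (M (nat_lit 462) (B (L (nat_lit 558) ln14_17_7 ln14_17_7_ok) (L (nat_lit 495) ln11_14_0 ln11_14_0_ok))) (B (M (nat_lit 495) (B (L (nat_lit 525) ln11_16_2 ln11_16_2_ok) (L (nat_lit 462) ln11_14_0 ln11_14_0_ok))) (B (M (nat_lit 558) (B (L (nat_lit 462) ln14_17_7 ln14_17_7_ok)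 (M (nat_lit 525) (B (L (nat_lit 559) ln11_16_0 ln11_16_0_ok) (L (nat_lit 557) ln10_16_0 ln10_16_0_ok))))) (M (nat_lit 525) (B (L (nat_lit 495) ln11_16_2 ln11_16_2_ok) (M (nat_lit 558) (B (L (nat_lit 559) ln11_16_0 ln11_16_0_ok) (L (nat_lit 557) ln10_16_0 ln10_16_0_ok))))))))) (B (M (nat_lit 427) (B (L (nat_lit 554) ln11_13_5 ln11_13_5_ok) (M (nat_lit 426) (B (L (nat_lit 394) ln11_16_7 ln11_16_7_ok) (L (nat_lit 462) ln14_14_3 ln14_14_3_ok))))) (M (nat_lit 427) (B (L (nat_lit 554) ln11_13_5 ln11_13_5_ok) (M (nat_lit 426) (B (L (nat_lit 394) ln11_16_7 ln11_16_7_ok) (M (nat_lit 425) (B (L (nat_lit 428) ln9_13_0 ln9_13_0_ok) (L (nat_lit 424) ln8_13_0 ln8_13_0_ok))))))))))) (M (nat_lit 427) (B (M (nat_lit 426) (B (L (nat_lit 394) ln11_16_7 ln11_16_7_ok) (M (nat_lit 425) (B (L (nat_lit 428) ln9_13_0 ln9_13_0_ok) (L (nat_lit 424) ln8_13_0 ln8_13_0_ok))))) (M (nat_lit 525) (B (M (nat_lit 522) (B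 (L (nat_lit 554) ln11_13_5 ln11_13_5_ok) (L (nat_lit 493) ln10_16_2 ln10_16_2_ok))) (B (M (nat_lit 526) (B (L (nat_lit 495) ln11_16_2 ln11_16_2_ok) (M (nat_lit 493) (B (L (nat_lit 558) ln13_13_4 ln13_13_4_ok) (L (nat_lit 522) ln10_16_2 ln10_16_2_ok))))) (B (M (nat_lit 526) (B (L (nat_lit 495) ln11_16_2 ln11_16_2_ok) (M (nat_lit 558) (B (L (nat_lit 559) ln11_16_0 ln11_16_0_ok) (L (nat_lit 493) ln13_13_4 ln13_13_4_ok))))) (M (nat_lit 558) (B (M (nat_lit 526) (B (L (nat_lit 559) ln11_16_0 ln11_16_0_ok) (L (nat_lit 495) ln11_16_2 ln11_16_2_ok))) (M (nat_lit 522) (B (L (nat_lit 557) ln10_16_0 ln10_16_0_ok) (L (nat_lit 554) ln11_13_5 ln11_13_5_ok))))))))))))))))) (B (M (nat_lit 427) (B (L (nat_lit 556) ln11_13_4 ln11_13_4_ok) (M (nat_lit 426) (B (L (nat_lit 394) ln11_16_7 ln11_16_7_ok) (M (nat_lit 425) (B (L (nat_lit 428) ln9_13_0 ln9_13_0_ok) (L (nat_lit 424) ln8_13_0 ln8_13_0_ok))))))) (M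 (nat_lit 493) (B (M (nat_lit 525) (B (L (nat_lit 556) ln13_13_5 ln13_13_5_ok) (M (nat_lit 558) (B (L (nat_lit 526) ln13_13_4 ln13_13_4_ok) (M (nat_lit 557) (B (L (nat_lit 522) ln10_16_0 ln10_16_0_ok) (L (nat_lit 428) ln13_17_7 ln13_17_7_ok))))))) (B (M (nat_lit 494) (B (M (nat_lit 525) (B (L (nat_lit 556) ln13_13_5 ln13_13_5_ok) (L (nat_lit 522) ln10_16_2 ln10_16_2_ok))) (M (nat_lit 495) (B (L (nat_lit 496) ln16_15_3 ln16_15_3_ok) (L (nat_lit 462) ln11_14_0 ln11_14_0_ok))))) (B (M (nat_lit 494) (B (M (nat_lit 495) (B (L (nat_lit 496) ln16_15_3 ln16_15_3_ok) (L (nat_lit 462) ln11_14_0 ln11_14_0_ok))) (B (M (nat_lit 526) (B (L (nat_lit 397) ln13_12_4 ln13_12_4_ok) (M (nat_lit 525) (B (L (nat_lit 495) ln11_16_2 ln11_16_2_ok) (L (nat_lit 522) ln10_16_2 ln10_16_2_ok))))) (M (nat_lit 526) (B (L (nat_lit 397) ln13_12_4 ln13_12_4_ok) (M (nat_lit 558) (B (L (nat_lit 590) ln14_18_7 ln14_18_7_ok)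 (L (nat_lit 462) ln14_17_7 ln14_17_7_ok)))))))) (M (nat_lit 397) (B (M (nat_lit 494) (B (L (nat_lit 526) ln13_12_4 ln13_12_4_ok) (M (nat_lit 495) (B (L (nat_lit 496) ln16_15_3 ln16_15_3_ok) (L (nat_lit 462) ln11_14_0 ln11_14_0_ok))))) (M (nat_lit 365) (B (M (nat_lit 366) (B (L (nat_lit 398) ln13_15_6 ln13_15_6_ok) (L (nat_lit 334) ln13_14_6 ln13_14_6_ok))) (M (nat_lit 333) (B (L (nat_lit 428) ln13_10_5 ln13_10_5_ok) (M (nat_lit 332) (B (L (nat_lit 364) ln13_14_7 ln13_14_7_ok) (L (nat_lit 300) ln13_13_7 ln13_13_7_ok))))))))))))))))) (B (M (nat_lit 427) (B (M (nat_lit 426) (B (L (nat_lit 394) ln11_16_7 ln11_16_7_ok) (L (nat_lit 462) ln14_14_3 ln14_14_3_ok))) (M (nat_lit 555) (B (M (nat_lit 556) (B (L (nat_lit 588) ln11_14_4 ln11_14_4_ok) (L (nat_lit 524) ln11_13_4 ln11_13_4_ok))) (M (nat_lit 554) (B (L (nat_lit 586) ln11_14_5 ln11_14_5_ok) (L (nat_lit 522) ln11_13_5 ln11_13_5_ok))))))) (M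 (nat_lit 555) (B (L (nat_lit 428) ln11_17_6 ln11_17_6_ok) (M (nat_lit 587) (B (M (nat_lit 588) (B (L (nat_lit 620) ln11_15_4 ln11_15_4_ok) (L (nat_lit 556) ln11_14_4 ln11_14_4_ok))) (M (nat_lit 586) (B (L (nat_lit 618) ln11_15_5 ln11_15_5_ok) (L (nat_lit 554) ln11_14_5 ln11_14_5_ok)))))))))
noncomputable def c10_d150 : Cert := (B (M (nat_lit 427) (B (M (nat_lit 462) (B (L (nat_lit 490) ln14_14_1 ln14_14_1_ok) (L (nat_lit 426) ln14_14_3 ln14_14_3_ok))) (B (M (nat_lit 426) (B (L (nat_lit 462) ln14_14_3 ln14_14_3_ok) (M (nat_lit 425) (B (L (nat_lit 428) ln9_13_0 ln9_13_0_ok) (L (nat_lit 424) ln8_13_0 ln8_13_0_ok))))) (B (M (nat_lit 426) (B (M (nat_lit 425) (B (L (nat_lit 428) ln9_13_0 ln9_13_0_ok) (L (nat_lit 424) ln8_13_0 ln8_13_0_ok))) (M (nat_lit 394) (B (L (nat_lit 523) ln11_16_7 ln11_16_7_ok) (M (nat_lit 362) (B (L (nat_lit 395) ln11_15_7 ln11_15_7_ok) (L (nat_lit 330) ln10_10_4 ln10_10_4_ok)))))))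 (M (nat_lit 490) (B (L (nat_lit 462) ln14_14_1 ln14_14_1_ok) (M (nat_lit 522) (B (L (nat_lit 395) ln11_12_5 ln11_12_5_ok) (M (nat_lit 554) (B (L (nat_lit 586) ln10_18_6 ln10_18_6_ok) (L (nat_lit 523) ln11_13_5 ln11_13_5_ok))))))))))) (B (M (nat_lit 523) (B (M (nat_lit 555) (B (L (nat_lit 428) ln11_17_6 ln11_17_6_ok) (M (nat_lit 556) (B (L (nat_lit 588) ln11_14_4 ln11_14_4_ok) (M (nat_lit 427) (B (L (nat_lit 524) ln11_13_4 ln11_13_4_ok) (M (nat_lit 554) (B (L (nat_lit 586) ln11_14_5 ln11_14_5_ok) (L (nat_lit 522) ln11_13_5 ln11_13_5_ok))))))))) (B (M (nat_lit 555) (B (L (nat_lit 428) ln11_17_6 ln11_17_6_ok) (M (nat_lit 427) (B (M (nat_lit 554) (B (L (nat_lit 586) ln11_14_5 ln11_14_5_ok) (L (nat_lit 522) ln11_13_5 ln11_13_5_ok))) (M (nat_lit 426) (B (L (nat_lit 394) ln11_16_7 ln11_16_7_ok) (L (nat_lit 462) ln14_14_3 ln14_14_3_ok))))))) (B (M (nat_lit 555) (B (L (nat_lit 428) ln11_17_6 ln11_17_6_ok)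 (M (nat_lit 427) (B (M (nat_lit 556) (B (L (nat_lit 588) ln11_14_4 ln11_14_4_ok) (L (nat_lit 524) ln11_13_4 ln11_13_4_ok))) (M (nat_lit 426) (B (L (nat_lit 394) ln11_16_7 ln11_16_7_ok) (L (nat_lit 462) ln14_14_3 ln14_14_3_ok))))))) c10_d149)))) (M (nat_lit 523) (B (M (nat_lit 555) (B (L (nat_lit 428) ln11_17_6 ln11_17_6_ok) (M (nat_lit 556) (B (L (nat_lit 588) ln11_14_4 ln11_14_4_ok) (M (nat_lit 427) (B (L (nat_lit 524) ln11_13_4 ln11_13_4_ok) (M (nat_lit 554) (B (L (nat_lit 586) ln11_14_5 ln11_14_5_ok) (L (nat_lit 522) ln11_13_5 ln11_13_5_ok))))))))) (B (M (nat_lit 427) (B (M (nat_lit 426) (B (L (nat_lit 394) ln11_16_7 ln11_16_7_ok) (M (nat_lit 428) (B (L (nat_lit 555) ln11_17_6 ln11_17_6_ok) (L (nat_lit 425) ln9_13_0 ln9_13_0_ok))))) (B (M (nat_lit 426) (B (L (nat_lit 394) ln11_16_7 ln11_16_7_ok) (M (nat_lit 425) (B (L (nat_lit 428) ln9_13_0 ln9_13_0_ok) (L (nat_lit 424) ln8_13_0 ln8_13_0_ok)))))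 (B (M (nat_lit 395) (B (M (nat_lit 522) (B (L (nat_lit 554) ln11_13_5 ln11_13_5_ok) (L (nat_lit 490) ln11_12_5 ln11_12_5_ok))) (M (nat_lit 394) (B (L (nat_lit 426) ln11_16_7 ln11_16_7_ok) (L (nat_lit 362) ln11_15_7 ln11_15_7_ok))))) (M (nat_lit 555) (B (L (nat_lit 428) ln11_17_6 ln11_17_6_ok) (M (nat_lit 554) (B (L (nat_lit 586) ln11_14_5 ln11_14_5_ok) (L (nat_lit 522) ln11_13_5 ln11_13_5_ok))))))))) (B (M (nat_lit 555) (B (L (nat_lit 428) ln11_17_6 ln11_17_6_ok) (M (nat_lit 427) (B (M (nat_lit 556) (B (L (nat_lit 588) ln11_14_4 ln11_14_4_ok) (L (nat_lit 524) ln11_13_4 ln11_13_4_ok))) (M (nat_lit 395) (B (M (nat_lit 522) (B (L (nat_lit 554) ln11_13_5 ln11_13_5_ok) (L (nat_lit 490) ln11_12_5 ln11_12_5_ok))) (M (nat_lit 394) (B (L (nat_lit 426) ln11_16_7 ln11_16_7_ok) (L (nat_lit 362) ln11_15_7 ln11_15_7_ok))))))))) (B (M (nat_lit 427) (B (M (nat_lit 426) (B (L (nat_lit 394) ln11_16_7 ln11_16_7_ok)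 (M (nat_lit 425) (B (L (nat_lit 428) ln9_13_0 ln9_13_0_ok) (L (nat_lit 424) ln8_13_0 ln8_13_0_ok))))) (M (nat_lit 522) (B (L (nat_lit 554) ln11_13_5 ln11_13_5_ok) (M (nat_lit 524) (B (L (nat_lit 556) ln11_13_4 ln11_13_4_ok) (M (nat_lit 490) (B (L (nat_lit 395) ln11_12_5 ln11_12_5_ok) (M (nat_lit 525) (B (L (nat_lit 526) ln14_16_3 ln14_16_3_ok) (L (nat_lit 489) ln13_16_3 ln13_16_3_ok))))))))))) (B (M (nat_lit 556) (B (M (nat_lit 555) (B (L (nat_lit 588) ln11_14_4 ln11_14_4_ok) (L (nat_lit 428) ln11_17_6 ln11_17_6_ok))) (B (M (nat_lit 427) (B (L (nat_lit 524) ln11_13_4 ln11_13_4_ok) (M (nat_lit 426) (B (L (nat_lit 394) ln11_16_7 ln11_16_7_ok) (M (nat_lit 428) (B (L (nat_lit 555) ln11_17_6 ln11_17_6_ok) (L (nat_lit 425) ln9_13_0 ln9_13_0_ok))))))) (B (M (nat_lit 427) (B (L (nat_lit 524) ln11_13_4 ln11_13_4_ok) (M (nat_lit 426) (B (L (nat_lit 394) ln11_16_7 ln11_16_7_ok) (M (nat_lit 425) (B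 (L (nat_lit 428) ln9_13_0 ln9_13_0_ok) (L (nat_lit 424) ln8_13_0 ln8_13_0_ok))))))) (M (nat_lit 524) (B (L (nat_lit 427) ln11_13_4 ln11_13_4_ok) (M (nat_lit 588) (B (L (nat_lit 620) ln12_19_7 ln12_19_7_ok) (L (nat_lit 555) ln11_14_4 ln11_14_4_ok))))))))) (B (M (nat_lit 556) (B (M (nat_lit 524) (B (L (nat_lit 427) ln11_13_4 ln11_13_4_ok) (M (nat_lit 588) (B (L (nat_lit 620) ln12_19_7 ln12_19_7_ok) (L (nat_lit 555) ln11_14_4 ln11_14_4_ok))))) (B (M (nat_lit 554) (B (M (nat_lit 555) (B (L (nat_lit 588) ln11_14_4 ln11_14_4_ok) (L (nat_lit 586) ln11_14_5 ln11_14_5_ok))) (M (nat_lit 427) (B (L (nat_lit 524) ln11_13_4 ln11_13_4_ok) (L (nat_lit 522) ln11_13_5 ln11_13_5_ok))))) (B (M (nat_lit 524) (B (L (nat_lit 427) ln11_13_4 ln11_13_4_ok) (M (nat_lit 525) (B (L (nat_lit 493) ln13_13_5 ln13_13_5_ok) (M (nat_lit 490) (B (L (nat_lit 526) ln14_16_3 ln14_16_3_ok) (M (nat_lit 489) (B (L (nat_lit 522)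 ln13_16_3 ln13_16_3_ok) (L (nat_lit 488) ln8_15_0 ln8_15_0_ok))))))))) (B (M (nat_lit 555) (B (L (nat_lit 588) ln11_14_4 ln11_14_4_ok) (M (nat_lit 554) (B (L (nat_lit 586) ln11_14_5 ln11_14_5_ok) (M (nat_lit 522) (B (L (nat_lit 427) ln11_13_5 ln11_13_5_ok) (M (nat_lit 557) (B (L (nat_lit 558) ln14_17_3 ln14_17_3_ok) (L (nat_lit 521) ln13_17_3 ln13_17_3_ok))))))))) (M (nat_lit 524) (B (M (nat_lit 588) (B (L (nat_lit 620) ln12_19_7 ln12_19_7_ok) (L (nat_lit 555) ln11_14_4 ln11_14_4_ok))) (M (nat_lit 525) (B (L (nat_lit 493) ln13_13_5 ln13_13_5_ok) (M (nat_lit 490) (B (L (nat_lit 526) ln14_16_3 ln14_16_3_ok) (M (nat_lit 489) (B (L (nat_lit 522) ln13_16_3 ln13_16_3_ok) (L (nat_lit 488) ln8_15_0 ln8_15_0_ok)))))))))))))) (M (nat_lit 555) (B (L (nat_lit 428) ln11_17_6 ln11_17_6_ok) (M (nat_lit 587) (B (M (nat_lit 588) (B (L (nat_lit 620) ln11_15_4 ln11_15_4_ok) (L (nat_lit 556) ln11_14_4 ln11_14_4_ok)))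 (M (nat_lit 586) (B (L (nat_lit 618) ln11_15_5 ln11_15_5_ok) (L (nat_lit 554) ln11_14_5 ln11_14_5_ok))))))))))))))))
noncomputable def c10_d151 : Cert := (B (M (nat_lit 458) (B (M (nat_lit 457) (B (L (nat_lit 428) ln9_14_2 ln9_14_2_ok) (M (nat_lit 489) (B (L (nat_lit 490) ln13_14_1 ln13_14_1_ok) (L (nat_lit 488) ln12_14_1 ln12_14_1_ok))))) (B (M (nat_lit 457) (B (L (nat_lit 428) ln9_14_2 ln9_14_2_ok) (M (nat_lit 425) (B (L (nat_lit 426) ln13_14_3 ln13_14_3_ok) (L (nat_lit 424) ln12_14_3 ln12_14_3_ok))))) (M (nat_lit 462) (B (M (nat_lit 494) (B (L (nat_lit 495) ln11_14_0 ln11_14_0_ok) (L (nat_lit 493) ln10_14_0 ln10_14_0_ok))) (M (nat_lit 490) (B (L (nat_lit 491) ln14_14_1 ln14_14_1_ok) (L (nat_lit 489) ln13_14_1 ln13_14_1_ok)))))))) (B (K (nat_lit 10419959952888155229975513539671640096565344398531610249883351783038884624700983282707087714552501678931161298796127532335853834862306787328)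 (nat_lit 11987514446238360109225620724139410949035952493895048571667926573590892999983157071114273417737502709204366113311758427243734002986836931865588269056) (nat_lit 11987514446238360109225620724139410949035952493895048571667926573590892999983157071114273417737502709204366113311758427243734002986836931865588269056) c10_s585) (B (M (nat_lit 458) (B (M (nat_lit 457) (B (L (nat_lit 428) ln9_14_2 ln9_14_2_ok) (M (nat_lit 489) (B (L (nat_lit 490) ln13_14_1 ln13_14_1_ok) (L (nat_lit 488) ln12_14_1 ln12_14_1_ok))))) (B (M (nat_lit 457) (B (L (nat_lit 428) ln9_14_2 ln9_14_2_ok) (M (nat_lit 425) (B (L (nat_lit 426) ln13_14_3 ln13_14_3_ok) (L (nat_lit 424) ln12_14_3 ln12_14_3_ok))))) (M (nat_lit 426) (B (L (nat_lit 425) ln13_14_3 ln13_14_3_ok) (M (nat_lit 462) (B (L (nat_lit 427) ln14_14_3 ln14_14_3_ok) (M (nat_lit 494) (B (L (nat_lit 495) ln11_14_0 ln11_14_0_ok) (L (nat_lit 493) ln10_14_0 ln10_14_0_ok))))))))))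 (B (M (nat_lit 458) (B (M (nat_lit 457) (B (L (nat_lit 428) ln9_14_2 ln9_14_2_ok) (M (nat_lit 425) (B (L (nat_lit 426) ln13_14_3 ln13_14_3_ok) (L (nat_lit 424) ln12_14_3 ln12_14_3_ok))))) (B (M (nat_lit 426) (B (L (nat_lit 425) ln13_14_3 ln13_14_3_ok) (M (nat_lit 462) (B (L (nat_lit 427) ln14_14_3 ln14_14_3_ok) (M (nat_lit 494) (B (L (nat_lit 495) ln11_14_0 ln11_14_0_ok) (L (nat_lit 493) ln10_14_0 ln10_14_0_ok))))))) (M (nat_lit 428) (B (L (nat_lit 457) ln9_14_2 ln9_14_2_ok) (M (nat_lit 462) (B (M (nat_lit 494) (B (L (nat_lit 495) ln11_14_0 ln11_14_0_ok) (L (nat_lit 493) ln10_14_0 ln10_14_0_ok))) (M (nat_lit 463) (B (L (nat_lit 464) ln16_14_3 ln16_14_3_ok) (L (nat_lit 427) ln15_14_3 ln15_14_3_ok)))))))))) (B (M (nat_lit 458) (B (M (nat_lit 457) (B (L (nat_lit 428) ln9_14_2 ln9_14_2_ok) (M (nat_lit 489) (B (L (nat_lit 490) ln13_14_1 ln13_14_1_ok) (L (nat_lit 488) ln12_14_1 ln12_14_1_ok)))))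 (B (M (nat_lit 457) (B (L (nat_lit 428) ln9_14_2 ln9_14_2_ok) (M (nat_lit 425) (B (L (nat_lit 426) ln13_14_3 ln13_14_3_ok) (L (nat_lit 424) ln12_14_3 ln12_14_3_ok))))) (B (K (nat_lit 11164242806566856685898021118948956739743473151875423943611597746999859255729102756193107350483395570065382120920944098539793266930008195072) (nat_lit 41188785971972005094223920953059692694455668596330947258150749590687674962998139148205167846435651303027938844216189801406081940154736861482209025138972688384) (nat_lit 41188785971972005094223920953059692694455668596330947258150749590687674962998139148205167846435651303027938844216189801406081940154736861482209025138972688384) c10_s590) (M (nat_lit 457) (B (M (nat_lit 489) (B (L (nat_lit 490) ln13_14_1 ln13_14_1_ok) (L (nat_lit 488) ln12_14_1 ln12_14_1_ok))) (M (nat_lit 425) (B (L (nat_lit 426) ln13_14_3 ln13_14_3_ok) (L (nat_lit 424) ln12_14_3 ln12_14_3_ok)))))))))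 (B (M (nat_lit 491) (B (M (nat_lit 462) (B (L (nat_lit 490) ln14_14_1 ln14_14_1_ok) (M (nat_lit 427) (B (L (nat_lit 426) ln14_14_3 ln14_14_3_ok) (M (nat_lit 463) (B (L (nat_lit 428) ln15_14_3 ln15_14_3_ok) (M (nat_lit 495) (B (L (nat_lit 496) ln12_14_0 ln12_14_0_ok) (L (nat_lit 494) ln11_14_0 ln11_14_0_ok))))))))) (B (M (nat_lit 462) (B (L (nat_lit 490) ln14_14_1 ln14_14_1_ok) (M (nat_lit 494) (B (L (nat_lit 495) ln11_14_0 ln11_14_0_ok) (M (nat_lit 526) (B (L (nat_lit 558) ln14_17_7 ln14_17_7_ok) (M (nat_lit 397) (B (L (nat_lit 493) ln13_12_4 ln13_12_4_ok) (L (nat_lit 365) ln13_11_4 ln13_11_4_ok))))))))) c10_d150))) (B (K (nat_lit 10419959952888155229975513539671640096565344398531610249883351783038884624700983282707087714552501678931161298796127532335853834862306787328) (nat_lit 191001063315558618624878764845868535870988960840839383320676313997504255847071176896139451264858979897633488050011664916035954917599593471512248582144)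 (nat_lit 191001063315558618624878764845868535870988960840839383320676313997504255847071176896139451264858979897633488050011664916035954917599593471512248582144) c10_s591) (B (M (nat_lit 458) (B (M (nat_lit 457) (B (L (nat_lit 428) ln9_14_2 ln9_14_2_ok) (M (nat_lit 489) (B (L (nat_lit 490) ln13_14_1 ln13_14_1_ok) (L (nat_lit 488) ln12_14_1 ln12_14_1_ok))))) (B (M (nat_lit 457) (B (L (nat_lit 428) ln9_14_2 ln9_14_2_ok) (M (nat_lit 456) (B (M (nat_lit 488) (B (L (nat_lit 489) ln12_14_1 ln12_14_1_ok) (L (nat_lit 487) ln11_14_1 ln11_14_1_ok))) (M (nat_lit 424) (B (L (nat_lit 425) ln12_14_3 ln12_14_3_ok) (L (nat_lit 423) ln11_14_3 ln11_14_3_ok))))))) (B (M (nat_lit 428) (B (L (nat_lit 457) ln9_14_2 ln9_14_2_ok) (M (nat_lit 462) (B (M (nat_lit 494) (B (L (nat_lit 495) ln11_14_0 ln11_14_0_ok) (L (nat_lit 493) ln10_14_0 ln10_14_0_ok))) (M (nat_lit 463) (B (L (nat_lit 464) ln16_14_3 ln16_14_3_ok)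 (L (nat_lit 427) ln15_14_3 ln15_14_3_ok))))))) (M (nat_lit 462) (B (M (nat_lit 494) (B (L (nat_lit 495) ln11_14_0 ln11_14_0_ok) (L (nat_lit 493) ln10_14_0 ln10_14_0_ok))) (M (nat_lit 490) (B (L (nat_lit 491) ln14_14_1 ln14_14_1_ok) (L (nat_lit 489) ln13_14_1 ln13_14_1_ok))))))))) (M (nat_lit 462) (B (M (nat_lit 494) (B (L (nat_lit 495) ln11_14_0 ln11_14_0_ok) (M (nat_lit 526) (B (L (nat_lit 558) ln14_17_7 ln14_17_7_ok) (M (nat_lit 397) (B (L (nat_lit 493) ln13_12_4 ln13_12_4_ok) (L (nat_lit 365) ln13_11_4 ln13_11_4_ok))))))) (B (M (nat_lit 494) (B (L (nat_lit 495) ln11_14_0 ln11_14_0_ok) (M (nat_lit 490) (B (L (nat_lit 491) ln14_14_1 ln14_14_1_ok) (M (nat_lit 458) (B (L (nat_lit 493) ln10_14_0 ln10_14_0_ok) (L (nat_lit 489) ln13_14_1 ln13_14_1_ok))))))) (M (nat_lit 458) (B (M (nat_lit 490) (B (L (nat_lit 491) ln14_14_1 ln14_14_1_ok) (L (nat_lit 489) ln13_14_1 ln13_14_1_ok))) (M (nat_lit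 428) (B (L (nat_lit 457) ln9_14_2 ln9_14_2_ok) (M (nat_lit 463) (B (L (nat_lit 464) ln16_14_3 ln16_14_3_ok) (L (nat_lit 427) ln15_14_3 ln15_14_3_ok))))))))))))))))))
noncomputable def c10_d152 : Cert := (B (M (nat_lit 458) (B (M (nat_lit 457) (B (M (nat_lit 493) (B (L (nat_lit 494) ln10_14_0 ln10_14_0_ok) (L (nat_lit 492) ln9_14_0 ln9_14_0_ok))) (M (nat_lit 489) (B (L (nat_lit 490) ln13_14_1 ln13_14_1_ok) (L (nat_lit 488) ln12_14_1 ln12_14_1_ok))))) (B (M (nat_lit 457) (B (M (nat_lit 489) (B (L (nat_lit 490) ln13_14_1 ln13_14_1_ok) (L (nat_lit 488) ln12_14_1 ln12_14_1_ok))) (M (nat_lit 425) (B (L (nat_lit 426) ln13_14_3 ln13_14_3_ok) (L (nat_lit 424) ln12_14_3 ln12_14_3_ok))))) (B (M (nat_lit 457) (B (M (nat_lit 493) (B (L (nat_lit 494) ln10_14_0 ln10_14_0_ok) (L (nat_lit 492) ln9_14_0 ln9_14_0_ok))) (M (nat_lit 425) (B (L (nat_lit 426) ln13_14_3 ln13_14_3_ok) (L (nat_lit 424) ln12_14_3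 ln12_14_3_ok))))) (M (nat_lit 426) (B (L (nat_lit 425) ln13_14_3 ln13_14_3_ok) (M (nat_lit 462) (B (L (nat_lit 427) ln14_14_3 ln14_14_3_ok) (M (nat_lit 494) (B (L (nat_lit 495) ln11_14_0 ln11_14_0_ok) (L (nat_lit 493) ln10_14_0 ln10_14_0_ok))))))))))) (B (M (nat_lit 492) (B (M (nat_lit 524) (B (L (nat_lit 556) ln12_17_6 ln12_17_6_ok) (M (nat_lit 397) (B (L (nat_lit 493) ln13_12_5 ln13_12_5_ok) (L (nat_lit 365) ln13_11_5 ln13_11_5_ok))))) (B (M (nat_lit 493) (B (M (nat_lit 397) (B (L (nat_lit 524) ln13_12_5 ln13_12_5_ok) (L (nat_lit 365) ln13_11_5 ln13_11_5_ok))) (M (nat_lit 458) (B (L (nat_lit 494) ln10_14_0 ln10_14_0_ok) (L (nat_lit 457) ln9_14_0 ln9_14_0_ok))))) (B (M (nat_lit 493) (B (M (nat_lit 494) (B (L (nat_lit 495) ln15_15_3 ln15_15_3_ok) (L (nat_lit 458) ln10_14_0 ln10_14_0_ok))) (B (M (nat_lit 458) (B (L (nat_lit 494) ln10_14_0 ln10_14_0_ok) (L (nat_lit 457) ln9_14_0 ln9_14_0_ok)))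 (B (M (nat_lit 462) (B (M (nat_lit 463) (B (L (nat_lit 464) ln16_14_1 ln16_14_1_ok) (L (nat_lit 491) ln15_14_1 ln15_14_1_ok))) (M (nat_lit 458) (B (L (nat_lit 457) ln9_14_0 ln9_14_0_ok) (M (nat_lit 426) (B (L (nat_lit 427) ln14_14_3 ln14_14_3_ok) (L (nat_lit 425) ln13_14_3 ln13_14_3_ok))))))) (M (nat_lit 494) (B (L (nat_lit 495) ln15_15_3 ln15_15_3_ok) (M (nat_lit 397) (B (L (nat_lit 526) ln13_12_4 ln13_12_4_ok) (L (nat_lit 365) ln13_11_5 ln13_11_5_ok))))))))) (M (nat_lit 427) (B (M (nat_lit 524) (B (L (nat_lit 556) ln12_17_6 ln12_17_6_ok) (M (nat_lit 395) (B (L (nat_lit 491) ln11_12_4 ln11_12_4_ok) (L (nat_lit 363) ln11_11_4 ln11_11_4_ok))))) (M (nat_lit 426) (B (L (nat_lit 462) ln14_14_3 ln14_14_3_ok) (M (nat_lit 425) (B (L (nat_lit 458) ln13_14_3 ln13_14_3_ok) (L (nat_lit 424) ln8_13_0 ln8_13_0_ok))))))))))) (B (M (nat_lit 493) (B (M (nat_lit 494) (B (L (nat_lit 458) ln10_14_0 ln10_14_0_ok)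 (M (nat_lit 495) (B (L (nat_lit 496) ln16_15_3 ln16_15_3_ok) (L (nat_lit 492) ln15_15_3 ln15_15_3_ok))))) (B (M (nat_lit 492) (B (M (nat_lit 524) (B (L (nat_lit 556) ln12_17_6 ln12_17_6_ok) (L (nat_lit 397) ln13_12_5 ln13_12_5_ok))) (M (nat_lit 458) (B (L (nat_lit 494) ln10_14_0 ln10_14_0_ok) (L (nat_lit 457) ln9_14_0 ln9_14_0_ok))))) (B (M (nat_lit 525) (B (M (nat_lit 556) (B (L (nat_lit 524) ln13_13_5 ln13_13_5_ok) (M (nat_lit 557) (B (L (nat_lit 588) ln13_14_5 ln13_14_5_ok) (M (nat_lit 558) (B (L (nat_lit 590) ln13_14_4 ln13_14_4_ok) (L (nat_lit 526) ln13_13_4 ln13_13_4_ok))))))) (B (M (nat_lit 492) (B (M (nat_lit 524) (B (L (nat_lit 556) ln13_13_5 ln13_13_5_ok) (L (nat_lit 397) ln13_12_5 ln13_12_5_ok))) (B (M (nat_lit 397) (B (L (nat_lit 524) ln13_12_5 ln13_12_5_ok) (L (nat_lit 365) ln13_11_5 ln13_11_5_ok))) (M (nat_lit 490) (B (M (nat_lit 526) (B (L (nat_lit 558) ln13_13_4 ln13_13_4_ok)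 (L (nat_lit 491) ln10_15_0 ln10_15_0_ok))) (B (M (nat_lit 491) (B (L (nat_lit 526) ln10_15_0 ln10_15_0_ok) (L (nat_lit 489) ln9_15_2 ln9_15_2_ok))) (B (M (nat_lit 489) (B (L (nat_lit 491) ln9_15_2 ln9_15_2_ok) (L (nat_lit 458) ln13_14_1 ln13_14_1_ok))) (M (nat_lit 458) (B (L (nat_lit 457) ln9_14_0 ln9_14_0_ok) (L (nat_lit 489) ln13_14_1 ln13_14_1_ok)))))))))) (B (M (nat_lit 557) (B (M (nat_lit 556) (B (L (nat_lit 588) ln13_14_5 ln13_14_5_ok) (L (nat_lit 524) ln13_13_5 ln13_13_5_ok))) (B (M (nat_lit 492) (B (L (nat_lit 589) ln13_18_7 ln13_18_7_ok) (M (nat_lit 524) (B (L (nat_lit 556) ln13_13_5 ln13_13_5_ok) (L (nat_lit 397) ln13_12_5 ln13_12_5_ok))))) (B (M (nat_lit 492) (B (L (nat_lit 589) ln13_18_7 ln13_18_7_ok) (M (nat_lit 397) (B (L (nat_lit 524) ln13_12_5 ln13_12_5_ok) (L (nat_lit 365) ln13_11_5 ln13_11_5_ok))))) (M (nat_lit 589) (B (L (nat_lit 492) ln13_18_7 ln13_18_7_ok) (M (nat_lit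 588) (B (L (nat_lit 620) ln13_15_5_c10 ln13_15_5_c10_ok) (L (nat_lit 556) ln13_14_5 ln13_14_5_ok))))))))) (B (M (nat_lit 492) (B (M (nat_lit 397) (B (L (nat_lit 524) ln13_12_5 ln13_12_5_ok) (L (nat_lit 365) ln13_11_5 ln13_11_5_ok))) (M (nat_lit 558) (B (L (nat_lit 526) ln13_13_4 ln13_13_4_ok) (M (nat_lit 557) (B (L (nat_lit 590) ln13_14_4 ln13_14_4_ok) (L (nat_lit 589) ln13_18_7 ln13_18_7_ok))))))) (M (nat_lit 557) (B (M (nat_lit 558) (B (L (nat_lit 590) ln13_14_4 ln13_14_4_ok) (L (nat_lit 526) ln13_13_4 ln13_13_4_ok))) (M (nat_lit 589) (B (L (nat_lit 492) ln13_18_7 ln13_18_7_ok) (M (nat_lit 588) (B (L (nat_lit 620) ln13_15_5_c10 ln13_15_5_c10_ok) (L (nat_lit 556) ln13_14_5 ln13_14_5_ok)))))))))))) (B (M (nat_lit 494) (B (L (nat_lit 458) ln10_14_0 ln10_14_0_ok) (M (nat_lit 526) (B (L (nat_lit 397) ln13_12_4 ln13_12_4_ok) (M (nat_lit 558) (B (L (nat_lit 590) ln14_18_7 ln14_18_7_ok) (L (nat_lit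 525) ln13_13_4 ln13_13_4_ok))))))) (M (nat_lit 494) (B (M (nat_lit 495) (B (L (nat_lit 496) ln16_15_3 ln16_15_3_ok) (L (nat_lit 492) ln15_15_3 ln15_15_3_ok))) (M (nat_lit 526) (B (L (nat_lit 397) ln13_12_4 ln13_12_4_ok) (M (nat_lit 558) (B (L (nat_lit 590) ln14_18_7 ln14_18_7_ok) (L (nat_lit 525) ln13_13_4 ln13_13_4_ok)))))))))))) (M (nat_lit 462) (B (M (nat_lit 494) (B (L (nat_lit 495) ln11_14_0 ln11_14_0_ok) (M (nat_lit 526) (B (L (nat_lit 558) ln14_17_7 ln14_17_7_ok) (M (nat_lit 397) (B (L (nat_lit 493) ln13_12_4 ln13_12_4_ok) (L (nat_lit 365) ln13_11_4 ln13_11_4_ok))))))) (B (M (nat_lit 463) (B (M (nat_lit 495) (B (L (nat_lit 496) ln12_14_0 ln12_14_0_ok) (L (nat_lit 494) ln11_14_0 ln11_14_0_ok))) (M (nat_lit 491) (B (L (nat_lit 492) ln15_14_1 ln15_14_1_ok) (L (nat_lit 490) ln14_14_1 ln14_14_1_ok))))) (M (nat_lit 492) (B (M (nat_lit 491) (B (L (nat_lit 463) ln15_14_1 ln15_14_1_ok) (L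 (nat_lit 490) ln14_14_1 ln14_14_1_ok))) (M (nat_lit 524) (B (L (nat_lit 556) ln12_17_6 ln12_17_6_ok) (M (nat_lit 397) (B (L (nat_lit 493) ln13_12_5 ln13_12_5_ok) (L (nat_lit 365) ln13_11_5 ln13_11_5_ok)))))))))))))
noncomputable def c10_d153 : Cert := (B (M (nat_lit 458) (B (M (nat_lit 457) (B (L (nat_lit 428) ln9_14_2 ln9_14_2_ok) (M (nat_lit 489) (B (L (nat_lit 490) ln13_14_1 ln13_14_1_ok) (L (nat_lit 488) ln12_14_1 ln12_14_1_ok))))) (B (M (nat_lit 457) (B (L (nat_lit 428) ln9_14_2 ln9_14_2_ok) (M (nat_lit 493) (B (L (nat_lit 494) ln10_14_0 ln10_14_0_ok) (L (nat_lit 492) ln9_14_0 ln9_14_0_ok))))) (M (nat_lit 462) (B (M (nat_lit 490) (B (L (nat_lit 491) ln14_14_1 ln14_14_1_ok) (L (nat_lit 489) ln13_14_1 ln13_14_1_ok))) (M (nat_lit 426) (B (L (nat_lit 427) ln14_14_3 ln14_14_3_ok) (L (nat_lit 425) ln13_14_3 ln13_14_3_ok)))))))) (B (K (nat_lit 10419959952888155229975513539671640096565344398531610249883351783038884624700983282707087714552501678931161298796127532335853834862306787328)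 (nat_lit 11987514446238360109225620724139410949035952493895048571667926573590892999983157071114273417737502709204366113311758427243734002986836931865588269056) (nat_lit 11987514446238360109225620724139410949035952493895048571667926573590892999983157071114273417737502709204366113311758427243734002986836931865588269056) c10_s585) (B (M (nat_lit 458) (B (M (nat_lit 457) (B (L (nat_lit 428) ln9_14_2 ln9_14_2_ok) (M (nat_lit 489) (B (L (nat_lit 490) ln13_14_1 ln13_14_1_ok) (L (nat_lit 488) ln12_14_1 ln12_14_1_ok))))) (M (nat_lit 426) (B (L (nat_lit 425) ln13_14_3 ln13_14_3_ok) (M (nat_lit 462) (B (L (nat_lit 427) ln14_14_3 ln14_14_3_ok) (M (nat_lit 494) (B (L (nat_lit 495) ln11_14_0 ln11_14_0_ok) (L (nat_lit 493) ln10_14_0 ln10_14_0_ok))))))))) (B (M (nat_lit 458) (B (M (nat_lit 457) (B (L (nat_lit 428) ln9_14_2 ln9_14_2_ok) (M (nat_lit 493) (B (L (nat_lit 494) ln10_14_0 ln10_14_0_ok) (L (nat_lit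 492) ln9_14_0 ln9_14_0_ok))))) (B (M (nat_lit 457) (B (L (nat_lit 428) ln9_14_2 ln9_14_2_ok) (M (nat_lit 425) (B (L (nat_lit 426) ln13_14_3 ln13_14_3_ok) (L (nat_lit 424) ln12_14_3 ln12_14_3_ok))))) (M (nat_lit 426) (B (L (nat_lit 425) ln13_14_3 ln13_14_3_ok) (M (nat_lit 462) (B (L (nat_lit 427) ln14_14_3 ln14_14_3_ok) (M (nat_lit 494) (B (L (nat_lit 495) ln11_14_0 ln11_14_0_ok) (L (nat_lit 493) ln10_14_0 ln10_14_0_ok)))))))))) (B (M (nat_lit 458) (B (M (nat_lit 457) (B (L (nat_lit 428) ln9_14_2 ln9_14_2_ok) (M (nat_lit 489) (B (L (nat_lit 490) ln13_14_1 ln13_14_1_ok) (L (nat_lit 488) ln12_14_1 ln12_14_1_ok))))) (B (M (nat_lit 457) (B (L (nat_lit 428) ln9_14_2 ln9_14_2_ok) (M (nat_lit 493) (B (L (nat_lit 494) ln10_14_0 ln10_14_0_ok) (L (nat_lit 492) ln9_14_0 ln9_14_0_ok))))) (B (K (nat_lit 11164242806566856685898021118948956739743473151875423943611597746999859255729102756193107350483395570065382120920944098539793266930008195072)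 (nat_lit 41188785971972005094223920953059692694455668596330947258150749590687674962998139148205167846435651303027938844216189801406081940154736861482209025138972688384) (nat_lit 41188785971972005094223920953059692694455668596330947258150749590687674962998139148205167846435651303027938844216189801406081940154736861482209025138972688384) c10_s590) (M (nat_lit 457) (B (M (nat_lit 493) (B (L (nat_lit 494) ln10_14_0 ln10_14_0_ok) (L (nat_lit 492) ln9_14_0 ln9_14_0_ok))) (M (nat_lit 489) (B (L (nat_lit 490) ln13_14_1 ln13_14_1_ok) (L (nat_lit 488) ln12_14_1 ln12_14_1_ok))))))))) (B (M (nat_lit 462) (B (M (nat_lit 427) (B (L (nat_lit 426) ln14_14_3 ln14_14_3_ok) (M (nat_lit 463) (B (L (nat_lit 428) ln15_14_3 ln15_14_3_ok) (M (nat_lit 495) (B (L (nat_lit 496) ln12_14_0 ln12_14_0_ok) (L (nat_lit 494) ln11_14_0 ln11_14_0_ok))))))) (B (M (nat_lit 463) (B (M (nat_lit 491) (B (L (nat_lit 492) ln15_14_1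 ln15_14_1_ok) (L (nat_lit 490) ln14_14_1 ln14_14_1_ok))) (M (nat_lit 427) (B (L (nat_lit 428) ln15_14_3 ln15_14_3_ok) (L (nat_lit 426) ln14_14_3 ln14_14_3_ok))))) (B (M (nat_lit 492) (B (M (nat_lit 491) (B (L (nat_lit 490) ln14_14_1 ln14_14_1_ok) (M (nat_lit 427) (B (L (nat_lit 426) ln14_14_3 ln14_14_3_ok) (M (nat_lit 524) (B (L (nat_lit 556) ln12_17_6 ln12_17_6_ok) (L (nat_lit 395) ln11_12_4 ln11_12_4_ok))))))) (B (M (nat_lit 491) (B (L (nat_lit 490) ln14_14_1 ln14_14_1_ok) (M (nat_lit 427) (B (L (nat_lit 426) ln14_14_3 ln14_14_3_ok) (M (nat_lit 395) (B (L (nat_lit 524) ln11_12_4 ln11_12_4_ok) (L (nat_lit 363) ln11_11_4 ln11_11_4_ok))))))) (B (M (nat_lit 491) (B (L (nat_lit 490) ln14_14_1 ln14_14_1_ok) (M (nat_lit 523) (B (M (nat_lit 555) (B (L (nat_lit 587) ln11_18_6 ln11_18_6_ok) (L (nat_lit 428) ln11_17_6 ln11_17_6_ok))) (M (nat_lit 522) (B (M (nat_lit 427) (B (L (nat_lit 554) ln11_13_5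 ln11_13_5_ok) (L (nat_lit 426) ln14_14_3 ln14_14_3_ok))) (M (nat_lit 494) (B (L (nat_lit 493) ln14_15_1 ln14_15_1_ok) (L (nat_lit 495) ln11_14_0 ln11_14_0_ok))))))))) (B (M (nat_lit 524) (B (L (nat_lit 556) ln12_17_6 ln12_17_6_ok) (M (nat_lit 427) (B (L (nat_lit 426) ln14_14_3 ln14_14_3_ok) (M (nat_lit 395) (B (L (nat_lit 428) ln12_16_7 ln12_16_7_ok) (L (nat_lit 363) ln11_11_4 ln11_11_4_ok))))))) (M (nat_lit 524) (B (L (nat_lit 556) ln12_17_6 ln12_17_6_ok) (M (nat_lit 525) (B (M (nat_lit 557) (B (L (nat_lit 428) ln12_13_4 ln12_13_4_ok) (M (nat_lit 589) (B (L (nat_lit 621) ln13_19_7 ln13_19_7_ok) (L (nat_lit 493) ln13_18_7 ln13_18_7_ok))))) (B (M (nat_lit 526) (B (M (nat_lit 558) (B (L (nat_lit 493) ln13_13_4 ln13_13_4_ok) (L (nat_lit 494) ln14_17_7 ln14_17_7_ok))) (M (nat_lit 491) (B (L (nat_lit 527) ln15_16_3 ln15_16_3_ok) (L (nat_lit 490) ln14_14_1 ln14_14_1_ok))))) (M (nat_lit 526)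 (B (M (nat_lit 494) (B (L (nat_lit 558) ln14_17_7 ln14_17_7_ok) (L (nat_lit 495) ln11_14_0 ln11_14_0_ok))) (M (nat_lit 491) (B (L (nat_lit 527) ln15_16_3 ln15_16_3_ok) (L (nat_lit 490) ln14_14_1 ln14_14_1_ok))))))))))))))) (M (nat_lit 463) (B (M (nat_lit 495) (B (L (nat_lit 496) ln12_14_0 ln12_14_0_ok) (L (nat_lit 494) ln11_14_0 ln11_14_0_ok))) (M (nat_lit 491) (B (L (nat_lit 492) ln15_14_1 ln15_14_1_ok) (L (nat_lit 490) ln14_14_1 ln14_14_1_ok))))))))) (M (nat_lit 458) (B (M (nat_lit 457) (B (M (nat_lit 489) (B (L (nat_lit 490) ln13_14_1 ln13_14_1_ok) (L (nat_lit 488) ln12_14_1 ln12_14_1_ok))) (M (nat_lit 425) (B (L (nat_lit 426) ln13_14_3 ln13_14_3_ok) (L (nat_lit 424) ln12_14_3 ln12_14_3_ok))))) (B (M (nat_lit 457) (B (M (nat_lit 493) (B (L (nat_lit 494) ln10_14_0 ln10_14_0_ok) (L (nat_lit 492) ln9_14_0 ln9_14_0_ok))) (M (nat_lit 425) (B (L (nat_lit 426) ln13_14_3 ln13_14_3_ok) (L (nat_lit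 424) ln12_14_3 ln12_14_3_ok))))) (M (nat_lit 462) (B (M (nat_lit 494) (B (L (nat_lit 495) ln11_14_0 ln11_14_0_ok) (L (nat_lit 493) ln10_14_0 ln10_14_0_ok))) (M (nat_lit 490) (B (L (nat_lit 491) ln14_14_1 ln14_14_1_ok) (L (nat_lit 489) ln13_14_1 ln13_14_1_ok))))))))))))))
noncomputable def c10_d154 : Cert := (B (M (nat_lit 397) (B (M (nat_lit 492) (B (L (nat_lit 365) ln13_11_5 ln13_11_5_ok) (M (nat_lit 524) (B (L (nat_lit 556) ln12_17_6 ln12_17_6_ok) (L (nat_lit 428) ln12_16_6 ln12_16_6_ok))))) (B (M (nat_lit 492) (B (L (nat_lit 365) ln13_11_5 ln13_11_5_ok) (M (nat_lit 524) (B (L (nat_lit 493) ln13_12_5 ln13_12_5_ok) (L (nat_lit 428) ln12_16_6 ln12_16_6_ok))))) (B (M (nat_lit 365) (B (L (nat_lit 492) ln13_11_5 ln13_11_5_ok) (M (nat_lit 333) (B (L (nat_lit 428) ln13_10_5 ln13_10_5_ok) (M (nat_lit 334) (B (L (nat_lit 366) ln13_14_6 ln13_14_6_ok) (L (nat_lit 302) ln13_13_6 ln13_13_6_ok)))))))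 (B (K (nat_lit 8931394245530752318453279615877870383916076788344359346718073079220588301748576755302629395442819045991425323706511628857462867223497408512) (nat_lit 219673525200899603263895176308591107190954672187779754808388884811640635986160953776388700323204087750414227012909658943804067699003198092327084551263861342208) (nat_lit 219673525200899603263895176308591107190954672187779754808388884811640635986160953776388700323204087750414227012909658943804067699003198092327084551263861342208) c10_s579) (B (M (nat_lit 492) (B (L (nat_lit 365) ln13_11_5 ln13_11_5_ok) (M (nat_lit 524) (B (L (nat_lit 556) ln12_17_6 ln12_17_6_ok) (L (nat_lit 493) ln13_12_5 ln13_12_5_ok))))) (M (nat_lit 493) (B (M (nat_lit 524) (B (L (nat_lit 492) ln13_12_5 ln13_12_5_ok) (M (nat_lit 525) (B (L (nat_lit 556) ln13_13_5 ln13_13_5_ok) (M (nat_lit 526) (B (L (nat_lit 558) ln13_13_4 ln13_13_4_ok) (L (nat_lit 494) ln13_12_4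 ln13_12_4_ok))))))) (B (M (nat_lit 525) (B (M (nat_lit 524) (B (L (nat_lit 556) ln13_13_5 ln13_13_5_ok) (L (nat_lit 492) ln13_12_5 ln13_12_5_ok))) (B (M (nat_lit 492) (B (L (nat_lit 524) ln13_12_5 ln13_12_5_ok) (M (nat_lit 557) (B (L (nat_lit 589) ln13_18_7 ln13_18_7_ok) (L (nat_lit 428) ln13_17_7 ln13_17_7_ok))))) (B (M (nat_lit 557) (B (L (nat_lit 428) ln13_17_7 ln13_17_7_ok) (M (nat_lit 589) (B (L (nat_lit 492) ln13_18_7 ln13_18_7_ok) (M (nat_lit 494) (B (L (nat_lit 462) ln13_18_6 ln13_18_6_ok) (L (nat_lit 526) ln13_12_4 ln13_12_4_ok))))))) (M (nat_lit 557) (B (L (nat_lit 428) ln13_17_7 ln13_17_7_ok) (M (nat_lit 556) (B (L (nat_lit 588) ln13_14_5 ln13_14_5_ok) (L (nat_lit 524) ln13_13_5 ln13_13_5_ok))))))))) (B (M (nat_lit 492) (B (L (nat_lit 524) ln13_12_5 ln13_12_5_ok) (M (nat_lit 525) (B (M (nat_lit 526) (B (L (nat_lit 558) ln13_13_4 ln13_13_4_ok) (L (nat_lit 494) ln13_12_4 ln13_12_4_ok)))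 (M (nat_lit 557) (B (L (nat_lit 589) ln13_18_7 ln13_18_7_ok) (L (nat_lit 428) ln13_17_7 ln13_17_7_ok))))))) (B (K (nat_lit 25573364133120002605008796824918897992570386368627520456182573159969118363632108261774124351598755623184121265737988378466021445622192500452626530304) (nat_lit 17404329755711281562548388113918199748473032958770695663963870055390261941337225976052677756561141459390819798849235302448045211394600012221290137436295358618219873640865411279934348853248) (nat_lit 17404329755711281562548388113918199748473032958770695663963870055390261941337225976052677756561141459390819798849235302448045211394600012221290137436295358618219873640865411279934348853248) c10_s583) (B (M (nat_lit 492) (B (L (nat_lit 524) ln13_12_5 ln13_12_5_ok) (M (nat_lit 494) (B (L (nat_lit 526) ln13_12_4 ln13_12_4_ok) (M (nat_lit 491) (B (M (nat_lit 462) (B (L (nat_lit 463) ln15_14_1 ln15_14_1_ok) (L (nat_lit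 490) ln10_15_2 ln10_15_2_ok))) (B (M (nat_lit 463) (B (L (nat_lit 462) ln15_14_1 ln15_14_1_ok) (M (nat_lit 495) (B (L (nat_lit 496) ln16_15_3 ln16_15_3_ok) (L (nat_lit 464) ln12_15_2 ln12_15_2_ok))))) (B (M (nat_lit 490) (B (L (nat_lit 462) ln10_15_2 ln10_15_2_ok) (L (nat_lit 489) ln9_15_2 ln9_15_2_ok))) (M (nat_lit 522) (B (L (nat_lit 523) ln14_15_1 ln14_15_1_ok) (M (nat_lit 490) (B (L (nat_lit 521) ln13_15_1 ln13_15_1_ok) (L (nat_lit 489) ln9_15_2 ln9_15_2_ok))))))))))))) (B (K (nat_lit 25573364133120002605008796824918897992570386368627520456182573159969118363632108261774124351598755623184121265737988378466021445622192500452626530304) (nat_lit 17404329754698216237878679291019790231755742268494882213918767532348389942032467476336711788891646660516283137491379632708117247309017758838306470231429577002896713728658713297013432123392) (nat_lit 17404329754698216237878679291019790231755742268494882213918767532348389942032467476336711788891646660516283137491379632708117247309017758838306470231429577002896713728658713297013432123392)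 c10_s584) (M (nat_lit 525) (B (M (nat_lit 526) (B (L (nat_lit 558) ln13_13_4 ln13_13_4_ok) (L (nat_lit 494) ln13_12_4 ln13_12_4_ok))) (M (nat_lit 557) (B (L (nat_lit 428) ln13_17_7 ln13_17_7_ok) (M (nat_lit 556) (B (L (nat_lit 588) ln13_14_5 ln13_14_5_ok) (L (nat_lit 524) ln13_13_5 ln13_13_5_ok)))))))))))))))))))) (B (M (nat_lit 459) (B (M (nat_lit 492) (B (M (nat_lit 524) (B (L (nat_lit 556) ln12_17_6 ln12_17_6_ok) (M (nat_lit 397) (B (L (nat_lit 493) ln13_12_5 ln13_12_5_ok) (L (nat_lit 365) ln13_11_5 ln13_11_5_ok))))) (B (M (nat_lit 493) (B (M (nat_lit 397) (B (L (nat_lit 524) ln13_12_5 ln13_12_5_ok) (L (nat_lit 365) ln13_11_5 ln13_11_5_ok))) (M (nat_lit 494) (B (L (nat_lit 495) ln15_15_3 ln15_15_3_ok) (L (nat_lit 458) ln10_14_0 ln10_14_0_ok))))) (B (M (nat_lit 462) (B (M (nat_lit 491) (B (L (nat_lit 463) ln15_14_1 ln15_14_1_ok) (L (nat_lit 490) ln14_14_1 ln14_14_1_ok))) (M (nat_lit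 494) (B (L (nat_lit 495) ln11_14_0 ln11_14_0_ok) (M (nat_lit 458) (B (L (nat_lit 493) ln10_14_0 ln10_14_0_ok) (M (nat_lit 426) (B (L (nat_lit 427) ln14_14_3 ln14_14_3_ok) (L (nat_lit 425) ln13_14_3 ln13_14_3_ok))))))))) (K (nat_lit 12786682072514264132627177483208322728017898088921066232450717156508874425244644604713757080855150828423152788804442826175882440718218651476871348224) (nat_lit 235872651606264715805732050614662600040669204503950748741930241108999791495220974800605687968376726848894620961541617364744575362612807871637940680783470598731119722496) (nat_lit 235872651606264715805732050614662600040669204503950748741930241108999791495220974800605687968376726848894620961541617364744575362612807871637940680783470598731119722496) c10_s588))))) (B (M (nat_lit 462) (B (M (nat_lit 458) (B (M (nat_lit 490) (B (L (nat_lit 491) ln14_14_1 ln14_14_1_ok) (L (nat_lit 489) ln13_14_1 ln13_14_1_ok)))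 (M (nat_lit 426) (B (L (nat_lit 427) ln14_14_3 ln14_14_3_ok) (L (nat_lit 425) ln13_14_3 ln13_14_3_ok))))) (B (M (nat_lit 458) (B (M (nat_lit 494) (B (L (nat_lit 495) ln11_14_0 ln11_14_0_ok) (L (nat_lit 493) ln10_14_0 ln10_14_0_ok))) (M (nat_lit 426) (B (L (nat_lit 427) ln14_14_3 ln14_14_3_ok) (L (nat_lit 425) ln13_14_3 ln13_14_3_ok))))) (M (nat_lit 463) (B (M (nat_lit 495) (B (L (nat_lit 496) ln12_14_0 ln12_14_0_ok) (L (nat_lit 494) ln11_14_0 ln11_14_0_ok))) (M (nat_lit 491) (B (L (nat_lit 492) ln15_14_1 ln15_14_1_ok) (L (nat_lit 490) ln14_14_1 ln14_14_1_ok)))))))) (B (M (nat_lit 492) (B (M (nat_lit 524) (B (L (nat_lit 556) ln12_17_6 ln12_17_6_ok) (M (nat_lit 397) (B (L (nat_lit 493) ln13_12_5 ln13_12_5_ok) (L (nat_lit 365) ln13_11_5 ln13_11_5_ok))))) (B (M (nat_lit 493) (B (M (nat_lit 397) (B (L (nat_lit 524) ln13_12_5 ln13_12_5_ok) (L (nat_lit 365) ln13_11_5 ln13_11_5_ok))) (M (nat_lit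 458) (B (L (nat_lit 494) ln10_14_0 ln10_14_0_ok) (L (nat_lit 457) ln9_14_0 ln9_14_0_ok))))) (B (M (nat_lit 458) (B (M (nat_lit 493) (B (L (nat_lit 494) ln10_14_0 ln10_14_0_ok) (L (nat_lit 457) ln9_14_0 ln9_14_0_ok))) (M (nat_lit 462) (B (M (nat_lit 491) (B (L (nat_lit 463) ln15_14_1 ln15_14_1_ok) (L (nat_lit 490) ln14_14_1 ln14_14_1_ok))) (M (nat_lit 426) (B (L (nat_lit 427) ln14_14_3 ln14_14_3_ok) (L (nat_lit 425) ln13_14_3 ln13_14_3_ok))))))) (K (nat_lit 12786682072514264132627177483208322728017898088921066232450717156508874425244644604713757080855150828423152788804442826175882440718218651476871348224) (nat_lit 235872651606264715805732050614662600040669204503950748741930241108999791495220974800605687968376726848894620961541617364744575362612807871637940680783470598731119722496) (nat_lit 235872651606264715805732050614662600040669204503950748741930241108999791495220974800605687968376726848894620961541617364744575362612807871637940680783470598731119722496)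 c10_s588))))) (B (K (nat_lit 10419959952888155229975513539671640096565344398531610249883351783038884624700983282707087714552501678931161298796127532335853834862306787328) (nat_lit 235872651606264715846489599687960336040426688664414363054258613717578471777302874775727136381367748881368295835311792622013858559033376290574173331232028662717510320128) (nat_lit 235872651606264715846489599687960336040426688664414363054258613717578471777302874775727136381367748881368295835311792622013858559033376290574173331232028662717510320128) c10_s587) (B (K (nat_lit 10419959952888155229975513539671640096565344398531610249883351783038884624700983282707087714552501678931161298796127532335853834862306787328) (nat_lit 58968162956484560254854583985721232272779628103692054904188317666370149689370790648874999986800204441629442267742888455423585000743405517847613835379435491020807077888) (nat_lit 58968162956484560254854583985721232272779628103692054904188317666370149689370790648874999986800204441629442267742888455423585000743405517847613835379435491020807077888)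 c10_s589) (B (K (nat_lit 10419959952888155229975513539671640096565344398531610249883351783038884624700983282707087714552501678931161298796127532335853834862306787328) (nat_lit 191001063315558618624878764845868535870988960840839383320676313997504255847071176896139451264858979897633488050011664916035954917599593471512248582144) (nat_lit 191001063315558618624878764845868535870988960840839383320676313997504255847071176896139451264858979897633488050011664916035954917599593471512248582144) c10_s591) c10_d152))))))) (M (nat_lit 459) (B (M (nat_lit 458) (B (M (nat_lit 457) (B (L (nat_lit 428) ln9_14_2 ln9_14_2_ok) (M (nat_lit 489) (B (L (nat_lit 490) ln13_14_1 ln13_14_1_ok) (L (nat_lit 488) ln12_14_1 ln12_14_1_ok))))) (B (M (nat_lit 457) (B (L (nat_lit 428) ln9_14_2 ln9_14_2_ok) (M (nat_lit 493) (B (L (nat_lit 494) ln10_14_0 ln10_14_0_ok) (L (nat_lit 492) ln9_14_0 ln9_14_0_ok))))) (M (nat_lit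 462) (B (M (nat_lit 494) (B (L (nat_lit 495) ln11_14_0 ln11_14_0_ok) (L (nat_lit 493) ln10_14_0 ln10_14_0_ok))) (M (nat_lit 490) (B (L (nat_lit 491) ln14_14_1 ln14_14_1_ok) (L (nat_lit 489) ln13_14_1 ln13_14_1_ok)))))))) c10_d153))))
noncomputable def c10_d155 : Cert := (B (M (nat_lit 459) (B (K (nat_lit 10419959952888155229975513539671640096565344398531610249883351783038884624700983282707087714552501678931161298796127532335853834862306787328) (nat_lit 11987514446238360109225620724139410949035952493895048571667926573590892999983157071114273417737502709204366113311758427243734002986836931865588269056) (nat_lit 11987514446238360109225620724139410949035952493895048571667926573590892999983157071114273417737502709204366113311758427243734002986836931865588269056) c10_s585) (B (K (nat_lit 10419959952888155229975513539671640096565344398531610249883351783038884624700983282707087714552501678931161298796127532335853834862306787328)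 (nat_lit 58968162901566178954629683173096711038095790101149453957217873651270739584581879421991977170052227840042197093365644089798943946624112941727066553831810429946706264064) (nat_lit 58968162901566178954629683173096711038095790101149453957217873651270739584581879421991977170052227840042197093365644089798943946624112941727066553831810429946706264064) c10_s586) (B (M (nat_lit 492) (B (M (nat_lit 524) (B (L (nat_lit 556) ln12_17_6 ln12_17_6_ok) (M (nat_lit 397) (B (L (nat_lit 428) ln12_16_6 ln12_16_6_ok) (L (nat_lit 365) ln13_11_5 ln13_11_5_ok))))) (B (M (nat_lit 427) (B (M (nat_lit 462) (B (L (nat_lit 426) ln14_14_3 ln14_14_3_ok) (M (nat_lit 463) (B (L (nat_lit 491) ln15_14_1 ln15_14_1_ok) (L (nat_lit 428) ln15_14_3 ln15_14_3_ok))))) (B (M (nat_lit 426) (B (L (nat_lit 462) ln14_14_3 ln14_14_3_ok) (M (nat_lit 425) (B (L (nat_lit 458) ln13_14_3 ln13_14_3_ok) (L (nat_lit 424) ln8_13_0 ln8_13_0_ok)))))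 (M (nat_lit 395) (B (L (nat_lit 363) ln11_11_4 ln11_11_4_ok) (M (nat_lit 524) (B (L (nat_lit 491) ln11_12_4 ln11_12_4_ok) (L (nat_lit 428) ln12_16_7 ln12_16_7_ok)))))))) (B (M (nat_lit 458) (B (M (nat_lit 457) (B (L (nat_lit 428) ln9_14_2 ln9_14_2_ok) (M (nat_lit 425) (B (L (nat_lit 426) ln13_14_3 ln13_14_3_ok) (L (nat_lit 424) ln12_14_3 ln12_14_3_ok))))) (B (M (nat_lit 462) (B (M (nat_lit 426) (B (L (nat_lit 427) ln14_14_3 ln14_14_3_ok) (L (nat_lit 425) ln13_14_3 ln13_14_3_ok))) (M (nat_lit 463) (B (L (nat_lit 491) ln15_14_1 ln15_14_1_ok) (M (nat_lit 495) (B (L (nat_lit 496) ln12_14_0 ln12_14_0_ok) (L (nat_lit 494) ln11_14_0 ln11_14_0_ok))))))) (M (nat_lit 457) (B (L (nat_lit 428) ln9_14_2 ln9_14_2_ok) (M (nat_lit 456) (B (L (nat_lit 491) ln8_14_0 ln8_14_0_ok) (M (nat_lit 488) (B (L (nat_lit 489) ln12_14_1 ln12_14_1_ok) (L (nat_lit 487) ln11_14_1 ln11_14_1_ok)))))))))) (M (nat_lit 427)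 (B (M (nat_lit 524) (B (L (nat_lit 556) ln12_17_6 ln12_17_6_ok) (M (nat_lit 395) (B (L (nat_lit 491) ln11_12_4 ln11_12_4_ok) (L (nat_lit 363) ln11_11_4 ln11_11_4_ok))))) (M (nat_lit 426) (B (L (nat_lit 462) ln14_14_3 ln14_14_3_ok) (M (nat_lit 425) (B (L (nat_lit 458) ln13_14_3 ln13_14_3_ok) (L (nat_lit 424) ln8_13_0 ln8_13_0_ok))))))))))) (B (M (nat_lit 492) (B (M (nat_lit 524) (B (L (nat_lit 556) ln12_17_6 ln12_17_6_ok) (M (nat_lit 397) (B (L (nat_lit 428) ln12_16_6 ln12_16_6_ok) (L (nat_lit 365) ln13_11_5 ln13_11_5_ok))))) (B (M (nat_lit 427) (B (M (nat_lit 395) (B (L (nat_lit 363) ln11_11_4 ln11_11_4_ok) (M (nat_lit 524) (B (L (nat_lit 491) ln11_12_4 ln11_12_4_ok) (L (nat_lit 428) ln12_16_7 ln12_16_7_ok))))) (B (M (nat_lit 462) (B (L (nat_lit 426) ln14_14_3 ln14_14_3_ok) (M (nat_lit 463) (B (L (nat_lit 491) ln15_14_1 ln15_14_1_ok) (L (nat_lit 428) ln15_14_3 ln15_14_3_ok))))) (B (M (nat_lit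 428) (B (M (nat_lit 397) (B (L (nat_lit 524) ln12_16_6 ln12_16_6_ok) (L (nat_lit 365) ln13_11_5 ln13_11_5_ok))) (M (nat_lit 426) (B (L (nat_lit 462) ln10_13_0 ln10_13_0_ok) (L (nat_lit 425) ln9_13_0 ln9_13_0_ok))))) (M (nat_lit 462) (B (L (nat_lit 426) ln14_14_3 ln14_14_3_ok) (M (nat_lit 491) (B (L (nat_lit 463) ln15_14_1 ln15_14_1_ok) (L (nat_lit 490) ln14_14_1 ln14_14_1_ok))))))))) (B (M (nat_lit 458) (B (M (nat_lit 457) (B (L (nat_lit 428) ln9_14_2 ln9_14_2_ok) (M (nat_lit 425) (B (L (nat_lit 426) ln13_14_3 ln13_14_3_ok) (L (nat_lit 424) ln12_14_3 ln12_14_3_ok))))) (B (M (nat_lit 462) (B (M (nat_lit 491) (B (L (nat_lit 463) ln15_14_1 ln15_14_1_ok) (L (nat_lit 490) ln14_14_1 ln14_14_1_ok))) (M (nat_lit 426) (B (L (nat_lit 427) ln14_14_3 ln14_14_3_ok) (L (nat_lit 425) ln13_14_3 ln13_14_3_ok))))) (M (nat_lit 491) (B (M (nat_lit 457) (B (L (nat_lit 456) ln8_14_0 ln8_14_0_ok) (L (nat_lit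 428) ln9_14_2 ln9_14_2_ok))) (M (nat_lit 462) (B (L (nat_lit 463) ln15_14_1 ln15_14_1_ok) (L (nat_lit 490) ln14_14_1 ln14_14_1_ok)))))))) (K (nat_lit 12786682072514264132627177483208322728017898088921066232450717156508874425244644604713757080855150828423152788804442826175882440718218651476871348224) (nat_lit 235872651606264715805732050614662600040669204503950748741930241108999791495220974800605687968376726848894620961541617364744575362612807871637940680783470598731119722496) (nat_lit 235872651606264715805732050614662600040669204503950748741930241108999791495220974800605687968376726848894620961541617364744575362612807871637940680783470598731119722496) c10_s588))))) c10_d148))))) (B (M (nat_lit 459) c10_d151) (B (M (nat_lit 397) (B (M (nat_lit 492) (B (L (nat_lit 365) ln13_11_5 ln13_11_5_ok) (M (nat_lit 524) (B (L (nat_lit 556) ln12_17_6 ln12_17_6_ok) (L (nat_lit 428) ln12_16_6 ln12_16_6_ok)))))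 (B (M (nat_lit 492) (B (L (nat_lit 365) ln13_11_5 ln13_11_5_ok) (M (nat_lit 524) (B (L (nat_lit 493) ln13_12_5 ln13_12_5_ok) (L (nat_lit 428) ln12_16_6 ln12_16_6_ok))))) (B (M (nat_lit 365) (B (L (nat_lit 492) ln13_11_5 ln13_11_5_ok) (M (nat_lit 333) (B (L (nat_lit 428) ln13_10_5 ln13_10_5_ok) (M (nat_lit 334) (B (L (nat_lit 366) ln13_14_6 ln13_14_6_ok) (L (nat_lit 302) ln13_13_6 ln13_13_6_ok))))))) (B (M (nat_lit 365) (B (M (nat_lit 333) (B (L (nat_lit 428) ln13_10_5 ln13_10_5_ok) (M (nat_lit 334) (B (L (nat_lit 366) ln13_14_6 ln13_14_6_ok) (L (nat_lit 302) ln13_13_6 ln13_13_6_ok))))) (B (M (nat_lit 333) (B (M (nat_lit 334) (B (L (nat_lit 366) ln13_14_6 ln13_14_6_ok) (L (nat_lit 302) ln13_13_6 ln13_13_6_ok))) (M (nat_lit 332) (B (L (nat_lit 364) ln13_14_7 ln13_14_7_ok) (L (nat_lit 300) ln13_13_7 ln13_13_7_ok))))) (B (M (nat_lit 333) (B (L (nat_lit 428) ln13_10_5 ln13_10_5_ok) (M (nat_lit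 332) (B (L (nat_lit 364) ln13_14_7 ln13_14_7_ok) (L (nat_lit 300) ln13_13_7 ln13_13_7_ok))))) (M (nat_lit 493) (B (M (nat_lit 366) (B (L (nat_lit 398) ln13_15_6 ln13_15_6_ok) (L (nat_lit 334) ln13_14_6 ln13_14_6_ok))) (M (nat_lit 525) (B (M (nat_lit 526) (B (L (nat_lit 558) ln13_13_4 ln13_13_4_ok) (L (nat_lit 494) ln13_12_4 ln13_12_4_ok))) (M (nat_lit 557) (B (L (nat_lit 428) ln13_17_7 ln13_17_7_ok) (M (nat_lit 556) (B (L (nat_lit 588) ln13_14_5 ln13_14_5_ok) (L (nat_lit 524) ln13_13_5 ln13_13_5_ok))))))))))))) (B (M (nat_lit 492) (B (L (nat_lit 365) ln13_11_5 ln13_11_5_ok) (M (nat_lit 524) (B (L (nat_lit 556) ln12_17_6 ln12_17_6_ok) (L (nat_lit 493) ln13_12_5 ln13_12_5_ok))))) (M (nat_lit 493) (B (M (nat_lit 524) (B (L (nat_lit 492) ln13_12_5 ln13_12_5_ok) (M (nat_lit 525) (B (L (nat_lit 556) ln13_13_5 ln13_13_5_ok) (M (nat_lit 526) (B (L (nat_lit 558) ln13_13_4 ln13_13_4_ok) (L (nat_lit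 494) ln13_12_4 ln13_12_4_ok))))))) (B (M (nat_lit 492) (B (L (nat_lit 524) ln13_12_5 ln13_12_5_ok) (M (nat_lit 494) (B (L (nat_lit 526) ln13_12_4 ln13_12_4_ok) (M (nat_lit 459) (B (L (nat_lit 495) ln15_15_3 ln15_15_3_ok) (L (nat_lit 458) ln10_14_0 ln10_14_0_ok))))))) (B (K (nat_lit 25573364133120002605008796824918897992570386368627520456182573159969118363632108261774124351598755623184121265737988378466021445622192500452626530304) (nat_lit 17404329755711281562548388113918199748473032958770695663963870055390261941337225976052677756561141459390819798849235302448045211394600012221290137436295358618219873640865411279934348853248) (nat_lit 17404329755711281562548388113918199748473032958770695663963870055390261941337225976052677756561141459390819798849235302448045211394600012221290137436295358618219873640865411279934348853248) c10_s583) (B (M (nat_lit 525) (B (M (nat_lit 526) (B (L (nat_lit 558)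 ln13_13_4 ln13_13_4_ok) (L (nat_lit 494) ln13_12_4 ln13_12_4_ok))) (M (nat_lit 557) (B (L (nat_lit 428) ln13_17_7 ln13_17_7_ok) (M (nat_lit 589) (B (L (nat_lit 492) ln13_18_7 ln13_18_7_ok) (M (nat_lit 588) (B (L (nat_lit 620) ln13_15_5_c10 ln13_15_5_c10_ok) (L (nat_lit 556) ln13_14_5 ln13_14_5_ok))))))))) (M (nat_lit 525) (B (M (nat_lit 526) (B (L (nat_lit 558) ln13_13_4 ln13_13_4_ok) (L (nat_lit 494) ln13_12_4 ln13_12_4_ok))) (M (nat_lit 557) (B (L (nat_lit 428) ln13_17_7 ln13_17_7_ok) (M (nat_lit 556) (B (L (nat_lit 588) ln13_14_5 ln13_14_5_ok) (L (nat_lit 524) ln13_13_5 ln13_13_5_ok)))))))))))))))))) c10_d154)))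
noncomputable def c10_d156 : Cert := (B (M (nat_lit 462) (B (M (nat_lit 463) (B (M (nat_lit 428) (B (L (nat_lit 464) ln16_14_3 ln16_14_3_ok) (L (nat_lit 427) ln15_14_3 ln15_14_3_ok))) (M (nat_lit 495) (B (L (nat_lit 496) ln12_14_0 ln12_14_0_ok) (M (nat_lit 459) (B (L (nat_lit 494) ln11_14_0 ln11_14_0_ok) (M (nat_lit 491) (B (L (nat_lit 492) ln15_14_1 ln15_14_1_ok) (L (nat_lit 490) ln14_14_1 ln14_14_1_ok))))))))) (B (M (nat_lit 459) (B (M (nat_lit 494) (B (L (nat_lit 495) ln11_14_0 ln11_14_0_ok) (M (nat_lit 490) (B (L (nat_lit 491) ln14_14_1 ln14_14_1_ok) (M (nat_lit 458) (B (L (nat_lit 493) ln10_14_0 ln10_14_0_ok) (L (nat_lit 489) ln13_14_1 ln13_14_1_ok))))))) (B (M (nat_lit 458) (B (M (nat_lit 490) (B (L (nat_lit 491) ln14_14_1 ln14_14_1_ok) (L (nat_lit 489) ln13_14_1 ln13_14_1_ok))) (M (nat_lit 426) (B (L (nat_lit 427) ln14_14_3 ln14_14_3_ok) (L (nat_lit 425) ln13_14_3 ln13_14_3_ok)))))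 (B (M (nat_lit 458) (B (M (nat_lit 494) (B (L (nat_lit 495) ln11_14_0 ln11_14_0_ok) (L (nat_lit 493) ln10_14_0 ln10_14_0_ok))) (M (nat_lit 426) (B (L (nat_lit 427) ln14_14_3 ln14_14_3_ok) (L (nat_lit 425) ln13_14_3 ln13_14_3_ok))))) (M (nat_lit 463) (B (M (nat_lit 491) (B (L (nat_lit 492) ln15_14_1 ln15_14_1_ok) (L (nat_lit 490) ln14_14_1 ln14_14_1_ok))) (M (nat_lit 427) (B (L (nat_lit 428) ln15_14_3 ln15_14_3_ok) (L (nat_lit 426) ln14_14_3 ln14_14_3_ok))))))))) (B (K (nat_lit 20839919904389975612890619649554073101059146945345001962078795278492529459094655911511362617585016154810252808543559459191005883810126495744) (nat_lit 47950057805793360374564494838898041760638853286356345673253953160952166180470912710927205276128880930882173481306961454687190002675196473220169465856) (nat_lit 47950057805793360374564494838898041760638853286356345673253953160952166180470912710927205276128880930882173481306961454687190002675196473220169465856)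 c10_s582) (B (M (nat_lit 463) (B (M (nat_lit 428) (B (L (nat_lit 464) ln16_14_3 ln16_14_3_ok) (L (nat_lit 427) ln15_14_3 ln15_14_3_ok))) (B (M (nat_lit 459) (B (M (nat_lit 495) (B (L (nat_lit 496) ln12_14_0 ln12_14_0_ok) (L (nat_lit 494) ln11_14_0 ln11_14_0_ok))) (M (nat_lit 427) (B (L (nat_lit 428) ln15_14_3 ln15_14_3_ok) (L (nat_lit 426) ln14_14_3 ln14_14_3_ok))))) (M (nat_lit 464) (B (M (nat_lit 496) (B (L (nat_lit 497) ln13_14_0 ln13_14_0_ok) (L (nat_lit 495) ln12_14_0 ln12_14_0_ok))) (M (nat_lit 432) (B (L (nat_lit 433) ln13_14_2 ln13_14_2_ok) (L (nat_lit 431) ln12_14_2 ln12_14_2_ok)))))))) (B (K (nat_lit 20839919904389975612890619649554073101059146945345001962078795278492529459094655911511362617585016154810252808543559459191005883810126495744) (nat_lit 943490606425058863374770051802373671535095469937249305598488680766991671951472311681122994041828421171236355251387635784969780786904480632339255049935645385903986180096)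 (nat_lit 943490606425058863374770051802373671535095469937249305598488680766991671951472311681122994041828421171236355251387635784969780786904480632339255049935645385903986180096) c10_s581) (B (M (nat_lit 463) (B (M (nat_lit 428) (B (L (nat_lit 464) ln16_14_3 ln16_14_3_ok) (L (nat_lit 427) ln15_14_3 ln15_14_3_ok))) (B (M (nat_lit 397) (B (M (nat_lit 492) (B (L (nat_lit 491) ln15_14_1 ln15_14_1_ok) (L (nat_lit 365) ln13_11_5 ln13_11_5_ok))) (B (M (nat_lit 494) (B (L (nat_lit 365) ln13_11_4 ln13_11_4_ok) (M (nat_lit 526) (B (L (nat_lit 558) ln14_17_7 ln14_17_7_ok) (L (nat_lit 493) ln13_12_4 ln13_12_4_ok))))) (M (nat_lit 431) (B (L (nat_lit 432) ln12_14_2 ln12_14_2_ok) (M (nat_lit 399) (B (M (nat_lit 494) (B (L (nat_lit 367) ln15_11_5 ln15_11_5_ok) (M (nat_lit 526) (B (L (nat_lit 558) ln14_17_6_c10 ln14_17_6_c10_ok) (L (nat_lit 493) ln13_12_4 ln13_12_4_ok))))) (B (M (nat_lit 494) (B (L (nat_lit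 367) ln15_11_5 ln15_11_5_ok) (M (nat_lit 526) (B (L (nat_lit 495) ln15_12_5 ln15_12_5_ok) (L (nat_lit 493) ln13_12_4 ln13_12_4_ok))))) (M (nat_lit 398) (B (M (nat_lit 495) (B (L (nat_lit 496) ln12_14_0 ln12_14_0_ok) (L (nat_lit 366) ln15_15_7 ln15_15_7_ok))) (M (nat_lit 428) (B (L (nat_lit 427) ln15_14_3 ln15_14_3_ok) (L (nat_lit 400) ln16_12_1 ln16_12_1_ok))))))))))))) (M (nat_lit 464) (B (M (nat_lit 492) (B (L (nat_lit 493) ln16_14_1 ln16_14_1_ok) (L (nat_lit 491) ln15_14_1 ln15_14_1_ok))) (M (nat_lit 432) (B (L (nat_lit 433) ln13_14_2 ln13_14_2_ok) (L (nat_lit 431) ln12_14_2 ln12_14_2_ok)))))))) (M (nat_lit 463) (B (M (nat_lit 432) (B (L (nat_lit 431) ln12_14_2 ln12_14_2_ok) (M (nat_lit 464) (B (L (nat_lit 433) ln13_14_2 ln13_14_2_ok) (L (nat_lit 428) ln16_14_3 ln16_14_3_ok))))) (M (nat_lit 495) (B (L (nat_lit 496) ln12_14_0 ln12_14_0_ok) (M (nat_lit 459) (B (L (nat_lit 494) ln11_14_0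 ln11_14_0_ok) (M (nat_lit 491) (B (L (nat_lit 492) ln15_14_1 ln15_14_1_ok) (L (nat_lit 490) ln14_14_1 ln14_14_1_ok)))))))))))))))) (B (M (nat_lit 462) (B (M (nat_lit 492) (B (M (nat_lit 397) (B (L (nat_lit 365) ln13_11_5 ln13_11_5_ok) (M (nat_lit 524) (B (L (nat_lit 556) ln12_17_6 ln12_17_6_ok) (L (nat_lit 428) ln12_16_6 ln12_16_6_ok))))) (B (M (nat_lit 397) (B (L (nat_lit 365) ln13_11_5 ln13_11_5_ok) (M (nat_lit 524) (B (L (nat_lit 493) ln13_12_5 ln13_12_5_ok) (L (nat_lit 428) ln12_16_6 ln12_16_6_ok))))) (B (M (nat_lit 463) (B (L (nat_lit 491) ln15_14_1 ln15_14_1_ok) (M (nat_lit 464) (B (L (nat_lit 493) ln16_14_1 ln16_14_1_ok) (L (nat_lit 428) ln16_14_3 ln16_14_3_ok))))) (M (nat_lit 524) (B (L (nat_lit 556) ln12_17_6 ln12_17_6_ok) (M (nat_lit 397) (B (L (nat_lit 493) ln13_12_5 ln13_12_5_ok) (L (nat_lit 365) ln13_11_5 ln13_11_5_ok))))))))) (B (K (nat_lit 20839919904389975612890619649554073101059146945345001962078795278492529459094655911511362617585016154810252808543559459191005883810126495744)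 (nat_lit 54918381330593270781921789043334947873611432423788512996043899049508503094921164420449966249939986008157323979227559704362566227714051077048768203639173939200) (nat_lit 54918381330593270781921789043334947873611432423788512996043899049508503094921164420449966249939986008157323979227559704362566227714051077048768203639173939200) c10_s580) (B (K (nat_lit 20839919904389975612890619649554073101059146945345001962078795278492529459094655911511362617585016154810252808543559459191005883810126495744) (nat_lit 47950057805793360374564494838898041760638853286356345673253953160952166180470912710927205276128880930882173481306961454687190002675196473220169465856) (nat_lit 47950057805793360374564494838898041760638853286356345673253953160952166180470912710927205276128880930882173481306961454687190002675196473220169465856) c10_s582) (B (M (nat_lit 492) (B (M (nat_lit 397) (B (L (nat_lit 365) ln13_11_5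 ln13_11_5_ok) (M (nat_lit 524) (B (L (nat_lit 556) ln12_17_6 ln12_17_6_ok) (L (nat_lit 428) ln12_16_6 ln12_16_6_ok))))) (M (nat_lit 491) (B (L (nat_lit 463) ln15_14_1 ln15_14_1_ok) (M (nat_lit 490) (B (L (nat_lit 489) ln9_15_2 ln9_15_2_ok) (L (nat_lit 459) ln14_14_1 ln14_14_1_ok))))))) (B (K (nat_lit 20839919904389975612890619649554073101059146945345001962078795278492529459094655911511362617585016154810252808543559459191005883810126495744) (nat_lit 943490606425058863374770051802373671535095469937249305598488680766991671951472311681122994041828421171236355251387635784969780786904480632339255049935645385903986180096) (nat_lit 943490606425058863374770051802373671535095469937249305598488680766991671951472311681122994041828421171236355251387635784969780786904480632339255049935645385903986180096) c10_s581) (M (nat_lit 459) (B (M (nat_lit 494) (B (L (nat_lit 495) ln11_14_0 ln11_14_0_ok) (M (nat_lit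 526) (B (L (nat_lit 558) ln14_17_7 ln14_17_7_ok) (M (nat_lit 397) (B (L (nat_lit 493) ln13_12_4 ln13_12_4_ok) (L (nat_lit 365) ln13_11_4 ln13_11_4_ok))))))) (B (M (nat_lit 458) (B (M (nat_lit 494) (B (L (nat_lit 495) ln11_14_0 ln11_14_0_ok) (L (nat_lit 493) ln10_14_0 ln10_14_0_ok))) (M (nat_lit 426) (B (L (nat_lit 427) ln14_14_3 ln14_14_3_ok) (L (nat_lit 425) ln13_14_3 ln13_14_3_ok))))) (M (nat_lit 458) (B (M (nat_lit 426) (B (L (nat_lit 427) ln14_14_3 ln14_14_3_ok) (L (nat_lit 425) ln13_14_3 ln13_14_3_ok))) (M (nat_lit 489) (B (L (nat_lit 490) ln13_14_1 ln13_14_1_ok) (M (nat_lit 457) (B (L (nat_lit 488) ln12_14_1 ln12_14_1_ok) (L (nat_lit 428) ln9_14_2 ln9_14_2_ok)))))))))))))))) (B (M (nat_lit 397) c10_d146) (B (M (nat_lit 459) (B (K (nat_lit 10419959952888155229975513539671640096565344398531610249883351783038884624700983282707087714552501678931161298796127532335853834862306787328) (nat_lit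 11987514446238360109225620724139410949035952493895048571667926573590892999983157071114273417737502709204366113311758427243734002986836931865588269056) (nat_lit 11987514446238360109225620724139410949035952493895048571667926573590892999983157071114273417737502709204366113311758427243734002986836931865588269056) c10_s585) (B (K (nat_lit 10419959952888155229975513539671640096565344398531610249883351783038884624700983282707087714552501678931161298796127532335853834862306787328) (nat_lit 58968162901566178954629683173096711038095790101149453957217873651270739584581879421991977170052227840042197093365644089798943946624112941727066553831810429946706264064) (nat_lit 58968162901566178954629683173096711038095790101149453957217873651270739584581879421991977170052227840042197093365644089798943946624112941727066553831810429946706264064) c10_s586) c10_d147))) c10_d155))))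
noncomputable def c10_d157 : Cert := (B (M (nat_lit 397) (B (M (nat_lit 492) (B (L (nat_lit 365) ln13_11_5 ln13_11_5_ok) (M (nat_lit 524) (B (L (nat_lit 556) ln12_17_6 ln12_17_6_ok) (L (nat_lit 428) ln12_16_6 ln12_16_6_ok))))) (B (M (nat_lit 492) (B (L (nat_lit 365) ln13_11_5 ln13_11_5_ok) (M (nat_lit 524) (B (L (nat_lit 493) ln13_12_5 ln13_12_5_ok) (L (nat_lit 428) ln12_16_6 ln12_16_6_ok))))) (B (M (nat_lit 365) (B (L (nat_lit 492) ln13_11_5 ln13_11_5_ok) (M (nat_lit 333) (B (L (nat_lit 428) ln13_10_5 ln13_10_5_ok) (M (nat_lit 334) (B (L (nat_lit 366) ln13_14_6 ln13_14_6_ok) (L (nat_lit 302) ln13_13_6 ln13_13_6_ok))))))) (B (K (nat_lit 8931394245530752318453279615877870383916076788344359346718073079220588301748576755302629395442819045991425323706511628857462867223497408512) (nat_lit 219673525200899603263895176308591107190954672187779754808388884811640635986160953776388700323204087750414227012909658943804067699003198092327084551263861342208)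 (nat_lit 219673525200899603263895176308591107190954672187779754808388884811640635986160953776388700323204087750414227012909658943804067699003198092327084551263861342208) c10_s579) (B (M (nat_lit 492) (B (L (nat_lit 365) ln13_11_5 ln13_11_5_ok) (M (nat_lit 524) (B (L (nat_lit 556) ln12_17_6 ln12_17_6_ok) (L (nat_lit 493) ln13_12_5 ln13_12_5_ok))))) (M (nat_lit 493) (B (M (nat_lit 492) (B (L (nat_lit 524) ln13_12_5 ln13_12_5_ok) (M (nat_lit 494) (B (L (nat_lit 526) ln13_12_4 ln13_12_4_ok) (M (nat_lit 495) (B (L (nat_lit 496) ln16_15_3 ln16_15_3_ok) (L (nat_lit 459) ln15_15_3 ln15_15_3_ok))))))) (B (M (nat_lit 525) (B (M (nat_lit 524) (B (L (nat_lit 556) ln13_13_5 ln13_13_5_ok) (L (nat_lit 492) ln13_12_5 ln13_12_5_ok))) (B (M (nat_lit 492) (B (L (nat_lit 524) ln13_12_5 ln13_12_5_ok) (M (nat_lit 557) (B (L (nat_lit 589) ln13_18_7 ln13_18_7_ok) (L (nat_lit 428) ln13_17_7 ln13_17_7_ok))))) (B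 (M (nat_lit 557) (B (L (nat_lit 428) ln13_17_7 ln13_17_7_ok) (M (nat_lit 589) (B (L (nat_lit 492) ln13_18_7 ln13_18_7_ok) (M (nat_lit 588) (B (L (nat_lit 620) ln13_15_5_c10 ln13_15_5_c10_ok) (L (nat_lit 556) ln13_14_5 ln13_14_5_ok))))))) (M (nat_lit 557) (B (L (nat_lit 428) ln13_17_7 ln13_17_7_ok) (M (nat_lit 556) (B (L (nat_lit 588) ln13_14_5 ln13_14_5_ok) (L (nat_lit 524) ln13_13_5 ln13_13_5_ok))))))))) (B (M (nat_lit 494) (B (L (nat_lit 526) ln13_12_4 ln13_12_4_ok) (M (nat_lit 495) (B (L (nat_lit 496) ln16_15_3 ln16_15_3_ok) (M (nat_lit 459) (B (L (nat_lit 492) ln15_15_3 ln15_15_3_ok) (L (nat_lit 458) ln10_14_0 ln10_14_0_ok))))))) (M (nat_lit 494) (B (L (nat_lit 526) ln13_12_4 ln13_12_4_ok) (M (nat_lit 495) (B (L (nat_lit 496) ln16_15_3 ln16_15_3_ok) (M (nat_lit 459) (B (L (nat_lit 462) ln11_14_0 ln11_14_0_ok) (L (nat_lit 458) ln10_14_0 ln10_14_0_ok))))))))))))))))) (B (M (nat_lit 462)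 (B (K (nat_lit 20839919904389975612890619649554073101059146945345001962078795278492529459094655911511362617585016154810252808543559459191005883810126495744) (nat_lit 54918381330593270781921789043334947873611432423788512996043899049508503094921164420449966249939986008157323979227559704362566227714051077048768203639173939200) (nat_lit 54918381330593270781921789043334947873611432423788512996043899049508503094921164420449966249939986008157323979227559704362566227714051077048768203639173939200) c10_s580) (B (M (nat_lit 463) (B (M (nat_lit 428) (B (L (nat_lit 464) ln16_14_3 ln16_14_3_ok) (L (nat_lit 427) ln15_14_3 ln15_14_3_ok))) (M (nat_lit 495) (B (L (nat_lit 496) ln12_14_0 ln12_14_0_ok) (M (nat_lit 459) (B (L (nat_lit 494) ln11_14_0 ln11_14_0_ok) (M (nat_lit 491) (B (L (nat_lit 492) ln15_14_1 ln15_14_1_ok) (L (nat_lit 490) ln14_14_1 ln14_14_1_ok))))))))) (B (M (nat_lit 494) (B (M (nat_lit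 495) (B (L (nat_lit 459) ln11_14_0 ln11_14_0_ok) (M (nat_lit 496) (B (L (nat_lit 497) ln17_15_3 ln17_15_3_ok) (L (nat_lit 463) ln12_14_0 ln12_14_0_ok))))) (B (M (nat_lit 495) (B (L (nat_lit 459) ln11_14_0 ln11_14_0_ok) (M (nat_lit 496) (B (L (nat_lit 493) ln16_15_3 ln16_15_3_ok) (L (nat_lit 463) ln12_14_0 ln12_14_0_ok))))) (M (nat_lit 526) (B (L (nat_lit 558) ln14_17_7 ln14_17_7_ok) (M (nat_lit 397) (B (L (nat_lit 493) ln13_12_4 ln13_12_4_ok) (L (nat_lit 365) ln13_11_4 ln13_11_4_ok)))))))) (K (nat_lit 20839919904389975612890619649554073101059146945345001962078795278492529459094655911511362617585016154810252808543559459191005883810126495744) (nat_lit 943490606425058863374770051802373671535095469937249305598488680766991671951472311681122994041828421171236355251387635784969780786904480632339255049935645385903986180096) (nat_lit 943490606425058863374770051802373671535095469937249305598488680766991671951472311681122994041828421171236355251387635784969780786904480632339255049935645385903986180096)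 c10_s581))))) (B (M (nat_lit 492) (B (M (nat_lit 397) (B (L (nat_lit 365) ln13_11_5 ln13_11_5_ok) (M (nat_lit 524) (B (L (nat_lit 556) ln12_17_6 ln12_17_6_ok) (L (nat_lit 428) ln12_16_6 ln12_16_6_ok))))) (B (M (nat_lit 397) (B (L (nat_lit 365) ln13_11_5 ln13_11_5_ok) (M (nat_lit 524) (B (L (nat_lit 493) ln13_12_5 ln13_12_5_ok) (L (nat_lit 428) ln12_16_6 ln12_16_6_ok))))) (B (M (nat_lit 462) (B (M (nat_lit 463) (B (L (nat_lit 491) ln15_14_1 ln15_14_1_ok) (M (nat_lit 464) (B (L (nat_lit 493) ln16_14_1 ln16_14_1_ok) (L (nat_lit 428) ln16_14_3 ln16_14_3_ok))))) (B (M (nat_lit 463) (B (L (nat_lit 491) ln15_14_1 ln15_14_1_ok) (M (nat_lit 428) (B (L (nat_lit 464) ln16_14_3 ln16_14_3_ok) (L (nat_lit 427) ln15_14_3 ln15_14_3_ok))))) (B (M (nat_lit 463) (B (M (nat_lit 464) (B (L (nat_lit 493) ln16_14_1 ln16_14_1_ok) (L (nat_lit 428) ln16_14_3 ln16_14_3_ok))) (B (M (nat_lit 428) (B (L (nat_lit 464)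 ln16_14_3 ln16_14_3_ok) (L (nat_lit 427) ln15_14_3 ln15_14_3_ok))) (B (M (nat_lit 459) (B (M (nat_lit 495) (B (L (nat_lit 496) ln12_14_0 ln12_14_0_ok) (L (nat_lit 494) ln11_14_0 ln11_14_0_ok))) (M (nat_lit 427) (B (L (nat_lit 428) ln15_14_3 ln15_14_3_ok) (L (nat_lit 426) ln14_14_3 ln14_14_3_ok))))) (M (nat_lit 464) (B (L (nat_lit 493) ln16_14_1 ln16_14_1_ok) (M (nat_lit 432) (B (L (nat_lit 433) ln13_14_2 ln13_14_2_ok) (L (nat_lit 431) ln12_14_2 ln12_14_2_ok))))))))) (B (M (nat_lit 491) (B (L (nat_lit 463) ln15_14_1 ln15_14_1_ok) (M (nat_lit 490) (B (L (nat_lit 493) ln10_15_2 ln10_15_2_ok) (L (nat_lit 489) ln9_15_2 ln9_15_2_ok))))) (M (nat_lit 491) (B (M (nat_lit 490) (B (L (nat_lit 493) ln10_15_2 ln10_15_2_ok) (L (nat_lit 489) ln9_15_2 ln9_15_2_ok))) (B (M (nat_lit 490) (B (L (nat_lit 489) ln9_15_2 ln9_15_2_ok) (L (nat_lit 459) ln14_14_1 ln14_14_1_ok))) (M (nat_lit 459) (B (M (nat_lit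 494) (B (L (nat_lit 495) ln11_14_0 ln11_14_0_ok) (M (nat_lit 458) (B (L (nat_lit 493) ln10_14_0 ln10_14_0_ok) (M (nat_lit 457) (B (L (nat_lit 456) ln8_14_0 ln8_14_0_ok) (L (nat_lit 428) ln9_14_2 ln9_14_2_ok))))))) (B (M (nat_lit 458) (B (M (nat_lit 493) (B (L (nat_lit 494) ln10_14_0 ln10_14_0_ok) (L (nat_lit 457) ln9_14_0 ln9_14_0_ok))) (M (nat_lit 426) (B (L (nat_lit 427) ln14_14_3 ln14_14_3_ok) (L (nat_lit 425) ln13_14_3 ln13_14_3_ok))))) (B (M (nat_lit 458) (B (M (nat_lit 457) (B (L (nat_lit 493) ln9_14_0 ln9_14_0_ok) (L (nat_lit 456) ln8_14_0 ln8_14_0_ok))) (M (nat_lit 426) (B (L (nat_lit 427) ln14_14_3 ln14_14_3_ok) (L (nat_lit 425) ln13_14_3 ln13_14_3_ok))))) (B (M (nat_lit 458) (B (M (nat_lit 426) (B (L (nat_lit 427) ln14_14_3 ln14_14_3_ok) (L (nat_lit 425) ln13_14_3 ln13_14_3_ok))) (M (nat_lit 457) (B (L (nat_lit 456) ln8_14_0 ln8_14_0_ok) (L (nat_lit 428) ln9_14_2 ln9_14_2_ok)))))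 (M (nat_lit 523) (B (M (nat_lit 555) (B (L (nat_lit 587) ln11_18_6 ln11_18_6_ok) (L (nat_lit 428) ln11_17_6 ln11_17_6_ok))) (M (nat_lit 522) (B (M (nat_lit 427) (B (L (nat_lit 554) ln11_13_5 ln11_13_5_ok) (L (nat_lit 426) ln14_14_3 ln14_14_3_ok))) (M (nat_lit 494) (B (L (nat_lit 493) ln14_15_1 ln14_15_1_ok) (L (nat_lit 495) ln11_14_0 ln11_14_0_ok)))))))))))))))))))) (M (nat_lit 524) (B (L (nat_lit 556) ln12_17_6 ln12_17_6_ok) (M (nat_lit 397) (B (L (nat_lit 493) ln13_12_5 ln13_12_5_ok) (L (nat_lit 365) ln13_11_5 ln13_11_5_ok))))))))) c10_d156)))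
theorem c10_s592 : Sem (nat_lit 5954262830815946494440468064007740237496571878468728087513875999273036838532266441790969898967138332125836366047228135112217242456098340864) (nat_lit 31545347677224687793449247355589775212704255946183600167446237778333709374762759230888505611518287578952409481600419359313294026944663166712583697683885512677820044263295408673595777351680) (nat_lit 31545347677224687793449247355589775212704255946183600167446237778333709374762759230888505611518287578952409481600419359313294026944663166712583697683885512677820044263295408673595777351680) :=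
  sem_of_chk (M (nat_lit 460) (B (M (nat_lit 492) (B (M (nat_lit 524) (B (L (nat_lit 556) ln12_17_6 ln12_17_6_ok) (M (nat_lit 397) (B (L (nat_lit 493) ln13_12_5 ln13_12_5_ok) (L (nat_lit 365) ln13_11_5 ln13_11_5_ok))))) (B (M (nat_lit 397) (B (L (nat_lit 365) ln13_11_5 ln13_11_5_ok) (M (nat_lit 524) (B (L (nat_lit 493) ln13_12_5 ln13_12_5_ok) (L (nat_lit 428) ln12_16_6 ln12_16_6_ok))))) (B (M (nat_lit 397) (B (L (nat_lit 365) ln13_11_5 ln13_11_5_ok) (M (nat_lit 462) (B (M (nat_lit 463) (B (L (nat_lit 491) ln15_14_1 ln15_14_1_ok) (M (nat_lit 464) (B (L (nat_lit 493) ln16_14_1 ln16_14_1_ok) (L (nat_lit 428) ln16_14_3 ln16_14_3_ok))))) (B (M (nat_lit 463) (B (L (nat_lit 491) ln15_14_1 ln15_14_1_ok) (M (nat_lit 428) (B (L (nat_lit 464) ln16_14_3 ln16_14_3_ok) (L (nat_lit 427) ln15_14_3 ln15_14_3_ok))))) (B (M (nat_lit 494) (B (M (nat_lit 526) (B (L (nat_lit 558) ln14_17_7 ln14_17_7_ok) (L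 (nat_lit 493) ln13_12_4 ln13_12_4_ok))) (M (nat_lit 495) (B (L (nat_lit 459) ln11_14_0 ln11_14_0_ok) (M (nat_lit 496) (B (L (nat_lit 497) ln17_15_3 ln17_15_3_ok) (L (nat_lit 463) ln12_14_0 ln12_14_0_ok))))))) (M (nat_lit 459) (B (M (nat_lit 494) (B (L (nat_lit 495) ln11_14_0 ln11_14_0_ok) (M (nat_lit 526) (B (L (nat_lit 558) ln14_17_7 ln14_17_7_ok) (L (nat_lit 493) ln13_12_4 ln13_12_4_ok))))) (B (M (nat_lit 494) (B (L (nat_lit 495) ln11_14_0 ln11_14_0_ok) (M (nat_lit 493) (B (L (nat_lit 526) ln13_12_4 ln13_12_4_ok) (L (nat_lit 458) ln10_14_0 ln10_14_0_ok))))) (B (M (nat_lit 458) (B (M (nat_lit 494) (B (L (nat_lit 495) ln11_14_0 ln11_14_0_ok) (L (nat_lit 493) ln10_14_0 ln10_14_0_ok))) (M (nat_lit 426) (B (L (nat_lit 427) ln14_14_3 ln14_14_3_ok) (L (nat_lit 425) ln13_14_3 ln13_14_3_ok))))) (B (M (nat_lit 458) (B (M (nat_lit 493) (B (L (nat_lit 494) ln10_14_0 ln10_14_0_ok) (L (nat_lit 457)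 ln9_14_0 ln9_14_0_ok))) (M (nat_lit 426) (B (L (nat_lit 427) ln14_14_3 ln14_14_3_ok) (L (nat_lit 425) ln13_14_3 ln13_14_3_ok))))) (B (M (nat_lit 458) (B (M (nat_lit 490) (B (L (nat_lit 491) ln14_14_1 ln14_14_1_ok) (L (nat_lit 489) ln13_14_1 ln13_14_1_ok))) (M (nat_lit 457) (B (L (nat_lit 493) ln9_14_0 ln9_14_0_ok) (L (nat_lit 428) ln9_14_2 ln9_14_2_ok))))) (M (nat_lit 458) (B (M (nat_lit 490) (B (L (nat_lit 491) ln14_14_1 ln14_14_1_ok) (L (nat_lit 489) ln13_14_1 ln13_14_1_ok))) (M (nat_lit 426) (B (L (nat_lit 427) ln14_14_3 ln14_14_3_ok) (L (nat_lit 425) ln13_14_3 ln13_14_3_ok))))))))))))))))) (B (M (nat_lit 397) (B (L (nat_lit 365) ln13_11_5 ln13_11_5_ok) (M (nat_lit 524) (B (L (nat_lit 556) ln12_17_6 ln12_17_6_ok) (L (nat_lit 428) ln12_16_6 ln12_16_6_ok))))) (M (nat_lit 462) (B (M (nat_lit 463) (B (L (nat_lit 491) ln15_14_1 ln15_14_1_ok) (M (nat_lit 464) (B (L (nat_lit 493) ln16_14_1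 ln16_14_1_ok) (L (nat_lit 428) ln16_14_3 ln16_14_3_ok))))) (B (M (nat_lit 463) (B (L (nat_lit 491) ln15_14_1 ln15_14_1_ok) (M (nat_lit 428) (B (L (nat_lit 464) ln16_14_3 ln16_14_3_ok) (L (nat_lit 427) ln15_14_3 ln15_14_3_ok))))) (B (M (nat_lit 459) (B (M (nat_lit 427) (B (L (nat_lit 426) ln14_14_3 ln14_14_3_ok) (M (nat_lit 463) (B (L (nat_lit 428) ln15_14_3 ln15_14_3_ok) (M (nat_lit 495) (B (L (nat_lit 496) ln12_14_0 ln12_14_0_ok) (L (nat_lit 494) ln11_14_0 ln11_14_0_ok))))))) (B (M (nat_lit 427) (B (L (nat_lit 426) ln14_14_3 ln14_14_3_ok) (M (nat_lit 524) (B (L (nat_lit 556) ln12_17_6 ln12_17_6_ok) (M (nat_lit 428) (B (L (nat_lit 395) ln12_16_7 ln12_16_7_ok) (L (nat_lit 463) ln15_14_3 ln15_14_3_ok))))))) (B (M (nat_lit 494) (B (L (nat_lit 495) ln11_14_0 ln11_14_0_ok) (M (nat_lit 458) (B (L (nat_lit 493) ln10_14_0 ln10_14_0_ok) (M (nat_lit 426) (B (L (nat_lit 427) ln14_14_3 ln14_14_3_ok)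 (L (nat_lit 425) ln13_14_3 ln13_14_3_ok))))))) (M (nat_lit 463) (B (M (nat_lit 495) (B (L (nat_lit 496) ln12_14_0 ln12_14_0_ok) (L (nat_lit 494) ln11_14_0 ln11_14_0_ok))) (M (nat_lit 464) (B (L (nat_lit 493) ln16_14_1 ln16_14_1_ok) (L (nat_lit 428) ln16_14_3 ln16_14_3_ok))))))))) (B (M (nat_lit 491) (B (L (nat_lit 463) ln15_14_1 ln15_14_1_ok) (M (nat_lit 490) (B (L (nat_lit 493) ln10_15_2 ln10_15_2_ok) (L (nat_lit 489) ln9_15_2 ln9_15_2_ok))))) (M (nat_lit 491) (B (M (nat_lit 490) (B (L (nat_lit 493) ln10_15_2 ln10_15_2_ok) (L (nat_lit 489) ln9_15_2 ln9_15_2_ok))) (B (M (nat_lit 490) (B (L (nat_lit 489) ln9_15_2 ln9_15_2_ok) (L (nat_lit 459) ln14_14_1 ln14_14_1_ok))) (M (nat_lit 427) (B (M (nat_lit 426) (B (L (nat_lit 459) ln14_14_3 ln14_14_3_ok) (L (nat_lit 428) ln10_13_0 ln10_13_0_ok))) (B (M (nat_lit 524) (B (L (nat_lit 556) ln12_17_6 ln12_17_6_ok) (M (nat_lit 428) (B (L (nat_lit 395)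 ln12_16_7 ln12_16_7_ok) (L (nat_lit 426) ln10_13_0 ln10_13_0_ok))))) (B (M (nat_lit 524) (B (L (nat_lit 556) ln12_17_6 ln12_17_6_ok) (M (nat_lit 459) (B (L (nat_lit 395) ln11_12_4 ln11_12_4_ok) (L (nat_lit 426) ln14_14_3 ln14_14_3_ok))))) (M (nat_lit 524) (B (L (nat_lit 556) ln12_17_6 ln12_17_6_ok) (M (nat_lit 395) (B (L (nat_lit 459) ln11_12_4 ln11_12_4_ok) (L (nat_lit 428) ln12_16_7 ln12_16_7_ok)))))))))))))))))))))) c10_d157)) (nat_lit 5954262830815946494440468064007740237496571878468728087513875999273036838532266441790969898967138332125836366047228135112217242456098340864) (nat_lit 31545347677224687793449247355589775212704255946183600167446237778333709374762759230888505611518287578952409481600419359313294026944663166712583697683885512677820044263295408673595777351680) (nat_lit 31545347677224687793449247355589775212704255946183600167446237778333709374762759230888505611518287578952409481600419359313294026944663166712583697683885512677820044263295408673595777351680)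 (by decide +kernel)

end Vale.Agent.Lib.P062.Data
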