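import Vale.Agent.Lib.P062.Data.c10_lines
import Vale.Agent.Lib.P062.Data.c10_l0_0
import Vale.Agent.Lib.P062.Data.c10_l0_1
import Vale.Agent.Lib.P062.Data.c10_l0_2
import Vale.Agent.Lib.P062.Data.c10_l0_3

namespace Vale.Agent.Lib.P062.Data
noncomputable def c10_d158 : Cert := (B (M (nat_lit 528) (B (M (nat_lit 431) (B (L (nat_lit 560) ln15_13_4_c10 ln15_13_4_c10_ok) (M (nat_lit 399) (B (L (nat_lit 496) ln15_12_4 ln15_12_4_ok) (L (nat_lit 494) ln15_12_5 ln15_12_5_ok))))) (B (K (nat_lit 1537714675971550032694380052240231042496507363977570038800967916224481338885736535100947375941626145440858582569452905472569012968790162690236433854033289019392) (nat_lit 52835473952883580300044112573532584919173030797958208714535726594538793752967811870206164022049514938982254428281021536512148048329131428128298125914412798045279492243456) (nat_lit 52835473952883580300044112573532584919173030797958208714535726594538793752967811870206164022049514938982254428281021536512148048329131428128298125914412798045279492243456)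 c10_s4) (B (M (nat_lit 431) (B (L (nat_lit 560) ln15_13_4_c10 ln15_13_4_c10_ok) (M (nat_lit 400) (B (L (nat_lit 432) ln15_16_6 ln15_16_6_ok) (M (nat_lit 399) (B (L (nat_lit 368) ln15_15_6 ln15_15_6_ok) (L (nat_lit 494) ln15_12_5 ln15_12_5_ok))))))) (M (nat_lit 496) (B (M (nat_lit 497) (B (L (nat_lit 498) ln18_15_1_c10 ln18_15_1_c10_ok) (L (nat_lit 525) ln13_16_2 ln13_16_2_ok))) (M (nat_lit 431) (B (L (nat_lit 560) ln15_13_4_c10 ln15_13_4_c10_ok) (L (nat_lit 399) ln15_12_4 ln15_12_4_ok))))))))) (B (M (nat_lit 528) (B (M (nat_lit 560) (B (L (nat_lit 431) ln15_13_4_c10 ln15_13_4_c10_ok) (M (nat_lit 592) (B (L (nat_lit 624) ln16_19_7_c10 ln16_19_7_c10_ok) (L (nat_lit 559) ln15_14_4_c10 ln15_14_4_c10_ok))))) (B (M (nat_lit 496) (B (M (nat_lit 497) (B (L (nat_lit 498) ln18_15_1_c10 ln18_15_1_c10_ok) (L (nat_lit 525) ln13_16_2 ln13_16_2_ok))) (M (nat_lit 560) (B (L (nat_lit 592) ln16_18_7_c10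 ln16_18_7_c10_ok) (L (nat_lit 431) ln15_13_4_c10 ln15_13_4_c10_ok))))) (K (nat_lit 1537714675971550032694380052240231042496507363977570038800967916224481338885736535100947375941626145440858582569452905472569012968790162690236433854033289019392) (nat_lit 52835473952883580300044112573532584919173030797958208714535726594538793752967811870206164022049514938982254428281021536512148048329131428128298125914412798045279492243456) (nat_lit 52835473952883580300044112573532584919173030797958208714535726594538793752967811870206164022049514938982254428281021536512148048329131428128298125914412798045279492243456) c10_s4)))) (B (M (nat_lit 496) (B (M (nat_lit 497) (B (L (nat_lit 498) ln18_15_1_c10 ln18_15_1_c10_ok) (L (nat_lit 494) ln17_15_3 ln17_15_3_ok))) (B (M (nat_lit 497) (B (L (nat_lit 494) ln17_15_3 ln17_15_3_ok) (M (nat_lit 525) (B (L (nat_lit 528) ln13_16_2 ln13_16_2_ok) (L (nat_lit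 524) ln12_16_2 ln12_16_2_ok))))) (B (M (nat_lit 431) (B (L (nat_lit 558) ln15_13_5_c10 ln15_13_5_c10_ok) (M (nat_lit 399) (B (L (nat_lit 528) ln15_12_4 ln15_12_4_ok) (L (nat_lit 494) ln15_12_5 ln15_12_5_ok))))) (M (nat_lit 497) (B (L (nat_lit 498) ln18_15_1_c10 ln18_15_1_c10_ok) (M (nat_lit 525) (B (L (nat_lit 528) ln13_16_2 ln13_16_2_ok) (L (nat_lit 524) ln12_16_2 ln12_16_2_ok))))))))) (B (M (nat_lit 431) (B (L (nat_lit 558) ln15_13_5_c10 ln15_13_5_c10_ok) (M (nat_lit 528) (B (L (nat_lit 560) ln15_13_4_c10 ln15_13_4_c10_ok) (M (nat_lit 496) (B (L (nat_lit 399) ln15_12_4 ln15_12_4_ok) (M (nat_lit 497) (B (L (nat_lit 498) ln18_15_1_c10 ln18_15_1_c10_ok) (L (nat_lit 525) ln13_16_2 ln13_16_2_ok))))))))) (B (M (nat_lit 559) (B (M (nat_lit 494) (B (L (nat_lit 591) ln15_18_7 ln15_18_7_ok) (M (nat_lit 431) (B (L (nat_lit 558) ln15_13_5_c10 ln15_13_5_c10_ok) (L (nat_lit 399) ln15_12_5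 ln15_12_5_ok))))) (B (M (nat_lit 591) (B (L (nat_lit 494) ln15_18_7 ln15_18_7_ok) (M (nat_lit 592) (B (L (nat_lit 624) ln15_15_4_c10 ln15_15_4_c10_ok) (L (nat_lit 560) ln15_14_4_c10 ln15_14_4_c10_ok))))) (M (nat_lit 560) (B (L (nat_lit 592) ln15_14_4_c10 ln15_14_4_c10_ok) (M (nat_lit 525) (B (L (nat_lit 524) ln12_16_0 ln12_16_0_ok) (M (nat_lit 558) (B (L (nat_lit 561) ln17_17_3 ln17_17_3_ok) (L (nat_lit 431) ln15_13_5_c10 ln15_13_5_c10_ok)))))))))) (B (M (nat_lit 431) (B (L (nat_lit 558) ln15_13_5_c10 ln15_13_5_c10_ok) (M (nat_lit 559) (B (M (nat_lit 494) (B (L (nat_lit 399) ln15_12_5 ln15_12_5_ok) (L (nat_lit 591) ln15_18_7 ln15_18_7_ok))) (M (nat_lit 560) (B (L (nat_lit 592) ln15_14_4_c10 ln15_14_4_c10_ok) (L (nat_lit 528) ln15_13_4_c10 ln15_13_4_c10_ok))))))) (M (nat_lit 525) (B (M (nat_lit 496) (B (L (nat_lit 524) ln12_16_2 ln12_16_2_ok) (M (nat_lit 497) (B (L (nat_lit 528)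 ln13_16_2 ln13_16_2_ok) (L (nat_lit 494) ln17_15_1 ln17_15_1_ok))))) (B (M (nat_lit 528) (B (M (nat_lit 560) (B (L (nat_lit 561) ln13_16_0 ln13_16_0_ok) (M (nat_lit 496) (B (L (nat_lit 592) ln16_18_7_c10 ln16_18_7_c10_ok) (L (nat_lit 497) ln13_16_2 ln13_16_2_ok))))) (B (M (nat_lit 529) (B (M (nat_lit 557) (B (L (nat_lit 556) ln16_16_1 ln16_16_1_ok) (L (nat_lit 558) ln17_16_1 ln17_16_1_ok))) (M (nat_lit 497) (B (L (nat_lit 496) ln13_16_2 ln13_16_2_ok) (L (nat_lit 498) ln14_16_2 ln14_16_2_ok))))) (M (nat_lit 529) (B (M (nat_lit 557) (B (L (nat_lit 556) ln16_16_1 ln16_16_1_ok) (L (nat_lit 558) ln17_16_1 ln17_16_1_ok))) (M (nat_lit 561) (B (L (nat_lit 560) ln13_16_0 ln13_16_0_ok) (L (nat_lit 562) ln14_16_0 ln14_16_0_ok)))))))) (B (M (nat_lit 496) (B (L (nat_lit 524) ln12_16_2 ln12_16_2_ok) (M (nat_lit 497) (B (L (nat_lit 494) ln17_15_1 ln17_15_1_ok) (L (nat_lit 498) ln18_15_1_c10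 ln18_15_1_c10_ok))))) (B (M (nat_lit 528) (B (M (nat_lit 529) (B (M (nat_lit 557) (B (L (nat_lit 556) ln16_16_1 ln16_16_1_ok) (L (nat_lit 558) ln17_16_1 ln17_16_1_ok))) (M (nat_lit 561) (B (L (nat_lit 560) ln13_16_0 ln13_16_0_ok) (L (nat_lit 562) ln14_16_0 ln14_16_0_ok))))) (B (M (nat_lit 529) (B (M (nat_lit 561) (B (L (nat_lit 560) ln13_16_0 ln13_16_0_ok) (L (nat_lit 562) ln14_16_0 ln14_16_0_ok))) (M (nat_lit 530) (B (L (nat_lit 494) ln18_16_3_c10 ln18_16_3_c10_ok) (M (nat_lit 498) (B (L (nat_lit 497) ln14_16_2 ln14_16_2_ok) (L (nat_lit 499) ln15_16_2_c10 ln15_16_2_c10_ok))))))) (B (M (nat_lit 529) (B (M (nat_lit 557) (B (L (nat_lit 556) ln16_16_1 ln16_16_1_ok) (L (nat_lit 558) ln17_16_1 ln17_16_1_ok))) (M (nat_lit 530) (B (L (nat_lit 494) ln18_16_3_c10 ln18_16_3_c10_ok) (M (nat_lit 498) (B (L (nat_lit 497) ln14_16_2 ln14_16_2_ok) (L (nat_lit 499) ln15_16_2_c10 ln15_16_2_c10_ok)))))))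 (M (nat_lit 524) (B (M (nat_lit 556) (B (L (nat_lit 555) ln15_16_1 ln15_16_1_ok) (L (nat_lit 557) ln16_16_1 ln16_16_1_ok))) (M (nat_lit 523) (B (L (nat_lit 494) ln11_16_2 ln11_16_2_ok) (M (nat_lit 491) (B (L (nat_lit 490) ln14_16_3 ln14_16_3_ok) (L (nat_lit 492) ln15_16_3 ln15_16_3_ok))))))))))) (M (nat_lit 524) (B (L (nat_lit 496) ln12_16_2 ln12_16_2_ok) (M (nat_lit 523) (B (L (nat_lit 494) ln11_16_2 ln11_16_2_ok) (M (nat_lit 491) (B (L (nat_lit 490) ln14_16_3 ln14_16_3_ok) (L (nat_lit 492) ln15_16_3 ln15_16_3_ok))))))))))))))))))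
noncomputable def c10_d159 : Cert := (B (M (nat_lit 560) (B (M (nat_lit 592) (B (L (nat_lit 559) ln15_14_4_c10 ln15_14_4_c10_ok) (M (nat_lit 528) (B (L (nat_lit 496) ln16_18_7_c10 ln16_18_7_c10_ok) (L (nat_lit 431) ln15_13_4_c10 ln15_13_4_c10_ok))))) (B (M (nat_lit 526) (B (M (nat_lit 431) (B (L (nat_lit 528) ln15_13_4_c10 ln15_13_4_c10_ok) (L (nat_lit 558) ln15_13_5_c10 ln15_13_5_c10_ok))) (B (M (nat_lit 558) (B (L (nat_lit 431) ln15_13_5_c10 ln15_13_5_c10_ok) (M (nat_lit 590) (B (L (nat_lit 559) ln15_14_5_c10 ln15_14_5_c10_ok) (L (nat_lit 622) ln14_19_6 ln14_19_6_ok))))) (B (M (nat_lit 525) (B (M (nat_lit 524) (B (L (nat_lit 559) ln12_16_0 ln12_16_0_ok) (L (nat_lit 496) ln12_16_2 ln12_16_2_ok))) (B (M (nat_lit 561) (B (L (nat_lit 528) ln13_16_0 ln13_16_0_ok) (M (nat_lit 559) (B (L (nat_lit 562) ln18_17_3_c10 ln18_17_3_c10_ok) (L (nat_lit 524) ln12_16_0 ln12_16_0_ok))))) (B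 (M (nat_lit 528) (B (L (nat_lit 561) ln13_16_0 ln13_16_0_ok) (M (nat_lit 496) (B (L (nat_lit 497) ln13_16_2 ln13_16_2_ok) (L (nat_lit 524) ln12_16_2 ln12_16_2_ok))))) (M (nat_lit 561) (B (L (nat_lit 528) ln13_16_0 ln13_16_0_ok) (M (nat_lit 559) (B (L (nat_lit 562) ln18_17_3_c10 ln18_17_3_c10_ok) (L (nat_lit 558) ln17_17_3 ln17_17_3_ok))))))))) (M (nat_lit 525) (B (M (nat_lit 528) (B (L (nat_lit 561) ln13_16_0 ln13_16_0_ok) (L (nat_lit 431) ln15_13_4_c10 ln15_13_4_c10_ok))) (M (nat_lit 524) (B (L (nat_lit 559) ln12_16_0 ln12_16_0_ok) (L (nat_lit 496) ln12_16_2 ln12_16_2_ok))))))))) (B (M (nat_lit 559) (B (L (nat_lit 592) ln15_14_4_c10 ln15_14_4_c10_ok) (M (nat_lit 558) (B (L (nat_lit 590) ln15_14_5_c10 ln15_14_5_c10_ok) (M (nat_lit 526) (B (L (nat_lit 431) ln15_13_5_c10 ln15_13_5_c10_ok) (M (nat_lit 525) (B (L (nat_lit 561) ln17_17_3 ln17_17_3_ok) (L (nat_lit 524) ln12_16_0 ln12_16_0_ok)))))))))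 (B (M (nat_lit 528) (B (L (nat_lit 431) ln15_13_4_c10 ln15_13_4_c10_ok) (M (nat_lit 592) (B (L (nat_lit 624) ln16_19_7_c10 ln16_19_7_c10_ok) (L (nat_lit 496) ln16_18_7_c10 ln16_18_7_c10_ok))))) (M (nat_lit 592) (B (L (nat_lit 559) ln15_14_4_c10 ln15_14_4_c10_ok) (M (nat_lit 528) (B (L (nat_lit 624) ln16_19_7_c10 ln16_19_7_c10_ok) (L (nat_lit 496) ln16_18_7_c10 ln16_18_7_c10_ok)))))))))) (B (M (nat_lit 526) (B (M (nat_lit 558) (B (L (nat_lit 431) ln15_13_5_c10 ln15_13_5_c10_ok) (M (nat_lit 590) (B (L (nat_lit 494) ln14_17_7 ln14_17_7_ok) (L (nat_lit 622) ln14_19_6 ln14_19_6_ok))))) (B (M (nat_lit 525) (B (M (nat_lit 496) (B (L (nat_lit 524) ln12_16_2 ln12_16_2_ok) (M (nat_lit 497) (B (L (nat_lit 498) ln18_15_1_c10 ln18_15_1_c10_ok) (L (nat_lit 528) ln13_16_2 ln13_16_2_ok))))) (B (M (nat_lit 496) (B (L (nat_lit 524) ln12_16_2 ln12_16_2_ok) (M (nat_lit 497) (B (L (nat_lit 494)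 ln17_15_1 ln17_15_1_ok) (L (nat_lit 528) ln13_16_2 ln13_16_2_ok))))) (B (M (nat_lit 524) (B (L (nat_lit 496) ln12_16_2 ln12_16_2_ok) (M (nat_lit 523) (B (L (nat_lit 494) ln11_16_2 ln11_16_2_ok) (M (nat_lit 491) (B (L (nat_lit 492) ln15_16_3 ln15_16_3_ok) (L (nat_lit 490) ln14_16_3 ln14_16_3_ok))))))) (B (M (nat_lit 528) (B (M (nat_lit 557) (B (L (nat_lit 556) ln16_16_1 ln16_16_1_ok) (M (nat_lit 529) (B (L (nat_lit 558) ln17_16_1 ln17_16_1_ok) (M (nat_lit 561) (B (L (nat_lit 562) ln14_16_0 ln14_16_0_ok) (L (nat_lit 560) ln13_16_0 ln13_16_0_ok))))))) (B (M (nat_lit 524) (B (M (nat_lit 556) (B (L (nat_lit 557) ln16_16_1 ln16_16_1_ok) (L (nat_lit 555) ln15_16_1 ln15_16_1_ok))) (M (nat_lit 491) (B (L (nat_lit 492) ln15_16_3 ln15_16_3_ok) (M (nat_lit 523) (B (L (nat_lit 494) ln11_16_2 ln11_16_2_ok) (L (nat_lit 490) ln14_16_3 ln14_16_3_ok))))))) (M (nat_lit 529) (B (M (nat_lit 561)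 (B (L (nat_lit 562) ln14_16_0 ln14_16_0_ok) (L (nat_lit 560) ln13_16_0 ln13_16_0_ok))) (M (nat_lit 530) (B (L (nat_lit 494) ln18_16_3_c10 ln18_16_3_c10_ok) (M (nat_lit 498) (B (L (nat_lit 499) ln15_16_2_c10 ln15_16_2_c10_ok) (L (nat_lit 497) ln14_16_2 ln14_16_2_ok)))))))))) (M (nat_lit 528) (B (M (nat_lit 560) (B (L (nat_lit 561) ln13_16_0 ln13_16_0_ok) (M (nat_lit 496) (B (L (nat_lit 592) ln16_18_7_c10 ln16_18_7_c10_ok) (L (nat_lit 497) ln13_16_2 ln13_16_2_ok))))) (B (M (nat_lit 557) (B (L (nat_lit 556) ln16_16_1 ln16_16_1_ok) (M (nat_lit 529) (B (L (nat_lit 558) ln17_16_1 ln17_16_1_ok) (M (nat_lit 561) (B (L (nat_lit 562) ln14_16_0 ln14_16_0_ok) (L (nat_lit 560) ln13_16_0 ln13_16_0_ok))))))) (M (nat_lit 529) (B (M (nat_lit 497) (B (L (nat_lit 498) ln14_16_2 ln14_16_2_ok) (L (nat_lit 496) ln13_16_2 ln13_16_2_ok))) (M (nat_lit 557) (B (L (nat_lit 558) ln17_16_1 ln17_16_1_ok)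 (L (nat_lit 556) ln16_16_1 ln16_16_1_ok))))))))))))) (B (M (nat_lit 528) (B (M (nat_lit 431) (B (L (nat_lit 560) ln15_13_4_c10 ln15_13_4_c10_ok) (L (nat_lit 558) ln15_13_5_c10 ln15_13_5_c10_ok))) (B (M (nat_lit 525) (B (M (nat_lit 496) (B (L (nat_lit 497) ln13_16_2 ln13_16_2_ok) (L (nat_lit 524) ln12_16_2 ln12_16_2_ok))) (M (nat_lit 557) (B (L (nat_lit 556) ln16_16_1 ln16_16_1_ok) (M (nat_lit 529) (B (L (nat_lit 558) ln17_16_1 ln17_16_1_ok) (M (nat_lit 561) (B (L (nat_lit 562) ln14_16_0 ln14_16_0_ok) (L (nat_lit 560) ln13_16_0 ln13_16_0_ok))))))))) (B (M (nat_lit 529) (B (M (nat_lit 558) (B (L (nat_lit 431) ln15_13_5_c10 ln15_13_5_c10_ok) (L (nat_lit 557) ln17_16_1 ln17_16_1_ok))) (M (nat_lit 530) (B (M (nat_lit 498) (B (L (nat_lit 499) ln15_16_2_c10 ln15_16_2_c10_ok) (L (nat_lit 497) ln14_16_2 ln14_16_2_ok))) (M (nat_lit 562) (B (L (nat_lit 563) ln15_16_0_c10 ln15_16_0_c10_ok)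 (L (nat_lit 561) ln14_16_0 ln14_16_0_ok))))))) (M (nat_lit 560) (B (L (nat_lit 431) ln15_13_4_c10 ln15_13_4_c10_ok) (M (nat_lit 592) (B (L (nat_lit 496) ln16_18_7_c10 ln16_18_7_c10_ok) (L (nat_lit 624) ln16_19_7_c10 ln16_19_7_c10_ok))))))))) (M (nat_lit 528) (B (M (nat_lit 560) (B (L (nat_lit 431) ln15_13_4_c10 ln15_13_4_c10_ok) (M (nat_lit 592) (B (L (nat_lit 496) ln16_18_7_c10 ln16_18_7_c10_ok) (L (nat_lit 624) ln16_19_7_c10 ln16_19_7_c10_ok))))) (B (M (nat_lit 529) (B (M (nat_lit 530) (B (L (nat_lit 494) ln18_16_3_c10 ln18_16_3_c10_ok) (M (nat_lit 498) (B (L (nat_lit 499) ln15_16_2_c10 ln15_16_2_c10_ok) (L (nat_lit 497) ln14_16_2 ln14_16_2_ok))))) (B (M (nat_lit 530) (B (L (nat_lit 494) ln18_16_3_c10 ln18_16_3_c10_ok) (M (nat_lit 562) (B (L (nat_lit 563) ln15_16_0_c10 ln15_16_0_c10_ok) (L (nat_lit 561) ln14_16_0 ln14_16_0_ok))))) (M (nat_lit 525) (B (M (nat_lit 497) (B (L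 (nat_lit 498) ln14_16_2 ln14_16_2_ok) (L (nat_lit 496) ln13_16_2 ln13_16_2_ok))) (M (nat_lit 561) (B (L (nat_lit 562) ln14_16_0 ln14_16_0_ok) (L (nat_lit 560) ln13_16_0 ln13_16_0_ok)))))))) (B (M (nat_lit 560) (B (L (nat_lit 431) ln15_13_4_c10 ln15_13_4_c10_ok) (M (nat_lit 561) (B (L (nat_lit 525) ln13_16_0 ln13_16_0_ok) (M (nat_lit 562) (B (L (nat_lit 529) ln14_16_0 ln14_16_0_ok) (L (nat_lit 563) ln19_17_3_c10 ln19_17_3_c10_ok))))))) (M (nat_lit 525) (B (M (nat_lit 496) (B (L (nat_lit 497) ln13_16_2 ln13_16_2_ok) (L (nat_lit 524) ln12_16_2 ln12_16_2_ok))) (B (M (nat_lit 524) (B (L (nat_lit 496) ln12_16_2 ln12_16_2_ok) (M (nat_lit 556) (B (L (nat_lit 557) ln16_16_1 ln16_16_1_ok) (L (nat_lit 555) ln15_16_1 ln15_16_1_ok))))) (B (M (nat_lit 524) (B (M (nat_lit 556) (B (L (nat_lit 557) ln16_16_1 ln16_16_1_ok) (L (nat_lit 555) ln15_16_1 ln15_16_1_ok))) (M (nat_lit 491) (B (L (nat_lit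 492) ln15_16_3 ln15_16_3_ok) (M (nat_lit 523) (B (L (nat_lit 494) ln11_16_2 ln11_16_2_ok) (L (nat_lit 490) ln14_16_3 ln14_16_3_ok))))))) (M (nat_lit 529) (B (M (nat_lit 497) (B (L (nat_lit 498) ln14_16_2 ln14_16_2_ok) (L (nat_lit 496) ln13_16_2 ln13_16_2_ok))) (M (nat_lit 530) (B (L (nat_lit 494) ln18_16_3_c10 ln18_16_3_c10_ok) (M (nat_lit 562) (B (L (nat_lit 563) ln15_16_0_c10 ln15_16_0_c10_ok) (L (nat_lit 561) ln14_16_0 ln14_16_0_ok))))))))))))))))))) (M (nat_lit 526) c10_d158)))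
noncomputable def c10_d160 : Cert := (B (M (nat_lit 559) (B (M (nat_lit 591) (B (L (nat_lit 494) ln15_18_7 ln15_18_7_ok) (M (nat_lit 592) (B (L (nat_lit 624) ln15_15_4_c10 ln15_15_4_c10_ok) (L (nat_lit 560) ln15_14_4_c10 ln15_14_4_c10_ok))))) (B (M (nat_lit 591) (B (L (nat_lit 494) ln15_18_7 ln15_18_7_ok) (M (nat_lit 590) (B (L (nat_lit 622) ln15_15_5_c10 ln15_15_5_c10_ok) (L (nat_lit 558) ln15_14_5_c10 ln15_14_5_c10_ok))))) (B (M (nat_lit 558) (B (L (nat_lit 590) ln15_14_5_c10 ln15_14_5_c10_ok) (M (nat_lit 526) (B (M (nat_lit 560) (B (L (nat_lit 592) ln15_14_4_c10 ln15_14_4_c10_ok) (M (nat_lit 561) (B (L (nat_lit 562) ln18_17_3_c10 ln18_17_3_c10_ok) (L (nat_lit 525) ln17_17_3 ln17_17_3_ok))))) (M (nat_lit 557) (B (M (nat_lit 528) (B (L (nat_lit 529) ln17_16_1 ln17_16_1_ok) (L (nat_lit 556) ln12_17_2_c10 ln12_17_2_c10_ok))) (L (nat_lit 494) ln14_17_7 ln14_17_7_ok))))))) (M (nat_lit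 592) (B (L (nat_lit 560) ln15_14_4_c10 ln15_14_4_c10_ok) (M (nat_lit 590) (B (L (nat_lit 558) ln15_14_5_c10 ln15_14_5_c10_ok) (M (nat_lit 591) (B (L (nat_lit 624) ln15_15_4_c10 ln15_15_4_c10_ok) (L (nat_lit 622) ln15_15_5_c10 ln15_15_5_c10_ok))))))))))) (B (M (nat_lit 559) (B (M (nat_lit 591) (B (L (nat_lit 494) ln15_18_7 ln15_18_7_ok) (M (nat_lit 592) (B (L (nat_lit 624) ln15_15_4_c10 ln15_15_4_c10_ok) (L (nat_lit 560) ln15_14_4_c10 ln15_14_4_c10_ok))))) (B (M (nat_lit 431) (B (M (nat_lit 560) (B (L (nat_lit 592) ln15_14_4_c10 ln15_14_4_c10_ok) (L (nat_lit 528) ln15_13_4_c10 ln15_13_4_c10_ok))) (M (nat_lit 558) (B (L (nat_lit 590) ln15_14_5_c10 ln15_14_5_c10_ok) (L (nat_lit 526) ln15_13_5_c10 ln15_13_5_c10_ok))))) (M (nat_lit 558) (B (L (nat_lit 590) ln15_14_5_c10 ln15_14_5_c10_ok) (M (nat_lit 526) (B (L (nat_lit 431) ln15_13_5_c10 ln15_13_5_c10_ok) (L (nat_lit 494) ln14_17_7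 ln14_17_7_ok)))))))) (B (M (nat_lit 431) (B (M (nat_lit 399) (B (M (nat_lit 528) (B (L (nat_lit 560) ln15_13_4_c10 ln15_13_4_c10_ok) (L (nat_lit 496) ln15_12_4 ln15_12_4_ok))) (M (nat_lit 400) (B (L (nat_lit 432) ln15_16_6 ln15_16_6_ok) (L (nat_lit 368) ln15_15_6 ln15_15_6_ok))))) (B (M (nat_lit 400) (B (L (nat_lit 432) ln15_16_6 ln15_16_6_ok) (M (nat_lit 496) (B (M (nat_lit 399) (B (L (nat_lit 528) ln15_12_4 ln15_12_4_ok) (L (nat_lit 368) ln15_15_6 ln15_15_6_ok))) (M (nat_lit 497) (B (L (nat_lit 498) ln18_15_3 ln18_15_3_ok) (L (nat_lit 494) ln17_15_3 ln17_15_3_ok))))))) (B (M (nat_lit 399) (B (M (nat_lit 400) (B (L (nat_lit 432) ln15_16_6 ln15_16_6_ok) (L (nat_lit 368) ln15_15_6 ln15_15_6_ok))) (M (nat_lit 366) (B (L (nat_lit 398) ln11_11_0 ln11_11_0_ok) (M (nat_lit 367) (B (L (nat_lit 494) ln15_11_5 ln15_11_5_ok) (L (nat_lit 334) ln15_14_7 ln15_14_7_ok))))))) (B (M (nat_lit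 496) (B (M (nat_lit 528) (B (L (nat_lit 560) ln15_13_4_c10 ln15_13_4_c10_ok) (L (nat_lit 399) ln15_12_4 ln15_12_4_ok))) (M (nat_lit 497) (B (L (nat_lit 498) ln18_15_3 ln18_15_3_ok) (L (nat_lit 494) ln17_15_3 ln17_15_3_ok))))) (M (nat_lit 559) (B (M (nat_lit 560) (B (L (nat_lit 592) ln15_14_4_c10 ln15_14_4_c10_ok) (L (nat_lit 528) ln15_13_4_c10 ln15_13_4_c10_ok))) (M (nat_lit 591) (B (L (nat_lit 494) ln15_18_7 ln15_18_7_ok) (M (nat_lit 590) (B (L (nat_lit 622) ln15_15_5_c10 ln15_15_5_c10_ok) (L (nat_lit 558) ln15_14_5_c10 ln15_14_5_c10_ok)))))))))))) (B (M (nat_lit 431) (B (M (nat_lit 399) (B (M (nat_lit 528) (B (L (nat_lit 560) ln15_13_4_c10 ln15_13_4_c10_ok) (L (nat_lit 496) ln15_12_4 ln15_12_4_ok))) (M (nat_lit 400) (B (L (nat_lit 432) ln15_16_6 ln15_16_6_ok) (L (nat_lit 368) ln15_15_6 ln15_15_6_ok))))) (B (M (nat_lit 399) (B (M (nat_lit 400) (B (L (nat_lit 432) ln15_16_6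 ln15_16_6_ok) (L (nat_lit 368) ln15_15_6 ln15_15_6_ok))) (M (nat_lit 494) (B (L (nat_lit 526) ln15_12_5 ln15_12_5_ok) (L (nat_lit 367) ln15_11_5 ln15_11_5_ok))))) (B (M (nat_lit 496) (B (M (nat_lit 528) (B (L (nat_lit 560) ln15_13_4_c10 ln15_13_4_c10_ok) (L (nat_lit 399) ln15_12_4 ln15_12_4_ok))) (M (nat_lit 497) (B (L (nat_lit 498) ln18_15_3 ln18_15_3_ok) (L (nat_lit 494) ln17_15_3 ln17_15_3_ok))))) (M (nat_lit 559) (B (M (nat_lit 560) (B (L (nat_lit 592) ln15_14_4_c10 ln15_14_4_c10_ok) (L (nat_lit 528) ln15_13_4_c10 ln15_13_4_c10_ok))) (B (M (nat_lit 591) (B (L (nat_lit 494) ln15_18_7 ln15_18_7_ok) (M (nat_lit 623) (B (M (nat_lit 622) (B (L (nat_lit 654) ln15_16_5_c10 ln15_16_5_c10_ok) (L (nat_lit 590) ln15_15_5_c10 ln15_15_5_c10_ok))) (M (nat_lit 528) (B (L (nat_lit 496) ln15_19_6_c10 ln15_19_6_c10_ok) (L (nat_lit 560) ln15_13_4_c10 ln15_13_4_c10_ok))))))) (M (nat_lit 591)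 (B (L (nat_lit 494) ln15_18_7 ln15_18_7_ok) (M (nat_lit 623) (B (M (nat_lit 624) (B (L (nat_lit 656) ln15_16_4_c10 ln15_16_4_c10_ok) (L (nat_lit 592) ln15_15_4_c10 ln15_15_4_c10_ok))) (M (nat_lit 622) (B (L (nat_lit 654) ln15_16_5_c10 ln15_16_5_c10_ok) (L (nat_lit 590) ln15_15_5_c10 ln15_15_5_c10_ok)))))))))))))) (B (M (nat_lit 558) (B (M (nat_lit 526) (B (L (nat_lit 431) ln15_13_5_c10 ln15_13_5_c10_ok) (M (nat_lit 590) (B (L (nat_lit 622) ln14_19_6 ln14_19_6_ok) (L (nat_lit 494) ln14_17_7 ln14_17_7_ok))))) (B (M (nat_lit 526) (B (L (nat_lit 431) ln15_13_5_c10 ln15_13_5_c10_ok) (M (nat_lit 590) (B (L (nat_lit 559) ln15_14_5_c10 ln15_14_5_c10_ok) (L (nat_lit 494) ln14_17_7 ln14_17_7_ok))))) (B (M (nat_lit 559) (B (M (nat_lit 494) (B (L (nat_lit 591) ln15_18_7 ln15_18_7_ok) (L (nat_lit 526) ln14_17_7 ln14_17_7_ok))) (B (M (nat_lit 526) (B (L (nat_lit 431) ln15_13_5_c10 ln15_13_5_c10_ok)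 (M (nat_lit 560) (B (L (nat_lit 592) ln15_14_4_c10 ln15_14_4_c10_ok) (M (nat_lit 525) (B (L (nat_lit 561) ln17_17_3 ln17_17_3_ok) (L (nat_lit 524) ln12_16_0 ln12_16_0_ok))))))) (M (nat_lit 591) (B (L (nat_lit 494) ln15_18_7 ln15_18_7_ok) (M (nat_lit 592) (B (L (nat_lit 624) ln15_15_4_c10 ln15_15_4_c10_ok) (L (nat_lit 560) ln15_14_4_c10 ln15_14_4_c10_ok)))))))) (B (M (nat_lit 559) (B (L (nat_lit 590) ln15_14_5_c10 ln15_14_5_c10_ok) (M (nat_lit 591) (B (L (nat_lit 494) ln15_18_7 ln15_18_7_ok) (M (nat_lit 592) (B (L (nat_lit 624) ln15_15_4_c10 ln15_15_4_c10_ok) (L (nat_lit 560) ln15_14_4_c10 ln15_14_4_c10_ok))))))) (M (nat_lit 526) (B (L (nat_lit 431) ln15_13_5_c10 ln15_13_5_c10_ok) (M (nat_lit 590) (B (L (nat_lit 622) ln14_19_6 ln14_19_6_ok) (L (nat_lit 559) ln15_14_5_c10 ln15_14_5_c10_ok)))))))))) c10_d159)))))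
noncomputable def c10_d161 : Cert := (B (M (nat_lit 527) (B (M (nat_lit 496) (B (M (nat_lit 497) (B (L (nat_lit 498) ln18_15_3 ln18_15_3_ok) (L (nat_lit 494) ln17_15_3 ln17_15_3_ok))) (B (M (nat_lit 526) (B (M (nat_lit 497) (B (L (nat_lit 494) ln17_15_3 ln17_15_3_ok) (M (nat_lit 525) (B (L (nat_lit 528) ln13_16_2 ln13_16_2_ok) (L (nat_lit 524) ln12_16_2 ln12_16_2_ok))))) (M (nat_lit 558) (B (L (nat_lit 431) ln15_13_5_c10 ln15_13_5_c10_ok) (M (nat_lit 590) (B (L (nat_lit 559) ln15_14_5_c10 ln15_14_5_c10_ok) (L (nat_lit 622) ln14_19_6 ln14_19_6_ok))))))) (B (M (nat_lit 431) (B (M (nat_lit 528) (B (L (nat_lit 560) ln15_13_4_c10 ln15_13_4_c10_ok) (L (nat_lit 399) ln15_12_4 ln15_12_4_ok))) (B (M (nat_lit 399) (B (L (nat_lit 528) ln15_12_4 ln15_12_4_ok) (M (nat_lit 400) (B (L (nat_lit 432) ln15_16_6 ln15_16_6_ok) (L (nat_lit 368) ln15_15_6 ln15_15_6_ok))))) (B (M (nat_lit 399) (B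 (M (nat_lit 400) (B (L (nat_lit 432) ln15_16_6 ln15_16_6_ok) (L (nat_lit 368) ln15_15_6 ln15_15_6_ok))) (M (nat_lit 526) (B (L (nat_lit 558) ln15_13_5_c10 ln15_13_5_c10_ok) (L (nat_lit 494) ln15_12_5 ln15_12_5_ok))))) (M (nat_lit 559) (B (M (nat_lit 560) (B (L (nat_lit 592) ln15_14_4_c10 ln15_14_4_c10_ok) (L (nat_lit 528) ln15_13_4_c10 ln15_13_4_c10_ok))) (M (nat_lit 558) (B (L (nat_lit 590) ln15_14_5_c10 ln15_14_5_c10_ok) (L (nat_lit 526) ln15_13_5_c10 ln15_13_5_c10_ok))))))))) (M (nat_lit 526) (B (M (nat_lit 558) (B (L (nat_lit 431) ln15_13_5_c10 ln15_13_5_c10_ok) (M (nat_lit 590) (B (L (nat_lit 559) ln15_14_5_c10 ln15_14_5_c10_ok) (L (nat_lit 622) ln14_19_6 ln14_19_6_ok))))) (M (nat_lit 497) (B (L (nat_lit 498) ln18_15_1_c10 ln18_15_1_c10_ok) (M (nat_lit 525) (B (L (nat_lit 528) ln13_16_2 ln13_16_2_ok) (L (nat_lit 524) ln12_16_2 ln12_16_2_ok))))))))))) (B (M (nat_lit 496)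 (B (M (nat_lit 497) (B (L (nat_lit 498) ln18_15_3 ln18_15_3_ok) (L (nat_lit 494) ln17_15_3 ln17_15_3_ok))) (B (M (nat_lit 526) (B (M (nat_lit 497) (B (L (nat_lit 494) ln17_15_3 ln17_15_3_ok) (M (nat_lit 525) (B (L (nat_lit 528) ln13_16_2 ln13_16_2_ok) (L (nat_lit 524) ln12_16_2 ln12_16_2_ok))))) (M (nat_lit 558) (B (L (nat_lit 431) ln15_13_5_c10 ln15_13_5_c10_ok) (M (nat_lit 590) (B (L (nat_lit 559) ln15_14_5_c10 ln15_14_5_c10_ok) (L (nat_lit 622) ln14_19_6 ln14_19_6_ok))))))) (B (M (nat_lit 559) (B (M (nat_lit 591) (B (L (nat_lit 494) ln15_18_7 ln15_18_7_ok) (M (nat_lit 590) (B (L (nat_lit 622) ln15_15_5_c10 ln15_15_5_c10_ok) (L (nat_lit 558) ln15_14_5_c10 ln15_14_5_c10_ok))))) (B (M (nat_lit 431) (B (M (nat_lit 528) (B (L (nat_lit 560) ln15_13_4_c10 ln15_13_4_c10_ok) (L (nat_lit 399) ln15_12_4 ln15_12_4_ok))) (M (nat_lit 558) (B (L (nat_lit 590) ln15_14_5_c10 ln15_14_5_c10_ok)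 (L (nat_lit 526) ln15_13_5_c10 ln15_13_5_c10_ok))))) (M (nat_lit 528) (B (M (nat_lit 591) (B (L (nat_lit 623) ln15_19_6_c10 ln15_19_6_c10_ok) (L (nat_lit 494) ln15_18_7 ln15_18_7_ok))) (M (nat_lit 431) (B (L (nat_lit 560) ln15_13_4_c10 ln15_13_4_c10_ok) (L (nat_lit 399) ln15_12_4 ln15_12_4_ok)))))))) (M (nat_lit 526) (B (M (nat_lit 558) (B (L (nat_lit 431) ln15_13_5_c10 ln15_13_5_c10_ok) (M (nat_lit 590) (B (L (nat_lit 559) ln15_14_5_c10 ln15_14_5_c10_ok) (L (nat_lit 622) ln14_19_6 ln14_19_6_ok))))) (M (nat_lit 497) (B (L (nat_lit 498) ln18_15_1_c10 ln18_15_1_c10_ok) (M (nat_lit 525) (B (L (nat_lit 528) ln13_16_2 ln13_16_2_ok) (L (nat_lit 524) ln12_16_2 ln12_16_2_ok))))))))))) (B (M (nat_lit 496) (B (M (nat_lit 497) (B (L (nat_lit 498) ln18_15_3 ln18_15_3_ok) (L (nat_lit 494) ln17_15_3 ln17_15_3_ok))) (B (M (nat_lit 526) (B (M (nat_lit 497) (B (L (nat_lit 494) ln17_15_3 ln17_15_3_ok)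 (M (nat_lit 525) (B (L (nat_lit 528) ln13_16_2 ln13_16_2_ok) (L (nat_lit 524) ln12_16_2 ln12_16_2_ok))))) (M (nat_lit 558) (B (L (nat_lit 431) ln15_13_5_c10 ln15_13_5_c10_ok) (M (nat_lit 590) (B (L (nat_lit 559) ln15_14_5_c10 ln15_14_5_c10_ok) (L (nat_lit 622) ln14_19_6 ln14_19_6_ok))))))) (B (M (nat_lit 559) (B (M (nat_lit 591) (B (L (nat_lit 494) ln15_18_7 ln15_18_7_ok) (M (nat_lit 590) (B (L (nat_lit 622) ln15_15_5_c10 ln15_15_5_c10_ok) (L (nat_lit 558) ln15_14_5_c10 ln15_14_5_c10_ok))))) (B (M (nat_lit 431) (B (M (nat_lit 558) (B (L (nat_lit 590) ln15_14_5_c10 ln15_14_5_c10_ok) (L (nat_lit 526) ln15_13_5_c10 ln15_13_5_c10_ok))) (M (nat_lit 399) (B (L (nat_lit 528) ln15_12_4 ln15_12_4_ok) (M (nat_lit 400) (B (L (nat_lit 432) ln15_16_6 ln15_16_6_ok) (L (nat_lit 368) ln15_15_6 ln15_15_6_ok))))))) (M (nat_lit 591) (B (L (nat_lit 494) ln15_18_7 ln15_18_7_ok) (M (nat_lit 624)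 (B (L (nat_lit 592) ln15_15_4_c10 ln15_15_4_c10_ok) (M (nat_lit 623) (B (L (nat_lit 656) ln15_16_4_c10 ln15_16_4_c10_ok) (L (nat_lit 528) ln15_19_6_c10 ln15_19_6_c10_ok)))))))))) (M (nat_lit 526) (B (M (nat_lit 558) (B (L (nat_lit 431) ln15_13_5_c10 ln15_13_5_c10_ok) (M (nat_lit 590) (B (L (nat_lit 559) ln15_14_5_c10 ln15_14_5_c10_ok) (L (nat_lit 622) ln14_19_6 ln14_19_6_ok))))) (M (nat_lit 497) (B (L (nat_lit 498) ln18_15_1_c10 ln18_15_1_c10_ok) (M (nat_lit 525) (B (L (nat_lit 528) ln13_16_2 ln13_16_2_ok) (L (nat_lit 524) ln12_16_2 ln12_16_2_ok))))))))))) c10_d160)))) (B (M (nat_lit 431) (B (M (nat_lit 460) (B (L (nat_lit 432) ln12_14_2 ln12_14_2_ok) (M (nat_lit 494) (B (L (nat_lit 459) ln11_14_0 ln11_14_0_ok) (M (nat_lit 399) (B (L (nat_lit 526) ln15_12_5 ln15_12_5_ok) (L (nat_lit 367) ln15_11_5 ln15_11_5_ok))))))) (B (M (nat_lit 527) (B (M (nat_lit 559) (B (M (nat_lit 560)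 (B (L (nat_lit 592) ln15_14_4_c10 ln15_14_4_c10_ok) (L (nat_lit 528) ln15_13_4_c10 ln15_13_4_c10_ok))) (M (nat_lit 558) (B (L (nat_lit 590) ln15_14_5_c10 ln15_14_5_c10_ok) (L (nat_lit 526) ln15_13_5_c10 ln15_13_5_c10_ok))))) (B (M (nat_lit 559) (B (M (nat_lit 558) (B (L (nat_lit 590) ln15_14_5_c10 ln15_14_5_c10_ok) (L (nat_lit 526) ln15_13_5_c10 ln15_13_5_c10_ok))) (B (M (nat_lit 494) (B (L (nat_lit 591) ln15_18_7 ln15_18_7_ok) (M (nat_lit 526) (B (L (nat_lit 558) ln15_13_5_c10 ln15_13_5_c10_ok) (L (nat_lit 399) ln15_12_5 ln15_12_5_ok))))) (B (M (nat_lit 494) (B (L (nat_lit 591) ln15_18_7 ln15_18_7_ok) (M (nat_lit 399) (B (L (nat_lit 526) ln15_12_5 ln15_12_5_ok) (L (nat_lit 367) ln15_11_5 ln15_11_5_ok))))) (M (nat_lit 591) (B (L (nat_lit 494) ln15_18_7 ln15_18_7_ok) (M (nat_lit 590) (B (L (nat_lit 622) ln15_15_5_c10 ln15_15_5_c10_ok) (L (nat_lit 558) ln15_14_5_c10 ln15_14_5_c10_ok)))))))))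 (B (M (nat_lit 399) (B (M (nat_lit 526) (B (L (nat_lit 558) ln15_13_5_c10 ln15_13_5_c10_ok) (L (nat_lit 494) ln15_12_5 ln15_12_5_ok))) (B (M (nat_lit 494) (B (L (nat_lit 526) ln15_12_5 ln15_12_5_ok) (L (nat_lit 367) ln15_11_5 ln15_11_5_ok))) (B (M (nat_lit 367) (B (L (nat_lit 494) ln15_11_5 ln15_11_5_ok) (M (nat_lit 368) (B (L (nat_lit 400) ln15_15_6 ln15_15_6_ok) (L (nat_lit 336) ln15_14_6 ln15_14_6_ok))))) (M (nat_lit 367) (B (M (nat_lit 368) (B (L (nat_lit 400) ln15_15_6 ln15_15_6_ok) (L (nat_lit 336) ln15_14_6 ln15_14_6_ok))) (M (nat_lit 366) (B (L (nat_lit 398) ln11_11_0 ln11_11_0_ok) (L (nat_lit 334) ln15_14_7 ln15_14_7_ok))))))))) (B (M (nat_lit 560) (B (L (nat_lit 528) ln15_13_4_c10 ln15_13_4_c10_ok) (M (nat_lit 494) (B (M (nat_lit 559) (B (L (nat_lit 592) ln15_14_4_c10 ln15_14_4_c10_ok) (L (nat_lit 591) ln15_18_7 ln15_18_7_ok))) (M (nat_lit 399) (B (L (nat_lit 526)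 ln15_12_5 ln15_12_5_ok) (L (nat_lit 367) ln15_11_5 ln15_11_5_ok))))))) (M (nat_lit 559) (B (M (nat_lit 560) (B (L (nat_lit 592) ln15_14_4_c10 ln15_14_4_c10_ok) (L (nat_lit 528) ln15_13_4_c10 ln15_13_4_c10_ok))) (M (nat_lit 591) (B (L (nat_lit 494) ln15_18_7 ln15_18_7_ok) (M (nat_lit 590) (B (L (nat_lit 622) ln15_15_5_c10 ln15_15_5_c10_ok) (L (nat_lit 558) ln15_14_5_c10 ln15_14_5_c10_ok)))))))))))) (B (M (nat_lit 460) (B (L (nat_lit 432) ln12_14_2 ln12_14_2_ok) (M (nat_lit 491) (B (L (nat_lit 492) ln15_14_1 ln15_14_1_ok) (M (nat_lit 459) (B (L (nat_lit 494) ln11_14_0 ln11_14_0_ok) (L (nat_lit 490) ln14_14_1 ln14_14_1_ok))))))) (M (nat_lit 432) (B (L (nat_lit 460) ln12_14_2 ln12_14_2_ok) (M (nat_lit 400) (B (L (nat_lit 527) ln15_16_6 ln15_16_6_ok) (M (nat_lit 368) (B (L (nat_lit 336) ln16_10_5 ln16_10_5_ok) (L (nat_lit 399) ln15_15_6 ln15_15_6_ok))))))))))) (B (M (nat_lit 460)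 (B (M (nat_lit 459) (B (M (nat_lit 458) (B (M (nat_lit 426) (B (L (nat_lit 425) ln13_14_3 ln13_14_3_ok) (L (nat_lit 331) ln10_14_6 ln10_14_6_ok))) (L (nat_lit 457) ln9_14_2 ln9_14_2_ok))) (M (nat_lit 491) (B (L (nat_lit 492) ln15_14_1 ln15_14_1_ok) (L (nat_lit 490) ln14_14_1 ln14_14_1_ok))))) (L (nat_lit 496) ln12_14_0 ln12_14_0_ok))) (M (nat_lit 496) (B (M (nat_lit 497) (B (L (nat_lit 494) ln17_15_3 ln17_15_3_ok) (L (nat_lit 498) ln18_15_3 ln18_15_3_ok))) (L (nat_lit 460) ln12_14_0 ln12_14_0_ok))))))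
noncomputable def c10_d162 : Cert := (B (M (nat_lit 362) (B (M (nat_lit 394) (B (M (nat_lit 462) (B (M (nat_lit 463) (B (M (nat_lit 495) c10_d161) (L (nat_lit 464) ln16_14_3 ln16_14_3_ok))) (B (M (nat_lit 426) (B (M (nat_lit 458) (B (L (nat_lit 331) ln10_14_6 ln10_14_6_ok) (M (nat_lit 489) (B (L (nat_lit 457) ln10_11_5 ln10_11_5_ok) (M (nat_lit 491) (B (L (nat_lit 459) ln10_11_4 ln10_11_4_ok) (M (nat_lit 490) (B (L (nat_lit 521) ln10_12_5 ln10_12_5_ok) (L (nat_lit 523) ln10_12_4 ln10_12_4_ok))))))))) (L (nat_lit 427) ln10_13_0 ln10_13_0_ok))) (B (M (nat_lit 463) (B (L (nat_lit 464) ln16_14_3 ln16_14_3_ok) (M (nat_lit 460) (B (L (nat_lit 427) ln15_14_3 ln15_14_3_ok) (M (nat_lit 459) (B (M (nat_lit 491) (B (L (nat_lit 490) ln14_14_1 ln14_14_1_ok) (L (nat_lit 492) ln15_14_1 ln15_14_1_ok))) (M (nat_lit 495) (B (L (nat_lit 494) ln11_14_0 ln11_14_0_ok) (L (nat_lit 496) ln12_14_0 ln12_14_0_ok)))))))))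 (M (nat_lit 463) (B (M (nat_lit 427) (B (L (nat_lit 460) ln15_14_3 ln15_14_3_ok) (L (nat_lit 426) ln10_13_0 ln10_13_0_ok))) (L (nat_lit 464) ln16_14_3 ln16_14_3_ok))))))) (L (nat_lit 393) ln13_11_1 ln13_11_1_ok))) (B (M (nat_lit 361) (B (M (nat_lit 360) (B (M (nat_lit 328) (B (L (nat_lit 327) ln11_11_3 ln11_11_3_ok) (L (nat_lit 329) ln12_11_3 ln12_11_3_ok))) (M (nat_lit 392) (B (L (nat_lit 391) ln11_11_1 ln11_11_1_ok) (L (nat_lit 393) ln12_11_1 ln12_11_1_ok))))) (B (M (nat_lit 392) (B (L (nat_lit 393) ln12_11_1 ln12_11_1_ok) (M (nat_lit 360) (B (L (nat_lit 391) ln11_11_1 ln11_11_1_ok) (M (nat_lit 332) (B (L (nat_lit 331) ln8_11_2 ln8_11_2_ok) (L (nat_lit 333) ln9_11_2 ln9_11_2_ok))))))) (B (M (nat_lit 360) (B (M (nat_lit 328) (B (L (nat_lit 327) ln11_11_3 ln11_11_3_ok) (L (nat_lit 329) ln12_11_3 ln12_11_3_ok))) (M (nat_lit 332) (B (L (nat_lit 331) ln8_11_2 ln8_11_2_ok) (L (nat_lit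 333) ln9_11_2 ln9_11_2_ok))))) (M (nat_lit 393) (B (L (nat_lit 392) ln12_11_1 ln12_11_1_ok) (M (nat_lit 329) (B (L (nat_lit 328) ln12_11_3 ln12_11_3_ok) (M (nat_lit 297) (B (L (nat_lit 394) ln13_11_1 ln13_11_1_ok) (M (nat_lit 265) (B (M (nat_lit 264) (B (L (nat_lit 232) ln9_11_7_c10 ln9_11_7_c10_ok) (L (nat_lit 296) ln9_12_7_c10 ln9_12_7_c10_ok))) (M (nat_lit 266) (B (L (nat_lit 234) ln9_11_6_c10 ln9_11_6_c10_ok) (L (nat_lit 298) ln9_12_6_c10 ln9_12_6_c10_ok))))))))))))))) (B (M (nat_lit 366) (B (M (nat_lit 334) (B (L (nat_lit 335) ln11_11_2 ln11_11_2_ok) (L (nat_lit 333) ln10_11_2 ln10_11_2_ok))) (B (M (nat_lit 333) (B (L (nat_lit 334) ln10_11_2 ln10_11_2_ok) (M (nat_lit 332) (B (L (nat_lit 361) ln9_11_2 ln9_11_2_ok) (M (nat_lit 367) (B (L (nat_lit 368) ln16_11_3 ln16_11_3_ok) (L (nat_lit 331) ln15_11_3 ln15_11_3_ok))))))) (B (M (nat_lit 367) (B (M (nat_lit 399) (B (L (nat_lit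 400) ln12_11_0 ln12_11_0_ok) (L (nat_lit 398) ln11_11_0 ln11_11_0_ok))) (M (nat_lit 332) (B (L (nat_lit 331) ln15_11_3 ln15_11_3_ok) (M (nat_lit 333) (B (L (nat_lit 368) ln16_11_3 ln16_11_3_ok) (L (nat_lit 361) ln9_11_2 ln9_11_2_ok))))))) (M (nat_lit 367) (B (M (nat_lit 335) (B (L (nat_lit 336) ln12_11_2 ln12_11_2_ok) (L (nat_lit 334) ln11_11_2 ln11_11_2_ok))) (M (nat_lit 399) (B (L (nat_lit 400) ln12_11_0 ln12_11_0_ok) (L (nat_lit 398) ln11_11_0 ln11_11_0_ok))))))))) (M (nat_lit 333) (B (L (nat_lit 334) ln10_11_2 ln10_11_2_ok) (M (nat_lit 361) (B (L (nat_lit 332) ln9_11_2 ln9_11_2_ok) (M (nat_lit 360) (B (M (nat_lit 392) (B (L (nat_lit 393) ln12_11_1 ln12_11_1_ok) (L (nat_lit 391) ln11_11_1 ln11_11_1_ok))) (M (nat_lit 328) (B (L (nat_lit 329) ln12_11_3 ln12_11_3_ok) (L (nat_lit 327) ln11_11_3 ln11_11_3_ok))))))))))))) (B (M (nat_lit 460) (B (K (nat_lit 8931394246223919741660702096143128740880192478464903044691016872442593480537265575446063142856511203595172621904809346577872911053935869952)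 (nat_lit 344728266524137510402434499354379170964440561339356860303318163716471329896370751182399760632308046534766331168330842117286309959844707633087538765873985161393202650593689944847796166184884705047922182317512375402496) (nat_lit 344728266524137510402434499354379170964440561339356860303318163716471329896370751182399760632308046534766331168330842117286309959844707633087538765873985161393202650593689944847796166184884705047922182317512375402496) c10_s2) (M (nat_lit 396) (B (L (nat_lit 333) ln12_14_6 ln12_14_6_ok) (L (nat_lit 331) ln12_14_7 ln12_14_7_ok))))) (B (M (nat_lit 460) (B (K (nat_lit 8931394246223919741660702096143128740880192478464903044691016872442593480537265575446063142856511203595172621904809346577872911053935869952) (nat_lit 344728266524137510402434499354379170964440561339356860303318163716471329896370751182399760632308046534766331168330842117286309959844707633087538765873985161393202650593689944847796166184884705047922182317512375402496)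 (nat_lit 344728266524137510402434499354379170964440561339356860303318163716471329896370751182399760632308046534766331168330842117286309959844707633087538765873985161393202650593689944847796166184884705047922182317512375402496) c10_s2) (M (nat_lit 396) (B (L (nat_lit 332) ln12_10_4 ln12_10_4_ok) (L (nat_lit 331) ln12_14_7 ln12_14_7_ok))))) (B (M (nat_lit 460) (B (K (nat_lit 8931394246223919741660702096143128740880192478464903044691016872442593480537265575446063142856511203595172621904809346577872911053935869952) (nat_lit 344728266524137510402434499354379170964440561339356860303318163716471329896370751182399760632308046534766331168330842117286309959844707633087538765873985161393202650593689944847796166184884705047922182317512375402496) (nat_lit 344728266524137510402434499354379170964440561339356860303318163716471329896370751182399760632308046534766331168330842117286309959844707633087538765873985161393202650593689944847796166184884705047922182317512375402496)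 c10_s2) (M (nat_lit 396) (B (L (nat_lit 332) ln12_10_4 ln12_10_4_ok) (L (nat_lit 333) ln12_14_6 ln12_14_6_ok))))) (B (M (nat_lit 332) (B (M (nat_lit 362) (B (M (nat_lit 333) (B (L (nat_lit 361) ln9_11_2 ln9_11_2_ok) (L (nat_lit 334) ln10_11_2 ln10_11_2_ok))) (B (M (nat_lit 366) (B (M (nat_lit 334) (B (L (nat_lit 333) ln10_11_2 ln10_11_2_ok) (L (nat_lit 335) ln11_11_2 ln11_11_2_ok))) (M (nat_lit 367) (B (L (nat_lit 331) ln15_11_3 ln15_11_3_ok) (M (nat_lit 399) (B (L (nat_lit 398) ln11_11_0 ln11_11_0_ok) (L (nat_lit 400) ln12_11_0 ln12_11_0_ok))))))) (M (nat_lit 361) (B (M (nat_lit 393) (B (L (nat_lit 392) ln12_11_1 ln12_11_1_ok) (L (nat_lit 394) ln13_11_1 ln13_11_1_ok))) (M (nat_lit 360) (B (L (nat_lit 331) ln8_11_2 ln8_11_2_ok) (M (nat_lit 328) (B (L (nat_lit 327) ln11_11_3 ln11_11_3_ok) (L (nat_lit 329) ln12_11_3 ln12_11_3_ok)))))))))) (L (nat_lit 396) ln12_10_4 ln12_10_4_ok)))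 (M (nat_lit 396) (B (M (nat_lit 460) (B (L (nat_lit 333) ln12_14_6 ln12_14_6_ok) (L (nat_lit 331) ln12_14_7 ln12_14_7_ok))) (L (nat_lit 332) ln12_10_4 ln12_10_4_ok))))))))
theorem c10_s5 : Sem (nat_lit 5954262830815946494440468064139258622131906539230539000934078872806075061271132354550578193372942037532254438881195279021764289825886699520) (nat_lit 344728266524137510776189634871819711515864109360183184058402924530349117601545525520994855340377079357208362944450103387624009200694915560616293634613563802196382665981745703953340859708461933167236281743725303955456) (nat_lit 344728266524137510776189634871819711515864109360183184058402924530349117601545525520994855340377079357208362944450103387624009200694915560616293634613563802196382665981745703953340859708461933167236281743725303955456) :=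
  sem_of_chk (M (nat_lit 428) c10_d162) (nat_lit 5954262830815946494440468064139258622131906539230539000934078872806075061271132354550578193372942037532254438881195279021764289825886699520) (nat_lit 344728266524137510776189634871819711515864109360183184058402924530349117601545525520994855340377079357208362944450103387624009200694915560616293634613563802196382665981745703953340859708461933167236281743725303955456) (nat_lit 344728266524137510776189634871819711515864109360183184058402924530349117601545525520994855340377079357208362944450103387624009200694915560616293634613563802196382665981745703953340859708461933167236281743725303955456) (by decide +kernel)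
noncomputable def c10_d163 : Cert := (M (nat_lit 266) (B (M (nat_lit 361) (B (L (nat_lit 234) ln9_11_6_c10 ln9_11_6_c10_ok) (M (nat_lit 360) (B (L (nat_lit 392) ln9_8_5_c10 ln9_8_5_c10_ok) (L (nat_lit 332) ln12_10_1 ln12_10_1_ok))))) (B (M (nat_lit 300) (B (M (nat_lit 332) (B (L (nat_lit 301) ln9_10_2 ln9_10_2_ok) (M (nat_lit 268) (B (L (nat_lit 236) ln12_7_5 ln12_7_5_ok) (M (nat_lit 395) (B (L (nat_lit 299) ln11_12_6 ln11_12_6_ok) (L (nat_lit 427) ln11_13_6 ln11_13_6_ok))))))) (B (M (nat_lit 301) (B (L (nat_lit 332) ln9_10_2 ln9_10_2_ok) (M (nat_lit 299) (B (L (nat_lit 302) ln14_9_1_c10 ln14_9_1_c10_ok) (M (nat_lit 267) (B (L (nat_lit 268) ln9_8_0_c10 ln9_8_0_c10_ok) (L (nat_lit 264) ln8_8_0_c10 ln8_8_0_c10_ok))))))) (B (M (nat_lit 361) (B (M (nat_lit 332) (B (L (nat_lit 301) ln9_10_2 ln9_10_2_ok) (L (nat_lit 360) ln12_10_1 ln12_10_1_ok))) (B (M (nat_lit 360) (B (L (nat_lit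 392) ln9_8_5_c10 ln9_8_5_c10_ok) (L (nat_lit 332) ln12_10_1 ln12_10_1_ok))) (B (M (nat_lit 360) (B (L (nat_lit 392) ln9_8_5_c10 ln9_8_5_c10_ok) (M (nat_lit 359) (B (L (nat_lit 362) ln7_11_2 ln7_11_2_ok) (L (nat_lit 358) ln6_11_2_c10 ln6_11_2_c10_ok))))) (M (nat_lit 299) (B (M (nat_lit 264) (B (L (nat_lit 232) ln9_11_7_c10 ln9_11_7_c10_ok) (L (nat_lit 267) ln8_8_0_c10 ln8_8_0_c10_ok))) (M (nat_lit 301) (B (L (nat_lit 302) ln14_9_1_c10 ln14_9_1_c10_ok) (L (nat_lit 332) ln9_10_2 ln9_10_2_ok))))))))) (B (M (nat_lit 299) (B (M (nat_lit 268) (B (L (nat_lit 395) ln11_12_6 ln11_12_6_ok) (M (nat_lit 236) (B (L (nat_lit 204) ln12_6_5_c10 ln12_6_5_c10_ok) (L (nat_lit 332) ln12_7_5 ln12_7_5_ok))))) (B (M (nat_lit 268) (B (L (nat_lit 395) ln11_12_6 ln11_12_6_ok) (M (nat_lit 236) (B (L (nat_lit 267) ln11_11_6 ln11_11_6_ok) (L (nat_lit 332) ln12_7_5 ln12_7_5_ok))))) (B (M (nat_lit 361) (B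 (M (nat_lit 264) (B (L (nat_lit 232) ln9_11_7_c10 ln9_11_7_c10_ok) (L (nat_lit 267) ln8_8_0_c10 ln8_8_0_c10_ok))) (M (nat_lit 360) (B (L (nat_lit 392) ln9_8_5_c10 ln9_8_5_c10_ok) (L (nat_lit 332) ln12_10_1 ln12_10_1_ok))))) (M (nat_lit 268) (B (L (nat_lit 395) ln11_12_6 ln11_12_6_ok) (M (nat_lit 267) (B (L (nat_lit 236) ln11_11_6 ln11_11_6_ok) (L (nat_lit 264) ln8_8_0_c10 ln8_8_0_c10_ok))))))))) (B (M (nat_lit 264) (B (M (nat_lit 332) (B (L (nat_lit 301) ln9_10_2 ln9_10_2_ok) (M (nat_lit 361) (B (L (nat_lit 232) ln9_11_7_c10 ln9_11_7_c10_ok) (L (nat_lit 360) ln12_10_1 ln12_10_1_ok))))) (B (M (nat_lit 268) (B (M (nat_lit 332) (B (L (nat_lit 236) ln12_7_5 ln12_7_5_ok) (L (nat_lit 301) ln9_10_2 ln9_10_2_ok))) (B (M (nat_lit 301) (B (L (nat_lit 267) ln9_8_0_c10 ln9_8_0_c10_ok) (L (nat_lit 332) ln9_10_2 ln9_10_2_ok))) (B (M (nat_lit 236) (B (L (nat_lit 332) ln12_7_5 ln12_7_5_ok)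 (M (nat_lit 267) (B (L (nat_lit 237) ln9_8_2_c10 ln9_8_2_c10_ok) (L (nat_lit 235) ln8_8_2_c10 ln8_8_2_c10_ok))))) (M (nat_lit 267) (B (L (nat_lit 301) ln9_8_0_c10 ln9_8_0_c10_ok) (M (nat_lit 236) (B (L (nat_lit 237) ln9_8_2_c10 ln9_8_2_c10_ok) (L (nat_lit 235) ln8_8_2_c10 ln8_8_2_c10_ok))))))))) (B (M (nat_lit 361) (B (L (nat_lit 232) ln9_11_7_c10 ln9_11_7_c10_ok) (M (nat_lit 360) (B (L (nat_lit 392) ln9_8_5_c10 ln9_8_5_c10_ok) (L (nat_lit 332) ln12_10_1 ln12_10_1_ok))))) (M (nat_lit 361) (B (L (nat_lit 232) ln9_11_7_c10 ln9_11_7_c10_ok) (M (nat_lit 360) (B (L (nat_lit 392) ln9_8_5_c10 ln9_8_5_c10_ok) (M (nat_lit 359) (B (L (nat_lit 362) ln7_11_2 ln7_11_2_ok) (L (nat_lit 358) ln6_11_2_c10 ln6_11_2_c10_ok))))))))))) (M (nat_lit 361) (B (M (nat_lit 360) (B (L (nat_lit 392) ln9_8_5_c10 ln9_8_5_c10_ok) (M (nat_lit 359) (B (L (nat_lit 362) ln7_11_2 ln7_11_2_ok) (L (nat_lit 358) ln6_11_2_c10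 ln6_11_2_c10_ok))))) (M (nat_lit 267) (B (M (nat_lit 264) (B (L (nat_lit 232) ln9_11_7_c10 ln9_11_7_c10_ok) (L (nat_lit 299) ln8_8_0_c10 ln8_8_0_c10_ok))) (B (M (nat_lit 268) (B (L (nat_lit 301) ln9_8_0_c10 ln9_8_0_c10_ok) (M (nat_lit 299) (B (L (nat_lit 236) ln11_11_6 ln11_11_6_ok) (L (nat_lit 264) ln8_8_0_c10 ln8_8_0_c10_ok))))) (B (M (nat_lit 268) (B (L (nat_lit 301) ln9_8_0_c10 ln9_8_0_c10_ok) (M (nat_lit 236) (B (L (nat_lit 237) ln9_8_2_c10 ln9_8_2_c10_ok) (L (nat_lit 299) ln11_11_6 ln11_11_6_ok))))) (M (nat_lit 236) (B (M (nat_lit 268) (B (L (nat_lit 237) ln9_8_2_c10 ln9_8_2_c10_ok) (L (nat_lit 301) ln9_8_0_c10 ln9_8_0_c10_ok))) (M (nat_lit 264) (B (L (nat_lit 235) ln8_8_2_c10 ln8_8_2_c10_ok) (L (nat_lit 232) ln9_11_7_c10 ln9_11_7_c10_ok))))))))))))))))) (B (M (nat_lit 361) (B (L (nat_lit 234) ln9_11_6_c10 ln9_11_6_c10_ok) (M (nat_lit 360) (B (L (nat_lit 392) ln9_8_5_c10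 ln9_8_5_c10_ok) (M (nat_lit 359) (B (L (nat_lit 362) ln7_11_2 ln7_11_2_ok) (L (nat_lit 358) ln6_11_2_c10 ln6_11_2_c10_ok))))))) (M (nat_lit 299) (B (M (nat_lit 267) (B (L (nat_lit 234) ln11_11_7 ln11_11_7_ok) (M (nat_lit 236) (B (L (nat_lit 268) ln11_11_6 ln11_11_6_ok) (M (nat_lit 235) (B (L (nat_lit 264) ln8_8_2_c10 ln8_8_2_c10_ok) (L (nat_lit 362) ln11_7_5 ln11_7_5_ok))))))) (B (M (nat_lit 300) (B (M (nat_lit 267) (B (L (nat_lit 234) ln11_11_7 ln11_11_7_ok) (L (nat_lit 264) ln8_8_0_c10 ln8_8_0_c10_ok))) (M (nat_lit 301) (B (L (nat_lit 302) ln14_9_1_c10 ln14_9_1_c10_ok) (L (nat_lit 332) ln9_10_2 ln9_10_2_ok))))) (B (M (nat_lit 300) (B (M (nat_lit 301) (B (L (nat_lit 302) ln14_9_1_c10 ln14_9_1_c10_ok) (L (nat_lit 332) ln9_10_2 ln9_10_2_ok))) (B (M (nat_lit 268) (B (L (nat_lit 395) ln11_12_6 ln11_12_6_ok) (M (nat_lit 267) (B (L (nat_lit 301) ln9_8_0_c10 ln9_8_0_c10_ok) (L (nat_lit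 264) ln8_8_0_c10 ln8_8_0_c10_ok))))) (M (nat_lit 268) (B (L (nat_lit 395) ln11_12_6 ln11_12_6_ok) (M (nat_lit 236) (B (L (nat_lit 204) ln12_6_5_c10 ln12_6_5_c10_ok) (L (nat_lit 332) ln12_7_5 ln12_7_5_ok)))))))) (M (nat_lit 395) (B (M (nat_lit 300) (B (L (nat_lit 268) ln11_12_6 ln11_12_6_ok) (M (nat_lit 301) (B (L (nat_lit 302) ln14_9_1_c10 ln14_9_1_c10_ok) (L (nat_lit 332) ln9_10_2 ln9_10_2_ok))))) (M (nat_lit 427) (B (M (nat_lit 428) (B (L (nat_lit 396) ln11_9_4 ln11_9_4_ok) (L (nat_lit 460) ln11_10_4 ln11_10_4_ok))) (M (nat_lit 459) (B (L (nat_lit 362) ln11_14_7 ln11_14_7_ok) (M (nat_lit 458) (B (L (nat_lit 426) ln11_10_5 ln11_10_5_ok) (L (nat_lit 490) ln11_11_5 ln11_11_5_ok)))))))))))))))))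
noncomputable def c10_d164 : Cert := (B (M (nat_lit 265) (B (M (nat_lit 233) (B (L (nat_lit 362) ln9_7_4_c10 ln9_7_4_c10_ok) (M (nat_lit 234) (B (L (nat_lit 202) ln9_10_6_c10 ln9_10_6_c10_ok) (M (nat_lit 361) (B (L (nat_lit 266) ln9_11_6_c10 ln9_11_6_c10_ok) (M (nat_lit 232) (B (L (nat_lit 200) ln9_10_7_c10 ln9_10_7_c10_ok) (L (nat_lit 264) ln9_11_7_c10 ln9_11_7_c10_ok))))))))) (B (M (nat_lit 233) (B (L (nat_lit 362) ln9_7_4_c10 ln9_7_4_c10_ok) (M (nat_lit 361) (B (M (nat_lit 232) (B (L (nat_lit 200) ln9_10_7_c10 ln9_10_7_c10_ok) (L (nat_lit 264) ln9_11_7_c10 ln9_11_7_c10_ok))) (M (nat_lit 360) (B (L (nat_lit 392) ln9_8_5_c10 ln9_8_5_c10_ok) (L (nat_lit 332) ln12_10_1 ln12_10_1_ok))))))) (B (M (nat_lit 233) (B (L (nat_lit 362) ln9_7_4_c10 ln9_7_4_c10_ok) (M (nat_lit 361) (B (M (nat_lit 234) (B (L (nat_lit 202) ln9_10_6_c10 ln9_10_6_c10_ok) (L (nat_lit 266) ln9_11_6_c10 ln9_11_6_c10_ok)))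 (M (nat_lit 360) (B (L (nat_lit 392) ln9_8_5_c10 ln9_8_5_c10_ok) (L (nat_lit 332) ln12_10_1 ln12_10_1_ok))))))) (B c10_d163 (B (M (nat_lit 361) (B (M (nat_lit 360) (B (L (nat_lit 392) ln9_8_5_c10 ln9_8_5_c10_ok) (L (nat_lit 332) ln12_10_1 ln12_10_1_ok))) (M (nat_lit 233) (B (M (nat_lit 234) (B (L (nat_lit 202) ln9_10_6_c10 ln9_10_6_c10_ok) (L (nat_lit 266) ln9_11_6_c10 ln9_11_6_c10_ok))) (M (nat_lit 232) (B (L (nat_lit 200) ln9_10_7_c10 ln9_10_7_c10_ok) (L (nat_lit 264) ln9_11_7_c10 ln9_11_7_c10_ok))))))) (M (nat_lit 233) (B (L (nat_lit 362) ln9_7_4_c10 ln9_7_4_c10_ok) (M (nat_lit 201) (B (M (nat_lit 202) (B (L (nat_lit 170) ln9_9_6_c10 ln9_9_6_c10_ok) (L (nat_lit 234) ln9_10_6_c10 ln9_10_6_c10_ok))) (M (nat_lit 200) (B (L (nat_lit 168) ln9_9_7_c10 ln9_9_7_c10_ok) (L (nat_lit 232) ln9_10_7_c10 ln9_10_7_c10_ok))))))))))))) (M (nat_lit 265) (B (M (nat_lit 233) (B (L (nat_lit 362)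 ln9_7_4_c10 ln9_7_4_c10_ok) (M (nat_lit 234) (B (L (nat_lit 202) ln9_10_6_c10 ln9_10_6_c10_ok) (M (nat_lit 361) (B (L (nat_lit 266) ln9_11_6_c10 ln9_11_6_c10_ok) (M (nat_lit 232) (B (L (nat_lit 200) ln9_10_7_c10 ln9_10_7_c10_ok) (L (nat_lit 264) ln9_11_7_c10 ln9_11_7_c10_ok))))))))) (B (M (nat_lit 361) (B (M (nat_lit 360) (B (L (nat_lit 392) ln9_8_5_c10 ln9_8_5_c10_ok) (M (nat_lit 362) (B (L (nat_lit 233) ln9_7_4_c10 ln9_7_4_c10_ok) (L (nat_lit 359) ln7_11_2 ln7_11_2_ok))))) (B (M (nat_lit 360) (B (L (nat_lit 392) ln9_8_5_c10 ln9_8_5_c10_ok) (M (nat_lit 359) (B (L (nat_lit 362) ln7_11_2 ln7_11_2_ok) (L (nat_lit 358) ln6_11_2_c10 ln6_11_2_c10_ok))))) (B (M (nat_lit 393) (B (M (nat_lit 264) (B (L (nat_lit 232) ln9_11_7_c10 ln9_11_7_c10_ok) (L (nat_lit 296) ln9_12_7_c10 ln9_12_7_c10_ok))) (M (nat_lit 392) (B (L (nat_lit 360) ln9_8_5_c10 ln9_8_5_c10_ok) (L (nat_lit 424) ln9_9_5_c10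 ln9_9_5_c10_ok))))) (M (nat_lit 233) (B (L (nat_lit 362) ln9_7_4_c10 ln9_7_4_c10_ok) (M (nat_lit 232) (B (L (nat_lit 200) ln9_10_7_c10 ln9_10_7_c10_ok) (L (nat_lit 264) ln9_11_7_c10 ln9_11_7_c10_ok))))))))) (B (M (nat_lit 233) (B (L (nat_lit 362) ln9_7_4_c10 ln9_7_4_c10_ok) (M (nat_lit 361) (B (M (nat_lit 234) (B (L (nat_lit 202) ln9_10_6_c10 ln9_10_6_c10_ok) (L (nat_lit 266) ln9_11_6_c10 ln9_11_6_c10_ok))) (M (nat_lit 393) (B (M (nat_lit 264) (B (L (nat_lit 232) ln9_11_7_c10 ln9_11_7_c10_ok) (L (nat_lit 296) ln9_12_7_c10 ln9_12_7_c10_ok))) (M (nat_lit 392) (B (L (nat_lit 360) ln9_8_5_c10 ln9_8_5_c10_ok) (L (nat_lit 424) ln9_9_5_c10 ln9_9_5_c10_ok))))))))) (B (M (nat_lit 361) (B (M (nat_lit 360) (B (L (nat_lit 392) ln9_8_5_c10 ln9_8_5_c10_ok) (M (nat_lit 359) (B (L (nat_lit 362) ln7_11_2 ln7_11_2_ok) (L (nat_lit 358) ln6_11_2_c10 ln6_11_2_c10_ok))))) (M (nat_lit 264) (B (L (nat_lit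 232) ln9_11_7_c10 ln9_11_7_c10_ok) (M (nat_lit 266) (B (L (nat_lit 234) ln9_11_6_c10 ln9_11_6_c10_ok) (M (nat_lit 296) (B (L (nat_lit 393) ln9_12_7_c10 ln9_12_7_c10_ok) (M (nat_lit 267) (B (L (nat_lit 268) ln12_8_1_c10 ln12_8_1_c10_ok) (L (nat_lit 295) ln11_8_1_c10 ln11_8_1_c10_ok))))))))))) (B (M (nat_lit 234) (B (M (nat_lit 233) (B (L (nat_lit 202) ln9_10_6_c10 ln9_10_6_c10_ok) (L (nat_lit 362) ln9_7_4_c10 ln9_7_4_c10_ok))) (B (M (nat_lit 361) (B (L (nat_lit 266) ln9_11_6_c10 ln9_11_6_c10_ok) (M (nat_lit 360) (B (L (nat_lit 392) ln9_8_5_c10 ln9_8_5_c10_ok) (M (nat_lit 362) (B (L (nat_lit 233) ln9_7_4_c10 ln9_7_4_c10_ok) (L (nat_lit 359) ln7_11_2 ln7_11_2_ok))))))) (B (M (nat_lit 361) (B (L (nat_lit 266) ln9_11_6_c10 ln9_11_6_c10_ok) (M (nat_lit 360) (B (L (nat_lit 392) ln9_8_5_c10 ln9_8_5_c10_ok) (M (nat_lit 359) (B (L (nat_lit 362) ln7_11_2 ln7_11_2_ok) (L (nat_lit 358) ln6_11_2_c10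 ln6_11_2_c10_ok))))))) (M (nat_lit 266) (B (L (nat_lit 361) ln9_11_6_c10 ln9_11_6_c10_ok) (M (nat_lit 202) (B (L (nat_lit 170) ln10_5_5_c10 ln10_5_5_c10_ok) (L (nat_lit 233) ln9_10_6_c10 ln9_10_6_c10_ok))))))))) (B (M (nat_lit 234) (B (M (nat_lit 266) (B (L (nat_lit 361) ln9_11_6_c10 ln9_11_6_c10_ok) (M (nat_lit 202) (B (L (nat_lit 170) ln10_5_5_c10 ln10_5_5_c10_ok) (L (nat_lit 233) ln9_10_6_c10 ln9_10_6_c10_ok))))) (B (M (nat_lit 232) (B (M (nat_lit 233) (B (L (nat_lit 202) ln9_10_6_c10 ln9_10_6_c10_ok) (L (nat_lit 200) ln9_10_7_c10 ln9_10_7_c10_ok))) (M (nat_lit 361) (B (L (nat_lit 266) ln9_11_6_c10 ln9_11_6_c10_ok) (L (nat_lit 264) ln9_11_7_c10 ln9_11_7_c10_ok))))) (B (M (nat_lit 266) (B (L (nat_lit 361) ln9_11_6_c10 ln9_11_6_c10_ok) (M (nat_lit 267) (B (L (nat_lit 299) ln11_11_7 ln11_11_7_ok) (M (nat_lit 296) (B (L (nat_lit 268) ln12_8_1_c10 ln12_8_1_c10_ok) (M (nat_lit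 295) (B (L (nat_lit 264) ln11_8_1_c10 ln11_8_1_c10_ok) (L (nat_lit 294) ln6_9_0_c10 ln6_9_0_c10_ok))))))))) (B (M (nat_lit 233) (B (L (nat_lit 202) ln9_10_6_c10 ln9_10_6_c10_ok) (M (nat_lit 232) (B (L (nat_lit 200) ln9_10_7_c10 ln9_10_7_c10_ok) (M (nat_lit 264) (B (L (nat_lit 361) ln9_11_7_c10 ln9_11_7_c10_ok) (M (nat_lit 235) (B (L (nat_lit 236) ln12_7_1_c10 ln12_7_1_c10_ok) (L (nat_lit 263) ln11_7_1_c10 ln11_7_1_c10_ok))))))))) (M (nat_lit 266) (B (M (nat_lit 202) (B (L (nat_lit 170) ln10_5_5_c10 ln10_5_5_c10_ok) (L (nat_lit 233) ln9_10_6_c10 ln9_10_6_c10_ok))) (M (nat_lit 267) (B (L (nat_lit 299) ln11_11_7 ln11_11_7_ok) (M (nat_lit 296) (B (L (nat_lit 268) ln12_8_1_c10 ln12_8_1_c10_ok) (M (nat_lit 295) (B (L (nat_lit 264) ln11_8_1_c10 ln11_8_1_c10_ok) (L (nat_lit 294) ln6_9_0_c10 ln6_9_0_c10_ok)))))))))))))) (M (nat_lit 233) (B (L (nat_lit 362) ln9_7_4_c10 ln9_7_4_c10_ok)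 (M (nat_lit 201) (B (M (nat_lit 202) (B (L (nat_lit 170) ln9_9_6_c10 ln9_9_6_c10_ok) (L (nat_lit 234) ln9_10_6_c10 ln9_10_6_c10_ok))) (M (nat_lit 200) (B (L (nat_lit 168) ln9_9_7_c10 ln9_9_7_c10_ok) (L (nat_lit 232) ln9_10_7_c10 ln9_10_7_c10_ok)))))))))))))))
noncomputable def c10_d165 : Cert := (B (M (nat_lit 328) (B (M (nat_lit 327) (B (L (nat_lit 362) ln7_10_0_c10 ln7_10_0_c10_ok) (M (nat_lit 295) (B (L (nat_lit 296) ln11_10_3_c10 ln11_10_3_c10_ok) (L (nat_lit 294) ln10_10_3_c10 ln10_10_3_c10_ok))))) (B (M (nat_lit 327) (B (L (nat_lit 362) ln7_10_0_c10 ln7_10_0_c10_ok) (M (nat_lit 359) (B (L (nat_lit 360) ln11_10_1_c10 ln11_10_1_c10_ok) (L (nat_lit 358) ln10_10_1_c10 ln10_10_1_c10_ok))))) (M (nat_lit 360) (B (L (nat_lit 359) ln11_10_1_c10 ln11_10_1_c10_ok) (M (nat_lit 332) (B (L (nat_lit 361) ln12_10_1 ln12_10_1_ok) (M (nat_lit 300) (B (L (nat_lit 301) ln9_10_2 ln9_10_2_ok)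 (L (nat_lit 299) ln8_10_2_c10 ln8_10_2_c10_ok)))))))))) (B (M (nat_lit 328) (B (M (nat_lit 327) (B (L (nat_lit 362) ln7_10_0_c10 ln7_10_0_c10_ok) (M (nat_lit 359) (B (L (nat_lit 360) ln11_10_1_c10 ln11_10_1_c10_ok) (L (nat_lit 358) ln10_10_1_c10 ln10_10_1_c10_ok))))) (B (M (nat_lit 360) (B (L (nat_lit 359) ln11_10_1_c10 ln11_10_1_c10_ok) (M (nat_lit 332) (B (L (nat_lit 361) ln12_10_1 ln12_10_1_ok) (M (nat_lit 300) (B (L (nat_lit 301) ln9_10_2 ln9_10_2_ok) (L (nat_lit 299) ln8_10_2_c10 ln8_10_2_c10_ok))))))) (M (nat_lit 362) (B (L (nat_lit 327) ln7_10_0_c10 ln7_10_0_c10_ok) (M (nat_lit 332) (B (M (nat_lit 300) (B (L (nat_lit 301) ln9_10_2 ln9_10_2_ok) (L (nat_lit 299) ln8_10_2_c10 ln8_10_2_c10_ok))) (M (nat_lit 333) (B (L (nat_lit 334) ln14_10_1 ln14_10_1_ok) (L (nat_lit 361) ln13_10_1 ln13_10_1_ok)))))))))) (B (M (nat_lit 328) (B (M (nat_lit 327) (B (L (nat_lit 362) ln7_10_0_c10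 ln7_10_0_c10_ok) (M (nat_lit 295) (B (L (nat_lit 296) ln11_10_3_c10 ln11_10_3_c10_ok) (L (nat_lit 294) ln10_10_3_c10 ln10_10_3_c10_ok))))) (B (M (nat_lit 327) (B (L (nat_lit 362) ln7_10_0_c10 ln7_10_0_c10_ok) (M (nat_lit 359) (B (L (nat_lit 360) ln11_10_1_c10 ln11_10_1_c10_ok) (L (nat_lit 358) ln10_10_1_c10 ln10_10_1_c10_ok))))) (B (M (nat_lit 360) (B (L (nat_lit 359) ln11_10_1_c10 ln11_10_1_c10_ok) (M (nat_lit 296) (B (L (nat_lit 295) ln11_10_3_c10 ln11_10_3_c10_ok) (M (nat_lit 361) (B (M (nat_lit 393) (B (L (nat_lit 264) ln8_8_4_c10 ln8_8_4_c10_ok) (L (nat_lit 425) ln9_13_7_c10 ln9_13_7_c10_ok))) (M (nat_lit 392) (B (M (nat_lit 297) (B (L (nat_lit 265) ln9_8_5_c10 ln9_8_5_c10_ok) (L (nat_lit 424) ln8_13_6_c10 ln8_13_6_c10_ok))) (M (nat_lit 391) (B (L (nat_lit 423) ln8_9_5_c10 ln8_9_5_c10_ok) (L (nat_lit 362) ln11_11_1 ln11_11_1_ok))))))))))) (M (nat_lit 327) (B (M (nat_lit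 295) (B (L (nat_lit 296) ln11_10_3_c10 ln11_10_3_c10_ok) (L (nat_lit 294) ln10_10_3_c10 ln10_10_3_c10_ok))) (M (nat_lit 359) (B (L (nat_lit 360) ln11_10_1_c10 ln11_10_1_c10_ok) (L (nat_lit 358) ln10_10_1_c10 ln10_10_1_c10_ok))))))))) (B (M (nat_lit 297) (B (M (nat_lit 332) (B (L (nat_lit 296) ln12_10_3 ln12_10_3_ok) (M (nat_lit 361) (B (L (nat_lit 360) ln12_10_1 ln12_10_1_ok) (M (nat_lit 333) (B (L (nat_lit 362) ln13_10_1 ln13_10_1_ok) (M (nat_lit 301) (B (L (nat_lit 302) ln10_10_2 ln10_10_2_ok) (L (nat_lit 300) ln9_10_2 ln9_10_2_ok))))))))) (B (M (nat_lit 332) (B (L (nat_lit 296) ln12_10_3 ln12_10_3_ok) (M (nat_lit 300) (B (L (nat_lit 301) ln9_10_2 ln9_10_2_ok) (M (nat_lit 268) (B (L (nat_lit 236) ln12_7_5 ln12_7_5_ok) (M (nat_lit 395) (B (L (nat_lit 299) ln11_12_6 ln11_12_6_ok) (L (nat_lit 427) ln11_13_6 ln11_13_6_ok))))))))) (B (M (nat_lit 361) (B (M (nat_lit 332) (B (L (nat_lit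 296) ln12_10_3 ln12_10_3_ok) (L (nat_lit 360) ln12_10_1 ln12_10_1_ok))) (B (M (nat_lit 360) (B (L (nat_lit 332) ln12_10_1 ln12_10_1_ok) (M (nat_lit 359) (B (L (nat_lit 362) ln7_11_2 ln7_11_2_ok) (L (nat_lit 358) ln6_11_2_c10 ln6_11_2_c10_ok))))) (B (M (nat_lit 360) (B (M (nat_lit 359) (B (L (nat_lit 362) ln7_11_2 ln7_11_2_ok) (L (nat_lit 358) ln6_11_2_c10 ln6_11_2_c10_ok))) (M (nat_lit 392) (B (L (nat_lit 265) ln9_8_5_c10 ln9_8_5_c10_ok) (M (nat_lit 424) (B (L (nat_lit 393) ln9_9_5_c10 ln9_9_5_c10_ok) (L (nat_lit 456) ln8_14_6_c10 ln8_14_6_c10_ok))))))) (M (nat_lit 296) (B (L (nat_lit 332) ln12_10_3 ln12_10_3_ok) (M (nat_lit 264) (B (L (nat_lit 393) ln9_12_7_c10 ln9_12_7_c10_ok) (M (nat_lit 232) (B (L (nat_lit 200) ln8_6_4_c10 ln8_6_4_c10_ok) (L (nat_lit 265) ln9_11_7_c10 ln9_11_7_c10_ok))))))))))) c10_d164)))) (B (K (nat_lit 5954262830815946494440468064101681940815180585121047853120753238162975815267335329627387781355916890252855539282973910778890286696956428288)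 (nat_lit 8807034694971096533118285631213807574707129899480087345486722835204760933192663025043908574349463297999241216) (nat_lit 8807034694971096533118285631213807574707129899480087345486722835204760933192663025043908574349463297999241216) c10_s140) (B (M (nat_lit 328) (B (M (nat_lit 327) (B (L (nat_lit 362) ln7_10_0_c10 ln7_10_0_c10_ok) (M (nat_lit 295) (B (L (nat_lit 296) ln11_10_3_c10 ln11_10_3_c10_ok) (L (nat_lit 294) ln10_10_3_c10 ln10_10_3_c10_ok))))) (B (M (nat_lit 327) (B (L (nat_lit 362) ln7_10_0_c10 ln7_10_0_c10_ok) (M (nat_lit 326) (B (M (nat_lit 294) (B (L (nat_lit 295) ln10_10_3_c10 ln10_10_3_c10_ok) (L (nat_lit 293) ln9_10_3_c10 ln9_10_3_c10_ok))) (M (nat_lit 358) (B (L (nat_lit 359) ln10_10_1_c10 ln10_10_1_c10_ok) (L (nat_lit 357) ln9_10_1_c10 ln9_10_1_c10_ok))))))) (B (M (nat_lit 362) (B (L (nat_lit 327) ln7_10_0_c10 ln7_10_0_c10_ok) (M (nat_lit 332) (B (M (nat_lit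 300) (B (L (nat_lit 301) ln9_10_2 ln9_10_2_ok) (L (nat_lit 299) ln8_10_2_c10 ln8_10_2_c10_ok))) (M (nat_lit 333) (B (L (nat_lit 334) ln14_10_1 ln14_10_1_ok) (L (nat_lit 361) ln13_10_1 ln13_10_1_ok))))))) (M (nat_lit 332) (B (M (nat_lit 300) (B (L (nat_lit 301) ln9_10_2 ln9_10_2_ok) (L (nat_lit 299) ln8_10_2_c10 ln8_10_2_c10_ok))) (M (nat_lit 296) (B (L (nat_lit 297) ln12_10_3 ln12_10_3_ok) (L (nat_lit 295) ln11_10_3_c10 ln11_10_3_c10_ok))))))))) (M (nat_lit 332) (B (M (nat_lit 300) (B (L (nat_lit 301) ln9_10_2 ln9_10_2_ok) (M (nat_lit 268) (B (L (nat_lit 236) ln12_7_5 ln12_7_5_ok) (M (nat_lit 395) (B (L (nat_lit 299) ln11_12_6 ln11_12_6_ok) (L (nat_lit 427) ln11_13_6 ln11_13_6_ok))))))) (B (M (nat_lit 300) (B (L (nat_lit 301) ln9_10_2 ln9_10_2_ok) (M (nat_lit 296) (B (L (nat_lit 297) ln12_10_3 ln12_10_3_ok) (M (nat_lit 328) (B (L (nat_lit 299) ln8_10_2_c10 ln8_10_2_c10_ok) (L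 (nat_lit 295) ln11_10_3_c10 ln11_10_3_c10_ok))))))) (M (nat_lit 328) (B (M (nat_lit 296) (B (L (nat_lit 297) ln12_10_3 ln12_10_3_ok) (L (nat_lit 295) ln11_10_3_c10 ln11_10_3_c10_ok))) (M (nat_lit 362) (B (L (nat_lit 327) ln7_10_0_c10 ln7_10_0_c10_ok) (M (nat_lit 333) (B (L (nat_lit 334) ln14_10_1 ln14_10_1_ok) (L (nat_lit 361) ln13_10_1 ln13_10_1_ok))))))))))))))))
noncomputable def c10_d166 : Cert := (B (M (nat_lit 328) (B (M (nat_lit 327) (B (L (nat_lit 362) ln7_10_0_c10 ln7_10_0_c10_ok) (M (nat_lit 295) (B (L (nat_lit 296) ln11_10_3_c10 ln11_10_3_c10_ok) (L (nat_lit 294) ln10_10_3_c10 ln10_10_3_c10_ok))))) (B (M (nat_lit 327) (B (L (nat_lit 362) ln7_10_0_c10 ln7_10_0_c10_ok) (M (nat_lit 359) (B (L (nat_lit 360) ln11_10_1_c10 ln11_10_1_c10_ok) (L (nat_lit 358) ln10_10_1_c10 ln10_10_1_c10_ok))))) (B (M (nat_lit 360) (B (L (nat_lit 359) ln11_10_1_c10 ln11_10_1_c10_ok) (M (nat_lit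 296) (B (L (nat_lit 295) ln11_10_3_c10 ln11_10_3_c10_ok) (M (nat_lit 392) (B (M (nat_lit 297) (B (L (nat_lit 265) ln8_12_6_c10 ln8_12_6_c10_ok) (L (nat_lit 424) ln8_13_6_c10 ln8_13_6_c10_ok))) (B (M (nat_lit 424) (B (L (nat_lit 297) ln8_13_6_c10 ln8_13_6_c10_ok) (M (nat_lit 423) (B (L (nat_lit 391) ln8_9_5_c10 ln8_9_5_c10_ok) (L (nat_lit 455) ln8_10_5_c10 ln8_10_5_c10_ok))))) (M (nat_lit 361) (B (M (nat_lit 264) (B (L (nat_lit 232) ln8_7_4_c10 ln8_7_4_c10_ok) (L (nat_lit 393) ln8_8_4_c10 ln8_8_4_c10_ok))) (M (nat_lit 391) (B (L (nat_lit 423) ln8_9_5_c10 ln8_9_5_c10_ok) (L (nat_lit 362) ln11_11_1 ln11_11_1_ok)))))))))))) (M (nat_lit 327) (B (M (nat_lit 295) (B (L (nat_lit 296) ln11_10_3_c10 ln11_10_3_c10_ok) (L (nat_lit 294) ln10_10_3_c10 ln10_10_3_c10_ok))) (M (nat_lit 359) (B (L (nat_lit 360) ln11_10_1_c10 ln11_10_1_c10_ok) (L (nat_lit 358) ln10_10_1_c10 ln10_10_1_c10_ok)))))))))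 (B (M (nat_lit 332) (B (M (nat_lit 361) (B (L (nat_lit 360) ln12_10_1 ln12_10_1_ok) (M (nat_lit 333) (B (L (nat_lit 362) ln13_10_1 ln13_10_1_ok) (M (nat_lit 301) (B (L (nat_lit 302) ln10_10_2 ln10_10_2_ok) (L (nat_lit 300) ln9_10_2 ln9_10_2_ok))))))) (B (M (nat_lit 333) (B (M (nat_lit 297) (B (L (nat_lit 298) ln13_10_3 ln13_10_3_ok) (L (nat_lit 296) ln12_10_3 ln12_10_3_ok))) (M (nat_lit 362) (B (L (nat_lit 334) ln14_10_1 ln14_10_1_ok) (L (nat_lit 361) ln13_10_1 ln13_10_1_ok))))) (B (M (nat_lit 297) (B (L (nat_lit 296) ln12_10_3 ln12_10_3_ok) (M (nat_lit 265) (B (M (nat_lit 361) (B (L (nat_lit 360) ln12_10_1 ln12_10_1_ok) (M (nat_lit 234) (B (L (nat_lit 266) ln9_11_6_c10 ln9_11_6_c10_ok) (M (nat_lit 233) (B (L (nat_lit 202) ln9_10_6_c10 ln9_10_6_c10_ok) (L (nat_lit 362) ln9_7_4_c10 ln9_7_4_c10_ok))))))) (B (M (nat_lit 361) (B (L (nat_lit 360) ln12_10_1 ln12_10_1_ok) (M (nat_lit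 233) (B (L (nat_lit 362) ln9_7_4_c10 ln9_7_4_c10_ok) (M (nat_lit 232) (B (L (nat_lit 200) ln9_10_7_c10 ln9_10_7_c10_ok) (L (nat_lit 264) ln9_11_7_c10 ln9_11_7_c10_ok))))))) (B (M (nat_lit 266) (B (M (nat_lit 361) (B (L (nat_lit 234) ln9_11_6_c10 ln9_11_6_c10_ok) (L (nat_lit 360) ln12_10_1 ln12_10_1_ok))) (B (M (nat_lit 298) (B (M (nat_lit 361) (B (L (nat_lit 393) ln9_12_6_c10 ln9_12_6_c10_ok) (L (nat_lit 360) ln12_10_1 ln12_10_1_ok))) (M (nat_lit 395) (B (L (nat_lit 362) ln10_8_4 ln10_8_4_ok) (L (nat_lit 427) ln11_13_7 ln11_13_7_ok))))) (M (nat_lit 298) (B (L (nat_lit 234) ln10_7_4 ln10_7_4_ok) (M (nat_lit 395) (B (L (nat_lit 362) ln10_8_4 ln10_8_4_ok) (L (nat_lit 427) ln11_13_7 ln11_13_7_ok)))))))) (B (M (nat_lit 361) (B (L (nat_lit 360) ln12_10_1 ln12_10_1_ok) (M (nat_lit 233) (B (M (nat_lit 234) (B (L (nat_lit 202) ln9_10_6_c10 ln9_10_6_c10_ok) (L (nat_lit 266) ln9_11_6_c10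 ln9_11_6_c10_ok))) (M (nat_lit 232) (B (L (nat_lit 200) ln9_10_7_c10 ln9_10_7_c10_ok) (L (nat_lit 264) ln9_11_7_c10 ln9_11_7_c10_ok))))))) (M (nat_lit 233) (B (L (nat_lit 362) ln9_7_4_c10 ln9_7_4_c10_ok) (M (nat_lit 201) (B (L (nat_lit 298) ln9_6_4_c10 ln9_6_4_c10_ok) (M (nat_lit 200) (B (L (nat_lit 168) ln9_9_7_c10 ln9_9_7_c10_ok) (L (nat_lit 232) ln9_10_7_c10 ln9_10_7_c10_ok)))))))))))))) (M (nat_lit 333) (B (M (nat_lit 301) (B (L (nat_lit 302) ln10_10_2 ln10_10_2_ok) (L (nat_lit 300) ln9_10_2 ln9_10_2_ok))) (M (nat_lit 297) (B (L (nat_lit 298) ln13_10_3 ln13_10_3_ok) (L (nat_lit 296) ln12_10_3 ln12_10_3_ok))))))))) (B (K (nat_lit 5954262830815946494440468064101681940815180585121047853120753238162975815267335329627387781355916890252855539282973910778890286696956428288) (nat_lit 86645927961449291542599315660162466142589860942226139113887520168938785692029141803274429166168247497863550854841634160872783872)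 (nat_lit 86645927961449291542599315660162466142589860942226139113887520168938785692029141803274429166168247497863550854841634160872783872) c10_s143) (B (M (nat_lit 332) (B (M (nat_lit 333) (B (M (nat_lit 301) (B (L (nat_lit 302) ln10_10_2 ln10_10_2_ok) (L (nat_lit 300) ln9_10_2 ln9_10_2_ok))) (M (nat_lit 297) (B (L (nat_lit 298) ln13_10_3 ln13_10_3_ok) (L (nat_lit 296) ln12_10_3 ln12_10_3_ok))))) (B (M (nat_lit 328) (B (M (nat_lit 296) (B (L (nat_lit 297) ln12_10_3 ln12_10_3_ok) (L (nat_lit 295) ln11_10_3_c10 ln11_10_3_c10_ok))) (B (M (nat_lit 295) (B (L (nat_lit 296) ln11_10_3_c10 ln11_10_3_c10_ok) (M (nat_lit 327) (B (L (nat_lit 294) ln10_10_3_c10 ln10_10_3_c10_ok) (L (nat_lit 362) ln7_10_0_c10 ln7_10_0_c10_ok))))) (M (nat_lit 327) (B (L (nat_lit 362) ln7_10_0_c10 ln7_10_0_c10_ok) (M (nat_lit 359) (B (L (nat_lit 360) ln11_10_1_c10 ln11_10_1_c10_ok) (L (nat_lit 358) ln10_10_1_c10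 ln10_10_1_c10_ok)))))))) (M (nat_lit 333) (B (M (nat_lit 301) (B (L (nat_lit 302) ln10_10_2 ln10_10_2_ok) (L (nat_lit 300) ln9_10_2 ln9_10_2_ok))) (M (nat_lit 334) (B (L (nat_lit 362) ln14_10_1 ln14_10_1_ok) (L (nat_lit 366) ln10_10_0 ln10_10_0_ok)))))))) (M (nat_lit 332) (B (M (nat_lit 333) (B (M (nat_lit 301) (B (L (nat_lit 302) ln10_10_2 ln10_10_2_ok) (L (nat_lit 300) ln9_10_2 ln9_10_2_ok))) (M (nat_lit 297) (B (L (nat_lit 298) ln13_10_3 ln13_10_3_ok) (L (nat_lit 296) ln12_10_3 ln12_10_3_ok))))) (B (M (nat_lit 333) (B (M (nat_lit 297) (B (L (nat_lit 298) ln13_10_3 ln13_10_3_ok) (L (nat_lit 296) ln12_10_3 ln12_10_3_ok))) (M (nat_lit 334) (B (L (nat_lit 362) ln14_10_1 ln14_10_1_ok) (L (nat_lit 366) ln10_10_0 ln10_10_0_ok))))) (B (M (nat_lit 328) (B (M (nat_lit 296) (B (L (nat_lit 297) ln12_10_3 ln12_10_3_ok) (L (nat_lit 295) ln11_10_3_c10 ln11_10_3_c10_ok))) (M (nat_lit 333)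 (B (M (nat_lit 301) (B (L (nat_lit 302) ln10_10_2 ln10_10_2_ok) (L (nat_lit 300) ln9_10_2 ln9_10_2_ok))) (M (nat_lit 362) (B (L (nat_lit 334) ln14_10_1 ln14_10_1_ok) (L (nat_lit 327) ln7_10_0_c10 ln7_10_0_c10_ok))))))) (B (M (nat_lit 333) (B (M (nat_lit 301) (B (L (nat_lit 302) ln10_10_2 ln10_10_2_ok) (L (nat_lit 300) ln9_10_2 ln9_10_2_ok))) (M (nat_lit 334) (B (L (nat_lit 362) ln14_10_1 ln14_10_1_ok) (L (nat_lit 366) ln10_10_0 ln10_10_0_ok))))) (M (nat_lit 328) (B (M (nat_lit 296) (B (L (nat_lit 297) ln12_10_3 ln12_10_3_ok) (L (nat_lit 295) ln11_10_3_c10 ln11_10_3_c10_ok))) (B (M (nat_lit 295) (B (L (nat_lit 296) ln11_10_3_c10 ln11_10_3_c10_ok) (M (nat_lit 327) (B (L (nat_lit 294) ln10_10_3_c10 ln10_10_3_c10_ok) (L (nat_lit 362) ln7_10_0_c10 ln7_10_0_c10_ok))))) (B (M (nat_lit 327) (B (L (nat_lit 362) ln7_10_0_c10 ln7_10_0_c10_ok) (M (nat_lit 326) (B (M (nat_lit 294) (B (L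 (nat_lit 295) ln10_10_3_c10 ln10_10_3_c10_ok) (L (nat_lit 293) ln9_10_3_c10 ln9_10_3_c10_ok))) (M (nat_lit 358) (B (L (nat_lit 359) ln10_10_1_c10 ln10_10_1_c10_ok) (L (nat_lit 357) ln9_10_1_c10 ln9_10_1_c10_ok))))))) (M (nat_lit 327) (B (L (nat_lit 362) ln7_10_0_c10 ln7_10_0_c10_ok) (M (nat_lit 326) (B (M (nat_lit 297) (B (L (nat_lit 298) ln6_10_2_c10 ln6_10_2_c10_ok) (L (nat_lit 296) ln12_10_3 ln12_10_3_ok))) (M (nat_lit 358) (B (L (nat_lit 359) ln10_10_1_c10 ln10_10_1_c10_ok) (L (nat_lit 357) ln9_10_1_c10 ln9_10_1_c10_ok))))))))))))))))))))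
noncomputable def c10_d167 : Cert := (B (M (nat_lit 328) (B (M (nat_lit 327) (B (L (nat_lit 362) ln7_10_0_c10 ln7_10_0_c10_ok) (M (nat_lit 295) (B (L (nat_lit 296) ln11_10_3_c10 ln11_10_3_c10_ok) (L (nat_lit 294) ln10_10_3_c10 ln10_10_3_c10_ok))))) (B (M (nat_lit 327) (B (L (nat_lit 362) ln7_10_0_c10 ln7_10_0_c10_ok) (M (nat_lit 359) (B (L (nat_lit 360) ln11_10_1_c10 ln11_10_1_c10_ok) (L (nat_lit 358) ln10_10_1_c10 ln10_10_1_c10_ok))))) (B (M (nat_lit 360) (B (L (nat_lit 359) ln11_10_1_c10 ln11_10_1_c10_ok) (M (nat_lit 296) (B (L (nat_lit 295) ln11_10_3_c10 ln11_10_3_c10_ok) (M (nat_lit 392) (B (M (nat_lit 297) (B (L (nat_lit 265) ln8_12_6_c10 ln8_12_6_c10_ok) (L (nat_lit 424) ln8_13_6_c10 ln8_13_6_c10_ok))) (M (nat_lit 361) (B (M (nat_lit 264) (B (L (nat_lit 232) ln8_7_4_c10 ln8_7_4_c10_ok) (L (nat_lit 393) ln8_8_4_c10 ln8_8_4_c10_ok))) (M (nat_lit 391) (B (L (nat_lit 423)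 ln8_9_5_c10 ln8_9_5_c10_ok) (L (nat_lit 362) ln11_11_1 ln11_11_1_ok))))))))))) (M (nat_lit 327) (B (M (nat_lit 295) (B (L (nat_lit 296) ln11_10_3_c10 ln11_10_3_c10_ok) (L (nat_lit 294) ln10_10_3_c10 ln10_10_3_c10_ok))) (M (nat_lit 359) (B (L (nat_lit 360) ln11_10_1_c10 ln11_10_1_c10_ok) (L (nat_lit 358) ln10_10_1_c10 ln10_10_1_c10_ok))))))))) (B (M (nat_lit 361) (B (M (nat_lit 360) (B (L (nat_lit 332) ln12_10_1 ln12_10_1_ok) (M (nat_lit 359) (B (L (nat_lit 362) ln7_11_2 ln7_11_2_ok) (L (nat_lit 358) ln6_11_2_c10 ln6_11_2_c10_ok))))) (B (M (nat_lit 360) (B (M (nat_lit 359) (B (L (nat_lit 362) ln7_11_2 ln7_11_2_ok) (L (nat_lit 358) ln6_11_2_c10 ln6_11_2_c10_ok))) (M (nat_lit 298) (B (M (nat_lit 266) (B (L (nat_lit 234) ln10_7_4 ln10_7_4_ok) (M (nat_lit 395) (B (L (nat_lit 299) ln11_12_7 ln11_12_7_ok) (L (nat_lit 427) ln11_13_7 ln11_13_7_ok))))) (B (M (nat_lit 266) (B (M (nat_lit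 395) (B (L (nat_lit 299) ln11_12_7 ln11_12_7_ok) (L (nat_lit 427) ln11_13_7 ln11_13_7_ok))) (M (nat_lit 393) (B (L (nat_lit 297) ln9_12_6_c10 ln9_12_6_c10_ok) (L (nat_lit 425) ln9_13_6_c10 ln9_13_6_c10_ok))))) (M (nat_lit 393) (B (L (nat_lit 425) ln9_13_6_c10 ln9_13_6_c10_ok) (M (nat_lit 297) (B (M (nat_lit 296) (B (L (nat_lit 264) ln9_12_7_c10 ln9_12_7_c10_ok) (L (nat_lit 295) ln7_9_0_c10 ln7_9_0_c10_ok))) (M (nat_lit 392) (B (L (nat_lit 265) ln9_8_5_c10 ln9_8_5_c10_ok) (L (nat_lit 424) ln9_9_5_c10 ln9_9_5_c10_ok)))))))))))) (B (M (nat_lit 298) (B (M (nat_lit 266) (B (L (nat_lit 234) ln10_7_4 ln10_7_4_ok) (M (nat_lit 395) (B (L (nat_lit 299) ln11_12_7 ln11_12_7_ok) (L (nat_lit 427) ln11_13_7 ln11_13_7_ok))))) (M (nat_lit 332) (B (L (nat_lit 360) ln12_10_1 ln12_10_1_ok) (M (nat_lit 297) (B (L (nat_lit 333) ln13_10_3 ln13_10_3_ok) (L (nat_lit 296) ln12_10_3 ln12_10_3_ok)))))))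 (M (nat_lit 297) (B (M (nat_lit 332) (B (L (nat_lit 296) ln12_10_3 ln12_10_3_ok) (M (nat_lit 333) (B (L (nat_lit 298) ln13_10_3 ln13_10_3_ok) (L (nat_lit 362) ln13_10_1 ln13_10_1_ok))))) (B (M (nat_lit 296) (B (L (nat_lit 332) ln12_10_3 ln12_10_3_ok) (M (nat_lit 264) (B (L (nat_lit 393) ln9_12_7_c10 ln9_12_7_c10_ok) (M (nat_lit 232) (B (L (nat_lit 200) ln8_6_4_c10 ln8_6_4_c10_ok) (L (nat_lit 265) ln9_11_7_c10 ln9_11_7_c10_ok))))))) (M (nat_lit 266) (B (M (nat_lit 234) (B (L (nat_lit 265) ln9_11_6_c10 ln9_11_6_c10_ok) (L (nat_lit 298) ln10_7_4 ln10_7_4_ok))) (B (M (nat_lit 298) (B (L (nat_lit 393) ln9_12_6_c10 ln9_12_6_c10_ok) (M (nat_lit 395) (B (L (nat_lit 299) ln11_12_7 ln11_12_7_ok) (L (nat_lit 362) ln10_8_4 ln10_8_4_ok))))) (M (nat_lit 265) (B (L (nat_lit 234) ln9_11_6_c10 ln9_11_6_c10_ok) (M (nat_lit 233) (B (L (nat_lit 362) ln9_7_4_c10 ln9_7_4_c10_ok) (M (nat_lit 232)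 (B (L (nat_lit 200) ln9_10_7_c10 ln9_10_7_c10_ok) (L (nat_lit 264) ln9_11_7_c10 ln9_11_7_c10_ok))))))))))))))))) (B (K (nat_lit 5954262830815946494440468064101681940815180585121047853120753238162975815267335329627387781355916890252855539282973910778890286696956428288) (nat_lit 433229639807246457680704117768260273644091476459868032156595471889662762253037571020149317780322651846602214251217421667288481792) (nat_lit 433229639807246457680704117768260273644091476459868032156595471889662762253037571020149317780322651846602214251217421667288481792) c10_s145) (B (M (nat_lit 328) (B (M (nat_lit 327) (B (L (nat_lit 362) ln7_10_0_c10 ln7_10_0_c10_ok) (M (nat_lit 295) (B (L (nat_lit 296) ln11_10_3_c10 ln11_10_3_c10_ok) (L (nat_lit 294) ln10_10_3_c10 ln10_10_3_c10_ok))))) (B (M (nat_lit 327) (B (L (nat_lit 362) ln7_10_0_c10 ln7_10_0_c10_ok) (M (nat_lit 359) (B (L (nat_lit 360) ln11_10_1_c10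 ln11_10_1_c10_ok) (L (nat_lit 358) ln10_10_1_c10 ln10_10_1_c10_ok))))) (M (nat_lit 296) (B (L (nat_lit 295) ln11_10_3_c10 ln11_10_3_c10_ok) (M (nat_lit 297) (B (L (nat_lit 332) ln12_10_3 ln12_10_3_ok) (M (nat_lit 360) (B (L (nat_lit 359) ln11_10_1_c10 ln11_10_1_c10_ok) (M (nat_lit 392) (B (L (nat_lit 265) ln8_12_6_c10 ln8_12_6_c10_ok) (L (nat_lit 424) ln8_13_6_c10 ln8_13_6_c10_ok)))))))))))) (M (nat_lit 298) (B (M (nat_lit 266) (B (L (nat_lit 234) ln10_7_4 ln10_7_4_ok) (M (nat_lit 395) (B (L (nat_lit 362) ln10_8_4 ln10_8_4_ok) (L (nat_lit 427) ln11_13_7 ln11_13_7_ok))))) (B (M (nat_lit 395) (B (L (nat_lit 427) ln11_13_7 ln11_13_7_ok) (M (nat_lit 266) (B (L (nat_lit 299) ln11_12_7 ln11_12_7_ok) (L (nat_lit 362) ln10_8_4 ln10_8_4_ok))))) (B (M (nat_lit 296) (B (M (nat_lit 297) (B (L (nat_lit 295) ln7_9_0_c10 ln7_9_0_c10_ok) (L (nat_lit 332) ln12_10_3 ln12_10_3_ok))) (B (M (nat_lit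 328) (B (L (nat_lit 295) ln11_10_3_c10 ln11_10_3_c10_ok) (M (nat_lit 327) (B (L (nat_lit 299) ln7_10_2_c10 ln7_10_2_c10_ok) (L (nat_lit 362) ln7_10_0_c10 ln7_10_0_c10_ok))))) (M (nat_lit 297) (B (L (nat_lit 332) ln12_10_3 ln12_10_3_ok) (M (nat_lit 265) (B (M (nat_lit 233) (B (L (nat_lit 201) ln9_6_4_c10 ln9_6_4_c10_ok) (L (nat_lit 362) ln9_7_4_c10 ln9_7_4_c10_ok))) (M (nat_lit 264) (B (M (nat_lit 232) (B (L (nat_lit 200) ln8_6_4_c10 ln8_6_4_c10_ok) (L (nat_lit 361) ln9_11_7_c10 ln9_11_7_c10_ok))) (M (nat_lit 263) (B (L (nat_lit 262) ln6_8_0_c10 ln6_8_0_c10_ok) (L (nat_lit 299) ln11_9_3 ln11_9_3_ok)))))))))))) (M (nat_lit 266) (B (L (nat_lit 234) ln10_7_4 ln10_7_4_ok) (M (nat_lit 395) (B (L (nat_lit 299) ln11_12_7 ln11_12_7_ok) (L (nat_lit 427) ln11_13_7 ln11_13_7_ok)))))))))))))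
noncomputable def c10_d168 : Cert := (B (M (nat_lit 328) (B (M (nat_lit 327) (B (M (nat_lit 299) (B (L (nat_lit 300) ln8_10_2_c10 ln8_10_2_c10_ok) (L (nat_lit 298) ln7_10_2_c10 ln7_10_2_c10_ok))) (M (nat_lit 295) (B (L (nat_lit 296) ln11_10_3_c10 ln11_10_3_c10_ok) (L (nat_lit 294) ln10_10_3_c10 ln10_10_3_c10_ok))))) (B (M (nat_lit 327) (B (M (nat_lit 295) (B (L (nat_lit 296) ln11_10_3_c10 ln11_10_3_c10_ok) (L (nat_lit 294) ln10_10_3_c10 ln10_10_3_c10_ok))) (M (nat_lit 359) (B (L (nat_lit 360) ln11_10_1_c10 ln11_10_1_c10_ok) (L (nat_lit 358) ln10_10_1_c10 ln10_10_1_c10_ok))))) (B (M (nat_lit 327) (B (M (nat_lit 299) (B (L (nat_lit 300) ln8_10_2_c10 ln8_10_2_c10_ok) (L (nat_lit 298) ln7_10_2_c10 ln7_10_2_c10_ok))) (M (nat_lit 359) (B (L (nat_lit 360) ln11_10_1_c10 ln11_10_1_c10_ok) (L (nat_lit 358) ln10_10_1_c10 ln10_10_1_c10_ok))))) (M (nat_lit 360) (B (L (nat_lit 359) ln11_10_1_c10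 ln11_10_1_c10_ok) (M (nat_lit 332) (B (L (nat_lit 361) ln12_10_1 ln12_10_1_ok) (M (nat_lit 300) (B (L (nat_lit 301) ln9_10_2 ln9_10_2_ok) (L (nat_lit 299) ln8_10_2_c10 ln8_10_2_c10_ok))))))))))) (B (M (nat_lit 298) (B (M (nat_lit 266) (B (L (nat_lit 234) ln10_7_4 ln10_7_4_ok) (M (nat_lit 395) (B (L (nat_lit 299) ln11_12_7 ln11_12_7_ok) (L (nat_lit 427) ln11_13_7 ln11_13_7_ok))))) (B (M (nat_lit 299) (B (M (nat_lit 395) (B (L (nat_lit 266) ln11_12_7 ln11_12_7_ok) (L (nat_lit 427) ln11_13_7 ln11_13_7_ok))) (M (nat_lit 328) (B (L (nat_lit 300) ln8_10_2_c10 ln8_10_2_c10_ok) (L (nat_lit 327) ln7_10_2_c10 ln7_10_2_c10_ok))))) (B (M (nat_lit 299) (B (M (nat_lit 300) (B (L (nat_lit 301) ln13_9_1 ln13_9_1_ok) (L (nat_lit 328) ln8_10_2_c10 ln8_10_2_c10_ok))) (B (M (nat_lit 328) (B (L (nat_lit 300) ln8_10_2_c10 ln8_10_2_c10_ok) (L (nat_lit 327) ln7_10_2_c10 ln7_10_2_c10_ok))) (B (M (nat_lit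 332) (B (M (nat_lit 333) (B (L (nat_lit 334) ln14_10_3 ln14_10_3_ok) (L (nat_lit 297) ln13_10_3 ln13_10_3_ok))) (M (nat_lit 328) (B (L (nat_lit 327) ln7_10_2_c10 ln7_10_2_c10_ok) (M (nat_lit 360) (B (L (nat_lit 361) ln12_10_1 ln12_10_1_ok) (L (nat_lit 359) ln11_10_1_c10 ln11_10_1_c10_ok))))))) (M (nat_lit 300) (B (L (nat_lit 301) ln13_9_1 ln13_9_1_ok) (M (nat_lit 395) (B (L (nat_lit 268) ln11_12_6 ln11_12_6_ok) (L (nat_lit 427) ln11_13_7 ln11_13_7_ok))))))))) (M (nat_lit 361) (B (M (nat_lit 266) (B (L (nat_lit 234) ln10_7_4 ln10_7_4_ok) (M (nat_lit 393) (B (L (nat_lit 297) ln9_12_6_c10 ln9_12_6_c10_ok) (L (nat_lit 425) ln9_13_6_c10 ln9_13_6_c10_ok))))) (M (nat_lit 360) (B (L (nat_lit 332) ln12_10_1 ln12_10_1_ok) (M (nat_lit 359) (B (L (nat_lit 328) ln11_10_1_c10 ln11_10_1_c10_ok) (L (nat_lit 358) ln6_11_2_c10 ln6_11_2_c10_ok))))))))))) (B (M (nat_lit 299) (B (M (nat_lit 300)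 (B (L (nat_lit 328) ln8_10_2_c10 ln8_10_2_c10_ok) (M (nat_lit 301) (B (L (nat_lit 302) ln14_9_1_c10 ln14_9_1_c10_ok) (L (nat_lit 298) ln13_9_1 ln13_9_1_ok))))) (B (M (nat_lit 298) (B (M (nat_lit 266) (B (L (nat_lit 234) ln10_7_4 ln10_7_4_ok) (L (nat_lit 395) ln11_12_7 ln11_12_7_ok))) (M (nat_lit 328) (B (L (nat_lit 300) ln8_10_2_c10 ln8_10_2_c10_ok) (L (nat_lit 327) ln7_10_2_c10 ln7_10_2_c10_ok))))) (B (M (nat_lit 267) (B (M (nat_lit 234) (B (L (nat_lit 266) ln11_11_7 ln11_11_7_ok) (M (nat_lit 235) (B (L (nat_lit 202) ln11_10_7 ln11_10_7_ok) (M (nat_lit 236) (B (L (nat_lit 204) ln11_10_6 ln11_10_6_ok) (L (nat_lit 268) ln11_11_6 ln11_11_6_ok))))))) (B (M (nat_lit 298) (B (M (nat_lit 266) (B (L (nat_lit 234) ln10_7_4 ln10_7_4_ok) (L (nat_lit 395) ln11_12_7 ln11_12_7_ok))) (B (M (nat_lit 395) (B (L (nat_lit 266) ln11_12_7 ln11_12_7_ok) (L (nat_lit 427) ln11_13_7 ln11_13_7_ok)))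 (M (nat_lit 296) (B (M (nat_lit 268) (B (L (nat_lit 236) ln11_11_6 ln11_11_6_ok) (L (nat_lit 297) ln8_9_2 ln8_9_2_ok))) (B (M (nat_lit 297) (B (L (nat_lit 268) ln8_9_2 ln8_9_2_ok) (L (nat_lit 295) ln7_9_0_c10 ln7_9_0_c10_ok))) (B (M (nat_lit 295) (B (L (nat_lit 297) ln7_9_0_c10 ln7_9_0_c10_ok) (L (nat_lit 328) ln11_10_3_c10 ln11_10_3_c10_ok))) (M (nat_lit 328) (B (L (nat_lit 327) ln7_10_2_c10 ln7_10_2_c10_ok) (L (nat_lit 295) ln11_10_3_c10 ln11_10_3_c10_ok)))))))))) (B (M (nat_lit 235) (B (M (nat_lit 234) (B (L (nat_lit 202) ln11_10_7 ln11_10_7_ok) (L (nat_lit 266) ln11_11_7 ln11_11_7_ok))) (B (M (nat_lit 298) (B (L (nat_lit 203) ln11_6_5 ln11_6_5_ok) (M (nat_lit 266) (B (L (nat_lit 234) ln10_7_4 ln10_7_4_ok) (L (nat_lit 395) ln11_12_7 ln11_12_7_ok))))) (B (M (nat_lit 298) (B (L (nat_lit 203) ln11_6_5 ln11_6_5_ok) (M (nat_lit 395) (B (L (nat_lit 266) ln11_12_7 ln11_12_7_ok)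 (L (nat_lit 427) ln11_13_7 ln11_13_7_ok))))) (M (nat_lit 203) (B (L (nat_lit 298) ln11_6_5 ln11_6_5_ok) (M (nat_lit 202) (B (L (nat_lit 170) ln11_9_7_c10 ln11_9_7_c10_ok) (L (nat_lit 234) ln11_10_7 ln11_10_7_ok))))))))) (B (M (nat_lit 298) (B (M (nat_lit 395) (B (L (nat_lit 266) ln11_12_7 ln11_12_7_ok) (L (nat_lit 427) ln11_13_7 ln11_13_7_ok))) (M (nat_lit 236) (B (L (nat_lit 268) ln11_11_6 ln11_11_6_ok) (M (nat_lit 235) (B (L (nat_lit 204) ln11_10_6 ln11_10_6_ok) (L (nat_lit 203) ln11_6_5 ln11_6_5_ok))))))) (M (nat_lit 235) (B (M (nat_lit 236) (B (L (nat_lit 204) ln11_10_6 ln11_10_6_ok) (L (nat_lit 268) ln11_11_6 ln11_11_6_ok))) (M (nat_lit 203) (B (L (nat_lit 298) ln11_6_5 ln11_6_5_ok) (M (nat_lit 202) (B (L (nat_lit 170) ln11_9_7_c10 ln11_9_7_c10_ok) (L (nat_lit 234) ln11_10_7 ln11_10_7_ok)))))))))))) (B (M (nat_lit 300) (B (L (nat_lit 328) ln8_10_2_c10 ln8_10_2_c10_ok) (M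 (nat_lit 268) (B (L (nat_lit 395) ln11_12_6 ln11_12_6_ok) (M (nat_lit 236) (B (L (nat_lit 204) ln12_6_5_c10 ln12_6_5_c10_ok) (L (nat_lit 267) ln11_11_6 ln11_11_6_ok))))))) (M (nat_lit 300) (B (M (nat_lit 301) (B (L (nat_lit 302) ln14_9_1_c10 ln14_9_1_c10_ok) (L (nat_lit 298) ln13_9_1 ln13_9_1_ok))) (M (nat_lit 268) (B (L (nat_lit 395) ln11_12_6 ln11_12_6_ok) (M (nat_lit 236) (B (L (nat_lit 204) ln12_6_5_c10 ln12_6_5_c10_ok) (L (nat_lit 267) ln11_11_6 ln11_11_6_ok)))))))))))) (M (nat_lit 332) (B (M (nat_lit 300) (B (L (nat_lit 301) ln9_10_2 ln9_10_2_ok) (M (nat_lit 268) (B (L (nat_lit 236) ln12_7_5 ln12_7_5_ok) (M (nat_lit 395) (B (L (nat_lit 299) ln11_12_6 ln11_12_6_ok) (L (nat_lit 427) ln11_13_6 ln11_13_6_ok))))))) (B (M (nat_lit 333) (B (M (nat_lit 301) (B (L (nat_lit 302) ln10_10_2 ln10_10_2_ok) (L (nat_lit 300) ln9_10_2 ln9_10_2_ok))) (M (nat_lit 297) (B (L (nat_lit 298)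 ln13_10_3 ln13_10_3_ok) (L (nat_lit 296) ln12_10_3 ln12_10_3_ok))))) (M (nat_lit 298) (B (M (nat_lit 297) (B (L (nat_lit 333) ln13_10_3 ln13_10_3_ok) (L (nat_lit 296) ln12_10_3 ln12_10_3_ok))) (M (nat_lit 266) (B (L (nat_lit 234) ln10_7_4 ln10_7_4_ok) (M (nat_lit 395) (B (L (nat_lit 299) ln11_12_7 ln11_12_7_ok) (L (nat_lit 427) ln11_13_7 ln11_13_7_ok)))))))))))))
noncomputable def c10_d169 : Cert := (B (M (nat_lit 395) (B (M (nat_lit 298) (B (L (nat_lit 427) ln11_13_7 ln11_13_7_ok) (M (nat_lit 266) (B (L (nat_lit 234) ln10_7_4 ln10_7_4_ok) (L (nat_lit 362) ln10_8_4 ln10_8_4_ok))))) (B (M (nat_lit 298) (B (L (nat_lit 427) ln11_13_7 ln11_13_7_ok) (M (nat_lit 266) (B (L (nat_lit 299) ln11_12_7 ln11_12_7_ok) (L (nat_lit 362) ln10_8_4 ln10_8_4_ok))))) (B (M (nat_lit 427) (B (L (nat_lit 298) ln11_13_7 ln11_13_7_ok) (M (nat_lit 459) (B (L (nat_lit 362) ln11_14_7 ln11_14_7_ok) (M (nat_lit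 460) (B (L (nat_lit 428) ln11_10_4 ln11_10_4_ok) (L (nat_lit 492) ln11_11_4 ln11_11_4_ok))))))) (B (M (nat_lit 427) (B (M (nat_lit 459) (B (L (nat_lit 362) ln11_14_7 ln11_14_7_ok) (M (nat_lit 460) (B (L (nat_lit 428) ln11_10_4 ln11_10_4_ok) (L (nat_lit 492) ln11_11_4 ln11_11_4_ok))))) (B (M (nat_lit 299) (B (M (nat_lit 300) (B (L (nat_lit 268) ln11_12_6 ln11_12_6_ok) (L (nat_lit 332) ln11_13_6 ln11_13_6_ok))) (M (nat_lit 428) (B (L (nat_lit 396) ln11_9_4 ln11_9_4_ok) (L (nat_lit 460) ln11_10_4 ln11_10_4_ok))))) (M (nat_lit 459) (B (L (nat_lit 362) ln11_14_7 ln11_14_7_ok) (M (nat_lit 458) (B (L (nat_lit 426) ln11_10_5 ln11_10_5_ok) (L (nat_lit 490) ln11_11_5 ln11_11_5_ok)))))))) (B (M (nat_lit 298) (B (L (nat_lit 427) ln11_13_7 ln11_13_7_ok) (M (nat_lit 266) (B (L (nat_lit 234) ln10_7_4 ln10_7_4_ok) (L (nat_lit 299) ln11_12_7 ln11_12_7_ok))))) (M (nat_lit 299) (B (M (nat_lit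 266) (B (L (nat_lit 298) ln11_12_7 ln11_12_7_ok) (M (nat_lit 267) (B (L (nat_lit 234) ln11_11_7 ln11_11_7_ok) (M (nat_lit 268) (B (L (nat_lit 236) ln11_11_6 ln11_11_6_ok) (L (nat_lit 300) ln11_12_6 ln11_12_6_ok))))))) (B (M (nat_lit 267) (B (M (nat_lit 266) (B (L (nat_lit 234) ln11_11_7 ln11_11_7_ok) (L (nat_lit 298) ln11_12_7 ln11_12_7_ok))) (B (M (nat_lit 298) (B (L (nat_lit 266) ln11_12_7 ln11_12_7_ok) (M (nat_lit 235) (B (L (nat_lit 203) ln11_6_5 ln11_6_5_ok) (L (nat_lit 362) ln11_7_5 ln11_7_5_ok))))) (B (M (nat_lit 235) (B (L (nat_lit 362) ln11_7_5 ln11_7_5_ok) (M (nat_lit 203) (B (L (nat_lit 298) ln11_6_5 ln11_6_5_ok) (M (nat_lit 300) (B (L (nat_lit 332) ln11_6_4_c10 ln11_6_4_c10_ok) (L (nat_lit 268) ln11_12_6 ln11_12_6_ok))))))) (M (nat_lit 235) (B (L (nat_lit 362) ln11_7_5 ln11_7_5_ok) (M (nat_lit 234) (B (L (nat_lit 202) ln11_10_7 ln11_10_7_ok) (L (nat_lit 266) ln11_11_7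 ln11_11_7_ok))))))))) (B (M (nat_lit 298) (B (L (nat_lit 266) ln11_12_7 ln11_12_7_ok) (M (nat_lit 267) (B (M (nat_lit 268) (B (L (nat_lit 236) ln11_11_6 ln11_11_6_ok) (L (nat_lit 300) ln11_12_6 ln11_12_6_ok))) (M (nat_lit 235) (B (L (nat_lit 203) ln11_6_5 ln11_6_5_ok) (L (nat_lit 362) ln11_7_5 ln11_7_5_ok))))))) (B (K (nat_lit 5954262830815946494521163372791897834240834433884768986219537536118464462204821538884362147522563260407145050298055720699532172585684959232) (nat_lit 9394170331095332912067181381596682929400125867831964140332131440036004585617462596088803419171197700278321152) (nat_lit 9394170331095332912067181381596682929400125867831964140332131440036004585617462596088803419171197700278321152) c10_s146) (B (M (nat_lit 298) (B (L (nat_lit 266) ln11_12_7 ln11_12_7_ok) (M (nat_lit 300) (B (L (nat_lit 268) ln11_12_6 ln11_12_6_ok) (M (nat_lit 297) (B (M (nat_lit 332) (B (L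 (nat_lit 333) ln9_9_0 ln9_9_0_ok) (L (nat_lit 296) ln8_9_0 ln8_9_0_ok))) (B (M (nat_lit 333) (B (L (nat_lit 332) ln9_9_0 ln9_9_0_ok) (M (nat_lit 301) (B (L (nat_lit 302) ln14_9_1_c10 ln14_9_1_c10_ok) (L (nat_lit 334) ln10_9_0 ln10_9_0_ok))))) (B (M (nat_lit 296) (B (L (nat_lit 332) ln8_9_0 ln8_9_0_ok) (L (nat_lit 295) ln7_9_0_c10 ln7_9_0_c10_ok))) (M (nat_lit 264) (B (L (nat_lit 265) ln12_9_3 ln12_9_3_ok) (M (nat_lit 296) (B (L (nat_lit 263) ln11_9_3 ln11_9_3_ok) (L (nat_lit 295) ln7_9_0_c10 ln7_9_0_c10_ok))))))))))))) (B (M (nat_lit 267) (B (M (nat_lit 268) (B (L (nat_lit 236) ln11_11_6 ln11_11_6_ok) (L (nat_lit 300) ln11_12_6 ln11_12_6_ok))) (B (M (nat_lit 235) (B (L (nat_lit 362) ln11_7_5 ln11_7_5_ok) (M (nat_lit 203) (B (L (nat_lit 298) ln11_6_5 ln11_6_5_ok) (M (nat_lit 300) (B (L (nat_lit 332) ln11_6_4_c10 ln11_6_4_c10_ok) (L (nat_lit 268) ln11_12_6 ln11_12_6_ok)))))))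 (M (nat_lit 235) (B (L (nat_lit 362) ln11_7_5 ln11_7_5_ok) (M (nat_lit 203) (B (L (nat_lit 298) ln11_6_5 ln11_6_5_ok) (M (nat_lit 204) (B (L (nat_lit 172) ln11_9_6_c10 ln11_9_6_c10_ok) (L (nat_lit 236) ln11_10_6 ln11_10_6_ok)))))))))) (M (nat_lit 267) (B (M (nat_lit 268) (B (L (nat_lit 236) ln11_11_6 ln11_11_6_ok) (L (nat_lit 300) ln11_12_6 ln11_12_6_ok))) (M (nat_lit 235) (B (L (nat_lit 362) ln11_7_5 ln11_7_5_ok) (M (nat_lit 234) (B (L (nat_lit 202) ln11_10_7 ln11_10_7_ok) (L (nat_lit 266) ln11_11_7 ln11_11_7_ok)))))))))))))))))))) (B (M (nat_lit 395) (B (M (nat_lit 298) (B (L (nat_lit 427) ln11_13_7 ln11_13_7_ok) (M (nat_lit 266) (B (L (nat_lit 234) ln10_7_4 ln10_7_4_ok) (L (nat_lit 362) ln10_8_4 ln10_8_4_ok))))) (B (M (nat_lit 298) (B (L (nat_lit 427) ln11_13_7 ln11_13_7_ok) (M (nat_lit 266) (B (L (nat_lit 299) ln11_12_7 ln11_12_7_ok) (L (nat_lit 362) ln10_8_4 ln10_8_4_ok)))))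 (B (M (nat_lit 427) (B (L (nat_lit 298) ln11_13_7 ln11_13_7_ok) (M (nat_lit 459) (B (L (nat_lit 362) ln11_14_7 ln11_14_7_ok) (M (nat_lit 460) (B (L (nat_lit 428) ln11_10_4 ln11_10_4_ok) (L (nat_lit 492) ln11_11_4 ln11_11_4_ok))))))) (B (M (nat_lit 427) (B (M (nat_lit 459) (B (L (nat_lit 362) ln11_14_7 ln11_14_7_ok) (M (nat_lit 460) (B (L (nat_lit 428) ln11_10_4 ln11_10_4_ok) (L (nat_lit 492) ln11_11_4 ln11_11_4_ok))))) (B (M (nat_lit 459) (B (M (nat_lit 460) (B (L (nat_lit 428) ln11_10_4 ln11_10_4_ok) (L (nat_lit 492) ln11_11_4 ln11_11_4_ok))) (M (nat_lit 458) (B (L (nat_lit 426) ln11_10_5 ln11_10_5_ok) (L (nat_lit 490) ln11_11_5 ln11_11_5_ok))))) (B (M (nat_lit 459) (B (L (nat_lit 362) ln11_14_7 ln11_14_7_ok) (M (nat_lit 458) (B (L (nat_lit 426) ln11_10_5 ln11_10_5_ok) (L (nat_lit 490) ln11_11_5 ln11_11_5_ok))))) (M (nat_lit 299) (B (M (nat_lit 428) (B (L (nat_lit 396) ln11_9_4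 ln11_9_4_ok) (L (nat_lit 460) ln11_10_4 ln11_10_4_ok))) (M (nat_lit 267) (B (M (nat_lit 268) (B (L (nat_lit 236) ln11_11_6 ln11_11_6_ok) (L (nat_lit 300) ln11_12_6 ln11_12_6_ok))) (M (nat_lit 235) (B (L (nat_lit 362) ln11_7_5 ln11_7_5_ok) (M (nat_lit 234) (B (L (nat_lit 202) ln11_10_7 ln11_10_7_ok) (L (nat_lit 266) ln11_11_7 ln11_11_7_ok))))))))))))) (B (M (nat_lit 298) (B (L (nat_lit 427) ln11_13_7 ln11_13_7_ok) (M (nat_lit 266) (B (L (nat_lit 234) ln10_7_4 ln10_7_4_ok) (L (nat_lit 299) ln11_12_7 ln11_12_7_ok))))) (M (nat_lit 299) (B (M (nat_lit 266) (B (L (nat_lit 298) ln11_12_7 ln11_12_7_ok) (M (nat_lit 267) (B (L (nat_lit 234) ln11_11_7 ln11_11_7_ok) (M (nat_lit 268) (B (L (nat_lit 236) ln11_11_6 ln11_11_6_ok) (L (nat_lit 300) ln11_12_6 ln11_12_6_ok))))))) (B (M (nat_lit 298) (B (L (nat_lit 266) ln11_12_7 ln11_12_7_ok) (M (nat_lit 300) (B (L (nat_lit 268) ln11_12_6 ln11_12_6_ok)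 (M (nat_lit 329) (B (L (nat_lit 301) ln13_9_1 ln13_9_1_ok) (L (nat_lit 328) ln8_10_2_c10 ln8_10_2_c10_ok))))))) (B (K (nat_lit 5954262830815946494521163372791897834240834433884768986219537536118464462204821538884362147522563260407145050298055720699532172585684959232) (nat_lit 9394170331095332912067181381596682929400125867831964140332131440036004585617462596088803419171197700278321152) (nat_lit 9394170331095332912067181381596682929400125867831964140332131440036004585617462596088803419171197700278321152) c10_s146) (B (M (nat_lit 267) (B (M (nat_lit 268) (B (L (nat_lit 236) ln11_11_6 ln11_11_6_ok) (L (nat_lit 300) ln11_12_6 ln11_12_6_ok))) (M (nat_lit 235) (B (L (nat_lit 362) ln11_7_5 ln11_7_5_ok) (M (nat_lit 203) (B (L (nat_lit 298) ln11_6_5 ln11_6_5_ok) (M (nat_lit 202) (B (L (nat_lit 170) ln11_9_7_c10 ln11_9_7_c10_ok) (L (nat_lit 234) ln11_10_7 ln11_10_7_ok))))))))) (M (nat_lit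 267) (B (M (nat_lit 268) (B (L (nat_lit 236) ln11_11_6 ln11_11_6_ok) (L (nat_lit 300) ln11_12_6 ln11_12_6_ok))) (M (nat_lit 235) (B (L (nat_lit 362) ln11_7_5 ln11_7_5_ok) (M (nat_lit 234) (B (L (nat_lit 202) ln11_10_7 ln11_10_7_ok) (L (nat_lit 266) ln11_11_7 ln11_11_7_ok)))))))))))))))))) (M (nat_lit 332) (B (M (nat_lit 329) (B (M (nat_lit 300) (B (L (nat_lit 301) ln9_10_2 ln9_10_2_ok) (M (nat_lit 296) (B (L (nat_lit 297) ln12_10_3 ln12_10_3_ok) (M (nat_lit 328) (B (L (nat_lit 299) ln8_10_2_c10 ln8_10_2_c10_ok) (L (nat_lit 295) ln11_10_3_c10 ln11_10_3_c10_ok))))))) (B (M (nat_lit 328) (B (M (nat_lit 296) (B (L (nat_lit 297) ln12_10_3 ln12_10_3_ok) (L (nat_lit 295) ln11_10_3_c10 ln11_10_3_c10_ok))) (M (nat_lit 360) (B (L (nat_lit 361) ln12_10_1 ln12_10_1_ok) (L (nat_lit 359) ln11_10_1_c10 ln11_10_1_c10_ok))))) (B (M (nat_lit 328) (B (M (nat_lit 300) (B (L (nat_lit 301) ln9_10_2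 ln9_10_2_ok) (L (nat_lit 299) ln8_10_2_c10 ln8_10_2_c10_ok))) (M (nat_lit 360) (B (L (nat_lit 361) ln12_10_1 ln12_10_1_ok) (L (nat_lit 359) ln11_10_1_c10 ln11_10_1_c10_ok))))) (M (nat_lit 300) (B (L (nat_lit 301) ln9_10_2 ln9_10_2_ok) (M (nat_lit 268) (B (L (nat_lit 236) ln12_7_5 ln12_7_5_ok) (M (nat_lit 395) (B (L (nat_lit 299) ln11_12_6 ln11_12_6_ok) (L (nat_lit 427) ln11_13_6 ln11_13_6_ok))))))))))) (B (M (nat_lit 333) (B (M (nat_lit 334) (B (M (nat_lit 298) (B (L (nat_lit 297) ln13_10_3 ln13_10_3_ok) (L (nat_lit 299) ln14_10_3 ln14_10_3_ok))) (L (nat_lit 366) ln10_10_0 ln10_10_0_ok))) (B (M (nat_lit 302) (B (L (nat_lit 301) ln10_10_2 ln10_10_2_ok) (M (nat_lit 334) (B (L (nat_lit 303) ln11_10_2 ln11_10_2_ok) (L (nat_lit 366) ln10_10_0 ln10_10_0_ok))))) (B (M (nat_lit 334) (B (M (nat_lit 298) (B (L (nat_lit 297) ln13_10_3 ln13_10_3_ok) (L (nat_lit 299) ln14_10_3 ln14_10_3_ok)))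 (M (nat_lit 302) (B (L (nat_lit 301) ln10_10_2 ln10_10_2_ok) (L (nat_lit 303) ln11_10_2 ln11_10_2_ok))))) (M (nat_lit 329) (B (M (nat_lit 297) (B (L (nat_lit 296) ln12_10_3 ln12_10_3_ok) (L (nat_lit 298) ln13_10_3 ln13_10_3_ok))) (M (nat_lit 301) (B (L (nat_lit 300) ln9_10_2 ln9_10_2_ok) (L (nat_lit 302) ln10_10_2 ln10_10_2_ok))))))))) (M (nat_lit 333) (B (M (nat_lit 362) (B (L (nat_lit 334) ln14_10_1 ln14_10_1_ok) (L (nat_lit 361) ln13_10_1 ln13_10_1_ok))) (L (nat_lit 366) ln10_10_0 ln10_10_0_ok))))))))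
noncomputable def c10_d170 : Cert := (B (M (nat_lit 329) (B (K (nat_lit 5954262830815946494440468064101681940815180585121047853120753238162975815267335329627387781355916890252855539282973910778890286696956428288) (nat_lit 18201205026066429437546582101200454382270300185680543264635747343502820156424605226158370018716859638485090304) (nat_lit 18201205026066429437546582101200454382270300185680543264635747343502820156424605226158370018716859638485090304) c10_s139) (B (K (nat_lit 5954262830815946494440468064101681940815180585121047853120753238162975815267335329627387781355916890252855539282973910778890286696956428288) (nat_lit 20173827190755178382753297968565482872389112902816707860994121953427782201573864099666047085856420692400624366660878336) (nat_lit 20173827190755178382753297968565482872389112902816707860994121953427782201573864099666047085856420692400624366660878336) c10_s141)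 (B (M (nat_lit 298) (B (M (nat_lit 266) (B (L (nat_lit 234) ln10_7_4 ln10_7_4_ok) (M (nat_lit 395) (B (L (nat_lit 362) ln10_8_4 ln10_8_4_ok) (L (nat_lit 427) ln11_13_7 ln11_13_7_ok))))) (B (M (nat_lit 395) (B (L (nat_lit 427) ln11_13_7 ln11_13_7_ok) (M (nat_lit 266) (B (L (nat_lit 299) ln11_12_7 ln11_12_7_ok) (L (nat_lit 362) ln10_8_4 ln10_8_4_ok))))) (B (M (nat_lit 328) (B (M (nat_lit 327) (B (L (nat_lit 299) ln7_10_2_c10 ln7_10_2_c10_ok) (L (nat_lit 362) ln7_10_0_c10 ln7_10_0_c10_ok))) (B (M (nat_lit 332) (B (M (nat_lit 360) (B (L (nat_lit 361) ln12_10_1 ln12_10_1_ok) (L (nat_lit 359) ln11_10_1_c10 ln11_10_1_c10_ok))) (M (nat_lit 297) (B (L (nat_lit 333) ln13_10_3 ln13_10_3_ok) (M (nat_lit 327) (B (L (nat_lit 326) ln6_10_2_c10 ln6_10_2_c10_ok) (L (nat_lit 362) ln7_10_0_c10 ln7_10_0_c10_ok))))))) (B (M (nat_lit 332) (B (M (nat_lit 360) (B (L (nat_lit 361) ln12_10_1 ln12_10_1_ok)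 (L (nat_lit 359) ln11_10_1_c10 ln11_10_1_c10_ok))) (M (nat_lit 333) (B (L (nat_lit 297) ln13_10_3 ln13_10_3_ok) (M (nat_lit 334) (B (L (nat_lit 299) ln14_10_3 ln14_10_3_ok) (L (nat_lit 362) ln14_10_1 ln14_10_1_ok))))))) (M (nat_lit 332) (B (M (nat_lit 360) (B (L (nat_lit 361) ln12_10_1 ln12_10_1_ok) (L (nat_lit 359) ln11_10_1_c10 ln11_10_1_c10_ok))) (M (nat_lit 299) (B (L (nat_lit 327) ln7_10_2_c10 ln7_10_2_c10_ok) (M (nat_lit 333) (B (L (nat_lit 334) ln14_10_3 ln14_10_3_ok) (L (nat_lit 297) ln13_10_3 ln13_10_3_ok))))))))))) (M (nat_lit 266) (B (L (nat_lit 234) ln10_7_4 ln10_7_4_ok) (M (nat_lit 395) (B (L (nat_lit 299) ln11_12_7 ln11_12_7_ok) (L (nat_lit 427) ln11_13_7 ln11_13_7_ok))))))))) c10_d167)))) (B (M (nat_lit 329) (B (M (nat_lit 298) (B (M (nat_lit 266) (B (L (nat_lit 234) ln10_7_4 ln10_7_4_ok) (M (nat_lit 395) (B (L (nat_lit 299) ln11_12_7 ln11_12_7_ok) (L (nat_lit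 427) ln11_13_7 ln11_13_7_ok))))) (B (M (nat_lit 299) (B (M (nat_lit 395) (B (L (nat_lit 266) ln11_12_7 ln11_12_7_ok) (L (nat_lit 427) ln11_13_7 ln11_13_7_ok))) (M (nat_lit 300) (B (L (nat_lit 301) ln13_9_1 ln13_9_1_ok) (L (nat_lit 328) ln8_10_2_c10 ln8_10_2_c10_ok))))) (B (M (nat_lit 332) (B (M (nat_lit 297) (B (L (nat_lit 333) ln13_10_3 ln13_10_3_ok) (L (nat_lit 296) ln12_10_3 ln12_10_3_ok))) (M (nat_lit 300) (B (L (nat_lit 301) ln9_10_2 ln9_10_2_ok) (M (nat_lit 328) (B (L (nat_lit 299) ln8_10_2_c10 ln8_10_2_c10_ok) (M (nat_lit 360) (B (L (nat_lit 361) ln12_10_1 ln12_10_1_ok) (L (nat_lit 359) ln11_10_1_c10 ln11_10_1_c10_ok))))))))) (K (nat_lit 5954262830815946494440468064101681940815180585121557112114836859684542926689437674167650648454333374315514574395312506103831120873502277632) (nat_lit 86645927961449291543186451323353930247221581430899547855987419208256624484489589521370465409601868748944811060018152979650576384)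 (nat_lit 86645927961449291543186451323353930247221581430899547855987419208256624484489589521370465409601868748944811060018152979650576384) c10_s142))))) (B (M (nat_lit 332) (B (M (nat_lit 328) (B (M (nat_lit 296) (B (L (nat_lit 297) ln12_10_3 ln12_10_3_ok) (L (nat_lit 295) ln11_10_3_c10 ln11_10_3_c10_ok))) (M (nat_lit 360) (B (L (nat_lit 361) ln12_10_1 ln12_10_1_ok) (L (nat_lit 359) ln11_10_1_c10 ln11_10_1_c10_ok))))) (B (M (nat_lit 328) (B (M (nat_lit 300) (B (L (nat_lit 301) ln9_10_2 ln9_10_2_ok) (L (nat_lit 299) ln8_10_2_c10 ln8_10_2_c10_ok))) (M (nat_lit 360) (B (L (nat_lit 361) ln12_10_1 ln12_10_1_ok) (L (nat_lit 359) ln11_10_1_c10 ln11_10_1_c10_ok))))) (M (nat_lit 333) (B (M (nat_lit 301) (B (L (nat_lit 302) ln10_10_2 ln10_10_2_ok) (L (nat_lit 300) ln9_10_2 ln9_10_2_ok))) (M (nat_lit 297) (B (L (nat_lit 298) ln13_10_3 ln13_10_3_ok) (L (nat_lit 296) ln12_10_3 ln12_10_3_ok))))))))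 (B (M (nat_lit 298) (B (M (nat_lit 266) (B (L (nat_lit 234) ln10_7_4 ln10_7_4_ok) (M (nat_lit 395) (B (L (nat_lit 299) ln11_12_7 ln11_12_7_ok) (L (nat_lit 427) ln11_13_7 ln11_13_7_ok))))) (B (M (nat_lit 299) (B (M (nat_lit 395) (B (L (nat_lit 266) ln11_12_7 ln11_12_7_ok) (L (nat_lit 427) ln11_13_7 ln11_13_7_ok))) (M (nat_lit 328) (B (L (nat_lit 300) ln8_10_2_c10 ln8_10_2_c10_ok) (L (nat_lit 327) ln7_10_2_c10 ln7_10_2_c10_ok))))) (B (M (nat_lit 328) (B (M (nat_lit 299) (B (L (nat_lit 300) ln8_10_2_c10 ln8_10_2_c10_ok) (L (nat_lit 327) ln7_10_2_c10 ln7_10_2_c10_ok))) (M (nat_lit 332) (B (M (nat_lit 297) (B (L (nat_lit 333) ln13_10_3 ln13_10_3_ok) (L (nat_lit 296) ln12_10_3 ln12_10_3_ok))) (M (nat_lit 360) (B (L (nat_lit 361) ln12_10_1 ln12_10_1_ok) (L (nat_lit 359) ln11_10_1_c10 ln11_10_1_c10_ok))))))) (K (nat_lit 5954262830815946494440468064101681940815180585121557112114836859684542926689437674167650648454333374315514574395312506103831120873502277632)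 (nat_lit 86645927961449291543186451323353930247221581430899547855987419208256624484489589521370465409601868748944811060018152979650576384) (nat_lit 86645927961449291543186451323353930247221581430899547855987419208256624484489589521370465409601868748944811060018152979650576384) c10_s142))))) (B (K (nat_lit 5954262830815946494440468064101681940815180585121047853120753238162975815267335329627387781355916890252855539282973910778890286696956428288) (nat_lit 433229639807246457680704117768260273644091476459868032156595471889662762253037571020149317780322651846602214251217421667288481792) (nat_lit 433229639807246457680704117768260273644091476459868032156595471889662762253037571020149317780322651846602214251217421667288481792) c10_s145) (B (K (nat_lit 5954262830815946494440468064101681940815180585121047853120753238162975815267335329627387781355916890252855539282973910778890286696956428288)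 (nat_lit 86645927961449291542599315660162466142589860942226139113887520168938785692029141803274429166168247497863550854841634160872783872) (nat_lit 86645927961449291542599315660162466142589860942226139113887520168938785692029141803274429166168247497863550854841634160872783872) c10_s143) (B (K (nat_lit 5954262830815946494440468064101681940815180585121047853120753238162975815267335329627387781355916890252855539282973910778890286696956428288) (nat_lit 8807034694971096533118285631213807574707129899480087345486722835204760933192663025043908574349463297999241216) (nat_lit 8807034694971096533118285631213807574707129899480087345486722835204760933192663025043908574349463297999241216) c10_s140) c10_d168))))))) c10_d169))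
noncomputable def c10_d171 : Cert := (B (M (nat_lit 329) (B (M (nat_lit 328) (B (M (nat_lit 327) (B (L (nat_lit 362) ln7_10_0_c10 ln7_10_0_c10_ok) (M (nat_lit 295) (B (L (nat_lit 296) ln11_10_3_c10 ln11_10_3_c10_ok) (L (nat_lit 294) ln10_10_3_c10 ln10_10_3_c10_ok))))) (B (M (nat_lit 327) (B (L (nat_lit 362) ln7_10_0_c10 ln7_10_0_c10_ok) (M (nat_lit 359) (B (L (nat_lit 360) ln11_10_1_c10 ln11_10_1_c10_ok) (L (nat_lit 358) ln10_10_1_c10 ln10_10_1_c10_ok))))) (M (nat_lit 332) (B (M (nat_lit 300) (B (L (nat_lit 301) ln9_10_2 ln9_10_2_ok) (L (nat_lit 299) ln8_10_2_c10 ln8_10_2_c10_ok))) (M (nat_lit 296) (B (L (nat_lit 297) ln12_10_3 ln12_10_3_ok) (L (nat_lit 295) ln11_10_3_c10 ln11_10_3_c10_ok)))))))) (B (K (nat_lit 5954262830815946494440468064101681940815180585121047853120753238162975815267335329627387781355916890252855539282973910778890286696956428288) (nat_lit 18201205026066429437546582101200454382270300185680543264635747343502820156424605226158370018716859638485090304)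 (nat_lit 18201205026066429437546582101200454382270300185680543264635747343502820156424605226158370018716859638485090304) c10_s139) c10_d165))) (B (M (nat_lit 329) (B (K (nat_lit 5954262830815946494440468064101681940815180585121047853120753238162975815267335329627387781355916890252855539282973910778890286696956428288) (nat_lit 18201205026066429437546582101200454382270300185680543264635747343502820156424605226158370018716859638485090304) (nat_lit 18201205026066429437546582101200454382270300185680543264635747343502820156424605226158370018716859638485090304) c10_s139) (B (K (nat_lit 5954262830815946494440468064101681940815180585121047853120753238162975815267335329627387781355916890252855539282973910778890286696956428288) (nat_lit 20173827190755178382753297968565482872389112902816707860994121953427782201573864099666047085856420692400624366660878336) (nat_lit 20173827190755178382753297968565482872389112902816707860994121953427782201573864099666047085856420692400624366660878336)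 c10_s141) (B (M (nat_lit 298) (B (M (nat_lit 266) (B (L (nat_lit 234) ln10_7_4 ln10_7_4_ok) (M (nat_lit 395) (B (L (nat_lit 362) ln10_8_4 ln10_8_4_ok) (L (nat_lit 427) ln11_13_7 ln11_13_7_ok))))) (B (M (nat_lit 361) (B (M (nat_lit 332) (B (L (nat_lit 360) ln12_10_1 ln12_10_1_ok) (M (nat_lit 333) (B (L (nat_lit 297) ln13_10_3 ln13_10_3_ok) (L (nat_lit 362) ln13_10_1 ln13_10_1_ok))))) (B (M (nat_lit 360) (B (L (nat_lit 332) ln12_10_1 ln12_10_1_ok) (M (nat_lit 359) (B (L (nat_lit 328) ln11_10_1_c10 ln11_10_1_c10_ok) (L (nat_lit 358) ln6_11_2_c10 ln6_11_2_c10_ok))))) (M (nat_lit 393) (B (L (nat_lit 425) ln9_13_6_c10 ln9_13_6_c10_ok) (M (nat_lit 266) (B (L (nat_lit 297) ln9_12_6_c10 ln9_12_6_c10_ok) (L (nat_lit 362) ln10_8_5_c10 ln10_8_5_c10_ok)))))))) (B (M (nat_lit 328) (B (M (nat_lit 327) (B (L (nat_lit 362) ln7_10_0_c10 ln7_10_0_c10_ok) (M (nat_lit 359) (B (L (nat_lit 360) ln11_10_1_c10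 ln11_10_1_c10_ok) (L (nat_lit 358) ln10_10_1_c10 ln10_10_1_c10_ok))))) (B (M (nat_lit 332) (B (M (nat_lit 360) (B (L (nat_lit 361) ln12_10_1 ln12_10_1_ok) (L (nat_lit 359) ln11_10_1_c10 ln11_10_1_c10_ok))) (M (nat_lit 333) (B (L (nat_lit 297) ln13_10_3 ln13_10_3_ok) (M (nat_lit 301) (B (L (nat_lit 302) ln10_10_2 ln10_10_2_ok) (L (nat_lit 300) ln9_10_2 ln9_10_2_ok))))))) (M (nat_lit 327) (B (L (nat_lit 362) ln7_10_0_c10 ln7_10_0_c10_ok) (M (nat_lit 326) (B (L (nat_lit 297) ln6_10_2_c10 ln6_10_2_c10_ok) (M (nat_lit 294) (B (L (nat_lit 295) ln10_10_3_c10 ln10_10_3_c10_ok) (L (nat_lit 293) ln9_10_3_c10 ln9_10_3_c10_ok)))))))))) (M (nat_lit 361) (B (M (nat_lit 266) (B (L (nat_lit 234) ln10_7_4 ln10_7_4_ok) (M (nat_lit 393) (B (L (nat_lit 297) ln9_12_6_c10 ln9_12_6_c10_ok) (L (nat_lit 425) ln9_13_6_c10 ln9_13_6_c10_ok))))) (M (nat_lit 360) (B (L (nat_lit 332) ln12_10_1 ln12_10_1_ok)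 (M (nat_lit 359) (B (L (nat_lit 328) ln11_10_1_c10 ln11_10_1_c10_ok) (L (nat_lit 358) ln6_11_2_c10 ln6_11_2_c10_ok))))))))))) (B (M (nat_lit 298) (B (M (nat_lit 266) (B (L (nat_lit 234) ln10_7_4 ln10_7_4_ok) (M (nat_lit 395) (B (L (nat_lit 362) ln10_8_4 ln10_8_4_ok) (L (nat_lit 427) ln11_13_7 ln11_13_7_ok))))) (B (M (nat_lit 361) (B (M (nat_lit 393) (B (L (nat_lit 425) ln9_13_6_c10 ln9_13_6_c10_ok) (M (nat_lit 266) (B (L (nat_lit 297) ln9_12_6_c10 ln9_12_6_c10_ok) (L (nat_lit 362) ln10_8_5_c10 ln10_8_5_c10_ok))))) (B (M (nat_lit 332) (B (L (nat_lit 360) ln12_10_1 ln12_10_1_ok) (M (nat_lit 333) (B (L (nat_lit 297) ln13_10_3 ln13_10_3_ok) (L (nat_lit 362) ln13_10_1 ln13_10_1_ok))))) (B (M (nat_lit 362) (B (M (nat_lit 395) (B (L (nat_lit 266) ln10_8_4 ln10_8_4_ok) (L (nat_lit 427) ln11_13_7 ln11_13_7_ok))) (M (nat_lit 360) (B (L (nat_lit 332) ln12_10_1 ln12_10_1_ok) (L (nat_lit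 359) ln7_11_2 ln7_11_2_ok))))) (M (nat_lit 332) (B (L (nat_lit 360) ln12_10_1 ln12_10_1_ok) (M (nat_lit 297) (B (L (nat_lit 333) ln13_10_3 ln13_10_3_ok) (L (nat_lit 296) ln12_10_3 ln12_10_3_ok))))))))) (B (M (nat_lit 328) (B (M (nat_lit 327) (B (L (nat_lit 362) ln7_10_0_c10 ln7_10_0_c10_ok) (M (nat_lit 359) (B (L (nat_lit 360) ln11_10_1_c10 ln11_10_1_c10_ok) (L (nat_lit 358) ln10_10_1_c10 ln10_10_1_c10_ok))))) (B (M (nat_lit 332) (B (M (nat_lit 297) (B (L (nat_lit 333) ln13_10_3 ln13_10_3_ok) (L (nat_lit 296) ln12_10_3 ln12_10_3_ok))) (M (nat_lit 360) (B (L (nat_lit 361) ln12_10_1 ln12_10_1_ok) (L (nat_lit 359) ln11_10_1_c10 ln11_10_1_c10_ok))))) (M (nat_lit 297) (B (M (nat_lit 327) (B (L (nat_lit 326) ln6_10_2_c10 ln6_10_2_c10_ok) (L (nat_lit 362) ln7_10_0_c10 ln7_10_0_c10_ok))) (M (nat_lit 332) (B (L (nat_lit 333) ln13_10_3 ln13_10_3_ok) (L (nat_lit 296) ln12_10_3 ln12_10_3_ok))))))))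 (K (nat_lit 5954262830815946494440468064101681940815180585121557112114836859684542926689437674167650648454333374315514574395312506103831120873502277632) (nat_lit 86645927961449291543186451323353930247221581430899547855987419208256624484489589521370465409601868748944811060018152979650576384) (nat_lit 86645927961449291543186451323353930247221581430899547855987419208256624484489589521370465409601868748944811060018152979650576384) c10_s142))))) c10_d166))))) (B (K (nat_lit 5954262830815946494440468064101681940814086959758656347158566987049417004584658744911941175137704004949650562783374222817278530108444901376) (nat_lit 3196670516826071039175743858997315426865583407943977352629495626797395534962489024196238930878807453328821537229844116478417371452728863309030227968) (nat_lit 3196670516826071039175743858997315426865583407943977352629495626797395534962489024196238930878807453328821537229844116478417371452728863309030227968)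 c10_s144) c10_d170)))
theorem c10_s147 : Sem (nat_lit 5954262830815946494440468064101681940811899709033873335234194484822299383219305575481047962701278234343240609784174846894055016931421847552) (nat_lit 15983352583479107698758225147283237359731860418587134759431873384274999560582138656028652969058401871040402374116649100172603501913928658834740477952) (nat_lit 15983352583479107698758225147283237359731860418587134759431873384274999560582138656028652969058401871040402374116649100172603501913928658834740477952) :=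
  sem_of_chk (M (nat_lit 330) c10_d171) (nat_lit 5954262830815946494440468064101681940811899709033873335234194484822299383219305575481047962701278234343240609784174846894055016931421847552) (nat_lit 15983352583479107698758225147283237359731860418587134759431873384274999560582138656028652969058401871040402374116649100172603501913928658834740477952) (nat_lit 15983352583479107698758225147283237359731860418587134759431873384274999560582138656028652969058401871040402374116649100172603501913928658834740477952) (by decide +kernel)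
theorem c10_s304 : Sem (nat_lit 20839919904563267469136299467468243040968311306576724125601814824542818561135580730608205265846292373090681313944358956363619163917254656000) (nat_lit 372141426925996656003398389928425688316305259764566607810903354869449640771257899608953609923933948110544221388395755593127056236791988224) (nat_lit 372141426925996656003398389928425688316305259764566607810903354869449640771257899608953609923933948110544221388395755593127056236791988224) :=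
  sem_of_chk (M (nat_lit 330) (B (K (nat_lit 20839919904563267469136299467468243040970498557301507137526187326769936182500933900039098478282718143697091266943558332286842677094277709824) (nat_lit 372141426925996655922703081177734823365770277393130403411104424689174924885297008515389530040343719740010883851804436733305014107385102336) (nat_lit 372141426925996655922703081177734823365770277393130403411104424689174924885297008515389530040343719740010883851804436733305014107385102336) c10_s285) (B (K (nat_lit 20839919904563267469136299467468243040970498557301507137526187326769936182500933900039098478282718143697091266943558332286842677094277709824) (nat_lit 86645927961449291539076501782037324363073120235472649813852795888123761264064384733309036502652078364761282688680969340811476992) (nat_lit 86645927961449291539076501782037324363073120235472649813852795888123761264064384733309036502652078364761282688680969340811476992)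 c10_s296) (B (M (nat_lit 299) (B (M (nat_lit 267) (B (L (nat_lit 298) ln10_12_6_c10 ln10_12_6_c10_ok) (L (nat_lit 331) ln10_13_6 ln10_13_6_ok))) (B (M (nat_lit 329) (B (L (nat_lit 331) ln10_13_6 ln10_13_6_ok) (L (nat_lit 297) ln10_13_7_c10 ln10_13_7_c10_ok))) (M (nat_lit 298) (B (L (nat_lit 267) ln10_12_6_c10 ln10_12_6_c10_ok) (M (nat_lit 297) (B (L (nat_lit 265) ln10_12_7_c10 ln10_12_7_c10_ok) (L (nat_lit 329) ln10_13_7_c10 ln10_13_7_c10_ok)))))))) (B (K (nat_lit 20839919904563267469136299467468243040970498557301507137526187326769936182500933900039098478282718143697091266943558332286842677094277709824) (nat_lit 86645928042144600248080735871112167480372534216863457478293742093040187886144385875065635895249103637140161179133448850981781504) (nat_lit 86645928042144600248080735871112167480372534216863457478293742093040187886144385875065635895249103637140161179133448850981781504)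 c10_s293) (B (K (nat_lit 20839919904563267469136299467468243040970498557301507137526187326769936182500933900039098478282718143697091266943558332286842677094277709824) (nat_lit 86645928042144600248080735870018542118744916745802638647085598543507478352826526362824224913478632830433232986970246770277220352) (nat_lit 86645928042144600248080735870018542118744916745802638647085598543507478352826526362824224913478632830433232986970246770277220352) c10_s294) (M (nat_lit 329) (B (L (nat_lit 297) ln10_13_7_c10 ln10_13_7_c10_ok) (M (nat_lit 331) (B (L (nat_lit 299) ln10_13_6 ln10_13_6_ok) (M (nat_lit 328) (B (M (nat_lit 363) (B (L (nat_lit 327) ln7_10_0_c10 ln7_10_0_c10_ok) (L (nat_lit 364) ln8_10_0 ln8_10_0_ok))) (B (M (nat_lit 327) (B (M (nat_lit 359) (B (L (nat_lit 358) ln10_10_1_c10 ln10_10_1_c10_ok) (L (nat_lit 360) ln11_10_1_c10 ln11_10_1_c10_ok))) (M (nat_lit 295) (B (L (nat_lit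 294) ln10_10_3_c10 ln10_10_3_c10_ok) (L (nat_lit 296) ln11_10_3_c10 ln11_10_3_c10_ok))))) (M (nat_lit 332) (B (M (nat_lit 360) (B (L (nat_lit 359) ln11_10_1_c10 ln11_10_1_c10_ok) (L (nat_lit 361) ln12_10_1 ln12_10_1_ok))) (L (nat_lit 364) ln9_10_0 ln9_10_0_ok)))))))))))))))) (nat_lit 20839919904563267469136299467468243040968311306576724125601814824542818561135580730608205265846292373090681313944358956363619163917254656000) (nat_lit 372141426925996656003398389928425688316305259764566607810903354869449640771257899608953609923933948110544221388395755593127056236791988224) (nat_lit 372141426925996656003398389928425688316305259764566607810903354869449640771257899608953609923933948110544221388395755593127056236791988224) (by decide +kernel)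
noncomputable def c10_d172 : Cert := (B (M (nat_lit 400) (B (M (nat_lit 368) (B (M (nat_lit 367) (B (L (nat_lit 335) ln16_14_7 ln16_14_7_ok) (L (nat_lit 399) ln16_15_7 ln16_15_7_ok))) (M (nat_lit 369) (B (L (nat_lit 337) ln16_14_6_c10 ln16_14_6_c10_ok) (L (nat_lit 401) ln16_15_6_c10 ln16_15_6_c10_ok))))) (B (M (nat_lit 401) (B (L (nat_lit 369) ln16_15_6_c10 ln16_15_6_c10_ok) (M (nat_lit 433) (B (L (nat_lit 528) ln16_16_6_c10 ln16_16_6_c10_ok) (M (nat_lit 399) (B (L (nat_lit 367) ln16_15_7 ln16_15_7_ok) (L (nat_lit 398) ln13_12_0 ln13_12_0_ok))))))) (B (M (nat_lit 368) (B (M (nat_lit 369) (B (L (nat_lit 337) ln16_14_6_c10 ln16_14_6_c10_ok) (L (nat_lit 401) ln16_15_6_c10 ln16_15_6_c10_ok))) (B (M (nat_lit 433) (B (M (nat_lit 465) (B (L (nat_lit 336) ln16_10_4_c10 ln16_10_4_c10_ok) (L (nat_lit 497) ln16_11_4 ln16_11_4_ok))) (M (nat_lit 401) (B (L (nat_lit 369) ln16_15_6_c10 ln16_15_6_c10_ok)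 (L (nat_lit 528) ln16_16_6_c10 ln16_16_6_c10_ok))))) (M (nat_lit 336) (B (M (nat_lit 465) (B (L (nat_lit 433) ln16_10_4_c10 ln16_10_4_c10_ok) (L (nat_lit 497) ln16_11_4 ln16_11_4_ok))) (M (nat_lit 304) (B (M (nat_lit 303) (B (L (nat_lit 271) ln16_12_7_c10 ln16_12_7_c10_ok) (L (nat_lit 335) ln16_13_7 ln16_13_7_ok))) (M (nat_lit 305) (B (L (nat_lit 273) ln16_12_6_c10 ln16_12_6_c10_ok) (L (nat_lit 337) ln16_13_6_c10 ln16_13_6_c10_ok)))))))))) (B (M (nat_lit 368) (B (M (nat_lit 367) (B (L (nat_lit 335) ln16_14_7 ln16_14_7_ok) (L (nat_lit 399) ln16_15_7 ln16_15_7_ok))) (M (nat_lit 465) (B (L (nat_lit 497) ln16_11_4 ln16_11_4_ok) (M (nat_lit 433) (B (L (nat_lit 336) ln16_10_4_c10 ln16_10_4_c10_ok) (M (nat_lit 528) (B (L (nat_lit 401) ln16_16_6_c10 ln16_16_6_c10_ok) (L (nat_lit 560) ln16_17_6_c10 ln16_17_6_c10_ok))))))))) (M (nat_lit 368) (B (M (nat_lit 367) (B (L (nat_lit 335) ln16_14_7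 ln16_14_7_ok) (L (nat_lit 399) ln16_15_7 ln16_15_7_ok))) (M (nat_lit 336) (B (M (nat_lit 337) (B (L (nat_lit 305) ln16_13_6_c10 ln16_13_6_c10_ok) (L (nat_lit 369) ln16_14_6_c10 ln16_14_6_c10_ok))) (M (nat_lit 465) (B (L (nat_lit 433) ln16_10_4_c10 ln16_10_4_c10_ok) (L (nat_lit 497) ln16_11_4 ln16_11_4_ok)))))))))))) (M (nat_lit 528) (B (M (nat_lit 560) (B (M (nat_lit 591) (B (L (nat_lit 559) ln16_14_5_c10 ln16_14_5_c10_ok) (M (nat_lit 592) (B (L (nat_lit 623) ln16_15_5_c10 ln16_15_5_c10_ok) (M (nat_lit 593) (B (L (nat_lit 561) ln16_14_4_c10 ln16_14_4_c10_ok) (L (nat_lit 625) ln16_15_4_c10 ln16_15_4_c10_ok))))))) (B (M (nat_lit 592) (B (M (nat_lit 465) (B (L (nat_lit 433) ln16_17_6_c10 ln16_17_6_c10_ok) (L (nat_lit 497) ln16_18_6_c10 ln16_18_6_c10_ok))) (M (nat_lit 593) (B (L (nat_lit 561) ln16_14_4_c10 ln16_14_4_c10_ok) (L (nat_lit 625) ln16_15_4_c10 ln16_15_4_c10_ok))))) (B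 (M (nat_lit 592) (B (M (nat_lit 465) (B (L (nat_lit 433) ln16_17_6_c10 ln16_17_6_c10_ok) (L (nat_lit 497) ln16_18_6_c10 ln16_18_6_c10_ok))) (M (nat_lit 591) (B (L (nat_lit 559) ln16_14_5_c10 ln16_14_5_c10_ok) (L (nat_lit 623) ln16_15_5_c10 ln16_15_5_c10_ok))))) (M (nat_lit 433) (B (L (nat_lit 401) ln16_16_6_c10 ln16_16_6_c10_ok) (L (nat_lit 465) ln16_17_6_c10 ln16_17_6_c10_ok))))))) (B (M (nat_lit 561) (B (M (nat_lit 593) (B (L (nat_lit 560) ln16_14_4_c10 ln16_14_4_c10_ok) (L (nat_lit 529) ln16_13_4_c10 ln16_13_4_c10_ok))) (B (M (nat_lit 527) (B (L (nat_lit 529) ln16_13_4_c10 ln16_13_4_c10_ok) (L (nat_lit 559) ln16_13_5_c10 ln16_13_5_c10_ok))) (M (nat_lit 560) (B (L (nat_lit 593) ln16_14_4_c10 ln16_14_4_c10_ok) (M (nat_lit 559) (B (L (nat_lit 591) ln16_14_5_c10 ln16_14_5_c10_ok) (L (nat_lit 527) ln16_13_5_c10 ln16_13_5_c10_ok)))))))) (B (M (nat_lit 560) (B (M (nat_lit 559) (B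 (L (nat_lit 591) ln16_14_5_c10 ln16_14_5_c10_ok) (L (nat_lit 527) ln16_13_5_c10 ln16_13_5_c10_ok))) (M (nat_lit 433) (B (L (nat_lit 465) ln16_17_6_c10 ln16_17_6_c10_ok) (L (nat_lit 401) ln16_16_6_c10 ln16_16_6_c10_ok))))) (B (M (nat_lit 560) (B (M (nat_lit 433) (B (L (nat_lit 401) ln16_16_6_c10 ln16_16_6_c10_ok) (L (nat_lit 465) ln16_17_6_c10 ln16_17_6_c10_ok))) (M (nat_lit 561) (B (L (nat_lit 529) ln16_13_4_c10 ln16_13_4_c10_ok) (L (nat_lit 593) ln16_14_4_c10 ln16_14_4_c10_ok))))) (M (nat_lit 529) (B (L (nat_lit 561) ln16_13_4_c10 ln16_13_4_c10_ok) (M (nat_lit 527) (B (L (nat_lit 559) ln16_13_5_c10 ln16_13_5_c10_ok) (M (nat_lit 530) (B (M (nat_lit 499) (B (L (nat_lit 498) ln15_16_2_c10 ln15_16_2_c10_ok) (M (nat_lit 531) (B (L (nat_lit 500) ln16_16_2_c10 ln16_16_2_c10_ok) (M (nat_lit 563) (B (L (nat_lit 564) ln16_16_0_c10 ln16_16_0_c10_ok) (L (nat_lit 562) ln15_16_0_c10 ln15_16_0_c10_ok)))))))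 (B (M (nat_lit 497) (B (M (nat_lit 498) (B (L (nat_lit 499) ln19_15_1_c10 ln19_15_1_c10_ok) (L (nat_lit 526) ln14_16_2 ln14_16_2_ok))) (B (M (nat_lit 526) (B (L (nat_lit 498) ln14_16_2 ln14_16_2_ok) (L (nat_lit 525) ln13_16_2 ln13_16_2_ok))) (M (nat_lit 433) (B (L (nat_lit 401) ln16_16_6_c10 ln16_16_6_c10_ok) (M (nat_lit 562) (B (L (nat_lit 563) ln15_16_0_c10 ln15_16_0_c10_ok) (L (nat_lit 465) ln17_13_4_c10 ln17_13_4_c10_ok)))))))) (B (M (nat_lit 531) (B (M (nat_lit 499) (B (L (nat_lit 500) ln16_16_2_c10 ln16_16_2_c10_ok) (L (nat_lit 498) ln15_16_2_c10 ln15_16_2_c10_ok))) (B (M (nat_lit 497) (B (L (nat_lit 532) ln20_16_3_c10 ln20_16_3_c10_ok) (M (nat_lit 498) (B (L (nat_lit 499) ln19_15_1_c10 ln19_15_1_c10_ok) (L (nat_lit 526) ln14_16_2 ln14_16_2_ok))))) (B (M (nat_lit 497) (B (L (nat_lit 532) ln20_16_3_c10 ln20_16_3_c10_ok) (M (nat_lit 526) (B (L (nat_lit 498) ln14_16_2 ln14_16_2_ok)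 (L (nat_lit 525) ln13_16_2 ln13_16_2_ok))))) (M (nat_lit 532) (B (L (nat_lit 497) ln20_16_3_c10 ln20_16_3_c10_ok) (M (nat_lit 500) (B (L (nat_lit 501) ln17_16_2_c10 ln17_16_2_c10_ok) (L (nat_lit 499) ln16_16_2_c10 ln16_16_2_c10_ok))))))))) (B (M (nat_lit 497) (B (M (nat_lit 526) (B (L (nat_lit 498) ln14_16_2 ln14_16_2_ok) (L (nat_lit 525) ln13_16_2 ln13_16_2_ok))) (M (nat_lit 433) (B (L (nat_lit 401) ln16_16_6_c10 ln16_16_6_c10_ok) (M (nat_lit 562) (B (L (nat_lit 563) ln15_16_0_c10 ln15_16_0_c10_ok) (L (nat_lit 465) ln17_13_4_c10 ln17_13_4_c10_ok))))))) (M (nat_lit 531) (B (M (nat_lit 563) (B (L (nat_lit 564) ln16_16_0_c10 ln16_16_0_c10_ok) (L (nat_lit 562) ln15_16_0_c10 ln15_16_0_c10_ok))) (M (nat_lit 532) (B (L (nat_lit 497) ln20_16_3_c10 ln20_16_3_c10_ok) (M (nat_lit 500) (B (L (nat_lit 501) ln17_16_2_c10 ln17_16_2_c10_ok) (L (nat_lit 499) ln16_16_2_c10 ln16_16_2_c10_ok))))))))))))))))))))))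
noncomputable def c10_d173 : Cert := (B (K (nat_lit 204586913061982889426741903620462092410142446540376549202178303789781155126700702311356199343363612517271737785529156254729995406981006581279605391360) (nat_lit 7547924852279165006382437118611873627725801292287879269634054451472361573642622155091968931517103059151045993243191924778584794340794859771617723817219144930195530579968) (nat_lit 7547924852279165006382437118611873627725801292287879269634054451472361573642622155091968931517103059151045993243191924778584794340794859771617723817219144930195530579968) c10_s390) (B (M (nat_lit 528) (B (M (nat_lit 560) (B (M (nat_lit 433) (B (L (nat_lit 401) ln16_16_6_c10 ln16_16_6_c10_ok) (L (nat_lit 465) ln16_17_6_c10 ln16_17_6_c10_ok))) (M (nat_lit 559) (B (L (nat_lit 527) ln16_13_5_c10 ln16_13_5_c10_ok) (L (nat_lit 591) ln16_14_5_c10 ln16_14_5_c10_ok))))) (B (M (nat_lit 561) (B (L (nat_lit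 529) ln16_13_4_c10 ln16_13_4_c10_ok) (M (nat_lit 560) (B (L (nat_lit 593) ln16_14_4_c10 ln16_14_4_c10_ok) (M (nat_lit 559) (B (L (nat_lit 527) ln16_13_5_c10 ln16_13_5_c10_ok) (L (nat_lit 591) ln16_14_5_c10 ln16_14_5_c10_ok))))))) (B (M (nat_lit 560) (B (M (nat_lit 433) (B (L (nat_lit 401) ln16_16_6_c10 ln16_16_6_c10_ok) (L (nat_lit 465) ln16_17_6_c10 ln16_17_6_c10_ok))) (M (nat_lit 561) (B (L (nat_lit 529) ln16_13_4_c10 ln16_13_4_c10_ok) (L (nat_lit 593) ln16_14_4_c10 ln16_14_4_c10_ok))))) (M (nat_lit 400) (B (M (nat_lit 401) (B (L (nat_lit 369) ln16_15_6_c10 ln16_15_6_c10_ok) (L (nat_lit 433) ln16_16_6_c10 ln16_16_6_c10_ok))) (M (nat_lit 529) (B (L (nat_lit 497) ln16_12_4 ln16_12_4_ok) (L (nat_lit 561) ln16_13_4_c10 ln16_13_4_c10_ok))))))))) (B (M (nat_lit 528) (B (M (nat_lit 560) (B (M (nat_lit 559) (B (L (nat_lit 591) ln16_14_5_c10 ln16_14_5_c10_ok) (L (nat_lit 527) ln16_13_5_c10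 ln16_13_5_c10_ok))) (M (nat_lit 561) (B (L (nat_lit 593) ln16_14_4_c10 ln16_14_4_c10_ok) (L (nat_lit 529) ln16_13_4_c10 ln16_13_4_c10_ok))))) (B (M (nat_lit 400) (B (M (nat_lit 529) (B (L (nat_lit 561) ln16_13_4_c10 ln16_13_4_c10_ok) (L (nat_lit 497) ln16_12_4 ln16_12_4_ok))) (M (nat_lit 399) (B (L (nat_lit 431) ln16_16_7 ln16_16_7_ok) (L (nat_lit 367) ln16_15_7 ln16_15_7_ok))))) (B (M (nat_lit 497) (B (M (nat_lit 399) (B (L (nat_lit 431) ln16_16_7 ln16_16_7_ok) (M (nat_lit 400) (B (L (nat_lit 529) ln16_12_4 ln16_12_4_ok) (L (nat_lit 367) ln16_15_7 ln16_15_7_ok))))) (M (nat_lit 560) (B (M (nat_lit 559) (B (L (nat_lit 591) ln16_14_5_c10 ln16_14_5_c10_ok) (L (nat_lit 527) ln16_13_5_c10 ln16_13_5_c10_ok))) (M (nat_lit 465) (B (L (nat_lit 592) ln16_18_6_c10 ln16_18_6_c10_ok) (L (nat_lit 433) ln16_17_6_c10 ln16_17_6_c10_ok))))))) (M (nat_lit 560) (B (M (nat_lit 559) (B (L (nat_lit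 591) ln16_14_5_c10 ln16_14_5_c10_ok) (L (nat_lit 527) ln16_13_5_c10 ln16_13_5_c10_ok))) (M (nat_lit 592) (B (M (nat_lit 593) (B (L (nat_lit 625) ln16_15_4_c10 ln16_15_4_c10_ok) (L (nat_lit 561) ln16_14_4_c10 ln16_14_4_c10_ok))) (M (nat_lit 465) (B (L (nat_lit 497) ln16_18_6_c10 ln16_18_6_c10_ok) (L (nat_lit 433) ln16_17_6_c10 ln16_17_6_c10_ok))))))))))) (B (M (nat_lit 400) (B (M (nat_lit 368) (B (M (nat_lit 497) (B (L (nat_lit 529) ln16_12_4 ln16_12_4_ok) (L (nat_lit 465) ln16_11_4 ln16_11_4_ok))) (M (nat_lit 369) (B (L (nat_lit 401) ln16_15_6_c10 ln16_15_6_c10_ok) (L (nat_lit 337) ln16_14_6_c10 ln16_14_6_c10_ok))))) (B (M (nat_lit 368) (B (M (nat_lit 369) (B (L (nat_lit 401) ln16_15_6_c10 ln16_15_6_c10_ok) (L (nat_lit 337) ln16_14_6_c10 ln16_14_6_c10_ok))) (M (nat_lit 367) (B (L (nat_lit 399) ln16_15_7 ln16_15_7_ok) (L (nat_lit 335) ln16_14_7 ln16_14_7_ok))))) (B (M (nat_lit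 368) (B (M (nat_lit 497) (B (L (nat_lit 529) ln16_12_4 ln16_12_4_ok) (L (nat_lit 465) ln16_11_4 ln16_11_4_ok))) (M (nat_lit 367) (B (L (nat_lit 399) ln16_15_7 ln16_15_7_ok) (L (nat_lit 335) ln16_14_7 ln16_14_7_ok))))) (M (nat_lit 528) (B (M (nat_lit 401) (B (L (nat_lit 433) ln16_16_6_c10 ln16_16_6_c10_ok) (L (nat_lit 369) ln16_15_6_c10 ln16_15_6_c10_ok))) (M (nat_lit 399) (B (L (nat_lit 431) ln16_16_7 ln16_16_7_ok) (L (nat_lit 367) ln16_15_7 ln16_15_7_ok))))))))) (B (M (nat_lit 400) (B (M (nat_lit 369) (B (L (nat_lit 401) ln16_15_6_c10 ln16_15_6_c10_ok) (M (nat_lit 368) (B (L (nat_lit 337) ln16_14_6_c10 ln16_14_6_c10_ok) (M (nat_lit 367) (B (L (nat_lit 335) ln16_14_7 ln16_14_7_ok) (L (nat_lit 399) ln16_15_7 ln16_15_7_ok))))))) (B (M (nat_lit 368) (B (M (nat_lit 369) (B (L (nat_lit 337) ln16_14_6_c10 ln16_14_6_c10_ok) (L (nat_lit 401) ln16_15_6_c10 ln16_15_6_c10_ok))) (M (nat_lit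 497) (B (L (nat_lit 465) ln16_11_4 ln16_11_4_ok) (L (nat_lit 529) ln16_12_4 ln16_12_4_ok))))) (B (M (nat_lit 401) (B (L (nat_lit 369) ln16_15_6_c10 ln16_15_6_c10_ok) (M (nat_lit 402) (B (M (nat_lit 403) (B (L (nat_lit 431) ln19_12_1_c10 ln19_12_1_c10_ok) (M (nat_lit 404) (B (L (nat_lit 433) ln20_12_1_c10 ln20_12_1_c10_ok) (M (nat_lit 372) (B (L (nat_lit 371) ln16_12_2_c10 ln16_12_2_c10_ok) (L (nat_lit 373) ln17_12_2_c10 ln17_12_2_c10_ok))))))) (B (M (nat_lit 403) (B (M (nat_lit 399) (B (L (nat_lit 367) ln18_12_3 ln18_12_3_ok) (M (nat_lit 371) (B (L (nat_lit 370) ln15_12_2 ln15_12_2_ok) (L (nat_lit 372) ln16_12_2_c10 ln16_12_2_c10_ok))))) (B (M (nat_lit 404) (B (L (nat_lit 433) ln20_12_1_c10 ln20_12_1_c10_ok) (M (nat_lit 372) (B (L (nat_lit 371) ln16_12_2_c10 ln16_12_2_c10_ok) (L (nat_lit 373) ln17_12_2_c10 ln17_12_2_c10_ok))))) (M (nat_lit 399) (B (L (nat_lit 367) ln18_12_3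 ln18_12_3_ok) (M (nat_lit 435) (B (L (nat_lit 434) ln15_12_0 ln15_12_0_ok) (L (nat_lit 436) ln16_12_0_c10 ln16_12_0_c10_ok)))))))) (B (M (nat_lit 403) (B (L (nat_lit 431) ln19_12_1_c10 ln19_12_1_c10_ok) (M (nat_lit 399) (B (L (nat_lit 367) ln18_12_3 ln18_12_3_ok) (M (nat_lit 435) (B (L (nat_lit 434) ln15_12_0 ln15_12_0_ok) (L (nat_lit 436) ln16_12_0_c10 ln16_12_0_c10_ok))))))) (M (nat_lit 399) (B (L (nat_lit 367) ln18_12_3 ln18_12_3_ok) (M (nat_lit 433) (B (M (nat_lit 434) (B (L (nat_lit 398) ln13_12_0 ln13_12_0_ok) (L (nat_lit 435) ln15_12_0 ln15_12_0_ok))) (M (nat_lit 497) (B (L (nat_lit 529) ln16_12_4 ln16_12_4_ok) (M (nat_lit 370) (B (L (nat_lit 371) ln15_12_2 ln15_12_2_ok) (L (nat_lit 465) ln17_15_6_c10 ln17_15_6_c10_ok))))))))))))))) (M (nat_lit 368) (B (M (nat_lit 367) (B (L (nat_lit 335) ln16_14_7 ln16_14_7_ok) (L (nat_lit 399) ln16_15_7 ln16_15_7_ok))) (M (nat_lit 497)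 (B (L (nat_lit 465) ln16_11_4 ln16_11_4_ok) (L (nat_lit 529) ln16_12_4 ln16_12_4_ok))))))))) c10_d172)))))
noncomputable def c10_d174 : Cert := (B (M (nat_lit 528) (B (M (nat_lit 561) (B (L (nat_lit 529) ln16_13_4_c10 ln16_13_4_c10_ok) (M (nat_lit 560) (B (L (nat_lit 593) ln16_14_4_c10 ln16_14_4_c10_ok) (M (nat_lit 559) (B (L (nat_lit 591) ln16_14_5_c10 ln16_14_5_c10_ok) (L (nat_lit 527) ln16_13_5_c10 ln16_13_5_c10_ok))))))) (B (M (nat_lit 560) (B (M (nat_lit 561) (B (L (nat_lit 593) ln16_14_4_c10 ln16_14_4_c10_ok) (L (nat_lit 529) ln16_13_4_c10 ln16_13_4_c10_ok))) (M (nat_lit 433) (B (L (nat_lit 465) ln16_17_6_c10 ln16_17_6_c10_ok) (L (nat_lit 401) ln16_16_6_c10 ln16_16_6_c10_ok))))) (B (M (nat_lit 529) (B (L (nat_lit 561) ln16_13_4_c10 ln16_13_4_c10_ok) (M (nat_lit 530) (B (M (nat_lit 531) (B (L (nat_lit 495) ln19_16_3_c10 ln19_16_3_c10_ok) (M (nat_lit 532) (B (L (nat_lit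 497) ln20_16_3_c10 ln20_16_3_c10_ok) (M (nat_lit 564) (B (L (nat_lit 563) ln16_16_0_c10 ln16_16_0_c10_ok) (L (nat_lit 565) ln17_16_0_c10 ln17_16_0_c10_ok))))))) (B (M (nat_lit 531) (B (M (nat_lit 527) (B (L (nat_lit 559) ln16_13_5_c10 ln16_13_5_c10_ok) (M (nat_lit 563) (B (L (nat_lit 562) ln15_16_0_c10 ln15_16_0_c10_ok) (L (nat_lit 564) ln16_16_0_c10 ln16_16_0_c10_ok))))) (B (M (nat_lit 532) (B (L (nat_lit 497) ln20_16_3_c10 ln20_16_3_c10_ok) (M (nat_lit 564) (B (L (nat_lit 563) ln16_16_0_c10 ln16_16_0_c10_ok) (L (nat_lit 565) ln17_16_0_c10 ln17_16_0_c10_ok))))) (M (nat_lit 527) (B (L (nat_lit 559) ln16_13_5_c10 ln16_13_5_c10_ok) (M (nat_lit 499) (B (L (nat_lit 498) ln15_16_2_c10 ln15_16_2_c10_ok) (L (nat_lit 500) ln16_16_2_c10 ln16_16_2_c10_ok)))))))) (B (M (nat_lit 531) (B (L (nat_lit 495) ln19_16_3_c10 ln19_16_3_c10_ok) (M (nat_lit 527) (B (L (nat_lit 559) ln16_13_5_c10 ln16_13_5_c10_ok)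 (M (nat_lit 499) (B (L (nat_lit 498) ln15_16_2_c10 ln15_16_2_c10_ok) (L (nat_lit 500) ln16_16_2_c10 ln16_16_2_c10_ok))))))) (M (nat_lit 527) (B (L (nat_lit 559) ln16_13_5_c10 ln16_13_5_c10_ok) (M (nat_lit 497) (B (M (nat_lit 498) (B (L (nat_lit 526) ln14_16_2 ln14_16_2_ok) (L (nat_lit 499) ln19_15_1_c10 ln19_15_1_c10_ok))) (M (nat_lit 433) (B (L (nat_lit 401) ln16_16_6_c10 ln16_16_6_c10_ok) (M (nat_lit 562) (B (L (nat_lit 563) ln15_16_0_c10 ln15_16_0_c10_ok) (L (nat_lit 465) ln17_13_4_c10 ln17_13_4_c10_ok))))))))))))))) (M (nat_lit 560) (B (M (nat_lit 559) (B (L (nat_lit 591) ln16_14_5_c10 ln16_14_5_c10_ok) (L (nat_lit 527) ln16_13_5_c10 ln16_13_5_c10_ok))) (M (nat_lit 433) (B (L (nat_lit 465) ln16_17_6_c10 ln16_17_6_c10_ok) (L (nat_lit 401) ln16_16_6_c10 ln16_16_6_c10_ok))))))))) (B (M (nat_lit 528) (B (M (nat_lit 560) (B (M (nat_lit 559) (B (L (nat_lit 591) ln16_14_5_c10 ln16_14_5_c10_ok)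 (L (nat_lit 527) ln16_13_5_c10 ln16_13_5_c10_ok))) (M (nat_lit 561) (B (L (nat_lit 593) ln16_14_4_c10 ln16_14_4_c10_ok) (L (nat_lit 529) ln16_13_4_c10 ln16_13_4_c10_ok))))) (B (M (nat_lit 529) (B (L (nat_lit 561) ln16_13_4_c10 ln16_13_4_c10_ok) (M (nat_lit 497) (B (L (nat_lit 400) ln16_12_4 ln16_12_4_ok) (M (nat_lit 527) (B (L (nat_lit 559) ln16_13_5_c10 ln16_13_5_c10_ok) (M (nat_lit 526) (B (L (nat_lit 525) ln13_16_2 ln13_16_2_ok) (L (nat_lit 498) ln14_16_2 ln14_16_2_ok))))))))) (B (M (nat_lit 560) (B (M (nat_lit 561) (B (L (nat_lit 593) ln16_14_4_c10 ln16_14_4_c10_ok) (L (nat_lit 529) ln16_13_4_c10 ln16_13_4_c10_ok))) (B (M (nat_lit 497) (B (M (nat_lit 465) (B (L (nat_lit 592) ln16_18_6_c10 ln16_18_6_c10_ok) (L (nat_lit 433) ln16_17_6_c10 ln16_17_6_c10_ok))) (M (nat_lit 529) (B (L (nat_lit 561) ln16_13_4_c10 ln16_13_4_c10_ok) (L (nat_lit 400) ln16_12_4 ln16_12_4_ok))))) (M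 (nat_lit 592) (B (M (nat_lit 465) (B (L (nat_lit 497) ln16_18_6_c10 ln16_18_6_c10_ok) (L (nat_lit 433) ln16_17_6_c10 ln16_17_6_c10_ok))) (M (nat_lit 624) (B (M (nat_lit 623) (B (L (nat_lit 655) ln16_16_5_c10 ln16_16_5_c10_ok) (L (nat_lit 591) ln16_15_5_c10 ln16_15_5_c10_ok))) (M (nat_lit 625) (B (L (nat_lit 657) ln16_16_4_c10 ln16_16_4_c10_ok) (L (nat_lit 593) ln16_15_4_c10 ln16_15_4_c10_ok)))))))))) (B (M (nat_lit 560) (B (M (nat_lit 559) (B (L (nat_lit 591) ln16_14_5_c10 ln16_14_5_c10_ok) (L (nat_lit 527) ln16_13_5_c10 ln16_13_5_c10_ok))) (M (nat_lit 465) (B (L (nat_lit 433) ln16_17_6_c10 ln16_17_6_c10_ok) (M (nat_lit 497) (B (L (nat_lit 592) ln16_18_6_c10 ln16_18_6_c10_ok) (M (nat_lit 400) (B (L (nat_lit 529) ln16_12_4 ln16_12_4_ok) (L (nat_lit 368) ln16_11_4 ln16_11_4_ok))))))))) (M (nat_lit 560) (B (M (nat_lit 559) (B (L (nat_lit 591) ln16_14_5_c10 ln16_14_5_c10_ok) (L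 (nat_lit 527) ln16_13_5_c10 ln16_13_5_c10_ok))) (M (nat_lit 592) (B (M (nat_lit 593) (B (L (nat_lit 625) ln16_15_4_c10 ln16_15_4_c10_ok) (L (nat_lit 561) ln16_14_4_c10 ln16_14_4_c10_ok))) (M (nat_lit 465) (B (L (nat_lit 497) ln16_18_6_c10 ln16_18_6_c10_ok) (L (nat_lit 433) ln16_17_6_c10 ln16_17_6_c10_ok)))))))))))) (M (nat_lit 400) (B (M (nat_lit 368) (B (M (nat_lit 335) (B (L (nat_lit 367) ln16_14_7 ln16_14_7_ok) (M (nat_lit 336) (B (L (nat_lit 303) ln16_13_7 ln16_13_7_ok) (M (nat_lit 337) (B (L (nat_lit 369) ln16_14_6_c10 ln16_14_6_c10_ok) (L (nat_lit 305) ln16_13_6_c10 ln16_13_6_c10_ok))))))) (B (M (nat_lit 336) (B (M (nat_lit 465) (B (L (nat_lit 497) ln16_11_4 ln16_11_4_ok) (L (nat_lit 433) ln16_10_4_c10 ln16_10_4_c10_ok))) (M (nat_lit 337) (B (L (nat_lit 369) ln16_14_6_c10 ln16_14_6_c10_ok) (L (nat_lit 305) ln16_13_6_c10 ln16_13_6_c10_ok))))) (B (M (nat_lit 336) (B (M (nat_lit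 465) (B (L (nat_lit 497) ln16_11_4 ln16_11_4_ok) (L (nat_lit 433) ln16_10_4_c10 ln16_10_4_c10_ok))) (M (nat_lit 335) (B (L (nat_lit 367) ln16_14_7 ln16_14_7_ok) (L (nat_lit 303) ln16_13_7 ln16_13_7_ok))))) (M (nat_lit 497) (B (L (nat_lit 529) ln16_12_4 ln16_12_4_ok) (L (nat_lit 465) ln16_11_4 ln16_11_4_ok))))))) (B (M (nat_lit 369) (B (M (nat_lit 337) (B (L (nat_lit 368) ln16_14_6_c10 ln16_14_6_c10_ok) (L (nat_lit 401) ln16_15_6_c10 ln16_15_6_c10_ok))) (B (M (nat_lit 399) (B (L (nat_lit 401) ln16_15_6_c10 ln16_15_6_c10_ok) (L (nat_lit 367) ln16_15_7 ln16_15_7_ok))) (M (nat_lit 368) (B (L (nat_lit 337) ln16_14_6_c10 ln16_14_6_c10_ok) (M (nat_lit 367) (B (L (nat_lit 335) ln16_14_7 ln16_14_7_ok) (L (nat_lit 399) ln16_15_7 ln16_15_7_ok)))))))) (B (M (nat_lit 368) (B (M (nat_lit 367) (B (L (nat_lit 335) ln16_14_7 ln16_14_7_ok) (L (nat_lit 399) ln16_15_7 ln16_15_7_ok))) (M (nat_lit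 497) (B (L (nat_lit 465) ln16_11_4 ln16_11_4_ok) (L (nat_lit 529) ln16_12_4 ln16_12_4_ok))))) (B (M (nat_lit 368) (B (M (nat_lit 497) (B (L (nat_lit 529) ln16_12_4 ln16_12_4_ok) (L (nat_lit 465) ln16_11_4 ln16_11_4_ok))) (M (nat_lit 369) (B (L (nat_lit 401) ln16_15_6_c10 ln16_15_6_c10_ok) (L (nat_lit 337) ln16_14_6_c10 ln16_14_6_c10_ok))))) (M (nat_lit 401) (B (L (nat_lit 369) ln16_15_6_c10 ln16_15_6_c10_ok) (M (nat_lit 399) (B (L (nat_lit 367) ln16_15_7 ln16_15_7_ok) (M (nat_lit 402) (B (M (nat_lit 435) (B (L (nat_lit 434) ln15_12_0 ln15_12_0_ok) (M (nat_lit 403) (B (L (nat_lit 436) ln16_12_0_c10 ln16_12_0_c10_ok) (M (nat_lit 371) (B (L (nat_lit 372) ln16_12_2_c10 ln16_12_2_c10_ok) (L (nat_lit 370) ln15_12_2 ln15_12_2_ok))))))) (B (M (nat_lit 433) (B (M (nat_lit 434) (B (L (nat_lit 435) ln15_12_0 ln15_12_0_ok) (L (nat_lit 398) ln13_12_0 ln13_12_0_ok))) (B (L (nat_lit 398) ln13_12_0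 ln13_12_0_ok) (M (nat_lit 497) (B (L (nat_lit 529) ln16_12_4 ln16_12_4_ok) (M (nat_lit 370) (B (L (nat_lit 371) ln15_12_2 ln15_12_2_ok) (L (nat_lit 465) ln17_15_6_c10 ln17_15_6_c10_ok)))))))) (B (M (nat_lit 403) (B (M (nat_lit 435) (B (L (nat_lit 436) ln16_12_0_c10 ln16_12_0_c10_ok) (L (nat_lit 434) ln15_12_0 ln15_12_0_ok))) (B (M (nat_lit 433) (B (L (nat_lit 404) ln20_12_1_c10 ln20_12_1_c10_ok) (M (nat_lit 434) (B (L (nat_lit 435) ln15_12_0 ln15_12_0_ok) (L (nat_lit 398) ln13_12_0 ln13_12_0_ok))))) (M (nat_lit 433) (B (L (nat_lit 404) ln20_12_1_c10 ln20_12_1_c10_ok) (L (nat_lit 398) ln13_12_0 ln13_12_0_ok)))))) (M (nat_lit 433) (B (L (nat_lit 398) ln13_12_0 ln13_12_0_ok) (M (nat_lit 497) (B (L (nat_lit 529) ln16_12_4 ln16_12_4_ok) (M (nat_lit 370) (B (L (nat_lit 371) ln15_12_2 ln15_12_2_ok) (L (nat_lit 465) ln17_15_6_c10 ln17_15_6_c10_ok))))))))))))))))))))))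
noncomputable def c10_d175 : Cert := (B (M (nat_lit 370) (B (M (nat_lit 465) (B (L (nat_lit 338) ln18_10_5_c10 ln18_10_5_c10_ok) (M (nat_lit 497) (B (L (nat_lit 529) ln17_16_6_c10 ln17_16_6_c10_ok) (L (nat_lit 466) ln18_11_5_c10 ln18_11_5_c10_ok))))) (B (M (nat_lit 337) (B (M (nat_lit 338) (B (L (nat_lit 465) ln18_10_5_c10 ln18_10_5_c10_ok) (L (nat_lit 305) ln18_13_7_c10 ln18_13_7_c10_ok))) (B (M (nat_lit 369) (B (L (nat_lit 466) ln18_14_7_c10 ln18_14_7_c10_ok) (M (nat_lit 305) (B (L (nat_lit 338) ln18_13_7_c10 ln18_13_7_c10_ok) (L (nat_lit 273) ln17_8_4_c10 ln17_8_4_c10_ok))))) (M (nat_lit 466) (B (L (nat_lit 369) ln18_14_7_c10 ln18_14_7_c10_ok) (M (nat_lit 467) (B (L (nat_lit 499) ln18_11_4_c10 ln18_11_4_c10_ok) (M (nat_lit 468) (B (L (nat_lit 465) ln20_14_3_c10 ln20_14_3_c10_ok) (L (nat_lit 469) ln21_14_3_c10 ln21_14_3_c10_ok)))))))))) (B (M (nat_lit 466) (B (M (nat_lit 467)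 (B (L (nat_lit 499) ln18_11_4_c10 ln18_11_4_c10_ok) (M (nat_lit 465) (B (L (nat_lit 468) ln20_14_3_c10 ln20_14_3_c10_ok) (L (nat_lit 497) ln18_11_5_c10 ln18_11_5_c10_ok))))) (B (M (nat_lit 498) (B (M (nat_lit 371) (B (L (nat_lit 339) ln18_14_6_c10 ln18_14_6_c10_ok) (L (nat_lit 403) ln18_15_6_c10 ln18_15_6_c10_ok))) (M (nat_lit 497) (B (L (nat_lit 465) ln18_11_5_c10 ln18_11_5_c10_ok) (L (nat_lit 529) ln18_12_5_c10 ln18_12_5_c10_ok))))) (M (nat_lit 498) (B (M (nat_lit 371) (B (L (nat_lit 339) ln18_14_6_c10 ln18_14_6_c10_ok) (L (nat_lit 403) ln18_15_6_c10 ln18_15_6_c10_ok))) (M (nat_lit 499) (B (L (nat_lit 467) ln18_11_4_c10 ln18_11_4_c10_ok) (L (nat_lit 531) ln18_12_4_c10 ln18_12_4_c10_ok)))))))) (B (M (nat_lit 338) (B (L (nat_lit 465) ln18_10_5_c10 ln18_10_5_c10_ok) (M (nat_lit 307) (B (L (nat_lit 339) ln18_13_6_c10 ln18_13_6_c10_ok) (M (nat_lit 305) (B (L (nat_lit 337) ln18_13_7_c10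 ln18_13_7_c10_ok) (M (nat_lit 306) (B (L (nat_lit 275) ln18_12_6_c10 ln18_12_6_c10_ok) (L (nat_lit 273) ln18_12_7_c10 ln18_12_7_c10_ok))))))))) (M (nat_lit 337) (B (M (nat_lit 305) (B (L (nat_lit 338) ln18_13_7_c10 ln18_13_7_c10_ok) (M (nat_lit 369) (B (L (nat_lit 273) ln17_8_4_c10 ln17_8_4_c10_ok) (L (nat_lit 466) ln18_14_7_c10 ln18_14_7_c10_ok))))) (B (M (nat_lit 339) (B (M (nat_lit 338) (B (L (nat_lit 307) ln18_13_6_c10 ln18_13_6_c10_ok) (L (nat_lit 305) ln18_13_7_c10 ln18_13_7_c10_ok))) (M (nat_lit 466) (B (L (nat_lit 371) ln18_14_6_c10 ln18_14_6_c10_ok) (L (nat_lit 369) ln18_14_7_c10 ln18_14_7_c10_ok))))) (B (M (nat_lit 466) (B (L (nat_lit 369) ln18_14_7_c10 ln18_14_7_c10_ok) (M (nat_lit 498) (B (M (nat_lit 371) (B (L (nat_lit 339) ln18_14_6_c10 ln18_14_6_c10_ok) (L (nat_lit 403) ln18_15_6_c10 ln18_15_6_c10_ok))) (M (nat_lit 499) (B (L (nat_lit 467) ln18_11_4_c10 ln18_11_4_c10_ok)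 (L (nat_lit 531) ln18_12_4_c10 ln18_12_4_c10_ok))))))) (B (M (nat_lit 338) (B (L (nat_lit 305) ln18_13_7_c10 ln18_13_7_c10_ok) (M (nat_lit 339) (B (L (nat_lit 307) ln18_13_6_c10 ln18_13_6_c10_ok) (M (nat_lit 371) (B (L (nat_lit 466) ln18_14_6_c10 ln18_14_6_c10_ok) (M (nat_lit 372) (B (L (nat_lit 336) ln16_10_0_c10 ln16_10_0_c10_ok) (L (nat_lit 373) ln21_11_3_c10 ln21_11_3_c10_ok))))))))) (M (nat_lit 338) (B (L (nat_lit 305) ln18_13_7_c10 ln18_13_7_c10_ok) (M (nat_lit 371) (B (M (nat_lit 339) (B (L (nat_lit 307) ln18_13_6_c10 ln18_13_6_c10_ok) (M (nat_lit 336) (B (L (nat_lit 372) ln16_10_0_c10 ln16_10_0_c10_ok) (L (nat_lit 335) ln15_10_0_c10 ln15_10_0_c10_ok))))) (B (M (nat_lit 336) (B (L (nat_lit 335) ln15_10_0_c10 ln15_10_0_c10_ok) (M (nat_lit 372) (B (L (nat_lit 339) ln16_10_0_c10 ln16_10_0_c10_ok) (L (nat_lit 373) ln21_11_3_c10 ln21_11_3_c10_ok))))) (B (M (nat_lit 336) (B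 (L (nat_lit 335) ln15_10_0_c10 ln15_10_0_c10_ok) (M (nat_lit 372) (B (L (nat_lit 373) ln21_11_3_c10 ln21_11_3_c10_ok) (L (nat_lit 369) ln20_11_3_c10 ln20_11_3_c10_ok))))) (M (nat_lit 306) (B (M (nat_lit 307) (B (L (nat_lit 275) ln18_12_6_c10 ln18_12_6_c10_ok) (L (nat_lit 339) ln18_13_6_c10 ln18_13_6_c10_ok))) (B (M (nat_lit 274) (B (L (nat_lit 403) ln18_8_4_c10 ln18_8_4_c10_ok) (M (nat_lit 242) (B (L (nat_lit 339) ln18_7_4_c10 ln18_7_4_c10_ok) (L (nat_lit 369) ln18_7_5_c10 ln18_7_5_c10_ok))))) (M (nat_lit 274) (B (L (nat_lit 403) ln18_8_4_c10 ln18_8_4_c10_ok) (M (nat_lit 275) (B (L (nat_lit 243) ln18_11_6_c10 ln18_11_6_c10_ok) (L (nat_lit 307) ln18_12_6_c10 ln18_12_6_c10_ok)))))))))))))))))))))))) (B (M (nat_lit 370) (B (M (nat_lit 465) (B (L (nat_lit 338) ln18_10_5_c10 ln18_10_5_c10_ok) (M (nat_lit 497) (B (L (nat_lit 529) ln17_16_6_c10 ln17_16_6_c10_ok) (L (nat_lit 401) ln17_15_6_c10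 ln17_15_6_c10_ok))))) (B (M (nat_lit 465) (B (L (nat_lit 338) ln18_10_5_c10 ln18_10_5_c10_ok) (M (nat_lit 497) (B (L (nat_lit 466) ln18_11_5_c10 ln18_11_5_c10_ok) (L (nat_lit 401) ln17_15_6_c10 ln17_15_6_c10_ok))))) (B (M (nat_lit 338) (B (L (nat_lit 465) ln18_10_5_c10 ln18_10_5_c10_ok) (M (nat_lit 306) (B (L (nat_lit 401) ln18_9_5_c10 ln18_9_5_c10_ok) (M (nat_lit 305) (B (L (nat_lit 337) ln18_13_7_c10 ln18_13_7_c10_ok) (L (nat_lit 273) ln18_12_7_c10 ln18_12_7_c10_ok))))))) (B (M (nat_lit 338) (B (M (nat_lit 306) (B (L (nat_lit 401) ln18_9_5_c10 ln18_9_5_c10_ok) (M (nat_lit 305) (B (L (nat_lit 337) ln18_13_7_c10 ln18_13_7_c10_ok) (L (nat_lit 273) ln18_12_7_c10 ln18_12_7_c10_ok))))) (B (M (nat_lit 306) (B (M (nat_lit 305) (B (L (nat_lit 337) ln18_13_7_c10 ln18_13_7_c10_ok) (L (nat_lit 273) ln18_12_7_c10 ln18_12_7_c10_ok))) (M (nat_lit 307) (B (L (nat_lit 339) ln18_13_6_c10 ln18_13_6_c10_ok)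 (L (nat_lit 275) ln18_12_6_c10 ln18_12_6_c10_ok))))) (B (M (nat_lit 306) (B (L (nat_lit 401) ln18_9_5_c10 ln18_9_5_c10_ok) (M (nat_lit 307) (B (L (nat_lit 339) ln18_13_6_c10 ln18_13_6_c10_ok) (L (nat_lit 275) ln18_12_6_c10 ln18_12_6_c10_ok))))) (M (nat_lit 466) (B (M (nat_lit 337) (B (L (nat_lit 369) ln18_14_7_c10 ln18_14_7_c10_ok) (L (nat_lit 305) ln18_13_7_c10 ln18_13_7_c10_ok))) (M (nat_lit 498) (B (M (nat_lit 499) (B (L (nat_lit 531) ln18_12_4_c10 ln18_12_4_c10_ok) (L (nat_lit 467) ln18_11_4_c10 ln18_11_4_c10_ok))) (M (nat_lit 529) (B (L (nat_lit 497) ln18_12_5_c10 ln18_12_5_c10_ok) (M (nat_lit 530) (B (L (nat_lit 561) ln18_13_5_c10 ln18_13_5_c10_ok) (L (nat_lit 401) ln18_16_7_c10 ln18_16_7_c10_ok))))))))))))) (B (M (nat_lit 465) (B (L (nat_lit 338) ln18_10_5_c10 ln18_10_5_c10_ok) (M (nat_lit 497) (B (L (nat_lit 529) ln17_16_6_c10 ln17_16_6_c10_ok) (L (nat_lit 466) ln18_11_5_c10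 ln18_11_5_c10_ok))))) (M (nat_lit 466) (B (M (nat_lit 498) (B (M (nat_lit 499) (B (L (nat_lit 531) ln18_12_4_c10 ln18_12_4_c10_ok) (L (nat_lit 467) ln18_11_4_c10 ln18_11_4_c10_ok))) (M (nat_lit 369) (B (L (nat_lit 401) ln18_15_7_c10 ln18_15_7_c10_ok) (L (nat_lit 337) ln18_14_7_c10 ln18_14_7_c10_ok))))) (B (M (nat_lit 498) (B (M (nat_lit 497) (B (L (nat_lit 529) ln18_12_5_c10 ln18_12_5_c10_ok) (L (nat_lit 465) ln18_11_5_c10 ln18_11_5_c10_ok))) (M (nat_lit 369) (B (L (nat_lit 401) ln18_15_7_c10 ln18_15_7_c10_ok) (L (nat_lit 337) ln18_14_7_c10 ln18_14_7_c10_ok))))) (M (nat_lit 467) (B (L (nat_lit 499) ln18_11_4_c10 ln18_11_4_c10_ok) (M (nat_lit 465) (B (L (nat_lit 497) ln18_11_5_c10 ln18_11_5_c10_ok) (L (nat_lit 468) ln20_14_3_c10 ln20_14_3_c10_ok)))))))))))))) (M (nat_lit 367) (B (L (nat_lit 364) ln12_11_0 ln12_11_0_ok) (L (nat_lit 401) ln18_12_3 ln18_12_3_ok)))))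
noncomputable def c10_d176 : Cert := (B (K (nat_lit 68474022573098905124285914151316540725485588658967101761109031245601602788899448391980255301677956471019413794713184391990301262051113172992) (nat_lit 95268205270873786364697985462236104423773453372566545715210372945702282537680477929153757539237293057482326237192497443838328534370711764992) (nat_lit 95268205270873786364697985462236104423773453372566545715210372945702282537680477929153757539237293057482326237192497443838328534370711764992) c10_s392) (B (M (nat_lit 399) (B (L (nat_lit 398) ln13_12_0 ln13_12_0_ok) (M (nat_lit 367) (B (L (nat_lit 364) ln12_11_0 ln12_11_0_ok) (M (nat_lit 368) (B (L (nat_lit 396) ln16_11_1 ln16_11_1_ok) (M (nat_lit 336) (B (L (nat_lit 337) ln13_11_2 ln13_11_2_ok) (L (nat_lit 465) ln16_10_4_c10 ln16_10_4_c10_ok))))))))) (B (M (nat_lit 399) (B (M (nat_lit 367) (B (L (nat_lit 496) ln16_15_7 ln16_15_7_ok)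 (L (nat_lit 364) ln12_11_0 ln12_11_0_ok))) (L (nat_lit 398) ln13_12_0 ln13_12_0_ok))) (M (nat_lit 401) (B (M (nat_lit 399) (B (L (nat_lit 398) ln13_12_0 ln13_12_0_ok) (M (nat_lit 402) (B (M (nat_lit 371) (B (L (nat_lit 370) ln15_12_2 ln15_12_2_ok) (M (nat_lit 403) (B (L (nat_lit 372) ln16_12_2_c10 ln16_12_2_c10_ok) (L (nat_lit 404) ln20_12_1_c10 ln20_12_1_c10_ok))))) (B (M (nat_lit 435) (B (L (nat_lit 434) ln15_12_0 ln15_12_0_ok) (M (nat_lit 403) (B (L (nat_lit 436) ln16_12_0_c10 ln16_12_0_c10_ok) (L (nat_lit 404) ln20_12_1_c10 ln20_12_1_c10_ok))))) (B (M (nat_lit 403) (B (M (nat_lit 435) (B (L (nat_lit 436) ln16_12_0_c10 ln16_12_0_c10_ok) (L (nat_lit 434) ln15_12_0 ln15_12_0_ok))) (M (nat_lit 371) (B (L (nat_lit 372) ln16_12_2_c10 ln16_12_2_c10_ok) (L (nat_lit 370) ln15_12_2 ln15_12_2_ok))))) (M (nat_lit 434) (B (L (nat_lit 435) ln15_12_0 ln15_12_0_ok) (M (nat_lit 370) (B (L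 (nat_lit 371) ln15_12_2 ln15_12_2_ok) (M (nat_lit 466) (B (M (nat_lit 369) (B (L (nat_lit 337) ln17_10_4_c10 ln17_10_4_c10_ok) (L (nat_lit 498) ln18_15_7_c10 ln18_15_7_c10_ok))) (B (M (nat_lit 337) (B (L (nat_lit 369) ln17_10_4_c10 ln17_10_4_c10_ok) (M (nat_lit 338) (B (L (nat_lit 306) ln18_9_5_c10 ln18_9_5_c10_ok) (L (nat_lit 305) ln18_13_7_c10 ln18_13_7_c10_ok))))) (B (M (nat_lit 498) (B (L (nat_lit 369) ln18_15_7_c10 ln18_15_7_c10_ok) (L (nat_lit 530) ln18_16_7_c10 ln18_16_7_c10_ok))) (M (nat_lit 499) (B (L (nat_lit 467) ln18_11_4_c10 ln18_11_4_c10_ok) (M (nat_lit 498) (B (L (nat_lit 531) ln18_12_4_c10 ln18_12_4_c10_ok) (L (nat_lit 530) ln18_16_7_c10 ln18_16_7_c10_ok))))))))))))))))))) (B (M (nat_lit 369) (B (L (nat_lit 496) ln16_15_6_c10 ln16_15_6_c10_ok) (L (nat_lit 337) ln17_10_5_c10 ln17_10_5_c10_ok))) (B (M (nat_lit 496) (B (L (nat_lit 369) ln16_15_6_c10 ln16_15_6_c10_ok)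 (L (nat_lit 528) ln16_16_6_c10 ln16_16_6_c10_ok))) (M (nat_lit 402) (B (M (nat_lit 403) (B (L (nat_lit 404) ln20_12_1_c10 ln20_12_1_c10_ok) (M (nat_lit 435) (B (L (nat_lit 436) ln16_12_0_c10 ln16_12_0_c10_ok) (M (nat_lit 399) (B (L (nat_lit 434) ln15_12_0 ln15_12_0_ok) (M (nat_lit 371) (B (L (nat_lit 370) ln15_12_2 ln15_12_2_ok) (L (nat_lit 372) ln16_12_2_c10 ln16_12_2_c10_ok))))))))) (B (M (nat_lit 403) (B (L (nat_lit 404) ln20_12_1_c10 ln20_12_1_c10_ok) (M (nat_lit 435) (B (L (nat_lit 436) ln16_12_0_c10 ln16_12_0_c10_ok) (M (nat_lit 434) (B (L (nat_lit 399) ln15_12_0 ln15_12_0_ok) (M (nat_lit 371) (B (L (nat_lit 372) ln16_12_2_c10 ln16_12_2_c10_ok) (M (nat_lit 339) (B (L (nat_lit 307) ln19_9_5_c10 ln19_9_5_c10_ok) (L (nat_lit 466) ln19_10_5_c10 ln19_10_5_c10_ok))))))))))) (B (M (nat_lit 403) (B (L (nat_lit 404) ln20_12_1_c10 ln20_12_1_c10_ok) (M (nat_lit 435) (B (L (nat_lit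 436) ln16_12_0_c10 ln16_12_0_c10_ok) (M (nat_lit 434) (B (L (nat_lit 399) ln15_12_0 ln15_12_0_ok) (M (nat_lit 467) (B (L (nat_lit 468) ln16_13_0_c10 ln16_13_0_c10_ok) (M (nat_lit 370) (B (L (nat_lit 338) ln18_10_4_c10 ln18_10_4_c10_ok) (L (nat_lit 499) ln19_15_7_c10 ln19_15_7_c10_ok))))))))))) (B (M (nat_lit 403) (B (L (nat_lit 404) ln20_12_1_c10 ln20_12_1_c10_ok) (M (nat_lit 435) (B (L (nat_lit 436) ln16_12_0_c10 ln16_12_0_c10_ok) (M (nat_lit 434) (B (M (nat_lit 371) (B (L (nat_lit 372) ln16_12_2_c10 ln16_12_2_c10_ok) (M (nat_lit 339) (B (L (nat_lit 307) ln19_9_5_c10 ln19_9_5_c10_ok) (L (nat_lit 466) ln19_10_5_c10 ln19_10_5_c10_ok))))) (M (nat_lit 467) (B (L (nat_lit 468) ln16_13_0_c10 ln16_13_0_c10_ok) (M (nat_lit 370) (B (L (nat_lit 338) ln18_10_4_c10 ln18_10_4_c10_ok) (L (nat_lit 499) ln19_15_7_c10 ln19_15_7_c10_ok))))))))))) (B (M (nat_lit 434) (B (M (nat_lit 399) (B (L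 (nat_lit 398) ln13_12_0 ln13_12_0_ok) (L (nat_lit 435) ln15_12_0 ln15_12_0_ok))) (B (M (nat_lit 435) (B (L (nat_lit 399) ln15_12_0 ln15_12_0_ok) (L (nat_lit 436) ln20_13_3_c10 ln20_13_3_c10_ok))) (B (M (nat_lit 435) (B (L (nat_lit 436) ln20_13_3_c10 ln20_13_3_c10_ok) (M (nat_lit 467) (B (L (nat_lit 468) ln16_13_0_c10 ln16_13_0_c10_ok) (M (nat_lit 370) (B (L (nat_lit 338) ln18_10_4_c10 ln18_10_4_c10_ok) (M (nat_lit 499) (B (L (nat_lit 466) ln18_11_4_c10 ln18_11_4_c10_ok) (L (nat_lit 531) ln19_16_7_c10 ln19_16_7_c10_ok))))))))) (M (nat_lit 370) (B (M (nat_lit 338) (B (L (nat_lit 306) ln18_9_5_c10 ln18_9_5_c10_ok) (L (nat_lit 465) ln18_10_5_c10 ln18_10_5_c10_ok))) (M (nat_lit 399) (B (L (nat_lit 371) ln15_12_2 ln15_12_2_ok) (L (nat_lit 398) ln13_12_0 ln13_12_0_ok))))))))) (B (M (nat_lit 403) (B (L (nat_lit 404) ln20_12_1_c10 ln20_12_1_c10_ok) (M (nat_lit 435) (B (L (nat_lit 436)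 ln16_12_0_c10 ln16_12_0_c10_ok) (M (nat_lit 371) (B (L (nat_lit 372) ln16_12_2_c10 ln16_12_2_c10_ok) (M (nat_lit 370) (B (L (nat_lit 399) ln15_12_2 ln15_12_2_ok) (M (nat_lit 338) (B (L (nat_lit 306) ln18_9_4_c10 ln18_9_4_c10_ok) (L (nat_lit 467) ln19_14_7_c10 ln19_14_7_c10_ok))))))))))) (M (nat_lit 403) (B (L (nat_lit 404) ln20_12_1_c10 ln20_12_1_c10_ok) (M (nat_lit 371) (B (L (nat_lit 372) ln16_12_2_c10 ln16_12_2_c10_ok) (M (nat_lit 370) (B (L (nat_lit 399) ln15_12_2 ln15_12_2_ok) (M (nat_lit 434) (B (M (nat_lit 338) (B (L (nat_lit 306) ln18_9_5_c10 ln18_9_5_c10_ok) (L (nat_lit 465) ln18_10_5_c10 ln18_10_5_c10_ok))) (M (nat_lit 339) (B (L (nat_lit 307) ln19_9_5_c10 ln19_9_5_c10_ok) (L (nat_lit 466) ln18_14_6_c10 ln18_14_6_c10_ok)))))))))))))))))))))))))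
noncomputable def c10_d177 : Cert := (B (M (nat_lit 433) (B (L (nat_lit 463) ln13_14_2 ln13_14_2_ok) (M (nat_lit 400) (B (M (nat_lit 399) (B (M (nat_lit 364) (B (L (nat_lit 367) ln12_11_0 ln12_11_0_ok) (L (nat_lit 398) ln13_12_0 ln13_12_0_ok))) (B (L (nat_lit 398) ln13_12_0 ln13_12_0_ok) (M (nat_lit 367) (B (L (nat_lit 364) ln12_11_0 ln12_11_0_ok) (M (nat_lit 401) (B (L (nat_lit 368) ln13_11_0 ln13_11_0_ok) (L (nat_lit 402) ln18_12_3 ln18_12_3_ok)))))))) (B (K (nat_lit 68474022573098905124285914151316540725485588658967101761109031245601602788899448391980255301677956471019413794713184391990301262051113172992) (nat_lit 95268205270873786364052422992676800595035092247919561057079317105056965738690279972087278978188567414423081163777043802005196442129013932032) (nat_lit 95268205270873786364052422992676800595035092247919561057079317105056965738690279972087278978188567414423081163777043802005196442129013932032)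 c10_s391) (B (K (nat_lit 68474022573098905124285914151316540725485588658967101761109031245601602788899448391980255301677956471019413794713184391990301262051113172992) (nat_lit 95268205270873786364697985462236104423773453372566545715210372945702282537680477929153757539237293057482326237192497443838328534370711764992) (nat_lit 95268205270873786364697985462236104423773453372566545715210372945702282537680477929153757539237293057482326237192497443838328534370711764992) c10_s392) (B (M (nat_lit 399) (B (L (nat_lit 398) ln13_12_0 ln13_12_0_ok) (M (nat_lit 434) (B (L (nat_lit 435) ln19_13_3_c10 ln19_13_3_c10_ok) (M (nat_lit 402) (B (M (nat_lit 401) (B (L (nat_lit 367) ln18_12_3 ln18_12_3_ok) (M (nat_lit 370) (B (L (nat_lit 371) ln15_12_2 ln15_12_2_ok) (M (nat_lit 338) (B (L (nat_lit 306) ln18_9_5_c10 ln18_9_5_c10_ok) (L (nat_lit 465) ln18_10_5_c10 ln18_10_5_c10_ok))))))) (B (M (nat_lit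 370) (B (M (nat_lit 465) (B (L (nat_lit 338) ln18_10_5_c10 ln18_10_5_c10_ok) (M (nat_lit 497) (B (L (nat_lit 466) ln18_11_5_c10 ln18_11_5_c10_ok) (L (nat_lit 529) ln17_16_6_c10 ln17_16_6_c10_ok))))) (B (M (nat_lit 465) (B (L (nat_lit 338) ln18_10_5_c10 ln18_10_5_c10_ok) (M (nat_lit 497) (B (L (nat_lit 529) ln17_16_6_c10 ln17_16_6_c10_ok) (L (nat_lit 401) ln17_15_6_c10 ln17_15_6_c10_ok))))) (B (M (nat_lit 466) (B (M (nat_lit 371) (B (L (nat_lit 339) ln18_14_6_c10 ln18_14_6_c10_ok) (L (nat_lit 401) ln15_12_2 ln15_12_2_ok))) (M (nat_lit 498) (B (M (nat_lit 499) (B (L (nat_lit 531) ln18_12_4_c10 ln18_12_4_c10_ok) (L (nat_lit 467) ln18_11_4_c10 ln18_11_4_c10_ok))) (M (nat_lit 497) (B (L (nat_lit 529) ln18_12_5_c10 ln18_12_5_c10_ok) (L (nat_lit 465) ln18_11_5_c10 ln18_11_5_c10_ok))))))) (B (M (nat_lit 465) (B (L (nat_lit 338) ln18_10_5_c10 ln18_10_5_c10_ok) (M (nat_lit 497) (B (L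 (nat_lit 466) ln18_11_5_c10 ln18_11_5_c10_ok) (L (nat_lit 401) ln17_15_6_c10 ln17_15_6_c10_ok))))) (M (nat_lit 466) (B (M (nat_lit 371) (B (L (nat_lit 339) ln18_14_6_c10 ln18_14_6_c10_ok) (L (nat_lit 401) ln15_12_2 ln15_12_2_ok))) (B (M (nat_lit 498) (B (M (nat_lit 499) (B (L (nat_lit 531) ln18_12_4_c10 ln18_12_4_c10_ok) (L (nat_lit 467) ln18_11_4_c10 ln18_11_4_c10_ok))) (M (nat_lit 401) (B (L (nat_lit 530) ln18_16_7_c10 ln18_16_7_c10_ok) (L (nat_lit 369) ln18_15_7_c10 ln18_15_7_c10_ok))))) (M (nat_lit 498) (B (M (nat_lit 499) (B (L (nat_lit 531) ln18_12_4_c10 ln18_12_4_c10_ok) (L (nat_lit 467) ln18_11_4_c10 ln18_11_4_c10_ok))) (M (nat_lit 371) (B (L (nat_lit 403) ln18_15_6_c10 ln18_15_6_c10_ok) (L (nat_lit 339) ln18_14_6_c10 ln18_14_6_c10_ok))))))))))))) c10_d175))))))) (B (M (nat_lit 399) (B (L (nat_lit 398) ln13_12_0 ln13_12_0_ok) (M (nat_lit 367) (B (L (nat_lit 364) ln12_11_0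 ln12_11_0_ok) (M (nat_lit 368) (B (L (nat_lit 396) ln16_11_1 ln16_11_1_ok) (M (nat_lit 336) (B (L (nat_lit 337) ln13_11_2 ln13_11_2_ok) (L (nat_lit 465) ln16_10_4_c10 ln16_10_4_c10_ok))))))))) (M (nat_lit 399) (B (L (nat_lit 398) ln13_12_0 ln13_12_0_ok) (M (nat_lit 434) (B (L (nat_lit 435) ln19_13_3_c10 ln19_13_3_c10_ok) (M (nat_lit 465) (B (M (nat_lit 368) (B (L (nat_lit 336) ln16_10_4_c10 ln16_10_4_c10_ok) (M (nat_lit 369) (B (L (nat_lit 337) ln16_14_6_c10 ln16_14_6_c10_ok) (M (nat_lit 370) (B (L (nat_lit 371) ln19_11_1_c10 ln19_11_1_c10_ok) (M (nat_lit 338) (B (L (nat_lit 402) ln18_10_5_c10 ln18_10_5_c10_ok) (L (nat_lit 401) ln17_14_6_c10 ln17_14_6_c10_ok))))))))) (B (M (nat_lit 497) (B (L (nat_lit 368) ln16_11_4 ln16_11_4_ok) (L (nat_lit 529) ln17_16_7_c10 ln17_16_7_c10_ok))) (M (nat_lit 497) (B (M (nat_lit 402) (B (M (nat_lit 370) (B (L (nat_lit 466) ln18_11_5_c10 ln18_11_5_c10_ok)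 (L (nat_lit 401) ln17_15_6_c10 ln17_15_6_c10_ok))) (L (nat_lit 529) ln17_16_6_c10 ln17_16_6_c10_ok))) (B (L (nat_lit 529) ln17_16_7_c10 ln17_16_7_c10_ok) (M (nat_lit 401) (B (M (nat_lit 369) (B (M (nat_lit 370) (B (L (nat_lit 338) ln17_14_6_c10 ln17_14_6_c10_ok) (L (nat_lit 402) ln17_15_6_c10 ln17_15_6_c10_ok))) (M (nat_lit 466) (B (L (nat_lit 337) ln17_10_4_c10 ln17_10_4_c10_ok) (L (nat_lit 498) ln17_11_4_c10 ln17_11_4_c10_ok))))) (B (M (nat_lit 369) (B (M (nat_lit 370) (B (L (nat_lit 338) ln17_14_6_c10 ln17_14_6_c10_ok) (L (nat_lit 402) ln17_15_6_c10 ln17_15_6_c10_ok))) (B (M (nat_lit 402) (B (L (nat_lit 370) ln17_15_6_c10 ln17_15_6_c10_ok) (L (nat_lit 337) ln17_10_5_c10 ln17_10_5_c10_ok))) (L (nat_lit 337) ln17_10_5_c10 ln17_10_5_c10_ok)))) (B (M (nat_lit 402) (B (L (nat_lit 370) ln17_15_6_c10 ln17_15_6_c10_ok) (M (nat_lit 498) (B (L (nat_lit 530) ln17_12_4_c10 ln17_12_4_c10_ok)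 (M (nat_lit 466) (B (M (nat_lit 499) (B (L (nat_lit 531) ln18_12_4_c10 ln18_12_4_c10_ok) (L (nat_lit 500) ln20_15_3_c10 ln20_15_3_c10_ok))) (M (nat_lit 403) (B (L (nat_lit 371) ln18_15_6_c10 ln18_15_6_c10_ok) (L (nat_lit 404) ln20_12_1_c10 ln20_12_1_c10_ok))))))))) (M (nat_lit 369) (B (M (nat_lit 466) (B (L (nat_lit 337) ln17_10_4_c10 ln17_10_4_c10_ok) (L (nat_lit 498) ln17_11_4_c10 ln17_11_4_c10_ok))) (B (L (nat_lit 337) ln17_10_5_c10 ln17_10_5_c10_ok) (M (nat_lit 498) (B (L (nat_lit 466) ln17_11_4_c10 ln17_11_4_c10_ok) (L (nat_lit 530) ln17_12_4_c10 ln17_12_4_c10_ok)))))))))))))))))))))))))))) (M (nat_lit 433) (B (L (nat_lit 463) ln13_14_2 ln13_14_2_ok) (M (nat_lit 400) (B (M (nat_lit 399) (B (M (nat_lit 364) (B (L (nat_lit 367) ln12_11_0 ln12_11_0_ok) (L (nat_lit 398) ln13_12_0 ln13_12_0_ok))) (B (L (nat_lit 398) ln13_12_0 ln13_12_0_ok) (M (nat_lit 367) (B (L (nat_lit 364)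 ln12_11_0 ln12_11_0_ok) (M (nat_lit 401) (B (L (nat_lit 368) ln13_11_0 ln13_11_0_ok) (L (nat_lit 402) ln18_12_3 ln18_12_3_ok)))))))) (B (K (nat_lit 68474022573098905124285914151316540725485588658967101761109031245601602788899448391980255301677956471019413794713184391990301262051113172992) (nat_lit 95268205270873786364052422992676800595035092247919561057079317105056965738690279972087278978188567414423081163777043802005196442129013932032) (nat_lit 95268205270873786364052422992676800595035092247919561057079317105056965738690279972087278978188567414423081163777043802005196442129013932032) c10_s391) c10_d176))))))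
noncomputable def c10_d178 : Cert := (B (M (nat_lit 496) (B (M (nat_lit 495) (B (L (nat_lit 463) ln12_14_0 ln12_14_0_ok) (M (nat_lit 527) (B (L (nat_lit 400) ln16_12_5_c10 ln16_12_5_c10_ok) (M (nat_lit 559) (B (L (nat_lit 591) ln15_18_6_c10 ln15_18_6_c10_ok) (L (nat_lit 528) ln16_13_5_c10 ln16_13_5_c10_ok))))))) (B (M (nat_lit 463) (B (L (nat_lit 497) ln13_14_0 ln13_14_0_ok) (L (nat_lit 495) ln12_14_0 ln12_14_0_ok))) (B (M (nat_lit 497) (B (L (nat_lit 463) ln13_14_0 ln13_14_0_ok) (M (nat_lit 529) (B (L (nat_lit 400) ln16_12_4 ln16_12_4_ok) (M (nat_lit 561) (B (L (nat_lit 528) ln16_13_4_c10 ln16_13_4_c10_ok) (L (nat_lit 465) ln17_17_7_c10 ln17_17_7_c10_ok))))))) (M (nat_lit 400) (B (M (nat_lit 527) (B (L (nat_lit 495) ln16_12_5_c10 ln16_12_5_c10_ok) (M (nat_lit 528) (B (L (nat_lit 559) ln16_13_5_c10 ln16_13_5_c10_ok) (M (nat_lit 529) (B (L (nat_lit 561) ln16_13_4_c10 ln16_13_4_c10_ok)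 (L (nat_lit 497) ln16_12_4 ln16_12_4_ok))))))) (M (nat_lit 367) (B (L (nat_lit 399) ln16_15_7 ln16_15_7_ok) (M (nat_lit 368) (B (L (nat_lit 335) ln16_14_7 ln16_14_7_ok) (M (nat_lit 369) (B (L (nat_lit 401) ln13_11_0 ln13_11_0_ok) (L (nat_lit 337) ln16_14_6_c10 ln16_14_6_c10_ok))))))))))))) (B (K (nat_lit 68474022550917547568737145396602318662684999859472593283772792851408542631151818572994602695341320027556651816653916872863169515446572417024) (nat_lit 7547924852279165006587024031629199545919344094929124459184468711931753243092329903797281164639146407024150197165113562950303816615062430517687932469863043822195008602112) (nat_lit 7547924852279165006587024031629199545919344094929124459184468711931753243092329903797281164639146407024150197165113562950303816615062430517687932469863043822195008602112) c10_s389) (B (M (nat_lit 496) (B (M (nat_lit 400) (B (M (nat_lit 529) (B (L (nat_lit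 497) ln16_12_4 ln16_12_4_ok) (M (nat_lit 528) (B (L (nat_lit 561) ln16_13_4_c10 ln16_13_4_c10_ok) (M (nat_lit 527) (B (L (nat_lit 559) ln16_13_5_c10 ln16_13_5_c10_ok) (L (nat_lit 495) ln16_12_5_c10 ln16_12_5_c10_ok))))))) (M (nat_lit 369) (B (L (nat_lit 401) ln16_15_6_c10 ln16_15_6_c10_ok) (M (nat_lit 368) (B (L (nat_lit 337) ln16_14_6_c10 ln16_14_6_c10_ok) (M (nat_lit 367) (B (L (nat_lit 399) ln16_15_7 ln16_15_7_ok) (L (nat_lit 335) ln16_14_7 ln16_14_7_ok))))))))) (B (M (nat_lit 400) (B (M (nat_lit 528) (B (M (nat_lit 527) (B (L (nat_lit 559) ln16_13_5_c10 ln16_13_5_c10_ok) (L (nat_lit 495) ln16_12_5_c10 ln16_12_5_c10_ok))) (M (nat_lit 401) (B (L (nat_lit 433) ln16_16_6_c10 ln16_16_6_c10_ok) (L (nat_lit 369) ln16_15_6_c10 ln16_15_6_c10_ok))))) (M (nat_lit 368) (B (M (nat_lit 497) (B (L (nat_lit 529) ln16_12_4 ln16_12_4_ok) (L (nat_lit 465) ln16_11_4 ln16_11_4_ok))) (M (nat_lit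 367) (B (L (nat_lit 399) ln16_15_7 ln16_15_7_ok) (L (nat_lit 335) ln16_14_7 ln16_14_7_ok))))))) (B (M (nat_lit 528) (B (M (nat_lit 559) (B (L (nat_lit 527) ln16_13_5_c10 ln16_13_5_c10_ok) (M (nat_lit 560) (B (L (nat_lit 591) ln16_14_5_c10 ln16_14_5_c10_ok) (M (nat_lit 561) (B (L (nat_lit 529) ln16_13_4_c10 ln16_13_4_c10_ok) (L (nat_lit 593) ln16_14_4_c10 ln16_14_4_c10_ok))))))) (B (M (nat_lit 560) (B (M (nat_lit 433) (B (L (nat_lit 401) ln16_16_6_c10 ln16_16_6_c10_ok) (L (nat_lit 465) ln16_17_6_c10 ln16_17_6_c10_ok))) (M (nat_lit 561) (B (L (nat_lit 529) ln16_13_4_c10 ln16_13_4_c10_ok) (L (nat_lit 593) ln16_14_4_c10 ln16_14_4_c10_ok))))) (B (M (nat_lit 560) (B (M (nat_lit 433) (B (L (nat_lit 401) ln16_16_6_c10 ln16_16_6_c10_ok) (L (nat_lit 465) ln16_17_6_c10 ln16_17_6_c10_ok))) (M (nat_lit 559) (B (L (nat_lit 527) ln16_13_5_c10 ln16_13_5_c10_ok) (L (nat_lit 591) ln16_14_5_c10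 ln16_14_5_c10_ok))))) (M (nat_lit 400) (B (M (nat_lit 401) (B (L (nat_lit 369) ln16_15_6_c10 ln16_15_6_c10_ok) (L (nat_lit 433) ln16_16_6_c10 ln16_16_6_c10_ok))) (M (nat_lit 527) (B (L (nat_lit 495) ln16_12_5_c10 ln16_12_5_c10_ok) (L (nat_lit 559) ln16_13_5_c10 ln16_13_5_c10_ok))))))))) (B (K (nat_lit 204586913061982889426741903620462092410142446540376549202178303789781155126700702311356199343363612517271737785529156254729995406981006581279605391360) (nat_lit 7547924852279165006382437118611873627725801292287879269634054451472361573642622155091968931517103059151045993243191924778584794340794859771617723817219144930195530579968) (nat_lit 7547924852279165006382437118611873627725801292287879269634054451472361573642622155091968931517103059151045993243191924778584794340794859771617723817219144930195530579968) c10_s390) (B (M (nat_lit 400) (B (M (nat_lit 368) (B (M (nat_lit 367) (B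 (L (nat_lit 335) ln16_14_7 ln16_14_7_ok) (L (nat_lit 399) ln16_15_7 ln16_15_7_ok))) (M (nat_lit 369) (B (L (nat_lit 337) ln16_14_6_c10 ln16_14_6_c10_ok) (L (nat_lit 401) ln16_15_6_c10 ln16_15_6_c10_ok))))) (B (M (nat_lit 528) (B (M (nat_lit 401) (B (L (nat_lit 369) ln16_15_6_c10 ln16_15_6_c10_ok) (L (nat_lit 433) ln16_16_6_c10 ln16_16_6_c10_ok))) (M (nat_lit 527) (B (L (nat_lit 495) ln16_12_5_c10 ln16_12_5_c10_ok) (L (nat_lit 559) ln16_13_5_c10 ln16_13_5_c10_ok))))) (B (M (nat_lit 433) (B (M (nat_lit 527) (B (L (nat_lit 495) ln16_12_5_c10 ln16_12_5_c10_ok) (M (nat_lit 528) (B (L (nat_lit 401) ln16_16_6_c10 ln16_16_6_c10_ok) (L (nat_lit 559) ln16_13_5_c10 ln16_13_5_c10_ok))))) (M (nat_lit 368) (B (M (nat_lit 367) (B (L (nat_lit 335) ln16_14_7 ln16_14_7_ok) (L (nat_lit 399) ln16_15_7 ln16_15_7_ok))) (M (nat_lit 465) (B (L (nat_lit 336) ln16_10_4_c10 ln16_10_4_c10_ok) (L (nat_lit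 497) ln16_11_4 ln16_11_4_ok))))))) (M (nat_lit 368) (B (M (nat_lit 367) (B (L (nat_lit 335) ln16_14_7 ln16_14_7_ok) (L (nat_lit 399) ln16_15_7 ln16_15_7_ok))) (M (nat_lit 336) (B (M (nat_lit 337) (B (L (nat_lit 305) ln16_13_6_c10 ln16_13_6_c10_ok) (L (nat_lit 369) ln16_14_6_c10 ln16_14_6_c10_ok))) (M (nat_lit 465) (B (L (nat_lit 433) ln16_10_4_c10 ln16_10_4_c10_ok) (L (nat_lit 497) ln16_11_4 ln16_11_4_ok))))))))))) (B (M (nat_lit 528) (B (M (nat_lit 560) (B (M (nat_lit 433) (B (L (nat_lit 401) ln16_16_6_c10 ln16_16_6_c10_ok) (L (nat_lit 465) ln16_17_6_c10 ln16_17_6_c10_ok))) (M (nat_lit 561) (B (L (nat_lit 529) ln16_13_4_c10 ln16_13_4_c10_ok) (L (nat_lit 593) ln16_14_4_c10 ln16_14_4_c10_ok))))) (B (M (nat_lit 560) (B (M (nat_lit 561) (B (L (nat_lit 529) ln16_13_4_c10 ln16_13_4_c10_ok) (L (nat_lit 593) ln16_14_4_c10 ln16_14_4_c10_ok))) (M (nat_lit 559) (B (L (nat_lit 527) ln16_13_5_c10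 ln16_13_5_c10_ok) (L (nat_lit 591) ln16_14_5_c10 ln16_14_5_c10_ok))))) (B (M (nat_lit 560) (B (M (nat_lit 433) (B (L (nat_lit 401) ln16_16_6_c10 ln16_16_6_c10_ok) (L (nat_lit 465) ln16_17_6_c10 ln16_17_6_c10_ok))) (M (nat_lit 559) (B (L (nat_lit 527) ln16_13_5_c10 ln16_13_5_c10_ok) (L (nat_lit 591) ln16_14_5_c10 ln16_14_5_c10_ok))))) (M (nat_lit 400) (B (M (nat_lit 529) (B (L (nat_lit 497) ln16_12_4 ln16_12_4_ok) (L (nat_lit 561) ln16_13_4_c10 ln16_13_4_c10_ok))) (M (nat_lit 527) (B (L (nat_lit 495) ln16_12_5_c10 ln16_12_5_c10_ok) (L (nat_lit 559) ln16_13_5_c10 ln16_13_5_c10_ok))))))))) c10_d174))))))) c10_d177)))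
noncomputable def c10_d179 : Cert := (B (M (nat_lit 367) (B (M (nat_lit 396) (B (L (nat_lit 368) ln16_11_1 ln16_11_1_ok) (M (nat_lit 395) (B (L (nat_lit 394) ln10_12_2 ln10_12_2_ok) (L (nat_lit 364) ln15_11_1 ln15_11_1_ok))))) (B (M (nat_lit 396) (B (L (nat_lit 368) ln16_11_1 ln16_11_1_ok) (M (nat_lit 395) (B (L (nat_lit 364) ln15_11_1 ln15_11_1_ok) (L (nat_lit 398) ln11_12_2 ln11_12_2_ok))))) (B (M (nat_lit 368) (B (L (nat_lit 396) ln16_11_1 ln16_11_1_ok) (M (nat_lit 337) (B (L (nat_lit 336) ln13_11_2 ln13_11_2_ok) (M (nat_lit 401) (B (L (nat_lit 400) ln13_11_0 ln13_11_0_ok) (M (nat_lit 369) (B (L (nat_lit 338) ln14_11_2 ln14_11_2_ok) (L (nat_lit 402) ln14_11_0 ln14_11_0_ok))))))))) (B (M (nat_lit 368) (B (M (nat_lit 369) (B (L (nat_lit 398) ln17_11_1 ln17_11_1_ok) (M (nat_lit 401) (B (L (nat_lit 402) ln14_11_0 ln14_11_0_ok) (L (nat_lit 400) ln13_11_0 ln13_11_0_ok))))) (B (M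 (nat_lit 364) (B (M (nat_lit 336) (B (L (nat_lit 337) ln13_11_2 ln13_11_2_ok) (L (nat_lit 335) ln12_11_2 ln12_11_2_ok))) (M (nat_lit 400) (B (L (nat_lit 401) ln13_11_0 ln13_11_0_ok) (L (nat_lit 399) ln12_11_0 ln12_11_0_ok))))) (M (nat_lit 369) (B (L (nat_lit 398) ln17_11_1 ln17_11_1_ok) (M (nat_lit 337) (B (L (nat_lit 338) ln14_11_2 ln14_11_2_ok) (L (nat_lit 336) ln13_11_2 ln13_11_2_ok)))))))) (M (nat_lit 364) (B (M (nat_lit 363) (B (M (nat_lit 398) (B (L (nat_lit 362) ln10_11_0 ln10_11_0_ok) (L (nat_lit 399) ln11_11_0 ln11_11_0_ok))) (M (nat_lit 395) (B (L (nat_lit 394) ln14_11_1 ln14_11_1_ok) (L (nat_lit 396) ln15_11_1 ln15_11_1_ok))))) (B (M (nat_lit 363) (B (M (nat_lit 395) (B (L (nat_lit 396) ln15_11_1 ln15_11_1_ok) (L (nat_lit 394) ln14_11_1 ln14_11_1_ok))) (B (M (nat_lit 362) (B (M (nat_lit 394) (B (L (nat_lit 395) ln14_11_1 ln14_11_1_ok) (L (nat_lit 393) ln13_11_1 ln13_11_1_ok)))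 (M (nat_lit 330) (B (L (nat_lit 331) ln14_11_3 ln14_11_3_ok) (L (nat_lit 329) ln13_11_3 ln13_11_3_ok))))) (B (M (nat_lit 362) (B (M (nat_lit 330) (B (L (nat_lit 331) ln14_11_3 ln14_11_3_ok) (L (nat_lit 329) ln13_11_3 ln13_11_3_ok))) (M (nat_lit 393) (B (L (nat_lit 394) ln13_11_1 ln13_11_1_ok) (M (nat_lit 361) (B (L (nat_lit 396) ln9_11_0 ln9_11_0_ok) (L (nat_lit 392) ln12_11_1 ln12_11_1_ok))))))) (M (nat_lit 362) (B (M (nat_lit 396) (B (L (nat_lit 395) ln15_11_1 ln15_11_1_ok) (L (nat_lit 361) ln9_11_0 ln9_11_0_ok))) (M (nat_lit 330) (B (L (nat_lit 331) ln14_11_3 ln14_11_3_ok) (L (nat_lit 329) ln13_11_3 ln13_11_3_ok))))))))) (B (M (nat_lit 363) (B (M (nat_lit 398) (B (L (nat_lit 362) ln10_11_0 ln10_11_0_ok) (L (nat_lit 399) ln11_11_0 ln11_11_0_ok))) (B (M (nat_lit 399) (B (L (nat_lit 398) ln11_11_0 ln11_11_0_ok) (L (nat_lit 400) ln12_11_0 ln12_11_0_ok))) (M (nat_lit 362) (B (M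 (nat_lit 330) (B (L (nat_lit 329) ln13_11_3 ln13_11_3_ok) (L (nat_lit 331) ln14_11_3 ln14_11_3_ok))) (M (nat_lit 394) (B (L (nat_lit 393) ln13_11_1 ln13_11_1_ok) (L (nat_lit 395) ln14_11_1 ln14_11_1_ok)))))))) (B (M (nat_lit 363) (B (M (nat_lit 399) (B (L (nat_lit 400) ln12_11_0 ln12_11_0_ok) (L (nat_lit 398) ln11_11_0 ln11_11_0_ok))) (B (M (nat_lit 398) (B (L (nat_lit 399) ln11_11_0 ln11_11_0_ok) (L (nat_lit 362) ln10_11_0 ln10_11_0_ok))) (B (M (nat_lit 362) (B (L (nat_lit 398) ln10_11_0 ln10_11_0_ok) (M (nat_lit 330) (B (L (nat_lit 331) ln14_11_3 ln14_11_3_ok) (L (nat_lit 329) ln13_11_3 ln13_11_3_ok))))) (M (nat_lit 362) (B (M (nat_lit 330) (B (L (nat_lit 331) ln14_11_3 ln14_11_3_ok) (L (nat_lit 329) ln13_11_3 ln13_11_3_ok))) (M (nat_lit 393) (B (L (nat_lit 394) ln13_11_1 ln13_11_1_ok) (M (nat_lit 361) (B (L (nat_lit 396) ln9_11_0 ln9_11_0_ok) (L (nat_lit 392) ln12_11_1 ln12_11_1_ok)))))))))))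 (B (M (nat_lit 363) (B (M (nat_lit 399) (B (L (nat_lit 400) ln12_11_0 ln12_11_0_ok) (L (nat_lit 398) ln11_11_0 ln11_11_0_ok))) (B (M (nat_lit 398) (B (L (nat_lit 399) ln11_11_0 ln11_11_0_ok) (L (nat_lit 362) ln10_11_0 ln10_11_0_ok))) (B (M (nat_lit 396) (B (L (nat_lit 395) ln15_11_1 ln15_11_1_ok) (M (nat_lit 362) (B (L (nat_lit 398) ln10_11_0 ln10_11_0_ok) (L (nat_lit 361) ln9_11_0 ln9_11_0_ok))))) (M (nat_lit 362) (B (M (nat_lit 396) (B (L (nat_lit 361) ln9_11_0 ln9_11_0_ok) (L (nat_lit 395) ln15_11_1 ln15_11_1_ok))) (M (nat_lit 330) (B (L (nat_lit 331) ln14_11_3 ln14_11_3_ok) (L (nat_lit 329) ln13_11_3 ln13_11_3_ok))))))))) (M (nat_lit 399) (B (L (nat_lit 400) ln12_11_0 ln12_11_0_ok) (M (nat_lit 396) (B (L (nat_lit 395) ln15_11_1 ln15_11_1_ok) (M (nat_lit 335) (B (L (nat_lit 336) ln12_11_2 ln12_11_2_ok) (M (nat_lit 431) (B (L (nat_lit 398) ln12_12_0 ln12_12_0_ok) (L (nat_lit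 464) ln15_10_4 ln15_10_4_ok)))))))))))))))))))) (B (M (nat_lit 464) (B (M (nat_lit 463) (B (L (nat_lit 433) ln13_14_2 ln13_14_2_ok) (M (nat_lit 496) (B (L (nat_lit 497) ln13_14_0 ln13_14_0_ok) (L (nat_lit 495) ln12_14_0 ln12_14_0_ok))))) c10_d178)) (M (nat_lit 431) (B (L (nat_lit 463) ln12_14_2 ln12_14_2_ok) (M (nat_lit 367) (B (M (nat_lit 396) (B (L (nat_lit 368) ln16_11_1 ln16_11_1_ok) (M (nat_lit 395) (B (L (nat_lit 394) ln10_12_2 ln10_12_2_ok) (L (nat_lit 364) ln15_11_1 ln15_11_1_ok))))) (B (M (nat_lit 396) (B (L (nat_lit 368) ln16_11_1 ln16_11_1_ok) (M (nat_lit 395) (B (L (nat_lit 364) ln15_11_1 ln15_11_1_ok) (L (nat_lit 398) ln11_12_2 ln11_12_2_ok))))) (B (M (nat_lit 368) (B (L (nat_lit 396) ln16_11_1 ln16_11_1_ok) (M (nat_lit 337) (B (L (nat_lit 336) ln13_11_2 ln13_11_2_ok) (M (nat_lit 401) (B (L (nat_lit 400) ln13_11_0 ln13_11_0_ok) (M (nat_lit 369) (B (L (nat_lit 338)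 ln14_11_2 ln14_11_2_ok) (L (nat_lit 402) ln14_11_0 ln14_11_0_ok))))))))) (B (M (nat_lit 368) (B (M (nat_lit 369) (B (L (nat_lit 398) ln17_11_1 ln17_11_1_ok) (M (nat_lit 401) (B (L (nat_lit 402) ln14_11_0 ln14_11_0_ok) (L (nat_lit 400) ln13_11_0 ln13_11_0_ok))))) (B (M (nat_lit 364) (B (M (nat_lit 336) (B (L (nat_lit 337) ln13_11_2 ln13_11_2_ok) (L (nat_lit 335) ln12_11_2 ln12_11_2_ok))) (M (nat_lit 400) (B (L (nat_lit 401) ln13_11_0 ln13_11_0_ok) (L (nat_lit 399) ln12_11_0 ln12_11_0_ok))))) (M (nat_lit 369) (B (L (nat_lit 398) ln17_11_1 ln17_11_1_ok) (M (nat_lit 337) (B (L (nat_lit 338) ln14_11_2 ln14_11_2_ok) (L (nat_lit 336) ln13_11_2 ln13_11_2_ok)))))))) (M (nat_lit 364) (B (M (nat_lit 363) (B (M (nat_lit 398) (B (L (nat_lit 362) ln10_11_0 ln10_11_0_ok) (L (nat_lit 399) ln11_11_0 ln11_11_0_ok))) (M (nat_lit 395) (B (L (nat_lit 394) ln14_11_1 ln14_11_1_ok) (L (nat_lit 396)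 ln15_11_1 ln15_11_1_ok))))) (B (M (nat_lit 363) (B (M (nat_lit 395) (B (L (nat_lit 396) ln15_11_1 ln15_11_1_ok) (L (nat_lit 394) ln14_11_1 ln14_11_1_ok))) (B (M (nat_lit 362) (B (M (nat_lit 394) (B (L (nat_lit 395) ln14_11_1 ln14_11_1_ok) (L (nat_lit 393) ln13_11_1 ln13_11_1_ok))) (M (nat_lit 330) (B (L (nat_lit 331) ln14_11_3 ln14_11_3_ok) (L (nat_lit 329) ln13_11_3 ln13_11_3_ok))))) (B (M (nat_lit 362) (B (M (nat_lit 330) (B (L (nat_lit 331) ln14_11_3 ln14_11_3_ok) (L (nat_lit 329) ln13_11_3 ln13_11_3_ok))) (M (nat_lit 393) (B (L (nat_lit 394) ln13_11_1 ln13_11_1_ok) (M (nat_lit 361) (B (L (nat_lit 396) ln9_11_0 ln9_11_0_ok) (L (nat_lit 392) ln12_11_1 ln12_11_1_ok))))))) (M (nat_lit 362) (B (M (nat_lit 396) (B (L (nat_lit 395) ln15_11_1 ln15_11_1_ok) (L (nat_lit 361) ln9_11_0 ln9_11_0_ok))) (M (nat_lit 330) (B (L (nat_lit 331) ln14_11_3 ln14_11_3_ok) (L (nat_lit 329) ln13_11_3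 ln13_11_3_ok))))))))) (B (M (nat_lit 363) (B (M (nat_lit 398) (B (L (nat_lit 362) ln10_11_0 ln10_11_0_ok) (L (nat_lit 399) ln11_11_0 ln11_11_0_ok))) (B (M (nat_lit 399) (B (L (nat_lit 398) ln11_11_0 ln11_11_0_ok) (L (nat_lit 400) ln12_11_0 ln12_11_0_ok))) (M (nat_lit 362) (B (M (nat_lit 330) (B (L (nat_lit 329) ln13_11_3 ln13_11_3_ok) (L (nat_lit 331) ln14_11_3 ln14_11_3_ok))) (M (nat_lit 394) (B (L (nat_lit 393) ln13_11_1 ln13_11_1_ok) (L (nat_lit 395) ln14_11_1 ln14_11_1_ok)))))))) (B (M (nat_lit 363) (B (M (nat_lit 399) (B (L (nat_lit 400) ln12_11_0 ln12_11_0_ok) (L (nat_lit 398) ln11_11_0 ln11_11_0_ok))) (B (M (nat_lit 398) (B (L (nat_lit 399) ln11_11_0 ln11_11_0_ok) (L (nat_lit 362) ln10_11_0 ln10_11_0_ok))) (B (M (nat_lit 362) (B (L (nat_lit 398) ln10_11_0 ln10_11_0_ok) (M (nat_lit 330) (B (L (nat_lit 331) ln14_11_3 ln14_11_3_ok) (L (nat_lit 329) ln13_11_3 ln13_11_3_ok)))))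 (M (nat_lit 362) (B (M (nat_lit 330) (B (L (nat_lit 331) ln14_11_3 ln14_11_3_ok) (L (nat_lit 329) ln13_11_3 ln13_11_3_ok))) (M (nat_lit 393) (B (L (nat_lit 394) ln13_11_1 ln13_11_1_ok) (M (nat_lit 361) (B (L (nat_lit 396) ln9_11_0 ln9_11_0_ok) (L (nat_lit 392) ln12_11_1 ln12_11_1_ok))))))))))) (B (M (nat_lit 363) (B (M (nat_lit 399) (B (L (nat_lit 400) ln12_11_0 ln12_11_0_ok) (L (nat_lit 398) ln11_11_0 ln11_11_0_ok))) (B (M (nat_lit 398) (B (L (nat_lit 399) ln11_11_0 ln11_11_0_ok) (L (nat_lit 362) ln10_11_0 ln10_11_0_ok))) (B (M (nat_lit 396) (B (L (nat_lit 395) ln15_11_1 ln15_11_1_ok) (M (nat_lit 362) (B (L (nat_lit 398) ln10_11_0 ln10_11_0_ok) (L (nat_lit 361) ln9_11_0 ln9_11_0_ok))))) (M (nat_lit 362) (B (M (nat_lit 396) (B (L (nat_lit 361) ln9_11_0 ln9_11_0_ok) (L (nat_lit 395) ln15_11_1 ln15_11_1_ok))) (M (nat_lit 330) (B (L (nat_lit 331) ln14_11_3 ln14_11_3_ok) (L (nat_lit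 329) ln13_11_3 ln13_11_3_ok))))))))) (M (nat_lit 396) (B (L (nat_lit 395) ln15_11_1 ln15_11_1_ok) (M (nat_lit 399) (B (L (nat_lit 400) ln12_11_0 ln12_11_0_ok) (L (nat_lit 398) ln12_12_0 ln12_12_0_ok))))))))))))))))))))
theorem c10_s393 : Sem (nat_lit 20839919904389975613213400884540396762712424831722768583661784857224247922893687038666843503604213370549960888276091791965431575797785690112) (nat_lit 747510271034881081159578754343923139211702722947375027339098347693439235205907754417090998553401998488052012026229059520780809954495998769606004071854532479003200163311495147020591454475028359282688) (nat_lit 747510271034881081159578754343923139211702722947375027339098347693439235205907754417090998553401998488052012026229059520780809954495998769606004071854532479003200163311495147020591454475028359282688) :=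
  sem_of_chk (M (nat_lit 432) (B (M (nat_lit 463) (B (L (nat_lit 431) ln12_14_2 ln12_14_2_ok) (M (nat_lit 464) (B (L (nat_lit 433) ln13_14_2 ln13_14_2_ok) (M (nat_lit 496) (B (L (nat_lit 497) ln13_14_0 ln13_14_0_ok) (L (nat_lit 495) ln12_14_0 ln12_14_0_ok))))))) (B (M (nat_lit 464) (B (M (nat_lit 463) (B (L (nat_lit 433) ln13_14_2 ln13_14_2_ok) (L (nat_lit 431) ln12_14_2 ln12_14_2_ok))) (B (M (nat_lit 496) (B (M (nat_lit 463) (B (L (nat_lit 431) ln12_14_2 ln12_14_2_ok) (L (nat_lit 497) ln13_14_0 ln13_14_0_ok))) (B (M (nat_lit 497) (B (L (nat_lit 463) ln13_14_0 ln13_14_0_ok) (M (nat_lit 529) (B (L (nat_lit 400) ln16_12_4 ln16_12_4_ok) (M (nat_lit 561) (B (L (nat_lit 528) ln16_13_4_c10 ln16_13_4_c10_ok) (L (nat_lit 465) ln17_17_7_c10 ln17_17_7_c10_ok))))))) (B (M (nat_lit 400) (B (M (nat_lit 368) (B (M (nat_lit 369) (B (L (nat_lit 337) ln16_14_6_c10 ln16_14_6_c10_ok) (L (nat_lit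 401) ln16_15_6_c10 ln16_15_6_c10_ok))) (M (nat_lit 497) (B (L (nat_lit 465) ln16_11_4 ln16_11_4_ok) (L (nat_lit 529) ln16_12_4 ln16_12_4_ok))))) (B (M (nat_lit 528) (B (M (nat_lit 399) (B (L (nat_lit 367) ln16_15_7 ln16_15_7_ok) (L (nat_lit 431) ln16_16_7 ln16_16_7_ok))) (M (nat_lit 529) (B (L (nat_lit 497) ln16_12_4 ln16_12_4_ok) (L (nat_lit 561) ln16_13_4_c10 ln16_13_4_c10_ok))))) (M (nat_lit 368) (B (M (nat_lit 367) (B (L (nat_lit 335) ln16_14_7 ln16_14_7_ok) (L (nat_lit 399) ln16_15_7 ln16_15_7_ok))) (M (nat_lit 369) (B (L (nat_lit 337) ln16_14_6_c10 ln16_14_6_c10_ok) (L (nat_lit 401) ln16_15_6_c10 ln16_15_6_c10_ok)))))))) (M (nat_lit 431) (B (L (nat_lit 463) ln12_14_2 ln12_14_2_ok) (M (nat_lit 399) (B (L (nat_lit 528) ln16_16_7 ln16_16_7_ok) (M (nat_lit 367) (B (L (nat_lit 335) ln15_10_4 ln15_10_4_ok) (L (nat_lit 400) ln16_15_7 ln16_15_7_ok))))))))))) (B (K (nat_lit 68474022550917547568737145396602318662684999859472593283772792851408542631151818572994602695341320027556651816653916872863169515446572417024)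 (nat_lit 7547924852279165006587024031629199545919344094929124459184468711931753243092329903797281164639146407024150197165113562950303816615062430517687932469863043822195008602112) (nat_lit 7547924852279165006587024031629199545919344094929124459184468711931753243092329903797281164639146407024150197165113562950303816615062430517687932469863043822195008602112) c10_s389) (M (nat_lit 496) (B (M (nat_lit 528) (B (M (nat_lit 401) (B (L (nat_lit 433) ln16_16_6_c10 ln16_16_6_c10_ok) (M (nat_lit 400) (B (L (nat_lit 369) ln16_15_6_c10 ln16_15_6_c10_ok) (M (nat_lit 399) (B (L (nat_lit 367) ln16_15_7 ln16_15_7_ok) (L (nat_lit 431) ln16_16_7 ln16_16_7_ok))))))) (M (nat_lit 561) (B (L (nat_lit 529) ln16_13_4_c10 ln16_13_4_c10_ok) (M (nat_lit 560) (B (L (nat_lit 593) ln16_14_4_c10 ln16_14_4_c10_ok) (M (nat_lit 559) (B (L (nat_lit 527) ln16_13_5_c10 ln16_13_5_c10_ok) (L (nat_lit 591) ln16_14_5_c10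 ln16_14_5_c10_ok))))))))) (B (M (nat_lit 528) (B (M (nat_lit 400) (B (M (nat_lit 399) (B (L (nat_lit 367) ln16_15_7 ln16_15_7_ok) (L (nat_lit 431) ln16_16_7 ln16_16_7_ok))) (M (nat_lit 529) (B (L (nat_lit 497) ln16_12_4 ln16_12_4_ok) (L (nat_lit 561) ln16_13_4_c10 ln16_13_4_c10_ok))))) (M (nat_lit 560) (B (M (nat_lit 433) (B (L (nat_lit 401) ln16_16_6_c10 ln16_16_6_c10_ok) (L (nat_lit 465) ln16_17_6_c10 ln16_17_6_c10_ok))) (M (nat_lit 559) (B (L (nat_lit 527) ln16_13_5_c10 ln16_13_5_c10_ok) (L (nat_lit 591) ln16_14_5_c10 ln16_14_5_c10_ok))))))) (B (M (nat_lit 400) (B (M (nat_lit 367) (B (L (nat_lit 399) ln16_15_7 ln16_15_7_ok) (M (nat_lit 368) (B (L (nat_lit 335) ln16_14_7 ln16_14_7_ok) (M (nat_lit 369) (B (L (nat_lit 401) ln13_11_0 ln13_11_0_ok) (L (nat_lit 337) ln16_14_6_c10 ln16_14_6_c10_ok))))))) (B (M (nat_lit 368) (B (M (nat_lit 497) (B (L (nat_lit 529) ln16_12_4 ln16_12_4_ok)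 (L (nat_lit 465) ln16_11_4 ln16_11_4_ok))) (M (nat_lit 369) (B (L (nat_lit 401) ln16_15_6_c10 ln16_15_6_c10_ok) (L (nat_lit 337) ln16_14_6_c10 ln16_14_6_c10_ok))))) (B (M (nat_lit 368) (B (M (nat_lit 497) (B (L (nat_lit 529) ln16_12_4 ln16_12_4_ok) (L (nat_lit 465) ln16_11_4 ln16_11_4_ok))) (M (nat_lit 367) (B (L (nat_lit 399) ln16_15_7 ln16_15_7_ok) (L (nat_lit 335) ln16_14_7 ln16_14_7_ok))))) (M (nat_lit 528) (B (M (nat_lit 529) (B (L (nat_lit 561) ln16_13_4_c10 ln16_13_4_c10_ok) (L (nat_lit 497) ln16_12_4 ln16_12_4_ok))) (M (nat_lit 399) (B (L (nat_lit 431) ln16_16_7 ln16_16_7_ok) (L (nat_lit 367) ln16_15_7 ln16_15_7_ok))))))))) c10_d173)))))))) c10_d179))) (nat_lit 20839919904389975613213400884540396762712424831722768583661784857224247922893687038666843503604213370549960888276091791965431575797785690112) (nat_lit 747510271034881081159578754343923139211702722947375027339098347693439235205907754417090998553401998488052012026229059520780809954495998769606004071854532479003200163311495147020591454475028359282688)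 (nat_lit 747510271034881081159578754343923139211702722947375027339098347693439235205907754417090998553401998488052012026229059520780809954495998769606004071854532479003200163311495147020591454475028359282688) (by decide +kernel)
noncomputable def c10_d180 : Cert := (B (M (nat_lit 335) (B (M (nat_lit 334) (B (M (nat_lit 306) (B (L (nat_lit 307) ln15_10_2_c10 ln15_10_2_c10_ok) (L (nat_lit 305) ln14_10_2_c10 ln14_10_2_c10_ok))) (M (nat_lit 366) (B (L (nat_lit 367) ln18_10_1 ln18_10_1_ok) (L (nat_lit 365) ln17_10_1 ln17_10_1_ok))))) (B (M (nat_lit 334) (B (M (nat_lit 366) (B (L (nat_lit 367) ln18_10_1 ln18_10_1_ok) (L (nat_lit 365) ln17_10_1 ln17_10_1_ok))) (M (nat_lit 302) (B (L (nat_lit 303) ln18_10_3_c10 ln18_10_3_c10_ok) (L (nat_lit 301) ln17_10_3_c10 ln17_10_3_c10_ok))))) (B (M (nat_lit 334) (B (M (nat_lit 306) (B (L (nat_lit 307) ln15_10_2_c10 ln15_10_2_c10_ok) (L (nat_lit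 305) ln14_10_2_c10 ln14_10_2_c10_ok))) (M (nat_lit 302) (B (L (nat_lit 303) ln18_10_3_c10 ln18_10_3_c10_ok) (L (nat_lit 301) ln17_10_3_c10 ln17_10_3_c10_ok))))) (M (nat_lit 370) (B (L (nat_lit 371) ln15_10_0_c10 ln15_10_0_c10_ok) (M (nat_lit 306) (B (L (nat_lit 307) ln15_10_2_c10 ln15_10_2_c10_ok) (M (nat_lit 274) (B (M (nat_lit 241) (B (L (nat_lit 273) ln18_11_7_c10 ln18_11_7_c10_ok) (M (nat_lit 242) (B (L (nat_lit 209) ln18_10_7_c10 ln18_10_7_c10_ok) (M (nat_lit 243) (B (L (nat_lit 275) ln18_11_6_c10 ln18_11_6_c10_ok) (L (nat_lit 211) ln18_10_6_c10 ln18_10_6_c10_ok))))))) (B (M (nat_lit 402) (B (M (nat_lit 305) (B (L (nat_lit 434) ln18_13_7_c10 ln18_13_7_c10_ok) (L (nat_lit 273) ln18_12_7_c10 ln18_12_7_c10_ok))) (B (M (nat_lit 273) (B (L (nat_lit 305) ln18_12_7_c10 ln18_12_7_c10_ok) (L (nat_lit 241) ln18_11_7_c10 ln18_11_7_c10_ok))) (M (nat_lit 434) (B (M (nat_lit 435) (B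 (L (nat_lit 467) ln18_10_4_c10 ln18_10_4_c10_ok) (L (nat_lit 403) ln18_9_4_c10 ln18_9_4_c10_ok))) (M (nat_lit 433) (B (L (nat_lit 465) ln18_10_5_c10 ln18_10_5_c10_ok) (L (nat_lit 401) ln18_9_5_c10 ln18_9_5_c10_ok)))))))) (B (M (nat_lit 242) (B (M (nat_lit 243) (B (L (nat_lit 275) ln18_11_6_c10 ln18_11_6_c10_ok) (L (nat_lit 211) ln18_10_6_c10 ln18_10_6_c10_ok))) (M (nat_lit 210) (B (L (nat_lit 305) ln18_6_5_c10 ln18_6_5_c10_ok) (M (nat_lit 209) (B (L (nat_lit 241) ln18_10_7_c10 ln18_10_7_c10_ok) (L (nat_lit 177) ln18_9_7_c10 ln18_9_7_c10_ok))))))) (M (nat_lit 243) (B (L (nat_lit 275) ln18_11_6_c10 ln18_11_6_c10_ok) (M (nat_lit 305) (B (M (nat_lit 402) (B (L (nat_lit 434) ln18_13_7_c10 ln18_13_7_c10_ok) (L (nat_lit 273) ln18_12_7_c10 ln18_12_7_c10_ok))) (M (nat_lit 242) (B (L (nat_lit 211) ln18_10_6_c10 ln18_10_6_c10_ok) (L (nat_lit 210) ln18_6_5_c10 ln18_6_5_c10_ok)))))))))))))))))))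 (B (M (nat_lit 335) (B (M (nat_lit 339) (B (M (nat_lit 371) (B (L (nat_lit 372) ln16_10_0_c10 ln16_10_0_c10_ok) (L (nat_lit 370) ln15_10_0_c10 ln15_10_0_c10_ok))) (M (nat_lit 303) (B (L (nat_lit 304) ln19_10_3_c10 ln19_10_3_c10_ok) (L (nat_lit 302) ln18_10_3_c10 ln18_10_3_c10_ok))))) (B (M (nat_lit 339) (B (L (nat_lit 367) ln19_10_1_c10 ln19_10_1_c10_ok) (M (nat_lit 303) (B (L (nat_lit 304) ln19_10_3_c10 ln19_10_3_c10_ok) (L (nat_lit 302) ln18_10_3_c10 ln18_10_3_c10_ok))))) (B (M (nat_lit 334) (B (M (nat_lit 366) (B (L (nat_lit 367) ln18_10_1 ln18_10_1_ok) (L (nat_lit 365) ln17_10_1 ln17_10_1_ok))) (M (nat_lit 302) (B (L (nat_lit 303) ln18_10_3_c10 ln18_10_3_c10_ok) (L (nat_lit 301) ln17_10_3_c10 ln17_10_3_c10_ok))))) (M (nat_lit 339) (B (M (nat_lit 371) (B (L (nat_lit 372) ln16_10_0_c10 ln16_10_0_c10_ok) (L (nat_lit 370) ln15_10_0_c10 ln15_10_0_c10_ok))) (L (nat_lit 367) ln19_10_1_c10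 ln19_10_1_c10_ok))))))) (B (M (nat_lit 335) (B (M (nat_lit 339) (B (M (nat_lit 371) (B (L (nat_lit 372) ln16_10_0_c10 ln16_10_0_c10_ok) (L (nat_lit 370) ln15_10_0_c10 ln15_10_0_c10_ok))) (M (nat_lit 303) (B (L (nat_lit 304) ln19_10_3_c10 ln19_10_3_c10_ok) (L (nat_lit 302) ln18_10_3_c10 ln18_10_3_c10_ok))))) (B (M (nat_lit 339) (B (M (nat_lit 307) (B (L (nat_lit 308) ln16_10_2_c10 ln16_10_2_c10_ok) (L (nat_lit 306) ln15_10_2_c10 ln15_10_2_c10_ok))) (M (nat_lit 303) (B (L (nat_lit 304) ln19_10_3_c10 ln19_10_3_c10_ok) (L (nat_lit 302) ln18_10_3_c10 ln18_10_3_c10_ok))))) (B (M (nat_lit 334) (B (M (nat_lit 306) (B (L (nat_lit 307) ln15_10_2_c10 ln15_10_2_c10_ok) (L (nat_lit 305) ln14_10_2_c10 ln14_10_2_c10_ok))) (M (nat_lit 302) (B (L (nat_lit 303) ln18_10_3_c10 ln18_10_3_c10_ok) (L (nat_lit 301) ln17_10_3_c10 ln17_10_3_c10_ok))))) (M (nat_lit 339) (B (M (nat_lit 371) (B (L (nat_lit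 372) ln16_10_0_c10 ln16_10_0_c10_ok) (L (nat_lit 370) ln15_10_0_c10 ln15_10_0_c10_ok))) (M (nat_lit 307) (B (L (nat_lit 308) ln16_10_2_c10 ln16_10_2_c10_ok) (L (nat_lit 306) ln15_10_2_c10 ln15_10_2_c10_ok))))))))) (B (M (nat_lit 339) (B (M (nat_lit 340) (B (M (nat_lit 308) (B (L (nat_lit 309) ln17_10_2_c10 ln17_10_2_c10_ok) (L (nat_lit 307) ln16_10_2_c10 ln16_10_2_c10_ok))) (M (nat_lit 304) (B (L (nat_lit 305) ln20_10_3_c10 ln20_10_3_c10_ok) (L (nat_lit 303) ln19_10_3_c10 ln19_10_3_c10_ok))))) (B (M (nat_lit 340) (B (M (nat_lit 372) (B (L (nat_lit 373) ln17_10_0_c10 ln17_10_0_c10_ok) (L (nat_lit 371) ln16_10_0_c10 ln16_10_0_c10_ok))) (M (nat_lit 304) (B (L (nat_lit 305) ln20_10_3_c10 ln20_10_3_c10_ok) (L (nat_lit 303) ln19_10_3_c10 ln19_10_3_c10_ok))))) (M (nat_lit 371) (B (L (nat_lit 372) ln16_10_0_c10 ln16_10_0_c10_ok) (M (nat_lit 307) (B (L (nat_lit 308) ln16_10_2_c10 ln16_10_2_c10_ok)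 (M (nat_lit 403) (B (M (nat_lit 306) (B (L (nat_lit 435) ln19_13_7_c10 ln19_13_7_c10_ok) (L (nat_lit 274) ln19_12_7_c10 ln19_12_7_c10_ok))) (B (M (nat_lit 275) (B (M (nat_lit 402) (B (L (nat_lit 434) ln19_9_5_c10 ln19_9_5_c10_ok) (L (nat_lit 370) ln19_8_5_c10 ln19_8_5_c10_ok))) (M (nat_lit 274) (B (L (nat_lit 306) ln19_12_7_c10 ln19_12_7_c10_ok) (L (nat_lit 242) ln19_11_7_c10 ln19_11_7_c10_ok))))) (M (nat_lit 435) (B (M (nat_lit 436) (B (L (nat_lit 468) ln19_10_4_c10 ln19_10_4_c10_ok) (L (nat_lit 404) ln19_9_4_c10 ln19_9_4_c10_ok))) (M (nat_lit 434) (B (L (nat_lit 466) ln19_10_5_c10 ln19_10_5_c10_ok) (L (nat_lit 402) ln19_9_5_c10 ln19_9_5_c10_ok))))))))))))))) (M (nat_lit 335) (B (M (nat_lit 367) (B (L (nat_lit 366) ln18_10_1 ln18_10_1_ok) (M (nat_lit 371) (B (L (nat_lit 370) ln15_10_0_c10 ln15_10_0_c10_ok) (L (nat_lit 339) ln19_10_1_c10 ln19_10_1_c10_ok))))) (B (M (nat_lit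 339) (B (M (nat_lit 307) (B (L (nat_lit 308) ln16_10_2_c10 ln16_10_2_c10_ok) (L (nat_lit 306) ln15_10_2_c10 ln15_10_2_c10_ok))) (L (nat_lit 367) ln19_10_1_c10 ln19_10_1_c10_ok))) (B (M (nat_lit 334) (B (M (nat_lit 306) (B (L (nat_lit 307) ln15_10_2_c10 ln15_10_2_c10_ok) (L (nat_lit 305) ln14_10_2_c10 ln14_10_2_c10_ok))) (M (nat_lit 366) (B (L (nat_lit 367) ln18_10_1 ln18_10_1_ok) (L (nat_lit 365) ln17_10_1 ln17_10_1_ok))))) (M (nat_lit 339) (B (M (nat_lit 371) (B (L (nat_lit 372) ln16_10_0_c10 ln16_10_0_c10_ok) (L (nat_lit 370) ln15_10_0_c10 ln15_10_0_c10_ok))) (M (nat_lit 307) (B (L (nat_lit 308) ln16_10_2_c10 ln16_10_2_c10_ok) (L (nat_lit 306) ln15_10_2_c10 ln15_10_2_c10_ok)))))))))))))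
noncomputable def c10_d181 : Cert := (B (M (nat_lit 335) (B (M (nat_lit 334) (B (M (nat_lit 370) (B (L (nat_lit 371) ln15_10_0_c10 ln15_10_0_c10_ok) (L (nat_lit 369) ln14_10_0 ln14_10_0_ok))) (M (nat_lit 302) (B (L (nat_lit 303) ln18_10_3_c10 ln18_10_3_c10_ok) (L (nat_lit 301) ln17_10_3_c10 ln17_10_3_c10_ok))))) (B (M (nat_lit 339) (B (M (nat_lit 303) (B (L (nat_lit 304) ln19_10_3_c10 ln19_10_3_c10_ok) (L (nat_lit 302) ln18_10_3_c10 ln18_10_3_c10_ok))) (L (nat_lit 367) ln19_10_1_c10 ln19_10_1_c10_ok))) (M (nat_lit 339) (B (M (nat_lit 371) (B (L (nat_lit 372) ln16_10_0_c10 ln16_10_0_c10_ok) (L (nat_lit 370) ln15_10_0_c10 ln15_10_0_c10_ok))) (L (nat_lit 367) ln19_10_1_c10 ln19_10_1_c10_ok)))))) (B (M (nat_lit 335) (B (M (nat_lit 334) (B (M (nat_lit 370) (B (L (nat_lit 371) ln15_10_0_c10 ln15_10_0_c10_ok) (L (nat_lit 369) ln14_10_0 ln14_10_0_ok))) (M (nat_lit 366) (B (L (nat_lit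 367) ln18_10_1 ln18_10_1_ok) (L (nat_lit 365) ln17_10_1 ln17_10_1_ok))))) (M (nat_lit 339) (B (M (nat_lit 307) (B (L (nat_lit 308) ln16_10_2_c10 ln16_10_2_c10_ok) (L (nat_lit 306) ln15_10_2_c10 ln15_10_2_c10_ok))) (M (nat_lit 303) (B (L (nat_lit 304) ln19_10_3_c10 ln19_10_3_c10_ok) (L (nat_lit 302) ln18_10_3_c10 ln18_10_3_c10_ok))))))) (B (M (nat_lit 335) (B (M (nat_lit 334) (B (M (nat_lit 370) (B (L (nat_lit 371) ln15_10_0_c10 ln15_10_0_c10_ok) (L (nat_lit 369) ln14_10_0 ln14_10_0_ok))) (M (nat_lit 302) (B (L (nat_lit 303) ln18_10_3_c10 ln18_10_3_c10_ok) (L (nat_lit 301) ln17_10_3_c10 ln17_10_3_c10_ok))))) (B (M (nat_lit 334) (B (M (nat_lit 302) (B (L (nat_lit 303) ln18_10_3_c10 ln18_10_3_c10_ok) (L (nat_lit 301) ln17_10_3_c10 ln17_10_3_c10_ok))) (M (nat_lit 366) (B (L (nat_lit 367) ln18_10_1 ln18_10_1_ok) (L (nat_lit 365) ln17_10_1 ln17_10_1_ok))))) (B (M (nat_lit 334) (B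 (M (nat_lit 370) (B (L (nat_lit 371) ln15_10_0_c10 ln15_10_0_c10_ok) (L (nat_lit 369) ln14_10_0 ln14_10_0_ok))) (M (nat_lit 366) (B (L (nat_lit 367) ln18_10_1 ln18_10_1_ok) (L (nat_lit 365) ln17_10_1 ln17_10_1_ok))))) (M (nat_lit 306) (B (L (nat_lit 307) ln15_10_2_c10 ln15_10_2_c10_ok) (M (nat_lit 370) (B (L (nat_lit 371) ln15_10_0_c10 ln15_10_0_c10_ok) (M (nat_lit 402) (B (M (nat_lit 433) (B (L (nat_lit 401) ln18_9_5_c10 ln18_9_5_c10_ok) (M (nat_lit 434) (B (L (nat_lit 465) ln18_10_5_c10 ln18_10_5_c10_ok) (M (nat_lit 435) (B (L (nat_lit 403) ln18_9_4_c10 ln18_9_4_c10_ok) (L (nat_lit 467) ln18_10_4_c10 ln18_10_4_c10_ok))))))) (B (M (nat_lit 274) (B (M (nat_lit 369) (B (L (nat_lit 242) ln18_7_5_c10 ln18_7_5_c10_ok) (L (nat_lit 401) ln18_8_5_c10 ln18_8_5_c10_ok))) (B (M (nat_lit 401) (B (L (nat_lit 369) ln18_8_5_c10 ln18_8_5_c10_ok) (L (nat_lit 433) ln18_9_5_c10 ln18_9_5_c10_ok)))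 (M (nat_lit 242) (B (M (nat_lit 243) (B (L (nat_lit 211) ln18_10_6_c10 ln18_10_6_c10_ok) (L (nat_lit 275) ln18_11_6_c10 ln18_11_6_c10_ok))) (M (nat_lit 241) (B (L (nat_lit 209) ln18_10_7_c10 ln18_10_7_c10_ok) (L (nat_lit 273) ln18_11_7_c10 ln18_11_7_c10_ok)))))))) (B (M (nat_lit 434) (B (M (nat_lit 435) (B (L (nat_lit 403) ln18_9_4_c10 ln18_9_4_c10_ok) (L (nat_lit 467) ln18_10_4_c10 ln18_10_4_c10_ok))) (M (nat_lit 466) (B (L (nat_lit 369) ln18_14_7_c10 ln18_14_7_c10_ok) (M (nat_lit 465) (B (L (nat_lit 433) ln18_10_5_c10 ln18_10_5_c10_ok) (L (nat_lit 497) ln18_11_5_c10 ln18_11_5_c10_ok))))))) (M (nat_lit 435) (B (L (nat_lit 403) ln18_9_4_c10 ln18_9_4_c10_ok) (M (nat_lit 369) (B (M (nat_lit 274) (B (L (nat_lit 242) ln18_7_5_c10 ln18_7_5_c10_ok) (L (nat_lit 401) ln18_8_5_c10 ln18_8_5_c10_ok))) (M (nat_lit 434) (B (L (nat_lit 467) ln18_10_4_c10 ln18_10_4_c10_ok) (L (nat_lit 466)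 ln18_14_7_c10 ln18_14_7_c10_ok))))))))))))))))))) (B (M (nat_lit 335) (B (M (nat_lit 339) (B (M (nat_lit 307) (B (L (nat_lit 308) ln16_10_2_c10 ln16_10_2_c10_ok) (L (nat_lit 306) ln15_10_2_c10 ln15_10_2_c10_ok))) (L (nat_lit 367) ln19_10_1_c10 ln19_10_1_c10_ok))) (B (M (nat_lit 339) (B (M (nat_lit 303) (B (L (nat_lit 304) ln19_10_3_c10 ln19_10_3_c10_ok) (L (nat_lit 302) ln18_10_3_c10 ln18_10_3_c10_ok))) (L (nat_lit 367) ln19_10_1_c10 ln19_10_1_c10_ok))) (B (M (nat_lit 334) (B (M (nat_lit 302) (B (L (nat_lit 303) ln18_10_3_c10 ln18_10_3_c10_ok) (L (nat_lit 301) ln17_10_3_c10 ln17_10_3_c10_ok))) (M (nat_lit 366) (B (L (nat_lit 367) ln18_10_1 ln18_10_1_ok) (L (nat_lit 365) ln17_10_1 ln17_10_1_ok))))) (M (nat_lit 339) (B (M (nat_lit 307) (B (L (nat_lit 308) ln16_10_2_c10 ln16_10_2_c10_ok) (L (nat_lit 306) ln15_10_2_c10 ln15_10_2_c10_ok))) (M (nat_lit 303) (B (L (nat_lit 304) ln19_10_3_c10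 ln19_10_3_c10_ok) (L (nat_lit 302) ln18_10_3_c10 ln18_10_3_c10_ok))))))))) (B (M (nat_lit 335) (B (M (nat_lit 339) (B (M (nat_lit 307) (B (L (nat_lit 308) ln16_10_2_c10 ln16_10_2_c10_ok) (L (nat_lit 306) ln15_10_2_c10 ln15_10_2_c10_ok))) (L (nat_lit 367) ln19_10_1_c10 ln19_10_1_c10_ok))) (B (M (nat_lit 339) (B (M (nat_lit 371) (B (L (nat_lit 372) ln16_10_0_c10 ln16_10_0_c10_ok) (L (nat_lit 370) ln15_10_0_c10 ln15_10_0_c10_ok))) (L (nat_lit 367) ln19_10_1_c10 ln19_10_1_c10_ok))) (B (M (nat_lit 334) (B (M (nat_lit 370) (B (L (nat_lit 371) ln15_10_0_c10 ln15_10_0_c10_ok) (L (nat_lit 369) ln14_10_0 ln14_10_0_ok))) (M (nat_lit 366) (B (L (nat_lit 367) ln18_10_1 ln18_10_1_ok) (L (nat_lit 365) ln17_10_1 ln17_10_1_ok))))) (M (nat_lit 339) (B (M (nat_lit 307) (B (L (nat_lit 308) ln16_10_2_c10 ln16_10_2_c10_ok) (L (nat_lit 306) ln15_10_2_c10 ln15_10_2_c10_ok))) (M (nat_lit 371) (B (L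 (nat_lit 372) ln16_10_0_c10 ln16_10_0_c10_ok) (L (nat_lit 370) ln15_10_0_c10 ln15_10_0_c10_ok))))))))) (M (nat_lit 339) (B (M (nat_lit 340) (B (M (nat_lit 372) (B (L (nat_lit 373) ln17_10_0_c10 ln17_10_0_c10_ok) (L (nat_lit 371) ln16_10_0_c10 ln16_10_0_c10_ok))) (L (nat_lit 369) ln20_10_1_c10 ln20_10_1_c10_ok))) (B (M (nat_lit 340) (B (M (nat_lit 308) (B (L (nat_lit 309) ln17_10_2_c10 ln17_10_2_c10_ok) (L (nat_lit 307) ln16_10_2_c10 ln16_10_2_c10_ok))) (L (nat_lit 369) ln20_10_1_c10 ln20_10_1_c10_ok))) (K (nat_lit 179013548899091572664880704632125070351178483778829568730973049818371655270878832446804987084083260845394790023188089720556189861237851007614095196160) (nat_lit 44362715136920036307131883255483205897443524733365831705692172457737929882832461697792488377905765794752818587800057649786884456448) (nat_lit 44362715136920036307131883255483205897443524733365831705692172457737929882832461697792488377905765794752818587800057649786884456448)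 c10_s441)))))))))
noncomputable def c10_d182 : Cert := (B (M (nat_lit 306) (B (M (nat_lit 307) (B (L (nat_lit 335) ln15_10_2_c10 ln15_10_2_c10_ok) (M (nat_lit 308) (B (L (nat_lit 309) ln21_9_1_c10 ln21_9_1_c10_ok) (L (nat_lit 305) ln20_9_1_c10 ln20_9_1_c10_ok))))) (B (M (nat_lit 335) (B (L (nat_lit 307) ln15_10_2_c10 ln15_10_2_c10_ok) (M (nat_lit 334) (B (L (nat_lit 305) ln14_10_2_c10 ln14_10_2_c10_ok) (M (nat_lit 302) (B (L (nat_lit 303) ln18_10_3_c10 ln18_10_3_c10_ok) (L (nat_lit 301) ln17_10_3_c10 ln17_10_3_c10_ok))))))) (B (M (nat_lit 370) (B (M (nat_lit 335) (B (L (nat_lit 371) ln15_10_0_c10 ln15_10_0_c10_ok) (M (nat_lit 334) (B (L (nat_lit 305) ln14_10_2_c10 ln14_10_2_c10_ok) (L (nat_lit 369) ln14_10_0 ln14_10_0_ok))))) (B (M (nat_lit 274) (B (M (nat_lit 369) (B (L (nat_lit 242) ln18_7_5_c10 ln18_7_5_c10_ok) (L (nat_lit 401) ln18_8_5_c10 ln18_8_5_c10_ok))) (B (M (nat_lit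 402) (B (M (nat_lit 401) (B (L (nat_lit 369) ln18_8_5_c10 ln18_8_5_c10_ok) (L (nat_lit 433) ln18_9_5_c10 ln18_9_5_c10_ok))) (M (nat_lit 434) (B (L (nat_lit 305) ln18_13_7_c10 ln18_13_7_c10_ok) (M (nat_lit 435) (B (L (nat_lit 403) ln18_9_4_c10 ln18_9_4_c10_ok) (L (nat_lit 467) ln18_10_4_c10 ln18_10_4_c10_ok))))))) (M (nat_lit 242) (B (M (nat_lit 243) (B (L (nat_lit 211) ln18_10_6_c10 ln18_10_6_c10_ok) (L (nat_lit 275) ln18_11_6_c10 ln18_11_6_c10_ok))) (M (nat_lit 210) (B (L (nat_lit 305) ln18_6_5_c10 ln18_6_5_c10_ok) (M (nat_lit 209) (B (L (nat_lit 177) ln18_9_7_c10 ln18_9_7_c10_ok) (L (nat_lit 241) ln18_10_7_c10 ln18_10_7_c10_ok)))))))))) (B (M (nat_lit 274) (B (M (nat_lit 371) (B (L (nat_lit 403) ln18_8_4_c10 ln18_8_4_c10_ok) (L (nat_lit 335) ln15_10_0_c10 ln15_10_0_c10_ok))) (M (nat_lit 369) (B (L (nat_lit 242) ln18_7_5_c10 ln18_7_5_c10_ok) (L (nat_lit 401) ln18_8_5_c10 ln18_8_5_c10_ok)))))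 (M (nat_lit 335) (B (L (nat_lit 371) ln15_10_0_c10 ln15_10_0_c10_ok) (M (nat_lit 302) (B (L (nat_lit 303) ln18_10_3_c10 ln18_10_3_c10_ok) (M (nat_lit 334) (B (L (nat_lit 305) ln14_10_2_c10 ln14_10_2_c10_ok) (L (nat_lit 301) ln17_10_3_c10 ln17_10_3_c10_ok))))))))))) (B (M (nat_lit 335) (B (L (nat_lit 307) ln15_10_2_c10 ln15_10_2_c10_ok) (M (nat_lit 334) (B (M (nat_lit 370) (B (L (nat_lit 371) ln15_10_0_c10 ln15_10_0_c10_ok) (L (nat_lit 369) ln14_10_0 ln14_10_0_ok))) (M (nat_lit 302) (B (L (nat_lit 303) ln18_10_3_c10 ln18_10_3_c10_ok) (L (nat_lit 301) ln17_10_3_c10 ln17_10_3_c10_ok))))))) (M (nat_lit 274) (B (M (nat_lit 369) (B (L (nat_lit 242) ln18_7_5_c10 ln18_7_5_c10_ok) (M (nat_lit 401) (B (L (nat_lit 370) ln18_8_5_c10 ln18_8_5_c10_ok) (L (nat_lit 305) ln17_12_6_c10 ln17_12_6_c10_ok))))) (B (M (nat_lit 370) (B (M (nat_lit 371) (B (L (nat_lit 403) ln18_8_4_c10 ln18_8_4_c10_ok)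 (M (nat_lit 369) (B (L (nat_lit 372) ln20_11_3_c10 ln20_11_3_c10_ok) (L (nat_lit 401) ln18_8_5_c10 ln18_8_5_c10_ok))))) (B (M (nat_lit 402) (B (M (nat_lit 275) (B (L (nat_lit 243) ln18_11_6_c10 ln18_11_6_c10_ok) (L (nat_lit 307) ln18_12_6_c10 ln18_12_6_c10_ok))) (M (nat_lit 401) (B (L (nat_lit 369) ln18_8_5_c10 ln18_8_5_c10_ok) (L (nat_lit 433) ln18_9_5_c10 ln18_9_5_c10_ok))))) (M (nat_lit 402) (B (M (nat_lit 275) (B (L (nat_lit 243) ln18_11_6_c10 ln18_11_6_c10_ok) (L (nat_lit 307) ln18_12_6_c10 ln18_12_6_c10_ok))) (M (nat_lit 403) (B (L (nat_lit 371) ln18_8_4_c10 ln18_8_4_c10_ok) (L (nat_lit 435) ln18_9_4_c10 ln18_9_4_c10_ok)))))))) (B (M (nat_lit 369) (B (L (nat_lit 242) ln18_7_5_c10 ln18_7_5_c10_ok) (M (nat_lit 401) (B (L (nat_lit 305) ln17_12_6_c10 ln17_12_6_c10_ok) (L (nat_lit 433) ln17_13_6_c10 ln17_13_6_c10_ok))))) (B (M (nat_lit 370) (B (M (nat_lit 402) (B (M (nat_lit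 275) (B (L (nat_lit 243) ln18_11_6_c10 ln18_11_6_c10_ok) (L (nat_lit 307) ln18_12_6_c10 ln18_12_6_c10_ok))) (M (nat_lit 403) (B (L (nat_lit 371) ln18_8_4_c10 ln18_8_4_c10_ok) (L (nat_lit 435) ln18_9_4_c10 ln18_9_4_c10_ok))))) (B (M (nat_lit 402) (B (M (nat_lit 403) (B (L (nat_lit 371) ln18_8_4_c10 ln18_8_4_c10_ok) (L (nat_lit 435) ln18_9_4_c10 ln18_9_4_c10_ok))) (M (nat_lit 434) (B (L (nat_lit 305) ln18_13_7_c10 ln18_13_7_c10_ok) (M (nat_lit 433) (B (L (nat_lit 401) ln18_9_5_c10 ln18_9_5_c10_ok) (L (nat_lit 465) ln18_10_5_c10 ln18_10_5_c10_ok))))))) (B (M (nat_lit 402) (B (M (nat_lit 275) (B (L (nat_lit 243) ln18_11_6_c10 ln18_11_6_c10_ok) (L (nat_lit 307) ln18_12_6_c10 ln18_12_6_c10_ok))) (M (nat_lit 434) (B (L (nat_lit 305) ln18_13_7_c10 ln18_13_7_c10_ok) (M (nat_lit 433) (B (L (nat_lit 401) ln18_9_5_c10 ln18_9_5_c10_ok) (L (nat_lit 465) ln18_10_5_c10 ln18_10_5_c10_ok)))))))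 (M (nat_lit 242) (B (M (nat_lit 243) (B (L (nat_lit 211) ln18_10_6_c10 ln18_10_6_c10_ok) (L (nat_lit 275) ln18_11_6_c10 ln18_11_6_c10_ok))) (M (nat_lit 210) (B (L (nat_lit 305) ln18_6_5_c10 ln18_6_5_c10_ok) (M (nat_lit 209) (B (L (nat_lit 177) ln18_9_7_c10 ln18_9_7_c10_ok) (L (nat_lit 241) ln18_10_7_c10 ln18_10_7_c10_ok))))))))))) (M (nat_lit 242) (B (L (nat_lit 369) ln18_7_5_c10 ln18_7_5_c10_ok) (M (nat_lit 210) (B (L (nat_lit 305) ln18_6_5_c10 ln18_6_5_c10_ok) (M (nat_lit 209) (B (L (nat_lit 177) ln18_9_7_c10 ln18_9_7_c10_ok) (L (nat_lit 241) ln18_10_7_c10 ln18_10_7_c10_ok))))))))))))))))) (B (M (nat_lit 339) (B (M (nat_lit 340) (B (M (nat_lit 308) (B (L (nat_lit 309) ln17_10_2_c10 ln17_10_2_c10_ok) (L (nat_lit 307) ln16_10_2_c10 ln16_10_2_c10_ok))) (M (nat_lit 304) (B (L (nat_lit 305) ln20_10_3_c10 ln20_10_3_c10_ok) (L (nat_lit 303) ln19_10_3_c10 ln19_10_3_c10_ok))))) (B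 (M (nat_lit 335) (B (M (nat_lit 307) (B (L (nat_lit 308) ln16_10_2_c10 ln16_10_2_c10_ok) (L (nat_lit 306) ln15_10_2_c10 ln15_10_2_c10_ok))) (M (nat_lit 303) (B (L (nat_lit 304) ln19_10_3_c10 ln19_10_3_c10_ok) (L (nat_lit 302) ln18_10_3_c10 ln18_10_3_c10_ok))))) (B (M (nat_lit 340) (B (M (nat_lit 304) (B (L (nat_lit 305) ln20_10_3_c10 ln20_10_3_c10_ok) (L (nat_lit 303) ln19_10_3_c10 ln19_10_3_c10_ok))) (M (nat_lit 341) (B (M (nat_lit 373) (B (L (nat_lit 374) ln18_10_0_c10 ln18_10_0_c10_ok) (L (nat_lit 372) ln17_10_0_c10 ln17_10_0_c10_ok))) (L (nat_lit 369) ln20_10_1_c10 ln20_10_1_c10_ok))))) (M (nat_lit 340) (B (M (nat_lit 308) (B (L (nat_lit 309) ln17_10_2_c10 ln17_10_2_c10_ok) (L (nat_lit 307) ln16_10_2_c10 ln16_10_2_c10_ok))) (M (nat_lit 341) (B (M (nat_lit 373) (B (L (nat_lit 374) ln18_10_0_c10 ln18_10_0_c10_ok) (L (nat_lit 372) ln17_10_0_c10 ln17_10_0_c10_ok))) (L (nat_lit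 369) ln20_10_1_c10 ln20_10_1_c10_ok))))))))) (B (M (nat_lit 339) (B (M (nat_lit 371) (B (L (nat_lit 372) ln16_10_0_c10 ln16_10_0_c10_ok) (M (nat_lit 335) (B (L (nat_lit 370) ln15_10_0_c10 ln15_10_0_c10_ok) (M (nat_lit 307) (B (L (nat_lit 308) ln16_10_2_c10 ln16_10_2_c10_ok) (L (nat_lit 306) ln15_10_2_c10 ln15_10_2_c10_ok))))))) (B (M (nat_lit 335) (B (M (nat_lit 371) (B (L (nat_lit 372) ln16_10_0_c10 ln16_10_0_c10_ok) (L (nat_lit 370) ln15_10_0_c10 ln15_10_0_c10_ok))) (M (nat_lit 303) (B (L (nat_lit 304) ln19_10_3_c10 ln19_10_3_c10_ok) (L (nat_lit 302) ln18_10_3_c10 ln18_10_3_c10_ok))))) (B (M (nat_lit 335) (B (M (nat_lit 307) (B (L (nat_lit 308) ln16_10_2_c10 ln16_10_2_c10_ok) (L (nat_lit 306) ln15_10_2_c10 ln15_10_2_c10_ok))) (M (nat_lit 303) (B (L (nat_lit 304) ln19_10_3_c10 ln19_10_3_c10_ok) (L (nat_lit 302) ln18_10_3_c10 ln18_10_3_c10_ok))))) (M (nat_lit 340) (B (M (nat_lit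 308) (B (L (nat_lit 309) ln17_10_2_c10 ln17_10_2_c10_ok) (L (nat_lit 307) ln16_10_2_c10 ln16_10_2_c10_ok))) (M (nat_lit 372) (B (L (nat_lit 373) ln17_10_0_c10 ln17_10_0_c10_ok) (L (nat_lit 371) ln16_10_0_c10 ln16_10_0_c10_ok))))))))) (B (M (nat_lit 339) (B (M (nat_lit 340) (B (M (nat_lit 308) (B (L (nat_lit 309) ln17_10_2_c10 ln17_10_2_c10_ok) (L (nat_lit 307) ln16_10_2_c10 ln16_10_2_c10_ok))) (M (nat_lit 372) (B (L (nat_lit 373) ln17_10_0_c10 ln17_10_0_c10_ok) (L (nat_lit 371) ln16_10_0_c10 ln16_10_0_c10_ok))))) (B (M (nat_lit 371) (B (L (nat_lit 372) ln16_10_0_c10 ln16_10_0_c10_ok) (M (nat_lit 335) (B (L (nat_lit 370) ln15_10_0_c10 ln15_10_0_c10_ok) (M (nat_lit 307) (B (L (nat_lit 308) ln16_10_2_c10 ln16_10_2_c10_ok) (L (nat_lit 306) ln15_10_2_c10 ln15_10_2_c10_ok))))))) (B (M (nat_lit 340) (B (M (nat_lit 372) (B (L (nat_lit 373) ln17_10_0_c10 ln17_10_0_c10_ok) (L (nat_lit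 371) ln16_10_0_c10 ln16_10_0_c10_ok))) (M (nat_lit 341) (B (M (nat_lit 305) (B (L (nat_lit 306) ln21_10_3_c10 ln21_10_3_c10_ok) (L (nat_lit 304) ln20_10_3_c10 ln20_10_3_c10_ok))) (L (nat_lit 369) ln20_10_1_c10 ln20_10_1_c10_ok))))) (M (nat_lit 340) (B (M (nat_lit 308) (B (L (nat_lit 309) ln17_10_2_c10 ln17_10_2_c10_ok) (L (nat_lit 307) ln16_10_2_c10 ln16_10_2_c10_ok))) (M (nat_lit 341) (B (M (nat_lit 305) (B (L (nat_lit 306) ln21_10_3_c10 ln21_10_3_c10_ok) (L (nat_lit 304) ln20_10_3_c10 ln20_10_3_c10_ok))) (L (nat_lit 369) ln20_10_1_c10 ln20_10_1_c10_ok))))))))) (M (nat_lit 339) (B (M (nat_lit 340) (B (M (nat_lit 308) (B (L (nat_lit 309) ln17_10_2_c10 ln17_10_2_c10_ok) (L (nat_lit 307) ln16_10_2_c10 ln16_10_2_c10_ok))) (M (nat_lit 304) (B (L (nat_lit 305) ln20_10_3_c10 ln20_10_3_c10_ok) (L (nat_lit 303) ln19_10_3_c10 ln19_10_3_c10_ok))))) (B (M (nat_lit 372) (B (L (nat_lit 371)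 ln16_10_0_c10 ln16_10_0_c10_ok) (M (nat_lit 340) (B (L (nat_lit 373) ln17_10_0_c10 ln17_10_0_c10_ok) (M (nat_lit 304) (B (L (nat_lit 305) ln20_10_3_c10 ln20_10_3_c10_ok) (L (nat_lit 303) ln19_10_3_c10 ln19_10_3_c10_ok))))))) (K (nat_lit 179013548899091572664880704632125070351178483778829568730973049818371655270878832446804987084083260845394790023188089720556189861237851007614095196160) (nat_lit 44362715136920036307131883255483205897443524733365831705692172457737929882832461697792488377905765794752818587800057649786884456448) (nat_lit 44362715136920036307131883255483205897443524733365831705692172457737929882832461697792488377905765794752818587800057649786884456448) c10_s441))))))))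
noncomputable def c10_d183 : Cert := (B (M (nat_lit 334) (B (M (nat_lit 338) (B (M (nat_lit 306) (B (L (nat_lit 305) ln14_10_2_c10 ln14_10_2_c10_ok) (L (nat_lit 307) ln15_10_2_c10 ln15_10_2_c10_ok))) (M (nat_lit 370) (B (L (nat_lit 369) ln14_10_0 ln14_10_0_ok) (L (nat_lit 371) ln15_10_0_c10 ln15_10_0_c10_ok))))) (B (M (nat_lit 338) (B (M (nat_lit 302) (B (L (nat_lit 301) ln17_10_3_c10 ln17_10_3_c10_ok) (L (nat_lit 303) ln18_10_3_c10 ln18_10_3_c10_ok))) (M (nat_lit 370) (B (L (nat_lit 369) ln14_10_0 ln14_10_0_ok) (L (nat_lit 371) ln15_10_0_c10 ln15_10_0_c10_ok))))) (B (M (nat_lit 338) (B (M (nat_lit 302) (B (L (nat_lit 301) ln17_10_3_c10 ln17_10_3_c10_ok) (L (nat_lit 303) ln18_10_3_c10 ln18_10_3_c10_ok))) (M (nat_lit 306) (B (L (nat_lit 305) ln14_10_2_c10 ln14_10_2_c10_ok) (L (nat_lit 307) ln15_10_2_c10 ln15_10_2_c10_ok))))) (M (nat_lit 333) (B (M (nat_lit 301) (B (L (nat_lit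 300) ln16_10_3 ln16_10_3_ok) (L (nat_lit 302) ln17_10_3_c10 ln17_10_3_c10_ok))) (L (nat_lit 369) ln13_10_0 ln13_10_0_ok))))))) (B (M (nat_lit 334) (B (M (nat_lit 333) (B (M (nat_lit 305) (B (L (nat_lit 304) ln13_10_2 ln13_10_2_ok) (L (nat_lit 306) ln14_10_2_c10 ln14_10_2_c10_ok))) (L (nat_lit 369) ln13_10_0 ln13_10_0_ok))) (B (M (nat_lit 338) (B (M (nat_lit 366) (B (L (nat_lit 365) ln17_10_1 ln17_10_1_ok) (L (nat_lit 367) ln18_10_1 ln18_10_1_ok))) (M (nat_lit 370) (B (L (nat_lit 369) ln14_10_0 ln14_10_0_ok) (L (nat_lit 371) ln15_10_0_c10 ln15_10_0_c10_ok))))) (M (nat_lit 333) (B (M (nat_lit 365) (B (L (nat_lit 364) ln16_10_1 ln16_10_1_ok) (L (nat_lit 366) ln17_10_1 ln17_10_1_ok))) (M (nat_lit 305) (B (L (nat_lit 304) ln13_10_2 ln13_10_2_ok) (L (nat_lit 306) ln14_10_2_c10 ln14_10_2_c10_ok)))))))) (B (M (nat_lit 338) (B (M (nat_lit 334) (B (M (nat_lit 366) (B (L (nat_lit 365)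 ln17_10_1 ln17_10_1_ok) (L (nat_lit 367) ln18_10_1 ln18_10_1_ok))) (M (nat_lit 306) (B (L (nat_lit 305) ln14_10_2_c10 ln14_10_2_c10_ok) (L (nat_lit 307) ln15_10_2_c10 ln15_10_2_c10_ok))))) (B (M (nat_lit 334) (B (M (nat_lit 302) (B (L (nat_lit 301) ln17_10_3_c10 ln17_10_3_c10_ok) (L (nat_lit 303) ln18_10_3_c10 ln18_10_3_c10_ok))) (M (nat_lit 306) (B (L (nat_lit 305) ln14_10_2_c10 ln14_10_2_c10_ok) (L (nat_lit 307) ln15_10_2_c10 ln15_10_2_c10_ok))))) (M (nat_lit 339) (B (M (nat_lit 303) (B (L (nat_lit 302) ln18_10_3_c10 ln18_10_3_c10_ok) (L (nat_lit 304) ln19_10_3_c10 ln19_10_3_c10_ok))) (M (nat_lit 371) (B (L (nat_lit 370) ln15_10_0_c10 ln15_10_0_c10_ok) (L (nat_lit 372) ln16_10_0_c10 ln16_10_0_c10_ok)))))))) (B (M (nat_lit 338) (B (M (nat_lit 339) (B (M (nat_lit 303) (B (L (nat_lit 302) ln18_10_3_c10 ln18_10_3_c10_ok) (L (nat_lit 304) ln19_10_3_c10 ln19_10_3_c10_ok))) (M (nat_lit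 371) (B (L (nat_lit 370) ln15_10_0_c10 ln15_10_0_c10_ok) (L (nat_lit 372) ln16_10_0_c10 ln16_10_0_c10_ok))))) (B (M (nat_lit 339) (B (L (nat_lit 367) ln19_10_1_c10 ln19_10_1_c10_ok) (M (nat_lit 371) (B (L (nat_lit 370) ln15_10_0_c10 ln15_10_0_c10_ok) (L (nat_lit 372) ln16_10_0_c10 ln16_10_0_c10_ok))))) (B (M (nat_lit 339) (B (M (nat_lit 303) (B (L (nat_lit 302) ln18_10_3_c10 ln18_10_3_c10_ok) (L (nat_lit 304) ln19_10_3_c10 ln19_10_3_c10_ok))) (M (nat_lit 307) (B (L (nat_lit 306) ln15_10_2_c10 ln15_10_2_c10_ok) (L (nat_lit 308) ln16_10_2_c10 ln16_10_2_c10_ok))))) (M (nat_lit 305) (B (M (nat_lit 306) (B (L (nat_lit 307) ln15_10_2_c10 ln15_10_2_c10_ok) (M (nat_lit 370) (B (L (nat_lit 371) ln15_10_0_c10 ln15_10_0_c10_ok) (M (nat_lit 273) (B (L (nat_lit 241) ln17_7_4_c10 ln17_7_4_c10_ok) (L (nat_lit 402) ln18_12_7_c10 ln18_12_7_c10_ok))))))) (B (M (nat_lit 306) (B (L (nat_lit 307)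 ln15_10_2_c10 ln15_10_2_c10_ok) (M (nat_lit 370) (B (L (nat_lit 371) ln15_10_0_c10 ln15_10_0_c10_ok) (M (nat_lit 402) (B (L (nat_lit 273) ln18_12_7_c10 ln18_12_7_c10_ok) (L (nat_lit 434) ln18_13_7_c10 ln18_13_7_c10_ok))))))) (B (M (nat_lit 304) (B (M (nat_lit 303) (B (L (nat_lit 302) ln14_9_0_c10 ln14_9_0_c10_ok) (M (nat_lit 367) (B (L (nat_lit 366) ln18_10_1 ln18_10_1_ok) (M (nat_lit 399) (B (L (nat_lit 272) ln16_8_5 ln16_8_5_ok) (L (nat_lit 431) ln16_9_5 ln16_9_5_ok))))))) (B (M (nat_lit 367) (B (L (nat_lit 366) ln18_10_1 ln18_10_1_ok) (M (nat_lit 399) (B (L (nat_lit 431) ln16_9_5 ln16_9_5_ok) (L (nat_lit 272) ln16_8_5 ln16_8_5_ok))))) (M (nat_lit 306) (B (L (nat_lit 307) ln19_9_1_c10 ln19_9_1_c10_ok) (M (nat_lit 274) (B (M (nat_lit 303) (B (L (nat_lit 302) ln14_9_0_c10 ln14_9_0_c10_ok) (L (nat_lit 275) ln15_9_2_c10 ln15_9_2_c10_ok))) (M (nat_lit 242) (B (L (nat_lit 210) ln18_6_5_c10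 ln18_6_5_c10_ok) (L (nat_lit 369) ln18_7_5_c10 ln18_7_5_c10_ok)))))))))) (M (nat_lit 370) (B (L (nat_lit 371) ln15_10_0_c10 ln15_10_0_c10_ok) (M (nat_lit 273) (B (L (nat_lit 241) ln17_7_4_c10 ln17_7_4_c10_ok) (M (nat_lit 402) (B (L (nat_lit 369) ln17_8_4_c10 ln17_8_4_c10_ok) (L (nat_lit 434) ln18_13_7_c10 ln18_13_7_c10_ok))))))))))))))) (B (M (nat_lit 334) (B (M (nat_lit 333) (B (M (nat_lit 365) (B (L (nat_lit 364) ln16_10_1 ln16_10_1_ok) (L (nat_lit 366) ln17_10_1 ln17_10_1_ok))) (L (nat_lit 369) ln13_10_0 ln13_10_0_ok))) (B (M (nat_lit 333) (B (M (nat_lit 301) (B (L (nat_lit 300) ln16_10_3 ln16_10_3_ok) (L (nat_lit 302) ln17_10_3_c10 ln17_10_3_c10_ok))) (L (nat_lit 369) ln13_10_0 ln13_10_0_ok))) (M (nat_lit 302) (B (L (nat_lit 301) ln17_10_3_c10 ln17_10_3_c10_ok) (M (nat_lit 366) (B (L (nat_lit 365) ln17_10_1 ln17_10_1_ok) (M (nat_lit 338) (B (L (nat_lit 303) ln18_10_3_c10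 ln18_10_3_c10_ok) (L (nat_lit 367) ln18_10_1 ln18_10_1_ok)))))))))) (M (nat_lit 334) (B (M (nat_lit 333) (B (M (nat_lit 301) (B (L (nat_lit 300) ln16_10_3 ln16_10_3_ok) (L (nat_lit 302) ln17_10_3_c10 ln17_10_3_c10_ok))) (L (nat_lit 369) ln13_10_0 ln13_10_0_ok))) (B (M (nat_lit 305) (B (L (nat_lit 306) ln14_10_2_c10 ln14_10_2_c10_ok) (M (nat_lit 333) (B (L (nat_lit 304) ln13_10_2 ln13_10_2_ok) (L (nat_lit 369) ln13_10_0 ln13_10_0_ok))))) (B (M (nat_lit 369) (B (L (nat_lit 370) ln14_10_0 ln14_10_0_ok) (M (nat_lit 305) (B (L (nat_lit 306) ln14_10_2_c10 ln14_10_2_c10_ok) (M (nat_lit 304) (B (M (nat_lit 272) (B (L (nat_lit 240) ln16_7_4_c10 ln16_7_4_c10_ok) (L (nat_lit 401) ln16_8_4_c10 ln16_8_4_c10_ok))) (L (nat_lit 273) ln17_8_5_c10 ln17_8_5_c10_ok))))))) (M (nat_lit 305) (B (L (nat_lit 306) ln14_10_2_c10 ln14_10_2_c10_ok) (M (nat_lit 333) (B (L (nat_lit 304) ln13_10_2 ln13_10_2_ok)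 (M (nat_lit 365) (B (L (nat_lit 364) ln16_10_1 ln16_10_1_ok) (L (nat_lit 366) ln17_10_1 ln17_10_1_ok))))))))))))))))
noncomputable def c10_d184 : Cert := (B (M (nat_lit 367) (B (M (nat_lit 403) (B (L (nat_lit 401) ln19_12_3_c10 ln19_12_3_c10_ok) (L (nat_lit 369) ln15_11_0_c10 ln15_11_0_c10_ok))) (B (M (nat_lit 338) (B (L (nat_lit 339) ln19_10_1_c10 ln19_10_1_c10_ok) (M (nat_lit 366) (B (L (nat_lit 365) ln13_11_2 ln13_11_2_ok) (L (nat_lit 369) ln14_11_2 ln14_11_2_ok))))) (M (nat_lit 366) (B (L (nat_lit 365) ln13_11_2 ln13_11_2_ok) (M (nat_lit 338) (B (L (nat_lit 335) ln18_10_1 ln18_10_1_ok) (L (nat_lit 339) ln19_10_1_c10 ln19_10_1_c10_ok)))))))) (B (M (nat_lit 367) (B (M (nat_lit 403) (B (L (nat_lit 401) ln19_12_3_c10 ln19_12_3_c10_ok) (L (nat_lit 369) ln15_11_0_c10 ln15_11_0_c10_ok))) (B (M (nat_lit 338) (B (L (nat_lit 339) ln19_10_1_c10 ln19_10_1_c10_ok) (M (nat_lit 369) (B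 (L (nat_lit 366) ln14_11_2 ln14_11_2_ok) (L (nat_lit 403) ln15_11_0_c10 ln15_11_0_c10_ok))))) (B (M (nat_lit 366) (B (M (nat_lit 401) (B (L (nat_lit 399) ln18_12_3 ln18_12_3_ok) (L (nat_lit 403) ln19_12_3_c10 ln19_12_3_c10_ok))) (M (nat_lit 338) (B (L (nat_lit 335) ln18_10_1 ln18_10_1_ok) (L (nat_lit 339) ln19_10_1_c10 ln19_10_1_c10_ok))))) (M (nat_lit 338) (B (L (nat_lit 339) ln19_10_1_c10 ln19_10_1_c10_ok) (M (nat_lit 366) (B (L (nat_lit 335) ln18_10_1 ln18_10_1_ok) (L (nat_lit 369) ln14_11_2 ln14_11_2_ok))))))))) (B (M (nat_lit 434) (B (M (nat_lit 369) (B (L (nat_lit 466) ln18_14_7_c10 ln18_14_7_c10_ok) (M (nat_lit 305) (B (L (nat_lit 273) ln17_8_4_c10 ln17_8_4_c10_ok) (L (nat_lit 338) ln18_13_7_c10 ln18_13_7_c10_ok))))) (B (M (nat_lit 338) (B (L (nat_lit 305) ln18_13_7_c10 ln18_13_7_c10_ok) (M (nat_lit 401) (B (M (nat_lit 435) (B (L (nat_lit 399) ln15_12_0 ln15_12_0_ok)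 (L (nat_lit 467) ln18_10_4_c10 ln18_10_4_c10_ok))) (M (nat_lit 367) (B (L (nat_lit 403) ln19_12_3_c10 ln19_12_3_c10_ok) (L (nat_lit 339) ln19_10_1_c10 ln19_10_1_c10_ok))))))) (B (M (nat_lit 338) (B (M (nat_lit 367) (B (L (nat_lit 339) ln19_10_1_c10 ln19_10_1_c10_ok) (M (nat_lit 369) (B (L (nat_lit 403) ln15_11_0_c10 ln15_11_0_c10_ok) (L (nat_lit 466) ln18_14_7_c10 ln18_14_7_c10_ok))))) (B (M (nat_lit 465) (B (L (nat_lit 433) ln18_10_5_c10 ln18_10_5_c10_ok) (M (nat_lit 466) (B (L (nat_lit 497) ln18_11_5_c10 ln18_11_5_c10_ok) (L (nat_lit 369) ln18_14_7_c10 ln18_14_7_c10_ok))))) (M (nat_lit 401) (B (M (nat_lit 435) (B (L (nat_lit 399) ln15_12_0 ln15_12_0_ok) (L (nat_lit 467) ln18_10_4_c10 ln18_10_4_c10_ok))) (M (nat_lit 367) (B (L (nat_lit 403) ln19_12_3_c10 ln19_12_3_c10_ok) (L (nat_lit 339) ln19_10_1_c10 ln19_10_1_c10_ok)))))))) (M (nat_lit 369) (B (L (nat_lit 466) ln18_14_7_c10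 ln18_14_7_c10_ok) (M (nat_lit 305) (B (L (nat_lit 273) ln17_8_4_c10 ln17_8_4_c10_ok) (L (nat_lit 401) ln17_9_4_c10 ln17_9_4_c10_ok))))))))) (B (M (nat_lit 434) (B (M (nat_lit 369) (B (L (nat_lit 466) ln18_14_7_c10 ln18_14_7_c10_ok) (M (nat_lit 305) (B (L (nat_lit 273) ln17_8_4_c10 ln17_8_4_c10_ok) (L (nat_lit 338) ln18_13_7_c10 ln18_13_7_c10_ok))))) (B (M (nat_lit 338) (B (L (nat_lit 305) ln18_13_7_c10 ln18_13_7_c10_ok) (M (nat_lit 466) (B (M (nat_lit 465) (B (L (nat_lit 497) ln18_11_5_c10 ln18_11_5_c10_ok) (L (nat_lit 433) ln18_10_5_c10 ln18_10_5_c10_ok))) (M (nat_lit 467) (B (L (nat_lit 499) ln18_11_4_c10 ln18_11_4_c10_ok) (L (nat_lit 435) ln18_10_4_c10 ln18_10_4_c10_ok))))))) (B (M (nat_lit 401) (B (M (nat_lit 435) (B (L (nat_lit 399) ln15_12_0 ln15_12_0_ok) (M (nat_lit 436) (B (L (nat_lit 433) ln20_13_3_c10 ln20_13_3_c10_ok) (L (nat_lit 403) ln16_12_0_c10 ln16_12_0_c10_ok)))))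 (B (M (nat_lit 465) (B (M (nat_lit 433) (B (L (nat_lit 497) ln17_15_6_c10 ln17_15_6_c10_ok) (L (nat_lit 369) ln17_14_7_c10 ln17_14_7_c10_ok))) (B (M (nat_lit 369) (B (L (nat_lit 433) ln17_14_7_c10 ln17_14_7_c10_ok) (L (nat_lit 466) ln18_14_7_c10 ln18_14_7_c10_ok))) (B (M (nat_lit 466) (B (L (nat_lit 497) ln18_11_5_c10 ln18_11_5_c10_ok) (L (nat_lit 369) ln18_14_7_c10 ln18_14_7_c10_ok))) (M (nat_lit 497) (B (L (nat_lit 433) ln17_15_6_c10 ln17_15_6_c10_ok) (L (nat_lit 466) ln18_11_5_c10 ln18_11_5_c10_ok))))))) (M (nat_lit 435) (B (L (nat_lit 399) ln15_12_0 ln15_12_0_ok) (M (nat_lit 436) (B (L (nat_lit 403) ln16_12_0_c10 ln16_12_0_c10_ok) (L (nat_lit 437) ln21_13_3_c10 ln21_13_3_c10_ok)))))))) (M (nat_lit 305) (B (L (nat_lit 338) ln18_13_7_c10 ln18_13_7_c10_ok) (M (nat_lit 369) (B (L (nat_lit 273) ln17_8_4_c10 ln17_8_4_c10_ok) (L (nat_lit 401) ln17_9_4_c10 ln17_9_4_c10_ok)))))))))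 (B (M (nat_lit 369) (B (M (nat_lit 367) (B (L (nat_lit 403) ln15_11_0_c10 ln15_11_0_c10_ok) (M (nat_lit 366) (B (L (nat_lit 365) ln13_11_2 ln13_11_2_ok) (L (nat_lit 338) ln14_11_2 ln14_11_2_ok))))) (B (M (nat_lit 305) (B (L (nat_lit 273) ln17_8_4_c10 ln17_8_4_c10_ok) (M (nat_lit 434) (B (L (nat_lit 466) ln18_14_7_c10 ln18_14_7_c10_ok) (L (nat_lit 338) ln18_13_7_c10 ln18_13_7_c10_ok))))) (M (nat_lit 334) (B (L (nat_lit 335) ln14_10_0 ln14_10_0_ok) (M (nat_lit 367) (B (L (nat_lit 403) ln15_11_0_c10 ln15_11_0_c10_ok) (M (nat_lit 366) (B (L (nat_lit 365) ln13_11_2 ln13_11_2_ok) (L (nat_lit 333) ln17_11_3 ln17_11_3_ok)))))))))) (B (M (nat_lit 338) (B (M (nat_lit 367) (B (L (nat_lit 339) ln19_10_1_c10 ln19_10_1_c10_ok) (M (nat_lit 366) (B (L (nat_lit 365) ln13_11_2 ln13_11_2_ok) (L (nat_lit 335) ln18_10_1 ln18_10_1_ok))))) (M (nat_lit 434) (B (L (nat_lit 305) ln18_13_7_c10 ln18_13_7_c10_ok)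 (M (nat_lit 466) (B (M (nat_lit 465) (B (L (nat_lit 497) ln18_11_5_c10 ln18_11_5_c10_ok) (L (nat_lit 433) ln18_10_5_c10 ln18_10_5_c10_ok))) (M (nat_lit 467) (B (L (nat_lit 499) ln18_11_4_c10 ln18_11_4_c10_ok) (L (nat_lit 435) ln18_10_4_c10 ln18_10_4_c10_ok))))))))) (M (nat_lit 369) (B (M (nat_lit 367) (B (L (nat_lit 403) ln15_11_0_c10 ln15_11_0_c10_ok) (M (nat_lit 366) (B (L (nat_lit 365) ln13_11_2 ln13_11_2_ok) (L (nat_lit 401) ln14_11_0 ln14_11_0_ok))))) (B (M (nat_lit 305) (B (L (nat_lit 273) ln17_8_4_c10 ln17_8_4_c10_ok) (M (nat_lit 434) (B (L (nat_lit 401) ln17_9_4_c10 ln17_9_4_c10_ok) (L (nat_lit 466) ln18_14_7_c10 ln18_14_7_c10_ok))))) (M (nat_lit 334) (B (L (nat_lit 335) ln14_10_0 ln14_10_0_ok) (M (nat_lit 367) (B (L (nat_lit 403) ln15_11_0_c10 ln15_11_0_c10_ok) (M (nat_lit 366) (B (L (nat_lit 365) ln13_11_2 ln13_11_2_ok) (L (nat_lit 333) ln17_11_3 ln17_11_3_ok))))))))))))))))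
noncomputable def c10_d185 : Cert := (B (M (nat_lit 370) (B (M (nat_lit 371) (B (M (nat_lit 369) (B (L (nat_lit 399) ln19_11_1_c10 ln19_11_1_c10_ok) (L (nat_lit 335) ln19_11_3_c10 ln19_11_3_c10_ok))) (B (M (nat_lit 335) (B (L (nat_lit 369) ln19_11_3_c10 ln19_11_3_c10_ok) (L (nat_lit 338) ln15_10_0_c10 ln15_10_0_c10_ok))) (B (M (nat_lit 369) (B (L (nat_lit 399) ln19_11_1_c10 ln19_11_1_c10_ok) (L (nat_lit 372) ln20_11_3_c10 ln20_11_3_c10_ok))) (M (nat_lit 338) (B (L (nat_lit 335) ln15_10_0_c10 ln15_10_0_c10_ok) (M (nat_lit 339) (B (L (nat_lit 367) ln19_10_1_c10 ln19_10_1_c10_ok) (L (nat_lit 372) ln16_10_0_c10 ln16_10_0_c10_ok))))))))) (B (M (nat_lit 338) (B (M (nat_lit 367) (B (L (nat_lit 339) ln19_10_1_c10 ln19_10_1_c10_ok) (M (nat_lit 366) (B (L (nat_lit 365) ln13_11_2 ln13_11_2_ok) (L (nat_lit 369) ln14_11_2 ln14_11_2_ok))))) (B (M (nat_lit 367) (B (L (nat_lit 339) ln19_10_1_c10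 ln19_10_1_c10_ok) (M (nat_lit 366) (B (L (nat_lit 335) ln18_10_1 ln18_10_1_ok) (L (nat_lit 369) ln14_11_2 ln14_11_2_ok))))) (B (M (nat_lit 371) (B (L (nat_lit 335) ln15_10_0_c10 ln15_10_0_c10_ok) (M (nat_lit 372) (B (L (nat_lit 369) ln20_11_3_c10 ln20_11_3_c10_ok) (L (nat_lit 373) ln21_11_3_c10 ln21_11_3_c10_ok))))) (M (nat_lit 371) (B (L (nat_lit 335) ln15_10_0_c10 ln15_10_0_c10_ok) (M (nat_lit 339) (B (L (nat_lit 367) ln19_10_1_c10 ln19_10_1_c10_ok) (L (nat_lit 372) ln16_10_0_c10 ln16_10_0_c10_ok))))))))) (B (M (nat_lit 371) (B (M (nat_lit 369) (B (L (nat_lit 399) ln19_11_1_c10 ln19_11_1_c10_ok) (L (nat_lit 335) ln19_11_3_c10 ln19_11_3_c10_ok))) (B (M (nat_lit 369) (B (L (nat_lit 335) ln19_11_3_c10 ln19_11_3_c10_ok) (L (nat_lit 372) ln20_11_3_c10 ln20_11_3_c10_ok))) (B (M (nat_lit 369) (B (L (nat_lit 399) ln19_11_1_c10 ln19_11_1_c10_ok) (L (nat_lit 372) ln20_11_3_c10 ln20_11_3_c10_ok)))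 (M (nat_lit 338) (B (L (nat_lit 335) ln15_10_0_c10 ln15_10_0_c10_ok) (M (nat_lit 372) (B (L (nat_lit 339) ln16_10_0_c10 ln16_10_0_c10_ok) (L (nat_lit 373) ln21_11_3_c10 ln21_11_3_c10_ok))))))))) (B (M (nat_lit 369) (B (M (nat_lit 371) (B (L (nat_lit 399) ln19_11_1_c10 ln19_11_1_c10_ok) (L (nat_lit 372) ln20_11_3_c10 ln20_11_3_c10_ok))) (M (nat_lit 402) (B (M (nat_lit 367) (B (L (nat_lit 403) ln15_11_0_c10 ln15_11_0_c10_ok) (M (nat_lit 366) (B (L (nat_lit 365) ln13_11_2 ln13_11_2_ok) (L (nat_lit 338) ln14_11_2 ln14_11_2_ok))))) (M (nat_lit 305) (B (L (nat_lit 273) ln17_8_4_c10 ln17_8_4_c10_ok) (M (nat_lit 434) (B (L (nat_lit 401) ln17_9_4_c10 ln17_9_4_c10_ok) (L (nat_lit 466) ln18_14_7_c10 ln18_14_7_c10_ok))))))))) (B (M (nat_lit 338) (B (M (nat_lit 367) (B (L (nat_lit 339) ln19_10_1_c10 ln19_10_1_c10_ok) (M (nat_lit 335) (B (L (nat_lit 366) ln18_10_1 ln18_10_1_ok) (L (nat_lit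 371) ln15_10_0_c10 ln15_10_0_c10_ok))))) (B (M (nat_lit 371) (B (L (nat_lit 335) ln15_10_0_c10 ln15_10_0_c10_ok) (M (nat_lit 339) (B (L (nat_lit 367) ln19_10_1_c10 ln19_10_1_c10_ok) (L (nat_lit 372) ln16_10_0_c10 ln16_10_0_c10_ok))))) (B (M (nat_lit 371) (B (L (nat_lit 335) ln15_10_0_c10 ln15_10_0_c10_ok) (M (nat_lit 372) (B (L (nat_lit 339) ln16_10_0_c10 ln16_10_0_c10_ok) (L (nat_lit 373) ln21_11_3_c10 ln21_11_3_c10_ok))))) (B (M (nat_lit 402) (B (M (nat_lit 434) (B (L (nat_lit 305) ln18_13_7_c10 ln18_13_7_c10_ok) (M (nat_lit 339) (B (L (nat_lit 367) ln19_10_1_c10 ln19_10_1_c10_ok) (M (nat_lit 371) (B (L (nat_lit 372) ln16_10_0_c10 ln16_10_0_c10_ok) (L (nat_lit 466) ln18_14_6_c10 ln18_14_6_c10_ok))))))) (B (M (nat_lit 434) (B (L (nat_lit 305) ln18_13_7_c10 ln18_13_7_c10_ok) (M (nat_lit 466) (B (M (nat_lit 465) (B (L (nat_lit 497) ln18_11_5_c10 ln18_11_5_c10_ok) (L (nat_lit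 433) ln18_10_5_c10 ln18_10_5_c10_ok))) (M (nat_lit 467) (B (L (nat_lit 499) ln18_11_4_c10 ln18_11_4_c10_ok) (L (nat_lit 435) ln18_10_4_c10 ln18_10_4_c10_ok))))))) (M (nat_lit 367) (B (L (nat_lit 339) ln19_10_1_c10 ln19_10_1_c10_ok) (M (nat_lit 401) (B (L (nat_lit 403) ln19_12_3_c10 ln19_12_3_c10_ok) (M (nat_lit 366) (B (L (nat_lit 365) ln13_11_0 ln13_11_0_ok) (L (nat_lit 399) ln18_12_3 ln18_12_3_ok)))))))))) (B (M (nat_lit 367) (B (L (nat_lit 339) ln19_10_1_c10 ln19_10_1_c10_ok) (M (nat_lit 366) (B (L (nat_lit 365) ln13_11_2 ln13_11_2_ok) (L (nat_lit 335) ln18_10_1 ln18_10_1_ok))))) (M (nat_lit 402) (B (M (nat_lit 371) (B (L (nat_lit 335) ln15_10_0_c10 ln15_10_0_c10_ok) (M (nat_lit 401) (B (L (nat_lit 399) ln15_12_2 ln15_12_2_ok) (M (nat_lit 403) (B (L (nat_lit 367) ln19_12_3_c10 ln19_12_3_c10_ok) (L (nat_lit 372) ln16_12_2_c10 ln16_12_2_c10_ok))))))) (M (nat_lit 434) (B (L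 (nat_lit 305) ln18_13_7_c10 ln18_13_7_c10_ok) (M (nat_lit 466) (B (M (nat_lit 465) (B (L (nat_lit 497) ln18_11_5_c10 ln18_11_5_c10_ok) (L (nat_lit 433) ln18_10_5_c10 ln18_10_5_c10_ok))) (M (nat_lit 467) (B (L (nat_lit 499) ln18_11_4_c10 ln18_11_4_c10_ok) (L (nat_lit 435) ln18_10_4_c10 ln18_10_4_c10_ok))))))))))))))) (B (M (nat_lit 369) (B (M (nat_lit 335) (B (L (nat_lit 334) ln14_10_0 ln14_10_0_ok) (L (nat_lit 371) ln19_11_3_c10 ln19_11_3_c10_ok))) (B (M (nat_lit 371) (B (L (nat_lit 399) ln19_11_1_c10 ln19_11_1_c10_ok) (L (nat_lit 335) ln19_11_3_c10 ln19_11_3_c10_ok))) (B (M (nat_lit 371) (B (L (nat_lit 399) ln19_11_1_c10 ln19_11_1_c10_ok) (L (nat_lit 372) ln20_11_3_c10 ln20_11_3_c10_ok))) (M (nat_lit 367) (B (M (nat_lit 334) (B (L (nat_lit 335) ln14_10_0 ln14_10_0_ok) (M (nat_lit 366) (B (L (nat_lit 365) ln13_11_2 ln13_11_2_ok) (L (nat_lit 333) ln17_11_3 ln17_11_3_ok))))) (M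 (nat_lit 402) (B (L (nat_lit 403) ln15_11_0_c10 ln15_11_0_c10_ok) (M (nat_lit 305) (B (L (nat_lit 273) ln17_8_4_c10 ln17_8_4_c10_ok) (M (nat_lit 434) (B (L (nat_lit 401) ln17_9_4_c10 ln17_9_4_c10_ok) (L (nat_lit 466) ln18_14_7_c10 ln18_14_7_c10_ok))))))))))))) (M (nat_lit 402) c10_d184)))))))) (M (nat_lit 401) (B (M (nat_lit 433) (B (L (nat_lit 304) ln16_9_4_c10 ln16_9_4_c10_ok) (M (nat_lit 465) (B (L (nat_lit 497) ln17_15_7_c10 ln17_15_7_c10_ok) (L (nat_lit 369) ln17_14_7_c10 ln17_14_7_c10_ok))))) (B (M (nat_lit 304) (B (L (nat_lit 433) ln16_9_4_c10 ln16_9_4_c10_ok) (M (nat_lit 272) (B (L (nat_lit 369) ln16_8_4_c10 ln16_8_4_c10_ok) (M (nat_lit 399) (B (L (nat_lit 431) ln16_9_5 ln16_9_5_ok) (L (nat_lit 367) ln16_8_5 ln16_8_5_ok))))))) (B (M (nat_lit 304) (B (M (nat_lit 272) (B (L (nat_lit 369) ln16_8_4_c10 ln16_8_4_c10_ok) (M (nat_lit 399) (B (L (nat_lit 431) ln16_9_5 ln16_9_5_ok)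 (L (nat_lit 367) ln16_8_5 ln16_8_5_ok))))) (B (M (nat_lit 273) (B (L (nat_lit 305) ln16_12_6_c10 ln16_12_6_c10_ok) (M (nat_lit 272) (B (L (nat_lit 369) ln16_8_4_c10 ln16_8_4_c10_ok) (L (nat_lit 241) ln16_11_6_c10 ln16_11_6_c10_ok))))) (B (M (nat_lit 399) (B (L (nat_lit 431) ln16_9_5 ln16_9_5_ok) (M (nat_lit 367) (B (L (nat_lit 272) ln16_8_5 ln16_8_5_ok) (M (nat_lit 402) (B (L (nat_lit 403) ln19_12_3_c10 ln19_12_3_c10_ok) (L (nat_lit 366) ln18_12_3 ln18_12_3_ok))))))) (M (nat_lit 402) (B (M (nat_lit 367) (B (L (nat_lit 403) ln19_12_3_c10 ln19_12_3_c10_ok) (M (nat_lit 399) (B (L (nat_lit 431) ln16_9_5 ln16_9_5_ok) (L (nat_lit 366) ln18_12_3 ln18_12_3_ok))))) (B (M (nat_lit 367) (B (L (nat_lit 403) ln19_12_3_c10 ln19_12_3_c10_ok) (M (nat_lit 366) (B (L (nat_lit 399) ln18_12_3 ln18_12_3_ok) (L (nat_lit 369) ln14_11_0 ln14_11_0_ok))))) (B (M (nat_lit 434) (B (M (nat_lit 399) (B (L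 (nat_lit 435) ln15_12_0 ln15_12_0_ok) (L (nat_lit 431) ln16_9_5 ln16_9_5_ok))) (M (nat_lit 305) (B (L (nat_lit 369) ln17_9_4_c10 ln17_9_4_c10_ok) (L (nat_lit 273) ln16_12_6_c10 ln16_12_6_c10_ok))))) (M (nat_lit 367) (B (L (nat_lit 403) ln19_12_3_c10 ln19_12_3_c10_ok) (M (nat_lit 366) (B (L (nat_lit 369) ln14_11_0 ln14_11_0_ok) (L (nat_lit 365) ln13_11_0 ln13_11_0_ok))))))))))))) (B (M (nat_lit 304) (B (L (nat_lit 433) ln16_9_4_c10 ln16_9_4_c10_ok) (M (nat_lit 399) (B (L (nat_lit 431) ln16_9_5 ln16_9_5_ok) (M (nat_lit 367) (B (L (nat_lit 272) ln16_8_5 ln16_8_5_ok) (M (nat_lit 402) (B (L (nat_lit 403) ln19_12_3_c10 ln19_12_3_c10_ok) (L (nat_lit 366) ln18_12_3 ln18_12_3_ok))))))))) (M (nat_lit 367) (B (M (nat_lit 366) (B (L (nat_lit 365) ln13_11_0 ln13_11_0_ok) (M (nat_lit 402) (B (L (nat_lit 403) ln19_12_3_c10 ln19_12_3_c10_ok) (L (nat_lit 369) ln14_11_0 ln14_11_0_ok))))) (B (M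 (nat_lit 366) (B (L (nat_lit 365) ln13_11_0 ln13_11_0_ok) (M (nat_lit 369) (B (L (nat_lit 402) ln14_11_0 ln14_11_0_ok) (L (nat_lit 338) ln14_11_2 ln14_11_2_ok))))) (B (M (nat_lit 366) (B (L (nat_lit 365) ln13_11_0 ln13_11_0_ok) (M (nat_lit 338) (B (L (nat_lit 369) ln14_11_2 ln14_11_2_ok) (L (nat_lit 339) ln19_10_1_c10 ln19_10_1_c10_ok))))) (B (M (nat_lit 366) (B (L (nat_lit 365) ln13_11_0 ln13_11_0_ok) (M (nat_lit 402) (B (L (nat_lit 403) ln19_12_3_c10 ln19_12_3_c10_ok) (L (nat_lit 399) ln18_12_3 ln18_12_3_ok))))) (M (nat_lit 369) (B (M (nat_lit 402) (B (L (nat_lit 403) ln19_12_3_c10 ln19_12_3_c10_ok) (M (nat_lit 305) (B (L (nat_lit 434) ln17_9_4_c10 ln17_9_4_c10_ok) (L (nat_lit 273) ln17_8_5_c10 ln17_8_5_c10_ok))))) (M (nat_lit 433) (B (L (nat_lit 465) ln17_14_7_c10 ln17_14_7_c10_ok) (M (nat_lit 338) (B (L (nat_lit 306) ln17_13_6_c10 ln17_13_6_c10_ok) (L (nat_lit 339) ln19_10_1_c10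 ln19_10_1_c10_ok))))))))))))))))))
noncomputable def c10_d186 : Cert := (B (M (nat_lit 273) (B (M (nat_lit 305) (B (L (nat_lit 369) ln17_8_5_c10 ln17_8_5_c10_ok) (L (nat_lit 241) ln17_7_5_c10 ln17_7_5_c10_ok))) (B (M (nat_lit 305) (B (L (nat_lit 304) ln16_12_6_c10 ln16_12_6_c10_ok) (L (nat_lit 369) ln17_8_5_c10 ln17_8_5_c10_ok))) (B (M (nat_lit 305) (B (L (nat_lit 241) ln17_7_5_c10 ln17_7_5_c10_ok) (L (nat_lit 304) ln16_12_6_c10 ln16_12_6_c10_ok))) (M (nat_lit 338) (B (M (nat_lit 367) (B (M (nat_lit 366) (B (L (nat_lit 369) ln14_11_2 ln14_11_2_ok) (L (nat_lit 335) ln18_10_1 ln18_10_1_ok))) (L (nat_lit 339) ln19_10_1_c10 ln19_10_1_c10_ok))) (B (M (nat_lit 339) (B (M (nat_lit 369) (B (L (nat_lit 340) ln20_10_1_c10 ln20_10_1_c10_ok) (L (nat_lit 367) ln19_10_1_c10 ln19_10_1_c10_ok))) (B (L (nat_lit 367) ln19_10_1_c10 ln19_10_1_c10_ok) (M (nat_lit 340) (B (L (nat_lit 369) ln20_10_1_c10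 ln20_10_1_c10_ok) (M (nat_lit 372) (B (L (nat_lit 373) ln17_10_0_c10 ln17_10_0_c10_ok) (L (nat_lit 371) ln16_10_0_c10 ln16_10_0_c10_ok)))))))) (B (M (nat_lit 367) (B (L (nat_lit 339) ln19_10_1_c10 ln19_10_1_c10_ok) (M (nat_lit 366) (B (L (nat_lit 365) ln13_11_2 ln13_11_2_ok) (L (nat_lit 335) ln18_10_1 ln18_10_1_ok))))) (B (M (nat_lit 339) (B (M (nat_lit 340) (B (L (nat_lit 369) ln20_10_1_c10 ln20_10_1_c10_ok) (M (nat_lit 372) (B (L (nat_lit 373) ln17_10_0_c10 ln17_10_0_c10_ok) (L (nat_lit 371) ln16_10_0_c10 ln16_10_0_c10_ok))))) (B (M (nat_lit 335) (B (M (nat_lit 307) (B (L (nat_lit 308) ln16_10_2_c10 ln16_10_2_c10_ok) (L (nat_lit 306) ln15_10_2_c10 ln15_10_2_c10_ok))) (M (nat_lit 371) (B (L (nat_lit 372) ln16_10_0_c10 ln16_10_0_c10_ok) (L (nat_lit 370) ln15_10_0_c10 ln15_10_0_c10_ok))))) (M (nat_lit 340) (B (L (nat_lit 369) ln20_10_1_c10 ln20_10_1_c10_ok) (M (nat_lit 308) (B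 (L (nat_lit 309) ln17_10_2_c10 ln17_10_2_c10_ok) (L (nat_lit 307) ln16_10_2_c10 ln16_10_2_c10_ok)))))))) (M (nat_lit 335) (B (M (nat_lit 334) (B (M (nat_lit 366) (B (L (nat_lit 367) ln18_10_1 ln18_10_1_ok) (L (nat_lit 365) ln17_10_1 ln17_10_1_ok))) (B (M (nat_lit 333) (B (M (nat_lit 365) (B (L (nat_lit 366) ln17_10_1 ln17_10_1_ok) (L (nat_lit 364) ln16_10_1 ln16_10_1_ok))) (M (nat_lit 301) (B (L (nat_lit 302) ln17_10_3_c10 ln17_10_3_c10_ok) (L (nat_lit 300) ln16_10_3 ln16_10_3_ok))))) (B (M (nat_lit 333) (B (M (nat_lit 301) (B (L (nat_lit 302) ln17_10_3_c10 ln17_10_3_c10_ok) (L (nat_lit 300) ln16_10_3 ln16_10_3_ok))) (M (nat_lit 364) (B (L (nat_lit 365) ln16_10_1 ln16_10_1_ok) (M (nat_lit 332) (B (L (nat_lit 367) ln12_10_0 ln12_10_0_ok) (L (nat_lit 363) ln15_10_1 ln15_10_1_ok))))))) (M (nat_lit 333) (B (M (nat_lit 367) (B (L (nat_lit 366) ln18_10_1 ln18_10_1_ok) (L (nat_lit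 332) ln12_10_0 ln12_10_0_ok))) (M (nat_lit 301) (B (L (nat_lit 302) ln17_10_3_c10 ln17_10_3_c10_ok) (L (nat_lit 300) ln16_10_3 ln16_10_3_ok))))))))) (B (M (nat_lit 334) (B (M (nat_lit 369) (B (L (nat_lit 333) ln13_10_0 ln13_10_0_ok) (L (nat_lit 370) ln14_10_0 ln14_10_0_ok))) (B (M (nat_lit 370) (B (L (nat_lit 369) ln14_10_0 ln14_10_0_ok) (L (nat_lit 371) ln15_10_0_c10 ln15_10_0_c10_ok))) (M (nat_lit 333) (B (M (nat_lit 301) (B (L (nat_lit 300) ln16_10_3 ln16_10_3_ok) (L (nat_lit 302) ln17_10_3_c10 ln17_10_3_c10_ok))) (M (nat_lit 365) (B (L (nat_lit 364) ln16_10_1 ln16_10_1_ok) (L (nat_lit 366) ln17_10_1 ln17_10_1_ok)))))))) (B (M (nat_lit 334) (B (M (nat_lit 366) (B (L (nat_lit 365) ln17_10_1 ln17_10_1_ok) (L (nat_lit 367) ln18_10_1 ln18_10_1_ok))) (M (nat_lit 369) (B (L (nat_lit 333) ln13_10_0 ln13_10_0_ok) (L (nat_lit 370) ln14_10_0 ln14_10_0_ok))))) (B (M (nat_lit 334) (B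 (M (nat_lit 370) (B (L (nat_lit 371) ln15_10_0_c10 ln15_10_0_c10_ok) (L (nat_lit 369) ln14_10_0 ln14_10_0_ok))) (B (M (nat_lit 369) (B (L (nat_lit 370) ln14_10_0 ln14_10_0_ok) (L (nat_lit 333) ln13_10_0 ln13_10_0_ok))) (B (M (nat_lit 333) (B (L (nat_lit 369) ln13_10_0 ln13_10_0_ok) (M (nat_lit 301) (B (L (nat_lit 302) ln17_10_3_c10 ln17_10_3_c10_ok) (L (nat_lit 300) ln16_10_3 ln16_10_3_ok))))) (M (nat_lit 333) (B (M (nat_lit 301) (B (L (nat_lit 302) ln17_10_3_c10 ln17_10_3_c10_ok) (L (nat_lit 300) ln16_10_3 ln16_10_3_ok))) (M (nat_lit 364) (B (L (nat_lit 365) ln16_10_1 ln16_10_1_ok) (M (nat_lit 332) (B (L (nat_lit 367) ln12_10_0 ln12_10_0_ok) (L (nat_lit 363) ln15_10_1 ln15_10_1_ok))))))))))) (B (M (nat_lit 334) (B (M (nat_lit 370) (B (L (nat_lit 371) ln15_10_0_c10 ln15_10_0_c10_ok) (L (nat_lit 369) ln14_10_0 ln14_10_0_ok))) (B (M (nat_lit 369) (B (L (nat_lit 370) ln14_10_0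 ln14_10_0_ok) (L (nat_lit 333) ln13_10_0 ln13_10_0_ok))) (B (M (nat_lit 367) (B (L (nat_lit 366) ln18_10_1 ln18_10_1_ok) (M (nat_lit 333) (B (L (nat_lit 369) ln13_10_0 ln13_10_0_ok) (L (nat_lit 332) ln12_10_0 ln12_10_0_ok))))) (M (nat_lit 333) (B (M (nat_lit 367) (B (L (nat_lit 332) ln12_10_0 ln12_10_0_ok) (L (nat_lit 366) ln18_10_1 ln18_10_1_ok))) (M (nat_lit 301) (B (L (nat_lit 302) ln17_10_3_c10 ln17_10_3_c10_ok) (L (nat_lit 300) ln16_10_3 ln16_10_3_ok))))))))) (B (M (nat_lit 334) (B (M (nat_lit 370) (B (L (nat_lit 371) ln15_10_0_c10 ln15_10_0_c10_ok) (L (nat_lit 369) ln14_10_0 ln14_10_0_ok))) (M (nat_lit 366) (B (L (nat_lit 367) ln18_10_1 ln18_10_1_ok) (L (nat_lit 365) ln17_10_1 ln17_10_1_ok))))) (M (nat_lit 367) (B (L (nat_lit 366) ln18_10_1 ln18_10_1_ok) (M (nat_lit 370) (B (L (nat_lit 371) ln15_10_0_c10 ln15_10_0_c10_ok) (M (nat_lit 306) (B (L (nat_lit 307) ln15_10_2_c10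 ln15_10_2_c10_ok) (M (nat_lit 274) (B (L (nat_lit 241) ln18_11_7_c10 ln18_11_7_c10_ok) (M (nat_lit 242) (B (L (nat_lit 369) ln18_7_5_c10 ln18_7_5_c10_ok) (M (nat_lit 243) (B (L (nat_lit 275) ln18_11_6_c10 ln18_11_6_c10_ok) (L (nat_lit 211) ln18_10_6_c10 ln18_10_6_c10_ok))))))))))))))))))))))))))))) (B (M (nat_lit 335) (B (M (nat_lit 334) (B (M (nat_lit 333) (B (M (nat_lit 301) (B (L (nat_lit 300) ln16_10_3 ln16_10_3_ok) (L (nat_lit 302) ln17_10_3_c10 ln17_10_3_c10_ok))) (M (nat_lit 305) (B (L (nat_lit 304) ln13_10_2 ln13_10_2_ok) (L (nat_lit 306) ln14_10_2_c10 ln14_10_2_c10_ok))))) (B (M (nat_lit 365) (B (L (nat_lit 366) ln17_10_1 ln17_10_1_ok) (M (nat_lit 333) (B (L (nat_lit 364) ln16_10_1 ln16_10_1_ok) (M (nat_lit 305) (B (L (nat_lit 304) ln13_10_2 ln13_10_2_ok) (L (nat_lit 306) ln14_10_2_c10 ln14_10_2_c10_ok))))))) (B (M (nat_lit 338) (B (M (nat_lit 366) (B (L (nat_lit 365)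 ln17_10_1 ln17_10_1_ok) (L (nat_lit 367) ln18_10_1 ln18_10_1_ok))) (M (nat_lit 306) (B (L (nat_lit 305) ln14_10_2_c10 ln14_10_2_c10_ok) (L (nat_lit 307) ln15_10_2_c10 ln15_10_2_c10_ok))))) (M (nat_lit 333) (B (M (nat_lit 301) (B (L (nat_lit 300) ln16_10_3 ln16_10_3_ok) (L (nat_lit 302) ln17_10_3_c10 ln17_10_3_c10_ok))) (M (nat_lit 365) (B (L (nat_lit 364) ln16_10_1 ln16_10_1_ok) (L (nat_lit 366) ln17_10_1 ln17_10_1_ok))))))))) (B (M (nat_lit 334) (B (M (nat_lit 305) (B (L (nat_lit 306) ln14_10_2_c10 ln14_10_2_c10_ok) (M (nat_lit 333) (B (L (nat_lit 304) ln13_10_2 ln13_10_2_ok) (M (nat_lit 365) (B (L (nat_lit 364) ln16_10_1 ln16_10_1_ok) (L (nat_lit 366) ln17_10_1 ln17_10_1_ok))))))) (B (M (nat_lit 338) (B (M (nat_lit 302) (B (L (nat_lit 301) ln17_10_3_c10 ln17_10_3_c10_ok) (L (nat_lit 303) ln18_10_3_c10 ln18_10_3_c10_ok))) (M (nat_lit 306) (B (L (nat_lit 305) ln14_10_2_c10 ln14_10_2_c10_ok)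 (L (nat_lit 307) ln15_10_2_c10 ln15_10_2_c10_ok))))) (M (nat_lit 338) (B (M (nat_lit 302) (B (L (nat_lit 301) ln17_10_3_c10 ln17_10_3_c10_ok) (L (nat_lit 303) ln18_10_3_c10 ln18_10_3_c10_ok))) (M (nat_lit 370) (B (L (nat_lit 369) ln14_10_0 ln14_10_0_ok) (L (nat_lit 371) ln15_10_0_c10 ln15_10_0_c10_ok)))))))) c10_d183))) (B (M (nat_lit 305) (B (M (nat_lit 304) (B (M (nat_lit 334) (B (M (nat_lit 335) (B (L (nat_lit 333) ln13_10_2 ln13_10_2_ok) (L (nat_lit 306) ln14_10_2_c10 ln14_10_2_c10_ok))) (M (nat_lit 399) (B (L (nat_lit 431) ln16_9_5 ln16_9_5_ok) (M (nat_lit 367) (B (L (nat_lit 272) ln16_8_5 ln16_8_5_ok) (M (nat_lit 401) (B (L (nat_lit 433) ln16_9_4_c10 ln16_9_4_c10_ok) (M (nat_lit 402) (B (L (nat_lit 403) ln19_12_3_c10 ln19_12_3_c10_ok) (L (nat_lit 366) ln18_12_3 ln18_12_3_ok))))))))))) (B (M (nat_lit 272) (B (M (nat_lit 399) (B (L (nat_lit 431) ln16_9_5 ln16_9_5_ok) (L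 (nat_lit 367) ln16_8_5 ln16_8_5_ok))) (B (M (nat_lit 240) (B (L (nat_lit 369) ln16_7_4_c10 ln16_7_4_c10_ok) (M (nat_lit 367) (B (L (nat_lit 399) ln16_8_5 ln16_8_5_ok) (L (nat_lit 335) ln16_7_5_c10 ln16_7_5_c10_ok))))) (M (nat_lit 240) (B (L (nat_lit 369) ln16_7_4_c10 ln16_7_4_c10_ok) (L (nat_lit 208) ln16_6_4_c10 ln16_6_4_c10_ok)))))) (B (M (nat_lit 399) (B (L (nat_lit 431) ln16_9_5 ln16_9_5_ok) (M (nat_lit 401) (B (L (nat_lit 433) ln16_9_4_c10 ln16_9_4_c10_ok) (M (nat_lit 402) (B (M (nat_lit 434) (B (L (nat_lit 435) ln15_12_0 ln15_12_0_ok) (L (nat_lit 369) ln17_9_4_c10 ln17_9_4_c10_ok))) (M (nat_lit 367) (B (L (nat_lit 403) ln19_12_3_c10 ln19_12_3_c10_ok) (L (nat_lit 366) ln18_12_3 ln18_12_3_ok))))))))) (M (nat_lit 401) (B (L (nat_lit 433) ln16_9_4_c10 ln16_9_4_c10_ok) (M (nat_lit 306) (B (M (nat_lit 307) (B (L (nat_lit 308) ln20_9_1_c10 ln20_9_1_c10_ok) (L (nat_lit 335) ln19_9_1_c10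 ln19_9_1_c10_ok))) (M (nat_lit 369) (B (L (nat_lit 274) ln17_12_6_c10 ln17_12_6_c10_ok) (L (nat_lit 272) ln16_8_4_c10 ln16_8_4_c10_ok))))))))))) (B (M (nat_lit 304) (B (L (nat_lit 273) ln16_12_6_c10 ln16_12_6_c10_ok) (M (nat_lit 399) (B (L (nat_lit 431) ln16_9_5 ln16_9_5_ok) (M (nat_lit 367) (B (L (nat_lit 272) ln16_8_5 ln16_8_5_ok) (M (nat_lit 401) (B (L (nat_lit 433) ln16_9_4_c10 ln16_9_4_c10_ok) (M (nat_lit 402) (B (L (nat_lit 403) ln19_12_3_c10 ln19_12_3_c10_ok) (L (nat_lit 366) ln18_12_3 ln18_12_3_ok))))))))))) (M (nat_lit 273) (B (L (nat_lit 241) ln17_7_5_c10 ln17_7_5_c10_ok) (L (nat_lit 369) ln17_8_5_c10 ln17_8_5_c10_ok)))))) c10_d185)))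
noncomputable def c10_d187 : Cert := (B (M (nat_lit 338) (B (M (nat_lit 335) (B (M (nat_lit 334) (B (M (nat_lit 306) (B (L (nat_lit 307) ln15_10_2_c10 ln15_10_2_c10_ok) (L (nat_lit 305) ln14_10_2_c10 ln14_10_2_c10_ok))) (M (nat_lit 366) (B (L (nat_lit 367) ln18_10_1 ln18_10_1_ok) (L (nat_lit 365) ln17_10_1 ln17_10_1_ok))))) (B (M (nat_lit 339) (B (L (nat_lit 367) ln19_10_1_c10 ln19_10_1_c10_ok) (M (nat_lit 303) (B (L (nat_lit 304) ln19_10_3_c10 ln19_10_3_c10_ok) (L (nat_lit 302) ln18_10_3_c10 ln18_10_3_c10_ok))))) (M (nat_lit 339) (B (M (nat_lit 307) (B (L (nat_lit 308) ln16_10_2_c10 ln16_10_2_c10_ok) (L (nat_lit 306) ln15_10_2_c10 ln15_10_2_c10_ok))) (M (nat_lit 303) (B (L (nat_lit 304) ln19_10_3_c10 ln19_10_3_c10_ok) (L (nat_lit 302) ln18_10_3_c10 ln18_10_3_c10_ok)))))))) (B (M (nat_lit 335) (B (M (nat_lit 334) (B (M (nat_lit 306) (B (L (nat_lit 307) ln15_10_2_c10 ln15_10_2_c10_ok)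 (L (nat_lit 305) ln14_10_2_c10 ln14_10_2_c10_ok))) (M (nat_lit 302) (B (L (nat_lit 303) ln18_10_3_c10 ln18_10_3_c10_ok) (L (nat_lit 301) ln17_10_3_c10 ln17_10_3_c10_ok))))) (M (nat_lit 339) (B (M (nat_lit 371) (B (L (nat_lit 372) ln16_10_0_c10 ln16_10_0_c10_ok) (L (nat_lit 370) ln15_10_0_c10 ln15_10_0_c10_ok))) (L (nat_lit 367) ln19_10_1_c10 ln19_10_1_c10_ok))))) c10_d180))) (B (M (nat_lit 338) c10_d181) (B (M (nat_lit 338) (B (M (nat_lit 339) (B (M (nat_lit 371) (B (L (nat_lit 372) ln16_10_0_c10 ln16_10_0_c10_ok) (M (nat_lit 335) (B (L (nat_lit 370) ln15_10_0_c10 ln15_10_0_c10_ok) (M (nat_lit 307) (B (L (nat_lit 308) ln16_10_2_c10 ln16_10_2_c10_ok) (L (nat_lit 306) ln15_10_2_c10 ln15_10_2_c10_ok))))))) (B (M (nat_lit 335) (B (M (nat_lit 371) (B (L (nat_lit 372) ln16_10_0_c10 ln16_10_0_c10_ok) (L (nat_lit 370) ln15_10_0_c10 ln15_10_0_c10_ok))) (M (nat_lit 303) (B (L (nat_lit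 304) ln19_10_3_c10 ln19_10_3_c10_ok) (L (nat_lit 302) ln18_10_3_c10 ln18_10_3_c10_ok))))) (B (M (nat_lit 335) (B (M (nat_lit 307) (B (L (nat_lit 308) ln16_10_2_c10 ln16_10_2_c10_ok) (L (nat_lit 306) ln15_10_2_c10 ln15_10_2_c10_ok))) (M (nat_lit 303) (B (L (nat_lit 304) ln19_10_3_c10 ln19_10_3_c10_ok) (L (nat_lit 302) ln18_10_3_c10 ln18_10_3_c10_ok))))) (M (nat_lit 340) (B (M (nat_lit 308) (B (L (nat_lit 309) ln17_10_2_c10 ln17_10_2_c10_ok) (L (nat_lit 307) ln16_10_2_c10 ln16_10_2_c10_ok))) (M (nat_lit 304) (B (L (nat_lit 305) ln20_10_3_c10 ln20_10_3_c10_ok) (L (nat_lit 303) ln19_10_3_c10 ln19_10_3_c10_ok))))))))) (B (M (nat_lit 339) (B (M (nat_lit 371) (B (L (nat_lit 372) ln16_10_0_c10 ln16_10_0_c10_ok) (M (nat_lit 335) (B (L (nat_lit 370) ln15_10_0_c10 ln15_10_0_c10_ok) (M (nat_lit 307) (B (L (nat_lit 308) ln16_10_2_c10 ln16_10_2_c10_ok) (L (nat_lit 306) ln15_10_2_c10 ln15_10_2_c10_ok)))))))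 (B (M (nat_lit 335) (B (M (nat_lit 371) (B (L (nat_lit 372) ln16_10_0_c10 ln16_10_0_c10_ok) (L (nat_lit 370) ln15_10_0_c10 ln15_10_0_c10_ok))) (M (nat_lit 303) (B (L (nat_lit 304) ln19_10_3_c10 ln19_10_3_c10_ok) (L (nat_lit 302) ln18_10_3_c10 ln18_10_3_c10_ok))))) (B (M (nat_lit 335) (B (M (nat_lit 307) (B (L (nat_lit 308) ln16_10_2_c10 ln16_10_2_c10_ok) (L (nat_lit 306) ln15_10_2_c10 ln15_10_2_c10_ok))) (M (nat_lit 303) (B (L (nat_lit 304) ln19_10_3_c10 ln19_10_3_c10_ok) (L (nat_lit 302) ln18_10_3_c10 ln18_10_3_c10_ok))))) (M (nat_lit 372) (B (L (nat_lit 371) ln16_10_0_c10 ln16_10_0_c10_ok) (M (nat_lit 340) (B (L (nat_lit 373) ln17_10_0_c10 ln17_10_0_c10_ok) (M (nat_lit 304) (B (L (nat_lit 305) ln20_10_3_c10 ln20_10_3_c10_ok) (L (nat_lit 303) ln19_10_3_c10 ln19_10_3_c10_ok))))))))))) (B (M (nat_lit 335) (B (M (nat_lit 334) (B (M (nat_lit 306) (B (L (nat_lit 307) ln15_10_2_c10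 ln15_10_2_c10_ok) (L (nat_lit 305) ln14_10_2_c10 ln14_10_2_c10_ok))) (M (nat_lit 370) (B (L (nat_lit 371) ln15_10_0_c10 ln15_10_0_c10_ok) (L (nat_lit 369) ln14_10_0 ln14_10_0_ok))))) (B (M (nat_lit 334) (B (M (nat_lit 370) (B (L (nat_lit 371) ln15_10_0_c10 ln15_10_0_c10_ok) (L (nat_lit 369) ln14_10_0 ln14_10_0_ok))) (M (nat_lit 302) (B (L (nat_lit 303) ln18_10_3_c10 ln18_10_3_c10_ok) (L (nat_lit 301) ln17_10_3_c10 ln17_10_3_c10_ok))))) (B (M (nat_lit 334) (B (M (nat_lit 306) (B (L (nat_lit 307) ln15_10_2_c10 ln15_10_2_c10_ok) (L (nat_lit 305) ln14_10_2_c10 ln14_10_2_c10_ok))) (M (nat_lit 302) (B (L (nat_lit 303) ln18_10_3_c10 ln18_10_3_c10_ok) (L (nat_lit 301) ln17_10_3_c10 ln17_10_3_c10_ok))))) (M (nat_lit 339) (B (M (nat_lit 371) (B (L (nat_lit 372) ln16_10_0_c10 ln16_10_0_c10_ok) (L (nat_lit 370) ln15_10_0_c10 ln15_10_0_c10_ok))) (M (nat_lit 303) (B (L (nat_lit 304) ln19_10_3_c10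 ln19_10_3_c10_ok) (L (nat_lit 302) ln18_10_3_c10 ln18_10_3_c10_ok))))))))) (B (M (nat_lit 335) (B (M (nat_lit 334) (B (M (nat_lit 306) (B (L (nat_lit 307) ln15_10_2_c10 ln15_10_2_c10_ok) (L (nat_lit 305) ln14_10_2_c10 ln14_10_2_c10_ok))) (M (nat_lit 370) (B (L (nat_lit 371) ln15_10_0_c10 ln15_10_0_c10_ok) (L (nat_lit 369) ln14_10_0 ln14_10_0_ok))))) (B (M (nat_lit 334) (B (M (nat_lit 370) (B (L (nat_lit 371) ln15_10_0_c10 ln15_10_0_c10_ok) (L (nat_lit 369) ln14_10_0 ln14_10_0_ok))) (M (nat_lit 302) (B (L (nat_lit 303) ln18_10_3_c10 ln18_10_3_c10_ok) (L (nat_lit 301) ln17_10_3_c10 ln17_10_3_c10_ok))))) (B (M (nat_lit 334) (B (M (nat_lit 306) (B (L (nat_lit 307) ln15_10_2_c10 ln15_10_2_c10_ok) (L (nat_lit 305) ln14_10_2_c10 ln14_10_2_c10_ok))) (M (nat_lit 302) (B (L (nat_lit 303) ln18_10_3_c10 ln18_10_3_c10_ok) (L (nat_lit 301) ln17_10_3_c10 ln17_10_3_c10_ok))))) (M (nat_lit 303)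 (B (L (nat_lit 302) ln18_10_3_c10 ln18_10_3_c10_ok) (M (nat_lit 307) (B (L (nat_lit 306) ln15_10_2_c10 ln15_10_2_c10_ok) (M (nat_lit 339) (B (L (nat_lit 308) ln16_10_2_c10 ln16_10_2_c10_ok) (L (nat_lit 304) ln19_10_3_c10 ln19_10_3_c10_ok))))))))))) (B (M (nat_lit 339) (B (M (nat_lit 372) (B (L (nat_lit 371) ln16_10_0_c10 ln16_10_0_c10_ok) (M (nat_lit 340) (B (L (nat_lit 373) ln17_10_0_c10 ln17_10_0_c10_ok) (M (nat_lit 304) (B (L (nat_lit 305) ln20_10_3_c10 ln20_10_3_c10_ok) (L (nat_lit 303) ln19_10_3_c10 ln19_10_3_c10_ok))))))) (B (M (nat_lit 335) (B (M (nat_lit 371) (B (L (nat_lit 372) ln16_10_0_c10 ln16_10_0_c10_ok) (L (nat_lit 370) ln15_10_0_c10 ln15_10_0_c10_ok))) (M (nat_lit 303) (B (L (nat_lit 304) ln19_10_3_c10 ln19_10_3_c10_ok) (L (nat_lit 302) ln18_10_3_c10 ln18_10_3_c10_ok))))) (B (M (nat_lit 340) (B (M (nat_lit 304) (B (L (nat_lit 305) ln20_10_3_c10 ln20_10_3_c10_ok)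 (L (nat_lit 303) ln19_10_3_c10 ln19_10_3_c10_ok))) (M (nat_lit 341) (B (M (nat_lit 309) (B (L (nat_lit 310) ln18_10_2_c10 ln18_10_2_c10_ok) (L (nat_lit 308) ln17_10_2_c10 ln17_10_2_c10_ok))) (L (nat_lit 369) ln20_10_1_c10 ln20_10_1_c10_ok))))) (M (nat_lit 340) (B (M (nat_lit 372) (B (L (nat_lit 373) ln17_10_0_c10 ln17_10_0_c10_ok) (L (nat_lit 371) ln16_10_0_c10 ln16_10_0_c10_ok))) (M (nat_lit 341) (B (M (nat_lit 309) (B (L (nat_lit 310) ln18_10_2_c10 ln18_10_2_c10_ok) (L (nat_lit 308) ln17_10_2_c10 ln17_10_2_c10_ok))) (L (nat_lit 369) ln20_10_1_c10 ln20_10_1_c10_ok))))))))) c10_d182)))))) c10_d186)))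
theorem c10_s442 : Sem (nat_lit 179013548899091572664880704632125070351178483776869792081567471134133893275381443703448547274002942502357299559844771833273549034029583201001438969856) (nat_lit 2045869131364111748514517779497426358600440519818490081615295990022531031820367305063258762928339882296461372854094039967494916873046605988043524407296) (nat_lit 2045869131364111748514517779497426358600440519818490081615295990022531031820367305063258762928339882296461372854094039967494916873046605988043524407296) :=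
  sem_of_chk (M (nat_lit 337) c10_d187) (nat_lit 179013548899091572664880704632125070351178483776869792081567471134133893275381443703448547274002942502357299559844771833273549034029583201001438969856) (nat_lit 2045869131364111748514517779497426358600440519818490081615295990022531031820367305063258762928339882296461372854094039967494916873046605988043524407296) (nat_lit 2045869131364111748514517779497426358600440519818490081615295990022531031820367305063258762928339882296461372854094039967494916873046605988043524407296) (by decide +kernel)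
noncomputable def c10_d188 : Cert := (B (M (nat_lit 464) (B (M (nat_lit 496) (B (M (nat_lit 495) (B (L (nat_lit 527) ln16_12_5_c10 ln16_12_5_c10_ok) (L (nat_lit 463) ln16_11_5_c10 ln16_11_5_c10_ok))) (M (nat_lit 497) (B (L (nat_lit 529) ln16_12_4 ln16_12_4_ok) (L (nat_lit 465) ln16_11_4 ln16_11_4_ok))))) (B (M (nat_lit 465) (B (L (nat_lit 497) ln16_11_4 ln16_11_4_ok) (M (nat_lit 433) (B (L (nat_lit 336) ln16_10_4_c10 ln16_10_4_c10_ok) (M (nat_lit 463) (B (L (nat_lit 495) ln16_11_5_c10 ln16_11_5_c10_ok) (L (nat_lit 462) ln13_14_2 ln13_14_2_ok))))))) (B (M (nat_lit 496) (B (M (nat_lit 497) (B (L (nat_lit 529) ln16_12_4 ln16_12_4_ok) (L (nat_lit 465) ln16_11_4 ln16_11_4_ok))) (B (M (nat_lit 433) (B (M (nat_lit 401) (B (L (nat_lit 528) ln16_16_6_c10 ln16_16_6_c10_ok) (L (nat_lit 369) ln16_15_6_c10 ln16_15_6_c10_ok))) (M (nat_lit 465) (B (L (nat_lit 497) ln16_11_4 ln16_11_4_ok) (L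 (nat_lit 336) ln16_10_4_c10 ln16_10_4_c10_ok))))) (M (nat_lit 528) (B (M (nat_lit 401) (B (L (nat_lit 433) ln16_16_6_c10 ln16_16_6_c10_ok) (L (nat_lit 369) ln16_15_6_c10 ln16_15_6_c10_ok))) (M (nat_lit 560) (B (M (nat_lit 559) (B (L (nat_lit 591) ln16_14_5_c10 ln16_14_5_c10_ok) (L (nat_lit 527) ln16_13_5_c10 ln16_13_5_c10_ok))) (M (nat_lit 561) (B (L (nat_lit 593) ln16_14_4_c10 ln16_14_4_c10_ok) (L (nat_lit 529) ln16_13_4_c10 ln16_13_4_c10_ok)))))))))) (B (M (nat_lit 496) (B (M (nat_lit 495) (B (L (nat_lit 527) ln16_12_5_c10 ln16_12_5_c10_ok) (L (nat_lit 463) ln16_11_5_c10 ln16_11_5_c10_ok))) (M (nat_lit 401) (B (L (nat_lit 369) ln16_15_6_c10 ln16_15_6_c10_ok) (M (nat_lit 433) (B (L (nat_lit 528) ln16_16_6_c10 ln16_16_6_c10_ok) (M (nat_lit 336) (B (L (nat_lit 465) ln16_10_4_c10 ln16_10_4_c10_ok) (L (nat_lit 304) ln16_9_4_c10 ln16_9_4_c10_ok))))))))) (M (nat_lit 496) (B (M (nat_lit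 495) (B (L (nat_lit 527) ln16_12_5_c10 ln16_12_5_c10_ok) (L (nat_lit 463) ln16_11_5_c10 ln16_11_5_c10_ok))) (M (nat_lit 528) (B (M (nat_lit 529) (B (L (nat_lit 561) ln16_13_4_c10 ln16_13_4_c10_ok) (L (nat_lit 497) ln16_12_4 ln16_12_4_ok))) (M (nat_lit 401) (B (L (nat_lit 433) ln16_16_6_c10 ln16_16_6_c10_ok) (L (nat_lit 369) ln16_15_6_c10 ln16_15_6_c10_ok)))))))))))) (M (nat_lit 336) (B (M (nat_lit 304) (B (M (nat_lit 271) (B (L (nat_lit 303) ln16_12_7_c10 ln16_12_7_c10_ok) (M (nat_lit 272) (B (L (nat_lit 239) ln16_11_7_c10 ln16_11_7_c10_ok) (M (nat_lit 273) (B (L (nat_lit 305) ln16_12_6_c10 ln16_12_6_c10_ok) (L (nat_lit 241) ln16_11_6_c10 ln16_11_6_c10_ok))))))) (B (M (nat_lit 272) (B (M (nat_lit 401) (B (L (nat_lit 433) ln16_9_4_c10 ln16_9_4_c10_ok) (L (nat_lit 369) ln16_8_4_c10 ln16_8_4_c10_ok))) (M (nat_lit 273) (B (L (nat_lit 305) ln16_12_6_c10 ln16_12_6_c10_ok) (L (nat_lit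 241) ln16_11_6_c10 ln16_11_6_c10_ok))))) (B (M (nat_lit 272) (B (M (nat_lit 401) (B (L (nat_lit 433) ln16_9_4_c10 ln16_9_4_c10_ok) (L (nat_lit 369) ln16_8_4_c10 ln16_8_4_c10_ok))) (M (nat_lit 271) (B (L (nat_lit 303) ln16_12_7_c10 ln16_12_7_c10_ok) (L (nat_lit 239) ln16_11_7_c10 ln16_11_7_c10_ok))))) (M (nat_lit 433) (B (L (nat_lit 465) ln16_10_4_c10 ln16_10_4_c10_ok) (L (nat_lit 401) ln16_9_4_c10 ln16_9_4_c10_ok))))))) (B (M (nat_lit 305) (B (M (nat_lit 273) (B (L (nat_lit 304) ln16_12_6_c10 ln16_12_6_c10_ok) (L (nat_lit 337) ln16_13_6_c10 ln16_13_6_c10_ok))) (B (M (nat_lit 335) (B (L (nat_lit 337) ln16_13_6_c10 ln16_13_6_c10_ok) (L (nat_lit 303) ln16_13_7 ln16_13_7_ok))) (M (nat_lit 304) (B (L (nat_lit 273) ln16_12_6_c10 ln16_12_6_c10_ok) (M (nat_lit 303) (B (L (nat_lit 271) ln16_12_7_c10 ln16_12_7_c10_ok) (L (nat_lit 335) ln16_13_7 ln16_13_7_ok)))))))) (B (M (nat_lit 304)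 (B (M (nat_lit 303) (B (L (nat_lit 271) ln16_12_7_c10 ln16_12_7_c10_ok) (L (nat_lit 335) ln16_13_7 ln16_13_7_ok))) (M (nat_lit 433) (B (L (nat_lit 401) ln16_9_4_c10 ln16_9_4_c10_ok) (L (nat_lit 465) ln16_10_4_c10 ln16_10_4_c10_ok))))) (B (M (nat_lit 304) (B (M (nat_lit 433) (B (L (nat_lit 465) ln16_10_4_c10 ln16_10_4_c10_ok) (L (nat_lit 401) ln16_9_4_c10 ln16_9_4_c10_ok))) (M (nat_lit 305) (B (L (nat_lit 337) ln16_13_6_c10 ln16_13_6_c10_ok) (L (nat_lit 273) ln16_12_6_c10 ln16_12_6_c10_ok))))) (M (nat_lit 337) (B (L (nat_lit 305) ln16_13_6_c10 ln16_13_6_c10_ok) (M (nat_lit 335) (B (L (nat_lit 303) ln16_13_7 ln16_13_7_ok) (M (nat_lit 338) (B (M (nat_lit 371) (B (L (nat_lit 370) ln15_10_0_c10 ln15_10_0_c10_ok) (M (nat_lit 339) (B (L (nat_lit 372) ln16_10_0_c10 ln16_10_0_c10_ok) (M (nat_lit 307) (B (L (nat_lit 308) ln16_10_2_c10 ln16_10_2_c10_ok) (L (nat_lit 306) ln15_10_2_c10 ln15_10_2_c10_ok)))))))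 (B (M (nat_lit 369) (B (M (nat_lit 370) (B (L (nat_lit 371) ln15_10_0_c10 ln15_10_0_c10_ok) (L (nat_lit 334) ln14_10_0 ln14_10_0_ok))) (B (M (nat_lit 334) (B (L (nat_lit 370) ln14_10_0 ln14_10_0_ok) (L (nat_lit 333) ln13_10_0 ln13_10_0_ok))) (M (nat_lit 433) (B (L (nat_lit 465) ln16_10_4_c10 ln16_10_4_c10_ok) (M (nat_lit 306) (B (L (nat_lit 307) ln15_10_2_c10 ln15_10_2_c10_ok) (L (nat_lit 401) ln17_13_6_c10 ln17_13_6_c10_ok)))))))) (B (M (nat_lit 339) (B (M (nat_lit 371) (B (L (nat_lit 372) ln16_10_0_c10 ln16_10_0_c10_ok) (L (nat_lit 370) ln15_10_0_c10 ln15_10_0_c10_ok))) (B (M (nat_lit 369) (B (L (nat_lit 340) ln20_10_1_c10 ln20_10_1_c10_ok) (M (nat_lit 370) (B (L (nat_lit 371) ln15_10_0_c10 ln15_10_0_c10_ok) (L (nat_lit 334) ln14_10_0 ln14_10_0_ok))))) (B (M (nat_lit 369) (B (L (nat_lit 340) ln20_10_1_c10 ln20_10_1_c10_ok) (M (nat_lit 334) (B (L (nat_lit 370) ln14_10_0 ln14_10_0_ok)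 (L (nat_lit 333) ln13_10_0 ln13_10_0_ok))))) (M (nat_lit 340) (B (L (nat_lit 369) ln20_10_1_c10 ln20_10_1_c10_ok) (M (nat_lit 372) (B (L (nat_lit 373) ln17_10_0_c10 ln17_10_0_c10_ok) (L (nat_lit 371) ln16_10_0_c10 ln16_10_0_c10_ok))))))))) (B (M (nat_lit 369) (B (M (nat_lit 334) (B (L (nat_lit 370) ln14_10_0 ln14_10_0_ok) (L (nat_lit 333) ln13_10_0 ln13_10_0_ok))) (M (nat_lit 433) (B (L (nat_lit 465) ln16_10_4_c10 ln16_10_4_c10_ok) (M (nat_lit 306) (B (L (nat_lit 307) ln15_10_2_c10 ln15_10_2_c10_ok) (L (nat_lit 401) ln17_13_6_c10 ln17_13_6_c10_ok))))))) (M (nat_lit 339) (B (M (nat_lit 307) (B (L (nat_lit 308) ln16_10_2_c10 ln16_10_2_c10_ok) (L (nat_lit 306) ln15_10_2_c10 ln15_10_2_c10_ok))) (M (nat_lit 340) (B (L (nat_lit 369) ln20_10_1_c10 ln20_10_1_c10_ok) (M (nat_lit 372) (B (L (nat_lit 373) ln17_10_0_c10 ln17_10_0_c10_ok) (L (nat_lit 371) ln16_10_0_c10 ln16_10_0_c10_ok))))))))))))))))))))))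
noncomputable def c10_d189 : Cert := (B (K (nat_lit 76720092378520087920340758794032566832750102927023722811823154430897300509389698573281997173830098519712397343491538799582227505527632027146382213120) (nat_lit 2196735251957849304438208649017641559392029326985370691105306233111258530711350609297405767942475809931108329452719594914250420173752951335705929365853483040768) (nat_lit 2196735251957849304438208649017641559392029326985370691105306233111258530711350609297405767942475809931108329452719594914250420173752951335705929365853483040768) c10_s452) (B (M (nat_lit 336) (B (M (nat_lit 304) (B (M (nat_lit 433) (B (L (nat_lit 465) ln16_10_4_c10 ln16_10_4_c10_ok) (L (nat_lit 401) ln16_9_4_c10 ln16_9_4_c10_ok))) (M (nat_lit 303) (B (L (nat_lit 335) ln16_13_7 ln16_13_7_ok) (L (nat_lit 271) ln16_12_7_c10 ln16_12_7_c10_ok))))) (B (M (nat_lit 305) (B (L (nat_lit 337) ln16_13_6_c10 ln16_13_6_c10_ok)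 (M (nat_lit 304) (B (L (nat_lit 273) ln16_12_6_c10 ln16_12_6_c10_ok) (M (nat_lit 303) (B (L (nat_lit 335) ln16_13_7 ln16_13_7_ok) (L (nat_lit 271) ln16_12_7_c10 ln16_12_7_c10_ok))))))) (B (M (nat_lit 304) (B (M (nat_lit 433) (B (L (nat_lit 465) ln16_10_4_c10 ln16_10_4_c10_ok) (L (nat_lit 401) ln16_9_4_c10 ln16_9_4_c10_ok))) (M (nat_lit 305) (B (L (nat_lit 337) ln16_13_6_c10 ln16_13_6_c10_ok) (L (nat_lit 273) ln16_12_6_c10 ln16_12_6_c10_ok))))) (M (nat_lit 464) (B (M (nat_lit 465) (B (L (nat_lit 497) ln16_11_4 ln16_11_4_ok) (L (nat_lit 433) ln16_10_4_c10 ln16_10_4_c10_ok))) (M (nat_lit 337) (B (L (nat_lit 369) ln16_14_6_c10 ln16_14_6_c10_ok) (L (nat_lit 305) ln16_13_6_c10 ln16_13_6_c10_ok))))))))) (B (M (nat_lit 336) (B (M (nat_lit 304) (B (M (nat_lit 303) (B (L (nat_lit 271) ln16_12_7_c10 ln16_12_7_c10_ok) (L (nat_lit 335) ln16_13_7 ln16_13_7_ok))) (M (nat_lit 305) (B (L (nat_lit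 273) ln16_12_6_c10 ln16_12_6_c10_ok) (L (nat_lit 337) ln16_13_6_c10 ln16_13_6_c10_ok))))) (B (M (nat_lit 464) (B (M (nat_lit 337) (B (L (nat_lit 305) ln16_13_6_c10 ln16_13_6_c10_ok) (L (nat_lit 369) ln16_14_6_c10 ln16_14_6_c10_ok))) (M (nat_lit 463) (B (L (nat_lit 431) ln16_10_5 ln16_10_5_ok) (L (nat_lit 495) ln16_11_5_c10 ln16_11_5_c10_ok))))) (B (M (nat_lit 369) (B (M (nat_lit 463) (B (L (nat_lit 431) ln16_10_5 ln16_10_5_ok) (M (nat_lit 464) (B (L (nat_lit 337) ln16_14_6_c10 ln16_14_6_c10_ok) (L (nat_lit 495) ln16_11_5_c10 ln16_11_5_c10_ok))))) (M (nat_lit 304) (B (M (nat_lit 303) (B (L (nat_lit 271) ln16_12_7_c10 ln16_12_7_c10_ok) (L (nat_lit 335) ln16_13_7 ln16_13_7_ok))) (M (nat_lit 401) (B (L (nat_lit 272) ln16_8_4_c10 ln16_8_4_c10_ok) (L (nat_lit 433) ln16_9_4_c10 ln16_9_4_c10_ok))))))) (M (nat_lit 304) (B (M (nat_lit 303) (B (L (nat_lit 271) ln16_12_7_c10 ln16_12_7_c10_ok)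 (L (nat_lit 335) ln16_13_7 ln16_13_7_ok))) (M (nat_lit 272) (B (M (nat_lit 273) (B (L (nat_lit 241) ln16_11_6_c10 ln16_11_6_c10_ok) (L (nat_lit 305) ln16_12_6_c10 ln16_12_6_c10_ok))) (M (nat_lit 401) (B (L (nat_lit 369) ln16_8_4_c10 ln16_8_4_c10_ok) (L (nat_lit 433) ln16_9_4_c10 ln16_9_4_c10_ok))))))))))) (B (M (nat_lit 464) (B (M (nat_lit 496) (B (M (nat_lit 369) (B (L (nat_lit 337) ln16_14_6_c10 ln16_14_6_c10_ok) (L (nat_lit 401) ln16_15_6_c10 ln16_15_6_c10_ok))) (M (nat_lit 497) (B (L (nat_lit 465) ln16_11_4 ln16_11_4_ok) (L (nat_lit 529) ln16_12_4 ln16_12_4_ok))))) (B (M (nat_lit 496) (B (M (nat_lit 497) (B (L (nat_lit 465) ln16_11_4 ln16_11_4_ok) (L (nat_lit 529) ln16_12_4 ln16_12_4_ok))) (M (nat_lit 495) (B (L (nat_lit 463) ln16_11_5_c10 ln16_11_5_c10_ok) (L (nat_lit 527) ln16_12_5_c10 ln16_12_5_c10_ok))))) (B (M (nat_lit 496) (B (M (nat_lit 369) (B (L (nat_lit 337) ln16_14_6_c10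 ln16_14_6_c10_ok) (L (nat_lit 401) ln16_15_6_c10 ln16_15_6_c10_ok))) (M (nat_lit 495) (B (L (nat_lit 463) ln16_11_5_c10 ln16_11_5_c10_ok) (L (nat_lit 527) ln16_12_5_c10 ln16_12_5_c10_ok))))) (M (nat_lit 336) (B (M (nat_lit 465) (B (L (nat_lit 433) ln16_10_4_c10 ln16_10_4_c10_ok) (L (nat_lit 497) ln16_11_4 ln16_11_4_ok))) (M (nat_lit 463) (B (L (nat_lit 431) ln16_10_5 ln16_10_5_ok) (L (nat_lit 495) ln16_11_5_c10 ln16_11_5_c10_ok))))))))) (B (M (nat_lit 464) (B (M (nat_lit 497) (B (L (nat_lit 465) ln16_11_4 ln16_11_4_ok) (M (nat_lit 496) (B (L (nat_lit 529) ln16_12_4 ln16_12_4_ok) (M (nat_lit 495) (B (L (nat_lit 527) ln16_12_5_c10 ln16_12_5_c10_ok) (L (nat_lit 463) ln16_11_5_c10 ln16_11_5_c10_ok))))))) (B (M (nat_lit 496) (B (M (nat_lit 497) (B (L (nat_lit 529) ln16_12_4 ln16_12_4_ok) (L (nat_lit 465) ln16_11_4 ln16_11_4_ok))) (M (nat_lit 369) (B (L (nat_lit 401) ln16_15_6_c10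 ln16_15_6_c10_ok) (L (nat_lit 337) ln16_14_6_c10 ln16_14_6_c10_ok))))) (B (M (nat_lit 465) (B (L (nat_lit 497) ln16_11_4 ln16_11_4_ok) (M (nat_lit 466) (B (M (nat_lit 467) (B (L (nat_lit 431) ln19_14_3_c10 ln19_14_3_c10_ok) (M (nat_lit 468) (B (L (nat_lit 433) ln20_14_3_c10 ln20_14_3_c10_ok) (M (nat_lit 500) (B (L (nat_lit 499) ln16_14_0_c10 ln16_14_0_c10_ok) (L (nat_lit 501) ln17_14_0_c10 ln17_14_0_c10_ok))))))) (B (M (nat_lit 467) (B (M (nat_lit 463) (B (L (nat_lit 495) ln16_11_5_c10 ln16_11_5_c10_ok) (M (nat_lit 499) (B (L (nat_lit 498) ln15_14_0_c10 ln15_14_0_c10_ok) (L (nat_lit 500) ln16_14_0_c10 ln16_14_0_c10_ok))))) (B (M (nat_lit 468) (B (L (nat_lit 433) ln20_14_3_c10 ln20_14_3_c10_ok) (M (nat_lit 500) (B (L (nat_lit 499) ln16_14_0_c10 ln16_14_0_c10_ok) (L (nat_lit 501) ln17_14_0_c10 ln17_14_0_c10_ok))))) (M (nat_lit 463) (B (L (nat_lit 495) ln16_11_5_c10 ln16_11_5_c10_ok)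 (M (nat_lit 435) (B (L (nat_lit 434) ln15_14_2_c10 ln15_14_2_c10_ok) (L (nat_lit 436) ln16_14_2_c10 ln16_14_2_c10_ok)))))))) (B (M (nat_lit 467) (B (L (nat_lit 431) ln19_14_3_c10 ln19_14_3_c10_ok) (M (nat_lit 463) (B (L (nat_lit 495) ln16_11_5_c10 ln16_11_5_c10_ok) (M (nat_lit 435) (B (L (nat_lit 434) ln15_14_2_c10 ln15_14_2_c10_ok) (L (nat_lit 436) ln16_14_2_c10 ln16_14_2_c10_ok))))))) (M (nat_lit 463) (B (L (nat_lit 495) ln16_11_5_c10 ln16_11_5_c10_ok) (M (nat_lit 433) (B (M (nat_lit 434) (B (L (nat_lit 462) ln13_14_2 ln13_14_2_ok) (L (nat_lit 435) ln19_13_1_c10 ln19_13_1_c10_ok))) (M (nat_lit 369) (B (L (nat_lit 337) ln16_14_6_c10 ln16_14_6_c10_ok) (M (nat_lit 498) (B (L (nat_lit 499) ln15_14_0_c10 ln15_14_0_c10_ok) (L (nat_lit 401) ln17_11_4_c10 ln17_11_4_c10_ok))))))))))))))) (M (nat_lit 496) (B (M (nat_lit 495) (B (L (nat_lit 527) ln16_12_5_c10 ln16_12_5_c10_ok) (L (nat_lit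 463) ln16_11_5_c10 ln16_11_5_c10_ok))) (M (nat_lit 369) (B (L (nat_lit 401) ln16_15_6_c10 ln16_15_6_c10_ok) (L (nat_lit 337) ln16_14_6_c10 ln16_14_6_c10_ok))))))))) c10_d188)))))
noncomputable def c10_d190 : Cert := (B (M (nat_lit 336) (B (M (nat_lit 305) (B (L (nat_lit 337) ln16_13_6_c10 ln16_13_6_c10_ok) (M (nat_lit 304) (B (L (nat_lit 273) ln16_12_6_c10 ln16_12_6_c10_ok) (M (nat_lit 303) (B (L (nat_lit 271) ln16_12_7_c10 ln16_12_7_c10_ok) (L (nat_lit 335) ln16_13_7 ln16_13_7_ok))))))) (B (M (nat_lit 304) (B (M (nat_lit 305) (B (L (nat_lit 273) ln16_12_6_c10 ln16_12_6_c10_ok) (L (nat_lit 337) ln16_13_6_c10 ln16_13_6_c10_ok))) (M (nat_lit 433) (B (L (nat_lit 401) ln16_9_4_c10 ln16_9_4_c10_ok) (L (nat_lit 465) ln16_10_4_c10 ln16_10_4_c10_ok))))) (B (M (nat_lit 337) (B (L (nat_lit 305) ln16_13_6_c10 ln16_13_6_c10_ok) (M (nat_lit 338) (B (M (nat_lit 339) (B (L (nat_lit 367) ln19_10_1_c10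 ln19_10_1_c10_ok) (M (nat_lit 340) (B (L (nat_lit 369) ln20_10_1_c10 ln20_10_1_c10_ok) (M (nat_lit 308) (B (L (nat_lit 307) ln16_10_2_c10 ln16_10_2_c10_ok) (L (nat_lit 309) ln17_10_2_c10 ln17_10_2_c10_ok))))))) (B (M (nat_lit 339) (B (M (nat_lit 335) (B (L (nat_lit 303) ln16_13_7 ln16_13_7_ok) (M (nat_lit 307) (B (L (nat_lit 306) ln15_10_2_c10 ln15_10_2_c10_ok) (L (nat_lit 308) ln16_10_2_c10 ln16_10_2_c10_ok))))) (B (M (nat_lit 340) (B (L (nat_lit 369) ln20_10_1_c10 ln20_10_1_c10_ok) (M (nat_lit 308) (B (L (nat_lit 307) ln16_10_2_c10 ln16_10_2_c10_ok) (L (nat_lit 309) ln17_10_2_c10 ln17_10_2_c10_ok))))) (M (nat_lit 335) (B (L (nat_lit 303) ln16_13_7 ln16_13_7_ok) (M (nat_lit 371) (B (L (nat_lit 370) ln15_10_0_c10 ln15_10_0_c10_ok) (L (nat_lit 372) ln16_10_0_c10 ln16_10_0_c10_ok)))))))) (B (M (nat_lit 339) (B (L (nat_lit 367) ln19_10_1_c10 ln19_10_1_c10_ok) (M (nat_lit 335) (B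 (L (nat_lit 303) ln16_13_7 ln16_13_7_ok) (M (nat_lit 371) (B (L (nat_lit 370) ln15_10_0_c10 ln15_10_0_c10_ok) (L (nat_lit 372) ln16_10_0_c10 ln16_10_0_c10_ok))))))) (M (nat_lit 335) (B (L (nat_lit 303) ln16_13_7 ln16_13_7_ok) (M (nat_lit 369) (B (M (nat_lit 370) (B (L (nat_lit 334) ln14_10_0 ln14_10_0_ok) (L (nat_lit 371) ln15_10_0_c10 ln15_10_0_c10_ok))) (M (nat_lit 433) (B (L (nat_lit 465) ln16_10_4_c10 ln16_10_4_c10_ok) (M (nat_lit 306) (B (L (nat_lit 307) ln15_10_2_c10 ln15_10_2_c10_ok) (L (nat_lit 401) ln17_13_6_c10 ln17_13_6_c10_ok))))))))))))))) (M (nat_lit 304) (B (M (nat_lit 303) (B (L (nat_lit 271) ln16_12_7_c10 ln16_12_7_c10_ok) (L (nat_lit 335) ln16_13_7 ln16_13_7_ok))) (M (nat_lit 433) (B (L (nat_lit 401) ln16_9_4_c10 ln16_9_4_c10_ok) (L (nat_lit 465) ln16_10_4_c10 ln16_10_4_c10_ok))))))))) (B (M (nat_lit 336) (B (M (nat_lit 304) (B (M (nat_lit 303) (B (L (nat_lit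 271) ln16_12_7_c10 ln16_12_7_c10_ok) (L (nat_lit 335) ln16_13_7 ln16_13_7_ok))) (M (nat_lit 305) (B (L (nat_lit 273) ln16_12_6_c10 ln16_12_6_c10_ok) (L (nat_lit 337) ln16_13_6_c10 ln16_13_6_c10_ok))))) (B (M (nat_lit 337) (B (L (nat_lit 305) ln16_13_6_c10 ln16_13_6_c10_ok) (M (nat_lit 369) (B (L (nat_lit 464) ln16_14_6_c10 ln16_14_6_c10_ok) (M (nat_lit 335) (B (L (nat_lit 303) ln16_13_7 ln16_13_7_ok) (M (nat_lit 334) (B (L (nat_lit 333) ln13_10_0 ln13_10_0_ok) (L (nat_lit 370) ln14_10_0 ln14_10_0_ok))))))))) (B (M (nat_lit 304) (B (M (nat_lit 305) (B (L (nat_lit 273) ln16_12_6_c10 ln16_12_6_c10_ok) (L (nat_lit 337) ln16_13_6_c10 ln16_13_6_c10_ok))) (B (M (nat_lit 369) (B (M (nat_lit 401) (B (L (nat_lit 272) ln16_8_4_c10 ln16_8_4_c10_ok) (L (nat_lit 433) ln16_9_4_c10 ln16_9_4_c10_ok))) (M (nat_lit 337) (B (L (nat_lit 305) ln16_13_6_c10 ln16_13_6_c10_ok) (L (nat_lit 464) ln16_14_6_c10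 ln16_14_6_c10_ok))))) (M (nat_lit 272) (B (M (nat_lit 401) (B (L (nat_lit 369) ln16_8_4_c10 ln16_8_4_c10_ok) (L (nat_lit 433) ln16_9_4_c10 ln16_9_4_c10_ok))) (M (nat_lit 240) (B (M (nat_lit 239) (B (L (nat_lit 207) ln16_10_7_c10 ln16_10_7_c10_ok) (L (nat_lit 271) ln16_11_7_c10 ln16_11_7_c10_ok))) (M (nat_lit 241) (B (L (nat_lit 209) ln16_10_6_c10 ln16_10_6_c10_ok) (L (nat_lit 273) ln16_11_6_c10 ln16_11_6_c10_ok)))))))))) (B (M (nat_lit 304) (B (M (nat_lit 303) (B (L (nat_lit 271) ln16_12_7_c10 ln16_12_7_c10_ok) (L (nat_lit 335) ln16_13_7 ln16_13_7_ok))) (M (nat_lit 401) (B (L (nat_lit 433) ln16_9_4_c10 ln16_9_4_c10_ok) (M (nat_lit 369) (B (L (nat_lit 272) ln16_8_4_c10 ln16_8_4_c10_ok) (M (nat_lit 464) (B (L (nat_lit 337) ln16_14_6_c10 ln16_14_6_c10_ok) (L (nat_lit 496) ln16_15_6_c10 ln16_15_6_c10_ok))))))))) (M (nat_lit 304) (B (M (nat_lit 303) (B (L (nat_lit 271) ln16_12_7_c10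 ln16_12_7_c10_ok) (L (nat_lit 335) ln16_13_7 ln16_13_7_ok))) (M (nat_lit 272) (B (M (nat_lit 273) (B (L (nat_lit 241) ln16_11_6_c10 ln16_11_6_c10_ok) (L (nat_lit 305) ln16_12_6_c10 ln16_12_6_c10_ok))) (M (nat_lit 401) (B (L (nat_lit 369) ln16_8_4_c10 ln16_8_4_c10_ok) (L (nat_lit 433) ln16_9_4_c10 ln16_9_4_c10_ok)))))))))))) (M (nat_lit 464) (B (M (nat_lit 496) (B (M (nat_lit 527) (B (L (nat_lit 495) ln16_12_5_c10 ln16_12_5_c10_ok) (M (nat_lit 528) (B (L (nat_lit 559) ln16_13_5_c10 ln16_13_5_c10_ok) (M (nat_lit 529) (B (L (nat_lit 497) ln16_12_4 ln16_12_4_ok) (L (nat_lit 561) ln16_13_4_c10 ln16_13_4_c10_ok))))))) (B (M (nat_lit 528) (B (M (nat_lit 401) (B (L (nat_lit 369) ln16_15_6_c10 ln16_15_6_c10_ok) (L (nat_lit 433) ln16_16_6_c10 ln16_16_6_c10_ok))) (M (nat_lit 529) (B (L (nat_lit 497) ln16_12_4 ln16_12_4_ok) (L (nat_lit 561) ln16_13_4_c10 ln16_13_4_c10_ok))))) (B (M (nat_lit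 528) (B (M (nat_lit 401) (B (L (nat_lit 369) ln16_15_6_c10 ln16_15_6_c10_ok) (L (nat_lit 433) ln16_16_6_c10 ln16_16_6_c10_ok))) (M (nat_lit 527) (B (L (nat_lit 495) ln16_12_5_c10 ln16_12_5_c10_ok) (L (nat_lit 559) ln16_13_5_c10 ln16_13_5_c10_ok))))) (M (nat_lit 369) (B (L (nat_lit 337) ln16_14_6_c10 ln16_14_6_c10_ok) (L (nat_lit 401) ln16_15_6_c10 ln16_15_6_c10_ok))))))) (B (M (nat_lit 497) (B (M (nat_lit 529) (B (L (nat_lit 496) ln16_12_4 ln16_12_4_ok) (L (nat_lit 465) ln16_11_4 ln16_11_4_ok))) (B (M (nat_lit 463) (B (L (nat_lit 465) ln16_11_4 ln16_11_4_ok) (L (nat_lit 495) ln16_11_5_c10 ln16_11_5_c10_ok))) (M (nat_lit 496) (B (L (nat_lit 529) ln16_12_4 ln16_12_4_ok) (M (nat_lit 495) (B (L (nat_lit 527) ln16_12_5_c10 ln16_12_5_c10_ok) (L (nat_lit 463) ln16_11_5_c10 ln16_11_5_c10_ok)))))))) (B (M (nat_lit 496) (B (M (nat_lit 495) (B (L (nat_lit 527) ln16_12_5_c10 ln16_12_5_c10_ok)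 (L (nat_lit 463) ln16_11_5_c10 ln16_11_5_c10_ok))) (M (nat_lit 369) (B (L (nat_lit 401) ln16_15_6_c10 ln16_15_6_c10_ok) (L (nat_lit 337) ln16_14_6_c10 ln16_14_6_c10_ok))))) (B (M (nat_lit 496) (B (M (nat_lit 369) (B (L (nat_lit 337) ln16_14_6_c10 ln16_14_6_c10_ok) (L (nat_lit 401) ln16_15_6_c10 ln16_15_6_c10_ok))) (M (nat_lit 497) (B (L (nat_lit 465) ln16_11_4 ln16_11_4_ok) (L (nat_lit 529) ln16_12_4 ln16_12_4_ok))))) (M (nat_lit 465) (B (L (nat_lit 497) ln16_11_4 ln16_11_4_ok) (M (nat_lit 463) (B (L (nat_lit 495) ln16_11_5_c10 ln16_11_5_c10_ok) (M (nat_lit 466) (B (M (nat_lit 435) (B (L (nat_lit 434) ln15_14_2_c10 ln15_14_2_c10_ok) (M (nat_lit 467) (B (L (nat_lit 436) ln16_14_2_c10 ln16_14_2_c10_ok) (M (nat_lit 499) (B (L (nat_lit 500) ln16_14_0_c10 ln16_14_0_c10_ok) (L (nat_lit 498) ln15_14_0_c10 ln15_14_0_c10_ok))))))) (B (M (nat_lit 433) (B (M (nat_lit 434) (B (L (nat_lit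 435) ln19_13_1_c10 ln19_13_1_c10_ok) (L (nat_lit 462) ln13_14_2 ln13_14_2_ok))) (B (L (nat_lit 462) ln13_14_2 ln13_14_2_ok) (M (nat_lit 369) (B (L (nat_lit 337) ln16_14_6_c10 ln16_14_6_c10_ok) (M (nat_lit 498) (B (L (nat_lit 499) ln15_14_0_c10 ln15_14_0_c10_ok) (L (nat_lit 401) ln17_11_4_c10 ln17_11_4_c10_ok)))))))) (B (M (nat_lit 467) (B (M (nat_lit 435) (B (L (nat_lit 436) ln16_14_2_c10 ln16_14_2_c10_ok) (L (nat_lit 434) ln15_14_2_c10 ln15_14_2_c10_ok))) (B (M (nat_lit 433) (B (L (nat_lit 468) ln20_14_3_c10 ln20_14_3_c10_ok) (M (nat_lit 434) (B (L (nat_lit 435) ln19_13_1_c10 ln19_13_1_c10_ok) (L (nat_lit 462) ln13_14_2 ln13_14_2_ok))))) (M (nat_lit 433) (B (L (nat_lit 468) ln20_14_3_c10 ln20_14_3_c10_ok) (L (nat_lit 462) ln13_14_2 ln13_14_2_ok)))))) (M (nat_lit 433) (B (L (nat_lit 462) ln13_14_2 ln13_14_2_ok) (M (nat_lit 369) (B (L (nat_lit 337) ln16_14_6_c10 ln16_14_6_c10_ok)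 (M (nat_lit 498) (B (L (nat_lit 499) ln15_14_0_c10 ln15_14_0_c10_ok) (L (nat_lit 401) ln17_11_4_c10 ln17_11_4_c10_ok))))))))))))))))))))))
noncomputable def c10_d191 : Cert := (B (M (nat_lit 498) (B (M (nat_lit 401) (B (L (nat_lit 530) ln18_16_7_c10 ln18_16_7_c10_ok) (M (nat_lit 369) (B (L (nat_lit 337) ln17_10_4_c10 ln17_10_4_c10_ok) (L (nat_lit 402) ln18_15_7_c10 ln18_15_7_c10_ok))))) (B (M (nat_lit 529) (B (M (nat_lit 530) (B (L (nat_lit 401) ln18_16_7_c10 ln18_16_7_c10_ok) (L (nat_lit 561) ln18_13_5_c10 ln18_13_5_c10_ok))) (B (M (nat_lit 497) (B (L (nat_lit 402) ln18_12_5_c10 ln18_12_5_c10_ok) (M (nat_lit 561) (B (L (nat_lit 530) ln18_13_5_c10 ln18_13_5_c10_ok) (L (nat_lit 593) ln17_18_6_c10 ln17_18_6_c10_ok))))) (M (nat_lit 402) (B (L (nat_lit 497) ln18_12_5_c10 ln18_12_5_c10_ok) (M (nat_lit 403) (B (L (nat_lit 371) ln18_15_6_c10 ln18_15_6_c10_ok) (M (nat_lit 404) (B (L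 (nat_lit 401) ln20_12_1_c10 ln20_12_1_c10_ok) (L (nat_lit 405) ln21_12_1_c10 ln21_12_1_c10_ok)))))))))) (B (M (nat_lit 402) (B (M (nat_lit 403) (B (L (nat_lit 371) ln18_15_6_c10 ln18_15_6_c10_ok) (M (nat_lit 401) (B (L (nat_lit 404) ln20_12_1_c10 ln20_12_1_c10_ok) (L (nat_lit 369) ln18_15_7_c10 ln18_15_7_c10_ok))))) (B (M (nat_lit 370) (B (M (nat_lit 499) (B (L (nat_lit 531) ln18_12_4_c10 ln18_12_4_c10_ok) (L (nat_lit 467) ln18_11_4_c10 ln18_11_4_c10_ok))) (M (nat_lit 369) (B (L (nat_lit 401) ln18_15_7_c10 ln18_15_7_c10_ok) (L (nat_lit 337) ln18_14_7_c10 ln18_14_7_c10_ok))))) (M (nat_lit 370) (B (M (nat_lit 499) (B (L (nat_lit 531) ln18_12_4_c10 ln18_12_4_c10_ok) (L (nat_lit 467) ln18_11_4_c10 ln18_11_4_c10_ok))) (M (nat_lit 371) (B (L (nat_lit 403) ln18_15_6_c10 ln18_15_6_c10_ok) (L (nat_lit 339) ln18_14_6_c10 ln18_14_6_c10_ok)))))))) (B (M (nat_lit 530) (B (L (nat_lit 401)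 ln18_16_7_c10 ln18_16_7_c10_ok) (M (nat_lit 563) (B (L (nat_lit 531) ln18_13_4_c10 ln18_13_4_c10_ok) (M (nat_lit 561) (B (L (nat_lit 529) ln18_13_5_c10 ln18_13_5_c10_ok) (M (nat_lit 562) (B (L (nat_lit 595) ln18_14_4_c10 ln18_14_4_c10_ok) (L (nat_lit 593) ln18_14_5_c10 ln18_14_5_c10_ok))))))))) (M (nat_lit 529) (B (M (nat_lit 561) (B (L (nat_lit 530) ln18_13_5_c10 ln18_13_5_c10_ok) (M (nat_lit 497) (B (L (nat_lit 593) ln17_18_6_c10 ln17_18_6_c10_ok) (L (nat_lit 402) ln18_12_5_c10 ln18_12_5_c10_ok))))) (B (M (nat_lit 531) (B (M (nat_lit 530) (B (L (nat_lit 563) ln18_13_4_c10 ln18_13_4_c10_ok) (L (nat_lit 561) ln18_13_5_c10 ln18_13_5_c10_ok))) (M (nat_lit 402) (B (L (nat_lit 499) ln18_12_4_c10 ln18_12_4_c10_ok) (L (nat_lit 497) ln18_12_5_c10 ln18_12_5_c10_ok))))) (B (M (nat_lit 402) (B (L (nat_lit 497) ln18_12_5_c10 ln18_12_5_c10_ok) (M (nat_lit 370) (B (M (nat_lit 499) (B (L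 (nat_lit 531) ln18_12_4_c10 ln18_12_4_c10_ok) (L (nat_lit 467) ln18_11_4_c10 ln18_11_4_c10_ok))) (M (nat_lit 371) (B (L (nat_lit 403) ln18_15_6_c10 ln18_15_6_c10_ok) (L (nat_lit 339) ln18_14_6_c10 ln18_14_6_c10_ok))))))) (B (M (nat_lit 530) (B (L (nat_lit 561) ln18_13_5_c10 ln18_13_5_c10_ok) (M (nat_lit 531) (B (L (nat_lit 563) ln18_13_4_c10 ln18_13_4_c10_ok) (M (nat_lit 499) (B (L (nat_lit 402) ln18_12_4_c10 ln18_12_4_c10_ok) (M (nat_lit 500) (B (L (nat_lit 528) ln16_16_2_c10 ln16_16_2_c10_ok) (L (nat_lit 501) ln21_15_1_c10 ln21_15_1_c10_ok))))))))) (M (nat_lit 530) (B (L (nat_lit 561) ln18_13_5_c10 ln18_13_5_c10_ok) (M (nat_lit 499) (B (M (nat_lit 531) (B (L (nat_lit 563) ln18_13_4_c10 ln18_13_4_c10_ok) (M (nat_lit 528) (B (L (nat_lit 500) ln16_16_2_c10 ln16_16_2_c10_ok) (L (nat_lit 527) ln15_16_2_c10 ln15_16_2_c10_ok))))) (B (M (nat_lit 528) (B (L (nat_lit 527) ln15_16_2_c10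 ln15_16_2_c10_ok) (M (nat_lit 500) (B (L (nat_lit 531) ln16_16_2_c10 ln16_16_2_c10_ok) (L (nat_lit 501) ln21_15_1_c10 ln21_15_1_c10_ok))))) (B (M (nat_lit 528) (B (L (nat_lit 527) ln15_16_2_c10 ln15_16_2_c10_ok) (M (nat_lit 500) (B (L (nat_lit 501) ln21_15_1_c10 ln21_15_1_c10_ok) (L (nat_lit 497) ln20_15_1_c10 ln20_15_1_c10_ok))))) (M (nat_lit 562) (B (M (nat_lit 563) (B (L (nat_lit 595) ln18_14_4_c10 ln18_14_4_c10_ok) (L (nat_lit 531) ln18_13_4_c10 ln18_13_4_c10_ok))) (B (M (nat_lit 594) (B (L (nat_lit 467) ln18_18_6_c10 ln18_18_6_c10_ok) (M (nat_lit 626) (B (L (nat_lit 531) ln18_19_6_c10 ln18_19_6_c10_ok) (L (nat_lit 497) ln18_19_7_c10 ln18_19_7_c10_ok))))) (M (nat_lit 594) (B (L (nat_lit 467) ln18_18_6_c10 ln18_18_6_c10_ok) (M (nat_lit 595) (B (L (nat_lit 627) ln18_15_4_c10 ln18_15_4_c10_ok) (L (nat_lit 563) ln18_14_4_c10 ln18_14_4_c10_ok)))))))))))))))))))))))) (B (M (nat_lit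 498) (B (M (nat_lit 401) (B (L (nat_lit 530) ln18_16_7_c10 ln18_16_7_c10_ok) (M (nat_lit 369) (B (L (nat_lit 337) ln17_10_4_c10 ln17_10_4_c10_ok) (L (nat_lit 465) ln17_11_4_c10 ln17_11_4_c10_ok))))) (B (M (nat_lit 401) (B (L (nat_lit 530) ln18_16_7_c10 ln18_16_7_c10_ok) (M (nat_lit 369) (B (L (nat_lit 402) ln18_15_7_c10 ln18_15_7_c10_ok) (L (nat_lit 465) ln17_11_4_c10 ln17_11_4_c10_ok))))) (B (M (nat_lit 530) (B (L (nat_lit 401) ln18_16_7_c10 ln18_16_7_c10_ok) (M (nat_lit 562) (B (L (nat_lit 465) ln18_17_7_c10 ln18_17_7_c10_ok) (M (nat_lit 561) (B (L (nat_lit 529) ln18_13_5_c10 ln18_13_5_c10_ok) (L (nat_lit 593) ln18_14_5_c10 ln18_14_5_c10_ok))))))) (B (M (nat_lit 530) (B (M (nat_lit 562) (B (L (nat_lit 465) ln18_17_7_c10 ln18_17_7_c10_ok) (M (nat_lit 561) (B (L (nat_lit 529) ln18_13_5_c10 ln18_13_5_c10_ok) (L (nat_lit 593) ln18_14_5_c10 ln18_14_5_c10_ok))))) (B (M (nat_lit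 562) (B (M (nat_lit 561) (B (L (nat_lit 529) ln18_13_5_c10 ln18_13_5_c10_ok) (L (nat_lit 593) ln18_14_5_c10 ln18_14_5_c10_ok))) (M (nat_lit 563) (B (L (nat_lit 531) ln18_13_4_c10 ln18_13_4_c10_ok) (L (nat_lit 595) ln18_14_4_c10 ln18_14_4_c10_ok))))) (B (M (nat_lit 562) (B (L (nat_lit 465) ln18_17_7_c10 ln18_17_7_c10_ok) (M (nat_lit 563) (B (L (nat_lit 531) ln18_13_4_c10 ln18_13_4_c10_ok) (L (nat_lit 595) ln18_14_4_c10 ln18_14_4_c10_ok))))) (M (nat_lit 402) (B (M (nat_lit 529) (B (L (nat_lit 497) ln18_12_5_c10 ln18_12_5_c10_ok) (L (nat_lit 561) ln18_13_5_c10 ln18_13_5_c10_ok))) (M (nat_lit 370) (B (M (nat_lit 371) (B (L (nat_lit 339) ln18_14_6_c10 ln18_14_6_c10_ok) (L (nat_lit 403) ln18_15_6_c10 ln18_15_6_c10_ok))) (M (nat_lit 337) (B (L (nat_lit 369) ln18_14_7_c10 ln18_14_7_c10_ok) (M (nat_lit 338) (B (L (nat_lit 305) ln18_13_7_c10 ln18_13_7_c10_ok) (L (nat_lit 465) ln18_10_5_c10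 ln18_10_5_c10_ok))))))))))))) (B (M (nat_lit 401) (B (L (nat_lit 530) ln18_16_7_c10 ln18_16_7_c10_ok) (M (nat_lit 369) (B (L (nat_lit 337) ln17_10_4_c10 ln17_10_4_c10_ok) (L (nat_lit 402) ln18_15_7_c10 ln18_15_7_c10_ok))))) (M (nat_lit 402) (B (M (nat_lit 370) (B (M (nat_lit 371) (B (L (nat_lit 339) ln18_14_6_c10 ln18_14_6_c10_ok) (L (nat_lit 403) ln18_15_6_c10 ln18_15_6_c10_ok))) (M (nat_lit 497) (B (L (nat_lit 465) ln18_11_5_c10 ln18_11_5_c10_ok) (L (nat_lit 529) ln18_12_5_c10 ln18_12_5_c10_ok))))) (B (M (nat_lit 370) (B (M (nat_lit 369) (B (L (nat_lit 337) ln18_14_7_c10 ln18_14_7_c10_ok) (L (nat_lit 401) ln18_15_7_c10 ln18_15_7_c10_ok))) (M (nat_lit 497) (B (L (nat_lit 465) ln18_11_5_c10 ln18_11_5_c10_ok) (L (nat_lit 529) ln18_12_5_c10 ln18_12_5_c10_ok))))) (M (nat_lit 403) (B (L (nat_lit 371) ln18_15_6_c10 ln18_15_6_c10_ok) (M (nat_lit 401) (B (L (nat_lit 369) ln18_15_7_c10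 ln18_15_7_c10_ok) (L (nat_lit 404) ln20_12_1_c10 ln20_12_1_c10_ok)))))))))))))) (M (nat_lit 495) (B (L (nat_lit 492) ln12_15_2 ln12_15_2_ok) (L (nat_lit 465) ln18_14_1_c10 ln18_14_1_c10_ok)))))
noncomputable def c10_d192 : Cert := (B (M (nat_lit 463) (B (M (nat_lit 492) (B (L (nat_lit 495) ln12_15_2 ln12_15_2_ok) (L (nat_lit 462) ln13_14_2 ln13_14_2_ok))) (B (L (nat_lit 462) ln13_14_2 ln13_14_2_ok) (M (nat_lit 495) (B (L (nat_lit 492) ln12_15_2 ln12_15_2_ok) (M (nat_lit 465) (B (L (nat_lit 496) ln13_15_2 ln13_15_2_ok) (L (nat_lit 466) ln18_14_1_c10 ln18_14_1_c10_ok)))))))) (B (K (nat_lit 76720092426154190577959009526039570782524454662378531346979020399733504525247736871478084052479293714897156114485448278822910486684483466134890217472) (nat_lit 40522612990562315350423557129159003996714187809350069345977072560077811363664180631810643915529123022783800143148493556082133587611961029276477924804031655269971726396416214433792)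 (nat_lit 40522612990562315350423557129159003996714187809350069345977072560077811363664180631810643915529123022783800143148493556082133587611961029276477924804031655269971726396416214433792) c10_s453) (B (K (nat_lit 76720092426154190577959009526039570782524454662378531346979020399733504525247736871478084052479293714897156114485448278822910486684483466134890217472) (nat_lit 40522612990562315350423557129171790678788190639188667591525065490534594687947386413698064041535400480849381497224956241456057964900725982644498739485408475237617122126114001518592) (nat_lit 40522612990562315350423557129171790678788190639188667591525065490534594687947386413698064041535400480849381497224956241456057964900725982644498739485408475237617122126114001518592) c10_s454) (B (M (nat_lit 463) (B (L (nat_lit 462) ln13_14_2 ln13_14_2_ok) (M (nat_lit 434) (B (L (nat_lit 435) ln19_13_1_c10 ln19_13_1_c10_ok)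 (M (nat_lit 466) (B (M (nat_lit 465) (B (L (nat_lit 495) ln18_14_1_c10 ln18_14_1_c10_ok) (M (nat_lit 498) (B (L (nat_lit 499) ln15_14_0_c10 ln15_14_0_c10_ok) (M (nat_lit 530) (B (L (nat_lit 562) ln18_17_7_c10 ln18_17_7_c10_ok) (L (nat_lit 401) ln18_16_7_c10 ln18_16_7_c10_ok))))))) (B (M (nat_lit 498) (B (M (nat_lit 401) (B (L (nat_lit 530) ln18_16_7_c10 ln18_16_7_c10_ok) (M (nat_lit 369) (B (L (nat_lit 402) ln18_15_7_c10 ln18_15_7_c10_ok) (L (nat_lit 337) ln17_10_4_c10 ln17_10_4_c10_ok))))) (B (M (nat_lit 401) (B (L (nat_lit 530) ln18_16_7_c10 ln18_16_7_c10_ok) (M (nat_lit 369) (B (L (nat_lit 337) ln17_10_4_c10 ln17_10_4_c10_ok) (L (nat_lit 465) ln17_11_4_c10 ln17_11_4_c10_ok))))) (B (M (nat_lit 402) (B (M (nat_lit 499) (B (L (nat_lit 531) ln18_12_4_c10 ln18_12_4_c10_ok) (L (nat_lit 465) ln15_14_0_c10 ln15_14_0_c10_ok))) (M (nat_lit 370) (B (M (nat_lit 371) (B (L (nat_lit 339)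 ln18_14_6_c10 ln18_14_6_c10_ok) (L (nat_lit 403) ln18_15_6_c10 ln18_15_6_c10_ok))) (M (nat_lit 369) (B (L (nat_lit 337) ln18_14_7_c10 ln18_14_7_c10_ok) (L (nat_lit 401) ln18_15_7_c10 ln18_15_7_c10_ok))))))) (B (M (nat_lit 401) (B (L (nat_lit 530) ln18_16_7_c10 ln18_16_7_c10_ok) (M (nat_lit 369) (B (L (nat_lit 402) ln18_15_7_c10 ln18_15_7_c10_ok) (L (nat_lit 465) ln17_11_4_c10 ln17_11_4_c10_ok))))) (M (nat_lit 402) (B (M (nat_lit 499) (B (L (nat_lit 531) ln18_12_4_c10 ln18_12_4_c10_ok) (L (nat_lit 465) ln15_14_0_c10 ln15_14_0_c10_ok))) (B (M (nat_lit 370) (B (M (nat_lit 371) (B (L (nat_lit 339) ln18_14_6_c10 ln18_14_6_c10_ok) (L (nat_lit 403) ln18_15_6_c10 ln18_15_6_c10_ok))) (M (nat_lit 465) (B (L (nat_lit 338) ln18_10_5_c10 ln18_10_5_c10_ok) (L (nat_lit 497) ln18_11_5_c10 ln18_11_5_c10_ok))))) (M (nat_lit 370) (B (M (nat_lit 371) (B (L (nat_lit 339) ln18_14_6_c10 ln18_14_6_c10_ok)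 (L (nat_lit 403) ln18_15_6_c10 ln18_15_6_c10_ok))) (M (nat_lit 499) (B (L (nat_lit 467) ln18_11_4_c10 ln18_11_4_c10_ok) (L (nat_lit 531) ln18_12_4_c10 ln18_12_4_c10_ok))))))))))))) c10_d191))))))) (B (M (nat_lit 463) (B (L (nat_lit 462) ln13_14_2 ln13_14_2_ok) (M (nat_lit 495) (B (L (nat_lit 492) ln12_15_2 ln12_15_2_ok) (M (nat_lit 496) (B (L (nat_lit 460) ln16_15_3 ln16_15_3_ok) (M (nat_lit 528) (B (L (nat_lit 529) ln13_15_0 ln13_15_0_ok) (L (nat_lit 401) ln16_16_6_c10 ln16_16_6_c10_ok))))))))) (M (nat_lit 463) (B (L (nat_lit 462) ln13_14_2 ln13_14_2_ok) (M (nat_lit 434) (B (L (nat_lit 435) ln19_13_1_c10 ln19_13_1_c10_ok) (M (nat_lit 401) (B (M (nat_lit 496) (B (L (nat_lit 528) ln16_16_6_c10 ln16_16_6_c10_ok) (M (nat_lit 497) (B (L (nat_lit 529) ln16_12_4 ln16_12_4_ok) (M (nat_lit 498) (B (L (nat_lit 499) ln19_15_3_c10 ln19_15_3_c10_ok) (M (nat_lit 530) (B (L (nat_lit 466)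 ln18_16_7_c10 ln18_16_7_c10_ok) (L (nat_lit 465) ln17_12_4_c10 ln17_12_4_c10_ok))))))))) (B (M (nat_lit 369) (B (L (nat_lit 496) ln16_15_6_c10 ln16_15_6_c10_ok) (L (nat_lit 337) ln17_10_5_c10 ln17_10_5_c10_ok))) (M (nat_lit 369) (B (M (nat_lit 466) (B (M (nat_lit 498) (B (L (nat_lit 402) ln18_15_7_c10 ln18_15_7_c10_ok) (L (nat_lit 465) ln17_11_4_c10 ln17_11_4_c10_ok))) (L (nat_lit 337) ln17_10_4_c10 ln17_10_4_c10_ok))) (B (L (nat_lit 337) ln17_10_5_c10 ln17_10_5_c10_ok) (M (nat_lit 465) (B (M (nat_lit 497) (B (M (nat_lit 498) (B (L (nat_lit 530) ln17_12_4_c10 ln17_12_4_c10_ok) (L (nat_lit 466) ln17_11_4_c10 ln17_11_4_c10_ok))) (M (nat_lit 402) (B (L (nat_lit 529) ln17_16_6_c10 ln17_16_6_c10_ok) (L (nat_lit 370) ln17_15_6_c10 ln17_15_6_c10_ok))))) (B (M (nat_lit 497) (B (M (nat_lit 498) (B (L (nat_lit 530) ln17_12_4_c10 ln17_12_4_c10_ok) (L (nat_lit 466) ln17_11_4_c10 ln17_11_4_c10_ok)))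 (B (M (nat_lit 466) (B (L (nat_lit 498) ln17_11_4_c10 ln17_11_4_c10_ok) (L (nat_lit 529) ln17_16_7_c10 ln17_16_7_c10_ok))) (L (nat_lit 529) ln17_16_7_c10 ln17_16_7_c10_ok)))) (B (M (nat_lit 466) (B (L (nat_lit 498) ln17_11_4_c10 ln17_11_4_c10_ok) (M (nat_lit 370) (B (L (nat_lit 338) ln17_14_6_c10 ln17_14_6_c10_ok) (M (nat_lit 402) (B (M (nat_lit 371) (B (L (nat_lit 339) ln18_14_6_c10 ln18_14_6_c10_ok) (L (nat_lit 372) ln20_11_1_c10 ln20_11_1_c10_ok))) (M (nat_lit 467) (B (L (nat_lit 499) ln18_11_4_c10 ln18_11_4_c10_ok) (L (nat_lit 468) ln20_14_3_c10 ln20_14_3_c10_ok))))))))) (M (nat_lit 497) (B (M (nat_lit 402) (B (L (nat_lit 529) ln17_16_6_c10 ln17_16_6_c10_ok) (L (nat_lit 370) ln17_15_6_c10 ln17_15_6_c10_ok))) (B (L (nat_lit 529) ln17_16_7_c10 ln17_16_7_c10_ok) (M (nat_lit 370) (B (L (nat_lit 402) ln17_15_6_c10 ln17_15_6_c10_ok) (L (nat_lit 338) ln17_14_6_c10 ln17_14_6_c10_ok)))))))))))))))))))))))))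
noncomputable def c10_d193 : Cert := (B (K (nat_lit 76720092426154190577959009526039570782524454662378531346979020399733504525247736871478084052479293714897156114485448278822910486684483466134890217472) (nat_lit 40522612990562315350423557129171790678788190639188667591525065490534594687947386413698064041535400480849381497224956241456057964900725982644498739485408475237617122126114001518592) (nat_lit 40522612990562315350423557129171790678788190639188667591525065490534594687947386413698064041535400480849381497224956241456057964900725982644498739485408475237617122126114001518592) c10_s454) (B (M (nat_lit 463) (B (L (nat_lit 462) ln13_14_2 ln13_14_2_ok) (M (nat_lit 495) (B (L (nat_lit 492) ln12_15_2 ln12_15_2_ok) (M (nat_lit 496) (B (L (nat_lit 460) ln16_15_3 ln16_15_3_ok) (M (nat_lit 528) (B (L (nat_lit 529) ln13_15_0 ln13_15_0_ok) (L (nat_lit 401) ln16_16_6_c10 ln16_16_6_c10_ok)))))))))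 (B (M (nat_lit 463) (B (M (nat_lit 495) (B (L (nat_lit 368) ln16_11_5_c10 ln16_11_5_c10_ok) (L (nat_lit 492) ln12_15_2 ln12_15_2_ok))) (L (nat_lit 462) ln13_14_2 ln13_14_2_ok))) (M (nat_lit 465) (B (M (nat_lit 463) (B (L (nat_lit 462) ln13_14_2 ln13_14_2_ok) (M (nat_lit 466) (B (M (nat_lit 499) (B (L (nat_lit 498) ln15_14_0_c10 ln15_14_0_c10_ok) (M (nat_lit 467) (B (L (nat_lit 500) ln16_14_0_c10 ln16_14_0_c10_ok) (L (nat_lit 468) ln20_14_3_c10 ln20_14_3_c10_ok))))) (B (M (nat_lit 435) (B (L (nat_lit 434) ln19_13_1_c10 ln19_13_1_c10_ok) (M (nat_lit 467) (B (L (nat_lit 436) ln16_14_2_c10 ln16_14_2_c10_ok) (L (nat_lit 468) ln20_14_3_c10 ln20_14_3_c10_ok))))) (B (M (nat_lit 467) (B (M (nat_lit 435) (B (L (nat_lit 436) ln16_14_2_c10 ln16_14_2_c10_ok) (L (nat_lit 434) ln19_13_1_c10 ln19_13_1_c10_ok))) (M (nat_lit 499) (B (L (nat_lit 500) ln16_14_0_c10 ln16_14_0_c10_ok) (L (nat_lit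 498) ln15_14_0_c10 ln15_14_0_c10_ok))))) (M (nat_lit 434) (B (L (nat_lit 435) ln19_13_1_c10 ln19_13_1_c10_ok) (M (nat_lit 498) (B (L (nat_lit 499) ln15_14_0_c10 ln15_14_0_c10_ok) (M (nat_lit 402) (B (M (nat_lit 497) (B (L (nat_lit 529) ln18_12_5_c10 ln18_12_5_c10_ok) (L (nat_lit 370) ln18_11_5_c10 ln18_11_5_c10_ok))) (B (M (nat_lit 529) (B (L (nat_lit 497) ln18_12_5_c10 ln18_12_5_c10_ok) (M (nat_lit 530) (B (L (nat_lit 562) ln18_17_7_c10 ln18_17_7_c10_ok) (L (nat_lit 561) ln18_13_5_c10 ln18_13_5_c10_ok))))) (B (M (nat_lit 370) (B (L (nat_lit 497) ln18_11_5_c10 ln18_11_5_c10_ok) (L (nat_lit 338) ln18_10_5_c10 ln18_10_5_c10_ok))) (M (nat_lit 371) (B (L (nat_lit 403) ln18_15_6_c10 ln18_15_6_c10_ok) (M (nat_lit 370) (B (L (nat_lit 339) ln18_14_6_c10 ln18_14_6_c10_ok) (L (nat_lit 338) ln18_10_5_c10 ln18_10_5_c10_ok))))))))))))))))))) (B (M (nat_lit 497) (B (L (nat_lit 368) ln16_11_4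 ln16_11_4_ok) (L (nat_lit 529) ln17_16_7_c10 ln17_16_7_c10_ok))) (B (M (nat_lit 368) (B (L (nat_lit 497) ln16_11_4 ln16_11_4_ok) (L (nat_lit 336) ln16_10_4_c10 ln16_10_4_c10_ok))) (M (nat_lit 466) (B (M (nat_lit 467) (B (L (nat_lit 468) ln20_14_3_c10 ln20_14_3_c10_ok) (M (nat_lit 435) (B (L (nat_lit 436) ln16_14_2_c10 ln16_14_2_c10_ok) (M (nat_lit 463) (B (L (nat_lit 434) ln19_13_1_c10 ln19_13_1_c10_ok) (M (nat_lit 499) (B (L (nat_lit 498) ln15_14_0_c10 ln15_14_0_c10_ok) (L (nat_lit 500) ln16_14_0_c10 ln16_14_0_c10_ok))))))))) (B (M (nat_lit 467) (B (L (nat_lit 468) ln20_14_3_c10 ln20_14_3_c10_ok) (M (nat_lit 435) (B (L (nat_lit 436) ln16_14_2_c10 ln16_14_2_c10_ok) (M (nat_lit 434) (B (L (nat_lit 463) ln19_13_1_c10 ln19_13_1_c10_ok) (M (nat_lit 499) (B (L (nat_lit 500) ln16_14_0_c10 ln16_14_0_c10_ok) (M (nat_lit 531) (B (L (nat_lit 563) ln19_17_7_c10 ln19_17_7_c10_ok) (L (nat_lit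 402) ln19_16_7_c10 ln19_16_7_c10_ok))))))))))) (B (M (nat_lit 467) (B (L (nat_lit 468) ln20_14_3_c10 ln20_14_3_c10_ok) (M (nat_lit 435) (B (L (nat_lit 436) ln16_14_2_c10 ln16_14_2_c10_ok) (M (nat_lit 434) (B (L (nat_lit 463) ln19_13_1_c10 ln19_13_1_c10_ok) (M (nat_lit 403) (B (L (nat_lit 404) ln16_13_2_c10 ln16_13_2_c10_ok) (M (nat_lit 498) (B (L (nat_lit 530) ln18_16_6_c10 ln18_16_6_c10_ok) (L (nat_lit 371) ln19_11_5_c10 ln19_11_5_c10_ok))))))))))) (B (M (nat_lit 467) (B (L (nat_lit 468) ln20_14_3_c10 ln20_14_3_c10_ok) (M (nat_lit 435) (B (L (nat_lit 436) ln16_14_2_c10 ln16_14_2_c10_ok) (M (nat_lit 434) (B (M (nat_lit 499) (B (L (nat_lit 500) ln16_14_0_c10 ln16_14_0_c10_ok) (M (nat_lit 531) (B (L (nat_lit 563) ln19_17_7_c10 ln19_17_7_c10_ok) (L (nat_lit 402) ln19_16_7_c10 ln19_16_7_c10_ok))))) (M (nat_lit 403) (B (L (nat_lit 404) ln16_13_2_c10 ln16_13_2_c10_ok) (M (nat_lit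 498) (B (L (nat_lit 530) ln18_16_6_c10 ln18_16_6_c10_ok) (L (nat_lit 371) ln19_11_5_c10 ln19_11_5_c10_ok))))))))))) (B (M (nat_lit 434) (B (M (nat_lit 463) (B (L (nat_lit 462) ln13_14_2 ln13_14_2_ok) (L (nat_lit 435) ln19_13_1_c10 ln19_13_1_c10_ok))) (B (M (nat_lit 435) (B (L (nat_lit 463) ln19_13_1_c10 ln19_13_1_c10_ok) (L (nat_lit 436) ln20_13_1_c10 ln20_13_1_c10_ok))) (B (M (nat_lit 435) (B (L (nat_lit 436) ln20_13_1_c10 ln20_13_1_c10_ok) (M (nat_lit 403) (B (L (nat_lit 404) ln16_13_2_c10 ln16_13_2_c10_ok) (M (nat_lit 498) (B (L (nat_lit 530) ln18_16_6_c10 ln18_16_6_c10_ok) (M (nat_lit 371) (B (L (nat_lit 402) ln18_15_6_c10 ln18_15_6_c10_ok) (L (nat_lit 339) ln19_10_5_c10 ln19_10_5_c10_ok))))))))) (M (nat_lit 498) (B (M (nat_lit 530) (B (L (nat_lit 562) ln18_17_7_c10 ln18_17_7_c10_ok) (L (nat_lit 401) ln18_16_7_c10 ln18_16_7_c10_ok))) (M (nat_lit 463) (B (L (nat_lit 499)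 ln15_14_0_c10 ln15_14_0_c10_ok) (L (nat_lit 462) ln13_14_2 ln13_14_2_ok))))))))) (B (M (nat_lit 467) (B (L (nat_lit 468) ln20_14_3_c10 ln20_14_3_c10_ok) (M (nat_lit 435) (B (L (nat_lit 436) ln16_14_2_c10 ln16_14_2_c10_ok) (M (nat_lit 499) (B (L (nat_lit 500) ln16_14_0_c10 ln16_14_0_c10_ok) (M (nat_lit 498) (B (L (nat_lit 463) ln15_14_0_c10 ln15_14_0_c10_ok) (M (nat_lit 530) (B (L (nat_lit 562) ln18_17_6_c10 ln18_17_6_c10_ok) (L (nat_lit 403) ln19_12_5_c10 ln19_12_5_c10_ok))))))))))) (M (nat_lit 467) (B (L (nat_lit 468) ln20_14_3_c10 ln20_14_3_c10_ok) (M (nat_lit 499) (B (L (nat_lit 500) ln16_14_0_c10 ln16_14_0_c10_ok) (M (nat_lit 498) (B (L (nat_lit 463) ln15_14_0_c10 ln15_14_0_c10_ok) (M (nat_lit 434) (B (M (nat_lit 530) (B (L (nat_lit 562) ln18_17_7_c10 ln18_17_7_c10_ok) (L (nat_lit 401) ln18_16_7_c10 ln18_16_7_c10_ok))) (M (nat_lit 531) (B (L (nat_lit 563) ln19_17_7_c10 ln19_17_7_c10_ok)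 (L (nat_lit 402) ln18_12_4_c10 ln18_12_4_c10_ok)))))))))))))))))))))))))
noncomputable def c10_d194 : Cert := (B (M (nat_lit 368) (B (M (nat_lit 464) (B (M (nat_lit 337) (B (L (nat_lit 369) ln16_14_6_c10 ln16_14_6_c10_ok) (M (nat_lit 336) (B (L (nat_lit 305) ln16_13_6_c10 ln16_13_6_c10_ok) (M (nat_lit 335) (B (L (nat_lit 303) ln16_13_7 ln16_13_7_ok) (L (nat_lit 367) ln16_14_7 ln16_14_7_ok))))))) (M (nat_lit 497) (B (L (nat_lit 465) ln16_11_4 ln16_11_4_ok) (M (nat_lit 496) (B (L (nat_lit 529) ln16_12_4 ln16_12_4_ok) (M (nat_lit 495) (B (L (nat_lit 463) ln16_11_5_c10 ln16_11_5_c10_ok) (L (nat_lit 527) ln16_12_5_c10 ln16_12_5_c10_ok))))))))) (B (M (nat_lit 464) (B (M (nat_lit 336) (B (M (nat_lit 335) (B (L (nat_lit 303) ln16_13_7 ln16_13_7_ok) (L (nat_lit 367) ln16_14_7 ln16_14_7_ok))) (M (nat_lit 465) (B (L (nat_lit 433) ln16_10_4_c10 ln16_10_4_c10_ok) (L (nat_lit 497) ln16_11_4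 ln16_11_4_ok))))) (M (nat_lit 496) (B (M (nat_lit 369) (B (L (nat_lit 337) ln16_14_6_c10 ln16_14_6_c10_ok) (L (nat_lit 401) ln16_15_6_c10 ln16_15_6_c10_ok))) (M (nat_lit 495) (B (L (nat_lit 463) ln16_11_5_c10 ln16_11_5_c10_ok) (L (nat_lit 527) ln16_12_5_c10 ln16_12_5_c10_ok))))))) (B (M (nat_lit 336) (B (M (nat_lit 303) (B (L (nat_lit 335) ln16_13_7 ln16_13_7_ok) (M (nat_lit 304) (B (L (nat_lit 271) ln16_12_7_c10 ln16_12_7_c10_ok) (M (nat_lit 305) (B (L (nat_lit 337) ln16_13_6_c10 ln16_13_6_c10_ok) (L (nat_lit 273) ln16_12_6_c10 ln16_12_6_c10_ok))))))) (B (M (nat_lit 304) (B (M (nat_lit 433) (B (L (nat_lit 465) ln16_10_4_c10 ln16_10_4_c10_ok) (L (nat_lit 401) ln16_9_4_c10 ln16_9_4_c10_ok))) (M (nat_lit 305) (B (L (nat_lit 337) ln16_13_6_c10 ln16_13_6_c10_ok) (L (nat_lit 273) ln16_12_6_c10 ln16_12_6_c10_ok))))) (B (M (nat_lit 304) (B (M (nat_lit 433) (B (L (nat_lit 465) ln16_10_4_c10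 ln16_10_4_c10_ok) (L (nat_lit 401) ln16_9_4_c10 ln16_9_4_c10_ok))) (M (nat_lit 303) (B (L (nat_lit 335) ln16_13_7 ln16_13_7_ok) (L (nat_lit 271) ln16_12_7_c10 ln16_12_7_c10_ok))))) (M (nat_lit 464) (B (M (nat_lit 465) (B (L (nat_lit 497) ln16_11_4 ln16_11_4_ok) (L (nat_lit 433) ln16_10_4_c10 ln16_10_4_c10_ok))) (M (nat_lit 335) (B (L (nat_lit 367) ln16_14_7 ln16_14_7_ok) (L (nat_lit 303) ln16_13_7 ln16_13_7_ok))))))))) (B (K (nat_lit 76720092378520087920340758794032566832750102927023722811823154430897300509389698573281997173830098519712397343491538799582227505527632027146382213120) (nat_lit 2196735251957849304438208649017641559392029326985370691105306233111258530711350609297405767942475809931108329452719594914250420173752951335705929365853483040768) (nat_lit 2196735251957849304438208649017641559392029326985370691105306233111258530711350609297405767942475809931108329452719594914250420173752951335705929365853483040768)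 c10_s452) (B (M (nat_lit 464) (B (M (nat_lit 496) (B (M (nat_lit 495) (B (L (nat_lit 527) ln16_12_5_c10 ln16_12_5_c10_ok) (L (nat_lit 463) ln16_11_5_c10 ln16_11_5_c10_ok))) (M (nat_lit 497) (B (L (nat_lit 529) ln16_12_4 ln16_12_4_ok) (L (nat_lit 465) ln16_11_4 ln16_11_4_ok))))) (B (M (nat_lit 336) (B (M (nat_lit 465) (B (L (nat_lit 497) ln16_11_4 ln16_11_4_ok) (L (nat_lit 433) ln16_10_4_c10 ln16_10_4_c10_ok))) (M (nat_lit 335) (B (L (nat_lit 367) ln16_14_7 ln16_14_7_ok) (L (nat_lit 303) ln16_13_7 ln16_13_7_ok))))) (B (M (nat_lit 433) (B (M (nat_lit 335) (B (L (nat_lit 367) ln16_14_7 ln16_14_7_ok) (M (nat_lit 336) (B (L (nat_lit 465) ln16_10_4_c10 ln16_10_4_c10_ok) (L (nat_lit 303) ln16_13_7 ln16_13_7_ok))))) (M (nat_lit 496) (B (M (nat_lit 495) (B (L (nat_lit 527) ln16_12_5_c10 ln16_12_5_c10_ok) (L (nat_lit 463) ln16_11_5_c10 ln16_11_5_c10_ok))) (M (nat_lit 401) (B (L (nat_lit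 528) ln16_16_6_c10 ln16_16_6_c10_ok) (L (nat_lit 369) ln16_15_6_c10 ln16_15_6_c10_ok))))))) (M (nat_lit 496) (B (M (nat_lit 495) (B (L (nat_lit 527) ln16_12_5_c10 ln16_12_5_c10_ok) (L (nat_lit 463) ln16_11_5_c10 ln16_11_5_c10_ok))) (M (nat_lit 528) (B (M (nat_lit 529) (B (L (nat_lit 561) ln16_13_4_c10 ln16_13_4_c10_ok) (L (nat_lit 497) ln16_12_4 ln16_12_4_ok))) (M (nat_lit 401) (B (L (nat_lit 433) ln16_16_6_c10 ln16_16_6_c10_ok) (L (nat_lit 369) ln16_15_6_c10 ln16_15_6_c10_ok))))))))))) (B (M (nat_lit 336) (B (M (nat_lit 304) (B (M (nat_lit 433) (B (L (nat_lit 465) ln16_10_4_c10 ln16_10_4_c10_ok) (L (nat_lit 401) ln16_9_4_c10 ln16_9_4_c10_ok))) (M (nat_lit 305) (B (L (nat_lit 337) ln16_13_6_c10 ln16_13_6_c10_ok) (L (nat_lit 273) ln16_12_6_c10 ln16_12_6_c10_ok))))) (B (M (nat_lit 304) (B (M (nat_lit 305) (B (L (nat_lit 337) ln16_13_6_c10 ln16_13_6_c10_ok) (L (nat_lit 273) ln16_12_6_c10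 ln16_12_6_c10_ok))) (M (nat_lit 303) (B (L (nat_lit 335) ln16_13_7 ln16_13_7_ok) (L (nat_lit 271) ln16_12_7_c10 ln16_12_7_c10_ok))))) (B (M (nat_lit 304) (B (M (nat_lit 433) (B (L (nat_lit 465) ln16_10_4_c10 ln16_10_4_c10_ok) (L (nat_lit 401) ln16_9_4_c10 ln16_9_4_c10_ok))) (M (nat_lit 303) (B (L (nat_lit 335) ln16_13_7 ln16_13_7_ok) (L (nat_lit 271) ln16_12_7_c10 ln16_12_7_c10_ok))))) (M (nat_lit 464) (B (M (nat_lit 337) (B (L (nat_lit 369) ln16_14_6_c10 ln16_14_6_c10_ok) (L (nat_lit 305) ln16_13_6_c10 ln16_13_6_c10_ok))) (M (nat_lit 335) (B (L (nat_lit 367) ln16_14_7 ln16_14_7_ok) (L (nat_lit 303) ln16_13_7 ln16_13_7_ok))))))))) c10_d190))))))) (B (M (nat_lit 433) (B (L (nat_lit 399) ln13_12_0 ln13_12_0_ok) (M (nat_lit 464) c10_d192))) (M (nat_lit 433) (B (L (nat_lit 399) ln13_12_0 ln13_12_0_ok) (M (nat_lit 464) (B (M (nat_lit 463) (B (M (nat_lit 492) (B (L (nat_lit 495) ln12_15_2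 ln12_15_2_ok) (L (nat_lit 462) ln13_14_2 ln13_14_2_ok))) (B (L (nat_lit 462) ln13_14_2 ln13_14_2_ok) (M (nat_lit 495) (B (L (nat_lit 492) ln12_15_2 ln12_15_2_ok) (M (nat_lit 465) (B (L (nat_lit 496) ln13_15_2 ln13_15_2_ok) (L (nat_lit 466) ln18_14_1_c10 ln18_14_1_c10_ok)))))))) (B (K (nat_lit 76720092426154190577959009526039570782524454662378531346979020399733504525247736871478084052479293714897156114485448278822910486684483466134890217472) (nat_lit 40522612990562315350423557129159003996714187809350069345977072560077811363664180631810643915529123022783800143148493556082133587611961029276477924804031655269971726396416214433792) (nat_lit 40522612990562315350423557129159003996714187809350069345977072560077811363664180631810643915529123022783800143148493556082133587611961029276477924804031655269971726396416214433792) c10_s453) c10_d193)))))))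
noncomputable def c10_d195 : Cert := (B (M (nat_lit 400) (B (M (nat_lit 399) (B (L (nat_lit 433) ln13_12_0 ln13_12_0_ok) (M (nat_lit 368) (B (L (nat_lit 369) ln13_12_2 ln13_12_2_ok) (L (nat_lit 367) ln12_12_2 ln12_12_2_ok))))) (B (M (nat_lit 368) (B (M (nat_lit 367) (B (L (nat_lit 399) ln12_12_2 ln12_12_2_ok) (M (nat_lit 335) (B (L (nat_lit 464) ln16_14_7 ln16_14_7_ok) (M (nat_lit 303) (B (L (nat_lit 271) ln15_8_4 ln15_8_4_ok) (L (nat_lit 336) ln16_13_7 ln16_13_7_ok))))))) (B (M (nat_lit 399) (B (L (nat_lit 369) ln13_12_2 ln13_12_2_ok) (L (nat_lit 367) ln12_12_2 ln12_12_2_ok))) (B (M (nat_lit 369) (B (L (nat_lit 399) ln13_12_2 ln13_12_2_ok) (M (nat_lit 337) (B (L (nat_lit 464) ln16_14_6_c10 ln16_14_6_c10_ok) (M (nat_lit 305) (B (L (nat_lit 336) ln16_13_6_c10 ln16_13_6_c10_ok) (L (nat_lit 401) ln17_9_5_c10 ln17_9_5_c10_ok))))))) (M (nat_lit 464) (B (M (nat_lit 335) (B (L (nat_lit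 367) ln16_14_7 ln16_14_7_ok) (M (nat_lit 336) (B (L (nat_lit 303) ln16_13_7 ln16_13_7_ok) (M (nat_lit 337) (B (L (nat_lit 305) ln16_13_6_c10 ln16_13_6_c10_ok) (L (nat_lit 369) ln16_14_6_c10 ln16_14_6_c10_ok))))))) (M (nat_lit 495) (B (L (nat_lit 463) ln16_11_5_c10 ln16_11_5_c10_ok) (M (nat_lit 496) (B (L (nat_lit 527) ln16_12_5_c10 ln16_12_5_c10_ok) (M (nat_lit 497) (B (L (nat_lit 465) ln16_11_4 ln16_11_4_ok) (L (nat_lit 529) ln16_12_4 ln16_12_4_ok))))))))))))) (B (K (nat_lit 76720092378520087920340758794032566832148876025833621505483447398119230230381523840761467286929032031000151833062199038055520561941131239170206859264) (nat_lit 2196735251957849304438208649017641559393320451925015372301324294003599743681293532472828554431411669496279719752440261021994582611919727195010381739816032141312) (nat_lit 2196735251957849304438208649017641559393320451925015372301324294003599743681293532472828554431411669496279719752440261021994582611919727195010381739816032141312)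 c10_s451) c10_d194)))) (M (nat_lit 431) (B (L (nat_lit 399) ln12_12_0 ln12_12_0_ok) (M (nat_lit 495) (B (M (nat_lit 460) (B (L (nat_lit 496) ln16_15_3 ln16_15_3_ok) (M (nat_lit 459) (B (L (nat_lit 458) ln10_14_0 ln10_14_0_ok) (L (nat_lit 492) ln15_15_3 ln15_15_3_ok))))) (B (M (nat_lit 460) (B (L (nat_lit 496) ln16_15_3 ln16_15_3_ok) (M (nat_lit 459) (B (L (nat_lit 492) ln15_15_3 ln15_15_3_ok) (L (nat_lit 462) ln11_14_0 ln11_14_0_ok))))) (B (M (nat_lit 496) (B (L (nat_lit 460) ln16_15_3 ln16_15_3_ok) (M (nat_lit 529) (B (L (nat_lit 528) ln13_15_0 ln13_15_0_ok) (M (nat_lit 465) (B (L (nat_lit 464) ln13_15_2 ln13_15_2_ok) (M (nat_lit 497) (B (L (nat_lit 530) ln14_15_0 ln14_15_0_ok) (L (nat_lit 466) ln14_15_2_c10 ln14_15_2_c10_ok))))))))) (B (M (nat_lit 496) (B (M (nat_lit 497) (B (L (nat_lit 462) ln17_15_3 ln17_15_3_ok) (M (nat_lit 465) (B (L (nat_lit 466) ln14_15_2_c10 ln14_15_2_c10_ok)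 (L (nat_lit 464) ln13_15_2 ln13_15_2_ok))))) (B (M (nat_lit 492) (B (M (nat_lit 528) (B (L (nat_lit 529) ln13_15_0 ln13_15_0_ok) (L (nat_lit 527) ln12_15_0 ln12_15_0_ok))) (M (nat_lit 464) (B (L (nat_lit 465) ln13_15_2 ln13_15_2_ok) (L (nat_lit 463) ln12_15_2 ln12_15_2_ok))))) (M (nat_lit 497) (B (L (nat_lit 462) ln17_15_3 ln17_15_3_ok) (M (nat_lit 529) (B (L (nat_lit 530) ln14_15_0 ln14_15_0_ok) (L (nat_lit 528) ln13_15_0 ln13_15_0_ok)))))))) (M (nat_lit 492) (B (M (nat_lit 491) (B (M (nat_lit 462) (B (L (nat_lit 490) ln10_15_2 ln10_15_2_ok) (L (nat_lit 463) ln11_15_2 ln11_15_2_ok))) (M (nat_lit 459) (B (L (nat_lit 458) ln14_15_3 ln14_15_3_ok) (L (nat_lit 460) ln15_15_3 ln15_15_3_ok))))) (B (M (nat_lit 491) (B (M (nat_lit 459) (B (L (nat_lit 460) ln15_15_3 ln15_15_3_ok) (L (nat_lit 458) ln14_15_3 ln14_15_3_ok))) (B (M (nat_lit 490) (B (M (nat_lit 458) (B (L (nat_lit 459) ln14_15_3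 ln14_15_3_ok) (L (nat_lit 457) ln13_15_3 ln13_15_3_ok))) (M (nat_lit 522) (B (L (nat_lit 523) ln14_15_1 ln14_15_1_ok) (L (nat_lit 521) ln13_15_1 ln13_15_1_ok))))) (B (M (nat_lit 490) (B (M (nat_lit 522) (B (L (nat_lit 523) ln14_15_1 ln14_15_1_ok) (L (nat_lit 521) ln13_15_1 ln13_15_1_ok))) (M (nat_lit 457) (B (L (nat_lit 458) ln13_15_3 ln13_15_3_ok) (M (nat_lit 489) (B (L (nat_lit 460) ln9_15_2 ln9_15_2_ok) (L (nat_lit 456) ln12_15_3 ln12_15_3_ok))))))) (M (nat_lit 490) (B (M (nat_lit 460) (B (L (nat_lit 459) ln15_15_3 ln15_15_3_ok) (L (nat_lit 489) ln9_15_2 ln9_15_2_ok))) (M (nat_lit 522) (B (L (nat_lit 523) ln14_15_1 ln14_15_1_ok) (L (nat_lit 521) ln13_15_1 ln13_15_1_ok))))))))) (B (M (nat_lit 491) (B (M (nat_lit 462) (B (L (nat_lit 490) ln10_15_2 ln10_15_2_ok) (L (nat_lit 463) ln11_15_2 ln11_15_2_ok))) (B (M (nat_lit 463) (B (L (nat_lit 462) ln11_15_2 ln11_15_2_ok) (L (nat_lit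 464) ln12_15_2 ln12_15_2_ok))) (M (nat_lit 490) (B (M (nat_lit 522) (B (L (nat_lit 521) ln13_15_1 ln13_15_1_ok) (L (nat_lit 523) ln14_15_1 ln14_15_1_ok))) (M (nat_lit 458) (B (L (nat_lit 457) ln13_15_3 ln13_15_3_ok) (L (nat_lit 459) ln14_15_3 ln14_15_3_ok)))))))) (B (M (nat_lit 491) (B (M (nat_lit 463) (B (L (nat_lit 464) ln12_15_2 ln12_15_2_ok) (L (nat_lit 462) ln11_15_2 ln11_15_2_ok))) (B (M (nat_lit 462) (B (L (nat_lit 463) ln11_15_2 ln11_15_2_ok) (L (nat_lit 490) ln10_15_2 ln10_15_2_ok))) (B (M (nat_lit 490) (B (L (nat_lit 462) ln10_15_2 ln10_15_2_ok) (M (nat_lit 522) (B (L (nat_lit 523) ln14_15_1 ln14_15_1_ok) (L (nat_lit 521) ln13_15_1 ln13_15_1_ok))))) (M (nat_lit 490) (B (M (nat_lit 522) (B (L (nat_lit 523) ln14_15_1 ln14_15_1_ok) (L (nat_lit 521) ln13_15_1 ln13_15_1_ok))) (M (nat_lit 457) (B (L (nat_lit 458) ln13_15_3 ln13_15_3_ok) (M (nat_lit 489) (B (L (nat_lit 460)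 ln9_15_2 ln9_15_2_ok) (L (nat_lit 456) ln12_15_3 ln12_15_3_ok))))))))))) (B (M (nat_lit 491) (B (M (nat_lit 463) (B (L (nat_lit 464) ln12_15_2 ln12_15_2_ok) (L (nat_lit 462) ln11_15_2 ln11_15_2_ok))) (B (M (nat_lit 462) (B (L (nat_lit 463) ln11_15_2 ln11_15_2_ok) (L (nat_lit 490) ln10_15_2 ln10_15_2_ok))) (B (M (nat_lit 460) (B (L (nat_lit 459) ln15_15_3 ln15_15_3_ok) (M (nat_lit 490) (B (L (nat_lit 462) ln10_15_2 ln10_15_2_ok) (L (nat_lit 489) ln9_15_2 ln9_15_2_ok))))) (M (nat_lit 490) (B (M (nat_lit 460) (B (L (nat_lit 489) ln9_15_2 ln9_15_2_ok) (L (nat_lit 459) ln15_15_3 ln15_15_3_ok))) (M (nat_lit 522) (B (L (nat_lit 523) ln14_15_1 ln14_15_1_ok) (L (nat_lit 521) ln13_15_1 ln13_15_1_ok))))))))) (M (nat_lit 460) (B (L (nat_lit 459) ln15_15_3 ln15_15_3_ok) (M (nat_lit 463) (B (L (nat_lit 464) ln12_15_2 ln12_15_2_ok) (L (nat_lit 462) ln12_14_2 ln12_14_2_ok)))))))))))))))))))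
noncomputable def c10_d196 : Cert := (B (M (nat_lit 400) (B (M (nat_lit 399) (B (L (nat_lit 433) ln13_12_0 ln13_12_0_ok) (L (nat_lit 431) ln12_12_0 ln12_12_0_ok))) (B (M (nat_lit 368) (B (M (nat_lit 399) (B (L (nat_lit 431) ln12_12_0 ln12_12_0_ok) (L (nat_lit 369) ln13_12_2 ln13_12_2_ok))) (B (M (nat_lit 369) (B (L (nat_lit 399) ln13_12_2 ln13_12_2_ok) (M (nat_lit 337) (B (L (nat_lit 464) ln16_14_6_c10 ln16_14_6_c10_ok) (M (nat_lit 305) (B (L (nat_lit 336) ln16_13_6_c10 ln16_13_6_c10_ok) (L (nat_lit 401) ln17_9_5_c10 ln17_9_5_c10_ok))))))) (B (M (nat_lit 464) (B (M (nat_lit 496) (B (M (nat_lit 497) (B (L (nat_lit 529) ln16_12_4 ln16_12_4_ok) (L (nat_lit 465) ln16_11_4 ln16_11_4_ok))) (M (nat_lit 369) (B (L (nat_lit 401) ln16_15_6_c10 ln16_15_6_c10_ok) (L (nat_lit 337) ln16_14_6_c10 ln16_14_6_c10_ok))))) (B (M (nat_lit 336) (B (M (nat_lit 463) (B (L (nat_lit 495) ln16_11_5_c10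 ln16_11_5_c10_ok) (L (nat_lit 431) ln16_10_5 ln16_10_5_ok))) (M (nat_lit 337) (B (L (nat_lit 369) ln16_14_6_c10 ln16_14_6_c10_ok) (L (nat_lit 305) ln16_13_6_c10 ln16_13_6_c10_ok))))) (M (nat_lit 496) (B (M (nat_lit 495) (B (L (nat_lit 527) ln16_12_5_c10 ln16_12_5_c10_ok) (L (nat_lit 463) ln16_11_5_c10 ln16_11_5_c10_ok))) (M (nat_lit 497) (B (L (nat_lit 529) ln16_12_4 ln16_12_4_ok) (L (nat_lit 465) ln16_11_4 ln16_11_4_ok)))))))) (M (nat_lit 431) (B (L (nat_lit 399) ln12_12_0 ln12_12_0_ok) (M (nat_lit 463) (B (L (nat_lit 336) ln16_10_5 ln16_10_5_ok) (M (nat_lit 495) (B (L (nat_lit 527) ln15_16_6 ln15_16_6_ok) (L (nat_lit 464) ln16_11_5_c10 ln16_11_5_c10_ok))))))))))) (B (K (nat_lit 76720092378520087920340758794032566832148876025833621505483447398119230230381523840761467286929032031000151833062199038055520561941131239170206859264) (nat_lit 2196735251957849304438208649017641559393320451925015372301324294003599743681293532472828554431411669496279719752440261021994582611919727195010381739816032141312)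 (nat_lit 2196735251957849304438208649017641559393320451925015372301324294003599743681293532472828554431411669496279719752440261021994582611919727195010381739816032141312) c10_s451) (M (nat_lit 368) (B (M (nat_lit 336) (B (M (nat_lit 465) (B (L (nat_lit 433) ln16_10_4_c10 ln16_10_4_c10_ok) (M (nat_lit 464) (B (L (nat_lit 497) ln16_11_4 ln16_11_4_ok) (M (nat_lit 463) (B (L (nat_lit 495) ln16_11_5_c10 ln16_11_5_c10_ok) (L (nat_lit 431) ln16_10_5 ln16_10_5_ok))))))) (M (nat_lit 305) (B (L (nat_lit 337) ln16_13_6_c10 ln16_13_6_c10_ok) (M (nat_lit 304) (B (L (nat_lit 273) ln16_12_6_c10 ln16_12_6_c10_ok) (M (nat_lit 303) (B (L (nat_lit 335) ln16_13_7 ln16_13_7_ok) (L (nat_lit 271) ln16_12_7_c10 ln16_12_7_c10_ok))))))))) (B (M (nat_lit 336) (B (M (nat_lit 464) (B (M (nat_lit 463) (B (L (nat_lit 495) ln16_11_5_c10 ln16_11_5_c10_ok) (L (nat_lit 431) ln16_10_5 ln16_10_5_ok))) (M (nat_lit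 337) (B (L (nat_lit 369) ln16_14_6_c10 ln16_14_6_c10_ok) (L (nat_lit 305) ln16_13_6_c10 ln16_13_6_c10_ok))))) (M (nat_lit 304) (B (M (nat_lit 433) (B (L (nat_lit 465) ln16_10_4_c10 ln16_10_4_c10_ok) (L (nat_lit 401) ln16_9_4_c10 ln16_9_4_c10_ok))) (M (nat_lit 303) (B (L (nat_lit 335) ln16_13_7 ln16_13_7_ok) (L (nat_lit 271) ln16_12_7_c10 ln16_12_7_c10_ok))))))) (B (M (nat_lit 464) (B (M (nat_lit 495) (B (L (nat_lit 463) ln16_11_5_c10 ln16_11_5_c10_ok) (M (nat_lit 496) (B (L (nat_lit 527) ln16_12_5_c10 ln16_12_5_c10_ok) (M (nat_lit 497) (B (L (nat_lit 465) ln16_11_4 ln16_11_4_ok) (L (nat_lit 529) ln16_12_4 ln16_12_4_ok))))))) (B (M (nat_lit 496) (B (M (nat_lit 369) (B (L (nat_lit 337) ln16_14_6_c10 ln16_14_6_c10_ok) (L (nat_lit 401) ln16_15_6_c10 ln16_15_6_c10_ok))) (M (nat_lit 497) (B (L (nat_lit 465) ln16_11_4 ln16_11_4_ok) (L (nat_lit 529) ln16_12_4 ln16_12_4_ok))))) (B (M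 (nat_lit 496) (B (M (nat_lit 369) (B (L (nat_lit 337) ln16_14_6_c10 ln16_14_6_c10_ok) (L (nat_lit 401) ln16_15_6_c10 ln16_15_6_c10_ok))) (M (nat_lit 495) (B (L (nat_lit 463) ln16_11_5_c10 ln16_11_5_c10_ok) (L (nat_lit 527) ln16_12_5_c10 ln16_12_5_c10_ok))))) (M (nat_lit 336) (B (M (nat_lit 337) (B (L (nat_lit 305) ln16_13_6_c10 ln16_13_6_c10_ok) (L (nat_lit 369) ln16_14_6_c10 ln16_14_6_c10_ok))) (M (nat_lit 463) (B (L (nat_lit 431) ln16_10_5 ln16_10_5_ok) (L (nat_lit 495) ln16_11_5_c10 ln16_11_5_c10_ok))))))))) c10_d189)))))))) (B (M (nat_lit 495) (B (M (nat_lit 460) (B (L (nat_lit 496) ln16_15_3 ln16_15_3_ok) (M (nat_lit 459) (B (L (nat_lit 458) ln10_14_0 ln10_14_0_ok) (L (nat_lit 492) ln15_15_3 ln15_15_3_ok))))) (B (M (nat_lit 460) (B (L (nat_lit 496) ln16_15_3 ln16_15_3_ok) (M (nat_lit 459) (B (L (nat_lit 492) ln15_15_3 ln15_15_3_ok) (L (nat_lit 462) ln11_14_0 ln11_14_0_ok)))))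 (B (M (nat_lit 496) (B (L (nat_lit 460) ln16_15_3 ln16_15_3_ok) (M (nat_lit 529) (B (L (nat_lit 528) ln13_15_0 ln13_15_0_ok) (M (nat_lit 465) (B (L (nat_lit 464) ln13_15_2 ln13_15_2_ok) (M (nat_lit 497) (B (L (nat_lit 530) ln14_15_0 ln14_15_0_ok) (L (nat_lit 466) ln14_15_2_c10 ln14_15_2_c10_ok))))))))) (B (M (nat_lit 496) (B (M (nat_lit 497) (B (L (nat_lit 462) ln17_15_3 ln17_15_3_ok) (M (nat_lit 465) (B (L (nat_lit 466) ln14_15_2_c10 ln14_15_2_c10_ok) (L (nat_lit 464) ln13_15_2 ln13_15_2_ok))))) (B (M (nat_lit 492) (B (M (nat_lit 528) (B (L (nat_lit 529) ln13_15_0 ln13_15_0_ok) (L (nat_lit 527) ln12_15_0 ln12_15_0_ok))) (M (nat_lit 464) (B (L (nat_lit 465) ln13_15_2 ln13_15_2_ok) (L (nat_lit 463) ln12_15_2 ln12_15_2_ok))))) (M (nat_lit 497) (B (L (nat_lit 462) ln17_15_3 ln17_15_3_ok) (M (nat_lit 529) (B (L (nat_lit 530) ln14_15_0 ln14_15_0_ok) (L (nat_lit 528) ln13_15_0 ln13_15_0_ok))))))))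 (M (nat_lit 492) (B (M (nat_lit 491) (B (M (nat_lit 462) (B (L (nat_lit 490) ln10_15_2 ln10_15_2_ok) (L (nat_lit 463) ln11_15_2 ln11_15_2_ok))) (M (nat_lit 459) (B (L (nat_lit 458) ln14_15_3 ln14_15_3_ok) (L (nat_lit 460) ln15_15_3 ln15_15_3_ok))))) (B (M (nat_lit 491) (B (M (nat_lit 459) (B (L (nat_lit 460) ln15_15_3 ln15_15_3_ok) (L (nat_lit 458) ln14_15_3 ln14_15_3_ok))) (B (M (nat_lit 490) (B (M (nat_lit 458) (B (L (nat_lit 459) ln14_15_3 ln14_15_3_ok) (L (nat_lit 457) ln13_15_3 ln13_15_3_ok))) (M (nat_lit 522) (B (L (nat_lit 523) ln14_15_1 ln14_15_1_ok) (L (nat_lit 521) ln13_15_1 ln13_15_1_ok))))) (B (M (nat_lit 490) (B (M (nat_lit 522) (B (L (nat_lit 523) ln14_15_1 ln14_15_1_ok) (L (nat_lit 521) ln13_15_1 ln13_15_1_ok))) (M (nat_lit 457) (B (L (nat_lit 458) ln13_15_3 ln13_15_3_ok) (M (nat_lit 489) (B (L (nat_lit 460) ln9_15_2 ln9_15_2_ok) (L (nat_lit 456) ln12_15_3 ln12_15_3_ok)))))))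 (M (nat_lit 490) (B (M (nat_lit 460) (B (L (nat_lit 459) ln15_15_3 ln15_15_3_ok) (L (nat_lit 489) ln9_15_2 ln9_15_2_ok))) (M (nat_lit 522) (B (L (nat_lit 523) ln14_15_1 ln14_15_1_ok) (L (nat_lit 521) ln13_15_1 ln13_15_1_ok))))))))) (B (M (nat_lit 491) (B (M (nat_lit 462) (B (L (nat_lit 490) ln10_15_2 ln10_15_2_ok) (L (nat_lit 463) ln11_15_2 ln11_15_2_ok))) (B (M (nat_lit 463) (B (L (nat_lit 462) ln11_15_2 ln11_15_2_ok) (L (nat_lit 464) ln12_15_2 ln12_15_2_ok))) (M (nat_lit 490) (B (M (nat_lit 522) (B (L (nat_lit 521) ln13_15_1 ln13_15_1_ok) (L (nat_lit 523) ln14_15_1 ln14_15_1_ok))) (M (nat_lit 458) (B (L (nat_lit 457) ln13_15_3 ln13_15_3_ok) (L (nat_lit 459) ln14_15_3 ln14_15_3_ok)))))))) (B (M (nat_lit 491) (B (M (nat_lit 463) (B (L (nat_lit 464) ln12_15_2 ln12_15_2_ok) (L (nat_lit 462) ln11_15_2 ln11_15_2_ok))) (B (M (nat_lit 462) (B (L (nat_lit 463) ln11_15_2 ln11_15_2_ok)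 (L (nat_lit 490) ln10_15_2 ln10_15_2_ok))) (B (M (nat_lit 490) (B (L (nat_lit 462) ln10_15_2 ln10_15_2_ok) (M (nat_lit 522) (B (L (nat_lit 523) ln14_15_1 ln14_15_1_ok) (L (nat_lit 521) ln13_15_1 ln13_15_1_ok))))) (M (nat_lit 490) (B (M (nat_lit 522) (B (L (nat_lit 523) ln14_15_1 ln14_15_1_ok) (L (nat_lit 521) ln13_15_1 ln13_15_1_ok))) (M (nat_lit 457) (B (L (nat_lit 458) ln13_15_3 ln13_15_3_ok) (M (nat_lit 489) (B (L (nat_lit 460) ln9_15_2 ln9_15_2_ok) (L (nat_lit 456) ln12_15_3 ln12_15_3_ok))))))))))) (B (M (nat_lit 491) (B (M (nat_lit 463) (B (L (nat_lit 464) ln12_15_2 ln12_15_2_ok) (L (nat_lit 462) ln11_15_2 ln11_15_2_ok))) (B (M (nat_lit 462) (B (L (nat_lit 463) ln11_15_2 ln11_15_2_ok) (L (nat_lit 490) ln10_15_2 ln10_15_2_ok))) (B (M (nat_lit 460) (B (L (nat_lit 459) ln15_15_3 ln15_15_3_ok) (M (nat_lit 490) (B (L (nat_lit 462) ln10_15_2 ln10_15_2_ok) (L (nat_lit 489) ln9_15_2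 ln9_15_2_ok))))) (M (nat_lit 490) (B (M (nat_lit 460) (B (L (nat_lit 489) ln9_15_2 ln9_15_2_ok) (L (nat_lit 459) ln15_15_3 ln15_15_3_ok))) (M (nat_lit 522) (B (L (nat_lit 523) ln14_15_1 ln14_15_1_ok) (L (nat_lit 521) ln13_15_1 ln13_15_1_ok))))))))) (M (nat_lit 463) (B (L (nat_lit 464) ln12_15_2 ln12_15_2_ok) (M (nat_lit 460) (B (L (nat_lit 459) ln15_15_3 ln15_15_3_ok) (M (nat_lit 527) (B (L (nat_lit 528) ln12_15_0 ln12_15_0_ok) (M (nat_lit 431) (B (L (nat_lit 462) ln12_14_2 ln12_14_2_ok) (L (nat_lit 400) ln15_16_6 ln15_16_6_ok)))))))))))))))))))) c10_d195))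
theorem c10_s455 : Sem (nat_lit 76720092378520087909250080014967057515748310699605367519734687222286258136870382005472322699165881916823413014015995372385817886659613779881562734592) (nat_lit 835407828168782721240446874300085569824594708042994199342552960289644821565928083311802773031707061548401237157231279065836472008788060259520560223634684114104807647023970258091188324139008) (nat_lit 835407828168782721240446874300085569824594708042994199342552960289644821565928083311802773031707061548401237157231279065836472008788060259520560223634684114104807647023970258091188324139008) :=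
  sem_of_chk (M (nat_lit 432) (B (M (nat_lit 399) (B (L (nat_lit 431) ln12_12_0 ln12_12_0_ok) (M (nat_lit 400) (B (L (nat_lit 433) ln13_12_0 ln13_12_0_ok) (M (nat_lit 368) (B (L (nat_lit 369) ln13_12_2 ln13_12_2_ok) (L (nat_lit 367) ln12_12_2 ln12_12_2_ok))))))) c10_d196)) (nat_lit 76720092378520087909250080014967057515748310699605367519734687222286258136870382005472322699165881916823413014015995372385817886659613779881562734592) (nat_lit 835407828168782721240446874300085569824594708042994199342552960289644821565928083311802773031707061548401237157231279065836472008788060259520560223634684114104807647023970258091188324139008) (nat_lit 835407828168782721240446874300085569824594708042994199342552960289644821565928083311802773031707061548401237157231279065836472008788060259520560223634684114104807647023970258091188324139008) (by decide +kernel)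
noncomputable def c10_d197 : Cert := (B (M (nat_lit 458) (B (M (nat_lit 489) (B (L (nat_lit 457) ln10_11_5 ln10_11_5_ok) (M (nat_lit 490) (B (L (nat_lit 521) ln10_12_5 ln10_12_5_ok) (M (nat_lit 491) (B (L (nat_lit 523) ln10_12_4 ln10_12_4_ok) (L (nat_lit 459) ln10_11_4 ln10_11_4_ok))))))) (B (M (nat_lit 490) (B (M (nat_lit 489) (B (L (nat_lit 521) ln10_12_5 ln10_12_5_ok) (L (nat_lit 457) ln10_11_5 ln10_11_5_ok))) (M (nat_lit 361) (B (L (nat_lit 393) ln10_15_7 ln10_15_7_ok) (L (nat_lit 329) ln10_14_7 ln10_14_7_ok))))) (B (M (nat_lit 457) (B (L (nat_lit 489) ln10_11_5 ln10_11_5_ok) (M (nat_lit 456) (B (M (nat_lit 455) (B (L (nat_lit 427) ln7_14_2 ln7_14_2_ok) (M (nat_lit 454) (B (L (nat_lit 425) ln6_14_2_c10 ln6_14_2_c10_ok) (M (nat_lit 486) (B (L (nat_lit 487) ln10_14_1_c10 ln10_14_1_c10_ok) (L (nat_lit 485) ln9_14_1_c10 ln9_14_1_c10_ok))))))) (B (M (nat_lit 455) (B (M (nat_lit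 459) (B (L (nat_lit 491) ln10_11_4 ln10_11_4_ok) (M (nat_lit 487) (B (L (nat_lit 488) ln11_14_1 ln11_14_1_ok) (L (nat_lit 486) ln10_14_1_c10 ln10_14_1_c10_ok))))) (B (M (nat_lit 454) (B (L (nat_lit 425) ln6_14_2_c10 ln6_14_2_c10_ok) (M (nat_lit 486) (B (L (nat_lit 487) ln10_14_1_c10 ln10_14_1_c10_ok) (L (nat_lit 485) ln9_14_1_c10 ln9_14_1_c10_ok))))) (M (nat_lit 459) (B (L (nat_lit 491) ln10_11_4 ln10_11_4_ok) (M (nat_lit 423) (B (L (nat_lit 424) ln11_14_3 ln11_14_3_ok) (L (nat_lit 422) ln10_14_3 ln10_14_3_ok)))))))) (B (M (nat_lit 455) (B (L (nat_lit 427) ln7_14_2 ln7_14_2_ok) (M (nat_lit 459) (B (L (nat_lit 491) ln10_11_4 ln10_11_4_ok) (M (nat_lit 423) (B (L (nat_lit 424) ln11_14_3 ln11_14_3_ok) (L (nat_lit 422) ln10_14_3 ln10_14_3_ok))))))) (M (nat_lit 459) (B (L (nat_lit 491) ln10_11_4 ln10_11_4_ok) (M (nat_lit 425) (B (M (nat_lit 424) (B (L (nat_lit 460) ln9_14_0 ln9_14_0_ok)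 (L (nat_lit 423) ln7_13_0 ln7_13_0_ok))) (M (nat_lit 361) (B (L (nat_lit 329) ln10_14_7 ln10_14_7_ok) (M (nat_lit 488) (B (L (nat_lit 487) ln11_14_1 ln11_14_1_ok) (L (nat_lit 393) ln9_11_5_c10 ln9_11_5_c10_ok))))))))))))))) (M (nat_lit 490) (B (M (nat_lit 491) (B (L (nat_lit 523) ln10_12_4 ln10_12_4_ok) (L (nat_lit 459) ln10_11_4 ln10_11_4_ok))) (M (nat_lit 361) (B (L (nat_lit 393) ln10_15_7 ln10_15_7_ok) (L (nat_lit 329) ln10_14_7 ln10_14_7_ok))))))))) (B (M (nat_lit 458) (B (M (nat_lit 490) (B (M (nat_lit 491) (B (L (nat_lit 523) ln10_12_4 ln10_12_4_ok) (L (nat_lit 459) ln10_11_4 ln10_11_4_ok))) (M (nat_lit 489) (B (L (nat_lit 521) ln10_12_5 ln10_12_5_ok) (L (nat_lit 457) ln10_11_5 ln10_11_5_ok))))) (B (M (nat_lit 457) (B (L (nat_lit 489) ln10_11_5 ln10_11_5_ok) (M (nat_lit 425) (B (L (nat_lit 330) ln10_10_5 ln10_10_5_ok) (M (nat_lit 459) (B (L (nat_lit 491) ln10_11_4 ln10_11_4_ok)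 (L (nat_lit 460) ln9_14_0 ln9_14_0_ok))))))) (B (M (nat_lit 490) (B (M (nat_lit 489) (B (L (nat_lit 521) ln10_12_5 ln10_12_5_ok) (L (nat_lit 457) ln10_11_5 ln10_11_5_ok))) (B (M (nat_lit 425) (B (M (nat_lit 393) (B (L (nat_lit 522) ln10_16_7 ln10_16_7_ok) (L (nat_lit 361) ln10_15_7 ln10_15_7_ok))) (M (nat_lit 457) (B (L (nat_lit 489) ln10_11_5 ln10_11_5_ok) (L (nat_lit 330) ln10_10_5 ln10_10_5_ok))))) (M (nat_lit 522) (B (M (nat_lit 393) (B (L (nat_lit 425) ln10_16_7 ln10_16_7_ok) (L (nat_lit 361) ln10_15_7 ln10_15_7_ok))) (M (nat_lit 554) (B (M (nat_lit 555) (B (L (nat_lit 587) ln10_14_4 ln10_14_4_ok) (L (nat_lit 523) ln10_13_4 ln10_13_4_ok))) (M (nat_lit 553) (B (L (nat_lit 585) ln10_14_5 ln10_14_5_ok) (L (nat_lit 521) ln10_13_5 ln10_13_5_ok)))))))))) (B (M (nat_lit 490) (B (M (nat_lit 491) (B (L (nat_lit 523) ln10_12_4 ln10_12_4_ok) (L (nat_lit 459) ln10_11_4 ln10_11_4_ok)))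 (M (nat_lit 393) (B (L (nat_lit 361) ln10_15_7 ln10_15_7_ok) (M (nat_lit 425) (B (L (nat_lit 522) ln10_16_7 ln10_16_7_ok) (M (nat_lit 330) (B (L (nat_lit 457) ln10_10_5 ln10_10_5_ok) (L (nat_lit 298) ln10_9_5_c10 ln10_9_5_c10_ok))))))))) (M (nat_lit 490) (B (M (nat_lit 491) (B (L (nat_lit 523) ln10_12_4 ln10_12_4_ok) (L (nat_lit 459) ln10_11_4 ln10_11_4_ok))) (M (nat_lit 522) (B (M (nat_lit 521) (B (L (nat_lit 553) ln10_13_5 ln10_13_5_ok) (L (nat_lit 489) ln10_12_5 ln10_12_5_ok))) (M (nat_lit 393) (B (L (nat_lit 425) ln10_16_7 ln10_16_7_ok) (L (nat_lit 361) ln10_15_7 ln10_15_7_ok)))))))))))) (M (nat_lit 330) (B (M (nat_lit 298) (B (M (nat_lit 267) (B (L (nat_lit 299) ln10_12_6_c10 ln10_12_6_c10_ok) (M (nat_lit 266) (B (L (nat_lit 235) ln10_11_6_c10 ln10_11_6_c10_ok) (M (nat_lit 265) (B (L (nat_lit 297) ln10_12_7_c10 ln10_12_7_c10_ok) (L (nat_lit 233) ln10_11_7_c10 ln10_11_7_c10_ok)))))))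 (B (M (nat_lit 266) (B (M (nat_lit 393) (B (L (nat_lit 425) ln10_9_5_c10 ln10_9_5_c10_ok) (L (nat_lit 361) ln10_8_5_c10 ln10_8_5_c10_ok))) (M (nat_lit 265) (B (L (nat_lit 297) ln10_12_7_c10 ln10_12_7_c10_ok) (L (nat_lit 233) ln10_11_7_c10 ln10_11_7_c10_ok))))) (B (M (nat_lit 266) (B (M (nat_lit 393) (B (L (nat_lit 425) ln10_9_5_c10 ln10_9_5_c10_ok) (L (nat_lit 361) ln10_8_5_c10 ln10_8_5_c10_ok))) (M (nat_lit 267) (B (L (nat_lit 299) ln10_12_6_c10 ln10_12_6_c10_ok) (L (nat_lit 235) ln10_11_6_c10 ln10_11_6_c10_ok))))) (M (nat_lit 425) (B (L (nat_lit 457) ln10_10_5 ln10_10_5_ok) (L (nat_lit 393) ln10_9_5_c10 ln10_9_5_c10_ok))))))) (B (M (nat_lit 297) (B (M (nat_lit 265) (B (L (nat_lit 298) ln10_12_7_c10 ln10_12_7_c10_ok) (L (nat_lit 329) ln10_13_7_c10 ln10_13_7_c10_ok))) (B (M (nat_lit 331) (B (L (nat_lit 329) ln10_13_7_c10 ln10_13_7_c10_ok) (L (nat_lit 299) ln10_13_6 ln10_13_6_ok)))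 (M (nat_lit 298) (B (L (nat_lit 265) ln10_12_7_c10 ln10_12_7_c10_ok) (M (nat_lit 299) (B (L (nat_lit 267) ln10_12_6_c10 ln10_12_6_c10_ok) (L (nat_lit 331) ln10_13_6 ln10_13_6_ok)))))))) (B (M (nat_lit 298) (B (M (nat_lit 299) (B (L (nat_lit 267) ln10_12_6_c10 ln10_12_6_c10_ok) (L (nat_lit 331) ln10_13_6 ln10_13_6_ok))) (M (nat_lit 425) (B (L (nat_lit 393) ln10_9_5_c10 ln10_9_5_c10_ok) (L (nat_lit 457) ln10_10_5 ln10_10_5_ok))))) (B (M (nat_lit 298) (B (M (nat_lit 425) (B (L (nat_lit 457) ln10_10_5 ln10_10_5_ok) (L (nat_lit 393) ln10_9_5_c10 ln10_9_5_c10_ok))) (M (nat_lit 297) (B (L (nat_lit 329) ln10_13_7_c10 ln10_13_7_c10_ok) (L (nat_lit 265) ln10_12_7_c10 ln10_12_7_c10_ok))))) (M (nat_lit 329) (B (L (nat_lit 297) ln10_13_7_c10 ln10_13_7_c10_ok) (M (nat_lit 331) (B (L (nat_lit 299) ln10_13_6 ln10_13_6_ok) (M (nat_lit 328) (B (M (nat_lit 359) (B (L (nat_lit 360) ln11_10_1_c10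 ln11_10_1_c10_ok) (M (nat_lit 327) (B (L (nat_lit 358) ln10_10_1_c10 ln10_10_1_c10_ok) (M (nat_lit 295) (B (L (nat_lit 294) ln10_10_3_c10 ln10_10_3_c10_ok) (L (nat_lit 296) ln11_10_3_c10 ln11_10_3_c10_ok))))))) (B (M (nat_lit 361) (B (M (nat_lit 360) (B (L (nat_lit 359) ln11_10_1_c10 ln11_10_1_c10_ok) (L (nat_lit 332) ln12_10_1 ln12_10_1_ok))) (B (M (nat_lit 332) (B (L (nat_lit 360) ln12_10_1 ln12_10_1_ok) (L (nat_lit 333) ln13_10_1 ln13_10_1_ok))) (M (nat_lit 425) (B (L (nat_lit 457) ln10_10_5 ln10_10_5_ok) (M (nat_lit 296) (B (L (nat_lit 295) ln11_10_3_c10 ln11_10_3_c10_ok) (L (nat_lit 393) ln9_13_7_c10 ln9_13_7_c10_ok)))))))) (B (M (nat_lit 327) (B (M (nat_lit 359) (B (L (nat_lit 358) ln10_10_1_c10 ln10_10_1_c10_ok) (L (nat_lit 360) ln11_10_1_c10 ln11_10_1_c10_ok))) (B (M (nat_lit 361) (B (L (nat_lit 326) ln6_10_0_c10 ln6_10_0_c10_ok) (M (nat_lit 360) (B (L (nat_lit 359)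 ln11_10_1_c10 ln11_10_1_c10_ok) (L (nat_lit 332) ln12_10_1 ln12_10_1_ok))))) (B (M (nat_lit 361) (B (L (nat_lit 326) ln6_10_0_c10 ln6_10_0_c10_ok) (M (nat_lit 332) (B (L (nat_lit 360) ln12_10_1 ln12_10_1_ok) (L (nat_lit 333) ln13_10_1 ln13_10_1_ok))))) (M (nat_lit 326) (B (L (nat_lit 361) ln6_10_0_c10 ln6_10_0_c10_ok) (M (nat_lit 358) (B (L (nat_lit 357) ln9_10_1_c10 ln9_10_1_c10_ok) (L (nat_lit 359) ln10_10_1_c10 ln10_10_1_c10_ok))))))))) (B (M (nat_lit 361) (B (M (nat_lit 332) (B (L (nat_lit 360) ln12_10_1 ln12_10_1_ok) (L (nat_lit 333) ln13_10_1 ln13_10_1_ok))) (M (nat_lit 425) (B (L (nat_lit 457) ln10_10_5 ln10_10_5_ok) (M (nat_lit 296) (B (L (nat_lit 295) ln11_10_3_c10 ln11_10_3_c10_ok) (L (nat_lit 393) ln9_13_7_c10 ln9_13_7_c10_ok))))))) (M (nat_lit 327) (B (M (nat_lit 295) (B (L (nat_lit 294) ln10_10_3_c10 ln10_10_3_c10_ok) (L (nat_lit 296) ln11_10_3_c10 ln11_10_3_c10_ok)))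 (M (nat_lit 326) (B (L (nat_lit 361) ln6_10_0_c10 ln6_10_0_c10_ok) (M (nat_lit 358) (B (L (nat_lit 357) ln9_10_1_c10 ln9_10_1_c10_ok) (L (nat_lit 359) ln10_10_1_c10 ln10_10_1_c10_ok)))))))))))))))))))))))
noncomputable def c10_d198 : Cert := (B (K (nat_lit 38360046192237175370206305111191528533778295555760518486504690880157080399214213656610394188905491795745471228443747722522642265813793040339254116352) (nat_lit 34323988311841395381847010140640711581696805668228797606944854121153804729245308433178432507833553398091615353840424841742111135036526160531850496577114210304) (nat_lit 34323988311841395381847010140640711581696805668228797606944854121153804729245308433178432507833553398091615353840424841742111135036526160531850496577114210304) c10_s456) (M (nat_lit 362) (B (M (nat_lit 330) (B (M (nat_lit 457) (B (L (nat_lit 425) ln10_10_5 ln10_10_5_ok) (M (nat_lit 458) (B (L (nat_lit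 489) ln10_11_5 ln10_11_5_ok) (M (nat_lit 459) (B (L (nat_lit 491) ln10_11_4 ln10_11_4_ok) (L (nat_lit 427) ln10_10_4 ln10_10_4_ok))))))) (M (nat_lit 297) (B (L (nat_lit 329) ln10_13_7_c10 ln10_13_7_c10_ok) (M (nat_lit 298) (B (L (nat_lit 265) ln10_12_7_c10 ln10_12_7_c10_ok) (M (nat_lit 299) (B (L (nat_lit 331) ln10_13_6 ln10_13_6_ok) (L (nat_lit 267) ln10_12_6_c10 ln10_12_6_c10_ok))))))))) (B (M (nat_lit 330) (B (M (nat_lit 458) (B (M (nat_lit 459) (B (L (nat_lit 491) ln10_11_4 ln10_11_4_ok) (L (nat_lit 427) ln10_10_4 ln10_10_4_ok))) (M (nat_lit 329) (B (L (nat_lit 361) ln10_14_7 ln10_14_7_ok) (L (nat_lit 297) ln10_13_7_c10 ln10_13_7_c10_ok))))) (M (nat_lit 298) (B (M (nat_lit 425) (B (L (nat_lit 457) ln10_10_5 ln10_10_5_ok) (L (nat_lit 393) ln10_9_5_c10 ln10_9_5_c10_ok))) (M (nat_lit 299) (B (L (nat_lit 331) ln10_13_6 ln10_13_6_ok) (L (nat_lit 267) ln10_12_6_c10 ln10_12_6_c10_ok)))))))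 (B (M (nat_lit 458) (B (M (nat_lit 491) (B (L (nat_lit 459) ln10_11_4 ln10_11_4_ok) (M (nat_lit 490) (B (L (nat_lit 523) ln10_12_4 ln10_12_4_ok) (M (nat_lit 489) (B (L (nat_lit 457) ln10_11_5 ln10_11_5_ok) (L (nat_lit 521) ln10_12_5 ln10_12_5_ok))))))) (B (M (nat_lit 490) (B (M (nat_lit 361) (B (L (nat_lit 329) ln10_14_7 ln10_14_7_ok) (L (nat_lit 393) ln10_15_7 ln10_15_7_ok))) (M (nat_lit 489) (B (L (nat_lit 457) ln10_11_5 ln10_11_5_ok) (L (nat_lit 521) ln10_12_5 ln10_12_5_ok))))) (B (M (nat_lit 490) (B (M (nat_lit 361) (B (L (nat_lit 329) ln10_14_7 ln10_14_7_ok) (L (nat_lit 393) ln10_15_7 ln10_15_7_ok))) (M (nat_lit 491) (B (L (nat_lit 459) ln10_11_4 ln10_11_4_ok) (L (nat_lit 523) ln10_12_4 ln10_12_4_ok))))) (M (nat_lit 330) (B (M (nat_lit 329) (B (L (nat_lit 297) ln10_13_7_c10 ln10_13_7_c10_ok) (L (nat_lit 361) ln10_14_7 ln10_14_7_ok))) (M (nat_lit 459) (B (L (nat_lit 427)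 ln10_10_4 ln10_10_4_ok) (L (nat_lit 491) ln10_11_4 ln10_11_4_ok))))))))) (B (K (nat_lit 38360046192237175370206305111191528533787689726091613819416248802544237747323716386806027468388320959631600064544206156296497061807332115151381856256) (nat_lit 34323988311841395381847010140640711581616110359529187543187011314117152685785347779043016542861962013716890951766269718309476283972667057305939447640838111232) (nat_lit 34323988311841395381847010140640711581616110359529187543187011314117152685785347779043016542861962013716890951766269718309476283972667057305939447640838111232) c10_s457) (B (M (nat_lit 330) (B (M (nat_lit 298) (B (M (nat_lit 425) (B (L (nat_lit 457) ln10_10_5 ln10_10_5_ok) (L (nat_lit 393) ln10_9_5_c10 ln10_9_5_c10_ok))) (M (nat_lit 299) (B (L (nat_lit 331) ln10_13_6 ln10_13_6_ok) (L (nat_lit 267) ln10_12_6_c10 ln10_12_6_c10_ok))))) (B (M (nat_lit 297) (B (L (nat_lit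 329) ln10_13_7_c10 ln10_13_7_c10_ok) (M (nat_lit 298) (B (L (nat_lit 265) ln10_12_7_c10 ln10_12_7_c10_ok) (M (nat_lit 299) (B (L (nat_lit 331) ln10_13_6 ln10_13_6_ok) (L (nat_lit 267) ln10_12_6_c10 ln10_12_6_c10_ok))))))) (B (M (nat_lit 298) (B (M (nat_lit 425) (B (L (nat_lit 457) ln10_10_5 ln10_10_5_ok) (L (nat_lit 393) ln10_9_5_c10 ln10_9_5_c10_ok))) (M (nat_lit 297) (B (L (nat_lit 329) ln10_13_7_c10 ln10_13_7_c10_ok) (L (nat_lit 265) ln10_12_7_c10 ln10_12_7_c10_ok))))) (M (nat_lit 458) (B (M (nat_lit 457) (B (L (nat_lit 489) ln10_11_5 ln10_11_5_ok) (L (nat_lit 425) ln10_10_5 ln10_10_5_ok))) (M (nat_lit 329) (B (L (nat_lit 361) ln10_14_7 ln10_14_7_ok) (L (nat_lit 297) ln10_13_7_c10 ln10_13_7_c10_ok))))))))) (B (M (nat_lit 330) (B (M (nat_lit 298) (B (M (nat_lit 299) (B (L (nat_lit 267) ln10_12_6_c10 ln10_12_6_c10_ok) (L (nat_lit 331) ln10_13_6 ln10_13_6_ok))) (M (nat_lit 297)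 (B (L (nat_lit 265) ln10_12_7_c10 ln10_12_7_c10_ok) (L (nat_lit 329) ln10_13_7_c10 ln10_13_7_c10_ok))))) (B (M (nat_lit 458) (B (M (nat_lit 329) (B (L (nat_lit 297) ln10_13_7_c10 ln10_13_7_c10_ok) (L (nat_lit 361) ln10_14_7 ln10_14_7_ok))) (M (nat_lit 459) (B (L (nat_lit 427) ln10_10_4 ln10_10_4_ok) (L (nat_lit 491) ln10_11_4 ln10_11_4_ok))))) (B (M (nat_lit 361) (B (M (nat_lit 459) (B (L (nat_lit 427) ln10_10_4 ln10_10_4_ok) (M (nat_lit 458) (B (L (nat_lit 329) ln10_14_7 ln10_14_7_ok) (L (nat_lit 491) ln10_11_4 ln10_11_4_ok))))) (M (nat_lit 298) (B (M (nat_lit 299) (B (L (nat_lit 267) ln10_12_6_c10 ln10_12_6_c10_ok) (L (nat_lit 331) ln10_13_6 ln10_13_6_ok))) (M (nat_lit 393) (B (L (nat_lit 266) ln10_8_5_c10 ln10_8_5_c10_ok) (L (nat_lit 425) ln10_9_5_c10 ln10_9_5_c10_ok))))))) (M (nat_lit 298) (B (M (nat_lit 299) (B (L (nat_lit 267) ln10_12_6_c10 ln10_12_6_c10_ok) (L (nat_lit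 331) ln10_13_6 ln10_13_6_ok))) (M (nat_lit 266) (B (M (nat_lit 265) (B (L (nat_lit 233) ln10_11_7_c10 ln10_11_7_c10_ok) (L (nat_lit 297) ln10_12_7_c10 ln10_12_7_c10_ok))) (M (nat_lit 393) (B (L (nat_lit 361) ln10_8_5_c10 ln10_8_5_c10_ok) (L (nat_lit 425) ln10_9_5_c10 ln10_9_5_c10_ok))))))))))) (B (M (nat_lit 458) (B (M (nat_lit 490) (B (M (nat_lit 361) (B (L (nat_lit 329) ln10_14_7 ln10_14_7_ok) (L (nat_lit 393) ln10_15_7 ln10_15_7_ok))) (M (nat_lit 489) (B (L (nat_lit 457) ln10_11_5 ln10_11_5_ok) (L (nat_lit 521) ln10_12_5 ln10_12_5_ok))))) (B (M (nat_lit 490) (B (M (nat_lit 489) (B (L (nat_lit 457) ln10_11_5 ln10_11_5_ok) (L (nat_lit 521) ln10_12_5 ln10_12_5_ok))) (M (nat_lit 491) (B (L (nat_lit 459) ln10_11_4 ln10_11_4_ok) (L (nat_lit 523) ln10_12_4 ln10_12_4_ok))))) (B (M (nat_lit 490) (B (M (nat_lit 361) (B (L (nat_lit 329) ln10_14_7 ln10_14_7_ok) (L (nat_lit 393) ln10_15_7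 ln10_15_7_ok))) (M (nat_lit 491) (B (L (nat_lit 459) ln10_11_4 ln10_11_4_ok) (L (nat_lit 523) ln10_12_4 ln10_12_4_ok))))) (M (nat_lit 330) (B (M (nat_lit 457) (B (L (nat_lit 425) ln10_10_5 ln10_10_5_ok) (L (nat_lit 489) ln10_11_5 ln10_11_5_ok))) (M (nat_lit 459) (B (L (nat_lit 427) ln10_10_4 ln10_10_4_ok) (L (nat_lit 491) ln10_11_4 ln10_11_4_ok))))))))) c10_d197)))))))))
noncomputable def c10_d199 : Cert := (B (M (nat_lit 330) (B (M (nat_lit 297) (B (L (nat_lit 329) ln10_13_7_c10 ln10_13_7_c10_ok) (M (nat_lit 298) (B (L (nat_lit 265) ln10_12_7_c10 ln10_12_7_c10_ok) (M (nat_lit 299) (B (L (nat_lit 267) ln10_12_6_c10 ln10_12_6_c10_ok) (L (nat_lit 331) ln10_13_6 ln10_13_6_ok))))))) (B (M (nat_lit 298) (B (M (nat_lit 297) (B (L (nat_lit 265) ln10_12_7_c10 ln10_12_7_c10_ok) (L (nat_lit 329) ln10_13_7_c10 ln10_13_7_c10_ok))) (M (nat_lit 425) (B (L (nat_lit 393) ln10_9_5_c10 ln10_9_5_c10_ok)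 (L (nat_lit 457) ln10_10_5 ln10_10_5_ok))))) (B (M (nat_lit 329) (B (L (nat_lit 297) ln10_13_7_c10 ln10_13_7_c10_ok) (M (nat_lit 328) (B (M (nat_lit 327) (B (L (nat_lit 363) ln7_10_0_c10 ln7_10_0_c10_ok) (M (nat_lit 326) (B (L (nat_lit 361) ln6_10_0_c10 ln6_10_0_c10_ok) (M (nat_lit 294) (B (L (nat_lit 295) ln10_10_3_c10 ln10_10_3_c10_ok) (L (nat_lit 293) ln9_10_3_c10 ln9_10_3_c10_ok))))))) (B (M (nat_lit 327) (B (M (nat_lit 331) (B (L (nat_lit 299) ln10_13_6 ln10_13_6_ok) (M (nat_lit 295) (B (L (nat_lit 296) ln11_10_3_c10 ln11_10_3_c10_ok) (L (nat_lit 294) ln10_10_3_c10 ln10_10_3_c10_ok))))) (B (M (nat_lit 326) (B (L (nat_lit 361) ln6_10_0_c10 ln6_10_0_c10_ok) (M (nat_lit 294) (B (L (nat_lit 295) ln10_10_3_c10 ln10_10_3_c10_ok) (L (nat_lit 293) ln9_10_3_c10 ln9_10_3_c10_ok))))) (M (nat_lit 331) (B (L (nat_lit 299) ln10_13_6 ln10_13_6_ok) (M (nat_lit 359) (B (L (nat_lit 360)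 ln11_10_1_c10 ln11_10_1_c10_ok) (L (nat_lit 358) ln10_10_1_c10 ln10_10_1_c10_ok)))))))) (B (M (nat_lit 327) (B (L (nat_lit 363) ln7_10_0_c10 ln7_10_0_c10_ok) (M (nat_lit 331) (B (L (nat_lit 299) ln10_13_6 ln10_13_6_ok) (M (nat_lit 359) (B (L (nat_lit 360) ln11_10_1_c10 ln11_10_1_c10_ok) (L (nat_lit 358) ln10_10_1_c10 ln10_10_1_c10_ok))))))) (M (nat_lit 331) (B (L (nat_lit 299) ln10_13_6 ln10_13_6_ok) (M (nat_lit 361) (B (M (nat_lit 360) (B (L (nat_lit 332) ln12_10_1 ln12_10_1_ok) (L (nat_lit 359) ln11_10_1_c10 ln11_10_1_c10_ok))) (M (nat_lit 425) (B (L (nat_lit 457) ln10_10_5 ln10_10_5_ok) (M (nat_lit 296) (B (L (nat_lit 295) ln11_10_3_c10 ln11_10_3_c10_ok) (L (nat_lit 393) ln9_13_7_c10 ln9_13_7_c10_ok))))))))))))))) (M (nat_lit 298) (B (M (nat_lit 299) (B (L (nat_lit 267) ln10_12_6_c10 ln10_12_6_c10_ok) (L (nat_lit 331) ln10_13_6 ln10_13_6_ok))) (M (nat_lit 425) (B (L (nat_lit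 393) ln10_9_5_c10 ln10_9_5_c10_ok) (L (nat_lit 457) ln10_10_5 ln10_10_5_ok))))))))) (B (M (nat_lit 330) (B (M (nat_lit 298) (B (M (nat_lit 299) (B (L (nat_lit 267) ln10_12_6_c10 ln10_12_6_c10_ok) (L (nat_lit 331) ln10_13_6 ln10_13_6_ok))) (M (nat_lit 297) (B (L (nat_lit 265) ln10_12_7_c10 ln10_12_7_c10_ok) (L (nat_lit 329) ln10_13_7_c10 ln10_13_7_c10_ok))))) (B (M (nat_lit 329) (B (L (nat_lit 297) ln10_13_7_c10 ln10_13_7_c10_ok) (M (nat_lit 361) (B (L (nat_lit 458) ln10_14_7 ln10_14_7_ok) (M (nat_lit 331) (B (L (nat_lit 299) ln10_13_6 ln10_13_6_ok) (M (nat_lit 332) (B (L (nat_lit 333) ln13_10_1 ln13_10_1_ok) (L (nat_lit 360) ln12_10_1 ln12_10_1_ok))))))))) (B (M (nat_lit 298) (B (M (nat_lit 297) (B (L (nat_lit 265) ln10_12_7_c10 ln10_12_7_c10_ok) (L (nat_lit 329) ln10_13_7_c10 ln10_13_7_c10_ok))) (B (M (nat_lit 361) (B (M (nat_lit 393) (B (L (nat_lit 266) ln10_8_5_c10 ln10_8_5_c10_ok)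 (L (nat_lit 425) ln10_9_5_c10 ln10_9_5_c10_ok))) (M (nat_lit 329) (B (L (nat_lit 297) ln10_13_7_c10 ln10_13_7_c10_ok) (L (nat_lit 458) ln10_14_7 ln10_14_7_ok))))) (M (nat_lit 266) (B (M (nat_lit 393) (B (L (nat_lit 361) ln10_8_5_c10 ln10_8_5_c10_ok) (L (nat_lit 425) ln10_9_5_c10 ln10_9_5_c10_ok))) (M (nat_lit 234) (B (M (nat_lit 235) (B (L (nat_lit 203) ln10_10_6_c10 ln10_10_6_c10_ok) (L (nat_lit 267) ln10_11_6_c10 ln10_11_6_c10_ok))) (M (nat_lit 233) (B (L (nat_lit 201) ln10_10_7_c10 ln10_10_7_c10_ok) (L (nat_lit 265) ln10_11_7_c10 ln10_11_7_c10_ok)))))))))) (B (M (nat_lit 298) (B (M (nat_lit 299) (B (L (nat_lit 267) ln10_12_6_c10 ln10_12_6_c10_ok) (L (nat_lit 331) ln10_13_6 ln10_13_6_ok))) (M (nat_lit 393) (B (L (nat_lit 425) ln10_9_5_c10 ln10_9_5_c10_ok) (M (nat_lit 361) (B (L (nat_lit 266) ln10_8_5_c10 ln10_8_5_c10_ok) (M (nat_lit 458) (B (L (nat_lit 329) ln10_14_7 ln10_14_7_ok)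 (L (nat_lit 490) ln10_15_7 ln10_15_7_ok))))))))) (M (nat_lit 298) (B (M (nat_lit 299) (B (L (nat_lit 267) ln10_12_6_c10 ln10_12_6_c10_ok) (L (nat_lit 331) ln10_13_6 ln10_13_6_ok))) (M (nat_lit 266) (B (M (nat_lit 265) (B (L (nat_lit 233) ln10_11_7_c10 ln10_11_7_c10_ok) (L (nat_lit 297) ln10_12_7_c10 ln10_12_7_c10_ok))) (M (nat_lit 393) (B (L (nat_lit 361) ln10_8_5_c10 ln10_8_5_c10_ok) (L (nat_lit 425) ln10_9_5_c10 ln10_9_5_c10_ok)))))))))))) (M (nat_lit 458) (B (M (nat_lit 490) (B (M (nat_lit 523) (B (L (nat_lit 491) ln10_12_4 ln10_12_4_ok) (M (nat_lit 522) (B (L (nat_lit 555) ln10_13_4 ln10_13_4_ok) (M (nat_lit 521) (B (L (nat_lit 489) ln10_12_5 ln10_12_5_ok) (L (nat_lit 553) ln10_13_5 ln10_13_5_ok))))))) (B (M (nat_lit 522) (B (M (nat_lit 393) (B (L (nat_lit 361) ln10_15_7 ln10_15_7_ok) (L (nat_lit 425) ln10_16_7 ln10_16_7_ok))) (M (nat_lit 521) (B (L (nat_lit 489) ln10_12_5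 ln10_12_5_ok) (L (nat_lit 553) ln10_13_5 ln10_13_5_ok))))) (B (M (nat_lit 522) (B (M (nat_lit 393) (B (L (nat_lit 361) ln10_15_7 ln10_15_7_ok) (L (nat_lit 425) ln10_16_7 ln10_16_7_ok))) (M (nat_lit 523) (B (L (nat_lit 491) ln10_12_4 ln10_12_4_ok) (L (nat_lit 555) ln10_13_4 ln10_13_4_ok))))) (M (nat_lit 361) (B (L (nat_lit 329) ln10_14_7 ln10_14_7_ok) (L (nat_lit 393) ln10_15_7 ln10_15_7_ok))))))) (B (M (nat_lit 489) (B (M (nat_lit 521) (B (L (nat_lit 490) ln10_12_5 ln10_12_5_ok) (L (nat_lit 457) ln10_11_5 ln10_11_5_ok))) (B (M (nat_lit 459) (B (L (nat_lit 457) ln10_11_5 ln10_11_5_ok) (L (nat_lit 491) ln10_11_4 ln10_11_4_ok))) (M (nat_lit 490) (B (L (nat_lit 521) ln10_12_5 ln10_12_5_ok) (M (nat_lit 491) (B (L (nat_lit 523) ln10_12_4 ln10_12_4_ok) (L (nat_lit 459) ln10_11_4 ln10_11_4_ok)))))))) (B (M (nat_lit 490) (B (M (nat_lit 491) (B (L (nat_lit 523) ln10_12_4 ln10_12_4_ok)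 (L (nat_lit 459) ln10_11_4 ln10_11_4_ok))) (M (nat_lit 361) (B (L (nat_lit 393) ln10_15_7 ln10_15_7_ok) (L (nat_lit 329) ln10_14_7 ln10_14_7_ok))))) (B (M (nat_lit 490) (B (M (nat_lit 361) (B (L (nat_lit 329) ln10_14_7 ln10_14_7_ok) (L (nat_lit 393) ln10_15_7 ln10_15_7_ok))) (M (nat_lit 489) (B (L (nat_lit 457) ln10_11_5 ln10_11_5_ok) (L (nat_lit 521) ln10_12_5 ln10_12_5_ok))))) (M (nat_lit 457) (B (L (nat_lit 489) ln10_11_5 ln10_11_5_ok) (M (nat_lit 459) (B (L (nat_lit 491) ln10_11_4 ln10_11_4_ok) (M (nat_lit 456) (B (M (nat_lit 423) (B (L (nat_lit 424) ln11_14_3 ln11_14_3_ok) (M (nat_lit 455) (B (L (nat_lit 422) ln10_14_3 ln10_14_3_ok) (M (nat_lit 487) (B (L (nat_lit 486) ln10_14_1_c10 ln10_14_1_c10_ok) (L (nat_lit 488) ln11_14_1 ln11_14_1_ok))))))) (B (M (nat_lit 425) (B (M (nat_lit 424) (B (L (nat_lit 423) ln7_13_0 ln7_13_0_ok) (L (nat_lit 460) ln9_14_0 ln9_14_0_ok))) (B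 (L (nat_lit 460) ln9_14_0 ln9_14_0_ok) (M (nat_lit 361) (B (L (nat_lit 329) ln10_14_7 ln10_14_7_ok) (M (nat_lit 488) (B (L (nat_lit 487) ln11_14_1 ln11_14_1_ok) (L (nat_lit 393) ln9_11_5_c10 ln9_11_5_c10_ok)))))))) (B (M (nat_lit 455) (B (M (nat_lit 423) (B (L (nat_lit 422) ln10_14_3 ln10_14_3_ok) (L (nat_lit 424) ln11_14_3 ln11_14_3_ok))) (B (M (nat_lit 425) (B (L (nat_lit 454) ln6_14_2_c10 ln6_14_2_c10_ok) (M (nat_lit 424) (B (L (nat_lit 423) ln7_13_0 ln7_13_0_ok) (L (nat_lit 460) ln9_14_0 ln9_14_0_ok))))) (M (nat_lit 425) (B (L (nat_lit 454) ln6_14_2_c10 ln6_14_2_c10_ok) (L (nat_lit 460) ln9_14_0 ln9_14_0_ok)))))) (M (nat_lit 425) (B (L (nat_lit 460) ln9_14_0 ln9_14_0_ok) (M (nat_lit 361) (B (L (nat_lit 329) ln10_14_7 ln10_14_7_ok) (M (nat_lit 488) (B (L (nat_lit 487) ln11_14_1 ln11_14_1_ok) (L (nat_lit 393) ln9_11_5_c10 ln9_11_5_c10_ok))))))))))))))))))))))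
noncomputable def c10_d200 : Cert := (B (M (nat_lit 488) (B (M (nat_lit 393) (B (L (nat_lit 520) ln8_16_6_c10 ln8_16_6_c10_ok) (M (nat_lit 361) (B (L (nat_lit 329) ln9_10_4_c10 ln9_10_4_c10_ok) (L (nat_lit 392) ln8_15_6_c10 ln8_15_6_c10_ok))))) (B (M (nat_lit 521) (B (M (nat_lit 520) (B (L (nat_lit 393) ln8_16_6_c10 ln8_16_6_c10_ok) (L (nat_lit 553) ln8_13_4_c10 ln8_13_4_c10_ok))) (B (M (nat_lit 489) (B (L (nat_lit 392) ln8_12_4_c10 ln8_12_4_c10_ok) (M (nat_lit 553) (B (L (nat_lit 520) ln8_13_4_c10 ln8_13_4_c10_ok) (L (nat_lit 585) ln9_18_7_c10 ln9_18_7_c10_ok))))) (M (nat_lit 392) (B (L (nat_lit 489) ln8_12_4_c10 ln8_12_4_c10_ok) (M (nat_lit 391) (B (L (nat_lit 359) ln8_15_7_c10 ln8_15_7_c10_ok) (M (nat_lit 390) (B (L (nat_lit 393) ln6_12_0_c10 ln6_12_0_c10_ok) (L (nat_lit 389) ln5_12_0_c10 ln5_12_0_c10_ok)))))))))) (B (M (nat_lit 392) (B (M (nat_lit 391) (B (L (nat_lit 359)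 ln8_15_7_c10 ln8_15_7_c10_ok) (M (nat_lit 393) (B (L (nat_lit 390) ln6_12_0_c10 ln6_12_0_c10_ok) (L (nat_lit 361) ln8_15_6_c10 ln8_15_6_c10_ok))))) (B (M (nat_lit 360) (B (M (nat_lit 487) (B (L (nat_lit 519) ln8_12_5_c10 ln8_12_5_c10_ok) (L (nat_lit 455) ln8_11_5_c10 ln8_11_5_c10_ok))) (M (nat_lit 361) (B (L (nat_lit 393) ln8_15_6_c10 ln8_15_6_c10_ok) (L (nat_lit 329) ln8_14_6_c10 ln8_14_6_c10_ok))))) (M (nat_lit 360) (B (M (nat_lit 487) (B (L (nat_lit 519) ln8_12_5_c10 ln8_12_5_c10_ok) (L (nat_lit 455) ln8_11_5_c10 ln8_11_5_c10_ok))) (M (nat_lit 359) (B (L (nat_lit 391) ln8_15_7_c10 ln8_15_7_c10_ok) (L (nat_lit 327) ln8_14_7_c10 ln8_14_7_c10_ok)))))))) (B (M (nat_lit 520) (B (L (nat_lit 393) ln8_16_6_c10 ln8_16_6_c10_ok) (M (nat_lit 551) (B (L (nat_lit 519) ln8_13_5_c10 ln8_13_5_c10_ok) (M (nat_lit 553) (B (L (nat_lit 521) ln8_13_4_c10 ln8_13_4_c10_ok) (M (nat_lit 552) (B (L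 (nat_lit 583) ln8_14_5_c10 ln8_14_5_c10_ok) (L (nat_lit 585) ln8_14_4_c10 ln8_14_4_c10_ok))))))))) (M (nat_lit 521) (B (M (nat_lit 553) (B (L (nat_lit 520) ln8_13_4_c10 ln8_13_4_c10_ok) (M (nat_lit 489) (B (L (nat_lit 585) ln9_18_7_c10 ln9_18_7_c10_ok) (L (nat_lit 392) ln8_12_4_c10 ln8_12_4_c10_ok))))) (B (M (nat_lit 519) (B (M (nat_lit 520) (B (L (nat_lit 551) ln8_13_5_c10 ln8_13_5_c10_ok) (L (nat_lit 553) ln8_13_4_c10 ln8_13_4_c10_ok))) (M (nat_lit 392) (B (L (nat_lit 487) ln8_12_5_c10 ln8_12_5_c10_ok) (L (nat_lit 489) ln8_12_4_c10 ln8_12_4_c10_ok))))) (B (M (nat_lit 392) (B (L (nat_lit 489) ln8_12_4_c10 ln8_12_4_c10_ok) (M (nat_lit 360) (B (M (nat_lit 487) (B (L (nat_lit 519) ln8_12_5_c10 ln8_12_5_c10_ok) (L (nat_lit 455) ln8_11_5_c10 ln8_11_5_c10_ok))) (M (nat_lit 359) (B (L (nat_lit 391) ln8_15_7_c10 ln8_15_7_c10_ok) (L (nat_lit 327) ln8_14_7_c10 ln8_14_7_c10_ok)))))))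 (B (M (nat_lit 520) (B (L (nat_lit 553) ln8_13_4_c10 ln8_13_4_c10_ok) (M (nat_lit 519) (B (L (nat_lit 551) ln8_13_5_c10 ln8_13_5_c10_ok) (M (nat_lit 487) (B (L (nat_lit 392) ln8_12_5_c10 ln8_12_5_c10_ok) (M (nat_lit 486) (B (L (nat_lit 522) ln10_16_3_c10 ln10_16_3_c10_ok) (L (nat_lit 485) ln5_15_0_c10 ln5_15_0_c10_ok))))))))) (M (nat_lit 520) (B (L (nat_lit 553) ln8_13_4_c10 ln8_13_4_c10_ok) (M (nat_lit 487) (B (M (nat_lit 519) (B (L (nat_lit 551) ln8_13_5_c10 ln8_13_5_c10_ok) (M (nat_lit 522) (B (L (nat_lit 486) ln10_16_3_c10 ln10_16_3_c10_ok) (L (nat_lit 523) ln11_16_3_c10 ln11_16_3_c10_ok))))) (B (M (nat_lit 522) (B (L (nat_lit 523) ln11_16_3_c10 ln11_16_3_c10_ok) (M (nat_lit 486) (B (L (nat_lit 519) ln10_16_3_c10 ln10_16_3_c10_ok) (L (nat_lit 485) ln5_15_0_c10 ln5_15_0_c10_ok))))) (B (M (nat_lit 522) (B (L (nat_lit 523) ln11_16_3_c10 ln11_16_3_c10_ok) (M (nat_lit 486) (B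 (L (nat_lit 485) ln5_15_0_c10 ln5_15_0_c10_ok) (L (nat_lit 489) ln6_15_0 ln6_15_0_ok))))) (M (nat_lit 552) (B (M (nat_lit 551) (B (L (nat_lit 583) ln8_14_5_c10 ln8_14_5_c10_ok) (L (nat_lit 519) ln8_13_5_c10 ln8_13_5_c10_ok))) (B (M (nat_lit 584) (B (L (nat_lit 455) ln8_18_7_c10 ln8_18_7_c10_ok) (M (nat_lit 616) (B (L (nat_lit 519) ln8_19_7_c10 ln8_19_7_c10_ok) (L (nat_lit 489) ln8_19_6_c10 ln8_19_6_c10_ok))))) (M (nat_lit 584) (B (L (nat_lit 455) ln8_18_7_c10 ln8_18_7_c10_ok) (M (nat_lit 583) (B (L (nat_lit 615) ln8_15_5_c10 ln8_15_5_c10_ok) (L (nat_lit 551) ln8_14_5_c10 ln8_14_5_c10_ok)))))))))))))))))))))))) (B (M (nat_lit 488) (B (M (nat_lit 393) (B (L (nat_lit 520) ln8_16_6_c10 ln8_16_6_c10_ok) (M (nat_lit 361) (B (L (nat_lit 329) ln9_10_4_c10 ln9_10_4_c10_ok) (L (nat_lit 457) ln9_11_5_c10 ln9_11_5_c10_ok))))) (B (M (nat_lit 393) (B (L (nat_lit 520) ln8_16_6_c10 ln8_16_6_c10_ok)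 (M (nat_lit 361) (B (L (nat_lit 392) ln8_15_6_c10 ln8_15_6_c10_ok) (L (nat_lit 457) ln9_11_5_c10 ln9_11_5_c10_ok))))) (B (M (nat_lit 520) (B (L (nat_lit 393) ln8_16_6_c10 ln8_16_6_c10_ok) (M (nat_lit 552) (B (L (nat_lit 457) ln8_17_6_c10 ln8_17_6_c10_ok) (M (nat_lit 553) (B (L (nat_lit 521) ln8_13_4_c10 ln8_13_4_c10_ok) (L (nat_lit 585) ln8_14_4_c10 ln8_14_4_c10_ok))))))) (B (M (nat_lit 520) (B (M (nat_lit 552) (B (L (nat_lit 457) ln8_17_6_c10 ln8_17_6_c10_ok) (M (nat_lit 553) (B (L (nat_lit 521) ln8_13_4_c10 ln8_13_4_c10_ok) (L (nat_lit 585) ln8_14_4_c10 ln8_14_4_c10_ok))))) (B (M (nat_lit 552) (B (M (nat_lit 553) (B (L (nat_lit 521) ln8_13_4_c10 ln8_13_4_c10_ok) (L (nat_lit 585) ln8_14_4_c10 ln8_14_4_c10_ok))) (M (nat_lit 551) (B (L (nat_lit 519) ln8_13_5_c10 ln8_13_5_c10_ok) (L (nat_lit 583) ln8_14_5_c10 ln8_14_5_c10_ok))))) (B (M (nat_lit 552) (B (L (nat_lit 457) ln8_17_6_c10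 ln8_17_6_c10_ok) (M (nat_lit 551) (B (L (nat_lit 519) ln8_13_5_c10 ln8_13_5_c10_ok) (L (nat_lit 583) ln8_14_5_c10 ln8_14_5_c10_ok))))) (M (nat_lit 392) (B (M (nat_lit 521) (B (L (nat_lit 489) ln8_12_4_c10 ln8_12_4_c10_ok) (L (nat_lit 553) ln8_13_4_c10 ln8_13_4_c10_ok))) (M (nat_lit 360) (B (M (nat_lit 359) (B (L (nat_lit 327) ln8_14_7_c10 ln8_14_7_c10_ok) (L (nat_lit 391) ln8_15_7_c10 ln8_15_7_c10_ok))) (M (nat_lit 329) (B (L (nat_lit 361) ln8_14_6_c10 ln8_14_6_c10_ok) (M (nat_lit 328) (B (L (nat_lit 297) ln8_13_6_c10 ln8_13_6_c10_ok) (L (nat_lit 457) ln8_10_4_c10 ln8_10_4_c10_ok))))))))))))) (B (M (nat_lit 393) (B (L (nat_lit 520) ln8_16_6_c10 ln8_16_6_c10_ok) (M (nat_lit 361) (B (L (nat_lit 329) ln9_10_4_c10 ln9_10_4_c10_ok) (L (nat_lit 392) ln8_15_6_c10 ln8_15_6_c10_ok))))) (M (nat_lit 392) (B (M (nat_lit 360) (B (M (nat_lit 359) (B (L (nat_lit 327) ln8_14_7_c10 ln8_14_7_c10_ok)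 (L (nat_lit 391) ln8_15_7_c10 ln8_15_7_c10_ok))) (M (nat_lit 489) (B (L (nat_lit 457) ln8_11_4_c10 ln8_11_4_c10_ok) (L (nat_lit 521) ln8_12_4_c10 ln8_12_4_c10_ok))))) (B (M (nat_lit 360) (B (M (nat_lit 361) (B (L (nat_lit 329) ln8_14_6_c10 ln8_14_6_c10_ok) (L (nat_lit 393) ln8_15_6_c10 ln8_15_6_c10_ok))) (M (nat_lit 489) (B (L (nat_lit 457) ln8_11_4_c10 ln8_11_4_c10_ok) (L (nat_lit 521) ln8_12_4_c10 ln8_12_4_c10_ok))))) (M (nat_lit 391) (B (L (nat_lit 359) ln8_15_7_c10 ln8_15_7_c10_ok) (M (nat_lit 393) (B (L (nat_lit 361) ln8_15_6_c10 ln8_15_6_c10_ok) (L (nat_lit 390) ln6_12_0_c10 ln6_12_0_c10_ok)))))))))))))) (M (nat_lit 491) (B (L (nat_lit 494) ln14_15_3 ln14_15_3_ok) (L (nat_lit 457) ln8_14_0 ln8_14_0_ok)))))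
noncomputable def c10_d201 : Cert := (B (K (nat_lit 38360046192981458223971652495055311577417437642193118605580893232490820631149265774532720578260437232396364319768722906463002307360276334026610966528) (nat_lit 633165827977536177350368080143109437462195828922376216260421843867804337084984978467888102144020418221017668412437166159141398006289004011949476464490592681003177665082211434496) (nat_lit 633165827977536177350368080143109437462195828922376216260421843867804337084984978467888102144020418221017668412437166159141398006289004011949476464490592681003177665082211434496) c10_s458) (B (K (nat_lit 38360046192981458223971652495055311577417437642193118605580893232490820631149265774532720578260437232396364319768722906463002307360276334026610966528) (nat_lit 633165827977536177350368080194256165709084479933974902361508065462634735768051608296876902383066016861918759070432022404761611189909820669174160929759979182124758067405066862592)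 (nat_lit 633165827977536177350368080194256165709084479933974902361508065462634735768051608296876902383066016861918759070432022404761611189909820669174160929759979182124758067405066862592) c10_s459) (B (M (nat_lit 459) (B (L (nat_lit 460) ln13_14_3 ln13_14_3_ok) (M (nat_lit 491) (B (L (nat_lit 494) ln14_15_3 ln14_15_3_ok) (M (nat_lit 490) (B (L (nat_lit 462) ln10_15_2 ln10_15_2_ok) (M (nat_lit 522) (B (L (nat_lit 521) ln13_15_1 ln13_15_1_ok) (L (nat_lit 393) ln10_16_7 ln10_16_7_ok))))))))) (B (M (nat_lit 459) (B (M (nat_lit 491) (B (L (nat_lit 362) ln10_11_4 ln10_11_4_ok) (L (nat_lit 494) ln14_15_3 ln14_15_3_ok))) (L (nat_lit 460) ln13_14_3 ln13_14_3_ok))) (M (nat_lit 457) (B (M (nat_lit 459) (B (L (nat_lit 460) ln9_14_0 ln9_14_0_ok) (M (nat_lit 456) (B (M (nat_lit 487) (B (L (nat_lit 488) ln11_14_1 ln11_14_1_ok) (M (nat_lit 455) (B (L (nat_lit 486) ln10_14_1_c10 ln10_14_1_c10_ok)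 (L (nat_lit 454) ln6_14_2_c10 ln6_14_2_c10_ok))))) (B (M (nat_lit 423) (B (L (nat_lit 424) ln7_13_0 ln7_13_0_ok) (M (nat_lit 455) (B (L (nat_lit 422) ln10_14_3 ln10_14_3_ok) (L (nat_lit 454) ln6_14_2_c10 ln6_14_2_c10_ok))))) (B (M (nat_lit 455) (B (M (nat_lit 423) (B (L (nat_lit 422) ln10_14_3 ln10_14_3_ok) (L (nat_lit 424) ln7_13_0 ln7_13_0_ok))) (M (nat_lit 487) (B (L (nat_lit 486) ln10_14_1_c10 ln10_14_1_c10_ok) (L (nat_lit 488) ln11_14_1 ln11_14_1_ok))))) (M (nat_lit 424) (B (L (nat_lit 423) ln7_13_0 ln7_13_0_ok) (M (nat_lit 488) (B (L (nat_lit 487) ln11_14_1 ln11_14_1_ok) (M (nat_lit 392) (B (M (nat_lit 489) (B (L (nat_lit 521) ln8_12_4_c10 ln8_12_4_c10_ok) (L (nat_lit 360) ln8_11_4_c10 ln8_11_4_c10_ok))) (B (M (nat_lit 521) (B (L (nat_lit 489) ln8_12_4_c10 ln8_12_4_c10_ok) (M (nat_lit 520) (B (L (nat_lit 552) ln8_17_6_c10 ln8_17_6_c10_ok) (L (nat_lit 553) ln8_13_4_c10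 ln8_13_4_c10_ok))))) (B (M (nat_lit 360) (B (L (nat_lit 489) ln8_11_4_c10 ln8_11_4_c10_ok) (L (nat_lit 328) ln8_10_4_c10 ln8_10_4_c10_ok))) (M (nat_lit 359) (B (L (nat_lit 391) ln8_15_7_c10 ln8_15_7_c10_ok) (M (nat_lit 360) (B (L (nat_lit 327) ln8_14_7_c10 ln8_14_7_c10_ok) (L (nat_lit 328) ln8_10_4_c10 ln8_10_4_c10_ok))))))))))))))))))) (B (M (nat_lit 489) (B (L (nat_lit 362) ln10_11_5 ln10_11_5_ok) (L (nat_lit 521) ln9_16_6 ln9_16_6_ok))) (B (M (nat_lit 362) (B (L (nat_lit 489) ln10_11_5 ln10_11_5_ok) (L (nat_lit 330) ln10_10_5 ln10_10_5_ok))) (M (nat_lit 456) (B (M (nat_lit 455) (B (L (nat_lit 454) ln6_14_2_c10 ln6_14_2_c10_ok) (M (nat_lit 423) (B (L (nat_lit 422) ln10_14_3 ln10_14_3_ok) (M (nat_lit 459) (B (L (nat_lit 424) ln7_13_0 ln7_13_0_ok) (M (nat_lit 487) (B (L (nat_lit 488) ln11_14_1 ln11_14_1_ok) (L (nat_lit 486) ln10_14_1_c10 ln10_14_1_c10_ok))))))))) (B (M (nat_lit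 455) (B (L (nat_lit 454) ln6_14_2_c10 ln6_14_2_c10_ok) (M (nat_lit 423) (B (L (nat_lit 422) ln10_14_3 ln10_14_3_ok) (M (nat_lit 424) (B (L (nat_lit 459) ln7_13_0 ln7_13_0_ok) (M (nat_lit 487) (B (L (nat_lit 486) ln10_14_1_c10 ln10_14_1_c10_ok) (M (nat_lit 519) (B (L (nat_lit 551) ln7_17_6_c10 ln7_17_6_c10_ok) (L (nat_lit 392) ln7_16_6_c10 ln7_16_6_c10_ok))))))))))) (B (M (nat_lit 455) (B (L (nat_lit 454) ln6_14_2_c10 ln6_14_2_c10_ok) (M (nat_lit 423) (B (L (nat_lit 422) ln10_14_3 ln10_14_3_ok) (M (nat_lit 424) (B (L (nat_lit 459) ln7_13_0 ln7_13_0_ok) (M (nat_lit 391) (B (L (nat_lit 390) ln10_13_3_c10 ln10_13_3_c10_ok) (M (nat_lit 488) (B (L (nat_lit 520) ln8_16_7_c10 ln8_16_7_c10_ok) (L (nat_lit 359) ln7_11_4_c10 ln7_11_4_c10_ok))))))))))) (B (M (nat_lit 455) (B (L (nat_lit 454) ln6_14_2_c10 ln6_14_2_c10_ok) (M (nat_lit 423) (B (L (nat_lit 422) ln10_14_3 ln10_14_3_ok) (M (nat_lit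 424) (B (M (nat_lit 487) (B (L (nat_lit 486) ln10_14_1_c10 ln10_14_1_c10_ok) (M (nat_lit 519) (B (L (nat_lit 551) ln7_17_6_c10 ln7_17_6_c10_ok) (L (nat_lit 392) ln7_16_6_c10 ln7_16_6_c10_ok))))) (M (nat_lit 391) (B (L (nat_lit 390) ln10_13_3_c10 ln10_13_3_c10_ok) (M (nat_lit 488) (B (L (nat_lit 520) ln8_16_7_c10 ln8_16_7_c10_ok) (L (nat_lit 359) ln7_11_4_c10 ln7_11_4_c10_ok))))))))))) (B (M (nat_lit 424) (B (M (nat_lit 459) (B (L (nat_lit 460) ln9_14_0 ln9_14_0_ok) (L (nat_lit 423) ln7_13_0 ln7_13_0_ok))) (B (M (nat_lit 423) (B (L (nat_lit 459) ln7_13_0 ln7_13_0_ok) (L (nat_lit 422) ln6_13_0_c10 ln6_13_0_c10_ok))) (B (M (nat_lit 423) (B (L (nat_lit 422) ln6_13_0_c10 ln6_13_0_c10_ok) (M (nat_lit 391) (B (L (nat_lit 390) ln10_13_3_c10 ln10_13_3_c10_ok) (M (nat_lit 488) (B (L (nat_lit 520) ln8_16_7_c10 ln8_16_7_c10_ok) (M (nat_lit 359) (B (L (nat_lit 392) ln8_15_7_c10 ln8_15_7_c10_ok)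 (L (nat_lit 327) ln7_10_4_c10 ln7_10_4_c10_ok))))))))) (M (nat_lit 488) (B (M (nat_lit 520) (B (L (nat_lit 552) ln8_17_6_c10 ln8_17_6_c10_ok) (L (nat_lit 393) ln8_16_6_c10 ln8_16_6_c10_ok))) (M (nat_lit 459) (B (L (nat_lit 487) ln11_14_1 ln11_14_1_ok) (L (nat_lit 460) ln9_14_0 ln9_14_0_ok))))))))) (B (M (nat_lit 455) (B (L (nat_lit 454) ln6_14_2_c10 ln6_14_2_c10_ok) (M (nat_lit 423) (B (L (nat_lit 422) ln10_14_3 ln10_14_3_ok) (M (nat_lit 487) (B (L (nat_lit 486) ln10_14_1_c10 ln10_14_1_c10_ok) (M (nat_lit 488) (B (L (nat_lit 459) ln11_14_1 ln11_14_1_ok) (M (nat_lit 520) (B (L (nat_lit 552) ln8_17_6_c10 ln8_17_6_c10_ok) (L (nat_lit 391) ln7_12_4_c10 ln7_12_4_c10_ok))))))))))) (M (nat_lit 455) (B (L (nat_lit 454) ln6_14_2_c10 ln6_14_2_c10_ok) (M (nat_lit 487) (B (L (nat_lit 486) ln10_14_1_c10 ln10_14_1_c10_ok) (M (nat_lit 488) (B (L (nat_lit 459) ln11_14_1 ln11_14_1_ok) (M (nat_lit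 424) (B (M (nat_lit 520) (B (L (nat_lit 552) ln8_17_6_c10 ln8_17_6_c10_ok) (L (nat_lit 393) ln8_16_6_c10 ln8_16_6_c10_ok))) (M (nat_lit 519) (B (L (nat_lit 551) ln7_17_6_c10 ln7_17_6_c10_ok) (L (nat_lit 392) ln8_12_5_c10 ln8_12_5_c10_ok))))))))))))))))))))))))))
noncomputable def c10_d202 : Cert := (B (M (nat_lit 425) (B (L (nat_lit 395) ln13_12_1 ln13_12_1_ok) (M (nat_lit 458) (B (M (nat_lit 459) (B (M (nat_lit 494) (B (L (nat_lit 491) ln14_15_3 ln14_15_3_ok) (L (nat_lit 460) ln10_14_0 ln10_14_0_ok))) (B (L (nat_lit 460) ln13_14_3 ln13_14_3_ok) (M (nat_lit 491) (B (L (nat_lit 494) ln14_15_3 ln14_15_3_ok) (M (nat_lit 457) (B (L (nat_lit 490) ln13_15_3 ln13_15_3_ok) (L (nat_lit 456) ln8_14_0 ln8_14_0_ok)))))))) (B (K (nat_lit 38360046192981458223971652495055311577417437642193118605580893232490820631149265774532720578260437232396364319768722906463002307360276334026610966528) (nat_lit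 633165827977536177350368080143109437462195828922376216260421843867804337084984978467888102144020418221017668412437166159141398006289004011949476464490592681003177665082211434496) (nat_lit 633165827977536177350368080143109437462195828922376216260421843867804337084984978467888102144020418221017668412437166159141398006289004011949476464490592681003177665082211434496) c10_s458) (B (K (nat_lit 38360046192981458223971652495055311577417437642193118605580893232490820631149265774532720578260437232396364319768722906463002307360276334026610966528) (nat_lit 633165827977536177350368080194256165709084479933974902361508065462634735768051608296876902383066016861918759070432022404761611189909820669174160929759979182124758067405066862592) (nat_lit 633165827977536177350368080194256165709084479933974902361508065462634735768051608296876902383066016861918759070432022404761611189909820669174160929759979182124758067405066862592)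 c10_s459) (B (M (nat_lit 459) (B (L (nat_lit 460) ln13_14_3 ln13_14_3_ok) (M (nat_lit 424) (B (L (nat_lit 423) ln7_13_0 ln7_13_0_ok) (M (nat_lit 456) (B (M (nat_lit 457) (B (L (nat_lit 491) ln8_14_0 ln8_14_0_ok) (M (nat_lit 488) (B (L (nat_lit 487) ln11_14_1 ln11_14_1_ok) (M (nat_lit 520) (B (L (nat_lit 552) ln8_17_6_c10 ln8_17_6_c10_ok) (L (nat_lit 393) ln8_16_6_c10 ln8_16_6_c10_ok))))))) (B (M (nat_lit 488) (B (M (nat_lit 393) (B (L (nat_lit 520) ln8_16_6_c10 ln8_16_6_c10_ok) (M (nat_lit 361) (B (L (nat_lit 392) ln8_15_6_c10 ln8_15_6_c10_ok) (L (nat_lit 329) ln9_10_4_c10 ln9_10_4_c10_ok))))) (B (M (nat_lit 393) (B (L (nat_lit 520) ln8_16_6_c10 ln8_16_6_c10_ok) (M (nat_lit 361) (B (L (nat_lit 329) ln9_10_4_c10 ln9_10_4_c10_ok) (L (nat_lit 457) ln9_11_5_c10 ln9_11_5_c10_ok))))) (B (M (nat_lit 392) (B (M (nat_lit 487) (B (L (nat_lit 519) ln8_12_5_c10 ln8_12_5_c10_ok) (L (nat_lit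 457) ln11_14_1 ln11_14_1_ok))) (M (nat_lit 360) (B (M (nat_lit 359) (B (L (nat_lit 327) ln8_14_7_c10 ln8_14_7_c10_ok) (L (nat_lit 391) ln8_15_7_c10 ln8_15_7_c10_ok))) (M (nat_lit 361) (B (L (nat_lit 329) ln8_14_6_c10 ln8_14_6_c10_ok) (L (nat_lit 393) ln8_15_6_c10 ln8_15_6_c10_ok))))))) (B (M (nat_lit 393) (B (L (nat_lit 520) ln8_16_6_c10 ln8_16_6_c10_ok) (M (nat_lit 361) (B (L (nat_lit 392) ln8_15_6_c10 ln8_15_6_c10_ok) (L (nat_lit 457) ln9_11_5_c10 ln9_11_5_c10_ok))))) (M (nat_lit 392) (B (M (nat_lit 487) (B (L (nat_lit 519) ln8_12_5_c10 ln8_12_5_c10_ok) (L (nat_lit 457) ln11_14_1 ln11_14_1_ok))) (B (M (nat_lit 360) (B (M (nat_lit 359) (B (L (nat_lit 327) ln8_14_7_c10 ln8_14_7_c10_ok) (L (nat_lit 391) ln8_15_7_c10 ln8_15_7_c10_ok))) (M (nat_lit 457) (B (L (nat_lit 328) ln8_10_4_c10 ln8_10_4_c10_ok) (L (nat_lit 489) ln8_11_4_c10 ln8_11_4_c10_ok))))) (M (nat_lit 360) (B (M (nat_lit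 359) (B (L (nat_lit 327) ln8_14_7_c10 ln8_14_7_c10_ok) (L (nat_lit 391) ln8_15_7_c10 ln8_15_7_c10_ok))) (M (nat_lit 487) (B (L (nat_lit 455) ln8_11_5_c10 ln8_11_5_c10_ok) (L (nat_lit 519) ln8_12_5_c10 ln8_12_5_c10_ok))))))))))))) c10_d200))))))) (B (M (nat_lit 459) (B (L (nat_lit 460) ln13_14_3 ln13_14_3_ok) (M (nat_lit 491) (B (L (nat_lit 494) ln14_15_3 ln14_15_3_ok) (M (nat_lit 490) (B (L (nat_lit 462) ln10_15_2 ln10_15_2_ok) (M (nat_lit 522) (B (L (nat_lit 521) ln13_15_1 ln13_15_1_ok) (L (nat_lit 393) ln10_16_7 ln10_16_7_ok))))))))) (M (nat_lit 459) (B (L (nat_lit 460) ln13_14_3 ln13_14_3_ok) (M (nat_lit 424) (B (L (nat_lit 423) ln7_13_0 ln7_13_0_ok) (M (nat_lit 393) (B (M (nat_lit 490) (B (L (nat_lit 522) ln10_16_7 ln10_16_7_ok) (M (nat_lit 489) (B (L (nat_lit 521) ln10_12_5 ln10_12_5_ok) (M (nat_lit 488) (B (L (nat_lit 487) ln7_15_2 ln7_15_2_ok) (M (nat_lit 520) (B (L (nat_lit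 456) ln8_16_6_c10 ln8_16_6_c10_ok) (L (nat_lit 457) ln9_12_5_c10 ln9_12_5_c10_ok))))))))) (B (M (nat_lit 361) (B (L (nat_lit 490) ln10_15_7 ln10_15_7_ok) (L (nat_lit 329) ln9_10_4_c10 ln9_10_4_c10_ok))) (M (nat_lit 361) (B (M (nat_lit 456) (B (M (nat_lit 488) (B (L (nat_lit 392) ln8_15_6_c10 ln8_15_6_c10_ok) (L (nat_lit 457) ln9_11_5_c10 ln9_11_5_c10_ok))) (L (nat_lit 329) ln9_10_4_c10 ln9_10_4_c10_ok))) (B (L (nat_lit 329) ln9_10_4_c10 ln9_10_4_c10_ok) (M (nat_lit 457) (B (M (nat_lit 489) (B (M (nat_lit 488) (B (L (nat_lit 520) ln9_12_5_c10 ln9_12_5_c10_ok) (L (nat_lit 456) ln9_11_5_c10 ln9_11_5_c10_ok))) (M (nat_lit 392) (B (L (nat_lit 521) ln9_16_6 ln9_16_6_ok) (L (nat_lit 360) ln9_15_7 ln9_15_7_ok))))) (B (M (nat_lit 489) (B (M (nat_lit 488) (B (L (nat_lit 520) ln9_12_5_c10 ln9_12_5_c10_ok) (L (nat_lit 456) ln9_11_5_c10 ln9_11_5_c10_ok))) (B (M (nat_lit 456) (B (L (nat_lit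 488) ln9_11_5_c10 ln9_11_5_c10_ok) (L (nat_lit 521) ln9_16_6 ln9_16_6_ok))) (L (nat_lit 521) ln9_16_6 ln9_16_6_ok)))) (B (M (nat_lit 456) (B (L (nat_lit 488) ln9_11_5_c10 ln9_11_5_c10_ok) (M (nat_lit 360) (B (L (nat_lit 328) ln9_14_7_c10 ln9_14_7_c10_ok) (M (nat_lit 392) (B (M (nat_lit 359) (B (L (nat_lit 327) ln8_14_7_c10 ln8_14_7_c10_ok) (L (nat_lit 358) ln6_11_0_c10 ln6_11_0_c10_ok))) (M (nat_lit 455) (B (L (nat_lit 487) ln8_11_5_c10 ln8_11_5_c10_ok) (L (nat_lit 454) ln6_14_2_c10 ln6_14_2_c10_ok))))))))) (M (nat_lit 489) (B (M (nat_lit 392) (B (L (nat_lit 521) ln9_16_6 ln9_16_6_ok) (L (nat_lit 360) ln9_15_7 ln9_15_7_ok))) (B (L (nat_lit 521) ln9_16_6 ln9_16_6_ok) (M (nat_lit 360) (B (L (nat_lit 392) ln9_15_7 ln9_15_7_ok) (L (nat_lit 328) ln9_14_7_c10 ln9_14_7_c10_ok)))))))))))))))))))))))))))) (M (nat_lit 425) (B (L (nat_lit 395) ln13_12_1 ln13_12_1_ok) (M (nat_lit 458) (B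 (M (nat_lit 459) (B (M (nat_lit 494) (B (L (nat_lit 491) ln14_15_3 ln14_15_3_ok) (L (nat_lit 460) ln10_14_0 ln10_14_0_ok))) (B (L (nat_lit 460) ln13_14_3 ln13_14_3_ok) (M (nat_lit 491) (B (L (nat_lit 494) ln14_15_3 ln14_15_3_ok) (M (nat_lit 457) (B (L (nat_lit 490) ln13_15_3 ln13_15_3_ok) (L (nat_lit 456) ln8_14_0 ln8_14_0_ok)))))))) c10_d201)))))
noncomputable def c10_d203 : Cert := (B (M (nat_lit 362) (B (M (nat_lit 363) (B (L (nat_lit 395) ln14_12_3 ln14_12_3_ok) (M (nat_lit 331) (B (L (nat_lit 458) ln10_14_6 ln10_14_6_ok) (M (nat_lit 299) (B (L (nat_lit 267) ln11_8_5 ln11_8_5_ok) (L (nat_lit 330) ln10_13_6 ln10_13_6_ok))))))) (B (M (nat_lit 395) (B (L (nat_lit 361) ln13_12_3 ln13_12_3_ok) (L (nat_lit 363) ln14_12_3 ln14_12_3_ok))) (B (M (nat_lit 361) (B (L (nat_lit 395) ln13_12_3 ln13_12_3_ok) (M (nat_lit 329) (B (L (nat_lit 458) ln10_14_7 ln10_14_7_ok) (M (nat_lit 297)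 (B (L (nat_lit 330) ln10_13_7_c10 ln10_13_7_c10_ok) (L (nat_lit 393) ln9_9_4_c10 ln9_9_4_c10_ok))))))) (M (nat_lit 458) (B (M (nat_lit 331) (B (L (nat_lit 363) ln10_14_6 ln10_14_6_ok) (M (nat_lit 330) (B (L (nat_lit 299) ln10_13_6 ln10_13_6_ok) (M (nat_lit 329) (B (L (nat_lit 297) ln10_13_7_c10 ln10_13_7_c10_ok) (L (nat_lit 361) ln10_14_7 ln10_14_7_ok))))))) (M (nat_lit 491) (B (L (nat_lit 459) ln10_11_4 ln10_11_4_ok) (M (nat_lit 490) (B (L (nat_lit 523) ln10_12_4 ln10_12_4_ok) (M (nat_lit 489) (B (L (nat_lit 457) ln10_11_5 ln10_11_5_ok) (L (nat_lit 521) ln10_12_5 ln10_12_5_ok))))))))))))) (B (K (nat_lit 38360046192237175370206305111191528533778295555760518486504690880157080399214213656610394188905491795745471228443747722522642265813793040339254116352) (nat_lit 34323988311841395381847010140640711581696805668228797606944854121153804729245308433178432507833553398091615353840424841742111135036526160531850496577114210304)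 (nat_lit 34323988311841395381847010140640711581696805668228797606944854121153804729245308433178432507833553398091615353840424841742111135036526160531850496577114210304) c10_s456) (B (M (nat_lit 362) (B (M (nat_lit 458) (B (M (nat_lit 329) (B (L (nat_lit 361) ln10_14_7 ln10_14_7_ok) (M (nat_lit 330) (B (L (nat_lit 297) ln10_13_7_c10 ln10_13_7_c10_ok) (M (nat_lit 331) (B (L (nat_lit 299) ln10_13_6 ln10_13_6_ok) (L (nat_lit 363) ln10_14_6 ln10_14_6_ok))))))) (M (nat_lit 489) (B (L (nat_lit 457) ln10_11_5 ln10_11_5_ok) (M (nat_lit 490) (B (L (nat_lit 521) ln10_12_5 ln10_12_5_ok) (M (nat_lit 491) (B (L (nat_lit 459) ln10_11_4 ln10_11_4_ok) (L (nat_lit 523) ln10_12_4 ln10_12_4_ok))))))))) (B (M (nat_lit 458) (B (M (nat_lit 330) (B (M (nat_lit 331) (B (L (nat_lit 299) ln10_13_6 ln10_13_6_ok) (L (nat_lit 363) ln10_14_6 ln10_14_6_ok))) (M (nat_lit 457) (B (L (nat_lit 425) ln10_10_5 ln10_10_5_ok)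 (L (nat_lit 489) ln10_11_5 ln10_11_5_ok))))) (M (nat_lit 490) (B (M (nat_lit 361) (B (L (nat_lit 329) ln10_14_7 ln10_14_7_ok) (L (nat_lit 393) ln10_15_7 ln10_15_7_ok))) (M (nat_lit 491) (B (L (nat_lit 459) ln10_11_4 ln10_11_4_ok) (L (nat_lit 523) ln10_12_4 ln10_12_4_ok))))))) (B (M (nat_lit 330) (B (M (nat_lit 299) (B (L (nat_lit 331) ln10_13_6 ln10_13_6_ok) (M (nat_lit 298) (B (L (nat_lit 267) ln10_12_6_c10 ln10_12_6_c10_ok) (M (nat_lit 297) (B (L (nat_lit 329) ln10_13_7_c10 ln10_13_7_c10_ok) (L (nat_lit 265) ln10_12_7_c10 ln10_12_7_c10_ok))))))) (B (M (nat_lit 298) (B (M (nat_lit 425) (B (L (nat_lit 457) ln10_10_5 ln10_10_5_ok) (L (nat_lit 393) ln10_9_5_c10 ln10_9_5_c10_ok))) (M (nat_lit 297) (B (L (nat_lit 329) ln10_13_7_c10 ln10_13_7_c10_ok) (L (nat_lit 265) ln10_12_7_c10 ln10_12_7_c10_ok))))) (B (M (nat_lit 298) (B (M (nat_lit 425) (B (L (nat_lit 457) ln10_10_5 ln10_10_5_ok)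 (L (nat_lit 393) ln10_9_5_c10 ln10_9_5_c10_ok))) (M (nat_lit 299) (B (L (nat_lit 331) ln10_13_6 ln10_13_6_ok) (L (nat_lit 267) ln10_12_6_c10 ln10_12_6_c10_ok))))) (M (nat_lit 458) (B (M (nat_lit 457) (B (L (nat_lit 489) ln10_11_5 ln10_11_5_ok) (L (nat_lit 425) ln10_10_5 ln10_10_5_ok))) (M (nat_lit 331) (B (L (nat_lit 363) ln10_14_6 ln10_14_6_ok) (L (nat_lit 299) ln10_13_6 ln10_13_6_ok))))))))) (B (K (nat_lit 38360046192237175370206305111191528533787689726091613819416248802544237747323716386806027468388320959631600064544206156296497061807332115151381856256) (nat_lit 34323988311841395381847010140640711581616110359529187543187011314117152685785347779043016542861962013716890951766269718309476283972667057305939447640838111232) (nat_lit 34323988311841395381847010140640711581616110359529187543187011314117152685785347779043016542861962013716890951766269718309476283972667057305939447640838111232)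 c10_s457) (B (M (nat_lit 458) (B (M (nat_lit 490) (B (M (nat_lit 491) (B (L (nat_lit 523) ln10_12_4 ln10_12_4_ok) (L (nat_lit 459) ln10_11_4 ln10_11_4_ok))) (M (nat_lit 489) (B (L (nat_lit 521) ln10_12_5 ln10_12_5_ok) (L (nat_lit 457) ln10_11_5 ln10_11_5_ok))))) (B (M (nat_lit 330) (B (M (nat_lit 457) (B (L (nat_lit 489) ln10_11_5 ln10_11_5_ok) (L (nat_lit 425) ln10_10_5 ln10_10_5_ok))) (M (nat_lit 331) (B (L (nat_lit 363) ln10_14_6 ln10_14_6_ok) (L (nat_lit 299) ln10_13_6 ln10_13_6_ok))))) (B (M (nat_lit 425) (B (M (nat_lit 331) (B (L (nat_lit 363) ln10_14_6 ln10_14_6_ok) (M (nat_lit 330) (B (L (nat_lit 457) ln10_10_5 ln10_10_5_ok) (L (nat_lit 299) ln10_13_6 ln10_13_6_ok))))) (M (nat_lit 490) (B (M (nat_lit 491) (B (L (nat_lit 523) ln10_12_4 ln10_12_4_ok) (L (nat_lit 459) ln10_11_4 ln10_11_4_ok))) (M (nat_lit 393) (B (L (nat_lit 522) ln10_16_7 ln10_16_7_ok) (L (nat_lit 361)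 ln10_15_7 ln10_15_7_ok))))))) (M (nat_lit 490) (B (M (nat_lit 491) (B (L (nat_lit 523) ln10_12_4 ln10_12_4_ok) (L (nat_lit 459) ln10_11_4 ln10_11_4_ok))) (M (nat_lit 522) (B (M (nat_lit 521) (B (L (nat_lit 553) ln10_13_5 ln10_13_5_ok) (L (nat_lit 489) ln10_12_5 ln10_12_5_ok))) (M (nat_lit 393) (B (L (nat_lit 425) ln10_16_7 ln10_16_7_ok) (L (nat_lit 361) ln10_15_7 ln10_15_7_ok))))))))))) (B (M (nat_lit 330) (B (M (nat_lit 298) (B (M (nat_lit 425) (B (L (nat_lit 457) ln10_10_5 ln10_10_5_ok) (L (nat_lit 393) ln10_9_5_c10 ln10_9_5_c10_ok))) (M (nat_lit 297) (B (L (nat_lit 329) ln10_13_7_c10 ln10_13_7_c10_ok) (L (nat_lit 265) ln10_12_7_c10 ln10_12_7_c10_ok))))) (B (M (nat_lit 298) (B (M (nat_lit 297) (B (L (nat_lit 329) ln10_13_7_c10 ln10_13_7_c10_ok) (L (nat_lit 265) ln10_12_7_c10 ln10_12_7_c10_ok))) (M (nat_lit 299) (B (L (nat_lit 331) ln10_13_6 ln10_13_6_ok) (L (nat_lit 267) ln10_12_6_c10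 ln10_12_6_c10_ok))))) (B (M (nat_lit 298) (B (M (nat_lit 425) (B (L (nat_lit 457) ln10_10_5 ln10_10_5_ok) (L (nat_lit 393) ln10_9_5_c10 ln10_9_5_c10_ok))) (M (nat_lit 299) (B (L (nat_lit 331) ln10_13_6 ln10_13_6_ok) (L (nat_lit 267) ln10_12_6_c10 ln10_12_6_c10_ok))))) (M (nat_lit 458) (B (M (nat_lit 329) (B (L (nat_lit 361) ln10_14_7 ln10_14_7_ok) (L (nat_lit 297) ln10_13_7_c10 ln10_13_7_c10_ok))) (M (nat_lit 331) (B (L (nat_lit 363) ln10_14_6 ln10_14_6_ok) (L (nat_lit 299) ln10_13_6 ln10_13_6_ok))))))))) c10_d199))))))) c10_d202)))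
noncomputable def c10_d204 : Cert := (B (M (nat_lit 491) (B (M (nat_lit 462) (B (L (nat_lit 490) ln10_15_2 ln10_15_2_ok) (M (nat_lit 463) (B (L (nat_lit 464) ln16_14_1 ln16_14_1_ok) (L (nat_lit 494) ln11_15_2 ln11_15_2_ok))))) (B (M (nat_lit 462) (B (L (nat_lit 490) ln10_15_2 ln10_15_2_ok) (M (nat_lit 463) (B (L (nat_lit 494) ln11_15_2 ln11_15_2_ok) (L (nat_lit 460) ln15_14_1 ln15_14_1_ok))))) (B (M (nat_lit 490) (B (L (nat_lit 462) ln10_15_2 ln10_15_2_ok) (M (nat_lit 521) (B (L (nat_lit 522) ln13_15_1 ln13_15_1_ok) (M (nat_lit 457) (B (L (nat_lit 458) ln13_15_3 ln13_15_3_ok) (M (nat_lit 489) (B (L (nat_lit 520) ln12_15_1 ln12_15_1_ok) (L (nat_lit 456) ln12_15_3 ln12_15_3_ok))))))))) (B (M (nat_lit 490) (B (M (nat_lit 489) (B (L (nat_lit 460) ln9_15_2 ln9_15_2_ok) (M (nat_lit 457) (B (L (nat_lit 456) ln12_15_3 ln12_15_3_ok) (L (nat_lit 458) ln13_15_3 ln13_15_3_ok))))) (B (M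 (nat_lit 494) (B (M (nat_lit 522) (B (L (nat_lit 521) ln13_15_1 ln13_15_1_ok) (L (nat_lit 523) ln14_15_1 ln14_15_1_ok))) (M (nat_lit 458) (B (L (nat_lit 457) ln13_15_3 ln13_15_3_ok) (L (nat_lit 459) ln14_15_3 ln14_15_3_ok))))) (M (nat_lit 489) (B (L (nat_lit 460) ln9_15_2 ln9_15_2_ok) (M (nat_lit 521) (B (L (nat_lit 520) ln12_15_1 ln12_15_1_ok) (L (nat_lit 522) ln13_15_1 ln13_15_1_ok)))))))) (M (nat_lit 494) (B (M (nat_lit 495) (B (M (nat_lit 460) (B (L (nat_lit 496) ln16_15_3 ln16_15_3_ok) (L (nat_lit 459) ln15_15_3 ln15_15_3_ok))) (M (nat_lit 463) (B (L (nat_lit 464) ln12_15_2 ln12_15_2_ok) (L (nat_lit 462) ln11_15_2 ln11_15_2_ok))))) (B (M (nat_lit 495) (B (M (nat_lit 463) (B (L (nat_lit 462) ln11_15_2 ln11_15_2_ok) (L (nat_lit 464) ln12_15_2 ln12_15_2_ok))) (B (M (nat_lit 496) (B (M (nat_lit 464) (B (L (nat_lit 463) ln12_15_2 ln12_15_2_ok) (L (nat_lit 465) ln13_15_2 ln13_15_2_ok)))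 (M (nat_lit 528) (B (L (nat_lit 527) ln12_15_0 ln12_15_0_ok) (L (nat_lit 529) ln13_15_0 ln13_15_0_ok))))) (B (M (nat_lit 496) (B (M (nat_lit 528) (B (L (nat_lit 527) ln12_15_0 ln12_15_0_ok) (L (nat_lit 529) ln13_15_0 ln13_15_0_ok))) (M (nat_lit 465) (B (L (nat_lit 464) ln13_15_2 ln13_15_2_ok) (M (nat_lit 497) (B (L (nat_lit 462) ln17_15_3 ln17_15_3_ok) (L (nat_lit 466) ln14_15_2_c10 ln14_15_2_c10_ok))))))) (M (nat_lit 496) (B (M (nat_lit 462) (B (L (nat_lit 463) ln11_15_2 ln11_15_2_ok) (L (nat_lit 497) ln17_15_3 ln17_15_3_ok))) (M (nat_lit 528) (B (L (nat_lit 527) ln12_15_0 ln12_15_0_ok) (L (nat_lit 529) ln13_15_0 ln13_15_0_ok))))))))) (B (M (nat_lit 495) (B (M (nat_lit 460) (B (L (nat_lit 496) ln16_15_3 ln16_15_3_ok) (L (nat_lit 459) ln15_15_3 ln15_15_3_ok))) (B (M (nat_lit 459) (B (L (nat_lit 460) ln15_15_3 ln15_15_3_ok) (L (nat_lit 458) ln14_15_3 ln14_15_3_ok))) (M (nat_lit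 496) (B (M (nat_lit 528) (B (L (nat_lit 529) ln13_15_0 ln13_15_0_ok) (L (nat_lit 527) ln12_15_0 ln12_15_0_ok))) (M (nat_lit 464) (B (L (nat_lit 465) ln13_15_2 ln13_15_2_ok) (L (nat_lit 463) ln12_15_2 ln12_15_2_ok)))))))) (B (M (nat_lit 495) (B (M (nat_lit 459) (B (L (nat_lit 458) ln14_15_3 ln14_15_3_ok) (L (nat_lit 460) ln15_15_3 ln15_15_3_ok))) (B (M (nat_lit 460) (B (L (nat_lit 459) ln15_15_3 ln15_15_3_ok) (L (nat_lit 496) ln16_15_3 ln16_15_3_ok))) (B (M (nat_lit 496) (B (L (nat_lit 460) ln16_15_3 ln16_15_3_ok) (M (nat_lit 528) (B (L (nat_lit 527) ln12_15_0 ln12_15_0_ok) (L (nat_lit 529) ln13_15_0 ln13_15_0_ok))))) (M (nat_lit 496) (B (M (nat_lit 528) (B (L (nat_lit 527) ln12_15_0 ln12_15_0_ok) (L (nat_lit 529) ln13_15_0 ln13_15_0_ok))) (M (nat_lit 465) (B (L (nat_lit 464) ln13_15_2 ln13_15_2_ok) (M (nat_lit 497) (B (L (nat_lit 462) ln17_15_3 ln17_15_3_ok) (L (nat_lit 466)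 ln14_15_2_c10 ln14_15_2_c10_ok))))))))))) (B (M (nat_lit 495) (B (M (nat_lit 459) (B (L (nat_lit 458) ln14_15_3 ln14_15_3_ok) (L (nat_lit 460) ln15_15_3 ln15_15_3_ok))) (B (M (nat_lit 460) (B (L (nat_lit 459) ln15_15_3 ln15_15_3_ok) (L (nat_lit 496) ln16_15_3 ln16_15_3_ok))) (B (M (nat_lit 462) (B (L (nat_lit 463) ln11_15_2 ln11_15_2_ok) (M (nat_lit 496) (B (L (nat_lit 460) ln16_15_3 ln16_15_3_ok) (L (nat_lit 497) ln17_15_3 ln17_15_3_ok))))) (M (nat_lit 496) (B (M (nat_lit 462) (B (L (nat_lit 497) ln17_15_3 ln17_15_3_ok) (L (nat_lit 463) ln11_15_2 ln11_15_2_ok))) (M (nat_lit 528) (B (L (nat_lit 527) ln12_15_0 ln12_15_0_ok) (L (nat_lit 529) ln13_15_0 ln13_15_0_ok))))))))) (M (nat_lit 459) (B (L (nat_lit 458) ln14_15_3 ln14_15_3_ok) (M (nat_lit 462) (B (L (nat_lit 463) ln11_15_2 ln11_15_2_ok) (M (nat_lit 523) (B (L (nat_lit 522) ln14_15_1 ln14_15_1_ok) (M (nat_lit 427) (B (L (nat_lit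 460) ln14_14_3 ln14_14_3_ok) (L (nat_lit 394) ln11_16_7 ln11_16_7_ok)))))))))))))))))))) (B (M (nat_lit 394) (B (M (nat_lit 395) (B (L (nat_lit 425) ln13_12_1 ln13_12_1_ok) (M (nat_lit 362) (B (L (nat_lit 361) ln13_12_3 ln13_12_3_ok) (L (nat_lit 363) ln14_12_3 ln14_12_3_ok))))) c10_d203)) (M (nat_lit 427) (B (L (nat_lit 395) ln14_12_1 ln14_12_1_ok) (M (nat_lit 491) (B (M (nat_lit 462) (B (L (nat_lit 490) ln10_15_2 ln10_15_2_ok) (M (nat_lit 463) (B (L (nat_lit 464) ln16_14_1 ln16_14_1_ok) (L (nat_lit 494) ln11_15_2 ln11_15_2_ok))))) (B (M (nat_lit 462) (B (L (nat_lit 490) ln10_15_2 ln10_15_2_ok) (M (nat_lit 463) (B (L (nat_lit 494) ln11_15_2 ln11_15_2_ok) (L (nat_lit 460) ln15_14_1 ln15_14_1_ok))))) (B (M (nat_lit 490) (B (L (nat_lit 462) ln10_15_2 ln10_15_2_ok) (M (nat_lit 521) (B (L (nat_lit 522) ln13_15_1 ln13_15_1_ok) (M (nat_lit 457) (B (L (nat_lit 458) ln13_15_3 ln13_15_3_ok)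 (M (nat_lit 489) (B (L (nat_lit 520) ln12_15_1 ln12_15_1_ok) (L (nat_lit 456) ln12_15_3 ln12_15_3_ok))))))))) (B (M (nat_lit 490) (B (M (nat_lit 489) (B (L (nat_lit 460) ln9_15_2 ln9_15_2_ok) (M (nat_lit 457) (B (L (nat_lit 456) ln12_15_3 ln12_15_3_ok) (L (nat_lit 458) ln13_15_3 ln13_15_3_ok))))) (B (M (nat_lit 494) (B (M (nat_lit 522) (B (L (nat_lit 521) ln13_15_1 ln13_15_1_ok) (L (nat_lit 523) ln14_15_1 ln14_15_1_ok))) (M (nat_lit 458) (B (L (nat_lit 457) ln13_15_3 ln13_15_3_ok) (L (nat_lit 459) ln14_15_3 ln14_15_3_ok))))) (M (nat_lit 489) (B (L (nat_lit 460) ln9_15_2 ln9_15_2_ok) (M (nat_lit 521) (B (L (nat_lit 520) ln12_15_1 ln12_15_1_ok) (L (nat_lit 522) ln13_15_1 ln13_15_1_ok)))))))) (M (nat_lit 494) (B (M (nat_lit 495) (B (M (nat_lit 460) (B (L (nat_lit 496) ln16_15_3 ln16_15_3_ok) (L (nat_lit 459) ln15_15_3 ln15_15_3_ok))) (M (nat_lit 463) (B (L (nat_lit 464) ln12_15_2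 ln12_15_2_ok) (L (nat_lit 462) ln11_15_2 ln11_15_2_ok))))) (B (M (nat_lit 495) (B (M (nat_lit 463) (B (L (nat_lit 462) ln11_15_2 ln11_15_2_ok) (L (nat_lit 464) ln12_15_2 ln12_15_2_ok))) (B (M (nat_lit 496) (B (M (nat_lit 464) (B (L (nat_lit 463) ln12_15_2 ln12_15_2_ok) (L (nat_lit 465) ln13_15_2 ln13_15_2_ok))) (M (nat_lit 528) (B (L (nat_lit 527) ln12_15_0 ln12_15_0_ok) (L (nat_lit 529) ln13_15_0 ln13_15_0_ok))))) (B (M (nat_lit 496) (B (M (nat_lit 528) (B (L (nat_lit 527) ln12_15_0 ln12_15_0_ok) (L (nat_lit 529) ln13_15_0 ln13_15_0_ok))) (M (nat_lit 465) (B (L (nat_lit 464) ln13_15_2 ln13_15_2_ok) (M (nat_lit 497) (B (L (nat_lit 462) ln17_15_3 ln17_15_3_ok) (L (nat_lit 466) ln14_15_2_c10 ln14_15_2_c10_ok))))))) (M (nat_lit 496) (B (M (nat_lit 462) (B (L (nat_lit 463) ln11_15_2 ln11_15_2_ok) (L (nat_lit 497) ln17_15_3 ln17_15_3_ok))) (M (nat_lit 528) (B (L (nat_lit 527) ln12_15_0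 ln12_15_0_ok) (L (nat_lit 529) ln13_15_0 ln13_15_0_ok))))))))) (B (M (nat_lit 495) (B (M (nat_lit 460) (B (L (nat_lit 496) ln16_15_3 ln16_15_3_ok) (L (nat_lit 459) ln15_15_3 ln15_15_3_ok))) (B (M (nat_lit 459) (B (L (nat_lit 460) ln15_15_3 ln15_15_3_ok) (L (nat_lit 458) ln14_15_3 ln14_15_3_ok))) (M (nat_lit 496) (B (M (nat_lit 528) (B (L (nat_lit 529) ln13_15_0 ln13_15_0_ok) (L (nat_lit 527) ln12_15_0 ln12_15_0_ok))) (M (nat_lit 464) (B (L (nat_lit 465) ln13_15_2 ln13_15_2_ok) (L (nat_lit 463) ln12_15_2 ln12_15_2_ok)))))))) (B (M (nat_lit 495) (B (M (nat_lit 459) (B (L (nat_lit 458) ln14_15_3 ln14_15_3_ok) (L (nat_lit 460) ln15_15_3 ln15_15_3_ok))) (B (M (nat_lit 460) (B (L (nat_lit 459) ln15_15_3 ln15_15_3_ok) (L (nat_lit 496) ln16_15_3 ln16_15_3_ok))) (B (M (nat_lit 496) (B (L (nat_lit 460) ln16_15_3 ln16_15_3_ok) (M (nat_lit 528) (B (L (nat_lit 527) ln12_15_0 ln12_15_0_ok)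 (L (nat_lit 529) ln13_15_0 ln13_15_0_ok))))) (M (nat_lit 496) (B (M (nat_lit 528) (B (L (nat_lit 527) ln12_15_0 ln12_15_0_ok) (L (nat_lit 529) ln13_15_0 ln13_15_0_ok))) (M (nat_lit 465) (B (L (nat_lit 464) ln13_15_2 ln13_15_2_ok) (M (nat_lit 497) (B (L (nat_lit 462) ln17_15_3 ln17_15_3_ok) (L (nat_lit 466) ln14_15_2_c10 ln14_15_2_c10_ok))))))))))) (B (M (nat_lit 495) (B (M (nat_lit 459) (B (L (nat_lit 458) ln14_15_3 ln14_15_3_ok) (L (nat_lit 460) ln15_15_3 ln15_15_3_ok))) (B (M (nat_lit 460) (B (L (nat_lit 459) ln15_15_3 ln15_15_3_ok) (L (nat_lit 496) ln16_15_3 ln16_15_3_ok))) (B (M (nat_lit 462) (B (L (nat_lit 463) ln11_15_2 ln11_15_2_ok) (M (nat_lit 496) (B (L (nat_lit 460) ln16_15_3 ln16_15_3_ok) (L (nat_lit 497) ln17_15_3 ln17_15_3_ok))))) (M (nat_lit 496) (B (M (nat_lit 462) (B (L (nat_lit 497) ln17_15_3 ln17_15_3_ok) (L (nat_lit 463) ln11_15_2 ln11_15_2_ok))) (M (nat_lit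 528) (B (L (nat_lit 527) ln12_15_0 ln12_15_0_ok) (L (nat_lit 529) ln13_15_0 ln13_15_0_ok))))))))) (M (nat_lit 462) (B (L (nat_lit 463) ln11_15_2 ln11_15_2_ok) (M (nat_lit 459) (B (L (nat_lit 458) ln14_15_3 ln14_15_3_ok) (L (nat_lit 460) ln14_14_3 ln14_14_3_ok))))))))))))))))))))
theorem c10_s460 : Sem (nat_lit 38360046192237175370033013255268629950709536722538202017977366502409690210253102065434001304721692575211459684396150790246553161512519330037869051904) (nat_lit 407913979211417833958925125225413623616882304710777074746290276095352692147245353211413685035722701256441312327660201759765647596499000073227610317912521025322688081352301267730686803968) (nat_lit 407913979211417833958925125225413623616882304710777074746290276095352692147245353211413685035722701256441312327660201759765647596499000073227610317912521025322688081352301267730686803968) :=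
  sem_of_chk (M (nat_lit 426) (B (M (nat_lit 395) (B (L (nat_lit 427) ln14_12_1 ln14_12_1_ok) (M (nat_lit 394) (B (L (nat_lit 425) ln13_12_1 ln13_12_1_ok) (M (nat_lit 362) (B (L (nat_lit 361) ln13_12_3 ln13_12_3_ok) (L (nat_lit 363) ln14_12_3 ln14_12_3_ok))))))) (B (M (nat_lit 394) (B (M (nat_lit 395) (B (L (nat_lit 425) ln13_12_1 ln13_12_1_ok) (L (nat_lit 427) ln14_12_1 ln14_12_1_ok))) (B (M (nat_lit 362) (B (M (nat_lit 395) (B (L (nat_lit 427) ln14_12_1 ln14_12_1_ok) (L (nat_lit 361) ln13_12_3 ln13_12_3_ok))) (B (M (nat_lit 361) (B (L (nat_lit 395) ln13_12_3 ln13_12_3_ok) (M (nat_lit 329) (B (L (nat_lit 458) ln10_14_7 ln10_14_7_ok) (M (nat_lit 297) (B (L (nat_lit 330) ln10_13_7_c10 ln10_13_7_c10_ok) (L (nat_lit 393) ln9_9_4_c10 ln9_9_4_c10_ok))))))) (B (M (nat_lit 458) (B (M (nat_lit 490) (B (M (nat_lit 489) (B (L (nat_lit 521) ln10_12_5 ln10_12_5_ok) (L (nat_lit 457) ln10_11_5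 ln10_11_5_ok))) (M (nat_lit 361) (B (L (nat_lit 393) ln10_15_7 ln10_15_7_ok) (L (nat_lit 329) ln10_14_7 ln10_14_7_ok))))) (B (M (nat_lit 330) (B (M (nat_lit 459) (B (L (nat_lit 491) ln10_11_4 ln10_11_4_ok) (L (nat_lit 427) ln10_10_4 ln10_10_4_ok))) (M (nat_lit 329) (B (L (nat_lit 361) ln10_14_7 ln10_14_7_ok) (L (nat_lit 297) ln10_13_7_c10 ln10_13_7_c10_ok))))) (M (nat_lit 490) (B (M (nat_lit 491) (B (L (nat_lit 523) ln10_12_4 ln10_12_4_ok) (L (nat_lit 459) ln10_11_4 ln10_11_4_ok))) (M (nat_lit 489) (B (L (nat_lit 521) ln10_12_5 ln10_12_5_ok) (L (nat_lit 457) ln10_11_5 ln10_11_5_ok)))))))) (M (nat_lit 427) (B (L (nat_lit 395) ln14_12_1 ln14_12_1_ok) (M (nat_lit 459) (B (L (nat_lit 330) ln10_10_4 ln10_10_4_ok) (M (nat_lit 491) (B (L (nat_lit 523) ln11_16_7 ln11_16_7_ok) (L (nat_lit 458) ln10_11_4 ln10_11_4_ok))))))))))) c10_d198))) c10_d204))) (nat_lit 38360046192237175370033013255268629950709536722538202017977366502409690210253102065434001304721692575211459684396150790246553161512519330037869051904)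 (nat_lit 407913979211417833958925125225413623616882304710777074746290276095352692147245353211413685035722701256441312327660201759765647596499000073227610317912521025322688081352301267730686803968) (nat_lit 407913979211417833958925125225413623616882304710777074746290276095352692147245353211413685035722701256441312327660201759765647596499000073227610317912521025322688081352301267730686803968) (by decide +kernel)

end Vale.Agent.Lib.P062.Data
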