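import Vale.Agent.Lib.P062.Data.c10_lines
import Vale.Agent.Lib.P062.Data.c10_l0_0
import Vale.Agent.Lib.P062.Data.c10_l0_1
import Vale.Agent.Lib.P062.Data.c10_l0_2
import Vale.Agent.Lib.P062.Data.c10_l0_3

namespace Vale.Agent.Lib.P062.Data
noncomputable def c10_d205 : Cert := (B (M (nat_lit 273) (B (M (nat_lit 274) (B (L (nat_lit 305) ln14_9_2_c10 ln14_9_2_c10_ok) (M (nat_lit 272) (B (L (nat_lit 271) ln18_8_1_c10 ln18_8_1_c10_ok) (L (nat_lit 301) ln13_9_2 ln13_9_2_ok))))) (B (M (nat_lit 336) (B (M (nat_lit 301) (B (L (nat_lit 272) ln13_9_2 ln13_9_2_ok) (L (nat_lit 337) ln13_9_0 ln13_9_0_ok))) (B (M (nat_lit 337) (B (L (nat_lit 301) ln13_9_0 ln13_9_0_ok) (M (nat_lit 338) (B (L (nat_lit 305) ln14_9_0_c10 ln14_9_0_c10_ok) (L (nat_lit 339) ln19_10_3_c10 ln19_10_3_c10_ok))))) (B (M (nat_lit 368) (B (M (nat_lit 400) (B (L (nat_lit 305) ln16_12_6_c10 ln16_12_6_c10_ok) (L (nat_lit 271) ln16_12_7_c10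 ln16_12_7_c10_ok))) (B (M (nat_lit 241) (B (L (nat_lit 272) ln16_11_6_c10 ln16_11_6_c10_ok) (M (nat_lit 305) (B (L (nat_lit 209) ln17_6_5_c10 ln17_6_5_c10_ok) (L (nat_lit 400) ln16_12_6_c10 ln16_12_6_c10_ok))))) (B (M (nat_lit 272) (B (L (nat_lit 241) ln16_11_6_c10 ln16_11_6_c10_ok) (M (nat_lit 271) (B (L (nat_lit 239) ln16_11_7_c10 ln16_11_7_c10_ok) (L (nat_lit 400) ln16_12_7_c10 ln16_12_7_c10_ok))))) (M (nat_lit 241) (B (L (nat_lit 272) ln16_11_6_c10 ln16_11_6_c10_ok) (M (nat_lit 305) (B (L (nat_lit 209) ln17_6_5_c10 ln17_6_5_c10_ok) (L (nat_lit 337) ln17_7_5_c10 ln17_7_5_c10_ok))))))))) (M (nat_lit 368) (B (M (nat_lit 272) (B (L (nat_lit 241) ln16_11_6_c10 ln16_11_6_c10_ok) (L (nat_lit 301) ln13_9_2 ln13_9_2_ok))) (M (nat_lit 400) (B (L (nat_lit 305) ln16_12_6_c10 ln16_12_6_c10_ok) (L (nat_lit 271) ln16_12_7_c10 ln16_12_7_c10_ok))))))))) (B (M (nat_lit 305) (B (L (nat_lit 274) ln14_9_2_c10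 ln14_9_2_c10_ok) (M (nat_lit 337) (B (L (nat_lit 338) ln14_9_0_c10 ln14_9_0_c10_ok) (M (nat_lit 336) (B (L (nat_lit 301) ln13_9_0 ln13_9_0_ok) (M (nat_lit 368) (B (L (nat_lit 241) ln17_7_5_c10 ln17_7_5_c10_ok) (L (nat_lit 400) ln16_12_6_c10 ln16_12_6_c10_ok))))))))) (B (M (nat_lit 272) (B (L (nat_lit 301) ln13_9_2 ln13_9_2_ok) (M (nat_lit 274) (B (L (nat_lit 275) ln19_8_1_c10 ln19_8_1_c10_ok) (L (nat_lit 271) ln18_8_1_c10 ln18_8_1_c10_ok))))) (M (nat_lit 274) (B (L (nat_lit 305) ln14_9_2_c10 ln14_9_2_c10_ok) (M (nat_lit 272) (B (L (nat_lit 275) ln19_8_1_c10 ln19_8_1_c10_ok) (L (nat_lit 271) ln18_8_1_c10 ln18_8_1_c10_ok)))))))))) (B (M (nat_lit 301) (B (M (nat_lit 300) (B (M (nat_lit 332) (B (L (nat_lit 331) ln15_9_1_c10 ln15_9_1_c10_ok) (L (nat_lit 333) ln16_9_1 ln16_9_1_ok))) (M (nat_lit 268) (B (L (nat_lit 267) ln15_9_3 ln15_9_3_ok) (L (nat_lit 269) ln16_9_3_c10 ln16_9_3_c10_ok))))) (B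 (M (nat_lit 305) (B (M (nat_lit 269) (B (L (nat_lit 268) ln16_9_3_c10 ln16_9_3_c10_ok) (L (nat_lit 270) ln17_9_3_c10 ln17_9_3_c10_ok))) (M (nat_lit 337) (B (L (nat_lit 336) ln13_9_0 ln13_9_0_ok) (L (nat_lit 338) ln14_9_0_c10 ln14_9_0_c10_ok))))) (B (M (nat_lit 270) (B (M (nat_lit 337) (B (L (nat_lit 336) ln13_9_0 ln13_9_0_ok) (M (nat_lit 305) (B (L (nat_lit 269) ln17_9_3_c10 ln17_9_3_c10_ok) (L (nat_lit 338) ln14_9_0_c10 ln14_9_0_c10_ok))))) (M (nat_lit 300) (B (M (nat_lit 332) (B (L (nat_lit 331) ln15_9_1_c10 ln15_9_1_c10_ok) (L (nat_lit 333) ln16_9_1 ln16_9_1_ok))) (M (nat_lit 271) (B (L (nat_lit 299) ln11_9_2 ln11_9_2_ok) (L (nat_lit 272) ln12_9_2 ln12_9_2_ok))))))) (M (nat_lit 300) (B (M (nat_lit 332) (B (L (nat_lit 331) ln15_9_1_c10 ln15_9_1_c10_ok) (L (nat_lit 333) ln16_9_1 ln16_9_1_ok))) (M (nat_lit 299) (B (M (nat_lit 267) (B (L (nat_lit 266) ln14_9_3 ln14_9_3_ok) (L (nat_lit 268)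 ln15_9_3 ln15_9_3_ok))) (M (nat_lit 271) (B (L (nat_lit 270) ln11_9_2 ln11_9_2_ok) (L (nat_lit 272) ln12_9_2 ln12_9_2_ok))))))))))) (M (nat_lit 301) (B (M (nat_lit 268) (B (L (nat_lit 269) ln16_9_3_c10 ln16_9_3_c10_ok) (M (nat_lit 300) (B (L (nat_lit 267) ln15_9_3 ln15_9_3_ok) (M (nat_lit 332) (B (L (nat_lit 331) ln15_9_1_c10 ln15_9_1_c10_ok) (L (nat_lit 333) ln16_9_1 ln16_9_1_ok))))))) (B (M (nat_lit 300) (B (M (nat_lit 332) (B (L (nat_lit 331) ln15_9_1_c10 ln15_9_1_c10_ok) (L (nat_lit 333) ln16_9_1 ln16_9_1_ok))) (M (nat_lit 272) (B (L (nat_lit 271) ln12_9_2 ln12_9_2_ok) (L (nat_lit 273) ln13_9_2 ln13_9_2_ok))))) (B (M (nat_lit 300) (B (M (nat_lit 272) (B (L (nat_lit 273) ln13_9_2 ln13_9_2_ok) (L (nat_lit 271) ln12_9_2 ln12_9_2_ok))) (M (nat_lit 268) (B (L (nat_lit 269) ln16_9_3_c10 ln16_9_3_c10_ok) (L (nat_lit 267) ln15_9_3 ln15_9_3_ok))))) (M (nat_lit 272) (B (L (nat_lit 273) ln13_9_2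 ln13_9_2_ok) (M (nat_lit 336) (B (L (nat_lit 337) ln13_9_0 ln13_9_0_ok) (M (nat_lit 240) (B (M (nat_lit 207) (B (L (nat_lit 239) ln16_10_7_c10 ln16_10_7_c10_ok) (M (nat_lit 208) (B (L (nat_lit 175) ln16_9_7_c10 ln16_9_7_c10_ok) (M (nat_lit 209) (B (L (nat_lit 177) ln16_9_6_c10 ln16_9_6_c10_ok) (L (nat_lit 241) ln16_10_6_c10 ln16_10_6_c10_ok))))))) (B (M (nat_lit 271) (B (M (nat_lit 239) (B (L (nat_lit 207) ln15_6_4_c10 ln15_6_4_c10_ok) (L (nat_lit 368) ln16_11_7_c10 ln16_11_7_c10_ok))) (B (M (nat_lit 368) (B (L (nat_lit 239) ln16_11_7_c10 ln16_11_7_c10_ok) (L (nat_lit 400) ln16_12_7_c10 ln16_12_7_c10_ok))) (M (nat_lit 269) (B (L (nat_lit 268) ln16_9_3_c10 ln16_9_3_c10_ok) (M (nat_lit 241) (B (L (nat_lit 209) ln16_10_6_c10 ln16_10_6_c10_ok) (L (nat_lit 270) ln13_8_2_c10 ln13_8_2_c10_ok)))))))) (B (M (nat_lit 208) (B (M (nat_lit 207) (B (L (nat_lit 175) ln16_9_7_c10 ln16_9_7_c10_ok) (L (nat_lit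 239) ln16_10_7_c10 ln16_10_7_c10_ok))) (B (M (nat_lit 271) (B (L (nat_lit 176) ln16_5_5_c10 ln16_5_5_c10_ok) (M (nat_lit 239) (B (L (nat_lit 207) ln15_6_4_c10 ln15_6_4_c10_ok) (L (nat_lit 368) ln16_11_7_c10 ln16_11_7_c10_ok))))) (B (M (nat_lit 271) (B (L (nat_lit 176) ln16_5_5_c10 ln16_5_5_c10_ok) (M (nat_lit 368) (B (L (nat_lit 239) ln16_11_7_c10 ln16_11_7_c10_ok) (L (nat_lit 400) ln16_12_7_c10 ln16_12_7_c10_ok))))) (M (nat_lit 176) (B (L (nat_lit 271) ln16_5_5_c10 ln16_5_5_c10_ok) (M (nat_lit 175) (B (L (nat_lit 143) ln16_8_7_c10 ln16_8_7_c10_ok) (L (nat_lit 207) ln16_9_7_c10 ln16_9_7_c10_ok))))))))) (B (M (nat_lit 271) (B (M (nat_lit 368) (B (L (nat_lit 239) ln16_11_7_c10 ln16_11_7_c10_ok) (L (nat_lit 400) ln16_12_7_c10 ln16_12_7_c10_ok))) (M (nat_lit 269) (B (L (nat_lit 268) ln16_9_3_c10 ln16_9_3_c10_ok) (M (nat_lit 241) (B (L (nat_lit 209) ln16_10_6_c10 ln16_10_6_c10_ok) (L (nat_lit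 270) ln13_8_2_c10 ln13_8_2_c10_ok))))))) (M (nat_lit 208) (B (M (nat_lit 209) (B (L (nat_lit 177) ln16_9_6_c10 ln16_9_6_c10_ok) (L (nat_lit 241) ln16_10_6_c10 ln16_10_6_c10_ok))) (M (nat_lit 176) (B (L (nat_lit 271) ln16_5_5_c10 ln16_5_5_c10_ok) (M (nat_lit 175) (B (L (nat_lit 143) ln16_8_7_c10 ln16_8_7_c10_ok) (L (nat_lit 207) ln16_9_7_c10 ln16_9_7_c10_ok))))))))))))))))))))))
noncomputable def c10_d206 : Cert := (B (M (nat_lit 270) (B (M (nat_lit 331) (B (M (nat_lit 267) (B (M (nat_lit 299) (B (M (nat_lit 235) (B (M (nat_lit 236) (B (L (nat_lit 204) ln11_10_6 ln11_10_6_ok) (L (nat_lit 268) ln11_11_6 ln11_11_6_ok))) (M (nat_lit 234) (B (L (nat_lit 202) ln11_10_7 ln11_10_7_ok) (L (nat_lit 266) ln11_11_7 ln11_11_7_ok))))) (M (nat_lit 333) (B (M (nat_lit 332) (B (L (nat_lit 303) ln11_10_2 ln11_10_2_ok) (L (nat_lit 298) ln14_10_3 ln14_10_3_ok))) (L (nat_lit 238) ln14_7_5_c10 ln14_7_5_c10_ok)))))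 (B (M (nat_lit 299) (B (M (nat_lit 301) (B (M (nat_lit 398) (B (L (nat_lit 399) ln11_11_0 ln11_11_0_ok) (L (nat_lit 269) ln14_12_7 ln14_12_7_ok))) (M (nat_lit 266) (B (L (nat_lit 300) ln14_9_3 ln14_9_3_ok) (L (nat_lit 234) ln11_11_7 ln11_11_7_ok))))) (M (nat_lit 332) (B (M (nat_lit 333) (B (L (nat_lit 238) ln14_7_5_c10 ln14_7_5_c10_ok) (L (nat_lit 298) ln14_10_3 ln14_10_3_ok))) (L (nat_lit 235) ln11_7_4 ln11_7_4_ok))))) (B (M (nat_lit 268) (B (M (nat_lit 332) (B (M (nat_lit 299) (B (L (nat_lit 236) ln11_11_6 ln11_11_6_ok) (L (nat_lit 235) ln11_7_4 ln11_7_4_ok))) (B (M (nat_lit 300) (B (L (nat_lit 236) ln12_7_5 ln12_7_5_ok) (L (nat_lit 235) ln12_11_7 ln12_11_7_ok))) (B (M (nat_lit 236) (B (L (nat_lit 300) ln12_7_5 ln12_7_5_ok) (L (nat_lit 299) ln11_11_6 ln11_11_6_ok))) (M (nat_lit 235) (B (L (nat_lit 299) ln11_7_4 ln11_7_4_ok) (L (nat_lit 300) ln12_11_7 ln12_11_7_ok))))))) (M (nat_lit 398)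 (B (M (nat_lit 269) (B (L (nat_lit 301) ln14_12_7 ln14_12_7_ok) (L (nat_lit 303) ln11_8_0_c10 ln11_8_0_c10_ok))) (L (nat_lit 399) ln11_11_0 ln11_11_0_ok))))) (M (nat_lit 238) (B (M (nat_lit 269) (B (M (nat_lit 398) (B (L (nat_lit 399) ln11_11_0 ln11_11_0_ok) (L (nat_lit 301) ln14_12_7 ln14_12_7_ok))) (M (nat_lit 268) (B (L (nat_lit 303) ln11_8_0_c10 ln11_8_0_c10_ok) (L (nat_lit 239) ln11_8_2_c10 ln11_8_2_c10_ok))))) (L (nat_lit 333) ln14_7_5_c10 ln14_7_5_c10_ok))))))) (L (nat_lit 330) ln14_11_3 ln14_11_3_ok))) (B (M (nat_lit 238) (B (L (nat_lit 333) ln14_7_5_c10 ln14_7_5_c10_ok) (M (nat_lit 206) (B (M (nat_lit 207) (B (L (nat_lit 239) ln14_10_6_c10 ln14_10_6_c10_ok) (L (nat_lit 175) ln14_9_6_c10 ln14_9_6_c10_ok))) (M (nat_lit 205) (B (L (nat_lit 237) ln14_10_7_c10 ln14_10_7_c10_ok) (L (nat_lit 173) ln14_9_7_c10 ln14_9_7_c10_ok))))))) (M (nat_lit 398) (B (M (nat_lit 269) (B (L (nat_lit 237)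 ln14_11_7_c10 ln14_11_7_c10_ok) (L (nat_lit 301) ln14_12_7 ln14_12_7_ok))) (L (nat_lit 399) ln11_11_0 ln11_11_0_ok)))))) (B (M (nat_lit 301) (B (M (nat_lit 303) (B (M (nat_lit 304) (B (M (nat_lit 333) (B (L (nat_lit 305) ln17_9_1 ln17_9_1_ok) (L (nat_lit 332) ln16_9_1 ln16_9_1_ok))) (B (M (nat_lit 333) (B (L (nat_lit 332) ln16_9_1 ln16_9_1_ok) (M (nat_lit 269) (B (L (nat_lit 268) ln16_9_3_c10 ln16_9_3_c10_ok) (L (nat_lit 237) ln13_7_4 ln13_7_4_ok))))) (M (nat_lit 273) (B (L (nat_lit 272) ln13_9_2 ln13_9_2_ok) (M (nat_lit 305) (B (L (nat_lit 274) ln14_9_2_c10 ln14_9_2_c10_ok) (M (nat_lit 337) (B (L (nat_lit 338) ln14_9_0_c10 ln14_9_0_c10_ok) (L (nat_lit 336) ln13_9_0 ln13_9_0_ok)))))))))) (B (M (nat_lit 304) (B (M (nat_lit 337) (B (L (nat_lit 336) ln13_9_0 ln13_9_0_ok) (M (nat_lit 305) (B (L (nat_lit 338) ln14_9_0_c10 ln14_9_0_c10_ok) (L (nat_lit 333) ln17_9_1 ln17_9_1_ok))))) (M (nat_lit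 272) (B (L (nat_lit 273) ln13_9_2 ln13_9_2_ok) (M (nat_lit 300) (B (L (nat_lit 271) ln12_9_2 ln12_9_2_ok) (M (nat_lit 268) (B (L (nat_lit 269) ln16_9_3_c10 ln16_9_3_c10_ok) (L (nat_lit 267) ln15_9_3 ln15_9_3_ok))))))))) (B (M (nat_lit 300) (B (M (nat_lit 331) (B (L (nat_lit 332) ln15_9_1_c10 ln15_9_1_c10_ok) (L (nat_lit 330) ln14_11_3 ln14_11_3_ok))) (M (nat_lit 304) (B (M (nat_lit 268) (B (L (nat_lit 267) ln15_9_3 ln15_9_3_ok) (L (nat_lit 269) ln16_9_3_c10 ln16_9_3_c10_ok))) (M (nat_lit 272) (B (L (nat_lit 271) ln12_9_2 ln12_9_2_ok) (L (nat_lit 273) ln13_9_2 ln13_9_2_ok))))))) (M (nat_lit 331) (B (M (nat_lit 332) (B (L (nat_lit 333) ln11_10_2 ln11_10_2_ok) (L (nat_lit 300) ln15_9_1_c10 ln15_9_1_c10_ok))) (L (nat_lit 330) ln14_11_3 ln14_11_3_ok))))))) (B (M (nat_lit 331) (B (L (nat_lit 330) ln14_11_3 ln14_11_3_ok) (M (nat_lit 303) (B (M (nat_lit 398) (B (L (nat_lit 399) ln11_11_0 ln11_11_0_ok)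 (L (nat_lit 271) ln14_12_6 ln14_12_6_ok))) (M (nat_lit 332) (B (L (nat_lit 333) ln11_10_2 ln11_10_2_ok) (L (nat_lit 300) ln15_9_1_c10 ln15_9_1_c10_ok))))))) (M (nat_lit 398) (B (L (nat_lit 399) ln11_11_0 ln11_11_0_ok) (L (nat_lit 269) ln14_12_7 ln14_12_7_ok)))))) (B (M (nat_lit 462) (B (M (nat_lit 331) (B (M (nat_lit 270) (B (M (nat_lit 238) (B (L (nat_lit 333) ln14_7_5_c10 ln14_7_5_c10_ok) (M (nat_lit 206) (B (M (nat_lit 207) (B (L (nat_lit 239) ln14_10_6_c10 ln14_10_6_c10_ok) (L (nat_lit 175) ln14_9_6_c10 ln14_9_6_c10_ok))) (M (nat_lit 205) (B (L (nat_lit 237) ln14_10_7_c10 ln14_10_7_c10_ok) (L (nat_lit 173) ln14_9_7_c10 ln14_9_7_c10_ok))))))) (B (M (nat_lit 303) (B (M (nat_lit 333) (B (L (nat_lit 332) ln11_10_2 ln11_10_2_ok) (L (nat_lit 238) ln14_7_5_c10 ln14_7_5_c10_ok))) (M (nat_lit 398) (B (L (nat_lit 399) ln11_11_0 ln11_11_0_ok) (L (nat_lit 271) ln14_12_6 ln14_12_6_ok))))) (M (nat_lit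 398) (B (M (nat_lit 271) (B (L (nat_lit 303) ln14_12_6 ln14_12_6_ok) (L (nat_lit 239) ln14_11_6_c10 ln14_11_6_c10_ok))) (L (nat_lit 399) ln11_11_0 ln11_11_0_ok)))))) (L (nat_lit 330) ln14_11_3 ln14_11_3_ok))) (M (nat_lit 463) (B (M (nat_lit 427) (B (L (nat_lit 426) ln10_13_0 ln10_13_0_ok) (L (nat_lit 460) ln15_14_3 ln15_14_3_ok))) (L (nat_lit 464) ln16_14_3 ln16_14_3_ok))))) (B (M (nat_lit 270) (B (M (nat_lit 238) (B (L (nat_lit 333) ln14_7_5_c10 ln14_7_5_c10_ok) (M (nat_lit 237) (B (L (nat_lit 205) ln14_10_7_c10 ln14_10_7_c10_ok) (L (nat_lit 269) ln14_11_7_c10 ln14_11_7_c10_ok))))) (B (M (nat_lit 269) (B (L (nat_lit 237) ln14_11_7_c10 ln14_11_7_c10_ok) (M (nat_lit 271) (B (L (nat_lit 239) ln14_11_6_c10 ln14_11_6_c10_ok) (M (nat_lit 301) (B (M (nat_lit 300) (B (L (nat_lit 272) ln16_8_1_c10 ln16_8_1_c10_ok) (L (nat_lit 299) ln11_9_2 ln11_9_2_ok))) (M (nat_lit 268) (B (M (nat_lit 303) (B (L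 (nat_lit 304) ln12_8_0_c10 ln12_8_0_c10_ok) (L (nat_lit 267) ln11_8_0_c10 ln11_8_0_c10_ok))) (M (nat_lit 236) (B (L (nat_lit 235) ln15_8_3_c10 ln15_8_3_c10_ok) (L (nat_lit 333) ln13_11_7 ln13_11_7_ok))))))))))) (B (M (nat_lit 238) (B (L (nat_lit 333) ln14_7_5_c10 ln14_7_5_c10_ok) (M (nat_lit 239) (B (L (nat_lit 207) ln14_10_6_c10 ln14_10_6_c10_ok) (L (nat_lit 271) ln14_11_6_c10 ln14_11_6_c10_ok))))) (M (nat_lit 238) (B (M (nat_lit 239) (B (L (nat_lit 207) ln14_10_6_c10 ln14_10_6_c10_ok) (L (nat_lit 271) ln14_11_6_c10 ln14_11_6_c10_ok))) (M (nat_lit 237) (B (L (nat_lit 205) ln14_10_7_c10 ln14_10_7_c10_ok) (L (nat_lit 269) ln14_11_7_c10 ln14_11_7_c10_ok))))))))) (B (M (nat_lit 270) (B (M (nat_lit 398) (B (L (nat_lit 399) ln11_11_0 ln11_11_0_ok) (M (nat_lit 269) (B (L (nat_lit 301) ln14_12_7 ln14_12_7_ok) (L (nat_lit 237) ln14_11_7_c10 ln14_11_7_c10_ok))))) (M (nat_lit 238) (B (L (nat_lit 333)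 ln14_7_5_c10 ln14_7_5_c10_ok) (M (nat_lit 239) (B (L (nat_lit 271) ln14_11_6_c10 ln14_11_6_c10_ok) (L (nat_lit 207) ln14_10_6_c10 ln14_10_6_c10_ok))))))) (M (nat_lit 398) (B (L (nat_lit 399) ln11_11_0 ln11_11_0_ok) (M (nat_lit 270) (B (M (nat_lit 271) (B (L (nat_lit 239) ln14_11_6_c10 ln14_11_6_c10_ok) (L (nat_lit 303) ln14_12_6 ln14_12_6_ok))) (M (nat_lit 269) (B (L (nat_lit 237) ln14_11_7_c10 ln14_11_7_c10_ok) (L (nat_lit 301) ln14_12_7 ln14_12_7_ok))))))))))))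
noncomputable def c10_d207 : Cert := (B (M (nat_lit 334) (B (M (nat_lit 302) (B (M (nat_lit 303) (B (M (nat_lit 304) (B (M (nat_lit 305) (B (M (nat_lit 306) (B (M (nat_lit 338) (B (L (nat_lit 339) ln15_9_0_c10 ln15_9_0_c10_ok) (L (nat_lit 337) ln14_9_0_c10 ln14_9_0_c10_ok))) (M (nat_lit 270) (B (L (nat_lit 271) ln18_9_3_c10 ln18_9_3_c10_ok) (L (nat_lit 269) ln17_9_3_c10 ln17_9_3_c10_ok))))) (B (M (nat_lit 301) (B (M (nat_lit 273) (B (L (nat_lit 274) ln14_9_2_c10 ln14_9_2_c10_ok) (L (nat_lit 272) ln13_9_2 ln13_9_2_ok))) (M (nat_lit 337) (B (L (nat_lit 338) ln14_9_0_c10 ln14_9_0_c10_ok) (L (nat_lit 336) ln13_9_0 ln13_9_0_ok))))) (M (nat_lit 301) (B (M (nat_lit 273) (B (L (nat_lit 274) ln14_9_2_c10 ln14_9_2_c10_ok) (L (nat_lit 272) ln13_9_2 ln13_9_2_ok))) (M (nat_lit 269) (B (L (nat_lit 270) ln17_9_3_c10 ln17_9_3_c10_ok) (L (nat_lit 268) ln16_9_3_c10 ln16_9_3_c10_ok)))))))) (B (M (nat_lit 301)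 (B (M (nat_lit 273) (B (L (nat_lit 272) ln13_9_2 ln13_9_2_ok) (M (nat_lit 305) (B (L (nat_lit 274) ln14_9_2_c10 ln14_9_2_c10_ok) (M (nat_lit 337) (B (L (nat_lit 338) ln14_9_0_c10 ln14_9_0_c10_ok) (L (nat_lit 336) ln13_9_0 ln13_9_0_ok))))))) (M (nat_lit 268) (B (L (nat_lit 269) ln16_9_3_c10 ln16_9_3_c10_ok) (M (nat_lit 300) (B (L (nat_lit 267) ln15_9_3 ln15_9_3_ok) (M (nat_lit 332) (B (L (nat_lit 333) ln16_9_1 ln16_9_1_ok) (L (nat_lit 331) ln15_9_1_c10 ln15_9_1_c10_ok))))))))) (B (M (nat_lit 301) (B (M (nat_lit 305) (B (M (nat_lit 337) (B (L (nat_lit 338) ln14_9_0_c10 ln14_9_0_c10_ok) (L (nat_lit 336) ln13_9_0 ln13_9_0_ok))) (M (nat_lit 269) (B (L (nat_lit 270) ln17_9_3_c10 ln17_9_3_c10_ok) (L (nat_lit 268) ln16_9_3_c10 ln16_9_3_c10_ok))))) (M (nat_lit 300) (B (M (nat_lit 272) (B (L (nat_lit 273) ln13_9_2 ln13_9_2_ok) (L (nat_lit 271) ln12_9_2 ln12_9_2_ok))) (M (nat_lit 332) (B (L (nat_lit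 333) ln16_9_1 ln16_9_1_ok) (L (nat_lit 331) ln15_9_1_c10 ln15_9_1_c10_ok))))))) (B (M (nat_lit 305) (B (M (nat_lit 338) (B (L (nat_lit 337) ln14_9_0_c10 ln14_9_0_c10_ok) (M (nat_lit 306) (B (L (nat_lit 339) ln15_9_0_c10 ln15_9_0_c10_ok) (M (nat_lit 274) (B (L (nat_lit 273) ln14_9_2_c10 ln14_9_2_c10_ok) (L (nat_lit 275) ln15_9_2_c10 ln15_9_2_c10_ok))))))) (B (M (nat_lit 306) (B (M (nat_lit 270) (B (L (nat_lit 269) ln17_9_3_c10 ln17_9_3_c10_ok) (L (nat_lit 271) ln18_9_3_c10 ln18_9_3_c10_ok))) (M (nat_lit 274) (B (L (nat_lit 273) ln14_9_2_c10 ln14_9_2_c10_ok) (L (nat_lit 275) ln15_9_2_c10 ln15_9_2_c10_ok))))) (B (M (nat_lit 306) (B (M (nat_lit 270) (B (L (nat_lit 269) ln17_9_3_c10 ln17_9_3_c10_ok) (L (nat_lit 271) ln18_9_3_c10 ln18_9_3_c10_ok))) (M (nat_lit 338) (B (L (nat_lit 337) ln14_9_0_c10 ln14_9_0_c10_ok) (L (nat_lit 339) ln15_9_0_c10 ln15_9_0_c10_ok))))) (M (nat_lit 301) (B (M (nat_lit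 269) (B (L (nat_lit 268) ln16_9_3_c10 ln16_9_3_c10_ok) (L (nat_lit 270) ln17_9_3_c10 ln17_9_3_c10_ok))) (M (nat_lit 337) (B (L (nat_lit 336) ln13_9_0 ln13_9_0_ok) (L (nat_lit 338) ln14_9_0_c10 ln14_9_0_c10_ok))))))))) (B (M (nat_lit 301) (B (M (nat_lit 300) (B (M (nat_lit 272) (B (L (nat_lit 273) ln13_9_2 ln13_9_2_ok) (L (nat_lit 271) ln12_9_2 ln12_9_2_ok))) (M (nat_lit 332) (B (L (nat_lit 333) ln16_9_1 ln16_9_1_ok) (L (nat_lit 331) ln15_9_1_c10 ln15_9_1_c10_ok))))) (B (M (nat_lit 268) (B (L (nat_lit 269) ln16_9_3_c10 ln16_9_3_c10_ok) (M (nat_lit 300) (B (L (nat_lit 267) ln15_9_3 ln15_9_3_ok) (M (nat_lit 332) (B (L (nat_lit 333) ln16_9_1 ln16_9_1_ok) (L (nat_lit 331) ln15_9_1_c10 ln15_9_1_c10_ok))))))) (B (M (nat_lit 300) (B (M (nat_lit 272) (B (L (nat_lit 273) ln13_9_2 ln13_9_2_ok) (L (nat_lit 271) ln12_9_2 ln12_9_2_ok))) (M (nat_lit 268) (B (L (nat_lit 269) ln16_9_3_c10 ln16_9_3_c10_ok)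 (L (nat_lit 267) ln15_9_3 ln15_9_3_ok))))) (M (nat_lit 305) (B (M (nat_lit 273) (B (L (nat_lit 274) ln14_9_2_c10 ln14_9_2_c10_ok) (L (nat_lit 272) ln13_9_2 ln13_9_2_ok))) (M (nat_lit 269) (B (L (nat_lit 270) ln17_9_3_c10 ln17_9_3_c10_ok) (L (nat_lit 268) ln16_9_3_c10 ln16_9_3_c10_ok))))))))) (B (M (nat_lit 305) (B (M (nat_lit 270) (B (L (nat_lit 269) ln17_9_3_c10 ln17_9_3_c10_ok) (M (nat_lit 274) (B (L (nat_lit 273) ln14_9_2_c10 ln14_9_2_c10_ok) (M (nat_lit 306) (B (L (nat_lit 275) ln15_9_2_c10 ln15_9_2_c10_ok) (L (nat_lit 271) ln18_9_3_c10 ln18_9_3_c10_ok))))))) (B (M (nat_lit 306) (B (M (nat_lit 338) (B (L (nat_lit 339) ln15_9_0_c10 ln15_9_0_c10_ok) (L (nat_lit 337) ln14_9_0_c10 ln14_9_0_c10_ok))) (M (nat_lit 270) (B (L (nat_lit 271) ln18_9_3_c10 ln18_9_3_c10_ok) (L (nat_lit 269) ln17_9_3_c10 ln17_9_3_c10_ok))))) (M (nat_lit 273) (B (L (nat_lit 274) ln14_9_2_c10 ln14_9_2_c10_ok) (M (nat_lit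 337) (B (L (nat_lit 338) ln14_9_0_c10 ln14_9_0_c10_ok) (M (nat_lit 241) (B (M (nat_lit 336) (B (L (nat_lit 209) ln17_6_5_c10 ln17_6_5_c10_ok) (L (nat_lit 368) ln17_7_5_c10 ln17_7_5_c10_ok))) (B (M (nat_lit 369) (B (M (nat_lit 240) (B (L (nat_lit 208) ln17_10_7_c10 ln17_10_7_c10_ok) (L (nat_lit 272) ln17_11_7_c10 ln17_11_7_c10_ok))) (M (nat_lit 368) (B (L (nat_lit 336) ln17_7_5_c10 ln17_7_5_c10_ok) (L (nat_lit 400) ln17_8_5_c10 ln17_8_5_c10_ok))))) (M (nat_lit 209) (B (M (nat_lit 210) (B (L (nat_lit 178) ln17_9_6_c10 ln17_9_6_c10_ok) (L (nat_lit 242) ln17_10_6_c10 ln17_10_6_c10_ok))) (M (nat_lit 208) (B (L (nat_lit 176) ln17_9_7_c10 ln17_9_7_c10_ok) (L (nat_lit 240) ln17_10_7_c10 ln17_10_7_c10_ok))))))))))))))) c10_d205))))))) (B (M (nat_lit 301) (B (M (nat_lit 304) (B (M (nat_lit 269) (B (L (nat_lit 268) ln16_9_3_c10 ln16_9_3_c10_ok) (L (nat_lit 398) ln14_12_7 ln14_12_7_ok))) (M (nat_lit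 305) (B (M (nat_lit 273) (B (L (nat_lit 274) ln14_9_2_c10 ln14_9_2_c10_ok) (L (nat_lit 272) ln13_9_2 ln13_9_2_ok))) (M (nat_lit 337) (B (L (nat_lit 338) ln14_9_0_c10 ln14_9_0_c10_ok) (L (nat_lit 336) ln13_9_0 ln13_9_0_ok))))))) (M (nat_lit 331) (B (M (nat_lit 332) (B (L (nat_lit 333) ln11_10_2 ln11_10_2_ok) (L (nat_lit 300) ln15_9_1_c10 ln15_9_1_c10_ok))) (L (nat_lit 330) ln14_11_3 ln14_11_3_ok))))) (M (nat_lit 398) (B (L (nat_lit 399) ln11_11_0 ln11_11_0_ok) (L (nat_lit 271) ln14_12_6 ln14_12_6_ok)))))) c10_d206)) (L (nat_lit 335) ln11_11_2 ln11_11_2_ok))) (B (K (nat_lit 5954262831509113917970671779184168893465202791674575027972550586350738639554920153227251221310997016665624273787219817658740379777174077440) (nat_lit 9037874575408474219072195042389286232458447382806645512328572422939751305256094935762704025417239681575958553748941307904) (nat_lit 9037874575408474219072195042389286232458447382806645512328572422939751305256094935762704025417239681575958553748941307904)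 c10_s1) (B (M (nat_lit 330) (B (L (nat_lit 331) ln14_11_3 ln14_11_3_ok) (M (nat_lit 367) (B (M (nat_lit 335) (B (L (nat_lit 336) ln12_11_2 ln12_11_2_ok) (L (nat_lit 334) ln11_11_2 ln11_11_2_ok))) (M (nat_lit 399) (B (L (nat_lit 400) ln12_11_0 ln12_11_0_ok) (L (nat_lit 398) ln11_11_0 ln11_11_0_ok))))))) (B (M (nat_lit 367) (B (M (nat_lit 331) (B (L (nat_lit 330) ln14_11_3 ln14_11_3_ok) (L (nat_lit 332) ln15_11_3 ln15_11_3_ok))) (M (nat_lit 335) (B (L (nat_lit 336) ln12_11_2 ln12_11_2_ok) (L (nat_lit 334) ln11_11_2 ln11_11_2_ok))))) (M (nat_lit 367) (B (M (nat_lit 331) (B (L (nat_lit 330) ln14_11_3 ln14_11_3_ok) (L (nat_lit 332) ln15_11_3 ln15_11_3_ok))) (M (nat_lit 399) (B (L (nat_lit 398) ln11_11_0 ln11_11_0_ok) (L (nat_lit 400) ln12_11_0 ln12_11_0_ok)))))))))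
theorem c10_s3 : Sem (nat_lit 5954262830815946494440468064139258622131906539230539000934078872806075061271132354550578193372942037532254438881195279021764289825886699520) (nat_lit 344728266524137510402434499354379170964440561339356860303318163716471329896373728313815168605563820471521752524034526072873291454639830583682743699244589895467124290843866819225908896009965120934597724405170683510784) (nat_lit 344728266524137510402434499354379170964440561339356860303318163716471329896373728313815168605563820471521752524034526072873291454639830583682743699244589895467124290843866819225908896009965120934597724405170683510784) :=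
  sem_of_chk (M (nat_lit 428) (B (M (nat_lit 366) c10_d207) (B (M (nat_lit 460) (B (K (nat_lit 8931394246223919741660702096143128740880192478464903044691016872442593480537265575446063142856511203595172621904809346577872911053935869952) (nat_lit 344728266524137510402434499354379170964440561339356860303318163716471329896370751182399760632308046534766331168330842117286309959844707633087538765873985161393202650593689944847796166184884705047922182317512375402496) (nat_lit 344728266524137510402434499354379170964440561339356860303318163716471329896370751182399760632308046534766331168330842117286309959844707633087538765873985161393202650593689944847796166184884705047922182317512375402496) c10_s2) (M (nat_lit 396) (B (L (nat_lit 333) ln12_14_6 ln12_14_6_ok) (L (nat_lit 331) ln12_14_7 ln12_14_7_ok))))) (B (M (nat_lit 460) (B (K (nat_lit 8931394246223919741660702096143128740880192478464903044691016872442593480537265575446063142856511203595172621904809346577872911053935869952)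 (nat_lit 344728266524137510402434499354379170964440561339356860303318163716471329896370751182399760632308046534766331168330842117286309959844707633087538765873985161393202650593689944847796166184884705047922182317512375402496) (nat_lit 344728266524137510402434499354379170964440561339356860303318163716471329896370751182399760632308046534766331168330842117286309959844707633087538765873985161393202650593689944847796166184884705047922182317512375402496) c10_s2) (M (nat_lit 396) (B (L (nat_lit 332) ln12_10_4 ln12_10_4_ok) (L (nat_lit 333) ln12_14_6 ln12_14_6_ok))))) (B (M (nat_lit 366) (B (M (nat_lit 332) (B (M (nat_lit 331) (B (L (nat_lit 330) ln14_11_3 ln14_11_3_ok) (M (nat_lit 334) (B (L (nat_lit 335) ln11_11_2 ln11_11_2_ok) (M (nat_lit 398) (B (L (nat_lit 399) ln11_11_0 ln11_11_0_ok) (M (nat_lit 302) (B (M (nat_lit 303) (B (L (nat_lit 333) ln11_10_2 ln11_10_2_ok) (L (nat_lit 271) ln14_12_6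 ln14_12_6_ok))) (B (M (nat_lit 301) (B (L (nat_lit 269) ln14_12_7 ln14_12_7_ok) (M (nat_lit 303) (B (L (nat_lit 271) ln14_12_6 ln14_12_6_ok) (L (nat_lit 300) ln15_9_1_c10 ln15_9_1_c10_ok))))) (B (M (nat_lit 270) (B (M (nat_lit 238) (B (L (nat_lit 333) ln14_7_5_c10 ln14_7_5_c10_ok) (M (nat_lit 237) (B (L (nat_lit 205) ln14_10_7_c10 ln14_10_7_c10_ok) (L (nat_lit 269) ln14_11_7_c10 ln14_11_7_c10_ok))))) (B (M (nat_lit 269) (B (L (nat_lit 237) ln14_11_7_c10 ln14_11_7_c10_ok) (L (nat_lit 301) ln14_12_7 ln14_12_7_ok))) (M (nat_lit 238) (B (L (nat_lit 333) ln14_7_5_c10 ln14_7_5_c10_ok) (M (nat_lit 239) (B (L (nat_lit 207) ln14_10_6_c10 ln14_10_6_c10_ok) (L (nat_lit 271) ln14_11_6_c10 ln14_11_6_c10_ok)))))))) (M (nat_lit 270) (B (M (nat_lit 269) (B (L (nat_lit 237) ln14_11_7_c10 ln14_11_7_c10_ok) (L (nat_lit 301) ln14_12_7 ln14_12_7_ok))) (M (nat_lit 333) (B (L (nat_lit 238) ln14_7_5_c10 ln14_7_5_c10_ok)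 (L (nat_lit 303) ln11_10_2 ln11_10_2_ok))))))))))))))) (L (nat_lit 396) ln12_10_4 ln12_10_4_ok))) (B (K (nat_lit 5954262831509113917970671779184168893465202791674575027972550586350738639554920153227251221310997016665624273787219817658740379777174077440) (nat_lit 9037874575408474219072195042389286232458447382806645512328572422939751305256094935762704025417239681575958553748941307904) (nat_lit 9037874575408474219072195042389286232458447382806645512328572422939751305256094935762704025417239681575958553748941307904) c10_s1) (B (M (nat_lit 330) (B (L (nat_lit 331) ln14_11_3 ln14_11_3_ok) (M (nat_lit 367) (B (M (nat_lit 335) (B (L (nat_lit 336) ln12_11_2 ln12_11_2_ok) (L (nat_lit 334) ln11_11_2 ln11_11_2_ok))) (M (nat_lit 399) (B (L (nat_lit 400) ln12_11_0 ln12_11_0_ok) (L (nat_lit 398) ln11_11_0 ln11_11_0_ok))))))) (M (nat_lit 331) (B (M (nat_lit 332) (B (L (nat_lit 396) ln12_10_4 ln12_10_4_ok)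 (L (nat_lit 367) ln15_11_3 ln15_11_3_ok))) (L (nat_lit 330) ln14_11_3 ln14_11_3_ok))))))) (B (M (nat_lit 366) (B (M (nat_lit 367) (B (M (nat_lit 331) (B (L (nat_lit 330) ln14_11_3 ln14_11_3_ok) (L (nat_lit 332) ln15_11_3 ln15_11_3_ok))) (M (nat_lit 335) (B (L (nat_lit 334) ln11_11_2 ln11_11_2_ok) (L (nat_lit 336) ln12_11_2 ln12_11_2_ok))))) (B (M (nat_lit 367) (B (M (nat_lit 335) (B (L (nat_lit 334) ln11_11_2 ln11_11_2_ok) (L (nat_lit 336) ln12_11_2 ln12_11_2_ok))) (M (nat_lit 399) (B (L (nat_lit 398) ln11_11_0 ln11_11_0_ok) (L (nat_lit 400) ln12_11_0 ln12_11_0_ok))))) (B (M (nat_lit 367) (B (M (nat_lit 331) (B (L (nat_lit 330) ln14_11_3 ln14_11_3_ok) (L (nat_lit 332) ln15_11_3 ln15_11_3_ok))) (M (nat_lit 399) (B (L (nat_lit 398) ln11_11_0 ln11_11_0_ok) (L (nat_lit 400) ln12_11_0 ln12_11_0_ok))))) (M (nat_lit 331) (B (L (nat_lit 330) ln14_11_3 ln14_11_3_ok) (M (nat_lit 396) (B (L (nat_lit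 460) ln12_14_7 ln12_14_7_ok) (M (nat_lit 299) (B (L (nat_lit 267) ln11_8_4 ln11_8_4_ok) (L (nat_lit 332) ln12_10_4 ln12_10_4_ok))))))))))) (M (nat_lit 396) (B (M (nat_lit 460) (B (L (nat_lit 333) ln12_14_6 ln12_14_6_ok) (L (nat_lit 331) ln12_14_7 ln12_14_7_ok))) (L (nat_lit 332) ln12_10_4 ln12_10_4_ok))))))))) (nat_lit 5954262830815946494440468064139258622131906539230539000934078872806075061271132354550578193372942037532254438881195279021764289825886699520) (nat_lit 344728266524137510402434499354379170964440561339356860303318163716471329896373728313815168605563820471521752524034526072873291454639830583682743699244589895467124290843866819225908896009965120934597724405170683510784) (nat_lit 344728266524137510402434499354379170964440561339356860303318163716471329896373728313815168605563820471521752524034526072873291454639830583682743699244589895467124290843866819225908896009965120934597724405170683510784)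 (by decide +kernel)
noncomputable def c10_d208 : Cert := (B (M (nat_lit 521) (B (M (nat_lit 553) (B (L (nat_lit 585) ln9_18_6 ln9_18_6_ok) (L (nat_lit 457) ln9_17_6 ln9_17_6_ok))) (B (M (nat_lit 553) (B (L (nat_lit 457) ln9_17_6 ln9_17_6_ok) (L (nat_lit 522) ln10_13_5 ln10_13_5_ok))) (B (M (nat_lit 522) (B (M (nat_lit 523) (B (L (nat_lit 555) ln10_13_4 ln10_13_4_ok) (M (nat_lit 488) (B (L (nat_lit 487) ln7_15_0 ln7_15_0_ok) (L (nat_lit 524) ln12_16_3 ln12_16_3_ok))))) (M (nat_lit 425) (B (L (nat_lit 393) ln10_16_7 ln10_16_7_ok) (M (nat_lit 554) (B (L (nat_lit 457) ln9_13_4 ln9_13_4_ok) (L (nat_lit 459) ln10_17_6 ln10_17_6_ok))))))) (M (nat_lit 553) (B (L (nat_lit 585) ln9_18_6 ln9_18_6_ok) (L (nat_lit 522) ln10_13_5 ln10_13_5_ok))))))) (B (M (nat_lit 521) (B (M (nat_lit 553) (B (L (nat_lit 585) ln9_18_6 ln9_18_6_ok) (L (nat_lit 457) ln9_17_6 ln9_17_6_ok))) (B (M (nat_lit 553) (B (L (nat_lit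 457) ln9_17_6 ln9_17_6_ok) (L (nat_lit 522) ln10_13_5 ln10_13_5_ok))) (B (M (nat_lit 522) (B (M (nat_lit 425) (B (L (nat_lit 393) ln10_16_7 ln10_16_7_ok) (M (nat_lit 554) (B (L (nat_lit 457) ln9_13_4 ln9_13_4_ok) (L (nat_lit 459) ln10_17_6 ln10_17_6_ok))))) (M (nat_lit 523) (B (L (nat_lit 555) ln10_13_4 ln10_13_4_ok) (M (nat_lit 524) (B (L (nat_lit 488) ln12_16_3 ln12_16_3_ok) (L (nat_lit 525) ln13_16_3 ln13_16_3_ok))))))) (M (nat_lit 553) (B (L (nat_lit 585) ln9_18_6 ln9_18_6_ok) (L (nat_lit 522) ln10_13_5 ln10_13_5_ok))))))) (B (M (nat_lit 521) (B (M (nat_lit 553) (B (L (nat_lit 585) ln9_18_6 ln9_18_6_ok) (L (nat_lit 457) ln9_17_6 ln9_17_6_ok))) (B (M (nat_lit 553) (B (L (nat_lit 457) ln9_17_6 ln9_17_6_ok) (L (nat_lit 522) ln10_13_5 ln10_13_5_ok))) (B (M (nat_lit 425) (B (M (nat_lit 522) (B (L (nat_lit 393) ln10_16_7 ln10_16_7_ok) (M (nat_lit 554) (B (L (nat_lit 457) ln9_13_4 ln9_13_4_ok)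 (L (nat_lit 459) ln10_17_6 ln10_17_6_ok))))) (B (M (nat_lit 459) (B (M (nat_lit 424) (B (L (nat_lit 423) ln7_13_0 ln7_13_0_ok) (L (nat_lit 460) ln8_13_0 ln8_13_0_ok))) (M (nat_lit 522) (B (L (nat_lit 393) ln10_16_7 ln10_16_7_ok) (L (nat_lit 554) ln10_17_6 ln10_17_6_ok))))) (B (M (nat_lit 424) (B (M (nat_lit 392) (B (L (nat_lit 391) ln11_13_3 ln11_13_3_ok) (L (nat_lit 457) ln9_16_7 ln9_16_7_ok))) (M (nat_lit 459) (B (L (nat_lit 423) ln7_13_0 ln7_13_0_ok) (L (nat_lit 460) ln8_13_0 ln8_13_0_ok))))) (M (nat_lit 393) (B (L (nat_lit 522) ln10_16_7 ln10_16_7_ok) (M (nat_lit 361) (B (L (nat_lit 457) ln9_11_4 ln9_11_4_ok) (L (nat_lit 329) ln9_10_4_c10 ln9_10_4_c10_ok))))))))) (M (nat_lit 553) (B (L (nat_lit 585) ln9_18_6 ln9_18_6_ok) (L (nat_lit 522) ln10_13_5 ln10_13_5_ok))))))) (B (M (nat_lit 522) (B (M (nat_lit 554) (B (L (nat_lit 459) ln10_17_6 ln10_17_6_ok) (M (nat_lit 555) (B (L (nat_lit 587)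 ln10_14_4 ln10_14_4_ok) (L (nat_lit 523) ln10_13_4 ln10_13_4_ok))))) (B (M (nat_lit 521) (B (L (nat_lit 553) ln10_13_5 ln10_13_5_ok) (M (nat_lit 523) (B (L (nat_lit 555) ln10_13_4 ln10_13_4_ok) (M (nat_lit 488) (B (L (nat_lit 487) ln7_15_0 ln7_15_0_ok) (L (nat_lit 524) ln12_16_3 ln12_16_3_ok))))))) (M (nat_lit 554) (B (L (nat_lit 459) ln10_17_6 ln10_17_6_ok) (M (nat_lit 457) (B (L (nat_lit 586) ln10_18_7_c10 ln10_18_7_c10_ok) (L (nat_lit 425) ln10_17_7 ln10_17_7_ok)))))))) (B (M (nat_lit 522) (B (M (nat_lit 554) (B (L (nat_lit 459) ln10_17_6 ln10_17_6_ok) (M (nat_lit 457) (B (L (nat_lit 586) ln10_18_7_c10 ln10_18_7_c10_ok) (L (nat_lit 425) ln10_17_7 ln10_17_7_ok))))) (B (M (nat_lit 554) (B (L (nat_lit 459) ln10_17_6 ln10_17_6_ok) (M (nat_lit 555) (B (L (nat_lit 587) ln10_14_4 ln10_14_4_ok) (L (nat_lit 523) ln10_13_4 ln10_13_4_ok))))) (M (nat_lit 523) (B (L (nat_lit 555) ln10_13_4 ln10_13_4_ok)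 (M (nat_lit 488) (B (L (nat_lit 487) ln7_15_0 ln7_15_0_ok) (M (nat_lit 524) (B (L (nat_lit 491) ln8_15_0 ln8_15_0_ok) (L (nat_lit 525) ln13_16_3 ln13_16_3_ok)))))))))) (B (M (nat_lit 522) (B (M (nat_lit 554) (B (L (nat_lit 459) ln10_17_6 ln10_17_6_ok) (M (nat_lit 555) (B (L (nat_lit 587) ln10_14_4 ln10_14_4_ok) (L (nat_lit 523) ln10_13_4 ln10_13_4_ok))))) (B (M (nat_lit 523) (B (L (nat_lit 555) ln10_13_4 ln10_13_4_ok) (M (nat_lit 488) (B (L (nat_lit 487) ln7_15_0 ln7_15_0_ok) (M (nat_lit 524) (B (L (nat_lit 491) ln8_15_0 ln8_15_0_ok) (L (nat_lit 525) ln13_16_3 ln13_16_3_ok))))))) (M (nat_lit 554) (B (L (nat_lit 459) ln10_17_6 ln10_17_6_ok) (M (nat_lit 553) (B (L (nat_lit 585) ln10_14_5 ln10_14_5_ok) (L (nat_lit 521) ln10_13_5 ln10_13_5_ok)))))))) (B (M (nat_lit 488) (B (M (nat_lit 459) (B (L (nat_lit 487) ln7_15_2 ln7_15_2_ok) (L (nat_lit 460) ln13_14_1 ln13_14_1_ok))) (B (M (nat_lit 491)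 (B (M (nat_lit 459) (B (L (nat_lit 460) ln13_14_1 ln13_14_1_ok) (M (nat_lit 523) (B (L (nat_lit 524) ln8_15_0 ln8_15_0_ok) (L (nat_lit 555) ln11_17_7 ln11_17_7_ok))))) (M (nat_lit 492) (B (M (nat_lit 520) (B (L (nat_lit 519) ln11_15_1 ln11_15_1_ok) (L (nat_lit 521) ln12_15_1 ln12_15_1_ok))) (M (nat_lit 456) (B (L (nat_lit 455) ln11_15_3 ln11_15_3_ok) (L (nat_lit 457) ln12_15_3 ln12_15_3_ok))))))) (M (nat_lit 491) (B (M (nat_lit 523) (B (L (nat_lit 524) ln8_15_0 ln8_15_0_ok) (M (nat_lit 522) (B (L (nat_lit 487) ln7_15_0 ln7_15_0_ok) (L (nat_lit 555) ln10_13_4 ln10_13_4_ok))))) (B (M (nat_lit 492) (B (M (nat_lit 520) (B (L (nat_lit 519) ln11_15_1 ln11_15_1_ok) (L (nat_lit 521) ln12_15_1 ln12_15_1_ok))) (M (nat_lit 524) (B (L (nat_lit 523) ln8_15_0 ln8_15_0_ok) (L (nat_lit 525) ln9_15_0 ln9_15_0_ok))))) (M (nat_lit 487) (B (M (nat_lit 519) (B (L (nat_lit 518) ln10_15_1 ln10_15_1_ok) (L (nat_lit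 520) ln11_15_1 ln11_15_1_ok))) (M (nat_lit 455) (B (L (nat_lit 454) ln10_15_3 ln10_15_3_ok) (L (nat_lit 456) ln11_15_3 ln11_15_3_ok))))))))))) (B (K (nat_lit 4795005779983909752416656862972931875179797990645877843042118046731232043000663685386750379624359645780809951611648269571261603950197398593471512576) (nat_lit 117936325980758997374329320432593948797565468570490328953700928875700550817054038364370567804957997221334778637765834267940247979648368549011478867532144583010246721536) (nat_lit 117936325980758997374329320432593948797565468570490328953700928875700550817054038364370567804957997221334778637765834267940247979648368549011478867532144583010246721536) c10_s53) (M (nat_lit 522) (B (M (nat_lit 523) (B (L (nat_lit 555) ln10_13_4 ln10_13_4_ok) (M (nat_lit 488) (B (L (nat_lit 487) ln7_15_0 ln7_15_0_ok) (M (nat_lit 524) (B (L (nat_lit 491) ln8_15_0 ln8_15_0_ok) (L (nat_lit 525) ln13_16_3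 ln13_16_3_ok))))))) (M (nat_lit 554) (B (M (nat_lit 553) (B (L (nat_lit 585) ln10_14_5 ln10_14_5_ok) (L (nat_lit 521) ln10_13_5 ln10_13_5_ok))) (M (nat_lit 425) (B (L (nat_lit 457) ln10_17_7 ln10_17_7_ok) (L (nat_lit 393) ln10_16_7 ln10_16_7_ok)))))))))))))))
noncomputable def c10_d209 : Cert := (B (M (nat_lit 523) (B (M (nat_lit 491) (B (L (nat_lit 394) ln10_12_4 ln10_12_4_ok) (M (nat_lit 555) (B (L (nat_lit 522) ln10_13_4 ln10_13_4_ok) (L (nat_lit 587) ln11_18_7 ln11_18_7_ok))))) (B (M (nat_lit 491) (B (L (nat_lit 394) ln10_12_4 ln10_12_4_ok) (M (nat_lit 555) (B (L (nat_lit 587) ln11_18_7 ln11_18_7_ok) (L (nat_lit 459) ln11_17_7 ln11_17_7_ok))))) (B (M (nat_lit 555) (B (L (nat_lit 522) ln10_13_4 ln10_13_4_ok) (M (nat_lit 491) (B (L (nat_lit 587) ln11_18_7 ln11_18_7_ok) (L (nat_lit 459) ln11_17_7 ln11_17_7_ok))))) (B (M (nat_lit 555) (B (L (nat_lit 522) ln10_13_4 ln10_13_4_ok) (M (nat_lit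 491) (B (L (nat_lit 394) ln10_12_4 ln10_12_4_ok) (L (nat_lit 459) ln11_17_7 ln11_17_7_ok))))) (B (M (nat_lit 394) (B (L (nat_lit 491) ln10_12_4 ln10_12_4_ok) (M (nat_lit 522) (B (M (nat_lit 521) (B (L (nat_lit 553) ln10_13_5 ln10_13_5_ok) (L (nat_lit 489) ln10_12_5 ln10_12_5_ok))) (M (nat_lit 393) (B (L (nat_lit 425) ln10_16_7 ln10_16_7_ok) (L (nat_lit 361) ln10_15_7 ln10_15_7_ok))))))) (M (nat_lit 522) (B (L (nat_lit 555) ln10_13_4 ln10_13_4_ok) (M (nat_lit 394) (B (M (nat_lit 521) (B (L (nat_lit 553) ln10_13_5 ln10_13_5_ok) (L (nat_lit 489) ln10_12_5 ln10_12_5_ok))) (M (nat_lit 393) (B (L (nat_lit 425) ln10_16_7 ln10_16_7_ok) (L (nat_lit 361) ln10_15_7 ln10_15_7_ok))))))))))))) (B (M (nat_lit 489) (B (M (nat_lit 521) (B (L (nat_lit 394) ln10_12_5 ln10_12_5_ok) (M (nat_lit 553) (B (L (nat_lit 585) ln9_18_6 ln9_18_6_ok) (L (nat_lit 457) ln9_17_6 ln9_17_6_ok))))) (B (M (nat_lit 491) (B (M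 (nat_lit 394) (B (L (nat_lit 521) ln10_12_5 ln10_12_5_ok) (L (nat_lit 523) ln10_12_4 ln10_12_4_ok))) (K (nat_lit 11188346811031061842286167989589336469352926986823738760001671500043993364103543675393137278698391202716135506548289033261139058141379806900753793024) (nat_lit 6006697966599717011188270693181766005046537268615496124407494508959080964834320810499051166475322924638839527534146771950040363562273922419043602896584179712) (nat_lit 6006697966599717011188270693181766005046537268615496124407494508959080964834320810499051166475322924638839527534146771950040363562273922419043602896584179712) c10_s52))) (B (M (nat_lit 491) (B (M (nat_lit 523) (B (L (nat_lit 394) ln10_12_4 ln10_12_4_ok) (M (nat_lit 555) (B (L (nat_lit 587) ln11_18_7 ln11_18_7_ok) (L (nat_lit 459) ln11_17_7 ln11_17_7_ok))))) (B (K (nat_lit 11188346811031061842286167989589336469352926986823738760001671500043993364103543675393137278698391202716135506548289033261139058141379806900753793024)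 (nat_lit 6006697966599717011188270693181766005046537268615496124407494508959080964834320810499051166475322924638839527534146771950040363562273922419043602896584179712) (nat_lit 6006697966599717011188270693181766005046537268615496124407494508959080964834320810499051166475322924638839527534146771950040363562273922419043602896584179712) c10_s52) (M (nat_lit 456) (B (M (nat_lit 455) (B (L (nat_lit 488) ln11_15_3 ln11_15_3_ok) (L (nat_lit 457) ln7_14_0 ln7_14_0_ok))) (B (M (nat_lit 524) (B (M (nat_lit 523) (B (L (nat_lit 488) ln8_15_0 ln8_15_0_ok) (L (nat_lit 394) ln10_12_4 ln10_12_4_ok))) (M (nat_lit 492) (B (L (nat_lit 457) ln12_15_3 ln12_15_3_ok) (L (nat_lit 525) ln9_15_0 ln9_15_0_ok))))) (B (M (nat_lit 457) (B (L (nat_lit 455) ln7_14_0 ln7_14_0_ok) (L (nat_lit 492) ln12_15_3 ln12_15_3_ok))) (M (nat_lit 488) (B (L (nat_lit 455) ln11_15_3 ln11_15_3_ok) (M (nat_lit 523) (B (L (nat_lit 524) ln8_15_0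 ln8_15_0_ok) (L (nat_lit 394) ln10_12_4 ln10_12_4_ok)))))))))))) (B (M (nat_lit 491) (B (M (nat_lit 394) (B (L (nat_lit 521) ln10_12_5 ln10_12_5_ok) (L (nat_lit 523) ln10_12_4 ln10_12_4_ok))) (B (M (nat_lit 488) (B (M (nat_lit 523) (B (L (nat_lit 524) ln8_15_0 ln8_15_0_ok) (L (nat_lit 394) ln10_12_4 ln10_12_4_ok))) (M (nat_lit 459) (B (L (nat_lit 487) ln7_15_2 ln7_15_2_ok) (L (nat_lit 460) ln13_14_1 ln13_14_1_ok))))) (B (M (nat_lit 488) (B (M (nat_lit 459) (B (L (nat_lit 487) ln7_15_2 ln7_15_2_ok) (L (nat_lit 460) ln13_14_1 ln13_14_1_ok))) (B (M (nat_lit 459) (B (L (nat_lit 460) ln13_14_1 ln13_14_1_ok) (M (nat_lit 523) (B (L (nat_lit 524) ln8_15_0 ln8_15_0_ok) (L (nat_lit 555) ln11_17_7 ln11_17_7_ok))))) (M (nat_lit 487) (B (M (nat_lit 519) (B (L (nat_lit 518) ln10_15_1 ln10_15_1_ok) (L (nat_lit 520) ln11_15_1 ln11_15_1_ok))) (M (nat_lit 455) (B (L (nat_lit 454) ln10_15_3 ln10_15_3_ok) (L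 (nat_lit 456) ln11_15_3 ln11_15_3_ok)))))))) (M (nat_lit 521) (B (L (nat_lit 394) ln10_12_5 ln10_12_5_ok) (M (nat_lit 520) (B (L (nat_lit 492) ln12_15_1 ln12_15_1_ok) (M (nat_lit 519) (B (L (nat_lit 518) ln6_16_2_c10 ln6_16_2_c10_ok) (L (nat_lit 488) ln11_15_1 ln11_15_1_ok))))))))))) (K (nat_lit 4795005779983909752416656862972931875179797990645877843042118046731232043000663685386750379624359645780809951611648269571261603950197398593471512576) (nat_lit 117936325980758997374329320432593948797565468570490328953700928875700550817054038364370567804957997221334778637765834267940247979648368549011478867532144583010246721536) (nat_lit 117936325980758997374329320432593948797565468570490328953700928875700550817054038364370567804957997221334778637765834267940247979648368549011478867532144583010246721536) c10_s53)))))) (B (M (nat_lit 489) c10_d208) (B (M (nat_lit 522) (B (M (nat_lit 554) (B (L (nat_lit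 459) ln10_17_6 ln10_17_6_ok) (M (nat_lit 553) (B (L (nat_lit 585) ln10_14_5 ln10_14_5_ok) (L (nat_lit 521) ln10_13_5 ln10_13_5_ok))))) (B (M (nat_lit 554) (B (L (nat_lit 459) ln10_17_6 ln10_17_6_ok) (M (nat_lit 425) (B (L (nat_lit 457) ln10_17_7 ln10_17_7_ok) (L (nat_lit 393) ln10_16_7 ln10_16_7_ok))))) (M (nat_lit 394) (B (M (nat_lit 521) (B (L (nat_lit 553) ln10_13_5 ln10_13_5_ok) (L (nat_lit 489) ln10_12_5 ln10_12_5_ok))) (M (nat_lit 393) (B (L (nat_lit 425) ln10_16_7 ln10_16_7_ok) (L (nat_lit 361) ln10_15_7 ln10_15_7_ok)))))))) (M (nat_lit 522) (B (M (nat_lit 554) (B (M (nat_lit 553) (B (L (nat_lit 585) ln10_14_5 ln10_14_5_ok) (L (nat_lit 521) ln10_13_5 ln10_13_5_ok))) (M (nat_lit 555) (B (L (nat_lit 587) ln10_14_4 ln10_14_4_ok) (L (nat_lit 523) ln10_13_4 ln10_13_4_ok))))) (B (M (nat_lit 554) (B (M (nat_lit 425) (B (L (nat_lit 457) ln10_17_7 ln10_17_7_ok) (L (nat_lit 393) ln10_16_7 ln10_16_7_ok)))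 (M (nat_lit 555) (B (L (nat_lit 587) ln10_14_4 ln10_14_4_ok) (L (nat_lit 523) ln10_13_4 ln10_13_4_ok))))) (M (nat_lit 394) (B (M (nat_lit 521) (B (L (nat_lit 553) ln10_13_5 ln10_13_5_ok) (L (nat_lit 489) ln10_12_5 ln10_12_5_ok))) (M (nat_lit 393) (B (L (nat_lit 425) ln10_16_7 ln10_16_7_ok) (L (nat_lit 361) ln10_15_7 ln10_15_7_ok))))))))))))
theorem c10_s54 : Sem (nat_lit 6698545685014523518010628429549951243512482155322452956746661052173503692881960205318835978079315785409167696803853513306810592363009802240) (nat_lit 886432159085995220399084503476962510213666421772890594079476702491163345396389443606466886303635252257621947685705302404608403581441023823773810562762271180719933708297270460416) (nat_lit 886432159085995220399084503476962510213666421772890594079476702491163345396389443606466886303635252257621947685705302404608403581441023823773810562762271180719933708297270460416) :=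
  sem_of_chk (M (nat_lit 490) (B (M (nat_lit 522) (B (M (nat_lit 554) (B (L (nat_lit 459) ln10_17_6 ln10_17_6_ok) (M (nat_lit 425) (B (L (nat_lit 457) ln10_17_7 ln10_17_7_ok) (L (nat_lit 393) ln10_16_7 ln10_16_7_ok))))) (M (nat_lit 394) (B (M (nat_lit 521) (B (L (nat_lit 553) ln10_13_5 ln10_13_5_ok) (L (nat_lit 489) ln10_12_5 ln10_12_5_ok))) (M (nat_lit 523) (B (L (nat_lit 555) ln10_13_4 ln10_13_4_ok) (L (nat_lit 491) ln10_12_4 ln10_12_4_ok))))))) (B (M (nat_lit 522) (B (M (nat_lit 554) (B (L (nat_lit 459) ln10_17_6 ln10_17_6_ok) (M (nat_lit 555) (B (L (nat_lit 587) ln10_14_4 ln10_14_4_ok) (L (nat_lit 523) ln10_13_4 ln10_13_4_ok))))) (B (M (nat_lit 394) (B (M (nat_lit 393) (B (L (nat_lit 425) ln10_16_7 ln10_16_7_ok) (L (nat_lit 361) ln10_15_7 ln10_15_7_ok))) (M (nat_lit 523) (B (L (nat_lit 555) ln10_13_4 ln10_13_4_ok) (L (nat_lit 491) ln10_12_4 ln10_12_4_ok))))) (M (nat_lit 554) (B (L (nat_lit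 459) ln10_17_6 ln10_17_6_ok) (M (nat_lit 425) (B (L (nat_lit 457) ln10_17_7 ln10_17_7_ok) (L (nat_lit 393) ln10_16_7 ln10_16_7_ok)))))))) (B (M (nat_lit 522) (B (M (nat_lit 554) (B (L (nat_lit 459) ln10_17_6 ln10_17_6_ok) (M (nat_lit 555) (B (L (nat_lit 587) ln10_14_4 ln10_14_4_ok) (L (nat_lit 523) ln10_13_4 ln10_13_4_ok))))) (B (M (nat_lit 394) (B (M (nat_lit 393) (B (L (nat_lit 425) ln10_16_7 ln10_16_7_ok) (L (nat_lit 361) ln10_15_7 ln10_15_7_ok))) (M (nat_lit 523) (B (L (nat_lit 555) ln10_13_4 ln10_13_4_ok) (L (nat_lit 491) ln10_12_4 ln10_12_4_ok))))) (M (nat_lit 554) (B (L (nat_lit 459) ln10_17_6 ln10_17_6_ok) (M (nat_lit 553) (B (L (nat_lit 585) ln10_14_5 ln10_14_5_ok) (L (nat_lit 521) ln10_13_5 ln10_13_5_ok)))))))) (B (M (nat_lit 522) (B (M (nat_lit 554) (B (L (nat_lit 459) ln10_17_6 ln10_17_6_ok) (M (nat_lit 555) (B (L (nat_lit 587) ln10_14_4 ln10_14_4_ok) (L (nat_lit 523) ln10_13_4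 ln10_13_4_ok))))) (B (M (nat_lit 394) (B (M (nat_lit 521) (B (L (nat_lit 553) ln10_13_5 ln10_13_5_ok) (L (nat_lit 489) ln10_12_5 ln10_12_5_ok))) (M (nat_lit 523) (B (L (nat_lit 555) ln10_13_4 ln10_13_4_ok) (L (nat_lit 491) ln10_12_4 ln10_12_4_ok))))) (M (nat_lit 554) (B (L (nat_lit 459) ln10_17_6 ln10_17_6_ok) (M (nat_lit 553) (B (L (nat_lit 585) ln10_14_5 ln10_14_5_ok) (L (nat_lit 521) ln10_13_5 ln10_13_5_ok)))))))) c10_d209))))) (nat_lit 6698545685014523518010628429549951243512482155322452956746661052173503692881960205318835978079315785409167696803853513306810592363009802240) (nat_lit 886432159085995220399084503476962510213666421772890594079476702491163345396389443606466886303635252257621947685705302404608403581441023823773810562762271180719933708297270460416) (nat_lit 886432159085995220399084503476962510213666421772890594079476702491163345396389443606466886303635252257621947685705302404608403581441023823773810562762271180719933708297270460416)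 (by decide +kernel)
noncomputable def c10_d210 : Cert := (B (M (nat_lit 334) (B (M (nat_lit 301) (B (M (nat_lit 302) (B (M (nat_lit 303) (B (M (nat_lit 367) (B (M (nat_lit 337) (B (M (nat_lit 304) (B (L (nat_lit 305) ln17_9_1 ln17_9_1_ok) (L (nat_lit 336) ln13_9_0 ln13_9_0_ok))) (B (M (nat_lit 336) (B (L (nat_lit 304) ln13_9_0 ln13_9_0_ok) (L (nat_lit 368) ln13_11_2 ln13_11_2_ok))) (B (M (nat_lit 368) (B (L (nat_lit 336) ln13_11_2 ln13_11_2_ok) (L (nat_lit 369) ln17_11_3 ln17_11_3_ok))) (M (nat_lit 305) (B (L (nat_lit 304) ln17_9_1 ln17_9_1_ok) (M (nat_lit 369) (B (L (nat_lit 368) ln17_11_3 ln17_11_3_ok) (M (nat_lit 273) (B (M (nat_lit 242) (B (L (nat_lit 274) ln17_11_6_c10 ln17_11_6_c10_ok) (M (nat_lit 241) (B (L (nat_lit 210) ln17_10_6_c10 ln17_10_6_c10_ok) (M (nat_lit 370) (B (L (nat_lit 338) ln17_7_4_c10 ln17_7_4_c10_ok) (L (nat_lit 402) ln17_8_4_c10 ln17_8_4_c10_ok))))))) (B (M (nat_lit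 402) (B (L (nat_lit 370) ln17_8_4_c10 ln17_8_4_c10_ok) (M (nat_lit 274) (B (L (nat_lit 242) ln17_11_6_c10 ln17_11_6_c10_ok) (M (nat_lit 401) (B (L (nat_lit 306) ln17_12_6_c10 ln17_12_6_c10_ok) (L (nat_lit 434) ln17_9_4_c10 ln17_9_4_c10_ok))))))) (B (M (nat_lit 401) (B (M (nat_lit 402) (B (L (nat_lit 370) ln17_8_4_c10 ln17_8_4_c10_ok) (L (nat_lit 434) ln17_9_4_c10 ln17_9_4_c10_ok))) (B (M (nat_lit 433) (B (M (nat_lit 306) (B (L (nat_lit 274) ln17_12_6_c10 ln17_12_6_c10_ok) (L (nat_lit 338) ln17_13_6_c10 ln17_13_6_c10_ok))) (M (nat_lit 434) (B (L (nat_lit 402) ln17_9_4_c10 ln17_9_4_c10_ok) (L (nat_lit 466) ln17_10_4_c10 ln17_10_4_c10_ok))))) (B (M (nat_lit 433) (B (M (nat_lit 306) (B (L (nat_lit 274) ln17_12_6_c10 ln17_12_6_c10_ok) (L (nat_lit 338) ln17_13_6_c10 ln17_13_6_c10_ok))) (M (nat_lit 465) (B (M (nat_lit 466) (B (L (nat_lit 434) ln17_10_4_c10 ln17_10_4_c10_ok) (L (nat_lit 498) ln17_11_4_c10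 ln17_11_4_c10_ok))) (M (nat_lit 464) (B (L (nat_lit 432) ln17_10_5_c10 ln17_10_5_c10_ok) (L (nat_lit 496) ln17_11_5_c10 ln17_11_5_c10_ok))))))) (M (nat_lit 338) (B (M (nat_lit 306) (B (L (nat_lit 274) ln17_12_6_c10 ln17_12_6_c10_ok) (L (nat_lit 433) ln17_13_6_c10 ln17_13_6_c10_ok))) (M (nat_lit 370) (B (L (nat_lit 241) ln17_7_4_c10 ln17_7_4_c10_ok) (L (nat_lit 402) ln17_8_4_c10 ln17_8_4_c10_ok))))))))) (B (M (nat_lit 241) (B (M (nat_lit 370) (B (L (nat_lit 338) ln17_7_4_c10 ln17_7_4_c10_ok) (L (nat_lit 402) ln17_8_4_c10 ln17_8_4_c10_ok))) (M (nat_lit 209) (B (M (nat_lit 210) (B (L (nat_lit 178) ln17_9_6_c10 ln17_9_6_c10_ok) (L (nat_lit 242) ln17_10_6_c10 ln17_10_6_c10_ok))) (M (nat_lit 208) (B (L (nat_lit 176) ln17_9_7_c10 ln17_9_7_c10_ok) (L (nat_lit 240) ln17_10_7_c10 ln17_10_7_c10_ok))))))) (M (nat_lit 241) (B (M (nat_lit 242) (B (L (nat_lit 210) ln17_10_6_c10 ln17_10_6_c10_ok) (L (nat_lit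 274) ln17_11_6_c10 ln17_11_6_c10_ok))) (B (M (nat_lit 274) (B (L (nat_lit 242) ln17_11_6_c10 ln17_11_6_c10_ok) (M (nat_lit 306) (B (L (nat_lit 401) ln17_12_6_c10 ln17_12_6_c10_ok) (M (nat_lit 209) (B (L (nat_lit 177) ln17_5_4_c10 ln17_5_4_c10_ok) (L (nat_lit 338) ln17_6_4_c10 ln17_6_4_c10_ok))))))) (B (M (nat_lit 209) (B (M (nat_lit 208) (B (L (nat_lit 176) ln17_9_7_c10 ln17_9_7_c10_ok) (L (nat_lit 240) ln17_10_7_c10 ln17_10_7_c10_ok))) (M (nat_lit 306) (B (L (nat_lit 338) ln17_6_4_c10 ln17_6_4_c10_ok) (M (nat_lit 274) (B (L (nat_lit 177) ln17_5_4_c10 ln17_5_4_c10_ok) (L (nat_lit 401) ln17_12_6_c10 ln17_12_6_c10_ok))))))) (M (nat_lit 209) (B (M (nat_lit 210) (B (L (nat_lit 178) ln17_9_6_c10 ln17_9_6_c10_ok) (L (nat_lit 242) ln17_10_6_c10 ln17_10_6_c10_ok))) (M (nat_lit 208) (B (L (nat_lit 176) ln17_9_7_c10 ln17_9_7_c10_ok) (L (nat_lit 240) ln17_10_7_c10 ln17_10_7_c10_ok))))))))))))))))))))))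 (M (nat_lit 399) (B (L (nat_lit 398) ln11_11_0 ln11_11_0_ok) (L (nat_lit 400) ln12_11_0 ln12_11_0_ok))))) (B (M (nat_lit 304) (B (L (nat_lit 305) ln17_9_1 ln17_9_1_ok) (M (nat_lit 272) (B (L (nat_lit 273) ln13_9_2 ln13_9_2_ok) (M (nat_lit 271) (B (L (nat_lit 300) ln12_9_2 ln12_9_2_ok) (M (nat_lit 336) (B (L (nat_lit 337) ln13_9_0 ln13_9_0_ok) (M (nat_lit 368) (B (L (nat_lit 239) ln16_11_7_c10 ln16_11_7_c10_ok) (L (nat_lit 400) ln16_12_7_c10 ln16_12_7_c10_ok))))))))))) (M (nat_lit 398) (B (L (nat_lit 399) ln11_11_0 ln11_11_0_ok) (L (nat_lit 271) ln14_12_6 ln14_12_6_ok)))))) (B (M (nat_lit 270) (B (L (nat_lit 238) ln14_7_5_c10 ln14_7_5_c10_ok) (M (nat_lit 271) (B (L (nat_lit 239) ln14_11_6_c10 ln14_11_6_c10_ok) (M (nat_lit 300) (B (L (nat_lit 299) ln11_9_2 ln11_9_2_ok) (M (nat_lit 272) (B (L (nat_lit 303) ln12_9_2 ln12_9_2_ok) (L (nat_lit 273) ln17_8_1_c10 ln17_8_1_c10_ok))))))))) (M (nat_lit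 399) (B (M (nat_lit 367) (B (L (nat_lit 270) ln14_8_4_c10 ln14_8_4_c10_ok) (L (nat_lit 400) ln12_11_0 ln12_11_0_ok))) (L (nat_lit 398) ln11_11_0 ln11_11_0_ok)))))) (B (M (nat_lit 269) (B (L (nat_lit 237) ln13_7_4 ln13_7_4_ok) (M (nat_lit 270) (B (L (nat_lit 238) ln13_11_6 ln13_11_6_ok) (M (nat_lit 302) (B (M (nat_lit 268) (B (L (nat_lit 236) ln13_11_7 ln13_11_7_ok) (M (nat_lit 267) (B (L (nat_lit 266) ln10_8_0_c10 ln10_8_0_c10_ok) (L (nat_lit 303) ln11_8_0_c10 ln11_8_0_c10_ok))))) (M (nat_lit 271) (B (L (nat_lit 239) ln14_11_6_c10 ln14_11_6_c10_ok) (M (nat_lit 300) (B (L (nat_lit 299) ln11_9_2 ln11_9_2_ok) (L (nat_lit 272) ln16_8_1_c10 ln16_8_1_c10_ok))))))))))) (M (nat_lit 398) (B (L (nat_lit 399) ln11_11_0 ln11_11_0_ok) (L (nat_lit 269) ln13_8_4 ln13_8_4_ok)))))) (L (nat_lit 362) ln10_11_2 ln10_11_2_ok))) (B (M (nat_lit 367) (B (M (nat_lit 399) (B (L (nat_lit 400) ln12_11_0 ln12_11_0_ok)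 (L (nat_lit 398) ln11_11_0 ln11_11_0_ok))) (M (nat_lit 368) (B (L (nat_lit 332) ln16_11_3 ln16_11_3_ok) (M (nat_lit 369) (B (L (nat_lit 334) ln17_11_3 ln17_11_3_ok) (M (nat_lit 337) (B (L (nat_lit 338) ln14_11_2 ln14_11_2_ok) (L (nat_lit 336) ln13_11_2 ln13_11_2_ok))))))))) (B (M (nat_lit 396) (B (M (nat_lit 428) (B (L (nat_lit 460) ln12_14_6 ln12_14_6_ok) (M (nat_lit 301) (B (L (nat_lit 269) ln13_8_5 ln13_8_5_ok) (L (nat_lit 332) ln12_10_4 ln12_10_4_ok))))) (M (nat_lit 367) (B (L (nat_lit 395) ln15_11_1 ln15_11_1_ok) (M (nat_lit 399) (B (L (nat_lit 400) ln12_11_0 ln12_11_0_ok) (L (nat_lit 398) ln11_11_0 ln11_11_0_ok))))))) (M (nat_lit 332) (B (M (nat_lit 362) (B (L (nat_lit 334) ln10_11_2 ln10_11_2_ok) (L (nat_lit 361) ln9_11_2 ln9_11_2_ok))) (M (nat_lit 396) (B (M (nat_lit 367) (B (L (nat_lit 368) ln16_11_3 ln16_11_3_ok) (L (nat_lit 395) ln15_11_1 ln15_11_1_ok))) (L (nat_lit 428) ln12_10_4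 ln12_10_4_ok))))))))
noncomputable def c10_d211 : Cert := (B (M (nat_lit 271) (B (M (nat_lit 268) (B (M (nat_lit 236) (B (L (nat_lit 235) ln15_8_3_c10 ln15_8_3_c10_ok) (M (nat_lit 300) (B (L (nat_lit 332) ln12_7_4_c10 ln12_7_4_c10_ok) (L (nat_lit 299) ln15_8_1 ln15_8_1_ok))))) (M (nat_lit 272) (B (M (nat_lit 240) (B (L (nat_lit 241) ln13_8_2_c10 ln13_8_2_c10_ok) (L (nat_lit 239) ln12_8_2_c10 ln12_8_2_c10_ok))) (M (nat_lit 304) (B (L (nat_lit 305) ln13_8_0_c10 ln13_8_0_c10_ok) (L (nat_lit 303) ln12_8_0_c10 ln12_8_0_c10_ok))))))) (B (M (nat_lit 268) (B (M (nat_lit 236) (B (L (nat_lit 235) ln15_8_3_c10 ln15_8_3_c10_ok) (M (nat_lit 300) (B (L (nat_lit 332) ln12_7_4_c10 ln12_7_4_c10_ok) (L (nat_lit 299) ln15_8_1 ln15_8_1_ok))))) (B (M (nat_lit 267) (B (M (nat_lit 239) (B (L (nat_lit 240) ln12_8_2_c10 ln12_8_2_c10_ok) (L (nat_lit 238) ln11_8_2_c10 ln11_8_2_c10_ok))) (M (nat_lit 299) (B (L (nat_lit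 300) ln15_8_1 ln15_8_1_ok) (L (nat_lit 298) ln14_8_1_c10 ln14_8_1_c10_ok))))) (M (nat_lit 267) (B (M (nat_lit 239) (B (L (nat_lit 240) ln12_8_2_c10 ln12_8_2_c10_ok) (L (nat_lit 238) ln11_8_2_c10 ln11_8_2_c10_ok))) (M (nat_lit 235) (B (L (nat_lit 236) ln15_8_3_c10 ln15_8_3_c10_ok) (L (nat_lit 234) ln14_8_3_c10 ln14_8_3_c10_ok)))))))) (B (M (nat_lit 236) (B (M (nat_lit 268) (B (L (nat_lit 235) ln15_8_3_c10 ln15_8_3_c10_ok) (M (nat_lit 300) (B (L (nat_lit 332) ln12_7_4_c10 ln12_7_4_c10_ok) (L (nat_lit 299) ln15_8_1 ln15_8_1_ok))))) (B (M (nat_lit 268) (B (M (nat_lit 300) (B (L (nat_lit 332) ln12_7_4_c10 ln12_7_4_c10_ok) (L (nat_lit 299) ln15_8_1 ln15_8_1_ok))) (M (nat_lit 272) (B (L (nat_lit 237) ln16_8_3_c10 ln16_8_3_c10_ok) (M (nat_lit 304) (B (L (nat_lit 305) ln13_8_0_c10 ln13_8_0_c10_ok) (L (nat_lit 303) ln12_8_0_c10 ln12_8_0_c10_ok))))))) (M (nat_lit 237) (B (L (nat_lit 272) ln16_8_3_c10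 ln16_8_3_c10_ok) (M (nat_lit 235) (B (L (nat_lit 238) ln11_7_0_c10 ln11_7_0_c10_ok) (L (nat_lit 234) ln10_7_0_c10 ln10_7_0_c10_ok)))))))) (B (M (nat_lit 304) (B (M (nat_lit 305) (B (L (nat_lit 272) ln13_8_0_c10 ln13_8_0_c10_ok) (M (nat_lit 303) (B (L (nat_lit 268) ln12_8_0_c10 ln12_8_0_c10_ok) (L (nat_lit 306) ln18_9_3_c10 ln18_9_3_c10_ok))))) (B (M (nat_lit 268) (B (L (nat_lit 303) ln12_8_0_c10 ln12_8_0_c10_ok) (M (nat_lit 267) (B (M (nat_lit 239) (B (L (nat_lit 240) ln12_8_2_c10 ln12_8_2_c10_ok) (L (nat_lit 238) ln11_8_2_c10 ln11_8_2_c10_ok))) (M (nat_lit 299) (B (L (nat_lit 300) ln15_8_1 ln15_8_1_ok) (L (nat_lit 298) ln14_8_1_c10 ln14_8_1_c10_ok))))))) (M (nat_lit 272) (B (L (nat_lit 305) ln13_8_0_c10 ln13_8_0_c10_ok) (M (nat_lit 368) (B (M (nat_lit 367) (B (L (nat_lit 369) ln17_11_3 ln17_11_3_ok) (L (nat_lit 332) ln16_11_3 ln16_11_3_ok))) (M (nat_lit 336) (B (L (nat_lit 239) ln16_11_7_c10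 ln16_11_7_c10_ok) (M (nat_lit 241) (B (L (nat_lit 240) ln13_8_2_c10 ln13_8_2_c10_ok) (L (nat_lit 273) ln16_11_6_c10 ln16_11_6_c10_ok)))))))))))) (B (M (nat_lit 272) (B (M (nat_lit 273) (B (M (nat_lit 241) (B (L (nat_lit 242) ln14_8_2_c10 ln14_8_2_c10_ok) (L (nat_lit 240) ln13_8_2_c10 ln13_8_2_c10_ok))) (M (nat_lit 305) (B (L (nat_lit 306) ln14_8_0_c10 ln14_8_0_c10_ok) (L (nat_lit 304) ln13_8_0_c10 ln13_8_0_c10_ok))))) (B (M (nat_lit 237) (B (L (nat_lit 236) ln16_8_3_c10 ln16_8_3_c10_ok) (M (nat_lit 273) (B (L (nat_lit 238) ln17_8_3_c10 ln17_8_3_c10_ok) (M (nat_lit 305) (B (L (nat_lit 306) ln14_8_0_c10 ln14_8_0_c10_ok) (L (nat_lit 304) ln13_8_0_c10 ln13_8_0_c10_ok))))))) (B (M (nat_lit 240) (B (L (nat_lit 241) ln13_8_2_c10 ln13_8_2_c10_ok) (M (nat_lit 304) (B (L (nat_lit 305) ln13_8_0_c10 ln13_8_0_c10_ok) (M (nat_lit 368) (B (M (nat_lit 367) (B (L (nat_lit 369) ln17_11_3 ln17_11_3_ok) (L (nat_lit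 332) ln16_11_3 ln16_11_3_ok))) (B (M (nat_lit 367) (B (L (nat_lit 369) ln17_11_3 ln17_11_3_ok) (M (nat_lit 336) (B (L (nat_lit 239) ln16_11_7_c10 ln16_11_7_c10_ok) (L (nat_lit 337) ln13_11_2 ln13_11_2_ok))))) (B (M (nat_lit 367) (B (L (nat_lit 332) ln16_11_3 ln16_11_3_ok) (M (nat_lit 336) (B (L (nat_lit 239) ln16_11_7_c10 ln16_11_7_c10_ok) (L (nat_lit 337) ln13_11_2 ln13_11_2_ok))))) (M (nat_lit 336) (B (L (nat_lit 239) ln16_11_7_c10 ln16_11_7_c10_ok) (M (nat_lit 369) (B (L (nat_lit 337) ln16_7_4_c10 ln16_7_4_c10_ok) (L (nat_lit 401) ln16_8_4_c10 ln16_8_4_c10_ok))))))))))))) (M (nat_lit 273) (B (M (nat_lit 241) (B (L (nat_lit 242) ln14_8_2_c10 ln14_8_2_c10_ok) (L (nat_lit 240) ln13_8_2_c10 ln13_8_2_c10_ok))) (M (nat_lit 237) (B (L (nat_lit 238) ln17_8_3_c10 ln17_8_3_c10_ok) (L (nat_lit 236) ln16_8_3_c10 ln16_8_3_c10_ok))))))))) (M (nat_lit 268) (B (M (nat_lit 272) (B (M (nat_lit 236) (B (L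 (nat_lit 237) ln16_8_3_c10 ln16_8_3_c10_ok) (L (nat_lit 235) ln15_8_3_c10 ln15_8_3_c10_ok))) (M (nat_lit 304) (B (L (nat_lit 305) ln13_8_0_c10 ln13_8_0_c10_ok) (L (nat_lit 303) ln12_8_0_c10 ln12_8_0_c10_ok))))) (B (M (nat_lit 272) (B (M (nat_lit 240) (B (L (nat_lit 241) ln13_8_2_c10 ln13_8_2_c10_ok) (L (nat_lit 239) ln12_8_2_c10 ln12_8_2_c10_ok))) (M (nat_lit 304) (B (L (nat_lit 305) ln13_8_0_c10 ln13_8_0_c10_ok) (L (nat_lit 303) ln12_8_0_c10 ln12_8_0_c10_ok))))) (M (nat_lit 267) (B (M (nat_lit 239) (B (L (nat_lit 240) ln12_8_2_c10 ln12_8_2_c10_ok) (L (nat_lit 238) ln11_8_2_c10 ln11_8_2_c10_ok))) (M (nat_lit 299) (B (L (nat_lit 300) ln15_8_1 ln15_8_1_ok) (L (nat_lit 298) ln14_8_1_c10 ln14_8_1_c10_ok)))))))))))))) (M (nat_lit 268) (B (M (nat_lit 271) (B (M (nat_lit 236) (B (L (nat_lit 235) ln15_8_3_c10 ln15_8_3_c10_ok) (M (nat_lit 300) (B (L (nat_lit 332) ln12_7_4_c10 ln12_7_4_c10_ok) (L (nat_lit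 299) ln15_8_1 ln15_8_1_ok))))) (B (M (nat_lit 267) (B (M (nat_lit 303) (B (L (nat_lit 304) ln12_8_0_c10 ln12_8_0_c10_ok) (L (nat_lit 302) ln11_8_0_c10 ln11_8_0_c10_ok))) (M (nat_lit 235) (B (L (nat_lit 236) ln15_8_3_c10 ln15_8_3_c10_ok) (L (nat_lit 234) ln14_8_3_c10 ln14_8_3_c10_ok))))) (M (nat_lit 267) (B (M (nat_lit 303) (B (L (nat_lit 304) ln12_8_0_c10 ln12_8_0_c10_ok) (L (nat_lit 302) ln11_8_0_c10 ln11_8_0_c10_ok))) (M (nat_lit 299) (B (L (nat_lit 300) ln15_8_1 ln15_8_1_ok) (L (nat_lit 298) ln14_8_1_c10 ln14_8_1_c10_ok)))))))) (B (M (nat_lit 267) (B (M (nat_lit 238) (B (L (nat_lit 239) ln11_8_2_c10 ln11_8_2_c10_ok) (L (nat_lit 302) ln14_7_5_c10 ln14_7_5_c10_ok))) (M (nat_lit 266) (B (M (nat_lit 298) (B (L (nat_lit 299) ln14_8_1_c10 ln14_8_1_c10_ok) (L (nat_lit 297) ln13_8_1_c10 ln13_8_1_c10_ok))) (M (nat_lit 234) (B (L (nat_lit 235) ln14_8_3_c10 ln14_8_3_c10_ok) (L (nat_lit 233) ln13_8_3_c10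 ln13_8_3_c10_ok))))))) (B (M (nat_lit 271) (B (M (nat_lit 236) (B (L (nat_lit 235) ln15_8_3_c10 ln15_8_3_c10_ok) (M (nat_lit 300) (B (L (nat_lit 332) ln12_7_4_c10 ln12_7_4_c10_ok) (L (nat_lit 299) ln15_8_1 ln15_8_1_ok))))) (B (M (nat_lit 267) (B (M (nat_lit 239) (B (L (nat_lit 240) ln12_8_2_c10 ln12_8_2_c10_ok) (L (nat_lit 238) ln11_8_2_c10 ln11_8_2_c10_ok))) (M (nat_lit 235) (B (L (nat_lit 236) ln15_8_3_c10 ln15_8_3_c10_ok) (L (nat_lit 234) ln14_8_3_c10 ln14_8_3_c10_ok))))) (M (nat_lit 267) (B (M (nat_lit 299) (B (L (nat_lit 300) ln15_8_1 ln15_8_1_ok) (L (nat_lit 298) ln14_8_1_c10 ln14_8_1_c10_ok))) (M (nat_lit 239) (B (L (nat_lit 240) ln12_8_2_c10 ln12_8_2_c10_ok) (L (nat_lit 238) ln11_8_2_c10 ln11_8_2_c10_ok)))))))) (B (M (nat_lit 267) (B (M (nat_lit 238) (B (L (nat_lit 239) ln11_8_2_c10 ln11_8_2_c10_ok) (L (nat_lit 302) ln14_7_5_c10 ln14_7_5_c10_ok))) (B (M (nat_lit 271) (B (M (nat_lit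 239) (B (L (nat_lit 240) ln12_8_2_c10 ln12_8_2_c10_ok) (L (nat_lit 238) ln11_8_2_c10 ln11_8_2_c10_ok))) (M (nat_lit 235) (B (L (nat_lit 236) ln15_8_3_c10 ln15_8_3_c10_ok) (L (nat_lit 234) ln14_8_3_c10 ln14_8_3_c10_ok))))) (M (nat_lit 271) (B (M (nat_lit 303) (B (L (nat_lit 304) ln12_8_0_c10 ln12_8_0_c10_ok) (L (nat_lit 302) ln11_8_0_c10 ln11_8_0_c10_ok))) (M (nat_lit 235) (B (L (nat_lit 236) ln15_8_3_c10 ln15_8_3_c10_ok) (L (nat_lit 234) ln14_8_3_c10 ln14_8_3_c10_ok)))))))) (B (M (nat_lit 271) (B (M (nat_lit 236) (B (L (nat_lit 235) ln15_8_3_c10 ln15_8_3_c10_ok) (M (nat_lit 300) (B (L (nat_lit 332) ln12_7_4_c10 ln12_7_4_c10_ok) (L (nat_lit 299) ln15_8_1 ln15_8_1_ok))))) (M (nat_lit 272) (B (M (nat_lit 304) (B (L (nat_lit 305) ln13_8_0_c10 ln13_8_0_c10_ok) (L (nat_lit 303) ln12_8_0_c10 ln12_8_0_c10_ok))) (M (nat_lit 240) (B (L (nat_lit 241) ln13_8_2_c10 ln13_8_2_c10_ok) (L (nat_lit 239) ln12_8_2_c10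 ln12_8_2_c10_ok))))))) (M (nat_lit 267) (B (M (nat_lit 238) (B (L (nat_lit 239) ln11_8_2_c10 ln11_8_2_c10_ok) (L (nat_lit 302) ln14_7_5_c10 ln14_7_5_c10_ok))) (B (M (nat_lit 271) (B (M (nat_lit 299) (B (L (nat_lit 300) ln15_8_1 ln15_8_1_ok) (L (nat_lit 298) ln14_8_1_c10 ln14_8_1_c10_ok))) (M (nat_lit 239) (B (L (nat_lit 240) ln12_8_2_c10 ln12_8_2_c10_ok) (L (nat_lit 238) ln11_8_2_c10 ln11_8_2_c10_ok))))) (M (nat_lit 271) (B (M (nat_lit 303) (B (L (nat_lit 304) ln12_8_0_c10 ln12_8_0_c10_ok) (L (nat_lit 302) ln11_8_0_c10 ln11_8_0_c10_ok))) (M (nat_lit 299) (B (L (nat_lit 300) ln15_8_1 ln15_8_1_ok) (L (nat_lit 298) ln14_8_1_c10 ln14_8_1_c10_ok)))))))))))))))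
theorem c10_s106 : Sem (nat_lit 5954262830815946494440468064139258622131906539230539000934078872806075061271132354550578193372942037532254438881195279021764289825886699520) (nat_lit 1022934565303960184320222757214765703170055751797958725344360827256698679490218467398144280845078363230734675539503060666911533003633672816750976040960) (nat_lit 1022934565303960184320222757214765703170055751797958725344360827256698679490218467398144280845078363230734675539503060666911533003633672816750976040960) :=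
  sem_of_chk (M (nat_lit 366) (B (M (nat_lit 333) (B (M (nat_lit 334) (B (K (nat_lit 5954262830815946494440468064289565347481925883210258045313536496008941657169740892617281914025221909693428251243657037075753803068483829760) (nat_lit 2098078025945613229104183330412256143217254290614693338257199270219298075536484359877205970294877482895316408046557593600) (nat_lit 2098078025945613229104183330412256143217254290614693338257199270219298075536484359877205970294877482895316408046557593600) c10_s105) (L (nat_lit 362) ln10_11_2 ln10_11_2_ok))) c10_d210)) (B (M (nat_lit 334) (B (M (nat_lit 333) (B (K (nat_lit 5954262830815946494440468064289565347481925883210258045313536496008941657169740892617281914025221909693428251243657037075753803068483829760) (nat_lit 2098078025945613229104183330412256143217254290614693338257199270219298075536484359877205970294877482895316408046557593600) (nat_lit 2098078025945613229104183330412256143217254290614693338257199270219298075536484359877205970294877482895316408046557593600)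 c10_s105) (L (nat_lit 362) ln10_11_2 ln10_11_2_ok))) (L (nat_lit 335) ln11_11_2 ln11_11_2_ok))) (B (M (nat_lit 334) (B (M (nat_lit 333) (B (M (nat_lit 269) (B (M (nat_lit 301) (B (L (nat_lit 396) ln13_8_5 ln13_8_5_ok) (L (nat_lit 237) ln13_7_4 ln13_7_4_ok))) (B (M (nat_lit 301) (B (L (nat_lit 396) ln13_8_5 ln13_8_5_ok) (M (nat_lit 268) (B (L (nat_lit 236) ln13_11_7 ln13_11_7_ok) (M (nat_lit 270) (B (L (nat_lit 238) ln13_11_6 ln13_11_6_ok) (M (nat_lit 300) (B (M (nat_lit 299) (B (L (nat_lit 298) ln10_9_0 ln10_9_0_ok) (L (nat_lit 271) ln15_8_1 ln15_8_1_ok))) (M (nat_lit 267) (B (M (nat_lit 302) (B (L (nat_lit 303) ln11_8_0_c10 ln11_8_0_c10_ok) (L (nat_lit 266) ln10_8_0_c10 ln10_8_0_c10_ok))) (M (nat_lit 235) (B (L (nat_lit 332) ln12_11_7 ln12_11_7_ok) (L (nat_lit 234) ln14_8_3_c10 ln14_8_3_c10_ok))))))))))))) (B (M (nat_lit 301) (B (L (nat_lit 237) ln13_7_4 ln13_7_4_ok) (M (nat_lit 268) (B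 (L (nat_lit 236) ln13_11_7 ln13_11_7_ok) (M (nat_lit 270) (B (L (nat_lit 238) ln13_11_6 ln13_11_6_ok) (M (nat_lit 300) (B (M (nat_lit 299) (B (L (nat_lit 271) ln15_8_1 ln15_8_1_ok) (L (nat_lit 298) ln10_9_0 ln10_9_0_ok))) (M (nat_lit 267) (B (M (nat_lit 302) (B (L (nat_lit 303) ln11_8_0_c10 ln11_8_0_c10_ok) (L (nat_lit 266) ln10_8_0_c10 ln10_8_0_c10_ok))) (M (nat_lit 235) (B (L (nat_lit 234) ln14_8_3_c10 ln14_8_3_c10_ok) (L (nat_lit 332) ln12_11_7 ln12_11_7_ok))))))))))))) (M (nat_lit 270) (B (M (nat_lit 302) (B (L (nat_lit 238) ln14_7_5_c10 ln14_7_5_c10_ok) (L (nat_lit 237) ln14_11_7_c10 ln14_11_7_c10_ok))) (B (M (nat_lit 271) (B (M (nat_lit 302) (B (L (nat_lit 239) ln14_11_6_c10 ln14_11_6_c10_ok) (L (nat_lit 237) ln14_11_7_c10 ln14_11_7_c10_ok))) (B (M (nat_lit 272) (B (M (nat_lit 237) (B (L (nat_lit 236) ln16_8_3_c10 ln16_8_3_c10_ok) (L (nat_lit 302) ln14_11_7_c10 ln14_11_7_c10_ok))) (M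 (nat_lit 273) (B (M (nat_lit 241) (B (L (nat_lit 242) ln14_8_2_c10 ln14_8_2_c10_ok) (L (nat_lit 240) ln13_8_2_c10 ln13_8_2_c10_ok))) (M (nat_lit 305) (B (L (nat_lit 306) ln14_8_0_c10 ln14_8_0_c10_ok) (L (nat_lit 304) ln13_8_0_c10 ln13_8_0_c10_ok))))))) (B (M (nat_lit 239) (B (L (nat_lit 302) ln14_11_6_c10 ln14_11_6_c10_ok) (M (nat_lit 240) (B (L (nat_lit 268) ln12_8_2_c10 ln12_8_2_c10_ok) (M (nat_lit 241) (B (L (nat_lit 242) ln18_7_1_c10 ln18_7_1_c10_ok) (L (nat_lit 272) ln13_8_2_c10 ln13_8_2_c10_ok))))))) (M (nat_lit 272) (B (M (nat_lit 273) (B (M (nat_lit 241) (B (L (nat_lit 242) ln14_8_2_c10 ln14_8_2_c10_ok) (L (nat_lit 240) ln13_8_2_c10 ln13_8_2_c10_ok))) (M (nat_lit 305) (B (L (nat_lit 306) ln14_8_0_c10 ln14_8_0_c10_ok) (L (nat_lit 304) ln13_8_0_c10 ln13_8_0_c10_ok))))) (M (nat_lit 236) (B (L (nat_lit 237) ln16_8_3_c10 ln16_8_3_c10_ok) (M (nat_lit 268) (B (L (nat_lit 235) ln15_8_3_c10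 ln15_8_3_c10_ok) (M (nat_lit 300) (B (L (nat_lit 332) ln12_7_4_c10 ln12_7_4_c10_ok) (L (nat_lit 299) ln15_8_1 ln15_8_1_ok))))))))))))) c10_d211))))))) (L (nat_lit 362) ln10_11_2 ln10_11_2_ok))) (L (nat_lit 335) ln11_11_2 ln11_11_2_ok))) (B (M (nat_lit 367) (B (M (nat_lit 332) (B (M (nat_lit 396) (B (L (nat_lit 428) ln12_10_4 ln12_10_4_ok) (L (nat_lit 395) ln15_11_1 ln15_11_1_ok))) (M (nat_lit 368) (B (L (nat_lit 333) ln16_11_3 ln16_11_3_ok) (M (nat_lit 336) (B (L (nat_lit 335) ln12_11_2 ln12_11_2_ok) (L (nat_lit 337) ln13_11_2 ln13_11_2_ok))))))) (M (nat_lit 399) (B (L (nat_lit 398) ln11_11_0 ln11_11_0_ok) (L (nat_lit 400) ln12_11_0 ln12_11_0_ok))))) (M (nat_lit 367) (B (M (nat_lit 335) (B (L (nat_lit 334) ln11_11_2 ln11_11_2_ok) (L (nat_lit 336) ln12_11_2 ln12_11_2_ok))) (M (nat_lit 399) (B (L (nat_lit 398) ln11_11_0 ln11_11_0_ok) (L (nat_lit 400) ln12_11_0 ln12_11_0_ok)))))))))) (nat_lit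 5954262830815946494440468064139258622131906539230539000934078872806075061271132354550578193372942037532254438881195279021764289825886699520) (nat_lit 1022934565303960184320222757214765703170055751797958725344360827256698679490218467398144280845078363230734675539503060666911533003633672816750976040960) (nat_lit 1022934565303960184320222757214765703170055751797958725344360827256698679490218467398144280845078363230734675539503060666911533003633672816750976040960) (by decide +kernel)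
noncomputable def c10_d212 : Cert := (B (K (nat_lit 20839919904693236361007865009656479088805549285201202130586497225381475443893278772482817183946149193610266214248817219767709894472535900160) (nat_lit 126633165605826663977847697343664183780196930912916041560072511702954816412455519573104607493423239027718908698619619515017740653818693698489708834068896118913637541740409782272) (nat_lit 126633165605826663977847697343664183780196930912916041560072511702954816412455519573104607493423239027718908698619619515017740653818693698489708834068896118913637541740409782272) c10_s192) (B (M (nat_lit 393) (B (M (nat_lit 456) (B (M (nat_lit 455) (B (L (nat_lit 427) ln11_13_1_c10 ln11_13_1_c10_ok) (M (nat_lit 454) (B (L (nat_lit 457) ln6_14_2_c10 ln6_14_2_c10_ok) (L (nat_lit 453) ln5_14_2_c10 ln5_14_2_c10_ok))))) (B (M (nat_lit 361) (B (L (nat_lit 329) ln9_10_5_c10 ln9_10_5_c10_ok) (M (nat_lit 488) (B (L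 (nat_lit 457) ln9_11_5_c10 ln9_11_5_c10_ok) (L (nat_lit 520) ln8_16_6_c10 ln8_16_6_c10_ok))))) (M (nat_lit 361) (B (L (nat_lit 329) ln9_10_5_c10 ln9_10_5_c10_ok) (M (nat_lit 488) (B (L (nat_lit 392) ln8_15_6_c10 ln8_15_6_c10_ok) (L (nat_lit 520) ln8_16_6_c10 ln8_16_6_c10_ok)))))))) (B (M (nat_lit 423) (B (M (nat_lit 458) (B (L (nat_lit 459) ln7_13_0 ln7_13_0_ok) (M (nat_lit 490) (B (L (nat_lit 522) ln10_16_7 ln10_16_7_ok) (M (nat_lit 361) (B (L (nat_lit 329) ln9_10_4_c10 ln9_10_4_c10_ok) (L (nat_lit 457) ln9_11_4 ln9_11_4_ok))))))) (B (M (nat_lit 456) (B (M (nat_lit 361) (B (L (nat_lit 329) ln9_10_5_c10 ln9_10_5_c10_ok) (M (nat_lit 488) (B (L (nat_lit 392) ln8_15_6_c10 ln8_15_6_c10_ok) (L (nat_lit 520) ln8_16_6_c10 ln8_16_6_c10_ok))))) (B (M (nat_lit 488) (B (L (nat_lit 520) ln8_16_6_c10 ln8_16_6_c10_ok) (M (nat_lit 361) (B (L (nat_lit 457) ln9_11_5_c10 ln9_11_5_c10_ok) (L (nat_lit 392) ln8_15_6_c10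 ln8_15_6_c10_ok))))) (M (nat_lit 422) (B (M (nat_lit 454) (B (L (nat_lit 455) ln10_13_1_c10 ln10_13_1_c10_ok) (L (nat_lit 453) ln9_13_1_c10 ln9_13_1_c10_ok))) (M (nat_lit 457) (B (L (nat_lit 458) ln6_13_0_c10 ln6_13_0_c10_ok) (L (nat_lit 421) ln5_13_0_c10 ln5_13_0_c10_ok)))))))) (B (M (nat_lit 456) (B (M (nat_lit 361) (B (L (nat_lit 329) ln9_10_5_c10 ln9_10_5_c10_ok) (M (nat_lit 488) (B (L (nat_lit 392) ln8_15_6_c10 ln8_15_6_c10_ok) (L (nat_lit 520) ln8_16_6_c10 ln8_16_6_c10_ok))))) (B (M (nat_lit 488) (B (L (nat_lit 520) ln8_16_6_c10 ln8_16_6_c10_ok) (M (nat_lit 361) (B (L (nat_lit 457) ln9_11_5_c10 ln9_11_5_c10_ok) (L (nat_lit 392) ln8_15_6_c10 ln8_15_6_c10_ok))))) (B (M (nat_lit 422) (B (M (nat_lit 454) (B (L (nat_lit 455) ln10_13_1_c10 ln10_13_1_c10_ok) (L (nat_lit 453) ln9_13_1_c10 ln9_13_1_c10_ok))) (M (nat_lit 421) (B (L (nat_lit 392) ln5_13_2_c10 ln5_13_2_c10_ok) (L (nat_lit 457)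 ln5_13_0_c10 ln5_13_0_c10_ok))))) (M (nat_lit 361) (B (L (nat_lit 329) ln9_10_5_c10 ln9_10_5_c10_ok) (M (nat_lit 488) (B (L (nat_lit 457) ln9_11_5_c10 ln9_11_5_c10_ok) (L (nat_lit 520) ln8_16_6_c10 ln8_16_6_c10_ok))))))))) (B (M (nat_lit 458) (B (L (nat_lit 459) ln7_13_0 ln7_13_0_ok) (M (nat_lit 422) (B (L (nat_lit 457) ln6_13_0_c10 ln6_13_0_c10_ok) (M (nat_lit 454) (B (L (nat_lit 455) ln10_13_1_c10 ln10_13_1_c10_ok) (L (nat_lit 453) ln9_13_1_c10 ln9_13_1_c10_ok))))))) (M (nat_lit 422) (B (M (nat_lit 454) (B (L (nat_lit 455) ln10_13_1_c10 ln10_13_1_c10_ok) (L (nat_lit 453) ln9_13_1_c10 ln9_13_1_c10_ok))) (M (nat_lit 389) (B (L (nat_lit 390) ln9_13_3_c10 ln9_13_3_c10_ok) (M (nat_lit 421) (B (L (nat_lit 392) ln5_13_2_c10 ln5_13_2_c10_ok) (L (nat_lit 388) ln8_13_3_c10 ln8_13_3_c10_ok)))))))))))) (B (M (nat_lit 456) (B (M (nat_lit 455) (B (L (nat_lit 427) ln11_13_1_c10 ln11_13_1_c10_ok) (M (nat_lit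 454) (B (L (nat_lit 457) ln6_14_2_c10 ln6_14_2_c10_ok) (L (nat_lit 423) ln10_13_1_c10 ln10_13_1_c10_ok))))) (B (M (nat_lit 488) (B (L (nat_lit 520) ln8_16_6_c10 ln8_16_6_c10_ok) (M (nat_lit 361) (B (L (nat_lit 457) ln9_11_5_c10 ln9_11_5_c10_ok) (L (nat_lit 392) ln8_15_6_c10 ln8_15_6_c10_ok))))) (M (nat_lit 455) (B (L (nat_lit 427) ln11_13_1_c10 ln11_13_1_c10_ok) (M (nat_lit 454) (B (L (nat_lit 423) ln10_13_1_c10 ln10_13_1_c10_ok) (L (nat_lit 453) ln5_14_2_c10 ln5_14_2_c10_ok)))))))) (B (M (nat_lit 423) (B (M (nat_lit 455) (B (L (nat_lit 454) ln10_13_1_c10 ln10_13_1_c10_ok) (M (nat_lit 459) (B (L (nat_lit 458) ln7_13_0 ln7_13_0_ok) (L (nat_lit 427) ln8_13_0 ln8_13_0_ok))))) (B (M (nat_lit 458) (B (L (nat_lit 459) ln7_13_0 ln7_13_0_ok) (M (nat_lit 422) (B (L (nat_lit 457) ln6_13_0_c10 ln6_13_0_c10_ok) (M (nat_lit 454) (B (L (nat_lit 455) ln10_13_1_c10 ln10_13_1_c10_ok) (L (nat_lit 453) ln9_13_1_c10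 ln9_13_1_c10_ok))))))) (B (M (nat_lit 422) (B (M (nat_lit 454) (B (L (nat_lit 455) ln10_13_1_c10 ln10_13_1_c10_ok) (L (nat_lit 453) ln9_13_1_c10 ln9_13_1_c10_ok))) (M (nat_lit 389) (B (L (nat_lit 390) ln9_13_3_c10 ln9_13_3_c10_ok) (M (nat_lit 421) (B (L (nat_lit 392) ln5_13_2_c10 ln5_13_2_c10_ok) (L (nat_lit 388) ln8_13_3_c10 ln8_13_3_c10_ok))))))) (M (nat_lit 422) (B (M (nat_lit 458) (B (L (nat_lit 459) ln7_13_0 ln7_13_0_ok) (L (nat_lit 457) ln6_13_0_c10 ln6_13_0_c10_ok))) (M (nat_lit 389) (B (L (nat_lit 390) ln9_13_3_c10 ln9_13_3_c10_ok) (M (nat_lit 421) (B (L (nat_lit 392) ln5_13_2_c10 ln5_13_2_c10_ok) (L (nat_lit 388) ln8_13_3_c10 ln8_13_3_c10_ok))))))))))) (B (M (nat_lit 456) (B (M (nat_lit 455) (B (L (nat_lit 427) ln11_13_1_c10 ln11_13_1_c10_ok) (M (nat_lit 454) (B (L (nat_lit 423) ln10_13_1_c10 ln10_13_1_c10_ok) (L (nat_lit 453) ln5_14_2_c10 ln5_14_2_c10_ok))))) (M (nat_lit 361) (B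 (L (nat_lit 329) ln9_10_5_c10 ln9_10_5_c10_ok) (M (nat_lit 488) (B (L (nat_lit 392) ln8_15_6_c10 ln8_15_6_c10_ok) (L (nat_lit 520) ln8_16_6_c10 ln8_16_6_c10_ok))))))) (B (M (nat_lit 456) (B (M (nat_lit 455) (B (L (nat_lit 427) ln11_13_1_c10 ln11_13_1_c10_ok) (M (nat_lit 454) (B (L (nat_lit 457) ln6_14_2_c10 ln6_14_2_c10_ok) (L (nat_lit 423) ln10_13_1_c10 ln10_13_1_c10_ok))))) (B (M (nat_lit 361) (B (L (nat_lit 329) ln9_10_5_c10 ln9_10_5_c10_ok) (M (nat_lit 488) (B (L (nat_lit 457) ln9_11_5_c10 ln9_11_5_c10_ok) (L (nat_lit 520) ln8_16_6_c10 ln8_16_6_c10_ok))))) (M (nat_lit 455) (B (L (nat_lit 427) ln11_13_1_c10 ln11_13_1_c10_ok) (M (nat_lit 454) (B (L (nat_lit 423) ln10_13_1_c10 ln10_13_1_c10_ok) (L (nat_lit 453) ln5_14_2_c10 ln5_14_2_c10_ok)))))))) (M (nat_lit 458) (B (L (nat_lit 459) ln13_14_3 ln13_14_3_ok) (M (nat_lit 361) (B (L (nat_lit 329) ln9_10_4_c10 ln9_10_4_c10_ok) (M (nat_lit 490)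 (B (L (nat_lit 522) ln10_16_7 ln10_16_7_ok) (L (nat_lit 457) ln9_11_4 ln9_11_4_ok)))))))))))))) (M (nat_lit 459) (B (L (nat_lit 427) ln8_13_0 ln8_13_0_ok) (L (nat_lit 458) ln13_14_3 ln13_14_3_ok)))))
noncomputable def c10_d213 : Cert := (B (M (nat_lit 423) (B (K (nat_lit 20839919904714897842993183875746935449619167126634299295237870792374994815616830501450048634126148993657954804702703088603345859877449760768) (nat_lit 2872466638432484542944329863035232372047579291002319932467148373205318125443622598571806140894201148720378326048925447371826062024884879360) (nat_lit 2872466638432484542944329863035232372047579291002319932467148373205318125443622598571806140894201148720378326048925447371826062024884879360) c10_s194) (B (K (nat_lit 20839919904714897842993183875746935449619167126634299295237870792374994815616830501450048634126148993657954804702703088603345859877449760768) (nat_lit 9213775454227815169002396290700155637467808641415730622164467092306568167848844387683659769350004257700253993021750452405069646254285986921463401476544015133529079808)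 (nat_lit 9213775454227815169002396290700155637467808641415730622164467092306568167848844387683659769350004257700253993021750452405069646254285986921463401476544015133529079808) c10_s195) (B (K (nat_lit 20839919904714897842993183875746935449619167126634299295237870792374994815616830501450048634126148993657954804702703088603345859877449760768) (nat_lit 162811874253046684484534015400133559445575090492939997321078449709807146452797417031233562126698313886411895707840779378470418137095340032) (nat_lit 162811874253046684484534015400133559445575090492939997321078449709807146452797417031233562126698313886411895707840779378470418137095340032) c10_s196) (B (K (nat_lit 20839919904714897842993183875746935449619167126634299295237870792374994815616830501450048634126148993657954804702703088603345859877449760768) (nat_lit 63316582802913331988923848671832091890063577197518539793405446083677706167067652875849600954395954715485254570396365721232892043615451810591416448807941207448927460065049313280)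 (nat_lit 63316582802913331988923848671832091890063577197518539793405446083677706167067652875849600954395954715485254570396365721232892043615451810591416448807941207448927460065049313280) c10_s197) (B (K (nat_lit 20839919904714897842993183875746935449619167126634299295237870792374994815616830501450048634126148993657954804702703088603345859877449760768) (nat_lit 8580997077161181218895113022080993658868119902424760384880955889228821049972973770744679421569313672818077017389195633378285607711089077793818068010569564160) (nat_lit 8580997077161181218895113022080993658868119902424760384880955889228821049972973770744679421569313672818077017389195633378285607711089077793818068010569564160) c10_s198) (K (nat_lit 20839919904714897842993183875746935449619167126634299295237870792374994815616830501450048634126148993657954804702703088603345859877449760768) (nat_lit 8580997077161181217325141377602482775285993502080666772348865802635430124511123871312790689271184367294779868685874019355516958862101244009153670827676270592)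 (nat_lit 8580997077161181217325141377602482775285993502080666772348865802635430124511123871312790689271184367294779868685874019355516958862101244009153670827676270592) c10_s199))))))) (B (M (nat_lit 423) (B (K (nat_lit 20839919904714897842993183875746935449619167126634299295237870792374994815616830501450048634126148993657954804702703088603345859877449760768) (nat_lit 2872466638432484542944329863035232372047579291002319932467148373205318125443622598571806140894201148720378326048925447371826062024884879360) (nat_lit 2872466638432484542944329863035232372047579291002319932467148373205318125443622598571806140894201148720378326048925447371826062024884879360) c10_s194) (B (K (nat_lit 20839919904714897842993183875746935449619167126634299295237870792374994815616830501450048634126148993657954804702703088603345859877449760768) (nat_lit 9213775454227815169002396290700155637467808641415730622164467092306568167848844387683659769350004257700253993021750452405069646254285986921463401476544015133529079808)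 (nat_lit 9213775454227815169002396290700155637467808641415730622164467092306568167848844387683659769350004257700253993021750452405069646254285986921463401476544015133529079808) c10_s195) (B (K (nat_lit 20839919904714897842993183875746935449619167126634299295237870792374994815616830501450048634126148993657954804702703088603345859877449760768) (nat_lit 162811874253046684484534015400133559445575090492939997321078449709807146452797417031233562126698313886411895707840779378470418137095340032) (nat_lit 162811874253046684484534015400133559445575090492939997321078449709807146452797417031233562126698313886411895707840779378470418137095340032) c10_s200) (B (K (nat_lit 20839919904714897842993183875746935449619167126634299295237870792374994815616830501450048634126148993657954804702703088603345859877449760768) (nat_lit 3685510186496484430811219996972707806125662390354773663148475331233249585124350775715703246766323080204149646301368144035030335505296080439733959809159543926995025920)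 (nat_lit 3685510186496484430811219996972707806125662390354773663148475331233249585124350775715703246766323080204149646301368144035030335505296080439733959809159543926995025920) c10_s201) (B (K (nat_lit 20839919904714897842993183875746935449619167126634299295237870792374994815616830501450048634126148993657954804702703088603345859877449760768) (nat_lit 8580997077161181218895113022080993658868119902424760384880955889228821049972973770744679421569313672818077017389195633378285607711089077793818068010569564160) (nat_lit 8580997077161181218895113022080993658868119902424760384880955889228821049972973770744679421569313672818077017389195633378285607711089077793818068010569564160) c10_s198) (K (nat_lit 20839919904714897842993183875746935449619167126634299295237870792374994815616830501450048634126148993657954804702703088603345859877449760768) (nat_lit 8580997077161181217325141377602482775285993502080666772348865802635430124511123871312790689271184367294779868685874019355516958862101244009153670827676270592)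 (nat_lit 8580997077161181217325141377602482775285993502080666772348865802635430124511123871312790689271184367294779868685874019355516958862101244009153670827676270592) c10_s199))))))) (B (K (nat_lit 20839919904693236361007865009656479088805549285201202130586497225381475443893278772482817183946149193610266214248817219767709894472535900160) (nat_lit 2767801862496746973973818179994776931078872465824576489577390375716286828698589729786723845718326819583412863022009069702116339023104442368) (nat_lit 2767801862496746973973818179994776931078872465824576489577390375716286828698589729786723845718326819583412863022009069702116339023104442368) c10_s202) (B (K (nat_lit 20839919904693236361007865009656479088805549285201202130586497225381475443893278772482817183946149193610266214248817219767709894472535900160) (nat_lit 2953872575916422337944358161227829105195061219894893147875351453453291332108624835046741849927547006450446016391962672849054700274511249408)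 (nat_lit 2953872575916422337944358161227829105195061219894893147875351453453291332108624835046741849927547006450446016391962672849054700274511249408) c10_s203) (B (K (nat_lit 20839919904693236361007865009656479088805549285201202130586497225381475443893278772482817183946149193610266214248817219767709894472535900160) (nat_lit 3432398830864472486720726998804522000714951165819988819376504298894944284248548132398806628813880688425050092695968212480623854906565545096137871720330559488) (nat_lit 3432398830864472486720726998804522000714951165819988819376504298894944284248548132398806628813880688425050092695968212480623854906565545096137871720330559488) c10_s191) (B (K (nat_lit 20839919904693236361007865009656479088805549285201202130586497225381475443893278772482817183946149193610266214248817219767709894472535900160) (nat_lit 2930613736738962917456866712961689946774088130618535735080444180332750029235990864611790641078209858269023667861812693559228089787914125312)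 (nat_lit 2930613736738962917456866712961689946774088130618535735080444180332750029235990864611790641078209858269023667861812693559228089787914125312) c10_s204) (B (K (nat_lit 20839919904693236361007865009656479088805549285201202130586497225381475443893278772482817183946149193610266214248817219767709894472535900160) (nat_lit 1716199417030571501668734242724057760577987300455921064834934591384667137444799028129637008148717124761007792192478910304593882777943669290037762704870998016) (nat_lit 1716199417030571501668734242724057760577987300455921064834934591384667137444799028129637008148717124761007792192478910304593882777943669290037762704870998016) c10_s205) (B (K (nat_lit 20839919904693236361007865009656479088805549285201202130586497225381475443893278772482817183946149193610266214248817219767709894472535900160) (nat_lit 2686395925383762057997592747566937843560454657137884131659210663365430748666897759654343982951235752461317414604893694045269850246424297472)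 (nat_lit 2686395925383762057997592747566937843560454657137884131659210663365430748666897759654343982951235752461317414604893694045269850246424297472) c10_s206) c10_d212))))))))
theorem c10_s207 : Sem (nat_lit 20839919904649913397037227277475566367178313602335007801283750091394436700446175314548354283586149593514889033341045482096437963662708178944) (nat_lit 189949748388469689983087767326521856535318176091319443059551439308494313086782765606479972764764822005056732756436465379662484940823092576427777212166937343775584977274074562560) (nat_lit 189949748388469689983087767326521856535318176091319443059551439308494313086782765606479972764764822005056732756436465379662484940823092576427777212166937343775584977274074562560) :=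
  sem_of_chk (M (nat_lit 424) c10_d213) (nat_lit 20839919904649913397037227277475566367178313602335007801283750091394436700446175314548354283586149593514889033341045482096437963662708178944) (nat_lit 189949748388469689983087767326521856535318176091319443059551439308494313086782765606479972764764822005056732756436465379662484940823092576427777212166937343775584977274074562560) (nat_lit 189949748388469689983087767326521856535318176091319443059551439308494313086782765606479972764764822005056732756436465379662484940823092576427777212166937343775584977274074562560) (by decide +kernel)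
theorem c10_s348 : Sem (nat_lit 8931394323165503754481658153670348049985162940857813804920622417077344278730704448857942057155343404368412318944338361584051269924982620160) (nat_lit 26417736987370548026561108898890891893698318989696112810988604714383220837427802361057368215871172497537632438013884185588337103425658931922892519790987964700620251725824) (nat_lit 26417736987370548026561108898890891893698318989696112810988604714383220837427802361057368215871172497537632438013884185588337103425658931922892519790987964700620251725824) :=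
  sem_of_chk (M (nat_lit 435) (B (K (nat_lit 8931394411890933966347733660179601942563841450823800216946752822532690858398586298637961994434524399700878818060857112348965568452155670528) (nat_lit 3514776403214393657700244624533962333436602468066262925154580222623115497337035237482403354669299360733364246321385507578717790332226495014100309119217245880320) (nat_lit 3514776403214393657700244624533962333436602468066262925154580222623115497337035237482403354669299360733364246321385507578717790332226495014100309119217245880320) c10_s342) (B (K (nat_lit 8931394411890933966347733660179601942563841450823800216946752822532690858398586298637961994434524399700878818060857112348965568452155670528) (nat_lit 18869812130258565466116907606188147852841647787001992712215262604566256498808153042498012800067536020381103077098317583468498229605658159351679598404583571012626163957760) (nat_lit 18869812130258565466116907606188147852841647787001992712215262604566256498808153042498012800067536020381103077098317583468498229605658159351679598404583571012626163957760)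 c10_s341) (B (M (nat_lit 436) (B (M (nat_lit 437) (B (M (nat_lit 405) (B (L (nat_lit 406) ln18_13_2_c10 ln18_13_2_c10_ok) (L (nat_lit 404) ln17_13_2_c10 ln17_13_2_c10_ok))) (M (nat_lit 469) (B (L (nat_lit 470) ln18_13_0_c10 ln18_13_0_c10_ok) (L (nat_lit 468) ln17_13_0_c10 ln17_13_0_c10_ok))))) (B (M (nat_lit 469) (B (L (nat_lit 468) ln17_13_0_c10 ln17_13_0_c10_ok) (M (nat_lit 437) (B (L (nat_lit 470) ln18_13_0_c10 ln18_13_0_c10_ok) (M (nat_lit 401) (B (L (nat_lit 402) ln21_13_3_c10 ln21_13_3_c10_ok) (L (nat_lit 400) ln20_13_3_c10 ln20_13_3_c10_ok))))))) (B (M (nat_lit 437) (B (M (nat_lit 405) (B (L (nat_lit 406) ln18_13_2_c10 ln18_13_2_c10_ok) (L (nat_lit 404) ln17_13_2_c10 ln17_13_2_c10_ok))) (M (nat_lit 401) (B (L (nat_lit 402) ln21_13_3_c10 ln21_13_3_c10_ok) (L (nat_lit 400) ln20_13_3_c10 ln20_13_3_c10_ok))))) (M (nat_lit 468) (B (L (nat_lit 469) ln17_13_0_c10 ln17_13_0_c10_ok) (M (nat_lit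 404) (B (L (nat_lit 405) ln17_13_2_c10 ln17_13_2_c10_ok) (M (nat_lit 372) (B (L (nat_lit 467) ln16_13_0_c10 ln16_13_0_c10_ok) (M (nat_lit 340) (B (M (nat_lit 341) (B (L (nat_lit 309) ln20_13_6_c10 ln20_13_6_c10_ok) (L (nat_lit 373) ln20_14_6_c10 ln20_14_6_c10_ok))) (M (nat_lit 339) (B (L (nat_lit 307) ln20_13_7_c10 ln20_13_7_c10_ok) (L (nat_lit 371) ln20_14_7_c10 ln20_14_7_c10_ok))))))))))))))) (B (K (nat_lit 8931394411890933966347733660179601942563841450823800216946752822532690858398586298637961994434524399700878818060857112348965568452155670528) (nat_lit 6049531035232838015298550043750818961148765525502650951020267026304406913911596219525600254135866846909461920792583599731030344898387799703552) (nat_lit 6049531035232838015298550043750818961148765525502650951020267026304406913911596219525600254135866846909461920792583599731030344898387799703552) c10_s346) (B (K (nat_lit 8931394411890933966347733660179601942563841450823800216946752822532690858398586298637961994434524399700878818060857112348965568452155670528)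 (nat_lit 3514776403214393652365225129365030297384068139806457226853753318654658940692968167810137199459738974785575495968738095928622937341541348464262460057933555171328) (nat_lit 3514776403214393652365225129365030297384068139806457226853753318654658940692968167810137199459738974785575495968738095928622937341541348464262460057933555171328) c10_s344) (B (K (nat_lit 8931394411890933966347733660179601942563841450823800216946752822532690858398586298637961994434524399700878818060857112348965568452155670528) (nat_lit 18869812130258565466116907606188147852841647786712780725869528842524793551543815712573085751270662986944069229165765049802612015807137879784304161283762415751678444699648) (nat_lit 18869812130258565466116907606188147852841647786712780725869528842524793551543815712573085751270662986944069229165765049802612015807137879784304161283762415751678444699648) c10_s343) (K (nat_lit 8931394411890933966347733660179601942563841450823800216946752822532690858398586298637961994434524399700878818060857112348965568452155670528)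 (nat_lit 22643774562549006674319554313234480943887504225958848080581413046869388652950313380952821413292286837790125727128035577213024032274310056437373602412656168792862807293952) (nat_lit 22643774562549006674319554313234480943887504225958848080581413046869388652950313380952821413292286837790125727128035577213024032274310056437373602412656168792862807293952) c10_s347)))))))) (nat_lit 8931394323165503754481658153670348049985162940857813804920622417077344278730704448857942057155343404368412318944338361584051269924982620160) (nat_lit 26417736987370548026561108898890891893698318989696112810988604714383220837427802361057368215871172497537632438013884185588337103425658931922892519790987964700620251725824) (nat_lit 26417736987370548026561108898890891893698318989696112810988604714383220837427802361057368215871172497537632438013884185588337103425658931922892519790987964700620251725824) (by decide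 +kernel)
noncomputable def c10_d214 : Cert := (B (M (nat_lit 394) (B (M (nat_lit 361) (B (L (nat_lit 393) ln10_15_7 ln10_15_7_ok) (M (nat_lit 362) (B (L (nat_lit 329) ln10_14_7 ln10_14_7_ok) (M (nat_lit 363) (B (L (nat_lit 331) ln10_14_6 ln10_14_6_ok) (L (nat_lit 395) ln10_15_6 ln10_15_6_ok))))))) (B (M (nat_lit 362) (B (M (nat_lit 361) (B (L (nat_lit 329) ln10_14_7 ln10_14_7_ok) (L (nat_lit 393) ln10_15_7 ln10_15_7_ok))) (M (nat_lit 489) (B (L (nat_lit 457) ln10_11_5 ln10_11_5_ok) (L (nat_lit 521) ln10_12_5 ln10_12_5_ok))))) (B (M (nat_lit 393) (B (L (nat_lit 361) ln10_15_7 ln10_15_7_ok) (M (nat_lit 392) (B (M (nat_lit 391) (B (L (nat_lit 427) ln7_12_0_c10 ln7_12_0_c10_ok) (M (nat_lit 390) (B (L (nat_lit 425) ln6_12_0_c10 ln6_12_0_c10_ok) (M (nat_lit 358) (B (L (nat_lit 359) ln10_12_3_c10 ln10_12_3_c10_ok) (L (nat_lit 357) ln9_12_3_c10 ln9_12_3_c10_ok))))))) (B (M (nat_lit 391) (B (M (nat_lit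 395) (B (L (nat_lit 363) ln8_12_2 ln8_12_2_ok) (M (nat_lit 359) (B (L (nat_lit 360) ln11_12_3 ln11_12_3_ok) (L (nat_lit 358) ln10_12_3_c10 ln10_12_3_c10_ok))))) (B (M (nat_lit 390) (B (L (nat_lit 425) ln6_12_0_c10 ln6_12_0_c10_ok) (M (nat_lit 358) (B (L (nat_lit 359) ln10_12_3_c10 ln10_12_3_c10_ok) (L (nat_lit 357) ln9_12_3_c10 ln9_12_3_c10_ok))))) (M (nat_lit 395) (B (L (nat_lit 363) ln8_12_2 ln8_12_2_ok) (M (nat_lit 423) (B (L (nat_lit 424) ln11_12_1 ln11_12_1_ok) (L (nat_lit 422) ln10_12_1_c10 ln10_12_1_c10_ok)))))))) (B (M (nat_lit 391) (B (L (nat_lit 427) ln7_12_0_c10 ln7_12_0_c10_ok) (M (nat_lit 395) (B (L (nat_lit 363) ln8_12_2 ln8_12_2_ok) (M (nat_lit 423) (B (L (nat_lit 424) ln11_12_1 ln11_12_1_ok) (L (nat_lit 422) ln10_12_1_c10 ln10_12_1_c10_ok))))))) (M (nat_lit 395) (B (L (nat_lit 363) ln8_12_2 ln8_12_2_ok) (M (nat_lit 425) (B (M (nat_lit 424) (B (L (nat_lit 396) ln9_12_2 ln9_12_2_ok)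 (L (nat_lit 423) ln11_12_1 ln11_12_1_ok))) (M (nat_lit 489) (B (L (nat_lit 521) ln10_12_5 ln10_12_5_ok) (M (nat_lit 360) (B (L (nat_lit 359) ln11_12_3 ln11_12_3_ok) (L (nat_lit 457) ln9_15_7 ln9_15_7_ok))))))))))))))) (M (nat_lit 362) (B (M (nat_lit 363) (B (L (nat_lit 331) ln10_14_6 ln10_14_6_ok) (L (nat_lit 395) ln10_15_6 ln10_15_6_ok))) (M (nat_lit 489) (B (L (nat_lit 457) ln10_11_5 ln10_11_5_ok) (L (nat_lit 521) ln10_12_5 ln10_12_5_ok))))))))) (B (M (nat_lit 394) (B (M (nat_lit 362) (B (M (nat_lit 363) (B (L (nat_lit 331) ln10_14_6 ln10_14_6_ok) (L (nat_lit 395) ln10_15_6 ln10_15_6_ok))) (M (nat_lit 361) (B (L (nat_lit 329) ln10_14_7 ln10_14_7_ok) (L (nat_lit 393) ln10_15_7 ln10_15_7_ok))))) (B (M (nat_lit 393) (B (L (nat_lit 361) ln10_15_7 ln10_15_7_ok) (M (nat_lit 425) (B (L (nat_lit 522) ln10_16_7 ln10_16_7_ok) (M (nat_lit 395) (B (L (nat_lit 363) ln10_15_6 ln10_15_6_ok) (L (nat_lit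 396) ln9_12_2 ln9_12_2_ok))))))) (B (M (nat_lit 362) (B (M (nat_lit 361) (B (L (nat_lit 329) ln10_14_7 ln10_14_7_ok) (L (nat_lit 393) ln10_15_7 ln10_15_7_ok))) (B (M (nat_lit 425) (B (M (nat_lit 457) (B (L (nat_lit 330) ln10_10_5 ln10_10_5_ok) (L (nat_lit 489) ln10_11_5 ln10_11_5_ok))) (M (nat_lit 393) (B (L (nat_lit 361) ln10_15_7 ln10_15_7_ok) (L (nat_lit 522) ln10_16_7 ln10_16_7_ok))))) (M (nat_lit 330) (B (M (nat_lit 457) (B (L (nat_lit 425) ln10_10_5 ln10_10_5_ok) (L (nat_lit 489) ln10_11_5 ln10_11_5_ok))) (M (nat_lit 298) (B (M (nat_lit 299) (B (L (nat_lit 267) ln10_12_6_c10 ln10_12_6_c10_ok) (L (nat_lit 331) ln10_13_6 ln10_13_6_ok))) (M (nat_lit 297) (B (L (nat_lit 265) ln10_12_7_c10 ln10_12_7_c10_ok) (L (nat_lit 329) ln10_13_7_c10 ln10_13_7_c10_ok)))))))))) (B (M (nat_lit 362) (B (M (nat_lit 363) (B (L (nat_lit 331) ln10_14_6 ln10_14_6_ok) (L (nat_lit 395) ln10_15_6 ln10_15_6_ok)))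 (M (nat_lit 457) (B (L (nat_lit 489) ln10_11_5 ln10_11_5_ok) (M (nat_lit 425) (B (L (nat_lit 330) ln10_10_5 ln10_10_5_ok) (M (nat_lit 522) (B (L (nat_lit 393) ln10_16_7 ln10_16_7_ok) (L (nat_lit 554) ln10_17_7 ln10_17_7_ok))))))))) (M (nat_lit 362) (B (M (nat_lit 363) (B (L (nat_lit 331) ln10_14_6 ln10_14_6_ok) (L (nat_lit 395) ln10_15_6 ln10_15_6_ok))) (M (nat_lit 330) (B (M (nat_lit 329) (B (L (nat_lit 297) ln10_13_7_c10 ln10_13_7_c10_ok) (L (nat_lit 361) ln10_14_7 ln10_14_7_ok))) (M (nat_lit 457) (B (L (nat_lit 425) ln10_10_5 ln10_10_5_ok) (L (nat_lit 489) ln10_11_5 ln10_11_5_ok)))))))))))) (M (nat_lit 522) (B (M (nat_lit 554) (B (M (nat_lit 587) (B (L (nat_lit 555) ln10_14_4 ln10_14_4_ok) (M (nat_lit 586) (B (L (nat_lit 619) ln10_15_4 ln10_15_4_ok) (M (nat_lit 585) (B (L (nat_lit 553) ln10_14_5 ln10_14_5_ok) (L (nat_lit 617) ln10_15_5 ln10_15_5_ok))))))) (B (M (nat_lit 586) (B (M (nat_lit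 457) (B (L (nat_lit 425) ln10_17_7 ln10_17_7_ok) (L (nat_lit 489) ln10_18_7_c10 ln10_18_7_c10_ok))) (M (nat_lit 585) (B (L (nat_lit 553) ln10_14_5 ln10_14_5_ok) (L (nat_lit 617) ln10_15_5 ln10_15_5_ok))))) (B (M (nat_lit 586) (B (M (nat_lit 457) (B (L (nat_lit 425) ln10_17_7 ln10_17_7_ok) (L (nat_lit 489) ln10_18_7_c10 ln10_18_7_c10_ok))) (M (nat_lit 587) (B (L (nat_lit 555) ln10_14_4 ln10_14_4_ok) (L (nat_lit 619) ln10_15_4 ln10_15_4_ok))))) (M (nat_lit 425) (B (L (nat_lit 393) ln10_16_7 ln10_16_7_ok) (L (nat_lit 457) ln10_17_7 ln10_17_7_ok))))))) (B (M (nat_lit 553) (B (M (nat_lit 585) (B (L (nat_lit 554) ln10_14_5 ln10_14_5_ok) (L (nat_lit 521) ln10_13_5 ln10_13_5_ok))) (B (M (nat_lit 523) (B (L (nat_lit 521) ln10_13_5 ln10_13_5_ok) (L (nat_lit 555) ln10_13_4 ln10_13_4_ok))) (M (nat_lit 554) (B (L (nat_lit 585) ln10_14_5 ln10_14_5_ok) (M (nat_lit 555) (B (L (nat_lit 587) ln10_14_4 ln10_14_4_ok)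 (L (nat_lit 523) ln10_13_4 ln10_13_4_ok)))))))) (B (M (nat_lit 554) (B (M (nat_lit 555) (B (L (nat_lit 587) ln10_14_4 ln10_14_4_ok) (L (nat_lit 523) ln10_13_4 ln10_13_4_ok))) (M (nat_lit 425) (B (L (nat_lit 457) ln10_17_7 ln10_17_7_ok) (L (nat_lit 393) ln10_16_7 ln10_16_7_ok))))) (B (M (nat_lit 554) (B (M (nat_lit 425) (B (L (nat_lit 393) ln10_16_7 ln10_16_7_ok) (L (nat_lit 457) ln10_17_7 ln10_17_7_ok))) (M (nat_lit 553) (B (L (nat_lit 521) ln10_13_5 ln10_13_5_ok) (L (nat_lit 585) ln10_14_5 ln10_14_5_ok))))) (M (nat_lit 521) (B (L (nat_lit 553) ln10_13_5 ln10_13_5_ok) (M (nat_lit 523) (B (L (nat_lit 555) ln10_13_4 ln10_13_4_ok) (M (nat_lit 520) (B (M (nat_lit 487) (B (L (nat_lit 488) ln11_16_3_c10 ln11_16_3_c10_ok) (M (nat_lit 519) (B (L (nat_lit 486) ln10_16_3_c10 ln10_16_3_c10_ok) (M (nat_lit 551) (B (L (nat_lit 550) ln10_16_1_c10 ln10_16_1_c10_ok) (L (nat_lit 552) ln11_16_1 ln11_16_1_ok)))))))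 (B (M (nat_lit 489) (B (M (nat_lit 488) (B (L (nat_lit 487) ln7_15_0 ln7_15_0_ok) (L (nat_lit 524) ln12_16_3 ln12_16_3_ok))) (B (M (nat_lit 524) (B (L (nat_lit 488) ln12_16_3 ln12_16_3_ok) (L (nat_lit 525) ln13_16_3 ln13_16_3_ok))) (M (nat_lit 425) (B (L (nat_lit 393) ln10_16_7 ln10_16_7_ok) (M (nat_lit 552) (B (L (nat_lit 551) ln11_16_1 ln11_16_1_ok) (L (nat_lit 457) ln9_13_5_c10 ln9_13_5_c10_ok)))))))) (B (M (nat_lit 519) (B (M (nat_lit 487) (B (L (nat_lit 486) ln10_16_3_c10 ln10_16_3_c10_ok) (L (nat_lit 488) ln11_16_3_c10 ln11_16_3_c10_ok))) (B (M (nat_lit 489) (B (L (nat_lit 518) ln6_16_2_c10 ln6_16_2_c10_ok) (M (nat_lit 488) (B (L (nat_lit 487) ln7_15_0 ln7_15_0_ok) (L (nat_lit 524) ln12_16_3 ln12_16_3_ok))))) (B (M (nat_lit 489) (B (L (nat_lit 518) ln6_16_2_c10 ln6_16_2_c10_ok) (M (nat_lit 524) (B (L (nat_lit 488) ln12_16_3 ln12_16_3_ok) (L (nat_lit 525) ln13_16_3 ln13_16_3_ok)))))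 (M (nat_lit 518) (B (L (nat_lit 489) ln6_16_2_c10 ln6_16_2_c10_ok) (M (nat_lit 486) (B (L (nat_lit 485) ln9_16_3_c10 ln9_16_3_c10_ok) (L (nat_lit 487) ln10_16_3_c10 ln10_16_3_c10_ok))))))))) (B (M (nat_lit 489) (B (M (nat_lit 524) (B (L (nat_lit 488) ln12_16_3 ln12_16_3_ok) (L (nat_lit 525) ln13_16_3 ln13_16_3_ok))) (M (nat_lit 425) (B (L (nat_lit 393) ln10_16_7 ln10_16_7_ok) (M (nat_lit 552) (B (L (nat_lit 551) ln11_16_1 ln11_16_1_ok) (L (nat_lit 457) ln9_13_5_c10 ln9_13_5_c10_ok))))))) (M (nat_lit 519) (B (M (nat_lit 551) (B (L (nat_lit 550) ln10_16_1_c10 ln10_16_1_c10_ok) (L (nat_lit 552) ln11_16_1 ln11_16_1_ok))) (M (nat_lit 518) (B (L (nat_lit 489) ln6_16_2_c10 ln6_16_2_c10_ok) (M (nat_lit 486) (B (L (nat_lit 485) ln9_16_3_c10 ln9_16_3_c10_ok) (L (nat_lit 487) ln10_16_3_c10 ln10_16_3_c10_ok)))))))))))))))))))))))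
noncomputable def c10_d215 : Cert := (B (K (nat_lit 21584202758241968925018459392428634248426352321592664525955131179819344765362620990096764774341559628860189228745737756931989833359265103872) (nat_lit 29484081464512684799573980084062624309218159599162811395544749156846627954778205410069901125018213870327407204077181802224189716460378527300026881464915770235991097344) (nat_lit 29484081464512684799573980084062624309218159599162811395544749156846627954778205410069901125018213870327407204077181802224189716460378527300026881464915770235991097344) c10_s394) (M (nat_lit 490) (B (M (nat_lit 522) (B (M (nat_lit 393) (B (L (nat_lit 425) ln10_16_7 ln10_16_7_ok) (M (nat_lit 394) (B (L (nat_lit 361) ln10_15_7 ln10_15_7_ok) (M (nat_lit 395) (B (L (nat_lit 363) ln10_15_6 ln10_15_6_ok) (L (nat_lit 427) ln10_16_6 ln10_16_6_ok))))))) (M (nat_lit 553) (B (L (nat_lit 521) ln10_13_5 ln10_13_5_ok) (M (nat_lit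 554) (B (L (nat_lit 585) ln10_14_5 ln10_14_5_ok) (M (nat_lit 555) (B (L (nat_lit 523) ln10_13_4 ln10_13_4_ok) (L (nat_lit 587) ln10_14_4 ln10_14_4_ok))))))))) (B (M (nat_lit 522) (B (M (nat_lit 394) (B (M (nat_lit 395) (B (L (nat_lit 363) ln10_15_6 ln10_15_6_ok) (L (nat_lit 427) ln10_16_6 ln10_16_6_ok))) (M (nat_lit 521) (B (L (nat_lit 489) ln10_12_5 ln10_12_5_ok) (L (nat_lit 553) ln10_13_5 ln10_13_5_ok))))) (M (nat_lit 554) (B (M (nat_lit 425) (B (L (nat_lit 393) ln10_16_7 ln10_16_7_ok) (L (nat_lit 457) ln10_17_7 ln10_17_7_ok))) (M (nat_lit 555) (B (L (nat_lit 523) ln10_13_4 ln10_13_4_ok) (L (nat_lit 587) ln10_14_4 ln10_14_4_ok))))))) (B (M (nat_lit 394) (B (M (nat_lit 363) (B (L (nat_lit 395) ln10_15_6 ln10_15_6_ok) (M (nat_lit 362) (B (L (nat_lit 331) ln10_14_6 ln10_14_6_ok) (M (nat_lit 361) (B (L (nat_lit 393) ln13_11_1 ln13_11_1_ok) (L (nat_lit 329) ln10_14_7 ln10_14_7_ok))))))) (B (M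 (nat_lit 362) (B (M (nat_lit 489) (B (L (nat_lit 521) ln10_12_5 ln10_12_5_ok) (L (nat_lit 457) ln10_11_5 ln10_11_5_ok))) (M (nat_lit 361) (B (L (nat_lit 393) ln10_15_7 ln10_15_7_ok) (L (nat_lit 329) ln10_14_7 ln10_14_7_ok))))) (B (M (nat_lit 362) (B (M (nat_lit 489) (B (L (nat_lit 521) ln10_12_5 ln10_12_5_ok) (L (nat_lit 457) ln10_11_5 ln10_11_5_ok))) (M (nat_lit 363) (B (L (nat_lit 395) ln10_15_6 ln10_15_6_ok) (L (nat_lit 331) ln10_14_6 ln10_14_6_ok))))) (M (nat_lit 522) (B (M (nat_lit 521) (B (L (nat_lit 553) ln10_13_5 ln10_13_5_ok) (L (nat_lit 489) ln10_12_5 ln10_12_5_ok))) (M (nat_lit 395) (B (L (nat_lit 427) ln10_16_6 ln10_16_6_ok) (L (nat_lit 363) ln10_15_6 ln10_15_6_ok))))))))) (B (K (nat_lit 3196670537107778803176724488326661689515198746515282780072441252611511840370784760365814439633780552809222406328509610590676484027581037512906244096) (nat_lit 29484081464512684796377309567050482556926001124009593939903551372401439989610801295957028536544824613267974807568126751894739156723616501205455021961445701946947141632)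 (nat_lit 29484081464512684796377309567050482556926001124009593939903551372401439989610801295957028536544824613267974807568126751894739156723616501205455021961445701946947141632) c10_s395) (B (M (nat_lit 522) (B (M (nat_lit 554) (B (M (nat_lit 425) (B (L (nat_lit 393) ln10_16_7 ln10_16_7_ok) (L (nat_lit 457) ln10_17_7 ln10_17_7_ok))) (M (nat_lit 555) (B (L (nat_lit 523) ln10_13_4 ln10_13_4_ok) (L (nat_lit 587) ln10_14_4 ln10_14_4_ok))))) (B (M (nat_lit 553) (B (L (nat_lit 521) ln10_13_5 ln10_13_5_ok) (M (nat_lit 554) (B (L (nat_lit 585) ln10_14_5 ln10_14_5_ok) (M (nat_lit 555) (B (L (nat_lit 523) ln10_13_4 ln10_13_4_ok) (L (nat_lit 587) ln10_14_4 ln10_14_4_ok))))))) (B (M (nat_lit 554) (B (M (nat_lit 425) (B (L (nat_lit 393) ln10_16_7 ln10_16_7_ok) (L (nat_lit 457) ln10_17_7 ln10_17_7_ok))) (M (nat_lit 553) (B (L (nat_lit 521) ln10_13_5 ln10_13_5_ok) (L (nat_lit 585) ln10_14_5 ln10_14_5_ok)))))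 (M (nat_lit 394) (B (M (nat_lit 393) (B (L (nat_lit 361) ln10_15_7 ln10_15_7_ok) (L (nat_lit 425) ln10_16_7 ln10_16_7_ok))) (M (nat_lit 521) (B (L (nat_lit 489) ln10_12_5 ln10_12_5_ok) (L (nat_lit 553) ln10_13_5 ln10_13_5_ok))))))))) (B (M (nat_lit 522) (B (M (nat_lit 554) (B (M (nat_lit 555) (B (L (nat_lit 587) ln10_14_4 ln10_14_4_ok) (L (nat_lit 523) ln10_13_4 ln10_13_4_ok))) (M (nat_lit 553) (B (L (nat_lit 585) ln10_14_5 ln10_14_5_ok) (L (nat_lit 521) ln10_13_5 ln10_13_5_ok))))) (B (M (nat_lit 394) (B (M (nat_lit 521) (B (L (nat_lit 553) ln10_13_5 ln10_13_5_ok) (L (nat_lit 489) ln10_12_5 ln10_12_5_ok))) (M (nat_lit 395) (B (L (nat_lit 427) ln10_16_6 ln10_16_6_ok) (L (nat_lit 363) ln10_15_6 ln10_15_6_ok))))) (B (M (nat_lit 489) (B (M (nat_lit 395) (B (L (nat_lit 427) ln10_16_6 ln10_16_6_ok) (M (nat_lit 394) (B (L (nat_lit 521) ln10_12_5 ln10_12_5_ok) (L (nat_lit 363) ln10_15_6 ln10_15_6_ok)))))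 (M (nat_lit 554) (B (M (nat_lit 555) (B (L (nat_lit 587) ln10_14_4 ln10_14_4_ok) (L (nat_lit 523) ln10_13_4 ln10_13_4_ok))) (M (nat_lit 457) (B (L (nat_lit 586) ln10_18_7_c10 ln10_18_7_c10_ok) (L (nat_lit 425) ln10_17_7 ln10_17_7_ok))))))) (M (nat_lit 554) (B (M (nat_lit 555) (B (L (nat_lit 587) ln10_14_4 ln10_14_4_ok) (L (nat_lit 523) ln10_13_4 ln10_13_4_ok))) (M (nat_lit 586) (B (M (nat_lit 585) (B (L (nat_lit 617) ln10_15_5 ln10_15_5_ok) (L (nat_lit 553) ln10_14_5 ln10_14_5_ok))) (M (nat_lit 457) (B (L (nat_lit 489) ln10_18_7_c10 ln10_18_7_c10_ok) (L (nat_lit 425) ln10_17_7 ln10_17_7_ok))))))))))) (B (M (nat_lit 394) (B (M (nat_lit 362) (B (M (nat_lit 489) (B (L (nat_lit 521) ln10_12_5 ln10_12_5_ok) (L (nat_lit 457) ln10_11_5 ln10_11_5_ok))) (M (nat_lit 361) (B (L (nat_lit 393) ln10_15_7 ln10_15_7_ok) (L (nat_lit 329) ln10_14_7 ln10_14_7_ok))))) (B (M (nat_lit 362) (B (M (nat_lit 361)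 (B (L (nat_lit 393) ln10_15_7 ln10_15_7_ok) (L (nat_lit 329) ln10_14_7 ln10_14_7_ok))) (M (nat_lit 363) (B (L (nat_lit 395) ln10_15_6 ln10_15_6_ok) (L (nat_lit 331) ln10_14_6 ln10_14_6_ok))))) (B (M (nat_lit 362) (B (M (nat_lit 489) (B (L (nat_lit 521) ln10_12_5 ln10_12_5_ok) (L (nat_lit 457) ln10_11_5 ln10_11_5_ok))) (M (nat_lit 363) (B (L (nat_lit 395) ln10_15_6 ln10_15_6_ok) (L (nat_lit 331) ln10_14_6 ln10_14_6_ok))))) (M (nat_lit 522) (B (M (nat_lit 393) (B (L (nat_lit 425) ln10_16_7 ln10_16_7_ok) (L (nat_lit 361) ln10_15_7 ln10_15_7_ok))) (M (nat_lit 395) (B (L (nat_lit 427) ln10_16_6 ln10_16_6_ok) (L (nat_lit 363) ln10_15_6 ln10_15_6_ok))))))))) c10_d214)))))))))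
noncomputable def c10_d216 : Cert := (B (M (nat_lit 522) (B (M (nat_lit 553) (B (L (nat_lit 521) ln10_13_5 ln10_13_5_ok) (M (nat_lit 554) (B (L (nat_lit 585) ln10_14_5 ln10_14_5_ok) (M (nat_lit 555) (B (L (nat_lit 587) ln10_14_4 ln10_14_4_ok) (L (nat_lit 523) ln10_13_4 ln10_13_4_ok))))))) (B (M (nat_lit 554) (B (M (nat_lit 553) (B (L (nat_lit 585) ln10_14_5 ln10_14_5_ok) (L (nat_lit 521) ln10_13_5 ln10_13_5_ok))) (M (nat_lit 425) (B (L (nat_lit 457) ln10_17_7 ln10_17_7_ok) (L (nat_lit 393) ln10_16_7 ln10_16_7_ok))))) (B (M (nat_lit 521) (B (L (nat_lit 553) ln10_13_5 ln10_13_5_ok) (M (nat_lit 520) (B (M (nat_lit 519) (B (L (nat_lit 491) ln7_16_2 ln7_16_2_ok) (M (nat_lit 518) (B (L (nat_lit 489) ln6_16_2_c10 ln6_16_2_c10_ok) (M (nat_lit 550) (B (L (nat_lit 551) ln10_16_1_c10 ln10_16_1_c10_ok) (L (nat_lit 549) ln9_16_1_c10 ln9_16_1_c10_ok))))))) (B (M (nat_lit 519) (B (M (nat_lit 523) (B (L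 (nat_lit 555) ln10_13_4 ln10_13_4_ok) (M (nat_lit 551) (B (L (nat_lit 552) ln11_16_1 ln11_16_1_ok) (L (nat_lit 550) ln10_16_1_c10 ln10_16_1_c10_ok))))) (B (M (nat_lit 518) (B (L (nat_lit 489) ln6_16_2_c10 ln6_16_2_c10_ok) (M (nat_lit 550) (B (L (nat_lit 551) ln10_16_1_c10 ln10_16_1_c10_ok) (L (nat_lit 549) ln9_16_1_c10 ln9_16_1_c10_ok))))) (M (nat_lit 523) (B (L (nat_lit 555) ln10_13_4 ln10_13_4_ok) (M (nat_lit 487) (B (L (nat_lit 488) ln11_16_3_c10 ln11_16_3_c10_ok) (L (nat_lit 486) ln10_16_3_c10 ln10_16_3_c10_ok)))))))) (B (M (nat_lit 519) (B (L (nat_lit 491) ln7_16_2 ln7_16_2_ok) (M (nat_lit 523) (B (L (nat_lit 555) ln10_13_4 ln10_13_4_ok) (M (nat_lit 487) (B (L (nat_lit 488) ln11_16_3_c10 ln11_16_3_c10_ok) (L (nat_lit 486) ln10_16_3_c10 ln10_16_3_c10_ok))))))) (M (nat_lit 523) (B (L (nat_lit 555) ln10_13_4 ln10_13_4_ok) (M (nat_lit 489) (B (M (nat_lit 488) (B (L (nat_lit 524) ln12_16_3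 ln12_16_3_ok) (L (nat_lit 487) ln7_15_0 ln7_15_0_ok))) (M (nat_lit 425) (B (L (nat_lit 393) ln10_16_7 ln10_16_7_ok) (M (nat_lit 552) (B (L (nat_lit 551) ln11_16_1 ln11_16_1_ok) (L (nat_lit 457) ln9_13_5_c10 ln9_13_5_c10_ok))))))))))))))) (M (nat_lit 554) (B (M (nat_lit 555) (B (L (nat_lit 587) ln10_14_4 ln10_14_4_ok) (L (nat_lit 523) ln10_13_4 ln10_13_4_ok))) (M (nat_lit 425) (B (L (nat_lit 457) ln10_17_7 ln10_17_7_ok) (L (nat_lit 393) ln10_16_7 ln10_16_7_ok))))))))) (B (M (nat_lit 522) (B (M (nat_lit 554) (B (M (nat_lit 555) (B (L (nat_lit 587) ln10_14_4 ln10_14_4_ok) (L (nat_lit 523) ln10_13_4 ln10_13_4_ok))) (M (nat_lit 553) (B (L (nat_lit 585) ln10_14_5 ln10_14_5_ok) (L (nat_lit 521) ln10_13_5 ln10_13_5_ok))))) (B (M (nat_lit 521) (B (L (nat_lit 553) ln10_13_5 ln10_13_5_ok) (M (nat_lit 489) (B (L (nat_lit 394) ln10_12_5 ln10_12_5_ok) (M (nat_lit 523) (B (L (nat_lit 555) ln10_13_4 ln10_13_4_ok)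 (M (nat_lit 524) (B (L (nat_lit 525) ln13_16_3 ln13_16_3_ok) (L (nat_lit 488) ln12_16_3 ln12_16_3_ok))))))))) (B (M (nat_lit 554) (B (M (nat_lit 553) (B (L (nat_lit 585) ln10_14_5 ln10_14_5_ok) (L (nat_lit 521) ln10_13_5 ln10_13_5_ok))) (B (M (nat_lit 489) (B (M (nat_lit 457) (B (L (nat_lit 586) ln10_18_7_c10 ln10_18_7_c10_ok) (L (nat_lit 425) ln10_17_7 ln10_17_7_ok))) (M (nat_lit 521) (B (L (nat_lit 553) ln10_13_5 ln10_13_5_ok) (L (nat_lit 394) ln10_12_5 ln10_12_5_ok))))) (M (nat_lit 586) (B (M (nat_lit 457) (B (L (nat_lit 489) ln10_18_7_c10 ln10_18_7_c10_ok) (L (nat_lit 425) ln10_17_7 ln10_17_7_ok))) (M (nat_lit 618) (B (M (nat_lit 619) (B (L (nat_lit 651) ln10_16_4 ln10_16_4_ok) (L (nat_lit 587) ln10_15_4 ln10_15_4_ok))) (M (nat_lit 617) (B (L (nat_lit 649) ln10_16_5 ln10_16_5_ok) (L (nat_lit 585) ln10_15_5 ln10_15_5_ok)))))))))) (B (M (nat_lit 554) (B (M (nat_lit 555) (B (L (nat_lit 587)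 ln10_14_4 ln10_14_4_ok) (L (nat_lit 523) ln10_13_4 ln10_13_4_ok))) (M (nat_lit 457) (B (L (nat_lit 425) ln10_17_7 ln10_17_7_ok) (M (nat_lit 489) (B (L (nat_lit 586) ln10_18_7_c10 ln10_18_7_c10_ok) (M (nat_lit 394) (B (L (nat_lit 521) ln10_12_5 ln10_12_5_ok) (L (nat_lit 362) ln10_11_5 ln10_11_5_ok))))))))) (M (nat_lit 554) (B (M (nat_lit 555) (B (L (nat_lit 587) ln10_14_4 ln10_14_4_ok) (L (nat_lit 523) ln10_13_4 ln10_13_4_ok))) (M (nat_lit 586) (B (M (nat_lit 585) (B (L (nat_lit 617) ln10_15_5 ln10_15_5_ok) (L (nat_lit 553) ln10_14_5 ln10_14_5_ok))) (M (nat_lit 457) (B (L (nat_lit 489) ln10_18_7_c10 ln10_18_7_c10_ok) (L (nat_lit 425) ln10_17_7 ln10_17_7_ok)))))))))))) (M (nat_lit 394) (B (M (nat_lit 362) (B (M (nat_lit 331) (B (L (nat_lit 363) ln10_14_6 ln10_14_6_ok) (M (nat_lit 330) (B (L (nat_lit 299) ln10_13_6 ln10_13_6_ok) (M (nat_lit 329) (B (L (nat_lit 361) ln10_14_7 ln10_14_7_ok) (L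 (nat_lit 297) ln10_13_7_c10 ln10_13_7_c10_ok))))))) (B (M (nat_lit 330) (B (M (nat_lit 457) (B (L (nat_lit 489) ln10_11_5 ln10_11_5_ok) (L (nat_lit 425) ln10_10_5 ln10_10_5_ok))) (M (nat_lit 329) (B (L (nat_lit 361) ln10_14_7 ln10_14_7_ok) (L (nat_lit 297) ln10_13_7_c10 ln10_13_7_c10_ok))))) (B (M (nat_lit 330) (B (M (nat_lit 457) (B (L (nat_lit 489) ln10_11_5 ln10_11_5_ok) (L (nat_lit 425) ln10_10_5 ln10_10_5_ok))) (M (nat_lit 331) (B (L (nat_lit 363) ln10_14_6 ln10_14_6_ok) (L (nat_lit 299) ln10_13_6 ln10_13_6_ok))))) (M (nat_lit 489) (B (L (nat_lit 521) ln10_12_5 ln10_12_5_ok) (L (nat_lit 457) ln10_11_5 ln10_11_5_ok))))))) (B (M (nat_lit 361) (B (M (nat_lit 329) (B (L (nat_lit 362) ln10_14_7 ln10_14_7_ok) (L (nat_lit 393) ln10_15_7 ln10_15_7_ok))) (B (M (nat_lit 395) (B (L (nat_lit 393) ln10_15_7 ln10_15_7_ok) (L (nat_lit 363) ln10_15_6 ln10_15_6_ok))) (M (nat_lit 362) (B (L (nat_lit 329)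 ln10_14_7 ln10_14_7_ok) (M (nat_lit 363) (B (L (nat_lit 331) ln10_14_6 ln10_14_6_ok) (L (nat_lit 395) ln10_15_6 ln10_15_6_ok)))))))) (B (M (nat_lit 362) (B (M (nat_lit 363) (B (L (nat_lit 331) ln10_14_6 ln10_14_6_ok) (L (nat_lit 395) ln10_15_6 ln10_15_6_ok))) (M (nat_lit 489) (B (L (nat_lit 457) ln10_11_5 ln10_11_5_ok) (L (nat_lit 521) ln10_12_5 ln10_12_5_ok))))) (B (M (nat_lit 362) (B (M (nat_lit 489) (B (L (nat_lit 521) ln10_12_5 ln10_12_5_ok) (L (nat_lit 457) ln10_11_5 ln10_11_5_ok))) (M (nat_lit 361) (B (L (nat_lit 393) ln10_15_7 ln10_15_7_ok) (L (nat_lit 329) ln10_14_7 ln10_14_7_ok))))) (M (nat_lit 393) (B (L (nat_lit 361) ln10_15_7 ln10_15_7_ok) (M (nat_lit 395) (B (L (nat_lit 363) ln10_15_6 ln10_15_6_ok) (M (nat_lit 392) (B (M (nat_lit 423) (B (L (nat_lit 424) ln11_12_1 ln11_12_1_ok) (M (nat_lit 391) (B (L (nat_lit 422) ln10_12_1_c10 ln10_12_1_c10_ok) (M (nat_lit 359) (B (L (nat_lit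 358) ln10_12_3_c10 ln10_12_3_c10_ok) (L (nat_lit 360) ln11_12_3 ln11_12_3_ok))))))) (B (M (nat_lit 425) (B (M (nat_lit 424) (B (L (nat_lit 423) ln11_12_1 ln11_12_1_ok) (L (nat_lit 396) ln9_12_2 ln9_12_2_ok))) (B (L (nat_lit 396) ln9_12_2 ln9_12_2_ok) (M (nat_lit 489) (B (L (nat_lit 521) ln10_12_5 ln10_12_5_ok) (M (nat_lit 360) (B (L (nat_lit 359) ln11_12_3 ln11_12_3_ok) (L (nat_lit 457) ln9_15_7 ln9_15_7_ok)))))))) (B (M (nat_lit 391) (B (M (nat_lit 423) (B (L (nat_lit 422) ln10_12_1_c10 ln10_12_1_c10_ok) (L (nat_lit 424) ln11_12_1 ln11_12_1_ok))) (B (M (nat_lit 425) (B (L (nat_lit 390) ln6_12_0_c10 ln6_12_0_c10_ok) (M (nat_lit 424) (B (L (nat_lit 423) ln11_12_1 ln11_12_1_ok) (L (nat_lit 396) ln9_12_2 ln9_12_2_ok))))) (M (nat_lit 425) (B (L (nat_lit 390) ln6_12_0_c10 ln6_12_0_c10_ok) (L (nat_lit 396) ln9_12_2 ln9_12_2_ok)))))) (M (nat_lit 425) (B (L (nat_lit 396) ln9_12_2 ln9_12_2_ok) (M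 (nat_lit 489) (B (L (nat_lit 521) ln10_12_5 ln10_12_5_ok) (M (nat_lit 360) (B (L (nat_lit 359) ln11_12_3 ln11_12_3_ok) (L (nat_lit 457) ln9_15_7 ln9_15_7_ok))))))))))))))))))))))
noncomputable def c10_d217 : Cert := (B (M (nat_lit 360) (B (M (nat_lit 457) (B (L (nat_lit 328) ln8_10_4_c10 ln8_10_4_c10_ok) (M (nat_lit 489) (B (L (nat_lit 521) ln9_16_6 ln9_16_6_ok) (L (nat_lit 456) ln8_11_4_c10 ln8_11_4_c10_ok))))) (B (M (nat_lit 329) (B (M (nat_lit 328) (B (L (nat_lit 457) ln8_10_4_c10 ln8_10_4_c10_ok) (L (nat_lit 297) ln8_13_6_c10 ln8_13_6_c10_ok))) (B (M (nat_lit 361) (B (L (nat_lit 456) ln8_14_6_c10 ln8_14_6_c10_ok) (M (nat_lit 297) (B (L (nat_lit 328) ln8_13_6_c10 ln8_13_6_c10_ok) (L (nat_lit 265) ln9_8_5_c10 ln9_8_5_c10_ok))))) (M (nat_lit 456) (B (L (nat_lit 361) ln8_14_6_c10 ln8_14_6_c10_ok) (M (nat_lit 455) (B (L (nat_lit 487) ln8_11_5_c10 ln8_11_5_c10_ok) (M (nat_lit 454) (B (L (nat_lit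 457) ln6_14_2_c10 ln6_14_2_c10_ok) (L (nat_lit 453) ln5_14_2_c10 ln5_14_2_c10_ok)))))))))) (B (M (nat_lit 456) (B (M (nat_lit 455) (B (L (nat_lit 487) ln8_11_5_c10 ln8_11_5_c10_ok) (M (nat_lit 457) (B (L (nat_lit 454) ln6_14_2_c10 ln6_14_2_c10_ok) (L (nat_lit 489) ln8_11_4_c10 ln8_11_4_c10_ok))))) (B (M (nat_lit 488) (B (M (nat_lit 359) (B (L (nat_lit 327) ln8_14_7_c10 ln8_14_7_c10_ok) (L (nat_lit 391) ln8_15_7_c10 ln8_15_7_c10_ok))) (M (nat_lit 489) (B (L (nat_lit 457) ln8_11_4_c10 ln8_11_4_c10_ok) (L (nat_lit 521) ln8_12_4_c10 ln8_12_4_c10_ok))))) (M (nat_lit 488) (B (M (nat_lit 359) (B (L (nat_lit 327) ln8_14_7_c10 ln8_14_7_c10_ok) (L (nat_lit 391) ln8_15_7_c10 ln8_15_7_c10_ok))) (M (nat_lit 487) (B (L (nat_lit 455) ln8_11_5_c10 ln8_11_5_c10_ok) (L (nat_lit 519) ln8_12_5_c10 ln8_12_5_c10_ok)))))))) (B (M (nat_lit 328) (B (L (nat_lit 457) ln8_10_4_c10 ln8_10_4_c10_ok) (M (nat_lit 295) (B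 (L (nat_lit 327) ln8_13_7_c10 ln8_13_7_c10_ok) (M (nat_lit 297) (B (L (nat_lit 329) ln8_13_6_c10 ln8_13_6_c10_ok) (M (nat_lit 296) (B (L (nat_lit 263) ln8_12_7_c10 ln8_12_7_c10_ok) (L (nat_lit 265) ln8_12_6_c10 ln8_12_6_c10_ok))))))))) (M (nat_lit 329) (B (M (nat_lit 297) (B (L (nat_lit 328) ln8_13_6_c10 ln8_13_6_c10_ok) (M (nat_lit 361) (B (L (nat_lit 265) ln9_8_5_c10 ln9_8_5_c10_ok) (L (nat_lit 456) ln8_14_6_c10 ln8_14_6_c10_ok))))) (B (M (nat_lit 327) (B (M (nat_lit 328) (B (L (nat_lit 295) ln8_13_7_c10 ln8_13_7_c10_ok) (L (nat_lit 297) ln8_13_6_c10 ln8_13_6_c10_ok))) (M (nat_lit 456) (B (L (nat_lit 359) ln8_14_7_c10 ln8_14_7_c10_ok) (L (nat_lit 361) ln8_14_6_c10 ln8_14_6_c10_ok))))) (B (M (nat_lit 456) (B (L (nat_lit 361) ln8_14_6_c10 ln8_14_6_c10_ok) (M (nat_lit 488) (B (M (nat_lit 359) (B (L (nat_lit 327) ln8_14_7_c10 ln8_14_7_c10_ok) (L (nat_lit 391) ln8_15_7_c10 ln8_15_7_c10_ok)))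 (M (nat_lit 487) (B (L (nat_lit 455) ln8_11_5_c10 ln8_11_5_c10_ok) (L (nat_lit 519) ln8_12_5_c10 ln8_12_5_c10_ok))))))) (B (M (nat_lit 328) (B (L (nat_lit 297) ln8_13_6_c10 ln8_13_6_c10_ok) (M (nat_lit 327) (B (L (nat_lit 295) ln8_13_7_c10 ln8_13_7_c10_ok) (M (nat_lit 359) (B (L (nat_lit 456) ln8_14_7_c10 ln8_14_7_c10_ok) (M (nat_lit 358) (B (L (nat_lit 330) ln10_10_1_c10 ln10_10_1_c10_ok) (L (nat_lit 357) ln5_11_2_c10 ln5_11_2_c10_ok))))))))) (M (nat_lit 328) (B (L (nat_lit 297) ln8_13_6_c10 ln8_13_6_c10_ok) (M (nat_lit 359) (B (M (nat_lit 327) (B (L (nat_lit 295) ln8_13_7_c10 ln8_13_7_c10_ok) (M (nat_lit 330) (B (L (nat_lit 358) ln10_10_1_c10 ln10_10_1_c10_ok) (L (nat_lit 331) ln11_10_1_c10 ln11_10_1_c10_ok))))) (B (M (nat_lit 330) (B (L (nat_lit 331) ln11_10_1_c10 ln11_10_1_c10_ok) (M (nat_lit 358) (B (L (nat_lit 327) ln10_10_1_c10 ln10_10_1_c10_ok) (L (nat_lit 357) ln5_11_2_c10 ln5_11_2_c10_ok)))))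 (B (M (nat_lit 330) (B (L (nat_lit 331) ln11_10_1_c10 ln11_10_1_c10_ok) (M (nat_lit 358) (B (L (nat_lit 357) ln5_11_2_c10 ln5_11_2_c10_ok) (L (nat_lit 361) ln6_11_2_c10 ln6_11_2_c10_ok))))) (M (nat_lit 296) (B (M (nat_lit 295) (B (L (nat_lit 263) ln8_12_7_c10 ln8_12_7_c10_ok) (L (nat_lit 327) ln8_13_7_c10 ln8_13_7_c10_ok))) (B (M (nat_lit 264) (B (L (nat_lit 391) ln8_8_5_c10 ln8_8_5_c10_ok) (M (nat_lit 232) (B (L (nat_lit 327) ln8_7_5_c10 ln8_7_5_c10_ok) (L (nat_lit 361) ln8_7_4_c10 ln8_7_4_c10_ok))))) (M (nat_lit 264) (B (L (nat_lit 391) ln8_8_5_c10 ln8_8_5_c10_ok) (M (nat_lit 263) (B (L (nat_lit 231) ln8_11_7_c10 ln8_11_7_c10_ok) (L (nat_lit 295) ln8_12_7_c10 ln8_12_7_c10_ok)))))))))))))))))))))))) (B (M (nat_lit 360) (B (M (nat_lit 457) (B (L (nat_lit 328) ln8_10_4_c10 ln8_10_4_c10_ok) (M (nat_lit 489) (B (L (nat_lit 521) ln9_16_6 ln9_16_6_ok) (L (nat_lit 393) ln9_15_7 ln9_15_7_ok)))))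 (B (M (nat_lit 457) (B (L (nat_lit 328) ln8_10_4_c10 ln8_10_4_c10_ok) (M (nat_lit 489) (B (L (nat_lit 456) ln8_11_4_c10 ln8_11_4_c10_ok) (L (nat_lit 393) ln9_15_7 ln9_15_7_ok))))) (B (M (nat_lit 328) (B (L (nat_lit 457) ln8_10_4_c10 ln8_10_4_c10_ok) (M (nat_lit 296) (B (L (nat_lit 393) ln8_9_4_c10 ln8_9_4_c10_ok) (M (nat_lit 297) (B (L (nat_lit 329) ln8_13_6_c10 ln8_13_6_c10_ok) (L (nat_lit 265) ln8_12_6_c10 ln8_12_6_c10_ok))))))) (B (M (nat_lit 328) (B (M (nat_lit 296) (B (L (nat_lit 393) ln8_9_4_c10 ln8_9_4_c10_ok) (M (nat_lit 297) (B (L (nat_lit 329) ln8_13_6_c10 ln8_13_6_c10_ok) (L (nat_lit 265) ln8_12_6_c10 ln8_12_6_c10_ok))))) (B (M (nat_lit 296) (B (M (nat_lit 297) (B (L (nat_lit 329) ln8_13_6_c10 ln8_13_6_c10_ok) (L (nat_lit 265) ln8_12_6_c10 ln8_12_6_c10_ok))) (M (nat_lit 295) (B (L (nat_lit 327) ln8_13_7_c10 ln8_13_7_c10_ok) (L (nat_lit 263) ln8_12_7_c10 ln8_12_7_c10_ok))))) (B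 (M (nat_lit 296) (B (L (nat_lit 393) ln8_9_4_c10 ln8_9_4_c10_ok) (M (nat_lit 295) (B (L (nat_lit 327) ln8_13_7_c10 ln8_13_7_c10_ok) (L (nat_lit 263) ln8_12_7_c10 ln8_12_7_c10_ok))))) (M (nat_lit 456) (B (M (nat_lit 329) (B (L (nat_lit 361) ln8_14_6_c10 ln8_14_6_c10_ok) (L (nat_lit 297) ln8_13_6_c10 ln8_13_6_c10_ok))) (M (nat_lit 488) (B (M (nat_lit 487) (B (L (nat_lit 519) ln8_12_5_c10 ln8_12_5_c10_ok) (L (nat_lit 455) ln8_11_5_c10 ln8_11_5_c10_ok))) (M (nat_lit 521) (B (L (nat_lit 489) ln8_12_4_c10 ln8_12_4_c10_ok) (M (nat_lit 520) (B (L (nat_lit 553) ln8_13_4_c10 ln8_13_4_c10_ok) (L (nat_lit 393) ln8_16_6_c10 ln8_16_6_c10_ok))))))))))))) (B (M (nat_lit 457) (B (L (nat_lit 328) ln8_10_4_c10 ln8_10_4_c10_ok) (M (nat_lit 489) (B (L (nat_lit 521) ln9_16_6 ln9_16_6_ok) (L (nat_lit 456) ln8_11_4_c10 ln8_11_4_c10_ok))))) (M (nat_lit 456) (B (M (nat_lit 488) (B (M (nat_lit 487) (B (L (nat_lit 519)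 ln8_12_5_c10 ln8_12_5_c10_ok) (L (nat_lit 455) ln8_11_5_c10 ln8_11_5_c10_ok))) (M (nat_lit 361) (B (L (nat_lit 393) ln8_15_6_c10 ln8_15_6_c10_ok) (L (nat_lit 329) ln8_14_6_c10 ln8_14_6_c10_ok))))) (B (M (nat_lit 488) (B (M (nat_lit 489) (B (L (nat_lit 521) ln8_12_4_c10 ln8_12_4_c10_ok) (L (nat_lit 457) ln8_11_4_c10 ln8_11_4_c10_ok))) (M (nat_lit 361) (B (L (nat_lit 393) ln8_15_6_c10 ln8_15_6_c10_ok) (L (nat_lit 329) ln8_14_6_c10 ln8_14_6_c10_ok))))) (M (nat_lit 455) (B (L (nat_lit 487) ln8_11_5_c10 ln8_11_5_c10_ok) (M (nat_lit 457) (B (L (nat_lit 489) ln8_11_4_c10 ln8_11_4_c10_ok) (L (nat_lit 454) ln6_14_2_c10 ln6_14_2_c10_ok)))))))))))))) (M (nat_lit 363) (B (L (nat_lit 366) ln14_11_1 ln14_11_1_ok) (L (nat_lit 393) ln8_12_2 ln8_12_2_ok)))))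
noncomputable def c10_d218 : Cert := (B (K (nat_lit 21584202758328614853000082511135567638394197424387600245097027100806378869644806958411638194155571972717031799206283385890719682040994725888) (nat_lit 372141426839350728788380703746250825379715029183097264430300447998201621868725430695506602410219579576008704727768128994804685998187872256) (nat_lit 372141426839350728788380703746250825379715029183097264430300447998201621868725430695506602410219579576008704727768128994804685998187872256) c10_s396) (B (K (nat_lit 21584202758328614853000082511135567638394197424387600245097027100806378869644806958411638194155571972717031799206283385890719682040994725888) (nat_lit 372141426839350728707685395206341657250492881642929901552014711724332070222899797528877986400254669851167227819440557659057908868083351552) (nat_lit 372141426839350728707685395206341657250492881642929901552014711724332070222899797528877986400254669851167227819440557659057908868083351552)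 c10_s397) (B (M (nat_lit 395) (B (L (nat_lit 396) ln13_12_1 ln13_12_1_ok) (M (nat_lit 363) (B (L (nat_lit 366) ln14_11_1 ln14_11_1_ok) (M (nat_lit 362) (B (L (nat_lit 398) ln10_11_0 ln10_11_0_ok) (M (nat_lit 330) (B (L (nat_lit 329) ln13_11_3 ln13_11_3_ok) (L (nat_lit 457) ln10_10_5 ln10_10_5_ok))))))))) (B (M (nat_lit 395) (B (M (nat_lit 363) (B (L (nat_lit 490) ln10_15_6 ln10_15_6_ok) (L (nat_lit 366) ln14_11_1 ln14_11_1_ok))) (L (nat_lit 396) ln13_12_1 ln13_12_1_ok))) (M (nat_lit 393) (B (M (nat_lit 395) (B (L (nat_lit 396) ln9_12_2 ln9_12_2_ok) (M (nat_lit 392) (B (M (nat_lit 359) (B (L (nat_lit 360) ln11_12_3 ln11_12_3_ok) (M (nat_lit 391) (B (L (nat_lit 358) ln10_12_3_c10 ln10_12_3_c10_ok) (L (nat_lit 390) ln6_12_0_c10 ln6_12_0_c10_ok))))) (B (M (nat_lit 423) (B (L (nat_lit 424) ln11_12_1 ln11_12_1_ok) (M (nat_lit 391) (B (L (nat_lit 422) ln10_12_1_c10 ln10_12_1_c10_ok) (L (nat_lit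 390) ln6_12_0_c10 ln6_12_0_c10_ok))))) (B (M (nat_lit 391) (B (M (nat_lit 423) (B (L (nat_lit 422) ln10_12_1_c10 ln10_12_1_c10_ok) (L (nat_lit 424) ln11_12_1 ln11_12_1_ok))) (M (nat_lit 359) (B (L (nat_lit 358) ln10_12_3_c10 ln10_12_3_c10_ok) (L (nat_lit 360) ln11_12_3 ln11_12_3_ok))))) (M (nat_lit 424) (B (L (nat_lit 423) ln11_12_1 ln11_12_1_ok) (M (nat_lit 360) (B (L (nat_lit 359) ln11_12_3 ln11_12_3_ok) (M (nat_lit 456) (B (M (nat_lit 361) (B (L (nat_lit 329) ln9_10_4_c10 ln9_10_4_c10_ok) (L (nat_lit 488) ln8_15_6_c10 ln8_15_6_c10_ok))) (B (M (nat_lit 329) (B (L (nat_lit 361) ln9_10_4_c10 ln9_10_4_c10_ok) (M (nat_lit 328) (B (L (nat_lit 296) ln8_9_4_c10 ln8_9_4_c10_ok) (L (nat_lit 297) ln8_13_6_c10 ln8_13_6_c10_ok))))) (B (M (nat_lit 488) (B (L (nat_lit 361) ln8_15_6_c10 ln8_15_6_c10_ok) (L (nat_lit 520) ln8_16_6_c10 ln8_16_6_c10_ok))) (M (nat_lit 487) (B (L (nat_lit 455) ln8_11_5_c10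 ln8_11_5_c10_ok) (M (nat_lit 488) (B (L (nat_lit 519) ln8_12_5_c10 ln8_12_5_c10_ok) (L (nat_lit 520) ln8_16_6_c10 ln8_16_6_c10_ok))))))))))))))))))) (B (M (nat_lit 361) (B (L (nat_lit 490) ln10_15_7 ln10_15_7_ok) (L (nat_lit 329) ln9_10_4_c10 ln9_10_4_c10_ok))) (B (M (nat_lit 490) (B (L (nat_lit 361) ln10_15_7 ln10_15_7_ok) (L (nat_lit 522) ln10_16_7 ln10_16_7_ok))) (M (nat_lit 392) (B (M (nat_lit 391) (B (L (nat_lit 390) ln6_12_0_c10 ln6_12_0_c10_ok) (M (nat_lit 423) (B (L (nat_lit 422) ln10_12_1_c10 ln10_12_1_c10_ok) (M (nat_lit 395) (B (L (nat_lit 424) ln11_12_1 ln11_12_1_ok) (M (nat_lit 359) (B (L (nat_lit 360) ln11_12_3 ln11_12_3_ok) (L (nat_lit 358) ln10_12_3_c10 ln10_12_3_c10_ok))))))))) (B (M (nat_lit 391) (B (L (nat_lit 390) ln6_12_0_c10 ln6_12_0_c10_ok) (M (nat_lit 423) (B (L (nat_lit 422) ln10_12_1_c10 ln10_12_1_c10_ok) (M (nat_lit 424) (B (L (nat_lit 395) ln11_12_1 ln11_12_1_ok)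 (M (nat_lit 359) (B (L (nat_lit 358) ln10_12_3_c10 ln10_12_3_c10_ok) (M (nat_lit 327) (B (L (nat_lit 295) ln7_9_4_c10 ln7_9_4_c10_ok) (L (nat_lit 456) ln7_10_4_c10 ln7_10_4_c10_ok))))))))))) (B (M (nat_lit 391) (B (L (nat_lit 390) ln6_12_0_c10 ln6_12_0_c10_ok) (M (nat_lit 423) (B (L (nat_lit 422) ln10_12_1_c10 ln10_12_1_c10_ok) (M (nat_lit 424) (B (L (nat_lit 395) ln11_12_1 ln11_12_1_ok) (M (nat_lit 455) (B (L (nat_lit 454) ln10_13_1_c10 ln10_13_1_c10_ok) (M (nat_lit 360) (B (L (nat_lit 328) ln8_10_5_c10 ln8_10_5_c10_ok) (L (nat_lit 487) ln7_15_6_c10 ln7_15_6_c10_ok))))))))))) (B (M (nat_lit 391) (B (L (nat_lit 390) ln6_12_0_c10 ln6_12_0_c10_ok) (M (nat_lit 423) (B (L (nat_lit 422) ln10_12_1_c10 ln10_12_1_c10_ok) (M (nat_lit 424) (B (M (nat_lit 359) (B (L (nat_lit 358) ln10_12_3_c10 ln10_12_3_c10_ok) (M (nat_lit 327) (B (L (nat_lit 295) ln7_9_4_c10 ln7_9_4_c10_ok) (L (nat_lit 456) ln7_10_4_c10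 ln7_10_4_c10_ok))))) (M (nat_lit 455) (B (L (nat_lit 454) ln10_13_1_c10 ln10_13_1_c10_ok) (M (nat_lit 360) (B (L (nat_lit 328) ln8_10_5_c10 ln8_10_5_c10_ok) (L (nat_lit 487) ln7_15_6_c10 ln7_15_6_c10_ok))))))))))) (B (M (nat_lit 424) (B (M (nat_lit 395) (B (L (nat_lit 396) ln9_12_2 ln9_12_2_ok) (L (nat_lit 423) ln11_12_1 ln11_12_1_ok))) (B (M (nat_lit 423) (B (L (nat_lit 395) ln11_12_1 ln11_12_1_ok) (L (nat_lit 422) ln6_13_2_c10 ln6_13_2_c10_ok))) (B (M (nat_lit 423) (B (L (nat_lit 422) ln6_13_2_c10 ln6_13_2_c10_ok) (M (nat_lit 455) (B (L (nat_lit 454) ln10_13_1_c10 ln10_13_1_c10_ok) (M (nat_lit 360) (B (L (nat_lit 328) ln8_10_5_c10 ln8_10_5_c10_ok) (M (nat_lit 487) (B (L (nat_lit 456) ln8_11_5_c10 ln8_11_5_c10_ok) (L (nat_lit 519) ln7_16_6_c10 ln7_16_6_c10_ok))))))))) (M (nat_lit 360) (B (M (nat_lit 328) (B (L (nat_lit 296) ln8_9_4_c10 ln8_9_4_c10_ok) (L (nat_lit 457) ln8_10_4_c10 ln8_10_4_c10_ok)))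 (M (nat_lit 395) (B (L (nat_lit 359) ln11_12_3 ln11_12_3_ok) (L (nat_lit 396) ln9_12_2 ln9_12_2_ok))))))))) (B (M (nat_lit 391) (B (L (nat_lit 390) ln6_12_0_c10 ln6_12_0_c10_ok) (M (nat_lit 423) (B (L (nat_lit 422) ln10_12_1_c10 ln10_12_1_c10_ok) (M (nat_lit 359) (B (L (nat_lit 358) ln10_12_3_c10 ln10_12_3_c10_ok) (M (nat_lit 360) (B (L (nat_lit 395) ln11_12_3 ln11_12_3_ok) (M (nat_lit 328) (B (L (nat_lit 296) ln8_9_4_c10 ln8_9_4_c10_ok) (L (nat_lit 455) ln7_14_6_c10 ln7_14_6_c10_ok))))))))))) (M (nat_lit 391) (B (L (nat_lit 390) ln6_12_0_c10 ln6_12_0_c10_ok) (M (nat_lit 359) (B (L (nat_lit 358) ln10_12_3_c10 ln10_12_3_c10_ok) (M (nat_lit 360) (B (L (nat_lit 395) ln11_12_3 ln11_12_3_ok) (M (nat_lit 424) (B (M (nat_lit 328) (B (L (nat_lit 296) ln8_9_4_c10 ln8_9_4_c10_ok) (L (nat_lit 457) ln8_10_4_c10 ln8_10_4_c10_ok))) (M (nat_lit 327) (B (L (nat_lit 295) ln7_9_4_c10 ln7_9_4_c10_ok) (L (nat_lit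 456) ln8_14_7_c10 ln8_14_7_c10_ok))))))))))))))))))))))))))
noncomputable def c10_d219 : Cert := (B (M (nat_lit 425) (B (L (nat_lit 459) ln13_14_3 ln13_14_3_ok) (M (nat_lit 394) (B (M (nat_lit 395) (B (M (nat_lit 366) (B (L (nat_lit 363) ln14_11_1 ln14_11_1_ok) (L (nat_lit 396) ln10_12_2 ln10_12_2_ok))) (B (L (nat_lit 396) ln13_12_1 ln13_12_1_ok) (M (nat_lit 363) (B (L (nat_lit 366) ln14_11_1 ln14_11_1_ok) (M (nat_lit 393) (B (L (nat_lit 362) ln13_11_1 ln13_11_1_ok) (L (nat_lit 392) ln8_12_2 ln8_12_2_ok)))))))) (B (K (nat_lit 21584202758328614853000082511135567638394197424387600245097027100806378869644806958411638194155571972717031799206283385890719682040994725888) (nat_lit 372141426839350728788380703746250825379715029183097264430300447998201621868725430695506602410219579576008704727768128994804685998187872256) (nat_lit 372141426839350728788380703746250825379715029183097264430300447998201621868725430695506602410219579576008704727768128994804685998187872256)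 c10_s396) (B (K (nat_lit 21584202758328614853000082511135567638394197424387600245097027100806378869644806958411638194155571972717031799206283385890719682040994725888) (nat_lit 372141426839350728707685395206341657250492881642929901552014711724332070222899797528877986400254669851167227819440557659057908868083351552) (nat_lit 372141426839350728707685395206341657250492881642929901552014711724332070222899797528877986400254669851167227819440557659057908868083351552) c10_s397) (B (M (nat_lit 395) (B (L (nat_lit 396) ln13_12_1 ln13_12_1_ok) (M (nat_lit 424) (B (L (nat_lit 423) ln7_13_2 ln7_13_2_ok) (M (nat_lit 392) (B (M (nat_lit 393) (B (L (nat_lit 363) ln8_12_2 ln8_12_2_ok) (M (nat_lit 360) (B (L (nat_lit 359) ln11_12_3 ln11_12_3_ok) (M (nat_lit 328) (B (L (nat_lit 296) ln8_9_4_c10 ln8_9_4_c10_ok) (L (nat_lit 457) ln8_10_4_c10 ln8_10_4_c10_ok))))))) (B (M (nat_lit 360) (B (M (nat_lit 457) (B (L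 (nat_lit 328) ln8_10_4_c10 ln8_10_4_c10_ok) (M (nat_lit 489) (B (L (nat_lit 456) ln8_11_4_c10 ln8_11_4_c10_ok) (L (nat_lit 521) ln9_16_6 ln9_16_6_ok))))) (B (M (nat_lit 457) (B (L (nat_lit 328) ln8_10_4_c10 ln8_10_4_c10_ok) (M (nat_lit 489) (B (L (nat_lit 521) ln9_16_6 ln9_16_6_ok) (L (nat_lit 393) ln9_15_7 ln9_15_7_ok))))) (B (M (nat_lit 456) (B (M (nat_lit 359) (B (L (nat_lit 327) ln8_14_7_c10 ln8_14_7_c10_ok) (L (nat_lit 393) ln11_12_3 ln11_12_3_ok))) (M (nat_lit 488) (B (M (nat_lit 487) (B (L (nat_lit 519) ln8_12_5_c10 ln8_12_5_c10_ok) (L (nat_lit 455) ln8_11_5_c10 ln8_11_5_c10_ok))) (M (nat_lit 489) (B (L (nat_lit 521) ln8_12_4_c10 ln8_12_4_c10_ok) (L (nat_lit 457) ln8_11_4_c10 ln8_11_4_c10_ok))))))) (B (M (nat_lit 457) (B (L (nat_lit 328) ln8_10_4_c10 ln8_10_4_c10_ok) (M (nat_lit 489) (B (L (nat_lit 456) ln8_11_4_c10 ln8_11_4_c10_ok) (L (nat_lit 393) ln9_15_7 ln9_15_7_ok))))) (M (nat_lit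 456) (B (M (nat_lit 359) (B (L (nat_lit 327) ln8_14_7_c10 ln8_14_7_c10_ok) (L (nat_lit 393) ln11_12_3 ln11_12_3_ok))) (B (M (nat_lit 488) (B (M (nat_lit 487) (B (L (nat_lit 519) ln8_12_5_c10 ln8_12_5_c10_ok) (L (nat_lit 455) ln8_11_5_c10 ln8_11_5_c10_ok))) (M (nat_lit 393) (B (L (nat_lit 520) ln8_16_6_c10 ln8_16_6_c10_ok) (L (nat_lit 361) ln8_15_6_c10 ln8_15_6_c10_ok))))) (M (nat_lit 488) (B (M (nat_lit 487) (B (L (nat_lit 519) ln8_12_5_c10 ln8_12_5_c10_ok) (L (nat_lit 455) ln8_11_5_c10 ln8_11_5_c10_ok))) (M (nat_lit 359) (B (L (nat_lit 391) ln8_15_7_c10 ln8_15_7_c10_ok) (L (nat_lit 327) ln8_14_7_c10 ln8_14_7_c10_ok))))))))))))) c10_d217))))))) (B (M (nat_lit 395) (B (L (nat_lit 396) ln13_12_1 ln13_12_1_ok) (M (nat_lit 363) (B (L (nat_lit 366) ln14_11_1 ln14_11_1_ok) (M (nat_lit 362) (B (L (nat_lit 398) ln10_11_0 ln10_11_0_ok) (M (nat_lit 330) (B (L (nat_lit 329) ln13_11_3 ln13_11_3_ok) (L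 (nat_lit 457) ln10_10_5 ln10_10_5_ok))))))))) (M (nat_lit 395) (B (L (nat_lit 396) ln13_12_1 ln13_12_1_ok) (M (nat_lit 424) (B (L (nat_lit 423) ln7_13_2 ln7_13_2_ok) (M (nat_lit 457) (B (M (nat_lit 362) (B (L (nat_lit 330) ln10_10_5 ln10_10_5_ok) (M (nat_lit 361) (B (L (nat_lit 329) ln10_14_7 ln10_14_7_ok) (M (nat_lit 360) (B (L (nat_lit 359) ln7_11_0 ln7_11_0_ok) (M (nat_lit 328) (B (L (nat_lit 392) ln8_10_4_c10 ln8_10_4_c10_ok) (L (nat_lit 393) ln9_14_7_c10 ln9_14_7_c10_ok))))))))) (B (M (nat_lit 489) (B (L (nat_lit 362) ln10_11_5 ln10_11_5_ok) (L (nat_lit 521) ln9_16_6 ln9_16_6_ok))) (M (nat_lit 489) (B (M (nat_lit 392) (B (M (nat_lit 360) (B (L (nat_lit 456) ln8_11_4_c10 ln8_11_4_c10_ok) (L (nat_lit 393) ln9_15_7 ln9_15_7_ok))) (L (nat_lit 521) ln9_16_6 ln9_16_6_ok))) (B (L (nat_lit 521) ln9_16_6 ln9_16_6_ok) (M (nat_lit 393) (B (M (nat_lit 361) (B (M (nat_lit 360) (B (L (nat_lit 328)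 ln9_14_7_c10 ln9_14_7_c10_ok) (L (nat_lit 392) ln9_15_7 ln9_15_7_ok))) (M (nat_lit 456) (B (L (nat_lit 329) ln9_10_4_c10 ln9_10_4_c10_ok) (L (nat_lit 488) ln9_11_5_c10 ln9_11_5_c10_ok))))) (B (M (nat_lit 361) (B (M (nat_lit 360) (B (L (nat_lit 328) ln9_14_7_c10 ln9_14_7_c10_ok) (L (nat_lit 392) ln9_15_7 ln9_15_7_ok))) (B (M (nat_lit 392) (B (L (nat_lit 360) ln9_15_7 ln9_15_7_ok) (L (nat_lit 329) ln9_10_4_c10 ln9_10_4_c10_ok))) (L (nat_lit 329) ln9_10_4_c10 ln9_10_4_c10_ok)))) (B (M (nat_lit 392) (B (L (nat_lit 360) ln9_15_7 ln9_15_7_ok) (M (nat_lit 488) (B (L (nat_lit 520) ln9_12_5_c10 ln9_12_5_c10_ok) (M (nat_lit 456) (B (M (nat_lit 487) (B (L (nat_lit 519) ln8_12_5_c10 ln8_12_5_c10_ok) (L (nat_lit 486) ln6_15_2 ln6_15_2_ok))) (M (nat_lit 391) (B (L (nat_lit 359) ln8_15_7_c10 ln8_15_7_c10_ok) (L (nat_lit 390) ln6_12_0_c10 ln6_12_0_c10_ok))))))))) (M (nat_lit 361) (B (M (nat_lit 456) (B (L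 (nat_lit 329) ln9_10_4_c10 ln9_10_4_c10_ok) (L (nat_lit 488) ln9_11_5_c10 ln9_11_5_c10_ok))) (B (L (nat_lit 329) ln9_10_4_c10 ln9_10_4_c10_ok) (M (nat_lit 488) (B (L (nat_lit 456) ln9_11_5_c10 ln9_11_5_c10_ok) (L (nat_lit 520) ln9_12_5_c10 ln9_12_5_c10_ok)))))))))))))))))))))))))))) (M (nat_lit 425) (B (L (nat_lit 459) ln13_14_3 ln13_14_3_ok) (M (nat_lit 394) (B (M (nat_lit 395) (B (M (nat_lit 366) (B (L (nat_lit 363) ln14_11_1 ln14_11_1_ok) (L (nat_lit 396) ln10_12_2 ln10_12_2_ok))) (B (L (nat_lit 396) ln13_12_1 ln13_12_1_ok) (M (nat_lit 363) (B (L (nat_lit 366) ln14_11_1 ln14_11_1_ok) (M (nat_lit 393) (B (L (nat_lit 362) ln13_11_1 ln13_11_1_ok) (L (nat_lit 392) ln8_12_2 ln8_12_2_ok)))))))) c10_d218)))))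
noncomputable def c10_d220 : Cert := (B (M (nat_lit 490) (B (M (nat_lit 491) (B (L (nat_lit 459) ln14_14_1 ln14_14_1_ok) (M (nat_lit 523) (B (L (nat_lit 394) ln10_12_4 ln10_12_4_ok) (M (nat_lit 555) (B (L (nat_lit 587) ln11_18_7 ln11_18_7_ok) (L (nat_lit 522) ln10_13_4 ln10_13_4_ok))))))) (B (M (nat_lit 459) (B (L (nat_lit 489) ln13_14_1 ln13_14_1_ok) (L (nat_lit 491) ln14_14_1 ln14_14_1_ok))) (B (M (nat_lit 489) (B (L (nat_lit 459) ln13_14_1 ln13_14_1_ok) (M (nat_lit 521) (B (L (nat_lit 394) ln10_12_5 ln10_12_5_ok) (M (nat_lit 553) (B (L (nat_lit 522) ln10_13_5 ln10_13_5_ok) (L (nat_lit 457) ln9_17_6 ln9_17_6_ok))))))) (M (nat_lit 394) (B (M (nat_lit 523) (B (L (nat_lit 491) ln10_12_4 ln10_12_4_ok) (M (nat_lit 522) (B (L (nat_lit 555) ln10_13_4 ln10_13_4_ok) (M (nat_lit 521) (B (L (nat_lit 553) ln10_13_5 ln10_13_5_ok) (L (nat_lit 489) ln10_12_5 ln10_12_5_ok))))))) (M (nat_lit 363) (B (L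 (nat_lit 395) ln10_15_6 ln10_15_6_ok) (M (nat_lit 362) (B (L (nat_lit 331) ln10_14_6 ln10_14_6_ok) (M (nat_lit 361) (B (L (nat_lit 393) ln13_11_1 ln13_11_1_ok) (L (nat_lit 329) ln10_14_7 ln10_14_7_ok))))))))))))) (B (K (nat_lit 21584202758241968925018459392428634248426352321592664525955131179819344765362620990096764774341559628860189228745737756931989833359265103872) (nat_lit 29484081464512684799573980084062624309218159599162811395544749156846627954778205410069901125018213870327407204077181802224189716460378527300026881464915770235991097344) (nat_lit 29484081464512684799573980084062624309218159599162811395544749156846627954778205410069901125018213870327407204077181802224189716460378527300026881464915770235991097344) c10_s394) (B (M (nat_lit 490) (B (M (nat_lit 394) (B (M (nat_lit 521) (B (L (nat_lit 489) ln10_12_5 ln10_12_5_ok) (M (nat_lit 522) (B (L (nat_lit 553) ln10_13_5 ln10_13_5_ok)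 (M (nat_lit 523) (B (L (nat_lit 555) ln10_13_4 ln10_13_4_ok) (L (nat_lit 491) ln10_12_4 ln10_12_4_ok))))))) (M (nat_lit 361) (B (L (nat_lit 393) ln10_15_7 ln10_15_7_ok) (M (nat_lit 362) (B (L (nat_lit 329) ln10_14_7 ln10_14_7_ok) (M (nat_lit 363) (B (L (nat_lit 395) ln10_15_6 ln10_15_6_ok) (L (nat_lit 331) ln10_14_6 ln10_14_6_ok))))))))) (B (M (nat_lit 394) (B (M (nat_lit 522) (B (M (nat_lit 523) (B (L (nat_lit 555) ln10_13_4 ln10_13_4_ok) (L (nat_lit 491) ln10_12_4 ln10_12_4_ok))) (M (nat_lit 393) (B (L (nat_lit 425) ln10_16_7 ln10_16_7_ok) (L (nat_lit 361) ln10_15_7 ln10_15_7_ok))))) (M (nat_lit 362) (B (M (nat_lit 489) (B (L (nat_lit 521) ln10_12_5 ln10_12_5_ok) (L (nat_lit 457) ln10_11_5 ln10_11_5_ok))) (M (nat_lit 363) (B (L (nat_lit 395) ln10_15_6 ln10_15_6_ok) (L (nat_lit 331) ln10_14_6 ln10_14_6_ok))))))) (B (M (nat_lit 522) (B (M (nat_lit 555) (B (L (nat_lit 523) ln10_13_4 ln10_13_4_ok)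 (M (nat_lit 554) (B (L (nat_lit 587) ln10_14_4 ln10_14_4_ok) (M (nat_lit 553) (B (L (nat_lit 521) ln10_13_5 ln10_13_5_ok) (L (nat_lit 585) ln10_14_5 ln10_14_5_ok))))))) (B (M (nat_lit 554) (B (M (nat_lit 425) (B (L (nat_lit 393) ln10_16_7 ln10_16_7_ok) (L (nat_lit 457) ln10_17_7 ln10_17_7_ok))) (M (nat_lit 553) (B (L (nat_lit 521) ln10_13_5 ln10_13_5_ok) (L (nat_lit 585) ln10_14_5 ln10_14_5_ok))))) (B (M (nat_lit 554) (B (M (nat_lit 425) (B (L (nat_lit 393) ln10_16_7 ln10_16_7_ok) (L (nat_lit 457) ln10_17_7 ln10_17_7_ok))) (M (nat_lit 555) (B (L (nat_lit 523) ln10_13_4 ln10_13_4_ok) (L (nat_lit 587) ln10_14_4 ln10_14_4_ok))))) (M (nat_lit 394) (B (M (nat_lit 393) (B (L (nat_lit 361) ln10_15_7 ln10_15_7_ok) (L (nat_lit 425) ln10_16_7 ln10_16_7_ok))) (M (nat_lit 523) (B (L (nat_lit 491) ln10_12_4 ln10_12_4_ok) (L (nat_lit 555) ln10_13_4 ln10_13_4_ok))))))))) (B (K (nat_lit 3196670537107778803176724488326661689515198746515282780072441252611511840370784760365814439633780552809222406328509610590676484027581037512906244096)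 (nat_lit 29484081464512684796377309567050482556926001124009593939903551372401439989610801295957028536544824613267974807568126751894739156723616501205455021961445701946947141632) (nat_lit 29484081464512684796377309567050482556926001124009593939903551372401439989610801295957028536544824613267974807568126751894739156723616501205455021961445701946947141632) c10_s395) (B (M (nat_lit 394) (B (M (nat_lit 362) (B (M (nat_lit 363) (B (L (nat_lit 331) ln10_14_6 ln10_14_6_ok) (L (nat_lit 395) ln10_15_6 ln10_15_6_ok))) (M (nat_lit 361) (B (L (nat_lit 329) ln10_14_7 ln10_14_7_ok) (L (nat_lit 393) ln10_15_7 ln10_15_7_ok))))) (B (M (nat_lit 522) (B (M (nat_lit 393) (B (L (nat_lit 361) ln10_15_7 ln10_15_7_ok) (L (nat_lit 425) ln10_16_7 ln10_16_7_ok))) (M (nat_lit 523) (B (L (nat_lit 491) ln10_12_4 ln10_12_4_ok) (L (nat_lit 555) ln10_13_4 ln10_13_4_ok))))) (B (M (nat_lit 425) (B (M (nat_lit 523) (B (L (nat_lit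 491) ln10_12_4 ln10_12_4_ok) (M (nat_lit 522) (B (L (nat_lit 393) ln10_16_7 ln10_16_7_ok) (L (nat_lit 555) ln10_13_4 ln10_13_4_ok))))) (M (nat_lit 362) (B (M (nat_lit 363) (B (L (nat_lit 331) ln10_14_6 ln10_14_6_ok) (L (nat_lit 395) ln10_15_6 ln10_15_6_ok))) (M (nat_lit 457) (B (L (nat_lit 330) ln10_10_5 ln10_10_5_ok) (L (nat_lit 489) ln10_11_5 ln10_11_5_ok))))))) (M (nat_lit 362) (B (M (nat_lit 363) (B (L (nat_lit 331) ln10_14_6 ln10_14_6_ok) (L (nat_lit 395) ln10_15_6 ln10_15_6_ok))) (M (nat_lit 330) (B (M (nat_lit 329) (B (L (nat_lit 297) ln10_13_7_c10 ln10_13_7_c10_ok) (L (nat_lit 361) ln10_14_7 ln10_14_7_ok))) (M (nat_lit 457) (B (L (nat_lit 425) ln10_10_5 ln10_10_5_ok) (L (nat_lit 489) ln10_11_5 ln10_11_5_ok))))))))))) (B (M (nat_lit 522) (B (M (nat_lit 554) (B (M (nat_lit 425) (B (L (nat_lit 393) ln10_16_7 ln10_16_7_ok) (L (nat_lit 457) ln10_17_7 ln10_17_7_ok))) (M (nat_lit 553) (B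 (L (nat_lit 521) ln10_13_5 ln10_13_5_ok) (L (nat_lit 585) ln10_14_5 ln10_14_5_ok))))) (B (M (nat_lit 554) (B (M (nat_lit 553) (B (L (nat_lit 521) ln10_13_5 ln10_13_5_ok) (L (nat_lit 585) ln10_14_5 ln10_14_5_ok))) (M (nat_lit 555) (B (L (nat_lit 523) ln10_13_4 ln10_13_4_ok) (L (nat_lit 587) ln10_14_4 ln10_14_4_ok))))) (B (M (nat_lit 554) (B (M (nat_lit 425) (B (L (nat_lit 393) ln10_16_7 ln10_16_7_ok) (L (nat_lit 457) ln10_17_7 ln10_17_7_ok))) (M (nat_lit 555) (B (L (nat_lit 523) ln10_13_4 ln10_13_4_ok) (L (nat_lit 587) ln10_14_4 ln10_14_4_ok))))) (M (nat_lit 394) (B (M (nat_lit 521) (B (L (nat_lit 489) ln10_12_5 ln10_12_5_ok) (L (nat_lit 553) ln10_13_5 ln10_13_5_ok))) (M (nat_lit 523) (B (L (nat_lit 491) ln10_12_4 ln10_12_4_ok) (L (nat_lit 555) ln10_13_4 ln10_13_4_ok))))))))) c10_d216))))))) c10_d219)))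
noncomputable def c10_d221 : Cert := (B (M (nat_lit 363) (B (M (nat_lit 398) (B (L (nat_lit 362) ln10_11_0 ln10_11_0_ok) (M (nat_lit 399) (B (L (nat_lit 400) ln16_12_3 ln16_12_3_ok) (L (nat_lit 366) ln11_11_0 ln11_11_0_ok))))) (B (M (nat_lit 398) (B (L (nat_lit 362) ln10_11_0 ln10_11_0_ok) (M (nat_lit 399) (B (L (nat_lit 366) ln11_11_0 ln11_11_0_ok) (L (nat_lit 396) ln15_12_3 ln15_12_3_ok))))) (B (M (nat_lit 362) (B (L (nat_lit 398) ln10_11_0 ln10_11_0_ok) (M (nat_lit 329) (B (L (nat_lit 330) ln13_11_3 ln13_11_3_ok) (M (nat_lit 393) (B (L (nat_lit 394) ln13_11_1 ln13_11_1_ok) (M (nat_lit 361) (B (L (nat_lit 328) ln12_11_3 ln12_11_3_ok) (L (nat_lit 392) ln12_11_1 ln12_11_1_ok))))))))) (B (M (nat_lit 362) (B (M (nat_lit 361) (B (L (nat_lit 396) ln9_11_0 ln9_11_0_ok) (M (nat_lit 393) (B (L (nat_lit 392) ln12_11_1 ln12_11_1_ok) (L (nat_lit 394) ln13_11_1 ln13_11_1_ok))))) (B (M (nat_lit 366)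 (B (M (nat_lit 330) (B (L (nat_lit 329) ln13_11_3 ln13_11_3_ok) (L (nat_lit 331) ln14_11_3 ln14_11_3_ok))) (M (nat_lit 394) (B (L (nat_lit 393) ln13_11_1 ln13_11_1_ok) (L (nat_lit 395) ln14_11_1 ln14_11_1_ok))))) (M (nat_lit 361) (B (L (nat_lit 396) ln9_11_0 ln9_11_0_ok) (M (nat_lit 329) (B (L (nat_lit 328) ln12_11_3 ln12_11_3_ok) (L (nat_lit 330) ln13_11_3 ln13_11_3_ok)))))))) (M (nat_lit 366) (B (M (nat_lit 367) (B (M (nat_lit 396) (B (L (nat_lit 368) ln16_11_1 ln16_11_1_ok) (L (nat_lit 395) ln15_11_1 ln15_11_1_ok))) (M (nat_lit 399) (B (L (nat_lit 400) ln12_11_0 ln12_11_0_ok) (L (nat_lit 398) ln11_11_0 ln11_11_0_ok))))) (B (M (nat_lit 367) (B (M (nat_lit 399) (B (L (nat_lit 398) ln11_11_0 ln11_11_0_ok) (L (nat_lit 400) ln12_11_0 ln12_11_0_ok))) (B (M (nat_lit 368) (B (M (nat_lit 400) (B (L (nat_lit 399) ln12_11_0 ln12_11_0_ok) (L (nat_lit 401) ln13_11_0 ln13_11_0_ok))) (M (nat_lit 336)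 (B (L (nat_lit 335) ln12_11_2 ln12_11_2_ok) (L (nat_lit 337) ln13_11_2 ln13_11_2_ok))))) (B (M (nat_lit 368) (B (M (nat_lit 336) (B (L (nat_lit 335) ln12_11_2 ln12_11_2_ok) (L (nat_lit 337) ln13_11_2 ln13_11_2_ok))) (M (nat_lit 401) (B (L (nat_lit 400) ln13_11_0 ln13_11_0_ok) (M (nat_lit 369) (B (L (nat_lit 398) ln17_11_1 ln17_11_1_ok) (L (nat_lit 402) ln14_11_0 ln14_11_0_ok))))))) (M (nat_lit 368) (B (M (nat_lit 398) (B (L (nat_lit 399) ln11_11_0 ln11_11_0_ok) (L (nat_lit 369) ln17_11_1 ln17_11_1_ok))) (M (nat_lit 336) (B (L (nat_lit 335) ln12_11_2 ln12_11_2_ok) (L (nat_lit 337) ln13_11_2 ln13_11_2_ok))))))))) (B (M (nat_lit 367) (B (M (nat_lit 396) (B (L (nat_lit 368) ln16_11_1 ln16_11_1_ok) (L (nat_lit 395) ln15_11_1 ln15_11_1_ok))) (B (M (nat_lit 395) (B (L (nat_lit 396) ln15_11_1 ln15_11_1_ok) (L (nat_lit 394) ln14_11_1 ln14_11_1_ok))) (M (nat_lit 368) (B (M (nat_lit 336) (B (L (nat_lit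 337) ln13_11_2 ln13_11_2_ok) (L (nat_lit 335) ln12_11_2 ln12_11_2_ok))) (M (nat_lit 400) (B (L (nat_lit 401) ln13_11_0 ln13_11_0_ok) (L (nat_lit 399) ln12_11_0 ln12_11_0_ok)))))))) (B (M (nat_lit 367) (B (M (nat_lit 395) (B (L (nat_lit 394) ln14_11_1 ln14_11_1_ok) (L (nat_lit 396) ln15_11_1 ln15_11_1_ok))) (B (M (nat_lit 396) (B (L (nat_lit 395) ln15_11_1 ln15_11_1_ok) (L (nat_lit 368) ln16_11_1 ln16_11_1_ok))) (B (M (nat_lit 368) (B (L (nat_lit 396) ln16_11_1 ln16_11_1_ok) (M (nat_lit 336) (B (L (nat_lit 335) ln12_11_2 ln12_11_2_ok) (L (nat_lit 337) ln13_11_2 ln13_11_2_ok))))) (M (nat_lit 368) (B (M (nat_lit 336) (B (L (nat_lit 335) ln12_11_2 ln12_11_2_ok) (L (nat_lit 337) ln13_11_2 ln13_11_2_ok))) (M (nat_lit 401) (B (L (nat_lit 400) ln13_11_0 ln13_11_0_ok) (M (nat_lit 369) (B (L (nat_lit 398) ln17_11_1 ln17_11_1_ok) (L (nat_lit 402) ln14_11_0 ln14_11_0_ok))))))))))) (B (M (nat_lit 367)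 (B (M (nat_lit 395) (B (L (nat_lit 394) ln14_11_1 ln14_11_1_ok) (L (nat_lit 396) ln15_11_1 ln15_11_1_ok))) (B (M (nat_lit 396) (B (L (nat_lit 395) ln15_11_1 ln15_11_1_ok) (L (nat_lit 368) ln16_11_1 ln16_11_1_ok))) (B (M (nat_lit 398) (B (L (nat_lit 399) ln11_11_0 ln11_11_0_ok) (M (nat_lit 368) (B (L (nat_lit 396) ln16_11_1 ln16_11_1_ok) (L (nat_lit 369) ln17_11_1 ln17_11_1_ok))))) (M (nat_lit 368) (B (M (nat_lit 398) (B (L (nat_lit 369) ln17_11_1 ln17_11_1_ok) (L (nat_lit 399) ln11_11_0 ln11_11_0_ok))) (M (nat_lit 336) (B (L (nat_lit 335) ln12_11_2 ln12_11_2_ok) (L (nat_lit 337) ln13_11_2 ln13_11_2_ok))))))))) (M (nat_lit 395) (B (L (nat_lit 394) ln14_11_1 ln14_11_1_ok) (M (nat_lit 398) (B (L (nat_lit 399) ln11_11_0 ln11_11_0_ok) (M (nat_lit 331) (B (L (nat_lit 330) ln14_11_3 ln14_11_3_ok) (M (nat_lit 427) (B (L (nat_lit 396) ln14_12_1 ln14_12_1_ok) (L (nat_lit 458) ln11_10_5 ln11_10_5_ok))))))))))))))))))))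 (B (M (nat_lit 458) (B (M (nat_lit 459) (B (L (nat_lit 425) ln13_14_3 ln13_14_3_ok) (M (nat_lit 490) (B (L (nat_lit 489) ln13_14_1 ln13_14_1_ok) (L (nat_lit 491) ln14_14_1 ln14_14_1_ok))))) c10_d220)) (M (nat_lit 427) (B (L (nat_lit 459) ln14_14_3 ln14_14_3_ok) (M (nat_lit 363) (B (M (nat_lit 398) (B (L (nat_lit 362) ln10_11_0 ln10_11_0_ok) (M (nat_lit 399) (B (L (nat_lit 400) ln16_12_3 ln16_12_3_ok) (L (nat_lit 366) ln11_11_0 ln11_11_0_ok))))) (B (M (nat_lit 398) (B (L (nat_lit 362) ln10_11_0 ln10_11_0_ok) (M (nat_lit 399) (B (L (nat_lit 366) ln11_11_0 ln11_11_0_ok) (L (nat_lit 396) ln15_12_3 ln15_12_3_ok))))) (B (M (nat_lit 362) (B (L (nat_lit 398) ln10_11_0 ln10_11_0_ok) (M (nat_lit 329) (B (L (nat_lit 330) ln13_11_3 ln13_11_3_ok) (M (nat_lit 393) (B (L (nat_lit 394) ln13_11_1 ln13_11_1_ok) (M (nat_lit 361) (B (L (nat_lit 328) ln12_11_3 ln12_11_3_ok) (L (nat_lit 392) ln12_11_1 ln12_11_1_ok)))))))))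 (B (M (nat_lit 362) (B (M (nat_lit 361) (B (L (nat_lit 396) ln9_11_0 ln9_11_0_ok) (M (nat_lit 393) (B (L (nat_lit 392) ln12_11_1 ln12_11_1_ok) (L (nat_lit 394) ln13_11_1 ln13_11_1_ok))))) (B (M (nat_lit 366) (B (M (nat_lit 330) (B (L (nat_lit 329) ln13_11_3 ln13_11_3_ok) (L (nat_lit 331) ln14_11_3 ln14_11_3_ok))) (M (nat_lit 394) (B (L (nat_lit 393) ln13_11_1 ln13_11_1_ok) (L (nat_lit 395) ln14_11_1 ln14_11_1_ok))))) (M (nat_lit 361) (B (L (nat_lit 396) ln9_11_0 ln9_11_0_ok) (M (nat_lit 329) (B (L (nat_lit 328) ln12_11_3 ln12_11_3_ok) (L (nat_lit 330) ln13_11_3 ln13_11_3_ok)))))))) (M (nat_lit 366) (B (M (nat_lit 367) (B (M (nat_lit 396) (B (L (nat_lit 368) ln16_11_1 ln16_11_1_ok) (L (nat_lit 395) ln15_11_1 ln15_11_1_ok))) (M (nat_lit 399) (B (L (nat_lit 400) ln12_11_0 ln12_11_0_ok) (L (nat_lit 398) ln11_11_0 ln11_11_0_ok))))) (B (M (nat_lit 367) (B (M (nat_lit 399) (B (L (nat_lit 398) ln11_11_0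 ln11_11_0_ok) (L (nat_lit 400) ln12_11_0 ln12_11_0_ok))) (B (M (nat_lit 368) (B (M (nat_lit 400) (B (L (nat_lit 399) ln12_11_0 ln12_11_0_ok) (L (nat_lit 401) ln13_11_0 ln13_11_0_ok))) (M (nat_lit 336) (B (L (nat_lit 335) ln12_11_2 ln12_11_2_ok) (L (nat_lit 337) ln13_11_2 ln13_11_2_ok))))) (B (M (nat_lit 368) (B (M (nat_lit 336) (B (L (nat_lit 335) ln12_11_2 ln12_11_2_ok) (L (nat_lit 337) ln13_11_2 ln13_11_2_ok))) (M (nat_lit 401) (B (L (nat_lit 400) ln13_11_0 ln13_11_0_ok) (M (nat_lit 369) (B (L (nat_lit 398) ln17_11_1 ln17_11_1_ok) (L (nat_lit 402) ln14_11_0 ln14_11_0_ok))))))) (M (nat_lit 368) (B (M (nat_lit 398) (B (L (nat_lit 399) ln11_11_0 ln11_11_0_ok) (L (nat_lit 369) ln17_11_1 ln17_11_1_ok))) (M (nat_lit 336) (B (L (nat_lit 335) ln12_11_2 ln12_11_2_ok) (L (nat_lit 337) ln13_11_2 ln13_11_2_ok))))))))) (B (M (nat_lit 367) (B (M (nat_lit 396) (B (L (nat_lit 368) ln16_11_1 ln16_11_1_ok)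 (L (nat_lit 395) ln15_11_1 ln15_11_1_ok))) (B (M (nat_lit 395) (B (L (nat_lit 396) ln15_11_1 ln15_11_1_ok) (L (nat_lit 394) ln14_11_1 ln14_11_1_ok))) (M (nat_lit 368) (B (M (nat_lit 336) (B (L (nat_lit 337) ln13_11_2 ln13_11_2_ok) (L (nat_lit 335) ln12_11_2 ln12_11_2_ok))) (M (nat_lit 400) (B (L (nat_lit 401) ln13_11_0 ln13_11_0_ok) (L (nat_lit 399) ln12_11_0 ln12_11_0_ok)))))))) (B (M (nat_lit 367) (B (M (nat_lit 395) (B (L (nat_lit 394) ln14_11_1 ln14_11_1_ok) (L (nat_lit 396) ln15_11_1 ln15_11_1_ok))) (B (M (nat_lit 396) (B (L (nat_lit 395) ln15_11_1 ln15_11_1_ok) (L (nat_lit 368) ln16_11_1 ln16_11_1_ok))) (B (M (nat_lit 368) (B (L (nat_lit 396) ln16_11_1 ln16_11_1_ok) (M (nat_lit 336) (B (L (nat_lit 335) ln12_11_2 ln12_11_2_ok) (L (nat_lit 337) ln13_11_2 ln13_11_2_ok))))) (M (nat_lit 368) (B (M (nat_lit 336) (B (L (nat_lit 335) ln12_11_2 ln12_11_2_ok) (L (nat_lit 337) ln13_11_2 ln13_11_2_ok)))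 (M (nat_lit 401) (B (L (nat_lit 400) ln13_11_0 ln13_11_0_ok) (M (nat_lit 369) (B (L (nat_lit 398) ln17_11_1 ln17_11_1_ok) (L (nat_lit 402) ln14_11_0 ln14_11_0_ok))))))))))) (B (M (nat_lit 367) (B (M (nat_lit 395) (B (L (nat_lit 394) ln14_11_1 ln14_11_1_ok) (L (nat_lit 396) ln15_11_1 ln15_11_1_ok))) (B (M (nat_lit 396) (B (L (nat_lit 395) ln15_11_1 ln15_11_1_ok) (L (nat_lit 368) ln16_11_1 ln16_11_1_ok))) (B (M (nat_lit 398) (B (L (nat_lit 399) ln11_11_0 ln11_11_0_ok) (M (nat_lit 368) (B (L (nat_lit 396) ln16_11_1 ln16_11_1_ok) (L (nat_lit 369) ln17_11_1 ln17_11_1_ok))))) (M (nat_lit 368) (B (M (nat_lit 398) (B (L (nat_lit 369) ln17_11_1 ln17_11_1_ok) (L (nat_lit 399) ln11_11_0 ln11_11_0_ok))) (M (nat_lit 336) (B (L (nat_lit 335) ln12_11_2 ln12_11_2_ok) (L (nat_lit 337) ln13_11_2 ln13_11_2_ok))))))))) (M (nat_lit 398) (B (L (nat_lit 399) ln11_11_0 ln11_11_0_ok) (M (nat_lit 395) (B (L (nat_lit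 394) ln14_11_1 ln14_11_1_ok) (L (nat_lit 396) ln14_12_1 ln14_12_1_ok))))))))))))))))))))
theorem c10_s398 : Sem (nat_lit 20839919904389975613213400884427666718739280836784073515015896679910215160546087684872893536970667337344459682989834240042962678052252811264) (nat_lit 11679847984920016893118418033113350603047518001295300354751513206982691696311485251654830260451222250980110557965739253068925966453517875403890805305617259993457999651449427210501996454555762556928) (nat_lit 11679847984920016893118418033113350603047518001295300354751513206982691696311485251654830260451222250980110557965739253068925966453517875403890805305617259993457999651449427210501996454555762556928) :=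
  sem_of_chk (M (nat_lit 426) (B (M (nat_lit 459) (B (L (nat_lit 427) ln14_14_3 ln14_14_3_ok) (M (nat_lit 458) (B (L (nat_lit 425) ln13_14_3 ln13_14_3_ok) (M (nat_lit 490) (B (L (nat_lit 489) ln13_14_1 ln13_14_1_ok) (L (nat_lit 491) ln14_14_1 ln14_14_1_ok))))))) (B (M (nat_lit 458) (B (M (nat_lit 459) (B (L (nat_lit 425) ln13_14_3 ln13_14_3_ok) (L (nat_lit 427) ln14_14_3 ln14_14_3_ok))) (B (M (nat_lit 490) (B (M (nat_lit 459) (B (L (nat_lit 427) ln14_14_3 ln14_14_3_ok) (L (nat_lit 489) ln13_14_1 ln13_14_1_ok))) (B (M (nat_lit 489) (B (L (nat_lit 459) ln13_14_1 ln13_14_1_ok) (M (nat_lit 521) (B (L (nat_lit 394) ln10_12_5 ln10_12_5_ok) (M (nat_lit 553) (B (L (nat_lit 522) ln10_13_5 ln10_13_5_ok) (L (nat_lit 457) ln9_17_6 ln9_17_6_ok))))))) (B (M (nat_lit 394) (B (M (nat_lit 362) (B (M (nat_lit 361) (B (L (nat_lit 329) ln10_14_7 ln10_14_7_ok) (L (nat_lit 393) ln10_15_7 ln10_15_7_ok))) (M (nat_lit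 489) (B (L (nat_lit 457) ln10_11_5 ln10_11_5_ok) (L (nat_lit 521) ln10_12_5 ln10_12_5_ok))))) (B (M (nat_lit 522) (B (M (nat_lit 395) (B (L (nat_lit 363) ln10_15_6 ln10_15_6_ok) (L (nat_lit 427) ln10_16_6 ln10_16_6_ok))) (M (nat_lit 521) (B (L (nat_lit 489) ln10_12_5 ln10_12_5_ok) (L (nat_lit 553) ln10_13_5 ln10_13_5_ok))))) (M (nat_lit 362) (B (M (nat_lit 363) (B (L (nat_lit 331) ln10_14_6 ln10_14_6_ok) (L (nat_lit 395) ln10_15_6 ln10_15_6_ok))) (M (nat_lit 361) (B (L (nat_lit 329) ln10_14_7 ln10_14_7_ok) (L (nat_lit 393) ln10_15_7 ln10_15_7_ok)))))))) (M (nat_lit 427) (B (L (nat_lit 459) ln14_14_3 ln14_14_3_ok) (M (nat_lit 395) (B (L (nat_lit 522) ln10_16_6 ln10_16_6_ok) (M (nat_lit 363) (B (L (nat_lit 331) ln11_10_5 ln11_10_5_ok) (L (nat_lit 394) ln10_15_6 ln10_15_6_ok))))))))))) c10_d215))) c10_d221))) (nat_lit 20839919904389975613213400884427666718739280836784073515015896679910215160546087684872893536970667337344459682989834240042962678052252811264)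 (nat_lit 11679847984920016893118418033113350603047518001295300354751513206982691696311485251654830260451222250980110557965739253068925966453517875403890805305617259993457999651449427210501996454555762556928) (nat_lit 11679847984920016893118418033113350603047518001295300354751513206982691696311485251654830260451222250980110557965739253068925966453517875403890805305617259993457999651449427210501996454555762556928) (by decide +kernel)
noncomputable def c10_d222 : Cert := (B (M (nat_lit 496) (B (M (nat_lit 528) (B (M (nat_lit 401) (B (L (nat_lit 369) ln16_15_6_c10 ln16_15_6_c10_ok) (L (nat_lit 433) ln16_16_6_c10 ln16_16_6_c10_ok))) (M (nat_lit 527) (B (L (nat_lit 495) ln16_12_5_c10 ln16_12_5_c10_ok) (L (nat_lit 559) ln16_13_5_c10 ln16_13_5_c10_ok))))) (B (M (nat_lit 529) (B (L (nat_lit 497) ln16_12_4 ln16_12_4_ok) (M (nat_lit 528) (B (L (nat_lit 561) ln16_13_4_c10 ln16_13_4_c10_ok) (M (nat_lit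 527) (B (L (nat_lit 495) ln16_12_5_c10 ln16_12_5_c10_ok) (L (nat_lit 559) ln16_13_5_c10 ln16_13_5_c10_ok))))))) (B (M (nat_lit 528) (B (M (nat_lit 401) (B (L (nat_lit 369) ln16_15_6_c10 ln16_15_6_c10_ok) (L (nat_lit 433) ln16_16_6_c10 ln16_16_6_c10_ok))) (M (nat_lit 529) (B (L (nat_lit 497) ln16_12_4 ln16_12_4_ok) (L (nat_lit 561) ln16_13_4_c10 ln16_13_4_c10_ok))))) (M (nat_lit 368) (B (M (nat_lit 369) (B (L (nat_lit 337) ln16_14_6_c10 ln16_14_6_c10_ok) (L (nat_lit 401) ln16_15_6_c10 ln16_15_6_c10_ok))) (M (nat_lit 497) (B (L (nat_lit 465) ln16_11_4 ln16_11_4_ok) (L (nat_lit 529) ln16_12_4 ln16_12_4_ok))))))))) (B (M (nat_lit 496) (B (M (nat_lit 528) (B (M (nat_lit 399) (B (L (nat_lit 367) ln16_15_7 ln16_15_7_ok) (L (nat_lit 431) ln16_16_7 ln16_16_7_ok))) (M (nat_lit 527) (B (L (nat_lit 495) ln16_12_5_c10 ln16_12_5_c10_ok) (L (nat_lit 559) ln16_13_5_c10 ln16_13_5_c10_ok))))) (B (M (nat_lit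 528) (B (M (nat_lit 401) (B (L (nat_lit 369) ln16_15_6_c10 ln16_15_6_c10_ok) (L (nat_lit 433) ln16_16_6_c10 ln16_16_6_c10_ok))) (M (nat_lit 527) (B (L (nat_lit 495) ln16_12_5_c10 ln16_12_5_c10_ok) (L (nat_lit 559) ln16_13_5_c10 ln16_13_5_c10_ok))))) (B (M (nat_lit 528) (B (M (nat_lit 401) (B (L (nat_lit 369) ln16_15_6_c10 ln16_15_6_c10_ok) (L (nat_lit 433) ln16_16_6_c10 ln16_16_6_c10_ok))) (M (nat_lit 399) (B (L (nat_lit 367) ln16_15_7 ln16_15_7_ok) (L (nat_lit 431) ln16_16_7 ln16_16_7_ok))))) (M (nat_lit 369) (B (L (nat_lit 401) ln16_15_6_c10 ln16_15_6_c10_ok) (M (nat_lit 368) (B (L (nat_lit 337) ln16_14_6_c10 ln16_14_6_c10_ok) (M (nat_lit 367) (B (L (nat_lit 335) ln16_14_7 ln16_14_7_ok) (L (nat_lit 399) ln16_15_7 ln16_15_7_ok))))))))))) (B (M (nat_lit 368) (B (M (nat_lit 337) (B (L (nat_lit 369) ln16_14_6_c10 ln16_14_6_c10_ok) (M (nat_lit 336) (B (L (nat_lit 305) ln16_13_6_c10 ln16_13_6_c10_ok)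 (M (nat_lit 335) (B (L (nat_lit 303) ln16_13_7 ln16_13_7_ok) (L (nat_lit 367) ln16_14_7 ln16_14_7_ok))))))) (B (M (nat_lit 336) (B (M (nat_lit 337) (B (L (nat_lit 305) ln16_13_6_c10 ln16_13_6_c10_ok) (L (nat_lit 369) ln16_14_6_c10 ln16_14_6_c10_ok))) (M (nat_lit 465) (B (L (nat_lit 433) ln16_10_4_c10 ln16_10_4_c10_ok) (L (nat_lit 497) ln16_11_4 ln16_11_4_ok))))) (B (M (nat_lit 369) (B (L (nat_lit 337) ln16_14_6_c10 ln16_14_6_c10_ok) (M (nat_lit 370) (B (M (nat_lit 371) (B (L (nat_lit 399) ln19_11_1_c10 ln19_11_1_c10_ok) (M (nat_lit 372) (B (L (nat_lit 401) ln20_11_1_c10 ln20_11_1_c10_ok) (M (nat_lit 340) (B (L (nat_lit 339) ln16_11_2_c10 ln16_11_2_c10_ok) (L (nat_lit 341) ln17_11_2_c10 ln17_11_2_c10_ok))))))) (B (M (nat_lit 371) (B (M (nat_lit 367) (B (L (nat_lit 335) ln16_14_7 ln16_14_7_ok) (M (nat_lit 339) (B (L (nat_lit 338) ln15_11_2_c10 ln15_11_2_c10_ok) (L (nat_lit 340) ln16_11_2_c10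 ln16_11_2_c10_ok))))) (B (M (nat_lit 372) (B (L (nat_lit 401) ln20_11_1_c10 ln20_11_1_c10_ok) (M (nat_lit 340) (B (L (nat_lit 339) ln16_11_2_c10 ln16_11_2_c10_ok) (L (nat_lit 341) ln17_11_2_c10 ln17_11_2_c10_ok))))) (M (nat_lit 367) (B (L (nat_lit 335) ln16_14_7 ln16_14_7_ok) (M (nat_lit 403) (B (L (nat_lit 402) ln15_11_0_c10 ln15_11_0_c10_ok) (L (nat_lit 404) ln16_11_0_c10 ln16_11_0_c10_ok)))))))) (B (M (nat_lit 371) (B (L (nat_lit 399) ln19_11_1_c10 ln19_11_1_c10_ok) (M (nat_lit 367) (B (L (nat_lit 335) ln16_14_7 ln16_14_7_ok) (M (nat_lit 403) (B (L (nat_lit 402) ln15_11_0_c10 ln15_11_0_c10_ok) (L (nat_lit 404) ln16_11_0_c10 ln16_11_0_c10_ok))))))) (M (nat_lit 367) (B (L (nat_lit 335) ln16_14_7 ln16_14_7_ok) (M (nat_lit 401) (B (M (nat_lit 402) (B (L (nat_lit 366) ln13_11_0 ln13_11_0_ok) (L (nat_lit 403) ln15_11_0_c10 ln15_11_0_c10_ok))) (M (nat_lit 465) (B (L (nat_lit 497) ln16_11_4 ln16_11_4_ok)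 (M (nat_lit 338) (B (L (nat_lit 339) ln15_11_2_c10 ln15_11_2_c10_ok) (L (nat_lit 433) ln17_14_6_c10 ln17_14_6_c10_ok))))))))))))))) (M (nat_lit 336) (B (M (nat_lit 335) (B (L (nat_lit 303) ln16_13_7 ln16_13_7_ok) (L (nat_lit 367) ln16_14_7 ln16_14_7_ok))) (M (nat_lit 465) (B (L (nat_lit 433) ln16_10_4_c10 ln16_10_4_c10_ok) (L (nat_lit 497) ln16_11_4 ln16_11_4_ok))))))))) (M (nat_lit 496) (B (M (nat_lit 529) (B (L (nat_lit 497) ln16_12_4 ln16_12_4_ok) (M (nat_lit 528) (B (L (nat_lit 561) ln16_13_4_c10 ln16_13_4_c10_ok) (M (nat_lit 527) (B (L (nat_lit 559) ln16_13_5_c10 ln16_13_5_c10_ok) (L (nat_lit 495) ln16_12_5_c10 ln16_12_5_c10_ok))))))) (B (M (nat_lit 528) (B (M (nat_lit 527) (B (L (nat_lit 559) ln16_13_5_c10 ln16_13_5_c10_ok) (L (nat_lit 495) ln16_12_5_c10 ln16_12_5_c10_ok))) (M (nat_lit 401) (B (L (nat_lit 433) ln16_16_6_c10 ln16_16_6_c10_ok) (L (nat_lit 369) ln16_15_6_c10 ln16_15_6_c10_ok)))))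 (B (M (nat_lit 528) (B (M (nat_lit 529) (B (L (nat_lit 561) ln16_13_4_c10 ln16_13_4_c10_ok) (L (nat_lit 497) ln16_12_4 ln16_12_4_ok))) (M (nat_lit 399) (B (L (nat_lit 431) ln16_16_7 ln16_16_7_ok) (L (nat_lit 367) ln16_15_7 ln16_15_7_ok))))) (M (nat_lit 401) (B (L (nat_lit 369) ln16_15_6_c10 ln16_15_6_c10_ok) (M (nat_lit 399) (B (L (nat_lit 367) ln16_15_7 ln16_15_7_ok) (M (nat_lit 402) (B (M (nat_lit 403) (B (L (nat_lit 431) ln19_12_1_c10 ln19_12_1_c10_ok) (M (nat_lit 371) (B (L (nat_lit 370) ln15_12_2 ln15_12_2_ok) (L (nat_lit 372) ln16_12_2_c10 ln16_12_2_c10_ok))))) (B (M (nat_lit 403) (B (L (nat_lit 431) ln19_12_1_c10 ln19_12_1_c10_ok) (M (nat_lit 435) (B (L (nat_lit 436) ln16_12_0_c10 ln16_12_0_c10_ok) (L (nat_lit 434) ln15_12_0 ln15_12_0_ok))))) (M (nat_lit 434) (B (L (nat_lit 435) ln15_12_0 ln15_12_0_ok) (M (nat_lit 497) (B (L (nat_lit 529) ln16_12_4 ln16_12_4_ok) (M (nat_lit 370) (B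 (L (nat_lit 371) ln15_12_2 ln15_12_2_ok) (M (nat_lit 465) (B (L (nat_lit 466) ln18_11_5_c10 ln18_11_5_c10_ok) (L (nat_lit 433) ln17_15_6_c10 ln17_15_6_c10_ok)))))))))))))))))))))))
noncomputable def c10_d223 : Cert := (B (M (nat_lit 432) (B (M (nat_lit 336) (B (M (nat_lit 303) (B (L (nat_lit 335) ln16_13_7 ln16_13_7_ok) (L (nat_lit 304) ln16_12_7_c10 ln16_12_7_c10_ok))) (B (M (nat_lit 304) (B (M (nat_lit 433) (B (L (nat_lit 465) ln16_10_4_c10 ln16_10_4_c10_ok) (L (nat_lit 401) ln16_9_4_c10 ln16_9_4_c10_ok))) (M (nat_lit 305) (B (L (nat_lit 337) ln16_13_6_c10 ln16_13_6_c10_ok) (L (nat_lit 273) ln16_12_6_c10 ln16_12_6_c10_ok))))) (M (nat_lit 465) (B (L (nat_lit 497) ln16_11_4 ln16_11_4_ok) (L (nat_lit 433) ln16_10_4_c10 ln16_10_4_c10_ok)))))) (B (M (nat_lit 336) (B (M (nat_lit 304) (B (M (nat_lit 433) (B (L (nat_lit 465) ln16_10_4_c10 ln16_10_4_c10_ok) (L (nat_lit 401) ln16_9_4_c10 ln16_9_4_c10_ok)))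 (L (nat_lit 303) ln16_12_7_c10 ln16_12_7_c10_ok))) (B (M (nat_lit 305) (B (L (nat_lit 337) ln16_13_6_c10 ln16_13_6_c10_ok) (M (nat_lit 304) (B (L (nat_lit 273) ln16_12_6_c10 ln16_12_6_c10_ok) (L (nat_lit 303) ln16_12_7_c10 ln16_12_7_c10_ok))))) (B (M (nat_lit 304) (B (M (nat_lit 433) (B (L (nat_lit 465) ln16_10_4_c10 ln16_10_4_c10_ok) (L (nat_lit 401) ln16_9_4_c10 ln16_9_4_c10_ok))) (M (nat_lit 305) (B (L (nat_lit 337) ln16_13_6_c10 ln16_13_6_c10_ok) (L (nat_lit 273) ln16_12_6_c10 ln16_12_6_c10_ok))))) (M (nat_lit 465) (B (L (nat_lit 497) ln16_11_4 ln16_11_4_ok) (L (nat_lit 433) ln16_10_4_c10 ln16_10_4_c10_ok))))))) (B (M (nat_lit 336) (B (M (nat_lit 335) (B (L (nat_lit 303) ln16_13_7 ln16_13_7_ok) (L (nat_lit 367) ln16_14_7 ln16_14_7_ok))) (M (nat_lit 337) (B (L (nat_lit 305) ln16_13_6_c10 ln16_13_6_c10_ok) (L (nat_lit 369) ln16_14_6_c10 ln16_14_6_c10_ok))))) (B (M (nat_lit 336) (B (M (nat_lit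 335) (B (L (nat_lit 303) ln16_13_7 ln16_13_7_ok) (L (nat_lit 367) ln16_14_7 ln16_14_7_ok))) (M (nat_lit 465) (B (L (nat_lit 433) ln16_10_4_c10 ln16_10_4_c10_ok) (L (nat_lit 497) ln16_11_4 ln16_11_4_ok))))) (M (nat_lit 496) (B (M (nat_lit 497) (B (L (nat_lit 529) ln16_12_4 ln16_12_4_ok) (L (nat_lit 465) ln16_11_4 ln16_11_4_ok))) (M (nat_lit 369) (B (L (nat_lit 401) ln16_15_6_c10 ln16_15_6_c10_ok) (L (nat_lit 337) ln16_14_6_c10 ln16_14_6_c10_ok)))))))))) (B (M (nat_lit 432) (B (K (nat_lit 65496891137242492882924670530523092899889659719034115040552306983775077385863640346494511909243996426096978592818631084812651640954453753856) (nat_lit 9434906065129282733058453800259844819368333816116976418586110606049817137071914623092037757288685885421102465539512658527206815424917958576833256281935980695147239178240) (nat_lit 9434906065129282733058453800259844819368333816116976418586110606049817137071914623092037757288685885421102465539512658527206815424917958576833256281935980695147239178240)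 c10_s403) (B (M (nat_lit 496) (B (M (nat_lit 528) (B (M (nat_lit 529) (B (L (nat_lit 561) ln16_13_4_c10 ln16_13_4_c10_ok) (L (nat_lit 497) ln16_12_4 ln16_12_4_ok))) (M (nat_lit 401) (B (L (nat_lit 433) ln16_16_6_c10 ln16_16_6_c10_ok) (L (nat_lit 369) ln16_15_6_c10 ln16_15_6_c10_ok))))) (B (M (nat_lit 497) (B (L (nat_lit 529) ln16_12_4 ln16_12_4_ok) (L (nat_lit 465) ln16_11_4 ln16_11_4_ok))) (M (nat_lit 369) (B (L (nat_lit 401) ln16_15_6_c10 ln16_15_6_c10_ok) (L (nat_lit 337) ln16_14_6_c10 ln16_14_6_c10_ok)))))) (B (M (nat_lit 336) (B (M (nat_lit 465) (B (L (nat_lit 497) ln16_11_4 ln16_11_4_ok) (L (nat_lit 433) ln16_10_4_c10 ln16_10_4_c10_ok))) (M (nat_lit 337) (B (L (nat_lit 369) ln16_14_6_c10 ln16_14_6_c10_ok) (L (nat_lit 305) ln16_13_6_c10 ln16_13_6_c10_ok))))) (B (M (nat_lit 496) (B (M (nat_lit 369) (B (L (nat_lit 337) ln16_14_6_c10 ln16_14_6_c10_ok) (L (nat_lit 401) ln16_15_6_c10 ln16_15_6_c10_ok)))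 (M (nat_lit 497) (B (L (nat_lit 465) ln16_11_4 ln16_11_4_ok) (L (nat_lit 529) ln16_12_4 ln16_12_4_ok))))) (B (M (nat_lit 496) (B (M (nat_lit 497) (B (L (nat_lit 529) ln16_12_4 ln16_12_4_ok) (L (nat_lit 465) ln16_11_4 ln16_11_4_ok))) (M (nat_lit 528) (B (M (nat_lit 527) (B (L (nat_lit 559) ln16_13_5_c10 ln16_13_5_c10_ok) (L (nat_lit 495) ln16_12_5_c10 ln16_12_5_c10_ok))) (M (nat_lit 401) (B (L (nat_lit 433) ln16_16_6_c10 ln16_16_6_c10_ok) (L (nat_lit 369) ln16_15_6_c10 ln16_15_6_c10_ok))))))) (B (M (nat_lit 496) (B (M (nat_lit 497) (B (L (nat_lit 529) ln16_12_4 ln16_12_4_ok) (L (nat_lit 465) ln16_11_4 ln16_11_4_ok))) (B (M (nat_lit 465) (B (L (nat_lit 497) ln16_11_4 ln16_11_4_ok) (M (nat_lit 433) (B (L (nat_lit 336) ln16_10_4_c10 ln16_10_4_c10_ok) (M (nat_lit 528) (B (L (nat_lit 560) ln16_17_6_c10 ln16_17_6_c10_ok) (L (nat_lit 401) ln16_16_6_c10 ln16_16_6_c10_ok))))))) (B (M (nat_lit 528)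 (B (M (nat_lit 527) (B (L (nat_lit 559) ln16_13_5_c10 ln16_13_5_c10_ok) (L (nat_lit 495) ln16_12_5_c10 ln16_12_5_c10_ok))) (M (nat_lit 433) (B (L (nat_lit 401) ln16_16_6_c10 ln16_16_6_c10_ok) (M (nat_lit 465) (B (L (nat_lit 560) ln16_17_6_c10 ln16_17_6_c10_ok) (L (nat_lit 336) ln16_10_4_c10 ln16_10_4_c10_ok))))))) (M (nat_lit 528) (B (M (nat_lit 529) (B (L (nat_lit 561) ln16_13_4_c10 ln16_13_4_c10_ok) (L (nat_lit 497) ln16_12_4 ln16_12_4_ok))) (M (nat_lit 527) (B (L (nat_lit 559) ln16_13_5_c10 ln16_13_5_c10_ok) (L (nat_lit 495) ln16_12_5_c10 ln16_12_5_c10_ok))))))))) (M (nat_lit 336) (B (M (nat_lit 337) (B (L (nat_lit 369) ln16_14_6_c10 ln16_14_6_c10_ok) (L (nat_lit 305) ln16_13_6_c10 ln16_13_6_c10_ok))) (B (M (nat_lit 304) (B (M (nat_lit 433) (B (L (nat_lit 465) ln16_10_4_c10 ln16_10_4_c10_ok) (L (nat_lit 401) ln16_9_4_c10 ln16_9_4_c10_ok))) (M (nat_lit 305) (B (L (nat_lit 337) ln16_13_6_c10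 ln16_13_6_c10_ok) (L (nat_lit 273) ln16_12_6_c10 ln16_12_6_c10_ok))))) (M (nat_lit 433) (B (L (nat_lit 465) ln16_10_4_c10 ln16_10_4_c10_ok) (M (nat_lit 401) (B (L (nat_lit 304) ln16_9_4_c10 ln16_9_4_c10_ok) (M (nat_lit 496) (B (L (nat_lit 528) ln16_16_6_c10 ln16_16_6_c10_ok) (L (nat_lit 369) ln16_15_6_c10 ln16_15_6_c10_ok))))))))))))))))) (B (M (nat_lit 432) (B (M (nat_lit 336) (B (M (nat_lit 465) (B (L (nat_lit 497) ln16_11_4 ln16_11_4_ok) (L (nat_lit 433) ln16_10_4_c10 ln16_10_4_c10_ok))) (M (nat_lit 335) (B (L (nat_lit 367) ln16_14_7 ln16_14_7_ok) (L (nat_lit 303) ln16_13_7 ln16_13_7_ok))))) (B (K (nat_lit 65496891137242492882924670530523092899889659719034115040552306983775077385863640346494511909243996426096978592818631084812651640954453753856) (nat_lit 9434906065129282733058453800259844819368333816116976418586110606049817137071914623092037757288685885421102465539512658527206815424917958576833256281935980695147239178240)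 (nat_lit 9434906065129282733058453800259844819368333816116976418586110606049817137071914623092037757288685885421102465539512658527206815424917958576833256281935980695147239178240) c10_s403) (M (nat_lit 337) (B (L (nat_lit 369) ln16_14_6_c10 ln16_14_6_c10_ok) (M (nat_lit 336) (B (L (nat_lit 305) ln16_13_6_c10 ln16_13_6_c10_ok) (M (nat_lit 335) (B (L (nat_lit 303) ln16_13_7 ln16_13_7_ok) (L (nat_lit 367) ln13_11_2 ln13_11_2_ok)))))))))) (B (M (nat_lit 367) (B (L (nat_lit 401) ln13_11_0 ln13_11_0_ok) (M (nat_lit 335) (B (L (nat_lit 432) ln16_14_7 ln16_14_7_ok) (L (nat_lit 303) ln15_8_4 ln15_8_4_ok))))) (B (M (nat_lit 367) (B (L (nat_lit 401) ln13_11_0 ln13_11_0_ok) (M (nat_lit 336) (B (L (nat_lit 337) ln13_11_2 ln13_11_2_ok) (M (nat_lit 303) (B (L (nat_lit 304) ln16_12_7_c10 ln16_12_7_c10_ok) (L (nat_lit 335) ln15_8_4 ln15_8_4_ok))))))) (M (nat_lit 367) (B (M (nat_lit 432) (B (L (nat_lit 335)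 ln16_14_7 ln16_14_7_ok) (M (nat_lit 465) (B (L (nat_lit 497) ln16_11_4 ln16_11_4_ok) (M (nat_lit 336) (B (L (nat_lit 433) ln16_10_4_c10 ln16_10_4_c10_ok) (L (nat_lit 337) ln13_11_2 ln13_11_2_ok))))))) (B (M (nat_lit 337) (B (L (nat_lit 336) ln13_11_2 ln13_11_2_ok) (M (nat_lit 369) (B (L (nat_lit 338) ln14_11_2 ln14_11_2_ok) (L (nat_lit 432) ln16_14_6_c10 ln16_14_6_c10_ok))))) (B (M (nat_lit 303) (B (L (nat_lit 335) ln15_8_4 ln15_8_4_ok) (M (nat_lit 336) (B (L (nat_lit 304) ln16_12_7_c10 ln16_12_7_c10_ok) (L (nat_lit 337) ln13_11_2 ln13_11_2_ok))))) (M (nat_lit 335) (B (L (nat_lit 432) ln16_14_7 ln16_14_7_ok) (L (nat_lit 303) ln15_8_4 ln15_8_4_ok))))))))))))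
noncomputable def c10_d224 : Cert := (B (M (nat_lit 368) (B (M (nat_lit 335) (B (L (nat_lit 367) ln16_14_7 ln16_14_7_ok) (M (nat_lit 336) (B (L (nat_lit 303) ln16_13_7 ln16_13_7_ok) (M (nat_lit 337) (B (L (nat_lit 369) ln16_14_6_c10 ln16_14_6_c10_ok) (L (nat_lit 305) ln16_13_6_c10 ln16_13_6_c10_ok))))))) (B (M (nat_lit 336) (B (M (nat_lit 465) (B (L (nat_lit 497) ln16_11_4 ln16_11_4_ok) (L (nat_lit 433) ln16_10_4_c10 ln16_10_4_c10_ok))) (M (nat_lit 337) (B (L (nat_lit 369) ln16_14_6_c10 ln16_14_6_c10_ok) (L (nat_lit 305) ln16_13_6_c10 ln16_13_6_c10_ok))))) (B (M (nat_lit 336) (B (M (nat_lit 465) (B (L (nat_lit 497) ln16_11_4 ln16_11_4_ok) (L (nat_lit 433) ln16_10_4_c10 ln16_10_4_c10_ok))) (M (nat_lit 335) (B (L (nat_lit 367) ln16_14_7 ln16_14_7_ok) (L (nat_lit 303) ln16_13_7 ln16_13_7_ok))))) (M (nat_lit 496) (B (M (nat_lit 497) (B (L (nat_lit 529) ln16_12_4 ln16_12_4_ok) (L (nat_lit 465)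 ln16_11_4 ln16_11_4_ok))) (L (nat_lit 367) ln16_15_7 ln16_15_7_ok))))))) (B (M (nat_lit 496) (B (M (nat_lit 528) (B (M (nat_lit 401) (B (L (nat_lit 369) ln16_15_6_c10 ln16_15_6_c10_ok) (L (nat_lit 433) ln16_16_6_c10 ln16_16_6_c10_ok))) (M (nat_lit 527) (B (L (nat_lit 495) ln16_12_5_c10 ln16_12_5_c10_ok) (L (nat_lit 559) ln16_13_5_c10 ln16_13_5_c10_ok))))) (B (M (nat_lit 529) (B (L (nat_lit 497) ln16_12_4 ln16_12_4_ok) (M (nat_lit 528) (B (L (nat_lit 561) ln16_13_4_c10 ln16_13_4_c10_ok) (M (nat_lit 527) (B (L (nat_lit 495) ln16_12_5_c10 ln16_12_5_c10_ok) (L (nat_lit 559) ln16_13_5_c10 ln16_13_5_c10_ok))))))) (B (M (nat_lit 528) (B (M (nat_lit 401) (B (L (nat_lit 369) ln16_15_6_c10 ln16_15_6_c10_ok) (L (nat_lit 433) ln16_16_6_c10 ln16_16_6_c10_ok))) (M (nat_lit 529) (B (L (nat_lit 497) ln16_12_4 ln16_12_4_ok) (L (nat_lit 561) ln16_13_4_c10 ln16_13_4_c10_ok))))) (M (nat_lit 368) (B (M (nat_lit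 369) (B (L (nat_lit 337) ln16_14_6_c10 ln16_14_6_c10_ok) (L (nat_lit 401) ln16_15_6_c10 ln16_15_6_c10_ok))) (M (nat_lit 497) (B (L (nat_lit 465) ln16_11_4 ln16_11_4_ok) (L (nat_lit 529) ln16_12_4 ln16_12_4_ok))))))))) (B (M (nat_lit 496) (B (M (nat_lit 528) (B (L (nat_lit 367) ln16_15_7 ln16_15_7_ok) (M (nat_lit 527) (B (L (nat_lit 495) ln16_12_5_c10 ln16_12_5_c10_ok) (L (nat_lit 559) ln16_13_5_c10 ln16_13_5_c10_ok))))) (B (M (nat_lit 528) (B (M (nat_lit 401) (B (L (nat_lit 369) ln16_15_6_c10 ln16_15_6_c10_ok) (L (nat_lit 433) ln16_16_6_c10 ln16_16_6_c10_ok))) (M (nat_lit 527) (B (L (nat_lit 495) ln16_12_5_c10 ln16_12_5_c10_ok) (L (nat_lit 559) ln16_13_5_c10 ln16_13_5_c10_ok))))) (B (M (nat_lit 528) (B (M (nat_lit 401) (B (L (nat_lit 369) ln16_15_6_c10 ln16_15_6_c10_ok) (L (nat_lit 433) ln16_16_6_c10 ln16_16_6_c10_ok))) (L (nat_lit 367) ln16_15_7 ln16_15_7_ok))) (M (nat_lit 369) (B (L (nat_lit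 401) ln16_15_6_c10 ln16_15_6_c10_ok) (M (nat_lit 368) (B (L (nat_lit 337) ln16_14_6_c10 ln16_14_6_c10_ok) (L (nat_lit 367) ln16_15_7 ln16_15_7_ok))))))))) (B (M (nat_lit 496) (B (M (nat_lit 529) (B (L (nat_lit 497) ln16_12_4 ln16_12_4_ok) (M (nat_lit 528) (B (L (nat_lit 561) ln16_13_4_c10 ln16_13_4_c10_ok) (M (nat_lit 527) (B (L (nat_lit 559) ln16_13_5_c10 ln16_13_5_c10_ok) (L (nat_lit 495) ln16_12_5_c10 ln16_12_5_c10_ok))))))) (B (M (nat_lit 528) (B (M (nat_lit 527) (B (L (nat_lit 559) ln16_13_5_c10 ln16_13_5_c10_ok) (L (nat_lit 495) ln16_12_5_c10 ln16_12_5_c10_ok))) (M (nat_lit 401) (B (L (nat_lit 433) ln16_16_6_c10 ln16_16_6_c10_ok) (L (nat_lit 369) ln16_15_6_c10 ln16_15_6_c10_ok))))) (B (M (nat_lit 528) (B (M (nat_lit 529) (B (L (nat_lit 561) ln16_13_4_c10 ln16_13_4_c10_ok) (L (nat_lit 497) ln16_12_4 ln16_12_4_ok))) (L (nat_lit 431) ln16_16_7 ln16_16_7_ok))) (M (nat_lit 401) (B (L (nat_lit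 369) ln16_15_6_c10 ln16_15_6_c10_ok) (L (nat_lit 367) ln16_15_7 ln16_15_7_ok))))))) (M (nat_lit 368) (B (M (nat_lit 336) (B (M (nat_lit 465) (B (L (nat_lit 497) ln16_11_4 ln16_11_4_ok) (L (nat_lit 433) ln16_10_4_c10 ln16_10_4_c10_ok))) (M (nat_lit 335) (B (L (nat_lit 367) ln16_14_7 ln16_14_7_ok) (L (nat_lit 303) ln16_13_7 ln16_13_7_ok))))) (B (M (nat_lit 336) (B (M (nat_lit 337) (B (L (nat_lit 369) ln16_14_6_c10 ln16_14_6_c10_ok) (L (nat_lit 305) ln16_13_6_c10 ln16_13_6_c10_ok))) (M (nat_lit 335) (B (L (nat_lit 367) ln16_14_7 ln16_14_7_ok) (L (nat_lit 303) ln16_13_7 ln16_13_7_ok))))) (B (M (nat_lit 369) (B (L (nat_lit 337) ln16_14_6_c10 ln16_14_6_c10_ok) (M (nat_lit 370) (B (L (nat_lit 371) ln19_11_1_c10 ln19_11_1_c10_ok) (M (nat_lit 402) (B (M (nat_lit 367) (B (L (nat_lit 403) ln15_11_0_c10 ln15_11_0_c10_ok) (L (nat_lit 335) ln16_14_7 ln16_14_7_ok))) (B (M (nat_lit 465) (B (L (nat_lit 497)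 ln16_11_4 ln16_11_4_ok) (M (nat_lit 338) (B (M (nat_lit 367) (B (L (nat_lit 339) ln15_11_2_c10 ln15_11_2_c10_ok) (L (nat_lit 335) ln16_14_7 ln16_14_7_ok))) (M (nat_lit 433) (B (L (nat_lit 434) ln18_10_5_c10 ln18_10_5_c10_ok) (L (nat_lit 401) ln17_14_6_c10 ln17_14_6_c10_ok))))))) (M (nat_lit 433) (B (M (nat_lit 465) (B (L (nat_lit 497) ln16_11_4 ln16_11_4_ok) (M (nat_lit 434) (B (L (nat_lit 435) ln19_13_3_c10 ln19_13_3_c10_ok) (L (nat_lit 338) ln18_10_5_c10 ln18_10_5_c10_ok))))) (B (M (nat_lit 465) (B (L (nat_lit 497) ln16_11_4 ln16_11_4_ok) (M (nat_lit 338) (B (L (nat_lit 434) ln18_10_5_c10 ln18_10_5_c10_ok) (L (nat_lit 401) ln17_14_6_c10 ln17_14_6_c10_ok))))) (B (M (nat_lit 401) (B (M (nat_lit 403) (B (L (nat_lit 404) ln20_12_1_c10 ln20_12_1_c10_ok) (L (nat_lit 431) ln19_12_1_c10 ln19_12_1_c10_ok))) (M (nat_lit 465) (B (L (nat_lit 497) ln16_11_4 ln16_11_4_ok) (L (nat_lit 338) ln17_14_6_c10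 ln17_14_6_c10_ok))))) (M (nat_lit 403) (B (M (nat_lit 404) (B (L (nat_lit 405) ln21_12_3_c10 ln21_12_3_c10_ok) (L (nat_lit 401) ln20_12_1_c10 ln20_12_1_c10_ok))) (B (M (nat_lit 401) (B (L (nat_lit 404) ln20_12_1_c10 ln20_12_1_c10_ok) (L (nat_lit 431) ln19_12_1_c10 ln19_12_1_c10_ok))) (B (M (nat_lit 431) (B (L (nat_lit 434) ln15_13_2_c10 ln15_13_2_c10_ok) (L (nat_lit 401) ln19_12_1_c10 ln19_12_1_c10_ok))) (M (nat_lit 434) (B (L (nat_lit 435) ln19_13_3_c10 ln19_13_3_c10_ok) (L (nat_lit 431) ln15_13_2_c10 ln15_13_2_c10_ok)))))))))))))))))) (M (nat_lit 465) (B (L (nat_lit 497) ln16_11_4 ln16_11_4_ok) (M (nat_lit 336) (B (L (nat_lit 433) ln16_10_4_c10 ln16_10_4_c10_ok) (M (nat_lit 337) (B (L (nat_lit 369) ln16_14_6_c10 ln16_14_6_c10_ok) (L (nat_lit 305) ln16_13_6_c10 ln16_13_6_c10_ok)))))))))))))))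
noncomputable def c10_d225 : Cert := (B (M (nat_lit 462) (B (L (nat_lit 494) ln13_11_4 ln13_11_4_ok) (M (nat_lit 464) (B (L (nat_lit 463) ln16_14_3 ln16_14_3_ok) (M (nat_lit 271) (B (L (nat_lit 272) ln16_8_1_c10 ln16_8_1_c10_ok) (M (nat_lit 299) (B (L (nat_lit 298) ln10_9_2 ln10_9_2_ok) (M (nat_lit 427) (B (L (nat_lit 426) ln10_13_0 ln10_13_0_ok) (M (nat_lit 432) (B (M (nat_lit 496) (B (M (nat_lit 369) (B (L (nat_lit 401) ln16_15_6_c10 ln16_15_6_c10_ok) (M (nat_lit 368) (B (L (nat_lit 337) ln16_14_6_c10 ln16_14_6_c10_ok) (M (nat_lit 367) (B (L (nat_lit 335) ln16_14_7 ln16_14_7_ok) (L (nat_lit 399) ln16_15_7 ln16_15_7_ok))))))) (M (nat_lit 529) (B (L (nat_lit 497) ln16_12_4 ln16_12_4_ok) (M (nat_lit 528) (B (L (nat_lit 561) ln16_13_4_c10 ln16_13_4_c10_ok) (M (nat_lit 527) (B (L (nat_lit 495) ln16_12_5_c10 ln16_12_5_c10_ok) (L (nat_lit 559) ln16_13_5_c10 ln16_13_5_c10_ok))))))))) (B (M (nat_lit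 496) (B (M (nat_lit 368) (B (M (nat_lit 367) (B (L (nat_lit 335) ln16_14_7 ln16_14_7_ok) (L (nat_lit 399) ln16_15_7 ln16_15_7_ok))) (M (nat_lit 497) (B (L (nat_lit 465) ln16_11_4 ln16_11_4_ok) (L (nat_lit 529) ln16_12_4 ln16_12_4_ok))))) (M (nat_lit 528) (B (M (nat_lit 401) (B (L (nat_lit 369) ln16_15_6_c10 ln16_15_6_c10_ok) (L (nat_lit 433) ln16_16_6_c10 ln16_16_6_c10_ok))) (M (nat_lit 527) (B (L (nat_lit 495) ln16_12_5_c10 ln16_12_5_c10_ok) (L (nat_lit 559) ln16_13_5_c10 ln16_13_5_c10_ok))))))) (B (M (nat_lit 496) (B (M (nat_lit 528) (B (M (nat_lit 399) (B (L (nat_lit 367) ln16_15_7 ln16_15_7_ok) (L (nat_lit 431) ln16_16_7 ln16_16_7_ok))) (M (nat_lit 527) (B (L (nat_lit 495) ln16_12_5_c10 ln16_12_5_c10_ok) (L (nat_lit 559) ln16_13_5_c10 ln16_13_5_c10_ok))))) (B (M (nat_lit 528) (B (M (nat_lit 401) (B (L (nat_lit 369) ln16_15_6_c10 ln16_15_6_c10_ok) (L (nat_lit 433) ln16_16_6_c10 ln16_16_6_c10_ok)))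 (M (nat_lit 527) (B (L (nat_lit 495) ln16_12_5_c10 ln16_12_5_c10_ok) (L (nat_lit 559) ln16_13_5_c10 ln16_13_5_c10_ok))))) (B (M (nat_lit 528) (B (M (nat_lit 401) (B (L (nat_lit 369) ln16_15_6_c10 ln16_15_6_c10_ok) (L (nat_lit 433) ln16_16_6_c10 ln16_16_6_c10_ok))) (M (nat_lit 399) (B (L (nat_lit 367) ln16_15_7 ln16_15_7_ok) (L (nat_lit 431) ln16_16_7 ln16_16_7_ok))))) (M (nat_lit 368) (B (M (nat_lit 369) (B (L (nat_lit 337) ln16_14_6_c10 ln16_14_6_c10_ok) (L (nat_lit 401) ln16_15_6_c10 ln16_15_6_c10_ok))) (M (nat_lit 497) (B (L (nat_lit 465) ln16_11_4 ln16_11_4_ok) (L (nat_lit 529) ln16_12_4 ln16_12_4_ok))))))))) (B (M (nat_lit 496) (B (M (nat_lit 529) (B (L (nat_lit 497) ln16_12_4 ln16_12_4_ok) (M (nat_lit 528) (B (L (nat_lit 561) ln16_13_4_c10 ln16_13_4_c10_ok) (M (nat_lit 527) (B (L (nat_lit 495) ln16_12_5_c10 ln16_12_5_c10_ok) (L (nat_lit 559) ln16_13_5_c10 ln16_13_5_c10_ok))))))) (B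 (M (nat_lit 528) (B (M (nat_lit 399) (B (L (nat_lit 367) ln16_15_7 ln16_15_7_ok) (L (nat_lit 431) ln16_16_7 ln16_16_7_ok))) (M (nat_lit 527) (B (L (nat_lit 495) ln16_12_5_c10 ln16_12_5_c10_ok) (L (nat_lit 559) ln16_13_5_c10 ln16_13_5_c10_ok))))) (B (M (nat_lit 528) (B (M (nat_lit 399) (B (L (nat_lit 367) ln16_15_7 ln16_15_7_ok) (L (nat_lit 431) ln16_16_7 ln16_16_7_ok))) (M (nat_lit 529) (B (L (nat_lit 497) ln16_12_4 ln16_12_4_ok) (L (nat_lit 561) ln16_13_4_c10 ln16_13_4_c10_ok))))) (M (nat_lit 368) (B (M (nat_lit 367) (B (L (nat_lit 335) ln16_14_7 ln16_14_7_ok) (L (nat_lit 399) ln16_15_7 ln16_15_7_ok))) (M (nat_lit 497) (B (L (nat_lit 465) ln16_11_4 ln16_11_4_ok) (L (nat_lit 529) ln16_12_4 ln16_12_4_ok))))))))) (B (M (nat_lit 368) (B (M (nat_lit 335) (B (L (nat_lit 367) ln16_14_7 ln16_14_7_ok) (M (nat_lit 336) (B (L (nat_lit 303) ln16_13_7 ln16_13_7_ok) (M (nat_lit 337) (B (L (nat_lit 369)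 ln16_14_6_c10 ln16_14_6_c10_ok) (L (nat_lit 305) ln16_13_6_c10 ln16_13_6_c10_ok))))))) (B (M (nat_lit 336) (B (M (nat_lit 465) (B (L (nat_lit 497) ln16_11_4 ln16_11_4_ok) (L (nat_lit 433) ln16_10_4_c10 ln16_10_4_c10_ok))) (M (nat_lit 337) (B (L (nat_lit 369) ln16_14_6_c10 ln16_14_6_c10_ok) (L (nat_lit 305) ln16_13_6_c10 ln16_13_6_c10_ok))))) (B (M (nat_lit 336) (B (M (nat_lit 465) (B (L (nat_lit 497) ln16_11_4 ln16_11_4_ok) (L (nat_lit 433) ln16_10_4_c10 ln16_10_4_c10_ok))) (M (nat_lit 335) (B (L (nat_lit 367) ln16_14_7 ln16_14_7_ok) (L (nat_lit 303) ln16_13_7 ln16_13_7_ok))))) (M (nat_lit 496) (B (M (nat_lit 497) (B (L (nat_lit 529) ln16_12_4 ln16_12_4_ok) (L (nat_lit 465) ln16_11_4 ln16_11_4_ok))) (M (nat_lit 367) (B (L (nat_lit 399) ln16_15_7 ln16_15_7_ok) (L (nat_lit 335) ln16_14_7 ln16_14_7_ok))))))))) c10_d222)))))))))))))))) (B (M (nat_lit 462) (B (L (nat_lit 494) ln13_11_4 ln13_11_4_ok)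 (M (nat_lit 427) (B (L (nat_lit 426) ln10_13_0 ln10_13_0_ok) (M (nat_lit 271) (B (L (nat_lit 272) ln16_8_1_c10 ln16_8_1_c10_ok) (M (nat_lit 464) (B (L (nat_lit 463) ln16_14_3 ln16_14_3_ok) (M (nat_lit 299) (B (L (nat_lit 298) ln10_9_2 ln10_9_2_ok) (M (nat_lit 366) (B (L (nat_lit 398) ln13_8_4 ln13_8_4_ok) (M (nat_lit 368) c10_d223))))))))))))) (M (nat_lit 462) (B (L (nat_lit 494) ln13_11_4 ln13_11_4_ok) (M (nat_lit 427) (B (L (nat_lit 426) ln10_13_0 ln10_13_0_ok) (M (nat_lit 464) (B (L (nat_lit 463) ln16_14_3 ln16_14_3_ok) (M (nat_lit 399) (B (L (nat_lit 398) ln16_12_1 ln16_12_1_ok) (M (nat_lit 271) (B (L (nat_lit 272) ln16_8_1_c10 ln16_8_1_c10_ok) (M (nat_lit 299) (B (L (nat_lit 298) ln10_9_2 ln10_9_2_ok) (M (nat_lit 432) (B (M (nat_lit 496) (B (M (nat_lit 369) (B (L (nat_lit 401) ln16_15_6_c10 ln16_15_6_c10_ok) (M (nat_lit 368) (B (L (nat_lit 337) ln16_14_6_c10 ln16_14_6_c10_ok) (L (nat_lit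 367) ln16_15_7 ln16_15_7_ok))))) (M (nat_lit 529) (B (L (nat_lit 497) ln16_12_4 ln16_12_4_ok) (M (nat_lit 528) (B (L (nat_lit 561) ln16_13_4_c10 ln16_13_4_c10_ok) (M (nat_lit 527) (B (L (nat_lit 495) ln16_12_5_c10 ln16_12_5_c10_ok) (L (nat_lit 559) ln16_13_5_c10 ln16_13_5_c10_ok))))))))) (B (M (nat_lit 496) (B (M (nat_lit 368) (B (L (nat_lit 367) ln16_15_7 ln16_15_7_ok) (M (nat_lit 497) (B (L (nat_lit 465) ln16_11_4 ln16_11_4_ok) (L (nat_lit 529) ln16_12_4 ln16_12_4_ok))))) (M (nat_lit 528) (B (M (nat_lit 401) (B (L (nat_lit 369) ln16_15_6_c10 ln16_15_6_c10_ok) (L (nat_lit 433) ln16_16_6_c10 ln16_16_6_c10_ok))) (M (nat_lit 527) (B (L (nat_lit 495) ln16_12_5_c10 ln16_12_5_c10_ok) (L (nat_lit 559) ln16_13_5_c10 ln16_13_5_c10_ok))))))) (B (M (nat_lit 496) (B (M (nat_lit 529) (B (L (nat_lit 497) ln16_12_4 ln16_12_4_ok) (M (nat_lit 528) (B (L (nat_lit 561) ln16_13_4_c10 ln16_13_4_c10_ok) (M (nat_lit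 527) (B (L (nat_lit 495) ln16_12_5_c10 ln16_12_5_c10_ok) (L (nat_lit 559) ln16_13_5_c10 ln16_13_5_c10_ok))))))) (B (M (nat_lit 528) (B (L (nat_lit 367) ln16_15_7 ln16_15_7_ok) (M (nat_lit 527) (B (L (nat_lit 495) ln16_12_5_c10 ln16_12_5_c10_ok) (L (nat_lit 559) ln16_13_5_c10 ln16_13_5_c10_ok))))) (B (M (nat_lit 528) (B (L (nat_lit 367) ln16_15_7 ln16_15_7_ok) (M (nat_lit 529) (B (L (nat_lit 497) ln16_12_4 ln16_12_4_ok) (L (nat_lit 561) ln16_13_4_c10 ln16_13_4_c10_ok))))) (M (nat_lit 368) (B (L (nat_lit 367) ln16_15_7 ln16_15_7_ok) (M (nat_lit 497) (B (L (nat_lit 465) ln16_11_4 ln16_11_4_ok) (L (nat_lit 529) ln16_12_4 ln16_12_4_ok))))))))) c10_d224))))))))))))))))))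
theorem c10_s404 : Sem (nat_lit 5954262830815946494763249298843757173869822444059832046297328026069652590123990452668329862299680335109489129391678739375805842865898127360) (nat_lit 13208868489950824085351155109865655222757235114740961173575702960732792310122841894741401239081201356154434743023746995039320289466051472536515905630361652110503262027776) (nat_lit 13208868489950824085351155109865655222757235114740961173575702960732792310122841894741401239081201356154434743023746995039320289466051472536515905630361652110503262027776) :=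
  sem_of_chk (M (nat_lit 300) (B (L (nat_lit 332) ln13_13_7 ln13_13_7_ok) (M (nat_lit 301) (B (L (nat_lit 268) ln13_12_7 ln13_12_7_ok) (M (nat_lit 270) (B (L (nat_lit 302) ln13_12_6 ln13_12_6_ok) (M (nat_lit 269) (B (L (nat_lit 238) ln13_11_6 ln13_11_6_ok) (M (nat_lit 428) (B (L (nat_lit 396) ln13_9_5 ln13_9_5_ok) (M (nat_lit 400) (B (M (nat_lit 398) (B (L (nat_lit 399) ln16_12_1 ln16_12_1_ok) (L (nat_lit 366) ln13_8_4 ln13_8_4_ok))) c10_d225)))))))))))) (nat_lit 5954262830815946494763249298843757173869822444059832046297328026069652590123990452668329862299680335109489129391678739375805842865898127360) (nat_lit 13208868489950824085351155109865655222757235114740961173575702960732792310122841894741401239081201356154434743023746995039320289466051472536515905630361652110503262027776) (nat_lit 13208868489950824085351155109865655222757235114740961173575702960732792310122841894741401239081201356154434743023746995039320289466051472536515905630361652110503262027776)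 (by decide +kernel)
noncomputable def c10_d226 : Cert := (B (M (nat_lit 394) (B (M (nat_lit 361) (B (L (nat_lit 393) ln10_15_7 ln10_15_7_ok) (M (nat_lit 362) (B (L (nat_lit 329) ln10_14_7 ln10_14_7_ok) (M (nat_lit 363) (B (L (nat_lit 331) ln10_14_6 ln10_14_6_ok) (L (nat_lit 395) ln10_15_6 ln10_15_6_ok))))))) (B (M (nat_lit 362) (B (M (nat_lit 361) (B (L (nat_lit 329) ln10_14_7 ln10_14_7_ok) (L (nat_lit 393) ln10_15_7 ln10_15_7_ok))) (M (nat_lit 489) (B (L (nat_lit 457) ln10_11_5 ln10_11_5_ok) (L (nat_lit 521) ln10_12_5 ln10_12_5_ok))))) (B (M (nat_lit 393) (B (L (nat_lit 361) ln10_15_7 ln10_15_7_ok) (M (nat_lit 392) (B (M (nat_lit 391) (B (L (nat_lit 427) ln7_12_0_c10 ln7_12_0_c10_ok) (M (nat_lit 390) (B (L (nat_lit 425) ln6_12_0_c10 ln6_12_0_c10_ok) (M (nat_lit 358) (B (L (nat_lit 359) ln10_12_3_c10 ln10_12_3_c10_ok) (L (nat_lit 357) ln9_12_3_c10 ln9_12_3_c10_ok))))))) (B (M (nat_lit 391)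 (B (M (nat_lit 395) (B (L (nat_lit 363) ln8_12_2 ln8_12_2_ok) (M (nat_lit 359) (B (L (nat_lit 360) ln11_12_3 ln11_12_3_ok) (L (nat_lit 358) ln10_12_3_c10 ln10_12_3_c10_ok))))) (B (M (nat_lit 390) (B (L (nat_lit 425) ln6_12_0_c10 ln6_12_0_c10_ok) (M (nat_lit 358) (B (L (nat_lit 359) ln10_12_3_c10 ln10_12_3_c10_ok) (L (nat_lit 357) ln9_12_3_c10 ln9_12_3_c10_ok))))) (M (nat_lit 395) (B (L (nat_lit 363) ln8_12_2 ln8_12_2_ok) (M (nat_lit 423) (B (L (nat_lit 424) ln11_12_1 ln11_12_1_ok) (L (nat_lit 422) ln10_12_1_c10 ln10_12_1_c10_ok)))))))) (B (M (nat_lit 391) (B (L (nat_lit 427) ln7_12_0_c10 ln7_12_0_c10_ok) (M (nat_lit 395) (B (L (nat_lit 363) ln8_12_2 ln8_12_2_ok) (M (nat_lit 423) (B (L (nat_lit 424) ln11_12_1 ln11_12_1_ok) (L (nat_lit 422) ln10_12_1_c10 ln10_12_1_c10_ok))))))) (M (nat_lit 395) (B (L (nat_lit 363) ln8_12_2 ln8_12_2_ok) (M (nat_lit 425) (B (M (nat_lit 424) (B (L (nat_lit 396)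 ln9_12_2 ln9_12_2_ok) (L (nat_lit 423) ln11_12_1 ln11_12_1_ok))) (M (nat_lit 489) (B (L (nat_lit 521) ln10_12_5 ln10_12_5_ok) (M (nat_lit 360) (B (L (nat_lit 359) ln11_12_3 ln11_12_3_ok) (L (nat_lit 457) ln9_15_7 ln9_15_7_ok))))))))))))))) (M (nat_lit 362) (B (M (nat_lit 363) (B (L (nat_lit 331) ln10_14_6 ln10_14_6_ok) (L (nat_lit 395) ln10_15_6 ln10_15_6_ok))) (M (nat_lit 489) (B (L (nat_lit 457) ln10_11_5 ln10_11_5_ok) (L (nat_lit 521) ln10_12_5 ln10_12_5_ok))))))))) (B (M (nat_lit 394) (B (M (nat_lit 362) (B (M (nat_lit 363) (B (L (nat_lit 331) ln10_14_6 ln10_14_6_ok) (L (nat_lit 395) ln10_15_6 ln10_15_6_ok))) (M (nat_lit 361) (B (L (nat_lit 329) ln10_14_7 ln10_14_7_ok) (L (nat_lit 393) ln10_15_7 ln10_15_7_ok))))) (B (M (nat_lit 393) (B (L (nat_lit 361) ln10_15_7 ln10_15_7_ok) (M (nat_lit 425) (B (L (nat_lit 522) ln10_16_7 ln10_16_7_ok) (M (nat_lit 395) (B (L (nat_lit 363) ln10_15_6 ln10_15_6_ok)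 (L (nat_lit 396) ln9_12_2 ln9_12_2_ok))))))) (B (M (nat_lit 362) (B (M (nat_lit 361) (B (L (nat_lit 329) ln10_14_7 ln10_14_7_ok) (L (nat_lit 393) ln10_15_7 ln10_15_7_ok))) (B (M (nat_lit 425) (B (M (nat_lit 457) (B (L (nat_lit 330) ln10_10_5 ln10_10_5_ok) (L (nat_lit 489) ln10_11_5 ln10_11_5_ok))) (M (nat_lit 393) (B (L (nat_lit 361) ln10_15_7 ln10_15_7_ok) (L (nat_lit 522) ln10_16_7 ln10_16_7_ok))))) (M (nat_lit 330) (B (M (nat_lit 457) (B (L (nat_lit 425) ln10_10_5 ln10_10_5_ok) (L (nat_lit 489) ln10_11_5 ln10_11_5_ok))) (M (nat_lit 298) (B (M (nat_lit 299) (B (L (nat_lit 267) ln10_12_6_c10 ln10_12_6_c10_ok) (L (nat_lit 331) ln10_13_6 ln10_13_6_ok))) (M (nat_lit 297) (B (L (nat_lit 265) ln10_12_7_c10 ln10_12_7_c10_ok) (L (nat_lit 329) ln10_13_7_c10 ln10_13_7_c10_ok)))))))))) (B (M (nat_lit 362) (B (M (nat_lit 363) (B (L (nat_lit 331) ln10_14_6 ln10_14_6_ok) (L (nat_lit 395) ln10_15_6 ln10_15_6_ok)))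 (M (nat_lit 457) (B (L (nat_lit 489) ln10_11_5 ln10_11_5_ok) (M (nat_lit 425) (B (L (nat_lit 330) ln10_10_5 ln10_10_5_ok) (M (nat_lit 522) (B (L (nat_lit 393) ln10_16_7 ln10_16_7_ok) (L (nat_lit 554) ln10_17_7 ln10_17_7_ok))))))))) (M (nat_lit 362) (B (M (nat_lit 363) (B (L (nat_lit 331) ln10_14_6 ln10_14_6_ok) (L (nat_lit 395) ln10_15_6 ln10_15_6_ok))) (M (nat_lit 330) (B (M (nat_lit 329) (B (L (nat_lit 297) ln10_13_7_c10 ln10_13_7_c10_ok) (L (nat_lit 361) ln10_14_7 ln10_14_7_ok))) (M (nat_lit 457) (B (L (nat_lit 425) ln10_10_5 ln10_10_5_ok) (L (nat_lit 489) ln10_11_5 ln10_11_5_ok)))))))))))) (M (nat_lit 522) (B (M (nat_lit 554) (B (M (nat_lit 587) (B (L (nat_lit 555) ln10_14_4 ln10_14_4_ok) (M (nat_lit 586) (B (L (nat_lit 619) ln10_15_4 ln10_15_4_ok) (M (nat_lit 585) (B (L (nat_lit 553) ln10_14_5 ln10_14_5_ok) (L (nat_lit 617) ln10_15_5 ln10_15_5_ok))))))) (B (M (nat_lit 586) (B (M (nat_lit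 457) (B (L (nat_lit 425) ln10_17_7 ln10_17_7_ok) (L (nat_lit 489) ln10_18_7_c10 ln10_18_7_c10_ok))) (M (nat_lit 585) (B (L (nat_lit 553) ln10_14_5 ln10_14_5_ok) (L (nat_lit 617) ln10_15_5 ln10_15_5_ok))))) (B (M (nat_lit 586) (B (M (nat_lit 457) (B (L (nat_lit 425) ln10_17_7 ln10_17_7_ok) (L (nat_lit 489) ln10_18_7_c10 ln10_18_7_c10_ok))) (M (nat_lit 587) (B (L (nat_lit 555) ln10_14_4 ln10_14_4_ok) (L (nat_lit 619) ln10_15_4 ln10_15_4_ok))))) (M (nat_lit 425) (B (L (nat_lit 393) ln10_16_7 ln10_16_7_ok) (L (nat_lit 457) ln10_17_7 ln10_17_7_ok))))))) (B (M (nat_lit 553) (B (M (nat_lit 585) (B (L (nat_lit 554) ln10_14_5 ln10_14_5_ok) (L (nat_lit 521) ln10_13_5 ln10_13_5_ok))) (B (M (nat_lit 523) (B (L (nat_lit 521) ln10_13_5 ln10_13_5_ok) (L (nat_lit 555) ln10_13_4 ln10_13_4_ok))) (M (nat_lit 554) (B (L (nat_lit 585) ln10_14_5 ln10_14_5_ok) (M (nat_lit 555) (B (L (nat_lit 587) ln10_14_4 ln10_14_4_ok)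 (L (nat_lit 523) ln10_13_4 ln10_13_4_ok)))))))) (B (M (nat_lit 554) (B (M (nat_lit 555) (B (L (nat_lit 587) ln10_14_4 ln10_14_4_ok) (L (nat_lit 523) ln10_13_4 ln10_13_4_ok))) (M (nat_lit 425) (B (L (nat_lit 457) ln10_17_7 ln10_17_7_ok) (L (nat_lit 393) ln10_16_7 ln10_16_7_ok))))) (B (M (nat_lit 554) (B (M (nat_lit 425) (B (L (nat_lit 393) ln10_16_7 ln10_16_7_ok) (L (nat_lit 457) ln10_17_7 ln10_17_7_ok))) (M (nat_lit 553) (B (L (nat_lit 521) ln10_13_5 ln10_13_5_ok) (L (nat_lit 585) ln10_14_5 ln10_14_5_ok))))) (M (nat_lit 521) (B (L (nat_lit 553) ln10_13_5 ln10_13_5_ok) (M (nat_lit 523) (B (L (nat_lit 555) ln10_13_4 ln10_13_4_ok) (M (nat_lit 520) (B (M (nat_lit 487) (B (L (nat_lit 488) ln11_16_3_c10 ln11_16_3_c10_ok) (M (nat_lit 519) (B (L (nat_lit 486) ln10_16_3_c10 ln10_16_3_c10_ok) (M (nat_lit 551) (B (L (nat_lit 550) ln10_16_1_c10 ln10_16_1_c10_ok) (L (nat_lit 552) ln11_16_1 ln11_16_1_ok)))))))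 (B (M (nat_lit 489) (B (M (nat_lit 488) (B (L (nat_lit 487) ln7_15_0 ln7_15_0_ok) (L (nat_lit 524) ln12_16_3 ln12_16_3_ok))) (B (M (nat_lit 524) (B (L (nat_lit 488) ln12_16_3 ln12_16_3_ok) (L (nat_lit 525) ln13_16_3 ln13_16_3_ok))) (M (nat_lit 425) (B (L (nat_lit 393) ln10_16_7 ln10_16_7_ok) (M (nat_lit 552) (B (L (nat_lit 551) ln11_16_1 ln11_16_1_ok) (L (nat_lit 457) ln9_13_5_c10 ln9_13_5_c10_ok)))))))) (B (M (nat_lit 519) (B (M (nat_lit 487) (B (L (nat_lit 486) ln10_16_3_c10 ln10_16_3_c10_ok) (L (nat_lit 488) ln11_16_3_c10 ln11_16_3_c10_ok))) (B (M (nat_lit 489) (B (L (nat_lit 518) ln6_16_2_c10 ln6_16_2_c10_ok) (M (nat_lit 488) (B (L (nat_lit 487) ln7_15_0 ln7_15_0_ok) (L (nat_lit 524) ln12_16_3 ln12_16_3_ok))))) (B (M (nat_lit 489) (B (L (nat_lit 518) ln6_16_2_c10 ln6_16_2_c10_ok) (M (nat_lit 524) (B (L (nat_lit 488) ln12_16_3 ln12_16_3_ok) (L (nat_lit 525) ln13_16_3 ln13_16_3_ok)))))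 (M (nat_lit 518) (B (L (nat_lit 489) ln6_16_2_c10 ln6_16_2_c10_ok) (M (nat_lit 486) (B (L (nat_lit 485) ln9_16_3_c10 ln9_16_3_c10_ok) (L (nat_lit 487) ln10_16_3_c10 ln10_16_3_c10_ok))))))))) (B (M (nat_lit 489) (B (M (nat_lit 524) (B (L (nat_lit 488) ln12_16_3 ln12_16_3_ok) (L (nat_lit 525) ln13_16_3 ln13_16_3_ok))) (M (nat_lit 425) (B (L (nat_lit 393) ln10_16_7 ln10_16_7_ok) (M (nat_lit 552) (B (L (nat_lit 551) ln11_16_1 ln11_16_1_ok) (L (nat_lit 457) ln9_13_5_c10 ln9_13_5_c10_ok))))))) (M (nat_lit 519) (B (M (nat_lit 551) (B (L (nat_lit 550) ln10_16_1_c10 ln10_16_1_c10_ok) (L (nat_lit 552) ln11_16_1 ln11_16_1_ok))) (M (nat_lit 518) (B (L (nat_lit 489) ln6_16_2_c10 ln6_16_2_c10_ok) (M (nat_lit 486) (B (L (nat_lit 485) ln9_16_3_c10 ln9_16_3_c10_ok) (L (nat_lit 487) ln10_16_3_c10 ln10_16_3_c10_ok)))))))))))))))))))))))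
noncomputable def c10_d227 : Cert := (B (K (nat_lit 21584202758241968925018459392428634248426352321592664525955131179819344765362620990096764774341559628860189228745737756931989833359265103872) (nat_lit 29484081464512684799573980084062624309218159599162811395544749156846627954778205410069901125018213870327407204077181802224189716460378527300026881464915770235991097344) (nat_lit 29484081464512684799573980084062624309218159599162811395544749156846627954778205410069901125018213870327407204077181802224189716460378527300026881464915770235991097344) c10_s478) (M (nat_lit 490) (B (M (nat_lit 522) (B (M (nat_lit 393) (B (L (nat_lit 425) ln10_16_7 ln10_16_7_ok) (M (nat_lit 394) (B (L (nat_lit 361) ln10_15_7 ln10_15_7_ok) (M (nat_lit 395) (B (L (nat_lit 363) ln10_15_6 ln10_15_6_ok) (L (nat_lit 427) ln10_16_6 ln10_16_6_ok))))))) (M (nat_lit 553) (B (L (nat_lit 521) ln10_13_5 ln10_13_5_ok) (M (nat_lit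 554) (B (L (nat_lit 585) ln10_14_5 ln10_14_5_ok) (M (nat_lit 555) (B (L (nat_lit 523) ln10_13_4 ln10_13_4_ok) (L (nat_lit 587) ln10_14_4 ln10_14_4_ok))))))))) (B (M (nat_lit 522) (B (M (nat_lit 394) (B (M (nat_lit 395) (B (L (nat_lit 363) ln10_15_6 ln10_15_6_ok) (L (nat_lit 427) ln10_16_6 ln10_16_6_ok))) (M (nat_lit 521) (B (L (nat_lit 489) ln10_12_5 ln10_12_5_ok) (L (nat_lit 553) ln10_13_5 ln10_13_5_ok))))) (M (nat_lit 554) (B (M (nat_lit 425) (B (L (nat_lit 393) ln10_16_7 ln10_16_7_ok) (L (nat_lit 457) ln10_17_7 ln10_17_7_ok))) (M (nat_lit 555) (B (L (nat_lit 523) ln10_13_4 ln10_13_4_ok) (L (nat_lit 587) ln10_14_4 ln10_14_4_ok))))))) (B (M (nat_lit 394) (B (M (nat_lit 363) (B (L (nat_lit 395) ln10_15_6 ln10_15_6_ok) (M (nat_lit 362) (B (L (nat_lit 331) ln10_14_6 ln10_14_6_ok) (M (nat_lit 361) (B (L (nat_lit 393) ln13_11_1 ln13_11_1_ok) (L (nat_lit 329) ln10_14_7 ln10_14_7_ok))))))) (B (M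 (nat_lit 362) (B (M (nat_lit 489) (B (L (nat_lit 521) ln10_12_5 ln10_12_5_ok) (L (nat_lit 457) ln10_11_5 ln10_11_5_ok))) (M (nat_lit 361) (B (L (nat_lit 393) ln10_15_7 ln10_15_7_ok) (L (nat_lit 329) ln10_14_7 ln10_14_7_ok))))) (B (M (nat_lit 362) (B (M (nat_lit 489) (B (L (nat_lit 521) ln10_12_5 ln10_12_5_ok) (L (nat_lit 457) ln10_11_5 ln10_11_5_ok))) (M (nat_lit 363) (B (L (nat_lit 395) ln10_15_6 ln10_15_6_ok) (L (nat_lit 331) ln10_14_6 ln10_14_6_ok))))) (M (nat_lit 522) (B (M (nat_lit 521) (B (L (nat_lit 553) ln10_13_5 ln10_13_5_ok) (L (nat_lit 489) ln10_12_5 ln10_12_5_ok))) (M (nat_lit 395) (B (L (nat_lit 427) ln10_16_6 ln10_16_6_ok) (L (nat_lit 363) ln10_15_6 ln10_15_6_ok))))))))) (B (K (nat_lit 3196670537107778803176724488326661689515198746515282780072441252611511840370784760365814439633780552809222406328509610590676484027581037512906244096) (nat_lit 29484081464512684796377309567050482556926001124009593939903551372401439989610801295957028536544824613267974807568126751894739156723616501205455021961445701946947141632)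 (nat_lit 29484081464512684796377309567050482556926001124009593939903551372401439989610801295957028536544824613267974807568126751894739156723616501205455021961445701946947141632) c10_s479) (B (M (nat_lit 522) (B (M (nat_lit 554) (B (M (nat_lit 425) (B (L (nat_lit 393) ln10_16_7 ln10_16_7_ok) (L (nat_lit 457) ln10_17_7 ln10_17_7_ok))) (M (nat_lit 555) (B (L (nat_lit 523) ln10_13_4 ln10_13_4_ok) (L (nat_lit 587) ln10_14_4 ln10_14_4_ok))))) (B (M (nat_lit 553) (B (L (nat_lit 521) ln10_13_5 ln10_13_5_ok) (M (nat_lit 554) (B (L (nat_lit 585) ln10_14_5 ln10_14_5_ok) (M (nat_lit 555) (B (L (nat_lit 523) ln10_13_4 ln10_13_4_ok) (L (nat_lit 587) ln10_14_4 ln10_14_4_ok))))))) (B (M (nat_lit 554) (B (M (nat_lit 425) (B (L (nat_lit 393) ln10_16_7 ln10_16_7_ok) (L (nat_lit 457) ln10_17_7 ln10_17_7_ok))) (M (nat_lit 553) (B (L (nat_lit 521) ln10_13_5 ln10_13_5_ok) (L (nat_lit 585) ln10_14_5 ln10_14_5_ok)))))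 (M (nat_lit 394) (B (M (nat_lit 393) (B (L (nat_lit 361) ln10_15_7 ln10_15_7_ok) (L (nat_lit 425) ln10_16_7 ln10_16_7_ok))) (M (nat_lit 521) (B (L (nat_lit 489) ln10_12_5 ln10_12_5_ok) (L (nat_lit 553) ln10_13_5 ln10_13_5_ok))))))))) (B (M (nat_lit 522) (B (M (nat_lit 554) (B (M (nat_lit 555) (B (L (nat_lit 587) ln10_14_4 ln10_14_4_ok) (L (nat_lit 523) ln10_13_4 ln10_13_4_ok))) (M (nat_lit 553) (B (L (nat_lit 585) ln10_14_5 ln10_14_5_ok) (L (nat_lit 521) ln10_13_5 ln10_13_5_ok))))) (B (M (nat_lit 394) (B (M (nat_lit 521) (B (L (nat_lit 553) ln10_13_5 ln10_13_5_ok) (L (nat_lit 489) ln10_12_5 ln10_12_5_ok))) (M (nat_lit 395) (B (L (nat_lit 427) ln10_16_6 ln10_16_6_ok) (L (nat_lit 363) ln10_15_6 ln10_15_6_ok))))) (B (M (nat_lit 489) (B (M (nat_lit 395) (B (L (nat_lit 427) ln10_16_6 ln10_16_6_ok) (M (nat_lit 394) (B (L (nat_lit 521) ln10_12_5 ln10_12_5_ok) (L (nat_lit 363) ln10_15_6 ln10_15_6_ok)))))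 (M (nat_lit 554) (B (M (nat_lit 555) (B (L (nat_lit 587) ln10_14_4 ln10_14_4_ok) (L (nat_lit 523) ln10_13_4 ln10_13_4_ok))) (M (nat_lit 457) (B (L (nat_lit 586) ln10_18_7_c10 ln10_18_7_c10_ok) (L (nat_lit 425) ln10_17_7 ln10_17_7_ok))))))) (M (nat_lit 554) (B (M (nat_lit 555) (B (L (nat_lit 587) ln10_14_4 ln10_14_4_ok) (L (nat_lit 523) ln10_13_4 ln10_13_4_ok))) (M (nat_lit 586) (B (M (nat_lit 585) (B (L (nat_lit 617) ln10_15_5 ln10_15_5_ok) (L (nat_lit 553) ln10_14_5 ln10_14_5_ok))) (M (nat_lit 457) (B (L (nat_lit 489) ln10_18_7_c10 ln10_18_7_c10_ok) (L (nat_lit 425) ln10_17_7 ln10_17_7_ok))))))))))) (B (M (nat_lit 394) (B (M (nat_lit 362) (B (M (nat_lit 489) (B (L (nat_lit 521) ln10_12_5 ln10_12_5_ok) (L (nat_lit 457) ln10_11_5 ln10_11_5_ok))) (M (nat_lit 361) (B (L (nat_lit 393) ln10_15_7 ln10_15_7_ok) (L (nat_lit 329) ln10_14_7 ln10_14_7_ok))))) (B (M (nat_lit 362) (B (M (nat_lit 361)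 (B (L (nat_lit 393) ln10_15_7 ln10_15_7_ok) (L (nat_lit 329) ln10_14_7 ln10_14_7_ok))) (M (nat_lit 363) (B (L (nat_lit 395) ln10_15_6 ln10_15_6_ok) (L (nat_lit 331) ln10_14_6 ln10_14_6_ok))))) (B (M (nat_lit 362) (B (M (nat_lit 489) (B (L (nat_lit 521) ln10_12_5 ln10_12_5_ok) (L (nat_lit 457) ln10_11_5 ln10_11_5_ok))) (M (nat_lit 363) (B (L (nat_lit 395) ln10_15_6 ln10_15_6_ok) (L (nat_lit 331) ln10_14_6 ln10_14_6_ok))))) (M (nat_lit 522) (B (M (nat_lit 393) (B (L (nat_lit 425) ln10_16_7 ln10_16_7_ok) (L (nat_lit 361) ln10_15_7 ln10_15_7_ok))) (M (nat_lit 395) (B (L (nat_lit 427) ln10_16_6 ln10_16_6_ok) (L (nat_lit 363) ln10_15_6 ln10_15_6_ok))))))))) c10_d226)))))))))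
noncomputable def c10_d228 : Cert := (B (M (nat_lit 522) (B (M (nat_lit 553) (B (L (nat_lit 521) ln10_13_5 ln10_13_5_ok) (M (nat_lit 554) (B (L (nat_lit 585) ln10_14_5 ln10_14_5_ok) (M (nat_lit 555) (B (L (nat_lit 587) ln10_14_4 ln10_14_4_ok) (L (nat_lit 523) ln10_13_4 ln10_13_4_ok))))))) (B (M (nat_lit 554) (B (M (nat_lit 553) (B (L (nat_lit 585) ln10_14_5 ln10_14_5_ok) (L (nat_lit 521) ln10_13_5 ln10_13_5_ok))) (M (nat_lit 425) (B (L (nat_lit 457) ln10_17_7 ln10_17_7_ok) (L (nat_lit 393) ln10_16_7 ln10_16_7_ok))))) (B (M (nat_lit 521) (B (L (nat_lit 553) ln10_13_5 ln10_13_5_ok) (M (nat_lit 520) (B (M (nat_lit 519) (B (L (nat_lit 491) ln7_16_2 ln7_16_2_ok) (M (nat_lit 518) (B (L (nat_lit 489) ln6_16_2_c10 ln6_16_2_c10_ok) (M (nat_lit 550) (B (L (nat_lit 551) ln10_16_1_c10 ln10_16_1_c10_ok) (L (nat_lit 549) ln9_16_1_c10 ln9_16_1_c10_ok))))))) (B (M (nat_lit 519) (B (M (nat_lit 523) (B (L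 (nat_lit 555) ln10_13_4 ln10_13_4_ok) (M (nat_lit 551) (B (L (nat_lit 552) ln11_16_1 ln11_16_1_ok) (L (nat_lit 550) ln10_16_1_c10 ln10_16_1_c10_ok))))) (B (M (nat_lit 518) (B (L (nat_lit 489) ln6_16_2_c10 ln6_16_2_c10_ok) (M (nat_lit 550) (B (L (nat_lit 551) ln10_16_1_c10 ln10_16_1_c10_ok) (L (nat_lit 549) ln9_16_1_c10 ln9_16_1_c10_ok))))) (M (nat_lit 523) (B (L (nat_lit 555) ln10_13_4 ln10_13_4_ok) (M (nat_lit 487) (B (L (nat_lit 488) ln11_16_3_c10 ln11_16_3_c10_ok) (L (nat_lit 486) ln10_16_3_c10 ln10_16_3_c10_ok)))))))) (B (M (nat_lit 519) (B (L (nat_lit 491) ln7_16_2 ln7_16_2_ok) (M (nat_lit 523) (B (L (nat_lit 555) ln10_13_4 ln10_13_4_ok) (M (nat_lit 487) (B (L (nat_lit 488) ln11_16_3_c10 ln11_16_3_c10_ok) (L (nat_lit 486) ln10_16_3_c10 ln10_16_3_c10_ok))))))) (M (nat_lit 523) (B (L (nat_lit 555) ln10_13_4 ln10_13_4_ok) (M (nat_lit 489) (B (M (nat_lit 488) (B (L (nat_lit 524) ln12_16_3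 ln12_16_3_ok) (L (nat_lit 487) ln7_15_0 ln7_15_0_ok))) (M (nat_lit 425) (B (L (nat_lit 393) ln10_16_7 ln10_16_7_ok) (M (nat_lit 552) (B (L (nat_lit 551) ln11_16_1 ln11_16_1_ok) (L (nat_lit 457) ln9_13_5_c10 ln9_13_5_c10_ok))))))))))))))) (M (nat_lit 554) (B (M (nat_lit 555) (B (L (nat_lit 587) ln10_14_4 ln10_14_4_ok) (L (nat_lit 523) ln10_13_4 ln10_13_4_ok))) (M (nat_lit 425) (B (L (nat_lit 457) ln10_17_7 ln10_17_7_ok) (L (nat_lit 393) ln10_16_7 ln10_16_7_ok))))))))) (B (M (nat_lit 522) (B (M (nat_lit 554) (B (M (nat_lit 555) (B (L (nat_lit 587) ln10_14_4 ln10_14_4_ok) (L (nat_lit 523) ln10_13_4 ln10_13_4_ok))) (M (nat_lit 553) (B (L (nat_lit 585) ln10_14_5 ln10_14_5_ok) (L (nat_lit 521) ln10_13_5 ln10_13_5_ok))))) (B (M (nat_lit 521) (B (L (nat_lit 553) ln10_13_5 ln10_13_5_ok) (M (nat_lit 489) (B (L (nat_lit 394) ln10_12_5 ln10_12_5_ok) (M (nat_lit 523) (B (L (nat_lit 555) ln10_13_4 ln10_13_4_ok)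 (M (nat_lit 524) (B (L (nat_lit 525) ln13_16_3 ln13_16_3_ok) (L (nat_lit 488) ln12_16_3 ln12_16_3_ok))))))))) (B (M (nat_lit 554) (B (M (nat_lit 553) (B (L (nat_lit 585) ln10_14_5 ln10_14_5_ok) (L (nat_lit 521) ln10_13_5 ln10_13_5_ok))) (B (M (nat_lit 489) (B (M (nat_lit 457) (B (L (nat_lit 586) ln10_18_7_c10 ln10_18_7_c10_ok) (L (nat_lit 425) ln10_17_7 ln10_17_7_ok))) (M (nat_lit 521) (B (L (nat_lit 553) ln10_13_5 ln10_13_5_ok) (L (nat_lit 394) ln10_12_5 ln10_12_5_ok))))) (M (nat_lit 586) (B (M (nat_lit 457) (B (L (nat_lit 489) ln10_18_7_c10 ln10_18_7_c10_ok) (L (nat_lit 425) ln10_17_7 ln10_17_7_ok))) (M (nat_lit 618) (B (M (nat_lit 619) (B (L (nat_lit 651) ln10_16_4 ln10_16_4_ok) (L (nat_lit 587) ln10_15_4 ln10_15_4_ok))) (M (nat_lit 617) (B (L (nat_lit 649) ln10_16_5 ln10_16_5_ok) (L (nat_lit 585) ln10_15_5 ln10_15_5_ok)))))))))) (B (M (nat_lit 554) (B (M (nat_lit 555) (B (L (nat_lit 587)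 ln10_14_4 ln10_14_4_ok) (L (nat_lit 523) ln10_13_4 ln10_13_4_ok))) (M (nat_lit 457) (B (L (nat_lit 425) ln10_17_7 ln10_17_7_ok) (M (nat_lit 489) (B (L (nat_lit 586) ln10_18_7_c10 ln10_18_7_c10_ok) (M (nat_lit 394) (B (L (nat_lit 521) ln10_12_5 ln10_12_5_ok) (L (nat_lit 362) ln10_11_5 ln10_11_5_ok))))))))) (M (nat_lit 554) (B (M (nat_lit 555) (B (L (nat_lit 587) ln10_14_4 ln10_14_4_ok) (L (nat_lit 523) ln10_13_4 ln10_13_4_ok))) (M (nat_lit 586) (B (M (nat_lit 585) (B (L (nat_lit 617) ln10_15_5 ln10_15_5_ok) (L (nat_lit 553) ln10_14_5 ln10_14_5_ok))) (M (nat_lit 457) (B (L (nat_lit 489) ln10_18_7_c10 ln10_18_7_c10_ok) (L (nat_lit 425) ln10_17_7 ln10_17_7_ok)))))))))))) (M (nat_lit 394) (B (M (nat_lit 362) (B (M (nat_lit 331) (B (L (nat_lit 363) ln10_14_6 ln10_14_6_ok) (M (nat_lit 330) (B (L (nat_lit 299) ln10_13_6 ln10_13_6_ok) (M (nat_lit 329) (B (L (nat_lit 361) ln10_14_7 ln10_14_7_ok) (L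 (nat_lit 297) ln10_13_7_c10 ln10_13_7_c10_ok))))))) (B (M (nat_lit 330) (B (M (nat_lit 457) (B (L (nat_lit 489) ln10_11_5 ln10_11_5_ok) (L (nat_lit 425) ln10_10_5 ln10_10_5_ok))) (M (nat_lit 329) (B (L (nat_lit 361) ln10_14_7 ln10_14_7_ok) (L (nat_lit 297) ln10_13_7_c10 ln10_13_7_c10_ok))))) (B (M (nat_lit 330) (B (M (nat_lit 457) (B (L (nat_lit 489) ln10_11_5 ln10_11_5_ok) (L (nat_lit 425) ln10_10_5 ln10_10_5_ok))) (M (nat_lit 331) (B (L (nat_lit 363) ln10_14_6 ln10_14_6_ok) (L (nat_lit 299) ln10_13_6 ln10_13_6_ok))))) (M (nat_lit 489) (B (L (nat_lit 521) ln10_12_5 ln10_12_5_ok) (L (nat_lit 457) ln10_11_5 ln10_11_5_ok))))))) (B (M (nat_lit 361) (B (M (nat_lit 329) (B (L (nat_lit 362) ln10_14_7 ln10_14_7_ok) (L (nat_lit 393) ln10_15_7 ln10_15_7_ok))) (B (M (nat_lit 395) (B (L (nat_lit 393) ln10_15_7 ln10_15_7_ok) (L (nat_lit 363) ln10_15_6 ln10_15_6_ok))) (M (nat_lit 362) (B (L (nat_lit 329)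 ln10_14_7 ln10_14_7_ok) (M (nat_lit 363) (B (L (nat_lit 331) ln10_14_6 ln10_14_6_ok) (L (nat_lit 395) ln10_15_6 ln10_15_6_ok)))))))) (B (M (nat_lit 362) (B (M (nat_lit 363) (B (L (nat_lit 331) ln10_14_6 ln10_14_6_ok) (L (nat_lit 395) ln10_15_6 ln10_15_6_ok))) (M (nat_lit 489) (B (L (nat_lit 457) ln10_11_5 ln10_11_5_ok) (L (nat_lit 521) ln10_12_5 ln10_12_5_ok))))) (B (M (nat_lit 362) (B (M (nat_lit 489) (B (L (nat_lit 521) ln10_12_5 ln10_12_5_ok) (L (nat_lit 457) ln10_11_5 ln10_11_5_ok))) (M (nat_lit 361) (B (L (nat_lit 393) ln10_15_7 ln10_15_7_ok) (L (nat_lit 329) ln10_14_7 ln10_14_7_ok))))) (M (nat_lit 393) (B (L (nat_lit 361) ln10_15_7 ln10_15_7_ok) (M (nat_lit 395) (B (L (nat_lit 363) ln10_15_6 ln10_15_6_ok) (M (nat_lit 392) (B (M (nat_lit 423) (B (L (nat_lit 424) ln11_12_1 ln11_12_1_ok) (M (nat_lit 391) (B (L (nat_lit 422) ln10_12_1_c10 ln10_12_1_c10_ok) (M (nat_lit 359) (B (L (nat_lit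 358) ln10_12_3_c10 ln10_12_3_c10_ok) (L (nat_lit 360) ln11_12_3 ln11_12_3_ok))))))) (B (M (nat_lit 425) (B (M (nat_lit 424) (B (L (nat_lit 423) ln11_12_1 ln11_12_1_ok) (L (nat_lit 396) ln9_12_2 ln9_12_2_ok))) (B (L (nat_lit 396) ln9_12_2 ln9_12_2_ok) (M (nat_lit 489) (B (L (nat_lit 521) ln10_12_5 ln10_12_5_ok) (M (nat_lit 360) (B (L (nat_lit 359) ln11_12_3 ln11_12_3_ok) (L (nat_lit 457) ln9_15_7 ln9_15_7_ok)))))))) (B (M (nat_lit 391) (B (M (nat_lit 423) (B (L (nat_lit 422) ln10_12_1_c10 ln10_12_1_c10_ok) (L (nat_lit 424) ln11_12_1 ln11_12_1_ok))) (B (M (nat_lit 425) (B (L (nat_lit 390) ln6_12_0_c10 ln6_12_0_c10_ok) (M (nat_lit 424) (B (L (nat_lit 423) ln11_12_1 ln11_12_1_ok) (L (nat_lit 396) ln9_12_2 ln9_12_2_ok))))) (M (nat_lit 425) (B (L (nat_lit 390) ln6_12_0_c10 ln6_12_0_c10_ok) (L (nat_lit 396) ln9_12_2 ln9_12_2_ok)))))) (M (nat_lit 425) (B (L (nat_lit 396) ln9_12_2 ln9_12_2_ok) (M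 (nat_lit 489) (B (L (nat_lit 521) ln10_12_5 ln10_12_5_ok) (M (nat_lit 360) (B (L (nat_lit 359) ln11_12_3 ln11_12_3_ok) (L (nat_lit 457) ln9_15_7 ln9_15_7_ok))))))))))))))))))))))
noncomputable def c10_d229 : Cert := (B (M (nat_lit 360) (B (M (nat_lit 457) (B (L (nat_lit 328) ln8_10_4_c10 ln8_10_4_c10_ok) (M (nat_lit 489) (B (L (nat_lit 521) ln9_16_6 ln9_16_6_ok) (L (nat_lit 456) ln8_11_4_c10 ln8_11_4_c10_ok))))) (B (M (nat_lit 329) (B (M (nat_lit 328) (B (L (nat_lit 457) ln8_10_4_c10 ln8_10_4_c10_ok) (L (nat_lit 297) ln8_13_6_c10 ln8_13_6_c10_ok))) (B (M (nat_lit 361) (B (L (nat_lit 456) ln8_14_6_c10 ln8_14_6_c10_ok) (M (nat_lit 297) (B (L (nat_lit 328) ln8_13_6_c10 ln8_13_6_c10_ok) (L (nat_lit 265) ln9_8_5_c10 ln9_8_5_c10_ok))))) (M (nat_lit 456) (B (L (nat_lit 361) ln8_14_6_c10 ln8_14_6_c10_ok) (M (nat_lit 455) (B (L (nat_lit 487) ln8_11_5_c10 ln8_11_5_c10_ok) (M (nat_lit 454) (B (L (nat_lit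 457) ln6_14_2_c10 ln6_14_2_c10_ok) (L (nat_lit 453) ln5_14_2_c10 ln5_14_2_c10_ok)))))))))) (B (M (nat_lit 456) (B (M (nat_lit 455) (B (L (nat_lit 487) ln8_11_5_c10 ln8_11_5_c10_ok) (M (nat_lit 457) (B (L (nat_lit 454) ln6_14_2_c10 ln6_14_2_c10_ok) (L (nat_lit 489) ln8_11_4_c10 ln8_11_4_c10_ok))))) (B (M (nat_lit 488) (B (M (nat_lit 359) (B (L (nat_lit 327) ln8_14_7_c10 ln8_14_7_c10_ok) (L (nat_lit 391) ln8_15_7_c10 ln8_15_7_c10_ok))) (M (nat_lit 489) (B (L (nat_lit 457) ln8_11_4_c10 ln8_11_4_c10_ok) (L (nat_lit 521) ln8_12_4_c10 ln8_12_4_c10_ok))))) (M (nat_lit 488) (B (M (nat_lit 359) (B (L (nat_lit 327) ln8_14_7_c10 ln8_14_7_c10_ok) (L (nat_lit 391) ln8_15_7_c10 ln8_15_7_c10_ok))) (M (nat_lit 487) (B (L (nat_lit 455) ln8_11_5_c10 ln8_11_5_c10_ok) (L (nat_lit 519) ln8_12_5_c10 ln8_12_5_c10_ok)))))))) (B (M (nat_lit 328) (B (L (nat_lit 457) ln8_10_4_c10 ln8_10_4_c10_ok) (M (nat_lit 295) (B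 (L (nat_lit 327) ln8_13_7_c10 ln8_13_7_c10_ok) (M (nat_lit 297) (B (L (nat_lit 329) ln8_13_6_c10 ln8_13_6_c10_ok) (M (nat_lit 296) (B (L (nat_lit 263) ln8_12_7_c10 ln8_12_7_c10_ok) (L (nat_lit 265) ln8_12_6_c10 ln8_12_6_c10_ok))))))))) (M (nat_lit 329) (B (M (nat_lit 297) (B (L (nat_lit 328) ln8_13_6_c10 ln8_13_6_c10_ok) (M (nat_lit 361) (B (L (nat_lit 265) ln9_8_5_c10 ln9_8_5_c10_ok) (L (nat_lit 456) ln8_14_6_c10 ln8_14_6_c10_ok))))) (B (M (nat_lit 327) (B (M (nat_lit 328) (B (L (nat_lit 295) ln8_13_7_c10 ln8_13_7_c10_ok) (L (nat_lit 297) ln8_13_6_c10 ln8_13_6_c10_ok))) (M (nat_lit 456) (B (L (nat_lit 359) ln8_14_7_c10 ln8_14_7_c10_ok) (L (nat_lit 361) ln8_14_6_c10 ln8_14_6_c10_ok))))) (B (M (nat_lit 456) (B (L (nat_lit 361) ln8_14_6_c10 ln8_14_6_c10_ok) (M (nat_lit 488) (B (M (nat_lit 359) (B (L (nat_lit 327) ln8_14_7_c10 ln8_14_7_c10_ok) (L (nat_lit 391) ln8_15_7_c10 ln8_15_7_c10_ok)))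 (M (nat_lit 487) (B (L (nat_lit 455) ln8_11_5_c10 ln8_11_5_c10_ok) (L (nat_lit 519) ln8_12_5_c10 ln8_12_5_c10_ok))))))) (B (M (nat_lit 328) (B (L (nat_lit 297) ln8_13_6_c10 ln8_13_6_c10_ok) (M (nat_lit 327) (B (L (nat_lit 295) ln8_13_7_c10 ln8_13_7_c10_ok) (M (nat_lit 359) (B (L (nat_lit 456) ln8_14_7_c10 ln8_14_7_c10_ok) (M (nat_lit 358) (B (L (nat_lit 330) ln10_10_1_c10 ln10_10_1_c10_ok) (L (nat_lit 357) ln5_11_2_c10 ln5_11_2_c10_ok))))))))) (M (nat_lit 328) (B (L (nat_lit 297) ln8_13_6_c10 ln8_13_6_c10_ok) (M (nat_lit 359) (B (M (nat_lit 327) (B (L (nat_lit 295) ln8_13_7_c10 ln8_13_7_c10_ok) (M (nat_lit 330) (B (L (nat_lit 358) ln10_10_1_c10 ln10_10_1_c10_ok) (L (nat_lit 331) ln11_10_1_c10 ln11_10_1_c10_ok))))) (B (M (nat_lit 330) (B (L (nat_lit 331) ln11_10_1_c10 ln11_10_1_c10_ok) (M (nat_lit 358) (B (L (nat_lit 327) ln10_10_1_c10 ln10_10_1_c10_ok) (L (nat_lit 357) ln5_11_2_c10 ln5_11_2_c10_ok)))))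 (B (M (nat_lit 330) (B (L (nat_lit 331) ln11_10_1_c10 ln11_10_1_c10_ok) (M (nat_lit 358) (B (L (nat_lit 357) ln5_11_2_c10 ln5_11_2_c10_ok) (L (nat_lit 361) ln6_11_2_c10 ln6_11_2_c10_ok))))) (M (nat_lit 296) (B (M (nat_lit 295) (B (L (nat_lit 263) ln8_12_7_c10 ln8_12_7_c10_ok) (L (nat_lit 327) ln8_13_7_c10 ln8_13_7_c10_ok))) (B (M (nat_lit 264) (B (L (nat_lit 391) ln8_8_5_c10 ln8_8_5_c10_ok) (M (nat_lit 232) (B (L (nat_lit 327) ln8_7_5_c10 ln8_7_5_c10_ok) (L (nat_lit 361) ln8_7_4_c10 ln8_7_4_c10_ok))))) (M (nat_lit 264) (B (L (nat_lit 391) ln8_8_5_c10 ln8_8_5_c10_ok) (M (nat_lit 263) (B (L (nat_lit 231) ln8_11_7_c10 ln8_11_7_c10_ok) (L (nat_lit 295) ln8_12_7_c10 ln8_12_7_c10_ok)))))))))))))))))))))))) (B (M (nat_lit 360) (B (M (nat_lit 457) (B (L (nat_lit 328) ln8_10_4_c10 ln8_10_4_c10_ok) (M (nat_lit 489) (B (L (nat_lit 521) ln9_16_6 ln9_16_6_ok) (L (nat_lit 393) ln9_15_7 ln9_15_7_ok)))))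 (B (M (nat_lit 457) (B (L (nat_lit 328) ln8_10_4_c10 ln8_10_4_c10_ok) (M (nat_lit 489) (B (L (nat_lit 456) ln8_11_4_c10 ln8_11_4_c10_ok) (L (nat_lit 393) ln9_15_7 ln9_15_7_ok))))) (B (M (nat_lit 328) (B (L (nat_lit 457) ln8_10_4_c10 ln8_10_4_c10_ok) (M (nat_lit 296) (B (L (nat_lit 393) ln8_9_4_c10 ln8_9_4_c10_ok) (M (nat_lit 297) (B (L (nat_lit 329) ln8_13_6_c10 ln8_13_6_c10_ok) (L (nat_lit 265) ln8_12_6_c10 ln8_12_6_c10_ok))))))) (B (M (nat_lit 328) (B (M (nat_lit 296) (B (L (nat_lit 393) ln8_9_4_c10 ln8_9_4_c10_ok) (M (nat_lit 297) (B (L (nat_lit 329) ln8_13_6_c10 ln8_13_6_c10_ok) (L (nat_lit 265) ln8_12_6_c10 ln8_12_6_c10_ok))))) (B (M (nat_lit 296) (B (M (nat_lit 297) (B (L (nat_lit 329) ln8_13_6_c10 ln8_13_6_c10_ok) (L (nat_lit 265) ln8_12_6_c10 ln8_12_6_c10_ok))) (M (nat_lit 295) (B (L (nat_lit 327) ln8_13_7_c10 ln8_13_7_c10_ok) (L (nat_lit 263) ln8_12_7_c10 ln8_12_7_c10_ok))))) (B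 (M (nat_lit 296) (B (L (nat_lit 393) ln8_9_4_c10 ln8_9_4_c10_ok) (M (nat_lit 295) (B (L (nat_lit 327) ln8_13_7_c10 ln8_13_7_c10_ok) (L (nat_lit 263) ln8_12_7_c10 ln8_12_7_c10_ok))))) (M (nat_lit 456) (B (M (nat_lit 329) (B (L (nat_lit 361) ln8_14_6_c10 ln8_14_6_c10_ok) (L (nat_lit 297) ln8_13_6_c10 ln8_13_6_c10_ok))) (M (nat_lit 488) (B (M (nat_lit 487) (B (L (nat_lit 519) ln8_12_5_c10 ln8_12_5_c10_ok) (L (nat_lit 455) ln8_11_5_c10 ln8_11_5_c10_ok))) (M (nat_lit 521) (B (L (nat_lit 489) ln8_12_4_c10 ln8_12_4_c10_ok) (M (nat_lit 520) (B (L (nat_lit 553) ln8_13_4_c10 ln8_13_4_c10_ok) (L (nat_lit 393) ln8_16_6_c10 ln8_16_6_c10_ok))))))))))))) (B (M (nat_lit 457) (B (L (nat_lit 328) ln8_10_4_c10 ln8_10_4_c10_ok) (M (nat_lit 489) (B (L (nat_lit 521) ln9_16_6 ln9_16_6_ok) (L (nat_lit 456) ln8_11_4_c10 ln8_11_4_c10_ok))))) (M (nat_lit 456) (B (M (nat_lit 488) (B (M (nat_lit 487) (B (L (nat_lit 519)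 ln8_12_5_c10 ln8_12_5_c10_ok) (L (nat_lit 455) ln8_11_5_c10 ln8_11_5_c10_ok))) (M (nat_lit 361) (B (L (nat_lit 393) ln8_15_6_c10 ln8_15_6_c10_ok) (L (nat_lit 329) ln8_14_6_c10 ln8_14_6_c10_ok))))) (B (M (nat_lit 488) (B (M (nat_lit 489) (B (L (nat_lit 521) ln8_12_4_c10 ln8_12_4_c10_ok) (L (nat_lit 457) ln8_11_4_c10 ln8_11_4_c10_ok))) (M (nat_lit 361) (B (L (nat_lit 393) ln8_15_6_c10 ln8_15_6_c10_ok) (L (nat_lit 329) ln8_14_6_c10 ln8_14_6_c10_ok))))) (M (nat_lit 455) (B (L (nat_lit 487) ln8_11_5_c10 ln8_11_5_c10_ok) (M (nat_lit 457) (B (L (nat_lit 489) ln8_11_4_c10 ln8_11_4_c10_ok) (L (nat_lit 454) ln6_14_2_c10 ln6_14_2_c10_ok)))))))))))))) (M (nat_lit 363) (B (L (nat_lit 366) ln14_11_1 ln14_11_1_ok) (L (nat_lit 393) ln8_12_2 ln8_12_2_ok)))))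
noncomputable def c10_d230 : Cert := (B (K (nat_lit 21584202758328614853000082511135567638394197424387600245097027100806378869644806958411638194155571972717031799206283385890719682040994725888) (nat_lit 372141426839350728788380703746250825379715029183097264430300447998201621868725430695506602410219579576008704727768128994804685998187872256) (nat_lit 372141426839350728788380703746250825379715029183097264430300447998201621868725430695506602410219579576008704727768128994804685998187872256) c10_s480) (B (K (nat_lit 21584202758328614853000082511135567638394197424387600245097027100806378869644806958411638194155571972717031799206283385890719682040994725888) (nat_lit 372141426839350728707685395206341657250492881642929901552014711724332070222899797528877986400254669851167227819440557659057908868083351552) (nat_lit 372141426839350728707685395206341657250492881642929901552014711724332070222899797528877986400254669851167227819440557659057908868083351552)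 c10_s481) (B (M (nat_lit 395) (B (L (nat_lit 396) ln13_12_1 ln13_12_1_ok) (M (nat_lit 363) (B (L (nat_lit 366) ln14_11_1 ln14_11_1_ok) (M (nat_lit 362) (B (L (nat_lit 398) ln10_11_0 ln10_11_0_ok) (M (nat_lit 330) (B (L (nat_lit 329) ln13_11_3 ln13_11_3_ok) (L (nat_lit 457) ln10_10_5 ln10_10_5_ok))))))))) (B (M (nat_lit 395) (B (M (nat_lit 363) (B (L (nat_lit 490) ln10_15_6 ln10_15_6_ok) (L (nat_lit 366) ln14_11_1 ln14_11_1_ok))) (L (nat_lit 396) ln13_12_1 ln13_12_1_ok))) (M (nat_lit 393) (B (M (nat_lit 395) (B (L (nat_lit 396) ln9_12_2 ln9_12_2_ok) (M (nat_lit 392) (B (M (nat_lit 359) (B (L (nat_lit 360) ln11_12_3 ln11_12_3_ok) (M (nat_lit 391) (B (L (nat_lit 358) ln10_12_3_c10 ln10_12_3_c10_ok) (L (nat_lit 390) ln6_12_0_c10 ln6_12_0_c10_ok))))) (B (M (nat_lit 423) (B (L (nat_lit 424) ln11_12_1 ln11_12_1_ok) (M (nat_lit 391) (B (L (nat_lit 422) ln10_12_1_c10 ln10_12_1_c10_ok) (L (nat_lit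 390) ln6_12_0_c10 ln6_12_0_c10_ok))))) (B (M (nat_lit 391) (B (M (nat_lit 423) (B (L (nat_lit 422) ln10_12_1_c10 ln10_12_1_c10_ok) (L (nat_lit 424) ln11_12_1 ln11_12_1_ok))) (M (nat_lit 359) (B (L (nat_lit 358) ln10_12_3_c10 ln10_12_3_c10_ok) (L (nat_lit 360) ln11_12_3 ln11_12_3_ok))))) (M (nat_lit 424) (B (L (nat_lit 423) ln11_12_1 ln11_12_1_ok) (M (nat_lit 360) (B (L (nat_lit 359) ln11_12_3 ln11_12_3_ok) (M (nat_lit 456) (B (M (nat_lit 361) (B (L (nat_lit 329) ln9_10_4_c10 ln9_10_4_c10_ok) (L (nat_lit 488) ln8_15_6_c10 ln8_15_6_c10_ok))) (B (M (nat_lit 329) (B (L (nat_lit 361) ln9_10_4_c10 ln9_10_4_c10_ok) (M (nat_lit 328) (B (L (nat_lit 296) ln8_9_4_c10 ln8_9_4_c10_ok) (L (nat_lit 297) ln8_13_6_c10 ln8_13_6_c10_ok))))) (B (M (nat_lit 488) (B (L (nat_lit 361) ln8_15_6_c10 ln8_15_6_c10_ok) (L (nat_lit 520) ln8_16_6_c10 ln8_16_6_c10_ok))) (M (nat_lit 487) (B (L (nat_lit 455) ln8_11_5_c10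 ln8_11_5_c10_ok) (M (nat_lit 488) (B (L (nat_lit 519) ln8_12_5_c10 ln8_12_5_c10_ok) (L (nat_lit 520) ln8_16_6_c10 ln8_16_6_c10_ok))))))))))))))))))) (B (M (nat_lit 361) (B (L (nat_lit 490) ln10_15_7 ln10_15_7_ok) (L (nat_lit 329) ln9_10_4_c10 ln9_10_4_c10_ok))) (B (M (nat_lit 490) (B (L (nat_lit 361) ln10_15_7 ln10_15_7_ok) (L (nat_lit 522) ln10_16_7 ln10_16_7_ok))) (M (nat_lit 392) (B (M (nat_lit 391) (B (L (nat_lit 390) ln6_12_0_c10 ln6_12_0_c10_ok) (M (nat_lit 423) (B (L (nat_lit 422) ln10_12_1_c10 ln10_12_1_c10_ok) (M (nat_lit 395) (B (L (nat_lit 424) ln11_12_1 ln11_12_1_ok) (M (nat_lit 359) (B (L (nat_lit 360) ln11_12_3 ln11_12_3_ok) (L (nat_lit 358) ln10_12_3_c10 ln10_12_3_c10_ok))))))))) (B (M (nat_lit 391) (B (L (nat_lit 390) ln6_12_0_c10 ln6_12_0_c10_ok) (M (nat_lit 423) (B (L (nat_lit 422) ln10_12_1_c10 ln10_12_1_c10_ok) (M (nat_lit 424) (B (L (nat_lit 395) ln11_12_1 ln11_12_1_ok)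 (M (nat_lit 359) (B (L (nat_lit 358) ln10_12_3_c10 ln10_12_3_c10_ok) (M (nat_lit 327) (B (L (nat_lit 295) ln7_9_4_c10 ln7_9_4_c10_ok) (L (nat_lit 456) ln7_10_4_c10 ln7_10_4_c10_ok))))))))))) (B (M (nat_lit 391) (B (L (nat_lit 390) ln6_12_0_c10 ln6_12_0_c10_ok) (M (nat_lit 423) (B (L (nat_lit 422) ln10_12_1_c10 ln10_12_1_c10_ok) (M (nat_lit 424) (B (L (nat_lit 395) ln11_12_1 ln11_12_1_ok) (M (nat_lit 455) (B (L (nat_lit 454) ln10_13_1_c10 ln10_13_1_c10_ok) (M (nat_lit 360) (B (L (nat_lit 328) ln8_10_5_c10 ln8_10_5_c10_ok) (L (nat_lit 487) ln7_15_6_c10 ln7_15_6_c10_ok))))))))))) (B (M (nat_lit 391) (B (L (nat_lit 390) ln6_12_0_c10 ln6_12_0_c10_ok) (M (nat_lit 423) (B (L (nat_lit 422) ln10_12_1_c10 ln10_12_1_c10_ok) (M (nat_lit 424) (B (M (nat_lit 359) (B (L (nat_lit 358) ln10_12_3_c10 ln10_12_3_c10_ok) (M (nat_lit 327) (B (L (nat_lit 295) ln7_9_4_c10 ln7_9_4_c10_ok) (L (nat_lit 456) ln7_10_4_c10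 ln7_10_4_c10_ok))))) (M (nat_lit 455) (B (L (nat_lit 454) ln10_13_1_c10 ln10_13_1_c10_ok) (M (nat_lit 360) (B (L (nat_lit 328) ln8_10_5_c10 ln8_10_5_c10_ok) (L (nat_lit 487) ln7_15_6_c10 ln7_15_6_c10_ok))))))))))) (B (M (nat_lit 424) (B (M (nat_lit 395) (B (L (nat_lit 396) ln9_12_2 ln9_12_2_ok) (L (nat_lit 423) ln11_12_1 ln11_12_1_ok))) (B (M (nat_lit 423) (B (L (nat_lit 395) ln11_12_1 ln11_12_1_ok) (L (nat_lit 422) ln6_13_2_c10 ln6_13_2_c10_ok))) (B (M (nat_lit 423) (B (L (nat_lit 422) ln6_13_2_c10 ln6_13_2_c10_ok) (M (nat_lit 455) (B (L (nat_lit 454) ln10_13_1_c10 ln10_13_1_c10_ok) (M (nat_lit 360) (B (L (nat_lit 328) ln8_10_5_c10 ln8_10_5_c10_ok) (M (nat_lit 487) (B (L (nat_lit 456) ln8_11_5_c10 ln8_11_5_c10_ok) (L (nat_lit 519) ln7_16_6_c10 ln7_16_6_c10_ok))))))))) (M (nat_lit 360) (B (M (nat_lit 328) (B (L (nat_lit 296) ln8_9_4_c10 ln8_9_4_c10_ok) (L (nat_lit 457) ln8_10_4_c10 ln8_10_4_c10_ok)))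 (M (nat_lit 395) (B (L (nat_lit 359) ln11_12_3 ln11_12_3_ok) (L (nat_lit 396) ln9_12_2 ln9_12_2_ok))))))))) (B (M (nat_lit 391) (B (L (nat_lit 390) ln6_12_0_c10 ln6_12_0_c10_ok) (M (nat_lit 423) (B (L (nat_lit 422) ln10_12_1_c10 ln10_12_1_c10_ok) (M (nat_lit 359) (B (L (nat_lit 358) ln10_12_3_c10 ln10_12_3_c10_ok) (M (nat_lit 360) (B (L (nat_lit 395) ln11_12_3 ln11_12_3_ok) (M (nat_lit 328) (B (L (nat_lit 296) ln8_9_4_c10 ln8_9_4_c10_ok) (L (nat_lit 455) ln7_14_6_c10 ln7_14_6_c10_ok))))))))))) (M (nat_lit 391) (B (L (nat_lit 390) ln6_12_0_c10 ln6_12_0_c10_ok) (M (nat_lit 359) (B (L (nat_lit 358) ln10_12_3_c10 ln10_12_3_c10_ok) (M (nat_lit 360) (B (L (nat_lit 395) ln11_12_3 ln11_12_3_ok) (M (nat_lit 424) (B (M (nat_lit 328) (B (L (nat_lit 296) ln8_9_4_c10 ln8_9_4_c10_ok) (L (nat_lit 457) ln8_10_4_c10 ln8_10_4_c10_ok))) (M (nat_lit 327) (B (L (nat_lit 295) ln7_9_4_c10 ln7_9_4_c10_ok) (L (nat_lit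 456) ln8_14_7_c10 ln8_14_7_c10_ok))))))))))))))))))))))))))
noncomputable def c10_d231 : Cert := (B (M (nat_lit 425) (B (L (nat_lit 459) ln13_14_3 ln13_14_3_ok) (M (nat_lit 394) (B (M (nat_lit 395) (B (M (nat_lit 366) (B (L (nat_lit 363) ln14_11_1 ln14_11_1_ok) (L (nat_lit 396) ln10_12_2 ln10_12_2_ok))) (B (L (nat_lit 396) ln13_12_1 ln13_12_1_ok) (M (nat_lit 363) (B (L (nat_lit 366) ln14_11_1 ln14_11_1_ok) (M (nat_lit 393) (B (L (nat_lit 362) ln13_11_1 ln13_11_1_ok) (L (nat_lit 392) ln8_12_2 ln8_12_2_ok)))))))) (B (K (nat_lit 21584202758328614853000082511135567638394197424387600245097027100806378869644806958411638194155571972717031799206283385890719682040994725888) (nat_lit 372141426839350728788380703746250825379715029183097264430300447998201621868725430695506602410219579576008704727768128994804685998187872256) (nat_lit 372141426839350728788380703746250825379715029183097264430300447998201621868725430695506602410219579576008704727768128994804685998187872256)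 c10_s480) (B (K (nat_lit 21584202758328614853000082511135567638394197424387600245097027100806378869644806958411638194155571972717031799206283385890719682040994725888) (nat_lit 372141426839350728707685395206341657250492881642929901552014711724332070222899797528877986400254669851167227819440557659057908868083351552) (nat_lit 372141426839350728707685395206341657250492881642929901552014711724332070222899797528877986400254669851167227819440557659057908868083351552) c10_s481) (B (M (nat_lit 395) (B (L (nat_lit 396) ln13_12_1 ln13_12_1_ok) (M (nat_lit 424) (B (L (nat_lit 423) ln7_13_2 ln7_13_2_ok) (M (nat_lit 392) (B (M (nat_lit 393) (B (L (nat_lit 363) ln8_12_2 ln8_12_2_ok) (M (nat_lit 360) (B (L (nat_lit 359) ln11_12_3 ln11_12_3_ok) (M (nat_lit 328) (B (L (nat_lit 296) ln8_9_4_c10 ln8_9_4_c10_ok) (L (nat_lit 457) ln8_10_4_c10 ln8_10_4_c10_ok))))))) (B (M (nat_lit 360) (B (M (nat_lit 457) (B (L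 (nat_lit 328) ln8_10_4_c10 ln8_10_4_c10_ok) (M (nat_lit 489) (B (L (nat_lit 456) ln8_11_4_c10 ln8_11_4_c10_ok) (L (nat_lit 521) ln9_16_6 ln9_16_6_ok))))) (B (M (nat_lit 457) (B (L (nat_lit 328) ln8_10_4_c10 ln8_10_4_c10_ok) (M (nat_lit 489) (B (L (nat_lit 521) ln9_16_6 ln9_16_6_ok) (L (nat_lit 393) ln9_15_7 ln9_15_7_ok))))) (B (M (nat_lit 456) (B (M (nat_lit 359) (B (L (nat_lit 327) ln8_14_7_c10 ln8_14_7_c10_ok) (L (nat_lit 393) ln11_12_3 ln11_12_3_ok))) (M (nat_lit 488) (B (M (nat_lit 487) (B (L (nat_lit 519) ln8_12_5_c10 ln8_12_5_c10_ok) (L (nat_lit 455) ln8_11_5_c10 ln8_11_5_c10_ok))) (M (nat_lit 489) (B (L (nat_lit 521) ln8_12_4_c10 ln8_12_4_c10_ok) (L (nat_lit 457) ln8_11_4_c10 ln8_11_4_c10_ok))))))) (B (M (nat_lit 457) (B (L (nat_lit 328) ln8_10_4_c10 ln8_10_4_c10_ok) (M (nat_lit 489) (B (L (nat_lit 456) ln8_11_4_c10 ln8_11_4_c10_ok) (L (nat_lit 393) ln9_15_7 ln9_15_7_ok))))) (M (nat_lit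 456) (B (M (nat_lit 359) (B (L (nat_lit 327) ln8_14_7_c10 ln8_14_7_c10_ok) (L (nat_lit 393) ln11_12_3 ln11_12_3_ok))) (B (M (nat_lit 488) (B (M (nat_lit 487) (B (L (nat_lit 519) ln8_12_5_c10 ln8_12_5_c10_ok) (L (nat_lit 455) ln8_11_5_c10 ln8_11_5_c10_ok))) (M (nat_lit 393) (B (L (nat_lit 520) ln8_16_6_c10 ln8_16_6_c10_ok) (L (nat_lit 361) ln8_15_6_c10 ln8_15_6_c10_ok))))) (M (nat_lit 488) (B (M (nat_lit 487) (B (L (nat_lit 519) ln8_12_5_c10 ln8_12_5_c10_ok) (L (nat_lit 455) ln8_11_5_c10 ln8_11_5_c10_ok))) (M (nat_lit 359) (B (L (nat_lit 391) ln8_15_7_c10 ln8_15_7_c10_ok) (L (nat_lit 327) ln8_14_7_c10 ln8_14_7_c10_ok))))))))))))) c10_d229))))))) (B (M (nat_lit 395) (B (L (nat_lit 396) ln13_12_1 ln13_12_1_ok) (M (nat_lit 363) (B (L (nat_lit 366) ln14_11_1 ln14_11_1_ok) (M (nat_lit 362) (B (L (nat_lit 398) ln10_11_0 ln10_11_0_ok) (M (nat_lit 330) (B (L (nat_lit 329) ln13_11_3 ln13_11_3_ok) (L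 (nat_lit 457) ln10_10_5 ln10_10_5_ok))))))))) (M (nat_lit 395) (B (L (nat_lit 396) ln13_12_1 ln13_12_1_ok) (M (nat_lit 424) (B (L (nat_lit 423) ln7_13_2 ln7_13_2_ok) (M (nat_lit 457) (B (M (nat_lit 362) (B (L (nat_lit 330) ln10_10_5 ln10_10_5_ok) (M (nat_lit 361) (B (L (nat_lit 329) ln10_14_7 ln10_14_7_ok) (M (nat_lit 360) (B (L (nat_lit 359) ln7_11_0 ln7_11_0_ok) (M (nat_lit 328) (B (L (nat_lit 392) ln8_10_4_c10 ln8_10_4_c10_ok) (L (nat_lit 393) ln9_14_7_c10 ln9_14_7_c10_ok))))))))) (B (M (nat_lit 489) (B (L (nat_lit 362) ln10_11_5 ln10_11_5_ok) (L (nat_lit 521) ln9_16_6 ln9_16_6_ok))) (M (nat_lit 489) (B (M (nat_lit 392) (B (M (nat_lit 360) (B (L (nat_lit 456) ln8_11_4_c10 ln8_11_4_c10_ok) (L (nat_lit 393) ln9_15_7 ln9_15_7_ok))) (L (nat_lit 521) ln9_16_6 ln9_16_6_ok))) (B (L (nat_lit 521) ln9_16_6 ln9_16_6_ok) (M (nat_lit 393) (B (M (nat_lit 361) (B (M (nat_lit 360) (B (L (nat_lit 328)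 ln9_14_7_c10 ln9_14_7_c10_ok) (L (nat_lit 392) ln9_15_7 ln9_15_7_ok))) (M (nat_lit 456) (B (L (nat_lit 329) ln9_10_4_c10 ln9_10_4_c10_ok) (L (nat_lit 488) ln9_11_5_c10 ln9_11_5_c10_ok))))) (B (M (nat_lit 361) (B (M (nat_lit 360) (B (L (nat_lit 328) ln9_14_7_c10 ln9_14_7_c10_ok) (L (nat_lit 392) ln9_15_7 ln9_15_7_ok))) (B (M (nat_lit 392) (B (L (nat_lit 360) ln9_15_7 ln9_15_7_ok) (L (nat_lit 329) ln9_10_4_c10 ln9_10_4_c10_ok))) (L (nat_lit 329) ln9_10_4_c10 ln9_10_4_c10_ok)))) (B (M (nat_lit 392) (B (L (nat_lit 360) ln9_15_7 ln9_15_7_ok) (M (nat_lit 488) (B (L (nat_lit 520) ln9_12_5_c10 ln9_12_5_c10_ok) (M (nat_lit 456) (B (M (nat_lit 487) (B (L (nat_lit 519) ln8_12_5_c10 ln8_12_5_c10_ok) (L (nat_lit 486) ln6_15_2 ln6_15_2_ok))) (M (nat_lit 391) (B (L (nat_lit 359) ln8_15_7_c10 ln8_15_7_c10_ok) (L (nat_lit 390) ln6_12_0_c10 ln6_12_0_c10_ok))))))))) (M (nat_lit 361) (B (M (nat_lit 456) (B (L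 (nat_lit 329) ln9_10_4_c10 ln9_10_4_c10_ok) (L (nat_lit 488) ln9_11_5_c10 ln9_11_5_c10_ok))) (B (L (nat_lit 329) ln9_10_4_c10 ln9_10_4_c10_ok) (M (nat_lit 488) (B (L (nat_lit 456) ln9_11_5_c10 ln9_11_5_c10_ok) (L (nat_lit 520) ln9_12_5_c10 ln9_12_5_c10_ok)))))))))))))))))))))))))))) (M (nat_lit 425) (B (L (nat_lit 459) ln13_14_3 ln13_14_3_ok) (M (nat_lit 394) (B (M (nat_lit 395) (B (M (nat_lit 366) (B (L (nat_lit 363) ln14_11_1 ln14_11_1_ok) (L (nat_lit 396) ln10_12_2 ln10_12_2_ok))) (B (L (nat_lit 396) ln13_12_1 ln13_12_1_ok) (M (nat_lit 363) (B (L (nat_lit 366) ln14_11_1 ln14_11_1_ok) (M (nat_lit 393) (B (L (nat_lit 362) ln13_11_1 ln13_11_1_ok) (L (nat_lit 392) ln8_12_2 ln8_12_2_ok)))))))) c10_d230)))))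
noncomputable def c10_d232 : Cert := (B (M (nat_lit 490) (B (M (nat_lit 491) (B (L (nat_lit 459) ln14_14_1 ln14_14_1_ok) (M (nat_lit 523) (B (L (nat_lit 394) ln10_12_4 ln10_12_4_ok) (M (nat_lit 555) (B (L (nat_lit 587) ln11_18_7 ln11_18_7_ok) (L (nat_lit 522) ln10_13_4 ln10_13_4_ok))))))) (B (M (nat_lit 459) (B (L (nat_lit 489) ln13_14_1 ln13_14_1_ok) (L (nat_lit 491) ln14_14_1 ln14_14_1_ok))) (B (M (nat_lit 489) (B (L (nat_lit 459) ln13_14_1 ln13_14_1_ok) (M (nat_lit 521) (B (L (nat_lit 394) ln10_12_5 ln10_12_5_ok) (M (nat_lit 553) (B (L (nat_lit 522) ln10_13_5 ln10_13_5_ok) (L (nat_lit 457) ln9_17_6 ln9_17_6_ok))))))) (M (nat_lit 394) (B (M (nat_lit 523) (B (L (nat_lit 491) ln10_12_4 ln10_12_4_ok) (M (nat_lit 522) (B (L (nat_lit 555) ln10_13_4 ln10_13_4_ok) (M (nat_lit 521) (B (L (nat_lit 553) ln10_13_5 ln10_13_5_ok) (L (nat_lit 489) ln10_12_5 ln10_12_5_ok))))))) (M (nat_lit 363) (B (L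 (nat_lit 395) ln10_15_6 ln10_15_6_ok) (M (nat_lit 362) (B (L (nat_lit 331) ln10_14_6 ln10_14_6_ok) (M (nat_lit 361) (B (L (nat_lit 393) ln13_11_1 ln13_11_1_ok) (L (nat_lit 329) ln10_14_7 ln10_14_7_ok))))))))))))) (B (K (nat_lit 21584202758241968925018459392428634248426352321592664525955131179819344765362620990096764774341559628860189228745737756931989833359265103872) (nat_lit 29484081464512684799573980084062624309218159599162811395544749156846627954778205410069901125018213870327407204077181802224189716460378527300026881464915770235991097344) (nat_lit 29484081464512684799573980084062624309218159599162811395544749156846627954778205410069901125018213870327407204077181802224189716460378527300026881464915770235991097344) c10_s478) (B (M (nat_lit 490) (B (M (nat_lit 394) (B (M (nat_lit 521) (B (L (nat_lit 489) ln10_12_5 ln10_12_5_ok) (M (nat_lit 522) (B (L (nat_lit 553) ln10_13_5 ln10_13_5_ok)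 (M (nat_lit 523) (B (L (nat_lit 555) ln10_13_4 ln10_13_4_ok) (L (nat_lit 491) ln10_12_4 ln10_12_4_ok))))))) (M (nat_lit 361) (B (L (nat_lit 393) ln10_15_7 ln10_15_7_ok) (M (nat_lit 362) (B (L (nat_lit 329) ln10_14_7 ln10_14_7_ok) (M (nat_lit 363) (B (L (nat_lit 395) ln10_15_6 ln10_15_6_ok) (L (nat_lit 331) ln10_14_6 ln10_14_6_ok))))))))) (B (M (nat_lit 394) (B (M (nat_lit 522) (B (M (nat_lit 523) (B (L (nat_lit 555) ln10_13_4 ln10_13_4_ok) (L (nat_lit 491) ln10_12_4 ln10_12_4_ok))) (M (nat_lit 393) (B (L (nat_lit 425) ln10_16_7 ln10_16_7_ok) (L (nat_lit 361) ln10_15_7 ln10_15_7_ok))))) (M (nat_lit 362) (B (M (nat_lit 489) (B (L (nat_lit 521) ln10_12_5 ln10_12_5_ok) (L (nat_lit 457) ln10_11_5 ln10_11_5_ok))) (M (nat_lit 363) (B (L (nat_lit 395) ln10_15_6 ln10_15_6_ok) (L (nat_lit 331) ln10_14_6 ln10_14_6_ok))))))) (B (M (nat_lit 522) (B (M (nat_lit 555) (B (L (nat_lit 523) ln10_13_4 ln10_13_4_ok)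 (M (nat_lit 554) (B (L (nat_lit 587) ln10_14_4 ln10_14_4_ok) (M (nat_lit 553) (B (L (nat_lit 521) ln10_13_5 ln10_13_5_ok) (L (nat_lit 585) ln10_14_5 ln10_14_5_ok))))))) (B (M (nat_lit 554) (B (M (nat_lit 425) (B (L (nat_lit 393) ln10_16_7 ln10_16_7_ok) (L (nat_lit 457) ln10_17_7 ln10_17_7_ok))) (M (nat_lit 553) (B (L (nat_lit 521) ln10_13_5 ln10_13_5_ok) (L (nat_lit 585) ln10_14_5 ln10_14_5_ok))))) (B (M (nat_lit 554) (B (M (nat_lit 425) (B (L (nat_lit 393) ln10_16_7 ln10_16_7_ok) (L (nat_lit 457) ln10_17_7 ln10_17_7_ok))) (M (nat_lit 555) (B (L (nat_lit 523) ln10_13_4 ln10_13_4_ok) (L (nat_lit 587) ln10_14_4 ln10_14_4_ok))))) (M (nat_lit 394) (B (M (nat_lit 393) (B (L (nat_lit 361) ln10_15_7 ln10_15_7_ok) (L (nat_lit 425) ln10_16_7 ln10_16_7_ok))) (M (nat_lit 523) (B (L (nat_lit 491) ln10_12_4 ln10_12_4_ok) (L (nat_lit 555) ln10_13_4 ln10_13_4_ok))))))))) (B (K (nat_lit 3196670537107778803176724488326661689515198746515282780072441252611511840370784760365814439633780552809222406328509610590676484027581037512906244096)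 (nat_lit 29484081464512684796377309567050482556926001124009593939903551372401439989610801295957028536544824613267974807568126751894739156723616501205455021961445701946947141632) (nat_lit 29484081464512684796377309567050482556926001124009593939903551372401439989610801295957028536544824613267974807568126751894739156723616501205455021961445701946947141632) c10_s479) (B (M (nat_lit 394) (B (M (nat_lit 362) (B (M (nat_lit 363) (B (L (nat_lit 331) ln10_14_6 ln10_14_6_ok) (L (nat_lit 395) ln10_15_6 ln10_15_6_ok))) (M (nat_lit 361) (B (L (nat_lit 329) ln10_14_7 ln10_14_7_ok) (L (nat_lit 393) ln10_15_7 ln10_15_7_ok))))) (B (M (nat_lit 522) (B (M (nat_lit 393) (B (L (nat_lit 361) ln10_15_7 ln10_15_7_ok) (L (nat_lit 425) ln10_16_7 ln10_16_7_ok))) (M (nat_lit 523) (B (L (nat_lit 491) ln10_12_4 ln10_12_4_ok) (L (nat_lit 555) ln10_13_4 ln10_13_4_ok))))) (B (M (nat_lit 425) (B (M (nat_lit 523) (B (L (nat_lit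 491) ln10_12_4 ln10_12_4_ok) (M (nat_lit 522) (B (L (nat_lit 393) ln10_16_7 ln10_16_7_ok) (L (nat_lit 555) ln10_13_4 ln10_13_4_ok))))) (M (nat_lit 362) (B (M (nat_lit 363) (B (L (nat_lit 331) ln10_14_6 ln10_14_6_ok) (L (nat_lit 395) ln10_15_6 ln10_15_6_ok))) (M (nat_lit 457) (B (L (nat_lit 330) ln10_10_5 ln10_10_5_ok) (L (nat_lit 489) ln10_11_5 ln10_11_5_ok))))))) (M (nat_lit 362) (B (M (nat_lit 363) (B (L (nat_lit 331) ln10_14_6 ln10_14_6_ok) (L (nat_lit 395) ln10_15_6 ln10_15_6_ok))) (M (nat_lit 330) (B (M (nat_lit 329) (B (L (nat_lit 297) ln10_13_7_c10 ln10_13_7_c10_ok) (L (nat_lit 361) ln10_14_7 ln10_14_7_ok))) (M (nat_lit 457) (B (L (nat_lit 425) ln10_10_5 ln10_10_5_ok) (L (nat_lit 489) ln10_11_5 ln10_11_5_ok))))))))))) (B (M (nat_lit 522) (B (M (nat_lit 554) (B (M (nat_lit 425) (B (L (nat_lit 393) ln10_16_7 ln10_16_7_ok) (L (nat_lit 457) ln10_17_7 ln10_17_7_ok))) (M (nat_lit 553) (B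 (L (nat_lit 521) ln10_13_5 ln10_13_5_ok) (L (nat_lit 585) ln10_14_5 ln10_14_5_ok))))) (B (M (nat_lit 554) (B (M (nat_lit 553) (B (L (nat_lit 521) ln10_13_5 ln10_13_5_ok) (L (nat_lit 585) ln10_14_5 ln10_14_5_ok))) (M (nat_lit 555) (B (L (nat_lit 523) ln10_13_4 ln10_13_4_ok) (L (nat_lit 587) ln10_14_4 ln10_14_4_ok))))) (B (M (nat_lit 554) (B (M (nat_lit 425) (B (L (nat_lit 393) ln10_16_7 ln10_16_7_ok) (L (nat_lit 457) ln10_17_7 ln10_17_7_ok))) (M (nat_lit 555) (B (L (nat_lit 523) ln10_13_4 ln10_13_4_ok) (L (nat_lit 587) ln10_14_4 ln10_14_4_ok))))) (M (nat_lit 394) (B (M (nat_lit 521) (B (L (nat_lit 489) ln10_12_5 ln10_12_5_ok) (L (nat_lit 553) ln10_13_5 ln10_13_5_ok))) (M (nat_lit 523) (B (L (nat_lit 491) ln10_12_4 ln10_12_4_ok) (L (nat_lit 555) ln10_13_4 ln10_13_4_ok))))))))) c10_d228))))))) c10_d231)))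
noncomputable def c10_d233 : Cert := (B (M (nat_lit 363) (B (M (nat_lit 398) (B (L (nat_lit 362) ln10_11_0 ln10_11_0_ok) (M (nat_lit 399) (B (L (nat_lit 400) ln16_12_3 ln16_12_3_ok) (L (nat_lit 366) ln11_11_0 ln11_11_0_ok))))) (B (M (nat_lit 398) (B (L (nat_lit 362) ln10_11_0 ln10_11_0_ok) (M (nat_lit 399) (B (L (nat_lit 366) ln11_11_0 ln11_11_0_ok) (L (nat_lit 396) ln15_12_3 ln15_12_3_ok))))) (B (M (nat_lit 362) (B (L (nat_lit 398) ln10_11_0 ln10_11_0_ok) (M (nat_lit 329) (B (L (nat_lit 330) ln13_11_3 ln13_11_3_ok) (M (nat_lit 393) (B (L (nat_lit 394) ln13_11_1 ln13_11_1_ok) (M (nat_lit 361) (B (L (nat_lit 328) ln12_11_3 ln12_11_3_ok) (L (nat_lit 392) ln12_11_1 ln12_11_1_ok))))))))) (B (M (nat_lit 362) (B (M (nat_lit 361) (B (L (nat_lit 396) ln9_11_0 ln9_11_0_ok) (M (nat_lit 393) (B (L (nat_lit 392) ln12_11_1 ln12_11_1_ok) (L (nat_lit 394) ln13_11_1 ln13_11_1_ok))))) (B (M (nat_lit 366)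 (B (M (nat_lit 330) (B (L (nat_lit 329) ln13_11_3 ln13_11_3_ok) (L (nat_lit 331) ln14_11_3 ln14_11_3_ok))) (M (nat_lit 394) (B (L (nat_lit 393) ln13_11_1 ln13_11_1_ok) (L (nat_lit 395) ln14_11_1 ln14_11_1_ok))))) (M (nat_lit 361) (B (L (nat_lit 396) ln9_11_0 ln9_11_0_ok) (M (nat_lit 329) (B (L (nat_lit 328) ln12_11_3 ln12_11_3_ok) (L (nat_lit 330) ln13_11_3 ln13_11_3_ok)))))))) (M (nat_lit 366) (B (M (nat_lit 367) (B (M (nat_lit 396) (B (L (nat_lit 368) ln16_11_1 ln16_11_1_ok) (L (nat_lit 395) ln15_11_1 ln15_11_1_ok))) (M (nat_lit 399) (B (L (nat_lit 400) ln12_11_0 ln12_11_0_ok) (L (nat_lit 398) ln11_11_0 ln11_11_0_ok))))) (B (M (nat_lit 367) (B (M (nat_lit 399) (B (L (nat_lit 398) ln11_11_0 ln11_11_0_ok) (L (nat_lit 400) ln12_11_0 ln12_11_0_ok))) (B (M (nat_lit 368) (B (M (nat_lit 400) (B (L (nat_lit 399) ln12_11_0 ln12_11_0_ok) (L (nat_lit 401) ln13_11_0 ln13_11_0_ok))) (M (nat_lit 336)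 (B (L (nat_lit 335) ln12_11_2 ln12_11_2_ok) (L (nat_lit 337) ln13_11_2 ln13_11_2_ok))))) (B (M (nat_lit 368) (B (M (nat_lit 336) (B (L (nat_lit 335) ln12_11_2 ln12_11_2_ok) (L (nat_lit 337) ln13_11_2 ln13_11_2_ok))) (M (nat_lit 401) (B (L (nat_lit 400) ln13_11_0 ln13_11_0_ok) (M (nat_lit 369) (B (L (nat_lit 398) ln17_11_1 ln17_11_1_ok) (L (nat_lit 402) ln14_11_0 ln14_11_0_ok))))))) (M (nat_lit 368) (B (M (nat_lit 398) (B (L (nat_lit 399) ln11_11_0 ln11_11_0_ok) (L (nat_lit 369) ln17_11_1 ln17_11_1_ok))) (M (nat_lit 336) (B (L (nat_lit 335) ln12_11_2 ln12_11_2_ok) (L (nat_lit 337) ln13_11_2 ln13_11_2_ok))))))))) (B (M (nat_lit 367) (B (M (nat_lit 396) (B (L (nat_lit 368) ln16_11_1 ln16_11_1_ok) (L (nat_lit 395) ln15_11_1 ln15_11_1_ok))) (B (M (nat_lit 395) (B (L (nat_lit 396) ln15_11_1 ln15_11_1_ok) (L (nat_lit 394) ln14_11_1 ln14_11_1_ok))) (M (nat_lit 368) (B (M (nat_lit 336) (B (L (nat_lit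 337) ln13_11_2 ln13_11_2_ok) (L (nat_lit 335) ln12_11_2 ln12_11_2_ok))) (M (nat_lit 400) (B (L (nat_lit 401) ln13_11_0 ln13_11_0_ok) (L (nat_lit 399) ln12_11_0 ln12_11_0_ok)))))))) (B (M (nat_lit 367) (B (M (nat_lit 395) (B (L (nat_lit 394) ln14_11_1 ln14_11_1_ok) (L (nat_lit 396) ln15_11_1 ln15_11_1_ok))) (B (M (nat_lit 396) (B (L (nat_lit 395) ln15_11_1 ln15_11_1_ok) (L (nat_lit 368) ln16_11_1 ln16_11_1_ok))) (B (M (nat_lit 368) (B (L (nat_lit 396) ln16_11_1 ln16_11_1_ok) (M (nat_lit 336) (B (L (nat_lit 335) ln12_11_2 ln12_11_2_ok) (L (nat_lit 337) ln13_11_2 ln13_11_2_ok))))) (M (nat_lit 368) (B (M (nat_lit 336) (B (L (nat_lit 335) ln12_11_2 ln12_11_2_ok) (L (nat_lit 337) ln13_11_2 ln13_11_2_ok))) (M (nat_lit 401) (B (L (nat_lit 400) ln13_11_0 ln13_11_0_ok) (M (nat_lit 369) (B (L (nat_lit 398) ln17_11_1 ln17_11_1_ok) (L (nat_lit 402) ln14_11_0 ln14_11_0_ok))))))))))) (B (M (nat_lit 367)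 (B (M (nat_lit 395) (B (L (nat_lit 394) ln14_11_1 ln14_11_1_ok) (L (nat_lit 396) ln15_11_1 ln15_11_1_ok))) (B (M (nat_lit 396) (B (L (nat_lit 395) ln15_11_1 ln15_11_1_ok) (L (nat_lit 368) ln16_11_1 ln16_11_1_ok))) (B (M (nat_lit 398) (B (L (nat_lit 399) ln11_11_0 ln11_11_0_ok) (M (nat_lit 368) (B (L (nat_lit 396) ln16_11_1 ln16_11_1_ok) (L (nat_lit 369) ln17_11_1 ln17_11_1_ok))))) (M (nat_lit 368) (B (M (nat_lit 398) (B (L (nat_lit 369) ln17_11_1 ln17_11_1_ok) (L (nat_lit 399) ln11_11_0 ln11_11_0_ok))) (M (nat_lit 336) (B (L (nat_lit 335) ln12_11_2 ln12_11_2_ok) (L (nat_lit 337) ln13_11_2 ln13_11_2_ok))))))))) (M (nat_lit 395) (B (L (nat_lit 394) ln14_11_1 ln14_11_1_ok) (M (nat_lit 398) (B (L (nat_lit 399) ln11_11_0 ln11_11_0_ok) (M (nat_lit 331) (B (L (nat_lit 330) ln14_11_3 ln14_11_3_ok) (M (nat_lit 427) (B (L (nat_lit 396) ln14_12_1 ln14_12_1_ok) (L (nat_lit 458) ln11_10_5 ln11_10_5_ok))))))))))))))))))))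 (B (M (nat_lit 458) (B (M (nat_lit 459) (B (L (nat_lit 425) ln13_14_3 ln13_14_3_ok) (M (nat_lit 490) (B (L (nat_lit 489) ln13_14_1 ln13_14_1_ok) (L (nat_lit 491) ln14_14_1 ln14_14_1_ok))))) c10_d232)) (M (nat_lit 427) (B (L (nat_lit 459) ln14_14_3 ln14_14_3_ok) (M (nat_lit 363) (B (M (nat_lit 398) (B (L (nat_lit 362) ln10_11_0 ln10_11_0_ok) (M (nat_lit 399) (B (L (nat_lit 400) ln16_12_3 ln16_12_3_ok) (L (nat_lit 366) ln11_11_0 ln11_11_0_ok))))) (B (M (nat_lit 398) (B (L (nat_lit 362) ln10_11_0 ln10_11_0_ok) (M (nat_lit 399) (B (L (nat_lit 366) ln11_11_0 ln11_11_0_ok) (L (nat_lit 396) ln15_12_3 ln15_12_3_ok))))) (B (M (nat_lit 362) (B (L (nat_lit 398) ln10_11_0 ln10_11_0_ok) (M (nat_lit 329) (B (L (nat_lit 330) ln13_11_3 ln13_11_3_ok) (M (nat_lit 393) (B (L (nat_lit 394) ln13_11_1 ln13_11_1_ok) (M (nat_lit 361) (B (L (nat_lit 328) ln12_11_3 ln12_11_3_ok) (L (nat_lit 392) ln12_11_1 ln12_11_1_ok)))))))))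 (B (M (nat_lit 362) (B (M (nat_lit 361) (B (L (nat_lit 396) ln9_11_0 ln9_11_0_ok) (M (nat_lit 393) (B (L (nat_lit 392) ln12_11_1 ln12_11_1_ok) (L (nat_lit 394) ln13_11_1 ln13_11_1_ok))))) (B (M (nat_lit 366) (B (M (nat_lit 330) (B (L (nat_lit 329) ln13_11_3 ln13_11_3_ok) (L (nat_lit 331) ln14_11_3 ln14_11_3_ok))) (M (nat_lit 394) (B (L (nat_lit 393) ln13_11_1 ln13_11_1_ok) (L (nat_lit 395) ln14_11_1 ln14_11_1_ok))))) (M (nat_lit 361) (B (L (nat_lit 396) ln9_11_0 ln9_11_0_ok) (M (nat_lit 329) (B (L (nat_lit 328) ln12_11_3 ln12_11_3_ok) (L (nat_lit 330) ln13_11_3 ln13_11_3_ok)))))))) (M (nat_lit 366) (B (M (nat_lit 367) (B (M (nat_lit 396) (B (L (nat_lit 368) ln16_11_1 ln16_11_1_ok) (L (nat_lit 395) ln15_11_1 ln15_11_1_ok))) (M (nat_lit 399) (B (L (nat_lit 400) ln12_11_0 ln12_11_0_ok) (L (nat_lit 398) ln11_11_0 ln11_11_0_ok))))) (B (M (nat_lit 367) (B (M (nat_lit 399) (B (L (nat_lit 398) ln11_11_0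 ln11_11_0_ok) (L (nat_lit 400) ln12_11_0 ln12_11_0_ok))) (B (M (nat_lit 368) (B (M (nat_lit 400) (B (L (nat_lit 399) ln12_11_0 ln12_11_0_ok) (L (nat_lit 401) ln13_11_0 ln13_11_0_ok))) (M (nat_lit 336) (B (L (nat_lit 335) ln12_11_2 ln12_11_2_ok) (L (nat_lit 337) ln13_11_2 ln13_11_2_ok))))) (B (M (nat_lit 368) (B (M (nat_lit 336) (B (L (nat_lit 335) ln12_11_2 ln12_11_2_ok) (L (nat_lit 337) ln13_11_2 ln13_11_2_ok))) (M (nat_lit 401) (B (L (nat_lit 400) ln13_11_0 ln13_11_0_ok) (M (nat_lit 369) (B (L (nat_lit 398) ln17_11_1 ln17_11_1_ok) (L (nat_lit 402) ln14_11_0 ln14_11_0_ok))))))) (M (nat_lit 368) (B (M (nat_lit 398) (B (L (nat_lit 399) ln11_11_0 ln11_11_0_ok) (L (nat_lit 369) ln17_11_1 ln17_11_1_ok))) (M (nat_lit 336) (B (L (nat_lit 335) ln12_11_2 ln12_11_2_ok) (L (nat_lit 337) ln13_11_2 ln13_11_2_ok))))))))) (B (M (nat_lit 367) (B (M (nat_lit 396) (B (L (nat_lit 368) ln16_11_1 ln16_11_1_ok)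 (L (nat_lit 395) ln15_11_1 ln15_11_1_ok))) (B (M (nat_lit 395) (B (L (nat_lit 396) ln15_11_1 ln15_11_1_ok) (L (nat_lit 394) ln14_11_1 ln14_11_1_ok))) (M (nat_lit 368) (B (M (nat_lit 336) (B (L (nat_lit 337) ln13_11_2 ln13_11_2_ok) (L (nat_lit 335) ln12_11_2 ln12_11_2_ok))) (M (nat_lit 400) (B (L (nat_lit 401) ln13_11_0 ln13_11_0_ok) (L (nat_lit 399) ln12_11_0 ln12_11_0_ok)))))))) (B (M (nat_lit 367) (B (M (nat_lit 395) (B (L (nat_lit 394) ln14_11_1 ln14_11_1_ok) (L (nat_lit 396) ln15_11_1 ln15_11_1_ok))) (B (M (nat_lit 396) (B (L (nat_lit 395) ln15_11_1 ln15_11_1_ok) (L (nat_lit 368) ln16_11_1 ln16_11_1_ok))) (B (M (nat_lit 368) (B (L (nat_lit 396) ln16_11_1 ln16_11_1_ok) (M (nat_lit 336) (B (L (nat_lit 335) ln12_11_2 ln12_11_2_ok) (L (nat_lit 337) ln13_11_2 ln13_11_2_ok))))) (M (nat_lit 368) (B (M (nat_lit 336) (B (L (nat_lit 335) ln12_11_2 ln12_11_2_ok) (L (nat_lit 337) ln13_11_2 ln13_11_2_ok)))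 (M (nat_lit 401) (B (L (nat_lit 400) ln13_11_0 ln13_11_0_ok) (M (nat_lit 369) (B (L (nat_lit 398) ln17_11_1 ln17_11_1_ok) (L (nat_lit 402) ln14_11_0 ln14_11_0_ok))))))))))) (B (M (nat_lit 367) (B (M (nat_lit 395) (B (L (nat_lit 394) ln14_11_1 ln14_11_1_ok) (L (nat_lit 396) ln15_11_1 ln15_11_1_ok))) (B (M (nat_lit 396) (B (L (nat_lit 395) ln15_11_1 ln15_11_1_ok) (L (nat_lit 368) ln16_11_1 ln16_11_1_ok))) (B (M (nat_lit 398) (B (L (nat_lit 399) ln11_11_0 ln11_11_0_ok) (M (nat_lit 368) (B (L (nat_lit 396) ln16_11_1 ln16_11_1_ok) (L (nat_lit 369) ln17_11_1 ln17_11_1_ok))))) (M (nat_lit 368) (B (M (nat_lit 398) (B (L (nat_lit 369) ln17_11_1 ln17_11_1_ok) (L (nat_lit 399) ln11_11_0 ln11_11_0_ok))) (M (nat_lit 336) (B (L (nat_lit 335) ln12_11_2 ln12_11_2_ok) (L (nat_lit 337) ln13_11_2 ln13_11_2_ok))))))))) (M (nat_lit 398) (B (L (nat_lit 399) ln11_11_0 ln11_11_0_ok) (M (nat_lit 395) (B (L (nat_lit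 394) ln14_11_1 ln14_11_1_ok) (L (nat_lit 396) ln14_12_1 ln14_12_1_ok))))))))))))))))))))
theorem c10_s482 : Sem (nat_lit 20839919904389975613213400884427666718739280836784073515015896679910215160546087684872893536970667337344459682989834240042962678052252811264) (nat_lit 11679847984920016893118418033113350603047518001295300354751513206982691696311485251654830260451222250980110557965739253068925966453517875403890805305617259993457999651449427210501996454555762556928) (nat_lit 11679847984920016893118418033113350603047518001295300354751513206982691696311485251654830260451222250980110557965739253068925966453517875403890805305617259993457999651449427210501996454555762556928) :=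
  sem_of_chk (M (nat_lit 426) (B (M (nat_lit 459) (B (L (nat_lit 427) ln14_14_3 ln14_14_3_ok) (M (nat_lit 458) (B (L (nat_lit 425) ln13_14_3 ln13_14_3_ok) (M (nat_lit 490) (B (L (nat_lit 489) ln13_14_1 ln13_14_1_ok) (L (nat_lit 491) ln14_14_1 ln14_14_1_ok))))))) (B (M (nat_lit 458) (B (M (nat_lit 459) (B (L (nat_lit 425) ln13_14_3 ln13_14_3_ok) (L (nat_lit 427) ln14_14_3 ln14_14_3_ok))) (B (M (nat_lit 490) (B (M (nat_lit 459) (B (L (nat_lit 427) ln14_14_3 ln14_14_3_ok) (L (nat_lit 489) ln13_14_1 ln13_14_1_ok))) (B (M (nat_lit 489) (B (L (nat_lit 459) ln13_14_1 ln13_14_1_ok) (M (nat_lit 521) (B (L (nat_lit 394) ln10_12_5 ln10_12_5_ok) (M (nat_lit 553) (B (L (nat_lit 522) ln10_13_5 ln10_13_5_ok) (L (nat_lit 457) ln9_17_6 ln9_17_6_ok))))))) (B (M (nat_lit 394) (B (M (nat_lit 362) (B (M (nat_lit 361) (B (L (nat_lit 329) ln10_14_7 ln10_14_7_ok) (L (nat_lit 393) ln10_15_7 ln10_15_7_ok))) (M (nat_lit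 489) (B (L (nat_lit 457) ln10_11_5 ln10_11_5_ok) (L (nat_lit 521) ln10_12_5 ln10_12_5_ok))))) (B (M (nat_lit 522) (B (M (nat_lit 395) (B (L (nat_lit 363) ln10_15_6 ln10_15_6_ok) (L (nat_lit 427) ln10_16_6 ln10_16_6_ok))) (M (nat_lit 521) (B (L (nat_lit 489) ln10_12_5 ln10_12_5_ok) (L (nat_lit 553) ln10_13_5 ln10_13_5_ok))))) (M (nat_lit 362) (B (M (nat_lit 363) (B (L (nat_lit 331) ln10_14_6 ln10_14_6_ok) (L (nat_lit 395) ln10_15_6 ln10_15_6_ok))) (M (nat_lit 361) (B (L (nat_lit 329) ln10_14_7 ln10_14_7_ok) (L (nat_lit 393) ln10_15_7 ln10_15_7_ok)))))))) (M (nat_lit 427) (B (L (nat_lit 459) ln14_14_3 ln14_14_3_ok) (M (nat_lit 395) (B (L (nat_lit 522) ln10_16_6 ln10_16_6_ok) (M (nat_lit 363) (B (L (nat_lit 331) ln11_10_5 ln11_10_5_ok) (L (nat_lit 394) ln10_15_6 ln10_15_6_ok))))))))))) c10_d227))) c10_d233))) (nat_lit 20839919904389975613213400884427666718739280836784073515015896679910215160546087684872893536970667337344459682989834240042962678052252811264)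 (nat_lit 11679847984920016893118418033113350603047518001295300354751513206982691696311485251654830260451222250980110557965739253068925966453517875403890805305617259993457999651449427210501996454555762556928) (nat_lit 11679847984920016893118418033113350603047518001295300354751513206982691696311485251654830260451222250980110557965739253068925966453517875403890805305617259993457999651449427210501996454555762556928) (by decide +kernel)
noncomputable def c10_d234 : Cert := (B (M (nat_lit 522) (B (M (nat_lit 555) (B (L (nat_lit 523) ln10_13_4 ln10_13_4_ok) (M (nat_lit 554) (B (L (nat_lit 587) ln10_14_4 ln10_14_4_ok) (M (nat_lit 553) (B (L (nat_lit 521) ln10_13_5 ln10_13_5_ok) (L (nat_lit 585) ln10_14_5 ln10_14_5_ok))))))) (B (M (nat_lit 554) (B (M (nat_lit 425) (B (L (nat_lit 393) ln10_16_7 ln10_16_7_ok) (L (nat_lit 457) ln10_17_7 ln10_17_7_ok))) (M (nat_lit 553) (B (L (nat_lit 521) ln10_13_5 ln10_13_5_ok)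 (L (nat_lit 585) ln10_14_5 ln10_14_5_ok))))) (B (M (nat_lit 554) (B (M (nat_lit 425) (B (L (nat_lit 393) ln10_16_7 ln10_16_7_ok) (L (nat_lit 457) ln10_17_7 ln10_17_7_ok))) (M (nat_lit 555) (B (L (nat_lit 523) ln10_13_4 ln10_13_4_ok) (L (nat_lit 587) ln10_14_4 ln10_14_4_ok))))) (M (nat_lit 394) (B (M (nat_lit 393) (B (L (nat_lit 361) ln10_15_7 ln10_15_7_ok) (L (nat_lit 425) ln10_16_7 ln10_16_7_ok))) (M (nat_lit 523) (B (L (nat_lit 491) ln10_12_4 ln10_12_4_ok) (L (nat_lit 555) ln10_13_4 ln10_13_4_ok))))))))) (B (M (nat_lit 394) (B (M (nat_lit 362) (B (M (nat_lit 489) (B (L (nat_lit 521) ln10_12_5 ln10_12_5_ok) (L (nat_lit 457) ln10_11_5 ln10_11_5_ok))) (M (nat_lit 363) (B (L (nat_lit 395) ln10_15_6 ln10_15_6_ok) (L (nat_lit 331) ln10_14_6 ln10_14_6_ok))))) (B (M (nat_lit 361) (B (L (nat_lit 393) ln10_15_7 ln10_15_7_ok) (M (nat_lit 362) (B (L (nat_lit 329) ln10_14_7 ln10_14_7_ok) (M (nat_lit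 363) (B (L (nat_lit 395) ln10_15_6 ln10_15_6_ok) (L (nat_lit 331) ln10_14_6 ln10_14_6_ok))))))) (B (M (nat_lit 362) (B (M (nat_lit 489) (B (L (nat_lit 521) ln10_12_5 ln10_12_5_ok) (L (nat_lit 457) ln10_11_5 ln10_11_5_ok))) (M (nat_lit 361) (B (L (nat_lit 393) ln10_15_7 ln10_15_7_ok) (L (nat_lit 329) ln10_14_7 ln10_14_7_ok))))) (M (nat_lit 522) (B (M (nat_lit 521) (B (L (nat_lit 553) ln10_13_5 ln10_13_5_ok) (L (nat_lit 489) ln10_12_5 ln10_12_5_ok))) (M (nat_lit 393) (B (L (nat_lit 425) ln10_16_7 ln10_16_7_ok) (L (nat_lit 361) ln10_15_7 ln10_15_7_ok))))))))) (B (M (nat_lit 394) (B (M (nat_lit 362) (B (M (nat_lit 491) (B (L (nat_lit 523) ln10_12_4 ln10_12_4_ok) (L (nat_lit 459) ln10_11_4 ln10_11_4_ok))) (M (nat_lit 363) (B (L (nat_lit 395) ln10_15_6 ln10_15_6_ok) (L (nat_lit 331) ln10_14_6 ln10_14_6_ok))))) (B (M (nat_lit 362) (B (M (nat_lit 489) (B (L (nat_lit 521) ln10_12_5 ln10_12_5_ok) (L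 (nat_lit 457) ln10_11_5 ln10_11_5_ok))) (M (nat_lit 363) (B (L (nat_lit 395) ln10_15_6 ln10_15_6_ok) (L (nat_lit 331) ln10_14_6 ln10_14_6_ok))))) (B (M (nat_lit 362) (B (M (nat_lit 489) (B (L (nat_lit 521) ln10_12_5 ln10_12_5_ok) (L (nat_lit 457) ln10_11_5 ln10_11_5_ok))) (M (nat_lit 491) (B (L (nat_lit 523) ln10_12_4 ln10_12_4_ok) (L (nat_lit 459) ln10_11_4 ln10_11_4_ok))))) (M (nat_lit 521) (B (L (nat_lit 489) ln10_12_5 ln10_12_5_ok) (M (nat_lit 522) (B (L (nat_lit 553) ln10_13_5 ln10_13_5_ok) (M (nat_lit 523) (B (L (nat_lit 555) ln10_13_4 ln10_13_4_ok) (L (nat_lit 491) ln10_12_4 ln10_12_4_ok))))))))))) (B (M (nat_lit 522) (B (M (nat_lit 553) (B (L (nat_lit 521) ln10_13_5 ln10_13_5_ok) (M (nat_lit 554) (B (L (nat_lit 585) ln10_14_5 ln10_14_5_ok) (M (nat_lit 555) (B (L (nat_lit 587) ln10_14_4 ln10_14_4_ok) (L (nat_lit 523) ln10_13_4 ln10_13_4_ok))))))) (B (M (nat_lit 554) (B (M (nat_lit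 553) (B (L (nat_lit 585) ln10_14_5 ln10_14_5_ok) (L (nat_lit 521) ln10_13_5 ln10_13_5_ok))) (M (nat_lit 425) (B (L (nat_lit 457) ln10_17_7 ln10_17_7_ok) (L (nat_lit 393) ln10_16_7 ln10_16_7_ok))))) (B (M (nat_lit 521) (B (L (nat_lit 553) ln10_13_5 ln10_13_5_ok) (M (nat_lit 520) (B (M (nat_lit 519) (B (L (nat_lit 491) ln7_16_2 ln7_16_2_ok) (M (nat_lit 518) (B (L (nat_lit 489) ln6_16_2_c10 ln6_16_2_c10_ok) (M (nat_lit 550) (B (L (nat_lit 551) ln10_16_1_c10 ln10_16_1_c10_ok) (L (nat_lit 549) ln9_16_1_c10 ln9_16_1_c10_ok))))))) (B (M (nat_lit 519) (B (M (nat_lit 523) (B (L (nat_lit 555) ln10_13_4 ln10_13_4_ok) (M (nat_lit 551) (B (L (nat_lit 552) ln11_16_1 ln11_16_1_ok) (L (nat_lit 550) ln10_16_1_c10 ln10_16_1_c10_ok))))) (B (M (nat_lit 518) (B (L (nat_lit 489) ln6_16_2_c10 ln6_16_2_c10_ok) (M (nat_lit 550) (B (L (nat_lit 551) ln10_16_1_c10 ln10_16_1_c10_ok) (L (nat_lit 549) ln9_16_1_c10 ln9_16_1_c10_ok)))))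 (M (nat_lit 523) (B (L (nat_lit 555) ln10_13_4 ln10_13_4_ok) (M (nat_lit 487) (B (L (nat_lit 488) ln11_16_3_c10 ln11_16_3_c10_ok) (L (nat_lit 486) ln10_16_3_c10 ln10_16_3_c10_ok)))))))) (B (M (nat_lit 519) (B (L (nat_lit 491) ln7_16_2 ln7_16_2_ok) (M (nat_lit 523) (B (L (nat_lit 555) ln10_13_4 ln10_13_4_ok) (M (nat_lit 487) (B (L (nat_lit 488) ln11_16_3_c10 ln11_16_3_c10_ok) (L (nat_lit 486) ln10_16_3_c10 ln10_16_3_c10_ok))))))) (M (nat_lit 523) (B (L (nat_lit 555) ln10_13_4 ln10_13_4_ok) (M (nat_lit 489) (B (M (nat_lit 488) (B (L (nat_lit 524) ln12_16_3 ln12_16_3_ok) (L (nat_lit 487) ln7_15_0 ln7_15_0_ok))) (M (nat_lit 425) (B (L (nat_lit 393) ln10_16_7 ln10_16_7_ok) (M (nat_lit 552) (B (L (nat_lit 551) ln11_16_1 ln11_16_1_ok) (L (nat_lit 457) ln9_13_5_c10 ln9_13_5_c10_ok))))))))))))))) (M (nat_lit 554) (B (M (nat_lit 555) (B (L (nat_lit 587) ln10_14_4 ln10_14_4_ok) (L (nat_lit 523) ln10_13_4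 ln10_13_4_ok))) (M (nat_lit 425) (B (L (nat_lit 457) ln10_17_7 ln10_17_7_ok) (L (nat_lit 393) ln10_16_7 ln10_16_7_ok))))))))) (M (nat_lit 394) (B (M (nat_lit 361) (B (L (nat_lit 393) ln10_15_7 ln10_15_7_ok) (M (nat_lit 362) (B (L (nat_lit 329) ln10_14_7 ln10_14_7_ok) (M (nat_lit 363) (B (L (nat_lit 331) ln10_14_6 ln10_14_6_ok) (L (nat_lit 395) ln10_15_6 ln10_15_6_ok))))))) (B (M (nat_lit 362) (B (M (nat_lit 363) (B (L (nat_lit 331) ln10_14_6 ln10_14_6_ok) (L (nat_lit 395) ln10_15_6 ln10_15_6_ok))) (M (nat_lit 489) (B (L (nat_lit 457) ln10_11_5 ln10_11_5_ok) (L (nat_lit 521) ln10_12_5 ln10_12_5_ok))))) (B (M (nat_lit 362) (B (M (nat_lit 361) (B (L (nat_lit 329) ln10_14_7 ln10_14_7_ok) (L (nat_lit 393) ln10_15_7 ln10_15_7_ok))) (M (nat_lit 491) (B (L (nat_lit 459) ln10_11_4 ln10_11_4_ok) (L (nat_lit 523) ln10_12_4 ln10_12_4_ok))))) (M (nat_lit 489) (B (L (nat_lit 521) ln10_12_5 ln10_12_5_ok)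 (M (nat_lit 491) (B (L (nat_lit 523) ln10_12_4 ln10_12_4_ok) (M (nat_lit 488) (B (M (nat_lit 487) (B (L (nat_lit 459) ln7_15_2 ln7_15_2_ok) (M (nat_lit 519) (B (L (nat_lit 520) ln11_15_1 ln11_15_1_ok) (L (nat_lit 518) ln10_15_1 ln10_15_1_ok))))) (B (M (nat_lit 487) (B (L (nat_lit 459) ln7_15_2 ln7_15_2_ok) (M (nat_lit 455) (B (L (nat_lit 454) ln10_15_3 ln10_15_3_ok) (L (nat_lit 456) ln11_15_3 ln11_15_3_ok))))) (M (nat_lit 456) (B (L (nat_lit 455) ln11_15_3 ln11_15_3_ok) (M (nat_lit 393) (B (L (nat_lit 361) ln10_15_7 ln10_15_7_ok) (M (nat_lit 520) (B (L (nat_lit 519) ln11_15_1 ln11_15_1_ok) (M (nat_lit 425) (B (L (nat_lit 424) ln8_16_6_c10 ln8_16_6_c10_ok) (L (nat_lit 457) ln9_12_5_c10 ln9_12_5_c10_ok))))))))))))))))))))))))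
noncomputable def c10_d235 : Cert := (B (M (nat_lit 458) (B (M (nat_lit 554) (B (M (nat_lit 587) (B (L (nat_lit 555) ln10_14_4 ln10_14_4_ok) (L (nat_lit 586) ln10_15_4 ln10_15_4_ok))) (B (M (nat_lit 586) (B (M (nat_lit 457) (B (L (nat_lit 425) ln10_17_7 ln10_17_7_ok) (L (nat_lit 489) ln10_18_7_c10 ln10_18_7_c10_ok))) (M (nat_lit 585) (B (L (nat_lit 553) ln10_14_5 ln10_14_5_ok) (L (nat_lit 617) ln10_15_5 ln10_15_5_ok))))) (M (nat_lit 425) (B (L (nat_lit 393) ln10_16_7 ln10_16_7_ok) (L (nat_lit 457) ln10_17_7 ln10_17_7_ok)))))) (B (M (nat_lit 554) (B (M (nat_lit 586) (B (M (nat_lit 457) (B (L (nat_lit 425) ln10_17_7 ln10_17_7_ok) (L (nat_lit 489) ln10_18_7_c10 ln10_18_7_c10_ok))) (L (nat_lit 587) ln10_15_4 ln10_15_4_ok))) (B (M (nat_lit 585) (B (L (nat_lit 553) ln10_14_5 ln10_14_5_ok) (M (nat_lit 586) (B (L (nat_lit 617) ln10_15_5 ln10_15_5_ok) (L (nat_lit 587) ln10_15_4 ln10_15_4_ok))))) (B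 (M (nat_lit 586) (B (M (nat_lit 457) (B (L (nat_lit 425) ln10_17_7 ln10_17_7_ok) (L (nat_lit 489) ln10_18_7_c10 ln10_18_7_c10_ok))) (M (nat_lit 585) (B (L (nat_lit 553) ln10_14_5 ln10_14_5_ok) (L (nat_lit 617) ln10_15_5 ln10_15_5_ok))))) (M (nat_lit 425) (B (L (nat_lit 393) ln10_16_7 ln10_16_7_ok) (L (nat_lit 457) ln10_17_7 ln10_17_7_ok))))))) (B (M (nat_lit 554) (B (M (nat_lit 555) (B (L (nat_lit 587) ln10_14_4 ln10_14_4_ok) (L (nat_lit 523) ln10_13_4 ln10_13_4_ok))) (M (nat_lit 553) (B (L (nat_lit 585) ln10_14_5 ln10_14_5_ok) (L (nat_lit 521) ln10_13_5 ln10_13_5_ok))))) (B (M (nat_lit 554) (B (M (nat_lit 555) (B (L (nat_lit 587) ln10_14_4 ln10_14_4_ok) (L (nat_lit 523) ln10_13_4 ln10_13_4_ok))) (M (nat_lit 425) (B (L (nat_lit 457) ln10_17_7 ln10_17_7_ok) (L (nat_lit 393) ln10_16_7 ln10_16_7_ok))))) (M (nat_lit 394) (B (M (nat_lit 393) (B (L (nat_lit 361) ln10_15_7 ln10_15_7_ok) (L (nat_lit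 425) ln10_16_7 ln10_16_7_ok))) (M (nat_lit 521) (B (L (nat_lit 489) ln10_12_5 ln10_12_5_ok) (L (nat_lit 553) ln10_13_5 ln10_13_5_ok)))))))))) (B (M (nat_lit 458) (B (K (nat_lit 15228788544225260796173324762719014456367102546739230724041437031898893043038199299169759694777077986639581221773606972548248913200326615277275819600105413745082427215349313726550670049280) (nat_lit 29484081450783089476116090137086680958676568761529447875255115110358041705507326270556222164325627845050858781744608328391778240458618163390478258993753783745061584896) (nat_lit 29484081450783089476116090137086680958676568761529447875255115110358041705507326270556222164325627845050858781744608328391778240458618163390478258993753783745061584896) c10_s502) (B (M (nat_lit 394) (B (M (nat_lit 362) (B (M (nat_lit 361) (B (L (nat_lit 329) ln10_14_7 ln10_14_7_ok) (L (nat_lit 393) ln10_15_7 ln10_15_7_ok))) (M (nat_lit 489) (B (L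 (nat_lit 457) ln10_11_5 ln10_11_5_ok) (L (nat_lit 521) ln10_12_5 ln10_12_5_ok))))) (B (M (nat_lit 393) (B (L (nat_lit 361) ln10_15_7 ln10_15_7_ok) (L (nat_lit 425) ln10_16_7 ln10_16_7_ok))) (M (nat_lit 521) (B (L (nat_lit 489) ln10_12_5 ln10_12_5_ok) (L (nat_lit 553) ln10_13_5 ln10_13_5_ok)))))) (B (M (nat_lit 554) (B (M (nat_lit 425) (B (L (nat_lit 393) ln10_16_7 ln10_16_7_ok) (L (nat_lit 457) ln10_17_7 ln10_17_7_ok))) (M (nat_lit 553) (B (L (nat_lit 521) ln10_13_5 ln10_13_5_ok) (L (nat_lit 585) ln10_14_5 ln10_14_5_ok))))) (B (M (nat_lit 394) (B (M (nat_lit 521) (B (L (nat_lit 553) ln10_13_5 ln10_13_5_ok) (L (nat_lit 489) ln10_12_5 ln10_12_5_ok))) (M (nat_lit 393) (B (L (nat_lit 425) ln10_16_7 ln10_16_7_ok) (L (nat_lit 361) ln10_15_7 ln10_15_7_ok))))) (B (M (nat_lit 394) (B (M (nat_lit 393) (B (L (nat_lit 361) ln10_15_7 ln10_15_7_ok) (L (nat_lit 425) ln10_16_7 ln10_16_7_ok))) (M (nat_lit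 362) (B (M (nat_lit 363) (B (L (nat_lit 331) ln10_14_6 ln10_14_6_ok) (L (nat_lit 395) ln10_15_6 ln10_15_6_ok))) (M (nat_lit 489) (B (L (nat_lit 457) ln10_11_5 ln10_11_5_ok) (L (nat_lit 521) ln10_12_5 ln10_12_5_ok))))))) (B (M (nat_lit 394) (B (M (nat_lit 393) (B (L (nat_lit 361) ln10_15_7 ln10_15_7_ok) (L (nat_lit 425) ln10_16_7 ln10_16_7_ok))) (B (M (nat_lit 425) (B (L (nat_lit 393) ln10_16_7 ln10_16_7_ok) (M (nat_lit 457) (B (L (nat_lit 554) ln10_17_7 ln10_17_7_ok) (M (nat_lit 362) (B (L (nat_lit 330) ln10_10_5 ln10_10_5_ok) (L (nat_lit 489) ln10_11_5 ln10_11_5_ok))))))) (B (M (nat_lit 362) (B (M (nat_lit 363) (B (L (nat_lit 331) ln10_14_6 ln10_14_6_ok) (L (nat_lit 395) ln10_15_6 ln10_15_6_ok))) (M (nat_lit 457) (B (L (nat_lit 489) ln10_11_5 ln10_11_5_ok) (M (nat_lit 425) (B (L (nat_lit 330) ln10_10_5 ln10_10_5_ok) (L (nat_lit 554) ln10_17_7 ln10_17_7_ok))))))) (M (nat_lit 362) (B (M (nat_lit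 361) (B (L (nat_lit 329) ln10_14_7 ln10_14_7_ok) (L (nat_lit 393) ln10_15_7 ln10_15_7_ok))) (M (nat_lit 363) (B (L (nat_lit 331) ln10_14_6 ln10_14_6_ok) (L (nat_lit 395) ln10_15_6 ln10_15_6_ok))))))))) (M (nat_lit 554) (B (M (nat_lit 553) (B (L (nat_lit 521) ln10_13_5 ln10_13_5_ok) (L (nat_lit 585) ln10_14_5 ln10_14_5_ok))) (B (M (nat_lit 586) (B (M (nat_lit 457) (B (L (nat_lit 425) ln10_17_7 ln10_17_7_ok) (L (nat_lit 489) ln10_18_7_c10 ln10_18_7_c10_ok))) (M (nat_lit 585) (B (L (nat_lit 553) ln10_14_5 ln10_14_5_ok) (L (nat_lit 617) ln10_15_5 ln10_15_5_ok))))) (M (nat_lit 457) (B (L (nat_lit 425) ln10_17_7 ln10_17_7_ok) (M (nat_lit 489) (B (L (nat_lit 586) ln10_18_7_c10 ln10_18_7_c10_ok) (M (nat_lit 394) (B (L (nat_lit 362) ln10_11_5 ln10_11_5_ok) (L (nat_lit 521) ln10_12_5 ln10_12_5_ok))))))))))))))))) (B (M (nat_lit 458) (B (M (nat_lit 554) (B (M (nat_lit 425) (B (L (nat_lit 393) ln10_16_7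 ln10_16_7_ok) (L (nat_lit 457) ln10_17_7 ln10_17_7_ok))) (M (nat_lit 555) (B (L (nat_lit 523) ln10_13_4 ln10_13_4_ok) (L (nat_lit 587) ln10_14_4 ln10_14_4_ok))))) (B (K (nat_lit 15228788544225260796173324762719014456367102546739230724041437031898893043038199299169759694777077986639581221773606972548248913200326615277275819600105413745082427215349313726550670049280) (nat_lit 29484081450783089476116090137086680958676568761529447875255115110358041705507326270556222164325627845050858781744608328391778240458618163390478258993753783745061584896) (nat_lit 29484081450783089476116090137086680958676568761529447875255115110358041705507326270556222164325627845050858781744608328391778240458618163390478258993753783745061584896) c10_s502) (M (nat_lit 553) (B (L (nat_lit 521) ln10_13_5 ln10_13_5_ok) (M (nat_lit 554) (B (L (nat_lit 585) ln10_14_5 ln10_14_5_ok) (M (nat_lit 555) (B (L (nat_lit 587) ln10_14_4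 ln10_14_4_ok) (L (nat_lit 523) ln10_13_4 ln10_13_4_ok)))))))))) (B (M (nat_lit 523) (B (L (nat_lit 489) ln13_16_3 ln13_16_3_ok) (M (nat_lit 555) (B (L (nat_lit 458) ln10_13_4 ln10_13_4_ok) (L (nat_lit 587) ln11_19_7 ln11_19_7_ok))))) (B (M (nat_lit 523) (B (L (nat_lit 489) ln13_16_3 ln13_16_3_ok) (M (nat_lit 554) (B (L (nat_lit 553) ln13_16_1 ln13_16_1_ok) (M (nat_lit 587) (B (L (nat_lit 586) ln10_15_4 ln10_15_4_ok) (L (nat_lit 555) ln11_19_7 ln11_19_7_ok))))))) (M (nat_lit 523) (B (M (nat_lit 458) (B (L (nat_lit 555) ln10_13_4 ln10_13_4_ok) (M (nat_lit 425) (B (L (nat_lit 393) ln10_16_7 ln10_16_7_ok) (M (nat_lit 554) (B (L (nat_lit 457) ln10_17_7 ln10_17_7_ok) (L (nat_lit 553) ln13_16_1 ln13_16_1_ok))))))) (B (M (nat_lit 553) (B (L (nat_lit 554) ln13_16_1 ln13_16_1_ok) (M (nat_lit 521) (B (L (nat_lit 552) ln12_16_1 ln12_16_1_ok) (L (nat_lit 458) ln10_13_5 ln10_13_5_ok))))) (B (M (nat_lit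 587) (B (L (nat_lit 555) ln11_19_7 ln11_19_7_ok) (M (nat_lit 554) (B (L (nat_lit 586) ln10_15_4 ln10_15_4_ok) (L (nat_lit 553) ln13_16_1 ln13_16_1_ok))))) (M (nat_lit 555) (B (L (nat_lit 458) ln10_13_4 ln10_13_4_ok) (L (nat_lit 587) ln11_19_7 ln11_19_7_ok))))))))))))
noncomputable def c10_d236 : Cert := (B (M (nat_lit 394) (B (M (nat_lit 361) (B (L (nat_lit 393) ln10_15_7 ln10_15_7_ok) (M (nat_lit 362) (B (L (nat_lit 329) ln10_14_7 ln10_14_7_ok) (M (nat_lit 363) (B (L (nat_lit 395) ln10_15_6 ln10_15_6_ok) (L (nat_lit 331) ln10_14_6 ln10_14_6_ok))))))) (B (M (nat_lit 362) (B (L (nat_lit 523) ln10_12_4 ln10_12_4_ok) (M (nat_lit 363) (B (L (nat_lit 395) ln10_15_6 ln10_15_6_ok) (L (nat_lit 331) ln10_14_6 ln10_14_6_ok))))) (B (M (nat_lit 362) (B (L (nat_lit 523) ln10_12_4 ln10_12_4_ok) (M (nat_lit 361) (B (L (nat_lit 393) ln10_15_7 ln10_15_7_ok) (L (nat_lit 329) ln10_14_7 ln10_14_7_ok))))) (M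 (nat_lit 522) (B (L (nat_lit 523) ln10_12_4 ln10_12_4_ok) (M (nat_lit 393) (B (L (nat_lit 425) ln10_16_7 ln10_16_7_ok) (L (nat_lit 361) ln10_15_7 ln10_15_7_ok))))))))) (B (M (nat_lit 522) (B (M (nat_lit 555) (B (L (nat_lit 523) ln10_13_4 ln10_13_4_ok) (M (nat_lit 554) (B (L (nat_lit 587) ln10_14_4 ln10_14_4_ok) (M (nat_lit 553) (B (L (nat_lit 521) ln10_13_5 ln10_13_5_ok) (L (nat_lit 585) ln10_14_5 ln10_14_5_ok))))))) (B (M (nat_lit 554) (B (M (nat_lit 425) (B (L (nat_lit 393) ln10_16_7 ln10_16_7_ok) (L (nat_lit 457) ln10_17_7 ln10_17_7_ok))) (M (nat_lit 553) (B (L (nat_lit 521) ln10_13_5 ln10_13_5_ok) (L (nat_lit 585) ln10_14_5 ln10_14_5_ok))))) (B (M (nat_lit 554) (B (M (nat_lit 425) (B (L (nat_lit 393) ln10_16_7 ln10_16_7_ok) (L (nat_lit 457) ln10_17_7 ln10_17_7_ok))) (M (nat_lit 555) (B (L (nat_lit 523) ln10_13_4 ln10_13_4_ok) (L (nat_lit 587) ln10_14_4 ln10_14_4_ok))))) (M (nat_lit 394)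 (B (M (nat_lit 393) (B (L (nat_lit 361) ln10_15_7 ln10_15_7_ok) (L (nat_lit 425) ln10_16_7 ln10_16_7_ok))) (L (nat_lit 523) ln10_12_4 ln10_12_4_ok))))))) (B (M (nat_lit 394) (B (M (nat_lit 362) (B (M (nat_lit 489) (B (L (nat_lit 521) ln10_12_5 ln10_12_5_ok) (L (nat_lit 457) ln10_11_5 ln10_11_5_ok))) (M (nat_lit 363) (B (L (nat_lit 395) ln10_15_6 ln10_15_6_ok) (L (nat_lit 331) ln10_14_6 ln10_14_6_ok))))) (B (M (nat_lit 361) (B (L (nat_lit 393) ln10_15_7 ln10_15_7_ok) (M (nat_lit 362) (B (L (nat_lit 329) ln10_14_7 ln10_14_7_ok) (M (nat_lit 363) (B (L (nat_lit 395) ln10_15_6 ln10_15_6_ok) (L (nat_lit 331) ln10_14_6 ln10_14_6_ok))))))) (B (M (nat_lit 362) (B (M (nat_lit 489) (B (L (nat_lit 521) ln10_12_5 ln10_12_5_ok) (L (nat_lit 457) ln10_11_5 ln10_11_5_ok))) (M (nat_lit 361) (B (L (nat_lit 393) ln10_15_7 ln10_15_7_ok) (L (nat_lit 329) ln10_14_7 ln10_14_7_ok))))) (M (nat_lit 522) (B (M (nat_lit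 521) (B (L (nat_lit 553) ln10_13_5 ln10_13_5_ok) (L (nat_lit 489) ln10_12_5 ln10_12_5_ok))) (M (nat_lit 393) (B (L (nat_lit 425) ln10_16_7 ln10_16_7_ok) (L (nat_lit 361) ln10_15_7 ln10_15_7_ok))))))))) (B (M (nat_lit 394) (B (M (nat_lit 362) (B (L (nat_lit 523) ln10_12_4 ln10_12_4_ok) (M (nat_lit 363) (B (L (nat_lit 395) ln10_15_6 ln10_15_6_ok) (L (nat_lit 331) ln10_14_6 ln10_14_6_ok))))) (B (M (nat_lit 362) (B (M (nat_lit 489) (B (L (nat_lit 521) ln10_12_5 ln10_12_5_ok) (L (nat_lit 457) ln10_11_5 ln10_11_5_ok))) (M (nat_lit 363) (B (L (nat_lit 395) ln10_15_6 ln10_15_6_ok) (L (nat_lit 331) ln10_14_6 ln10_14_6_ok))))) (B (M (nat_lit 362) (B (M (nat_lit 489) (B (L (nat_lit 521) ln10_12_5 ln10_12_5_ok) (L (nat_lit 457) ln10_11_5 ln10_11_5_ok))) (L (nat_lit 523) ln10_12_4 ln10_12_4_ok))) (M (nat_lit 521) (B (L (nat_lit 489) ln10_12_5 ln10_12_5_ok) (M (nat_lit 522) (B (L (nat_lit 553) ln10_13_5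 ln10_13_5_ok) (L (nat_lit 523) ln10_12_4 ln10_12_4_ok))))))))) (B (M (nat_lit 394) (B (M (nat_lit 361) (B (L (nat_lit 393) ln10_15_7 ln10_15_7_ok) (M (nat_lit 362) (B (L (nat_lit 329) ln10_14_7 ln10_14_7_ok) (M (nat_lit 363) (B (L (nat_lit 331) ln10_14_6 ln10_14_6_ok) (L (nat_lit 395) ln10_15_6 ln10_15_6_ok))))))) (B (M (nat_lit 362) (B (M (nat_lit 363) (B (L (nat_lit 331) ln10_14_6 ln10_14_6_ok) (L (nat_lit 395) ln10_15_6 ln10_15_6_ok))) (M (nat_lit 489) (B (L (nat_lit 457) ln10_11_5 ln10_11_5_ok) (L (nat_lit 521) ln10_12_5 ln10_12_5_ok))))) (B (M (nat_lit 362) (B (M (nat_lit 361) (B (L (nat_lit 329) ln10_14_7 ln10_14_7_ok) (L (nat_lit 393) ln10_15_7 ln10_15_7_ok))) (L (nat_lit 459) ln10_11_4 ln10_11_4_ok))) (M (nat_lit 489) (B (L (nat_lit 521) ln10_12_5 ln10_12_5_ok) (L (nat_lit 523) ln10_12_4 ln10_12_4_ok))))))) (M (nat_lit 522) (B (M (nat_lit 554) (B (M (nat_lit 425) (B (L (nat_lit 393)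 ln10_16_7 ln10_16_7_ok) (L (nat_lit 457) ln10_17_7 ln10_17_7_ok))) (M (nat_lit 555) (B (L (nat_lit 523) ln10_13_4 ln10_13_4_ok) (L (nat_lit 587) ln10_14_4 ln10_14_4_ok))))) (B (M (nat_lit 554) (B (M (nat_lit 553) (B (L (nat_lit 521) ln10_13_5 ln10_13_5_ok) (L (nat_lit 585) ln10_14_5 ln10_14_5_ok))) (M (nat_lit 555) (B (L (nat_lit 523) ln10_13_4 ln10_13_4_ok) (L (nat_lit 587) ln10_14_4 ln10_14_4_ok))))) (B (M (nat_lit 521) (B (L (nat_lit 553) ln10_13_5 ln10_13_5_ok) (M (nat_lit 520) (B (L (nat_lit 519) ln7_16_2 ln7_16_2_ok) (M (nat_lit 488) (B (M (nat_lit 523) (B (L (nat_lit 487) ln11_16_3_c10 ln11_16_3_c10_ok) (L (nat_lit 555) ln10_13_4 ln10_13_4_ok))) (B (M (nat_lit 425) (B (L (nat_lit 393) ln10_16_7 ln10_16_7_ok) (M (nat_lit 552) (B (M (nat_lit 523) (B (L (nat_lit 551) ln11_16_1 ln11_16_1_ok) (L (nat_lit 555) ln10_13_4 ln10_13_4_ok))) (M (nat_lit 457) (B (L (nat_lit 456) ln8_17_6_c10 ln8_17_6_c10_ok)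 (L (nat_lit 489) ln9_13_5_c10 ln9_13_5_c10_ok))))))) (M (nat_lit 457) (B (M (nat_lit 425) (B (L (nat_lit 393) ln10_16_7 ln10_16_7_ok) (M (nat_lit 456) (B (L (nat_lit 455) ln7_14_0 ln7_14_0_ok) (L (nat_lit 552) ln8_17_6_c10 ln8_17_6_c10_ok))))) (B (M (nat_lit 425) (B (L (nat_lit 393) ln10_16_7 ln10_16_7_ok) (M (nat_lit 552) (B (L (nat_lit 456) ln8_17_6_c10 ln8_17_6_c10_ok) (L (nat_lit 489) ln9_13_5_c10 ln9_13_5_c10_ok))))) (B (M (nat_lit 489) (B (M (nat_lit 487) (B (L (nat_lit 486) ln6_15_0 ln6_15_0_ok) (L (nat_lit 459) ln7_15_2 ln7_15_2_ok))) (M (nat_lit 425) (B (L (nat_lit 393) ln9_12_4 ln9_12_4_ok) (L (nat_lit 552) ln9_13_5_c10 ln9_13_5_c10_ok))))) (M (nat_lit 487) (B (M (nat_lit 486) (B (L (nat_lit 485) ln5_15_0_c10 ln5_15_0_c10_ok) (L (nat_lit 489) ln6_15_0 ln6_15_0_ok))) (B (M (nat_lit 489) (B (L (nat_lit 486) ln6_15_0 ln6_15_0_ok) (L (nat_lit 459) ln7_15_2 ln7_15_2_ok))) (B (M (nat_lit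 459) (B (L (nat_lit 456) ln11_14_1 ln11_14_1_ok) (L (nat_lit 489) ln7_15_2 ln7_15_2_ok))) (M (nat_lit 456) (B (L (nat_lit 455) ln7_14_0 ln7_14_0_ok) (L (nat_lit 459) ln11_14_1 ln11_14_1_ok)))))))))))))))))) (M (nat_lit 425) (B (L (nat_lit 393) ln10_16_7 ln10_16_7_ok) (M (nat_lit 554) (B (L (nat_lit 457) ln10_17_7 ln10_17_7_ok) (M (nat_lit 553) (B (L (nat_lit 521) ln10_13_5 ln10_13_5_ok) (L (nat_lit 585) ln10_14_5 ln10_14_5_ok))))))))))))))))
theorem c10_s503 : Sem (nat_lit 471745303212529431617857442193386895340211435029272104790018930303222451192294239345893258764852856991824633796569317721443457359206950307872383534307218333799242792960) (nat_lit 18687756804045285840440975185117156117590194638570230053162074453516498502753334659950588816070952479380407741488554950815314405451369220180978093241713010375791482481027517600124941446936879169536) (nat_lit 18687756804045285840440975185117156117590194638570230053162074453516498502753334659950588816070952479380407741488554950815314405451369220180978093241713010375791482481027517600124941446936879169536)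 :=
  sem_of_chk (M (nat_lit 590) (B (L (nat_lit 558) ln13_14_4 ln13_14_4_ok) (M (nat_lit 589) (B (L (nat_lit 622) ln13_15_4_c10 ln13_15_4_c10_ok) (M (nat_lit 620) (B (L (nat_lit 588) ln13_15_5_c10 ln13_15_5_c10_ok) (M (nat_lit 621) (B (L (nat_lit 652) ln13_16_5_c10 ln13_16_5_c10_ok) (M (nat_lit 462) (B (L (nat_lit 494) ln13_18_6 ln13_18_6_ok) (M (nat_lit 490) (B (M (nat_lit 492) (B (L (nat_lit 491) ln10_15_2 ln10_15_2_ok) (L (nat_lit 524) ln13_19_7 ln13_19_7_ok))) (B (M (nat_lit 428) (B (L (nat_lit 396) ln13_16_7 ln13_16_7_ok) (M (nat_lit 426) (B (L (nat_lit 427) ln10_13_0 ln10_13_0_ok) (M (nat_lit 619) (B (L (nat_lit 618) ln10_19_2_c10 ln10_19_2_c10_ok) (M (nat_lit 591) (B (L (nat_lit 592) ln16_18_1_c10 ln16_18_1_c10_ok) (M (nat_lit 463) (B (L (nat_lit 464) ln16_14_3 ln16_14_3_ok) (M (nat_lit 458) (B (M (nat_lit 394) (B (M (nat_lit 521) (B (L (nat_lit 489) ln10_12_5 ln10_12_5_ok) (M (nat_lit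 522) (B (L (nat_lit 553) ln10_13_5 ln10_13_5_ok) (M (nat_lit 523) (B (L (nat_lit 555) ln10_13_4 ln10_13_4_ok) (L (nat_lit 491) ln10_12_4 ln10_12_4_ok))))))) (M (nat_lit 361) (B (L (nat_lit 393) ln10_15_7 ln10_15_7_ok) (M (nat_lit 362) (B (L (nat_lit 329) ln10_14_7 ln10_14_7_ok) (M (nat_lit 363) (B (L (nat_lit 395) ln10_15_6 ln10_15_6_ok) (L (nat_lit 331) ln10_14_6 ln10_14_6_ok))))))))) (B (M (nat_lit 394) (B (M (nat_lit 522) (B (M (nat_lit 523) (B (L (nat_lit 555) ln10_13_4 ln10_13_4_ok) (L (nat_lit 491) ln10_12_4 ln10_12_4_ok))) (M (nat_lit 393) (B (L (nat_lit 425) ln10_16_7 ln10_16_7_ok) (L (nat_lit 361) ln10_15_7 ln10_15_7_ok))))) (M (nat_lit 362) (B (M (nat_lit 489) (B (L (nat_lit 521) ln10_12_5 ln10_12_5_ok) (L (nat_lit 457) ln10_11_5 ln10_11_5_ok))) (M (nat_lit 363) (B (L (nat_lit 395) ln10_15_6 ln10_15_6_ok) (L (nat_lit 331) ln10_14_6 ln10_14_6_ok))))))) (B (M (nat_lit 394) (B (M (nat_lit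 362) (B (M (nat_lit 491) (B (L (nat_lit 523) ln10_12_4 ln10_12_4_ok) (L (nat_lit 459) ln10_11_4 ln10_11_4_ok))) (M (nat_lit 363) (B (L (nat_lit 395) ln10_15_6 ln10_15_6_ok) (L (nat_lit 331) ln10_14_6 ln10_14_6_ok))))) (B (M (nat_lit 362) (B (M (nat_lit 489) (B (L (nat_lit 521) ln10_12_5 ln10_12_5_ok) (L (nat_lit 457) ln10_11_5 ln10_11_5_ok))) (M (nat_lit 363) (B (L (nat_lit 395) ln10_15_6 ln10_15_6_ok) (L (nat_lit 331) ln10_14_6 ln10_14_6_ok))))) (B (M (nat_lit 362) (B (M (nat_lit 489) (B (L (nat_lit 521) ln10_12_5 ln10_12_5_ok) (L (nat_lit 457) ln10_11_5 ln10_11_5_ok))) (M (nat_lit 491) (B (L (nat_lit 523) ln10_12_4 ln10_12_4_ok) (L (nat_lit 459) ln10_11_4 ln10_11_4_ok))))) (M (nat_lit 522) (B (M (nat_lit 521) (B (L (nat_lit 553) ln10_13_5 ln10_13_5_ok) (L (nat_lit 489) ln10_12_5 ln10_12_5_ok))) (M (nat_lit 393) (B (L (nat_lit 425) ln10_16_7 ln10_16_7_ok) (L (nat_lit 361) ln10_15_7 ln10_15_7_ok)))))))))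 (B (M (nat_lit 394) (B (M (nat_lit 361) (B (L (nat_lit 393) ln10_15_7 ln10_15_7_ok) (M (nat_lit 362) (B (L (nat_lit 329) ln10_14_7 ln10_14_7_ok) (M (nat_lit 363) (B (L (nat_lit 395) ln10_15_6 ln10_15_6_ok) (L (nat_lit 331) ln10_14_6 ln10_14_6_ok))))))) (B (M (nat_lit 362) (B (M (nat_lit 491) (B (L (nat_lit 523) ln10_12_4 ln10_12_4_ok) (L (nat_lit 459) ln10_11_4 ln10_11_4_ok))) (M (nat_lit 363) (B (L (nat_lit 395) ln10_15_6 ln10_15_6_ok) (L (nat_lit 331) ln10_14_6 ln10_14_6_ok))))) (B (M (nat_lit 362) (B (M (nat_lit 491) (B (L (nat_lit 523) ln10_12_4 ln10_12_4_ok) (L (nat_lit 459) ln10_11_4 ln10_11_4_ok))) (M (nat_lit 361) (B (L (nat_lit 393) ln10_15_7 ln10_15_7_ok) (L (nat_lit 329) ln10_14_7 ln10_14_7_ok))))) (M (nat_lit 522) (B (M (nat_lit 523) (B (L (nat_lit 555) ln10_13_4 ln10_13_4_ok) (L (nat_lit 491) ln10_12_4 ln10_12_4_ok))) (M (nat_lit 393) (B (L (nat_lit 425) ln10_16_7 ln10_16_7_ok)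 (L (nat_lit 361) ln10_15_7 ln10_15_7_ok))))))))) c10_d234))))))))))))))) (B (M (nat_lit 428) (B (L (nat_lit 396) ln13_16_7 ln13_16_7_ok) (M (nat_lit 463) (B (L (nat_lit 464) ln16_14_3 ln16_14_3_ok) (M (nat_lit 619) (B (L (nat_lit 618) ln10_19_2_c10 ln10_19_2_c10_ok) (M (nat_lit 426) (B (L (nat_lit 427) ln10_13_0 ln10_13_0_ok) (M (nat_lit 591) (B (L (nat_lit 592) ln16_18_1_c10 ln16_18_1_c10_ok) (M (nat_lit 524) (B (L (nat_lit 492) ln13_19_7 ln13_19_7_ok) (M (nat_lit 522) c10_d235))))))))))))) (M (nat_lit 428) (B (L (nat_lit 396) ln13_16_7 ln13_16_7_ok) (M (nat_lit 463) (B (L (nat_lit 464) ln16_14_3 ln16_14_3_ok) (M (nat_lit 426) (B (L (nat_lit 427) ln10_13_0 ln10_13_0_ok) (M (nat_lit 491) (B (L (nat_lit 492) ln10_15_2 ln10_15_2_ok) (M (nat_lit 619) (B (L (nat_lit 618) ln10_19_2_c10 ln10_19_2_c10_ok) (M (nat_lit 591) (B (L (nat_lit 592) ln16_18_1_c10 ln16_18_1_c10_ok) (M (nat_lit 458) (B (M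 (nat_lit 394) (B (M (nat_lit 521) (B (L (nat_lit 489) ln10_12_5 ln10_12_5_ok) (M (nat_lit 522) (B (L (nat_lit 553) ln10_13_5 ln10_13_5_ok) (L (nat_lit 523) ln10_12_4 ln10_12_4_ok))))) (M (nat_lit 361) (B (L (nat_lit 393) ln10_15_7 ln10_15_7_ok) (M (nat_lit 362) (B (L (nat_lit 329) ln10_14_7 ln10_14_7_ok) (M (nat_lit 363) (B (L (nat_lit 395) ln10_15_6 ln10_15_6_ok) (L (nat_lit 331) ln10_14_6 ln10_14_6_ok))))))))) (B (M (nat_lit 394) (B (M (nat_lit 522) (B (L (nat_lit 523) ln10_12_4 ln10_12_4_ok) (M (nat_lit 393) (B (L (nat_lit 425) ln10_16_7 ln10_16_7_ok) (L (nat_lit 361) ln10_15_7 ln10_15_7_ok))))) (M (nat_lit 362) (B (M (nat_lit 489) (B (L (nat_lit 521) ln10_12_5 ln10_12_5_ok) (L (nat_lit 457) ln10_11_5 ln10_11_5_ok))) (M (nat_lit 363) (B (L (nat_lit 395) ln10_15_6 ln10_15_6_ok) (L (nat_lit 331) ln10_14_6 ln10_14_6_ok))))))) c10_d236))))))))))))))))))))))))))))) (nat_lit 471745303212529431617857442193386895340211435029272104790018930303222451192294239345893258764852856991824633796569317721443457359206950307872383534307218333799242792960)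 (nat_lit 18687756804045285840440975185117156117590194638570230053162074453516498502753334659950588816070952479380407741488554950815314405451369220180978093241713010375791482481027517600124941446936879169536) (nat_lit 18687756804045285840440975185117156117590194638570230053162074453516498502753334659950588816070952479380407741488554950815314405451369220180978093241713010375791482481027517600124941446936879169536) (by decide +kernel)
noncomputable def c10_d237 : Cert := (B (M (nat_lit 528) (B (M (nat_lit 529) (B (L (nat_lit 496) ln13_15_0 ln13_15_0_ok) (M (nat_lit 527) (B (L (nat_lit 526) ln17_16_3 ln17_16_3_ok) (L (nat_lit 492) ln12_15_0 ln12_15_0_ok))))) (B (M (nat_lit 463) (B (M (nat_lit 492) (B (L (nat_lit 527) ln12_15_0 ln12_15_0_ok) (L (nat_lit 464) ln12_15_2 ln12_15_2_ok))) (B (M (nat_lit 464) (B (L (nat_lit 492) ln12_15_2 ln12_15_2_ok) (M (nat_lit 465) (B (L (nat_lit 496) ln13_15_2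 ln13_15_2_ok) (L (nat_lit 466) ln18_14_1_c10 ln18_14_1_c10_ok))))) (B (M (nat_lit 431) (B (M (nat_lit 399) (B (L (nat_lit 496) ln15_12_4 ln15_12_4_ok) (L (nat_lit 526) ln15_12_5 ln15_12_5_ok))) (B (M (nat_lit 560) (B (L (nat_lit 527) ln15_13_4_c10 ln15_13_4_c10_ok) (M (nat_lit 496) (B (L (nat_lit 592) ln16_18_7_c10 ln16_18_7_c10_ok) (L (nat_lit 399) ln15_12_4 ln15_12_4_ok))))) (B (M (nat_lit 527) (B (L (nat_lit 560) ln15_13_4_c10 ln15_13_4_c10_ok) (M (nat_lit 526) (B (L (nat_lit 558) ln15_13_5_c10 ln15_13_5_c10_ok) (L (nat_lit 399) ln15_12_5 ln15_12_5_ok))))) (M (nat_lit 560) (B (L (nat_lit 527) ln15_13_4_c10 ln15_13_4_c10_ok) (M (nat_lit 496) (B (L (nat_lit 592) ln16_18_7_c10 ln16_18_7_c10_ok) (L (nat_lit 464) ln16_17_7_c10 ln16_17_7_c10_ok))))))))) (M (nat_lit 431) (B (M (nat_lit 527) (B (L (nat_lit 560) ln15_13_4_c10 ln15_13_4_c10_ok) (L (nat_lit 492) ln12_15_0 ln12_15_0_ok))) (M (nat_lit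 399) (B (L (nat_lit 496) ln15_12_4 ln15_12_4_ok) (L (nat_lit 526) ln15_12_5 ln15_12_5_ok))))))))) (B (M (nat_lit 496) (B (L (nat_lit 529) ln13_15_0 ln13_15_0_ok) (M (nat_lit 464) (B (L (nat_lit 465) ln13_15_2 ln13_15_2_ok) (M (nat_lit 463) (B (L (nat_lit 492) ln12_15_2 ln12_15_2_ok) (M (nat_lit 431) (B (L (nat_lit 560) ln16_17_7_c10 ln16_17_7_c10_ok) (L (nat_lit 399) ln15_12_4 ln15_12_4_ok))))))))) (B (M (nat_lit 527) (B (L (nat_lit 492) ln12_15_0 ln12_15_0_ok) (M (nat_lit 529) (B (L (nat_lit 530) ln18_16_3_c10 ln18_16_3_c10_ok) (L (nat_lit 526) ln17_16_3 ln17_16_3_ok))))) (M (nat_lit 529) (B (L (nat_lit 496) ln13_15_0 ln13_15_0_ok) (M (nat_lit 527) (B (L (nat_lit 530) ln18_16_3_c10 ln18_16_3_c10_ok) (L (nat_lit 526) ln17_16_3 ln17_16_3_ok)))))))))) (B (M (nat_lit 492) (B (M (nat_lit 491) (B (M (nat_lit 459) (B (L (nat_lit 458) ln14_15_3 ln14_15_3_ok) (L (nat_lit 460) ln15_15_3 ln15_15_3_ok)))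 (M (nat_lit 523) (B (L (nat_lit 522) ln14_15_1 ln14_15_1_ok) (L (nat_lit 524) ln15_15_1 ln15_15_1_ok))))) (B (M (nat_lit 496) (B (M (nat_lit 524) (B (L (nat_lit 523) ln15_15_1 ln15_15_1_ok) (L (nat_lit 525) ln16_15_1 ln16_15_1_ok))) (M (nat_lit 464) (B (L (nat_lit 463) ln12_15_2 ln12_15_2_ok) (L (nat_lit 465) ln13_15_2 ln13_15_2_ok))))) (B (M (nat_lit 525) (B (M (nat_lit 464) (B (L (nat_lit 463) ln12_15_2 ln12_15_2_ok) (M (nat_lit 496) (B (L (nat_lit 524) ln16_15_1 ln16_15_1_ok) (L (nat_lit 465) ln13_15_2 ln13_15_2_ok))))) (M (nat_lit 491) (B (M (nat_lit 459) (B (L (nat_lit 458) ln14_15_3 ln14_15_3_ok) (L (nat_lit 460) ln15_15_3 ln15_15_3_ok))) (M (nat_lit 526) (B (L (nat_lit 490) ln10_15_0 ln10_15_0_ok) (L (nat_lit 527) ln11_15_0 ln11_15_0_ok))))))) (M (nat_lit 491) (B (M (nat_lit 459) (B (L (nat_lit 458) ln14_15_3 ln14_15_3_ok) (L (nat_lit 460) ln15_15_3 ln15_15_3_ok))) (M (nat_lit 490)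 (B (M (nat_lit 522) (B (L (nat_lit 521) ln13_15_1 ln13_15_1_ok) (L (nat_lit 523) ln14_15_1 ln14_15_1_ok))) (M (nat_lit 526) (B (L (nat_lit 525) ln10_15_0 ln10_15_0_ok) (L (nat_lit 527) ln11_15_0 ln11_15_0_ok))))))))))) (M (nat_lit 492) (B (M (nat_lit 523) (B (L (nat_lit 524) ln15_15_1 ln15_15_1_ok) (M (nat_lit 491) (B (L (nat_lit 522) ln14_15_1 ln14_15_1_ok) (M (nat_lit 459) (B (L (nat_lit 458) ln14_15_3 ln14_15_3_ok) (L (nat_lit 460) ln15_15_3 ln15_15_3_ok))))))) (B (M (nat_lit 491) (B (M (nat_lit 459) (B (L (nat_lit 458) ln14_15_3 ln14_15_3_ok) (L (nat_lit 460) ln15_15_3 ln15_15_3_ok))) (M (nat_lit 527) (B (L (nat_lit 526) ln11_15_0 ln11_15_0_ok) (L (nat_lit 528) ln12_15_0 ln12_15_0_ok))))) (B (M (nat_lit 491) (B (M (nat_lit 527) (B (L (nat_lit 528) ln12_15_0 ln12_15_0_ok) (L (nat_lit 526) ln11_15_0 ln11_15_0_ok))) (M (nat_lit 523) (B (L (nat_lit 524) ln15_15_1 ln15_15_1_ok) (L (nat_lit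 522) ln14_15_1 ln14_15_1_ok))))) (M (nat_lit 527) (B (L (nat_lit 528) ln12_15_0 ln12_15_0_ok) (M (nat_lit 463) (B (L (nat_lit 464) ln12_15_2 ln12_15_2_ok) (M (nat_lit 559) (B (M (nat_lit 590) (B (L (nat_lit 558) ln15_14_5_c10 ln15_14_5_c10_ok) (M (nat_lit 591) (B (L (nat_lit 622) ln15_15_5_c10 ln15_15_5_c10_ok) (M (nat_lit 592) (B (L (nat_lit 624) ln15_15_4_c10 ln15_15_4_c10_ok) (L (nat_lit 560) ln15_14_4_c10 ln15_14_4_c10_ok))))))) (B (M (nat_lit 526) (B (M (nat_lit 558) (B (L (nat_lit 590) ln15_14_5_c10 ln15_14_5_c10_ok) (L (nat_lit 431) ln15_13_5_c10 ln15_13_5_c10_ok))) (B (M (nat_lit 431) (B (L (nat_lit 558) ln15_13_5_c10 ln15_13_5_c10_ok) (L (nat_lit 399) ln15_12_5 ln15_12_5_ok))) (M (nat_lit 524) (B (L (nat_lit 523) ln15_15_1 ln15_15_1_ok) (M (nat_lit 560) (B (L (nat_lit 592) ln15_14_4_c10 ln15_14_4_c10_ok) (L (nat_lit 525) ln12_16_0 ln12_16_0_ok)))))))) (B (M (nat_lit 591) (B (M (nat_lit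 590) (B (L (nat_lit 622) ln15_15_5_c10 ln15_15_5_c10_ok) (L (nat_lit 558) ln15_14_5_c10 ln15_14_5_c10_ok))) (B (M (nat_lit 526) (B (L (nat_lit 623) ln15_19_7 ln15_19_7_ok) (M (nat_lit 558) (B (L (nat_lit 590) ln15_14_5_c10 ln15_14_5_c10_ok) (L (nat_lit 431) ln15_13_5_c10 ln15_13_5_c10_ok))))) (B (M (nat_lit 526) (B (L (nat_lit 623) ln15_19_7 ln15_19_7_ok) (M (nat_lit 431) (B (L (nat_lit 558) ln15_13_5_c10 ln15_13_5_c10_ok) (L (nat_lit 399) ln15_12_5 ln15_12_5_ok))))) (M (nat_lit 623) (B (L (nat_lit 526) ln15_19_7 ln15_19_7_ok) (M (nat_lit 622) (B (L (nat_lit 654) ln15_16_5_c10 ln15_16_5_c10_ok) (L (nat_lit 590) ln15_15_5_c10 ln15_15_5_c10_ok))))))))) (B (M (nat_lit 526) (B (M (nat_lit 431) (B (L (nat_lit 558) ln15_13_5_c10 ln15_13_5_c10_ok) (L (nat_lit 399) ln15_12_5 ln15_12_5_ok))) (M (nat_lit 524) (B (L (nat_lit 523) ln15_15_1 ln15_15_1_ok) (M (nat_lit 560) (B (L (nat_lit 592) ln15_14_4_c10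 ln15_14_4_c10_ok) (L (nat_lit 525) ln12_16_0 ln12_16_0_ok))))))) (M (nat_lit 591) (B (M (nat_lit 592) (B (L (nat_lit 624) ln15_15_4_c10 ln15_15_4_c10_ok) (L (nat_lit 560) ln15_14_4_c10 ln15_14_4_c10_ok))) (M (nat_lit 623) (B (L (nat_lit 526) ln15_19_7 ln15_19_7_ok) (M (nat_lit 622) (B (L (nat_lit 654) ln15_16_5_c10 ln15_16_5_c10_ok) (L (nat_lit 590) ln15_15_5_c10 ln15_15_5_c10_ok))))))))))))))))))))))
noncomputable def c10_d238 : Cert := (B (M (nat_lit 463) (B (M (nat_lit 495) (B (M (nat_lit 431) (B (M (nat_lit 399) (B (L (nat_lit 367) ln15_11_5 ln15_11_5_ok) (L (nat_lit 526) ln15_12_5 ln15_12_5_ok))) (B (M (nat_lit 526) (B (L (nat_lit 399) ln15_12_5 ln15_12_5_ok) (L (nat_lit 558) ln14_17_6_c10 ln14_17_6_c10_ok))) (B (M (nat_lit 527) (B (M (nat_lit 559) (B (L (nat_lit 591) ln15_18_7 ln15_18_7_ok) (M (nat_lit 560) (B (L (nat_lit 528) ln15_13_4_c10 ln15_13_4_c10_ok) (L (nat_lit 592) ln15_14_4_c10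 ln15_14_4_c10_ok))))) (B (M (nat_lit 558) (B (L (nat_lit 526) ln15_13_5_c10 ln15_13_5_c10_ok) (M (nat_lit 559) (B (L (nat_lit 590) ln15_14_5_c10 ln15_14_5_c10_ok) (L (nat_lit 591) ln15_18_7 ln15_18_7_ok))))) (M (nat_lit 526) (B (L (nat_lit 558) ln15_13_5_c10 ln15_13_5_c10_ok) (M (nat_lit 528) (B (L (nat_lit 529) ln17_16_3 ln17_16_3_ok) (L (nat_lit 560) ln15_13_4_c10 ln15_13_4_c10_ok)))))))) (M (nat_lit 527) (B (M (nat_lit 559) (B (L (nat_lit 591) ln15_18_7 ln15_18_7_ok) (M (nat_lit 560) (B (L (nat_lit 528) ln15_13_4_c10 ln15_13_4_c10_ok) (L (nat_lit 592) ln15_14_4_c10 ln15_14_4_c10_ok))))) (M (nat_lit 400) (B (L (nat_lit 432) ln15_16_6 ln15_16_6_ok) (M (nat_lit 399) (B (L (nat_lit 368) ln15_15_6 ln15_15_6_ok) (L (nat_lit 367) ln15_11_5 ln15_11_5_ok))))))))))) (B (M (nat_lit 496) (B (L (nat_lit 497) ln17_15_3 ln17_15_3_ok) (M (nat_lit 528) (B (L (nat_lit 529) ln13_15_0 ln13_15_0_ok) (M (nat_lit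 431) (B (L (nat_lit 399) ln15_12_4 ln15_12_4_ok) (M (nat_lit 560) (B (L (nat_lit 527) ln15_13_4_c10 ln15_13_4_c10_ok) (L (nat_lit 592) ln16_18_7_c10 ln16_18_7_c10_ok))))))))) (M (nat_lit 525) (B (M (nat_lit 496) (B (L (nat_lit 497) ln17_15_3 ln17_15_3_ok) (L (nat_lit 524) ln16_15_1 ln16_15_1_ok))) (M (nat_lit 558) (B (L (nat_lit 526) ln13_13_4 ln13_13_4_ok) (M (nat_lit 557) (B (L (nat_lit 590) ln13_14_4 ln13_14_4_ok) (L (nat_lit 589) ln13_18_6 ln13_18_6_ok)))))))))) (M (nat_lit 464) (B (L (nat_lit 428) ln16_14_3 ln16_14_3_ok) (L (nat_lit 465) ln17_14_1 ln17_14_1_ok))))) (B (M (nat_lit 463) (B (M (nat_lit 464) (B (L (nat_lit 465) ln17_14_1 ln17_14_1_ok) (M (nat_lit 496) (B (L (nat_lit 497) ln13_14_0 ln13_14_0_ok) (M (nat_lit 460) (B (L (nat_lit 495) ln12_14_0 ln12_14_0_ok) (M (nat_lit 432) (B (L (nat_lit 431) ln12_14_2 ln12_14_2_ok) (L (nat_lit 433) ln13_14_2 ln13_14_2_ok))))))))) (B (M (nat_lit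 464) (B (L (nat_lit 465) ln17_14_1 ln17_14_1_ok) (M (nat_lit 496) (B (L (nat_lit 497) ln13_14_0 ln13_14_0_ok) (M (nat_lit 495) (B (L (nat_lit 460) ln12_14_0 ln12_14_0_ok) (M (nat_lit 432) (B (L (nat_lit 433) ln13_14_2 ln13_14_2_ok) (M (nat_lit 400) (B (L (nat_lit 368) ln16_11_5_c10 ln16_11_5_c10_ok) (L (nat_lit 527) ln16_12_5_c10 ln16_12_5_c10_ok))))))))))) (B (M (nat_lit 464) (B (L (nat_lit 465) ln17_14_1 ln17_14_1_ok) (M (nat_lit 496) (B (L (nat_lit 497) ln13_14_0 ln13_14_0_ok) (M (nat_lit 495) (B (L (nat_lit 460) ln12_14_0 ln12_14_0_ok) (M (nat_lit 528) (B (L (nat_lit 529) ln13_15_0 ln13_15_0_ok) (M (nat_lit 431) (B (L (nat_lit 399) ln15_12_4 ln15_12_4_ok) (L (nat_lit 560) ln16_17_7_c10 ln16_17_7_c10_ok))))))))))) (B (M (nat_lit 464) (B (L (nat_lit 465) ln17_14_1 ln17_14_1_ok) (M (nat_lit 496) (B (L (nat_lit 497) ln13_14_0 ln13_14_0_ok) (M (nat_lit 495) (B (M (nat_lit 432) (B (L (nat_lit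 433) ln13_14_2 ln13_14_2_ok) (M (nat_lit 400) (B (L (nat_lit 368) ln16_11_5_c10 ln16_11_5_c10_ok) (L (nat_lit 527) ln16_12_5_c10 ln16_12_5_c10_ok))))) (M (nat_lit 528) (B (L (nat_lit 529) ln13_15_0 ln13_15_0_ok) (M (nat_lit 431) (B (L (nat_lit 399) ln15_12_4 ln15_12_4_ok) (L (nat_lit 560) ln16_17_7_c10 ln16_17_7_c10_ok))))))))))) (B (M (nat_lit 495) (B (M (nat_lit 460) (B (L (nat_lit 459) ln11_14_0 ln11_14_0_ok) (L (nat_lit 496) ln12_14_0 ln12_14_0_ok))) (B (M (nat_lit 496) (B (L (nat_lit 460) ln12_14_0 ln12_14_0_ok) (L (nat_lit 497) ln17_15_3 ln17_15_3_ok))) (B (M (nat_lit 496) (B (L (nat_lit 497) ln17_15_3 ln17_15_3_ok) (M (nat_lit 528) (B (L (nat_lit 529) ln13_15_0 ln13_15_0_ok) (M (nat_lit 431) (B (L (nat_lit 399) ln15_12_4 ln15_12_4_ok) (M (nat_lit 560) (B (L (nat_lit 527) ln15_13_4_c10 ln15_13_4_c10_ok) (L (nat_lit 592) ln16_18_7_c10 ln16_18_7_c10_ok))))))))) (M (nat_lit 431) (B (M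 (nat_lit 399) (B (L (nat_lit 367) ln15_11_5 ln15_11_5_ok) (L (nat_lit 526) ln15_12_5 ln15_12_5_ok))) (M (nat_lit 460) (B (L (nat_lit 432) ln12_14_2 ln12_14_2_ok) (L (nat_lit 459) ln11_14_0 ln11_14_0_ok))))))))) (B (M (nat_lit 464) (B (L (nat_lit 465) ln17_14_1 ln17_14_1_ok) (M (nat_lit 496) (B (L (nat_lit 497) ln13_14_0 ln13_14_0_ok) (M (nat_lit 432) (B (L (nat_lit 433) ln13_14_2 ln13_14_2_ok) (M (nat_lit 431) (B (L (nat_lit 460) ln12_14_2 ln12_14_2_ok) (M (nat_lit 399) (B (L (nat_lit 367) ln15_11_4 ln15_11_4_ok) (L (nat_lit 528) ln16_16_7 ln16_16_7_ok))))))))))) (M (nat_lit 464) (B (L (nat_lit 465) ln17_14_1 ln17_14_1_ok) (M (nat_lit 432) (B (L (nat_lit 433) ln13_14_2 ln13_14_2_ok) (M (nat_lit 431) (B (L (nat_lit 460) ln12_14_2 ln12_14_2_ok) (M (nat_lit 495) (B (M (nat_lit 399) (B (L (nat_lit 367) ln15_11_5 ln15_11_5_ok) (L (nat_lit 526) ln15_12_5 ln15_12_5_ok))) (M (nat_lit 400) (B (L (nat_lit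 368) ln16_11_5_c10 ln16_11_5_c10_ok) (L (nat_lit 527) ln15_16_6 ln15_16_6_ok)))))))))))))))))) (B (M (nat_lit 558) (B (L (nat_lit 526) ln14_17_7 ln14_17_7_ok) (M (nat_lit 428) (B (M (nat_lit 525) (B (L (nat_lit 396) ln13_16_7 ln13_16_7_ok) (M (nat_lit 557) (B (L (nat_lit 589) ln13_18_6 ln13_18_6_ok) (L (nat_lit 590) ln13_14_4 ln13_14_4_ok))))) (B (M (nat_lit 525) (B (L (nat_lit 396) ln13_16_7 ln13_16_7_ok) (M (nat_lit 557) (B (L (nat_lit 590) ln13_14_4 ln13_14_4_ok) (L (nat_lit 460) ln13_17_7 ln13_17_7_ok))))) (B (M (nat_lit 525) (B (L (nat_lit 396) ln13_16_7 ln13_16_7_ok) (M (nat_lit 557) (B (L (nat_lit 589) ln13_18_6 ln13_18_6_ok) (L (nat_lit 460) ln13_17_7 ln13_17_7_ok))))) (M (nat_lit 463) (B (L (nat_lit 464) ln16_14_3 ln16_14_3_ok) (M (nat_lit 427) (B (L (nat_lit 460) ln15_14_3 ln15_14_3_ok) (L (nat_lit 426) ln10_13_0 ln10_13_0_ok))))))))))) (M (nat_lit 460) (B (M (nat_lit 459) (B (L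 (nat_lit 458) ln10_14_0 ln10_14_0_ok) (L (nat_lit 495) ln11_14_0 ln11_14_0_ok))) (M (nat_lit 428) (B (M (nat_lit 427) (B (L (nat_lit 426) ln10_13_0 ln10_13_0_ok) (L (nat_lit 463) ln15_14_3 ln15_14_3_ok))) (M (nat_lit 396) (B (L (nat_lit 364) ln12_11_4 ln12_11_4_ok) (L (nat_lit 525) ln13_16_7 ln13_16_7_ok))))))))))
noncomputable def c10_d239 : Cert := (B (M (nat_lit 463) (B (M (nat_lit 464) (B (L (nat_lit 492) ln12_15_2 ln12_15_2_ok) (M (nat_lit 465) (B (L (nat_lit 466) ln18_14_1_c10 ln18_14_1_c10_ok) (L (nat_lit 462) ln17_14_1 ln17_14_1_ok))))) (B (M (nat_lit 492) (B (L (nat_lit 464) ln12_15_2 ln12_15_2_ok) (M (nat_lit 491) (B (L (nat_lit 462) ln11_15_2 ln11_15_2_ok) (M (nat_lit 527) (B (L (nat_lit 528) ln12_15_0 ln12_15_0_ok) (L (nat_lit 526) ln11_15_0 ln11_15_0_ok))))))) (B (M (nat_lit 527) (B (M (nat_lit 492) (B (L (nat_lit 528) ln12_15_0 ln12_15_0_ok) (M (nat_lit 491) (B (L (nat_lit 526)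 ln11_15_0 ln11_15_0_ok) (L (nat_lit 462) ln11_15_2 ln11_15_2_ok))))) (B (M (nat_lit 526) (B (M (nat_lit 431) (B (L (nat_lit 558) ln15_13_5_c10 ln15_13_5_c10_ok) (L (nat_lit 399) ln15_12_5 ln15_12_5_ok))) (M (nat_lit 559) (B (M (nat_lit 591) (B (L (nat_lit 623) ln15_19_7 ln15_19_7_ok) (L (nat_lit 462) ln15_18_7 ln15_18_7_ok))) (M (nat_lit 524) (B (M (nat_lit 560) (B (L (nat_lit 592) ln15_14_4_c10 ln15_14_4_c10_ok) (L (nat_lit 525) ln12_16_0 ln12_16_0_ok))) (B (M (nat_lit 525) (B (L (nat_lit 560) ln12_16_0 ln12_16_0_ok) (L (nat_lit 523) ln11_16_2 ln11_16_2_ok))) (M (nat_lit 492) (B (L (nat_lit 491) ln11_15_0 ln11_15_0_ok) (L (nat_lit 523) ln15_15_1 ln15_15_1_ok)))))))))) (B (M (nat_lit 492) (B (L (nat_lit 528) ln12_15_0 ln12_15_0_ok) (M (nat_lit 491) (B (L (nat_lit 462) ln11_15_2 ln11_15_2_ok) (M (nat_lit 523) (B (L (nat_lit 524) ln15_15_1 ln15_15_1_ok) (L (nat_lit 522) ln14_15_1 ln14_15_1_ok)))))))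 (B (M (nat_lit 431) (B (M (nat_lit 528) (B (L (nat_lit 560) ln15_13_4_c10 ln15_13_4_c10_ok) (L (nat_lit 492) ln12_15_0 ln12_15_0_ok))) (M (nat_lit 526) (B (L (nat_lit 558) ln15_13_5_c10 ln15_13_5_c10_ok) (L (nat_lit 399) ln15_12_5 ln15_12_5_ok))))) (M (nat_lit 559) (B (M (nat_lit 591) (B (L (nat_lit 462) ln15_18_7 ln15_18_7_ok) (M (nat_lit 590) (B (L (nat_lit 622) ln15_15_5_c10 ln15_15_5_c10_ok) (L (nat_lit 558) ln15_14_5_c10 ln15_14_5_c10_ok))))) (B (M (nat_lit 558) (B (L (nat_lit 590) ln15_14_5_c10 ln15_14_5_c10_ok) (M (nat_lit 431) (B (L (nat_lit 526) ln15_13_5_c10 ln15_13_5_c10_ok) (M (nat_lit 560) (B (L (nat_lit 592) ln15_14_4_c10 ln15_14_4_c10_ok) (L (nat_lit 528) ln15_13_4_c10 ln15_13_4_c10_ok))))))) (B (M (nat_lit 526) (B (M (nat_lit 591) (B (L (nat_lit 623) ln15_19_7 ln15_19_7_ok) (L (nat_lit 462) ln15_18_7 ln15_18_7_ok))) (M (nat_lit 431) (B (L (nat_lit 558) ln15_13_5_c10 ln15_13_5_c10_ok)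 (M (nat_lit 560) (B (L (nat_lit 592) ln15_14_4_c10 ln15_14_4_c10_ok) (L (nat_lit 528) ln15_13_4_c10 ln15_13_4_c10_ok))))))) (M (nat_lit 591) (B (L (nat_lit 462) ln15_18_7 ln15_18_7_ok) (M (nat_lit 528) (B (M (nat_lit 526) (B (L (nat_lit 529) ln17_16_3 ln17_16_3_ok) (L (nat_lit 623) ln15_19_7 ln15_19_7_ok))) (M (nat_lit 560) (B (L (nat_lit 592) ln15_14_4_c10 ln15_14_4_c10_ok) (L (nat_lit 431) ln15_13_4_c10 ln15_13_4_c10_ok)))))))))))))))) (B (M (nat_lit 492) (B (L (nat_lit 464) ln12_15_2 ln12_15_2_ok) (M (nat_lit 491) (B (M (nat_lit 527) (B (L (nat_lit 528) ln12_15_0 ln12_15_0_ok) (L (nat_lit 526) ln11_15_0 ln11_15_0_ok))) (M (nat_lit 523) (B (L (nat_lit 524) ln15_15_1 ln15_15_1_ok) (L (nat_lit 522) ln14_15_1 ln14_15_1_ok))))))) (M (nat_lit 431) (B (M (nat_lit 526) (B (L (nat_lit 399) ln15_12_5 ln15_12_5_ok) (M (nat_lit 558) (B (L (nat_lit 527) ln15_13_5_c10 ln15_13_5_c10_ok) (L (nat_lit 590)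 ln14_18_6 ln14_18_6_ok))))) (B (M (nat_lit 526) (B (L (nat_lit 399) ln15_12_5 ln15_12_5_ok) (M (nat_lit 558) (B (L (nat_lit 590) ln14_18_6 ln14_18_6_ok) (L (nat_lit 462) ln14_17_6_c10 ln14_17_6_c10_ok))))) (B (M (nat_lit 527) (B (M (nat_lit 526) (B (L (nat_lit 558) ln15_13_5_c10 ln15_13_5_c10_ok) (M (nat_lit 528) (B (L (nat_lit 529) ln17_16_3 ln17_16_3_ok) (L (nat_lit 560) ln15_13_4_c10 ln15_13_4_c10_ok))))) (B (M (nat_lit 559) (B (M (nat_lit 432) (B (L (nat_lit 464) ln15_17_6 ln15_17_6_ok) (L (nat_lit 400) ln15_16_6 ln15_16_6_ok))) (M (nat_lit 558) (B (L (nat_lit 590) ln15_14_5_c10 ln15_14_5_c10_ok) (L (nat_lit 526) ln15_13_5_c10 ln15_13_5_c10_ok))))) (M (nat_lit 559) (B (M (nat_lit 560) (B (L (nat_lit 592) ln15_14_4_c10 ln15_14_4_c10_ok) (L (nat_lit 528) ln15_13_4_c10 ln15_13_4_c10_ok))) (M (nat_lit 432) (B (L (nat_lit 464) ln15_17_6 ln15_17_6_ok) (L (nat_lit 400) ln15_16_6 ln15_16_6_ok))))))))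 (B (M (nat_lit 526) (B (L (nat_lit 399) ln15_12_5 ln15_12_5_ok) (M (nat_lit 558) (B (L (nat_lit 527) ln15_13_5_c10 ln15_13_5_c10_ok) (L (nat_lit 462) ln14_17_6_c10 ln14_17_6_c10_ok))))) (B (M (nat_lit 399) (B (L (nat_lit 526) ln15_12_5 ln15_12_5_ok) (M (nat_lit 367) (B (L (nat_lit 462) ln15_11_5 ln15_11_5_ok) (M (nat_lit 366) (B (L (nat_lit 398) ln15_15_7 ln15_15_7_ok) (L (nat_lit 334) ln15_14_7 ln15_14_7_ok))))))) (M (nat_lit 527) (B (M (nat_lit 559) (B (M (nat_lit 560) (B (L (nat_lit 592) ln15_14_4_c10 ln15_14_4_c10_ok) (L (nat_lit 528) ln15_13_4_c10 ln15_13_4_c10_ok))) (M (nat_lit 432) (B (L (nat_lit 464) ln15_17_6 ln15_17_6_ok) (L (nat_lit 400) ln15_16_6 ln15_16_6_ok))))) (B (M (nat_lit 399) (B (M (nat_lit 400) (B (L (nat_lit 432) ln15_16_6 ln15_16_6_ok) (L (nat_lit 368) ln15_15_6 ln15_15_6_ok))) (M (nat_lit 367) (B (L (nat_lit 462) ln15_11_5 ln15_11_5_ok) (M (nat_lit 366) (B (L (nat_lit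 398) ln15_15_7 ln15_15_7_ok) (L (nat_lit 334) ln15_14_7 ln15_14_7_ok))))))) (M (nat_lit 559) (B (M (nat_lit 560) (B (L (nat_lit 592) ln15_14_4_c10 ln15_14_4_c10_ok) (L (nat_lit 528) ln15_13_4_c10 ln15_13_4_c10_ok))) (M (nat_lit 591) (B (L (nat_lit 462) ln15_18_7 ln15_18_7_ok) (M (nat_lit 590) (B (L (nat_lit 622) ln15_15_5_c10 ln15_15_5_c10_ok) (L (nat_lit 558) ln15_14_5_c10 ln15_14_5_c10_ok))))))))))))))))))))) (B (M (nat_lit 496) (B (M (nat_lit 492) (B (M (nat_lit 528) (B (L (nat_lit 529) ln13_15_0 ln13_15_0_ok) (L (nat_lit 527) ln12_15_0 ln12_15_0_ok))) (M (nat_lit 524) (B (L (nat_lit 525) ln16_15_1 ln16_15_1_ok) (L (nat_lit 523) ln15_15_1 ln15_15_1_ok))))) (B (M (nat_lit 497) (B (M (nat_lit 525) (B (L (nat_lit 526) ln17_15_1 ln17_15_1_ok) (L (nat_lit 524) ln16_15_1 ln16_15_1_ok))) (M (nat_lit 498) (B (M (nat_lit 466) (B (L (nat_lit 467) ln15_15_2_c10 ln15_15_2_c10_ok) (L (nat_lit 465)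 ln14_15_2_c10 ln14_15_2_c10_ok))) (L (nat_lit 462) ln17_15_3 ln17_15_3_ok))))) (M (nat_lit 497) (B (M (nat_lit 529) (B (L (nat_lit 530) ln14_15_0 ln14_15_0_ok) (L (nat_lit 528) ln13_15_0 ln13_15_0_ok))) (M (nat_lit 498) (B (M (nat_lit 466) (B (L (nat_lit 467) ln15_15_2_c10 ln15_15_2_c10_ok) (L (nat_lit 465) ln14_15_2_c10 ln14_15_2_c10_ok))) (L (nat_lit 462) ln17_15_3 ln17_15_3_ok)))))))) (B (M (nat_lit 492) (B (M (nat_lit 491) (B (M (nat_lit 527) (B (L (nat_lit 528) ln12_15_0 ln12_15_0_ok) (L (nat_lit 526) ln11_15_0 ln11_15_0_ok))) (M (nat_lit 523) (B (L (nat_lit 524) ln15_15_1 ln15_15_1_ok) (L (nat_lit 522) ln14_15_1 ln14_15_1_ok))))) (B (M (nat_lit 491) (B (M (nat_lit 463) (B (L (nat_lit 464) ln12_15_2 ln12_15_2_ok) (L (nat_lit 462) ln11_15_2 ln11_15_2_ok))) (M (nat_lit 523) (B (L (nat_lit 524) ln15_15_1 ln15_15_1_ok) (L (nat_lit 522) ln14_15_1 ln14_15_1_ok))))) (B (M (nat_lit 491) (B (M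 (nat_lit 527) (B (L (nat_lit 528) ln12_15_0 ln12_15_0_ok) (L (nat_lit 526) ln11_15_0 ln11_15_0_ok))) (M (nat_lit 463) (B (L (nat_lit 464) ln12_15_2 ln12_15_2_ok) (L (nat_lit 462) ln11_15_2 ln11_15_2_ok))))) (M (nat_lit 496) (B (M (nat_lit 528) (B (L (nat_lit 529) ln13_15_0 ln13_15_0_ok) (L (nat_lit 527) ln12_15_0 ln12_15_0_ok))) (M (nat_lit 464) (B (L (nat_lit 465) ln13_15_2 ln13_15_2_ok) (L (nat_lit 463) ln12_15_2 ln12_15_2_ok))))))))) (B (M (nat_lit 496) (B (M (nat_lit 528) (B (L (nat_lit 529) ln13_15_0 ln13_15_0_ok) (M (nat_lit 464) (B (L (nat_lit 465) ln13_15_2 ln13_15_2_ok) (M (nat_lit 492) (B (L (nat_lit 527) ln12_15_0 ln12_15_0_ok) (L (nat_lit 463) ln12_15_2 ln12_15_2_ok))))))) (B (M (nat_lit 497) (B (M (nat_lit 465) (B (L (nat_lit 466) ln14_15_2_c10 ln14_15_2_c10_ok) (L (nat_lit 464) ln13_15_2 ln13_15_2_ok))) (M (nat_lit 498) (B (M (nat_lit 526) (B (L (nat_lit 527) ln18_15_1_c10 ln18_15_1_c10_ok)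 (L (nat_lit 525) ln17_15_1 ln17_15_1_ok))) (L (nat_lit 462) ln17_15_3 ln17_15_3_ok))))) (B (M (nat_lit 497) (B (M (nat_lit 529) (B (L (nat_lit 530) ln14_15_0 ln14_15_0_ok) (L (nat_lit 528) ln13_15_0 ln13_15_0_ok))) (M (nat_lit 498) (B (M (nat_lit 526) (B (L (nat_lit 527) ln18_15_1_c10 ln18_15_1_c10_ok) (L (nat_lit 525) ln17_15_1 ln17_15_1_ok))) (L (nat_lit 462) ln17_15_3 ln17_15_3_ok))))) (M (nat_lit 497) (B (M (nat_lit 529) (B (L (nat_lit 530) ln14_15_0 ln14_15_0_ok) (L (nat_lit 528) ln13_15_0 ln13_15_0_ok))) (M (nat_lit 465) (B (L (nat_lit 466) ln14_15_2_c10 ln14_15_2_c10_ok) (L (nat_lit 464) ln13_15_2 ln13_15_2_ok))))))))) (M (nat_lit 496) (B (M (nat_lit 525) (B (L (nat_lit 524) ln16_15_1 ln16_15_1_ok) (M (nat_lit 529) (B (L (nat_lit 528) ln13_15_0 ln13_15_0_ok) (M (nat_lit 497) (B (L (nat_lit 530) ln14_15_0 ln14_15_0_ok) (L (nat_lit 526) ln17_15_1 ln17_15_1_ok))))))) (B (M (nat_lit 497)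 (B (M (nat_lit 465) (B (L (nat_lit 466) ln14_15_2_c10 ln14_15_2_c10_ok) (L (nat_lit 464) ln13_15_2 ln13_15_2_ok))) (M (nat_lit 525) (B (L (nat_lit 526) ln17_15_1 ln17_15_1_ok) (L (nat_lit 524) ln16_15_1 ln16_15_1_ok))))) (M (nat_lit 528) (B (L (nat_lit 529) ln13_15_0 ln13_15_0_ok) (M (nat_lit 464) (B (L (nat_lit 465) ln13_15_2 ln13_15_2_ok) (M (nat_lit 560) (B (M (nat_lit 463) (B (L (nat_lit 592) ln16_18_7_c10 ln16_18_7_c10_ok) (L (nat_lit 431) ln16_17_7_c10 ln16_17_7_c10_ok))) (B (M (nat_lit 432) (B (M (nat_lit 559) (B (L (nat_lit 591) ln16_14_5_c10 ln16_14_5_c10_ok) (L (nat_lit 527) ln16_13_5_c10 ln16_13_5_c10_ok))) (M (nat_lit 431) (B (L (nat_lit 463) ln16_17_7_c10 ln16_17_7_c10_ok) (L (nat_lit 399) ln16_16_7 ln16_16_7_ok))))) (M (nat_lit 592) (B (M (nat_lit 593) (B (L (nat_lit 625) ln16_15_4_c10 ln16_15_4_c10_ok) (L (nat_lit 561) ln16_14_4_c10 ln16_14_4_c10_ok))) (M (nat_lit 591) (B (L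 (nat_lit 623) ln16_15_5_c10 ln16_15_5_c10_ok) (L (nat_lit 559) ln16_14_5_c10 ln16_14_5_c10_ok)))))))))))))))))))
noncomputable def c10_d240 : Cert := (B (M (nat_lit 496) (B (M (nat_lit 492) (B (M (nat_lit 528) (B (L (nat_lit 529) ln13_15_0 ln13_15_0_ok) (L (nat_lit 527) ln12_15_0 ln12_15_0_ok))) (M (nat_lit 524) (B (L (nat_lit 525) ln16_15_1 ln16_15_1_ok) (L (nat_lit 523) ln15_15_1 ln15_15_1_ok))))) (B (M (nat_lit 492) (B (M (nat_lit 464) (B (L (nat_lit 465) ln13_15_2 ln13_15_2_ok) (L (nat_lit 463) ln12_15_2 ln12_15_2_ok))) (M (nat_lit 524) (B (L (nat_lit 525) ln16_15_1 ln16_15_1_ok) (L (nat_lit 523) ln15_15_1 ln15_15_1_ok))))) (B (M (nat_lit 528) (B (L (nat_lit 529) ln13_15_0 ln13_15_0_ok) (M (nat_lit 464) (B (L (nat_lit 465) ln13_15_2 ln13_15_2_ok) (M (nat_lit 492) (B (L (nat_lit 527) ln12_15_0 ln12_15_0_ok) (L (nat_lit 463) ln12_15_2 ln12_15_2_ok))))))) (M (nat_lit 497) (B (M (nat_lit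 529) (B (L (nat_lit 530) ln14_15_0 ln14_15_0_ok) (L (nat_lit 528) ln13_15_0 ln13_15_0_ok))) (M (nat_lit 465) (B (L (nat_lit 466) ln14_15_2_c10 ln14_15_2_c10_ok) (L (nat_lit 464) ln13_15_2 ln13_15_2_ok))))))))) (B (M (nat_lit 496) (B (M (nat_lit 528) (B (L (nat_lit 529) ln13_15_0 ln13_15_0_ok) (M (nat_lit 464) (B (L (nat_lit 465) ln13_15_2 ln13_15_2_ok) (M (nat_lit 492) (B (L (nat_lit 527) ln12_15_0 ln12_15_0_ok) (L (nat_lit 463) ln12_15_2 ln12_15_2_ok))))))) (B (M (nat_lit 492) (B (M (nat_lit 464) (B (L (nat_lit 465) ln13_15_2 ln13_15_2_ok) (L (nat_lit 463) ln12_15_2 ln12_15_2_ok))) (M (nat_lit 524) (B (L (nat_lit 525) ln16_15_1 ln16_15_1_ok) (L (nat_lit 523) ln15_15_1 ln15_15_1_ok))))) (B (M (nat_lit 492) (B (M (nat_lit 528) (B (L (nat_lit 529) ln13_15_0 ln13_15_0_ok) (L (nat_lit 527) ln12_15_0 ln12_15_0_ok))) (M (nat_lit 524) (B (L (nat_lit 525) ln16_15_1 ln16_15_1_ok) (L (nat_lit 523)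 ln15_15_1 ln15_15_1_ok))))) (M (nat_lit 497) (B (M (nat_lit 465) (B (L (nat_lit 466) ln14_15_2_c10 ln14_15_2_c10_ok) (L (nat_lit 464) ln13_15_2 ln13_15_2_ok))) (M (nat_lit 525) (B (L (nat_lit 526) ln17_15_1 ln17_15_1_ok) (L (nat_lit 524) ln16_15_1 ln16_15_1_ok))))))))) (B (M (nat_lit 496) (B (M (nat_lit 492) (B (M (nat_lit 464) (B (L (nat_lit 465) ln13_15_2 ln13_15_2_ok) (L (nat_lit 463) ln12_15_2 ln12_15_2_ok))) (M (nat_lit 524) (B (L (nat_lit 525) ln16_15_1 ln16_15_1_ok) (L (nat_lit 523) ln15_15_1 ln15_15_1_ok))))) (B (M (nat_lit 492) (B (M (nat_lit 528) (B (L (nat_lit 529) ln13_15_0 ln13_15_0_ok) (L (nat_lit 527) ln12_15_0 ln12_15_0_ok))) (M (nat_lit 524) (B (L (nat_lit 525) ln16_15_1 ln16_15_1_ok) (L (nat_lit 523) ln15_15_1 ln15_15_1_ok))))) (B (M (nat_lit 528) (B (L (nat_lit 529) ln13_15_0 ln13_15_0_ok) (M (nat_lit 464) (B (L (nat_lit 465) ln13_15_2 ln13_15_2_ok) (M (nat_lit 492) (B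 (L (nat_lit 527) ln12_15_0 ln12_15_0_ok) (L (nat_lit 463) ln12_15_2 ln12_15_2_ok))))))) (M (nat_lit 497) (B (M (nat_lit 529) (B (L (nat_lit 530) ln14_15_0 ln14_15_0_ok) (L (nat_lit 528) ln13_15_0 ln13_15_0_ok))) (M (nat_lit 525) (B (L (nat_lit 526) ln17_15_1 ln17_15_1_ok) (L (nat_lit 524) ln16_15_1 ln16_15_1_ok))))))))) (B (M (nat_lit 492) (B (M (nat_lit 491) (B (M (nat_lit 527) (B (L (nat_lit 528) ln12_15_0 ln12_15_0_ok) (L (nat_lit 526) ln11_15_0 ln11_15_0_ok))) (M (nat_lit 463) (B (L (nat_lit 464) ln12_15_2 ln12_15_2_ok) (L (nat_lit 462) ln11_15_2 ln11_15_2_ok))))) (B (M (nat_lit 491) (B (M (nat_lit 463) (B (L (nat_lit 464) ln12_15_2 ln12_15_2_ok) (L (nat_lit 462) ln11_15_2 ln11_15_2_ok))) (M (nat_lit 523) (B (L (nat_lit 524) ln15_15_1 ln15_15_1_ok) (L (nat_lit 522) ln14_15_1 ln14_15_1_ok))))) (B (M (nat_lit 491) (B (M (nat_lit 527) (B (L (nat_lit 528) ln12_15_0 ln12_15_0_ok) (L (nat_lit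 526) ln11_15_0 ln11_15_0_ok))) (M (nat_lit 523) (B (L (nat_lit 524) ln15_15_1 ln15_15_1_ok) (L (nat_lit 522) ln14_15_1 ln14_15_1_ok))))) (M (nat_lit 496) (B (M (nat_lit 464) (B (L (nat_lit 465) ln13_15_2 ln13_15_2_ok) (L (nat_lit 463) ln12_15_2 ln12_15_2_ok))) (M (nat_lit 524) (B (L (nat_lit 525) ln16_15_1 ln16_15_1_ok) (L (nat_lit 523) ln15_15_1 ln15_15_1_ok))))))))) (B (M (nat_lit 492) (B (M (nat_lit 491) (B (M (nat_lit 527) (B (L (nat_lit 528) ln12_15_0 ln12_15_0_ok) (L (nat_lit 526) ln11_15_0 ln11_15_0_ok))) (M (nat_lit 463) (B (L (nat_lit 464) ln12_15_2 ln12_15_2_ok) (L (nat_lit 462) ln11_15_2 ln11_15_2_ok))))) (B (M (nat_lit 491) (B (M (nat_lit 463) (B (L (nat_lit 464) ln12_15_2 ln12_15_2_ok) (L (nat_lit 462) ln11_15_2 ln11_15_2_ok))) (M (nat_lit 523) (B (L (nat_lit 524) ln15_15_1 ln15_15_1_ok) (L (nat_lit 522) ln14_15_1 ln14_15_1_ok))))) (B (M (nat_lit 491) (B (M (nat_lit 527) (B (L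 (nat_lit 528) ln12_15_0 ln12_15_0_ok) (L (nat_lit 526) ln11_15_0 ln11_15_0_ok))) (M (nat_lit 523) (B (L (nat_lit 524) ln15_15_1 ln15_15_1_ok) (L (nat_lit 522) ln14_15_1 ln14_15_1_ok))))) (M (nat_lit 496) (B (M (nat_lit 528) (B (L (nat_lit 529) ln13_15_0 ln13_15_0_ok) (L (nat_lit 527) ln12_15_0 ln12_15_0_ok))) (M (nat_lit 524) (B (L (nat_lit 525) ln16_15_1 ln16_15_1_ok) (L (nat_lit 523) ln15_15_1 ln15_15_1_ok))))))))) (B (M (nat_lit 496) (B (M (nat_lit 492) (B (M (nat_lit 464) (B (L (nat_lit 465) ln13_15_2 ln13_15_2_ok) (L (nat_lit 463) ln12_15_2 ln12_15_2_ok))) (M (nat_lit 524) (B (L (nat_lit 525) ln16_15_1 ln16_15_1_ok) (L (nat_lit 523) ln15_15_1 ln15_15_1_ok))))) (B (M (nat_lit 463) (B (M (nat_lit 492) (B (L (nat_lit 464) ln12_15_2 ln12_15_2_ok) (M (nat_lit 524) (B (L (nat_lit 525) ln16_15_1 ln16_15_1_ok) (L (nat_lit 523) ln15_15_1 ln15_15_1_ok))))) (B (M (nat_lit 497) (B (M (nat_lit 525)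 (B (L (nat_lit 526) ln17_15_1 ln17_15_1_ok) (L (nat_lit 524) ln16_15_1 ln16_15_1_ok))) (L (nat_lit 462) ln17_15_3 ln17_15_3_ok))) (M (nat_lit 462) (B (L (nat_lit 497) ln17_15_3 ln17_15_3_ok) (M (nat_lit 492) (B (L (nat_lit 464) ln16_14_1 ln16_14_1_ok) (L (nat_lit 491) ln11_15_2 ln11_15_2_ok)))))))) (B (M (nat_lit 497) (B (M (nat_lit 525) (B (L (nat_lit 526) ln17_15_1 ln17_15_1_ok) (L (nat_lit 524) ln16_15_1 ln16_15_1_ok))) (M (nat_lit 498) (B (M (nat_lit 466) (B (L (nat_lit 467) ln15_15_2_c10 ln15_15_2_c10_ok) (L (nat_lit 465) ln14_15_2_c10 ln14_15_2_c10_ok))) (L (nat_lit 462) ln17_15_3 ln17_15_3_ok))))) (M (nat_lit 497) (B (M (nat_lit 465) (B (L (nat_lit 466) ln14_15_2_c10 ln14_15_2_c10_ok) (L (nat_lit 464) ln13_15_2 ln13_15_2_ok))) (B (M (nat_lit 463) (B (L (nat_lit 462) ln17_15_3 ln17_15_3_ok) (M (nat_lit 464) (B (L (nat_lit 465) ln13_15_2 ln13_15_2_ok) (L (nat_lit 492) ln12_15_2 ln12_15_2_ok)))))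 (L (nat_lit 462) ln17_15_3 ln17_15_3_ok)))))))) c10_d239))))))
noncomputable def c10_d241 : Cert := (B (M (nat_lit 459) (B (M (nat_lit 460) (B (L (nat_lit 458) ln10_14_0 ln10_14_0_ok) (M (nat_lit 428) (B (L (nat_lit 396) ln13_16_7 ln13_16_7_ok) (M (nat_lit 462) (B (L (nat_lit 490) ln14_14_1 ln14_14_1_ok) (M (nat_lit 463) (B (L (nat_lit 464) ln16_14_3 ln16_14_3_ok) (L (nat_lit 427) ln15_14_3 ln15_14_3_ok))))))))) (B (M (nat_lit 460) (B (L (nat_lit 458) ln10_14_0 ln10_14_0_ok) (M (nat_lit 523) (B (M (nat_lit 524) (B (L (nat_lit 522) ln10_16_2 ln10_16_2_ok) (L (nat_lit 490) ln14_16_3 ln14_16_3_ok))) (M (nat_lit 428) (B (L (nat_lit 396) ln13_16_7 ln13_16_7_ok) (L (nat_lit 555) ln11_17_6 ln11_17_6_ok))))))) (B (M (nat_lit 427) (B (M (nat_lit 460) (B (L (nat_lit 458) ln10_14_0 ln10_14_0_ok) (M (nat_lit 462) (B (L (nat_lit 426) ln14_14_3 ln14_14_3_ok) (L (nat_lit 490) ln14_14_1 ln14_14_1_ok)))))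 (B (K (nat_lit 329510287769382699730187044062730452192996739211139011898117152809466177805545732675311598669998181379111345560659236315115480809513840976379196219038315315200) (nat_lit 176904488759616918131348077509839574347656936124027043050273196093783339528117148850696352440027531879945991040830762626164201503130205473957053744738659418580679917568) (nat_lit 176904488759616918131348077509839574347656936124027043050273196093783339528117148850696352440027531879945991040830762626164201503130205473957053744738659418580679917568) c10_s506) (B (M (nat_lit 460) (B (L (nat_lit 458) ln10_14_0 ln10_14_0_ok) (M (nat_lit 522) (B (M (nat_lit 490) (B (L (nat_lit 462) ln14_14_1 ln14_14_1_ok) (L (nat_lit 395) ln11_12_5 ln11_12_5_ok))) (M (nat_lit 523) (B (L (nat_lit 524) ln10_16_2 ln10_16_2_ok) (L (nat_lit 554) ln11_13_5 ln11_13_5_ok))))))) (M (nat_lit 523) (B (M (nat_lit 522) (B (L (nat_lit 524) ln10_16_2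 ln10_16_2_ok) (L (nat_lit 554) ln11_13_5 ln11_13_5_ok))) (M (nat_lit 426) (B (L (nat_lit 394) ln11_16_7 ln11_16_7_ok) (M (nat_lit 462) (B (L (nat_lit 428) ln10_13_0 ln10_13_0_ok) (L (nat_lit 460) ln14_14_3 ln14_14_3_ok))))))))))) (B (M (nat_lit 523) (B (M (nat_lit 524) (B (L (nat_lit 522) ln10_16_2 ln10_16_2_ok) (L (nat_lit 490) ln14_16_3 ln14_16_3_ok))) (M (nat_lit 458) (B (L (nat_lit 460) ln10_14_0 ln10_14_0_ok) (M (nat_lit 426) (B (L (nat_lit 555) ln11_17_7 ln11_17_7_ok) (M (nat_lit 394) (B (L (nat_lit 427) ln11_16_7 ln11_16_7_ok) (L (nat_lit 362) ln10_11_4 ln10_11_4_ok))))))))) (B (M (nat_lit 427) (B (M (nat_lit 428) (B (L (nat_lit 396) ln13_16_7 ln13_16_7_ok) (M (nat_lit 426) (B (L (nat_lit 462) ln10_13_0 ln10_13_0_ok) (M (nat_lit 394) (B (L (nat_lit 393) ln13_13_3 ln13_13_3_ok) (L (nat_lit 523) ln11_16_7 ln11_16_7_ok))))))) (B (M (nat_lit 396) (B (L (nat_lit 428) ln13_16_7 ln13_16_7_ok)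 (M (nat_lit 522) (B (M (nat_lit 395) (B (L (nat_lit 364) ln11_15_6 ln11_15_6_ok) (L (nat_lit 490) ln11_12_5 ln11_12_5_ok))) (M (nat_lit 523) (B (L (nat_lit 524) ln10_16_2 ln10_16_2_ok) (L (nat_lit 554) ln11_13_5 ln11_13_5_ok))))))) (B (K (nat_lit 329510287769382699730187044062730452192996739211139011898117152809466177805545732675311598669998181379111345560659236315115480809513840976379196219038315315200) (nat_lit 176904488759616918131348077509839574347656936124027043050273196093783339528117148850696352440027531879945991040830762626164201503130205473957053744738659418580679917568) (nat_lit 176904488759616918131348077509839574347656936124027043050273196093783339528117148850696352440027531879945991040830762626164201503130205473957053744738659418580679917568) c10_s506) (M (nat_lit 395) (B (M (nat_lit 396) (B (L (nat_lit 428) ln13_16_7 ln13_16_7_ok) (L (nat_lit 364) ln11_15_6 ln11_15_6_ok))) (M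 (nat_lit 363) (B (M (nat_lit 362) (B (L (nat_lit 330) ln11_14_7 ln11_14_7_ok) (L (nat_lit 394) ln11_15_7 ln11_15_7_ok))) (M (nat_lit 490) (B (L (nat_lit 458) ln11_11_5 ln11_11_5_ok) (L (nat_lit 522) ln11_12_5 ln11_12_5_ok))))))))))) (B (M (nat_lit 523) (B (M (nat_lit 524) (B (L (nat_lit 522) ln10_16_2 ln10_16_2_ok) (L (nat_lit 490) ln14_16_3 ln14_16_3_ok))) (B (M (nat_lit 427) (B (M (nat_lit 426) (B (L (nat_lit 394) ln11_16_7 ln11_16_7_ok) (M (nat_lit 462) (B (L (nat_lit 428) ln10_13_0 ln10_13_0_ok) (L (nat_lit 460) ln14_14_3 ln14_14_3_ok))))) (B (M (nat_lit 395) (B (M (nat_lit 394) (B (L (nat_lit 362) ln11_15_7 ln11_15_7_ok) (L (nat_lit 426) ln11_16_7 ln11_16_7_ok))) (M (nat_lit 522) (B (L (nat_lit 490) ln11_12_5 ln11_12_5_ok) (L (nat_lit 554) ln11_13_5 ln11_13_5_ok))))) (M (nat_lit 395) (B (M (nat_lit 396) (B (L (nat_lit 428) ln11_16_6 ln11_16_6_ok) (L (nat_lit 364) ln11_15_6 ln11_15_6_ok)))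 (M (nat_lit 522) (B (L (nat_lit 490) ln11_12_5 ln11_12_5_ok) (L (nat_lit 554) ln11_13_5 ln11_13_5_ok)))))))) (B (M (nat_lit 555) (B (M (nat_lit 524) (B (L (nat_lit 522) ln10_16_2 ln10_16_2_ok) (L (nat_lit 554) ln14_16_1 ln14_16_1_ok))) (M (nat_lit 428) (B (L (nat_lit 396) ln13_16_7 ln13_16_7_ok) (L (nat_lit 460) ln11_17_6 ln11_17_6_ok))))) (M (nat_lit 460) (B (M (nat_lit 490) (B (L (nat_lit 462) ln14_14_1 ln14_14_1_ok) (L (nat_lit 524) ln14_16_3 ln14_16_3_ok))) (M (nat_lit 428) (B (L (nat_lit 396) ln13_16_7 ln13_16_7_ok) (L (nat_lit 555) ln11_17_6 ln11_17_6_ok))))))))) (M (nat_lit 460) (B (L (nat_lit 458) ln10_14_0 ln10_14_0_ok) (M (nat_lit 427) (B (M (nat_lit 462) (B (L (nat_lit 426) ln14_14_3 ln14_14_3_ok) (M (nat_lit 428) (B (L (nat_lit 463) ln15_14_3 ln15_14_3_ok) (L (nat_lit 396) ln13_16_7 ln13_16_7_ok))))) (B (M (nat_lit 523) (B (M (nat_lit 426) (B (L (nat_lit 462) ln14_14_3 ln14_14_3_ok)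 (L (nat_lit 394) ln11_16_7 ln11_16_7_ok))) (M (nat_lit 522) (B (L (nat_lit 524) ln10_16_2 ln10_16_2_ok) (L (nat_lit 554) ln11_13_5 ln11_13_5_ok))))) (M (nat_lit 523) (B (M (nat_lit 428) (B (L (nat_lit 396) ln11_16_6 ln11_16_6_ok) (L (nat_lit 555) ln11_17_6 ln11_17_6_ok))) (M (nat_lit 522) (B (L (nat_lit 524) ln10_16_2 ln10_16_2_ok) (L (nat_lit 554) ln11_13_5 ln11_13_5_ok))))))))))))))))) (M (nat_lit 492) (B (L (nat_lit 527) ln11_15_0 ln11_15_0_ok) (M (nat_lit 523) (B (L (nat_lit 522) ln14_15_1 ln14_15_1_ok) (M (nat_lit 459) (B (L (nat_lit 458) ln14_15_3 ln14_15_3_ok) (M (nat_lit 555) (B (M (nat_lit 428) (B (L (nat_lit 396) ln13_16_7 ln13_16_7_ok) (L (nat_lit 460) ln11_17_6 ln11_17_6_ok))) (M (nat_lit 554) (B (L (nat_lit 524) ln14_16_1 ln14_16_1_ok) (L (nat_lit 586) ln11_14_5 ln11_14_5_ok))))))))))))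
noncomputable def c10_d242 : Cert := (B (M (nat_lit 495) (B (M (nat_lit 460) (B (L (nat_lit 496) ln16_15_3 ln16_15_3_ok) (M (nat_lit 459) (B (L (nat_lit 492) ln15_15_3 ln15_15_3_ok) (L (nat_lit 462) ln11_14_0 ln11_14_0_ok))))) (B (M (nat_lit 463) (B (M (nat_lit 464) (B (L (nat_lit 492) ln12_15_2 ln12_15_2_ok) (M (nat_lit 465) (B (L (nat_lit 466) ln18_14_1_c10 ln18_14_1_c10_ok) (L (nat_lit 462) ln17_14_1 ln17_14_1_ok))))) (B (M (nat_lit 431) (B (M (nat_lit 526) (B (L (nat_lit 399) ln15_12_5 ln15_12_5_ok) (M (nat_lit 558) (B (L (nat_lit 590) ln14_18_6 ln14_18_6_ok) (L (nat_lit 462) ln14_17_6_c10 ln14_17_6_c10_ok))))) (B (M (nat_lit 526) (B (L (nat_lit 399) ln15_12_5 ln15_12_5_ok) (M (nat_lit 558) (B (L (nat_lit 527) ln15_13_5_c10 ln15_13_5_c10_ok) (L (nat_lit 462) ln14_17_6_c10 ln14_17_6_c10_ok))))) (B (M (nat_lit 432) (B (M (nat_lit 462) (B (L (nat_lit 460) ln12_14_2 ln12_14_2_ok) (M (nat_lit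 433) (B (L (nat_lit 464) ln13_14_2 ln13_14_2_ok) (L (nat_lit 434) ln18_13_1_c10 ln18_13_1_c10_ok))))) (M (nat_lit 400) (B (L (nat_lit 527) ln15_16_6 ln15_16_6_ok) (M (nat_lit 368) (B (L (nat_lit 399) ln15_15_6 ln15_15_6_ok) (L (nat_lit 336) ln16_10_5 ln16_10_5_ok))))))) (B (M (nat_lit 526) (B (L (nat_lit 399) ln15_12_5 ln15_12_5_ok) (M (nat_lit 558) (B (L (nat_lit 590) ln14_18_6 ln14_18_6_ok) (L (nat_lit 527) ln15_13_5_c10 ln15_13_5_c10_ok))))) (M (nat_lit 527) (B (M (nat_lit 526) (B (L (nat_lit 558) ln15_13_5_c10 ln15_13_5_c10_ok) (M (nat_lit 528) (B (L (nat_lit 560) ln15_13_4_c10 ln15_13_4_c10_ok) (L (nat_lit 529) ln17_16_3 ln17_16_3_ok))))) (B (M (nat_lit 559) (B (M (nat_lit 558) (B (L (nat_lit 590) ln15_14_5_c10 ln15_14_5_c10_ok) (L (nat_lit 526) ln15_13_5_c10 ln15_13_5_c10_ok))) (M (nat_lit 432) (B (L (nat_lit 464) ln15_17_6 ln15_17_6_ok) (L (nat_lit 400) ln15_16_6 ln15_16_6_ok)))))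 (M (nat_lit 559) (B (M (nat_lit 560) (B (L (nat_lit 592) ln15_14_4_c10 ln15_14_4_c10_ok) (L (nat_lit 528) ln15_13_4_c10 ln15_13_4_c10_ok))) (M (nat_lit 432) (B (L (nat_lit 464) ln15_17_6 ln15_17_6_ok) (L (nat_lit 400) ln15_16_6 ln15_16_6_ok))))))))))))) (B (M (nat_lit 431) (B (M (nat_lit 526) (B (L (nat_lit 399) ln15_12_5 ln15_12_5_ok) (M (nat_lit 558) (B (L (nat_lit 590) ln14_18_6 ln14_18_6_ok) (L (nat_lit 527) ln15_13_5_c10 ln15_13_5_c10_ok))))) (B (M (nat_lit 526) (B (L (nat_lit 399) ln15_12_5 ln15_12_5_ok) (M (nat_lit 558) (B (L (nat_lit 527) ln15_13_5_c10 ln15_13_5_c10_ok) (L (nat_lit 462) ln14_17_6_c10 ln14_17_6_c10_ok))))) (B (M (nat_lit 460) (B (M (nat_lit 459) (B (L (nat_lit 492) ln15_15_3 ln15_15_3_ok) (L (nat_lit 462) ln11_14_0 ln11_14_0_ok))) (B (M (nat_lit 459) (B (L (nat_lit 462) ln11_14_0 ln11_14_0_ok) (L (nat_lit 458) ln10_14_0 ln10_14_0_ok))) (B (M (nat_lit 459) (B (L (nat_lit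 492) ln15_15_3 ln15_15_3_ok) (L (nat_lit 458) ln10_14_0 ln10_14_0_ok))) (M (nat_lit 527) (B (M (nat_lit 528) (B (L (nat_lit 560) ln15_13_4_c10 ln15_13_4_c10_ok) (L (nat_lit 492) ln12_15_0 ln12_15_0_ok))) (M (nat_lit 432) (B (L (nat_lit 400) ln15_16_6 ln15_16_6_ok) (L (nat_lit 462) ln12_14_2 ln12_14_2_ok))))))))) (M (nat_lit 526) (B (L (nat_lit 399) ln15_12_5 ln15_12_5_ok) (M (nat_lit 558) (B (L (nat_lit 590) ln14_18_6 ln14_18_6_ok) (L (nat_lit 462) ln14_17_6_c10 ln14_17_6_c10_ok))))))))) (M (nat_lit 527) (B (M (nat_lit 492) (B (L (nat_lit 528) ln12_15_0 ln12_15_0_ok) (L (nat_lit 464) ln12_15_2 ln12_15_2_ok))) (B (M (nat_lit 464) (B (L (nat_lit 492) ln12_15_2 ln12_15_2_ok) (M (nat_lit 432) (B (L (nat_lit 559) ln15_17_6 ln15_17_6_ok) (M (nat_lit 400) (B (L (nat_lit 431) ln15_16_6 ln15_16_6_ok) (L (nat_lit 368) ln16_11_5_c10 ln16_11_5_c10_ok))))))) (B (M (nat_lit 431) (B (M (nat_lit 526) (B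 (L (nat_lit 558) ln15_13_5_c10 ln15_13_5_c10_ok) (L (nat_lit 399) ln15_12_5 ln15_12_5_ok))) (M (nat_lit 559) (B (M (nat_lit 560) (B (L (nat_lit 592) ln15_14_4_c10 ln15_14_4_c10_ok) (L (nat_lit 528) ln15_13_4_c10 ln15_13_4_c10_ok))) (M (nat_lit 432) (B (L (nat_lit 464) ln15_17_6 ln15_17_6_ok) (L (nat_lit 400) ln15_16_6 ln15_16_6_ok))))))) (M (nat_lit 528) (B (L (nat_lit 492) ln12_15_0 ln12_15_0_ok) (M (nat_lit 529) (B (L (nat_lit 530) ln18_16_3_c10 ln18_16_3_c10_ok) (L (nat_lit 526) ln17_16_3 ln17_16_3_ok))))))))))))) (B (M (nat_lit 460) (B (L (nat_lit 496) ln16_15_3 ln16_15_3_ok) (M (nat_lit 459) (B (L (nat_lit 462) ln11_14_0 ln11_14_0_ok) (L (nat_lit 458) ln10_14_0 ln10_14_0_ok))))) (B (M (nat_lit 460) (B (L (nat_lit 496) ln16_15_3 ln16_15_3_ok) (M (nat_lit 459) (B (L (nat_lit 492) ln15_15_3 ln15_15_3_ok) (L (nat_lit 458) ln10_14_0 ln10_14_0_ok))))) (M (nat_lit 496) (B (M (nat_lit 497) (B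 (L (nat_lit 462) ln17_15_3 ln17_15_3_ok) (M (nat_lit 465) (B (L (nat_lit 466) ln14_15_2_c10 ln14_15_2_c10_ok) (L (nat_lit 464) ln13_15_2 ln13_15_2_ok))))) (B (M (nat_lit 492) (B (M (nat_lit 528) (B (L (nat_lit 529) ln13_15_0 ln13_15_0_ok) (L (nat_lit 527) ln12_15_0 ln12_15_0_ok))) (M (nat_lit 464) (B (L (nat_lit 465) ln13_15_2 ln13_15_2_ok) (L (nat_lit 463) ln12_15_2 ln12_15_2_ok))))) (M (nat_lit 497) (B (L (nat_lit 462) ln17_15_3 ln17_15_3_ok) (M (nat_lit 529) (B (L (nat_lit 530) ln14_15_0 ln14_15_0_ok) (L (nat_lit 528) ln13_15_0 ln13_15_0_ok))))))))))))) (M (nat_lit 495) (B (M (nat_lit 460) (B (L (nat_lit 496) ln16_15_3 ln16_15_3_ok) (M (nat_lit 459) (B (L (nat_lit 458) ln10_14_0 ln10_14_0_ok) (L (nat_lit 492) ln15_15_3 ln15_15_3_ok))))) (B (M (nat_lit 460) (B (L (nat_lit 496) ln16_15_3 ln16_15_3_ok) (M (nat_lit 459) (B (L (nat_lit 462) ln11_14_0 ln11_14_0_ok) (L (nat_lit 492) ln15_15_3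 ln15_15_3_ok))))) (B (M (nat_lit 496) (B (L (nat_lit 460) ln16_15_3 ln16_15_3_ok) (M (nat_lit 497) (B (L (nat_lit 462) ln17_15_3 ln17_15_3_ok) (M (nat_lit 465) (B (L (nat_lit 464) ln13_15_2 ln13_15_2_ok) (L (nat_lit 466) ln14_15_2_c10 ln14_15_2_c10_ok))))))) (B (M (nat_lit 496) (B (M (nat_lit 465) (B (L (nat_lit 464) ln13_15_2 ln13_15_2_ok) (M (nat_lit 497) (B (L (nat_lit 462) ln17_15_3 ln17_15_3_ok) (L (nat_lit 466) ln14_15_2_c10 ln14_15_2_c10_ok))))) (M (nat_lit 492) (B (M (nat_lit 524) (B (L (nat_lit 523) ln15_15_1 ln15_15_1_ok) (L (nat_lit 525) ln16_15_1 ln16_15_1_ok))) (M (nat_lit 528) (B (L (nat_lit 527) ln12_15_0 ln12_15_0_ok) (L (nat_lit 529) ln13_15_0 ln13_15_0_ok))))))) (M (nat_lit 492) (B (M (nat_lit 491) (B (M (nat_lit 463) (B (L (nat_lit 462) ln11_15_2 ln11_15_2_ok) (L (nat_lit 464) ln12_15_2 ln12_15_2_ok))) (M (nat_lit 523) (B (L (nat_lit 522) ln14_15_1 ln14_15_1_ok) (L (nat_lit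 524) ln15_15_1 ln15_15_1_ok))))) (B (M (nat_lit 491) (B (M (nat_lit 459) (B (L (nat_lit 458) ln14_15_3 ln14_15_3_ok) (L (nat_lit 460) ln15_15_3 ln15_15_3_ok))) (M (nat_lit 523) (B (L (nat_lit 522) ln14_15_1 ln14_15_1_ok) (L (nat_lit 524) ln15_15_1 ln15_15_1_ok))))) (B (M (nat_lit 460) (B (L (nat_lit 459) ln15_15_3 ln15_15_3_ok) (M (nat_lit 428) (B (M (nat_lit 525) (B (L (nat_lit 396) ln12_12_4 ln12_12_4_ok) (L (nat_lit 557) ln13_17_7 ln13_17_7_ok))) (M (nat_lit 427) (B (M (nat_lit 524) (B (L (nat_lit 395) ln12_16_7 ln12_16_7_ok) (L (nat_lit 523) ln15_15_1 ln15_15_1_ok))) (M (nat_lit 463) (B (L (nat_lit 462) ln15_14_3 ln15_14_3_ok) (L (nat_lit 464) ln12_15_2 ln12_15_2_ok))))))))) (M (nat_lit 491) (B (M (nat_lit 459) (B (L (nat_lit 458) ln14_15_3 ln14_15_3_ok) (L (nat_lit 460) ln15_15_3 ln15_15_3_ok))) (M (nat_lit 462) (B (L (nat_lit 490) ln10_15_2 ln10_15_2_ok) (L (nat_lit 463) ln11_15_2 ln11_15_2_ok)))))))))))))))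
noncomputable def c10_d243 : Cert := (B (M (nat_lit 495) (B (M (nat_lit 460) (B (L (nat_lit 496) ln16_15_3 ln16_15_3_ok) (M (nat_lit 459) (B (L (nat_lit 462) ln11_14_0 ln11_14_0_ok) (L (nat_lit 458) ln10_14_0 ln10_14_0_ok))))) (B (M (nat_lit 460) (B (L (nat_lit 496) ln16_15_3 ln16_15_3_ok) (M (nat_lit 459) (B (L (nat_lit 458) ln10_14_0 ln10_14_0_ok) (L (nat_lit 492) ln15_15_3 ln15_15_3_ok))))) (B (M (nat_lit 496) (B (M (nat_lit 465) (B (L (nat_lit 464) ln13_15_2 ln13_15_2_ok) (M (nat_lit 497) (B (L (nat_lit 466) ln14_15_2_c10 ln14_15_2_c10_ok) (L (nat_lit 462) ln17_15_3 ln17_15_3_ok))))) (B (M (nat_lit 497) (B (L (nat_lit 462) ln17_15_3 ln17_15_3_ok) (M (nat_lit 529) (B (L (nat_lit 530) ln14_15_0 ln14_15_0_ok) (L (nat_lit 528) ln13_15_0 ln13_15_0_ok))))) (B (M (nat_lit 497) (B (M (nat_lit 465) (B (L (nat_lit 466) ln14_15_2_c10 ln14_15_2_c10_ok) (L (nat_lit 464) ln13_15_2 ln13_15_2_ok))) (M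 (nat_lit 529) (B (L (nat_lit 530) ln14_15_0 ln14_15_0_ok) (L (nat_lit 528) ln13_15_0 ln13_15_0_ok))))) (M (nat_lit 464) (B (L (nat_lit 465) ln13_15_2 ln13_15_2_ok) (M (nat_lit 463) (B (L (nat_lit 492) ln12_15_2 ln12_15_2_ok) (M (nat_lit 528) (B (L (nat_lit 529) ln13_15_0 ln13_15_0_ok) (M (nat_lit 431) (B (L (nat_lit 399) ln15_12_4 ln15_12_4_ok) (L (nat_lit 560) ln16_17_7_c10 ln16_17_7_c10_ok))))))))))))) (M (nat_lit 492) (B (M (nat_lit 491) (B (M (nat_lit 463) (B (L (nat_lit 464) ln12_15_2 ln12_15_2_ok) (L (nat_lit 462) ln11_15_2 ln11_15_2_ok))) (M (nat_lit 459) (B (L (nat_lit 460) ln15_15_3 ln15_15_3_ok) (L (nat_lit 458) ln14_15_3 ln14_15_3_ok))))) (B (M (nat_lit 491) (B (M (nat_lit 462) (B (L (nat_lit 463) ln11_15_2 ln11_15_2_ok) (L (nat_lit 490) ln10_15_2 ln10_15_2_ok))) (M (nat_lit 459) (B (L (nat_lit 460) ln15_15_3 ln15_15_3_ok) (L (nat_lit 458) ln14_15_3 ln14_15_3_ok))))) (B (M (nat_lit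 491) (B (M (nat_lit 459) (B (L (nat_lit 460) ln15_15_3 ln15_15_3_ok) (L (nat_lit 458) ln14_15_3 ln14_15_3_ok))) (M (nat_lit 490) (B (L (nat_lit 462) ln10_15_2 ln10_15_2_ok) (M (nat_lit 522) (B (L (nat_lit 523) ln14_15_1 ln14_15_1_ok) (L (nat_lit 521) ln13_15_1 ln13_15_1_ok))))))) (B (M (nat_lit 491) (B (M (nat_lit 459) (B (L (nat_lit 460) ln15_15_3 ln15_15_3_ok) (L (nat_lit 458) ln14_15_3 ln14_15_3_ok))) (B (M (nat_lit 490) (B (M (nat_lit 458) (B (L (nat_lit 459) ln14_15_3 ln14_15_3_ok) (L (nat_lit 457) ln13_15_3 ln13_15_3_ok))) (M (nat_lit 522) (B (L (nat_lit 523) ln14_15_1 ln14_15_1_ok) (L (nat_lit 521) ln13_15_1 ln13_15_1_ok))))) (B (M (nat_lit 490) (B (M (nat_lit 522) (B (L (nat_lit 523) ln14_15_1 ln14_15_1_ok) (L (nat_lit 521) ln13_15_1 ln13_15_1_ok))) (M (nat_lit 457) (B (L (nat_lit 458) ln13_15_3 ln13_15_3_ok) (M (nat_lit 489) (B (L (nat_lit 460) ln9_15_2 ln9_15_2_ok) (L (nat_lit 456)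 ln12_15_3 ln12_15_3_ok))))))) (M (nat_lit 490) (B (M (nat_lit 460) (B (L (nat_lit 489) ln9_15_2 ln9_15_2_ok) (L (nat_lit 459) ln15_15_3 ln15_15_3_ok))) (M (nat_lit 522) (B (L (nat_lit 523) ln14_15_1 ln14_15_1_ok) (L (nat_lit 521) ln13_15_1 ln13_15_1_ok))))))))) (B (M (nat_lit 491) (B (M (nat_lit 463) (B (L (nat_lit 464) ln12_15_2 ln12_15_2_ok) (L (nat_lit 462) ln11_15_2 ln11_15_2_ok))) (B (M (nat_lit 462) (B (L (nat_lit 463) ln11_15_2 ln11_15_2_ok) (L (nat_lit 490) ln10_15_2 ln10_15_2_ok))) (B (M (nat_lit 490) (B (L (nat_lit 462) ln10_15_2 ln10_15_2_ok) (M (nat_lit 458) (B (L (nat_lit 459) ln14_15_3 ln14_15_3_ok) (L (nat_lit 457) ln13_15_3 ln13_15_3_ok))))) (M (nat_lit 490) (B (M (nat_lit 458) (B (L (nat_lit 459) ln14_15_3 ln14_15_3_ok) (L (nat_lit 457) ln13_15_3 ln13_15_3_ok))) (M (nat_lit 522) (B (L (nat_lit 523) ln14_15_1 ln14_15_1_ok) (L (nat_lit 521) ln13_15_1 ln13_15_1_ok))))))))) (B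 (M (nat_lit 491) (B (M (nat_lit 463) (B (L (nat_lit 464) ln12_15_2 ln12_15_2_ok) (L (nat_lit 462) ln11_15_2 ln11_15_2_ok))) (B (M (nat_lit 462) (B (L (nat_lit 463) ln11_15_2 ln11_15_2_ok) (L (nat_lit 490) ln10_15_2 ln10_15_2_ok))) (B (M (nat_lit 490) (B (L (nat_lit 462) ln10_15_2 ln10_15_2_ok) (M (nat_lit 522) (B (L (nat_lit 523) ln14_15_1 ln14_15_1_ok) (L (nat_lit 521) ln13_15_1 ln13_15_1_ok))))) (M (nat_lit 490) (B (M (nat_lit 522) (B (L (nat_lit 523) ln14_15_1 ln14_15_1_ok) (L (nat_lit 521) ln13_15_1 ln13_15_1_ok))) (M (nat_lit 457) (B (L (nat_lit 458) ln13_15_3 ln13_15_3_ok) (M (nat_lit 489) (B (L (nat_lit 460) ln9_15_2 ln9_15_2_ok) (L (nat_lit 456) ln12_15_3 ln12_15_3_ok))))))))))) (B (M (nat_lit 491) (B (M (nat_lit 463) (B (L (nat_lit 464) ln12_15_2 ln12_15_2_ok) (L (nat_lit 462) ln11_15_2 ln11_15_2_ok))) (B (M (nat_lit 462) (B (L (nat_lit 463) ln11_15_2 ln11_15_2_ok) (L (nat_lit 490)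 ln10_15_2 ln10_15_2_ok))) (B (M (nat_lit 460) (B (L (nat_lit 459) ln15_15_3 ln15_15_3_ok) (M (nat_lit 490) (B (L (nat_lit 462) ln10_15_2 ln10_15_2_ok) (L (nat_lit 489) ln9_15_2 ln9_15_2_ok))))) (M (nat_lit 490) (B (M (nat_lit 460) (B (L (nat_lit 489) ln9_15_2 ln9_15_2_ok) (L (nat_lit 459) ln15_15_3 ln15_15_3_ok))) (M (nat_lit 522) (B (L (nat_lit 523) ln14_15_1 ln14_15_1_ok) (L (nat_lit 521) ln13_15_1 ln13_15_1_ok))))))))) (M (nat_lit 460) (B (L (nat_lit 459) ln15_15_3 ln15_15_3_ok) (M (nat_lit 463) (B (L (nat_lit 464) ln12_15_2 ln12_15_2_ok) (M (nat_lit 462) (B (M (nat_lit 428) (B (L (nat_lit 427) ln15_14_3 ln15_14_3_ok) (M (nat_lit 396) (B (L (nat_lit 364) ln12_11_4 ln12_11_4_ok) (L (nat_lit 525) ln12_12_4 ln12_12_4_ok))))) (M (nat_lit 431) (B (L (nat_lit 432) ln12_14_2 ln12_14_2_ok) (M (nat_lit 526) (B (L (nat_lit 399) ln15_12_5 ln15_12_5_ok) (L (nat_lit 558) ln14_17_6_c10 ln14_17_6_c10_ok)))))))))))))))))))))))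 (B (M (nat_lit 525) (B (M (nat_lit 526) (B (M (nat_lit 495) (B (M (nat_lit 524) (B (L (nat_lit 523) ln11_16_2 ln11_16_2_ok) (L (nat_lit 496) ln16_15_1 ln16_15_1_ok))) (B (M (nat_lit 496) (B (L (nat_lit 497) ln17_15_1 ln17_15_1_ok) (L (nat_lit 460) ln16_15_3 ln16_15_3_ok))) (M (nat_lit 527) (B (M (nat_lit 492) (B (L (nat_lit 528) ln12_15_0 ln12_15_0_ok) (L (nat_lit 491) ln11_15_0 ln11_15_0_ok))) (M (nat_lit 559) (B (M (nat_lit 591) (B (L (nat_lit 623) ln15_19_7 ln15_19_7_ok) (L (nat_lit 462) ln15_18_7 ln15_18_7_ok))) (M (nat_lit 524) (B (L (nat_lit 560) ln12_16_0 ln12_16_0_ok) (L (nat_lit 523) ln11_16_2 ln11_16_2_ok)))))))))) (L (nat_lit 558) ln13_13_4 ln13_13_4_ok))) (B (M (nat_lit 557) (B (M (nat_lit 558) (B (L (nat_lit 590) ln13_14_4 ln13_14_4_ok) (L (nat_lit 526) ln13_13_4 ln13_13_4_ok))) (B (M (nat_lit 526) (B (L (nat_lit 558) ln13_13_4 ln13_13_4_ok) (M (nat_lit 589) (B (L (nat_lit 621)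 ln13_19_6_c10 ln13_19_6_c10_ok) (L (nat_lit 462) ln13_18_6 ln13_18_6_ok))))) (B (M (nat_lit 589) (B (L (nat_lit 462) ln13_18_6 ln13_18_6_ok) (M (nat_lit 621) (B (L (nat_lit 526) ln13_19_6_c10 ln13_19_6_c10_ok) (M (nat_lit 620) (B (L (nat_lit 652) ln13_16_5_c10 ln13_16_5_c10_ok) (L (nat_lit 588) ln13_15_5_c10 ln13_15_5_c10_ok))))))) (M (nat_lit 589) (B (L (nat_lit 462) ln13_18_6 ln13_18_6_ok) (M (nat_lit 590) (B (L (nat_lit 622) ln13_15_4_c10 ln13_15_4_c10_ok) (L (nat_lit 558) ln13_14_4 ln13_14_4_ok))))))))) (M (nat_lit 460) (B (M (nat_lit 428) (B (L (nat_lit 557) ln13_17_7 ln13_17_7_ok) (L (nat_lit 396) ln13_16_7 ln13_16_7_ok))) (M (nat_lit 459) (B (L (nat_lit 458) ln10_14_0 ln10_14_0_ok) (M (nat_lit 495) (B (L (nat_lit 492) ln15_15_3 ln15_15_3_ok) (L (nat_lit 496) ln16_15_3 ln16_15_3_ok)))))))))) c10_d242))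
noncomputable def c10_d244 : Cert := (B (M (nat_lit 495) (B (M (nat_lit 496) (B (M (nat_lit 497) (B (M (nat_lit 465) (B (L (nat_lit 466) ln14_15_2_c10 ln14_15_2_c10_ok) (L (nat_lit 464) ln13_15_2 ln13_15_2_ok))) (M (nat_lit 525) (B (L (nat_lit 526) ln17_15_1 ln17_15_1_ok) (L (nat_lit 524) ln16_15_1 ln16_15_1_ok))))) (B (M (nat_lit 492) (B (M (nat_lit 528) (B (L (nat_lit 529) ln13_15_0 ln13_15_0_ok) (L (nat_lit 527) ln12_15_0 ln12_15_0_ok))) (M (nat_lit 464) (B (L (nat_lit 465) ln13_15_2 ln13_15_2_ok) (L (nat_lit 463) ln12_15_2 ln12_15_2_ok))))) (M (nat_lit 492) (B (M (nat_lit 528) (B (L (nat_lit 529) ln13_15_0 ln13_15_0_ok) (L (nat_lit 527) ln12_15_0 ln12_15_0_ok))) (M (nat_lit 524) (B (L (nat_lit 525) ln16_15_1 ln16_15_1_ok) (L (nat_lit 523) ln15_15_1 ln15_15_1_ok)))))))) (B (M (nat_lit 492) (B (M (nat_lit 528) (B (L (nat_lit 527) ln12_15_0 ln12_15_0_ok) (M (nat_lit 496) (B (L (nat_lit 529)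 ln13_15_0 ln13_15_0_ok) (M (nat_lit 464) (B (L (nat_lit 465) ln13_15_2 ln13_15_2_ok) (L (nat_lit 463) ln12_15_2 ln12_15_2_ok))))))) (M (nat_lit 523) (B (L (nat_lit 524) ln15_15_1 ln15_15_1_ok) (M (nat_lit 491) (B (L (nat_lit 522) ln14_15_1 ln14_15_1_ok) (M (nat_lit 459) (B (L (nat_lit 460) ln15_15_3 ln15_15_3_ok) (L (nat_lit 458) ln14_15_3 ln14_15_3_ok))))))))) (B (M (nat_lit 492) (B (M (nat_lit 496) (B (M (nat_lit 464) (B (L (nat_lit 465) ln13_15_2 ln13_15_2_ok) (L (nat_lit 463) ln12_15_2 ln12_15_2_ok))) (M (nat_lit 524) (B (L (nat_lit 525) ln16_15_1 ln16_15_1_ok) (L (nat_lit 523) ln15_15_1 ln15_15_1_ok))))) (M (nat_lit 491) (B (M (nat_lit 527) (B (L (nat_lit 528) ln12_15_0 ln12_15_0_ok) (L (nat_lit 526) ln11_15_0 ln11_15_0_ok))) (M (nat_lit 459) (B (L (nat_lit 460) ln15_15_3 ln15_15_3_ok) (L (nat_lit 458) ln14_15_3 ln14_15_3_ok))))))) (B (M (nat_lit 496) (B (M (nat_lit 465) (B (L (nat_lit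 464) ln13_15_2 ln13_15_2_ok) (M (nat_lit 497) (B (L (nat_lit 466) ln14_15_2_c10 ln14_15_2_c10_ok) (M (nat_lit 529) (B (L (nat_lit 528) ln13_15_0 ln13_15_0_ok) (L (nat_lit 530) ln14_15_0 ln14_15_0_ok))))))) (B (M (nat_lit 497) (B (M (nat_lit 525) (B (L (nat_lit 524) ln16_15_1 ln16_15_1_ok) (L (nat_lit 526) ln17_15_1 ln17_15_1_ok))) (M (nat_lit 529) (B (L (nat_lit 528) ln13_15_0 ln13_15_0_ok) (L (nat_lit 530) ln14_15_0 ln14_15_0_ok))))) (B (M (nat_lit 497) (B (M (nat_lit 525) (B (L (nat_lit 524) ln16_15_1 ln16_15_1_ok) (L (nat_lit 526) ln17_15_1 ln17_15_1_ok))) (M (nat_lit 465) (B (L (nat_lit 464) ln13_15_2 ln13_15_2_ok) (L (nat_lit 466) ln14_15_2_c10 ln14_15_2_c10_ok))))) (M (nat_lit 492) (B (M (nat_lit 524) (B (L (nat_lit 523) ln15_15_1 ln15_15_1_ok) (L (nat_lit 525) ln16_15_1 ln16_15_1_ok))) (M (nat_lit 464) (B (L (nat_lit 463) ln12_15_2 ln12_15_2_ok) (L (nat_lit 465) ln13_15_2 ln13_15_2_ok)))))))))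 (B (M (nat_lit 492) (B (M (nat_lit 491) (B (M (nat_lit 527) (B (L (nat_lit 528) ln12_15_0 ln12_15_0_ok) (L (nat_lit 526) ln11_15_0 ln11_15_0_ok))) (M (nat_lit 459) (B (L (nat_lit 460) ln15_15_3 ln15_15_3_ok) (L (nat_lit 458) ln14_15_3 ln14_15_3_ok))))) (B (M (nat_lit 523) (B (L (nat_lit 524) ln15_15_1 ln15_15_1_ok) (M (nat_lit 491) (B (L (nat_lit 522) ln14_15_1 ln14_15_1_ok) (M (nat_lit 459) (B (L (nat_lit 460) ln15_15_3 ln15_15_3_ok) (L (nat_lit 458) ln14_15_3 ln14_15_3_ok))))))) (B (M (nat_lit 491) (B (M (nat_lit 527) (B (L (nat_lit 528) ln12_15_0 ln12_15_0_ok) (L (nat_lit 526) ln11_15_0 ln11_15_0_ok))) (M (nat_lit 523) (B (L (nat_lit 524) ln15_15_1 ln15_15_1_ok) (L (nat_lit 522) ln14_15_1 ln14_15_1_ok))))) (M (nat_lit 496) (B (M (nat_lit 528) (B (L (nat_lit 529) ln13_15_0 ln13_15_0_ok) (L (nat_lit 527) ln12_15_0 ln12_15_0_ok))) (M (nat_lit 524) (B (L (nat_lit 525) ln16_15_1 ln16_15_1_ok)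 (L (nat_lit 523) ln15_15_1 ln15_15_1_ok))))))))) (B (M (nat_lit 496) (B (M (nat_lit 525) (B (L (nat_lit 524) ln16_15_1 ln16_15_1_ok) (M (nat_lit 529) (B (L (nat_lit 528) ln13_15_0 ln13_15_0_ok) (M (nat_lit 497) (B (L (nat_lit 530) ln14_15_0 ln14_15_0_ok) (L (nat_lit 526) ln17_15_1 ln17_15_1_ok))))))) (B (M (nat_lit 497) (B (M (nat_lit 465) (B (L (nat_lit 466) ln14_15_2_c10 ln14_15_2_c10_ok) (L (nat_lit 464) ln13_15_2 ln13_15_2_ok))) (M (nat_lit 525) (B (L (nat_lit 526) ln17_15_1 ln17_15_1_ok) (L (nat_lit 524) ln16_15_1 ln16_15_1_ok))))) (M (nat_lit 528) (B (L (nat_lit 529) ln13_15_0 ln13_15_0_ok) (M (nat_lit 464) (B (L (nat_lit 465) ln13_15_2 ln13_15_2_ok) (M (nat_lit 560) (B (M (nat_lit 463) (B (L (nat_lit 592) ln16_18_7_c10 ln16_18_7_c10_ok) (L (nat_lit 431) ln16_17_7_c10 ln16_17_7_c10_ok))) (B (M (nat_lit 432) (B (M (nat_lit 559) (B (L (nat_lit 591) ln16_14_5_c10 ln16_14_5_c10_ok) (L (nat_lit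 527) ln16_13_5_c10 ln16_13_5_c10_ok))) (M (nat_lit 431) (B (L (nat_lit 463) ln16_17_7_c10 ln16_17_7_c10_ok) (L (nat_lit 399) ln16_16_7 ln16_16_7_ok))))) (M (nat_lit 592) (B (M (nat_lit 593) (B (L (nat_lit 625) ln16_15_4_c10 ln16_15_4_c10_ok) (L (nat_lit 561) ln16_14_4_c10 ln16_14_4_c10_ok))) (M (nat_lit 591) (B (L (nat_lit 623) ln16_15_5_c10 ln16_15_5_c10_ok) (L (nat_lit 559) ln16_14_5_c10 ln16_14_5_c10_ok))))))))))))))) c10_d237))))))) (B (M (nat_lit 462) (B (M (nat_lit 460) (B (M (nat_lit 525) (B (M (nat_lit 526) (B (M (nat_lit 527) (B (M (nat_lit 528) (B (L (nat_lit 529) ln17_16_3 ln17_16_3_ok) (M (nat_lit 496) (B (L (nat_lit 497) ln13_16_2 ln13_16_2_ok) (M (nat_lit 560) (B (L (nat_lit 561) ln13_16_0 ln13_16_0_ok) (M (nat_lit 559) (B (L (nat_lit 524) ln12_16_0 ln12_16_0_ok) (M (nat_lit 591) (B (L (nat_lit 623) ln15_19_6_c10 ln15_19_6_c10_ok) (L (nat_lit 464) ln16_14_5_c10 ln16_14_5_c10_ok)))))))))))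 (B (M (nat_lit 495) (B (M (nat_lit 524) (B (L (nat_lit 496) ln16_15_1 ln16_15_1_ok) (L (nat_lit 523) ln11_16_2 ln11_16_2_ok))) (B (L (nat_lit 496) ln16_15_3 ln16_15_3_ok) (M (nat_lit 559) (B (L (nat_lit 591) ln15_18_7 ln15_18_7_ok) (M (nat_lit 524) (B (L (nat_lit 560) ln12_16_0 ln12_16_0_ok) (L (nat_lit 523) ln11_16_2 ln11_16_2_ok)))))))) (B (M (nat_lit 528) (B (L (nat_lit 529) ln17_16_3 ln17_16_3_ok) (M (nat_lit 559) (B (M (nat_lit 560) (B (L (nat_lit 561) ln13_16_0 ln13_16_0_ok) (L (nat_lit 524) ln12_16_0 ln12_16_0_ok))) (M (nat_lit 591) (B (L (nat_lit 495) ln15_18_7 ln15_18_7_ok) (L (nat_lit 623) ln15_19_7 ln15_19_7_ok))))))) (M (nat_lit 528) (B (M (nat_lit 496) (B (L (nat_lit 495) ln16_15_3 ln16_15_3_ok) (L (nat_lit 497) ln13_16_2 ln13_16_2_ok))) (L (nat_lit 529) ln17_16_3 ln17_16_3_ok))))))) (L (nat_lit 558) ln13_13_4 ln13_13_4_ok))) (M (nat_lit 557) (B (L (nat_lit 428) ln13_17_7 ln13_17_7_ok)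 (L (nat_lit 589) ln13_18_6 ln13_18_6_ok))))) (B (M (nat_lit 428) (B (M (nat_lit 459) (B (M (nat_lit 491) (B (L (nat_lit 490) ln14_14_1 ln14_14_1_ok) (M (nat_lit 523) (B (L (nat_lit 555) ln11_17_6 ln11_17_6_ok) (M (nat_lit 522) (B (M (nat_lit 427) (B (L (nat_lit 554) ln11_13_5 ln11_13_5_ok) (L (nat_lit 426) ln10_13_0 ln10_13_0_ok))) (M (nat_lit 525) (B (L (nat_lit 557) ln13_17_7 ln13_17_7_ok) (L (nat_lit 524) ln10_16_2 ln10_16_2_ok))))))))) (L (nat_lit 458) ln10_14_0 ln10_14_0_ok))) (B (M (nat_lit 459) (B (L (nat_lit 458) ln10_14_0 ln10_14_0_ok) (M (nat_lit 427) (B (L (nat_lit 426) ln10_13_0 ln10_13_0_ok) (M (nat_lit 491) (B (L (nat_lit 490) ln14_14_1 ln14_14_1_ok) (M (nat_lit 523) (B (L (nat_lit 396) ln11_16_6 ln11_16_6_ok) (L (nat_lit 555) ln11_17_6 ln11_17_6_ok))))))))) (M (nat_lit 525) (B (L (nat_lit 557) ln13_17_7 ln13_17_7_ok) (L (nat_lit 396) ln13_16_7 ln13_16_7_ok)))))) (M (nat_lit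 459) (B (L (nat_lit 495) ln11_14_0 ln11_14_0_ok) (L (nat_lit 458) ln10_14_0 ln10_14_0_ok)))))) c10_d238)) (B (M (nat_lit 495) c10_d240) (B (M (nat_lit 525) (B (M (nat_lit 557) (B (M (nat_lit 558) (B (L (nat_lit 526) ln13_13_4 ln13_13_4_ok) (L (nat_lit 590) ln13_14_4 ln13_14_4_ok))) (M (nat_lit 428) (B (L (nat_lit 396) ln13_16_7 ln13_16_7_ok) (L (nat_lit 460) ln13_17_7 ln13_17_7_ok))))) (B (M (nat_lit 557) (B (M (nat_lit 428) (B (L (nat_lit 396) ln13_16_7 ln13_16_7_ok) (L (nat_lit 460) ln13_17_7 ln13_17_7_ok))) (M (nat_lit 589) (B (L (nat_lit 462) ln13_18_6 ln13_18_6_ok) (M (nat_lit 590) (B (L (nat_lit 558) ln13_14_4 ln13_14_4_ok) (L (nat_lit 622) ln13_15_4_c10 ln13_15_4_c10_ok))))))) (B (M (nat_lit 557) (B (M (nat_lit 428) (B (L (nat_lit 396) ln13_16_7 ln13_16_7_ok) (L (nat_lit 460) ln13_17_7 ln13_17_7_ok))) (M (nat_lit 589) (B (L (nat_lit 462) ln13_18_6 ln13_18_6_ok) (M (nat_lit 621) (B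 (L (nat_lit 526) ln13_19_6_c10 ln13_19_6_c10_ok) (M (nat_lit 620) (B (L (nat_lit 588) ln13_15_5_c10 ln13_15_5_c10_ok) (L (nat_lit 652) ln13_16_5_c10 ln13_16_5_c10_ok))))))))) (B (M (nat_lit 526) (B (L (nat_lit 558) ln13_13_4 ln13_13_4_ok) (M (nat_lit 491) (B (M (nat_lit 492) (B (L (nat_lit 527) ln11_15_0 ln11_15_0_ok) (L (nat_lit 490) ln10_15_0 ln10_15_0_ok))) (B (M (nat_lit 523) (B (M (nat_lit 492) (B (L (nat_lit 522) ln14_15_1 ln14_15_1_ok) (L (nat_lit 490) ln10_15_0 ln10_15_0_ok))) (B (M (nat_lit 524) (B (L (nat_lit 522) ln10_16_2 ln10_16_2_ok) (L (nat_lit 490) ln14_16_3 ln14_16_3_ok))) (B (M (nat_lit 522) (B (L (nat_lit 524) ln10_16_2 ln10_16_2_ok) (L (nat_lit 492) ln14_15_1 ln14_15_1_ok))) (M (nat_lit 490) (B (L (nat_lit 492) ln10_15_0 ln10_15_0_ok) (L (nat_lit 524) ln14_16_3 ln14_16_3_ok))))))) c10_d241))))) (B (M (nat_lit 557) (B (M (nat_lit 558) (B (L (nat_lit 526) ln13_13_4 ln13_13_4_ok)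 (L (nat_lit 590) ln13_14_4 ln13_14_4_ok))) (B (M (nat_lit 590) (B (L (nat_lit 558) ln13_14_4 ln13_14_4_ok) (M (nat_lit 589) (B (L (nat_lit 462) ln13_18_6 ln13_18_6_ok) (L (nat_lit 622) ln13_15_4_c10 ln13_15_4_c10_ok))))) (M (nat_lit 589) (B (L (nat_lit 462) ln13_18_6 ln13_18_6_ok) (M (nat_lit 460) (B (L (nat_lit 428) ln13_17_7 ln13_17_7_ok) (L (nat_lit 492) ln13_18_7 ln13_18_7_ok)))))))) (M (nat_lit 557) (B (M (nat_lit 558) (B (L (nat_lit 526) ln13_13_4 ln13_13_4_ok) (L (nat_lit 590) ln13_14_4 ln13_14_4_ok))) (B (M (nat_lit 590) (B (L (nat_lit 558) ln13_14_4 ln13_14_4_ok) (M (nat_lit 589) (B (L (nat_lit 462) ln13_18_6 ln13_18_6_ok) (L (nat_lit 622) ln13_15_4_c10 ln13_15_4_c10_ok))))) (M (nat_lit 589) (B (L (nat_lit 462) ln13_18_6 ln13_18_6_ok) (M (nat_lit 621) (B (L (nat_lit 526) ln13_19_6_c10 ln13_19_6_c10_ok) (M (nat_lit 620) (B (L (nat_lit 588) ln13_15_5_c10 ln13_15_5_c10_ok) (L (nat_lit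 652) ln13_16_5_c10 ln13_16_5_c10_ok)))))))))))))))) c10_d243))))
theorem c10_s507 : Sem (nat_lit 25573364130142871190293991000906086440700256222208015546306941900764921283684556798557814038087096126708440551872399420806737951876946875685227462656) (nat_lit 93438784123020751682609808835284828122708348143091718097555656497824880399711282967988894757603985859500148113489510207557572942926909980880709402943985187316945885729446486832418198194285516423168) (nat_lit 93438784123020751682609808835284828122708348143091718097555656497824880399711282967988894757603985859500148113489510207557572942926909980880709402943985187316945885729446486832418198194285516423168) :=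
  sem_of_chk (M (nat_lit 494) c10_d244) (nat_lit 25573364130142871190293991000906086440700256222208015546306941900764921283684556798557814038087096126708440551872399420806737951876946875685227462656) (nat_lit 93438784123020751682609808835284828122708348143091718097555656497824880399711282967988894757603985859500148113489510207557572942926909980880709402943985187316945885729446486832418198194285516423168) (nat_lit 93438784123020751682609808835284828122708348143091718097555656497824880399711282967988894757603985859500148113489510207557572942926909980880709402943985187316945885729446486832418198194285516423168) (by decide +kernel)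
noncomputable def c10_d245 : Cert := (B (M (nat_lit 493) (B (L (nat_lit 364) ln13_15_7 ln13_15_7_ok) (M (nat_lit 492) (B (L (nat_lit 524) ln13_12_5 ln13_12_5_ok) (M (nat_lit 490) (B (M (nat_lit 491) (B (L (nat_lit 462) ln10_15_2 ln10_15_2_ok) (M (nat_lit 489) (B (L (nat_lit 460) ln9_15_2 ln9_15_2_ok) (M (nat_lit 457) (B (L (nat_lit 456) ln12_15_3 ln12_15_3_ok) (L (nat_lit 458) ln13_15_3 ln13_15_3_ok))))))) (B (M (nat_lit 491) (B (L (nat_lit 462) ln10_15_2 ln10_15_2_ok) (M (nat_lit 489) (B (L (nat_lit 460) ln9_15_2 ln9_15_2_ok) (M (nat_lit 521) (B (L (nat_lit 520) ln12_15_1 ln12_15_1_ok) (L (nat_lit 522) ln13_15_1 ln13_15_1_ok))))))) (B (M (nat_lit 491) (B (L (nat_lit 462) ln10_15_2 ln10_15_2_ok) (M (nat_lit 489) (B (M (nat_lit 457) (B (L (nat_lit 456) ln12_15_3 ln12_15_3_ok) (L (nat_lit 458) ln13_15_3 ln13_15_3_ok))) (M (nat_lit 521) (B (L (nat_lit 520) ln12_15_1 ln12_15_1_ok) (L (nat_lit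 522) ln13_15_1 ln13_15_1_ok))))))) (M (nat_lit 426) (B (M (nat_lit 398) (B (L (nat_lit 366) ln13_15_6 ln13_15_6_ok) (L (nat_lit 427) ln14_12_1 ln14_12_1_ok))) (M (nat_lit 394) (B (L (nat_lit 425) ln13_12_1 ln13_12_1_ok) (M (nat_lit 361) (B (L (nat_lit 362) ln13_12_3 ln13_12_3_ok) (M (nat_lit 393) (B (L (nat_lit 360) ln12_12_3 ln12_12_3_ok) (L (nat_lit 458) ln10_15_7 ln10_15_7_ok))))))))))))))))) (B (M (nat_lit 398) (B (M (nat_lit 366) (B (L (nat_lit 367) ln11_12_2 ln11_12_2_ok) (L (nat_lit 493) ln13_15_6 ln13_15_6_ok))) (M (nat_lit 394) (B (M (nat_lit 362) (B (L (nat_lit 361) ln13_12_3 ln13_12_3_ok) (L (nat_lit 363) ln14_12_3 ln14_12_3_ok))) (M (nat_lit 426) (B (L (nat_lit 425) ln13_12_1 ln13_12_1_ok) (L (nat_lit 427) ln14_12_1 ln14_12_1_ok))))))) (B (M (nat_lit 398) (B (M (nat_lit 366) (B (L (nat_lit 367) ln11_12_2 ln11_12_2_ok) (L (nat_lit 493) ln13_15_6 ln13_15_6_ok))) (B (M (nat_lit 363)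 (B (L (nat_lit 362) ln14_12_3 ln14_12_3_ok) (M (nat_lit 364) (B (L (nat_lit 399) ln15_12_3 ln15_12_3_ok) (L (nat_lit 493) ln13_15_7 ln13_15_7_ok))))) (M (nat_lit 399) (B (M (nat_lit 363) (B (L (nat_lit 362) ln14_12_3 ln14_12_3_ok) (L (nat_lit 364) ln15_12_3 ln15_12_3_ok))) (M (nat_lit 367) (B (L (nat_lit 366) ln11_12_2 ln11_12_2_ok) (L (nat_lit 368) ln12_12_2 ln12_12_2_ok)))))))) (B (M (nat_lit 394) (B (M (nat_lit 361) (B (L (nat_lit 362) ln13_12_3 ln13_12_3_ok) (M (nat_lit 425) (B (L (nat_lit 426) ln13_12_1 ln13_12_1_ok) (M (nat_lit 393) (B (L (nat_lit 360) ln12_12_3 ln12_12_3_ok) (L (nat_lit 424) ln12_12_1 ln12_12_1_ok))))))) (B (M (nat_lit 362) (B (L (nat_lit 361) ln13_12_3 ln13_12_3_ok) (M (nat_lit 459) (B (M (nat_lit 427) (B (L (nat_lit 491) ln11_15_7 ln11_15_7_ok) (M (nat_lit 426) (B (L (nat_lit 330) ln10_10_4 ln10_10_4_ok) (L (nat_lit 425) ln13_12_1 ln13_12_1_ok))))) (B (M (nat_lit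 491) (B (L (nat_lit 427) ln11_15_7 ln11_15_7_ok) (M (nat_lit 426) (B (L (nat_lit 458) ln10_11_4 ln10_11_4_ok) (L (nat_lit 425) ln13_12_1 ln13_12_1_ok))))) (B (M (nat_lit 427) (B (L (nat_lit 491) ln11_15_7 ln11_15_7_ok) (M (nat_lit 330) (B (L (nat_lit 298) ln10_9_4 ln10_9_4_ok) (L (nat_lit 426) ln10_10_4 ln10_10_4_ok))))) (B (M (nat_lit 427) (B (L (nat_lit 491) ln11_15_7 ln11_15_7_ok) (M (nat_lit 330) (B (L (nat_lit 298) ln10_9_4 ln10_9_4_ok) (L (nat_lit 363) ln11_14_7 ln11_14_7_ok))))) (B (M (nat_lit 426) (B (L (nat_lit 425) ln13_12_1 ln13_12_1_ok) (M (nat_lit 458) (B (L (nat_lit 491) ln10_11_4 ln10_11_4_ok) (M (nat_lit 363) (B (L (nat_lit 331) ln10_14_6 ln10_14_6_ok) (L (nat_lit 490) ln10_15_6 ln10_15_6_ok))))))) (M (nat_lit 427) (B (M (nat_lit 330) (B (L (nat_lit 298) ln10_9_4 ln10_9_4_ok) (L (nat_lit 363) ln11_14_7 ln11_14_7_ok))) (B (M (nat_lit 426) (B (L (nat_lit 330) ln10_10_4 ln10_10_4_ok)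 (L (nat_lit 425) ln13_12_1 ln13_12_1_ok))) (M (nat_lit 364) (B (L (nat_lit 493) ln13_15_7 ln13_15_7_ok) (M (nat_lit 332) (B (L (nat_lit 300) ln12_9_4 ln12_9_4_ok) (L (nat_lit 363) ln11_14_6 ln11_14_6_ok)))))))))))))))) (B (M (nat_lit 393) (B (M (nat_lit 425) (B (L (nat_lit 424) ln12_12_1 ln12_12_1_ok) (L (nat_lit 426) ln13_12_1 ln13_12_1_ok))) (B (M (nat_lit 392) (B (M (nat_lit 364) (B (L (nat_lit 363) ln8_12_2 ln8_12_2_ok) (L (nat_lit 493) ln13_15_7 ln13_15_7_ok))) (M (nat_lit 391) (B (M (nat_lit 359) (B (L (nat_lit 358) ln10_12_3_c10 ln10_12_3_c10_ok) (L (nat_lit 360) ln11_12_3 ln11_12_3_ok))) (M (nat_lit 426) (B (L (nat_lit 427) ln7_12_0_c10 ln7_12_0_c10_ok) (L (nat_lit 425) ln13_12_1 ln13_12_1_ok))))))) (M (nat_lit 392) (B (M (nat_lit 364) (B (L (nat_lit 363) ln8_12_2 ln8_12_2_ok) (L (nat_lit 493) ln13_15_7 ln13_15_7_ok))) (M (nat_lit 391) (B (M (nat_lit 359) (B (L (nat_lit 358) ln10_12_3_c10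 ln10_12_3_c10_ok) (L (nat_lit 360) ln11_12_3 ln11_12_3_ok))) (M (nat_lit 423) (B (L (nat_lit 422) ln10_12_1_c10 ln10_12_1_c10_ok) (L (nat_lit 424) ln11_12_1 ln11_12_1_ok)))))))))) (B (M (nat_lit 393) (B (M (nat_lit 361) (B (L (nat_lit 360) ln12_12_3 ln12_12_3_ok) (L (nat_lit 362) ln13_12_3 ln13_12_3_ok))) (B (M (nat_lit 427) (B (M (nat_lit 364) (B (L (nat_lit 493) ln13_15_7 ln13_15_7_ok) (M (nat_lit 332) (B (L (nat_lit 300) ln12_9_4 ln12_9_4_ok) (M (nat_lit 363) (B (L (nat_lit 459) ln11_14_6 ln11_14_6_ok) (L (nat_lit 392) ln8_12_2 ln8_12_2_ok))))))) (B (M (nat_lit 364) (B (L (nat_lit 493) ln13_15_7 ln13_15_7_ok) (M (nat_lit 363) (B (L (nat_lit 392) ln8_12_2 ln8_12_2_ok) (M (nat_lit 459) (B (L (nat_lit 332) ln11_14_6 ln11_14_6_ok) (L (nat_lit 491) ln11_15_6 ln11_15_6_ok))))))) (B (M (nat_lit 362) (B (L (nat_lit 361) ln13_12_3 ln13_12_3_ok) (M (nat_lit 459) (B (L (nat_lit 491) ln11_15_7 ln11_15_7_ok)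 (M (nat_lit 330) (B (L (nat_lit 298) ln10_9_4 ln10_9_4_ok) (L (nat_lit 426) ln10_10_4 ln10_10_4_ok))))))) (M (nat_lit 392) (B (M (nat_lit 364) (B (L (nat_lit 363) ln8_12_2 ln8_12_2_ok) (L (nat_lit 493) ln13_15_7 ln13_15_7_ok))) (M (nat_lit 391) (B (L (nat_lit 426) ln7_12_0_c10 ln7_12_0_c10_ok) (M (nat_lit 423) (B (L (nat_lit 422) ln10_12_1_c10 ln10_12_1_c10_ok) (L (nat_lit 424) ln11_12_1 ln11_12_1_ok))))))))))) (M (nat_lit 392) (B (M (nat_lit 364) (B (L (nat_lit 363) ln8_12_2 ln8_12_2_ok) (L (nat_lit 493) ln13_15_7 ln13_15_7_ok))) (M (nat_lit 391) (B (M (nat_lit 359) (B (L (nat_lit 358) ln10_12_3_c10 ln10_12_3_c10_ok) (L (nat_lit 360) ln11_12_3 ln11_12_3_ok))) (M (nat_lit 423) (B (L (nat_lit 422) ln10_12_1_c10 ln10_12_1_c10_ok) (L (nat_lit 424) ln11_12_1 ln11_12_1_ok)))))))))) (M (nat_lit 393) (B (M (nat_lit 361) (B (L (nat_lit 360) ln12_12_3 ln12_12_3_ok) (L (nat_lit 362) ln13_12_3 ln13_12_3_ok)))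 (M (nat_lit 392) (B (M (nat_lit 364) (B (L (nat_lit 363) ln8_12_2 ln8_12_2_ok) (L (nat_lit 493) ln13_15_7 ln13_15_7_ok))) (M (nat_lit 424) (B (L (nat_lit 423) ln11_12_1 ln11_12_1_ok) (L (nat_lit 425) ln12_12_1 ln12_12_1_ok)))))))))))) (K (nat_lit 5954262830815946495005335224839251491483804197344386935023499141454429481963973176034236566283322343451071287077258285738821061325136855040) (nat_lit 6393341032535717797876758498706895859381093021146932280392394026545703940556474276629847714330778808193374597832501330376833407034288244501013069824) (nat_lit 6393341032535717797876758498706895859381093021146932280392394026545703940556474276629847714330778808193374597832501330376833407034288244501013069824) c10_s572)))))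
noncomputable def c10_d246 : Cert := (B (M (nat_lit 427) (B (M (nat_lit 398) (B (L (nat_lit 426) ln14_12_1 ln14_12_1_ok) (M (nat_lit 399) (B (L (nat_lit 428) ln15_12_1 ln15_12_1_ok) (M (nat_lit 367) (B (L (nat_lit 366) ln11_12_2 ln11_12_2_ok) (L (nat_lit 368) ln12_12_2 ln12_12_2_ok))))))) (B (M (nat_lit 398) (B (L (nat_lit 426) ln14_12_1 ln14_12_1_ok) (M (nat_lit 363) (B (L (nat_lit 362) ln14_12_3 ln14_12_3_ok) (M (nat_lit 399) (B (L (nat_lit 364) ln15_12_3 ln15_12_3_ok) (L (nat_lit 428) ln15_12_1 ln15_12_1_ok))))))) (B (M (nat_lit 459) (B (M (nat_lit 364) (B (L (nat_lit 491) ln11_15_6 ln11_15_6_ok) (M (nat_lit 332) (B (L (nat_lit 300) ln12_9_4 ln12_9_4_ok) (L (nat_lit 428) ln12_10_4 ln12_10_4_ok))))) (B (M (nat_lit 364) (B (L (nat_lit 491) ln11_15_6 ln11_15_6_ok) (M (nat_lit 332) (B (L (nat_lit 363) ln11_14_6 ln11_14_6_ok) (L (nat_lit 428) ln12_10_4 ln12_10_4_ok))))) (B (M (nat_lit 363)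 (B (M (nat_lit 362) (B (L (nat_lit 330) ln11_14_7 ln11_14_7_ok) (M (nat_lit 361) (B (L (nat_lit 360) ln8_11_0 ln8_11_0_ok) (L (nat_lit 364) ln9_11_0 ln9_11_0_ok))))) (M (nat_lit 331) (B (M (nat_lit 458) (B (L (nat_lit 426) ln11_10_5 ln11_10_5_ok) (L (nat_lit 490) ln11_11_5 ln11_11_5_ok))) (M (nat_lit 460) (B (L (nat_lit 428) ln11_10_4 ln11_10_4_ok) (L (nat_lit 492) ln11_11_4 ln11_11_4_ok))))))) (B (M (nat_lit 363) (B (M (nat_lit 362) (B (L (nat_lit 330) ln11_14_7 ln11_14_7_ok) (M (nat_lit 361) (B (L (nat_lit 360) ln8_11_0 ln8_11_0_ok) (L (nat_lit 394) ln13_12_3 ln13_12_3_ok))))) (M (nat_lit 331) (B (M (nat_lit 458) (B (L (nat_lit 426) ln11_10_5 ln11_10_5_ok) (L (nat_lit 490) ln11_11_5 ln11_11_5_ok))) (M (nat_lit 460) (B (L (nat_lit 428) ln11_10_4 ln11_10_4_ok) (L (nat_lit 492) ln11_11_4 ln11_11_4_ok))))))) (M (nat_lit 364) (B (L (nat_lit 491) ln11_15_6 ln11_15_6_ok) (M (nat_lit 332) (B (L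 (nat_lit 300) ln12_9_4 ln12_9_4_ok) (L (nat_lit 363) ln11_14_6 ln11_14_6_ok)))))))))) (B (K (nat_lit 5954262831162530206770437082286553264501689660273941569445476213350739429540800839509939769163319144214088734339432187108996507803758624768) (nat_lit 4465697122765376161001936599189444039677273659656909419181547451439012824039532725479750562269943225021216807319561972984674472149320204288) (nat_lit 4465697122765376161001936599189444039677273659656909419181547451439012824039532725479750562269943225021216807319561972984674472149320204288) c10_s573) (M (nat_lit 398) (B (L (nat_lit 426) ln14_12_1 ln14_12_1_ok) (M (nat_lit 363) (B (L (nat_lit 362) ln14_12_3 ln14_12_3_ok) (M (nat_lit 364) (B (L (nat_lit 399) ln15_12_3 ln15_12_3_ok) (M (nat_lit 332) (B (L (nat_lit 300) ln12_9_4 ln12_9_4_ok) (L (nat_lit 459) ln11_14_6 ln11_14_6_ok)))))))))))))) (B (M (nat_lit 394) (B (M (nat_lit 393) (B (L (nat_lit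 428) ln9_12_0 ln9_12_0_ok) (M (nat_lit 361) (B (L (nat_lit 360) ln12_12_3 ln12_12_3_ok) (L (nat_lit 362) ln13_12_3 ln13_12_3_ok))))) (B (M (nat_lit 398) (B (M (nat_lit 362) (B (L (nat_lit 361) ln13_12_3 ln13_12_3_ok) (L (nat_lit 363) ln14_12_3 ln14_12_3_ok))) (M (nat_lit 399) (B (M (nat_lit 367) (B (L (nat_lit 366) ln11_12_2 ln11_12_2_ok) (L (nat_lit 368) ln12_12_2 ln12_12_2_ok))) (M (nat_lit 428) (B (L (nat_lit 393) ln9_12_0 ln9_12_0_ok) (L (nat_lit 400) ln16_12_1 ln16_12_1_ok))))))) (B (M (nat_lit 393) (B (L (nat_lit 428) ln9_12_0 ln9_12_0_ok) (M (nat_lit 392) (B (M (nat_lit 424) (B (L (nat_lit 423) ln11_12_1 ln11_12_1_ok) (L (nat_lit 425) ln12_12_1 ln12_12_1_ok))) (M (nat_lit 363) (B (L (nat_lit 364) ln8_12_2 ln8_12_2_ok) (M (nat_lit 362) (B (L (nat_lit 391) ln7_12_2_c10 ln7_12_2_c10_ok) (L (nat_lit 398) ln14_12_3 ln14_12_3_ok))))))))) (B (M (nat_lit 393) (B (L (nat_lit 428) ln9_12_0 ln9_12_0_ok)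 (M (nat_lit 392) (B (M (nat_lit 360) (B (L (nat_lit 359) ln11_12_3 ln11_12_3_ok) (L (nat_lit 361) ln12_12_3 ln12_12_3_ok))) (M (nat_lit 424) (B (L (nat_lit 423) ln11_12_1 ln11_12_1_ok) (L (nat_lit 425) ln12_12_1 ln12_12_1_ok))))))) (B (M (nat_lit 398) (B (M (nat_lit 362) (B (L (nat_lit 361) ln13_12_3 ln13_12_3_ok) (L (nat_lit 363) ln14_12_3 ln14_12_3_ok))) (M (nat_lit 399) (B (M (nat_lit 367) (B (L (nat_lit 366) ln11_12_2 ln11_12_2_ok) (L (nat_lit 368) ln12_12_2 ln12_12_2_ok))) (M (nat_lit 428) (B (L (nat_lit 427) ln15_12_1 ln15_12_1_ok) (L (nat_lit 400) ln16_12_1 ln16_12_1_ok))))))) (M (nat_lit 393) (B (M (nat_lit 361) (B (L (nat_lit 360) ln12_12_3 ln12_12_3_ok) (L (nat_lit 362) ln13_12_3 ln13_12_3_ok))) (B (M (nat_lit 362) (B (L (nat_lit 361) ln13_12_3 ln13_12_3_ok) (M (nat_lit 363) (B (L (nat_lit 398) ln14_12_3 ln14_12_3_ok) (M (nat_lit 392) (B (L (nat_lit 391) ln7_12_2_c10 ln7_12_2_c10_ok)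 (L (nat_lit 364) ln8_12_2 ln8_12_2_ok))))))) (B (M (nat_lit 392) (B (M (nat_lit 424) (B (L (nat_lit 423) ln11_12_1 ln11_12_1_ok) (L (nat_lit 425) ln12_12_1 ln12_12_1_ok))) (M (nat_lit 363) (B (L (nat_lit 364) ln8_12_2 ln8_12_2_ok) (M (nat_lit 362) (B (L (nat_lit 391) ln7_12_2_c10 ln7_12_2_c10_ok) (L (nat_lit 398) ln14_12_3 ln14_12_3_ok))))))) (M (nat_lit 392) (B (M (nat_lit 360) (B (L (nat_lit 359) ln11_12_3 ln11_12_3_ok) (L (nat_lit 361) ln12_12_3 ln12_12_3_ok))) (M (nat_lit 424) (B (L (nat_lit 423) ln11_12_1 ln11_12_1_ok) (L (nat_lit 425) ln12_12_1 ln12_12_1_ok))))))))))))))) (B (M (nat_lit 394) (B (M (nat_lit 393) (B (L (nat_lit 428) ln9_12_0 ln9_12_0_ok) (M (nat_lit 361) (B (L (nat_lit 360) ln12_12_3 ln12_12_3_ok) (L (nat_lit 362) ln13_12_3 ln13_12_3_ok))))) (B (M (nat_lit 393) (B (L (nat_lit 428) ln9_12_0 ln9_12_0_ok) (M (nat_lit 425) (B (L (nat_lit 424) ln12_12_1 ln12_12_1_ok) (L (nat_lit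 426) ln13_12_1 ln13_12_1_ok))))) (M (nat_lit 362) (B (L (nat_lit 361) ln13_12_3 ln13_12_3_ok) (M (nat_lit 363) (B (L (nat_lit 398) ln14_12_3 ln14_12_3_ok) (M (nat_lit 426) (B (L (nat_lit 425) ln13_12_1 ln13_12_1_ok) (M (nat_lit 331) (B (L (nat_lit 299) ln11_9_5 ln11_9_5_ok) (L (nat_lit 458) ln10_14_6 ln10_14_6_ok)))))))))))) (K (nat_lit 5954262830815946495005335224839251491483804197344386935023499141454429481963973176034236566283322343451071287077258285738821061325136855040) (nat_lit 6393341032535717797876758498706895859381093021146932280392394026545703940556474276629847714330778808193374597832501330376833407034288244501013069824) (nat_lit 6393341032535717797876758498706895859381093021146932280392394026545703940556474276629847714330778808193374597832501330376833407034288244501013069824) c10_s572))))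
noncomputable def c10_d247 : Cert := (B (M (nat_lit 364) (B (M (nat_lit 332) (B (L (nat_lit 300) ln12_9_4 ln12_9_4_ok) (L (nat_lit 428) ln12_10_4 ln12_10_4_ok))) (B (M (nat_lit 427) (B (M (nat_lit 332) (B (L (nat_lit 428) ln12_10_4 ln12_10_4_ok) (M (nat_lit 459) (B (L (nat_lit 363) ln11_14_6 ln11_14_6_ok) (L (nat_lit 491) ln11_15_6 ln11_15_6_ok))))) (M (nat_lit 426) (B (L (nat_lit 398) ln14_12_1 ln14_12_1_ok) (M (nat_lit 425) (B (L (nat_lit 394) ln13_12_1 ln13_12_1_ok) (L (nat_lit 424) ln8_13_2 ln8_13_2_ok))))))) (B (M (nat_lit 394) (B (M (nat_lit 393) (B (L (nat_lit 428) ln9_12_0 ln9_12_0_ok) (M (nat_lit 425) (B (L (nat_lit 424) ln12_12_1 ln12_12_1_ok) (L (nat_lit 426) ln13_12_1 ln13_12_1_ok))))) (B (M (nat_lit 398) (B (M (nat_lit 426) (B (L (nat_lit 425) ln13_12_1 ln13_12_1_ok) (L (nat_lit 427) ln14_12_1 ln14_12_1_ok))) (M (nat_lit 399) (B (L (nat_lit 363) ln15_12_3 ln15_12_3_ok) (M (nat_lit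 367) (B (L (nat_lit 366) ln11_12_2 ln11_12_2_ok) (L (nat_lit 368) ln12_12_2 ln12_12_2_ok))))))) (M (nat_lit 393) (B (L (nat_lit 428) ln9_12_0 ln9_12_0_ok) (M (nat_lit 360) (B (L (nat_lit 361) ln12_12_3 ln12_12_3_ok) (M (nat_lit 392) (B (L (nat_lit 359) ln11_12_3 ln11_12_3_ok) (L (nat_lit 363) ln8_12_2 ln8_12_2_ok)))))))))) (M (nat_lit 427) (B (M (nat_lit 426) (B (L (nat_lit 398) ln14_12_1 ln14_12_1_ok) (M (nat_lit 425) (B (L (nat_lit 394) ln13_12_1 ln13_12_1_ok) (L (nat_lit 424) ln8_13_2 ln8_13_2_ok))))) (M (nat_lit 332) (B (L (nat_lit 300) ln12_9_4 ln12_9_4_ok) (M (nat_lit 459) (B (L (nat_lit 363) ln11_14_6 ln11_14_6_ok) (L (nat_lit 491) ln11_15_6 ln11_15_6_ok))))))))))) (B (M (nat_lit 394) (B (M (nat_lit 393) (B (L (nat_lit 428) ln9_12_0 ln9_12_0_ok) (M (nat_lit 425) (B (L (nat_lit 424) ln12_12_1 ln12_12_1_ok) (L (nat_lit 426) ln13_12_1 ln13_12_1_ok))))) (B (M (nat_lit 426) (B (L (nat_lit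 425) ln13_12_1 ln13_12_1_ok) (M (nat_lit 427) (B (L (nat_lit 398) ln14_12_1 ln14_12_1_ok) (M (nat_lit 362) (B (L (nat_lit 361) ln13_12_3 ln13_12_3_ok) (M (nat_lit 330) (B (L (nat_lit 298) ln10_9_4 ln10_9_4_ok) (L (nat_lit 459) ln10_10_4 ln10_10_4_ok))))))))) (M (nat_lit 393) (B (L (nat_lit 428) ln9_12_0 ln9_12_0_ok) (M (nat_lit 361) (B (L (nat_lit 360) ln12_12_3 ln12_12_3_ok) (L (nat_lit 362) ln13_12_3 ln13_12_3_ok)))))))) (B (M (nat_lit 427) (B (M (nat_lit 426) (B (L (nat_lit 398) ln14_12_1 ln14_12_1_ok) (M (nat_lit 425) (B (L (nat_lit 424) ln8_13_2 ln8_13_2_ok) (L (nat_lit 428) ln9_13_2 ln9_13_2_ok))))) (B (M (nat_lit 426) (B (M (nat_lit 425) (B (L (nat_lit 424) ln8_13_2 ln8_13_2_ok) (L (nat_lit 428) ln9_13_2 ln9_13_2_ok))) (B (M (nat_lit 428) (B (L (nat_lit 425) ln9_13_2 ln9_13_2_ok) (L (nat_lit 462) ln10_13_0 ln10_13_0_ok))) (B (M (nat_lit 364) (B (M (nat_lit 332) (B (L (nat_lit 300)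 ln12_9_4 ln12_9_4_ok) (L (nat_lit 428) ln12_10_4 ln12_10_4_ok))) (B (M (nat_lit 428) (B (L (nat_lit 332) ln12_10_4 ln12_10_4_ok) (L (nat_lit 462) ln10_13_0 ln10_13_0_ok))) (B (M (nat_lit 459) (B (L (nat_lit 491) ln11_15_6 ln11_15_6_ok) (M (nat_lit 462) (B (L (nat_lit 428) ln10_13_0 ln10_13_0_ok) (L (nat_lit 460) ln14_14_3 ln14_14_3_ok))))) (M (nat_lit 459) (B (L (nat_lit 491) ln11_15_6 ln11_15_6_ok) (M (nat_lit 332) (B (L (nat_lit 300) ln12_9_4 ln12_9_4_ok) (L (nat_lit 363) ln11_14_6 ln11_14_6_ok))))))))) (M (nat_lit 459) (B (M (nat_lit 460) (B (L (nat_lit 462) ln14_14_3 ln14_14_3_ok) (M (nat_lit 425) (B (L (nat_lit 424) ln8_13_0 ln8_13_0_ok) (L (nat_lit 458) ln13_14_3 ln13_14_3_ok))))) (M (nat_lit 364) (B (L (nat_lit 491) ln11_15_6 ln11_15_6_ok) (M (nat_lit 332) (B (L (nat_lit 300) ln12_9_4 ln12_9_4_ok) (L (nat_lit 363) ln11_14_6 ln11_14_6_ok))))))))))) (B (M (nat_lit 426) (B (L (nat_lit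 398) ln14_12_1 ln14_12_1_ok) (M (nat_lit 428) (B (L (nat_lit 425) ln9_13_2 ln9_13_2_ok) (L (nat_lit 462) ln10_13_0 ln10_13_0_ok))))) (B (M (nat_lit 398) (B (L (nat_lit 426) ln14_12_1 ln14_12_1_ok) (M (nat_lit 363) (B (L (nat_lit 362) ln14_12_3 ln14_12_3_ok) (M (nat_lit 399) (B (L (nat_lit 364) ln15_12_3 ln15_12_3_ok) (L (nat_lit 428) ln15_12_1 ln15_12_1_ok))))))) (B (K (nat_lit 5954262831162530206770437082286553264501689660273941569445476213350739429540800839509939769163319144214088734339432187108996507803758624768) (nat_lit 4465697122765376161001936599189444039677273659656909419181547451439012824039532725479750562269943225021216807319561972984674472149320204288) (nat_lit 4465697122765376161001936599189444039677273659656909419181547451439012824039532725479750562269943225021216807319561972984674472149320204288) c10_s573) (M (nat_lit 398) (B (L (nat_lit 426) ln14_12_1 ln14_12_1_ok) (M (nat_lit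 363) (B (L (nat_lit 362) ln14_12_3 ln14_12_3_ok) (M (nat_lit 364) (B (L (nat_lit 399) ln15_12_3 ln15_12_3_ok) (M (nat_lit 332) (B (L (nat_lit 300) ln12_9_4 ln12_9_4_ok) (L (nat_lit 459) ln11_14_6 ln11_14_6_ok))))))))))))))) (B (M (nat_lit 394) (B (M (nat_lit 393) (B (L (nat_lit 428) ln9_12_0 ln9_12_0_ok) (M (nat_lit 361) (B (L (nat_lit 360) ln12_12_3 ln12_12_3_ok) (L (nat_lit 362) ln13_12_3 ln13_12_3_ok))))) (B (M (nat_lit 393) (B (L (nat_lit 428) ln9_12_0 ln9_12_0_ok) (M (nat_lit 425) (B (L (nat_lit 424) ln12_12_1 ln12_12_1_ok) (L (nat_lit 426) ln13_12_1 ln13_12_1_ok))))) (B (M (nat_lit 426) (B (L (nat_lit 425) ln13_12_1 ln13_12_1_ok) (M (nat_lit 427) (B (M (nat_lit 362) (B (L (nat_lit 361) ln13_12_3 ln13_12_3_ok) (M (nat_lit 330) (B (L (nat_lit 298) ln10_9_4 ln10_9_4_ok) (L (nat_lit 459) ln10_10_4 ln10_10_4_ok))))) (M (nat_lit 458) (B (M (nat_lit 363) (B (L (nat_lit 331) ln11_10_5 ln11_10_5_ok)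 (L (nat_lit 490) ln10_15_6 ln10_15_6_ok))) (M (nat_lit 428) (B (L (nat_lit 457) ln13_13_1 ln13_13_1_ok) (L (nat_lit 462) ln10_13_0 ln10_13_0_ok))))))))) (M (nat_lit 361) (B (L (nat_lit 362) ln13_12_3 ln13_12_3_ok) (M (nat_lit 425) (B (L (nat_lit 426) ln13_12_1 ln13_12_1_ok) (M (nat_lit 393) (B (L (nat_lit 360) ln12_12_3 ln12_12_3_ok) (L (nat_lit 424) ln12_12_1 ln12_12_1_ok))))))))))) (B (M (nat_lit 394) (B (M (nat_lit 393) (B (L (nat_lit 428) ln9_12_0 ln9_12_0_ok) (M (nat_lit 361) (B (L (nat_lit 360) ln12_12_3 ln12_12_3_ok) (L (nat_lit 362) ln13_12_3 ln13_12_3_ok))))) (B (M (nat_lit 398) (B (M (nat_lit 362) (B (L (nat_lit 361) ln13_12_3 ln13_12_3_ok) (L (nat_lit 363) ln14_12_3 ln14_12_3_ok))) (M (nat_lit 426) (B (L (nat_lit 425) ln13_12_1 ln13_12_1_ok) (L (nat_lit 427) ln14_12_1 ln14_12_1_ok))))) (M (nat_lit 426) (B (L (nat_lit 425) ln13_12_1 ln13_12_1_ok) (M (nat_lit 427) (B (L (nat_lit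 398) ln14_12_1 ln14_12_1_ok) (M (nat_lit 428) (B (L (nat_lit 393) ln9_12_0 ln9_12_0_ok) (L (nat_lit 462) ln10_13_0 ln10_13_0_ok)))))))))) c10_d246)))))
noncomputable def c10_d248 : Cert := (B (M (nat_lit 398) (B (M (nat_lit 493) (B (L (nat_lit 366) ln13_15_6 ln13_15_6_ok) (M (nat_lit 428) (B (L (nat_lit 525) ln13_16_7 ln13_16_7_ok) (M (nat_lit 399) (B (L (nat_lit 427) ln15_12_1 ln15_12_1_ok) (L (nat_lit 400) ln16_12_1 ln16_12_1_ok))))))) (B (M (nat_lit 395) (B (M (nat_lit 394) (B (M (nat_lit 362) (B (L (nat_lit 361) ln13_12_3 ln13_12_3_ok) (L (nat_lit 363) ln14_12_3 ln14_12_3_ok))) (M (nat_lit 426) (B (L (nat_lit 425) ln13_12_1 ln13_12_1_ok) (L (nat_lit 427) ln14_12_1 ln14_12_1_ok))))) (B (M (nat_lit 394) (B (M (nat_lit 426) (B (L (nat_lit 425) ln13_12_1 ln13_12_1_ok) (L (nat_lit 427) ln14_12_1 ln14_12_1_ok))) (B (M (nat_lit 428) (B (L (nat_lit 393) ln9_12_0 ln9_12_0_ok) (M (nat_lit 427)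 (B (L (nat_lit 426) ln14_12_1 ln14_12_1_ok) (L (nat_lit 399) ln15_12_1 ln15_12_1_ok))))) (B (M (nat_lit 428) (B (L (nat_lit 393) ln9_12_0 ln9_12_0_ok) (M (nat_lit 399) (B (L (nat_lit 427) ln15_12_1 ln15_12_1_ok) (L (nat_lit 400) ln16_12_1 ln16_12_1_ok))))) (M (nat_lit 393) (B (L (nat_lit 428) ln9_12_0 ln9_12_0_ok) (M (nat_lit 425) (B (L (nat_lit 424) ln12_12_1 ln12_12_1_ok) (L (nat_lit 426) ln13_12_1 ln13_12_1_ok))))))))) (B (M (nat_lit 399) (B (M (nat_lit 427) (B (L (nat_lit 426) ln14_12_1 ln14_12_1_ok) (L (nat_lit 428) ln15_12_1 ln15_12_1_ok))) (B (M (nat_lit 428) (B (L (nat_lit 427) ln15_12_1 ln15_12_1_ok) (L (nat_lit 400) ln16_12_1 ln16_12_1_ok))) (B (M (nat_lit 400) (B (L (nat_lit 428) ln16_12_1 ln16_12_1_ok) (M (nat_lit 368) (B (L (nat_lit 367) ln12_12_2 ln12_12_2_ok) (L (nat_lit 369) ln13_12_2 ln13_12_2_ok))))) (M (nat_lit 400) (B (M (nat_lit 368) (B (L (nat_lit 367) ln12_12_2 ln12_12_2_ok)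 (L (nat_lit 369) ln13_12_2 ln13_12_2_ok))) (M (nat_lit 432) (B (L (nat_lit 431) ln12_12_0 ln12_12_0_ok) (L (nat_lit 433) ln13_12_0 ln13_12_0_ok))))))))) (B (M (nat_lit 362) (B (L (nat_lit 363) ln14_12_3 ln14_12_3_ok) (M (nat_lit 428) (B (M (nat_lit 394) (B (L (nat_lit 361) ln13_12_3 ln13_12_3_ok) (L (nat_lit 393) ln9_12_0 ln9_12_0_ok))) (M (nat_lit 399) (B (L (nat_lit 427) ln15_12_1 ln15_12_1_ok) (L (nat_lit 400) ln16_12_1 ln16_12_1_ok))))))) (M (nat_lit 394) (B (M (nat_lit 362) (B (L (nat_lit 361) ln13_12_3 ln13_12_3_ok) (L (nat_lit 363) ln14_12_3 ln14_12_3_ok))) (M (nat_lit 393) (B (L (nat_lit 428) ln9_12_0 ln9_12_0_ok) (M (nat_lit 425) (B (L (nat_lit 424) ln12_12_1 ln12_12_1_ok) (L (nat_lit 426) ln13_12_1 ln13_12_1_ok)))))))))))) (B (M (nat_lit 493) (B (L (nat_lit 366) ln13_15_6 ln13_15_6_ok) (M (nat_lit 524) (B (L (nat_lit 492) ln13_12_5 ln13_12_5_ok) (M (nat_lit 525) (B (L (nat_lit 428)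 ln13_16_7 ln13_16_7_ok) (L (nat_lit 556) ln13_13_5 ln13_13_5_ok))))))) (M (nat_lit 366) (B (L (nat_lit 493) ln13_15_6 ln13_15_6_ok) (M (nat_lit 367) (B (L (nat_lit 395) ln11_12_2 ln11_12_2_ok) (M (nat_lit 368) (B (L (nat_lit 369) ln17_11_1 ln17_11_1_ok) (L (nat_lit 399) ln12_12_2 ln12_12_2_ok))))))))))) (B (M (nat_lit 395) (B (M (nat_lit 493) (B (L (nat_lit 364) ln13_15_7 ln13_15_7_ok) (M (nat_lit 398) (B (L (nat_lit 366) ln13_15_6 ln13_15_6_ok) (M (nat_lit 394) (B (M (nat_lit 362) (B (L (nat_lit 361) ln13_12_3 ln13_12_3_ok) (L (nat_lit 363) ln14_12_3 ln14_12_3_ok))) (M (nat_lit 426) (B (L (nat_lit 425) ln13_12_1 ln13_12_1_ok) (L (nat_lit 427) ln14_12_1 ln14_12_1_ok))))))))) (B (M (nat_lit 427) (B (M (nat_lit 426) (B (L (nat_lit 398) ln14_12_1 ln14_12_1_ok) (M (nat_lit 425) (B (L (nat_lit 394) ln13_12_1 ln13_12_1_ok) (L (nat_lit 424) ln8_13_2 ln8_13_2_ok))))) (M (nat_lit 364) (B (L (nat_lit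 493) ln13_15_7 ln13_15_7_ok) (M (nat_lit 332) (B (L (nat_lit 300) ln12_9_4 ln12_9_4_ok) (M (nat_lit 459) (B (L (nat_lit 363) ln11_14_6 ln11_14_6_ok) (L (nat_lit 491) ln11_15_6 ln11_15_6_ok))))))))) c10_d245))) (M (nat_lit 395) (B (M (nat_lit 394) (B (M (nat_lit 393) (B (L (nat_lit 428) ln9_12_0 ln9_12_0_ok) (M (nat_lit 425) (B (L (nat_lit 424) ln12_12_1 ln12_12_1_ok) (L (nat_lit 426) ln13_12_1 ln13_12_1_ok))))) (B (M (nat_lit 398) (B (M (nat_lit 362) (B (L (nat_lit 361) ln13_12_3 ln13_12_3_ok) (L (nat_lit 363) ln14_12_3 ln14_12_3_ok))) (M (nat_lit 426) (B (L (nat_lit 425) ln13_12_1 ln13_12_1_ok) (L (nat_lit 427) ln14_12_1 ln14_12_1_ok))))) (M (nat_lit 393) (B (L (nat_lit 428) ln9_12_0 ln9_12_0_ok) (M (nat_lit 361) (B (L (nat_lit 360) ln12_12_3 ln12_12_3_ok) (L (nat_lit 362) ln13_12_3 ln13_12_3_ok)))))))) (B (M (nat_lit 364) (B (M (nat_lit 332) (B (L (nat_lit 300) ln12_9_4 ln12_9_4_ok) (L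 (nat_lit 428) ln12_10_4 ln12_10_4_ok))) (B (M (nat_lit 427) (B (M (nat_lit 332) (B (L (nat_lit 428) ln12_10_4 ln12_10_4_ok) (M (nat_lit 459) (B (L (nat_lit 363) ln11_14_6 ln11_14_6_ok) (L (nat_lit 491) ln11_15_6 ln11_15_6_ok))))) (M (nat_lit 426) (B (L (nat_lit 398) ln14_12_1 ln14_12_1_ok) (M (nat_lit 425) (B (L (nat_lit 394) ln13_12_1 ln13_12_1_ok) (L (nat_lit 424) ln8_13_2 ln8_13_2_ok))))))) (B (M (nat_lit 398) (B (M (nat_lit 363) (B (L (nat_lit 362) ln14_12_3 ln14_12_3_ok) (L (nat_lit 399) ln15_12_3 ln15_12_3_ok))) (B (M (nat_lit 399) (B (L (nat_lit 363) ln15_12_3 ln15_12_3_ok) (M (nat_lit 367) (B (L (nat_lit 366) ln11_12_2 ln11_12_2_ok) (L (nat_lit 368) ln12_12_2 ln12_12_2_ok))))) (B (M (nat_lit 399) (B (M (nat_lit 367) (B (L (nat_lit 366) ln11_12_2 ln11_12_2_ok) (L (nat_lit 368) ln12_12_2 ln12_12_2_ok))) (M (nat_lit 427) (B (L (nat_lit 426) ln14_12_1 ln14_12_1_ok) (L (nat_lit 428) ln15_12_1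 ln15_12_1_ok))))) (M (nat_lit 394) (B (M (nat_lit 362) (B (L (nat_lit 361) ln13_12_3 ln13_12_3_ok) (L (nat_lit 363) ln14_12_3 ln14_12_3_ok))) (M (nat_lit 426) (B (L (nat_lit 425) ln13_12_1 ln13_12_1_ok) (L (nat_lit 427) ln14_12_1 ln14_12_1_ok))))))))) (M (nat_lit 427) (B (M (nat_lit 426) (B (L (nat_lit 398) ln14_12_1 ln14_12_1_ok) (M (nat_lit 425) (B (L (nat_lit 394) ln13_12_1 ln13_12_1_ok) (L (nat_lit 424) ln8_13_2 ln8_13_2_ok))))) (M (nat_lit 332) (B (L (nat_lit 300) ln12_9_4 ln12_9_4_ok) (M (nat_lit 459) (B (L (nat_lit 363) ln11_14_6 ln11_14_6_ok) (L (nat_lit 491) ln11_15_6 ln11_15_6_ok))))))))))) (B (M (nat_lit 364) (B (M (nat_lit 332) (B (L (nat_lit 300) ln12_9_4 ln12_9_4_ok) (L (nat_lit 428) ln12_10_4 ln12_10_4_ok))) (B (M (nat_lit 427) (B (M (nat_lit 332) (B (L (nat_lit 428) ln12_10_4 ln12_10_4_ok) (M (nat_lit 459) (B (L (nat_lit 363) ln11_14_6 ln11_14_6_ok) (L (nat_lit 491) ln11_15_6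 ln11_15_6_ok))))) (M (nat_lit 426) (B (L (nat_lit 398) ln14_12_1 ln14_12_1_ok) (M (nat_lit 425) (B (L (nat_lit 394) ln13_12_1 ln13_12_1_ok) (L (nat_lit 424) ln8_13_2 ln8_13_2_ok))))))) (B (M (nat_lit 394) (B (M (nat_lit 393) (B (L (nat_lit 428) ln9_12_0 ln9_12_0_ok) (M (nat_lit 425) (B (L (nat_lit 424) ln12_12_1 ln12_12_1_ok) (L (nat_lit 426) ln13_12_1 ln13_12_1_ok))))) (B (M (nat_lit 398) (B (M (nat_lit 363) (B (L (nat_lit 362) ln14_12_3 ln14_12_3_ok) (L (nat_lit 399) ln15_12_3 ln15_12_3_ok))) (M (nat_lit 426) (B (L (nat_lit 425) ln13_12_1 ln13_12_1_ok) (L (nat_lit 427) ln14_12_1 ln14_12_1_ok))))) (M (nat_lit 363) (B (M (nat_lit 393) (B (L (nat_lit 392) ln8_12_2 ln8_12_2_ok) (L (nat_lit 428) ln9_12_0 ln9_12_0_ok))) (M (nat_lit 398) (B (L (nat_lit 362) ln14_12_3 ln14_12_3_ok) (L (nat_lit 399) ln15_12_3 ln15_12_3_ok)))))))) (M (nat_lit 427) (B (M (nat_lit 426) (B (L (nat_lit 398) ln14_12_1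 ln14_12_1_ok) (M (nat_lit 425) (B (L (nat_lit 394) ln13_12_1 ln13_12_1_ok) (L (nat_lit 424) ln8_13_2 ln8_13_2_ok))))) (M (nat_lit 332) (B (L (nat_lit 300) ln12_9_4 ln12_9_4_ok) (M (nat_lit 459) (B (L (nat_lit 363) ln11_14_6 ln11_14_6_ok) (L (nat_lit 491) ln11_15_6 ln11_15_6_ok))))))))))) c10_d247))))))
theorem c10_s574 : Sem (nat_lit 5954262830815946494763249298768603811203561774969104571805089223376689777636098861358550851719243481454542035207245364041705138952691777536) (nat_lit 235872651740128270218237321482061224168596640388969519237922572227973076643784911458758023214138525538825346504643074814754306769387264092678993132533628257313811857408) (nat_lit 235872651740128270218237321482061224168596640388969519237922572227973076643784911458758023214138525538825346504643074814754306769387264092678993132533628257313811857408) :=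
  sem_of_chk (M (nat_lit 396) (B (M (nat_lit 364) (B (L (nat_lit 493) ln13_15_7 ln13_15_7_ok) (M (nat_lit 332) (B (L (nat_lit 300) ln12_9_4 ln12_9_4_ok) (L (nat_lit 428) ln12_10_4 ln12_10_4_ok))))) (B (M (nat_lit 493) (B (L (nat_lit 364) ln13_15_7 ln13_15_7_ok) (M (nat_lit 525) (B (L (nat_lit 428) ln13_16_7 ln13_16_7_ok) (M (nat_lit 524) (B (L (nat_lit 492) ln13_12_5 ln13_12_5_ok) (L (nat_lit 556) ln13_13_5 ln13_13_5_ok))))))) c10_d248))) (nat_lit 5954262830815946494763249298768603811203561774969104571805089223376689777636098861358550851719243481454542035207245364041705138952691777536) (nat_lit 235872651740128270218237321482061224168596640388969519237922572227973076643784911458758023214138525538825346504643074814754306769387264092678993132533628257313811857408) (nat_lit 235872651740128270218237321482061224168596640388969519237922572227973076643784911458758023214138525538825346504643074814754306769387264092678993132533628257313811857408)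 (by decide +kernel)

end Vale.Agent.Lib.P062.Data
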