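import Vale.Agent.Lib.P062.Data.c10_lines
import Vale.Agent.Lib.P062.Data.c10_l0_0
import Vale.Agent.Lib.P062.Data.c10_l0_1
import Vale.Agent.Lib.P062.Data.c10_l0_2
import Vale.Agent.Lib.P062.Data.c10_l0_3

namespace Vale.Agent.Lib.P062.Data
theorem c10_s7 : Sem (nat_lit 8931394246223919741660702096143128740880192478464903044691016872442593480537265575446063142856511203595172621904809346577872911053935869952) (nat_lit 943490606425058863553783600755425751106931713439554578160830367643095220853790867978575098115065140597355275708682093332671903168877930850107781672371233712081559617536) (nat_lit 943490606425058863553783600755425751106931713439554578160830367643095220853790867978575098115065140597355275708682093332671903168877930850107781672371233712081559617536) :=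
  sem_of_chk (M (nat_lit 462) (B (K (nat_lit 20839919905083143036420823364580195031730252531965922144342952295818187576987177151222377317750813461742705775901874405840903824137158393856) (nat_lit 11188346806937506145753621062967021212924392259469256030954017615820488859900612855211531288033606181315255636784554086139481476476886522102944890880) (nat_lit 11188346806937506145753621062967021212924392259469256030954017615820488859900612855211531288033606181315255636784554086139481476476886522102944890880) c10_s6) (B (M (nat_lit 463) (B (L (nat_lit 464) ln16_14_3 ln16_14_3_ok) (M (nat_lit 431) (B (L (nat_lit 432) ln12_14_2 ln12_14_2_ok) (M (nat_lit 495) (B (L (nat_lit 496) ln12_14_0 ln12_14_0_ok) (M (nat_lit 494) (B (L (nat_lit 459) ln11_14_0 ln11_14_0_ok) (M (nat_lit 526) (B (L (nat_lit 558) ln14_17_6_c10 ln14_17_6_c10_ok) (L (nat_lit 399) ln15_12_5 ln15_12_5_ok))))))))))) (M (nat_lit 463) (B (L (nat_lit 464) ln16_14_3 ln16_14_3_ok) (L (nat_lit 427) ln15_14_3 ln15_14_3_ok)))))) (nat_lit 8931394246223919741660702096143128740880192478464903044691016872442593480537265575446063142856511203595172621904809346577872911053935869952)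 (nat_lit 943490606425058863553783600755425751106931713439554578160830367643095220853790867978575098115065140597355275708682093332671903168877930850107781672371233712081559617536) (nat_lit 943490606425058863553783600755425751106931713439554578160830367643095220853790867978575098115065140597355275708682093332671903168877930850107781672371233712081559617536) (by decide +kernel)
theorem c10_s24 : Sem (nat_lit 11164242806956763361724542930949954360387412368405372498011588490284763320381227860305654526517742114202174164724156242151434631932433924096) (nat_lit 29484081455931687722412798866551412218247447479740561885909981978797913299634193703402702097694462052690104947692031133513562022619654907530628960950176611365751357440) (nat_lit 29484081455931687722412798866551412218247447479740561885909981978797913299634193703402702097694462052690104947692031133513562022619654907530628960950176611365751357440) :=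
  sem_of_chk (M (nat_lit 393) (B (M (nat_lit 456) (B (M (nat_lit 488) (B (M (nat_lit 359) (B (L (nat_lit 391) ln8_15_7_c10 ln8_15_7_c10_ok) (L (nat_lit 327) ln8_14_7_c10 ln8_14_7_c10_ok))) (M (nat_lit 487) (B (L (nat_lit 519) ln8_12_5_c10 ln8_12_5_c10_ok) (L (nat_lit 455) ln8_11_5_c10 ln8_11_5_c10_ok))))) (B (M (nat_lit 361) (B (L (nat_lit 488) ln8_15_6_c10 ln8_15_6_c10_ok) (L (nat_lit 329) ln8_14_6_c10 ln8_14_6_c10_ok))) (M (nat_lit 359) (B (L (nat_lit 327) ln8_14_7_c10 ln8_14_7_c10_ok) (M (nat_lit 361) (B (L (nat_lit 329) ln8_14_6_c10 ln8_14_6_c10_ok) (M (nat_lit 358) (B (L (nat_lit 357) ln5_11_0_c10 ln5_11_0_c10_ok) (M (nat_lit 390) (B (L (nat_lit 389) ln9_11_1_c10 ln9_11_1_c10_ok) (M (nat_lit 326) (B (L (nat_lit 325) ln9_11_3_c10 ln9_11_3_c10_ok) (M (nat_lit 455) (B (L (nat_lit 487) ln8_11_5_c10 ln8_11_5_c10_ok) (M (nat_lit 423) (B (L (nat_lit 391) ln7_14_7_c10 ln7_14_7_c10_ok) (L (nat_lit 422) ln6_10_4_c10 ln6_10_4_c10_ok)))))))))))))))))) (B (K (nat_lit 11164242806956763361744716758122508333744099236936646028279789316791241629075217386528628336064748686035218269046657318959527625463471013888)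 (nat_lit 29484081455931687722412798866551412218214955256572193092833319314022455535602814101189400273851942869119572756162275785759559999576212377712921615865931075860360593408) (nat_lit 29484081455931687722412798866551412218214955256572193092833319314022455535602814101189400273851942869119572756162275785759559999576212377712921615865931075860360593408) c10_s23) (B (M (nat_lit 394) (B (M (nat_lit 396) (B (L (nat_lit 425) ln12_12_1 ln12_12_1_ok) (L (nat_lit 361) ln12_12_3 ln12_12_3_ok))) (L (nat_lit 423) ln11_12_1 ln11_12_1_ok))) (M (nat_lit 394) (B (L (nat_lit 423) ln11_12_1 ln11_12_1_ok) (L (nat_lit 359) ln11_12_3 ln11_12_3_ok))))))) (nat_lit 11164242806956763361724542930949954360387412368405372498011588490284763320381227860305654526517742114202174164724156242151434631932433924096) (nat_lit 29484081455931687722412798866551412218247447479740561885909981978797913299634193703402702097694462052690104947692031133513562022619654907530628960950176611365751357440) (nat_lit 29484081455931687722412798866551412218247447479740561885909981978797913299634193703402702097694462052690104947692031133513562022619654907530628960950176611365751357440)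 (by decide +kernel)
theorem c10_s25 : Sem (nat_lit 11164242806956763361724542930949954360387412368405372498011588490284763320381227860305654526517742114202174164724156242151434631932433924096) (nat_lit 29484081455931687722412798866551412218236616738577685786096329648193307058248826150709994711452061616176584955913077011183948321620539532625728371168170558207649906688) (nat_lit 29484081455931687722412798866551412218236616738577685786096329648193307058248826150709994711452061616176584955913077011183948321620539532625728371168170558207649906688) :=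
  sem_of_chk (M (nat_lit 393) (B (M (nat_lit 359) (B (L (nat_lit 394) ln11_12_3 ln11_12_3_ok) (M (nat_lit 327) (B (L (nat_lit 456) ln8_14_7_c10 ln8_14_7_c10_ok) (M (nat_lit 295) (B (L (nat_lit 263) ln7_8_4_c10 ln7_8_4_c10_ok) (L (nat_lit 328) ln8_13_7_c10 ln8_13_7_c10_ok))))))) (B (M (nat_lit 423) (B (M (nat_lit 455) (B (L (nat_lit 328) ln8_10_5_c10 ln8_10_5_c10_ok) (M (nat_lit 487) (B (L (nat_lit 456) ln8_11_5_c10 ln8_11_5_c10_ok) (L (nat_lit 519) ln7_16_6_c10 ln7_16_6_c10_ok))))) (L (nat_lit 394) ln11_12_1 ln11_12_1_ok))) (B (K (nat_lit 11164242806956763361744716758122508333744099236936646028279789316791241629075217386528628336064748686035218269046657318959527625463471013888) (nat_lit 29484081455931687722412798866551412218214955256572193092833319314022455535602814101189400273851942869119572756162275785759559999576212377712921615865931075860360593408) (nat_lit 29484081455931687722412798866551412218214955256572193092833319314022455535602814101189400273851942869119572756162275785759559999576212377712921615865931075860360593408)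 c10_s23) (B (M (nat_lit 456) (B (M (nat_lit 488) (B (L (nat_lit 361) ln8_15_6_c10 ln8_15_6_c10_ok) (M (nat_lit 520) (B (L (nat_lit 425) ln8_16_6_c10 ln8_16_6_c10_ok) (M (nat_lit 521) (B (L (nat_lit 489) ln8_12_4_c10 ln8_12_4_c10_ok) (L (nat_lit 553) ln8_13_4_c10 ln8_13_4_c10_ok))))))) (M (nat_lit 328) (B (M (nat_lit 327) (B (L (nat_lit 295) ln8_13_7_c10 ln8_13_7_c10_ok) (L (nat_lit 359) ln8_14_7_c10 ln8_14_7_c10_ok))) (M (nat_lit 455) (B (L (nat_lit 423) ln8_10_5_c10 ln8_10_5_c10_ok) (L (nat_lit 487) ln8_11_5_c10 ln8_11_5_c10_ok))))))) (M (nat_lit 328) (B (M (nat_lit 296) (B (L (nat_lit 425) ln8_9_4_c10 ln8_9_4_c10_ok) (M (nat_lit 295) (B (L (nat_lit 263) ln8_12_7_c10 ln8_12_7_c10_ok) (L (nat_lit 327) ln8_13_7_c10 ln8_13_7_c10_ok))))) (B (M (nat_lit 296) (B (L (nat_lit 425) ln8_9_4_c10 ln8_9_4_c10_ok) (M (nat_lit 264) (B (L (nat_lit 361) ln8_8_4_c10 ln8_8_4_c10_ok) (M (nat_lit 265) (B (L (nat_lit 233) ln8_11_6_c10 ln8_11_6_c10_ok) (L (nat_lit 297) ln8_12_6_c10 ln8_12_6_c10_ok))))))) (M (nat_lit 423) (B (L (nat_lit 455) ln8_10_5_c10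 ln8_10_5_c10_ok) (L (nat_lit 394) ln11_12_1 ln11_12_1_ok))))))))))) (nat_lit 11164242806956763361724542930949954360387412368405372498011588490284763320381227860305654526517742114202174164724156242151434631932433924096) (nat_lit 29484081455931687722412798866551412218236616738577685786096329648193307058248826150709994711452061616176584955913077011183948321620539532625728371168170558207649906688) (nat_lit 29484081455931687722412798866551412218236616738577685786096329648193307058248826150709994711452061616176584955913077011183948321620539532625728371168170558207649906688) (by decide +kernel)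
theorem c10_s32 : Sem (nat_lit 5954262831162530206286265230239199607252158144638956066880229858290287322841385004986859978896449781225614568337954303650155411180145868800) (nat_lit 68647976626479877465335361461529866314613663262271253689803211927387907099040965059862572223900102815475311100248640561457265881612992512206802839988625997824) (nat_lit 68647976626479877465335361461529866314613663262271253689803211927387907099040965059862572223900102815475311100248640561457265881612992512206802839988625997824) :=
  sem_of_chk (M (nat_lit 459) (B (K (nat_lit 7442828538519933118131280388793832893608415651326583454336721786212236584897623951958899250758237563494056212587587436058034275315548684288) (nat_lit 18780439282980635673489020103417542853755935196277802591186406429447219786262569596273965918296607162120150893508006998258259161949052709583565357056) (nat_lit 18780439282980635673489020103417542853755935196277802591186406429447219786262569596273965918296607162120150893508006998258259161949052709583565357056) c10_s30) (B (M (nat_lit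 491) (B (M (nat_lit 362) (B (L (nat_lit 330) ln11_14_7 ln11_14_7_ok) (L (nat_lit 394) ln11_15_7 ln11_15_7_ok))) (M (nat_lit 492) (B (L (nat_lit 460) ln11_11_4 ln11_11_4_ok) (L (nat_lit 524) ln11_12_4 ln11_12_4_ok))))) (M (nat_lit 491) (B (M (nat_lit 362) (B (L (nat_lit 330) ln11_14_7 ln11_14_7_ok) (L (nat_lit 394) ln11_15_7 ln11_15_7_ok))) (M (nat_lit 490) (B (L (nat_lit 458) ln11_11_5 ln11_11_5_ok) (L (nat_lit 522) ln11_12_5 ln11_12_5_ok)))))))) (nat_lit 5954262831162530206286265230239199607252158144638956066880229858290287322841385004986859978896449781225614568337954303650155411180145868800) (nat_lit 68647976626479877465335361461529866314613663262271253689803211927387907099040965059862572223900102815475311100248640561457265881612992512206802839988625997824) (nat_lit 68647976626479877465335361461529866314613663262271253689803211927387907099040965059862572223900102815475311100248640561457265881612992512206802839988625997824) (by decide +kernel)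
theorem c10_s37 : Sem (nat_lit 8373182105834924757806908215104826412290507533212228096937961605072735356142332478596843059283826640556541727492462524936946245325165690880) (nat_lit 158291456994384044337592020038974029877258083650533772076767666991460733636191460172527755765504889218720939838026640472318916387287720284597724243507705511387876734594600402944) (nat_lit 158291456994384044337592020038974029877258083650533772076767666991460733636191460172527755765504889218720939838026640472318916387287720284597724243507705511387876734594600402944) :=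
  sem_of_chk (M (nat_lit 488) (B (M (nat_lit 392) (B (M (nat_lit 487) (B (L (nat_lit 519) ln8_12_5_c10 ln8_12_5_c10_ok) (M (nat_lit 489) (B (L (nat_lit 490) ln7_15_2 ln7_15_2_ok) (L (nat_lit 521) ln8_12_4_c10 ln8_12_4_c10_ok))))) (B (M (nat_lit 520) (B (M (nat_lit 393) (B (L (nat_lit 361) ln8_15_6_c10 ln8_15_6_c10_ok) (L (nat_lit 425) ln8_16_6_c10 ln8_16_6_c10_ok))) (M (nat_lit 519) (B (L (nat_lit 487) ln8_12_5_c10 ln8_12_5_c10_ok) (L (nat_lit 551) ln8_13_5_c10 ln8_13_5_c10_ok))))) (M (nat_lit 520) (B (M (nat_lit 393) (B (L (nat_lit 361) ln8_15_6_c10 ln8_15_6_c10_ok) (L (nat_lit 425) ln8_16_6_c10 ln8_16_6_c10_ok))) (M (nat_lit 521) (B (L (nat_lit 489) ln8_12_4_c10 ln8_12_4_c10_ok) (L (nat_lit 553) ln8_13_4_c10 ln8_13_4_c10_ok)))))))) (B (M (nat_lit 520) (B (M (nat_lit 423) (B (L (nat_lit 391) ln8_16_7_c10 ln8_16_7_c10_ok) (L (nat_lit 425) ln7_13_0 ln7_13_0_ok))) (M (nat_lit 552) (B (M (nat_lit 553) (B (L (nat_lit 521) ln8_13_4_c10 ln8_13_4_c10_ok) (L (nat_lit 585) ln8_14_4_c10 ln8_14_4_c10_ok))) (M (nat_lit 551) (B (L (nat_lit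 519) ln8_13_5_c10 ln8_13_5_c10_ok) (L (nat_lit 583) ln8_14_5_c10 ln8_14_5_c10_ok))))))) (B (K (nat_lit 799167637254076117068613648633958789376467536812740147832172278602056770210595354893130840981097003900742334923621822953697206710844046363575975936) (nat_lit 36855101816911260678407088043907700859293636195727090802848887538793516418910663438067016820560709209328384960187537810620386463912622375467380840504885773465089474560) (nat_lit 36855101816911260678407088043907700859293636195727090802848887538793516418910663438067016820560709209328384960187537810620386463912622375467380840504885773465089474560) c10_s36) (B (M (nat_lit 520) (B (M (nat_lit 423) (B (L (nat_lit 391) ln8_16_7_c10 ln8_16_7_c10_ok) (L (nat_lit 425) ln7_13_0 ln7_13_0_ok))) (B (M (nat_lit 392) (B (M (nat_lit 391) (B (L (nat_lit 359) ln8_15_7_c10 ln8_15_7_c10_ok) (L (nat_lit 423) ln8_16_7_c10 ln8_16_7_c10_ok))) (M (nat_lit 519) (B (L (nat_lit 487) ln8_12_5_c10 ln8_12_5_c10_ok) (L (nat_lit 551) ln8_13_5_c10 ln8_13_5_c10_ok))))) (M (nat_lit 392) (B (M (nat_lit 393)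 (B (L (nat_lit 361) ln8_15_6_c10 ln8_15_6_c10_ok) (L (nat_lit 425) ln8_16_6_c10 ln8_16_6_c10_ok))) (M (nat_lit 519) (B (L (nat_lit 487) ln8_12_5_c10 ln8_12_5_c10_ok) (L (nat_lit 551) ln8_13_5_c10 ln8_13_5_c10_ok)))))))) (B (M (nat_lit 392) (B (M (nat_lit 487) (B (L (nat_lit 519) ln8_12_5_c10 ln8_12_5_c10_ok) (M (nat_lit 489) (B (L (nat_lit 490) ln7_15_2 ln7_15_2_ok) (L (nat_lit 521) ln8_12_4_c10 ln8_12_4_c10_ok))))) (M (nat_lit 360) (B (M (nat_lit 361) (B (L (nat_lit 329) ln8_14_6_c10 ln8_14_6_c10_ok) (L (nat_lit 393) ln8_15_6_c10 ln8_15_6_c10_ok))) (M (nat_lit 359) (B (L (nat_lit 327) ln8_14_7_c10 ln8_14_7_c10_ok) (L (nat_lit 391) ln8_15_7_c10 ln8_15_7_c10_ok))))))) (M (nat_lit 520) (B (M (nat_lit 423) (B (L (nat_lit 391) ln8_16_7_c10 ln8_16_7_c10_ok) (L (nat_lit 425) ln7_13_0 ln7_13_0_ok))) (B (M (nat_lit 392) (B (M (nat_lit 521) (B (L (nat_lit 489) ln8_12_4_c10 ln8_12_4_c10_ok) (L (nat_lit 553) ln8_13_4_c10 ln8_13_4_c10_ok))) (M (nat_lit 391) (B (L (nat_lit 359) ln8_15_7_c10 ln8_15_7_c10_ok) (L (nat_lit 423) ln8_16_7_c10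 ln8_16_7_c10_ok))))) (M (nat_lit 392) (B (M (nat_lit 393) (B (L (nat_lit 361) ln8_15_6_c10 ln8_15_6_c10_ok) (L (nat_lit 425) ln8_16_6_c10 ln8_16_6_c10_ok))) (M (nat_lit 521) (B (L (nat_lit 489) ln8_12_4_c10 ln8_12_4_c10_ok) (L (nat_lit 553) ln8_13_4_c10 ln8_13_4_c10_ok)))))))))))))) (nat_lit 8373182105834924757806908215104826412290507533212228096937961605072735356142332478596843059283826640556541727492462524936946245325165690880) (nat_lit 158291456994384044337592020038974029877258083650533772076767666991460733636191460172527755765504889218720939838026640472318916387287720284597724243507705511387876734594600402944) (nat_lit 158291456994384044337592020038974029877258083650533772076767666991460733636191460172527755765504889218720939838026640472318916387287720284597724243507705511387876734594600402944) (by decide +kernel)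
noncomputable def c10_d249 : Cert := (B (M (nat_lit 360) (B (M (nat_lit 327) (B (L (nat_lit 359) ln8_14_7_c10 ln8_14_7_c10_ok) (M (nat_lit 328) (B (L (nat_lit 295) ln8_13_7_c10 ln8_13_7_c10_ok) (M (nat_lit 329) (B (L (nat_lit 361) ln8_14_6_c10 ln8_14_6_c10_ok) (L (nat_lit 297) ln8_13_6_c10 ln8_13_6_c10_ok))))))) (B (M (nat_lit 328) (B (M (nat_lit 457) (B (L (nat_lit 489) ln8_11_4_c10 ln8_11_4_c10_ok) (L (nat_lit 425) ln8_10_4_c10 ln8_10_4_c10_ok))) (M (nat_lit 329) (B (L (nat_lit 361) ln8_14_6_c10 ln8_14_6_c10_ok) (L (nat_lit 297) ln8_13_6_c10 ln8_13_6_c10_ok))))) (B (M (nat_lit 328) (B (M (nat_lit 457) (B (L (nat_lit 489) ln8_11_4_c10 ln8_11_4_c10_ok) (L (nat_lit 425) ln8_10_4_c10 ln8_10_4_c10_ok))) (M (nat_lit 327) (B (L (nat_lit 359) ln8_14_7_c10 ln8_14_7_c10_ok) (L (nat_lit 295) ln8_13_7_c10 ln8_13_7_c10_ok))))) (M (nat_lit 488) (B (M (nat_lit 489) (B (L (nat_lit 521) ln8_12_4_c10 ln8_12_4_c10_ok) (L (nat_lit 457) ln8_11_4_c10 ln8_11_4_c10_ok))) (M (nat_lit 359) (B (L (nat_lit 391) ln8_15_7_c10 ln8_15_7_c10_ok) (L (nat_lit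 327) ln8_14_7_c10 ln8_14_7_c10_ok))))))))) (B (M (nat_lit 488) (B (M (nat_lit 521) (B (L (nat_lit 489) ln8_12_4_c10 ln8_12_4_c10_ok) (M (nat_lit 520) (B (L (nat_lit 553) ln8_13_4_c10 ln8_13_4_c10_ok) (M (nat_lit 519) (B (L (nat_lit 487) ln8_12_5_c10 ln8_12_5_c10_ok) (L (nat_lit 551) ln8_13_5_c10 ln8_13_5_c10_ok))))))) (B (M (nat_lit 520) (B (M (nat_lit 391) (B (L (nat_lit 359) ln8_15_7_c10 ln8_15_7_c10_ok) (L (nat_lit 423) ln8_16_7_c10 ln8_16_7_c10_ok))) (M (nat_lit 519) (B (L (nat_lit 487) ln8_12_5_c10 ln8_12_5_c10_ok) (L (nat_lit 551) ln8_13_5_c10 ln8_13_5_c10_ok))))) (B (M (nat_lit 520) (B (M (nat_lit 391) (B (L (nat_lit 359) ln8_15_7_c10 ln8_15_7_c10_ok) (L (nat_lit 423) ln8_16_7_c10 ln8_16_7_c10_ok))) (M (nat_lit 521) (B (L (nat_lit 489) ln8_12_4_c10 ln8_12_4_c10_ok) (L (nat_lit 553) ln8_13_4_c10 ln8_13_4_c10_ok))))) (M (nat_lit 360) (B (M (nat_lit 359) (B (L (nat_lit 327) ln8_14_7_c10 ln8_14_7_c10_ok) (L (nat_lit 391) ln8_15_7_c10 ln8_15_7_c10_ok))) (M (nat_lit 489) (B (L (nat_lit 457) ln8_11_4_c10 ln8_11_4_c10_ok) (L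 (nat_lit 521) ln8_12_4_c10 ln8_12_4_c10_ok))))))))) (B (M (nat_lit 488) (B (M (nat_lit 519) (B (L (nat_lit 487) ln8_12_5_c10 ln8_12_5_c10_ok) (M (nat_lit 520) (B (L (nat_lit 551) ln8_13_5_c10 ln8_13_5_c10_ok) (M (nat_lit 521) (B (L (nat_lit 489) ln8_12_4_c10 ln8_12_4_c10_ok) (L (nat_lit 553) ln8_13_4_c10 ln8_13_4_c10_ok))))))) (B (M (nat_lit 520) (B (M (nat_lit 391) (B (L (nat_lit 359) ln8_15_7_c10 ln8_15_7_c10_ok) (L (nat_lit 423) ln8_16_7_c10 ln8_16_7_c10_ok))) (M (nat_lit 521) (B (L (nat_lit 489) ln8_12_4_c10 ln8_12_4_c10_ok) (L (nat_lit 553) ln8_13_4_c10 ln8_13_4_c10_ok))))) (B (M (nat_lit 520) (B (M (nat_lit 391) (B (L (nat_lit 359) ln8_15_7_c10 ln8_15_7_c10_ok) (L (nat_lit 423) ln8_16_7_c10 ln8_16_7_c10_ok))) (M (nat_lit 519) (B (L (nat_lit 487) ln8_12_5_c10 ln8_12_5_c10_ok) (L (nat_lit 551) ln8_13_5_c10 ln8_13_5_c10_ok))))) (M (nat_lit 391) (B (L (nat_lit 359) ln8_15_7_c10 ln8_15_7_c10_ok) (L (nat_lit 393) ln7_12_0_c10 ln7_12_0_c10_ok))))))) (B (M (nat_lit 360) (B (M (nat_lit 328) (B (M (nat_lit 457) (B (L (nat_lit 489)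 ln8_11_4_c10 ln8_11_4_c10_ok) (L (nat_lit 425) ln8_10_4_c10 ln8_10_4_c10_ok))) (M (nat_lit 327) (B (L (nat_lit 359) ln8_14_7_c10 ln8_14_7_c10_ok) (L (nat_lit 295) ln8_13_7_c10 ln8_13_7_c10_ok))))) (B (M (nat_lit 329) (B (L (nat_lit 361) ln8_14_6_c10 ln8_14_6_c10_ok) (M (nat_lit 328) (B (L (nat_lit 297) ln8_13_6_c10 ln8_13_6_c10_ok) (M (nat_lit 327) (B (L (nat_lit 359) ln8_14_7_c10 ln8_14_7_c10_ok) (L (nat_lit 295) ln8_13_7_c10 ln8_13_7_c10_ok))))))) (B (M (nat_lit 328) (B (M (nat_lit 457) (B (L (nat_lit 489) ln8_11_4_c10 ln8_11_4_c10_ok) (L (nat_lit 425) ln8_10_4_c10 ln8_10_4_c10_ok))) (M (nat_lit 329) (B (L (nat_lit 361) ln8_14_6_c10 ln8_14_6_c10_ok) (L (nat_lit 297) ln8_13_6_c10 ln8_13_6_c10_ok))))) (M (nat_lit 488) (B (M (nat_lit 489) (B (L (nat_lit 521) ln8_12_4_c10 ln8_12_4_c10_ok) (L (nat_lit 457) ln8_11_4_c10 ln8_11_4_c10_ok))) (M (nat_lit 361) (B (L (nat_lit 393) ln8_15_6_c10 ln8_15_6_c10_ok) (L (nat_lit 329) ln8_14_6_c10 ln8_14_6_c10_ok))))))))) (B (M (nat_lit 488) (B (M (nat_lit 520) (B (M (nat_lit 393) (B (L (nat_lit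 361) ln8_15_6_c10 ln8_15_6_c10_ok) (L (nat_lit 425) ln8_16_6_c10 ln8_16_6_c10_ok))) (M (nat_lit 519) (B (L (nat_lit 487) ln8_12_5_c10 ln8_12_5_c10_ok) (L (nat_lit 551) ln8_13_5_c10 ln8_13_5_c10_ok))))) (B (M (nat_lit 521) (B (L (nat_lit 489) ln8_12_4_c10 ln8_12_4_c10_ok) (M (nat_lit 520) (B (L (nat_lit 553) ln8_13_4_c10 ln8_13_4_c10_ok) (M (nat_lit 519) (B (L (nat_lit 487) ln8_12_5_c10 ln8_12_5_c10_ok) (L (nat_lit 551) ln8_13_5_c10 ln8_13_5_c10_ok))))))) (B (M (nat_lit 520) (B (M (nat_lit 393) (B (L (nat_lit 361) ln8_15_6_c10 ln8_15_6_c10_ok) (L (nat_lit 425) ln8_16_6_c10 ln8_16_6_c10_ok))) (M (nat_lit 521) (B (L (nat_lit 489) ln8_12_4_c10 ln8_12_4_c10_ok) (L (nat_lit 553) ln8_13_4_c10 ln8_13_4_c10_ok))))) (M (nat_lit 360) (B (M (nat_lit 361) (B (L (nat_lit 329) ln8_14_6_c10 ln8_14_6_c10_ok) (L (nat_lit 393) ln8_15_6_c10 ln8_15_6_c10_ok))) (M (nat_lit 489) (B (L (nat_lit 457) ln8_11_4_c10 ln8_11_4_c10_ok) (L (nat_lit 521) ln8_12_4_c10 ln8_12_4_c10_ok))))))))) (B (M (nat_lit 488) (B (M (nat_lit 520) (B (M (nat_lit 391) (B (L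 (nat_lit 359) ln8_15_7_c10 ln8_15_7_c10_ok) (L (nat_lit 423) ln8_16_7_c10 ln8_16_7_c10_ok))) (M (nat_lit 519) (B (L (nat_lit 487) ln8_12_5_c10 ln8_12_5_c10_ok) (L (nat_lit 551) ln8_13_5_c10 ln8_13_5_c10_ok))))) (B (M (nat_lit 520) (B (M (nat_lit 393) (B (L (nat_lit 361) ln8_15_6_c10 ln8_15_6_c10_ok) (L (nat_lit 425) ln8_16_6_c10 ln8_16_6_c10_ok))) (M (nat_lit 519) (B (L (nat_lit 487) ln8_12_5_c10 ln8_12_5_c10_ok) (L (nat_lit 551) ln8_13_5_c10 ln8_13_5_c10_ok))))) (B (M (nat_lit 520) (B (M (nat_lit 393) (B (L (nat_lit 361) ln8_15_6_c10 ln8_15_6_c10_ok) (L (nat_lit 425) ln8_16_6_c10 ln8_16_6_c10_ok))) (M (nat_lit 391) (B (L (nat_lit 359) ln8_15_7_c10 ln8_15_7_c10_ok) (L (nat_lit 423) ln8_16_7_c10 ln8_16_7_c10_ok))))) (M (nat_lit 361) (B (L (nat_lit 393) ln8_15_6_c10 ln8_15_6_c10_ok) (M (nat_lit 360) (B (L (nat_lit 329) ln8_14_6_c10 ln8_14_6_c10_ok) (M (nat_lit 359) (B (L (nat_lit 327) ln8_14_7_c10 ln8_14_7_c10_ok) (L (nat_lit 391) ln8_15_7_c10 ln8_15_7_c10_ok))))))))))) (M (nat_lit 391) (B (L (nat_lit 393) ln7_12_0_c10 ln7_12_0_c10_ok)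 (L (nat_lit 425) ln11_13_3 ln11_13_3_ok)))))))))
theorem c10_s41 : Sem (nat_lit 6884616398477521846002240710895301072647623763587147770017871330163742711474072584070751406516052001954188291887831546145253368251837054976) (nat_lit 36855101816911260676009585157637160252518566179168642161214047531177276530054571792908045615590006735158469000071503130735071577297405397434031803441861843033733988352) (nat_lit 36855101816911260676009585157637160252518566179168642161214047531177276530054571792908045615590006735158469000071503130735071577297405397434031803441861843033733988352) :=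
  sem_of_chk (M (nat_lit 392) (B (K (nat_lit 6884616398477521846012327624481578059325967197852784535151971743416981865821067347182238311289555287870710344049082084549299865017355599872) (nat_lit 36855101816911260676009585157265018825570908041270707127536830418841232699270028317800558996380924556699503597685461562050505600384565596745932171698771903555198517248) (nat_lit 36855101816911260676009585157265018825570908041270707127536830418841232699270028317800558996380924556699503597685461562050505600384565596745932171698771903555198517248) c10_s40) (B (M (nat_lit 488) (B (M (nat_lit 360) (B (M (nat_lit 359) (B (L (nat_lit 327) ln8_14_7_c10 ln8_14_7_c10_ok) (L (nat_lit 391) ln8_15_7_c10 ln8_15_7_c10_ok))) (M (nat_lit 489) (B (L (nat_lit 457) ln8_11_4_c10 ln8_11_4_c10_ok) (L (nat_lit 521) ln8_12_4_c10 ln8_12_4_c10_ok))))) (M (nat_lit 520) (B (M (nat_lit 393) (B (L (nat_lit 361) ln8_15_6_c10 ln8_15_6_c10_ok) (L (nat_lit 425) ln8_16_6_c10 ln8_16_6_c10_ok))) (M (nat_lit 519) (B (L (nat_lit 487) ln8_12_5_c10 ln8_12_5_c10_ok) (L (nat_lit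 551) ln8_13_5_c10 ln8_13_5_c10_ok))))))) (B (M (nat_lit 488) (B (M (nat_lit 520) (B (M (nat_lit 391) (B (L (nat_lit 359) ln8_15_7_c10 ln8_15_7_c10_ok) (L (nat_lit 423) ln8_16_7_c10 ln8_16_7_c10_ok))) (M (nat_lit 519) (B (L (nat_lit 487) ln8_12_5_c10 ln8_12_5_c10_ok) (L (nat_lit 551) ln8_13_5_c10 ln8_13_5_c10_ok))))) (B (M (nat_lit 520) (B (M (nat_lit 393) (B (L (nat_lit 361) ln8_15_6_c10 ln8_15_6_c10_ok) (L (nat_lit 425) ln8_16_6_c10 ln8_16_6_c10_ok))) (M (nat_lit 519) (B (L (nat_lit 487) ln8_12_5_c10 ln8_12_5_c10_ok) (L (nat_lit 551) ln8_13_5_c10 ln8_13_5_c10_ok))))) (B (M (nat_lit 520) (B (M (nat_lit 393) (B (L (nat_lit 361) ln8_15_6_c10 ln8_15_6_c10_ok) (L (nat_lit 425) ln8_16_6_c10 ln8_16_6_c10_ok))) (M (nat_lit 391) (B (L (nat_lit 359) ln8_15_7_c10 ln8_15_7_c10_ok) (L (nat_lit 423) ln8_16_7_c10 ln8_16_7_c10_ok))))) (M (nat_lit 360) (B (M (nat_lit 361) (B (L (nat_lit 329) ln8_14_6_c10 ln8_14_6_c10_ok) (L (nat_lit 393) ln8_15_6_c10 ln8_15_6_c10_ok))) (M (nat_lit 489) (B (L (nat_lit 457) ln8_11_4_c10 ln8_11_4_c10_ok) (L (nat_lit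 521) ln8_12_4_c10 ln8_12_4_c10_ok))))))))) c10_d249)))) (nat_lit 6884616398477521846002240710895301072647623763587147770017871330163742711474072584070751406516052001954188291887831546145253368251837054976) (nat_lit 36855101816911260676009585157637160252518566179168642161214047531177276530054571792908045615590006735158469000071503130735071577297405397434031803441861843033733988352) (nat_lit 36855101816911260676009585157637160252518566179168642161214047531177276530054571792908045615590006735158469000071503130735071577297405397434031803441861843033733988352) (by decide +kernel)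
theorem c10_s44 : Sem (nat_lit 6884616398477521846002240710895301072647623763587147770017871330163742711474072584070751406516052001954188291887831546145253368251837054976) (nat_lit 14742040752850735398160090840786020723626780667747093151968383276156211213280874502631355521244110171433956044544951815444162764023990823207129617960638088624933437440) (nat_lit 14742040752850735398160090840786020723626780667747093151968383276156211213280874502631355521244110171433956044544951815444162764023990823207129617960638088624933437440) :=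
  sem_of_chk (M (nat_lit 425) (B (K (nat_lit 6884616398564167773943516175257126515902095129319536428623365598137820198368279499939677207236051202144942653703375021487797229871492497408) (nat_lit 453547363998366293216803294026379095906480703997751270471074003712006986540267709599677941006057303289676427161534360458821611889084071936) (nat_lit 453547363998366293216803294026379095906480703997751270471074003712006986540267709599677941006057303289676427161534360458821611889084071936) c10_s43) (B (M (nat_lit 459) (B (L (nat_lit 460) ln8_13_0 ln8_13_0_ok) (M (nat_lit 457) (B (M (nat_lit 488) (B (L (nat_lit 487) ln11_14_1 ln11_14_1_ok) (M (nat_lit 520) (B (L (nat_lit 552) ln8_17_6_c10 ln8_17_6_c10_ok) (L (nat_lit 393) ln8_16_6_c10 ln8_16_6_c10_ok))))) (M (nat_lit 491) (B (L (nat_lit 492) ln8_14_0 ln8_14_0_ok) (L (nat_lit 523) ln11_16_7 ln11_16_7_ok))))))) (M (nat_lit 459) (B (L (nat_lit 460) ln8_13_0 ln8_13_0_ok) (L (nat_lit 423) ln7_13_0 ln7_13_0_ok)))))) (nat_lit 6884616398477521846002240710895301072647623763587147770017871330163742711474072584070751406516052001954188291887831546145253368251837054976)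 (nat_lit 14742040752850735398160090840786020723626780667747093151968383276156211213280874502631355521244110171433956044544951815444162764023990823207129617960638088624933437440) (nat_lit 14742040752850735398160090840786020723626780667747093151968383276156211213280874502631355521244110171433956044544951815444162764023990823207129617960638088624933437440) (by decide +kernel)
theorem c10_s45 : Sem (nat_lit 6884616398477521846002240710895301072647623763587147770017871330163742711474072584070751406516052001954188291887831546145253368251837054976) (nat_lit 34323988321431406930731992773640098204543615665833649225362863699067176212297587946676466112980129983132512965280164403040562752160125877207599803072222593024) (nat_lit 34323988321431406930731992773640098204543615665833649225362863699067176212297587946676466112980129983132512965280164403040562752160125877207599803072222593024) :=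
  sem_of_chk (M (nat_lit 425) (B (K (nat_lit 6884616398564167773943516175257126515902095129319536428623365598137820198368279499939677207236051202144942653703375021487797229871492497408) (nat_lit 453547363998366293216803294026379095906480703997751270471074003712006986540267709599677941006057303289676427161534360458821611889084071936) (nat_lit 453547363998366293216803294026379095906480703997751270471074003712006986540267709599677941006057303289676427161534360458821611889084071936) c10_s43) (B (M (nat_lit 457) (B (M (nat_lit 459) (B (L (nat_lit 460) ln8_13_0 ln8_13_0_ok) (M (nat_lit 491) (B (L (nat_lit 523) ln11_16_7 ln11_16_7_ok) (L (nat_lit 492) ln8_14_0 ln8_14_0_ok))))) (M (nat_lit 489) (B (L (nat_lit 521) ln9_16_6 ln9_16_6_ok) (M (nat_lit 392) (B (L (nat_lit 360) ln8_11_4_c10 ln8_11_4_c10_ok) (L (nat_lit 391) ln11_13_3 ln11_13_3_ok))))))) (M (nat_lit 459) (B (L (nat_lit 460) ln8_13_0 ln8_13_0_ok) (L (nat_lit 423) ln7_13_0 ln7_13_0_ok)))))) (nat_lit 6884616398477521846002240710895301072647623763587147770017871330163742711474072584070751406516052001954188291887831546145253368251837054976)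 (nat_lit 34323988321431406930731992773640098204543615665833649225362863699067176212297587946676466112980129983132512965280164403040562752160125877207599803072222593024) (nat_lit 34323988321431406930731992773640098204543615665833649225362863699067176212297587946676466112980129983132512965280164403040562752160125877207599803072222593024) (by decide +kernel)
noncomputable def c10_d250 : Cert := (B (M (nat_lit 488) (B (M (nat_lit 520) (B (M (nat_lit 521) (B (L (nat_lit 553) ln8_13_4_c10 ln8_13_4_c10_ok) (L (nat_lit 489) ln8_12_4_c10 ln8_12_4_c10_ok))) (M (nat_lit 519) (B (L (nat_lit 551) ln8_13_5_c10 ln8_13_5_c10_ok) (L (nat_lit 487) ln8_12_5_c10 ln8_12_5_c10_ok))))) (B (M (nat_lit 360) (B (M (nat_lit 487) (B (L (nat_lit 519) ln8_12_5_c10 ln8_12_5_c10_ok) (L (nat_lit 455) ln8_11_5_c10 ln8_11_5_c10_ok))) (M (nat_lit 361) (B (L (nat_lit 393) ln8_15_6_c10 ln8_15_6_c10_ok) (L (nat_lit 329) ln8_14_6_c10 ln8_14_6_c10_ok))))) (B (M (nat_lit 455) (B (M (nat_lit 361) (B (L (nat_lit 393) ln8_15_6_c10 ln8_15_6_c10_ok) (M (nat_lit 360) (B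 (L (nat_lit 487) ln8_11_5_c10 ln8_11_5_c10_ok) (L (nat_lit 329) ln8_14_6_c10 ln8_14_6_c10_ok))))) (M (nat_lit 520) (B (M (nat_lit 521) (B (L (nat_lit 553) ln8_13_4_c10 ln8_13_4_c10_ok) (L (nat_lit 489) ln8_12_4_c10 ln8_12_4_c10_ok))) (M (nat_lit 423) (B (L (nat_lit 552) ln8_17_7_c10 ln8_17_7_c10_ok) (L (nat_lit 391) ln8_16_7_c10 ln8_16_7_c10_ok))))))) (M (nat_lit 520) (B (M (nat_lit 521) (B (L (nat_lit 553) ln8_13_4_c10 ln8_13_4_c10_ok) (L (nat_lit 489) ln8_12_4_c10 ln8_12_4_c10_ok))) (M (nat_lit 552) (B (M (nat_lit 551) (B (L (nat_lit 583) ln8_14_5_c10 ln8_14_5_c10_ok) (L (nat_lit 519) ln8_13_5_c10 ln8_13_5_c10_ok))) (M (nat_lit 423) (B (L (nat_lit 455) ln8_17_7_c10 ln8_17_7_c10_ok) (L (nat_lit 391) ln8_16_7_c10 ln8_16_7_c10_ok))))))))))) (B (M (nat_lit 360) (B (M (nat_lit 328) (B (M (nat_lit 455) (B (L (nat_lit 487) ln8_11_5_c10 ln8_11_5_c10_ok) (L (nat_lit 423) ln8_10_5_c10 ln8_10_5_c10_ok))) (M (nat_lit 327) (B (L (nat_lit 359) ln8_14_7_c10 ln8_14_7_c10_ok) (L (nat_lit 295) ln8_13_7_c10 ln8_13_7_c10_ok))))) (B (M (nat_lit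 328) (B (M (nat_lit 327) (B (L (nat_lit 359) ln8_14_7_c10 ln8_14_7_c10_ok) (L (nat_lit 295) ln8_13_7_c10 ln8_13_7_c10_ok))) (M (nat_lit 329) (B (L (nat_lit 361) ln8_14_6_c10 ln8_14_6_c10_ok) (L (nat_lit 297) ln8_13_6_c10 ln8_13_6_c10_ok))))) (B (M (nat_lit 328) (B (M (nat_lit 455) (B (L (nat_lit 487) ln8_11_5_c10 ln8_11_5_c10_ok) (L (nat_lit 423) ln8_10_5_c10 ln8_10_5_c10_ok))) (M (nat_lit 329) (B (L (nat_lit 361) ln8_14_6_c10 ln8_14_6_c10_ok) (L (nat_lit 297) ln8_13_6_c10 ln8_13_6_c10_ok))))) (M (nat_lit 488) (B (M (nat_lit 359) (B (L (nat_lit 391) ln8_15_7_c10 ln8_15_7_c10_ok) (L (nat_lit 327) ln8_14_7_c10 ln8_14_7_c10_ok))) (M (nat_lit 361) (B (L (nat_lit 393) ln8_15_6_c10 ln8_15_6_c10_ok) (L (nat_lit 329) ln8_14_6_c10 ln8_14_6_c10_ok))))))))) (B (M (nat_lit 488) (B (M (nat_lit 393) (B (L (nat_lit 361) ln8_15_6_c10 ln8_15_6_c10_ok) (L (nat_lit 391) ln7_12_0_c10 ln7_12_0_c10_ok))) (M (nat_lit 520) (B (M (nat_lit 519) (B (L (nat_lit 487) ln8_12_5_c10 ln8_12_5_c10_ok) (L (nat_lit 551) ln8_13_5_c10 ln8_13_5_c10_ok))) (M (nat_lit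 521) (B (L (nat_lit 489) ln8_12_4_c10 ln8_12_4_c10_ok) (L (nat_lit 553) ln8_13_4_c10 ln8_13_4_c10_ok))))))) (B (M (nat_lit 360) (B (M (nat_lit 327) (B (L (nat_lit 359) ln8_14_7_c10 ln8_14_7_c10_ok) (M (nat_lit 328) (B (L (nat_lit 295) ln8_13_7_c10 ln8_13_7_c10_ok) (M (nat_lit 329) (B (L (nat_lit 297) ln8_13_6_c10 ln8_13_6_c10_ok) (L (nat_lit 361) ln8_14_6_c10 ln8_14_6_c10_ok))))))) (B (M (nat_lit 328) (B (M (nat_lit 329) (B (L (nat_lit 297) ln8_13_6_c10 ln8_13_6_c10_ok) (L (nat_lit 361) ln8_14_6_c10 ln8_14_6_c10_ok))) (M (nat_lit 455) (B (L (nat_lit 423) ln8_10_5_c10 ln8_10_5_c10_ok) (L (nat_lit 487) ln8_11_5_c10 ln8_11_5_c10_ok))))) (B (M (nat_lit 328) (B (M (nat_lit 455) (B (L (nat_lit 487) ln8_11_5_c10 ln8_11_5_c10_ok) (L (nat_lit 423) ln8_10_5_c10 ln8_10_5_c10_ok))) (M (nat_lit 327) (B (L (nat_lit 359) ln8_14_7_c10 ln8_14_7_c10_ok) (L (nat_lit 295) ln8_13_7_c10 ln8_13_7_c10_ok))))) (M (nat_lit 393) (B (M (nat_lit 359) (B (L (nat_lit 327) ln8_14_7_c10 ln8_14_7_c10_ok) (L (nat_lit 391) ln7_12_0_c10 ln7_12_0_c10_ok))) (B (M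 (nat_lit 359) (B (L (nat_lit 327) ln8_14_7_c10 ln8_14_7_c10_ok) (M (nat_lit 361) (B (L (nat_lit 329) ln8_14_6_c10 ln8_14_6_c10_ok) (L (nat_lit 358) ln6_11_0_c10 ln6_11_0_c10_ok))))) (L (nat_lit 391) ln7_12_0_c10 ln7_12_0_c10_ok)))))))) (M (nat_lit 360) (B (M (nat_lit 327) (B (L (nat_lit 359) ln8_14_7_c10 ln8_14_7_c10_ok) (M (nat_lit 328) (B (L (nat_lit 295) ln8_13_7_c10 ln8_13_7_c10_ok) (M (nat_lit 329) (B (L (nat_lit 297) ln8_13_6_c10 ln8_13_6_c10_ok) (L (nat_lit 361) ln8_14_6_c10 ln8_14_6_c10_ok))))))) (B (M (nat_lit 488) (B (M (nat_lit 359) (B (L (nat_lit 327) ln8_14_7_c10 ln8_14_7_c10_ok) (L (nat_lit 391) ln8_15_7_c10 ln8_15_7_c10_ok))) (M (nat_lit 361) (B (L (nat_lit 329) ln8_14_6_c10 ln8_14_6_c10_ok) (L (nat_lit 393) ln8_15_6_c10 ln8_15_6_c10_ok))))) (B (M (nat_lit 328) (B (M (nat_lit 329) (B (L (nat_lit 361) ln8_14_6_c10 ln8_14_6_c10_ok) (L (nat_lit 297) ln8_13_6_c10 ln8_13_6_c10_ok))) (M (nat_lit 296) (B (M (nat_lit 423) (B (L (nat_lit 455) ln8_10_5_c10 ln8_10_5_c10_ok) (L (nat_lit 391) ln8_9_5_c10 ln8_9_5_c10_ok)))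 (M (nat_lit 295) (B (L (nat_lit 327) ln8_13_7_c10 ln8_13_7_c10_ok) (L (nat_lit 263) ln8_12_7_c10 ln8_12_7_c10_ok))))))) (B (M (nat_lit 328) (B (M (nat_lit 329) (B (L (nat_lit 297) ln8_13_6_c10 ln8_13_6_c10_ok) (L (nat_lit 361) ln8_14_6_c10 ln8_14_6_c10_ok))) (B (M (nat_lit 296) (B (M (nat_lit 423) (B (L (nat_lit 391) ln8_9_5_c10 ln8_9_5_c10_ok) (L (nat_lit 455) ln8_10_5_c10 ln8_10_5_c10_ok))) (M (nat_lit 264) (B (M (nat_lit 263) (B (L (nat_lit 231) ln8_11_7_c10 ln8_11_7_c10_ok) (L (nat_lit 295) ln8_12_7_c10 ln8_12_7_c10_ok))) (M (nat_lit 361) (B (L (nat_lit 393) ln8_8_4_c10 ln8_8_4_c10_ok) (L (nat_lit 329) ln8_14_6_c10 ln8_14_6_c10_ok))))))) (M (nat_lit 296) (B (M (nat_lit 423) (B (L (nat_lit 391) ln8_9_5_c10 ln8_9_5_c10_ok) (L (nat_lit 455) ln8_10_5_c10 ln8_10_5_c10_ok))) (M (nat_lit 264) (B (M (nat_lit 265) (B (L (nat_lit 233) ln8_11_6_c10 ln8_11_6_c10_ok) (L (nat_lit 297) ln8_12_6_c10 ln8_12_6_c10_ok))) (M (nat_lit 263) (B (L (nat_lit 231) ln8_11_7_c10 ln8_11_7_c10_ok) (L (nat_lit 295) ln8_12_7_c10 ln8_12_7_c10_ok))))))))))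 (B (M (nat_lit 328) (B (M (nat_lit 327) (B (L (nat_lit 295) ln8_13_7_c10 ln8_13_7_c10_ok) (L (nat_lit 359) ln8_14_7_c10 ln8_14_7_c10_ok))) (M (nat_lit 296) (B (M (nat_lit 297) (B (L (nat_lit 265) ln8_12_6_c10 ln8_12_6_c10_ok) (L (nat_lit 329) ln8_13_6_c10 ln8_13_6_c10_ok))) (M (nat_lit 423) (B (L (nat_lit 391) ln8_9_5_c10 ln8_9_5_c10_ok) (L (nat_lit 455) ln8_10_5_c10 ln8_10_5_c10_ok))))))) (M (nat_lit 328) (B (M (nat_lit 327) (B (L (nat_lit 359) ln8_14_7_c10 ln8_14_7_c10_ok) (L (nat_lit 295) ln8_13_7_c10 ln8_13_7_c10_ok))) (B (M (nat_lit 296) (B (M (nat_lit 423) (B (L (nat_lit 455) ln8_10_5_c10 ln8_10_5_c10_ok) (L (nat_lit 391) ln8_9_5_c10 ln8_9_5_c10_ok))) (M (nat_lit 295) (B (L (nat_lit 327) ln8_13_7_c10 ln8_13_7_c10_ok) (L (nat_lit 263) ln8_12_7_c10 ln8_12_7_c10_ok))))) (M (nat_lit 423) (B (L (nat_lit 455) ln8_10_5_c10 ln8_10_5_c10_ok) (M (nat_lit 391) (B (L (nat_lit 296) ln8_9_5_c10 ln8_9_5_c10_ok) (M (nat_lit 488) (B (L (nat_lit 520) ln8_16_7_c10 ln8_16_7_c10_ok) (L (nat_lit 359) ln8_15_7_c10 ln8_15_7_c10_ok))))))))))))))))))))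
theorem c10_s46 : Sem (nat_lit 6884616398477521846002240710895301072647623763587147770017871330163742711474072584070751406516052001954188291887831546145253368251837054976) (nat_lit 31658291440154522898614729273717998063840292222401746231508217957859216156347248722270183473352823379373504853037363119160994870844559564759642809002427897353315727338840784896) (nat_lit 31658291440154522898614729273717998063840292222401746231508217957859216156347248722270183473352823379373504853037363119160994870844559564759642809002427897353315727338840784896) :=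
  sem_of_chk (M (nat_lit 392) (B (K (nat_lit 6884616398477521846012327624481578059325967197852784535151971743416981865821067347182238311289555287870710344049082084549299865017355599872) (nat_lit 36855101816911260676009585157265018825570908041270707127536830418841232699270028317800558996380924556699503597685461562050505600384565596745932171698771903555198517248) (nat_lit 36855101816911260676009585157265018825570908041270707127536830418841232699270028317800558996380924556699503597685461562050505600384565596745932171698771903555198517248) c10_s40) (B (M (nat_lit 488) (B (M (nat_lit 360) (B (M (nat_lit 361) (B (L (nat_lit 329) ln8_14_6_c10 ln8_14_6_c10_ok) (L (nat_lit 393) ln8_15_6_c10 ln8_15_6_c10_ok))) (M (nat_lit 487) (B (L (nat_lit 455) ln8_11_5_c10 ln8_11_5_c10_ok) (L (nat_lit 519) ln8_12_5_c10 ln8_12_5_c10_ok))))) (M (nat_lit 520) (B (M (nat_lit 391) (B (L (nat_lit 359) ln8_15_7_c10 ln8_15_7_c10_ok) (L (nat_lit 423) ln8_16_7_c10 ln8_16_7_c10_ok))) (M (nat_lit 521) (B (L (nat_lit 489) ln8_12_4_c10 ln8_12_4_c10_ok) (L (nat_lit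 553) ln8_13_4_c10 ln8_13_4_c10_ok))))))) (B (M (nat_lit 360) (B (M (nat_lit 329) (B (L (nat_lit 361) ln8_14_6_c10 ln8_14_6_c10_ok) (M (nat_lit 328) (B (L (nat_lit 297) ln8_13_6_c10 ln8_13_6_c10_ok) (M (nat_lit 327) (B (L (nat_lit 359) ln8_14_7_c10 ln8_14_7_c10_ok) (L (nat_lit 295) ln8_13_7_c10 ln8_13_7_c10_ok))))))) (B (M (nat_lit 328) (B (M (nat_lit 455) (B (L (nat_lit 487) ln8_11_5_c10 ln8_11_5_c10_ok) (L (nat_lit 423) ln8_10_5_c10 ln8_10_5_c10_ok))) (M (nat_lit 327) (B (L (nat_lit 359) ln8_14_7_c10 ln8_14_7_c10_ok) (L (nat_lit 295) ln8_13_7_c10 ln8_13_7_c10_ok))))) (B (M (nat_lit 328) (B (M (nat_lit 455) (B (L (nat_lit 487) ln8_11_5_c10 ln8_11_5_c10_ok) (L (nat_lit 423) ln8_10_5_c10 ln8_10_5_c10_ok))) (M (nat_lit 329) (B (L (nat_lit 361) ln8_14_6_c10 ln8_14_6_c10_ok) (L (nat_lit 297) ln8_13_6_c10 ln8_13_6_c10_ok))))) (M (nat_lit 488) (B (M (nat_lit 487) (B (L (nat_lit 519) ln8_12_5_c10 ln8_12_5_c10_ok) (L (nat_lit 455) ln8_11_5_c10 ln8_11_5_c10_ok))) (M (nat_lit 361) (B (L (nat_lit 393) ln8_15_6_c10 ln8_15_6_c10_ok) (L (nat_lit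 329) ln8_14_6_c10 ln8_14_6_c10_ok))))))))) (B (M (nat_lit 360) (B (M (nat_lit 328) (B (M (nat_lit 455) (B (L (nat_lit 487) ln8_11_5_c10 ln8_11_5_c10_ok) (L (nat_lit 423) ln8_10_5_c10 ln8_10_5_c10_ok))) (M (nat_lit 329) (B (L (nat_lit 361) ln8_14_6_c10 ln8_14_6_c10_ok) (L (nat_lit 297) ln8_13_6_c10 ln8_13_6_c10_ok))))) (B (M (nat_lit 327) (B (L (nat_lit 359) ln8_14_7_c10 ln8_14_7_c10_ok) (M (nat_lit 328) (B (L (nat_lit 295) ln8_13_7_c10 ln8_13_7_c10_ok) (M (nat_lit 329) (B (L (nat_lit 361) ln8_14_6_c10 ln8_14_6_c10_ok) (L (nat_lit 297) ln8_13_6_c10 ln8_13_6_c10_ok))))))) (B (M (nat_lit 328) (B (M (nat_lit 455) (B (L (nat_lit 487) ln8_11_5_c10 ln8_11_5_c10_ok) (L (nat_lit 423) ln8_10_5_c10 ln8_10_5_c10_ok))) (M (nat_lit 327) (B (L (nat_lit 359) ln8_14_7_c10 ln8_14_7_c10_ok) (L (nat_lit 295) ln8_13_7_c10 ln8_13_7_c10_ok))))) (M (nat_lit 488) (B (M (nat_lit 487) (B (L (nat_lit 519) ln8_12_5_c10 ln8_12_5_c10_ok) (L (nat_lit 455) ln8_11_5_c10 ln8_11_5_c10_ok))) (M (nat_lit 359) (B (L (nat_lit 391) ln8_15_7_c10 ln8_15_7_c10_ok) (L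 (nat_lit 327) ln8_14_7_c10 ln8_14_7_c10_ok))))))))) (B (M (nat_lit 488) (B (M (nat_lit 520) (B (M (nat_lit 391) (B (L (nat_lit 359) ln8_15_7_c10 ln8_15_7_c10_ok) (L (nat_lit 423) ln8_16_7_c10 ln8_16_7_c10_ok))) (M (nat_lit 521) (B (L (nat_lit 489) ln8_12_4_c10 ln8_12_4_c10_ok) (L (nat_lit 553) ln8_13_4_c10 ln8_13_4_c10_ok))))) (B (M (nat_lit 519) (B (L (nat_lit 487) ln8_12_5_c10 ln8_12_5_c10_ok) (M (nat_lit 520) (B (L (nat_lit 551) ln8_13_5_c10 ln8_13_5_c10_ok) (M (nat_lit 521) (B (L (nat_lit 489) ln8_12_4_c10 ln8_12_4_c10_ok) (L (nat_lit 553) ln8_13_4_c10 ln8_13_4_c10_ok))))))) (B (M (nat_lit 520) (B (M (nat_lit 391) (B (L (nat_lit 359) ln8_15_7_c10 ln8_15_7_c10_ok) (L (nat_lit 423) ln8_16_7_c10 ln8_16_7_c10_ok))) (M (nat_lit 519) (B (L (nat_lit 487) ln8_12_5_c10 ln8_12_5_c10_ok) (L (nat_lit 551) ln8_13_5_c10 ln8_13_5_c10_ok))))) (M (nat_lit 360) (B (M (nat_lit 359) (B (L (nat_lit 327) ln8_14_7_c10 ln8_14_7_c10_ok) (L (nat_lit 391) ln8_15_7_c10 ln8_15_7_c10_ok))) (M (nat_lit 487) (B (L (nat_lit 455) ln8_11_5_c10 ln8_11_5_c10_ok)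 (L (nat_lit 519) ln8_12_5_c10 ln8_12_5_c10_ok))))))))) c10_d250)))))) (nat_lit 6884616398477521846002240710895301072647623763587147770017871330163742711474072584070751406516052001954188291887831546145253368251837054976) (nat_lit 31658291440154522898614729273717998063840292222401746231508217957859216156347248722270183473352823379373504853037363119160994870844559564759642809002427897353315727338840784896) (nat_lit 31658291440154522898614729273717998063840292222401746231508217957859216156347248722270183473352823379373504853037363119160994870844559564759642809002427897353315727338840784896) (by decide +kernel)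
theorem c10_s48 : Sem (nat_lit 3995838152777652161960046248011871008627227259987808660508301736492091949787953223837199885029597501102418655962653232535866349751349306769463574528) (nat_lit 5148598247095876358438660627546897513952239170979965746462031488901029236778941860765305771926955446296215189226288818704096395571074710004150906524325117952) (nat_lit 5148598247095876358438660627546897513952239170979965746462031488901029236778941860765305771926955446296215189226288818704096395571074710004150906524325117952) :=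
  sem_of_chk (M (nat_lit 424) (B (M (nat_lit 392) (B (M (nat_lit 487) (B (L (nat_lit 489) ln7_15_2 ln7_15_2_ok) (L (nat_lit 519) ln8_12_5_c10 ln8_12_5_c10_ok))) (M (nat_lit 360) (B (M (nat_lit 361) (B (L (nat_lit 393) ln8_15_6_c10 ln8_15_6_c10_ok) (L (nat_lit 329) ln8_14_6_c10 ln8_14_6_c10_ok))) (M (nat_lit 359) (B (L (nat_lit 391) ln8_15_7_c10 ln8_15_7_c10_ok) (L (nat_lit 327) ln8_14_7_c10 ln8_14_7_c10_ok))))))) (B (K (nat_lit 3995838152777652162003369211982508740808139981615044343374496065794839083774991967284303342964060401462418256058030413443638087422621237579291295744) (nat_lit 3432398830065304857490950399649004018576442350904524260074496411111255179445787712200812954414101373106251060796313683970145572857795245180131909817048498176) (nat_lit 3432398830065304857490950399649004018576442350904524260074496411111255179445787712200812954414101373106251060796313683970145572857795245180131909817048498176) c10_s47) (M (nat_lit 393) (B (M (nat_lit 425) (B (L (nat_lit 423) ln7_13_0 ln7_13_0_ok) (L (nat_lit 520) ln8_16_6_c10 ln8_16_6_c10_ok)))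 (L (nat_lit 361) ln10_15_7 ln10_15_7_ok)))))) (nat_lit 3995838152777652161960046248011871008627227259987808660508301736492091949787953223837199885029597501102418655962653232535866349751349306769463574528) (nat_lit 5148598247095876358438660627546897513952239170979965746462031488901029236778941860765305771926955446296215189226288818704096395571074710004150906524325117952) (nat_lit 5148598247095876358438660627546897513952239170979965746462031488901029236778941860765305771926955446296215189226288818704096395571074710004150906524325117952) (by decide +kernel)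
theorem c10_s49 : Sem (nat_lit 6698545685014523518010628429549951243512482155322452956746661052173503692881960205318835978079315785409167696803853513306810592363009802240) (nat_lit 339928315513534963489347076483866596341084467418454578269320664770567070482755564416848752595021558499956494026184618144422360856285425570702412354471880872233238240750619328606355062784) (nat_lit 339928315513534963489347076483866596341084467418454578269320664770567070482755564416848752595021558499956494026184618144422360856285425570702412354471880872233238240750619328606355062784) :=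
  sem_of_chk (M (nat_lit 459) (B (K (nat_lit 8187111392371926429855643588104584529868739662010080344203152980095452954938199152290875249941103567677609341053486645714689456498412617728) (nat_lit 339928315513534963489347076483866596341084467416966012561876615930740432205484603570186992900453088435197831322484779183792243153223004077831206080426908364751606555620801001446025723904) (nat_lit 339928315513534963489347076483866596341084467416966012561876615930740432205484603570186992900453088435197831322484779183792243153223004077831206080426908364751606555620801001446025723904) c10_s38) (B (M (nat_lit 394) (B (M (nat_lit 490) (B (M (nat_lit 489) (B (M (nat_lit 491) (B (M (nat_lit 488) (B (L (nat_lit 487) ln7_15_2 ln7_15_2_ok) (M (nat_lit 456) (B (L (nat_lit 455) ln11_15_3 ln11_15_3_ok) (M (nat_lit 457) (B (L (nat_lit 492) ln8_14_0 ln8_14_0_ok) (M (nat_lit 520) (B (L (nat_lit 519) ln11_15_1 ln11_15_1_ok) (M (nat_lit 552) (B (L (nat_lit 584) ln8_18_6_c10 ln8_18_6_c10_ok) (L (nat_lit 425) ln8_17_6_c10 ln8_17_6_c10_ok))))))))))) (L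 (nat_lit 523) ln10_12_4 ln10_12_4_ok))) (L (nat_lit 521) ln10_12_5 ln10_12_5_ok))) (B (M (nat_lit 522) (B (M (nat_lit 521) (B (L (nat_lit 553) ln10_13_5 ln10_13_5_ok) (L (nat_lit 489) ln10_12_5 ln10_12_5_ok))) (L (nat_lit 554) ln10_17_6 ln10_17_6_ok))) (M (nat_lit 522) (B (M (nat_lit 523) (B (L (nat_lit 555) ln10_13_4 ln10_13_4_ok) (L (nat_lit 491) ln10_12_4 ln10_12_4_ok))) (B (M (nat_lit 491) (B (L (nat_lit 523) ln10_12_4 ln10_12_4_ok) (L (nat_lit 554) ln10_17_6 ln10_17_6_ok))) (L (nat_lit 554) ln10_17_6 ln10_17_6_ok))))))) (M (nat_lit 362) (B (L (nat_lit 331) ln10_14_6 ln10_14_6_ok) (L (nat_lit 330) ln10_10_4 ln10_10_4_ok))))) (M (nat_lit 460) (B (L (nat_lit 462) ln14_14_3 ln14_14_3_ok) (L (nat_lit 425) ln13_14_3 ln13_14_3_ok)))))) (nat_lit 6698545685014523518010628429549951243512482155322452956746661052173503692881960205318835978079315785409167696803853513306810592363009802240) (nat_lit 339928315513534963489347076483866596341084467418454578269320664770567070482755564416848752595021558499956494026184618144422360856285425570702412354471880872233238240750619328606355062784)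 (nat_lit 339928315513534963489347076483866596341084467418454578269320664770567070482755564416848752595021558499956494026184618144422360856285425570702412354471880872233238240750619328606355062784) (by decide +kernel)
theorem c10_s65 : Sem (nat_lit 5954262831162530206326612884584307553965531881701503127416631511303243940229364057432807597990462924891702776982956457266341398242220048384) (nat_lit 4795005789287445422512304300767593723741649389930782005514523996755627690063696218466201995485653276640510952185907879856893413127851204268383010816) (nat_lit 4795005789287445422512304300767593723741649389930782005514523996755627690063696218466201995485653276640510952185907879856893413127851204268383010816) :=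
  sem_of_chk (M (nat_lit 426) (B (K (nat_lit 5954262831335822062209163813307958440474474613166280444627620047251398914017777889170659199430461325273211500614043407951429121481530933248) (nat_lit 4795005774401788348006831456948730896305693011382639757014817412684603219362087058080037007904176766733433485419552530287300431454245633414785925120) (nat_lit 4795005774401788348006831456948730896305693011382639757014817412684603219362087058080037007904176766733433485419552530287300431454245633414785925120) c10_s64) (B (M (nat_lit 458) (B (L (nat_lit 490) ln10_15_6 ln10_15_6_ok) (M (nat_lit 362) (B (M (nat_lit 457) (B (L (nat_lit 428) ln13_13_1 ln13_13_1_ok) (L (nat_lit 489) ln10_11_5 ln10_11_5_ok))) (M (nat_lit 330) (B (L (nat_lit 298) ln10_9_4 ln10_9_4_ok) (M (nat_lit 329) (B (L (nat_lit 361) ln10_14_7 ln10_14_7_ok) (L (nat_lit 297) ln10_13_7_c10 ln10_13_7_c10_ok))))))))) (M (nat_lit 425) (B (M (nat_lit 428) (B (L (nat_lit 462) ln10_13_0 ln10_13_0_ok) (L (nat_lit 460) ln9_13_0 ln9_13_0_ok))) (M (nat_lit 424) (B (L (nat_lit 396) ln8_13_2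 ln8_13_2_ok) (L (nat_lit 423) ln7_13_2 ln7_13_2_ok)))))))) (nat_lit 5954262831162530206326612884584307553965531881701503127416631511303243940229364057432807597990462924891702776982956457266341398242220048384) (nat_lit 4795005789287445422512304300767593723741649389930782005514523996755627690063696218466201995485653276640510952185907879856893413127851204268383010816) (nat_lit 4795005789287445422512304300767593723741649389930782005514523996755627690063696218466201995485653276640510952185907879856893413127851204268383010816) (by decide +kernel)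
noncomputable def c10_d251 : Cert := (B (M (nat_lit 456) (B (M (nat_lit 455) (B (L (nat_lit 424) ln11_13_1_c10 ln11_13_1_c10_ok) (M (nat_lit 457) (B (L (nat_lit 458) ln7_14_2 ln7_14_2_ok) (L (nat_lit 428) ln12_13_1 ln12_13_1_ok))))) (B (M (nat_lit 393) (B (M (nat_lit 428) (B (L (nat_lit 457) ln12_13_1 ln12_13_1_ok) (L (nat_lit 392) ln12_13_3 ln12_13_3_ok))) (B (M (nat_lit 392) (B (L (nat_lit 428) ln12_13_3 ln12_13_3_ok) (M (nat_lit 391) (B (L (nat_lit 424) ln11_13_3 ln11_13_3_ok) (L (nat_lit 390) ln6_12_0_c10 ln6_12_0_c10_ok))))) (B (M (nat_lit 361) (B (M (nat_lit 329) (B (L (nat_lit 424) ln9_10_5_c10 ln9_10_5_c10_ok) (L (nat_lit 458) ln9_10_4_c10 ln9_10_4_c10_ok))) (B (M (nat_lit 488) (B (L (nat_lit 457) ln9_11_5_c10 ln9_11_5_c10_ok) (M (nat_lit 424) (B (L (nat_lit 520) ln8_16_6_c10 ln8_16_6_c10_ok) (L (nat_lit 329) ln9_10_5_c10 ln9_10_5_c10_ok))))) (B (M (nat_lit 457) (B (L (nat_lit 488) ln9_11_5_c10 ln9_11_5_c10_ok) (M (nat_lit 458) (B (L (nat_lit 490) ln9_11_4 ln9_11_4_ok) (L (nat_lit 329) ln9_10_4_c10 ln9_10_4_c10_ok)))))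 (M (nat_lit 488) (B (L (nat_lit 457) ln9_11_5_c10 ln9_11_5_c10_ok) (M (nat_lit 424) (B (L (nat_lit 520) ln8_16_6_c10 ln8_16_6_c10_ok) (L (nat_lit 392) ln8_15_6_c10 ln8_15_6_c10_ok))))))))) (M (nat_lit 361) (B (M (nat_lit 457) (B (L (nat_lit 488) ln9_11_5_c10 ln9_11_5_c10_ok) (L (nat_lit 428) ln12_13_1 ln12_13_1_ok))) (M (nat_lit 329) (B (L (nat_lit 424) ln9_10_5_c10 ln9_10_5_c10_ok) (L (nat_lit 458) ln9_10_4_c10 ln9_10_4_c10_ok))))))))) (B (M (nat_lit 424) (B (L (nat_lit 455) ln11_13_1_c10 ln11_13_1_c10_ok) (M (nat_lit 392) (B (L (nat_lit 391) ln11_13_3 ln11_13_3_ok) (M (nat_lit 393) (B (L (nat_lit 428) ln12_13_3 ln12_13_3_ok) (M (nat_lit 361) (B (L (nat_lit 488) ln8_15_6_c10 ln8_15_6_c10_ok) (L (nat_lit 329) ln9_10_5_c10 ln9_10_5_c10_ok))))))))) (B (M (nat_lit 457) (B (L (nat_lit 428) ln12_13_1 ln12_13_1_ok) (M (nat_lit 455) (B (L (nat_lit 454) ln6_14_2_c10 ln6_14_2_c10_ok) (L (nat_lit 458) ln7_14_2 ln7_14_2_ok))))) (M (nat_lit 455) (B (L (nat_lit 424) ln11_13_1_c10 ln11_13_1_c10_ok) (M (nat_lit 457) (B (L (nat_lit 454) ln6_14_2_c10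 ln6_14_2_c10_ok) (L (nat_lit 458) ln7_14_2 ln7_14_2_ok)))))))))) (B (M (nat_lit 424) (B (M (nat_lit 392) (B (L (nat_lit 391) ln11_13_3 ln11_13_3_ok) (M (nat_lit 428) (B (L (nat_lit 393) ln12_13_3 ln12_13_3_ok) (M (nat_lit 456) (B (L (nat_lit 455) ln11_13_1_c10 ln11_13_1_c10_ok) (L (nat_lit 457) ln12_13_1 ln12_13_1_ok))))))) (B (M (nat_lit 428) (B (M (nat_lit 392) (B (L (nat_lit 391) ln11_13_3 ln11_13_3_ok) (L (nat_lit 393) ln12_13_3 ln12_13_3_ok))) (L (nat_lit 460) ln9_13_0 ln9_13_0_ok))) (B (M (nat_lit 428) (B (M (nat_lit 456) (B (L (nat_lit 455) ln11_13_1_c10 ln11_13_1_c10_ok) (L (nat_lit 457) ln12_13_1 ln12_13_1_ok))) (L (nat_lit 460) ln9_13_0 ln9_13_0_ok))) (M (nat_lit 423) (B (M (nat_lit 455) (B (L (nat_lit 454) ln10_13_1_c10 ln10_13_1_c10_ok) (L (nat_lit 456) ln11_13_1_c10 ln11_13_1_c10_ok))) (M (nat_lit 391) (B (L (nat_lit 390) ln10_13_3_c10 ln10_13_3_c10_ok) (L (nat_lit 392) ln11_13_3 ln11_13_3_ok))))))))) (B (M (nat_lit 424) (B (M (nat_lit 423) (B (M (nat_lit 391) (B (L (nat_lit 390) ln10_13_3_c10 ln10_13_3_c10_ok)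 (L (nat_lit 392) ln11_13_3 ln11_13_3_ok))) (M (nat_lit 459) (B (L (nat_lit 458) ln7_13_0 ln7_13_0_ok) (L (nat_lit 460) ln8_13_0 ln8_13_0_ok))))) (B (M (nat_lit 428) (B (M (nat_lit 456) (B (L (nat_lit 455) ln11_13_1_c10 ln11_13_1_c10_ok) (L (nat_lit 457) ln12_13_1 ln12_13_1_ok))) (L (nat_lit 460) ln9_13_0 ln9_13_0_ok))) (M (nat_lit 428) (B (M (nat_lit 456) (B (L (nat_lit 455) ln11_13_1_c10 ln11_13_1_c10_ok) (L (nat_lit 457) ln12_13_1 ln12_13_1_ok))) (M (nat_lit 392) (B (L (nat_lit 391) ln11_13_3 ln11_13_3_ok) (L (nat_lit 393) ln12_13_3 ln12_13_3_ok)))))))) (B (M (nat_lit 456) (B (M (nat_lit 457) (B (L (nat_lit 428) ln12_13_1 ln12_13_1_ok) (M (nat_lit 455) (B (L (nat_lit 454) ln6_14_2_c10 ln6_14_2_c10_ok) (L (nat_lit 424) ln11_13_1_c10 ln11_13_1_c10_ok))))) (B (M (nat_lit 424) (B (L (nat_lit 455) ln11_13_1_c10 ln11_13_1_c10_ok) (M (nat_lit 392) (B (L (nat_lit 391) ln11_13_3 ln11_13_3_ok) (M (nat_lit 393) (B (L (nat_lit 428) ln12_13_3 ln12_13_3_ok) (M (nat_lit 488) (B (L (nat_lit 520) ln8_16_6_c10 ln8_16_6_c10_ok) (L (nat_lit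 361) ln8_15_6_c10 ln8_15_6_c10_ok))))))))) (B (M (nat_lit 393) (B (M (nat_lit 428) (B (L (nat_lit 457) ln12_13_1 ln12_13_1_ok) (L (nat_lit 392) ln12_13_3 ln12_13_3_ok))) (B (M (nat_lit 392) (B (L (nat_lit 428) ln12_13_3 ln12_13_3_ok) (M (nat_lit 424) (B (L (nat_lit 391) ln11_13_3 ln11_13_3_ok) (M (nat_lit 361) (B (L (nat_lit 488) ln8_15_6_c10 ln8_15_6_c10_ok) (L (nat_lit 329) ln9_10_5_c10 ln9_10_5_c10_ok))))))) (B (M (nat_lit 361) (B (M (nat_lit 329) (B (L (nat_lit 458) ln9_10_4_c10 ln9_10_4_c10_ok) (L (nat_lit 424) ln9_10_5_c10 ln9_10_5_c10_ok))) (B (M (nat_lit 424) (B (L (nat_lit 329) ln9_10_5_c10 ln9_10_5_c10_ok) (M (nat_lit 488) (B (L (nat_lit 457) ln9_11_5_c10 ln9_11_5_c10_ok) (L (nat_lit 392) ln8_15_6_c10 ln8_15_6_c10_ok))))) (B (M (nat_lit 458) (B (L (nat_lit 329) ln9_10_4_c10 ln9_10_4_c10_ok) (M (nat_lit 457) (B (L (nat_lit 490) ln9_11_4 ln9_11_4_ok) (L (nat_lit 488) ln9_11_5_c10 ln9_11_5_c10_ok))))) (M (nat_lit 488) (B (L (nat_lit 457) ln9_11_5_c10 ln9_11_5_c10_ok) (M (nat_lit 424) (B (L (nat_lit 520) ln8_16_6_c10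 ln8_16_6_c10_ok) (L (nat_lit 392) ln8_15_6_c10 ln8_15_6_c10_ok))))))))) (M (nat_lit 361) (B (M (nat_lit 457) (B (L (nat_lit 488) ln9_11_5_c10 ln9_11_5_c10_ok) (L (nat_lit 428) ln12_13_1 ln12_13_1_ok))) (M (nat_lit 329) (B (L (nat_lit 458) ln9_10_4_c10 ln9_10_4_c10_ok) (L (nat_lit 424) ln9_10_5_c10 ln9_10_5_c10_ok))))))))) (B (M (nat_lit 455) (B (L (nat_lit 424) ln11_13_1_c10 ln11_13_1_c10_ok) (M (nat_lit 457) (B (L (nat_lit 458) ln7_14_2 ln7_14_2_ok) (L (nat_lit 454) ln6_14_2_c10 ln6_14_2_c10_ok))))) (M (nat_lit 457) (B (L (nat_lit 428) ln12_13_1 ln12_13_1_ok) (M (nat_lit 455) (B (L (nat_lit 458) ln7_14_2 ln7_14_2_ok) (L (nat_lit 454) ln6_14_2_c10 ln6_14_2_c10_ok)))))))))) (B (M (nat_lit 460) (B (L (nat_lit 428) ln9_13_0 ln9_13_0_ok) (M (nat_lit 459) (B (L (nat_lit 424) ln8_13_0 ln8_13_0_ok) (L (nat_lit 458) ln13_14_3 ln13_14_3_ok))))) (M (nat_lit 460) (B (L (nat_lit 428) ln9_13_0 ln9_13_0_ok) (M (nat_lit 459) (B (L (nat_lit 458) ln13_14_3 ln13_14_3_ok) (L (nat_lit 462) ln14_14_3 ln14_14_3_ok))))))))))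
theorem c10_s69 : Sem (nat_lit 5954262831162530206286265230239199607252158144638956066880229858290287322841385004986859978896449781225614568337954303650155411180145868800) (nat_lit 36855101830640855999467475120568667279620455793787138823830589112930043192584574387574669061481492954243622291354600128270749690059738259342200347068057061957560172544) (nat_lit 36855101830640855999467475120568667279620455793787138823830589112930043192584574387574669061481492954243622291354600128270749690059738259342200347068057061957560172544) :=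
  sem_of_chk (M (nat_lit 426) (B (K (nat_lit 5954262831335822062168816158962850493761100876103733384091218394238442296629798836724711580336448181607123291969041254335243134419456753664) (nat_lit 13729595325056225206179779402076437136332843899646366012762921032018968449859184963036882193683268548248496767743092706825585273446720363869331131038647189504) (nat_lit 13729595325056225206179779402076437136332843899646366012762921032018968449859184963036882193683268548248496767743092706825585273446720363869331131038647189504) c10_s67) (B (M (nat_lit 425) (B (M (nat_lit 424) (B (M (nat_lit 391) (B (L (nat_lit 392) ln11_13_3 ln11_13_3_ok) (M (nat_lit 423) (B (L (nat_lit 390) ln10_13_3_c10 ln10_13_3_c10_ok) (M (nat_lit 455) (B (L (nat_lit 456) ln11_13_1_c10 ln11_13_1_c10_ok) (L (nat_lit 454) ln10_13_1_c10 ln10_13_1_c10_ok))))))) (B (M (nat_lit 423) (B (M (nat_lit 459) (B (L (nat_lit 460) ln8_13_0 ln8_13_0_ok) (L (nat_lit 458) ln7_13_0 ln7_13_0_ok))) (M (nat_lit 455) (B (L (nat_lit 456) ln11_13_1_c10 ln11_13_1_c10_ok) (L (nat_lit 454)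 ln10_13_1_c10 ln10_13_1_c10_ok))))) (B (M (nat_lit 423) (B (M (nat_lit 459) (B (L (nat_lit 460) ln8_13_0 ln8_13_0_ok) (L (nat_lit 458) ln7_13_0 ln7_13_0_ok))) (M (nat_lit 391) (B (L (nat_lit 392) ln11_13_3 ln11_13_3_ok) (L (nat_lit 390) ln10_13_3_c10 ln10_13_3_c10_ok))))) (M (nat_lit 428) (B (L (nat_lit 460) ln9_13_0 ln9_13_0_ok) (M (nat_lit 392) (B (L (nat_lit 393) ln12_13_3 ln12_13_3_ok) (L (nat_lit 391) ln11_13_3 ln11_13_3_ok))))))))) (B (M (nat_lit 424) (B (M (nat_lit 423) (B (M (nat_lit 459) (B (L (nat_lit 460) ln8_13_0 ln8_13_0_ok) (L (nat_lit 458) ln7_13_0 ln7_13_0_ok))) (M (nat_lit 391) (B (L (nat_lit 392) ln11_13_3 ln11_13_3_ok) (L (nat_lit 390) ln10_13_3_c10 ln10_13_3_c10_ok))))) (B (M (nat_lit 455) (B (L (nat_lit 456) ln11_13_1_c10 ln11_13_1_c10_ok) (M (nat_lit 423) (B (L (nat_lit 454) ln10_13_1_c10 ln10_13_1_c10_ok) (M (nat_lit 391) (B (L (nat_lit 392) ln11_13_3 ln11_13_3_ok) (L (nat_lit 390) ln10_13_3_c10 ln10_13_3_c10_ok))))))) (B (M (nat_lit 423) (B (M (nat_lit 459) (B (L (nat_lit 460) ln8_13_0 ln8_13_0_ok) (L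 (nat_lit 458) ln7_13_0 ln7_13_0_ok))) (M (nat_lit 455) (B (L (nat_lit 456) ln11_13_1_c10 ln11_13_1_c10_ok) (L (nat_lit 454) ln10_13_1_c10 ln10_13_1_c10_ok))))) (M (nat_lit 428) (B (L (nat_lit 460) ln9_13_0 ln9_13_0_ok) (M (nat_lit 456) (B (L (nat_lit 457) ln12_13_1 ln12_13_1_ok) (L (nat_lit 455) ln11_13_1_c10 ln11_13_1_c10_ok))))))))) (B (M (nat_lit 424) (B (M (nat_lit 459) (B (L (nat_lit 460) ln8_13_0 ln8_13_0_ok) (M (nat_lit 455) (B (L (nat_lit 456) ln11_13_1_c10 ln11_13_1_c10_ok) (M (nat_lit 423) (B (L (nat_lit 454) ln10_13_1_c10 ln10_13_1_c10_ok) (L (nat_lit 458) ln7_13_0 ln7_13_0_ok))))))) (B (M (nat_lit 423) (B (M (nat_lit 391) (B (L (nat_lit 390) ln10_13_3_c10 ln10_13_3_c10_ok) (L (nat_lit 392) ln11_13_3 ln11_13_3_ok))) (M (nat_lit 459) (B (L (nat_lit 458) ln7_13_0 ln7_13_0_ok) (L (nat_lit 460) ln8_13_0 ln8_13_0_ok))))) (M (nat_lit 456) (B (L (nat_lit 455) ln11_13_1_c10 ln11_13_1_c10_ok) (M (nat_lit 392) (B (L (nat_lit 391) ln11_13_3 ln11_13_3_ok) (M (nat_lit 488) (B (M (nat_lit 393) (B (L (nat_lit 520) ln8_16_6_c10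 ln8_16_6_c10_ok) (L (nat_lit 361) ln8_15_6_c10 ln8_15_6_c10_ok))) (B (M (nat_lit 360) (B (M (nat_lit 489) (B (L (nat_lit 521) ln8_12_4_c10 ln8_12_4_c10_ok) (L (nat_lit 457) ln8_11_4_c10 ln8_11_4_c10_ok))) (M (nat_lit 361) (B (L (nat_lit 393) ln8_15_6_c10 ln8_15_6_c10_ok) (L (nat_lit 329) ln8_14_6_c10 ln8_14_6_c10_ok))))) (M (nat_lit 520) (B (M (nat_lit 519) (B (L (nat_lit 551) ln8_13_5_c10 ln8_13_5_c10_ok) (L (nat_lit 487) ln8_12_5_c10 ln8_12_5_c10_ok))) (M (nat_lit 521) (B (L (nat_lit 553) ln8_13_4_c10 ln8_13_4_c10_ok) (L (nat_lit 489) ln8_12_4_c10 ln8_12_4_c10_ok))))))))))))))) c10_d251)))) (B (K (nat_lit 5954262831335822062168816158962850493761100876103733384091218394238442296629798836724711580336448181607123291969041254335243134419456753664) (nat_lit 12234149408188452979393218309572768827582243762788600183996496960120205910484356899046288311004763577896008530207921478663161363585547894784) (nat_lit 12234149408188452979393218309572768827582243762788600183996496960120205910484356899046288311004763577896008530207921478663161363585547894784)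 c10_s68) (M (nat_lit 458) (B (M (nat_lit 490) (B (L (nat_lit 394) ln10_15_6 ln10_15_6_ok) (L (nat_lit 522) ln10_16_6 ln10_16_6_ok))) (M (nat_lit 428) (B (L (nat_lit 462) ln10_13_0 ln10_13_0_ok) (L (nat_lit 457) ln13_13_1 ln13_13_1_ok))))))))) (nat_lit 5954262831162530206286265230239199607252158144638956066880229858290287322841385004986859978896449781225614568337954303650155411180145868800) (nat_lit 36855101830640855999467475120568667279620455793787138823830589112930043192584574387574669061481492954243622291354600128270749690059738259342200347068057061957560172544) (nat_lit 36855101830640855999467475120568667279620455793787138823830589112930043192584574387574669061481492954243622291354600128270749690059738259342200347068057061957560172544) (by decide +kernel)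
theorem c10_s75 : Sem (nat_lit 5954262831162530206286265230239199607252158144638956066880229858290287322841385004986859978896449781225614568337954303650155411180145868800) (nat_lit 294840814537006284825906420405020742800928828050948023087106506677134747576115612518959346856057998304244900159868529646128526198375229248977790906881013556320445399040) (nat_lit 294840814537006284825906420405020742800928828050948023087106506677134747576115612518959346856057998304244900159868529646128526198375229248977790906881013556320445399040) :=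
  sem_of_chk (M (nat_lit 426) (B (M (nat_lit 459) (B (K (nat_lit 7442828538693224974013831317517483780117358382791360771547710322160391558686037783696750852198235963875564936218674386743121998554859569152) (nat_lit 1716199424223080164504135240793070520584939410064935701858969045069564628576697911981183215317126503914517604119764642302507352512955592048735528955729149952) (nat_lit 1716199424223080164504135240793070520584939410064935701858969045069564628576697911981183215317126503914517604119764642302507352512955592048735528955729149952) c10_s70) (B (K (nat_lit 7442828538693224974013831317517483780117358382791360771547710322160391558686037783696750852198235963875564936218674386743121998554859569152) (nat_lit 294840814535290085408076681258120150604567264330004266402857846541881045645541558718238431261430083117408900217079354186965516129383781524747522479471302778612432764928) (nat_lit 294840814535290085408076681258120150604567264330004266402857846541881045645541558718238431261430083117408900217079354186965516129383781524747522479471302778612432764928)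 c10_s74) (M (nat_lit 460) (B (L (nat_lit 462) ln14_14_3 ln14_14_3_ok) (L (nat_lit 492) ln11_11_4 ln11_11_4_ok)))))) (B (M (nat_lit 425) (B (M (nat_lit 428) (B (M (nat_lit 424) (B (L (nat_lit 396) ln8_13_2 ln8_13_2_ok) (L (nat_lit 460) ln9_13_0 ln9_13_0_ok))) (B (M (nat_lit 424) (B (L (nat_lit 396) ln8_13_2 ln8_13_2_ok) (M (nat_lit 456) (B (L (nat_lit 457) ln12_13_1 ln12_13_1_ok) (L (nat_lit 455) ln11_13_1_c10 ln11_13_1_c10_ok))))) (L (nat_lit 460) ln9_13_0 ln9_13_0_ok)))) (B (M (nat_lit 424) (B (L (nat_lit 396) ln8_13_2 ln8_13_2_ok) (M (nat_lit 455) (B (L (nat_lit 456) ln11_13_1_c10 ln11_13_1_c10_ok) (M (nat_lit 391) (B (L (nat_lit 392) ln11_13_3 ln11_13_3_ok) (M (nat_lit 423) (B (L (nat_lit 454) ln10_13_1_c10 ln10_13_1_c10_ok) (L (nat_lit 390) ln10_13_3_c10 ln10_13_3_c10_ok))))))))) (M (nat_lit 428) (B (M (nat_lit 393) (B (L (nat_lit 394) ln13_13_3 ln13_13_3_ok) (L (nat_lit 392) ln12_13_3 ln12_13_3_ok))) (L (nat_lit 460) ln9_13_0 ln9_13_0_ok)))))) (B (K (nat_lit 5954262831335822062168816158962850493761100876103733384091218394238442296629798836724711580336448181607123291969041254335243134419456753664)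 (nat_lit 54918381293831559798649357102650829706256033893211708034092385184661114129368141323552855875875515399259918302951605183372458581366805704345476018342130089984) (nat_lit 54918381293831559798649357102650829706256033893211708034092385184661114129368141323552855875875515399259918302951605183372458581366805704345476018342130089984) c10_s73) (B (M (nat_lit 459) (B (K (nat_lit 7442828538693224974013831317517483780117358382791360771547710322160391558686037783696750852198235963875564936218674386743121998554859569152) (nat_lit 294840814535290085408076681258120150604567264330004266402857846541881045645541558718238431261430083117408900217079354186965516129383781524747522479471302778612432764928) (nat_lit 294840814535290085408076681258120150604567264330004266402857846541881045645541558718238431261430083117408900217079354186965516129383781524747522479471302778612432764928) c10_s74) (B (M (nat_lit 394) (B (M (nat_lit 428) (B (L (nat_lit 462) ln10_13_0 ln10_13_0_ok) (L (nat_lit 393) ln13_13_3 ln13_13_3_ok))) (M (nat_lit 491) (B (L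 (nat_lit 523) ln11_16_7 ln11_16_7_ok) (L (nat_lit 362) ln11_15_7 ln11_15_7_ok))))) (M (nat_lit 460) (B (L (nat_lit 462) ln14_14_3 ln14_14_3_ok) (L (nat_lit 492) ln11_11_4 ln11_11_4_ok)))))) (K (nat_lit 5954262831335822062168816158962850493761100876103733384091218394238442296629798836724711580336448181607123291969041254335243134419456753664) (nat_lit 12234149408188452979393218309572768827582243762788600183996496960120205910484356899046288311004763577896008530207921478663161363585547894784) (nat_lit 12234149408188452979393218309572768827582243762788600183996496960120205910484356899046288311004763577896008530207921478663161363585547894784) c10_s68)))))) (nat_lit 5954262831162530206286265230239199607252158144638956066880229858290287322841385004986859978896449781225614568337954303650155411180145868800) (nat_lit 294840814537006284825906420405020742800928828050948023087106506677134747576115612518959346856057998304244900159868529646128526198375229248977790906881013556320445399040) (nat_lit 294840814537006284825906420405020742800928828050948023087106506677134747576115612518959346856057998304244900159868529646128526198375229248977790906881013556320445399040)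 (by decide +kernel)
theorem c10_s77 : Sem (nat_lit 7442828538519933118131280388793832893608415651326583454336721786212236584897623951958899250758237563494056212587587436058034275315548684288) (nat_lit 5594173415516831767515619254948884627131496619889049474097145503527912348745200832582722642505607260041579173786688002516802584410574164248504565760) (nat_lit 5594173415516831767515619254948884627131496619889049474097145503527912348745200832582722642505607260041579173786688002516802584410574164248504565760) :=
  sem_of_chk (M (nat_lit 426) (B (M (nat_lit 458) (B (M (nat_lit 425) (B (M (nat_lit 424) (B (L (nat_lit 423) ln7_13_0 ln7_13_0_ok) (M (nat_lit 392) (B (L (nat_lit 391) ln11_13_3 ln11_13_3_ok) (M (nat_lit 456) (B (L (nat_lit 455) ln11_13_1_c10 ln11_13_1_c10_ok) (M (nat_lit 393) (B (M (nat_lit 361) (B (L (nat_lit 488) ln8_15_6_c10 ln8_15_6_c10_ok) (L (nat_lit 329) ln9_10_4_c10 ln9_10_4_c10_ok))) (M (nat_lit 360) (B (M (nat_lit 457) (B (L (nat_lit 489) ln8_11_4_c10 ln8_11_4_c10_ok) (L (nat_lit 328) ln8_10_4_c10 ln8_10_4_c10_ok)))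 (M (nat_lit 359) (B (L (nat_lit 327) ln8_14_7_c10 ln8_14_7_c10_ok) (L (nat_lit 394) ln11_12_3 ln11_12_3_ok))))))))))))) (B (M (nat_lit 362) (B (M (nat_lit 361) (B (M (nat_lit 360) (B (L (nat_lit 396) ln8_11_0 ln8_11_0_ok) (M (nat_lit 327) (B (L (nat_lit 328) ln11_11_3 ln11_11_3_ok) (M (nat_lit 391) (B (L (nat_lit 392) ln11_11_1 ln11_11_1_ok) (M (nat_lit 359) (B (L (nat_lit 326) ln10_11_3 ln10_11_3_ok) (L (nat_lit 390) ln10_11_1 ln10_11_1_ok))))))))) (M (nat_lit 329) (B (L (nat_lit 393) ln9_10_4_c10 ln9_10_4_c10_ok) (L (nat_lit 394) ln10_14_7 ln10_14_7_ok))))) (L (nat_lit 330) ln11_14_7 ln11_14_7_ok))) (M (nat_lit 424) (B (L (nat_lit 396) ln8_13_2 ln8_13_2_ok) (L (nat_lit 423) ln7_13_0 ln7_13_0_ok)))))) (L (nat_lit 490) ln11_11_5 ln11_11_5_ok))) (B (K (nat_lit 7442828538693224974013831317517483780117358382791360771547710322160391558686037783696750852198235963875564936218674386743121998554859569152) (nat_lit 12234149408188452979393218309572768827582243762788600183996496960120205910484356899046288311004763577896008530207921478663161363585547894784)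 (nat_lit 12234149408188452979393218309572768827582243762788600183996496960120205910484356899046288311004763577896008530207921478663161363585547894784) c10_s76) (M (nat_lit 458) (B (M (nat_lit 428) (B (L (nat_lit 462) ln10_13_0 ln10_13_0_ok) (L (nat_lit 457) ln13_13_1 ln13_13_1_ok))) (L (nat_lit 490) ln11_11_5 ln11_11_5_ok)))))) (nat_lit 7442828538519933118131280388793832893608415651326583454336721786212236584897623951958899250758237563494056212587587436058034275315548684288) (nat_lit 5594173415516831767515619254948884627131496619889049474097145503527912348745200832582722642505607260041579173786688002516802584410574164248504565760) (nat_lit 5594173415516831767515619254948884627131496619889049474097145503527912348745200832582722642505607260041579173786688002516802584410574164248504565760) (by decide +kernel)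
theorem c10_s81 : Sem (nat_lit 5954262831162530206286265230239199607252158144638956066880229858290287322841385004986859978896449781225614568337954303650155411180145868800) (nat_lit 13729595323457889961815082746692144840696633821694836568453126515944781934013276067104515873984236733310642736188154414271116039368270310037102250287133884416) (nat_lit 13729595323457889961815082746692144840696633821694836568453126515944781934013276067104515873984236733310642736188154414271116039368270310037102250287133884416) :=
  sem_of_chk (M (nat_lit 426) (B (K (nat_lit 5954262831335822062168816158962850493761100876103733384091218394238442296629798836724711580336448181607123291969041254335243134419456753664) (nat_lit 4419179444562087692206888727160944074211891852678556399849914338529972284689102427443082133730377720986689897897347533521797326874683113472) (nat_lit 4419179444562087692206888727160944074211891852678556399849914338529972284689102427443082133730377720986689897897347533521797326874683113472) c10_s72) (B (M (nat_lit 458) (B (M (nat_lit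 490) (B (L (nat_lit 394) ln10_15_6 ln10_15_6_ok) (L (nat_lit 522) ln10_16_6 ln10_16_6_ok))) (L (nat_lit 331) ln11_10_5 ln11_10_5_ok))) (M (nat_lit 428) (B (M (nat_lit 460) (B (L (nat_lit 331) ln11_10_4 ln11_10_4_ok) (L (nat_lit 425) ln9_13_0 ln9_13_0_ok))) (L (nat_lit 462) ln10_13_0 ln10_13_0_ok)))))) (nat_lit 5954262831162530206286265230239199607252158144638956066880229858290287322841385004986859978896449781225614568337954303650155411180145868800) (nat_lit 13729595323457889961815082746692144840696633821694836568453126515944781934013276067104515873984236733310642736188154414271116039368270310037102250287133884416) (nat_lit 13729595323457889961815082746692144840696633821694836568453126515944781934013276067104515873984236733310642736188154414271116039368270310037102250287133884416) (by decide +kernel)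
theorem c10_s101 : Sem (nat_lit 5954262830815946494440468064139258622131906539230539000934078872806075061271132354550578193372942037532254438881195279021764289825886699520) (nat_lit 235872651647453501779302391019306320913314558527109145960185757239953768458770608157000334790707753547796081634533356559677852962308789462047525934169661261862171312128) (nat_lit 235872651647453501779302391019306320913314558527109145960185757239953768458770608157000334790707753547796081634533356559677852962308789462047525934169661261862171312128) :=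
  sem_of_chk (M (nat_lit 428) (B (K (nat_lit 5954262831509113917970671779033862168167677465089648269778033016598694956424787681501984599132935639058289333405543081762115182783130238976) (nat_lit 14699586360760875250371147262434368392591112405266520510392034555821141673283136536660133602502622416947665228000592404641960204154051756032) (nat_lit 14699586360760875250371147262434368392591112405266520510392034555821141673283136536660133602502622416947665228000592404641960204154051756032) c10_s92) (B (K (nat_lit 5954262831509113917970671779033862168167677465089648269778033016598694956424787681501984599132935639058289333405543081762115182783130238976) (nat_lit 68647976623682790847611912033988241958312283653824606504117640592599093716284295765739040000251943936220207078795049855488819682483546115022670899889097932800) (nat_lit 68647976623682790847611912033988241958312283653824606504117640592599093716284295765739040000251943936220207078795049855488819682483546115022670899889097932800) c10_s100) (B (K (nat_lit 5954262831509113917970671779033862168167677465089648269778033016598694956424787681501984599132935639058289333405543081762115182783130238976)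 (nat_lit 235872651633723906455844501024882345640149228378756387615330470181321021580930254370118953782443117031057694784684549497976009591269519395912227312378866484279454466048) (nat_lit 235872651633723906455844501024882345640149228378756387615330470181321021580930254370118953782443117031057694784684549497976009591269519395912227312378866484279454466048) c10_s94) (B (M (nat_lit 396) (B (L (nat_lit 332) ln12_10_4 ln12_10_4_ok) (K (nat_lit 5954262831509113918132062396414293955021172413339836511923639628650521425976703891285775075508988213722642167985551696226859131031426957312) (nat_lit 235872651633723906455844501001065294322430781789074754461075905812763032024228461904820731319185867125875249084486344246938500959097280347339689827541613683510666592256) (nat_lit 235872651633723906455844501001065294322430781789074754461075905812763032024228461904820731319185867125875249084486344246938500959097280347339689827541613683510666592256) c10_s95))) (M (nat_lit 396) (B (M (nat_lit 460) (B (L (nat_lit 333) ln12_14_6 ln12_14_6_ok) (L (nat_lit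 331) ln12_14_7 ln12_14_7_ok))) (L (nat_lit 332) ln12_10_4 ln12_10_4_ok)))))))) (nat_lit 5954262830815946494440468064139258622131906539230539000934078872806075061271132354550578193372942037532254438881195279021764289825886699520) (nat_lit 235872651647453501779302391019306320913314558527109145960185757239953768458770608157000334790707753547796081634533356559677852962308789462047525934169661261862171312128) (nat_lit 235872651647453501779302391019306320913314558527109145960185757239953768458770608157000334790707753547796081634533356559677852962308789462047525934169661261862171312128) (by decide +kernel)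
theorem c10_s110 : Sem (nat_lit 8931394246223919741660702096143128740880192478464903044691016872442593480537265575446063142856511203595172621904809346577872911053935869952) (nat_lit 117936325803132358280073146206843013007679190477221623363617408218589464219417533674716048631552093212757485967795479957003747511300061674941715621948272144294017499136) (nat_lit 117936325803132358280073146206843013007679190477221623363617408218589464219417533674716048631552093212757485967795479957003747511300061674941715621948272144294017499136) :=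
  sem_of_chk (M (nat_lit 462) (B (M (nat_lit 427) (B (L (nat_lit 426) ln10_13_0 ln10_13_0_ok) (L (nat_lit 463) ln15_14_3 ln15_14_3_ok))) (B (M (nat_lit 463) (B (L (nat_lit 427) ln15_14_3 ln15_14_3_ok) (L (nat_lit 464) ln16_14_3 ln16_14_3_ok))) (B (M (nat_lit 463) (B (L (nat_lit 464) ln16_14_3 ln16_14_3_ok) (M (nat_lit 459) (B (M (nat_lit 491) (B (L (nat_lit 490) ln14_14_1 ln14_14_1_ok) (L (nat_lit 492) ln15_14_1 ln15_14_1_ok))) (M (nat_lit 495) (B (L (nat_lit 494) ln11_14_0 ln11_14_0_ok) (L (nat_lit 496) ln12_14_0 ln12_14_0_ok))))))) (K (nat_lit 20839919905083143036420823364580195031730252531965922144342952295818187576987177151222377317750813461742705775901874405840903824137158393856) (nat_lit 117936325803132357909259366322748512183232982070149308022516462404323110661256299685012344043955895117237664791067450430494749517942165302949367864018476070889087565824) (nat_lit 117936325803132357909259366322748512183232982070149308022516462404323110661256299685012344043955895117237664791067450430494749517942165302949367864018476070889087565824)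 c10_s8))))) (nat_lit 8931394246223919741660702096143128740880192478464903044691016872442593480537265575446063142856511203595172621904809346577872911053935869952) (nat_lit 117936325803132358280073146206843013007679190477221623363617408218589464219417533674716048631552093212757485967795479957003747511300061674941715621948272144294017499136) (nat_lit 117936325803132358280073146206843013007679190477221623363617408218589464219417533674716048631552093212757485967795479957003747511300061674941715621948272144294017499136) (by decide +kernel)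
noncomputable def c10_d252 : Cert := (B (M (nat_lit 269) (B (M (nat_lit 299) (B (M (nat_lit 298) (B (L (nat_lit 270) ln14_8_1_c10 ln14_8_1_c10_ok) (M (nat_lit 266) (B (L (nat_lit 234) ln11_11_7 ln11_11_7_ok) (L (nat_lit 297) ln13_8_1_c10 ln13_8_1_c10_ok))))) (B (M (nat_lit 298) (B (L (nat_lit 270) ln14_8_1_c10 ln14_8_1_c10_ok) (M (nat_lit 297) (B (L (nat_lit 266) ln13_8_1_c10 ln13_8_1_c10_ok) (L (nat_lit 296) ln8_9_0 ln8_9_0_ok))))) (B (M (nat_lit 266) (B (L (nat_lit 234) ln11_11_7 ln11_11_7_ok) (M (nat_lit 298) (B (L (nat_lit 297) ln13_8_1_c10 ln13_8_1_c10_ok) (L (nat_lit 395) ln11_12_7 ln11_12_7_ok))))) (L (nat_lit 235) ln11_7_4 ln11_7_4_ok))))) (B (M (nat_lit 266) (B (M (nat_lit 234) (B (L (nat_lit 233) ln13_8_3_c10 ln13_8_3_c10_ok) (L (nat_lit 299) ln11_11_7 ln11_11_7_ok))) (M (nat_lit 237) (B (L (nat_lit 238) ln10_8_2_c10 ln10_8_2_c10_ok) (L (nat_lit 301) ln13_7_5 ln13_7_5_ok))))) (B (M (nat_lit 266) (B (M (nat_lit 298) (B (L (nat_lit 297) ln13_8_1_c10 ln13_8_1_c10_ok) (M (nat_lit 299) (B (L (nat_lit 270) ln14_8_1_c10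 ln14_8_1_c10_ok) (L (nat_lit 395) ln11_12_7 ln11_12_7_ok))))) (M (nat_lit 237) (B (L (nat_lit 238) ln10_8_2_c10 ln10_8_2_c10_ok) (L (nat_lit 301) ln13_7_5 ln13_7_5_ok))))) (B (M (nat_lit 270) (B (M (nat_lit 235) (B (L (nat_lit 234) ln14_8_3_c10 ln14_8_3_c10_ok) (L (nat_lit 299) ln11_7_4 ln11_7_4_ok))) (M (nat_lit 271) (B (M (nat_lit 239) (B (L (nat_lit 240) ln12_8_2_c10 ln12_8_2_c10_ok) (L (nat_lit 238) ln11_8_2_c10 ln11_8_2_c10_ok))) (M (nat_lit 303) (B (L (nat_lit 304) ln12_8_0_c10 ln12_8_0_c10_ok) (L (nat_lit 302) ln11_8_0_c10 ln11_8_0_c10_ok))))))) (K (nat_lit 5954262831509113917970671779033862168198298975236610436720908043169647820517324367175574123089880906048195298520404008611581809887971115008) (nat_lit 28518503670698513898844055598200972143161268506454763459648801165136767819225146412603801600) (nat_lit 28518503670698513898844055598200972143161268506454763459648801165136767819225146412603801600) c10_s113)))))) (B (M (nat_lit 269) (B (M (nat_lit 299) (B (L (nat_lit 236) ln11_11_6 ln11_11_6_ok) (M (nat_lit 298) (B (L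 (nat_lit 270) ln14_8_1_c10 ln14_8_1_c10_ok) (M (nat_lit 297) (B (L (nat_lit 266) ln13_8_1_c10 ln13_8_1_c10_ok) (L (nat_lit 296) ln8_9_0 ln8_9_0_ok))))))) (B (M (nat_lit 266) (B (M (nat_lit 298) (B (L (nat_lit 297) ln13_8_1_c10 ln13_8_1_c10_ok) (M (nat_lit 299) (B (L (nat_lit 270) ln14_8_1_c10 ln14_8_1_c10_ok) (L (nat_lit 395) ln11_12_7 ln11_12_7_ok))))) (M (nat_lit 237) (B (L (nat_lit 238) ln10_8_2_c10 ln10_8_2_c10_ok) (L (nat_lit 301) ln13_7_5 ln13_7_5_ok))))) (B (M (nat_lit 236) (B (L (nat_lit 299) ln11_11_6 ln11_11_6_ok) (L (nat_lit 301) ln13_11_7 ln13_11_7_ok))) (M (nat_lit 301) (B (L (nat_lit 237) ln13_7_5 ln13_7_5_ok) (M (nat_lit 302) (B (L (nat_lit 266) ln10_8_0_c10 ln10_8_0_c10_ok) (M (nat_lit 303) (B (L (nat_lit 270) ln11_8_0_c10 ln11_8_0_c10_ok) (L (nat_lit 304) ln16_9_1 ln16_9_1_ok))))))))))) (B (M (nat_lit 269) (B (M (nat_lit 299) (B (L (nat_lit 236) ln11_11_6 ln11_11_6_ok) (L (nat_lit 235) ln11_7_4 ln11_7_4_ok))) (B (M (nat_lit 270) (B (M (nat_lit 235) (B (L (nat_lit 234) ln14_8_3_c10 ln14_8_3_c10_ok) (L (nat_lit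 299) ln11_7_4 ln11_7_4_ok))) (M (nat_lit 271) (B (M (nat_lit 239) (B (L (nat_lit 240) ln12_8_2_c10 ln12_8_2_c10_ok) (L (nat_lit 238) ln11_8_2_c10 ln11_8_2_c10_ok))) (M (nat_lit 303) (B (L (nat_lit 304) ln12_8_0_c10 ln12_8_0_c10_ok) (L (nat_lit 302) ln11_8_0_c10 ln11_8_0_c10_ok))))))) (B (M (nat_lit 236) (B (L (nat_lit 299) ln11_11_6 ln11_11_6_ok) (L (nat_lit 301) ln13_11_7 ln13_11_7_ok))) (M (nat_lit 270) (B (M (nat_lit 238) (B (L (nat_lit 239) ln11_8_2_c10 ln11_8_2_c10_ok) (L (nat_lit 301) ln13_11_6 ln13_11_6_ok))) (M (nat_lit 303) (B (L (nat_lit 302) ln11_8_0_c10 ln11_8_0_c10_ok) (M (nat_lit 235) (B (L (nat_lit 234) ln14_8_3_c10 ln14_8_3_c10_ok) (M (nat_lit 271) (B (L (nat_lit 236) ln15_8_3_c10 ln15_8_3_c10_ok) (L (nat_lit 304) ln12_8_0_c10 ln12_8_0_c10_ok))))))))))))) (M (nat_lit 269) (B (M (nat_lit 301) (B (M (nat_lit 302) (B (L (nat_lit 266) ln10_8_0_c10 ln10_8_0_c10_ok) (M (nat_lit 303) (B (L (nat_lit 270) ln11_8_0_c10 ln11_8_0_c10_ok) (L (nat_lit 304) ln16_9_1 ln16_9_1_ok))))) (L (nat_lit 237) ln13_7_5 ln13_7_5_ok)))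 (B (K (nat_lit 5954262831509113917970671779033862168198298975236610436720908043169647820517324367175574123089880906048195298520404008611581809887971115008) (nat_lit 28518503670698513898844055598200972143161268506454763459648801165136767819225146412603801600) (nat_lit 28518503670698513898844055598200972143161268506454763459648801165136767819225146412603801600) c10_s113) (B (M (nat_lit 270) (B (M (nat_lit 301) (B (L (nat_lit 238) ln13_11_6 ln13_11_6_ok) (M (nat_lit 302) (B (L (nat_lit 303) ln11_8_0_c10 ln11_8_0_c10_ok) (L (nat_lit 266) ln10_8_0_c10 ln10_8_0_c10_ok))))) (B (M (nat_lit 266) (B (M (nat_lit 234) (B (L (nat_lit 235) ln14_8_3_c10 ln14_8_3_c10_ok) (L (nat_lit 233) ln13_8_3_c10 ln13_8_3_c10_ok))) (M (nat_lit 302) (B (L (nat_lit 303) ln11_8_0_c10 ln11_8_0_c10_ok) (L (nat_lit 301) ln10_8_0_c10 ln10_8_0_c10_ok))))) (M (nat_lit 271) (B (M (nat_lit 239) (B (L (nat_lit 240) ln12_8_2_c10 ln12_8_2_c10_ok) (L (nat_lit 238) ln11_8_2_c10 ln11_8_2_c10_ok))) (M (nat_lit 235) (B (L (nat_lit 236) ln15_8_3_c10 ln15_8_3_c10_ok) (L (nat_lit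 234) ln14_8_3_c10 ln14_8_3_c10_ok)))))))) (B (M (nat_lit 266) (B (M (nat_lit 237) (B (L (nat_lit 238) ln10_8_2_c10 ln10_8_2_c10_ok) (L (nat_lit 301) ln13_7_5 ln13_7_5_ok))) (M (nat_lit 265) (B (M (nat_lit 233) (B (L (nat_lit 234) ln13_8_3_c10 ln13_8_3_c10_ok) (L (nat_lit 232) ln12_8_3_c10 ln12_8_3_c10_ok))) (M (nat_lit 297) (B (L (nat_lit 298) ln13_8_1_c10 ln13_8_1_c10_ok) (L (nat_lit 296) ln12_8_1_c10 ln12_8_1_c10_ok))))))) (B (M (nat_lit 270) (B (M (nat_lit 238) (B (L (nat_lit 239) ln11_8_2_c10 ln11_8_2_c10_ok) (L (nat_lit 301) ln13_11_6 ln13_11_6_ok))) (M (nat_lit 303) (B (L (nat_lit 302) ln11_8_0_c10 ln11_8_0_c10_ok) (M (nat_lit 235) (B (L (nat_lit 234) ln14_8_3_c10 ln14_8_3_c10_ok) (M (nat_lit 271) (B (L (nat_lit 236) ln15_8_3_c10 ln15_8_3_c10_ok) (L (nat_lit 304) ln12_8_0_c10 ln12_8_0_c10_ok))))))))) (M (nat_lit 270) (B (M (nat_lit 303) (B (L (nat_lit 302) ln11_8_0_c10 ln11_8_0_c10_ok) (M (nat_lit 235) (B (L (nat_lit 234) ln14_8_3_c10 ln14_8_3_c10_ok) (M (nat_lit 271) (B (L (nat_lit 236) ln15_8_3_c10 ln15_8_3_c10_ok)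 (L (nat_lit 304) ln12_8_0_c10 ln12_8_0_c10_ok))))))) (B (M (nat_lit 271) (B (M (nat_lit 239) (B (L (nat_lit 240) ln12_8_2_c10 ln12_8_2_c10_ok) (L (nat_lit 238) ln11_8_2_c10 ln11_8_2_c10_ok))) (M (nat_lit 303) (B (L (nat_lit 304) ln12_8_0_c10 ln12_8_0_c10_ok) (L (nat_lit 302) ln11_8_0_c10 ln11_8_0_c10_ok))))) (M (nat_lit 266) (B (M (nat_lit 238) (B (L (nat_lit 239) ln11_8_2_c10 ln11_8_2_c10_ok) (L (nat_lit 237) ln10_8_2_c10 ln10_8_2_c10_ok))) (M (nat_lit 234) (B (L (nat_lit 235) ln14_8_3_c10 ln14_8_3_c10_ok) (L (nat_lit 233) ln13_8_3_c10 ln13_8_3_c10_ok)))))))))))))))))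
theorem c10_s114 : Sem (nat_lit 5954262831509113917970671779033862168180800969438346341324268029961400684616906698087343873751490262696749051400739337301456261845268561920) (nat_lit 80695308704307148975884490952281127340191295835282767685890863300741437080018462530495804253707833613455061864694153216) (nat_lit 80695308704307148975884490952281127340191295835282767685890863300741437080018462530495804253707833613455061864694153216) :=
  sem_of_chk (M (nat_lit 333) (B (M (nat_lit 362) (B (L (nat_lit 334) ln14_10_1 ln14_10_1_ok) (L (nat_lit 361) ln9_11_2 ln9_11_2_ok))) (M (nat_lit 268) (B (M (nat_lit 300) (B (L (nat_lit 236) ln12_7_4_c10 ln12_7_4_c10_ok) (L (nat_lit 395) ln12_8_5 ln12_8_5_ok))) (B (M (nat_lit 300) (B (L (nat_lit 395) ln12_8_5 ln12_8_5_ok) (M (nat_lit 267) (B (L (nat_lit 235) ln12_11_7 ln12_11_7_ok) (M (nat_lit 269) (B (L (nat_lit 237) ln12_11_6 ln12_11_6_ok) (M (nat_lit 266) (B (M (nat_lit 234) (B (L (nat_lit 233) ln13_8_3_c10 ln13_8_3_c10_ok) (L (nat_lit 299) ln11_11_7 ln11_11_7_ok))) (M (nat_lit 301) (B (L (nat_lit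 302) ln10_8_0_c10 ln10_8_0_c10_ok) (L (nat_lit 265) ln9_8_0_c10 ln9_8_0_c10_ok))))))))))) (B (M (nat_lit 267) (B (M (nat_lit 299) (B (L (nat_lit 236) ln11_11_6 ln11_11_6_ok) (M (nat_lit 234) (B (L (nat_lit 266) ln11_11_7 ln11_11_7_ok) (L (nat_lit 235) ln11_7_4 ln11_7_4_ok))))) (B (M (nat_lit 299) (B (L (nat_lit 236) ln11_11_6 ln11_11_6_ok) (M (nat_lit 266) (B (L (nat_lit 234) ln11_11_7 ln11_11_7_ok) (M (nat_lit 298) (B (L (nat_lit 395) ln11_12_7 ln11_12_7_ok) (M (nat_lit 269) (B (L (nat_lit 270) ln14_8_1_c10 ln14_8_1_c10_ok) (L (nat_lit 297) ln13_8_1_c10 ln13_8_1_c10_ok))))))))) c10_d252))) (M (nat_lit 267) (B (M (nat_lit 236) (B (L (nat_lit 299) ln11_11_6 ln11_11_6_ok) (L (nat_lit 300) ln12_7_4_c10 ln12_7_4_c10_ok))) (B (M (nat_lit 266) (B (M (nat_lit 234) (B (L (nat_lit 299) ln11_11_7 ln11_11_7_ok) (M (nat_lit 233) (B (L (nat_lit 269) ln13_8_3_c10 ln13_8_3_c10_ok) (M (nat_lit 232) (B (L (nat_lit 235) ln8_7_0_c10 ln8_7_0_c10_ok) (L (nat_lit 265) ln12_8_3_c10 ln12_8_3_c10_ok))))))) (B (M (nat_lit 269) (B (M (nat_lit 234) (B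 (L (nat_lit 233) ln13_8_3_c10 ln13_8_3_c10_ok) (L (nat_lit 299) ln11_11_7 ln11_11_7_ok))) (M (nat_lit 237) (B (L (nat_lit 238) ln10_8_2_c10 ln10_8_2_c10_ok) (L (nat_lit 301) ln13_7_5 ln13_7_5_ok))))) (B (M (nat_lit 269) (B (M (nat_lit 237) (B (L (nat_lit 238) ln10_8_2_c10 ln10_8_2_c10_ok) (L (nat_lit 301) ln13_7_5 ln13_7_5_ok))) (B (M (nat_lit 270) (B (M (nat_lit 302) (B (L (nat_lit 303) ln11_8_0_c10 ln11_8_0_c10_ok) (L (nat_lit 301) ln10_8_0_c10 ln10_8_0_c10_ok))) (M (nat_lit 298) (B (L (nat_lit 299) ln14_8_1_c10 ln14_8_1_c10_ok) (L (nat_lit 297) ln13_8_1_c10 ln13_8_1_c10_ok))))) (M (nat_lit 270) (B (M (nat_lit 238) (B (L (nat_lit 239) ln11_8_2_c10 ln11_8_2_c10_ok) (L (nat_lit 237) ln10_8_2_c10 ln10_8_2_c10_ok))) (M (nat_lit 298) (B (L (nat_lit 299) ln14_8_1_c10 ln14_8_1_c10_ok) (L (nat_lit 297) ln13_8_1_c10 ln13_8_1_c10_ok)))))))) (B (M (nat_lit 299) (B (L (nat_lit 234) ln11_11_7 ln11_11_7_ok) (M (nat_lit 300) (B (L (nat_lit 235) ln11_7_4 ln11_7_4_ok) (M (nat_lit 301) (B (L (nat_lit 265) ln9_8_0_c10 ln9_8_0_c10_ok) (L (nat_lit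 302) ln14_9_3 ln14_9_3_ok))))))) (M (nat_lit 269) (B (M (nat_lit 237) (B (L (nat_lit 238) ln10_8_2_c10 ln10_8_2_c10_ok) (L (nat_lit 301) ln13_7_5 ln13_7_5_ok))) (B (M (nat_lit 270) (B (M (nat_lit 234) (B (L (nat_lit 235) ln14_8_3_c10 ln14_8_3_c10_ok) (L (nat_lit 233) ln13_8_3_c10 ln13_8_3_c10_ok))) (M (nat_lit 302) (B (L (nat_lit 303) ln11_8_0_c10 ln11_8_0_c10_ok) (L (nat_lit 301) ln10_8_0_c10 ln10_8_0_c10_ok))))) (M (nat_lit 270) (B (M (nat_lit 238) (B (L (nat_lit 239) ln11_8_2_c10 ln11_8_2_c10_ok) (L (nat_lit 237) ln10_8_2_c10 ln10_8_2_c10_ok))) (M (nat_lit 234) (B (L (nat_lit 235) ln14_8_3_c10 ln14_8_3_c10_ok) (L (nat_lit 233) ln13_8_3_c10 ln13_8_3_c10_ok))))))))))))) (B (M (nat_lit 299) (B (L (nat_lit 236) ln11_11_6 ln11_11_6_ok) (M (nat_lit 234) (B (L (nat_lit 266) ln11_11_7 ln11_11_7_ok) (L (nat_lit 235) ln11_7_4 ln11_7_4_ok))))) (M (nat_lit 269) (B (M (nat_lit 300) (B (L (nat_lit 236) ln12_7_4_c10 ln12_7_4_c10_ok) (L (nat_lit 237) ln12_11_6 ln12_11_6_ok))) (B (M (nat_lit 301) (B (L (nat_lit 236) ln13_11_7 ln13_11_7_ok)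 (M (nat_lit 302) (B (L (nat_lit 266) ln10_8_0_c10 ln10_8_0_c10_ok) (M (nat_lit 303) (B (L (nat_lit 270) ln11_8_0_c10 ln11_8_0_c10_ok) (L (nat_lit 304) ln16_9_1 ln16_9_1_ok))))))) (K (nat_lit 5954262831509113917970671779033862168198298975236610436720908043169647820517324367175574123089880906048195298520404008611581809887971115008) (nat_lit 28518503670698513898844055598200972143161268506454763459648801165136767819225146412603801600) (nat_lit 28518503670698513898844055598200972143161268506454763459648801165136767819225146412603801600) c10_s113)))))))))))))) (nat_lit 5954262831509113917970671779033862168180800969438346341324268029961400684616906698087343873751490262696749051400739337301456261845268561920) (nat_lit 80695308704307148975884490952281127340191295835282767685890863300741437080018462530495804253707833613455061864694153216) (nat_lit 80695308704307148975884490952281127340191295835282767685890863300741437080018462530495804253707833613455061864694153216) (by decide +kernel)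
theorem c10_s127 : Sem (nat_lit 5954262830815946494440468064139258622131906539230539000934078872806075061271132354550578193372942037532254438881195279021764289825886699520) (nat_lit 1266331655955072354700736160289015961684087061612632756657988315301429785967240978062814924872108992212039953402221460238830204124710577939134653434423780434803208655258477658112) (nat_lit 1266331655955072354700736160289015961684087061612632756657988315301429785967240978062814924872108992212039953402221460238830204124710577939134653434423780434803208655258477658112) :=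
  sem_of_chk (M (nat_lit 395) (B (M (nat_lit 427) (B (K (nat_lit 5954262831162530206286265230276776288576539476285187756428859250728298243623918122918176634440965125627448303433373487624311710428656828416) (nat_lit 1266331655955072354700736160289015961600727382000271609882746017403875412518505149796807411527624753826049720661988022512015252939777021107210519304712998218057459852764961046528) (nat_lit 1266331655955072354700736160289015961600727382000271609882746017403875412518505149796807411527624753826049720661988022512015252939777021107210519304712998218057459852764961046528) c10_s126) (B (M (nat_lit 428) (B (M (nat_lit 426) (B (L (nat_lit 462) ln10_13_0 ln10_13_0_ok) (M (nat_lit 425) (B (M (nat_lit 457) (B (L (nat_lit 456) ln12_13_1 ln12_13_1_ok) (L (nat_lit 458) ln13_13_1 ln13_13_1_ok))) (M (nat_lit 424) (B (M (nat_lit 392) (B (L (nat_lit 391) ln11_13_3 ln11_13_3_ok) (L (nat_lit 393) ln12_13_3 ln12_13_3_ok))) (L (nat_lit 396) ln8_13_2 ln8_13_2_ok))))))) (B (M (nat_lit 396) (B (M (nat_lit 460) (B (L (nat_lit 333) ln12_14_6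 ln12_14_6_ok) (L (nat_lit 492) ln12_15_7 ln12_15_7_ok))) (L (nat_lit 332) ln12_10_4 ln12_10_4_ok))) (M (nat_lit 462) (B (M (nat_lit 463) (B (L (nat_lit 460) ln15_14_3 ln15_14_3_ok) (L (nat_lit 464) ln16_14_3 ln16_14_3_ok))) (L (nat_lit 426) ln10_13_0 ln10_13_0_ok)))))) (B (M (nat_lit 459) (B (L (nat_lit 332) ln11_14_6 ln11_14_6_ok) (M (nat_lit 490) (B (L (nat_lit 458) ln11_11_5 ln11_11_5_ok) (M (nat_lit 492) (B (L (nat_lit 460) ln11_11_4 ln11_11_4_ok) (M (nat_lit 491) (B (L (nat_lit 522) ln11_12_5 ln11_12_5_ok) (L (nat_lit 524) ln11_12_4 ln11_12_4_ok))))))))) (M (nat_lit 332) (B (M (nat_lit 396) (B (L (nat_lit 428) ln12_10_4 ln12_10_4_ok) (L (nat_lit 300) ln12_9_5 ln12_9_5_ok))) (L (nat_lit 459) ln11_14_6 ln11_14_6_ok))))))) (B (M (nat_lit 427) (B (K (nat_lit 5954262831162530206286265230276776288576539476285187756428859250728298243623918122918176634440965125627448303433373487624311710428656828416) (nat_lit 1266331655955072354700736160289015961600727382000271609882746017403875412518505149796807411527624753826049720661988022512015252939777021107210519304712998218057459852764961046528)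 (nat_lit 1266331655955072354700736160289015961600727382000271609882746017403875412518505149796807411527624753826049720661988022512015252939777021107210519304712998218057459852764961046528) c10_s126) (B (M (nat_lit 459) (B (L (nat_lit 332) ln11_14_6 ln11_14_6_ok) (M (nat_lit 490) (B (L (nat_lit 458) ln11_11_5 ln11_11_5_ok) (M (nat_lit 492) (B (L (nat_lit 460) ln11_11_4 ln11_11_4_ok) (M (nat_lit 491) (B (L (nat_lit 522) ln11_12_5 ln11_12_5_ok) (L (nat_lit 524) ln11_12_4 ln11_12_4_ok))))))))) (M (nat_lit 396) (B (M (nat_lit 366) (B (L (nat_lit 394) ln14_11_1 ln14_11_1_ok) (L (nat_lit 367) ln15_11_1 ln15_11_1_ok))) (M (nat_lit 332) (B (L (nat_lit 428) ln12_10_4 ln12_10_4_ok) (L (nat_lit 300) ln12_9_5 ln12_9_5_ok)))))))) (B (M (nat_lit 394) (B (L (nat_lit 366) ln14_11_1 ln14_11_1_ok) (M (nat_lit 362) (B (L (nat_lit 393) ln13_11_1 ln13_11_1_ok) (M (nat_lit 330) (B (L (nat_lit 329) ln13_11_3 ln13_11_3_ok) (M (nat_lit 427) (B (L (nat_lit 298) ln10_9_4 ln10_9_4_ok) (L (nat_lit 459) ln11_14_7 ln11_14_7_ok))))))))) (M (nat_lit 394) (B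 (M (nat_lit 393) (B (L (nat_lit 362) ln13_11_1 ln13_11_1_ok) (L (nat_lit 396) ln9_12_2 ln9_12_2_ok))) (L (nat_lit 366) ln14_11_1 ln14_11_1_ok))))))) (nat_lit 5954262830815946494440468064139258622131906539230539000934078872806075061271132354550578193372942037532254438881195279021764289825886699520) (nat_lit 1266331655955072354700736160289015961684087061612632756657988315301429785967240978062814924872108992212039953402221460238830204124710577939134653434423780434803208655258477658112) (nat_lit 1266331655955072354700736160289015961684087061612632756657988315301429785967240978062814924872108992212039953402221460238830204124710577939134653434423780434803208655258477658112) (by decide +kernel)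
noncomputable def c10_d253 : Cert := (B (M (nat_lit 202) (B (M (nat_lit 170) (B (L (nat_lit 203) ln11_9_7_c10 ln11_9_7_c10_ok) (L (nat_lit 234) ln11_10_7 ln11_10_7_ok))) (B (M (nat_lit 236) (B (L (nat_lit 234) ln11_10_7 ln11_10_7_ok) (L (nat_lit 204) ln11_10_6 ln11_10_6_ok))) (M (nat_lit 203) (B (L (nat_lit 170) ln11_9_7_c10 ln11_9_7_c10_ok) (M (nat_lit 204) (B (L (nat_lit 172) ln11_9_6_c10 ln11_9_6_c10_ok) (L (nat_lit 236) ln11_10_6 ln11_10_6_ok)))))))) (B (M (nat_lit 236) (B (L (nat_lit 204) ln11_10_6 ln11_10_6_ok) (M (nat_lit 234) (B (L (nat_lit 202) ln11_10_7 ln11_10_7_ok) (M (nat_lit 237) (B (L (nat_lit 266) ln11_11_7 ln11_11_7_ok) (M (nat_lit 238) (B (M (nat_lit 206) (B (L (nat_lit 205) ln10_7_2_c10 ln10_7_2_c10_ok) (L (nat_lit 207) ln11_7_2_c10 ln11_7_2_c10_ok))) (M (nat_lit 271) (B (L (nat_lit 270) ln11_7_0_c10 ln11_7_0_c10_ok) (M (nat_lit 239) (B (L (nat_lit 268) ln15_7_1_c10 ln15_7_1_c10_ok) (L (nat_lit 272) ln12_7_0_c10 ln12_7_0_c10_ok))))))))))))) (B (M (nat_lit 203) (B (M (nat_lit 204) (B (L (nat_lit 172) ln11_9_6_c10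 ln11_9_6_c10_ok) (M (nat_lit 332) (B (L (nat_lit 300) ln11_6_4_c10 ln11_6_4_c10_ok) (L (nat_lit 364) ln11_7_4 ln11_7_4_ok))))) (B (M (nat_lit 300) (B (L (nat_lit 332) ln11_6_4_c10 ln11_6_4_c10_ok) (M (nat_lit 171) (B (L (nat_lit 268) ln11_5_4_c10 ln11_5_4_c10_ok) (M (nat_lit 172) (B (L (nat_lit 204) ln11_9_6_c10 ln11_9_6_c10_ok) (L (nat_lit 140) ln11_8_6_c10 ln11_8_6_c10_ok))))))) (B (M (nat_lit 171) (B (M (nat_lit 172) (B (L (nat_lit 204) ln11_9_6_c10 ln11_9_6_c10_ok) (L (nat_lit 140) ln11_8_6_c10 ln11_8_6_c10_ok))) (M (nat_lit 139) (B (M (nat_lit 266) (B (L (nat_lit 298) ln11_5_5_c10 ln11_5_5_c10_ok) (L (nat_lit 234) ln11_4_5_c10 ln11_4_5_c10_ok))) (M (nat_lit 268) (B (L (nat_lit 300) ln11_5_4_c10 ln11_5_4_c10_ok) (L (nat_lit 236) ln11_4_4_c10 ln11_4_4_c10_ok))))))) (B (M (nat_lit 236) (B (L (nat_lit 204) ln11_10_6 ln11_10_6_ok) (M (nat_lit 266) (B (M (nat_lit 265) (B (L (nat_lit 264) ln8_8_2_c10 ln8_8_2_c10_ok) (M (nat_lit 237) (B (L (nat_lit 268) ln9_8_2_c10 ln9_8_2_c10_ok) (L (nat_lit 238) ln14_7_1_c10 ln14_7_1_c10_ok)))))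 (B (M (nat_lit 237) (B (L (nat_lit 238) ln14_7_1_c10 ln14_7_1_c10_ok) (M (nat_lit 265) (B (L (nat_lit 268) ln9_8_2_c10 ln9_8_2_c10_ok) (L (nat_lit 234) ln13_7_1_c10 ln13_7_1_c10_ok))))) (B (M (nat_lit 171) (B (L (nat_lit 298) ln11_5_5_c10 ln11_5_5_c10_ok) (M (nat_lit 139) (B (L (nat_lit 234) ln11_4_5_c10 ln11_4_5_c10_ok) (L (nat_lit 268) ln11_4_4_c10 ln11_4_4_c10_ok))))) (M (nat_lit 265) (B (L (nat_lit 264) ln8_8_2_c10 ln8_8_2_c10_ok) (M (nat_lit 237) (B (L (nat_lit 234) ln13_7_1_c10 ln13_7_1_c10_ok) (L (nat_lit 238) ln14_7_1_c10 ln14_7_1_c10_ok))))))))))) (M (nat_lit 266) (B (M (nat_lit 171) (B (L (nat_lit 298) ln11_5_5_c10 ln11_5_5_c10_ok) (M (nat_lit 300) (B (L (nat_lit 332) ln11_6_4_c10 ln11_6_4_c10_ok) (L (nat_lit 268) ln11_5_4_c10 ln11_5_4_c10_ok))))) (B (M (nat_lit 171) (B (L (nat_lit 298) ln11_5_5_c10 ln11_5_5_c10_ok) (M (nat_lit 139) (B (L (nat_lit 234) ln11_4_5_c10 ln11_4_5_c10_ok) (M (nat_lit 268) (B (L (nat_lit 300) ln11_5_4_c10 ln11_5_4_c10_ok) (L (nat_lit 236) ln11_4_4_c10 ln11_4_4_c10_ok))))))) (B (M (nat_lit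 300) (B (L (nat_lit 332) ln11_6_4_c10 ln11_6_4_c10_ok) (M (nat_lit 301) (B (L (nat_lit 302) ln14_9_3 ln14_9_3_ok) (M (nat_lit 265) (B (L (nat_lit 264) ln8_8_0_c10 ln8_8_0_c10_ok) (L (nat_lit 268) ln9_8_0_c10 ln9_8_0_c10_ok))))))) (B (M (nat_lit 236) (B (M (nat_lit 171) (B (L (nat_lit 298) ln11_5_5_c10 ln11_5_5_c10_ok) (M (nat_lit 139) (B (L (nat_lit 234) ln11_4_5_c10 ln11_4_5_c10_ok) (L (nat_lit 268) ln11_4_4_c10 ln11_4_4_c10_ok))))) (B (M (nat_lit 265) (B (L (nat_lit 264) ln8_8_2_c10 ln8_8_2_c10_ok) (M (nat_lit 237) (B (L (nat_lit 234) ln13_7_1_c10 ln13_7_1_c10_ok) (L (nat_lit 238) ln14_7_1_c10 ln14_7_1_c10_ok))))) (M (nat_lit 265) (B (L (nat_lit 264) ln8_8_2_c10 ln8_8_2_c10_ok) (M (nat_lit 237) (B (L (nat_lit 268) ln9_8_2_c10 ln9_8_2_c10_ok) (L (nat_lit 238) ln14_7_1_c10 ln14_7_1_c10_ok)))))))) (M (nat_lit 298) (B (L (nat_lit 171) ln11_5_5_c10 ln11_5_5_c10_ok) (M (nat_lit 300) (B (L (nat_lit 332) ln11_6_4_c10 ln11_6_4_c10_ok) (M (nat_lit 265) (B (L (nat_lit 301) ln13_9_3 ln13_9_3_ok) (L (nat_lit 264) ln8_8_0_c10 ln8_8_0_c10_ok)))))))))))))))))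 (M (nat_lit 203) (B (M (nat_lit 202) (B (L (nat_lit 170) ln11_9_7_c10 ln11_9_7_c10_ok) (L (nat_lit 234) ln11_10_7 ln11_10_7_ok))) (B (M (nat_lit 300) (B (L (nat_lit 332) ln11_6_4_c10 ln11_6_4_c10_ok) (M (nat_lit 171) (B (L (nat_lit 268) ln11_5_4_c10 ln11_5_4_c10_ok) (M (nat_lit 170) (B (L (nat_lit 202) ln11_9_7_c10 ln11_9_7_c10_ok) (L (nat_lit 138) ln11_8_7_c10 ln11_8_7_c10_ok))))))) (M (nat_lit 266) (B (M (nat_lit 171) (B (L (nat_lit 298) ln11_5_5_c10 ln11_5_5_c10_ok) (M (nat_lit 300) (B (L (nat_lit 332) ln11_6_4_c10 ln11_6_4_c10_ok) (L (nat_lit 268) ln11_5_4_c10 ln11_5_4_c10_ok))))) (B (M (nat_lit 171) (B (L (nat_lit 298) ln11_5_5_c10 ln11_5_5_c10_ok) (M (nat_lit 139) (B (L (nat_lit 234) ln11_4_5_c10 ln11_4_5_c10_ok) (M (nat_lit 268) (B (L (nat_lit 300) ln11_5_4_c10 ln11_5_4_c10_ok) (L (nat_lit 236) ln11_4_4_c10 ln11_4_4_c10_ok))))))) (B (M (nat_lit 236) (B (M (nat_lit 265) (B (L (nat_lit 264) ln8_8_2_c10 ln8_8_2_c10_ok) (M (nat_lit 237) (B (L (nat_lit 268) ln9_8_2_c10 ln9_8_2_c10_ok) (L (nat_lit 238) ln14_7_1_c10 ln14_7_1_c10_ok)))))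 (B (M (nat_lit 265) (B (L (nat_lit 264) ln8_8_2_c10 ln8_8_2_c10_ok) (M (nat_lit 237) (B (L (nat_lit 238) ln14_7_1_c10 ln14_7_1_c10_ok) (L (nat_lit 234) ln13_7_1_c10 ln13_7_1_c10_ok))))) (M (nat_lit 171) (B (L (nat_lit 298) ln11_5_5_c10 ln11_5_5_c10_ok) (M (nat_lit 139) (B (L (nat_lit 268) ln11_4_4_c10 ln11_4_4_c10_ok) (L (nat_lit 234) ln11_4_5_c10 ln11_4_5_c10_ok)))))))) (B (M (nat_lit 300) (B (L (nat_lit 332) ln11_6_4_c10 ln11_6_4_c10_ok) (M (nat_lit 268) (B (L (nat_lit 171) ln11_5_4_c10 ln11_5_4_c10_ok) (M (nat_lit 301) (B (L (nat_lit 302) ln14_9_3 ln14_9_3_ok) (L (nat_lit 265) ln9_8_0_c10 ln9_8_0_c10_ok))))))) (B (M (nat_lit 298) (B (L (nat_lit 171) ln11_5_5_c10 ln11_5_5_c10_ok) (M (nat_lit 300) (B (L (nat_lit 332) ln11_6_4_c10 ln11_6_4_c10_ok) (M (nat_lit 265) (B (L (nat_lit 301) ln13_9_3 ln13_9_3_ok) (L (nat_lit 264) ln8_8_0_c10 ln8_8_0_c10_ok))))))) (M (nat_lit 300) (B (L (nat_lit 332) ln11_6_4_c10 ln11_6_4_c10_ok) (M (nat_lit 301) (B (L (nat_lit 302) ln14_9_3 ln14_9_3_ok) (M (nat_lit 265) (B (L (nat_lit 268) ln9_8_0_c10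 ln9_8_0_c10_ok) (L (nat_lit 264) ln8_8_0_c10 ln8_8_0_c10_ok)))))))))))))))))))
theorem c10_s135 : Sem (nat_lit 5954262830815946494440468064101681940811899709034891853222598870064191629631737737938871489733394699397153911884004846675984891374016135168) (nat_lit 37576681333130334560132248088506172425545515144102452872601312741972661529982739839314420625357010929543282688) (nat_lit 37576681333130334560132248088506172425545515144102452872601312741972661529982739839314420625357010929543282688) :=
  sem_of_chk (M (nat_lit 235) (B (K (nat_lit 5954262830815946494440468064101681940811899709034891853222598870064246843602512062449170967780292915600773520755782209768426191567806529536) (nat_lit 37576681333130334547400773222928171830265899068855114835786287125904662031722023062561151709410963418890895360) (nat_lit 37576681333130334547400773222928171830265899068855114835786287125904662031722023062561151709410963418890895360) c10_s134) (B (M (nat_lit 203) (B (M (nat_lit 300) (B (L (nat_lit 332) ln11_6_4_c10 ln11_6_4_c10_ok) (M (nat_lit 172)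 (B (L (nat_lit 204) ln11_9_6_c10 ln11_9_6_c10_ok) (M (nat_lit 171) (B (L (nat_lit 140) ln11_8_6_c10 ln11_8_6_c10_ok) (L (nat_lit 268) ln11_5_4_c10 ln11_5_4_c10_ok))))))) (B (M (nat_lit 171) (B (M (nat_lit 170) (B (L (nat_lit 138) ln11_8_7_c10 ln11_8_7_c10_ok) (L (nat_lit 202) ln11_9_7_c10 ln11_9_7_c10_ok))) (M (nat_lit 300) (B (L (nat_lit 268) ln11_5_4_c10 ln11_5_4_c10_ok) (L (nat_lit 332) ln11_6_4_c10 ln11_6_4_c10_ok))))) (M (nat_lit 204) (B (L (nat_lit 172) ln11_9_6_c10 ln11_9_6_c10_ok) (M (nat_lit 202) (B (L (nat_lit 170) ln11_9_7_c10 ln11_9_7_c10_ok) (M (nat_lit 205) (B (L (nat_lit 234) ln11_10_7 ln11_10_7_ok) (M (nat_lit 206) (B (M (nat_lit 174) (B (L (nat_lit 175) ln11_6_2_c10 ln11_6_2_c10_ok) (L (nat_lit 173) ln10_6_2_c10 ln10_6_2_c10_ok))) (M (nat_lit 238) (B (L (nat_lit 239) ln11_6_0_c10 ln11_6_0_c10_ok) (L (nat_lit 237) ln10_6_0_c10 ln10_6_0_c10_ok)))))))))))))) c10_d253))) (nat_lit 5954262830815946494440468064101681940811899709034891853222598870064191629631737737938871489733394699397153911884004846675984891374016135168)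 (nat_lit 37576681333130334560132248088506172425545515144102452872601312741972661529982739839314420625357010929543282688) (nat_lit 37576681333130334560132248088506172425545515144102452872601312741972661529982739839314420625357010929543282688) (by decide +kernel)
theorem c10_s178 : Sem (nat_lit 21584202758328614853000082511097990957069816092741368555548397708368367948862273840480321538611056628315198064110864201916563382792483766272) (nat_lit 126633165760618091594458917094871992255361168889520338997950379576864812826054941610401031783337105506577755411718442228755121372738875473049168333509619162244106504240002760704) (nat_lit 126633165760618091594458917094871992255361168889520338997950379576864812826054941610401031783337105506577755411718442228755121372738875473049168333509619162244106504240002760704) :=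
  sem_of_chk (M (nat_lit 490) (B (M (nat_lit 521) (B (L (nat_lit 489) ln10_12_5 ln10_12_5_ok) (M (nat_lit 522) (B (L (nat_lit 553) ln10_13_5 ln10_13_5_ok) (M (nat_lit 523) (B (L (nat_lit 491) ln10_12_4 ln10_12_4_ok) (L (nat_lit 555) ln10_13_4 ln10_13_4_ok))))))) (B (K (nat_lit 3196670537107778803263370416308284808184555455158746551221145282204778368919807943865467290017337317078719405783518445955802929012154586946124906496) (nat_lit 6864797661728944973115830248388121726884790238358125576194482107825804811165532894360855962695819449037499503465741525969079531471130380483360489805178732544) (nat_lit 6864797661728944973115830248388121726884790238358125576194482107825804811165532894360855962695819449037499503465741525969079531471130380483360489805178732544) c10_s177) (B (M (nat_lit 522) (B (M (nat_lit 523) (B (L (nat_lit 491) ln10_12_4 ln10_12_4_ok) (L (nat_lit 555) ln10_13_4 ln10_13_4_ok))) (M (nat_lit 554) (B (L (nat_lit 457) ln10_17_7 ln10_17_7_ok) (M (nat_lit 553) (B (L (nat_lit 521) ln10_13_5 ln10_13_5_ok) (L (nat_lit 585)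 ln10_14_5 ln10_14_5_ok))))))) (M (nat_lit 523) (B (L (nat_lit 491) ln10_12_4 ln10_12_4_ok) (M (nat_lit 457) (B (M (nat_lit 362) (B (L (nat_lit 330) ln10_10_5 ln10_10_5_ok) (L (nat_lit 489) ln10_11_5 ln10_11_5_ok))) (M (nat_lit 522) (B (L (nat_lit 555) ln10_13_4 ln10_13_4_ok) (L (nat_lit 554) ln10_17_7 ln10_17_7_ok))))))))))) (nat_lit 21584202758328614853000082511097990957069816092741368555548397708368367948862273840480321538611056628315198064110864201916563382792483766272) (nat_lit 126633165760618091594458917094871992255361168889520338997950379576864812826054941610401031783337105506577755411718442228755121372738875473049168333509619162244106504240002760704) (nat_lit 126633165760618091594458917094871992255361168889520338997950379576864812826054941610401031783337105506577755411718442228755121372738875473049168333509619162244106504240002760704) (by decide +kernel)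
theorem c10_s190 : Sem (nat_lit 20839919904649913397037227277475566367178313602335007801283750091394436700446175314548354283586149593514889033341045482096437963662708178944) (nat_lit 36855101816911260676009585159474608547851951887550672478873039773299018032961115438061271145451821385182824287882260718251789979978490657439284327659462346589515808768) (nat_lit 36855101816911260676009585159474608547851951887550672478873039773299018032961115438061271145451821385182824287882260718251789979978490657439284327659462346589515808768) :=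
  sem_of_chk (M (nat_lit 424) (B (M (nat_lit 427) (B (L (nat_lit 459) ln8_13_0 ln8_13_0_ok) (M (nat_lit 423) (B (M (nat_lit 395) (B (L (nat_lit 396) ln8_13_2 ln8_13_2_ok) (L (nat_lit 394) ln7_13_2 ln7_13_2_ok))) (M (nat_lit 391) (B (L (nat_lit 392) ln11_13_3 ln11_13_3_ok) (L (nat_lit 390) ln10_13_3_c10 ln10_13_3_c10_ok))))))) (B (K (nat_lit 20839919904693236361007865009656479088805549285201202130586497225381475443893278772482817183946149193610266214248817219767709894472535900160) (nat_lit 1651377581978694790382577305080834579983638929512322137873933414118760358219258649790814630253581274461221142511049834113555597121590132736) (nat_lit 1651377581978694790382577305080834579983638929512322137873933414118760358219258649790814630253581274461221142511049834113555597121590132736) c10_s184) (B (K (nat_lit 20839919904693236361007865009656479088805549285201202130586497225381475443893278772482817183946149193610266214248817219767709894472535900160) (nat_lit 1837448295398370154354378150512171377434620612865843391813657043512419755922668100439768497559489372067819552401159754560999770468686757888)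 (nat_lit 1837448295398370154354378150512171377434620612865843391813657043512419755922668100439768497559489372067819552401159754560999770468686757888) c10_s185) (B (K (nat_lit 20839919904693236361007865009656479088805549285201202130586497225381475443893278772482817183946149193610266214248817219767709894472535900160) (nat_lit 348882588040967242518189041345530454421913611160648173849502977187054753920049571190280267374516964976334703792620843256661591003112669184) (nat_lit 348882588040967242518189041345530454421913611160648173849502977187054753920049571190280267374516964976334703792620843256661591003112669184) c10_s186) (B (K (nat_lit 20839919904693236361007865009656479088805549285201202130586497225381475443893278772482817183946149193610266214248817219767709894472535900160) (nat_lit 3432398831264056301161174004085613475477076991587298222230268416110288228807935921507988435722563836175888251122457637738503478989216221645550051670309732352) (nat_lit 3432398831264056301161174004085613475477076991587298222230268416110288228807935921507988435722563836175888251122457637738503478989216221645550051670309732352)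 c10_s187) (B (K (nat_lit 20839919904693236361007865009656479088805549285201202130586497225381475443893278772482817183946149193610266214248817219767709894472535900160) (nat_lit 1716199417030571501668734242724057760579248164654205688169727520667871733086561579786291902442091470149943655289166821044159139298099986590543574800560816128) (nat_lit 1716199417030571501668734242724057760579248164654205688169727520667871733086561579786291902442091470149943655289166821044159139298099986590543574800560816128) c10_s188) (K (nat_lit 20839919904693236361007865009656479088805549285201202130586497225381475443893278772482817183946149193610266214248817219767709894472535900160) (nat_lit 36855101816911260676009585157986042840418733788474607708585466461455651760342515413488559319970721283941857872812403959388100198707426022218198531060949230217039183872) (nat_lit 36855101816911260676009585157986042840418733788474607708585466461455651760342515413488559319970721283941857872812403959388100198707426022218198531060949230217039183872) c10_s189))))))))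 (nat_lit 20839919904649913397037227277475566367178313602335007801283750091394436700446175314548354283586149593514889033341045482096437963662708178944) (nat_lit 36855101816911260676009585159474608547851951887550672478873039773299018032961115438061271145451821385182824287882260718251789979978490657439284327659462346589515808768) (nat_lit 36855101816911260676009585159474608547851951887550672478873039773299018032961115438061271145451821385182824287882260718251789979978490657439284327659462346589515808768) (by decide +kernel)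
theorem c10_s193 : Sem (nat_lit 20839919904649913397037227277475566367178313602335007801283750091394436700446175314548354283586149593514889033341045482096437963662708178944) (nat_lit 126633165605826663977847697343664183781685496620349259659148576473242389724298885845723334832744471758580400577716111516222663129456987600776438228068066564343385866657022869504) (nat_lit 126633165605826663977847697343664183781685496620349259659148576473242389724298885845723334832744471758580400577716111516222663129456987600776438228068066564343385866657022869504) :=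
  sem_of_chk (M (nat_lit 424) (B (M (nat_lit 427) (B (L (nat_lit 459) ln8_13_0 ln8_13_0_ok) (M (nat_lit 423) (B (M (nat_lit 395) (B (L (nat_lit 396) ln8_13_2 ln8_13_2_ok) (L (nat_lit 394) ln7_13_2 ln7_13_2_ok))) (M (nat_lit 391) (B (L (nat_lit 392) ln11_13_3 ln11_13_3_ok) (L (nat_lit 390) ln10_13_3_c10 ln10_13_3_c10_ok))))))) (B (K (nat_lit 20839919904693236361007865009656479088805549285201202130586497225381475443893278772482817183946149193610266214248817219767709894472535900160) (nat_lit 1651377581978694790382577305080834579983638929512322137873933414118760358219258649790814630253581274461221142511049834113555597121590132736) (nat_lit 1651377581978694790382577305080834579983638929512322137873933414118760358219258649790814630253581274461221142511049834113555597121590132736) c10_s184) (B (K (nat_lit 20839919904693236361007865009656479088805549285201202130586497225381475443893278772482817183946149193610266214248817219767709894472535900160) (nat_lit 1837448295398370154354378150512171377434620612865843391813657043512419755922668100439768497559489372067819552401159754560999770468686757888)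 (nat_lit 1837448295398370154354378150512171377434620612865843391813657043512419755922668100439768497559489372067819552401159754560999770468686757888) c10_s185) (B (K (nat_lit 20839919904693236361007865009656479088805549285201202130586497225381475443893278772482817183946149193610266214248817219767709894472535900160) (nat_lit 348882588040967242518189041345530454421913611160648173849502977187054753920049571190280267374516964976334703792620843256661591003112669184) (nat_lit 348882588040967242518189041345530454421913611160648173849502977187054753920049571190280267374516964976334703792620843256661591003112669184) c10_s186) (B (K (nat_lit 20839919904693236361007865009656479088805549285201202130586497225381475443893278772482817183946149193610266214248817219767709894472535900160) (nat_lit 3432398831264056301161174004085613475477076991587298222230268416110288228807935921507988435722563836175888251122457637738503478989216221645550051670309732352) (nat_lit 3432398831264056301161174004085613475477076991587298222230268416110288228807935921507988435722563836175888251122457637738503478989216221645550051670309732352)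 c10_s187) (B (K (nat_lit 20839919904693236361007865009656479088805549285201202130586497225381475443893278772482817183946149193610266214248817219767709894472535900160) (nat_lit 3432398830864472486720726998804522000714951165819988819376504298894944284248548132398806628813880688425050092695968212480623854906565545096137871720330559488) (nat_lit 3432398830864472486720726998804522000714951165819988819376504298894944284248548132398806628813880688425050092695968212480623854906565545096137871720330559488) c10_s191) (K (nat_lit 20839919904693236361007865009656479088805549285201202130586497225381475443893278772482817183946149193610266214248817219767709894472535900160) (nat_lit 126633165605826663977847697343664183780196930912916041560072511702954816412455519573104607493423239027718908698619619515017740653818693698489708834068896118913637541740409782272) (nat_lit 126633165605826663977847697343664183780196930912916041560072511702954816412455519573104607493423239027718908698619619515017740653818693698489708834068896118913637541740409782272)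 c10_s192)))))))) (nat_lit 20839919904649913397037227277475566367178313602335007801283750091394436700446175314548354283586149593514889033341045482096437963662708178944) (nat_lit 126633165605826663977847697343664183781685496620349259659148576473242389724298885845723334832744471758580400577716111516222663129456987600776438228068066564343385866657022869504) (nat_lit 126633165605826663977847697343664183781685496620349259659148576473242389724298885845723334832744471758580400577716111516222663129456987600776438228068066564343385866657022869504) (by decide +kernel)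
noncomputable def c10_d254 : Cert := (B (M (nat_lit 391) (B (M (nat_lit 390) (B (L (nat_lit 393) ln6_12_0_c10 ln6_12_0_c10_ok) (L (nat_lit 389) ln5_12_0_c10 ln5_12_0_c10_ok))) (B (M (nat_lit 360) (B (M (nat_lit 457) (B (L (nat_lit 328) ln8_10_4_c10 ln8_10_4_c10_ok) (M (nat_lit 456) (B (L (nat_lit 489) ln8_11_4_c10 ln8_11_4_c10_ok) (M (nat_lit 359) (B (L (nat_lit 327) ln8_14_7_c10 ln8_14_7_c10_ok) (L (nat_lit 488) ln8_15_7_c10 ln8_15_7_c10_ok))))))) (B (M (nat_lit 361) (B (M (nat_lit 456) (B (L (nat_lit 329) ln8_14_6_c10 ln8_14_6_c10_ok) (M (nat_lit 359) (B (L (nat_lit 327) ln8_14_7_c10 ln8_14_7_c10_ok) (L (nat_lit 488) ln8_15_7_c10 ln8_15_7_c10_ok))))) (B (M (nat_lit 390) (B (L (nat_lit 389) ln5_12_0_c10 ln5_12_0_c10_ok) (M (nat_lit 362) (B (L (nat_lit 363) ln11_11_1 ln11_11_1_ok) (L (nat_lit 359) ln10_11_1 ln10_11_1_ok))))) (M (nat_lit 329) (B (L (nat_lit 456) ln8_14_6_c10 ln8_14_6_c10_ok) (M (nat_lit 297) (B (L (nat_lit 265) ln9_8_5_c10 ln9_8_5_c10_ok) (L (nat_lit 328) ln8_13_6_c10 ln8_13_6_c10_ok)))))))) (B (M (nat_lit 456)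 (B (M (nat_lit 359) (B (L (nat_lit 327) ln8_14_7_c10 ln8_14_7_c10_ok) (L (nat_lit 488) ln8_15_7_c10 ln8_15_7_c10_ok))) (M (nat_lit 457) (B (L (nat_lit 489) ln8_11_4_c10 ln8_11_4_c10_ok) (M (nat_lit 455) (B (L (nat_lit 454) ln6_14_2_c10 ln6_14_2_c10_ok) (L (nat_lit 487) ln8_11_5_c10 ln8_11_5_c10_ok))))))) (B (M (nat_lit 328) (B (L (nat_lit 457) ln8_10_4_c10 ln8_10_4_c10_ok) (M (nat_lit 296) (B (M (nat_lit 297) (B (L (nat_lit 265) ln8_12_6_c10 ln8_12_6_c10_ok) (L (nat_lit 329) ln8_13_6_c10 ln8_13_6_c10_ok))) (M (nat_lit 295) (B (L (nat_lit 263) ln8_12_7_c10 ln8_12_7_c10_ok) (L (nat_lit 327) ln8_13_7_c10 ln8_13_7_c10_ok))))))) (M (nat_lit 457) (B (L (nat_lit 328) ln8_10_4_c10 ln8_10_4_c10_ok) (M (nat_lit 456) (B (L (nat_lit 489) ln8_11_4_c10 ln8_11_4_c10_ok) (M (nat_lit 455) (B (L (nat_lit 454) ln6_14_2_c10 ln6_14_2_c10_ok) (L (nat_lit 487) ln8_11_5_c10 ln8_11_5_c10_ok)))))))))))) (M (nat_lit 360) (B (M (nat_lit 457) (B (L (nat_lit 328) ln8_10_4_c10 ln8_10_4_c10_ok) (M (nat_lit 489) (B (L (nat_lit 393) ln9_15_7 ln9_15_7_ok) (L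 (nat_lit 456) ln8_11_4_c10 ln8_11_4_c10_ok))))) (B (M (nat_lit 457) (B (L (nat_lit 328) ln8_10_4_c10 ln8_10_4_c10_ok) (M (nat_lit 456) (B (L (nat_lit 489) ln8_11_4_c10 ln8_11_4_c10_ok) (M (nat_lit 359) (B (L (nat_lit 327) ln8_14_7_c10 ln8_14_7_c10_ok) (L (nat_lit 488) ln8_15_7_c10 ln8_15_7_c10_ok))))))) (B (M (nat_lit 328) (B (M (nat_lit 296) (B (L (nat_lit 393) ln8_9_4_c10 ln8_9_4_c10_ok) (M (nat_lit 295) (B (L (nat_lit 263) ln8_12_7_c10 ln8_12_7_c10_ok) (L (nat_lit 327) ln8_13_7_c10 ln8_13_7_c10_ok))))) (B (M (nat_lit 456) (B (M (nat_lit 329) (B (L (nat_lit 297) ln8_13_6_c10 ln8_13_6_c10_ok) (L (nat_lit 361) ln8_14_6_c10 ln8_14_6_c10_ok))) (M (nat_lit 327) (B (L (nat_lit 295) ln8_13_7_c10 ln8_13_7_c10_ok) (L (nat_lit 359) ln8_14_7_c10 ln8_14_7_c10_ok))))) (M (nat_lit 296) (B (L (nat_lit 393) ln8_9_4_c10 ln8_9_4_c10_ok) (M (nat_lit 297) (B (L (nat_lit 265) ln8_12_6_c10 ln8_12_6_c10_ok) (L (nat_lit 329) ln8_13_6_c10 ln8_13_6_c10_ok)))))))) (B (M (nat_lit 456) (B (M (nat_lit 359) (B (L (nat_lit 327) ln8_14_7_c10 ln8_14_7_c10_ok)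 (L (nat_lit 488) ln8_15_7_c10 ln8_15_7_c10_ok))) (M (nat_lit 457) (B (L (nat_lit 489) ln8_11_4_c10 ln8_11_4_c10_ok) (M (nat_lit 455) (B (L (nat_lit 454) ln6_14_2_c10 ln6_14_2_c10_ok) (L (nat_lit 487) ln8_11_5_c10 ln8_11_5_c10_ok))))))) (M (nat_lit 328) (B (L (nat_lit 457) ln8_10_4_c10 ln8_10_4_c10_ok) (M (nat_lit 296) (B (L (nat_lit 393) ln8_9_4_c10 ln8_9_4_c10_ok) (M (nat_lit 295) (B (L (nat_lit 263) ln8_12_7_c10 ln8_12_7_c10_ok) (L (nat_lit 327) ln8_13_7_c10 ln8_13_7_c10_ok))))))))))))))) (B (M (nat_lit 456) (B (M (nat_lit 427) (B (L (nat_lit 391) ln11_13_3 ln11_13_3_ok) (L (nat_lit 455) ln11_13_1_c10 ln11_13_1_c10_ok))) (B (M (nat_lit 455) (B (M (nat_lit 454) (B (L (nat_lit 457) ln6_14_2_c10 ln6_14_2_c10_ok) (L (nat_lit 453) ln5_14_2_c10 ln5_14_2_c10_ok))) (M (nat_lit 487) (B (L (nat_lit 360) ln8_11_5_c10 ln8_11_5_c10_ok) (M (nat_lit 519) (B (L (nat_lit 488) ln8_12_5_c10 ln8_12_5_c10_ok) (L (nat_lit 551) ln7_17_6_c10 ln7_17_6_c10_ok))))))) (M (nat_lit 391) (B (L (nat_lit 427) ln11_13_3 ln11_13_3_ok) (M (nat_lit 359) (B (L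 (nat_lit 488) ln8_15_7_c10 ln8_15_7_c10_ok) (M (nat_lit 327) (B (L (nat_lit 360) ln8_14_7_c10 ln8_14_7_c10_ok) (L (nat_lit 295) ln7_9_4_c10 ln7_9_4_c10_ok)))))))))) (M (nat_lit 456) (B (M (nat_lit 455) (B (L (nat_lit 427) ln11_13_1_c10 ln11_13_1_c10_ok) (M (nat_lit 454) (B (L (nat_lit 457) ln6_14_2_c10 ln6_14_2_c10_ok) (L (nat_lit 453) ln5_14_2_c10 ln5_14_2_c10_ok))))) (B (M (nat_lit 455) (B (M (nat_lit 454) (B (L (nat_lit 457) ln6_14_2_c10 ln6_14_2_c10_ok) (L (nat_lit 453) ln5_14_2_c10 ln5_14_2_c10_ok))) (M (nat_lit 487) (B (L (nat_lit 360) ln8_11_5_c10 ln8_11_5_c10_ok) (M (nat_lit 519) (B (L (nat_lit 488) ln8_12_5_c10 ln8_12_5_c10_ok) (L (nat_lit 551) ln7_17_6_c10 ln7_17_6_c10_ok))))))) (B (M (nat_lit 455) (B (L (nat_lit 427) ln11_13_1_c10 ln11_13_1_c10_ok) (M (nat_lit 487) (B (L (nat_lit 360) ln8_11_5_c10 ln8_11_5_c10_ok) (M (nat_lit 519) (B (L (nat_lit 488) ln8_12_5_c10 ln8_12_5_c10_ok) (L (nat_lit 551) ln7_17_6_c10 ln7_17_6_c10_ok))))))) (M (nat_lit 488) (B (M (nat_lit 393) (B (L (nat_lit 361) ln8_15_6_c10 ln8_15_6_c10_ok)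 (L (nat_lit 520) ln8_16_6_c10 ln8_16_6_c10_ok))) (B (M (nat_lit 520) (B (L (nat_lit 393) ln8_16_6_c10 ln8_16_6_c10_ok) (M (nat_lit 519) (B (L (nat_lit 487) ln8_12_5_c10 ln8_12_5_c10_ok) (L (nat_lit 551) ln8_13_5_c10 ln8_13_5_c10_ok))))) (B (M (nat_lit 519) (B (L (nat_lit 487) ln8_12_5_c10 ln8_12_5_c10_ok) (M (nat_lit 457) (B (M (nat_lit 520) (B (L (nat_lit 552) ln8_17_6_c10 ln8_17_6_c10_ok) (L (nat_lit 551) ln8_13_5_c10 ln8_13_5_c10_ok))) (M (nat_lit 360) (B (L (nat_lit 328) ln8_10_4_c10 ln8_10_4_c10_ok) (L (nat_lit 489) ln8_11_4_c10 ln8_11_4_c10_ok))))))) (M (nat_lit 360) (B (M (nat_lit 361) (B (L (nat_lit 329) ln8_14_6_c10 ln8_14_6_c10_ok) (L (nat_lit 393) ln8_15_6_c10 ln8_15_6_c10_ok))) (M (nat_lit 457) (B (L (nat_lit 328) ln8_10_4_c10 ln8_10_4_c10_ok) (L (nat_lit 489) ln8_11_4_c10 ln8_11_4_c10_ok)))))))))))))))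
noncomputable def c10_d255 : Cert := (B (M (nat_lit 423) (B (M (nat_lit 459) (B (L (nat_lit 458) ln7_13_0 ln7_13_0_ok) (M (nat_lit 391) (B (L (nat_lit 390) ln10_13_3_c10 ln10_13_3_c10_ok) (L (nat_lit 427) ln8_13_0 ln8_13_0_ok))))) (B (M (nat_lit 394) (B (L (nat_lit 395) ln7_13_2 ln7_13_2_ok) (M (nat_lit 422) (B (L (nat_lit 393) ln6_13_2_c10 ln6_13_2_c10_ok) (M (nat_lit 390) (B (L (nat_lit 391) ln10_13_3_c10 ln10_13_3_c10_ok) (L (nat_lit 389) ln9_13_3_c10 ln9_13_3_c10_ok))))))) (M (nat_lit 459) (B (L (nat_lit 458) ln7_13_0 ln7_13_0_ok) (M (nat_lit 455) (B (L (nat_lit 454) ln10_13_1_c10 ln10_13_1_c10_ok) (L (nat_lit 427) ln8_13_0 ln8_13_0_ok)))))))) (B (M (nat_lit 423) (B (M (nat_lit 422) (B (M (nat_lit 458) (B (L (nat_lit 459) ln7_13_0 ln7_13_0_ok) (L (nat_lit 457) ln6_13_0_c10 ln6_13_0_c10_ok))) (M (nat_lit 390) (B (L (nat_lit 391) ln10_13_3_c10 ln10_13_3_c10_ok) (L (nat_lit 389) ln9_13_3_c10 ln9_13_3_c10_ok))))) (B (M (nat_lit 422) (B (M (nat_lit 390) (B (L (nat_lit 391) ln10_13_3_c10 ln10_13_3_c10_ok) (L (nat_lit 389) ln9_13_3_c10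 ln9_13_3_c10_ok))) (M (nat_lit 454) (B (L (nat_lit 455) ln10_13_1_c10 ln10_13_1_c10_ok) (L (nat_lit 453) ln9_13_1_c10 ln9_13_1_c10_ok))))) (B (M (nat_lit 422) (B (M (nat_lit 458) (B (L (nat_lit 459) ln7_13_0 ln7_13_0_ok) (L (nat_lit 457) ln6_13_0_c10 ln6_13_0_c10_ok))) (M (nat_lit 454) (B (L (nat_lit 455) ln10_13_1_c10 ln10_13_1_c10_ok) (L (nat_lit 453) ln9_13_1_c10 ln9_13_1_c10_ok))))) (M (nat_lit 427) (B (M (nat_lit 391) (B (L (nat_lit 392) ln11_13_3 ln11_13_3_ok) (L (nat_lit 390) ln10_13_3_c10 ln10_13_3_c10_ok))) (M (nat_lit 455) (B (L (nat_lit 456) ln11_13_1_c10 ln11_13_1_c10_ok) (L (nat_lit 454) ln10_13_1_c10 ln10_13_1_c10_ok))))))))) (B (M (nat_lit 394) (B (M (nat_lit 395) (B (L (nat_lit 423) ln7_13_2 ln7_13_2_ok) (L (nat_lit 396) ln13_12_1 ln13_12_1_ok))) (B (M (nat_lit 423) (B (L (nat_lit 395) ln7_13_2 ln7_13_2_ok) (M (nat_lit 422) (B (L (nat_lit 393) ln6_13_2_c10 ln6_13_2_c10_ok) (M (nat_lit 390) (B (L (nat_lit 391) ln10_13_3_c10 ln10_13_3_c10_ok) (L (nat_lit 389) ln9_13_3_c10 ln9_13_3_c10_ok))))))) (B (M (nat_lit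 458) (B (M (nat_lit 423) (B (L (nat_lit 459) ln7_13_0 ln7_13_0_ok) (M (nat_lit 422) (B (L (nat_lit 393) ln6_13_2_c10 ln6_13_2_c10_ok) (L (nat_lit 457) ln6_13_0_c10 ln6_13_0_c10_ok))))) (B (M (nat_lit 490) (B (M (nat_lit 393) (B (L (nat_lit 361) ln10_15_7 ln10_15_7_ok) (L (nat_lit 522) ln10_16_7 ln10_16_7_ok))) (B (M (nat_lit 362) (B (M (nat_lit 361) (B (L (nat_lit 329) ln10_14_7 ln10_14_7_ok) (L (nat_lit 393) ln10_15_7 ln10_15_7_ok))) (M (nat_lit 457) (B (L (nat_lit 330) ln10_10_5 ln10_10_5_ok) (L (nat_lit 489) ln10_11_5 ln10_11_5_ok))))) (B (M (nat_lit 522) (B (L (nat_lit 393) ln10_16_7 ln10_16_7_ok) (M (nat_lit 523) (B (L (nat_lit 491) ln10_12_4 ln10_12_4_ok) (L (nat_lit 555) ln10_13_4 ln10_13_4_ok))))) (M (nat_lit 523) (B (L (nat_lit 491) ln10_12_4 ln10_12_4_ok) (M (nat_lit 457) (B (M (nat_lit 362) (B (L (nat_lit 330) ln10_10_5 ln10_10_5_ok) (L (nat_lit 489) ln10_11_5 ln10_11_5_ok))) (M (nat_lit 522) (B (L (nat_lit 555) ln10_13_4 ln10_13_4_ok) (L (nat_lit 554) ln10_17_7 ln10_17_7_ok))))))))))) (B (M (nat_lit 362) (B (L (nat_lit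 459) ln13_14_3 ln13_14_3_ok) (M (nat_lit 457) (B (L (nat_lit 330) ln10_10_5 ln10_10_5_ok) (L (nat_lit 489) ln10_11_5 ln10_11_5_ok))))) (M (nat_lit 393) (B (M (nat_lit 423) (B (L (nat_lit 459) ln7_13_0 ln7_13_0_ok) (L (nat_lit 422) ln6_13_2_c10 ln6_13_2_c10_ok))) (M (nat_lit 361) (B (L (nat_lit 490) ln10_15_7 ln10_15_7_ok) (L (nat_lit 329) ln9_10_4_c10 ln9_10_4_c10_ok))))))))) (M (nat_lit 395) (B (L (nat_lit 396) ln13_12_1 ln13_12_1_ok) (M (nat_lit 362) (B (M (nat_lit 457) (B (L (nat_lit 330) ln10_10_5 ln10_10_5_ok) (M (nat_lit 489) (B (L (nat_lit 458) ln10_11_5 ln10_11_5_ok) (L (nat_lit 393) ln9_15_6 ln9_15_6_ok))))) (B (M (nat_lit 458) (B (M (nat_lit 363) (B (L (nat_lit 331) ln10_14_6 ln10_14_6_ok) (L (nat_lit 490) ln10_15_6 ln10_15_6_ok))) (M (nat_lit 457) (B (L (nat_lit 489) ln10_11_5 ln10_11_5_ok) (L (nat_lit 459) ln12_14_3 ln12_14_3_ok))))) (B (M (nat_lit 330) (B (L (nat_lit 457) ln10_10_5 ln10_10_5_ok) (M (nat_lit 298) (B (L (nat_lit 393) ln10_9_5_c10 ln10_9_5_c10_ok) (M (nat_lit 297) (B (L (nat_lit 265) ln10_12_7_c10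 ln10_12_7_c10_ok) (L (nat_lit 329) ln10_13_7_c10 ln10_13_7_c10_ok))))))) (M (nat_lit 330) (B (M (nat_lit 298) (B (L (nat_lit 393) ln10_9_5_c10 ln10_9_5_c10_ok) (M (nat_lit 297) (B (L (nat_lit 265) ln10_12_7_c10 ln10_12_7_c10_ok) (L (nat_lit 329) ln10_13_7_c10 ln10_13_7_c10_ok))))) (B (M (nat_lit 458) (B (M (nat_lit 331) (B (L (nat_lit 299) ln10_13_6 ln10_13_6_ok) (L (nat_lit 363) ln10_14_6 ln10_14_6_ok))) (M (nat_lit 329) (B (L (nat_lit 297) ln10_13_7_c10 ln10_13_7_c10_ok) (L (nat_lit 361) ln10_14_7 ln10_14_7_ok))))) (M (nat_lit 298) (B (L (nat_lit 393) ln10_9_5_c10 ln10_9_5_c10_ok) (M (nat_lit 299) (B (L (nat_lit 267) ln10_12_6_c10 ln10_12_6_c10_ok) (L (nat_lit 331) ln10_13_6 ln10_13_6_ok)))))))))))))))))) (B (K (nat_lit 20839919904693236361007865009656479088805549285201202130586497225381475443893278772482817183946149193610266214248817219767709894472535900160) (nat_lit 348882588040967242366885337551375654246762097176096696837996778388467438715128124517976695771967676228503921373862767195964139520334495744) (nat_lit 348882588040967242366885337551375654246762097176096696837996778388467438715128124517976695771967676228503921373862767195964139520334495744)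 c10_s209) (B (K (nat_lit 20839919904693236361007865009656479088805549285201202130586497225381475443893278772482817183946149193610266214248817219767709894472535900160) (nat_lit 2953872575916422338076748902047714555348318794631375690260419377402055232912931100885007475079777634104797951008375989402164970321942151168) (nat_lit 2953872575916422338076748902047714555348318794631375690260419377402055232912931100885007475079777634104797951008375989402164970321942151168) c10_s210) (M (nat_lit 392) (B (M (nat_lit 391) (B (L (nat_lit 427) ln11_13_3 ln11_13_3_ok) (M (nat_lit 390) (B (L (nat_lit 393) ln6_12_0_c10 ln6_12_0_c10_ok) (L (nat_lit 389) ln5_12_0_c10 ln5_12_0_c10_ok))))) c10_d254)))))))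
theorem c10_s211 : Sem (nat_lit 20839919904649913397037227277475566367178313602335007801283750091394436700446175314548354283586149593514889033341045482096437963662708178944) (nat_lit 199017549792785853965381943683538802438328344809513888106948983881914983941348647620851767285381796809977147785444818346459749514692711951070492933676368749687170138112) (nat_lit 199017549792785853965381943683538802438328344809513888106948983881914983941348647620851767285381796809977147785444818346459749514692711951070492933676368749687170138112) :=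
  sem_of_chk (M (nat_lit 424) (B (M (nat_lit 423) (B (M (nat_lit 422) (B (M (nat_lit 394) (B (L (nat_lit 395) ln7_13_2 ln7_13_2_ok) (L (nat_lit 393) ln6_13_2_c10 ln6_13_2_c10_ok))) (M (nat_lit 390) (B (L (nat_lit 391) ln10_13_3_c10 ln10_13_3_c10_ok) (L (nat_lit 389) ln9_13_3_c10 ln9_13_3_c10_ok))))) (B (M (nat_lit 422) (B (M (nat_lit 458) (B (L (nat_lit 459) ln7_13_0 ln7_13_0_ok) (L (nat_lit 457) ln6_13_0_c10 ln6_13_0_c10_ok))) (M (nat_lit 390) (B (L (nat_lit 391) ln10_13_3_c10 ln10_13_3_c10_ok) (L (nat_lit 389) ln9_13_3_c10 ln9_13_3_c10_ok))))) (B (M (nat_lit 422) (B (M (nat_lit 394) (B (L (nat_lit 395) ln7_13_2 ln7_13_2_ok) (L (nat_lit 393) ln6_13_2_c10 ln6_13_2_c10_ok))) (M (nat_lit 458) (B (L (nat_lit 459) ln7_13_0 ln7_13_0_ok) (L (nat_lit 457) ln6_13_0_c10 ln6_13_0_c10_ok))))) (M (nat_lit 427) (B (M (nat_lit 395) (B (L (nat_lit 396) ln8_13_2 ln8_13_2_ok) (L (nat_lit 394) ln7_13_2 ln7_13_2_ok))) (L (nat_lit 459) ln8_13_0 ln8_13_0_ok))))))) c10_d255)) (nat_lit 20839919904649913397037227277475566367178313602335007801283750091394436700446175314548354283586149593514889033341045482096437963662708178944)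 (nat_lit 199017549792785853965381943683538802438328344809513888106948983881914983941348647620851767285381796809977147785444818346459749514692711951070492933676368749687170138112) (nat_lit 199017549792785853965381943683538802438328344809513888106948983881914983941348647620851767285381796809977147785444818346459749514692711951070492933676368749687170138112) (by decide +kernel)
theorem c10_s218 : Sem (nat_lit 20839919904649913397037227277475566367178313602335007801283750091394436700446175314548354283586149593514889033341045482096437963662708178944) (nat_lit 3432398831264056303394022565511624519141729936427894433263270770187666515863004631326087489382769587827903738531188286663913408113620173763559673410160164864) (nat_lit 3432398831264056303394022565511624519141729936427894433263270770187666515863004631326087489382769587827903738531188286663913408113620173763559673410160164864) :=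
  sem_of_chk (M (nat_lit 424) (B (M (nat_lit 427) (B (L (nat_lit 459) ln8_13_0 ln8_13_0_ok) (M (nat_lit 423) (B (M (nat_lit 395) (B (L (nat_lit 396) ln8_13_2 ln8_13_2_ok) (L (nat_lit 394) ln7_13_2 ln7_13_2_ok))) (M (nat_lit 391) (B (L (nat_lit 392) ln11_13_3 ln11_13_3_ok) (L (nat_lit 390) ln10_13_3_c10 ln10_13_3_c10_ok))))))) (B (M (nat_lit 459) (B (L (nat_lit 427) ln8_13_0 ln8_13_0_ok) (L (nat_lit 458) ln13_14_3 ln13_14_3_ok))) (B (K (nat_lit 20839919904693236361007865009656479088805549285201202130586497225381475443893278772482817183946149193610266214248817219767709894472535900160) (nat_lit 348882588040967242518189041345530454421913611160648173849502977187054753920049571190280267374516964976334703792620843256661591003112669184) (nat_lit 348882588040967242518189041345530454421913611160648173849502977187054753920049571190280267374516964976334703792620843256661591003112669184) c10_s186) (K (nat_lit 20839919904693236361007865009656479088805549285201202130586497225381475443893278772482817183946149193610266214248817219767709894472535900160)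 (nat_lit 3432398831264056301161174004085613475477076991587298222230268416110288228807935921507988435722563836175888251122457637738503478989216221645550051670309732352) (nat_lit 3432398831264056301161174004085613475477076991587298222230268416110288228807935921507988435722563836175888251122457637738503478989216221645550051670309732352) c10_s187))))) (nat_lit 20839919904649913397037227277475566367178313602335007801283750091394436700446175314548354283586149593514889033341045482096437963662708178944) (nat_lit 3432398831264056303394022565511624519141729936427894433263270770187666515863004631326087489382769587827903738531188286663913408113620173763559673410160164864) (nat_lit 3432398831264056303394022565511624519141729936427894433263270770187666515863004631326087489382769587827903738531188286663913408113620173763559673410160164864) (by decide +kernel)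
theorem c10_s220 : Sem (nat_lit 20839919904649913397037227277475566367178313602335007801283750091394436700446175314548354283586149593514889033341045482096437963662708178944) (nat_lit 18427550908455630339603127839348170011212577104484362457739038529965578621030138923483384268037860112563619839879097379491187316736573859896556414885000808432576495616) (nat_lit 18427550908455630339603127839348170011212577104484362457739038529965578621030138923483384268037860112563619839879097379491187316736573859896556414885000808432576495616) :=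
  sem_of_chk (M (nat_lit 424) (B (M (nat_lit 427) (B (L (nat_lit 459) ln8_13_0 ln8_13_0_ok) (M (nat_lit 423) (B (M (nat_lit 395) (B (L (nat_lit 396) ln8_13_2 ln8_13_2_ok) (L (nat_lit 394) ln7_13_2 ln7_13_2_ok))) (M (nat_lit 391) (B (L (nat_lit 392) ln11_13_3 ln11_13_3_ok) (L (nat_lit 390) ln10_13_3_c10 ln10_13_3_c10_ok))))))) (B (M (nat_lit 459) (B (L (nat_lit 427) ln8_13_0 ln8_13_0_ok) (L (nat_lit 458) ln13_14_3 ln13_14_3_ok))) (B (K (nat_lit 20839919904693236361007865009656479088805549285201202130586497225381475443893278772482817183946149193610266214248817219767709894472535900160) (nat_lit 18427550908455630338004792581586381988355292646812088139151786159282376086556672172675658160788095102322238626578790053359267521481401580289126336982455919632787177472) (nat_lit 18427550908455630338004792581586381988355292646812088139151786159282376086556672172675658160788095102322238626578790053359267521481401580289126336982455919632787177472) c10_s219) (K (nat_lit 20839919904693236361007865009656479088805549285201202130586497225381475443893278772482817183946149193610266214248817219767709894472535900160)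 (nat_lit 1716199417030571501668734242724057760579248164654205688169727520667871733086561579786291902442091470149943655289166821044159139298099986590543574800560816128) (nat_lit 1716199417030571501668734242724057760579248164654205688169727520667871733086561579786291902442091470149943655289166821044159139298099986590543574800560816128) c10_s188))))) (nat_lit 20839919904649913397037227277475566367178313602335007801283750091394436700446175314548354283586149593514889033341045482096437963662708178944) (nat_lit 18427550908455630339603127839348170011212577104484362457739038529965578621030138923483384268037860112563619839879097379491187316736573859896556414885000808432576495616) (nat_lit 18427550908455630339603127839348170011212577104484362457739038529965578621030138923483384268037860112563619839879097379491187316736573859896556414885000808432576495616) (by decide +kernel)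
theorem c10_s252 : Sem (nat_lit 20839919904649913397037227277475566367178313602335007801283750091394436700446175314548354283586149593514889033341045482096437963662708178944) (nat_lit 6864797664925615491221137442443271864459428960389360166545291554629501887293001971222552502497519111268804262234105827828296316552161925522750008740383031296) (nat_lit 6864797664925615491221137442443271864459428960389360166545291554629501887293001971222552502497519111268804262234105827828296316552161925522750008740383031296) :=
  sem_of_chk (M (nat_lit 424) (B (M (nat_lit 427) (B (L (nat_lit 459) ln8_13_0 ln8_13_0_ok) (M (nat_lit 423) (B (M (nat_lit 395) (B (L (nat_lit 396) ln8_13_2 ln8_13_2_ok) (L (nat_lit 394) ln7_13_2 ln7_13_2_ok))) (M (nat_lit 391) (B (L (nat_lit 392) ln11_13_3 ln11_13_3_ok) (L (nat_lit 390) ln10_13_3_c10 ln10_13_3_c10_ok))))))) (B (M (nat_lit 459) (B (L (nat_lit 427) ln8_13_0 ln8_13_0_ok) (L (nat_lit 458) ln13_14_3 ln13_14_3_ok))) (B (K (nat_lit 20839919904693236361007865009656479088805549285201202130586497225381475443893278772482817183946149193610266214248817219767709894472535900160)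 (nat_lit 348882588040967242518189041345530454421913611160648173849502977187054753920049571190280267374516964976334703792620843256661591003112669184) (nat_lit 348882588040967242518189041345530454421913611160648173849502977187054753920049571190280267374516964976334703792620843256661591003112669184) c10_s186) (K (nat_lit 20839919904693236361007865009656479088805549285201202130586497225381475443893278772482817183946149193610266214248817219767709894472535900160) (nat_lit 6864797664925615491035066728633689824571584944975107737573799837981974492856509249043894529817647148591855868861830093605471596109752992061527328421192925184) (nat_lit 6864797664925615491035066728633689824571584944975107737573799837981974492856509249043894529817647148591855868861830093605471596109752992061527328421192925184) c10_s251))))) (nat_lit 20839919904649913397037227277475566367178313602335007801283750091394436700446175314548354283586149593514889033341045482096437963662708178944) (nat_lit 6864797664925615491221137442443271864459428960389360166545291554629501887293001971222552502497519111268804262234105827828296316552161925522750008740383031296)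 (nat_lit 6864797664925615491221137442443271864459428960389360166545291554629501887293001971222552502497519111268804262234105827828296316552161925522750008740383031296) (by decide +kernel)
theorem c10_s268 : Sem (nat_lit 20839919904693236361007865009656479088805549285201202130586497225381475443893278772482817183946149193610266214248817219767709894472535900160) (nat_lit 82923979088050336521021566605230193288977869917727739427968402649136542854873333547240162748249780501832081998661148712438954291332120932290820936991370943532911034368) (nat_lit 82923979088050336521021566605230193288977869917727739427968402649136542854873333547240162748249780501832081998661148712438954291332120932290820936991370943532911034368) :=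
  sem_of_chk (M (nat_lit 423) (B (K (nat_lit 20839919904714897842993183875746935449619167126634299295237870792374994815616830501450048634126148993657954804702703088603345859877449760768) (nat_lit 73710203633822521352019170315913938582216897713660902786717419726397191467749681776568445414215075933919393924279941426357876532347243592840603563252821410541765394432) (nat_lit 73710203633822521352019170315913938582216897713660902786717419726397191467749681776568445414215075933919393924279941426357876532347243592840603563252821410541765394432) c10_s262) (B (K (nat_lit 20839919904714897842993183875746935449619167126634299295237870792374994815616830501450048634126148993657954804702703088603345859877449760768) (nat_lit 3432398832462807745517533364316844912285792472487553868786899918990987246428254624521947264908823574295927934430915046802735798054876496030763664210596462592) (nat_lit 3432398832462807745517533364316844912285792472487553868786899918990987246428254624521947264908823574295927934430915046802735798054876496030763664210596462592)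 c10_s261) (B (M (nat_lit 422) (B (M (nat_lit 421) (B (M (nat_lit 453) (B (L (nat_lit 452) ln8_13_1_c10 ln8_13_1_c10_ok) (L (nat_lit 454) ln9_13_1_c10 ln9_13_1_c10_ok))) (M (nat_lit 389) (B (L (nat_lit 388) ln8_13_3_c10 ln8_13_3_c10_ok) (L (nat_lit 390) ln9_13_3_c10 ln9_13_3_c10_ok))))) (B (M (nat_lit 389) (B (L (nat_lit 390) ln9_13_3_c10 ln9_13_3_c10_ok) (M (nat_lit 421) (B (L (nat_lit 388) ln8_13_3_c10 ln8_13_3_c10_ok) (M (nat_lit 457) (B (L (nat_lit 456) ln5_13_0_c10 ln5_13_0_c10_ok) (L (nat_lit 458) ln6_13_0_c10 ln6_13_0_c10_ok))))))) (B (M (nat_lit 421) (B (M (nat_lit 453) (B (L (nat_lit 452) ln8_13_1_c10 ln8_13_1_c10_ok) (L (nat_lit 454) ln9_13_1_c10 ln9_13_1_c10_ok))) (M (nat_lit 457) (B (L (nat_lit 456) ln5_13_0_c10 ln5_13_0_c10_ok) (L (nat_lit 458) ln6_13_0_c10 ln6_13_0_c10_ok))))) (M (nat_lit 390) (B (L (nat_lit 389) ln9_13_3_c10 ln9_13_3_c10_ok) (M (nat_lit 454) (B (L (nat_lit 453) ln9_13_1_c10 ln9_13_1_c10_ok) (M (nat_lit 486) (B (L (nat_lit 391) ln10_13_3_c10 ln10_13_3_c10_ok) (M (nat_lit 518) (B (M (nat_lit 517)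 (B (L (nat_lit 549) ln6_13_5_c10 ln6_13_5_c10_ok) (L (nat_lit 485) ln6_12_5_c10 ln6_12_5_c10_ok))) (M (nat_lit 519) (B (L (nat_lit 551) ln6_13_4_c10 ln6_13_4_c10_ok) (L (nat_lit 487) ln6_12_4_c10 ln6_12_4_c10_ok))))))))))))))) (B (K (nat_lit 20839919904714897842993183875746935449619167126634299295237870792374994815616830501450048634126148993657954804702703088603345859877449760768) (nat_lit 81405937137354083310578292642372360217172222955294319491979107750956916690635296335384291954623701340965634290242362137401917512393687040) (nat_lit 81405937137354083310578292642372360217172222955294319491979107750956916690635296335384291954623701340965634290242362137401917512393687040) c10_s266) (B (K (nat_lit 20839919904714897842993183875746935449619167126634299295237870792374994815616830501450048634126148993657954804702703088603345859877449760768) (nat_lit 73710203633822521352019170315913938582216897713656489762023423544725416215258465691822276483416783803892583715418665905519468844758765195020056452701051068206851031040) (nat_lit 73710203633822521352019170315913938582216897713656489762023423544725416215258465691822276483416783803892583715418665905519468844758765195020056452701051068206851031040)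 c10_s264) (B (K (nat_lit 20839919904714897842993183875746935449619167126634299295237870792374994815616830501450048634126148993657954804702703088603345859877449760768) (nat_lit 3432398832462807745436127427195736940544268206004097360939292086594007623676727722213715664640123006883394536750973527459930395634974684102207788828191621120) (nat_lit 3432398832462807745436127427195736940544268206004097360939292086594007623676727722213715664640123006883394536750973527459930395634974684102207788828191621120) c10_s263) (K (nat_lit 20839919904714897842993183875746935449619167126634299295237870792374994815616830501450048634126148993657954804702703088603345859877449760768) (nat_lit 10297196492593417459673745372928766302150286968092665826501819819194176689030749380866164711453113324045845291787490947326717407246094795558112476573401612288) (nat_lit 10297196492593417459673745372928766302150286968092665826501819819194176689030749380866164711453113324045845291787490947326717407246094795558112476573401612288) c10_s267)))))))) (nat_lit 20839919904693236361007865009656479088805549285201202130586497225381475443893278772482817183946149193610266214248817219767709894472535900160)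 (nat_lit 82923979088050336521021566605230193288977869917727739427968402649136542854873333547240162748249780501832081998661148712438954291332120932290820936991370943532911034368) (nat_lit 82923979088050336521021566605230193288977869917727739427968402649136542854873333547240162748249780501832081998661148712438954291332120932290820936991370943532911034368) (by decide +kernel)
noncomputable def c10_d256 : Cert := (B (M (nat_lit 422) (B (M (nat_lit 421) (B (M (nat_lit 457) (B (L (nat_lit 458) ln6_13_0_c10 ln6_13_0_c10_ok) (L (nat_lit 456) ln5_13_0_c10 ln5_13_0_c10_ok))) (M (nat_lit 393) (B (L (nat_lit 394) ln6_13_2_c10 ln6_13_2_c10_ok) (L (nat_lit 392) ln5_13_2_c10 ln5_13_2_c10_ok))))) (B (M (nat_lit 421) (B (M (nat_lit 393) (B (L (nat_lit 394) ln6_13_2_c10 ln6_13_2_c10_ok) (L (nat_lit 392) ln5_13_2_c10 ln5_13_2_c10_ok))) (M (nat_lit 389) (B (L (nat_lit 390) ln9_13_3_c10 ln9_13_3_c10_ok) (L (nat_lit 388) ln8_13_3_c10 ln8_13_3_c10_ok))))) (B (M (nat_lit 394) (B (L (nat_lit 395) ln7_13_2 ln7_13_2_ok) (L (nat_lit 393) ln6_13_2_c10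 ln6_13_2_c10_ok))) (M (nat_lit 421) (B (M (nat_lit 457) (B (L (nat_lit 458) ln6_13_0_c10 ln6_13_0_c10_ok) (L (nat_lit 456) ln5_13_0_c10 ln5_13_0_c10_ok))) (M (nat_lit 389) (B (L (nat_lit 390) ln9_13_3_c10 ln9_13_3_c10_ok) (L (nat_lit 388) ln8_13_3_c10 ln8_13_3_c10_ok))))))))) (B (K (nat_lit 20839919904714897842993183875746935449619167126634299295237870792374994815616830501450048634126148993657954804702703088603345859877449760768) (nat_lit 3432398832462807745436127427195736940544268206004097360939292086594007623676727722213715664640123006883394536750973527459930395634974684102207788828191621120) (nat_lit 3432398832462807745436127427195736940544268206004097360939292086594007623676727722213715664640123006883394536750973527459930395634974684102207788828191621120) c10_s263) (B (K (nat_lit 20839919904714897842993183875746935449619167126634299295237870792374994815616830501450048634126148993657954804702703088603345859877449760768) (nat_lit 3432398830864472487023091907762203070291876549327256039356642713023811802714521773468208813620083509679895830688993351656174773520546947602280947666177228800)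 (nat_lit 3432398830864472487023091907762203070291876549327256039356642713023811802714521773468208813620083509679895830688993351656174773520546947602280947666177228800) c10_s257) (B (M (nat_lit 422) (B (M (nat_lit 394) (B (L (nat_lit 395) ln7_13_2 ln7_13_2_ok) (L (nat_lit 393) ln6_13_2_c10 ln6_13_2_c10_ok))) (M (nat_lit 390) (B (L (nat_lit 391) ln10_13_3_c10 ln10_13_3_c10_ok) (L (nat_lit 389) ln9_13_3_c10 ln9_13_3_c10_ok))))) (B (K (nat_lit 20839919904714897842993183875746935449619167126634299295237870792374994815616830501450048634126148993657954804702703088603345859877449760768) (nat_lit 10297196492593417459673745372593013331466105037552314662305513321010081771629248623405255119124854457508931126640698247862554712249013581552434345266544377856) (nat_lit 10297196492593417459673745372593013331466105037552314662305513321010081771629248623405255119124854457508931126640698247862554712249013581552434345266544377856) c10_s269) (B (K (nat_lit 20839919904714897842993183875746935449619167126634299295237870792374994815616830501450048634126148993657954804702703088603345859877449760768)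 (nat_lit 10297196492593417459673745372928766302150286968092665826501819819194176689030749380866164711453113324045845291787490947326717407246094795558112476573401612288) (nat_lit 10297196492593417459673745372928766302150286968092665826501819819194176689030749380866164711453113324045845291787490947326717407246094795558112476573401612288) c10_s267) (M (nat_lit 391) (B (L (nat_lit 390) ln10_13_3_c10 ln10_13_3_c10_ok) (M (nat_lit 392) (B (L (nat_lit 427) ln11_13_3 ln11_13_3_ok) (M (nat_lit 359) (B (M (nat_lit 327) (B (L (nat_lit 295) ln7_9_4_c10 ln7_9_4_c10_ok) (M (nat_lit 328) (B (L (nat_lit 296) ln7_13_6_c10 ln7_13_6_c10_ok) (M (nat_lit 455) (B (L (nat_lit 360) ln8_10_5_c10 ln8_10_5_c10_ok) (M (nat_lit 326) (B (L (nat_lit 358) ln7_14_7_c10 ln7_14_7_c10_ok) (L (nat_lit 294) ln7_13_7_c10 ln7_13_7_c10_ok))))))))) (B (M (nat_lit 327) (B (L (nat_lit 295) ln7_9_4_c10 ln7_9_4_c10_ok) (M (nat_lit 328) (B (L (nat_lit 296) ln7_13_6_c10 ln7_13_6_c10_ok) (M (nat_lit 360) (B (L (nat_lit 455) ln8_10_5_c10 ln8_10_5_c10_ok) (M (nat_lit 326) (B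 (L (nat_lit 294) ln7_13_7_c10 ln7_13_7_c10_ok) (M (nat_lit 325) (B (L (nat_lit 324) ln4_10_0_c10 ln4_10_0_c10_ok) (L (nat_lit 361) ln5_10_0_c10 ln5_10_0_c10_ok))))))))))) (B (M (nat_lit 327) (B (L (nat_lit 295) ln7_9_4_c10 ln7_9_4_c10_ok) (M (nat_lit 328) (B (L (nat_lit 296) ln7_13_6_c10 ln7_13_6_c10_ok) (M (nat_lit 360) (B (L (nat_lit 455) ln8_10_5_c10 ln8_10_5_c10_ok) (M (nat_lit 329) (B (L (nat_lit 297) ln8_13_6_c10 ln8_13_6_c10_ok) (M (nat_lit 358) (B (L (nat_lit 357) ln5_11_2_c10 ln5_11_2_c10_ok) (L (nat_lit 330) ln10_10_1_c10 ln10_10_1_c10_ok))))))))))) (B (M (nat_lit 327) (B (L (nat_lit 295) ln7_9_4_c10 ln7_9_4_c10_ok) (M (nat_lit 328) (B (L (nat_lit 296) ln7_13_6_c10 ln7_13_6_c10_ok) (M (nat_lit 360) (B (M (nat_lit 326) (B (L (nat_lit 294) ln7_13_7_c10 ln7_13_7_c10_ok) (M (nat_lit 325) (B (L (nat_lit 324) ln4_10_0_c10 ln4_10_0_c10_ok) (L (nat_lit 361) ln5_10_0_c10 ln5_10_0_c10_ok))))) (M (nat_lit 329) (B (L (nat_lit 297) ln8_13_6_c10 ln8_13_6_c10_ok) (M (nat_lit 358) (B (L (nat_lit 357) ln5_11_2_c10 ln5_11_2_c10_ok)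 (L (nat_lit 330) ln10_10_1_c10 ln10_10_1_c10_ok))))))))))) (B (M (nat_lit 360) (B (M (nat_lit 455) (B (L (nat_lit 487) ln7_15_6_c10 ln7_15_6_c10_ok) (L (nat_lit 328) ln8_10_5_c10 ln8_10_5_c10_ok))) (B (M (nat_lit 328) (B (L (nat_lit 455) ln8_10_5_c10 ln8_10_5_c10_ok) (L (nat_lit 296) ln8_9_5_c10 ln8_9_5_c10_ok))) (B (M (nat_lit 328) (B (L (nat_lit 296) ln8_9_5_c10 ln8_9_5_c10_ok) (M (nat_lit 329) (B (L (nat_lit 297) ln8_13_6_c10 ln8_13_6_c10_ok) (M (nat_lit 358) (B (L (nat_lit 357) ln5_11_2_c10 ln5_11_2_c10_ok) (M (nat_lit 330) (B (L (nat_lit 361) ln6_11_2_c10 ln6_11_2_c10_ok) (L (nat_lit 331) ln11_10_1_c10 ln11_10_1_c10_ok))))))))) (M (nat_lit 358) (B (M (nat_lit 357) (B (L (nat_lit 356) ln4_11_0_c10 ln4_11_0_c10_ok) (L (nat_lit 393) ln5_11_0_c10 ln5_11_0_c10_ok))) (M (nat_lit 455) (B (L (nat_lit 326) ln7_14_7_c10 ln7_14_7_c10_ok) (L (nat_lit 487) ln7_15_6_c10 ln7_15_6_c10_ok))))))))) (B (M (nat_lit 327) (B (L (nat_lit 295) ln7_9_4_c10 ln7_9_4_c10_ok) (M (nat_lit 328) (B (L (nat_lit 296) ln7_13_6_c10 ln7_13_6_c10_ok) (M (nat_lit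 326) (B (L (nat_lit 294) ln7_13_7_c10 ln7_13_7_c10_ok) (M (nat_lit 358) (B (L (nat_lit 455) ln7_14_7_c10 ln7_14_7_c10_ok) (M (nat_lit 357) (B (L (nat_lit 356) ln4_11_0_c10 ln4_11_0_c10_ok) (L (nat_lit 329) ln9_10_1_c10 ln9_10_1_c10_ok))))))))))) (M (nat_lit 327) (B (L (nat_lit 295) ln7_9_4_c10 ln7_9_4_c10_ok) (M (nat_lit 326) (B (L (nat_lit 294) ln7_13_7_c10 ln7_13_7_c10_ok) (M (nat_lit 358) (B (L (nat_lit 455) ln7_14_7_c10 ln7_14_7_c10_ok) (M (nat_lit 360) (B (M (nat_lit 357) (B (L (nat_lit 356) ln4_11_0_c10 ln4_11_0_c10_ok) (L (nat_lit 393) ln5_11_0_c10 ln5_11_0_c10_ok))) (M (nat_lit 325) (B (L (nat_lit 324) ln4_10_0_c10 ln4_10_0_c10_ok) (L (nat_lit 361) ln9_11_3_c10 ln9_11_3_c10_ok))))))))))))))))))))))))))))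
theorem c10_s270 : Sem (nat_lit 20839919904693236361007865009656479088805549285201202130586497225381475443893278772482817183946149193610266214248817219767709894472535900160) (nat_lit 10297196492993001274951510588974765164301866587996297578029690945870000448577844948958842673392544980913076705575417757333211727360111519484297507747666067456) (nat_lit 10297196492993001274951510588974765164301866587996297578029690945870000448577844948958842673392544980913076705575417757333211727360111519484297507747666067456) :=
  sem_of_chk (M (nat_lit 423) c10_d256) (nat_lit 20839919904693236361007865009656479088805549285201202130586497225381475443893278772482817183946149193610266214248817219767709894472535900160) (nat_lit 10297196492993001274951510588974765164301866587996297578029690945870000448577844948958842673392544980913076705575417757333211727360111519484297507747666067456) (nat_lit 10297196492993001274951510588974765164301866587996297578029690945870000448577844948958842673392544980913076705575417757333211727360111519484297507747666067456)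 (by decide +kernel)
theorem c10_s272 : Sem (nat_lit 20839919904693236361007865009656479088805549285201202130586497225381475443893278772482817183946149193610266214248817219767709894472535900160) (nat_lit 10297196492593417459755151310090489552717044540656511948306415002336659348701720296950657790586044185527318149455156479952686597333088357289507134638062043136) (nat_lit 10297196492593417459755151310090489552717044540656511948306415002336659348701720296950657790586044185527318149455156479952686597333088357289507134638062043136) :=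
  sem_of_chk (M (nat_lit 423) (B (M (nat_lit 422) (B (M (nat_lit 421) (B (M (nat_lit 393) (B (L (nat_lit 394) ln6_13_2_c10 ln6_13_2_c10_ok) (L (nat_lit 392) ln5_13_2_c10 ln5_13_2_c10_ok))) (M (nat_lit 453) (B (L (nat_lit 454) ln9_13_1_c10 ln9_13_1_c10_ok) (L (nat_lit 452) ln8_13_1_c10 ln8_13_1_c10_ok))))) (B (M (nat_lit 389) (B (L (nat_lit 390) ln9_13_3_c10 ln9_13_3_c10_ok) (M (nat_lit 421) (B (L (nat_lit 388) ln8_13_3_c10 ln8_13_3_c10_ok) (M (nat_lit 453) (B (L (nat_lit 454) ln9_13_1_c10 ln9_13_1_c10_ok) (L (nat_lit 452) ln8_13_1_c10 ln8_13_1_c10_ok))))))) (B (M (nat_lit 421) (B (M (nat_lit 393) (B (L (nat_lit 394) ln6_13_2_c10 ln6_13_2_c10_ok) (L (nat_lit 392) ln5_13_2_c10 ln5_13_2_c10_ok))) (M (nat_lit 389) (B (L (nat_lit 390) ln9_13_3_c10 ln9_13_3_c10_ok) (L (nat_lit 388) ln8_13_3_c10 ln8_13_3_c10_ok))))) (M (nat_lit 394) (B (L (nat_lit 395) ln7_13_2 ln7_13_2_ok) (L (nat_lit 393) ln6_13_2_c10 ln6_13_2_c10_ok))))))) (B (K (nat_lit 20839919904714897842993183875746935449619167126634299295237870792374994815616830501450048634126148993657954804702703088603345859877449760768)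 (nat_lit 81405937137354083310578292642372360217172222955294319491979107750956916690635296335384291954623701340965634290242362137401917512393687040) (nat_lit 81405937137354083310578292642372360217172222955294319491979107750956916690635296335384291954623701340965634290242362137401917512393687040) c10_s266) (B (M (nat_lit 422) (B (M (nat_lit 394) (B (L (nat_lit 395) ln7_13_2 ln7_13_2_ok) (L (nat_lit 393) ln6_13_2_c10 ln6_13_2_c10_ok))) (M (nat_lit 390) (B (L (nat_lit 391) ln10_13_3_c10 ln10_13_3_c10_ok) (L (nat_lit 389) ln9_13_3_c10 ln9_13_3_c10_ok))))) (B (K (nat_lit 20839919904714897842993183875746935449619167126634299295237870792374994815616830501450048634126148993657954804702703088603345859877449760768) (nat_lit 10297196492593417459673745372593013331466105037552314662305513321010081771629248623405255119124854457508931126640698247862554712249013581552434345266544377856) (nat_lit 10297196492593417459673745372593013331466105037552314662305513321010081771629248623405255119124854457508931126640698247862554712249013581552434345266544377856)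 c10_s269) (B (K (nat_lit 20839919904714897842993183875746935449619167126634299295237870792374994815616830501450048634126148993657954804702703088603345859877449760768) (nat_lit 10297196492593417459673745372928766302150286968092665826501819819194176689030749380866164711453113324045845291787490947326717407246094795558112476573401612288) (nat_lit 10297196492593417459673745372928766302150286968092665826501819819194176689030749380866164711453113324045845291787490947326717407246094795558112476573401612288) c10_s267) (M (nat_lit 422) (B (M (nat_lit 390) (B (L (nat_lit 389) ln9_13_3_c10 ln9_13_3_c10_ok) (L (nat_lit 391) ln10_13_3_c10 ln10_13_3_c10_ok))) (B (M (nat_lit 391) (B (L (nat_lit 390) ln10_13_3_c10 ln10_13_3_c10_ok) (M (nat_lit 392) (B (L (nat_lit 427) ln11_13_3 ln11_13_3_ok) (M (nat_lit 421) (B (L (nat_lit 420) ln4_13_2_c10 ln4_13_2_c10_ok) (L (nat_lit 393) ln5_13_2_c10 ln5_13_2_c10_ok))))))) (B (M (nat_lit 421) (B (M (nat_lit 453) (B (L (nat_lit 452) ln8_13_1_c10 ln8_13_1_c10_ok) (L (nat_lit 454) ln9_13_1_c10 ln9_13_1_c10_ok)))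 (M (nat_lit 392) (B (L (nat_lit 393) ln5_13_2_c10 ln5_13_2_c10_ok) (M (nat_lit 391) (B (L (nat_lit 420) ln4_13_2_c10 ln4_13_2_c10_ok) (L (nat_lit 427) ln11_13_3 ln11_13_3_ok))))))) (M (nat_lit 421) (B (M (nat_lit 389) (B (L (nat_lit 388) ln8_13_3_c10 ln8_13_3_c10_ok) (L (nat_lit 390) ln9_13_3_c10 ln9_13_3_c10_ok))) (M (nat_lit 453) (B (L (nat_lit 452) ln8_13_1_c10 ln8_13_1_c10_ok) (L (nat_lit 454) ln9_13_1_c10 ln9_13_1_c10_ok))))))))))))))) (nat_lit 20839919904693236361007865009656479088805549285201202130586497225381475443893278772482817183946149193610266214248817219767709894472535900160) (nat_lit 10297196492593417459755151310090489552717044540656511948306415002336659348701720296950657790586044185527318149455156479952686597333088357289507134638062043136) (nat_lit 10297196492593417459755151310090489552717044540656511948306415002336659348701720296950657790586044185527318149455156479952686597333088357289507134638062043136) (by decide +kernel)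
theorem c10_s295 : Sem (nat_lit 20839919904563267469136299467468243040968311306576724125601814824542818561135580730608205265846292373090681313944358956363619163917254656000) (nat_lit 744282853765347383964652179525397379051428171549987757857649166709520217330720733759671486419769349685382631311038338362165628034468544512) (nat_lit 744282853765347383964652179525397379051428171549987757857649166709520217330720733759671486419769349685382631311038338362165628034468544512) :=
  sem_of_chk (M (nat_lit 330) (B (M (nat_lit 298) (B (M (nat_lit 266) (B (M (nat_lit 267) (B (L (nat_lit 235) ln10_11_6_c10 ln10_11_6_c10_ok) (L (nat_lit 299) ln10_12_6_c10 ln10_12_6_c10_ok))) (M (nat_lit 265) (B (L (nat_lit 233) ln10_11_7_c10 ln10_11_7_c10_ok) (L (nat_lit 297) ln10_12_7_c10 ln10_12_7_c10_ok))))) (B (M (nat_lit 266) (B (M (nat_lit 265) (B (L (nat_lit 233) ln10_11_7_c10 ln10_11_7_c10_ok) (L (nat_lit 297) ln10_12_7_c10 ln10_12_7_c10_ok))) (M (nat_lit 393) (B (L (nat_lit 361) ln10_8_5_c10 ln10_8_5_c10_ok) (L (nat_lit 425) ln10_9_5_c10 ln10_9_5_c10_ok)))))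 (B (M (nat_lit 297) (B (L (nat_lit 265) ln10_12_7_c10 ln10_12_7_c10_ok) (M (nat_lit 299) (B (L (nat_lit 267) ln10_12_6_c10 ln10_12_6_c10_ok) (L (nat_lit 331) ln10_13_6 ln10_13_6_ok))))) (M (nat_lit 266) (B (M (nat_lit 267) (B (L (nat_lit 235) ln10_11_6_c10 ln10_11_6_c10_ok) (L (nat_lit 299) ln10_12_6_c10 ln10_12_6_c10_ok))) (M (nat_lit 393) (B (L (nat_lit 361) ln10_8_5_c10 ln10_8_5_c10_ok) (L (nat_lit 425) ln10_9_5_c10 ln10_9_5_c10_ok))))))))) (B (M (nat_lit 298) (B (M (nat_lit 297) (B (L (nat_lit 265) ln10_12_7_c10 ln10_12_7_c10_ok) (M (nat_lit 299) (B (L (nat_lit 267) ln10_12_6_c10 ln10_12_6_c10_ok) (L (nat_lit 331) ln10_13_6 ln10_13_6_ok))))) (B (M (nat_lit 297) (B (L (nat_lit 265) ln10_12_7_c10 ln10_12_7_c10_ok) (L (nat_lit 329) ln10_13_7_c10 ln10_13_7_c10_ok))) (M (nat_lit 299) (B (L (nat_lit 267) ln10_12_6_c10 ln10_12_6_c10_ok) (L (nat_lit 331) ln10_13_6 ln10_13_6_ok)))))) (B (M (nat_lit 329) (B (L (nat_lit 297) ln10_13_7_c10 ln10_13_7_c10_ok) (M (nat_lit 458) (B (L (nat_lit 361) ln10_14_7 ln10_14_7_ok) (M (nat_lit 331)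 (B (L (nat_lit 299) ln10_13_6 ln10_13_6_ok) (L (nat_lit 363) ln10_14_6 ln10_14_6_ok))))))) (B (K (nat_lit 20839919904563267469136299467468243040970498557301507137526187326769936182500933900039098478282718143697091266943558332286842677094277709824) (nat_lit 86645928042144600248080735871112167480372534216863457478293742093040187886144385875065635895249103637140161179133448850981781504) (nat_lit 86645928042144600248080735871112167480372534216863457478293742093040187886144385875065635895249103637140161179133448850981781504) c10_s293) (B (M (nat_lit 298) (B (M (nat_lit 266) (B (M (nat_lit 267) (B (L (nat_lit 235) ln10_11_6_c10 ln10_11_6_c10_ok) (L (nat_lit 299) ln10_12_6_c10 ln10_12_6_c10_ok))) (M (nat_lit 393) (B (L (nat_lit 361) ln10_8_5_c10 ln10_8_5_c10_ok) (L (nat_lit 425) ln10_9_5_c10 ln10_9_5_c10_ok))))) (B (M (nat_lit 266) (B (M (nat_lit 265) (B (L (nat_lit 233) ln10_11_7_c10 ln10_11_7_c10_ok) (L (nat_lit 297) ln10_12_7_c10 ln10_12_7_c10_ok))) (M (nat_lit 393) (B (L (nat_lit 361) ln10_8_5_c10 ln10_8_5_c10_ok) (L (nat_lit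 425) ln10_9_5_c10 ln10_9_5_c10_ok))))) (M (nat_lit 297) (B (L (nat_lit 265) ln10_12_7_c10 ln10_12_7_c10_ok) (L (nat_lit 329) ln10_13_7_c10 ln10_13_7_c10_ok)))))) (K (nat_lit 20839919904563267469136299467468243040970498557301507137526187326769936182500933900039098478282718143697091266943558332286842677094277709824) (nat_lit 86645928042144600248080735870018542118744916745802638647085598543507478352826526362824224913478632830433232986970246770277220352) (nat_lit 86645928042144600248080735870018542118744916745802638647085598543507478352826526362824224913478632830433232986970246770277220352) c10_s294))))))) (nat_lit 20839919904563267469136299467468243040968311306576724125601814824542818561135580730608205265846292373090681313944358956363619163917254656000) (nat_lit 744282853765347383964652179525397379051428171549987757857649166709520217330720733759671486419769349685382631311038338362165628034468544512) (nat_lit 744282853765347383964652179525397379051428171549987757857649166709520217330720733759671486419769349685382631311038338362165628034468544512)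 (by decide +kernel)
theorem c10_s297 : Sem (nat_lit 20839919904563267469136299467468243040968311306576724125601814824542818561135580730608205265846292373090681313944358956363619163917254656000) (nat_lit 1598335258878212303072075893499311809017122056259167225528972386816905375590744239356599241009192203216582117771408515582878054990457616934222430208) (nat_lit 1598335258878212303072075893499311809017122056259167225528972386816905375590744239356599241009192203216582117771408515582878054990457616934222430208) :=
  sem_of_chk (M (nat_lit 330) (B (K (nat_lit 20839919904563267469136299467468243040970498557301507137526187326769936182500933900039098478282718143697091266943558332286842677094277709824) (nat_lit 372141426925996655922703081177734823365770277393130403411104424689174924885297008515389530040343719740010883851804436733305014107385102336) (nat_lit 372141426925996655922703081177734823365770277393130403411104424689174924885297008515389530040343719740010883851804436733305014107385102336) c10_s285) (B (M (nat_lit 458) (B (M (nat_lit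 329) (B (L (nat_lit 297) ln10_13_7_c10 ln10_13_7_c10_ok) (L (nat_lit 361) ln10_14_7 ln10_14_7_ok))) (M (nat_lit 457) (B (L (nat_lit 425) ln10_10_5 ln10_10_5_ok) (L (nat_lit 489) ln10_11_5 ln10_11_5_ok))))) (B (K (nat_lit 20839919904563267469136299467468243040970498557301507137526187326769936182500933900039098478282718143697091266943558332286842677094277709824) (nat_lit 86645927961449291539076501782037324363073120235472649813852795888123761264064384733309036502652078364761282688680969340811476992) (nat_lit 86645927961449291539076501782037324363073120235472649813852795888123761264064384733309036502652078364761282688680969340811476992) c10_s296) (B (K (nat_lit 20839919904563267469136299467468243040970498557301507137526187326769936182500933900039098478282718143697091266943558332286842677094277709824) (nat_lit 5468126813739936290520358641726472851025471189775306979626491896075545235124534860411960172346343424) (nat_lit 5468126813739936290520358641726472851025471189775306979626491896075545235124534860411960172346343424) c10_s286)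 (M (nat_lit 298) (B (M (nat_lit 266) (B (M (nat_lit 267) (B (L (nat_lit 235) ln10_11_6_c10 ln10_11_6_c10_ok) (L (nat_lit 299) ln10_12_6_c10 ln10_12_6_c10_ok))) (M (nat_lit 393) (B (L (nat_lit 361) ln10_8_5_c10 ln10_8_5_c10_ok) (L (nat_lit 425) ln10_9_5_c10 ln10_9_5_c10_ok))))) (B (M (nat_lit 299) (B (L (nat_lit 267) ln10_12_6_c10 ln10_12_6_c10_ok) (L (nat_lit 331) ln10_13_6 ln10_13_6_ok))) (B (M (nat_lit 266) (B (M (nat_lit 393) (B (L (nat_lit 361) ln10_8_5_c10 ln10_8_5_c10_ok) (L (nat_lit 425) ln10_9_5_c10 ln10_9_5_c10_ok))) (M (nat_lit 234) (B (M (nat_lit 233) (B (L (nat_lit 201) ln10_10_7_c10 ln10_10_7_c10_ok) (L (nat_lit 265) ln10_11_7_c10 ln10_11_7_c10_ok))) (M (nat_lit 331) (B (L (nat_lit 363) ln10_7_4 ln10_7_4_ok) (L (nat_lit 299) ln10_13_6 ln10_13_6_ok))))))) (M (nat_lit 266) (B (M (nat_lit 393) (B (L (nat_lit 361) ln10_8_5_c10 ln10_8_5_c10_ok) (L (nat_lit 425) ln10_9_5_c10 ln10_9_5_c10_ok))) (M (nat_lit 234) (B (M (nat_lit 235) (B (L (nat_lit 203) ln10_10_6_c10 ln10_10_6_c10_ok) (L (nat_lit 267) ln10_11_6_c10 ln10_11_6_c10_ok)))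 (M (nat_lit 233) (B (L (nat_lit 201) ln10_10_7_c10 ln10_10_7_c10_ok) (L (nat_lit 265) ln10_11_7_c10 ln10_11_7_c10_ok)))))))))))))))) (nat_lit 20839919904563267469136299467468243040968311306576724125601814824542818561135580730608205265846292373090681313944358956363619163917254656000) (nat_lit 1598335258878212303072075893499311809017122056259167225528972386816905375590744239356599241009192203216582117771408515582878054990457616934222430208) (nat_lit 1598335258878212303072075893499311809017122056259167225528972386816905375590744239356599241009192203216582117771408515582878054990457616934222430208) (by decide +kernel)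
theorem c10_s363 : Sem (nat_lit 8931394323165503754481658153670348049985162940857813804920622417077344278730704448857942057155343404368412318944338361584051269924982620160) (nat_lit 22643774576608112285540433622105514761340802663356941626199121260377381392838825840015536366132650842881371984582563197727092532100531298598977397218622221280039961362432) (nat_lit 22643774576608112285540433622105514761340802663356941626199121260377381392838825840015536366132650842881371984582563197727092532100531298598977397218622221280039961362432) :=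
  sem_of_chk (M (nat_lit 435) (B (K (nat_lit 8931394411890933966347733660179601942563841450823800216946752822532690858398586298637961994434524399700878818060857112348965568452155670528) (nat_lit 5692275265467061316455746405697706972423263723897620378030708963603139091018098872252310828889037779165035926172671647953139417505891123986432) (nat_lit 5692275265467061316455746405697706972423263723897620378030708963603139091018098872252310828889037779165035926172671647953139417505891123986432) c10_s361) (B (K (nat_lit 8931394411890933966347733660179601942563841450823800216946752822532690858398586298637961994434524399700878818060857112348965568452155670528) (nat_lit 6049531035232838015298550043750818961148765525502650951020267026304406913911596219525600254135866846909461920792583599731030344898387799703552) (nat_lit 6049531035232838015298550043750818961148765525502650951020267026304406913911596219525600254135866846909461920792583599731030344898387799703552) c10_s346) (B (M (nat_lit 436) (B (M (nat_lit 464) (B (L (nat_lit 463) ln19_13_1_c10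 ln19_13_1_c10_ok) (L (nat_lit 465) ln20_13_1_c10 ln20_13_1_c10_ok))) (M (nat_lit 468) (B (L (nat_lit 467) ln16_13_0_c10 ln16_13_0_c10_ok) (L (nat_lit 469) ln17_13_0_c10 ln17_13_0_c10_ok))))) (B (K (nat_lit 8931394411890933966347733660179601942563841450823800216946752822532690858398586298637961994434524399700878818060857112348965568452155670528) (nat_lit 22643774576168765235189781138324362769892025778225426427278870000269590156654357331354565783994751787152232176923317907639520784976663232481234341946824372980417912897536) (nat_lit 22643774576168765235189781138324362769892025778225426427278870000269590156654357331354565783994751787152232176923317907639520784976663232481234341946824372980417912897536) c10_s349) (B (K (nat_lit 8931394411890933966347733660179601942563841450823800216946752822532690858398586298637961994434524399700878818060857112348965568452155670528) (nat_lit 22643774562549006674319554313234480943887504225958848080581413046869388652950313380952821413292286837790125727128035577213024032274310056437373602412656168792862807293952)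 (nat_lit 22643774562549006674319554313234480943887504225958848080581413046869388652950313380952821413292286837790125727128035577213024032274310056437373602412656168792862807293952) c10_s347) (K (nat_lit 8931394411890933966347733660179601942563841450823800216946752822532690858398586298637961994434524399700878818060857112348965568452155670528) (nat_lit 6001896933312749903202679792448301555494280880775247640068619961004888269324368870636346408180603034651739799325722271922020342777930242326528) (nat_lit 6001896933312749903202679792448301555494280880775247640068619961004888269324368870636346408180603034651739799325722271922020342777930242326528) c10_s362))))))) (nat_lit 8931394323165503754481658153670348049985162940857813804920622417077344278730704448857942057155343404368412318944338361584051269924982620160) (nat_lit 22643774576608112285540433622105514761340802663356941626199121260377381392838825840015536366132650842881371984582563197727092532100531298598977397218622221280039961362432) (nat_lit 22643774576608112285540433622105514761340802663356941626199121260377381392838825840015536366132650842881371984582563197727092532100531298598977397218622221280039961362432)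 (by decide +kernel)
theorem c10_s408 : Sem (nat_lit 5954262830815946494763249298843757173852324438261567950902348008252711619201165097221184162808274170258209505398083731990017737449713696768) (nat_lit 153440184828491329809043217712881781326067183008575983670623962526992469891139645942059756586309978449332283792638360061382796846546361196627361792000) (nat_lit 153440184828491329809043217712881781326067183008575983670623962526992469891139645942059756586309978449332283792638360061382796846546361196627361792000) :=
  sem_of_chk (M (nat_lit 333) (B (K (nat_lit 5954262830815946494763249298843757173869822444059832046297328026069652590123990452668329862299680335109489129391678739375805842865898127360) (nat_lit 645562469672033872746501131196467169404565446980275092665241541267244085583696678758287844804294836398608444953823543296) (nat_lit 645562469672033872746501131196467169404565446980275092665241541267244085583696678758287844804294836398608444953823543296) c10_s402) (B (M (nat_lit 301) (B (M (nat_lit 269) (B (M (nat_lit 268) (B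 (L (nat_lit 236) ln13_11_7 ln13_11_7_ok) (L (nat_lit 300) ln13_12_7 ln13_12_7_ok))) (M (nat_lit 270) (B (L (nat_lit 238) ln13_11_6 ln13_11_6_ok) (L (nat_lit 302) ln13_12_6 ln13_12_6_ok))))) (B (M (nat_lit 270) (B (L (nat_lit 302) ln13_12_6 ln13_12_6_ok) (M (nat_lit 269) (B (L (nat_lit 238) ln13_11_6 ln13_11_6_ok) (M (nat_lit 396) (B (L (nat_lit 364) ln13_8_5 ln13_8_5_ok) (L (nat_lit 428) ln13_9_5 ln13_9_5_ok))))))) (B (M (nat_lit 269) (B (M (nat_lit 268) (B (L (nat_lit 236) ln13_11_7 ln13_11_7_ok) (L (nat_lit 300) ln13_12_7 ln13_12_7_ok))) (M (nat_lit 396) (B (L (nat_lit 364) ln13_8_5 ln13_8_5_ok) (L (nat_lit 428) ln13_9_5 ln13_9_5_ok))))) (M (nat_lit 302) (B (L (nat_lit 270) ln13_12_6 ln13_12_6_ok) (M (nat_lit 300) (B (L (nat_lit 268) ln13_12_7 ln13_12_7_ok) (M (nat_lit 299) (B (L (nat_lit 334) ln13_13_6 ln13_13_6_ok) (M (nat_lit 298) (B (M (nat_lit 266) (B (L (nat_lit 265) ln13_9_3 ln13_9_3_ok) (L (nat_lit 267) ln14_9_3 ln14_9_3_ok))) (M (nat_lit 330) (B (L (nat_lit 329) ln13_9_1 ln13_9_1_ok) (L (nat_lit 331) ln14_9_1_c10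 ln14_9_1_c10_ok))))))))))))))) (B (M (nat_lit 301) (B (M (nat_lit 396) (B (L (nat_lit 428) ln13_9_5 ln13_9_5_ok) (M (nat_lit 269) (B (L (nat_lit 364) ln13_8_5 ln13_8_5_ok) (M (nat_lit 268) (B (L (nat_lit 236) ln13_11_7 ln13_11_7_ok) (L (nat_lit 300) ln13_12_7 ln13_12_7_ok))))))) (M (nat_lit 302) (B (L (nat_lit 270) ln13_12_6 ln13_12_6_ok) (L (nat_lit 334) ln13_13_6 ln13_13_6_ok))))) (B (M (nat_lit 301) (B (M (nat_lit 302) (B (L (nat_lit 270) ln13_12_6 ln13_12_6_ok) (L (nat_lit 334) ln13_13_6 ln13_13_6_ok))) (B (M (nat_lit 269) (B (M (nat_lit 396) (B (L (nat_lit 364) ln13_8_5 ln13_8_5_ok) (L (nat_lit 428) ln13_9_5 ln13_9_5_ok))) (M (nat_lit 237) (B (M (nat_lit 236) (B (L (nat_lit 204) ln13_10_7 ln13_10_7_ok) (L (nat_lit 268) ln13_11_7 ln13_11_7_ok))) (M (nat_lit 334) (B (L (nat_lit 366) ln13_7_4 ln13_7_4_ok) (L (nat_lit 302) ln13_13_6 ln13_13_6_ok))))))) (M (nat_lit 269) (B (M (nat_lit 396) (B (L (nat_lit 364) ln13_8_5 ln13_8_5_ok) (L (nat_lit 428) ln13_9_5 ln13_9_5_ok))) (M (nat_lit 237) (B (M (nat_lit 238) (B (L (nat_lit 206)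 ln13_10_6 ln13_10_6_ok) (L (nat_lit 270) ln13_11_6 ln13_11_6_ok))) (M (nat_lit 236) (B (L (nat_lit 204) ln13_10_7 ln13_10_7_ok) (L (nat_lit 268) ln13_11_7 ln13_11_7_ok)))))))))) (B (M (nat_lit 366) (B (L (nat_lit 334) ln13_14_6 ln13_14_6_ok) (M (nat_lit 396) (B (M (nat_lit 367) (B (L (nat_lit 368) ln16_11_1 ln16_11_1_ok) (M (nat_lit 395) (B (L (nat_lit 364) ln15_11_1 ln15_11_1_ok) (L (nat_lit 394) ln10_12_2 ln10_12_2_ok))))) (B (M (nat_lit 367) (B (L (nat_lit 368) ln16_11_1 ln16_11_1_ok) (M (nat_lit 395) (B (L (nat_lit 394) ln10_12_2 ln10_12_2_ok) (L (nat_lit 398) ln11_12_2 ln11_12_2_ok))))) (M (nat_lit 301) (B (L (nat_lit 428) ln13_9_5 ln13_9_5_ok) (M (nat_lit 269) (B (L (nat_lit 364) ln13_8_5 ln13_8_5_ok) (L (nat_lit 398) ln13_8_4 ln13_8_4_ok)))))))))) (B (M (nat_lit 334) (B (L (nat_lit 302) ln13_13_6 ln13_13_6_ok) (L (nat_lit 366) ln13_14_6 ln13_14_6_ok))) (K (nat_lit 5954262830815946494763249298843757173869822444059832046297328026069652590123990452668329862299680335109489129391678739375805842865898127360) (nat_lit 153440184828491329809043217712881781326067183008522396027866778734845343586575264218608475380209554025417809055813928919894210360187882500363472863232)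 (nat_lit 153440184828491329809043217712881781326067183008522396027866778734845343586575264218608475380209554025417809055813928919894210360187882500363472863232) c10_s406)))))))) (nat_lit 5954262830815946494763249298843757173852324438261567950902348008252711619201165097221184162808274170258209505398083731990017737449713696768) (nat_lit 153440184828491329809043217712881781326067183008575983670623962526992469891139645942059756586309978449332283792638360061382796846546361196627361792000) (nat_lit 153440184828491329809043217712881781326067183008575983670623962526992469891139645942059756586309978449332283792638360061382796846546361196627361792000) (by decide +kernel)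
theorem c10_s417 : Sem (nat_lit 383600461868783388222986614096266462235883586976421838006897082937082378022292168646313495504118652032479925772076346627612894864867166214612093763584) (nat_lit 5545339388241629719457441819421468989071261238407964100493933234300421108696501212606743336484119113782672306046944549844478328832) (nat_lit 5545339388241629719457441819421468989071261238407964100493933234300421108696501212606743336484119113782672306046944549844478328832) :=
  sem_of_chk (M (nat_lit 335) (B (M (nat_lit 301) (B (M (nat_lit 300) (B (M (nat_lit 272) (B (L (nat_lit 271) ln12_9_2 ln12_9_2_ok) (L (nat_lit 273) ln13_9_2 ln13_9_2_ok))) (M (nat_lit 268) (B (L (nat_lit 267) ln15_9_3 ln15_9_3_ok) (L (nat_lit 269) ln16_9_3_c10 ln16_9_3_c10_ok))))) (B (M (nat_lit 336) (B (L (nat_lit 300) ln12_9_0 ln12_9_0_ok) (L (nat_lit 337) ln13_9_0 ln13_9_0_ok))) (M (nat_lit 272) (B (L (nat_lit 273) ln13_9_2 ln13_9_2_ok) (M (nat_lit 336) (B (L (nat_lit 337) ln13_9_0 ln13_9_0_ok) (M (nat_lit 240) (B (L (nat_lit 208) ln16_6_5_c10 ln16_6_5_c10_ok)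 (M (nat_lit 239) (B (L (nat_lit 207) ln16_10_7_c10 ln16_10_7_c10_ok) (M (nat_lit 241) (B (L (nat_lit 209) ln16_10_6_c10 ln16_10_6_c10_ok) (M (nat_lit 269) (B (L (nat_lit 268) ln16_9_3_c10 ln16_9_3_c10_ok) (M (nat_lit 270) (B (L (nat_lit 271) ln13_8_2_c10 ln13_8_2_c10_ok) (L (nat_lit 238) ln17_7_1_c10 ln17_7_1_c10_ok)))))))))))))))))) (B (K (nat_lit 383600461868783388222986614096266462235883586976491830030090139318662298093559932530004796925907234830445550431481465123587274894410318636276831485952) (nat_lit 300613450785341466233105179751039181039103259548043025832509126748477419306337987930300155188362947246631682048) (nat_lit 300613450785341466233105179751039181039103259548043025832509126748477419306337987930300155188362947246631682048) c10_s416) (B (M (nat_lit 367) (B (M (nat_lit 431) (B (L (nat_lit 334) ln15_13_7 ln15_13_7_ok) (L (nat_lit 336) ln15_13_6 ln15_13_6_ok))) (L (nat_lit 270) ln15_12_7 ln15_12_7_ok))) (M (nat_lit 367) (B (L (nat_lit 270) ln15_12_7 ln15_12_7_ok) (L (nat_lit 272) ln15_12_6 ln15_12_6_ok))))))) (nat_lit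 383600461868783388222986614096266462235883586976421838006897082937082378022292168646313495504118652032479925772076346627612894864867166214612093763584) (nat_lit 5545339388241629719457441819421468989071261238407964100493933234300421108696501212606743336484119113782672306046944549844478328832) (nat_lit 5545339388241629719457441819421468989071261238407964100493933234300421108696501212606743336484119113782672306046944549844478328832) (by decide +kernel)
theorem c10_s418 : Sem (nat_lit 383600461868783388222986614096266462235883586976421838006897082937082378022292168646313495504118652032479925772076346627612894864867166214612093763584) (nat_lit 300613454774886788693614988598367868538921702901094339757992322401383521549918614185244430057935191406777729024) (nat_lit 300613454774886788693614988598367868538921702901094339757992322401383521549918614185244430057935191406777729024) :=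
  sem_of_chk (M (nat_lit 335) (B (M (nat_lit 272) (B (L (nat_lit 367) ln15_12_6 ln15_12_6_ok) (M (nat_lit 273) (B (L (nat_lit 301) ln13_9_2 ln13_9_2_ok) (M (nat_lit 274) (B (L (nat_lit 275) ln19_8_1_c10 ln19_8_1_c10_ok) (L (nat_lit 305) ln14_9_2_c10 ln14_9_2_c10_ok))))))) (B (M (nat_lit 270) (B (M (nat_lit 269) (B (L (nat_lit 305) ln17_9_3_c10 ln17_9_3_c10_ok) (M (nat_lit 268) (B (L (nat_lit 301) ln16_9_3_c10 ln16_9_3_c10_ok) (L (nat_lit 267) ln11_8_0_c10 ln11_8_0_c10_ok))))) (L (nat_lit 367) ln15_12_7 ln15_12_7_ok))) (B (K (nat_lit 383600461868783388222986614096266462235883586976491830030090139318662298093559932530004796925907234830445550431481465123587274894410318636276831485952) (nat_lit 300613450785341466233105179751039181039103259548043025832509126748477419306337987930300155188362947246631682048) (nat_lit 300613450785341466233105179751039181039103259548043025832509126748477419306337987930300155188362947246631682048) c10_s416) (B (M (nat_lit 301) (B (M (nat_lit 300) (B (L (nat_lit 336) ln12_9_0 ln12_9_0_ok) (M (nat_lit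 299) (B (L (nat_lit 334) ln11_9_0_c10 ln11_9_0_c10_ok) (M (nat_lit 331) (B (L (nat_lit 332) ln15_9_1_c10 ln15_9_1_c10_ok) (L (nat_lit 330) ln14_9_1_c10 ln14_9_1_c10_ok))))))) (M (nat_lit 305) (B (M (nat_lit 273) (B (L (nat_lit 274) ln14_9_2_c10 ln14_9_2_c10_ok) (L (nat_lit 272) ln13_9_2 ln13_9_2_ok))) (M (nat_lit 269) (B (L (nat_lit 270) ln17_9_3_c10 ln17_9_3_c10_ok) (L (nat_lit 268) ln16_9_3_c10 ln16_9_3_c10_ok))))))) (M (nat_lit 305) (B (M (nat_lit 306) (B (L (nat_lit 334) ln18_9_1_c10 ln18_9_1_c10_ok) (M (nat_lit 274) (B (L (nat_lit 275) ln15_9_2_c10 ln15_9_2_c10_ok) (L (nat_lit 273) ln14_9_2_c10 ln14_9_2_c10_ok))))) (B (M (nat_lit 306) (B (L (nat_lit 334) ln18_9_1_c10 ln18_9_1_c10_ok) (M (nat_lit 307) (B (L (nat_lit 336) ln19_9_1_c10 ln19_9_1_c10_ok) (M (nat_lit 339) (B (L (nat_lit 340) ln16_9_0_c10 ln16_9_0_c10_ok) (L (nat_lit 338) ln15_9_0_c10 ln15_9_0_c10_ok))))))) (M (nat_lit 270) (B (L (nat_lit 269) ln17_9_3_c10 ln17_9_3_c10_ok) (L (nat_lit 367) ln15_12_7 ln15_12_7_ok))))))))))) (nat_lit 383600461868783388222986614096266462235883586976421838006897082937082378022292168646313495504118652032479925772076346627612894864867166214612093763584)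 (nat_lit 300613454774886788693614988598367868538921702901094339757992322401383521549918614185244430057935191406777729024) (nat_lit 300613454774886788693614988598367868538921702901094339757992322401383521549918614185244430057935191406777729024) (by decide +kernel)
theorem c10_s425 : Sem (nat_lit 28365829084147412802440749893646987148057637966728072401632767829403167910297527393961759160585358035538695489813749239076101700210179363573662284439241317016392607367230662901760) (nat_lit 4494745034182619721732524966383749716776087176665420452372638763837606846742847620168701647200372486765929994052094116918497290999387995797314387274855342574006163792326565648920306020401723657133950408589312) (nat_lit 4494745034182619721732524966383749716776087176665420452372638763837606846742847620168701647200372486765929994052094116918497290999387995797314387274855342574006163792326565648920306020401723657133950408589312) :=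
  sem_of_chk (M (nat_lit 559) (B (M (nat_lit 589) (B (M (nat_lit 588) (B (M (nat_lit 624) (B (L (nat_lit 623) ln12_18_0_c10 ln12_18_0_c10_ok) (L (nat_lit 625) ln13_18_0_c10 ln13_18_0_c10_ok))) (M (nat_lit 620) (B (L (nat_lit 619) ln15_18_1_c10 ln15_18_1_c10_ok) (L (nat_lit 621) ln16_18_1_c10 ln16_18_1_c10_ok))))) (B (M (nat_lit 560) (B (L (nat_lit 588) ln12_18_2_c10 ln12_18_2_c10_ok) (L (nat_lit 561) ln13_18_2_c10 ln13_18_2_c10_ok))) (M (nat_lit 624) (B (L (nat_lit 625) ln13_18_0_c10 ln13_18_0_c10_ok) (M (nat_lit 560) (B (L (nat_lit 561) ln13_18_2_c10 ln13_18_2_c10_ok) (M (nat_lit 656) (B (L (nat_lit 688) ln16_21_7_c10 ln16_21_7_c10_ok) (M (nat_lit 655) (B (L (nat_lit 687) ln16_17_5_c10 ln16_17_5_c10_ok) (M (nat_lit 657) (B (L (nat_lit 689) ln16_17_4_c10 ln16_17_4_c10_ok) (M (nat_lit 621) (B (L (nat_lit 620) ln16_18_1_c10 ln16_18_1_c10_ok) (M (nat_lit 622) (B (L (nat_lit 623) ln13_19_0_c10 ln13_19_0_c10_ok) (L (nat_lit 654) ln17_20_3_c10 ln17_20_3_c10_ok)))))))))))))))))) (B (K (nat_lit 28365829086034394014851520569767764438551772412186533011840988043591271060420339475157833586628421398127524873584483426591483622660064655888624680755522034142108955389055360565248)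 (nat_lit 1284212866887962484331826226990925201211651866749809432206730875359458103670946105408540958011703202567297562547362398491490108139856984934696421558643226346924420121669028211092550875943359377030733981810688) (nat_lit 1284212866887962484331826226990925201211651866749809432206730875359458103670946105408540958011703202567297562547362398491490108139856984934696421558643226346924420121669028211092550875943359377030733981810688) c10_s424) (B (M (nat_lit 527) (B (M (nat_lit 463) (B (L (nat_lit 558) ln15_14_5_c10 ln15_14_5_c10_ok) (L (nat_lit 560) ln15_14_4_c10 ln15_14_4_c10_ok))) (L (nat_lit 622) ln15_15_5_c10 ln15_15_5_c10_ok))) (M (nat_lit 527) (B (L (nat_lit 622) ln15_15_5_c10 ln15_15_5_c10_ok) (L (nat_lit 624) ln15_15_4_c10 ln15_15_4_c10_ok))))))) (nat_lit 28365829084147412802440749893646987148057637966728072401632767829403167910297527393961759160585358035538695489813749239076101700210179363573662284439241317016392607367230662901760) (nat_lit 4494745034182619721732524966383749716776087176665420452372638763837606846742847620168701647200372486765929994052094116918497290999387995797314387274855342574006163792326565648920306020401723657133950408589312)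 (nat_lit 4494745034182619721732524966383749716776087176665420452372638763837606846742847620168701647200372486765929994052094116918497290999387995797314387274855342574006163792326565648920306020401723657133950408589312) (by decide +kernel)
theorem c10_s426 : Sem (nat_lit 28365829084147412802440749893646987148057637966728072401632767829403167910297527393961759160585358035538695489813749239076101700210179363573662284439241317016392607367230662901760) (nat_lit 1284212866887962485184638384900223224195549989539123972827694813165906641298406518665912389064382565962208232268897248422349570439217023651956741030506222381232049628318901451687436832299323679208613498322944) (nat_lit 1284212866887962485184638384900223224195549989539123972827694813165906641298406518665912389064382565962208232268897248422349570439217023651956741030506222381232049628318901451687436832299323679208613498322944) :=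
  sem_of_chk (M (nat_lit 559) (B (M (nat_lit 624) (B (L (nat_lit 527) ln15_15_4_c10 ln15_15_4_c10_ok) (M (nat_lit 625) (B (L (nat_lit 589) ln13_18_0_c10 ln13_18_0_c10_ok) (M (nat_lit 626) (B (L (nat_lit 627) ln19_19_3_c10 ln19_19_3_c10_ok) (L (nat_lit 593) ln14_18_0_c10 ln14_18_0_c10_ok))))))) (B (M (nat_lit 622) (B (M (nat_lit 621) (B (L (nat_lit 593) ln17_18_1_c10 ln17_18_1_c10_ok) (M (nat_lit 620) (B (L (nat_lit 589) ln16_18_1_c10 ln16_18_1_c10_ok) (L (nat_lit 619) ln11_19_2_c10 ln11_19_2_c10_ok))))) (L (nat_lit 527) ln15_15_5_c10 ln15_15_5_c10_ok))) (B (K (nat_lit 28365829086034394014851520569767764438551772412186533011840988043591271060420339475157833586628421398127524873584483426591483622660064655888624680755522034142108955389055360565248) (nat_lit 1284212866887962484331826226990925201211651866749809432206730875359458103670946105408540958011703202567297562547362398491490108139856984934696421558643226346924420121669028211092550875943359377030733981810688) (nat_lit 1284212866887962484331826226990925201211651866749809432206730875359458103670946105408540958011703202567297562547362398491490108139856984934696421558643226346924420121669028211092550875943359377030733981810688)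 c10_s424) (B (M (nat_lit 589) (B (M (nat_lit 588) (B (L (nat_lit 560) ln12_18_2_c10 ln12_18_2_c10_ok) (M (nat_lit 587) (B (L (nat_lit 558) ln11_18_2_c10 ln11_18_2_c10_ok) (M (nat_lit 555) (B (L (nat_lit 556) ln15_18_3_c10 ln15_18_3_c10_ok) (L (nat_lit 554) ln14_18_3_c10 ln14_18_3_c10_ok))))))) (M (nat_lit 593) (B (M (nat_lit 625) (B (L (nat_lit 626) ln14_18_0_c10 ln14_18_0_c10_ok) (L (nat_lit 624) ln13_18_0_c10 ln13_18_0_c10_ok))) (M (nat_lit 621) (B (L (nat_lit 622) ln17_18_1_c10 ln17_18_1_c10_ok) (L (nat_lit 620) ln16_18_1_c10 ln16_18_1_c10_ok))))))) (M (nat_lit 593) (B (M (nat_lit 594) (B (L (nat_lit 558) ln18_18_3_c10 ln18_18_3_c10_ok) (M (nat_lit 626) (B (L (nat_lit 627) ln15_18_0_c10 ln15_18_0_c10_ok) (L (nat_lit 625) ln14_18_0_c10 ln14_18_0_c10_ok))))) (B (M (nat_lit 594) (B (L (nat_lit 558) ln18_18_3_c10 ln18_18_3_c10_ok) (M (nat_lit 595) (B (L (nat_lit 560) ln19_18_3_c10 ln19_18_3_c10_ok) (M (nat_lit 563) (B (L (nat_lit 564) ln16_18_2_c10 ln16_18_2_c10_ok) (L (nat_lit 562) ln15_18_2_c10 ln15_18_2_c10_ok))))))) (M (nat_lit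 622) (B (L (nat_lit 621) ln17_18_1_c10 ln17_18_1_c10_ok) (L (nat_lit 527) ln15_15_5_c10 ln15_15_5_c10_ok))))))))))) (nat_lit 28365829084147412802440749893646987148057637966728072401632767829403167910297527393961759160585358035538695489813749239076101700210179363573662284439241317016392607367230662901760) (nat_lit 1284212866887962485184638384900223224195549989539123972827694813165906641298406518665912389064382565962208232268897248422349570439217023651956741030506222381232049628318901451687436832299323679208613498322944) (nat_lit 1284212866887962485184638384900223224195549989539123972827694813165906641298406518665912389064382565962208232268897248422349570439217023651956741030506222381232049628318901451687436832299323679208613498322944) (by decide +kernel)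
noncomputable def c10_d257 : Cert := (B (M (nat_lit 434) (B (M (nat_lit 467) (B (L (nat_lit 435) ln18_10_4_c10 ln18_10_4_c10_ok) (M (nat_lit 466) (B (L (nat_lit 499) ln18_11_4_c10 ln18_11_4_c10_ok) (M (nat_lit 465) (B (L (nat_lit 433) ln18_10_5_c10 ln18_10_5_c10_ok) (L (nat_lit 497) ln18_11_5_c10 ln18_11_5_c10_ok))))))) (B (M (nat_lit 466) (B (M (nat_lit 337) (B (L (nat_lit 305) ln18_13_7_c10 ln18_13_7_c10_ok) (L (nat_lit 369) ln18_14_7_c10 ln18_14_7_c10_ok))) (M (nat_lit 465) (B (L (nat_lit 433) ln18_10_5_c10 ln18_10_5_c10_ok) (L (nat_lit 497) ln18_11_5_c10 ln18_11_5_c10_ok))))) (B (M (nat_lit 466) (B (M (nat_lit 337) (B (L (nat_lit 305) ln18_13_7_c10 ln18_13_7_c10_ok) (L (nat_lit 369) ln18_14_7_c10 ln18_14_7_c10_ok))) (M (nat_lit 467) (B (L (nat_lit 435) ln18_10_4_c10 ln18_10_4_c10_ok) (L (nat_lit 499) ln18_11_4_c10 ln18_11_4_c10_ok))))) (M (nat_lit 306) (B (M (nat_lit 305) (B (L (nat_lit 273) ln18_12_7_c10 ln18_12_7_c10_ok) (L (nat_lit 337) ln18_13_7_c10 ln18_13_7_c10_ok))) (M (nat_lit 435) (B (L (nat_lit 403) ln18_9_4_c10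 ln18_9_4_c10_ok) (L (nat_lit 467) ln18_10_4_c10 ln18_10_4_c10_ok))))))))) (B (M (nat_lit 306) (B (M (nat_lit 273) (B (L (nat_lit 305) ln18_12_7_c10 ln18_12_7_c10_ok) (M (nat_lit 274) (B (L (nat_lit 241) ln18_11_7_c10 ln18_11_7_c10_ok) (M (nat_lit 275) (B (L (nat_lit 307) ln18_12_6_c10 ln18_12_6_c10_ok) (L (nat_lit 243) ln18_11_6_c10 ln18_11_6_c10_ok))))))) (B (M (nat_lit 274) (B (M (nat_lit 403) (B (L (nat_lit 435) ln18_9_4_c10 ln18_9_4_c10_ok) (L (nat_lit 371) ln18_8_4_c10 ln18_8_4_c10_ok))) (M (nat_lit 275) (B (L (nat_lit 307) ln18_12_6_c10 ln18_12_6_c10_ok) (L (nat_lit 243) ln18_11_6_c10 ln18_11_6_c10_ok))))) (B (M (nat_lit 274) (B (M (nat_lit 403) (B (L (nat_lit 435) ln18_9_4_c10 ln18_9_4_c10_ok) (L (nat_lit 371) ln18_8_4_c10 ln18_8_4_c10_ok))) (M (nat_lit 273) (B (L (nat_lit 305) ln18_12_7_c10 ln18_12_7_c10_ok) (L (nat_lit 241) ln18_11_7_c10 ln18_11_7_c10_ok))))) (M (nat_lit 434) (B (M (nat_lit 435) (B (L (nat_lit 467) ln18_10_4_c10 ln18_10_4_c10_ok) (L (nat_lit 403) ln18_9_4_c10 ln18_9_4_c10_ok))) (M (nat_lit 305) (B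 (L (nat_lit 337) ln18_13_7_c10 ln18_13_7_c10_ok) (L (nat_lit 273) ln18_12_7_c10 ln18_12_7_c10_ok))))))))) (B (M (nat_lit 306) (B (M (nat_lit 275) (B (L (nat_lit 307) ln18_12_6_c10 ln18_12_6_c10_ok) (M (nat_lit 274) (B (L (nat_lit 243) ln18_11_6_c10 ln18_11_6_c10_ok) (M (nat_lit 273) (B (L (nat_lit 305) ln18_12_7_c10 ln18_12_7_c10_ok) (L (nat_lit 241) ln18_11_7_c10 ln18_11_7_c10_ok))))))) (B (M (nat_lit 274) (B (M (nat_lit 403) (B (L (nat_lit 435) ln18_9_4_c10 ln18_9_4_c10_ok) (L (nat_lit 371) ln18_8_4_c10 ln18_8_4_c10_ok))) (M (nat_lit 273) (B (L (nat_lit 305) ln18_12_7_c10 ln18_12_7_c10_ok) (L (nat_lit 241) ln18_11_7_c10 ln18_11_7_c10_ok))))) (B (M (nat_lit 274) (B (M (nat_lit 403) (B (L (nat_lit 435) ln18_9_4_c10 ln18_9_4_c10_ok) (L (nat_lit 371) ln18_8_4_c10 ln18_8_4_c10_ok))) (M (nat_lit 275) (B (L (nat_lit 307) ln18_12_6_c10 ln18_12_6_c10_ok) (L (nat_lit 243) ln18_11_6_c10 ln18_11_6_c10_ok))))) (M (nat_lit 403) (B (L (nat_lit 435) ln18_9_4_c10 ln18_9_4_c10_ok) (L (nat_lit 401) ln19_12_3_c10 ln19_12_3_c10_ok))))))) (B (M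 (nat_lit 434) (B (M (nat_lit 466) (B (M (nat_lit 337) (B (L (nat_lit 305) ln18_13_7_c10 ln18_13_7_c10_ok) (L (nat_lit 369) ln18_14_7_c10 ln18_14_7_c10_ok))) (M (nat_lit 467) (B (L (nat_lit 435) ln18_10_4_c10 ln18_10_4_c10_ok) (L (nat_lit 499) ln18_11_4_c10 ln18_11_4_c10_ok))))) (B (M (nat_lit 465) (B (L (nat_lit 433) ln18_10_5_c10 ln18_10_5_c10_ok) (M (nat_lit 466) (B (L (nat_lit 497) ln18_11_5_c10 ln18_11_5_c10_ok) (M (nat_lit 467) (B (L (nat_lit 435) ln18_10_4_c10 ln18_10_4_c10_ok) (L (nat_lit 499) ln18_11_4_c10 ln18_11_4_c10_ok))))))) (B (M (nat_lit 466) (B (M (nat_lit 337) (B (L (nat_lit 305) ln18_13_7_c10 ln18_13_7_c10_ok) (L (nat_lit 369) ln18_14_7_c10 ln18_14_7_c10_ok))) (M (nat_lit 465) (B (L (nat_lit 433) ln18_10_5_c10 ln18_10_5_c10_ok) (L (nat_lit 497) ln18_11_5_c10 ln18_11_5_c10_ok))))) (M (nat_lit 306) (B (M (nat_lit 305) (B (L (nat_lit 273) ln18_12_7_c10 ln18_12_7_c10_ok) (L (nat_lit 337) ln18_13_7_c10 ln18_13_7_c10_ok))) (M (nat_lit 433) (B (L (nat_lit 401) ln18_9_5_c10 ln18_9_5_c10_ok) (L (nat_lit 465) ln18_10_5_c10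 ln18_10_5_c10_ok))))))))) (B (M (nat_lit 306) (B (M (nat_lit 274) (B (M (nat_lit 401) (B (L (nat_lit 433) ln18_9_5_c10 ln18_9_5_c10_ok) (L (nat_lit 369) ln18_8_5_c10 ln18_8_5_c10_ok))) (M (nat_lit 275) (B (L (nat_lit 307) ln18_12_6_c10 ln18_12_6_c10_ok) (L (nat_lit 243) ln18_11_6_c10 ln18_11_6_c10_ok))))) (B (M (nat_lit 273) (B (L (nat_lit 305) ln18_12_7_c10 ln18_12_7_c10_ok) (M (nat_lit 274) (B (L (nat_lit 241) ln18_11_7_c10 ln18_11_7_c10_ok) (M (nat_lit 275) (B (L (nat_lit 307) ln18_12_6_c10 ln18_12_6_c10_ok) (L (nat_lit 243) ln18_11_6_c10 ln18_11_6_c10_ok))))))) (B (M (nat_lit 274) (B (M (nat_lit 401) (B (L (nat_lit 433) ln18_9_5_c10 ln18_9_5_c10_ok) (L (nat_lit 369) ln18_8_5_c10 ln18_8_5_c10_ok))) (M (nat_lit 273) (B (L (nat_lit 305) ln18_12_7_c10 ln18_12_7_c10_ok) (L (nat_lit 241) ln18_11_7_c10 ln18_11_7_c10_ok))))) (M (nat_lit 434) (B (M (nat_lit 433) (B (L (nat_lit 465) ln18_10_5_c10 ln18_10_5_c10_ok) (L (nat_lit 401) ln18_9_5_c10 ln18_9_5_c10_ok))) (M (nat_lit 305) (B (L (nat_lit 337) ln18_13_7_c10 ln18_13_7_c10_ok)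 (L (nat_lit 273) ln18_12_7_c10 ln18_12_7_c10_ok))))))))) (B (M (nat_lit 306) (B (M (nat_lit 274) (B (M (nat_lit 403) (B (L (nat_lit 435) ln18_9_4_c10 ln18_9_4_c10_ok) (L (nat_lit 371) ln18_8_4_c10 ln18_8_4_c10_ok))) (M (nat_lit 275) (B (L (nat_lit 307) ln18_12_6_c10 ln18_12_6_c10_ok) (L (nat_lit 243) ln18_11_6_c10 ln18_11_6_c10_ok))))) (B (M (nat_lit 274) (B (M (nat_lit 401) (B (L (nat_lit 433) ln18_9_5_c10 ln18_9_5_c10_ok) (L (nat_lit 369) ln18_8_5_c10 ln18_8_5_c10_ok))) (M (nat_lit 275) (B (L (nat_lit 307) ln18_12_6_c10 ln18_12_6_c10_ok) (L (nat_lit 243) ln18_11_6_c10 ln18_11_6_c10_ok))))) (B (M (nat_lit 274) (B (M (nat_lit 401) (B (L (nat_lit 433) ln18_9_5_c10 ln18_9_5_c10_ok) (L (nat_lit 369) ln18_8_5_c10 ln18_8_5_c10_ok))) (M (nat_lit 403) (B (L (nat_lit 435) ln18_9_4_c10 ln18_9_4_c10_ok) (L (nat_lit 371) ln18_8_4_c10 ln18_8_4_c10_ok))))) (M (nat_lit 433) (B (L (nat_lit 401) ln18_9_5_c10 ln18_9_5_c10_ok) (M (nat_lit 434) (B (L (nat_lit 465) ln18_10_5_c10 ln18_10_5_c10_ok) (M (nat_lit 435) (B (L (nat_lit 467) ln18_10_4_c10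 ln18_10_4_c10_ok) (L (nat_lit 403) ln18_9_4_c10 ln18_9_4_c10_ok))))))))))) (M (nat_lit 403) (B (L (nat_lit 401) ln19_12_3_c10 ln19_12_3_c10_ok) (L (nat_lit 369) ln15_11_0_c10 ln15_11_0_c10_ok)))))))))
theorem c10_s434 : Sem (nat_lit 179013548899091572664880704632125070353884004832785184145640603834274570101060341069321343139366404085287401632017748727938770516514056120212129841152) (nat_lit 2045869130601966105809629567930733391603497174643895393380222409015159163434649049620674777356413562776240006773859058102829451759772763599747680305152) (nat_lit 2045869130601966105809629567930733391603497174643895393380222409015159163434649049620674777356413562776240006773859058102829451759772763599747680305152) :=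
  sem_of_chk (M (nat_lit 402) (B (K (nat_lit 179013548899091572664880704642454069866231639191408860833652651331593393272377235120643980565528994573354766410536330141059321842257668808103119814656) (nat_lit 476341026509638434686992981654742931842574281252967655009225367661248250364139242457974851191574674543341030245830484590604668077774095777792) (nat_lit 476341026509638434686992981654742931842574281252967655009225367661248250364139242457974851191574674543341030245830484590604668077774095777792) c10_s433) (B (M (nat_lit 306) (B (M (nat_lit 434) (B (M (nat_lit 435) (B (L (nat_lit 467) ln18_10_4_c10 ln18_10_4_c10_ok) (L (nat_lit 403) ln18_9_4_c10 ln18_9_4_c10_ok))) (M (nat_lit 305) (B (L (nat_lit 337) ln18_13_7_c10 ln18_13_7_c10_ok) (L (nat_lit 273) ln18_12_7_c10 ln18_12_7_c10_ok))))) (M (nat_lit 274) (B (M (nat_lit 401) (B (L (nat_lit 433) ln18_9_5_c10 ln18_9_5_c10_ok) (L (nat_lit 369) ln18_8_5_c10 ln18_8_5_c10_ok))) (M (nat_lit 275) (B (L (nat_lit 307) ln18_12_6_c10 ln18_12_6_c10_ok) (L (nat_lit 243) ln18_11_6_c10 ln18_11_6_c10_ok)))))))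 (B (M (nat_lit 306) (B (M (nat_lit 274) (B (M (nat_lit 403) (B (L (nat_lit 435) ln18_9_4_c10 ln18_9_4_c10_ok) (L (nat_lit 371) ln18_8_4_c10 ln18_8_4_c10_ok))) (M (nat_lit 275) (B (L (nat_lit 307) ln18_12_6_c10 ln18_12_6_c10_ok) (L (nat_lit 243) ln18_11_6_c10 ln18_11_6_c10_ok))))) (B (M (nat_lit 274) (B (M (nat_lit 401) (B (L (nat_lit 433) ln18_9_5_c10 ln18_9_5_c10_ok) (L (nat_lit 369) ln18_8_5_c10 ln18_8_5_c10_ok))) (M (nat_lit 275) (B (L (nat_lit 307) ln18_12_6_c10 ln18_12_6_c10_ok) (L (nat_lit 243) ln18_11_6_c10 ln18_11_6_c10_ok))))) (B (M (nat_lit 274) (B (M (nat_lit 401) (B (L (nat_lit 433) ln18_9_5_c10 ln18_9_5_c10_ok) (L (nat_lit 369) ln18_8_5_c10 ln18_8_5_c10_ok))) (M (nat_lit 403) (B (L (nat_lit 435) ln18_9_4_c10 ln18_9_4_c10_ok) (L (nat_lit 371) ln18_8_4_c10 ln18_8_4_c10_ok))))) (M (nat_lit 434) (B (M (nat_lit 433) (B (L (nat_lit 465) ln18_10_5_c10 ln18_10_5_c10_ok) (L (nat_lit 401) ln18_9_5_c10 ln18_9_5_c10_ok))) (M (nat_lit 305) (B (L (nat_lit 337) ln18_13_7_c10 ln18_13_7_c10_ok) (L (nat_lit 273) ln18_12_7_c10 ln18_12_7_c10_ok)))))))))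 c10_d257)))) (nat_lit 179013548899091572664880704632125070353884004832785184145640603834274570101060341069321343139366404085287401632017748727938770516514056120212129841152) (nat_lit 2045869130601966105809629567930733391603497174643895393380222409015159163434649049620674777356413562776240006773859058102829451759772763599747680305152) (nat_lit 2045869130601966105809629567930733391603497174643895393380222409015159163434649049620674777356413562776240006773859058102829451759772763599747680305152) (by decide +kernel)
theorem c10_s437 : Sem (nat_lit 179013548899091572664880704632125070353884004832785184145640603834274570101060341069321343139366404085287401632017748727938770516514056120212129841152) (nat_lit 325363484673821642581734860763304498978469046073135094112526871513366923763134735688622511485244387045093474932996618321920) (nat_lit 325363484673821642581734860763304498978469046073135094112526871513366923763134735688622511485244387045093474932996618321920) :=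
  sem_of_chk (M (nat_lit 369) (B (K (nat_lit 179013548899091572664880704632125070355086458635165386758320017899830710659076690534362402913168537062711892652876428250992184403687057696164480548864) (nat_lit 325363484672619188779249670115419945001336641769990113119429476758378201678170161451745358240951602337606595934792204681216) (nat_lit 325363484672619188779249670115419945001336641769990113119429476758378201678170161451745358240951602337606595934792204681216) c10_s436) (B (M (nat_lit 335) (B (L (nat_lit 334) ln18_11_3 ln18_11_3_ok) (M (nat_lit 337) (B (M (nat_lit 306) (B (L (nat_lit 307) ln15_10_2_c10 ln15_10_2_c10_ok) (M (nat_lit 274) (B (L (nat_lit 242) ln18_7_5_c10 ln18_7_5_c10_ok) (L (nat_lit 401) ln18_8_5_c10 ln18_8_5_c10_ok))))) (M (nat_lit 303) (B (L (nat_lit 302) ln18_10_3_c10 ln18_10_3_c10_ok) (L (nat_lit 271) ln15_8_4 ln15_8_4_ok))))))) (M (nat_lit 335) (B (L (nat_lit 334) ln18_11_3 ln18_11_3_ok) (L (nat_lit 371) ln19_11_3_c10 ln19_11_3_c10_ok)))))) (nat_lit 179013548899091572664880704632125070353884004832785184145640603834274570101060341069321343139366404085287401632017748727938770516514056120212129841152)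 (nat_lit 325363484673821642581734860763304498978469046073135094112526871513366923763134735688622511485244387045093474932996618321920) (nat_lit 325363484673821642581734860763304498978469046073135094112526871513366923763134735688622511485244387045093474932996618321920) (by decide +kernel)
theorem c10_s438 : Sem (nat_lit 179013548899091572664880704632125070353884004832785184145640603834274570101060341069321343139366404085287401632017748727938770516514056120212129841152) (nat_lit 44362715431296522427076269528024200017961566428253416401332235195589640099023306857326660908693557487308663152230226594737525096448) (nat_lit 44362715431296522427076269528024200017961566428253416401332235195589640099023306857326660908693557487308663152230226594737525096448) :=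
  sem_of_chk (M (nat_lit 369) (B (K (nat_lit 179013548899091572664880704632125070355086458635165386758320017899830710659076690534362402913168537062711892652876428250992184403687057696164480548864) (nat_lit 325363484672619188779249670115419945001336641769990113119429476758378201678170161451745358240951602337606595934792204681216) (nat_lit 325363484672619188779249670115419945001336641769990113119429476758378201678170161451745358240951602337606595934792204681216) c10_s436) (B (M (nat_lit 337) (B (M (nat_lit 335) (B (L (nat_lit 334) ln14_10_0 ln14_10_0_ok) (M (nat_lit 303) (B (L (nat_lit 271) ln15_8_4 ln15_8_4_ok) (L (nat_lit 302) ln18_10_3_c10 ln18_10_3_c10_ok))))) (M (nat_lit 305) (B (L (nat_lit 273) ln17_8_5_c10 ln17_8_5_c10_ok) (M (nat_lit 402) (B (L (nat_lit 434) ln18_13_7_c10 ln18_13_7_c10_ok) (L (nat_lit 403) ln15_11_0_c10 ln15_11_0_c10_ok))))))) (M (nat_lit 335) (B (L (nat_lit 334) ln18_11_3 ln18_11_3_ok) (L (nat_lit 371) ln19_11_3_c10 ln19_11_3_c10_ok)))))) (nat_lit 179013548899091572664880704632125070353884004832785184145640603834274570101060341069321343139366404085287401632017748727938770516514056120212129841152)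 (nat_lit 44362715431296522427076269528024200017961566428253416401332235195589640099023306857326660908693557487308663152230226594737525096448) (nat_lit 44362715431296522427076269528024200017961566428253416401332235195589640099023306857326660908693557487308663152230226594737525096448) (by decide +kernel)
noncomputable def c10_d258 : Cert := (B (M (nat_lit 306) (B (M (nat_lit 274) (B (M (nat_lit 273) (B (L (nat_lit 241) ln18_11_7_c10 ln18_11_7_c10_ok) (L (nat_lit 305) ln18_12_7_c10 ln18_12_7_c10_ok))) (M (nat_lit 275) (B (L (nat_lit 243) ln18_11_6_c10 ln18_11_6_c10_ok) (L (nat_lit 307) ln18_12_6_c10 ln18_12_6_c10_ok))))) (B (M (nat_lit 434) (B (M (nat_lit 307) (B (L (nat_lit 275) ln18_12_6_c10 ln18_12_6_c10_ok) (L (nat_lit 339) ln18_13_6_c10 ln18_13_6_c10_ok))) (M (nat_lit 433) (B (L (nat_lit 401) ln18_9_5_c10 ln18_9_5_c10_ok) (L (nat_lit 465) ln18_10_5_c10 ln18_10_5_c10_ok))))) (B (M (nat_lit 339) (B (M (nat_lit 433) (B (L (nat_lit 401) ln18_9_5_c10 ln18_9_5_c10_ok) (M (nat_lit 434) (B (L (nat_lit 307) ln18_13_6_c10 ln18_13_6_c10_ok)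 (L (nat_lit 465) ln18_10_5_c10 ln18_10_5_c10_ok))))) (M (nat_lit 274) (B (M (nat_lit 273) (B (L (nat_lit 241) ln18_11_7_c10 ln18_11_7_c10_ok) (L (nat_lit 305) ln18_12_7_c10 ln18_12_7_c10_ok))) (M (nat_lit 371) (B (L (nat_lit 242) ln18_7_4_c10 ln18_7_4_c10_ok) (L (nat_lit 403) ln18_8_4_c10 ln18_8_4_c10_ok))))))) (M (nat_lit 274) (B (M (nat_lit 273) (B (L (nat_lit 241) ln18_11_7_c10 ln18_11_7_c10_ok) (L (nat_lit 305) ln18_12_7_c10 ln18_12_7_c10_ok))) (M (nat_lit 242) (B (M (nat_lit 243) (B (L (nat_lit 211) ln18_10_6_c10 ln18_10_6_c10_ok) (L (nat_lit 275) ln18_11_6_c10 ln18_11_6_c10_ok))) (M (nat_lit 371) (B (L (nat_lit 339) ln18_7_4_c10 ln18_7_4_c10_ok) (L (nat_lit 403) ln18_8_4_c10 ln18_8_4_c10_ok))))))))))) (B (M (nat_lit 434) (B (M (nat_lit 466) (B (M (nat_lit 339) (B (L (nat_lit 307) ln18_13_6_c10 ln18_13_6_c10_ok) (L (nat_lit 371) ln18_14_6_c10 ln18_14_6_c10_ok))) (M (nat_lit 467) (B (L (nat_lit 435) ln18_10_4_c10 ln18_10_4_c10_ok) (L (nat_lit 499) ln18_11_4_c10 ln18_11_4_c10_ok))))) (B (M (nat_lit 466) (B (M (nat_lit 467)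 (B (L (nat_lit 435) ln18_10_4_c10 ln18_10_4_c10_ok) (L (nat_lit 499) ln18_11_4_c10 ln18_11_4_c10_ok))) (M (nat_lit 465) (B (L (nat_lit 433) ln18_10_5_c10 ln18_10_5_c10_ok) (L (nat_lit 497) ln18_11_5_c10 ln18_11_5_c10_ok))))) (B (M (nat_lit 466) (B (M (nat_lit 339) (B (L (nat_lit 307) ln18_13_6_c10 ln18_13_6_c10_ok) (L (nat_lit 371) ln18_14_6_c10 ln18_14_6_c10_ok))) (M (nat_lit 465) (B (L (nat_lit 433) ln18_10_5_c10 ln18_10_5_c10_ok) (L (nat_lit 497) ln18_11_5_c10 ln18_11_5_c10_ok))))) (M (nat_lit 306) (B (M (nat_lit 435) (B (L (nat_lit 403) ln18_9_4_c10 ln18_9_4_c10_ok) (L (nat_lit 467) ln18_10_4_c10 ln18_10_4_c10_ok))) (M (nat_lit 433) (B (L (nat_lit 401) ln18_9_5_c10 ln18_9_5_c10_ok) (L (nat_lit 465) ln18_10_5_c10 ln18_10_5_c10_ok))))))))) (B (M (nat_lit 306) (B (M (nat_lit 401) (B (L (nat_lit 433) ln18_9_5_c10 ln18_9_5_c10_ok) (L (nat_lit 403) ln19_12_3_c10 ln19_12_3_c10_ok))) (M (nat_lit 274) (B (M (nat_lit 275) (B (L (nat_lit 307) ln18_12_6_c10 ln18_12_6_c10_ok) (L (nat_lit 243) ln18_11_6_c10 ln18_11_6_c10_ok))) (M (nat_lit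 273) (B (L (nat_lit 305) ln18_12_7_c10 ln18_12_7_c10_ok) (L (nat_lit 241) ln18_11_7_c10 ln18_11_7_c10_ok))))))) (B (M (nat_lit 434) (B (M (nat_lit 467) (B (L (nat_lit 435) ln18_10_4_c10 ln18_10_4_c10_ok) (M (nat_lit 466) (B (L (nat_lit 499) ln18_11_4_c10 ln18_11_4_c10_ok) (M (nat_lit 465) (B (L (nat_lit 497) ln18_11_5_c10 ln18_11_5_c10_ok) (L (nat_lit 433) ln18_10_5_c10 ln18_10_5_c10_ok))))))) (B (M (nat_lit 466) (B (M (nat_lit 465) (B (L (nat_lit 497) ln18_11_5_c10 ln18_11_5_c10_ok) (L (nat_lit 433) ln18_10_5_c10 ln18_10_5_c10_ok))) (M (nat_lit 339) (B (L (nat_lit 371) ln18_14_6_c10 ln18_14_6_c10_ok) (L (nat_lit 307) ln18_13_6_c10 ln18_13_6_c10_ok))))) (B (M (nat_lit 466) (B (M (nat_lit 339) (B (L (nat_lit 307) ln18_13_6_c10 ln18_13_6_c10_ok) (L (nat_lit 371) ln18_14_6_c10 ln18_14_6_c10_ok))) (M (nat_lit 467) (B (L (nat_lit 435) ln18_10_4_c10 ln18_10_4_c10_ok) (L (nat_lit 499) ln18_11_4_c10 ln18_11_4_c10_ok))))) (M (nat_lit 401) (B (M (nat_lit 435) (B (L (nat_lit 467) ln18_10_4_c10 ln18_10_4_c10_ok) (L (nat_lit 403) ln19_12_3_c10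 ln19_12_3_c10_ok))) (B (M (nat_lit 435) (B (L (nat_lit 467) ln18_10_4_c10 ln18_10_4_c10_ok) (M (nat_lit 433) (B (L (nat_lit 465) ln18_10_5_c10 ln18_10_5_c10_ok) (L (nat_lit 436) ln20_13_3_c10 ln20_13_3_c10_ok))))) (L (nat_lit 403) ln19_12_3_c10 ln19_12_3_c10_ok)))))))) (M (nat_lit 434) (B (M (nat_lit 467) (B (L (nat_lit 435) ln18_10_4_c10 ln18_10_4_c10_ok) (M (nat_lit 466) (B (L (nat_lit 499) ln18_11_4_c10 ln18_11_4_c10_ok) (M (nat_lit 465) (B (L (nat_lit 497) ln18_11_5_c10 ln18_11_5_c10_ok) (L (nat_lit 433) ln18_10_5_c10 ln18_10_5_c10_ok))))))) (B (M (nat_lit 306) (B (M (nat_lit 435) (B (L (nat_lit 467) ln18_10_4_c10 ln18_10_4_c10_ok) (L (nat_lit 403) ln18_9_4_c10 ln18_9_4_c10_ok))) (M (nat_lit 433) (B (L (nat_lit 465) ln18_10_5_c10 ln18_10_5_c10_ok) (L (nat_lit 401) ln18_9_5_c10 ln18_9_5_c10_ok))))) (B (M (nat_lit 466) (B (M (nat_lit 465) (B (L (nat_lit 433) ln18_10_5_c10 ln18_10_5_c10_ok) (L (nat_lit 497) ln18_11_5_c10 ln18_11_5_c10_ok))) (M (nat_lit 498) (B (M (nat_lit 371) (B (L (nat_lit 339) ln18_14_6_c10 ln18_14_6_c10_ok)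 (L (nat_lit 403) ln18_15_6_c10 ln18_15_6_c10_ok))) (M (nat_lit 499) (B (L (nat_lit 467) ln18_11_4_c10 ln18_11_4_c10_ok) (L (nat_lit 531) ln18_12_4_c10 ln18_12_4_c10_ok))))))) (B (M (nat_lit 466) (B (M (nat_lit 465) (B (L (nat_lit 497) ln18_11_5_c10 ln18_11_5_c10_ok) (L (nat_lit 433) ln18_10_5_c10 ln18_10_5_c10_ok))) (B (M (nat_lit 498) (B (M (nat_lit 371) (B (L (nat_lit 403) ln18_15_6_c10 ln18_15_6_c10_ok) (L (nat_lit 339) ln18_14_6_c10 ln18_14_6_c10_ok))) (M (nat_lit 530) (B (M (nat_lit 531) (B (L (nat_lit 563) ln18_13_4_c10 ln18_13_4_c10_ok) (L (nat_lit 499) ln18_12_4_c10 ln18_12_4_c10_ok))) (M (nat_lit 433) (B (L (nat_lit 401) ln18_16_7_c10 ln18_16_7_c10_ok) (L (nat_lit 465) ln18_10_5_c10 ln18_10_5_c10_ok))))))) (M (nat_lit 498) (B (M (nat_lit 371) (B (L (nat_lit 403) ln18_15_6_c10 ln18_15_6_c10_ok) (L (nat_lit 339) ln18_14_6_c10 ln18_14_6_c10_ok))) (M (nat_lit 530) (B (M (nat_lit 529) (B (L (nat_lit 561) ln18_13_5_c10 ln18_13_5_c10_ok) (L (nat_lit 497) ln18_12_5_c10 ln18_12_5_c10_ok))) (M (nat_lit 531) (B (L (nat_lit 563)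 ln18_13_4_c10 ln18_13_4_c10_ok) (L (nat_lit 499) ln18_12_4_c10 ln18_12_4_c10_ok)))))))))) (B (M (nat_lit 466) (B (M (nat_lit 467) (B (L (nat_lit 499) ln18_11_4_c10 ln18_11_4_c10_ok) (L (nat_lit 435) ln18_10_4_c10 ln18_10_4_c10_ok))) (M (nat_lit 498) (B (M (nat_lit 497) (B (L (nat_lit 529) ln18_12_5_c10 ln18_12_5_c10_ok) (L (nat_lit 465) ln18_11_5_c10 ln18_11_5_c10_ok))) (M (nat_lit 371) (B (L (nat_lit 403) ln18_15_6_c10 ln18_15_6_c10_ok) (L (nat_lit 339) ln18_14_6_c10 ln18_14_6_c10_ok))))))) (M (nat_lit 466) (B (M (nat_lit 467) (B (L (nat_lit 435) ln18_10_4_c10 ln18_10_4_c10_ok) (L (nat_lit 499) ln18_11_4_c10 ln18_11_4_c10_ok))) (B (M (nat_lit 498) (B (M (nat_lit 371) (B (L (nat_lit 339) ln18_14_6_c10 ln18_14_6_c10_ok) (L (nat_lit 403) ln18_15_6_c10 ln18_15_6_c10_ok))) (M (nat_lit 499) (B (L (nat_lit 467) ln18_11_4_c10 ln18_11_4_c10_ok) (L (nat_lit 531) ln18_12_4_c10 ln18_12_4_c10_ok))))) (M (nat_lit 371) (B (L (nat_lit 339) ln18_14_6_c10 ln18_14_6_c10_ok) (M (nat_lit 403) (B (L (nat_lit 498) ln18_15_6_c10 ln18_15_6_c10_ok)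 (M (nat_lit 306) (B (L (nat_lit 274) ln18_8_4_c10 ln18_8_4_c10_ok) (L (nat_lit 435) ln18_9_4_c10 ln18_9_4_c10_ok))))))))))))))))))))
theorem c10_s439 : Sem (nat_lit 179013548899091572664880704632125070353884004832785184145640603834274570101060341069321343139366404085287401632017748727938770516514056120212129841152) (nat_lit 37739624260517130932233815201706256714613446702072597672288340036229398792218596391886514670824146817508355338798496917150009870202615704739709986039142140662862663647232) (nat_lit 37739624260517130932233815201706256714613446702072597672288340036229398792218596391886514670824146817508355338798496917150009870202615704739709986039142140662862663647232) :=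
  sem_of_chk (M (nat_lit 402) (B (K (nat_lit 179013548899091572664880704642454069866231639191408860833652651331593393272377235120643980565528994573354766410536330141059321842257668808103119814656) (nat_lit 476341026509638434686992981654742931842574281252967655009225367661248250364139242457974851191574674543341030245830484590604668077774095777792) (nat_lit 476341026509638434686992981654742931842574281252967655009225367661248250364139242457974851191574674543341030245830484590604668077774095777792) c10_s433) (B (M (nat_lit 306) (B (M (nat_lit 434) (B (M (nat_lit 433) (B (L (nat_lit 465) ln18_10_5_c10 ln18_10_5_c10_ok) (L (nat_lit 401) ln18_9_5_c10 ln18_9_5_c10_ok))) (M (nat_lit 307) (B (L (nat_lit 339) ln18_13_6_c10 ln18_13_6_c10_ok) (L (nat_lit 275) ln18_12_6_c10 ln18_12_6_c10_ok))))) (M (nat_lit 274) (B (M (nat_lit 403) (B (L (nat_lit 435) ln18_9_4_c10 ln18_9_4_c10_ok) (L (nat_lit 371) ln18_8_4_c10 ln18_8_4_c10_ok))) (M (nat_lit 273) (B (L (nat_lit 305) ln18_12_7_c10 ln18_12_7_c10_ok) (L (nat_lit 241) ln18_11_7_c10 ln18_11_7_c10_ok)))))))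 (B (M (nat_lit 434) (B (M (nat_lit 465) (B (L (nat_lit 433) ln18_10_5_c10 ln18_10_5_c10_ok) (M (nat_lit 466) (B (L (nat_lit 497) ln18_11_5_c10 ln18_11_5_c10_ok) (M (nat_lit 467) (B (L (nat_lit 435) ln18_10_4_c10 ln18_10_4_c10_ok) (L (nat_lit 499) ln18_11_4_c10 ln18_11_4_c10_ok))))))) (B (M (nat_lit 466) (B (M (nat_lit 339) (B (L (nat_lit 307) ln18_13_6_c10 ln18_13_6_c10_ok) (L (nat_lit 371) ln18_14_6_c10 ln18_14_6_c10_ok))) (M (nat_lit 467) (B (L (nat_lit 435) ln18_10_4_c10 ln18_10_4_c10_ok) (L (nat_lit 499) ln18_11_4_c10 ln18_11_4_c10_ok))))) (B (M (nat_lit 466) (B (M (nat_lit 339) (B (L (nat_lit 307) ln18_13_6_c10 ln18_13_6_c10_ok) (L (nat_lit 371) ln18_14_6_c10 ln18_14_6_c10_ok))) (M (nat_lit 465) (B (L (nat_lit 433) ln18_10_5_c10 ln18_10_5_c10_ok) (L (nat_lit 497) ln18_11_5_c10 ln18_11_5_c10_ok))))) (M (nat_lit 306) (B (M (nat_lit 307) (B (L (nat_lit 275) ln18_12_6_c10 ln18_12_6_c10_ok) (L (nat_lit 339) ln18_13_6_c10 ln18_13_6_c10_ok))) (M (nat_lit 433) (B (L (nat_lit 401) ln18_9_5_c10 ln18_9_5_c10_ok) (L (nat_lit 465)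 ln18_10_5_c10 ln18_10_5_c10_ok))))))))) (B (M (nat_lit 434) (B (M (nat_lit 466) (B (M (nat_lit 339) (B (L (nat_lit 307) ln18_13_6_c10 ln18_13_6_c10_ok) (L (nat_lit 371) ln18_14_6_c10 ln18_14_6_c10_ok))) (M (nat_lit 465) (B (L (nat_lit 433) ln18_10_5_c10 ln18_10_5_c10_ok) (L (nat_lit 497) ln18_11_5_c10 ln18_11_5_c10_ok))))) (B (M (nat_lit 467) (B (L (nat_lit 435) ln18_10_4_c10 ln18_10_4_c10_ok) (M (nat_lit 466) (B (L (nat_lit 499) ln18_11_4_c10 ln18_11_4_c10_ok) (M (nat_lit 465) (B (L (nat_lit 433) ln18_10_5_c10 ln18_10_5_c10_ok) (L (nat_lit 497) ln18_11_5_c10 ln18_11_5_c10_ok))))))) (B (M (nat_lit 466) (B (M (nat_lit 339) (B (L (nat_lit 307) ln18_13_6_c10 ln18_13_6_c10_ok) (L (nat_lit 371) ln18_14_6_c10 ln18_14_6_c10_ok))) (M (nat_lit 467) (B (L (nat_lit 435) ln18_10_4_c10 ln18_10_4_c10_ok) (L (nat_lit 499) ln18_11_4_c10 ln18_11_4_c10_ok))))) (M (nat_lit 306) (B (M (nat_lit 307) (B (L (nat_lit 275) ln18_12_6_c10 ln18_12_6_c10_ok) (L (nat_lit 339) ln18_13_6_c10 ln18_13_6_c10_ok))) (M (nat_lit 435) (B (L (nat_lit 403) ln18_9_4_c10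 ln18_9_4_c10_ok) (L (nat_lit 467) ln18_10_4_c10 ln18_10_4_c10_ok))))))))) (B (M (nat_lit 306) (B (M (nat_lit 274) (B (M (nat_lit 403) (B (L (nat_lit 435) ln18_9_4_c10 ln18_9_4_c10_ok) (L (nat_lit 371) ln18_8_4_c10 ln18_8_4_c10_ok))) (M (nat_lit 273) (B (L (nat_lit 305) ln18_12_7_c10 ln18_12_7_c10_ok) (L (nat_lit 241) ln18_11_7_c10 ln18_11_7_c10_ok))))) (B (M (nat_lit 275) (B (L (nat_lit 307) ln18_12_6_c10 ln18_12_6_c10_ok) (M (nat_lit 274) (B (L (nat_lit 243) ln18_11_6_c10 ln18_11_6_c10_ok) (M (nat_lit 273) (B (L (nat_lit 305) ln18_12_7_c10 ln18_12_7_c10_ok) (L (nat_lit 241) ln18_11_7_c10 ln18_11_7_c10_ok))))))) (B (M (nat_lit 274) (B (M (nat_lit 403) (B (L (nat_lit 435) ln18_9_4_c10 ln18_9_4_c10_ok) (L (nat_lit 371) ln18_8_4_c10 ln18_8_4_c10_ok))) (M (nat_lit 275) (B (L (nat_lit 307) ln18_12_6_c10 ln18_12_6_c10_ok) (L (nat_lit 243) ln18_11_6_c10 ln18_11_6_c10_ok))))) (M (nat_lit 434) (B (M (nat_lit 435) (B (L (nat_lit 467) ln18_10_4_c10 ln18_10_4_c10_ok) (L (nat_lit 403) ln18_9_4_c10 ln18_9_4_c10_ok))) (M (nat_lit 307) (B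 (L (nat_lit 339) ln18_13_6_c10 ln18_13_6_c10_ok) (L (nat_lit 275) ln18_12_6_c10 ln18_12_6_c10_ok))))))))) c10_d258)))))) (nat_lit 179013548899091572664880704632125070353884004832785184145640603834274570101060341069321343139366404085287401632017748727938770516514056120212129841152) (nat_lit 37739624260517130932233815201706256714613446702072597672288340036229398792218596391886514670824146817508355338798496917150009870202615704739709986039142140662862663647232) (nat_lit 37739624260517130932233815201706256714613446702072597672288340036229398792218596391886514670824146817508355338798496917150009870202615704739709986039142140662862663647232) (by decide +kernel)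
theorem c10_s463 : Sem (nat_lit 230160277171285840712645919009284512287965328507846604554513794801903537837523796473883739811270398475008332989502064629320701868145729518905124192256) (nat_lit 12741064460168921870117866598154017366271508769902606660506860936427449397533901770263224204594920807727489644331558356337681236305034888961237744349760274300928) (nat_lit 12741064460168921870117866598154017366271508769902606660506860936427449397533901770263224204594920807727489644331558356337681236305034888961237744349760274300928) :=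
  sem_of_chk (M (nat_lit 463) (B (M (nat_lit 400) (B (M (nat_lit 368) (B (M (nat_lit 497) (B (L (nat_lit 465) ln16_11_4 ln16_11_4_ok) (L (nat_lit 529) ln16_12_4 ln16_12_4_ok))) (M (nat_lit 369) (B (L (nat_lit 337) ln16_14_6_c10 ln16_14_6_c10_ok) (L (nat_lit 401) ln16_15_6_c10 ln16_15_6_c10_ok))))) (B (M (nat_lit 495) (B (L (nat_lit 368) ln16_11_5_c10 ln16_11_5_c10_ok) (L (nat_lit 527) ln16_12_5_c10 ln16_12_5_c10_ok))) (M (nat_lit 497) (B (L (nat_lit 529) ln16_12_4 ln16_12_4_ok) (M (nat_lit 495) (B (L (nat_lit 527) ln16_12_5_c10 ln16_12_5_c10_ok) (M (nat_lit 498) (B (L (nat_lit 499) ln19_15_3_c10 ln19_15_3_c10_ok) (M (nat_lit 466) (B (L (nat_lit 467) ln15_15_2_c10 ln15_15_2_c10_ok) (M (nat_lit 530) (B (L (nat_lit 531) ln15_15_0_c10 ln15_15_0_c10_ok) (M (nat_lit 401) (B (L (nat_lit 369) ln16_15_6_c10 ln16_15_6_c10_ok) (M (nat_lit 433) (B (L (nat_lit 465) ln17_12_4_c10 ln17_12_4_c10_ok) (L (nat_lit 434) ln18_16_7_c10 ln18_16_7_c10_ok)))))))))))))))))) (B (K (nat_lit 230160277195102892030364365598804754824839461089546724661515833001207408684274984666783562962823026824796937505797130937314831986671791345071569240064)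 (nat_lit 1757388203959946325453153699928694389061735669156976953614269394731671451733907250651408913483635259087510230464636491194692899410821830095974062672983091052544) (nat_lit 1757388203959946325453153699928694389061735669156976953614269394731671451733907250651408913483635259087510230464636491194692899410821830095974062672983091052544) c10_s462) (B (M (nat_lit 462) (B (M (nat_lit 460) (B (L (nat_lit 431) ln12_14_2 ln12_14_2_ok) (L (nat_lit 495) ln12_14_0 ln12_14_0_ok))) (L (nat_lit 433) ln13_14_2 ln13_14_2_ok))) (M (nat_lit 462) (B (L (nat_lit 433) ln13_14_2 ln13_14_2_ok) (L (nat_lit 497) ln13_14_0 ln13_14_0_ok))))))) (nat_lit 230160277171285840712645919009284512287965328507846604554513794801903537837523796473883739811270398475008332989502064629320701868145729518905124192256) (nat_lit 12741064460168921870117866598154017366271508769902606660506860936427449397533901770263224204594920807727489644331558356337681236305034888961237744349760274300928) (nat_lit 12741064460168921870117866598154017366271508769902606660506860936427449397533901770263224204594920807727489644331558356337681236305034888961237744349760274300928)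 (by decide +kernel)
theorem c10_s464 : Sem (nat_lit 230160277171285840712645919009284512287965328507846604554513794801903537837523796473883739811270398475008332989502064629320701868145729518905124192256) (nat_lit 34808659553971306761224546798795887259376913827310647621998574829702026901710750029120897388126996771732576951637623430276888948921741776557139153859272406591166613639723189818660287938560) (nat_lit 34808659553971306761224546798795887259376913827310647621998574829702026901710750029120897388126996771732576951637623430276888948921741776557139153859272406591166613639723189818660287938560) :=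
  sem_of_chk (M (nat_lit 463) (B (M (nat_lit 497) (B (L (nat_lit 462) ln13_14_0 ln13_14_0_ok) (M (nat_lit 529) (B (L (nat_lit 400) ln16_12_4 ln16_12_4_ok) (M (nat_lit 561) (B (L (nat_lit 593) ln17_18_7_c10 ln17_18_7_c10_ok) (L (nat_lit 528) ln16_13_4_c10 ln16_13_4_c10_ok))))))) (B (M (nat_lit 433) (B (M (nat_lit 401) (B (L (nat_lit 528) ln16_16_6_c10 ln16_16_6_c10_ok) (M (nat_lit 369) (B (L (nat_lit 400) ln16_15_6_c10 ln16_15_6_c10_ok) (L (nat_lit 337) ln17_10_5_c10 ln17_10_5_c10_ok))))) (L (nat_lit 462) ln13_14_2 ln13_14_2_ok))) (B (K (nat_lit 230160277195102892030364365598804754824839461089546724661515833001207408684274984666783562962823026824796937505797130937314831986671791345071569240064) (nat_lit 1757388203959946325453153699928694389061735669156976953614269394731671451733907250651408913483635259087510230464636491194692899410821830095974062672983091052544) (nat_lit 1757388203959946325453153699928694389061735669156976953614269394731671451733907250651408913483635259087510230464636491194692899410821830095974062672983091052544)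 c10_s462) (B (M (nat_lit 400) (B (M (nat_lit 368) (B (L (nat_lit 495) ln16_11_5_c10 ln16_11_5_c10_ok) (M (nat_lit 336) (B (L (nat_lit 431) ln16_10_5 ln16_10_5_ok) (M (nat_lit 335) (B (L (nat_lit 367) ln16_14_7 ln16_14_7_ok) (L (nat_lit 303) ln16_13_7 ln16_13_7_ok))))))) (M (nat_lit 528) (B (M (nat_lit 529) (B (L (nat_lit 561) ln16_13_4_c10 ln16_13_4_c10_ok) (L (nat_lit 497) ln16_12_4 ln16_12_4_ok))) (M (nat_lit 401) (B (L (nat_lit 433) ln16_16_6_c10 ln16_16_6_c10_ok) (L (nat_lit 369) ln16_15_6_c10 ln16_15_6_c10_ok))))))) (M (nat_lit 528) (B (M (nat_lit 560) (B (L (nat_lit 431) ln16_17_7_c10 ln16_17_7_c10_ok) (M (nat_lit 561) (B (L (nat_lit 593) ln16_14_4_c10 ln16_14_4_c10_ok) (L (nat_lit 529) ln16_13_4_c10 ln16_13_4_c10_ok))))) (B (M (nat_lit 560) (B (L (nat_lit 431) ln16_17_7_c10 ln16_17_7_c10_ok) (M (nat_lit 592) (B (L (nat_lit 495) ln16_18_7_c10 ln16_18_7_c10_ok) (M (nat_lit 591) (B (L (nat_lit 623) ln16_15_5_c10 ln16_15_5_c10_ok) (L (nat_lit 559) ln16_14_5_c10 ln16_14_5_c10_ok))))))) (M (nat_lit 433) (B (L (nat_lit 401)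 ln16_16_6_c10 ln16_16_6_c10_ok) (L (nat_lit 462) ln13_14_2 ln13_14_2_ok))))))))))) (nat_lit 230160277171285840712645919009284512287965328507846604554513794801903537837523796473883739811270398475008332989502064629320701868145729518905124192256) (nat_lit 34808659553971306761224546798795887259376913827310647621998574829702026901710750029120897388126996771732576951637623430276888948921741776557139153859272406591166613639723189818660287938560) (nat_lit 34808659553971306761224546798795887259376913827310647621998574829702026901710750029120897388126996771732576951637623430276888948921741776557139153859272406591166613639723189818660287938560) (by decide +kernel)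
theorem c10_s471 : Sem (nat_lit 28770034646410730089080739877149081567450810757958482127346627333379782728507911685240954261334516477179363643506919190467640497114772872883957923840) (nat_lit 39472586554941433610301681002282281651775231991457078702859677351036139638920585796995569161513541690757640709441532586777812561791107631404060828980635238400) (nat_lit 39472586554941433610301681002282281651775231991457078702859677351036139638920585796995569161513541690757640709441532586777812561791107631404060828980635238400) :=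
  sem_of_chk (M (nat_lit 459) (B (M (nat_lit 394) (B (M (nat_lit 362) (B (M (nat_lit 489) (B (L (nat_lit 457) ln10_11_5 ln10_11_5_ok) (L (nat_lit 521) ln10_12_5 ln10_12_5_ok))) (M (nat_lit 361) (B (L (nat_lit 329) ln10_14_7 ln10_14_7_ok) (L (nat_lit 393) ln10_15_7 ln10_15_7_ok))))) (B (M (nat_lit 491) (B (L (nat_lit 362) ln10_11_4 ln10_11_4_ok) (L (nat_lit 523) ln10_12_4 ln10_12_4_ok))) (M (nat_lit 489) (B (L (nat_lit 521) ln10_12_5 ln10_12_5_ok) (M (nat_lit 491) (B (L (nat_lit 523) ln10_12_4 ln10_12_4_ok) (M (nat_lit 488) (B (L (nat_lit 487) ln7_15_2 ln7_15_2_ok) (M (nat_lit 456) (B (L (nat_lit 455) ln11_15_3 ln11_15_3_ok) (M (nat_lit 520) (B (L (nat_lit 519) ln11_15_1 ln11_15_1_ok) (M (nat_lit 393) (B (L (nat_lit 361) ln10_15_7 ln10_15_7_ok) (M (nat_lit 425) (B (L (nat_lit 457) ln9_12_5_c10 ln9_12_5_c10_ok) (L (nat_lit 424) ln8_16_6_c10 ln8_16_6_c10_ok)))))))))))))))))) (B (K (nat_lit 28770034647899295796438142788994096726005444044314739634034254720836274656429860947297193208306555749041151425775360834717273629522651737019360739328)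 (nat_lit 6864797669321037450089313343330204997296170560374288203367088651941743060752835577688898477374567118763473901056377515656933558463225673181161621890491482112) (nat_lit 6864797669321037450089313343330204997296170560374288203367088651941743060752835577688898477374567118763473901056377515656933558463225673181161621890491482112) c10_s470) (B (M (nat_lit 460) (B (M (nat_lit 462) (B (L (nat_lit 427) ln14_14_3 ln14_14_3_ok) (L (nat_lit 491) ln14_14_1 ln14_14_1_ok))) (L (nat_lit 425) ln13_14_3 ln13_14_3_ok))) (M (nat_lit 460) (B (L (nat_lit 425) ln13_14_3 ln13_14_3_ok) (L (nat_lit 489) ln13_14_1 ln13_14_1_ok))))))) (nat_lit 28770034646410730089080739877149081567450810757958482127346627333379782728507911685240954261334516477179363643506919190467640497114772872883957923840) (nat_lit 39472586554941433610301681002282281651775231991457078702859677351036139638920585796995569161513541690757640709441532586777812561791107631404060828980635238400) (nat_lit 39472586554941433610301681002282281651775231991457078702859677351036139638920585796995569161513541690757640709441532586777812561791107631404060828980635238400)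 (by decide +kernel)
theorem c10_s472 : Sem (nat_lit 28770034646410730089080739877149081567450810757958482127346627333379782728507911685240954261334516477179363643506919190467640497114772872883957923840) (nat_lit 2175541219463910195318548514239774968566721212325171148224622593834000391937395580837869137040346621325335955979366980907273406210314710499954120230691012851068157003336847265649752276992) (nat_lit 2175541219463910195318548514239774968566721212325171148224622593834000391937395580837869137040346621325335955979366980907273406210314710499954120230691012851068157003336847265649752276992) :=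
  sem_of_chk (M (nat_lit 459) (B (M (nat_lit 489) (B (L (nat_lit 460) ln13_14_1 ln13_14_1_ok) (M (nat_lit 521) (B (L (nat_lit 394) ln10_12_5 ln10_12_5_ok) (M (nat_lit 553) (B (L (nat_lit 585) ln9_18_6 ln9_18_6_ok) (L (nat_lit 522) ln10_13_5 ln10_13_5_ok))))))) (B (M (nat_lit 425) (B (M (nat_lit 393) (B (L (nat_lit 522) ln10_16_7 ln10_16_7_ok) (M (nat_lit 361) (B (L (nat_lit 394) ln10_15_7 ln10_15_7_ok) (L (nat_lit 329) ln9_10_4_c10 ln9_10_4_c10_ok))))) (L (nat_lit 460) ln13_14_3 ln13_14_3_ok))) (B (K (nat_lit 28770034647899295796438142788994096726005444044314739634034254720836274656429860947297193208306555749041151425775360834717273629522651737019360739328) (nat_lit 6864797669321037450089313343330204997296170560374288203367088651941743060752835577688898477374567118763473901056377515656933558463225673181161621890491482112) (nat_lit 6864797669321037450089313343330204997296170560374288203367088651941743060752835577688898477374567118763473901056377515656933558463225673181161621890491482112) c10_s470) (B (M (nat_lit 394) (B (M (nat_lit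 362) (B (L (nat_lit 491) ln10_11_4 ln10_11_4_ok) (M (nat_lit 330) (B (L (nat_lit 427) ln10_10_4 ln10_10_4_ok) (M (nat_lit 331) (B (L (nat_lit 363) ln10_14_6 ln10_14_6_ok) (L (nat_lit 299) ln10_13_6 ln10_13_6_ok))))))) (M (nat_lit 522) (B (M (nat_lit 521) (B (L (nat_lit 553) ln10_13_5 ln10_13_5_ok) (L (nat_lit 489) ln10_12_5 ln10_12_5_ok))) (M (nat_lit 393) (B (L (nat_lit 425) ln10_16_7 ln10_16_7_ok) (L (nat_lit 361) ln10_15_7 ln10_15_7_ok))))))) (M (nat_lit 522) (B (M (nat_lit 554) (B (L (nat_lit 427) ln10_17_6 ln10_17_6_ok) (M (nat_lit 553) (B (L (nat_lit 585) ln10_14_5 ln10_14_5_ok) (L (nat_lit 521) ln10_13_5 ln10_13_5_ok))))) (B (M (nat_lit 554) (B (L (nat_lit 427) ln10_17_6 ln10_17_6_ok) (M (nat_lit 586) (B (L (nat_lit 491) ln10_18_6 ln10_18_6_ok) (M (nat_lit 587) (B (L (nat_lit 619) ln10_15_4 ln10_15_4_ok) (L (nat_lit 555) ln10_14_4 ln10_14_4_ok))))))) (M (nat_lit 425) (B (L (nat_lit 393) ln10_16_7 ln10_16_7_ok) (L (nat_lit 460) ln13_14_3 ln13_14_3_ok))))))))))) (nat_lit 28770034646410730089080739877149081567450810757958482127346627333379782728507911685240954261334516477179363643506919190467640497114772872883957923840)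 (nat_lit 2175541219463910195318548514239774968566721212325171148224622593834000391937395580837869137040346621325335955979366980907273406210314710499954120230691012851068157003336847265649752276992) (nat_lit 2175541219463910195318548514239774968566721212325171148224622593834000391937395580837869137040346621325335955979366980907273406210314710499954120230691012851068157003336847265649752276992) (by decide +kernel)
theorem c10_s485 : Sem (nat_lit 20839919915480654392278910201391882264833254797226309034078309659991520807573229041605793484315136322418169375090824674936824626068561330176) (nat_lit 1886981215486200028575344638426209345490710109348476761097858108934937570891846352561445466106864819453559820064456948756251275744400324072773313786214803639990115893248) (nat_lit 1886981215486200028575344638426209345490710109348476761097858108934937570891846352561445466106864819453559820064456948756251275744400324072773313786214803639990115893248) :=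
  sem_of_chk (M (nat_lit 399) (B (M (nat_lit 464) (B (M (nat_lit 496) (B (M (nat_lit 369) (B (L (nat_lit 401) ln16_15_6_c10 ln16_15_6_c10_ok) (L (nat_lit 337) ln16_14_6_c10 ln16_14_6_c10_ok))) (M (nat_lit 497) (B (L (nat_lit 529) ln16_12_4 ln16_12_4_ok) (L (nat_lit 465) ln16_11_4 ln16_11_4_ok))))) (B (M (nat_lit 367) (B (L (nat_lit 496) ln16_15_7 ln16_15_7_ok) (L (nat_lit 335) ln16_14_7 ln16_14_7_ok))) (M (nat_lit 369) (B (L (nat_lit 337) ln16_14_6_c10 ln16_14_6_c10_ok) (M (nat_lit 367) (B (L (nat_lit 335) ln16_14_7 ln16_14_7_ok) (M (nat_lit 370) (B (L (nat_lit 371) ln19_11_1_c10 ln19_11_1_c10_ok) (M (nat_lit 402) (B (L (nat_lit 403) ln15_11_0_c10 ln15_11_0_c10_ok) (M (nat_lit 338) (B (L (nat_lit 339) ln15_11_2_c10 ln15_11_2_c10_ok) (M (nat_lit 465) (B (L (nat_lit 497) ln16_11_4 ln16_11_4_ok) (M (nat_lit 433) (B (L (nat_lit 401) ln17_14_6_c10 ln17_14_6_c10_ok) (L (nat_lit 434) ln18_10_5_c10 ln18_10_5_c10_ok)))))))))))))))))) (B (K (nat_lit 20839919915480654393570035140435336559661214383227814971243162556406132563988558719876117295323556919732992051730893590654776212054935076864)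 (nat_lit 1886981215486200028575344638426209345424166036651973190618335562176889438487251592793001525913003645020929896252784182858531023615978801341934416814276967432623157673984) (nat_lit 1886981215486200028575344638426209345424166036651973190618335562176889438487251592793001525913003645020929896252784182858531023615978801341934416814276967432623157673984) c10_s484) (B (M (nat_lit 398) (B (M (nat_lit 396) (B (L (nat_lit 431) ln12_12_0 ln12_12_0_ok) (L (nat_lit 367) ln12_12_2 ln12_12_2_ok))) (L (nat_lit 433) ln13_12_0 ln13_12_0_ok))) (M (nat_lit 398) (B (L (nat_lit 433) ln13_12_0 ln13_12_0_ok) (L (nat_lit 369) ln13_12_2 ln13_12_2_ok))))))) (nat_lit 20839919915480654392278910201391882264833254797226309034078309659991520807573229041605793484315136322418169375090824674936824626068561330176) (nat_lit 1886981215486200028575344638426209345490710109348476761097858108934937570891846352561445466106864819453559820064456948756251275744400324072773313786214803639990115893248) (nat_lit 1886981215486200028575344638426209345490710109348476761097858108934937570891846352561445466106864819453559820064456948756251275744400324072773313786214803639990115893248)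 (by decide +kernel)
theorem c10_s486 : Sem (nat_lit 20839919915480654392278910201391882264833254797226309034078309659991520807573229041605793484315136322418169375090824674936824626068561330176) (nat_lit 1886981215486200028575344638426209345446347394206230834434006329945002051747244782111034042700410436211369590624517703926137904326233181212431773261827659177242006650880) (nat_lit 1886981215486200028575344638426209345446347394206230834434006329945002051747244782111034042700410436211369590624517703926137904326233181212431773261827659177242006650880) :=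
  sem_of_chk (M (nat_lit 399) (B (M (nat_lit 369) (B (L (nat_lit 398) ln13_12_2 ln13_12_2_ok) (M (nat_lit 337) (B (L (nat_lit 464) ln16_14_6_c10 ln16_14_6_c10_ok) (M (nat_lit 305) (B (L (nat_lit 273) ln17_8_5_c10 ln17_8_5_c10_ok) (L (nat_lit 336) ln16_13_6_c10 ln16_13_6_c10_ok))))))) (B (M (nat_lit 433) (B (M (nat_lit 465) (B (L (nat_lit 336) ln16_10_4_c10 ln16_10_4_c10_ok) (M (nat_lit 497) (B (L (nat_lit 464) ln16_11_4 ln16_11_4_ok) (L (nat_lit 529) ln17_16_7_c10 ln17_16_7_c10_ok))))) (L (nat_lit 398) ln13_12_0 ln13_12_0_ok))) (B (K (nat_lit 20839919915480654393570035140435336559661214383227814971243162556406132563988558719876117295323556919732992051730893590654776212054935076864) (nat_lit 1886981215486200028575344638426209345424166036651973190618335562176889438487251592793001525913003645020929896252784182858531023615978801341934416814276967432623157673984) (nat_lit 1886981215486200028575344638426209345424166036651973190618335562176889438487251592793001525913003645020929896252784182858531023615978801341934416814276967432623157673984)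 c10_s484) (B (M (nat_lit 464) (B (M (nat_lit 496) (B (L (nat_lit 367) ln16_15_7 ln16_15_7_ok) (M (nat_lit 528) (B (L (nat_lit 431) ln16_16_7 ln16_16_7_ok) (M (nat_lit 527) (B (L (nat_lit 495) ln16_12_5_c10 ln16_12_5_c10_ok) (L (nat_lit 559) ln16_13_5_c10 ln16_13_5_c10_ok))))))) (M (nat_lit 336) (B (M (nat_lit 337) (B (L (nat_lit 305) ln16_13_6_c10 ln16_13_6_c10_ok) (L (nat_lit 369) ln16_14_6_c10 ln16_14_6_c10_ok))) (M (nat_lit 465) (B (L (nat_lit 433) ln16_10_4_c10 ln16_10_4_c10_ok) (L (nat_lit 497) ln16_11_4 ln16_11_4_ok))))))) (M (nat_lit 336) (B (M (nat_lit 304) (B (L (nat_lit 431) ln16_9_5 ln16_9_5_ok) (M (nat_lit 305) (B (L (nat_lit 273) ln16_12_6_c10 ln16_12_6_c10_ok) (L (nat_lit 337) ln16_13_6_c10 ln16_13_6_c10_ok))))) (B (M (nat_lit 304) (B (L (nat_lit 431) ln16_9_5 ln16_9_5_ok) (M (nat_lit 272) (B (L (nat_lit 367) ln16_8_5 ln16_8_5_ok) (M (nat_lit 271) (B (L (nat_lit 239) ln16_11_7_c10 ln16_11_7_c10_ok) (L (nat_lit 303) ln16_12_7_c10 ln16_12_7_c10_ok))))))) (M (nat_lit 433) (B (L (nat_lit 465) ln16_10_4_c10 ln16_10_4_c10_ok)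 (L (nat_lit 398) ln13_12_0 ln13_12_0_ok))))))))))) (nat_lit 20839919915480654392278910201391882264833254797226309034078309659991520807573229041605793484315136322418169375090824674936824626068561330176) (nat_lit 1886981215486200028575344638426209345446347394206230834434006329945002051747244782111034042700410436211369590624517703926137904326233181212431773261827659177242006650880) (nat_lit 1886981215486200028575344638426209345446347394206230834434006329945002051747244782111034042700410436211369590624517703926137904326233181212431773261827659177242006650880) (by decide +kernel)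
theorem c10_s493 : Sem (nat_lit 20839919904563267469136299467468243040968311306576724125601814824542818561135580730608205265846292373090681313944358956363619163917254656000) (nat_lit 117936325823726750889651195466205648872989789918962247543639927915191653198536774813610808390777848210760419790768124534054248090478619630122515843800706445463005429760) (nat_lit 117936325823726750889651195466205648872989789918962247543639927915191653198536774813610808390777848210760419790768124534054248090478619630122515843800706445463005429760) :=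
  sem_of_chk (M (nat_lit 395) (B (M (nat_lit 458) (B (M (nat_lit 490) (B (M (nat_lit 361) (B (L (nat_lit 393) ln10_15_7 ln10_15_7_ok) (L (nat_lit 329) ln10_14_7 ln10_14_7_ok))) (M (nat_lit 489) (B (L (nat_lit 521) ln10_12_5 ln10_12_5_ok) (L (nat_lit 457) ln10_11_5 ln10_11_5_ok))))) (B (M (nat_lit 363) (B (L (nat_lit 490) ln10_15_6 ln10_15_6_ok) (L (nat_lit 331) ln10_14_6 ln10_14_6_ok))) (M (nat_lit 361) (B (L (nat_lit 329) ln10_14_7 ln10_14_7_ok) (M (nat_lit 363) (B (L (nat_lit 331) ln10_14_6 ln10_14_6_ok) (M (nat_lit 360) (B (L (nat_lit 359) ln7_11_0 ln7_11_0_ok) (M (nat_lit 392) (B (L (nat_lit 391) ln11_11_1 ln11_11_1_ok) (M (nat_lit 328) (B (L (nat_lit 327) ln11_11_3 ln11_11_3_ok) (M (nat_lit 457) (B (L (nat_lit 489) ln10_11_5 ln10_11_5_ok) (M (nat_lit 425) (B (L (nat_lit 393) ln9_14_7_c10 ln9_14_7_c10_ok) (L (nat_lit 424) ln8_10_4_c10 ln8_10_4_c10_ok)))))))))))))))))) (B (K (nat_lit 20839919904563267469216994776158458934395058780701818246674618130568731795911538835500100504034318660422857731234363263595991138041403015168)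 (nat_lit 117936325823726750889651195466205648872859821026288772371333277256089822142411256404757601095407771476478291024649103143038239998304849510851686463463724303441442373632) (nat_lit 117936325823726750889651195466205648872859821026288772371333277256089822142411256404757601095407771476478291024649103143038239998304849510851686463463724303441442373632) c10_s492) (B (M (nat_lit 396) (B (M (nat_lit 398) (B (L (nat_lit 427) ln14_12_1 ln14_12_1_ok) (L (nat_lit 363) ln14_12_3 ln14_12_3_ok))) (L (nat_lit 425) ln13_12_1 ln13_12_1_ok))) (M (nat_lit 396) (B (L (nat_lit 425) ln13_12_1 ln13_12_1_ok) (L (nat_lit 361) ln13_12_3 ln13_12_3_ok))))))) (nat_lit 20839919904563267469136299467468243040968311306576724125601814824542818561135580730608205265846292373090681313944358956363619163917254656000) (nat_lit 117936325823726750889651195466205648872989789918962247543639927915191653198536774813610808390777848210760419790768124534054248090478619630122515843800706445463005429760) (nat_lit 117936325823726750889651195466205648872989789918962247543639927915191653198536774813610808390777848210760419790768124534054248090478619630122515843800706445463005429760)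 (by decide +kernel)
theorem c10_s494 : Sem (nat_lit 20839919904563267469136299467468243040968311306576724125601814824542818561135580730608205265846292373090681313944358956363619163917254656000) (nat_lit 117936325823726750889651195466205648872946466954310743144385318592773228232995304602839978845808246464706339823652308044735793286482158130502913484672682232830599626752) (nat_lit 117936325823726750889651195466205648872946466954310743144385318592773228232995304602839978845808246464706339823652308044735793286482158130502913484672682232830599626752) :=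
  sem_of_chk (M (nat_lit 395) (B (M (nat_lit 361) (B (L (nat_lit 396) ln13_12_3 ln13_12_3_ok) (M (nat_lit 329) (B (L (nat_lit 458) ln10_14_7 ln10_14_7_ok) (M (nat_lit 297) (B (L (nat_lit 265) ln9_8_4_c10 ln9_8_4_c10_ok) (L (nat_lit 330) ln10_13_7_c10 ln10_13_7_c10_ok))))))) (B (M (nat_lit 425) (B (M (nat_lit 457) (B (L (nat_lit 330) ln10_10_5 ln10_10_5_ok) (M (nat_lit 489) (B (L (nat_lit 458) ln10_11_5 ln10_11_5_ok) (L (nat_lit 521) ln9_16_6 ln9_16_6_ok))))) (L (nat_lit 396) ln13_12_1 ln13_12_1_ok))) (B (K (nat_lit 20839919904563267469216994776158458934395058780701818246674618130568731795911538835500100504034318660422857731234363263595991138041403015168) (nat_lit 117936325823726750889651195466205648872859821026288772371333277256089822142411256404757601095407771476478291024649103143038239998304849510851686463463724303441442373632) (nat_lit 117936325823726750889651195466205648872859821026288772371333277256089822142411256404757601095407771476478291024649103143038239998304849510851686463463724303441442373632) c10_s492) (B (M (nat_lit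 458) (B (M (nat_lit 490) (B (L (nat_lit 363) ln10_15_6 ln10_15_6_ok) (M (nat_lit 522) (B (L (nat_lit 427) ln10_16_6 ln10_16_6_ok) (M (nat_lit 523) (B (L (nat_lit 491) ln10_12_4 ln10_12_4_ok) (L (nat_lit 555) ln10_13_4 ln10_13_4_ok))))))) (M (nat_lit 330) (B (M (nat_lit 329) (B (L (nat_lit 297) ln10_13_7_c10 ln10_13_7_c10_ok) (L (nat_lit 361) ln10_14_7 ln10_14_7_ok))) (M (nat_lit 457) (B (L (nat_lit 425) ln10_10_5 ln10_10_5_ok) (L (nat_lit 489) ln10_11_5 ln10_11_5_ok))))))) (M (nat_lit 330) (B (M (nat_lit 298) (B (L (nat_lit 427) ln10_9_4 ln10_9_4_ok) (M (nat_lit 297) (B (L (nat_lit 265) ln10_12_7_c10 ln10_12_7_c10_ok) (L (nat_lit 329) ln10_13_7_c10 ln10_13_7_c10_ok))))) (B (M (nat_lit 298) (B (L (nat_lit 427) ln10_9_4 ln10_9_4_ok) (M (nat_lit 266) (B (L (nat_lit 363) ln10_8_4 ln10_8_4_ok) (M (nat_lit 267) (B (L (nat_lit 235) ln10_11_6_c10 ln10_11_6_c10_ok) (L (nat_lit 299) ln10_12_6_c10 ln10_12_6_c10_ok))))))) (M (nat_lit 425) (B (L (nat_lit 457) ln10_10_5 ln10_10_5_ok) (L (nat_lit 396) ln13_12_1 ln13_12_1_ok))))))))))) (nat_lit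 20839919904563267469136299467468243040968311306576724125601814824542818561135580730608205265846292373090681313944358956363619163917254656000) (nat_lit 117936325823726750889651195466205648872946466954310743144385318592773228232995304602839978845808246464706339823652308044735793286482158130502913484672682232830599626752) (nat_lit 117936325823726750889651195466205648872946466954310743144385318592773228232995304602839978845808246464706339823652308044735793286482158130502913484672682232830599626752) (by decide +kernel)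
noncomputable def c10_d259 : Cert := (B (M (nat_lit 523) (B (M (nat_lit 555) (B (M (nat_lit 556) (B (L (nat_lit 588) ln11_14_4 ln11_14_4_ok) (L (nat_lit 524) ln11_13_4 ln11_13_4_ok))) (M (nat_lit 554) (B (L (nat_lit 586) ln11_14_5 ln11_14_5_ok) (L (nat_lit 522) ln11_13_5 ln11_13_5_ok))))) (B (M (nat_lit 395) (B (M (nat_lit 522) (B (L (nat_lit 554) ln11_13_5 ln11_13_5_ok) (L (nat_lit 490) ln11_12_5 ln11_12_5_ok))) (M (nat_lit 396) (B (L (nat_lit 428) ln11_16_6 ln11_16_6_ok) (L (nat_lit 364) ln11_15_6 ln11_15_6_ok))))) (B (M (nat_lit 490) (B (M (nat_lit 396) (B (L (nat_lit 428) ln11_16_6 ln11_16_6_ok) (M (nat_lit 395) (B (L (nat_lit 522) ln11_12_5 ln11_12_5_ok) (L (nat_lit 364) ln11_15_6 ln11_15_6_ok))))) (M (nat_lit 555) (B (M (nat_lit 556) (B (L (nat_lit 588) ln11_14_4 ln11_14_4_ok) (L (nat_lit 524) ln11_13_4 ln11_13_4_ok))) (M (nat_lit 458) (B (L (nat_lit 587) ln11_18_7 ln11_18_7_ok) (L (nat_lit 426) ln11_17_7 ln11_17_7_ok))))))) (M (nat_lit 555) (B (M (nat_lit 556) (B (L (nat_lit 588) ln11_14_4 ln11_14_4_ok) (L (nat_lit 524)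 ln11_13_4 ln11_13_4_ok))) (M (nat_lit 587) (B (M (nat_lit 586) (B (L (nat_lit 618) ln11_15_5 ln11_15_5_ok) (L (nat_lit 554) ln11_14_5 ln11_14_5_ok))) (M (nat_lit 458) (B (L (nat_lit 490) ln11_18_7 ln11_18_7_ok) (L (nat_lit 426) ln11_17_7 ln11_17_7_ok))))))))))) (B (M (nat_lit 395) (B (M (nat_lit 363) (B (M (nat_lit 490) (B (L (nat_lit 522) ln11_12_5 ln11_12_5_ok) (L (nat_lit 458) ln11_11_5 ln11_11_5_ok))) (M (nat_lit 362) (B (L (nat_lit 394) ln11_15_7 ln11_15_7_ok) (L (nat_lit 330) ln11_14_7 ln11_14_7_ok))))) (B (M (nat_lit 363) (B (M (nat_lit 362) (B (L (nat_lit 394) ln11_15_7 ln11_15_7_ok) (L (nat_lit 330) ln11_14_7 ln11_14_7_ok))) (M (nat_lit 364) (B (L (nat_lit 396) ln11_15_6 ln11_15_6_ok) (L (nat_lit 332) ln11_14_6 ln11_14_6_ok))))) (B (M (nat_lit 363) (B (M (nat_lit 490) (B (L (nat_lit 522) ln11_12_5 ln11_12_5_ok) (L (nat_lit 458) ln11_11_5 ln11_11_5_ok))) (M (nat_lit 364) (B (L (nat_lit 396) ln11_15_6 ln11_15_6_ok) (L (nat_lit 332) ln11_14_6 ln11_14_6_ok))))) (M (nat_lit 523) (B (M (nat_lit 394) (B (L (nat_lit 426) ln11_16_7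 ln11_16_7_ok) (L (nat_lit 362) ln11_15_7 ln11_15_7_ok))) (M (nat_lit 396) (B (L (nat_lit 428) ln11_16_6 ln11_16_6_ok) (L (nat_lit 364) ln11_15_6 ln11_15_6_ok))))))))) (B (M (nat_lit 523) (B (M (nat_lit 428) (B (L (nat_lit 396) ln11_16_6 ln11_16_6_ok) (M (nat_lit 426) (B (L (nat_lit 394) ln11_16_7 ln11_16_7_ok) (L (nat_lit 462) ln10_13_0 ln10_13_0_ok))))) (M (nat_lit 555) (B (M (nat_lit 554) (B (L (nat_lit 522) ln11_13_5 ln11_13_5_ok) (L (nat_lit 586) ln11_14_5 ln11_14_5_ok))) (M (nat_lit 556) (B (L (nat_lit 524) ln11_13_4 ln11_13_4_ok) (L (nat_lit 588) ln11_14_4 ln11_14_4_ok))))))) (B (M (nat_lit 395) (B (M (nat_lit 362) (B (L (nat_lit 394) ln11_15_7 ln11_15_7_ok) (M (nat_lit 363) (B (L (nat_lit 330) ln11_14_7 ln11_14_7_ok) (M (nat_lit 364) (B (L (nat_lit 332) ln11_14_6 ln11_14_6_ok) (L (nat_lit 396) ln11_15_6 ln11_15_6_ok))))))) (B (M (nat_lit 363) (B (M (nat_lit 364) (B (L (nat_lit 332) ln11_14_6 ln11_14_6_ok) (L (nat_lit 396) ln11_15_6 ln11_15_6_ok))) (M (nat_lit 490) (B (L (nat_lit 458) ln11_11_5 ln11_11_5_ok) (L (nat_lit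 522) ln11_12_5 ln11_12_5_ok))))) (B (M (nat_lit 363) (B (M (nat_lit 490) (B (L (nat_lit 522) ln11_12_5 ln11_12_5_ok) (L (nat_lit 458) ln11_11_5 ln11_11_5_ok))) (M (nat_lit 362) (B (L (nat_lit 394) ln11_15_7 ln11_15_7_ok) (L (nat_lit 330) ln11_14_7 ln11_14_7_ok))))) (M (nat_lit 428) (B (M (nat_lit 394) (B (L (nat_lit 362) ln11_15_7 ln11_15_7_ok) (M (nat_lit 426) (B (L (nat_lit 462) ln10_13_0 ln10_13_0_ok) (L (nat_lit 393) ln13_13_3 ln13_13_3_ok))))) (B (M (nat_lit 394) (B (L (nat_lit 362) ln11_15_7 ln11_15_7_ok) (M (nat_lit 396) (B (L (nat_lit 364) ln11_15_6 ln11_15_6_ok) (L (nat_lit 393) ln9_12_0 ln9_12_0_ok))))) (M (nat_lit 426) (B (L (nat_lit 462) ln10_13_0 ln10_13_0_ok) (M (nat_lit 425) (B (M (nat_lit 457) (B (L (nat_lit 458) ln13_13_1 ln13_13_1_ok) (L (nat_lit 456) ln12_13_1 ln12_13_1_ok))) (M (nat_lit 396) (B (L (nat_lit 364) ln11_15_6 ln11_15_6_ok) (L (nat_lit 424) ln8_13_2 ln8_13_2_ok)))))))))))))) (M (nat_lit 395) (B (M (nat_lit 362) (B (L (nat_lit 394) ln11_15_7 ln11_15_7_ok) (M (nat_lit 363) (B (L (nat_lit 330) ln11_14_7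 ln11_14_7_ok) (M (nat_lit 364) (B (L (nat_lit 332) ln11_14_6 ln11_14_6_ok) (L (nat_lit 396) ln11_15_6 ln11_15_6_ok))))))) (B (M (nat_lit 523) (B (M (nat_lit 394) (B (L (nat_lit 362) ln11_15_7 ln11_15_7_ok) (L (nat_lit 426) ln11_16_7 ln11_16_7_ok))) (M (nat_lit 396) (B (L (nat_lit 364) ln11_15_6 ln11_15_6_ok) (L (nat_lit 428) ln11_16_6 ln11_16_6_ok))))) (B (M (nat_lit 363) (B (M (nat_lit 364) (B (L (nat_lit 396) ln11_15_6 ln11_15_6_ok) (L (nat_lit 332) ln11_14_6 ln11_14_6_ok))) (M (nat_lit 331) (B (M (nat_lit 458) (B (L (nat_lit 490) ln11_11_5 ln11_11_5_ok) (L (nat_lit 426) ln11_10_5 ln11_10_5_ok))) (M (nat_lit 330) (B (L (nat_lit 362) ln11_14_7 ln11_14_7_ok) (L (nat_lit 298) ln11_13_7 ln11_13_7_ok))))))) (B (M (nat_lit 363) (B (M (nat_lit 364) (B (L (nat_lit 332) ln11_14_6 ln11_14_6_ok) (L (nat_lit 396) ln11_15_6 ln11_15_6_ok))) (B (M (nat_lit 331) (B (M (nat_lit 458) (B (L (nat_lit 426) ln11_10_5 ln11_10_5_ok) (L (nat_lit 490) ln11_11_5 ln11_11_5_ok))) (M (nat_lit 299) (B (M (nat_lit 298) (B (L (nat_lit 266) ln11_12_7 ln11_12_7_ok)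 (L (nat_lit 330) ln11_13_7 ln11_13_7_ok))) (M (nat_lit 396) (B (L (nat_lit 428) ln11_9_4 ln11_9_4_ok) (L (nat_lit 364) ln11_15_6 ln11_15_6_ok))))))) (M (nat_lit 331) (B (M (nat_lit 458) (B (L (nat_lit 426) ln11_10_5 ln11_10_5_ok) (L (nat_lit 490) ln11_11_5 ln11_11_5_ok))) (M (nat_lit 299) (B (M (nat_lit 300) (B (L (nat_lit 268) ln11_12_6 ln11_12_6_ok) (L (nat_lit 332) ln11_13_6 ln11_13_6_ok))) (M (nat_lit 298) (B (L (nat_lit 266) ln11_12_7 ln11_12_7_ok) (L (nat_lit 330) ln11_13_7 ln11_13_7_ok)))))))))) (B (M (nat_lit 363) (B (M (nat_lit 362) (B (L (nat_lit 330) ln11_14_7 ln11_14_7_ok) (L (nat_lit 394) ln11_15_7 ln11_15_7_ok))) (M (nat_lit 331) (B (M (nat_lit 332) (B (L (nat_lit 300) ln11_13_6 ln11_13_6_ok) (L (nat_lit 364) ln11_14_6 ln11_14_6_ok))) (M (nat_lit 458) (B (L (nat_lit 426) ln11_10_5 ln11_10_5_ok) (L (nat_lit 490) ln11_11_5 ln11_11_5_ok))))))) (M (nat_lit 363) (B (M (nat_lit 362) (B (L (nat_lit 394) ln11_15_7 ln11_15_7_ok) (L (nat_lit 330) ln11_14_7 ln11_14_7_ok))) (B (M (nat_lit 331) (B (M (nat_lit 458) (B (L (nat_lit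 490) ln11_11_5 ln11_11_5_ok) (L (nat_lit 426) ln11_10_5 ln11_10_5_ok))) (M (nat_lit 330) (B (L (nat_lit 362) ln11_14_7 ln11_14_7_ok) (L (nat_lit 298) ln11_13_7 ln11_13_7_ok))))) (M (nat_lit 458) (B (L (nat_lit 490) ln11_11_5 ln11_11_5_ok) (M (nat_lit 426) (B (L (nat_lit 331) ln11_10_5 ln11_10_5_ok) (M (nat_lit 523) (B (L (nat_lit 555) ln11_17_7 ln11_17_7_ok) (L (nat_lit 394) ln11_16_7 ln11_16_7_ok))))))))))))))))))))
theorem c10_s550 : Sem (nat_lit 31966705162678588987520905039367506193428018504742133969954122741534174532709386050620439884133166955505553889077481828746248538476008148127912558592) (nat_lit 1087770611061603336288267087476101072086283002110856006900200545352575831659087840591941162818867973427243595799849528203046502987503235444255751199240347943158280745591995532997807833088) (nat_lit 1087770611061603336288267087476101072086283002110856006900200545352575831659087840591941162818867973427243595799849528203046502987503235444255751199240347943158280745591995532997807833088) :=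
  sem_of_chk (M (nat_lit 427) (B (K (nat_lit 31966705162678588987867488751132608050875320277760019432883677375956151604605695998197267547608870158385550689840499276008422439846183594606534328320) (nat_lit 1266331655955072354700736160263842181285211028530248843164518301475368613277524597583578364319797226634141325211947189629375970031332434089524021587843856713065950098942815371264) (nat_lit 1266331655955072354700736160263842181285211028530248843164518301475368613277524597583578364319797226634141325211947189629375970031332434089524021587843856713065950098942815371264) c10_s549) (B (M (nat_lit 523) (B (M (nat_lit 395) (B (M (nat_lit 396) (B (L (nat_lit 364) ln11_15_6 ln11_15_6_ok) (L (nat_lit 428) ln11_16_6 ln11_16_6_ok))) (M (nat_lit 522) (B (L (nat_lit 490) ln11_12_5 ln11_12_5_ok) (L (nat_lit 554) ln11_13_5 ln11_13_5_ok))))) (M (nat_lit 555) (B (M (nat_lit 426) (B (L (nat_lit 394) ln11_16_7 ln11_16_7_ok) (L (nat_lit 458) ln11_17_7 ln11_17_7_ok))) (M (nat_lit 556) (B (L (nat_lit 524) ln11_13_4 ln11_13_4_ok) (L (nat_lit 588)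 ln11_14_4 ln11_14_4_ok))))))) (B (M (nat_lit 395) (B (M (nat_lit 364) (B (L (nat_lit 396) ln11_15_6 ln11_15_6_ok) (M (nat_lit 363) (B (L (nat_lit 332) ln11_14_6 ln11_14_6_ok) (M (nat_lit 362) (B (L (nat_lit 394) ln11_15_7 ln11_15_7_ok) (L (nat_lit 330) ln11_14_7 ln11_14_7_ok))))))) (B (M (nat_lit 363) (B (M (nat_lit 490) (B (L (nat_lit 522) ln11_12_5 ln11_12_5_ok) (L (nat_lit 458) ln11_11_5 ln11_11_5_ok))) (M (nat_lit 362) (B (L (nat_lit 394) ln11_15_7 ln11_15_7_ok) (L (nat_lit 330) ln11_14_7 ln11_14_7_ok))))) (B (M (nat_lit 363) (B (M (nat_lit 490) (B (L (nat_lit 522) ln11_12_5 ln11_12_5_ok) (L (nat_lit 458) ln11_11_5 ln11_11_5_ok))) (M (nat_lit 364) (B (L (nat_lit 396) ln11_15_6 ln11_15_6_ok) (L (nat_lit 332) ln11_14_6 ln11_14_6_ok))))) (M (nat_lit 523) (B (M (nat_lit 522) (B (L (nat_lit 554) ln11_13_5 ln11_13_5_ok) (L (nat_lit 490) ln11_12_5 ln11_12_5_ok))) (M (nat_lit 396) (B (L (nat_lit 428) ln11_16_6 ln11_16_6_ok) (L (nat_lit 364) ln11_15_6 ln11_15_6_ok))))))))) (B (M (nat_lit 395) (B (M (nat_lit 363) (B (M (nat_lit 490)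 (B (L (nat_lit 522) ln11_12_5 ln11_12_5_ok) (L (nat_lit 458) ln11_11_5 ln11_11_5_ok))) (M (nat_lit 364) (B (L (nat_lit 396) ln11_15_6 ln11_15_6_ok) (L (nat_lit 332) ln11_14_6 ln11_14_6_ok))))) (B (M (nat_lit 362) (B (L (nat_lit 394) ln11_15_7 ln11_15_7_ok) (M (nat_lit 363) (B (L (nat_lit 330) ln11_14_7 ln11_14_7_ok) (M (nat_lit 364) (B (L (nat_lit 396) ln11_15_6 ln11_15_6_ok) (L (nat_lit 332) ln11_14_6 ln11_14_6_ok))))))) (B (M (nat_lit 363) (B (M (nat_lit 490) (B (L (nat_lit 522) ln11_12_5 ln11_12_5_ok) (L (nat_lit 458) ln11_11_5 ln11_11_5_ok))) (M (nat_lit 362) (B (L (nat_lit 394) ln11_15_7 ln11_15_7_ok) (L (nat_lit 330) ln11_14_7 ln11_14_7_ok))))) (M (nat_lit 523) (B (M (nat_lit 522) (B (L (nat_lit 554) ln11_13_5 ln11_13_5_ok) (L (nat_lit 490) ln11_12_5 ln11_12_5_ok))) (M (nat_lit 394) (B (L (nat_lit 426) ln11_16_7 ln11_16_7_ok) (L (nat_lit 362) ln11_15_7 ln11_15_7_ok))))))))) (B (M (nat_lit 523) (B (M (nat_lit 555) (B (M (nat_lit 426) (B (L (nat_lit 394) ln11_16_7 ln11_16_7_ok) (L (nat_lit 458) ln11_17_7 ln11_17_7_ok)))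 (M (nat_lit 556) (B (L (nat_lit 524) ln11_13_4 ln11_13_4_ok) (L (nat_lit 588) ln11_14_4 ln11_14_4_ok))))) (B (M (nat_lit 554) (B (L (nat_lit 522) ln11_13_5 ln11_13_5_ok) (M (nat_lit 555) (B (L (nat_lit 586) ln11_14_5 ln11_14_5_ok) (M (nat_lit 556) (B (L (nat_lit 524) ln11_13_4 ln11_13_4_ok) (L (nat_lit 588) ln11_14_4 ln11_14_4_ok))))))) (B (M (nat_lit 555) (B (M (nat_lit 426) (B (L (nat_lit 394) ln11_16_7 ln11_16_7_ok) (L (nat_lit 458) ln11_17_7 ln11_17_7_ok))) (M (nat_lit 554) (B (L (nat_lit 522) ln11_13_5 ln11_13_5_ok) (L (nat_lit 586) ln11_14_5 ln11_14_5_ok))))) (M (nat_lit 395) (B (M (nat_lit 394) (B (L (nat_lit 362) ln11_15_7 ln11_15_7_ok) (L (nat_lit 426) ln11_16_7 ln11_16_7_ok))) (M (nat_lit 522) (B (L (nat_lit 490) ln11_12_5 ln11_12_5_ok) (L (nat_lit 554) ln11_13_5 ln11_13_5_ok))))))))) c10_d259)))))) (nat_lit 31966705162678588987520905039367506193428018504742133969954122741534174532709386050620439884133166955505553889077481828746248538476008148127912558592) (nat_lit 1087770611061603336288267087476101072086283002110856006900200545352575831659087840591941162818867973427243595799849528203046502987503235444255751199240347943158280745591995532997807833088)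 (nat_lit 1087770611061603336288267087476101072086283002110856006900200545352575831659087840591941162818867973427243595799849528203046502987503235444255751199240347943158280745591995532997807833088) (by decide +kernel)
theorem c10_s552 : Sem (nat_lit 31966705162678588987520905039367506193428018504742133969954122741534174532709386050620439884133166955505553889077481828746248538476008148127912558592) (nat_lit 1266331655955072354700736160621869279039481485490670749433086632967896314848802606685960216860156501030835595337450651081150203761440336483540113288075090757188290355050057826304) (nat_lit 1266331655955072354700736160621869279039481485490670749433086632967896314848802606685960216860156501030835595337450651081150203761440336483540113288075090757188290355050057826304) :=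
  sem_of_chk (M (nat_lit 460) (B (M (nat_lit 494) (B (L (nat_lit 458) ln10_14_0 ln10_14_0_ok) (M (nat_lit 495) (B (L (nat_lit 496) ln16_15_3 ln16_15_3_ok) (L (nat_lit 462) ln11_14_0 ln11_14_0_ok))))) (B (M (nat_lit 427) (B (M (nat_lit 426) (B (L (nat_lit 462) ln14_14_3 ln14_14_3_ok) (M (nat_lit 425) (B (L (nat_lit 458) ln13_14_3 ln13_14_3_ok) (L (nat_lit 424) ln8_13_0 ln8_13_0_ok))))) (B (M (nat_lit 426) (B (L (nat_lit 462) ln14_14_3 ln14_14_3_ok) (M (nat_lit 425) (B (L (nat_lit 424) ln8_13_0 ln8_13_0_ok) (L (nat_lit 428) ln9_13_0 ln9_13_0_ok))))) (B (M (nat_lit 523) (B (M (nat_lit 428) (B (L (nat_lit 555) ln11_17_6 ln11_17_6_ok) (L (nat_lit 396) ln11_16_6 ln11_16_6_ok))) (B (M (nat_lit 428) (B (L (nat_lit 396) ln11_16_6 ln11_16_6_ok) (M (nat_lit 426) (B (L (nat_lit 394) ln11_16_7 ln11_16_7_ok) (L (nat_lit 425) ln9_13_0 ln9_13_0_ok))))) (M (nat_lit 426) (B (L (nat_lit 394) ln11_16_7 ln11_16_7_ok) (M (nat_lit 458) (B (L (nat_lit 555) ln11_17_7 ln11_17_7_ok) (L (nat_lit 425) ln13_14_3 ln13_14_3_ok)))))))) (B (M (nat_lit 523)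 (B (M (nat_lit 426) (B (L (nat_lit 394) ln11_16_7 ln11_16_7_ok) (L (nat_lit 462) ln14_14_3 ln14_14_3_ok))) (M (nat_lit 428) (B (L (nat_lit 555) ln11_17_6 ln11_17_6_ok) (L (nat_lit 396) ln11_16_6 ln11_16_6_ok))))) (K (nat_lit 31966705165655720402582294574822638367984586850472534446258932150869135460449594522309745441552948702109126254377382564507688704661941322877339959296) (nat_lit 1266331655955072354700736160263842181285211028530075551308635750546663750731693156273012220966807494796088267493795923920781080713113339691838935543204229367130268454273104740352) (nat_lit 1266331655955072354700736160263842181285211028530075551308635750546663750731693156273012220966807494796088267493795923920781080713113339691838935543204229367130268454273104740352) c10_s551)))))) (B (M (nat_lit 427) (B (M (nat_lit 426) (B (L (nat_lit 462) ln14_14_3 ln14_14_3_ok) (M (nat_lit 425) (B (L (nat_lit 424) ln8_13_0 ln8_13_0_ok) (L (nat_lit 428) ln9_13_0 ln9_13_0_ok))))) (B (M (nat_lit 523) (B (M (nat_lit 428) (B (L (nat_lit 555) ln11_17_6 ln11_17_6_ok)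 (L (nat_lit 396) ln11_16_6 ln11_16_6_ok))) (B (M (nat_lit 428) (B (L (nat_lit 396) ln11_16_6 ln11_16_6_ok) (M (nat_lit 426) (B (L (nat_lit 394) ln11_16_7 ln11_16_7_ok) (L (nat_lit 425) ln9_13_0 ln9_13_0_ok))))) (M (nat_lit 555) (B (M (nat_lit 554) (B (L (nat_lit 586) ln11_14_5 ln11_14_5_ok) (L (nat_lit 522) ln11_13_5 ln11_13_5_ok))) (M (nat_lit 556) (B (L (nat_lit 588) ln11_14_4 ln11_14_4_ok) (L (nat_lit 524) ln11_13_4 ln11_13_4_ok)))))))) (B (M (nat_lit 523) (B (M (nat_lit 426) (B (L (nat_lit 394) ln11_16_7 ln11_16_7_ok) (L (nat_lit 462) ln14_14_3 ln14_14_3_ok))) (M (nat_lit 428) (B (L (nat_lit 555) ln11_17_6 ln11_17_6_ok) (L (nat_lit 396) ln11_16_6 ln11_16_6_ok))))) (B (K (nat_lit 31966705165655720402582294574822638367984586850472534446258932150869135460449594522309745441552948702109126254377382564507688704661941322877339959296) (nat_lit 1266331655955072354700736160263842181285211028530075551308635750546663750731693156273012220966807494796088267493795923920781080713113339691838935543204229367130268454273104740352) (nat_lit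 1266331655955072354700736160263842181285211028530075551308635750546663750731693156273012220966807494796088267493795923920781080713113339691838935543204229367130268454273104740352) c10_s551) (M (nat_lit 426) (B (L (nat_lit 462) ln14_14_3 ln14_14_3_ok) (M (nat_lit 394) (B (L (nat_lit 523) ln11_16_7 ln11_16_7_ok) (M (nat_lit 362) (B (L (nat_lit 395) ln11_15_7 ln11_15_7_ok) (L (nat_lit 330) ln10_10_4 ln10_10_4_ok)))))))))))) (M (nat_lit 458) (B (L (nat_lit 494) ln10_14_0 ln10_14_0_ok) (M (nat_lit 426) (B (L (nat_lit 425) ln13_14_3 ln13_14_3_ok) (M (nat_lit 523) (B (L (nat_lit 555) ln11_17_7 ln11_17_7_ok) (M (nat_lit 394) (B (L (nat_lit 427) ln11_16_7 ln11_16_7_ok) (L (nat_lit 362) ln10_11_4 ln10_11_4_ok))))))))))))) (nat_lit 31966705162678588987520905039367506193428018504742133969954122741534174532709386050620439884133166955505553889077481828746248538476008148127912558592) (nat_lit 1266331655955072354700736160621869279039481485490670749433086632967896314848802606685960216860156501030835595337450651081150203761440336483540113288075090757188290355050057826304)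 (nat_lit 1266331655955072354700736160621869279039481485490670749433086632967896314848802606685960216860156501030835595337450651081150203761440336483540113288075090757188290355050057826304) (by decide +kernel)
noncomputable def c10_d260 : Cert := (B (M (nat_lit 432) (B (M (nat_lit 431) (B (L (nat_lit 460) ln12_14_2 ln12_14_2_ok) (M (nat_lit 433) (B (L (nat_lit 434) ln18_13_1_c10 ln18_13_1_c10_ok) (L (nat_lit 464) ln13_14_2 ln13_14_2_ok))))) (B (M (nat_lit 464) (B (L (nat_lit 433) ln13_14_2 ln13_14_2_ok) (M (nat_lit 496) (B (L (nat_lit 497) ln13_14_0 ln13_14_0_ok) (M (nat_lit 460) (B (L (nat_lit 431) ln12_14_2 ln12_14_2_ok) (L (nat_lit 495) ln12_14_0 ln12_14_0_ok))))))) (B (M (nat_lit 495) (B (M (nat_lit 460) (B (L (nat_lit 431) ln12_14_2 ln12_14_2_ok) (L (nat_lit 496) ln12_14_0 ln12_14_0_ok))) (B (M (nat_lit 496) (B (L (nat_lit 460) ln12_14_0 ln12_14_0_ok) (M (nat_lit 464) (B (L (nat_lit 497) ln13_14_0 ln13_14_0_ok) (M (nat_lit 400) (B (L (nat_lit 368) ln16_11_5_c10 ln16_11_5_c10_ok) (L (nat_lit 527) ln16_12_5_c10 ln16_12_5_c10_ok)))))))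 (B (M (nat_lit 400) (B (M (nat_lit 368) (B (L (nat_lit 464) ln16_11_5_c10 ln16_11_5_c10_ok) (M (nat_lit 431) (B (L (nat_lit 399) ln15_15_6 ln15_15_6_ok) (L (nat_lit 527) ln15_16_6 ln15_16_6_ok))))) (B (M (nat_lit 527) (B (L (nat_lit 431) ln15_16_6 ln15_16_6_ok) (M (nat_lit 464) (B (L (nat_lit 496) ln16_12_5_c10 ln16_12_5_c10_ok) (L (nat_lit 559) ln15_17_6 ln15_17_6_ok))))) (B (M (nat_lit 464) (B (L (nat_lit 368) ln16_11_5_c10 ln16_11_5_c10_ok) (M (nat_lit 527) (B (L (nat_lit 496) ln16_12_5_c10 ln16_12_5_c10_ok) (L (nat_lit 559) ln15_17_6 ln15_17_6_ok))))) (B (M (nat_lit 431) (B (L (nat_lit 527) ln15_16_6 ln15_16_6_ok) (M (nat_lit 368) (B (L (nat_lit 336) ln16_10_5 ln16_10_5_ok) (L (nat_lit 399) ln15_15_6 ln15_15_6_ok))))) (M (nat_lit 368) (B (L (nat_lit 464) ln16_11_5_c10 ln16_11_5_c10_ok) (M (nat_lit 431) (B (L (nat_lit 336) ln16_10_5 ln16_10_5_ok) (L (nat_lit 399) ln15_15_6 ln15_15_6_ok)))))))))) (M (nat_lit 431) (B (L (nat_lit 460) ln12_14_2 ln12_14_2_ok) (M (nat_lit 400) (B (L (nat_lit 527) ln15_16_6 ln15_16_6_ok) (M (nat_lit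 368) (B (L (nat_lit 336) ln16_10_5 ln16_10_5_ok) (L (nat_lit 399) ln15_15_6 ln15_15_6_ok))))))))))) (B (M (nat_lit 464) (B (L (nat_lit 433) ln13_14_2 ln13_14_2_ok) (M (nat_lit 496) (B (L (nat_lit 497) ln13_14_0 ln13_14_0_ok) (M (nat_lit 495) (B (L (nat_lit 460) ln12_14_0 ln12_14_0_ok) (M (nat_lit 400) (B (L (nat_lit 368) ln16_11_5_c10 ln16_11_5_c10_ok) (L (nat_lit 527) ln16_12_5_c10 ln16_12_5_c10_ok))))))))) (B (M (nat_lit 366) (B (M (nat_lit 334) (B (L (nat_lit 365) ln13_14_6 ln13_14_6_ok) (M (nat_lit 398) (B (L (nat_lit 302) ln14_9_5 ln14_9_5_ok) (L (nat_lit 493) ln13_15_6 ln13_15_6_ok))))) (B (M (nat_lit 431) (B (L (nat_lit 460) ln12_14_2 ln12_14_2_ok) (M (nat_lit 399) (B (M (nat_lit 334) (B (L (nat_lit 367) ln15_14_7 ln15_14_7_ok) (L (nat_lit 365) ln13_14_6 ln13_14_6_ok))) (M (nat_lit 398) (B (L (nat_lit 495) ln15_15_7 ln15_15_7_ok) (L (nat_lit 493) ln13_15_6 ln13_15_6_ok))))))) (B (M (nat_lit 431) (B (L (nat_lit 460) ln12_14_2 ln12_14_2_ok) (M (nat_lit 398) (B (L (nat_lit 493) ln13_15_6 ln13_15_6_ok) (M (nat_lit 433) (B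 (L (nat_lit 434) ln18_13_1_c10 ln18_13_1_c10_ok) (M (nat_lit 399) (B (L (nat_lit 495) ln15_15_7 ln15_15_7_ok) (L (nat_lit 400) ln13_12_0 ln13_12_0_ok))))))))) (M (nat_lit 368) (B (M (nat_lit 431) (B (L (nat_lit 460) ln12_14_2 ln12_14_2_ok) (M (nat_lit 400) (B (L (nat_lit 336) ln16_10_5 ln16_10_5_ok) (M (nat_lit 495) (B (L (nat_lit 399) ln15_15_6 ln15_15_6_ok) (L (nat_lit 527) ln15_16_6 ln15_16_6_ok))))))) (M (nat_lit 365) (B (L (nat_lit 334) ln13_14_6 ln13_14_6_ok) (M (nat_lit 332) (B (L (nat_lit 364) ln13_14_7 ln13_14_7_ok) (M (nat_lit 333) (B (L (nat_lit 300) ln13_13_7 ln13_13_7_ok) (L (nat_lit 367) ln16_11_3 ln16_11_3_ok))))))))))))) (M (nat_lit 400) (B (M (nat_lit 464) (B (L (nat_lit 433) ln13_14_2 ln13_14_2_ok) (M (nat_lit 496) (B (L (nat_lit 497) ln13_14_0 ln13_14_0_ok) (M (nat_lit 495) (B (L (nat_lit 368) ln16_11_5_c10 ln16_11_5_c10_ok) (L (nat_lit 527) ln16_12_5_c10 ln16_12_5_c10_ok))))))) (B (M (nat_lit 398) (B (M (nat_lit 433) (B (L (nat_lit 399) ln13_12_0 ln13_12_0_ok) (L (nat_lit 464) ln13_14_2 ln13_14_2_ok))) (M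 (nat_lit 366) (B (L (nat_lit 493) ln13_15_6 ln13_15_6_ok) (M (nat_lit 334) (B (L (nat_lit 302) ln14_9_5 ln14_9_5_ok) (L (nat_lit 365) ln13_14_6 ln13_14_6_ok))))))) (B (M (nat_lit 495) (B (M (nat_lit 464) (B (L (nat_lit 368) ln16_11_5_c10 ln16_11_5_c10_ok) (M (nat_lit 527) (B (L (nat_lit 431) ln15_16_6 ln15_16_6_ok) (L (nat_lit 496) ln16_12_5_c10 ln16_12_5_c10_ok))))) (B (M (nat_lit 527) (B (L (nat_lit 431) ln15_16_6 ln15_16_6_ok) (M (nat_lit 464) (B (L (nat_lit 496) ln16_12_5_c10 ln16_12_5_c10_ok) (L (nat_lit 559) ln15_17_6 ln15_17_6_ok))))) (B (M (nat_lit 464) (B (L (nat_lit 368) ln16_11_5_c10 ln16_11_5_c10_ok) (M (nat_lit 527) (B (L (nat_lit 496) ln16_12_5_c10 ln16_12_5_c10_ok) (L (nat_lit 559) ln15_17_6 ln15_17_6_ok))))) (B (M (nat_lit 431) (B (L (nat_lit 527) ln15_16_6 ln15_16_6_ok) (M (nat_lit 368) (B (L (nat_lit 336) ln16_10_5 ln16_10_5_ok) (L (nat_lit 399) ln15_15_6 ln15_15_6_ok))))) (M (nat_lit 368) (B (L (nat_lit 464) ln16_11_5_c10 ln16_11_5_c10_ok) (M (nat_lit 431) (B (L (nat_lit 336) ln16_10_5 ln16_10_5_ok) (L (nat_lit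 399) ln15_15_6 ln15_15_6_ok)))))))))) (M (nat_lit 398) (B (M (nat_lit 366) (B (L (nat_lit 493) ln13_15_6 ln13_15_6_ok) (M (nat_lit 334) (B (L (nat_lit 302) ln14_9_5 ln14_9_5_ok) (L (nat_lit 365) ln13_14_6 ln13_14_6_ok))))) (M (nat_lit 399) (B (L (nat_lit 433) ln13_12_0 ln13_12_0_ok) (M (nat_lit 368) (B (L (nat_lit 369) ln13_12_2 ln13_12_2_ok) (M (nat_lit 431) (B (L (nat_lit 336) ln16_10_5 ln16_10_5_ok) (L (nat_lit 495) ln15_15_6 ln15_15_6_ok))))))))))))))))))) (B (M (nat_lit 460) (B (M (nat_lit 428) (B (L (nat_lit 427) ln15_14_3 ln15_14_3_ok) (M (nat_lit 365) (B (L (nat_lit 333) ln13_10_5 ln13_10_5_ok) (M (nat_lit 366) (B (L (nat_lit 334) ln13_14_6 ln13_14_6_ok) (M (nat_lit 398) (B (L (nat_lit 493) ln13_15_6 ln13_15_6_ok) (M (nat_lit 399) (B (L (nat_lit 400) ln16_12_1 ln16_12_1_ok) (M (nat_lit 431) (B (L (nat_lit 495) ln15_15_7 ln15_15_7_ok) (L (nat_lit 432) ln12_14_2 ln12_14_2_ok))))))))))))) (B (K (nat_lit 44656971222108422202733643421189069256466256948847416645673879349347370591098311482631571920125725820434024785697706806646555606473164980224)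 (nat_lit 11188346806937506146490111450397254264881878364879013410234590679731354339391652237969802426548973861554935943065586822035067394357787081879358275584) (nat_lit 11188346806937506146490111450397254264881878364879013410234590679731354339391652237969802426548973861554935943065586822035067394357787081879358275584) c10_s567) (M (nat_lit 366) (B (M (nat_lit 334) (B (L (nat_lit 365) ln13_14_6 ln13_14_6_ok) (M (nat_lit 398) (B (L (nat_lit 302) ln14_9_5 ln14_9_5_ok) (L (nat_lit 493) ln13_15_6 ln13_15_6_ok))))) (B (M (nat_lit 431) (B (L (nat_lit 432) ln12_14_2 ln12_14_2_ok) (M (nat_lit 398) (B (L (nat_lit 493) ln13_15_6 ln13_15_6_ok) (M (nat_lit 495) (B (L (nat_lit 399) ln15_15_7 ln15_15_7_ok) (L (nat_lit 496) ln12_14_0 ln12_14_0_ok))))))) (M (nat_lit 367) (B (M (nat_lit 334) (B (L (nat_lit 365) ln13_14_6 ln13_14_6_ok) (M (nat_lit 431) (B (L (nat_lit 399) ln15_14_7 ln15_14_7_ok) (L (nat_lit 432) ln12_14_2 ln12_14_2_ok))))) (B (M (nat_lit 368) (B (M (nat_lit 431) (B (L (nat_lit 432) ln12_14_2 ln12_14_2_ok) (M (nat_lit 399) (B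 (L (nat_lit 336) ln15_14_6 ln15_14_6_ok) (M (nat_lit 495) (B (L (nat_lit 400) ln15_15_6 ln15_15_6_ok) (L (nat_lit 496) ln12_14_0 ln12_14_0_ok))))))) (B (M (nat_lit 400) (B (M (nat_lit 365) (B (L (nat_lit 401) ln13_11_0 ln13_11_0_ok) (M (nat_lit 332) (B (L (nat_lit 333) ln16_11_3 ln16_11_3_ok) (L (nat_lit 364) ln13_14_7 ln13_14_7_ok))))) (B (M (nat_lit 365) (B (L (nat_lit 401) ln13_11_0 ln13_11_0_ok) (M (nat_lit 364) (B (L (nat_lit 332) ln13_14_7 ln13_14_7_ok) (L (nat_lit 399) ln12_11_0 ln12_11_0_ok))))) (M (nat_lit 431) (B (L (nat_lit 432) ln12_14_2 ln12_14_2_ok) (M (nat_lit 495) (B (L (nat_lit 399) ln15_15_6 ln15_15_6_ok) (L (nat_lit 496) ln12_14_0 ln12_14_0_ok)))))))) (B (M (nat_lit 365) (B (M (nat_lit 332) (B (L (nat_lit 333) ln16_11_3 ln16_11_3_ok) (L (nat_lit 364) ln13_14_7 ln13_14_7_ok))) (M (nat_lit 336) (B (L (nat_lit 337) ln13_11_2 ln13_11_2_ok) (M (nat_lit 431) (B (L (nat_lit 399) ln15_14_6 ln15_14_6_ok) (L (nat_lit 432) ln12_14_2 ln12_14_2_ok))))))) (M (nat_lit 365) (B (M (nat_lit 332) (B (L (nat_lit 333) ln16_11_3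 ln16_11_3_ok) (L (nat_lit 364) ln13_14_7 ln13_14_7_ok))) (M (nat_lit 369) (B (M (nat_lit 337) (B (L (nat_lit 338) ln14_11_2 ln14_11_2_ok) (L (nat_lit 336) ln13_11_2 ln13_11_2_ok))) (M (nat_lit 401) (B (L (nat_lit 402) ln14_11_0 ln14_11_0_ok) (L (nat_lit 400) ln13_11_0 ln13_11_0_ok))))))))))) (B (M (nat_lit 431) (B (L (nat_lit 432) ln12_14_2 ln12_14_2_ok) (M (nat_lit 399) (B (L (nat_lit 334) ln15_14_7 ln15_14_7_ok) (M (nat_lit 368) (B (L (nat_lit 336) ln15_14_6 ln15_14_6_ok) (M (nat_lit 495) (B (L (nat_lit 400) ln15_15_6 ln15_15_6_ok) (L (nat_lit 496) ln12_14_0 ln12_14_0_ok))))))))) (M (nat_lit 365) (B (L (nat_lit 334) ln13_14_6 ln13_14_6_ok) (M (nat_lit 332) (B (L (nat_lit 364) ln13_14_7 ln13_14_7_ok) (M (nat_lit 333) (B (L (nat_lit 300) ln13_13_7 ln13_13_7_ok) (L (nat_lit 368) ln16_11_3 ln16_11_3_ok))))))))))))))))) (M (nat_lit 464) (B (L (nat_lit 428) ln16_14_3 ln16_14_3_ok) (M (nat_lit 465) (B (M (nat_lit 433) (B (L (nat_lit 434) ln14_14_2 ln14_14_2_ok) (L (nat_lit 432) ln13_14_2 ln13_14_2_ok))) (M (nat_lit 497) (B (L (nat_lit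 498) ln14_14_0_c10 ln14_14_0_c10_ok) (L (nat_lit 496) ln13_14_0 ln13_14_0_ok)))))))))
theorem c10_s568 : Sem (nat_lit 5954262830815946494763249298768603811203561774969104571805089223376689777636098861358550851719243481454542035207245364041705138952691777536) (nat_lit 2830471819275176591176014755191888994073894825616656053780980988841853034100692336439785599714479908500567362291629210467646400696580027664453189457674016694625827291136) (nat_lit 2830471819275176591176014755191888994073894825616656053780980988841853034100692336439785599714479908500567362291629210467646400696580027664453189457674016694625827291136) :=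
  sem_of_chk (M (nat_lit 462) (B (M (nat_lit 494) (B (L (nat_lit 365) ln13_11_4 ln13_11_4_ok) (M (nat_lit 526) (B (L (nat_lit 493) ln13_12_4 ln13_12_4_ok) (L (nat_lit 558) ln14_17_7 ln14_17_7_ok))))) (B (M (nat_lit 463) (B (M (nat_lit 428) (B (L (nat_lit 464) ln16_14_3 ln16_14_3_ok) (M (nat_lit 427) (B (L (nat_lit 426) ln10_13_0 ln10_13_0_ok) (L (nat_lit 460) ln15_14_3 ln15_14_3_ok))))) (B (M (nat_lit 494) (B (M (nat_lit 526) (B (L (nat_lit 493) ln13_12_4 ln13_12_4_ok) (L (nat_lit 558) ln14_17_7 ln14_17_7_ok))) (B (M (nat_lit 431) (B (M (nat_lit 432) (B (L (nat_lit 460) ln12_14_2 ln12_14_2_ok) (M (nat_lit 433) (B (L (nat_lit 434) ln18_13_1_c10 ln18_13_1_c10_ok) (L (nat_lit 464) ln13_14_2 ln13_14_2_ok))))) (M (nat_lit 526) (B (L (nat_lit 558) ln14_17_6_c10 ln14_17_6_c10_ok) (M (nat_lit 399) (B (L (nat_lit 367) ln15_11_5 ln15_11_5_ok) (L (nat_lit 495) ln15_12_5 ln15_12_5_ok))))))) (M (nat_lit 464) (B (M (nat_lit 465) (B (L (nat_lit 493) ln17_14_1 ln17_14_1_ok) (M (nat_lit 497) (B (L (nat_lit 498) ln14_14_0_c10 ln14_14_0_c10_ok)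 (L (nat_lit 496) ln13_14_0 ln13_14_0_ok))))) (B (M (nat_lit 460) (B (M (nat_lit 432) (B (L (nat_lit 433) ln13_14_2 ln13_14_2_ok) (L (nat_lit 431) ln12_14_2 ln12_14_2_ok))) (M (nat_lit 496) (B (L (nat_lit 497) ln13_14_0 ln13_14_0_ok) (L (nat_lit 495) ln12_14_0 ln12_14_0_ok))))) (M (nat_lit 433) (B (L (nat_lit 432) ln13_14_2 ln13_14_2_ok) (M (nat_lit 465) (B (L (nat_lit 434) ln14_14_2 ln14_14_2_ok) (L (nat_lit 493) ln17_14_1 ln17_14_1_ok))))))))))) (B (M (nat_lit 460) (B (M (nat_lit 427) (B (L (nat_lit 428) ln15_14_3 ln15_14_3_ok) (M (nat_lit 459) (B (L (nat_lit 426) ln14_14_3 ln14_14_3_ok) (M (nat_lit 495) (B (L (nat_lit 496) ln12_14_0 ln12_14_0_ok) (L (nat_lit 494) ln11_14_0 ln11_14_0_ok))))))) (B (M (nat_lit 494) (B (M (nat_lit 526) (B (L (nat_lit 493) ln13_12_4 ln13_12_4_ok) (L (nat_lit 558) ln14_17_7 ln14_17_7_ok))) (M (nat_lit 495) (B (L (nat_lit 496) ln12_14_0 ln12_14_0_ok) (L (nat_lit 459) ln11_14_0 ln11_14_0_ok))))) (B (M (nat_lit 431) (B (L (nat_lit 432) ln12_14_2 ln12_14_2_ok) (M (nat_lit 399) (B (M (nat_lit 494) (B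 (L (nat_lit 367) ln15_11_5 ln15_11_5_ok) (M (nat_lit 495) (B (L (nat_lit 526) ln15_12_5 ln15_12_5_ok) (L (nat_lit 496) ln12_14_0 ln12_14_0_ok))))) (B (M (nat_lit 398) (B (M (nat_lit 495) (B (L (nat_lit 366) ln15_15_7 ln15_15_7_ok) (L (nat_lit 496) ln12_14_0 ln12_14_0_ok))) (M (nat_lit 428) (B (L (nat_lit 400) ln16_12_1 ln16_12_1_ok) (L (nat_lit 427) ln15_14_3 ln15_14_3_ok))))) (B (M (nat_lit 494) (B (L (nat_lit 367) ln15_11_5 ln15_11_5_ok) (M (nat_lit 526) (B (L (nat_lit 495) ln15_12_5 ln15_12_5_ok) (L (nat_lit 493) ln13_12_4 ln13_12_4_ok))))) (M (nat_lit 494) (B (L (nat_lit 367) ln15_11_5 ln15_11_5_ok) (M (nat_lit 526) (B (L (nat_lit 493) ln13_12_4 ln13_12_4_ok) (L (nat_lit 558) ln14_17_6_c10 ln14_17_6_c10_ok))))))))))) (B (M (nat_lit 427) (B (L (nat_lit 428) ln15_14_3 ln15_14_3_ok) (M (nat_lit 494) (B (M (nat_lit 526) (B (L (nat_lit 493) ln13_12_4 ln13_12_4_ok) (L (nat_lit 558) ln14_17_7 ln14_17_7_ok))) (M (nat_lit 459) (B (L (nat_lit 426) ln14_14_3 ln14_14_3_ok) (L (nat_lit 495) ln11_14_0 ln11_14_0_ok))))))) (K (nat_lit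 44656971222108422202733643421189069256466256948847416645673879349347370591098311482631571920125725820434024785697706806646555606473164980224) (nat_lit 11188346806937506146490111450397254264881878364879013410234590679731354339391652237969802426548973861554935943065586822035067394357787081879358275584) (nat_lit 11188346806937506146490111450397254264881878364879013410234590679731354339391652237969802426548973861554935943065586822035067394357787081879358275584) c10_s567)))))) (M (nat_lit 464) (B (L (nat_lit 428) ln16_14_3 ln16_14_3_ok) (M (nat_lit 465) (B (M (nat_lit 433) (B (L (nat_lit 434) ln14_14_2 ln14_14_2_ok) (L (nat_lit 432) ln13_14_2 ln13_14_2_ok))) (M (nat_lit 497) (B (L (nat_lit 498) ln14_14_0_c10 ln14_14_0_c10_ok) (L (nat_lit 496) ln13_14_0 ln13_14_0_ok))))))))))) (B (M (nat_lit 463) (B (M (nat_lit 428) (B (L (nat_lit 464) ln16_14_3 ln16_14_3_ok) (M (nat_lit 427) (B (L (nat_lit 426) ln10_13_0 ln10_13_0_ok) (L (nat_lit 460) ln15_14_3 ln15_14_3_ok))))) c10_d260)) (M (nat_lit 365) (B (L (nat_lit 494) ln13_11_4 ln13_11_4_ok)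 (M (nat_lit 333) (B (M (nat_lit 334) (B (L (nat_lit 302) ln13_13_6 ln13_13_6_ok) (L (nat_lit 366) ln13_14_6 ln13_14_6_ok))) (M (nat_lit 332) (B (L (nat_lit 300) ln13_13_7 ln13_13_7_ok) (L (nat_lit 364) ln13_14_7 ln13_14_7_ok))))))))))) (nat_lit 5954262830815946494763249298768603811203561774969104571805089223376689777636098861358550851719243481454542035207245364041705138952691777536) (nat_lit 2830471819275176591176014755191888994073894825616656053780980988841853034100692336439785599714479908500567362291629210467646400696580027664453189457674016694625827291136) (nat_lit 2830471819275176591176014755191888994073894825616656053780980988841853034100692336439785599714479908500567362291629210467646400696580027664453189457674016694625827291136) (by decide +kernel)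
noncomputable def c10_d261 : Cert := (B (M (nat_lit 493) (B (L (nat_lit 366) ln13_15_6 ln13_15_6_ok) (M (nat_lit 525) (B (M (nat_lit 396) (B (L (nat_lit 364) ln13_15_7 ln13_15_7_ok) (L (nat_lit 428) ln13_16_7 ln13_16_7_ok))) (M (nat_lit 526) (B (L (nat_lit 494) ln13_12_4 ln13_12_4_ok) (L (nat_lit 558) ln13_13_4 ln13_13_4_ok))))))) (B (M (nat_lit 396) (B (M (nat_lit 364) (B (L (nat_lit 493) ln13_15_7 ln13_15_7_ok) (M (nat_lit 332) (B (L (nat_lit 300) ln12_9_4 ln12_9_4_ok) (L (nat_lit 365) ln13_14_7 ln13_14_7_ok))))) (B (M (nat_lit 364) (B (L (nat_lit 493) ln13_15_7 ln13_15_7_ok) (M (nat_lit 332) (B (L (nat_lit 365) ln13_14_7 ln13_14_7_ok) (L (nat_lit 428) ln12_10_4 ln12_10_4_ok))))) (B (M (nat_lit 399) (B (M (nat_lit 364) (B (L (nat_lit 363) ln15_12_3 ln15_12_3_ok) (L (nat_lit 493) ln13_15_7 ln13_15_7_ok))) (M (nat_lit 428) (B (L (nat_lit 400) ln16_12_1 ln16_12_1_ok) (L (nat_lit 427) ln15_12_1 ln15_12_1_ok))))) (B (M (nat_lit 428) (B (M (nat_lit 427) (B (L (nat_lit 399) ln15_12_1 ln15_12_1_ok) (L (nat_lit 426) ln10_13_2 ln10_13_2_ok)))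 (M (nat_lit 365) (B (M (nat_lit 333) (B (L (nat_lit 301) ln13_9_5 ln13_9_5_ok) (L (nat_lit 460) ln13_10_5 ln13_10_5_ok))) (M (nat_lit 494) (B (L (nat_lit 462) ln13_11_4 ln13_11_4_ok) (M (nat_lit 493) (B (L (nat_lit 526) ln13_12_4 ln13_12_4_ok) (L (nat_lit 525) ln13_16_7 ln13_16_7_ok))))))))) (M (nat_lit 399) (B (M (nat_lit 428) (B (L (nat_lit 400) ln16_12_1 ln16_12_1_ok) (L (nat_lit 427) ln15_12_1 ln15_12_1_ok))) (B (M (nat_lit 364) (B (L (nat_lit 363) ln15_12_3 ln15_12_3_ok) (M (nat_lit 428) (B (L (nat_lit 332) ln12_10_4 ln12_10_4_ok) (L (nat_lit 427) ln15_12_1 ln15_12_1_ok))))) (M (nat_lit 364) (B (L (nat_lit 363) ln15_12_3 ln15_12_3_ok) (M (nat_lit 332) (B (L (nat_lit 300) ln12_9_4 ln12_9_4_ok) (L (nat_lit 365) ln13_14_7 ln13_14_7_ok))))))))))))) (B (M (nat_lit 428) (B (M (nat_lit 427) (B (L (nat_lit 426) ln10_13_2 ln10_13_2_ok) (M (nat_lit 399) (B (L (nat_lit 400) ln16_12_1 ln16_12_1_ok) (L (nat_lit 396) ln15_12_1 ln15_12_1_ok))))) (B (M (nat_lit 396) (B (M (nat_lit 427) (B (L (nat_lit 399) ln15_12_1 ln15_12_1_ok) (L (nat_lit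 426) ln10_13_2 ln10_13_2_ok))) (M (nat_lit 493) (B (L (nat_lit 366) ln13_15_6 ln13_15_6_ok) (L (nat_lit 525) ln13_16_7 ln13_16_7_ok))))) (B (M (nat_lit 493) (B (L (nat_lit 366) ln13_15_6 ln13_15_6_ok) (M (nat_lit 525) (B (L (nat_lit 396) ln13_16_7 ln13_16_7_ok) (M (nat_lit 526) (B (L (nat_lit 494) ln13_12_4 ln13_12_4_ok) (L (nat_lit 558) ln13_13_4 ln13_13_4_ok))))))) (M (nat_lit 462) (B (M (nat_lit 493) (B (L (nat_lit 366) ln13_15_6 ln13_15_6_ok) (M (nat_lit 494) (B (L (nat_lit 365) ln13_11_4 ln13_11_4_ok) (L (nat_lit 526) ln13_12_4 ln13_12_4_ok))))) (M (nat_lit 427) (B (L (nat_lit 426) ln10_13_0 ln10_13_0_ok) (M (nat_lit 463) (B (L (nat_lit 464) ln16_14_3 ln16_14_3_ok) (L (nat_lit 460) ln15_14_3 ln15_14_3_ok))))))))))) (B (M (nat_lit 399) (B (M (nat_lit 400) (B (L (nat_lit 428) ln16_12_1 ln16_12_1_ok) (M (nat_lit 365) (B (L (nat_lit 364) ln16_12_3 ln16_12_3_ok) (M (nat_lit 366) (B (L (nat_lit 401) ln17_12_3 ln17_12_3_ok) (L (nat_lit 493) ln13_15_6 ln13_15_6_ok))))))) (B (M (nat_lit 400) (B (L (nat_lit 428) ln16_12_1 ln16_12_1_ok)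 (M (nat_lit 369) (B (L (nat_lit 368) ln13_12_2 ln13_12_2_ok) (M (nat_lit 433) (B (L (nat_lit 432) ln13_12_0 ln13_12_0_ok) (M (nat_lit 401) (B (L (nat_lit 370) ln14_12_2 ln14_12_2_ok) (L (nat_lit 434) ln14_12_0 ln14_12_0_ok))))))))) (B (M (nat_lit 365) (B (M (nat_lit 364) (B (L (nat_lit 332) ln13_14_7 ln13_14_7_ok) (L (nat_lit 400) ln16_12_3 ln16_12_3_ok))) (M (nat_lit 494) (B (L (nat_lit 462) ln13_11_4 ln13_11_4_ok) (M (nat_lit 493) (B (L (nat_lit 366) ln13_15_6 ln13_15_6_ok) (L (nat_lit 526) ln13_12_4 ln13_12_4_ok))))))) (M (nat_lit 494) (B (M (nat_lit 493) (B (L (nat_lit 366) ln13_15_6 ln13_15_6_ok) (L (nat_lit 526) ln13_12_4 ln13_12_4_ok))) (B (M (nat_lit 462) (B (L (nat_lit 365) ln13_11_4 ln13_11_4_ok) (M (nat_lit 526) (B (L (nat_lit 493) ln13_12_4 ln13_12_4_ok) (L (nat_lit 558) ln14_17_7 ln14_17_7_ok))))) (M (nat_lit 365) (B (L (nat_lit 462) ln13_11_4 ln13_11_4_ok) (M (nat_lit 364) (B (L (nat_lit 332) ln13_14_7 ln13_14_7_ok) (M (nat_lit 363) (B (L (nat_lit 366) ln11_11_0 ln11_11_0_ok) (L (nat_lit 362) ln10_11_0 ln10_11_0_ok))))))))))))))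 (B (M (nat_lit 493) (B (L (nat_lit 366) ln13_15_6 ln13_15_6_ok) (M (nat_lit 396) (B (L (nat_lit 364) ln13_15_7 ln13_15_7_ok) (M (nat_lit 428) (B (L (nat_lit 525) ln13_16_7 ln13_16_7_ok) (M (nat_lit 399) (B (L (nat_lit 400) ln16_12_1 ln16_12_1_ok) (L (nat_lit 427) ln15_12_1 ln15_12_1_ok))))))))) (M (nat_lit 399) (B (M (nat_lit 428) (B (L (nat_lit 400) ln16_12_1 ln16_12_1_ok) (M (nat_lit 427) (B (L (nat_lit 396) ln15_12_1 ln15_12_1_ok) (L (nat_lit 426) ln10_13_2 ln10_13_2_ok))))) (B (K (nat_lit 5954262830815946496699936707333785253445501153971363477552368567998607412259093378764036568231874377426776050167348737618632517932252397568) (nat_lit 1213042991419942428254110155251935162003248395464544103654119899588544073020890276839102243047283748373139803416773940398914535424) (nat_lit 1213042991419942428254110155251935162003248395464544103654119899588544073020890276839102243047283748373139803416773940398914535424) c10_s569) (B (M (nat_lit 400) (B (L (nat_lit 428) ln16_12_1 ln16_12_1_ok) (M (nat_lit 401) (B (M (nat_lit 369) (B (L (nat_lit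 370) ln14_12_2 ln14_12_2_ok) (L (nat_lit 368) ln13_12_2 ln13_12_2_ok))) (M (nat_lit 365) (B (L (nat_lit 366) ln17_12_3 ln17_12_3_ok) (L (nat_lit 364) ln16_12_3 ln16_12_3_ok))))))) (M (nat_lit 396) (B (M (nat_lit 364) (B (L (nat_lit 363) ln15_12_3 ln15_12_3_ok) (M (nat_lit 332) (B (L (nat_lit 300) ln12_9_4 ln12_9_4_ok) (L (nat_lit 365) ln13_14_7 ln13_14_7_ok))))) (B (M (nat_lit 364) (B (L (nat_lit 363) ln15_12_3 ln15_12_3_ok) (M (nat_lit 365) (B (L (nat_lit 332) ln13_14_7 ln13_14_7_ok) (L (nat_lit 400) ln16_12_3 ln16_12_3_ok))))) (B (M (nat_lit 400) (B (M (nat_lit 368) (B (L (nat_lit 369) ln13_12_2 ln13_12_2_ok) (L (nat_lit 367) ln12_12_2 ln12_12_2_ok))) (M (nat_lit 364) (B (L (nat_lit 365) ln16_12_3 ln16_12_3_ok) (L (nat_lit 363) ln15_12_3 ln15_12_3_ok))))) (M (nat_lit 400) (B (M (nat_lit 368) (B (L (nat_lit 369) ln13_12_2 ln13_12_2_ok) (L (nat_lit 367) ln12_12_2 ln12_12_2_ok))) (M (nat_lit 432) (B (L (nat_lit 433) ln13_12_0 ln13_12_0_ok) (L (nat_lit 431) ln12_12_0 ln12_12_0_ok))))))))))))))))))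
theorem c10_s570 : Sem (nat_lit 5954262830815946494763249298768603811203561774969104571805089223376689777636098861358550851719243481454542035207245364041705138952691777536) (nat_lit 943490606534895625823378004025101097274693815764178561089291470935698564697583051701413941485884083752273869051284260521577722005087893363672139776708803820481373274112) (nat_lit 943490606534895625823378004025101097274693815764178561089291470935698564697583051701413941485884083752273869051284260521577722005087893363672139776708803820481373274112) :=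
  sem_of_chk (M (nat_lit 398) (B (M (nat_lit 493) (B (L (nat_lit 366) ln13_15_6 ln13_15_6_ok) (M (nat_lit 494) (B (L (nat_lit 526) ln13_12_4 ln13_12_4_ok) (M (nat_lit 365) (B (L (nat_lit 462) ln13_11_4 ln13_11_4_ok) (M (nat_lit 364) (B (L (nat_lit 332) ln13_14_7 ln13_14_7_ok) (L (nat_lit 396) ln13_15_7 ln13_15_7_ok))))))))) c10_d261)) (nat_lit 5954262830815946494763249298768603811203561774969104571805089223376689777636098861358550851719243481454542035207245364041705138952691777536) (nat_lit 943490606534895625823378004025101097274693815764178561089291470935698564697583051701413941485884083752273869051284260521577722005087893363672139776708803820481373274112) (nat_lit 943490606534895625823378004025101097274693815764178561089291470935698564697583051701413941485884083752273869051284260521577722005087893363672139776708803820481373274112) (by decide +kernel)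

end Vale.Agent.Lib.P062.Data
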